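import Vale.Agent.Lib.P154.PChain.BV.L

set_option linter.all false

namespace Vale.Agent.Lib.P154.PChain.BV.S0

open Vale.Agent.Lib.P154.Chain

noncomputable def pc0 : PT := (PT.nd (nat_lit 3042000) (PT.nd (nat_lit 2948166) (PT.nd (nat_lit 2854488) (PT.nd (nat_lit 2823210) (PT.nd (nat_lit 2792010) (PT.nd (nat_lit 2791932) PT.nil (PT.lf (nat_lit 76) (nat_lit 6) (nat_lit 1) (nat_lit 3) (nat_lit 105) (nat_lit 89) (nat_lit 106))) (PT.nd (nat_lit 31122) (PT.lf (nat_lit 76) (nat_lit 6) (nat_lit 1) (nat_lit 1) (nat_lit 106) (nat_lit 89) (nat_lit 105)) (PT.lf (nat_lit 152) (nat_lit 6) (nat_lit 2) (nat_lit 3) (nat_lit 104) (nat_lit 90) (nat_lit 106)))) (PT.nd (nat_lit 78) (PT.lf (nat_lit 228) (nat_lit 3) (nat_lit 3) (nat_lit 1) (nat_lit 105) (nat_lit 90) (nat_lit 105)) (PT.nd (nat_lit 31122) (PT.lf (nat_lit 152) (nat_lit 6) (nat_lit 2) (nat_lit 1) (nat_lit 106) (nat_lit 90) (nat_lit 104))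 (PT.lf (nat_lit 304) (nat_lit 6) (nat_lit 4) (nat_lit 3) (nat_lit 104) (nat_lit 91) (nat_lit 105))))) (PT.nd (nat_lit 31278) (PT.nd (nat_lit 31122) (PT.lf (nat_lit 304) (nat_lit 6) (nat_lit 4) (nat_lit 1) (nat_lit 105) (nat_lit 91) (nat_lit 104)) (PT.nd (nat_lit 78) (PT.lf (nat_lit 380) (nat_lit 6) (nat_lit 5) (nat_lit 3) (nat_lit 103) (nat_lit 92) (nat_lit 105)) (PT.lf (nat_lit 456) (nat_lit 3) (nat_lit 6) (nat_lit 1) (nat_lit 104) (nat_lit 92) (nat_lit 104)))) (PT.nd (nat_lit 31200) (PT.nd (nat_lit 31122) (PT.lf (nat_lit 380) (nat_lit 6) (nat_lit 5) (nat_lit 1) (nat_lit 105) (nat_lit 92) (nat_lit 103)) (PT.lf (nat_lit 532) (nat_lit 6) (nat_lit 7) (nat_lit 3) (nat_lit 103) (nat_lit 93) (nat_lit 104))) (PT.nd (nat_lit 31122) (PT.lf (nat_lit 532) (nat_lit 6) (nat_lit 7) (nat_lit 1) (nat_lit 104) (nat_lit 93) (nat_lit 103)) (PT.lf (nat_lit 608) (nat_lit 6) (nat_lit 8) (nat_lit 3) (nat_lit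 102) (nat_lit 94) (nat_lit 104)))))) (PT.nd (nat_lit 62400) (PT.nd (nat_lit 31200) (PT.nd (nat_lit 78) (PT.lf (nat_lit 684) (nat_lit 3) (nat_lit 9) (nat_lit 1) (nat_lit 103) (nat_lit 94) (nat_lit 103)) (PT.nd (nat_lit 31044) (PT.lf (nat_lit 608) (nat_lit 6) (nat_lit 8) (nat_lit 1) (nat_lit 104) (nat_lit 94) (nat_lit 102)) (PT.lf (nat_lit 760) (nat_lit 6) (nat_lit 10) (nat_lit 3) (nat_lit 101) (nat_lit 95) (nat_lit 104)))) (PT.nd (nat_lit 156) (PT.nd (nat_lit 78) (PT.lf (nat_lit 836) (nat_lit 6) (nat_lit 11) (nat_lit 3) (nat_lit 102) (nat_lit 95) (nat_lit 103)) (PT.lf (nat_lit 836) (nat_lit 6) (nat_lit 11) (nat_lit 1) (nat_lit 103) (nat_lit 95) (nat_lit 102))) (PT.nd (nat_lit 30966) (PT.lf (nat_lit 760) (nat_lit 6) (nat_lit 10) (nat_lit 1) (nat_lit 104) (nat_lit 95) (nat_lit 101)) (PT.lf (nat_lit 912) (nat_lit 6) (nat_lit 12) (nat_lit 3) (nat_lit 100) (nat_lit 96) (nat_lit 104)))))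 (PT.nd (nat_lit 234) (PT.nd (nat_lit 78) (PT.lf (nat_lit 988) (nat_lit 6) (nat_lit 13) (nat_lit 3) (nat_lit 101) (nat_lit 96) (nat_lit 103)) (PT.nd (nat_lit 78) (PT.lf (nat_lit 1064) (nat_lit 3) (nat_lit 14) (nat_lit 1) (nat_lit 102) (nat_lit 96) (nat_lit 102)) (PT.lf (nat_lit 988) (nat_lit 6) (nat_lit 13) (nat_lit 1) (nat_lit 103) (nat_lit 96) (nat_lit 101)))) (PT.nd (nat_lit 31044) (PT.nd (nat_lit 30966) (PT.lf (nat_lit 912) (nat_lit 6) (nat_lit 12) (nat_lit 1) (nat_lit 104) (nat_lit 96) (nat_lit 100)) (PT.lf (nat_lit 1216) (nat_lit 6) (nat_lit 16) (nat_lit 3) (nat_lit 100) (nat_lit 97) (nat_lit 103))) (PT.nd (nat_lit 78) (PT.lf (nat_lit 1292) (nat_lit 6) (nat_lit 17) (nat_lit 3) (nat_lit 101) (nat_lit 97) (nat_lit 102)) (PT.lf (nat_lit 1292) (nat_lit 6) (nat_lit 17) (nat_lit 1) (nat_lit 102) (nat_lit 97) (nat_lit 101))))))) (PT.nd (nat_lit 93366) (PT.nd (nat_lit 62166) (PT.nd (nat_lit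 31122) (PT.nd (nat_lit 30966) (PT.lf (nat_lit 1216) (nat_lit 6) (nat_lit 16) (nat_lit 1) (nat_lit 103) (nat_lit 97) (nat_lit 100)) (PT.nd (nat_lit 78) (PT.lf (nat_lit 1140) (nat_lit 6) (nat_lit 15) (nat_lit 3) (nat_lit 99) (nat_lit 98) (nat_lit 103)) (PT.lf (nat_lit 1444) (nat_lit 6) (nat_lit 19) (nat_lit 3) (nat_lit 100) (nat_lit 98) (nat_lit 102)))) (PT.nd (nat_lit 78) (PT.lf (nat_lit 1520) (nat_lit 3) (nat_lit 20) (nat_lit 1) (nat_lit 101) (nat_lit 98) (nat_lit 101)) (PT.nd (nat_lit 78) (PT.lf (nat_lit 1444) (nat_lit 6) (nat_lit 19) (nat_lit 1) (nat_lit 102) (nat_lit 98) (nat_lit 100)) (PT.lf (nat_lit 1140) (nat_lit 6) (nat_lit 15) (nat_lit 1) (nat_lit 103) (nat_lit 98) (nat_lit 99))))) (PT.nd (nat_lit 234) (PT.nd (nat_lit 78) (PT.lf (nat_lit 1140) (nat_lit 6) (nat_lit 15) (nat_lit 5) (nat_lit 98) (nat_lit 99) (nat_lit 103)) (PT.nd (nat_lit 78) (PT.lf (nat_lit 1368) (nat_lit 3)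 (nat_lit 18) (nat_lit 3) (nat_lit 99) (nat_lit 99) (nat_lit 102)) (PT.lf (nat_lit 1596) (nat_lit 6) (nat_lit 21) (nat_lit 3) (nat_lit 100) (nat_lit 99) (nat_lit 101)))) (PT.nd (nat_lit 156) (PT.nd (nat_lit 78) (PT.lf (nat_lit 1596) (nat_lit 6) (nat_lit 21) (nat_lit 1) (nat_lit 101) (nat_lit 99) (nat_lit 100)) (PT.lf (nat_lit 1368) (nat_lit 3) (nat_lit 18) (nat_lit 0) (nat_lit 102) (nat_lit 99) (nat_lit 99))) (PT.nd (nat_lit 30732) (PT.lf (nat_lit 1140) (nat_lit 6) (nat_lit 15) (nat_lit 0) (nat_lit 103) (nat_lit 99) (nat_lit 98)) (PT.lf (nat_lit 912) (nat_lit 6) (nat_lit 12) (nat_lit 5) (nat_lit 96) (nat_lit 100) (nat_lit 104)))))) (PT.nd (nat_lit 546) (PT.nd (nat_lit 234) (PT.nd (nat_lit 78) (PT.lf (nat_lit 1216) (nat_lit 6) (nat_lit 16) (nat_lit 5) (nat_lit 97) (nat_lit 100) (nat_lit 103)) (PT.nd (nat_lit 78) (PT.lf (nat_lit 1444) (nat_lit 6) (nat_lit 19) (nat_lit 5) (nat_lit 98)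 (nat_lit 100) (nat_lit 102)) (PT.lf (nat_lit 1596) (nat_lit 6) (nat_lit 21) (nat_lit 5) (nat_lit 99) (nat_lit 100) (nat_lit 101)))) (PT.nd (nat_lit 156) (PT.nd (nat_lit 78) (PT.lf (nat_lit 1672) (nat_lit 1) (nat_lit 22) (nat_lit 0) (nat_lit 100) (nat_lit 100) (nat_lit 100)) (PT.lf (nat_lit 1596) (nat_lit 6) (nat_lit 21) (nat_lit 0) (nat_lit 101) (nat_lit 100) (nat_lit 99))) (PT.nd (nat_lit 78) (PT.lf (nat_lit 1444) (nat_lit 6) (nat_lit 19) (nat_lit 0) (nat_lit 102) (nat_lit 100) (nat_lit 98)) (PT.lf (nat_lit 1216) (nat_lit 6) (nat_lit 16) (nat_lit 0) (nat_lit 103) (nat_lit 100) (nat_lit 97))))) (PT.nd (nat_lit 30732) (PT.nd (nat_lit 30576) (PT.lf (nat_lit 912) (nat_lit 6) (nat_lit 12) (nat_lit 0) (nat_lit 104) (nat_lit 100) (nat_lit 96)) (PT.nd (nat_lit 78) (PT.lf (nat_lit 760) (nat_lit 6) (nat_lit 10) (nat_lit 5) (nat_lit 95) (nat_lit 101) (nat_lit 104)) (PT.lf (nat_lit 988) (nat_lit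 6) (nat_lit 13) (nat_lit 5) (nat_lit 96) (nat_lit 101) (nat_lit 103)))) (PT.nd (nat_lit 156) (PT.nd (nat_lit 78) (PT.lf (nat_lit 1292) (nat_lit 6) (nat_lit 17) (nat_lit 5) (nat_lit 97) (nat_lit 101) (nat_lit 102)) (PT.lf (nat_lit 1520) (nat_lit 3) (nat_lit 20) (nat_lit 4) (nat_lit 98) (nat_lit 101) (nat_lit 101))) (PT.nd (nat_lit 78) (PT.lf (nat_lit 1596) (nat_lit 6) (nat_lit 21) (nat_lit 4) (nat_lit 99) (nat_lit 101) (nat_lit 100)) (PT.lf (nat_lit 1596) (nat_lit 6) (nat_lit 21) (nat_lit 2) (nat_lit 100) (nat_lit 101) (nat_lit 99))))))))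
noncomputable def pc1 : PT := (PT.nd (nat_lit 62790) (PT.nd (nat_lit 31434) (PT.nd (nat_lit 30888) (PT.nd (nat_lit 234) (PT.nd (nat_lit 78) (PT.lf (nat_lit 1520) (nat_lit 3) (nat_lit 20) (nat_lit 0) (nat_lit 101) (nat_lit 101) (nat_lit 98)) (PT.nd (nat_lit 78) (PT.lf (nat_lit 1292) (nat_lit 6) (nat_lit 17) (nat_lit 0) (nat_lit 102) (nat_lit 101) (nat_lit 97)) (PT.lf (nat_lit 988) (nat_lit 6) (nat_lit 13) (nat_lit 0) (nat_lit 103) (nat_lit 101) (nat_lit 96)))) (PT.nd (nat_lit 30498) (PT.lf (nat_lit 760) (nat_lit 6) (nat_lit 10) (nat_lit 0) (nat_lit 104) (nat_lit 101) (nat_lit 95)) (PT.nd (nat_lit 78) (PT.lf (nat_lit 608) (nat_lit 6) (nat_lit 8) (nat_lit 5) (nat_lit 94) (nat_lit 102) (nat_lit 104)) (PT.lf (nat_lit 836) (nat_lit 6) (nat_lit 11) (nat_lit 5) (nat_lit 95) (nat_lit 102) (nat_lit 103))))) (PT.nd (nat_lit 234) (PT.nd (nat_lit 78) (PT.lf (nat_lit 1064) (nat_lit 3) (nat_lit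 14) (nat_lit 4) (nat_lit 96) (nat_lit 102) (nat_lit 102)) (PT.nd (nat_lit 78) (PT.lf (nat_lit 1292) (nat_lit 6) (nat_lit 17) (nat_lit 4) (nat_lit 97) (nat_lit 102) (nat_lit 101)) (PT.lf (nat_lit 1444) (nat_lit 6) (nat_lit 19) (nat_lit 4) (nat_lit 98) (nat_lit 102) (nat_lit 100)))) (PT.nd (nat_lit 156) (PT.nd (nat_lit 78) (PT.lf (nat_lit 1368) (nat_lit 3) (nat_lit 18) (nat_lit 2) (nat_lit 99) (nat_lit 102) (nat_lit 99)) (PT.lf (nat_lit 1444) (nat_lit 6) (nat_lit 19) (nat_lit 2) (nat_lit 100) (nat_lit 102) (nat_lit 98))) (PT.nd (nat_lit 78) (PT.lf (nat_lit 1292) (nat_lit 6) (nat_lit 17) (nat_lit 2) (nat_lit 101) (nat_lit 102) (nat_lit 97)) (PT.lf (nat_lit 1064) (nat_lit 3) (nat_lit 14) (nat_lit 0) (nat_lit 102) (nat_lit 102) (nat_lit 96)))))) (PT.nd (nat_lit 30810) (PT.nd (nat_lit 30498) (PT.nd (nat_lit 78) (PT.lf (nat_lit 836) (nat_lit 6) (nat_lit 11) (nat_lit 0) (nat_lit 103) (nat_lit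 102) (nat_lit 95)) (PT.nd (nat_lit 30342) (PT.lf (nat_lit 608) (nat_lit 6) (nat_lit 8) (nat_lit 0) (nat_lit 104) (nat_lit 102) (nat_lit 94)) (PT.lf (nat_lit 380) (nat_lit 6) (nat_lit 5) (nat_lit 5) (nat_lit 92) (nat_lit 103) (nat_lit 105)))) (PT.nd (nat_lit 156) (PT.nd (nat_lit 78) (PT.lf (nat_lit 532) (nat_lit 6) (nat_lit 7) (nat_lit 5) (nat_lit 93) (nat_lit 103) (nat_lit 104)) (PT.lf (nat_lit 684) (nat_lit 3) (nat_lit 9) (nat_lit 4) (nat_lit 94) (nat_lit 103) (nat_lit 103))) (PT.nd (nat_lit 78) (PT.lf (nat_lit 836) (nat_lit 6) (nat_lit 11) (nat_lit 4) (nat_lit 95) (nat_lit 103) (nat_lit 102)) (PT.lf (nat_lit 988) (nat_lit 6) (nat_lit 13) (nat_lit 4) (nat_lit 96) (nat_lit 103) (nat_lit 101))))) (PT.nd (nat_lit 234) (PT.nd (nat_lit 78) (PT.lf (nat_lit 1216) (nat_lit 6) (nat_lit 16) (nat_lit 4) (nat_lit 97) (nat_lit 103) (nat_lit 100)) (PT.nd (nat_lit 78) (PT.lf (nat_lit 1140) (nat_lit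 6) (nat_lit 15) (nat_lit 4) (nat_lit 98) (nat_lit 103) (nat_lit 99)) (PT.lf (nat_lit 1140) (nat_lit 6) (nat_lit 15) (nat_lit 2) (nat_lit 99) (nat_lit 103) (nat_lit 98)))) (PT.nd (nat_lit 156) (PT.nd (nat_lit 78) (PT.lf (nat_lit 1216) (nat_lit 6) (nat_lit 16) (nat_lit 2) (nat_lit 100) (nat_lit 103) (nat_lit 97)) (PT.lf (nat_lit 988) (nat_lit 6) (nat_lit 13) (nat_lit 2) (nat_lit 101) (nat_lit 103) (nat_lit 96))) (PT.nd (nat_lit 78) (PT.lf (nat_lit 836) (nat_lit 6) (nat_lit 11) (nat_lit 2) (nat_lit 102) (nat_lit 103) (nat_lit 95)) (PT.lf (nat_lit 684) (nat_lit 3) (nat_lit 9) (nat_lit 0) (nat_lit 103) (nat_lit 103) (nat_lit 94))))))) (PT.nd (nat_lit 31356) (PT.nd (nat_lit 30576) (PT.nd (nat_lit 30264) (PT.nd (nat_lit 78) (PT.lf (nat_lit 532) (nat_lit 6) (nat_lit 7) (nat_lit 0) (nat_lit 104) (nat_lit 103) (nat_lit 93)) (PT.nd (nat_lit 30108) (PT.lf (nat_lit 380) (nat_lit 6) (nat_lit 5)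 (nat_lit 0) (nat_lit 105) (nat_lit 103) (nat_lit 92)) (PT.lf (nat_lit 152) (nat_lit 6) (nat_lit 2) (nat_lit 5) (nat_lit 90) (nat_lit 104) (nat_lit 106)))) (PT.nd (nat_lit 156) (PT.nd (nat_lit 78) (PT.lf (nat_lit 304) (nat_lit 6) (nat_lit 4) (nat_lit 5) (nat_lit 91) (nat_lit 104) (nat_lit 105)) (PT.lf (nat_lit 456) (nat_lit 3) (nat_lit 6) (nat_lit 4) (nat_lit 92) (nat_lit 104) (nat_lit 104))) (PT.nd (nat_lit 78) (PT.lf (nat_lit 532) (nat_lit 6) (nat_lit 7) (nat_lit 4) (nat_lit 93) (nat_lit 104) (nat_lit 103)) (PT.lf (nat_lit 608) (nat_lit 6) (nat_lit 8) (nat_lit 4) (nat_lit 94) (nat_lit 104) (nat_lit 102))))) (PT.nd (nat_lit 468) (PT.nd (nat_lit 78) (PT.lf (nat_lit 760) (nat_lit 6) (nat_lit 10) (nat_lit 4) (nat_lit 95) (nat_lit 104) (nat_lit 101)) (PT.nd (nat_lit 312) (PT.lf (nat_lit 912) (nat_lit 6) (nat_lit 12) (nat_lit 4) (nat_lit 96) (nat_lit 104) (nat_lit 100)) (PT.lf (nat_lit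 912) (nat_lit 6) (nat_lit 12) (nat_lit 2) (nat_lit 100) (nat_lit 104) (nat_lit 96)))) (PT.nd (nat_lit 156) (PT.nd (nat_lit 78) (PT.lf (nat_lit 760) (nat_lit 6) (nat_lit 10) (nat_lit 2) (nat_lit 101) (nat_lit 104) (nat_lit 95)) (PT.lf (nat_lit 608) (nat_lit 6) (nat_lit 8) (nat_lit 2) (nat_lit 102) (nat_lit 104) (nat_lit 94))) (PT.nd (nat_lit 78) (PT.lf (nat_lit 532) (nat_lit 6) (nat_lit 7) (nat_lit 2) (nat_lit 103) (nat_lit 104) (nat_lit 93)) (PT.lf (nat_lit 456) (nat_lit 3) (nat_lit 6) (nat_lit 0) (nat_lit 104) (nat_lit 104) (nat_lit 92)))))) (PT.nd (nat_lit 31200) (PT.nd (nat_lit 30108) (PT.nd (nat_lit 78) (PT.lf (nat_lit 304) (nat_lit 6) (nat_lit 4) (nat_lit 0) (nat_lit 105) (nat_lit 104) (nat_lit 91)) (PT.nd (nat_lit 29952) (PT.lf (nat_lit 152) (nat_lit 6) (nat_lit 2) (nat_lit 0) (nat_lit 106) (nat_lit 104) (nat_lit 90)) (PT.lf (nat_lit 76) (nat_lit 6) (nat_lit 1) (nat_lit 5) (nat_lit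 89) (nat_lit 105) (nat_lit 106)))) (PT.nd (nat_lit 156) (PT.nd (nat_lit 78) (PT.lf (nat_lit 228) (nat_lit 3) (nat_lit 3) (nat_lit 4) (nat_lit 90) (nat_lit 105) (nat_lit 105)) (PT.lf (nat_lit 304) (nat_lit 6) (nat_lit 4) (nat_lit 4) (nat_lit 91) (nat_lit 105) (nat_lit 104))) (PT.nd (nat_lit 858) (PT.lf (nat_lit 380) (nat_lit 6) (nat_lit 5) (nat_lit 4) (nat_lit 92) (nat_lit 105) (nat_lit 103)) (PT.lf (nat_lit 380) (nat_lit 6) (nat_lit 5) (nat_lit 2) (nat_lit 103) (nat_lit 105) (nat_lit 92))))) (PT.nd (nat_lit 30108) (PT.nd (nat_lit 78) (PT.lf (nat_lit 304) (nat_lit 6) (nat_lit 4) (nat_lit 2) (nat_lit 104) (nat_lit 105) (nat_lit 91)) (PT.nd (nat_lit 78) (PT.lf (nat_lit 228) (nat_lit 3) (nat_lit 3) (nat_lit 0) (nat_lit 105) (nat_lit 105) (nat_lit 90)) (PT.lf (nat_lit 76) (nat_lit 6) (nat_lit 1) (nat_lit 0) (nat_lit 106) (nat_lit 105) (nat_lit 89)))) (PT.nd (nat_lit 1170) (PT.nd (nat_lit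 78) (PT.lf (nat_lit 76) (nat_lit 6) (nat_lit 1) (nat_lit 4) (nat_lit 89) (nat_lit 106) (nat_lit 105)) (PT.lf (nat_lit 152) (nat_lit 6) (nat_lit 2) (nat_lit 4) (nat_lit 90) (nat_lit 106) (nat_lit 104))) (PT.nd (nat_lit 78) (PT.lf (nat_lit 152) (nat_lit 6) (nat_lit 2) (nat_lit 2) (nat_lit 104) (nat_lit 106) (nat_lit 90)) (PT.lf (nat_lit 76) (nat_lit 6) (nat_lit 1) (nat_lit 2) (nat_lit 105) (nat_lit 106) (nat_lit 89))))))))
noncomputable def xc0 : XT := (XT.nd (nat_lit 156546) (nat_lit 0) (nat_lit 0) (XT.nd (nat_lit 93678) (nat_lit 0) (nat_lit 0) (XT.nd (nat_lit 62400) (nat_lit 0) (nat_lit 0) (XT.nd (nat_lit 31200) (nat_lit 0) (nat_lit 0) (XT.nd (nat_lit 78) (nat_lit 0) (nat_lit 0) (XT.lf (nat_lit 0) (nat_lit 23890109035051) (nat_lit 152) (nat_lit 3333595774563) (nat_lit 0) (nat_lit 23890109035051) (nat_lit 1) (nat_lit 5) (nat_lit 3) (nat_lit 4) (nat_lit 1) (nat_lit 4) (nat_lit 280)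 (nat_lit 160) (nat_lit 160)) (XT.nd (nat_lit 31044) (nat_lit 0) (nat_lit 0) (XT.lf (nat_lit 0) (nat_lit 54947298244294) (nat_lit 152) (nat_lit 7667171670200) (nat_lit 0) (nat_lit 54947293793943) (nat_lit 1) (nat_lit 5) (nat_lit 3) (nat_lit 4) (nat_lit 1) (nat_lit 4) (nat_lit 281) (nat_lit 160) (nat_lit 159)) (XT.lf (nat_lit 0) (nat_lit 18064313263761) (nat_lit 152) (nat_lit 2520767565547) (nat_lit 0) (nat_lit 18064313263761) (nat_lit 1) (nat_lit 5) (nat_lit 3) (nat_lit 4) (nat_lit 1) (nat_lit 4) (nat_lit 278) (nat_lit 161) (nat_lit 161)))) (XT.nd (nat_lit 31044) (nat_lit 0) (nat_lit 0) (XT.nd (nat_lit 78) (nat_lit 0) (nat_lit 0) (XT.lf (nat_lit 0) (nat_lit 41547975089879) (nat_lit 152) (nat_lit 5797651997769) (nat_lit 0) (nat_lit 41547969971976) (nat_lit 1) (nat_lit 5) (nat_lit 3) (nat_lit 4) (nat_lit 1) (nat_lit 4) (nat_lit 279) (nat_lit 161) (nat_lit 160)) (XT.lf (nat_lit 0) (nat_lit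 47780220797934) (nat_lit 152) (nat_lit 6667196031458) (nat_lit 0) (nat_lit 47780211229680) (nat_lit 1) (nat_lit 5) (nat_lit 3) (nat_lit 4) (nat_lit 1) (nat_lit 4) (nat_lit 280) (nat_lit 161) (nat_lit 159))) (XT.nd (nat_lit 78) (nat_lit 0) (nat_lit 0) (XT.lf (nat_lit 0) (nat_lit 13659168475218) (nat_lit 152) (nat_lit 1906166197392) (nat_lit 0) (nat_lit 13659168475218) (nat_lit 1) (nat_lit 5) (nat_lit 3) (nat_lit 4) (nat_lit 1) (nat_lit 4) (nat_lit 276) (nat_lit 162) (nat_lit 162)) (XT.lf (nat_lit 0) (nat_lit 31416150263713) (nat_lit 152) (nat_lit 4384051840564) (nat_lit 0) (nat_lit 31416144378124) (nat_lit 1) (nat_lit 5) (nat_lit 3) (nat_lit 4) (nat_lit 1) (nat_lit 4) (nat_lit 277) (nat_lit 162) (nat_lit 161))))) (XT.nd (nat_lit 30966) (nat_lit 0) (nat_lit 0) (XT.nd (nat_lit 78) (nat_lit 0) (nat_lit 0) (XT.lf (nat_lit 0) (nat_lit 36128629664529) (nat_lit 152) (nat_lit 5041540285776)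 (nat_lit 0) (nat_lit 36128618661037) (nat_lit 1) (nat_lit 5) (nat_lit 3) (nat_lit 4) (nat_lit 1) (nat_lit 4) (nat_lit 278) (nat_lit 162) (nat_lit 160)) (XT.nd (nat_lit 78) (nat_lit 0) (nat_lit 0) (XT.lf (nat_lit 0) (nat_lit 41547975836813) (nat_lit 152) (nat_lit 5797661634782) (nat_lit 0) (nat_lit 41547960382971) (nat_lit 1) (nat_lit 5) (nat_lit 3) (nat_lit 4) (nat_lit 1) (nat_lit 4) (nat_lit 279) (nat_lit 162) (nat_lit 159)) (XT.lf (nat_lit 0) (nat_lit 47780219466545) (nat_lit 152) (nat_lit 6667209566151) (nat_lit 0) (nat_lit 47780200142832) (nat_lit 1) (nat_lit 5) (nat_lit 3) (nat_lit 4) (nat_lit 1) (nat_lit 4) (nat_lit 280) (nat_lit 162) (nat_lit 158)))) (XT.nd (nat_lit 156) (nat_lit 0) (nat_lit 0) (XT.nd (nat_lit 78) (nat_lit 0) (nat_lit 0) (XT.lf (nat_lit 0) (nat_lit 10328238999349) (nat_lit 152) (nat_lit 1441454829846) (nat_lit 0) (nat_lit 10328238999349) (nat_lit 1) (nat_lit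 5) (nat_lit 3) (nat_lit 4) (nat_lit 1) (nat_lit 4) (nat_lit 274) (nat_lit 163) (nat_lit 163)) (XT.lf (nat_lit 0) (nat_lit 23755021884822) (nat_lit 152) (nat_lit 3315196133193) (nat_lit 0) (nat_lit 23755015116395) (nat_lit 1) (nat_lit 5) (nat_lit 3) (nat_lit 4) (nat_lit 1) (nat_lit 4) (nat_lit 275) (nat_lit 163) (nat_lit 162))) (XT.nd (nat_lit 78) (nat_lit 0) (nat_lit 0) (XT.lf (nat_lit 0) (nat_lit 27318340557993) (nat_lit 152) (nat_lit 3812338322668) (nat_lit 0) (nat_lit 27318327903977) (nat_lit 1) (nat_lit 5) (nat_lit 3) (nat_lit 4) (nat_lit 1) (nat_lit 4) (nat_lit 276) (nat_lit 163) (nat_lit 161)) (XT.lf (nat_lit 0) (nat_lit 31416151122688) (nat_lit 152) (nat_lit 4384062923129) (nat_lit 0) (nat_lit 31416133350769) (nat_lit 1) (nat_lit 5) (nat_lit 3) (nat_lit 4) (nat_lit 1) (nat_lit 4) (nat_lit 277) (nat_lit 163) (nat_lit 160)))))) (XT.nd (nat_lit 31200) (nat_lit 0) (nat_lit 0) (XT.nd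 (nat_lit 30888) (nat_lit 0) (nat_lit 0) (XT.nd (nat_lit 78) (nat_lit 0) (nat_lit 0) (XT.lf (nat_lit 0) (nat_lit 36128628133432) (nat_lit 152) (nat_lit 5041555850672) (nat_lit 0) (nat_lit 36128605911162) (nat_lit 1) (nat_lit 5) (nat_lit 3) (nat_lit 4) (nat_lit 1) (nat_lit 4) (nat_lit 278) (nat_lit 163) (nat_lit 159)) (XT.nd (nat_lit 30732) (nat_lit 0) (nat_lit 0) (XT.lf (nat_lit 0) (nat_lit 41547972227393) (nat_lit 152) (nat_lit 5797681097358) (nat_lit 0) (nat_lit 41547946135253) (nat_lit 1) (nat_lit 5) (nat_lit 3) (nat_lit 4) (nat_lit 1) (nat_lit 4) (nat_lit 279) (nat_lit 163) (nat_lit 158)) (XT.lf (nat_lit 0) (nat_lit 7809569558400) (nat_lit 152) (nat_lit 1090084171786) (nat_lit 0) (nat_lit 7809569558400) (nat_lit 1) (nat_lit 5) (nat_lit 3) (nat_lit 4) (nat_lit 1) (nat_lit 4) (nat_lit 272) (nat_lit 164) (nat_lit 164)))) (XT.nd (nat_lit 156) (nat_lit 0) (nat_lit 0) (XT.nd (nat_lit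 78) (nat_lit 0) (nat_lit 0) (XT.lf (nat_lit 0) (nat_lit 17962092998586) (nat_lit 152) (nat_lit 2507021123337) (nat_lit 0) (nat_lit 17962085214895) (nat_lit 1) (nat_lit 5) (nat_lit 3) (nat_lit 4) (nat_lit 1) (nat_lit 4) (nat_lit 273) (nat_lit 164) (nat_lit 163)) (XT.lf (nat_lit 0) (nat_lit 20656482147389) (nat_lit 152) (nat_lit 2882916476759) (nat_lit 0) (nat_lit 20656467595271) (nat_lit 1) (nat_lit 5) (nat_lit 3) (nat_lit 4) (nat_lit 1) (nat_lit 4) (nat_lit 274) (nat_lit 164) (nat_lit 162))) (XT.nd (nat_lit 78) (nat_lit 0) (nat_lit 0) (XT.lf (nat_lit 0) (nat_lit 23755022872643) (nat_lit 152) (nat_lit 3315208878142) (nat_lit 0) (nat_lit 23755002434936) (nat_lit 1) (nat_lit 5) (nat_lit 3) (nat_lit 4) (nat_lit 1) (nat_lit 4) (nat_lit 275) (nat_lit 164) (nat_lit 161)) (XT.lf (nat_lit 0) (nat_lit 27318338797231) (nat_lit 152) (nat_lit 3812356222299) (nat_lit 0) (nat_lit 27318313241621)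 (nat_lit 1) (nat_lit 5) (nat_lit 3) (nat_lit 4) (nat_lit 1) (nat_lit 4) (nat_lit 276) (nat_lit 164) (nat_lit 160))))) (XT.nd (nat_lit 30966) (nat_lit 0) (nat_lit 0) (XT.nd (nat_lit 30810) (nat_lit 0) (nat_lit 0) (XT.nd (nat_lit 30732) (nat_lit 0) (nat_lit 0) (XT.lf (nat_lit 0) (nat_lit 31416146971854) (nat_lit 152) (nat_lit 4384085305092) (nat_lit 0) (nat_lit 31416116965893) (nat_lit 1) (nat_lit 5) (nat_lit 3) (nat_lit 4) (nat_lit 1) (nat_lit 4) (nat_lit 277) (nat_lit 164) (nat_lit 159)) (XT.lf (nat_lit 0) (nat_lit 5905084167319) (nat_lit 152) (nat_lit 824418058396) (nat_lit 0) (nat_lit 5905084167319) (nat_lit 1) (nat_lit 5) (nat_lit 3) (nat_lit 4) (nat_lit 1) (nat_lit 4) (nat_lit 270) (nat_lit 165) (nat_lit 165))) (XT.nd (nat_lit 78) (nat_lit 0) (nat_lit 0) (XT.lf (nat_lit 0) (nat_lit 13581789051241) (nat_lit 152) (nat_lit 1895963191774) (nat_lit 0) (nat_lit 13581780099996) (nat_lit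 1) (nat_lit 5) (nat_lit 3) (nat_lit 4) (nat_lit 1) (nat_lit 4) (nat_lit 271) (nat_lit 165) (nat_lit 164)) (XT.lf (nat_lit 0) (nat_lit 15619143887794) (nat_lit 152) (nat_lit 2180176183199) (nat_lit 0) (nat_lit 15619127152858) (nat_lit 1) (nat_lit 5) (nat_lit 3) (nat_lit 4) (nat_lit 1) (nat_lit 4) (nat_lit 272) (nat_lit 165) (nat_lit 163)))) (XT.nd (nat_lit 156) (nat_lit 0) (nat_lit 0) (XT.nd (nat_lit 78) (nat_lit 0) (nat_lit 0) (XT.lf (nat_lit 0) (nat_lit 17962094134580) (nat_lit 152) (nat_lit 2507035780030) (nat_lit 0) (nat_lit 17962070631217) (nat_lit 1) (nat_lit 5) (nat_lit 3) (nat_lit 4) (nat_lit 1) (nat_lit 4) (nat_lit 273) (nat_lit 165) (nat_lit 162)) (XT.lf (nat_lit 0) (nat_lit 20656480122513) (nat_lit 152) (nat_lit 2882937061334) (nat_lit 0) (nat_lit 20656450733561) (nat_lit 1) (nat_lit 5) (nat_lit 3) (nat_lit 4) (nat_lit 1) (nat_lit 4) (nat_lit 274) (nat_lit 165) (nat_lit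 161))) (XT.nd (nat_lit 78) (nat_lit 0) (nat_lit 0) (XT.lf (nat_lit 0) (nat_lit 23755018099184) (nat_lit 152) (nat_lit 3315234617399) (nat_lit 0) (nat_lit 23754983592329) (nat_lit 1) (nat_lit 5) (nat_lit 3) (nat_lit 4) (nat_lit 1) (nat_lit 4) (nat_lit 275) (nat_lit 165) (nat_lit 160)) (XT.lf (nat_lit 0) (nat_lit 27318331633701) (nat_lit 152) (nat_lit 3812386443887) (nat_lit 0) (nat_lit 27318292676495) (nat_lit 1) (nat_lit 5) (nat_lit 3) (nat_lit 4) (nat_lit 1) (nat_lit 4) (nat_lit 276) (nat_lit 165) (nat_lit 159))))))) (XT.nd (nat_lit 61464) (nat_lit 0) (nat_lit 0) (XT.nd (nat_lit 30420) (nat_lit 0) (nat_lit 0) (XT.nd (nat_lit 234) (nat_lit 0) (nat_lit 0) (XT.nd (nat_lit 78) (nat_lit 0) (nat_lit 0) (XT.lf (nat_lit 0) (nat_lit 63189393382211) (nat_lit 152) (nat_lit 8817301784114) (nat_lit 0) (nat_lit 63189337582730) (nat_lit 1) (nat_lit 5) (nat_lit 3) (nat_lit 4) (nat_lit 1) (nat_lit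 4) (nat_lit 282) (nat_lit 165) (nat_lit 153)) (XT.nd (nat_lit 78) (nat_lit 0) (nat_lit 0) (XT.lf (nat_lit 0) (nat_lit 72667841830223) (nat_lit 152) (nat_lit 10139803779628) (nat_lit 0) (nat_lit 72667784357691) (nat_lit 1) (nat_lit 5) (nat_lit 3) (nat_lit 4) (nat_lit 1) (nat_lit 4) (nat_lit 283) (nat_lit 165) (nat_lit 152)) (XT.lf (nat_lit 0) (nat_lit 83568055865602) (nat_lit 152) (nat_lit 11660684224826) (nat_lit 0) (nat_lit 83567996938242) (nat_lit 1) (nat_lit 5) (nat_lit 3) (nat_lit 4) (nat_lit 1) (nat_lit 4) (nat_lit 284) (nat_lit 165) (nat_lit 151)))) (XT.nd (nat_lit 30030) (nat_lit 0) (nat_lit 0) (XT.nd (nat_lit 29952) (nat_lit 0) (nat_lit 0) (XT.lf (nat_lit 0) (nat_lit 96103300545561) (nat_lit 152) (nat_lit 13409699476244) (nat_lit 0) (nat_lit 96103240353134) (nat_lit 1) (nat_lit 5) (nat_lit 3) (nat_lit 4) (nat_lit 1) (nat_lit 4) (nat_lit 285) (nat_lit 165) (nat_lit 150)) (XT.lf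 (nat_lit 0) (nat_lit 4465008739608) (nat_lit 152) (nat_lit 623559981403) (nat_lit 0) (nat_lit 4465008739608) (nat_lit 1) (nat_lit 5) (nat_lit 3) (nat_lit 4) (nat_lit 1) (nat_lit 4) (nat_lit 268) (nat_lit 166) (nat_lit 166))) (XT.nd (nat_lit 78) (nat_lit 0) (nat_lit 0) (XT.lf (nat_lit 0) (nat_lit 10269629887465) (nat_lit 152) (nat_lit 1433959863309) (nat_lit 0) (nat_lit 10269619593533) (nat_lit 1) (nat_lit 5) (nat_lit 3) (nat_lit 4) (nat_lit 1) (nat_lit 4) (nat_lit 269) (nat_lit 166) (nat_lit 165)) (XT.lf (nat_lit 0) (nat_lit 11810173821282) (nat_lit 152) (nat_lit 1648845132363) (nat_lit 0) (nat_lit 11810154576106) (nat_lit 1) (nat_lit 5) (nat_lit 3) (nat_lit 4) (nat_lit 1) (nat_lit 4) (nat_lit 270) (nat_lit 166) (nat_lit 164))))) (XT.nd (nat_lit 1014) (nat_lit 0) (nat_lit 0) (XT.nd (nat_lit 858) (nat_lit 0) (nat_lit 0) (XT.nd (nat_lit 780) (nat_lit 0) (nat_lit 0) (XT.lf (nat_lit 0)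 (nat_lit 13581790357634) (nat_lit 152) (nat_lit 1895980046970) (nat_lit 0) (nat_lit 13581763328766) (nat_lit 1) (nat_lit 5) (nat_lit 3) (nat_lit 4) (nat_lit 1) (nat_lit 4) (nat_lit 271) (nat_lit 166) (nat_lit 163)) (XT.lf (nat_lit 0) (nat_lit 54947242943831) (nat_lit 152) (nat_lit 7667359399706) (nat_lit 0) (nat_lit 54947176850419) (nat_lit 1) (nat_lit 5) (nat_lit 3) (nat_lit 4) (nat_lit 1) (nat_lit 4) (nat_lit 281) (nat_lit 166) (nat_lit 153))) (XT.nd (nat_lit 78) (nat_lit 0) (nat_lit 0) (XT.lf (nat_lit 0) (nat_lit 63189372810378) (nat_lit 152) (nat_lit 8817359669653) (nat_lit 0) (nat_lit 63189305043914) (nat_lit 1) (nat_lit 5) (nat_lit 3) (nat_lit 4) (nat_lit 1) (nat_lit 4) (nat_lit 282) (nat_lit 166) (nat_lit 152)) (XT.lf (nat_lit 0) (nat_lit 72667820477071) (nat_lit 152) (nat_lit 10139863130449) (nat_lit 0) (nat_lit 72667751255779) (nat_lit 1) (nat_lit 5) (nat_lit 3) (nat_lit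 4) (nat_lit 1) (nat_lit 4) (nat_lit 283) (nat_lit 166) (nat_lit 151)))) (XT.nd (nat_lit 29874) (nat_lit 0) (nat_lit 0) (XT.nd (nat_lit 78) (nat_lit 0) (nat_lit 0) (XT.lf (nat_lit 0) (nat_lit 83568033833042) (nat_lit 152) (nat_lit 11660744849805) (nat_lit 0) (nat_lit 83567963346683) (nat_lit 1) (nat_lit 5) (nat_lit 3) (nat_lit 4) (nat_lit 1) (nat_lit 4) (nat_lit 284) (nat_lit 166) (nat_lit 150)) (XT.lf (nat_lit 0) (nat_lit 96103277922212) (nat_lit 152) (nat_lit 13409761209187) (nat_lit 0) (nat_lit 96103206335794) (nat_lit 1) (nat_lit 5) (nat_lit 3) (nat_lit 4) (nat_lit 1) (nat_lit 4) (nat_lit 285) (nat_lit 166) (nat_lit 149))) (XT.nd (nat_lit 78) (nat_lit 0) (nat_lit 0) (XT.lf (nat_lit 0) (nat_lit 3376092335759) (nat_lit 152) (nat_lit 471709641560) (nat_lit 0) (nat_lit 3376092335759) (nat_lit 1) (nat_lit 5) (nat_lit 3) (nat_lit 4) (nat_lit 1) (nat_lit 4) (nat_lit 266) (nat_lit 167)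 (nat_lit 167)) (XT.lf (nat_lit 0) (nat_lit 7765138626568) (nat_lit 152) (nat_lit 1084669867583) (nat_lit 0) (nat_lit 7765126788547) (nat_lit 1) (nat_lit 5) (nat_lit 3) (nat_lit 4) (nat_lit 1) (nat_lit 4) (nat_lit 267) (nat_lit 167) (nat_lit 166)))))) (XT.nd (nat_lit 1170) (nat_lit 0) (nat_lit 0) (XT.nd (nat_lit 234) (nat_lit 0) (nat_lit 0) (XT.nd (nat_lit 78) (nat_lit 0) (nat_lit 0) (XT.lf (nat_lit 0) (nat_lit 8930023788856) (nat_lit 152) (nat_lit 1247130330711) (nat_lit 0) (nat_lit 8930001656903) (nat_lit 1) (nat_lit 5) (nat_lit 3) (nat_lit 4) (nat_lit 1) (nat_lit 4) (nat_lit 268) (nat_lit 167) (nat_lit 165)) (XT.nd (nat_lit 78) (nat_lit 0) (nat_lit 0) (XT.lf (nat_lit 0) (nat_lit 10269631389817) (nat_lit 152) (nat_lit 1433979246784) (nat_lit 0) (nat_lit 10269600306619) (nat_lit 1) (nat_lit 5) (nat_lit 3) (nat_lit 4) (nat_lit 1) (nat_lit 4) (nat_lit 269) (nat_lit 167) (nat_lit 164))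 (XT.lf (nat_lit 0) (nat_lit 11810171143384) (nat_lit 152) (nat_lit 1648872355464) (nat_lit 0) (nat_lit 11810132276495) (nat_lit 1) (nat_lit 5) (nat_lit 3) (nat_lit 4) (nat_lit 1) (nat_lit 4) (nat_lit 270) (nat_lit 167) (nat_lit 163)))) (XT.nd (nat_lit 780) (nat_lit 0) (nat_lit 0) (XT.nd (nat_lit 702) (nat_lit 0) (nat_lit 0) (XT.lf (nat_lit 0) (nat_lit 13581784044735) (nat_lit 152) (nat_lit 1896014087138) (nat_lit 0) (nat_lit 13581738409419) (nat_lit 1) (nat_lit 5) (nat_lit 3) (nat_lit 4) (nat_lit 1) (nat_lit 4) (nat_lit 271) (nat_lit 167) (nat_lit 162)) (XT.lf (nat_lit 0) (nat_lit 47780148157216) (nat_lit 152) (nat_lit 6667428883696) (nat_lit 0) (nat_lit 47780070225783) (nat_lit 1) (nat_lit 5) (nat_lit 3) (nat_lit 4) (nat_lit 1) (nat_lit 4) (nat_lit 280) (nat_lit 167) (nat_lit 153))) (XT.nd (nat_lit 78) (nat_lit 0) (nat_lit 0) (XT.lf (nat_lit 0) (nat_lit 54947218387706) (nat_lit 152)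 (nat_lit 7667427653151) (nat_lit 0) (nat_lit 54947138783221) (nat_lit 1) (nat_lit 5) (nat_lit 3) (nat_lit 4) (nat_lit 1) (nat_lit 4) (nat_lit 281) (nat_lit 167) (nat_lit 152)) (XT.lf (nat_lit 0) (nat_lit 63189347472934) (nat_lit 152) (nat_lit 8817429388380) (nat_lit 0) (nat_lit 63189266413621) (nat_lit 1) (nat_lit 5) (nat_lit 3) (nat_lit 4) (nat_lit 1) (nat_lit 4) (nat_lit 282) (nat_lit 167) (nat_lit 151))))) (XT.nd (nat_lit 29952) (nat_lit 0) (nat_lit 0) (XT.nd (nat_lit 29796) (nat_lit 0) (nat_lit 0) (XT.nd (nat_lit 78) (nat_lit 0) (nat_lit 0) (XT.lf (nat_lit 0) (nat_lit 72667794460220) (nat_lit 152) (nat_lit 10139934123335) (nat_lit 0) (nat_lit 72667712135839) (nat_lit 1) (nat_lit 5) (nat_lit 3) (nat_lit 4) (nat_lit 1) (nat_lit 4) (nat_lit 283) (nat_lit 167) (nat_lit 150)) (XT.lf (nat_lit 0) (nat_lit 83568007225401) (nat_lit 152) (nat_lit 11660816950654) (nat_lit 0) (nat_lit 83567923800963)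 (nat_lit 1) (nat_lit 5) (nat_lit 3) (nat_lit 4) (nat_lit 1) (nat_lit 4) (nat_lit 284) (nat_lit 167) (nat_lit 149))) (XT.nd (nat_lit 78) (nat_lit 0) (nat_lit 0) (XT.lf (nat_lit 0) (nat_lit 2552700730705) (nat_lit 152) (nat_lit 356920275277) (nat_lit 0) (nat_lit 2552700730705) (nat_lit 1) (nat_lit 5) (nat_lit 3) (nat_lit 4) (nat_lit 1) (nat_lit 4) (nat_lit 264) (nat_lit 168) (nat_lit 168)) (XT.lf (nat_lit 0) (nat_lit 5871356873093) (nat_lit 152) (nat_lit 820614978932) (nat_lit 0) (nat_lit 5871343259368) (nat_lit 1) (nat_lit 5) (nat_lit 3) (nat_lit 4) (nat_lit 1) (nat_lit 4) (nat_lit 265) (nat_lit 168) (nat_lit 167)))) (XT.nd (nat_lit 156) (nat_lit 0) (nat_lit 0) (XT.nd (nat_lit 78) (nat_lit 0) (nat_lit 0) (XT.lf (nat_lit 0) (nat_lit 6752191927604) (nat_lit 152) (nat_lit 943431206212) (nat_lit 0) (nat_lit 6752166475859) (nat_lit 1) (nat_lit 5) (nat_lit 3) (nat_lit 4) (nat_lit 1) (nat_lit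 4) (nat_lit 266) (nat_lit 168) (nat_lit 166)) (XT.lf (nat_lit 0) (nat_lit 7765140354273) (nat_lit 152) (nat_lit 1084692158579) (nat_lit 0) (nat_lit 7765104608596) (nat_lit 1) (nat_lit 5) (nat_lit 3) (nat_lit 4) (nat_lit 1) (nat_lit 4) (nat_lit 267) (nat_lit 168) (nat_lit 165))) (XT.nd (nat_lit 78) (nat_lit 0) (nat_lit 0) (XT.lf (nat_lit 0) (nat_lit 8930020709272) (nat_lit 152) (nat_lit 1247161637278) (nat_lit 0) (nat_lit 8929976012350) (nat_lit 1) (nat_lit 5) (nat_lit 3) (nat_lit 4) (nat_lit 1) (nat_lit 4) (nat_lit 268) (nat_lit 168) (nat_lit 164)) (XT.lf (nat_lit 0) (nat_lit 10269624129983) (nat_lit 152) (nat_lit 1434018392977) (nat_lit 0) (nat_lit 10269571649370) (nat_lit 1) (nat_lit 5) (nat_lit 3) (nat_lit 4) (nat_lit 1) (nat_lit 4) (nat_lit 269) (nat_lit 168) (nat_lit 163))))))))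
noncomputable def xc1 : XT := (XT.nd (nat_lit 61932) (nat_lit 0) (nat_lit 0) (XT.nd (nat_lit 31200) (nat_lit 0) (nat_lit 0) (XT.nd (nat_lit 30654) (nat_lit 0) (nat_lit 0) (XT.nd (nat_lit 780) (nat_lit 0) (nat_lit 0) (XT.nd (nat_lit 78) (nat_lit 0) (nat_lit 0) (XT.lf (nat_lit 0) (nat_lit 11810160248549) (nat_lit 152) (nat_lit 1648918318722) (nat_lit 0) (nat_lit 11810100999509) (nat_lit 1) (nat_lit 5) (nat_lit 3) (nat_lit 4) (nat_lit 1) (nat_lit 4) (nat_lit 270) (nat_lit 168) (nat_lit 162)) (XT.nd (nat_lit 624) (nat_lit 0) (nat_lit 0) (XT.lf (nat_lit 0) (nat_lit 13581769989030) (nat_lit 152) (nat_lit 1896065978280) (nat_lit 0) (nat_lit 13581704854401) (nat_lit 1) (nat_lit 5) (nat_lit 3) (nat_lit 4) (nat_lit 1) (nat_lit 4) (nat_lit 271) (nat_lit 168) (nat_lit 161)) (XT.lf (nat_lit 0) (nat_lit 41547883254803) (nat_lit 152) (nat_lit 5797946378162) (nat_lit 0) (nat_lit 41547791709645) (nat_lit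 1) (nat_lit 5) (nat_lit 3) (nat_lit 4) (nat_lit 1) (nat_lit 4) (nat_lit 279) (nat_lit 168) (nat_lit 153)))) (XT.nd (nat_lit 156) (nat_lit 0) (nat_lit 0) (XT.nd (nat_lit 78) (nat_lit 0) (nat_lit 0) (XT.lf (nat_lit 0) (nat_lit 47780119019156) (nat_lit 152) (nat_lit 6667509060232) (nat_lit 0) (nat_lit 47780025800946) (nat_lit 1) (nat_lit 5) (nat_lit 3) (nat_lit 4) (nat_lit 1) (nat_lit 4) (nat_lit 280) (nat_lit 168) (nat_lit 152)) (XT.lf (nat_lit 0) (nat_lit 54947188468327) (nat_lit 152) (nat_lit 7667509294968) (nat_lit 0) (nat_lit 54947093795290) (nat_lit 1) (nat_lit 5) (nat_lit 3) (nat_lit 4) (nat_lit 1) (nat_lit 4) (nat_lit 281) (nat_lit 168) (nat_lit 151))) (XT.nd (nat_lit 78) (nat_lit 0) (nat_lit 0) (XT.lf (nat_lit 0) (nat_lit 63189316874147) (nat_lit 152) (nat_lit 8817512304356) (nat_lit 0) (nat_lit 63189220936042) (nat_lit 1) (nat_lit 5) (nat_lit 3) (nat_lit 4) (nat_lit 1) (nat_lit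 4) (nat_lit 282) (nat_lit 168) (nat_lit 150)) (XT.lf (nat_lit 0) (nat_lit 72667763270644) (nat_lit 152) (nat_lit 10140018147275) (nat_lit 0) (nat_lit 72667666232480) (nat_lit 1) (nat_lit 5) (nat_lit 3) (nat_lit 4) (nat_lit 1) (nat_lit 4) (nat_lit 283) (nat_lit 168) (nat_lit 149))))) (XT.nd (nat_lit 234) (nat_lit 0) (nat_lit 0) (XT.nd (nat_lit 78) (nat_lit 0) (nat_lit 0) (XT.lf (nat_lit 0) (nat_lit 1930081866460) (nat_lit 152) (nat_lit 270159025441) (nat_lit 0) (nat_lit 1930081866460) (nat_lit 1) (nat_lit 5) (nat_lit 3) (nat_lit 4) (nat_lit 1) (nat_lit 4) (nat_lit 262) (nat_lit 169) (nat_lit 169)) (XT.nd (nat_lit 78) (nat_lit 0) (nat_lit 0) (XT.lf (nat_lit 0) (nat_lit 4439355264200) (nat_lit 152) (nat_lit 621018856178) (nat_lit 0) (nat_lit 4439339608417) (nat_lit 1) (nat_lit 5) (nat_lit 3) (nat_lit 4) (nat_lit 1) (nat_lit 4) (nat_lit 263) (nat_lit 169) (nat_lit 168)) (XT.lf (nat_lit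 0) (nat_lit 5105409805910) (nat_lit 152) (nat_lit 713854262110) (nat_lit 0) (nat_lit 5105380536402) (nat_lit 1) (nat_lit 5) (nat_lit 3) (nat_lit 4) (nat_lit 1) (nat_lit 4) (nat_lit 264) (nat_lit 169) (nat_lit 167)))) (XT.nd (nat_lit 156) (nat_lit 0) (nat_lit 0) (XT.nd (nat_lit 78) (nat_lit 0) (nat_lit 0) (XT.lf (nat_lit 0) (nat_lit 5871358859953) (nat_lit 152) (nat_lit 820640613578) (nat_lit 0) (nat_lit 5871317752424) (nat_lit 1) (nat_lit 5) (nat_lit 3) (nat_lit 4) (nat_lit 1) (nat_lit 4) (nat_lit 265) (nat_lit 169) (nat_lit 166)) (XT.lf (nat_lit 0) (nat_lit 6752188386083) (nat_lit 152) (nat_lit 943467208763) (nat_lit 0) (nat_lit 6752136984623) (nat_lit 1) (nat_lit 5) (nat_lit 3) (nat_lit 4) (nat_lit 1) (nat_lit 4) (nat_lit 266) (nat_lit 169) (nat_lit 165))) (XT.nd (nat_lit 78) (nat_lit 0) (nat_lit 0) (XT.lf (nat_lit 0) (nat_lit 7765132005464) (nat_lit 152) (nat_lit 1084737176701)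 (nat_lit 0) (nat_lit 7765071652759) (nat_lit 1) (nat_lit 5) (nat_lit 3) (nat_lit 4) (nat_lit 1) (nat_lit 4) (nat_lit 267) (nat_lit 169) (nat_lit 164)) (XT.lf (nat_lit 0) (nat_lit 8930008180213) (nat_lit 152) (nat_lit 1247214495025) (nat_lit 0) (nat_lit 8929940043817) (nat_lit 1) (nat_lit 5) (nat_lit 3) (nat_lit 4) (nat_lit 1) (nat_lit 4) (nat_lit 268) (nat_lit 169) (nat_lit 163)))))) (XT.nd (nat_lit 546) (nat_lit 0) (nat_lit 0) (XT.nd (nat_lit 234) (nat_lit 0) (nat_lit 0) (XT.nd (nat_lit 78) (nat_lit 0) (nat_lit 0) (XT.lf (nat_lit 0) (nat_lit 10269607965923) (nat_lit 152) (nat_lit 1434078067790) (nat_lit 0) (nat_lit 10269533061100) (nat_lit 1) (nat_lit 5) (nat_lit 3) (nat_lit 4) (nat_lit 1) (nat_lit 4) (nat_lit 269) (nat_lit 169) (nat_lit 162)) (XT.nd (nat_lit 78) (nat_lit 0) (nat_lit 0) (XT.lf (nat_lit 0) (nat_lit 11810140923620) (nat_lit 152) (nat_lit 1648983921419) (nat_lit 0)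 (nat_lit 11810060133207) (nat_lit 1) (nat_lit 5) (nat_lit 3) (nat_lit 4) (nat_lit 1) (nat_lit 4) (nat_lit 270) (nat_lit 169) (nat_lit 161)) (XT.lf (nat_lit 0) (nat_lit 13581747915518) (nat_lit 152) (nat_lit 1896136735658) (nat_lit 0) (nat_lit 13581662007203) (nat_lit 1) (nat_lit 5) (nat_lit 3) (nat_lit 4) (nat_lit 1) (nat_lit 4) (nat_lit 271) (nat_lit 169) (nat_lit 160)))) (XT.nd (nat_lit 156) (nat_lit 0) (nat_lit 0) (XT.nd (nat_lit 78) (nat_lit 0) (nat_lit 0) (XT.lf (nat_lit 0) (nat_lit 15619090817547) (nat_lit 152) (nat_lit 2180372109045) (nat_lit 0) (nat_lit 15619000458881) (nat_lit 1) (nat_lit 5) (nat_lit 3) (nat_lit 4) (nat_lit 1) (nat_lit 4) (nat_lit 272) (nat_lit 169) (nat_lit 159)) (XT.lf (nat_lit 0) (nat_lit 17962030686485) (nat_lit 152) (nat_lit 2507251168452) (nat_lit 0) (nat_lit 17961936457949) (nat_lit 1) (nat_lit 5) (nat_lit 3) (nat_lit 4) (nat_lit 1) (nat_lit 4) (nat_lit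 273) (nat_lit 169) (nat_lit 158))) (XT.nd (nat_lit 78) (nat_lit 0) (nat_lit 0) (XT.lf (nat_lit 0) (nat_lit 20656407650203) (nat_lit 152) (nat_lit 2883169373736) (nat_lit 0) (nat_lit 20656310056562) (nat_lit 1) (nat_lit 5) (nat_lit 3) (nat_lit 4) (nat_lit 1) (nat_lit 4) (nat_lit 274) (nat_lit 169) (nat_lit 157)) (XT.lf (nat_lit 0) (nat_lit 23754937779730) (nat_lit 152) (nat_lit 3315481646304) (nat_lit 0) (nat_lit 23754837259912) (nat_lit 1) (nat_lit 5) (nat_lit 3) (nat_lit 4) (nat_lit 1) (nat_lit 4) (nat_lit 275) (nat_lit 169) (nat_lit 156))))) (XT.nd (nat_lit 390) (nat_lit 0) (nat_lit 0) (XT.nd (nat_lit 234) (nat_lit 0) (nat_lit 0) (XT.nd (nat_lit 78) (nat_lit 0) (nat_lit 0) (XT.lf (nat_lit 0) (nat_lit 27318244490644) (nat_lit 152) (nat_lit 3812646269752) (nat_lit 0) (nat_lit 27318141426323) (nat_lit 1) (nat_lit 5) (nat_lit 3) (nat_lit 4) (nat_lit 1) (nat_lit 4) (nat_lit 276) (nat_lit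 169) (nat_lit 155)) (XT.lf (nat_lit 0) (nat_lit 31416044653375) (nat_lit 152) (nat_lit 4384390378016) (nat_lit 0) (nat_lit 31415939376443) (nat_lit 1) (nat_lit 5) (nat_lit 3) (nat_lit 4) (nat_lit 1) (nat_lit 4) (nat_lit 277) (nat_lit 169) (nat_lit 154))) (XT.nd (nat_lit 78) (nat_lit 0) (nat_lit 0) (XT.lf (nat_lit 0) (nat_lit 41547848847517) (nat_lit 152) (nat_lit 5798040266252) (nat_lit 0) (nat_lit 41547739973524) (nat_lit 1) (nat_lit 5) (nat_lit 3) (nat_lit 4) (nat_lit 1) (nat_lit 4) (nat_lit 279) (nat_lit 169) (nat_lit 152)) (XT.lf (nat_lit 0) (nat_lit 47780083830551) (nat_lit 152) (nat_lit 6667604413604) (nat_lit 0) (nat_lit 47779973501731) (nat_lit 1) (nat_lit 5) (nat_lit 3) (nat_lit 4) (nat_lit 1) (nat_lit 4) (nat_lit 280) (nat_lit 169) (nat_lit 151)))) (XT.nd (nat_lit 29640) (nat_lit 0) (nat_lit 0) (XT.nd (nat_lit 78) (nat_lit 0) (nat_lit 0) (XT.lf (nat_lit 0) (nat_lit 54947152600315)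 (nat_lit 152) (nat_lit 7667605922500) (nat_lit 0) (nat_lit 54947041006427) (nat_lit 1) (nat_lit 5) (nat_lit 3) (nat_lit 4) (nat_lit 1) (nat_lit 4) (nat_lit 281) (nat_lit 169) (nat_lit 150)) (XT.lf (nat_lit 0) (nat_lit 63189280415346) (nat_lit 152) (nat_lit 8817610039851) (nat_lit 0) (nat_lit 63189167721399) (nat_lit 1) (nat_lit 5) (nat_lit 3) (nat_lit 4) (nat_lit 1) (nat_lit 4) (nat_lit 282) (nat_lit 169) (nat_lit 149))) (XT.nd (nat_lit 78) (nat_lit 0) (nat_lit 0) (XT.lf (nat_lit 0) (nat_lit 1459273561287) (nat_lit 152) (nat_lit 204596458745) (nat_lit 0) (nat_lit 1459273561287) (nat_lit 1) (nat_lit 5) (nat_lit 3) (nat_lit 4) (nat_lit 1) (nat_lit 4) (nat_lit 260) (nat_lit 170) (nat_lit 170)) (XT.lf (nat_lit 0) (nat_lit 3356521208003) (nat_lit 152) (nat_lit 470172917426) (nat_lit 0) (nat_lit 3356503203852) (nat_lit 1) (nat_lit 5) (nat_lit 3) (nat_lit 4) (nat_lit 1) (nat_lit 4) (nat_lit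 261) (nat_lit 170) (nat_lit 169))))))) (XT.nd (nat_lit 1170) (nat_lit 0) (nat_lit 0) (XT.nd (nat_lit 546) (nat_lit 0) (nat_lit 0) (XT.nd (nat_lit 234) (nat_lit 0) (nat_lit 0) (XT.nd (nat_lit 78) (nat_lit 0) (nat_lit 0) (XT.lf (nat_lit 0) (nat_lit 3860173329095) (nat_lit 152) (nat_lit 540333819171) (nat_lit 0) (nat_lit 3860139669161) (nat_lit 1) (nat_lit 5) (nat_lit 3) (nat_lit 4) (nat_lit 1) (nat_lit 4) (nat_lit 262) (nat_lit 170) (nat_lit 168)) (XT.nd (nat_lit 78) (nat_lit 0) (nat_lit 0) (XT.lf (nat_lit 0) (nat_lit 4439357549090) (nat_lit 152) (nat_lit 621048336021) (nat_lit 0) (nat_lit 4439310275431) (nat_lit 1) (nat_lit 5) (nat_lit 3) (nat_lit 4) (nat_lit 1) (nat_lit 4) (nat_lit 263) (nat_lit 170) (nat_lit 167)) (XT.lf (nat_lit 0) (nat_lit 5105405733161) (nat_lit 152) (nat_lit 713895665044) (nat_lit 0) (nat_lit 5105346621481) (nat_lit 1) (nat_lit 5) (nat_lit 3) (nat_lit 4) (nat_lit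 1) (nat_lit 4) (nat_lit 264) (nat_lit 170) (nat_lit 166)))) (XT.nd (nat_lit 156) (nat_lit 0) (nat_lit 0) (XT.nd (nat_lit 78) (nat_lit 0) (nat_lit 0) (XT.lf (nat_lit 0) (nat_lit 5871349258823) (nat_lit 152) (nat_lit 820692384418) (nat_lit 0) (nat_lit 5871279853212) (nat_lit 1) (nat_lit 5) (nat_lit 3) (nat_lit 4) (nat_lit 1) (nat_lit 4) (nat_lit 265) (nat_lit 170) (nat_lit 165)) (XT.lf (nat_lit 0) (nat_lit 6752173977665) (nat_lit 152) (nat_lit 943527995172) (nat_lit 0) (nat_lit 6752095620809) (nat_lit 1) (nat_lit 5) (nat_lit 3) (nat_lit 4) (nat_lit 1) (nat_lit 4) (nat_lit 266) (nat_lit 170) (nat_lit 164))) (XT.nd (nat_lit 78) (nat_lit 0) (nat_lit 0) (XT.lf (nat_lit 0) (nat_lit 7765113416795) (nat_lit 152) (nat_lit 1084805802736) (nat_lit 0) (nat_lit 7765027276248) (nat_lit 1) (nat_lit 5) (nat_lit 3) (nat_lit 4) (nat_lit 1) (nat_lit 4) (nat_lit 267) (nat_lit 170) (nat_lit 163)) (XT.lf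 (nat_lit 0) (nat_lit 8929985956543) (nat_lit 152) (nat_lit 1247289938126) (nat_lit 0) (nat_lit 8929893047570) (nat_lit 1) (nat_lit 5) (nat_lit 3) (nat_lit 4) (nat_lit 1) (nat_lit 4) (nat_lit 268) (nat_lit 170) (nat_lit 162))))) (XT.nd (nat_lit 312) (nat_lit 0) (nat_lit 0) (XT.nd (nat_lit 156) (nat_lit 0) (nat_lit 0) (XT.nd (nat_lit 78) (nat_lit 0) (nat_lit 0) (XT.lf (nat_lit 0) (nat_lit 10269582581384) (nat_lit 152) (nat_lit 1434159438775) (nat_lit 0) (nat_lit 10269483786821) (nat_lit 1) (nat_lit 5) (nat_lit 3) (nat_lit 4) (nat_lit 1) (nat_lit 4) (nat_lit 269) (nat_lit 170) (nat_lit 161)) (XT.lf (nat_lit 0) (nat_lit 11810112790498) (nat_lit 152) (nat_lit 1649070447085) (nat_lit 0) (nat_lit 11810008878032) (nat_lit 1) (nat_lit 5) (nat_lit 3) (nat_lit 4) (nat_lit 1) (nat_lit 4) (nat_lit 270) (nat_lit 170) (nat_lit 160))) (XT.nd (nat_lit 78) (nat_lit 0) (nat_lit 0) (XT.lf (nat_lit 0)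 (nat_lit 13581717392324) (nat_lit 152) (nat_lit 1896227743656) (nat_lit 0) (nat_lit 13581609029508) (nat_lit 1) (nat_lit 5) (nat_lit 3) (nat_lit 4) (nat_lit 1) (nat_lit 4) (nat_lit 271) (nat_lit 170) (nat_lit 159)) (XT.lf (nat_lit 0) (nat_lit 15619058216030) (nat_lit 152) (nat_lit 2180467014722) (nat_lit 0) (nat_lit 15618945983343) (nat_lit 1) (nat_lit 5) (nat_lit 3) (nat_lit 4) (nat_lit 1) (nat_lit 4) (nat_lit 272) (nat_lit 170) (nat_lit 158)))) (XT.nd (nat_lit 156) (nat_lit 0) (nat_lit 0) (XT.nd (nat_lit 78) (nat_lit 0) (nat_lit 0) (XT.lf (nat_lit 0) (nat_lit 17961996277731) (nat_lit 152) (nat_lit 2507349463416) (nat_lit 0) (nat_lit 17961880679939) (nat_lit 1) (nat_lit 5) (nat_lit 3) (nat_lit 4) (nat_lit 1) (nat_lit 4) (nat_lit 273) (nat_lit 170) (nat_lit 157)) (XT.lf (nat_lit 0) (nat_lit 20656371669938) (nat_lit 152) (nat_lit 2883270615905) (nat_lit 0) (nat_lit 20656253145968)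 (nat_lit 1) (nat_lit 5) (nat_lit 3) (nat_lit 4) (nat_lit 1) (nat_lit 4) (nat_lit 274) (nat_lit 170) (nat_lit 156))) (XT.nd (nat_lit 78) (nat_lit 0) (nat_lit 0) (XT.lf (nat_lit 0) (nat_lit 23754900432933) (nat_lit 152) (nat_lit 3315585451262) (nat_lit 0) (nat_lit 23754779364462) (nat_lit 1) (nat_lit 5) (nat_lit 3) (nat_lit 4) (nat_lit 1) (nat_lit 4) (nat_lit 275) (nat_lit 170) (nat_lit 155)) (XT.lf (nat_lit 0) (nat_lit 27318205955559) (nat_lit 152) (nat_lit 3812752303221) (nat_lit 0) (nat_lit 27318082674477) (nat_lit 1) (nat_lit 5) (nat_lit 3) (nat_lit 4) (nat_lit 1) (nat_lit 4) (nat_lit 276) (nat_lit 170) (nat_lit 154)))))) (XT.nd (nat_lit 30108) (nat_lit 0) (nat_lit 0) (XT.nd (nat_lit 29796) (nat_lit 0) (nat_lit 0) (XT.nd (nat_lit 156) (nat_lit 0) (nat_lit 0) (XT.lf (nat_lit 0) (nat_lit 31416005084996) (nat_lit 152) (nat_lit 4384498349320) (nat_lit 0) (nat_lit 31415879879904) (nat_lit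 1) (nat_lit 5) (nat_lit 3) (nat_lit 4) (nat_lit 1) (nat_lit 4) (nat_lit 277) (nat_lit 170) (nat_lit 153)) (XT.nd (nat_lit 78) (nat_lit 0) (nat_lit 0) (XT.lf (nat_lit 0) (nat_lit 41547807599302) (nat_lit 152) (nat_lit 5798151387913) (nat_lit 0) (nat_lit 41547679266332) (nat_lit 1) (nat_lit 5) (nat_lit 3) (nat_lit 4) (nat_lit 1) (nat_lit 4) (nat_lit 279) (nat_lit 170) (nat_lit 151)) (XT.lf (nat_lit 0) (nat_lit 47780041902929) (nat_lit 152) (nat_lit 6667716809424) (nat_lit 0) (nat_lit 47779912304891) (nat_lit 1) (nat_lit 5) (nat_lit 3) (nat_lit 4) (nat_lit 1) (nat_lit 4) (nat_lit 280) (nat_lit 170) (nat_lit 150)))) (XT.nd (nat_lit 156) (nat_lit 0) (nat_lit 0) (XT.nd (nat_lit 78) (nat_lit 0) (nat_lit 0) (XT.lf (nat_lit 0) (nat_lit 1103252999909) (nat_lit 152) (nat_lit 155069352500) (nat_lit 0) (nat_lit 1103252999909) (nat_lit 1) (nat_lit 5) (nat_lit 3) (nat_lit 4) (nat_lit 1) (nat_lit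 4) (nat_lit 258) (nat_lit 171) (nat_lit 171)) (XT.lf (nat_lit 0) (nat_lit 2537702719390) (nat_lit 152) (nat_lit 356200732409) (nat_lit 0) (nat_lit 2537682014617) (nat_lit 1) (nat_lit 5) (nat_lit 3) (nat_lit 4) (nat_lit 1) (nat_lit 4) (nat_lit 259) (nat_lit 171) (nat_lit 170))) (XT.nd (nat_lit 78) (nat_lit 0) (nat_lit 0) (XT.lf (nat_lit 0) (nat_lit 2918558158174) (nat_lit 152) (nat_lit 409211051022) (nat_lit 0) (nat_lit 2918519449251) (nat_lit 1) (nat_lit 5) (nat_lit 3) (nat_lit 4) (nat_lit 1) (nat_lit 4) (nat_lit 260) (nat_lit 171) (nat_lit 169)) (XT.lf (nat_lit 0) (nat_lit 3356523835626) (nat_lit 152) (nat_lit 470206819245) (nat_lit 0) (nat_lit 3356469470919) (nat_lit 1) (nat_lit 5) (nat_lit 3) (nat_lit 4) (nat_lit 1) (nat_lit 4) (nat_lit 261) (nat_lit 171) (nat_lit 168))))) (XT.nd (nat_lit 312) (nat_lit 0) (nat_lit 0) (XT.nd (nat_lit 156) (nat_lit 0) (nat_lit 0) (XT.nd (nat_lit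 78) (nat_lit 0) (nat_lit 0) (XT.lf (nat_lit 0) (nat_lit 3860168645433) (nat_lit 152) (nat_lit 540381432545) (nat_lit 0) (nat_lit 3860100667002) (nat_lit 1) (nat_lit 5) (nat_lit 3) (nat_lit 4) (nat_lit 1) (nat_lit 4) (nat_lit 262) (nat_lit 171) (nat_lit 167)) (XT.lf (nat_lit 0) (nat_lit 4439346507790) (nat_lit 152) (nat_lit 621107872486) (nat_lit 0) (nat_lit 4439266691337) (nat_lit 1) (nat_lit 5) (nat_lit 3) (nat_lit 4) (nat_lit 1) (nat_lit 4) (nat_lit 263) (nat_lit 171) (nat_lit 166))) (XT.nd (nat_lit 78) (nat_lit 0) (nat_lit 0) (XT.lf (nat_lit 0) (nat_lit 5105389163480) (nat_lit 152) (nat_lit 713965569415) (nat_lit 0) (nat_lit 5105299053096) (nat_lit 1) (nat_lit 5) (nat_lit 3) (nat_lit 4) (nat_lit 1) (nat_lit 4) (nat_lit 264) (nat_lit 171) (nat_lit 165)) (XT.lf (nat_lit 0) (nat_lit 5871327881854) (nat_lit 152) (nat_lit 820771304358) (nat_lit 0) (nat_lit 5871228820225) (nat_lit 1)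 (nat_lit 5) (nat_lit 3) (nat_lit 4) (nat_lit 1) (nat_lit 4) (nat_lit 265) (nat_lit 171) (nat_lit 164)))) (XT.nd (nat_lit 156) (nat_lit 0) (nat_lit 0) (XT.nd (nat_lit 78) (nat_lit 0) (nat_lit 0) (XT.lf (nat_lit 0) (nat_lit 6752148420445) (nat_lit 152) (nat_lit 943614754739) (nat_lit 0) (nat_lit 6752041575125) (nat_lit 1) (nat_lit 5) (nat_lit 3) (nat_lit 4) (nat_lit 1) (nat_lit 4) (nat_lit 266) (nat_lit 171) (nat_lit 163)) (XT.lf (nat_lit 0) (nat_lit 7765084224575) (nat_lit 152) (nat_lit 1084899379369) (nat_lit 0) (nat_lit 7764970610828) (nat_lit 1) (nat_lit 5) (nat_lit 3) (nat_lit 4) (nat_lit 1) (nat_lit 4) (nat_lit 267) (nat_lit 171) (nat_lit 162))) (XT.nd (nat_lit 78) (nat_lit 0) (nat_lit 0) (XT.lf (nat_lit 0) (nat_lit 8929953603453) (nat_lit 152) (nat_lit 1247389442643) (nat_lit 0) (nat_lit 8929834104118) (nat_lit 1) (nat_lit 5) (nat_lit 3) (nat_lit 4) (nat_lit 1) (nat_lit 4) (nat_lit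 268) (nat_lit 171) (nat_lit 161)) (XT.lf (nat_lit 0) (nat_lit 10269547479711) (nat_lit 152) (nat_lit 1434264097972) (nat_lit 0) (nat_lit 10269422862472) (nat_lit 1) (nat_lit 5) (nat_lit 3) (nat_lit 4) (nat_lit 1) (nat_lit 4) (nat_lit 269) (nat_lit 171) (nat_lit 160))))))))
noncomputable def xc2 : XT := (XT.nd (nat_lit 61464) (nat_lit 0) (nat_lit 0) (XT.nd (nat_lit 30732) (nat_lit 0) (nat_lit 0) (XT.nd (nat_lit 30186) (nat_lit 0) (nat_lit 0) (XT.nd (nat_lit 234) (nat_lit 0) (nat_lit 0) (XT.nd (nat_lit 78) (nat_lit 0) (nat_lit 0) (XT.lf (nat_lit 0) (nat_lit 11810075298753) (nat_lit 152) (nat_lit 1649179588615) (nat_lit 0) (nat_lit 11809946231164) (nat_lit 1) (nat_lit 5) (nat_lit 3) (nat_lit 4) (nat_lit 1) (nat_lit 4) (nat_lit 270) (nat_lit 171) (nat_lit 159)) (XT.nd (nat_lit 78) (nat_lit 0) (nat_lit 0) (XT.lf (nat_lit 0) (nat_lit 13581677822257) (nat_lit 152) (nat_lit 1896340782864)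 (nat_lit 0) (nat_lit 13581544884797) (nat_lit 1) (nat_lit 5) (nat_lit 3) (nat_lit 4) (nat_lit 1) (nat_lit 4) (nat_lit 271) (nat_lit 171) (nat_lit 158)) (XT.lf (nat_lit 0) (nat_lit 15619016838725) (nat_lit 152) (nat_lit 2180583443218) (nat_lit 0) (nat_lit 15618880536160) (nat_lit 1) (nat_lit 5) (nat_lit 3) (nat_lit 4) (nat_lit 1) (nat_lit 4) (nat_lit 272) (nat_lit 171) (nat_lit 157)))) (XT.nd (nat_lit 156) (nat_lit 0) (nat_lit 0) (XT.nd (nat_lit 78) (nat_lit 0) (nat_lit 0) (XT.lf (nat_lit 0) (nat_lit 17961953328914) (nat_lit 152) (nat_lit 2507468839117) (nat_lit 0) (nat_lit 17961814100172) (nat_lit 1) (nat_lit 5) (nat_lit 3) (nat_lit 4) (nat_lit 1) (nat_lit 4) (nat_lit 273) (nat_lit 171) (nat_lit 156)) (XT.lf (nat_lit 0) (nat_lit 20656327354590) (nat_lit 152) (nat_lit 2883392554394) (nat_lit 0) (nat_lit 20656185581345) (nat_lit 1) (nat_lit 5) (nat_lit 3) (nat_lit 4) (nat_lit 1) (nat_lit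 4) (nat_lit 274) (nat_lit 171) (nat_lit 155))) (XT.nd (nat_lit 78) (nat_lit 0) (nat_lit 0) (XT.lf (nat_lit 0) (nat_lit 23754854929297) (nat_lit 152) (nat_lit 3315709618262) (nat_lit 0) (nat_lit 23754710943442) (nat_lit 1) (nat_lit 5) (nat_lit 3) (nat_lit 4) (nat_lit 1) (nat_lit 4) (nat_lit 275) (nat_lit 171) (nat_lit 154)) (XT.lf (nat_lit 0) (nat_lit 27318159418629) (nat_lit 152) (nat_lit 3812878408056) (nat_lit 0) (nat_lit 27318013508764) (nat_lit 1) (nat_lit 5) (nat_lit 3) (nat_lit 4) (nat_lit 1) (nat_lit 4) (nat_lit 276) (nat_lit 171) (nat_lit 153))))) (XT.nd (nat_lit 234) (nat_lit 0) (nat_lit 0) (XT.nd (nat_lit 78) (nat_lit 0) (nat_lit 0) (XT.lf (nat_lit 0) (nat_lit 834025187650) (nat_lit 152) (nat_lit 117674500134) (nat_lit 0) (nat_lit 834025187650) (nat_lit 1) (nat_lit 5) (nat_lit 3) (nat_lit 4) (nat_lit 1) (nat_lit 4) (nat_lit 256) (nat_lit 172) (nat_lit 172)) (XT.nd (nat_lit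 78) (nat_lit 0) (nat_lit 0) (XT.lf (nat_lit 0) (nat_lit 1918511874132) (nat_lit 152) (nat_lit 270123755216) (nat_lit 0) (nat_lit 1918488063643) (nat_lit 1) (nat_lit 5) (nat_lit 3) (nat_lit 4) (nat_lit 1) (nat_lit 4) (nat_lit 257) (nat_lit 172) (nat_lit 171)) (XT.lf (nat_lit 0) (nat_lit 2206518690759) (nat_lit 152) (nat_lit 310159558562) (nat_lit 0) (nat_lit 2206474175497) (nat_lit 1) (nat_lit 5) (nat_lit 3) (nat_lit 4) (nat_lit 1) (nat_lit 4) (nat_lit 258) (nat_lit 172) (nat_lit 170)))) (XT.nd (nat_lit 156) (nat_lit 0) (nat_lit 0) (XT.nd (nat_lit 78) (nat_lit 0) (nat_lit 0) (XT.lf (nat_lit 0) (nat_lit 2537705741157) (nat_lit 152) (nat_lit 356239719502) (nat_lit 0) (nat_lit 2537643221744) (nat_lit 1) (nat_lit 5) (nat_lit 3) (nat_lit 4) (nat_lit 1) (nat_lit 4) (nat_lit 259) (nat_lit 172) (nat_lit 169)) (XT.lf (nat_lit 0) (nat_lit 2918552771964) (nat_lit 152) (nat_lit 409265806402) (nat_lit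 0) (nat_lit 2918474596768) (nat_lit 1) (nat_lit 5) (nat_lit 3) (nat_lit 4) (nat_lit 1) (nat_lit 4) (nat_lit 260) (nat_lit 172) (nat_lit 168))) (XT.nd (nat_lit 78) (nat_lit 0) (nat_lit 0) (XT.lf (nat_lit 0) (nat_lit 3356511138131) (nat_lit 152) (nat_lit 470275286180) (nat_lit 0) (nat_lit 3356419349210) (nat_lit 1) (nat_lit 5) (nat_lit 3) (nat_lit 4) (nat_lit 1) (nat_lit 4) (nat_lit 261) (nat_lit 172) (nat_lit 167)) (XT.lf (nat_lit 0) (nat_lit 3860149590300) (nat_lit 152) (nat_lit 540461822572) (nat_lit 0) (nat_lit 3860045963358) (nat_lit 1) (nat_lit 5) (nat_lit 3) (nat_lit 4) (nat_lit 1) (nat_lit 4) (nat_lit 262) (nat_lit 172) (nat_lit 166)))))) (XT.nd (nat_lit 546) (nat_lit 0) (nat_lit 0) (XT.nd (nat_lit 234) (nat_lit 0) (nat_lit 0) (XT.nd (nat_lit 78) (nat_lit 0) (nat_lit 0) (XT.lf (nat_lit 0) (nat_lit 4439321924275) (nat_lit 152) (nat_lit 621198630418) (nat_lit 0) (nat_lit 4439208003402)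 (nat_lit 1) (nat_lit 5) (nat_lit 3) (nat_lit 4) (nat_lit 1) (nat_lit 4) (nat_lit 263) (nat_lit 172) (nat_lit 165)) (XT.nd (nat_lit 78) (nat_lit 0) (nat_lit 0) (XT.lf (nat_lit 0) (nat_lit 5105359772677) (nat_lit 152) (nat_lit 714065342917) (nat_lit 0) (nat_lit 5105236900559) (nat_lit 1) (nat_lit 5) (nat_lit 3) (nat_lit 4) (nat_lit 1) (nat_lit 4) (nat_lit 264) (nat_lit 172) (nat_lit 164)) (XT.lf (nat_lit 0) (nat_lit 5871294310801) (nat_lit 152) (nat_lit 820878917486) (nat_lit 0) (nat_lit 5871163654991) (nat_lit 1) (nat_lit 5) (nat_lit 3) (nat_lit 4) (nat_lit 1) (nat_lit 4) (nat_lit 265) (nat_lit 172) (nat_lit 163)))) (XT.nd (nat_lit 156) (nat_lit 0) (nat_lit 0) (XT.nd (nat_lit 78) (nat_lit 0) (nat_lit 0) (XT.lf (nat_lit 0) (nat_lit 6752111214392) (nat_lit 152) (nat_lit 943729184933) (nat_lit 0) (nat_lit 6751973790156) (nat_lit 1) (nat_lit 5) (nat_lit 3) (nat_lit 4) (nat_lit 1) (nat_lit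 4) (nat_lit 266) (nat_lit 172) (nat_lit 162)) (XT.lf (nat_lit 0) (nat_lit 7765043857651) (nat_lit 152) (nat_lit 1085019737446) (nat_lit 0) (nat_lit 7764900547826) (nat_lit 1) (nat_lit 5) (nat_lit 3) (nat_lit 4) (nat_lit 1) (nat_lit 4) (nat_lit 267) (nat_lit 172) (nat_lit 161))) (XT.nd (nat_lit 78) (nat_lit 0) (nat_lit 0) (XT.lf (nat_lit 0) (nat_lit 8929910487947) (nat_lit 152) (nat_lit 1247514955401) (nat_lit 0) (nat_lit 8929762060219) (nat_lit 1) (nat_lit 5) (nat_lit 3) (nat_lit 4) (nat_lit 1) (nat_lit 4) (nat_lit 268) (nat_lit 172) (nat_lit 160)) (XT.lf (nat_lit 0) (nat_lit 10269501974133) (nat_lit 152) (nat_lit 1434394093062) (nat_lit 0) (nat_lit 10269349096054) (nat_lit 1) (nat_lit 5) (nat_lit 3) (nat_lit 4) (nat_lit 1) (nat_lit 4) (nat_lit 269) (nat_lit 172) (nat_lit 159))))) (XT.nd (nat_lit 312) (nat_lit 0) (nat_lit 0) (XT.nd (nat_lit 156) (nat_lit 0) (nat_lit 0) (XT.nd (nat_lit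 78) (nat_lit 0) (nat_lit 0) (XT.lf (nat_lit 0) (nat_lit 11810027714852) (nat_lit 152) (nat_lit 1649313481384) (nat_lit 0) (nat_lit 11809870966903) (nat_lit 1) (nat_lit 5) (nat_lit 3) (nat_lit 4) (nat_lit 1) (nat_lit 4) (nat_lit 270) (nat_lit 172) (nat_lit 158)) (XT.lf (nat_lit 0) (nat_lit 13581628431118) (nat_lit 152) (nat_lit 1896478064921) (nat_lit 0) (nat_lit 13581468318064) (nat_lit 1) (nat_lit 5) (nat_lit 3) (nat_lit 4) (nat_lit 1) (nat_lit 4) (nat_lit 271) (nat_lit 172) (nat_lit 157))) (XT.nd (nat_lit 78) (nat_lit 0) (nat_lit 0) (XT.lf (nat_lit 0) (nat_lit 15618965876075) (nat_lit 152) (nat_lit 2180723672480) (nat_lit 0) (nat_lit 15618802836844) (nat_lit 1) (nat_lit 5) (nat_lit 3) (nat_lit 4) (nat_lit 1) (nat_lit 4) (nat_lit 272) (nat_lit 172) (nat_lit 156)) (XT.lf (nat_lit 0) (nat_lit 17961900999733) (nat_lit 152) (nat_lit 2507611631167) (nat_lit 0) (nat_lit 17961735415999)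 (nat_lit 1) (nat_lit 5) (nat_lit 3) (nat_lit 4) (nat_lit 1) (nat_lit 4) (nat_lit 273) (nat_lit 172) (nat_lit 155)))) (XT.nd (nat_lit 29718) (nat_lit 0) (nat_lit 0) (XT.nd (nat_lit 78) (nat_lit 0) (nat_lit 0) (XT.lf (nat_lit 0) (nat_lit 20656273837121) (nat_lit 152) (nat_lit 2883537574955) (nat_lit 0) (nat_lit 20656106040776) (nat_lit 1) (nat_lit 5) (nat_lit 3) (nat_lit 4) (nat_lit 1) (nat_lit 4) (nat_lit 274) (nat_lit 172) (nat_lit 154)) (XT.lf (nat_lit 0) (nat_lit 23754800378534) (nat_lit 152) (nat_lit 3315856576658) (nat_lit 0) (nat_lit 23754630658180) (nat_lit 1) (nat_lit 5) (nat_lit 3) (nat_lit 4) (nat_lit 1) (nat_lit 4) (nat_lit 275) (nat_lit 172) (nat_lit 153))) (XT.nd (nat_lit 78) (nat_lit 0) (nat_lit 0) (XT.lf (nat_lit 0) (nat_lit 630421395100) (nat_lit 152) (nat_lit 89461588015) (nat_lit 0) (nat_lit 630421395100) (nat_lit 1) (nat_lit 5) (nat_lit 3) (nat_lit 4) (nat_lit 1)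 (nat_lit 4) (nat_lit 254) (nat_lit 173) (nat_lit 173)) (XT.lf (nat_lit 0) (nat_lit 1450261242650) (nat_lit 152) (nat_lit 205154918078) (nat_lit 0) (nat_lit 1450233860588) (nat_lit 1) (nat_lit 5) (nat_lit 3) (nat_lit 4) (nat_lit 1) (nat_lit 4) (nat_lit 255) (nat_lit 173) (nat_lit 172))))))) (XT.nd (nat_lit 1170) (nat_lit 0) (nat_lit 0) (XT.nd (nat_lit 546) (nat_lit 0) (nat_lit 0) (XT.nd (nat_lit 234) (nat_lit 0) (nat_lit 0) (XT.nd (nat_lit 78) (nat_lit 0) (nat_lit 0) (XT.lf (nat_lit 0) (nat_lit 1668064969880) (nat_lit 152) (nat_lit 235372981863) (nat_lit 0) (nat_lit 1668013777329) (nat_lit 1) (nat_lit 5) (nat_lit 3) (nat_lit 4) (nat_lit 1) (nat_lit 4) (nat_lit 256) (nat_lit 173) (nat_lit 171)) (XT.nd (nat_lit 78) (nat_lit 0) (nat_lit 0) (XT.lf (nat_lit 0) (nat_lit 1918515349164) (nat_lit 152) (nat_lit 270168590372) (nat_lit 0) (nat_lit 1918443451839) (nat_lit 1) (nat_lit 5) (nat_lit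 3) (nat_lit 4) (nat_lit 1) (nat_lit 4) (nat_lit 257) (nat_lit 173) (nat_lit 170)) (XT.lf (nat_lit 0) (nat_lit 2206512496617) (nat_lit 152) (nat_lit 310222527249) (nat_lit 0) (nat_lit 2206422595141) (nat_lit 1) (nat_lit 5) (nat_lit 3) (nat_lit 4) (nat_lit 1) (nat_lit 4) (nat_lit 258) (nat_lit 173) (nat_lit 169)))) (XT.nd (nat_lit 156) (nat_lit 0) (nat_lit 0) (XT.nd (nat_lit 78) (nat_lit 0) (nat_lit 0) (XT.lf (nat_lit 0) (nat_lit 2537691139038) (nat_lit 152) (nat_lit 356318456477) (nat_lit 0) (nat_lit 2537585581779) (nat_lit 1) (nat_lit 5) (nat_lit 3) (nat_lit 4) (nat_lit 1) (nat_lit 4) (nat_lit 259) (nat_lit 173) (nat_lit 168)) (XT.lf (nat_lit 0) (nat_lit 2918530858561) (nat_lit 152) (nat_lit 409358254932) (nat_lit 0) (nat_lit 2918411687578) (nat_lit 1) (nat_lit 5) (nat_lit 3) (nat_lit 4) (nat_lit 1) (nat_lit 4) (nat_lit 260) (nat_lit 173) (nat_lit 167))) (XT.nd (nat_lit 78) (nat_lit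 0) (nat_lit 0) (XT.lf (nat_lit 0) (nat_lit 3356482867089) (nat_lit 152) (nat_lit 470379657802) (nat_lit 0) (nat_lit 3356351858085) (nat_lit 1) (nat_lit 5) (nat_lit 3) (nat_lit 4) (nat_lit 1) (nat_lit 4) (nat_lit 261) (nat_lit 173) (nat_lit 166)) (XT.lf (nat_lit 0) (nat_lit 3860115790877) (nat_lit 152) (nat_lit 540576562098) (nat_lit 0) (nat_lit 3859974487941) (nat_lit 1) (nat_lit 5) (nat_lit 3) (nat_lit 4) (nat_lit 1) (nat_lit 4) (nat_lit 262) (nat_lit 173) (nat_lit 165))))) (XT.nd (nat_lit 312) (nat_lit 0) (nat_lit 0) (XT.nd (nat_lit 156) (nat_lit 0) (nat_lit 0) (XT.nd (nat_lit 78) (nat_lit 0) (nat_lit 0) (XT.lf (nat_lit 0) (nat_lit 4439283317564) (nat_lit 152) (nat_lit 621322385515) (nat_lit 0) (nat_lit 4439133063383) (nat_lit 1) (nat_lit 5) (nat_lit 3) (nat_lit 4) (nat_lit 1) (nat_lit 4) (nat_lit 263) (nat_lit 173) (nat_lit 164)) (XT.lf (nat_lit 0) (nat_lit 5105316985715) (nat_lit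 152) (nat_lit 714196937639) (nat_lit 0) (nat_lit 5105158947844) (nat_lit 1) (nat_lit 5) (nat_lit 3) (nat_lit 4) (nat_lit 1) (nat_lit 4) (nat_lit 264) (nat_lit 173) (nat_lit 163))) (XT.nd (nat_lit 78) (nat_lit 0) (nat_lit 0) (XT.lf (nat_lit 0) (nat_lit 5871247888839) (nat_lit 152) (nat_lit 821017329275) (nat_lit 0) (nat_lit 5871083082540) (nat_lit 1) (nat_lit 5) (nat_lit 3) (nat_lit 4) (nat_lit 1) (nat_lit 4) (nat_lit 265) (nat_lit 173) (nat_lit 162)) (XT.lf (nat_lit 0) (nat_lit 6752061631560) (nat_lit 152) (nat_lit 943873524605) (nat_lit 0) (nat_lit 6751890939672) (nat_lit 1) (nat_lit 5) (nat_lit 3) (nat_lit 4) (nat_lit 1) (nat_lit 4) (nat_lit 266) (nat_lit 173) (nat_lit 161)))) (XT.nd (nat_lit 156) (nat_lit 0) (nat_lit 0) (XT.nd (nat_lit 78) (nat_lit 0) (nat_lit 0) (XT.lf (nat_lit 0) (nat_lit 7764991526237) (nat_lit 152) (nat_lit 1085169231800) (nat_lit 0) (nat_lit 7764815716446)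 (nat_lit 1) (nat_lit 5) (nat_lit 3) (nat_lit 4) (nat_lit 1) (nat_lit 4) (nat_lit 267) (nat_lit 173) (nat_lit 160)) (XT.lf (nat_lit 0) (nat_lit 8929855766461) (nat_lit 152) (nat_lit 1247668932086) (nat_lit 0) (nat_lit 8929675506320) (nat_lit 1) (nat_lit 5) (nat_lit 3) (nat_lit 4) (nat_lit 1) (nat_lit 4) (nat_lit 268) (nat_lit 173) (nat_lit 159))) (XT.nd (nat_lit 78) (nat_lit 0) (nat_lit 0) (XT.lf (nat_lit 0) (nat_lit 10269445174324) (nat_lit 152) (nat_lit 1434551967427) (nat_lit 0) (nat_lit 10269261044312) (nat_lit 1) (nat_lit 5) (nat_lit 3) (nat_lit 4) (nat_lit 1) (nat_lit 4) (nat_lit 269) (nat_lit 173) (nat_lit 158)) (XT.lf (nat_lit 0) (nat_lit 11809969107805) (nat_lit 152) (nat_lit 1649474745036) (nat_lit 0) (nat_lit 11809781612689) (nat_lit 1) (nat_lit 5) (nat_lit 3) (nat_lit 4) (nat_lit 1) (nat_lit 4) (nat_lit 270) (nat_lit 173) (nat_lit 157)))))) (XT.nd (nat_lit 30030) (nat_lit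 0) (nat_lit 0) (XT.nd (nat_lit 234) (nat_lit 0) (nat_lit 0) (XT.nd (nat_lit 78) (nat_lit 0) (nat_lit 0) (XT.lf (nat_lit 0) (nat_lit 13581568252560) (nat_lit 152) (nat_lit 1896642275778) (nat_lit 0) (nat_lit 13581377831266) (nat_lit 1) (nat_lit 5) (nat_lit 3) (nat_lit 4) (nat_lit 1) (nat_lit 4) (nat_lit 271) (nat_lit 173) (nat_lit 156)) (XT.nd (nat_lit 78) (nat_lit 0) (nat_lit 0) (XT.lf (nat_lit 0) (nat_lit 15618904330985) (nat_lit 152) (nat_lit 2180890446125) (nat_lit 0) (nat_lit 15618711365189) (nat_lit 1) (nat_lit 5) (nat_lit 3) (nat_lit 4) (nat_lit 1) (nat_lit 4) (nat_lit 272) (nat_lit 173) (nat_lit 155)) (XT.lf (nat_lit 0) (nat_lit 17961838266356) (nat_lit 152) (nat_lit 2507780633323) (nat_lit 0) (nat_lit 17961643087948) (nat_lit 1) (nat_lit 5) (nat_lit 3) (nat_lit 4) (nat_lit 1) (nat_lit 4) (nat_lit 273) (nat_lit 173) (nat_lit 154)))) (XT.nd (nat_lit 29640) (nat_lit 0) (nat_lit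 0) (XT.nd (nat_lit 29562) (nat_lit 0) (nat_lit 0) (XT.lf (nat_lit 0) (nat_lit 20656210070449) (nat_lit 152) (nat_lit 2883708514947) (nat_lit 0) (nat_lit 20656012968033) (nat_lit 1) (nat_lit 5) (nat_lit 3) (nat_lit 4) (nat_lit 1) (nat_lit 4) (nat_lit 274) (nat_lit 173) (nat_lit 153)) (XT.lf (nat_lit 0) (nat_lit 476434456391) (nat_lit 152) (nat_lit 68200987171) (nat_lit 0) (nat_lit 476434456391) (nat_lit 1) (nat_lit 5) (nat_lit 3) (nat_lit 4) (nat_lit 1) (nat_lit 4) (nat_lit 252) (nat_lit 174) (nat_lit 174))) (XT.nd (nat_lit 78) (nat_lit 0) (nat_lit 0) (XT.lf (nat_lit 0) (nat_lit 1096135088706) (nat_lit 152) (nat_lit 156164525983) (nat_lit 0) (nat_lit 1096103599334) (nat_lit 1) (nat_lit 5) (nat_lit 3) (nat_lit 4) (nat_lit 1) (nat_lit 4) (nat_lit 253) (nat_lit 174) (nat_lit 173)) (XT.lf (nat_lit 0) (nat_lit 1260859573969) (nat_lit 152) (nat_lit 178950754864) (nat_lit 0) (nat_lit 1260800702535)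 (nat_lit 1) (nat_lit 5) (nat_lit 3) (nat_lit 4) (nat_lit 1) (nat_lit 4) (nat_lit 254) (nat_lit 174) (nat_lit 172))))) (XT.nd (nat_lit 312) (nat_lit 0) (nat_lit 0) (XT.nd (nat_lit 156) (nat_lit 0) (nat_lit 0) (XT.nd (nat_lit 78) (nat_lit 0) (nat_lit 0) (XT.lf (nat_lit 0) (nat_lit 1450265238936) (nat_lit 152) (nat_lit 205206478508) (nat_lit 0) (nat_lit 1450182557012) (nat_lit 1) (nat_lit 5) (nat_lit 3) (nat_lit 4) (nat_lit 1) (nat_lit 4) (nat_lit 255) (nat_lit 174) (nat_lit 171)) (XT.lf (nat_lit 0) (nat_lit 1668057846617) (nat_lit 152) (nat_lit 235445395854) (nat_lit 0) (nat_lit 1667954459920) (nat_lit 1) (nat_lit 5) (nat_lit 3) (nat_lit 4) (nat_lit 1) (nat_lit 4) (nat_lit 256) (nat_lit 174) (nat_lit 170))) (XT.nd (nat_lit 78) (nat_lit 0) (nat_lit 0) (XT.lf (nat_lit 0) (nat_lit 1918498556727) (nat_lit 152) (nat_lit 270259137893) (nat_lit 0) (nat_lit 1918377165880) (nat_lit 1) (nat_lit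 5) (nat_lit 3) (nat_lit 4) (nat_lit 1) (nat_lit 4) (nat_lit 257) (nat_lit 174) (nat_lit 169)) (XT.lf (nat_lit 0) (nat_lit 2206487296203) (nat_lit 152) (nat_lit 310328843059) (nat_lit 0) (nat_lit 2206350249573) (nat_lit 1) (nat_lit 5) (nat_lit 3) (nat_lit 4) (nat_lit 1) (nat_lit 4) (nat_lit 258) (nat_lit 174) (nat_lit 168)))) (XT.nd (nat_lit 156) (nat_lit 0) (nat_lit 0) (XT.nd (nat_lit 78) (nat_lit 0) (nat_lit 0) (XT.lf (nat_lit 0) (nat_lit 2537658627340) (nat_lit 152) (nat_lit 356438483842) (nat_lit 0) (nat_lit 2537507966985) (nat_lit 1) (nat_lit 5) (nat_lit 3) (nat_lit 4) (nat_lit 1) (nat_lit 4) (nat_lit 259) (nat_lit 174) (nat_lit 167)) (XT.lf (nat_lit 0) (nat_lit 2918491989224) (nat_lit 152) (nat_lit 409490205388) (nat_lit 0) (nat_lit 2918329490848) (nat_lit 1) (nat_lit 5) (nat_lit 3) (nat_lit 4) (nat_lit 1) (nat_lit 4) (nat_lit 260) (nat_lit 174) (nat_lit 166))) (XT.nd (nat_lit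 78) (nat_lit 0) (nat_lit 0) (XT.lf (nat_lit 0) (nat_lit 3356438469371) (nat_lit 152) (nat_lit 470521976163) (nat_lit 0) (nat_lit 3356265677064) (nat_lit 1) (nat_lit 5) (nat_lit 3) (nat_lit 4) (nat_lit 1) (nat_lit 4) (nat_lit 261) (nat_lit 174) (nat_lit 165)) (XT.lf (nat_lit 0) (nat_lit 3860066585871) (nat_lit 152) (nat_lit 540727896030) (nat_lit 0) (nat_lit 3859884842319) (nat_lit 1) (nat_lit 5) (nat_lit 3) (nat_lit 4) (nat_lit 1) (nat_lit 4) (nat_lit 262) (nat_lit 174) (nat_lit 164))))))))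
noncomputable def xc3 : XT := (XT.nd (nat_lit 31746) (nat_lit 0) (nat_lit 0) (XT.nd (nat_lit 30576) (nat_lit 0) (nat_lit 0) (XT.nd (nat_lit 546) (nat_lit 0) (nat_lit 0) (XT.nd (nat_lit 234) (nat_lit 0) (nat_lit 0) (XT.nd (nat_lit 78) (nat_lit 0) (nat_lit 0) (XT.lf (nat_lit 0) (nat_lit 4439229932308) (nat_lit 152) (nat_lit 621481559072) (nat_lit 0) (nat_lit 4439040405064) (nat_lit 1) (nat_lit 5) (nat_lit 3) (nat_lit 4) (nat_lit 1) (nat_lit 4) (nat_lit 263) (nat_lit 174) (nat_lit 163)) (XT.nd (nat_lit 78) (nat_lit 0) (nat_lit 0) (XT.lf (nat_lit 0) (nat_lit 5105259965459) (nat_lit 152) (nat_lit 714362928262) (nat_lit 0) (nat_lit 5105063669788) (nat_lit 1) (nat_lit 5) (nat_lit 3) (nat_lit 4) (nat_lit 1) (nat_lit 4) (nat_lit 264) (nat_lit 174) (nat_lit 162)) (XT.lf (nat_lit 0) (nat_lit 5871187707712) (nat_lit 152) (nat_lit 821189247781) (nat_lit 0) (nat_lit 5870985526452) (nat_lit 1) (nat_lit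 5) (nat_lit 3) (nat_lit 4) (nat_lit 1) (nat_lit 4) (nat_lit 265) (nat_lit 174) (nat_lit 161)))) (XT.nd (nat_lit 156) (nat_lit 0) (nat_lit 0) (XT.nd (nat_lit 78) (nat_lit 0) (nat_lit 0) (XT.lf (nat_lit 0) (nat_lit 6751998701851) (nat_lit 152) (nat_lit 944050597793) (nat_lit 0) (nat_lit 6751791402688) (nat_lit 1) (nat_lit 5) (nat_lit 3) (nat_lit 4) (nat_lit 1) (nat_lit 4) (nat_lit 266) (nat_lit 174) (nat_lit 160)) (XT.lf (nat_lit 0) (nat_lit 7764926206456) (nat_lit 152) (nat_lit 1085350787319) (nat_lit 0) (nat_lit 7764714456942) (nat_lit 1) (nat_lit 5) (nat_lit 3) (nat_lit 4) (nat_lit 1) (nat_lit 4) (nat_lit 267) (nat_lit 174) (nat_lit 159))) (XT.nd (nat_lit 78) (nat_lit 0) (nat_lit 0) (XT.lf (nat_lit 0) (nat_lit 8929788368357) (nat_lit 152) (nat_lit 1247854385286) (nat_lit 0) (nat_lit 8929572748973) (nat_lit 1) (nat_lit 5) (nat_lit 3) (nat_lit 4) (nat_lit 1) (nat_lit 4) (nat_lit 268)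 (nat_lit 174) (nat_lit 158)) (XT.lf (nat_lit 0) (nat_lit 10269375968982) (nat_lit 152) (nat_lit 1434740809913) (nat_lit 0) (nat_lit 10269156984494) (nat_lit 1) (nat_lit 5) (nat_lit 3) (nat_lit 4) (nat_lit 1) (nat_lit 4) (nat_lit 269) (nat_lit 174) (nat_lit 157))))) (XT.nd (nat_lit 29718) (nat_lit 0) (nat_lit 0) (XT.nd (nat_lit 156) (nat_lit 0) (nat_lit 0) (XT.nd (nat_lit 78) (nat_lit 0) (nat_lit 0) (XT.lf (nat_lit 0) (nat_lit 11809898330952) (nat_lit 152) (nat_lit 1649666534728) (nat_lit 0) (nat_lit 11809676420286) (nat_lit 1) (nat_lit 5) (nat_lit 3) (nat_lit 4) (nat_lit 1) (nat_lit 4) (nat_lit 270) (nat_lit 174) (nat_lit 156)) (XT.lf (nat_lit 0) (nat_lit 13581496109175) (nat_lit 152) (nat_lit 1896836628257) (nat_lit 0) (nat_lit 13581271654007) (nat_lit 1) (nat_lit 5) (nat_lit 3) (nat_lit 4) (nat_lit 1) (nat_lit 4) (nat_lit 271) (nat_lit 174) (nat_lit 155))) (XT.nd (nat_lit 78) (nat_lit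 0) (nat_lit 0) (XT.lf (nat_lit 0) (nat_lit 15618830999313) (nat_lit 152) (nat_lit 2181087027115) (nat_lit 0) (nat_lit 15618604331534) (nat_lit 1) (nat_lit 5) (nat_lit 3) (nat_lit 4) (nat_lit 1) (nat_lit 4) (nat_lit 272) (nat_lit 174) (nat_lit 154)) (XT.lf (nat_lit 0) (nat_lit 17961763901389) (nat_lit 152) (nat_lit 2507979152149) (nat_lit 0) (nat_lit 17961535309601) (nat_lit 1) (nat_lit 5) (nat_lit 3) (nat_lit 4) (nat_lit 1) (nat_lit 4) (nat_lit 273) (nat_lit 174) (nat_lit 153)))) (XT.nd (nat_lit 156) (nat_lit 0) (nat_lit 0) (XT.nd (nat_lit 78) (nat_lit 0) (nat_lit 0) (XT.lf (nat_lit 0) (nat_lit 359960004453) (nat_lit 152) (nat_lit 52208194568) (nat_lit 0) (nat_lit 359960004453) (nat_lit 1) (nat_lit 5) (nat_lit 3) (nat_lit 4) (nat_lit 1) (nat_lit 4) (nat_lit 250) (nat_lit 175) (nat_lit 175)) (XT.lf (nat_lit 0) (nat_lit 828294225099) (nat_lit 152) (nat_lit 119276441321) (nat_lit 0)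 (nat_lit 828258012321) (nat_lit 1) (nat_lit 5) (nat_lit 3) (nat_lit 4) (nat_lit 1) (nat_lit 4) (nat_lit 251) (nat_lit 175) (nat_lit 174))) (XT.nd (nat_lit 78) (nat_lit 0) (nat_lit 0) (XT.lf (nat_lit 0) (nat_lit 952888214115) (nat_lit 152) (nat_lit 136433690001) (nat_lit 0) (nat_lit 952820511965) (nat_lit 1) (nat_lit 5) (nat_lit 3) (nat_lit 4) (nat_lit 1) (nat_lit 4) (nat_lit 252) (nat_lit 175) (nat_lit 173)) (XT.lf (nat_lit 0) (nat_lit 1096139684434) (nat_lit 152) (nat_lit 156223820477) (nat_lit 0) (nat_lit 1096044600222) (nat_lit 1) (nat_lit 5) (nat_lit 3) (nat_lit 4) (nat_lit 1) (nat_lit 4) (nat_lit 253) (nat_lit 175) (nat_lit 172)))))) (XT.nd (nat_lit 546) (nat_lit 0) (nat_lit 0) (XT.nd (nat_lit 234) (nat_lit 0) (nat_lit 0) (XT.nd (nat_lit 78) (nat_lit 0) (nat_lit 0) (XT.lf (nat_lit 0) (nat_lit 1260851382216) (nat_lit 152) (nat_lit 179034030954) (nat_lit 0) (nat_lit 1260732487515)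 (nat_lit 1) (nat_lit 5) (nat_lit 3) (nat_lit 4) (nat_lit 1) (nat_lit 4) (nat_lit 254) (nat_lit 175) (nat_lit 171)) (XT.nd (nat_lit 78) (nat_lit 0) (nat_lit 0) (XT.lf (nat_lit 0) (nat_lit 1450245927634) (nat_lit 152) (nat_lit 205310608158) (nat_lit 0) (nat_lit 1450106328159) (nat_lit 1) (nat_lit 5) (nat_lit 3) (nat_lit 4) (nat_lit 1) (nat_lit 4) (nat_lit 255) (nat_lit 175) (nat_lit 170)) (XT.lf (nat_lit 0) (nat_lit 1668028866141) (nat_lit 152) (nat_lit 235567659035) (nat_lit 0) (nat_lit 1667871262516) (nat_lit 1) (nat_lit 5) (nat_lit 3) (nat_lit 4) (nat_lit 1) (nat_lit 4) (nat_lit 256) (nat_lit 175) (nat_lit 169)))) (XT.nd (nat_lit 156) (nat_lit 0) (nat_lit 0) (XT.nd (nat_lit 78) (nat_lit 0) (nat_lit 0) (XT.lf (nat_lit 0) (nat_lit 1918461168274) (nat_lit 152) (nat_lit 270397169363) (nat_lit 0) (nat_lit 1918287908866) (nat_lit 1) (nat_lit 5) (nat_lit 3) (nat_lit 4) (nat_lit 1) (nat_lit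 4) (nat_lit 257) (nat_lit 175) (nat_lit 168)) (XT.lf (nat_lit 0) (nat_lit 2206442596466) (nat_lit 152) (nat_lit 310480586083) (nat_lit 0) (nat_lit 2206255723334) (nat_lit 1) (nat_lit 5) (nat_lit 3) (nat_lit 4) (nat_lit 1) (nat_lit 4) (nat_lit 258) (nat_lit 175) (nat_lit 167))) (XT.nd (nat_lit 78) (nat_lit 0) (nat_lit 0) (XT.lf (nat_lit 0) (nat_lit 2537607569964) (nat_lit 152) (nat_lit 356602149957) (nat_lit 0) (nat_lit 2537408858810) (nat_lit 1) (nat_lit 5) (nat_lit 3) (nat_lit 4) (nat_lit 1) (nat_lit 4) (nat_lit 259) (nat_lit 175) (nat_lit 166)) (XT.lf (nat_lit 0) (nat_lit 2918435403467) (nat_lit 152) (nat_lit 409664239409) (nat_lit 0) (nat_lit 2918226398382) (nat_lit 1) (nat_lit 5) (nat_lit 3) (nat_lit 4) (nat_lit 1) (nat_lit 4) (nat_lit 260) (nat_lit 175) (nat_lit 165))))) (XT.nd (nat_lit 312) (nat_lit 0) (nat_lit 0) (XT.nd (nat_lit 156) (nat_lit 0) (nat_lit 0) (XT.nd (nat_lit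 78) (nat_lit 0) (nat_lit 0) (XT.lf (nat_lit 0) (nat_lit 3356377076327) (nat_lit 152) (nat_lit 470705025754) (nat_lit 0) (nat_lit 3356159119996) (nat_lit 1) (nat_lit 5) (nat_lit 3) (nat_lit 4) (nat_lit 1) (nat_lit 4) (nat_lit 261) (nat_lit 175) (nat_lit 164)) (XT.lf (nat_lit 0) (nat_lit 3860001012576) (nat_lit 152) (nat_lit 540918785246) (nat_lit 0) (nat_lit 3859775272555) (nat_lit 1) (nat_lit 5) (nat_lit 3) (nat_lit 4) (nat_lit 1) (nat_lit 4) (nat_lit 262) (nat_lit 175) (nat_lit 163))) (XT.nd (nat_lit 78) (nat_lit 0) (nat_lit 0) (XT.lf (nat_lit 0) (nat_lit 4439160724012) (nat_lit 152) (nat_lit 621679265354) (nat_lit 0) (nat_lit 4438928215564) (nat_lit 1) (nat_lit 5) (nat_lit 3) (nat_lit 4) (nat_lit 1) (nat_lit 4) (nat_lit 263) (nat_lit 175) (nat_lit 162)) (XT.lf (nat_lit 0) (nat_lit 5105187596293) (nat_lit 152) (nat_lit 714566562429) (nat_lit 0) (nat_lit 5104949202256) (nat_lit 1)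 (nat_lit 5) (nat_lit 3) (nat_lit 4) (nat_lit 1) (nat_lit 4) (nat_lit 264) (nat_lit 175) (nat_lit 161)))) (XT.nd (nat_lit 156) (nat_lit 0) (nat_lit 0) (XT.nd (nat_lit 78) (nat_lit 0) (nat_lit 0) (XT.lf (nat_lit 0) (nat_lit 5871112589964) (nat_lit 152) (nat_lit 821398036629) (nat_lit 0) (nat_lit 5870869078023) (nat_lit 1) (nat_lit 5) (nat_lit 3) (nat_lit 4) (nat_lit 1) (nat_lit 4) (nat_lit 265) (nat_lit 175) (nat_lit 160)) (XT.lf (nat_lit 0) (nat_lit 6751921194031) (nat_lit 152) (nat_lit 944263868972) (nat_lit 0) (nat_lit 6751673231740) (nat_lit 1) (nat_lit 5) (nat_lit 3) (nat_lit 4) (nat_lit 1) (nat_lit 4) (nat_lit 266) (nat_lit 175) (nat_lit 159))) (XT.nd (nat_lit 78) (nat_lit 0) (nat_lit 0) (XT.lf (nat_lit 0) (nat_lit 7764846620313) (nat_lit 152) (nat_lit 1085567956178) (nat_lit 0) (nat_lit 7764594788151) (nat_lit 1) (nat_lit 5) (nat_lit 3) (nat_lit 4) (nat_lit 1) (nat_lit 4) (nat_lit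 267) (nat_lit 175) (nat_lit 158)) (XT.lf (nat_lit 0) (nat_lit 8929706974976) (nat_lit 152) (nat_lit 1248074943431) (nat_lit 0) (nat_lit 8929451777710) (nat_lit 1) (nat_lit 5) (nat_lit 3) (nat_lit 4) (nat_lit 1) (nat_lit 4) (nat_lit 268) (nat_lit 175) (nat_lit 157))))))) (XT.nd (nat_lit 30108) (nat_lit 0) (nat_lit 0) (XT.nd (nat_lit 858) (nat_lit 0) (nat_lit 0) (XT.nd (nat_lit 234) (nat_lit 0) (nat_lit 0) (XT.nd (nat_lit 78) (nat_lit 0) (nat_lit 0) (XT.lf (nat_lit 0) (nat_lit 10269293004090) (nat_lit 152) (nat_lit 1434964315265) (nat_lit 0) (nat_lit 10269034880646) (nat_lit 1) (nat_lit 5) (nat_lit 3) (nat_lit 4) (nat_lit 1) (nat_lit 4) (nat_lit 269) (nat_lit 175) (nat_lit 156)) (XT.nd (nat_lit 78) (nat_lit 0) (nat_lit 0) (XT.lf (nat_lit 0) (nat_lit 11809813999529) (nat_lit 152) (nat_lit 1649892602866) (nat_lit 0) (nat_lit 11809553331583) (nat_lit 1) (nat_lit 5) (nat_lit 3) (nat_lit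 4) (nat_lit 1) (nat_lit 4) (nat_lit 270) (nat_lit 175) (nat_lit 155)) (XT.lf (nat_lit 0) (nat_lit 13581410589464) (nat_lit 152) (nat_lit 1897064924907) (nat_lit 0) (nat_lit 13581147708907) (nat_lit 1) (nat_lit 5) (nat_lit 3) (nat_lit 4) (nat_lit 1) (nat_lit 4) (nat_lit 271) (nat_lit 175) (nat_lit 154)))) (XT.nd (nat_lit 468) (nat_lit 0) (nat_lit 0) (XT.nd (nat_lit 390) (nat_lit 0) (nat_lit 0) (XT.lf (nat_lit 0) (nat_lit 15618744446308) (nat_lit 152) (nat_lit 2181317261601) (nat_lit 0) (nat_lit 15618479641742) (nat_lit 1) (nat_lit 5) (nat_lit 3) (nat_lit 4) (nat_lit 1) (nat_lit 4) (nat_lit 272) (nat_lit 175) (nat_lit 153)) (XT.lf (nat_lit 0) (nat_lit 31415667961272) (nat_lit 152) (nat_lit 4385392394206) (nat_lit 0) (nat_lit 31415396707128) (nat_lit 1) (nat_lit 5) (nat_lit 3) (nat_lit 4) (nat_lit 1) (nat_lit 4) (nat_lit 277) (nat_lit 175) (nat_lit 148))) (XT.nd (nat_lit 78) (nat_lit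 0) (nat_lit 0) (XT.lf (nat_lit 0) (nat_lit 36128132016348) (nat_lit 152) (nat_lit 5042909618761) (nat_lit 0) (nat_lit 36127859930401) (nat_lit 1) (nat_lit 5) (nat_lit 3) (nat_lit 4) (nat_lit 1) (nat_lit 4) (nat_lit 278) (nat_lit 175) (nat_lit 147)) (XT.lf (nat_lit 0) (nat_lit 41547464844510) (nat_lit 152) (nat_lit 5799055993283) (nat_lit 0) (nat_lit 41547192035257) (nat_lit 1) (nat_lit 5) (nat_lit 3) (nat_lit 4) (nat_lit 1) (nat_lit 4) (nat_lit 279) (nat_lit 175) (nat_lit 146))))) (XT.nd (nat_lit 28938) (nat_lit 0) (nat_lit 0) (XT.nd (nat_lit 28782) (nat_lit 0) (nat_lit 0) (XT.nd (nat_lit 78) (nat_lit 0) (nat_lit 0) (XT.lf (nat_lit 0) (nat_lit 47779696870657) (nat_lit 152) (nat_lit 6668625685970) (nat_lit 0) (nat_lit 47779423432442) (nat_lit 1) (nat_lit 5) (nat_lit 3) (nat_lit 4) (nat_lit 1) (nat_lit 4) (nat_lit 280) (nat_lit 175) (nat_lit 145)) (XT.lf (nat_lit 0) (nat_lit 54946763069215)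 (nat_lit 152) (nat_lit 7668632016896) (nat_lit 0) (nat_lit 54946489084076) (nat_lit 1) (nat_lit 5) (nat_lit 3) (nat_lit 4) (nat_lit 1) (nat_lit 4) (nat_lit 281) (nat_lit 175) (nat_lit 144))) (XT.nd (nat_lit 78) (nat_lit 0) (nat_lit 0) (XT.lf (nat_lit 0) (nat_lit 271844651323) (nat_lit 152) (nat_lit 40211113222) (nat_lit 0) (nat_lit 271844651323) (nat_lit 1) (nat_lit 5) (nat_lit 3) (nat_lit 4) (nat_lit 1) (nat_lit 4) (nat_lit 248) (nat_lit 176) (nat_lit 176)) (XT.lf (nat_lit 0) (nat_lit 625686845130) (nat_lit 152) (nat_lit 91562793297) (nat_lit 0) (nat_lit 625645200436) (nat_lit 1) (nat_lit 5) (nat_lit 3) (nat_lit 4) (nat_lit 1) (nat_lit 4) (nat_lit 249) (nat_lit 176) (nat_lit 175)))) (XT.nd (nat_lit 156) (nat_lit 0) (nat_lit 0) (XT.nd (nat_lit 78) (nat_lit 0) (nat_lit 0) (XT.lf (nat_lit 0) (nat_lit 719942205439) (nat_lit 152) (nat_lit 104452862146) (nat_lit 0) (nat_lit 719864347967)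 (nat_lit 1) (nat_lit 5) (nat_lit 3) (nat_lit 4) (nat_lit 1) (nat_lit 4) (nat_lit 250) (nat_lit 176) (nat_lit 174)) (XT.lf (nat_lit 0) (nat_lit 828299510187) (nat_lit 152) (nat_lit 119344629989) (nat_lit 0) (nat_lit 828190163343) (nat_lit 1) (nat_lit 5) (nat_lit 3) (nat_lit 4) (nat_lit 1) (nat_lit 4) (nat_lit 251) (nat_lit 176) (nat_lit 173))) (XT.nd (nat_lit 78) (nat_lit 0) (nat_lit 0) (XT.lf (nat_lit 0) (nat_lit 952878793599) (nat_lit 152) (nat_lit 136529457504) (nat_lit 0) (nat_lit 952742064693) (nat_lit 1) (nat_lit 5) (nat_lit 3) (nat_lit 4) (nat_lit 1) (nat_lit 4) (nat_lit 252) (nat_lit 176) (nat_lit 172)) (XT.lf (nat_lit 0) (nat_lit 1096117476437) (nat_lit 152) (nat_lit 156343569574) (nat_lit 0) (nat_lit 1095956937041) (nat_lit 1) (nat_lit 5) (nat_lit 3) (nat_lit 4) (nat_lit 1) (nat_lit 4) (nat_lit 253) (nat_lit 176) (nat_lit 171)))))) (XT.nd (nat_lit 546) (nat_lit 0) (nat_lit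 0) (XT.nd (nat_lit 234) (nat_lit 0) (nat_lit 0) (XT.nd (nat_lit 78) (nat_lit 0) (nat_lit 0) (XT.lf (nat_lit 0) (nat_lit 1260818054669) (nat_lit 152) (nat_lit 179174633612) (nat_lit 0) (nat_lit 1260636810500) (nat_lit 1) (nat_lit 5) (nat_lit 3) (nat_lit 4) (nat_lit 1) (nat_lit 4) (nat_lit 254) (nat_lit 176) (nat_lit 170)) (XT.nd (nat_lit 78) (nat_lit 0) (nat_lit 0) (XT.lf (nat_lit 0) (nat_lit 1450202930913) (nat_lit 152) (nat_lit 205469344348) (nat_lit 0) (nat_lit 1450003682594) (nat_lit 1) (nat_lit 5) (nat_lit 3) (nat_lit 4) (nat_lit 1) (nat_lit 4) (nat_lit 255) (nat_lit 176) (nat_lit 169)) (XT.lf (nat_lit 0) (nat_lit 1667977461443) (nat_lit 152) (nat_lit 235742163513) (nat_lit 0) (nat_lit 1667762557341) (nat_lit 1) (nat_lit 5) (nat_lit 3) (nat_lit 4) (nat_lit 1) (nat_lit 4) (nat_lit 256) (nat_lit 176) (nat_lit 168)))) (XT.nd (nat_lit 156) (nat_lit 0) (nat_lit 0) (XT.nd (nat_lit 78)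 (nat_lit 0) (nat_lit 0) (XT.lf (nat_lit 0) (nat_lit 1918402452292) (nat_lit 152) (nat_lit 270585385396) (nat_lit 0) (nat_lit 1918173934466) (nat_lit 1) (nat_lit 5) (nat_lit 3) (nat_lit 4) (nat_lit 1) (nat_lit 4) (nat_lit 257) (nat_lit 176) (nat_lit 167)) (XT.lf (nat_lit 0) (nat_lit 2206377522846) (nat_lit 152) (nat_lit 310680725207) (nat_lit 0) (nat_lit 2206137166998) (nat_lit 1) (nat_lit 5) (nat_lit 3) (nat_lit 4) (nat_lit 1) (nat_lit 4) (nat_lit 258) (nat_lit 176) (nat_lit 166))) (XT.nd (nat_lit 78) (nat_lit 0) (nat_lit 0) (XT.lf (nat_lit 0) (nat_lit 2537536967963) (nat_lit 152) (nat_lit 356812656986) (nat_lit 0) (nat_lit 2537286318183) (nat_lit 1) (nat_lit 5) (nat_lit 3) (nat_lit 4) (nat_lit 1) (nat_lit 4) (nat_lit 259) (nat_lit 176) (nat_lit 165)) (XT.lf (nat_lit 0) (nat_lit 2918359994178) (nat_lit 152) (nat_lit 409883762008) (nat_lit 0) (nat_lit 2918100393153) (nat_lit 1) (nat_lit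 5) (nat_lit 3) (nat_lit 4) (nat_lit 1) (nat_lit 4) (nat_lit 260) (nat_lit 176) (nat_lit 164))))) (XT.nd (nat_lit 312) (nat_lit 0) (nat_lit 0) (XT.nd (nat_lit 156) (nat_lit 0) (nat_lit 0) (XT.nd (nat_lit 78) (nat_lit 0) (nat_lit 0) (XT.lf (nat_lit 0) (nat_lit 3356297486786) (nat_lit 152) (nat_lit 470932387979) (nat_lit 0) (nat_lit 3356030102071) (nat_lit 1) (nat_lit 5) (nat_lit 3) (nat_lit 4) (nat_lit 1) (nat_lit 4) (nat_lit 261) (nat_lit 176) (nat_lit 163)) (XT.lf (nat_lit 0) (nat_lit 3859917788036) (nat_lit 152) (nat_lit 541152964537) (nat_lit 0) (nat_lit 3859643634893) (nat_lit 1) (nat_lit 5) (nat_lit 3) (nat_lit 4) (nat_lit 1) (nat_lit 4) (nat_lit 262) (nat_lit 176) (nat_lit 162))) (XT.nd (nat_lit 78) (nat_lit 0) (nat_lit 0) (XT.lf (nat_lit 0) (nat_lit 4439074338602) (nat_lit 152) (nat_lit 621919372529) (nat_lit 0) (nat_lit 4438794299870) (nat_lit 1) (nat_lit 5) (nat_lit 3) (nat_lit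 4) (nat_lit 1) (nat_lit 4) (nat_lit 263) (nat_lit 176) (nat_lit 161)) (XT.lf (nat_lit 0) (nat_lit 5105098462300) (nat_lit 152) (nat_lit 714811824285) (nat_lit 0) (nat_lit 5104813305665) (nat_lit 1) (nat_lit 5) (nat_lit 3) (nat_lit 4) (nat_lit 1) (nat_lit 4) (nat_lit 264) (nat_lit 176) (nat_lit 160)))) (XT.nd (nat_lit 156) (nat_lit 0) (nat_lit 0) (XT.nd (nat_lit 78) (nat_lit 0) (nat_lit 0) (XT.lf (nat_lit 0) (nat_lit 5871021065899) (nat_lit 152) (nat_lit 821647780817) (nat_lit 0) (nat_lit 5870731458914) (nat_lit 1) (nat_lit 5) (nat_lit 3) (nat_lit 4) (nat_lit 1) (nat_lit 4) (nat_lit 265) (nat_lit 176) (nat_lit 159)) (XT.lf (nat_lit 0) (nat_lit 6751827591643) (nat_lit 152) (nat_lit 944517510839) (nat_lit 0) (nat_lit 6751534114787) (nat_lit 1) (nat_lit 5) (nat_lit 3) (nat_lit 4) (nat_lit 1) (nat_lit 4) (nat_lit 266) (nat_lit 176) (nat_lit 158))) (XT.nd (nat_lit 78) (nat_lit 0) (nat_lit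 0) (XT.lf (nat_lit 0) (nat_lit 7764751210687) (nat_lit 152) (nat_lit 1085824987332) (nat_lit 0) (nat_lit 7764454368727) (nat_lit 1) (nat_lit 5) (nat_lit 3) (nat_lit 4) (nat_lit 1) (nat_lit 4) (nat_lit 267) (nat_lit 176) (nat_lit 157)) (XT.lf (nat_lit 0) (nat_lit 8929609993839) (nat_lit 152) (nat_lit 1248334921791) (nat_lit 0) (nat_lit 8929310225701) (nat_lit 1) (nat_lit 5) (nat_lit 3) (nat_lit 4) (nat_lit 1) (nat_lit 4) (nat_lit 268) (nat_lit 176) (nat_lit 156))))))))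
noncomputable def xc4 : XT := (XT.nd (nat_lit 30966) (nat_lit 0) (nat_lit 0) (XT.nd (nat_lit 29796) (nat_lit 0) (nat_lit 0) (XT.nd (nat_lit 780) (nat_lit 0) (nat_lit 0) (XT.nd (nat_lit 468) (nat_lit 0) (nat_lit 0) (XT.nd (nat_lit 78) (nat_lit 0) (nat_lit 0) (XT.lf (nat_lit 0) (nat_lit 10269194656422) (nat_lit 152) (nat_lit 1435226856412) (nat_lit 0) (nat_lit 10268892343782) (nat_lit 1) (nat_lit 5) (nat_lit 3) (nat_lit 4) (nat_lit 1) (nat_lit 4) (nat_lit 269) (nat_lit 176) (nat_lit 155)) (XT.nd (nat_lit 78) (nat_lit 0) (nat_lit 0) (XT.lf (nat_lit 0) (nat_lit 11809714463573) (nat_lit 152) (nat_lit 1650157372525) (nat_lit 0) (nat_lit 11809409938322) (nat_lit 1) (nat_lit 5) (nat_lit 3) (nat_lit 4) (nat_lit 1) (nat_lit 4) (nat_lit 270) (nat_lit 176) (nat_lit 154)) (XT.lf (nat_lit 0) (nat_lit 13581310020214) (nat_lit 152) (nat_lit 1897331632401) (nat_lit 0) (nat_lit 13581003570954) (nat_lit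 1) (nat_lit 5) (nat_lit 3) (nat_lit 4) (nat_lit 1) (nat_lit 4) (nat_lit 271) (nat_lit 176) (nat_lit 153)))) (XT.nd (nat_lit 156) (nat_lit 0) (nat_lit 0) (XT.nd (nat_lit 78) (nat_lit 0) (nat_lit 0) (XT.lf (nat_lit 0) (nat_lit 23754467237014) (nat_lit 152) (nat_lit 3316737769880) (nat_lit 0) (nat_lit 23754155294749) (nat_lit 1) (nat_lit 5) (nat_lit 3) (nat_lit 4) (nat_lit 1) (nat_lit 4) (nat_lit 275) (nat_lit 176) (nat_lit 149)) (XT.lf (nat_lit 0) (nat_lit 27317768262584) (nat_lit 152) (nat_lit 3813913055600) (nat_lit 0) (nat_lit 27317455363746) (nat_lit 1) (nat_lit 5) (nat_lit 3) (nat_lit 4) (nat_lit 1) (nat_lit 4) (nat_lit 276) (nat_lit 176) (nat_lit 148))) (XT.nd (nat_lit 78) (nat_lit 0) (nat_lit 0) (XT.lf (nat_lit 0) (nat_lit 31415563481539) (nat_lit 152) (nat_lit 4385666435405) (nat_lit 0) (nat_lit 31415249750898) (nat_lit 1) (nat_lit 5) (nat_lit 3) (nat_lit 4) (nat_lit 1) (nat_lit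 4) (nat_lit 277) (nat_lit 176) (nat_lit 147)) (XT.lf (nat_lit 0) (nat_lit 36128027148161) (nat_lit 152) (nat_lit 5043184388464) (nat_lit 0) (nat_lit 36127712694214) (nat_lit 1) (nat_lit 5) (nat_lit 3) (nat_lit 4) (nat_lit 1) (nat_lit 4) (nat_lit 278) (nat_lit 176) (nat_lit 146))))) (XT.nd (nat_lit 28704) (nat_lit 0) (nat_lit 0) (XT.nd (nat_lit 78) (nat_lit 0) (nat_lit 0) (XT.lf (nat_lit 0) (nat_lit 41547359638537) (nat_lit 152) (nat_lit 5799331396469) (nat_lit 0) (nat_lit 41547044555628) (nat_lit 1) (nat_lit 5) (nat_lit 3) (nat_lit 4) (nat_lit 1) (nat_lit 4) (nat_lit 279) (nat_lit 176) (nat_lit 145)) (XT.nd (nat_lit 78) (nat_lit 0) (nat_lit 0) (XT.lf (nat_lit 0) (nat_lit 47779591370958) (nat_lit 152) (nat_lit 6668901640009) (nat_lit 0) (nat_lit 47779275741125) (nat_lit 1) (nat_lit 5) (nat_lit 3) (nat_lit 4) (nat_lit 1) (nat_lit 4) (nat_lit 280) (nat_lit 176) (nat_lit 144)) (XT.lf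 (nat_lit 0) (nat_lit 54946657314101) (nat_lit 152) (nat_lit 7668908449938) (nat_lit 0) (nat_lit 54946341208682) (nat_lit 1) (nat_lit 5) (nat_lit 3) (nat_lit 4) (nat_lit 1) (nat_lit 4) (nat_lit 281) (nat_lit 176) (nat_lit 143)))) (XT.nd (nat_lit 156) (nat_lit 0) (nat_lit 0) (XT.nd (nat_lit 78) (nat_lit 0) (nat_lit 0) (XT.lf (nat_lit 0) (nat_lit 205166261085) (nat_lit 152) (nat_lit 31249728764) (nat_lit 0) (nat_lit 205166261085) (nat_lit 1) (nat_lit 5) (nat_lit 3) (nat_lit 4) (nat_lit 1) (nat_lit 4) (nat_lit 246) (nat_lit 177) (nat_lit 177)) (XT.lf (nat_lit 0) (nat_lit 472393169644) (nat_lit 152) (nat_lit 70813193976) (nat_lit 0) (nat_lit 472345278245) (nat_lit 1) (nat_lit 5) (nat_lit 3) (nat_lit 4) (nat_lit 1) (nat_lit 4) (nat_lit 247) (nat_lit 177) (nat_lit 176))) (XT.nd (nat_lit 78) (nat_lit 0) (nat_lit 0) (XT.lf (nat_lit 0) (nat_lit 543714828660) (nat_lit 152) (nat_lit 80464170404)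 (nat_lit 0) (nat_lit 543625292567) (nat_lit 1) (nat_lit 5) (nat_lit 3) (nat_lit 4) (nat_lit 1) (nat_lit 4) (nat_lit 248) (nat_lit 177) (nat_lit 175)) (XT.lf (nat_lit 0) (nat_lit 625692922982) (nat_lit 152) (nat_lit 91641210265) (nat_lit 0) (nat_lit 625567174111) (nat_lit 1) (nat_lit 5) (nat_lit 3) (nat_lit 4) (nat_lit 1) (nat_lit 4) (nat_lit 249) (nat_lit 177) (nat_lit 174)))))) (XT.nd (nat_lit 546) (nat_lit 0) (nat_lit 0) (XT.nd (nat_lit 234) (nat_lit 0) (nat_lit 0) (XT.nd (nat_lit 78) (nat_lit 0) (nat_lit 0) (XT.lf (nat_lit 0) (nat_lit 719931371845) (nat_lit 152) (nat_lit 104562994773) (nat_lit 0) (nat_lit 719774133603) (nat_lit 1) (nat_lit 5) (nat_lit 3) (nat_lit 4) (nat_lit 1) (nat_lit 4) (nat_lit 250) (nat_lit 177) (nat_lit 173)) (XT.nd (nat_lit 78) (nat_lit 0) (nat_lit 0) (XT.lf (nat_lit 0) (nat_lit 828273970990) (nat_lit 152) (nat_lit 119482341451) (nat_lit 0) (nat_lit 828089350685)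 (nat_lit 1) (nat_lit 5) (nat_lit 3) (nat_lit 4) (nat_lit 1) (nat_lit 4) (nat_lit 251) (nat_lit 177) (nat_lit 172)) (XT.lf (nat_lit 0) (nat_lit 952840466920) (nat_lit 152) (nat_lit 136691150561) (nat_lit 0) (nat_lit 952632036126) (nat_lit 1) (nat_lit 5) (nat_lit 3) (nat_lit 4) (nat_lit 1) (nat_lit 4) (nat_lit 252) (nat_lit 177) (nat_lit 171)))) (XT.nd (nat_lit 156) (nat_lit 0) (nat_lit 0) (XT.nd (nat_lit 78) (nat_lit 0) (nat_lit 0) (XT.lf (nat_lit 0) (nat_lit 1096068030208) (nat_lit 152) (nat_lit 156526116193) (nat_lit 0) (nat_lit 1095838894641) (nat_lit 1) (nat_lit 5) (nat_lit 3) (nat_lit 4) (nat_lit 1) (nat_lit 4) (nat_lit 253) (nat_lit 177) (nat_lit 170)) (XT.lf (nat_lit 0) (nat_lit 1260758939267) (nat_lit 152) (nat_lit 179375313762) (nat_lit 0) (nat_lit 1260511799549) (nat_lit 1) (nat_lit 5) (nat_lit 3) (nat_lit 4) (nat_lit 1) (nat_lit 4) (nat_lit 254) (nat_lit 177) (nat_lit 169)))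 (XT.nd (nat_lit 78) (nat_lit 0) (nat_lit 0) (XT.lf (nat_lit 0) (nat_lit 1450135407534) (nat_lit 152) (nat_lit 205685792785) (nat_lit 0) (nat_lit 1449872612033) (nat_lit 1) (nat_lit 5) (nat_lit 3) (nat_lit 4) (nat_lit 1) (nat_lit 4) (nat_lit 255) (nat_lit 177) (nat_lit 168)) (XT.lf (nat_lit 0) (nat_lit 1667902626780) (nat_lit 152) (nat_lit 235972323505) (nat_lit 0) (nat_lit 1667626217555) (nat_lit 1) (nat_lit 5) (nat_lit 3) (nat_lit 4) (nat_lit 1) (nat_lit 4) (nat_lit 256) (nat_lit 177) (nat_lit 167))))) (XT.nd (nat_lit 312) (nat_lit 0) (nat_lit 0) (XT.nd (nat_lit 156) (nat_lit 0) (nat_lit 0) (XT.nd (nat_lit 78) (nat_lit 0) (nat_lit 0) (XT.lf (nat_lit 0) (nat_lit 1918321259991) (nat_lit 152) (nat_lit 270827468479) (nat_lit 0) (nat_lit 1918033012744) (nat_lit 1) (nat_lit 5) (nat_lit 3) (nat_lit 4) (nat_lit 1) (nat_lit 4) (nat_lit 257) (nat_lit 177) (nat_lit 166)) (XT.lf (nat_lit 0)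 (nat_lit 2206290802163) (nat_lit 152) (nat_lit 310933176196) (nat_lit 0) (nat_lit 2205992260985) (nat_lit 1) (nat_lit 5) (nat_lit 3) (nat_lit 4) (nat_lit 1) (nat_lit 4) (nat_lit 258) (nat_lit 177) (nat_lit 165))) (XT.nd (nat_lit 78) (nat_lit 0) (nat_lit 0) (XT.lf (nat_lit 0) (nat_lit 2537445439992) (nat_lit 152) (nat_lit 357074123545) (nat_lit 0) (nat_lit 2537137947569) (nat_lit 1) (nat_lit 5) (nat_lit 3) (nat_lit 4) (nat_lit 1) (nat_lit 4) (nat_lit 259) (nat_lit 177) (nat_lit 164)) (XT.lf (nat_lit 0) (nat_lit 2918264285956) (nat_lit 152) (nat_lit 410153068193) (nat_lit 0) (nat_lit 2917949009842) (nat_lit 1) (nat_lit 5) (nat_lit 3) (nat_lit 4) (nat_lit 1) (nat_lit 4) (nat_lit 260) (nat_lit 177) (nat_lit 163)))) (XT.nd (nat_lit 156) (nat_lit 0) (nat_lit 0) (XT.nd (nat_lit 78) (nat_lit 0) (nat_lit 0) (XT.lf (nat_lit 0) (nat_lit 3356198143564) (nat_lit 152) (nat_lit 471208511230) (nat_lit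 0) (nat_lit 3355876099023) (nat_lit 1) (nat_lit 5) (nat_lit 3) (nat_lit 4) (nat_lit 1) (nat_lit 4) (nat_lit 261) (nat_lit 177) (nat_lit 162)) (XT.lf (nat_lit 0) (nat_lit 3859815283944) (nat_lit 152) (nat_lit 541435015672) (nat_lit 0) (nat_lit 3859487353814) (nat_lit 1) (nat_lit 5) (nat_lit 3) (nat_lit 4) (nat_lit 1) (nat_lit 4) (nat_lit 262) (nat_lit 177) (nat_lit 161))) (XT.nd (nat_lit 78) (nat_lit 0) (nat_lit 0) (XT.lf (nat_lit 0) (nat_lit 4438969085927) (nat_lit 152) (nat_lit 622206578345) (nat_lit 0) (nat_lit 4438636037894) (nat_lit 1) (nat_lit 5) (nat_lit 3) (nat_lit 4) (nat_lit 1) (nat_lit 4) (nat_lit 263) (nat_lit 177) (nat_lit 160)) (XT.lf (nat_lit 0) (nat_lit 5104990819554) (nat_lit 152) (nat_lit 715103512432) (nat_lit 0) (nat_lit 5104653321170) (nat_lit 1) (nat_lit 5) (nat_lit 3) (nat_lit 4) (nat_lit 1) (nat_lit 4) (nat_lit 264) (nat_lit 177) (nat_lit 159))))))) (XT.nd (nat_lit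 29718) (nat_lit 0) (nat_lit 0) (XT.nd (nat_lit 780) (nat_lit 0) (nat_lit 0) (XT.nd (nat_lit 234) (nat_lit 0) (nat_lit 0) (XT.nd (nat_lit 78) (nat_lit 0) (nat_lit 0) (XT.lf (nat_lit 0) (nat_lit 5870911344829) (nat_lit 152) (nat_lit 821943366644) (nat_lit 0) (nat_lit 5870569976575) (nat_lit 1) (nat_lit 5) (nat_lit 3) (nat_lit 4) (nat_lit 1) (nat_lit 4) (nat_lit 265) (nat_lit 177) (nat_lit 158)) (XT.nd (nat_lit 78) (nat_lit 0) (nat_lit 0) (XT.lf (nat_lit 0) (nat_lit 6751716063335) (nat_lit 152) (nat_lit 944816485953) (nat_lit 0) (nat_lit 6751371329977) (nat_lit 1) (nat_lit 5) (nat_lit 3) (nat_lit 4) (nat_lit 1) (nat_lit 4) (nat_lit 266) (nat_lit 177) (nat_lit 157)) (XT.lf (nat_lit 0) (nat_lit 7764638110869) (nat_lit 152) (nat_lit 1086126909651) (nat_lit 0) (nat_lit 7764290451332) (nat_lit 1) (nat_lit 5) (nat_lit 3) (nat_lit 4) (nat_lit 1) (nat_lit 4) (nat_lit 267) (nat_lit 177) (nat_lit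 156)))) (XT.nd (nat_lit 156) (nat_lit 0) (nat_lit 0) (XT.nd (nat_lit 78) (nat_lit 0) (nat_lit 0) (XT.lf (nat_lit 0) (nat_lit 8929495527490) (nat_lit 152) (nat_lit 1248639406898) (nat_lit 0) (nat_lit 8929145323451) (nat_lit 1) (nat_lit 5) (nat_lit 3) (nat_lit 4) (nat_lit 1) (nat_lit 4) (nat_lit 268) (nat_lit 177) (nat_lit 155)) (XT.lf (nat_lit 0) (nat_lit 10269079001784) (nat_lit 152) (nat_lit 1435533570030) (nat_lit 0) (nat_lit 10268726585135) (nat_lit 1) (nat_lit 5) (nat_lit 3) (nat_lit 4) (nat_lit 1) (nat_lit 4) (nat_lit 269) (nat_lit 177) (nat_lit 154))) (XT.nd (nat_lit 312) (nat_lit 0) (nat_lit 0) (XT.lf (nat_lit 0) (nat_lit 11809597775641) (nat_lit 152) (nat_lit 1650466023979) (nat_lit 0) (nat_lit 11809243434982) (nat_lit 1) (nat_lit 5) (nat_lit 3) (nat_lit 4) (nat_lit 1) (nat_lit 4) (nat_lit 270) (nat_lit 177) (nat_lit 153)) (XT.lf (nat_lit 0) (nat_lit 20655824007669) (nat_lit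 152) (nat_lit 2884727419631) (nat_lit 0) (nat_lit 20655464174005) (nat_lit 1) (nat_lit 5) (nat_lit 3) (nat_lit 4) (nat_lit 1) (nat_lit 4) (nat_lit 274) (nat_lit 177) (nat_lit 149))))) (XT.nd (nat_lit 312) (nat_lit 0) (nat_lit 0) (XT.nd (nat_lit 156) (nat_lit 0) (nat_lit 0) (XT.nd (nat_lit 78) (nat_lit 0) (nat_lit 0) (XT.lf (nat_lit 0) (nat_lit 23754347085321) (nat_lit 152) (nat_lit 3317052917260) (nat_lit 0) (nat_lit 23753986295084) (nat_lit 1) (nat_lit 5) (nat_lit 3) (nat_lit 4) (nat_lit 1) (nat_lit 4) (nat_lit 275) (nat_lit 177) (nat_lit 148)) (XT.lf (nat_lit 0) (nat_lit 27317647664170) (nat_lit 152) (nat_lit 3814229040760) (nat_lit 0) (nat_lit 27317286042130) (nat_lit 1) (nat_lit 5) (nat_lit 3) (nat_lit 4) (nat_lit 1) (nat_lit 4) (nat_lit 276) (nat_lit 177) (nat_lit 147))) (XT.nd (nat_lit 78) (nat_lit 0) (nat_lit 0) (XT.lf (nat_lit 0) (nat_lit 31415442494670) (nat_lit 152) (nat_lit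 4385983149068) (nat_lit 0) (nat_lit 31415080149325) (nat_lit 1) (nat_lit 5) (nat_lit 3) (nat_lit 4) (nat_lit 1) (nat_lit 4) (nat_lit 277) (nat_lit 177) (nat_lit 146)) (XT.lf (nat_lit 0) (nat_lit 36127905823507) (nat_lit 152) (nat_lit 5043501735610) (nat_lit 0) (nat_lit 36127542849199) (nat_lit 1) (nat_lit 5) (nat_lit 3) (nat_lit 4) (nat_lit 1) (nat_lit 4) (nat_lit 278) (nat_lit 177) (nat_lit 145)))) (XT.nd (nat_lit 156) (nat_lit 0) (nat_lit 0) (XT.nd (nat_lit 78) (nat_lit 0) (nat_lit 0) (XT.lf (nat_lit 0) (nat_lit 41547238020157) (nat_lit 152) (nat_lit 5799649294468) (nat_lit 0) (nat_lit 41546874498926) (nat_lit 1) (nat_lit 5) (nat_lit 3) (nat_lit 4) (nat_lit 1) (nat_lit 4) (nat_lit 279) (nat_lit 177) (nat_lit 144)) (XT.lf (nat_lit 0) (nat_lit 47779469497163) (nat_lit 152) (nat_lit 6669220017012) (nat_lit 0) (nat_lit 47779105500346) (nat_lit 1) (nat_lit 5) (nat_lit 3) (nat_lit 4)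 (nat_lit 1) (nat_lit 4) (nat_lit 280) (nat_lit 177) (nat_lit 143))) (XT.nd (nat_lit 28392) (nat_lit 0) (nat_lit 0) (XT.lf (nat_lit 0) (nat_lit 54946535218206) (nat_lit 152) (nat_lit 7669227243465) (nat_lit 0) (nat_lit 54946170807837) (nat_lit 1) (nat_lit 5) (nat_lit 3) (nat_lit 4) (nat_lit 1) (nat_lit 4) (nat_lit 281) (nat_lit 177) (nat_lit 142)) (XT.lf (nat_lit 0) (nat_lit 154689715985) (nat_lit 152) (nat_lit 24600287178) (nat_lit 0) (nat_lit 154689715985) (nat_lit 1) (nat_lit 5) (nat_lit 3) (nat_lit 4) (nat_lit 1) (nat_lit 4) (nat_lit 244) (nat_lit 178) (nat_lit 178)))))) (XT.nd (nat_lit 546) (nat_lit 0) (nat_lit 0) (XT.nd (nat_lit 234) (nat_lit 0) (nat_lit 0) (XT.nd (nat_lit 78) (nat_lit 0) (nat_lit 0) (XT.lf (nat_lit 0) (nat_lit 356373731286) (nat_lit 152) (nat_lit 55360301000) (nat_lit 0) (nat_lit 356318656178) (nat_lit 1) (nat_lit 5) (nat_lit 3) (nat_lit 4) (nat_lit 1) (nat_lit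 4) (nat_lit 245) (nat_lit 178) (nat_lit 177)) (XT.nd (nat_lit 78) (nat_lit 0) (nat_lit 0) (XT.lf (nat_lit 0) (nat_lit 410361877084) (nat_lit 152) (nat_lit 62547693082) (nat_lit 0) (nat_lit 410258910578) (nat_lit 1) (nat_lit 5) (nat_lit 3) (nat_lit 4) (nat_lit 1) (nat_lit 4) (nat_lit 246) (nat_lit 178) (nat_lit 176)) (XT.lf (nat_lit 0) (nat_lit 472400159173) (nat_lit 152) (nat_lit 70903373489) (nat_lit 0) (nat_lit 472255547972) (nat_lit 1) (nat_lit 5) (nat_lit 3) (nat_lit 4) (nat_lit 1) (nat_lit 4) (nat_lit 247) (nat_lit 178) (nat_lit 175)))) (XT.nd (nat_lit 156) (nat_lit 0) (nat_lit 0) (XT.nd (nat_lit 78) (nat_lit 0) (nat_lit 0) (XT.lf (nat_lit 0) (nat_lit 543702370028) (nat_lit 152) (nat_lit 80590822926) (nat_lit 0) (nat_lit 543521546049) (nat_lit 1) (nat_lit 5) (nat_lit 3) (nat_lit 4) (nat_lit 1) (nat_lit 4) (nat_lit 248) (nat_lit 178) (nat_lit 174)) (XT.lf (nat_lit 0) (nat_lit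 625663552905) (nat_lit 152) (nat_lit 91799578447) (nat_lit 0) (nat_lit 625451239554) (nat_lit 1) (nat_lit 5) (nat_lit 3) (nat_lit 4) (nat_lit 1) (nat_lit 4) (nat_lit 249) (nat_lit 178) (nat_lit 173))) (XT.nd (nat_lit 78) (nat_lit 0) (nat_lit 0) (XT.lf (nat_lit 0) (nat_lit 719887296164) (nat_lit 152) (nat_lit 104748941789) (nat_lit 0) (nat_lit 719647600751) (nat_lit 1) (nat_lit 5) (nat_lit 3) (nat_lit 4) (nat_lit 1) (nat_lit 4) (nat_lit 250) (nat_lit 178) (nat_lit 172)) (XT.lf (nat_lit 0) (nat_lit 828217107827) (nat_lit 152) (nat_lit 119692270062) (nat_lit 0) (nat_lit 827953601924) (nat_lit 1) (nat_lit 5) (nat_lit 3) (nat_lit 4) (nat_lit 1) (nat_lit 4) (nat_lit 251) (nat_lit 178) (nat_lit 171))))) (XT.nd (nat_lit 312) (nat_lit 0) (nat_lit 0) (XT.nd (nat_lit 156) (nat_lit 0) (nat_lit 0) (XT.nd (nat_lit 78) (nat_lit 0) (nat_lit 0) (XT.lf (nat_lit 0) (nat_lit 952772484207) (nat_lit 152)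 (nat_lit 136921932733) (nat_lit 0) (nat_lit 952488273532) (nat_lit 1) (nat_lit 5) (nat_lit 3) (nat_lit 4) (nat_lit 1) (nat_lit 4) (nat_lit 252) (nat_lit 178) (nat_lit 170)) (XT.lf (nat_lit 0) (nat_lit 1095990378322) (nat_lit 152) (nat_lit 156775031896) (nat_lit 0) (nat_lit 1095688163496) (nat_lit 1) (nat_lit 5) (nat_lit 3) (nat_lit 4) (nat_lit 1) (nat_lit 4) (nat_lit 253) (nat_lit 178) (nat_lit 169))) (XT.nd (nat_lit 78) (nat_lit 0) (nat_lit 0) (XT.lf (nat_lit 0) (nat_lit 1260672879404) (nat_lit 152) (nat_lit 179639997753) (nat_lit 0) (nat_lit 1260355008795) (nat_lit 1) (nat_lit 5) (nat_lit 3) (nat_lit 4) (nat_lit 1) (nat_lit 4) (nat_lit 254) (nat_lit 178) (nat_lit 168)) (XT.lf (nat_lit 0) (nat_lit 1450042036387) (nat_lit 152) (nat_lit 205964188331) (nat_lit 0) (nat_lit 1449710552053) (nat_lit 1) (nat_lit 5) (nat_lit 3) (nat_lit 4) (nat_lit 1) (nat_lit 4) (nat_lit 255) (nat_lit 178)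 (nat_lit 167)))) (XT.nd (nat_lit 156) (nat_lit 0) (nat_lit 0) (XT.nd (nat_lit 78) (nat_lit 0) (nat_lit 0) (XT.lf (nat_lit 0) (nat_lit 1667802897995) (nat_lit 152) (nat_lit 236262642142) (nat_lit 0) (nat_lit 1667459575640) (nat_lit 1) (nat_lit 5) (nat_lit 3) (nat_lit 4) (nat_lit 1) (nat_lit 4) (nat_lit 256) (nat_lit 178) (nat_lit 166)) (XT.lf (nat_lit 0) (nat_lit 1918216002824) (nat_lit 152) (nat_lit 271128155022) (nat_lit 0) (nat_lit 1917862386538) (nat_lit 1) (nat_lit 5) (nat_lit 3) (nat_lit 4) (nat_lit 1) (nat_lit 4) (nat_lit 257) (nat_lit 178) (nat_lit 165))) (XT.nd (nat_lit 78) (nat_lit 0) (nat_lit 0) (XT.lf (nat_lit 0) (nat_lit 2206180737708) (nat_lit 152) (nat_lit 311242878308) (nat_lit 0) (nat_lit 2205818170177) (nat_lit 1) (nat_lit 5) (nat_lit 3) (nat_lit 4) (nat_lit 1) (nat_lit 4) (nat_lit 258) (nat_lit 178) (nat_lit 164)) (XT.lf (nat_lit 0) (nat_lit 2537331195286) (nat_lit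 152) (nat_lit 357391665284) (nat_lit 0) (nat_lit 2536960844064) (nat_lit 1) (nat_lit 5) (nat_lit 3) (nat_lit 4) (nat_lit 1) (nat_lit 4) (nat_lit 259) (nat_lit 178) (nat_lit 163))))))))
noncomputable def xc5 : XT := (XT.nd (nat_lit 30654) (nat_lit 0) (nat_lit 0) (XT.nd (nat_lit 1248) (nat_lit 0) (nat_lit 0) (XT.nd (nat_lit 546) (nat_lit 0) (nat_lit 0) (XT.nd (nat_lit 234) (nat_lit 0) (nat_lit 0) (XT.nd (nat_lit 78) (nat_lit 0) (nat_lit 0) (XT.lf (nat_lit 0) (nat_lit 2918146406251) (nat_lit 152) (nat_lit 410477426997) (nat_lit 0) (nat_lit 2917769286601) (nat_lit 1) (nat_lit 5) (nat_lit 3) (nat_lit 4) (nat_lit 1) (nat_lit 4) (nat_lit 260) (nat_lit 178) (nat_lit 162)) (XT.nd (nat_lit 78) (nat_lit 0) (nat_lit 0) (XT.lf (nat_lit 0) (nat_lit 3356077102989) (nat_lit 152) (nat_lit 471538797918) (nat_lit 0) (nat_lit 3355694097751) (nat_lit 1) (nat_lit 5) (nat_lit 3) (nat_lit 4) (nat_lit 1)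 (nat_lit 4) (nat_lit 261) (nat_lit 178) (nat_lit 161)) (XT.lf (nat_lit 0) (nat_lit 3859691494785) (nat_lit 152) (nat_lit 541770457041) (nat_lit 0) (nat_lit 3859303371644) (nat_lit 1) (nat_lit 5) (nat_lit 3) (nat_lit 4) (nat_lit 1) (nat_lit 4) (nat_lit 262) (nat_lit 178) (nat_lit 160)))) (XT.nd (nat_lit 156) (nat_lit 0) (nat_lit 0) (XT.nd (nat_lit 78) (nat_lit 0) (nat_lit 0) (XT.lf (nat_lit 0) (nat_lit 4438842906697) (nat_lit 152) (nat_lit 622546502046) (nat_lit 0) (nat_lit 4438450333205) (nat_lit 1) (nat_lit 5) (nat_lit 3) (nat_lit 4) (nat_lit 1) (nat_lit 4) (nat_lit 263) (nat_lit 178) (nat_lit 159)) (XT.lf (nat_lit 0) (nat_lit 5104862562001) (nat_lit 152) (nat_lit 715447333813) (nat_lit 0) (nat_lit 5104466118638) (nat_lit 1) (nat_lit 5) (nat_lit 3) (nat_lit 4) (nat_lit 1) (nat_lit 4) (nat_lit 264) (nat_lit 178) (nat_lit 158))) (XT.nd (nat_lit 78) (nat_lit 0) (nat_lit 0) (XT.lf (nat_lit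 0) (nat_lit 5870781280038) (nat_lit 152) (nat_lit 822290577311) (nat_lit 0) (nat_lit 5870381471572) (nat_lit 1) (nat_lit 5) (nat_lit 3) (nat_lit 4) (nat_lit 1) (nat_lit 4) (nat_lit 265) (nat_lit 178) (nat_lit 157)) (XT.lf (nat_lit 0) (nat_lit 6751584427033) (nat_lit 152) (nat_lit 945166643826) (nat_lit 0) (nat_lit 6751181692389) (nat_lit 1) (nat_lit 5) (nat_lit 3) (nat_lit 4) (nat_lit 1) (nat_lit 4) (nat_lit 266) (nat_lit 178) (nat_lit 156))))) (XT.nd (nat_lit 234) (nat_lit 0) (nat_lit 0) (XT.nd (nat_lit 78) (nat_lit 0) (nat_lit 0) (XT.lf (nat_lit 0) (nat_lit 7764505108035) (nat_lit 152) (nat_lit 1086479630312) (nat_lit 0) (nat_lit 7764099828888) (nat_lit 1) (nat_lit 5) (nat_lit 3) (nat_lit 4) (nat_lit 1) (nat_lit 4) (nat_lit 267) (nat_lit 178) (nat_lit 155)) (XT.nd (nat_lit 78) (nat_lit 0) (nat_lit 0) (XT.lf (nat_lit 0) (nat_lit 8929361336368) (nat_lit 152) (nat_lit 1248994356070)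 (nat_lit 0) (nat_lit 8928953844611) (nat_lit 1) (nat_lit 5) (nat_lit 3) (nat_lit 4) (nat_lit 1) (nat_lit 4) (nat_lit 268) (nat_lit 178) (nat_lit 154)) (XT.lf (nat_lit 0) (nat_lit 10268943777369) (nat_lit 152) (nat_lit 1435890457037) (nat_lit 0) (nat_lit 10268534361602) (nat_lit 1) (nat_lit 5) (nat_lit 3) (nat_lit 4) (nat_lit 1) (nat_lit 4) (nat_lit 269) (nat_lit 178) (nat_lit 153)))) (XT.nd (nat_lit 312) (nat_lit 0) (nat_lit 0) (XT.nd (nat_lit 234) (nat_lit 0) (nat_lit 0) (XT.lf (nat_lit 0) (nat_lit 11809461652709) (nat_lit 152) (nat_lit 1650824596060) (nat_lit 0) (nat_lit 11809050563891) (nat_lit 1) (nat_lit 5) (nat_lit 3) (nat_lit 4) (nat_lit 1) (nat_lit 4) (nat_lit 270) (nat_lit 178) (nat_lit 152)) (XT.lf (nat_lit 0) (nat_lit 17961316979160) (nat_lit 152) (nat_lit 2509156425014) (nat_lit 0) (nat_lit 17960902070388) (nat_lit 1) (nat_lit 5) (nat_lit 3) (nat_lit 4) (nat_lit 1) (nat_lit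 4) (nat_lit 273) (nat_lit 178) (nat_lit 149))) (XT.nd (nat_lit 78) (nat_lit 0) (nat_lit 0) (XT.lf (nat_lit 0) (nat_lit 20655685319492) (nat_lit 152) (nat_lit 2885090802564) (nat_lit 0) (nat_lit 20655269454147) (nat_lit 1) (nat_lit 5) (nat_lit 3) (nat_lit 4) (nat_lit 1) (nat_lit 4) (nat_lit 274) (nat_lit 178) (nat_lit 148)) (XT.lf (nat_lit 0) (nat_lit 23754207950423) (nat_lit 152) (nat_lit 3317417137973) (nat_lit 0) (nat_lit 23753791253275) (nat_lit 1) (nat_lit 5) (nat_lit 3) (nat_lit 4) (nat_lit 1) (nat_lit 4) (nat_lit 275) (nat_lit 178) (nat_lit 147)))))) (XT.nd (nat_lit 28782) (nat_lit 0) (nat_lit 0) (XT.nd (nat_lit 234) (nat_lit 0) (nat_lit 0) (XT.nd (nat_lit 78) (nat_lit 0) (nat_lit 0) (XT.lf (nat_lit 0) (nat_lit 27317508140818) (nat_lit 152) (nat_lit 3814593989977) (nat_lit 0) (nat_lit 27317090720364) (nat_lit 1) (nat_lit 5) (nat_lit 3) (nat_lit 4) (nat_lit 1) (nat_lit 4) (nat_lit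 276) (nat_lit 178) (nat_lit 146)) (XT.nd (nat_lit 78) (nat_lit 0) (nat_lit 0) (XT.lf (nat_lit 0) (nat_lit 31415302633533) (nat_lit 152) (nat_lit 4386348731767) (nat_lit 0) (nat_lit 31414884584117) (nat_lit 1) (nat_lit 5) (nat_lit 3) (nat_lit 4) (nat_lit 1) (nat_lit 4) (nat_lit 277) (nat_lit 178) (nat_lit 145)) (XT.lf (nat_lit 0) (nat_lit 36127765668643) (nat_lit 152) (nat_lit 5043867869162) (nat_lit 0) (nat_lit 36127347072303) (nat_lit 1) (nat_lit 5) (nat_lit 3) (nat_lit 4) (nat_lit 1) (nat_lit 4) (nat_lit 278) (nat_lit 178) (nat_lit 144)))) (XT.nd (nat_lit 28392) (nat_lit 0) (nat_lit 0) (XT.nd (nat_lit 78) (nat_lit 0) (nat_lit 0) (XT.lf (nat_lit 0) (nat_lit 41547097609878) (nat_lit 152) (nat_lit 5800015907024) (nat_lit 0) (nat_lit 41546678537953) (nat_lit 1) (nat_lit 5) (nat_lit 3) (nat_lit 4) (nat_lit 1) (nat_lit 4) (nat_lit 279) (nat_lit 178) (nat_lit 143)) (XT.lf (nat_lit 0) (nat_lit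 47779328864785) (nat_lit 152) (nat_lit 6669587046092) (nat_lit 0) (nat_lit 47778909379307) (nat_lit 1) (nat_lit 5) (nat_lit 3) (nat_lit 4) (nat_lit 1) (nat_lit 4) (nat_lit 280) (nat_lit 178) (nat_lit 142))) (XT.nd (nat_lit 78) (nat_lit 0) (nat_lit 0) (XT.lf (nat_lit 0) (nat_lit 116455378099) (nat_lit 152) (nat_lit 19718004431) (nat_lit 0) (nat_lit 116455378099) (nat_lit 1) (nat_lit 5) (nat_lit 3) (nat_lit 4) (nat_lit 1) (nat_lit 4) (nat_lit 242) (nat_lit 179) (nat_lit 179)) (XT.lf (nat_lit 0) (nat_lit 268522861827) (nat_lit 152) (nat_lit 43947996757) (nat_lit 0) (nat_lit 268459525452) (nat_lit 1) (nat_lit 5) (nat_lit 3) (nat_lit 4) (nat_lit 1) (nat_lit 4) (nat_lit 243) (nat_lit 179) (nat_lit 178))))) (XT.nd (nat_lit 312) (nat_lit 0) (nat_lit 0) (XT.nd (nat_lit 156) (nat_lit 0) (nat_lit 0) (XT.nd (nat_lit 78) (nat_lit 0) (nat_lit 0) (XT.lf (nat_lit 0) (nat_lit 309413190122) (nat_lit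 152) (nat_lit 49256045242) (nat_lit 0) (nat_lit 309294778639) (nat_lit 1) (nat_lit 5) (nat_lit 3) (nat_lit 4) (nat_lit 1) (nat_lit 4) (nat_lit 244) (nat_lit 179) (nat_lit 177)) (XT.lf (nat_lit 0) (nat_lit 356381769245) (nat_lit 152) (nat_lit 55464007441) (nat_lit 0) (nat_lit 356215466363) (nat_lit 1) (nat_lit 5) (nat_lit 3) (nat_lit 4) (nat_lit 1) (nat_lit 4) (nat_lit 245) (nat_lit 179) (nat_lit 176))) (XT.nd (nat_lit 78) (nat_lit 0) (nat_lit 0) (XT.lf (nat_lit 0) (nat_lit 410347549657) (nat_lit 152) (nat_lit 62693343482) (nat_lit 0) (nat_lit 410139602082) (nat_lit 1) (nat_lit 5) (nat_lit 3) (nat_lit 4) (nat_lit 1) (nat_lit 4) (nat_lit 246) (nat_lit 179) (nat_lit 175)) (XT.lf (nat_lit 0) (nat_lit 472366383584) (nat_lit 152) (nat_lit 71085496898) (nat_lit 0) (nat_lit 472122223231) (nat_lit 1) (nat_lit 5) (nat_lit 3) (nat_lit 4) (nat_lit 1) (nat_lit 4) (nat_lit 247) (nat_lit 179) (nat_lit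 174)))) (XT.nd (nat_lit 156) (nat_lit 0) (nat_lit 0) (XT.nd (nat_lit 78) (nat_lit 0) (nat_lit 0) (XT.lf (nat_lit 0) (nat_lit 543651682994) (nat_lit 152) (nat_lit 80804661995) (nat_lit 0) (nat_lit 543376033269) (nat_lit 1) (nat_lit 5) (nat_lit 3) (nat_lit 4) (nat_lit 1) (nat_lit 4) (nat_lit 248) (nat_lit 179) (nat_lit 173)) (XT.lf (nat_lit 0) (nat_lit 625598160267) (nat_lit 152) (nat_lit 92040996349) (nat_lit 0) (nat_lit 625295128479) (nat_lit 1) (nat_lit 5) (nat_lit 3) (nat_lit 4) (nat_lit 1) (nat_lit 4) (nat_lit 249) (nat_lit 179) (nat_lit 172))) (XT.nd (nat_lit 78) (nat_lit 0) (nat_lit 0) (XT.lf (nat_lit 0) (nat_lit 719809116045) (nat_lit 152) (nat_lit 105014341287) (nat_lit 0) (nat_lit 719482273768) (nat_lit 1) (nat_lit 5) (nat_lit 3) (nat_lit 4) (nat_lit 1) (nat_lit 4) (nat_lit 250) (nat_lit 179) (nat_lit 171)) (XT.lf (nat_lit 0) (nat_lit 828127808158) (nat_lit 152) (nat_lit 119978523121)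 (nat_lit 0) (nat_lit 827780261108) (nat_lit 1) (nat_lit 5) (nat_lit 3) (nat_lit 4) (nat_lit 1) (nat_lit 4) (nat_lit 251) (nat_lit 179) (nat_lit 170))))))) (XT.nd (nat_lit 1170) (nat_lit 0) (nat_lit 0) (XT.nd (nat_lit 546) (nat_lit 0) (nat_lit 0) (XT.nd (nat_lit 234) (nat_lit 0) (nat_lit 0) (XT.nd (nat_lit 78) (nat_lit 0) (nat_lit 0) (XT.lf (nat_lit 0) (nat_lit 952673515365) (nat_lit 152) (nat_lit 137226319323) (nat_lit 0) (nat_lit 952307964165) (nat_lit 1) (nat_lit 5) (nat_lit 3) (nat_lit 4) (nat_lit 1) (nat_lit 4) (nat_lit 252) (nat_lit 179) (nat_lit 169)) (XT.nd (nat_lit 78) (nat_lit 0) (nat_lit 0) (XT.lf (nat_lit 0) (nat_lit 1095883001503) (nat_lit 152) (nat_lit 157095186774) (nat_lit 0) (nat_lit 1095501794520) (nat_lit 1) (nat_lit 5) (nat_lit 3) (nat_lit 4) (nat_lit 1) (nat_lit 4) (nat_lit 253) (nat_lit 179) (nat_lit 168)) (XT.lf (nat_lit 0) (nat_lit 1260558191301) (nat_lit 152)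 (nat_lit 179973864186) (nat_lit 0) (nat_lit 1260163370593) (nat_lit 1) (nat_lit 5) (nat_lit 3) (nat_lit 4) (nat_lit 1) (nat_lit 4) (nat_lit 254) (nat_lit 179) (nat_lit 167)))) (XT.nd (nat_lit 156) (nat_lit 0) (nat_lit 0) (XT.nd (nat_lit 78) (nat_lit 0) (nat_lit 0) (XT.lf (nat_lit 0) (nat_lit 1449920990645) (nat_lit 152) (nat_lit 206309977855) (nat_lit 0) (nat_lit 1449514331916) (nat_lit 1) (nat_lit 5) (nat_lit 3) (nat_lit 4) (nat_lit 1) (nat_lit 4) (nat_lit 255) (nat_lit 179) (nat_lit 166)) (XT.lf (nat_lit 0) (nat_lit 1667676323872) (nat_lit 152) (nat_lit 236618799572) (nat_lit 0) (nat_lit 1667259371211) (nat_lit 1) (nat_lit 5) (nat_lit 3) (nat_lit 4) (nat_lit 1) (nat_lit 4) (nat_lit 256) (nat_lit 179) (nat_lit 165))) (XT.nd (nat_lit 78) (nat_lit 0) (nat_lit 0) (XT.lf (nat_lit 0) (nat_lit 1918084621413) (nat_lit 152) (nat_lit 271493328021) (nat_lit 0) (nat_lit 1917658717507) (nat_lit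 1) (nat_lit 5) (nat_lit 3) (nat_lit 4) (nat_lit 1) (nat_lit 4) (nat_lit 257) (nat_lit 179) (nat_lit 164)) (XT.lf (nat_lit 0) (nat_lit 2206045176047) (nat_lit 152) (nat_lit 311615890934) (nat_lit 0) (nat_lit 2205611488450) (nat_lit 1) (nat_lit 5) (nat_lit 3) (nat_lit 4) (nat_lit 1) (nat_lit 4) (nat_lit 258) (nat_lit 179) (nat_lit 163))))) (XT.nd (nat_lit 312) (nat_lit 0) (nat_lit 0) (XT.nd (nat_lit 156) (nat_lit 0) (nat_lit 0) (XT.nd (nat_lit 78) (nat_lit 0) (nat_lit 0) (XT.lf (nat_lit 0) (nat_lit 2537191998624) (nat_lit 152) (nat_lit 357771494975) (nat_lit 0) (nat_lit 2536751542601) (nat_lit 1) (nat_lit 5) (nat_lit 3) (nat_lit 4) (nat_lit 1) (nat_lit 4) (nat_lit 259) (nat_lit 179) (nat_lit 162)) (XT.lf (nat_lit 0) (nat_lit 2918004048719) (nat_lit 152) (nat_lit 410863184572) (nat_lit 0) (nat_lit 2917557707106) (nat_lit 1) (nat_lit 5) (nat_lit 3) (nat_lit 4) (nat_lit 1) (nat_lit 4)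 (nat_lit 260) (nat_lit 179) (nat_lit 161))) (XT.nd (nat_lit 78) (nat_lit 0) (nat_lit 0) (XT.lf (nat_lit 0) (nat_lit 3355931996874) (nat_lit 152) (nat_lit 471929710174) (nat_lit 0) (nat_lit 3355480537358) (nat_lit 1) (nat_lit 5) (nat_lit 3) (nat_lit 4) (nat_lit 1) (nat_lit 4) (nat_lit 261) (nat_lit 179) (nat_lit 160)) (XT.lf (nat_lit 0) (nat_lit 3859543998599) (nat_lit 152) (nat_lit 542165851629) (nat_lit 0) (nat_lit 3859088088733) (nat_lit 1) (nat_lit 5) (nat_lit 3) (nat_lit 4) (nat_lit 1) (nat_lit 4) (nat_lit 262) (nat_lit 179) (nat_lit 159)))) (XT.nd (nat_lit 156) (nat_lit 0) (nat_lit 0) (XT.nd (nat_lit 78) (nat_lit 0) (nat_lit 0) (XT.lf (nat_lit 0) (nat_lit 4438693332188) (nat_lit 152) (nat_lit 622945794314) (nat_lit 0) (nat_lit 4438233552451) (nat_lit 1) (nat_lit 5) (nat_lit 3) (nat_lit 4) (nat_lit 1) (nat_lit 4) (nat_lit 263) (nat_lit 179) (nat_lit 158)) (XT.lf (nat_lit 0) (nat_lit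 5104711180253) (nat_lit 152) (nat_lit 715850015367) (nat_lit 0) (nat_lit 5104248035412) (nat_lit 1) (nat_lit 5) (nat_lit 3) (nat_lit 4) (nat_lit 1) (nat_lit 4) (nat_lit 264) (nat_lit 179) (nat_lit 157))) (XT.nd (nat_lit 78) (nat_lit 0) (nat_lit 0) (XT.lf (nat_lit 0) (nat_lit 5870628326780) (nat_lit 152) (nat_lit 822696206071) (nat_lit 0) (nat_lit 5870162255761) (nat_lit 1) (nat_lit 5) (nat_lit 3) (nat_lit 4) (nat_lit 1) (nat_lit 4) (nat_lit 265) (nat_lit 179) (nat_lit 156)) (XT.lf (nat_lit 0) (nat_lit 6751430107244) (nat_lit 152) (nat_lit 945574835374) (nat_lit 0) (nat_lit 6750961491722) (nat_lit 1) (nat_lit 5) (nat_lit 3) (nat_lit 4) (nat_lit 1) (nat_lit 4) (nat_lit 266) (nat_lit 179) (nat_lit 155)))))) (XT.nd (nat_lit 702) (nat_lit 0) (nat_lit 0) (XT.nd (nat_lit 234) (nat_lit 0) (nat_lit 0) (XT.nd (nat_lit 78) (nat_lit 0) (nat_lit 0) (XT.lf (nat_lit 0) (nat_lit 7764349599958) (nat_lit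 152) (nat_lit 1086890050371) (nat_lit 0) (nat_lit 7763878771826) (nat_lit 1) (nat_lit 5) (nat_lit 3) (nat_lit 4) (nat_lit 1) (nat_lit 4) (nat_lit 267) (nat_lit 179) (nat_lit 154)) (XT.nd (nat_lit 78) (nat_lit 0) (nat_lit 0) (XT.lf (nat_lit 0) (nat_lit 8929204794997) (nat_lit 152) (nat_lit 1249406713964) (nat_lit 0) (nat_lit 8928732042855) (nat_lit 1) (nat_lit 5) (nat_lit 3) (nat_lit 4) (nat_lit 1) (nat_lit 4) (nat_lit 268) (nat_lit 179) (nat_lit 153)) (XT.lf (nat_lit 0) (nat_lit 10268786337481) (nat_lit 152) (nat_lit 1436304500006) (nat_lit 0) (nat_lit 10268311912288) (nat_lit 1) (nat_lit 5) (nat_lit 3) (nat_lit 4) (nat_lit 1) (nat_lit 4) (nat_lit 269) (nat_lit 179) (nat_lit 152)))) (XT.nd (nat_lit 312) (nat_lit 0) (nat_lit 0) (XT.nd (nat_lit 234) (nat_lit 0) (nat_lit 0) (XT.lf (nat_lit 0) (nat_lit 11809303431503) (nat_lit 152) (nat_lit 1651240104311) (nat_lit 0) (nat_lit 11808827551482)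 (nat_lit 1) (nat_lit 5) (nat_lit 3) (nat_lit 4) (nat_lit 1) (nat_lit 4) (nat_lit 270) (nat_lit 179) (nat_lit 151)) (XT.lf (nat_lit 0) (nat_lit 17961156974027) (nat_lit 152) (nat_lit 2509575278834) (nat_lit 0) (nat_lit 17960677772308) (nat_lit 1) (nat_lit 5) (nat_lit 3) (nat_lit 4) (nat_lit 1) (nat_lit 4) (nat_lit 273) (nat_lit 179) (nat_lit 148))) (XT.nd (nat_lit 78) (nat_lit 0) (nat_lit 0) (XT.lf (nat_lit 0) (nat_lit 20655524867637) (nat_lit 152) (nat_lit 2885510494164) (nat_lit 0) (nat_lit 20655044834115) (nat_lit 1) (nat_lit 5) (nat_lit 3) (nat_lit 4) (nat_lit 1) (nat_lit 4) (nat_lit 274) (nat_lit 179) (nat_lit 147)) (XT.lf (nat_lit 0) (nat_lit 23754047110114) (nat_lit 152) (nat_lit 3317837558077) (nat_lit 0) (nat_lit 23753566353286) (nat_lit 1) (nat_lit 5) (nat_lit 3) (nat_lit 4) (nat_lit 1) (nat_lit 4) (nat_lit 275) (nat_lit 179) (nat_lit 146))))) (XT.nd (nat_lit 28470) (nat_lit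 0) (nat_lit 0) (XT.nd (nat_lit 156) (nat_lit 0) (nat_lit 0) (XT.nd (nat_lit 78) (nat_lit 0) (nat_lit 0) (XT.lf (nat_lit 0) (nat_lit 27317346962724) (nat_lit 152) (nat_lit 3815015043562) (nat_lit 0) (nat_lit 27316865576933) (nat_lit 1) (nat_lit 5) (nat_lit 3) (nat_lit 4) (nat_lit 1) (nat_lit 4) (nat_lit 276) (nat_lit 179) (nat_lit 145)) (XT.lf (nat_lit 0) (nat_lit 31415141161712) (nat_lit 152) (nat_lit 4386770336207) (nat_lit 0) (nat_lit 31414659228998) (nat_lit 1) (nat_lit 5) (nat_lit 3) (nat_lit 4) (nat_lit 1) (nat_lit 4) (nat_lit 277) (nat_lit 179) (nat_lit 144))) (XT.nd (nat_lit 78) (nat_lit 0) (nat_lit 0) (XT.lf (nat_lit 0) (nat_lit 36127603941408) (nat_lit 152) (nat_lit 5044289952605) (nat_lit 0) (nat_lit 36127121533108) (nat_lit 1) (nat_lit 5) (nat_lit 3) (nat_lit 4) (nat_lit 1) (nat_lit 4) (nat_lit 278) (nat_lit 179) (nat_lit 143)) (XT.lf (nat_lit 0) (nat_lit 41546935660543)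 (nat_lit 152) (nat_lit 5800438406992) (nat_lit 0) (nat_lit 41546452838691) (nat_lit 1) (nat_lit 5) (nat_lit 3) (nat_lit 4) (nat_lit 1) (nat_lit 4) (nat_lit 279) (nat_lit 179) (nat_lit 142)))) (XT.nd (nat_lit 156) (nat_lit 0) (nat_lit 0) (XT.nd (nat_lit 78) (nat_lit 0) (nat_lit 0) (XT.lf (nat_lit 0) (nat_lit 87467884977) (nat_lit 152) (nat_lit 16193795211) (nat_lit 0) (nat_lit 87467884977) (nat_lit 1) (nat_lit 5) (nat_lit 3) (nat_lit 4) (nat_lit 1) (nat_lit 4) (nat_lit 240) (nat_lit 180) (nat_lit 180)) (XT.lf (nat_lit 0) (nat_lit 201952951477) (nat_lit 152) (nat_lit 35631803535) (nat_lit 0) (nat_lit 201880114646) (nat_lit 1) (nat_lit 5) (nat_lit 3) (nat_lit 4) (nat_lit 1) (nat_lit 4) (nat_lit 241) (nat_lit 180) (nat_lit 179))) (XT.nd (nat_lit 78) (nat_lit 0) (nat_lit 0) (XT.lf (nat_lit 0) (nat_lit 232949578073) (nat_lit 152) (nat_lit 39499800383) (nat_lit 0) (nat_lit 232813404867)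 (nat_lit 1) (nat_lit 5) (nat_lit 3) (nat_lit 4) (nat_lit 1) (nat_lit 4) (nat_lit 242) (nat_lit 180) (nat_lit 178)) (XT.lf (nat_lit 0) (nat_lit 268532105479) (nat_lit 152) (nat_lit 44067259164) (nat_lit 0) (nat_lit 268340857166) (nat_lit 1) (nat_lit 5) (nat_lit 3) (nat_lit 4) (nat_lit 1) (nat_lit 4) (nat_lit 243) (nat_lit 180) (nat_lit 177))))))))
noncomputable def xc6 : XT := (XT.nd (nat_lit 2262) (nat_lit 0) (nat_lit 0) (XT.nd (nat_lit 1092) (nat_lit 0) (nat_lit 0) (XT.nd (nat_lit 546) (nat_lit 0) (nat_lit 0) (XT.nd (nat_lit 234) (nat_lit 0) (nat_lit 0) (XT.nd (nat_lit 78) (nat_lit 0) (nat_lit 0) (XT.lf (nat_lit 0) (nat_lit 309396713580) (nat_lit 152) (nat_lit 49423543203) (nat_lit 0) (nat_lit 309157573868) (nat_lit 1) (nat_lit 5) (nat_lit 3) (nat_lit 4) (nat_lit 1) (nat_lit 4) (nat_lit 244) (nat_lit 180) (nat_lit 176)) (XT.nd (nat_lit 78) (nat_lit 0) (nat_lit 0) (XT.lf (nat_lit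 0) (nat_lit 356342927318) (nat_lit 152) (nat_lit 55673449361) (nat_lit 0) (nat_lit 356062142912) (nat_lit 1) (nat_lit 5) (nat_lit 3) (nat_lit 4) (nat_lit 1) (nat_lit 4) (nat_lit 245) (nat_lit 180) (nat_lit 175)) (XT.lf (nat_lit 0) (nat_lit 410289259569) (nat_lit 152) (nat_lit 62939258411) (nat_lit 0) (nat_lit 409972262385) (nat_lit 1) (nat_lit 5) (nat_lit 3) (nat_lit 4) (nat_lit 1) (nat_lit 4) (nat_lit 246) (nat_lit 180) (nat_lit 174)))) (XT.nd (nat_lit 156) (nat_lit 0) (nat_lit 0) (XT.nd (nat_lit 78) (nat_lit 0) (nat_lit 0) (XT.lf (nat_lit 0) (nat_lit 472291182051) (nat_lit 152) (nat_lit 71363127486) (nat_lit 0) (nat_lit 471942695495) (nat_lit 1) (nat_lit 5) (nat_lit 3) (nat_lit 4) (nat_lit 1) (nat_lit 4) (nat_lit 247) (nat_lit 180) (nat_lit 173)) (XT.lf (nat_lit 0) (nat_lit 543561775857) (nat_lit 152) (nat_lit 81109871417) (nat_lit 0) (nat_lit 543185907239) (nat_lit 1) (nat_lit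 5) (nat_lit 3) (nat_lit 4) (nat_lit 1) (nat_lit 4) (nat_lit 248) (nat_lit 180) (nat_lit 172))) (XT.nd (nat_lit 78) (nat_lit 0) (nat_lit 0) (XT.lf (nat_lit 0) (nat_lit 625495465648) (nat_lit 152) (nat_lit 92370187367) (nat_lit 0) (nat_lit 625095786541) (nat_lit 1) (nat_lit 5) (nat_lit 3) (nat_lit 4) (nat_lit 1) (nat_lit 4) (nat_lit 249) (nat_lit 180) (nat_lit 171)) (XT.lf (nat_lit 0) (nat_lit 719695301876) (nat_lit 152) (nat_lit 105364385865) (nat_lit 0) (nat_lit 719274917996) (nat_lit 1) (nat_lit 5) (nat_lit 3) (nat_lit 4) (nat_lit 1) (nat_lit 4) (nat_lit 250) (nat_lit 180) (nat_lit 170))))) (XT.nd (nat_lit 234) (nat_lit 0) (nat_lit 0) (XT.nd (nat_lit 78) (nat_lit 0) (nat_lit 0) (XT.lf (nat_lit 0) (nat_lit 828004324816) (nat_lit 152) (nat_lit 120346701231) (nat_lit 0) (nat_lit 827565936785) (nat_lit 1) (nat_lit 5) (nat_lit 3) (nat_lit 4) (nat_lit 1) (nat_lit 4) (nat_lit 251) (nat_lit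 180) (nat_lit 169)) (XT.nd (nat_lit 78) (nat_lit 0) (nat_lit 0) (XT.lf (nat_lit 0) (nat_lit 952541624046) (nat_lit 152) (nat_lit 137610265721) (nat_lit 0) (nat_lit 952087580232) (nat_lit 1) (nat_lit 5) (nat_lit 3) (nat_lit 4) (nat_lit 1) (nat_lit 4) (nat_lit 252) (nat_lit 180) (nat_lit 168)) (XT.lf (nat_lit 0) (nat_lit 1095743798900) (nat_lit 152) (nat_lit 157492844727) (nat_lit 0) (nat_lit 1095276141361) (nat_lit 1) (nat_lit 5) (nat_lit 3) (nat_lit 4) (nat_lit 1) (nat_lit 4) (nat_lit 253) (nat_lit 180) (nat_lit 167)))) (XT.nd (nat_lit 156) (nat_lit 0) (nat_lit 0) (XT.nd (nat_lit 78) (nat_lit 0) (nat_lit 0) (XT.lf (nat_lit 0) (nat_lit 1260412631059) (nat_lit 152) (nat_lit 180383445230) (nat_lit 0) (nat_lit 1259933135499) (nat_lit 1) (nat_lit 5) (nat_lit 3) (nat_lit 4) (nat_lit 1) (nat_lit 4) (nat_lit 254) (nat_lit 180) (nat_lit 166)) (XT.lf (nat_lit 0) (nat_lit 1449769902023) (nat_lit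 152) (nat_lit 206729926804) (nat_lit 0) (nat_lit 1449280112531) (nat_lit 1) (nat_lit 5) (nat_lit 3) (nat_lit 4) (nat_lit 1) (nat_lit 4) (nat_lit 255) (nat_lit 180) (nat_lit 165))) (XT.nd (nat_lit 78) (nat_lit 0) (nat_lit 0) (XT.lf (nat_lit 0) (nat_lit 1667520427961) (nat_lit 152) (nat_lit 237047764091) (nat_lit 0) (nat_lit 1667021687225) (nat_lit 1) (nat_lit 5) (nat_lit 3) (nat_lit 4) (nat_lit 1) (nat_lit 4) (nat_lit 256) (nat_lit 180) (nat_lit 164)) (XT.lf (nat_lit 0) (nat_lit 1917924545252) (nat_lit 152) (nat_lit 271930132166) (nat_lit 0) (nat_lit 1917418020824) (nat_lit 1) (nat_lit 5) (nat_lit 3) (nat_lit 4) (nat_lit 1) (nat_lit 4) (nat_lit 257) (nat_lit 180) (nat_lit 163)))))) (XT.nd (nat_lit 546) (nat_lit 0) (nat_lit 0) (XT.nd (nat_lit 234) (nat_lit 0) (nat_lit 0) (XT.nd (nat_lit 78) (nat_lit 0) (nat_lit 0) (XT.lf (nat_lit 0) (nat_lit 2205881464885) (nat_lit 152) (nat_lit 312059512145)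 (nat_lit 0) (nat_lit 2205368172030) (nat_lit 1) (nat_lit 5) (nat_lit 3) (nat_lit 4) (nat_lit 1) (nat_lit 4) (nat_lit 258) (nat_lit 180) (nat_lit 162)) (XT.nd (nat_lit 78) (nat_lit 0) (nat_lit 0) (XT.lf (nat_lit 0) (nat_lit 2537025126593) (nat_lit 152) (nat_lit 358221044070) (nat_lit 0) (nat_lit 2536505948149) (nat_lit 1) (nat_lit 5) (nat_lit 3) (nat_lit 4) (nat_lit 1) (nat_lit 4) (nat_lit 259) (nat_lit 180) (nat_lit 161)) (XT.lf (nat_lit 0) (nat_lit 2917834428104) (nat_lit 152) (nat_lit 411317888348) (nat_lit 0) (nat_lit 2917310131758) (nat_lit 1) (nat_lit 5) (nat_lit 3) (nat_lit 4) (nat_lit 1) (nat_lit 4) (nat_lit 260) (nat_lit 180) (nat_lit 160)))) (XT.nd (nat_lit 156) (nat_lit 0) (nat_lit 0) (XT.nd (nat_lit 78) (nat_lit 0) (nat_lit 0) (XT.lf (nat_lit 0) (nat_lit 3355759986188) (nat_lit 152) (nat_lit 472388896282) (nat_lit 0) (nat_lit 3355231239491) (nat_lit 1) (nat_lit 5) (nat_lit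 3) (nat_lit 4) (nat_lit 1) (nat_lit 4) (nat_lit 261) (nat_lit 180) (nat_lit 159)) (XT.lf (nat_lit 0) (nat_lit 3859369909590) (nat_lit 152) (nat_lit 542628935416) (nat_lit 0) (nat_lit 3858837293022) (nat_lit 1) (nat_lit 5) (nat_lit 3) (nat_lit 4) (nat_lit 1) (nat_lit 4) (nat_lit 262) (nat_lit 180) (nat_lit 158))) (XT.nd (nat_lit 78) (nat_lit 0) (nat_lit 0) (XT.lf (nat_lit 0) (nat_lit 4438517435941) (nat_lit 152) (nat_lit 623412267387) (nat_lit 0) (nat_lit 4437981454269) (nat_lit 1) (nat_lit 5) (nat_lit 3) (nat_lit 4) (nat_lit 1) (nat_lit 4) (nat_lit 263) (nat_lit 180) (nat_lit 157)) (XT.lf (nat_lit 0) (nat_lit 5104533712495) (nat_lit 152) (nat_lit 716319435647) (nat_lit 0) (nat_lit 5103994804646) (nat_lit 1) (nat_lit 5) (nat_lit 3) (nat_lit 4) (nat_lit 1) (nat_lit 4) (nat_lit 264) (nat_lit 180) (nat_lit 156))))) (XT.nd (nat_lit 312) (nat_lit 0) (nat_lit 0) (XT.nd (nat_lit 156) (nat_lit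 0) (nat_lit 0) (XT.nd (nat_lit 78) (nat_lit 0) (nat_lit 0) (XT.lf (nat_lit 0) (nat_lit 5870449492491) (nat_lit 152) (nat_lit 823168189138) (nat_lit 0) (nat_lit 5869908040139) (nat_lit 1) (nat_lit 5) (nat_lit 3) (nat_lit 4) (nat_lit 1) (nat_lit 4) (nat_lit 265) (nat_lit 180) (nat_lit 155)) (XT.lf (nat_lit 0) (nat_lit 6751250084667) (nat_lit 152) (nat_lit 946049046952) (nat_lit 0) (nat_lit 6750706419704) (nat_lit 1) (nat_lit 5) (nat_lit 3) (nat_lit 4) (nat_lit 1) (nat_lit 4) (nat_lit 266) (nat_lit 180) (nat_lit 154))) (XT.nd (nat_lit 78) (nat_lit 0) (nat_lit 0) (XT.lf (nat_lit 0) (nat_lit 7764168544087) (nat_lit 152) (nat_lit 1087366199785) (nat_lit 0) (nat_lit 7763622955114) (nat_lit 1) (nat_lit 5) (nat_lit 3) (nat_lit 4) (nat_lit 1) (nat_lit 4) (nat_lit 267) (nat_lit 180) (nat_lit 153)) (XT.lf (nat_lit 0) (nat_lit 8929022840609) (nat_lit 152) (nat_lit 1249884548452) (nat_lit 0) (nat_lit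 8928475578585) (nat_lit 1) (nat_lit 5) (nat_lit 3) (nat_lit 4) (nat_lit 1) (nat_lit 4) (nat_lit 268) (nat_lit 180) (nat_lit 152)))) (XT.nd (nat_lit 156) (nat_lit 0) (nat_lit 0) (XT.nd (nat_lit 78) (nat_lit 0) (nat_lit 0) (XT.lf (nat_lit 0) (nat_lit 10268603601774) (nat_lit 152) (nat_lit 1436783799777) (nat_lit 0) (nat_lit 10268054884923) (nat_lit 1) (nat_lit 5) (nat_lit 3) (nat_lit 4) (nat_lit 1) (nat_lit 4) (nat_lit 269) (nat_lit 180) (nat_lit 151)) (XT.lf (nat_lit 0) (nat_lit 11809120016388) (nat_lit 152) (nat_lit 1651720678240) (nat_lit 0) (nat_lit 11808570034469) (nat_lit 1) (nat_lit 5) (nat_lit 3) (nat_lit 4) (nat_lit 1) (nat_lit 4) (nat_lit 270) (nat_lit 180) (nat_lit 150))) (XT.nd (nat_lit 78) (nat_lit 0) (nat_lit 0) (XT.lf (nat_lit 0) (nat_lit 13580712622998) (nat_lit 152) (nat_lit 1898900470596) (nat_lit 0) (nat_lit 13580161541020) (nat_lit 1) (nat_lit 5) (nat_lit 3) (nat_lit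 4) (nat_lit 1) (nat_lit 4) (nat_lit 271) (nat_lit 180) (nat_lit 149)) (XT.lf (nat_lit 0) (nat_lit 15618043016080) (nat_lit 152) (nat_lit 2183159303215) (nat_lit 0) (nat_lit 15617490977529) (nat_lit 1) (nat_lit 5) (nat_lit 3) (nat_lit 4) (nat_lit 1) (nat_lit 4) (nat_lit 272) (nat_lit 180) (nat_lit 148))))))) (XT.nd (nat_lit 29250) (nat_lit 0) (nat_lit 0) (XT.nd (nat_lit 28626) (nat_lit 0) (nat_lit 0) (XT.nd (nat_lit 234) (nat_lit 0) (nat_lit 0) (XT.nd (nat_lit 78) (nat_lit 0) (nat_lit 0) (XT.lf (nat_lit 0) (nat_lit 17960972007673) (nat_lit 152) (nat_lit 2510058761954) (nat_lit 0) (nat_lit 17960419137320) (nat_lit 1) (nat_lit 5) (nat_lit 3) (nat_lit 4) (nat_lit 1) (nat_lit 4) (nat_lit 273) (nat_lit 180) (nat_lit 147)) (XT.nd (nat_lit 78) (nat_lit 0) (nat_lit 0) (XT.lf (nat_lit 0) (nat_lit 20655339512829) (nat_lit 152) (nat_lit 2885994705787) (nat_lit 0) (nat_lit 20654785919170) (nat_lit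 1) (nat_lit 5) (nat_lit 3) (nat_lit 4) (nat_lit 1) (nat_lit 4) (nat_lit 274) (nat_lit 180) (nat_lit 146)) (XT.lf (nat_lit 0) (nat_lit 23753861417521) (nat_lit 152) (nat_lit 3318322403182) (nat_lit 0) (nat_lit 23753307194900) (nat_lit 1) (nat_lit 5) (nat_lit 3) (nat_lit 4) (nat_lit 1) (nat_lit 4) (nat_lit 275) (nat_lit 180) (nat_lit 145)))) (XT.nd (nat_lit 156) (nat_lit 0) (nat_lit 0) (XT.nd (nat_lit 78) (nat_lit 0) (nat_lit 0) (XT.lf (nat_lit 0) (nat_lit 27317160976403) (nat_lit 152) (nat_lit 3815500439522) (nat_lit 0) (nat_lit 27316606206859) (nat_lit 1) (nat_lit 5) (nat_lit 3) (nat_lit 4) (nat_lit 1) (nat_lit 4) (nat_lit 276) (nat_lit 180) (nat_lit 144)) (XT.lf (nat_lit 0) (nat_lit 31414954919977) (nat_lit 152) (nat_lit 4387256211170) (nat_lit 0) (nat_lit 31414399674847) (nat_lit 1) (nat_lit 5) (nat_lit 3) (nat_lit 4) (nat_lit 1) (nat_lit 4) (nat_lit 277) (nat_lit 180) (nat_lit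 143))) (XT.nd (nat_lit 28158) (nat_lit 0) (nat_lit 0) (XT.lf (nat_lit 0) (nat_lit 36127417477573) (nat_lit 152) (nat_lit 5044776244093) (nat_lit 0) (nat_lit 36126861818890) (nat_lit 1) (nat_lit 5) (nat_lit 3) (nat_lit 4) (nat_lit 1) (nat_lit 4) (nat_lit 278) (nat_lit 180) (nat_lit 142)) (XT.lf (nat_lit 0) (nat_lit 65460808868) (nat_lit 152) (nat_lit 13721609381) (nat_lit 0) (nat_lit 65460808868) (nat_lit 1) (nat_lit 5) (nat_lit 3) (nat_lit 4) (nat_lit 1) (nat_lit 4) (nat_lit 238) (nat_lit 181) (nat_lit 181))))) (XT.nd (nat_lit 312) (nat_lit 0) (nat_lit 0) (XT.nd (nat_lit 156) (nat_lit 0) (nat_lit 0) (XT.nd (nat_lit 78) (nat_lit 0) (nat_lit 0) (XT.lf (nat_lit 0) (nat_lit 151453198831) (nat_lit 152) (nat_lit 29703687309) (nat_lit 0) (nat_lit 151369436476) (nat_lit 1) (nat_lit 5) (nat_lit 3) (nat_lit 4) (nat_lit 1) (nat_lit 4) (nat_lit 239) (nat_lit 181) (nat_lit 180)) (XT.lf (nat_lit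 0) (nat_lit 174980415111) (nat_lit 152) (nat_lit 32460950670) (nat_lit 0) (nat_lit 174823815925) (nat_lit 1) (nat_lit 5) (nat_lit 3) (nat_lit 4) (nat_lit 1) (nat_lit 4) (nat_lit 240) (nat_lit 181) (nat_lit 179))) (XT.nd (nat_lit 78) (nat_lit 0) (nat_lit 0) (XT.lf (nat_lit 0) (nat_lit 201963581677) (nat_lit 152) (nat_lit 35768955303) (nat_lit 0) (nat_lit 201743646117) (nat_lit 1) (nat_lit 5) (nat_lit 3) (nat_lit 4) (nat_lit 1) (nat_lit 4) (nat_lit 241) (nat_lit 181) (nat_lit 178)) (XT.lf (nat_lit 0) (nat_lit 232930630050) (nat_lit 152) (nat_lit 39692423037) (nat_lit 0) (nat_lit 232655619381) (nat_lit 1) (nat_lit 5) (nat_lit 3) (nat_lit 4) (nat_lit 1) (nat_lit 4) (nat_lit 242) (nat_lit 181) (nat_lit 177)))) (XT.nd (nat_lit 156) (nat_lit 0) (nat_lit 0) (XT.nd (nat_lit 78) (nat_lit 0) (nat_lit 0) (XT.lf (nat_lit 0) (nat_lit 268487437263) (nat_lit 152) (nat_lit 44308117372) (nat_lit 0)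 (nat_lit 268164535196) (nat_lit 1) (nat_lit 5) (nat_lit 3) (nat_lit 4) (nat_lit 1) (nat_lit 4) (nat_lit 243) (nat_lit 181) (nat_lit 176)) (XT.lf (nat_lit 0) (nat_lit 309329679979) (nat_lit 152) (nat_lit 49706345370) (nat_lit 0) (nat_lit 308965133217) (nat_lit 1) (nat_lit 5) (nat_lit 3) (nat_lit 4) (nat_lit 1) (nat_lit 4) (nat_lit 244) (nat_lit 181) (nat_lit 175))) (XT.nd (nat_lit 78) (nat_lit 0) (nat_lit 0) (XT.lf (nat_lit 0) (nat_lit 356256445555) (nat_lit 152) (nat_lit 55992724537) (nat_lit 0) (nat_lit 355855686016) (nat_lit 1) (nat_lit 5) (nat_lit 3) (nat_lit 4) (nat_lit 1) (nat_lit 4) (nat_lit 245) (nat_lit 181) (nat_lit 174)) (XT.lf (nat_lit 0) (nat_lit 410185866361) (nat_lit 152) (nat_lit 63290249246) (nat_lit 0) (nat_lit 409753617450) (nat_lit 1) (nat_lit 5) (nat_lit 3) (nat_lit 4) (nat_lit 1) (nat_lit 4) (nat_lit 246) (nat_lit 181) (nat_lit 173)))))) (XT.nd (nat_lit 546) (nat_lit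 0) (nat_lit 0) (XT.nd (nat_lit 234) (nat_lit 0) (nat_lit 0) (XT.nd (nat_lit 78) (nat_lit 0) (nat_lit 0) (XT.lf (nat_lit 0) (nat_lit 472173083239) (nat_lit 152) (nat_lit 71741697156) (nat_lit 0) (nat_lit 471713452266) (nat_lit 1) (nat_lit 5) (nat_lit 3) (nat_lit 4) (nat_lit 1) (nat_lit 4) (nat_lit 247) (nat_lit 181) (nat_lit 172)) (XT.nd (nat_lit 78) (nat_lit 0) (nat_lit 0) (XT.lf (nat_lit 0) (nat_lit 543430889563) (nat_lit 152) (nat_lit 81512422682) (nat_lit 0) (nat_lit 542947448101) (nat_lit 1) (nat_lit 5) (nat_lit 3) (nat_lit 4) (nat_lit 1) (nat_lit 4) (nat_lit 248) (nat_lit 181) (nat_lit 171)) (XT.lf (nat_lit 0) (nat_lit 625353459805) (nat_lit 152) (nat_lit 92793592193) (nat_lit 0) (nat_lit 624849313569) (nat_lit 1) (nat_lit 5) (nat_lit 3) (nat_lit 4) (nat_lit 1) (nat_lit 4) (nat_lit 249) (nat_lit 181) (nat_lit 170)))) (XT.nd (nat_lit 156) (nat_lit 0) (nat_lit 0) (XT.nd (nat_lit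 78) (nat_lit 0) (nat_lit 0) (XT.lf (nat_lit 0) (nat_lit 719543626860) (nat_lit 152) (nat_lit 105805924223) (nat_lit 0) (nat_lit 719021476473) (nat_lit 1) (nat_lit 5) (nat_lit 3) (nat_lit 4) (nat_lit 1) (nat_lit 4) (nat_lit 250) (nat_lit 181) (nat_lit 169)) (XT.lf (nat_lit 0) (nat_lit 827844241823) (nat_lit 152) (nat_lit 120804007876) (nat_lit 0) (nat_lit 827306435653) (nat_lit 1) (nat_lit 5) (nat_lit 3) (nat_lit 4) (nat_lit 1) (nat_lit 4) (nat_lit 251) (nat_lit 181) (nat_lit 168))) (XT.nd (nat_lit 78) (nat_lit 0) (nat_lit 0) (XT.lf (nat_lit 0) (nat_lit 952374229769) (nat_lit 152) (nat_lit 138081283921) (nat_lit 0) (nat_lit 951822809875) (nat_lit 1) (nat_lit 5) (nat_lit 3) (nat_lit 4) (nat_lit 1) (nat_lit 4) (nat_lit 252) (nat_lit 181) (nat_lit 167)) (XT.lf (nat_lit 0) (nat_lit 1095570046984) (nat_lit 152) (nat_lit 157975786018) (nat_lit 0) (nat_lit 1095006789069) (nat_lit 1) (nat_lit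 5) (nat_lit 3) (nat_lit 4) (nat_lit 1) (nat_lit 4) (nat_lit 253) (nat_lit 181) (nat_lit 166))))) (XT.nd (nat_lit 312) (nat_lit 0) (nat_lit 0) (XT.nd (nat_lit 156) (nat_lit 0) (nat_lit 0) (XT.nd (nat_lit 78) (nat_lit 0) (nat_lit 0) (XT.lf (nat_lit 0) (nat_lit 1260233350762) (nat_lit 152) (nat_lit 180876754426) (nat_lit 0) (nat_lit 1259659798915) (nat_lit 1) (nat_lit 5) (nat_lit 3) (nat_lit 4) (nat_lit 1) (nat_lit 4) (nat_lit 254) (nat_lit 181) (nat_lit 165)) (XT.lf (nat_lit 0) (nat_lit 1449585814437) (nat_lit 152) (nat_lit 207232251571) (nat_lit 0) (nat_lit 1449003311346) (nat_lit 1) (nat_lit 5) (nat_lit 3) (nat_lit 4) (nat_lit 1) (nat_lit 4) (nat_lit 255) (nat_lit 181) (nat_lit 164))) (XT.nd (nat_lit 78) (nat_lit 0) (nat_lit 0) (XT.lf (nat_lit 0) (nat_lit 1667332160125) (nat_lit 152) (nat_lit 237557928484) (nat_lit 0) (nat_lit 1666741873342) (nat_lit 1) (nat_lit 5) (nat_lit 3) (nat_lit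 4) (nat_lit 1) (nat_lit 4) (nat_lit 256) (nat_lit 181) (nat_lit 163)) (XT.lf (nat_lit 0) (nat_lit 1917732642415) (nat_lit 152) (nat_lit 272447113625) (nat_lit 0) (nat_lit 1917135587205) (nat_lit 1) (nat_lit 5) (nat_lit 3) (nat_lit 4) (nat_lit 1) (nat_lit 4) (nat_lit 257) (nat_lit 181) (nat_lit 162)))) (XT.nd (nat_lit 156) (nat_lit 0) (nat_lit 0) (XT.nd (nat_lit 78) (nat_lit 0) (nat_lit 0) (XT.lf (nat_lit 0) (nat_lit 2205686401179) (nat_lit 152) (nat_lit 312582421487) (nat_lit 0) (nat_lit 2205083460380) (nat_lit 1) (nat_lit 5) (nat_lit 3) (nat_lit 4) (nat_lit 1) (nat_lit 4) (nat_lit 258) (nat_lit 181) (nat_lit 161)) (XT.lf (nat_lit 0) (nat_lit 2536827314304) (nat_lit 152) (nat_lit 358749108094) (nat_lit 0) (nat_lit 2536219255602) (nat_lit 1) (nat_lit 5) (nat_lit 3) (nat_lit 4) (nat_lit 1) (nat_lit 4) (nat_lit 259) (nat_lit 181) (nat_lit 160))) (XT.nd (nat_lit 78) (nat_lit 0) (nat_lit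 0) (XT.lf (nat_lit 0) (nat_lit 2917634225744) (nat_lit 152) (nat_lit 411850434704) (nat_lit 0) (nat_lit 2917021716691) (nat_lit 1) (nat_lit 5) (nat_lit 3) (nat_lit 4) (nat_lit 1) (nat_lit 4) (nat_lit 260) (nat_lit 181) (nat_lit 159)) (XT.lf (nat_lit 0) (nat_lit 3355557705504) (nat_lit 152) (nat_lit 472925340317) (nat_lit 0) (nat_lit 3354941326582) (nat_lit 1) (nat_lit 5) (nat_lit 3) (nat_lit 4) (nat_lit 1) (nat_lit 4) (nat_lit 261) (nat_lit 181) (nat_lit 158))))))))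
noncomputable def xc7 : XT := (XT.nd (nat_lit 30264) (nat_lit 0) (nat_lit 0) (XT.nd (nat_lit 1716) (nat_lit 0) (nat_lit 0) (XT.nd (nat_lit 546) (nat_lit 0) (nat_lit 0) (XT.nd (nat_lit 234) (nat_lit 0) (nat_lit 0) (XT.nd (nat_lit 78) (nat_lit 0) (nat_lit 0) (XT.lf (nat_lit 0) (nat_lit 3859165821668) (nat_lit 152) (nat_lit 543168768738) (nat_lit 0) (nat_lit 3858546077641) (nat_lit 1) (nat_lit 5) (nat_lit 3) (nat_lit 4) (nat_lit 1) (nat_lit 4) (nat_lit 262) (nat_lit 181) (nat_lit 157)) (XT.nd (nat_lit 78) (nat_lit 0) (nat_lit 0) (XT.lf (nat_lit 0) (nat_lit 4438311776508) (nat_lit 152) (nat_lit 623955047915) (nat_lit 0) (nat_lit 4437689106303) (nat_lit 1) (nat_lit 5) (nat_lit 3) (nat_lit 4) (nat_lit 1) (nat_lit 4) (nat_lit 263) (nat_lit 181) (nat_lit 156)) (XT.lf (nat_lit 0) (nat_lit 5104326686531) (nat_lit 152) (nat_lit 716864778962) (nat_lit 0) (nat_lit 5103701471824) (nat_lit 1) (nat_lit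 5) (nat_lit 3) (nat_lit 4) (nat_lit 1) (nat_lit 4) (nat_lit 264) (nat_lit 181) (nat_lit 155)))) (XT.nd (nat_lit 156) (nat_lit 0) (nat_lit 0) (XT.nd (nat_lit 78) (nat_lit 0) (nat_lit 0) (XT.lf (nat_lit 0) (nat_lit 5870241278239) (nat_lit 152) (nat_lit 823715760964) (nat_lit 0) (nat_lit 5869613850921) (nat_lit 1) (nat_lit 5) (nat_lit 3) (nat_lit 4) (nat_lit 1) (nat_lit 4) (nat_lit 265) (nat_lit 181) (nat_lit 154)) (XT.lf (nat_lit 0) (nat_lit 6751040837121) (nat_lit 152) (nat_lit 946598556614) (nat_lit 0) (nat_lit 6750411485793) (nat_lit 1) (nat_lit 5) (nat_lit 3) (nat_lit 4) (nat_lit 1) (nat_lit 4) (nat_lit 266) (nat_lit 181) (nat_lit 153))) (XT.nd (nat_lit 78) (nat_lit 0) (nat_lit 0) (XT.lf (nat_lit 0) (nat_lit 7763958398024) (nat_lit 152) (nat_lit 1087917394521) (nat_lit 0) (nat_lit 7763327373645) (nat_lit 1) (nat_lit 5) (nat_lit 3) (nat_lit 4) (nat_lit 1) (nat_lit 4) (nat_lit 267)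 (nat_lit 181) (nat_lit 152)) (XT.lf (nat_lit 0) (nat_lit 8928811913228) (nat_lit 152) (nat_lit 1250437208471) (nat_lit 0) (nat_lit 8928179434021) (nat_lit 1) (nat_lit 5) (nat_lit 3) (nat_lit 4) (nat_lit 1) (nat_lit 4) (nat_lit 268) (nat_lit 181) (nat_lit 151))))) (XT.nd (nat_lit 312) (nat_lit 0) (nat_lit 0) (XT.nd (nat_lit 156) (nat_lit 0) (nat_lit 0) (XT.nd (nat_lit 78) (nat_lit 0) (nat_lit 0) (XT.lf (nat_lit 0) (nat_lit 10268391994986) (nat_lit 152) (nat_lit 1437337733953) (nat_lit 0) (nat_lit 10267758250711) (nat_lit 1) (nat_lit 5) (nat_lit 3) (nat_lit 4) (nat_lit 1) (nat_lit 4) (nat_lit 269) (nat_lit 181) (nat_lit 150)) (XT.lf (nat_lit 0) (nat_lit 11808907818810) (nat_lit 152) (nat_lit 1652275720381) (nat_lit 0) (nat_lit 11808272974478) (nat_lit 1) (nat_lit 5) (nat_lit 3) (nat_lit 4) (nat_lit 1) (nat_lit 4) (nat_lit 270) (nat_lit 181) (nat_lit 149))) (XT.nd (nat_lit 78) (nat_lit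 0) (nat_lit 0) (XT.lf (nat_lit 0) (nat_lit 13580499911690) (nat_lit 152) (nat_lit 1899456476183) (nat_lit 0) (nat_lit 13579864110784) (nat_lit 1) (nat_lit 5) (nat_lit 3) (nat_lit 4) (nat_lit 1) (nat_lit 4) (nat_lit 271) (nat_lit 181) (nat_lit 148)) (XT.lf (nat_lit 0) (nat_lit 15617829858050) (nat_lit 152) (nat_lit 2183716146582) (nat_lit 0) (nat_lit 15617193225343) (nat_lit 1) (nat_lit 5) (nat_lit 3) (nat_lit 4) (nat_lit 1) (nat_lit 4) (nat_lit 272) (nat_lit 181) (nat_lit 147)))) (XT.nd (nat_lit 156) (nat_lit 0) (nat_lit 0) (XT.nd (nat_lit 78) (nat_lit 0) (nat_lit 0) (XT.lf (nat_lit 0) (nat_lit 17960758461190) (nat_lit 152) (nat_lit 2510616333825) (nat_lit 0) (nat_lit 17960121105176) (nat_lit 1) (nat_lit 5) (nat_lit 3) (nat_lit 4) (nat_lit 1) (nat_lit 4) (nat_lit 273) (nat_lit 181) (nat_lit 146)) (XT.lf (nat_lit 0) (nat_lit 20655125628561) (nat_lit 152) (nat_lit 2886552911141) (nat_lit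 0) (nat_lit 20654487643585) (nat_lit 1) (nat_lit 5) (nat_lit 3) (nat_lit 4) (nat_lit 1) (nat_lit 4) (nat_lit 274) (nat_lit 181) (nat_lit 145))) (XT.nd (nat_lit 78) (nat_lit 0) (nat_lit 0) (XT.lf (nat_lit 0) (nat_lit 23753647239526) (nat_lit 152) (nat_lit 3318881159389) (nat_lit 0) (nat_lit 23753008707626) (nat_lit 1) (nat_lit 5) (nat_lit 3) (nat_lit 4) (nat_lit 1) (nat_lit 4) (nat_lit 275) (nat_lit 181) (nat_lit 144)) (XT.lf (nat_lit 0) (nat_lit 27316946542994) (nat_lit 152) (nat_lit 3816059674732) (nat_lit 0) (nat_lit 27316307535508) (nat_lit 1) (nat_lit 5) (nat_lit 3) (nat_lit 4) (nat_lit 1) (nat_lit 4) (nat_lit 276) (nat_lit 181) (nat_lit 143)))))) (XT.nd (nat_lit 27924) (nat_lit 0) (nat_lit 0) (XT.nd (nat_lit 27612) (nat_lit 0) (nat_lit 0) (XT.nd (nat_lit 78) (nat_lit 0) (nat_lit 0) (XT.lf (nat_lit 0) (nat_lit 83566606915604) (nat_lit 152) (nat_lit 11664477217144) (nat_lit 0)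 (nat_lit 83565965774012) (nat_lit 1) (nat_lit 5) (nat_lit 3) (nat_lit 4) (nat_lit 1) (nat_lit 4) (nat_lit 284) (nat_lit 181) (nat_lit 135)) (XT.nd (nat_lit 27456) (nat_lit 0) (nat_lit 0) (XT.lf (nat_lit 0) (nat_lit 96101847550210) (nat_lit 152) (nat_lit 13413500055200) (nat_lit 0) (nat_lit 96101206273428) (nat_lit 1) (nat_lit 5) (nat_lit 3) (nat_lit 4) (nat_lit 1) (nat_lit 4) (nat_lit 285) (nat_lit 181) (nat_lit 134)) (XT.lf (nat_lit 0) (nat_lit 48718675865) (nat_lit 152) (nat_lit 12073797774) (nat_lit 0) (nat_lit 48718675865) (nat_lit 1) (nat_lit 5) (nat_lit 3) (nat_lit 4) (nat_lit 1) (nat_lit 4) (nat_lit 236) (nat_lit 182) (nat_lit 182)))) (XT.nd (nat_lit 156) (nat_lit 0) (nat_lit 0) (XT.nd (nat_lit 78) (nat_lit 0) (nat_lit 0) (XT.lf (nat_lit 0) (nat_lit 113080293690) (nat_lit 152) (nat_lit 25635318472) (nat_lit 0) (nat_lit 112983966981) (nat_lit 1) (nat_lit 5) (nat_lit 3) (nat_lit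 4) (nat_lit 1) (nat_lit 4) (nat_lit 237) (nat_lit 182) (nat_lit 181)) (XT.lf (nat_lit 0) (nat_lit 130972959666) (nat_lit 152) (nat_lit 27527583047) (nat_lit 0) (nat_lit 130792870602) (nat_lit 1) (nat_lit 5) (nat_lit 3) (nat_lit 4) (nat_lit 1) (nat_lit 4) (nat_lit 238) (nat_lit 182) (nat_lit 180))) (XT.nd (nat_lit 78) (nat_lit 0) (nat_lit 0) (XT.lf (nat_lit 0) (nat_lit 151465423561) (nat_lit 152) (nat_lit 29861411841) (nat_lit 0) (nat_lit 151212497667) (nat_lit 1) (nat_lit 5) (nat_lit 3) (nat_lit 4) (nat_lit 1) (nat_lit 4) (nat_lit 239) (nat_lit 182) (nat_lit 179)) (XT.lf (nat_lit 0) (nat_lit 174958624885) (nat_lit 152) (nat_lit 32682466722) (nat_lit 0) (nat_lit 174642362616) (nat_lit 1) (nat_lit 5) (nat_lit 3) (nat_lit 4) (nat_lit 1) (nat_lit 4) (nat_lit 240) (nat_lit 182) (nat_lit 178))))) (XT.nd (nat_lit 312) (nat_lit 0) (nat_lit 0) (XT.nd (nat_lit 156) (nat_lit 0) (nat_lit 0) (XT.nd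 (nat_lit 78) (nat_lit 0) (nat_lit 0) (XT.lf (nat_lit 0) (nat_lit 201912213229) (nat_lit 152) (nat_lit 36045942242) (nat_lit 0) (nat_lit 201540875852) (nat_lit 1) (nat_lit 5) (nat_lit 3) (nat_lit 4) (nat_lit 1) (nat_lit 4) (nat_lit 241) (nat_lit 182) (nat_lit 177)) (XT.lf (nat_lit 0) (nat_lit 232853541408) (nat_lit 152) (nat_lit 40017645530) (nat_lit 0) (nat_lit 232434312633) (nat_lit 1) (nat_lit 5) (nat_lit 3) (nat_lit 4) (nat_lit 1) (nat_lit 4) (nat_lit 242) (nat_lit 182) (nat_lit 176))) (XT.nd (nat_lit 78) (nat_lit 0) (nat_lit 0) (XT.lf (nat_lit 0) (nat_lit 268387983236) (nat_lit 152) (nat_lit 44675283824) (nat_lit 0) (nat_lit 267927109766) (nat_lit 1) (nat_lit 5) (nat_lit 3) (nat_lit 4) (nat_lit 1) (nat_lit 4) (nat_lit 243) (nat_lit 182) (nat_lit 175)) (XT.lf (nat_lit 0) (nat_lit 309210777790) (nat_lit 152) (nat_lit 50109984831) (nat_lit 0) (nat_lit 308713691542) (nat_lit 1) (nat_lit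 5) (nat_lit 3) (nat_lit 4) (nat_lit 1) (nat_lit 4) (nat_lit 244) (nat_lit 182) (nat_lit 174)))) (XT.nd (nat_lit 156) (nat_lit 0) (nat_lit 0) (XT.nd (nat_lit 78) (nat_lit 0) (nat_lit 0) (XT.lf (nat_lit 0) (nat_lit 356120631921) (nat_lit 152) (nat_lit 56428079657) (nat_lit 0) (nat_lit 355592056302) (nat_lit 1) (nat_lit 5) (nat_lit 3) (nat_lit 4) (nat_lit 1) (nat_lit 4) (nat_lit 245) (nat_lit 182) (nat_lit 173)) (XT.lf (nat_lit 0) (nat_lit 410035347123) (nat_lit 152) (nat_lit 63753183201) (nat_lit 0) (nat_lit 409479389441) (nat_lit 1) (nat_lit 5) (nat_lit 3) (nat_lit 4) (nat_lit 1) (nat_lit 4) (nat_lit 246) (nat_lit 182) (nat_lit 172))) (XT.nd (nat_lit 78) (nat_lit 0) (nat_lit 0) (XT.lf (nat_lit 0) (nat_lit 472009776520) (nat_lit 152) (nat_lit 72228612706) (nat_lit 0) (nat_lit 471430008348) (nat_lit 1) (nat_lit 5) (nat_lit 3) (nat_lit 4) (nat_lit 1) (nat_lit 4) (nat_lit 247) (nat_lit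 182) (nat_lit 171)) (XT.lf (nat_lit 0) (nat_lit 543256463294) (nat_lit 152) (nat_lit 82020191793) (nat_lit 0) (nat_lit 542655990350) (nat_lit 1) (nat_lit 5) (nat_lit 3) (nat_lit 4) (nat_lit 1) (nat_lit 4) (nat_lit 248) (nat_lit 182) (nat_lit 170))))))) (XT.nd (nat_lit 1170) (nat_lit 0) (nat_lit 0) (XT.nd (nat_lit 546) (nat_lit 0) (nat_lit 0) (XT.nd (nat_lit 234) (nat_lit 0) (nat_lit 0) (XT.nd (nat_lit 78) (nat_lit 0) (nat_lit 0) (XT.lf (nat_lit 0) (nat_lit 625169364362) (nat_lit 152) (nat_lit 93319494836) (nat_lit 0) (nat_lit 624550887267) (nat_lit 1) (nat_lit 5) (nat_lit 3) (nat_lit 4) (nat_lit 1) (nat_lit 4) (nat_lit 249) (nat_lit 182) (nat_lit 169)) (XT.nd (nat_lit 78) (nat_lit 0) (nat_lit 0) (XT.lf (nat_lit 0) (nat_lit 719351123440) (nat_lit 152) (nat_lit 106347595153) (nat_lit 0) (nat_lit 718716990562) (nat_lit 1) (nat_lit 5) (nat_lit 3) (nat_lit 4) (nat_lit 1) (nat_lit 4) (nat_lit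 250) (nat_lit 182) (nat_lit 168)) (XT.lf (nat_lit 0) (nat_lit 827644427119) (nat_lit 152) (nat_lit 121359390362) (nat_lit 0) (nat_lit 826996680516) (nat_lit 1) (nat_lit 5) (nat_lit 3) (nat_lit 4) (nat_lit 1) (nat_lit 4) (nat_lit 251) (nat_lit 182) (nat_lit 167)))) (XT.nd (nat_lit 156) (nat_lit 0) (nat_lit 0) (XT.nd (nat_lit 78) (nat_lit 0) (nat_lit 0) (XT.lf (nat_lit 0) (nat_lit 952168057427) (nat_lit 152) (nat_lit 138648589497) (nat_lit 0) (nat_lit 951508472803) (nat_lit 1) (nat_lit 5) (nat_lit 3) (nat_lit 4) (nat_lit 1) (nat_lit 4) (nat_lit 252) (nat_lit 182) (nat_lit 166)) (XT.lf (nat_lit 0) (nat_lit 1095358346261) (nat_lit 152) (nat_lit 158553459500) (nat_lit 0) (nat_lit 1094688467705) (nat_lit 1) (nat_lit 5) (nat_lit 3) (nat_lit 4) (nat_lit 1) (nat_lit 4) (nat_lit 253) (nat_lit 182) (nat_lit 165))) (XT.nd (nat_lit 78) (nat_lit 0) (nat_lit 0) (XT.lf (nat_lit 0) (nat_lit 1260016842751)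 (nat_lit 152) (nat_lit 181463443478) (nat_lit 0) (nat_lit 1259338012950) (nat_lit 1) (nat_lit 5) (nat_lit 3) (nat_lit 4) (nat_lit 1) (nat_lit 4) (nat_lit 254) (nat_lit 182) (nat_lit 164)) (XT.lf (nat_lit 0) (nat_lit 1449365126175) (nat_lit 152) (nat_lit 207826780249) (nat_lit 0) (nat_lit 1448678512684) (nat_lit 1) (nat_lit 5) (nat_lit 3) (nat_lit 4) (nat_lit 1) (nat_lit 4) (nat_lit 255) (nat_lit 182) (nat_lit 163))))) (XT.nd (nat_lit 312) (nat_lit 0) (nat_lit 0) (XT.nd (nat_lit 156) (nat_lit 0) (nat_lit 0) (XT.nd (nat_lit 78) (nat_lit 0) (nat_lit 0) (XT.lf (nat_lit 0) (nat_lit 1667107836863) (nat_lit 152) (nat_lit 238159274228) (nat_lit 0) (nat_lit 1666414454944) (nat_lit 1) (nat_lit 5) (nat_lit 3) (nat_lit 4) (nat_lit 1) (nat_lit 4) (nat_lit 256) (nat_lit 182) (nat_lit 162)) (XT.lf (nat_lit 0) (nat_lit 1917505158283) (nat_lit 152) (nat_lit 273054387252) (nat_lit 0) (nat_lit 1916805890776)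 (nat_lit 1) (nat_lit 5) (nat_lit 3) (nat_lit 4) (nat_lit 1) (nat_lit 4) (nat_lit 257) (nat_lit 182) (nat_lit 161))) (XT.nd (nat_lit 78) (nat_lit 0) (nat_lit 0) (XT.lf (nat_lit 0) (nat_lit 2205456168464) (nat_lit 152) (nat_lit 313194849796) (nat_lit 0) (nat_lit 2204751783053) (nat_lit 1) (nat_lit 5) (nat_lit 3) (nat_lit 4) (nat_lit 1) (nat_lit 4) (nat_lit 258) (nat_lit 182) (nat_lit 160)) (XT.lf (nat_lit 0) (nat_lit 2536594691517) (nat_lit 152) (nat_lit 359366018734) (nat_lit 0) (nat_lit 2535885855756) (nat_lit 1) (nat_lit 5) (nat_lit 3) (nat_lit 4) (nat_lit 1) (nat_lit 4) (nat_lit 259) (nat_lit 182) (nat_lit 159)))) (XT.nd (nat_lit 156) (nat_lit 0) (nat_lit 0) (XT.nd (nat_lit 78) (nat_lit 0) (nat_lit 0) (XT.lf (nat_lit 0) (nat_lit 2917399524634) (nat_lit 152) (nat_lit 412471243024) (nat_lit 0) (nat_lit 2916686819003) (nat_lit 1) (nat_lit 5) (nat_lit 3) (nat_lit 4) (nat_lit 1) (nat_lit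 4) (nat_lit 260) (nat_lit 182) (nat_lit 158)) (XT.lf (nat_lit 0) (nat_lit 3355321197157) (nat_lit 152) (nat_lit 473549537923) (nat_lit 0) (nat_lit 3354605126421) (nat_lit 1) (nat_lit 5) (nat_lit 3) (nat_lit 4) (nat_lit 1) (nat_lit 4) (nat_lit 261) (nat_lit 182) (nat_lit 157))) (XT.nd (nat_lit 78) (nat_lit 0) (nat_lit 0) (XT.lf (nat_lit 0) (nat_lit 3858927741810) (nat_lit 152) (nat_lit 543795913550) (nat_lit 0) (nat_lit 3858208744896) (nat_lit 1) (nat_lit 5) (nat_lit 3) (nat_lit 4) (nat_lit 1) (nat_lit 4) (nat_lit 262) (nat_lit 182) (nat_lit 156)) (XT.lf (nat_lit 0) (nat_lit 4438072330118) (nat_lit 152) (nat_lit 624584755515) (nat_lit 0) (nat_lit 4437350788702) (nat_lit 1) (nat_lit 5) (nat_lit 3) (nat_lit 4) (nat_lit 1) (nat_lit 4) (nat_lit 263) (nat_lit 182) (nat_lit 155)))))) (XT.nd (nat_lit 702) (nat_lit 0) (nat_lit 0) (XT.nd (nat_lit 234) (nat_lit 0) (nat_lit 0) (XT.nd (nat_lit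 78) (nat_lit 0) (nat_lit 0) (XT.lf (nat_lit 0) (nat_lit 5104086051853) (nat_lit 152) (nat_lit 717496715073) (nat_lit 0) (nat_lit 5103362297827) (nat_lit 1) (nat_lit 5) (nat_lit 3) (nat_lit 4) (nat_lit 1) (nat_lit 4) (nat_lit 264) (nat_lit 182) (nat_lit 154)) (XT.nd (nat_lit 78) (nat_lit 0) (nat_lit 0) (XT.lf (nat_lit 0) (nat_lit 5869999610267) (nat_lit 152) (nat_lit 824349634911) (nat_lit 0) (nat_lit 5869273932231) (nat_lit 1) (nat_lit 5) (nat_lit 3) (nat_lit 4) (nat_lit 1) (nat_lit 4) (nat_lit 265) (nat_lit 182) (nat_lit 153)) (XT.lf (nat_lit 0) (nat_lit 6750798270632) (nat_lit 152) (nat_lit 947234115635) (nat_lit 0) (nat_lit 6750070919544) (nat_lit 1) (nat_lit 5) (nat_lit 3) (nat_lit 4) (nat_lit 1) (nat_lit 4) (nat_lit 266) (nat_lit 182) (nat_lit 152)))) (XT.nd (nat_lit 156) (nat_lit 0) (nat_lit 0) (XT.nd (nat_lit 78) (nat_lit 0) (nat_lit 0) (XT.lf (nat_lit 0) (nat_lit 7763715050217)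 (nat_lit 152) (nat_lit 1088554418824) (nat_lit 0) (nat_lit 7762986244301) (nat_lit 1) (nat_lit 5) (nat_lit 3) (nat_lit 4) (nat_lit 1) (nat_lit 4) (nat_lit 267) (nat_lit 182) (nat_lit 151)) (XT.lf (nat_lit 0) (nat_lit 8928567886013) (nat_lit 152) (nat_lit 1251075506932) (nat_lit 0) (nat_lit 8927837815030) (nat_lit 1) (nat_lit 5) (nat_lit 3) (nat_lit 4) (nat_lit 1) (nat_lit 4) (nat_lit 268) (nat_lit 182) (nat_lit 150))) (XT.nd (nat_lit 78) (nat_lit 0) (nat_lit 0) (XT.lf (nat_lit 0) (nat_lit 10268147376982) (nat_lit 152) (nat_lit 1437977140379) (nat_lit 0) (nat_lit 10267416205940) (nat_lit 1) (nat_lit 5) (nat_lit 3) (nat_lit 4) (nat_lit 1) (nat_lit 4) (nat_lit 269) (nat_lit 182) (nat_lit 149)) (XT.lf (nat_lit 0) (nat_lit 11808662687077) (nat_lit 152) (nat_lit 1652916090253) (nat_lit 0) (nat_lit 11807930559463) (nat_lit 1) (nat_lit 5) (nat_lit 3) (nat_lit 4) (nat_lit 1) (nat_lit 4) (nat_lit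 270) (nat_lit 182) (nat_lit 148))))) (XT.nd (nat_lit 780) (nat_lit 0) (nat_lit 0) (XT.nd (nat_lit 156) (nat_lit 0) (nat_lit 0) (XT.nd (nat_lit 78) (nat_lit 0) (nat_lit 0) (XT.lf (nat_lit 0) (nat_lit 17960512156496) (nat_lit 152) (nat_lit 2511258903463) (nat_lit 0) (nat_lit 17959777844811) (nat_lit 1) (nat_lit 5) (nat_lit 3) (nat_lit 4) (nat_lit 1) (nat_lit 4) (nat_lit 273) (nat_lit 182) (nat_lit 145)) (XT.lf (nat_lit 0) (nat_lit 20654879030140) (nat_lit 152) (nat_lit 2887196031633) (nat_lit 0) (nat_lit 20654144171532) (nat_lit 1) (nat_lit 5) (nat_lit 3) (nat_lit 4) (nat_lit 1) (nat_lit 4) (nat_lit 274) (nat_lit 182) (nat_lit 144))) (XT.nd (nat_lit 546) (nat_lit 0) (nat_lit 0) (XT.lf (nat_lit 0) (nat_lit 23753400385690) (nat_lit 152) (nat_lit 3319524758885) (nat_lit 0) (nat_lit 23752665051496) (nat_lit 1) (nat_lit 5) (nat_lit 3) (nat_lit 4) (nat_lit 1) (nat_lit 4) (nat_lit 275) (nat_lit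 182) (nat_lit 143)) (XT.lf (nat_lit 0) (nat_lit 63187706517879) (nat_lit 152) (nat_lit 8821721610820) (nat_lit 0) (nat_lit 63186969205049) (nat_lit 1) (nat_lit 5) (nat_lit 3) (nat_lit 4) (nat_lit 1) (nat_lit 4) (nat_lit 282) (nat_lit 182) (nat_lit 136)))) (XT.nd (nat_lit 156) (nat_lit 0) (nat_lit 0) (XT.nd (nat_lit 78) (nat_lit 0) (nat_lit 0) (XT.lf (nat_lit 0) (nat_lit 72666149532418) (nat_lit 152) (nat_lit 10144233796250) (nat_lit 0) (nat_lit 72665412064118) (nat_lit 1) (nat_lit 5) (nat_lit 3) (nat_lit 4) (nat_lit 1) (nat_lit 4) (nat_lit 283) (nat_lit 182) (nat_lit 135)) (XT.lf (nat_lit 0) (nat_lit 83566358843037) (nat_lit 152) (nat_lit 11665123102244) (nat_lit 0) (nat_lit 83565621239545) (nat_lit 1) (nat_lit 5) (nat_lit 3) (nat_lit 4) (nat_lit 1) (nat_lit 4) (nat_lit 284) (nat_lit 182) (nat_lit 134))) (XT.nd (nat_lit 27300) (nat_lit 0) (nat_lit 0) (XT.lf (nat_lit 0) (nat_lit 96101599414509)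 (nat_lit 152) (nat_lit 13414146058703) (nat_lit 0) (nat_lit 96100861693460) (nat_lit 1) (nat_lit 5) (nat_lit 3) (nat_lit 4) (nat_lit 1) (nat_lit 4) (nat_lit 285) (nat_lit 182) (nat_lit 133)) (XT.lf (nat_lit 0) (nat_lit 35942352986) (nat_lit 152) (nat_lit 11082558922) (nat_lit 0) (nat_lit 35942352986) (nat_lit 1) (nat_lit 5) (nat_lit 3) (nat_lit 4) (nat_lit 1) (nat_lit 4) (nat_lit 234) (nat_lit 183) (nat_lit 183))))))))
noncomputable def xc8 : XT := (XT.nd (nat_lit 2262) (nat_lit 0) (nat_lit 0) (XT.nd (nat_lit 1092) (nat_lit 0) (nat_lit 0) (XT.nd (nat_lit 546) (nat_lit 0) (nat_lit 0) (XT.nd (nat_lit 234) (nat_lit 0) (nat_lit 0) (XT.nd (nat_lit 78) (nat_lit 0) (nat_lit 0) (XT.lf (nat_lit 0) (nat_lit 83848851946) (nat_lit 152) (nat_lit 23035306652) (nat_lit 0) (nat_lit 83738076231) (nat_lit 1) (nat_lit 5) (nat_lit 3) (nat_lit 4) (nat_lit 1) (nat_lit 4) (nat_lit 235) (nat_lit 183) (nat_lit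 182)) (XT.nd (nat_lit 78) (nat_lit 0) (nat_lit 0) (XT.lf (nat_lit 0) (nat_lit 97496394950) (nat_lit 152) (nat_lit 24244614475) (nat_lit 0) (nat_lit 97289292527) (nat_lit 1) (nat_lit 5) (nat_lit 3) (nat_lit 4) (nat_lit 1) (nat_lit 4) (nat_lit 236) (nat_lit 183) (nat_lit 181)) (XT.lf (nat_lit 0) (nat_lit 113094352129) (nat_lit 152) (nat_lit 25816701684) (nat_lit 0) (nat_lit 112803487350) (nat_lit 1) (nat_lit 5) (nat_lit 3) (nat_lit 4) (nat_lit 1) (nat_lit 4) (nat_lit 237) (nat_lit 183) (nat_lit 180)))) (XT.nd (nat_lit 156) (nat_lit 0) (nat_lit 0) (XT.nd (nat_lit 78) (nat_lit 0) (nat_lit 0) (XT.lf (nat_lit 0) (nat_lit 130947900907) (nat_lit 152) (nat_lit 27782326507) (nat_lit 0) (nat_lit 130584199297) (nat_lit 1) (nat_lit 5) (nat_lit 3) (nat_lit 4) (nat_lit 1) (nat_lit 4) (nat_lit 238) (nat_lit 183) (nat_lit 179)) (XT.lf (nat_lit 0) (nat_lit 151406349845) (nat_lit 152) (nat_lit 30179946821)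 (nat_lit 0) (nat_lit 150979311862) (nat_lit 1) (nat_lit 5) (nat_lit 3) (nat_lit 4) (nat_lit 1) (nat_lit 4) (nat_lit 239) (nat_lit 183) (nat_lit 178))) (XT.nd (nat_lit 78) (nat_lit 0) (nat_lit 0) (XT.lf (nat_lit 0) (nat_lit 174869972947) (nat_lit 152) (nat_lit 33056472589) (nat_lit 0) (nat_lit 174387859855) (nat_lit 1) (nat_lit 5) (nat_lit 3) (nat_lit 4) (nat_lit 1) (nat_lit 4) (nat_lit 240) (nat_lit 183) (nat_lit 177)) (XT.lf (nat_lit 0) (nat_lit 201797841097) (nat_lit 152) (nat_lit 36468183662) (nat_lit 0) (nat_lit 201267836607) (nat_lit 1) (nat_lit 5) (nat_lit 3) (nat_lit 4) (nat_lit 1) (nat_lit 4) (nat_lit 241) (nat_lit 183) (nat_lit 176))))) (XT.nd (nat_lit 234) (nat_lit 0) (nat_lit 0) (XT.nd (nat_lit 78) (nat_lit 0) (nat_lit 0) (XT.lf (nat_lit 0) (nat_lit 232716803891) (nat_lit 152) (nat_lit 40481830910) (nat_lit 0) (nat_lit 232145154706) (nat_lit 1) (nat_lit 5) (nat_lit 3) (nat_lit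 4) (nat_lit 1) (nat_lit 4) (nat_lit 242) (nat_lit 183) (nat_lit 175)) (XT.nd (nat_lit 78) (nat_lit 0) (nat_lit 0) (XT.lf (nat_lit 0) (nat_lit 268231797557) (nat_lit 152) (nat_lit 45175942213) (nat_lit 0) (nat_lit 267623935594) (nat_lit 1) (nat_lit 5) (nat_lit 3) (nat_lit 4) (nat_lit 1) (nat_lit 4) (nat_lit 243) (nat_lit 183) (nat_lit 174)) (XT.lf (nat_lit 0) (nat_lit 309037680666) (nat_lit 152) (nat_lit 50642358880) (nat_lit 0) (nat_lit 308398329332) (nat_lit 1) (nat_lit 5) (nat_lit 3) (nat_lit 4) (nat_lit 1) (nat_lit 4) (nat_lit 244) (nat_lit 183) (nat_lit 173)))) (XT.nd (nat_lit 156) (nat_lit 0) (nat_lit 0) (XT.nd (nat_lit 78) (nat_lit 0) (nat_lit 0) (XT.lf (nat_lit 0) (nat_lit 355932829194) (nat_lit 152) (nat_lit 56988032540) (nat_lit 0) (nat_lit 355266095797) (nat_lit 1) (nat_lit 5) (nat_lit 3) (nat_lit 4) (nat_lit 1) (nat_lit 4) (nat_lit 245) (nat_lit 183) (nat_lit 172)) (XT.lf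 (nat_lit 0) (nat_lit 409834756914) (nat_lit 152) (nat_lit 64337117679) (nat_lit 0) (nat_lit 409144213028) (nat_lit 1) (nat_lit 5) (nat_lit 3) (nat_lit 4) (nat_lit 1) (nat_lit 4) (nat_lit 246) (nat_lit 183) (nat_lit 171))) (XT.nd (nat_lit 78) (nat_lit 0) (nat_lit 0) (XT.lf (nat_lit 0) (nat_lit 471798066761) (nat_lit 152) (nat_lit 72833400745) (nat_lit 0) (nat_lit 471086818102) (nat_lit 1) (nat_lit 5) (nat_lit 3) (nat_lit 4) (nat_lit 1) (nat_lit 4) (nat_lit 247) (nat_lit 183) (nat_lit 170)) (XT.lf (nat_lit 0) (nat_lit 543035084362) (nat_lit 152) (nat_lit 82643113363) (nat_lit 0) (nat_lit 542305831552) (nat_lit 1) (nat_lit 5) (nat_lit 3) (nat_lit 4) (nat_lit 1) (nat_lit 4) (nat_lit 248) (nat_lit 183) (nat_lit 169)))))) (XT.nd (nat_lit 546) (nat_lit 0) (nat_lit 0) (XT.nd (nat_lit 234) (nat_lit 0) (nat_lit 0) (XT.nd (nat_lit 78) (nat_lit 0) (nat_lit 0) (XT.lf (nat_lit 0) (nat_lit 624939577453)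 (nat_lit 152) (nat_lit 93958184694) (nat_lit 0) (nat_lit 624194668860) (nat_lit 1) (nat_lit 5) (nat_lit 3) (nat_lit 4) (nat_lit 1) (nat_lit 4) (nat_lit 249) (nat_lit 183) (nat_lit 168)) (XT.nd (nat_lit 78) (nat_lit 0) (nat_lit 0) (XT.lf (nat_lit 0) (nat_lit 719114025247) (nat_lit 152) (nat_lit 106999996566) (nat_lit 0) (nat_lit 718355502930) (nat_lit 1) (nat_lit 5) (nat_lit 3) (nat_lit 4) (nat_lit 1) (nat_lit 4) (nat_lit 250) (nat_lit 183) (nat_lit 167)) (XT.lf (nat_lit 0) (nat_lit 827400971287) (nat_lit 152) (nat_lit 122023714866) (nat_lit 0) (nat_lit 826630610949) (nat_lit 1) (nat_lit 5) (nat_lit 3) (nat_lit 4) (nat_lit 1) (nat_lit 4) (nat_lit 251) (nat_lit 183) (nat_lit 166)))) (XT.nd (nat_lit 156) (nat_lit 0) (nat_lit 0) (XT.nd (nat_lit 78) (nat_lit 0) (nat_lit 0) (XT.lf (nat_lit 0) (nat_lit 951919073214) (nat_lit 152) (nat_lit 139323281907) (nat_lit 0) (nat_lit 951138418943)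 (nat_lit 1) (nat_lit 5) (nat_lit 3) (nat_lit 4) (nat_lit 1) (nat_lit 4) (nat_lit 252) (nat_lit 183) (nat_lit 165)) (XT.lf (nat_lit 0) (nat_lit 1095104554760) (nat_lit 152) (nat_lit 159237167479) (nat_lit 0) (nat_lit 1094314949245) (nat_lit 1) (nat_lit 5) (nat_lit 3) (nat_lit 4) (nat_lit 1) (nat_lit 4) (nat_lit 253) (nat_lit 183) (nat_lit 164))) (XT.nd (nat_lit 78) (nat_lit 0) (nat_lit 0) (XT.lf (nat_lit 0) (nat_lit 1259758870999) (nat_lit 152) (nat_lit 182154991084) (nat_lit 0) (nat_lit 1258961481793) (nat_lit 1) (nat_lit 5) (nat_lit 3) (nat_lit 4) (nat_lit 1) (nat_lit 4) (nat_lit 254) (nat_lit 183) (nat_lit 163)) (XT.lf (nat_lit 0) (nat_lit 1449103519423) (nat_lit 152) (nat_lit 208525144920) (nat_lit 0) (nat_lit 1448299361790) (nat_lit 1) (nat_lit 5) (nat_lit 3) (nat_lit 4) (nat_lit 1) (nat_lit 4) (nat_lit 255) (nat_lit 183) (nat_lit 162))))) (XT.nd (nat_lit 312) (nat_lit 0) (nat_lit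 0) (XT.nd (nat_lit 156) (nat_lit 0) (nat_lit 0) (XT.nd (nat_lit 78) (nat_lit 0) (nat_lit 0) (XT.lf (nat_lit 0) (nat_lit 1666843069241) (nat_lit 152) (nat_lit 238863566782) (nat_lit 0) (nat_lit 1666033026019) (nat_lit 1) (nat_lit 5) (nat_lit 3) (nat_lit 4) (nat_lit 1) (nat_lit 4) (nat_lit 256) (nat_lit 183) (nat_lit 161)) (XT.lf (nat_lit 0) (nat_lit 1917237642078) (nat_lit 152) (nat_lit 273763834489) (nat_lit 0) (nat_lit 1916422480953) (nat_lit 1) (nat_lit 5) (nat_lit 3) (nat_lit 4) (nat_lit 1) (nat_lit 4) (nat_lit 257) (nat_lit 183) (nat_lit 160))) (XT.nd (nat_lit 78) (nat_lit 0) (nat_lit 0) (XT.lf (nat_lit 0) (nat_lit 2205186262187) (nat_lit 152) (nat_lit 313908779364) (nat_lit 0) (nat_lit 2204366650711) (nat_lit 1) (nat_lit 5) (nat_lit 3) (nat_lit 4) (nat_lit 1) (nat_lit 4) (nat_lit 258) (nat_lit 183) (nat_lit 159)) (XT.lf (nat_lit 0) (nat_lit 2536322706918) (nat_lit 152) (nat_lit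 360083845981) (nat_lit 0) (nat_lit 2535499225572) (nat_lit 1) (nat_lit 5) (nat_lit 3) (nat_lit 4) (nat_lit 1) (nat_lit 4) (nat_lit 259) (nat_lit 183) (nat_lit 158)))) (XT.nd (nat_lit 156) (nat_lit 0) (nat_lit 0) (XT.nd (nat_lit 78) (nat_lit 0) (nat_lit 0) (XT.lf (nat_lit 0) (nat_lit 2917125732796) (nat_lit 152) (nat_lit 413192459558) (nat_lit 0) (nat_lit 2916298886346) (nat_lit 1) (nat_lit 5) (nat_lit 3) (nat_lit 4) (nat_lit 1) (nat_lit 4) (nat_lit 260) (nat_lit 183) (nat_lit 157)) (XT.lf (nat_lit 0) (nat_lit 3355045833808) (nat_lit 152) (nat_lit 474273701663) (nat_lit 0) (nat_lit 3354216061180) (nat_lit 1) (nat_lit 5) (nat_lit 3) (nat_lit 4) (nat_lit 1) (nat_lit 4) (nat_lit 261) (nat_lit 183) (nat_lit 156))) (XT.nd (nat_lit 78) (nat_lit 0) (nat_lit 0) (XT.lf (nat_lit 0) (nat_lit 3858651011930) (nat_lit 152) (nat_lit 544522640078) (nat_lit 0) (nat_lit 3857818694799) (nat_lit 1) (nat_lit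 5) (nat_lit 3) (nat_lit 4) (nat_lit 1) (nat_lit 4) (nat_lit 262) (nat_lit 183) (nat_lit 155)) (XT.lf (nat_lit 0) (nat_lit 4437794411950) (nat_lit 152) (nat_lit 625313710554) (nat_lit 0) (nat_lit 4436959882209) (nat_lit 1) (nat_lit 5) (nat_lit 3) (nat_lit 4) (nat_lit 1) (nat_lit 4) (nat_lit 263) (nat_lit 183) (nat_lit 154))))))) (XT.nd (nat_lit 29094) (nat_lit 0) (nat_lit 0) (XT.nd (nat_lit 1326) (nat_lit 0) (nat_lit 0) (XT.nd (nat_lit 234) (nat_lit 0) (nat_lit 0) (XT.nd (nat_lit 78) (nat_lit 0) (nat_lit 0) (XT.lf (nat_lit 0) (nat_lit 5103807100392) (nat_lit 152) (nat_lit 718227607947) (nat_lit 0) (nat_lit 5102970646641) (nat_lit 1) (nat_lit 5) (nat_lit 3) (nat_lit 4) (nat_lit 1) (nat_lit 4) (nat_lit 264) (nat_lit 183) (nat_lit 153)) (XT.nd (nat_lit 78) (nat_lit 0) (nat_lit 0) (XT.lf (nat_lit 0) (nat_lit 5869719760289) (nat_lit 152) (nat_lit 825082212860) (nat_lit 0) (nat_lit 5868881633486)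 (nat_lit 1) (nat_lit 5) (nat_lit 3) (nat_lit 4) (nat_lit 1) (nat_lit 4) (nat_lit 265) (nat_lit 183) (nat_lit 152)) (XT.lf (nat_lit 0) (nat_lit 6750517639335) (nat_lit 152) (nat_lit 947968158866) (nat_lit 0) (nat_lit 6749678057705) (nat_lit 1) (nat_lit 5) (nat_lit 3) (nat_lit 4) (nat_lit 1) (nat_lit 4) (nat_lit 266) (nat_lit 183) (nat_lit 151)))) (XT.nd (nat_lit 156) (nat_lit 0) (nat_lit 0) (XT.nd (nat_lit 78) (nat_lit 0) (nat_lit 0) (XT.lf (nat_lit 0) (nat_lit 7763433739512) (nat_lit 152) (nat_lit 1089289736213) (nat_lit 0) (nat_lit 7762592892815) (nat_lit 1) (nat_lit 5) (nat_lit 3) (nat_lit 4) (nat_lit 1) (nat_lit 4) (nat_lit 267) (nat_lit 183) (nat_lit 150)) (XT.lf (nat_lit 0) (nat_lit 8928285984519) (nat_lit 152) (nat_lit 1251811932285) (nat_lit 0) (nat_lit 8927444037763) (nat_lit 1) (nat_lit 5) (nat_lit 3) (nat_lit 4) (nat_lit 1) (nat_lit 4) (nat_lit 268) (nat_lit 183) (nat_lit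 149))) (XT.nd (nat_lit 78) (nat_lit 0) (nat_lit 0) (XT.lf (nat_lit 0) (nat_lit 10267864961758) (nat_lit 152) (nat_lit 1438714529179) (nat_lit 0) (nat_lit 10267022058429) (nat_lit 1) (nat_lit 5) (nat_lit 3) (nat_lit 4) (nat_lit 1) (nat_lit 4) (nat_lit 269) (nat_lit 183) (nat_lit 148)) (XT.lf (nat_lit 0) (nat_lit 11808379825132) (nat_lit 152) (nat_lit 1653654316833) (nat_lit 0) (nat_lit 11807536090001) (nat_lit 1) (nat_lit 5) (nat_lit 3) (nat_lit 4) (nat_lit 1) (nat_lit 4) (nat_lit 270) (nat_lit 183) (nat_lit 147))))) (XT.nd (nat_lit 27456) (nat_lit 0) (nat_lit 0) (XT.nd (nat_lit 156) (nat_lit 0) (nat_lit 0) (XT.nd (nat_lit 78) (nat_lit 0) (nat_lit 0) (XT.lf (nat_lit 0) (nat_lit 54945296801355) (nat_lit 152) (nat_lit 7672453918821) (nat_lit 0) (nat_lit 54944448712809) (nat_lit 1) (nat_lit 5) (nat_lit 3) (nat_lit 4) (nat_lit 1) (nat_lit 4) (nat_lit 281) (nat_lit 183) (nat_lit 136)) (XT.lf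 (nat_lit 0) (nat_lit 63187421234428) (nat_lit 152) (nat_lit 8822464378685) (nat_lit 0) (nat_lit 63186572990412) (nat_lit 1) (nat_lit 5) (nat_lit 3) (nat_lit 4) (nat_lit 1) (nat_lit 4) (nat_lit 282) (nat_lit 183) (nat_lit 135))) (XT.nd (nat_lit 78) (nat_lit 0) (nat_lit 0) (XT.lf (nat_lit 0) (nat_lit 72665864176361) (nat_lit 152) (nat_lit 10144976700277) (nat_lit 0) (nat_lit 72665015797155) (nat_lit 1) (nat_lit 5) (nat_lit 3) (nat_lit 4) (nat_lit 1) (nat_lit 4) (nat_lit 283) (nat_lit 183) (nat_lit 134)) (XT.lf (nat_lit 0) (nat_lit 83566073423845) (nat_lit 152) (nat_lit 11665866124674) (nat_lit 0) (nat_lit 83565224927082) (nat_lit 1) (nat_lit 5) (nat_lit 3) (nat_lit 4) (nat_lit 1) (nat_lit 4) (nat_lit 284) (nat_lit 183) (nat_lit 133)))) (XT.nd (nat_lit 156) (nat_lit 0) (nat_lit 0) (XT.nd (nat_lit 78) (nat_lit 0) (nat_lit 0) (XT.lf (nat_lit 0) (nat_lit 26147222562) (nat_lit 152) (nat_lit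 10625994921) (nat_lit 0) (nat_lit 26147222562) (nat_lit 1) (nat_lit 5) (nat_lit 3) (nat_lit 4) (nat_lit 1) (nat_lit 4) (nat_lit 232) (nat_lit 184) (nat_lit 184)) (XT.lf (nat_lit 0) (nat_lit 61497267983) (nat_lit 152) (nat_lit 21617022620) (nat_lit 0) (nat_lit 61369875911) (nat_lit 1) (nat_lit 5) (nat_lit 3) (nat_lit 4) (nat_lit 1) (nat_lit 4) (nat_lit 233) (nat_lit 184) (nat_lit 183))) (XT.nd (nat_lit 78) (nat_lit 0) (nat_lit 0) (XT.lf (nat_lit 0) (nat_lit 71952605674) (nat_lit 152) (nat_lit 22276689612) (nat_lit 0) (nat_lit 71714437887) (nat_lit 1) (nat_lit 5) (nat_lit 3) (nat_lit 4) (nat_lit 1) (nat_lit 4) (nat_lit 234) (nat_lit 184) (nat_lit 182)) (XT.lf (nat_lit 0) (nat_lit 83865019152) (nat_lit 152) (nat_lit 23243897347) (nat_lit 0) (nat_lit 83530524656) (nat_lit 1) (nat_lit 5) (nat_lit 3) (nat_lit 4) (nat_lit 1) (nat_lit 4) (nat_lit 235) (nat_lit 184) (nat_lit 181)))))) (XT.nd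 (nat_lit 546) (nat_lit 0) (nat_lit 0) (XT.nd (nat_lit 234) (nat_lit 0) (nat_lit 0) (XT.nd (nat_lit 78) (nat_lit 0) (nat_lit 0) (XT.lf (nat_lit 0) (nat_lit 97467577376) (nat_lit 152) (nat_lit 24537569455) (nat_lit 0) (nat_lit 97049320526) (nat_lit 1) (nat_lit 5) (nat_lit 3) (nat_lit 4) (nat_lit 1) (nat_lit 4) (nat_lit 236) (nat_lit 184) (nat_lit 180)) (XT.nd (nat_lit 78) (nat_lit 0) (nat_lit 0) (XT.lf (nat_lit 0) (nat_lit 113026417356) (nat_lit 152) (nat_lit 26183016911) (nat_lit 0) (nat_lit 112535323675) (nat_lit 1) (nat_lit 5) (nat_lit 3) (nat_lit 4) (nat_lit 1) (nat_lit 4) (nat_lit 237) (nat_lit 184) (nat_lit 179)) (XT.lf (nat_lit 0) (nat_lit 130845951178) (nat_lit 152) (nat_lit 28212433254) (nat_lit 0) (nat_lit 130291521122) (nat_lit 1) (nat_lit 5) (nat_lit 3) (nat_lit 4) (nat_lit 1) (nat_lit 4) (nat_lit 238) (nat_lit 184) (nat_lit 178)))) (XT.nd (nat_lit 156) (nat_lit 0) (nat_lit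 0) (XT.nd (nat_lit 78) (nat_lit 0) (nat_lit 0) (XT.lf (nat_lit 0) (nat_lit 151274821894) (nat_lit 152) (nat_lit 30665524455) (nat_lit 0) (nat_lit 150665316730) (nat_lit 1) (nat_lit 5) (nat_lit 3) (nat_lit 4) (nat_lit 1) (nat_lit 4) (nat_lit 239) (nat_lit 184) (nat_lit 177)) (XT.lf (nat_lit 0) (nat_lit 174712724802) (nat_lit 152) (nat_lit 33590285776) (nat_lit 0) (nat_lit 174055328239) (nat_lit 1) (nat_lit 5) (nat_lit 3) (nat_lit 4) (nat_lit 1) (nat_lit 4) (nat_lit 240) (nat_lit 184) (nat_lit 176))) (XT.nd (nat_lit 78) (nat_lit 0) (nat_lit 0) (XT.lf (nat_lit 0) (nat_lit 201618227567) (nat_lit 152) (nat_lit 37043940809) (nat_lit 0) (nat_lit 200919186310) (nat_lit 1) (nat_lit 5) (nat_lit 3) (nat_lit 4) (nat_lit 1) (nat_lit 4) (nat_lit 241) (nat_lit 184) (nat_lit 175)) (XT.lf (nat_lit 0) (nat_lit 232517742199) (nat_lit 152) (nat_lit 41094061066) (nat_lit 0) (nat_lit 231782488164) (nat_lit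 1) (nat_lit 5) (nat_lit 3) (nat_lit 4) (nat_lit 1) (nat_lit 4) (nat_lit 242) (nat_lit 184) (nat_lit 174))))) (XT.nd (nat_lit 312) (nat_lit 0) (nat_lit 0) (XT.nd (nat_lit 156) (nat_lit 0) (nat_lit 0) (XT.nd (nat_lit 78) (nat_lit 0) (nat_lit 0) (XT.lf (nat_lit 0) (nat_lit 268015824420) (nat_lit 152) (nat_lit 45819888028) (nat_lit 0) (nat_lit 267249081014) (nat_lit 1) (nat_lit 5) (nat_lit 3) (nat_lit 4) (nat_lit 1) (nat_lit 4) (nat_lit 243) (nat_lit 184) (nat_lit 173)) (XT.lf (nat_lit 0) (nat_lit 308807001926) (nat_lit 152) (nat_lit 51313883529) (nat_lit 0) (nat_lit 308012876457) (nat_lit 1) (nat_lit 5) (nat_lit 3) (nat_lit 4) (nat_lit 1) (nat_lit 4) (nat_lit 244) (nat_lit 184) (nat_lit 172))) (XT.nd (nat_lit 78) (nat_lit 0) (nat_lit 0) (XT.lf (nat_lit 0) (nat_lit 355689362971) (nat_lit 152) (nat_lit 57683538785) (nat_lit 0) (nat_lit 354871427013) (nat_lit 1) (nat_lit 5) (nat_lit 3)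 (nat_lit 4) (nat_lit 1) (nat_lit 4) (nat_lit 245) (nat_lit 184) (nat_lit 171)) (XT.lf (nat_lit 0) (nat_lit 409580171142) (nat_lit 152) (nat_lit 65053477485) (nat_lit 0) (nat_lit 408741530410) (nat_lit 1) (nat_lit 5) (nat_lit 3) (nat_lit 4) (nat_lit 1) (nat_lit 4) (nat_lit 246) (nat_lit 184) (nat_lit 170)))) (XT.nd (nat_lit 156) (nat_lit 0) (nat_lit 0) (XT.nd (nat_lit 78) (nat_lit 0) (nat_lit 0) (XT.lf (nat_lit 0) (nat_lit 471533811815) (nat_lit 152) (nat_lit 73567894082) (nat_lit 0) (nat_lit 470677166934) (nat_lit 1) (nat_lit 5) (nat_lit 3) (nat_lit 4) (nat_lit 1) (nat_lit 4) (nat_lit 247) (nat_lit 184) (nat_lit 169)) (XT.lf (nat_lit 0) (nat_lit 542762421440) (nat_lit 152) (nat_lit 83393374988) (nat_lit 0) (nat_lit 541890120775) (nat_lit 1) (nat_lit 5) (nat_lit 3) (nat_lit 4) (nat_lit 1) (nat_lit 4) (nat_lit 248) (nat_lit 184) (nat_lit 168))) (XT.nd (nat_lit 78) (nat_lit 0) (nat_lit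 0) (XT.lf (nat_lit 0) (nat_lit 624659603247) (nat_lit 152) (nat_lit 94722157873) (nat_lit 0) (nat_lit 623773688857) (nat_lit 1) (nat_lit 5) (nat_lit 3) (nat_lit 4) (nat_lit 1) (nat_lit 4) (nat_lit 249) (nat_lit 184) (nat_lit 167)) (XT.lf (nat_lit 0) (nat_lit 718827693402) (nat_lit 152) (nat_lit 107775892837) (nat_lit 0) (nat_lit 717929940991) (nat_lit 1) (nat_lit 5) (nat_lit 3) (nat_lit 4) (nat_lit 1) (nat_lit 4) (nat_lit 250) (nat_lit 184) (nat_lit 166))))))))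
noncomputable def xc9 : XT := (XT.nd (nat_lit 29952) (nat_lit 0) (nat_lit 0) (XT.nd (nat_lit 1092) (nat_lit 0) (nat_lit 0) (XT.nd (nat_lit 546) (nat_lit 0) (nat_lit 0) (XT.nd (nat_lit 234) (nat_lit 0) (nat_lit 0) (XT.nd (nat_lit 78) (nat_lit 0) (nat_lit 0) (XT.lf (nat_lit 0) (nat_lit 827109111061) (nat_lit 152) (nat_lit 122809979042) (nat_lit 0) (nat_lit 826201064719) (nat_lit 1) (nat_lit 5) (nat_lit 3) (nat_lit 4) (nat_lit 1) (nat_lit 4) (nat_lit 251) (nat_lit 184) (nat_lit 165)) (XT.nd (nat_lit 78) (nat_lit 0) (nat_lit 0) (XT.lf (nat_lit 0) (nat_lit 951622405699) (nat_lit 152) (nat_lit 140118561653) (nat_lit 0) (nat_lit 950705408112) (nat_lit 1) (nat_lit 5) (nat_lit 3) (nat_lit 4) (nat_lit 1) (nat_lit 4) (nat_lit 252) (nat_lit 184) (nat_lit 164)) (XT.lf (nat_lit 0) (nat_lit 1094803706995) (nat_lit 152) (nat_lit 160040286852) (nat_lit 0) (nat_lit 1093878925716) (nat_lit 1) (nat_lit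 5) (nat_lit 3) (nat_lit 4) (nat_lit 1) (nat_lit 4) (nat_lit 253) (nat_lit 184) (nat_lit 163)))) (XT.nd (nat_lit 156) (nat_lit 0) (nat_lit 0) (XT.nd (nat_lit 78) (nat_lit 0) (nat_lit 0) (XT.lf (nat_lit 0) (nat_lit 1259454388234) (nat_lit 152) (nat_lit 182964927522) (nat_lit 0) (nat_lit 1258522838528) (nat_lit 1) (nat_lit 5) (nat_lit 3) (nat_lit 4) (nat_lit 1) (nat_lit 4) (nat_lit 254) (nat_lit 184) (nat_lit 162)) (XT.lf (nat_lit 0) (nat_lit 1448795875788) (nat_lit 152) (nat_lit 209341009242) (nat_lit 0) (nat_lit 1447858440494) (nat_lit 1) (nat_lit 5) (nat_lit 3) (nat_lit 4) (nat_lit 1) (nat_lit 4) (nat_lit 255) (nat_lit 184) (nat_lit 161))) (XT.nd (nat_lit 78) (nat_lit 0) (nat_lit 0) (XT.lf (nat_lit 0) (nat_lit 1666532677023) (nat_lit 152) (nat_lit 239684585786) (nat_lit 0) (nat_lit 1665590123826) (nat_lit 1) (nat_lit 5) (nat_lit 3) (nat_lit 4) (nat_lit 1) (nat_lit 4) (nat_lit 256)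 (nat_lit 184) (nat_lit 160)) (XT.lf (nat_lit 0) (nat_lit 1916924859789) (nat_lit 152) (nat_lit 274589335823) (nat_lit 0) (nat_lit 1915977856241) (nat_lit 1) (nat_lit 5) (nat_lit 3) (nat_lit 4) (nat_lit 1) (nat_lit 4) (nat_lit 257) (nat_lit 184) (nat_lit 159))))) (XT.nd (nat_lit 234) (nat_lit 0) (nat_lit 0) (XT.nd (nat_lit 78) (nat_lit 0) (nat_lit 0) (XT.lf (nat_lit 0) (nat_lit 2204871401574) (nat_lit 152) (nat_lit 314738178378) (nat_lit 0) (nat_lit 2203920528156) (nat_lit 1) (nat_lit 5) (nat_lit 3) (nat_lit 4) (nat_lit 1) (nat_lit 4) (nat_lit 258) (nat_lit 184) (nat_lit 158)) (XT.nd (nat_lit 78) (nat_lit 0) (nat_lit 0) (XT.lf (nat_lit 0) (nat_lit 2536006039067) (nat_lit 152) (nat_lit 360916634282) (nat_lit 0) (nat_lit 2535051800544) (nat_lit 1) (nat_lit 5) (nat_lit 3) (nat_lit 4) (nat_lit 1) (nat_lit 4) (nat_lit 259) (nat_lit 184) (nat_lit 157)) (XT.lf (nat_lit 0) (nat_lit 2916807493435)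 (nat_lit 152) (nat_lit 414028195065) (nat_lit 0) (nat_lit 2915850328735) (nat_lit 1) (nat_lit 5) (nat_lit 3) (nat_lit 4) (nat_lit 1) (nat_lit 4) (nat_lit 260) (nat_lit 184) (nat_lit 156)))) (XT.nd (nat_lit 156) (nat_lit 0) (nat_lit 0) (XT.nd (nat_lit 78) (nat_lit 0) (nat_lit 0) (XT.lf (nat_lit 0) (nat_lit 3354726227916) (nat_lit 152) (nat_lit 475111999958) (nat_lit 0) (nat_lit 3353766518713) (nat_lit 1) (nat_lit 5) (nat_lit 3) (nat_lit 4) (nat_lit 1) (nat_lit 4) (nat_lit 261) (nat_lit 184) (nat_lit 155)) (XT.lf (nat_lit 0) (nat_lit 3858330217749) (nat_lit 152) (nat_lit 545363166883) (nat_lit 0) (nat_lit 3857368295935) (nat_lit 1) (nat_lit 5) (nat_lit 3) (nat_lit 4) (nat_lit 1) (nat_lit 4) (nat_lit 262) (nat_lit 184) (nat_lit 154))) (XT.nd (nat_lit 78) (nat_lit 0) (nat_lit 0) (XT.lf (nat_lit 0) (nat_lit 4437472584475) (nat_lit 152) (nat_lit 626156175195) (nat_lit 0) (nat_lit 4436508738652)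 (nat_lit 1) (nat_lit 5) (nat_lit 3) (nat_lit 4) (nat_lit 1) (nat_lit 4) (nat_lit 263) (nat_lit 184) (nat_lit 153)) (XT.lf (nat_lit 0) (nat_lit 5103484374400) (nat_lit 152) (nat_lit 719071757663) (nat_lit 0) (nat_lit 5102518855526) (nat_lit 1) (nat_lit 5) (nat_lit 3) (nat_lit 4) (nat_lit 1) (nat_lit 4) (nat_lit 264) (nat_lit 184) (nat_lit 152)))))) (XT.nd (nat_lit 1248) (nat_lit 0) (nat_lit 0) (XT.nd (nat_lit 234) (nat_lit 0) (nat_lit 0) (XT.nd (nat_lit 78) (nat_lit 0) (nat_lit 0) (XT.lf (nat_lit 0) (nat_lit 5869396252979) (nat_lit 152) (nat_lit 825927827857) (nat_lit 0) (nat_lit 5868429279276) (nat_lit 1) (nat_lit 5) (nat_lit 3) (nat_lit 4) (nat_lit 1) (nat_lit 4) (nat_lit 265) (nat_lit 184) (nat_lit 151)) (XT.nd (nat_lit 78) (nat_lit 0) (nat_lit 0) (XT.lf (nat_lit 0) (nat_lit 6750193452618) (nat_lit 152) (nat_lit 948815048022) (nat_lit 0) (nat_lit 6749225213848) (nat_lit 1) (nat_lit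 5) (nat_lit 3) (nat_lit 4) (nat_lit 1) (nat_lit 4) (nat_lit 266) (nat_lit 184) (nat_lit 150)) (XT.lf (nat_lit 0) (nat_lit 7763108962005) (nat_lit 152) (nat_lit 1090137733333) (nat_lit 0) (nat_lit 7762139623177) (nat_lit 1) (nat_lit 5) (nat_lit 3) (nat_lit 4) (nat_lit 1) (nat_lit 4) (nat_lit 267) (nat_lit 184) (nat_lit 149)))) (XT.nd (nat_lit 156) (nat_lit 0) (nat_lit 0) (XT.nd (nat_lit 78) (nat_lit 0) (nat_lit 0) (XT.lf (nat_lit 0) (nat_lit 8927960693283) (nat_lit 152) (nat_lit 1252660892852) (nat_lit 0) (nat_lit 8926990397882) (nat_lit 1) (nat_lit 5) (nat_lit 3) (nat_lit 4) (nat_lit 1) (nat_lit 4) (nat_lit 268) (nat_lit 184) (nat_lit 148)) (XT.lf (nat_lit 0) (nat_lit 10267539223800) (nat_lit 152) (nat_lit 1439564327525) (nat_lit 0) (nat_lit 10266568096597) (nat_lit 1) (nat_lit 5) (nat_lit 3) (nat_lit 4) (nat_lit 1) (nat_lit 4) (nat_lit 269) (nat_lit 184) (nat_lit 147))) (XT.nd (nat_lit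 780) (nat_lit 0) (nat_lit 0) (XT.lf (nat_lit 0) (nat_lit 11808053698720) (nat_lit 152) (nat_lit 1654504843684) (nat_lit 0) (nat_lit 11807081848210) (nat_lit 1) (nat_lit 5) (nat_lit 3) (nat_lit 4) (nat_lit 1) (nat_lit 4) (nat_lit 270) (nat_lit 184) (nat_lit 146)) (XT.lf (nat_lit 0) (nat_lit 47777903844873) (nat_lit 152) (nat_lit 6673299299082) (nat_lit 0) (nat_lit 47776928364256) (nat_lit 1) (nat_lit 5) (nat_lit 3) (nat_lit 4) (nat_lit 1) (nat_lit 4) (nat_lit 280) (nat_lit 184) (nat_lit 136))))) (XT.nd (nat_lit 27300) (nat_lit 0) (nat_lit 0) (XT.nd (nat_lit 156) (nat_lit 0) (nat_lit 0) (XT.nd (nat_lit 78) (nat_lit 0) (nat_lit 0) (XT.lf (nat_lit 0) (nat_lit 54944968641889) (nat_lit 152) (nat_lit 7673308258453) (nat_lit 0) (nat_lit 54943993005802) (nat_lit 1) (nat_lit 5) (nat_lit 3) (nat_lit 4) (nat_lit 1) (nat_lit 4) (nat_lit 281) (nat_lit 184) (nat_lit 135)) (XT.lf (nat_lit 0) (nat_lit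 63187093002358) (nat_lit 152) (nat_lit 8823318854479) (nat_lit 0) (nat_lit 63186117231079) (nat_lit 1) (nat_lit 5) (nat_lit 3) (nat_lit 4) (nat_lit 1) (nat_lit 4) (nat_lit 282) (nat_lit 184) (nat_lit 134))) (XT.nd (nat_lit 78) (nat_lit 0) (nat_lit 0) (XT.lf (nat_lit 0) (nat_lit 72665535881157) (nat_lit 152) (nat_lit 10145831294474) (nat_lit 0) (nat_lit 72664559992321) (nat_lit 1) (nat_lit 5) (nat_lit 3) (nat_lit 4) (nat_lit 1) (nat_lit 4) (nat_lit 283) (nat_lit 184) (nat_lit 133)) (XT.lf (nat_lit 0) (nat_lit 83565745073741) (nat_lit 152) (nat_lit 11666720821829) (nat_lit 0) (nat_lit 83564769082682) (nat_lit 1) (nat_lit 5) (nat_lit 3) (nat_lit 4) (nat_lit 1) (nat_lit 4) (nat_lit 284) (nat_lit 184) (nat_lit 132)))) (XT.nd (nat_lit 156) (nat_lit 0) (nat_lit 0) (XT.nd (nat_lit 78) (nat_lit 0) (nat_lit 0) (XT.lf (nat_lit 0) (nat_lit 18586142716) (nat_lit 152) (nat_lit 10617665169) (nat_lit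 0) (nat_lit 18586142716) (nat_lit 1) (nat_lit 5) (nat_lit 3) (nat_lit 4) (nat_lit 1) (nat_lit 4) (nat_lit 230) (nat_lit 185) (nat_lit 185)) (XT.lf (nat_lit 0) (nat_lit 44310582751) (nat_lit 152) (nat_lit 21174449336) (nat_lit 0) (nat_lit 44164081868) (nat_lit 1) (nat_lit 5) (nat_lit 3) (nat_lit 4) (nat_lit 1) (nat_lit 4) (nat_lit 231) (nat_lit 185) (nat_lit 184))) (XT.nd (nat_lit 78) (nat_lit 0) (nat_lit 0) (XT.lf (nat_lit 0) (nat_lit 52372529781) (nat_lit 152) (nat_lit 21380297375) (nat_lit 0) (nat_lit 52098636826) (nat_lit 1) (nat_lit 5) (nat_lit 3) (nat_lit 4) (nat_lit 1) (nat_lit 4) (nat_lit 232) (nat_lit 185) (nat_lit 183)) (XT.lf (nat_lit 0) (nat_lit 61515860269) (nat_lit 152) (nat_lit 21856901918) (nat_lit 0) (nat_lit 61131191599) (nat_lit 1) (nat_lit 5) (nat_lit 3) (nat_lit 4) (nat_lit 1) (nat_lit 4) (nat_lit 233) (nat_lit 185) (nat_lit 182))))))) (XT.nd (nat_lit 1170) (nat_lit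 0) (nat_lit 0) (XT.nd (nat_lit 546) (nat_lit 0) (nat_lit 0) (XT.nd (nat_lit 234) (nat_lit 0) (nat_lit 0) (XT.nd (nat_lit 78) (nat_lit 0) (nat_lit 0) (XT.lf (nat_lit 0) (nat_lit 71919465464) (nat_lit 152) (nat_lit 22613587838) (nat_lit 0) (nat_lit 71438470086) (nat_lit 1) (nat_lit 5) (nat_lit 3) (nat_lit 4) (nat_lit 1) (nat_lit 4) (nat_lit 234) (nat_lit 185) (nat_lit 181)) (XT.nd (nat_lit 78) (nat_lit 0) (nat_lit 0) (XT.lf (nat_lit 0) (nat_lit 83786894163) (nat_lit 152) (nat_lit 23665159858) (nat_lit 0) (nat_lit 83222136429) (nat_lit 1) (nat_lit 5) (nat_lit 3) (nat_lit 4) (nat_lit 1) (nat_lit 4) (nat_lit 235) (nat_lit 185) (nat_lit 180)) (XT.lf (nat_lit 0) (nat_lit 97350335188) (nat_lit 152) (nat_lit 25032192214) (nat_lit 0) (nat_lit 96712740624) (nat_lit 1) (nat_lit 5) (nat_lit 3) (nat_lit 4) (nat_lit 1) (nat_lit 4) (nat_lit 236) (nat_lit 185) (nat_lit 179)))) (XT.nd (nat_lit 156)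 (nat_lit 0) (nat_lit 0) (XT.nd (nat_lit 78) (nat_lit 0) (nat_lit 0) (XT.lf (nat_lit 0) (nat_lit 112875160212) (nat_lit 152) (nat_lit 26741431190) (nat_lit 0) (nat_lit 112174229273) (nat_lit 1) (nat_lit 5) (nat_lit 3) (nat_lit 4) (nat_lit 1) (nat_lit 4) (nat_lit 237) (nat_lit 185) (nat_lit 178)) (XT.lf (nat_lit 0) (nat_lit 130665115811) (nat_lit 152) (nat_lit 28826318420) (nat_lit 0) (nat_lit 129909109764) (nat_lit 1) (nat_lit 5) (nat_lit 3) (nat_lit 4) (nat_lit 1) (nat_lit 4) (nat_lit 238) (nat_lit 185) (nat_lit 177))) (XT.nd (nat_lit 78) (nat_lit 0) (nat_lit 0) (XT.lf (nat_lit 0) (nat_lit 151068266334) (nat_lit 152) (nat_lit 31327645174) (nat_lit 0) (nat_lit 150264368889) (nat_lit 1) (nat_lit 5) (nat_lit 3) (nat_lit 4) (nat_lit 1) (nat_lit 4) (nat_lit 239) (nat_lit 185) (nat_lit 176)) (XT.lf (nat_lit 0) (nat_lit 174483803856) (nat_lit 152) (nat_lit 34294350455) (nat_lit 0) (nat_lit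 173638261716) (nat_lit 1) (nat_lit 5) (nat_lit 3) (nat_lit 4) (nat_lit 1) (nat_lit 4) (nat_lit 240) (nat_lit 185) (nat_lit 175))))) (XT.nd (nat_lit 312) (nat_lit 0) (nat_lit 0) (XT.nd (nat_lit 156) (nat_lit 0) (nat_lit 0) (XT.nd (nat_lit 78) (nat_lit 0) (nat_lit 0) (XT.lf (nat_lit 0) (nat_lit 201369858459) (nat_lit 152) (nat_lit 37784478497) (nat_lit 0) (nat_lit 200488103542) (nat_lit 1) (nat_lit 5) (nat_lit 3) (nat_lit 4) (nat_lit 1) (nat_lit 4) (nat_lit 241) (nat_lit 185) (nat_lit 174)) (XT.lf (nat_lit 0) (nat_lit 232252461647) (nat_lit 152) (nat_lit 41866314412) (nat_lit 0) (nat_lit 231339217358) (nat_lit 1) (nat_lit 5) (nat_lit 3) (nat_lit 4) (nat_lit 1) (nat_lit 4) (nat_lit 242) (nat_lit 185) (nat_lit 173))) (XT.nd (nat_lit 78) (nat_lit 0) (nat_lit 0) (XT.lf (nat_lit 0) (nat_lit 267735838264) (nat_lit 152) (nat_lit 46619720209) (nat_lit 0) (nat_lit 266795211912) (nat_lit 1) (nat_lit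 5) (nat_lit 3) (nat_lit 4) (nat_lit 1) (nat_lit 4) (nat_lit 243) (nat_lit 185) (nat_lit 172)) (XT.lf (nat_lit 0) (nat_lit 308514228288) (nat_lit 152) (nat_lit 52137697306) (nat_lit 0) (nat_lit 307549791447) (nat_lit 1) (nat_lit 5) (nat_lit 3) (nat_lit 4) (nat_lit 1) (nat_lit 4) (nat_lit 244) (nat_lit 185) (nat_lit 171)))) (XT.nd (nat_lit 156) (nat_lit 0) (nat_lit 0) (XT.nd (nat_lit 78) (nat_lit 0) (nat_lit 0) (XT.lf (nat_lit 0) (nat_lit 355385469784) (nat_lit 152) (nat_lit 58528206122) (nat_lit 0) (nat_lit 354400328169) (nat_lit 1) (nat_lit 5) (nat_lit 3) (nat_lit 4) (nat_lit 1) (nat_lit 4) (nat_lit 245) (nat_lit 185) (nat_lit 170)) (XT.lf (nat_lit 0) (nat_lit 409266608781) (nat_lit 152) (nat_lit 65916278353) (nat_lit 0) (nat_lit 408263463016) (nat_lit 1) (nat_lit 5) (nat_lit 3) (nat_lit 4) (nat_lit 1) (nat_lit 4) (nat_lit 246) (nat_lit 185) (nat_lit 169))) (XT.nd (nat_lit 78) (nat_lit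 0) (nat_lit 0) (XT.lf (nat_lit 0) (nat_lit 471211841478) (nat_lit 152) (nat_lit 74446463239) (nat_lit 0) (nat_lit 470193039930) (nat_lit 1) (nat_lit 5) (nat_lit 3) (nat_lit 4) (nat_lit 1) (nat_lit 4) (nat_lit 247) (nat_lit 185) (nat_lit 168)) (XT.lf (nat_lit 0) (nat_lit 542433139818) (nat_lit 152) (nat_lit 84285655700) (nat_lit 0) (nat_lit 541400724546) (nat_lit 1) (nat_lit 5) (nat_lit 3) (nat_lit 4) (nat_lit 1) (nat_lit 4) (nat_lit 248) (nat_lit 185) (nat_lit 167)))))) (XT.nd (nat_lit 546) (nat_lit 0) (nat_lit 0) (XT.nd (nat_lit 234) (nat_lit 0) (nat_lit 0) (XT.nd (nat_lit 78) (nat_lit 0) (nat_lit 0) (XT.lf (nat_lit 0) (nat_lit 624323963986) (nat_lit 152) (nat_lit 95626361676) (nat_lit 0) (nat_lit 623279710693) (nat_lit 1) (nat_lit 5) (nat_lit 3) (nat_lit 4) (nat_lit 1) (nat_lit 4) (nat_lit 249) (nat_lit 185) (nat_lit 166)) (XT.nd (nat_lit 78) (nat_lit 0) (nat_lit 0) (XT.lf (nat_lit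 0) (nat_lit 718486525760) (nat_lit 152) (nat_lit 108690464545) (nat_lit 0) (nat_lit 717431978535) (nat_lit 1) (nat_lit 5) (nat_lit 3) (nat_lit 4) (nat_lit 1) (nat_lit 4) (nat_lit 250) (nat_lit 185) (nat_lit 165)) (XT.lf (nat_lit 0) (nat_lit 826763136131) (nat_lit 152) (nat_lit 123733566320) (nat_lit 0) (nat_lit 825699637661) (nat_lit 1) (nat_lit 5) (nat_lit 3) (nat_lit 4) (nat_lit 1) (nat_lit 4) (nat_lit 251) (nat_lit 185) (nat_lit 164)))) (XT.nd (nat_lit 156) (nat_lit 0) (nat_lit 0) (XT.nd (nat_lit 78) (nat_lit 0) (nat_lit 0) (XT.lf (nat_lit 0) (nat_lit 951272250519) (nat_lit 152) (nat_lit 141049988557) (nat_lit 0) (nat_lit 950200968358) (nat_lit 1) (nat_lit 5) (nat_lit 3) (nat_lit 4) (nat_lit 1) (nat_lit 4) (nat_lit 252) (nat_lit 185) (nat_lit 163)) (XT.lf (nat_lit 0) (nat_lit 1094449916814) (nat_lit 152) (nat_lit 160978530822) (nat_lit 0) (nat_lit 1093371866226) (nat_lit 1) (nat_lit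 5) (nat_lit 3) (nat_lit 4) (nat_lit 1) (nat_lit 4) (nat_lit 253) (nat_lit 185) (nat_lit 162))) (XT.nd (nat_lit 78) (nat_lit 0) (nat_lit 0) (XT.lf (nat_lit 0) (nat_lit 1259097437183) (nat_lit 152) (nat_lit 183909099375) (nat_lit 0) (nat_lit 1258013501006) (nat_lit 1) (nat_lit 5) (nat_lit 3) (nat_lit 4) (nat_lit 1) (nat_lit 4) (nat_lit 254) (nat_lit 185) (nat_lit 161)) (XT.lf (nat_lit 0) (nat_lit 1448436176155) (nat_lit 152) (nat_lit 210290335777) (nat_lit 0) (nat_lit 1447347122075) (nat_lit 1) (nat_lit 5) (nat_lit 3) (nat_lit 4) (nat_lit 1) (nat_lit 4) (nat_lit 255) (nat_lit 185) (nat_lit 160))))) (XT.nd (nat_lit 312) (nat_lit 0) (nat_lit 0) (XT.nd (nat_lit 156) (nat_lit 0) (nat_lit 0) (XT.nd (nat_lit 78) (nat_lit 0) (nat_lit 0) (XT.lf (nat_lit 0) (nat_lit 1666170587318) (nat_lit 152) (nat_lit 240638394652) (nat_lit 0) (nat_lit 1665077082887) (nat_lit 1) (nat_lit 5) (nat_lit 3) (nat_lit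 4) (nat_lit 1) (nat_lit 4) (nat_lit 256) (nat_lit 185) (nat_lit 159)) (XT.lf (nat_lit 0) (nat_lit 1916560691761) (nat_lit 152) (nat_lit 275547042370) (nat_lit 0) (nat_lit 1915463317460) (nat_lit 1) (nat_lit 5) (nat_lit 3) (nat_lit 4) (nat_lit 1) (nat_lit 4) (nat_lit 257) (nat_lit 185) (nat_lit 158))) (XT.nd (nat_lit 78) (nat_lit 0) (nat_lit 0) (XT.lf (nat_lit 0) (nat_lit 2204505426309) (nat_lit 152) (nat_lit 315699274211) (nat_lit 0) (nat_lit 2203404686903) (nat_lit 1) (nat_lit 5) (nat_lit 3) (nat_lit 4) (nat_lit 1) (nat_lit 4) (nat_lit 258) (nat_lit 185) (nat_lit 157)) (XT.lf (nat_lit 0) (nat_lit 2535638492290) (nat_lit 152) (nat_lit 361880677321) (nat_lit 0) (nat_lit 2534534826707) (nat_lit 1) (nat_lit 5) (nat_lit 3) (nat_lit 4) (nat_lit 1) (nat_lit 4) (nat_lit 259) (nat_lit 185) (nat_lit 156)))) (XT.nd (nat_lit 156) (nat_lit 0) (nat_lit 0) (XT.nd (nat_lit 78) (nat_lit 0) (nat_lit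 0) (XT.lf (nat_lit 0) (nat_lit 2916438580127) (nat_lit 152) (nat_lit 414994800891) (nat_lit 0) (nat_lit 2915332370041) (nat_lit 1) (nat_lit 5) (nat_lit 3) (nat_lit 4) (nat_lit 1) (nat_lit 4) (nat_lit 260) (nat_lit 185) (nat_lit 155)) (XT.lf (nat_lit 0) (nat_lit 3354356126319) (nat_lit 152) (nat_lit 476080834295) (nat_lit 0) (nat_lit 3353247703623) (nat_lit 1) (nat_lit 5) (nat_lit 3) (nat_lit 4) (nat_lit 1) (nat_lit 4) (nat_lit 261) (nat_lit 185) (nat_lit 154))) (XT.nd (nat_lit 78) (nat_lit 0) (nat_lit 0) (XT.lf (nat_lit 0) (nat_lit 3857959082859) (nat_lit 152) (nat_lit 546333939056) (nat_lit 0) (nat_lit 3856848736153) (nat_lit 1) (nat_lit 5) (nat_lit 3) (nat_lit 4) (nat_lit 1) (nat_lit 4) (nat_lit 262) (nat_lit 185) (nat_lit 153)) (XT.lf (nat_lit 0) (nat_lit 4437100551069) (nat_lit 152) (nat_lit 627128632442) (nat_lit 0) (nat_lit 4435988531311) (nat_lit 1) (nat_lit 5) (nat_lit 3)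 (nat_lit 4) (nat_lit 1) (nat_lit 4) (nat_lit 263) (nat_lit 185) (nat_lit 152))))))))
noncomputable def xc10 : XT := (XT.nd (nat_lit 29562) (nat_lit 0) (nat_lit 0) (XT.nd (nat_lit 1404) (nat_lit 0) (nat_lit 0) (XT.nd (nat_lit 702) (nat_lit 0) (nat_lit 0) (XT.nd (nat_lit 234) (nat_lit 0) (nat_lit 0) (XT.nd (nat_lit 78) (nat_lit 0) (nat_lit 0) (XT.lf (nat_lit 0) (nat_lit 5103111559675) (nat_lit 152) (nat_lit 720045680192) (nat_lit 0) (nat_lit 5101998085090) (nat_lit 1) (nat_lit 5) (nat_lit 3) (nat_lit 4) (nat_lit 1) (nat_lit 4) (nat_lit 264) (nat_lit 185) (nat_lit 151)) (XT.nd (nat_lit 78) (nat_lit 0) (nat_lit 0) (XT.lf (nat_lit 0) (nat_lit 5869022758846) (nat_lit 152) (nat_lit 826903024545) (nat_lit 0) (nat_lit 5867908019193) (nat_lit 1) (nat_lit 5) (nat_lit 3) (nat_lit 4) (nat_lit 1) (nat_lit 4) (nat_lit 265) (nat_lit 185) (nat_lit 150)) (XT.lf (nat_lit 0) (nat_lit 6749819367695) (nat_lit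 152) (nat_lit 949791352674) (nat_lit 0) (nat_lit 6748703527984) (nat_lit 1) (nat_lit 5) (nat_lit 3) (nat_lit 4) (nat_lit 1) (nat_lit 4) (nat_lit 266) (nat_lit 185) (nat_lit 149)))) (XT.nd (nat_lit 156) (nat_lit 0) (nat_lit 0) (XT.nd (nat_lit 78) (nat_lit 0) (nat_lit 0) (XT.lf (nat_lit 0) (nat_lit 7762734363354) (nat_lit 152) (nat_lit 1091115001432) (nat_lit 0) (nat_lit 7761617567070) (nat_lit 1) (nat_lit 5) (nat_lit 3) (nat_lit 4) (nat_lit 1) (nat_lit 4) (nat_lit 267) (nat_lit 185) (nat_lit 148)) (XT.lf (nat_lit 0) (nat_lit 8927585647909) (nat_lit 152) (nat_lit 1253638998731) (nat_lit 0) (nat_lit 8926468019823) (nat_lit 1) (nat_lit 5) (nat_lit 3) (nat_lit 4) (nat_lit 1) (nat_lit 4) (nat_lit 268) (nat_lit 185) (nat_lit 147))) (XT.nd (nat_lit 78) (nat_lit 0) (nat_lit 0) (XT.lf (nat_lit 0) (nat_lit 10267163789973) (nat_lit 152) (nat_lit 1440543161908) (nat_lit 0) (nat_lit 10266045438581)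 (nat_lit 1) (nat_lit 5) (nat_lit 3) (nat_lit 4) (nat_lit 1) (nat_lit 4) (nat_lit 269) (nat_lit 185) (nat_lit 146)) (XT.lf (nat_lit 0) (nat_lit 11807677927108) (nat_lit 152) (nat_lit 1655484311548) (nat_lit 0) (nat_lit 11806558946753) (nat_lit 1) (nat_lit 5) (nat_lit 3) (nat_lit 4) (nat_lit 1) (nat_lit 4) (nat_lit 270) (nat_lit 185) (nat_lit 145))))) (XT.nd (nat_lit 234) (nat_lit 0) (nat_lit 0) (XT.nd (nat_lit 78) (nat_lit 0) (nat_lit 0) (XT.lf (nat_lit 0) (nat_lit 17959524718393) (nat_lit 152) (nat_lit 2513832147319) (nat_lit 0) (nat_lit 17958404301977) (nat_lit 1) (nat_lit 5) (nat_lit 3) (nat_lit 4) (nat_lit 1) (nat_lit 4) (nat_lit 273) (nat_lit 185) (nat_lit 142)) (XT.nd (nat_lit 78) (nat_lit 0) (nat_lit 0) (XT.lf (nat_lit 0) (nat_lit 20653890921394) (nat_lit 152) (nat_lit 2889770533212) (nat_lit 0) (nat_lit 20652770145366) (nat_lit 1) (nat_lit 5) (nat_lit 3) (nat_lit 4) (nat_lit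 1) (nat_lit 4) (nat_lit 274) (nat_lit 185) (nat_lit 141)) (XT.lf (nat_lit 0) (nat_lit 23752411693775) (nat_lit 152) (nat_lit 3322100354136) (nat_lit 0) (nat_lit 23751290605042) (nat_lit 1) (nat_lit 5) (nat_lit 3) (nat_lit 4) (nat_lit 1) (nat_lit 4) (nat_lit 275) (nat_lit 185) (nat_lit 140)))) (XT.nd (nat_lit 312) (nat_lit 0) (nat_lit 0) (XT.nd (nat_lit 234) (nat_lit 0) (nat_lit 0) (XT.lf (nat_lit 0) (nat_lit 27315710268041) (nat_lit 152) (nat_lit 3819280237023) (nat_lit 0) (nat_lit 27314588907390) (nat_lit 1) (nat_lit 5) (nat_lit 3) (nat_lit 4) (nat_lit 1) (nat_lit 4) (nat_lit 276) (nat_lit 185) (nat_lit 139)) (XT.lf (nat_lit 0) (nat_lit 41545296047114) (nat_lit 152) (nat_lit 5804709074259) (nat_lit 0) (nat_lit 41544174065614) (nat_lit 1) (nat_lit 5) (nat_lit 3) (nat_lit 4) (nat_lit 1) (nat_lit 4) (nat_lit 279) (nat_lit 185) (nat_lit 136))) (XT.nd (nat_lit 78) (nat_lit 0) (nat_lit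 0) (XT.lf (nat_lit 0) (nat_lit 47777526377993) (nat_lit 152) (nat_lit 6674281946245) (nat_lit 0) (nat_lit 47776404241023) (nat_lit 1) (nat_lit 5) (nat_lit 3) (nat_lit 4) (nat_lit 1) (nat_lit 4) (nat_lit 280) (nat_lit 185) (nat_lit 135)) (XT.lf (nat_lit 0) (nat_lit 54944591102404) (nat_lit 152) (nat_lit 7674291041779) (nat_lit 0) (nat_lit 54943468830243) (nat_lit 1) (nat_lit 5) (nat_lit 3) (nat_lit 4) (nat_lit 1) (nat_lit 4) (nat_lit 281) (nat_lit 185) (nat_lit 134)))))) (XT.nd (nat_lit 27534) (nat_lit 0) (nat_lit 0) (XT.nd (nat_lit 27222) (nat_lit 0) (nat_lit 0) (XT.nd (nat_lit 27066) (nat_lit 0) (nat_lit 0) (XT.lf (nat_lit 0) (nat_lit 63186715399738) (nat_lit 152) (nat_lit 8824301756207) (nat_lit 0) (nat_lit 63185593010019) (nat_lit 1) (nat_lit 5) (nat_lit 3) (nat_lit 4) (nat_lit 1) (nat_lit 4) (nat_lit 282) (nat_lit 185) (nat_lit 133)) (XT.nd (nat_lit 78) (nat_lit 0) (nat_lit 0)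 (XT.lf (nat_lit 0) (nat_lit 12691142966) (nat_lit 152) (nat_lit 10998799640) (nat_lit 0) (nat_lit 12691142966) (nat_lit 1) (nat_lit 5) (nat_lit 3) (nat_lit 4) (nat_lit 1) (nat_lit 4) (nat_lit 228) (nat_lit 186) (nat_lit 186)) (XT.lf (nat_lit 0) (nat_lit 30986451502) (nat_lit 152) (nat_lit 21564131536) (nat_lit 0) (nat_lit 30817975487) (nat_lit 1) (nat_lit 5) (nat_lit 3) (nat_lit 4) (nat_lit 1) (nat_lit 4) (nat_lit 229) (nat_lit 186) (nat_lit 185)))) (XT.nd (nat_lit 156) (nat_lit 0) (nat_lit 0) (XT.nd (nat_lit 78) (nat_lit 0) (nat_lit 0) (XT.lf (nat_lit 0) (nat_lit 37262082788) (nat_lit 152) (nat_lit 21382884001) (nat_lit 0) (nat_lit 36947105890) (nat_lit 1) (nat_lit 5) (nat_lit 3) (nat_lit 4) (nat_lit 1) (nat_lit 4) (nat_lit 230) (nat_lit 186) (nat_lit 184)) (XT.lf (nat_lit 0) (nat_lit 44331963880) (nat_lit 152) (nat_lit 21450310529) (nat_lit 0) (nat_lit 43889594910) (nat_lit 1) (nat_lit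 5) (nat_lit 3) (nat_lit 4) (nat_lit 1) (nat_lit 4) (nat_lit 231) (nat_lit 186) (nat_lit 183))) (XT.nd (nat_lit 78) (nat_lit 0) (nat_lit 0) (XT.lf (nat_lit 0) (nat_lit 52334418540) (nat_lit 152) (nat_lit 21767730335) (nat_lit 0) (nat_lit 51781273855) (nat_lit 1) (nat_lit 5) (nat_lit 3) (nat_lit 4) (nat_lit 1) (nat_lit 4) (nat_lit 232) (nat_lit 186) (nat_lit 182)) (XT.lf (nat_lit 0) (nat_lit 61426016532) (nat_lit 152) (nat_lit 22341353806) (nat_lit 0) (nat_lit 60776545138) (nat_lit 1) (nat_lit 5) (nat_lit 3) (nat_lit 4) (nat_lit 1) (nat_lit 4) (nat_lit 233) (nat_lit 186) (nat_lit 181))))) (XT.nd (nat_lit 312) (nat_lit 0) (nat_lit 0) (XT.nd (nat_lit 156) (nat_lit 0) (nat_lit 0) (XT.nd (nat_lit 78) (nat_lit 0) (nat_lit 0) (XT.lf (nat_lit 0) (nat_lit 71784636948) (nat_lit 152) (nat_lit 23182404011) (nat_lit 0) (nat_lit 71051403199) (nat_lit 1) (nat_lit 5) (nat_lit 3) (nat_lit 4) (nat_lit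 1) (nat_lit 4) (nat_lit 234) (nat_lit 186) (nat_lit 180)) (XT.lf (nat_lit 0) (nat_lit 83612948447) (nat_lit 152) (nat_lit 24307336278) (nat_lit 0) (nat_lit 82806877868) (nat_lit 1) (nat_lit 5) (nat_lit 3) (nat_lit 4) (nat_lit 1) (nat_lit 4) (nat_lit 235) (nat_lit 186) (nat_lit 179))) (XT.nd (nat_lit 78) (nat_lit 0) (nat_lit 0) (XT.lf (nat_lit 0) (nat_lit 97142374517) (nat_lit 152) (nat_lit 25738160154) (nat_lit 0) (nat_lit 96272967563) (nat_lit 1) (nat_lit 5) (nat_lit 3) (nat_lit 4) (nat_lit 1) (nat_lit 4) (nat_lit 236) (nat_lit 186) (nat_lit 178)) (XT.lf (nat_lit 0) (nat_lit 112637621318) (nat_lit 152) (nat_lit 27502870017) (nat_lit 0) (nat_lit 111713139256) (nat_lit 1) (nat_lit 5) (nat_lit 3) (nat_lit 4) (nat_lit 1) (nat_lit 4) (nat_lit 237) (nat_lit 186) (nat_lit 177)))) (XT.nd (nat_lit 156) (nat_lit 0) (nat_lit 0) (XT.nd (nat_lit 78) (nat_lit 0) (nat_lit 0) (XT.lf (nat_lit 0)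 (nat_lit 130401856723) (nat_lit 152) (nat_lit 29635992800) (nat_lit 0) (nat_lit 129429483263) (nat_lit 1) (nat_lit 5) (nat_lit 3) (nat_lit 4) (nat_lit 1) (nat_lit 4) (nat_lit 238) (nat_lit 186) (nat_lit 176)) (XT.lf (nat_lit 0) (nat_lit 150782641861) (nat_lit 152) (nat_lit 32179263515) (nat_lit 0) (nat_lit 149768623706) (nat_lit 1) (nat_lit 5) (nat_lit 3) (nat_lit 4) (nat_lit 1) (nat_lit 4) (nat_lit 239) (nat_lit 186) (nat_lit 175))) (XT.nd (nat_lit 78) (nat_lit 0) (nat_lit 0) (XT.lf (nat_lit 0) (nat_lit 174178731221) (nat_lit 152) (nat_lit 35182441804) (nat_lit 0) (nat_lit 173128500289) (nat_lit 1) (nat_lit 5) (nat_lit 3) (nat_lit 4) (nat_lit 1) (nat_lit 4) (nat_lit 240) (nat_lit 186) (nat_lit 174)) (XT.lf (nat_lit 0) (nat_lit 201047874380) (nat_lit 152) (nat_lit 38704285505) (nat_lit 0) (nat_lit 199966154075) (nat_lit 1) (nat_lit 5) (nat_lit 3) (nat_lit 4) (nat_lit 1) (nat_lit 4)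 (nat_lit 241) (nat_lit 186) (nat_lit 173))))))) (XT.nd (nat_lit 1170) (nat_lit 0) (nat_lit 0) (XT.nd (nat_lit 546) (nat_lit 0) (nat_lit 0) (XT.nd (nat_lit 234) (nat_lit 0) (nat_lit 0) (XT.nd (nat_lit 78) (nat_lit 0) (nat_lit 0) (XT.lf (nat_lit 0) (nat_lit 231915771964) (nat_lit 152) (nat_lit 42813700255) (nat_lit 0) (nat_lit 230806669596) (nat_lit 1) (nat_lit 5) (nat_lit 3) (nat_lit 4) (nat_lit 1) (nat_lit 4) (nat_lit 242) (nat_lit 186) (nat_lit 172)) (XT.nd (nat_lit 78) (nat_lit 0) (nat_lit 0) (XT.lf (nat_lit 0) (nat_lit 267386361099) (nat_lit 152) (nat_lit 47591087647) (nat_lit 0) (nat_lit 266253448242) (nat_lit 1) (nat_lit 5) (nat_lit 3) (nat_lit 4) (nat_lit 1) (nat_lit 4) (nat_lit 243) (nat_lit 186) (nat_lit 171)) (XT.lf (nat_lit 0) (nat_lit 308153631573) (nat_lit 152) (nat_lit 53129918304) (nat_lit 0) (nat_lit 307000013943) (nat_lit 1) (nat_lit 5) (nat_lit 3) (nat_lit 4) (nat_lit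 1) (nat_lit 4) (nat_lit 244) (nat_lit 186) (nat_lit 170)))) (XT.nd (nat_lit 156) (nat_lit 0) (nat_lit 0) (XT.nd (nat_lit 78) (nat_lit 0) (nat_lit 0) (XT.lf (nat_lit 0) (nat_lit 355015203895) (nat_lit 152) (nat_lit 59538560652) (nat_lit 0) (nat_lit 353843582115) (nat_lit 1) (nat_lit 5) (nat_lit 3) (nat_lit 4) (nat_lit 1) (nat_lit 4) (nat_lit 245) (nat_lit 186) (nat_lit 169)) (XT.lf (nat_lit 0) (nat_lit 408887934916) (nat_lit 152) (nat_lit 66942401172) (nat_lit 0) (nat_lit 407700657353) (nat_lit 1) (nat_lit 5) (nat_lit 3) (nat_lit 4) (nat_lit 1) (nat_lit 4) (nat_lit 246) (nat_lit 186) (nat_lit 168))) (XT.nd (nat_lit 78) (nat_lit 0) (nat_lit 0) (XT.lf (nat_lit 0) (nat_lit 470825856328) (nat_lit 152) (nat_lit 75486297612) (nat_lit 0) (nat_lit 469624965041) (nat_lit 1) (nat_lit 5) (nat_lit 3) (nat_lit 4) (nat_lit 1) (nat_lit 4) (nat_lit 247) (nat_lit 186) (nat_lit 167)) (XT.lf (nat_lit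 0) (nat_lit 542040797030) (nat_lit 152) (nat_lit 85337413164) (nat_lit 0) (nat_lit 540828067721) (nat_lit 1) (nat_lit 5) (nat_lit 3) (nat_lit 4) (nat_lit 1) (nat_lit 4) (nat_lit 248) (nat_lit 186) (nat_lit 166))))) (XT.nd (nat_lit 312) (nat_lit 0) (nat_lit 0) (XT.nd (nat_lit 156) (nat_lit 0) (nat_lit 0) (XT.nd (nat_lit 78) (nat_lit 0) (nat_lit 0) (XT.lf (nat_lit 0) (nat_lit 623926092817) (nat_lit 152) (nat_lit 96688487046) (nat_lit 0) (nat_lit 622703069577) (nat_lit 1) (nat_lit 5) (nat_lit 3) (nat_lit 4) (nat_lit 1) (nat_lit 4) (nat_lit 249) (nat_lit 186) (nat_lit 165)) (XT.lf (nat_lit 0) (nat_lit 718083847303) (nat_lit 152) (nat_lit 109761605485) (nat_lit 0) (nat_lit 716851872818) (nat_lit 1) (nat_lit 5) (nat_lit 3) (nat_lit 4) (nat_lit 1) (nat_lit 4) (nat_lit 250) (nat_lit 186) (nat_lit 164))) (XT.nd (nat_lit 78) (nat_lit 0) (nat_lit 0) (XT.lf (nat_lit 0) (nat_lit 826356277424)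 (nat_lit 152) (nat_lit 124812546886) (nat_lit 0) (nat_lit 825116519247) (nat_lit 1) (nat_lit 5) (nat_lit 3) (nat_lit 4) (nat_lit 1) (nat_lit 4) (nat_lit 251) (nat_lit 186) (nat_lit 163)) (XT.lf (nat_lit 0) (nat_lit 950861756811) (nat_lit 152) (nat_lit 142135786189) (nat_lit 0) (nat_lit 949615230208) (nat_lit 1) (nat_lit 5) (nat_lit 3) (nat_lit 4) (nat_lit 1) (nat_lit 4) (nat_lit 252) (nat_lit 186) (nat_lit 162)))) (XT.nd (nat_lit 156) (nat_lit 0) (nat_lit 0) (XT.nd (nat_lit 78) (nat_lit 0) (nat_lit 0) (XT.lf (nat_lit 0) (nat_lit 1094036262236) (nat_lit 152) (nat_lit 162070256337) (nat_lit 0) (nat_lit 1092783850044) (nat_lit 1) (nat_lit 5) (nat_lit 3) (nat_lit 4) (nat_lit 1) (nat_lit 4) (nat_lit 253) (nat_lit 186) (nat_lit 161)) (XT.lf (nat_lit 0) (nat_lit 1258681034022) (nat_lit 152) (nat_lit 185005979572) (nat_lit 0) (nat_lit 1257423503927) (nat_lit 1) (nat_lit 5) (nat_lit 3) (nat_lit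 4) (nat_lit 1) (nat_lit 4) (nat_lit 254) (nat_lit 186) (nat_lit 160))) (XT.nd (nat_lit 78) (nat_lit 0) (nat_lit 0) (XT.lf (nat_lit 0) (nat_lit 1448017382922) (nat_lit 152) (nat_lit 211391698305) (nat_lit 0) (nat_lit 1446755402476) (nat_lit 1) (nat_lit 5) (nat_lit 3) (nat_lit 4) (nat_lit 1) (nat_lit 4) (nat_lit 255) (nat_lit 186) (nat_lit 159)) (XT.lf (nat_lit 0) (nat_lit 1665749715762) (nat_lit 152) (nat_lit 241743654860) (nat_lit 0) (nat_lit 1664483865446) (nat_lit 1) (nat_lit 5) (nat_lit 3) (nat_lit 4) (nat_lit 1) (nat_lit 4) (nat_lit 256) (nat_lit 186) (nat_lit 158)))))) (XT.nd (nat_lit 546) (nat_lit 0) (nat_lit 0) (XT.nd (nat_lit 234) (nat_lit 0) (nat_lit 0) (XT.nd (nat_lit 78) (nat_lit 0) (nat_lit 0) (XT.lf (nat_lit 0) (nat_lit 1916138012967) (nat_lit 152) (nat_lit 276655691864) (nat_lit 0) (nat_lit 1914868797547) (nat_lit 1) (nat_lit 5) (nat_lit 3) (nat_lit 4) (nat_lit 1) (nat_lit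 4) (nat_lit 257) (nat_lit 186) (nat_lit 157)) (XT.nd (nat_lit 78) (nat_lit 0) (nat_lit 0) (XT.lf (nat_lit 0) (nat_lit 2204081176004) (nat_lit 152) (nat_lit 316810870911) (nat_lit 0) (nat_lit 2202809034406) (nat_lit 1) (nat_lit 5) (nat_lit 3) (nat_lit 4) (nat_lit 1) (nat_lit 4) (nat_lit 258) (nat_lit 186) (nat_lit 156)) (XT.lf (nat_lit 0) (nat_lit 2535212875455) (nat_lit 152) (nat_lit 362994836809) (nat_lit 0) (nat_lit 2533938189354) (nat_lit 1) (nat_lit 5) (nat_lit 3) (nat_lit 4) (nat_lit 1) (nat_lit 4) (nat_lit 259) (nat_lit 186) (nat_lit 155)))) (XT.nd (nat_lit 156) (nat_lit 0) (nat_lit 0) (XT.nd (nat_lit 78) (nat_lit 0) (nat_lit 0) (XT.lf (nat_lit 0) (nat_lit 2916011775003) (nat_lit 152) (nat_lit 416111188890) (nat_lit 0) (nat_lit 2914734876291) (nat_lit 1) (nat_lit 5) (nat_lit 3) (nat_lit 4) (nat_lit 1) (nat_lit 4) (nat_lit 260) (nat_lit 186) (nat_lit 154)) (XT.lf (nat_lit 0)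 (nat_lit 3353928287902) (nat_lit 152) (nat_lit 477199160129) (nat_lit 0) (nat_lit 3352649465181) (nat_lit 1) (nat_lit 5) (nat_lit 3) (nat_lit 4) (nat_lit 1) (nat_lit 4) (nat_lit 261) (nat_lit 186) (nat_lit 153))) (XT.nd (nat_lit 78) (nat_lit 0) (nat_lit 0) (XT.lf (nat_lit 0) (nat_lit 3857530345925) (nat_lit 152) (nat_lit 547453949965) (nat_lit 0) (nat_lit 3856249850152) (nat_lit 1) (nat_lit 5) (nat_lit 3) (nat_lit 4) (nat_lit 1) (nat_lit 4) (nat_lit 262) (nat_lit 186) (nat_lit 152)) (XT.lf (nat_lit 0) (nat_lit 4436671032816) (nat_lit 152) (nat_lit 628250108633) (nat_lit 0) (nat_lit 4435389082216) (nat_lit 1) (nat_lit 5) (nat_lit 3) (nat_lit 4) (nat_lit 1) (nat_lit 4) (nat_lit 263) (nat_lit 186) (nat_lit 151))))) (XT.nd (nat_lit 312) (nat_lit 0) (nat_lit 0) (XT.nd (nat_lit 156) (nat_lit 0) (nat_lit 0) (XT.nd (nat_lit 78) (nat_lit 0) (nat_lit 0) (XT.lf (nat_lit 0) (nat_lit 5102681362014)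 (nat_lit 152) (nat_lit 721168430542) (nat_lit 0) (nat_lit 5101398146347) (nat_lit 1) (nat_lit 5) (nat_lit 3) (nat_lit 4) (nat_lit 1) (nat_lit 4) (nat_lit 264) (nat_lit 186) (nat_lit 150)) (XT.lf (nat_lit 0) (nat_lit 5868591970396) (nat_lit 152) (nat_lit 828026882859) (nat_lit 0) (nat_lit 5867307654670) (nat_lit 1) (nat_lit 5) (nat_lit 3) (nat_lit 4) (nat_lit 1) (nat_lit 4) (nat_lit 265) (nat_lit 186) (nat_lit 149))) (XT.nd (nat_lit 78) (nat_lit 0) (nat_lit 0) (XT.lf (nat_lit 0) (nat_lit 6749388065516) (nat_lit 152) (nat_lit 950916174434) (nat_lit 0) (nat_lit 6748102793217) (nat_lit 1) (nat_lit 5) (nat_lit 3) (nat_lit 4) (nat_lit 1) (nat_lit 4) (nat_lit 266) (nat_lit 186) (nat_lit 148)) (XT.lf (nat_lit 0) (nat_lit 7762302614453) (nat_lit 152) (nat_lit 1092240660972) (nat_lit 0) (nat_lit 7761016510351) (nat_lit 1) (nat_lit 5) (nat_lit 3) (nat_lit 4) (nat_lit 1) (nat_lit 4) (nat_lit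 267) (nat_lit 186) (nat_lit 147)))) (XT.nd (nat_lit 156) (nat_lit 0) (nat_lit 0) (XT.nd (nat_lit 78) (nat_lit 0) (nat_lit 0) (XT.lf (nat_lit 0) (nat_lit 8927153510555) (nat_lit 152) (nat_lit 1254765386775) (nat_lit 0) (nat_lit 8925866683147) (nat_lit 1) (nat_lit 5) (nat_lit 3) (nat_lit 4) (nat_lit 1) (nat_lit 4) (nat_lit 268) (nat_lit 186) (nat_lit 146)) (XT.lf (nat_lit 0) (nat_lit 10266731314833) (nat_lit 152) (nat_lit 1441670183434) (nat_lit 0) (nat_lit 10265443858463) (nat_lit 1) (nat_lit 5) (nat_lit 3) (nat_lit 4) (nat_lit 1) (nat_lit 4) (nat_lit 269) (nat_lit 186) (nat_lit 145))) (XT.nd (nat_lit 78) (nat_lit 0) (nat_lit 0) (XT.lf (nat_lit 0) (nat_lit 11807245158241) (nat_lit 152) (nat_lit 1656611883928) (nat_lit 0) (nat_lit 11805957154948) (nat_lit 1) (nat_lit 5) (nat_lit 3) (nat_lit 4) (nat_lit 1) (nat_lit 4) (nat_lit 270) (nat_lit 186) (nat_lit 144)) (XT.lf (nat_lit 0) (nat_lit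 13578835529019) (nat_lit 152) (nat_lit 1903795869353) (nat_lit 0) (nat_lit 13577547050140) (nat_lit 1) (nat_lit 5) (nat_lit 3) (nat_lit 4) (nat_lit 1) (nat_lit 4) (nat_lit 271) (nat_lit 186) (nat_lit 143))))))))
noncomputable def xc11 : XT := (XT.nd (nat_lit 29328) (nat_lit 0) (nat_lit 0) (XT.nd (nat_lit 28158) (nat_lit 0) (nat_lit 0) (XT.nd (nat_lit 624) (nat_lit 0) (nat_lit 0) (XT.nd (nat_lit 234) (nat_lit 0) (nat_lit 0) (XT.nd (nat_lit 78) (nat_lit 0) (nat_lit 0) (XT.lf (nat_lit 0) (nat_lit 15616163977899) (nat_lit 152) (nat_lit 2188058348120) (nat_lit 0) (nat_lit 15614875085468) (nat_lit 1) (nat_lit 5) (nat_lit 3) (nat_lit 4) (nat_lit 1) (nat_lit 4) (nat_lit 272) (nat_lit 186) (nat_lit 142)) (XT.nd (nat_lit 78) (nat_lit 0) (nat_lit 0) (XT.lf (nat_lit 0) (nat_lit 17959091278883) (nat_lit 152) (nat_lit 2514960977422) (nat_lit 0) (nat_lit 17957802026839) (nat_lit 1) (nat_lit 5) (nat_lit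 3) (nat_lit 4) (nat_lit 1) (nat_lit 4) (nat_lit 273) (nat_lit 186) (nat_lit 141)) (XT.lf (nat_lit 0) (nat_lit 20653457313944) (nat_lit 152) (nat_lit 2890899678267) (nat_lit 0) (nat_lit 20652167749196) (nat_lit 1) (nat_lit 5) (nat_lit 3) (nat_lit 4) (nat_lit 1) (nat_lit 4) (nat_lit 274) (nat_lit 186) (nat_lit 140)))) (XT.nd (nat_lit 156) (nat_lit 0) (nat_lit 0) (XT.nd (nat_lit 78) (nat_lit 0) (nat_lit 0) (XT.lf (nat_lit 0) (nat_lit 23751977940291) (nat_lit 152) (nat_lit 3323229773063) (nat_lit 0) (nat_lit 23750688103625) (nat_lit 1) (nat_lit 5) (nat_lit 3) (nat_lit 4) (nat_lit 1) (nat_lit 4) (nat_lit 275) (nat_lit 186) (nat_lit 139)) (XT.lf (nat_lit 0) (nat_lit 27315276387571) (nat_lit 152) (nat_lit 3820409894100) (nat_lit 0) (nat_lit 27313986314454) (nat_lit 1) (nat_lit 5) (nat_lit 3) (nat_lit 4) (nat_lit 1) (nat_lit 4) (nat_lit 276) (nat_lit 186) (nat_lit 138))) (XT.nd (nat_lit 156)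 (nat_lit 0) (nat_lit 0) (XT.lf (nat_lit 0) (nat_lit 31413069364533) (nat_lit 152) (nat_lit 4392167478528) (nat_lit 0) (nat_lit 31411779085808) (nat_lit 1) (nat_lit 5) (nat_lit 3) (nat_lit 4) (nat_lit 1) (nat_lit 4) (nat_lit 277) (nat_lit 186) (nat_lit 137)) (XT.lf (nat_lit 0) (nat_lit 41544861876706) (nat_lit 152) (nat_lit 5805839275084) (nat_lit 0) (nat_lit 41543571263721) (nat_lit 1) (nat_lit 5) (nat_lit 3) (nat_lit 4) (nat_lit 1) (nat_lit 4) (nat_lit 279) (nat_lit 186) (nat_lit 135))))) (XT.nd (nat_lit 27222) (nat_lit 0) (nat_lit 0) (XT.nd (nat_lit 27066) (nat_lit 0) (nat_lit 0) (XT.nd (nat_lit 78) (nat_lit 0) (nat_lit 0) (XT.lf (nat_lit 0) (nat_lit 47777092134980) (nat_lit 152) (nat_lit 6675412283233) (nat_lit 0) (nat_lit 47775801386804) (nat_lit 1) (nat_lit 5) (nat_lit 3) (nat_lit 4) (nat_lit 1) (nat_lit 4) (nat_lit 280) (nat_lit 186) (nat_lit 134)) (XT.lf (nat_lit 0) (nat_lit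 54944156796257) (nat_lit 152) (nat_lit 7675421497169) (nat_lit 0) (nat_lit 54942865930523) (nat_lit 1) (nat_lit 5) (nat_lit 3) (nat_lit 4) (nat_lit 1) (nat_lit 4) (nat_lit 281) (nat_lit 186) (nat_lit 133))) (XT.nd (nat_lit 78) (nat_lit 0) (nat_lit 0) (XT.lf (nat_lit 0) (nat_lit 8029278565) (nat_lit 152) (nat_lit 11732539961) (nat_lit 0) (nat_lit 8029278565) (nat_lit 1) (nat_lit 5) (nat_lit 3) (nat_lit 4) (nat_lit 1) (nat_lit 4) (nat_lit 226) (nat_lit 187) (nat_lit 187)) (XT.lf (nat_lit 0) (nat_lit 20533686780) (nat_lit 152) (nat_lit 22691768128) (nat_lit 0) (nat_lit 20339939363) (nat_lit 1) (nat_lit 5) (nat_lit 3) (nat_lit 4) (nat_lit 1) (nat_lit 4) (nat_lit 227) (nat_lit 187) (nat_lit 186)))) (XT.nd (nat_lit 156) (nat_lit 0) (nat_lit 0) (XT.nd (nat_lit 78) (nat_lit 0) (nat_lit 0) (XT.lf (nat_lit 0) (nat_lit 25485552892) (nat_lit 152) (nat_lit 22167285992) (nat_lit 0) (nat_lit 25123329459)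 (nat_lit 1) (nat_lit 5) (nat_lit 3) (nat_lit 4) (nat_lit 1) (nat_lit 4) (nat_lit 228) (nat_lit 187) (nat_lit 185)) (XT.lf (nat_lit 0) (nat_lit 31011039801) (nat_lit 152) (nat_lit 21881371908) (nat_lit 0) (nat_lit 30502315485) (nat_lit 1) (nat_lit 5) (nat_lit 3) (nat_lit 4) (nat_lit 1) (nat_lit 4) (nat_lit 229) (nat_lit 187) (nat_lit 184))) (XT.nd (nat_lit 78) (nat_lit 0) (nat_lit 0) (XT.lf (nat_lit 0) (nat_lit 37218254860) (nat_lit 152) (nat_lit 21828431905) (nat_lit 0) (nat_lit 36582138473) (nat_lit 1) (nat_lit 5) (nat_lit 3) (nat_lit 4) (nat_lit 1) (nat_lit 4) (nat_lit 230) (nat_lit 187) (nat_lit 183)) (XT.lf (nat_lit 0) (nat_lit 44228643582) (nat_lit 152) (nat_lit 22007430200) (nat_lit 0) (nat_lit 43481751480) (nat_lit 1) (nat_lit 5) (nat_lit 3) (nat_lit 4) (nat_lit 1) (nat_lit 4) (nat_lit 231) (nat_lit 187) (nat_lit 182)))))) (XT.nd (nat_lit 546) (nat_lit 0) (nat_lit 0) (XT.nd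 (nat_lit 234) (nat_lit 0) (nat_lit 0) (XT.nd (nat_lit 78) (nat_lit 0) (nat_lit 0) (XT.lf (nat_lit 0) (nat_lit 52179365746) (nat_lit 152) (nat_lit 22421868933) (nat_lit 0) (nat_lit 51336146935) (nat_lit 1) (nat_lit 5) (nat_lit 3) (nat_lit 4) (nat_lit 1) (nat_lit 4) (nat_lit 232) (nat_lit 187) (nat_lit 181)) (XT.nd (nat_lit 78) (nat_lit 0) (nat_lit 0) (XT.lf (nat_lit 0) (nat_lit 61225978959) (nat_lit 152) (nat_lit 23079856690) (nat_lit 0) (nat_lit 60298997792) (nat_lit 1) (nat_lit 5) (nat_lit 3) (nat_lit 4) (nat_lit 1) (nat_lit 4) (nat_lit 233) (nat_lit 187) (nat_lit 180)) (XT.lf (nat_lit 0) (nat_lit 71545482175) (nat_lit 152) (nat_lit 23994267142) (nat_lit 0) (nat_lit 70545664178) (nat_lit 1) (nat_lit 5) (nat_lit 3) (nat_lit 4) (nat_lit 1) (nat_lit 4) (nat_lit 234) (nat_lit 187) (nat_lit 179)))) (XT.nd (nat_lit 156) (nat_lit 0) (nat_lit 0) (XT.nd (nat_lit 78) (nat_lit 0) (nat_lit 0)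 (XT.lf (nat_lit 0) (nat_lit 83339778719) (nat_lit 152) (nat_lit 25182990929) (nat_lit 0) (nat_lit 82276624347) (nat_lit 1) (nat_lit 5) (nat_lit 3) (nat_lit 4) (nat_lit 1) (nat_lit 4) (nat_lit 235) (nat_lit 187) (nat_lit 178)) (XT.lf (nat_lit 0) (nat_lit 96839626566) (nat_lit 152) (nat_lit 26669285692) (nat_lit 0) (nat_lit 95721397086) (nat_lit 1) (nat_lit 5) (nat_lit 3) (nat_lit 4) (nat_lit 1) (nat_lit 4) (nat_lit 236) (nat_lit 187) (nat_lit 177))) (XT.nd (nat_lit 78) (nat_lit 0) (nat_lit 0) (XT.lf (nat_lit 0) (nat_lit 112309153174) (nat_lit 152) (nat_lit 28482231109) (nat_lit 0) (nat_lit 111143032295) (nat_lit 1) (nat_lit 5) (nat_lit 3) (nat_lit 4) (nat_lit 1) (nat_lit 4) (nat_lit 237) (nat_lit 187) (nat_lit 176)) (XT.lf (nat_lit 0) (nat_lit 130051023194) (nat_lit 152) (nat_lit 30657297852) (nat_lit 0) (nat_lit 128843257621) (nat_lit 1) (nat_lit 5) (nat_lit 3) (nat_lit 4) (nat_lit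 1) (nat_lit 4) (nat_lit 238) (nat_lit 187) (nat_lit 175))))) (XT.nd (nat_lit 312) (nat_lit 0) (nat_lit 0) (XT.nd (nat_lit 156) (nat_lit 0) (nat_lit 0) (XT.nd (nat_lit 78) (nat_lit 0) (nat_lit 0) (XT.lf (nat_lit 0) (nat_lit 150412360169) (nat_lit 152) (nat_lit 33237041574) (nat_lit 0) (nat_lit 149168381819) (nat_lit 1) (nat_lit 5) (nat_lit 3) (nat_lit 4) (nat_lit 1) (nat_lit 4) (nat_lit 239) (nat_lit 187) (nat_lit 174)) (XT.lf (nat_lit 0) (nat_lit 173791538085) (nat_lit 152) (nat_lit 36271935523) (nat_lit 0) (nat_lit 172516070363) (nat_lit 1) (nat_lit 5) (nat_lit 3) (nat_lit 4) (nat_lit 1) (nat_lit 4) (nat_lit 240) (nat_lit 187) (nat_lit 173))) (XT.nd (nat_lit 78) (nat_lit 0) (nat_lit 0) (XT.lf (nat_lit 0) (nat_lit 200645975640) (nat_lit 152) (nat_lit 39821358059) (nat_lit 0) (nat_lit 199343125855) (nat_lit 1) (nat_lit 5) (nat_lit 3) (nat_lit 4) (nat_lit 1) (nat_lit 4) (nat_lit 241)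 (nat_lit 187) (nat_lit 172)) (XT.lf (nat_lit 0) (nat_lit 231501085742) (nat_lit 152) (nat_lit 43954754404) (nat_lit 0) (nat_lit 230174425468) (nat_lit 1) (nat_lit 5) (nat_lit 3) (nat_lit 4) (nat_lit 1) (nat_lit 4) (nat_lit 242) (nat_lit 187) (nat_lit 171)))) (XT.nd (nat_lit 156) (nat_lit 0) (nat_lit 0) (XT.nd (nat_lit 78) (nat_lit 0) (nat_lit 0) (XT.lf (nat_lit 0) (nat_lit 266960555327) (nat_lit 152) (nat_lit 48752995357) (nat_lit 0) (nat_lit 265613190280) (nat_lit 1) (nat_lit 5) (nat_lit 3) (nat_lit 4) (nat_lit 1) (nat_lit 4) (nat_lit 243) (nat_lit 187) (nat_lit 170)) (XT.lf (nat_lit 0) (nat_lit 307718156628) (nat_lit 152) (nat_lit 54309959546) (nat_lit 0) (nat_lit 306352787430) (nat_lit 1) (nat_lit 5) (nat_lit 3) (nat_lit 4) (nat_lit 1) (nat_lit 4) (nat_lit 244) (nat_lit 187) (nat_lit 169))) (XT.nd (nat_lit 78) (nat_lit 0) (nat_lit 0) (XT.lf (nat_lit 0) (nat_lit 354571320974) (nat_lit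 152) (nat_lit 60734370181) (nat_lit 0) (nat_lit 353190295993) (nat_lit 1) (nat_lit 5) (nat_lit 3) (nat_lit 4) (nat_lit 1) (nat_lit 4) (nat_lit 245) (nat_lit 187) (nat_lit 168)) (XT.lf (nat_lit 0) (nat_lit 408436740710) (nat_lit 152) (nat_lit 68151922256) (nat_lit 0) (nat_lit 407042102005) (nat_lit 1) (nat_lit 5) (nat_lit 3) (nat_lit 4) (nat_lit 1) (nat_lit 4) (nat_lit 246) (nat_lit 187) (nat_lit 167))))))) (XT.nd (nat_lit 1170) (nat_lit 0) (nat_lit 0) (XT.nd (nat_lit 546) (nat_lit 0) (nat_lit 0) (XT.nd (nat_lit 234) (nat_lit 0) (nat_lit 0) (XT.nd (nat_lit 78) (nat_lit 0) (nat_lit 0) (XT.lf (nat_lit 0) (nat_lit 470368304484) (nat_lit 152) (nat_lit 76707741787) (nat_lit 0) (nat_lit 468961827758) (nat_lit 1) (nat_lit 5) (nat_lit 3) (nat_lit 4) (nat_lit 1) (nat_lit 4) (nat_lit 247) (nat_lit 187) (nat_lit 166)) (XT.nd (nat_lit 78) (nat_lit 0) (nat_lit 0) (XT.lf (nat_lit 0) (nat_lit 541577716804)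 (nat_lit 152) (nat_lit 86569225245) (nat_lit 0) (nat_lit 540160946147) (nat_lit 1) (nat_lit 5) (nat_lit 3) (nat_lit 4) (nat_lit 1) (nat_lit 4) (nat_lit 248) (nat_lit 187) (nat_lit 165)) (XT.lf (nat_lit 0) (nat_lit 623458205304) (nat_lit 152) (nat_lit 97929314696) (nat_lit 0) (nat_lit 622032483401) (nat_lit 1) (nat_lit 5) (nat_lit 3) (nat_lit 4) (nat_lit 1) (nat_lit 4) (nat_lit 249) (nat_lit 187) (nat_lit 164)))) (XT.nd (nat_lit 156) (nat_lit 0) (nat_lit 0) (XT.nd (nat_lit 78) (nat_lit 0) (nat_lit 0) (XT.lf (nat_lit 0) (nat_lit 717611779539) (nat_lit 152) (nat_lit 111010272761) (nat_lit 0) (nat_lit 716178273945) (nat_lit 1) (nat_lit 5) (nat_lit 3) (nat_lit 4) (nat_lit 1) (nat_lit 4) (nat_lit 250) (nat_lit 187) (nat_lit 163)) (XT.lf (nat_lit 0) (nat_lit 825880574659) (nat_lit 152) (nat_lit 126068031228) (nat_lit 0) (nat_lit 824440300638) (nat_lit 1) (nat_lit 5) (nat_lit 3) (nat_lit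 4) (nat_lit 1) (nat_lit 4) (nat_lit 251) (nat_lit 187) (nat_lit 162))) (XT.nd (nat_lit 78) (nat_lit 0) (nat_lit 0) (XT.lf (nat_lit 0) (nat_lit 950382893176) (nat_lit 152) (nat_lit 143397198415) (nat_lit 0) (nat_lit 948936733567) (nat_lit 1) (nat_lit 5) (nat_lit 3) (nat_lit 4) (nat_lit 1) (nat_lit 4) (nat_lit 252) (nat_lit 187) (nat_lit 161)) (XT.lf (nat_lit 0) (nat_lit 1093554650019) (nat_lit 152) (nat_lit 163336823244) (nat_lit 0) (nat_lit 1092103372506) (nat_lit 1) (nat_lit 5) (nat_lit 3) (nat_lit 4) (nat_lit 1) (nat_lit 4) (nat_lit 253) (nat_lit 187) (nat_lit 160))))) (XT.nd (nat_lit 312) (nat_lit 0) (nat_lit 0) (XT.nd (nat_lit 156) (nat_lit 0) (nat_lit 0) (XT.nd (nat_lit 78) (nat_lit 0) (nat_lit 0) (XT.lf (nat_lit 0) (nat_lit 1258197031733) (nat_lit 152) (nat_lit 186277028811) (nat_lit 0) (nat_lit 1256741303870) (nat_lit 1) (nat_lit 5) (nat_lit 3) (nat_lit 4) (nat_lit 1) (nat_lit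 4) (nat_lit 254) (nat_lit 187) (nat_lit 159)) (XT.lf (nat_lit 0) (nat_lit 1447531302310) (nat_lit 152) (nat_lit 212666645224) (nat_lit 0) (nat_lit 1446071704576) (nat_lit 1) (nat_lit 5) (nat_lit 3) (nat_lit 4) (nat_lit 1) (nat_lit 4) (nat_lit 255) (nat_lit 187) (nat_lit 158))) (XT.nd (nat_lit 78) (nat_lit 0) (nat_lit 0) (XT.lf (nat_lit 0) (nat_lit 1665261827912) (nat_lit 152) (nat_lit 243021991065) (nat_lit 0) (nat_lit 1663798865074) (nat_lit 1) (nat_lit 5) (nat_lit 3) (nat_lit 4) (nat_lit 1) (nat_lit 4) (nat_lit 256) (nat_lit 187) (nat_lit 157)) (XT.lf (nat_lit 0) (nat_lit 1915648553606) (nat_lit 152) (nat_lit 277936975275) (nat_lit 0) (nat_lit 1914182664590) (nat_lit 1) (nat_lit 5) (nat_lit 3) (nat_lit 4) (nat_lit 1) (nat_lit 4) (nat_lit 257) (nat_lit 187) (nat_lit 156)))) (XT.nd (nat_lit 156) (nat_lit 0) (nat_lit 0) (XT.nd (nat_lit 78) (nat_lit 0) (nat_lit 0) (XT.lf (nat_lit 0)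 (nat_lit 2203590350112) (nat_lit 152) (nat_lit 318094717110) (nat_lit 0) (nat_lit 2202121916594) (nat_lit 1) (nat_lit 5) (nat_lit 3) (nat_lit 4) (nat_lit 1) (nat_lit 4) (nat_lit 258) (nat_lit 187) (nat_lit 155)) (XT.lf (nat_lit 0) (nat_lit 2534720861274) (nat_lit 152) (nat_lit 364280911518) (nat_lit 0) (nat_lit 2533250215145) (nat_lit 1) (nat_lit 5) (nat_lit 3) (nat_lit 4) (nat_lit 1) (nat_lit 4) (nat_lit 259) (nat_lit 187) (nat_lit 154))) (XT.nd (nat_lit 78) (nat_lit 0) (nat_lit 0) (XT.lf (nat_lit 0) (nat_lit 2915518727529) (nat_lit 152) (nat_lit 417399201435) (nat_lit 0) (nat_lit 2914046157390) (nat_lit 1) (nat_lit 5) (nat_lit 3) (nat_lit 4) (nat_lit 1) (nat_lit 4) (nat_lit 260) (nat_lit 187) (nat_lit 153)) (XT.lf (nat_lit 0) (nat_lit 3353434341911) (nat_lit 152) (nat_lit 478488857749) (nat_lit 0) (nat_lit 3351960098721) (nat_lit 1) (nat_lit 5) (nat_lit 3) (nat_lit 4) (nat_lit 1)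 (nat_lit 4) (nat_lit 261) (nat_lit 187) (nat_lit 152)))))) (XT.nd (nat_lit 546) (nat_lit 0) (nat_lit 0) (XT.nd (nat_lit 234) (nat_lit 0) (nat_lit 0) (XT.nd (nat_lit 78) (nat_lit 0) (nat_lit 0) (XT.lf (nat_lit 0) (nat_lit 3857035618615) (nat_lit 152) (nat_lit 548745112867) (nat_lit 0) (nat_lit 3855559920597) (nat_lit 1) (nat_lit 5) (nat_lit 3) (nat_lit 4) (nat_lit 1) (nat_lit 4) (nat_lit 262) (nat_lit 187) (nat_lit 151)) (XT.nd (nat_lit 78) (nat_lit 0) (nat_lit 0) (XT.lf (nat_lit 0) (nat_lit 4436175626099) (nat_lit 152) (nat_lit 629542545693) (nat_lit 0) (nat_lit 4434698663013) (nat_lit 1) (nat_lit 5) (nat_lit 3) (nat_lit 4) (nat_lit 1) (nat_lit 4) (nat_lit 263) (nat_lit 187) (nat_lit 150)) (XT.lf (nat_lit 0) (nat_lit 5102185364508) (nat_lit 152) (nat_lit 722461975566) (nat_lit 0) (nat_lit 5100707301364) (nat_lit 1) (nat_lit 5) (nat_lit 3) (nat_lit 4) (nat_lit 1) (nat_lit 4) (nat_lit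 264) (nat_lit 187) (nat_lit 149)))) (XT.nd (nat_lit 156) (nat_lit 0) (nat_lit 0) (XT.nd (nat_lit 78) (nat_lit 0) (nat_lit 0) (XT.lf (nat_lit 0) (nat_lit 5868095459160) (nat_lit 152) (nat_lit 829321391329) (nat_lit 0) (nat_lit 5866616439443) (nat_lit 1) (nat_lit 5) (nat_lit 3) (nat_lit 4) (nat_lit 1) (nat_lit 4) (nat_lit 265) (nat_lit 187) (nat_lit 148)) (XT.lf (nat_lit 0) (nat_lit 6748891107558) (nat_lit 152) (nat_lit 952211520684) (nat_lit 0) (nat_lit 6747411256039) (nat_lit 1) (nat_lit 5) (nat_lit 3) (nat_lit 4) (nat_lit 1) (nat_lit 4) (nat_lit 266) (nat_lit 187) (nat_lit 147))) (XT.nd (nat_lit 78) (nat_lit 0) (nat_lit 0) (XT.lf (nat_lit 0) (nat_lit 7761805268042) (nat_lit 152) (nat_lit 1093536735727) (nat_lit 0) (nat_lit 7760324693216) (nat_lit 1) (nat_lit 5) (nat_lit 3) (nat_lit 4) (nat_lit 1) (nat_lit 4) (nat_lit 267) (nat_lit 187) (nat_lit 146)) (XT.lf (nat_lit 0) (nat_lit 8926655826358)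 (nat_lit 152) (nat_lit 1256062095011) (nat_lit 0) (nat_lit 8925174622571) (nat_lit 1) (nat_lit 5) (nat_lit 3) (nat_lit 4) (nat_lit 1) (nat_lit 4) (nat_lit 268) (nat_lit 187) (nat_lit 145))))) (XT.nd (nat_lit 312) (nat_lit 0) (nat_lit 0) (XT.nd (nat_lit 156) (nat_lit 0) (nat_lit 0) (XT.nd (nat_lit 78) (nat_lit 0) (nat_lit 0) (XT.lf (nat_lit 0) (nat_lit 10266233336910) (nat_lit 152) (nat_lit 1442967442525) (nat_lit 0) (nat_lit 10264751586199) (nat_lit 1) (nat_lit 5) (nat_lit 3) (nat_lit 4) (nat_lit 1) (nat_lit 4) (nat_lit 269) (nat_lit 187) (nat_lit 144)) (XT.lf (nat_lit 0) (nat_lit 11806746924903) (nat_lit 152) (nat_lit 1657909622022) (nat_lit 0) (nat_lit 11805264698606) (nat_lit 1) (nat_lit 5) (nat_lit 3) (nat_lit 4) (nat_lit 1) (nat_lit 4) (nat_lit 270) (nat_lit 187) (nat_lit 143))) (XT.nd (nat_lit 78) (nat_lit 0) (nat_lit 0) (XT.lf (nat_lit 0) (nat_lit 13578337073582) (nat_lit 152)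 (nat_lit 1905094023972) (nat_lit 0) (nat_lit 13576854433732) (nat_lit 1) (nat_lit 5) (nat_lit 3) (nat_lit 4) (nat_lit 1) (nat_lit 4) (nat_lit 271) (nat_lit 187) (nat_lit 142)) (XT.lf (nat_lit 0) (nat_lit 15615665329332) (nat_lit 152) (nat_lit 2189356864934) (nat_lit 0) (nat_lit 15614182329871) (nat_lit 1) (nat_lit 5) (nat_lit 3) (nat_lit 4) (nat_lit 1) (nat_lit 4) (nat_lit 272) (nat_lit 187) (nat_lit 141)))) (XT.nd (nat_lit 156) (nat_lit 0) (nat_lit 0) (XT.nd (nat_lit 78) (nat_lit 0) (nat_lit 0) (XT.lf (nat_lit 0) (nat_lit 17958592462376) (nat_lit 152) (nat_lit 2516259809189) (nat_lit 0) (nat_lit 17957109150210) (nat_lit 1) (nat_lit 5) (nat_lit 3) (nat_lit 4) (nat_lit 1) (nat_lit 4) (nat_lit 273) (nat_lit 187) (nat_lit 140)) (XT.lf (nat_lit 0) (nat_lit 20652958351403) (nat_lit 152) (nat_lit 2892198783906) (nat_lit 0) (nat_lit 20651474767320) (nat_lit 1) (nat_lit 5) (nat_lit 3) (nat_lit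 4) (nat_lit 1) (nat_lit 4) (nat_lit 274) (nat_lit 187) (nat_lit 139))) (XT.nd (nat_lit 78) (nat_lit 0) (nat_lit 0) (XT.lf (nat_lit 0) (nat_lit 23751478850765) (nat_lit 152) (nat_lit 3324529116851) (nat_lit 0) (nat_lit 23749995030231) (nat_lit 1) (nat_lit 5) (nat_lit 3) (nat_lit 4) (nat_lit 1) (nat_lit 4) (nat_lit 275) (nat_lit 187) (nat_lit 138)) (XT.lf (nat_lit 0) (nat_lit 27314777187621) (nat_lit 152) (nat_lit 3821709444974) (nat_lit 0) (nat_lit 27313293161479) (nat_lit 1) (nat_lit 5) (nat_lit 3) (nat_lit 4) (nat_lit 1) (nat_lit 4) (nat_lit 276) (nat_lit 187) (nat_lit 137))))))))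
noncomputable def xc12 : XT := (XT.nd (nat_lit 2262) (nat_lit 0) (nat_lit 0) (XT.nd (nat_lit 1092) (nat_lit 0) (nat_lit 0) (XT.nd (nat_lit 546) (nat_lit 0) (nat_lit 0) (XT.nd (nat_lit 234) (nat_lit 0) (nat_lit 0) (XT.nd (nat_lit 78) (nat_lit 0) (nat_lit 0) (XT.lf (nat_lit 0) (nat_lit 4269181997) (nat_lit 152) (nat_lit 12799733148) (nat_lit 0) (nat_lit 4269181997) (nat_lit 1) (nat_lit 5) (nat_lit 3) (nat_lit 4) (nat_lit 1) (nat_lit 4) (nat_lit 224) (nat_lit 188) (nat_lit 188)) (XT.nd (nat_lit 78) (nat_lit 0) (nat_lit 0) (XT.lf (nat_lit 0) (nat_lit 12195416586) (nat_lit 152) (nat_lit 24502351391) (nat_lit 0) (nat_lit 11972607056) (nat_lit 1) (nat_lit 5) (nat_lit 3) (nat_lit 4) (nat_lit 1) (nat_lit 4) (nat_lit 225) (nat_lit 188) (nat_lit 187)) (XT.lf (nat_lit 0) (nat_lit 16177314132) (nat_lit 152) (nat_lit 23660219641) (nat_lit 0) (nat_lit 15760757185) (nat_lit 1) (nat_lit 5) (nat_lit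 3) (nat_lit 4) (nat_lit 1) (nat_lit 4) (nat_lit 226) (nat_lit 188) (nat_lit 186)))) (XT.nd (nat_lit 156) (nat_lit 0) (nat_lit 0) (XT.nd (nat_lit 78) (nat_lit 0) (nat_lit 0) (XT.lf (nat_lit 0) (nat_lit 20561963324) (nat_lit 152) (nat_lit 23056594556) (nat_lit 0) (nat_lit 19976930361) (nat_lit 1) (nat_lit 5) (nat_lit 3) (nat_lit 4) (nat_lit 1) (nat_lit 4) (nat_lit 227) (nat_lit 188) (nat_lit 185)) (XT.lf (nat_lit 0) (nat_lit 25435150775) (nat_lit 152) (nat_lit 22679666082) (nat_lit 0) (nat_lit 24703616929) (nat_lit 1) (nat_lit 5) (nat_lit 3) (nat_lit 4) (nat_lit 1) (nat_lit 4) (nat_lit 228) (nat_lit 188) (nat_lit 184))) (XT.nd (nat_lit 78) (nat_lit 0) (nat_lit 0) (XT.lf (nat_lit 0) (nat_lit 30892221458) (nat_lit 152) (nat_lit 22522059530) (nat_lit 0) (nat_lit 30033295540) (nat_lit 1) (nat_lit 5) (nat_lit 3) (nat_lit 4) (nat_lit 1) (nat_lit 4) (nat_lit 229) (nat_lit 188) (nat_lit 183))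 (XT.lf (nat_lit 0) (nat_lit 37039944147) (nat_lit 152) (nat_lit 22580691293) (nat_lit 0) (nat_lit 36070242515) (nat_lit 1) (nat_lit 5) (nat_lit 3) (nat_lit 4) (nat_lit 1) (nat_lit 4) (nat_lit 230) (nat_lit 188) (nat_lit 182))))) (XT.nd (nat_lit 234) (nat_lit 0) (nat_lit 0) (XT.nd (nat_lit 78) (nat_lit 0) (nat_lit 0) (XT.lf (nat_lit 0) (nat_lit 43998600373) (nat_lit 152) (nat_lit 22856708516) (nat_lit 0) (nat_lit 42932572032) (nat_lit 1) (nat_lit 5) (nat_lit 3) (nat_lit 4) (nat_lit 1) (nat_lit 4) (nat_lit 231) (nat_lit 188) (nat_lit 181)) (XT.nd (nat_lit 78) (nat_lit 0) (nat_lit 0) (XT.lf (nat_lit 0) (nat_lit 51904337758) (nat_lit 152) (nat_lit 23355511534) (nat_lit 0) (nat_lit 50754547061) (nat_lit 1) (nat_lit 5) (nat_lit 3) (nat_lit 4) (nat_lit 1) (nat_lit 4) (nat_lit 232) (nat_lit 188) (nat_lit 180)) (XT.lf (nat_lit 0) (nat_lit 60911833771) (nat_lit 152) (nat_lit 24086859538) (nat_lit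 0) (nat_lit 59689206244) (nat_lit 1) (nat_lit 5) (nat_lit 3) (nat_lit 4) (nat_lit 1) (nat_lit 4) (nat_lit 233) (nat_lit 188) (nat_lit 179)))) (XT.nd (nat_lit 156) (nat_lit 0) (nat_lit 0) (XT.nd (nat_lit 78) (nat_lit 0) (nat_lit 0) (XT.lf (nat_lit 0) (nat_lit 71197322032) (nat_lit 152) (nat_lit 25065061510) (nat_lit 0) (nat_lit 69911358130) (nat_lit 1) (nat_lit 5) (nat_lit 3) (nat_lit 4) (nat_lit 1) (nat_lit 4) (nat_lit 234) (nat_lit 188) (nat_lit 178)) (XT.lf (nat_lit 0) (nat_lit 82962040353) (nat_lit 152) (nat_lit 26309256185) (nat_lit 0) (nat_lit 81621001343) (nat_lit 1) (nat_lit 5) (nat_lit 3) (nat_lit 4) (nat_lit 1) (nat_lit 4) (nat_lit 235) (nat_lit 188) (nat_lit 177))) (XT.nd (nat_lit 78) (nat_lit 0) (nat_lit 0) (XT.lf (nat_lit 0) (nat_lit 96436168006) (nat_lit 152) (nat_lit 27843786501) (nat_lit 0) (nat_lit 95047237598) (nat_lit 1) (nat_lit 5) (nat_lit 3) (nat_lit 4) (nat_lit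 1) (nat_lit 4) (nat_lit 236) (nat_lit 188) (nat_lit 176)) (XT.lf (nat_lit 0) (nat_lit 111883329229) (nat_lit 152) (nat_lit 29698675877) (nat_lit 0) (nat_lit 110452754126) (nat_lit 1) (nat_lit 5) (nat_lit 3) (nat_lit 4) (nat_lit 1) (nat_lit 4) (nat_lit 237) (nat_lit 188) (nat_lit 175)))))) (XT.nd (nat_lit 546) (nat_lit 0) (nat_lit 0) (XT.nd (nat_lit 234) (nat_lit 0) (nat_lit 0) (XT.nd (nat_lit 78) (nat_lit 0) (nat_lit 0) (XT.lf (nat_lit 0) (nat_lit 129605751087) (nat_lit 152) (nat_lit 31910215629) (nat_lit 0) (nat_lit 128138963207) (nat_lit 1) (nat_lit 5) (nat_lit 3) (nat_lit 4) (nat_lit 1) (nat_lit 4) (nat_lit 238) (nat_lit 188) (nat_lit 174)) (XT.nd (nat_lit 78) (nat_lit 0) (nat_lit 0) (XT.lf (nat_lit 0) (nat_lit 149950176618) (nat_lit 152) (nat_lit 34521675011) (nat_lit 0) (nat_lit 148451899366) (nat_lit 1) (nat_lit 5) (nat_lit 3) (nat_lit 4) (nat_lit 1) (nat_lit 4) (nat_lit 239)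 (nat_lit 188) (nat_lit 173)) (XT.lf (nat_lit 0) (nat_lit 173314648930) (nat_lit 152) (nat_lit 37584147795) (nat_lit 0) (nat_lit 171788989615) (nat_lit 1) (nat_lit 5) (nat_lit 3) (nat_lit 4) (nat_lit 1) (nat_lit 4) (nat_lit 240) (nat_lit 188) (nat_lit 172)))) (XT.nd (nat_lit 156) (nat_lit 0) (nat_lit 0) (XT.nd (nat_lit 78) (nat_lit 0) (nat_lit 0) (XT.lf (nat_lit 0) (nat_lit 200156299003) (nat_lit 152) (nat_lit 41157551925) (nat_lit 0) (nat_lit 198606829199) (nat_lit 1) (nat_lit 5) (nat_lit 3) (nat_lit 4) (nat_lit 1) (nat_lit 4) (nat_lit 241) (nat_lit 188) (nat_lit 171)) (XT.lf (nat_lit 0) (nat_lit 231000289555) (nat_lit 152) (nat_lit 45311801831) (nat_lit 0) (nat_lit 229430114978) (nat_lit 1) (nat_lit 5) (nat_lit 3) (nat_lit 4) (nat_lit 1) (nat_lit 4) (nat_lit 242) (nat_lit 188) (nat_lit 170))) (XT.nd (nat_lit 78) (nat_lit 0) (nat_lit 0) (XT.lf (nat_lit 0) (nat_lit 266450089967) (nat_lit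 152) (nat_lit 50128176316) (nat_lit 0) (nat_lit 264861911239) (nat_lit 1) (nat_lit 5) (nat_lit 3) (nat_lit 4) (nat_lit 1) (nat_lit 4) (nat_lit 243) (nat_lit 188) (nat_lit 169)) (XT.lf (nat_lit 0) (nat_lit 307199283291) (nat_lit 152) (nat_lit 55700908792) (nat_lit 0) (nat_lit 305595448780) (nat_lit 1) (nat_lit 5) (nat_lit 3) (nat_lit 4) (nat_lit 1) (nat_lit 4) (nat_lit 244) (nat_lit 188) (nat_lit 168))))) (XT.nd (nat_lit 312) (nat_lit 0) (nat_lit 0) (XT.nd (nat_lit 156) (nat_lit 0) (nat_lit 0) (XT.nd (nat_lit 78) (nat_lit 0) (nat_lit 0) (XT.lf (nat_lit 0) (nat_lit 354045136353) (nat_lit 152) (nat_lit 62139030983) (nat_lit 0) (nat_lit 352427688117) (nat_lit 1) (nat_lit 5) (nat_lit 3) (nat_lit 4) (nat_lit 1) (nat_lit 4) (nat_lit 245) (nat_lit 188) (nat_lit 167)) (XT.lf (nat_lit 0) (nat_lit 407904198450) (nat_lit 152) (nat_lit 69568506148) (nat_lit 0) (nat_lit 406274912194) (nat_lit 1)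 (nat_lit 5) (nat_lit 3) (nat_lit 4) (nat_lit 1) (nat_lit 4) (nat_lit 246) (nat_lit 188) (nat_lit 166))) (XT.nd (nat_lit 78) (nat_lit 0) (nat_lit 0) (XT.lf (nat_lit 0) (nat_lit 469830233843) (nat_lit 152) (nat_lit 78134693585) (nat_lit 0) (nat_lit 468190653655) (nat_lit 1) (nat_lit 5) (nat_lit 3) (nat_lit 4) (nat_lit 1) (nat_lit 4) (nat_lit 247) (nat_lit 188) (nat_lit 165)) (XT.lf (nat_lit 0) (nat_lit 541034838876) (nat_lit 152) (nat_lit 88005192612) (nat_lit 0) (nat_lit 539386307443) (nat_lit 1) (nat_lit 5) (nat_lit 3) (nat_lit 4) (nat_lit 1) (nat_lit 4) (nat_lit 248) (nat_lit 188) (nat_lit 164)))) (XT.nd (nat_lit 156) (nat_lit 0) (nat_lit 0) (XT.nd (nat_lit 78) (nat_lit 0) (nat_lit 0) (XT.lf (nat_lit 0) (nat_lit 622911147124) (nat_lit 152) (nat_lit 99373121690) (nat_lit 0) (nat_lit 621254832000) (nat_lit 1) (nat_lit 5) (nat_lit 3) (nat_lit 4) (nat_lit 1) (nat_lit 4) (nat_lit 249)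 (nat_lit 188) (nat_lit 163)) (XT.lf (nat_lit 0) (nat_lit 717061086359) (nat_lit 152) (nat_lit 112460896821) (nat_lit 0) (nat_lit 715398002808) (nat_lit 1) (nat_lit 5) (nat_lit 3) (nat_lit 4) (nat_lit 1) (nat_lit 4) (nat_lit 250) (nat_lit 188) (nat_lit 162))) (XT.nd (nat_lit 78) (nat_lit 0) (nat_lit 0) (XT.lf (nat_lit 0) (nat_lit 825326720609) (nat_lit 152) (nat_lit 127524583171) (nat_lit 0) (nat_lit 823657751469) (nat_lit 1) (nat_lit 5) (nat_lit 3) (nat_lit 4) (nat_lit 1) (nat_lit 4) (nat_lit 251) (nat_lit 188) (nat_lit 161)) (XT.lf (nat_lit 0) (nat_lit 949826290544) (nat_lit 152) (nat_lit 144858905039) (nat_lit 0) (nat_lit 948152203501) (nat_lit 1) (nat_lit 5) (nat_lit 3) (nat_lit 4) (nat_lit 1) (nat_lit 4) (nat_lit 252) (nat_lit 188) (nat_lit 160))))))) (XT.nd (nat_lit 1170) (nat_lit 0) (nat_lit 0) (XT.nd (nat_lit 546) (nat_lit 0) (nat_lit 0) (XT.nd (nat_lit 234) (nat_lit 0) (nat_lit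 0) (XT.nd (nat_lit 78) (nat_lit 0) (nat_lit 0) (XT.lf (nat_lit 0) (nat_lit 1092995657315) (nat_lit 152) (nat_lit 164803012200) (nat_lit 0) (nat_lit 1091317119921) (nat_lit 1) (nat_lit 5) (nat_lit 3) (nat_lit 4) (nat_lit 1) (nat_lit 4) (nat_lit 253) (nat_lit 188) (nat_lit 159)) (XT.nd (nat_lit 78) (nat_lit 0) (nat_lit 0) (XT.lf (nat_lit 0) (nat_lit 1257635960706) (nat_lit 152) (nat_lit 187747115447) (nat_lit 0) (nat_lit 1255953553442) (nat_lit 1) (nat_lit 5) (nat_lit 3) (nat_lit 4) (nat_lit 1) (nat_lit 4) (nat_lit 254) (nat_lit 188) (nat_lit 158)) (XT.lf (nat_lit 0) (nat_lit 1446968424045) (nat_lit 152) (nat_lit 214140121146) (nat_lit 0) (nat_lit 1445282651677) (nat_lit 1) (nat_lit 5) (nat_lit 3) (nat_lit 4) (nat_lit 1) (nat_lit 4) (nat_lit 255) (nat_lit 188) (nat_lit 157)))) (XT.nd (nat_lit 156) (nat_lit 0) (nat_lit 0) (XT.nd (nat_lit 78) (nat_lit 0) (nat_lit 0) (XT.lf (nat_lit 0)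 (nat_lit 1664697378136) (nat_lit 152) (nat_lit 244498414193) (nat_lit 0) (nat_lit 1663008679590) (nat_lit 1) (nat_lit 5) (nat_lit 3) (nat_lit 4) (nat_lit 1) (nat_lit 4) (nat_lit 256) (nat_lit 188) (nat_lit 156)) (XT.lf (nat_lit 0) (nat_lit 1915082737299) (nat_lit 152) (nat_lit 279415961191) (nat_lit 0) (nat_lit 1913391494250) (nat_lit 1) (nat_lit 5) (nat_lit 3) (nat_lit 4) (nat_lit 1) (nat_lit 4) (nat_lit 257) (nat_lit 188) (nat_lit 155))) (XT.nd (nat_lit 78) (nat_lit 0) (nat_lit 0) (XT.lf (nat_lit 0) (nat_lit 2203023345517) (nat_lit 152) (nat_lit 319575931537) (nat_lit 0) (nat_lit 2201329889857) (nat_lit 1) (nat_lit 5) (nat_lit 3) (nat_lit 4) (nat_lit 1) (nat_lit 4) (nat_lit 258) (nat_lit 188) (nat_lit 154)) (XT.lf (nat_lit 0) (nat_lit 2534152823385) (nat_lit 152) (nat_lit 365764063781) (nat_lit 0) (nat_lit 2532457443716) (nat_lit 1) (nat_lit 5) (nat_lit 3) (nat_lit 4) (nat_lit 1)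 (nat_lit 4) (nat_lit 259) (nat_lit 188) (nat_lit 153))))) (XT.nd (nat_lit 312) (nat_lit 0) (nat_lit 0) (XT.nd (nat_lit 156) (nat_lit 0) (nat_lit 0) (XT.nd (nat_lit 78) (nat_lit 0) (nat_lit 0) (XT.lf (nat_lit 0) (nat_lit 2914949791123) (nat_lit 152) (nat_lit 418884038772) (nat_lit 0) (nat_lit 2913252738402) (nat_lit 1) (nat_lit 5) (nat_lit 3) (nat_lit 4) (nat_lit 1) (nat_lit 4) (nat_lit 260) (nat_lit 188) (nat_lit 152)) (XT.lf (nat_lit 0) (nat_lit 3352864624186) (nat_lit 152) (nat_lit 479975160368) (nat_lit 0) (nat_lit 3351166116638) (nat_lit 1) (nat_lit 5) (nat_lit 3) (nat_lit 4) (nat_lit 1) (nat_lit 4) (nat_lit 261) (nat_lit 188) (nat_lit 151))) (XT.nd (nat_lit 78) (nat_lit 0) (nat_lit 0) (XT.lf (nat_lit 0) (nat_lit 3856465221483) (nat_lit 152) (nat_lit 550232689645) (nat_lit 0) (nat_lit 3854765448867) (nat_lit 1) (nat_lit 5) (nat_lit 3) (nat_lit 4) (nat_lit 1) (nat_lit 4) (nat_lit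 262) (nat_lit 188) (nat_lit 150)) (XT.lf (nat_lit 0) (nat_lit 4435604638177) (nat_lit 152) (nat_lit 631031230435) (nat_lit 0) (nat_lit 4433903765503) (nat_lit 1) (nat_lit 5) (nat_lit 3) (nat_lit 4) (nat_lit 1) (nat_lit 4) (nat_lit 263) (nat_lit 188) (nat_lit 149)))) (XT.nd (nat_lit 156) (nat_lit 0) (nat_lit 0) (XT.nd (nat_lit 78) (nat_lit 0) (nat_lit 0) (XT.lf (nat_lit 0) (nat_lit 5101613862857) (nat_lit 152) (nat_lit 723951623754) (nat_lit 0) (nat_lit 5099912033610) (nat_lit 1) (nat_lit 5) (nat_lit 3) (nat_lit 4) (nat_lit 1) (nat_lit 4) (nat_lit 264) (nat_lit 188) (nat_lit 148)) (XT.lf (nat_lit 0) (nat_lit 5867523510787) (nat_lit 152) (nat_lit 830811877298) (nat_lit 0) (nat_lit 5865820849738) (nat_lit 1) (nat_lit 5) (nat_lit 3) (nat_lit 4) (nat_lit 1) (nat_lit 4) (nat_lit 265) (nat_lit 188) (nat_lit 147))) (XT.nd (nat_lit 78) (nat_lit 0) (nat_lit 0) (XT.lf (nat_lit 0) (nat_lit 6748318770732)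 (nat_lit 152) (nat_lit 953702735157) (nat_lit 0) (nat_lit 6746615386377) (nat_lit 1) (nat_lit 5) (nat_lit 3) (nat_lit 4) (nat_lit 1) (nat_lit 4) (nat_lit 266) (nat_lit 188) (nat_lit 146)) (XT.lf (nat_lit 0) (nat_lit 7761232593430) (nat_lit 152) (nat_lit 1095028583681) (nat_lit 0) (nat_lit 7759528580112) (nat_lit 1) (nat_lit 5) (nat_lit 3) (nat_lit 4) (nat_lit 1) (nat_lit 4) (nat_lit 267) (nat_lit 188) (nat_lit 145)))))) (XT.nd (nat_lit 546) (nat_lit 0) (nat_lit 0) (XT.nd (nat_lit 234) (nat_lit 0) (nat_lit 0) (XT.nd (nat_lit 78) (nat_lit 0) (nat_lit 0) (XT.lf (nat_lit 0) (nat_lit 8926082858020) (nat_lit 152) (nat_lit 1257554493820) (nat_lit 0) (nat_lit 8924378297778) (nat_lit 1) (nat_lit 5) (nat_lit 3) (nat_lit 4) (nat_lit 1) (nat_lit 4) (nat_lit 268) (nat_lit 188) (nat_lit 144)) (XT.nd (nat_lit 78) (nat_lit 0) (nat_lit 0) (XT.lf (nat_lit 0) (nat_lit 10265660113157) (nat_lit 152) (nat_lit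 1444460320336) (nat_lit 0) (nat_lit 10263955077330) (nat_lit 1) (nat_lit 5) (nat_lit 3) (nat_lit 4) (nat_lit 1) (nat_lit 4) (nat_lit 269) (nat_lit 188) (nat_lit 143)) (XT.lf (nat_lit 0) (nat_lit 11806173479051) (nat_lit 152) (nat_lit 1659402916358) (nat_lit 0) (nat_lit 11804468029671) (nat_lit 1) (nat_lit 5) (nat_lit 3) (nat_lit 4) (nat_lit 1) (nat_lit 4) (nat_lit 270) (nat_lit 188) (nat_lit 142)))) (XT.nd (nat_lit 156) (nat_lit 0) (nat_lit 0) (XT.nd (nat_lit 78) (nat_lit 0) (nat_lit 0) (XT.lf (nat_lit 0) (nat_lit 13577763434599) (nat_lit 152) (nat_lit 1906587680503) (nat_lit 0) (nat_lit 13576057625608) (nat_lit 1) (nat_lit 5) (nat_lit 3) (nat_lit 4) (nat_lit 1) (nat_lit 4) (nat_lit 271) (nat_lit 188) (nat_lit 141)) (XT.lf (nat_lit 0) (nat_lit 15615091522410) (nat_lit 152) (nat_lit 2190850836418) (nat_lit 0) (nat_lit 15613385400714) (nat_lit 1) (nat_lit 5) (nat_lit 3) (nat_lit 4)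 (nat_lit 1) (nat_lit 4) (nat_lit 272) (nat_lit 188) (nat_lit 140))) (XT.nd (nat_lit 78) (nat_lit 0) (nat_lit 0) (XT.lf (nat_lit 0) (nat_lit 17958018509420) (nat_lit 152) (nat_lit 2517754054544) (nat_lit 0) (nat_lit 17956312115807) (nat_lit 1) (nat_lit 5) (nat_lit 3) (nat_lit 4) (nat_lit 1) (nat_lit 4) (nat_lit 273) (nat_lit 188) (nat_lit 139)) (XT.lf (nat_lit 0) (nat_lit 20652384271462) (nat_lit 152) (nat_lit 2893693267410) (nat_lit 0) (nat_lit 20650677641397) (nat_lit 1) (nat_lit 5) (nat_lit 3) (nat_lit 4) (nat_lit 1) (nat_lit 4) (nat_lit 274) (nat_lit 188) (nat_lit 138))))) (XT.nd (nat_lit 27378) (nat_lit 0) (nat_lit 0) (XT.nd (nat_lit 27222) (nat_lit 0) (nat_lit 0) (XT.nd (nat_lit 27144) (nat_lit 0) (nat_lit 0) (XT.lf (nat_lit 0) (nat_lit 23750904660400) (nat_lit 152) (nat_lit 3326023807442) (nat_lit 0) (nat_lit 23749197824727) (nat_lit 1) (nat_lit 5) (nat_lit 3) (nat_lit 4) (nat_lit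 1) (nat_lit 4) (nat_lit 275) (nat_lit 188) (nat_lit 137)) (XT.lf (nat_lit 0) (nat_lit 1155692867) (nat_lit 152) (nat_lit 14195921622) (nat_lit 0) (nat_lit 1155692867) (nat_lit 1) (nat_lit 5) (nat_lit 3) (nat_lit 4) (nat_lit 1) (nat_lit 4) (nat_lit 222) (nat_lit 189) (nat_lit 189))) (XT.nd (nat_lit 78) (nat_lit 0) (nat_lit 0) (XT.lf (nat_lit 0) (nat_lit 5390836287) (nat_lit 152) (nat_lit 26973029652) (nat_lit 0) (nat_lit 5134605327) (nat_lit 1) (nat_lit 5) (nat_lit 3) (nat_lit 4) (nat_lit 1) (nat_lit 4) (nat_lit 223) (nat_lit 189) (nat_lit 188)) (XT.lf (nat_lit 0) (nat_lit 8674934547) (nat_lit 152) (nat_lit 25823876972) (nat_lit 0) (nat_lit 8195894057) (nat_lit 1) (nat_lit 5) (nat_lit 3) (nat_lit 4) (nat_lit 1) (nat_lit 4) (nat_lit 224) (nat_lit 189) (nat_lit 187)))) (XT.nd (nat_lit 156) (nat_lit 0) (nat_lit 0) (XT.nd (nat_lit 78) (nat_lit 0) (nat_lit 0) (XT.lf (nat_lit 0) (nat_lit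 12227934611) (nat_lit 152) (nat_lit 24921901783) (nat_lit 0) (nat_lit 11555146704) (nat_lit 1) (nat_lit 5) (nat_lit 3) (nat_lit 4) (nat_lit 1) (nat_lit 4) (nat_lit 225) (nat_lit 189) (nat_lit 186)) (XT.lf (nat_lit 0) (nat_lit 16119351699) (nat_lit 152) (nat_lit 24249456744) (nat_lit 0) (nat_lit 15278087776) (nat_lit 1) (nat_lit 5) (nat_lit 3) (nat_lit 4) (nat_lit 1) (nat_lit 4) (nat_lit 226) (nat_lit 189) (nat_lit 185))) (XT.nd (nat_lit 78) (nat_lit 0) (nat_lit 0) (XT.lf (nat_lit 0) (nat_lit 20425322230) (nat_lit 152) (nat_lit 23793385321) (nat_lit 0) (nat_lit 19437557424) (nat_lit 1) (nat_lit 5) (nat_lit 3) (nat_lit 4) (nat_lit 1) (nat_lit 4) (nat_lit 227) (nat_lit 189) (nat_lit 184)) (XT.lf (nat_lit 0) (nat_lit 25230093455) (nat_lit 152) (nat_lit 23544764379) (nat_lit 0) (nat_lit 24114936578) (nat_lit 1) (nat_lit 5) (nat_lit 3) (nat_lit 4) (nat_lit 1) (nat_lit 4) (nat_lit 228) (nat_lit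 189) (nat_lit 183))))))))
noncomputable def xc13 : XT := (XT.nd (nat_lit 2340) (nat_lit 0) (nat_lit 0) (XT.nd (nat_lit 1170) (nat_lit 0) (nat_lit 0) (XT.nd (nat_lit 546) (nat_lit 0) (nat_lit 0) (XT.nd (nat_lit 234) (nat_lit 0) (nat_lit 0) (XT.nd (nat_lit 78) (nat_lit 0) (nat_lit 0) (XT.lf (nat_lit 0) (nat_lit 30627671768) (nat_lit 152) (nat_lit 23498729593) (nat_lit 0) (nat_lit 29401739175) (nat_lit 1) (nat_lit 5) (nat_lit 3) (nat_lit 4) (nat_lit 1) (nat_lit 4) (nat_lit 229) (nat_lit 189) (nat_lit 182)) (XT.nd (nat_lit 78) (nat_lit 0) (nat_lit 0) (XT.lf (nat_lit 0) (nat_lit 36723661961) (nat_lit 152) (nat_lit 23654380285) (nat_lit 0) (nat_lit 35401402660) (nat_lit 1) (nat_lit 5) (nat_lit 3) (nat_lit 4) (nat_lit 1) (nat_lit 4) (nat_lit 230) (nat_lit 189) (nat_lit 181)) (XT.lf (nat_lit 0) (nat_lit 43637333408) (nat_lit 152) (nat_lit 24014761792) (nat_lit 0) (nat_lit 42231311751) (nat_lit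 1) (nat_lit 5) (nat_lit 3) (nat_lit 4) (nat_lit 1) (nat_lit 4) (nat_lit 231) (nat_lit 189) (nat_lit 180)))) (XT.nd (nat_lit 156) (nat_lit 0) (nat_lit 0) (XT.nd (nat_lit 78) (nat_lit 0) (nat_lit 0) (XT.lf (nat_lit 0) (nat_lit 51503953593) (nat_lit 152) (nat_lit 24586925058) (nat_lit 0) (nat_lit 50025095106) (nat_lit 1) (nat_lit 5) (nat_lit 3) (nat_lit 4) (nat_lit 1) (nat_lit 4) (nat_lit 232) (nat_lit 189) (nat_lit 179)) (XT.lf (nat_lit 0) (nat_lit 60477434651) (nat_lit 152) (nat_lit 25382064582) (nat_lit 0) (nat_lit 58935239789) (nat_lit 1) (nat_lit 5) (nat_lit 3) (nat_lit 4) (nat_lit 1) (nat_lit 4) (nat_lit 233) (nat_lit 189) (nat_lit 178))) (XT.nd (nat_lit 78) (nat_lit 0) (nat_lit 0) (XT.lf (nat_lit 0) (nat_lit 70733344689) (nat_lit 152) (nat_lit 26415737441) (nat_lit 0) (nat_lit 69136074719) (nat_lit 1) (nat_lit 5) (nat_lit 3) (nat_lit 4) (nat_lit 1) (nat_lit 4) (nat_lit 234) (nat_lit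 189) (nat_lit 177)) (XT.lf (nat_lit 0) (nat_lit 82472342816) (nat_lit 152) (nat_lit 27708167669) (nat_lit 0) (nat_lit 80827181448) (nat_lit 1) (nat_lit 5) (nat_lit 3) (nat_lit 4) (nat_lit 1) (nat_lit 4) (nat_lit 235) (nat_lit 189) (nat_lit 176))))) (XT.nd (nat_lit 312) (nat_lit 0) (nat_lit 0) (XT.nd (nat_lit 156) (nat_lit 0) (nat_lit 0) (XT.nd (nat_lit 78) (nat_lit 0) (nat_lit 0) (XT.lf (nat_lit 0) (nat_lit 95924105084) (nat_lit 152) (nat_lit 29284641944) (nat_lit 0) (nat_lit 94237299021) (nat_lit 1) (nat_lit 5) (nat_lit 3) (nat_lit 4) (nat_lit 1) (nat_lit 4) (nat_lit 236) (nat_lit 189) (nat_lit 175)) (XT.lf (nat_lit 0) (nat_lit 111351818145) (nat_lit 152) (nat_lit 31176004329) (nat_lit 0) (nat_lit 109628799304) (nat_lit 1) (nat_lit 5) (nat_lit 3) (nat_lit 4) (nat_lit 1) (nat_lit 4) (nat_lit 237) (nat_lit 189) (nat_lit 174))) (XT.nd (nat_lit 78) (nat_lit 0) (nat_lit 0) (XT.lf (nat_lit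 0) (nat_lit 129057328558) (nat_lit 152) (nat_lit 33419259741) (nat_lit 0) (nat_lit 127302820346) (nat_lit 1) (nat_lit 5) (nat_lit 3) (nat_lit 4) (nat_lit 1) (nat_lit 4) (nat_lit 238) (nat_lit 189) (nat_lit 173)) (XT.lf (nat_lit 0) (nat_lit 149387048485) (nat_lit 152) (nat_lit 36058297957) (nat_lit 0) (nat_lit 147605158211) (nat_lit 1) (nat_lit 5) (nat_lit 3) (nat_lit 4) (nat_lit 1) (nat_lit 4) (nat_lit 239) (nat_lit 189) (nat_lit 172)))) (XT.nd (nat_lit 156) (nat_lit 0) (nat_lit 0) (XT.nd (nat_lit 78) (nat_lit 0) (nat_lit 0) (XT.lf (nat_lit 0) (nat_lit 172738733315) (nat_lit 152) (nat_lit 39144752336) (nat_lit 0) (nat_lit 170933032552) (nat_lit 1) (nat_lit 5) (nat_lit 3) (nat_lit 4) (nat_lit 1) (nat_lit 4) (nat_lit 240) (nat_lit 189) (nat_lit 171)) (XT.lf (nat_lit 0) (nat_lit 199569263839) (nat_lit 152) (nat_lit 42739010027) (nat_lit 0) (nat_lit 197742858302) (nat_lit 1) (nat_lit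 5) (nat_lit 3) (nat_lit 4) (nat_lit 1) (nat_lit 4) (nat_lit 241) (nat_lit 189) (nat_lit 170))) (XT.nd (nat_lit 78) (nat_lit 0) (nat_lit 0) (XT.lf (nat_lit 0) (nat_lit 230403585218) (nat_lit 152) (nat_lit 46911393465) (nat_lit 0) (nat_lit 228559175530) (nat_lit 1) (nat_lit 5) (nat_lit 3) (nat_lit 4) (nat_lit 1) (nat_lit 4) (nat_lit 242) (nat_lit 189) (nat_lit 169)) (XT.lf (nat_lit 0) (nat_lit 265844977653) (nat_lit 152) (nat_lit 51743536237) (nat_lit 0) (nat_lit 263984912182) (nat_lit 1) (nat_lit 5) (nat_lit 3) (nat_lit 4) (nat_lit 1) (nat_lit 4) (nat_lit 243) (nat_lit 189) (nat_lit 168)))))) (XT.nd (nat_lit 546) (nat_lit 0) (nat_lit 0) (XT.nd (nat_lit 234) (nat_lit 0) (nat_lit 0) (XT.nd (nat_lit 78) (nat_lit 0) (nat_lit 0) (XT.lf (nat_lit 0) (nat_lit 306586859693) (nat_lit 152) (nat_lit 57329980268) (nat_lit 0) (nat_lit 304713180498) (nat_lit 1) (nat_lit 5) (nat_lit 3) (nat_lit 4)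 (nat_lit 1) (nat_lit 4) (nat_lit 244) (nat_lit 189) (nat_lit 167)) (XT.nd (nat_lit 78) (nat_lit 0) (nat_lit 0) (XT.lf (nat_lit 0) (nat_lit 353426355116) (nat_lit 152) (nat_lit 63780025550) (nat_lit 0) (nat_lit 351540837899) (nat_lit 1) (nat_lit 5) (nat_lit 3) (nat_lit 4) (nat_lit 1) (nat_lit 4) (nat_lit 245) (nat_lit 189) (nat_lit 166)) (XT.lf (nat_lit 0) (nat_lit 407279888832) (nat_lit 152) (nat_lit 71219868621) (nat_lit 0) (nat_lit 405384077684) (nat_lit 1) (nat_lit 5) (nat_lit 3) (nat_lit 4) (nat_lit 1) (nat_lit 4) (nat_lit 246) (nat_lit 189) (nat_lit 165)))) (XT.nd (nat_lit 156) (nat_lit 0) (nat_lit 0) (XT.nd (nat_lit 78) (nat_lit 0) (nat_lit 0) (XT.lf (nat_lit 0) (nat_lit 469201116937) (nat_lit 152) (nat_lit 79795071628) (nat_lit 0) (nat_lit 467296354544) (nat_lit 1) (nat_lit 5) (nat_lit 3) (nat_lit 4) (nat_lit 1) (nat_lit 4) (nat_lit 247) (nat_lit 189) (nat_lit 164)) (XT.lf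 (nat_lit 0) (nat_lit 540401541719) (nat_lit 152) (nat_lit 89673410281) (nat_lit 0) (nat_lit 538488995635) (nat_lit 1) (nat_lit 5) (nat_lit 3) (nat_lit 4) (nat_lit 1) (nat_lit 4) (nat_lit 248) (nat_lit 189) (nat_lit 163))) (XT.nd (nat_lit 78) (nat_lit 0) (nat_lit 0) (XT.lf (nat_lit 0) (nat_lit 622274214967) (nat_lit 152) (nat_lit 101048156425) (nat_lit 0) (nat_lit 620354900456) (nat_lit 1) (nat_lit 5) (nat_lit 3) (nat_lit 4) (nat_lit 1) (nat_lit 4) (nat_lit 249) (nat_lit 189) (nat_lit 162)) (XT.lf (nat_lit 0) (nat_lit 716420993332) (nat_lit 152) (nat_lit 114141859439) (nat_lit 0) (nat_lit 714495793232) (nat_lit 1) (nat_lit 5) (nat_lit 3) (nat_lit 4) (nat_lit 1) (nat_lit 4) (nat_lit 250) (nat_lit 189) (nat_lit 161))))) (XT.nd (nat_lit 312) (nat_lit 0) (nat_lit 0) (XT.nd (nat_lit 156) (nat_lit 0) (nat_lit 0) (XT.nd (nat_lit 78) (nat_lit 0) (nat_lit 0) (XT.lf (nat_lit 0) (nat_lit 824683878999)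 (nat_lit 152) (nat_lit 129210700471) (nat_lit 0) (nat_lit 822753560996) (nat_lit 1) (nat_lit 5) (nat_lit 3) (nat_lit 4) (nat_lit 1) (nat_lit 4) (nat_lit 251) (nat_lit 189) (nat_lit 160)) (XT.lf (nat_lit 0) (nat_lit 949181058862) (nat_lit 152) (nat_lit 146549504671) (nat_lit 0) (nat_lit 947246290509) (nat_lit 1) (nat_lit 5) (nat_lit 3) (nat_lit 4) (nat_lit 1) (nat_lit 4) (nat_lit 252) (nat_lit 189) (nat_lit 159))) (XT.nd (nat_lit 78) (nat_lit 0) (nat_lit 0) (XT.lf (nat_lit 0) (nat_lit 1092348347310) (nat_lit 152) (nat_lit 166497509511) (nat_lit 0) (nat_lit 1090409709086) (nat_lit 1) (nat_lit 5) (nat_lit 3) (nat_lit 4) (nat_lit 1) (nat_lit 4) (nat_lit 253) (nat_lit 189) (nat_lit 158)) (XT.lf (nat_lit 0) (nat_lit 1256986843463) (nat_lit 152) (nat_lit 189445002044) (nat_lit 0) (nat_lit 1255044840135) (nat_lit 1) (nat_lit 5) (nat_lit 3) (nat_lit 4) (nat_lit 1) (nat_lit 4) (nat_lit 254)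 (nat_lit 189) (nat_lit 157)))) (XT.nd (nat_lit 156) (nat_lit 0) (nat_lit 0) (XT.nd (nat_lit 78) (nat_lit 0) (nat_lit 0) (XT.lf (nat_lit 0) (nat_lit 1446317735292) (nat_lit 152) (nat_lit 215840954950) (nat_lit 0) (nat_lit 1444372805786) (nat_lit 1) (nat_lit 5) (nat_lit 3) (nat_lit 4) (nat_lit 1) (nat_lit 4) (nat_lit 255) (nat_lit 189) (nat_lit 156)) (XT.lf (nat_lit 0) (nat_lit 1664045322852) (nat_lit 152) (nat_lit 246201810785) (nat_lit 0) (nat_lit 1662097848843) (nat_lit 1) (nat_lit 5) (nat_lit 3) (nat_lit 4) (nat_lit 1) (nat_lit 4) (nat_lit 256) (nat_lit 189) (nat_lit 155))) (XT.nd (nat_lit 78) (nat_lit 0) (nat_lit 0) (XT.lf (nat_lit 0) (nat_lit 1914429493726) (nat_lit 152) (nat_lit 281121586293) (nat_lit 0) (nat_lit 1912479807107) (nat_lit 1) (nat_lit 5) (nat_lit 3) (nat_lit 4) (nat_lit 1) (nat_lit 4) (nat_lit 257) (nat_lit 189) (nat_lit 154)) (XT.lf (nat_lit 0) (nat_lit 2202369068650)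 (nat_lit 152) (nat_lit 321283494474) (nat_lit 0) (nat_lit 2200417458021) (nat_lit 1) (nat_lit 5) (nat_lit 3) (nat_lit 4) (nat_lit 1) (nat_lit 4) (nat_lit 258) (nat_lit 189) (nat_lit 153))))))) (XT.nd (nat_lit 1170) (nat_lit 0) (nat_lit 0) (XT.nd (nat_lit 546) (nat_lit 0) (nat_lit 0) (XT.nd (nat_lit 234) (nat_lit 0) (nat_lit 0) (XT.nd (nat_lit 78) (nat_lit 0) (nat_lit 0) (XT.lf (nat_lit 0) (nat_lit 2533497648001) (nat_lit 152) (nat_lit 367473311793) (nat_lit 0) (nat_lit 2531544364321) (nat_lit 1) (nat_lit 5) (nat_lit 3) (nat_lit 4) (nat_lit 1) (nat_lit 4) (nat_lit 259) (nat_lit 189) (nat_lit 152)) (XT.nd (nat_lit 78) (nat_lit 0) (nat_lit 0) (XT.lf (nat_lit 0) (nat_lit 2914293834421) (nat_lit 152) (nat_lit 420594752066) (nat_lit 0) (nat_lit 2912339095913) (nat_lit 1) (nat_lit 5) (nat_lit 3) (nat_lit 4) (nat_lit 1) (nat_lit 4) (nat_lit 260) (nat_lit 189) (nat_lit 151)) (XT.lf (nat_lit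 0) (nat_lit 3352207988077) (nat_lit 152) (nat_lit 481687147821) (nat_lit 0) (nat_lit 3350251984501) (nat_lit 1) (nat_lit 5) (nat_lit 3) (nat_lit 4) (nat_lit 1) (nat_lit 4) (nat_lit 261) (nat_lit 189) (nat_lit 150)))) (XT.nd (nat_lit 156) (nat_lit 0) (nat_lit 0) (XT.nd (nat_lit 78) (nat_lit 0) (nat_lit 0) (XT.lf (nat_lit 0) (nat_lit 3855807994584) (nat_lit 152) (nat_lit 551945785061) (nat_lit 0) (nat_lit 3853850890950) (nat_lit 1) (nat_lit 5) (nat_lit 3) (nat_lit 4) (nat_lit 1) (nat_lit 4) (nat_lit 262) (nat_lit 189) (nat_lit 149)) (XT.lf (nat_lit 0) (nat_lit 4434946897549) (nat_lit 152) (nat_lit 632745289298) (nat_lit 0) (nat_lit 4432988837342) (nat_lit 1) (nat_lit 5) (nat_lit 3) (nat_lit 4) (nat_lit 1) (nat_lit 4) (nat_lit 263) (nat_lit 189) (nat_lit 148))) (XT.nd (nat_lit 78) (nat_lit 0) (nat_lit 0) (XT.lf (nat_lit 0) (nat_lit 5100955675507) (nat_lit 152) (nat_lit 725666520397)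 (nat_lit 0) (nat_lit 5098996783498) (nat_lit 1) (nat_lit 5) (nat_lit 3) (nat_lit 4) (nat_lit 1) (nat_lit 4) (nat_lit 264) (nat_lit 189) (nat_lit 147)) (XT.lf (nat_lit 0) (nat_lit 5866864934984) (nat_lit 152) (nat_lit 832527502445) (nat_lit 0) (nat_lit 5864905319668) (nat_lit 1) (nat_lit 5) (nat_lit 3) (nat_lit 4) (nat_lit 1) (nat_lit 4) (nat_lit 265) (nat_lit 189) (nat_lit 146))))) (XT.nd (nat_lit 312) (nat_lit 0) (nat_lit 0) (XT.nd (nat_lit 156) (nat_lit 0) (nat_lit 0) (XT.nd (nat_lit 78) (nat_lit 0) (nat_lit 0) (XT.lf (nat_lit 0) (nat_lit 6747659857143) (nat_lit 152) (nat_lit 955418993786) (nat_lit 0) (nat_lit 6745699612866) (nat_lit 1) (nat_lit 5) (nat_lit 3) (nat_lit 4) (nat_lit 1) (nat_lit 4) (nat_lit 266) (nat_lit 189) (nat_lit 145)) (XT.lf (nat_lit 0) (nat_lit 7760573386114) (nat_lit 152) (nat_lit 1096745393164) (nat_lit 0) (nat_lit 7758612594913) (nat_lit 1) (nat_lit 5) (nat_lit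 3) (nat_lit 4) (nat_lit 1) (nat_lit 4) (nat_lit 267) (nat_lit 189) (nat_lit 144))) (XT.nd (nat_lit 78) (nat_lit 0) (nat_lit 0) (XT.lf (nat_lit 0) (nat_lit 8925423395289) (nat_lit 152) (nat_lit 1259271782306) (nat_lit 0) (nat_lit 8923462128503) (nat_lit 1) (nat_lit 5) (nat_lit 3) (nat_lit 4) (nat_lit 1) (nat_lit 4) (nat_lit 268) (nat_lit 189) (nat_lit 143)) (XT.lf (nat_lit 0) (nat_lit 10265000428327) (nat_lit 152) (nat_lit 1446178025347) (nat_lit 0) (nat_lit 10263038747988) (nat_lit 1) (nat_lit 5) (nat_lit 3) (nat_lit 4) (nat_lit 1) (nat_lit 4) (nat_lit 269) (nat_lit 189) (nat_lit 142)))) (XT.nd (nat_lit 156) (nat_lit 0) (nat_lit 0) (XT.nd (nat_lit 78) (nat_lit 0) (nat_lit 0) (XT.lf (nat_lit 0) (nat_lit 11805513601091) (nat_lit 152) (nat_lit 1661120983564) (nat_lit 0) (nat_lit 11803551561140) (nat_lit 1) (nat_lit 5) (nat_lit 3) (nat_lit 4) (nat_lit 1) (nat_lit 4) (nat_lit 270) (nat_lit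 189) (nat_lit 141)) (XT.lf (nat_lit 0) (nat_lit 13577103388700) (nat_lit 152) (nat_lit 1908306062662) (nat_lit 0) (nat_lit 13575141036044) (nat_lit 1) (nat_lit 5) (nat_lit 3) (nat_lit 4) (nat_lit 1) (nat_lit 4) (nat_lit 271) (nat_lit 189) (nat_lit 140))) (XT.nd (nat_lit 78) (nat_lit 0) (nat_lit 0) (XT.lf (nat_lit 0) (nat_lit 15614431330477) (nat_lit 152) (nat_lit 2192569492449) (nat_lit 0) (nat_lit 15612468705904) (nat_lit 1) (nat_lit 5) (nat_lit 3) (nat_lit 4) (nat_lit 1) (nat_lit 4) (nat_lit 272) (nat_lit 189) (nat_lit 139)) (XT.lf (nat_lit 0) (nat_lit 17957358190501) (nat_lit 152) (nat_lit 2519472948724) (nat_lit 0) (nat_lit 17955395329477) (nat_lit 1) (nat_lit 5) (nat_lit 3) (nat_lit 4) (nat_lit 1) (nat_lit 4) (nat_lit 273) (nat_lit 189) (nat_lit 138)))))) (XT.nd (nat_lit 27534) (nat_lit 0) (nat_lit 0) (XT.nd (nat_lit 27222) (nat_lit 0) (nat_lit 0) (XT.nd (nat_lit 27066) (nat_lit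 0) (nat_lit 152) (XT.lf (nat_lit 0) (nat_lit 20651723842120) (nat_lit 152) (nat_lit 2895412368677) (nat_lit 0) (nat_lit 20649760775487) (nat_lit 1) (nat_lit 5) (nat_lit 3) (nat_lit 4) (nat_lit 1) (nat_lit 4) (nat_lit 274) (nat_lit 189) (nat_lit 137)) (XT.nd (nat_lit 78) (nat_lit 0) (nat_lit 0) (XT.lf (nat_lit 0) (nat_lit 9990339687) (nat_lit 76) (nat_lit 1440805733) (nat_lit 76) (nat_lit 1440805733) (nat_lit 3) (nat_lit 4) (nat_lit 4) (nat_lit 5) (nat_lit 4) (nat_lit 4) (nat_lit 220) (nat_lit 190) (nat_lit 190)) (XT.lf (nat_lit 0) (nat_lit 28233898863) (nat_lit 76) (nat_lit 624115584) (nat_lit 76) (nat_lit 285250139) (nat_lit 3) (nat_lit 4) (nat_lit 4) (nat_lit 5) (nat_lit 4) (nat_lit 4) (nat_lit 221) (nat_lit 190) (nat_lit 189)))) (XT.nd (nat_lit 156) (nat_lit 0) (nat_lit 0) (XT.nd (nat_lit 78) (nat_lit 0) (nat_lit 0) (XT.lf (nat_lit 0) (nat_lit 2468441870) (nat_lit 152) (nat_lit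 28649915520) (nat_lit 0) (nat_lit 1917545307) (nat_lit 1) (nat_lit 5) (nat_lit 3) (nat_lit 4) (nat_lit 1) (nat_lit 4) (nat_lit 222) (nat_lit 190) (nat_lit 188)) (XT.lf (nat_lit 0) (nat_lit 5428232016) (nat_lit 152) (nat_lit 27455512603) (nat_lit 0) (nat_lit 4654525922) (nat_lit 1) (nat_lit 5) (nat_lit 3) (nat_lit 4) (nat_lit 1) (nat_lit 4) (nat_lit 223) (nat_lit 190) (nat_lit 187))) (XT.nd (nat_lit 78) (nat_lit 0) (nat_lit 0) (XT.lf (nat_lit 0) (nat_lit 8608277748) (nat_lit 152) (nat_lit 26501499641) (nat_lit 0) (nat_lit 7640824237) (nat_lit 1) (nat_lit 5) (nat_lit 3) (nat_lit 4) (nat_lit 1) (nat_lit 4) (nat_lit 224) (nat_lit 190) (nat_lit 186)) (XT.lf (nat_lit 0) (nat_lit 12070797353) (nat_lit 152) (nat_lit 25769211163) (nat_lit 0) (nat_lit 10934867827) (nat_lit 1) (nat_lit 5) (nat_lit 3) (nat_lit 4) (nat_lit 1) (nat_lit 4) (nat_lit 225) (nat_lit 190) (nat_lit 185))))) (XT.nd (nat_lit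 312) (nat_lit 0) (nat_lit 0) (XT.nd (nat_lit 156) (nat_lit 0) (nat_lit 0) (XT.nd (nat_lit 78) (nat_lit 0) (nat_lit 0) (XT.lf (nat_lit 0) (nat_lit 15883535781) (nat_lit 152) (nat_lit 25244319785) (nat_lit 0) (nat_lit 14601105371) (nat_lit 1) (nat_lit 5) (nat_lit 3) (nat_lit 4) (nat_lit 1) (nat_lit 4) (nat_lit 226) (nat_lit 190) (nat_lit 184)) (XT.lf (nat_lit 0) (nat_lit 20121090086) (nat_lit 152) (nat_lit 24916555894) (nat_lit 0) (nat_lit 18711267605) (nat_lit 1) (nat_lit 5) (nat_lit 3) (nat_lit 4) (nat_lit 1) (nat_lit 4) (nat_lit 227) (nat_lit 190) (nat_lit 183))) (XT.nd (nat_lit 78) (nat_lit 0) (nat_lit 0) (XT.lf (nat_lit 0) (nat_lit 24866368941) (nat_lit 152) (nat_lit 24779506718) (nat_lit 0) (nat_lit 23345770745) (nat_lit 1) (nat_lit 5) (nat_lit 3) (nat_lit 4) (nat_lit 1) (nat_lit 4) (nat_lit 228) (nat_lit 190) (nat_lit 182)) (XT.lf (nat_lit 0) (nat_lit 30212214758) (nat_lit 152)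 (nat_lit 24830490861) (nat_lit 0) (nat_lit 28595289853) (nat_lit 1) (nat_lit 5) (nat_lit 3) (nat_lit 4) (nat_lit 1) (nat_lit 4) (nat_lit 229) (nat_lit 190) (nat_lit 181)))) (XT.nd (nat_lit 156) (nat_lit 0) (nat_lit 0) (XT.nd (nat_lit 78) (nat_lit 0) (nat_lit 0) (XT.lf (nat_lit 0) (nat_lit 36263220171) (nat_lit 152) (nat_lit 25070505837) (nat_lit 0) (nat_lit 34562532911) (nat_lit 1) (nat_lit 5) (nat_lit 3) (nat_lit 4) (nat_lit 1) (nat_lit 4) (nat_lit 230) (nat_lit 190) (nat_lit 180)) (XT.lf (nat_lit 0) (nat_lit 43137774419) (nat_lit 152) (nat_lit 25504247592) (nat_lit 0) (nat_lit 41364250328) (nat_lit 1) (nat_lit 5) (nat_lit 3) (nat_lit 4) (nat_lit 1) (nat_lit 4) (nat_lit 231) (nat_lit 190) (nat_lit 179))) (XT.nd (nat_lit 78) (nat_lit 0) (nat_lit 0) (XT.lf (nat_lit 0) (nat_lit 50970379648) (nat_lit 152) (nat_lit 26140202378) (nat_lit 0) (nat_lit 49133519183) (nat_lit 1) (nat_lit 5)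 (nat_lit 3) (nat_lit 4) (nat_lit 1) (nat_lit 4) (nat_lit 232) (nat_lit 190) (nat_lit 178)) (XT.lf (nat_lit 0) (nat_lit 59914282483) (nat_lit 152) (nat_lit 26990812788) (nat_lit 0) (nat_lit 58022346910) (nat_lit 1) (nat_lit 5) (nat_lit 3) (nat_lit 4) (nat_lit 1) (nat_lit 4) (nat_lit 233) (nat_lit 190) (nat_lit 177))))))))
noncomputable def xc14 : XT := (XT.nd (nat_lit 2262) (nat_lit 0) (nat_lit 0) (XT.nd (nat_lit 1092) (nat_lit 0) (nat_lit 0) (XT.nd (nat_lit 546) (nat_lit 0) (nat_lit 0) (XT.nd (nat_lit 234) (nat_lit 0) (nat_lit 0) (XT.nd (nat_lit 78) (nat_lit 0) (nat_lit 0) (XT.lf (nat_lit 0) (nat_lit 70144472328) (nat_lit 152) (nat_lit 28072721201) (nat_lit 0) (nat_lit 68204645356) (nat_lit 1) (nat_lit 5) (nat_lit 3) (nat_lit 4) (nat_lit 1) (nat_lit 4) (nat_lit 234) (nat_lit 190) (nat_lit 176)) (XT.nd (nat_lit 78) (nat_lit 0) (nat_lit 0) (XT.lf (nat_lit 0) (nat_lit 81861105070) (nat_lit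 152) (nat_lit 29407095389) (nat_lit 0) (nat_lit 79879633404) (nat_lit 1) (nat_lit 5) (nat_lit 3) (nat_lit 4) (nat_lit 1) (nat_lit 4) (nat_lit 235) (nat_lit 190) (nat_lit 175)) (XT.lf (nat_lit 0) (nat_lit 95293419176) (nat_lit 152) (nat_lit 31020042673) (nat_lit 0) (nat_lit 93275734732) (nat_lit 1) (nat_lit 5) (nat_lit 3) (nat_lit 4) (nat_lit 1) (nat_lit 4) (nat_lit 236) (nat_lit 190) (nat_lit 174)))) (XT.nd (nat_lit 156) (nat_lit 0) (nat_lit 0) (XT.nd (nat_lit 78) (nat_lit 0) (nat_lit 0) (XT.lf (nat_lit 0) (nat_lit 110704220792) (nat_lit 152) (nat_lit 32943120718) (nat_lit 0) (nat_lit 108655046976) (nat_lit 1) (nat_lit 5) (nat_lit 3) (nat_lit 4) (nat_lit 1) (nat_lit 4) (nat_lit 237) (nat_lit 190) (nat_lit 173)) (XT.lf (nat_lit 0) (nat_lit 128395025602) (nat_lit 152) (nat_lit 35213954963) (nat_lit 0) (nat_lit 126318469723) (nat_lit 1) (nat_lit 5) (nat_lit 3) (nat_lit 4) (nat_lit 1)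 (nat_lit 4) (nat_lit 238) (nat_lit 190) (nat_lit 172))) (XT.nd (nat_lit 78) (nat_lit 0) (nat_lit 0) (XT.lf (nat_lit 0) (nat_lit 148711958047) (nat_lit 152) (nat_lit 37876974775) (nat_lit 0) (nat_lit 146611591679) (nat_lit 1) (nat_lit 5) (nat_lit 3) (nat_lit 4) (nat_lit 1) (nat_lit 4) (nat_lit 239) (nat_lit 190) (nat_lit 171)) (XT.lf (nat_lit 0) (nat_lit 172052523327) (nat_lit 152) (nat_lit 40984282714) (nat_lit 0) (nat_lit 169931452187) (nat_lit 1) (nat_lit 5) (nat_lit 3) (nat_lit 4) (nat_lit 1) (nat_lit 4) (nat_lit 240) (nat_lit 190) (nat_lit 170))))) (XT.nd (nat_lit 234) (nat_lit 0) (nat_lit 0) (XT.nd (nat_lit 78) (nat_lit 0) (nat_lit 0) (XT.lf (nat_lit 0) (nat_lit 198873384677) (nat_lit 152) (nat_lit 44596673937) (nat_lit 0) (nat_lit 196734309386) (nat_lit 1) (nat_lit 5) (nat_lit 3) (nat_lit 4) (nat_lit 1) (nat_lit 4) (nat_lit 241) (nat_lit 190) (nat_lit 169)) (XT.nd (nat_lit 78)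 (nat_lit 0) (nat_lit 0) (XT.lf (nat_lit 0) (nat_lit 229699298079) (nat_lit 152) (nat_lit 48784825663) (nat_lit 0) (nat_lit 227544567005) (nat_lit 1) (nat_lit 5) (nat_lit 3) (nat_lit 4) (nat_lit 1) (nat_lit 4) (nat_lit 242) (nat_lit 190) (nat_lit 168)) (XT.lf (nat_lit 0) (nat_lit 265133379230) (nat_lit 152) (nat_lit 53630679990) (nat_lit 0) (nat_lit 262965034432) (nat_lit 1) (nat_lit 5) (nat_lit 3) (nat_lit 4) (nat_lit 1) (nat_lit 4) (nat_lit 243) (nat_lit 190) (nat_lit 167)))) (XT.nd (nat_lit 156) (nat_lit 0) (nat_lit 0) (XT.nd (nat_lit 78) (nat_lit 0) (nat_lit 0) (XT.lf (nat_lit 0) (nat_lit 305868903632) (nat_lit 152) (nat_lit 59229047112) (nat_lit 0) (nat_lit 303688720812) (nat_lit 1) (nat_lit 5) (nat_lit 3) (nat_lit 4) (nat_lit 1) (nat_lit 4) (nat_lit 244) (nat_lit 190) (nat_lit 166)) (XT.lf (nat_lit 0) (nat_lit 352702870673) (nat_lit 152) (nat_lit 65689460300) (nat_lit 0) (nat_lit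 350512393922) (nat_lit 1) (nat_lit 5) (nat_lit 3) (nat_lit 4) (nat_lit 1) (nat_lit 4) (nat_lit 245) (nat_lit 190) (nat_lit 165))) (XT.nd (nat_lit 78) (nat_lit 0) (nat_lit 0) (XT.lf (nat_lit 0) (nat_lit 406551597102) (nat_lit 152) (nat_lit 73138318940) (nat_lit 0) (nat_lit 404352169105) (nat_lit 1) (nat_lit 5) (nat_lit 3) (nat_lit 4) (nat_lit 1) (nat_lit 4) (nat_lit 246) (nat_lit 190) (nat_lit 164)) (XT.lf (nat_lit 0) (nat_lit 468468644956) (nat_lit 152) (nat_lit 81721361573) (nat_lit 0) (nat_lit 466261433268) (nat_lit 1) (nat_lit 5) (nat_lit 3) (nat_lit 4) (nat_lit 1) (nat_lit 4) (nat_lit 247) (nat_lit 190) (nat_lit 163)))))) (XT.nd (nat_lit 546) (nat_lit 0) (nat_lit 0) (XT.nd (nat_lit 234) (nat_lit 0) (nat_lit 0) (XT.nd (nat_lit 78) (nat_lit 0) (nat_lit 0) (XT.lf (nat_lit 0) (nat_lit 539665434737) (nat_lit 152) (nat_lit 91606517292) (nat_lit 0) (nat_lit 537451454623) (nat_lit 1)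 (nat_lit 5) (nat_lit 3) (nat_lit 4) (nat_lit 1) (nat_lit 4) (nat_lit 248) (nat_lit 190) (nat_lit 162)) (XT.nd (nat_lit 78) (nat_lit 0) (nat_lit 0) (XT.lf (nat_lit 0) (nat_lit 621534947116) (nat_lit 152) (nat_lit 102987191319) (nat_lit 0) (nat_lit 619315081412) (nat_lit 1) (nat_lit 5) (nat_lit 3) (nat_lit 4) (nat_lit 1) (nat_lit 4) (nat_lit 249) (nat_lit 190) (nat_lit 161)) (XT.lf (nat_lit 0) (nat_lit 715678976898) (nat_lit 152) (nat_lit 116086049016) (nat_lit 0) (nat_lit 713453993292) (nat_lit 1) (nat_lit 5) (nat_lit 3) (nat_lit 4) (nat_lit 1) (nat_lit 4) (nat_lit 250) (nat_lit 190) (nat_lit 160)))) (XT.nd (nat_lit 156) (nat_lit 0) (nat_lit 0) (XT.nd (nat_lit 78) (nat_lit 0) (nat_lit 0) (XT.lf (nat_lit 0) (nat_lit 823939472494) (nat_lit 152) (nat_lit 131159372379) (nat_lit 0) (nat_lit 821710038536) (nat_lit 1) (nat_lit 5) (nat_lit 3) (nat_lit 4) (nat_lit 1) (nat_lit 4) (nat_lit 251)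 (nat_lit 190) (nat_lit 159)) (XT.lf (nat_lit 0) (nat_lit 948434574034) (nat_lit 152) (nat_lit 148502074258) (nat_lit 0) (nat_lit 946201270206) (nat_lit 1) (nat_lit 5) (nat_lit 3) (nat_lit 4) (nat_lit 1) (nat_lit 4) (nat_lit 252) (nat_lit 190) (nat_lit 158))) (XT.nd (nat_lit 78) (nat_lit 0) (nat_lit 0) (XT.lf (nat_lit 0) (nat_lit 1091600055243) (nat_lit 152) (nat_lit 168453468385) (nat_lit 0) (nat_lit 1089363386311) (nat_lit 1) (nat_lit 5) (nat_lit 3) (nat_lit 4) (nat_lit 1) (nat_lit 4) (nat_lit 253) (nat_lit 190) (nat_lit 157)) (XT.lf (nat_lit 0) (nat_lit 1256236979886) (nat_lit 152) (nat_lit 191403908124) (nat_lit 0) (nat_lit 1253997384776) (nat_lit 1) (nat_lit 5) (nat_lit 3) (nat_lit 4) (nat_lit 1) (nat_lit 4) (nat_lit 254) (nat_lit 190) (nat_lit 156))))) (XT.nd (nat_lit 312) (nat_lit 0) (nat_lit 0) (XT.nd (nat_lit 156) (nat_lit 0) (nat_lit 0) (XT.nd (nat_lit 78) (nat_lit 0) (nat_lit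 0) (XT.lf (nat_lit 0) (nat_lit 1445566505183) (nat_lit 152) (nat_lit 217802423817) (nat_lit 0) (nat_lit 1443324365571) (nat_lit 1) (nat_lit 5) (nat_lit 3) (nat_lit 4) (nat_lit 1) (nat_lit 4) (nat_lit 255) (nat_lit 190) (nat_lit 155)) (XT.lf (nat_lit 0) (nat_lit 1663292904455) (nat_lit 152) (nat_lit 248165508163) (nat_lit 0) (nat_lit 1661048552232) (nat_lit 1) (nat_lit 5) (nat_lit 3) (nat_lit 4) (nat_lit 1) (nat_lit 4) (nat_lit 256) (nat_lit 190) (nat_lit 154))) (XT.nd (nat_lit 78) (nat_lit 0) (nat_lit 0) (XT.lf (nat_lit 0) (nat_lit 1913676042035) (nat_lit 152) (nat_lit 283087221507) (nat_lit 0) (nat_lit 1911429765803) (nat_lit 1) (nat_lit 5) (nat_lit 3) (nat_lit 4) (nat_lit 1) (nat_lit 4) (nat_lit 257) (nat_lit 190) (nat_lit 153)) (XT.lf (nat_lit 0) (nat_lit 2201614718442) (nat_lit 152) (nat_lit 323250814763) (nat_lit 0) (nat_lit 2199366769158) (nat_lit 1) (nat_lit 5) (nat_lit 3)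 (nat_lit 4) (nat_lit 1) (nat_lit 4) (nat_lit 258) (nat_lit 190) (nat_lit 152)))) (XT.nd (nat_lit 156) (nat_lit 0) (nat_lit 0) (XT.nd (nat_lit 78) (nat_lit 0) (nat_lit 0) (XT.lf (nat_lit 0) (nat_lit 2532742516475) (nat_lit 152) (nat_lit 369442097364) (nat_lit 0) (nat_lit 2530493112364) (nat_lit 1) (nat_lit 5) (nat_lit 3) (nat_lit 4) (nat_lit 1) (nat_lit 4) (nat_lit 259) (nat_lit 190) (nat_lit 151)) (XT.lf (nat_lit 0) (nat_lit 2913538023487) (nat_lit 152) (nat_lit 422564811796) (nat_lit 0) (nat_lit 2911287354308) (nat_lit 1) (nat_lit 5) (nat_lit 3) (nat_lit 4) (nat_lit 1) (nat_lit 4) (nat_lit 260) (nat_lit 190) (nat_lit 150))) (XT.nd (nat_lit 78) (nat_lit 0) (nat_lit 0) (XT.lf (nat_lit 0) (nat_lit 3351451586354) (nat_lit 152) (nat_lit 483658315514) (nat_lit 0) (nat_lit 3349199817116) (nat_lit 1) (nat_lit 5) (nat_lit 3) (nat_lit 4) (nat_lit 1) (nat_lit 4) (nat_lit 261) (nat_lit 190)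 (nat_lit 149)) (XT.lf (nat_lit 0) (nat_lit 3855051079131) (nat_lit 152) (nat_lit 553917916201) (nat_lit 0) (nat_lit 3852798353321) (nat_lit 1) (nat_lit 5) (nat_lit 3) (nat_lit 4) (nat_lit 1) (nat_lit 4) (nat_lit 262) (nat_lit 190) (nat_lit 148))))))) (XT.nd (nat_lit 28080) (nat_lit 0) (nat_lit 0) (XT.nd (nat_lit 546) (nat_lit 0) (nat_lit 0) (XT.nd (nat_lit 234) (nat_lit 0) (nat_lit 0) (XT.nd (nat_lit 78) (nat_lit 0) (nat_lit 0) (XT.lf (nat_lit 0) (nat_lit 4434189535375) (nat_lit 152) (nat_lit 634718258218) (nat_lit 0) (nat_lit 4431935977762) (nat_lit 1) (nat_lit 5) (nat_lit 3) (nat_lit 4) (nat_lit 1) (nat_lit 4) (nat_lit 263) (nat_lit 190) (nat_lit 147)) (XT.nd (nat_lit 78) (nat_lit 0) (nat_lit 0) (XT.lf (nat_lit 0) (nat_lit 5100197924879) (nat_lit 152) (nat_lit 727640217821) (nat_lit 0) (nat_lit 5097943643960) (nat_lit 1) (nat_lit 5) (nat_lit 3) (nat_lit 4) (nat_lit 1) (nat_lit 4)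 (nat_lit 264) (nat_lit 190) (nat_lit 146)) (XT.lf (nat_lit 0) (nat_lit 5866106846571) (nat_lit 152) (nat_lit 834501833351) (nat_lit 0) (nat_lit 5863851936689) (nat_lit 1) (nat_lit 5) (nat_lit 3) (nat_lit 4) (nat_lit 1) (nat_lit 4) (nat_lit 265) (nat_lit 190) (nat_lit 145)))) (XT.nd (nat_lit 156) (nat_lit 0) (nat_lit 0) (XT.nd (nat_lit 78) (nat_lit 0) (nat_lit 0) (XT.lf (nat_lit 0) (nat_lit 6746901475003) (nat_lit 152) (nat_lit 957393875546) (nat_lit 0) (nat_lit 6744646018198) (nat_lit 1) (nat_lit 5) (nat_lit 3) (nat_lit 4) (nat_lit 1) (nat_lit 4) (nat_lit 266) (nat_lit 190) (nat_lit 144)) (XT.lf (nat_lit 0) (nat_lit 7759814748560) (nat_lit 152) (nat_lit 1098720753927) (nat_lit 0) (nat_lit 7757558816169) (nat_lit 1) (nat_lit 5) (nat_lit 3) (nat_lit 4) (nat_lit 1) (nat_lit 4) (nat_lit 267) (nat_lit 190) (nat_lit 143))) (XT.nd (nat_lit 78) (nat_lit 0) (nat_lit 0) (XT.lf (nat_lit 0) (nat_lit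 8924664535635) (nat_lit 152) (nat_lit 1261247559593) (nat_lit 0) (nat_lit 8922408189692) (nat_lit 1) (nat_lit 5) (nat_lit 3) (nat_lit 4) (nat_lit 1) (nat_lit 4) (nat_lit 268) (nat_lit 190) (nat_lit 142)) (XT.lf (nat_lit 0) (nat_lit 10264241375543) (nat_lit 152) (nat_lit 1448154164830) (nat_lit 0) (nat_lit 10261984669989) (nat_lit 1) (nat_lit 5) (nat_lit 3) (nat_lit 4) (nat_lit 1) (nat_lit 4) (nat_lit 269) (nat_lit 190) (nat_lit 141))))) (XT.nd (nat_lit 27222) (nat_lit 0) (nat_lit 152) (XT.nd (nat_lit 156) (nat_lit 0) (nat_lit 0) (XT.nd (nat_lit 78) (nat_lit 0) (nat_lit 0) (XT.lf (nat_lit 0) (nat_lit 11804754380368) (nat_lit 152) (nat_lit 1663097438000) (nat_lit 0) (nat_lit 11802497362108) (nat_lit 1) (nat_lit 5) (nat_lit 3) (nat_lit 4) (nat_lit 1) (nat_lit 4) (nat_lit 270) (nat_lit 190) (nat_lit 140)) (XT.lf (nat_lit 0) (nat_lit 13576344021943) (nat_lit 152) (nat_lit 1910282790969)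 (nat_lit 0) (nat_lit 13574086731766) (nat_lit 1) (nat_lit 5) (nat_lit 3) (nat_lit 4) (nat_lit 1) (nat_lit 4) (nat_lit 271) (nat_lit 190) (nat_lit 139))) (XT.nd (nat_lit 78) (nat_lit 0) (nat_lit 0) (XT.lf (nat_lit 0) (nat_lit 15613671836734) (nat_lit 152) (nat_lit 2194546458905) (nat_lit 0) (nat_lit 15611414310107) (nat_lit 1) (nat_lit 5) (nat_lit 3) (nat_lit 4) (nat_lit 1) (nat_lit 4) (nat_lit 272) (nat_lit 190) (nat_lit 138)) (XT.lf (nat_lit 0) (nat_lit 17956598586335) (nat_lit 152) (nat_lit 2521450122267) (nat_lit 0) (nat_lit 17954340854099) (nat_lit 1) (nat_lit 5) (nat_lit 3) (nat_lit 4) (nat_lit 1) (nat_lit 4) (nat_lit 273) (nat_lit 190) (nat_lit 137)))) (XT.nd (nat_lit 156) (nat_lit 0) (nat_lit 0) (XT.nd (nat_lit 78) (nat_lit 0) (nat_lit 0) (XT.lf (nat_lit 0) (nat_lit 2744680624) (nat_lit 76) (nat_lit 3705653485) (nat_lit 76) (nat_lit 3705653485) (nat_lit 3) (nat_lit 4) (nat_lit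 4) (nat_lit 5) (nat_lit 4) (nat_lit 4) (nat_lit 218) (nat_lit 191) (nat_lit 191)) (XT.lf (nat_lit 0) (nat_lit 12357300656) (nat_lit 76) (nat_lit 5429804771) (nat_lit 76) (nat_lit 5040109510) (nat_lit 3) (nat_lit 4) (nat_lit 4) (nat_lit 5) (nat_lit 4) (nat_lit 4) (nat_lit 219) (nat_lit 191) (nat_lit 190))) (XT.nd (nat_lit 78) (nat_lit 0) (nat_lit 0) (XT.lf (nat_lit 0) (nat_lit 19741764938) (nat_lit 76) (nat_lit 3375854107) (nat_lit 76) (nat_lit 2647293402) (nat_lit 3) (nat_lit 4) (nat_lit 4) (nat_lit 5) (nat_lit 4) (nat_lit 4) (nat_lit 220) (nat_lit 191) (nat_lit 189)) (XT.lf (nat_lit 0) (nat_lit 27787232745) (nat_lit 76) (nat_lit 1209268988) (nat_lit 76) (nat_lit 186042679) (nat_lit 3) (nat_lit 4) (nat_lit 4) (nat_lit 5) (nat_lit 4) (nat_lit 4) (nat_lit 221) (nat_lit 191) (nat_lit 188)))))) (XT.nd (nat_lit 546) (nat_lit 0) (nat_lit 0) (XT.nd (nat_lit 234) (nat_lit 0) (nat_lit 0) (XT.nd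 (nat_lit 78) (nat_lit 0) (nat_lit 0) (XT.lf (nat_lit 0) (nat_lit 2391786551) (nat_lit 152) (nat_lit 29429181589) (nat_lit 0) (nat_lit 1279215014) (nat_lit 1) (nat_lit 5) (nat_lit 3) (nat_lit 4) (nat_lit 1) (nat_lit 4) (nat_lit 222) (nat_lit 191) (nat_lit 187)) (XT.nd (nat_lit 78) (nat_lit 0) (nat_lit 0) (XT.lf (nat_lit 0) (nat_lit 5247524169) (nat_lit 152) (nat_lit 28429918390) (nat_lit 0) (nat_lit 3941205213) (nat_lit 1) (nat_lit 5) (nat_lit 3) (nat_lit 4) (nat_lit 1) (nat_lit 4) (nat_lit 223) (nat_lit 191) (nat_lit 186)) (XT.lf (nat_lit 0) (nat_lit 8337089442) (nat_lit 152) (nat_lit 27645592138) (nat_lit 0) (nat_lit 6862294472) (nat_lit 1) (nat_lit 5) (nat_lit 3) (nat_lit 4) (nat_lit 1) (nat_lit 4) (nat_lit 224) (nat_lit 191) (nat_lit 185)))) (XT.nd (nat_lit 156) (nat_lit 0) (nat_lit 0) (XT.nd (nat_lit 78) (nat_lit 0) (nat_lit 0) (XT.lf (nat_lit 0) (nat_lit 11720930388) (nat_lit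 152) (nat_lit 27060857322) (nat_lit 0) (nat_lit 10099634534) (nat_lit 1) (nat_lit 5) (nat_lit 3) (nat_lit 4) (nat_lit 1) (nat_lit 4) (nat_lit 225) (nat_lit 191) (nat_lit 184)) (XT.lf (nat_lit 0) (nat_lit 15465252589) (nat_lit 152) (nat_lit 26664273476) (nat_lit 0) (nat_lit 13716564663) (nat_lit 1) (nat_lit 5) (nat_lit 3) (nat_lit 4) (nat_lit 1) (nat_lit 4) (nat_lit 226) (nat_lit 191) (nat_lit 183))) (XT.nd (nat_lit 78) (nat_lit 0) (nat_lit 0) (XT.lf (nat_lit 0) (nat_lit 19643314524) (nat_lit 152) (nat_lit 26448081352) (nat_lit 0) (nat_lit 17783850884) (nat_lit 1) (nat_lit 5) (nat_lit 3) (nat_lit 4) (nat_lit 1) (nat_lit 4) (nat_lit 227) (nat_lit 191) (nat_lit 182)) (XT.lf (nat_lit 0) (nat_lit 24336860883) (nat_lit 152) (nat_lit 26408051104) (nat_lit 0) (nat_lit 22381070534) (nat_lit 1) (nat_lit 5) (nat_lit 3) (nat_lit 4) (nat_lit 1) (nat_lit 4) (nat_lit 228) (nat_lit 191) (nat_lit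 181))))) (XT.nd (nat_lit 312) (nat_lit 0) (nat_lit 0) (XT.nd (nat_lit 156) (nat_lit 0) (nat_lit 0) (XT.nd (nat_lit 78) (nat_lit 0) (nat_lit 0) (XT.lf (nat_lit 0) (nat_lit 29637721920) (nat_lit 152) (nat_lit 26543399531) (nat_lit 0) (nat_lit 27598169216) (nat_lit 1) (nat_lit 5) (nat_lit 3) (nat_lit 4) (nat_lit 1) (nat_lit 4) (nat_lit 229) (nat_lit 191) (nat_lit 180)) (XT.lf (nat_lit 0) (nat_lit 35649610135) (nat_lit 152) (nat_lit 26856774755) (nat_lit 0) (nat_lit 33537220600) (nat_lit 1) (nat_lit 5) (nat_lit 3) (nat_lit 4) (nat_lit 1) (nat_lit 4) (nat_lit 230) (nat_lit 191) (nat_lit 179))) (XT.nd (nat_lit 78) (nat_lit 0) (nat_lit 0) (XT.lf (nat_lit 0) (nat_lit 42490149426) (nat_lit 152) (nat_lit 27354308030) (nat_lit 0) (nat_lit 40314423517) (nat_lit 1) (nat_lit 5) (nat_lit 3) (nat_lit 4) (nat_lit 1) (nat_lit 4) (nat_lit 231) (nat_lit 191) (nat_lit 178)) (XT.lf (nat_lit 0) (nat_lit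 50293176433) (nat_lit 152) (nat_lit 28045733702) (nat_lit 0) (nat_lit 48062375415) (nat_lit 1) (nat_lit 5) (nat_lit 3) (nat_lit 4) (nat_lit 1) (nat_lit 4) (nat_lit 232) (nat_lit 191) (nat_lit 177)))) (XT.nd (nat_lit 156) (nat_lit 0) (nat_lit 0) (XT.nd (nat_lit 78) (nat_lit 0) (nat_lit 0) (XT.lf (nat_lit 0) (nat_lit 59211359075) (nat_lit 152) (nat_lit 28944579666) (nat_lit 0) (nat_lit 56932666659) (nat_lit 1) (nat_lit 5) (nat_lit 3) (nat_lit 4) (nat_lit 1) (nat_lit 4) (nat_lit 233) (nat_lit 191) (nat_lit 176)) (XT.lf (nat_lit 0) (nat_lit 69419183534) (nat_lit 152) (nat_lit 30068432039) (nat_lit 0) (nat_lit 67098846423) (nat_lit 1) (nat_lit 5) (nat_lit 3) (nat_lit 4) (nat_lit 1) (nat_lit 4) (nat_lit 234) (nat_lit 191) (nat_lit 175))) (XT.nd (nat_lit 78) (nat_lit 0) (nat_lit 0) (XT.lf (nat_lit 0) (nat_lit 81116368114) (nat_lit 152) (nat_lit 31439279235) (nat_lit 0) (nat_lit 78759818226)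 (nat_lit 1) (nat_lit 5) (nat_lit 3) (nat_lit 4) (nat_lit 1) (nat_lit 4) (nat_lit 235) (nat_lit 191) (nat_lit 174)) (XT.lf (nat_lit 0) (nat_lit 94531770776) (nat_lit 152) (nat_lit 33083942179) (nat_lit 0) (nat_lit 92143731516) (nat_lit 1) (nat_lit 5) (nat_lit 3) (nat_lit 4) (nat_lit 1) (nat_lit 4) (nat_lit 236) (nat_lit 191) (nat_lit 173))))))))
noncomputable def xc15 : XT := (XT.nd (nat_lit 2340) (nat_lit 0) (nat_lit 0) (XT.nd (nat_lit 1170) (nat_lit 0) (nat_lit 0) (XT.nd (nat_lit 546) (nat_lit 0) (nat_lit 0) (XT.nd (nat_lit 234) (nat_lit 0) (nat_lit 0) (XT.nd (nat_lit 78) (nat_lit 0) (nat_lit 0) (XT.lf (nat_lit 0) (nat_lit 109927866788) (nat_lit 152) (nat_lit 35034599058) (nat_lit 0) (nat_lit 107512445465) (nat_lit 1) (nat_lit 5) (nat_lit 3) (nat_lit 4) (nat_lit 1) (nat_lit 4) (nat_lit 237) (nat_lit 191) (nat_lit 172)) (XT.nd (nat_lit 78) (nat_lit 0) (nat_lit 0) (XT.lf (nat_lit 0)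 (nat_lit 127605884115) (nat_lit 152) (nat_lit 37329414898) (nat_lit 0) (nat_lit 125166652304) (nat_lit 1) (nat_lit 5) (nat_lit 3) (nat_lit 4) (nat_lit 1) (nat_lit 4) (nat_lit 238) (nat_lit 191) (nat_lit 171)) (XT.lf (nat_lit 0) (nat_lit 147911697011) (nat_lit 152) (nat_lit 40013288271) (nat_lit 0) (nat_lit 145451760426) (nat_lit 1) (nat_lit 5) (nat_lit 3) (nat_lit 4) (nat_lit 1) (nat_lit 4) (nat_lit 239) (nat_lit 191) (nat_lit 170)))) (XT.nd (nat_lit 156) (nat_lit 0) (nat_lit 0) (XT.nd (nat_lit 78) (nat_lit 0) (nat_lit 0) (XT.lf (nat_lit 0) (nat_lit 171242593118) (nat_lit 152) (nat_lit 43138729742) (nat_lit 0) (nat_lit 168764652383) (nat_lit 1) (nat_lit 5) (nat_lit 3) (nat_lit 4) (nat_lit 1) (nat_lit 4) (nat_lit 240) (nat_lit 191) (nat_lit 169)) (XT.lf (nat_lit 0) (nat_lit 198055046491) (nat_lit 152) (nat_lit 46766889253) (nat_lit 0) (nat_lit 195561449973) (nat_lit 1) (nat_lit 5)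 (nat_lit 3) (nat_lit 4) (nat_lit 1) (nat_lit 4) (nat_lit 241) (nat_lit 191) (nat_lit 168))) (XT.nd (nat_lit 78) (nat_lit 0) (nat_lit 0) (XT.lf (nat_lit 0) (nat_lit 228873648609) (nat_lit 152) (nat_lit 50968752533) (nat_lit 0) (nat_lit 226366438366) (nat_lit 1) (nat_lit 5) (nat_lit 3) (nat_lit 4) (nat_lit 1) (nat_lit 4) (nat_lit 242) (nat_lit 191) (nat_lit 167)) (XT.lf (nat_lit 0) (nat_lit 264301372122) (nat_lit 152) (nat_lit 55826529952) (nat_lit 0) (nat_lit 261782323857) (nat_lit 1) (nat_lit 5) (nat_lit 3) (nat_lit 4) (nat_lit 1) (nat_lit 4) (nat_lit 243) (nat_lit 191) (nat_lit 166))))) (XT.nd (nat_lit 312) (nat_lit 0) (nat_lit 0) (XT.nd (nat_lit 156) (nat_lit 0) (nat_lit 0) (XT.nd (nat_lit 78) (nat_lit 0) (nat_lit 0) (XT.lf (nat_lit 0) (nat_lit 305031368142) (nat_lit 152) (nat_lit 61435264979) (nat_lit 0) (nat_lit 302502025946) (nat_lit 1) (nat_lit 5) (nat_lit 3) (nat_lit 4) (nat_lit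 1) (nat_lit 4) (nat_lit 244) (nat_lit 191) (nat_lit 165)) (XT.lf (nat_lit 0) (nat_lit 351860527895) (nat_lit 152) (nat_lit 67904693737) (nat_lit 0) (nat_lit 349322234455) (nat_lit 1) (nat_lit 5) (nat_lit 3) (nat_lit 4) (nat_lit 1) (nat_lit 4) (nat_lit 245) (nat_lit 191) (nat_lit 164))) (XT.nd (nat_lit 78) (nat_lit 0) (nat_lit 0) (XT.lf (nat_lit 0) (nat_lit 405705074073) (nat_lit 152) (nat_lit 75361392003) (nat_lit 0) (nat_lit 403158996941) (nat_lit 1) (nat_lit 5) (nat_lit 3) (nat_lit 4) (nat_lit 1) (nat_lit 4) (nat_lit 246) (nat_lit 191) (nat_lit 163)) (XT.lf (nat_lit 0) (nat_lit 467618486927) (nat_lit 152) (nat_lit 83951251702) (nat_lit 0) (nat_lit 465065641368) (nat_lit 1) (nat_lit 5) (nat_lit 3) (nat_lit 4) (nat_lit 1) (nat_lit 4) (nat_lit 247) (nat_lit 191) (nat_lit 162)))) (XT.nd (nat_lit 156) (nat_lit 0) (nat_lit 0) (XT.nd (nat_lit 78) (nat_lit 0) (nat_lit 0) (XT.lf (nat_lit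 0) (nat_lit 538812115839) (nat_lit 152) (nat_lit 93842335305) (nat_lit 0) (nat_lit 536253384691) (nat_lit 1) (nat_lit 5) (nat_lit 3) (nat_lit 4) (nat_lit 1) (nat_lit 4) (nat_lit 248) (nat_lit 191) (nat_lit 161)) (XT.lf (nat_lit 0) (nat_lit 620678879634) (nat_lit 152) (nat_lit 105228164013) (nat_lit 0) (nat_lit 618115030583) (nat_lit 1) (nat_lit 5) (nat_lit 3) (nat_lit 4) (nat_lit 1) (nat_lit 4) (nat_lit 249) (nat_lit 191) (nat_lit 160))) (XT.nd (nat_lit 78) (nat_lit 0) (nat_lit 0) (XT.lf (nat_lit 0) (nat_lit 714820519345) (nat_lit 152) (nat_lit 118331504041) (nat_lit 0) (nat_lit 712252219943) (nat_lit 1) (nat_lit 5) (nat_lit 3) (nat_lit 4) (nat_lit 1) (nat_lit 4) (nat_lit 250) (nat_lit 191) (nat_lit 159)) (XT.lf (nat_lit 0) (nat_lit 823078936617) (nat_lit 152) (nat_lit 133408725084) (nat_lit 0) (nat_lit 820506767345) (nat_lit 1) (nat_lit 5) (nat_lit 3) (nat_lit 4) (nat_lit 1) (nat_lit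 4) (nat_lit 251) (nat_lit 191) (nat_lit 158)))))) (XT.nd (nat_lit 546) (nat_lit 0) (nat_lit 0) (XT.nd (nat_lit 234) (nat_lit 0) (nat_lit 0) (XT.nd (nat_lit 78) (nat_lit 0) (nat_lit 0) (XT.lf (nat_lit 0) (nat_lit 947572230919) (nat_lit 152) (nat_lit 150754816250) (nat_lit 0) (nat_lit 944996696543) (nat_lit 1) (nat_lit 5) (nat_lit 3) (nat_lit 4) (nat_lit 1) (nat_lit 4) (nat_lit 252) (nat_lit 191) (nat_lit 157)) (XT.nd (nat_lit 78) (nat_lit 0) (nat_lit 0) (XT.lf (nat_lit 0) (nat_lit 1090736140618) (nat_lit 152) (nat_lit 170709157583) (nat_lit 0) (nat_lit 1088157680064) (nat_lit 1) (nat_lit 5) (nat_lit 3) (nat_lit 4) (nat_lit 1) (nat_lit 4) (nat_lit 253) (nat_lit 191) (nat_lit 156)) (XT.lf (nat_lit 0) (nat_lit 1255371698730) (nat_lit 152) (nat_lit 193662160109) (nat_lit 0) (nat_lit 1252790693673) (nat_lit 1) (nat_lit 5) (nat_lit 3) (nat_lit 4) (nat_lit 1) (nat_lit 4) (nat_lit 254) (nat_lit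 191) (nat_lit 155)))) (XT.nd (nat_lit 156) (nat_lit 0) (nat_lit 0) (XT.nd (nat_lit 78) (nat_lit 0) (nat_lit 0) (XT.lf (nat_lit 0) (nat_lit 1444700035738) (nat_lit 152) (nat_lit 220062904313) (nat_lit 0) (nat_lit 1442116818071) (nat_lit 1) (nat_lit 5) (nat_lit 3) (nat_lit 4) (nat_lit 1) (nat_lit 4) (nat_lit 255) (nat_lit 191) (nat_lit 154)) (XT.lf (nat_lit 0) (nat_lit 1662425401716) (nat_lit 152) (nat_lit 250427926495) (nat_lit 0) (nat_lit 1659840260039) (nat_lit 1) (nat_lit 5) (nat_lit 3) (nat_lit 4) (nat_lit 1) (nat_lit 4) (nat_lit 256) (nat_lit 191) (nat_lit 153))) (XT.nd (nat_lit 78) (nat_lit 0) (nat_lit 0) (XT.lf (nat_lit 0) (nat_lit 1912807640780) (nat_lit 152) (nat_lit 285351324913) (nat_lit 0) (nat_lit 1910220826052) (nat_lit 1) (nat_lit 5) (nat_lit 3) (nat_lit 4) (nat_lit 1) (nat_lit 4) (nat_lit 257) (nat_lit 191) (nat_lit 152)) (XT.lf (nat_lit 0) (nat_lit 2200745535869) (nat_lit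 152) (nat_lit 325516383451) (nat_lit 0) (nat_lit 2198157266313) (nat_lit 1) (nat_lit 5) (nat_lit 3) (nat_lit 4) (nat_lit 1) (nat_lit 4) (nat_lit 258) (nat_lit 191) (nat_lit 151))))) (XT.nd (nat_lit 312) (nat_lit 0) (nat_lit 0) (XT.nd (nat_lit 156) (nat_lit 0) (nat_lit 0) (XT.nd (nat_lit 78) (nat_lit 0) (nat_lit 0) (XT.lf (nat_lit 0) (nat_lit 2531872654494) (nat_lit 152) (nat_lit 371708940211) (nat_lit 0) (nat_lit 2529283119871) (nat_lit 1) (nat_lit 5) (nat_lit 3) (nat_lit 4) (nat_lit 1) (nat_lit 4) (nat_lit 259) (nat_lit 191) (nat_lit 150)) (XT.lf (nat_lit 0) (nat_lit 2912667570717) (nat_lit 152) (nat_lit 424832762606) (nat_lit 0) (nat_lit 2910076936035) (nat_lit 1) (nat_lit 5) (nat_lit 3) (nat_lit 4) (nat_lit 1) (nat_lit 4) (nat_lit 260) (nat_lit 191) (nat_lit 149))) (XT.nd (nat_lit 78) (nat_lit 0) (nat_lit 0) (XT.lf (nat_lit 0) (nat_lit 3350580619853) (nat_lit 152) (nat_lit 485927229772)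 (nat_lit 0) (nat_lit 3347989028599) (nat_lit 1) (nat_lit 5) (nat_lit 3) (nat_lit 4) (nat_lit 1) (nat_lit 4) (nat_lit 261) (nat_lit 191) (nat_lit 148)) (XT.lf (nat_lit 0) (nat_lit 3854179665910) (nat_lit 152) (nat_lit 556187668238) (nat_lit 0) (nat_lit 3851587242853) (nat_lit 1) (nat_lit 5) (nat_lit 3) (nat_lit 4) (nat_lit 1) (nat_lit 4) (nat_lit 262) (nat_lit 191) (nat_lit 147)))) (XT.nd (nat_lit 156) (nat_lit 0) (nat_lit 0) (XT.nd (nat_lit 78) (nat_lit 0) (nat_lit 0) (XT.lf (nat_lit 0) (nat_lit 4433317733699) (nat_lit 152) (nat_lit 636988738759) (nat_lit 0) (nat_lit 4430724587336) (nat_lit 1) (nat_lit 5) (nat_lit 3) (nat_lit 4) (nat_lit 1) (nat_lit 4) (nat_lit 263) (nat_lit 191) (nat_lit 146)) (XT.lf (nat_lit 0) (nat_lit 5099325785418) (nat_lit 152) (nat_lit 729911331844) (nat_lit 0) (nat_lit 5096732010093) (nat_lit 1) (nat_lit 5) (nat_lit 3) (nat_lit 4) (nat_lit 1) (nat_lit 4) (nat_lit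 264) (nat_lit 191) (nat_lit 145))) (XT.nd (nat_lit 78) (nat_lit 0) (nat_lit 0) (XT.lf (nat_lit 0) (nat_lit 5865234413383) (nat_lit 152) (nat_lit 836773498228) (nat_lit 0) (nat_lit 5862640091134) (nat_lit 1) (nat_lit 5) (nat_lit 3) (nat_lit 4) (nat_lit 1) (nat_lit 4) (nat_lit 265) (nat_lit 191) (nat_lit 144)) (XT.lf (nat_lit 0) (nat_lit 6746028786401) (nat_lit 152) (nat_lit 959666019426) (nat_lit 0) (nat_lit 6743433988566) (nat_lit 1) (nat_lit 5) (nat_lit 3) (nat_lit 4) (nat_lit 1) (nat_lit 4) (nat_lit 266) (nat_lit 191) (nat_lit 143))))))) (XT.nd (nat_lit 27768) (nat_lit 0) (nat_lit 0) (XT.nd (nat_lit 1014) (nat_lit 0) (nat_lit 0) (XT.nd (nat_lit 234) (nat_lit 0) (nat_lit 0) (XT.nd (nat_lit 78) (nat_lit 0) (nat_lit 0) (XT.lf (nat_lit 0) (nat_lit 7758941837858) (nat_lit 152) (nat_lit 1100993314332) (nat_lit 0) (nat_lit 7756346626471) (nat_lit 1) (nat_lit 5) (nat_lit 3) (nat_lit 4)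 (nat_lit 1) (nat_lit 4) (nat_lit 267) (nat_lit 191) (nat_lit 142)) (XT.nd (nat_lit 78) (nat_lit 0) (nat_lit 0) (XT.lf (nat_lit 0) (nat_lit 8923791431804) (nat_lit 152) (nat_lit 1263520482194) (nat_lit 0) (nat_lit 8921195860805) (nat_lit 1) (nat_lit 5) (nat_lit 3) (nat_lit 4) (nat_lit 1) (nat_lit 4) (nat_lit 268) (nat_lit 191) (nat_lit 141)) (XT.lf (nat_lit 0) (nat_lit 10263368103772) (nat_lit 152) (nat_lit 1450427402383) (nat_lit 0) (nat_lit 10260772220068) (nat_lit 1) (nat_lit 5) (nat_lit 3) (nat_lit 4) (nat_lit 1) (nat_lit 4) (nat_lit 269) (nat_lit 191) (nat_lit 140)))) (XT.nd (nat_lit 156) (nat_lit 0) (nat_lit 0) (XT.nd (nat_lit 78) (nat_lit 0) (nat_lit 0) (XT.lf (nat_lit 0) (nat_lit 11803880962563) (nat_lit 152) (nat_lit 1665370949424) (nat_lit 0) (nat_lit 11801284806941) (nat_lit 1) (nat_lit 5) (nat_lit 3) (nat_lit 4) (nat_lit 1) (nat_lit 4) (nat_lit 270) (nat_lit 191) (nat_lit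 139)) (XT.lf (nat_lit 0) (nat_lit 13575470477152) (nat_lit 152) (nat_lit 1912556540543) (nat_lit 0) (nat_lit 13572874085080) (nat_lit 1) (nat_lit 5) (nat_lit 3) (nat_lit 4) (nat_lit 1) (nat_lit 4) (nat_lit 271) (nat_lit 191) (nat_lit 138))) (XT.nd (nat_lit 546) (nat_lit 0) (nat_lit 0) (XT.lf (nat_lit 0) (nat_lit 15612798181520) (nat_lit 152) (nat_lit 2196820415565) (nat_lit 0) (nat_lit 15610201583840) (nat_lit 1) (nat_lit 5) (nat_lit 3) (nat_lit 4) (nat_lit 1) (nat_lit 4) (nat_lit 272) (nat_lit 191) (nat_lit 137)) (XT.lf (nat_lit 0) (nat_lit 41541492982844) (nat_lit 152) (nat_lit 5814607151537) (nat_lit 0) (nat_lit 41538895529744) (nat_lit 1) (nat_lit 5) (nat_lit 3) (nat_lit 4) (nat_lit 1) (nat_lit 4) (nat_lit 279) (nat_lit 191) (nat_lit 130))))) (XT.nd (nat_lit 26442) (nat_lit 0) (nat_lit 152) (XT.nd (nat_lit 26286) (nat_lit 0) (nat_lit 228) (XT.nd (nat_lit 78) (nat_lit 0) (nat_lit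 0) (XT.lf (nat_lit 0) (nat_lit 47773722997736) (nat_lit 152) (nat_lit 6684180616124) (nat_lit 0) (nat_lit 47771125477423) (nat_lit 1) (nat_lit 5) (nat_lit 3) (nat_lit 4) (nat_lit 1) (nat_lit 4) (nat_lit 280) (nat_lit 191) (nat_lit 129)) (XT.lf (nat_lit 0) (nat_lit 54940787447376) (nat_lit 152) (nat_lit 7684190226963) (nat_lit 0) (nat_lit 54938189868616) (nat_lit 1) (nat_lit 5) (nat_lit 3) (nat_lit 4) (nat_lit 1) (nat_lit 4) (nat_lit 281) (nat_lit 191) (nat_lit 128))) (XT.nd (nat_lit 78) (nat_lit 0) (nat_lit 0) (XT.lf (nat_lit 0) (nat_lit 2498221794) (nat_lit 152) (nat_lit 3147864134) (nat_lit 0) (nat_lit 2498221794) (nat_lit 4) (nat_lit 5) (nat_lit 6) (nat_lit 4) (nat_lit 4) (nat_lit 4) (nat_lit 216) (nat_lit 192) (nat_lit 192)) (XT.lf (nat_lit 0) (nat_lit 8852112639) (nat_lit 152) (nat_lit 907717278) (nat_lit 0) (nat_lit 8403963089) (nat_lit 4) (nat_lit 5) (nat_lit 6) (nat_lit 4)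 (nat_lit 4) (nat_lit 4) (nat_lit 217) (nat_lit 192) (nat_lit 191)))) (XT.nd (nat_lit 156) (nat_lit 0) (nat_lit 0) (XT.nd (nat_lit 78) (nat_lit 0) (nat_lit 0) (XT.lf (nat_lit 0) (nat_lit 5214609647) (nat_lit 76) (nat_lit 7979686006) (nat_lit 76) (nat_lit 7141841195) (nat_lit 3) (nat_lit 4) (nat_lit 4) (nat_lit 5) (nat_lit 4) (nat_lit 4) (nat_lit 218) (nat_lit 192) (nat_lit 190)) (XT.lf (nat_lit 0) (nat_lit 11843634619) (nat_lit 76) (nat_lit 6102731186) (nat_lit 76) (nat_lit 4926020931) (nat_lit 3) (nat_lit 4) (nat_lit 4) (nat_lit 5) (nat_lit 4) (nat_lit 4) (nat_lit 219) (nat_lit 192) (nat_lit 189))) (XT.nd (nat_lit 78) (nat_lit 0) (nat_lit 0) (XT.lf (nat_lit 0) (nat_lit 19020347219) (nat_lit 76) (nat_lit 4139691287) (nat_lit 76) (nat_lit 2668315428) (nat_lit 3) (nat_lit 4) (nat_lit 4) (nat_lit 5) (nat_lit 4) (nat_lit 4) (nat_lit 220) (nat_lit 192) (nat_lit 188)) (XT.lf (nat_lit 0)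 (nat_lit 26885161387) (nat_lit 76) (nat_lit 2052159007) (nat_lit 76) (nat_lit 324552188) (nat_lit 3) (nat_lit 4) (nat_lit 4) (nat_lit 5) (nat_lit 4) (nat_lit 4) (nat_lit 221) (nat_lit 192) (nat_lit 187)))))) (XT.nd (nat_lit 546) (nat_lit 0) (nat_lit 0) (XT.nd (nat_lit 234) (nat_lit 0) (nat_lit 0) (XT.nd (nat_lit 78) (nat_lit 0) (nat_lit 0) (XT.lf (nat_lit 0) (nat_lit 2079920000) (nat_lit 152) (nat_lit 30744887961) (nat_lit 0) (nat_lit 383905784) (nat_lit 1) (nat_lit 5) (nat_lit 3) (nat_lit 4) (nat_lit 1) (nat_lit 4) (nat_lit 222) (nat_lit 192) (nat_lit 186)) (XT.nd (nat_lit 78) (nat_lit 0) (nat_lit 0) (XT.lf (nat_lit 0) (nat_lit 4845177159) (nat_lit 152) (nat_lit 29915311472) (nat_lit 0) (nat_lit 2980686927) (nat_lit 1) (nat_lit 5) (nat_lit 3) (nat_lit 4) (nat_lit 1) (nat_lit 4) (nat_lit 223) (nat_lit 192) (nat_lit 185)) (XT.lf (nat_lit 0) (nat_lit 7856063772) (nat_lit 152) (nat_lit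 29278538883) (nat_lit 0) (nat_lit 5845072657) (nat_lit 1) (nat_lit 5) (nat_lit 3) (nat_lit 4) (nat_lit 1) (nat_lit 4) (nat_lit 224) (nat_lit 192) (nat_lit 184)))) (XT.nd (nat_lit 156) (nat_lit 0) (nat_lit 0) (XT.nd (nat_lit 78) (nat_lit 0) (nat_lit 0) (XT.lf (nat_lit 0) (nat_lit 11171488492) (nat_lit 152) (nat_lit 28822111598) (nat_lit 0) (nat_lit 9033105305) (nat_lit 1) (nat_lit 5) (nat_lit 3) (nat_lit 4) (nat_lit 1) (nat_lit 4) (nat_lit 225) (nat_lit 192) (nat_lit 183)) (XT.lf (nat_lit 0) (nat_lit 14856318322) (nat_lit 152) (nat_lit 28537099519) (nat_lit 0) (nat_lit 12607159421) (nat_lit 1) (nat_lit 5) (nat_lit 3) (nat_lit 4) (nat_lit 1) (nat_lit 4) (nat_lit 226) (nat_lit 192) (nat_lit 182))) (XT.nd (nat_lit 78) (nat_lit 0) (nat_lit 0) (XT.lf (nat_lit 0) (nat_lit 18982647761) (nat_lit 152) (nat_lit 28417926322) (nat_lit 0) (nat_lit 16637162151) (nat_lit 1) (nat_lit 5) (nat_lit 3)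 (nat_lit 4) (nat_lit 1) (nat_lit 4) (nat_lit 227) (nat_lit 192) (nat_lit 181)) (XT.lf (nat_lit 0) (nat_lit 23631209341) (nat_lit 152) (nat_lit 28462260359) (nat_lit 0) (nat_lit 21201961376) (nat_lit 1) (nat_lit 5) (nat_lit 3) (nat_lit 4) (nat_lit 1) (nat_lit 4) (nat_lit 228) (nat_lit 192) (nat_lit 180))))) (XT.nd (nat_lit 312) (nat_lit 0) (nat_lit 0) (XT.nd (nat_lit 156) (nat_lit 0) (nat_lit 0) (XT.nd (nat_lit 78) (nat_lit 0) (nat_lit 0) (XT.lf (nat_lit 0) (nat_lit 28892953179) (nat_lit 152) (nat_lit 28670969034) (nat_lit 0) (nat_lit 26390868383) (nat_lit 1) (nat_lit 5) (nat_lit 3) (nat_lit 4) (nat_lit 1) (nat_lit 4) (nat_lit 229) (nat_lit 192) (nat_lit 179)) (XT.lf (nat_lit 0) (nat_lit 34870826438) (nat_lit 152) (nat_lit 29048135778) (nat_lit 0) (nat_lit 32305405267) (nat_lit 1) (nat_lit 5) (nat_lit 3) (nat_lit 4) (nat_lit 1) (nat_lit 4) (nat_lit 230) (nat_lit 192) (nat_lit 178)))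 (XT.nd (nat_lit 78) (nat_lit 0) (nat_lit 0) (XT.lf (nat_lit 0) (nat_lit 41681787507) (nat_lit 152) (nat_lit 29601139939) (nat_lit 0) (nat_lit 39061291228) (nat_lit 1) (nat_lit 5) (nat_lit 3) (nat_lit 4) (nat_lit 1) (nat_lit 4) (nat_lit 231) (nat_lit 192) (nat_lit 177)) (XT.lf (nat_lit 0) (nat_lit 49459094320) (nat_lit 152) (nat_lit 30340801166) (nat_lit 0) (nat_lit 46790706643) (nat_lit 1) (nat_lit 5) (nat_lit 3) (nat_lit 4) (nat_lit 1) (nat_lit 4) (nat_lit 232) (nat_lit 192) (nat_lit 176)))) (XT.nd (nat_lit 156) (nat_lit 0) (nat_lit 0) (XT.nd (nat_lit 78) (nat_lit 0) (nat_lit 0) (XT.lf (nat_lit 0) (nat_lit 58354911576) (nat_lit 152) (nat_lit 31281591090) (nat_lit 0) (nat_lit 55644879204) (nat_lit 1) (nat_lit 5) (nat_lit 3) (nat_lit 4) (nat_lit 1) (nat_lit 4) (nat_lit 233) (nat_lit 192) (nat_lit 175)) (XT.lf (nat_lit 0) (nat_lit 68543287873) (nat_lit 152) (nat_lit 32441916470) (nat_lit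 0) (nat_lit 65797042724) (nat_lit 1) (nat_lit 5) (nat_lit 3) (nat_lit 4) (nat_lit 1) (nat_lit 4) (nat_lit 234) (nat_lit 192) (nat_lit 174))) (XT.nd (nat_lit 78) (nat_lit 0) (nat_lit 0) (XT.lf (nat_lit 0) (nat_lit 80223561009) (nat_lit 152) (nat_lit 33844479326) (nat_lit 0) (nat_lit 77445826488) (nat_lit 1) (nat_lit 5) (nat_lit 3) (nat_lit 4) (nat_lit 1) (nat_lit 4) (nat_lit 235) (nat_lit 192) (nat_lit 173)) (XT.lf (nat_lit 0) (nat_lit 93624258067) (nat_lit 152) (nat_lit 35516721104) (nat_lit 0) (nat_lit 90819141483) (nat_lit 1) (nat_lit 5) (nat_lit 3) (nat_lit 4) (nat_lit 1) (nat_lit 4) (nat_lit 236) (nat_lit 192) (nat_lit 172))))))))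
noncomputable def xc16 : XT := (XT.nd (nat_lit 2262) (nat_lit 0) (nat_lit 0) (XT.nd (nat_lit 1092) (nat_lit 0) (nat_lit 0) (XT.nd (nat_lit 546) (nat_lit 0) (nat_lit 0) (XT.nd (nat_lit 234) (nat_lit 0) (nat_lit 0) (XT.nd (nat_lit 78) (nat_lit 0) (nat_lit 0) (XT.lf (nat_lit 0) (nat_lit 109007566597) (nat_lit 152) (nat_lit 37491359578) (nat_lit 0) (nat_lit 106178639524) (nat_lit 1) (nat_lit 5) (nat_lit 3) (nat_lit 4) (nat_lit 1) (nat_lit 4) (nat_lit 237) (nat_lit 192) (nat_lit 171)) (XT.nd (nat_lit 78) (nat_lit 0) (nat_lit 0) (XT.lf (nat_lit 0) (nat_lit 126674464375) (nat_lit 152) (nat_lit 39807028980) (nat_lit 0) (nat_lit 123824832529) (nat_lit 1) (nat_lit 5) (nat_lit 3) (nat_lit 4) (nat_lit 1) (nat_lit 4) (nat_lit 238) (nat_lit 192) (nat_lit 170)) (XT.lf (nat_lit 0) (nat_lit 146970608097) (nat_lit 152) (nat_lit 42509035884) (nat_lit 0) (nat_lit 144102972101) (nat_lit 1) (nat_lit 5)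 (nat_lit 3) (nat_lit 4) (nat_lit 1) (nat_lit 4) (nat_lit 239) (nat_lit 192) (nat_lit 169)))) (XT.nd (nat_lit 156) (nat_lit 0) (nat_lit 0) (XT.nd (nat_lit 78) (nat_lit 0) (nat_lit 0) (XT.lf (nat_lit 0) (nat_lit 170293096228) (nat_lit 152) (nat_lit 45650245643) (nat_lit 0) (nat_lit 167409804448) (nat_lit 1) (nat_lit 5) (nat_lit 3) (nat_lit 4) (nat_lit 1) (nat_lit 4) (nat_lit 240) (nat_lit 192) (nat_lit 168)) (XT.lf (nat_lit 0) (nat_lit 197098238316) (nat_lit 152) (nat_lit 49292116709) (nat_lit 0) (nat_lit 194201332812) (nat_lit 1) (nat_lit 5) (nat_lit 3) (nat_lit 4) (nat_lit 1) (nat_lit 4) (nat_lit 241) (nat_lit 192) (nat_lit 167))) (XT.nd (nat_lit 78) (nat_lit 0) (nat_lit 0) (XT.lf (nat_lit 0) (nat_lit 227910482796) (nat_lit 152) (nat_lit 53505903080) (nat_lit 0) (nat_lit 225001739270) (nat_lit 1) (nat_lit 5) (nat_lit 3) (nat_lit 4) (nat_lit 1) (nat_lit 4) (nat_lit 242) (nat_lit 192)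 (nat_lit 166)) (XT.lf (nat_lit 0) (nat_lit 263332677927) (nat_lit 152) (nat_lit 58374048404) (nat_lit 0) (nat_lit 260413640470) (nat_lit 1) (nat_lit 5) (nat_lit 3) (nat_lit 4) (nat_lit 1) (nat_lit 4) (nat_lit 243) (nat_lit 192) (nat_lit 165))))) (XT.nd (nat_lit 234) (nat_lit 0) (nat_lit 0) (XT.nd (nat_lit 78) (nat_lit 0) (nat_lit 0) (XT.lf (nat_lit 0) (nat_lit 304057866659) (nat_lit 152) (nat_lit 63991799002) (nat_lit 0) (nat_lit 301129877957) (nat_lit 1) (nat_lit 5) (nat_lit 3) (nat_lit 4) (nat_lit 1) (nat_lit 4) (nat_lit 244) (nat_lit 192) (nat_lit 164)) (XT.nd (nat_lit 78) (nat_lit 0) (nat_lit 0) (XT.lf (nat_lit 0) (nat_lit 350882846162) (nat_lit 152) (nat_lit 70469067385) (nat_lit 0) (nat_lit 347947073769) (nat_lit 1) (nat_lit 5) (nat_lit 3) (nat_lit 4) (nat_lit 1) (nat_lit 4) (nat_lit 245) (nat_lit 192) (nat_lit 163)) (XT.lf (nat_lit 0) (nat_lit 404723757340) (nat_lit 152) (nat_lit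 77932582718) (nat_lit 0) (nat_lit 401781216520) (nat_lit 1) (nat_lit 5) (nat_lit 3) (nat_lit 4) (nat_lit 1) (nat_lit 4) (nat_lit 246) (nat_lit 192) (nat_lit 162)))) (XT.nd (nat_lit 156) (nat_lit 0) (nat_lit 0) (XT.nd (nat_lit 78) (nat_lit 0) (nat_lit 0) (XT.lf (nat_lit 0) (nat_lit 466634009323) (nat_lit 152) (nat_lit 86528370300) (nat_lit 0) (nat_lit 463685582915) (nat_lit 1) (nat_lit 5) (nat_lit 3) (nat_lit 4) (nat_lit 1) (nat_lit 4) (nat_lit 247) (nat_lit 192) (nat_lit 161)) (XT.lf (nat_lit 0) (nat_lit 537824889652) (nat_lit 152) (nat_lit 96424608584) (nat_lit 0) (nat_lit 534871345341) (nat_lit 1) (nat_lit 5) (nat_lit 3) (nat_lit 4) (nat_lit 1) (nat_lit 4) (nat_lit 248) (nat_lit 192) (nat_lit 160))) (XT.nd (nat_lit 78) (nat_lit 0) (nat_lit 0) (XT.lf (nat_lit 0) (nat_lit 619689263376) (nat_lit 152) (nat_lit 107814919624) (nat_lit 0) (nat_lit 616731268714) (nat_lit 1) (nat_lit 5)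 (nat_lit 3) (nat_lit 4) (nat_lit 1) (nat_lit 4) (nat_lit 249) (nat_lit 192) (nat_lit 159)) (XT.lf (nat_lit 0) (nat_lit 713828824764) (nat_lit 152) (nat_lit 120922157331) (nat_lit 0) (nat_lit 710866960231) (nat_lit 1) (nat_lit 5) (nat_lit 3) (nat_lit 4) (nat_lit 1) (nat_lit 4) (nat_lit 250) (nat_lit 192) (nat_lit 158)))))) (XT.nd (nat_lit 546) (nat_lit 0) (nat_lit 0) (XT.nd (nat_lit 234) (nat_lit 0) (nat_lit 0) (XT.nd (nat_lit 78) (nat_lit 0) (nat_lit 0) (XT.lf (nat_lit 0) (nat_lit 822085434798) (nat_lit 152) (nat_lit 136002767661) (nat_lit 0) (nat_lit 819120205161) (nat_lit 1) (nat_lit 5) (nat_lit 3) (nat_lit 4) (nat_lit 1) (nat_lit 4) (nat_lit 251) (nat_lit 192) (nat_lit 157)) (XT.nd (nat_lit 78) (nat_lit 0) (nat_lit 0) (XT.lf (nat_lit 0) (nat_lit 946577157589) (nat_lit 152) (nat_lit 153351806033) (nat_lit 0) (nat_lit 943609001775) (nat_lit 1) (nat_lit 5) (nat_lit 3) (nat_lit 4)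 (nat_lit 1) (nat_lit 4) (nat_lit 252) (nat_lit 192) (nat_lit 156)) (XT.lf (nat_lit 0) (nat_lit 1089739700757) (nat_lit 152) (nat_lit 173308710153) (nat_lit 0) (nat_lit 1086769000440) (nat_lit 1) (nat_lit 5) (nat_lit 3) (nat_lit 4) (nat_lit 1) (nat_lit 4) (nat_lit 253) (nat_lit 192) (nat_lit 155)))) (XT.nd (nat_lit 156) (nat_lit 0) (nat_lit 0) (XT.nd (nat_lit 78) (nat_lit 0) (nat_lit 0) (XT.lf (nat_lit 0) (nat_lit 1254374070580) (nat_lit 152) (nat_lit 196263941191) (nat_lit 0) (nat_lit 1251401157652) (nat_lit 1) (nat_lit 5) (nat_lit 3) (nat_lit 4) (nat_lit 1) (nat_lit 4) (nat_lit 254) (nat_lit 192) (nat_lit 154)) (XT.lf (nat_lit 0) (nat_lit 1443701374295) (nat_lit 152) (nat_lit 222666623231) (nat_lit 0) (nat_lit 1440726537357) (nat_lit 1) (nat_lit 5) (nat_lit 3) (nat_lit 4) (nat_lit 1) (nat_lit 4) (nat_lit 255) (nat_lit 192) (nat_lit 153))) (XT.nd (nat_lit 78) (nat_lit 0) (nat_lit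 0) (XT.lf (nat_lit 0) (nat_lit 1661425841756) (nat_lit 152) (nat_lit 253033330486) (nat_lit 0) (nat_lit 1658449331767) (nat_lit 1) (nat_lit 5) (nat_lit 3) (nat_lit 4) (nat_lit 1) (nat_lit 4) (nat_lit 256) (nat_lit 192) (nat_lit 152)) (XT.lf (nat_lit 0) (nat_lit 1911807299502) (nat_lit 152) (nat_lit 287958194187) (nat_lit 0) (nat_lit 1908829334685) (nat_lit 1) (nat_lit 5) (nat_lit 3) (nat_lit 4) (nat_lit 1) (nat_lit 4) (nat_lit 257) (nat_lit 192) (nat_lit 151))))) (XT.nd (nat_lit 312) (nat_lit 0) (nat_lit 0) (XT.nd (nat_lit 156) (nat_lit 0) (nat_lit 0) (XT.nd (nat_lit 78) (nat_lit 0) (nat_lit 0) (XT.lf (nat_lit 0) (nat_lit 2199744515183) (nat_lit 152) (nat_lit 328124526884) (nat_lit 0) (nat_lit 2196765285298) (nat_lit 1) (nat_lit 5) (nat_lit 3) (nat_lit 4) (nat_lit 1) (nat_lit 4) (nat_lit 258) (nat_lit 192) (nat_lit 150)) (XT.lf (nat_lit 0) (nat_lit 2530871043019) (nat_lit 152) (nat_lit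 374318191607) (nat_lit 0) (nat_lit 2527890713076) (nat_lit 1) (nat_lit 5) (nat_lit 3) (nat_lit 4) (nat_lit 1) (nat_lit 4) (nat_lit 259) (nat_lit 192) (nat_lit 149))) (XT.nd (nat_lit 78) (nat_lit 0) (nat_lit 0) (XT.lf (nat_lit 0) (nat_lit 2911665445512) (nat_lit 152) (nat_lit 427442977449) (nat_lit 0) (nat_lit 2908684158996) (nat_lit 1) (nat_lit 5) (nat_lit 3) (nat_lit 4) (nat_lit 1) (nat_lit 4) (nat_lit 260) (nat_lit 192) (nat_lit 148)) (XT.lf (nat_lit 0) (nat_lit 3349578047927) (nat_lit 152) (nat_lit 488538282394) (nat_lit 0) (nat_lit 3346595929609) (nat_lit 1) (nat_lit 5) (nat_lit 3) (nat_lit 4) (nat_lit 1) (nat_lit 4) (nat_lit 261) (nat_lit 192) (nat_lit 147)))) (XT.nd (nat_lit 156) (nat_lit 0) (nat_lit 0) (XT.nd (nat_lit 78) (nat_lit 0) (nat_lit 0) (XT.lf (nat_lit 0) (nat_lit 3853176705530) (nat_lit 152) (nat_lit 558799449365) (nat_lit 0) (nat_lit 3850193863905) (nat_lit 1) (nat_lit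 5) (nat_lit 3) (nat_lit 4) (nat_lit 1) (nat_lit 4) (nat_lit 262) (nat_lit 192) (nat_lit 146)) (XT.lf (nat_lit 0) (nat_lit 4432314435534) (nat_lit 152) (nat_lit 639601153368) (nat_lit 0) (nat_lit 4429330964947) (nat_lit 1) (nat_lit 5) (nat_lit 3) (nat_lit 4) (nat_lit 1) (nat_lit 4) (nat_lit 263) (nat_lit 192) (nat_lit 145))) (XT.nd (nat_lit 78) (nat_lit 0) (nat_lit 0) (XT.lf (nat_lit 0) (nat_lit 5098322193526) (nat_lit 152) (nat_lit 732524297307) (nat_lit 0) (nat_lit 5095338176016) (nat_lit 1) (nat_lit 5) (nat_lit 3) (nat_lit 4) (nat_lit 1) (nat_lit 4) (nat_lit 264) (nat_lit 192) (nat_lit 144)) (XT.lf (nat_lit 0) (nat_lit 5864230566076) (nat_lit 152) (nat_lit 839386942694) (nat_lit 0) (nat_lit 5861246072981) (nat_lit 1) (nat_lit 5) (nat_lit 3) (nat_lit 4) (nat_lit 1) (nat_lit 4) (nat_lit 265) (nat_lit 192) (nat_lit 143))))))) (XT.nd (nat_lit 27456) (nat_lit 0) (nat_lit 0) (XT.nd (nat_lit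 858) (nat_lit 0) (nat_lit 0) (XT.nd (nat_lit 234) (nat_lit 0) (nat_lit 0) (XT.nd (nat_lit 78) (nat_lit 0) (nat_lit 0) (XT.lf (nat_lit 0) (nat_lit 6745024716995) (nat_lit 152) (nat_lit 962279880417) (nat_lit 0) (nat_lit 6742039810346) (nat_lit 1) (nat_lit 5) (nat_lit 3) (nat_lit 4) (nat_lit 1) (nat_lit 4) (nat_lit 266) (nat_lit 192) (nat_lit 142)) (XT.nd (nat_lit 78) (nat_lit 0) (nat_lit 0) (XT.lf (nat_lit 0) (nat_lit 7757937575322) (nat_lit 152) (nat_lit 1103607537518) (nat_lit 0) (nat_lit 7754952309062) (nat_lit 1) (nat_lit 5) (nat_lit 3) (nat_lit 4) (nat_lit 1) (nat_lit 4) (nat_lit 267) (nat_lit 192) (nat_lit 141)) (XT.lf (nat_lit 0) (nat_lit 8922787001328) (nat_lit 152) (nat_lit 1266135020332) (nat_lit 0) (nat_lit 8919801422364) (nat_lit 1) (nat_lit 5) (nat_lit 3) (nat_lit 4) (nat_lit 1) (nat_lit 4) (nat_lit 268) (nat_lit 192) (nat_lit 140)))) (XT.nd (nat_lit 156) (nat_lit 0) (nat_lit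 0) (XT.nd (nat_lit 78) (nat_lit 0) (nat_lit 0) (XT.lf (nat_lit 0) (nat_lit 10262363527263) (nat_lit 152) (nat_lit 1453042214393) (nat_lit 0) (nat_lit 10259377676380) (nat_lit 1) (nat_lit 5) (nat_lit 3) (nat_lit 4) (nat_lit 1) (nat_lit 4) (nat_lit 269) (nat_lit 192) (nat_lit 139)) (XT.lf (nat_lit 0) (nat_lit 11802876259067) (nat_lit 152) (nat_lit 1667985999584) (nat_lit 0) (nat_lit 11799890171735) (nat_lit 1) (nat_lit 5) (nat_lit 3) (nat_lit 4) (nat_lit 1) (nat_lit 4) (nat_lit 270) (nat_lit 192) (nat_lit 138))) (XT.nd (nat_lit 390) (nat_lit 0) (nat_lit 0) (XT.lf (nat_lit 0) (nat_lit 13574465663234) (nat_lit 152) (nat_lit 1915171797789) (nat_lit 0) (nat_lit 13571479370292) (nat_lit 1) (nat_lit 5) (nat_lit 3) (nat_lit 4) (nat_lit 1) (nat_lit 4) (nat_lit 271) (nat_lit 192) (nat_lit 137)) (XT.lf (nat_lit 0) (nat_lit 27310903281553) (nat_lit 152) (nat_lit 3831791899255) (nat_lit 0) (nat_lit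 27307916299379) (nat_lit 1) (nat_lit 5) (nat_lit 3) (nat_lit 4) (nat_lit 1) (nat_lit 4) (nat_lit 276) (nat_lit 192) (nat_lit 132))))) (XT.nd (nat_lit 312) (nat_lit 0) (nat_lit 0) (XT.nd (nat_lit 156) (nat_lit 0) (nat_lit 0) (XT.nd (nat_lit 78) (nat_lit 0) (nat_lit 0) (XT.lf (nat_lit 0) (nat_lit 31408695840623) (nat_lit 152) (nat_lit 4403550267397) (nat_lit 0) (nat_lit 31405708769558) (nat_lit 1) (nat_lit 5) (nat_lit 3) (nat_lit 4) (nat_lit 1) (nat_lit 4) (nat_lit 277) (nat_lit 192) (nat_lit 131)) (XT.lf (nat_lit 0) (nat_lit 36121157194302) (nat_lit 152) (nat_lit 5061072558142) (nat_lit 0) (nat_lit 36118170045941) (nat_lit 1) (nat_lit 5) (nat_lit 3) (nat_lit 4) (nat_lit 1) (nat_lit 4) (nat_lit 278) (nat_lit 192) (nat_lit 130))) (XT.nd (nat_lit 78) (nat_lit 0) (nat_lit 0) (XT.lf (nat_lit 0) (nat_lit 41540487673423) (nat_lit 152) (nat_lit 5817223338046) (nat_lit 0) (nat_lit 41537500457849)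 (nat_lit 1) (nat_lit 5) (nat_lit 3) (nat_lit 4) (nat_lit 1) (nat_lit 4) (nat_lit 279) (nat_lit 192) (nat_lit 129)) (XT.lf (nat_lit 0) (nat_lit 47772717656926) (nat_lit 152) (nat_lit 6686796861500) (nat_lit 0) (nat_lit 47769730382905) (nat_lit 1) (nat_lit 5) (nat_lit 3) (nat_lit 4) (nat_lit 1) (nat_lit 4) (nat_lit 280) (nat_lit 192) (nat_lit 128)))) (XT.nd (nat_lit 26130) (nat_lit 0) (nat_lit 228) (XT.nd (nat_lit 26052) (nat_lit 0) (nat_lit 380) (XT.lf (nat_lit 0) (nat_lit 54939782079271) (nat_lit 152) (nat_lit 7686806523527) (nat_lit 0) (nat_lit 54936794754427) (nat_lit 1) (nat_lit 5) (nat_lit 3) (nat_lit 4) (nat_lit 1) (nat_lit 4) (nat_lit 281) (nat_lit 192) (nat_lit 127)) (XT.lf (nat_lit 0) (nat_lit 5230667255) (nat_lit 76) (nat_lit 714180647) (nat_lit 76) (nat_lit 714180647) (nat_lit 6) (nat_lit 4) (nat_lit 7) (nat_lit 5) (nat_lit 7) (nat_lit 4) (nat_lit 214) (nat_lit 193) (nat_lit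 193))) (XT.nd (nat_lit 78) (nat_lit 0) (nat_lit 0) (XT.lf (nat_lit 0) (nat_lit 1851297615) (nat_lit 152) (nat_lit 11519081541) (nat_lit 0) (nat_lit 1335925633) (nat_lit 4) (nat_lit 5) (nat_lit 6) (nat_lit 4) (nat_lit 4) (nat_lit 4) (nat_lit 215) (nat_lit 193) (nat_lit 192)) (XT.lf (nat_lit 0) (nat_lit 5347198548) (nat_lit 152) (nat_lit 6583563279) (nat_lit 0) (nat_lit 4383677016) (nat_lit 4) (nat_lit 5) (nat_lit 6) (nat_lit 4) (nat_lit 4) (nat_lit 4) (nat_lit 216) (nat_lit 193) (nat_lit 191)))))) (XT.nd (nat_lit 546) (nat_lit 0) (nat_lit 0) (XT.nd (nat_lit 234) (nat_lit 152) (nat_lit 0) (XT.nd (nat_lit 78) (nat_lit 76) (nat_lit 0) (XT.lf (nat_lit 0) (nat_lit 9059722362) (nat_lit 152) (nat_lit 1445843602) (nat_lit 0) (nat_lit 7706505569) (nat_lit 4) (nat_lit 5) (nat_lit 6) (nat_lit 4) (nat_lit 4) (nat_lit 4) (nat_lit 217) (nat_lit 193) (nat_lit 190)) (XT.nd (nat_lit 78) (nat_lit 0)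 (nat_lit 0) (XT.lf (nat_lit 0) (nat_lit 4384979269) (nat_lit 76) (nat_lit 8858098763) (nat_lit 76) (nat_lit 7166016525) (nat_lit 3) (nat_lit 4) (nat_lit 4) (nat_lit 5) (nat_lit 4) (nat_lit 4) (nat_lit 218) (nat_lit 193) (nat_lit 189)) (XT.lf (nat_lit 0) (nat_lit 10806252558) (nat_lit 76) (nat_lit 7072054708) (nat_lit 76) (nat_lit 5085306866) (nat_lit 3) (nat_lit 4) (nat_lit 4) (nat_lit 5) (nat_lit 4) (nat_lit 4) (nat_lit 219) (nat_lit 193) (nat_lit 188)))) (XT.nd (nat_lit 156) (nat_lit 152) (nat_lit 0) (XT.nd (nat_lit 78) (nat_lit 0) (nat_lit 0) (XT.lf (nat_lit 0) (nat_lit 17802311520) (nat_lit 76) (nat_lit 5188067647) (nat_lit 76) (nat_lit 2945088846) (nat_lit 3) (nat_lit 4) (nat_lit 4) (nat_lit 5) (nat_lit 4) (nat_lit 4) (nat_lit 220) (nat_lit 193) (nat_lit 187)) (XT.lf (nat_lit 0) (nat_lit 25510035570) (nat_lit 76) (nat_lit 3169276966) (nat_lit 76) (nat_lit 703488635) (nat_lit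 3) (nat_lit 4) (nat_lit 4) (nat_lit 5) (nat_lit 4) (nat_lit 4) (nat_lit 221) (nat_lit 193) (nat_lit 186))) (XT.nd (nat_lit 78) (nat_lit 0) (nat_lit 0) (XT.lf (nat_lit 0) (nat_lit 699760077) (nat_lit 76) (nat_lit 862703097) (nat_lit 152) (nat_lit 31795796315) (nat_lit 1) (nat_lit 5) (nat_lit 2) (nat_lit 5) (nat_lit 3) (nat_lit 4) (nat_lit 222) (nat_lit 193) (nat_lit 185)) (XT.lf (nat_lit 0) (nat_lit 4213318978) (nat_lit 152) (nat_lit 31940753890) (nat_lit 0) (nat_lit 1754178313) (nat_lit 1) (nat_lit 5) (nat_lit 3) (nat_lit 4) (nat_lit 1) (nat_lit 4) (nat_lit 223) (nat_lit 193) (nat_lit 184))))) (XT.nd (nat_lit 312) (nat_lit 0) (nat_lit 0) (XT.nd (nat_lit 156) (nat_lit 0) (nat_lit 0) (XT.nd (nat_lit 78) (nat_lit 0) (nat_lit 0) (XT.lf (nat_lit 0) (nat_lit 7155789365) (nat_lit 152) (nat_lit 31432288832) (nat_lit 0) (nat_lit 4569256629) (nat_lit 1) (nat_lit 5) (nat_lit 3) (nat_lit 4) (nat_lit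 1) (nat_lit 4) (nat_lit 224) (nat_lit 193) (nat_lit 183)) (XT.lf (nat_lit 0) (nat_lit 10411721714) (nat_lit 152) (nat_lit 31087433314) (nat_lit 0) (nat_lit 7714413263) (nat_lit 1) (nat_lit 5) (nat_lit 3) (nat_lit 4) (nat_lit 1) (nat_lit 4) (nat_lit 225) (nat_lit 193) (nat_lit 182))) (XT.nd (nat_lit 78) (nat_lit 0) (nat_lit 0) (XT.lf (nat_lit 0) (nat_lit 14044819049) (nat_lit 152) (nat_lit 30899440163) (nat_lit 0) (nat_lit 11251183889) (nat_lit 1) (nat_lit 5) (nat_lit 3) (nat_lit 4) (nat_lit 1) (nat_lit 4) (nat_lit 226) (nat_lit 193) (nat_lit 181)) (XT.lf (nat_lit 0) (nat_lit 18126163709) (nat_lit 152) (nat_lit 30864631251) (nat_lit 0) (nat_lit 15248766194) (nat_lit 1) (nat_lit 5) (nat_lit 3) (nat_lit 4) (nat_lit 1) (nat_lit 4) (nat_lit 227) (nat_lit 193) (nat_lit 180)))) (XT.nd (nat_lit 156) (nat_lit 0) (nat_lit 0) (XT.nd (nat_lit 78) (nat_lit 0) (nat_lit 0) (XT.lf (nat_lit 0) (nat_lit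 22735608089) (nat_lit 152) (nat_lit 30982325536) (nat_lit 0) (nat_lit 19785373743) (nat_lit 1) (nat_lit 5) (nat_lit 3) (nat_lit 4) (nat_lit 1) (nat_lit 4) (nat_lit 228) (nat_lit 193) (nat_lit 179)) (XT.lf (nat_lit 0) (nat_lit 27963336971) (nat_lit 152) (nat_lit 31254825730) (nat_lit 0) (nat_lit 24949766251) (nat_lit 1) (nat_lit 5) (nat_lit 3) (nat_lit 4) (nat_lit 1) (nat_lit 4) (nat_lit 229) (nat_lit 193) (nat_lit 178))) (XT.nd (nat_lit 78) (nat_lit 0) (nat_lit 0) (XT.lf (nat_lit 0) (nat_lit 33911632007) (nat_lit 152) (nat_lit 31687463361) (nat_lit 0) (nat_lit 30842986179) (nat_lit 1) (nat_lit 5) (nat_lit 3) (nat_lit 4) (nat_lit 1) (nat_lit 4) (nat_lit 230) (nat_lit 193) (nat_lit 177)) (XT.lf (nat_lit 0) (nat_lit 40696872883) (nat_lit 152) (nat_lit 32288703076) (nat_lit 0) (nat_lit 37580335656) (nat_lit 1) (nat_lit 5) (nat_lit 3) (nat_lit 4) (nat_lit 1) (nat_lit 4) (nat_lit 231) (nat_lit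 193) (nat_lit 176))))))))
noncomputable def xc17 : XT := (XT.nd (nat_lit 2262) (nat_lit 0) (nat_lit 0) (XT.nd (nat_lit 1092) (nat_lit 0) (nat_lit 0) (XT.nd (nat_lit 546) (nat_lit 0) (nat_lit 0) (XT.nd (nat_lit 234) (nat_lit 0) (nat_lit 0) (XT.nd (nat_lit 78) (nat_lit 0) (nat_lit 0) (XT.lf (nat_lit 0) (nat_lit 48451814310) (nat_lit 152) (nat_lit 33070308262) (nat_lit 0) (nat_lit 45293632389) (nat_lit 1) (nat_lit 5) (nat_lit 3) (nat_lit 4) (nat_lit 1) (nat_lit 4) (nat_lit 232) (nat_lit 193) (nat_lit 175)) (XT.nd (nat_lit 78) (nat_lit 0) (nat_lit 0) (XT.lf (nat_lit 0) (nat_lit 57328183405) (nat_lit 152) (nat_lit 34047571195) (nat_lit 0) (nat_lit 54133788706) (nat_lit 1) (nat_lit 5) (nat_lit 3) (nat_lit 4) (nat_lit 1) (nat_lit 4) (nat_lit 233) (nat_lit 193) (nat_lit 174)) (XT.lf (nat_lit 0) (nat_lit 67499648258) (nat_lit 152) (nat_lit 35239612235) (nat_lit 0) (nat_lit 64273764187) (nat_lit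 1) (nat_lit 5) (nat_lit 3) (nat_lit 4) (nat_lit 1) (nat_lit 4) (nat_lit 234) (nat_lit 193) (nat_lit 173)))) (XT.nd (nat_lit 156) (nat_lit 0) (nat_lit 0) (XT.nd (nat_lit 78) (nat_lit 0) (nat_lit 0) (XT.lf (nat_lit 0) (nat_lit 79165215790) (nat_lit 152) (nat_lit 36669753925) (nat_lit 0) (nat_lit 75911949656) (nat_lit 1) (nat_lit 5) (nat_lit 3) (nat_lit 4) (nat_lit 1) (nat_lit 4) (nat_lit 235) (nat_lit 193) (nat_lit 172)) (XT.lf (nat_lit 0) (nat_lit 92553125365) (nat_lit 152) (nat_lit 38365977298) (nat_lit 0) (nat_lit 89276048742) (nat_lit 1) (nat_lit 5) (nat_lit 3) (nat_lit 4) (nat_lit 1) (nat_lit 4) (nat_lit 236) (nat_lit 193) (nat_lit 171))) (XT.nd (nat_lit 78) (nat_lit 0) (nat_lit 0) (XT.lf (nat_lit 0) (nat_lit 107925314346) (nat_lit 152) (nat_lit 40361469333) (nat_lit 0) (nat_lit 104627532950) (nat_lit 1) (nat_lit 5) (nat_lit 3) (nat_lit 4) (nat_lit 1) (nat_lit 4) (nat_lit 237)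 (nat_lit 193) (nat_lit 170)) (XT.lf (nat_lit 0) (nat_lit 125582542951) (nat_lit 152) (nat_lit 42695272266) (nat_lit 0) (nat_lit 122266757404) (nat_lit 1) (nat_lit 5) (nat_lit 3) (nat_lit 4) (nat_lit 1) (nat_lit 4) (nat_lit 238) (nat_lit 193) (nat_lit 169))))) (XT.nd (nat_lit 234) (nat_lit 0) (nat_lit 0) (XT.nd (nat_lit 78) (nat_lit 0) (nat_lit 0) (XT.lf (nat_lit 0) (nat_lit 145870278696) (nat_lit 152) (nat_lit 45413047458) (nat_lit 0) (nat_lit 142538837367) (nat_lit 1) (nat_lit 5) (nat_lit 3) (nat_lit 4) (nat_lit 1) (nat_lit 4) (nat_lit 239) (nat_lit 193) (nat_lit 168)) (XT.nd (nat_lit 78) (nat_lit 0) (nat_lit 0) (XT.lf (nat_lit 0) (nat_lit 169185455542) (nat_lit 152) (nat_lit 48567968772) (nat_lit 0) (nat_lit 165840400488) (nat_lit 1) (nat_lit 5) (nat_lit 3) (nat_lit 4) (nat_lit 1) (nat_lit 4) (nat_lit 240) (nat_lit 193) (nat_lit 167)) (XT.lf (nat_lit 0) (nat_lit 195984239992) (nat_lit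 152) (nat_lit 52221762929) (nat_lit 0) (nat_lit 192627346917) (nat_lit 1) (nat_lit 5) (nat_lit 3) (nat_lit 4) (nat_lit 1) (nat_lit 4) (nat_lit 241) (nat_lit 193) (nat_lit 166)))) (XT.nd (nat_lit 156) (nat_lit 0) (nat_lit 0) (XT.nd (nat_lit 78) (nat_lit 0) (nat_lit 0) (XT.lf (nat_lit 0) (nat_lit 226790956090) (nat_lit 152) (nat_lit 56445917206) (nat_lit 0) (nat_lit 223423769084) (nat_lit 1) (nat_lit 5) (nat_lit 3) (nat_lit 4) (nat_lit 1) (nat_lit 4) (nat_lit 242) (nat_lit 193) (nat_lit 165)) (XT.lf (nat_lit 0) (nat_lit 262208343934) (nat_lit 152) (nat_lit 61323078100) (nat_lit 0) (nat_lit 258832205682) (nat_lit 1) (nat_lit 5) (nat_lit 3) (nat_lit 4) (nat_lit 1) (nat_lit 4) (nat_lit 243) (nat_lit 193) (nat_lit 164))) (XT.nd (nat_lit 78) (nat_lit 0) (nat_lit 0) (XT.lf (nat_lit 0) (nat_lit 302929352415) (nat_lit 152) (nat_lit 66948668323) (nat_lit 0) (nat_lit 299545430472) (nat_lit 1)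 (nat_lit 5) (nat_lit 3) (nat_lit 4) (nat_lit 1) (nat_lit 4) (nat_lit 244) (nat_lit 193) (nat_lit 163)) (XT.lf (nat_lit 0) (nat_lit 349750696918) (nat_lit 152) (nat_lit 73432753772) (nat_lit 0) (nat_lit 346360006548) (nat_lit 1) (nat_lit 5) (nat_lit 3) (nat_lit 4) (nat_lit 1) (nat_lit 4) (nat_lit 245) (nat_lit 193) (nat_lit 162)))))) (XT.nd (nat_lit 546) (nat_lit 0) (nat_lit 0) (XT.nd (nat_lit 234) (nat_lit 0) (nat_lit 0) (XT.nd (nat_lit 78) (nat_lit 0) (nat_lit 0) (XT.lf (nat_lit 0) (nat_lit 403588447225) (nat_lit 152) (nat_lit 80902196989) (nat_lit 0) (nat_lit 400191871267) (nat_lit 1) (nat_lit 5) (nat_lit 3) (nat_lit 4) (nat_lit 1) (nat_lit 4) (nat_lit 246) (nat_lit 193) (nat_lit 161)) (XT.nd (nat_lit 78) (nat_lit 0) (nat_lit 0) (XT.lf (nat_lit 0) (nat_lit 465495950627) (nat_lit 152) (nat_lit 89503139252) (nat_lit 0) (nat_lit 462094256765) (nat_lit 1) (nat_lit 5) (nat_lit 3) (nat_lit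 4) (nat_lit 1) (nat_lit 4) (nat_lit 247) (nat_lit 193) (nat_lit 160)) (XT.lf (nat_lit 0) (nat_lit 536684440884) (nat_lit 152) (nat_lit 99403859868) (nat_lit 0) (nat_lit 533278296671) (nat_lit 1) (nat_lit 5) (nat_lit 3) (nat_lit 4) (nat_lit 1) (nat_lit 4) (nat_lit 248) (nat_lit 193) (nat_lit 159)))) (XT.nd (nat_lit 156) (nat_lit 0) (nat_lit 0) (XT.nd (nat_lit 78) (nat_lit 0) (nat_lit 0) (XT.lf (nat_lit 0) (nat_lit 618546736285) (nat_lit 152) (nat_lit 110798068588) (nat_lit 0) (nat_lit 615136722202) (nat_lit 1) (nat_lit 5) (nat_lit 3) (nat_lit 4) (nat_lit 1) (nat_lit 4) (nat_lit 249) (nat_lit 193) (nat_lit 158)) (XT.lf (nat_lit 0) (nat_lit 712684490434) (nat_lit 152) (nat_lit 123908695582) (nat_lit 0) (nat_lit 709271111247) (nat_lit 1) (nat_lit 5) (nat_lit 3) (nat_lit 4) (nat_lit 1) (nat_lit 4) (nat_lit 250) (nat_lit 193) (nat_lit 157))) (XT.nd (nat_lit 78) (nat_lit 0) (nat_lit 0) (XT.lf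 (nat_lit 0) (nat_lit 820939528958) (nat_lit 152) (nat_lit 138992253117) (nat_lit 0) (nat_lit 817523223593) (nat_lit 1) (nat_lit 5) (nat_lit 3) (nat_lit 4) (nat_lit 1) (nat_lit 4) (nat_lit 251) (nat_lit 193) (nat_lit 156)) (XT.lf (nat_lit 0) (nat_lit 945429885218) (nat_lit 152) (nat_lit 156343854276) (nat_lit 0) (nat_lit 942011035350) (nat_lit 1) (nat_lit 5) (nat_lit 3) (nat_lit 4) (nat_lit 1) (nat_lit 4) (nat_lit 252) (nat_lit 193) (nat_lit 155))))) (XT.nd (nat_lit 312) (nat_lit 0) (nat_lit 0) (XT.nd (nat_lit 156) (nat_lit 0) (nat_lit 0) (XT.nd (nat_lit 78) (nat_lit 0) (nat_lit 0) (XT.lf (nat_lit 0) (nat_lit 1088591240097) (nat_lit 152) (nat_lit 176302986908) (nat_lit 0) (nat_lit 1085170177619) (nat_lit 1) (nat_lit 5) (nat_lit 3) (nat_lit 4) (nat_lit 1) (nat_lit 4) (nat_lit 253) (nat_lit 193) (nat_lit 154)) (XT.lf (nat_lit 0) (nat_lit 1253224576626) (nat_lit 152) (nat_lit 199260155781)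 (nat_lit 0) (nat_lit 1249801590139) (nat_lit 1) (nat_lit 5) (nat_lit 3) (nat_lit 4) (nat_lit 1) (nat_lit 4) (nat_lit 254) (nat_lit 193) (nat_lit 153))) (XT.nd (nat_lit 78) (nat_lit 0) (nat_lit 0) (XT.lf (nat_lit 0) (nat_lit 1442550981825) (nat_lit 152) (nat_lit 225664522896) (nat_lit 0) (nat_lit 1439126322285) (nat_lit 1) (nat_lit 5) (nat_lit 3) (nat_lit 4) (nat_lit 1) (nat_lit 4) (nat_lit 255) (nat_lit 193) (nat_lit 152)) (XT.lf (nat_lit 0) (nat_lit 1660274667967) (nat_lit 152) (nat_lit 256032695433) (nat_lit 0) (nat_lit 1656848553600) (nat_lit 1) (nat_lit 5) (nat_lit 3) (nat_lit 4) (nat_lit 1) (nat_lit 4) (nat_lit 256) (nat_lit 193) (nat_lit 151)))) (XT.nd (nat_lit 156) (nat_lit 0) (nat_lit 0) (XT.nd (nat_lit 78) (nat_lit 0) (nat_lit 0) (XT.lf (nat_lit 0) (nat_lit 1910655446305) (nat_lit 152) (nat_lit 290958833293) (nat_lit 0) (nat_lit 1907228066871) (nat_lit 1) (nat_lit 5) (nat_lit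 3) (nat_lit 4) (nat_lit 1) (nat_lit 4) (nat_lit 257) (nat_lit 193) (nat_lit 150)) (XT.lf (nat_lit 0) (nat_lit 2198592071197) (nat_lit 152) (nat_lit 331126273953) (nat_lit 0) (nat_lit 2195163591704) (nat_lit 1) (nat_lit 5) (nat_lit 3) (nat_lit 4) (nat_lit 1) (nat_lit 4) (nat_lit 258) (nat_lit 193) (nat_lit 149))) (XT.nd (nat_lit 78) (nat_lit 0) (nat_lit 0) (XT.lf (nat_lit 0) (nat_lit 2529718085303) (nat_lit 152) (nat_lit 377320902123) (nat_lit 0) (nat_lit 2526288649238) (nat_lit 1) (nat_lit 5) (nat_lit 3) (nat_lit 4) (nat_lit 1) (nat_lit 4) (nat_lit 259) (nat_lit 193) (nat_lit 148)) (XT.lf (nat_lit 0) (nat_lit 2910512041075) (nat_lit 152) (nat_lit 430446525745) (nat_lit 0) (nat_lit 2907081773207) (nat_lit 1) (nat_lit 5) (nat_lit 3) (nat_lit 4) (nat_lit 1) (nat_lit 4) (nat_lit 260) (nat_lit 193) (nat_lit 147))))))) (XT.nd (nat_lit 1482) (nat_lit 0) (nat_lit 0) (XT.nd (nat_lit 546) (nat_lit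 0) (nat_lit 0) (XT.nd (nat_lit 234) (nat_lit 0) (nat_lit 0) (XT.nd (nat_lit 78) (nat_lit 0) (nat_lit 0) (XT.lf (nat_lit 0) (nat_lit 3348424255036) (nat_lit 152) (nat_lit 491542559194) (nat_lit 0) (nat_lit 3344993263862) (nat_lit 1) (nat_lit 5) (nat_lit 3) (nat_lit 4) (nat_lit 1) (nat_lit 4) (nat_lit 261) (nat_lit 193) (nat_lit 146)) (XT.nd (nat_lit 78) (nat_lit 0) (nat_lit 0) (XT.lf (nat_lit 0) (nat_lit 3852022574854) (nat_lit 152) (nat_lit 561804359647) (nat_lit 0) (nat_lit 3848590954717) (nat_lit 1) (nat_lit 5) (nat_lit 3) (nat_lit 4) (nat_lit 1) (nat_lit 4) (nat_lit 262) (nat_lit 193) (nat_lit 145)) (XT.lf (nat_lit 0) (nat_lit 4431160011131) (nat_lit 152) (nat_lit 642606614504) (nat_lit 0) (nat_lit 4427727844071) (nat_lit 1) (nat_lit 5) (nat_lit 3) (nat_lit 4) (nat_lit 1) (nat_lit 4) (nat_lit 263) (nat_lit 193) (nat_lit 144)))) (XT.nd (nat_lit 156) (nat_lit 0) (nat_lit 0) (XT.nd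 (nat_lit 78) (nat_lit 0) (nat_lit 0) (XT.lf (nat_lit 0) (nat_lit 5097167513709) (nat_lit 152) (nat_lit 735530237446) (nat_lit 0) (nat_lit 5093734871063) (nat_lit 1) (nat_lit 5) (nat_lit 3) (nat_lit 4) (nat_lit 1) (nat_lit 4) (nat_lit 264) (nat_lit 193) (nat_lit 143)) (XT.lf (nat_lit 0) (nat_lit 5863075664160) (nat_lit 152) (nat_lit 842393299358) (nat_lit 0) (nat_lit 5859642607961) (nat_lit 1) (nat_lit 5) (nat_lit 3) (nat_lit 4) (nat_lit 1) (nat_lit 4) (nat_lit 265) (nat_lit 193) (nat_lit 142))) (XT.nd (nat_lit 78) (nat_lit 0) (nat_lit 0) (XT.lf (nat_lit 0) (nat_lit 6743869621948) (nat_lit 152) (nat_lit 965286599276) (nat_lit 0) (nat_lit 6740436206139) (nat_lit 1) (nat_lit 5) (nat_lit 3) (nat_lit 4) (nat_lit 1) (nat_lit 4) (nat_lit 266) (nat_lit 193) (nat_lit 141)) (XT.lf (nat_lit 0) (nat_lit 7756782312336) (nat_lit 152) (nat_lit 1106614571330) (nat_lit 0) (nat_lit 7753348583821) (nat_lit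 1) (nat_lit 5) (nat_lit 3) (nat_lit 4) (nat_lit 1) (nat_lit 4) (nat_lit 267) (nat_lit 193) (nat_lit 140))))) (XT.nd (nat_lit 624) (nat_lit 0) (nat_lit 0) (XT.nd (nat_lit 156) (nat_lit 0) (nat_lit 0) (XT.nd (nat_lit 78) (nat_lit 0) (nat_lit 0) (XT.lf (nat_lit 0) (nat_lit 8921631592308) (nat_lit 152) (nat_lit 1269142328016) (nat_lit 0) (nat_lit 8918197591876) (nat_lit 1) (nat_lit 5) (nat_lit 3) (nat_lit 4) (nat_lit 1) (nat_lit 4) (nat_lit 268) (nat_lit 193) (nat_lit 139)) (XT.lf (nat_lit 0) (nat_lit 10261207991257) (nat_lit 152) (nat_lit 1456049760226) (nat_lit 0) (nat_lit 10257773754374) (nat_lit 1) (nat_lit 5) (nat_lit 3) (nat_lit 4) (nat_lit 1) (nat_lit 4) (nat_lit 269) (nat_lit 193) (nat_lit 138))) (XT.nd (nat_lit 390) (nat_lit 0) (nat_lit 0) (XT.lf (nat_lit 0) (nat_lit 11801720612638) (nat_lit 152) (nat_lit 1670993752503) (nat_lit 0) (nat_lit 11798286170147) (nat_lit 1) (nat_lit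 5) (nat_lit 3) (nat_lit 4) (nat_lit 1) (nat_lit 4) (nat_lit 270) (nat_lit 193) (nat_lit 137)) (XT.lf (nat_lit 0) (nat_lit 23746449298268) (nat_lit 152) (nat_lit 3337619324051) (nat_lit 0) (nat_lit 23743014166544) (nat_lit 1) (nat_lit 5) (nat_lit 3) (nat_lit 4) (nat_lit 1) (nat_lit 4) (nat_lit 275) (nat_lit 193) (nat_lit 132)))) (XT.nd (nat_lit 156) (nat_lit 0) (nat_lit 0) (XT.nd (nat_lit 78) (nat_lit 0) (nat_lit 0) (XT.lf (nat_lit 0) (nat_lit 27309747217231) (nat_lit 152) (nat_lit 3834800435889) (nat_lit 0) (nat_lit 27306311996617) (nat_lit 1) (nat_lit 5) (nat_lit 3) (nat_lit 4) (nat_lit 1) (nat_lit 4) (nat_lit 276) (nat_lit 193) (nat_lit 131)) (XT.lf (nat_lit 0) (nat_lit 31407539734789) (nat_lit 152) (nat_lit 4406558881882) (nat_lit 0) (nat_lit 31404104436878) (nat_lit 1) (nat_lit 5) (nat_lit 3) (nat_lit 4) (nat_lit 1) (nat_lit 4) (nat_lit 277) (nat_lit 193) (nat_lit 130))) (XT.nd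 (nat_lit 78) (nat_lit 0) (nat_lit 0) (XT.lf (nat_lit 0) (nat_lit 36120001052370) (nat_lit 152) (nat_lit 5064081240324) (nat_lit 0) (nat_lit 36116565687246) (nat_lit 1) (nat_lit 5) (nat_lit 3) (nat_lit 4) (nat_lit 1) (nat_lit 4) (nat_lit 278) (nat_lit 193) (nat_lit 129)) (XT.lf (nat_lit 0) (nat_lit 41539331500103) (nat_lit 152) (nat_lit 5820232079095) (nat_lit 0) (nat_lit 41535896076532) (nat_lit 1) (nat_lit 5) (nat_lit 3) (nat_lit 4) (nat_lit 1) (nat_lit 4) (nat_lit 279) (nat_lit 193) (nat_lit 128)))))) (XT.nd (nat_lit 26442) (nat_lit 0) (nat_lit 0) (XT.nd (nat_lit 26130) (nat_lit 0) (nat_lit 228) (XT.nd (nat_lit 25974) (nat_lit 0) (nat_lit 380) (XT.lf (nat_lit 0) (nat_lit 47771561456311) (nat_lit 152) (nat_lit 6689805653737) (nat_lit 0) (nat_lit 47768125981917) (nat_lit 1) (nat_lit 5) (nat_lit 3) (nat_lit 4) (nat_lit 1) (nat_lit 4) (nat_lit 280) (nat_lit 193) (nat_lit 127)) (XT.nd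 (nat_lit 78) (nat_lit 76) (nat_lit 0) (XT.lf (nat_lit 0) (nat_lit 2175141687) (nat_lit 152) (nat_lit 1197229606) (nat_lit 0) (nat_lit 2175141687) (nat_lit 7) (nat_lit 5) (nat_lit 9) (nat_lit 4) (nat_lit 7) (nat_lit 4) (nat_lit 212) (nat_lit 194) (nat_lit 194)) (XT.lf (nat_lit 0) (nat_lit 3599826639) (nat_lit 76) (nat_lit 4602824596) (nat_lit 76) (nat_lit 3921245150) (nat_lit 6) (nat_lit 4) (nat_lit 7) (nat_lit 5) (nat_lit 7) (nat_lit 4) (nat_lit 213) (nat_lit 194) (nat_lit 193)))) (XT.nd (nat_lit 156) (nat_lit 0) (nat_lit 0) (XT.nd (nat_lit 78) (nat_lit 152) (nat_lit 0) (XT.lf (nat_lit 0) (nat_lit 10199573274) (nat_lit 76) (nat_lit 2209298553) (nat_lit 76) (nat_lit 935041327) (nat_lit 6) (nat_lit 4) (nat_lit 7) (nat_lit 5) (nat_lit 7) (nat_lit 4) (nat_lit 214) (nat_lit 194) (nat_lit 192)) (XT.lf (nat_lit 0) (nat_lit 2090048797) (nat_lit 152) (nat_lit 12137926814) (nat_lit 0) (nat_lit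 533849484) (nat_lit 4) (nat_lit 5) (nat_lit 6) (nat_lit 4) (nat_lit 4) (nat_lit 4) (nat_lit 215) (nat_lit 194) (nat_lit 191))) (XT.nd (nat_lit 78) (nat_lit 0) (nat_lit 0) (XT.lf (nat_lit 0) (nat_lit 5442804493) (nat_lit 152) (nat_lit 7452699866) (nat_lit 0) (nat_lit 3496909920) (nat_lit 4) (nat_lit 5) (nat_lit 6) (nat_lit 4) (nat_lit 4) (nat_lit 4) (nat_lit 216) (nat_lit 194) (nat_lit 190)) (XT.lf (nat_lit 0) (nat_lit 9030854188) (nat_lit 152) (nat_lit 2532624809) (nat_lit 0) (nat_lit 6746094170) (nat_lit 4) (nat_lit 5) (nat_lit 6) (nat_lit 4) (nat_lit 4) (nat_lit 4) (nat_lit 217) (nat_lit 194) (nat_lit 189))))) (XT.nd (nat_lit 312) (nat_lit 152) (nat_lit 0) (XT.nd (nat_lit 156) (nat_lit 0) (nat_lit 0) (XT.nd (nat_lit 78) (nat_lit 0) (nat_lit 0) (XT.lf (nat_lit 0) (nat_lit 2984238216) (nat_lit 76) (nat_lit 10063731577) (nat_lit 76) (nat_lit 7484305955) (nat_lit 3) (nat_lit 4) (nat_lit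 4) (nat_lit 5) (nat_lit 4) (nat_lit 4) (nat_lit 218) (nat_lit 194) (nat_lit 188)) (XT.lf (nat_lit 0) (nat_lit 9224857868) (nat_lit 76) (nat_lit 8356740361) (nat_lit 76) (nat_lit 5521083779) (nat_lit 3) (nat_lit 4) (nat_lit 4) (nat_lit 5) (nat_lit 4) (nat_lit 4) (nat_lit 219) (nat_lit 194) (nat_lit 187))) (XT.nd (nat_lit 78) (nat_lit 0) (nat_lit 0) (XT.lf (nat_lit 0) (nat_lit 16063826710) (nat_lit 76) (nat_lit 6541494899) (nat_lit 76) (nat_lit 3483028788) (nat_lit 3) (nat_lit 4) (nat_lit 4) (nat_lit 5) (nat_lit 4) (nat_lit 4) (nat_lit 220) (nat_lit 194) (nat_lit 186)) (XT.lf (nat_lit 0) (nat_lit 23634950656) (nat_lit 76) (nat_lit 4582479521) (nat_lit 76) (nat_lit 1330265992) (nat_lit 3) (nat_lit 4) (nat_lit 4) (nat_lit 5) (nat_lit 4) (nat_lit 4) (nat_lit 221) (nat_lit 194) (nat_lit 185)))) (XT.nd (nat_lit 156) (nat_lit 0) (nat_lit 0) (XT.nd (nat_lit 78) (nat_lit 76) (nat_lit 0) (XT.lf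 (nat_lit 0) (nat_lit 892137695) (nat_lit 152) (nat_lit 1502593499) (nat_lit 76) (nat_lit 31147588224) (nat_lit 2) (nat_lit 5) (nat_lit 4) (nat_lit 5) (nat_lit 3) (nat_lit 4) (nat_lit 222) (nat_lit 194) (nat_lit 184)) (XT.lf (nat_lit 0) (nat_lit 3339587184) (nat_lit 152) (nat_lit 34545873863) (nat_lit 0) (nat_lit 237682465) (nat_lit 1) (nat_lit 5) (nat_lit 3) (nat_lit 4) (nat_lit 1) (nat_lit 4) (nat_lit 223) (nat_lit 194) (nat_lit 183))) (XT.nd (nat_lit 78) (nat_lit 0) (nat_lit 0) (XT.lf (nat_lit 0) (nat_lit 6222565201) (nat_lit 152) (nat_lit 34148980572) (nat_lit 0) (nat_lit 3009884767) (nat_lit 1) (nat_lit 5) (nat_lit 3) (nat_lit 4) (nat_lit 1) (nat_lit 4) (nat_lit 224) (nat_lit 194) (nat_lit 182)) (XT.lf (nat_lit 0) (nat_lit 9426765054) (nat_lit 152) (nat_lit 33901143982) (nat_lit 0) (nat_lit 6117757911) (nat_lit 1) (nat_lit 5) (nat_lit 3) (nat_lit 4) (nat_lit 1) (nat_lit 4) (nat_lit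 225) (nat_lit 194) (nat_lit 181))))))))
noncomputable def xc18 : XT := (XT.nd (nat_lit 2262) (nat_lit 0) (nat_lit 0) (XT.nd (nat_lit 1092) (nat_lit 0) (nat_lit 0) (XT.nd (nat_lit 546) (nat_lit 0) (nat_lit 0) (XT.nd (nat_lit 234) (nat_lit 0) (nat_lit 0) (XT.nd (nat_lit 78) (nat_lit 0) (nat_lit 0) (XT.lf (nat_lit 0) (nat_lit 13014877610) (nat_lit 152) (nat_lit 33797515115) (nat_lit 0) (nat_lit 9622108112) (nat_lit 1) (nat_lit 5) (nat_lit 3) (nat_lit 4) (nat_lit 1) (nat_lit 4) (nat_lit 226) (nat_lit 194) (nat_lit 180)) (XT.nd (nat_lit 78) (nat_lit 0) (nat_lit 0) (XT.lf (nat_lit 0) (nat_lit 17057105070) (nat_lit 152) (nat_lit 33836066452) (nat_lit 0) (nat_lit 13591498742) (nat_lit 1) (nat_lit 5) (nat_lit 3) (nat_lit 4) (nat_lit 1) (nat_lit 4) (nat_lit 227) (nat_lit 194) (nat_lit 179)) (XT.lf (nat_lit 0) (nat_lit 21632534494) (nat_lit 152) (nat_lit 34017552256) (nat_lit 0) (nat_lit 18103591791)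 (nat_lit 1) (nat_lit 5) (nat_lit 3) (nat_lit 4) (nat_lit 1) (nat_lit 4) (nat_lit 228) (nat_lit 194) (nat_lit 178)))) (XT.nd (nat_lit 156) (nat_lit 0) (nat_lit 0) (XT.nd (nat_lit 78) (nat_lit 0) (nat_lit 0) (XT.lf (nat_lit 0) (nat_lit 26830685154) (nat_lit 152) (nat_lit 34345523337) (nat_lit 0) (nat_lit 23246667343) (nat_lit 1) (nat_lit 5) (nat_lit 3) (nat_lit 4) (nat_lit 1) (nat_lit 4) (nat_lit 229) (nat_lit 194) (nat_lit 177)) (XT.lf (nat_lit 0) (nat_lit 32753259997) (nat_lit 152) (nat_lit 34826396522) (nat_lit 0) (nat_lit 29121350787) (nat_lit 1) (nat_lit 5) (nat_lit 3) (nat_lit 4) (nat_lit 1) (nat_lit 4) (nat_lit 230) (nat_lit 194) (nat_lit 176))) (XT.nd (nat_lit 78) (nat_lit 0) (nat_lit 0) (XT.lf (nat_lit 0) (nat_lit 39516135486) (nat_lit 152) (nat_lit 35469580197) (nat_lit 0) (nat_lit 35842581582) (nat_lit 1) (nat_lit 5) (nat_lit 3) (nat_lit 4) (nat_lit 1) (nat_lit 4) (nat_lit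 231) (nat_lit 194) (nat_lit 175)) (XT.lf (nat_lit 0) (nat_lit 47251628753) (nat_lit 152) (nat_lit 36287658391) (nat_lit 0) (nat_lit 43541862071) (nat_lit 1) (nat_lit 5) (nat_lit 3) (nat_lit 4) (nat_lit 1) (nat_lit 4) (nat_lit 232) (nat_lit 194) (nat_lit 174))))) (XT.nd (nat_lit 234) (nat_lit 0) (nat_lit 0) (XT.nd (nat_lit 78) (nat_lit 0) (nat_lit 0) (XT.lf (nat_lit 0) (nat_lit 56111086403) (nat_lit 152) (nat_lit 37296636983) (nat_lit 0) (nat_lit 52369830349) (nat_lit 1) (nat_lit 5) (nat_lit 3) (nat_lit 4) (nat_lit 1) (nat_lit 4) (nat_lit 233) (nat_lit 194) (nat_lit 173)) (XT.nd (nat_lit 78) (nat_lit 0) (nat_lit 0) (XT.lf (nat_lit 0) (nat_lit 66267845651) (nat_lit 152) (nat_lit 38516256858) (nat_lit 0) (nat_lit 62499207535) (nat_lit 1) (nat_lit 5) (nat_lit 3) (nat_lit 4) (nat_lit 1) (nat_lit 4) (nat_lit 234) (nat_lit 194) (nat_lit 172)) (XT.lf (nat_lit 0) (nat_lit 77920625701) (nat_lit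 152) (nat_lit 39970380143) (nat_lit 0) (nat_lit 74128177096) (nat_lit 1) (nat_lit 5) (nat_lit 3) (nat_lit 4) (nat_lit 1) (nat_lit 4) (nat_lit 235) (nat_lit 194) (nat_lit 171)))) (XT.nd (nat_lit 156) (nat_lit 0) (nat_lit 0) (XT.nd (nat_lit 78) (nat_lit 0) (nat_lit 0) (XT.lf (nat_lit 0) (nat_lit 91297415727) (nat_lit 152) (nat_lit 41687457077) (nat_lit 0) (nat_lit 87484262349) (nat_lit 1) (nat_lit 5) (nat_lit 3) (nat_lit 4) (nat_lit 1) (nat_lit 4) (nat_lit 236) (nat_lit 194) (nat_lit 170)) (XT.lf (nat_lit 0) (nat_lit 106659935534) (nat_lit 152) (nat_lit 43701082644) (nat_lit 0) (nat_lit 102828778005) (nat_lit 1) (nat_lit 5) (nat_lit 3) (nat_lit 4) (nat_lit 1) (nat_lit 4) (nat_lit 237) (nat_lit 194) (nat_lit 169))) (XT.nd (nat_lit 78) (nat_lit 0) (nat_lit 0) (XT.lf (nat_lit 0) (nat_lit 124308756163) (nat_lit 152) (nat_lit 46050653865) (nat_lit 0) (nat_lit 120461942850) (nat_lit 1) (nat_lit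 5) (nat_lit 3) (nat_lit 4) (nat_lit 1) (nat_lit 4) (nat_lit 238) (nat_lit 194) (nat_lit 168)) (XT.lf (nat_lit 0) (nat_lit 144589180624) (nat_lit 152) (nat_lit 48782140612) (nat_lit 0) (nat_lit 140728753587) (nat_lit 1) (nat_lit 5) (nat_lit 3) (nat_lit 4) (nat_lit 1) (nat_lit 4) (nat_lit 239) (nat_lit 194) (nat_lit 167)))))) (XT.nd (nat_lit 546) (nat_lit 0) (nat_lit 0) (XT.nd (nat_lit 234) (nat_lit 0) (nat_lit 0) (XT.nd (nat_lit 78) (nat_lit 0) (nat_lit 0) (XT.lf (nat_lit 0) (nat_lit 167897999831) (nat_lit 152) (nat_lit 51948985017) (nat_lit 0) (nat_lit 164025734773) (nat_lit 1) (nat_lit 5) (nat_lit 3) (nat_lit 4) (nat_lit 1) (nat_lit 4) (nat_lit 240) (nat_lit 194) (nat_lit 166)) (XT.nd (nat_lit 78) (nat_lit 0) (nat_lit 0) (XT.lf (nat_lit 0) (nat_lit 194691255900) (nat_lit 152) (nat_lit 55613147079) (nat_lit 0) (nat_lit 190808696911) (nat_lit 1) (nat_lit 5) (nat_lit 3) (nat_lit 4)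 (nat_lit 1) (nat_lit 4) (nat_lit 241) (nat_lit 194) (nat_lit 165)) (XT.lf (nat_lit 0) (nat_lit 225493164710) (nat_lit 152) (nat_lit 59846316926) (nat_lit 0) (nat_lit 221601654476) (nat_lit 1) (nat_lit 5) (nat_lit 3) (nat_lit 4) (nat_lit 1) (nat_lit 4) (nat_lit 242) (nat_lit 194) (nat_lit 164)))) (XT.nd (nat_lit 156) (nat_lit 0) (nat_lit 0) (XT.nd (nat_lit 78) (nat_lit 0) (nat_lit 0) (XT.lf (nat_lit 0) (nat_lit 260906372303) (nat_lit 152) (nat_lit 64731317445) (nat_lit 0) (nat_lit 257007078378) (nat_lit 1) (nat_lit 5) (nat_lit 3) (nat_lit 4) (nat_lit 1) (nat_lit 4) (nat_lit 243) (nat_lit 194) (nat_lit 163)) (XT.lf (nat_lit 0) (nat_lit 301623745784) (nat_lit 152) (nat_lit 70363724735) (nat_lit 0) (nat_lit 297717683432) (nat_lit 1) (nat_lit 5) (nat_lit 3) (nat_lit 4) (nat_lit 1) (nat_lit 4) (nat_lit 244) (nat_lit 194) (nat_lit 162))) (XT.nd (nat_lit 78) (nat_lit 0) (nat_lit 0) (XT.lf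 (nat_lit 0) (nat_lit 348441929417) (nat_lit 152) (nat_lit 76853738068) (nat_lit 0) (nat_lit 344529981476) (nat_lit 1) (nat_lit 5) (nat_lit 3) (nat_lit 4) (nat_lit 1) (nat_lit 4) (nat_lit 245) (nat_lit 194) (nat_lit 161)) (XT.lf (nat_lit 0) (nat_lit 402276931142) (nat_lit 152) (nat_lit 84328335965) (nat_lit 0) (nat_lit 398359865297) (nat_lit 1) (nat_lit 5) (nat_lit 3) (nat_lit 4) (nat_lit 1) (nat_lit 4) (nat_lit 246) (nat_lit 194) (nat_lit 160))))) (XT.nd (nat_lit 312) (nat_lit 0) (nat_lit 0) (XT.nd (nat_lit 156) (nat_lit 0) (nat_lit 0) (XT.nd (nat_lit 78) (nat_lit 0) (nat_lit 0) (XT.lf (nat_lit 0) (nat_lit 464182044471) (nat_lit 152) (nat_lit 92933760560) (nat_lit 0) (nat_lit 460260528276) (nat_lit 1) (nat_lit 5) (nat_lit 3) (nat_lit 4) (nat_lit 1) (nat_lit 4) (nat_lit 247) (nat_lit 194) (nat_lit 159)) (XT.lf (nat_lit 0) (nat_lit 535368456405) (nat_lit 152) (nat_lit 102838378856)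 (nat_lit 0) (nat_lit 531443070340) (nat_lit 1) (nat_lit 5) (nat_lit 3) (nat_lit 4) (nat_lit 1) (nat_lit 4) (nat_lit 248) (nat_lit 194) (nat_lit 158))) (XT.nd (nat_lit 78) (nat_lit 0) (nat_lit 0) (XT.lf (nat_lit 0) (nat_lit 617228944568) (nat_lit 152) (nat_lit 114235976862) (nat_lit 0) (nat_lit 613300193398) (nat_lit 1) (nat_lit 5) (nat_lit 3) (nat_lit 4) (nat_lit 1) (nat_lit 4) (nat_lit 249) (nat_lit 194) (nat_lit 157)) (XT.lf (nat_lit 0) (nat_lit 711365127207) (nat_lit 152) (nat_lit 127349551062) (nat_lit 0) (nat_lit 707433449859) (nat_lit 1) (nat_lit 5) (nat_lit 3) (nat_lit 4) (nat_lit 1) (nat_lit 4) (nat_lit 250) (nat_lit 194) (nat_lit 156)))) (XT.nd (nat_lit 156) (nat_lit 0) (nat_lit 0) (XT.nd (nat_lit 78) (nat_lit 0) (nat_lit 0) (XT.lf (nat_lit 0) (nat_lit 819618799199) (nat_lit 152) (nat_lit 142435671385) (nat_lit 0) (nat_lit 815684577349) (nat_lit 1) (nat_lit 5) (nat_lit 3)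 (nat_lit 4) (nat_lit 1) (nat_lit 4) (nat_lit 251) (nat_lit 194) (nat_lit 155)) (XT.lf (nat_lit 0) (nat_lit 944107967171) (nat_lit 152) (nat_lit 159789501055) (nat_lit 0) (nat_lit 940171532710) (nat_lit 1) (nat_lit 5) (nat_lit 3) (nat_lit 4) (nat_lit 1) (nat_lit 4) (nat_lit 252) (nat_lit 194) (nat_lit 154))) (XT.nd (nat_lit 78) (nat_lit 0) (nat_lit 0) (XT.lf (nat_lit 0) (nat_lit 1087268288756) (nat_lit 152) (nat_lit 179750571523) (nat_lit 0) (nat_lit 1083329930286) (nat_lit 1) (nat_lit 5) (nat_lit 3) (nat_lit 4) (nat_lit 1) (nat_lit 4) (nat_lit 253) (nat_lit 194) (nat_lit 153)) (XT.lf (nat_lit 0) (nat_lit 1251900726769) (nat_lit 152) (nat_lit 202709425470) (nat_lit 0) (nat_lit 1247960695247) (nat_lit 1) (nat_lit 5) (nat_lit 3) (nat_lit 4) (nat_lit 1) (nat_lit 4) (nat_lit 254) (nat_lit 194) (nat_lit 152))))))) (XT.nd (nat_lit 1170) (nat_lit 0) (nat_lit 0) (XT.nd (nat_lit 546) (nat_lit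 0) (nat_lit 0) (XT.nd (nat_lit 234) (nat_lit 0) (nat_lit 0) (XT.nd (nat_lit 78) (nat_lit 0) (nat_lit 0) (XT.lf (nat_lit 0) (nat_lit 1441226350649) (nat_lit 152) (nat_lit 229115257867) (nat_lit 0) (nat_lit 1437284864299) (nat_lit 1) (nat_lit 5) (nat_lit 3) (nat_lit 4) (nat_lit 1) (nat_lit 4) (nat_lit 255) (nat_lit 194) (nat_lit 151)) (XT.nd (nat_lit 78) (nat_lit 0) (nat_lit 0) (XT.lf (nat_lit 0) (nat_lit 1658949357384) (nat_lit 152) (nat_lit 259484704563) (nat_lit 0) (nat_lit 1655006605967) (nat_lit 1) (nat_lit 5) (nat_lit 3) (nat_lit 4) (nat_lit 1) (nat_lit 4) (nat_lit 256) (nat_lit 194) (nat_lit 150)) (XT.lf (nat_lit 0) (nat_lit 1909329544932) (nat_lit 152) (nat_lit 294411950386) (nat_lit 0) (nat_lit 1905385693457) (nat_lit 1) (nat_lit 5) (nat_lit 3) (nat_lit 4) (nat_lit 1) (nat_lit 4) (nat_lit 257) (nat_lit 194) (nat_lit 149)))) (XT.nd (nat_lit 156) (nat_lit 0) (nat_lit 0) (XT.nd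 (nat_lit 78) (nat_lit 0) (nat_lit 0) (XT.lf (nat_lit 0) (nat_lit 2197265656094) (nat_lit 152) (nat_lit 334580354493) (nat_lit 0) (nat_lit 2193320848046) (nat_lit 1) (nat_lit 5) (nat_lit 3) (nat_lit 4) (nat_lit 1) (nat_lit 4) (nat_lit 258) (nat_lit 194) (nat_lit 148)) (XT.lf (nat_lit 0) (nat_lit 2528391223479) (nat_lit 152) (nat_lit 380775820443) (nat_lit 0) (nat_lit 2524445583629) (nat_lit 1) (nat_lit 5) (nat_lit 3) (nat_lit 4) (nat_lit 1) (nat_lit 4) (nat_lit 259) (nat_lit 194) (nat_lit 147))) (XT.nd (nat_lit 78) (nat_lit 0) (nat_lit 0) (XT.lf (nat_lit 0) (nat_lit 2909184790797) (nat_lit 152) (nat_lit 433902172569) (nat_lit 0) (nat_lit 2905238427640) (nat_lit 1) (nat_lit 5) (nat_lit 3) (nat_lit 4) (nat_lit 1) (nat_lit 4) (nat_lit 260) (nat_lit 194) (nat_lit 146)) (XT.lf (nat_lit 0) (nat_lit 3347096666973) (nat_lit 152) (nat_lit 494998839501) (nat_lit 0) (nat_lit 3343149674854) (nat_lit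 1) (nat_lit 5) (nat_lit 3) (nat_lit 4) (nat_lit 1) (nat_lit 4) (nat_lit 261) (nat_lit 194) (nat_lit 145))))) (XT.nd (nat_lit 312) (nat_lit 0) (nat_lit 0) (XT.nd (nat_lit 156) (nat_lit 0) (nat_lit 0) (XT.nd (nat_lit 78) (nat_lit 0) (nat_lit 0) (XT.lf (nat_lit 0) (nat_lit 3850694693064) (nat_lit 152) (nat_lit 565261190807) (nat_lit 0) (nat_lit 3846747154021) (nat_lit 1) (nat_lit 5) (nat_lit 3) (nat_lit 4) (nat_lit 1) (nat_lit 4) (nat_lit 262) (nat_lit 194) (nat_lit 144)) (XT.lf (nat_lit 0) (nat_lit 4429831873927) (nat_lit 152) (nat_lit 646063924667) (nat_lit 0) (nat_lit 4425883859299) (nat_lit 1) (nat_lit 5) (nat_lit 3) (nat_lit 4) (nat_lit 1) (nat_lit 4) (nat_lit 263) (nat_lit 194) (nat_lit 143))) (XT.nd (nat_lit 78) (nat_lit 0) (nat_lit 0) (XT.lf (nat_lit 0) (nat_lit 5095839154405) (nat_lit 152) (nat_lit 738987964134) (nat_lit 0) (nat_lit 5091890726224) (nat_lit 1) (nat_lit 5) (nat_lit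 3) (nat_lit 4) (nat_lit 1) (nat_lit 4) (nat_lit 264) (nat_lit 194) (nat_lit 142)) (XT.lf (nat_lit 0) (nat_lit 5861747111726) (nat_lit 152) (nat_lit 845851388241) (nat_lit 0) (nat_lit 5857798323934) (nat_lit 1) (nat_lit 5) (nat_lit 3) (nat_lit 4) (nat_lit 1) (nat_lit 4) (nat_lit 265) (nat_lit 194) (nat_lit 141)))) (XT.nd (nat_lit 156) (nat_lit 0) (nat_lit 0) (XT.nd (nat_lit 78) (nat_lit 0) (nat_lit 0) (XT.lf (nat_lit 0) (nat_lit 6742540901575) (nat_lit 152) (nat_lit 968745003112) (nat_lit 0) (nat_lit 6738591801078) (nat_lit 1) (nat_lit 5) (nat_lit 3) (nat_lit 4) (nat_lit 1) (nat_lit 4) (nat_lit 266) (nat_lit 194) (nat_lit 140)) (XT.lf (nat_lit 0) (nat_lit 7755453445929) (nat_lit 152) (nat_lit 1110073249037) (nat_lit 0) (nat_lit 7751504073514) (nat_lit 1) (nat_lit 5) (nat_lit 3) (nat_lit 4) (nat_lit 1) (nat_lit 4) (nat_lit 267) (nat_lit 194) (nat_lit 139))) (XT.nd (nat_lit 78) (nat_lit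 0) (nat_lit 0) (XT.lf (nat_lit 0) (nat_lit 8920302598915) (nat_lit 152) (nat_lit 1272601243873) (nat_lit 0) (nat_lit 8916352990050) (nat_lit 1) (nat_lit 5) (nat_lit 3) (nat_lit 4) (nat_lit 1) (nat_lit 4) (nat_lit 268) (nat_lit 194) (nat_lit 138)) (XT.lf (nat_lit 0) (nat_lit 10259878887441) (nat_lit 152) (nat_lit 1459508883169) (nat_lit 0) (nat_lit 10255929072967) (nat_lit 1) (nat_lit 5) (nat_lit 3) (nat_lit 4) (nat_lit 1) (nat_lit 4) (nat_lit 269) (nat_lit 194) (nat_lit 137)))))) (XT.nd (nat_lit 780) (nat_lit 0) (nat_lit 0) (XT.nd (nat_lit 468) (nat_lit 0) (nat_lit 0) (XT.nd (nat_lit 312) (nat_lit 0) (nat_lit 0) (XT.lf (nat_lit 0) (nat_lit 11800391412803) (nat_lit 152) (nat_lit 1674453055521) (nat_lit 0) (nat_lit 11796441419538) (nat_lit 1) (nat_lit 5) (nat_lit 3) (nat_lit 4) (nat_lit 1) (nat_lit 4) (nat_lit 270) (nat_lit 194) (nat_lit 136)) (XT.nd (nat_lit 78) (nat_lit 0) (nat_lit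 0) (XT.lf (nat_lit 0) (nat_lit 20646599805513) (nat_lit 152) (nat_lit 2908747906962) (nat_lit 0) (nat_lit 20642649301807) (nat_lit 1) (nat_lit 5) (nat_lit 3) (nat_lit 4) (nat_lit 1) (nat_lit 4) (nat_lit 274) (nat_lit 194) (nat_lit 132)) (XT.lf (nat_lit 0) (nat_lit 23745119776559) (nat_lit 152) (nat_lit 3341079230709) (nat_lit 0) (nat_lit 23741169183962) (nat_lit 1) (nat_lit 5) (nat_lit 3) (nat_lit 4) (nat_lit 1) (nat_lit 4) (nat_lit 275) (nat_lit 194) (nat_lit 131)))) (XT.nd (nat_lit 156) (nat_lit 0) (nat_lit 0) (XT.nd (nat_lit 78) (nat_lit 0) (nat_lit 0) (XT.lf (nat_lit 0) (nat_lit 27308417654011) (nat_lit 152) (nat_lit 3838260420398) (nat_lit 0) (nat_lit 27304466984117) (nat_lit 1) (nat_lit 5) (nat_lit 3) (nat_lit 4) (nat_lit 1) (nat_lit 4) (nat_lit 276) (nat_lit 194) (nat_lit 130)) (XT.lf (nat_lit 0) (nat_lit 31406210135471) (nat_lit 152) (nat_lit 4410018934089) (nat_lit 0) (nat_lit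 31402259398364) (nat_lit 1) (nat_lit 5) (nat_lit 3) (nat_lit 4) (nat_lit 1) (nat_lit 4) (nat_lit 277) (nat_lit 194) (nat_lit 129))) (XT.nd (nat_lit 78) (nat_lit 0) (nat_lit 0) (XT.lf (nat_lit 0) (nat_lit 36118671421663) (nat_lit 152) (nat_lit 5067541351397) (nat_lit 0) (nat_lit 36114720626109) (nat_lit 1) (nat_lit 5) (nat_lit 3) (nat_lit 4) (nat_lit 1) (nat_lit 4) (nat_lit 278) (nat_lit 194) (nat_lit 128)) (XT.lf (nat_lit 0) (nat_lit 41538001842101) (nat_lit 152) (nat_lit 5823692241357) (nat_lit 0) (nat_lit 41534050995724) (nat_lit 1) (nat_lit 5) (nat_lit 3) (nat_lit 4) (nat_lit 1) (nat_lit 4) (nat_lit 279) (nat_lit 194) (nat_lit 127))))) (XT.nd (nat_lit 26052) (nat_lit 0) (nat_lit 228) (XT.nd (nat_lit 25896) (nat_lit 0) (nat_lit 456) (XT.nd (nat_lit 25818) (nat_lit 0) (nat_lit 608) (XT.lf (nat_lit 0) (nat_lit 47770231774575) (nat_lit 152) (nat_lit 6693265860511) (nat_lit 0) (nat_lit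 47766280884003) (nat_lit 1) (nat_lit 5) (nat_lit 3) (nat_lit 4) (nat_lit 1) (nat_lit 4) (nat_lit 280) (nat_lit 194) (nat_lit 126)) (XT.lf (nat_lit 0) (nat_lit 3140343925) (nat_lit 152) (nat_lit 797007845) (nat_lit 152) (nat_lit 797007845) (nat_lit 9) (nat_lit 4) (nat_lit 11) (nat_lit 5) (nat_lit 11) (nat_lit 4) (nat_lit 210) (nat_lit 195) (nat_lit 195))) (XT.nd (nat_lit 78) (nat_lit 0) (nat_lit 0) (XT.lf (nat_lit 0) (nat_lit 1587969462) (nat_lit 152) (nat_lit 7840885662) (nat_lit 0) (nat_lit 804153098) (nat_lit 7) (nat_lit 5) (nat_lit 9) (nat_lit 4) (nat_lit 7) (nat_lit 4) (nat_lit 211) (nat_lit 195) (nat_lit 194)) (XT.lf (nat_lit 0) (nat_lit 4959800622) (nat_lit 152) (nat_lit 2668685271) (nat_lit 0) (nat_lit 3494404811) (nat_lit 7) (nat_lit 5) (nat_lit 9) (nat_lit 4) (nat_lit 7) (nat_lit 4) (nat_lit 212) (nat_lit 195) (nat_lit 193)))) (XT.nd (nat_lit 156) (nat_lit 152) (nat_lit 0)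 (XT.nd (nat_lit 78) (nat_lit 0) (nat_lit 0) (XT.lf (nat_lit 0) (nat_lit 3037039979) (nat_lit 76) (nat_lit 5600260258) (nat_lit 76) (nat_lit 3542186667) (nat_lit 6) (nat_lit 4) (nat_lit 7) (nat_lit 5) (nat_lit 7) (nat_lit 4) (nat_lit 213) (nat_lit 195) (nat_lit 192)) (XT.lf (nat_lit 0) (nat_lit 9409168147) (nat_lit 76) (nat_lit 3293132313) (nat_lit 76) (nat_lit 719686740) (nat_lit 6) (nat_lit 4) (nat_lit 7) (nat_lit 5) (nat_lit 7) (nat_lit 4) (nat_lit 214) (nat_lit 195) (nat_lit 191))) (XT.nd (nat_lit 78) (nat_lit 0) (nat_lit 0) (XT.lf (nat_lit 0) (nat_lit 1456398720) (nat_lit 76) (nat_lit 626389114) (nat_lit 152) (nat_lit 12787273525) (nat_lit 4) (nat_lit 5) (nat_lit 5) (nat_lit 5) (nat_lit 6) (nat_lit 4) (nat_lit 215) (nat_lit 195) (nat_lit 190)) (XT.lf (nat_lit 0) (nat_lit 5285131973) (nat_lit 152) (nat_lit 8920142873) (nat_lit 0) (nat_lit 2318792509) (nat_lit 4) (nat_lit 5) (nat_lit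 6) (nat_lit 4) (nat_lit 4) (nat_lit 4) (nat_lit 216) (nat_lit 195) (nat_lit 189))))))))
noncomputable def xc19 : XT := (XT.nd (nat_lit 2340) (nat_lit 0) (nat_lit 0) (XT.nd (nat_lit 1170) (nat_lit 0) (nat_lit 0) (XT.nd (nat_lit 546) (nat_lit 0) (nat_lit 0) (XT.nd (nat_lit 234) (nat_lit 152) (nat_lit 0) (XT.nd (nat_lit 78) (nat_lit 76) (nat_lit 0) (XT.lf (nat_lit 0) (nat_lit 8764943303) (nat_lit 152) (nat_lit 4189324008) (nat_lit 0) (nat_lit 5503938235) (nat_lit 4) (nat_lit 5) (nat_lit 6) (nat_lit 4) (nat_lit 4) (nat_lit 4) (nat_lit 217) (nat_lit 195) (nat_lit 188)) (XT.nd (nat_lit 78) (nat_lit 0) (nat_lit 0) (XT.lf (nat_lit 0) (nat_lit 984980685) (nat_lit 76) (nat_lit 11620172917) (nat_lit 76) (nat_lit 8102936888) (nat_lit 3) (nat_lit 4) (nat_lit 4) (nat_lit 5) (nat_lit 4) (nat_lit 4) (nat_lit 218) (nat_lit 195) (nat_lit 187)) (XT.lf (nat_lit 0) (nat_lit 7068510217) (nat_lit 76) (nat_lit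 9981923299) (nat_lit 76) (nat_lit 6241877741) (nat_lit 3) (nat_lit 4) (nat_lit 4) (nat_lit 5) (nat_lit 4) (nat_lit 4) (nat_lit 219) (nat_lit 195) (nat_lit 186)))) (XT.nd (nat_lit 156) (nat_lit 152) (nat_lit 0) (XT.nd (nat_lit 78) (nat_lit 0) (nat_lit 0) (XT.lf (nat_lit 0) (nat_lit 13770878955) (nat_lit 76) (nat_lit 8226453141) (nat_lit 76) (nat_lit 4292660165) (nat_lit 3) (nat_lit 4) (nat_lit 4) (nat_lit 5) (nat_lit 4) (nat_lit 4) (nat_lit 220) (nat_lit 195) (nat_lit 185)) (XT.lf (nat_lit 0) (nat_lit 21223220201) (nat_lit 76) (nat_lit 6319416288) (nat_lit 76) (nat_lit 2217147297) (nat_lit 3) (nat_lit 4) (nat_lit 4) (nat_lit 5) (nat_lit 4) (nat_lit 4) (nat_lit 221) (nat_lit 195) (nat_lit 184))) (XT.nd (nat_lit 78) (nat_lit 76) (nat_lit 0) (XT.lf (nat_lit 0) (nat_lit 23019128) (nat_lit 152) (nat_lit 4199278747) (nat_lit 76) (nat_lit 29547118230) (nat_lit 2) (nat_lit 5) (nat_lit 4) (nat_lit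 5) (nat_lit 3) (nat_lit 4) (nat_lit 222) (nat_lit 195) (nat_lit 183)) (XT.lf (nat_lit 0) (nat_lit 524859387) (nat_lit 76) (nat_lit 1754685418) (nat_lit 152) (nat_lit 36099613494) (nat_lit 1) (nat_lit 5) (nat_lit 2) (nat_lit 5) (nat_lit 3) (nat_lit 4) (nat_lit 223) (nat_lit 195) (nat_lit 182))))) (XT.nd (nat_lit 312) (nat_lit 0) (nat_lit 0) (XT.nd (nat_lit 156) (nat_lit 0) (nat_lit 0) (XT.nd (nat_lit 78) (nat_lit 0) (nat_lit 0) (XT.lf (nat_lit 0) (nat_lit 5038132546) (nat_lit 152) (nat_lit 37481766768) (nat_lit 0) (nat_lit 1136447623) (nat_lit 1) (nat_lit 5) (nat_lit 3) (nat_lit 4) (nat_lit 1) (nat_lit 4) (nat_lit 224) (nat_lit 195) (nat_lit 181)) (XT.lf (nat_lit 0) (nat_lit 8197347619) (nat_lit 152) (nat_lit 37318294463) (nat_lit 0) (nat_lit 4211900341) (nat_lit 1) (nat_lit 5) (nat_lit 3) (nat_lit 4) (nat_lit 1) (nat_lit 4) (nat_lit 225) (nat_lit 195) (nat_lit 180))) (XT.nd (nat_lit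 78) (nat_lit 0) (nat_lit 0) (XT.lf (nat_lit 0) (nat_lit 11746342976) (nat_lit 152) (nat_lit 37288025844) (nat_lit 0) (nat_lit 7688058867) (nat_lit 1) (nat_lit 5) (nat_lit 3) (nat_lit 4) (nat_lit 1) (nat_lit 4) (nat_lit 226) (nat_lit 195) (nat_lit 179)) (XT.lf (nat_lit 0) (nat_lit 15754555480) (nat_lit 152) (nat_lit 37390368700) (nat_lit 0) (nat_lit 11632934997) (nat_lit 1) (nat_lit 5) (nat_lit 3) (nat_lit 4) (nat_lit 1) (nat_lit 4) (nat_lit 227) (nat_lit 195) (nat_lit 178)))) (XT.nd (nat_lit 156) (nat_lit 0) (nat_lit 0) (XT.nd (nat_lit 78) (nat_lit 0) (nat_lit 0) (XT.lf (nat_lit 0) (nat_lit 20300406682) (nat_lit 152) (nat_lit 37627325391) (nat_lit 0) (nat_lit 16123711091) (nat_lit 1) (nat_lit 5) (nat_lit 3) (nat_lit 4) (nat_lit 1) (nat_lit 4) (nat_lit 228) (nat_lit 195) (nat_lit 177)) (XT.lf (nat_lit 0) (nat_lit 25472837148) (nat_lit 152) (nat_lit 38003532026) (nat_lit 0) (nat_lit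 21248250159) (nat_lit 1) (nat_lit 5) (nat_lit 3) (nat_lit 4) (nat_lit 1) (nat_lit 4) (nat_lit 229) (nat_lit 195) (nat_lit 176))) (XT.nd (nat_lit 78) (nat_lit 0) (nat_lit 0) (XT.lf (nat_lit 0) (nat_lit 31373046605) (nat_lit 152) (nat_lit 38526349170) (nat_lit 0) (nat_lit 27106814921) (nat_lit 1) (nat_lit 5) (nat_lit 3) (nat_lit 4) (nat_lit 1) (nat_lit 4) (nat_lit 230) (nat_lit 195) (nat_lit 175)) (XT.lf (nat_lit 0) (nat_lit 38116473933) (nat_lit 152) (nat_lit 39206005854) (nat_lit 0) (nat_lit 33814029472) (nat_lit 1) (nat_lit 5) (nat_lit 3) (nat_lit 4) (nat_lit 1) (nat_lit 4) (nat_lit 231) (nat_lit 195) (nat_lit 174)))))) (XT.nd (nat_lit 546) (nat_lit 0) (nat_lit 0) (XT.nd (nat_lit 234) (nat_lit 0) (nat_lit 0) (XT.nd (nat_lit 78) (nat_lit 0) (nat_lit 0) (XT.lf (nat_lit 0) (nat_lit 45835055755) (nat_lit 152) (nat_lit 40055799708) (nat_lit 0) (nat_lit 41501121921) (nat_lit 1) (nat_lit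 5) (nat_lit 3) (nat_lit 4) (nat_lit 1) (nat_lit 4) (nat_lit 232) (nat_lit 195) (nat_lit 173)) (XT.nd (nat_lit 78) (nat_lit 0) (nat_lit 0) (XT.lf (nat_lit 0) (nat_lit 54679807801) (nat_lit 152) (nat_lit 41092357134) (nat_lit 0) (nat_lit 50318491905) (nat_lit 1) (nat_lit 5) (nat_lit 3) (nat_lit 4) (nat_lit 1) (nat_lit 4) (nat_lit 233) (nat_lit 195) (nat_lit 172)) (XT.lf (nat_lit 0) (nat_lit 64823779568) (nat_lit 152) (nat_lit 42335958604) (nat_lit 0) (nat_lit 60438653182) (nat_lit 1) (nat_lit 5) (nat_lit 3) (nat_lit 4) (nat_lit 1) (nat_lit 4) (nat_lit 234) (nat_lit 195) (nat_lit 171)))) (XT.nd (nat_lit 156) (nat_lit 0) (nat_lit 0) (XT.nd (nat_lit 78) (nat_lit 0) (nat_lit 0) (XT.lf (nat_lit 0) (nat_lit 76465440068) (nat_lit 152) (nat_lit 43810935450) (nat_lit 0) (nat_lit 72059608910) (nat_lit 1) (nat_lit 5) (nat_lit 3) (nat_lit 4) (nat_lit 1) (nat_lit 4) (nat_lit 235) (nat_lit 195) (nat_lit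 170)) (XT.lf (nat_lit 0) (nat_lit 89832560921) (nat_lit 152) (nat_lit 45546145916) (nat_lit 0) (nat_lit 85408725612) (nat_lit 1) (nat_lit 5) (nat_lit 3) (nat_lit 4) (nat_lit 1) (nat_lit 4) (nat_lit 236) (nat_lit 195) (nat_lit 169))) (XT.nd (nat_lit 78) (nat_lit 0) (nat_lit 0) (XT.lf (nat_lit 0) (nat_lit 105186672751) (nat_lit 152) (nat_lit 47575539770) (nat_lit 0) (nat_lit 100747181659) (nat_lit 1) (nat_lit 5) (nat_lit 3) (nat_lit 4) (nat_lit 1) (nat_lit 4) (nat_lit 237) (nat_lit 195) (nat_lit 168)) (XT.lf (nat_lit 0) (nat_lit 122828182095) (nat_lit 152) (nat_lit 49938822546) (nat_lit 0) (nat_lit 118375077278) (nat_lit 1) (nat_lit 5) (nat_lit 3) (nat_lit 4) (nat_lit 1) (nat_lit 4) (nat_lit 238) (nat_lit 195) (nat_lit 167))))) (XT.nd (nat_lit 312) (nat_lit 0) (nat_lit 0) (XT.nd (nat_lit 156) (nat_lit 0) (nat_lit 0) (XT.nd (nat_lit 78) (nat_lit 0) (nat_lit 0) (XT.lf (nat_lit 0) (nat_lit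 143102248918) (nat_lit 152) (nat_lit 52682232384) (nat_lit 0) (nat_lit 138637306080) (nat_lit 1) (nat_lit 5) (nat_lit 3) (nat_lit 4) (nat_lit 1) (nat_lit 4) (nat_lit 239) (nat_lit 195) (nat_lit 166)) (XT.lf (nat_lit 0) (nat_lit 166405539744) (nat_lit 152) (nat_lit 55859444694) (nat_lit 0) (nat_lit 161930302975) (nat_lit 1) (nat_lit 5) (nat_lit 3) (nat_lit 4) (nat_lit 1) (nat_lit 4) (nat_lit 240) (nat_lit 195) (nat_lit 165))) (XT.nd (nat_lit 78) (nat_lit 0) (nat_lit 0) (XT.lf (nat_lit 0) (nat_lit 193193988525) (nat_lit 152) (nat_lit 59532622326) (nat_lit 0) (nat_lit 188709800511) (nat_lit 1) (nat_lit 5) (nat_lit 3) (nat_lit 4) (nat_lit 1) (nat_lit 4) (nat_lit 241) (nat_lit 195) (nat_lit 164)) (XT.lf (nat_lit 0) (nat_lit 223991717084) (nat_lit 152) (nat_lit 63773631799) (nat_lit 0) (nat_lit 219499745379) (nat_lit 1) (nat_lit 5) (nat_lit 3) (nat_lit 4) (nat_lit 1) (nat_lit 4) (nat_lit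 242) (nat_lit 195) (nat_lit 163)))) (XT.nd (nat_lit 156) (nat_lit 0) (nat_lit 0) (XT.nd (nat_lit 78) (nat_lit 0) (nat_lit 0) (XT.lf (nat_lit 0) (nat_lit 259401289677) (nat_lit 152) (nat_lit 68665449385) (nat_lit 0) (nat_lit 254902549544) (nat_lit 1) (nat_lit 5) (nat_lit 3) (nat_lit 4) (nat_lit 1) (nat_lit 4) (nat_lit 243) (nat_lit 195) (nat_lit 162)) (XT.lf (nat_lit 0) (nat_lit 300115502288) (nat_lit 152) (nat_lit 74303784558) (nat_lit 0) (nat_lit 295610876567) (nat_lit 1) (nat_lit 5) (nat_lit 3) (nat_lit 4) (nat_lit 1) (nat_lit 4) (nat_lit 244) (nat_lit 195) (nat_lit 161))) (XT.nd (nat_lit 78) (nat_lit 0) (nat_lit 0) (XT.lf (nat_lit 0) (nat_lit 346930937338) (nat_lit 152) (nat_lit 80798952572) (nat_lit 0) (nat_lit 342421193713) (nat_lit 1) (nat_lit 5) (nat_lit 3) (nat_lit 4) (nat_lit 1) (nat_lit 4) (nat_lit 245) (nat_lit 195) (nat_lit 160)) (XT.lf (nat_lit 0) (nat_lit 400763548991)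 (nat_lit 152) (nat_lit 88278032801) (nat_lit 0) (nat_lit 396249355016) (nat_lit 1) (nat_lit 5) (nat_lit 3) (nat_lit 4) (nat_lit 1) (nat_lit 4) (nat_lit 246) (nat_lit 195) (nat_lit 159))))))) (XT.nd (nat_lit 1170) (nat_lit 0) (nat_lit 0) (XT.nd (nat_lit 546) (nat_lit 0) (nat_lit 0) (XT.nd (nat_lit 234) (nat_lit 0) (nat_lit 0) (XT.nd (nat_lit 78) (nat_lit 0) (nat_lit 0) (XT.lf (nat_lit 0) (nat_lit 462666583997) (nat_lit 152) (nat_lit 96887355076) (nat_lit 0) (nat_lit 458148520152) (nat_lit 1) (nat_lit 5) (nat_lit 3) (nat_lit 4) (nat_lit 1) (nat_lit 4) (nat_lit 247) (nat_lit 195) (nat_lit 158)) (XT.nd (nat_lit 78) (nat_lit 0) (nat_lit 0) (XT.lf (nat_lit 0) (nat_lit 533851188694) (nat_lit 152) (nat_lit 106795362659) (nat_lit 0) (nat_lit 529329759744) (nat_lit 1) (nat_lit 5) (nat_lit 3) (nat_lit 4) (nat_lit 1) (nat_lit 4) (nat_lit 248) (nat_lit 195) (nat_lit 157)) (XT.lf (nat_lit 0) (nat_lit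 615710105346) (nat_lit 152) (nat_lit 118195907871) (nat_lit 0) (nat_lit 611185750218) (nat_lit 1) (nat_lit 5) (nat_lit 3) (nat_lit 4) (nat_lit 1) (nat_lit 4) (nat_lit 249) (nat_lit 195) (nat_lit 156)))) (XT.nd (nat_lit 156) (nat_lit 0) (nat_lit 0) (XT.nd (nat_lit 78) (nat_lit 0) (nat_lit 0) (XT.lf (nat_lit 0) (nat_lit 709844921453) (nat_lit 152) (nat_lit 131312044858) (nat_lit 0) (nat_lit 705318021823) (nat_lit 1) (nat_lit 5) (nat_lit 3) (nat_lit 4) (nat_lit 1) (nat_lit 4) (nat_lit 250) (nat_lit 195) (nat_lit 155)) (XT.lf (nat_lit 0) (nat_lit 818097405157) (nat_lit 152) (nat_lit 146400393692) (nat_lit 0) (nat_lit 813568292917) (nat_lit 1) (nat_lit 5) (nat_lit 3) (nat_lit 4) (nat_lit 1) (nat_lit 4) (nat_lit 251) (nat_lit 195) (nat_lit 154))) (XT.nd (nat_lit 78) (nat_lit 0) (nat_lit 0) (XT.lf (nat_lit 0) (nat_lit 942585539835) (nat_lit 152) (nat_lit 163756161198) (nat_lit 0) (nat_lit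 938054503585) (nat_lit 1) (nat_lit 5) (nat_lit 3) (nat_lit 4) (nat_lit 1) (nat_lit 4) (nat_lit 252) (nat_lit 195) (nat_lit 153)) (XT.lf (nat_lit 0) (nat_lit 1085744962904) (nat_lit 152) (nat_lit 183718916740) (nat_lit 0) (nat_lit 1081212253602) (nat_lit 1) (nat_lit 5) (nat_lit 3) (nat_lit 4) (nat_lit 1) (nat_lit 4) (nat_lit 253) (nat_lit 195) (nat_lit 152))))) (XT.nd (nat_lit 312) (nat_lit 0) (nat_lit 0) (XT.nd (nat_lit 156) (nat_lit 0) (nat_lit 0) (XT.nd (nat_lit 78) (nat_lit 0) (nat_lit 0) (XT.lf (nat_lit 0) (nat_lit 1250376619598) (nat_lit 152) (nat_lit 206679235970) (nat_lit 0) (nat_lit 1245842455469) (nat_lit 1) (nat_lit 5) (nat_lit 3) (nat_lit 4) (nat_lit 1) (nat_lit 4) (nat_lit 254) (nat_lit 195) (nat_lit 151)) (XT.lf (nat_lit 0) (nat_lit 1439701564070) (nat_lit 152) (nat_lit 233086342524) (nat_lit 0) (nat_lit 1435166134873) (nat_lit 1) (nat_lit 5) (nat_lit 3) (nat_lit 4) (nat_lit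 1) (nat_lit 4) (nat_lit 255) (nat_lit 195) (nat_lit 150))) (XT.nd (nat_lit 78) (nat_lit 0) (nat_lit 0) (XT.lf (nat_lit 0) (nat_lit 1657423980016) (nat_lit 152) (nat_lit 263456897184) (nat_lit 0) (nat_lit 1652887450760) (nat_lit 1) (nat_lit 5) (nat_lit 3) (nat_lit 4) (nat_lit 1) (nat_lit 4) (nat_lit 256) (nat_lit 195) (nat_lit 149)) (XT.lf (nat_lit 0) (nat_lit 1907803653835) (nat_lit 152) (nat_lit 298385106454) (nat_lit 0) (nat_lit 1903266168007) (nat_lit 1) (nat_lit 5) (nat_lit 3) (nat_lit 4) (nat_lit 1) (nat_lit 4) (nat_lit 257) (nat_lit 195) (nat_lit 148)))) (XT.nd (nat_lit 156) (nat_lit 0) (nat_lit 0) (XT.nd (nat_lit 78) (nat_lit 0) (nat_lit 0) (XT.lf (nat_lit 0) (nat_lit 2195739318275) (nat_lit 152) (nat_lit 338554348341) (nat_lit 0) (nat_lit 2191201000645) (nat_lit 1) (nat_lit 5) (nat_lit 3) (nat_lit 4) (nat_lit 1) (nat_lit 4) (nat_lit 258) (nat_lit 195) (nat_lit 147)) (XT.lf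 (nat_lit 0) (nat_lit 2526864497207) (nat_lit 152) (nat_lit 384750542795) (nat_lit 0) (nat_lit 2522325456270) (nat_lit 1) (nat_lit 5) (nat_lit 3) (nat_lit 4) (nat_lit 1) (nat_lit 4) (nat_lit 259) (nat_lit 195) (nat_lit 146))) (XT.nd (nat_lit 78) (nat_lit 0) (nat_lit 0) (XT.lf (nat_lit 0) (nat_lit 2907657726739) (nat_lit 152) (nat_lit 437877528403) (nat_lit 0) (nat_lit 2903118056840) (nat_lit 1) (nat_lit 5) (nat_lit 3) (nat_lit 4) (nat_lit 1) (nat_lit 4) (nat_lit 260) (nat_lit 195) (nat_lit 145)) (XT.lf (nat_lit 0) (nat_lit 3345569309188) (nat_lit 152) (nat_lit 498974746188) (nat_lit 0) (nat_lit 3341029092366) (nat_lit 1) (nat_lit 5) (nat_lit 3) (nat_lit 4) (nat_lit 1) (nat_lit 4) (nat_lit 261) (nat_lit 195) (nat_lit 144)))))) (XT.nd (nat_lit 546) (nat_lit 0) (nat_lit 0) (XT.nd (nat_lit 234) (nat_lit 0) (nat_lit 0) (XT.nd (nat_lit 78) (nat_lit 0) (nat_lit 0) (XT.lf (nat_lit 0) (nat_lit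 3849167079864) (nat_lit 152) (nat_lit 569237576499) (nat_lit 0) (nat_lit 3844626387456) (nat_lit 1) (nat_lit 5) (nat_lit 3) (nat_lit 4) (nat_lit 1) (nat_lit 4) (nat_lit 262) (nat_lit 195) (nat_lit 143)) (XT.nd (nat_lit 78) (nat_lit 0) (nat_lit 0) (XT.lf (nat_lit 0) (nat_lit 4428304038628) (nat_lit 152) (nat_lit 650040726883) (nat_lit 0) (nat_lit 4423762932667) (nat_lit 1) (nat_lit 5) (nat_lit 3) (nat_lit 4) (nat_lit 1) (nat_lit 4) (nat_lit 263) (nat_lit 195) (nat_lit 142)) (XT.lf (nat_lit 0) (nat_lit 5094311125976) (nat_lit 152) (nat_lit 742965128545) (nat_lit 0) (nat_lit 5089769660404) (nat_lit 1) (nat_lit 5) (nat_lit 3) (nat_lit 4) (nat_lit 1) (nat_lit 4) (nat_lit 264) (nat_lit 195) (nat_lit 141)))) (XT.nd (nat_lit 156) (nat_lit 0) (nat_lit 0) (XT.nd (nat_lit 78) (nat_lit 0) (nat_lit 0) (XT.lf (nat_lit 0) (nat_lit 5860218915358) (nat_lit 152) (nat_lit 849828867605) (nat_lit 0) (nat_lit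 5855677137080) (nat_lit 1) (nat_lit 5) (nat_lit 3) (nat_lit 4) (nat_lit 1) (nat_lit 4) (nat_lit 265) (nat_lit 195) (nat_lit 140)) (XT.lf (nat_lit 0) (nat_lit 6741012559173) (nat_lit 152) (nat_lit 972722756347) (nat_lit 0) (nat_lit 6736470508978) (nat_lit 1) (nat_lit 5) (nat_lit 3) (nat_lit 4) (nat_lit 1) (nat_lit 4) (nat_lit 266) (nat_lit 195) (nat_lit 139))) (XT.nd (nat_lit 78) (nat_lit 0) (nat_lit 0) (XT.lf (nat_lit 0) (nat_lit 7753924976540) (nat_lit 152) (nat_lit 1114051240422) (nat_lit 0) (nat_lit 7749382689895) (nat_lit 1) (nat_lit 5) (nat_lit 3) (nat_lit 4) (nat_lit 1) (nat_lit 4) (nat_lit 267) (nat_lit 195) (nat_lit 138)) (XT.lf (nat_lit 0) (nat_lit 8918774019104) (nat_lit 152) (nat_lit 1276579442344) (nat_lit 0) (nat_lit 8914231526850) (nat_lit 1) (nat_lit 5) (nat_lit 3) (nat_lit 4) (nat_lit 1) (nat_lit 4) (nat_lit 268) (nat_lit 195) (nat_lit 137))))) (XT.nd (nat_lit 546)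 (nat_lit 0) (nat_lit 0) (XT.nd (nat_lit 390) (nat_lit 0) (nat_lit 0) (XT.nd (nat_lit 312) (nat_lit 0) (nat_lit 0) (XT.lf (nat_lit 0) (nat_lit 10258350211610) (nat_lit 152) (nat_lit 1463487261715) (nat_lit 0) (nat_lit 10253807540566) (nat_lit 1) (nat_lit 5) (nat_lit 3) (nat_lit 4) (nat_lit 1) (nat_lit 4) (nat_lit 269) (nat_lit 195) (nat_lit 136)) (XT.lf (nat_lit 0) (nat_lit 17950705574084) (nat_lit 152) (nat_lit 2536786685481) (nat_lit 0) (nat_lit 17946162392597) (nat_lit 1) (nat_lit 5) (nat_lit 3) (nat_lit 4) (nat_lit 1) (nat_lit 4) (nat_lit 273) (nat_lit 195) (nat_lit 132))) (XT.nd (nat_lit 78) (nat_lit 0) (nat_lit 0) (XT.lf (nat_lit 0) (nat_lit 20645070807809) (nat_lit 152) (nat_lit 2912726889148) (nat_lit 0) (nat_lit 20640527537432) (nat_lit 1) (nat_lit 5) (nat_lit 3) (nat_lit 4) (nat_lit 1) (nat_lit 4) (nat_lit 274) (nat_lit 195) (nat_lit 131)) (XT.lf (nat_lit 0) (nat_lit 23743590737343)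 (nat_lit 152) (nat_lit 3345058290746) (nat_lit 0) (nat_lit 23739047389670) (nat_lit 1) (nat_lit 5) (nat_lit 3) (nat_lit 4) (nat_lit 1) (nat_lit 4) (nat_lit 275) (nat_lit 195) (nat_lit 130)))) (XT.nd (nat_lit 156) (nat_lit 0) (nat_lit 0) (XT.nd (nat_lit 78) (nat_lit 0) (nat_lit 0) (XT.lf (nat_lit 0) (nat_lit 27306888578697) (nat_lit 152) (nat_lit 3842239548132) (nat_lit 0) (nat_lit 27302345163810) (nat_lit 1) (nat_lit 5) (nat_lit 3) (nat_lit 4) (nat_lit 1) (nat_lit 4) (nat_lit 276) (nat_lit 195) (nat_lit 129)) (XT.lf (nat_lit 0) (nat_lit 31404681028768) (nat_lit 152) (nat_lit 4413998120690) (nat_lit 0) (nat_lit 31400137555434) (nat_lit 1) (nat_lit 5) (nat_lit 3) (nat_lit 4) (nat_lit 1) (nat_lit 4) (nat_lit 277) (nat_lit 195) (nat_lit 128))) (XT.nd (nat_lit 78) (nat_lit 0) (nat_lit 0) (XT.lf (nat_lit 0) (nat_lit 36117142287666) (nat_lit 152) (nat_lit 5071520589187) (nat_lit 0) (nat_lit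 36112598763509) (nat_lit 1) (nat_lit 5) (nat_lit 3) (nat_lit 4) (nat_lit 1) (nat_lit 4) (nat_lit 278) (nat_lit 195) (nat_lit 127)) (XT.lf (nat_lit 0) (nat_lit 41536472684369) (nat_lit 152) (nat_lit 5827671523658) (nat_lit 0) (nat_lit 41531929116018) (nat_lit 1) (nat_lit 5) (nat_lit 3) (nat_lit 4) (nat_lit 1) (nat_lit 4) (nat_lit 279) (nat_lit 195) (nat_lit 126))))))))
noncomputable def xc20 : XT := (XT.nd (nat_lit 2262) (nat_lit 0) (nat_lit 0) (XT.nd (nat_lit 1092) (nat_lit 152) (nat_lit 0) (XT.nd (nat_lit 546) (nat_lit 228) (nat_lit 0) (XT.nd (nat_lit 234) (nat_lit 228) (nat_lit 0) (XT.nd (nat_lit 78) (nat_lit 152) (nat_lit 0) (XT.lf (nat_lit 0) (nat_lit 930959839) (nat_lit 228) (nat_lit 2274795430) (nat_lit 0) (nat_lit 930959839) (nat_lit 11) (nat_lit 5) (nat_lit 14) (nat_lit 4) (nat_lit 11) (nat_lit 4) (nat_lit 208) (nat_lit 196) (nat_lit 196)) (XT.nd (nat_lit 78) (nat_lit 0) (nat_lit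 0) (XT.lf (nat_lit 0) (nat_lit 379372828) (nat_lit 152) (nat_lit 4743993305) (nat_lit 152) (nat_lit 3707396163) (nat_lit 9) (nat_lit 4) (nat_lit 11) (nat_lit 5) (nat_lit 11) (nat_lit 4) (nat_lit 209) (nat_lit 196) (nat_lit 195)) (XT.lf (nat_lit 0) (nat_lit 6038683332) (nat_lit 152) (nat_lit 2698227438) (nat_lit 152) (nat_lit 760241478) (nat_lit 9) (nat_lit 4) (nat_lit 11) (nat_lit 5) (nat_lit 11) (nat_lit 4) (nat_lit 210) (nat_lit 196) (nat_lit 194)))) (XT.nd (nat_lit 156) (nat_lit 76) (nat_lit 0) (XT.nd (nat_lit 78) (nat_lit 0) (nat_lit 0) (XT.lf (nat_lit 0) (nat_lit 1849264144) (nat_lit 76) (nat_lit 276813282) (nat_lit 152) (nat_lit 8165120652) (nat_lit 7) (nat_lit 5) (nat_lit 8) (nat_lit 5) (nat_lit 9) (nat_lit 4) (nat_lit 211) (nat_lit 196) (nat_lit 193)) (XT.lf (nat_lit 0) (nat_lit 5334881889) (nat_lit 152) (nat_lit 3496728737) (nat_lit 0) (nat_lit 2375419480) (nat_lit 7) (nat_lit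 5) (nat_lit 9) (nat_lit 4) (nat_lit 7) (nat_lit 4) (nat_lit 212) (nat_lit 196) (nat_lit 192))) (XT.nd (nat_lit 78) (nat_lit 0) (nat_lit 0) (XT.lf (nat_lit 0) (nat_lit 1900455616) (nat_lit 76) (nat_lit 6933067180) (nat_lit 76) (nat_lit 3458232788) (nat_lit 6) (nat_lit 4) (nat_lit 7) (nat_lit 5) (nat_lit 7) (nat_lit 4) (nat_lit 213) (nat_lit 196) (nat_lit 191)) (XT.lf (nat_lit 0) (nat_lit 8074654682) (nat_lit 76) (nat_lit 4701068016) (nat_lit 76) (nat_lit 778084074) (nat_lit 6) (nat_lit 4) (nat_lit 7) (nat_lit 5) (nat_lit 7) (nat_lit 4) (nat_lit 214) (nat_lit 196) (nat_lit 190))))) (XT.nd (nat_lit 234) (nat_lit 76) (nat_lit 0) (XT.nd (nat_lit 78) (nat_lit 76) (nat_lit 0) (XT.lf (nat_lit 0) (nat_lit 1856519482) (nat_lit 152) (nat_lit 321162314) (nat_lit 76) (nat_lit 12851377424) (nat_lit 5) (nat_lit 5) (nat_lit 7) (nat_lit 5) (nat_lit 6) (nat_lit 4) (nat_lit 215) (nat_lit 196) (nat_lit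 189)) (XT.nd (nat_lit 78) (nat_lit 0) (nat_lit 0) (XT.lf (nat_lit 0) (nat_lit 4871096092) (nat_lit 152) (nat_lit 11014603145) (nat_lit 0) (nat_lit 826274660) (nat_lit 4) (nat_lit 5) (nat_lit 6) (nat_lit 4) (nat_lit 4) (nat_lit 4) (nat_lit 216) (nat_lit 196) (nat_lit 188)) (XT.lf (nat_lit 0) (nat_lit 8256787105) (nat_lit 152) (nat_lit 6448354881) (nat_lit 0) (nat_lit 3955734713) (nat_lit 4) (nat_lit 5) (nat_lit 6) (nat_lit 4) (nat_lit 4) (nat_lit 4) (nat_lit 217) (nat_lit 196) (nat_lit 187)))) (XT.nd (nat_lit 156) (nat_lit 0) (nat_lit 0) (XT.nd (nat_lit 78) (nat_lit 76) (nat_lit 0) (XT.lf (nat_lit 0) (nat_lit 11974367700) (nat_lit 152) (nat_lit 1504844850) (nat_lit 0) (nat_lit 7450505778) (nat_lit 4) (nat_lit 5) (nat_lit 6) (nat_lit 4) (nat_lit 4) (nat_lit 4) (nat_lit 218) (nat_lit 196) (nat_lit 186)) (XT.lf (nat_lit 0) (nat_lit 4295020194) (nat_lit 76) (nat_lit 11979400581) (nat_lit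 76) (nat_lit 7261791241) (nat_lit 3) (nat_lit 4) (nat_lit 4) (nat_lit 5) (nat_lit 4) (nat_lit 4) (nat_lit 219) (nat_lit 196) (nat_lit 185))) (XT.nd (nat_lit 78) (nat_lit 0) (nat_lit 0) (XT.lf (nat_lit 0) (nat_lit 10878606234) (nat_lit 76) (nat_lit 10275908947) (nat_lit 76) (nat_lit 5389823592) (nat_lit 3) (nat_lit 4) (nat_lit 4) (nat_lit 5) (nat_lit 4) (nat_lit 4) (nat_lit 220) (nat_lit 196) (nat_lit 184)) (XT.lf (nat_lit 0) (nat_lit 18227658176) (nat_lit 76) (nat_lit 8414070811) (nat_lit 76) (nat_lit 3381484573) (nat_lit 3) (nat_lit 4) (nat_lit 4) (nat_lit 5) (nat_lit 4) (nat_lit 4) (nat_lit 221) (nat_lit 196) (nat_lit 183)))))) (XT.nd (nat_lit 546) (nat_lit 0) (nat_lit 0) (XT.nd (nat_lit 234) (nat_lit 0) (nat_lit 0) (XT.nd (nat_lit 78) (nat_lit 152) (nat_lit 0) (XT.lf (nat_lit 0) (nat_lit 26485961821) (nat_lit 76) (nat_lit 6357458904) (nat_lit 76) (nat_lit 1197480594) (nat_lit 3)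 (nat_lit 4) (nat_lit 4) (nat_lit 5) (nat_lit 4) (nat_lit 4) (nat_lit 222) (nat_lit 196) (nat_lit 182)) (XT.nd (nat_lit 78) (nat_lit 76) (nat_lit 0) (XT.lf (nat_lit 0) (nat_lit 1097648649) (nat_lit 152) (nat_lit 2910809429) (nat_lit 76) (nat_lit 34660066936) (nat_lit 2) (nat_lit 5) (nat_lit 4) (nat_lit 5) (nat_lit 3) (nat_lit 4) (nat_lit 223) (nat_lit 196) (nat_lit 181)) (XT.lf (nat_lit 0) (nat_lit 2434751192) (nat_lit 76) (nat_lit 1194007842) (nat_lit 152) (nat_lit 40351287582) (nat_lit 1) (nat_lit 5) (nat_lit 2) (nat_lit 5) (nat_lit 3) (nat_lit 4) (nat_lit 224) (nat_lit 196) (nat_lit 180)))) (XT.nd (nat_lit 156) (nat_lit 0) (nat_lit 0) (XT.nd (nat_lit 78) (nat_lit 0) (nat_lit 0) (XT.lf (nat_lit 0) (nat_lit 6699415591) (nat_lit 152) (nat_lit 41405742048) (nat_lit 0) (nat_lit 1959552036) (nat_lit 1) (nat_lit 5) (nat_lit 3) (nat_lit 4) (nat_lit 1) (nat_lit 4) (nat_lit 225) (nat_lit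 196) (nat_lit 179)) (XT.lf (nat_lit 0) (nat_lit 10214395991) (nat_lit 152) (nat_lit 41439264949) (nat_lit 0) (nat_lit 5411196062) (nat_lit 1) (nat_lit 5) (nat_lit 3) (nat_lit 4) (nat_lit 1) (nat_lit 4) (nat_lit 226) (nat_lit 196) (nat_lit 178))) (XT.nd (nat_lit 78) (nat_lit 0) (nat_lit 0) (XT.lf (nat_lit 0) (nat_lit 14193030273) (nat_lit 152) (nat_lit 41597078692) (nat_lit 0) (nat_lit 9334755235) (nat_lit 1) (nat_lit 5) (nat_lit 3) (nat_lit 4) (nat_lit 1) (nat_lit 4) (nat_lit 227) (nat_lit 196) (nat_lit 177)) (XT.lf (nat_lit 0) (nat_lit 18713161282) (nat_lit 152) (nat_lit 41882270937) (nat_lit 0) (nat_lit 13806994845) (nat_lit 1) (nat_lit 5) (nat_lit 3) (nat_lit 4) (nat_lit 1) (nat_lit 4) (nat_lit 228) (nat_lit 196) (nat_lit 176))))) (XT.nd (nat_lit 312) (nat_lit 0) (nat_lit 0) (XT.nd (nat_lit 156) (nat_lit 0) (nat_lit 0) (XT.nd (nat_lit 78) (nat_lit 0) (nat_lit 0) (XT.lf (nat_lit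 0) (nat_lit 23863226362) (nat_lit 152) (nat_lit 42300421532) (nat_lit 0) (nat_lit 18915415231) (nat_lit 1) (nat_lit 5) (nat_lit 3) (nat_lit 4) (nat_lit 1) (nat_lit 4) (nat_lit 229) (nat_lit 196) (nat_lit 175)) (XT.lf (nat_lit 0) (nat_lit 29743987658) (nat_lit 152) (nat_lit 42859711684) (nat_lit 0) (nat_lit 24759963749) (nat_lit 1) (nat_lit 5) (nat_lit 3) (nat_lit 4) (nat_lit 1) (nat_lit 4) (nat_lit 230) (nat_lit 196) (nat_lit 174))) (XT.nd (nat_lit 78) (nat_lit 0) (nat_lit 0) (XT.lf (nat_lit 0) (nat_lit 36470503541) (nat_lit 152) (nat_lit 43571084027) (nat_lit 0) (nat_lit 31454990261) (nat_lit 1) (nat_lit 5) (nat_lit 3) (nat_lit 4) (nat_lit 1) (nat_lit 4) (nat_lit 231) (nat_lit 196) (nat_lit 173)) (XT.lf (nat_lit 0) (nat_lit 44174379759) (nat_lit 152) (nat_lit 44448456716) (nat_lit 0) (nat_lit 39131484416) (nat_lit 1) (nat_lit 5) (nat_lit 3) (nat_lit 4) (nat_lit 1) (nat_lit 4) (nat_lit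 232) (nat_lit 196) (nat_lit 172)))) (XT.nd (nat_lit 156) (nat_lit 0) (nat_lit 0) (XT.nd (nat_lit 78) (nat_lit 0) (nat_lit 0) (XT.lf (nat_lit 0) (nat_lit 53006344323) (nat_lit 152) (nat_lit 45508995737) (nat_lit 0) (nat_lit 47939638491) (nat_lit 1) (nat_lit 5) (nat_lit 3) (nat_lit 4) (nat_lit 1) (nat_lit 4) (nat_lit 233) (nat_lit 196) (nat_lit 171)) (XT.lf (nat_lit 0) (nat_lit 63139196540) (nat_lit 152) (nat_lit 46773450768) (nat_lit 0) (nat_lit 58051785935) (nat_lit 1) (nat_lit 5) (nat_lit 3) (nat_lit 4) (nat_lit 1) (nat_lit 4) (nat_lit 234) (nat_lit 196) (nat_lit 170))) (XT.nd (nat_lit 78) (nat_lit 0) (nat_lit 0) (XT.lf (nat_lit 0) (nat_lit 74771187867) (nat_lit 152) (nat_lit 48266561145) (nat_lit 0) (nat_lit 69665773111) (nat_lit 1) (nat_lit 5) (nat_lit 3) (nat_lit 4) (nat_lit 1) (nat_lit 4) (nat_lit 235) (nat_lit 196) (nat_lit 169)) (XT.lf (nat_lit 0) (nat_lit 88129900743) (nat_lit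 152) (nat_lit 50017539899) (nat_lit 0) (nat_lit 83008830204) (nat_lit 1) (nat_lit 5) (nat_lit 3) (nat_lit 4) (nat_lit 1) (nat_lit 4) (nat_lit 236) (nat_lit 196) (nat_lit 168))))))) (XT.nd (nat_lit 1170) (nat_lit 0) (nat_lit 0) (XT.nd (nat_lit 546) (nat_lit 0) (nat_lit 0) (XT.nd (nat_lit 234) (nat_lit 0) (nat_lit 0) (XT.nd (nat_lit 78) (nat_lit 0) (nat_lit 0) (XT.lf (nat_lit 0) (nat_lit 103476701289) (nat_lit 152) (nat_lit 52060645308) (nat_lit 0) (nat_lit 98342017026) (nat_lit 1) (nat_lit 5) (nat_lit 3) (nat_lit 4) (nat_lit 1) (nat_lit 4) (nat_lit 237) (nat_lit 196) (nat_lit 167)) (XT.nd (nat_lit 78) (nat_lit 0) (nat_lit 0) (XT.lf (nat_lit 0) (nat_lit 121111852994) (nat_lit 152) (nat_lit 54435851175) (nat_lit 0) (nat_lit 115965330710) (nat_lit 1) (nat_lit 5) (nat_lit 3) (nat_lit 4) (nat_lit 1) (nat_lit 4) (nat_lit 238) (nat_lit 196) (nat_lit 166)) (XT.lf (nat_lit 0) (nat_lit 141380391436)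 (nat_lit 152) (nat_lit 57189628919) (nat_lit 0) (nat_lit 136223575220) (nat_lit 1) (nat_lit 5) (nat_lit 3) (nat_lit 4) (nat_lit 1) (nat_lit 4) (nat_lit 239) (nat_lit 196) (nat_lit 165)))) (XT.nd (nat_lit 156) (nat_lit 0) (nat_lit 0) (XT.nd (nat_lit 78) (nat_lit 0) (nat_lit 0) (XT.lf (nat_lit 0) (nat_lit 164678874974) (nat_lit 152) (nat_lit 60375856799) (nat_lit 0) (nat_lit 159513107513) (nat_lit 1) (nat_lit 5) (nat_lit 3) (nat_lit 4) (nat_lit 1) (nat_lit 4) (nat_lit 240) (nat_lit 196) (nat_lit 164)) (XT.lf (nat_lit 0) (nat_lit 191463143505) (nat_lit 152) (nat_lit 64056874057) (nat_lit 0) (nat_lit 186289592352) (nat_lit 1) (nat_lit 5) (nat_lit 3) (nat_lit 4) (nat_lit 1) (nat_lit 4) (nat_lit 241) (nat_lit 196) (nat_lit 163))) (XT.nd (nat_lit 78) (nat_lit 0) (nat_lit 0) (XT.lf (nat_lit 0) (nat_lit 222257237064) (nat_lit 152) (nat_lit 68304700596) (nat_lit 0) (nat_lit 217076917484) (nat_lit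 1) (nat_lit 5) (nat_lit 3) (nat_lit 4) (nat_lit 1) (nat_lit 4) (nat_lit 242) (nat_lit 196) (nat_lit 162)) (XT.lf (nat_lit 0) (nat_lit 257663648786) (nat_lit 152) (nat_lit 73202446065) (nat_lit 0) (nat_lit 252477443618) (nat_lit 1) (nat_lit 5) (nat_lit 3) (nat_lit 4) (nat_lit 1) (nat_lit 4) (nat_lit 243) (nat_lit 196) (nat_lit 161))))) (XT.nd (nat_lit 312) (nat_lit 0) (nat_lit 0) (XT.nd (nat_lit 156) (nat_lit 0) (nat_lit 0) (XT.nd (nat_lit 78) (nat_lit 0) (nat_lit 0) (XT.lf (nat_lit 0) (nat_lit 298375112815) (nat_lit 152) (nat_lit 78845935920) (nat_lit 0) (nat_lit 293183789743) (nat_lit 1) (nat_lit 5) (nat_lit 3) (nat_lit 4) (nat_lit 1) (nat_lit 4) (nat_lit 244) (nat_lit 196) (nat_lit 160)) (XT.lf (nat_lit 0) (nat_lit 345188157793) (nat_lit 152) (nat_lit 85345586265) (nat_lit 0) (nat_lit 339992384371) (nat_lit 1) (nat_lit 5) (nat_lit 3) (nat_lit 4) (nat_lit 1) (nat_lit 4) (nat_lit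 245) (nat_lit 196) (nat_lit 159))) (XT.nd (nat_lit 78) (nat_lit 0) (nat_lit 0) (XT.lf (nat_lit 0) (nat_lit 399018691123) (nat_lit 152) (nat_lit 92828564174) (nat_lit 0) (nat_lit 393819047831) (nat_lit 1) (nat_lit 5) (nat_lit 3) (nat_lit 4) (nat_lit 1) (nat_lit 4) (nat_lit 246) (nat_lit 196) (nat_lit 158)) (XT.lf (nat_lit 0) (nat_lit 460919918891) (nat_lit 152) (nat_lit 101441275736) (nat_lit 0) (nat_lit 455716910495) (nat_lit 1) (nat_lit 5) (nat_lit 3) (nat_lit 4) (nat_lit 1) (nat_lit 4) (nat_lit 247) (nat_lit 196) (nat_lit 157)))) (XT.nd (nat_lit 156) (nat_lit 0) (nat_lit 0) (XT.nd (nat_lit 78) (nat_lit 0) (nat_lit 0) (XT.lf (nat_lit 0) (nat_lit 532102952077) (nat_lit 152) (nat_lit 111352230524) (nat_lit 0) (nat_lit 526897017502) (nat_lit 1) (nat_lit 5) (nat_lit 3) (nat_lit 4) (nat_lit 1) (nat_lit 4) (nat_lit 248) (nat_lit 196) (nat_lit 156)) (XT.lf (nat_lit 0) (nat_lit 613960502197)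 (nat_lit 152) (nat_lit 122755338524) (nat_lit 0) (nat_lit 608752023120) (nat_lit 1) (nat_lit 5) (nat_lit 3) (nat_lit 4) (nat_lit 1) (nat_lit 4) (nat_lit 249) (nat_lit 196) (nat_lit 155))) (XT.nd (nat_lit 78) (nat_lit 0) (nat_lit 0) (XT.lf (nat_lit 0) (nat_lit 708094130017) (nat_lit 152) (nat_lit 135873704022) (nat_lit 0) (nat_lit 702883438329) (nat_lit 1) (nat_lit 5) (nat_lit 3) (nat_lit 4) (nat_lit 1) (nat_lit 4) (nat_lit 250) (nat_lit 196) (nat_lit 154)) (XT.lf (nat_lit 0) (nat_lit 816345580427) (nat_lit 152) (nat_lit 150963990692) (nat_lit 0) (nat_lit 811132964730) (nat_lit 1) (nat_lit 5) (nat_lit 3) (nat_lit 4) (nat_lit 1) (nat_lit 4) (nat_lit 251) (nat_lit 196) (nat_lit 153)))))) (XT.nd (nat_lit 546) (nat_lit 0) (nat_lit 0) (XT.nd (nat_lit 234) (nat_lit 0) (nat_lit 0) (XT.nd (nat_lit 78) (nat_lit 0) (nat_lit 0) (XT.lf (nat_lit 0) (nat_lit 940832816588) (nat_lit 152) (nat_lit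 168321443272) (nat_lit 0) (nat_lit 935618527839) (nat_lit 1) (nat_lit 5) (nat_lit 3) (nat_lit 4) (nat_lit 1) (nat_lit 4) (nat_lit 252) (nat_lit 196) (nat_lit 152)) (XT.nd (nat_lit 78) (nat_lit 0) (nat_lit 0) (XT.lf (nat_lit 0) (nat_lit 1083991458338) (nat_lit 152) (nat_lit 188285664096) (nat_lit 0) (nat_lit 1078775714762) (nat_lit 1) (nat_lit 5) (nat_lit 3) (nat_lit 4) (nat_lit 1) (nat_lit 4) (nat_lit 253) (nat_lit 196) (nat_lit 151)) (XT.lf (nat_lit 0) (nat_lit 1248622435625) (nat_lit 152) (nat_lit 211247257484) (nat_lit 0) (nat_lit 1243405426981) (nat_lit 1) (nat_lit 5) (nat_lit 3) (nat_lit 4) (nat_lit 1) (nat_lit 4) (nat_lit 254) (nat_lit 196) (nat_lit 150)))) (XT.nd (nat_lit 156) (nat_lit 0) (nat_lit 0) (XT.nd (nat_lit 78) (nat_lit 0) (nat_lit 0) (XT.lf (nat_lit 0) (nat_lit 1437946789308) (nat_lit 152) (nat_lit 237655472003) (nat_lit 0) (nat_lit 1432728680605) (nat_lit 1) (nat_lit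 5) (nat_lit 3) (nat_lit 4) (nat_lit 1) (nat_lit 4) (nat_lit 255) (nat_lit 196) (nat_lit 149)) (XT.lf (nat_lit 0) (nat_lit 1655668691524) (nat_lit 152) (nat_lit 268026990110) (nat_lit 0) (nat_lit 1650449626249) (nat_lit 1) (nat_lit 5) (nat_lit 3) (nat_lit 4) (nat_lit 1) (nat_lit 4) (nat_lit 256) (nat_lit 196) (nat_lit 148))) (XT.nd (nat_lit 78) (nat_lit 0) (nat_lit 0) (XT.lf (nat_lit 0) (nat_lit 1906047918621) (nat_lit 152) (nat_lit 302956037159) (nat_lit 0) (nat_lit 1900828021544) (nat_lit 1) (nat_lit 5) (nat_lit 3) (nat_lit 4) (nat_lit 1) (nat_lit 4) (nat_lit 257) (nat_lit 196) (nat_lit 147)) (XT.lf (nat_lit 0) (nat_lit 2193983194608) (nat_lit 152) (nat_lit 343126007550) (nat_lit 0) (nat_lit 2188762574224) (nat_lit 1) (nat_lit 5) (nat_lit 3) (nat_lit 4) (nat_lit 1) (nat_lit 4) (nat_lit 258) (nat_lit 196) (nat_lit 146))))) (XT.nd (nat_lit 312) (nat_lit 0) (nat_lit 0) (XT.nd (nat_lit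 156) (nat_lit 0) (nat_lit 0) (XT.nd (nat_lit 78) (nat_lit 0) (nat_lit 0) (XT.lf (nat_lit 0) (nat_lit 2525108035754) (nat_lit 152) (nat_lit 389322835486) (nat_lit 0) (nat_lit 2519886786408) (nat_lit 1) (nat_lit 5) (nat_lit 3) (nat_lit 4) (nat_lit 1) (nat_lit 4) (nat_lit 259) (nat_lit 196) (nat_lit 145)) (XT.lf (nat_lit 0) (nat_lit 2905900971559) (nat_lit 152) (nat_lit 442450371948) (nat_lit 0) (nat_lit 2900679175290) (nat_lit 1) (nat_lit 5) (nat_lit 3) (nat_lit 4) (nat_lit 1) (nat_lit 4) (nat_lit 260) (nat_lit 196) (nat_lit 144))) (XT.nd (nat_lit 78) (nat_lit 0) (nat_lit 0) (XT.lf (nat_lit 0) (nat_lit 3343812298595) (nat_lit 152) (nat_lit 503548068737) (nat_lit 0) (nat_lit 3338590026740) (nat_lit 1) (nat_lit 5) (nat_lit 3) (nat_lit 4) (nat_lit 1) (nat_lit 4) (nat_lit 261) (nat_lit 196) (nat_lit 143)) (XT.lf (nat_lit 0) (nat_lit 3847409847171) (nat_lit 152) (nat_lit 573811315571) (nat_lit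 0) (nat_lit 3842187161763) (nat_lit 1) (nat_lit 5) (nat_lit 3) (nat_lit 4) (nat_lit 1) (nat_lit 4) (nat_lit 262) (nat_lit 196) (nat_lit 142)))) (XT.nd (nat_lit 156) (nat_lit 0) (nat_lit 0) (XT.nd (nat_lit 78) (nat_lit 0) (nat_lit 0) (XT.lf (nat_lit 0) (nat_lit 4426546612804) (nat_lit 152) (nat_lit 654614828151) (nat_lit 0) (nat_lit 4421323567785) (nat_lit 1) (nat_lit 5) (nat_lit 3) (nat_lit 4) (nat_lit 1) (nat_lit 4) (nat_lit 263) (nat_lit 196) (nat_lit 141)) (XT.lf (nat_lit 0) (nat_lit 5092553532214) (nat_lit 152) (nat_lit 747539544766) (nat_lit 0) (nat_lit 5087330174489) (nat_lit 1) (nat_lit 5) (nat_lit 3) (nat_lit 4) (nat_lit 1) (nat_lit 4) (nat_lit 264) (nat_lit 196) (nat_lit 140))) (XT.nd (nat_lit 78) (nat_lit 0) (nat_lit 0) (XT.lf (nat_lit 0) (nat_lit 5858461175561) (nat_lit 152) (nat_lit 854403557697) (nat_lit 0) (nat_lit 5853237545919) (nat_lit 1) (nat_lit 5) (nat_lit 3) (nat_lit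 4) (nat_lit 1) (nat_lit 4) (nat_lit 265) (nat_lit 196) (nat_lit 139)) (XT.lf (nat_lit 0) (nat_lit 6739254692390) (nat_lit 152) (nat_lit 977297684589) (nat_lit 0) (nat_lit 6734030826298) (nat_lit 1) (nat_lit 5) (nat_lit 3) (nat_lit 4) (nat_lit 1) (nat_lit 4) (nat_lit 266) (nat_lit 196) (nat_lit 138))))))))
noncomputable def xc21 : XT := (XT.nd (nat_lit 27924) (nat_lit 0) (nat_lit 0) (XT.nd (nat_lit 26754) (nat_lit 0) (nat_lit 152) (XT.nd (nat_lit 546) (nat_lit 0) (nat_lit 0) (XT.nd (nat_lit 234) (nat_lit 0) (nat_lit 0) (XT.nd (nat_lit 78) (nat_lit 0) (nat_lit 0) (XT.lf (nat_lit 0) (nat_lit 7752166999335) (nat_lit 152) (nat_lit 1118626375750) (nat_lit 0) (nat_lit 7746942927634) (nat_lit 1) (nat_lit 5) (nat_lit 3) (nat_lit 4) (nat_lit 1) (nat_lit 4) (nat_lit 267) (nat_lit 196) (nat_lit 137)) (XT.nd (nat_lit 78) (nat_lit 0) (nat_lit 0) (XT.lf (nat_lit 0) (nat_lit 8917015945879) (nat_lit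 152) (nat_lit 1281154757747) (nat_lit 0) (nat_lit 8911791695388) (nat_lit 1) (nat_lit 5) (nat_lit 3) (nat_lit 4) (nat_lit 1) (nat_lit 4) (nat_lit 268) (nat_lit 196) (nat_lit 136)) (XT.lf (nat_lit 0) (nat_lit 10256592054889) (nat_lit 152) (nat_lit 1468062733705) (nat_lit 0) (nat_lit 10251367648928) (nat_lit 1) (nat_lit 5) (nat_lit 3) (nat_lit 4) (nat_lit 1) (nat_lit 4) (nat_lit 269) (nat_lit 196) (nat_lit 135)))) (XT.nd (nat_lit 156) (nat_lit 0) (nat_lit 0) (XT.nd (nat_lit 78) (nat_lit 0) (nat_lit 0) (XT.lf (nat_lit 0) (nat_lit 11797104424151) (nat_lit 152) (nat_lit 1683007198807) (nat_lit 0) (nat_lit 11791879882999) (nat_lit 1) (nat_lit 5) (nat_lit 3) (nat_lit 4) (nat_lit 1) (nat_lit 4) (nat_lit 270) (nat_lit 196) (nat_lit 134)) (XT.lf (nat_lit 0) (nat_lit 13568693513063) (nat_lit 152) (nat_lit 1930193588239) (nat_lit 0) (nat_lit 13563468854353) (nat_lit 1) (nat_lit 5) (nat_lit 3)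 (nat_lit 4) (nat_lit 1) (nat_lit 4) (nat_lit 271) (nat_lit 196) (nat_lit 133))) (XT.nd (nat_lit 78) (nat_lit 0) (nat_lit 0) (XT.lf (nat_lit 0) (nat_lit 15606020847277) (nat_lit 152) (nat_lit 2214458157447) (nat_lit 0) (nat_lit 15600796086344) (nat_lit 1) (nat_lit 5) (nat_lit 3) (nat_lit 4) (nat_lit 1) (nat_lit 4) (nat_lit 272) (nat_lit 196) (nat_lit 132)) (XT.lf (nat_lit 0) (nat_lit 17948947178985) (nat_lit 152) (nat_lit 2541362604524) (nat_lit 0) (nat_lit 17943722329161) (nat_lit 1) (nat_lit 5) (nat_lit 3) (nat_lit 4) (nat_lit 1) (nat_lit 4) (nat_lit 273) (nat_lit 196) (nat_lit 131))))) (XT.nd (nat_lit 312) (nat_lit 0) (nat_lit 0) (XT.nd (nat_lit 156) (nat_lit 0) (nat_lit 0) (XT.nd (nat_lit 78) (nat_lit 0) (nat_lit 0) (XT.lf (nat_lit 0) (nat_lit 20643312371199) (nat_lit 152) (nat_lit 2917302886042) (nat_lit 0) (nat_lit 20638087444079) (nat_lit 1) (nat_lit 5) (nat_lit 3) (nat_lit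 4) (nat_lit 1) (nat_lit 4) (nat_lit 274) (nat_lit 196) (nat_lit 130)) (XT.lf (nat_lit 0) (nat_lit 23741832264635) (nat_lit 152) (nat_lit 3349634355337) (nat_lit 0) (nat_lit 23736607270301) (nat_lit 1) (nat_lit 5) (nat_lit 3) (nat_lit 4) (nat_lit 1) (nat_lit 4) (nat_lit 275) (nat_lit 196) (nat_lit 129))) (XT.nd (nat_lit 78) (nat_lit 0) (nat_lit 0) (XT.lf (nat_lit 0) (nat_lit 27305130074601) (nat_lit 152) (nat_lit 3846815671590) (nat_lit 0) (nat_lit 27299905021820) (nat_lit 1) (nat_lit 5) (nat_lit 3) (nat_lit 4) (nat_lit 1) (nat_lit 4) (nat_lit 276) (nat_lit 196) (nat_lit 128)) (XT.lf (nat_lit 0) (nat_lit 31402922497377) (nat_lit 152) (nat_lit 4418574295336) (nat_lit 0) (nat_lit 31397697393773) (nat_lit 1) (nat_lit 5) (nat_lit 3) (nat_lit 4) (nat_lit 1) (nat_lit 4) (nat_lit 277) (nat_lit 196) (nat_lit 127)))) (XT.nd (nat_lit 25740) (nat_lit 0) (nat_lit 760) (XT.nd (nat_lit 25662) (nat_lit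 0) (nat_lit 988) (XT.lf (nat_lit 0) (nat_lit 36115383732540) (nat_lit 152) (nat_lit 5076096808345) (nat_lit 0) (nat_lit 36110158584742) (nat_lit 1) (nat_lit 5) (nat_lit 3) (nat_lit 4) (nat_lit 1) (nat_lit 4) (nat_lit 278) (nat_lit 196) (nat_lit 126)) (XT.lf (nat_lit 0) (nat_lit 779532022) (nat_lit 228) (nat_lit 1466341303) (nat_lit 228) (nat_lit 1466341303) (nat_lit 14) (nat_lit 4) (nat_lit 17) (nat_lit 5) (nat_lit 17) (nat_lit 4) (nat_lit 206) (nat_lit 197) (nat_lit 197))) (XT.nd (nat_lit 78) (nat_lit 152) (nat_lit 0) (XT.lf (nat_lit 0) (nat_lit 243125) (nat_lit 304) (nat_lit 1370376998) (nat_lit 76) (nat_lit 6455722181) (nat_lit 13) (nat_lit 5) (nat_lit 17) (nat_lit 5) (nat_lit 14) (nat_lit 4) (nat_lit 207) (nat_lit 197) (nat_lit 196)) (XT.lf (nat_lit 0) (nat_lit 2864982019) (nat_lit 228) (nat_lit 4803119403) (nat_lit 0) (nat_lit 636298165) (nat_lit 11) (nat_lit 5) (nat_lit 14)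 (nat_lit 4) (nat_lit 11) (nat_lit 4) (nat_lit 208) (nat_lit 197) (nat_lit 195)))))) (XT.nd (nat_lit 546) (nat_lit 152) (nat_lit 0) (XT.nd (nat_lit 234) (nat_lit 152) (nat_lit 0) (XT.nd (nat_lit 78) (nat_lit 304) (nat_lit 0) (XT.lf (nat_lit 0) (nat_lit 5946350434) (nat_lit 228) (nat_lit 128389707) (nat_lit 0) (nat_lit 2816277762) (nat_lit 11) (nat_lit 5) (nat_lit 14) (nat_lit 4) (nat_lit 11) (nat_lit 4) (nat_lit 209) (nat_lit 197) (nat_lit 194)) (XT.nd (nat_lit 78) (nat_lit 152) (nat_lit 0) (XT.lf (nat_lit 0) (nat_lit 5307934909) (nat_lit 152) (nat_lit 4094480866) (nat_lit 152) (nat_lit 180591829) (nat_lit 9) (nat_lit 4) (nat_lit 11) (nat_lit 5) (nat_lit 11) (nat_lit 4) (nat_lit 210) (nat_lit 197) (nat_lit 193)) (XT.lf (nat_lit 0) (nat_lit 709005407) (nat_lit 76) (nat_lit 1758191751) (nat_lit 152) (nat_lit 7935790334) (nat_lit 7) (nat_lit 5) (nat_lit 8) (nat_lit 5) (nat_lit 9) (nat_lit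 4) (nat_lit 211) (nat_lit 197) (nat_lit 192)))) (XT.nd (nat_lit 156) (nat_lit 76) (nat_lit 0) (XT.nd (nat_lit 78) (nat_lit 76) (nat_lit 0) (XT.lf (nat_lit 0) (nat_lit 5482865724) (nat_lit 152) (nat_lit 4894790462) (nat_lit 0) (nat_lit 971434190) (nat_lit 7) (nat_lit 5) (nat_lit 9) (nat_lit 4) (nat_lit 7) (nat_lit 4) (nat_lit 212) (nat_lit 197) (nat_lit 191)) (XT.lf (nat_lit 0) (nat_lit 167836030) (nat_lit 76) (nat_lit 8627322020) (nat_lit 76) (nat_lit 3667740936) (nat_lit 6) (nat_lit 4) (nat_lit 7) (nat_lit 5) (nat_lit 7) (nat_lit 4) (nat_lit 213) (nat_lit 197) (nat_lit 190))) (XT.nd (nat_lit 78) (nat_lit 76) (nat_lit 0) (XT.lf (nat_lit 0) (nat_lit 6169922834) (nat_lit 76) (nat_lit 6460652231) (nat_lit 76) (nat_lit 1111375886) (nat_lit 6) (nat_lit 4) (nat_lit 7) (nat_lit 5) (nat_lit 7) (nat_lit 4) (nat_lit 214) (nat_lit 197) (nat_lit 189)) (XT.lf (nat_lit 0) (nat_lit 1454844320) (nat_lit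 152) (nat_lit 2560226499) (nat_lit 76) (nat_lit 11219654558) (nat_lit 5) (nat_lit 5) (nat_lit 7) (nat_lit 5) (nat_lit 6) (nat_lit 4) (nat_lit 215) (nat_lit 197) (nat_lit 188))))) (XT.nd (nat_lit 312) (nat_lit 0) (nat_lit 0) (XT.nd (nat_lit 156) (nat_lit 76) (nat_lit 0) (XT.nd (nat_lit 78) (nat_lit 0) (nat_lit 0) (XT.lf (nat_lit 0) (nat_lit 3129963729) (nat_lit 76) (nat_lit 1108534466) (nat_lit 152) (nat_lit 12714426831) (nat_lit 4) (nat_lit 5) (nat_lit 5) (nat_lit 5) (nat_lit 6) (nat_lit 4) (nat_lit 216) (nat_lit 197) (nat_lit 187)) (XT.lf (nat_lit 0) (nat_lit 7496443407) (nat_lit 152) (nat_lit 9353915857) (nat_lit 0) (nat_lit 2071192666) (nat_lit 4) (nat_lit 5) (nat_lit 6) (nat_lit 4) (nat_lit 4) (nat_lit 4) (nat_lit 217) (nat_lit 197) (nat_lit 186))) (XT.nd (nat_lit 78) (nat_lit 76) (nat_lit 0) (XT.lf (nat_lit 0) (nat_lit 11142855520) (nat_lit 152) (nat_lit 4534844844) (nat_lit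 0) (nat_lit 5523857361) (nat_lit 4) (nat_lit 5) (nat_lit 6) (nat_lit 4) (nat_lit 4) (nat_lit 4) (nat_lit 218) (nat_lit 197) (nat_lit 185)) (XT.lf (nat_lit 0) (nat_lit 850123865) (nat_lit 76) (nat_lit 14388253282) (nat_lit 76) (nat_lit 8600779109) (nat_lit 3) (nat_lit 4) (nat_lit 4) (nat_lit 5) (nat_lit 4) (nat_lit 4) (nat_lit 219) (nat_lit 197) (nat_lit 184)))) (XT.nd (nat_lit 156) (nat_lit 0) (nat_lit 0) (XT.nd (nat_lit 78) (nat_lit 0) (nat_lit 0) (XT.lf (nat_lit 0) (nat_lit 7330420601) (nat_lit 76) (nat_lit 12729960366) (nat_lit 76) (nat_lit 6795985310) (nat_lit 3) (nat_lit 4) (nat_lit 4) (nat_lit 5) (nat_lit 4) (nat_lit 4) (nat_lit 220) (nat_lit 197) (nat_lit 183)) (XT.lf (nat_lit 0) (nat_lit 14589655758) (nat_lit 76) (nat_lit 10907425462) (nat_lit 76) (nat_lit 4846058334) (nat_lit 3) (nat_lit 4) (nat_lit 4) (nat_lit 5) (nat_lit 4) (nat_lit 4) (nat_lit 221) (nat_lit 197) (nat_lit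 182))) (XT.nd (nat_lit 78) (nat_lit 0) (nat_lit 0) (XT.lf (nat_lit 0) (nat_lit 22769857850) (nat_lit 76) (nat_lit 8884990279) (nat_lit 76) (nat_lit 2712847435) (nat_lit 3) (nat_lit 4) (nat_lit 4) (nat_lit 5) (nat_lit 4) (nat_lit 4) (nat_lit 222) (nat_lit 197) (nat_lit 181)) (XT.lf (nat_lit 0) (nat_lit 32031074309) (nat_lit 76) (nat_lit 6623085432) (nat_lit 76) (nat_lit 354615880) (nat_lit 3) (nat_lit 4) (nat_lit 4) (nat_lit 5) (nat_lit 4) (nat_lit 4) (nat_lit 223) (nat_lit 197) (nat_lit 180))))))) (XT.nd (nat_lit 1170) (nat_lit 0) (nat_lit 0) (XT.nd (nat_lit 546) (nat_lit 0) (nat_lit 0) (XT.nd (nat_lit 234) (nat_lit 0) (nat_lit 0) (XT.nd (nat_lit 78) (nat_lit 76) (nat_lit 0) (XT.lf (nat_lit 0) (nat_lit 2072259387) (nat_lit 152) (nat_lit 1896874223) (nat_lit 76) (nat_lit 40373920811) (nat_lit 2) (nat_lit 5) (nat_lit 4) (nat_lit 5) (nat_lit 3) (nat_lit 4) (nat_lit 224) (nat_lit 197)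 (nat_lit 179)) (XT.nd (nat_lit 78) (nat_lit 0) (nat_lit 0) (XT.lf (nat_lit 0) (nat_lit 4184586100) (nat_lit 76) (nat_lit 750137080) (nat_lit 152) (nat_lit 45524383036) (nat_lit 1) (nat_lit 5) (nat_lit 2) (nat_lit 5) (nat_lit 3) (nat_lit 4) (nat_lit 225) (nat_lit 197) (nat_lit 178)) (XT.lf (nat_lit 0) (nat_lit 8389063781) (nat_lit 152) (nat_lit 46332452327) (nat_lit 0) (nat_lit 2746972379) (nat_lit 1) (nat_lit 5) (nat_lit 3) (nat_lit 4) (nat_lit 1) (nat_lit 4) (nat_lit 226) (nat_lit 197) (nat_lit 177)))) (XT.nd (nat_lit 156) (nat_lit 0) (nat_lit 0) (XT.nd (nat_lit 78) (nat_lit 0) (nat_lit 0) (XT.lf (nat_lit 0) (nat_lit 12341977870) (nat_lit 152) (nat_lit 46538501623) (nat_lit 0) (nat_lit 6651995069) (nat_lit 1) (nat_lit 5) (nat_lit 3) (nat_lit 4) (nat_lit 1) (nat_lit 4) (nat_lit 227) (nat_lit 197) (nat_lit 176)) (XT.lf (nat_lit 0) (nat_lit 16839743492) (nat_lit 152) (nat_lit 46865637828)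 (nat_lit 0) (nat_lit 11108115998) (nat_lit 1) (nat_lit 5) (nat_lit 3) (nat_lit 4) (nat_lit 1) (nat_lit 4) (nat_lit 228) (nat_lit 197) (nat_lit 175))) (XT.nd (nat_lit 78) (nat_lit 0) (nat_lit 0) (XT.lf (nat_lit 0) (nat_lit 21970360411) (nat_lit 152) (nat_lit 47320261431) (nat_lit 0) (nat_lit 16202520139) (nat_lit 1) (nat_lit 5) (nat_lit 3) (nat_lit 4) (nat_lit 1) (nat_lit 4) (nat_lit 229) (nat_lit 197) (nat_lit 174)) (XT.lf (nat_lit 0) (nat_lit 27834210262) (nat_lit 152) (nat_lit 47911267243) (nat_lit 0) (nat_lit 22034880618) (nat_lit 1) (nat_lit 5) (nat_lit 3) (nat_lit 4) (nat_lit 1) (nat_lit 4) (nat_lit 230) (nat_lit 197) (nat_lit 173))))) (XT.nd (nat_lit 312) (nat_lit 0) (nat_lit 0) (XT.nd (nat_lit 156) (nat_lit 0) (nat_lit 0) (XT.nd (nat_lit 78) (nat_lit 0) (nat_lit 0) (XT.lf (nat_lit 0) (nat_lit 34546020542) (nat_lit 152) (nat_lit 48650218421) (nat_lit 0) (nat_lit 28719308835)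 (nat_lit 1) (nat_lit 5) (nat_lit 3) (nat_lit 4) (nat_lit 1) (nat_lit 4) (nat_lit 231) (nat_lit 197) (nat_lit 172)) (XT.lf (nat_lit 0) (nat_lit 42237109277) (nat_lit 152) (nat_lit 49551572704) (nat_lit 0) (nat_lit 36386587081) (nat_lit 1) (nat_lit 5) (nat_lit 3) (nat_lit 4) (nat_lit 1) (nat_lit 4) (nat_lit 232) (nat_lit 197) (nat_lit 171))) (XT.nd (nat_lit 78) (nat_lit 0) (nat_lit 0) (XT.lf (nat_lit 0) (nat_lit 51057954292) (nat_lit 152) (nat_lit 50632965287) (nat_lit 0) (nat_lit 45186727323) (nat_lit 1) (nat_lit 5) (nat_lit 3) (nat_lit 4) (nat_lit 1) (nat_lit 4) (nat_lit 233) (nat_lit 197) (nat_lit 170)) (XT.lf (nat_lit 0) (nat_lit 61181137336) (nat_lit 152) (nat_lit 51915553849) (nat_lit 0) (nat_lit 55291906216) (nat_lit 1) (nat_lit 5) (nat_lit 3) (nat_lit 4) (nat_lit 1) (nat_lit 4) (nat_lit 234) (nat_lit 197) (nat_lit 169)))) (XT.nd (nat_lit 156) (nat_lit 0) (nat_lit 0) (XT.nd (nat_lit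 78) (nat_lit 0) (nat_lit 0) (XT.lf (nat_lit 0) (nat_lit 72804720686) (nat_lit 152) (nat_lit 53424432514) (nat_lit 0) (nat_lit 66899833783) (nat_lit 1) (nat_lit 5) (nat_lit 3) (nat_lit 4) (nat_lit 1) (nat_lit 4) (nat_lit 235) (nat_lit 197) (nat_lit 168)) (XT.lf (nat_lit 0) (nat_lit 86156122278) (nat_lit 152) (nat_lit 55189122823) (nat_lit 0) (nat_lit 80237621650) (nat_lit 1) (nat_lit 5) (nat_lit 3) (nat_lit 4) (nat_lit 1) (nat_lit 4) (nat_lit 236) (nat_lit 197) (nat_lit 167))) (XT.nd (nat_lit 78) (nat_lit 0) (nat_lit 0) (XT.lf (nat_lit 0) (nat_lit 101496565185) (nat_lit 152) (nat_lit 57244151323) (nat_lit 0) (nat_lit 95566226537) (nat_lit 1) (nat_lit 5) (nat_lit 3) (nat_lit 4) (nat_lit 1) (nat_lit 4) (nat_lit 237) (nat_lit 197) (nat_lit 166)) (XT.lf (nat_lit 0) (nat_lit 119126188509) (nat_lit 152) (nat_lit 59629725096) (nat_lit 0) (nat_lit 113185555929) (nat_lit 1) (nat_lit 5) (nat_lit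 3) (nat_lit 4) (nat_lit 1) (nat_lit 4) (nat_lit 238) (nat_lit 197) (nat_lit 165)))))) (XT.nd (nat_lit 546) (nat_lit 0) (nat_lit 0) (XT.nd (nat_lit 234) (nat_lit 0) (nat_lit 0) (XT.nd (nat_lit 78) (nat_lit 0) (nat_lit 0) (XT.lf (nat_lit 0) (nat_lit 139389919663) (nat_lit 152) (nat_lit 62392518409) (nat_lit 0) (nat_lit 133440335838) (nat_lit 1) (nat_lit 5) (nat_lit 3) (nat_lit 4) (nat_lit 1) (nat_lit 4) (nat_lit 239) (nat_lit 197) (nat_lit 164)) (XT.nd (nat_lit 78) (nat_lit 0) (nat_lit 0) (XT.lf (nat_lit 0) (nat_lit 162684222950) (nat_lit 152) (nat_lit 65586585915) (nat_lit 0) (nat_lit 156726855434) (nat_lit 1) (nat_lit 5) (nat_lit 3) (nat_lit 4) (nat_lit 1) (nat_lit 4) (nat_lit 240) (nat_lit 197) (nat_lit 163)) (XT.lf (nat_lit 0) (nat_lit 189464856480) (nat_lit 152) (nat_lit 69274420239) (nat_lit 0) (nat_lit 183500720537) (nat_lit 1) (nat_lit 5) (nat_lit 3) (nat_lit 4) (nat_lit 1)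 (nat_lit 4) (nat_lit 241) (nat_lit 197) (nat_lit 162)))) (XT.nd (nat_lit 156) (nat_lit 0) (nat_lit 0) (XT.nd (nat_lit 78) (nat_lit 0) (nat_lit 0) (XT.lf (nat_lit 0) (nat_lit 220255789169) (nat_lit 152) (nat_lit 73528174662) (nat_lit 0) (nat_lit 214285767637) (nat_lit 1) (nat_lit 5) (nat_lit 3) (nat_lit 4) (nat_lit 1) (nat_lit 4) (nat_lit 242) (nat_lit 197) (nat_lit 161)) (XT.lf (nat_lit 0) (nat_lit 255659452309) (nat_lit 152) (nat_lit 78431074812) (nat_lit 0) (nat_lit 249684312874) (nat_lit 1) (nat_lit 5) (nat_lit 3) (nat_lit 4) (nat_lit 1) (nat_lit 4) (nat_lit 243) (nat_lit 197) (nat_lit 160))) (XT.nd (nat_lit 78) (nat_lit 0) (nat_lit 0) (XT.lf (nat_lit 0) (nat_lit 296368526266) (nat_lit 152) (nat_lit 84079046998) (nat_lit 0) (nat_lit 290388936480) (nat_lit 1) (nat_lit 5) (nat_lit 3) (nat_lit 4) (nat_lit 1) (nat_lit 4) (nat_lit 244) (nat_lit 197) (nat_lit 159)) (XT.lf (nat_lit 0)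 (nat_lit 343179492921) (nat_lit 152) (nat_lit 90582595024) (nat_lit 0) (nat_lit 337196033265) (nat_lit 1) (nat_lit 5) (nat_lit 3) (nat_lit 4) (nat_lit 1) (nat_lit 4) (nat_lit 245) (nat_lit 197) (nat_lit 158))))) (XT.nd (nat_lit 312) (nat_lit 0) (nat_lit 0) (XT.nd (nat_lit 156) (nat_lit 0) (nat_lit 0) (XT.nd (nat_lit 78) (nat_lit 0) (nat_lit 0) (XT.lf (nat_lit 0) (nat_lit 397008219013) (nat_lit 152) (nat_lit 98068962219) (nat_lit 0) (nat_lit 391021394253) (nat_lit 1) (nat_lit 5) (nat_lit 3) (nat_lit 4) (nat_lit 1) (nat_lit 4) (nat_lit 246) (nat_lit 197) (nat_lit 157)) (XT.lf (nat_lit 0) (nat_lit 458907875271) (nat_lit 152) (nat_lit 106684620987) (nat_lit 0) (nat_lit 452918124333) (nat_lit 1) (nat_lit 5) (nat_lit 3) (nat_lit 4) (nat_lit 1) (nat_lit 4) (nat_lit 247) (nat_lit 197) (nat_lit 156))) (XT.nd (nat_lit 78) (nat_lit 0) (nat_lit 0) (XT.lf (nat_lit 0) (nat_lit 530089541925) (nat_lit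 152) (nat_lit 116598138562) (nat_lit 0) (nat_lit 524097246484) (nat_lit 1) (nat_lit 5) (nat_lit 3) (nat_lit 4) (nat_lit 1) (nat_lit 4) (nat_lit 248) (nat_lit 197) (nat_lit 155)) (XT.lf (nat_lit 0) (nat_lit 611945903757) (nat_lit 152) (nat_lit 128003475073) (nat_lit 0) (nat_lit 605951395706) (nat_lit 1) (nat_lit 5) (nat_lit 3) (nat_lit 4) (nat_lit 1) (nat_lit 4) (nat_lit 249) (nat_lit 197) (nat_lit 154)))) (XT.nd (nat_lit 156) (nat_lit 0) (nat_lit 0) (XT.nd (nat_lit 78) (nat_lit 0) (nat_lit 0) (XT.lf (nat_lit 0) (nat_lit 706078498283) (nat_lit 152) (nat_lit 141123778407) (nat_lit 0) (nat_lit 700082066222) (nat_lit 1) (nat_lit 5) (nat_lit 3) (nat_lit 4) (nat_lit 1) (nat_lit 4) (nat_lit 250) (nat_lit 197) (nat_lit 153)) (XT.lf (nat_lit 0) (nat_lit 814329050177) (nat_lit 152) (nat_lit 156215750151) (nat_lit 0) (nat_lit 808330945064) (nat_lit 1) (nat_lit 5) (nat_lit 3) (nat_lit 4) (nat_lit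 1) (nat_lit 4) (nat_lit 251) (nat_lit 197) (nat_lit 152))) (XT.nd (nat_lit 78) (nat_lit 0) (nat_lit 0) (XT.lf (nat_lit 0) (nat_lit 938815505019) (nat_lit 152) (nat_lit 173574668014) (nat_lit 0) (nat_lit 932815945079) (nat_lit 1) (nat_lit 5) (nat_lit 3) (nat_lit 4) (nat_lit 1) (nat_lit 4) (nat_lit 252) (nat_lit 197) (nat_lit 151)) (XT.lf (nat_lit 0) (nat_lit 1081973467362) (nat_lit 152) (nat_lit 193540162996) (nat_lit 0) (nat_lit 1075972642354) (nat_lit 1) (nat_lit 5) (nat_lit 3) (nat_lit 4) (nat_lit 1) (nat_lit 4) (nat_lit 253) (nat_lit 197) (nat_lit 150))))))))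
noncomputable def xc22 : XT := (XT.nd (nat_lit 27768) (nat_lit 0) (nat_lit 0) (XT.nd (nat_lit 1092) (nat_lit 0) (nat_lit 0) (XT.nd (nat_lit 546) (nat_lit 0) (nat_lit 0) (XT.nd (nat_lit 234) (nat_lit 0) (nat_lit 0) (XT.nd (nat_lit 78) (nat_lit 0) (nat_lit 0) (XT.lf (nat_lit 0) (nat_lit 1246603853859) (nat_lit 152) (nat_lit 216502864348) (nat_lit 0) (nat_lit 1240601928793) (nat_lit 1) (nat_lit 5) (nat_lit 3) (nat_lit 4) (nat_lit 1) (nat_lit 4) (nat_lit 254) (nat_lit 197) (nat_lit 149)) (XT.nd (nat_lit 78) (nat_lit 0) (nat_lit 0) (XT.lf (nat_lit 0) (nat_lit 1435927693812) (nat_lit 152) (nat_lit 242912042313) (nat_lit 0) (nat_lit 1429924812173) (nat_lit 1) (nat_lit 5) (nat_lit 3) (nat_lit 4) (nat_lit 1) (nat_lit 4) (nat_lit 255) (nat_lit 197) (nat_lit 148)) (XT.lf (nat_lit 0) (nat_lit 1653649149307) (nat_lit 152) (nat_lit 273284398200) (nat_lit 0) (nat_lit 1647645435865) (nat_lit 1) (nat_lit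 5) (nat_lit 3) (nat_lit 4) (nat_lit 1) (nat_lit 4) (nat_lit 256) (nat_lit 197) (nat_lit 147)))) (XT.nd (nat_lit 156) (nat_lit 0) (nat_lit 0) (XT.nd (nat_lit 78) (nat_lit 0) (nat_lit 0) (XT.lf (nat_lit 0) (nat_lit 1904027987951) (nat_lit 152) (nat_lit 308214173754) (nat_lit 0) (nat_lit 1898023551203) (nat_lit 1) (nat_lit 5) (nat_lit 3) (nat_lit 4) (nat_lit 1) (nat_lit 4) (nat_lit 257) (nat_lit 197) (nat_lit 146)) (XT.lf (nat_lit 0) (nat_lit 2191962926152) (nat_lit 152) (nat_lit 348384777627) (nat_lit 0) (nat_lit 2185957860442) (nat_lit 1) (nat_lit 5) (nat_lit 3) (nat_lit 4) (nat_lit 1) (nat_lit 4) (nat_lit 258) (nat_lit 197) (nat_lit 145))) (XT.nd (nat_lit 78) (nat_lit 0) (nat_lit 0) (XT.lf (nat_lit 0) (nat_lit 2523087473571) (nat_lit 152) (nat_lit 394582156417) (nat_lit 0) (nat_lit 2517081860938) (nat_lit 1) (nat_lit 5) (nat_lit 3) (nat_lit 4) (nat_lit 1) (nat_lit 4) (nat_lit 259)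 (nat_lit 197) (nat_lit 144)) (XT.lf (nat_lit 0) (nat_lit 2903880153962) (nat_lit 152) (nat_lit 447710171882) (nat_lit 0) (nat_lit 2897874065743) (nat_lit 1) (nat_lit 5) (nat_lit 3) (nat_lit 4) (nat_lit 1) (nat_lit 4) (nat_lit 260) (nat_lit 197) (nat_lit 143))))) (XT.nd (nat_lit 234) (nat_lit 0) (nat_lit 0) (XT.nd (nat_lit 78) (nat_lit 0) (nat_lit 0) (XT.lf (nat_lit 0) (nat_lit 3341791258898) (nat_lit 152) (nat_lit 508808285195) (nat_lit 0) (nat_lit 3335784757126) (nat_lit 1) (nat_lit 5) (nat_lit 3) (nat_lit 4) (nat_lit 1) (nat_lit 4) (nat_lit 261) (nat_lit 197) (nat_lit 142)) (XT.nd (nat_lit 78) (nat_lit 0) (nat_lit 0) (XT.lf (nat_lit 0) (nat_lit 3845388614344) (nat_lit 152) (nat_lit 579071894225) (nat_lit 0) (nat_lit 3839381752961) (nat_lit 1) (nat_lit 5) (nat_lit 3) (nat_lit 4) (nat_lit 1) (nat_lit 4) (nat_lit 262) (nat_lit 197) (nat_lit 141)) (XT.lf (nat_lit 0) (nat_lit 4424525212038)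 (nat_lit 152) (nat_lit 659875721758) (nat_lit 0) (nat_lit 4418518037950) (nat_lit 1) (nat_lit 5) (nat_lit 3) (nat_lit 4) (nat_lit 1) (nat_lit 4) (nat_lit 263) (nat_lit 197) (nat_lit 140)))) (XT.nd (nat_lit 156) (nat_lit 0) (nat_lit 0) (XT.nd (nat_lit 78) (nat_lit 0) (nat_lit 0) (XT.lf (nat_lit 0) (nat_lit 5090531985414) (nat_lit 152) (nat_lit 752800712244) (nat_lit 0) (nat_lit 5084524539408) (nat_lit 1) (nat_lit 5) (nat_lit 3) (nat_lit 4) (nat_lit 1) (nat_lit 4) (nat_lit 264) (nat_lit 197) (nat_lit 139)) (XT.lf (nat_lit 0) (nat_lit 5856439501775) (nat_lit 152) (nat_lit 859664963324) (nat_lit 0) (nat_lit 5850431819319) (nat_lit 1) (nat_lit 5) (nat_lit 3) (nat_lit 4) (nat_lit 1) (nat_lit 4) (nat_lit 265) (nat_lit 197) (nat_lit 138))) (XT.nd (nat_lit 78) (nat_lit 0) (nat_lit 0) (XT.lf (nat_lit 0) (nat_lit 6737232908181) (nat_lit 152) (nat_lit 982559297302) (nat_lit 0) (nat_lit 6731225020116)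 (nat_lit 1) (nat_lit 5) (nat_lit 3) (nat_lit 4) (nat_lit 1) (nat_lit 4) (nat_lit 266) (nat_lit 197) (nat_lit 137)) (XT.lf (nat_lit 0) (nat_lit 7750145119106) (nat_lit 152) (nat_lit 1123888168539) (nat_lit 0) (nat_lit 7744137052251) (nat_lit 1) (nat_lit 5) (nat_lit 3) (nat_lit 4) (nat_lit 1) (nat_lit 4) (nat_lit 267) (nat_lit 197) (nat_lit 136)))))) (XT.nd (nat_lit 546) (nat_lit 0) (nat_lit 0) (XT.nd (nat_lit 234) (nat_lit 0) (nat_lit 0) (XT.nd (nat_lit 78) (nat_lit 0) (nat_lit 0) (XT.lf (nat_lit 0) (nat_lit 8914993982155) (nat_lit 152) (nat_lit 1286416707123) (nat_lit 0) (nat_lit 8908985759830) (nat_lit 1) (nat_lit 5) (nat_lit 3) (nat_lit 4) (nat_lit 1) (nat_lit 4) (nat_lit 268) (nat_lit 197) (nat_lit 135)) (XT.nd (nat_lit 78) (nat_lit 0) (nat_lit 0) (XT.lf (nat_lit 0) (nat_lit 10254570018560) (nat_lit 152) (nat_lit 1473324819244) (nat_lit 0) (nat_lit 10248561661044) (nat_lit 1) (nat_lit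 5) (nat_lit 3) (nat_lit 4) (nat_lit 1) (nat_lit 4) (nat_lit 269) (nat_lit 197) (nat_lit 134)) (XT.lf (nat_lit 0) (nat_lit 11795082324688) (nat_lit 152) (nat_lit 1688269402748) (nat_lit 0) (nat_lit 11789073849614) (nat_lit 1) (nat_lit 5) (nat_lit 3) (nat_lit 4) (nat_lit 1) (nat_lit 4) (nat_lit 270) (nat_lit 197) (nat_lit 133)))) (XT.nd (nat_lit 156) (nat_lit 0) (nat_lit 0) (XT.nd (nat_lit 78) (nat_lit 0) (nat_lit 0) (XT.lf (nat_lit 0) (nat_lit 13566671358700) (nat_lit 152) (nat_lit 1935455895139) (nat_lit 0) (nat_lit 13560662781402) (nat_lit 1) (nat_lit 5) (nat_lit 3) (nat_lit 4) (nat_lit 1) (nat_lit 4) (nat_lit 271) (nat_lit 197) (nat_lit 132)) (XT.lf (nat_lit 0) (nat_lit 15603998645175) (nat_lit 152) (nat_lit 2219720553875) (nat_lit 0) (nat_lit 15597989978988) (nat_lit 1) (nat_lit 5) (nat_lit 3) (nat_lit 4) (nat_lit 1) (nat_lit 4) (nat_lit 272) (nat_lit 197) (nat_lit 131))) (XT.nd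 (nat_lit 78) (nat_lit 0) (nat_lit 0) (XT.lf (nat_lit 0) (nat_lit 17946924935372) (nat_lit 152) (nat_lit 2546625078804) (nat_lit 0) (nat_lit 17940916191888) (nat_lit 1) (nat_lit 5) (nat_lit 3) (nat_lit 4) (nat_lit 1) (nat_lit 4) (nat_lit 273) (nat_lit 197) (nat_lit 130)) (XT.lf (nat_lit 0) (nat_lit 20641290091488) (nat_lit 152) (nat_lit 2922565428019) (nat_lit 0) (nat_lit 20635281280790) (nat_lit 1) (nat_lit 5) (nat_lit 3) (nat_lit 4) (nat_lit 1) (nat_lit 4) (nat_lit 274) (nat_lit 197) (nat_lit 129))))) (XT.nd (nat_lit 25818) (nat_lit 0) (nat_lit 760) (XT.nd (nat_lit 156) (nat_lit 0) (nat_lit 0) (XT.nd (nat_lit 78) (nat_lit 0) (nat_lit 0) (XT.lf (nat_lit 0) (nat_lit 23739809953535) (nat_lit 152) (nat_lit 3354896956181) (nat_lit 0) (nat_lit 23733801084390) (nat_lit 1) (nat_lit 5) (nat_lit 3) (nat_lit 4) (nat_lit 1) (nat_lit 4) (nat_lit 275) (nat_lit 197) (nat_lit 128)) (XT.lf (nat_lit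 0) (nat_lit 27303107736205) (nat_lit 152) (nat_lit 3852078323622) (nat_lit 0) (nat_lit 27297098816237) (nat_lit 1) (nat_lit 5) (nat_lit 3) (nat_lit 4) (nat_lit 1) (nat_lit 4) (nat_lit 276) (nat_lit 197) (nat_lit 127))) (XT.nd (nat_lit 25584) (nat_lit 0) (nat_lit 1216) (XT.lf (nat_lit 0) (nat_lit 31400900135247) (nat_lit 152) (nat_lit 4423836991880) (nat_lit 0) (nat_lit 31394891171085) (nat_lit 1) (nat_lit 5) (nat_lit 3) (nat_lit 4) (nat_lit 1) (nat_lit 4) (nat_lit 277) (nat_lit 197) (nat_lit 126)) (XT.lf (nat_lit 0) (nat_lit 42713125) (nat_lit 228) (nat_lit 3349965685) (nat_lit 0) (nat_lit 42713125) (nat_lit 17) (nat_lit 5) (nat_lit 20) (nat_lit 4) (nat_lit 17) (nat_lit 4) (nat_lit 204) (nat_lit 198) (nat_lit 198)))) (XT.nd (nat_lit 156) (nat_lit 228) (nat_lit 0) (XT.nd (nat_lit 78) (nat_lit 228) (nat_lit 0) (XT.lf (nat_lit 0) (nat_lit 2936457509) (nat_lit 228) (nat_lit 2819816504)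 (nat_lit 0) (nat_lit 1359922832) (nat_lit 17) (nat_lit 5) (nat_lit 20) (nat_lit 4) (nat_lit 17) (nat_lit 4) (nat_lit 205) (nat_lit 198) (nat_lit 197)) (XT.lf (nat_lit 0) (nat_lit 1347107029) (nat_lit 228) (nat_lit 4528554442) (nat_lit 228) (nat_lit 1581120045) (nat_lit 14) (nat_lit 4) (nat_lit 17) (nat_lit 5) (nat_lit 17) (nat_lit 4) (nat_lit 206) (nat_lit 198) (nat_lit 196))) (XT.nd (nat_lit 78) (nat_lit 152) (nat_lit 0) (XT.lf (nat_lit 0) (nat_lit 1053268464) (nat_lit 304) (nat_lit 1874993909) (nat_lit 76) (nat_lit 4951384870) (nat_lit 13) (nat_lit 5) (nat_lit 17) (nat_lit 5) (nat_lit 14) (nat_lit 4) (nat_lit 207) (nat_lit 198) (nat_lit 195)) (XT.lf (nat_lit 0) (nat_lit 2785555454) (nat_lit 152) (nat_lit 917548594) (nat_lit 228) (nat_lit 4689110507) (nat_lit 11) (nat_lit 5) (nat_lit 13) (nat_lit 5) (nat_lit 14) (nat_lit 4) (nat_lit 208) (nat_lit 198) (nat_lit 194))))))) (XT.nd (nat_lit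 1170) (nat_lit 152) (nat_lit 0) (XT.nd (nat_lit 546) (nat_lit 152) (nat_lit 0) (XT.nd (nat_lit 234) (nat_lit 228) (nat_lit 0) (XT.nd (nat_lit 78) (nat_lit 228) (nat_lit 0) (XT.lf (nat_lit 0) (nat_lit 6603549151) (nat_lit 228) (nat_lit 1085639676) (nat_lit 0) (nat_lit 1318760395) (nat_lit 11) (nat_lit 5) (nat_lit 14) (nat_lit 4) (nat_lit 11) (nat_lit 4) (nat_lit 209) (nat_lit 198) (nat_lit 193)) (XT.nd (nat_lit 78) (nat_lit 0) (nat_lit 0) (XT.lf (nat_lit 0) (nat_lit 142361614) (nat_lit 228) (nat_lit 5660290730) (nat_lit 76) (nat_lit 3924342083) (nat_lit 8) (nat_lit 5) (nat_lit 11) (nat_lit 5) (nat_lit 9) (nat_lit 4) (nat_lit 210) (nat_lit 198) (nat_lit 192)) (XT.lf (nat_lit 0) (nat_lit 2623227872) (nat_lit 228) (nat_lit 919106056) (nat_lit 76) (nat_lit 7027445949) (nat_lit 8) (nat_lit 5) (nat_lit 11) (nat_lit 5) (nat_lit 9) (nat_lit 4) (nat_lit 211) (nat_lit 198) (nat_lit 191)))) (XT.nd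 (nat_lit 156) (nat_lit 152) (nat_lit 0) (XT.nd (nat_lit 78) (nat_lit 0) (nat_lit 0) (XT.lf (nat_lit 0) (nat_lit 4622682881) (nat_lit 76) (nat_lit 817829139) (nat_lit 152) (nat_lit 6106259247) (nat_lit 7) (nat_lit 5) (nat_lit 8) (nat_lit 5) (nat_lit 9) (nat_lit 4) (nat_lit 212) (nat_lit 198) (nat_lit 190)) (XT.lf (nat_lit 0) (nat_lit 8612333970) (nat_lit 152) (nat_lit 1999328897) (nat_lit 0) (nat_lit 2070970913) (nat_lit 7) (nat_lit 5) (nat_lit 9) (nat_lit 4) (nat_lit 7) (nat_lit 4) (nat_lit 213) (nat_lit 198) (nat_lit 189))) (XT.nd (nat_lit 78) (nat_lit 76) (nat_lit 0) (XT.lf (nat_lit 0) (nat_lit 3657706109) (nat_lit 76) (nat_lit 8606311604) (nat_lit 76) (nat_lit 1726083103) (nat_lit 6) (nat_lit 4) (nat_lit 7) (nat_lit 5) (nat_lit 7) (nat_lit 4) (nat_lit 214) (nat_lit 198) (nat_lit 188)) (XT.lf (nat_lit 0) (nat_lit 809597119) (nat_lit 152) (nat_lit 5434260297) (nat_lit 76) (nat_lit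 9256272267) (nat_lit 5) (nat_lit 5) (nat_lit 7) (nat_lit 5) (nat_lit 6) (nat_lit 4) (nat_lit 215) (nat_lit 198) (nat_lit 187))))) (XT.nd (nat_lit 312) (nat_lit 76) (nat_lit 0) (XT.nd (nat_lit 156) (nat_lit 0) (nat_lit 0) (XT.nd (nat_lit 78) (nat_lit 76) (nat_lit 0) (XT.lf (nat_lit 0) (nat_lit 3389501983) (nat_lit 152) (nat_lit 143695799) (nat_lit 76) (nat_lit 13716256133) (nat_lit 5) (nat_lit 5) (nat_lit 7) (nat_lit 5) (nat_lit 6) (nat_lit 4) (nat_lit 216) (nat_lit 198) (nat_lit 186)) (XT.lf (nat_lit 0) (nat_lit 6272724570) (nat_lit 76) (nat_lit 204791320) (nat_lit 152) (nat_lit 12766543519) (nat_lit 4) (nat_lit 5) (nat_lit 5) (nat_lit 5) (nat_lit 6) (nat_lit 4) (nat_lit 217) (nat_lit 198) (nat_lit 185))) (XT.nd (nat_lit 78) (nat_lit 0) (nat_lit 0) (XT.lf (nat_lit 0) (nat_lit 10053562395) (nat_lit 152) (nat_lit 8251991697) (nat_lit 0) (nat_lit 3229491080) (nat_lit 4) (nat_lit 5) (nat_lit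 6) (nat_lit 4) (nat_lit 4) (nat_lit 4) (nat_lit 218) (nat_lit 198) (nat_lit 184)) (XT.lf (nat_lit 0) (nat_lit 14060068611) (nat_lit 152) (nat_lit 3036800667) (nat_lit 0) (nat_lit 7089496413) (nat_lit 4) (nat_lit 5) (nat_lit 6) (nat_lit 4) (nat_lit 4) (nat_lit 4) (nat_lit 219) (nat_lit 198) (nat_lit 183)))) (XT.nd (nat_lit 156) (nat_lit 0) (nat_lit 0) (XT.nd (nat_lit 78) (nat_lit 0) (nat_lit 0) (XT.lf (nat_lit 0) (nat_lit 3056901035) (nat_lit 76) (nat_lit 15636621448) (nat_lit 76) (nat_lit 8538657178) (nat_lit 3) (nat_lit 4) (nat_lit 4) (nat_lit 5) (nat_lit 4) (nat_lit 4) (nat_lit 220) (nat_lit 198) (nat_lit 182)) (XT.lf (nat_lit 0) (nat_lit 10238034639) (nat_lit 76) (nat_lit 13848263267) (nat_lit 76) (nat_lit 6639523283) (nat_lit 3) (nat_lit 4) (nat_lit 4) (nat_lit 5) (nat_lit 4) (nat_lit 4) (nat_lit 221) (nat_lit 198) (nat_lit 181))) (XT.nd (nat_lit 78) (nat_lit 0) (nat_lit 0) (XT.lf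 (nat_lit 0) (nat_lit 18350322337) (nat_lit 76) (nat_lit 11855546974) (nat_lit 76) (nat_lit 4550480281) (nat_lit 3) (nat_lit 4) (nat_lit 4) (nat_lit 5) (nat_lit 4) (nat_lit 4) (nat_lit 222) (nat_lit 198) (nat_lit 180)) (XT.lf (nat_lit 0) (nat_lit 27552482801) (nat_lit 76) (nat_lit 9619484640) (nat_lit 76) (nat_lit 2230655591) (nat_lit 3) (nat_lit 4) (nat_lit 4) (nat_lit 5) (nat_lit 4) (nat_lit 4) (nat_lit 223) (nat_lit 198) (nat_lit 179)))))) (XT.nd (nat_lit 546) (nat_lit 0) (nat_lit 0) (XT.nd (nat_lit 234) (nat_lit 0) (nat_lit 0) (XT.nd (nat_lit 78) (nat_lit 76) (nat_lit 0) (XT.lf (nat_lit 0) (nat_lit 332813685) (nat_lit 152) (nat_lit 6746116455) (nat_lit 76) (nat_lit 37674347538) (nat_lit 2) (nat_lit 5) (nat_lit 4) (nat_lit 5) (nat_lit 3) (nat_lit 4) (nat_lit 224) (nat_lit 198) (nat_lit 178)) (XT.nd (nat_lit 78) (nat_lit 76) (nat_lit 0) (XT.lf (nat_lit 0) (nat_lit 2995547022) (nat_lit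 152) (nat_lit 1084576154) (nat_lit 76) (nat_lit 46819304838) (nat_lit 2) (nat_lit 5) (nat_lit 4) (nat_lit 5) (nat_lit 3) (nat_lit 4) (nat_lit 225) (nat_lit 198) (nat_lit 177)) (XT.lf (nat_lit 0) (nat_lit 5859247344) (nat_lit 76) (nat_lit 391601356) (nat_lit 152) (nat_lit 51687938273) (nat_lit 1) (nat_lit 5) (nat_lit 2) (nat_lit 5) (nat_lit 3) (nat_lit 4) (nat_lit 226) (nat_lit 198) (nat_lit 176)))) (XT.nd (nat_lit 156) (nat_lit 0) (nat_lit 0) (XT.nd (nat_lit 78) (nat_lit 0) (nat_lit 0) (XT.lf (nat_lit 0) (nat_lit 10165182026) (nat_lit 152) (nat_lit 52311317508) (nat_lit 0) (nat_lit 3532165713) (nat_lit 1) (nat_lit 5) (nat_lit 3) (nat_lit 4) (nat_lit 1) (nat_lit 4) (nat_lit 227) (nat_lit 198) (nat_lit 175)) (XT.lf (nat_lit 0) (nat_lit 14643499487) (nat_lit 152) (nat_lit 52674926721) (nat_lit 0) (nat_lit 7974270396) (nat_lit 1) (nat_lit 5) (nat_lit 3) (nat_lit 4) (nat_lit 1) (nat_lit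 4) (nat_lit 228) (nat_lit 198) (nat_lit 174))) (XT.nd (nat_lit 78) (nat_lit 0) (nat_lit 0) (XT.lf (nat_lit 0) (nat_lit 19757204962) (nat_lit 152) (nat_lit 53161265984) (nat_lit 0) (nat_lit 13056486499) (nat_lit 1) (nat_lit 5) (nat_lit 3) (nat_lit 4) (nat_lit 1) (nat_lit 4) (nat_lit 229) (nat_lit 198) (nat_lit 173)) (XT.lf (nat_lit 0) (nat_lit 25606349208) (nat_lit 152) (nat_lit 53779850630) (nat_lit 0) (nat_lit 18878248683) (nat_lit 1) (nat_lit 5) (nat_lit 3) (nat_lit 4) (nat_lit 1) (nat_lit 4) (nat_lit 230) (nat_lit 198) (nat_lit 172))))) (XT.nd (nat_lit 312) (nat_lit 0) (nat_lit 0) (XT.nd (nat_lit 156) (nat_lit 0) (nat_lit 0) (XT.nd (nat_lit 78) (nat_lit 0) (nat_lit 0) (XT.lf (nat_lit 0) (nat_lit 32305372006) (nat_lit 152) (nat_lit 54542783403) (nat_lit 0) (nat_lit 25553460991) (nat_lit 1) (nat_lit 5) (nat_lit 3) (nat_lit 4) (nat_lit 1) (nat_lit 4) (nat_lit 231) (nat_lit 198) (nat_lit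 171)) (XT.lf (nat_lit 0) (nat_lit 39985341192) (nat_lit 152) (nat_lit 55464991247) (nat_lit 0) (nat_lit 33212725404) (nat_lit 1) (nat_lit 5) (nat_lit 3) (nat_lit 4) (nat_lit 1) (nat_lit 4) (nat_lit 232) (nat_lit 198) (nat_lit 170))) (XT.nd (nat_lit 78) (nat_lit 0) (nat_lit 0) (XT.lf (nat_lit 0) (nat_lit 48796517033) (nat_lit 152) (nat_lit 56564517361) (nat_lit 0) (nat_lit 42005897095) (nat_lit 1) (nat_lit 5) (nat_lit 3) (nat_lit 4) (nat_lit 1) (nat_lit 4) (nat_lit 233) (nat_lit 198) (nat_lit 169)) (XT.lf (nat_lit 0) (nat_lit 58911292100) (nat_lit 152) (nat_lit 57862874211) (nat_lit 0) (nat_lit 52105016379) (nat_lit 1) (nat_lit 5) (nat_lit 3) (nat_lit 4) (nat_lit 1) (nat_lit 4) (nat_lit 234) (nat_lit 198) (nat_lit 168)))) (XT.nd (nat_lit 156) (nat_lit 0) (nat_lit 0) (XT.nd (nat_lit 78) (nat_lit 0) (nat_lit 0) (XT.lf (nat_lit 0) (nat_lit 70527564166) (nat_lit 152) (nat_lit 59385464431)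 (nat_lit 0) (nat_lit 63707674720) (nat_lit 1) (nat_lit 5) (nat_lit 3) (nat_lit 4) (nat_lit 1) (nat_lit 4) (nat_lit 235) (nat_lit 198) (nat_lit 167)) (XT.lf (nat_lit 0) (nat_lit 83872608119) (nat_lit 152) (nat_lit 61162077831) (nat_lit 0) (nat_lit 77040880652) (nat_lit 1) (nat_lit 5) (nat_lit 3) (nat_lit 4) (nat_lit 1) (nat_lit 4) (nat_lit 236) (nat_lit 198) (nat_lit 166))) (XT.nd (nat_lit 78) (nat_lit 0) (nat_lit 0) (XT.lf (nat_lit 0) (nat_lit 99207522646) (nat_lit 152) (nat_lit 63227474237) (nat_lit 0) (nat_lit 92365501247) (nat_lit 1) (nat_lit 5) (nat_lit 3) (nat_lit 4) (nat_lit 1) (nat_lit 4) (nat_lit 237) (nat_lit 198) (nat_lit 165)) (XT.lf (nat_lit 0) (nat_lit 116832338682) (nat_lit 152) (nat_lit 65622063579) (nat_lit 0) (nat_lit 109981366038) (nat_lit 1) (nat_lit 5) (nat_lit 3) (nat_lit 4) (nat_lit 1) (nat_lit 4) (nat_lit 238) (nat_lit 198) (nat_lit 164))))))))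
noncomputable def xc23 : XT := (XT.nd (nat_lit 2340) (nat_lit 0) (nat_lit 0) (XT.nd (nat_lit 1170) (nat_lit 0) (nat_lit 0) (XT.nd (nat_lit 546) (nat_lit 0) (nat_lit 0) (XT.nd (nat_lit 234) (nat_lit 0) (nat_lit 0) (XT.nd (nat_lit 78) (nat_lit 0) (nat_lit 0) (XT.lf (nat_lit 0) (nat_lit 137091889585) (nat_lit 152) (nat_lit 68392696518) (nat_lit 0) (nat_lit 130233133250) (nat_lit 1) (nat_lit 5) (nat_lit 3) (nat_lit 4) (nat_lit 1) (nat_lit 4) (nat_lit 239) (nat_lit 198) (nat_lit 163)) (XT.nd (nat_lit 78) (nat_lit 0) (nat_lit 0) (XT.lf (nat_lit 0) (nat_lit 160382557872) (nat_lit 152) (nat_lit 71593581091) (nat_lit 0) (nat_lit 153517033110) (nat_lit 1) (nat_lit 5) (nat_lit 3) (nat_lit 4) (nat_lit 1) (nat_lit 4) (nat_lit 240) (nat_lit 198) (nat_lit 162)) (XT.lf (nat_lit 0) (nat_lit 187160030532) (nat_lit 152) (nat_lit 75287343298) (nat_lit 0) (nat_lit 180288620181) (nat_lit 1) (nat_lit 5)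 (nat_lit 3) (nat_lit 4) (nat_lit 1) (nat_lit 4) (nat_lit 241) (nat_lit 198) (nat_lit 161)))) (XT.nd (nat_lit 156) (nat_lit 0) (nat_lit 0) (XT.nd (nat_lit 78) (nat_lit 0) (nat_lit 0) (XT.lf (nat_lit 0) (nat_lit 217948214639) (nat_lit 152) (nat_lit 79546252402) (nat_lit 0) (nat_lit 211071686385) (nat_lit 1) (nat_lit 5) (nat_lit 3) (nat_lit 4) (nat_lit 1) (nat_lit 4) (nat_lit 242) (nat_lit 198) (nat_lit 160)) (XT.lf (nat_lit 0) (nat_lit 253349487707) (nat_lit 152) (nat_lit 84453634884) (nat_lit 0) (nat_lit 246468509102) (nat_lit 1) (nat_lit 5) (nat_lit 3) (nat_lit 4) (nat_lit 1) (nat_lit 4) (nat_lit 243) (nat_lit 198) (nat_lit 159))) (XT.nd (nat_lit 78) (nat_lit 0) (nat_lit 0) (XT.lf (nat_lit 0) (nat_lit 294056483340) (nat_lit 152) (nat_lit 90105504750) (nat_lit 0) (nat_lit 287171634865) (nat_lit 1) (nat_lit 5) (nat_lit 3) (nat_lit 4) (nat_lit 1) (nat_lit 4) (nat_lit 244) (nat_lit 198)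 (nat_lit 158)) (XT.lf (nat_lit 0) (nat_lit 340865642757) (nat_lit 152) (nat_lit 96612442062) (nat_lit 0) (nat_lit 333977429178) (nat_lit 1) (nat_lit 5) (nat_lit 3) (nat_lit 4) (nat_lit 1) (nat_lit 4) (nat_lit 245) (nat_lit 198) (nat_lit 157))))) (XT.nd (nat_lit 312) (nat_lit 0) (nat_lit 0) (XT.nd (nat_lit 156) (nat_lit 0) (nat_lit 0) (XT.nd (nat_lit 78) (nat_lit 0) (nat_lit 0) (XT.lf (nat_lit 0) (nat_lit 394692797339) (nat_lit 152) (nat_lit 104101756463) (nat_lit 0) (nat_lit 387801657582) (nat_lit 1) (nat_lit 5) (nat_lit 3) (nat_lit 4) (nat_lit 1) (nat_lit 4) (nat_lit 246) (nat_lit 198) (nat_lit 156)) (XT.lf (nat_lit 0) (nat_lit 456591087065) (nat_lit 152) (nat_lit 112719978018) (nat_lit 0) (nat_lit 449697402806) (nat_lit 1) (nat_lit 5) (nat_lit 3) (nat_lit 4) (nat_lit 1) (nat_lit 4) (nat_lit 247) (nat_lit 198) (nat_lit 155))) (XT.nd (nat_lit 78) (nat_lit 0) (nat_lit 0) (XT.lf (nat_lit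 0) (nat_lit 527771565431) (nat_lit 152) (nat_lit 122635724105) (nat_lit 0) (nat_lit 520875668561) (nat_lit 1) (nat_lit 5) (nat_lit 3) (nat_lit 4) (nat_lit 1) (nat_lit 4) (nat_lit 248) (nat_lit 198) (nat_lit 154)) (XT.lf (nat_lit 0) (nat_lit 609626893969) (nat_lit 152) (nat_lit 134042998451) (nat_lit 0) (nat_lit 602729073090) (nat_lit 1) (nat_lit 5) (nat_lit 3) (nat_lit 4) (nat_lit 1) (nat_lit 4) (nat_lit 249) (nat_lit 198) (nat_lit 153)))) (XT.nd (nat_lit 156) (nat_lit 0) (nat_lit 0) (XT.nd (nat_lit 78) (nat_lit 0) (nat_lit 0) (XT.lf (nat_lit 0) (nat_lit 703758589978) (nat_lit 152) (nat_lit 147164986860) (nat_lit 0) (nat_lit 696859096047) (nat_lit 1) (nat_lit 5) (nat_lit 3) (nat_lit 4) (nat_lit 1) (nat_lit 4) (nat_lit 250) (nat_lit 198) (nat_lit 152)) (XT.lf (nat_lit 0) (nat_lit 812008360553) (nat_lit 152) (nat_lit 162258423886) (nat_lit 0) (nat_lit 805107411795) (nat_lit 1) (nat_lit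 5) (nat_lit 3) (nat_lit 4) (nat_lit 1) (nat_lit 4) (nat_lit 251) (nat_lit 198) (nat_lit 151))) (XT.nd (nat_lit 78) (nat_lit 0) (nat_lit 0) (XT.lf (nat_lit 0) (nat_lit 936494135988) (nat_lit 152) (nat_lit 179618615907) (nat_lit 0) (nat_lit 929591922162) (nat_lit 1) (nat_lit 5) (nat_lit 3) (nat_lit 4) (nat_lit 1) (nat_lit 4) (nat_lit 252) (nat_lit 198) (nat_lit 150)) (XT.lf (nat_lit 0) (nat_lit 1079651507542) (nat_lit 152) (nat_lit 199585218853) (nat_lit 0) (nat_lit 1072748193657) (nat_lit 1) (nat_lit 5) (nat_lit 3) (nat_lit 4) (nat_lit 1) (nat_lit 4) (nat_lit 253) (nat_lit 198) (nat_lit 149)))))) (XT.nd (nat_lit 546) (nat_lit 0) (nat_lit 0) (XT.nd (nat_lit 234) (nat_lit 0) (nat_lit 0) (XT.nd (nat_lit 78) (nat_lit 0) (nat_lit 0) (XT.lf (nat_lit 0) (nat_lit 1244281380309) (nat_lit 152) (nat_lit 222548883652) (nat_lit 0) (nat_lit 1237377109852) (nat_lit 1) (nat_lit 5) (nat_lit 3) (nat_lit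 4) (nat_lit 1) (nat_lit 4) (nat_lit 254) (nat_lit 198) (nat_lit 148)) (XT.nd (nat_lit 78) (nat_lit 0) (nat_lit 0) (XT.lf (nat_lit 0) (nat_lit 1433604773541) (nat_lit 152) (nat_lit 248958899397) (nat_lit 0) (nat_lit 1426699671281) (nat_lit 1) (nat_lit 5) (nat_lit 3) (nat_lit 4) (nat_lit 1) (nat_lit 4) (nat_lit 255) (nat_lit 198) (nat_lit 147)) (XT.lf (nat_lit 0) (nat_lit 1651325840582) (nat_lit 152) (nat_lit 279331983788) (nat_lit 0) (nat_lit 1644420015016) (nat_lit 1) (nat_lit 5) (nat_lit 3) (nat_lit 4) (nat_lit 1) (nat_lit 4) (nat_lit 256) (nat_lit 198) (nat_lit 146)))) (XT.nd (nat_lit 156) (nat_lit 0) (nat_lit 0) (XT.nd (nat_lit 78) (nat_lit 0) (nat_lit 0) (XT.lf (nat_lit 0) (nat_lit 1901704341440) (nat_lit 152) (nat_lit 314262392824) (nat_lit 0) (nat_lit 1894797886912) (nat_lit 1) (nat_lit 5) (nat_lit 3) (nat_lit 4) (nat_lit 1) (nat_lit 4) (nat_lit 257) (nat_lit 198) (nat_lit 145))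 (XT.lf (nat_lit 0) (nat_lit 2189638985915) (nat_lit 152) (nat_lit 354433547551) (nat_lit 0) (nat_lit 2182731984463) (nat_lit 1) (nat_lit 5) (nat_lit 3) (nat_lit 4) (nat_lit 1) (nat_lit 4) (nat_lit 258) (nat_lit 198) (nat_lit 144))) (XT.nd (nat_lit 78) (nat_lit 0) (nat_lit 0) (XT.lf (nat_lit 0) (nat_lit 2520763277920) (nat_lit 152) (nat_lit 400631405344) (nat_lit 0) (nat_lit 2513855800882) (nat_lit 1) (nat_lit 5) (nat_lit 3) (nat_lit 4) (nat_lit 1) (nat_lit 4) (nat_lit 259) (nat_lit 198) (nat_lit 143)) (XT.lf (nat_lit 0) (nat_lit 2901555736211) (nat_lit 152) (nat_lit 453759837334) (nat_lit 0) (nat_lit 2894647845621) (nat_lit 1) (nat_lit 5) (nat_lit 3) (nat_lit 4) (nat_lit 1) (nat_lit 4) (nat_lit 260) (nat_lit 198) (nat_lit 142))))) (XT.nd (nat_lit 312) (nat_lit 0) (nat_lit 0) (XT.nd (nat_lit 156) (nat_lit 0) (nat_lit 0) (XT.nd (nat_lit 78) (nat_lit 0) (nat_lit 0) (XT.lf (nat_lit 0)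 (nat_lit 3339466648017) (nat_lit 152) (nat_lit 514858312842) (nat_lit 0) (nat_lit 3332558397815) (nat_lit 1) (nat_lit 5) (nat_lit 3) (nat_lit 4) (nat_lit 1) (nat_lit 4) (nat_lit 261) (nat_lit 198) (nat_lit 141)) (XT.lf (nat_lit 0) (nat_lit 3843063835524) (nat_lit 152) (nat_lit 585122236825) (nat_lit 0) (nat_lit 3836155272617) (nat_lit 1) (nat_lit 5) (nat_lit 3) (nat_lit 4) (nat_lit 1) (nat_lit 4) (nat_lit 262) (nat_lit 198) (nat_lit 140))) (XT.nd (nat_lit 78) (nat_lit 0) (nat_lit 0) (XT.lf (nat_lit 0) (nat_lit 4422200287184) (nat_lit 152) (nat_lit 665926338229) (nat_lit 0) (nat_lit 4415291452360) (nat_lit 1) (nat_lit 5) (nat_lit 3) (nat_lit 4) (nat_lit 1) (nat_lit 4) (nat_lit 263) (nat_lit 198) (nat_lit 139)) (XT.lf (nat_lit 0) (nat_lit 5088206933573) (nat_lit 152) (nat_lit 758851566865) (nat_lit 0) (nat_lit 5081297862299) (nat_lit 1) (nat_lit 5) (nat_lit 3) (nat_lit 4) (nat_lit 1)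 (nat_lit 4) (nat_lit 264) (nat_lit 198) (nat_lit 138)))) (XT.nd (nat_lit 156) (nat_lit 0) (nat_lit 0) (XT.nd (nat_lit 78) (nat_lit 0) (nat_lit 0) (XT.lf (nat_lit 0) (nat_lit 5854114339512) (nat_lit 152) (nat_lit 865716025031) (nat_lit 0) (nat_lit 5847205062628) (nat_lit 1) (nat_lit 5) (nat_lit 3) (nat_lit 4) (nat_lit 1) (nat_lit 4) (nat_lit 265) (nat_lit 198) (nat_lit 137)) (XT.lf (nat_lit 0) (nat_lit 6734907649898) (nat_lit 152) (nat_lit 988610539085) (nat_lit 0) (nat_lit 6727998194225) (nat_lit 1) (nat_lit 5) (nat_lit 3) (nat_lit 4) (nat_lit 1) (nat_lit 4) (nat_lit 266) (nat_lit 198) (nat_lit 136))) (XT.nd (nat_lit 78) (nat_lit 0) (nat_lit 0) (XT.lf (nat_lit 0) (nat_lit 7747819777328) (nat_lit 152) (nat_lit 1129939566908) (nat_lit 0) (nat_lit 7740910166184) (nat_lit 1) (nat_lit 5) (nat_lit 3) (nat_lit 4) (nat_lit 1) (nat_lit 4) (nat_lit 267) (nat_lit 198) (nat_lit 135)) (XT.lf (nat_lit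 0) (nat_lit 8912668567772) (nat_lit 152) (nat_lit 1292468241654) (nat_lit 0) (nat_lit 8905758821437) (nat_lit 1) (nat_lit 5) (nat_lit 3) (nat_lit 4) (nat_lit 1) (nat_lit 4) (nat_lit 268) (nat_lit 198) (nat_lit 134))))))) (XT.nd (nat_lit 26598) (nat_lit 0) (nat_lit 152) (XT.nd (nat_lit 1248) (nat_lit 0) (nat_lit 0) (XT.nd (nat_lit 390) (nat_lit 0) (nat_lit 0) (XT.nd (nat_lit 78) (nat_lit 0) (nat_lit 0) (XT.lf (nat_lit 0) (nat_lit 10252244541043) (nat_lit 152) (nat_lit 1479376472178) (nat_lit 0) (nat_lit 10245334677151) (nat_lit 1) (nat_lit 5) (nat_lit 3) (nat_lit 4) (nat_lit 1) (nat_lit 4) (nat_lit 269) (nat_lit 198) (nat_lit 133)) (XT.nd (nat_lit 234) (nat_lit 0) (nat_lit 0) (XT.lf (nat_lit 0) (nat_lit 11792756792271) (nat_lit 152) (nat_lit 1694321158641) (nat_lit 0) (nat_lit 11785846826154) (nat_lit 1) (nat_lit 5) (nat_lit 3) (nat_lit 4) (nat_lit 1) (nat_lit 4) (nat_lit 270) (nat_lit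 198) (nat_lit 132)) (XT.lf (nat_lit 0) (nat_lit 17944599277606) (nat_lit 152) (nat_lit 2552677069774) (nat_lit 0) (nat_lit 17937689078090) (nat_lit 1) (nat_lit 5) (nat_lit 3) (nat_lit 4) (nat_lit 1) (nat_lit 4) (nat_lit 273) (nat_lit 198) (nat_lit 129)))) (XT.nd (nat_lit 702) (nat_lit 0) (nat_lit 0) (XT.nd (nat_lit 78) (nat_lit 0) (nat_lit 0) (XT.lf (nat_lit 0) (nat_lit 20638964402333) (nat_lit 152) (nat_lit 2928617477856) (nat_lit 0) (nat_lit 20632054144370) (nat_lit 1) (nat_lit 5) (nat_lit 3) (nat_lit 4) (nat_lit 1) (nat_lit 4) (nat_lit 274) (nat_lit 198) (nat_lit 128)) (XT.lf (nat_lit 0) (nat_lit 23737484237086) (nat_lit 152) (nat_lit 3360949057206) (nat_lit 0) (nat_lit 23730573928299) (nat_lit 1) (nat_lit 5) (nat_lit 3) (nat_lit 4) (nat_lit 1) (nat_lit 4) (nat_lit 275) (nat_lit 198) (nat_lit 127))) (XT.nd (nat_lit 78) (nat_lit 0) (nat_lit 0) (XT.lf (nat_lit 0) (nat_lit 72650226559505)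 (nat_lit 152) (nat_lit 10185670892854) (nat_lit 0) (nat_lit 72643316022658) (nat_lit 1) (nat_lit 5) (nat_lit 3) (nat_lit 4) (nat_lit 1) (nat_lit 4) (nat_lit 283) (nat_lit 198) (nat_lit 119)) (XT.lf (nat_lit 0) (nat_lit 83550435437818) (nat_lit 152) (nat_lit 11706561009592) (nat_lit 0) (nat_lit 83543524886524) (nat_lit 1) (nat_lit 5) (nat_lit 3) (nat_lit 4) (nat_lit 1) (nat_lit 4) (nat_lit 284) (nat_lit 198) (nat_lit 118))))) (XT.nd (nat_lit 25038) (nat_lit 0) (nat_lit 760) (XT.nd (nat_lit 24882) (nat_lit 0) (nat_lit 1368) (XT.nd (nat_lit 24804) (nat_lit 0) (nat_lit 1520) (XT.lf (nat_lit 0) (nat_lit 96085675633373) (nat_lit 152) (nat_lit 13455584671046) (nat_lit 0) (nat_lit 96078765069515) (nat_lit 1) (nat_lit 5) (nat_lit 3) (nat_lit 4) (nat_lit 1) (nat_lit 4) (nat_lit 285) (nat_lit 198) (nat_lit 117)) (XT.lf (nat_lit 0) (nat_lit 1519835534) (nat_lit 76) (nat_lit 227905636) (nat_lit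 0) (nat_lit 1519835534) (nat_lit 21) (nat_lit 5) (nat_lit 22) (nat_lit 0) (nat_lit 21) (nat_lit 4) (nat_lit 202) (nat_lit 199) (nat_lit 199))) (XT.nd (nat_lit 78) (nat_lit 76) (nat_lit 0) (XT.lf (nat_lit 0) (nat_lit 3082277581) (nat_lit 76) (nat_lit 2839402718) (nat_lit 76) (nat_lit 754435607) (nat_lit 20) (nat_lit 4) (nat_lit 21) (nat_lit 5) (nat_lit 21) (nat_lit 4) (nat_lit 203) (nat_lit 199) (nat_lit 198)) (XT.lf (nat_lit 0) (nat_lit 1768736344) (nat_lit 152) (nat_lit 95198849) (nat_lit 76) (nat_lit 5030282567) (nat_lit 19) (nat_lit 5) (nat_lit 21) (nat_lit 5) (nat_lit 20) (nat_lit 4) (nat_lit 204) (nat_lit 199) (nat_lit 197)))) (XT.nd (nat_lit 156) (nat_lit 228) (nat_lit 0) (XT.nd (nat_lit 78) (nat_lit 228) (nat_lit 0) (XT.lf (nat_lit 0) (nat_lit 3926734613) (nat_lit 152) (nat_lit 445940400) (nat_lit 228) (nat_lit 2807478890) (nat_lit 17) (nat_lit 5) (nat_lit 19) (nat_lit 5) (nat_lit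 20) (nat_lit 4) (nat_lit 205) (nat_lit 199) (nat_lit 196)) (XT.lf (nat_lit 0) (nat_lit 707088994) (nat_lit 228) (nat_lit 6399959132) (nat_lit 228) (nat_lit 447423144) (nat_lit 14) (nat_lit 4) (nat_lit 17) (nat_lit 5) (nat_lit 17) (nat_lit 4) (nat_lit 206) (nat_lit 199) (nat_lit 195))) (XT.nd (nat_lit 78) (nat_lit 152) (nat_lit 0) (XT.lf (nat_lit 0) (nat_lit 1931069066) (nat_lit 304) (nat_lit 2837334636) (nat_lit 76) (nat_lit 3227411247) (nat_lit 13) (nat_lit 5) (nat_lit 17) (nat_lit 5) (nat_lit 14) (nat_lit 4) (nat_lit 207) (nat_lit 199) (nat_lit 194)) (XT.lf (nat_lit 0) (nat_lit 1559555596) (nat_lit 152) (nat_lit 2835829307) (nat_lit 228) (nat_lit 4142803173) (nat_lit 11) (nat_lit 5) (nat_lit 13) (nat_lit 5) (nat_lit 14) (nat_lit 4) (nat_lit 208) (nat_lit 199) (nat_lit 193)))))) (XT.nd (nat_lit 546) (nat_lit 228) (nat_lit 0) (XT.nd (nat_lit 234) (nat_lit 152) (nat_lit 0) (XT.nd (nat_lit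 78) (nat_lit 228) (nat_lit 0) (XT.lf (nat_lit 0) (nat_lit 6617756024) (nat_lit 152) (nat_lit 494845992) (nat_lit 228) (nat_lit 2070524799) (nat_lit 11) (nat_lit 5) (nat_lit 13) (nat_lit 5) (nat_lit 14) (nat_lit 4) (nat_lit 209) (nat_lit 199) (nat_lit 192)) (XT.nd (nat_lit 78) (nat_lit 0) (nat_lit 0) (XT.lf (nat_lit 0) (nat_lit 234072302) (nat_lit 228) (nat_lit 7632325208) (nat_lit 76) (nat_lit 2066867327) (nat_lit 8) (nat_lit 5) (nat_lit 11) (nat_lit 5) (nat_lit 9) (nat_lit 4) (nat_lit 210) (nat_lit 199) (nat_lit 191)) (XT.lf (nat_lit 0) (nat_lit 2609297868) (nat_lit 228) (nat_lit 3040962224) (nat_lit 76) (nat_lit 5142767144) (nat_lit 8) (nat_lit 5) (nat_lit 11) (nat_lit 5) (nat_lit 9) (nat_lit 4) (nat_lit 211) (nat_lit 199) (nat_lit 190)))) (XT.nd (nat_lit 156) (nat_lit 76) (nat_lit 0) (XT.nd (nat_lit 78) (nat_lit 0) (nat_lit 0) (XT.lf (nat_lit 0) (nat_lit 2150451884) (nat_lit 76)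 (nat_lit 3081898848) (nat_lit 152) (nat_lit 6567785930) (nat_lit 7) (nat_lit 5) (nat_lit 8) (nat_lit 5) (nat_lit 9) (nat_lit 4) (nat_lit 212) (nat_lit 199) (nat_lit 189)) (XT.lf (nat_lit 0) (nat_lit 8194971260) (nat_lit 76) (nat_lit 30037443) (nat_lit 152) (nat_lit 4738720148) (nat_lit 7) (nat_lit 5) (nat_lit 8) (nat_lit 5) (nat_lit 9) (nat_lit 4) (nat_lit 213) (nat_lit 199) (nat_lit 188))) (XT.nd (nat_lit 78) (nat_lit 0) (nat_lit 0) (XT.lf (nat_lit 0) (nat_lit 488852441) (nat_lit 76) (nat_lit 11180026428) (nat_lit 76) (nat_lit 2634232604) (nat_lit 6) (nat_lit 4) (nat_lit 7) (nat_lit 5) (nat_lit 7) (nat_lit 4) (nat_lit 214) (nat_lit 199) (nat_lit 187)) (XT.lf (nat_lit 0) (nat_lit 6826168962) (nat_lit 76) (nat_lit 8902847215) (nat_lit 76) (nat_lit 100822431) (nat_lit 6) (nat_lit 4) (nat_lit 7) (nat_lit 5) (nat_lit 7) (nat_lit 4) (nat_lit 215) (nat_lit 199) (nat_lit 186))))) (XT.nd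 (nat_lit 312) (nat_lit 76) (nat_lit 0) (XT.nd (nat_lit 156) (nat_lit 0) (nat_lit 0) (XT.nd (nat_lit 78) (nat_lit 76) (nat_lit 0) (XT.lf (nat_lit 0) (nat_lit 2423585396) (nat_lit 152) (nat_lit 3814125712) (nat_lit 76) (nat_lit 11352237795) (nat_lit 5) (nat_lit 5) (nat_lit 7) (nat_lit 5) (nat_lit 6) (nat_lit 4) (nat_lit 216) (nat_lit 199) (nat_lit 185)) (XT.lf (nat_lit 0) (nat_lit 2143179756) (nat_lit 76) (nat_lit 3141360470) (nat_lit 152) (nat_lit 14334498158) (nat_lit 4) (nat_lit 5) (nat_lit 5) (nat_lit 5) (nat_lit 6) (nat_lit 4) (nat_lit 217) (nat_lit 199) (nat_lit 184))) (XT.nd (nat_lit 78) (nat_lit 0) (nat_lit 0) (XT.lf (nat_lit 0) (nat_lit 8685176069) (nat_lit 152) (nat_lit 12729012195) (nat_lit 0) (nat_lit 522517158) (nat_lit 4) (nat_lit 5) (nat_lit 6) (nat_lit 4) (nat_lit 4) (nat_lit 4) (nat_lit 218) (nat_lit 199) (nat_lit 183)) (XT.lf (nat_lit 0) (nat_lit 12644887852) (nat_lit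 152) (nat_lit 7595641840) (nat_lit 0) (nat_lit 4354836870) (nat_lit 4) (nat_lit 5) (nat_lit 6) (nat_lit 4) (nat_lit 4) (nat_lit 4) (nat_lit 219) (nat_lit 199) (nat_lit 182)))) (XT.nd (nat_lit 156) (nat_lit 0) (nat_lit 0) (XT.nd (nat_lit 78) (nat_lit 76) (nat_lit 0) (XT.lf (nat_lit 0) (nat_lit 17111071161) (nat_lit 152) (nat_lit 1845235018) (nat_lit 0) (nat_lit 8710244464) (nat_lit 4) (nat_lit 5) (nat_lit 6) (nat_lit 4) (nat_lit 4) (nat_lit 4) (nat_lit 220) (nat_lit 199) (nat_lit 181)) (XT.lf (nat_lit 0) (nat_lit 5087654405) (nat_lit 76) (nat_lit 17294122357) (nat_lit 76) (nat_lit 8796968951) (nat_lit 3) (nat_lit 4) (nat_lit 4) (nat_lit 5) (nat_lit 4) (nat_lit 4) (nat_lit 221) (nat_lit 199) (nat_lit 180))) (XT.nd (nat_lit 78) (nat_lit 0) (nat_lit 0) (XT.lf (nat_lit 0) (nat_lit 13140886108) (nat_lit 76) (nat_lit 15327248577) (nat_lit 76) (nat_lit 6746332816) (nat_lit 3) (nat_lit 4)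 (nat_lit 4) (nat_lit 5) (nat_lit 4) (nat_lit 4) (nat_lit 222) (nat_lit 199) (nat_lit 179)) (XT.lf (nat_lit 0) (nat_lit 22291693534) (nat_lit 76) (nat_lit 13113657993) (nat_lit 76) (nat_lit 4459905402) (nat_lit 3) (nat_lit 4) (nat_lit 4) (nat_lit 5) (nat_lit 4) (nat_lit 4) (nat_lit 223) (nat_lit 199) (nat_lit 178))))))))
noncomputable def xc24 : XT := (XT.nd (nat_lit 2262) (nat_lit 0) (nat_lit 0) (XT.nd (nat_lit 1092) (nat_lit 0) (nat_lit 0) (XT.nd (nat_lit 546) (nat_lit 0) (nat_lit 0) (XT.nd (nat_lit 234) (nat_lit 76) (nat_lit 0) (XT.nd (nat_lit 78) (nat_lit 76) (nat_lit 0) (XT.lf (nat_lit 0) (nat_lit 32719114219) (nat_lit 76) (nat_lit 10610041226) (nat_lit 76) (nat_lit 1892952260) (nat_lit 3) (nat_lit 4) (nat_lit 4) (nat_lit 5) (nat_lit 4) (nat_lit 4) (nat_lit 224) (nat_lit 199) (nat_lit 177)) (XT.nd (nat_lit 78) (nat_lit 0) (nat_lit 0) (XT.lf (nat_lit 0) (nat_lit 915299848) (nat_lit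 152) (nat_lit 6804269400) (nat_lit 76) (nat_lit 43664017847) (nat_lit 2) (nat_lit 5) (nat_lit 4) (nat_lit 5) (nat_lit 3) (nat_lit 4) (nat_lit 225) (nat_lit 199) (nat_lit 176)) (XT.lf (nat_lit 0) (nat_lit 3907978302) (nat_lit 152) (nat_lit 417902122) (nat_lit 76) (nat_lit 54136564197) (nat_lit 2) (nat_lit 5) (nat_lit 4) (nat_lit 5) (nat_lit 3) (nat_lit 4) (nat_lit 226) (nat_lit 199) (nat_lit 175)))) (XT.nd (nat_lit 156) (nat_lit 0) (nat_lit 0) (XT.nd (nat_lit 78) (nat_lit 0) (nat_lit 0) (XT.lf (nat_lit 0) (nat_lit 7529796699) (nat_lit 76) (nat_lit 94155331) (nat_lit 152) (nat_lit 58938216183) (nat_lit 1) (nat_lit 5) (nat_lit 2) (nat_lit 5) (nat_lit 3) (nat_lit 4) (nat_lit 227) (nat_lit 199) (nat_lit 174)) (XT.lf (nat_lit 0) (nat_lit 12081459276) (nat_lit 152) (nat_lit 59423797616) (nat_lit 0) (nat_lit 4344143671) (nat_lit 1) (nat_lit 5) (nat_lit 3) (nat_lit 4) (nat_lit 1) (nat_lit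 4) (nat_lit 228) (nat_lit 199) (nat_lit 173))) (XT.nd (nat_lit 78) (nat_lit 0) (nat_lit 0) (XT.lf (nat_lit 0) (nat_lit 17180459146) (nat_lit 152) (nat_lit 59937715713) (nat_lit 0) (nat_lit 9415761479) (nat_lit 1) (nat_lit 5) (nat_lit 3) (nat_lit 4) (nat_lit 1) (nat_lit 4) (nat_lit 229) (nat_lit 199) (nat_lit 172)) (XT.lf (nat_lit 0) (nat_lit 23016815911) (nat_lit 152) (nat_lit 60580281954) (nat_lit 0) (nat_lit 15228307755) (nat_lit 1) (nat_lit 5) (nat_lit 3) (nat_lit 4) (nat_lit 1) (nat_lit 4) (nat_lit 230) (nat_lit 199) (nat_lit 171))))) (XT.nd (nat_lit 234) (nat_lit 0) (nat_lit 0) (XT.nd (nat_lit 78) (nat_lit 0) (nat_lit 0) (XT.lf (nat_lit 0) (nat_lit 29704719159) (nat_lit 152) (nat_lit 61364068288) (nat_lit 0) (nat_lit 21895506230) (nat_lit 1) (nat_lit 5) (nat_lit 3) (nat_lit 4) (nat_lit 1) (nat_lit 4) (nat_lit 231) (nat_lit 199) (nat_lit 170)) (XT.nd (nat_lit 78) (nat_lit 0) (nat_lit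 0) (XT.lf (nat_lit 0) (nat_lit 37375019172) (nat_lit 152) (nat_lit 62304409664) (nat_lit 0) (nat_lit 29547802092) (nat_lit 1) (nat_lit 5) (nat_lit 3) (nat_lit 4) (nat_lit 1) (nat_lit 4) (nat_lit 232) (nat_lit 199) (nat_lit 169)) (XT.lf (nat_lit 0) (nat_lit 46177787036) (nat_lit 152) (nat_lit 63419704066) (nat_lit 0) (nat_lit 38334914173) (nat_lit 1) (nat_lit 5) (nat_lit 3) (nat_lit 4) (nat_lit 1) (nat_lit 4) (nat_lit 233) (nat_lit 199) (nat_lit 168)))) (XT.nd (nat_lit 156) (nat_lit 0) (nat_lit 0) (XT.nd (nat_lit 78) (nat_lit 0) (nat_lit 0) (XT.lf (nat_lit 0) (nat_lit 56285250819) (nat_lit 152) (nat_lit 64731772471) (nat_lit 0) (nat_lit 48428764231) (nat_lit 1) (nat_lit 5) (nat_lit 3) (nat_lit 4) (nat_lit 1) (nat_lit 4) (nat_lit 234) (nat_lit 199) (nat_lit 167)) (XT.lf (nat_lit 0) (nat_lit 67895165246) (nat_lit 152) (nat_lit 66266285782) (nat_lit 0) (nat_lit 60026840638) (nat_lit 1)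 (nat_lit 5) (nat_lit 3) (nat_lit 4) (nat_lit 1) (nat_lit 4) (nat_lit 235) (nat_lit 199) (nat_lit 166))) (XT.nd (nat_lit 78) (nat_lit 0) (nat_lit 0) (XT.lf (nat_lit 0) (nat_lit 81234680818) (nat_lit 152) (nat_lit 68053267087) (nat_lit 0) (nat_lit 73356062278) (nat_lit 1) (nat_lit 5) (nat_lit 3) (nat_lit 4) (nat_lit 1) (nat_lit 4) (nat_lit 236) (nat_lit 199) (nat_lit 165)) (XT.lf (nat_lit 0) (nat_lit 96564788056) (nat_lit 152) (nat_lit 70127679063) (nat_lit 0) (nat_lit 88677218271) (nat_lit 1) (nat_lit 5) (nat_lit 3) (nat_lit 4) (nat_lit 1) (nat_lit 4) (nat_lit 237) (nat_lit 199) (nat_lit 164)))))) (XT.nd (nat_lit 546) (nat_lit 0) (nat_lit 0) (XT.nd (nat_lit 234) (nat_lit 0) (nat_lit 0) (XT.nd (nat_lit 78) (nat_lit 0) (nat_lit 0) (XT.lf (nat_lit 0) (nat_lit 114185423842) (nat_lit 152) (nat_lit 72530108031) (nat_lit 0) (nat_lit 106290070366) (nat_lit 1) (nat_lit 5) (nat_lit 3) (nat_lit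 4) (nat_lit 1) (nat_lit 4) (nat_lit 238) (nat_lit 199) (nat_lit 163)) (XT.nd (nat_lit 78) (nat_lit 0) (nat_lit 0) (XT.lf (nat_lit 0) (nat_lit 134441339744) (nat_lit 152) (nat_lit 75307558036) (nat_lit 0) (nat_lit 126539217841) (nat_lit 1) (nat_lit 5) (nat_lit 3) (nat_lit 4) (nat_lit 1) (nat_lit 4) (nat_lit 239) (nat_lit 199) (nat_lit 162)) (XT.lf (nat_lit 0) (nat_lit 157728847162) (nat_lit 152) (nat_lit 78514370492) (nat_lit 0) (nat_lit 149820839670) (nat_lit 1) (nat_lit 5) (nat_lit 3) (nat_lit 4) (nat_lit 1) (nat_lit 4) (nat_lit 240) (nat_lit 199) (nat_lit 161)))) (XT.nd (nat_lit 156) (nat_lit 0) (nat_lit 0) (XT.nd (nat_lit 78) (nat_lit 0) (nat_lit 0) (XT.lf (nat_lit 0) (nat_lit 184503571239) (nat_lit 152) (nat_lit 82213287381) (nat_lit 0) (nat_lit 176590445844) (nat_lit 1) (nat_lit 5) (nat_lit 3) (nat_lit 4) (nat_lit 1) (nat_lit 4) (nat_lit 241) (nat_lit 199) (nat_lit 160)) (XT.lf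 (nat_lit 0) (nat_lit 215289365274) (nat_lit 152) (nat_lit 86476678817) (nat_lit 0) (nat_lit 207371789528) (nat_lit 1) (nat_lit 5) (nat_lit 3) (nat_lit 4) (nat_lit 1) (nat_lit 4) (nat_lit 242) (nat_lit 199) (nat_lit 159))) (XT.nd (nat_lit 78) (nat_lit 0) (nat_lit 0) (XT.lf (nat_lit 0) (nat_lit 250688560019) (nat_lit 152) (nat_lit 91387958979) (nat_lit 0) (nat_lit 242767114403) (nat_lit 1) (nat_lit 5) (nat_lit 3) (nat_lit 4) (nat_lit 1) (nat_lit 4) (nat_lit 243) (nat_lit 199) (nat_lit 158)) (XT.lf (nat_lit 0) (nat_lit 291393748414) (nat_lit 152) (nat_lit 97043218131) (nat_lit 0) (nat_lit 283468937694) (nat_lit 1) (nat_lit 5) (nat_lit 3) (nat_lit 4) (nat_lit 1) (nat_lit 4) (nat_lit 244) (nat_lit 199) (nat_lit 157))))) (XT.nd (nat_lit 312) (nat_lit 0) (nat_lit 0) (XT.nd (nat_lit 156) (nat_lit 0) (nat_lit 0) (XT.nd (nat_lit 78) (nat_lit 0) (nat_lit 0) (XT.lf (nat_lit 0) (nat_lit 338201336321)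 (nat_lit 152) (nat_lit 103553102649) (nat_lit 0) (nat_lit 330273599422) (nat_lit 1) (nat_lit 5) (nat_lit 3) (nat_lit 4) (nat_lit 1) (nat_lit 4) (nat_lit 245) (nat_lit 199) (nat_lit 156)) (XT.lf (nat_lit 0) (nat_lit 392027124371) (nat_lit 152) (nat_lit 111044979838) (nat_lit 0) (nat_lit 384096842970) (nat_lit 1) (nat_lit 5) (nat_lit 3) (nat_lit 4) (nat_lit 1) (nat_lit 4) (nat_lit 246) (nat_lit 199) (nat_lit 155))) (XT.nd (nat_lit 78) (nat_lit 0) (nat_lit 0) (XT.lf (nat_lit 0) (nat_lit 453924225809) (nat_lit 152) (nat_lit 119665429904) (nat_lit 0) (nat_lit 445991731797) (nat_lit 1) (nat_lit 5) (nat_lit 3) (nat_lit 4) (nat_lit 1) (nat_lit 4) (nat_lit 247) (nat_lit 199) (nat_lit 154)) (XT.lf (nat_lit 0) (nat_lit 525103670881) (nat_lit 152) (nat_lit 129583113826) (nat_lit 0) (nat_lit 517169252860) (nat_lit 1) (nat_lit 5) (nat_lit 3) (nat_lit 4) (nat_lit 1) (nat_lit 4) (nat_lit 248) (nat_lit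 199) (nat_lit 153)))) (XT.nd (nat_lit 156) (nat_lit 0) (nat_lit 0) (XT.nd (nat_lit 78) (nat_lit 0) (nat_lit 0) (XT.lf (nat_lit 0) (nat_lit 606958100903) (nat_lit 152) (nat_lit 140992073247) (nat_lit 0) (nat_lit 599022009830) (nat_lit 1) (nat_lit 5) (nat_lit 3) (nat_lit 4) (nat_lit 1) (nat_lit 4) (nat_lit 249) (nat_lit 199) (nat_lit 152)) (XT.lf (nat_lit 0) (nat_lit 701089015593) (nat_lit 152) (nat_lit 154115526937) (nat_lit 0) (nat_lit 693151469693) (nat_lit 1) (nat_lit 5) (nat_lit 3) (nat_lit 4) (nat_lit 1) (nat_lit 4) (nat_lit 250) (nat_lit 199) (nat_lit 151))) (XT.nd (nat_lit 78) (nat_lit 0) (nat_lit 0) (XT.lf (nat_lit 0) (nat_lit 809338106760) (nat_lit 152) (nat_lit 169210238122) (nat_lit 0) (nat_lit 801399295793) (nat_lit 1) (nat_lit 5) (nat_lit 3) (nat_lit 4) (nat_lit 1) (nat_lit 4) (nat_lit 251) (nat_lit 199) (nat_lit 150)) (XT.lf (nat_lit 0) (nat_lit 933823291406) (nat_lit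 152) (nat_lit 186571538107) (nat_lit 0) (nat_lit 925883380380) (nat_lit 1) (nat_lit 5) (nat_lit 3) (nat_lit 4) (nat_lit 1) (nat_lit 4) (nat_lit 252) (nat_lit 199) (nat_lit 149))))))) (XT.nd (nat_lit 1170) (nat_lit 0) (nat_lit 0) (XT.nd (nat_lit 546) (nat_lit 0) (nat_lit 0) (XT.nd (nat_lit 234) (nat_lit 0) (nat_lit 0) (XT.nd (nat_lit 78) (nat_lit 0) (nat_lit 0) (XT.lf (nat_lit 0) (nat_lit 1076980149230) (nat_lit 152) (nat_lit 206539104500) (nat_lit 0) (nat_lit 1069039281631) (nat_lit 1) (nat_lit 5) (nat_lit 3) (nat_lit 4) (nat_lit 1) (nat_lit 4) (nat_lit 253) (nat_lit 199) (nat_lit 148)) (XT.nd (nat_lit 78) (nat_lit 0) (nat_lit 0) (XT.lf (nat_lit 0) (nat_lit 1241609575276) (nat_lit 152) (nat_lit 229503607079) (nat_lit 0) (nat_lit 1233667875875) (nat_lit 1) (nat_lit 5) (nat_lit 3) (nat_lit 4) (nat_lit 1) (nat_lit 4) (nat_lit 254) (nat_lit 199) (nat_lit 147)) (XT.lf (nat_lit 0) (nat_lit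 1430932580054) (nat_lit 152) (nat_lit 255914351328) (nat_lit 0) (nat_lit 1422990157346) (nat_lit 1) (nat_lit 5) (nat_lit 3) (nat_lit 4) (nat_lit 1) (nat_lit 4) (nat_lit 255) (nat_lit 199) (nat_lit 146)))) (XT.nd (nat_lit 156) (nat_lit 0) (nat_lit 0) (XT.nd (nat_lit 78) (nat_lit 0) (nat_lit 0) (XT.lf (nat_lit 0) (nat_lit 1648653309310) (nat_lit 152) (nat_lit 286288069201) (nat_lit 0) (nat_lit 1640710257640) (nat_lit 1) (nat_lit 5) (nat_lit 3) (nat_lit 4) (nat_lit 1) (nat_lit 4) (nat_lit 256) (nat_lit 199) (nat_lit 145)) (XT.lf (nat_lit 0) (nat_lit 1899031516441) (nat_lit 152) (nat_lit 321219029090) (nat_lit 0) (nat_lit 1891087917848) (nat_lit 1) (nat_lit 5) (nat_lit 3) (nat_lit 4) (nat_lit 1) (nat_lit 4) (nat_lit 257) (nat_lit 199) (nat_lit 144))) (XT.nd (nat_lit 78) (nat_lit 0) (nat_lit 0) (XT.lf (nat_lit 0) (nat_lit 2186965905501) (nat_lit 152) (nat_lit 361390662821) (nat_lit 0)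 (nat_lit 2179021831322) (nat_lit 1) (nat_lit 5) (nat_lit 3) (nat_lit 4) (nat_lit 1) (nat_lit 4) (nat_lit 258) (nat_lit 199) (nat_lit 143)) (XT.lf (nat_lit 0) (nat_lit 2518089975407) (nat_lit 152) (nat_lit 407588937138) (nat_lit 0) (nat_lit 2510145487675) (nat_lit 1) (nat_lit 5) (nat_lit 3) (nat_lit 4) (nat_lit 1) (nat_lit 4) (nat_lit 259) (nat_lit 199) (nat_lit 142))))) (XT.nd (nat_lit 312) (nat_lit 0) (nat_lit 0) (XT.nd (nat_lit 156) (nat_lit 0) (nat_lit 0) (XT.nd (nat_lit 78) (nat_lit 0) (nat_lit 0) (XT.lf (nat_lit 0) (nat_lit 2898882240568) (nat_lit 152) (nat_lit 460717731324) (nat_lit 0) (nat_lit 2890937393225) (nat_lit 1) (nat_lit 5) (nat_lit 3) (nat_lit 4) (nat_lit 1) (nat_lit 4) (nat_lit 260) (nat_lit 199) (nat_lit 141)) (XT.lf (nat_lit 0) (nat_lit 3336792984434) (nat_lit 152) (nat_lit 521816521784) (nat_lit 0) (nat_lit 3328847824386) (nat_lit 1) (nat_lit 5) (nat_lit 3) (nat_lit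 4) (nat_lit 1) (nat_lit 4) (nat_lit 261) (nat_lit 199) (nat_lit 140))) (XT.nd (nat_lit 78) (nat_lit 0) (nat_lit 0) (XT.lf (nat_lit 0) (nat_lit 3840390025908) (nat_lit 152) (nat_lit 592080719639) (nat_lit 0) (nat_lit 3832444593942) (nat_lit 1) (nat_lit 5) (nat_lit 3) (nat_lit 4) (nat_lit 1) (nat_lit 4) (nat_lit 262) (nat_lit 199) (nat_lit 139)) (XT.lf (nat_lit 0) (nat_lit 4419526350582) (nat_lit 152) (nat_lit 672885059192) (nat_lit 0) (nat_lit 4411580682166) (nat_lit 1) (nat_lit 5) (nat_lit 3) (nat_lit 4) (nat_lit 1) (nat_lit 4) (nat_lit 263) (nat_lit 199) (nat_lit 138)))) (XT.nd (nat_lit 156) (nat_lit 0) (nat_lit 0) (XT.nd (nat_lit 78) (nat_lit 0) (nat_lit 0) (XT.lf (nat_lit 0) (nat_lit 5085532886548) (nat_lit 152) (nat_lit 765810494914) (nat_lit 0) (nat_lit 5077587012523) (nat_lit 1) (nat_lit 5) (nat_lit 3) (nat_lit 4) (nat_lit 1) (nat_lit 4) (nat_lit 264) (nat_lit 199) (nat_lit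 137)) (XT.lf (nat_lit 0) (nat_lit 5851440196467) (nat_lit 152) (nat_lit 872675133156) (nat_lit 0) (nat_lit 5843494143652) (nat_lit 1) (nat_lit 5) (nat_lit 3) (nat_lit 4) (nat_lit 1) (nat_lit 4) (nat_lit 265) (nat_lit 199) (nat_lit 136))) (XT.nd (nat_lit 78) (nat_lit 0) (nat_lit 0) (XT.lf (nat_lit 0) (nat_lit 6732233423358) (nat_lit 152) (nat_lit 995569803796) (nat_lit 0) (nat_lit 6724287215073) (nat_lit 1) (nat_lit 5) (nat_lit 3) (nat_lit 4) (nat_lit 1) (nat_lit 4) (nat_lit 266) (nat_lit 199) (nat_lit 135)) (XT.lf (nat_lit 0) (nat_lit 7745145478183) (nat_lit 152) (nat_lit 1136898967782) (nat_lit 0) (nat_lit 7737199134707) (nat_lit 1) (nat_lit 5) (nat_lit 3) (nat_lit 4) (nat_lit 1) (nat_lit 4) (nat_lit 267) (nat_lit 199) (nat_lit 134)))))) (XT.nd (nat_lit 26130) (nat_lit 0) (nat_lit 760) (XT.nd (nat_lit 1170) (nat_lit 0) (nat_lit 0) (XT.nd (nat_lit 78) (nat_lit 0) (nat_lit 0) (XT.lf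 (nat_lit 0) (nat_lit 8909994205492) (nat_lit 152) (nat_lit 1299427760931) (nat_lit 0) (nat_lit 8902047744459) (nat_lit 1) (nat_lit 5) (nat_lit 3) (nat_lit 4) (nat_lit 1) (nat_lit 4) (nat_lit 268) (nat_lit 199) (nat_lit 133)) (XT.nd (nat_lit 1014) (nat_lit 0) (nat_lit 0) (XT.lf (nat_lit 0) (nat_lit 10249570123864) (nat_lit 152) (nat_lit 1486336094413) (nat_lit 0) (nat_lit 10241623560606) (nat_lit 1) (nat_lit 5) (nat_lit 3) (nat_lit 4) (nat_lit 1) (nat_lit 4) (nat_lit 269) (nat_lit 199) (nat_lit 132)) (XT.lf (nat_lit 0) (nat_lit 63169109318426) (nat_lit 152) (nat_lit 8870117972135) (nat_lit 0) (nat_lit 63161162184438) (nat_lit 1) (nat_lit 5) (nat_lit 3) (nat_lit 4) (nat_lit 1) (nat_lit 4) (nat_lit 282) (nat_lit 199) (nat_lit 119)))) (XT.nd (nat_lit 24804) (nat_lit 0) (nat_lit 1520) (XT.nd (nat_lit 78) (nat_lit 0) (nat_lit 0) (XT.lf (nat_lit 0) (nat_lit 72647551828054) (nat_lit 152)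 (nat_lit 10192631104472) (nat_lit 0) (nat_lit 72639604679618) (nat_lit 1) (nat_lit 5) (nat_lit 3) (nat_lit 4) (nat_lit 1) (nat_lit 4) (nat_lit 283) (nat_lit 199) (nat_lit 118)) (XT.lf (nat_lit 0) (nat_lit 83547760699620) (nat_lit 152) (nat_lit 11713521233864) (nat_lit 0) (nat_lit 83539813538622) (nat_lit 1) (nat_lit 5) (nat_lit 3) (nat_lit 4) (nat_lit 1) (nat_lit 4) (nat_lit 284) (nat_lit 199) (nat_lit 117))) (XT.nd (nat_lit 78) (nat_lit 76) (nat_lit 0) (XT.lf (nat_lit 0) (nat_lit 1073741823) (nat_lit 0) (nat_lit 0) (nat_lit 0) (nat_lit 0) (nat_lit 22) (nat_lit 0) (nat_lit 1) (nat_lit 0) (nat_lit 1) (nat_lit 0) (nat_lit 200) (nat_lit 200) (nat_lit 200)) (XT.lf (nat_lit 0) (nat_lit 2643192233) (nat_lit 76) (nat_lit 3576955471) (nat_lit 0) (nat_lit 245480056) (nat_lit 21) (nat_lit 5) (nat_lit 22) (nat_lit 0) (nat_lit 21) (nat_lit 4) (nat_lit 201) (nat_lit 200) (nat_lit 199))))) (XT.nd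 (nat_lit 312) (nat_lit 456) (nat_lit 0) (XT.nd (nat_lit 156) (nat_lit 152) (nat_lit 0) (XT.nd (nat_lit 78) (nat_lit 152) (nat_lit 0) (XT.lf (nat_lit 0) (nat_lit 5223922327) (nat_lit 76) (nat_lit 607268314) (nat_lit 0) (nat_lit 741243039) (nat_lit 21) (nat_lit 5) (nat_lit 22) (nat_lit 0) (nat_lit 21) (nat_lit 4) (nat_lit 202) (nat_lit 200) (nat_lit 198)) (XT.lf (nat_lit 0) (nat_lit 1056453739) (nat_lit 152) (nat_lit 4024318627) (nat_lit 76) (nat_lit 1659768971) (nat_lit 19) (nat_lit 5) (nat_lit 21) (nat_lit 5) (nat_lit 20) (nat_lit 4) (nat_lit 203) (nat_lit 200) (nat_lit 197))) (XT.nd (nat_lit 78) (nat_lit 152) (nat_lit 0) (XT.lf (nat_lit 0) (nat_lit 3334289944) (nat_lit 152) (nat_lit 703505463) (nat_lit 76) (nat_lit 2946346728) (nat_lit 19) (nat_lit 5) (nat_lit 21) (nat_lit 5) (nat_lit 20) (nat_lit 4) (nat_lit 204) (nat_lit 200) (nat_lit 196)) (XT.lf (nat_lit 0) (nat_lit 3119056143)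 (nat_lit 152) (nat_lit 2630797208) (nat_lit 228) (nat_lit 1551489286) (nat_lit 17) (nat_lit 5) (nat_lit 19) (nat_lit 5) (nat_lit 20) (nat_lit 4) (nat_lit 205) (nat_lit 200) (nat_lit 195)))) (XT.nd (nat_lit 156) (nat_lit 152) (nat_lit 0) (XT.nd (nat_lit 78) (nat_lit 228) (nat_lit 0) (XT.lf (nat_lit 0) (nat_lit 503527508) (nat_lit 228) (nat_lit 401721445) (nat_lit 76) (nat_lit 6802621648) (nat_lit 16) (nat_lit 5) (nat_lit 19) (nat_lit 5) (nat_lit 17) (nat_lit 5) (nat_lit 206) (nat_lit 200) (nat_lit 194)) (XT.lf (nat_lit 0) (nat_lit 2650819289) (nat_lit 304) (nat_lit 4276227586) (nat_lit 76) (nat_lit 1250071392) (nat_lit 13) (nat_lit 5) (nat_lit 17) (nat_lit 5) (nat_lit 14) (nat_lit 4) (nat_lit 207) (nat_lit 200) (nat_lit 193))) (XT.nd (nat_lit 78) (nat_lit 152) (nat_lit 0) (XT.lf (nat_lit 0) (nat_lit 4933380120) (nat_lit 304) (nat_lit 152538163) (nat_lit 76) (nat_lit 3662556236) (nat_lit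 13) (nat_lit 5) (nat_lit 17) (nat_lit 5) (nat_lit 14) (nat_lit 4) (nat_lit 208) (nat_lit 200) (nat_lit 192)) (XT.lf (nat_lit 0) (nat_lit 4762503937) (nat_lit 152) (nat_lit 2773955972) (nat_lit 228) (nat_lit 1875569489) (nat_lit 11) (nat_lit 5) (nat_lit 13) (nat_lit 5) (nat_lit 14) (nat_lit 4) (nat_lit 209) (nat_lit 200) (nat_lit 191))))))))
noncomputable def xc25 : XT := (XT.nd (nat_lit 2262) (nat_lit 0) (nat_lit 0) (XT.nd (nat_lit 1092) (nat_lit 152) (nat_lit 0) (XT.nd (nat_lit 546) (nat_lit 152) (nat_lit 0) (XT.nd (nat_lit 234) (nat_lit 228) (nat_lit 0) (XT.nd (nat_lit 78) (nat_lit 152) (nat_lit 0) (XT.lf (nat_lit 0) (nat_lit 119127642) (nat_lit 228) (nat_lit 20024441) (nat_lit 76) (nat_lit 10066816834) (nat_lit 10) (nat_lit 5) (nat_lit 13) (nat_lit 5) (nat_lit 11) (nat_lit 5) (nat_lit 210) (nat_lit 200) (nat_lit 190)) (XT.nd (nat_lit 78) (nat_lit 0) (nat_lit 0) (XT.lf (nat_lit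 0) (nat_lit 2395776201) (nat_lit 228) (nat_lit 5761198237) (nat_lit 76) (nat_lit 2924526772) (nat_lit 8) (nat_lit 5) (nat_lit 11) (nat_lit 5) (nat_lit 9) (nat_lit 4) (nat_lit 211) (nat_lit 200) (nat_lit 189)) (XT.lf (nat_lit 0) (nat_lit 4849903900) (nat_lit 228) (nat_lit 874518947) (nat_lit 76) (nat_lit 6390381647) (nat_lit 8) (nat_lit 5) (nat_lit 11) (nat_lit 5) (nat_lit 9) (nat_lit 4) (nat_lit 212) (nat_lit 200) (nat_lit 188)))) (XT.nd (nat_lit 156) (nat_lit 152) (nat_lit 0) (XT.nd (nat_lit 78) (nat_lit 0) (nat_lit 0) (XT.lf (nat_lit 0) (nat_lit 4976398750) (nat_lit 76) (nat_lit 2752474052) (nat_lit 152) (nat_lit 5567320788) (nat_lit 7) (nat_lit 5) (nat_lit 8) (nat_lit 5) (nat_lit 9) (nat_lit 4) (nat_lit 213) (nat_lit 200) (nat_lit 187)) (XT.lf (nat_lit 0) (nat_lit 10974244843) (nat_lit 152) (nat_lit 3096067270) (nat_lit 0) (nat_lit 595685382) (nat_lit 7) (nat_lit 5) (nat_lit 9)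 (nat_lit 4) (nat_lit 7) (nat_lit 4) (nat_lit 214) (nat_lit 200) (nat_lit 186))) (XT.nd (nat_lit 78) (nat_lit 76) (nat_lit 0) (XT.lf (nat_lit 0) (nat_lit 2840273295) (nat_lit 76) (nat_lit 11992325062) (nat_lit 76) (nat_lit 1390956071) (nat_lit 6) (nat_lit 4) (nat_lit 7) (nat_lit 5) (nat_lit 7) (nat_lit 4) (nat_lit 215) (nat_lit 200) (nat_lit 185)) (XT.lf (nat_lit 0) (nat_lit 1192244942) (nat_lit 152) (nat_lit 8231789782) (nat_lit 76) (nat_lit 8576477893) (nat_lit 5) (nat_lit 5) (nat_lit 7) (nat_lit 5) (nat_lit 6) (nat_lit 4) (nat_lit 216) (nat_lit 200) (nat_lit 184))))) (XT.nd (nat_lit 234) (nat_lit 76) (nat_lit 0) (XT.nd (nat_lit 78) (nat_lit 76) (nat_lit 0) (XT.lf (nat_lit 0) (nat_lit 3915704460) (nat_lit 152) (nat_lit 2544827834) (nat_lit 76) (nat_lit 13590063777) (nat_lit 5) (nat_lit 5) (nat_lit 7) (nat_lit 5) (nat_lit 6) (nat_lit 4) (nat_lit 217) (nat_lit 200) (nat_lit 183)) (XT.nd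 (nat_lit 78) (nat_lit 0) (nat_lit 0) (XT.lf (nat_lit 0) (nat_lit 4222372693) (nat_lit 76) (nat_lit 2909006841) (nat_lit 152) (nat_lit 15264949146) (nat_lit 4) (nat_lit 5) (nat_lit 5) (nat_lit 5) (nat_lit 6) (nat_lit 4) (nat_lit 218) (nat_lit 200) (nat_lit 182)) (XT.lf (nat_lit 0) (nat_lit 10929944738) (nat_lit 152) (nat_lit 12991278275) (nat_lit 0) (nat_lit 1158218321) (nat_lit 4) (nat_lit 5) (nat_lit 6) (nat_lit 4) (nat_lit 4) (nat_lit 4) (nat_lit 219) (nat_lit 200) (nat_lit 181)))) (XT.nd (nat_lit 156) (nat_lit 76) (nat_lit 0) (XT.nd (nat_lit 78) (nat_lit 0) (nat_lit 0) (XT.lf (nat_lit 0) (nat_lit 15360744734) (nat_lit 152) (nat_lit 7302739639) (nat_lit 0) (nat_lit 5492691609) (nat_lit 4) (nat_lit 5) (nat_lit 6) (nat_lit 4) (nat_lit 4) (nat_lit 4) (nat_lit 220) (nat_lit 200) (nat_lit 180)) (XT.lf (nat_lit 0) (nat_lit 20390013317) (nat_lit 152) (nat_lit 876586813) (nat_lit 0) (nat_lit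 10438197836) (nat_lit 4) (nat_lit 5) (nat_lit 6) (nat_lit 4) (nat_lit 4) (nat_lit 4) (nat_lit 221) (nat_lit 200) (nat_lit 179))) (XT.nd (nat_lit 78) (nat_lit 0) (nat_lit 0) (XT.lf (nat_lit 0) (nat_lit 7039625413) (nat_lit 76) (nat_lit 19368019684) (nat_lit 76) (nat_lit 9343367373) (nat_lit 3) (nat_lit 4) (nat_lit 4) (nat_lit 5) (nat_lit 4) (nat_lit 4) (nat_lit 222) (nat_lit 200) (nat_lit 178)) (XT.lf (nat_lit 0) (nat_lit 16145778022) (nat_lit 76) (nat_lit 17173969753) (nat_lit 76) (nat_lit 7085981068) (nat_lit 3) (nat_lit 4) (nat_lit 4) (nat_lit 5) (nat_lit 4) (nat_lit 4) (nat_lit 223) (nat_lit 200) (nat_lit 177)))))) (XT.nd (nat_lit 546) (nat_lit 0) (nat_lit 0) (XT.nd (nat_lit 234) (nat_lit 76) (nat_lit 0) (XT.nd (nat_lit 78) (nat_lit 76) (nat_lit 0) (XT.lf (nat_lit 0) (nat_lit 26534368432) (nat_lit 76) (nat_lit 14687344857) (nat_lit 76) (nat_lit 4544281064) (nat_lit 3) (nat_lit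 4) (nat_lit 4) (nat_lit 5) (nat_lit 4) (nat_lit 4) (nat_lit 224) (nat_lit 200) (nat_lit 176)) (XT.nd (nat_lit 78) (nat_lit 76) (nat_lit 0) (XT.lf (nat_lit 0) (nat_lit 38408651671) (nat_lit 76) (nat_lit 11859493640) (nat_lit 76) (nat_lit 1668538448) (nat_lit 3) (nat_lit 4) (nat_lit 4) (nat_lit 5) (nat_lit 4) (nat_lit 4) (nat_lit 225) (nat_lit 200) (nat_lit 175)) (XT.lf (nat_lit 0) (nat_lit 1455289805) (nat_lit 152) (nat_lit 7103726805) (nat_lit 76) (nat_lit 50469588901) (nat_lit 2) (nat_lit 5) (nat_lit 4) (nat_lit 5) (nat_lit 3) (nat_lit 4) (nat_lit 226) (nat_lit 200) (nat_lit 174)))) (XT.nd (nat_lit 156) (nat_lit 0) (nat_lit 0) (XT.nd (nat_lit 78) (nat_lit 0) (nat_lit 0) (XT.lf (nat_lit 0) (nat_lit 160848018) (nat_lit 76) (nat_lit 4690156950) (nat_lit 152) (nat_lit 62325442379) (nat_lit 1) (nat_lit 5) (nat_lit 2) (nat_lit 5) (nat_lit 3) (nat_lit 4) (nat_lit 227) (nat_lit 200) (nat_lit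 173)) (XT.lf (nat_lit 0) (nat_lit 9103495983) (nat_lit 152) (nat_lit 67244293639) (nat_lit 0) (nat_lit 146711604) (nat_lit 1) (nat_lit 5) (nat_lit 3) (nat_lit 4) (nat_lit 1) (nat_lit 4) (nat_lit 228) (nat_lit 200) (nat_lit 172))) (XT.nd (nat_lit 78) (nat_lit 0) (nat_lit 0) (XT.lf (nat_lit 0) (nat_lit 14189708372) (nat_lit 152) (nat_lit 67782193331) (nat_lit 0) (nat_lit 5209113503) (nat_lit 1) (nat_lit 5) (nat_lit 3) (nat_lit 4) (nat_lit 1) (nat_lit 4) (nat_lit 229) (nat_lit 200) (nat_lit 171)) (XT.lf (nat_lit 0) (nat_lit 20014945587) (nat_lit 152) (nat_lit 68445613134) (nat_lit 0) (nat_lit 11013645945) (nat_lit 1) (nat_lit 5) (nat_lit 3) (nat_lit 4) (nat_lit 1) (nat_lit 4) (nat_lit 230) (nat_lit 200) (nat_lit 170))))) (XT.nd (nat_lit 312) (nat_lit 0) (nat_lit 0) (XT.nd (nat_lit 156) (nat_lit 0) (nat_lit 0) (XT.nd (nat_lit 78) (nat_lit 0) (nat_lit 0) (XT.lf (nat_lit 0) (nat_lit 26693179662)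 (nat_lit 152) (nat_lit 69247532999) (nat_lit 0) (nat_lit 17673875869) (nat_lit 1) (nat_lit 5) (nat_lit 3) (nat_lit 4) (nat_lit 1) (nat_lit 4) (nat_lit 231) (nat_lit 200) (nat_lit 169)) (XT.lf (nat_lit 0) (nat_lit 34355071698) (nat_lit 152) (nat_lit 70203642663) (nat_lit 0) (nat_lit 25320112122) (nat_lit 1) (nat_lit 5) (nat_lit 3) (nat_lit 4) (nat_lit 1) (nat_lit 4) (nat_lit 232) (nat_lit 200) (nat_lit 168))) (XT.nd (nat_lit 78) (nat_lit 0) (nat_lit 0) (XT.lf (nat_lit 0) (nat_lit 43150528278) (nat_lit 152) (nat_lit 71332648619) (nat_lit 0) (nat_lit 34101954978) (nat_lit 1) (nat_lit 5) (nat_lit 3) (nat_lit 4) (nat_lit 1) (nat_lit 4) (nat_lit 233) (nat_lit 200) (nat_lit 167)) (XT.lf (nat_lit 0) (nat_lit 53251634422) (nat_lit 152) (nat_lit 72656640115) (nat_lit 0) (nat_lit 44191223101) (nat_lit 1) (nat_lit 5) (nat_lit 3) (nat_lit 4) (nat_lit 1) (nat_lit 4) (nat_lit 234) (nat_lit 200)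 (nat_lit 166)))) (XT.nd (nat_lit 156) (nat_lit 0) (nat_lit 0) (XT.nd (nat_lit 78) (nat_lit 0) (nat_lit 0) (XT.lf (nat_lit 0) (nat_lit 64856020468) (nat_lit 152) (nat_lit 74201521332) (nat_lit 0) (nat_lit 55785315215) (nat_lit 1) (nat_lit 5) (nat_lit 3) (nat_lit 4) (nat_lit 1) (nat_lit 4) (nat_lit 235) (nat_lit 200) (nat_lit 165)) (XT.lf (nat_lit 0) (nat_lit 78190728752) (nat_lit 152) (nat_lit 75997518207) (nat_lit 0) (nat_lit 69111072254) (nat_lit 1) (nat_lit 5) (nat_lit 3) (nat_lit 4) (nat_lit 1) (nat_lit 4) (nat_lit 236) (nat_lit 200) (nat_lit 164))) (XT.nd (nat_lit 78) (nat_lit 0) (nat_lit 0) (XT.lf (nat_lit 0) (nat_lit 93516655740) (nat_lit 152) (nat_lit 78079769809) (nat_lit 0) (nat_lit 84429215551) (nat_lit 1) (nat_lit 5) (nat_lit 3) (nat_lit 4) (nat_lit 1) (nat_lit 4) (nat_lit 237) (nat_lit 200) (nat_lit 163)) (XT.lf (nat_lit 0) (nat_lit 111133656525) (nat_lit 152) (nat_lit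 80489015843) (nat_lit 0) (nat_lit 102039447909) (nat_lit 1) (nat_lit 5) (nat_lit 3) (nat_lit 4) (nat_lit 1) (nat_lit 4) (nat_lit 238) (nat_lit 200) (nat_lit 162))))))) (XT.nd (nat_lit 1170) (nat_lit 0) (nat_lit 0) (XT.nd (nat_lit 546) (nat_lit 0) (nat_lit 0) (XT.nd (nat_lit 234) (nat_lit 0) (nat_lit 0) (XT.nd (nat_lit 78) (nat_lit 0) (nat_lit 0) (XT.lf (nat_lit 0) (nat_lit 131386411557) (nat_lit 152) (nat_lit 83272393732) (nat_lit 0) (nat_lit 122286317353) (nat_lit 1) (nat_lit 5) (nat_lit 3) (nat_lit 4) (nat_lit 1) (nat_lit 4) (nat_lit 239) (nat_lit 200) (nat_lit 161)) (XT.nd (nat_lit 78) (nat_lit 0) (nat_lit 0) (XT.lf (nat_lit 0) (nat_lit 154671170392) (nat_lit 152) (nat_lit 86484360869) (nat_lit 0) (nat_lit 145565958284) (nat_lit 1) (nat_lit 5) (nat_lit 3) (nat_lit 4) (nat_lit 1) (nat_lit 4) (nat_lit 240) (nat_lit 200) (nat_lit 160)) (XT.lf (nat_lit 0) (nat_lit 181443504398) (nat_lit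 152) (nat_lit 90187760090) (nat_lit 0) (nat_lit 172333841939) (nat_lit 1) (nat_lit 5) (nat_lit 3) (nat_lit 4) (nat_lit 1) (nat_lit 4) (nat_lit 241) (nat_lit 200) (nat_lit 159)))) (XT.nd (nat_lit 156) (nat_lit 0) (nat_lit 0) (XT.nd (nat_lit 78) (nat_lit 0) (nat_lit 0) (XT.lf (nat_lit 0) (nat_lit 212227220109) (nat_lit 152) (nat_lit 94455049205) (nat_lit 0) (nat_lit 203113687781) (nat_lit 1) (nat_lit 5) (nat_lit 3) (nat_lit 4) (nat_lit 1) (nat_lit 4) (nat_lit 242) (nat_lit 200) (nat_lit 158)) (XT.lf (nat_lit 0) (nat_lit 247624607616) (nat_lit 152) (nat_lit 99369718653) (nat_lit 0) (nat_lit 238507710183) (nat_lit 1) (nat_lit 5) (nat_lit 3) (nat_lit 4) (nat_lit 1) (nat_lit 4) (nat_lit 243) (nat_lit 200) (nat_lit 157))) (XT.nd (nat_lit 78) (nat_lit 0) (nat_lit 0) (XT.lf (nat_lit 0) (nat_lit 288328224501) (nat_lit 152) (nat_lit 105027925011) (nat_lit 0) (nat_lit 279208400890) (nat_lit 1)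 (nat_lit 5) (nat_lit 3) (nat_lit 4) (nat_lit 1) (nat_lit 4) (nat_lit 244) (nat_lit 200) (nat_lit 156)) (XT.lf (nat_lit 0) (nat_lit 335134445876) (nat_lit 152) (nat_lit 111540372317) (nat_lit 0) (nat_lit 326012077763) (nat_lit 1) (nat_lit 5) (nat_lit 3) (nat_lit 4) (nat_lit 1) (nat_lit 4) (nat_lit 245) (nat_lit 200) (nat_lit 155))))) (XT.nd (nat_lit 312) (nat_lit 0) (nat_lit 0) (XT.nd (nat_lit 156) (nat_lit 0) (nat_lit 0) (XT.nd (nat_lit 78) (nat_lit 0) (nat_lit 0) (XT.lf (nat_lit 0) (nat_lit 388959045638) (nat_lit 152) (nat_lit 119034478017) (nat_lit 0) (nat_lit 379834464914) (nat_lit 1) (nat_lit 5) (nat_lit 3) (nat_lit 4) (nat_lit 1) (nat_lit 4) (nat_lit 246) (nat_lit 200) (nat_lit 154)) (XT.lf (nat_lit 0) (nat_lit 450855113782) (nat_lit 152) (nat_lit 127656865918) (nat_lit 0) (nat_lit 441728609049) (nat_lit 1) (nat_lit 5) (nat_lit 3) (nat_lit 4) (nat_lit 1) (nat_lit 4) (nat_lit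 247) (nat_lit 200) (nat_lit 153))) (XT.nd (nat_lit 78) (nat_lit 0) (nat_lit 0) (XT.lf (nat_lit 0) (nat_lit 522033660338) (nat_lit 152) (nat_lit 137576234915) (nat_lit 0) (nat_lit 512905482553) (nat_lit 1) (nat_lit 5) (nat_lit 3) (nat_lit 4) (nat_lit 1) (nat_lit 4) (nat_lit 248) (nat_lit 200) (nat_lit 152)) (XT.lf (nat_lit 0) (nat_lit 603887309041) (nat_lit 152) (nat_lit 148986659618) (nat_lit 0) (nat_lit 594757676428) (nat_lit 1) (nat_lit 5) (nat_lit 3) (nat_lit 4) (nat_lit 1) (nat_lit 4) (nat_lit 249) (nat_lit 200) (nat_lit 151)))) (XT.nd (nat_lit 156) (nat_lit 0) (nat_lit 0) (XT.nd (nat_lit 78) (nat_lit 0) (nat_lit 0) (XT.lf (nat_lit 0) (nat_lit 698017544324) (nat_lit 152) (nat_lit 162111387467) (nat_lit 0) (nat_lit 688886646644) (nat_lit 1) (nat_lit 5) (nat_lit 3) (nat_lit 4) (nat_lit 1) (nat_lit 4) (nat_lit 250) (nat_lit 200) (nat_lit 150)) (XT.lf (nat_lit 0) (nat_lit 806266044702)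 (nat_lit 152) (nat_lit 177207206616) (nat_lit 0) (nat_lit 797134046963) (nat_lit 1) (nat_lit 5) (nat_lit 3) (nat_lit 4) (nat_lit 1) (nat_lit 4) (nat_lit 251) (nat_lit 200) (nat_lit 149))) (XT.nd (nat_lit 78) (nat_lit 0) (nat_lit 0) (XT.lf (nat_lit 0) (nat_lit 930750715618) (nat_lit 152) (nat_lit 194569470047) (nat_lit 0) (nat_lit 921617761307) (nat_lit 1) (nat_lit 5) (nat_lit 3) (nat_lit 4) (nat_lit 1) (nat_lit 4) (nat_lit 252) (nat_lit 200) (nat_lit 148)) (XT.lf (nat_lit 0) (nat_lit 1073907126720) (nat_lit 152) (nat_lit 214537874220) (nat_lit 0) (nat_lit 1064773340606) (nat_lit 1) (nat_lit 5) (nat_lit 3) (nat_lit 4) (nat_lit 1) (nat_lit 4) (nat_lit 253) (nat_lit 200) (nat_lit 147)))))) (XT.nd (nat_lit 546) (nat_lit 0) (nat_lit 0) (XT.nd (nat_lit 234) (nat_lit 0) (nat_lit 0) (XT.nd (nat_lit 78) (nat_lit 0) (nat_lit 0) (XT.lf (nat_lit 0) (nat_lit 1238536164313) (nat_lit 152) (nat_lit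 237503105303) (nat_lit 0) (nat_lit 1229401654893) (nat_lit 1) (nat_lit 5) (nat_lit 3) (nat_lit 4) (nat_lit 1) (nat_lit 4) (nat_lit 254) (nat_lit 200) (nat_lit 146)) (XT.nd (nat_lit 78) (nat_lit 0) (nat_lit 0) (XT.lf (nat_lit 0) (nat_lit 1427858831305) (nat_lit 152) (nat_lit 263914483034) (nat_lit 0) (nat_lit 1418723692923) (nat_lit 1) (nat_lit 5) (nat_lit 3) (nat_lit 4) (nat_lit 1) (nat_lit 4) (nat_lit 255) (nat_lit 200) (nat_lit 145)) (XT.lf (nat_lit 0) (nat_lit 1645579266834) (nat_lit 152) (nat_lit 294288751761) (nat_lit 0) (nat_lit 1636443581528) (nat_lit 1) (nat_lit 5) (nat_lit 3) (nat_lit 4) (nat_lit 1) (nat_lit 4) (nat_lit 256) (nat_lit 200) (nat_lit 144)))) (XT.nd (nat_lit 156) (nat_lit 0) (nat_lit 0) (XT.nd (nat_lit 78) (nat_lit 0) (nat_lit 0) (XT.lf (nat_lit 0) (nat_lit 1895957218551) (nat_lit 152) (nat_lit 329220190654) (nat_lit 0) (nat_lit 1886821057660) (nat_lit 1) (nat_lit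 5) (nat_lit 3) (nat_lit 4) (nat_lit 1) (nat_lit 4) (nat_lit 257) (nat_lit 200) (nat_lit 143)) (XT.lf (nat_lit 0) (nat_lit 2183891385512) (nat_lit 152) (nat_lit 369392240909) (nat_lit 0) (nat_lit 2174754811067) (nat_lit 1) (nat_lit 5) (nat_lit 3) (nat_lit 4) (nat_lit 1) (nat_lit 4) (nat_lit 258) (nat_lit 200) (nat_lit 142))) (XT.nd (nat_lit 78) (nat_lit 0) (nat_lit 0) (XT.lf (nat_lit 0) (nat_lit 2515015262287) (nat_lit 152) (nat_lit 415590877422) (nat_lit 0) (nat_lit 2505878328232) (nat_lit 1) (nat_lit 5) (nat_lit 3) (nat_lit 4) (nat_lit 1) (nat_lit 4) (nat_lit 259) (nat_lit 200) (nat_lit 141)) (XT.lf (nat_lit 0) (nat_lit 2895807359509) (nat_lit 152) (nat_lit 468719986559) (nat_lit 0) (nat_lit 2886670112749) (nat_lit 1) (nat_lit 5) (nat_lit 3) (nat_lit 4) (nat_lit 1) (nat_lit 4) (nat_lit 260) (nat_lit 200) (nat_lit 140))))) (XT.nd (nat_lit 312) (nat_lit 0) (nat_lit 0) (XT.nd (nat_lit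 156) (nat_lit 0) (nat_lit 0) (XT.nd (nat_lit 78) (nat_lit 0) (nat_lit 0) (XT.lf (nat_lit 0) (nat_lit 3333717957342) (nat_lit 152) (nat_lit 529819050892) (nat_lit 0) (nat_lit 3324580438663) (nat_lit 1) (nat_lit 5) (nat_lit 3) (nat_lit 4) (nat_lit 1) (nat_lit 4) (nat_lit 261) (nat_lit 200) (nat_lit 139)) (XT.lf (nat_lit 0) (nat_lit 3837314871829) (nat_lit 152) (nat_lit 600083486896) (nat_lit 0) (nat_lit 3828177116700) (nat_lit 1) (nat_lit 5) (nat_lit 3) (nat_lit 4) (nat_lit 1) (nat_lit 4) (nat_lit 262) (nat_lit 200) (nat_lit 138))) (XT.nd (nat_lit 78) (nat_lit 0) (nat_lit 0) (XT.lf (nat_lit 0) (nat_lit 4416451086080) (nat_lit 152) (nat_lit 680888033535) (nat_lit 0) (nat_lit 4407313125343) (nat_lit 1) (nat_lit 5) (nat_lit 3) (nat_lit 4) (nat_lit 1) (nat_lit 4) (nat_lit 263) (nat_lit 200) (nat_lit 137)) (XT.lf (nat_lit 0) (nat_lit 5082457526027) (nat_lit 152) (nat_lit 773813649332) (nat_lit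 0) (nat_lit 5073319386499) (nat_lit 1) (nat_lit 5) (nat_lit 3) (nat_lit 4) (nat_lit 1) (nat_lit 4) (nat_lit 264) (nat_lit 200) (nat_lit 136)))) (XT.nd (nat_lit 156) (nat_lit 0) (nat_lit 0) (XT.nd (nat_lit 78) (nat_lit 0) (nat_lit 0) (XT.lf (nat_lit 0) (nat_lit 5848364752450) (nat_lit 152) (nat_lit 880678444161) (nat_lit 0) (nat_lit 5839226457452) (nat_lit 1) (nat_lit 5) (nat_lit 3) (nat_lit 4) (nat_lit 1) (nat_lit 4) (nat_lit 265) (nat_lit 200) (nat_lit 135)) (XT.lf (nat_lit 0) (nat_lit 6729157906736) (nat_lit 152) (nat_lit 1003573250964) (nat_lit 0) (nat_lit 6720019476548) (nat_lit 1) (nat_lit 5) (nat_lit 3) (nat_lit 4) (nat_lit 1) (nat_lit 4) (nat_lit 266) (nat_lit 200) (nat_lit 134))) (XT.nd (nat_lit 78) (nat_lit 0) (nat_lit 0) (XT.lf (nat_lit 0) (nat_lit 7742069898427) (nat_lit 152) (nat_lit 1144902533352) (nat_lit 0) (nat_lit 7732931350681) (nat_lit 1) (nat_lit 5) (nat_lit 3)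 (nat_lit 4) (nat_lit 1) (nat_lit 4) (nat_lit 267) (nat_lit 200) (nat_lit 133)) (XT.lf (nat_lit 0) (nat_lit 8906918570836) (nat_lit 152) (nat_lit 1307431429460) (nat_lit 0) (nat_lit 8897779920866) (nat_lit 1) (nat_lit 5) (nat_lit 3) (nat_lit 4) (nat_lit 1) (nat_lit 4) (nat_lit 268) (nat_lit 200) (nat_lit 132))))))))
noncomputable def xc26 : XT := (XT.nd (nat_lit 27924) (nat_lit 0) (nat_lit 0) (XT.nd (nat_lit 26754) (nat_lit 0) (nat_lit 152) (XT.nd (nat_lit 26208) (nat_lit 0) (nat_lit 684) (XT.nd (nat_lit 1092) (nat_lit 0) (nat_lit 0) (XT.nd (nat_lit 936) (nat_lit 0) (nat_lit 0) (XT.lf (nat_lit 0) (nat_lit 10246494441469) (nat_lit 152) (nat_lit 1494339852471) (nat_lit 0) (nat_lit 10237355702609) (nat_lit 1) (nat_lit 5) (nat_lit 3) (nat_lit 4) (nat_lit 1) (nat_lit 4) (nat_lit 269) (nat_lit 200) (nat_lit 131)) (XT.nd (nat_lit 78) (nat_lit 0) (nat_lit 0) (XT.lf (nat_lit 0) (nat_lit 54923909441336)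 (nat_lit 152) (nat_lit 7728110823277) (nat_lit 0) (nat_lit 54914770220635) (nat_lit 1) (nat_lit 5) (nat_lit 3) (nat_lit 4) (nat_lit 1) (nat_lit 4) (nat_lit 281) (nat_lit 200) (nat_lit 119)) (XT.lf (nat_lit 0) (nat_lit 63166033369499) (nat_lit 152) (nat_lit 8878122230048) (nat_lit 0) (nat_lit 63156894134351) (nat_lit 1) (nat_lit 5) (nat_lit 3) (nat_lit 4) (nat_lit 1) (nat_lit 4) (nat_lit 282) (nat_lit 200) (nat_lit 118)))) (XT.nd (nat_lit 24960) (nat_lit 0) (nat_lit 1292) (XT.nd (nat_lit 24882) (nat_lit 0) (nat_lit 1520) (XT.lf (nat_lit 0) (nat_lit 72644475872380) (nat_lit 152) (nat_lit 10200635375038) (nat_lit 0) (nat_lit 72635336624669) (nat_lit 1) (nat_lit 5) (nat_lit 3) (nat_lit 4) (nat_lit 1) (nat_lit 4) (nat_lit 283) (nat_lit 200) (nat_lit 117)) (XT.lf (nat_lit 0) (nat_lit 1261523566) (nat_lit 0) (nat_lit 1261523566) (nat_lit 76) (nat_lit 742007488) (nat_lit 21) (nat_lit 5) (nat_lit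 21) (nat_lit 3) (nat_lit 22) (nat_lit 0) (nat_lit 201) (nat_lit 201) (nat_lit 198))) (XT.nd (nat_lit 78) (nat_lit 0) (nat_lit 0) (XT.lf (nat_lit 0) (nat_lit 675436969) (nat_lit 228) (nat_lit 1173319450) (nat_lit 228) (nat_lit 4819939958) (nat_lit 18) (nat_lit 3) (nat_lit 21) (nat_lit 3) (nat_lit 21) (nat_lit 5) (nat_lit 202) (nat_lit 201) (nat_lit 197)) (XT.lf (nat_lit 76) (nat_lit 1968397786) (nat_lit 0) (nat_lit 740953213) (nat_lit 228) (nat_lit 4160186055) (nat_lit 19) (nat_lit 5) (nat_lit 18) (nat_lit 3) (nat_lit 21) (nat_lit 5) (nat_lit 203) (nat_lit 201) (nat_lit 196))))) (XT.nd (nat_lit 234) (nat_lit 456) (nat_lit 0) (XT.nd (nat_lit 78) (nat_lit 228) (nat_lit 0) (XT.lf (nat_lit 0) (nat_lit 4801574893) (nat_lit 152) (nat_lit 1677111546) (nat_lit 76) (nat_lit 665301330) (nat_lit 19) (nat_lit 5) (nat_lit 21) (nat_lit 5) (nat_lit 20) (nat_lit 4) (nat_lit 204) (nat_lit 201) (nat_lit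 195)) (XT.nd (nat_lit 78) (nat_lit 76) (nat_lit 0) (XT.lf (nat_lit 0) (nat_lit 1928629403) (nat_lit 152) (nat_lit 5104493240) (nat_lit 228) (nat_lit 458283690) (nat_lit 17) (nat_lit 5) (nat_lit 19) (nat_lit 5) (nat_lit 20) (nat_lit 4) (nat_lit 205) (nat_lit 201) (nat_lit 194)) (XT.lf (nat_lit 0) (nat_lit 1370017984) (nat_lit 228) (nat_lit 1947904445) (nat_lit 76) (nat_lit 4594608184) (nat_lit 16) (nat_lit 5) (nat_lit 19) (nat_lit 5) (nat_lit 17) (nat_lit 5) (nat_lit 206) (nat_lit 201) (nat_lit 193)))) (XT.nd (nat_lit 156) (nat_lit 228) (nat_lit 0) (XT.nd (nat_lit 78) (nat_lit 0) (nat_lit 0) (XT.lf (nat_lit 0) (nat_lit 2153996698) (nat_lit 228) (nat_lit 1118937313) (nat_lit 304) (nat_lit 5147220505) (nat_lit 13) (nat_lit 5) (nat_lit 16) (nat_lit 5) (nat_lit 17) (nat_lit 5) (nat_lit 207) (nat_lit 201) (nat_lit 192)) (XT.lf (nat_lit 0) (nat_lit 5407268873) (nat_lit 304) (nat_lit 2212968968)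 (nat_lit 76) (nat_lit 1395002364) (nat_lit 13) (nat_lit 5) (nat_lit 17) (nat_lit 5) (nat_lit 14) (nat_lit 4) (nat_lit 208) (nat_lit 201) (nat_lit 191))) (XT.nd (nat_lit 78) (nat_lit 76) (nat_lit 0) (XT.lf (nat_lit 0) (nat_lit 2389190077) (nat_lit 152) (nat_lit 5434281971) (nat_lit 228) (nat_lit 1884655001) (nat_lit 11) (nat_lit 5) (nat_lit 13) (nat_lit 5) (nat_lit 14) (nat_lit 4) (nat_lit 209) (nat_lit 201) (nat_lit 190)) (XT.lf (nat_lit 0) (nat_lit 24899296) (nat_lit 228) (nat_lit 2795419231) (nat_lit 76) (nat_lit 7695680569) (nat_lit 10) (nat_lit 5) (nat_lit 13) (nat_lit 5) (nat_lit 11) (nat_lit 5) (nat_lit 210) (nat_lit 201) (nat_lit 189)))))) (XT.nd (nat_lit 546) (nat_lit 152) (nat_lit 0) (XT.nd (nat_lit 234) (nat_lit 152) (nat_lit 0) (XT.nd (nat_lit 78) (nat_lit 76) (nat_lit 0) (XT.lf (nat_lit 0) (nat_lit 1978485274) (nat_lit 228) (nat_lit 9133036104) (nat_lit 76) (nat_lit 329324480)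 (nat_lit 8) (nat_lit 5) (nat_lit 11) (nat_lit 5) (nat_lit 9) (nat_lit 4) (nat_lit 211) (nat_lit 201) (nat_lit 188)) (XT.nd (nat_lit 78) (nat_lit 76) (nat_lit 0) (XT.lf (nat_lit 0) (nat_lit 4363152502) (nat_lit 228) (nat_lit 4344867006) (nat_lit 76) (nat_lit 3777292251) (nat_lit 8) (nat_lit 5) (nat_lit 11) (nat_lit 5) (nat_lit 9) (nat_lit 4) (nat_lit 212) (nat_lit 201) (nat_lit 187)) (XT.lf (nat_lit 0) (nat_lit 1072870583) (nat_lit 76) (nat_lit 5947213637) (nat_lit 152) (nat_lit 6680568779) (nat_lit 7) (nat_lit 5) (nat_lit 8) (nat_lit 5) (nat_lit 9) (nat_lit 4) (nat_lit 213) (nat_lit 201) (nat_lit 186)))) (XT.nd (nat_lit 156) (nat_lit 152) (nat_lit 0) (XT.nd (nat_lit 78) (nat_lit 0) (nat_lit 0) (XT.lf (nat_lit 0) (nat_lit 7615772804) (nat_lit 76) (nat_lit 2566698942) (nat_lit 152) (nat_lit 4900995064) (nat_lit 7) (nat_lit 5) (nat_lit 8) (nat_lit 5) (nat_lit 9) (nat_lit 4) (nat_lit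 214) (nat_lit 201) (nat_lit 185)) (XT.lf (nat_lit 0) (nat_lit 13767387384) (nat_lit 152) (nat_lit 1755884841) (nat_lit 0) (nat_lit 1159256096) (nat_lit 7) (nat_lit 5) (nat_lit 9) (nat_lit 4) (nat_lit 7) (nat_lit 4) (nat_lit 215) (nat_lit 201) (nat_lit 184))) (XT.nd (nat_lit 78) (nat_lit 76) (nat_lit 0) (XT.lf (nat_lit 0) (nat_lit 4988879876) (nat_lit 76) (nat_lit 13137332363) (nat_lit 76) (nat_lit 360725059) (nat_lit 6) (nat_lit 4) (nat_lit 7) (nat_lit 5) (nat_lit 7) (nat_lit 4) (nat_lit 216) (nat_lit 201) (nat_lit 183)) (XT.lf (nat_lit 0) (nat_lit 2352456688) (nat_lit 152) (nat_lit 7865326306) (nat_lit 76) (nat_lit 10328158544) (nat_lit 5) (nat_lit 5) (nat_lit 7) (nat_lit 5) (nat_lit 6) (nat_lit 4) (nat_lit 217) (nat_lit 201) (nat_lit 182))))) (XT.nd (nat_lit 312) (nat_lit 76) (nat_lit 0) (XT.nd (nat_lit 156) (nat_lit 0) (nat_lit 0) (XT.nd (nat_lit 78) (nat_lit 76) (nat_lit 0) (XT.lf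 (nat_lit 0) (nat_lit 5356429697) (nat_lit 152) (nat_lit 1534176408) (nat_lit 76) (nat_lit 16033102880) (nat_lit 5) (nat_lit 5) (nat_lit 7) (nat_lit 5) (nat_lit 6) (nat_lit 4) (nat_lit 218) (nat_lit 201) (nat_lit 181)) (XT.lf (nat_lit 0) (nat_lit 6184814399) (nat_lit 76) (nat_lit 2813367169) (nat_lit 152) (nat_lit 16632405139) (nat_lit 4) (nat_lit 5) (nat_lit 5) (nat_lit 5) (nat_lit 6) (nat_lit 4) (nat_lit 219) (nat_lit 201) (nat_lit 180))) (XT.nd (nat_lit 78) (nat_lit 0) (nat_lit 0) (XT.lf (nat_lit 0) (nat_lit 13281717930) (nat_lit 152) (nat_lit 13694536558) (nat_lit 0) (nat_lit 1753367772) (nat_lit 4) (nat_lit 5) (nat_lit 6) (nat_lit 4) (nat_lit 4) (nat_lit 4) (nat_lit 220) (nat_lit 201) (nat_lit 179)) (XT.lf (nat_lit 0) (nat_lit 18284231645) (nat_lit 152) (nat_lit 7315164968) (nat_lit 0) (nat_lit 6683044657) (nat_lit 4) (nat_lit 5) (nat_lit 6) (nat_lit 4) (nat_lit 4) (nat_lit 4)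 (nat_lit 221) (nat_lit 201) (nat_lit 178)))) (XT.nd (nat_lit 156) (nat_lit 0) (nat_lit 0) (XT.nd (nat_lit 78) (nat_lit 76) (nat_lit 0) (XT.lf (nat_lit 0) (nat_lit 23987102446) (nat_lit 152) (nat_lit 66348212) (nat_lit 0) (nat_lit 12322579083) (nat_lit 4) (nat_lit 5) (nat_lit 6) (nat_lit 4) (nat_lit 4) (nat_lit 4) (nat_lit 222) (nat_lit 201) (nat_lit 177)) (XT.lf (nat_lit 0) (nat_lit 8994490092) (nat_lit 76) (nat_lit 21879860802) (nat_lit 76) (nat_lit 10160262330) (nat_lit 3) (nat_lit 4) (nat_lit 4) (nat_lit 5) (nat_lit 4) (nat_lit 4) (nat_lit 223) (nat_lit 201) (nat_lit 176))) (XT.nd (nat_lit 78) (nat_lit 0) (nat_lit 0) (XT.lf (nat_lit 0) (nat_lit 19349315045) (nat_lit 76) (nat_lit 19408011447) (nat_lit 76) (nat_lit 7640521577) (nat_lit 3) (nat_lit 4) (nat_lit 4) (nat_lit 5) (nat_lit 4) (nat_lit 4) (nat_lit 224) (nat_lit 201) (nat_lit 175)) (XT.lf (nat_lit 0) (nat_lit 31194237018)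 (nat_lit 76) (nat_lit 16593008526) (nat_lit 76) (nat_lit 4783873962) (nat_lit 3) (nat_lit 4) (nat_lit 4) (nat_lit 5) (nat_lit 4) (nat_lit 4) (nat_lit 225) (nat_lit 201) (nat_lit 174))))))) (XT.nd (nat_lit 1170) (nat_lit 0) (nat_lit 0) (XT.nd (nat_lit 546) (nat_lit 0) (nat_lit 0) (XT.nd (nat_lit 234) (nat_lit 0) (nat_lit 0) (XT.nd (nat_lit 78) (nat_lit 152) (nat_lit 0) (XT.lf (nat_lit 0) (nat_lit 44761004484) (nat_lit 76) (nat_lit 13379775895) (nat_lit 76) (nat_lit 1534428553) (nat_lit 3) (nat_lit 4) (nat_lit 4) (nat_lit 5) (nat_lit 4) (nat_lit 4) (nat_lit 226) (nat_lit 201) (nat_lit 173)) (XT.nd (nat_lit 78) (nat_lit 76) (nat_lit 0) (XT.lf (nat_lit 0) (nat_lit 1978078534) (nat_lit 152) (nat_lit 7623967864) (nat_lit 76) (nat_lit 58233576104) (nat_lit 2) (nat_lit 5) (nat_lit 4) (nat_lit 5) (nat_lit 3) (nat_lit 4) (nat_lit 227) (nat_lit 201) (nat_lit 172)) (XT.lf (nat_lit 0) (nat_lit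 705506002) (nat_lit 76) (nat_lit 5159482266) (nat_lit 152) (nat_lit 71343585387) (nat_lit 1) (nat_lit 5) (nat_lit 2) (nat_lit 5) (nat_lit 3) (nat_lit 4) (nat_lit 228) (nat_lit 201) (nat_lit 171)))) (XT.nd (nat_lit 156) (nat_lit 0) (nat_lit 0) (XT.nd (nat_lit 78) (nat_lit 0) (nat_lit 0) (XT.lf (nat_lit 0) (nat_lit 10726437950) (nat_lit 152) (nat_lit 76848177748) (nat_lit 0) (nat_lit 354238589) (nat_lit 1) (nat_lit 5) (nat_lit 3) (nat_lit 4) (nat_lit 1) (nat_lit 4) (nat_lit 229) (nat_lit 201) (nat_lit 170)) (XT.lf (nat_lit 0) (nat_lit 16542005992) (nat_lit 152) (nat_lit 77529731082) (nat_lit 0) (nat_lit 6151802480) (nat_lit 1) (nat_lit 5) (nat_lit 3) (nat_lit 4) (nat_lit 1) (nat_lit 4) (nat_lit 230) (nat_lit 201) (nat_lit 169))) (XT.nd (nat_lit 78) (nat_lit 0) (nat_lit 0) (XT.lf (nat_lit 0) (nat_lit 23211832090) (nat_lit 152) (nat_lit 78347419235) (nat_lit 0) (nat_lit 12805972795) (nat_lit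 1) (nat_lit 5) (nat_lit 3) (nat_lit 4) (nat_lit 1) (nat_lit 4) (nat_lit 231) (nat_lit 201) (nat_lit 168)) (XT.lf (nat_lit 0) (nat_lit 30866412841) (nat_lit 152) (nat_lit 79317240454) (nat_lit 0) (nat_lit 20446939822) (nat_lit 1) (nat_lit 5) (nat_lit 3) (nat_lit 4) (nat_lit 1) (nat_lit 4) (nat_lit 232) (nat_lit 201) (nat_lit 167))))) (XT.nd (nat_lit 312) (nat_lit 0) (nat_lit 0) (XT.nd (nat_lit 156) (nat_lit 0) (nat_lit 0) (XT.nd (nat_lit 78) (nat_lit 0) (nat_lit 0) (XT.lf (nat_lit 0) (nat_lit 39655511783) (nat_lit 152) (nat_lit 80458169502) (nat_lit 0) (nat_lit 29224200742) (nat_lit 1) (nat_lit 5) (nat_lit 3) (nat_lit 4) (nat_lit 1) (nat_lit 4) (nat_lit 233) (nat_lit 201) (nat_lit 166)) (XT.lf (nat_lit 0) (nat_lit 49751089546) (nat_lit 152) (nat_lit 81792528903) (nat_lit 0) (nat_lit 39309484574) (nat_lit 1) (nat_lit 5) (nat_lit 3) (nat_lit 4) (nat_lit 1) (nat_lit 4) (nat_lit 234) (nat_lit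 201) (nat_lit 165))) (XT.nd (nat_lit 78) (nat_lit 0) (nat_lit 0) (XT.lf (nat_lit 0) (nat_lit 61350668304) (nat_lit 152) (nat_lit 83346425690) (nat_lit 0) (nat_lit 50900112087) (nat_lit 1) (nat_lit 5) (nat_lit 3) (nat_lit 4) (nat_lit 1) (nat_lit 4) (nat_lit 235) (nat_lit 201) (nat_lit 164)) (XT.lf (nat_lit 0) (nat_lit 74681196337) (nat_lit 152) (nat_lit 85150262191) (nat_lit 0) (nat_lit 64222856429) (nat_lit 1) (nat_lit 5) (nat_lit 3) (nat_lit 4) (nat_lit 1) (nat_lit 4) (nat_lit 236) (nat_lit 201) (nat_lit 163)))) (XT.nd (nat_lit 156) (nat_lit 0) (nat_lit 0) (XT.nd (nat_lit 78) (nat_lit 0) (nat_lit 0) (XT.lf (nat_lit 0) (nat_lit 90003488325) (nat_lit 152) (nat_lit 87239330858) (nat_lit 0) (nat_lit 79538379990) (nat_lit 1) (nat_lit 5) (nat_lit 3) (nat_lit 4) (nat_lit 1) (nat_lit 4) (nat_lit 237) (nat_lit 201) (nat_lit 162)) (XT.lf (nat_lit 0) (nat_lit 107617328240) (nat_lit 152) (nat_lit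 89654504776) (nat_lit 0) (nat_lit 97146334316) (nat_lit 1) (nat_lit 5) (nat_lit 3) (nat_lit 4) (nat_lit 1) (nat_lit 4) (nat_lit 238) (nat_lit 201) (nat_lit 161))) (XT.nd (nat_lit 78) (nat_lit 0) (nat_lit 0) (XT.lf (nat_lit 0) (nat_lit 127867334690) (nat_lit 152) (nat_lit 92443037346) (nat_lit 0) (nat_lit 117391222863) (nat_lit 1) (nat_lit 5) (nat_lit 3) (nat_lit 4) (nat_lit 1) (nat_lit 4) (nat_lit 239) (nat_lit 201) (nat_lit 160)) (XT.lf (nat_lit 0) (nat_lit 151149703453) (nat_lit 152) (nat_lit 95659486815) (nat_lit 0) (nat_lit 140669141275) (nat_lit 1) (nat_lit 5) (nat_lit 3) (nat_lit 4) (nat_lit 1) (nat_lit 4) (nat_lit 240) (nat_lit 201) (nat_lit 159)))))) (XT.nd (nat_lit 546) (nat_lit 0) (nat_lit 0) (XT.nd (nat_lit 234) (nat_lit 0) (nat_lit 0) (XT.nd (nat_lit 78) (nat_lit 0) (nat_lit 0) (XT.lf (nat_lit 0) (nat_lit 177919959135) (nat_lit 152) (nat_lit 99366783715) (nat_lit 0) (nat_lit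 167435527087) (nat_lit 1) (nat_lit 5) (nat_lit 3) (nat_lit 4) (nat_lit 1) (nat_lit 4) (nat_lit 241) (nat_lit 201) (nat_lit 158)) (XT.nd (nat_lit 78) (nat_lit 0) (nat_lit 0) (XT.lf (nat_lit 0) (nat_lit 208701867609) (nat_lit 152) (nat_lit 103637462117) (nat_lit 0) (nat_lit 198214070457) (nat_lit 1) (nat_lit 5) (nat_lit 3) (nat_lit 4) (nat_lit 1) (nat_lit 4) (nat_lit 242) (nat_lit 201) (nat_lit 157)) (XT.lf (nat_lit 0) (nat_lit 244097683605) (nat_lit 152) (nat_lit 108555078771) (nat_lit 0) (nat_lit 233606960275) (nat_lit 1) (nat_lit 5) (nat_lit 3) (nat_lit 4) (nat_lit 1) (nat_lit 4) (nat_lit 243) (nat_lit 201) (nat_lit 156)))) (XT.nd (nat_lit 156) (nat_lit 0) (nat_lit 0) (XT.nd (nat_lit 78) (nat_lit 0) (nat_lit 0) (XT.lf (nat_lit 0) (nat_lit 284799933959) (nat_lit 152) (nat_lit 114215847917) (nat_lit 0) (nat_lit 274306666126) (nat_lit 1) (nat_lit 5) (nat_lit 3) (nat_lit 4) (nat_lit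 1) (nat_lit 4) (nat_lit 244) (nat_lit 201) (nat_lit 155)) (XT.lf (nat_lit 0) (nat_lit 331604967046) (nat_lit 152) (nat_lit 120730523734) (nat_lit 0) (nat_lit 321109486602) (nat_lit 1) (nat_lit 5) (nat_lit 3) (nat_lit 4) (nat_lit 1) (nat_lit 4) (nat_lit 245) (nat_lit 201) (nat_lit 154))) (XT.nd (nat_lit 78) (nat_lit 0) (nat_lit 0) (XT.lf (nat_lit 0) (nat_lit 385428533514) (nat_lit 152) (nat_lit 128226567269) (nat_lit 0) (nat_lit 374931129061) (nat_lit 1) (nat_lit 5) (nat_lit 3) (nat_lit 4) (nat_lit 1) (nat_lit 4) (nat_lit 246) (nat_lit 201) (nat_lit 153)) (XT.lf (nat_lit 0) (nat_lit 447323703141) (nat_lit 152) (nat_lit 136850640245) (nat_lit 0) (nat_lit 436824625637) (nat_lit 1) (nat_lit 5) (nat_lit 3) (nat_lit 4) (nat_lit 1) (nat_lit 4) (nat_lit 247) (nat_lit 201) (nat_lit 152))))) (XT.nd (nat_lit 312) (nat_lit 0) (nat_lit 0) (XT.nd (nat_lit 156) (nat_lit 0) (nat_lit 0) (XT.nd (nat_lit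 78) (nat_lit 0) (nat_lit 0) (XT.lf (nat_lit 0) (nat_lit 518501468378) (nat_lit 152) (nat_lit 146771474524) (nat_lit 0) (nat_lit 508000936046) (nat_lit 1) (nat_lit 5) (nat_lit 3) (nat_lit 4) (nat_lit 1) (nat_lit 4) (nat_lit 248) (nat_lit 201) (nat_lit 151)) (XT.lf (nat_lit 0) (nat_lit 600354437674) (nat_lit 152) (nat_lit 158183173386) (nat_lit 0) (nat_lit 589852640274) (nat_lit 1) (nat_lit 5) (nat_lit 3) (nat_lit 4) (nat_lit 1) (nat_lit 4) (nat_lit 249) (nat_lit 201) (nat_lit 150))) (XT.nd (nat_lit 78) (nat_lit 0) (nat_lit 0) (XT.lf (nat_lit 0) (nat_lit 694484082167) (nat_lit 152) (nat_lit 171309009199) (nat_lit 0) (nat_lit 683981184709) (nat_lit 1) (nat_lit 5) (nat_lit 3) (nat_lit 4) (nat_lit 1) (nat_lit 4) (nat_lit 250) (nat_lit 201) (nat_lit 149)) (XT.lf (nat_lit 0) (nat_lit 802732068816) (nat_lit 152) (nat_lit 186405791794) (nat_lit 0) (nat_lit 792228214785) (nat_lit 1) (nat_lit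 5) (nat_lit 3) (nat_lit 4) (nat_lit 1) (nat_lit 4) (nat_lit 251) (nat_lit 201) (nat_lit 148)))) (XT.nd (nat_lit 156) (nat_lit 0) (nat_lit 0) (XT.nd (nat_lit 78) (nat_lit 0) (nat_lit 0) (XT.lf (nat_lit 0) (nat_lit 927216293010) (nat_lit 152) (nat_lit 203768893005) (nat_lit 0) (nat_lit 916711607177) (nat_lit 1) (nat_lit 5) (nat_lit 3) (nat_lit 4) (nat_lit 1) (nat_lit 4) (nat_lit 252) (nat_lit 201) (nat_lit 147)) (XT.lf (nat_lit 0) (nat_lit 1070372315659) (nat_lit 152) (nat_lit 223738025682) (nat_lit 0) (nat_lit 1059866906519) (nat_lit 1) (nat_lit 5) (nat_lit 3) (nat_lit 4) (nat_lit 1) (nat_lit 4) (nat_lit 253) (nat_lit 201) (nat_lit 146))) (XT.nd (nat_lit 78) (nat_lit 0) (nat_lit 0) (XT.lf (nat_lit 0) (nat_lit 1235001015466) (nat_lit 152) (nat_lit 246703890247) (nat_lit 0) (nat_lit 1224494977364) (nat_lit 1) (nat_lit 5) (nat_lit 3) (nat_lit 4) (nat_lit 1) (nat_lit 4) (nat_lit 254) (nat_lit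 201) (nat_lit 145)) (XT.lf (nat_lit 0) (nat_lit 1424323388731) (nat_lit 152) (nat_lit 273115818832) (nat_lit 0) (nat_lit 1413816803706) (nat_lit 1) (nat_lit 5) (nat_lit 3) (nat_lit 4) (nat_lit 1) (nat_lit 4) (nat_lit 255) (nat_lit 201) (nat_lit 144))))))))
noncomputable def xc27 : XT := (XT.nd (nat_lit 28002) (nat_lit 0) (nat_lit 0) (XT.nd (nat_lit 1872) (nat_lit 0) (nat_lit 0) (XT.nd (nat_lit 546) (nat_lit 0) (nat_lit 0) (XT.nd (nat_lit 234) (nat_lit 0) (nat_lit 0) (XT.nd (nat_lit 78) (nat_lit 0) (nat_lit 0) (XT.lf (nat_lit 0) (nat_lit 1642043568846) (nat_lit 152) (nat_lit 303490566562) (nat_lit 0) (nat_lit 1631536508235) (nat_lit 1) (nat_lit 5) (nat_lit 3) (nat_lit 4) (nat_lit 1) (nat_lit 4) (nat_lit 256) (nat_lit 201) (nat_lit 143)) (XT.nd (nat_lit 78) (nat_lit 0) (nat_lit 0) (XT.lf (nat_lit 0) (nat_lit 1892421298463) (nat_lit 152) (nat_lit 338422421980) (nat_lit 0) (nat_lit 1881913824300)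 (nat_lit 1) (nat_lit 5) (nat_lit 3) (nat_lit 4) (nat_lit 1) (nat_lit 4) (nat_lit 257) (nat_lit 201) (nat_lit 142)) (XT.lf (nat_lit 0) (nat_lit 2180355272294) (nat_lit 152) (nat_lit 378594834430) (nat_lit 0) (nat_lit 2169847438519) (nat_lit 1) (nat_lit 5) (nat_lit 3) (nat_lit 4) (nat_lit 1) (nat_lit 4) (nat_lit 258) (nat_lit 201) (nat_lit 141)))) (XT.nd (nat_lit 156) (nat_lit 0) (nat_lit 0) (XT.nd (nat_lit 78) (nat_lit 0) (nat_lit 0) (XT.lf (nat_lit 0) (nat_lit 2511478981130) (nat_lit 152) (nat_lit 424793785895) (nat_lit 0) (nat_lit 2500970834650) (nat_lit 1) (nat_lit 5) (nat_lit 3) (nat_lit 4) (nat_lit 1) (nat_lit 4) (nat_lit 259) (nat_lit 201) (nat_lit 140)) (XT.lf (nat_lit 0) (nat_lit 2892270932318) (nat_lit 152) (nat_lit 477923168905) (nat_lit 0) (nat_lit 2881762513921) (nat_lit 1) (nat_lit 5) (nat_lit 3) (nat_lit 4) (nat_lit 1) (nat_lit 4) (nat_lit 260) (nat_lit 201) (nat_lit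 139))) (XT.nd (nat_lit 78) (nat_lit 0) (nat_lit 0) (XT.lf (nat_lit 0) (nat_lit 3330181403165) (nat_lit 152) (nat_lit 539022471387) (nat_lit 0) (nat_lit 3319672748317) (nat_lit 1) (nat_lit 5) (nat_lit 3) (nat_lit 4) (nat_lit 1) (nat_lit 4) (nat_lit 261) (nat_lit 201) (nat_lit 138)) (XT.lf (nat_lit 0) (nat_lit 3833778207229) (nat_lit 152) (nat_lit 609287114477) (nat_lit 0) (nat_lit 3823269346772) (nat_lit 1) (nat_lit 5) (nat_lit 3) (nat_lit 4) (nat_lit 1) (nat_lit 4) (nat_lit 262) (nat_lit 201) (nat_lit 137))))) (XT.nd (nat_lit 312) (nat_lit 0) (nat_lit 0) (XT.nd (nat_lit 156) (nat_lit 0) (nat_lit 0) (XT.nd (nat_lit 78) (nat_lit 0) (nat_lit 0) (XT.lf (nat_lit 0) (nat_lit 4412914325461) (nat_lit 152) (nat_lit 690091841191) (nat_lit 0) (nat_lit 4402405286214) (nat_lit 1) (nat_lit 5) (nat_lit 3) (nat_lit 4) (nat_lit 1) (nat_lit 4) (nat_lit 263) (nat_lit 201) (nat_lit 136)) (XT.lf (nat_lit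 0) (nat_lit 5078920681912) (nat_lit 152) (nat_lit 783017613576) (nat_lit 0) (nat_lit 5068411487195) (nat_lit 1) (nat_lit 5) (nat_lit 3) (nat_lit 4) (nat_lit 1) (nat_lit 4) (nat_lit 264) (nat_lit 201) (nat_lit 135))) (XT.nd (nat_lit 78) (nat_lit 0) (nat_lit 0) (XT.lf (nat_lit 0) (nat_lit 5844827835730) (nat_lit 152) (nat_lit 889882544567) (nat_lit 0) (nat_lit 5834318505822) (nat_lit 1) (nat_lit 5) (nat_lit 3) (nat_lit 4) (nat_lit 1) (nat_lit 4) (nat_lit 265) (nat_lit 201) (nat_lit 134)) (XT.lf (nat_lit 0) (nat_lit 6725620926882) (nat_lit 152) (nat_lit 1012777469772) (nat_lit 0) (nat_lit 6715111479417) (nat_lit 1) (nat_lit 5) (nat_lit 3) (nat_lit 4) (nat_lit 1) (nat_lit 4) (nat_lit 266) (nat_lit 201) (nat_lit 133)))) (XT.nd (nat_lit 156) (nat_lit 0) (nat_lit 0) (XT.nd (nat_lit 78) (nat_lit 0) (nat_lit 0) (XT.lf (nat_lit 0) (nat_lit 7738532863673) (nat_lit 152) (nat_lit 1154106855119)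 (nat_lit 0) (nat_lit 7728023313983) (nat_lit 1) (nat_lit 5) (nat_lit 3) (nat_lit 4) (nat_lit 1) (nat_lit 4) (nat_lit 267) (nat_lit 201) (nat_lit 132)) (XT.lf (nat_lit 0) (nat_lit 8903381488344) (nat_lit 152) (nat_lit 1316635840756) (nat_lit 0) (nat_lit 8892871849764) (nat_lit 1) (nat_lit 5) (nat_lit 3) (nat_lit 4) (nat_lit 1) (nat_lit 4) (nat_lit 268) (nat_lit 201) (nat_lit 131))) (XT.nd (nat_lit 468) (nat_lit 0) (nat_lit 0) (XT.lf (nat_lit 0) (nat_lit 10242957317464) (nat_lit 152) (nat_lit 1503544341618) (nat_lit 0) (nat_lit 10232447601589) (nat_lit 1) (nat_lit 5) (nat_lit 3) (nat_lit 4) (nat_lit 1) (nat_lit 4) (nat_lit 269) (nat_lit 201) (nat_lit 130)) (XT.lf (nat_lit 0) (nat_lit 23728196467973) (nat_lit 152) (nat_lit 3385117949740) (nat_lit 0) (nat_lit 23717686459572) (nat_lit 1) (nat_lit 5) (nat_lit 3) (nat_lit 4) (nat_lit 1) (nat_lit 4) (nat_lit 275) (nat_lit 201) (nat_lit 124))))))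 (XT.nd (nat_lit 25506) (nat_lit 0) (nat_lit 532) (XT.nd (nat_lit 25194) (nat_lit 0) (nat_lit 1064) (XT.nd (nat_lit 78) (nat_lit 0) (nat_lit 0) (XT.lf (nat_lit 0) (nat_lit 47753307800206) (nat_lit 152) (nat_lit 6737305828149) (nat_lit 0) (nat_lit 47742797679785) (nat_lit 1) (nat_lit 5) (nat_lit 3) (nat_lit 4) (nat_lit 1) (nat_lit 4) (nat_lit 280) (nat_lit 201) (nat_lit 119)) (XT.nd (nat_lit 78) (nat_lit 0) (nat_lit 0) (XT.lf (nat_lit 0) (nat_lit 54920372092311) (nat_lit 152) (nat_lit 7737315734427) (nat_lit 0) (nat_lit 54909861957443) (nat_lit 1) (nat_lit 5) (nat_lit 3) (nat_lit 4) (nat_lit 1) (nat_lit 4) (nat_lit 281) (nat_lit 201) (nat_lit 118)) (XT.lf (nat_lit 0) (nat_lit 63162496013727) (nat_lit 152) (nat_lit 8887327153851) (nat_lit 0) (nat_lit 63151985866296) (nat_lit 1) (nat_lit 5) (nat_lit 3) (nat_lit 4) (nat_lit 1) (nat_lit 4) (nat_lit 282) (nat_lit 201) (nat_lit 117)))) (XT.nd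 (nat_lit 156) (nat_lit 228) (nat_lit 0) (XT.nd (nat_lit 78) (nat_lit 0) (nat_lit 0) (XT.lf (nat_lit 0) (nat_lit 1263239774) (nat_lit 228) (nat_lit 1075372393) (nat_lit 228) (nat_lit 1075372393) (nat_lit 18) (nat_lit 3) (nat_lit 21) (nat_lit 3) (nat_lit 21) (nat_lit 5) (nat_lit 202) (nat_lit 202) (nat_lit 196)) (XT.lf (nat_lit 76) (nat_lit 797039999) (nat_lit 0) (nat_lit 3561552682) (nat_lit 228) (nat_lit 2703495324) (nat_lit 19) (nat_lit 5) (nat_lit 18) (nat_lit 3) (nat_lit 21) (nat_lit 5) (nat_lit 203) (nat_lit 202) (nat_lit 195))) (XT.nd (nat_lit 78) (nat_lit 228) (nat_lit 0) (XT.lf (nat_lit 76) (nat_lit 4244720475) (nat_lit 0) (nat_lit 2039009500) (nat_lit 228) (nat_lit 1080487447) (nat_lit 19) (nat_lit 5) (nat_lit 18) (nat_lit 3) (nat_lit 21) (nat_lit 5) (nat_lit 204) (nat_lit 202) (nat_lit 194)) (XT.lf (nat_lit 76) (nat_lit 301295503) (nat_lit 0) (nat_lit 154699828) (nat_lit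 304) (nat_lit 7294042043) (nat_lit 16) (nat_lit 5) (nat_lit 15) (nat_lit 5) (nat_lit 19) (nat_lit 5) (nat_lit 205) (nat_lit 202) (nat_lit 193))))) (XT.nd (nat_lit 312) (nat_lit 380) (nat_lit 0) (XT.nd (nat_lit 156) (nat_lit 228) (nat_lit 0) (XT.nd (nat_lit 78) (nat_lit 0) (nat_lit 0) (XT.lf (nat_lit 0) (nat_lit 2124578244) (nat_lit 228) (nat_lit 3951157757) (nat_lit 76) (nat_lit 2112136922) (nat_lit 16) (nat_lit 5) (nat_lit 19) (nat_lit 5) (nat_lit 17) (nat_lit 5) (nat_lit 206) (nat_lit 202) (nat_lit 192)) (XT.lf (nat_lit 0) (nat_lit 3840464132) (nat_lit 228) (nat_lit 132079086) (nat_lit 76) (nat_lit 4752503671) (nat_lit 16) (nat_lit 5) (nat_lit 19) (nat_lit 5) (nat_lit 17) (nat_lit 5) (nat_lit 207) (nat_lit 202) (nat_lit 191))) (XT.nd (nat_lit 78) (nat_lit 0) (nat_lit 0) (XT.lf (nat_lit 0) (nat_lit 4489288546) (nat_lit 228) (nat_lit 1327422205) (nat_lit 304) (nat_lit 3528435535)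 (nat_lit 13) (nat_lit 5) (nat_lit 16) (nat_lit 5) (nat_lit 17) (nat_lit 5) (nat_lit 208) (nat_lit 202) (nat_lit 190)) (XT.lf (nat_lit 0) (nat_lit 8001971069) (nat_lit 304) (nat_lit 499778015) (nat_lit 76) (nat_lit 1572056320) (nat_lit 13) (nat_lit 5) (nat_lit 17) (nat_lit 5) (nat_lit 14) (nat_lit 4) (nat_lit 209) (nat_lit 202) (nat_lit 189)))) (XT.nd (nat_lit 156) (nat_lit 152) (nat_lit 0) (XT.nd (nat_lit 78) (nat_lit 76) (nat_lit 0) (XT.lf (nat_lit 0) (nat_lit 4699744147) (nat_lit 152) (nat_lit 5929050974) (nat_lit 228) (nat_lit 268016251) (nat_lit 11) (nat_lit 5) (nat_lit 13) (nat_lit 5) (nat_lit 14) (nat_lit 4) (nat_lit 210) (nat_lit 202) (nat_lit 188)) (XT.lf (nat_lit 0) (nat_lit 1533194961) (nat_lit 228) (nat_lit 1352938378) (nat_lit 76) (nat_lit 8964368353) (nat_lit 10) (nat_lit 5) (nat_lit 13) (nat_lit 5) (nat_lit 11) (nat_lit 5) (nat_lit 211) (nat_lit 202) (nat_lit 187)))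 (XT.nd (nat_lit 78) (nat_lit 0) (nat_lit 0) (XT.lf (nat_lit 0) (nat_lit 3673527517) (nat_lit 228) (nat_lit 8519938505) (nat_lit 76) (nat_lit 738798337) (nat_lit 8) (nat_lit 5) (nat_lit 11) (nat_lit 5) (nat_lit 9) (nat_lit 4) (nat_lit 212) (nat_lit 202) (nat_lit 186)) (XT.lf (nat_lit 0) (nat_lit 6233511858) (nat_lit 228) (nat_lit 3272203132) (nat_lit 76) (nat_lit 4656994945) (nat_lit 8) (nat_lit 5) (nat_lit 11) (nat_lit 5) (nat_lit 9) (nat_lit 4) (nat_lit 213) (nat_lit 202) (nat_lit 185))))))) (XT.nd (nat_lit 1170) (nat_lit 76) (nat_lit 0) (XT.nd (nat_lit 546) (nat_lit 152) (nat_lit 0) (XT.nd (nat_lit 234) (nat_lit 228) (nat_lit 0) (XT.nd (nat_lit 78) (nat_lit 0) (nat_lit 0) (XT.lf (nat_lit 0) (nat_lit 2879813553) (nat_lit 76) (nat_lit 6318733754) (nat_lit 152) (nat_lit 6377068146) (nat_lit 7) (nat_lit 5) (nat_lit 8) (nat_lit 5) (nat_lit 9) (nat_lit 4) (nat_lit 214) (nat_lit 202) (nat_lit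 184)) (XT.nd (nat_lit 78) (nat_lit 0) (nat_lit 0) (XT.lf (nat_lit 0) (nat_lit 10189453840) (nat_lit 76) (nat_lit 2499041236) (nat_lit 152) (nat_lit 4500852193) (nat_lit 7) (nat_lit 5) (nat_lit 8) (nat_lit 5) (nat_lit 9) (nat_lit 4) (nat_lit 215) (nat_lit 202) (nat_lit 183)) (XT.lf (nat_lit 0) (nat_lit 16699796674) (nat_lit 152) (nat_lit 654736361) (nat_lit 0) (nat_lit 1691721377) (nat_lit 7) (nat_lit 5) (nat_lit 9) (nat_lit 4) (nat_lit 7) (nat_lit 4) (nat_lit 216) (nat_lit 202) (nat_lit 182)))) (XT.nd (nat_lit 156) (nat_lit 76) (nat_lit 0) (XT.nd (nat_lit 78) (nat_lit 0) (nat_lit 0) (XT.lf (nat_lit 0) (nat_lit 475467124) (nat_lit 152) (nat_lit 14113213050) (nat_lit 76) (nat_lit 6539397829) (nat_lit 5) (nat_lit 5) (nat_lit 7) (nat_lit 5) (nat_lit 6) (nat_lit 4) (nat_lit 217) (nat_lit 202) (nat_lit 181)) (XT.lf (nat_lit 0) (nat_lit 3447385685) (nat_lit 152) (nat_lit 7834363859) (nat_lit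 76) (nat_lit 12229147141) (nat_lit 5) (nat_lit 5) (nat_lit 7) (nat_lit 5) (nat_lit 6) (nat_lit 4) (nat_lit 218) (nat_lit 202) (nat_lit 180))) (XT.nd (nat_lit 78) (nat_lit 76) (nat_lit 0) (XT.lf (nat_lit 0) (nat_lit 6805164147) (nat_lit 152) (nat_lit 711466875) (nat_lit 76) (nat_lit 18743950760) (nat_lit 5) (nat_lit 5) (nat_lit 7) (nat_lit 5) (nat_lit 6) (nat_lit 4) (nat_lit 219) (nat_lit 202) (nat_lit 179)) (XT.lf (nat_lit 0) (nat_lit 8117516372) (nat_lit 76) (nat_lit 2833110846) (nat_lit 152) (nat_lit 18429884905) (nat_lit 4) (nat_lit 5) (nat_lit 5) (nat_lit 5) (nat_lit 6) (nat_lit 4) (nat_lit 220) (nat_lit 202) (nat_lit 178))))) (XT.nd (nat_lit 312) (nat_lit 76) (nat_lit 0) (XT.nd (nat_lit 156) (nat_lit 76) (nat_lit 0) (XT.nd (nat_lit 78) (nat_lit 0) (nat_lit 0) (XT.lf (nat_lit 0) (nat_lit 15812562751) (nat_lit 152) (nat_lit 14806990419) (nat_lit 0) (nat_lit 2335024509) (nat_lit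 4) (nat_lit 5) (nat_lit 6) (nat_lit 4) (nat_lit 4) (nat_lit 4) (nat_lit 221) (nat_lit 202) (nat_lit 177)) (XT.lf (nat_lit 0) (nat_lit 21495203028) (nat_lit 152) (nat_lit 7593546998) (nat_lit 0) (nat_lit 7962589678) (nat_lit 4) (nat_lit 5) (nat_lit 6) (nat_lit 4) (nat_lit 4) (nat_lit 4) (nat_lit 222) (nat_lit 202) (nat_lit 176))) (XT.nd (nat_lit 78) (nat_lit 0) (nat_lit 0) (XT.lf (nat_lit 0) (nat_lit 697913240) (nat_lit 76) (nat_lit 27323402920) (nat_lit 76) (nat_lit 13742898171) (nat_lit 3) (nat_lit 4) (nat_lit 4) (nat_lit 5) (nat_lit 4) (nat_lit 4) (nat_lit 223) (nat_lit 202) (nat_lit 175)) (XT.lf (nat_lit 0) (nat_lit 11023376927) (nat_lit 76) (nat_lit 24864401861) (nat_lit 76) (nat_lit 11242252418) (nat_lit 3) (nat_lit 4) (nat_lit 4) (nat_lit 5) (nat_lit 4) (nat_lit 4) (nat_lit 224) (nat_lit 202) (nat_lit 174)))) (XT.nd (nat_lit 156) (nat_lit 76) (nat_lit 0) (XT.nd (nat_lit 78)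 (nat_lit 0) (nat_lit 0) (XT.lf (nat_lit 0) (nat_lit 22842767363) (nat_lit 76) (nat_lit 22060571372) (nat_lit 76) (nat_lit 8402209151) (nat_lit 3) (nat_lit 4) (nat_lit 4) (nat_lit 5) (nat_lit 4) (nat_lit 4) (nat_lit 225) (nat_lit 202) (nat_lit 173)) (XT.lf (nat_lit 0) (nat_lit 36387333494) (nat_lit 76) (nat_lit 18857053899) (nat_lit 76) (nat_lit 5167202306) (nat_lit 3) (nat_lit 4) (nat_lit 4) (nat_lit 5) (nat_lit 4) (nat_lit 4) (nat_lit 226) (nat_lit 202) (nat_lit 172))) (XT.nd (nat_lit 78) (nat_lit 76) (nat_lit 0) (XT.lf (nat_lit 0) (nat_lit 51922077698) (nat_lit 76) (nat_lit 15191171926) (nat_lit 76) (nat_lit 1473938271) (nat_lit 3) (nat_lit 4) (nat_lit 4) (nat_lit 5) (nat_lit 4) (nat_lit 4) (nat_lit 227) (nat_lit 202) (nat_lit 171)) (XT.lf (nat_lit 0) (nat_lit 2505032476) (nat_lit 152) (nat_lit 8355224320) (nat_lit 76) (nat_lit 67114963269) (nat_lit 2) (nat_lit 5) (nat_lit 4) (nat_lit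 5) (nat_lit 3) (nat_lit 4) (nat_lit 228) (nat_lit 202) (nat_lit 170)))))) (XT.nd (nat_lit 546) (nat_lit 0) (nat_lit 0) (XT.nd (nat_lit 234) (nat_lit 0) (nat_lit 0) (XT.nd (nat_lit 78) (nat_lit 0) (nat_lit 0) (XT.lf (nat_lit 0) (nat_lit 1204927957) (nat_lit 76) (nat_lit 5756317100) (nat_lit 152) (nat_lit 81795086635) (nat_lit 1) (nat_lit 5) (nat_lit 2) (nat_lit 5) (nat_lit 3) (nat_lit 4) (nat_lit 229) (nat_lit 202) (nat_lit 169)) (XT.nd (nat_lit 78) (nat_lit 0) (nat_lit 0) (XT.lf (nat_lit 0) (nat_lit 12530048307) (nat_lit 152) (nat_lit 88010368542) (nat_lit 0) (nat_lit 547654335) (nat_lit 1) (nat_lit 5) (nat_lit 3) (nat_lit 4) (nat_lit 1) (nat_lit 4) (nat_lit 230) (nat_lit 202) (nat_lit 168)) (XT.lf (nat_lit 0) (nat_lit 19192563121) (nat_lit 152) (nat_lit 88841768250) (nat_lit 0) (nat_lit 7196555424) (nat_lit 1) (nat_lit 5) (nat_lit 3) (nat_lit 4) (nat_lit 1) (nat_lit 4) (nat_lit 231)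 (nat_lit 202) (nat_lit 167)))) (XT.nd (nat_lit 156) (nat_lit 0) (nat_lit 0) (XT.nd (nat_lit 78) (nat_lit 0) (nat_lit 0) (XT.lf (nat_lit 0) (nat_lit 26840786234) (nat_lit 152) (nat_lit 89823512560) (nat_lit 0) (nat_lit 14832940516) (nat_lit 1) (nat_lit 5) (nat_lit 3) (nat_lit 4) (nat_lit 1) (nat_lit 4) (nat_lit 232) (nat_lit 202) (nat_lit 166)) (XT.lf (nat_lit 0) (nat_lit 35624356794) (nat_lit 152) (nat_lit 90974809513) (nat_lit 0) (nat_lit 23606217145) (nat_lit 1) (nat_lit 5) (nat_lit 3) (nat_lit 4) (nat_lit 1) (nat_lit 4) (nat_lit 233) (nat_lit 202) (nat_lit 165))) (XT.nd (nat_lit 78) (nat_lit 0) (nat_lit 0) (XT.lf (nat_lit 0) (nat_lit 45715127269) (nat_lit 152) (nat_lit 92318184484) (nat_lit 0) (nat_lit 33688036375) (nat_lit 1) (nat_lit 5) (nat_lit 3) (nat_lit 4) (nat_lit 1) (nat_lit 4) (nat_lit 234) (nat_lit 202) (nat_lit 164)) (XT.lf (nat_lit 0) (nat_lit 57310525777) (nat_lit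 152) (nat_lit 93879920897) (nat_lit 0) (nat_lit 45275651191) (nat_lit 1) (nat_lit 5) (nat_lit 3) (nat_lit 4) (nat_lit 1) (nat_lit 4) (nat_lit 235) (nat_lit 202) (nat_lit 163))))) (XT.nd (nat_lit 312) (nat_lit 0) (nat_lit 0) (XT.nd (nat_lit 156) (nat_lit 0) (nat_lit 0) (XT.nd (nat_lit 78) (nat_lit 0) (nat_lit 0) (XT.lf (nat_lit 0) (nat_lit 70637418810) (nat_lit 152) (nat_lit 95690574464) (nat_lit 0) (nat_lit 58595775797) (nat_lit 1) (nat_lit 5) (nat_lit 3) (nat_lit 4) (nat_lit 1) (nat_lit 4) (nat_lit 236) (nat_lit 202) (nat_lit 162)) (XT.lf (nat_lit 0) (nat_lit 85956549927) (nat_lit 152) (nat_lit 97785571015) (nat_lit 0) (nat_lit 73909021326) (nat_lit 1) (nat_lit 5) (nat_lit 3) (nat_lit 4) (nat_lit 1) (nat_lit 4) (nat_lit 237) (nat_lit 202) (nat_lit 161))) (XT.nd (nat_lit 78) (nat_lit 0) (nat_lit 0) (XT.lf (nat_lit 0) (nat_lit 103567641260) (nat_lit 152) (nat_lit 100205899614) (nat_lit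 0) (nat_lit 91514994755) (nat_lit 1) (nat_lit 5) (nat_lit 3) (nat_lit 4) (nat_lit 1) (nat_lit 4) (nat_lit 238) (nat_lit 202) (nat_lit 160)) (XT.lf (nat_lit 0) (nat_lit 123815257638) (nat_lit 152) (nat_lit 102998914516) (nat_lit 0) (nat_lit 111758160783) (nat_lit 1) (nat_lit 5) (nat_lit 3) (nat_lit 4) (nat_lit 1) (nat_lit 4) (nat_lit 239) (nat_lit 202) (nat_lit 159)))) (XT.nd (nat_lit 156) (nat_lit 0) (nat_lit 0) (XT.nd (nat_lit 78) (nat_lit 0) (nat_lit 0) (XT.lf (nat_lit 0) (nat_lit 147095548077) (nat_lit 152) (nat_lit 106219261664) (nat_lit 0) (nat_lit 135034581352) (nat_lit 1) (nat_lit 5) (nat_lit 3) (nat_lit 4) (nat_lit 1) (nat_lit 4) (nat_lit 240) (nat_lit 202) (nat_lit 158)) (XT.lf (nat_lit 0) (nat_lit 173863996522) (nat_lit 152) (nat_lit 109929947851) (nat_lit 0) (nat_lit 161799664693) (nat_lit 1) (nat_lit 5) (nat_lit 3) (nat_lit 4) (nat_lit 1) (nat_lit 4) (nat_lit 241) (nat_lit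 202) (nat_lit 157))) (XT.nd (nat_lit 78) (nat_lit 0) (nat_lit 0) (XT.lf (nat_lit 0) (nat_lit 204644333485) (nat_lit 152) (nat_lit 114203573459) (nat_lit 0) (nat_lit 192577075478) (nat_lit 1) (nat_lit 5) (nat_lit 3) (nat_lit 4) (nat_lit 1) (nat_lit 4) (nat_lit 242) (nat_lit 202) (nat_lit 156)) (XT.lf (nat_lit 0) (nat_lit 240038782950) (nat_lit 152) (nat_lit 119123752901) (nat_lit 0) (nat_lit 227968980440) (nat_lit 1) (nat_lit 5) (nat_lit 3) (nat_lit 4) (nat_lit 1) (nat_lit 4) (nat_lit 243) (nat_lit 202) (nat_lit 155))))))))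
noncomputable def xc28 : XT := (XT.nd (nat_lit 2418) (nat_lit 0) (nat_lit 0) (XT.nd (nat_lit 1092) (nat_lit 0) (nat_lit 0) (XT.nd (nat_lit 546) (nat_lit 0) (nat_lit 0) (XT.nd (nat_lit 234) (nat_lit 0) (nat_lit 0) (XT.nd (nat_lit 78) (nat_lit 0) (nat_lit 0) (XT.lf (nat_lit 0) (nat_lit 280739845015) (nat_lit 152) (nat_lit 124786750558) (nat_lit 0) (nat_lit 268667829895) (nat_lit 1) (nat_lit 5) (nat_lit 3) (nat_lit 4) (nat_lit 1) (nat_lit 4) (nat_lit 244) (nat_lit 202) (nat_lit 154)) (XT.nd (nat_lit 78) (nat_lit 0) (nat_lit 0) (XT.lf (nat_lit 0) (nat_lit 327543844808) (nat_lit 152) (nat_lit 131303364210) (nat_lit 0) (nat_lit 315469905678) (nat_lit 1) (nat_lit 5) (nat_lit 3) (nat_lit 4) (nat_lit 1) (nat_lit 4) (nat_lit 245) (nat_lit 202) (nat_lit 153)) (XT.lf (nat_lit 0) (nat_lit 381366512760) (nat_lit 152) (nat_lit 138801092820) (nat_lit 0) (nat_lit 369290900578) (nat_lit 1) (nat_lit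 5) (nat_lit 3) (nat_lit 4) (nat_lit 1) (nat_lit 4) (nat_lit 246) (nat_lit 202) (nat_lit 152)))) (XT.nd (nat_lit 156) (nat_lit 0) (nat_lit 0) (XT.nd (nat_lit 78) (nat_lit 0) (nat_lit 0) (XT.lf (nat_lit 0) (nat_lit 443260901069) (nat_lit 152) (nat_lit 147426631078) (nat_lit 0) (nat_lit 431183834059) (nat_lit 1) (nat_lit 5) (nat_lit 3) (nat_lit 4) (nat_lit 1) (nat_lit 4) (nat_lit 247) (nat_lit 202) (nat_lit 151)) (XT.lf (nat_lit 0) (nat_lit 514437986898) (nat_lit 152) (nat_lit 157348739515) (nat_lit 0) (nat_lit 502359654821) (nat_lit 1) (nat_lit 5) (nat_lit 3) (nat_lit 4) (nat_lit 1) (nat_lit 4) (nat_lit 248) (nat_lit 202) (nat_lit 150))) (XT.nd (nat_lit 78) (nat_lit 0) (nat_lit 0) (XT.lf (nat_lit 0) (nat_lit 596290365404) (nat_lit 152) (nat_lit 168761546341) (nat_lit 0) (nat_lit 584210933269) (nat_lit 1) (nat_lit 5) (nat_lit 3) (nat_lit 4) (nat_lit 1) (nat_lit 4) (nat_lit 249) (nat_lit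 202) (nat_lit 149)) (XT.lf (nat_lit 0) (nat_lit 690419496168) (nat_lit 152) (nat_lit 181888345600) (nat_lit 0) (nat_lit 678339107460) (nat_lit 1) (nat_lit 5) (nat_lit 3) (nat_lit 4) (nat_lit 1) (nat_lit 4) (nat_lit 250) (nat_lit 202) (nat_lit 148))))) (XT.nd (nat_lit 234) (nat_lit 0) (nat_lit 0) (XT.nd (nat_lit 78) (nat_lit 0) (nat_lit 0) (XT.lf (nat_lit 0) (nat_lit 798667036095) (nat_lit 152) (nat_lit 196985965975) (nat_lit 0) (nat_lit 786585815585) (nat_lit 1) (nat_lit 5) (nat_lit 3) (nat_lit 4) (nat_lit 1) (nat_lit 4) (nat_lit 251) (nat_lit 202) (nat_lit 147)) (XT.nd (nat_lit 78) (nat_lit 0) (nat_lit 0) (XT.lf (nat_lit 0) (nat_lit 923150871836) (nat_lit 152) (nat_lit 214349795691) (nat_lit 0) (nat_lit 911068928019) (nat_lit 1) (nat_lit 5) (nat_lit 3) (nat_lit 4) (nat_lit 1) (nat_lit 4) (nat_lit 252) (nat_lit 202) (nat_lit 146)) (XT.lf (nat_lit 0) (nat_lit 1066306556699) (nat_lit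 152) (nat_lit 234319561850) (nat_lit 0) (nat_lit 1054223983920) (nat_lit 1) (nat_lit 5) (nat_lit 3) (nat_lit 4) (nat_lit 1) (nat_lit 4) (nat_lit 253) (nat_lit 202) (nat_lit 145)))) (XT.nd (nat_lit 156) (nat_lit 0) (nat_lit 0) (XT.nd (nat_lit 78) (nat_lit 0) (nat_lit 0) (XT.lf (nat_lit 0) (nat_lit 1230934962780) (nat_lit 152) (nat_lit 257285977268) (nat_lit 0) (nat_lit 1218851843077) (nat_lit 1) (nat_lit 5) (nat_lit 3) (nat_lit 4) (nat_lit 1) (nat_lit 4) (nat_lit 254) (nat_lit 202) (nat_lit 144)) (XT.lf (nat_lit 0) (nat_lit 1420257080631) (nat_lit 152) (nat_lit 283698384857) (nat_lit 0) (nat_lit 1408173485343) (nat_lit 1) (nat_lit 5) (nat_lit 3) (nat_lit 4) (nat_lit 1) (nat_lit 4) (nat_lit 255) (nat_lit 202) (nat_lit 143))) (XT.nd (nat_lit 78) (nat_lit 0) (nat_lit 0) (XT.lf (nat_lit 0) (nat_lit 1637977038646) (nat_lit 152) (nat_lit 314073549112) (nat_lit 0) (nat_lit 1625893029805)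 (nat_lit 1) (nat_lit 5) (nat_lit 3) (nat_lit 4) (nat_lit 1) (nat_lit 4) (nat_lit 256) (nat_lit 202) (nat_lit 142)) (XT.lf (nat_lit 0) (nat_lit 1888354575133) (nat_lit 152) (nat_lit 349005766724) (nat_lit 0) (nat_lit 1876270206681) (nat_lit 1) (nat_lit 5) (nat_lit 3) (nat_lit 4) (nat_lit 1) (nat_lit 4) (nat_lit 257) (nat_lit 202) (nat_lit 141)))))) (XT.nd (nat_lit 546) (nat_lit 0) (nat_lit 0) (XT.nd (nat_lit 234) (nat_lit 0) (nat_lit 0) (XT.nd (nat_lit 78) (nat_lit 0) (nat_lit 0) (XT.lf (nat_lit 0) (nat_lit 2176288381025) (nat_lit 152) (nat_lit 389178494127) (nat_lit 0) (nat_lit 2164203699867) (nat_lit 1) (nat_lit 5) (nat_lit 3) (nat_lit 4) (nat_lit 1) (nat_lit 4) (nat_lit 258) (nat_lit 202) (nat_lit 140)) (XT.nd (nat_lit 78) (nat_lit 0) (nat_lit 0) (XT.lf (nat_lit 0) (nat_lit 2507411943827) (nat_lit 152) (nat_lit 435377719464) (nat_lit 0) (nat_lit 2495326990752) (nat_lit 1) (nat_lit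 5) (nat_lit 3) (nat_lit 4) (nat_lit 1) (nat_lit 4) (nat_lit 259) (nat_lit 202) (nat_lit 139)) (XT.lf (nat_lit 0) (nat_lit 2888203768029) (nat_lit 152) (nat_lit 488507340623) (nat_lit 0) (nat_lit 2876118578503) (nat_lit 1) (nat_lit 5) (nat_lit 3) (nat_lit 4) (nat_lit 1) (nat_lit 4) (nat_lit 260) (nat_lit 202) (nat_lit 138)))) (XT.nd (nat_lit 156) (nat_lit 0) (nat_lit 0) (XT.nd (nat_lit 78) (nat_lit 0) (nat_lit 0) (XT.lf (nat_lit 0) (nat_lit 3326114128452) (nat_lit 152) (nat_lit 549606850191) (nat_lit 0) (nat_lit 3314028733318) (nat_lit 1) (nat_lit 5) (nat_lit 3) (nat_lit 4) (nat_lit 1) (nat_lit 4) (nat_lit 261) (nat_lit 202) (nat_lit 137)) (XT.lf (nat_lit 0) (nat_lit 3829710836497) (nat_lit 152) (nat_lit 619871673356) (nat_lit 0) (nat_lit 3817625262573) (nat_lit 1) (nat_lit 5) (nat_lit 3) (nat_lit 4) (nat_lit 1) (nat_lit 4) (nat_lit 262) (nat_lit 202) (nat_lit 136))) (XT.nd (nat_lit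 78) (nat_lit 0) (nat_lit 0) (XT.lf (nat_lit 0) (nat_lit 4408846871233) (nat_lit 152) (nat_lit 700676556658) (nat_lit 0) (nat_lit 4396761141839) (nat_lit 1) (nat_lit 5) (nat_lit 3) (nat_lit 4) (nat_lit 1) (nat_lit 4) (nat_lit 263) (nat_lit 202) (nat_lit 135)) (XT.lf (nat_lit 0) (nat_lit 5074853155079) (nat_lit 152) (nat_lit 793602465205) (nat_lit 0) (nat_lit 5062767290494) (nat_lit 1) (nat_lit 5) (nat_lit 3) (nat_lit 4) (nat_lit 1) (nat_lit 4) (nat_lit 264) (nat_lit 202) (nat_lit 134))))) (XT.nd (nat_lit 312) (nat_lit 0) (nat_lit 0) (XT.nd (nat_lit 156) (nat_lit 0) (nat_lit 0) (XT.nd (nat_lit 78) (nat_lit 0) (nat_lit 0) (XT.lf (nat_lit 0) (nat_lit 5840760245763) (nat_lit 152) (nat_lit 900467514599) (nat_lit 0) (nat_lit 5828674263620) (nat_lit 1) (nat_lit 5) (nat_lit 3) (nat_lit 4) (nat_lit 1) (nat_lit 4) (nat_lit 265) (nat_lit 202) (nat_lit 133)) (XT.lf (nat_lit 0) (nat_lit 6721553282016)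 (nat_lit 152) (nat_lit 1023362542763) (nat_lit 0) (nat_lit 6709467197649) (nat_lit 1) (nat_lit 5) (nat_lit 3) (nat_lit 4) (nat_lit 1) (nat_lit 4) (nat_lit 266) (nat_lit 202) (nat_lit 132))) (XT.nd (nat_lit 78) (nat_lit 0) (nat_lit 0) (XT.lf (nat_lit 0) (nat_lit 7734465171068) (nat_lit 152) (nat_lit 1164692017639) (nat_lit 0) (nat_lit 7722378997810) (nat_lit 1) (nat_lit 5) (nat_lit 3) (nat_lit 4) (nat_lit 1) (nat_lit 4) (nat_lit 267) (nat_lit 202) (nat_lit 131)) (XT.lf (nat_lit 0) (nat_lit 8899313754227) (nat_lit 152) (nat_lit 1327221081126) (nat_lit 0) (nat_lit 8887227503673) (nat_lit 1) (nat_lit 5) (nat_lit 3) (nat_lit 4) (nat_lit 1) (nat_lit 4) (nat_lit 268) (nat_lit 202) (nat_lit 130)))) (XT.nd (nat_lit 312) (nat_lit 0) (nat_lit 0) (XT.nd (nat_lit 234) (nat_lit 0) (nat_lit 0) (XT.lf (nat_lit 0) (nat_lit 10238889547250) (nat_lit 152) (nat_lit 1514129649686) (nat_lit 0) (nat_lit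 10226803229483) (nat_lit 1) (nat_lit 5) (nat_lit 3) (nat_lit 4) (nat_lit 1) (nat_lit 4) (nat_lit 269) (nat_lit 202) (nat_lit 129)) (XT.lf (nat_lit 0) (nat_lit 15588317618168) (nat_lit 152) (nat_lit 2260526426469) (nat_lit 0) (nat_lit 15576231146937) (nat_lit 1) (nat_lit 5) (nat_lit 3) (nat_lit 4) (nat_lit 1) (nat_lit 4) (nat_lit 272) (nat_lit 202) (nat_lit 126))) (XT.nd (nat_lit 78) (nat_lit 0) (nat_lit 0) (XT.lf (nat_lit 0) (nat_lit 17931243769210) (nat_lit 152) (nat_lit 2587431212367) (nat_lit 0) (nat_lit 17919157259548) (nat_lit 1) (nat_lit 5) (nat_lit 3) (nat_lit 4) (nat_lit 1) (nat_lit 4) (nat_lit 273) (nat_lit 202) (nat_lit 125)) (XT.lf (nat_lit 0) (nat_lit 20625608804322) (nat_lit 152) (nat_lit 2963371788513) (nat_lit 0) (nat_lit 20613522261243) (nat_lit 1) (nat_lit 5) (nat_lit 3) (nat_lit 4) (nat_lit 1) (nat_lit 4) (nat_lit 274) (nat_lit 202) (nat_lit 124))))))) (XT.nd (nat_lit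 26520) (nat_lit 0) (nat_lit 152) (XT.nd (nat_lit 25896) (nat_lit 0) (nat_lit 532) (XT.nd (nat_lit 468) (nat_lit 0) (nat_lit 0) (XT.nd (nat_lit 78) (nat_lit 0) (nat_lit 0) (XT.lf (nat_lit 0) (nat_lit 23724128561148) (nat_lit 152) (nat_lit 3395703514006) (nat_lit 0) (nat_lit 23712041989011) (nat_lit 1) (nat_lit 5) (nat_lit 3) (nat_lit 4) (nat_lit 1) (nat_lit 4) (nat_lit 275) (nat_lit 202) (nat_lit 123)) (XT.nd (nat_lit 312) (nat_lit 0) (nat_lit 0) (XT.lf (nat_lit 0) (nat_lit 27287426252322) (nat_lit 152) (nat_lit 3892885053039) (nat_lit 0) (nat_lit 27275339654917) (nat_lit 1) (nat_lit 5) (nat_lit 3) (nat_lit 4) (nat_lit 1) (nat_lit 4) (nat_lit 276) (nat_lit 202) (nat_lit 122)) (XT.lf (nat_lit 0) (nat_lit 47749239841068) (nat_lit 152) (nat_lit 6747891490523) (nat_lit 0) (nat_lit 47737153171523) (nat_lit 1) (nat_lit 5) (nat_lit 3) (nat_lit 4) (nat_lit 1) (nat_lit 4) (nat_lit 280) (nat_lit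 202) (nat_lit 118)))) (XT.nd (nat_lit 25272) (nat_lit 0) (nat_lit 1064) (XT.nd (nat_lit 25194) (nat_lit 0) (nat_lit 1292) (XT.lf (nat_lit 0) (nat_lit 54916304126426) (nat_lit 152) (nat_lit 7747901409454) (nat_lit 0) (nat_lit 54904217444318) (nat_lit 1) (nat_lit 5) (nat_lit 3) (nat_lit 4) (nat_lit 1) (nat_lit 4) (nat_lit 281) (nat_lit 202) (nat_lit 117)) (XT.lf (nat_lit 0) (nat_lit 2995698106) (nat_lit 228) (nat_lit 334330707) (nat_lit 228) (nat_lit 334330707) (nat_lit 18) (nat_lit 3) (nat_lit 21) (nat_lit 3) (nat_lit 21) (nat_lit 5) (nat_lit 203) (nat_lit 203) (nat_lit 194))) (XT.nd (nat_lit 78) (nat_lit 0) (nat_lit 0) (XT.lf (nat_lit 0) (nat_lit 101675647) (nat_lit 228) (nat_lit 5020893600) (nat_lit 304) (nat_lit 2532268984) (nat_lit 15) (nat_lit 5) (nat_lit 18) (nat_lit 3) (nat_lit 19) (nat_lit 5) (nat_lit 204) (nat_lit 203) (nat_lit 193)) (XT.lf (nat_lit 0) (nat_lit 1419285851)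 (nat_lit 228) (nat_lit 1748862111) (nat_lit 304) (nat_lit 4885921010) (nat_lit 15) (nat_lit 5) (nat_lit 18) (nat_lit 3) (nat_lit 19) (nat_lit 5) (nat_lit 205) (nat_lit 203) (nat_lit 192))))) (XT.nd (nat_lit 312) (nat_lit 380) (nat_lit 0) (XT.nd (nat_lit 156) (nat_lit 152) (nat_lit 0) (XT.nd (nat_lit 78) (nat_lit 0) (nat_lit 76) (XT.lf (nat_lit 76) (nat_lit 2052365261) (nat_lit 0) (nat_lit 761122627) (nat_lit 304) (nat_lit 5721069306) (nat_lit 16) (nat_lit 5) (nat_lit 15) (nat_lit 5) (nat_lit 19) (nat_lit 5) (nat_lit 206) (nat_lit 203) (nat_lit 191)) (XT.lf (nat_lit 0) (nat_lit 4412781025) (nat_lit 228) (nat_lit 2710778355) (nat_lit 76) (nat_lit 1966961164) (nat_lit 16) (nat_lit 5) (nat_lit 19) (nat_lit 5) (nat_lit 17) (nat_lit 5) (nat_lit 207) (nat_lit 203) (nat_lit 190))) (XT.nd (nat_lit 78) (nat_lit 0) (nat_lit 0) (XT.lf (nat_lit 0) (nat_lit 1582997634) (nat_lit 228) (nat_lit 4611707321)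 (nat_lit 304) (nat_lit 3546194234) (nat_lit 13) (nat_lit 5) (nat_lit 16) (nat_lit 5) (nat_lit 17) (nat_lit 5) (nat_lit 208) (nat_lit 203) (nat_lit 189)) (XT.lf (nat_lit 0) (nat_lit 6684188325) (nat_lit 228) (nat_lit 1557268462) (nat_lit 304) (nat_lit 2249861134) (nat_lit 13) (nat_lit 5) (nat_lit 16) (nat_lit 5) (nat_lit 17) (nat_lit 5) (nat_lit 209) (nat_lit 203) (nat_lit 188)))) (XT.nd (nat_lit 156) (nat_lit 152) (nat_lit 0) (XT.nd (nat_lit 78) (nat_lit 76) (nat_lit 0) (XT.lf (nat_lit 0) (nat_lit 1066631012) (nat_lit 152) (nat_lit 9528469448) (nat_lit 228) (nat_lit 761055568) (nat_lit 11) (nat_lit 5) (nat_lit 13) (nat_lit 5) (nat_lit 14) (nat_lit 4) (nat_lit 210) (nat_lit 203) (nat_lit 187)) (XT.lf (nat_lit 0) (nat_lit 1027534783) (nat_lit 228) (nat_lit 5494913555) (nat_lit 76) (nat_lit 5799584126) (nat_lit 10) (nat_lit 5) (nat_lit 13) (nat_lit 5) (nat_lit 11) (nat_lit 5) (nat_lit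 211) (nat_lit 203) (nat_lit 186))) (XT.nd (nat_lit 78) (nat_lit 152) (nat_lit 0) (XT.lf (nat_lit 0) (nat_lit 2900838304) (nat_lit 228) (nat_lit 148095591) (nat_lit 76) (nat_lit 10395477820) (nat_lit 10) (nat_lit 5) (nat_lit 13) (nat_lit 5) (nat_lit 11) (nat_lit 5) (nat_lit 212) (nat_lit 203) (nat_lit 185)) (XT.lf (nat_lit 0) (nat_lit 5281849237) (nat_lit 228) (nat_lit 8298456303) (nat_lit 76) (nat_lit 1121886658) (nat_lit 8) (nat_lit 5) (nat_lit 11) (nat_lit 5) (nat_lit 9) (nat_lit 4) (nat_lit 213) (nat_lit 203) (nat_lit 184)))))) (XT.nd (nat_lit 546) (nat_lit 152) (nat_lit 0) (XT.nd (nat_lit 234) (nat_lit 152) (nat_lit 0) (XT.nd (nat_lit 78) (nat_lit 76) (nat_lit 0) (XT.lf (nat_lit 0) (nat_lit 8087923499) (nat_lit 228) (nat_lit 2459144055) (nat_lit 76) (nat_lit 5592299465) (nat_lit 8) (nat_lit 5) (nat_lit 11) (nat_lit 5) (nat_lit 9) (nat_lit 4) (nat_lit 214) (nat_lit 203) (nat_lit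 183)) (XT.nd (nat_lit 78) (nat_lit 0) (nat_lit 0) (XT.lf (nat_lit 0) (nat_lit 4556407426) (nat_lit 76) (nat_lit 6872924211) (nat_lit 152) (nat_lit 6346417819) (nat_lit 7) (nat_lit 5) (nat_lit 8) (nat_lit 5) (nat_lit 9) (nat_lit 4) (nat_lit 215) (nat_lit 203) (nat_lit 182)) (XT.lf (nat_lit 0) (nat_lit 12800151777) (nat_lit 76) (nat_lit 2531619504) (nat_lit 152) (nat_lit 4317536067) (nat_lit 7) (nat_lit 5) (nat_lit 8) (nat_lit 5) (nat_lit 9) (nat_lit 4) (nat_lit 216) (nat_lit 203) (nat_lit 181)))) (XT.nd (nat_lit 156) (nat_lit 0) (nat_lit 0) (XT.nd (nat_lit 78) (nat_lit 76) (nat_lit 0) (XT.lf (nat_lit 0) (nat_lit 306084579) (nat_lit 76) (nat_lit 19567160202) (nat_lit 76) (nat_lit 1923204940) (nat_lit 6) (nat_lit 4) (nat_lit 7) (nat_lit 5) (nat_lit 7) (nat_lit 4) (nat_lit 217) (nat_lit 203) (nat_lit 180)) (XT.lf (nat_lit 0) (nat_lit 1192057188) (nat_lit 152) (nat_lit 15177359013) (nat_lit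 76) (nat_lit 7826189951) (nat_lit 5) (nat_lit 5) (nat_lit 7) (nat_lit 5) (nat_lit 6) (nat_lit 4) (nat_lit 218) (nat_lit 203) (nat_lit 179))) (XT.nd (nat_lit 78) (nat_lit 0) (nat_lit 0) (XT.lf (nat_lit 0) (nat_lit 4525597882) (nat_lit 152) (nat_lit 8094008878) (nat_lit 76) (nat_lit 14329503949) (nat_lit 5) (nat_lit 5) (nat_lit 7) (nat_lit 5) (nat_lit 6) (nat_lit 4) (nat_lit 219) (nat_lit 203) (nat_lit 178)) (XT.lf (nat_lit 0) (nat_lit 8313855590) (nat_lit 152) (nat_lit 22091636) (nat_lit 76) (nat_lit 21786834449) (nat_lit 5) (nat_lit 5) (nat_lit 7) (nat_lit 5) (nat_lit 6) (nat_lit 4) (nat_lit 220) (nat_lit 203) (nat_lit 177))))) (XT.nd (nat_lit 312) (nat_lit 0) (nat_lit 0) (XT.nd (nat_lit 156) (nat_lit 76) (nat_lit 0) (XT.nd (nat_lit 78) (nat_lit 0) (nat_lit 0) (XT.lf (nat_lit 0) (nat_lit 10095052948) (nat_lit 76) (nat_lit 2953910064) (nat_lit 152) (nat_lit 20667047411) (nat_lit 4)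 (nat_lit 5) (nat_lit 5) (nat_lit 5) (nat_lit 6) (nat_lit 4) (nat_lit 221) (nat_lit 203) (nat_lit 176)) (XT.lf (nat_lit 0) (nat_lit 18591696413) (nat_lit 152) (nat_lit 16315958360) (nat_lit 0) (nat_lit 2926224553) (nat_lit 4) (nat_lit 5) (nat_lit 6) (nat_lit 4) (nat_lit 4) (nat_lit 4) (nat_lit 222) (nat_lit 203) (nat_lit 175))) (XT.nd (nat_lit 78) (nat_lit 76) (nat_lit 0) (XT.lf (nat_lit 0) (nat_lit 25073613264) (nat_lit 152) (nat_lit 8113378507) (nat_lit 0) (nat_lit 9366496710) (nat_lit 4) (nat_lit 5) (nat_lit 6) (nat_lit 4) (nat_lit 4) (nat_lit 4) (nat_lit 223) (nat_lit 203) (nat_lit 174)) (XT.lf (nat_lit 0) (nat_lit 1393655288) (nat_lit 76) (nat_lit 31163271566) (nat_lit 76) (nat_lit 15419942235) (nat_lit 3) (nat_lit 4) (nat_lit 4) (nat_lit 5) (nat_lit 4) (nat_lit 4) (nat_lit 224) (nat_lit 203) (nat_lit 173)))) (XT.nd (nat_lit 156) (nat_lit 0) (nat_lit 0) (XT.nd (nat_lit 78) (nat_lit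 0) (nat_lit 0) (XT.lf (nat_lit 0) (nat_lit 13190844389) (nat_lit 76) (nat_lit 28369156235) (nat_lit 76) (nat_lit 12594337531) (nat_lit 3) (nat_lit 4) (nat_lit 4) (nat_lit 5) (nat_lit 4) (nat_lit 4) (nat_lit 225) (nat_lit 203) (nat_lit 172)) (XT.lf (nat_lit 0) (nat_lit 26716105010) (nat_lit 76) (nat_lit 25174086725) (nat_lit 76) (nat_lit 9371885959) (nat_lit 3) (nat_lit 4) (nat_lit 4) (nat_lit 5) (nat_lit 4) (nat_lit 4) (nat_lit 226) (nat_lit 203) (nat_lit 171))) (XT.nd (nat_lit 78) (nat_lit 0) (nat_lit 0) (XT.lf (nat_lit 0) (nat_lit 42234061815) (nat_lit 76) (nat_lit 21515550807) (nat_lit 76) (nat_lit 5689539552) (nat_lit 3) (nat_lit 4) (nat_lit 4) (nat_lit 5) (nat_lit 4) (nat_lit 4) (nat_lit 227) (nat_lit 203) (nat_lit 170)) (XT.lf (nat_lit 0) (nat_lit 60048327003) (nat_lit 76) (nat_lit 17321968431) (nat_lit 76) (nat_lit 1475252403) (nat_lit 3) (nat_lit 4) (nat_lit 4) (nat_lit 5)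 (nat_lit 4) (nat_lit 4) (nat_lit 228) (nat_lit 203) (nat_lit 169))))))))
noncomputable def xc29 : XT := (XT.nd (nat_lit 2340) (nat_lit 0) (nat_lit 0) (XT.nd (nat_lit 1170) (nat_lit 0) (nat_lit 0) (XT.nd (nat_lit 546) (nat_lit 0) (nat_lit 0) (XT.nd (nat_lit 234) (nat_lit 0) (nat_lit 0) (XT.nd (nat_lit 78) (nat_lit 76) (nat_lit 0) (XT.lf (nat_lit 0) (nat_lit 3054883499) (nat_lit 152) (nat_lit 9296720653) (nat_lit 76) (nat_lit 77292869953) (nat_lit 2) (nat_lit 5) (nat_lit 4) (nat_lit 5) (nat_lit 3) (nat_lit 4) (nat_lit 229) (nat_lit 203) (nat_lit 168)) (XT.nd (nat_lit 78) (nat_lit 0) (nat_lit 0) (XT.lf (nat_lit 0) (nat_lit 1683282315) (nat_lit 76) (nat_lit 6485861069) (nat_lit 152) (nat_lit 93875286070) (nat_lit 1) (nat_lit 5) (nat_lit 2) (nat_lit 5) (nat_lit 3) (nat_lit 4) (nat_lit 230) (nat_lit 203) (nat_lit 167)) (XT.lf (nat_lit 0) (nat_lit 14556734884) (nat_lit 152) (nat_lit 100935904263)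 (nat_lit 0) (nat_lit 735874287) (nat_lit 1) (nat_lit 5) (nat_lit 3) (nat_lit 4) (nat_lit 1) (nat_lit 4) (nat_lit 231) (nat_lit 203) (nat_lit 166)))) (XT.nd (nat_lit 156) (nat_lit 0) (nat_lit 0) (XT.nd (nat_lit 78) (nat_lit 0) (nat_lit 0) (XT.lf (nat_lit 0) (nat_lit 22199429616) (nat_lit 152) (nat_lit 101928016478) (nat_lit 0) (nat_lit 8368275087) (nat_lit 1) (nat_lit 5) (nat_lit 3) (nat_lit 4) (nat_lit 1) (nat_lit 4) (nat_lit 232) (nat_lit 203) (nat_lit 165)) (XT.lf (nat_lit 0) (nat_lit 30978192888) (nat_lit 152) (nat_lit 103088329001) (nat_lit 0) (nat_lit 17138087115) (nat_lit 1) (nat_lit 5) (nat_lit 3) (nat_lit 4) (nat_lit 1) (nat_lit 4) (nat_lit 233) (nat_lit 203) (nat_lit 164))) (XT.nd (nat_lit 78) (nat_lit 0) (nat_lit 0) (XT.lf (nat_lit 0) (nat_lit 41064783112) (nat_lit 152) (nat_lit 104439543598) (nat_lit 0) (nat_lit 27216893648) (nat_lit 1) (nat_lit 5) (nat_lit 3) (nat_lit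 4) (nat_lit 1) (nat_lit 4) (nat_lit 234) (nat_lit 203) (nat_lit 163)) (XT.lf (nat_lit 0) (nat_lit 52656546620) (nat_lit 152) (nat_lit 106008097077) (nat_lit 0) (nat_lit 38801888728) (nat_lit 1) (nat_lit 5) (nat_lit 3) (nat_lit 4) (nat_lit 1) (nat_lit 4) (nat_lit 235) (nat_lit 203) (nat_lit 162))))) (XT.nd (nat_lit 312) (nat_lit 0) (nat_lit 0) (XT.nd (nat_lit 156) (nat_lit 0) (nat_lit 0) (XT.nd (nat_lit 78) (nat_lit 0) (nat_lit 0) (XT.lf (nat_lit 0) (nat_lit 65980278782) (nat_lit 152) (nat_lit 107824678528) (nat_lit 0) (nat_lit 52119735302) (nat_lit 1) (nat_lit 5) (nat_lit 3) (nat_lit 4) (nat_lit 1) (nat_lit 4) (nat_lit 236) (nat_lit 203) (nat_lit 161)) (XT.lf (nat_lit 0) (nat_lit 81296661317) (nat_lit 152) (nat_lit 109924829760) (nat_lit 0) (nat_lit 67430999934) (nat_lit 1) (nat_lit 5) (nat_lit 3) (nat_lit 4) (nat_lit 1) (nat_lit 4) (nat_lit 237) (nat_lit 203) (nat_lit 160))) (XT.nd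 (nat_lit 78) (nat_lit 0) (nat_lit 0) (XT.lf (nat_lit 0) (nat_lit 98905362578) (nat_lit 152) (nat_lit 112349640691) (nat_lit 0) (nat_lit 85035250844) (nat_lit 1) (nat_lit 5) (nat_lit 3) (nat_lit 4) (nat_lit 1) (nat_lit 4) (nat_lit 238) (nat_lit 203) (nat_lit 159)) (XT.lf (nat_lit 0) (nat_lit 119150900633) (nat_lit 152) (nat_lit 115146553273) (nat_lit 0) (nat_lit 105276919029) (nat_lit 1) (nat_lit 5) (nat_lit 3) (nat_lit 4) (nat_lit 1) (nat_lit 4) (nat_lit 239) (nat_lit 203) (nat_lit 158)))) (XT.nd (nat_lit 156) (nat_lit 0) (nat_lit 0) (XT.nd (nat_lit 78) (nat_lit 0) (nat_lit 0) (XT.lf (nat_lit 0) (nat_lit 142429383835) (nat_lit 152) (nat_lit 118370289708) (nat_lit 0) (nat_lit 128552037126) (nat_lit 1) (nat_lit 5) (nat_lit 3) (nat_lit 4) (nat_lit 1) (nat_lit 4) (nat_lit 240) (nat_lit 203) (nat_lit 157)) (XT.lf (nat_lit 0) (nat_lit 169196260769) (nat_lit 152) (nat_lit 122083923100) (nat_lit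 0) (nat_lit 155315987882) (nat_lit 1) (nat_lit 5) (nat_lit 3) (nat_lit 4) (nat_lit 1) (nat_lit 4) (nat_lit 241) (nat_lit 203) (nat_lit 156))) (XT.nd (nat_lit 78) (nat_lit 0) (nat_lit 0) (XT.lf (nat_lit 0) (nat_lit 199975231200) (nat_lit 152) (nat_lit 126360111495) (nat_lit 0) (nat_lit 186092413811) (nat_lit 1) (nat_lit 5) (nat_lit 3) (nat_lit 4) (nat_lit 1) (nat_lit 4) (nat_lit 242) (nat_lit 203) (nat_lit 155)) (XT.lf (nat_lit 0) (nat_lit 235368492377) (nat_lit 152) (nat_lit 131282519448) (nat_lit 0) (nat_lit 221483462377) (nat_lit 1) (nat_lit 5) (nat_lit 3) (nat_lit 4) (nat_lit 1) (nat_lit 4) (nat_lit 243) (nat_lit 203) (nat_lit 154)))))) (XT.nd (nat_lit 546) (nat_lit 0) (nat_lit 0) (XT.nd (nat_lit 234) (nat_lit 0) (nat_lit 0) (XT.nd (nat_lit 78) (nat_lit 0) (nat_lit 0) (XT.lf (nat_lit 0) (nat_lit 276068521148) (nat_lit 152) (nat_lit 136947454941) (nat_lit 0) (nat_lit 262181567139)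 (nat_lit 1) (nat_lit 5) (nat_lit 3) (nat_lit 4) (nat_lit 1) (nat_lit 4) (nat_lit 244) (nat_lit 203) (nat_lit 153)) (XT.nd (nat_lit 78) (nat_lit 0) (nat_lit 0) (XT.lf (nat_lit 0) (nat_lit 322871622425) (nat_lit 152) (nat_lit 143465753667) (nat_lit 0) (nat_lit 308982995364) (nat_lit 1) (nat_lit 5) (nat_lit 3) (nat_lit 4) (nat_lit 1) (nat_lit 4) (nat_lit 245) (nat_lit 203) (nat_lit 152)) (XT.lf (nat_lit 0) (nat_lit 376693509058) (nat_lit 152) (nat_lit 150964947560) (nat_lit 0) (nat_lit 362803427169) (nat_lit 1) (nat_lit 5) (nat_lit 3) (nat_lit 4) (nat_lit 1) (nat_lit 4) (nat_lit 246) (nat_lit 203) (nat_lit 151)))) (XT.nd (nat_lit 156) (nat_lit 0) (nat_lit 0) (XT.nd (nat_lit 78) (nat_lit 0) (nat_lit 0) (XT.lf (nat_lit 0) (nat_lit 438587217959) (nat_lit 152) (nat_lit 159591759976) (nat_lit 0) (nat_lit 424695871003) (nat_lit 1) (nat_lit 5) (nat_lit 3) (nat_lit 4) (nat_lit 1) (nat_lit 4)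 (nat_lit 247) (nat_lit 203) (nat_lit 150)) (XT.lf (nat_lit 0) (nat_lit 509763712999) (nat_lit 152) (nat_lit 169514976377) (nat_lit 0) (nat_lit 495871265985) (nat_lit 1) (nat_lit 5) (nat_lit 3) (nat_lit 4) (nat_lit 1) (nat_lit 4) (nat_lit 248) (nat_lit 203) (nat_lit 149))) (XT.nd (nat_lit 78) (nat_lit 0) (nat_lit 0) (XT.lf (nat_lit 0) (nat_lit 591615577776) (nat_lit 152) (nat_lit 180928746649) (nat_lit 0) (nat_lit 577722174189) (nat_lit 1) (nat_lit 5) (nat_lit 3) (nat_lit 4) (nat_lit 1) (nat_lit 4) (nat_lit 249) (nat_lit 203) (nat_lit 148)) (XT.lf (nat_lit 0) (nat_lit 685744261818) (nat_lit 152) (nat_lit 194056383689) (nat_lit 0) (nat_lit 671850026429) (nat_lit 1) (nat_lit 5) (nat_lit 3) (nat_lit 4) (nat_lit 1) (nat_lit 4) (nat_lit 250) (nat_lit 203) (nat_lit 147))))) (XT.nd (nat_lit 312) (nat_lit 0) (nat_lit 0) (XT.nd (nat_lit 156) (nat_lit 0) (nat_lit 0) (XT.nd (nat_lit 78) (nat_lit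 0) (nat_lit 0) (XT.lf (nat_lit 0) (nat_lit 793991413292) (nat_lit 152) (nat_lit 209154732568) (nat_lit 0) (nat_lit 780096454596) (nat_lit 1) (nat_lit 5) (nat_lit 3) (nat_lit 4) (nat_lit 1) (nat_lit 4) (nat_lit 251) (nat_lit 203) (nat_lit 146)) (XT.lf (nat_lit 0) (nat_lit 918474911247) (nat_lit 152) (nat_lit 226519195766) (nat_lit 0) (nat_lit 904579323589) (nat_lit 1) (nat_lit 5) (nat_lit 3) (nat_lit 4) (nat_lit 1) (nat_lit 4) (nat_lit 252) (nat_lit 203) (nat_lit 145))) (XT.nd (nat_lit 78) (nat_lit 0) (nat_lit 0) (XT.lf (nat_lit 0) (nat_lit 1061630302383) (nat_lit 152) (nat_lit 246489512778) (nat_lit 0) (nat_lit 1047734167802) (nat_lit 1) (nat_lit 5) (nat_lit 3) (nat_lit 4) (nat_lit 1) (nat_lit 4) (nat_lit 253) (nat_lit 203) (nat_lit 144)) (XT.lf (nat_lit 0) (nat_lit 1226258453049) (nat_lit 152) (nat_lit 269456407200) (nat_lit 0) (nat_lit 1212361842882) (nat_lit 1) (nat_lit 5) (nat_lit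 3) (nat_lit 4) (nat_lit 1) (nat_lit 4) (nat_lit 254) (nat_lit 203) (nat_lit 143)))) (XT.nd (nat_lit 156) (nat_lit 0) (nat_lit 0) (XT.nd (nat_lit 78) (nat_lit 0) (nat_lit 0) (XT.lf (nat_lit 0) (nat_lit 1415580348801) (nat_lit 152) (nat_lit 295869231313) (nat_lit 0) (nat_lit 1401683325081) (nat_lit 1) (nat_lit 5) (nat_lit 3) (nat_lit 4) (nat_lit 1) (nat_lit 4) (nat_lit 255) (nat_lit 203) (nat_lit 142)) (XT.lf (nat_lit 0) (nat_lit 1633300113686) (nat_lit 152) (nat_lit 326244757763) (nat_lit 0) (nat_lit 1619402730355) (nat_lit 1) (nat_lit 5) (nat_lit 3) (nat_lit 4) (nat_lit 1) (nat_lit 4) (nat_lit 256) (nat_lit 203) (nat_lit 141))) (XT.nd (nat_lit 78) (nat_lit 0) (nat_lit 0) (XT.lf (nat_lit 0) (nat_lit 1883677482234) (nat_lit 152) (nat_lit 361177290329) (nat_lit 0) (nat_lit 1869779786198) (nat_lit 1) (nat_lit 5) (nat_lit 3) (nat_lit 4) (nat_lit 1) (nat_lit 4) (nat_lit 257) (nat_lit 203)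 (nat_lit 140)) (XT.lf (nat_lit 0) (nat_lit 2171611142092) (nat_lit 152) (nat_lit 401350291603) (nat_lit 0) (nat_lit 2157713174137) (nat_lit 1) (nat_lit 5) (nat_lit 3) (nat_lit 4) (nat_lit 1) (nat_lit 4) (nat_lit 258) (nat_lit 203) (nat_lit 139))))))) (XT.nd (nat_lit 1248) (nat_lit 0) (nat_lit 0) (XT.nd (nat_lit 546) (nat_lit 0) (nat_lit 0) (XT.nd (nat_lit 234) (nat_lit 0) (nat_lit 0) (XT.nd (nat_lit 78) (nat_lit 0) (nat_lit 0) (XT.lf (nat_lit 0) (nat_lit 2502734577907) (nat_lit 152) (nat_lit 447549755090) (nat_lit 0) (nat_lit 2488836373503) (nat_lit 1) (nat_lit 5) (nat_lit 3) (nat_lit 4) (nat_lit 1) (nat_lit 4) (nat_lit 259) (nat_lit 203) (nat_lit 138)) (XT.nd (nat_lit 78) (nat_lit 0) (nat_lit 0) (XT.lf (nat_lit 0) (nat_lit 2883526291687) (nat_lit 152) (nat_lit 500679583335) (nat_lit 0) (nat_lit 2869627881674) (nat_lit 1) (nat_lit 5) (nat_lit 3) (nat_lit 4) (nat_lit 1) (nat_lit 4)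 (nat_lit 260) (nat_lit 203) (nat_lit 137)) (XT.lf (nat_lit 0) (nat_lit 3321436556091) (nat_lit 152) (nat_lit 561779272978) (nat_lit 0) (nat_lit 3307537967287) (nat_lit 1) (nat_lit 5) (nat_lit 3) (nat_lit 4) (nat_lit 1) (nat_lit 4) (nat_lit 261) (nat_lit 203) (nat_lit 136)))) (XT.nd (nat_lit 156) (nat_lit 0) (nat_lit 0) (XT.nd (nat_lit 78) (nat_lit 0) (nat_lit 0) (XT.lf (nat_lit 0) (nat_lit 3825033180640) (nat_lit 152) (nat_lit 632044252730) (nat_lit 0) (nat_lit 3811134436367) (nat_lit 1) (nat_lit 5) (nat_lit 3) (nat_lit 4) (nat_lit 1) (nat_lit 4) (nat_lit 262) (nat_lit 203) (nat_lit 135)) (XT.lf (nat_lit 0) (nat_lit 4404169142771) (nat_lit 152) (nat_lit 712849272195) (nat_lit 0) (nat_lit 4390270263307) (nat_lit 1) (nat_lit 5) (nat_lit 3) (nat_lit 4) (nat_lit 1) (nat_lit 4) (nat_lit 263) (nat_lit 203) (nat_lit 134))) (XT.nd (nat_lit 78) (nat_lit 0) (nat_lit 0) (XT.lf (nat_lit 0) (nat_lit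 5070175363483) (nat_lit 152) (nat_lit 805775299144) (nat_lit 0) (nat_lit 5056276366461) (nat_lit 1) (nat_lit 5) (nat_lit 3) (nat_lit 4) (nat_lit 1) (nat_lit 4) (nat_lit 264) (nat_lit 203) (nat_lit 133)) (XT.lf (nat_lit 0) (nat_lit 5836082399267) (nat_lit 152) (nat_lit 912640451496) (nat_lit 0) (nat_lit 5822183300022) (nat_lit 1) (nat_lit 5) (nat_lit 3) (nat_lit 4) (nat_lit 1) (nat_lit 4) (nat_lit 265) (nat_lit 203) (nat_lit 132))))) (XT.nd (nat_lit 390) (nat_lit 0) (nat_lit 0) (XT.nd (nat_lit 156) (nat_lit 0) (nat_lit 0) (XT.nd (nat_lit 78) (nat_lit 0) (nat_lit 0) (XT.lf (nat_lit 0) (nat_lit 6716875387781) (nat_lit 152) (nat_lit 1035535569189) (nat_lit 0) (nat_lit 6702976199645) (nat_lit 1) (nat_lit 5) (nat_lit 3) (nat_lit 4) (nat_lit 1) (nat_lit 4) (nat_lit 266) (nat_lit 203) (nat_lit 131)) (XT.lf (nat_lit 0) (nat_lit 7729787235321) (nat_lit 152) (nat_lit 1176865121916) (nat_lit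 0) (nat_lit 7715887969889) (nat_lit 1) (nat_lit 5) (nat_lit 3) (nat_lit 4) (nat_lit 1) (nat_lit 4) (nat_lit 267) (nat_lit 203) (nat_lit 130))) (XT.nd (nat_lit 156) (nat_lit 0) (nat_lit 0) (XT.lf (nat_lit 0) (nat_lit 8894635782382) (nat_lit 152) (nat_lit 1339394253101) (nat_lit 0) (nat_lit 8880736449736) (nat_lit 1) (nat_lit 5) (nat_lit 3) (nat_lit 4) (nat_lit 1) (nat_lit 4) (nat_lit 268) (nat_lit 203) (nat_lit 129)) (XT.lf (nat_lit 0) (nat_lit 11774723611212) (nat_lit 152) (nat_lit 1741247912123) (nat_lit 0) (nat_lit 11760824169296) (nat_lit 1) (nat_lit 5) (nat_lit 3) (nat_lit 4) (nat_lit 1) (nat_lit 4) (nat_lit 270) (nat_lit 203) (nat_lit 127)))) (XT.nd (nat_lit 156) (nat_lit 0) (nat_lit 0) (XT.nd (nat_lit 78) (nat_lit 0) (nat_lit 0) (XT.lf (nat_lit 0) (nat_lit 13546312437458) (nat_lit 152) (nat_lit 1988434794159) (nat_lit 0) (nat_lit 13532412951347) (nat_lit 1) (nat_lit 5) (nat_lit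 3) (nat_lit 4) (nat_lit 1) (nat_lit 4) (nat_lit 271) (nat_lit 203) (nat_lit 126)) (XT.lf (nat_lit 0) (nat_lit 15583639543267) (nat_lit 152) (nat_lit 2272699791717) (nat_lit 0) (nat_lit 15569740018727) (nat_lit 1) (nat_lit 5) (nat_lit 3) (nat_lit 4) (nat_lit 1) (nat_lit 4) (nat_lit 272) (nat_lit 203) (nat_lit 125))) (XT.nd (nat_lit 78) (nat_lit 0) (nat_lit 0) (XT.lf (nat_lit 0) (nat_lit 17926565676361) (nat_lit 152) (nat_lit 2599604611273) (nat_lit 0) (nat_lit 17912666118404) (nat_lit 1) (nat_lit 5) (nat_lit 3) (nat_lit 4) (nat_lit 1) (nat_lit 4) (nat_lit 273) (nat_lit 203) (nat_lit 124)) (XT.lf (nat_lit 0) (nat_lit 20620930695868) (nat_lit 152) (nat_lit 2975545216686) (nat_lit 0) (nat_lit 20607031108852) (nat_lit 1) (nat_lit 5) (nat_lit 3) (nat_lit 4) (nat_lit 1) (nat_lit 4) (nat_lit 274) (nat_lit 203) (nat_lit 123)))))) (XT.nd (nat_lit 26130) (nat_lit 0) (nat_lit 456) (XT.nd (nat_lit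 25818) (nat_lit 0) (nat_lit 1064) (XT.nd (nat_lit 78) (nat_lit 0) (nat_lit 0) (XT.lf (nat_lit 0) (nat_lit 23719450439124) (nat_lit 152) (nat_lit 3407876967628) (nat_lit 0) (nat_lit 23705550826840) (nat_lit 1) (nat_lit 5) (nat_lit 3) (nat_lit 4) (nat_lit 1) (nat_lit 4) (nat_lit 275) (nat_lit 203) (nat_lit 122)) (XT.nd (nat_lit 25662) (nat_lit 0) (nat_lit 1064) (XT.lf (nat_lit 0) (nat_lit 27282748118497) (nat_lit 152) (nat_lit 3905058528792) (nat_lit 0) (nat_lit 27268848484241) (nat_lit 1) (nat_lit 5) (nat_lit 3) (nat_lit 4) (nat_lit 1) (nat_lit 4) (nat_lit 276) (nat_lit 203) (nat_lit 121)) (XT.lf (nat_lit 0) (nat_lit 284286611) (nat_lit 0) (nat_lit 284286611) (nat_lit 228) (nat_lit 3439947495) (nat_lit 15) (nat_lit 5) (nat_lit 15) (nat_lit 3) (nat_lit 18) (nat_lit 3) (nat_lit 204) (nat_lit 204) (nat_lit 192)))) (XT.nd (nat_lit 156) (nat_lit 0) (nat_lit 0) (XT.nd (nat_lit 78) (nat_lit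 0) (nat_lit 0) (XT.lf (nat_lit 0) (nat_lit 2335383587) (nat_lit 228) (nat_lit 4220021035) (nat_lit 304) (nat_lit 1880269056) (nat_lit 15) (nat_lit 5) (nat_lit 18) (nat_lit 3) (nat_lit 19) (nat_lit 5) (nat_lit 205) (nat_lit 204) (nat_lit 191)) (XT.lf (nat_lit 0) (nat_lit 3561271418) (nat_lit 228) (nat_lit 659881336) (nat_lit 304) (nat_lit 4721556748) (nat_lit 15) (nat_lit 5) (nat_lit 18) (nat_lit 3) (nat_lit 19) (nat_lit 5) (nat_lit 206) (nat_lit 204) (nat_lit 190))) (XT.nd (nat_lit 78) (nat_lit 0) (nat_lit 76) (XT.lf (nat_lit 76) (nat_lit 3650106955) (nat_lit 0) (nat_lit 1316287486) (nat_lit 304) (nat_lit 4562534772) (nat_lit 16) (nat_lit 5) (nat_lit 15) (nat_lit 5) (nat_lit 19) (nat_lit 5) (nat_lit 207) (nat_lit 204) (nat_lit 189)) (XT.lf (nat_lit 0) (nat_lit 6563935262) (nat_lit 228) (nat_lit 1731343641) (nat_lit 76) (nat_lit 1912669765) (nat_lit 16) (nat_lit 5) (nat_lit 19) (nat_lit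 5) (nat_lit 17) (nat_lit 5) (nat_lit 208) (nat_lit 204) (nat_lit 188))))) (XT.nd (nat_lit 312) (nat_lit 228) (nat_lit 0) (XT.nd (nat_lit 156) (nat_lit 228) (nat_lit 0) (XT.nd (nat_lit 78) (nat_lit 0) (nat_lit 0) (XT.lf (nat_lit 0) (nat_lit 3143496407) (nat_lit 228) (nat_lit 5330187703) (nat_lit 304) (nat_lit 2506088820) (nat_lit 13) (nat_lit 5) (nat_lit 16) (nat_lit 5) (nat_lit 17) (nat_lit 5) (nat_lit 209) (nat_lit 204) (nat_lit 187)) (XT.lf (nat_lit 0) (nat_lit 8837294077) (nat_lit 228) (nat_lit 1814097239) (nat_lit 304) (nat_lit 1220353739) (nat_lit 13) (nat_lit 5) (nat_lit 16) (nat_lit 5) (nat_lit 17) (nat_lit 5) (nat_lit 210) (nat_lit 204) (nat_lit 186))) (XT.nd (nat_lit 78) (nat_lit 0) (nat_lit 0) (XT.lf (nat_lit 0) (nat_lit 340367789) (nat_lit 228) (nat_lit 10388929483) (nat_lit 76) (nat_lit 2152053040) (nat_lit 10) (nat_lit 5) (nat_lit 13) (nat_lit 5) (nat_lit 11) (nat_lit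 5) (nat_lit 211) (nat_lit 204) (nat_lit 185)) (XT.lf (nat_lit 0) (nat_lit 2170938129) (nat_lit 228) (nat_lit 5094990984) (nat_lit 76) (nat_lit 6744699323) (nat_lit 10) (nat_lit 5) (nat_lit 13) (nat_lit 5) (nat_lit 11) (nat_lit 5) (nat_lit 212) (nat_lit 204) (nat_lit 184)))) (XT.nd (nat_lit 156) (nat_lit 76) (nat_lit 0) (XT.nd (nat_lit 78) (nat_lit 0) (nat_lit 0) (XT.lf (nat_lit 0) (nat_lit 981562129) (nat_lit 152) (nat_lit 3255283818) (nat_lit 228) (nat_lit 11079253565) (nat_lit 8) (nat_lit 5) (nat_lit 10) (nat_lit 5) (nat_lit 11) (nat_lit 5) (nat_lit 213) (nat_lit 204) (nat_lit 183)) (XT.lf (nat_lit 0) (nat_lit 6873591720) (nat_lit 228) (nat_lit 8409407751) (nat_lit 76) (nat_lit 1496043812) (nat_lit 8) (nat_lit 5) (nat_lit 11) (nat_lit 5) (nat_lit 9) (nat_lit 4) (nat_lit 214) (nat_lit 204) (nat_lit 182))) (XT.nd (nat_lit 78) (nat_lit 76) (nat_lit 0) (XT.lf (nat_lit 0) (nat_lit 9996299066)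 (nat_lit 228) (nat_lit 1842087840) (nat_lit 76) (nat_lit 6610165390) (nat_lit 8) (nat_lit 5) (nat_lit 11) (nat_lit 5) (nat_lit 9) (nat_lit 4) (nat_lit 215) (nat_lit 204) (nat_lit 181)) (XT.lf (nat_lit 0) (nat_lit 6180981463) (nat_lit 76) (nat_lit 7606229870) (nat_lit 152) (nat_lit 6551907488) (nat_lit 7) (nat_lit 5) (nat_lit 8) (nat_lit 5) (nat_lit 9) (nat_lit 4) (nat_lit 216) (nat_lit 204) (nat_lit 180))))))))
noncomputable def xc30 : XT := (XT.nd (nat_lit 2262) (nat_lit 0) (nat_lit 0) (XT.nd (nat_lit 1092) (nat_lit 76) (nat_lit 0) (XT.nd (nat_lit 546) (nat_lit 152) (nat_lit 0) (XT.nd (nat_lit 234) (nat_lit 76) (nat_lit 0) (XT.nd (nat_lit 78) (nat_lit 152) (nat_lit 0) (XT.lf (nat_lit 0) (nat_lit 15538533607) (nat_lit 76) (nat_lit 2652551149) (nat_lit 152) (nat_lit 4316059517) (nat_lit 7) (nat_lit 5) (nat_lit 8) (nat_lit 5) (nat_lit 9) (nat_lit 4) (nat_lit 217) (nat_lit 204) (nat_lit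 179)) (XT.nd (nat_lit 78) (nat_lit 76) (nat_lit 0) (XT.lf (nat_lit 0) (nat_lit 1208416801) (nat_lit 76) (nat_lit 22177159470) (nat_lit 76) (nat_lit 1595746141) (nat_lit 6) (nat_lit 4) (nat_lit 7) (nat_lit 5) (nat_lit 7) (nat_lit 4) (nat_lit 218) (nat_lit 204) (nat_lit 178)) (XT.lf (nat_lit 0) (nat_lit 1858782587) (nat_lit 152) (nat_lit 16657867596) (nat_lit 76) (nat_lit 9231409520) (nat_lit 5) (nat_lit 5) (nat_lit 7) (nat_lit 5) (nat_lit 6) (nat_lit 4) (nat_lit 219) (nat_lit 204) (nat_lit 177)))) (XT.nd (nat_lit 156) (nat_lit 0) (nat_lit 0) (XT.nd (nat_lit 78) (nat_lit 76) (nat_lit 0) (XT.lf (nat_lit 0) (nat_lit 5628713060) (nat_lit 152) (nat_lit 8615853454) (nat_lit 76) (nat_lit 16680052215) (nat_lit 5) (nat_lit 5) (nat_lit 7) (nat_lit 5) (nat_lit 6) (nat_lit 4) (nat_lit 220) (nat_lit 204) (nat_lit 176)) (XT.lf (nat_lit 0) (nat_lit 632902359) (nat_lit 76) (nat_lit 9323173920) (nat_lit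 152) (nat_lit 24623053677) (nat_lit 4) (nat_lit 5) (nat_lit 5) (nat_lit 5) (nat_lit 6) (nat_lit 4) (nat_lit 221) (nat_lit 204) (nat_lit 175))) (XT.nd (nat_lit 78) (nat_lit 0) (nat_lit 0) (XT.lf (nat_lit 0) (nat_lit 12183911360) (nat_lit 76) (nat_lit 3167002314) (nat_lit 152) (nat_lit 23368374669) (nat_lit 4) (nat_lit 5) (nat_lit 5) (nat_lit 5) (nat_lit 6) (nat_lit 4) (nat_lit 222) (nat_lit 204) (nat_lit 174)) (XT.lf (nat_lit 0) (nat_lit 21688389815) (nat_lit 152) (nat_lit 18224916861) (nat_lit 0) (nat_lit 3547348307) (nat_lit 4) (nat_lit 5) (nat_lit 6) (nat_lit 4) (nat_lit 4) (nat_lit 4) (nat_lit 223) (nat_lit 204) (nat_lit 173))))) (XT.nd (nat_lit 234) (nat_lit 76) (nat_lit 0) (XT.nd (nat_lit 78) (nat_lit 76) (nat_lit 0) (XT.lf (nat_lit 0) (nat_lit 29102428245) (nat_lit 152) (nat_lit 8862180715) (nat_lit 0) (nat_lit 10929897364) (nat_lit 4) (nat_lit 5) (nat_lit 6) (nat_lit 4) (nat_lit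 4) (nat_lit 4) (nat_lit 224) (nat_lit 204) (nat_lit 172)) (XT.nd (nat_lit 78) (nat_lit 0) (nat_lit 0) (XT.lf (nat_lit 0) (nat_lit 2049626124) (nat_lit 76) (nat_lit 35642191948) (nat_lit 76) (nat_lit 17442279005) (nat_lit 3) (nat_lit 4) (nat_lit 4) (nat_lit 5) (nat_lit 4) (nat_lit 4) (nat_lit 225) (nat_lit 204) (nat_lit 171)) (XT.lf (nat_lit 0) (nat_lit 15558099345) (nat_lit 76) (nat_lit 32454468494) (nat_lit 76) (nat_lit 14230745061) (nat_lit 3) (nat_lit 4) (nat_lit 4) (nat_lit 5) (nat_lit 4) (nat_lit 4) (nat_lit 226) (nat_lit 204) (nat_lit 170)))) (XT.nd (nat_lit 156) (nat_lit 76) (nat_lit 0) (XT.nd (nat_lit 78) (nat_lit 0) (nat_lit 0) (XT.lf (nat_lit 0) (nat_lit 31061458412) (nat_lit 76) (nat_lit 28802320450) (nat_lit 76) (nat_lit 10557892244) (nat_lit 3) (nat_lit 4) (nat_lit 4) (nat_lit 5) (nat_lit 4) (nat_lit 4) (nat_lit 227) (nat_lit 204) (nat_lit 169)) (XT.lf (nat_lit 0) (nat_lit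 48863029914) (nat_lit 76) (nat_lit 24614292747) (nat_lit 76) (nat_lit 6351860391) (nat_lit 3) (nat_lit 4) (nat_lit 4) (nat_lit 5) (nat_lit 4) (nat_lit 4) (nat_lit 228) (nat_lit 204) (nat_lit 168))) (XT.nd (nat_lit 78) (nat_lit 76) (nat_lit 0) (XT.lf (nat_lit 0) (nat_lit 69311105468) (nat_lit 76) (nat_lit 19808445712) (nat_lit 76) (nat_lit 1530357572) (nat_lit 3) (nat_lit 4) (nat_lit 4) (nat_lit 5) (nat_lit 4) (nat_lit 4) (nat_lit 229) (nat_lit 204) (nat_lit 167)) (XT.lf (nat_lit 0) (nat_lit 3644757727) (nat_lit 152) (nat_lit 10455472748) (nat_lit 76) (nat_lit 88970476962) (nat_lit 2) (nat_lit 5) (nat_lit 4) (nat_lit 5) (nat_lit 3) (nat_lit 4) (nat_lit 230) (nat_lit 204) (nat_lit 166)))))) (XT.nd (nat_lit 546) (nat_lit 0) (nat_lit 0) (XT.nd (nat_lit 234) (nat_lit 0) (nat_lit 0) (XT.nd (nat_lit 78) (nat_lit 0) (nat_lit 0) (XT.lf (nat_lit 0) (nat_lit 2160814484) (nat_lit 76) (nat_lit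 7357489873) (nat_lit 152) (nat_lit 107813619766) (nat_lit 1) (nat_lit 5) (nat_lit 2) (nat_lit 5) (nat_lit 3) (nat_lit 4) (nat_lit 231) (nat_lit 204) (nat_lit 165)) (XT.nd (nat_lit 78) (nat_lit 0) (nat_lit 0) (XT.lf (nat_lit 0) (nat_lit 16851533835) (nat_lit 152) (nat_lit 115867579459) (nat_lit 0) (nat_lit 926460951) (nat_lit 1) (nat_lit 5) (nat_lit 3) (nat_lit 4) (nat_lit 1) (nat_lit 4) (nat_lit 232) (nat_lit 204) (nat_lit 164)) (XT.lf (nat_lit 0) (nat_lit 25626116857) (nat_lit 152) (nat_lit 117035731608) (nat_lit 0) (nat_lit 9693260282) (nat_lit 1) (nat_lit 5) (nat_lit 3) (nat_lit 4) (nat_lit 1) (nat_lit 4) (nat_lit 233) (nat_lit 204) (nat_lit 163)))) (XT.nd (nat_lit 156) (nat_lit 0) (nat_lit 0) (XT.nd (nat_lit 78) (nat_lit 0) (nat_lit 0) (XT.lf (nat_lit 0) (nat_lit 35709072081) (nat_lit 152) (nat_lit 118393763272) (nat_lit 0) (nat_lit 19769447079) (nat_lit 1) (nat_lit 5) (nat_lit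 3) (nat_lit 4) (nat_lit 1) (nat_lit 4) (nat_lit 234) (nat_lit 204) (nat_lit 162)) (XT.lf (nat_lit 0) (nat_lit 47297674718) (nat_lit 152) (nat_lit 119968244634) (nat_lit 0) (nat_lit 31352164127) (nat_lit 1) (nat_lit 5) (nat_lit 3) (nat_lit 4) (nat_lit 1) (nat_lit 4) (nat_lit 235) (nat_lit 204) (nat_lit 161))) (XT.nd (nat_lit 78) (nat_lit 0) (nat_lit 0) (XT.lf (nat_lit 0) (nat_lit 60618658299) (nat_lit 152) (nat_lit 121789980766) (nat_lit 0) (nat_lit 44668029805) (nat_lit 1) (nat_lit 5) (nat_lit 3) (nat_lit 4) (nat_lit 1) (nat_lit 4) (nat_lit 236) (nat_lit 204) (nat_lit 160)) (XT.lf (nat_lit 0) (nat_lit 75932650762) (nat_lit 152) (nat_lit 123894614330) (nat_lit 0) (nat_lit 59977571917) (nat_lit 1) (nat_lit 5) (nat_lit 3) (nat_lit 4) (nat_lit 1) (nat_lit 4) (nat_lit 237) (nat_lit 204) (nat_lit 159))))) (XT.nd (nat_lit 312) (nat_lit 0) (nat_lit 0) (XT.nd (nat_lit 156) (nat_lit 0) (nat_lit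 0) (XT.nd (nat_lit 78) (nat_lit 0) (nat_lit 0) (XT.lf (nat_lit 0) (nat_lit 93539273699) (nat_lit 152) (nat_lit 126323322941) (nat_lit 0) (nat_lit 77580324984) (nat_lit 1) (nat_lit 5) (nat_lit 3) (nat_lit 4) (nat_lit 1) (nat_lit 4) (nat_lit 238) (nat_lit 204) (nat_lit 158)) (XT.lf (nat_lit 0) (nat_lit 113783004516) (nat_lit 152) (nat_lit 129123624809) (nat_lit 0) (nat_lit 97820690697) (nat_lit 1) (nat_lit 5) (nat_lit 3) (nat_lit 4) (nat_lit 1) (nat_lit 4) (nat_lit 239) (nat_lit 204) (nat_lit 157))) (XT.nd (nat_lit 78) (nat_lit 0) (nat_lit 0) (XT.lf (nat_lit 0) (nat_lit 137059916208) (nat_lit 152) (nat_lit 132350308450) (nat_lit 0) (nat_lit 121094676210) (nat_lit 1) (nat_lit 5) (nat_lit 3) (nat_lit 4) (nat_lit 1) (nat_lit 4) (nat_lit 240) (nat_lit 204) (nat_lit 156)) (XT.lf (nat_lit 0) (nat_lit 163825426610) (nat_lit 152) (nat_lit 136066504630) (nat_lit 0) (nat_lit 147857642110) (nat_lit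 1) (nat_lit 5) (nat_lit 3) (nat_lit 4) (nat_lit 1) (nat_lit 4) (nat_lit 241) (nat_lit 204) (nat_lit 155)))) (XT.nd (nat_lit 156) (nat_lit 0) (nat_lit 0) (XT.nd (nat_lit 78) (nat_lit 0) (nat_lit 0) (XT.lf (nat_lit 0) (nat_lit 194603208753) (nat_lit 152) (nat_lit 140344921536) (nat_lit 0) (nat_lit 178633211643) (nat_lit 1) (nat_lit 5) (nat_lit 3) (nat_lit 4) (nat_lit 1) (nat_lit 4) (nat_lit 242) (nat_lit 204) (nat_lit 154)) (XT.lf (nat_lit 0) (nat_lit 229995436636) (nat_lit 152) (nat_lit 145269267325) (nat_lit 0) (nat_lit 214023515516) (nat_lit 1) (nat_lit 5) (nat_lit 3) (nat_lit 4) (nat_lit 1) (nat_lit 4) (nat_lit 243) (nat_lit 204) (nat_lit 153))) (XT.nd (nat_lit 78) (nat_lit 0) (nat_lit 0) (XT.lf (nat_lit 0) (nat_lit 270694566891) (nat_lit 152) (nat_lit 150935887892) (nat_lit 0) (nat_lit 254720972720) (nat_lit 1) (nat_lit 5) (nat_lit 3) (nat_lit 4) (nat_lit 1) (nat_lit 4) (nat_lit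 244) (nat_lit 204) (nat_lit 152)) (XT.lf (nat_lit 0) (nat_lit 317496886849) (nat_lit 152) (nat_lit 157455651900) (nat_lit 0) (nat_lit 301521837850) (nat_lit 1) (nat_lit 5) (nat_lit 3) (nat_lit 4) (nat_lit 1) (nat_lit 4) (nat_lit 245) (nat_lit 204) (nat_lit 151))))))) (XT.nd (nat_lit 1170) (nat_lit 0) (nat_lit 0) (XT.nd (nat_lit 546) (nat_lit 0) (nat_lit 0) (XT.nd (nat_lit 234) (nat_lit 0) (nat_lit 0) (XT.nd (nat_lit 78) (nat_lit 0) (nat_lit 0) (XT.lf (nat_lit 0) (nat_lit 371318094074) (nat_lit 152) (nat_lit 164956119951) (nat_lit 0) (nat_lit 355341780008) (nat_lit 1) (nat_lit 5) (nat_lit 3) (nat_lit 4) (nat_lit 1) (nat_lit 4) (nat_lit 246) (nat_lit 204) (nat_lit 150)) (XT.nd (nat_lit 78) (nat_lit 0) (nat_lit 0) (XT.lf (nat_lit 0) (nat_lit 433211212186) (nat_lit 152) (nat_lit 173584040331) (nat_lit 0) (nat_lit 417233798061) (nat_lit 1) (nat_lit 5) (nat_lit 3) (nat_lit 4) (nat_lit 1)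 (nat_lit 4) (nat_lit 247) (nat_lit 204) (nat_lit 149)) (XT.lf (nat_lit 0) (nat_lit 504387193496) (nat_lit 152) (nat_lit 183508220179) (nat_lit 0) (nat_lit 488408822799) (nat_lit 1) (nat_lit 5) (nat_lit 3) (nat_lit 4) (nat_lit 1) (nat_lit 4) (nat_lit 248) (nat_lit 204) (nat_lit 148)))) (XT.nd (nat_lit 156) (nat_lit 0) (nat_lit 0) (XT.nd (nat_lit 78) (nat_lit 0) (nat_lit 0) (XT.lf (nat_lit 0) (nat_lit 586238611552) (nat_lit 152) (nat_lit 194922828231) (nat_lit 0) (nat_lit 570259409052) (nat_lit 1) (nat_lit 5) (nat_lit 3) (nat_lit 4) (nat_lit 1) (nat_lit 4) (nat_lit 249) (nat_lit 204) (nat_lit 147)) (XT.lf (nat_lit 0) (nat_lit 680366907140) (nat_lit 152) (nat_lit 208051193775) (nat_lit 0) (nat_lit 664386981334) (nat_lit 1) (nat_lit 5) (nat_lit 3) (nat_lit 4) (nat_lit 1) (nat_lit 4) (nat_lit 250) (nat_lit 204) (nat_lit 146))) (XT.nd (nat_lit 78) (nat_lit 0) (nat_lit 0) (XT.lf (nat_lit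 0) (nat_lit 788613720828) (nat_lit 152) (nat_lit 223150176136) (nat_lit 0) (nat_lit 772633166060) (nat_lit 1) (nat_lit 5) (nat_lit 3) (nat_lit 4) (nat_lit 1) (nat_lit 4) (nat_lit 251) (nat_lit 204) (nat_lit 145)) (XT.lf (nat_lit 0) (nat_lit 913096925057) (nat_lit 152) (nat_lit 240515190187) (nat_lit 0) (nat_lit 897115823365) (nat_lit 1) (nat_lit 5) (nat_lit 3) (nat_lit 4) (nat_lit 1) (nat_lit 4) (nat_lit 252) (nat_lit 204) (nat_lit 144))))) (XT.nd (nat_lit 312) (nat_lit 0) (nat_lit 0) (XT.nd (nat_lit 156) (nat_lit 0) (nat_lit 0) (XT.nd (nat_lit 78) (nat_lit 0) (nat_lit 0) (XT.lf (nat_lit 0) (nat_lit 1056252060779) (nat_lit 152) (nat_lit 260485986203) (nat_lit 0) (nat_lit 1040270483501) (nat_lit 1) (nat_lit 5) (nat_lit 3) (nat_lit 4) (nat_lit 1) (nat_lit 4) (nat_lit 253) (nat_lit 204) (nat_lit 143)) (XT.lf (nat_lit 0) (nat_lit 1220879989345) (nat_lit 152) (nat_lit 283453297150) (nat_lit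 0) (nat_lit 1204897998515) (nat_lit 1) (nat_lit 5) (nat_lit 3) (nat_lit 4) (nat_lit 1) (nat_lit 4) (nat_lit 254) (nat_lit 204) (nat_lit 142))) (XT.nd (nat_lit 78) (nat_lit 0) (nat_lit 0) (XT.lf (nat_lit 0) (nat_lit 1410201691967) (nat_lit 152) (nat_lit 309866483458) (nat_lit 0) (nat_lit 1394219341525) (nat_lit 1) (nat_lit 5) (nat_lit 3) (nat_lit 4) (nat_lit 1) (nat_lit 4) (nat_lit 255) (nat_lit 204) (nat_lit 141)) (XT.lf (nat_lit 0) (nat_lit 1627921288913) (nat_lit 152) (nat_lit 340242324861) (nat_lit 0) (nat_lit 1611938625766) (nat_lit 1) (nat_lit 5) (nat_lit 3) (nat_lit 4) (nat_lit 1) (nat_lit 4) (nat_lit 256) (nat_lit 204) (nat_lit 140)))) (XT.nd (nat_lit 156) (nat_lit 0) (nat_lit 0) (XT.nd (nat_lit 78) (nat_lit 0) (nat_lit 0) (XT.lf (nat_lit 0) (nat_lit 1878298511427) (nat_lit 152) (nat_lit 375175131298) (nat_lit 0) (nat_lit 1862315576362) (nat_lit 1) (nat_lit 5) (nat_lit 3) (nat_lit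 4) (nat_lit 1) (nat_lit 4) (nat_lit 257) (nat_lit 204) (nat_lit 139)) (XT.lf (nat_lit 0) (nat_lit 2166232044298) (nat_lit 152) (nat_lit 415348370722) (nat_lit 0) (nat_lit 2150248872783) (nat_lit 1) (nat_lit 5) (nat_lit 3) (nat_lit 4) (nat_lit 1) (nat_lit 4) (nat_lit 258) (nat_lit 204) (nat_lit 138))) (XT.nd (nat_lit 78) (nat_lit 0) (nat_lit 0) (XT.lf (nat_lit 0) (nat_lit 2497355369691) (nat_lit 152) (nat_lit 461548041294) (nat_lit 0) (nat_lit 2481371992568) (nat_lit 1) (nat_lit 5) (nat_lit 3) (nat_lit 4) (nat_lit 1) (nat_lit 4) (nat_lit 259) (nat_lit 204) (nat_lit 137)) (XT.lf (nat_lit 0) (nat_lit 2878146987451) (nat_lit 152) (nat_lit 514678049615) (nat_lit 0) (nat_lit 2862163431537) (nat_lit 1) (nat_lit 5) (nat_lit 3) (nat_lit 4) (nat_lit 1) (nat_lit 4) (nat_lit 260) (nat_lit 204) (nat_lit 136)))))) (XT.nd (nat_lit 546) (nat_lit 0) (nat_lit 0) (XT.nd (nat_lit 234) (nat_lit 0) (nat_lit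 0) (XT.nd (nat_lit 78) (nat_lit 0) (nat_lit 0) (XT.lf (nat_lit 0) (nat_lit 3316057168359) (nat_lit 152) (nat_lit 575777895845) (nat_lit 0) (nat_lit 3300073456975) (nat_lit 1) (nat_lit 5) (nat_lit 3) (nat_lit 4) (nat_lit 1) (nat_lit 4) (nat_lit 261) (nat_lit 204) (nat_lit 135)) (XT.nd (nat_lit 78) (nat_lit 0) (nat_lit 0) (XT.lf (nat_lit 0) (nat_lit 3819653720304) (nat_lit 152) (nat_lit 646043011760) (nat_lit 0) (nat_lit 3803669873729) (nat_lit 1) (nat_lit 5) (nat_lit 3) (nat_lit 4) (nat_lit 1) (nat_lit 4) (nat_lit 262) (nat_lit 204) (nat_lit 134)) (XT.lf (nat_lit 0) (nat_lit 4398789619301) (nat_lit 152) (nat_lit 726848149627) (nat_lit 0) (nat_lit 4382805655168) (nat_lit 1) (nat_lit 5) (nat_lit 3) (nat_lit 4) (nat_lit 1) (nat_lit 4) (nat_lit 263) (nat_lit 204) (nat_lit 133)))) (XT.nd (nat_lit 156) (nat_lit 0) (nat_lit 0) (XT.nd (nat_lit 78) (nat_lit 0) (nat_lit 0) (XT.lf (nat_lit 0)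 (nat_lit 5064795785113) (nat_lit 152) (nat_lit 819774279534) (nat_lit 0) (nat_lit 5048811718756) (nat_lit 1) (nat_lit 5) (nat_lit 3) (nat_lit 4) (nat_lit 1) (nat_lit 4) (nat_lit 264) (nat_lit 204) (nat_lit 132)) (XT.lf (nat_lit 0) (nat_lit 5830702773158) (nat_lit 152) (nat_lit 926639521416) (nat_lit 0) (nat_lit 5814718617912) (nat_lit 1) (nat_lit 5) (nat_lit 3) (nat_lit 4) (nat_lit 1) (nat_lit 4) (nat_lit 265) (nat_lit 204) (nat_lit 131))) (XT.nd (nat_lit 78) (nat_lit 0) (nat_lit 0) (XT.lf (nat_lit 0) (nat_lit 6711495720160) (nat_lit 152) (nat_lit 1049534716960) (nat_lit 0) (nat_lit 6695511487617) (nat_lit 1) (nat_lit 5) (nat_lit 3) (nat_lit 4) (nat_lit 1) (nat_lit 4) (nat_lit 266) (nat_lit 204) (nat_lit 130)) (XT.lf (nat_lit 0) (nat_lit 7724407531603) (nat_lit 152) (nat_lit 1190864337384) (nat_lit 0) (nat_lit 7708423231846) (nat_lit 1) (nat_lit 5) (nat_lit 3) (nat_lit 4) (nat_lit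 1) (nat_lit 4) (nat_lit 267) (nat_lit 204) (nat_lit 129))))) (XT.nd (nat_lit 312) (nat_lit 0) (nat_lit 0) (XT.nd (nat_lit 156) (nat_lit 0) (nat_lit 0) (XT.nd (nat_lit 78) (nat_lit 0) (nat_lit 0) (XT.lf (nat_lit 0) (nat_lit 8889256047275) (nat_lit 152) (nat_lit 1353393527436) (nat_lit 0) (nat_lit 8873271689071) (nat_lit 1) (nat_lit 5) (nat_lit 3) (nat_lit 4) (nat_lit 1) (nat_lit 4) (nat_lit 268) (nat_lit 204) (nat_lit 128)) (XT.lf (nat_lit 0) (nat_lit 10228831781615) (nat_lit 152) (nat_lit 1540302206051) (nat_lit 0) (nat_lit 10212847372588) (nat_lit 1) (nat_lit 5) (nat_lit 3) (nat_lit 4) (nat_lit 1) (nat_lit 4) (nat_lit 269) (nat_lit 204) (nat_lit 127))) (XT.nd (nat_lit 78) (nat_lit 0) (nat_lit 0) (XT.lf (nat_lit 0) (nat_lit 11769343825076) (nat_lit 152) (nat_lit 1755247282158) (nat_lit 0) (nat_lit 11753359371854) (nat_lit 1) (nat_lit 5) (nat_lit 3) (nat_lit 4) (nat_lit 1) (nat_lit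 4) (nat_lit 270) (nat_lit 204) (nat_lit 126)) (XT.lf (nat_lit 0) (nat_lit 13540932630682) (nat_lit 152) (nat_lit 2002434202900) (nat_lit 0) (nat_lit 13524948139031) (nat_lit 1) (nat_lit 5) (nat_lit 3) (nat_lit 4) (nat_lit 1) (nat_lit 4) (nat_lit 271) (nat_lit 204) (nat_lit 125)))) (XT.nd (nat_lit 156) (nat_lit 0) (nat_lit 0) (XT.nd (nat_lit 78) (nat_lit 0) (nat_lit 0) (XT.lf (nat_lit 0) (nat_lit 15578259718544) (nat_lit 152) (nat_lit 2286699234115) (nat_lit 0) (nat_lit 15562275193476) (nat_lit 1) (nat_lit 5) (nat_lit 3) (nat_lit 4) (nat_lit 1) (nat_lit 4) (nat_lit 272) (nat_lit 204) (nat_lit 124)) (XT.lf (nat_lit 0) (nat_lit 17921185836033) (nat_lit 152) (nat_lit 2613604082938) (nat_lit 0) (nat_lit 17905201281907) (nat_lit 1) (nat_lit 5) (nat_lit 3) (nat_lit 4) (nat_lit 1) (nat_lit 4) (nat_lit 273) (nat_lit 204) (nat_lit 123))) (XT.nd (nat_lit 78) (nat_lit 0) (nat_lit 0) (XT.lf (nat_lit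 0) (nat_lit 20615550841969) (nat_lit 152) (nat_lit 2989544713801) (nat_lit 0) (nat_lit 20599566262574) (nat_lit 1) (nat_lit 5) (nat_lit 3) (nat_lit 4) (nat_lit 1) (nat_lit 4) (nat_lit 274) (nat_lit 204) (nat_lit 122)) (XT.lf (nat_lit 0) (nat_lit 23714070573425) (nat_lit 152) (nat_lit 3421876486874) (nat_lit 0) (nat_lit 23698085972058) (nat_lit 1) (nat_lit 5) (nat_lit 3) (nat_lit 4) (nat_lit 1) (nat_lit 4) (nat_lit 275) (nat_lit 204) (nat_lit 121))))))))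
noncomputable def xc31 : XT := (XT.nd (nat_lit 2340) (nat_lit 0) (nat_lit 0) (XT.nd (nat_lit 1170) (nat_lit 380) (nat_lit 0) (XT.nd (nat_lit 546) (nat_lit 532) (nat_lit 0) (XT.nd (nat_lit 234) (nat_lit 152) (nat_lit 0) (XT.nd (nat_lit 78) (nat_lit 0) (nat_lit 0) (XT.lf (nat_lit 0) (nat_lit 819398825) (nat_lit 0) (nat_lit 819398825) (nat_lit 228) (nat_lit 2808207451) (nat_lit 15) (nat_lit 5) (nat_lit 15) (nat_lit 3) (nat_lit 18) (nat_lit 3) (nat_lit 205) (nat_lit 205) (nat_lit 190)) (XT.nd (nat_lit 78) (nat_lit 0) (nat_lit 0) (XT.lf (nat_lit 0) (nat_lit 4363163029) (nat_lit 228) (nat_lit 3677971937) (nat_lit 304) (nat_lit 1382089925) (nat_lit 15) (nat_lit 5) (nat_lit 18) (nat_lit 3) (nat_lit 19) (nat_lit 5) (nat_lit 206) (nat_lit 205) (nat_lit 189)) (XT.lf (nat_lit 76) (nat_lit 288615585) (nat_lit 0) (nat_lit 5277468722) (nat_lit 304) (nat_lit 4474673900) (nat_lit 16) (nat_lit 5) (nat_lit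 15) (nat_lit 5) (nat_lit 19) (nat_lit 5) (nat_lit 207) (nat_lit 205) (nat_lit 188)))) (XT.nd (nat_lit 156) (nat_lit 152) (nat_lit 0) (XT.nd (nat_lit 78) (nat_lit 0) (nat_lit 76) (XT.lf (nat_lit 76) (nat_lit 5172962813) (nat_lit 0) (nat_lit 1847187293) (nat_lit 304) (nat_lit 3722003889) (nat_lit 16) (nat_lit 5) (nat_lit 15) (nat_lit 5) (nat_lit 19) (nat_lit 5) (nat_lit 208) (nat_lit 205) (nat_lit 187)) (XT.lf (nat_lit 0) (nat_lit 8674602742) (nat_lit 228) (nat_lit 942991148) (nat_lit 76) (nat_lit 1935422348) (nat_lit 16) (nat_lit 5) (nat_lit 19) (nat_lit 5) (nat_lit 17) (nat_lit 5) (nat_lit 209) (nat_lit 205) (nat_lit 186))) (XT.nd (nat_lit 78) (nat_lit 0) (nat_lit 0) (XT.lf (nat_lit 0) (nat_lit 4615436088) (nat_lit 228) (nat_lit 6149923256) (nat_lit 304) (nat_lit 1693318174) (nat_lit 13) (nat_lit 5) (nat_lit 16) (nat_lit 5) (nat_lit 17) (nat_lit 5) (nat_lit 210) (nat_lit 205) (nat_lit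 185)) (XT.lf (nat_lit 0) (nat_lit 11032814466) (nat_lit 228) (nat_lit 2103783475) (nat_lit 304) (nat_lit 369768566) (nat_lit 13) (nat_lit 5) (nat_lit 16) (nat_lit 5) (nat_lit 17) (nat_lit 5) (nat_lit 211) (nat_lit 205) (nat_lit 184))))) (XT.nd (nat_lit 312) (nat_lit 152) (nat_lit 0) (XT.nd (nat_lit 156) (nat_lit 152) (nat_lit 0) (XT.nd (nat_lit 78) (nat_lit 0) (nat_lit 0) (XT.lf (nat_lit 0) (nat_lit 1251660461) (nat_lit 228) (nat_lit 10882782294) (nat_lit 76) (nat_lit 2540232803) (nat_lit 10) (nat_lit 5) (nat_lit 13) (nat_lit 5) (nat_lit 11) (nat_lit 5) (nat_lit 212) (nat_lit 205) (nat_lit 183)) (XT.lf (nat_lit 0) (nat_lit 3244611461) (nat_lit 228) (nat_lit 4933599100) (nat_lit 76) (nat_lit 7813249270) (nat_lit 10) (nat_lit 5) (nat_lit 13) (nat_lit 5) (nat_lit 11) (nat_lit 5) (nat_lit 213) (nat_lit 205) (nat_lit 182))) (XT.nd (nat_lit 78) (nat_lit 0) (nat_lit 0) (XT.lf (nat_lit 0)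 (nat_lit 2012362411) (nat_lit 152) (nat_lit 3547060151) (nat_lit 228) (nat_lit 11943592697) (nat_lit 8) (nat_lit 5) (nat_lit 10) (nat_lit 5) (nat_lit 11) (nat_lit 5) (nat_lit 214) (nat_lit 205) (nat_lit 181)) (XT.lf (nat_lit 0) (nat_lit 8509140949) (nat_lit 228) (nat_lit 8813490372) (nat_lit 76) (nat_lit 1876120823) (nat_lit 8) (nat_lit 5) (nat_lit 11) (nat_lit 5) (nat_lit 9) (nat_lit 4) (nat_lit 215) (nat_lit 205) (nat_lit 180)))) (XT.nd (nat_lit 156) (nat_lit 76) (nat_lit 0) (XT.nd (nat_lit 78) (nat_lit 76) (nat_lit 0) (XT.lf (nat_lit 0) (nat_lit 12021405204) (nat_lit 228) (nat_lit 1372897936) (nat_lit 76) (nat_lit 7737055797) (nat_lit 8) (nat_lit 5) (nat_lit 11) (nat_lit 5) (nat_lit 9) (nat_lit 4) (nat_lit 216) (nat_lit 205) (nat_lit 179)) (XT.lf (nat_lit 0) (nat_lit 7819745259) (nat_lit 76) (nat_lit 8522111064) (nat_lit 152) (nat_lit 6970252776) (nat_lit 7) (nat_lit 5) (nat_lit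 8) (nat_lit 5) (nat_lit 9) (nat_lit 4) (nat_lit 217) (nat_lit 205) (nat_lit 178))) (XT.nd (nat_lit 78) (nat_lit 76) (nat_lit 0) (XT.lf (nat_lit 0) (nat_lit 18488110671) (nat_lit 76) (nat_lit 2854735311) (nat_lit 152) (nat_lit 4472650327) (nat_lit 7) (nat_lit 5) (nat_lit 8) (nat_lit 5) (nat_lit 9) (nat_lit 4) (nat_lit 218) (nat_lit 205) (nat_lit 177)) (XT.lf (nat_lit 0) (nat_lit 2037255529) (nat_lit 76) (nat_lit 25257930167) (nat_lit 76) (nat_lit 1369369279) (nat_lit 6) (nat_lit 4) (nat_lit 7) (nat_lit 5) (nat_lit 7) (nat_lit 4) (nat_lit 219) (nat_lit 205) (nat_lit 176)))))) (XT.nd (nat_lit 546) (nat_lit 152) (nat_lit 0) (XT.nd (nat_lit 234) (nat_lit 76) (nat_lit 0) (XT.nd (nat_lit 78) (nat_lit 76) (nat_lit 0) (XT.lf (nat_lit 0) (nat_lit 2506535189) (nat_lit 152) (nat_lit 18554585338) (nat_lit 76) (nat_lit 10791010230) (nat_lit 5) (nat_lit 5) (nat_lit 7) (nat_lit 5) (nat_lit 6) (nat_lit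 4) (nat_lit 220) (nat_lit 205) (nat_lit 175)) (XT.nd (nat_lit 78) (nat_lit 76) (nat_lit 0) (XT.lf (nat_lit 0) (nat_lit 6793833249) (nat_lit 152) (nat_lit 9384785909) (nat_lit 76) (nat_lit 19334137684) (nat_lit 5) (nat_lit 5) (nat_lit 7) (nat_lit 5) (nat_lit 6) (nat_lit 4) (nat_lit 221) (nat_lit 205) (nat_lit 174)) (XT.lf (nat_lit 0) (nat_lit 1227490295) (nat_lit 76) (nat_lit 10521655000) (nat_lit 152) (nat_lit 27969790117) (nat_lit 4) (nat_lit 5) (nat_lit 5) (nat_lit 5) (nat_lit 6) (nat_lit 4) (nat_lit 222) (nat_lit 205) (nat_lit 173)))) (XT.nd (nat_lit 156) (nat_lit 76) (nat_lit 0) (XT.nd (nat_lit 78) (nat_lit 0) (nat_lit 0) (XT.lf (nat_lit 0) (nat_lit 14445978571) (nat_lit 76) (nat_lit 3468143958) (nat_lit 152) (nat_lit 26572133817) (nat_lit 4) (nat_lit 5) (nat_lit 5) (nat_lit 5) (nat_lit 6) (nat_lit 4) (nat_lit 223) (nat_lit 205) (nat_lit 172)) (XT.lf (nat_lit 0) (nat_lit 25174494367)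 (nat_lit 152) (nat_lit 20551519983) (nat_lit 0) (nat_lit 4217212420) (nat_lit 4) (nat_lit 5) (nat_lit 6) (nat_lit 4) (nat_lit 4) (nat_lit 4) (nat_lit 224) (nat_lit 205) (nat_lit 171))) (XT.nd (nat_lit 78) (nat_lit 76) (nat_lit 0) (XT.lf (nat_lit 0) (nat_lit 33670267334) (nat_lit 152) (nat_lit 9837477904) (nat_lit 0) (nat_lit 12689174898) (nat_lit 4) (nat_lit 5) (nat_lit 6) (nat_lit 4) (nat_lit 4) (nat_lit 4) (nat_lit 225) (nat_lit 205) (nat_lit 170)) (XT.lf (nat_lit 0) (nat_lit 2695007692) (nat_lit 76) (nat_lit 40840641457) (nat_lit 76) (nat_lit 19838844247) (nat_lit 3) (nat_lit 4) (nat_lit 4) (nat_lit 5) (nat_lit 4) (nat_lit 4) (nat_lit 226) (nat_lit 205) (nat_lit 169))))) (XT.nd (nat_lit 312) (nat_lit 152) (nat_lit 0) (XT.nd (nat_lit 156) (nat_lit 0) (nat_lit 0) (XT.nd (nat_lit 78) (nat_lit 0) (nat_lit 0) (XT.lf (nat_lit 0) (nat_lit 18185673073) (nat_lit 76) (nat_lit 37194048086)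 (nat_lit 76) (nat_lit 16174246726) (nat_lit 3) (nat_lit 4) (nat_lit 4) (nat_lit 5) (nat_lit 4) (nat_lit 4) (nat_lit 227) (nat_lit 205) (nat_lit 168)) (XT.lf (nat_lit 0) (nat_lit 35976206587) (nat_lit 76) (nat_lit 33010850534) (nat_lit 76) (nat_lit 11975393390) (nat_lit 3) (nat_lit 4) (nat_lit 4) (nat_lit 5) (nat_lit 4) (nat_lit 4) (nat_lit 228) (nat_lit 205) (nat_lit 167))) (XT.nd (nat_lit 78) (nat_lit 0) (nat_lit 0) (XT.lf (nat_lit 0) (nat_lit 56414683891) (nat_lit 76) (nat_lit 28209203629) (nat_lit 76) (nat_lit 7160132762) (nat_lit 3) (nat_lit 4) (nat_lit 4) (nat_lit 5) (nat_lit 4) (nat_lit 4) (nat_lit 229) (nat_lit 205) (nat_lit 166)) (XT.lf (nat_lit 0) (nat_lit 79900988236) (nat_lit 76) (nat_lit 22695162108) (nat_lit 76) (nat_lit 1634253219) (nat_lit 3) (nat_lit 4) (nat_lit 4) (nat_lit 5) (nat_lit 4) (nat_lit 4) (nat_lit 230) (nat_lit 205) (nat_lit 165)))) (XT.nd (nat_lit 156)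 (nat_lit 0) (nat_lit 0) (XT.nd (nat_lit 78) (nat_lit 76) (nat_lit 0) (XT.lf (nat_lit 0) (nat_lit 4291011427) (nat_lit 152) (nat_lit 11845528251) (nat_lit 76) (nat_lit 102379319975) (nat_lit 2) (nat_lit 5) (nat_lit 4) (nat_lit 5) (nat_lit 3) (nat_lit 4) (nat_lit 231) (nat_lit 205) (nat_lit 164)) (XT.lf (nat_lit 0) (nat_lit 2655099092) (nat_lit 76) (nat_lit 8384553538) (nat_lit 152) (nat_lit 123877565027) (nat_lit 1) (nat_lit 5) (nat_lit 2) (nat_lit 5) (nat_lit 3) (nat_lit 4) (nat_lit 232) (nat_lit 205) (nat_lit 163))) (XT.nd (nat_lit 78) (nat_lit 0) (nat_lit 0) (XT.lf (nat_lit 0) (nat_lit 19463414171) (nat_lit 152) (nat_lit 133089901299) (nat_lit 0) (nat_lit 1126076991) (nat_lit 1) (nat_lit 5) (nat_lit 3) (nat_lit 4) (nat_lit 1) (nat_lit 4) (nat_lit 233) (nat_lit 205) (nat_lit 162)) (XT.lf (nat_lit 0) (nat_lit 29543208525) (nat_lit 152) (nat_lit 134453860846) (nat_lit 0) (nat_lit 11199985756)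 (nat_lit 1) (nat_lit 5) (nat_lit 3) (nat_lit 4) (nat_lit 1) (nat_lit 4) (nat_lit 234) (nat_lit 205) (nat_lit 161))))))) (XT.nd (nat_lit 1170) (nat_lit 0) (nat_lit 0) (XT.nd (nat_lit 546) (nat_lit 0) (nat_lit 0) (XT.nd (nat_lit 234) (nat_lit 0) (nat_lit 0) (XT.nd (nat_lit 78) (nat_lit 0) (nat_lit 0) (XT.lf (nat_lit 0) (nat_lit 41129062579) (nat_lit 152) (nat_lit 136033496889) (nat_lit 0) (nat_lit 22780721908) (nat_lit 1) (nat_lit 5) (nat_lit 3) (nat_lit 4) (nat_lit 1) (nat_lit 4) (nat_lit 235) (nat_lit 205) (nat_lit 160)) (XT.nd (nat_lit 78) (nat_lit 0) (nat_lit 0) (XT.lf (nat_lit 0) (nat_lit 54447656088) (nat_lit 152) (nat_lit 137859715353) (nat_lit 0) (nat_lit 36094865066) (nat_lit 1) (nat_lit 5) (nat_lit 3) (nat_lit 4) (nat_lit 1) (nat_lit 4) (nat_lit 236) (nat_lit 205) (nat_lit 159)) (XT.lf (nat_lit 0) (nat_lit 69759570228) (nat_lit 152) (nat_lit 139968246597) (nat_lit 0) (nat_lit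 51402909335) (nat_lit 1) (nat_lit 5) (nat_lit 3) (nat_lit 4) (nat_lit 1) (nat_lit 4) (nat_lit 237) (nat_lit 205) (nat_lit 158)))) (XT.nd (nat_lit 156) (nat_lit 0) (nat_lit 0) (XT.nd (nat_lit 78) (nat_lit 0) (nat_lit 0) (XT.lf (nat_lit 0) (nat_lit 87364385928) (nat_lit 152) (nat_lit 142400344494) (nat_lit 0) (nat_lit 69004359931) (nat_lit 1) (nat_lit 5) (nat_lit 3) (nat_lit 4) (nat_lit 1) (nat_lit 4) (nat_lit 238) (nat_lit 205) (nat_lit 157)) (XT.lf (nat_lit 0) (nat_lit 107606545234) (nat_lit 152) (nat_lit 145203593568) (nat_lit 0) (nat_lit 89243593059) (nat_lit 1) (nat_lit 5) (nat_lit 3) (nat_lit 4) (nat_lit 1) (nat_lit 4) (nat_lit 239) (nat_lit 205) (nat_lit 156))) (XT.nd (nat_lit 78) (nat_lit 0) (nat_lit 0) (XT.lf (nat_lit 0) (nat_lit 130882090394) (nat_lit 152) (nat_lit 148432839996) (nat_lit 0) (nat_lit 112516593717) (nat_lit 1) (nat_lit 5) (nat_lit 3) (nat_lit 4) (nat_lit 1)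 (nat_lit 4) (nat_lit 240) (nat_lit 205) (nat_lit 155)) (XT.lf (nat_lit 0) (nat_lit 157646412508) (nat_lit 152) (nat_lit 152151264688) (nat_lit 0) (nat_lit 139278703220) (nat_lit 1) (nat_lit 5) (nat_lit 3) (nat_lit 4) (nat_lit 1) (nat_lit 4) (nat_lit 241) (nat_lit 205) (nat_lit 154))))) (XT.nd (nat_lit 312) (nat_lit 0) (nat_lit 0) (XT.nd (nat_lit 156) (nat_lit 0) (nat_lit 0) (XT.nd (nat_lit 78) (nat_lit 0) (nat_lit 0) (XT.lf (nat_lit 0) (nat_lit 188423161357) (nat_lit 152) (nat_lit 156431619429) (nat_lit 0) (nat_lit 170053528060) (nat_lit 1) (nat_lit 5) (nat_lit 3) (nat_lit 4) (nat_lit 1) (nat_lit 4) (nat_lit 242) (nat_lit 205) (nat_lit 153)) (XT.lf (nat_lit 0) (nat_lit 223814490724) (nat_lit 152) (nat_lit 161357650292) (nat_lit 0) (nat_lit 205443184375) (nat_lit 1) (nat_lit 5) (nat_lit 3) (nat_lit 4) (nat_lit 1) (nat_lit 4) (nat_lit 243) (nat_lit 205) (nat_lit 152))) (XT.nd (nat_lit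 78) (nat_lit 0) (nat_lit 0) (XT.lf (nat_lit 0) (nat_lit 264512839660) (nat_lit 152) (nat_lit 167025736142) (nat_lit 0) (nat_lit 246140078483) (nat_lit 1) (nat_lit 5) (nat_lit 3) (nat_lit 4) (nat_lit 1) (nat_lit 4) (nat_lit 244) (nat_lit 205) (nat_lit 151)) (XT.lf (nat_lit 0) (nat_lit 311314480210) (nat_lit 152) (nat_lit 173546774309) (nat_lit 0) (nat_lit 292940453966) (nat_lit 1) (nat_lit 5) (nat_lit 3) (nat_lit 4) (nat_lit 1) (nat_lit 4) (nat_lit 245) (nat_lit 205) (nat_lit 150)))) (XT.nd (nat_lit 156) (nat_lit 0) (nat_lit 0) (XT.nd (nat_lit 78) (nat_lit 0) (nat_lit 0) (XT.lf (nat_lit 0) (nat_lit 365135096646) (nat_lit 152) (nat_lit 181048350323) (nat_lit 0) (nat_lit 346759970344) (nat_lit 1) (nat_lit 5) (nat_lit 3) (nat_lit 4) (nat_lit 1) (nat_lit 4) (nat_lit 246) (nat_lit 205) (nat_lit 149)) (XT.lf (nat_lit 0) (nat_lit 427027701029) (nat_lit 152) (nat_lit 189677234150) (nat_lit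 0) (nat_lit 408651618153) (nat_lit 1) (nat_lit 5) (nat_lit 3) (nat_lit 4) (nat_lit 1) (nat_lit 4) (nat_lit 247) (nat_lit 205) (nat_lit 148))) (XT.nd (nat_lit 78) (nat_lit 0) (nat_lit 0) (XT.lf (nat_lit 0) (nat_lit 498203235617) (nat_lit 152) (nat_lit 199602251778) (nat_lit 0) (nat_lit 479826320940) (nat_lit 1) (nat_lit 5) (nat_lit 3) (nat_lit 4) (nat_lit 1) (nat_lit 4) (nat_lit 248) (nat_lit 205) (nat_lit 147)) (XT.lf (nat_lit 0) (nat_lit 580054265219) (nat_lit 152) (nat_lit 211017588334) (nat_lit 0) (nat_lit 561676627235) (nat_lit 1) (nat_lit 5) (nat_lit 3) (nat_lit 4) (nat_lit 1) (nat_lit 4) (nat_lit 249) (nat_lit 205) (nat_lit 146)))))) (XT.nd (nat_lit 546) (nat_lit 0) (nat_lit 0) (XT.nd (nat_lit 234) (nat_lit 0) (nat_lit 0) (XT.nd (nat_lit 78) (nat_lit 0) (nat_lit 0) (XT.lf (nat_lit 0) (nat_lit 674182223022) (nat_lit 152) (nat_lit 224146587360) (nat_lit 0) (nat_lit 655803956076)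 (nat_lit 1) (nat_lit 5) (nat_lit 3) (nat_lit 4) (nat_lit 1) (nat_lit 4) (nat_lit 250) (nat_lit 205) (nat_lit 145)) (XT.nd (nat_lit 78) (nat_lit 0) (nat_lit 0) (XT.lf (nat_lit 0) (nat_lit 782428742983) (nat_lit 152) (nat_lit 239246120575) (nat_lit 0) (nat_lit 764049929114) (nat_lit 1) (nat_lit 5) (nat_lit 3) (nat_lit 4) (nat_lit 1) (nat_lit 4) (nat_lit 251) (nat_lit 205) (nat_lit 144)) (XT.lf (nat_lit 0) (nat_lit 906911691798) (nat_lit 152) (nat_lit 256611613629) (nat_lit 0) (nat_lit 888532402342) (nat_lit 1) (nat_lit 5) (nat_lit 3) (nat_lit 4) (nat_lit 1) (nat_lit 4) (nat_lit 252) (nat_lit 205) (nat_lit 143)))) (XT.nd (nat_lit 156) (nat_lit 0) (nat_lit 0) (XT.nd (nat_lit 78) (nat_lit 0) (nat_lit 0) (XT.lf (nat_lit 0) (nat_lit 1050066605420) (nat_lit 152) (nat_lit 276582826170) (nat_lit 0) (nat_lit 1031686902412) (nat_lit 1) (nat_lit 5) (nat_lit 3) (nat_lit 4) (nat_lit 1) (nat_lit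 4) (nat_lit 253) (nat_lit 205) (nat_lit 142)) (XT.lf (nat_lit 0) (nat_lit 1214694340856) (nat_lit 152) (nat_lit 299550499312) (nat_lit 0) (nat_lit 1196314278237) (nat_lit 1) (nat_lit 5) (nat_lit 3) (nat_lit 4) (nat_lit 1) (nat_lit 4) (nat_lit 254) (nat_lit 205) (nat_lit 141))) (XT.nd (nat_lit 78) (nat_lit 0) (nat_lit 0) (XT.lf (nat_lit 0) (nat_lit 1404015875539) (nat_lit 152) (nat_lit 325964000573) (nat_lit 0) (nat_lit 1385635500214) (nat_lit 1) (nat_lit 5) (nat_lit 3) (nat_lit 4) (nat_lit 1) (nat_lit 4) (nat_lit 255) (nat_lit 205) (nat_lit 140)) (XT.lf (nat_lit 0) (nat_lit 1621735326450) (nat_lit 152) (nat_lit 356340115847) (nat_lit 0) (nat_lit 1603354679208) (nat_lit 1) (nat_lit 5) (nat_lit 3) (nat_lit 4) (nat_lit 1) (nat_lit 4) (nat_lit 256) (nat_lit 205) (nat_lit 139))))) (XT.nd (nat_lit 312) (nat_lit 0) (nat_lit 0) (XT.nd (nat_lit 156) (nat_lit 0) (nat_lit 0) (XT.nd (nat_lit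 78) (nat_lit 0) (nat_lit 0) (XT.lf (nat_lit 0) (nat_lit 1872112421979) (nat_lit 152) (nat_lit 391273160433) (nat_lit 0) (nat_lit 1853731538286) (nat_lit 1) (nat_lit 5) (nat_lit 3) (nat_lit 4) (nat_lit 1) (nat_lit 4) (nat_lit 257) (nat_lit 205) (nat_lit 138)) (XT.lf (nat_lit 0) (nat_lit 2160045844427) (nat_lit 152) (nat_lit 431446606943) (nat_lit 0) (nat_lit 2141664755126) (nat_lit 1) (nat_lit 5) (nat_lit 3) (nat_lit 4) (nat_lit 1) (nat_lit 4) (nat_lit 258) (nat_lit 205) (nat_lit 137))) (XT.nd (nat_lit 78) (nat_lit 0) (nat_lit 0) (XT.lf (nat_lit 0) (nat_lit 2491169073801) (nat_lit 152) (nat_lit 477646457591) (nat_lit 0) (nat_lit 2472787805709) (nat_lit 1) (nat_lit 5) (nat_lit 3) (nat_lit 4) (nat_lit 1) (nat_lit 4) (nat_lit 259) (nat_lit 205) (nat_lit 136)) (XT.lf (nat_lit 0) (nat_lit 2871960608065) (nat_lit 152) (nat_lit 530776622499) (nat_lit 0) (nat_lit 2853579184503) (nat_lit 1)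 (nat_lit 5) (nat_lit 3) (nat_lit 4) (nat_lit 1) (nat_lit 4) (nat_lit 260) (nat_lit 205) (nat_lit 135)))) (XT.nd (nat_lit 156) (nat_lit 0) (nat_lit 0) (XT.nd (nat_lit 78) (nat_lit 0) (nat_lit 0) (XT.lf (nat_lit 0) (nat_lit 3309870716368) (nat_lit 152) (nat_lit 591876604892) (nat_lit 0) (nat_lit 3291489157616) (nat_lit 1) (nat_lit 5) (nat_lit 3) (nat_lit 4) (nat_lit 1) (nat_lit 4) (nat_lit 261) (nat_lit 205) (nat_lit 134)) (XT.lf (nat_lit 0) (nat_lit 3813467205178) (nat_lit 152) (nat_lit 662141839209) (nat_lit 0) (nat_lit 3795085528868) (nat_lit 1) (nat_lit 5) (nat_lit 3) (nat_lit 4) (nat_lit 1) (nat_lit 4) (nat_lit 262) (nat_lit 205) (nat_lit 133))) (XT.nd (nat_lit 78) (nat_lit 0) (nat_lit 0) (XT.lf (nat_lit 0) (nat_lit 4392603049275) (nat_lit 152) (nat_lit 742947080034) (nat_lit 0) (nat_lit 4374221270742) (nat_lit 1) (nat_lit 5) (nat_lit 3) (nat_lit 4) (nat_lit 1) (nat_lit 4) (nat_lit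 263) (nat_lit 205) (nat_lit 132)) (XT.lf (nat_lit 0) (nat_lit 5058609167349) (nat_lit 152) (nat_lit 835873299471) (nat_lit 0) (nat_lit 5040227299925) (nat_lit 1) (nat_lit 5) (nat_lit 3) (nat_lit 4) (nat_lit 1) (nat_lit 4) (nat_lit 264) (nat_lit 205) (nat_lit 131))))))))
noncomputable def xc32 : XT := (XT.nd (nat_lit 28158) (nat_lit 0) (nat_lit 0) (XT.nd (nat_lit 26988) (nat_lit 0) (nat_lit 228) (XT.nd (nat_lit 546) (nat_lit 0) (nat_lit 0) (XT.nd (nat_lit 234) (nat_lit 0) (nat_lit 0) (XT.nd (nat_lit 78) (nat_lit 0) (nat_lit 0) (XT.lf (nat_lit 0) (nat_lit 5824516113882) (nat_lit 152) (nat_lit 942738619204) (nat_lit 0) (nat_lit 5806134169162) (nat_lit 1) (nat_lit 5) (nat_lit 3) (nat_lit 4) (nat_lit 1) (nat_lit 4) (nat_lit 265) (nat_lit 205) (nat_lit 130)) (XT.nd (nat_lit 78) (nat_lit 0) (nat_lit 0) (XT.lf (nat_lit 0) (nat_lit 6705309024787) (nat_lit 152) (nat_lit 1065633882445) (nat_lit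 0) (nat_lit 6686927012853) (nat_lit 1) (nat_lit 5) (nat_lit 3) (nat_lit 4) (nat_lit 1) (nat_lit 4) (nat_lit 266) (nat_lit 205) (nat_lit 129)) (XT.lf (nat_lit 0) (nat_lit 7718220804840) (nat_lit 152) (nat_lit 1206963561736) (nat_lit 0) (nat_lit 7699838734459) (nat_lit 1) (nat_lit 5) (nat_lit 3) (nat_lit 4) (nat_lit 1) (nat_lit 4) (nat_lit 267) (nat_lit 205) (nat_lit 128)))) (XT.nd (nat_lit 156) (nat_lit 0) (nat_lit 0) (XT.nd (nat_lit 78) (nat_lit 0) (nat_lit 0) (XT.lf (nat_lit 0) (nat_lit 8883069293218) (nat_lit 152) (nat_lit 1369492802976) (nat_lit 0) (nat_lit 8864687172013) (nat_lit 1) (nat_lit 5) (nat_lit 3) (nat_lit 4) (nat_lit 1) (nat_lit 4) (nat_lit 268) (nat_lit 205) (nat_lit 127)) (XT.lf (nat_lit 0) (nat_lit 10222645003823) (nat_lit 152) (nat_lit 1556401526103) (nat_lit 0) (nat_lit 10204262838424) (nat_lit 1) (nat_lit 5) (nat_lit 3) (nat_lit 4) (nat_lit 1) (nat_lit 4) (nat_lit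 269) (nat_lit 205) (nat_lit 126))) (XT.nd (nat_lit 78) (nat_lit 0) (nat_lit 0) (XT.lf (nat_lit 0) (nat_lit 11763157026645) (nat_lit 152) (nat_lit 1771346640916) (nat_lit 0) (nat_lit 11744774822817) (nat_lit 1) (nat_lit 5) (nat_lit 3) (nat_lit 4) (nat_lit 1) (nat_lit 4) (nat_lit 270) (nat_lit 205) (nat_lit 125)) (XT.lf (nat_lit 0) (nat_lit 13534745814305) (nat_lit 152) (nat_lit 2018533595315) (nat_lit 0) (nat_lit 13516363577059) (nat_lit 1) (nat_lit 5) (nat_lit 3) (nat_lit 4) (nat_lit 1) (nat_lit 4) (nat_lit 271) (nat_lit 205) (nat_lit 124))))) (XT.nd (nat_lit 26130) (nat_lit 0) (nat_lit 1064) (XT.nd (nat_lit 78) (nat_lit 0) (nat_lit 0) (XT.lf (nat_lit 0) (nat_lit 15572072886561) (nat_lit 152) (nat_lit 2302798655798) (nat_lit 0) (nat_lit 15553690620257) (nat_lit 1) (nat_lit 5) (nat_lit 3) (nat_lit 4) (nat_lit 1) (nat_lit 4) (nat_lit 272) (nat_lit 205) (nat_lit 123)) (XT.nd (nat_lit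 78) (nat_lit 0) (nat_lit 0) (XT.lf (nat_lit 0) (nat_lit 17914998990480) (nat_lit 152) (nat_lit 2629703530071) (nat_lit 0) (nat_lit 17896616698908) (nat_lit 1) (nat_lit 5) (nat_lit 3) (nat_lit 4) (nat_lit 1) (nat_lit 4) (nat_lit 273) (nat_lit 205) (nat_lit 122)) (XT.lf (nat_lit 0) (nat_lit 20609363984615) (nat_lit 152) (nat_lit 3005644183064) (nat_lit 0) (nat_lit 20590981671071) (nat_lit 1) (nat_lit 5) (nat_lit 3) (nat_lit 4) (nat_lit 1) (nat_lit 4) (nat_lit 274) (nat_lit 205) (nat_lit 121)))) (XT.nd (nat_lit 156) (nat_lit 0) (nat_lit 0) (XT.nd (nat_lit 78) (nat_lit 0) (nat_lit 0) (XT.lf (nat_lit 0) (nat_lit 1314686133) (nat_lit 0) (nat_lit 1314686133) (nat_lit 228) (nat_lit 2361588159) (nat_lit 15) (nat_lit 5) (nat_lit 15) (nat_lit 3) (nat_lit 18) (nat_lit 3) (nat_lit 206) (nat_lit 206) (nat_lit 188)) (XT.lf (nat_lit 0) (nat_lit 6286047240) (nat_lit 228) (nat_lit 3341159408) (nat_lit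 304) (nat_lit 999445387) (nat_lit 15) (nat_lit 5) (nat_lit 18) (nat_lit 3) (nat_lit 19) (nat_lit 5) (nat_lit 207) (nat_lit 206) (nat_lit 187))) (XT.nd (nat_lit 78) (nat_lit 0) (nat_lit 0) (XT.lf (nat_lit 76) (nat_lit 1180029501) (nat_lit 0) (nat_lit 6359051364) (nat_lit 304) (nat_lit 3819865333) (nat_lit 16) (nat_lit 5) (nat_lit 15) (nat_lit 5) (nat_lit 19) (nat_lit 5) (nat_lit 208) (nat_lit 206) (nat_lit 186)) (XT.lf (nat_lit 76) (nat_lit 6686404260) (nat_lit 0) (nat_lit 2376406547) (nat_lit 304) (nat_lit 3127252601) (nat_lit 16) (nat_lit 5) (nat_lit 15) (nat_lit 5) (nat_lit 19) (nat_lit 5) (nat_lit 209) (nat_lit 206) (nat_lit 185)))))) (XT.nd (nat_lit 546) (nat_lit 304) (nat_lit 0) (XT.nd (nat_lit 234) (nat_lit 304) (nat_lit 0) (XT.nd (nat_lit 78) (nat_lit 304) (nat_lit 0) (XT.lf (nat_lit 0) (nat_lit 10827269290) (nat_lit 228) (nat_lit 291960395) (nat_lit 76) (nat_lit 2026001952)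 (nat_lit 16) (nat_lit 5) (nat_lit 19) (nat_lit 5) (nat_lit 17) (nat_lit 5) (nat_lit 210) (nat_lit 206) (nat_lit 184)) (XT.nd (nat_lit 78) (nat_lit 76) (nat_lit 0) (XT.lf (nat_lit 0) (nat_lit 6064209134) (nat_lit 228) (nat_lit 7087691440) (nat_lit 304) (nat_lit 1048500044) (nat_lit 13) (nat_lit 5) (nat_lit 16) (nat_lit 5) (nat_lit 17) (nat_lit 5) (nat_lit 211) (nat_lit 206) (nat_lit 183)) (XT.lf (nat_lit 0) (nat_lit 324620843) (nat_lit 304) (nat_lit 2091048029) (nat_lit 76) (nat_lit 13003936222) (nat_lit 12) (nat_lit 5) (nat_lit 16) (nat_lit 5) (nat_lit 13) (nat_lit 5) (nat_lit 212) (nat_lit 206) (nat_lit 182)))) (XT.nd (nat_lit 156) (nat_lit 152) (nat_lit 0) (XT.nd (nat_lit 78) (nat_lit 0) (nat_lit 0) (XT.lf (nat_lit 0) (nat_lit 2089872671) (nat_lit 228) (nat_lit 11710294828) (nat_lit 76) (nat_lit 2970698201) (nat_lit 10) (nat_lit 5) (nat_lit 13) (nat_lit 5) (nat_lit 11) (nat_lit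 5) (nat_lit 213) (nat_lit 206) (nat_lit 181)) (XT.lf (nat_lit 0) (nat_lit 4296923302) (nat_lit 228) (nat_lit 4973721739) (nat_lit 76) (nat_lit 9028219685) (nat_lit 10) (nat_lit 5) (nat_lit 13) (nat_lit 5) (nat_lit 11) (nat_lit 5) (nat_lit 214) (nat_lit 206) (nat_lit 180))) (XT.nd (nat_lit 78) (nat_lit 0) (nat_lit 0) (XT.lf (nat_lit 0) (nat_lit 2982319580) (nat_lit 152) (nat_lit 3930524664) (nat_lit 228) (nat_lit 13132070050) (nat_lit 8) (nat_lit 5) (nat_lit 10) (nat_lit 5) (nat_lit 11) (nat_lit 5) (nat_lit 215) (nat_lit 206) (nat_lit 179)) (XT.lf (nat_lit 0) (nat_lit 10242608855) (nat_lit 228) (nat_lit 9487250379) (nat_lit 76) (nat_lit 2275248163) (nat_lit 8) (nat_lit 5) (nat_lit 11) (nat_lit 5) (nat_lit 9) (nat_lit 4) (nat_lit 216) (nat_lit 206) (nat_lit 178))))) (XT.nd (nat_lit 312) (nat_lit 152) (nat_lit 0) (XT.nd (nat_lit 156) (nat_lit 76) (nat_lit 0) (XT.nd (nat_lit 78) (nat_lit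 76) (nat_lit 0) (XT.lf (nat_lit 0) (nat_lit 14222091433) (nat_lit 228) (nat_lit 1015125194) (nat_lit 76) (nat_lit 8999970007) (nat_lit 8) (nat_lit 5) (nat_lit 11) (nat_lit 5) (nat_lit 9) (nat_lit 4) (nat_lit 217) (nat_lit 206) (nat_lit 177)) (XT.lf (nat_lit 0) (nat_lit 9530791415) (nat_lit 76) (nat_lit 9630255105) (nat_lit 152) (nat_lit 7588992330) (nat_lit 7) (nat_lit 5) (nat_lit 8) (nat_lit 5) (nat_lit 9) (nat_lit 4) (nat_lit 218) (nat_lit 206) (nat_lit 176))) (XT.nd (nat_lit 78) (nat_lit 76) (nat_lit 0) (XT.lf (nat_lit 0) (nat_lit 21729226722) (nat_lit 76) (nat_lit 3134969418) (nat_lit 152) (nat_lit 4772418865) (nat_lit 7) (nat_lit 5) (nat_lit 8) (nat_lit 5) (nat_lit 9) (nat_lit 4) (nat_lit 219) (nat_lit 206) (nat_lit 175)) (XT.lf (nat_lit 0) (nat_lit 2832504507) (nat_lit 76) (nat_lit 28860757142) (nat_lit 76) (nat_lit 1222609239) (nat_lit 6) (nat_lit 4) (nat_lit 7) (nat_lit 5)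 (nat_lit 7) (nat_lit 4) (nat_lit 220) (nat_lit 206) (nat_lit 174)))) (XT.nd (nat_lit 156) (nat_lit 76) (nat_lit 0) (XT.nd (nat_lit 78) (nat_lit 0) (nat_lit 0) (XT.lf (nat_lit 0) (nat_lit 3161483494) (nat_lit 152) (nat_lit 20882603085) (nat_lit 76) (nat_lit 12541903187) (nat_lit 5) (nat_lit 5) (nat_lit 7) (nat_lit 5) (nat_lit 6) (nat_lit 4) (nat_lit 221) (nat_lit 206) (nat_lit 173)) (XT.lf (nat_lit 0) (nat_lit 8055489128) (nat_lit 152) (nat_lit 10396703749) (nat_lit 76) (nat_lit 22349250879) (nat_lit 5) (nat_lit 5) (nat_lit 7) (nat_lit 5) (nat_lit 6) (nat_lit 4) (nat_lit 222) (nat_lit 206) (nat_lit 172))) (XT.nd (nat_lit 78) (nat_lit 0) (nat_lit 0) (XT.lf (nat_lit 0) (nat_lit 1789422975) (nat_lit 76) (nat_lit 11948678290) (nat_lit 152) (nat_lit 31903087284) (nat_lit 4) (nat_lit 5) (nat_lit 5) (nat_lit 5) (nat_lit 6) (nat_lit 4) (nat_lit 223) (nat_lit 206) (nat_lit 171)) (XT.lf (nat_lit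 0) (nat_lit 16941405040) (nat_lit 76) (nat_lit 3856865587) (nat_lit 152) (nat_lit 30329978802) (nat_lit 4) (nat_lit 5) (nat_lit 5) (nat_lit 5) (nat_lit 6) (nat_lit 4) (nat_lit 224) (nat_lit 206) (nat_lit 170))))))) (XT.nd (nat_lit 1170) (nat_lit 0) (nat_lit 0) (XT.nd (nat_lit 546) (nat_lit 152) (nat_lit 0) (XT.nd (nat_lit 234) (nat_lit 0) (nat_lit 0) (XT.nd (nat_lit 78) (nat_lit 76) (nat_lit 0) (XT.lf (nat_lit 0) (nat_lit 29126733611) (nat_lit 152) (nat_lit 23326395877) (nat_lit 0) (nat_lit 4953962047) (nat_lit 4) (nat_lit 5) (nat_lit 6) (nat_lit 4) (nat_lit 4) (nat_lit 4) (nat_lit 225) (nat_lit 206) (nat_lit 169)) (XT.nd (nat_lit 78) (nat_lit 76) (nat_lit 0) (XT.lf (nat_lit 0) (nat_lit 38873907511) (nat_lit 152) (nat_lit 11045402108) (nat_lit 0) (nat_lit 14683131796) (nat_lit 4) (nat_lit 5) (nat_lit 6) (nat_lit 4) (nat_lit 4) (nat_lit 4) (nat_lit 226) (nat_lit 206) (nat_lit 168))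 (XT.lf (nat_lit 0) (nat_lit 3354788260) (nat_lit 76) (nat_lit 46854919691) (nat_lit 76) (nat_lit 22648488194) (nat_lit 3) (nat_lit 4) (nat_lit 4) (nat_lit 5) (nat_lit 4) (nat_lit 4) (nat_lit 227) (nat_lit 206) (nat_lit 167)))) (XT.nd (nat_lit 156) (nat_lit 0) (nat_lit 0) (XT.nd (nat_lit 78) (nat_lit 0) (nat_lit 0) (XT.lf (nat_lit 0) (nat_lit 21135723524) (nat_lit 76) (nat_lit 42675922270) (nat_lit 76) (nat_lit 18455877047) (nat_lit 3) (nat_lit 4) (nat_lit 4) (nat_lit 5) (nat_lit 4) (nat_lit 4) (nat_lit 228) (nat_lit 206) (nat_lit 166)) (XT.lf (nat_lit 0) (nat_lit 41565854524) (nat_lit 76) (nat_lit 37877927653) (nat_lit 76) (nat_lit 13646044410) (nat_lit 3) (nat_lit 4) (nat_lit 4) (nat_lit 5) (nat_lit 4) (nat_lit 4) (nat_lit 229) (nat_lit 206) (nat_lit 165))) (XT.nd (nat_lit 78) (nat_lit 0) (nat_lit 0) (XT.lf (nat_lit 0) (nat_lit 65044901213) (nat_lit 76) (nat_lit 32367062034) (nat_lit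 76) (nat_lit 8124884859) (nat_lit 3) (nat_lit 4) (nat_lit 4) (nat_lit 5) (nat_lit 4) (nat_lit 4) (nat_lit 230) (nat_lit 206) (nat_lit 164)) (XT.lf (nat_lit 0) (nat_lit 92032236243) (nat_lit 76) (nat_lit 26035504129) (nat_lit 76) (nat_lit 1784375709) (nat_lit 3) (nat_lit 4) (nat_lit 4) (nat_lit 5) (nat_lit 4) (nat_lit 4) (nat_lit 231) (nat_lit 206) (nat_lit 163))))) (XT.nd (nat_lit 312) (nat_lit 0) (nat_lit 0) (XT.nd (nat_lit 156) (nat_lit 0) (nat_lit 0) (XT.nd (nat_lit 78) (nat_lit 76) (nat_lit 0) (XT.lf (nat_lit 0) (nat_lit 5009929712) (nat_lit 152) (nat_lit 13487563229) (nat_lit 76) (nat_lit 117784060291) (nat_lit 2) (nat_lit 5) (nat_lit 4) (nat_lit 5) (nat_lit 3) (nat_lit 4) (nat_lit 232) (nat_lit 206) (nat_lit 162)) (XT.lf (nat_lit 0) (nat_lit 3182031205) (nat_lit 76) (nat_lit 9584346349) (nat_lit 152) (nat_lit 142377462386) (nat_lit 1) (nat_lit 5) (nat_lit 2) (nat_lit 5) (nat_lit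 3) (nat_lit 4) (nat_lit 233) (nat_lit 206) (nat_lit 161))) (XT.nd (nat_lit 78) (nat_lit 0) (nat_lit 0) (XT.lf (nat_lit 0) (nat_lit 22446555982) (nat_lit 152) (nat_lit 152934055621) (nat_lit 0) (nat_lit 1340846307) (nat_lit 1) (nat_lit 5) (nat_lit 3) (nat_lit 4) (nat_lit 1) (nat_lit 4) (nat_lit 234) (nat_lit 206) (nat_lit 160)) (XT.lf (nat_lit 0) (nat_lit 34030019965) (nat_lit 152) (nat_lit 154518173996) (nat_lit 0) (nat_lit 12919859939) (nat_lit 1) (nat_lit 5) (nat_lit 3) (nat_lit 4) (nat_lit 1) (nat_lit 4) (nat_lit 235) (nat_lit 206) (nat_lit 159)))) (XT.nd (nat_lit 156) (nat_lit 0) (nat_lit 0) (XT.nd (nat_lit 78) (nat_lit 0) (nat_lit 0) (XT.lf (nat_lit 0) (nat_lit 47346535151) (nat_lit 152) (nat_lit 156348290139) (nat_lit 0) (nat_lit 26232505254) (nat_lit 1) (nat_lit 5) (nat_lit 3) (nat_lit 4) (nat_lit 1) (nat_lit 4) (nat_lit 236) (nat_lit 206) (nat_lit 158)) (XT.lf (nat_lit 0)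 (nat_lit 62656642053) (nat_lit 152) (nat_lit 158460210670) (nat_lit 0) (nat_lit 41539247052) (nat_lit 1) (nat_lit 5) (nat_lit 3) (nat_lit 4) (nat_lit 1) (nat_lit 4) (nat_lit 237) (nat_lit 206) (nat_lit 157))) (XT.nd (nat_lit 78) (nat_lit 0) (nat_lit 0) (XT.lf (nat_lit 0) (nat_lit 80259886242) (nat_lit 152) (nat_lit 160895255772) (nat_lit 0) (nat_lit 59139565063) (nat_lit 1) (nat_lit 5) (nat_lit 3) (nat_lit 4) (nat_lit 1) (nat_lit 4) (nat_lit 238) (nat_lit 206) (nat_lit 156)) (XT.lf (nat_lit 0) (nat_lit 100500679017) (nat_lit 152) (nat_lit 163701067634) (nat_lit 0) (nat_lit 79377813335) (nat_lit 1) (nat_lit 5) (nat_lit 3) (nat_lit 4) (nat_lit 1) (nat_lit 4) (nat_lit 239) (nat_lit 206) (nat_lit 155)))))) (XT.nd (nat_lit 546) (nat_lit 0) (nat_lit 0) (XT.nd (nat_lit 234) (nat_lit 0) (nat_lit 0) (XT.nd (nat_lit 78) (nat_lit 0) (nat_lit 0) (XT.lf (nat_lit 0) (nat_lit 123775035888) (nat_lit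 152) (nat_lit 166932542573) (nat_lit 0) (nat_lit 102649957596) (nat_lit 1) (nat_lit 5) (nat_lit 3) (nat_lit 4) (nat_lit 1) (nat_lit 4) (nat_lit 240) (nat_lit 206) (nat_lit 154)) (XT.nd (nat_lit 78) (nat_lit 0) (nat_lit 0) (XT.lf (nat_lit 0) (nat_lit 150538324709) (nat_lit 152) (nat_lit 170652905101) (nat_lit 0) (nat_lit 129411322407) (nat_lit 1) (nat_lit 5) (nat_lit 3) (nat_lit 4) (nat_lit 1) (nat_lit 4) (nat_lit 241) (nat_lit 206) (nat_lit 153)) (XT.lf (nat_lit 0) (nat_lit 181314175042) (nat_lit 152) (nat_lit 174934944917) (nat_lit 0) (nat_lit 160185499689) (nat_lit 1) (nat_lit 5) (nat_lit 3) (nat_lit 4) (nat_lit 1) (nat_lit 4) (nat_lit 242) (nat_lit 206) (nat_lit 152)))) (XT.nd (nat_lit 156) (nat_lit 0) (nat_lit 0) (XT.nd (nat_lit 78) (nat_lit 0) (nat_lit 0) (XT.lf (nat_lit 0) (nat_lit 216704723089) (nat_lit 152) (nat_lit 179862441062) (nat_lit 0) (nat_lit 195574592909) (nat_lit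 1) (nat_lit 5) (nat_lit 3) (nat_lit 4) (nat_lit 1) (nat_lit 4) (nat_lit 243) (nat_lit 206) (nat_lit 151)) (XT.lf (nat_lit 0) (nat_lit 257402392618) (nat_lit 152) (nat_lit 185531801070) (nat_lit 0) (nat_lit 236270997370) (nat_lit 1) (nat_lit 5) (nat_lit 3) (nat_lit 4) (nat_lit 1) (nat_lit 4) (nat_lit 244) (nat_lit 206) (nat_lit 150))) (XT.nd (nat_lit 78) (nat_lit 0) (nat_lit 0) (XT.lf (nat_lit 0) (nat_lit 304203442379) (nat_lit 152) (nat_lit 192053947200) (nat_lit 0) (nat_lit 283070947072) (nat_lit 1) (nat_lit 5) (nat_lit 3) (nat_lit 4) (nat_lit 1) (nat_lit 4) (nat_lit 245) (nat_lit 206) (nat_lit 149)) (XT.lf (nat_lit 0) (nat_lit 358023545085) (nat_lit 152) (nat_lit 199556486662) (nat_lit 0) (nat_lit 336890093206) (nat_lit 1) (nat_lit 5) (nat_lit 3) (nat_lit 4) (nat_lit 1) (nat_lit 4) (nat_lit 246) (nat_lit 206) (nat_lit 148))))) (XT.nd (nat_lit 312) (nat_lit 0) (nat_lit 0) (XT.nd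 (nat_lit 156) (nat_lit 0) (nat_lit 0) (XT.nd (nat_lit 78) (nat_lit 0) (nat_lit 0) (XT.lf (nat_lit 0) (nat_lit 419915702746) (nat_lit 152) (nat_lit 208186208269) (nat_lit 0) (nat_lit 398781419064) (nat_lit 1) (nat_lit 5) (nat_lit 3) (nat_lit 4) (nat_lit 1) (nat_lit 4) (nat_lit 247) (nat_lit 206) (nat_lit 147)) (XT.lf (nat_lit 0) (nat_lit 491090848881) (nat_lit 152) (nat_lit 218111954401) (nat_lit 0) (nat_lit 469955841893) (nat_lit 1) (nat_lit 5) (nat_lit 3) (nat_lit 4) (nat_lit 1) (nat_lit 4) (nat_lit 248) (nat_lit 206) (nat_lit 146))) (XT.nd (nat_lit 78) (nat_lit 0) (nat_lit 0) (XT.lf (nat_lit 0) (nat_lit 572941540697) (nat_lit 152) (nat_lit 229527924439) (nat_lit 0) (nat_lit 551805904747) (nat_lit 1) (nat_lit 5) (nat_lit 3) (nat_lit 4) (nat_lit 1) (nat_lit 4) (nat_lit 249) (nat_lit 206) (nat_lit 145)) (XT.lf (nat_lit 0) (nat_lit 667069204774) (nat_lit 152) (nat_lit 242657474318)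 (nat_lit 0) (nat_lit 645933021900) (nat_lit 1) (nat_lit 5) (nat_lit 3) (nat_lit 4) (nat_lit 1) (nat_lit 4) (nat_lit 250) (nat_lit 206) (nat_lit 144)))) (XT.nd (nat_lit 156) (nat_lit 0) (nat_lit 0) (XT.nd (nat_lit 78) (nat_lit 0) (nat_lit 0) (XT.lf (nat_lit 0) (nat_lit 775315469321) (nat_lit 152) (nat_lit 257757486536) (nat_lit 0) (nat_lit 754178810861) (nat_lit 1) (nat_lit 5) (nat_lit 3) (nat_lit 4) (nat_lit 1) (nat_lit 4) (nat_lit 251) (nat_lit 206) (nat_lit 143)) (XT.lf (nat_lit 0) (nat_lit 899798196035) (nat_lit 152) (nat_lit 275123396116) (nat_lit 0) (nat_lit 878661124023) (nat_lit 1) (nat_lit 5) (nat_lit 3) (nat_lit 4) (nat_lit 1) (nat_lit 4) (nat_lit 252) (nat_lit 206) (nat_lit 142))) (XT.nd (nat_lit 78) (nat_lit 0) (nat_lit 0) (XT.lf (nat_lit 0) (nat_lit 1042952916528) (nat_lit 152) (nat_lit 295094970852) (nat_lit 0) (nat_lit 1021815484904) (nat_lit 1) (nat_lit 5) (nat_lit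 3) (nat_lit 4) (nat_lit 1) (nat_lit 4) (nat_lit 253) (nat_lit 206) (nat_lit 141)) (XT.lf (nat_lit 0) (nat_lit 1207580484025) (nat_lit 152) (nat_lit 318062958946) (nat_lit 0) (nat_lit 1186442739696) (nat_lit 1) (nat_lit 5) (nat_lit 3) (nat_lit 4) (nat_lit 1) (nat_lit 4) (nat_lit 254) (nat_lit 206) (nat_lit 140))))))))
noncomputable def xc33 : XT := (XT.nd (nat_lit 28314) (nat_lit 0) (nat_lit 0) (XT.nd (nat_lit 1092) (nat_lit 0) (nat_lit 0) (XT.nd (nat_lit 546) (nat_lit 0) (nat_lit 0) (XT.nd (nat_lit 234) (nat_lit 0) (nat_lit 0) (XT.nd (nat_lit 78) (nat_lit 0) (nat_lit 0) (XT.lf (nat_lit 0) (nat_lit 1396901872673) (nat_lit 152) (nat_lit 344476734079) (nat_lit 0) (nat_lit 1375763856427) (nat_lit 1) (nat_lit 5) (nat_lit 3) (nat_lit 4) (nat_lit 1) (nat_lit 4) (nat_lit 255) (nat_lit 206) (nat_lit 139)) (XT.nd (nat_lit 78) (nat_lit 0) (nat_lit 0) (XT.lf (nat_lit 0) (nat_lit 1614621196599)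 (nat_lit 152) (nat_lit 374853087502) (nat_lit 0) (nat_lit 1593482943902) (nat_lit 1) (nat_lit 5) (nat_lit 3) (nat_lit 4) (nat_lit 1) (nat_lit 4) (nat_lit 256) (nat_lit 206) (nat_lit 138)) (XT.lf (nat_lit 0) (nat_lit 1864998181704) (nat_lit 152) (nat_lit 409786339175) (nat_lit 0) (nat_lit 1843859723399) (nat_lit 1) (nat_lit 5) (nat_lit 3) (nat_lit 4) (nat_lit 1) (nat_lit 4) (nat_lit 257) (nat_lit 206) (nat_lit 137)))) (XT.nd (nat_lit 156) (nat_lit 0) (nat_lit 0) (XT.nd (nat_lit 78) (nat_lit 0) (nat_lit 0) (XT.lf (nat_lit 0) (nat_lit 2152931508133) (nat_lit 152) (nat_lit 449959965760) (nat_lit 0) (nat_lit 2131792871037) (nat_lit 1) (nat_lit 5) (nat_lit 3) (nat_lit 4) (nat_lit 1) (nat_lit 4) (nat_lit 258) (nat_lit 206) (nat_lit 136)) (XT.lf (nat_lit 0) (nat_lit 2484054654011) (nat_lit 152) (nat_lit 496159972995) (nat_lit 0) (nat_lit 2462915861446) (nat_lit 1) (nat_lit 5) (nat_lit 3)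 (nat_lit 4) (nat_lit 1) (nat_lit 4) (nat_lit 259) (nat_lit 206) (nat_lit 135))) (XT.nd (nat_lit 78) (nat_lit 0) (nat_lit 0) (XT.lf (nat_lit 0) (nat_lit 2864846115670) (nat_lit 152) (nat_lit 549290274065) (nat_lit 0) (nat_lit 2843707187914) (nat_lit 1) (nat_lit 5) (nat_lit 3) (nat_lit 4) (nat_lit 1) (nat_lit 4) (nat_lit 260) (nat_lit 206) (nat_lit 134)) (XT.lf (nat_lit 0) (nat_lit 3302756160839) (nat_lit 152) (nat_lit 610390374860) (nat_lit 0) (nat_lit 3281617115525) (nat_lit 1) (nat_lit 5) (nat_lit 3) (nat_lit 4) (nat_lit 1) (nat_lit 4) (nat_lit 261) (nat_lit 206) (nat_lit 133))))) (XT.nd (nat_lit 234) (nat_lit 0) (nat_lit 0) (XT.nd (nat_lit 78) (nat_lit 0) (nat_lit 0) (XT.lf (nat_lit 0) (nat_lit 3806352594750) (nat_lit 152) (nat_lit 680655712136) (nat_lit 0) (nat_lit 3785213447212) (nat_lit 1) (nat_lit 5) (nat_lit 3) (nat_lit 4) (nat_lit 1) (nat_lit 4) (nat_lit 262) (nat_lit 206)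 (nat_lit 132)) (XT.nd (nat_lit 78) (nat_lit 0) (nat_lit 0) (XT.lf (nat_lit 0) (nat_lit 4385488391108) (nat_lit 152) (nat_lit 761461042490) (nat_lit 0) (nat_lit 4364349154680) (nat_lit 1) (nat_lit 5) (nat_lit 3) (nat_lit 4) (nat_lit 1) (nat_lit 4) (nat_lit 263) (nat_lit 206) (nat_lit 131)) (XT.lf (nat_lit 0) (nat_lit 5051494467669) (nat_lit 152) (nat_lit 854387339779) (nat_lit 0) (nat_lit 5030355153945) (nat_lit 1) (nat_lit 5) (nat_lit 3) (nat_lit 4) (nat_lit 1) (nat_lit 4) (nat_lit 264) (nat_lit 206) (nat_lit 130)))) (XT.nd (nat_lit 156) (nat_lit 0) (nat_lit 0) (XT.nd (nat_lit 78) (nat_lit 0) (nat_lit 0) (XT.lf (nat_lit 0) (nat_lit 5817401378106) (nat_lit 152) (nat_lit 961252727208) (nat_lit 0) (nat_lit 5796261997168) (nat_lit 1) (nat_lit 5) (nat_lit 3) (nat_lit 4) (nat_lit 1) (nat_lit 4) (nat_lit 265) (nat_lit 206) (nat_lit 129)) (XT.lf (nat_lit 0) (nat_lit 6698194257621) (nat_lit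 152) (nat_lit 1084148049316) (nat_lit 0) (nat_lit 6677054818236) (nat_lit 1) (nat_lit 5) (nat_lit 3) (nat_lit 4) (nat_lit 1) (nat_lit 4) (nat_lit 266) (nat_lit 206) (nat_lit 128))) (XT.nd (nat_lit 78) (nat_lit 0) (nat_lit 0) (XT.lf (nat_lit 0) (nat_lit 7711106010380) (nat_lit 152) (nat_lit 1225477779796) (nat_lit 0) (nat_lit 7689966520171) (nat_lit 1) (nat_lit 5) (nat_lit 3) (nat_lit 4) (nat_lit 1) (nat_lit 4) (nat_lit 267) (nat_lit 206) (nat_lit 127)) (XT.lf (nat_lit 0) (nat_lit 8875954475023) (nat_lit 152) (nat_lit 1388007065548) (nat_lit 0) (nat_lit 8854814940620) (nat_lit 1) (nat_lit 5) (nat_lit 3) (nat_lit 4) (nat_lit 1) (nat_lit 4) (nat_lit 268) (nat_lit 206) (nat_lit 126)))))) (XT.nd (nat_lit 26598) (nat_lit 0) (nat_lit 532) (XT.nd (nat_lit 234) (nat_lit 0) (nat_lit 0) (XT.nd (nat_lit 78) (nat_lit 0) (nat_lit 0) (XT.lf (nat_lit 0) (nat_lit 10215530164989) (nat_lit 152) (nat_lit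 1574915827381) (nat_lit 0) (nat_lit 10194390592156) (nat_lit 1) (nat_lit 5) (nat_lit 3) (nat_lit 4) (nat_lit 1) (nat_lit 4) (nat_lit 269) (nat_lit 206) (nat_lit 125)) (XT.nd (nat_lit 78) (nat_lit 0) (nat_lit 0) (XT.lf (nat_lit 0) (nat_lit 11756042169864) (nat_lit 152) (nat_lit 1789860975852) (nat_lit 0) (nat_lit 11734902563615) (nat_lit 1) (nat_lit 5) (nat_lit 3) (nat_lit 4) (nat_lit 1) (nat_lit 4) (nat_lit 270) (nat_lit 206) (nat_lit 124)) (XT.lf (nat_lit 0) (nat_lit 13527630941918) (nat_lit 152) (nat_lit 2037047959517) (nat_lit 0) (nat_lit 13506491306610) (nat_lit 1) (nat_lit 5) (nat_lit 3) (nat_lit 4) (nat_lit 1) (nat_lit 4) (nat_lit 271) (nat_lit 206) (nat_lit 123)))) (XT.nd (nat_lit 26208) (nat_lit 0) (nat_lit 1064) (XT.nd (nat_lit 78) (nat_lit 0) (nat_lit 0) (XT.lf (nat_lit 0) (nat_lit 15564958000604) (nat_lit 152) (nat_lit 2321313045450) (nat_lit 0) (nat_lit 15543818340028)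 (nat_lit 1) (nat_lit 5) (nat_lit 3) (nat_lit 4) (nat_lit 1) (nat_lit 4) (nat_lit 272) (nat_lit 206) (nat_lit 122)) (XT.lf (nat_lit 0) (nat_lit 17907884092722) (nat_lit 152) (nat_lit 2648217941853) (nat_lit 0) (nat_lit 17886744410174) (nat_lit 1) (nat_lit 5) (nat_lit 3) (nat_lit 4) (nat_lit 1) (nat_lit 4) (nat_lit 273) (nat_lit 206) (nat_lit 121))) (XT.nd (nat_lit 78) (nat_lit 0) (nat_lit 0) (XT.lf (nat_lit 0) (nat_lit 1793459929) (nat_lit 0) (nat_lit 1793459929) (nat_lit 228) (nat_lit 2059606791) (nat_lit 15) (nat_lit 5) (nat_lit 15) (nat_lit 3) (nat_lit 18) (nat_lit 3) (nat_lit 207) (nat_lit 207) (nat_lit 186)) (XT.lf (nat_lit 0) (nat_lit 8188054332) (nat_lit 228) (nat_lit 3170493380) (nat_lit 304) (nat_lit 703269169) (nat_lit 15) (nat_lit 5) (nat_lit 18) (nat_lit 3) (nat_lit 19) (nat_lit 5) (nat_lit 208) (nat_lit 207) (nat_lit 185))))) (XT.nd (nat_lit 312) (nat_lit 380) (nat_lit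 0) (XT.nd (nat_lit 156) (nat_lit 152) (nat_lit 0) (XT.nd (nat_lit 78) (nat_lit 0) (nat_lit 0) (XT.lf (nat_lit 76) (nat_lit 1998335687) (nat_lit 0) (nat_lit 7532162251) (nat_lit 304) (nat_lit 3390191332) (nat_lit 16) (nat_lit 5) (nat_lit 15) (nat_lit 5) (nat_lit 19) (nat_lit 5) (nat_lit 209) (nat_lit 207) (nat_lit 184)) (XT.lf (nat_lit 76) (nat_lit 8247018604) (nat_lit 0) (nat_lit 2923522471) (nat_lit 304) (nat_lit 2724467621) (nat_lit 16) (nat_lit 5) (nat_lit 15) (nat_lit 5) (nat_lit 19) (nat_lit 5) (nat_lit 210) (nat_lit 207) (nat_lit 183))) (XT.nd (nat_lit 78) (nat_lit 0) (nat_lit 0) (XT.lf (nat_lit 0) (nat_lit 289222424) (nat_lit 228) (nat_lit 12817951631) (nat_lit 304) (nat_lit 1901628495) (nat_lit 13) (nat_lit 5) (nat_lit 16) (nat_lit 5) (nat_lit 17) (nat_lit 5) (nat_lit 211) (nat_lit 207) (nat_lit 182)) (XT.lf (nat_lit 0) (nat_lit 7545831153) (nat_lit 228) (nat_lit 8162398802)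 (nat_lit 304) (nat_lit 526141134) (nat_lit 13) (nat_lit 5) (nat_lit 16) (nat_lit 5) (nat_lit 17) (nat_lit 5) (nat_lit 212) (nat_lit 207) (nat_lit 181)))) (XT.nd (nat_lit 156) (nat_lit 152) (nat_lit 0) (XT.nd (nat_lit 78) (nat_lit 152) (nat_lit 0) (XT.lf (nat_lit 0) (nat_lit 911686323) (nat_lit 304) (nat_lit 1848237337) (nat_lit 76) (nat_lit 14885395284) (nat_lit 12) (nat_lit 5) (nat_lit 16) (nat_lit 5) (nat_lit 13) (nat_lit 5) (nat_lit 213) (nat_lit 207) (nat_lit 180)) (XT.lf (nat_lit 0) (nat_lit 2895197156) (nat_lit 228) (nat_lit 12858215377) (nat_lit 76) (nat_lit 3453679474) (nat_lit 10) (nat_lit 5) (nat_lit 13) (nat_lit 5) (nat_lit 11) (nat_lit 5) (nat_lit 214) (nat_lit 207) (nat_lit 179))) (XT.nd (nat_lit 78) (nat_lit 152) (nat_lit 0) (XT.lf (nat_lit 0) (nat_lit 5369151871) (nat_lit 228) (nat_lit 5190542021) (nat_lit 76) (nat_lit 10414953979) (nat_lit 10) (nat_lit 5) (nat_lit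 13) (nat_lit 5) (nat_lit 11) (nat_lit 5) (nat_lit 215) (nat_lit 207) (nat_lit 178)) (XT.lf (nat_lit 0) (nat_lit 3934849224) (nat_lit 152) (nat_lit 4407744566) (nat_lit 228) (nat_lit 14645879384) (nat_lit 8) (nat_lit 5) (nat_lit 10) (nat_lit 5) (nat_lit 11) (nat_lit 5) (nat_lit 216) (nat_lit 207) (nat_lit 177))))))) (XT.nd (nat_lit 1170) (nat_lit 152) (nat_lit 0) (XT.nd (nat_lit 546) (nat_lit 152) (nat_lit 0) (XT.nd (nat_lit 234) (nat_lit 152) (nat_lit 0) (XT.nd (nat_lit 78) (nat_lit 76) (nat_lit 0) (XT.lf (nat_lit 0) (nat_lit 12124631007) (nat_lit 228) (nat_lit 10420157560) (nat_lit 76) (nat_lit 2705540467) (nat_lit 8) (nat_lit 5) (nat_lit 11) (nat_lit 5) (nat_lit 9) (nat_lit 4) (nat_lit 217) (nat_lit 207) (nat_lit 176)) (XT.nd (nat_lit 78) (nat_lit 76) (nat_lit 0) (XT.lf (nat_lit 0) (nat_lit 16655953690) (nat_lit 228) (nat_lit 741150167) (nat_lit 76) (nat_lit 10427361229) (nat_lit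 8) (nat_lit 5) (nat_lit 11) (nat_lit 5) (nat_lit 9) (nat_lit 4) (nat_lit 218) (nat_lit 207) (nat_lit 175)) (XT.lf (nat_lit 0) (nat_lit 11367279215) (nat_lit 76) (nat_lit 10946118424) (nat_lit 152) (nat_lit 8404620300) (nat_lit 7) (nat_lit 5) (nat_lit 8) (nat_lit 5) (nat_lit 9) (nat_lit 4) (nat_lit 219) (nat_lit 207) (nat_lit 174)))) (XT.nd (nat_lit 156) (nat_lit 76) (nat_lit 0) (XT.nd (nat_lit 78) (nat_lit 76) (nat_lit 0) (XT.lf (nat_lit 0) (nat_lit 25342409937) (nat_lit 76) (nat_lit 3493323572) (nat_lit 152) (nat_lit 5207654844) (nat_lit 7) (nat_lit 5) (nat_lit 8) (nat_lit 5) (nat_lit 9) (nat_lit 4) (nat_lit 220) (nat_lit 207) (nat_lit 173)) (XT.lf (nat_lit 0) (nat_lit 3627633981) (nat_lit 76) (nat_lit 33049331923) (nat_lit 76) (nat_lit 1139712964) (nat_lit 6) (nat_lit 4) (nat_lit 7) (nat_lit 5) (nat_lit 7) (nat_lit 4) (nat_lit 221) (nat_lit 207) (nat_lit 172))) (XT.nd (nat_lit 78)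 (nat_lit 0) (nat_lit 0) (XT.lf (nat_lit 0) (nat_lit 3846645924) (nat_lit 152) (nat_lit 23670819594) (nat_lit 76) (nat_lit 14523182180) (nat_lit 5) (nat_lit 5) (nat_lit 7) (nat_lit 5) (nat_lit 6) (nat_lit 4) (nat_lit 222) (nat_lit 207) (nat_lit 171)) (XT.lf (nat_lit 0) (nat_lit 9447238502) (nat_lit 152) (nat_lit 11656927612) (nat_lit 76) (nat_lit 25788589393) (nat_lit 5) (nat_lit 5) (nat_lit 7) (nat_lit 5) (nat_lit 6) (nat_lit 4) (nat_lit 223) (nat_lit 207) (nat_lit 170))))) (XT.nd (nat_lit 312) (nat_lit 76) (nat_lit 0) (XT.nd (nat_lit 156) (nat_lit 0) (nat_lit 0) (XT.nd (nat_lit 78) (nat_lit 0) (nat_lit 0) (XT.lf (nat_lit 0) (nat_lit 2343514407) (nat_lit 76) (nat_lit 13626632239) (nat_lit 152) (nat_lit 36490311170) (nat_lit 4) (nat_lit 5) (nat_lit 5) (nat_lit 5) (nat_lit 6) (nat_lit 4) (nat_lit 224) (nat_lit 207) (nat_lit 169)) (XT.lf (nat_lit 0) (nat_lit 19731031436) (nat_lit 76)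 (nat_lit 4335962560) (nat_lit 152) (nat_lit 34707093703) (nat_lit 4) (nat_lit 5) (nat_lit 5) (nat_lit 5) (nat_lit 6) (nat_lit 4) (nat_lit 225) (nat_lit 207) (nat_lit 168))) (XT.nd (nat_lit 78) (nat_lit 0) (nat_lit 0) (XT.lf (nat_lit 0) (nat_lit 33628874155) (nat_lit 152) (nat_lit 26592574841) (nat_lit 0) (nat_lit 5775822149) (nat_lit 4) (nat_lit 5) (nat_lit 6) (nat_lit 4) (nat_lit 4) (nat_lit 4) (nat_lit 226) (nat_lit 207) (nat_lit 167)) (XT.lf (nat_lit 0) (nat_lit 44820759292) (nat_lit 152) (nat_lit 12499794669) (nat_lit 0) (nat_lit 16954093562) (nat_lit 4) (nat_lit 5) (nat_lit 6) (nat_lit 4) (nat_lit 4) (nat_lit 4) (nat_lit 227) (nat_lit 207) (nat_lit 166)))) (XT.nd (nat_lit 156) (nat_lit 0) (nat_lit 0) (XT.nd (nat_lit 78) (nat_lit 0) (nat_lit 0) (XT.lf (nat_lit 0) (nat_lit 4051223447) (nat_lit 76) (nat_lit 53798607185) (nat_lit 76) (nat_lit 25920103433) (nat_lit 3) (nat_lit 4)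 (nat_lit 4) (nat_lit 5) (nat_lit 4) (nat_lit 4) (nat_lit 228) (nat_lit 207) (nat_lit 165)) (XT.lf (nat_lit 0) (nat_lit 24474096791) (nat_lit 76) (nat_lit 49003788471) (nat_lit 76) (nat_lit 21114990788) (nat_lit 3) (nat_lit 4) (nat_lit 4) (nat_lit 5) (nat_lit 4) (nat_lit 4) (nat_lit 229) (nat_lit 207) (nat_lit 164))) (XT.nd (nat_lit 78) (nat_lit 0) (nat_lit 0) (XT.lf (nat_lit 0) (nat_lit 47946832474) (nat_lit 76) (nat_lit 43495684506) (nat_lit 76) (nat_lit 15597935578) (nat_lit 3) (nat_lit 4) (nat_lit 4) (nat_lit 5) (nat_lit 4) (nat_lit 4) (nat_lit 230) (nat_lit 207) (nat_lit 163)) (XT.lf (nat_lit 0) (nat_lit 74928679674) (nat_lit 76) (nat_lit 37166528039) (nat_lit 76) (nat_lit 9260995420) (nat_lit 3) (nat_lit 4) (nat_lit 4) (nat_lit 5) (nat_lit 4) (nat_lit 4) (nat_lit 231) (nat_lit 207) (nat_lit 162)))))) (XT.nd (nat_lit 546) (nat_lit 0) (nat_lit 0) (XT.nd (nat_lit 234) (nat_lit 0)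 (nat_lit 0) (XT.nd (nat_lit 78) (nat_lit 152) (nat_lit 0) (XT.lf (nat_lit 0) (nat_lit 105947544097) (nat_lit 76) (nat_lit 29892487748) (nat_lit 76) (nat_lit 1980186702) (nat_lit 3) (nat_lit 4) (nat_lit 4) (nat_lit 5) (nat_lit 4) (nat_lit 4) (nat_lit 232) (nat_lit 207) (nat_lit 161)) (XT.nd (nat_lit 78) (nat_lit 76) (nat_lit 0) (XT.lf (nat_lit 0) (nat_lit 5818331510) (nat_lit 152) (nat_lit 15408773887) (nat_lit 76) (nat_lit 135487845002) (nat_lit 2) (nat_lit 5) (nat_lit 4) (nat_lit 5) (nat_lit 3) (nat_lit 4) (nat_lit 233) (nat_lit 207) (nat_lit 160)) (XT.lf (nat_lit 0) (nat_lit 3756626811) (nat_lit 76) (nat_lit 10978224979) (nat_lit 152) (nat_lit 163672276531) (nat_lit 1) (nat_lit 5) (nat_lit 2) (nat_lit 5) (nat_lit 3) (nat_lit 4) (nat_lit 234) (nat_lit 207) (nat_lit 159)))) (XT.nd (nat_lit 156) (nat_lit 0) (nat_lit 0) (XT.nd (nat_lit 78) (nat_lit 0) (nat_lit 0) (XT.lf (nat_lit 0)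 (nat_lit 25861652564) (nat_lit 152) (nat_lit 175783932680) (nat_lit 0) (nat_lit 1576648313) (nat_lit 1) (nat_lit 5) (nat_lit 3) (nat_lit 4) (nat_lit 1) (nat_lit 4) (nat_lit 235) (nat_lit 207) (nat_lit 158)) (XT.lf (nat_lit 0) (nat_lit 39176360512) (nat_lit 152) (nat_lit 177617438109) (nat_lit 0) (nat_lit 14887991156) (nat_lit 1) (nat_lit 5) (nat_lit 3) (nat_lit 4) (nat_lit 1) (nat_lit 4) (nat_lit 236) (nat_lit 207) (nat_lit 157))) (XT.nd (nat_lit 78) (nat_lit 0) (nat_lit 0) (XT.lf (nat_lit 0) (nat_lit 54484895903) (nat_lit 152) (nat_lit 179732305846) (nat_lit 0) (nat_lit 30193600370) (nat_lit 1) (nat_lit 5) (nat_lit 3) (nat_lit 4) (nat_lit 1) (nat_lit 4) (nat_lit 237) (nat_lit 207) (nat_lit 156)) (XT.lf (nat_lit 0) (nat_lit 72086773560) (nat_lit 152) (nat_lit 182169913736) (nat_lit 0) (nat_lit 47792933525) (nat_lit 1) (nat_lit 5) (nat_lit 3) (nat_lit 4) (nat_lit 1) (nat_lit 4) (nat_lit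 238) (nat_lit 207) (nat_lit 155))))) (XT.nd (nat_lit 312) (nat_lit 0) (nat_lit 0) (XT.nd (nat_lit 156) (nat_lit 0) (nat_lit 0) (XT.nd (nat_lit 78) (nat_lit 0) (nat_lit 0) (XT.lf (nat_lit 0) (nat_lit 92326378047) (nat_lit 152) (nat_lit 184977954109) (nat_lit 0) (nat_lit 68030325401) (nat_lit 1) (nat_lit 5) (nat_lit 3) (nat_lit 4) (nat_lit 1) (nat_lit 4) (nat_lit 239) (nat_lit 207) (nat_lit 154)) (XT.lf (nat_lit 0) (nat_lit 115599701625) (nat_lit 152) (nat_lit 188211366884) (nat_lit 0) (nat_lit 91301724969) (nat_lit 1) (nat_lit 5) (nat_lit 3) (nat_lit 4) (nat_lit 1) (nat_lit 4) (nat_lit 240) (nat_lit 207) (nat_lit 153))) (XT.nd (nat_lit 78) (nat_lit 0) (nat_lit 0) (XT.lf (nat_lit 0) (nat_lit 142362091929) (nat_lit 152) (nat_lit 191933414486) (nat_lit 0) (nat_lit 118062442221) (nat_lit 1) (nat_lit 5) (nat_lit 3) (nat_lit 4) (nat_lit 1) (nat_lit 4) (nat_lit 241) (nat_lit 207) (nat_lit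 152)) (XT.lf (nat_lit 0) (nat_lit 173137160943) (nat_lit 152) (nat_lit 196216919584) (nat_lit 0) (nat_lit 148836056408) (nat_lit 1) (nat_lit 5) (nat_lit 3) (nat_lit 4) (nat_lit 1) (nat_lit 4) (nat_lit 242) (nat_lit 207) (nat_lit 151)))) (XT.nd (nat_lit 156) (nat_lit 0) (nat_lit 0) (XT.nd (nat_lit 78) (nat_lit 0) (nat_lit 0) (XT.lf (nat_lit 0) (nat_lit 208527029583) (nat_lit 152) (nat_lit 201145689887) (nat_lit 0) (nat_lit 184224659981) (nat_lit 1) (nat_lit 5) (nat_lit 3) (nat_lit 4) (nat_lit 1) (nat_lit 4) (nat_lit 243) (nat_lit 207) (nat_lit 150)) (XT.lf (nat_lit 0) (nat_lit 249224108322) (nat_lit 152) (nat_lit 206816157859) (nat_lit 0) (nat_lit 224920638661) (nat_lit 1) (nat_lit 5) (nat_lit 3) (nat_lit 4) (nat_lit 1) (nat_lit 4) (nat_lit 244) (nat_lit 207) (nat_lit 149))) (XT.nd (nat_lit 78) (nat_lit 0) (nat_lit 0) (XT.lf (nat_lit 0) (nat_lit 296024644354) (nat_lit 152) (nat_lit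 213339267437) (nat_lit 0) (nat_lit 271720218120) (nat_lit 1) (nat_lit 5) (nat_lit 3) (nat_lit 4) (nat_lit 1) (nat_lit 4) (nat_lit 245) (nat_lit 207) (nat_lit 148)) (XT.lf (nat_lit 0) (nat_lit 349844300339) (nat_lit 152) (nat_lit 220842644678) (nat_lit 0) (nat_lit 325539042302) (nat_lit 1) (nat_lit 5) (nat_lit 3) (nat_lit 4) (nat_lit 1) (nat_lit 4) (nat_lit 246) (nat_lit 207) (nat_lit 147))))))))
noncomputable def xc34 : XT := (XT.nd (nat_lit 28470) (nat_lit 0) (nat_lit 0) (XT.nd (nat_lit 1092) (nat_lit 0) (nat_lit 0) (XT.nd (nat_lit 546) (nat_lit 0) (nat_lit 0) (XT.nd (nat_lit 234) (nat_lit 0) (nat_lit 0) (XT.nd (nat_lit 78) (nat_lit 0) (nat_lit 0) (XT.lf (nat_lit 0) (nat_lit 411736069546) (nat_lit 152) (nat_lit 229473094789) (nat_lit 0) (nat_lit 387430088203) (nat_lit 1) (nat_lit 5) (nat_lit 3) (nat_lit 4) (nat_lit 1) (nat_lit 4) (nat_lit 247) (nat_lit 207) (nat_lit 146)) (XT.nd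 (nat_lit 78) (nat_lit 0) (nat_lit 0) (XT.lf (nat_lit 0) (nat_lit 482910877895) (nat_lit 152) (nat_lit 239399474403) (nat_lit 0) (nat_lit 458604267591) (nat_lit 1) (nat_lit 5) (nat_lit 3) (nat_lit 4) (nat_lit 1) (nat_lit 4) (nat_lit 248) (nat_lit 207) (nat_lit 145)) (XT.lf (nat_lit 0) (nat_lit 564761275985) (nat_lit 152) (nat_lit 250815995295) (nat_lit 0) (nat_lit 540454118757) (nat_lit 1) (nat_lit 5) (nat_lit 3) (nat_lit 4) (nat_lit 1) (nat_lit 4) (nat_lit 249) (nat_lit 207) (nat_lit 144)))) (XT.nd (nat_lit 156) (nat_lit 0) (nat_lit 0) (XT.nd (nat_lit 78) (nat_lit 0) (nat_lit 0) (XT.lf (nat_lit 0) (nat_lit 658888684647) (nat_lit 152) (nat_lit 263946024177) (nat_lit 0) (nat_lit 634581051833) (nat_lit 1) (nat_lit 5) (nat_lit 3) (nat_lit 4) (nat_lit 1) (nat_lit 4) (nat_lit 250) (nat_lit 207) (nat_lit 143)) (XT.lf (nat_lit 0) (nat_lit 767134727094) (nat_lit 152) (nat_lit 279046452920)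 (nat_lit 0) (nat_lit 742826680727) (nat_lit 1) (nat_lit 5) (nat_lit 3) (nat_lit 4) (nat_lit 1) (nat_lit 4) (nat_lit 251) (nat_lit 207) (nat_lit 142))) (XT.nd (nat_lit 78) (nat_lit 0) (nat_lit 0) (XT.lf (nat_lit 0) (nat_lit 891617260679) (nat_lit 152) (nat_lit 296412724695) (nat_lit 0) (nat_lit 867308854701) (nat_lit 1) (nat_lit 5) (nat_lit 3) (nat_lit 4) (nat_lit 1) (nat_lit 4) (nat_lit 252) (nat_lit 207) (nat_lit 141)) (XT.lf (nat_lit 0) (nat_lit 1034771813232) (nat_lit 152) (nat_lit 316384614383) (nat_lit 0) (nat_lit 1010463094549) (nat_lit 1) (nat_lit 5) (nat_lit 3) (nat_lit 4) (nat_lit 1) (nat_lit 4) (nat_lit 253) (nat_lit 207) (nat_lit 140))))) (XT.nd (nat_lit 234) (nat_lit 0) (nat_lit 0) (XT.nd (nat_lit 78) (nat_lit 0) (nat_lit 0) (XT.lf (nat_lit 0) (nat_lit 1199399234695) (nat_lit 152) (nat_lit 339352876349) (nat_lit 0) (nat_lit 1175090244094) (nat_lit 1) (nat_lit 5) (nat_lit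 3) (nat_lit 4) (nat_lit 1) (nat_lit 4) (nat_lit 254) (nat_lit 207) (nat_lit 139)) (XT.nd (nat_lit 78) (nat_lit 0) (nat_lit 0) (XT.lf (nat_lit 0) (nat_lit 1388720496358) (nat_lit 152) (nat_lit 365766889631) (nat_lit 0) (nat_lit 1364411269307) (nat_lit 1) (nat_lit 5) (nat_lit 3) (nat_lit 4) (nat_lit 1) (nat_lit 4) (nat_lit 255) (nat_lit 207) (nat_lit 138)) (XT.lf (nat_lit 0) (nat_lit 1606439709860) (nat_lit 152) (nat_lit 396143450141) (nat_lit 0) (nat_lit 1582130277201) (nat_lit 1) (nat_lit 5) (nat_lit 3) (nat_lit 4) (nat_lit 1) (nat_lit 4) (nat_lit 256) (nat_lit 207) (nat_lit 137)))) (XT.nd (nat_lit 156) (nat_lit 0) (nat_lit 0) (XT.nd (nat_lit 78) (nat_lit 0) (nat_lit 0) (XT.lf (nat_lit 0) (nat_lit 1856816598946) (nat_lit 152) (nat_lit 431076881889) (nat_lit 0) (nat_lit 1832506987496) (nat_lit 1) (nat_lit 5) (nat_lit 3) (nat_lit 4) (nat_lit 1) (nat_lit 4) (nat_lit 257) (nat_lit 207)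 (nat_lit 136)) (XT.lf (nat_lit 0) (nat_lit 2144749841879) (nat_lit 152) (nat_lit 471250665061) (nat_lit 0) (nat_lit 2120440074959) (nat_lit 1) (nat_lit 5) (nat_lit 3) (nat_lit 4) (nat_lit 1) (nat_lit 4) (nat_lit 258) (nat_lit 207) (nat_lit 135))) (XT.nd (nat_lit 78) (nat_lit 0) (nat_lit 0) (XT.lf (nat_lit 0) (nat_lit 2475872915153) (nat_lit 152) (nat_lit 517450808459) (nat_lit 0) (nat_lit 2451563013042) (nat_lit 1) (nat_lit 5) (nat_lit 3) (nat_lit 4) (nat_lit 1) (nat_lit 4) (nat_lit 259) (nat_lit 207) (nat_lit 134)) (XT.lf (nat_lit 0) (nat_lit 2856664313677) (nat_lit 152) (nat_lit 570581227931) (nat_lit 0) (nat_lit 2832354294009) (nat_lit 1) (nat_lit 5) (nat_lit 3) (nat_lit 4) (nat_lit 1) (nat_lit 4) (nat_lit 260) (nat_lit 207) (nat_lit 133)))))) (XT.nd (nat_lit 546) (nat_lit 0) (nat_lit 0) (XT.nd (nat_lit 234) (nat_lit 0) (nat_lit 0) (XT.nd (nat_lit 78) (nat_lit 0) (nat_lit 0) (XT.lf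 (nat_lit 0) (nat_lit 3294574303947) (nat_lit 152) (nat_lit 631681431685) (nat_lit 0) (nat_lit 3270264182054) (nat_lit 1) (nat_lit 5) (nat_lit 3) (nat_lit 4) (nat_lit 1) (nat_lit 4) (nat_lit 261) (nat_lit 207) (nat_lit 132)) (XT.nd (nat_lit 78) (nat_lit 0) (nat_lit 0) (XT.lf (nat_lit 0) (nat_lit 3798170690118) (nat_lit 152) (nat_lit 701946858490) (nat_lit 0) (nat_lit 3773860479336) (nat_lit 1) (nat_lit 5) (nat_lit 3) (nat_lit 4) (nat_lit 1) (nat_lit 4) (nat_lit 262) (nat_lit 207) (nat_lit 131)) (XT.lf (nat_lit 0) (nat_lit 4377306444965) (nat_lit 152) (nat_lit 782752266696) (nat_lit 0) (nat_lit 4352996156886) (nat_lit 1) (nat_lit 5) (nat_lit 3) (nat_lit 4) (nat_lit 1) (nat_lit 4) (nat_lit 263) (nat_lit 207) (nat_lit 130)))) (XT.nd (nat_lit 156) (nat_lit 0) (nat_lit 0) (XT.nd (nat_lit 78) (nat_lit 0) (nat_lit 0) (XT.lf (nat_lit 0) (nat_lit 5043312485429) (nat_lit 152) (nat_lit 875678631681)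 (nat_lit 0) (nat_lit 5019002130136) (nat_lit 1) (nat_lit 5) (nat_lit 3) (nat_lit 4) (nat_lit 1) (nat_lit 4) (nat_lit 264) (nat_lit 207) (nat_lit 129)) (XT.lf (nat_lit 0) (nat_lit 5809219364476) (nat_lit 152) (nat_lit 982544077977) (nat_lit 0) (nat_lit 5784908950736) (nat_lit 1) (nat_lit 5) (nat_lit 3) (nat_lit 4) (nat_lit 1) (nat_lit 4) (nat_lit 265) (nat_lit 207) (nat_lit 128))) (XT.nd (nat_lit 78) (nat_lit 0) (nat_lit 0) (XT.lf (nat_lit 0) (nat_lit 6690012216696) (nat_lit 152) (nat_lit 1105439451274) (nat_lit 0) (nat_lit 6665701752133) (nat_lit 1) (nat_lit 5) (nat_lit 3) (nat_lit 4) (nat_lit 1) (nat_lit 4) (nat_lit 266) (nat_lit 207) (nat_lit 127)) (XT.lf (nat_lit 0) (nat_lit 7702923945720) (nat_lit 152) (nat_lit 1246769226266) (nat_lit 0) (nat_lit 7678613436963) (nat_lit 1) (nat_lit 5) (nat_lit 3) (nat_lit 4) (nat_lit 1) (nat_lit 4) (nat_lit 267) (nat_lit 207) (nat_lit 126)))))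 (XT.nd (nat_lit 312) (nat_lit 0) (nat_lit 0) (XT.nd (nat_lit 156) (nat_lit 0) (nat_lit 0) (XT.nd (nat_lit 78) (nat_lit 0) (nat_lit 0) (XT.lf (nat_lit 0) (nat_lit 8867772389725) (nat_lit 152) (nat_lit 1409298550724) (nat_lit 0) (nat_lit 8843461842538) (nat_lit 1) (nat_lit 5) (nat_lit 3) (nat_lit 4) (nat_lit 1) (nat_lit 4) (nat_lit 268) (nat_lit 207) (nat_lit 125)) (XT.lf (nat_lit 0) (nat_lit 10207348061744) (nat_lit 152) (nat_lit 1596207346213) (nat_lit 0) (nat_lit 10183037481140) (nat_lit 1) (nat_lit 5) (nat_lit 3) (nat_lit 4) (nat_lit 1) (nat_lit 4) (nat_lit 269) (nat_lit 207) (nat_lit 124))) (XT.nd (nat_lit 78) (nat_lit 0) (nat_lit 0) (XT.lf (nat_lit 0) (nat_lit 11747860051014) (nat_lit 152) (nat_lit 1811152523951) (nat_lit 0) (nat_lit 11723549441351) (nat_lit 1) (nat_lit 5) (nat_lit 3) (nat_lit 4) (nat_lit 1) (nat_lit 4) (nat_lit 270) (nat_lit 207) (nat_lit 123)) (XT.lf (nat_lit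 0) (nat_lit 13519448809497) (nat_lit 152) (nat_lit 2058339533067) (nat_lit 0) (nat_lit 13495138174567) (nat_lit 1) (nat_lit 5) (nat_lit 3) (nat_lit 4) (nat_lit 1) (nat_lit 4) (nat_lit 271) (nat_lit 207) (nat_lit 122)))) (XT.nd (nat_lit 26364) (nat_lit 0) (nat_lit 1064) (XT.nd (nat_lit 26286) (nat_lit 0) (nat_lit 1064) (XT.lf (nat_lit 0) (nat_lit 15556775856383) (nat_lit 152) (nat_lit 2342604641130) (nat_lit 0) (nat_lit 15532465199480) (nat_lit 1) (nat_lit 5) (nat_lit 3) (nat_lit 4) (nat_lit 1) (nat_lit 4) (nat_lit 272) (nat_lit 207) (nat_lit 121)) (XT.lf (nat_lit 0) (nat_lit 2275386954) (nat_lit 0) (nat_lit 2275386954) (nat_lit 228) (nat_lit 1872351521) (nat_lit 15) (nat_lit 5) (nat_lit 15) (nat_lit 3) (nat_lit 18) (nat_lit 3) (nat_lit 208) (nat_lit 208) (nat_lit 184))) (XT.nd (nat_lit 78) (nat_lit 0) (nat_lit 0) (XT.lf (nat_lit 0) (nat_lit 10141479877) (nat_lit 228) (nat_lit 3138059871)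 (nat_lit 304) (nat_lit 471449128) (nat_lit 15) (nat_lit 5) (nat_lit 18) (nat_lit 3) (nat_lit 19) (nat_lit 5) (nat_lit 209) (nat_lit 208) (nat_lit 183)) (XT.lf (nat_lit 76) (nat_lit 2783002305) (nat_lit 0) (nat_lit 8827773495) (nat_lit 304) (nat_lit 3140569710) (nat_lit 16) (nat_lit 5) (nat_lit 15) (nat_lit 5) (nat_lit 19) (nat_lit 5) (nat_lit 210) (nat_lit 208) (nat_lit 182))))))) (XT.nd (nat_lit 1170) (nat_lit 228) (nat_lit 0) (XT.nd (nat_lit 546) (nat_lit 304) (nat_lit 0) (XT.nd (nat_lit 234) (nat_lit 380) (nat_lit 0) (XT.nd (nat_lit 78) (nat_lit 152) (nat_lit 0) (XT.lf (nat_lit 76) (nat_lit 9905737712) (nat_lit 0) (nat_lit 3506213368) (nat_lit 304) (nat_lit 2473876614) (nat_lit 16) (nat_lit 5) (nat_lit 15) (nat_lit 5) (nat_lit 19) (nat_lit 5) (nat_lit 211) (nat_lit 208) (nat_lit 181)) (XT.nd (nat_lit 78) (nat_lit 0) (nat_lit 0) (XT.lf (nat_lit 0) (nat_lit 829988961) (nat_lit 228)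 (nat_lit 14750691024) (nat_lit 304) (nat_lit 1595886754) (nat_lit 13) (nat_lit 5) (nat_lit 16) (nat_lit 5) (nat_lit 17) (nat_lit 5) (nat_lit 212) (nat_lit 208) (nat_lit 180)) (XT.lf (nat_lit 0) (nat_lit 9110212933) (nat_lit 228) (nat_lit 9395494838) (nat_lit 304) (nat_lit 91161421) (nat_lit 13) (nat_lit 5) (nat_lit 16) (nat_lit 5) (nat_lit 17) (nat_lit 5) (nat_lit 213) (nat_lit 208) (nat_lit 179)))) (XT.nd (nat_lit 156) (nat_lit 152) (nat_lit 0) (XT.nd (nat_lit 78) (nat_lit 152) (nat_lit 0) (XT.lf (nat_lit 0) (nat_lit 1455526117) (nat_lit 304) (nat_lit 1704703261) (nat_lit 76) (nat_lit 17065931328) (nat_lit 12) (nat_lit 5) (nat_lit 16) (nat_lit 5) (nat_lit 13) (nat_lit 5) (nat_lit 214) (nat_lit 208) (nat_lit 178)) (XT.lf (nat_lit 0) (nat_lit 3701381141) (nat_lit 228) (nat_lit 14326740746) (nat_lit 76) (nat_lit 3999993431) (nat_lit 10) (nat_lit 5) (nat_lit 13) (nat_lit 5) (nat_lit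 11) (nat_lit 5) (nat_lit 215) (nat_lit 208) (nat_lit 177))) (XT.nd (nat_lit 78) (nat_lit 152) (nat_lit 0) (XT.lf (nat_lit 0) (nat_lit 6497919793) (nat_lit 228) (nat_lit 5568943378) (nat_lit 76) (nat_lit 12001772760) (nat_lit 10) (nat_lit 5) (nat_lit 13) (nat_lit 5) (nat_lit 11) (nat_lit 5) (nat_lit 216) (nat_lit 208) (nat_lit 176)) (XT.lf (nat_lit 0) (nat_lit 4907066556) (nat_lit 152) (nat_lit 4983946858) (nat_lit 228) (nat_lit 16497958892) (nat_lit 8) (nat_lit 5) (nat_lit 10) (nat_lit 5) (nat_lit 11) (nat_lit 5) (nat_lit 217) (nat_lit 208) (nat_lit 175))))) (XT.nd (nat_lit 312) (nat_lit 228) (nat_lit 0) (XT.nd (nat_lit 156) (nat_lit 76) (nat_lit 0) (XT.nd (nat_lit 78) (nat_lit 0) (nat_lit 0) (XT.lf (nat_lit 0) (nat_lit 14204672217) (nat_lit 228) (nat_lit 11612534406) (nat_lit 76) (nat_lit 3178672163) (nat_lit 8) (nat_lit 5) (nat_lit 11) (nat_lit 5) (nat_lit 9) (nat_lit 4) (nat_lit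 218) (nat_lit 208) (nat_lit 174)) (XT.lf (nat_lit 0) (nat_lit 19381604620) (nat_lit 228) (nat_lit 530021138) (nat_lit 76) (nat_lit 12049987698) (nat_lit 8) (nat_lit 5) (nat_lit 11) (nat_lit 5) (nat_lit 9) (nat_lit 4) (nat_lit 219) (nat_lit 208) (nat_lit 173))) (XT.nd (nat_lit 78) (nat_lit 0) (nat_lit 0) (XT.lf (nat_lit 0) (nat_lit 13380022581) (nat_lit 76) (nat_lit 12490739441) (nat_lit 152) (nat_lit 9421289996) (nat_lit 7) (nat_lit 5) (nat_lit 8) (nat_lit 5) (nat_lit 9) (nat_lit 4) (nat_lit 220) (nat_lit 208) (nat_lit 172)) (XT.lf (nat_lit 0) (nat_lit 29411294456) (nat_lit 76) (nat_lit 3932716241) (nat_lit 152) (nat_lit 5776608854) (nat_lit 7) (nat_lit 5) (nat_lit 8) (nat_lit 5) (nat_lit 9) (nat_lit 4) (nat_lit 221) (nat_lit 208) (nat_lit 171)))) (XT.nd (nat_lit 156) (nat_lit 76) (nat_lit 0) (XT.nd (nat_lit 78) (nat_lit 76) (nat_lit 0) (XT.lf (nat_lit 0) (nat_lit 4451744144) (nat_lit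 76) (nat_lit 37900464196) (nat_lit 76) (nat_lit 1109318180) (nat_lit 6) (nat_lit 4) (nat_lit 7) (nat_lit 5) (nat_lit 7) (nat_lit 4) (nat_lit 222) (nat_lit 208) (nat_lit 170)) (XT.lf (nat_lit 0) (nat_lit 4583143686) (nat_lit 152) (nat_lit 26961197577) (nat_lit 76) (nat_lit 16777268970) (nat_lit 5) (nat_lit 5) (nat_lit 7) (nat_lit 5) (nat_lit 6) (nat_lit 4) (nat_lit 223) (nat_lit 208) (nat_lit 169))) (XT.nd (nat_lit 78) (nat_lit 76) (nat_lit 0) (XT.lf (nat_lit 0) (nat_lit 11003020690) (nat_lit 152) (nat_lit 13179166792) (nat_lit 76) (nat_lit 29722625161) (nat_lit 5) (nat_lit 5) (nat_lit 7) (nat_lit 5) (nat_lit 6) (nat_lit 4) (nat_lit 224) (nat_lit 208) (nat_lit 168)) (XT.lf (nat_lit 0) (nat_lit 2911055167) (nat_lit 76) (nat_lit 15584163713) (nat_lit 152) (nat_lit 41813960525) (nat_lit 4) (nat_lit 5) (nat_lit 5) (nat_lit 5) (nat_lit 6) (nat_lit 4) (nat_lit 225) (nat_lit 208) (nat_lit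 167)))))) (XT.nd (nat_lit 546) (nat_lit 152) (nat_lit 0) (XT.nd (nat_lit 234) (nat_lit 76) (nat_lit 0) (XT.nd (nat_lit 78) (nat_lit 0) (nat_lit 0) (XT.lf (nat_lit 0) (nat_lit 22878524064) (nat_lit 76) (nat_lit 4911171412) (nat_lit 152) (nat_lit 39782812263) (nat_lit 4) (nat_lit 5) (nat_lit 5) (nat_lit 5) (nat_lit 6) (nat_lit 4) (nat_lit 226) (nat_lit 208) (nat_lit 166)) (XT.nd (nat_lit 78) (nat_lit 0) (nat_lit 0) (XT.lf (nat_lit 0) (nat_lit 38773871064) (nat_lit 152) (nat_lit 30405445627) (nat_lit 0) (nat_lit 6701753729) (nat_lit 4) (nat_lit 5) (nat_lit 6) (nat_lit 4) (nat_lit 4) (nat_lit 4) (nat_lit 227) (nat_lit 208) (nat_lit 165)) (XT.lf (nat_lit 0) (nat_lit 51631408652) (nat_lit 152) (nat_lit 14221706966) (nat_lit 0) (nat_lit 19548997385) (nat_lit 4) (nat_lit 5) (nat_lit 6) (nat_lit 4) (nat_lit 4) (nat_lit 4) (nat_lit 228) (nat_lit 208) (nat_lit 164)))) (XT.nd (nat_lit 156) (nat_lit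 0) (nat_lit 0) (XT.nd (nat_lit 78) (nat_lit 0) (nat_lit 0) (XT.lf (nat_lit 0) (nat_lit 4805006736) (nat_lit 76) (nat_lit 61804465967) (nat_lit 76) (nat_lit 29713103456) (nat_lit 3) (nat_lit 4) (nat_lit 4) (nat_lit 5) (nat_lit 4) (nat_lit 4) (nat_lit 229) (nat_lit 208) (nat_lit 163)) (XT.lf (nat_lit 0) (nat_lit 28272254589) (nat_lit 76) (nat_lit 56298763441) (nat_lit 76) (nat_lit 24199617238) (nat_lit 3) (nat_lit 4) (nat_lit 4) (nat_lit 5) (nat_lit 4) (nat_lit 4) (nat_lit 230) (nat_lit 208) (nat_lit 162))) (XT.nd (nat_lit 78) (nat_lit 0) (nat_lit 0) (XT.lf (nat_lit 0) (nat_lit 55249329763) (nat_lit 76) (nat_lit 49971695182) (nat_lit 76) (nat_lit 17865780552) (nat_lit 3) (nat_lit 4) (nat_lit 4) (nat_lit 5) (nat_lit 4) (nat_lit 4) (nat_lit 231) (nat_lit 208) (nat_lit 161)) (XT.lf (nat_lit 0) (nat_lit 86264044597) (nat_lit 76) (nat_lit 42699470723) (nat_lit 76) (nat_lit 10587670505) (nat_lit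 3) (nat_lit 4) (nat_lit 4) (nat_lit 5) (nat_lit 4) (nat_lit 4) (nat_lit 232) (nat_lit 208) (nat_lit 160))))) (XT.nd (nat_lit 312) (nat_lit 0) (nat_lit 0) (XT.nd (nat_lit 156) (nat_lit 76) (nat_lit 0) (XT.nd (nat_lit 78) (nat_lit 76) (nat_lit 0) (XT.lf (nat_lit 0) (nat_lit 121923208730) (nat_lit 76) (nat_lit 34339807413) (nat_lit 76) (nat_lit 2222889291) (nat_lit 3) (nat_lit 4) (nat_lit 4) (nat_lit 5) (nat_lit 4) (nat_lit 4) (nat_lit 233) (nat_lit 208) (nat_lit 159)) (XT.lf (nat_lit 0) (nat_lit 6734115143) (nat_lit 152) (nat_lit 17643020914) (nat_lit 76) (nat_lit 155838375754) (nat_lit 2) (nat_lit 5) (nat_lit 4) (nat_lit 5) (nat_lit 3) (nat_lit 4) (nat_lit 234) (nat_lit 208) (nat_lit 158))) (XT.nd (nat_lit 78) (nat_lit 0) (nat_lit 0) (XT.lf (nat_lit 0) (nat_lit 4393686749) (nat_lit 76) (nat_lit 12591859804) (nat_lit 152) (nat_lit 188176384390) (nat_lit 1) (nat_lit 5) (nat_lit 2) (nat_lit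 5) (nat_lit 3) (nat_lit 4) (nat_lit 235) (nat_lit 208) (nat_lit 157)) (XT.lf (nat_lit 0) (nat_lit 29777280928) (nat_lit 152) (nat_lit 202083294768) (nat_lit 0) (nat_lit 1839364887) (nat_lit 1) (nat_lit 5) (nat_lit 3) (nat_lit 4) (nat_lit 1) (nat_lit 4) (nat_lit 236) (nat_lit 208) (nat_lit 156)))) (XT.nd (nat_lit 156) (nat_lit 0) (nat_lit 0) (XT.nd (nat_lit 78) (nat_lit 0) (nat_lit 0) (XT.lf (nat_lit 0) (nat_lit 45084449788) (nat_lit 152) (nat_lit 204200725292) (nat_lit 0) (nat_lit 17143989245) (nat_lit 1) (nat_lit 5) (nat_lit 3) (nat_lit 4) (nat_lit 1) (nat_lit 4) (nat_lit 237) (nat_lit 208) (nat_lit 155)) (XT.lf (nat_lit 0) (nat_lit 62685139158) (nat_lit 152) (nat_lit 206640561693) (nat_lit 0) (nat_lit 34742466003) (nat_lit 1) (nat_lit 5) (nat_lit 3) (nat_lit 4) (nat_lit 1) (nat_lit 4) (nat_lit 238) (nat_lit 208) (nat_lit 154))) (XT.nd (nat_lit 78) (nat_lit 0) (nat_lit 0) (XT.lf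 (nat_lit 0) (nat_lit 82923710351) (nat_lit 152) (nat_lit 209450539902) (nat_lit 0) (nat_lit 54979113187) (nat_lit 1) (nat_lit 5) (nat_lit 3) (nat_lit 4) (nat_lit 1) (nat_lit 4) (nat_lit 239) (nat_lit 208) (nat_lit 153)) (XT.lf (nat_lit 0) (nat_lit 106196135412) (nat_lit 152) (nat_lit 212685637751) (nat_lit 0) (nat_lit 78249865196) (nat_lit 1) (nat_lit 5) (nat_lit 3) (nat_lit 4) (nat_lit 1) (nat_lit 4) (nat_lit 240) (nat_lit 208) (nat_lit 152))))))))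
noncomputable def xc35 : XT := (XT.nd (nat_lit 2340) (nat_lit 0) (nat_lit 0) (XT.nd (nat_lit 1170) (nat_lit 0) (nat_lit 0) (XT.nd (nat_lit 546) (nat_lit 0) (nat_lit 0) (XT.nd (nat_lit 234) (nat_lit 0) (nat_lit 0) (XT.nd (nat_lit 78) (nat_lit 0) (nat_lit 0) (XT.lf (nat_lit 0) (nat_lit 132957744397) (nat_lit 152) (nat_lit 216409150635) (nat_lit 0) (nat_lit 105010019354) (nat_lit 1) (nat_lit 5) (nat_lit 3) (nat_lit 4) (nat_lit 1) (nat_lit 4) (nat_lit 241) (nat_lit 208) (nat_lit 151)) (XT.nd (nat_lit 78) (nat_lit 0) (nat_lit 0) (XT.lf (nat_lit 0) (nat_lit 163732134004) (nat_lit 152) (nat_lit 220693929892) (nat_lit 0) (nat_lit 135783143893) (nat_lit 1) (nat_lit 5) (nat_lit 3) (nat_lit 4) (nat_lit 1) (nat_lit 4) (nat_lit 242) (nat_lit 208) (nat_lit 150)) (XT.lf (nat_lit 0) (nat_lit 199121411854) (nat_lit 152) (nat_lit 225623808159) (nat_lit 0) (nat_lit 171171321685) (nat_lit 1) (nat_lit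 5) (nat_lit 3) (nat_lit 4) (nat_lit 1) (nat_lit 4) (nat_lit 243) (nat_lit 208) (nat_lit 149)))) (XT.nd (nat_lit 156) (nat_lit 0) (nat_lit 0) (XT.nd (nat_lit 78) (nat_lit 0) (nat_lit 0) (XT.lf (nat_lit 0) (nat_lit 239817976864) (nat_lit 152) (nat_lit 231295239577) (nat_lit 0) (nat_lit 211866930122) (nat_lit 1) (nat_lit 5) (nat_lit 3) (nat_lit 4) (nat_lit 1) (nat_lit 4) (nat_lit 244) (nat_lit 208) (nat_lit 148)) (XT.lf (nat_lit 0) (nat_lit 286618066174) (nat_lit 152) (nat_lit 237819186935) (nat_lit 0) (nat_lit 258666187630) (nat_lit 1) (nat_lit 5) (nat_lit 3) (nat_lit 4) (nat_lit 1) (nat_lit 4) (nat_lit 245) (nat_lit 208) (nat_lit 147))) (XT.nd (nat_lit 78) (nat_lit 0) (nat_lit 0) (XT.lf (nat_lit 0) (nat_lit 340437333705) (nat_lit 152) (nat_lit 245323292680) (nat_lit 0) (nat_lit 312484731855) (nat_lit 1) (nat_lit 5) (nat_lit 3) (nat_lit 4) (nat_lit 1) (nat_lit 4) (nat_lit 246) (nat_lit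 208) (nat_lit 146)) (XT.lf (nat_lit 0) (nat_lit 402328765127) (nat_lit 152) (nat_lit 253954376273) (nat_lit 0) (nat_lit 374375534314) (nat_lit 1) (nat_lit 5) (nat_lit 3) (nat_lit 4) (nat_lit 1) (nat_lit 4) (nat_lit 247) (nat_lit 208) (nat_lit 145))))) (XT.nd (nat_lit 312) (nat_lit 0) (nat_lit 0) (XT.nd (nat_lit 156) (nat_lit 0) (nat_lit 0) (XT.nd (nat_lit 78) (nat_lit 0) (nat_lit 0) (XT.lf (nat_lit 0) (nat_lit 473503279750) (nat_lit 152) (nat_lit 263881306741) (nat_lit 0) (nat_lit 445549502014) (nat_lit 1) (nat_lit 5) (nat_lit 3) (nat_lit 4) (nat_lit 1) (nat_lit 4) (nat_lit 248) (nat_lit 208) (nat_lit 144)) (XT.lf (nat_lit 0) (nat_lit 555353422425) (nat_lit 152) (nat_lit 275298306636) (nat_lit 0) (nat_lit 527399169103) (nat_lit 1) (nat_lit 5) (nat_lit 3) (nat_lit 4) (nat_lit 1) (nat_lit 4) (nat_lit 249) (nat_lit 208) (nat_lit 143))) (XT.nd (nat_lit 78) (nat_lit 0) (nat_lit 0) (XT.lf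 (nat_lit 0) (nat_lit 649480608987) (nat_lit 152) (nat_lit 288428752043) (nat_lit 0) (nat_lit 621525942113) (nat_lit 1) (nat_lit 5) (nat_lit 3) (nat_lit 4) (nat_lit 1) (nat_lit 4) (nat_lit 250) (nat_lit 208) (nat_lit 142)) (XT.lf (nat_lit 0) (nat_lit 757726458304) (nat_lit 152) (nat_lit 303529542982) (nat_lit 0) (nat_lit 729771431819) (nat_lit 1) (nat_lit 5) (nat_lit 3) (nat_lit 4) (nat_lit 1) (nat_lit 4) (nat_lit 251) (nat_lit 208) (nat_lit 141)))) (XT.nd (nat_lit 156) (nat_lit 0) (nat_lit 0) (XT.nd (nat_lit 78) (nat_lit 0) (nat_lit 0) (XT.lf (nat_lit 0) (nat_lit 882208823950) (nat_lit 152) (nat_lit 320896129709) (nat_lit 0) (nat_lit 854253484759) (nat_lit 1) (nat_lit 5) (nat_lit 3) (nat_lit 4) (nat_lit 1) (nat_lit 4) (nat_lit 252) (nat_lit 208) (nat_lit 140)) (XT.lf (nat_lit 0) (nat_lit 1025363230469) (nat_lit 152) (nat_lit 340868293269) (nat_lit 0) (nat_lit 997407619361) (nat_lit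 1) (nat_lit 5) (nat_lit 3) (nat_lit 4) (nat_lit 1) (nat_lit 4) (nat_lit 253) (nat_lit 208) (nat_lit 139))) (XT.nd (nat_lit 78) (nat_lit 0) (nat_lit 0) (XT.lf (nat_lit 0) (nat_lit 1189990524946) (nat_lit 152) (nat_lit 363836793384) (nat_lit 0) (nat_lit 1162034677387) (nat_lit 1) (nat_lit 5) (nat_lit 3) (nat_lit 4) (nat_lit 1) (nat_lit 4) (nat_lit 254) (nat_lit 208) (nat_lit 138)) (XT.lf (nat_lit 0) (nat_lit 1379311676186) (nat_lit 152) (nat_lit 390251013753) (nat_lit 0) (nat_lit 1351355623018) (nat_lit 1) (nat_lit 5) (nat_lit 3) (nat_lit 4) (nat_lit 1) (nat_lit 4) (nat_lit 255) (nat_lit 208) (nat_lit 137)))))) (XT.nd (nat_lit 546) (nat_lit 0) (nat_lit 0) (XT.nd (nat_lit 234) (nat_lit 0) (nat_lit 0) (XT.nd (nat_lit 78) (nat_lit 0) (nat_lit 0) (XT.lf (nat_lit 0) (nat_lit 1597030793669) (nat_lit 152) (nat_lit 420627754338) (nat_lit 0) (nat_lit 1569074561711) (nat_lit 1) (nat_lit 5) (nat_lit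 3) (nat_lit 4) (nat_lit 1) (nat_lit 4) (nat_lit 256) (nat_lit 208) (nat_lit 136)) (XT.nd (nat_lit 78) (nat_lit 0) (nat_lit 0) (XT.lf (nat_lit 0) (nat_lit 1847407599259) (nat_lit 152) (nat_lit 455561342673) (nat_lit 0) (nat_lit 1819451211831) (nat_lit 1) (nat_lit 5) (nat_lit 3) (nat_lit 4) (nat_lit 1) (nat_lit 4) (nat_lit 257) (nat_lit 208) (nat_lit 135)) (XT.lf (nat_lit 0) (nat_lit 2135340769588) (nat_lit 152) (nat_lit 495735262007) (nat_lit 0) (nat_lit 2107384246969) (nat_lit 1) (nat_lit 5) (nat_lit 3) (nat_lit 4) (nat_lit 1) (nat_lit 4) (nat_lit 258) (nat_lit 208) (nat_lit 134)))) (XT.nd (nat_lit 156) (nat_lit 0) (nat_lit 0) (XT.nd (nat_lit 78) (nat_lit 0) (nat_lit 0) (XT.lf (nat_lit 0) (nat_lit 2466463779726) (nat_lit 152) (nat_lit 541935523807) (nat_lit 0) (nat_lit 2438507139550) (nat_lit 1) (nat_lit 5) (nat_lit 3) (nat_lit 4) (nat_lit 1) (nat_lit 4) (nat_lit 259) (nat_lit 208)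 (nat_lit 133)) (XT.lf (nat_lit 0) (nat_lit 2847255123352) (nat_lit 152) (nat_lit 595066046238) (nat_lit 0) (nat_lit 2819298380951) (nat_lit 1) (nat_lit 5) (nat_lit 3) (nat_lit 4) (nat_lit 1) (nat_lit 4) (nat_lit 260) (nat_lit 208) (nat_lit 132))) (XT.nd (nat_lit 78) (nat_lit 0) (nat_lit 0) (XT.lf (nat_lit 0) (nat_lit 3285165065882) (nat_lit 152) (nat_lit 656166339521) (nat_lit 0) (nat_lit 3257208234592) (nat_lit 1) (nat_lit 5) (nat_lit 3) (nat_lit 4) (nat_lit 1) (nat_lit 4) (nat_lit 261) (nat_lit 208) (nat_lit 131)) (XT.lf (nat_lit 0) (nat_lit 3788761410542) (nat_lit 152) (nat_lit 726431844177) (nat_lit 0) (nat_lit 3760804501955) (nat_lit 1) (nat_lit 5) (nat_lit 3) (nat_lit 4) (nat_lit 1) (nat_lit 4) (nat_lit 262) (nat_lit 208) (nat_lit 130))))) (XT.nd (nat_lit 312) (nat_lit 0) (nat_lit 0) (XT.nd (nat_lit 156) (nat_lit 0) (nat_lit 0) (XT.nd (nat_lit 78) (nat_lit 0) (nat_lit 0) (XT.lf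 (nat_lit 0) (nat_lit 4367897129291) (nat_lit 152) (nat_lit 807237320080) (nat_lit 0) (nat_lit 4339940153490) (nat_lit 1) (nat_lit 5) (nat_lit 3) (nat_lit 4) (nat_lit 1) (nat_lit 4) (nat_lit 263) (nat_lit 208) (nat_lit 129)) (XT.lf (nat_lit 0) (nat_lit 5033903138366) (nat_lit 152) (nat_lit 900163743932) (nat_lit 0) (nat_lit 5005946104118) (nat_lit 1) (nat_lit 5) (nat_lit 3) (nat_lit 4) (nat_lit 1) (nat_lit 4) (nat_lit 264) (nat_lit 208) (nat_lit 128))) (XT.nd (nat_lit 78) (nat_lit 0) (nat_lit 0) (XT.lf (nat_lit 0) (nat_lit 5799809990118) (nat_lit 152) (nat_lit 1007029241417) (nat_lit 0) (nat_lit 5771852905047) (nat_lit 1) (nat_lit 5) (nat_lit 3) (nat_lit 4) (nat_lit 1) (nat_lit 4) (nat_lit 265) (nat_lit 208) (nat_lit 127)) (XT.lf (nat_lit 0) (nat_lit 6680602818604) (nat_lit 152) (nat_lit 1129924659226) (nat_lit 0) (nat_lit 6652645689339) (nat_lit 1) (nat_lit 5) (nat_lit 3) (nat_lit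 4) (nat_lit 1) (nat_lit 4) (nat_lit 266) (nat_lit 208) (nat_lit 126)))) (XT.nd (nat_lit 156) (nat_lit 0) (nat_lit 0) (XT.nd (nat_lit 78) (nat_lit 0) (nat_lit 0) (XT.lf (nat_lit 0) (nat_lit 7693514526989) (nat_lit 152) (nat_lit 1271254472923) (nat_lit 0) (nat_lit 7665557359294) (nat_lit 1) (nat_lit 5) (nat_lit 3) (nat_lit 4) (nat_lit 1) (nat_lit 4) (nat_lit 267) (nat_lit 208) (nat_lit 125)) (XT.lf (nat_lit 0) (nat_lit 8858362953047) (nat_lit 152) (nat_lit 1433783831038) (nat_lit 0) (nat_lit 8830405751935) (nat_lit 1) (nat_lit 5) (nat_lit 3) (nat_lit 4) (nat_lit 1) (nat_lit 4) (nat_lit 268) (nat_lit 208) (nat_lit 124))) (XT.nd (nat_lit 78) (nat_lit 0) (nat_lit 0) (XT.lf (nat_lit 0) (nat_lit 10197938609460) (nat_lit 152) (nat_lit 1620692655796) (nat_lit 0) (nat_lit 10169981379290) (nat_lit 1) (nat_lit 5) (nat_lit 3) (nat_lit 4) (nat_lit 1) (nat_lit 4) (nat_lit 269) (nat_lit 208) (nat_lit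 123)) (XT.lf (nat_lit 0) (nat_lit 11738450585159) (nat_lit 152) (nat_lit 1835637858983) (nat_lit 0) (nat_lit 11710493329721) (nat_lit 1) (nat_lit 5) (nat_lit 3) (nat_lit 4) (nat_lit 1) (nat_lit 4) (nat_lit 270) (nat_lit 208) (nat_lit 122))))))) (XT.nd (nat_lit 27222) (nat_lit 0) (nat_lit 152) (XT.nd (nat_lit 26598) (nat_lit 0) (nat_lit 532) (XT.nd (nat_lit 702) (nat_lit 0) (nat_lit 0) (XT.nd (nat_lit 546) (nat_lit 0) (nat_lit 0) (XT.lf (nat_lit 0) (nat_lit 13510039331843) (nat_lit 152) (nat_lit 2082824890229) (nat_lit 0) (nat_lit 13482082054432) (nat_lit 1) (nat_lit 5) (nat_lit 3) (nat_lit 4) (nat_lit 1) (nat_lit 4) (nat_lit 271) (nat_lit 208) (nat_lit 121)) (XT.nd (nat_lit 78) (nat_lit 0) (nat_lit 0) (XT.lf (nat_lit 0) (nat_lit 36056728127506) (nat_lit 152) (nat_lit 5228730780549) (nat_lit 0) (nat_lit 36028770758681) (nat_lit 1) (nat_lit 5) (nat_lit 3) (nat_lit 4) (nat_lit 1) (nat_lit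 4) (nat_lit 278) (nat_lit 208) (nat_lit 114)) (XT.lf (nat_lit 0) (nat_lit 41476058391695) (nat_lit 152) (nat_lit 5984881963537) (nat_lit 0) (nat_lit 41448101015687) (nat_lit 1) (nat_lit 5) (nat_lit 3) (nat_lit 4) (nat_lit 1) (nat_lit 4) (nat_lit 279) (nat_lit 208) (nat_lit 113)))) (XT.nd (nat_lit 25740) (nat_lit 0) (nat_lit 1064) (XT.nd (nat_lit 78) (nat_lit 0) (nat_lit 0) (XT.lf (nat_lit 0) (nat_lit 47708288188301) (nat_lit 152) (nat_lit 6854455837498) (nat_lit 0) (nat_lit 47680330806047) (nat_lit 1) (nat_lit 5) (nat_lit 3) (nat_lit 4) (nat_lit 1) (nat_lit 4) (nat_lit 280) (nat_lit 208) (nat_lit 112)) (XT.lf (nat_lit 0) (nat_lit 54875352448126) (nat_lit 152) (nat_lit 7854465804314) (nat_lit 0) (nat_lit 54847395060441) (nat_lit 1) (nat_lit 5) (nat_lit 3) (nat_lit 4) (nat_lit 1) (nat_lit 4) (nat_lit 281) (nat_lit 208) (nat_lit 111))) (XT.nd (nat_lit 78) (nat_lit 0) (nat_lit 0) (XT.lf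 (nat_lit 0) (nat_lit 2777684060) (nat_lit 0) (nat_lit 2777684060) (nat_lit 228) (nat_lit 1778008567) (nat_lit 15) (nat_lit 5) (nat_lit 15) (nat_lit 3) (nat_lit 18) (nat_lit 3) (nat_lit 209) (nat_lit 209) (nat_lit 182)) (XT.lf (nat_lit 0) (nat_lit 12211070399) (nat_lit 228) (nat_lit 3224642186) (nat_lit 304) (nat_lit 287111362) (nat_lit 15) (nat_lit 5) (nat_lit 18) (nat_lit 3) (nat_lit 19) (nat_lit 5) (nat_lit 210) (nat_lit 209) (nat_lit 181))))) (XT.nd (nat_lit 312) (nat_lit 304) (nat_lit 0) (XT.nd (nat_lit 156) (nat_lit 228) (nat_lit 0) (XT.nd (nat_lit 78) (nat_lit 0) (nat_lit 0) (XT.lf (nat_lit 76) (nat_lit 3567119014) (nat_lit 0) (nat_lit 10277298238) (nat_lit 304) (nat_lit 3038384602) (nat_lit 16) (nat_lit 5) (nat_lit 15) (nat_lit 5) (nat_lit 19) (nat_lit 5) (nat_lit 211) (nat_lit 209) (nat_lit 180)) (XT.lf (nat_lit 76) (nat_lit 11710438684) (nat_lit 0) (nat_lit 4141152955) (nat_lit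 304) (nat_lit 2346461963) (nat_lit 16) (nat_lit 5) (nat_lit 15) (nat_lit 5) (nat_lit 19) (nat_lit 5) (nat_lit 212) (nat_lit 209) (nat_lit 179))) (XT.nd (nat_lit 78) (nat_lit 76) (nat_lit 0) (XT.lf (nat_lit 0) (nat_lit 1330580441) (nat_lit 228) (nat_lit 16970891387) (nat_lit 304) (nat_lit 1388399435) (nat_lit 13) (nat_lit 5) (nat_lit 16) (nat_lit 5) (nat_lit 17) (nat_lit 5) (nat_lit 213) (nat_lit 209) (nat_lit 178)) (XT.lf (nat_lit 0) (nat_lit 258486119) (nat_lit 304) (nat_lit 10539427004) (nat_lit 76) (nat_lit 10531784489) (nat_lit 12) (nat_lit 5) (nat_lit 16) (nat_lit 5) (nat_lit 13) (nat_lit 5) (nat_lit 214) (nat_lit 209) (nat_lit 177)))) (XT.nd (nat_lit 156) (nat_lit 152) (nat_lit 0) (XT.nd (nat_lit 78) (nat_lit 152) (nat_lit 0) (XT.lf (nat_lit 0) (nat_lit 1981671175) (nat_lit 304) (nat_lit 1642246425) (nat_lit 76) (nat_lit 19586294941) (nat_lit 12) (nat_lit 5) (nat_lit 16) (nat_lit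 5) (nat_lit 13) (nat_lit 5) (nat_lit 215) (nat_lit 209) (nat_lit 176)) (XT.lf (nat_lit 0) (nat_lit 4537801479) (nat_lit 228) (nat_lit 16127769296) (nat_lit 76) (nat_lit 4621362605) (nat_lit 10) (nat_lit 5) (nat_lit 13) (nat_lit 5) (nat_lit 11) (nat_lit 5) (nat_lit 216) (nat_lit 209) (nat_lit 175))) (XT.nd (nat_lit 78) (nat_lit 152) (nat_lit 0) (XT.lf (nat_lit 0) (nat_lit 7717140950) (nat_lit 228) (nat_lit 6101691353) (nat_lit 76) (nat_lit 13820621421) (nat_lit 10) (nat_lit 5) (nat_lit 13) (nat_lit 5) (nat_lit 11) (nat_lit 5) (nat_lit 217) (nat_lit 209) (nat_lit 174)) (XT.lf (nat_lit 0) (nat_lit 5931965820) (nat_lit 152) (nat_lit 5667297379) (nat_lit 228) (nat_lit 18711932574) (nat_lit 8) (nat_lit 5) (nat_lit 10) (nat_lit 5) (nat_lit 11) (nat_lit 5) (nat_lit 218) (nat_lit 209) (nat_lit 173)))))) (XT.nd (nat_lit 546) (nat_lit 152) (nat_lit 0) (XT.nd (nat_lit 234) (nat_lit 152) (nat_lit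 0) (XT.nd (nat_lit 78) (nat_lit 76) (nat_lit 0) (XT.lf (nat_lit 0) (nat_lit 16532988595) (nat_lit 228) (nat_lit 13074152346) (nat_lit 76) (nat_lit 3706361930) (nat_lit 8) (nat_lit 5) (nat_lit 11) (nat_lit 5) (nat_lit 9) (nat_lit 4) (nat_lit 219) (nat_lit 209) (nat_lit 172)) (XT.nd (nat_lit 78) (nat_lit 76) (nat_lit 0) (XT.lf (nat_lit 0) (nat_lit 22460684918) (nat_lit 228) (nat_lit 365818030) (nat_lit 76) (nat_lit 13901737107) (nat_lit 8) (nat_lit 5) (nat_lit 11) (nat_lit 5) (nat_lit 9) (nat_lit 4) (nat_lit 220) (nat_lit 209) (nat_lit 171)) (XT.lf (nat_lit 0) (nat_lit 15619654689) (nat_lit 76) (nat_lit 14290780038) (nat_lit 152) (nat_lit 10649966785) (nat_lit 7) (nat_lit 5) (nat_lit 8) (nat_lit 5) (nat_lit 9) (nat_lit 4) (nat_lit 221) (nat_lit 209) (nat_lit 170)))) (XT.nd (nat_lit 156) (nat_lit 76) (nat_lit 0) (XT.nd (nat_lit 78) (nat_lit 76) (nat_lit 0) (XT.lf (nat_lit 0) (nat_lit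 34025274469) (nat_lit 76) (nat_lit 4458649487) (nat_lit 152) (nat_lit 6482650869) (nat_lit 7) (nat_lit 5) (nat_lit 8) (nat_lit 5) (nat_lit 9) (nat_lit 4) (nat_lit 222) (nat_lit 209) (nat_lit 169)) (XT.lf (nat_lit 0) (nat_lit 5331199576) (nat_lit 76) (nat_lit 43505180315) (nat_lit 76) (nat_lit 1123465073) (nat_lit 6) (nat_lit 4) (nat_lit 7) (nat_lit 5) (nat_lit 7) (nat_lit 4) (nat_lit 223) (nat_lit 209) (nat_lit 168))) (XT.nd (nat_lit 78) (nat_lit 0) (nat_lit 0) (XT.lf (nat_lit 0) (nat_lit 5391220815) (nat_lit 152) (nat_lit 30808594638) (nat_lit 76) (nat_lit 19351030932) (nat_lit 5) (nat_lit 5) (nat_lit 7) (nat_lit 5) (nat_lit 6) (nat_lit 4) (nat_lit 224) (nat_lit 209) (nat_lit 167)) (XT.lf (nat_lit 0) (nat_lit 12758348208) (nat_lit 152) (nat_lit 14984926528) (nat_lit 76) (nat_lit 34230733385) (nat_lit 5) (nat_lit 5) (nat_lit 7) (nat_lit 5) (nat_lit 6) (nat_lit 4) (nat_lit 225) (nat_lit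 209) (nat_lit 166))))) (XT.nd (nat_lit 312) (nat_lit 76) (nat_lit 0) (XT.nd (nat_lit 156) (nat_lit 0) (nat_lit 0) (XT.nd (nat_lit 78) (nat_lit 0) (nat_lit 0) (XT.lf (nat_lit 0) (nat_lit 3511050758) (nat_lit 76) (nat_lit 17856409547) (nat_lit 152) (nat_lit 47972710694) (nat_lit 4) (nat_lit 5) (nat_lit 5) (nat_lit 5) (nat_lit 6) (nat_lit 4) (nat_lit 226) (nat_lit 209) (nat_lit 165)) (XT.lf (nat_lit 0) (nat_lit 26452335122) (nat_lit 76) (nat_lit 5590996061) (nat_lit 152) (nat_lit 45651674181) (nat_lit 4) (nat_lit 5) (nat_lit 5) (nat_lit 5) (nat_lit 6) (nat_lit 4) (nat_lit 227) (nat_lit 209) (nat_lit 164))) (XT.nd (nat_lit 78) (nat_lit 0) (nat_lit 0) (XT.lf (nat_lit 0) (nat_lit 44666069520) (nat_lit 152) (nat_lit 34833169512) (nat_lit 0) (nat_lit 7752051387) (nat_lit 4) (nat_lit 5) (nat_lit 6) (nat_lit 4) (nat_lit 4) (nat_lit 4) (nat_lit 228) (nat_lit 209) (nat_lit 163)) (XT.lf (nat_lit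 0) (nat_lit 59442309338) (nat_lit 152) (nat_lit 16239230002) (nat_lit 0) (nat_lit 22520507513) (nat_lit 4) (nat_lit 5) (nat_lit 6) (nat_lit 4) (nat_lit 4) (nat_lit 4) (nat_lit 229) (nat_lit 209) (nat_lit 162)))) (XT.nd (nat_lit 156) (nat_lit 0) (nat_lit 0) (XT.nd (nat_lit 78) (nat_lit 0) (nat_lit 0) (XT.lf (nat_lit 0) (nat_lit 5636230164) (nat_lit 76) (nat_lit 71026793862) (nat_lit 76) (nat_lit 34098223611) (nat_lit 3) (nat_lit 4) (nat_lit 4) (nat_lit 5) (nat_lit 4) (nat_lit 4) (nat_lit 230) (nat_lit 209) (nat_lit 161)) (XT.lf (nat_lit 0) (nat_lit 32609155749) (nat_lit 76) (nat_lit 64701541435) (nat_lit 76) (nat_lit 27767085595) (nat_lit 3) (nat_lit 4) (nat_lit 4) (nat_lit 5) (nat_lit 4) (nat_lit 4) (nat_lit 231) (nat_lit 209) (nat_lit 160))) (XT.nd (nat_lit 78) (nat_lit 0) (nat_lit 0) (XT.lf (nat_lit 0) (nat_lit 63620262246) (nat_lit 76) (nat_lit 57430895962) (nat_lit 76) (nat_lit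 20491322218) (nat_lit 3) (nat_lit 4) (nat_lit 4) (nat_lit 5) (nat_lit 4) (nat_lit 4) (nat_lit 232) (nat_lit 209) (nat_lit 159)) (XT.lf (nat_lit 0) (nat_lit 99276288694) (nat_lit 76) (nat_lit 49072605682) (nat_lit 76) (nat_lit 12128581588) (nat_lit 3) (nat_lit 4) (nat_lit 4) (nat_lit 5) (nat_lit 4) (nat_lit 4) (nat_lit 233) (nat_lit 209) (nat_lit 158))))))))
noncomputable def xc36 : XT := (XT.nd (nat_lit 2262) (nat_lit 0) (nat_lit 0) (XT.nd (nat_lit 1092) (nat_lit 0) (nat_lit 0) (XT.nd (nat_lit 546) (nat_lit 0) (nat_lit 0) (XT.nd (nat_lit 234) (nat_lit 0) (nat_lit 0) (XT.nd (nat_lit 78) (nat_lit 152) (nat_lit 0) (XT.lf (nat_lit 0) (nat_lit 140274853003) (nat_lit 76) (nat_lit 39463138830) (nat_lit 76) (nat_lit 2515244865) (nat_lit 3) (nat_lit 4) (nat_lit 4) (nat_lit 5) (nat_lit 4) (nat_lit 4) (nat_lit 234) (nat_lit 209) (nat_lit 157)) (XT.nd (nat_lit 78) (nat_lit 76) (nat_lit 0) (XT.lf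 (nat_lit 0) (nat_lit 7776772230) (nat_lit 152) (nat_lit 20231198773) (nat_lit 76) (nat_lit 179234815672) (nat_lit 2) (nat_lit 5) (nat_lit 4) (nat_lit 5) (nat_lit 3) (nat_lit 4) (nat_lit 235) (nat_lit 209) (nat_lit 156)) (XT.lf (nat_lit 0) (nat_lit 5108366164) (nat_lit 76) (nat_lit 14455611236) (nat_lit 152) (nat_lit 216367504717) (nat_lit 1) (nat_lit 5) (nat_lit 2) (nat_lit 5) (nat_lit 3) (nat_lit 4) (nat_lit 236) (nat_lit 209) (nat_lit 155)))) (XT.nd (nat_lit 156) (nat_lit 0) (nat_lit 0) (XT.nd (nat_lit 78) (nat_lit 0) (nat_lit 0) (XT.lf (nat_lit 0) (nat_lit 34271381937) (nat_lit 152) (nat_lit 232344198954) (nat_lit 0) (nat_lit 2135095199) (nat_lit 1) (nat_lit 5) (nat_lit 3) (nat_lit 4) (nat_lit 1) (nat_lit 4) (nat_lit 237) (nat_lit 209) (nat_lit 154)) (XT.lf (nat_lit 0) (nat_lit 51871038012) (nat_lit 152) (nat_lit 234785973191) (nat_lit 0) (nat_lit 19732827265) (nat_lit 1) (nat_lit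 5) (nat_lit 3) (nat_lit 4) (nat_lit 1) (nat_lit 4) (nat_lit 238) (nat_lit 209) (nat_lit 153))) (XT.nd (nat_lit 78) (nat_lit 0) (nat_lit 0) (XT.lf (nat_lit 0) (nat_lit 72108710689) (nat_lit 152) (nat_lit 237597636473) (nat_lit 0) (nat_lit 39968826889) (nat_lit 1) (nat_lit 5) (nat_lit 3) (nat_lit 4) (nat_lit 1) (nat_lit 4) (nat_lit 239) (nat_lit 209) (nat_lit 152)) (XT.lf (nat_lit 0) (nat_lit 95380354431) (nat_lit 152) (nat_lit 240834199605) (nat_lit 0) (nat_lit 63239015804) (nat_lit 1) (nat_lit 5) (nat_lit 3) (nat_lit 4) (nat_lit 1) (nat_lit 4) (nat_lit 240) (nat_lit 209) (nat_lit 151))))) (XT.nd (nat_lit 234) (nat_lit 0) (nat_lit 0) (XT.nd (nat_lit 78) (nat_lit 0) (nat_lit 0) (XT.lf (nat_lit 0) (nat_lit 122141284009) (nat_lit 152) (nat_lit 244558986647) (nat_lit 0) (nat_lit 89998680315) (nat_lit 1) (nat_lit 5) (nat_lit 3) (nat_lit 4) (nat_lit 1) (nat_lit 4) (nat_lit 241) (nat_lit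 209) (nat_lit 150)) (XT.nd (nat_lit 78) (nat_lit 0) (nat_lit 0) (XT.lf (nat_lit 0) (nat_lit 152915082826) (nat_lit 152) (nat_lit 248844873868) (nat_lit 0) (nat_lit 120771379073) (nat_lit 1) (nat_lit 5) (nat_lit 3) (nat_lit 4) (nat_lit 1) (nat_lit 4) (nat_lit 242) (nat_lit 209) (nat_lit 149)) (XT.lf (nat_lit 0) (nat_lit 188303846947) (nat_lit 152) (nat_lit 253775715582) (nat_lit 0) (nat_lit 156159186622) (nat_lit 1) (nat_lit 5) (nat_lit 3) (nat_lit 4) (nat_lit 1) (nat_lit 4) (nat_lit 243) (nat_lit 209) (nat_lit 148)))) (XT.nd (nat_lit 156) (nat_lit 0) (nat_lit 0) (XT.nd (nat_lit 78) (nat_lit 0) (nat_lit 0) (XT.lf (nat_lit 0) (nat_lit 228999965236) (nat_lit 152) (nat_lit 259447984780) (nat_lit 0) (nat_lit 196854473108) (nat_lit 1) (nat_lit 5) (nat_lit 3) (nat_lit 4) (nat_lit 1) (nat_lit 4) (nat_lit 244) (nat_lit 209) (nat_lit 147)) (XT.lf (nat_lit 0) (nat_lit 275799666092) (nat_lit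 152) (nat_lit 265972660642) (nat_lit 0) (nat_lit 243653450657) (nat_lit 1) (nat_lit 5) (nat_lit 3) (nat_lit 4) (nat_lit 1) (nat_lit 4) (nat_lit 245) (nat_lit 209) (nat_lit 146))) (XT.nd (nat_lit 78) (nat_lit 0) (nat_lit 0) (XT.lf (nat_lit 0) (nat_lit 329618595837) (nat_lit 152) (nat_lit 273477399869) (nat_lit 0) (nat_lit 297471751441) (nat_lit 1) (nat_lit 5) (nat_lit 3) (nat_lit 4) (nat_lit 1) (nat_lit 4) (nat_lit 246) (nat_lit 209) (nat_lit 145)) (XT.lf (nat_lit 0) (nat_lit 391509733533) (nat_lit 152) (nat_lit 282109034316) (nat_lit 0) (nat_lit 359362342213) (nat_lit 1) (nat_lit 5) (nat_lit 3) (nat_lit 4) (nat_lit 1) (nat_lit 4) (nat_lit 247) (nat_lit 209) (nat_lit 144)))))) (XT.nd (nat_lit 546) (nat_lit 0) (nat_lit 0) (XT.nd (nat_lit 234) (nat_lit 0) (nat_lit 0) (XT.nd (nat_lit 78) (nat_lit 0) (nat_lit 0) (XT.lf (nat_lit 0) (nat_lit 462683992741) (nat_lit 152) (nat_lit 292036443787)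 (nat_lit 0) (nat_lit 430536125835) (nat_lit 1) (nat_lit 5) (nat_lit 3) (nat_lit 4) (nat_lit 1) (nat_lit 4) (nat_lit 248) (nat_lit 209) (nat_lit 143)) (XT.nd (nat_lit 78) (nat_lit 0) (nat_lit 0) (XT.lf (nat_lit 0) (nat_lit 544533913317) (nat_lit 152) (nat_lit 303453860207) (nat_lit 0) (nat_lit 512385632858) (nat_lit 1) (nat_lit 5) (nat_lit 3) (nat_lit 4) (nat_lit 1) (nat_lit 4) (nat_lit 249) (nat_lit 209) (nat_lit 142)) (XT.lf (nat_lit 0) (nat_lit 638660906749) (nat_lit 152) (nat_lit 316584667809) (nat_lit 0) (nat_lit 606512266679) (nat_lit 1) (nat_lit 5) (nat_lit 3) (nat_lit 4) (nat_lit 1) (nat_lit 4) (nat_lit 250) (nat_lit 209) (nat_lit 141)))) (XT.nd (nat_lit 156) (nat_lit 0) (nat_lit 0) (XT.nd (nat_lit 78) (nat_lit 0) (nat_lit 0) (XT.lf (nat_lit 0) (nat_lit 746906588127) (nat_lit 152) (nat_lit 331685773700) (nat_lit 0) (nat_lit 714757635352) (nat_lit 1) (nat_lit 5) (nat_lit 3)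 (nat_lit 4) (nat_lit 1) (nat_lit 4) (nat_lit 251) (nat_lit 209) (nat_lit 140)) (XT.lf (nat_lit 0) (nat_lit 871388807739) (nat_lit 152) (nat_lit 349052634299) (nat_lit 0) (nat_lit 839239583046) (nat_lit 1) (nat_lit 5) (nat_lit 3) (nat_lit 4) (nat_lit 1) (nat_lit 4) (nat_lit 252) (nat_lit 209) (nat_lit 139))) (XT.nd (nat_lit 78) (nat_lit 0) (nat_lit 0) (XT.lf (nat_lit 0) (nat_lit 1014543087272) (nat_lit 152) (nat_lit 369025036009) (nat_lit 0) (nat_lit 982393626129) (nat_lit 1) (nat_lit 5) (nat_lit 3) (nat_lit 4) (nat_lit 1) (nat_lit 4) (nat_lit 253) (nat_lit 209) (nat_lit 138)) (XT.lf (nat_lit 0) (nat_lit 1179170271326) (nat_lit 152) (nat_lit 391993743210) (nat_lit 0) (nat_lit 1147020604574) (nat_lit 1) (nat_lit 5) (nat_lit 3) (nat_lit 4) (nat_lit 1) (nat_lit 4) (nat_lit 254) (nat_lit 209) (nat_lit 137))))) (XT.nd (nat_lit 312) (nat_lit 0) (nat_lit 0) (XT.nd (nat_lit 156) (nat_lit 0)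 (nat_lit 0) (XT.nd (nat_lit 78) (nat_lit 0) (nat_lit 0) (XT.lf (nat_lit 0) (nat_lit 1368491326546) (nat_lit 152) (nat_lit 418408143654) (nat_lit 0) (nat_lit 1336341481004) (nat_lit 1) (nat_lit 5) (nat_lit 3) (nat_lit 4) (nat_lit 1) (nat_lit 4) (nat_lit 255) (nat_lit 209) (nat_lit 136)) (XT.lf (nat_lit 0) (nat_lit 1586210360533) (nat_lit 152) (nat_lit 448785040826) (nat_lit 0) (nat_lit 1554060359521) (nat_lit 1) (nat_lit 5) (nat_lit 3) (nat_lit 4) (nat_lit 1) (nat_lit 4) (nat_lit 256) (nat_lit 209) (nat_lit 135))) (XT.nd (nat_lit 78) (nat_lit 0) (nat_lit 0) (XT.lf (nat_lit 0) (nat_lit 1836587093519) (nat_lit 152) (nat_lit 483718765323) (nat_lit 0) (nat_lit 1804436957316) (nat_lit 1) (nat_lit 5) (nat_lit 3) (nat_lit 4) (nat_lit 1) (nat_lit 4) (nat_lit 257) (nat_lit 209) (nat_lit 134)) (XT.lf (nat_lit 0) (nat_lit 2124520200713) (nat_lit 152) (nat_lit 523892803060) (nat_lit 0) (nat_lit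 2092369946952) (nat_lit 1) (nat_lit 5) (nat_lit 3) (nat_lit 4) (nat_lit 1) (nat_lit 4) (nat_lit 258) (nat_lit 209) (nat_lit 133)))) (XT.nd (nat_lit 156) (nat_lit 0) (nat_lit 0) (XT.nd (nat_lit 78) (nat_lit 0) (nat_lit 0) (XT.lf (nat_lit 0) (nat_lit 2455643155952) (nat_lit 152) (nat_lit 570093167819) (nat_lit 0) (nat_lit 2423492799968) (nat_lit 1) (nat_lit 5) (nat_lit 3) (nat_lit 4) (nat_lit 1) (nat_lit 4) (nat_lit 259) (nat_lit 209) (nat_lit 132)) (XT.lf (nat_lit 0) (nat_lit 2836434451838) (nat_lit 152) (nat_lit 623223779779) (nat_lit 0) (nat_lit 2804284006964) (nat_lit 1) (nat_lit 5) (nat_lit 3) (nat_lit 4) (nat_lit 1) (nat_lit 4) (nat_lit 260) (nat_lit 209) (nat_lit 131))) (XT.nd (nat_lit 78) (nat_lit 0) (nat_lit 0) (XT.lf (nat_lit 0) (nat_lit 3274344352857) (nat_lit 152) (nat_lit 684324150913) (nat_lit 0) (nat_lit 3242193830686) (nat_lit 1) (nat_lit 5) (nat_lit 3) (nat_lit 4) (nat_lit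 1) (nat_lit 4) (nat_lit 261) (nat_lit 209) (nat_lit 130)) (XT.lf (nat_lit 0) (nat_lit 3777940661419) (nat_lit 152) (nat_lit 754589723266) (nat_lit 0) (nat_lit 3745790072035) (nat_lit 1) (nat_lit 5) (nat_lit 3) (nat_lit 4) (nat_lit 1) (nat_lit 4) (nat_lit 262) (nat_lit 209) (nat_lit 129))))))) (XT.nd (nat_lit 27300) (nat_lit 0) (nat_lit 304) (XT.nd (nat_lit 546) (nat_lit 0) (nat_lit 0) (XT.nd (nat_lit 234) (nat_lit 0) (nat_lit 0) (XT.nd (nat_lit 78) (nat_lit 0) (nat_lit 0) (XT.lf (nat_lit 0) (nat_lit 4357076348779) (nat_lit 152) (nat_lit 835395258036) (nat_lit 0) (nat_lit 4324925700948) (nat_lit 1) (nat_lit 5) (nat_lit 3) (nat_lit 4) (nat_lit 1) (nat_lit 4) (nat_lit 263) (nat_lit 209) (nat_lit 128)) (XT.nd (nat_lit 78) (nat_lit 0) (nat_lit 0) (XT.lf (nat_lit 0) (nat_lit 5023082330559) (nat_lit 152) (nat_lit 928321733076) (nat_lit 0) (nat_lit 4990931631904) (nat_lit 1) (nat_lit 5) (nat_lit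 3) (nat_lit 4) (nat_lit 1) (nat_lit 4) (nat_lit 264) (nat_lit 209) (nat_lit 127)) (XT.lf (nat_lit 0) (nat_lit 5788989158577) (nat_lit 152) (nat_lit 1035187275074) (nat_lit 0) (nat_lit 5756838415728) (nat_lit 1) (nat_lit 5) (nat_lit 3) (nat_lit 4) (nat_lit 1) (nat_lit 4) (nat_lit 265) (nat_lit 209) (nat_lit 126)))) (XT.nd (nat_lit 156) (nat_lit 0) (nat_lit 0) (XT.nd (nat_lit 78) (nat_lit 0) (nat_lit 0) (XT.lf (nat_lit 0) (nat_lit 6669781966424) (nat_lit 152) (nat_lit 1158082731588) (nat_lit 0) (nat_lit 6637631185145) (nat_lit 1) (nat_lit 5) (nat_lit 3) (nat_lit 4) (nat_lit 1) (nat_lit 4) (nat_lit 266) (nat_lit 209) (nat_lit 125)) (XT.lf (nat_lit 0) (nat_lit 7682693656862) (nat_lit 152) (nat_lit 1299412578943) (nat_lit 0) (nat_lit 7650542842167) (nat_lit 1) (nat_lit 5) (nat_lit 3) (nat_lit 4) (nat_lit 1) (nat_lit 4) (nat_lit 267) (nat_lit 209) (nat_lit 124))) (XT.nd (nat_lit 78) (nat_lit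 0) (nat_lit 0) (XT.lf (nat_lit 0) (nat_lit 8847542067314) (nat_lit 152) (nat_lit 1461941966325) (nat_lit 0) (nat_lit 8815391223560) (nat_lit 1) (nat_lit 5) (nat_lit 3) (nat_lit 4) (nat_lit 1) (nat_lit 4) (nat_lit 268) (nat_lit 209) (nat_lit 123)) (XT.lf (nat_lit 0) (nat_lit 10187117710157) (nat_lit 152) (nat_lit 1648850816532) (nat_lit 0) (nat_lit 10154966841135) (nat_lit 1) (nat_lit 5) (nat_lit 3) (nat_lit 4) (nat_lit 1) (nat_lit 4) (nat_lit 269) (nat_lit 209) (nat_lit 122))))) (XT.nd (nat_lit 702) (nat_lit 0) (nat_lit 0) (XT.nd (nat_lit 546) (nat_lit 0) (nat_lit 0) (XT.nd (nat_lit 468) (nat_lit 0) (nat_lit 0) (XT.lf (nat_lit 0) (nat_lit 11727629674056) (nat_lit 152) (nat_lit 1863796041850) (nat_lit 0) (nat_lit 11695478783061) (nat_lit 1) (nat_lit 5) (nat_lit 3) (nat_lit 4) (nat_lit 1) (nat_lit 4) (nat_lit 270) (nat_lit 209) (nat_lit 121)) (XT.lf (nat_lit 0) (nat_lit 27235653790416)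 (nat_lit 152) (nat_lit 4027607391658) (nat_lit 0) (nat_lit 27203502816268) (nat_lit 1) (nat_lit 5) (nat_lit 3) (nat_lit 4) (nat_lit 1) (nat_lit 4) (nat_lit 276) (nat_lit 209) (nat_lit 115))) (XT.nd (nat_lit 78) (nat_lit 0) (nat_lit 0) (XT.lf (nat_lit 0) (nat_lit 31333446060802) (nat_lit 152) (nat_lit 4599366301197) (nat_lit 0) (nat_lit 31301295078393) (nat_lit 1) (nat_lit 5) (nat_lit 3) (nat_lit 4) (nat_lit 1) (nat_lit 4) (nat_lit 277) (nat_lit 209) (nat_lit 114)) (XT.lf (nat_lit 0) (nat_lit 36045907163451) (nat_lit 152) (nat_lit 5256889062722) (nat_lit 0) (nat_lit 36013756173859) (nat_lit 1) (nat_lit 5) (nat_lit 3) (nat_lit 4) (nat_lit 1) (nat_lit 4) (nat_lit 278) (nat_lit 209) (nat_lit 113)))) (XT.nd (nat_lit 25896) (nat_lit 0) (nat_lit 1064) (XT.nd (nat_lit 78) (nat_lit 0) (nat_lit 0) (XT.lf (nat_lit 0) (nat_lit 41465237424286) (nat_lit 152) (nat_lit 6013040252000) (nat_lit 0)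 (nat_lit 41433086428448) (nat_lit 1) (nat_lit 5) (nat_lit 3) (nat_lit 4) (nat_lit 1) (nat_lit 4) (nat_lit 279) (nat_lit 209) (nat_lit 112)) (XT.lf (nat_lit 0) (nat_lit 47697467217975) (nat_lit 152) (nat_lit 6882614131431) (nat_lit 0) (nat_lit 47665316216706) (nat_lit 1) (nat_lit 5) (nat_lit 3) (nat_lit 4) (nat_lit 1) (nat_lit 4) (nat_lit 280) (nat_lit 209) (nat_lit 111))) (XT.nd (nat_lit 78) (nat_lit 0) (nat_lit 0) (XT.lf (nat_lit 0) (nat_lit 3316067529) (nat_lit 0) (nat_lit 3316067529) (nat_lit 228) (nat_lit 1761008014) (nat_lit 15) (nat_lit 5) (nat_lit 15) (nat_lit 3) (nat_lit 18) (nat_lit 3) (nat_lit 210) (nat_lit 210) (nat_lit 180)) (XT.lf (nat_lit 0) (nat_lit 14457376359) (nat_lit 228) (nat_lit 3417883568) (nat_lit 304) (nat_lit 137319741) (nat_lit 15) (nat_lit 5) (nat_lit 18) (nat_lit 3) (nat_lit 19) (nat_lit 5) (nat_lit 211) (nat_lit 210) (nat_lit 179)))))) (XT.nd (nat_lit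 546) (nat_lit 380) (nat_lit 0) (XT.nd (nat_lit 234) (nat_lit 228) (nat_lit 0) (XT.nd (nat_lit 78) (nat_lit 152) (nat_lit 0) (XT.lf (nat_lit 76) (nat_lit 4379439314) (nat_lit 0) (nat_lit 11913682175) (nat_lit 304) (nat_lit 3060667385) (nat_lit 16) (nat_lit 5) (nat_lit 15) (nat_lit 5) (nat_lit 19) (nat_lit 5) (nat_lit 212) (nat_lit 210) (nat_lit 178)) (XT.nd (nat_lit 78) (nat_lit 152) (nat_lit 0) (XT.lf (nat_lit 76) (nat_lit 13708093572) (nat_lit 0) (nat_lit 4844751291) (nat_lit 304) (nat_lit 2321496556) (nat_lit 16) (nat_lit 5) (nat_lit 15) (nat_lit 5) (nat_lit 19) (nat_lit 5) (nat_lit 213) (nat_lit 210) (nat_lit 177)) (XT.lf (nat_lit 0) (nat_lit 1814547951) (nat_lit 228) (nat_lit 19522269298) (nat_lit 304) (nat_lit 1258761178) (nat_lit 13) (nat_lit 5) (nat_lit 16) (nat_lit 5) (nat_lit 17) (nat_lit 5) (nat_lit 214) (nat_lit 210) (nat_lit 176)))) (XT.nd (nat_lit 156) (nat_lit 152) (nat_lit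 0) (XT.nd (nat_lit 78) (nat_lit 0) (nat_lit 0) (XT.lf (nat_lit 0) (nat_lit 564925246) (nat_lit 304) (nat_lit 11843678162) (nat_lit 76) (nat_lit 12077181652) (nat_lit 12) (nat_lit 5) (nat_lit 16) (nat_lit 5) (nat_lit 13) (nat_lit 5) (nat_lit 215) (nat_lit 210) (nat_lit 175)) (XT.lf (nat_lit 0) (nat_lit 2511675076) (nat_lit 304) (nat_lit 1648006961) (nat_lit 76) (nat_lit 22494351782) (nat_lit 12) (nat_lit 5) (nat_lit 16) (nat_lit 5) (nat_lit 13) (nat_lit 5) (nat_lit 216) (nat_lit 210) (nat_lit 174))) (XT.nd (nat_lit 78) (nat_lit 0) (nat_lit 0) (XT.lf (nat_lit 0) (nat_lit 5431109255) (nat_lit 228) (nat_lit 18283809880) (nat_lit 76) (nat_lit 5330725907) (nat_lit 10) (nat_lit 5) (nat_lit 13) (nat_lit 5) (nat_lit 11) (nat_lit 5) (nat_lit 217) (nat_lit 210) (nat_lit 173)) (XT.lf (nat_lit 0) (nat_lit 9059614313) (nat_lit 228) (nat_lit 6788140874) (nat_lit 76) (nat_lit 15907765861) (nat_lit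 10) (nat_lit 5) (nat_lit 13) (nat_lit 5) (nat_lit 11) (nat_lit 5) (nat_lit 218) (nat_lit 210) (nat_lit 172))))) (XT.nd (nat_lit 312) (nat_lit 152) (nat_lit 0) (XT.nd (nat_lit 156) (nat_lit 76) (nat_lit 0) (XT.nd (nat_lit 78) (nat_lit 0) (nat_lit 0) (XT.lf (nat_lit 0) (nat_lit 7040164686) (nat_lit 152) (nat_lit 6468816177) (nat_lit 228) (nat_lit 21321580570) (nat_lit 8) (nat_lit 5) (nat_lit 10) (nat_lit 5) (nat_lit 11) (nat_lit 5) (nat_lit 219) (nat_lit 210) (nat_lit 171)) (XT.lf (nat_lit 0) (nat_lit 19162362628) (nat_lit 228) (nat_lit 14823356695) (nat_lit 76) (nat_lit 4300795572) (nat_lit 8) (nat_lit 5) (nat_lit 11) (nat_lit 5) (nat_lit 9) (nat_lit 4) (nat_lit 220) (nat_lit 210) (nat_lit 170))) (XT.nd (nat_lit 78) (nat_lit 76) (nat_lit 0) (XT.lf (nat_lit 0) (nat_lit 25959723085) (nat_lit 228) (nat_lit 236413774) (nat_lit 76) (nat_lit 16020457979) (nat_lit 8) (nat_lit 5) (nat_lit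 11) (nat_lit 5) (nat_lit 9) (nat_lit 4) (nat_lit 221) (nat_lit 210) (nat_lit 169)) (XT.lf (nat_lit 0) (nat_lit 18138503627) (nat_lit 76) (nat_lit 16378767314) (nat_lit 152) (nat_lit 12107940661) (nat_lit 7) (nat_lit 5) (nat_lit 8) (nat_lit 5) (nat_lit 9) (nat_lit 4) (nat_lit 222) (nat_lit 210) (nat_lit 168)))) (XT.nd (nat_lit 156) (nat_lit 76) (nat_lit 0) (XT.nd (nat_lit 78) (nat_lit 76) (nat_lit 0) (XT.lf (nat_lit 0) (nat_lit 39282022800) (nat_lit 76) (nat_lit 5079073232) (nat_lit 152) (nat_lit 7333725767) (nat_lit 7) (nat_lit 5) (nat_lit 8) (nat_lit 5) (nat_lit 9) (nat_lit 4) (nat_lit 223) (nat_lit 210) (nat_lit 167)) (XT.lf (nat_lit 0) (nat_lit 6290950448) (nat_lit 76) (nat_lit 49970198565) (nat_lit 76) (nat_lit 1176861330) (nat_lit 6) (nat_lit 4) (nat_lit 7) (nat_lit 5) (nat_lit 7) (nat_lit 4) (nat_lit 224) (nat_lit 210) (nat_lit 166))) (XT.nd (nat_lit 78) (nat_lit 0) (nat_lit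 0) (XT.lf (nat_lit 0) (nat_lit 6291099080) (nat_lit 152) (nat_lit 35281087936) (nat_lit 76) (nat_lit 22296915528) (nat_lit 5) (nat_lit 5) (nat_lit 7) (nat_lit 5) (nat_lit 6) (nat_lit 4) (nat_lit 225) (nat_lit 210) (nat_lit 165)) (XT.lf (nat_lit 0) (nat_lit 14751400563) (nat_lit 152) (nat_lit 17103277770) (nat_lit 76) (nat_lit 39402934658) (nat_lit 5) (nat_lit 5) (nat_lit 7) (nat_lit 5) (nat_lit 6) (nat_lit 4) (nat_lit 226) (nat_lit 210) (nat_lit 164))))))))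
noncomputable def xc37 : XT := (XT.nd (nat_lit 2340) (nat_lit 0) (nat_lit 0) (XT.nd (nat_lit 1170) (nat_lit 0) (nat_lit 0) (XT.nd (nat_lit 546) (nat_lit 152) (nat_lit 0) (XT.nd (nat_lit 234) (nat_lit 76) (nat_lit 0) (XT.nd (nat_lit 78) (nat_lit 0) (nat_lit 0) (XT.lf (nat_lit 0) (nat_lit 4161214849) (nat_lit 76) (nat_lit 20485435272) (nat_lit 152) (nat_lit 55082913018) (nat_lit 4) (nat_lit 5) (nat_lit 5) (nat_lit 5) (nat_lit 6) (nat_lit 4) (nat_lit 227) (nat_lit 210) (nat_lit 163)) (XT.nd (nat_lit 78) (nat_lit 0) (nat_lit 0) (XT.lf (nat_lit 0) (nat_lit 30527582326) (nat_lit 76) (nat_lit 6386657898) (nat_lit 152) (nat_lit 52424899847) (nat_lit 4) (nat_lit 5) (nat_lit 5) (nat_lit 5) (nat_lit 6) (nat_lit 4) (nat_lit 228) (nat_lit 210) (nat_lit 162)) (XT.lf (nat_lit 0) (nat_lit 51423535938) (nat_lit 152) (nat_lit 39957507540) (nat_lit 0) (nat_lit 8948911722) (nat_lit 4) (nat_lit 5) (nat_lit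 6) (nat_lit 4) (nat_lit 4) (nat_lit 4) (nat_lit 229) (nat_lit 210) (nat_lit 161)))) (XT.nd (nat_lit 156) (nat_lit 0) (nat_lit 0) (XT.nd (nat_lit 78) (nat_lit 76) (nat_lit 0) (XT.lf (nat_lit 0) (nat_lit 68408704425) (nat_lit 152) (nat_lit 18587603721) (nat_lit 0) (nat_lit 25928194620) (nat_lit 4) (nat_lit 5) (nat_lit 6) (nat_lit 4) (nat_lit 4) (nat_lit 4) (nat_lit 230) (nat_lit 210) (nat_lit 160)) (XT.lf (nat_lit 0) (nat_lit 6565197707) (nat_lit 76) (nat_lit 81644259444) (nat_lit 76) (nat_lit 39158631736) (nat_lit 3) (nat_lit 4) (nat_lit 4) (nat_lit 5) (nat_lit 4) (nat_lit 4) (nat_lit 231) (nat_lit 210) (nat_lit 159))) (XT.nd (nat_lit 78) (nat_lit 0) (nat_lit 0) (XT.lf (nat_lit 0) (nat_lit 37573166519) (nat_lit 76) (nat_lit 74374987001) (nat_lit 76) (nat_lit 31884908942) (nat_lit 3) (nat_lit 4) (nat_lit 4) (nat_lit 5) (nat_lit 4) (nat_lit 4) (nat_lit 232) (nat_lit 210) (nat_lit 158))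 (XT.lf (nat_lit 0) (nat_lit 73226464546) (nat_lit 76) (nat_lit 66017890660) (nat_lit 76) (nat_lit 23523942731) (nat_lit 3) (nat_lit 4) (nat_lit 4) (nat_lit 5) (nat_lit 4) (nat_lit 4) (nat_lit 233) (nat_lit 210) (nat_lit 157))))) (XT.nd (nat_lit 312) (nat_lit 0) (nat_lit 0) (XT.nd (nat_lit 156) (nat_lit 152) (nat_lit 0) (XT.nd (nat_lit 78) (nat_lit 0) (nat_lit 0) (XT.lf (nat_lit 0) (nat_lit 114222656314) (nat_lit 76) (nat_lit 56409462016) (nat_lit 76) (nat_lit 13912148983) (nat_lit 3) (nat_lit 4) (nat_lit 4) (nat_lit 5) (nat_lit 4) (nat_lit 4) (nat_lit 234) (nat_lit 210) (nat_lit 156)) (XT.lf (nat_lit 0) (nat_lit 161363841228) (nat_lit 76) (nat_lit 45361710074) (nat_lit 76) (nat_lit 2861470862) (nat_lit 3) (nat_lit 4) (nat_lit 4) (nat_lit 5) (nat_lit 4) (nat_lit 4) (nat_lit 235) (nat_lit 210) (nat_lit 155))) (XT.nd (nat_lit 78) (nat_lit 76) (nat_lit 0) (XT.lf (nat_lit 0) (nat_lit 8967892840)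 (nat_lit 152) (nat_lit 23221814106) (nat_lit 76) (nat_lit 206135677762) (nat_lit 2) (nat_lit 5) (nat_lit 4) (nat_lit 5) (nat_lit 3) (nat_lit 4) (nat_lit 236) (nat_lit 210) (nat_lit 154)) (XT.lf (nat_lit 0) (nat_lit 5916682640) (nat_lit 76) (nat_lit 16605028506) (nat_lit 152) (nat_lit 248795910325) (nat_lit 1) (nat_lit 5) (nat_lit 2) (nat_lit 5) (nat_lit 3) (nat_lit 4) (nat_lit 237) (nat_lit 210) (nat_lit 153)))) (XT.nd (nat_lit 156) (nat_lit 0) (nat_lit 0) (XT.nd (nat_lit 78) (nat_lit 0) (nat_lit 0) (XT.lf (nat_lit 0) (nat_lit 39432889885) (nat_lit 152) (nat_lit 267156819323) (nat_lit 0) (nat_lit 2470350464) (nat_lit 1) (nat_lit 5) (nat_lit 3) (nat_lit 4) (nat_lit 1) (nat_lit 4) (nat_lit 238) (nat_lit 210) (nat_lit 152)) (XT.lf (nat_lit 0) (nat_lit 59669781242) (nat_lit 152) (nat_lit 269969947888) (nat_lit 0) (nat_lit 22705786994) (nat_lit 1) (nat_lit 5) (nat_lit 3) (nat_lit 4) (nat_lit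 1) (nat_lit 4) (nat_lit 239) (nat_lit 210) (nat_lit 151))) (XT.nd (nat_lit 78) (nat_lit 0) (nat_lit 0) (XT.lf (nat_lit 0) (nat_lit 82940745577) (nat_lit 152) (nat_lit 273207785178) (nat_lit 0) (nat_lit 45975486262) (nat_lit 1) (nat_lit 5) (nat_lit 3) (nat_lit 4) (nat_lit 1) (nat_lit 4) (nat_lit 240) (nat_lit 210) (nat_lit 150)) (XT.lf (nat_lit 0) (nat_lit 109701084366) (nat_lit 152) (nat_lit 276933680184) (nat_lit 0) (nat_lit 72734724991) (nat_lit 1) (nat_lit 5) (nat_lit 3) (nat_lit 4) (nat_lit 1) (nat_lit 4) (nat_lit 241) (nat_lit 210) (nat_lit 149)))))) (XT.nd (nat_lit 546) (nat_lit 0) (nat_lit 0) (XT.nd (nat_lit 234) (nat_lit 0) (nat_lit 0) (XT.nd (nat_lit 78) (nat_lit 0) (nat_lit 0) (XT.lf (nat_lit 0) (nat_lit 140474369454) (nat_lit 152) (nat_lit 281220530851) (nat_lit 0) (nat_lit 103507053506) (nat_lit 1) (nat_lit 5) (nat_lit 3) (nat_lit 4) (nat_lit 1) (nat_lit 4) (nat_lit 242)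 (nat_lit 210) (nat_lit 148)) (XT.nd (nat_lit 78) (nat_lit 0) (nat_lit 0) (XT.lf (nat_lit 0) (nat_lit 175862686853) (nat_lit 152) (nat_lit 286152210345) (nat_lit 0) (nat_lit 138894539104) (nat_lit 1) (nat_lit 5) (nat_lit 3) (nat_lit 4) (nat_lit 1) (nat_lit 4) (nat_lit 243) (nat_lit 210) (nat_lit 147)) (XT.lf (nat_lit 0) (nat_lit 216558416688) (nat_lit 152) (nat_lit 291825208047) (nat_lit 0) (nat_lit 179589545632) (nat_lit 1) (nat_lit 5) (nat_lit 3) (nat_lit 4) (nat_lit 1) (nat_lit 4) (nat_lit 244) (nat_lit 210) (nat_lit 146)))) (XT.nd (nat_lit 156) (nat_lit 0) (nat_lit 0) (XT.nd (nat_lit 78) (nat_lit 0) (nat_lit 0) (XT.lf (nat_lit 0) (nat_lit 263357779758) (nat_lit 152) (nat_lit 298350517391) (nat_lit 0) (nat_lit 226388279740) (nat_lit 1) (nat_lit 5) (nat_lit 3) (nat_lit 4) (nat_lit 1) (nat_lit 4) (nat_lit 245) (nat_lit 210) (nat_lit 145)) (XT.lf (nat_lit 0) (nat_lit 317176415777)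 (nat_lit 152) (nat_lit 305855807472) (nat_lit 0) (nat_lit 280206368836) (nat_lit 1) (nat_lit 5) (nat_lit 3) (nat_lit 4) (nat_lit 1) (nat_lit 4) (nat_lit 246) (nat_lit 210) (nat_lit 144))) (XT.nd (nat_lit 78) (nat_lit 0) (nat_lit 0) (XT.lf (nat_lit 0) (nat_lit 379067298058) (nat_lit 152) (nat_lit 314487920922) (nat_lit 0) (nat_lit 342096775531) (nat_lit 1) (nat_lit 5) (nat_lit 3) (nat_lit 4) (nat_lit 1) (nat_lit 4) (nat_lit 247) (nat_lit 210) (nat_lit 143)) (XT.lf (nat_lit 0) (nat_lit 450241335167) (nat_lit 152) (nat_lit 324415746918) (nat_lit 0) (nat_lit 413270399087) (nat_lit 1) (nat_lit 5) (nat_lit 3) (nat_lit 4) (nat_lit 1) (nat_lit 4) (nat_lit 248) (nat_lit 210) (nat_lit 142))))) (XT.nd (nat_lit 312) (nat_lit 0) (nat_lit 0) (XT.nd (nat_lit 156) (nat_lit 0) (nat_lit 0) (XT.nd (nat_lit 78) (nat_lit 0) (nat_lit 0) (XT.lf (nat_lit 0) (nat_lit 532091062613) (nat_lit 152) (nat_lit 335833525533)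 (nat_lit 0) (nat_lit 495119766921) (nat_lit 1) (nat_lit 5) (nat_lit 3) (nat_lit 4) (nat_lit 1) (nat_lit 4) (nat_lit 249) (nat_lit 210) (nat_lit 141)) (XT.lf (nat_lit 0) (nat_lit 626217888106) (nat_lit 152) (nat_lit 348964648088) (nat_lit 0) (nat_lit 589246279709) (nat_lit 1) (nat_lit 5) (nat_lit 3) (nat_lit 4) (nat_lit 1) (nat_lit 4) (nat_lit 250) (nat_lit 210) (nat_lit 140))) (XT.nd (nat_lit 78) (nat_lit 0) (nat_lit 0) (XT.lf (nat_lit 0) (nat_lit 734463423450) (nat_lit 152) (nat_lit 364066027851) (nat_lit 0) (nat_lit 697491543136) (nat_lit 1) (nat_lit 5) (nat_lit 3) (nat_lit 4) (nat_lit 1) (nat_lit 4) (nat_lit 251) (nat_lit 210) (nat_lit 139)) (XT.lf (nat_lit 0) (nat_lit 858945516075) (nat_lit 152) (nat_lit 381433126599) (nat_lit 0) (nat_lit 821973399311) (nat_lit 1) (nat_lit 5) (nat_lit 3) (nat_lit 4) (nat_lit 1) (nat_lit 4) (nat_lit 252) (nat_lit 210) (nat_lit 138)))) (XT.nd (nat_lit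 156) (nat_lit 0) (nat_lit 0) (XT.nd (nat_lit 78) (nat_lit 0) (nat_lit 0) (XT.lf (nat_lit 0) (nat_lit 1002099685185) (nat_lit 152) (nat_lit 401405735395) (nat_lit 0) (nat_lit 965127362812) (nat_lit 1) (nat_lit 5) (nat_lit 3) (nat_lit 4) (nat_lit 1) (nat_lit 4) (nat_lit 253) (nat_lit 210) (nat_lit 137)) (XT.lf (nat_lit 0) (nat_lit 1166726773220) (nat_lit 152) (nat_lit 424374622672) (nat_lit 0) (nat_lit 1129754272056) (nat_lit 1) (nat_lit 5) (nat_lit 3) (nat_lit 4) (nat_lit 1) (nat_lit 4) (nat_lit 254) (nat_lit 210) (nat_lit 136))) (XT.nd (nat_lit 78) (nat_lit 0) (nat_lit 0) (XT.lf (nat_lit 0) (nat_lit 1356047744944) (nat_lit 152) (nat_lit 450789179702) (nat_lit 0) (nat_lit 1319075088311) (nat_lit 1) (nat_lit 5) (nat_lit 3) (nat_lit 4) (nat_lit 1) (nat_lit 4) (nat_lit 255) (nat_lit 210) (nat_lit 135)) (XT.lf (nat_lit 0) (nat_lit 1573766706327) (nat_lit 152) (nat_lit 481166213037) (nat_lit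 0) (nat_lit 1536793914503) (nat_lit 1) (nat_lit 5) (nat_lit 3) (nat_lit 4) (nat_lit 1) (nat_lit 4) (nat_lit 256) (nat_lit 210) (nat_lit 134))))))) (XT.nd (nat_lit 1638) (nat_lit 0) (nat_lit 0) (XT.nd (nat_lit 546) (nat_lit 0) (nat_lit 0) (XT.nd (nat_lit 234) (nat_lit 0) (nat_lit 0) (XT.nd (nat_lit 78) (nat_lit 0) (nat_lit 0) (XT.lf (nat_lit 0) (nat_lit 1824143376178) (nat_lit 152) (nat_lit 516100055936) (nat_lit 0) (nat_lit 1787170466796) (nat_lit 1) (nat_lit 5) (nat_lit 3) (nat_lit 4) (nat_lit 1) (nat_lit 4) (nat_lit 257) (nat_lit 210) (nat_lit 133)) (XT.nd (nat_lit 78) (nat_lit 0) (nat_lit 0) (XT.lf (nat_lit 0) (nat_lit 2112076428473) (nat_lit 152) (nat_lit 556274196632) (nat_lit 0) (nat_lit 2075103416867) (nat_lit 1) (nat_lit 5) (nat_lit 3) (nat_lit 4) (nat_lit 1) (nat_lit 4) (nat_lit 258) (nat_lit 210) (nat_lit 132)) (XT.lf (nat_lit 0) (nat_lit 2443199335973) (nat_lit 152) (nat_lit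 602474650920) (nat_lit 0) (nat_lit 2406226235477) (nat_lit 1) (nat_lit 5) (nat_lit 3) (nat_lit 4) (nat_lit 1) (nat_lit 4) (nat_lit 259) (nat_lit 210) (nat_lit 131)))) (XT.nd (nat_lit 156) (nat_lit 0) (nat_lit 0) (XT.nd (nat_lit 78) (nat_lit 0) (nat_lit 0) (XT.lf (nat_lit 0) (nat_lit 2823990590347) (nat_lit 152) (nat_lit 655605340731) (nat_lit 0) (nat_lit 2787017412555) (nat_lit 1) (nat_lit 5) (nat_lit 3) (nat_lit 4) (nat_lit 1) (nat_lit 4) (nat_lit 260) (nat_lit 210) (nat_lit 130)) (XT.lf (nat_lit 0) (nat_lit 3261900455269) (nat_lit 152) (nat_lit 716705779562) (nat_lit 0) (nat_lit 3224927210262) (nat_lit 1) (nat_lit 5) (nat_lit 3) (nat_lit 4) (nat_lit 1) (nat_lit 4) (nat_lit 261) (nat_lit 210) (nat_lit 129))) (XT.nd (nat_lit 78) (nat_lit 0) (nat_lit 0) (XT.lf (nat_lit 0) (nat_lit 3765496732442) (nat_lit 152) (nat_lit 786971410782) (nat_lit 0) (nat_lit 3728523428989) (nat_lit 1) (nat_lit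 5) (nat_lit 3) (nat_lit 4) (nat_lit 1) (nat_lit 4) (nat_lit 262) (nat_lit 210) (nat_lit 128)) (XT.lf (nat_lit 0) (nat_lit 4344632392507) (nat_lit 152) (nat_lit 867776996741) (nat_lit 0) (nat_lit 4307659038231) (nat_lit 1) (nat_lit 5) (nat_lit 3) (nat_lit 4) (nat_lit 1) (nat_lit 4) (nat_lit 263) (nat_lit 210) (nat_lit 127))))) (XT.nd (nat_lit 312) (nat_lit 0) (nat_lit 0) (XT.nd (nat_lit 156) (nat_lit 0) (nat_lit 0) (XT.nd (nat_lit 78) (nat_lit 0) (nat_lit 0) (XT.lf (nat_lit 0) (nat_lit 5010638350552) (nat_lit 152) (nat_lit 960703516293) (nat_lit 0) (nat_lit 4973664952082) (nat_lit 1) (nat_lit 5) (nat_lit 3) (nat_lit 4) (nat_lit 1) (nat_lit 4) (nat_lit 264) (nat_lit 210) (nat_lit 126)) (XT.lf (nat_lit 0) (nat_lit 5776545157931) (nat_lit 152) (nat_lit 1067569096996) (nat_lit 0) (nat_lit 5739571721031) (nat_lit 1) (nat_lit 5) (nat_lit 3) (nat_lit 4) (nat_lit 1) (nat_lit 4) (nat_lit 265)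 (nat_lit 210) (nat_lit 125))) (XT.nd (nat_lit 78) (nat_lit 0) (nat_lit 0) (XT.lf (nat_lit 0) (nat_lit 6657337947832) (nat_lit 152) (nat_lit 1190464587168) (nat_lit 0) (nat_lit 6620364477514) (nat_lit 1) (nat_lit 5) (nat_lit 3) (nat_lit 4) (nat_lit 1) (nat_lit 4) (nat_lit 266) (nat_lit 210) (nat_lit 124)) (XT.lf (nat_lit 0) (nat_lit 7670249622664) (nat_lit 152) (nat_lit 1331794463790) (nat_lit 0) (nat_lit 7633276123288) (nat_lit 1) (nat_lit 5) (nat_lit 3) (nat_lit 4) (nat_lit 1) (nat_lit 4) (nat_lit 267) (nat_lit 210) (nat_lit 123)))) (XT.nd (nat_lit 624) (nat_lit 0) (nat_lit 0) (XT.nd (nat_lit 546) (nat_lit 0) (nat_lit 0) (XT.lf (nat_lit 0) (nat_lit 8835098019545) (nat_lit 152) (nat_lit 1494323876622) (nat_lit 0) (nat_lit 8798124494901) (nat_lit 1) (nat_lit 5) (nat_lit 3) (nat_lit 4) (nat_lit 1) (nat_lit 4) (nat_lit 268) (nat_lit 210) (nat_lit 122)) (XT.lf (nat_lit 0) (nat_lit 23659912051474)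 (nat_lit 152) (nat_lit 3562807762921) (nat_lit 0) (nat_lit 23622938421703) (nat_lit 1) (nat_lit 5) (nat_lit 3) (nat_lit 4) (nat_lit 1) (nat_lit 4) (nat_lit 275) (nat_lit 210) (nat_lit 115))) (XT.nd (nat_lit 78) (nat_lit 0) (nat_lit 0) (XT.lf (nat_lit 0) (nat_lit 27223209681753) (nat_lit 152) (nat_lit 4059989416156) (nat_lit 0) (nat_lit 27186236043723) (nat_lit 1) (nat_lit 5) (nat_lit 3) (nat_lit 4) (nat_lit 1) (nat_lit 4) (nat_lit 276) (nat_lit 210) (nat_lit 114)) (XT.lf (nat_lit 0) (nat_lit 31321001948281) (nat_lit 152) (nat_lit 4631748332930) (nat_lit 0) (nat_lit 31284028303068) (nat_lit 1) (nat_lit 5) (nat_lit 3) (nat_lit 4) (nat_lit 1) (nat_lit 4) (nat_lit 277) (nat_lit 210) (nat_lit 113)))))) (XT.nd (nat_lit 26364) (nat_lit 0) (nat_lit 532) (XT.nd (nat_lit 26052) (nat_lit 0) (nat_lit 1064) (XT.nd (nat_lit 78) (nat_lit 0) (nat_lit 0) (XT.lf (nat_lit 0) (nat_lit 36033463047576)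 (nat_lit 152) (nat_lit 5289271100745) (nat_lit 0) (nat_lit 35996489396117) (nat_lit 1) (nat_lit 5) (nat_lit 3) (nat_lit 4) (nat_lit 1) (nat_lit 4) (nat_lit 278) (nat_lit 210) (nat_lit 112)) (XT.nd (nat_lit 78) (nat_lit 0) (nat_lit 0) (XT.lf (nat_lit 0) (nat_lit 41452793305494) (nat_lit 152) (nat_lit 6045422295494) (nat_lit 0) (nat_lit 41415819648604) (nat_lit 1) (nat_lit 5) (nat_lit 3) (nat_lit 4) (nat_lit 1) (nat_lit 4) (nat_lit 279) (nat_lit 210) (nat_lit 111)) (XT.lf (nat_lit 0) (nat_lit 47685023096646) (nat_lit 152) (nat_lit 6914996179682) (nat_lit 0) (nat_lit 47648049435033) (nat_lit 1) (nat_lit 5) (nat_lit 3) (nat_lit 4) (nat_lit 1) (nat_lit 4) (nat_lit 280) (nat_lit 210) (nat_lit 110)))) (XT.nd (nat_lit 156) (nat_lit 0) (nat_lit 0) (XT.nd (nat_lit 78) (nat_lit 0) (nat_lit 0) (XT.lf (nat_lit 0) (nat_lit 3905523677) (nat_lit 0) (nat_lit 3905523677) (nat_lit 228) (nat_lit 1810639867)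 (nat_lit 15) (nat_lit 5) (nat_lit 15) (nat_lit 3) (nat_lit 18) (nat_lit 3) (nat_lit 211) (nat_lit 211) (nat_lit 178)) (XT.lf (nat_lit 0) (nat_lit 16939514306) (nat_lit 228) (nat_lit 3710940435) (nat_lit 304) (nat_lit 12089101) (nat_lit 15) (nat_lit 5) (nat_lit 18) (nat_lit 3) (nat_lit 19) (nat_lit 5) (nat_lit 212) (nat_lit 211) (nat_lit 177))) (XT.nd (nat_lit 78) (nat_lit 0) (nat_lit 0) (XT.lf (nat_lit 76) (nat_lit 5245997894) (nat_lit 0) (nat_lit 13772408755) (nat_lit 304) (nat_lit 3191998187) (nat_lit 16) (nat_lit 5) (nat_lit 15) (nat_lit 5) (nat_lit 19) (nat_lit 5) (nat_lit 213) (nat_lit 211) (nat_lit 176)) (XT.lf (nat_lit 76) (nat_lit 15946605593) (nat_lit 0) (nat_lit 5633789423) (nat_lit 304) (nat_lit 2384704251) (nat_lit 16) (nat_lit 5) (nat_lit 15) (nat_lit 5) (nat_lit 19) (nat_lit 5) (nat_lit 214) (nat_lit 211) (nat_lit 175))))) (XT.nd (nat_lit 312) (nat_lit 152) (nat_lit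 0) (XT.nd (nat_lit 156) (nat_lit 152) (nat_lit 0) (XT.nd (nat_lit 78) (nat_lit 76) (nat_lit 0) (XT.lf (nat_lit 0) (nat_lit 2301762615) (nat_lit 228) (nat_lit 22454953137) (nat_lit 304) (nat_lit 1192075791) (nat_lit 13) (nat_lit 5) (nat_lit 16) (nat_lit 5) (nat_lit 17) (nat_lit 5) (nat_lit 215) (nat_lit 211) (nat_lit 174)) (XT.lf (nat_lit 0) (nat_lit 852058142) (nat_lit 304) (nat_lit 13411032993) (nat_lit 76) (nat_lit 13862769857) (nat_lit 12) (nat_lit 5) (nat_lit 16) (nat_lit 5) (nat_lit 13) (nat_lit 5) (nat_lit 216) (nat_lit 211) (nat_lit 173))) (XT.nd (nat_lit 78) (nat_lit 152) (nat_lit 0) (XT.lf (nat_lit 0) (nat_lit 3064421215) (nat_lit 304) (nat_lit 1713297662) (nat_lit 76) (nat_lit 25845905382) (nat_lit 12) (nat_lit 5) (nat_lit 16) (nat_lit 5) (nat_lit 13) (nat_lit 5) (nat_lit 217) (nat_lit 211) (nat_lit 172)) (XT.lf (nat_lit 0) (nat_lit 6406560184) (nat_lit 228) (nat_lit 20827421203)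 (nat_lit 76) (nat_lit 6142553251) (nat_lit 10) (nat_lit 5) (nat_lit 13) (nat_lit 5) (nat_lit 11) (nat_lit 5) (nat_lit 218) (nat_lit 211) (nat_lit 171)))) (XT.nd (nat_lit 156) (nat_lit 0) (nat_lit 0) (XT.nd (nat_lit 78) (nat_lit 152) (nat_lit 0) (XT.lf (nat_lit 0) (nat_lit 10558369104) (nat_lit 228) (nat_lit 7633353171) (nat_lit 76) (nat_lit 18304555487) (nat_lit 10) (nat_lit 5) (nat_lit 13) (nat_lit 5) (nat_lit 11) (nat_lit 5) (nat_lit 219) (nat_lit 211) (nat_lit 170)) (XT.lf (nat_lit 0) (nat_lit 8261334185) (nat_lit 152) (nat_lit 7402408314) (nat_lit 228) (nat_lit 24370750063) (nat_lit 8) (nat_lit 5) (nat_lit 10) (nat_lit 5) (nat_lit 11) (nat_lit 5) (nat_lit 220) (nat_lit 211) (nat_lit 169))) (XT.nd (nat_lit 78) (nat_lit 0) (nat_lit 0) (XT.lf (nat_lit 0) (nat_lit 22149704351) (nat_lit 228) (nat_lit 16886619364) (nat_lit 76) (nat_lit 4975010826) (nat_lit 8) (nat_lit 5) (nat_lit 11)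 (nat_lit 5) (nat_lit 9) (nat_lit 4) (nat_lit 221) (nat_lit 211) (nat_lit 168)) (XT.lf (nat_lit 0) (nat_lit 29951931399) (nat_lit 228) (nat_lit 132535985) (nat_lit 76) (nat_lit 18448827474) (nat_lit 8) (nat_lit 5) (nat_lit 11) (nat_lit 5) (nat_lit 9) (nat_lit 4) (nat_lit 222) (nat_lit 211) (nat_lit 167))))))))
noncomputable def xc38 : XT := (XT.nd (nat_lit 2262) (nat_lit 0) (nat_lit 0) (XT.nd (nat_lit 1092) (nat_lit 152) (nat_lit 0) (XT.nd (nat_lit 546) (nat_lit 76) (nat_lit 0) (XT.nd (nat_lit 234) (nat_lit 152) (nat_lit 0) (XT.nd (nat_lit 78) (nat_lit 76) (nat_lit 0) (XT.lf (nat_lit 0) (nat_lit 20992285398) (nat_lit 76) (nat_lit 18793518342) (nat_lit 152) (nat_lit 13818633732) (nat_lit 7) (nat_lit 5) (nat_lit 8) (nat_lit 5) (nat_lit 9) (nat_lit 4) (nat_lit 223) (nat_lit 211) (nat_lit 166)) (XT.nd (nat_lit 78) (nat_lit 76) (nat_lit 0) (XT.lf (nat_lit 0) (nat_lit 45289983808) (nat_lit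 76) (nat_lit 5804356766) (nat_lit 152) (nat_lit 8342047216) (nat_lit 7) (nat_lit 5) (nat_lit 8) (nat_lit 5) (nat_lit 9) (nat_lit 4) (nat_lit 224) (nat_lit 211) (nat_lit 165)) (XT.lf (nat_lit 0) (nat_lit 7355629638) (nat_lit 76) (nat_lit 57419785970) (nat_lit 76) (nat_lit 1266340621) (nat_lit 6) (nat_lit 4) (nat_lit 7) (nat_lit 5) (nat_lit 7) (nat_lit 4) (nat_lit 225) (nat_lit 211) (nat_lit 164)))) (XT.nd (nat_lit 156) (nat_lit 76) (nat_lit 0) (XT.nd (nat_lit 78) (nat_lit 0) (nat_lit 0) (XT.lf (nat_lit 0) (nat_lit 7303720572) (nat_lit 152) (nat_lit 40460740050) (nat_lit 76) (nat_lit 25674140914) (nat_lit 5) (nat_lit 5) (nat_lit 7) (nat_lit 5) (nat_lit 6) (nat_lit 4) (nat_lit 226) (nat_lit 211) (nat_lit 163)) (XT.lf (nat_lit 0) (nat_lit 17024072934) (nat_lit 152) (nat_lit 19570933717) (nat_lit 76) (nat_lit 45341799255) (nat_lit 5) (nat_lit 5) (nat_lit 7) (nat_lit 5) (nat_lit 6) (nat_lit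 4) (nat_lit 227) (nat_lit 211) (nat_lit 162))) (XT.nd (nat_lit 78) (nat_lit 0) (nat_lit 0) (XT.lf (nat_lit 0) (nat_lit 4878785716) (nat_lit 76) (nat_lit 23520870066) (nat_lit 152) (nat_lit 63280545223) (nat_lit 4) (nat_lit 5) (nat_lit 5) (nat_lit 5) (nat_lit 6) (nat_lit 4) (nat_lit 228) (nat_lit 211) (nat_lit 161)) (XT.lf (nat_lit 0) (nat_lit 35187927188) (nat_lit 76) (nat_lit 7312151803) (nat_lit 152) (nat_lit 60232282870) (nat_lit 4) (nat_lit 5) (nat_lit 5) (nat_lit 5) (nat_lit 6) (nat_lit 4) (nat_lit 229) (nat_lit 211) (nat_lit 160))))) (XT.nd (nat_lit 234) (nat_lit 0) (nat_lit 0) (XT.nd (nat_lit 78) (nat_lit 76) (nat_lit 0) (XT.lf (nat_lit 0) (nat_lit 59180586926) (nat_lit 152) (nat_lit 45875037339) (nat_lit 0) (nat_lit 10316997158) (nat_lit 4) (nat_lit 5) (nat_lit 6) (nat_lit 4) (nat_lit 4) (nat_lit 4) (nat_lit 230) (nat_lit 211) (nat_lit 159)) (XT.nd (nat_lit 78) (nat_lit 76)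 (nat_lit 0) (XT.lf (nat_lit 0) (nat_lit 78707854086) (nat_lit 152) (nat_lit 21309573556) (nat_lit 0) (nat_lit 29839813968) (nat_lit 4) (nat_lit 5) (nat_lit 6) (nat_lit 4) (nat_lit 4) (nat_lit 4) (nat_lit 231) (nat_lit 211) (nat_lit 158)) (XT.lf (nat_lit 0) (nat_lit 7613140327) (nat_lit 76) (nat_lit 93863258665) (nat_lit 76) (nat_lit 44991348677) (nat_lit 3) (nat_lit 4) (nat_lit 4) (nat_lit 5) (nat_lit 4) (nat_lit 4) (nat_lit 232) (nat_lit 211) (nat_lit 157)))) (XT.nd (nat_lit 156) (nat_lit 0) (nat_lit 0) (XT.nd (nat_lit 78) (nat_lit 0) (nat_lit 0) (XT.lf (nat_lit 0) (nat_lit 43264065813) (nat_lit 76) (nat_lit 85507200533) (nat_lit 76) (nat_lit 36631925440) (nat_lit 3) (nat_lit 4) (nat_lit 4) (nat_lit 5) (nat_lit 4) (nat_lit 4) (nat_lit 233) (nat_lit 211) (nat_lit 156)) (XT.lf (nat_lit 0) (nat_lit 84258194502) (nat_lit 76) (nat_lit 75899674679) (nat_lit 76) (nat_lit 27021473408) (nat_lit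 3) (nat_lit 4) (nat_lit 4) (nat_lit 5) (nat_lit 4) (nat_lit 4) (nat_lit 234) (nat_lit 211) (nat_lit 155))) (XT.nd (nat_lit 78) (nat_lit 0) (nat_lit 0) (XT.lf (nat_lit 0) (nat_lit 131397585435) (nat_lit 76) (nat_lit 64852707770) (nat_lit 76) (nat_lit 15971961997) (nat_lit 3) (nat_lit 4) (nat_lit 4) (nat_lit 5) (nat_lit 4) (nat_lit 4) (nat_lit 235) (nat_lit 211) (nat_lit 154)) (XT.lf (nat_lit 0) (nat_lit 185604531042) (nat_lit 76) (nat_lit 52150163499) (nat_lit 76) (nat_lit 3267205115) (nat_lit 3) (nat_lit 4) (nat_lit 4) (nat_lit 5) (nat_lit 4) (nat_lit 4) (nat_lit 236) (nat_lit 211) (nat_lit 153)))))) (XT.nd (nat_lit 546) (nat_lit 0) (nat_lit 0) (XT.nd (nat_lit 234) (nat_lit 0) (nat_lit 0) (XT.nd (nat_lit 78) (nat_lit 76) (nat_lit 0) (XT.lf (nat_lit 0) (nat_lit 10331681511) (nat_lit 152) (nat_lit 26671767143) (nat_lit 76) (nat_lit 237067855316) (nat_lit 2) (nat_lit 5) (nat_lit 4) (nat_lit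 5) (nat_lit 3) (nat_lit 4) (nat_lit 237) (nat_lit 211) (nat_lit 152)) (XT.nd (nat_lit 78) (nat_lit 0) (nat_lit 0) (XT.lf (nat_lit 0) (nat_lit 6835989612) (nat_lit 76) (nat_lit 19081473204) (nat_lit 152) (nat_lit 286095092640) (nat_lit 1) (nat_lit 5) (nat_lit 2) (nat_lit 5) (nat_lit 3) (nat_lit 4) (nat_lit 238) (nat_lit 211) (nat_lit 151)) (XT.lf (nat_lit 0) (nat_lit 45363551653) (nat_lit 152) (nat_lit 307200845455) (nat_lit 0) (nat_lit 2852238372) (nat_lit 1) (nat_lit 5) (nat_lit 3) (nat_lit 4) (nat_lit 1) (nat_lit 4) (nat_lit 239) (nat_lit 211) (nat_lit 150)))) (XT.nd (nat_lit 156) (nat_lit 0) (nat_lit 0) (XT.nd (nat_lit 78) (nat_lit 0) (nat_lit 0) (XT.lf (nat_lit 0) (nat_lit 68633925199) (nat_lit 152) (nat_lit 310439790708) (nat_lit 0) (nat_lit 26121511859) (nat_lit 1) (nat_lit 5) (nat_lit 3) (nat_lit 4) (nat_lit 1) (nat_lit 4) (nat_lit 240) (nat_lit 211) (nat_lit 149)) (XT.lf (nat_lit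 0) (nat_lit 95393750257) (nat_lit 152) (nat_lit 314166649161) (nat_lit 0) (nat_lit 52880380345) (nat_lit 1) (nat_lit 5) (nat_lit 3) (nat_lit 4) (nat_lit 1) (nat_lit 4) (nat_lit 241) (nat_lit 211) (nat_lit 148))) (XT.nd (nat_lit 78) (nat_lit 0) (nat_lit 0) (XT.lf (nat_lit 0) (nat_lit 126166588624) (nat_lit 152) (nat_lit 318454337608) (nat_lit 0) (nat_lit 83652386909) (nat_lit 1) (nat_lit 5) (nat_lit 3) (nat_lit 4) (nat_lit 1) (nat_lit 4) (nat_lit 242) (nat_lit 211) (nat_lit 147)) (XT.lf (nat_lit 0) (nat_lit 161554517570) (nat_lit 152) (nat_lit 323386745607) (nat_lit 0) (nat_lit 119039592549) (nat_lit 1) (nat_lit 5) (nat_lit 3) (nat_lit 4) (nat_lit 1) (nat_lit 4) (nat_lit 243) (nat_lit 211) (nat_lit 146))))) (XT.nd (nat_lit 312) (nat_lit 0) (nat_lit 0) (XT.nd (nat_lit 156) (nat_lit 0) (nat_lit 0) (XT.nd (nat_lit 78) (nat_lit 0) (nat_lit 0) (XT.lf (nat_lit 0) (nat_lit 202249909619) (nat_lit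 152) (nat_lit 329060376791) (nat_lit 0) (nat_lit 159734355636) (nat_lit 1) (nat_lit 5) (nat_lit 3) (nat_lit 4) (nat_lit 1) (nat_lit 4) (nat_lit 244) (nat_lit 211) (nat_lit 145)) (XT.lf (nat_lit 0) (nat_lit 249048978963) (nat_lit 152) (nat_lit 335586236988) (nat_lit 0) (nat_lit 206532878056) (nat_lit 1) (nat_lit 5) (nat_lit 3) (nat_lit 4) (nat_lit 1) (nat_lit 4) (nat_lit 245) (nat_lit 211) (nat_lit 144))) (XT.nd (nat_lit 78) (nat_lit 0) (nat_lit 0) (XT.lf (nat_lit 0) (nat_lit 302867359567) (nat_lit 152) (nat_lit 343092006072) (nat_lit 0) (nat_lit 260350783075) (nat_lit 1) (nat_lit 5) (nat_lit 3) (nat_lit 4) (nat_lit 1) (nat_lit 4) (nat_lit 246) (nat_lit 211) (nat_lit 143)) (XT.lf (nat_lit 0) (nat_lit 364758019748) (nat_lit 152) (nat_lit 351724536047) (nat_lit 0) (nat_lit 322241029704) (nat_lit 1) (nat_lit 5) (nat_lit 3) (nat_lit 4) (nat_lit 1) (nat_lit 4) (nat_lit 247) (nat_lit 211)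 (nat_lit 142)))) (XT.nd (nat_lit 156) (nat_lit 0) (nat_lit 0) (XT.nd (nat_lit 78) (nat_lit 0) (nat_lit 0) (XT.lf (nat_lit 0) (nat_lit 435931863727) (nat_lit 152) (nat_lit 361652724238) (nat_lit 0) (nat_lit 393414514071) (nat_lit 1) (nat_lit 5) (nat_lit 3) (nat_lit 4) (nat_lit 1) (nat_lit 4) (nat_lit 248) (nat_lit 211) (nat_lit 141)) (XT.lf (nat_lit 0) (nat_lit 517781423234) (nat_lit 152) (nat_lit 373070817806) (nat_lit 0) (nat_lit 475263760872) (nat_lit 1) (nat_lit 5) (nat_lit 3) (nat_lit 4) (nat_lit 1) (nat_lit 4) (nat_lit 249) (nat_lit 211) (nat_lit 140))) (XT.nd (nat_lit 78) (nat_lit 0) (nat_lit 0) (XT.lf (nat_lit 0) (nat_lit 611908102693) (nat_lit 152) (nat_lit 386202214233) (nat_lit 0) (nat_lit 569390168414) (nat_lit 1) (nat_lit 5) (nat_lit 3) (nat_lit 4) (nat_lit 1) (nat_lit 4) (nat_lit 250) (nat_lit 211) (nat_lit 139)) (XT.lf (nat_lit 0) (nat_lit 720153511051) (nat_lit 152)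 (nat_lit 401303832145) (nat_lit 0) (nat_lit 677635340322) (nat_lit 1) (nat_lit 5) (nat_lit 3) (nat_lit 4) (nat_lit 1) (nat_lit 4) (nat_lit 251) (nat_lit 211) (nat_lit 138))))))) (XT.nd (nat_lit 1170) (nat_lit 0) (nat_lit 0) (XT.nd (nat_lit 546) (nat_lit 0) (nat_lit 0) (XT.nd (nat_lit 234) (nat_lit 0) (nat_lit 0) (XT.nd (nat_lit 78) (nat_lit 0) (nat_lit 0) (XT.lf (nat_lit 0) (nat_lit 844635493253) (nat_lit 152) (nat_lit 418671137979) (nat_lit 0) (nat_lit 802117116915) (nat_lit 1) (nat_lit 5) (nat_lit 3) (nat_lit 4) (nat_lit 1) (nat_lit 4) (nat_lit 252) (nat_lit 211) (nat_lit 137)) (XT.nd (nat_lit 78) (nat_lit 0) (nat_lit 0) (XT.lf (nat_lit 0) (nat_lit 987789566344) (nat_lit 152) (nat_lit 438643926850) (nat_lit 0) (nat_lit 945271011216) (nat_lit 1) (nat_lit 5) (nat_lit 3) (nat_lit 4) (nat_lit 1) (nat_lit 4) (nat_lit 253) (nat_lit 211) (nat_lit 136)) (XT.lf (nat_lit 0) (nat_lit 1152416570883)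 (nat_lit 152) (nat_lit 461612970714) (nat_lit 0) (nat_lit 1109897860285) (nat_lit 1) (nat_lit 5) (nat_lit 3) (nat_lit 4) (nat_lit 1) (nat_lit 4) (nat_lit 254) (nat_lit 211) (nat_lit 135)))) (XT.nd (nat_lit 156) (nat_lit 0) (nat_lit 0) (XT.nd (nat_lit 78) (nat_lit 0) (nat_lit 0) (XT.lf (nat_lit 0) (nat_lit 1341737470003) (nat_lit 152) (nat_lit 488027663907) (nat_lit 0) (nat_lit 1299218624213) (nat_lit 1) (nat_lit 5) (nat_lit 3) (nat_lit 4) (nat_lit 1) (nat_lit 4) (nat_lit 255) (nat_lit 211) (nat_lit 134)) (XT.lf (nat_lit 0) (nat_lit 1559456368251) (nat_lit 152) (nat_lit 518404815644) (nat_lit 0) (nat_lit 1516937404904) (nat_lit 1) (nat_lit 5) (nat_lit 3) (nat_lit 4) (nat_lit 1) (nat_lit 4) (nat_lit 256) (nat_lit 211) (nat_lit 133))) (XT.nd (nat_lit 78) (nat_lit 0) (nat_lit 0) (XT.lf (nat_lit 0) (nat_lit 1809832983202) (nat_lit 152) (nat_lit 553338761502) (nat_lit 0) (nat_lit 1767313917632)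 (nat_lit 1) (nat_lit 5) (nat_lit 3) (nat_lit 4) (nat_lit 1) (nat_lit 4) (nat_lit 257) (nat_lit 211) (nat_lit 132)) (XT.lf (nat_lit 0) (nat_lit 2097765987758) (nat_lit 152) (nat_lit 593512991727) (nat_lit 0) (nat_lit 2055246833297) (nat_lit 1) (nat_lit 5) (nat_lit 3) (nat_lit 4) (nat_lit 1) (nat_lit 4) (nat_lit 258) (nat_lit 211) (nat_lit 131))))) (XT.nd (nat_lit 312) (nat_lit 0) (nat_lit 0) (XT.nd (nat_lit 156) (nat_lit 0) (nat_lit 0) (XT.nd (nat_lit 78) (nat_lit 0) (nat_lit 0) (XT.lf (nat_lit 0) (nat_lit 2428888853746) (nat_lit 152) (nat_lit 639713523866) (nat_lit 0) (nat_lit 2386369621989) (nat_lit 1) (nat_lit 5) (nat_lit 3) (nat_lit 4) (nat_lit 1) (nat_lit 4) (nat_lit 259) (nat_lit 211) (nat_lit 130)) (XT.lf (nat_lit 0) (nat_lit 2809680072023) (nat_lit 152) (nat_lit 692844281375) (nat_lit 0) (nat_lit 2767160773052) (nat_lit 1) (nat_lit 5) (nat_lit 3) (nat_lit 4) (nat_lit 1) (nat_lit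 4) (nat_lit 260) (nat_lit 211) (nat_lit 129))) (XT.nd (nat_lit 78) (nat_lit 0) (nat_lit 0) (XT.lf (nat_lit 0) (nat_lit 3247589905555) (nat_lit 152) (nat_lit 753944779073) (nat_lit 0) (nat_lit 3205070548138) (nat_lit 1) (nat_lit 5) (nat_lit 3) (nat_lit 4) (nat_lit 1) (nat_lit 4) (nat_lit 261) (nat_lit 211) (nat_lit 128)) (XT.lf (nat_lit 0) (nat_lit 3751186155434) (nat_lit 152) (nat_lit 824210461481) (nat_lit 0) (nat_lit 3708666747193) (nat_lit 1) (nat_lit 5) (nat_lit 3) (nat_lit 4) (nat_lit 1) (nat_lit 4) (nat_lit 262) (nat_lit 211) (nat_lit 127)))) (XT.nd (nat_lit 156) (nat_lit 0) (nat_lit 0) (XT.nd (nat_lit 78) (nat_lit 0) (nat_lit 0) (XT.lf (nat_lit 0) (nat_lit 4330321791764) (nat_lit 152) (nat_lit 905016091951) (nat_lit 0) (nat_lit 4287802339329) (nat_lit 1) (nat_lit 5) (nat_lit 3) (nat_lit 4) (nat_lit 1) (nat_lit 4) (nat_lit 263) (nat_lit 211) (nat_lit 126)) (XT.lf (nat_lit 0)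 (nat_lit 4996327729171) (nat_lit 152) (nat_lit 997942650210) (nat_lit 0) (nat_lit 4953808238306) (nat_lit 1) (nat_lit 5) (nat_lit 3) (nat_lit 4) (nat_lit 1) (nat_lit 4) (nat_lit 264) (nat_lit 211) (nat_lit 125))) (XT.nd (nat_lit 78) (nat_lit 0) (nat_lit 0) (XT.lf (nat_lit 0) (nat_lit 5762234518603) (nat_lit 152) (nat_lit 1104808264570) (nat_lit 0) (nat_lit 5719714994321) (nat_lit 1) (nat_lit 5) (nat_lit 3) (nat_lit 4) (nat_lit 1) (nat_lit 4) (nat_lit 265) (nat_lit 211) (nat_lit 124)) (XT.lf (nat_lit 0) (nat_lit 6643027292898) (nat_lit 152) (nat_lit 1227703784009) (nat_lit 0) (nat_lit 6600507739557) (nat_lit 1) (nat_lit 5) (nat_lit 3) (nat_lit 4) (nat_lit 1) (nat_lit 4) (nat_lit 266) (nat_lit 211) (nat_lit 123)))))) (XT.nd (nat_lit 26988) (nat_lit 0) (nat_lit 684) (XT.nd (nat_lit 702) (nat_lit 0) (nat_lit 0) (XT.nd (nat_lit 546) (nat_lit 0) (nat_lit 0) (XT.lf (nat_lit 0) (nat_lit 7655938954160)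 (nat_lit 152) (nat_lit 1369033686081) (nat_lit 0) (nat_lit 7613419375551) (nat_lit 1) (nat_lit 5) (nat_lit 3) (nat_lit 4) (nat_lit 1) (nat_lit 4) (nat_lit 267) (nat_lit 211) (nat_lit 122)) (XT.nd (nat_lit 78) (nat_lit 0) (nat_lit 0) (XT.lf (nat_lit 0) (nat_lit 20547081639713) (nat_lit 152) (nat_lit 3167715234269) (nat_lit 0) (nat_lit 20504561955978) (nat_lit 1) (nat_lit 5) (nat_lit 3) (nat_lit 4) (nat_lit 1) (nat_lit 4) (nat_lit 274) (nat_lit 211) (nat_lit 115)) (XT.lf (nat_lit 0) (nat_lit 23645601322075) (nat_lit 152) (nat_lit 3600047099413) (nat_lit 0) (nat_lit 23603081630080) (nat_lit 1) (nat_lit 5) (nat_lit 3) (nat_lit 4) (nat_lit 1) (nat_lit 4) (nat_lit 275) (nat_lit 211) (nat_lit 114)))) (XT.nd (nat_lit 156) (nat_lit 0) (nat_lit 0) (XT.nd (nat_lit 78) (nat_lit 0) (nat_lit 0) (XT.lf (nat_lit 0) (nat_lit 27208898948497) (nat_lit 152) (nat_lit 4097228759882) (nat_lit 0) (nat_lit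 27166379249319) (nat_lit 1) (nat_lit 5) (nat_lit 3) (nat_lit 4) (nat_lit 1) (nat_lit 4) (nat_lit 276) (nat_lit 211) (nat_lit 113)) (XT.lf (nat_lit 0) (nat_lit 31306691211670) (nat_lit 152) (nat_lit 4668987682947) (nat_lit 0) (nat_lit 31264171506246) (nat_lit 1) (nat_lit 5) (nat_lit 3) (nat_lit 4) (nat_lit 1) (nat_lit 4) (nat_lit 277) (nat_lit 211) (nat_lit 112))) (XT.nd (nat_lit 78) (nat_lit 0) (nat_lit 0) (XT.lf (nat_lit 0) (nat_lit 36019152308048) (nat_lit 152) (nat_lit 5326510456233) (nat_lit 0) (nat_lit 35976632597193) (nat_lit 1) (nat_lit 5) (nat_lit 3) (nat_lit 4) (nat_lit 1) (nat_lit 4) (nat_lit 278) (nat_lit 211) (nat_lit 111)) (XT.lf (nat_lit 0) (nat_lit 41438482563430) (nat_lit 152) (nat_lit 6082661655738) (nat_lit 0) (nat_lit 41395962847852) (nat_lit 1) (nat_lit 5) (nat_lit 3) (nat_lit 4) (nat_lit 1) (nat_lit 4) (nat_lit 279) (nat_lit 211) (nat_lit 110))))) (XT.nd (nat_lit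 312) (nat_lit 380) (nat_lit 0) (XT.nd (nat_lit 156) (nat_lit 0) (nat_lit 0) (XT.nd (nat_lit 78) (nat_lit 0) (nat_lit 0) (XT.lf (nat_lit 0) (nat_lit 4560952243) (nat_lit 0) (nat_lit 4560952243) (nat_lit 228) (nat_lit 1920028401) (nat_lit 15) (nat_lit 5) (nat_lit 15) (nat_lit 3) (nat_lit 18) (nat_lit 3) (nat_lit 212) (nat_lit 212) (nat_lit 176)) (XT.lf (nat_lit 0) (nat_lit 19616114142) (nat_lit 0) (nat_lit 105782385) (nat_lit 228) (nat_lit 4000110780) (nat_lit 15) (nat_lit 5) (nat_lit 15) (nat_lit 3) (nat_lit 18) (nat_lit 3) (nat_lit 213) (nat_lit 212) (nat_lit 175))) (XT.nd (nat_lit 78) (nat_lit 0) (nat_lit 0) (XT.lf (nat_lit 76) (nat_lit 6191417566) (nat_lit 0) (nat_lit 15892466102) (nat_lit 304) (nat_lit 3422957230) (nat_lit 16) (nat_lit 5) (nat_lit 15) (nat_lit 5) (nat_lit 19) (nat_lit 5) (nat_lit 214) (nat_lit 212) (nat_lit 174)) (XT.lf (nat_lit 76) (nat_lit 18476439899) (nat_lit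 0) (nat_lit 6525984823) (nat_lit 304) (nat_lit 2526896250) (nat_lit 16) (nat_lit 5) (nat_lit 15) (nat_lit 5) (nat_lit 19) (nat_lit 5) (nat_lit 215) (nat_lit 212) (nat_lit 173)))) (XT.nd (nat_lit 156) (nat_lit 152) (nat_lit 0) (XT.nd (nat_lit 78) (nat_lit 76) (nat_lit 0) (XT.lf (nat_lit 0) (nat_lit 2809622449) (nat_lit 228) (nat_lit 25826480374) (nat_lit 304) (nat_lit 1177692783) (nat_lit 13) (nat_lit 5) (nat_lit 16) (nat_lit 5) (nat_lit 17) (nat_lit 5) (nat_lit 216) (nat_lit 212) (nat_lit 172)) (XT.lf (nat_lit 0) (nat_lit 1132905887) (nat_lit 304) (nat_lit 15264505036) (nat_lit 76) (nat_lit 15922533885) (nat_lit 12) (nat_lit 5) (nat_lit 16) (nat_lit 5) (nat_lit 13) (nat_lit 5) (nat_lit 217) (nat_lit 212) (nat_lit 171))) (XT.nd (nat_lit 78) (nat_lit 152) (nat_lit 0) (XT.lf (nat_lit 0) (nat_lit 3657161809) (nat_lit 304) (nat_lit 1832741958) (nat_lit 76) (nat_lit 29705702971) (nat_lit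 12) (nat_lit 5) (nat_lit 16) (nat_lit 5) (nat_lit 13) (nat_lit 5) (nat_lit 218) (nat_lit 212) (nat_lit 170)) (XT.lf (nat_lit 0) (nat_lit 7489120423) (nat_lit 228) (nat_lit 23801091920) (nat_lit 76) (nat_lit 7073175148) (nat_lit 10) (nat_lit 5) (nat_lit 13) (nat_lit 5) (nat_lit 11) (nat_lit 5) (nat_lit 219) (nat_lit 212) (nat_lit 169))))))))
noncomputable def xc39 : XT := (XT.nd (nat_lit 2340) (nat_lit 0) (nat_lit 0) (XT.nd (nat_lit 1170) (nat_lit 152) (nat_lit 0) (XT.nd (nat_lit 546) (nat_lit 228) (nat_lit 0) (XT.nd (nat_lit 234) (nat_lit 152) (nat_lit 0) (XT.nd (nat_lit 78) (nat_lit 152) (nat_lit 0) (XT.lf (nat_lit 0) (nat_lit 12247842915) (nat_lit 228) (nat_lit 8647536612) (nat_lit 76) (nat_lit 21058272644) (nat_lit 10) (nat_lit 5) (nat_lit 13) (nat_lit 5) (nat_lit 11) (nat_lit 5) (nat_lit 220) (nat_lit 212) (nat_lit 168)) (XT.nd (nat_lit 78) (nat_lit 0) (nat_lit 0) (XT.lf (nat_lit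 0) (nat_lit 9625407504) (nat_lit 152) (nat_lit 8484996184) (nat_lit 228) (nat_lit 27913646056) (nat_lit 8) (nat_lit 5) (nat_lit 10) (nat_lit 5) (nat_lit 11) (nat_lit 5) (nat_lit 221) (nat_lit 212) (nat_lit 167)) (XT.lf (nat_lit 0) (nat_lit 25557594657) (nat_lit 228) (nat_lit 19298447177) (nat_lit 76) (nat_lit 5743263144) (nat_lit 8) (nat_lit 5) (nat_lit 11) (nat_lit 5) (nat_lit 9) (nat_lit 4) (nat_lit 222) (nat_lit 212) (nat_lit 166)))) (XT.nd (nat_lit 156) (nat_lit 76) (nat_lit 0) (XT.nd (nat_lit 78) (nat_lit 76) (nat_lit 0) (XT.lf (nat_lit 0) (nat_lit 34519012112) (nat_lit 228) (nat_lit 47055432) (nat_lit 76) (nat_lit 21235282634) (nat_lit 8) (nat_lit 5) (nat_lit 11) (nat_lit 5) (nat_lit 9) (nat_lit 4) (nat_lit 223) (nat_lit 212) (nat_lit 165)) (XT.lf (nat_lit 0) (nat_lit 24241700023) (nat_lit 76) (nat_lit 21580739614) (nat_lit 152) (nat_lit 15811657127) (nat_lit 7) (nat_lit 5)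 (nat_lit 8) (nat_lit 5) (nat_lit 9) (nat_lit 4) (nat_lit 224) (nat_lit 212) (nat_lit 164))) (XT.nd (nat_lit 78) (nat_lit 76) (nat_lit 0) (XT.lf (nat_lit 0) (nat_lit 52170935133) (nat_lit 76) (nat_lit 6647352473) (nat_lit 152) (nat_lit 9523987633) (nat_lit 7) (nat_lit 5) (nat_lit 8) (nat_lit 5) (nat_lit 9) (nat_lit 4) (nat_lit 225) (nat_lit 212) (nat_lit 163)) (XT.lf (nat_lit 0) (nat_lit 8550495160) (nat_lit 76) (nat_lit 65998014826) (nat_lit 76) (nat_lit 1390469477) (nat_lit 6) (nat_lit 4) (nat_lit 7) (nat_lit 5) (nat_lit 7) (nat_lit 4) (nat_lit 226) (nat_lit 212) (nat_lit 162))))) (XT.nd (nat_lit 312) (nat_lit 76) (nat_lit 0) (XT.nd (nat_lit 156) (nat_lit 76) (nat_lit 0) (XT.nd (nat_lit 78) (nat_lit 0) (nat_lit 0) (XT.lf (nat_lit 0) (nat_lit 8451419776) (nat_lit 152) (nat_lit 46444776520) (nat_lit 76) (nat_lit 29549978919) (nat_lit 5) (nat_lit 5) (nat_lit 7) (nat_lit 5) (nat_lit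 6) (nat_lit 4) (nat_lit 227) (nat_lit 212) (nat_lit 161)) (XT.lf (nat_lit 0) (nat_lit 19623023977) (nat_lit 152) (nat_lit 22432595916) (nat_lit 76) (nat_lit 52164562071) (nat_lit 5) (nat_lit 5) (nat_lit 7) (nat_lit 5) (nat_lit 6) (nat_lit 4) (nat_lit 228) (nat_lit 212) (nat_lit 160))) (XT.nd (nat_lit 78) (nat_lit 0) (nat_lit 0) (XT.lf (nat_lit 0) (nat_lit 5681218802) (nat_lit 76) (nat_lit 27020735550) (nat_lit 152) (nat_lit 72723625307) (nat_lit 4) (nat_lit 5) (nat_lit 5) (nat_lit 5) (nat_lit 6) (nat_lit 4) (nat_lit 229) (nat_lit 212) (nat_lit 159)) (XT.lf (nat_lit 0) (nat_lit 40527520814) (nat_lit 76) (nat_lit 8384396290) (nat_lit 152) (nat_lit 69224515126) (nat_lit 4) (nat_lit 5) (nat_lit 5) (nat_lit 5) (nat_lit 6) (nat_lit 4) (nat_lit 230) (nat_lit 212) (nat_lit 158)))) (XT.nd (nat_lit 156) (nat_lit 76) (nat_lit 0) (XT.nd (nat_lit 78) (nat_lit 0) (nat_lit 0) (XT.lf (nat_lit 0)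 (nat_lit 68090582789) (nat_lit 152) (nat_lit 52698753181) (nat_lit 0) (nat_lit 11884016432) (nat_lit 4) (nat_lit 5) (nat_lit 6) (nat_lit 4) (nat_lit 4) (nat_lit 4) (nat_lit 231) (nat_lit 212) (nat_lit 157)) (XT.lf (nat_lit 0) (nat_lit 90542647699) (nat_lit 152) (nat_lit 24455975016) (nat_lit 0) (nat_lit 34332716237) (nat_lit 4) (nat_lit 5) (nat_lit 6) (nat_lit 4) (nat_lit 4) (nat_lit 4) (nat_lit 232) (nat_lit 212) (nat_lit 156))) (XT.nd (nat_lit 78) (nat_lit 0) (nat_lit 0) (XT.lf (nat_lit 0) (nat_lit 8802871650) (nat_lit 76) (nat_lit 107921847885) (nat_lit 76) (nat_lit 51708990245) (nat_lit 3) (nat_lit 4) (nat_lit 4) (nat_lit 5) (nat_lit 4) (nat_lit 4) (nat_lit 233) (nat_lit 212) (nat_lit 155)) (XT.lf (nat_lit 0) (nat_lit 49795206358) (nat_lit 76) (nat_lit 98315107065) (nat_lit 76) (nat_lit 42099704923) (nat_lit 3) (nat_lit 4) (nat_lit 4) (nat_lit 5) (nat_lit 4) (nat_lit 4) (nat_lit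 234) (nat_lit 212) (nat_lit 154)))))) (XT.nd (nat_lit 546) (nat_lit 0) (nat_lit 0) (XT.nd (nat_lit 234) (nat_lit 152) (nat_lit 0) (XT.nd (nat_lit 78) (nat_lit 0) (nat_lit 0) (XT.lf (nat_lit 0) (nat_lit 96933037307) (nat_lit 76) (nat_lit 87268822795) (nat_lit 76) (nat_lit 31051208043) (nat_lit 3) (nat_lit 4) (nat_lit 4) (nat_lit 5) (nat_lit 4) (nat_lit 4) (nat_lit 235) (nat_lit 212) (nat_lit 153)) (XT.nd (nat_lit 78) (nat_lit 0) (nat_lit 0) (XT.lf (nat_lit 0) (nat_lit 151138626406) (nat_lit 76) (nat_lit 74566872123) (nat_lit 76) (nat_lit 18347333361) (nat_lit 3) (nat_lit 4) (nat_lit 4) (nat_lit 5) (nat_lit 4) (nat_lit 4) (nat_lit 236) (nat_lit 212) (nat_lit 152)) (XT.lf (nat_lit 0) (nat_lit 213472517790) (nat_lit 76) (nat_lit 59960738621) (nat_lit 76) (nat_lit 3739526807) (nat_lit 3) (nat_lit 4) (nat_lit 4) (nat_lit 5) (nat_lit 4) (nat_lit 4) (nat_lit 237) (nat_lit 212) (nat_lit 151))))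 (XT.nd (nat_lit 156) (nat_lit 0) (nat_lit 0) (XT.nd (nat_lit 78) (nat_lit 76) (nat_lit 0) (XT.lf (nat_lit 0) (nat_lit 11895501598) (nat_lit 152) (nat_lit 30647338203) (nat_lit 76) (nat_lit 272636975685) (nat_lit 2) (nat_lit 5) (nat_lit 4) (nat_lit 5) (nat_lit 3) (nat_lit 4) (nat_lit 238) (nat_lit 212) (nat_lit 150)) (XT.lf (nat_lit 0) (nat_lit 7885436883) (nat_lit 76) (nat_lit 21932874089) (nat_lit 152) (nat_lit 328994079233) (nat_lit 1) (nat_lit 5) (nat_lit 2) (nat_lit 5) (nat_lit 3) (nat_lit 4) (nat_lit 239) (nat_lit 212) (nat_lit 149))) (XT.nd (nat_lit 78) (nat_lit 0) (nat_lit 0) (XT.lf (nat_lit 0) (nat_lit 52179977244) (nat_lit 152) (nat_lit 353258668479) (nat_lit 0) (nat_lit 3288645273) (nat_lit 1) (nat_lit 5) (nat_lit 3) (nat_lit 4) (nat_lit 1) (nat_lit 4) (nat_lit 240) (nat_lit 212) (nat_lit 148)) (XT.lf (nat_lit 0) (nat_lit 78939355582) (nat_lit 152) (nat_lit 356986364712)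 (nat_lit 0) (nat_lit 30047191808) (nat_lit 1) (nat_lit 5) (nat_lit 3) (nat_lit 4) (nat_lit 1) (nat_lit 4) (nat_lit 241) (nat_lit 212) (nat_lit 147))))) (XT.nd (nat_lit 312) (nat_lit 0) (nat_lit 0) (XT.nd (nat_lit 156) (nat_lit 0) (nat_lit 0) (XT.nd (nat_lit 78) (nat_lit 0) (nat_lit 0) (XT.lf (nat_lit 0) (nat_lit 109711805494) (nat_lit 152) (nat_lit 361274781663) (nat_lit 0) (nat_lit 60818918414) (nat_lit 1) (nat_lit 5) (nat_lit 3) (nat_lit 4) (nat_lit 1) (nat_lit 4) (nat_lit 242) (nat_lit 212) (nat_lit 146)) (XT.lf (nat_lit 0) (nat_lit 145099396655) (nat_lit 152) (nat_lit 366207823143) (nat_lit 0) (nat_lit 96205880612) (nat_lit 1) (nat_lit 5) (nat_lit 3) (nat_lit 4) (nat_lit 1) (nat_lit 4) (nat_lit 243) (nat_lit 212) (nat_lit 145))) (XT.nd (nat_lit 78) (nat_lit 0) (nat_lit 0) (XT.lf (nat_lit 0) (nat_lit 185794494977) (nat_lit 152) (nat_lit 371882005181) (nat_lit 0) (nat_lit 136900432011)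 (nat_lit 1) (nat_lit 5) (nat_lit 3) (nat_lit 4) (nat_lit 1) (nat_lit 4) (nat_lit 244) (nat_lit 212) (nat_lit 144)) (XT.lf (nat_lit 0) (nat_lit 232593308907) (nat_lit 152) (nat_lit 378408344382) (nat_lit 0) (nat_lit 183698770355) (nat_lit 1) (nat_lit 5) (nat_lit 3) (nat_lit 4) (nat_lit 1) (nat_lit 4) (nat_lit 245) (nat_lit 212) (nat_lit 143)))) (XT.nd (nat_lit 156) (nat_lit 0) (nat_lit 0) (XT.nd (nat_lit 78) (nat_lit 0) (nat_lit 0) (XT.lf (nat_lit 0) (nat_lit 286411467412) (nat_lit 152) (nat_lit 385914529991) (nat_lit 0) (nat_lit 237516515307) (nat_lit 1) (nat_lit 5) (nat_lit 3) (nat_lit 4) (nat_lit 1) (nat_lit 4) (nat_lit 246) (nat_lit 212) (nat_lit 142)) (XT.lf (nat_lit 0) (nat_lit 348301934463) (nat_lit 152) (nat_lit 394547422161) (nat_lit 0) (nat_lit 299406622747) (nat_lit 1) (nat_lit 5) (nat_lit 3) (nat_lit 4) (nat_lit 1) (nat_lit 4) (nat_lit 247) (nat_lit 212) (nat_lit 141)))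 (XT.nd (nat_lit 78) (nat_lit 0) (nat_lit 0) (XT.lf (nat_lit 0) (nat_lit 419475610502) (nat_lit 152) (nat_lit 404475925305) (nat_lit 0) (nat_lit 370579986082) (nat_lit 1) (nat_lit 5) (nat_lit 3) (nat_lit 4) (nat_lit 1) (nat_lit 4) (nat_lit 248) (nat_lit 212) (nat_lit 140)) (XT.lf (nat_lit 0) (nat_lit 501325023975) (nat_lit 152) (nat_lit 415894292744) (nat_lit 0) (nat_lit 452429127636) (nat_lit 1) (nat_lit 5) (nat_lit 3) (nat_lit 4) (nat_lit 1) (nat_lit 4) (nat_lit 249) (nat_lit 212) (nat_lit 139))))))) (XT.nd (nat_lit 1170) (nat_lit 0) (nat_lit 0) (XT.nd (nat_lit 546) (nat_lit 0) (nat_lit 0) (XT.nd (nat_lit 234) (nat_lit 0) (nat_lit 0) (XT.nd (nat_lit 78) (nat_lit 0) (nat_lit 0) (XT.lf (nat_lit 0) (nat_lit 595451576448) (nat_lit 152) (nat_lit 429025927320) (nat_lit 0) (nat_lit 546555443659) (nat_lit 1) (nat_lit 5) (nat_lit 3) (nat_lit 4) (nat_lit 1) (nat_lit 4) (nat_lit 250) (nat_lit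 212) (nat_lit 138)) (XT.nd (nat_lit 78) (nat_lit 0) (nat_lit 0) (XT.lf (nat_lit 0) (nat_lit 703696874383) (nat_lit 152) (nat_lit 444127752319) (nat_lit 0) (nat_lit 654800535985) (nat_lit 1) (nat_lit 5) (nat_lit 3) (nat_lit 4) (nat_lit 1) (nat_lit 4) (nat_lit 251) (nat_lit 212) (nat_lit 137)) (XT.lf (nat_lit 0) (nat_lit 828178760566) (nat_lit 152) (nat_lit 461495238228) (nat_lit 0) (nat_lit 779282243378) (nat_lit 1) (nat_lit 5) (nat_lit 3) (nat_lit 4) (nat_lit 1) (nat_lit 4) (nat_lit 252) (nat_lit 212) (nat_lit 136)))) (XT.nd (nat_lit 156) (nat_lit 0) (nat_lit 0) (XT.nd (nat_lit 78) (nat_lit 0) (nat_lit 0) (XT.lf (nat_lit 0) (nat_lit 971332750161) (nat_lit 152) (nat_lit 481468183686) (nat_lit 0) (nat_lit 922436077503) (nat_lit 1) (nat_lit 5) (nat_lit 3) (nat_lit 4) (nat_lit 1) (nat_lit 4) (nat_lit 253) (nat_lit 212) (nat_lit 135)) (XT.lf (nat_lit 0) (nat_lit 1135959682095) (nat_lit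 152) (nat_lit 504437363713) (nat_lit 0) (nat_lit 1087062874246) (nat_lit 1) (nat_lit 5) (nat_lit 3) (nat_lit 4) (nat_lit 1) (nat_lit 4) (nat_lit 254) (nat_lit 212) (nat_lit 134))) (XT.nd (nat_lit 78) (nat_lit 0) (nat_lit 0) (XT.lf (nat_lit 0) (nat_lit 1325280518080) (nat_lit 152) (nat_lit 530852175308) (nat_lit 0) (nat_lit 1276383592674) (nat_lit 1) (nat_lit 5) (nat_lit 3) (nat_lit 4) (nat_lit 1) (nat_lit 4) (nat_lit 255) (nat_lit 212) (nat_lit 133)) (XT.lf (nat_lit 0) (nat_lit 1542999361429) (nat_lit 152) (nat_lit 561229430004) (nat_lit 0) (nat_lit 1494102333799) (nat_lit 1) (nat_lit 5) (nat_lit 3) (nat_lit 4) (nat_lit 1) (nat_lit 4) (nat_lit 256) (nat_lit 212) (nat_lit 132))))) (XT.nd (nat_lit 312) (nat_lit 0) (nat_lit 0) (XT.nd (nat_lit 156) (nat_lit 0) (nat_lit 0) (XT.nd (nat_lit 78) (nat_lit 0) (nat_lit 0) (XT.lf (nat_lit 0) (nat_lit 1793375928642) (nat_lit 152) (nat_lit 596163465391)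 (nat_lit 0) (nat_lit 1744478812121) (nat_lit 1) (nat_lit 5) (nat_lit 3) (nat_lit 4) (nat_lit 1) (nat_lit 4) (nat_lit 257) (nat_lit 212) (nat_lit 131)) (XT.lf (nat_lit 0) (nat_lit 2081308891685) (nat_lit 152) (nat_lit 636337773467) (nat_lit 0) (nat_lit 2032411697869) (nat_lit 1) (nat_lit 5) (nat_lit 3) (nat_lit 4) (nat_lit 1) (nat_lit 4) (nat_lit 258) (nat_lit 212) (nat_lit 130))) (XT.nd (nat_lit 78) (nat_lit 0) (nat_lit 0) (XT.lf (nat_lit 0) (nat_lit 2412431721576) (nat_lit 152) (nat_lit 682538373303) (nat_lit 0) (nat_lit 2363534460546) (nat_lit 1) (nat_lit 5) (nat_lit 3) (nat_lit 4) (nat_lit 1) (nat_lit 4) (nat_lit 259) (nat_lit 212) (nat_lit 129)) (XT.lf (nat_lit 0) (nat_lit 2793222908464) (nat_lit 152) (nat_lit 735669189678) (nat_lit 0) (nat_lit 2744325588987) (nat_lit 1) (nat_lit 5) (nat_lit 3) (nat_lit 4) (nat_lit 1) (nat_lit 4) (nat_lit 260) (nat_lit 212) (nat_lit 128)))) (XT.nd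 (nat_lit 156) (nat_lit 0) (nat_lit 0) (XT.nd (nat_lit 78) (nat_lit 0) (nat_lit 0) (XT.lf (nat_lit 0) (nat_lit 3231132714702) (nat_lit 152) (nat_lit 796769738565) (nat_lit 0) (nat_lit 3182235344401) (nat_lit 1) (nat_lit 5) (nat_lit 3) (nat_lit 4) (nat_lit 1) (nat_lit 4) (nat_lit 261) (nat_lit 212) (nat_lit 127)) (XT.lf (nat_lit 0) (nat_lit 3734728940845) (nat_lit 152) (nat_lit 867035465485) (nat_lit 0) (nat_lit 3685831526350) (nat_lit 1) (nat_lit 5) (nat_lit 3) (nat_lit 4) (nat_lit 1) (nat_lit 4) (nat_lit 262) (nat_lit 212) (nat_lit 126))) (XT.nd (nat_lit 78) (nat_lit 0) (nat_lit 0) (XT.lf (nat_lit 0) (nat_lit 4313864556537) (nat_lit 152) (nat_lit 947841134661) (nat_lit 0) (nat_lit 4264967103612) (nat_lit 1) (nat_lit 5) (nat_lit 3) (nat_lit 4) (nat_lit 1) (nat_lit 4) (nat_lit 263) (nat_lit 212) (nat_lit 125)) (XT.lf (nat_lit 0) (nat_lit 4979870475997) (nat_lit 152) (nat_lit 1040767726577)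 (nat_lit 0) (nat_lit 4930972989655) (nat_lit 1) (nat_lit 5) (nat_lit 3) (nat_lit 4) (nat_lit 1) (nat_lit 4) (nat_lit 264) (nat_lit 212) (nat_lit 124)))))) (XT.nd (nat_lit 624) (nat_lit 0) (nat_lit 0) (XT.nd (nat_lit 234) (nat_lit 0) (nat_lit 0) (XT.nd (nat_lit 78) (nat_lit 0) (nat_lit 0) (XT.lf (nat_lit 0) (nat_lit 5745777249823) (nat_lit 152) (nat_lit 1147633370205) (nat_lit 0) (nat_lit 5696879734423) (nat_lit 1) (nat_lit 5) (nat_lit 3) (nat_lit 4) (nat_lit 1) (nat_lit 4) (nat_lit 265) (nat_lit 212) (nat_lit 123)) (XT.nd (nat_lit 78) (nat_lit 0) (nat_lit 0) (XT.lf (nat_lit 0) (nat_lit 6626570010547) (nat_lit 152) (nat_lit 1270528915093) (nat_lit 0) (nat_lit 6577672469879) (nat_lit 1) (nat_lit 5) (nat_lit 3) (nat_lit 4) (nat_lit 1) (nat_lit 4) (nat_lit 266) (nat_lit 212) (nat_lit 122)) (XT.lf (nat_lit 0) (nat_lit 7639481660009) (nat_lit 152) (nat_lit 1411858839295) (nat_lit 0) (nat_lit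 7590584097368) (nat_lit 1) (nat_lit 5) (nat_lit 3) (nat_lit 4) (nat_lit 1) (nat_lit 4) (nat_lit 267) (nat_lit 212) (nat_lit 121)))) (XT.nd (nat_lit 156) (nat_lit 0) (nat_lit 0) (XT.nd (nat_lit 78) (nat_lit 0) (nat_lit 0) (XT.lf (nat_lit 0) (nat_lit 8804330034829) (nat_lit 152) (nat_lit 1574388293502) (nat_lit 0) (nat_lit 8755432453082) (nat_lit 1) (nat_lit 5) (nat_lit 3) (nat_lit 4) (nat_lit 1) (nat_lit 4) (nat_lit 268) (nat_lit 212) (nat_lit 120)) (XT.lf (nat_lit 0) (nat_lit 10143905646688) (nat_lit 152) (nat_lit 1761297201816) (nat_lit 0) (nat_lit 10095008048327) (nat_lit 1) (nat_lit 5) (nat_lit 3) (nat_lit 4) (nat_lit 1) (nat_lit 4) (nat_lit 269) (nat_lit 212) (nat_lit 119))) (XT.nd (nat_lit 78) (nat_lit 0) (nat_lit 0) (XT.lf (nat_lit 0) (nat_lit 11684417583644) (nat_lit 152) (nat_lit 1976242477662) (nat_lit 0) (nat_lit 11635519970836) (nat_lit 1) (nat_lit 5) (nat_lit 3) (nat_lit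 4) (nat_lit 1) (nat_lit 4) (nat_lit 270) (nat_lit 212) (nat_lit 118)) (XT.lf (nat_lit 0) (nat_lit 13456006296638) (nat_lit 152) (nat_lit 2223429572090) (nat_lit 0) (nat_lit 13407108671267) (nat_lit 1) (nat_lit 5) (nat_lit 3) (nat_lit 4) (nat_lit 1) (nat_lit 4) (nat_lit 271) (nat_lit 212) (nat_lit 117))))) (XT.nd (nat_lit 312) (nat_lit 0) (nat_lit 0) (XT.nd (nat_lit 156) (nat_lit 0) (nat_lit 0) (XT.nd (nat_lit 78) (nat_lit 0) (nat_lit 0) (XT.lf (nat_lit 0) (nat_lit 17836259351427) (nat_lit 152) (nat_lit 2834599734491) (nat_lit 0) (nat_lit 17787361705633) (nat_lit 1) (nat_lit 5) (nat_lit 3) (nat_lit 4) (nat_lit 1) (nat_lit 4) (nat_lit 273) (nat_lit 212) (nat_lit 115)) (XT.lf (nat_lit 0) (nat_lit 20530624296469) (nat_lit 152) (nat_lit 3210540479555) (nat_lit 0) (nat_lit 20481726642414) (nat_lit 1) (nat_lit 5) (nat_lit 3) (nat_lit 4) (nat_lit 1) (nat_lit 4) (nat_lit 274) (nat_lit 212)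 (nat_lit 114))) (XT.nd (nat_lit 78) (nat_lit 0) (nat_lit 0) (XT.lf (nat_lit 0) (nat_lit 23629143974973) (nat_lit 152) (nat_lit 3642872351933) (nat_lit 0) (nat_lit 23580246313735) (nat_lit 1) (nat_lit 5) (nat_lit 3) (nat_lit 4) (nat_lit 1) (nat_lit 4) (nat_lit 275) (nat_lit 212) (nat_lit 113)) (XT.lf (nat_lit 0) (nat_lit 27192441598040) (nat_lit 152) (nat_lit 4140054018693) (nat_lit 0) (nat_lit 27143543930557) (nat_lit 1) (nat_lit 5) (nat_lit 3) (nat_lit 4) (nat_lit 1) (nat_lit 4) (nat_lit 276) (nat_lit 212) (nat_lit 112)))) (XT.nd (nat_lit 26286) (nat_lit 0) (nat_lit 1064) (XT.nd (nat_lit 78) (nat_lit 0) (nat_lit 0) (XT.lf (nat_lit 0) (nat_lit 31290233858297) (nat_lit 152) (nat_lit 4711812947228) (nat_lit 0) (nat_lit 31241336185382) (nat_lit 1) (nat_lit 5) (nat_lit 3) (nat_lit 4) (nat_lit 1) (nat_lit 4) (nat_lit 277) (nat_lit 212) (nat_lit 111)) (XT.lf (nat_lit 0) (nat_lit 36002694952138)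 (nat_lit 152) (nat_lit 5369335725271) (nat_lit 0) (nat_lit 35953797274501) (nat_lit 1) (nat_lit 5) (nat_lit 3) (nat_lit 4) (nat_lit 1) (nat_lit 4) (nat_lit 278) (nat_lit 212) (nat_lit 110))) (XT.nd (nat_lit 78) (nat_lit 0) (nat_lit 0) (XT.lf (nat_lit 0) (nat_lit 5297722689) (nat_lit 0) (nat_lit 5297722689) (nat_lit 228) (nat_lit 2085380527) (nat_lit 15) (nat_lit 5) (nat_lit 15) (nat_lit 3) (nat_lit 18) (nat_lit 3) (nat_lit 213) (nat_lit 213) (nat_lit 174)) (XT.lf (nat_lit 0) (nat_lit 22650057542) (nat_lit 0) (nat_lit 213176022) (nat_lit 228) (nat_lit 4386819338) (nat_lit 15) (nat_lit 5) (nat_lit 15) (nat_lit 3) (nat_lit 18) (nat_lit 3) (nat_lit 214) (nat_lit 213) (nat_lit 173))))))))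
noncomputable def xc40 : XT := (XT.nd (nat_lit 2262) (nat_lit 0) (nat_lit 0) (XT.nd (nat_lit 1092) (nat_lit 304) (nat_lit 0) (XT.nd (nat_lit 546) (nat_lit 380) (nat_lit 0) (XT.nd (nat_lit 234) (nat_lit 228) (nat_lit 0) (XT.nd (nat_lit 78) (nat_lit 152) (nat_lit 0) (XT.lf (nat_lit 76) (nat_lit 7239994085) (nat_lit 0) (nat_lit 18317316005) (nat_lit 304) (nat_lit 3748997649) (nat_lit 16) (nat_lit 5) (nat_lit 15) (nat_lit 5) (nat_lit 19) (nat_lit 5) (nat_lit 215) (nat_lit 213) (nat_lit 172)) (XT.nd (nat_lit 78) (nat_lit 152) (nat_lit 0) (XT.lf (nat_lit 76) (nat_lit 21352135349) (nat_lit 0) (nat_lit 7540517318) (nat_lit 304) (nat_lit 2742971414) (nat_lit 16) (nat_lit 5) (nat_lit 15) (nat_lit 5) (nat_lit 19) (nat_lit 5) (nat_lit 216) (nat_lit 213) (nat_lit 171)) (XT.lf (nat_lit 0) (nat_lit 3354011330) (nat_lit 228) (nat_lit 29702935808) (nat_lit 304) (nat_lit 1208263997) (nat_lit 13) (nat_lit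 5) (nat_lit 16) (nat_lit 5) (nat_lit 17) (nat_lit 5) (nat_lit 217) (nat_lit 213) (nat_lit 170)))) (XT.nd (nat_lit 156) (nat_lit 152) (nat_lit 0) (XT.nd (nat_lit 78) (nat_lit 0) (nat_lit 0) (XT.lf (nat_lit 0) (nat_lit 1418561259) (nat_lit 304) (nat_lit 17434571788) (nat_lit 76) (nat_lit 18296054648) (nat_lit 12) (nat_lit 5) (nat_lit 16) (nat_lit 5) (nat_lit 13) (nat_lit 5) (nat_lit 218) (nat_lit 213) (nat_lit 169)) (XT.lf (nat_lit 0) (nat_lit 4306361723) (nat_lit 304) (nat_lit 2003645423) (nat_lit 76) (nat_lit 34148637269) (nat_lit 12) (nat_lit 5) (nat_lit 16) (nat_lit 5) (nat_lit 13) (nat_lit 5) (nat_lit 219) (nat_lit 213) (nat_lit 168))) (XT.nd (nat_lit 78) (nat_lit 0) (nat_lit 0) (XT.lf (nat_lit 0) (nat_lit 8704417570) (nat_lit 228) (nat_lit 27257499591) (nat_lit 76) (nat_lit 8141137363) (nat_lit 10) (nat_lit 5) (nat_lit 13) (nat_lit 5) (nat_lit 11) (nat_lit 5) (nat_lit 220) (nat_lit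 213) (nat_lit 167)) (XT.lf (nat_lit 0) (nat_lit 14164957685) (nat_lit 228) (nat_lit 9845748742) (nat_lit 76) (nat_lit 24223088274) (nat_lit 10) (nat_lit 5) (nat_lit 13) (nat_lit 5) (nat_lit 11) (nat_lit 5) (nat_lit 221) (nat_lit 213) (nat_lit 166))))) (XT.nd (nat_lit 234) (nat_lit 152) (nat_lit 0) (XT.nd (nat_lit 78) (nat_lit 76) (nat_lit 0) (XT.lf (nat_lit 0) (nat_lit 11163640703) (nat_lit 152) (nat_lit 9736744949) (nat_lit 228) (nat_lit 32015463085) (nat_lit 8) (nat_lit 5) (nat_lit 10) (nat_lit 5) (nat_lit 11) (nat_lit 5) (nat_lit 222) (nat_lit 213) (nat_lit 165)) (XT.nd (nat_lit 78) (nat_lit 76) (nat_lit 0) (XT.lf (nat_lit 0) (nat_lit 29455834728) (nat_lit 228) (nat_lit 22101596036) (nat_lit 76) (nat_lit 6621388301) (nat_lit 8) (nat_lit 5) (nat_lit 11) (nat_lit 5) (nat_lit 9) (nat_lit 4) (nat_lit 223) (nat_lit 213) (nat_lit 164)) (XT.lf (nat_lit 0) (nat_lit 28051615) (nat_lit 76)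 (nat_lit 39726148542) (nat_lit 152) (nat_lit 24408150784) (nat_lit 7) (nat_lit 5) (nat_lit 8) (nat_lit 5) (nat_lit 9) (nat_lit 4) (nat_lit 224) (nat_lit 213) (nat_lit 163)))) (XT.nd (nat_lit 156) (nat_lit 152) (nat_lit 0) (XT.nd (nat_lit 78) (nat_lit 0) (nat_lit 0) (XT.lf (nat_lit 0) (nat_lit 27954001768) (nat_lit 76) (nat_lit 24793800289) (nat_lit 152) (nat_lit 18123086856) (nat_lit 7) (nat_lit 5) (nat_lit 8) (nat_lit 5) (nat_lit 9) (nat_lit 4) (nat_lit 225) (nat_lit 213) (nat_lit 162)) (XT.lf (nat_lit 0) (nat_lit 60062703004) (nat_lit 76) (nat_lit 7623542067) (nat_lit 152) (nat_lit 10900134613) (nat_lit 7) (nat_lit 5) (nat_lit 8) (nat_lit 5) (nat_lit 9) (nat_lit 4) (nat_lit 226) (nat_lit 213) (nat_lit 161))) (XT.nd (nat_lit 78) (nat_lit 76) (nat_lit 0) (XT.lf (nat_lit 0) (nat_lit 9902272517) (nat_lit 76) (nat_lit 75871449346) (nat_lit 76) (nat_lit 1549268830) (nat_lit 6) (nat_lit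 4) (nat_lit 7) (nat_lit 5) (nat_lit 7) (nat_lit 4) (nat_lit 227) (nat_lit 213) (nat_lit 160)) (XT.lf (nat_lit 0) (nat_lit 9758558919) (nat_lit 152) (nat_lit 53347164426) (nat_lit 76) (nat_lit 34001165260) (nat_lit 5) (nat_lit 5) (nat_lit 7) (nat_lit 5) (nat_lit 6) (nat_lit 4) (nat_lit 228) (nat_lit 213) (nat_lit 159)))))) (XT.nd (nat_lit 546) (nat_lit 152) (nat_lit 0) (XT.nd (nat_lit 234) (nat_lit 76) (nat_lit 0) (XT.nd (nat_lit 78) (nat_lit 76) (nat_lit 0) (XT.lf (nat_lit 0) (nat_lit 22600761205) (nat_lit 152) (nat_lit 25741547414) (nat_lit 76) (nat_lit 60005498124) (nat_lit 5) (nat_lit 5) (nat_lit 7) (nat_lit 5) (nat_lit 6) (nat_lit 4) (nat_lit 229) (nat_lit 213) (nat_lit 158)) (XT.nd (nat_lit 78) (nat_lit 0) (nat_lit 0) (XT.lf (nat_lit 0) (nat_lit 6586796881) (nat_lit 76) (nat_lit 31052473462) (nat_lit 152) (nat_lit 83595116777) (nat_lit 4) (nat_lit 5) (nat_lit 5) (nat_lit 5) (nat_lit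 6) (nat_lit 4) (nat_lit 230) (nat_lit 213) (nat_lit 157)) (XT.lf (nat_lit 0) (nat_lit 46653079595) (nat_lit 76) (nat_lit 9623471020) (nat_lit 152) (nat_lit 79575972982) (nat_lit 4) (nat_lit 5) (nat_lit 5) (nat_lit 5) (nat_lit 6) (nat_lit 4) (nat_lit 231) (nat_lit 213) (nat_lit 156)))) (XT.nd (nat_lit 156) (nat_lit 76) (nat_lit 0) (XT.nd (nat_lit 78) (nat_lit 0) (nat_lit 0) (XT.lf (nat_lit 0) (nat_lit 78329053250) (nat_lit 152) (nat_lit 60560057833) (nat_lit 0) (nat_lit 13681340787) (nat_lit 4) (nat_lit 5) (nat_lit 6) (nat_lit 4) (nat_lit 4) (nat_lit 4) (nat_lit 232) (nat_lit 213) (nat_lit 155)) (XT.lf (nat_lit 0) (nat_lit 104145682282) (nat_lit 152) (nat_lit 28086537943) (nat_lit 0) (nat_lit 39495425316) (nat_lit 4) (nat_lit 5) (nat_lit 6) (nat_lit 4) (nat_lit 4) (nat_lit 4) (nat_lit 233) (nat_lit 213) (nat_lit 154))) (XT.nd (nat_lit 78) (nat_lit 0) (nat_lit 0) (XT.lf (nat_lit 0)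 (nat_lit 10159416027) (nat_lit 76) (nat_lit 124094321982) (nat_lit 76) (nat_lit 59441852405) (nat_lit 3) (nat_lit 4) (nat_lit 4) (nat_lit 5) (nat_lit 4) (nat_lit 4) (nat_lit 234) (nat_lit 213) (nat_lit 153)) (XT.lf (nat_lit 0) (nat_lit 57295890468) (nat_lit 76) (nat_lit 113048631311) (nat_lit 76) (nat_lit 48394237725) (nat_lit 3) (nat_lit 4) (nat_lit 4) (nat_lit 5) (nat_lit 4) (nat_lit 4) (nat_lit 235) (nat_lit 213) (nat_lit 152))))) (XT.nd (nat_lit 312) (nat_lit 76) (nat_lit 0) (XT.nd (nat_lit 156) (nat_lit 76) (nat_lit 0) (XT.nd (nat_lit 78) (nat_lit 0) (nat_lit 0) (XT.lf (nat_lit 0) (nat_lit 111500299995) (nat_lit 76) (nat_lit 100347196811) (nat_lit 76) (nat_lit 35691130174) (nat_lit 3) (nat_lit 4) (nat_lit 4) (nat_lit 5) (nat_lit 4) (nat_lit 4) (nat_lit 236) (nat_lit 213) (nat_lit 151)) (XT.lf (nat_lit 0) (nat_lit 173833165664) (nat_lit 76) (nat_lit 85741512156) (nat_lit 76) (nat_lit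 21083990691) (nat_lit 3) (nat_lit 4) (nat_lit 4) (nat_lit 5) (nat_lit 4) (nat_lit 4) (nat_lit 237) (nat_lit 213) (nat_lit 150))) (XT.nd (nat_lit 78) (nat_lit 76) (nat_lit 0) (XT.lf (nat_lit 0) (nat_lit 245514043543) (nat_lit 76) (nat_lit 68945813949) (nat_lit 76) (nat_lit 4287027416) (nat_lit 3) (nat_lit 4) (nat_lit 4) (nat_lit 5) (nat_lit 4) (nat_lit 4) (nat_lit 238) (nat_lit 213) (nat_lit 149)) (XT.lf (nat_lit 0) (nat_lit 13690464162) (nat_lit 152) (nat_lit 35225388642) (nat_lit 76) (nat_lit 313539283529) (nat_lit 2) (nat_lit 5) (nat_lit 4) (nat_lit 5) (nat_lit 3) (nat_lit 4) (nat_lit 239) (nat_lit 213) (nat_lit 148)))) (XT.nd (nat_lit 156) (nat_lit 0) (nat_lit 0) (XT.nd (nat_lit 78) (nat_lit 0) (nat_lit 0) (XT.lf (nat_lit 0) (nat_lit 9086436785) (nat_lit 76) (nat_lit 25214623656) (nat_lit 152) (nat_lit 378331639282) (nat_lit 1) (nat_lit 5) (nat_lit 2) (nat_lit 5) (nat_lit 3) (nat_lit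 4) (nat_lit 240) (nat_lit 213) (nat_lit 147)) (XT.lf (nat_lit 0) (nat_lit 60015966529) (nat_lit 152) (nat_lit 406230603879) (nat_lit 0) (nat_lit 3788423081) (nat_lit 1) (nat_lit 5) (nat_lit 3) (nat_lit 4) (nat_lit 1) (nat_lit 4) (nat_lit 241) (nat_lit 213) (nat_lit 146))) (XT.nd (nat_lit 78) (nat_lit 0) (nat_lit 0) (XT.lf (nat_lit 0) (nat_lit 90788078656) (nat_lit 152) (nat_lit 410519654313) (nat_lit 0) (nat_lit 34559906246) (nat_lit 1) (nat_lit 5) (nat_lit 3) (nat_lit 4) (nat_lit 1) (nat_lit 4) (nat_lit 242) (nat_lit 213) (nat_lit 145)) (XT.lf (nat_lit 0) (nat_lit 126175376090) (nat_lit 152) (nat_lit 415453246647) (nat_lit 0) (nat_lit 69946656756) (nat_lit 1) (nat_lit 5) (nat_lit 3) (nat_lit 4) (nat_lit 1) (nat_lit 4) (nat_lit 243) (nat_lit 213) (nat_lit 144))))))) (XT.nd (nat_lit 1170) (nat_lit 0) (nat_lit 0) (XT.nd (nat_lit 546) (nat_lit 0) (nat_lit 0) (XT.nd (nat_lit 234) (nat_lit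 0) (nat_lit 0) (XT.nd (nat_lit 78) (nat_lit 0) (nat_lit 0) (XT.lf (nat_lit 0) (nat_lit 166870218998) (nat_lit 152) (nat_lit 421127907688) (nat_lit 0) (nat_lit 110641024078) (nat_lit 1) (nat_lit 5) (nat_lit 3) (nat_lit 4) (nat_lit 1) (nat_lit 4) (nat_lit 244) (nat_lit 213) (nat_lit 143)) (XT.nd (nat_lit 78) (nat_lit 0) (nat_lit 0) (XT.lf (nat_lit 0) (nat_lit 213668810828) (nat_lit 152) (nat_lit 427654663413) (nat_lit 0) (nat_lit 157439202355) (nat_lit 1) (nat_lit 5) (nat_lit 3) (nat_lit 4) (nat_lit 1) (nat_lit 4) (nat_lit 245) (nat_lit 213) (nat_lit 142)) (XT.lf (nat_lit 0) (nat_lit 267486776203) (nat_lit 152) (nat_lit 435161211218) (nat_lit 0) (nat_lit 211256808119) (nat_lit 1) (nat_lit 5) (nat_lit 3) (nat_lit 4) (nat_lit 1) (nat_lit 4) (nat_lit 246) (nat_lit 213) (nat_lit 141)))) (XT.nd (nat_lit 156) (nat_lit 0) (nat_lit 0) (XT.nd (nat_lit 78) (nat_lit 0) (nat_lit 0) (XT.lf (nat_lit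 0) (nat_lit 329377075315) (nat_lit 152) (nat_lit 443794418340) (nat_lit 0) (nat_lit 273146794526) (nat_lit 1) (nat_lit 5) (nat_lit 3) (nat_lit 4) (nat_lit 1) (nat_lit 4) (nat_lit 247) (nat_lit 213) (nat_lit 140)) (XT.lf (nat_lit 0) (nat_lit 400550605321) (nat_lit 152) (nat_lit 453723195356) (nat_lit 0) (nat_lit 344320052614) (nat_lit 1) (nat_lit 5) (nat_lit 3) (nat_lit 4) (nat_lit 1) (nat_lit 4) (nat_lit 248) (nat_lit 213) (nat_lit 139))) (XT.nd (nat_lit 78) (nat_lit 0) (nat_lit 0) (XT.lf (nat_lit 0) (nat_lit 482399891807) (nat_lit 152) (nat_lit 465141800944) (nat_lit 0) (nat_lit 426169102650) (nat_lit 1) (nat_lit 5) (nat_lit 3) (nat_lit 4) (nat_lit 1) (nat_lit 4) (nat_lit 249) (nat_lit 213) (nat_lit 138)) (XT.lf (nat_lit 0) (nat_lit 576526333857) (nat_lit 152) (nat_lit 478273642607) (nat_lit 0) (nat_lit 520295339091) (nat_lit 1) (nat_lit 5) (nat_lit 3) (nat_lit 4) (nat_lit 1) (nat_lit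 4) (nat_lit 250) (nat_lit 213) (nat_lit 137))))) (XT.nd (nat_lit 312) (nat_lit 0) (nat_lit 0) (XT.nd (nat_lit 156) (nat_lit 0) (nat_lit 0) (XT.nd (nat_lit 78) (nat_lit 0) (nat_lit 0) (XT.lf (nat_lit 0) (nat_lit 684771535772) (nat_lit 152) (nat_lit 493375647680) (nat_lit 0) (nat_lit 628540362216) (nat_lit 1) (nat_lit 5) (nat_lit 3) (nat_lit 4) (nat_lit 1) (nat_lit 4) (nat_lit 251) (nat_lit 213) (nat_lit 136)) (XT.lf (nat_lit 0) (nat_lit 809253338460) (nat_lit 152) (nat_lit 510743290177) (nat_lit 0) (nat_lit 753022009434) (nat_lit 1) (nat_lit 5) (nat_lit 3) (nat_lit 4) (nat_lit 1) (nat_lit 4) (nat_lit 252) (nat_lit 213) (nat_lit 135))) (XT.nd (nat_lit 78) (nat_lit 0) (nat_lit 0) (XT.lf (nat_lit 0) (nat_lit 952407255450) (nat_lit 152) (nat_lit 530716371797) (nat_lit 0) (nat_lit 896175791233) (nat_lit 1) (nat_lit 5) (nat_lit 3) (nat_lit 4) (nat_lit 1) (nat_lit 4) (nat_lit 253) (nat_lit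 213) (nat_lit 134)) (XT.lf (nat_lit 0) (nat_lit 1117034124250) (nat_lit 152) (nat_lit 553685670226) (nat_lit 0) (nat_lit 1060802542475) (nat_lit 1) (nat_lit 5) (nat_lit 3) (nat_lit 4) (nat_lit 1) (nat_lit 4) (nat_lit 254) (nat_lit 213) (nat_lit 133)))) (XT.nd (nat_lit 156) (nat_lit 0) (nat_lit 0) (XT.nd (nat_lit 78) (nat_lit 0) (nat_lit 0) (XT.lf (nat_lit 0) (nat_lit 1306354905335) (nat_lit 152) (nat_lit 580100584780) (nat_lit 0) (nat_lit 1250123221337) (nat_lit 1) (nat_lit 5) (nat_lit 3) (nat_lit 4) (nat_lit 1) (nat_lit 4) (nat_lit 255) (nat_lit 213) (nat_lit 132)) (XT.lf (nat_lit 0) (nat_lit 1524073700945) (nat_lit 152) (nat_lit 610477929005) (nat_lit 0) (nat_lit 1467841928056) (nat_lit 1) (nat_lit 5) (nat_lit 3) (nat_lit 4) (nat_lit 1) (nat_lit 4) (nat_lit 256) (nat_lit 213) (nat_lit 131))) (XT.nd (nat_lit 78) (nat_lit 0) (nat_lit 0) (XT.lf (nat_lit 0) (nat_lit 1774450226646) (nat_lit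 152) (nat_lit 645412042244) (nat_lit 0) (nat_lit 1718218376461) (nat_lit 1) (nat_lit 5) (nat_lit 3) (nat_lit 4) (nat_lit 1) (nat_lit 4) (nat_lit 257) (nat_lit 213) (nat_lit 130)) (XT.lf (nat_lit 0) (nat_lit 2062383153592) (nat_lit 152) (nat_lit 685586418017) (nat_lit 0) (nat_lit 2006151236193) (nat_lit 1) (nat_lit 5) (nat_lit 3) (nat_lit 4) (nat_lit 1) (nat_lit 4) (nat_lit 258) (nat_lit 213) (nat_lit 129)))))) (XT.nd (nat_lit 546) (nat_lit 0) (nat_lit 0) (XT.nd (nat_lit 234) (nat_lit 0) (nat_lit 0) (XT.nd (nat_lit 78) (nat_lit 0) (nat_lit 0) (XT.lf (nat_lit 0) (nat_lit 2393505952094) (nat_lit 152) (nat_lit 731787076719) (nat_lit 0) (nat_lit 2337273976248) (nat_lit 1) (nat_lit 5) (nat_lit 3) (nat_lit 4) (nat_lit 1) (nat_lit 4) (nat_lit 259) (nat_lit 213) (nat_lit 128)) (XT.nd (nat_lit 78) (nat_lit 0) (nat_lit 0) (XT.lf (nat_lit 0) (nat_lit 2774297111687) (nat_lit 152) (nat_lit 784917944283)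 (nat_lit 0) (nat_lit 2718065085018) (nat_lit 1) (nat_lit 5) (nat_lit 3) (nat_lit 4) (nat_lit 1) (nat_lit 4) (nat_lit 260) (nat_lit 213) (nat_lit 127)) (XT.lf (nat_lit 0) (nat_lit 3212206894190) (nat_lit 152) (nat_lit 846018537682) (nat_lit 0) (nat_lit 3155974823327) (nat_lit 1) (nat_lit 5) (nat_lit 3) (nat_lit 4) (nat_lit 1) (nat_lit 4) (nat_lit 261) (nat_lit 213) (nat_lit 126)))) (XT.nd (nat_lit 156) (nat_lit 0) (nat_lit 0) (XT.nd (nat_lit 78) (nat_lit 0) (nat_lit 0) (XT.lf (nat_lit 0) (nat_lit 3715803099695) (nat_lit 152) (nat_lit 916284303308) (nat_lit 0) (nat_lit 3659570990402) (nat_lit 1) (nat_lit 5) (nat_lit 3) (nat_lit 4) (nat_lit 1) (nat_lit 4) (nat_lit 262) (nat_lit 213) (nat_lit 125)) (XT.lf (nat_lit 0) (nat_lit 4294938697440) (nat_lit 152) (nat_lit 997090006141) (nat_lit 0) (nat_lit 4238706554730) (nat_lit 1) (nat_lit 5) (nat_lit 3) (nat_lit 4) (nat_lit 1) (nat_lit 4) (nat_lit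 263) (nat_lit 213) (nat_lit 124))) (XT.nd (nat_lit 78) (nat_lit 0) (nat_lit 0) (XT.lf (nat_lit 0) (nat_lit 4960944601294) (nat_lit 152) (nat_lit 1090016627324) (nat_lit 0) (nat_lit 4904712429526) (nat_lit 1) (nat_lit 5) (nat_lit 3) (nat_lit 4) (nat_lit 1) (nat_lit 4) (nat_lit 264) (nat_lit 213) (nat_lit 123)) (XT.lf (nat_lit 0) (nat_lit 5726851361550) (nat_lit 152) (nat_lit 1196882296401) (nat_lit 0) (nat_lit 5670619164513) (nat_lit 1) (nat_lit 5) (nat_lit 3) (nat_lit 4) (nat_lit 1) (nat_lit 4) (nat_lit 265) (nat_lit 213) (nat_lit 122))))) (XT.nd (nat_lit 312) (nat_lit 0) (nat_lit 0) (XT.nd (nat_lit 156) (nat_lit 0) (nat_lit 0) (XT.nd (nat_lit 78) (nat_lit 0) (nat_lit 0) (XT.lf (nat_lit 0) (nat_lit 6607644110474) (nat_lit 152) (nat_lit 1319777863420) (nat_lit 0) (nat_lit 6551411891465) (nat_lit 1) (nat_lit 5) (nat_lit 3) (nat_lit 4) (nat_lit 1) (nat_lit 4) (nat_lit 266) (nat_lit 213)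 (nat_lit 121)) (XT.lf (nat_lit 0) (nat_lit 7620555749675) (nat_lit 152) (nat_lit 1461107806866) (nat_lit 0) (nat_lit 7564323511559) (nat_lit 1) (nat_lit 5) (nat_lit 3) (nat_lit 4) (nat_lit 1) (nat_lit 4) (nat_lit 267) (nat_lit 213) (nat_lit 120))) (XT.nd (nat_lit 78) (nat_lit 0) (nat_lit 0) (XT.lf (nat_lit 0) (nat_lit 8785404115572) (nat_lit 152) (nat_lit 1623637277806) (nat_lit 0) (nat_lit 8729171860842) (nat_lit 1) (nat_lit 5) (nat_lit 3) (nat_lit 4) (nat_lit 1) (nat_lit 4) (nat_lit 268) (nat_lit 213) (nat_lit 119)) (XT.lf (nat_lit 0) (nat_lit 10124979719672) (nat_lit 152) (nat_lit 1810546200671) (nat_lit 0) (nat_lit 10068747450495) (nat_lit 1) (nat_lit 5) (nat_lit 3) (nat_lit 4) (nat_lit 1) (nat_lit 4) (nat_lit 269) (nat_lit 213) (nat_lit 118)))) (XT.nd (nat_lit 234) (nat_lit 0) (nat_lit 0) (XT.nd (nat_lit 78) (nat_lit 0) (nat_lit 0) (XT.lf (nat_lit 0) (nat_lit 11665491649881)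 (nat_lit 152) (nat_lit 2025491489171) (nat_lit 0) (nat_lit 11609259368141) (nat_lit 1) (nat_lit 5) (nat_lit 3) (nat_lit 4) (nat_lit 1) (nat_lit 4) (nat_lit 270) (nat_lit 213) (nat_lit 117)) (XT.lf (nat_lit 0) (nat_lit 13437080357008) (nat_lit 152) (nat_lit 2272678594601) (nat_lit 0) (nat_lit 13380848064344) (nat_lit 1) (nat_lit 5) (nat_lit 3) (nat_lit 4) (nat_lit 1) (nat_lit 4) (nat_lit 271) (nat_lit 213) (nat_lit 116))) (XT.nd (nat_lit 78) (nat_lit 0) (nat_lit 0) (XT.lf (nat_lit 0) (nat_lit 17817333402260) (nat_lit 152) (nat_lit 2883848774889) (nat_lit 0) (nat_lit 17761101091836) (nat_lit 1) (nat_lit 5) (nat_lit 3) (nat_lit 4) (nat_lit 1) (nat_lit 4) (nat_lit 273) (nat_lit 213) (nat_lit 114)) (XT.lf (nat_lit 0) (nat_lit 20511698343443) (nat_lit 152) (nat_lit 3259789527188) (nat_lit 0) (nat_lit 20455466025837) (nat_lit 1) (nat_lit 5) (nat_lit 3) (nat_lit 4) (nat_lit 1) (nat_lit 4)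 (nat_lit 274) (nat_lit 213) (nat_lit 113))))))))
noncomputable def xc41 : XT := (XT.nd (nat_lit 28548) (nat_lit 0) (nat_lit 0) (XT.nd (nat_lit 27378) (nat_lit 0) (nat_lit 152) (XT.nd (nat_lit 26832) (nat_lit 0) (nat_lit 532) (XT.nd (nat_lit 26520) (nat_lit 0) (nat_lit 1064) (XT.nd (nat_lit 78) (nat_lit 0) (nat_lit 0) (XT.lf (nat_lit 0) (nat_lit 23610218018593) (nat_lit 152) (nat_lit 3692121405857) (nat_lit 0) (nat_lit 23553985694741) (nat_lit 1) (nat_lit 5) (nat_lit 3) (nat_lit 4) (nat_lit 1) (nat_lit 4) (nat_lit 275) (nat_lit 213) (nat_lit 112)) (XT.nd (nat_lit 78) (nat_lit 0) (nat_lit 0) (XT.lf (nat_lit 0) (nat_lit 27173515638744) (nat_lit 152) (nat_lit 4189303078087) (nat_lit 0) (nat_lit 27117283309460) (nat_lit 1) (nat_lit 5) (nat_lit 3) (nat_lit 4) (nat_lit 1) (nat_lit 4) (nat_lit 276) (nat_lit 213) (nat_lit 111)) (XT.lf (nat_lit 0) (nat_lit 31271307896464) (nat_lit 152) (nat_lit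 4761062011379) (nat_lit 0) (nat_lit 31215075562458) (nat_lit 1) (nat_lit 5) (nat_lit 3) (nat_lit 4) (nat_lit 1) (nat_lit 4) (nat_lit 277) (nat_lit 213) (nat_lit 110)))) (XT.nd (nat_lit 156) (nat_lit 0) (nat_lit 0) (XT.nd (nat_lit 78) (nat_lit 0) (nat_lit 0) (XT.lf (nat_lit 0) (nat_lit 6132175127) (nat_lit 0) (nat_lit 6132175127) (nat_lit 228) (nat_lit 2305444972) (nat_lit 15) (nat_lit 5) (nat_lit 15) (nat_lit 3) (nat_lit 18) (nat_lit 3) (nat_lit 214) (nat_lit 214) (nat_lit 172)) (XT.lf (nat_lit 0) (nat_lit 26116773189) (nat_lit 0) (nat_lit 314359441) (nat_lit 228) (nat_lit 4883550701) (nat_lit 15) (nat_lit 5) (nat_lit 15) (nat_lit 3) (nat_lit 18) (nat_lit 3) (nat_lit 215) (nat_lit 214) (nat_lit 171))) (XT.nd (nat_lit 78) (nat_lit 0) (nat_lit 0) (XT.lf (nat_lit 76) (nat_lit 8416627515) (nat_lit 0) (nat_lit 21095900164) (nat_lit 304) (nat_lit 4169643581) (nat_lit 16) (nat_lit 5) (nat_lit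 15) (nat_lit 5) (nat_lit 19) (nat_lit 5) (nat_lit 216) (nat_lit 214) (nat_lit 170)) (XT.lf (nat_lit 76) (nat_lit 24633768101) (nat_lit 0) (nat_lit 8698539923) (nat_lit 304) (nat_lit 3031196503) (nat_lit 16) (nat_lit 5) (nat_lit 15) (nat_lit 5) (nat_lit 19) (nat_lit 5) (nat_lit 217) (nat_lit 214) (nat_lit 169))))) (XT.nd (nat_lit 234) (nat_lit 304) (nat_lit 0) (XT.nd (nat_lit 78) (nat_lit 76) (nat_lit 0) (XT.lf (nat_lit 0) (nat_lit 3950077500) (nat_lit 228) (nat_lit 34160253970) (nat_lit 304) (nat_lit 1279044084) (nat_lit 13) (nat_lit 5) (nat_lit 16) (nat_lit 5) (nat_lit 17) (nat_lit 5) (nat_lit 218) (nat_lit 214) (nat_lit 168)) (XT.nd (nat_lit 78) (nat_lit 0) (nat_lit 0) (XT.lf (nat_lit 0) (nat_lit 1718846006) (nat_lit 304) (nat_lit 19959315966) (nat_lit 76) (nat_lit 21029227065) (nat_lit 12) (nat_lit 5) (nat_lit 16) (nat_lit 5) (nat_lit 13) (nat_lit 5) (nat_lit 219) (nat_lit 214)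 (nat_lit 167)) (XT.lf (nat_lit 0) (nat_lit 5028403424) (nat_lit 304) (nat_lit 2225547376) (nat_lit 76) (nat_lit 39261162616) (nat_lit 12) (nat_lit 5) (nat_lit 16) (nat_lit 5) (nat_lit 13) (nat_lit 5) (nat_lit 220) (nat_lit 214) (nat_lit 166)))) (XT.nd (nat_lit 156) (nat_lit 152) (nat_lit 0) (XT.nd (nat_lit 78) (nat_lit 0) (nat_lit 0) (XT.lf (nat_lit 0) (nat_lit 10079591799) (nat_lit 228) (nat_lit 31260108563) (nat_lit 76) (nat_lit 9367590345) (nat_lit 10) (nat_lit 5) (nat_lit 13) (nat_lit 5) (nat_lit 11) (nat_lit 5) (nat_lit 221) (nat_lit 214) (nat_lit 165)) (XT.lf (nat_lit 0) (nat_lit 16350146202) (nat_lit 228) (nat_lit 11247814560) (nat_lit 76) (nat_lit 27861144886) (nat_lit 10) (nat_lit 5) (nat_lit 13) (nat_lit 5) (nat_lit 11) (nat_lit 5) (nat_lit 222) (nat_lit 214) (nat_lit 164))) (XT.nd (nat_lit 78) (nat_lit 0) (nat_lit 0) (XT.lf (nat_lit 0) (nat_lit 12909583461) (nat_lit 152)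 (nat_lit 11181377174) (nat_lit 228) (nat_lit 36753336513) (nat_lit 8) (nat_lit 5) (nat_lit 10) (nat_lit 5) (nat_lit 11) (nat_lit 5) (nat_lit 223) (nat_lit 214) (nat_lit 163)) (XT.lf (nat_lit 0) (nat_lit 33923057478) (nat_lit 228) (nat_lit 25347558907) (nat_lit 76) (nat_lit 7627175515) (nat_lit 8) (nat_lit 5) (nat_lit 11) (nat_lit 5) (nat_lit 9) (nat_lit 4) (nat_lit 224) (nat_lit 214) (nat_lit 162)))))) (XT.nd (nat_lit 546) (nat_lit 76) (nat_lit 0) (XT.nd (nat_lit 234) (nat_lit 228) (nat_lit 0) (XT.nd (nat_lit 78) (nat_lit 0) (nat_lit 0) (XT.lf (nat_lit 0) (nat_lit 98386959) (nat_lit 76) (nat_lit 45664157547) (nat_lit 152) (nat_lit 28016922237) (nat_lit 7) (nat_lit 5) (nat_lit 8) (nat_lit 5) (nat_lit 9) (nat_lit 4) (nat_lit 225) (nat_lit 214) (nat_lit 161)) (XT.nd (nat_lit 78) (nat_lit 0) (nat_lit 0) (XT.lf (nat_lit 0) (nat_lit 32204604296) (nat_lit 76) (nat_lit 28494684875) (nat_lit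 152) (nat_lit 20795940175) (nat_lit 7) (nat_lit 5) (nat_lit 8) (nat_lit 5) (nat_lit 9) (nat_lit 4) (nat_lit 226) (nat_lit 214) (nat_lit 160)) (XT.lf (nat_lit 0) (nat_lit 69122110422) (nat_lit 76) (nat_lit 8751259936) (nat_lit 152) (nat_lit 12495494189) (nat_lit 7) (nat_lit 5) (nat_lit 8) (nat_lit 5) (nat_lit 9) (nat_lit 4) (nat_lit 227) (nat_lit 214) (nat_lit 159)))) (XT.nd (nat_lit 156) (nat_lit 76) (nat_lit 0) (XT.nd (nat_lit 78) (nat_lit 76) (nat_lit 0) (XT.lf (nat_lit 0) (nat_lit 11439940867) (nat_lit 76) (nat_lit 87232304589) (nat_lit 76) (nat_lit 1744025077) (nat_lit 6) (nat_lit 4) (nat_lit 7) (nat_lit 5) (nat_lit 7) (nat_lit 4) (nat_lit 228) (nat_lit 214) (nat_lit 158)) (XT.lf (nat_lit 0) (nat_lit 11252154611) (nat_lit 152) (nat_lit 61300597446) (nat_lit 76) (nat_lit 39115471998) (nat_lit 5) (nat_lit 5) (nat_lit 7) (nat_lit 5) (nat_lit 6) (nat_lit 4) (nat_lit 229) (nat_lit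 214) (nat_lit 157))) (XT.nd (nat_lit 78) (nat_lit 76) (nat_lit 0) (XT.lf (nat_lit 0) (nat_lit 26016798738) (nat_lit 152) (nat_lit 29560482445) (nat_lit 76) (nat_lit 69018611494) (nat_lit 5) (nat_lit 5) (nat_lit 7) (nat_lit 5) (nat_lit 6) (nat_lit 4) (nat_lit 230) (nat_lit 214) (nat_lit 156)) (XT.lf (nat_lit 0) (nat_lit 7615190900) (nat_lit 76) (nat_lit 35694183861) (nat_lit 152) (nat_lit 96106367413) (nat_lit 4) (nat_lit 5) (nat_lit 5) (nat_lit 5) (nat_lit 6) (nat_lit 4) (nat_lit 231) (nat_lit 214) (nat_lit 155))))) (XT.nd (nat_lit 312) (nat_lit 0) (nat_lit 0) (XT.nd (nat_lit 156) (nat_lit 76) (nat_lit 0) (XT.nd (nat_lit 78) (nat_lit 0) (nat_lit 0) (XT.lf (nat_lit 0) (nat_lit 53686149783) (nat_lit 76) (nat_lit 11052938959) (nat_lit 152) (nat_lit 91488006424) (nat_lit 4) (nat_lit 5) (nat_lit 5) (nat_lit 5) (nat_lit 6) (nat_lit 4) (nat_lit 232) (nat_lit 214) (nat_lit 154)) (XT.lf (nat_lit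 0) (nat_lit 90097226393) (nat_lit 152) (nat_lit 69611167964) (nat_lit 0) (nat_lit 15744673769) (nat_lit 4) (nat_lit 5) (nat_lit 6) (nat_lit 4) (nat_lit 4) (nat_lit 4) (nat_lit 233) (nat_lit 214) (nat_lit 153))) (XT.nd (nat_lit 78) (nat_lit 76) (nat_lit 0) (XT.lf (nat_lit 0) (nat_lit 119783895629) (nat_lit 152) (nat_lit 32270911204) (nat_lit 0) (nat_lit 45429418996) (nat_lit 4) (nat_lit 5) (nat_lit 6) (nat_lit 4) (nat_lit 4) (nat_lit 4) (nat_lit 234) (nat_lit 214) (nat_lit 152)) (XT.lf (nat_lit 0) (nat_lit 11710635523) (nat_lit 76) (nat_lit 142696520876) (nat_lit 76) (nat_lit 68340371191) (nat_lit 3) (nat_lit 4) (nat_lit 4) (nat_lit 5) (nat_lit 4) (nat_lit 4) (nat_lit 235) (nat_lit 214) (nat_lit 151)))) (XT.nd (nat_lit 156) (nat_lit 0) (nat_lit 0) (XT.nd (nat_lit 78) (nat_lit 0) (nat_lit 0) (XT.lf (nat_lit 0) (nat_lit 65914019335) (nat_lit 76) (nat_lit 129995535222) (nat_lit 76) (nat_lit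 55637930710) (nat_lit 3) (nat_lit 4) (nat_lit 4) (nat_lit 5) (nat_lit 4) (nat_lit 4) (nat_lit 236) (nat_lit 214) (nat_lit 150)) (XT.lf (nat_lit 0) (nat_lit 128245993079) (nat_lit 76) (nat_lit 115390240868) (nat_lit 76) (nat_lit 41031371288) (nat_lit 3) (nat_lit 4) (nat_lit 4) (nat_lit 5) (nat_lit 4) (nat_lit 4) (nat_lit 237) (nat_lit 214) (nat_lit 149))) (XT.nd (nat_lit 78) (nat_lit 0) (nat_lit 0) (XT.lf (nat_lit 0) (nat_lit 199926095370) (nat_lit 76) (nat_lit 98594882053) (nat_lit 76) (nat_lit 24234912414) (nat_lit 3) (nat_lit 4) (nat_lit 4) (nat_lit 5) (nat_lit 4) (nat_lit 4) (nat_lit 238) (nat_lit 214) (nat_lit 148)) (XT.lf (nat_lit 0) (nat_lit 282356762993) (nat_lit 76) (nat_lit 79280853931) (nat_lit 76) (nat_lit 4919927720) (nat_lit 3) (nat_lit 4) (nat_lit 4) (nat_lit 5) (nat_lit 4) (nat_lit 4) (nat_lit 239) (nat_lit 214) (nat_lit 147))))))) (XT.nd (nat_lit 1170) (nat_lit 0)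 (nat_lit 0) (XT.nd (nat_lit 546) (nat_lit 0) (nat_lit 0) (XT.nd (nat_lit 234) (nat_lit 0) (nat_lit 0) (XT.nd (nat_lit 78) (nat_lit 76) (nat_lit 0) (XT.lf (nat_lit 0) (nat_lit 15752077131) (nat_lit 152) (nat_lit 40494792181) (nat_lit 76) (nat_lit 360575288717) (nat_lit 2) (nat_lit 5) (nat_lit 4) (nat_lit 5) (nat_lit 3) (nat_lit 4) (nat_lit 240) (nat_lit 214) (nat_lit 146)) (XT.nd (nat_lit 78) (nat_lit 0) (nat_lit 0) (XT.lf (nat_lit 0) (nat_lit 10463152298) (nat_lit 76) (nat_lit 28990630779) (nat_lit 152) (nat_lit 435072650326) (nat_lit 1) (nat_lit 5) (nat_lit 2) (nat_lit 5) (nat_lit 3) (nat_lit 4) (nat_lit 241) (nat_lit 214) (nat_lit 145)) (XT.lf (nat_lit 0) (nat_lit 69025161280) (nat_lit 152) (nat_lit 467152442195) (nat_lit 0) (nat_lit 4361587122) (nat_lit 1) (nat_lit 5) (nat_lit 3) (nat_lit 4) (nat_lit 1) (nat_lit 4) (nat_lit 242) (nat_lit 214) (nat_lit 144)))) (XT.nd (nat_lit 156)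 (nat_lit 0) (nat_lit 0) (XT.nd (nat_lit 78) (nat_lit 0) (nat_lit 0) (XT.lf (nat_lit 0) (nat_lit 104412203300) (nat_lit 152) (nat_lit 472086513532) (nat_lit 0) (nat_lit 39748153556) (nat_lit 1) (nat_lit 5) (nat_lit 3) (nat_lit 4) (nat_lit 1) (nat_lit 4) (nat_lit 243) (nat_lit 214) (nat_lit 143)) (XT.lf (nat_lit 0) (nat_lit 145106824108) (nat_lit 152) (nat_lit 477761591098) (nat_lit 0) (nat_lit 80442360812) (nat_lit 1) (nat_lit 5) (nat_lit 3) (nat_lit 4) (nat_lit 1) (nat_lit 4) (nat_lit 244) (nat_lit 214) (nat_lit 142))) (XT.nd (nat_lit 78) (nat_lit 0) (nat_lit 0) (XT.lf (nat_lit 0) (nat_lit 191905222808) (nat_lit 152) (nat_lit 484288709019) (nat_lit 0) (nat_lit 127240399901) (nat_lit 1) (nat_lit 5) (nat_lit 3) (nat_lit 4) (nat_lit 1) (nat_lit 4) (nat_lit 245) (nat_lit 214) (nat_lit 141)) (XT.lf (nat_lit 0) (nat_lit 245723020244) (nat_lit 152) (nat_lit 491795571776) (nat_lit 0) (nat_lit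 181057884631) (nat_lit 1) (nat_lit 5) (nat_lit 3) (nat_lit 4) (nat_lit 1) (nat_lit 4) (nat_lit 246) (nat_lit 214) (nat_lit 140))))) (XT.nd (nat_lit 312) (nat_lit 0) (nat_lit 0) (XT.nd (nat_lit 156) (nat_lit 0) (nat_lit 0) (XT.nd (nat_lit 78) (nat_lit 0) (nat_lit 0) (XT.lf (nat_lit 0) (nat_lit 307613173322) (nat_lit 152) (nat_lit 500429052770) (nat_lit 0) (nat_lit 242947765791) (nat_lit 1) (nat_lit 5) (nat_lit 3) (nat_lit 4) (nat_lit 1) (nat_lit 4) (nat_lit 247) (nat_lit 214) (nat_lit 139)) (XT.lf (nat_lit 0) (nat_lit 378786576341) (nat_lit 152) (nat_lit 510358067935) (nat_lit 0) (nat_lit 314120932361) (nat_lit 1) (nat_lit 5) (nat_lit 3) (nat_lit 4) (nat_lit 1) (nat_lit 4) (nat_lit 248) (nat_lit 214) (nat_lit 138))) (XT.nd (nat_lit 78) (nat_lit 0) (nat_lit 0) (XT.lf (nat_lit 0) (nat_lit 460635752405) (nat_lit 152) (nat_lit 521776880610) (nat_lit 0) (nat_lit 395969902815) (nat_lit 1)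 (nat_lit 5) (nat_lit 3) (nat_lit 4) (nat_lit 1) (nat_lit 4) (nat_lit 249) (nat_lit 214) (nat_lit 137)) (XT.lf (nat_lit 0) (nat_lit 554762098435) (nat_lit 152) (nat_lit 534908902347) (nat_lit 0) (nat_lit 490096070055) (nat_lit 1) (nat_lit 5) (nat_lit 3) (nat_lit 4) (nat_lit 1) (nat_lit 4) (nat_lit 250) (nat_lit 214) (nat_lit 136)))) (XT.nd (nat_lit 156) (nat_lit 0) (nat_lit 0) (XT.nd (nat_lit 78) (nat_lit 0) (nat_lit 0) (XT.lf (nat_lit 0) (nat_lit 663007216855) (nat_lit 152) (nat_lit 550011064008) (nat_lit 0) (nat_lit 598341033006) (nat_lit 1) (nat_lit 5) (nat_lit 3) (nat_lit 4) (nat_lit 1) (nat_lit 4) (nat_lit 251) (nat_lit 214) (nat_lit 135)) (XT.lf (nat_lit 0) (nat_lit 787488946938) (nat_lit 152) (nat_lit 567378842667) (nat_lit 0) (nat_lit 722822627897) (nat_lit 1) (nat_lit 5) (nat_lit 3) (nat_lit 4) (nat_lit 1) (nat_lit 4) (nat_lit 252) (nat_lit 214) (nat_lit 134))) (XT.nd (nat_lit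 78) (nat_lit 0) (nat_lit 0) (XT.lf (nat_lit 0) (nat_lit 930642800794) (nat_lit 152) (nat_lit 587352042690) (nat_lit 0) (nat_lit 865976364196) (nat_lit 1) (nat_lit 5) (nat_lit 3) (nat_lit 4) (nat_lit 1) (nat_lit 4) (nat_lit 253) (nat_lit 214) (nat_lit 133)) (XT.lf (nat_lit 0) (nat_lit 1095269614694) (nat_lit 152) (nat_lit 610321444077) (nat_lit 0) (nat_lit 1030603075872) (nat_lit 1) (nat_lit 5) (nat_lit 3) (nat_lit 4) (nat_lit 1) (nat_lit 4) (nat_lit 254) (nat_lit 214) (nat_lit 132)))))) (XT.nd (nat_lit 546) (nat_lit 0) (nat_lit 0) (XT.nd (nat_lit 234) (nat_lit 0) (nat_lit 0) (XT.nd (nat_lit 78) (nat_lit 0) (nat_lit 0) (XT.lf (nat_lit 0) (nat_lit 1284590348041) (nat_lit 152) (nat_lit 636736448160) (nat_lit 0) (nat_lit 1219923720328) (nat_lit 1) (nat_lit 5) (nat_lit 3) (nat_lit 4) (nat_lit 1) (nat_lit 4) (nat_lit 255) (nat_lit 214) (nat_lit 131)) (XT.nd (nat_lit 78) (nat_lit 0) (nat_lit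 0) (XT.lf (nat_lit 0) (nat_lit 1502309102138) (nat_lit 152) (nat_lit 667113870236) (nat_lit 0) (nat_lit 1437642397130) (nat_lit 1) (nat_lit 5) (nat_lit 3) (nat_lit 4) (nat_lit 1) (nat_lit 4) (nat_lit 256) (nat_lit 214) (nat_lit 130)) (XT.lf (nat_lit 0) (nat_lit 1752685591742) (nat_lit 152) (nat_lit 702048051172) (nat_lit 0) (nat_lit 1688018819519) (nat_lit 1) (nat_lit 5) (nat_lit 3) (nat_lit 4) (nat_lit 1) (nat_lit 4) (nat_lit 257) (nat_lit 214) (nat_lit 129)))) (XT.nd (nat_lit 156) (nat_lit 0) (nat_lit 0) (XT.nd (nat_lit 78) (nat_lit 0) (nat_lit 0) (XT.lf (nat_lit 0) (nat_lit 2040618487299) (nat_lit 152) (nat_lit 742222485812) (nat_lit 0) (nat_lit 1975951656630) (nat_lit 1) (nat_lit 5) (nat_lit 3) (nat_lit 4) (nat_lit 1) (nat_lit 4) (nat_lit 258) (nat_lit 214) (nat_lit 128)) (XT.lf (nat_lit 0) (nat_lit 2371741258506) (nat_lit 152) (nat_lit 788423195704) (nat_lit 0) (nat_lit 2307074377013)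 (nat_lit 1) (nat_lit 5) (nat_lit 3) (nat_lit 4) (nat_lit 1) (nat_lit 4) (nat_lit 259) (nat_lit 214) (nat_lit 127))) (XT.nd (nat_lit 78) (nat_lit 0) (nat_lit 0) (XT.lf (nat_lit 0) (nat_lit 2752532394365) (nat_lit 152) (nat_lit 841554107779) (nat_lit 0) (nat_lit 2687865468678) (nat_lit 1) (nat_lit 5) (nat_lit 3) (nat_lit 4) (nat_lit 1) (nat_lit 4) (nat_lit 260) (nat_lit 214) (nat_lit 126)) (XT.lf (nat_lit 0) (nat_lit 3190442156229) (nat_lit 152) (nat_lit 902654739884) (nat_lit 0) (nat_lit 3125775192112) (nat_lit 1) (nat_lit 5) (nat_lit 3) (nat_lit 4) (nat_lit 1) (nat_lit 4) (nat_lit 261) (nat_lit 214) (nat_lit 125))))) (XT.nd (nat_lit 312) (nat_lit 0) (nat_lit 0) (XT.nd (nat_lit 156) (nat_lit 0) (nat_lit 0) (XT.nd (nat_lit 78) (nat_lit 0) (nat_lit 0) (XT.lf (nat_lit 0) (nat_lit 3694038343787) (nat_lit 152) (nat_lit 972920539167) (nat_lit 0) (nat_lit 3629371346253) (nat_lit 1) (nat_lit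 5) (nat_lit 3) (nat_lit 4) (nat_lit 1) (nat_lit 4) (nat_lit 262) (nat_lit 214) (nat_lit 124)) (XT.lf (nat_lit 0) (nat_lit 4273173925926) (nat_lit 152) (nat_lit 1053726271268) (nat_lit 0) (nat_lit 4208506899334) (nat_lit 1) (nat_lit 5) (nat_lit 3) (nat_lit 4) (nat_lit 1) (nat_lit 4) (nat_lit 263) (nat_lit 214) (nat_lit 123))) (XT.nd (nat_lit 78) (nat_lit 0) (nat_lit 0) (XT.lf (nat_lit 0) (nat_lit 4939179816210) (nat_lit 152) (nat_lit 1146652917900) (nat_lit 0) (nat_lit 4874512764349) (nat_lit 1) (nat_lit 5) (nat_lit 3) (nat_lit 4) (nat_lit 1) (nat_lit 4) (nat_lit 264) (nat_lit 214) (nat_lit 122)) (XT.lf (nat_lit 0) (nat_lit 5705086564665) (nat_lit 152) (nat_lit 1253518609108) (nat_lit 0) (nat_lit 5640419490832) (nat_lit 1) (nat_lit 5) (nat_lit 3) (nat_lit 4) (nat_lit 1) (nat_lit 4) (nat_lit 265) (nat_lit 214) (nat_lit 121)))) (XT.nd (nat_lit 156) (nat_lit 0) (nat_lit 0) (XT.nd (nat_lit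 78) (nat_lit 0) (nat_lit 0) (XT.lf (nat_lit 0) (nat_lit 6585879303328) (nat_lit 152) (nat_lit 1376414195370) (nat_lit 0) (nat_lit 6521212210389) (nat_lit 1) (nat_lit 5) (nat_lit 3) (nat_lit 4) (nat_lit 1) (nat_lit 4) (nat_lit 266) (nat_lit 214) (nat_lit 120)) (XT.lf (nat_lit 0) (nat_lit 7598790933606) (nat_lit 152) (nat_lit 1517744155550) (nat_lit 0) (nat_lit 7534123824052) (nat_lit 1) (nat_lit 5) (nat_lit 3) (nat_lit 4) (nat_lit 1) (nat_lit 4) (nat_lit 267) (nat_lit 214) (nat_lit 119))) (XT.nd (nat_lit 78) (nat_lit 0) (nat_lit 0) (XT.lf (nat_lit 0) (nat_lit 8763639291744) (nat_lit 152) (nat_lit 1680273641041) (nat_lit 0) (nat_lit 8698972167743) (nat_lit 1) (nat_lit 5) (nat_lit 3) (nat_lit 4) (nat_lit 1) (nat_lit 4) (nat_lit 268) (nat_lit 214) (nat_lit 118)) (XT.lf (nat_lit 0) (nat_lit 10103214889097) (nat_lit 152) (nat_lit 1867182576559) (nat_lit 0) (nat_lit 10038547752534) (nat_lit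 1) (nat_lit 5) (nat_lit 3) (nat_lit 4) (nat_lit 1) (nat_lit 4) (nat_lit 269) (nat_lit 214) (nat_lit 117))))))))
noncomputable def xc42 : XT := (XT.nd (nat_lit 28938) (nat_lit 0) (nat_lit 0) (XT.nd (nat_lit 27768) (nat_lit 0) (nat_lit 152) (XT.nd (nat_lit 27222) (nat_lit 0) (nat_lit 532) (XT.nd (nat_lit 390) (nat_lit 0) (nat_lit 0) (XT.nd (nat_lit 234) (nat_lit 0) (nat_lit 0) (XT.lf (nat_lit 0) (nat_lit 11643726813440) (nat_lit 152) (nat_lit 2082127876061) (nat_lit 0) (nat_lit 11579059665952) (nat_lit 1) (nat_lit 5) (nat_lit 3) (nat_lit 4) (nat_lit 1) (nat_lit 4) (nat_lit 270) (nat_lit 214) (nat_lit 116)) (XT.nd (nat_lit 78) (nat_lit 0) (nat_lit 0) (XT.lf (nat_lit 0) (nat_lit 17795568552423) (nat_lit 152) (nat_lit 2940485186901) (nat_lit 0) (nat_lit 17730901379993) (nat_lit 1) (nat_lit 5) (nat_lit 3) (nat_lit 4) (nat_lit 1) (nat_lit 4) (nat_lit 273) (nat_lit 214) (nat_lit 113)) (XT.lf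 (nat_lit 0) (nat_lit 20489933490252) (nat_lit 152) (nat_lit 3316425945490) (nat_lit 0) (nat_lit 20425266311577) (nat_lit 1) (nat_lit 5) (nat_lit 3) (nat_lit 4) (nat_lit 1) (nat_lit 4) (nat_lit 274) (nat_lit 214) (nat_lit 112)))) (XT.nd (nat_lit 26676) (nat_lit 0) (nat_lit 1064) (XT.nd (nat_lit 26598) (nat_lit 0) (nat_lit 1064) (XT.lf (nat_lit 0) (nat_lit 23588453162485) (nat_lit 152) (nat_lit 3748757829630) (nat_lit 0) (nat_lit 23523785978378) (nat_lit 1) (nat_lit 5) (nat_lit 3) (nat_lit 4) (nat_lit 1) (nat_lit 4) (nat_lit 275) (nat_lit 214) (nat_lit 111)) (XT.lf (nat_lit 0) (nat_lit 7082091403) (nat_lit 0) (nat_lit 7082091403) (nat_lit 228) (nat_lit 2581134962) (nat_lit 15) (nat_lit 5) (nat_lit 15) (nat_lit 3) (nat_lit 18) (nat_lit 3) (nat_lit 215) (nat_lit 215) (nat_lit 170))) (XT.nd (nat_lit 78) (nat_lit 0) (nat_lit 0) (XT.lf (nat_lit 0) (nat_lit 30086619614) (nat_lit 0) (nat_lit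 413843804) (nat_lit 228) (nat_lit 5494123731) (nat_lit 15) (nat_lit 5) (nat_lit 15) (nat_lit 3) (nat_lit 18) (nat_lit 3) (nat_lit 216) (nat_lit 215) (nat_lit 169)) (XT.lf (nat_lit 76) (nat_lit 9747654207) (nat_lit 0) (nat_lit 24283715629) (nat_lit 304) (nat_lit 4687941750) (nat_lit 16) (nat_lit 5) (nat_lit 15) (nat_lit 5) (nat_lit 19) (nat_lit 5) (nat_lit 217) (nat_lit 215) (nat_lit 168))))) (XT.nd (nat_lit 234) (nat_lit 304) (nat_lit 0) (XT.nd (nat_lit 78) (nat_lit 228) (nat_lit 0) (XT.lf (nat_lit 76) (nat_lit 28388426851) (nat_lit 0) (nat_lit 10023695207) (nat_lit 304) (nat_lit 3392703485) (nat_lit 16) (nat_lit 5) (nat_lit 15) (nat_lit 5) (nat_lit 19) (nat_lit 5) (nat_lit 218) (nat_lit 215) (nat_lit 167)) (XT.nd (nat_lit 78) (nat_lit 76) (nat_lit 0) (XT.lf (nat_lit 0) (nat_lit 4612883622) (nat_lit 228) (nat_lit 39285711945) (nat_lit 304) (nat_lit 1387377437) (nat_lit 13) (nat_lit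 5) (nat_lit 16) (nat_lit 5) (nat_lit 17) (nat_lit 5) (nat_lit 219) (nat_lit 215) (nat_lit 166)) (XT.lf (nat_lit 0) (nat_lit 2042835901) (nat_lit 304) (nat_lit 22884826525) (nat_lit 76) (nat_lit 24175115261) (nat_lit 12) (nat_lit 5) (nat_lit 16) (nat_lit 5) (nat_lit 13) (nat_lit 5) (nat_lit 220) (nat_lit 215) (nat_lit 165)))) (XT.nd (nat_lit 156) (nat_lit 152) (nat_lit 0) (XT.nd (nat_lit 78) (nat_lit 152) (nat_lit 0) (XT.lf (nat_lit 0) (nat_lit 5840196975) (nat_lit 304) (nat_lit 2499912669) (nat_lit 76) (nat_lit 45142949300) (nat_lit 12) (nat_lit 5) (nat_lit 16) (nat_lit 5) (nat_lit 13) (nat_lit 5) (nat_lit 221) (nat_lit 215) (nat_lit 164)) (XT.lf (nat_lit 0) (nat_lit 11644091320) (nat_lit 228) (nat_lit 35884084418) (nat_lit 76) (nat_lit 10776723132) (nat_lit 10) (nat_lit 5) (nat_lit 13) (nat_lit 5) (nat_lit 11) (nat_lit 5) (nat_lit 222) (nat_lit 215) (nat_lit 163))) (XT.nd (nat_lit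 78) (nat_lit 152) (nat_lit 0) (XT.lf (nat_lit 0) (nat_lit 18848373134) (nat_lit 228) (nat_lit 12878429849) (nat_lit 76) (nat_lit 32043789867) (nat_lit 10) (nat_lit 5) (nat_lit 13) (nat_lit 5) (nat_lit 11) (nat_lit 5) (nat_lit 223) (nat_lit 215) (nat_lit 162)) (XT.lf (nat_lit 0) (nat_lit 14900007107) (nat_lit 152) (nat_lit 12846576553) (nat_lit 228) (nat_lit 42217606530) (nat_lit 8) (nat_lit 5) (nat_lit 10) (nat_lit 5) (nat_lit 11) (nat_lit 5) (nat_lit 224) (nat_lit 215) (nat_lit 161)))))) (XT.nd (nat_lit 546) (nat_lit 152) (nat_lit 0) (XT.nd (nat_lit 234) (nat_lit 152) (nat_lit 0) (XT.nd (nat_lit 78) (nat_lit 76) (nat_lit 0) (XT.lf (nat_lit 0) (nat_lit 39048451858) (nat_lit 228) (nat_lit 29097309730) (nat_lit 76) (nat_lit 8780763349) (nat_lit 8) (nat_lit 5) (nat_lit 11) (nat_lit 5) (nat_lit 9) (nat_lit 4) (nat_lit 225) (nat_lit 215) (nat_lit 160)) (XT.nd (nat_lit 78) (nat_lit 0) (nat_lit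 0) (XT.lf (nat_lit 0) (nat_lit 163146970) (nat_lit 76) (nat_lit 52497967738) (nat_lit 152) (nat_lit 32179799956) (nat_lit 7) (nat_lit 5) (nat_lit 8) (nat_lit 5) (nat_lit 9) (nat_lit 4) (nat_lit 226) (nat_lit 215) (nat_lit 159)) (XT.lf (nat_lit 0) (nat_lit 37078774912) (nat_lit 76) (nat_lit 32755136787) (nat_lit 152) (nat_lit 23880843709) (nat_lit 7) (nat_lit 5) (nat_lit 8) (nat_lit 5) (nat_lit 9) (nat_lit 4) (nat_lit 227) (nat_lit 215) (nat_lit 158)))) (XT.nd (nat_lit 156) (nat_lit 76) (nat_lit 0) (XT.nd (nat_lit 78) (nat_lit 76) (nat_lit 0) (XT.lf (nat_lit 0) (nat_lit 79528235656) (nat_lit 76) (nat_lit 10051991693) (nat_lit 152) (nat_lit 14339829193) (nat_lit 7) (nat_lit 5) (nat_lit 8) (nat_lit 5) (nat_lit 9) (nat_lit 4) (nat_lit 228) (nat_lit 215) (nat_lit 157)) (XT.lf (nat_lit 0) (nat_lit 13195499084) (nat_lit 76) (nat_lit 100302131632) (nat_lit 76) (nat_lit 1977172069) (nat_lit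 6) (nat_lit 4) (nat_lit 7) (nat_lit 5) (nat_lit 7) (nat_lit 4) (nat_lit 229) (nat_lit 215) (nat_lit 156))) (XT.nd (nat_lit 78) (nat_lit 0) (nat_lit 0) (XT.lf (nat_lit 0) (nat_lit 12962519848) (nat_lit 152) (nat_lit 70458906993) (nat_lit 76) (nat_lit 44993478582) (nat_lit 5) (nat_lit 5) (nat_lit 7) (nat_lit 5) (nat_lit 6) (nat_lit 4) (nat_lit 230) (nat_lit 215) (nat_lit 155)) (XT.lf (nat_lit 0) (nat_lit 29938920326) (nat_lit 152) (nat_lit 33962572142) (nat_lit 76) (nat_lit 79380695204) (nat_lit 5) (nat_lit 5) (nat_lit 7) (nat_lit 5) (nat_lit 6) (nat_lit 4) (nat_lit 231) (nat_lit 215) (nat_lit 154))))) (XT.nd (nat_lit 312) (nat_lit 76) (nat_lit 0) (XT.nd (nat_lit 156) (nat_lit 0) (nat_lit 0) (XT.nd (nat_lit 78) (nat_lit 0) (nat_lit 0) (XT.lf (nat_lit 0) (nat_lit 8787998447) (nat_lit 76) (nat_lit 41036091689) (nat_lit 152) (nat_lit 110501137738) (nat_lit 4) (nat_lit 5) (nat_lit 5) (nat_lit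 5) (nat_lit 6) (nat_lit 4) (nat_lit 232) (nat_lit 215) (nat_lit 153)) (XT.lf (nat_lit 0) (nat_lit 61765619131) (nat_lit 76) (nat_lit 12700253933) (nat_lit 152) (nat_lit 105192785834) (nat_lit 4) (nat_lit 5) (nat_lit 5) (nat_lit 5) (nat_lit 6) (nat_lit 4) (nat_lit 233) (nat_lit 215) (nat_lit 152))) (XT.nd (nat_lit 78) (nat_lit 0) (nat_lit 0) (XT.lf (nat_lit 0) (nat_lit 103626037313) (nat_lit 152) (nat_lit 80027967133) (nat_lit 0) (nat_lit 18114792124) (nat_lit 4) (nat_lit 5) (nat_lit 6) (nat_lit 4) (nat_lit 4) (nat_lit 4) (nat_lit 234) (nat_lit 215) (nat_lit 151)) (XT.lf (nat_lit 0) (nat_lit 137763851243) (nat_lit 152) (nat_lit 37089916558) (nat_lit 0) (nat_lit 52251151227) (nat_lit 4) (nat_lit 5) (nat_lit 6) (nat_lit 4) (nat_lit 4) (nat_lit 4) (nat_lit 235) (nat_lit 215) (nat_lit 150)))) (XT.nd (nat_lit 156) (nat_lit 0) (nat_lit 0) (XT.nd (nat_lit 78) (nat_lit 0) (nat_lit 0) (XT.lf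 (nat_lit 0) (nat_lit 13487878936) (nat_lit 76) (nat_lit 164091963542) (nat_lit 76) (nat_lit 78577998458) (nat_lit 3) (nat_lit 4) (nat_lit 4) (nat_lit 5) (nat_lit 4) (nat_lit 4) (nat_lit 236) (nat_lit 215) (nat_lit 149)) (XT.lf (nat_lit 0) (nat_lit 75819077092) (nat_lit 76) (nat_lit 149487008579) (nat_lit 76) (nat_lit 63971943437) (nat_lit 3) (nat_lit 4) (nat_lit 4) (nat_lit 5) (nat_lit 4) (nat_lit 4) (nat_lit 237) (nat_lit 215) (nat_lit 148))) (XT.nd (nat_lit 78) (nat_lit 0) (nat_lit 0) (XT.lf (nat_lit 0) (nat_lit 147498504959) (nat_lit 76) (nat_lit 132691944888) (nat_lit 76) (nat_lit 47175923173) (nat_lit 3) (nat_lit 4) (nat_lit 4) (nat_lit 5) (nat_lit 4) (nat_lit 4) (nat_lit 238) (nat_lit 215) (nat_lit 147)) (XT.lf (nat_lit 0) (nat_lit 229928586127) (nat_lit 76) (nat_lit 113378173395) (nat_lit 76) (nat_lit 27861319878) (nat_lit 3) (nat_lit 4) (nat_lit 4) (nat_lit 5) (nat_lit 4)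 (nat_lit 4) (nat_lit 239) (nat_lit 215) (nat_lit 146))))))) (XT.nd (nat_lit 1170) (nat_lit 0) (nat_lit 0) (XT.nd (nat_lit 546) (nat_lit 0) (nat_lit 0) (XT.nd (nat_lit 234) (nat_lit 0) (nat_lit 0) (XT.nd (nat_lit 78) (nat_lit 152) (nat_lit 0) (XT.lf (nat_lit 0) (nat_lit 324722083052) (nat_lit 76) (nat_lit 91167815964) (nat_lit 76) (nat_lit 5650239140) (nat_lit 3) (nat_lit 4) (nat_lit 4) (nat_lit 5) (nat_lit 4) (nat_lit 4) (nat_lit 240) (nat_lit 215) (nat_lit 145)) (XT.nd (nat_lit 78) (nat_lit 76) (nat_lit 0) (XT.lf (nat_lit 0) (nat_lit 18120970625) (nat_lit 152) (nat_lit 46558118942) (nat_lit 76) (nat_lit 414665447929) (nat_lit 2) (nat_lit 5) (nat_lit 4) (nat_lit 5) (nat_lit 3) (nat_lit 4) (nat_lit 241) (nat_lit 215) (nat_lit 144)) (XT.lf (nat_lit 0) (nat_lit 12043022116) (nat_lit 76) (nat_lit 33334547570) (nat_lit 152) (nat_lit 500326943075) (nat_lit 1) (nat_lit 5) (nat_lit 2) (nat_lit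 5) (nat_lit 3) (nat_lit 4) (nat_lit 242) (nat_lit 215) (nat_lit 143)))) (XT.nd (nat_lit 156) (nat_lit 0) (nat_lit 0) (XT.nd (nat_lit 78) (nat_lit 0) (nat_lit 0) (XT.lf (nat_lit 0) (nat_lit 79384077077) (nat_lit 152) (nat_lit 537215665979) (nat_lit 0) (nat_lit 5019530733) (nat_lit 1) (nat_lit 5) (nat_lit 3) (nat_lit 4) (nat_lit 1) (nat_lit 4) (nat_lit 243) (nat_lit 215) (nat_lit 142)) (XT.lf (nat_lit 0) (nat_lit 120078504755) (nat_lit 152) (nat_lit 542891105740) (nat_lit 0) (nat_lit 45713598800) (nat_lit 1) (nat_lit 5) (nat_lit 3) (nat_lit 4) (nat_lit 1) (nat_lit 4) (nat_lit 244) (nat_lit 215) (nat_lit 141))) (XT.nd (nat_lit 78) (nat_lit 0) (nat_lit 0) (XT.lf (nat_lit 0) (nat_lit 166876735516) (nat_lit 152) (nat_lit 549418538613) (nat_lit 0) (nat_lit 92511516856) (nat_lit 1) (nat_lit 5) (nat_lit 3) (nat_lit 4) (nat_lit 1) (nat_lit 4) (nat_lit 245) (nat_lit 215) (nat_lit 140)) (XT.lf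 (nat_lit 0) (nat_lit 220694386918) (nat_lit 152) (nat_lit 556925675242) (nat_lit 0) (nat_lit 146328896340) (nat_lit 1) (nat_lit 5) (nat_lit 3) (nat_lit 4) (nat_lit 1) (nat_lit 4) (nat_lit 246) (nat_lit 215) (nat_lit 139))))) (XT.nd (nat_lit 312) (nat_lit 0) (nat_lit 0) (XT.nd (nat_lit 156) (nat_lit 0) (nat_lit 0) (XT.nd (nat_lit 78) (nat_lit 0) (nat_lit 0) (XT.lf (nat_lit 0) (nat_lit 282584413010) (nat_lit 152) (nat_lit 565559394386) (nat_lit 0) (nat_lit 208218685982) (nat_lit 1) (nat_lit 5) (nat_lit 3) (nat_lit 4) (nat_lit 1) (nat_lit 4) (nat_lit 247) (nat_lit 215) (nat_lit 138)) (XT.lf (nat_lit 0) (nat_lit 353757705606) (nat_lit 152) (nat_lit 575488616636) (nat_lit 0) (nat_lit 279391772969) (nat_lit 1) (nat_lit 5) (nat_lit 3) (nat_lit 4) (nat_lit 1) (nat_lit 4) (nat_lit 248) (nat_lit 215) (nat_lit 137))) (XT.nd (nat_lit 78) (nat_lit 0) (nat_lit 0) (XT.lf (nat_lit 0) (nat_lit 435606785650)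 (nat_lit 152) (nat_lit 586907609387) (nat_lit 0) (nat_lit 361240674223) (nat_lit 1) (nat_lit 5) (nat_lit 3) (nat_lit 4) (nat_lit 1) (nat_lit 4) (nat_lit 249) (nat_lit 215) (nat_lit 136)) (XT.lf (nat_lit 0) (nat_lit 529733048185) (nat_lit 152) (nat_lit 600039787711) (nat_lit 0) (nat_lit 455366781288) (nat_lit 1) (nat_lit 5) (nat_lit 3) (nat_lit 4) (nat_lit 1) (nat_lit 4) (nat_lit 250) (nat_lit 215) (nat_lit 135)))) (XT.nd (nat_lit 156) (nat_lit 0) (nat_lit 0) (XT.nd (nat_lit 78) (nat_lit 0) (nat_lit 0) (XT.lf (nat_lit 0) (nat_lit 637978094000) (nat_lit 152) (nat_lit 615142085534) (nat_lit 0) (nat_lit 563611691912) (nat_lit 1) (nat_lit 5) (nat_lit 3) (nat_lit 4) (nat_lit 1) (nat_lit 4) (nat_lit 251) (nat_lit 215) (nat_lit 134)) (XT.lf (nat_lit 0) (nat_lit 762459760948) (nat_lit 152) (nat_lit 632509982596) (nat_lit 0) (nat_lit 688093241303) (nat_lit 1) (nat_lit 5) (nat_lit 3) (nat_lit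 4) (nat_lit 1) (nat_lit 4) (nat_lit 252) (nat_lit 215) (nat_lit 133))) (XT.nd (nat_lit 78) (nat_lit 0) (nat_lit 0) (XT.lf (nat_lit 0) (nat_lit 905613559905) (nat_lit 152) (nat_lit 652483285577) (nat_lit 0) (nat_lit 831246938035) (nat_lit 1) (nat_lit 5) (nat_lit 3) (nat_lit 4) (nat_lit 1) (nat_lit 4) (nat_lit 253) (nat_lit 215) (nat_lit 132)) (XT.lf (nat_lit 0) (nat_lit 1070240326066) (nat_lit 152) (nat_lit 675452776494) (nat_lit 0) (nat_lit 995873615306) (nat_lit 1) (nat_lit 5) (nat_lit 3) (nat_lit 4) (nat_lit 1) (nat_lit 4) (nat_lit 254) (nat_lit 215) (nat_lit 131)))))) (XT.nd (nat_lit 546) (nat_lit 0) (nat_lit 0) (XT.nd (nat_lit 234) (nat_lit 0) (nat_lit 0) (XT.nd (nat_lit 78) (nat_lit 0) (nat_lit 0) (XT.lf (nat_lit 0) (nat_lit 1259561017901) (nat_lit 152) (nat_lit 701867858428) (nat_lit 0) (nat_lit 1185194229845) (nat_lit 1) (nat_lit 5) (nat_lit 3) (nat_lit 4) (nat_lit 1) (nat_lit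 4) (nat_lit 255) (nat_lit 215) (nat_lit 130)) (XT.nd (nat_lit 78) (nat_lit 0) (nat_lit 0) (XT.lf (nat_lit 0) (nat_lit 1477279735901) (nat_lit 152) (nat_lit 732245348201) (nat_lit 0) (nat_lit 1402912880631) (nat_lit 1) (nat_lit 5) (nat_lit 3) (nat_lit 4) (nat_lit 1) (nat_lit 4) (nat_lit 256) (nat_lit 215) (nat_lit 129)) (XT.lf (nat_lit 0) (nat_lit 1727656194115) (nat_lit 152) (nat_lit 767179588004) (nat_lit 0) (nat_lit 1653289280399) (nat_lit 1) (nat_lit 5) (nat_lit 3) (nat_lit 4) (nat_lit 1) (nat_lit 4) (nat_lit 257) (nat_lit 215) (nat_lit 128)))) (XT.nd (nat_lit 156) (nat_lit 0) (nat_lit 0) (XT.nd (nat_lit 78) (nat_lit 0) (nat_lit 0) (XT.lf (nat_lit 0) (nat_lit 2015589062378) (nat_lit 152) (nat_lit 807354073832) (nat_lit 0) (nat_lit 1941222097838) (nat_lit 1) (nat_lit 5) (nat_lit 3) (nat_lit 4) (nat_lit 1) (nat_lit 4) (nat_lit 258) (nat_lit 215) (nat_lit 127)) (XT.lf (nat_lit 0)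 (nat_lit 2346711809850) (nat_lit 152) (nat_lit 853554828236) (nat_lit 0) (nat_lit 2272344801116) (nat_lit 1) (nat_lit 5) (nat_lit 3) (nat_lit 4) (nat_lit 1) (nat_lit 4) (nat_lit 259) (nat_lit 215) (nat_lit 126))) (XT.nd (nat_lit 78) (nat_lit 0) (nat_lit 0) (XT.lf (nat_lit 0) (nat_lit 2727502925070) (nat_lit 152) (nat_lit 906685779017) (nat_lit 0) (nat_lit 2653135877906) (nat_lit 1) (nat_lit 5) (nat_lit 3) (nat_lit 4) (nat_lit 1) (nat_lit 4) (nat_lit 260) (nat_lit 215) (nat_lit 125)) (XT.lf (nat_lit 0) (nat_lit 3165412668987) (nat_lit 152) (nat_lit 967786444779) (nat_lit 0) (nat_lit 3091045588406) (nat_lit 1) (nat_lit 5) (nat_lit 3) (nat_lit 4) (nat_lit 1) (nat_lit 4) (nat_lit 261) (nat_lit 215) (nat_lit 124))))) (XT.nd (nat_lit 312) (nat_lit 0) (nat_lit 0) (XT.nd (nat_lit 156) (nat_lit 0) (nat_lit 0) (XT.nd (nat_lit 78) (nat_lit 0) (nat_lit 0) (XT.lf (nat_lit 0) (nat_lit 3669008840940)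 (nat_lit 152) (nat_lit 1038052273330) (nat_lit 0) (nat_lit 3594641731300) (nat_lit 1) (nat_lit 5) (nat_lit 3) (nat_lit 4) (nat_lit 1) (nat_lit 4) (nat_lit 262) (nat_lit 215) (nat_lit 123)) (XT.lf (nat_lit 0) (nat_lit 4248144409508) (nat_lit 152) (nat_lit 1118858030880) (nat_lit 0) (nat_lit 4173777274601) (nat_lit 1) (nat_lit 5) (nat_lit 3) (nat_lit 4) (nat_lit 1) (nat_lit 4) (nat_lit 263) (nat_lit 215) (nat_lit 122))) (XT.nd (nat_lit 78) (nat_lit 0) (nat_lit 0) (XT.lf (nat_lit 0) (nat_lit 4914150287992) (nat_lit 152) (nat_lit 1211784699643) (nat_lit 0) (nat_lit 4839783131112) (nat_lit 1) (nat_lit 5) (nat_lit 3) (nat_lit 4) (nat_lit 1) (nat_lit 4) (nat_lit 264) (nat_lit 215) (nat_lit 121)) (XT.lf (nat_lit 0) (nat_lit 5680057026186) (nat_lit 152) (nat_lit 1318650410094) (nat_lit 0) (nat_lit 5605689850200) (nat_lit 1) (nat_lit 5) (nat_lit 3) (nat_lit 4) (nat_lit 1) (nat_lit 4) (nat_lit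 265) (nat_lit 215) (nat_lit 120)))) (XT.nd (nat_lit 156) (nat_lit 0) (nat_lit 0) (XT.nd (nat_lit 78) (nat_lit 0) (nat_lit 0) (XT.lf (nat_lit 0) (nat_lit 6560849755926) (nat_lit 152) (nat_lit 1441546013090) (nat_lit 0) (nat_lit 6486482563325) (nat_lit 1) (nat_lit 5) (nat_lit 3) (nat_lit 4) (nat_lit 1) (nat_lit 4) (nat_lit 266) (nat_lit 215) (nat_lit 119)) (XT.lf (nat_lit 0) (nat_lit 7573761378445) (nat_lit 152) (nat_lit 1582875987821) (nat_lit 0) (nat_lit 7499394171397) (nat_lit 1) (nat_lit 5) (nat_lit 3) (nat_lit 4) (nat_lit 1) (nat_lit 4) (nat_lit 267) (nat_lit 215) (nat_lit 118))) (XT.nd (nat_lit 78) (nat_lit 0) (nat_lit 0) (XT.lf (nat_lit 0) (nat_lit 8738609729837) (nat_lit 152) (nat_lit 1745405485965) (nat_lit 0) (nat_lit 8664242510226) (nat_lit 1) (nat_lit 5) (nat_lit 3) (nat_lit 4) (nat_lit 1) (nat_lit 4) (nat_lit 268) (nat_lit 215) (nat_lit 117)) (XT.lf (nat_lit 0) (nat_lit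 10078185321323) (nat_lit 152) (nat_lit 1932314432486) (nat_lit 0) (nat_lit 10003818090788) (nat_lit 1) (nat_lit 5) (nat_lit 3) (nat_lit 4) (nat_lit 1) (nat_lit 4) (nat_lit 269) (nat_lit 215) (nat_lit 116))))))))
noncomputable def xc43 : XT := (XT.nd (nat_lit 2340) (nat_lit 0) (nat_lit 0) (XT.nd (nat_lit 1170) (nat_lit 380) (nat_lit 0) (XT.nd (nat_lit 546) (nat_lit 456) (nat_lit 0) (XT.nd (nat_lit 234) (nat_lit 228) (nat_lit 0) (XT.nd (nat_lit 78) (nat_lit 0) (nat_lit 0) (XT.lf (nat_lit 0) (nat_lit 8167157482) (nat_lit 0) (nat_lit 8167157482) (nat_lit 228) (nat_lit 2915279304) (nat_lit 15) (nat_lit 5) (nat_lit 15) (nat_lit 3) (nat_lit 18) (nat_lit 3) (nat_lit 216) (nat_lit 216) (nat_lit 168)) (XT.nd (nat_lit 78) (nat_lit 0) (nat_lit 0) (XT.lf (nat_lit 0) (nat_lit 34639181892) (nat_lit 0) (nat_lit 515489710) (nat_lit 228) (nat_lit 6226023331) (nat_lit 15) (nat_lit 5) (nat_lit 15) (nat_lit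 3) (nat_lit 18) (nat_lit 3) (nat_lit 217) (nat_lit 216) (nat_lit 167)) (XT.lf (nat_lit 76) (nat_lit 11261622804) (nat_lit 0) (nat_lit 27943989753) (nat_lit 304) (nat_lit 5310113453) (nat_lit 16) (nat_lit 5) (nat_lit 15) (nat_lit 5) (nat_lit 19) (nat_lit 5) (nat_lit 218) (nat_lit 216) (nat_lit 166)))) (XT.nd (nat_lit 156) (nat_lit 76) (nat_lit 0) (XT.nd (nat_lit 78) (nat_lit 152) (nat_lit 0) (XT.lf (nat_lit 76) (nat_lit 32691752153) (nat_lit 0) (nat_lit 11542655384) (nat_lit 304) (nat_lit 3831157217) (nat_lit 16) (nat_lit 5) (nat_lit 15) (nat_lit 5) (nat_lit 19) (nat_lit 5) (nat_lit 219) (nat_lit 216) (nat_lit 165)) (XT.lf (nat_lit 0) (nat_lit 5357968903) (nat_lit 228) (nat_lit 45179642369) (nat_lit 304) (nat_lit 1532328468) (nat_lit 13) (nat_lit 5) (nat_lit 16) (nat_lit 5) (nat_lit 17) (nat_lit 5) (nat_lit 220) (nat_lit 216) (nat_lit 164))) (XT.nd (nat_lit 78) (nat_lit 0) (nat_lit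 0) (XT.lf (nat_lit 0) (nat_lit 2399290014) (nat_lit 304) (nat_lit 26265840232) (nat_lit 76) (nat_lit 27794958456) (nat_lit 12) (nat_lit 5) (nat_lit 16) (nat_lit 5) (nat_lit 13) (nat_lit 5) (nat_lit 221) (nat_lit 216) (nat_lit 163)) (XT.lf (nat_lit 0) (nat_lit 6759729763) (nat_lit 304) (nat_lit 2829934115) (nat_lit 76) (nat_lit 51908805526) (nat_lit 12) (nat_lit 5) (nat_lit 16) (nat_lit 5) (nat_lit 13) (nat_lit 5) (nat_lit 222) (nat_lit 216) (nat_lit 162))))) (XT.nd (nat_lit 312) (nat_lit 152) (nat_lit 0) (XT.nd (nat_lit 156) (nat_lit 152) (nat_lit 0) (XT.nd (nat_lit 78) (nat_lit 0) (nat_lit 0) (XT.lf (nat_lit 0) (nat_lit 13430448498) (nat_lit 228) (nat_lit 41217517172) (nat_lit 76) (nat_lit 12396251818) (nat_lit 10) (nat_lit 5) (nat_lit 13) (nat_lit 5) (nat_lit 11) (nat_lit 5) (nat_lit 223) (nat_lit 216) (nat_lit 161)) (XT.lf (nat_lit 0) (nat_lit 21710188651) (nat_lit 228) (nat_lit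 14767429189) (nat_lit 76) (nat_lit 36852984622) (nat_lit 10) (nat_lit 5) (nat_lit 13) (nat_lit 5) (nat_lit 11) (nat_lit 5) (nat_lit 224) (nat_lit 216) (nat_lit 160))) (XT.nd (nat_lit 78) (nat_lit 0) (nat_lit 0) (XT.lf (nat_lit 0) (nat_lit 17175829441) (nat_lit 152) (nat_lit 14764483870) (nat_lit 228) (nat_lit 48513400281) (nat_lit 8) (nat_lit 5) (nat_lit 10) (nat_lit 5) (nat_lit 11) (nat_lit 5) (nat_lit 225) (nat_lit 216) (nat_lit 159)) (XT.lf (nat_lit 0) (nat_lit 44933648377) (nat_lit 228) (nat_lit 33422297106) (nat_lit 76) (nat_lit 10105069918) (nat_lit 8) (nat_lit 5) (nat_lit 11) (nat_lit 5) (nat_lit 9) (nat_lit 4) (nat_lit 226) (nat_lit 216) (nat_lit 158)))) (XT.nd (nat_lit 156) (nat_lit 76) (nat_lit 0) (XT.nd (nat_lit 78) (nat_lit 0) (nat_lit 0) (XT.lf (nat_lit 0) (nat_lit 225427686) (nat_lit 76) (nat_lit 60360705665) (nat_lit 152) (nat_lit 36976780825) (nat_lit 7) (nat_lit 5)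 (nat_lit 8) (nat_lit 5) (nat_lit 9) (nat_lit 4) (nat_lit 227) (nat_lit 216) (nat_lit 157)) (XT.lf (nat_lit 0) (nat_lit 42673468253) (nat_lit 76) (nat_lit 37658009711) (nat_lit 152) (nat_lit 27436892767) (nat_lit 7) (nat_lit 5) (nat_lit 8) (nat_lit 5) (nat_lit 9) (nat_lit 4) (nat_lit 228) (nat_lit 216) (nat_lit 156))) (XT.nd (nat_lit 78) (nat_lit 76) (nat_lit 0) (XT.lf (nat_lit 0) (nat_lit 91486059791) (nat_lit 76) (nat_lit 11550749061) (nat_lit 152) (nat_lit 16468127486) (nat_lit 7) (nat_lit 5) (nat_lit 8) (nat_lit 5) (nat_lit 9) (nat_lit 4) (nat_lit 229) (nat_lit 216) (nat_lit 155)) (XT.lf (nat_lit 0) (nat_lit 15204742349) (nat_lit 76) (nat_lit 115336095123) (nat_lit 76) (nat_lit 2252230474) (nat_lit 6) (nat_lit 4) (nat_lit 7) (nat_lit 5) (nat_lit 7) (nat_lit 4) (nat_lit 230) (nat_lit 216) (nat_lit 154)))))) (XT.nd (nat_lit 546) (nat_lit 152) (nat_lit 0) (XT.nd (nat_lit 234) (nat_lit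 76) (nat_lit 0) (XT.nd (nat_lit 78) (nat_lit 76) (nat_lit 0) (XT.lf (nat_lit 0) (nat_lit 14923942849) (nat_lit 152) (nat_lit 80999932025) (nat_lit 76) (nat_lit 51750580357) (nat_lit 5) (nat_lit 5) (nat_lit 7) (nat_lit 5) (nat_lit 6) (nat_lit 4) (nat_lit 231) (nat_lit 216) (nat_lit 153)) (XT.nd (nat_lit 78) (nat_lit 76) (nat_lit 0) (XT.lf (nat_lit 0) (nat_lit 34444580135) (nat_lit 152) (nat_lit 39032774470) (nat_lit 76) (nat_lit 91294825561) (nat_lit 5) (nat_lit 5) (nat_lit 7) (nat_lit 5) (nat_lit 6) (nat_lit 4) (nat_lit 232) (nat_lit 216) (nat_lit 152)) (XT.lf (nat_lit 0) (nat_lit 10129282458) (nat_lit 76) (nat_lit 47182265555) (nat_lit 152) (nat_lit 127060289656) (nat_lit 4) (nat_lit 5) (nat_lit 5) (nat_lit 5) (nat_lit 6) (nat_lit 4) (nat_lit 233) (nat_lit 216) (nat_lit 151)))) (XT.nd (nat_lit 156) (nat_lit 76) (nat_lit 0) (XT.nd (nat_lit 78) (nat_lit 0) (nat_lit 0) (XT.lf (nat_lit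 0) (nat_lit 71050535256) (nat_lit 76) (nat_lit 14597257338) (nat_lit 152) (nat_lit 120957774367) (nat_lit 4) (nat_lit 5) (nat_lit 5) (nat_lit 5) (nat_lit 6) (nat_lit 4) (nat_lit 234) (nat_lit 216) (nat_lit 150)) (XT.lf (nat_lit 0) (nat_lit 119180700535) (nat_lit 152) (nat_lit 92013352354) (nat_lit 0) (nat_lit 20838375622) (nat_lit 4) (nat_lit 5) (nat_lit 6) (nat_lit 4) (nat_lit 4) (nat_lit 4) (nat_lit 235) (nat_lit 216) (nat_lit 149))) (XT.nd (nat_lit 78) (nat_lit 76) (nat_lit 0) (XT.lf (nat_lit 0) (nat_lit 158437783387) (nat_lit 152) (nat_lit 42637047651) (nat_lit 0) (nat_lit 60094358414) (nat_lit 4) (nat_lit 5) (nat_lit 6) (nat_lit 4) (nat_lit 4) (nat_lit 4) (nat_lit 236) (nat_lit 216) (nat_lit 148)) (XT.lf (nat_lit 0) (nat_lit 15526673695) (nat_lit 76) (nat_lit 188698925963) (nat_lit 76) (nat_lit 90354544418) (nat_lit 3) (nat_lit 4) (nat_lit 4) (nat_lit 5) (nat_lit 4) (nat_lit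 4) (nat_lit 237) (nat_lit 216) (nat_lit 147))))) (XT.nd (nat_lit 312) (nat_lit 152) (nat_lit 0) (XT.nd (nat_lit 156) (nat_lit 0) (nat_lit 0) (XT.nd (nat_lit 78) (nat_lit 0) (nat_lit 0) (XT.lf (nat_lit 0) (nat_lit 87205515107) (nat_lit 76) (nat_lit 171904118901) (nat_lit 76) (nat_lit 73558905553) (nat_lit 3) (nat_lit 4) (nat_lit 4) (nat_lit 5) (nat_lit 4) (nat_lit 4) (nat_lit 238) (nat_lit 216) (nat_lit 146)) (XT.lf (nat_lit 0) (nat_lit 169635086312) (nat_lit 76) (nat_lit 152590570564) (nat_lit 76) (nat_lit 54244633910) (nat_lit 3) (nat_lit 4) (nat_lit 4) (nat_lit 5) (nat_lit 4) (nat_lit 4) (nat_lit 239) (nat_lit 216) (nat_lit 145))) (XT.nd (nat_lit 78) (nat_lit 0) (nat_lit 0) (XT.lf (nat_lit 0) (nat_lit 264428139793) (nat_lit 76) (nat_lit 130380407181) (nat_lit 76) (nat_lit 32033841565) (nat_lit 3) (nat_lit 4) (nat_lit 4) (nat_lit 5) (nat_lit 4) (nat_lit 4) (nat_lit 240) (nat_lit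 216) (nat_lit 144)) (XT.lf (nat_lit 0) (nat_lit 373439322246) (nat_lit 76) (nat_lit 104839082078) (nat_lit 76) (nat_lit 6491969538) (nat_lit 3) (nat_lit 4) (nat_lit 4) (nat_lit 5) (nat_lit 4) (nat_lit 4) (nat_lit 241) (nat_lit 216) (nat_lit 143)))) (XT.nd (nat_lit 156) (nat_lit 0) (nat_lit 0) (XT.nd (nat_lit 78) (nat_lit 76) (nat_lit 0) (XT.lf (nat_lit 0) (nat_lit 20843715027) (nat_lit 152) (nat_lit 53533600816) (nat_lit 76) (nat_lit 476868188298) (nat_lit 2) (nat_lit 5) (nat_lit 4) (nat_lit 5) (nat_lit 3) (nat_lit 4) (nat_lit 242) (nat_lit 216) (nat_lit 142)) (XT.lf (nat_lit 0) (nat_lit 13857337038) (nat_lit 76) (nat_lit 38331192597) (nat_lit 152) (nat_lit 575370990359) (nat_lit 1) (nat_lit 5) (nat_lit 2) (nat_lit 5) (nat_lit 3) (nat_lit 4) (nat_lit 243) (nat_lit 216) (nat_lit 141))) (XT.nd (nat_lit 78) (nat_lit 0) (nat_lit 0) (XT.lf (nat_lit 0) (nat_lit 91295576430) (nat_lit 152)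 (nat_lit 617790724726) (nat_lit 0) (nat_lit 5775262266) (nat_lit 1) (nat_lit 5) (nat_lit 3) (nat_lit 4) (nat_lit 1) (nat_lit 4) (nat_lit 244) (nat_lit 216) (nat_lit 140)) (XT.lf (nat_lit 0) (nat_lit 138093661157) (nat_lit 152) (nat_lit 624318431471) (nat_lit 0) (nat_lit 52573075075) (nat_lit 1) (nat_lit 5) (nat_lit 3) (nat_lit 4) (nat_lit 1) (nat_lit 4) (nat_lit 245) (nat_lit 216) (nat_lit 139))))))) (XT.nd (nat_lit 1170) (nat_lit 0) (nat_lit 0) (XT.nd (nat_lit 546) (nat_lit 0) (nat_lit 0) (XT.nd (nat_lit 234) (nat_lit 0) (nat_lit 0) (XT.nd (nat_lit 78) (nat_lit 0) (nat_lit 0) (XT.lf (nat_lit 0) (nat_lit 191911185573) (nat_lit 152) (nat_lit 631825806249) (nat_lit 0) (nat_lit 106390363040) (nat_lit 1) (nat_lit 5) (nat_lit 3) (nat_lit 4) (nat_lit 1) (nat_lit 4) (nat_lit 246) (nat_lit 216) (nat_lit 138)) (XT.nd (nat_lit 78) (nat_lit 0) (nat_lit 0) (XT.lf (nat_lit 0) (nat_lit 253801101242)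 (nat_lit 152) (nat_lit 640459732479) (nat_lit 0) (nat_lit 168280073100) (nat_lit 1) (nat_lit 5) (nat_lit 3) (nat_lit 4) (nat_lit 1) (nat_lit 4) (nat_lit 247) (nat_lit 216) (nat_lit 137)) (XT.lf (nat_lit 0) (nat_lit 324974297819) (nat_lit 152) (nat_lit 650389134805) (nat_lit 0) (nat_lit 239453090887) (nat_lit 1) (nat_lit 5) (nat_lit 3) (nat_lit 4) (nat_lit 1) (nat_lit 4) (nat_lit 248) (nat_lit 216) (nat_lit 136)))) (XT.nd (nat_lit 156) (nat_lit 0) (nat_lit 0) (XT.nd (nat_lit 78) (nat_lit 0) (nat_lit 0) (XT.lf (nat_lit 0) (nat_lit 406823294367) (nat_lit 152) (nat_lit 661808284142) (nat_lit 0) (nat_lit 321301931966) (nat_lit 1) (nat_lit 5) (nat_lit 3) (nat_lit 4) (nat_lit 1) (nat_lit 4) (nat_lit 249) (nat_lit 216) (nat_lit 135)) (XT.lf (nat_lit 0) (nat_lit 500949484297) (nat_lit 152) (nat_lit 674940598629) (nat_lit 0) (nat_lit 415427986705) (nat_lit 1) (nat_lit 5) (nat_lit 3) (nat_lit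 4) (nat_lit 1) (nat_lit 4) (nat_lit 250) (nat_lit 216) (nat_lit 134))) (XT.nd (nat_lit 78) (nat_lit 0) (nat_lit 0) (XT.lf (nat_lit 0) (nat_lit 609194466978) (nat_lit 152) (nat_lit 690043014855) (nat_lit 0) (nat_lit 523672851828) (nat_lit 1) (nat_lit 5) (nat_lit 3) (nat_lit 4) (nat_lit 1) (nat_lit 4) (nat_lit 251) (nat_lit 216) (nat_lit 133)) (XT.lf (nat_lit 0) (nat_lit 733676079026) (nat_lit 152) (nat_lit 707411014875) (nat_lit 0) (nat_lit 648154361653) (nat_lit 1) (nat_lit 5) (nat_lit 3) (nat_lit 4) (nat_lit 1) (nat_lit 4) (nat_lit 252) (nat_lit 216) (nat_lit 132))))) (XT.nd (nat_lit 312) (nat_lit 0) (nat_lit 0) (XT.nd (nat_lit 156) (nat_lit 0) (nat_lit 0) (XT.nd (nat_lit 78) (nat_lit 0) (nat_lit 0) (XT.lf (nat_lit 0) (nat_lit 876829830244) (nat_lit 152) (nat_lit 727384407385) (nat_lit 0) (nat_lit 791308023980) (nat_lit 1) (nat_lit 5) (nat_lit 3) (nat_lit 4) (nat_lit 1) (nat_lit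 4) (nat_lit 253) (nat_lit 216) (nat_lit 131)) (XT.lf (nat_lit 0) (nat_lit 1041456554893) (nat_lit 152) (nat_lit 750353976153) (nat_lit 0) (nat_lit 955934671333) (nat_lit 1) (nat_lit 5) (nat_lit 3) (nat_lit 4) (nat_lit 1) (nat_lit 4) (nat_lit 254) (nat_lit 216) (nat_lit 130))) (XT.nd (nat_lit 78) (nat_lit 0) (nat_lit 0) (XT.lf (nat_lit 0) (nat_lit 1230777210630) (nat_lit 152) (nat_lit 776769125785) (nat_lit 0) (nat_lit 1145255259856) (nat_lit 1) (nat_lit 5) (nat_lit 3) (nat_lit 4) (nat_lit 1) (nat_lit 4) (nat_lit 255) (nat_lit 216) (nat_lit 129)) (XT.lf (nat_lit 0) (nat_lit 1448495897242) (nat_lit 152) (nat_lit 807146674425) (nat_lit 0) (nat_lit 1362973888021) (nat_lit 1) (nat_lit 5) (nat_lit 3) (nat_lit 4) (nat_lit 1) (nat_lit 4) (nat_lit 256) (nat_lit 216) (nat_lit 128)))) (XT.nd (nat_lit 156) (nat_lit 0) (nat_lit 0) (XT.nd (nat_lit 78) (nat_lit 0) (nat_lit 0) (XT.lf (nat_lit 0)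 (nat_lit 1698872328161) (nat_lit 152) (nat_lit 842080965416) (nat_lit 0) (nat_lit 1613350268117) (nat_lit 1) (nat_lit 5) (nat_lit 3) (nat_lit 4) (nat_lit 1) (nat_lit 4) (nat_lit 257) (nat_lit 216) (nat_lit 127)) (XT.lf (nat_lit 0) (nat_lit 1986805172689) (nat_lit 152) (nat_lit 882255495756) (nat_lit 0) (nat_lit 1901283068451) (nat_lit 1) (nat_lit 5) (nat_lit 3) (nat_lit 4) (nat_lit 1) (nat_lit 4) (nat_lit 258) (nat_lit 216) (nat_lit 126))) (XT.nd (nat_lit 78) (nat_lit 0) (nat_lit 0) (XT.lf (nat_lit 0) (nat_lit 2317927899523) (nat_lit 152) (nat_lit 928456288865) (nat_lit 0) (nat_lit 2232405756854) (nat_lit 1) (nat_lit 5) (nat_lit 3) (nat_lit 4) (nat_lit 1) (nat_lit 4) (nat_lit 259) (nat_lit 216) (nat_lit 125)) (XT.lf (nat_lit 0) (nat_lit 2698718996796) (nat_lit 152) (nat_lit 981587273304) (nat_lit 0) (nat_lit 2613196820710) (nat_lit 1) (nat_lit 5) (nat_lit 3) (nat_lit 4) (nat_lit 1)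 (nat_lit 4) (nat_lit 260) (nat_lit 216) (nat_lit 124)))))) (XT.nd (nat_lit 546) (nat_lit 0) (nat_lit 0) (XT.nd (nat_lit 234) (nat_lit 0) (nat_lit 0) (XT.nd (nat_lit 78) (nat_lit 0) (nat_lit 0) (XT.lf (nat_lit 0) (nat_lit 3136628725107) (nat_lit 152) (nat_lit 1042687968333) (nat_lit 0) (nat_lit 3051106519963) (nat_lit 1) (nat_lit 5) (nat_lit 3) (nat_lit 4) (nat_lit 1) (nat_lit 4) (nat_lit 261) (nat_lit 216) (nat_lit 123)) (XT.nd (nat_lit 78) (nat_lit 0) (nat_lit 0) (XT.lf (nat_lit 0) (nat_lit 3640224883489) (nat_lit 152) (nat_lit 1112953822334) (nat_lit 0) (nat_lit 3554702653077) (nat_lit 1) (nat_lit 5) (nat_lit 3) (nat_lit 4) (nat_lit 1) (nat_lit 4) (nat_lit 262) (nat_lit 216) (nat_lit 122)) (XT.lf (nat_lit 0) (nat_lit 4219360440257) (nat_lit 152) (nat_lit 1193759602014) (nat_lit 0) (nat_lit 4133838187873) (nat_lit 1) (nat_lit 5) (nat_lit 3) (nat_lit 4) (nat_lit 1) (nat_lit 4) (nat_lit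 263) (nat_lit 216) (nat_lit 121)))) (XT.nd (nat_lit 156) (nat_lit 0) (nat_lit 0) (XT.nd (nat_lit 78) (nat_lit 0) (nat_lit 0) (XT.lf (nat_lit 0) (nat_lit 4885366308480) (nat_lit 152) (nat_lit 1286686290021) (nat_lit 0) (nat_lit 4799844036989) (nat_lit 1) (nat_lit 5) (nat_lit 3) (nat_lit 4) (nat_lit 1) (nat_lit 4) (nat_lit 264) (nat_lit 216) (nat_lit 120)) (XT.lf (nat_lit 0) (nat_lit 5651273037752) (nat_lit 152) (nat_lit 1393552017206) (nat_lit 0) (nat_lit 5565750749646) (nat_lit 1) (nat_lit 5) (nat_lit 3) (nat_lit 4) (nat_lit 1) (nat_lit 4) (nat_lit 265) (nat_lit 216) (nat_lit 119))) (XT.nd (nat_lit 78) (nat_lit 0) (nat_lit 0) (XT.lf (nat_lit 0) (nat_lit 6532065759732) (nat_lit 152) (nat_lit 1516447634753) (nat_lit 0) (nat_lit 6446543457180) (nat_lit 1) (nat_lit 5) (nat_lit 3) (nat_lit 4) (nat_lit 1) (nat_lit 4) (nat_lit 266) (nat_lit 216) (nat_lit 118)) (XT.lf (nat_lit 0) (nat_lit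 7544977375505) (nat_lit 152) (nat_lit 1657777622136) (nat_lit 0) (nat_lit 7459455060390) (nat_lit 1) (nat_lit 5) (nat_lit 3) (nat_lit 4) (nat_lit 1) (nat_lit 4) (nat_lit 267) (nat_lit 216) (nat_lit 117))))) (XT.nd (nat_lit 27456) (nat_lit 0) (nat_lit 836) (XT.nd (nat_lit 27300) (nat_lit 0) (nat_lit 1064) (XT.nd (nat_lit 1092) (nat_lit 0) (nat_lit 0) (XT.lf (nat_lit 0) (nat_lit 8709825721029) (nat_lit 152) (nat_lit 1820307131283) (nat_lit 0) (nat_lit 8624303394990) (nat_lit 1) (nat_lit 5) (nat_lit 3) (nat_lit 4) (nat_lit 1) (nat_lit 4) (nat_lit 268) (nat_lit 216) (nat_lit 116)) (XT.lf (nat_lit 0) (nat_lit 62968938648446) (nat_lit 152) (nat_lit 9391001441199) (nat_lit 0) (nat_lit 62883416259872) (nat_lit 1) (nat_lit 5) (nat_lit 3) (nat_lit 4) (nat_lit 1) (nat_lit 4) (nat_lit 282) (nat_lit 216) (nat_lit 102))) (XT.nd (nat_lit 78) (nat_lit 0) (nat_lit 0) (XT.lf (nat_lit 0) (nat_lit 9409435163)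 (nat_lit 0) (nat_lit 9409435163) (nat_lit 228) (nat_lit 3312476000) (nat_lit 15) (nat_lit 5) (nat_lit 15) (nat_lit 3) (nat_lit 18) (nat_lit 3) (nat_lit 217) (nat_lit 217) (nat_lit 166)) (XT.lf (nat_lit 0) (nat_lit 39864979278) (nat_lit 0) (nat_lit 622733269) (nat_lit 228) (nat_lit 7090196048) (nat_lit 15) (nat_lit 5) (nat_lit 15) (nat_lit 3) (nat_lit 18) (nat_lit 3) (nat_lit 218) (nat_lit 217) (nat_lit 165)))) (XT.nd (nat_lit 156) (nat_lit 228) (nat_lit 0) (XT.nd (nat_lit 78) (nat_lit 0) (nat_lit 0) (XT.lf (nat_lit 76) (nat_lit 12990049941) (nat_lit 0) (nat_lit 32148984647) (nat_lit 304) (nat_lit 6045368045) (nat_lit 16) (nat_lit 5) (nat_lit 15) (nat_lit 5) (nat_lit 19) (nat_lit 5) (nat_lit 219) (nat_lit 217) (nat_lit 164)) (XT.lf (nat_lit 76) (nat_lit 37629587773) (nat_lit 0) (nat_lit 13285702762) (nat_lit 304) (nat_lit 4352559124) (nat_lit 16) (nat_lit 5) (nat_lit 15) (nat_lit 5)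 (nat_lit 19) (nat_lit 5) (nat_lit 220) (nat_lit 217) (nat_lit 163))) (XT.nd (nat_lit 78) (nat_lit 76) (nat_lit 0) (XT.lf (nat_lit 0) (nat_lit 6201855346) (nat_lit 228) (nat_lit 51957400545) (nat_lit 304) (nat_lit 1714423043) (nat_lit 13) (nat_lit 5) (nat_lit 16) (nat_lit 5) (nat_lit 17) (nat_lit 5) (nat_lit 221) (nat_lit 217) (nat_lit 162)) (XT.lf (nat_lit 0) (nat_lit 2797012422) (nat_lit 304) (nat_lit 30166615871) (nat_lit 76) (nat_lit 31959344686) (nat_lit 12) (nat_lit 5) (nat_lit 16) (nat_lit 5) (nat_lit 13) (nat_lit 5) (nat_lit 222) (nat_lit 217) (nat_lit 161))))))))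
noncomputable def xc44 : XT := (XT.nd (nat_lit 2262) (nat_lit 0) (nat_lit 0) (XT.nd (nat_lit 1092) (nat_lit 228) (nat_lit 0) (XT.nd (nat_lit 546) (nat_lit 228) (nat_lit 0) (XT.nd (nat_lit 234) (nat_lit 228) (nat_lit 0) (XT.nd (nat_lit 78) (nat_lit 152) (nat_lit 0) (XT.lf (nat_lit 0) (nat_lit 7806583929) (nat_lit 304) (nat_lit 3220423888) (nat_lit 76) (nat_lit 59690902409) (nat_lit 12) (nat_lit 5) (nat_lit 16) (nat_lit 5) (nat_lit 13) (nat_lit 5) (nat_lit 223) (nat_lit 217) (nat_lit 160)) (XT.nd (nat_lit 78) (nat_lit 0) (nat_lit 0) (XT.lf (nat_lit 0) (nat_lit 15475067553) (nat_lit 228) (nat_lit 47362957672) (nat_lit 76) (nat_lit 14257973308) (nat_lit 10) (nat_lit 5) (nat_lit 13) (nat_lit 5) (nat_lit 11) (nat_lit 5) (nat_lit 224) (nat_lit 217) (nat_lit 159)) (XT.lf (nat_lit 0) (nat_lit 24992848932) (nat_lit 228) (nat_lit 16950206979) (nat_lit 76) (nat_lit 42382918157) (nat_lit 10) (nat_lit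 5) (nat_lit 13) (nat_lit 5) (nat_lit 11) (nat_lit 5) (nat_lit 225) (nat_lit 217) (nat_lit 158)))) (XT.nd (nat_lit 156) (nat_lit 76) (nat_lit 0) (XT.nd (nat_lit 78) (nat_lit 0) (nat_lit 0) (XT.lf (nat_lit 0) (nat_lit 19783070601) (nat_lit 152) (nat_lit 16972291297) (nat_lit 228) (nat_lit 55762548524) (nat_lit 8) (nat_lit 5) (nat_lit 10) (nat_lit 5) (nat_lit 11) (nat_lit 5) (nat_lit 226) (nat_lit 217) (nat_lit 157)) (XT.lf (nat_lit 0) (nat_lit 51694813773) (nat_lit 228) (nat_lit 38405691514) (nat_lit 76) (nat_lit 11626268641) (nat_lit 8) (nat_lit 5) (nat_lit 11) (nat_lit 5) (nat_lit 9) (nat_lit 4) (nat_lit 227) (nat_lit 217) (nat_lit 156))) (XT.nd (nat_lit 78) (nat_lit 0) (nat_lit 0) (XT.lf (nat_lit 0) (nat_lit 287830626) (nat_lit 76) (nat_lit 69405770129) (nat_lit 152) (nat_lit 42500621863) (nat_lit 7) (nat_lit 5) (nat_lit 8) (nat_lit 5) (nat_lit 9) (nat_lit 4) (nat_lit 228) (nat_lit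 217) (nat_lit 155)) (XT.lf (nat_lit 0) (nat_lit 49099348306) (nat_lit 76) (nat_lit 43298849093) (nat_lit 152) (nat_lit 31532708346) (nat_lit 7) (nat_lit 5) (nat_lit 8) (nat_lit 5) (nat_lit 9) (nat_lit 4) (nat_lit 229) (nat_lit 217) (nat_lit 154))))) (XT.nd (nat_lit 234) (nat_lit 76) (nat_lit 0) (XT.nd (nat_lit 78) (nat_lit 152) (nat_lit 0) (XT.lf (nat_lit 0) (nat_lit 105230585990) (nat_lit 76) (nat_lit 13276524833) (nat_lit 152) (nat_lit 18921200230) (nat_lit 7) (nat_lit 5) (nat_lit 8) (nat_lit 5) (nat_lit 9) (nat_lit 4) (nat_lit 230) (nat_lit 217) (nat_lit 153)) (XT.nd (nat_lit 78) (nat_lit 76) (nat_lit 0) (XT.lf (nat_lit 0) (nat_lit 17508076312) (nat_lit 76) (nat_lit 132627922432) (nat_lit 76) (nat_lit 2573794795) (nat_lit 6) (nat_lit 4) (nat_lit 7) (nat_lit 5) (nat_lit 7) (nat_lit 4) (nat_lit 231) (nat_lit 217) (nat_lit 152)) (XT.lf (nat_lit 0) (nat_lit 17175422763) (nat_lit 152)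 (nat_lit 93128892704) (nat_lit 76) (nat_lit 59519277042) (nat_lit 5) (nat_lit 5) (nat_lit 7) (nat_lit 5) (nat_lit 6) (nat_lit 4) (nat_lit 232) (nat_lit 217) (nat_lit 151)))) (XT.nd (nat_lit 156) (nat_lit 0) (nat_lit 0) (XT.nd (nat_lit 78) (nat_lit 76) (nat_lit 0) (XT.lf (nat_lit 0) (nat_lit 39622474536) (nat_lit 152) (nat_lit 44869404445) (nat_lit 76) (nat_lit 104994362118) (nat_lit 5) (nat_lit 5) (nat_lit 7) (nat_lit 5) (nat_lit 6) (nat_lit 4) (nat_lit 233) (nat_lit 217) (nat_lit 150)) (XT.lf (nat_lit 0) (nat_lit 11666129831) (nat_lit 76) (nat_lit 54252618707) (nat_lit 152) (nat_lit 146107220634) (nat_lit 4) (nat_lit 5) (nat_lit 5) (nat_lit 5) (nat_lit 6) (nat_lit 4) (nat_lit 234) (nat_lit 217) (nat_lit 149))) (XT.nd (nat_lit 78) (nat_lit 0) (nat_lit 0) (XT.lf (nat_lit 0) (nat_lit 81723293809) (nat_lit 76) (nat_lit 16780770563) (nat_lit 152) (nat_lit 139090907939) (nat_lit 4) (nat_lit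 5) (nat_lit 5) (nat_lit 5) (nat_lit 6) (nat_lit 4) (nat_lit 235) (nat_lit 217) (nat_lit 148)) (XT.lf (nat_lit 0) (nat_lit 137065939927) (nat_lit 152) (nat_lit 105801132259) (nat_lit 0) (nat_lit 23968944577) (nat_lit 4) (nat_lit 5) (nat_lit 6) (nat_lit 4) (nat_lit 4) (nat_lit 4) (nat_lit 236) (nat_lit 217) (nat_lit 147)))))) (XT.nd (nat_lit 546) (nat_lit 76) (nat_lit 0) (XT.nd (nat_lit 234) (nat_lit 76) (nat_lit 0) (XT.nd (nat_lit 78) (nat_lit 76) (nat_lit 0) (XT.lf (nat_lit 0) (nat_lit 182210524209) (nat_lit 152) (nat_lit 49020237018) (nat_lit 0) (nat_lit 69112697057) (nat_lit 4) (nat_lit 5) (nat_lit 6) (nat_lit 4) (nat_lit 4) (nat_lit 4) (nat_lit 237) (nat_lit 217) (nat_lit 146)) (XT.nd (nat_lit 78) (nat_lit 0) (nat_lit 0) (XT.lf (nat_lit 0) (nat_lit 17867480359) (nat_lit 76) (nat_lit 216998598801) (nat_lit 76) (nat_lit 103900048343) (nat_lit 3) (nat_lit 4) (nat_lit 4) (nat_lit 5)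 (nat_lit 4) (nat_lit 4) (nat_lit 238) (nat_lit 217) (nat_lit 145)) (XT.lf (nat_lit 0) (nat_lit 100296608120) (nat_lit 76) (nat_lit 197685244513) (nat_lit 76) (nat_lit 84586065092) (nat_lit 3) (nat_lit 4) (nat_lit 4) (nat_lit 5) (nat_lit 4) (nat_lit 4) (nat_lit 239) (nat_lit 217) (nat_lit 144)))) (XT.nd (nat_lit 156) (nat_lit 76) (nat_lit 0) (XT.nd (nat_lit 78) (nat_lit 0) (nat_lit 0) (XT.lf (nat_lit 0) (nat_lit 195089275996) (nat_lit 76) (nat_lit 175475249868) (nat_lit 76) (nat_lit 62375523524) (nat_lit 3) (nat_lit 4) (nat_lit 4) (nat_lit 5) (nat_lit 4) (nat_lit 4) (nat_lit 240) (nat_lit 217) (nat_lit 143)) (XT.lf (nat_lit 0) (nat_lit 304100123142) (nat_lit 76) (nat_lit 149934071493) (nat_lit 76) (nat_lit 36833869563) (nat_lit 3) (nat_lit 4) (nat_lit 4) (nat_lit 5) (nat_lit 4) (nat_lit 4) (nat_lit 241) (nat_lit 217) (nat_lit 142))) (XT.nd (nat_lit 78) (nat_lit 76) (nat_lit 0) (XT.lf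 (nat_lit 0) (nat_lit 429461970479) (nat_lit 76) (nat_lit 120561990680) (nat_lit 76) (nat_lit 7461375197) (nat_lit 3) (nat_lit 4) (nat_lit 4) (nat_lit 5) (nat_lit 4) (nat_lit 4) (nat_lit 242) (nat_lit 217) (nat_lit 141)) (XT.lf (nat_lit 0) (nat_lit 23973749641) (nat_lit 152) (nat_lit 61557413364) (nat_lit 76) (nat_lit 548400626886) (nat_lit 2) (nat_lit 5) (nat_lit 4) (nat_lit 5) (nat_lit 3) (nat_lit 4) (nat_lit 243) (nat_lit 217) (nat_lit 140))))) (XT.nd (nat_lit 312) (nat_lit 0) (nat_lit 0) (XT.nd (nat_lit 156) (nat_lit 0) (nat_lit 0) (XT.nd (nat_lit 78) (nat_lit 0) (nat_lit 0) (XT.lf (nat_lit 0) (nat_lit 15941882096) (nat_lit 76) (nat_lit 44078196924) (nat_lit 152) (nat_lit 661672862597) (nat_lit 1) (nat_lit 5) (nat_lit 2) (nat_lit 5) (nat_lit 3) (nat_lit 4) (nat_lit 244) (nat_lit 217) (nat_lit 139)) (XT.lf (nat_lit 0) (nat_lit 104992852624) (nat_lit 152) (nat_lit 710453820279) (nat_lit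 0) (nat_lit 6643670261) (nat_lit 1) (nat_lit 5) (nat_lit 3) (nat_lit 4) (nat_lit 1) (nat_lit 4) (nat_lit 245) (nat_lit 217) (nat_lit 138))) (XT.nd (nat_lit 78) (nat_lit 0) (nat_lit 0) (XT.lf (nat_lit 0) (nat_lit 158810266617) (nat_lit 152) (nat_lit 717961402143) (nat_lit 0) (nat_lit 60460878645) (nat_lit 1) (nat_lit 5) (nat_lit 3) (nat_lit 4) (nat_lit 1) (nat_lit 4) (nat_lit 246) (nat_lit 217) (nat_lit 137)) (XT.lf (nat_lit 0) (nat_lit 220700086266) (nat_lit 152) (nat_lit 726595508448) (nat_lit 0) (nat_lit 122350519504) (nat_lit 1) (nat_lit 5) (nat_lit 3) (nat_lit 4) (nat_lit 1) (nat_lit 4) (nat_lit 247) (nat_lit 217) (nat_lit 136)))) (XT.nd (nat_lit 156) (nat_lit 0) (nat_lit 0) (XT.nd (nat_lit 78) (nat_lit 0) (nat_lit 0) (XT.lf (nat_lit 0) (nat_lit 291873199347) (nat_lit 152) (nat_lit 736525067361) (nat_lit 0) (nat_lit 193523477116) (nat_lit 1) (nat_lit 5) (nat_lit 3) (nat_lit 4)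 (nat_lit 1) (nat_lit 4) (nat_lit 248) (nat_lit 217) (nat_lit 135)) (XT.lf (nat_lit 0) (nat_lit 373722123291) (nat_lit 152) (nat_lit 747944352861) (nat_lit 0) (nat_lit 275372265869) (nat_lit 1) (nat_lit 5) (nat_lit 3) (nat_lit 4) (nat_lit 1) (nat_lit 4) (nat_lit 249) (nat_lit 217) (nat_lit 134))) (XT.nd (nat_lit 78) (nat_lit 0) (nat_lit 0) (XT.lf (nat_lit 0) (nat_lit 467848250087) (nat_lit 152) (nat_lit 761076785750) (nat_lit 0) (nat_lit 369498275107) (nat_lit 1) (nat_lit 5) (nat_lit 3) (nat_lit 4) (nat_lit 1) (nat_lit 4) (nat_lit 250) (nat_lit 217) (nat_lit 133)) (XT.lf (nat_lit 0) (nat_lit 576093177868) (nat_lit 152) (nat_lit 776179304934) (nat_lit 0) (nat_lit 477743100664) (nat_lit 1) (nat_lit 5) (nat_lit 3) (nat_lit 4) (nat_lit 1) (nat_lit 4) (nat_lit 251) (nat_lit 217) (nat_lit 132))))))) (XT.nd (nat_lit 1170) (nat_lit 0) (nat_lit 0) (XT.nd (nat_lit 546) (nat_lit 0) (nat_lit 0)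 (XT.nd (nat_lit 234) (nat_lit 0) (nat_lit 0) (XT.nd (nat_lit 78) (nat_lit 0) (nat_lit 0) (XT.lf (nat_lit 0) (nat_lit 700574742178) (nat_lit 152) (nat_lit 793547394483) (nat_lit 0) (nat_lit 602224576083) (nat_lit 1) (nat_lit 5) (nat_lit 3) (nat_lit 4) (nat_lit 1) (nat_lit 4) (nat_lit 252) (nat_lit 217) (nat_lit 131)) (XT.nd (nat_lit 78) (nat_lit 0) (nat_lit 0) (XT.lf (nat_lit 0) (nat_lit 843728451883) (nat_lit 152) (nat_lit 813520864845) (nat_lit 0) (nat_lit 745378208493) (nat_lit 1) (nat_lit 5) (nat_lit 3) (nat_lit 4) (nat_lit 1) (nat_lit 4) (nat_lit 253) (nat_lit 217) (nat_lit 130)) (XT.lf (nat_lit 0) (nat_lit 1008355140435) (nat_lit 152) (nat_lit 836490501310) (nat_lit 0) (nat_lit 910004829831) (nat_lit 1) (nat_lit 5) (nat_lit 3) (nat_lit 4) (nat_lit 1) (nat_lit 4) (nat_lit 254) (nat_lit 217) (nat_lit 129)))) (XT.nd (nat_lit 156) (nat_lit 0) (nat_lit 0) (XT.nd (nat_lit 78) (nat_lit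 0) (nat_lit 0) (XT.lf (nat_lit 0) (nat_lit 1197675764783) (nat_lit 152) (nat_lit 862905709808) (nat_lit 0) (nat_lit 1099325395732) (nat_lit 1) (nat_lit 5) (nat_lit 3) (nat_lit 4) (nat_lit 1) (nat_lit 4) (nat_lit 255) (nat_lit 217) (nat_lit 128)) (XT.lf (nat_lit 0) (nat_lit 1415394424100) (nat_lit 152) (nat_lit 893283309637) (nat_lit 0) (nat_lit 1317044004226) (nat_lit 1) (nat_lit 5) (nat_lit 3) (nat_lit 4) (nat_lit 1) (nat_lit 4) (nat_lit 256) (nat_lit 217) (nat_lit 127))) (XT.nd (nat_lit 78) (nat_lit 0) (nat_lit 0) (XT.lf (nat_lit 0) (nat_lit 1665770831285) (nat_lit 152) (nat_lit 928217645140) (nat_lit 0) (nat_lit 1567420367216) (nat_lit 1) (nat_lit 5) (nat_lit 3) (nat_lit 4) (nat_lit 1) (nat_lit 4) (nat_lit 257) (nat_lit 217) (nat_lit 126)) (XT.lf (nat_lit 0) (nat_lit 1953703655174) (nat_lit 152) (nat_lit 968392214186) (nat_lit 0) (nat_lit 1855353152675) (nat_lit 1) (nat_lit 5)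 (nat_lit 3) (nat_lit 4) (nat_lit 1) (nat_lit 4) (nat_lit 258) (nat_lit 217) (nat_lit 125))))) (XT.nd (nat_lit 312) (nat_lit 0) (nat_lit 0) (XT.nd (nat_lit 156) (nat_lit 0) (nat_lit 0) (XT.nd (nat_lit 78) (nat_lit 0) (nat_lit 0) (XT.lf (nat_lit 0) (nat_lit 2284826364061) (nat_lit 152) (nat_lit 1014593040953) (nat_lit 0) (nat_lit 2186475828145) (nat_lit 1) (nat_lit 5) (nat_lit 3) (nat_lit 4) (nat_lit 1) (nat_lit 4) (nat_lit 259) (nat_lit 217) (nat_lit 124)) (XT.lf (nat_lit 0) (nat_lit 2665617445728) (nat_lit 152) (nat_lit 1067724054659) (nat_lit 0) (nat_lit 2567266880754) (nat_lit 1) (nat_lit 5) (nat_lit 3) (nat_lit 4) (nat_lit 1) (nat_lit 4) (nat_lit 260) (nat_lit 217) (nat_lit 123))) (XT.nd (nat_lit 78) (nat_lit 0) (nat_lit 0) (XT.lf (nat_lit 0) (nat_lit 3103527160469) (nat_lit 152) (nat_lit 1128824775137) (nat_lit 0) (nat_lit 3005176570227) (nat_lit 1) (nat_lit 5) (nat_lit 3) (nat_lit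 4) (nat_lit 1) (nat_lit 4) (nat_lit 261) (nat_lit 217) (nat_lit 122)) (XT.lf (nat_lit 0) (nat_lit 3607123307050) (nat_lit 152) (nat_lit 1199090651268) (nat_lit 0) (nat_lit 3508772694836) (nat_lit 1) (nat_lit 5) (nat_lit 3) (nat_lit 4) (nat_lit 1) (nat_lit 4) (nat_lit 262) (nat_lit 217) (nat_lit 121)))) (XT.nd (nat_lit 156) (nat_lit 0) (nat_lit 0) (XT.nd (nat_lit 78) (nat_lit 0) (nat_lit 0) (XT.lf (nat_lit 0) (nat_lit 4186258853558) (nat_lit 152) (nat_lit 1279896450192) (nat_lit 0) (nat_lit 4087908222237) (nat_lit 1) (nat_lit 5) (nat_lit 3) (nat_lit 4) (nat_lit 1) (nat_lit 4) (nat_lit 263) (nat_lit 217) (nat_lit 120)) (XT.lf (nat_lit 0) (nat_lit 4852264712857) (nat_lit 152) (nat_lit 1372823154933) (nat_lit 0) (nat_lit 4753914064922) (nat_lit 1) (nat_lit 5) (nat_lit 3) (nat_lit 4) (nat_lit 1) (nat_lit 4) (nat_lit 264) (nat_lit 217) (nat_lit 119))) (XT.nd (nat_lit 78) (nat_lit 0) (nat_lit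 0) (XT.lf (nat_lit 0) (nat_lit 5618171434370) (nat_lit 152) (nat_lit 1479688896669) (nat_lit 0) (nat_lit 5519820771988) (nat_lit 1) (nat_lit 5) (nat_lit 3) (nat_lit 4) (nat_lit 1) (nat_lit 4) (nat_lit 265) (nat_lit 217) (nat_lit 118)) (XT.lf (nat_lit 0) (nat_lit 6498964149604) (nat_lit 152) (nat_lit 1602584526869) (nat_lit 0) (nat_lit 6400613474659) (nat_lit 1) (nat_lit 5) (nat_lit 3) (nat_lit 4) (nat_lit 1) (nat_lit 4) (nat_lit 266) (nat_lit 217) (nat_lit 117)))))) (XT.nd (nat_lit 27924) (nat_lit 0) (nat_lit 456) (XT.nd (nat_lit 27612) (nat_lit 0) (nat_lit 836) (XT.nd (nat_lit 27456) (nat_lit 0) (nat_lit 1064) (XT.lf (nat_lit 0) (nat_lit 7511875759510) (nat_lit 152) (nat_lit 1743914525255) (nat_lit 0) (nat_lit 7413525073641) (nat_lit 1) (nat_lit 5) (nat_lit 3) (nat_lit 4) (nat_lit 1) (nat_lit 4) (nat_lit 267) (nat_lit 217) (nat_lit 116)) (XT.nd (nat_lit 78) (nat_lit 0) (nat_lit 0)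 (XT.lf (nat_lit 0) (nat_lit 10833859178) (nat_lit 0) (nat_lit 10833859178) (nat_lit 228) (nat_lit 3779029668) (nat_lit 15) (nat_lit 5) (nat_lit 15) (nat_lit 3) (nat_lit 18) (nat_lit 3) (nat_lit 218) (nat_lit 218) (nat_lit 164)) (XT.lf (nat_lit 0) (nat_lit 45867350066) (nat_lit 0) (nat_lit 738767156) (nat_lit 228) (nat_lit 8100998965) (nat_lit 15) (nat_lit 5) (nat_lit 15) (nat_lit 3) (nat_lit 18) (nat_lit 3) (nat_lit 219) (nat_lit 218) (nat_lit 163)))) (XT.nd (nat_lit 156) (nat_lit 228) (nat_lit 0) (XT.nd (nat_lit 78) (nat_lit 0) (nat_lit 0) (XT.lf (nat_lit 76) (nat_lit 14968185951) (nat_lit 0) (nat_lit 36981461970) (nat_lit 304) (nat_lit 6905850055) (nat_lit 16) (nat_lit 5) (nat_lit 15) (nat_lit 5) (nat_lit 19) (nat_lit 5) (nat_lit 220) (nat_lit 218) (nat_lit 162)) (XT.lf (nat_lit 76) (nat_lit 43299789869) (nat_lit 0) (nat_lit 15287366546) (nat_lit 304) (nat_lit 4965161953) (nat_lit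 16) (nat_lit 5) (nat_lit 15) (nat_lit 5) (nat_lit 19) (nat_lit 5) (nat_lit 221) (nat_lit 218) (nat_lit 161))) (XT.nd (nat_lit 78) (nat_lit 76) (nat_lit 0) (XT.lf (nat_lit 0) (nat_lit 7162523898) (nat_lit 228) (nat_lit 59751624480) (nat_lit 304) (nat_lit 1935477089) (nat_lit 13) (nat_lit 5) (nat_lit 16) (nat_lit 5) (nat_lit 17) (nat_lit 5) (nat_lit 222) (nat_lit 218) (nat_lit 160)) (XT.lf (nat_lit 0) (nat_lit 3245168374) (nat_lit 304) (nat_lit 34662042736) (nat_lit 76) (nat_lit 36749573392) (nat_lit 12) (nat_lit 5) (nat_lit 16) (nat_lit 5) (nat_lit 13) (nat_lit 5) (nat_lit 223) (nat_lit 218) (nat_lit 159))))) (XT.nd (nat_lit 312) (nat_lit 76) (nat_lit 0) (XT.nd (nat_lit 156) (nat_lit 152) (nat_lit 0) (XT.nd (nat_lit 78) (nat_lit 152) (nat_lit 0) (XT.lf (nat_lit 0) (nat_lit 9002444638) (nat_lit 304) (nat_lit 3677778327) (nat_lit 76) (nat_lit 68641343861) (nat_lit 12) (nat_lit 5) (nat_lit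 16) (nat_lit 5) (nat_lit 13) (nat_lit 5) (nat_lit 224) (nat_lit 218) (nat_lit 158)) (XT.lf (nat_lit 0) (nat_lit 17819051149) (nat_lit 228) (nat_lit 54439282551) (nat_lit 76) (nat_lit 16398396122) (nat_lit 10) (nat_lit 5) (nat_lit 13) (nat_lit 5) (nat_lit 11) (nat_lit 5) (nat_lit 225) (nat_lit 218) (nat_lit 157))) (XT.nd (nat_lit 78) (nat_lit 152) (nat_lit 0) (XT.lf (nat_lit 0) (nat_lit 28761535805) (nat_lit 228) (nat_lit 19468286920) (nat_lit 76) (nat_lit 48741857461) (nat_lit 10) (nat_lit 5) (nat_lit 13) (nat_lit 5) (nat_lit 11) (nat_lit 5) (nat_lit 226) (nat_lit 218) (nat_lit 156)) (XT.lf (nat_lit 0) (nat_lit 22773870883) (nat_lit 152) (nat_lit 19512943949) (nat_lit 228) (nat_lit 64105863280) (nat_lit 8) (nat_lit 5) (nat_lit 10) (nat_lit 5) (nat_lit 11) (nat_lit 5) (nat_lit 227) (nat_lit 218) (nat_lit 155)))) (XT.nd (nat_lit 156) (nat_lit 0) (nat_lit 0) (XT.nd (nat_lit 78) (nat_lit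 76) (nat_lit 0) (XT.lf (nat_lit 0) (nat_lit 59465004187) (nat_lit 228) (nat_lit 44143898619) (nat_lit 76) (nat_lit 13374321024) (nat_lit 8) (nat_lit 5) (nat_lit 11) (nat_lit 5) (nat_lit 9) (nat_lit 4) (nat_lit 228) (nat_lit 218) (nat_lit 154)) (XT.lf (nat_lit 0) (nat_lit 352622451) (nat_lit 76) (nat_lit 79809799061) (nat_lit 152) (nat_lit 48858568764) (nat_lit 7) (nat_lit 5) (nat_lit 8) (nat_lit 5) (nat_lit 9) (nat_lit 4) (nat_lit 229) (nat_lit 218) (nat_lit 153))) (XT.nd (nat_lit 78) (nat_lit 0) (nat_lit 0) (XT.lf (nat_lit 0) (nat_lit 56483048144) (nat_lit 76) (nat_lit 49787731598) (nat_lit 152) (nat_lit 36247704704) (nat_lit 7) (nat_lit 5) (nat_lit 8) (nat_lit 5) (nat_lit 9) (nat_lit 4) (nat_lit 230) (nat_lit 218) (nat_lit 152)) (XT.lf (nat_lit 0) (nat_lit 121031519620) (nat_lit 76) (nat_lit 15262834116) (nat_lit 152) (nat_lit 21746415139) (nat_lit 7) (nat_lit 5) (nat_lit 8) (nat_lit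 5) (nat_lit 9) (nat_lit 4) (nat_lit 231) (nat_lit 218) (nat_lit 151))))))))
noncomputable def xc45 : XT := (XT.nd (nat_lit 2340) (nat_lit 0) (nat_lit 0) (XT.nd (nat_lit 1170) (nat_lit 0) (nat_lit 0) (XT.nd (nat_lit 546) (nat_lit 228) (nat_lit 0) (XT.nd (nat_lit 234) (nat_lit 76) (nat_lit 0) (XT.nd (nat_lit 78) (nat_lit 76) (nat_lit 0) (XT.lf (nat_lit 0) (nat_lit 20151393702) (nat_lit 76) (nat_lit 152515617822) (nat_lit 76) (nat_lit 2947561367) (nat_lit 6) (nat_lit 4) (nat_lit 7) (nat_lit 5) (nat_lit 7) (nat_lit 4) (nat_lit 232) (nat_lit 218) (nat_lit 150)) (XT.nd (nat_lit 78) (nat_lit 0) (nat_lit 0) (XT.lf (nat_lit 0) (nat_lit 19761481726) (nat_lit 152) (nat_lit 107082325570) (nat_lit 76) (nat_lit 68451788358) (nat_lit 5) (nat_lit 5) (nat_lit 7) (nat_lit 5) (nat_lit 6) (nat_lit 4) (nat_lit 233) (nat_lit 218) (nat_lit 149)) (XT.lf (nat_lit 0) (nat_lit 45574320106) (nat_lit 152) (nat_lit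 51585988122) (nat_lit 76) (nat_lit 120747533618) (nat_lit 5) (nat_lit 5) (nat_lit 7) (nat_lit 5) (nat_lit 6) (nat_lit 4) (nat_lit 234) (nat_lit 218) (nat_lit 148)))) (XT.nd (nat_lit 156) (nat_lit 0) (nat_lit 0) (XT.nd (nat_lit 78) (nat_lit 0) (nat_lit 0) (XT.lf (nat_lit 0) (nat_lit 13429247797) (nat_lit 76) (nat_lit 62385228577) (nat_lit 152) (nat_lit 168014144961) (nat_lit 4) (nat_lit 5) (nat_lit 5) (nat_lit 5) (nat_lit 6) (nat_lit 4) (nat_lit 235) (nat_lit 218) (nat_lit 147)) (XT.lf (nat_lit 0) (nat_lit 93993264830) (nat_lit 76) (nat_lit 19293292291) (nat_lit 152) (nat_lit 159946579984) (nat_lit 4) (nat_lit 5) (nat_lit 5) (nat_lit 5) (nat_lit 6) (nat_lit 4) (nat_lit 236) (nat_lit 218) (nat_lit 146))) (XT.nd (nat_lit 78) (nat_lit 0) (nat_lit 0) (XT.lf (nat_lit 0) (nat_lit 157631981623) (nat_lit 152) (nat_lit 121660547505) (nat_lit 0) (nat_lit 27567925290) (nat_lit 4) (nat_lit 5)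 (nat_lit 6) (nat_lit 4) (nat_lit 4) (nat_lit 4) (nat_lit 237) (nat_lit 218) (nat_lit 145)) (XT.lf (nat_lit 0) (nat_lit 209547451282) (nat_lit 152) (nat_lit 56363920751) (nat_lit 0) (nat_lit 79482765986) (nat_lit 4) (nat_lit 5) (nat_lit 6) (nat_lit 4) (nat_lit 4) (nat_lit 4) (nat_lit 238) (nat_lit 218) (nat_lit 144))))) (XT.nd (nat_lit 312) (nat_lit 152) (nat_lit 0) (XT.nd (nat_lit 156) (nat_lit 0) (nat_lit 0) (XT.nd (nat_lit 78) (nat_lit 0) (nat_lit 0) (XT.lf (nat_lit 0) (nat_lit 20556529150) (nat_lit 76) (nat_lit 249544482340) (nat_lit 76) (nat_lit 119479250121) (nat_lit 3) (nat_lit 4) (nat_lit 4) (nat_lit 5) (nat_lit 4) (nat_lit 4) (nat_lit 239) (nat_lit 218) (nat_lit 143)) (XT.lf (nat_lit 0) (nat_lit 115348861718) (nat_lit 76) (nat_lit 227334634424) (nat_lit 76) (nat_lit 97268926619) (nat_lit 3) (nat_lit 4) (nat_lit 4) (nat_lit 5) (nat_lit 4) (nat_lit 4) (nat_lit 240) (nat_lit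 218) (nat_lit 142))) (XT.nd (nat_lit 78) (nat_lit 0) (nat_lit 0) (XT.lf (nat_lit 0) (nat_lit 224359417291) (nat_lit 76) (nat_lit 201793583639) (nat_lit 76) (nat_lit 71727462281) (nat_lit 3) (nat_lit 4) (nat_lit 4) (nat_lit 5) (nat_lit 4) (nat_lit 4) (nat_lit 241) (nat_lit 218) (nat_lit 141)) (XT.lf (nat_lit 0) (nat_lit 349721011087) (nat_lit 76) (nat_lit 172421613773) (nat_lit 76) (nat_lit 42355132804) (nat_lit 3) (nat_lit 4) (nat_lit 4) (nat_lit 5) (nat_lit 4) (nat_lit 4) (nat_lit 242) (nat_lit 218) (nat_lit 140)))) (XT.nd (nat_lit 156) (nat_lit 76) (nat_lit 0) (XT.nd (nat_lit 78) (nat_lit 76) (nat_lit 0) (XT.lf (nat_lit 0) (nat_lit 493886369942) (nat_lit 76) (nat_lit 138644055853) (nat_lit 76) (nat_lit 8577262178) (nat_lit 3) (nat_lit 4) (nat_lit 4) (nat_lit 5) (nat_lit 4) (nat_lit 4) (nat_lit 243) (nat_lit 218) (nat_lit 139)) (XT.lf (nat_lit 0) (nat_lit 27572441471) (nat_lit 152)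 (nat_lit 70786316428) (nat_lit 76) (nat_lit 630662392256) (nat_lit 2) (nat_lit 5) (nat_lit 4) (nat_lit 5) (nat_lit 3) (nat_lit 4) (nat_lit 244) (nat_lit 218) (nat_lit 138))) (XT.nd (nat_lit 78) (nat_lit 0) (nat_lit 0) (XT.lf (nat_lit 0) (nat_lit 18337659309) (nat_lit 76) (nat_lit 50687904110) (nat_lit 152) (nat_lit 760920936550) (nat_lit 1) (nat_lit 5) (nat_lit 2) (nat_lit 5) (nat_lit 3) (nat_lit 4) (nat_lit 245) (nat_lit 218) (nat_lit 137)) (XT.lf (nat_lit 0) (nat_lit 120744003375) (nat_lit 152) (nat_lit 817017724582) (nat_lit 0) (nat_lit 7641822809) (nat_lit 1) (nat_lit 5) (nat_lit 3) (nat_lit 4) (nat_lit 1) (nat_lit 4) (nat_lit 246) (nat_lit 218) (nat_lit 136)))))) (XT.nd (nat_lit 546) (nat_lit 0) (nat_lit 0) (XT.nd (nat_lit 234) (nat_lit 0) (nat_lit 0) (XT.nd (nat_lit 78) (nat_lit 0) (nat_lit 0) (XT.lf (nat_lit 0) (nat_lit 182633739529) (nat_lit 152) (nat_lit 825651987474) (nat_lit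 0) (nat_lit 69531403493) (nat_lit 1) (nat_lit 5) (nat_lit 3) (nat_lit 4) (nat_lit 1) (nat_lit 4) (nat_lit 247) (nat_lit 218) (nat_lit 135)) (XT.nd (nat_lit 78) (nat_lit 0) (nat_lit 0) (XT.lf (nat_lit 0) (nat_lit 253806780005) (nat_lit 152) (nat_lit 835581682550) (nat_lit 0) (nat_lit 140704308779) (nat_lit 1) (nat_lit 5) (nat_lit 3) (nat_lit 4) (nat_lit 1) (nat_lit 4) (nat_lit 248) (nat_lit 218) (nat_lit 134)) (XT.lf (nat_lit 0) (nat_lit 335655640814) (nat_lit 152) (nat_lit 847001086452) (nat_lit 0) (nat_lit 222553052030) (nat_lit 1) (nat_lit 5) (nat_lit 3) (nat_lit 4) (nat_lit 1) (nat_lit 4) (nat_lit 249) (nat_lit 218) (nat_lit 133)))) (XT.nd (nat_lit 156) (nat_lit 0) (nat_lit 0) (XT.nd (nat_lit 78) (nat_lit 0) (nat_lit 0) (XT.lf (nat_lit 0) (nat_lit 429781712711) (nat_lit 152) (nat_lit 860133622300) (nat_lit 0) (nat_lit 316679021702) (nat_lit 1) (nat_lit 5) (nat_lit 3) (nat_lit 4)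 (nat_lit 1) (nat_lit 4) (nat_lit 250) (nat_lit 218) (nat_lit 132)) (XT.lf (nat_lit 0) (nat_lit 538026592753) (nat_lit 152) (nat_lit 875236231013) (nat_lit 0) (nat_lit 424923812854) (nat_lit 1) (nat_lit 5) (nat_lit 3) (nat_lit 4) (nat_lit 1) (nat_lit 4) (nat_lit 251) (nat_lit 218) (nat_lit 131))) (XT.nd (nat_lit 78) (nat_lit 0) (nat_lit 0) (XT.lf (nat_lit 0) (nat_lit 662508115551) (nat_lit 152) (nat_lit 892604398414) (nat_lit 0) (nat_lit 549405258356) (nat_lit 1) (nat_lit 5) (nat_lit 3) (nat_lit 4) (nat_lit 1) (nat_lit 4) (nat_lit 252) (nat_lit 218) (nat_lit 130)) (XT.lf (nat_lit 0) (nat_lit 805661789159) (nat_lit 152) (nat_lit 912577936473) (nat_lit 0) (nat_lit 692558864750) (nat_lit 1) (nat_lit 5) (nat_lit 3) (nat_lit 4) (nat_lit 1) (nat_lit 4) (nat_lit 253) (nat_lit 218) (nat_lit 129))))) (XT.nd (nat_lit 312) (nat_lit 0) (nat_lit 0) (XT.nd (nat_lit 156) (nat_lit 0) (nat_lit 0) (XT.nd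 (nat_lit 78) (nat_lit 0) (nat_lit 0) (XT.lf (nat_lit 0) (nat_lit 970288446322) (nat_lit 152) (nat_lit 935547631804) (nat_lit 0) (nat_lit 857185463466) (nat_lit 1) (nat_lit 5) (nat_lit 3) (nat_lit 4) (nat_lit 1) (nat_lit 4) (nat_lit 254) (nat_lit 218) (nat_lit 128)) (XT.lf (nat_lit 0) (nat_lit 1159609043375) (nat_lit 152) (nat_lit 961962891491) (nat_lit 0) (nat_lit 1046506009696) (nat_lit 1) (nat_lit 5) (nat_lit 3) (nat_lit 4) (nat_lit 1) (nat_lit 4) (nat_lit 255) (nat_lit 218) (nat_lit 127))) (XT.nd (nat_lit 78) (nat_lit 0) (nat_lit 0) (XT.lf (nat_lit 0) (nat_lit 1377327678957) (nat_lit 152) (nat_lit 992340535831) (nat_lit 0) (nat_lit 1264224601084) (nat_lit 1) (nat_lit 5) (nat_lit 3) (nat_lit 4) (nat_lit 1) (nat_lit 4) (nat_lit 256) (nat_lit 218) (nat_lit 126)) (XT.lf (nat_lit 0) (nat_lit 1627704065503) (nat_lit 152) (nat_lit 1027274910040) (nat_lit 0) (nat_lit 1514600949200) (nat_lit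 1) (nat_lit 5) (nat_lit 3) (nat_lit 4) (nat_lit 1) (nat_lit 4) (nat_lit 257) (nat_lit 218) (nat_lit 125)))) (XT.nd (nat_lit 156) (nat_lit 0) (nat_lit 0) (XT.nd (nat_lit 78) (nat_lit 0) (nat_lit 0) (XT.lf (nat_lit 0) (nat_lit 1915636871445) (nat_lit 152) (nat_lit 1067449512744) (nat_lit 0) (nat_lit 1802533721725) (nat_lit 1) (nat_lit 5) (nat_lit 3) (nat_lit 4) (nat_lit 1) (nat_lit 4) (nat_lit 258) (nat_lit 218) (nat_lit 124)) (XT.lf (nat_lit 0) (nat_lit 2246759564726) (nat_lit 152) (nat_lit 1113650368778) (nat_lit 0) (nat_lit 2133656385948) (nat_lit 1) (nat_lit 5) (nat_lit 3) (nat_lit 4) (nat_lit 1) (nat_lit 4) (nat_lit 259) (nat_lit 218) (nat_lit 123))) (XT.nd (nat_lit 78) (nat_lit 0) (nat_lit 0) (XT.lf (nat_lit 0) (nat_lit 2627550632823) (nat_lit 152) (nat_lit 1166781407933) (nat_lit 0) (nat_lit 2514447428777) (nat_lit 1) (nat_lit 5) (nat_lit 3) (nat_lit 4) (nat_lit 1) (nat_lit 4)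 (nat_lit 260) (nat_lit 218) (nat_lit 122)) (XT.lf (nat_lit 0) (nat_lit 3065460335764) (nat_lit 152) (nat_lit 1227882150542) (nat_lit 0) (nat_lit 2952357109745) (nat_lit 1) (nat_lit 5) (nat_lit 3) (nat_lit 4) (nat_lit 1) (nat_lit 4) (nat_lit 261) (nat_lit 218) (nat_lit 121))))))) (XT.nd (nat_lit 28392) (nat_lit 0) (nat_lit 228) (XT.nd (nat_lit 1014) (nat_lit 0) (nat_lit 0) (XT.nd (nat_lit 234) (nat_lit 0) (nat_lit 0) (XT.nd (nat_lit 78) (nat_lit 0) (nat_lit 0) (XT.lf (nat_lit 0) (nat_lit 3569056472084) (nat_lit 152) (nat_lit 1298148045917) (nat_lit 0) (nat_lit 3455953226959) (nat_lit 1) (nat_lit 5) (nat_lit 3) (nat_lit 4) (nat_lit 1) (nat_lit 4) (nat_lit 262) (nat_lit 218) (nat_lit 120)) (XT.nd (nat_lit 78) (nat_lit 0) (nat_lit 0) (XT.lf (nat_lit 0) (nat_lit 4148192009669) (nat_lit 152) (nat_lit 1378953861575) (nat_lit 0) (nat_lit 4035088747929) (nat_lit 1) (nat_lit 5) (nat_lit 3)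 (nat_lit 4) (nat_lit 1) (nat_lit 4) (nat_lit 263) (nat_lit 218) (nat_lit 119)) (XT.lf (nat_lit 0) (nat_lit 4814197861210) (nat_lit 152) (nat_lit 1471880580866) (nat_lit 0) (nat_lit 4701094585023) (nat_lit 1) (nat_lit 5) (nat_lit 3) (nat_lit 4) (nat_lit 1) (nat_lit 4) (nat_lit 264) (nat_lit 218) (nat_lit 118)))) (XT.nd (nat_lit 624) (nat_lit 0) (nat_lit 0) (XT.nd (nat_lit 78) (nat_lit 0) (nat_lit 0) (XT.lf (nat_lit 0) (nat_lit 5580104575976) (nat_lit 152) (nat_lit 1578746335255) (nat_lit 0) (nat_lit 5467001287226) (nat_lit 1) (nat_lit 5) (nat_lit 3) (nat_lit 4) (nat_lit 1) (nat_lit 4) (nat_lit 265) (nat_lit 218) (nat_lit 117)) (XT.lf (nat_lit 0) (nat_lit 6460897285343) (nat_lit 152) (nat_lit 1701641976458) (nat_lit 0) (nat_lit 6347793985669) (nat_lit 1) (nat_lit 5) (nat_lit 3) (nat_lit 4) (nat_lit 1) (nat_lit 4) (nat_lit 266) (nat_lit 218) (nat_lit 116))) (XT.nd (nat_lit 78) (nat_lit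 0) (nat_lit 0) (XT.lf (nat_lit 0) (nat_lit 17670586412557) (nat_lit 152) (nat_lit 3265713196563) (nat_lit 0) (nat_lit 17557483067435) (nat_lit 1) (nat_lit 5) (nat_lit 3) (nat_lit 4) (nat_lit 1) (nat_lit 4) (nat_lit 273) (nat_lit 218) (nat_lit 109)) (XT.lf (nat_lit 0) (nat_lit 20364951340810) (nat_lit 152) (nat_lit 3641653973113) (nat_lit 0) (nat_lit 20251847992116) (nat_lit 1) (nat_lit 5) (nat_lit 3) (nat_lit 4) (nat_lit 1) (nat_lit 4) (nat_lit 274) (nat_lit 218) (nat_lit 108))))) (XT.nd (nat_lit 27066) (nat_lit 0) (nat_lit 836) (XT.nd (nat_lit 26910) (nat_lit 0) (nat_lit 1064) (XT.nd (nat_lit 78) (nat_lit 0) (nat_lit 0) (XT.lf (nat_lit 0) (nat_lit 23463471004715) (nat_lit 152) (nat_lit 4073985872869) (nat_lit 0) (nat_lit 23350367652916) (nat_lit 1) (nat_lit 5) (nat_lit 3) (nat_lit 4) (nat_lit 1) (nat_lit 4) (nat_lit 275) (nat_lit 218) (nat_lit 107)) (XT.lf (nat_lit 0) (nat_lit 27026768615088)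 (nat_lit 152) (nat_lit 4571167563437) (nat_lit 0) (nat_lit 26913665260589) (nat_lit 1) (nat_lit 5) (nat_lit 3) (nat_lit 4) (nat_lit 1) (nat_lit 4) (nat_lit 276) (nat_lit 218) (nat_lit 106))) (XT.nd (nat_lit 78) (nat_lit 0) (nat_lit 0) (XT.lf (nat_lit 0) (nat_lit 12468774531) (nat_lit 0) (nat_lit 12468774531) (nat_lit 228) (nat_lit 4322959558) (nat_lit 15) (nat_lit 5) (nat_lit 15) (nat_lit 3) (nat_lit 18) (nat_lit 3) (nat_lit 219) (nat_lit 219) (nat_lit 162)) (XT.lf (nat_lit 0) (nat_lit 52764559492) (nat_lit 0) (nat_lit 866689146) (nat_lit 228) (nat_lit 9276280008) (nat_lit 15) (nat_lit 5) (nat_lit 15) (nat_lit 3) (nat_lit 18) (nat_lit 3) (nat_lit 220) (nat_lit 219) (nat_lit 161)))) (XT.nd (nat_lit 156) (nat_lit 228) (nat_lit 0) (XT.nd (nat_lit 78) (nat_lit 0) (nat_lit 0) (XT.lf (nat_lit 76) (nat_lit 17235817261) (nat_lit 0) (nat_lit 42536340719) (nat_lit 304) (nat_lit 7906700572)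 (nat_lit 16) (nat_lit 5) (nat_lit 15) (nat_lit 5) (nat_lit 19) (nat_lit 5) (nat_lit 221) (nat_lit 219) (nat_lit 160)) (XT.lf (nat_lit 76) (nat_lit 49814239581) (nat_lit 0) (nat_lit 17587131922) (nat_lit 304) (nat_lit 5679477992) (nat_lit 16) (nat_lit 5) (nat_lit 15) (nat_lit 5) (nat_lit 19) (nat_lit 5) (nat_lit 222) (nat_lit 219) (nat_lit 159))) (XT.nd (nat_lit 78) (nat_lit 76) (nat_lit 0) (XT.lf (nat_lit 0) (nat_lit 8259881878) (nat_lit 228) (nat_lit 68714832313) (nat_lit 304) (nat_lit 2198494750) (nat_lit 13) (nat_lit 5) (nat_lit 16) (nat_lit 5) (nat_lit 17) (nat_lit 5) (nat_lit 223) (nat_lit 219) (nat_lit 158)) (XT.lf (nat_lit 0) (nat_lit 3753572430) (nat_lit 304) (nat_lit 39838993368) (nat_lit 76) (nat_lit 42259232088) (nat_lit 12) (nat_lit 5) (nat_lit 16) (nat_lit 5) (nat_lit 13) (nat_lit 5) (nat_lit 224) (nat_lit 219) (nat_lit 157)))))) (XT.nd (nat_lit 546) (nat_lit 228) (nat_lit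 0) (XT.nd (nat_lit 234) (nat_lit 228) (nat_lit 0) (XT.nd (nat_lit 78) (nat_lit 152) (nat_lit 0) (XT.lf (nat_lit 0) (nat_lit 10371618986) (nat_lit 304) (nat_lit 4210005269) (nat_lit 76) (nat_lit 78935130385) (nat_lit 12) (nat_lit 5) (nat_lit 16) (nat_lit 5) (nat_lit 13) (nat_lit 5) (nat_lit 225) (nat_lit 219) (nat_lit 156)) (XT.nd (nat_lit 78) (nat_lit 0) (nat_lit 0) (XT.lf (nat_lit 0) (nat_lit 20509091024) (nat_lit 228) (nat_lit 62583913102) (nat_lit 76) (nat_lit 18859461263) (nat_lit 10) (nat_lit 5) (nat_lit 13) (nat_lit 5) (nat_lit 11) (nat_lit 5) (nat_lit 226) (nat_lit 219) (nat_lit 155)) (XT.lf (nat_lit 0) (nat_lit 33090707222) (nat_lit 228) (nat_lit 22370041409) (nat_lit 76) (nat_lit 56054271492) (nat_lit 10) (nat_lit 5) (nat_lit 13) (nat_lit 5) (nat_lit 11) (nat_lit 5) (nat_lit 227) (nat_lit 219) (nat_lit 154)))) (XT.nd (nat_lit 156) (nat_lit 76) (nat_lit 0) (XT.nd (nat_lit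 78) (nat_lit 0) (nat_lit 0) (XT.lf (nat_lit 0) (nat_lit 26207599677) (nat_lit 152) (nat_lit 22435960367) (nat_lit 228) (nat_lit 73705812698) (nat_lit 8) (nat_lit 5) (nat_lit 10) (nat_lit 5) (nat_lit 11) (nat_lit 5) (nat_lit 228) (nat_lit 219) (nat_lit 153)) (XT.lf (nat_lit 0) (nat_lit 68396829180) (nat_lit 228) (nat_lit 50748359312) (nat_lit 76) (nat_lit 15383578506) (nat_lit 8) (nat_lit 5) (nat_lit 11) (nat_lit 5) (nat_lit 9) (nat_lit 4) (nat_lit 229) (nat_lit 219) (nat_lit 152))) (XT.nd (nat_lit 78) (nat_lit 0) (nat_lit 0) (XT.lf (nat_lit 0) (nat_lit 421861550) (nat_lit 76) (nat_lit 91776099478) (nat_lit 152) (nat_lit 56174388953) (nat_lit 7) (nat_lit 5) (nat_lit 8) (nat_lit 5) (nat_lit 9) (nat_lit 4) (nat_lit 230) (nat_lit 219) (nat_lit 151)) (XT.lf (nat_lit 0) (nat_lit 64969719045) (nat_lit 76) (nat_lit 57251396171) (nat_lit 152) (nat_lit 41673586387) (nat_lit 7) (nat_lit 5) (nat_lit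 8) (nat_lit 5) (nat_lit 9) (nat_lit 4) (nat_lit 231) (nat_lit 219) (nat_lit 150))))) (XT.nd (nat_lit 312) (nat_lit 76) (nat_lit 0) (XT.nd (nat_lit 156) (nat_lit 76) (nat_lit 0) (XT.nd (nat_lit 78) (nat_lit 76) (nat_lit 0) (XT.lf (nat_lit 0) (nat_lit 139198607285) (nat_lit 76) (nat_lit 17548350392) (nat_lit 152) (nat_lit 24998573912) (nat_lit 7) (nat_lit 5) (nat_lit 8) (nat_lit 5) (nat_lit 9) (nat_lit 4) (nat_lit 232) (nat_lit 219) (nat_lit 149)) (XT.lf (nat_lit 0) (nat_lit 23187037308) (nat_lit 76) (nat_lit 175388050874) (nat_lit 76) (nat_lit 3380393004) (nat_lit 6) (nat_lit 4) (nat_lit 7) (nat_lit 5) (nat_lit 7) (nat_lit 4) (nat_lit 233) (nat_lit 219) (nat_lit 148))) (XT.nd (nat_lit 78) (nat_lit 0) (nat_lit 0) (XT.lf (nat_lit 0) (nat_lit 22733073019) (nat_lit 152) (nat_lit 123132650936) (nat_lit 76) (nat_lit 78723049813) (nat_lit 5) (nat_lit 5) (nat_lit 7) (nat_lit 5) (nat_lit 6)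 (nat_lit 4) (nat_lit 234) (nat_lit 219) (nat_lit 147)) (XT.lf (nat_lit 0) (nat_lit 52416875977) (nat_lit 152) (nat_lit 59313431148) (nat_lit 76) (nat_lit 138862701227) (nat_lit 5) (nat_lit 5) (nat_lit 7) (nat_lit 5) (nat_lit 6) (nat_lit 4) (nat_lit 235) (nat_lit 219) (nat_lit 146)))) (XT.nd (nat_lit 156) (nat_lit 0) (nat_lit 0) (XT.nd (nat_lit 78) (nat_lit 0) (nat_lit 0) (XT.lf (nat_lit 0) (nat_lit 15453614922) (nat_lit 76) (nat_lit 71739018206) (nat_lit 152) (nat_lit 193209341361) (nat_lit 4) (nat_lit 5) (nat_lit 5) (nat_lit 5) (nat_lit 6) (nat_lit 4) (nat_lit 236) (nat_lit 219) (nat_lit 145)) (XT.lf (nat_lit 0) (nat_lit 108100932777) (nat_lit 76) (nat_lit 22183812519) (nat_lit 152) (nat_lit 183932544943) (nat_lit 4) (nat_lit 5) (nat_lit 5) (nat_lit 5) (nat_lit 6) (nat_lit 4) (nat_lit 237) (nat_lit 219) (nat_lit 144))) (XT.nd (nat_lit 78) (nat_lit 0) (nat_lit 0) (XT.lf (nat_lit 0)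 (nat_lit 181281429686) (nat_lit 152) (nat_lit 139901497614) (nat_lit 0) (nat_lit 31705865710) (nat_lit 4) (nat_lit 5) (nat_lit 6) (nat_lit 4) (nat_lit 4) (nat_lit 4) (nat_lit 238) (nat_lit 219) (nat_lit 143)) (XT.lf (nat_lit 0) (nat_lit 240983613164) (nat_lit 152) (nat_lit 64811437545) (nat_lit 0) (nat_lit 91407573603) (nat_lit 4) (nat_lit 5) (nat_lit 6) (nat_lit 4) (nat_lit 4) (nat_lit 4) (nat_lit 239) (nat_lit 219) (nat_lit 142))))))))
noncomputable def xc46 : XT := (XT.nd (nat_lit 2574) (nat_lit 0) (nat_lit 0) (XT.nd (nat_lit 1092) (nat_lit 0) (nat_lit 0) (XT.nd (nat_lit 546) (nat_lit 0) (nat_lit 0) (XT.nd (nat_lit 234) (nat_lit 152) (nat_lit 0) (XT.nd (nat_lit 78) (nat_lit 0) (nat_lit 0) (XT.lf (nat_lit 0) (nat_lit 23646758418) (nat_lit 76) (nat_lit 286973200982) (nat_lit 76) (nat_lit 137396747867) (nat_lit 3) (nat_lit 4) (nat_lit 4) (nat_lit 5) (nat_lit 4) (nat_lit 4) (nat_lit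 240) (nat_lit 219) (nat_lit 141)) (XT.nd (nat_lit 78) (nat_lit 0) (nat_lit 0) (XT.lf (nat_lit 0) (nat_lit 132657060450) (nat_lit 76) (nat_lit 261432261144) (nat_lit 76) (nat_lit 111855448419) (nat_lit 3) (nat_lit 4) (nat_lit 4) (nat_lit 5) (nat_lit 4) (nat_lit 4) (nat_lit 241) (nat_lit 219) (nat_lit 140)) (XT.lf (nat_lit 0) (nat_lit 258018433776) (nat_lit 76) (nat_lit 232060387756) (nat_lit 76) (nat_lit 82483262325) (nat_lit 3) (nat_lit 4) (nat_lit 4) (nat_lit 5) (nat_lit 4) (nat_lit 4) (nat_lit 242) (nat_lit 219) (nat_lit 139)))) (XT.nd (nat_lit 156) (nat_lit 152) (nat_lit 0) (XT.nd (nat_lit 78) (nat_lit 0) (nat_lit 0) (XT.lf (nat_lit 0) (nat_lit 402183600916) (nat_lit 76) (nat_lit 198282913727) (nat_lit 76) (nat_lit 48705516379) (nat_lit 3) (nat_lit 4) (nat_lit 4) (nat_lit 5) (nat_lit 4) (nat_lit 4) (nat_lit 243) (nat_lit 219) (nat_lit 138)) (XT.lf (nat_lit 0) (nat_lit 567973184708)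 (nat_lit 76) (nat_lit 159438975438) (nat_lit 76) (nat_lit 9861341639) (nat_lit 3) (nat_lit 4) (nat_lit 4) (nat_lit 5) (nat_lit 4) (nat_lit 4) (nat_lit 244) (nat_lit 219) (nat_lit 137))) (XT.nd (nat_lit 78) (nat_lit 76) (nat_lit 0) (XT.lf (nat_lit 0) (nat_lit 31710295883) (nat_lit 152) (nat_lit 81400703257) (nat_lit 76) (nat_lit 725263014865) (nat_lit 2) (nat_lit 5) (nat_lit 4) (nat_lit 5) (nat_lit 3) (nat_lit 4) (nat_lit 245) (nat_lit 219) (nat_lit 136)) (XT.lf (nat_lit 0) (nat_lit 21091706994) (nat_lit 76) (nat_lit 58289560536) (nat_lit 152) (nat_lit 875056917911) (nat_lit 1) (nat_lit 5) (nat_lit 2) (nat_lit 5) (nat_lit 3) (nat_lit 4) (nat_lit 246) (nat_lit 219) (nat_lit 135))))) (XT.nd (nat_lit 234) (nat_lit 0) (nat_lit 0) (XT.nd (nat_lit 78) (nat_lit 0) (nat_lit 0) (XT.lf (nat_lit 0) (nat_lit 138857284681) (nat_lit 152) (nat_lit 939567231104) (nat_lit 0) (nat_lit 8789307579) (nat_lit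 1) (nat_lit 5) (nat_lit 3) (nat_lit 4) (nat_lit 1) (nat_lit 4) (nat_lit 247) (nat_lit 219) (nat_lit 134)) (XT.nd (nat_lit 78) (nat_lit 0) (nat_lit 0) (XT.lf (nat_lit 0) (nat_lit 210030262023) (nat_lit 152) (nat_lit 949497044582) (nat_lit 0) (nat_lit 79962167363) (nat_lit 1) (nat_lit 5) (nat_lit 3) (nat_lit 4) (nat_lit 1) (nat_lit 4) (nat_lit 248) (nat_lit 219) (nat_lit 133)) (XT.lf (nat_lit 0) (nat_lit 291879067932) (nat_lit 152) (nat_lit 960916551443) (nat_lit 0) (nat_lit 161810871049) (nat_lit 1) (nat_lit 5) (nat_lit 3) (nat_lit 4) (nat_lit 1) (nat_lit 4) (nat_lit 249) (nat_lit 219) (nat_lit 132)))) (XT.nd (nat_lit 156) (nat_lit 0) (nat_lit 0) (XT.nd (nat_lit 78) (nat_lit 0) (nat_lit 0) (XT.lf (nat_lit 0) (nat_lit 386005092090) (nat_lit 152) (nat_lit 974049176820) (nat_lit 0) (nat_lit 255936806316) (nat_lit 1) (nat_lit 5) (nat_lit 3) (nat_lit 4) (nat_lit 1) (nat_lit 4) (nat_lit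 250) (nat_lit 219) (nat_lit 131)) (XT.lf (nat_lit 0) (nat_lit 494249930620) (nat_lit 152) (nat_lit 989151863384) (nat_lit 0) (nat_lit 364181567550) (nat_lit 1) (nat_lit 5) (nat_lit 3) (nat_lit 4) (nat_lit 1) (nat_lit 4) (nat_lit 251) (nat_lit 219) (nat_lit 130))) (XT.nd (nat_lit 78) (nat_lit 0) (nat_lit 0) (XT.lf (nat_lit 0) (nat_lit 618731417320) (nat_lit 152) (nat_lit 1006520098482) (nat_lit 0) (nat_lit 488662987037) (nat_lit 1) (nat_lit 5) (nat_lit 3) (nat_lit 4) (nat_lit 1) (nat_lit 4) (nat_lit 252) (nat_lit 219) (nat_lit 129)) (XT.lf (nat_lit 0) (nat_lit 761885059539) (nat_lit 152) (nat_lit 1026493695408) (nat_lit 0) (nat_lit 631816570809) (nat_lit 1) (nat_lit 5) (nat_lit 3) (nat_lit 4) (nat_lit 1) (nat_lit 4) (nat_lit 253) (nat_lit 219) (nat_lit 128)))))) (XT.nd (nat_lit 546) (nat_lit 0) (nat_lit 0) (XT.nd (nat_lit 234) (nat_lit 0) (nat_lit 0) (XT.nd (nat_lit 78) (nat_lit 0)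 (nat_lit 0) (XT.lf (nat_lit 0) (nat_lit 926511689407) (nat_lit 152) (nat_lit 1049463441928) (nat_lit 0) (nat_lit 796443149853) (nat_lit 1) (nat_lit 5) (nat_lit 3) (nat_lit 4) (nat_lit 1) (nat_lit 4) (nat_lit 254) (nat_lit 219) (nat_lit 127)) (XT.nd (nat_lit 78) (nat_lit 0) (nat_lit 0) (XT.lf (nat_lit 0) (nat_lit 1115832262726) (nat_lit 152) (nat_lit 1075878746127) (nat_lit 0) (nat_lit 985763678978) (nat_lit 1) (nat_lit 5) (nat_lit 3) (nat_lit 4) (nat_lit 1) (nat_lit 4) (nat_lit 255) (nat_lit 219) (nat_lit 126)) (XT.lf (nat_lit 0) (nat_lit 1333550877670) (nat_lit 152) (nat_lit 1106256429173) (nat_lit 0) (nat_lit 1203482255492) (nat_lit 1) (nat_lit 5) (nat_lit 3) (nat_lit 4) (nat_lit 1) (nat_lit 4) (nat_lit 256) (nat_lit 219) (nat_lit 125)))) (XT.nd (nat_lit 156) (nat_lit 0) (nat_lit 0) (XT.nd (nat_lit 78) (nat_lit 0) (nat_lit 0) (XT.lf (nat_lit 0) (nat_lit 1583927246269) (nat_lit 152)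 (nat_lit 1141190837039) (nat_lit 0) (nat_lit 1453858590674) (nat_lit 1) (nat_lit 5) (nat_lit 3) (nat_lit 4) (nat_lit 1) (nat_lit 4) (nat_lit 257) (nat_lit 219) (nat_lit 124)) (XT.lf (nat_lit 0) (nat_lit 1871860036605) (nat_lit 152) (nat_lit 1181365469010) (nat_lit 0) (nat_lit 1741791351952) (nat_lit 1) (nat_lit 5) (nat_lit 3) (nat_lit 4) (nat_lit 1) (nat_lit 4) (nat_lit 258) (nat_lit 219) (nat_lit 123))) (XT.nd (nat_lit 78) (nat_lit 0) (nat_lit 0) (XT.lf (nat_lit 0) (nat_lit 2202982716316) (nat_lit 152) (nat_lit 1227566350493) (nat_lit 0) (nat_lit 2072914006394) (nat_lit 1) (nat_lit 5) (nat_lit 3) (nat_lit 4) (nat_lit 1) (nat_lit 4) (nat_lit 259) (nat_lit 219) (nat_lit 122)) (XT.lf (nat_lit 0) (nat_lit 2583773772612) (nat_lit 152) (nat_lit 1280697411779) (nat_lit 0) (nat_lit 2453705040718) (nat_lit 1) (nat_lit 5) (nat_lit 3) (nat_lit 4) (nat_lit 1) (nat_lit 4) (nat_lit 260) (nat_lit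 219) (nat_lit 121))))) (XT.nd (nat_lit 312) (nat_lit 0) (nat_lit 0) (XT.nd (nat_lit 156) (nat_lit 0) (nat_lit 0) (XT.nd (nat_lit 78) (nat_lit 0) (nat_lit 0) (XT.lf (nat_lit 0) (nat_lit 3021683465292) (nat_lit 152) (nat_lit 1341798173632) (nat_lit 0) (nat_lit 2891614714291) (nat_lit 1) (nat_lit 5) (nat_lit 3) (nat_lit 4) (nat_lit 1) (nat_lit 4) (nat_lit 261) (nat_lit 219) (nat_lit 120)) (XT.lf (nat_lit 0) (nat_lit 3525279592690) (nat_lit 152) (nat_lit 1412064085740) (nat_lit 0) (nat_lit 3395210825075) (nat_lit 1) (nat_lit 5) (nat_lit 3) (nat_lit 4) (nat_lit 1) (nat_lit 4) (nat_lit 262) (nat_lit 219) (nat_lit 119))) (XT.nd (nat_lit 78) (nat_lit 0) (nat_lit 0) (XT.lf (nat_lit 0) (nat_lit 4104415122515) (nat_lit 152) (nat_lit 1492869915949) (nat_lit 0) (nat_lit 3974346340453) (nat_lit 1) (nat_lit 5) (nat_lit 3) (nat_lit 4) (nat_lit 1) (nat_lit 4) (nat_lit 263) (nat_lit 219) (nat_lit 118))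 (XT.lf (nat_lit 0) (nat_lit 4770420967309) (nat_lit 152) (nat_lit 1585796647893) (nat_lit 0) (nat_lit 4640352172684) (nat_lit 1) (nat_lit 5) (nat_lit 3) (nat_lit 4) (nat_lit 1) (nat_lit 4) (nat_lit 264) (nat_lit 219) (nat_lit 117)))) (XT.nd (nat_lit 468) (nat_lit 0) (nat_lit 0) (XT.nd (nat_lit 78) (nat_lit 0) (nat_lit 0) (XT.lf (nat_lit 0) (nat_lit 5536327676208) (nat_lit 152) (nat_lit 1692662413285) (nat_lit 0) (nat_lit 5406258870659) (nat_lit 1) (nat_lit 5) (nat_lit 3) (nat_lit 4) (nat_lit 1) (nat_lit 4) (nat_lit 265) (nat_lit 219) (nat_lit 116)) (XT.lf (nat_lit 0) (nat_lit 6417120380474) (nat_lit 152) (nat_lit 1815558064055) (nat_lit 0) (nat_lit 6287051565426) (nat_lit 1) (nat_lit 5) (nat_lit 3) (nat_lit 4) (nat_lit 1) (nat_lit 4) (nat_lit 266) (nat_lit 219) (nat_lit 115))) (XT.nd (nat_lit 78) (nat_lit 0) (nat_lit 0) (XT.lf (nat_lit 0) (nat_lit 13246556477307) (nat_lit 152) (nat_lit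 2768459075984) (nat_lit 0) (nat_lit 13116487630416) (nat_lit 1) (nat_lit 5) (nat_lit 3) (nat_lit 4) (nat_lit 1) (nat_lit 4) (nat_lit 271) (nat_lit 219) (nat_lit 110)) (XT.lf (nat_lit 0) (nat_lit 15283883460228) (nat_lit 152) (nat_lit 3052724304006) (nat_lit 0) (nat_lit 15153814609230) (nat_lit 1) (nat_lit 5) (nat_lit 3) (nat_lit 4) (nat_lit 1) (nat_lit 4) (nat_lit 272) (nat_lit 219) (nat_lit 109))))))) (XT.nd (nat_lit 28002) (nat_lit 0) (nat_lit 152) (XT.nd (nat_lit 27378) (nat_lit 0) (nat_lit 532) (XT.nd (nat_lit 234) (nat_lit 0) (nat_lit 0) (XT.nd (nat_lit 78) (nat_lit 0) (nat_lit 0) (XT.lf (nat_lit 0) (nat_lit 17626809486464) (nat_lit 152) (nat_lit 3379629323965) (nat_lit 0) (nat_lit 17496740631895) (nat_lit 1) (nat_lit 5) (nat_lit 3) (nat_lit 4) (nat_lit 1) (nat_lit 4) (nat_lit 273) (nat_lit 219) (nat_lit 108)) (XT.nd (nat_lit 78) (nat_lit 0) (nat_lit 0) (XT.lf (nat_lit 0) (nat_lit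 20321174413049) (nat_lit 152) (nat_lit 3755570103643) (nat_lit 0) (nat_lit 20191105555374) (nat_lit 1) (nat_lit 5) (nat_lit 3) (nat_lit 4) (nat_lit 1) (nat_lit 4) (nat_lit 274) (nat_lit 219) (nat_lit 107)) (XT.lf (nat_lit 0) (nat_lit 23419694075504) (nat_lit 152) (nat_lit 4187902006119) (nat_lit 0) (nat_lit 23289625215129) (nat_lit 1) (nat_lit 5) (nat_lit 3) (nat_lit 4) (nat_lit 1) (nat_lit 4) (nat_lit 275) (nat_lit 219) (nat_lit 106)))) (XT.nd (nat_lit 26988) (nat_lit 0) (nat_lit 1064) (XT.nd (nat_lit 26910) (nat_lit 0) (nat_lit 1064) (XT.lf (nat_lit 0) (nat_lit 26982991684616) (nat_lit 152) (nat_lit 4685083699051) (nat_lit 0) (nat_lit 26852922821893) (nat_lit 1) (nat_lit 5) (nat_lit 3) (nat_lit 4) (nat_lit 1) (nat_lit 4) (nat_lit 276) (nat_lit 219) (nat_lit 105)) (XT.lf (nat_lit 0) (nat_lit 14346528500) (nat_lit 0) (nat_lit 14346528500) (nat_lit 228) (nat_lit 4954069230) (nat_lit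 15) (nat_lit 5) (nat_lit 15) (nat_lit 3) (nat_lit 18) (nat_lit 3) (nat_lit 220) (nat_lit 220) (nat_lit 160))) (XT.nd (nat_lit 78) (nat_lit 0) (nat_lit 0) (XT.lf (nat_lit 0) (nat_lit 60692178702) (nat_lit 0) (nat_lit 1009627804) (nat_lit 228) (nat_lit 10637575468) (nat_lit 15) (nat_lit 5) (nat_lit 15) (nat_lit 3) (nat_lit 18) (nat_lit 3) (nat_lit 221) (nat_lit 220) (nat_lit 159)) (XT.lf (nat_lit 76) (nat_lit 19838130052) (nat_lit 0) (nat_lit 48922583473) (nat_lit 304) (nat_lit 9066220220) (nat_lit 16) (nat_lit 5) (nat_lit 15) (nat_lit 5) (nat_lit 19) (nat_lit 5) (nat_lit 222) (nat_lit 220) (nat_lit 158))))) (XT.nd (nat_lit 312) (nat_lit 304) (nat_lit 0) (XT.nd (nat_lit 156) (nat_lit 76) (nat_lit 0) (XT.nd (nat_lit 78) (nat_lit 152) (nat_lit 0) (XT.lf (nat_lit 76) (nat_lit 57301106129) (nat_lit 0) (nat_lit 20230237925) (nat_lit 304) (nat_lit 6508368876) (nat_lit 16) (nat_lit 5) (nat_lit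 15) (nat_lit 5) (nat_lit 19) (nat_lit 5) (nat_lit 223) (nat_lit 220) (nat_lit 157)) (XT.lf (nat_lit 0) (nat_lit 9516239885) (nat_lit 228) (nat_lit 79022408133) (nat_lit 304) (nat_lit 2507623290) (nat_lit 13) (nat_lit 5) (nat_lit 16) (nat_lit 5) (nat_lit 17) (nat_lit 5) (nat_lit 224) (nat_lit 220) (nat_lit 156))) (XT.nd (nat_lit 78) (nat_lit 0) (nat_lit 0) (XT.lf (nat_lit 0) (nat_lit 4332962774) (nat_lit 304) (nat_lit 45797938194) (nat_lit 76) (nat_lit 48596016854) (nat_lit 12) (nat_lit 5) (nat_lit 16) (nat_lit 5) (nat_lit 13) (nat_lit 5) (nat_lit 225) (nat_lit 220) (nat_lit 155)) (XT.lf (nat_lit 0) (nat_lit 11941583121) (nat_lit 304) (nat_lit 4826806773) (nat_lit 76) (nat_lit 90773573814) (nat_lit 12) (nat_lit 5) (nat_lit 16) (nat_lit 5) (nat_lit 13) (nat_lit 5) (nat_lit 226) (nat_lit 220) (nat_lit 154)))) (XT.nd (nat_lit 156) (nat_lit 152) (nat_lit 0) (XT.nd (nat_lit 78) (nat_lit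 0) (nat_lit 0) (XT.lf (nat_lit 0) (nat_lit 23598446892) (nat_lit 228) (nat_lit 71955423068) (nat_lit 76) (nat_lit 21689367767) (nat_lit 10) (nat_lit 5) (nat_lit 13) (nat_lit 5) (nat_lit 11) (nat_lit 5) (nat_lit 227) (nat_lit 220) (nat_lit 153)) (XT.lf (nat_lit 0) (nat_lit 38065610883) (nat_lit 228) (nat_lit 25711567621) (nat_lit 76) (nat_lit 64463270749) (nat_lit 10) (nat_lit 5) (nat_lit 13) (nat_lit 5) (nat_lit 11) (nat_lit 5) (nat_lit 228) (nat_lit 220) (nat_lit 152))) (XT.nd (nat_lit 78) (nat_lit 0) (nat_lit 0) (XT.lf (nat_lit 0) (nat_lit 30152084173) (nat_lit 152) (nat_lit 25798386427) (nat_lit 228) (nat_lit 84749639178) (nat_lit 8) (nat_lit 5) (nat_lit 10) (nat_lit 5) (nat_lit 11) (nat_lit 5) (nat_lit 229) (nat_lit 220) (nat_lit 151)) (XT.lf (nat_lit 0) (nat_lit 78665483512) (nat_lit 228) (nat_lit 58347664929) (nat_lit 76) (nat_lit 17693466381) (nat_lit 8) (nat_lit 5) (nat_lit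 11) (nat_lit 5) (nat_lit 9) (nat_lit 4) (nat_lit 230) (nat_lit 220) (nat_lit 150)))))) (XT.nd (nat_lit 546) (nat_lit 76) (nat_lit 0) (XT.nd (nat_lit 234) (nat_lit 228) (nat_lit 0) (XT.nd (nat_lit 78) (nat_lit 0) (nat_lit 0) (XT.lf (nat_lit 0) (nat_lit 497500504) (nat_lit 76) (nat_lit 105538605559) (nat_lit 152) (nat_lit 64590743798) (nat_lit 7) (nat_lit 5) (nat_lit 8) (nat_lit 5) (nat_lit 9) (nat_lit 4) (nat_lit 231) (nat_lit 220) (nat_lit 149)) (XT.nd (nat_lit 78) (nat_lit 0) (nat_lit 0) (XT.lf (nat_lit 0) (nat_lit 74725924486) (nat_lit 76) (nat_lit 65835706605) (nat_lit 152) (nat_lit 47916099564) (nat_lit 7) (nat_lit 5) (nat_lit 8) (nat_lit 5) (nat_lit 9) (nat_lit 4) (nat_lit 232) (nat_lit 220) (nat_lit 148)) (XT.lf (nat_lit 0) (nat_lit 160087744103) (nat_lit 76) (nat_lit 20177647306) (nat_lit 152) (nat_lit 28740947146) (nat_lit 7) (nat_lit 5) (nat_lit 8) (nat_lit 5) (nat_lit 9)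 (nat_lit 4) (nat_lit 233) (nat_lit 220) (nat_lit 147)))) (XT.nd (nat_lit 156) (nat_lit 76) (nat_lit 0) (XT.nd (nat_lit 78) (nat_lit 76) (nat_lit 0) (XT.lf (nat_lit 0) (nat_lit 26674873284) (nat_lit 76) (nat_lit 201692546125) (nat_lit 76) (nat_lit 3880417876) (nat_lit 6) (nat_lit 4) (nat_lit 7) (nat_lit 5) (nat_lit 7) (nat_lit 4) (nat_lit 234) (nat_lit 220) (nat_lit 146)) (XT.lf (nat_lit 0) (nat_lit 26148606021) (nat_lit 152) (nat_lit 141593457105) (nat_lit 76) (nat_lit 90534148648) (nat_lit 5) (nat_lit 5) (nat_lit 7) (nat_lit 5) (nat_lit 6) (nat_lit 4) (nat_lit 235) (nat_lit 220) (nat_lit 145))) (XT.nd (nat_lit 78) (nat_lit 76) (nat_lit 0) (XT.lf (nat_lit 0) (nat_lit 60284252634) (nat_lit 152) (nat_lit 68202540194) (nat_lit 76) (nat_lit 159694403249) (nat_lit 5) (nat_lit 5) (nat_lit 7) (nat_lit 5) (nat_lit 6) (nat_lit 4) (nat_lit 236) (nat_lit 220) (nat_lit 144)) (XT.lf (nat_lit 0)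 (nat_lit 17779203440) (nat_lit 76) (nat_lit 82496850401) (nat_lit 152) (nat_lit 222185506009) (nat_lit 4) (nat_lit 5) (nat_lit 5) (nat_lit 5) (nat_lit 6) (nat_lit 4) (nat_lit 237) (nat_lit 220) (nat_lit 143))))) (XT.nd (nat_lit 312) (nat_lit 0) (nat_lit 0) (XT.nd (nat_lit 156) (nat_lit 76) (nat_lit 0) (XT.nd (nat_lit 78) (nat_lit 0) (nat_lit 0) (XT.lf (nat_lit 0) (nat_lit 124322634676) (nat_lit 76) (nat_lit 25508757844) (nat_lit 152) (nat_lit 211517873158) (nat_lit 4) (nat_lit 5) (nat_lit 5) (nat_lit 5) (nat_lit 6) (nat_lit 4) (nat_lit 238) (nat_lit 220) (nat_lit 142)) (XT.lf (nat_lit 0) (nat_lit 208477160825) (nat_lit 152) (nat_lit 160880573283) (nat_lit 0) (nat_lit 36463826191) (nat_lit 4) (nat_lit 5) (nat_lit 6) (nat_lit 4) (nat_lit 4) (nat_lit 4) (nat_lit 239) (nat_lit 220) (nat_lit 141))) (XT.nd (nat_lit 78) (nat_lit 76) (nat_lit 0) (XT.lf (nat_lit 0) (nat_lit 277134213127) (nat_lit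 152) (nat_lit 74527806243) (nat_lit 0) (nat_lit 105120518882) (nat_lit 4) (nat_lit 5) (nat_lit 6) (nat_lit 4) (nat_lit 4) (nat_lit 4) (nat_lit 240) (nat_lit 220) (nat_lit 140)) (XT.lf (nat_lit 0) (nat_lit 27198876071) (nat_lit 76) (nat_lit 330016947700) (nat_lit 76) (nat_lit 158002940750) (nat_lit 3) (nat_lit 4) (nat_lit 4) (nat_lit 5) (nat_lit 4) (nat_lit 4) (nat_lit 241) (nat_lit 220) (nat_lit 139)))) (XT.nd (nat_lit 156) (nat_lit 0) (nat_lit 0) (XT.nd (nat_lit 78) (nat_lit 0) (nat_lit 0) (XT.lf (nat_lit 0) (nat_lit 152560057683) (nat_lit 76) (nat_lit 300645158204) (nat_lit 76) (nat_lit 128630879336) (nat_lit 3) (nat_lit 4) (nat_lit 4) (nat_lit 5) (nat_lit 4) (nat_lit 4) (nat_lit 242) (nat_lit 220) (nat_lit 138)) (XT.lf (nat_lit 0) (nat_lit 296725058117) (nat_lit 76) (nat_lit 266867757126) (nat_lit 76) (nat_lit 94853241807) (nat_lit 3) (nat_lit 4) (nat_lit 4) (nat_lit 5) (nat_lit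 4) (nat_lit 4) (nat_lit 243) (nat_lit 220) (nat_lit 137))) (XT.nd (nat_lit 78) (nat_lit 0) (nat_lit 0) (XT.lf (nat_lit 0) (nat_lit 462514496945) (nat_lit 76) (nat_lit 228023882271) (nat_lit 76) (nat_lit 56009161344) (nat_lit 3) (nat_lit 4) (nat_lit 4) (nat_lit 5) (nat_lit 4) (nat_lit 4) (nat_lit 244) (nat_lit 220) (nat_lit 136)) (XT.lf (nat_lit 0) (nat_lit 653172080580) (nat_lit 76) (nat_lit 183353544783) (nat_lit 76) (nat_lit 11338645066) (nat_lit 3) (nat_lit 4) (nat_lit 4) (nat_lit 5) (nat_lit 4) (nat_lit 4) (nat_lit 245) (nat_lit 220) (nat_lit 135))))))))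
noncomputable def xc47 : XT := (XT.nd (nat_lit 29562) (nat_lit 0) (nat_lit 0) (XT.nd (nat_lit 1170) (nat_lit 0) (nat_lit 0) (XT.nd (nat_lit 546) (nat_lit 0) (nat_lit 0) (XT.nd (nat_lit 234) (nat_lit 0) (nat_lit 0) (XT.nd (nat_lit 78) (nat_lit 76) (nat_lit 0) (XT.lf (nat_lit 0) (nat_lit 36468343624) (nat_lit 152) (nat_lit 93608116393) (nat_lit 76) (nat_lit 834053422687) (nat_lit 2) (nat_lit 5) (nat_lit 4) (nat_lit 5) (nat_lit 3) (nat_lit 4) (nat_lit 246) (nat_lit 220) (nat_lit 134)) (XT.nd (nat_lit 78) (nat_lit 0) (nat_lit 0) (XT.lf (nat_lit 0) (nat_lit 24258033015) (nat_lit 76) (nat_lit 67031838330) (nat_lit 152) (nat_lit 1006313822993) (nat_lit 1) (nat_lit 5) (nat_lit 2) (nat_lit 5) (nat_lit 3) (nat_lit 4) (nat_lit 247) (nat_lit 220) (nat_lit 133)) (XT.lf (nat_lit 0) (nat_lit 159687148309) (nat_lit 152) (nat_lit 1080499932280) (nat_lit 0) (nat_lit 10108619669) (nat_lit 1) (nat_lit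 5) (nat_lit 3) (nat_lit 4) (nat_lit 1) (nat_lit 4) (nat_lit 248) (nat_lit 220) (nat_lit 132)))) (XT.nd (nat_lit 156) (nat_lit 0) (nat_lit 0) (XT.nd (nat_lit 78) (nat_lit 0) (nat_lit 0) (XT.lf (nat_lit 0) (nat_lit 241535906479) (nat_lit 152) (nat_lit 1091919528670) (nat_lit 0) (nat_lit 91957288949) (nat_lit 1) (nat_lit 5) (nat_lit 3) (nat_lit 4) (nat_lit 1) (nat_lit 4) (nat_lit 249) (nat_lit 220) (nat_lit 131)) (XT.lf (nat_lit 0) (nat_lit 335661889125) (nat_lit 152) (nat_lit 1105052231898) (nat_lit 0) (nat_lit 186083194298) (nat_lit 1) (nat_lit 5) (nat_lit 3) (nat_lit 4) (nat_lit 1) (nat_lit 4) (nat_lit 250) (nat_lit 220) (nat_lit 130))) (XT.nd (nat_lit 78) (nat_lit 0) (nat_lit 0) (XT.lf (nat_lit 0) (nat_lit 443906691558) (nat_lit 152) (nat_lit 1120154986160) (nat_lit 0) (nat_lit 294327929517) (nat_lit 1) (nat_lit 5) (nat_lit 3) (nat_lit 4) (nat_lit 1) (nat_lit 4) (nat_lit 251) (nat_lit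 220) (nat_lit 129)) (XT.lf (nat_lit 0) (nat_lit 568388146869) (nat_lit 152) (nat_lit 1137523280124) (nat_lit 0) (nat_lit 418809326382) (nat_lit 1) (nat_lit 5) (nat_lit 3) (nat_lit 4) (nat_lit 1) (nat_lit 4) (nat_lit 252) (nat_lit 220) (nat_lit 128))))) (XT.nd (nat_lit 312) (nat_lit 0) (nat_lit 0) (XT.nd (nat_lit 156) (nat_lit 0) (nat_lit 0) (XT.nd (nat_lit 78) (nat_lit 0) (nat_lit 0) (XT.lf (nat_lit 0) (nat_lit 711541761793) (nat_lit 152) (nat_lit 1157496928239) (nat_lit 0) (nat_lit 561962890483) (nat_lit 1) (nat_lit 5) (nat_lit 3) (nat_lit 4) (nat_lit 1) (nat_lit 4) (nat_lit 253) (nat_lit 220) (nat_lit 127)) (XT.lf (nat_lit 0) (nat_lit 876168367927) (nat_lit 152) (nat_lit 1180466719271) (nat_lit 0) (nat_lit 726589452422) (nat_lit 1) (nat_lit 5) (nat_lit 3) (nat_lit 4) (nat_lit 1) (nat_lit 4) (nat_lit 254) (nat_lit 220) (nat_lit 126))) (XT.nd (nat_lit 78) (nat_lit 0) (nat_lit 0) (XT.lf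 (nat_lit 0) (nat_lit 1065488920607) (nat_lit 152) (nat_lit 1206882062175) (nat_lit 0) (nat_lit 915909966672) (nat_lit 1) (nat_lit 5) (nat_lit 3) (nat_lit 4) (nat_lit 1) (nat_lit 4) (nat_lit 255) (nat_lit 220) (nat_lit 125)) (XT.lf (nat_lit 0) (nat_lit 1283207517603) (nat_lit 152) (nat_lit 1237259778879) (nat_lit 0) (nat_lit 1133628530252) (nat_lit 1) (nat_lit 5) (nat_lit 3) (nat_lit 4) (nat_lit 1) (nat_lit 4) (nat_lit 256) (nat_lit 220) (nat_lit 124)))) (XT.nd (nat_lit 156) (nat_lit 0) (nat_lit 0) (XT.nd (nat_lit 78) (nat_lit 0) (nat_lit 0) (XT.lf (nat_lit 0) (nat_lit 1533583870597) (nat_lit 152) (nat_lit 1272194216012) (nat_lit 0) (nat_lit 1384004854187) (nat_lit 1) (nat_lit 5) (nat_lit 3) (nat_lit 4) (nat_lit 1) (nat_lit 4) (nat_lit 257) (nat_lit 220) (nat_lit 123)) (XT.lf (nat_lit 0) (nat_lit 1821516647363) (nat_lit 152) (nat_lit 1312368873433) (nat_lit 0) (nat_lit 1671937605684)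 (nat_lit 1) (nat_lit 5) (nat_lit 3) (nat_lit 4) (nat_lit 1) (nat_lit 4) (nat_lit 258) (nat_lit 220) (nat_lit 122))) (XT.nd (nat_lit 78) (nat_lit 0) (nat_lit 0) (XT.lf (nat_lit 0) (nat_lit 2152639315273) (nat_lit 152) (nat_lit 1358569777047) (nat_lit 0) (nat_lit 2003060251622) (nat_lit 1) (nat_lit 5) (nat_lit 3) (nat_lit 4) (nat_lit 1) (nat_lit 4) (nat_lit 259) (nat_lit 220) (nat_lit 121)) (XT.lf (nat_lit 0) (nat_lit 2533430361308) (nat_lit 152) (nat_lit 1411700857576) (nat_lit 0) (nat_lit 2383851278551) (nat_lit 1) (nat_lit 5) (nat_lit 3) (nat_lit 4) (nat_lit 1) (nat_lit 4) (nat_lit 260) (nat_lit 220) (nat_lit 120)))))) (XT.nd (nat_lit 780) (nat_lit 0) (nat_lit 0) (XT.nd (nat_lit 234) (nat_lit 0) (nat_lit 0) (XT.nd (nat_lit 78) (nat_lit 0) (nat_lit 0) (XT.lf (nat_lit 0) (nat_lit 2971340045065) (nat_lit 152) (nat_lit 1472801636163) (nat_lit 0) (nat_lit 2821760945694) (nat_lit 1) (nat_lit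 5) (nat_lit 3) (nat_lit 4) (nat_lit 1) (nat_lit 4) (nat_lit 261) (nat_lit 220) (nat_lit 119)) (XT.nd (nat_lit 78) (nat_lit 0) (nat_lit 0) (XT.lf (nat_lit 0) (nat_lit 3474936164704) (nat_lit 152) (nat_lit 1543067562822) (nat_lit 0) (nat_lit 3325357050886) (nat_lit 1) (nat_lit 5) (nat_lit 3) (nat_lit 4) (nat_lit 1) (nat_lit 4) (nat_lit 262) (nat_lit 220) (nat_lit 118)) (XT.lf (nat_lit 0) (nat_lit 4054071687783) (nat_lit 152) (nat_lit 1623873405684) (nat_lit 0) (nat_lit 3904492561402) (nat_lit 1) (nat_lit 5) (nat_lit 3) (nat_lit 4) (nat_lit 1) (nat_lit 4) (nat_lit 263) (nat_lit 220) (nat_lit 117)))) (XT.nd (nat_lit 156) (nat_lit 0) (nat_lit 0) (XT.nd (nat_lit 78) (nat_lit 0) (nat_lit 0) (XT.lf (nat_lit 0) (nat_lit 4720077526710) (nat_lit 152) (nat_lit 1716800148630) (nat_lit 0) (nat_lit 4570498389405) (nat_lit 1) (nat_lit 5) (nat_lit 3) (nat_lit 4) (nat_lit 1) (nat_lit 4) (nat_lit 264)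 (nat_lit 220) (nat_lit 116)) (XT.lf (nat_lit 0) (nat_lit 5485984230507) (nat_lit 152) (nat_lit 1823665923590) (nat_lit 0) (nat_lit 5336405083703) (nat_lit 1) (nat_lit 5) (nat_lit 3) (nat_lit 4) (nat_lit 1) (nat_lit 4) (nat_lit 265) (nat_lit 220) (nat_lit 115))) (XT.nd (nat_lit 312) (nat_lit 0) (nat_lit 0) (XT.lf (nat_lit 0) (nat_lit 6366776930337) (nat_lit 152) (nat_lit 1946561582680) (nat_lit 0) (nat_lit 6217197775272) (nat_lit 1) (nat_lit 5) (nat_lit 3) (nat_lit 4) (nat_lit 1) (nat_lit 4) (nat_lit 266) (nat_lit 220) (nat_lit 114)) (XT.lf (nat_lit 0) (nat_lit 11424624329581) (nat_lit 152) (nat_lit 2652275471291) (nat_lit 0) (nat_lit 11275045150934) (nat_lit 1) (nat_lit 5) (nat_lit 3) (nat_lit 4) (nat_lit 1) (nat_lit 4) (nat_lit 270) (nat_lit 220) (nat_lit 110))))) (XT.nd (nat_lit 312) (nat_lit 0) (nat_lit 0) (XT.nd (nat_lit 156) (nat_lit 0) (nat_lit 0) (XT.nd (nat_lit 78) (nat_lit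 0) (nat_lit 0) (XT.lf (nat_lit 0) (nat_lit 13196213012300) (nat_lit 152) (nat_lit 2899462622496) (nat_lit 0) (nat_lit 13046633829545) (nat_lit 1) (nat_lit 5) (nat_lit 3) (nat_lit 4) (nat_lit 1) (nat_lit 4) (nat_lit 271) (nat_lit 220) (nat_lit 109)) (XT.lf (nat_lit 0) (nat_lit 15233539993303) (nat_lit 152) (nat_lit 3183727854116) (nat_lit 0) (nat_lit 15083960806977) (nat_lit 1) (nat_lit 5) (nat_lit 3) (nat_lit 4) (nat_lit 1) (nat_lit 4) (nat_lit 272) (nat_lit 220) (nat_lit 108))) (XT.nd (nat_lit 78) (nat_lit 0) (nat_lit 0) (XT.lf (nat_lit 0) (nat_lit 17576466017870) (nat_lit 152) (nat_lit 3510632877202) (nat_lit 0) (nat_lit 17426886828440) (nat_lit 1) (nat_lit 5) (nat_lit 3) (nat_lit 4) (nat_lit 1) (nat_lit 4) (nat_lit 273) (nat_lit 220) (nat_lit 107)) (XT.lf (nat_lit 0) (nat_lit 20270830943005) (nat_lit 152) (nat_lit 3886573659599) (nat_lit 0) (nat_lit 20121251750874) (nat_lit 1)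 (nat_lit 5) (nat_lit 3) (nat_lit 4) (nat_lit 1) (nat_lit 4) (nat_lit 274) (nat_lit 220) (nat_lit 106)))) (XT.nd (nat_lit 27144) (nat_lit 0) (nat_lit 1064) (XT.nd (nat_lit 27066) (nat_lit 0) (nat_lit 1064) (XT.lf (nat_lit 0) (nat_lit 23369350604199) (nat_lit 152) (nat_lit 4318905564441) (nat_lit 0) (nat_lit 23219771409720) (nat_lit 1) (nat_lit 5) (nat_lit 3) (nat_lit 4) (nat_lit 1) (nat_lit 4) (nat_lit 275) (nat_lit 220) (nat_lit 105)) (XT.lf (nat_lit 0) (nat_lit 16504131813) (nat_lit 0) (nat_lit 16504131813) (nat_lit 228) (nat_lit 5684072423) (nat_lit 15) (nat_lit 5) (nat_lit 15) (nat_lit 3) (nat_lit 18) (nat_lit 3) (nat_lit 221) (nat_lit 221) (nat_lit 158))) (XT.nd (nat_lit 78) (nat_lit 0) (nat_lit 0) (XT.lf (nat_lit 0) (nat_lit 69805786442) (nat_lit 0) (nat_lit 1170852909) (nat_lit 228) (nat_lit 12210416672) (nat_lit 15) (nat_lit 5) (nat_lit 15) (nat_lit 3) (nat_lit 18) (nat_lit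 3) (nat_lit 222) (nat_lit 221) (nat_lit 157)) (XT.lf (nat_lit 76) (nat_lit 22826658786) (nat_lit 0) (nat_lit 56265350311) (nat_lit 304) (nat_lit 10406126457) (nat_lit 16) (nat_lit 5) (nat_lit 15) (nat_lit 5) (nat_lit 19) (nat_lit 5) (nat_lit 223) (nat_lit 221) (nat_lit 156))))))) (XT.nd (nat_lit 1170) (nat_lit 228) (nat_lit 0) (XT.nd (nat_lit 546) (nat_lit 304) (nat_lit 0) (XT.nd (nat_lit 234) (nat_lit 304) (nat_lit 0) (XT.nd (nat_lit 78) (nat_lit 228) (nat_lit 0) (XT.lf (nat_lit 76) (nat_lit 65907410506) (nat_lit 0) (nat_lit 23268581715) (nat_lit 304) (nat_lit 7467209602) (nat_lit 16) (nat_lit 5) (nat_lit 15) (nat_lit 5) (nat_lit 19) (nat_lit 5) (nat_lit 224) (nat_lit 221) (nat_lit 155)) (XT.nd (nat_lit 78) (nat_lit 76) (nat_lit 0) (XT.lf (nat_lit 0) (nat_lit 10956814411) (nat_lit 228) (nat_lit 90876034738) (nat_lit 304) (nat_lit 2868155689) (nat_lit 13) (nat_lit 5) (nat_lit 16)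 (nat_lit 5) (nat_lit 17) (nat_lit 5) (nat_lit 225) (nat_lit 221) (nat_lit 154)) (XT.lf (nat_lit 0) (nat_lit 4995273527) (nat_lit 304) (nat_lit 52654846934) (nat_lit 76) (nat_lit 55883831444) (nat_lit 12) (nat_lit 5) (nat_lit 16) (nat_lit 5) (nat_lit 13) (nat_lit 5) (nat_lit 226) (nat_lit 221) (nat_lit 153)))) (XT.nd (nat_lit 156) (nat_lit 152) (nat_lit 0) (XT.nd (nat_lit 78) (nat_lit 152) (nat_lit 0) (XT.lf (nat_lit 0) (nat_lit 13743573925) (nat_lit 304) (nat_lit 5539713016) (nat_lit 76) (nat_lit 104388229071) (nat_lit 12) (nat_lit 5) (nat_lit 16) (nat_lit 5) (nat_lit 13) (nat_lit 5) (nat_lit 227) (nat_lit 221) (nat_lit 152)) (XT.lf (nat_lit 0) (nat_lit 27148037906) (nat_lit 228) (nat_lit 82736580007) (nat_lit 76) (nat_lit 24943519483) (nat_lit 10) (nat_lit 5) (nat_lit 13) (nat_lit 5) (nat_lit 11) (nat_lit 5) (nat_lit 228) (nat_lit 221) (nat_lit 151))) (XT.nd (nat_lit 78) (nat_lit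 152) (nat_lit 0) (XT.lf (nat_lit 0) (nat_lit 43783995107) (nat_lit 228) (nat_lit 29557731876) (nat_lit 76) (nat_lit 74133410537) (nat_lit 10) (nat_lit 5) (nat_lit 13) (nat_lit 5) (nat_lit 11) (nat_lit 5) (nat_lit 229) (nat_lit 221) (nat_lit 150)) (XT.lf (nat_lit 0) (nat_lit 34684987192) (nat_lit 152) (nat_lit 29665900160) (nat_lit 228) (nat_lit 97452976983) (nat_lit 8) (nat_lit 5) (nat_lit 10) (nat_lit 5) (nat_lit 11) (nat_lit 5) (nat_lit 230) (nat_lit 221) (nat_lit 149))))) (XT.nd (nat_lit 312) (nat_lit 228) (nat_lit 0) (XT.nd (nat_lit 156) (nat_lit 0) (nat_lit 0) (XT.nd (nat_lit 78) (nat_lit 76) (nat_lit 0) (XT.lf (nat_lit 0) (nat_lit 90472209596) (nat_lit 228) (nat_lit 67090023909) (nat_lit 76) (nat_lit 20349264107) (nat_lit 8) (nat_lit 5) (nat_lit 11) (nat_lit 5) (nat_lit 9) (nat_lit 4) (nat_lit 231) (nat_lit 221) (nat_lit 148)) (XT.lf (nat_lit 0) (nat_lit 581471305) (nat_lit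 76) (nat_lit 121366440748) (nat_lit 152) (nat_lit 74271942515) (nat_lit 7) (nat_lit 5) (nat_lit 8) (nat_lit 5) (nat_lit 9) (nat_lit 4) (nat_lit 232) (nat_lit 221) (nat_lit 147))) (XT.nd (nat_lit 78) (nat_lit 0) (nat_lit 0) (XT.lf (nat_lit 0) (nat_lit 85942939876) (nat_lit 76) (nat_lit 75708492469) (nat_lit 152) (nat_lit 55097068540) (nat_lit 7) (nat_lit 5) (nat_lit 8) (nat_lit 5) (nat_lit 9) (nat_lit 4) (nat_lit 233) (nat_lit 221) (nat_lit 146)) (XT.lf (nat_lit 0) (nat_lit 184107972429) (nat_lit 76) (nat_lit 23202059510) (nat_lit 152) (nat_lit 33046484036) (nat_lit 7) (nat_lit 5) (nat_lit 8) (nat_lit 5) (nat_lit 9) (nat_lit 4) (nat_lit 234) (nat_lit 221) (nat_lit 145)))) (XT.nd (nat_lit 156) (nat_lit 76) (nat_lit 0) (XT.nd (nat_lit 78) (nat_lit 76) (nat_lit 0) (XT.lf (nat_lit 0) (nat_lit 30683499648) (nat_lit 76) (nat_lit 231943620952) (nat_lit 76) (nat_lit 4457161784) (nat_lit 6)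 (nat_lit 4) (nat_lit 7) (nat_lit 5) (nat_lit 7) (nat_lit 4) (nat_lit 235) (nat_lit 221) (nat_lit 144)) (XT.lf (nat_lit 0) (nat_lit 30075110193) (nat_lit 152) (nat_lit 162825601213) (nat_lit 76) (nat_lit 104116268194) (nat_lit 5) (nat_lit 5) (nat_lit 7) (nat_lit 5) (nat_lit 6) (nat_lit 4) (nat_lit 236) (nat_lit 221) (nat_lit 143))) (XT.nd (nat_lit 78) (nat_lit 76) (nat_lit 0) (XT.lf (nat_lit 0) (nat_lit 69330554241) (nat_lit 152) (nat_lit 78426943433) (nat_lit 76) (nat_lit 183650300475) (nat_lit 5) (nat_lit 5) (nat_lit 7) (nat_lit 5) (nat_lit 6) (nat_lit 4) (nat_lit 237) (nat_lit 221) (nat_lit 142)) (XT.lf (nat_lit 0) (nat_lit 20451790028) (nat_lit 76) (nat_lit 94869094002) (nat_lit 152) (nat_lit 255509372323) (nat_lit 4) (nat_lit 5) (nat_lit 5) (nat_lit 5) (nat_lit 6) (nat_lit 4) (nat_lit 238) (nat_lit 221) (nat_lit 141)))))) (XT.nd (nat_lit 546) (nat_lit 152) (nat_lit 0) (XT.nd (nat_lit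 234) (nat_lit 76) (nat_lit 0) (XT.nd (nat_lit 78) (nat_lit 0) (nat_lit 0) (XT.lf (nat_lit 0) (nat_lit 142975991679) (nat_lit 76) (nat_lit 29333085470) (nat_lit 152) (nat_lit 243242111012) (nat_lit 4) (nat_lit 5) (nat_lit 5) (nat_lit 5) (nat_lit 6) (nat_lit 4) (nat_lit 239) (nat_lit 221) (nat_lit 140)) (XT.nd (nat_lit 78) (nat_lit 0) (nat_lit 0) (XT.lf (nat_lit 0) (nat_lit 239751394070) (nat_lit 152) (nat_lit 185008009769) (nat_lit 0) (nat_lit 41934973371) (nat_lit 4) (nat_lit 5) (nat_lit 6) (nat_lit 4) (nat_lit 4) (nat_lit 4) (nat_lit 240) (nat_lit 221) (nat_lit 139)) (XT.lf (nat_lit 0) (nat_lit 318706657375) (nat_lit 152) (nat_lit 85702934130) (nat_lit 0) (nat_lit 120889964759) (nat_lit 4) (nat_lit 5) (nat_lit 6) (nat_lit 4) (nat_lit 4) (nat_lit 4) (nat_lit 241) (nat_lit 221) (nat_lit 138)))) (XT.nd (nat_lit 156) (nat_lit 0) (nat_lit 0) (XT.nd (nat_lit 78) (nat_lit 0) (nat_lit 0)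 (XT.lf (nat_lit 0) (nat_lit 31282566757) (nat_lit 76) (nat_lit 379517801062) (nat_lit 76) (nat_lit 181700871996) (nat_lit 3) (nat_lit 4) (nat_lit 4) (nat_lit 5) (nat_lit 4) (nat_lit 4) (nat_lit 242) (nat_lit 221) (nat_lit 137)) (XT.lf (nat_lit 0) (nat_lit 175447422227) (nat_lit 76) (nat_lit 345740463419) (nat_lit 76) (nat_lit 147923328744) (nat_lit 3) (nat_lit 4) (nat_lit 4) (nat_lit 5) (nat_lit 4) (nat_lit 4) (nat_lit 243) (nat_lit 221) (nat_lit 136))) (XT.nd (nat_lit 78) (nat_lit 0) (nat_lit 0) (XT.lf (nat_lit 0) (nat_lit 341236735001) (nat_lit 76) (nat_lit 306896643725) (nat_lit 76) (nat_lit 109079330259) (nat_lit 3) (nat_lit 4) (nat_lit 4) (nat_lit 5) (nat_lit 4) (nat_lit 4) (nat_lit 244) (nat_lit 221) (nat_lit 135)) (XT.lf (nat_lit 0) (nat_lit 531894209023) (nat_lit 76) (nat_lit 262226354203) (nat_lit 76) (nat_lit 64408885267) (nat_lit 3) (nat_lit 4) (nat_lit 4) (nat_lit 5) (nat_lit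 4) (nat_lit 4) (nat_lit 245) (nat_lit 221) (nat_lit 134))))) (XT.nd (nat_lit 312) (nat_lit 0) (nat_lit 0) (XT.nd (nat_lit 156) (nat_lit 76) (nat_lit 0) (XT.nd (nat_lit 78) (nat_lit 76) (nat_lit 0) (XT.lf (nat_lit 0) (nat_lit 751150099220) (nat_lit 76) (nat_lit 210855610928) (nat_lit 76) (nat_lit 13038006801) (nat_lit 3) (nat_lit 4) (nat_lit 4) (nat_lit 5) (nat_lit 4) (nat_lit 4) (nat_lit 246) (nat_lit 221) (nat_lit 133)) (XT.lf (nat_lit 0) (nat_lit 41939731923) (nat_lit 152) (nat_lit 107647298047) (nat_lit 76) (nat_lit 959162158656) (nat_lit 2) (nat_lit 5) (nat_lit 4) (nat_lit 5) (nat_lit 3) (nat_lit 4) (nat_lit 247) (nat_lit 221) (nat_lit 132))) (XT.nd (nat_lit 78) (nat_lit 0) (nat_lit 0) (XT.lf (nat_lit 0) (nat_lit 27898681236) (nat_lit 76) (nat_lit 77085739760) (nat_lit 152) (nat_lit 1157259661957) (nat_lit 1) (nat_lit 5) (nat_lit 2) (nat_lit 5) (nat_lit 3) (nat_lit 4) (nat_lit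 248) (nat_lit 221) (nat_lit 131)) (XT.lf (nat_lit 0) (nat_lit 183641181558) (nat_lit 152) (nat_lit 1242573119861) (nat_lit 0) (nat_lit 11625605212) (nat_lit 1) (nat_lit 5) (nat_lit 3) (nat_lit 4) (nat_lit 1) (nat_lit 4) (nat_lit 249) (nat_lit 221) (nat_lit 130)))) (XT.nd (nat_lit 156) (nat_lit 0) (nat_lit 0) (XT.nd (nat_lit 78) (nat_lit 0) (nat_lit 0) (XT.lf (nat_lit 0) (nat_lit 277767128106) (nat_lit 152) (nat_lit 1255705890787) (nat_lit 0) (nat_lit 105751484546) (nat_lit 1) (nat_lit 5) (nat_lit 3) (nat_lit 4) (nat_lit 1) (nat_lit 4) (nat_lit 250) (nat_lit 221) (nat_lit 129)) (XT.lf (nat_lit 0) (nat_lit 386011899150) (nat_lit 152) (nat_lit 1270808703915) (nat_lit 0) (nat_lit 213996197143) (nat_lit 1) (nat_lit 5) (nat_lit 3) (nat_lit 4) (nat_lit 1) (nat_lit 4) (nat_lit 251) (nat_lit 221) (nat_lit 128))) (XT.nd (nat_lit 78) (nat_lit 0) (nat_lit 0) (XT.lf (nat_lit 0) (nat_lit 510493327166)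 (nat_lit 152) (nat_lit 1288177049068) (nat_lit 0) (nat_lit 338477574336) (nat_lit 1) (nat_lit 5) (nat_lit 3) (nat_lit 4) (nat_lit 1) (nat_lit 4) (nat_lit 252) (nat_lit 221) (nat_lit 127)) (XT.lf (nat_lit 0) (nat_lit 653646918356) (nat_lit 152) (nat_lit 1308150741694) (nat_lit 0) (nat_lit 481631121331) (nat_lit 1) (nat_lit 5) (nat_lit 3) (nat_lit 4) (nat_lit 1) (nat_lit 4) (nat_lit 253) (nat_lit 221) (nat_lit 126))))))))
noncomputable def xc48 : XT := (XT.nd (nat_lit 29562) (nat_lit 0) (nat_lit 0) (XT.nd (nat_lit 1248) (nat_lit 0) (nat_lit 0) (XT.nd (nat_lit 546) (nat_lit 0) (nat_lit 0) (XT.nd (nat_lit 234) (nat_lit 0) (nat_lit 0) (XT.nd (nat_lit 78) (nat_lit 0) (nat_lit 0) (XT.lf (nat_lit 0) (nat_lit 818273503851) (nat_lit 152) (nat_lit 1331120571432) (nat_lit 0) (nat_lit 646257668396) (nat_lit 1) (nat_lit 5) (nat_lit 3) (nat_lit 4) (nat_lit 1) (nat_lit 4) (nat_lit 254) (nat_lit 221)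 (nat_lit 125)) (XT.nd (nat_lit 78) (nat_lit 0) (nat_lit 0) (XT.lf (nat_lit 0) (nat_lit 1007594038584) (nat_lit 152) (nat_lit 1357535947994) (nat_lit 0) (nat_lit 835578169712) (nat_lit 1) (nat_lit 5) (nat_lit 3) (nat_lit 4) (nat_lit 1) (nat_lit 4) (nat_lit 255) (nat_lit 221) (nat_lit 124)) (XT.lf (nat_lit 0) (nat_lit 1225312619974) (nat_lit 152) (nat_lit 1387913693965) (nat_lit 0) (nat_lit 1053296722044) (nat_lit 1) (nat_lit 5) (nat_lit 3) (nat_lit 4) (nat_lit 1) (nat_lit 4) (nat_lit 256) (nat_lit 221) (nat_lit 123)))) (XT.nd (nat_lit 156) (nat_lit 0) (nat_lit 0) (XT.nd (nat_lit 78) (nat_lit 0) (nat_lit 0) (XT.lf (nat_lit 0) (nat_lit 1475688959397) (nat_lit 152) (nat_lit 1422848156548) (nat_lit 0) (nat_lit 1303673036199) (nat_lit 1) (nat_lit 5) (nat_lit 3) (nat_lit 4) (nat_lit 1) (nat_lit 4) (nat_lit 257) (nat_lit 221) (nat_lit 122)) (XT.lf (nat_lit 0) (nat_lit 1763621724363) (nat_lit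 152) (nat_lit 1463022836099) (nat_lit 0) (nat_lit 1591605779193) (nat_lit 1) (nat_lit 5) (nat_lit 3) (nat_lit 4) (nat_lit 1) (nat_lit 4) (nat_lit 258) (nat_lit 221) (nat_lit 121))) (XT.nd (nat_lit 78) (nat_lit 0) (nat_lit 0) (XT.lf (nat_lit 0) (nat_lit 2094744382012) (nat_lit 152) (nat_lit 1509223758957) (nat_lit 0) (nat_lit 1922728417735) (nat_lit 1) (nat_lit 5) (nat_lit 3) (nat_lit 4) (nat_lit 1) (nat_lit 4) (nat_lit 259) (nat_lit 221) (nat_lit 120)) (XT.lf (nat_lit 0) (nat_lit 2475535419125) (nat_lit 152) (nat_lit 1562354856220) (nat_lit 0) (nat_lit 2303519438234) (nat_lit 1) (nat_lit 5) (nat_lit 3) (nat_lit 4) (nat_lit 1) (nat_lit 4) (nat_lit 260) (nat_lit 221) (nat_lit 119))))) (XT.nd (nat_lit 234) (nat_lit 0) (nat_lit 0) (XT.nd (nat_lit 78) (nat_lit 0) (nat_lit 0) (XT.lf (nat_lit 0) (nat_lit 2913445095123) (nat_lit 152) (nat_lit 1623455649357) (nat_lit 0) (nat_lit 2741429099785)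 (nat_lit 1) (nat_lit 5) (nat_lit 3) (nat_lit 4) (nat_lit 1) (nat_lit 4) (nat_lit 261) (nat_lit 221) (nat_lit 118)) (XT.nd (nat_lit 78) (nat_lit 0) (nat_lit 0) (XT.lf (nat_lit 0) (nat_lit 3417041208015) (nat_lit 152) (nat_lit 1693721588669) (nat_lit 0) (nat_lit 3245025200114) (nat_lit 1) (nat_lit 5) (nat_lit 3) (nat_lit 4) (nat_lit 1) (nat_lit 4) (nat_lit 262) (nat_lit 221) (nat_lit 117)) (XT.lf (nat_lit 0) (nat_lit 3996176725227) (nat_lit 152) (nat_lit 1774527442534) (nat_lit 0) (nat_lit 3824160706402) (nat_lit 1) (nat_lit 5) (nat_lit 3) (nat_lit 4) (nat_lit 1) (nat_lit 4) (nat_lit 263) (nat_lit 221) (nat_lit 116)))) (XT.nd (nat_lit 156) (nat_lit 0) (nat_lit 0) (XT.nd (nat_lit 78) (nat_lit 0) (nat_lit 0) (XT.lf (nat_lit 0) (nat_lit 4662182559052) (nat_lit 152) (nat_lit 1867454195048) (nat_lit 0) (nat_lit 4490166530728) (nat_lit 1) (nat_lit 5) (nat_lit 3) (nat_lit 4) (nat_lit 1) (nat_lit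 4) (nat_lit 264) (nat_lit 221) (nat_lit 115)) (XT.lf (nat_lit 0) (nat_lit 5428089258414) (nat_lit 152) (nat_lit 1974319978327) (nat_lit 0) (nat_lit 5256073221829) (nat_lit 1) (nat_lit 5) (nat_lit 3) (nat_lit 4) (nat_lit 1) (nat_lit 4) (nat_lit 265) (nat_lit 221) (nat_lit 114))) (XT.nd (nat_lit 234) (nat_lit 0) (nat_lit 0) (XT.lf (nat_lit 0) (nat_lit 6308881954386) (nat_lit 152) (nat_lit 2097215644651) (nat_lit 0) (nat_lit 6136865910618) (nat_lit 1) (nat_lit 5) (nat_lit 3) (nat_lit 4) (nat_lit 1) (nat_lit 4) (nat_lit 266) (nat_lit 221) (nat_lit 113)) (XT.lf (nat_lit 0) (nat_lit 9826217442683) (nat_lit 152) (nat_lit 2587984208639) (nat_lit 0) (nat_lit 9654201382515) (nat_lit 1) (nat_lit 5) (nat_lit 3) (nat_lit 4) (nat_lit 1) (nat_lit 4) (nat_lit 269) (nat_lit 221) (nat_lit 110)))))) (XT.nd (nat_lit 27690) (nat_lit 0) (nat_lit 532) (XT.nd (nat_lit 234) (nat_lit 0) (nat_lit 0) (XT.nd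 (nat_lit 78) (nat_lit 0) (nat_lit 0) (XT.lf (nat_lit 0) (nat_lit 11366729342617) (nat_lit 152) (nat_lit 2802929553917) (nat_lit 0) (nat_lit 11194713278343) (nat_lit 1) (nat_lit 5) (nat_lit 3) (nat_lit 4) (nat_lit 1) (nat_lit 4) (nat_lit 270) (nat_lit 221) (nat_lit 109)) (XT.nd (nat_lit 78) (nat_lit 0) (nat_lit 0) (XT.lf (nat_lit 0) (nat_lit 13138318023417) (nat_lit 152) (nat_lit 3050116708719) (nat_lit 0) (nat_lit 12966301955572) (nat_lit 1) (nat_lit 5) (nat_lit 3) (nat_lit 4) (nat_lit 1) (nat_lit 4) (nat_lit 271) (nat_lit 221) (nat_lit 108)) (XT.lf (nat_lit 0) (nat_lit 15175645002753) (nat_lit 152) (nat_lit 3334381943466) (nat_lit 0) (nat_lit 15003628931802) (nat_lit 1) (nat_lit 5) (nat_lit 3) (nat_lit 4) (nat_lit 1) (nat_lit 4) (nat_lit 272) (nat_lit 221) (nat_lit 107)))) (XT.nd (nat_lit 27300) (nat_lit 0) (nat_lit 1064) (XT.nd (nat_lit 78) (nat_lit 0) (nat_lit 0) (XT.lf (nat_lit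 0) (nat_lit 17518571025870) (nat_lit 152) (nat_lit 3661286969272) (nat_lit 0) (nat_lit 17346554952219) (nat_lit 1) (nat_lit 5) (nat_lit 3) (nat_lit 4) (nat_lit 1) (nat_lit 4) (nat_lit 273) (nat_lit 221) (nat_lit 106)) (XT.lf (nat_lit 0) (nat_lit 20212935949744) (nat_lit 152) (nat_lit 4037227754034) (nat_lit 0) (nat_lit 20040919873745) (nat_lit 1) (nat_lit 5) (nat_lit 3) (nat_lit 4) (nat_lit 1) (nat_lit 4) (nat_lit 274) (nat_lit 221) (nat_lit 105))) (XT.nd (nat_lit 78) (nat_lit 0) (nat_lit 0) (XT.lf (nat_lit 0) (nat_lit 18984004165) (nat_lit 0) (nat_lit 18984004165) (nat_lit 228) (nat_lit 6526772366) (nat_lit 15) (nat_lit 5) (nat_lit 15) (nat_lit 3) (nat_lit 18) (nat_lit 3) (nat_lit 222) (nat_lit 222) (nat_lit 156)) (XT.lf (nat_lit 0) (nat_lit 80284050201) (nat_lit 0) (nat_lit 1353876637) (nat_lit 228) (nat_lit 14024742789) (nat_lit 15) (nat_lit 5) (nat_lit 15) (nat_lit 3) (nat_lit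 18) (nat_lit 3) (nat_lit 223) (nat_lit 222) (nat_lit 155))))) (XT.nd (nat_lit 312) (nat_lit 304) (nat_lit 0) (XT.nd (nat_lit 156) (nat_lit 228) (nat_lit 0) (XT.nd (nat_lit 78) (nat_lit 0) (nat_lit 0) (XT.lf (nat_lit 76) (nat_lit 26260343219) (nat_lit 0) (nat_lit 64708464251) (nat_lit 304) (nat_lit 11951902291) (nat_lit 16) (nat_lit 5) (nat_lit 15) (nat_lit 5) (nat_lit 19) (nat_lit 5) (nat_lit 224) (nat_lit 222) (nat_lit 154)) (XT.lf (nat_lit 76) (nat_lit 75801944356) (nat_lit 0) (nat_lit 26761748445) (nat_lit 304) (nat_lit 8574123099) (nat_lit 16) (nat_lit 5) (nat_lit 15) (nat_lit 5) (nat_lit 19) (nat_lit 5) (nat_lit 225) (nat_lit 222) (nat_lit 153))) (XT.nd (nat_lit 78) (nat_lit 76) (nat_lit 0) (XT.lf (nat_lit 0) (nat_lit 12610271200) (nat_lit 228) (nat_lit 104507640619) (nat_lit 304) (nat_lit 3286574813) (nat_lit 13) (nat_lit 5) (nat_lit 16) (nat_lit 5) (nat_lit 17) (nat_lit 5)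 (nat_lit 226) (nat_lit 222) (nat_lit 152)) (XT.lf (nat_lit 0) (nat_lit 5753915283) (nat_lit 304) (nat_lit 60543408955) (nat_lit 76) (nat_lit 64265205452) (nat_lit 12) (nat_lit 5) (nat_lit 16) (nat_lit 5) (nat_lit 13) (nat_lit 5) (nat_lit 227) (nat_lit 222) (nat_lit 151)))) (XT.nd (nat_lit 156) (nat_lit 152) (nat_lit 0) (XT.nd (nat_lit 78) (nat_lit 152) (nat_lit 0) (XT.lf (nat_lit 0) (nat_lit 15813241081) (nat_lit 304) (nat_lit 6362265604) (nat_lit 76) (nat_lit 120045419337) (nat_lit 12) (nat_lit 5) (nat_lit 16) (nat_lit 5) (nat_lit 13) (nat_lit 5) (nat_lit 228) (nat_lit 222) (nat_lit 150)) (XT.lf (nat_lit 0) (nat_lit 31227671932) (nat_lit 228) (nat_lit 95137874931) (nat_lit 76) (nat_lit 28685611906) (nat_lit 10) (nat_lit 5) (nat_lit 13) (nat_lit 5) (nat_lit 11) (nat_lit 5) (nat_lit 229) (nat_lit 222) (nat_lit 149))) (XT.nd (nat_lit 78) (nat_lit 152) (nat_lit 0) (XT.lf (nat_lit 0)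 (nat_lit 50358053799) (nat_lit 228) (nat_lit 33983398548) (nat_lit 76) (nat_lit 85253912987) (nat_lit 10) (nat_lit 5) (nat_lit 13) (nat_lit 5) (nat_lit 11) (nat_lit 5) (nat_lit 230) (nat_lit 222) (nat_lit 148)) (XT.lf (nat_lit 0) (nat_lit 39895365058) (nat_lit 152) (nat_lit 34114088223) (nat_lit 228) (nat_lit 112064036520) (nat_lit 8) (nat_lit 5) (nat_lit 10) (nat_lit 5) (nat_lit 11) (nat_lit 5) (nat_lit 231) (nat_lit 222) (nat_lit 147))))))) (XT.nd (nat_lit 1170) (nat_lit 152) (nat_lit 0) (XT.nd (nat_lit 546) (nat_lit 152) (nat_lit 0) (XT.nd (nat_lit 234) (nat_lit 152) (nat_lit 0) (XT.nd (nat_lit 78) (nat_lit 76) (nat_lit 0) (XT.lf (nat_lit 0) (nat_lit 104048261117) (nat_lit 228) (nat_lit 77146124274) (nat_lit 76) (nat_lit 23402997972) (nat_lit 8) (nat_lit 5) (nat_lit 11) (nat_lit 5) (nat_lit 9) (nat_lit 4) (nat_lit 232) (nat_lit 222) (nat_lit 146)) (XT.nd (nat_lit 78) (nat_lit 0)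 (nat_lit 0) (XT.lf (nat_lit 0) (nat_lit 675758712) (nat_lit 76) (nat_lit 139569171967) (nat_lit 152) (nat_lit 85407128710) (nat_lit 7) (nat_lit 5) (nat_lit 8) (nat_lit 5) (nat_lit 9) (nat_lit 4) (nat_lit 233) (nat_lit 222) (nat_lit 145)) (XT.lf (nat_lit 0) (nat_lit 98840525824) (nat_lit 76) (nat_lit 87062822955) (nat_lit 152) (nat_lit 63356754750) (nat_lit 7) (nat_lit 5) (nat_lit 8) (nat_lit 5) (nat_lit 9) (nat_lit 4) (nat_lit 234) (nat_lit 222) (nat_lit 144)))) (XT.nd (nat_lit 156) (nat_lit 76) (nat_lit 0) (XT.nd (nat_lit 78) (nat_lit 76) (nat_lit 0) (XT.lf (nat_lit 0) (nat_lit 211729511743) (nat_lit 76) (nat_lit 26680678536) (nat_lit 152) (nat_lit 37999218319) (nat_lit 7) (nat_lit 5) (nat_lit 8) (nat_lit 5) (nat_lit 9) (nat_lit 4) (nat_lit 235) (nat_lit 222) (nat_lit 143)) (XT.lf (nat_lit 0) (nat_lit 35291616558) (nat_lit 76) (nat_lit 266733041530) (nat_lit 76) (nat_lit 5121714294)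 (nat_lit 6) (nat_lit 4) (nat_lit 7) (nat_lit 5) (nat_lit 7) (nat_lit 4) (nat_lit 236) (nat_lit 222) (nat_lit 142))) (XT.nd (nat_lit 78) (nat_lit 0) (nat_lit 0) (XT.lf (nat_lit 0) (nat_lit 34589562559) (nat_lit 152) (nat_lit 187244243317) (nat_lit 76) (nat_lit 119735218631) (nat_lit 5) (nat_lit 5) (nat_lit 7) (nat_lit 5) (nat_lit 6) (nat_lit 4) (nat_lit 237) (nat_lit 222) (nat_lit 141)) (XT.lf (nat_lit 0) (nat_lit 79732907671) (nat_lit 152) (nat_lit 90186464881) (nat_lit 76) (nat_lit 211199158770) (nat_lit 5) (nat_lit 5) (nat_lit 7) (nat_lit 5) (nat_lit 6) (nat_lit 4) (nat_lit 238) (nat_lit 222) (nat_lit 140))))) (XT.nd (nat_lit 312) (nat_lit 76) (nat_lit 0) (XT.nd (nat_lit 156) (nat_lit 0) (nat_lit 0) (XT.nd (nat_lit 78) (nat_lit 0) (nat_lit 0) (XT.lf (nat_lit 0) (nat_lit 23523873143) (nat_lit 76) (nat_lit 109097731102) (nat_lit 152) (nat_lit 293832784154) (nat_lit 4) (nat_lit 5)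 (nat_lit 5) (nat_lit 5) (nat_lit 6) (nat_lit 4) (nat_lit 239) (nat_lit 222) (nat_lit 139)) (XT.lf (nat_lit 0) (nat_lit 164426142266) (nat_lit 76) (nat_lit 33731546550) (nat_lit 152) (nat_lit 279725824170) (nat_lit 4) (nat_lit 5) (nat_lit 5) (nat_lit 5) (nat_lit 6) (nat_lit 4) (nat_lit 240) (nat_lit 222) (nat_lit 138))) (XT.nd (nat_lit 78) (nat_lit 0) (nat_lit 0) (XT.lf (nat_lit 0) (nat_lit 275716113858) (nat_lit 152) (nat_lit 212755695539) (nat_lit 0) (nat_lit 48226408981) (nat_lit 4) (nat_lit 5) (nat_lit 6) (nat_lit 4) (nat_lit 4) (nat_lit 4) (nat_lit 241) (nat_lit 222) (nat_lit 137)) (XT.lf (nat_lit 0) (nat_lit 366514404397) (nat_lit 152) (nat_lit 98555317123) (nat_lit 0) (nat_lit 139024493912) (nat_lit 4) (nat_lit 5) (nat_lit 6) (nat_lit 4) (nat_lit 4) (nat_lit 4) (nat_lit 242) (nat_lit 222) (nat_lit 136)))) (XT.nd (nat_lit 156) (nat_lit 0) (nat_lit 0) (XT.nd (nat_lit 78) (nat_lit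 0) (nat_lit 0) (XT.lf (nat_lit 0) (nat_lit 35977869936) (nat_lit 76) (nat_lit 436444194251) (nat_lit 76) (nat_lit 208954104976) (nat_lit 3) (nat_lit 4) (nat_lit 4) (nat_lit 5) (nat_lit 4) (nat_lit 4) (nat_lit 243) (nat_lit 222) (nat_lit 135)) (XT.lf (nat_lit 0) (nat_lit 201767073097) (nat_lit 76) (nat_lit 397600422523) (nat_lit 76) (nat_lit 170110177778) (nat_lit 3) (nat_lit 4) (nat_lit 4) (nat_lit 5) (nat_lit 4) (nat_lit 4) (nat_lit 244) (nat_lit 222) (nat_lit 134))) (XT.nd (nat_lit 78) (nat_lit 0) (nat_lit 0) (XT.lf (nat_lit 0) (nat_lit 392424451804) (nat_lit 76) (nat_lit 352930174710) (nat_lit 76) (nat_lit 125439794774) (nat_lit 3) (nat_lit 4) (nat_lit 4) (nat_lit 5) (nat_lit 4) (nat_lit 4) (nat_lit 245) (nat_lit 222) (nat_lit 133)) (XT.lf (nat_lit 0) (nat_lit 611680259118) (nat_lit 76) (nat_lit 301559467704) (nat_lit 76) (nat_lit 74068970210) (nat_lit 3) (nat_lit 4) (nat_lit 4)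 (nat_lit 5) (nat_lit 4) (nat_lit 4) (nat_lit 246) (nat_lit 222) (nat_lit 132)))))) (XT.nd (nat_lit 546) (nat_lit 0) (nat_lit 0) (XT.nd (nat_lit 234) (nat_lit 0) (nat_lit 0) (XT.nd (nat_lit 78) (nat_lit 152) (nat_lit 0) (XT.lf (nat_lit 0) (nat_lit 863824282574) (nat_lit 76) (nat_lit 242483222455) (nat_lit 76) (nat_lit 14992622737) (nat_lit 3) (nat_lit 4) (nat_lit 4) (nat_lit 5) (nat_lit 4) (nat_lit 4) (nat_lit 247) (nat_lit 222) (nat_lit 131)) (XT.nd (nat_lit 78) (nat_lit 76) (nat_lit 0) (XT.lf (nat_lit 0) (nat_lit 48231551262) (nat_lit 152) (nat_lit 123792853394) (nat_lit 76) (nat_lit 1103037028817) (nat_lit 2) (nat_lit 5) (nat_lit 4) (nat_lit 5) (nat_lit 3) (nat_lit 4) (nat_lit 248) (nat_lit 222) (nat_lit 130)) (XT.lf (nat_lit 0) (nat_lit 32084952812) (nat_lit 76) (nat_lit 88647939613) (nat_lit 152) (nat_lit 1330847677803) (nat_lit 1) (nat_lit 5) (nat_lit 2) (nat_lit 5) (nat_lit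 3) (nat_lit 4) (nat_lit 249) (nat_lit 222) (nat_lit 129)))) (XT.nd (nat_lit 156) (nat_lit 0) (nat_lit 0) (XT.nd (nat_lit 78) (nat_lit 0) (nat_lit 0) (XT.lf (nat_lit 0) (nat_lit 211188085448) (nat_lit 152) (nat_lit 1428957725073) (nat_lit 0) (nat_lit 13369969693) (nat_lit 1) (nat_lit 5) (nat_lit 3) (nat_lit 4) (nat_lit 1) (nat_lit 4) (nat_lit 250) (nat_lit 222) (nat_lit 128)) (XT.lf (nat_lit 0) (nat_lit 319432829197) (nat_lit 152) (nat_lit 1444060589390) (nat_lit 0) (nat_lit 121614662618) (nat_lit 1) (nat_lit 5) (nat_lit 3) (nat_lit 4) (nat_lit 1) (nat_lit 4) (nat_lit 251) (nat_lit 222) (nat_lit 127))) (XT.nd (nat_lit 78) (nat_lit 0) (nat_lit 0) (XT.lf (nat_lit 0) (nat_lit 443914233479) (nat_lit 152) (nat_lit 1461428979054) (nat_lit 0) (nat_lit 246096022706) (nat_lit 1) (nat_lit 5) (nat_lit 3) (nat_lit 4) (nat_lit 1) (nat_lit 4) (nat_lit 252) (nat_lit 222) (nat_lit 126)) (XT.lf (nat_lit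 0) (nat_lit 587067804029) (nat_lit 152) (nat_lit 1481402710386) (nat_lit 0) (nat_lit 389249554827) (nat_lit 1) (nat_lit 5) (nat_lit 3) (nat_lit 4) (nat_lit 1) (nat_lit 4) (nat_lit 253) (nat_lit 222) (nat_lit 125))))) (XT.nd (nat_lit 312) (nat_lit 0) (nat_lit 0) (XT.nd (nat_lit 156) (nat_lit 0) (nat_lit 0) (XT.nd (nat_lit 78) (nat_lit 0) (nat_lit 0) (XT.lf (nat_lit 0) (nat_lit 751694371577) (nat_lit 152) (nat_lit 1504372573782) (nat_lit 0) (nat_lit 553876088958) (nat_lit 1) (nat_lit 5) (nat_lit 3) (nat_lit 4) (nat_lit 1) (nat_lit 4) (nat_lit 254) (nat_lit 222) (nat_lit 124)) (XT.lf (nat_lit 0) (nat_lit 941014890705) (nat_lit 152) (nat_lit 1530787979611) (nat_lit 0) (nat_lit 743196579027) (nat_lit 1) (nat_lit 5) (nat_lit 3) (nat_lit 4) (nat_lit 1) (nat_lit 4) (nat_lit 255) (nat_lit 222) (nat_lit 123))) (XT.nd (nat_lit 78) (nat_lit 0) (nat_lit 0) (XT.lf (nat_lit 0) (nat_lit 1158733458525)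 (nat_lit 152) (nat_lit 1561165751031) (nat_lit 0) (nat_lit 960915121579) (nat_lit 1) (nat_lit 5) (nat_lit 3) (nat_lit 4) (nat_lit 1) (nat_lit 4) (nat_lit 256) (nat_lit 222) (nat_lit 122)) (XT.lf (nat_lit 0) (nat_lit 1409109786148) (nat_lit 152) (nat_lit 1596100235745) (nat_lit 0) (nat_lit 1211291427229) (nat_lit 1) (nat_lit 5) (nat_lit 3) (nat_lit 4) (nat_lit 1) (nat_lit 4) (nat_lit 257) (nat_lit 222) (nat_lit 121)))) (XT.nd (nat_lit 156) (nat_lit 0) (nat_lit 0) (XT.nd (nat_lit 78) (nat_lit 0) (nat_lit 0) (XT.lf (nat_lit 0) (nat_lit 1697042540852) (nat_lit 152) (nat_lit 1636274934539) (nat_lit 0) (nat_lit 1499224162827) (nat_lit 1) (nat_lit 5) (nat_lit 3) (nat_lit 4) (nat_lit 1) (nat_lit 4) (nat_lit 258) (nat_lit 222) (nat_lit 120)) (XT.lf (nat_lit 0) (nat_lit 2028165189579) (nat_lit 152) (nat_lit 1682475874130) (nat_lit 0) (nat_lit 1830346794940) (nat_lit 1) (nat_lit 5) (nat_lit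 3) (nat_lit 4) (nat_lit 1) (nat_lit 4) (nat_lit 259) (nat_lit 222) (nat_lit 119))) (XT.nd (nat_lit 78) (nat_lit 0) (nat_lit 0) (XT.lf (nat_lit 0) (nat_lit 2408956218932) (nat_lit 152) (nat_lit 1735606985945) (nat_lit 0) (nat_lit 2211137809846) (nat_lit 1) (nat_lit 5) (nat_lit 3) (nat_lit 4) (nat_lit 1) (nat_lit 4) (nat_lit 260) (nat_lit 222) (nat_lit 118)) (XT.lf (nat_lit 0) (nat_lit 2846865888183) (nat_lit 152) (nat_lit 1796707791735) (nat_lit 0) (nat_lit 2649047466535) (nat_lit 1) (nat_lit 5) (nat_lit 3) (nat_lit 4) (nat_lit 1) (nat_lit 4) (nat_lit 261) (nat_lit 222) (nat_lit 117))))))))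
noncomputable def xc49 : XT := (XT.nd (nat_lit 29640) (nat_lit 0) (nat_lit 0) (XT.nd (nat_lit 28470) (nat_lit 0) (nat_lit 228) (XT.nd (nat_lit 624) (nat_lit 0) (nat_lit 0) (XT.nd (nat_lit 234) (nat_lit 0) (nat_lit 0) (XT.nd (nat_lit 78) (nat_lit 0) (nat_lit 0) (XT.lf (nat_lit 0) (nat_lit 3350461995209) (nat_lit 152) (nat_lit 1866973742050) (nat_lit 0) (nat_lit 3152643562635) (nat_lit 1) (nat_lit 5) (nat_lit 3) (nat_lit 4) (nat_lit 1) (nat_lit 4) (nat_lit 262) (nat_lit 222) (nat_lit 116)) (XT.nd (nat_lit 78) (nat_lit 0) (nat_lit 0) (XT.lf (nat_lit 0) (nat_lit 3929597507319) (nat_lit 152) (nat_lit 1947779605482) (nat_lit 0) (nat_lit 3731779065247) (nat_lit 1) (nat_lit 5) (nat_lit 3) (nat_lit 4) (nat_lit 1) (nat_lit 4) (nat_lit 263) (nat_lit 222) (nat_lit 115)) (XT.lf (nat_lit 0) (nat_lit 4595603336708) (nat_lit 152) (nat_lit 2040706366316) (nat_lit 0) (nat_lit 4397784886376) (nat_lit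 1) (nat_lit 5) (nat_lit 3) (nat_lit 4) (nat_lit 1) (nat_lit 4) (nat_lit 264) (nat_lit 222) (nat_lit 114)))) (XT.nd (nat_lit 234) (nat_lit 0) (nat_lit 0) (XT.nd (nat_lit 78) (nat_lit 0) (nat_lit 0) (XT.lf (nat_lit 0) (nat_lit 5361510032212) (nat_lit 152) (nat_lit 2147572156829) (nat_lit 0) (nat_lit 5163691574697) (nat_lit 1) (nat_lit 5) (nat_lit 3) (nat_lit 4) (nat_lit 1) (nat_lit 4) (nat_lit 265) (nat_lit 222) (nat_lit 113)) (XT.lf (nat_lit 0) (nat_lit 6242302724830) (nat_lit 152) (nat_lit 2270467829444) (nat_lit 0) (nat_lit 6044484261068) (nat_lit 1) (nat_lit 5) (nat_lit 3) (nat_lit 4) (nat_lit 1) (nat_lit 4) (nat_lit 266) (nat_lit 222) (nat_lit 112))) (XT.nd (nat_lit 78) (nat_lit 0) (nat_lit 0) (XT.lf (nat_lit 0) (nat_lit 8420062638390) (nat_lit 152) (nat_lit 2574327415499) (nat_lit 0) (nat_lit 8222244164475) (nat_lit 1) (nat_lit 5) (nat_lit 3) (nat_lit 4) (nat_lit 1) (nat_lit 4)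 (nat_lit 268) (nat_lit 222) (nat_lit 110)) (XT.lf (nat_lit 0) (nat_lit 9759638205468) (nat_lit 152) (nat_lit 2761236407795) (nat_lit 0) (nat_lit 9561819727446) (nat_lit 1) (nat_lit 5) (nat_lit 3) (nat_lit 4) (nat_lit 1) (nat_lit 4) (nat_lit 269) (nat_lit 222) (nat_lit 109))))) (XT.nd (nat_lit 234) (nat_lit 0) (nat_lit 0) (XT.nd (nat_lit 78) (nat_lit 0) (nat_lit 0) (XT.lf (nat_lit 0) (nat_lit 11300150103484) (nat_lit 152) (nat_lit 2976181756670) (nat_lit 0) (nat_lit 11102331621891) (nat_lit 1) (nat_lit 5) (nat_lit 3) (nat_lit 4) (nat_lit 1) (nat_lit 4) (nat_lit 270) (nat_lit 222) (nat_lit 108)) (XT.nd (nat_lit 78) (nat_lit 0) (nat_lit 0) (XT.lf (nat_lit 0) (nat_lit 13071738782617) (nat_lit 152) (nat_lit 3223368914600) (nat_lit 0) (nat_lit 12873920297919) (nat_lit 1) (nat_lit 5) (nat_lit 3) (nat_lit 4) (nat_lit 1) (nat_lit 4) (nat_lit 271) (nat_lit 222) (nat_lit 107)) (XT.lf (nat_lit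 0) (nat_lit 15109065760502) (nat_lit 152) (nat_lit 3507634152066) (nat_lit 0) (nat_lit 14911247273103) (nat_lit 1) (nat_lit 5) (nat_lit 3) (nat_lit 4) (nat_lit 1) (nat_lit 4) (nat_lit 272) (nat_lit 222) (nat_lit 106)))) (XT.nd (nat_lit 27456) (nat_lit 0) (nat_lit 1064) (XT.nd (nat_lit 27378) (nat_lit 0) (nat_lit 1064) (XT.lf (nat_lit 0) (nat_lit 17451991782358) (nat_lit 152) (nat_lit 3834539180238) (nat_lit 0) (nat_lit 17254173292612) (nat_lit 1) (nat_lit 5) (nat_lit 3) (nat_lit 4) (nat_lit 1) (nat_lit 4) (nat_lit 273) (nat_lit 222) (nat_lit 105)) (XT.lf (nat_lit 0) (nat_lit 21834820352) (nat_lit 0) (nat_lit 21834820352) (nat_lit 228) (nat_lit 7498294141) (nat_lit 15) (nat_lit 5) (nat_lit 15) (nat_lit 3) (nat_lit 18) (nat_lit 3) (nat_lit 223) (nat_lit 223) (nat_lit 154))) (XT.nd (nat_lit 78) (nat_lit 0) (nat_lit 0) (XT.lf (nat_lit 0) (nat_lit 92332250012) (nat_lit 0) (nat_lit 1562550414)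 (nat_lit 228) (nat_lit 16115421026) (nat_lit 15) (nat_lit 5) (nat_lit 15) (nat_lit 3) (nat_lit 18) (nat_lit 3) (nat_lit 224) (nat_lit 223) (nat_lit 153)) (XT.lf (nat_lit 76) (nat_lit 30206718419) (nat_lit 0) (nat_lit 74417237777) (nat_lit 304) (nat_lit 13733237249) (nat_lit 16) (nat_lit 5) (nat_lit 15) (nat_lit 5) (nat_lit 19) (nat_lit 5) (nat_lit 225) (nat_lit 223) (nat_lit 152)))))) (XT.nd (nat_lit 546) (nat_lit 304) (nat_lit 0) (XT.nd (nat_lit 234) (nat_lit 304) (nat_lit 0) (XT.nd (nat_lit 78) (nat_lit 228) (nat_lit 0) (XT.lf (nat_lit 76) (nat_lit 87178604459) (nat_lit 0) (nat_lit 30778188006) (nat_lit 304) (nat_lit 9850284707) (nat_lit 16) (nat_lit 5) (nat_lit 15) (nat_lit 5) (nat_lit 19) (nat_lit 5) (nat_lit 226) (nat_lit 223) (nat_lit 151)) (XT.nd (nat_lit 78) (nat_lit 76) (nat_lit 0) (XT.lf (nat_lit 0) (nat_lit 14509323885) (nat_lit 228) (nat_lit 120183938447) (nat_lit 304)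 (nat_lit 3770635341) (nat_lit 13) (nat_lit 5) (nat_lit 16) (nat_lit 5) (nat_lit 17) (nat_lit 5) (nat_lit 227) (nat_lit 223) (nat_lit 150)) (XT.lf (nat_lit 0) (nat_lit 6624073068) (nat_lit 304) (nat_lit 69617612155) (nat_lit 76) (nat_lit 73904078361) (nat_lit 12) (nat_lit 5) (nat_lit 16) (nat_lit 5) (nat_lit 13) (nat_lit 5) (nat_lit 228) (nat_lit 223) (nat_lit 149)))) (XT.nd (nat_lit 156) (nat_lit 152) (nat_lit 0) (XT.nd (nat_lit 78) (nat_lit 152) (nat_lit 0) (XT.lf (nat_lit 0) (nat_lit 18191375498) (nat_lit 304) (nat_lit 7310250537) (nat_lit 76) (nat_lit 138051442752) (nat_lit 12) (nat_lit 5) (nat_lit 16) (nat_lit 5) (nat_lit 13) (nat_lit 5) (nat_lit 229) (nat_lit 223) (nat_lit 148)) (XT.lf (nat_lit 0) (nat_lit 35917439615) (nat_lit 228) (nat_lit 109401605641) (nat_lit 76) (nat_lit 32988880534) (nat_lit 10) (nat_lit 5) (nat_lit 13) (nat_lit 5) (nat_lit 11) (nat_lit 5) (nat_lit 230)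 (nat_lit 223) (nat_lit 147))) (XT.nd (nat_lit 78) (nat_lit 152) (nat_lit 0) (XT.lf (nat_lit 0) (nat_lit 57916646124) (nat_lit 228) (nat_lit 39074864390) (nat_lit 76) (nat_lit 98042371103) (nat_lit 10) (nat_lit 5) (nat_lit 13) (nat_lit 5) (nat_lit 11) (nat_lit 5) (nat_lit 231) (nat_lit 223) (nat_lit 146)) (XT.lf (nat_lit 0) (nat_lit 45885439032) (nat_lit 152) (nat_lit 39229918310) (nat_lit 228) (nat_lit 128868434429) (nat_lit 8) (nat_lit 5) (nat_lit 10) (nat_lit 5) (nat_lit 11) (nat_lit 5) (nat_lit 232) (nat_lit 223) (nat_lit 145))))) (XT.nd (nat_lit 312) (nat_lit 228) (nat_lit 0) (XT.nd (nat_lit 156) (nat_lit 0) (nat_lit 0) (XT.nd (nat_lit 78) (nat_lit 76) (nat_lit 0) (XT.lf (nat_lit 0) (nat_lit 119659447416) (nat_lit 228) (nat_lit 88712445017) (nat_lit 76) (nat_lit 26914464113) (nat_lit 8) (nat_lit 5) (nat_lit 11) (nat_lit 5) (nat_lit 9) (nat_lit 4) (nat_lit 233) (nat_lit 223) (nat_lit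 144)) (XT.lf (nat_lit 0) (nat_lit 782465967) (nat_lit 76) (nat_lit 160502857863) (nat_lit 152) (nat_lit 98213959695) (nat_lit 7) (nat_lit 5) (nat_lit 8) (nat_lit 5) (nat_lit 9) (nat_lit 4) (nat_lit 234) (nat_lit 223) (nat_lit 143))) (XT.nd (nat_lit 78) (nat_lit 0) (nat_lit 0) (XT.lf (nat_lit 0) (nat_lit 113671251174) (nat_lit 76) (nat_lit 100120776920) (nat_lit 152) (nat_lit 72856582465) (nat_lit 7) (nat_lit 5) (nat_lit 8) (nat_lit 5) (nat_lit 9) (nat_lit 4) (nat_lit 235) (nat_lit 223) (nat_lit 142)) (XT.lf (nat_lit 0) (nat_lit 243492978919) (nat_lit 76) (nat_lit 30681502510) (nat_lit 152) (nat_lit 43695896286) (nat_lit 7) (nat_lit 5) (nat_lit 8) (nat_lit 5) (nat_lit 9) (nat_lit 4) (nat_lit 236) (nat_lit 223) (nat_lit 141)))) (XT.nd (nat_lit 156) (nat_lit 76) (nat_lit 0) (XT.nd (nat_lit 78) (nat_lit 76) (nat_lit 0) (XT.lf (nat_lit 0) (nat_lit 40589587370) (nat_lit 76) (nat_lit 306741392795)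 (nat_lit 76) (nat_lit 5886930413) (nat_lit 6) (nat_lit 4) (nat_lit 7) (nat_lit 5) (nat_lit 7) (nat_lit 4) (nat_lit 237) (nat_lit 223) (nat_lit 140)) (XT.lf (nat_lit 0) (nat_lit 39780405894) (nat_lit 152) (nat_lit 215326949321) (nat_lit 76) (nat_lit 137696643359) (nat_lit 5) (nat_lit 5) (nat_lit 7) (nat_lit 5) (nat_lit 6) (nat_lit 4) (nat_lit 238) (nat_lit 223) (nat_lit 139))) (XT.nd (nat_lit 78) (nat_lit 76) (nat_lit 0) (XT.lf (nat_lit 0) (nat_lit 91694938561) (nat_lit 152) (nat_lit 103711016792) (nat_lit 76) (nat_lit 242880025571) (nat_lit 5) (nat_lit 5) (nat_lit 7) (nat_lit 5) (nat_lit 6) (nat_lit 4) (nat_lit 239) (nat_lit 223) (nat_lit 138)) (XT.lf (nat_lit 0) (nat_lit 27055716580) (nat_lit 76) (nat_lit 125461084906) (nat_lit 152) (nat_lit 337905437869) (nat_lit 4) (nat_lit 5) (nat_lit 5) (nat_lit 5) (nat_lit 6) (nat_lit 4) (nat_lit 240) (nat_lit 223) (nat_lit 137))))))) (XT.nd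 (nat_lit 1170) (nat_lit 0) (nat_lit 0) (XT.nd (nat_lit 546) (nat_lit 152) (nat_lit 0) (XT.nd (nat_lit 234) (nat_lit 76) (nat_lit 0) (XT.nd (nat_lit 78) (nat_lit 0) (nat_lit 0) (XT.lf (nat_lit 0) (nat_lit 189092900532) (nat_lit 76) (nat_lit 38790143002) (nat_lit 152) (nat_lit 321682729181) (nat_lit 4) (nat_lit 5) (nat_lit 5) (nat_lit 5) (nat_lit 6) (nat_lit 4) (nat_lit 241) (nat_lit 223) (nat_lit 136)) (XT.nd (nat_lit 78) (nat_lit 0) (nat_lit 0) (XT.lf (nat_lit 0) (nat_lit 317075051297) (nat_lit 152) (nat_lit 244666391499) (nat_lit 0) (nat_lit 55461269840) (nat_lit 4) (nat_lit 5) (nat_lit 6) (nat_lit 4) (nat_lit 4) (nat_lit 4) (nat_lit 242) (nat_lit 223) (nat_lit 135)) (XT.lf (nat_lit 0) (nat_lit 421492887109) (nat_lit 152) (nat_lit 113336303065) (nat_lit 0) (nat_lit 159878950182) (nat_lit 4) (nat_lit 5) (nat_lit 6) (nat_lit 4) (nat_lit 4) (nat_lit 4) (nat_lit 243) (nat_lit 223) (nat_lit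 134)))) (XT.nd (nat_lit 156) (nat_lit 0) (nat_lit 0) (XT.nd (nat_lit 78) (nat_lit 0) (nat_lit 0) (XT.lf (nat_lit 0) (nat_lit 41376756979) (nat_lit 76) (nat_lit 501909857816) (nat_lit 76) (nat_lit 240295785698) (nat_lit 3) (nat_lit 4) (nat_lit 4) (nat_lit 5) (nat_lit 4) (nat_lit 4) (nat_lit 244) (nat_lit 223) (nat_lit 133)) (XT.lf (nat_lit 0) (nat_lit 232034052803) (nat_lit 76) (nat_lit 457239646273) (nat_lit 76) (nat_lit 195625456597) (nat_lit 3) (nat_lit 4) (nat_lit 4) (nat_lit 5) (nat_lit 4) (nat_lit 4) (nat_lit 245) (nat_lit 223) (nat_lit 132))) (XT.nd (nat_lit 78) (nat_lit 0) (nat_lit 0) (XT.lf (nat_lit 0) (nat_lit 451289788045) (nat_lit 76) (nat_lit 405868970805) (nat_lit 76) (nat_lit 144254678906) (nat_lit 3) (nat_lit 4) (nat_lit 4) (nat_lit 5) (nat_lit 4) (nat_lit 4) (nat_lit 246) (nat_lit 223) (nat_lit 131)) (XT.lf (nat_lit 0) (nat_lit 703433748830) (nat_lit 76) (nat_lit 346792752980)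 (nat_lit 76) (nat_lit 85178372190) (nat_lit 3) (nat_lit 4) (nat_lit 4) (nat_lit 5) (nat_lit 4) (nat_lit 4) (nat_lit 247) (nat_lit 223) (nat_lit 130))))) (XT.nd (nat_lit 312) (nat_lit 0) (nat_lit 0) (XT.nd (nat_lit 156) (nat_lit 76) (nat_lit 0) (XT.nd (nat_lit 78) (nat_lit 76) (nat_lit 0) (XT.lf (nat_lit 0) (nat_lit 993399186564) (nat_lit 76) (nat_lit 278855153754) (nat_lit 76) (nat_lit 17240695668) (nat_lit 3) (nat_lit 4) (nat_lit 4) (nat_lit 5) (nat_lit 4) (nat_lit 4) (nat_lit 248) (nat_lit 223) (nat_lit 129)) (XT.lf (nat_lit 0) (nat_lit 55466933895) (nat_lit 152) (nat_lit 142360617425) (nat_lit 76) (nat_lit 1268492996269) (nat_lit 2) (nat_lit 5) (nat_lit 4) (nat_lit 5) (nat_lit 3) (nat_lit 4) (nat_lit 249) (nat_lit 223) (nat_lit 128))) (XT.nd (nat_lit 78) (nat_lit 0) (nat_lit 0) (XT.lf (nat_lit 0) (nat_lit 36898806804) (nat_lit 76) (nat_lit 101944630661) (nat_lit 152) (nat_lit 1530474123654)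 (nat_lit 1) (nat_lit 5) (nat_lit 2) (nat_lit 5) (nat_lit 3) (nat_lit 4) (nat_lit 250) (nat_lit 223) (nat_lit 127)) (XT.lf (nat_lit 0) (nat_lit 242866847721) (nat_lit 152) (nat_lit 1643300353385) (nat_lit 0) (nat_lit 15375861139) (nat_lit 1) (nat_lit 5) (nat_lit 3) (nat_lit 4) (nat_lit 1) (nat_lit 4) (nat_lit 251) (nat_lit 223) (nat_lit 126)))) (XT.nd (nat_lit 156) (nat_lit 0) (nat_lit 0) (XT.nd (nat_lit 78) (nat_lit 0) (nat_lit 0) (XT.lf (nat_lit 0) (nat_lit 367348231364) (nat_lit 152) (nat_lit 1660668781756) (nat_lit 0) (nat_lit 139857206352) (nat_lit 1) (nat_lit 5) (nat_lit 3) (nat_lit 4) (nat_lit 1) (nat_lit 4) (nat_lit 252) (nat_lit 223) (nat_lit 125)) (XT.lf (nat_lit 0) (nat_lit 510501783968) (nat_lit 152) (nat_lit 1680642546745) (nat_lit 0) (nat_lit 283010725539) (nat_lit 1) (nat_lit 5) (nat_lit 3) (nat_lit 4) (nat_lit 1) (nat_lit 4) (nat_lit 253) (nat_lit 223) (nat_lit 124)))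 (XT.nd (nat_lit 78) (nat_lit 0) (nat_lit 0) (XT.lf (nat_lit 0) (nat_lit 675128335910) (nat_lit 152) (nat_lit 1703612439408) (nat_lit 0) (nat_lit 447637248422) (nat_lit 1) (nat_lit 5) (nat_lit 3) (nat_lit 4) (nat_lit 1) (nat_lit 4) (nat_lit 254) (nat_lit 223) (nat_lit 123)) (XT.lf (nat_lit 0) (nat_lit 864448841467) (nat_lit 152) (nat_lit 1730027870687) (nat_lit 0) (nat_lit 636957728711) (nat_lit 1) (nat_lit 5) (nat_lit 3) (nat_lit 4) (nat_lit 1) (nat_lit 4) (nat_lit 255) (nat_lit 223) (nat_lit 122)))))) (XT.nd (nat_lit 546) (nat_lit 0) (nat_lit 0) (XT.nd (nat_lit 234) (nat_lit 0) (nat_lit 0) (XT.nd (nat_lit 78) (nat_lit 0) (nat_lit 0) (XT.lf (nat_lit 0) (nat_lit 1082167397487) (nat_lit 152) (nat_lit 1760405664238) (nat_lit 0) (nat_lit 854676262759) (nat_lit 1) (nat_lit 5) (nat_lit 3) (nat_lit 4) (nat_lit 1) (nat_lit 4) (nat_lit 256) (nat_lit 223) (nat_lit 121)) (XT.nd (nat_lit 78)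 (nat_lit 0) (nat_lit 0) (XT.lf (nat_lit 0) (nat_lit 1332543714849) (nat_lit 152) (nat_lit 1795340168195) (nat_lit 0) (nat_lit 1105052561014) (nat_lit 1) (nat_lit 5) (nat_lit 3) (nat_lit 4) (nat_lit 1) (nat_lit 4) (nat_lit 257) (nat_lit 223) (nat_lit 120)) (XT.lf (nat_lit 0) (nat_lit 1620476460631) (nat_lit 152) (nat_lit 1835514883723) (nat_lit 0) (nat_lit 1392985290182) (nat_lit 1) (nat_lit 5) (nat_lit 3) (nat_lit 4) (nat_lit 1) (nat_lit 4) (nat_lit 258) (nat_lit 223) (nat_lit 119)))) (XT.nd (nat_lit 156) (nat_lit 0) (nat_lit 0) (XT.nd (nat_lit 78) (nat_lit 0) (nat_lit 0) (XT.lf (nat_lit 0) (nat_lit 1951599101598) (nat_lit 152) (nat_lit 1881715837865) (nat_lit 0) (nat_lit 1724107916702) (nat_lit 1) (nat_lit 5) (nat_lit 3) (nat_lit 4) (nat_lit 1) (nat_lit 4) (nat_lit 259) (nat_lit 223) (nat_lit 118)) (XT.lf (nat_lit 0) (nat_lit 2332390124205) (nat_lit 152) (nat_lit 1934846962332) (nat_lit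 0) (nat_lit 2104898926746) (nat_lit 1) (nat_lit 5) (nat_lit 3) (nat_lit 4) (nat_lit 1) (nat_lit 4) (nat_lit 260) (nat_lit 223) (nat_lit 117))) (XT.nd (nat_lit 78) (nat_lit 0) (nat_lit 0) (XT.lf (nat_lit 0) (nat_lit 2770299787590) (nat_lit 152) (nat_lit 1995947779125) (nat_lit 0) (nat_lit 2542808579206) (nat_lit 1) (nat_lit 5) (nat_lit 3) (nat_lit 4) (nat_lit 1) (nat_lit 4) (nat_lit 261) (nat_lit 223) (nat_lit 116)) (XT.lf (nat_lit 0) (nat_lit 3273895889513) (nat_lit 152) (nat_lit 2066213739008) (nat_lit 0) (nat_lit 3046404671631) (nat_lit 1) (nat_lit 5) (nat_lit 3) (nat_lit 4) (nat_lit 1) (nat_lit 4) (nat_lit 262) (nat_lit 223) (nat_lit 115))))) (XT.nd (nat_lit 312) (nat_lit 0) (nat_lit 0) (XT.nd (nat_lit 156) (nat_lit 0) (nat_lit 0) (XT.nd (nat_lit 78) (nat_lit 0) (nat_lit 0) (XT.lf (nat_lit 0) (nat_lit 3853031397187) (nat_lit 152) (nat_lit 2147019610759) (nat_lit 0) (nat_lit 3625540171045)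 (nat_lit 1) (nat_lit 5) (nat_lit 3) (nat_lit 4) (nat_lit 1) (nat_lit 4) (nat_lit 263) (nat_lit 223) (nat_lit 114)) (XT.lf (nat_lit 0) (nat_lit 4519037222719) (nat_lit 152) (nat_lit 2239946378828) (nat_lit 0) (nat_lit 4291545989393) (nat_lit 1) (nat_lit 5) (nat_lit 3) (nat_lit 4) (nat_lit 1) (nat_lit 4) (nat_lit 264) (nat_lit 223) (nat_lit 113))) (XT.nd (nat_lit 78) (nat_lit 0) (nat_lit 0) (XT.lf (nat_lit 0) (nat_lit 5284943914868) (nat_lit 152) (nat_lit 2346812175631) (nat_lit 0) (nat_lit 5057452675297) (nat_lit 1) (nat_lit 5) (nat_lit 3) (nat_lit 4) (nat_lit 1) (nat_lit 4) (nat_lit 265) (nat_lit 223) (nat_lit 112)) (XT.lf (nat_lit 0) (nat_lit 6165736604569) (nat_lit 152) (nat_lit 2469707853717) (nat_lit 0) (nat_lit 5938245359567) (nat_lit 1) (nat_lit 5) (nat_lit 3) (nat_lit 4) (nat_lit 1) (nat_lit 4) (nat_lit 266) (nat_lit 223) (nat_lit 111)))) (XT.nd (nat_lit 156) (nat_lit 0) (nat_lit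 0) (XT.nd (nat_lit 78) (nat_lit 0) (nat_lit 0) (XT.lf (nat_lit 0) (nat_lit 7178648192272) (nat_lit 152) (nat_lit 2611037893742) (nat_lit 0) (nat_lit 6951156942546) (nat_lit 1) (nat_lit 5) (nat_lit 3) (nat_lit 4) (nat_lit 1) (nat_lit 4) (nat_lit 267) (nat_lit 223) (nat_lit 110)) (XT.lf (nat_lit 0) (nat_lit 8343496513388) (nat_lit 152) (nat_lit 2773567448664) (nat_lit 0) (nat_lit 8116005259556) (nat_lit 1) (nat_lit 5) (nat_lit 3) (nat_lit 4) (nat_lit 1) (nat_lit 4) (nat_lit 268) (nat_lit 223) (nat_lit 109))) (XT.nd (nat_lit 78) (nat_lit 0) (nat_lit 0) (XT.lf (nat_lit 0) (nat_lit 9683072078548) (nat_lit 152) (nat_lit 2960476444558) (nat_lit 0) (nat_lit 9455580821144) (nat_lit 1) (nat_lit 5) (nat_lit 3) (nat_lit 4) (nat_lit 1) (nat_lit 4) (nat_lit 269) (nat_lit 223) (nat_lit 108)) (XT.lf (nat_lit 0) (nat_lit 11223583974896) (nat_lit 152) (nat_lit 3175421796560) (nat_lit 0) (nat_lit 10996092714387)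 (nat_lit 1) (nat_lit 5) (nat_lit 3) (nat_lit 4) (nat_lit 1) (nat_lit 4) (nat_lit 270) (nat_lit 223) (nat_lit 107))))))))
noncomputable def xc50 : XT := (XT.nd (nat_lit 29718) (nat_lit 0) (nat_lit 0) (XT.nd (nat_lit 28548) (nat_lit 0) (nat_lit 76) (XT.nd (nat_lit 28002) (nat_lit 0) (nat_lit 456) (XT.nd (nat_lit 27690) (nat_lit 0) (nat_lit 912) (XT.nd (nat_lit 78) (nat_lit 0) (nat_lit 0) (XT.lf (nat_lit 0) (nat_lit 12995172652579) (nat_lit 152) (nat_lit 3422608957209) (nat_lit 0) (nat_lit 12767681389370) (nat_lit 1) (nat_lit 5) (nat_lit 3) (nat_lit 4) (nat_lit 1) (nat_lit 4) (nat_lit 271) (nat_lit 223) (nat_lit 106)) (XT.nd (nat_lit 27534) (nat_lit 0) (nat_lit 1064) (XT.lf (nat_lit 0) (nat_lit 15032499629203) (nat_lit 152) (nat_lit 3706874197041) (nat_lit 0) (nat_lit 14805008363646) (nat_lit 1) (nat_lit 5) (nat_lit 3) (nat_lit 4) (nat_lit 1) (nat_lit 4) (nat_lit 272) (nat_lit 223) (nat_lit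 105)) (XT.lf (nat_lit 0) (nat_lit 25112474831) (nat_lit 0) (nat_lit 25112474831) (nat_lit 228) (nat_lit 8617371662) (nat_lit 15) (nat_lit 5) (nat_lit 15) (nat_lit 3) (nat_lit 18) (nat_lit 3) (nat_lit 224) (nat_lit 224) (nat_lit 152)))) (XT.nd (nat_lit 156) (nat_lit 152) (nat_lit 0) (XT.nd (nat_lit 78) (nat_lit 0) (nat_lit 0) (XT.lf (nat_lit 0) (nat_lit 106186316082) (nat_lit 0) (nat_lit 1801161544) (nat_lit 228) (nat_lit 18522879222) (nat_lit 15) (nat_lit 5) (nat_lit 15) (nat_lit 3) (nat_lit 18) (nat_lit 3) (nat_lit 225) (nat_lit 224) (nat_lit 151)) (XT.lf (nat_lit 76) (nat_lit 34743263964) (nat_lit 0) (nat_lit 85581716743) (nat_lit 304) (nat_lit 15784564700) (nat_lit 16) (nat_lit 5) (nat_lit 15) (nat_lit 5) (nat_lit 19) (nat_lit 5) (nat_lit 226) (nat_lit 224) (nat_lit 150))) (XT.nd (nat_lit 78) (nat_lit 152) (nat_lit 0) (XT.lf (nat_lit 76) (nat_lit 100260210591) (nat_lit 0) (nat_lit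 35396562555) (nat_lit 304) (nat_lit 11320298598) (nat_lit 16) (nat_lit 5) (nat_lit 15) (nat_lit 5) (nat_lit 19) (nat_lit 5) (nat_lit 227) (nat_lit 224) (nat_lit 149)) (XT.lf (nat_lit 0) (nat_lit 16691402623) (nat_lit 228) (nat_lit 138211643947) (nat_lit 304) (nat_lit 4329481535) (nat_lit 13) (nat_lit 5) (nat_lit 16) (nat_lit 5) (nat_lit 17) (nat_lit 5) (nat_lit 228) (nat_lit 224) (nat_lit 148))))) (XT.nd (nat_lit 234) (nat_lit 228) (nat_lit 0) (XT.nd (nat_lit 78) (nat_lit 152) (nat_lit 0) (XT.lf (nat_lit 0) (nat_lit 7623030337) (nat_lit 304) (nat_lit 80054727971) (nat_lit 76) (nat_lit 84989003606) (nat_lit 12) (nat_lit 5) (nat_lit 16) (nat_lit 5) (nat_lit 13) (nat_lit 5) (nat_lit 229) (nat_lit 224) (nat_lit 147)) (XT.nd (nat_lit 78) (nat_lit 152) (nat_lit 0) (XT.lf (nat_lit 0) (nat_lit 20924730787) (nat_lit 304) (nat_lit 8401982895) (nat_lit 76) (nat_lit 158758562200) (nat_lit 12)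 (nat_lit 5) (nat_lit 16) (nat_lit 5) (nat_lit 13) (nat_lit 5) (nat_lit 230) (nat_lit 224) (nat_lit 146)) (XT.lf (nat_lit 0) (nat_lit 41309302735) (nat_lit 228) (nat_lit 125806590887) (nat_lit 76) (nat_lit 37937535369) (nat_lit 10) (nat_lit 5) (nat_lit 13) (nat_lit 5) (nat_lit 11) (nat_lit 5) (nat_lit 231) (nat_lit 224) (nat_lit 145)))) (XT.nd (nat_lit 156) (nat_lit 76) (nat_lit 0) (XT.nd (nat_lit 78) (nat_lit 152) (nat_lit 0) (XT.lf (nat_lit 0) (nat_lit 66607836240) (nat_lit 228) (nat_lit 44931523962) (nat_lit 76) (nat_lit 112749007425) (nat_lit 10) (nat_lit 5) (nat_lit 13) (nat_lit 5) (nat_lit 11) (nat_lit 5) (nat_lit 232) (nat_lit 224) (nat_lit 144)) (XT.lf (nat_lit 0) (nat_lit 52772617242) (nat_lit 152) (nat_lit 45113435814) (nat_lit 228) (nat_lit 148194761923) (nat_lit 8) (nat_lit 5) (nat_lit 10) (nat_lit 5) (nat_lit 11) (nat_lit 5) (nat_lit 233) (nat_lit 224) (nat_lit 143)))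 (XT.nd (nat_lit 78) (nat_lit 76) (nat_lit 0) (XT.lf (nat_lit 0) (nat_lit 137611349127) (nat_lit 228) (nat_lit 102015078954) (nat_lit 76) (nat_lit 30952402308) (nat_lit 8) (nat_lit 5) (nat_lit 11) (nat_lit 5) (nat_lit 9) (nat_lit 4) (nat_lit 234) (nat_lit 224) (nat_lit 142)) (XT.lf (nat_lit 0) (nat_lit 903876277) (nat_lit 76) (nat_lit 184577008735) (nat_lit 152) (nat_lit 112942848868) (nat_lit 7) (nat_lit 5) (nat_lit 8) (nat_lit 5) (nat_lit 9) (nat_lit 4) (nat_lit 235) (nat_lit 224) (nat_lit 141)))))) (XT.nd (nat_lit 546) (nat_lit 152) (nat_lit 0) (XT.nd (nat_lit 234) (nat_lit 152) (nat_lit 0) (XT.nd (nat_lit 78) (nat_lit 76) (nat_lit 0) (XT.lf (nat_lit 0) (nat_lit 130725452255) (nat_lit 76) (nat_lit 115137782322) (nat_lit 152) (nat_lit 83782283068) (nat_lit 7) (nat_lit 5) (nat_lit 8) (nat_lit 5) (nat_lit 9) (nat_lit 4) (nat_lit 236) (nat_lit 224) (nat_lit 140)) (XT.nd (nat_lit 78)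 (nat_lit 76) (nat_lit 0) (XT.lf (nat_lit 0) (nat_lit 280019980891) (nat_lit 76) (nat_lit 35282761681) (nat_lit 152) (nat_lit 50247857455) (nat_lit 7) (nat_lit 5) (nat_lit 8) (nat_lit 5) (nat_lit 9) (nat_lit 4) (nat_lit 237) (nat_lit 224) (nat_lit 139)) (XT.lf (nat_lit 0) (nat_lit 46681222698) (nat_lit 76) (nat_lit 352751388131) (nat_lit 76) (nat_lit 6767670522) (nat_lit 6) (nat_lit 4) (nat_lit 7) (nat_lit 5) (nat_lit 7) (nat_lit 4) (nat_lit 238) (nat_lit 224) (nat_lit 138)))) (XT.nd (nat_lit 156) (nat_lit 76) (nat_lit 0) (XT.nd (nat_lit 78) (nat_lit 0) (nat_lit 0) (XT.lf (nat_lit 0) (nat_lit 45749288290) (nat_lit 152) (nat_lit 247623019701) (nat_lit 76) (nat_lit 158352003329) (nat_lit 5) (nat_lit 5) (nat_lit 7) (nat_lit 5) (nat_lit 6) (nat_lit 4) (nat_lit 239) (nat_lit 224) (nat_lit 137)) (XT.lf (nat_lit 0) (nat_lit 105450763269) (nat_lit 152) (nat_lit 119265084948) (nat_lit 76) (nat_lit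 279312780247) (nat_lit 5) (nat_lit 5) (nat_lit 7) (nat_lit 5) (nat_lit 6) (nat_lit 4) (nat_lit 240) (nat_lit 224) (nat_lit 136))) (XT.nd (nat_lit 78) (nat_lit 0) (nat_lit 0) (XT.lf (nat_lit 0) (nat_lit 31116540959) (nat_lit 76) (nat_lit 144279260224) (nat_lit 152) (nat_lit 388589541711) (nat_lit 4) (nat_lit 5) (nat_lit 5) (nat_lit 5) (nat_lit 6) (nat_lit 4) (nat_lit 241) (nat_lit 224) (nat_lit 135)) (XT.lf (nat_lit 0) (nat_lit 217458980736) (nat_lit 76) (nat_lit 44607805827) (nat_lit 152) (nat_lit 369933650002) (nat_lit 4) (nat_lit 5) (nat_lit 5) (nat_lit 5) (nat_lit 6) (nat_lit 4) (nat_lit 242) (nat_lit 224) (nat_lit 134))))) (XT.nd (nat_lit 312) (nat_lit 76) (nat_lit 0) (XT.nd (nat_lit 156) (nat_lit 76) (nat_lit 0) (XT.nd (nat_lit 78) (nat_lit 0) (nat_lit 0) (XT.lf (nat_lit 0) (nat_lit 364637458603) (nat_lit 152) (nat_lit 281364340113) (nat_lit 0) (nat_lit 63781140476) (nat_lit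 4) (nat_lit 5) (nat_lit 6) (nat_lit 4) (nat_lit 4) (nat_lit 4) (nat_lit 243) (nat_lit 224) (nat_lit 133)) (XT.lf (nat_lit 0) (nat_lit 484717819838) (nat_lit 152) (nat_lit 130335000603) (nat_lit 0) (nat_lit 183861384153) (nat_lit 4) (nat_lit 5) (nat_lit 6) (nat_lit 4) (nat_lit 4) (nat_lit 4) (nat_lit 244) (nat_lit 224) (nat_lit 132))) (XT.nd (nat_lit 78) (nat_lit 0) (nat_lit 0) (XT.lf (nat_lit 0) (nat_lit 47584938997) (nat_lit 76) (nat_lit 577195606377) (nat_lit 76) (nat_lit 276339068468) (nat_lit 3) (nat_lit 4) (nat_lit 4) (nat_lit 5) (nat_lit 4) (nat_lit 4) (nat_lit 245) (nat_lit 224) (nat_lit 131)) (XT.lf (nat_lit 0) (nat_lit 266840611568) (nat_lit 76) (nat_lit 525824958334) (nat_lit 76) (nat_lit 224968331535) (nat_lit 3) (nat_lit 4) (nat_lit 4) (nat_lit 5) (nat_lit 4) (nat_lit 4) (nat_lit 246) (nat_lit 224) (nat_lit 130)))) (XT.nd (nat_lit 156) (nat_lit 76) (nat_lit 0) (XT.nd (nat_lit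 78) (nat_lit 0) (nat_lit 0) (XT.lf (nat_lit 0) (nat_lit 518984517856) (nat_lit 76) (nat_lit 466748764357) (nat_lit 76) (nat_lit 165892060262) (nat_lit 3) (nat_lit 4) (nat_lit 4) (nat_lit 5) (nat_lit 4) (nat_lit 4) (nat_lit 247) (nat_lit 224) (nat_lit 129)) (XT.lf (nat_lit 0) (nat_lit 808949908201) (nat_lit 76) (nat_lit 398811185867) (nat_lit 76) (nat_lit 97954414558) (nat_lit 3) (nat_lit 4) (nat_lit 4) (nat_lit 5) (nat_lit 4) (nat_lit 4) (nat_lit 248) (nat_lit 224) (nat_lit 128))) (XT.nd (nat_lit 78) (nat_lit 76) (nat_lit 0) (XT.lf (nat_lit 0) (nat_lit 1142410018502) (nat_lit 76) (nat_lit 320683009373) (nat_lit 76) (nat_lit 19826179618) (nat_lit 3) (nat_lit 4) (nat_lit 4) (nat_lit 5) (nat_lit 4) (nat_lit 4) (nat_lit 249) (nat_lit 224) (nat_lit 127)) (XT.lf (nat_lit 0) (nat_lit 63787465430) (nat_lit 152) (nat_lit 163713829904) (nat_lit 76) (nat_lit 1458767258094) (nat_lit 2) (nat_lit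 5) (nat_lit 4) (nat_lit 5) (nat_lit 3) (nat_lit 4) (nat_lit 250) (nat_lit 224) (nat_lit 126))))))) (XT.nd (nat_lit 1248) (nat_lit 0) (nat_lit 0) (XT.nd (nat_lit 546) (nat_lit 0) (nat_lit 0) (XT.nd (nat_lit 234) (nat_lit 0) (nat_lit 0) (XT.nd (nat_lit 78) (nat_lit 0) (nat_lit 0) (XT.lf (nat_lit 0) (nat_lit 42434467953) (nat_lit 76) (nat_lit 117235947268) (nat_lit 152) (nat_lit 1760044708500) (nat_lit 1) (nat_lit 5) (nat_lit 2) (nat_lit 5) (nat_lit 3) (nat_lit 4) (nat_lit 251) (nat_lit 224) (nat_lit 125)) (XT.nd (nat_lit 78) (nat_lit 0) (nat_lit 0) (XT.lf (nat_lit 0) (nat_lit 279297290347) (nat_lit 152) (nat_lit 1889794627226) (nat_lit 0) (nat_lit 17682539736) (nat_lit 1) (nat_lit 5) (nat_lit 3) (nat_lit 4) (nat_lit 1) (nat_lit 4) (nat_lit 252) (nat_lit 224) (nat_lit 124)) (XT.lf (nat_lit 0) (nat_lit 422450827346) (nat_lit 152) (nat_lit 1909768421483) (nat_lit 0) (nat_lit 160836047676)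 (nat_lit 1) (nat_lit 5) (nat_lit 3) (nat_lit 4) (nat_lit 1) (nat_lit 4) (nat_lit 253) (nat_lit 224) (nat_lit 123)))) (XT.nd (nat_lit 156) (nat_lit 0) (nat_lit 0) (XT.nd (nat_lit 78) (nat_lit 0) (nat_lit 0) (XT.lf (nat_lit 0) (nat_lit 587077365717) (nat_lit 152) (nat_lit 1932738339595) (nat_lit 0) (nat_lit 325462560779) (nat_lit 1) (nat_lit 5) (nat_lit 3) (nat_lit 4) (nat_lit 1) (nat_lit 4) (nat_lit 254) (nat_lit 224) (nat_lit 122)) (XT.lf (nat_lit 0) (nat_lit 776397859474) (nat_lit 152) (nat_lit 1959153793004) (nat_lit 0) (nat_lit 514783032564) (nat_lit 1) (nat_lit 5) (nat_lit 3) (nat_lit 4) (nat_lit 1) (nat_lit 4) (nat_lit 255) (nat_lit 224) (nat_lit 121))) (XT.nd (nat_lit 78) (nat_lit 0) (nat_lit 0) (XT.lf (nat_lit 0) (nat_lit 994116405233) (nat_lit 152) (nat_lit 1989531605799) (nat_lit 0) (nat_lit 732501559216) (nat_lit 1) (nat_lit 5) (nat_lit 3) (nat_lit 4) (nat_lit 1) (nat_lit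 4) (nat_lit 256) (nat_lit 224) (nat_lit 120)) (XT.lf (nat_lit 0) (nat_lit 1244492713672) (nat_lit 152) (nat_lit 2024466126490) (nat_lit 0) (nat_lit 982877851041) (nat_lit 1) (nat_lit 5) (nat_lit 3) (nat_lit 4) (nat_lit 1) (nat_lit 4) (nat_lit 257) (nat_lit 224) (nat_lit 119))))) (XT.nd (nat_lit 312) (nat_lit 0) (nat_lit 0) (XT.nd (nat_lit 156) (nat_lit 0) (nat_lit 0) (XT.nd (nat_lit 78) (nat_lit 0) (nat_lit 0) (XT.lf (nat_lit 0) (nat_lit 1532425451695) (nat_lit 152) (nat_lit 2064640856569) (nat_lit 0) (nat_lit 1270810574617) (nat_lit 1) (nat_lit 5) (nat_lit 3) (nat_lit 4) (nat_lit 1) (nat_lit 4) (nat_lit 258) (nat_lit 224) (nat_lit 118)) (XT.lf (nat_lit 0) (nat_lit 1863548085915) (nat_lit 152) (nat_lit 2110841823364) (nat_lit 0) (nat_lit 1601933196275) (nat_lit 1) (nat_lit 5) (nat_lit 3) (nat_lit 4) (nat_lit 1) (nat_lit 4) (nat_lit 259) (nat_lit 224) (nat_lit 117))) (XT.nd (nat_lit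 78) (nat_lit 0) (nat_lit 0) (XT.lf (nat_lit 0) (nat_lit 2244339102655) (nat_lit 152) (nat_lit 2163972958834) (nat_lit 0) (nat_lit 1982724202090) (nat_lit 1) (nat_lit 5) (nat_lit 3) (nat_lit 4) (nat_lit 1) (nat_lit 4) (nat_lit 260) (nat_lit 224) (nat_lit 116)) (XT.lf (nat_lit 0) (nat_lit 2682248760938) (nat_lit 152) (nat_lit 2225073785194) (nat_lit 0) (nat_lit 2420633850874) (nat_lit 1) (nat_lit 5) (nat_lit 3) (nat_lit 4) (nat_lit 1) (nat_lit 4) (nat_lit 261) (nat_lit 224) (nat_lit 115)))) (XT.nd (nat_lit 156) (nat_lit 0) (nat_lit 0) (XT.nd (nat_lit 78) (nat_lit 0) (nat_lit 0) (XT.lf (nat_lit 0) (nat_lit 3185844858425) (nat_lit 152) (nat_lit 2295339753396) (nat_lit 0) (nat_lit 2924229940101) (nat_lit 1) (nat_lit 5) (nat_lit 3) (nat_lit 4) (nat_lit 1) (nat_lit 4) (nat_lit 262) (nat_lit 224) (nat_lit 114)) (XT.lf (nat_lit 0) (nat_lit 3764980362242) (nat_lit 152) (nat_lit 2376145632382)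 (nat_lit 0) (nat_lit 3503365436735) (nat_lit 1) (nat_lit 5) (nat_lit 3) (nat_lit 4) (nat_lit 1) (nat_lit 4) (nat_lit 263) (nat_lit 224) (nat_lit 113))) (XT.nd (nat_lit 78) (nat_lit 0) (nat_lit 0) (XT.lf (nat_lit 0) (nat_lit 4430986184419) (nat_lit 152) (nat_lit 2469072406741) (nat_lit 0) (nat_lit 4169371252666) (nat_lit 1) (nat_lit 5) (nat_lit 3) (nat_lit 4) (nat_lit 1) (nat_lit 4) (nat_lit 264) (nat_lit 224) (nat_lit 112)) (XT.lf (nat_lit 0) (nat_lit 5196892873652) (nat_lit 152) (nat_lit 2575938209015) (nat_lit 0) (nat_lit 4935277936468) (nat_lit 1) (nat_lit 5) (nat_lit 3) (nat_lit 4) (nat_lit 1) (nat_lit 4) (nat_lit 265) (nat_lit 224) (nat_lit 111)))))) (XT.nd (nat_lit 28158) (nat_lit 0) (nat_lit 532) (XT.nd (nat_lit 234) (nat_lit 0) (nat_lit 0) (XT.nd (nat_lit 78) (nat_lit 0) (nat_lit 0) (XT.lf (nat_lit 0) (nat_lit 7090597146313) (nat_lit 152) (nat_lit 2840163936019) (nat_lit 0)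 (nat_lit 6828982200300) (nat_lit 1) (nat_lit 5) (nat_lit 3) (nat_lit 4) (nat_lit 1) (nat_lit 4) (nat_lit 267) (nat_lit 224) (nat_lit 109)) (XT.nd (nat_lit 78) (nat_lit 0) (nat_lit 0) (XT.lf (nat_lit 0) (nat_lit 8255445465512) (nat_lit 152) (nat_lit 3002693494538) (nat_lit 0) (nat_lit 7993830515927) (nat_lit 1) (nat_lit 5) (nat_lit 3) (nat_lit 4) (nat_lit 1) (nat_lit 4) (nat_lit 268) (nat_lit 224) (nat_lit 108)) (XT.lf (nat_lit 0) (nat_lit 9595021029004) (nat_lit 152) (nat_lit 3189602493559) (nat_lit 0) (nat_lit 9333406076313) (nat_lit 1) (nat_lit 5) (nat_lit 3) (nat_lit 4) (nat_lit 1) (nat_lit 4) (nat_lit 269) (nat_lit 224) (nat_lit 107)))) (XT.nd (nat_lit 27768) (nat_lit 0) (nat_lit 1064) (XT.nd (nat_lit 78) (nat_lit 0) (nat_lit 0) (XT.lf (nat_lit 0) (nat_lit 11135532923902) (nat_lit 152) (nat_lit 3404547848281) (nat_lit 0) (nat_lit 10873917968511) (nat_lit 1) (nat_lit 5) (nat_lit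 3) (nat_lit 4) (nat_lit 1) (nat_lit 4) (nat_lit 270) (nat_lit 224) (nat_lit 106)) (XT.lf (nat_lit 0) (nat_lit 12907121600324) (nat_lit 152) (nat_lit 3651735011295) (nat_lit 0) (nat_lit 12645506642585) (nat_lit 1) (nat_lit 5) (nat_lit 3) (nat_lit 4) (nat_lit 1) (nat_lit 4) (nat_lit 271) (nat_lit 224) (nat_lit 105))) (XT.nd (nat_lit 78) (nat_lit 0) (nat_lit 0) (XT.lf (nat_lit 0) (nat_lit 28881184564) (nat_lit 0) (nat_lit 28881184564) (nat_lit 228) (nat_lit 9905692647) (nat_lit 15) (nat_lit 5) (nat_lit 15) (nat_lit 3) (nat_lit 18) (nat_lit 3) (nat_lit 225) (nat_lit 225) (nat_lit 150)) (XT.lf (nat_lit 0) (nat_lit 122117460899) (nat_lit 0) (nat_lit 2074533180) (nat_lit 228) (nat_lit 21293859341) (nat_lit 15) (nat_lit 5) (nat_lit 15) (nat_lit 3) (nat_lit 18) (nat_lit 3) (nat_lit 226) (nat_lit 225) (nat_lit 149))))) (XT.nd (nat_lit 312) (nat_lit 304) (nat_lit 0) (XT.nd (nat_lit 156) (nat_lit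 228) (nat_lit 0) (XT.nd (nat_lit 78) (nat_lit 0) (nat_lit 0) (XT.lf (nat_lit 76) (nat_lit 39958940918) (nat_lit 0) (nat_lit 98420405861) (nat_lit 304) (nat_lit 18145702610) (nat_lit 16) (nat_lit 5) (nat_lit 15) (nat_lit 5) (nat_lit 19) (nat_lit 5) (nat_lit 227) (nat_lit 225) (nat_lit 148)) (XT.lf (nat_lit 76) (nat_lit 115302883361) (nat_lit 0) (nat_lit 40707291813) (nat_lit 304) (nat_lit 13012650523) (nat_lit 16) (nat_lit 5) (nat_lit 15) (nat_lit 5) (nat_lit 19) (nat_lit 5) (nat_lit 228) (nat_lit 225) (nat_lit 147))) (XT.nd (nat_lit 78) (nat_lit 76) (nat_lit 0) (XT.lf (nat_lit 0) (nat_lit 19199408030) (nat_lit 228) (nat_lit 158943477294) (nat_lit 304) (nat_lit 4973800470) (nat_lit 13) (nat_lit 5) (nat_lit 16) (nat_lit 5) (nat_lit 17) (nat_lit 5) (nat_lit 229) (nat_lit 225) (nat_lit 146)) (XT.lf (nat_lit 0) (nat_lit 8770527465) (nat_lit 304) (nat_lit 92058758712) (nat_lit 76) (nat_lit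 97736835047) (nat_lit 12) (nat_lit 5) (nat_lit 16) (nat_lit 5) (nat_lit 13) (nat_lit 5) (nat_lit 230) (nat_lit 225) (nat_lit 145)))) (XT.nd (nat_lit 156) (nat_lit 152) (nat_lit 0) (XT.nd (nat_lit 78) (nat_lit 152) (nat_lit 0) (XT.lf (nat_lit 0) (nat_lit 24066955690) (nat_lit 304) (nat_lit 9658646890) (nat_lit 76) (nat_lit 182571895139) (nat_lit 12) (nat_lit 5) (nat_lit 16) (nat_lit 5) (nat_lit 13) (nat_lit 5) (nat_lit 231) (nat_lit 225) (nat_lit 144)) (XT.lf (nat_lit 0) (nat_lit 47508909622) (nat_lit 228) (nat_lit 144673605532) (nat_lit 76) (nat_lit 43628409724) (nat_lit 10) (nat_lit 5) (nat_lit 13) (nat_lit 5) (nat_lit 11) (nat_lit 5) (nat_lit 232) (nat_lit 225) (nat_lit 143))) (XT.nd (nat_lit 78) (nat_lit 152) (nat_lit 0) (XT.lf (nat_lit 0) (nat_lit 76601804265) (nat_lit 228) (nat_lit 51667796915) (nat_lit 76) (nat_lit 129661570755) (nat_lit 10) (nat_lit 5) (nat_lit 13) (nat_lit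 5) (nat_lit 11) (nat_lit 5) (nat_lit 233) (nat_lit 225) (nat_lit 142)) (XT.lf (nat_lit 0) (nat_lit 60691808395) (nat_lit 152) (nat_lit 51879717543) (nat_lit 228) (nat_lit 170420998766) (nat_lit 8) (nat_lit 5) (nat_lit 10) (nat_lit 5) (nat_lit 11) (nat_lit 5) (nat_lit 234) (nat_lit 225) (nat_lit 141))))))))
noncomputable def xc51 : XT := (XT.nd (nat_lit 2340) (nat_lit 0) (nat_lit 0) (XT.nd (nat_lit 1170) (nat_lit 152) (nat_lit 0) (XT.nd (nat_lit 546) (nat_lit 152) (nat_lit 0) (XT.nd (nat_lit 234) (nat_lit 152) (nat_lit 0) (XT.nd (nat_lit 78) (nat_lit 76) (nat_lit 0) (XT.lf (nat_lit 0) (nat_lit 158255308281) (nat_lit 228) (nat_lit 117314140180) (nat_lit 76) (nat_lit 35595843810) (nat_lit 8) (nat_lit 5) (nat_lit 11) (nat_lit 5) (nat_lit 9) (nat_lit 4) (nat_lit 235) (nat_lit 225) (nat_lit 140)) (XT.nd (nat_lit 78) (nat_lit 0) (nat_lit 0) (XT.lf (nat_lit 0) (nat_lit 1042512853) (nat_lit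 76) (nat_lit 212262593840) (nat_lit 152) (nat_lit 129881852923) (nat_lit 7) (nat_lit 5) (nat_lit 8) (nat_lit 5) (nat_lit 9) (nat_lit 4) (nat_lit 236) (nat_lit 225) (nat_lit 139)) (XT.lf (nat_lit 0) (nat_lit 150336926732) (nat_lit 76) (nat_lit 132407609491) (nat_lit 152) (nat_lit 96347518333) (nat_lit 7) (nat_lit 5) (nat_lit 8) (nat_lit 5) (nat_lit 9) (nat_lit 4) (nat_lit 237) (nat_lit 225) (nat_lit 138)))) (XT.nd (nat_lit 156) (nat_lit 76) (nat_lit 0) (XT.nd (nat_lit 78) (nat_lit 76) (nat_lit 0) (XT.lf (nat_lit 0) (nat_lit 322025288145) (nat_lit 76) (nat_lit 40574445342) (nat_lit 152) (nat_lit 57783203729) (nat_lit 7) (nat_lit 5) (nat_lit 8) (nat_lit 5) (nat_lit 9) (nat_lit 4) (nat_lit 238) (nat_lit 225) (nat_lit 137)) (XT.lf (nat_lit 0) (nat_lit 53685823663) (nat_lit 76) (nat_lit 405663178708) (nat_lit 76) (nat_lit 7781082384) (nat_lit 6) (nat_lit 4) (nat_lit 7) (nat_lit 5) (nat_lit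 7) (nat_lit 4) (nat_lit 239) (nat_lit 225) (nat_lit 136))) (XT.nd (nat_lit 78) (nat_lit 0) (nat_lit 0) (XT.lf (nat_lit 0) (nat_lit 52613058859) (nat_lit 152) (nat_lit 284764225384) (nat_lit 76) (nat_lit 182105456733) (nat_lit 5) (nat_lit 5) (nat_lit 7) (nat_lit 5) (nat_lit 6) (nat_lit 4) (nat_lit 240) (nat_lit 225) (nat_lit 135)) (XT.lf (nat_lit 0) (nat_lit 121269575433) (nat_lit 152) (nat_lit 137152893540) (nat_lit 76) (nat_lit 321210265027) (nat_lit 5) (nat_lit 5) (nat_lit 7) (nat_lit 5) (nat_lit 6) (nat_lit 4) (nat_lit 241) (nat_lit 225) (nat_lit 134))))) (XT.nd (nat_lit 312) (nat_lit 76) (nat_lit 0) (XT.nd (nat_lit 156) (nat_lit 0) (nat_lit 0) (XT.nd (nat_lit 78) (nat_lit 0) (nat_lit 0) (XT.lf (nat_lit 0) (nat_lit 35785887428) (nat_lit 76) (nat_lit 165920402627) (nat_lit 152) (nat_lit 446876678571) (nat_lit 4) (nat_lit 5) (nat_lit 5) (nat_lit 5) (nat_lit 6) (nat_lit 4) (nat_lit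 242) (nat_lit 225) (nat_lit 133)) (XT.lf (nat_lit 0) (nat_lit 250079449868) (nat_lit 76) (nat_lit 51298327458) (nat_lit 152) (nat_lit 425422571940) (nat_lit 4) (nat_lit 5) (nat_lit 5) (nat_lit 5) (nat_lit 6) (nat_lit 4) (nat_lit 243) (nat_lit 225) (nat_lit 132))) (XT.nd (nat_lit 78) (nat_lit 0) (nat_lit 0) (XT.lf (nat_lit 0) (nat_lit 419333946665) (nat_lit 152) (nat_lit 323567471198) (nat_lit 0) (nat_lit 73348825846) (nat_lit 4) (nat_lit 5) (nat_lit 6) (nat_lit 4) (nat_lit 4) (nat_lit 4) (nat_lit 244) (nat_lit 225) (nat_lit 131)) (XT.lf (nat_lit 0) (nat_lit 557426248702) (nat_lit 152) (nat_lit 149883929014) (nat_lit 0) (nat_lit 211441038993) (nat_lit 4) (nat_lit 5) (nat_lit 6) (nat_lit 4) (nat_lit 4) (nat_lit 4) (nat_lit 245) (nat_lit 225) (nat_lit 130)))) (XT.nd (nat_lit 156) (nat_lit 0) (nat_lit 0) (XT.nd (nat_lit 78) (nat_lit 0) (nat_lit 0) (XT.lf (nat_lit 0) (nat_lit 54723941451)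 (nat_lit 76) (nat_lit 663774395264) (nat_lit 76) (nat_lit 317789108259) (nat_lit 3) (nat_lit 4) (nat_lit 4) (nat_lit 5) (nat_lit 4) (nat_lit 4) (nat_lit 246) (nat_lit 225) (nat_lit 129)) (XT.lf (nat_lit 0) (nat_lit 306867800350) (nat_lit 76) (nat_lit 604698222024) (nat_lit 76) (nat_lit 258712867805) (nat_lit 3) (nat_lit 4) (nat_lit 4) (nat_lit 5) (nat_lit 4) (nat_lit 4) (nat_lit 247) (nat_lit 225) (nat_lit 128))) (XT.nd (nat_lit 78) (nat_lit 0) (nat_lit 0) (XT.lf (nat_lit 0) (nat_lit 596833149488) (nat_lit 76) (nat_lit 536760661566) (nat_lit 76) (nat_lit 190775248901) (nat_lit 3) (nat_lit 4) (nat_lit 4) (nat_lit 5) (nat_lit 4) (nat_lit 4) (nat_lit 248) (nat_lit 225) (nat_lit 127)) (XT.lf (nat_lit 0) (nat_lit 930293223956) (nat_lit 76) (nat_lit 458632500753) (nat_lit 76) (nat_lit 112647037264) (nat_lit 3) (nat_lit 4) (nat_lit 4) (nat_lit 5) (nat_lit 4) (nat_lit 4) (nat_lit 249) (nat_lit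 225) (nat_lit 126)))))) (XT.nd (nat_lit 546) (nat_lit 0) (nat_lit 0) (XT.nd (nat_lit 234) (nat_lit 0) (nat_lit 0) (XT.nd (nat_lit 78) (nat_lit 152) (nat_lit 0) (XT.lf (nat_lit 0) (nat_lit 1313772242603) (nat_lit 76) (nat_lit 368785145132) (nat_lit 76) (nat_lit 22799637448) (nat_lit 3) (nat_lit 4) (nat_lit 4) (nat_lit 5) (nat_lit 4) (nat_lit 4) (nat_lit 250) (nat_lit 225) (nat_lit 125)) (XT.nd (nat_lit 78) (nat_lit 76) (nat_lit 0) (XT.lf (nat_lit 0) (nat_lit 73355956851) (nat_lit 152) (nat_lit 188270238881) (nat_lit 76) (nat_lit 1677582583016) (nat_lit 2) (nat_lit 5) (nat_lit 4) (nat_lit 5) (nat_lit 3) (nat_lit 4) (nat_lit 251) (nat_lit 225) (nat_lit 124)) (XT.lf (nat_lit 0) (nat_lit 48800273404) (nat_lit 76) (nat_lit 134821053541) (nat_lit 152) (nat_lit 2024051011220) (nat_lit 1) (nat_lit 5) (nat_lit 2) (nat_lit 5) (nat_lit 3) (nat_lit 4) (nat_lit 252) (nat_lit 225) (nat_lit 123))))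 (XT.nd (nat_lit 156) (nat_lit 0) (nat_lit 0) (XT.nd (nat_lit 78) (nat_lit 0) (nat_lit 0) (XT.lf (nat_lit 0) (nat_lit 321192198053) (nat_lit 152) (nat_lit 2173263232148) (nat_lit 0) (nat_lit 20335147106) (nat_lit 1) (nat_lit 5) (nat_lit 3) (nat_lit 4) (nat_lit 1) (nat_lit 4) (nat_lit 253) (nat_lit 225) (nat_lit 122)) (XT.lf (nat_lit 0) (nat_lit 485818724624) (nat_lit 152) (nat_lit 2196233172390) (nat_lit 0) (nat_lit 184961651705) (nat_lit 1) (nat_lit 5) (nat_lit 3) (nat_lit 4) (nat_lit 1) (nat_lit 4) (nat_lit 254) (nat_lit 225) (nat_lit 121))) (XT.nd (nat_lit 78) (nat_lit 0) (nat_lit 0) (XT.lf (nat_lit 0) (nat_lit 675139208120) (nat_lit 152) (nat_lit 2222648645043) (nat_lit 0) (nat_lit 374282116095) (nat_lit 1) (nat_lit 5) (nat_lit 3) (nat_lit 4) (nat_lit 1) (nat_lit 4) (nat_lit 255) (nat_lit 225) (nat_lit 120)) (XT.lf (nat_lit 0) (nat_lit 892857744956) (nat_lit 152) (nat_lit 2253026474571)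 (nat_lit 0) (nat_lit 592000636316) (nat_lit 1) (nat_lit 5) (nat_lit 3) (nat_lit 4) (nat_lit 1) (nat_lit 4) (nat_lit 256) (nat_lit 225) (nat_lit 119))))) (XT.nd (nat_lit 312) (nat_lit 0) (nat_lit 0) (XT.nd (nat_lit 156) (nat_lit 0) (nat_lit 0) (XT.nd (nat_lit 78) (nat_lit 0) (nat_lit 0) (XT.lf (nat_lit 0) (nat_lit 1143234045636) (nat_lit 152) (nat_lit 2287961009813) (nat_lit 0) (nat_lit 842376922549) (nat_lit 1) (nat_lit 5) (nat_lit 3) (nat_lit 4) (nat_lit 1) (nat_lit 4) (nat_lit 257) (nat_lit 225) (nat_lit 118)) (XT.lf (nat_lit 0) (nat_lit 1431166776912) (nat_lit 152) (nat_lit 2328135752545) (nat_lit 0) (nat_lit 1130309641263) (nat_lit 1) (nat_lit 5) (nat_lit 3) (nat_lit 4) (nat_lit 1) (nat_lit 4) (nat_lit 258) (nat_lit 225) (nat_lit 117))) (XT.nd (nat_lit 78) (nat_lit 0) (nat_lit 0) (XT.lf (nat_lit 0) (nat_lit 1762289405266) (nat_lit 152) (nat_lit 2374336730343) (nat_lit 0) (nat_lit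 1461432258692) (nat_lit 1) (nat_lit 5) (nat_lit 3) (nat_lit 4) (nat_lit 1) (nat_lit 4) (nat_lit 259) (nat_lit 225) (nat_lit 116)) (XT.lf (nat_lit 0) (nat_lit 2143080416904) (nat_lit 152) (nat_lit 2427467875380) (nat_lit 0) (nat_lit 1842223260832) (nat_lit 1) (nat_lit 5) (nat_lit 3) (nat_lit 4) (nat_lit 1) (nat_lit 4) (nat_lit 260) (nat_lit 225) (nat_lit 115)))) (XT.nd (nat_lit 156) (nat_lit 0) (nat_lit 0) (XT.nd (nat_lit 78) (nat_lit 0) (nat_lit 0) (XT.lf (nat_lit 0) (nat_lit 2580990070751) (nat_lit 152) (nat_lit 2488568710061) (nat_lit 0) (nat_lit 2280132906418) (nat_lit 1) (nat_lit 5) (nat_lit 3) (nat_lit 4) (nat_lit 1) (nat_lit 4) (nat_lit 261) (nat_lit 225) (nat_lit 114)) (XT.lf (nat_lit 0) (nat_lit 3084586164381) (nat_lit 152) (nat_lit 2558834685497) (nat_lit 0) (nat_lit 2783728992865) (nat_lit 1) (nat_lit 5) (nat_lit 3) (nat_lit 4) (nat_lit 1) (nat_lit 4) (nat_lit 262) (nat_lit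 225) (nat_lit 113))) (XT.nd (nat_lit 78) (nat_lit 0) (nat_lit 0) (XT.lf (nat_lit 0) (nat_lit 3663721664843) (nat_lit 152) (nat_lit 2639640570774) (nat_lit 0) (nat_lit 3362864487081) (nat_lit 1) (nat_lit 5) (nat_lit 3) (nat_lit 4) (nat_lit 1) (nat_lit 4) (nat_lit 263) (nat_lit 225) (nat_lit 112)) (XT.lf (nat_lit 0) (nat_lit 4329727484104) (nat_lit 152) (nat_lit 2732567350603) (nat_lit 0) (nat_lit 4028870300911) (nat_lit 1) (nat_lit 5) (nat_lit 3) (nat_lit 4) (nat_lit 1) (nat_lit 4) (nat_lit 264) (nat_lit 225) (nat_lit 111))))))) (XT.nd (nat_lit 28860) (nat_lit 0) (nat_lit 152) (XT.nd (nat_lit 28236) (nat_lit 0) (nat_lit 684) (XT.nd (nat_lit 312) (nat_lit 0) (nat_lit 0) (XT.nd (nat_lit 156) (nat_lit 0) (nat_lit 0) (XT.lf (nat_lit 0) (nat_lit 5095634170800) (nat_lit 152) (nat_lit 2839433157634) (nat_lit 0) (nat_lit 4794776982884) (nat_lit 1) (nat_lit 5) (nat_lit 3) (nat_lit 4) (nat_lit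 1) (nat_lit 4) (nat_lit 265) (nat_lit 225) (nat_lit 110)) (XT.nd (nat_lit 78) (nat_lit 0) (nat_lit 0) (XT.lf (nat_lit 0) (nat_lit 6989338439338) (nat_lit 152) (nat_lit 3103658892371) (nat_lit 0) (nat_lit 6688481243744) (nat_lit 1) (nat_lit 5) (nat_lit 3) (nat_lit 4) (nat_lit 1) (nat_lit 4) (nat_lit 267) (nat_lit 225) (nat_lit 108)) (XT.lf (nat_lit 0) (nat_lit 8154186756868) (nat_lit 152) (nat_lit 3266188454017) (nat_lit 0) (nat_lit 7853329558169) (nat_lit 1) (nat_lit 5) (nat_lit 3) (nat_lit 4) (nat_lit 1) (nat_lit 4) (nat_lit 268) (nat_lit 225) (nat_lit 107)))) (XT.nd (nat_lit 702) (nat_lit 0) (nat_lit 0) (XT.nd (nat_lit 78) (nat_lit 0) (nat_lit 0) (XT.lf (nat_lit 0) (nat_lit 9493762318910) (nat_lit 152) (nat_lit 3453097455758) (nat_lit 0) (nat_lit 9192905117511) (nat_lit 1) (nat_lit 5) (nat_lit 3) (nat_lit 4) (nat_lit 1) (nat_lit 4) (nat_lit 269) (nat_lit 225) (nat_lit 106)) (XT.lf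 (nat_lit 0) (nat_lit 11034274212547) (nat_lit 152) (nat_lit 3668042812845) (nat_lit 0) (nat_lit 10733417008800) (nat_lit 1) (nat_lit 5) (nat_lit 3) (nat_lit 4) (nat_lit 1) (nat_lit 4) (nat_lit 270) (nat_lit 225) (nat_lit 105))) (XT.nd (nat_lit 78) (nat_lit 0) (nat_lit 0) (XT.lf (nat_lit 0) (nat_lit 35352551386655) (nat_lit 152) (nat_lit 7061136425005) (nat_lit 0) (nat_lit 35051694172371) (nat_lit 1) (nat_lit 5) (nat_lit 3) (nat_lit 4) (nat_lit 1) (nat_lit 4) (nat_lit 278) (nat_lit 225) (nat_lit 97)) (XT.lf (nat_lit 0) (nat_lit 40771881627517) (nat_lit 152) (nat_lit 7817287651740) (nat_lit 0) (nat_lit 40471024412566) (nat_lit 1) (nat_lit 5) (nat_lit 3) (nat_lit 4) (nat_lit 1) (nat_lit 4) (nat_lit 279) (nat_lit 225) (nat_lit 96))))) (XT.nd (nat_lit 312) (nat_lit 380) (nat_lit 0) (XT.nd (nat_lit 156) (nat_lit 0) (nat_lit 0) (XT.nd (nat_lit 78) (nat_lit 0) (nat_lit 0) (XT.lf (nat_lit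 0) (nat_lit 33214752425) (nat_lit 0) (nat_lit 33214752425) (nat_lit 228) (nat_lit 11388306646) (nat_lit 15) (nat_lit 5) (nat_lit 15) (nat_lit 3) (nat_lit 18) (nat_lit 3) (nat_lit 226) (nat_lit 226) (nat_lit 148)) (XT.lf (nat_lit 0) (nat_lit 140437497731) (nat_lit 0) (nat_lit 2388130855) (nat_lit 228) (nat_lit 24482303638) (nat_lit 15) (nat_lit 5) (nat_lit 15) (nat_lit 3) (nat_lit 18) (nat_lit 3) (nat_lit 227) (nat_lit 226) (nat_lit 147))) (XT.nd (nat_lit 78) (nat_lit 0) (nat_lit 0) (XT.lf (nat_lit 76) (nat_lit 45955948300) (nat_lit 0) (nat_lit 113184549241) (nat_lit 304) (nat_lit 20862607684) (nat_lit 16) (nat_lit 5) (nat_lit 15) (nat_lit 5) (nat_lit 19) (nat_lit 5) (nat_lit 228) (nat_lit 226) (nat_lit 146)) (XT.lf (nat_lit 76) (nat_lit 132601069122) (nat_lit 0) (nat_lit 46814326890) (nat_lit 304) (nat_lit 14960243477) (nat_lit 16) (nat_lit 5) (nat_lit 15) (nat_lit 5) (nat_lit 19)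 (nat_lit 5) (nat_lit 229) (nat_lit 226) (nat_lit 145)))) (XT.nd (nat_lit 156) (nat_lit 152) (nat_lit 0) (XT.nd (nat_lit 78) (nat_lit 76) (nat_lit 0) (XT.lf (nat_lit 0) (nat_lit 22082566882) (nat_lit 228) (nat_lit 182785064488) (nat_lit 304) (nat_lit 5716011717) (nat_lit 13) (nat_lit 5) (nat_lit 16) (nat_lit 5) (nat_lit 17) (nat_lit 5) (nat_lit 230) (nat_lit 226) (nat_lit 144)) (XT.lf (nat_lit 0) (nat_lit 10089163354) (nat_lit 304) (nat_lit 105864413007) (nat_lit 76) (nat_lit 112396967791) (nat_lit 12) (nat_lit 5) (nat_lit 16) (nat_lit 5) (nat_lit 13) (nat_lit 5) (nat_lit 231) (nat_lit 226) (nat_lit 143))) (XT.nd (nat_lit 78) (nat_lit 152) (nat_lit 0) (XT.lf (nat_lit 0) (nat_lit 27679657104) (nat_lit 304) (nat_lit 11104696522) (nat_lit 76) (nat_lit 209957338093) (nat_lit 12) (nat_lit 5) (nat_lit 16) (nat_lit 5) (nat_lit 13) (nat_lit 5) (nat_lit 232) (nat_lit 226) (nat_lit 142)) (XT.lf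 (nat_lit 0) (nat_lit 54637674403) (nat_lit 228) (nat_lit 166371641456) (nat_lit 76) (nat_lit 50172855719) (nat_lit 10) (nat_lit 5) (nat_lit 13) (nat_lit 5) (nat_lit 11) (nat_lit 5) (nat_lit 233) (nat_lit 226) (nat_lit 141)))))) (XT.nd (nat_lit 546) (nat_lit 228) (nat_lit 0) (XT.nd (nat_lit 234) (nat_lit 152) (nat_lit 0) (XT.nd (nat_lit 78) (nat_lit 152) (nat_lit 0) (XT.lf (nat_lit 0) (nat_lit 88094186503) (nat_lit 228) (nat_lit 59415353490) (nat_lit 76) (nat_lit 149110966834) (nat_lit 10) (nat_lit 5) (nat_lit 13) (nat_lit 5) (nat_lit 11) (nat_lit 5) (nat_lit 234) (nat_lit 226) (nat_lit 140)) (XT.nd (nat_lit 78) (nat_lit 0) (nat_lit 0) (XT.lf (nat_lit 0) (nat_lit 69798073846) (nat_lit 152) (nat_lit 59661120435) (nat_lit 228) (nat_lit 195981897206) (nat_lit 8) (nat_lit 5) (nat_lit 10) (nat_lit 5) (nat_lit 11) (nat_lit 5) (nat_lit 235) (nat_lit 226) (nat_lit 139)) (XT.lf (nat_lit 0)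 (nat_lit 181995310977) (nat_lit 228) (nat_lit 134908841081) (nat_lit 76) (nat_lit 40935659819) (nat_lit 8) (nat_lit 5) (nat_lit 11) (nat_lit 5) (nat_lit 9) (nat_lit 4) (nat_lit 236) (nat_lit 226) (nat_lit 138)))) (XT.nd (nat_lit 156) (nat_lit 76) (nat_lit 0) (XT.nd (nat_lit 78) (nat_lit 0) (nat_lit 0) (XT.lf (nat_lit 0) (nat_lit 1201199901) (nat_lit 76) (nat_lit 244101252326) (nat_lit 152) (nat_lit 149362298518) (nat_lit 7) (nat_lit 5) (nat_lit 8) (nat_lit 5) (nat_lit 9) (nat_lit 4) (nat_lit 237) (nat_lit 226) (nat_lit 137)) (XT.lf (nat_lit 0) (nat_lit 172889474542) (nat_lit 76) (nat_lit 152268115619) (nat_lit 152) (nat_lit 110798052741) (nat_lit 7) (nat_lit 5) (nat_lit 8) (nat_lit 5) (nat_lit 9) (nat_lit 4) (nat_lit 238) (nat_lit 226) (nat_lit 136))) (XT.nd (nat_lit 78) (nat_lit 76) (nat_lit 0) (XT.lf (nat_lit 0) (nat_lit 370330828150) (nat_lit 76) (nat_lit 46660059713) (nat_lit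 152) (nat_lit 66449298773) (nat_lit 7) (nat_lit 5) (nat_lit 8) (nat_lit 5) (nat_lit 9) (nat_lit 4) (nat_lit 239) (nat_lit 226) (nat_lit 135)) (XT.lf (nat_lit 0) (nat_lit 61740525235) (nat_lit 76) (nat_lit 466511961644) (nat_lit 76) (nat_lit 8946930022) (nat_lit 6) (nat_lit 4) (nat_lit 7) (nat_lit 5) (nat_lit 7) (nat_lit 4) (nat_lit 240) (nat_lit 226) (nat_lit 134))))) (XT.nd (nat_lit 312) (nat_lit 76) (nat_lit 0) (XT.nd (nat_lit 156) (nat_lit 76) (nat_lit 0) (XT.nd (nat_lit 78) (nat_lit 0) (nat_lit 0) (XT.lf (nat_lit 0) (nat_lit 60506059144) (nat_lit 152) (nat_lit 327477159931) (nat_lit 76) (nat_lit 209421768933) (nat_lit 5) (nat_lit 5) (nat_lit 7) (nat_lit 5) (nat_lit 6) (nat_lit 4) (nat_lit 241) (nat_lit 226) (nat_lit 133)) (XT.lf (nat_lit 0) (nat_lit 139460917362) (nat_lit 152) (nat_lit 157724349952) (nat_lit 76) (nat_lit 369392234076) (nat_lit 5) (nat_lit 5) (nat_lit 7) (nat_lit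 5) (nat_lit 6) (nat_lit 4) (nat_lit 242) (nat_lit 226) (nat_lit 132))) (XT.nd (nat_lit 78) (nat_lit 0) (nat_lit 0) (XT.lf (nat_lit 0) (nat_lit 41155180996) (nat_lit 76) (nat_lit 190807898462) (nat_lit 152) (nat_lit 513907201607) (nat_lit 4) (nat_lit 5) (nat_lit 5) (nat_lit 5) (nat_lit 6) (nat_lit 4) (nat_lit 243) (nat_lit 226) (nat_lit 131)) (XT.lf (nat_lit 0) (nat_lit 287592593830) (nat_lit 76) (nat_lit 58992585655) (nat_lit 152) (nat_lit 489235106645) (nat_lit 4) (nat_lit 5) (nat_lit 5) (nat_lit 5) (nat_lit 6) (nat_lit 4) (nat_lit 244) (nat_lit 226) (nat_lit 130)))) (XT.nd (nat_lit 156) (nat_lit 76) (nat_lit 0) (XT.nd (nat_lit 78) (nat_lit 0) (nat_lit 0) (XT.lf (nat_lit 0) (nat_lit 482234695959) (nat_lit 152) (nat_lit 372101442591) (nat_lit 0) (nat_lit 84351538607) (nat_lit 4) (nat_lit 5) (nat_lit 6) (nat_lit 4) (nat_lit 4) (nat_lit 4) (nat_lit 245) (nat_lit 226) (nat_lit 129))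 (XT.lf (nat_lit 0) (nat_lit 641040757567) (nat_lit 152) (nat_lit 172365518986) (nat_lit 0) (nat_lit 243157533001) (nat_lit 4) (nat_lit 5) (nat_lit 6) (nat_lit 4) (nat_lit 4) (nat_lit 4) (nat_lit 246) (nat_lit 226) (nat_lit 128))) (XT.nd (nat_lit 78) (nat_lit 0) (nat_lit 0) (XT.lf (nat_lit 0) (nat_lit 62933486622) (nat_lit 76) (nat_lit 763340137110) (nat_lit 76) (nat_lit 365456854097) (nat_lit 3) (nat_lit 4) (nat_lit 4) (nat_lit 5) (nat_lit 4) (nat_lit 4) (nat_lit 247) (nat_lit 226) (nat_lit 127)) (XT.lf (nat_lit 0) (nat_lit 352898799927) (nat_lit 76) (nat_lit 695402592333) (nat_lit 76) (nat_lit 297519258497) (nat_lit 3) (nat_lit 4) (nat_lit 4) (nat_lit 5) (nat_lit 4) (nat_lit 4) (nat_lit 248) (nat_lit 226) (nat_lit 126))))))))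
noncomputable def xc52 : XT := (XT.nd (nat_lit 30030) (nat_lit 0) (nat_lit 0) (XT.nd (nat_lit 1092) (nat_lit 0) (nat_lit 0) (XT.nd (nat_lit 546) (nat_lit 0) (nat_lit 0) (XT.nd (nat_lit 234) (nat_lit 152) (nat_lit 0) (XT.nd (nat_lit 78) (nat_lit 0) (nat_lit 0) (XT.lf (nat_lit 0) (nat_lit 686358843237) (nat_lit 76) (nat_lit 617274445154) (nat_lit 76) (nat_lit 219391067124) (nat_lit 3) (nat_lit 4) (nat_lit 4) (nat_lit 5) (nat_lit 4) (nat_lit 4) (nat_lit 249) (nat_lit 226) (nat_lit 125)) (XT.nd (nat_lit 78) (nat_lit 0) (nat_lit 0) (XT.lf (nat_lit 0) (nat_lit 1069837834790) (nat_lit 76) (nat_lit 527427101389) (nat_lit 76) (nat_lit 129543684930) (nat_lit 3) (nat_lit 4) (nat_lit 4) (nat_lit 5) (nat_lit 4) (nat_lit 4) (nat_lit 250) (nat_lit 226) (nat_lit 124)) (XT.lf (nat_lit 0) (nat_lit 1510838624420) (nat_lit 76) (nat_lit 424102678227) (nat_lit 76) (nat_lit 26219228350) (nat_lit 3) (nat_lit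 4) (nat_lit 4) (nat_lit 5) (nat_lit 4) (nat_lit 4) (nat_lit 251) (nat_lit 226) (nat_lit 123)))) (XT.nd (nat_lit 156) (nat_lit 0) (nat_lit 0) (XT.nd (nat_lit 78) (nat_lit 76) (nat_lit 0) (XT.lf (nat_lit 0) (nat_lit 84359631368) (nat_lit 152) (nat_lit 216510271493) (nat_lit 76) (nat_lit 1929220149075) (nat_lit 2) (nat_lit 5) (nat_lit 4) (nat_lit 5) (nat_lit 3) (nat_lit 4) (nat_lit 252) (nat_lit 226) (nat_lit 122)) (XT.lf (nat_lit 0) (nat_lit 56120794761) (nat_lit 76) (nat_lit 155043995454) (nat_lit 152) (nat_lit 2327658357757) (nat_lit 1) (nat_lit 5) (nat_lit 2) (nat_lit 5) (nat_lit 3) (nat_lit 4) (nat_lit 253) (nat_lit 226) (nat_lit 121))) (XT.nd (nat_lit 78) (nat_lit 0) (nat_lit 0) (XT.lf (nat_lit 0) (nat_lit 369371265306) (nat_lit 152) (nat_lit 2499252271479) (nat_lit 0) (nat_lit 23385590371) (nat_lit 1) (nat_lit 5) (nat_lit 3) (nat_lit 4) (nat_lit 1) (nat_lit 4) (nat_lit 254) (nat_lit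 226) (nat_lit 120)) (XT.lf (nat_lit 0) (nat_lit 558691739879) (nat_lit 152) (nat_lit 2525667760865) (nat_lit 0) (nat_lit 212706048329) (nat_lit 1) (nat_lit 5) (nat_lit 3) (nat_lit 4) (nat_lit 1) (nat_lit 4) (nat_lit 255) (nat_lit 226) (nat_lit 119))))) (XT.nd (nat_lit 234) (nat_lit 0) (nat_lit 0) (XT.nd (nat_lit 78) (nat_lit 0) (nat_lit 0) (XT.lf (nat_lit 0) (nat_lit 776410268956) (nat_lit 152) (nat_lit 2556045604944) (nat_lit 0) (nat_lit 430424562959) (nat_lit 1) (nat_lit 5) (nat_lit 3) (nat_lit 4) (nat_lit 1) (nat_lit 4) (nat_lit 256) (nat_lit 226) (nat_lit 118)) (XT.nd (nat_lit 78) (nat_lit 0) (nat_lit 0) (XT.lf (nat_lit 0) (nat_lit 1026786562889) (nat_lit 152) (nat_lit 2590980152839) (nat_lit 0) (nat_lit 680800844330) (nat_lit 1) (nat_lit 5) (nat_lit 3) (nat_lit 4) (nat_lit 1) (nat_lit 4) (nat_lit 257) (nat_lit 226) (nat_lit 117)) (XT.lf (nat_lit 0) (nat_lit 1314719288299) (nat_lit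 152) (nat_lit 2631154906574) (nat_lit 0) (nat_lit 968733558815) (nat_lit 1) (nat_lit 5) (nat_lit 3) (nat_lit 4) (nat_lit 1) (nat_lit 4) (nat_lit 258) (nat_lit 226) (nat_lit 116)))) (XT.nd (nat_lit 156) (nat_lit 0) (nat_lit 0) (XT.nd (nat_lit 78) (nat_lit 0) (nat_lit 0) (XT.lf (nat_lit 0) (nat_lit 1645841911551) (nat_lit 152) (nat_lit 2677355893939) (nat_lit 0) (nat_lit 1299856172568) (nat_lit 1) (nat_lit 5) (nat_lit 3) (nat_lit 4) (nat_lit 1) (nat_lit 4) (nat_lit 259) (nat_lit 226) (nat_lit 115)) (XT.lf (nat_lit 0) (nat_lit 2026632918753) (nat_lit 152) (nat_lit 2730487047296) (nat_lit 0) (nat_lit 1680647171510) (nat_lit 1) (nat_lit 5) (nat_lit 3) (nat_lit 4) (nat_lit 1) (nat_lit 4) (nat_lit 260) (nat_lit 226) (nat_lit 114))) (XT.nd (nat_lit 78) (nat_lit 0) (nat_lit 0) (XT.lf (nat_lit 0) (nat_lit 2464542568742) (nat_lit 152) (nat_lit 2791587889211) (nat_lit 0) (nat_lit 2118556814316)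 (nat_lit 1) (nat_lit 5) (nat_lit 3) (nat_lit 4) (nat_lit 1) (nat_lit 4) (nat_lit 261) (nat_lit 226) (nat_lit 113)) (XT.lf (nat_lit 0) (nat_lit 2968138659018) (nat_lit 152) (nat_lit 2861853870938) (nat_lit 0) (nat_lit 2622152898346) (nat_lit 1) (nat_lit 5) (nat_lit 3) (nat_lit 4) (nat_lit 1) (nat_lit 4) (nat_lit 262) (nat_lit 226) (nat_lit 112)))))) (XT.nd (nat_lit 1170) (nat_lit 0) (nat_lit 0) (XT.nd (nat_lit 390) (nat_lit 0) (nat_lit 0) (XT.nd (nat_lit 78) (nat_lit 0) (nat_lit 0) (XT.lf (nat_lit 0) (nat_lit 3547274156563) (nat_lit 152) (nat_lit 2942659761685) (nat_lit 0) (nat_lit 3201288390460) (nat_lit 1) (nat_lit 5) (nat_lit 3) (nat_lit 4) (nat_lit 1) (nat_lit 4) (nat_lit 263) (nat_lit 226) (nat_lit 111)) (XT.nd (nat_lit 234) (nat_lit 0) (nat_lit 0) (XT.lf (nat_lit 0) (nat_lit 4213279973287) (nat_lit 152) (nat_lit 3035586546271) (nat_lit 0) (nat_lit 3867294202461) (nat_lit 1) (nat_lit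 5) (nat_lit 3) (nat_lit 4) (nat_lit 1) (nat_lit 4) (nat_lit 264) (nat_lit 226) (nat_lit 110)) (XT.lf (nat_lit 0) (nat_lit 6872890922730) (nat_lit 152) (nat_lit 3406678098900) (nat_lit 0) (nat_lit 6526905141121) (nat_lit 1) (nat_lit 5) (nat_lit 3) (nat_lit 4) (nat_lit 1) (nat_lit 4) (nat_lit 267) (nat_lit 226) (nat_lit 107)))) (XT.nd (nat_lit 624) (nat_lit 0) (nat_lit 0) (XT.nd (nat_lit 78) (nat_lit 0) (nat_lit 0) (XT.lf (nat_lit 0) (nat_lit 8037739238810) (nat_lit 152) (nat_lit 3569207663266) (nat_lit 0) (nat_lit 7691753454501) (nat_lit 1) (nat_lit 5) (nat_lit 3) (nat_lit 4) (nat_lit 1) (nat_lit 4) (nat_lit 268) (nat_lit 226) (nat_lit 106)) (XT.lf (nat_lit 0) (nat_lit 9377314799591) (nat_lit 152) (nat_lit 3756116667372) (nat_lit 0) (nat_lit 9031329012934) (nat_lit 1) (nat_lit 5) (nat_lit 3) (nat_lit 4) (nat_lit 1) (nat_lit 4) (nat_lit 269) (nat_lit 226) (nat_lit 105))) (XT.nd (nat_lit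 78) (nat_lit 0) (nat_lit 0) (XT.lf (nat_lit 0) (nat_lit 26425850538438) (nat_lit 152) (nat_lit 6134873882781) (nat_lit 0) (nat_lit 26079864742012) (nat_lit 1) (nat_lit 5) (nat_lit 3) (nat_lit 4) (nat_lit 1) (nat_lit 4) (nat_lit 276) (nat_lit 226) (nat_lit 98)) (XT.lf (nat_lit 0) (nat_lit 30523642781997) (nat_lit 152) (nat_lit 6706632842630) (nat_lit 0) (nat_lit 30177656984803) (nat_lit 1) (nat_lit 5) (nat_lit 3) (nat_lit 4) (nat_lit 1) (nat_lit 4) (nat_lit 277) (nat_lit 226) (nat_lit 97))))) (XT.nd (nat_lit 27456) (nat_lit 0) (nat_lit 836) (XT.nd (nat_lit 27300) (nat_lit 0) (nat_lit 1064) (XT.nd (nat_lit 78) (nat_lit 0) (nat_lit 0) (XT.lf (nat_lit 0) (nat_lit 35236103861319) (nat_lit 152) (nat_lit 7364155647903) (nat_lit 0) (nat_lit 34890118063458) (nat_lit 1) (nat_lit 5) (nat_lit 3) (nat_lit 4) (nat_lit 1) (nat_lit 4) (nat_lit 278) (nat_lit 226) (nat_lit 96)) (XT.lf (nat_lit 0) (nat_lit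 40655434101870) (nat_lit 152) (nat_lit 8120306875222) (nat_lit 0) (nat_lit 40309448303428) (nat_lit 1) (nat_lit 5) (nat_lit 3) (nat_lit 4) (nat_lit 1) (nat_lit 4) (nat_lit 279) (nat_lit 226) (nat_lit 95))) (XT.nd (nat_lit 78) (nat_lit 0) (nat_lit 0) (XT.lf (nat_lit 0) (nat_lit 38198016461) (nat_lit 0) (nat_lit 38198016461) (nat_lit 228) (nat_lit 13094102816) (nat_lit 15) (nat_lit 5) (nat_lit 15) (nat_lit 3) (nat_lit 18) (nat_lit 3) (nat_lit 227) (nat_lit 227) (nat_lit 146)) (XT.lf (nat_lit 0) (nat_lit 161504950518) (nat_lit 0) (nat_lit 2748178610) (nat_lit 228) (nat_lit 28150388614) (nat_lit 15) (nat_lit 5) (nat_lit 15) (nat_lit 3) (nat_lit 18) (nat_lit 3) (nat_lit 228) (nat_lit 227) (nat_lit 145)))) (XT.nd (nat_lit 156) (nat_lit 228) (nat_lit 0) (XT.nd (nat_lit 78) (nat_lit 0) (nat_lit 0) (XT.lf (nat_lit 76) (nat_lit 52851734681) (nat_lit 0) (nat_lit 130163050152) (nat_lit 304) (nat_lit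 23988255685) (nat_lit 16) (nat_lit 5) (nat_lit 15) (nat_lit 5) (nat_lit 19) (nat_lit 5) (nat_lit 229) (nat_lit 227) (nat_lit 144)) (XT.lf (nat_lit 76) (nat_lit 152493311348) (nat_lit 0) (nat_lit 53837187685) (nat_lit 304) (nat_lit 17201025084) (nat_lit 16) (nat_lit 5) (nat_lit 15) (nat_lit 5) (nat_lit 19) (nat_lit 5) (nat_lit 230) (nat_lit 227) (nat_lit 143))) (XT.nd (nat_lit 78) (nat_lit 76) (nat_lit 0) (XT.lf (nat_lit 0) (nat_lit 25397407602) (nat_lit 228) (nat_lit 210202873764) (nat_lit 304) (nat_lit 6570495650) (nat_lit 13) (nat_lit 5) (nat_lit 16) (nat_lit 5) (nat_lit 17) (nat_lit 5) (nat_lit 231) (nat_lit 227) (nat_lit 142)) (XT.lf (nat_lit 0) (nat_lit 11604849214) (nat_lit 304) (nat_lit 121741685913) (nat_lit 76) (nat_lit 129256216162) (nat_lit 12) (nat_lit 5) (nat_lit 16) (nat_lit 5) (nat_lit 13) (nat_lit 5) (nat_lit 232) (nat_lit 227) (nat_lit 141))))))) (XT.nd (nat_lit 1170)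 (nat_lit 228) (nat_lit 0) (XT.nd (nat_lit 546) (nat_lit 228) (nat_lit 0) (XT.nd (nat_lit 234) (nat_lit 228) (nat_lit 0) (XT.nd (nat_lit 78) (nat_lit 152) (nat_lit 0) (XT.lf (nat_lit 0) (nat_lit 31833615545) (nat_lit 304) (nat_lit 12768323569) (nat_lit 76) (nat_lit 241450680723) (nat_lit 12) (nat_lit 5) (nat_lit 16) (nat_lit 5) (nat_lit 13) (nat_lit 5) (nat_lit 233) (nat_lit 227) (nat_lit 140)) (XT.nd (nat_lit 78) (nat_lit 0) (nat_lit 0) (XT.lf (nat_lit 0) (nat_lit 62835161735) (nat_lit 228) (nat_lit 191325115534) (nat_lit 76) (nat_lit 57698923612) (nat_lit 10) (nat_lit 5) (nat_lit 13) (nat_lit 5) (nat_lit 11) (nat_lit 5) (nat_lit 234) (nat_lit 227) (nat_lit 139)) (XT.lf (nat_lit 0) (nat_lit 101309911150) (nat_lit 228) (nat_lit 68325680739) (nat_lit 76) (nat_lit 171477733195) (nat_lit 10) (nat_lit 5) (nat_lit 13) (nat_lit 5) (nat_lit 11) (nat_lit 5) (nat_lit 235) (nat_lit 227) (nat_lit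 138)))) (XT.nd (nat_lit 156) (nat_lit 76) (nat_lit 0) (XT.nd (nat_lit 78) (nat_lit 0) (nat_lit 0) (XT.lf (nat_lit 0) (nat_lit 80269670889) (nat_lit 152) (nat_lit 68609869037) (nat_lit 228) (nat_lit 225377479423) (nat_lit 8) (nat_lit 5) (nat_lit 10) (nat_lit 5) (nat_lit 11) (nat_lit 5) (nat_lit 236) (nat_lit 227) (nat_lit 137)) (XT.lf (nat_lit 0) (nat_lit 209295897948) (nat_lit 228) (nat_lit 155143337280) (nat_lit 76) (nat_lit 47076341070) (nat_lit 8) (nat_lit 5) (nat_lit 11) (nat_lit 5) (nat_lit 9) (nat_lit 4) (nat_lit 237) (nat_lit 227) (nat_lit 136))) (XT.nd (nat_lit 78) (nat_lit 0) (nat_lit 0) (XT.lf (nat_lit 0) (nat_lit 1383126670) (nat_lit 76) (nat_lit 280715887743) (nat_lit 152) (nat_lit 171765257781) (nat_lit 7) (nat_lit 5) (nat_lit 8) (nat_lit 5) (nat_lit 9) (nat_lit 4) (nat_lit 238) (nat_lit 227) (nat_lit 135)) (XT.lf (nat_lit 0) (nat_lit 198824414665) (nat_lit 76) (nat_lit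 175107852587) (nat_lit 152) (nat_lit 127416555856) (nat_lit 7) (nat_lit 5) (nat_lit 8) (nat_lit 5) (nat_lit 9) (nat_lit 4) (nat_lit 239) (nat_lit 227) (nat_lit 134))))) (XT.nd (nat_lit 312) (nat_lit 76) (nat_lit 0) (XT.nd (nat_lit 156) (nat_lit 76) (nat_lit 0) (XT.nd (nat_lit 78) (nat_lit 76) (nat_lit 0) (XT.lf (nat_lit 0) (nat_lit 425881773191) (nat_lit 76) (nat_lit 53658650952) (nat_lit 152) (nat_lit 76415645941) (nat_lit 7) (nat_lit 5) (nat_lit 8) (nat_lit 5) (nat_lit 9) (nat_lit 4) (nat_lit 240) (nat_lit 227) (nat_lit 133)) (XT.lf (nat_lit 0) (nat_lit 71002986268) (nat_lit 76) (nat_lit 536488231225) (nat_lit 76) (nat_lit 10287975408) (nat_lit 6) (nat_lit 4) (nat_lit 7) (nat_lit 5) (nat_lit 7) (nat_lit 4) (nat_lit 241) (nat_lit 227) (nat_lit 132))) (XT.nd (nat_lit 78) (nat_lit 0) (nat_lit 0) (XT.lf (nat_lit 0) (nat_lit 69582755506) (nat_lit 152) (nat_lit 376597449035) (nat_lit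 76) (nat_lit 240835407573) (nat_lit 5) (nat_lit 5) (nat_lit 7) (nat_lit 5) (nat_lit 6) (nat_lit 4) (nat_lit 242) (nat_lit 227) (nat_lit 131)) (XT.lf (nat_lit 0) (nat_lit 160380739741) (nat_lit 152) (nat_lit 181381885154) (nat_lit 76) (nat_lit 424801393797) (nat_lit 5) (nat_lit 5) (nat_lit 7) (nat_lit 5) (nat_lit 6) (nat_lit 4) (nat_lit 243) (nat_lit 227) (nat_lit 130)))) (XT.nd (nat_lit 156) (nat_lit 0) (nat_lit 0) (XT.nd (nat_lit 78) (nat_lit 0) (nat_lit 0) (XT.lf (nat_lit 0) (nat_lit 47329524651) (nat_lit 76) (nat_lit 219428656343) (nat_lit 152) (nat_lit 590992541773) (nat_lit 4) (nat_lit 5) (nat_lit 5) (nat_lit 5) (nat_lit 6) (nat_lit 4) (nat_lit 244) (nat_lit 227) (nat_lit 129)) (XT.lf (nat_lit 0) (nat_lit 330732410300) (nat_lit 76) (nat_lit 67841102296) (nat_lit 152) (nat_lit 562619729098) (nat_lit 4) (nat_lit 5) (nat_lit 5) (nat_lit 5) (nat_lit 6) (nat_lit 4) (nat_lit 245) (nat_lit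 227) (nat_lit 128))) (XT.nd (nat_lit 78) (nat_lit 0) (nat_lit 0) (XT.lf (nat_lit 0) (nat_lit 554570397361) (nat_lit 152) (nat_lit 427915789954) (nat_lit 0) (nat_lit 97004563450) (nat_lit 4) (nat_lit 5) (nat_lit 6) (nat_lit 4) (nat_lit 4) (nat_lit 4) (nat_lit 246) (nat_lit 227) (nat_lit 127)) (XT.lf (nat_lit 0) (nat_lit 737197303383) (nat_lit 152) (nat_lit 198219591159) (nat_lit 0) (nat_lit 279631418649) (nat_lit 4) (nat_lit 5) (nat_lit 6) (nat_lit 4) (nat_lit 4) (nat_lit 4) (nat_lit 247) (nat_lit 227) (nat_lit 126)))))) (XT.nd (nat_lit 546) (nat_lit 0) (nat_lit 0) (XT.nd (nat_lit 234) (nat_lit 152) (nat_lit 0) (XT.nd (nat_lit 78) (nat_lit 0) (nat_lit 0) (XT.lf (nat_lit 0) (nat_lit 72374230942) (nat_lit 76) (nat_lit 877840842029) (nat_lit 76) (nat_lit 420274913100) (nat_lit 3) (nat_lit 4) (nat_lit 4) (nat_lit 5) (nat_lit 4) (nat_lit 4) (nat_lit 248) (nat_lit 227) (nat_lit 125)) (XT.nd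 (nat_lit 78) (nat_lit 0) (nat_lit 0) (XT.lf (nat_lit 0) (nat_lit 405834247157) (nat_lit 76) (nat_lit 799712706707) (nat_lit 76) (nat_lit 342146739348) (nat_lit 3) (nat_lit 4) (nat_lit 4) (nat_lit 5) (nat_lit 4) (nat_lit 4) (nat_lit 249) (nat_lit 227) (nat_lit 124)) (XT.lf (nat_lit 0) (nat_lit 789313215149) (nat_lit 76) (nat_lit 709865373252) (nat_lit 76) (nat_lit 252299372476) (nat_lit 3) (nat_lit 4) (nat_lit 4) (nat_lit 5) (nat_lit 4) (nat_lit 4) (nat_lit 250) (nat_lit 227) (nat_lit 123)))) (XT.nd (nat_lit 156) (nat_lit 152) (nat_lit 0) (XT.nd (nat_lit 78) (nat_lit 0) (nat_lit 0) (XT.lf (nat_lit 0) (nat_lit 1230313984292) (nat_lit 76) (nat_lit 606540959055) (nat_lit 76) (nat_lit 148974929220) (nat_lit 3) (nat_lit 4) (nat_lit 4) (nat_lit 5) (nat_lit 4) (nat_lit 4) (nat_lit 251) (nat_lit 227) (nat_lit 122)) (XT.lf (nat_lit 0) (nat_lit 1737464830504) (nat_lit 76) (nat_lit 487717899488)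 (nat_lit 76) (nat_lit 30151844386) (nat_lit 3) (nat_lit 4) (nat_lit 4) (nat_lit 5) (nat_lit 4) (nat_lit 4) (nat_lit 252) (nat_lit 227) (nat_lit 121))) (XT.nd (nat_lit 78) (nat_lit 76) (nat_lit 0) (XT.lf (nat_lit 0) (nat_lit 97013788541) (nat_lit 152) (nat_lit 248986431711) (nat_lit 76) (nat_lit 2218603306489) (nat_lit 2) (nat_lit 5) (nat_lit 4) (nat_lit 5) (nat_lit 3) (nat_lit 4) (nat_lit 253) (nat_lit 227) (nat_lit 120)) (XT.lf (nat_lit 0) (nat_lit 64539277186) (nat_lit 76) (nat_lit 178300431356) (nat_lit 152) (nat_lit 2676806880687) (nat_lit 1) (nat_lit 5) (nat_lit 2) (nat_lit 5) (nat_lit 3) (nat_lit 4) (nat_lit 254) (nat_lit 227) (nat_lit 119))))) (XT.nd (nat_lit 312) (nat_lit 0) (nat_lit 0) (XT.nd (nat_lit 156) (nat_lit 0) (nat_lit 0) (XT.nd (nat_lit 78) (nat_lit 0) (nat_lit 0) (XT.lf (nat_lit 0) (nat_lit 424777134721) (nat_lit 152) (nat_lit 2874139775345) (nat_lit 0) (nat_lit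 26893558377) (nat_lit 1) (nat_lit 5) (nat_lit 3) (nat_lit 4) (nat_lit 1) (nat_lit 4) (nat_lit 255) (nat_lit 227) (nat_lit 118)) (XT.lf (nat_lit 0) (nat_lit 642495657051) (nat_lit 152) (nat_lit 2904517632077) (nat_lit 0) (nat_lit 244612068144) (nat_lit 1) (nat_lit 5) (nat_lit 3) (nat_lit 4) (nat_lit 1) (nat_lit 4) (nat_lit 256) (nat_lit 227) (nat_lit 117))) (XT.nd (nat_lit 78) (nat_lit 0) (nat_lit 0) (XT.lf (nat_lit 0) (nat_lit 892871945117) (nat_lit 152) (nat_lit 2939452190975) (nat_lit 0) (nat_lit 494988345286) (nat_lit 1) (nat_lit 5) (nat_lit 3) (nat_lit 4) (nat_lit 1) (nat_lit 4) (nat_lit 257) (nat_lit 227) (nat_lit 116)) (XT.lf (nat_lit 0) (nat_lit 1180804665425) (nat_lit 152) (nat_lit 2979626954277) (nat_lit 0) (nat_lit 782921056095) (nat_lit 1) (nat_lit 5) (nat_lit 3) (nat_lit 4) (nat_lit 1) (nat_lit 4) (nat_lit 258) (nat_lit 227) (nat_lit 115)))) (XT.nd (nat_lit 156) (nat_lit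 0) (nat_lit 0) (XT.nd (nat_lit 78) (nat_lit 0) (nat_lit 0) (XT.lf (nat_lit 0) (nat_lit 1511927284241) (nat_lit 152) (nat_lit 3025827949962) (nat_lit 0) (nat_lit 1114043666651) (nat_lit 1) (nat_lit 5) (nat_lit 3) (nat_lit 4) (nat_lit 1) (nat_lit 4) (nat_lit 259) (nat_lit 227) (nat_lit 114)) (XT.lf (nat_lit 0) (nat_lit 1892718287586) (nat_lit 152) (nat_lit 3078959110554) (nat_lit 0) (nat_lit 1494834662813) (nat_lit 1) (nat_lit 5) (nat_lit 3) (nat_lit 4) (nat_lit 1) (nat_lit 4) (nat_lit 260) (nat_lit 227) (nat_lit 113))) (XT.nd (nat_lit 78) (nat_lit 0) (nat_lit 0) (XT.lf (nat_lit 0) (nat_lit 2330627934220) (nat_lit 152) (nat_lit 3140059958759) (nat_lit 0) (nat_lit 1932744303202) (nat_lit 1) (nat_lit 5) (nat_lit 3) (nat_lit 4) (nat_lit 1) (nat_lit 4) (nat_lit 261) (nat_lit 227) (nat_lit 112)) (XT.lf (nat_lit 0) (nat_lit 2834224021579) (nat_lit 152) (nat_lit 3210325945956) (nat_lit 0)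 (nat_lit 2436340385129) (nat_lit 1) (nat_lit 5) (nat_lit 3) (nat_lit 4) (nat_lit 1) (nat_lit 4) (nat_lit 262) (nat_lit 227) (nat_lit 111))))))))
noncomputable def xc53 : XT := (XT.nd (nat_lit 30420) (nat_lit 0) (nat_lit 0) (XT.nd (nat_lit 29250) (nat_lit 0) (nat_lit 152) (XT.nd (nat_lit 28626) (nat_lit 0) (nat_lit 684) (XT.nd (nat_lit 1014) (nat_lit 0) (nat_lit 0) (XT.nd (nat_lit 78) (nat_lit 0) (nat_lit 0) (XT.lf (nat_lit 0) (nat_lit 3413359516588) (nat_lit 152) (nat_lit 3291131841460) (nat_lit 0) (nat_lit 3015475875415) (nat_lit 1) (nat_lit 5) (nat_lit 3) (nat_lit 4) (nat_lit 1) (nat_lit 4) (nat_lit 263) (nat_lit 227) (nat_lit 110)) (XT.nd (nat_lit 858) (nat_lit 0) (nat_lit 0) (XT.lf (nat_lit 0) (nat_lit 4079365331106) (nat_lit 152) (nat_lit 3384058630183) (nat_lit 0) (nat_lit 3681481685827) (nat_lit 1) (nat_lit 5) (nat_lit 3) (nat_lit 4) (nat_lit 1) (nat_lit 4) (nat_lit 264) (nat_lit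 227) (nat_lit 109)) (XT.lf (nat_lit 0) (nat_lit 22728638280849) (nat_lit 152) (nat_lit 5986164285569) (nat_lit 0) (nat_lit 22330754614075) (nat_lit 1) (nat_lit 5) (nat_lit 3) (nat_lit 4) (nat_lit 1) (nat_lit 4) (nat_lit 275) (nat_lit 227) (nat_lit 98)))) (XT.nd (nat_lit 156) (nat_lit 0) (nat_lit 0) (XT.nd (nat_lit 78) (nat_lit 0) (nat_lit 0) (XT.lf (nat_lit 0) (nat_lit 26291935884302) (nat_lit 152) (nat_lit 6483345989114) (nat_lit 0) (nat_lit 25894052216761) (nat_lit 1) (nat_lit 5) (nat_lit 3) (nat_lit 4) (nat_lit 1) (nat_lit 4) (nat_lit 276) (nat_lit 227) (nat_lit 97)) (XT.lf (nat_lit 0) (nat_lit 30389728127503) (nat_lit 152) (nat_lit 7055104949635) (nat_lit 0) (nat_lit 29991844459294) (nat_lit 1) (nat_lit 5) (nat_lit 3) (nat_lit 4) (nat_lit 1) (nat_lit 4) (nat_lit 277) (nat_lit 227) (nat_lit 96))) (XT.nd (nat_lit 27378) (nat_lit 0) (nat_lit 1064) (XT.lf (nat_lit 0) (nat_lit 35102189206513)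 (nat_lit 152) (nat_lit 7712627755492) (nat_lit 0) (nat_lit 34704305537724) (nat_lit 1) (nat_lit 5) (nat_lit 3) (nat_lit 4) (nat_lit 1) (nat_lit 4) (nat_lit 278) (nat_lit 227) (nat_lit 95)) (XT.lf (nat_lit 0) (nat_lit 43928513768) (nat_lit 0) (nat_lit 43928513768) (nat_lit 228) (nat_lit 15056365816) (nat_lit 15) (nat_lit 5) (nat_lit 15) (nat_lit 3) (nat_lit 18) (nat_lit 3) (nat_lit 228) (nat_lit 228) (nat_lit 144))))) (XT.nd (nat_lit 312) (nat_lit 228) (nat_lit 0) (XT.nd (nat_lit 156) (nat_lit 152) (nat_lit 0) (XT.nd (nat_lit 78) (nat_lit 0) (nat_lit 0) (XT.lf (nat_lit 0) (nat_lit 185732075422) (nat_lit 0) (nat_lit 3161787728) (nat_lit 228) (nat_lit 32369725303) (nat_lit 15) (nat_lit 5) (nat_lit 15) (nat_lit 3) (nat_lit 18) (nat_lit 3) (nat_lit 229) (nat_lit 228) (nat_lit 143)) (XT.lf (nat_lit 76) (nat_lit 60781305194) (nat_lit 0) (nat_lit 149688126598) (nat_lit 304) (nat_lit 27583663678)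 (nat_lit 16) (nat_lit 5) (nat_lit 15) (nat_lit 5) (nat_lit 19) (nat_lit 5) (nat_lit 230) (nat_lit 228) (nat_lit 142))) (XT.nd (nat_lit 78) (nat_lit 152) (nat_lit 0) (XT.lf (nat_lit 76) (nat_lit 175368882233) (nat_lit 0) (nat_lit 61913304031) (nat_lit 304) (nat_lit 19778717664) (nat_lit 16) (nat_lit 5) (nat_lit 15) (nat_lit 5) (nat_lit 19) (nat_lit 5) (nat_lit 231) (nat_lit 228) (nat_lit 141)) (XT.lf (nat_lit 0) (nat_lit 29208875595) (nat_lit 228) (nat_lit 241733342335) (nat_lit 304) (nat_lit 7553863702) (nat_lit 13) (nat_lit 5) (nat_lit 16) (nat_lit 5) (nat_lit 17) (nat_lit 5) (nat_lit 232) (nat_lit 228) (nat_lit 140)))) (XT.nd (nat_lit 156) (nat_lit 152) (nat_lit 0) (XT.nd (nat_lit 78) (nat_lit 0) (nat_lit 0) (XT.lf (nat_lit 0) (nat_lit 13347324314) (nat_lit 304) (nat_lit 140001132339) (nat_lit 76) (nat_lit 148644424166) (nat_lit 12) (nat_lit 5) (nat_lit 16) (nat_lit 5) (nat_lit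 13) (nat_lit 5) (nat_lit 233) (nat_lit 228) (nat_lit 139)) (XT.lf (nat_lit 0) (nat_lit 36610177631) (nat_lit 304) (nat_lit 14682001269) (nat_lit 76) (nat_lit 277668087683) (nat_lit 12) (nat_lit 5) (nat_lit 16) (nat_lit 5) (nat_lit 13) (nat_lit 5) (nat_lit 234) (nat_lit 228) (nat_lit 138))) (XT.nd (nat_lit 78) (nat_lit 0) (nat_lit 0) (XT.lf (nat_lit 0) (nat_lit 72261824406) (nat_lit 228) (nat_lit 220022164799) (nat_lit 76) (nat_lit 66353867663) (nat_lit 10) (nat_lit 5) (nat_lit 13) (nat_lit 5) (nat_lit 11) (nat_lit 5) (nat_lit 235) (nat_lit 228) (nat_lit 137)) (XT.lf (nat_lit 0) (nat_lit 116507605135) (nat_lit 228) (nat_lit 78573038880) (nat_lit 76) (nat_lit 197199484921) (nat_lit 10) (nat_lit 5) (nat_lit 13) (nat_lit 5) (nat_lit 11) (nat_lit 5) (nat_lit 236) (nat_lit 228) (nat_lit 136)))))) (XT.nd (nat_lit 546) (nat_lit 152) (nat_lit 0) (XT.nd (nat_lit 234) (nat_lit 152) (nat_lit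 0) (XT.nd (nat_lit 78) (nat_lit 76) (nat_lit 0) (XT.lf (nat_lit 0) (nat_lit 92311547584) (nat_lit 152) (nat_lit 78901032219) (nat_lit 228) (nat_lit 259182814105) (nat_lit 8) (nat_lit 5) (nat_lit 10) (nat_lit 5) (nat_lit 11) (nat_lit 5) (nat_lit 237) (nat_lit 228) (nat_lit 135)) (XT.nd (nat_lit 78) (nat_lit 76) (nat_lit 0) (XT.lf (nat_lit 0) (nat_lit 240691258310) (nat_lit 228) (nat_lit 178413454158) (nat_lit 76) (nat_lit 54138043480) (nat_lit 8) (nat_lit 5) (nat_lit 11) (nat_lit 5) (nat_lit 9) (nat_lit 4) (nat_lit 238) (nat_lit 228) (nat_lit 134)) (XT.lf (nat_lit 0) (nat_lit 1591916489) (nat_lit 76) (nat_lit 322822853187) (nat_lit 152) (nat_lit 197528998800) (nat_lit 7) (nat_lit 5) (nat_lit 8) (nat_lit 5) (nat_lit 9) (nat_lit 4) (nat_lit 239) (nat_lit 228) (nat_lit 133)))) (XT.nd (nat_lit 156) (nat_lit 152) (nat_lit 0) (XT.nd (nat_lit 78) (nat_lit 0) (nat_lit 0) (XT.lf (nat_lit 0)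 (nat_lit 228649225402) (nat_lit 76) (nat_lit 201373667243) (nat_lit 152) (nat_lit 146528128236) (nat_lit 7) (nat_lit 5) (nat_lit 8) (nat_lit 5) (nat_lit 9) (nat_lit 4) (nat_lit 240) (nat_lit 228) (nat_lit 132)) (XT.lf (nat_lit 0) (nat_lit 489765037899) (nat_lit 76) (nat_lit 61707132741) (nat_lit 152) (nat_lit 87877200659) (nat_lit 7) (nat_lit 5) (nat_lit 8) (nat_lit 5) (nat_lit 9) (nat_lit 4) (nat_lit 241) (nat_lit 228) (nat_lit 131))) (XT.nd (nat_lit 78) (nat_lit 76) (nat_lit 0) (XT.lf (nat_lit 0) (nat_lit 81654479387) (nat_lit 76) (nat_lit 616961069186) (nat_lit 76) (nat_lit 11830420025) (nat_lit 6) (nat_lit 4) (nat_lit 7) (nat_lit 5) (nat_lit 7) (nat_lit 4) (nat_lit 242) (nat_lit 228) (nat_lit 130)) (XT.lf (nat_lit 0) (nat_lit 80020764287) (nat_lit 152) (nat_lit 433086094833) (nat_lit 76) (nat_lit 276961000978) (nat_lit 5) (nat_lit 5) (nat_lit 7) (nat_lit 5) (nat_lit 6) (nat_lit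 4) (nat_lit 243) (nat_lit 228) (nat_lit 129))))) (XT.nd (nat_lit 312) (nat_lit 76) (nat_lit 0) (XT.nd (nat_lit 156) (nat_lit 0) (nat_lit 0) (XT.nd (nat_lit 78) (nat_lit 76) (nat_lit 0) (XT.lf (nat_lit 0) (nat_lit 184438368489) (nat_lit 152) (nat_lit 208588323094) (nat_lit 76) (nat_lit 488521848317) (nat_lit 5) (nat_lit 5) (nat_lit 7) (nat_lit 5) (nat_lit 6) (nat_lit 4) (nat_lit 244) (nat_lit 228) (nat_lit 128)) (XT.lf (nat_lit 0) (nat_lit 54429759780) (nat_lit 76) (nat_lit 252342632006) (nat_lit 152) (nat_lit 679640863435) (nat_lit 4) (nat_lit 5) (nat_lit 5) (nat_lit 5) (nat_lit 6) (nat_lit 4) (nat_lit 245) (nat_lit 228) (nat_lit 127))) (XT.nd (nat_lit 78) (nat_lit 0) (nat_lit 0) (XT.lf (nat_lit 0) (nat_lit 380342973090) (nat_lit 76) (nat_lit 78016986955) (nat_lit 152) (nat_lit 647012201851) (nat_lit 4) (nat_lit 5) (nat_lit 5) (nat_lit 5) (nat_lit 6) (nat_lit 4) (nat_lit 246) (nat_lit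 228) (nat_lit 126)) (XT.lf (nat_lit 0) (nat_lit 637756332776) (nat_lit 152) (nat_lit 492102501338) (nat_lit 0) (nat_lit 111555470313) (nat_lit 4) (nat_lit 5) (nat_lit 6) (nat_lit 4) (nat_lit 4) (nat_lit 4) (nat_lit 247) (nat_lit 228) (nat_lit 125)))) (XT.nd (nat_lit 156) (nat_lit 0) (nat_lit 0) (XT.nd (nat_lit 78) (nat_lit 76) (nat_lit 0) (XT.lf (nat_lit 0) (nat_lit 847777225682) (nat_lit 152) (nat_lit 227951958434) (nat_lit 0) (nat_lit 321576324790) (nat_lit 4) (nat_lit 5) (nat_lit 6) (nat_lit 4) (nat_lit 4) (nat_lit 4) (nat_lit 248) (nat_lit 228) (nat_lit 124)) (XT.lf (nat_lit 0) (nat_lit 83230911009) (nat_lit 76) (nat_lit 1009516729659) (nat_lit 76) (nat_lit 483315795349) (nat_lit 3) (nat_lit 4) (nat_lit 4) (nat_lit 5) (nat_lit 4) (nat_lit 4) (nat_lit 249) (nat_lit 228) (nat_lit 123))) (XT.nd (nat_lit 78) (nat_lit 0) (nat_lit 0) (XT.lf (nat_lit 0) (nat_lit 466709858514) (nat_lit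 76) (nat_lit 919669405169) (nat_lit 76) (nat_lit 393468441802) (nat_lit 3) (nat_lit 4) (nat_lit 4) (nat_lit 5) (nat_lit 4) (nat_lit 4) (nat_lit 250) (nat_lit 228) (nat_lit 122)) (XT.lf (nat_lit 0) (nat_lit 907710609842) (nat_lit 76) (nat_lit 816344998768) (nat_lit 76) (nat_lit 290144010132) (nat_lit 3) (nat_lit 4) (nat_lit 4) (nat_lit 5) (nat_lit 4) (nat_lit 4) (nat_lit 251) (nat_lit 228) (nat_lit 121))))))) (XT.nd (nat_lit 1950) (nat_lit 0) (nat_lit 0) (XT.nd (nat_lit 546) (nat_lit 0) (nat_lit 0) (XT.nd (nat_lit 234) (nat_lit 76) (nat_lit 0) (XT.nd (nat_lit 78) (nat_lit 76) (nat_lit 0) (XT.lf (nat_lit 0) (nat_lit 1414861440562) (nat_lit 76) (nat_lit 697521945980) (nat_lit 76) (nat_lit 171320935372) (nat_lit 3) (nat_lit 4) (nat_lit 4) (nat_lit 5) (nat_lit 4) (nat_lit 4) (nat_lit 252) (nat_lit 228) (nat_lit 120)) (XT.nd (nat_lit 78) (nat_lit 76) (nat_lit 0) (XT.lf (nat_lit 0) (nat_lit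 1998084866928) (nat_lit 76) (nat_lit 560875447949) (nat_lit 76) (nat_lit 34674418234) (nat_lit 3) (nat_lit 4) (nat_lit 4) (nat_lit 5) (nat_lit 4) (nat_lit 4) (nat_lit 253) (nat_lit 228) (nat_lit 119)) (XT.lf (nat_lit 0) (nat_lit 111566017478) (nat_lit 152) (nat_lit 286334108750) (nat_lit 76) (nat_lit 2551393904582) (nat_lit 2) (nat_lit 5) (nat_lit 4) (nat_lit 5) (nat_lit 3) (nat_lit 4) (nat_lit 254) (nat_lit 228) (nat_lit 118)))) (XT.nd (nat_lit 156) (nat_lit 0) (nat_lit 0) (XT.nd (nat_lit 78) (nat_lit 0) (nat_lit 0) (XT.lf (nat_lit 0) (nat_lit 74220443403) (nat_lit 76) (nat_lit 205045372493) (nat_lit 152) (nat_lit 3078327738322) (nat_lit 1) (nat_lit 5) (nat_lit 2) (nat_lit 5) (nat_lit 3) (nat_lit 4) (nat_lit 255) (nat_lit 228) (nat_lit 117)) (XT.lf (nat_lit 0) (nat_lit 488493840746) (nat_lit 152) (nat_lit 3305260486936) (nat_lit 0) (nat_lit 30927690017) (nat_lit 1) (nat_lit 5) (nat_lit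 3) (nat_lit 4) (nat_lit 1) (nat_lit 4) (nat_lit 256) (nat_lit 228) (nat_lit 116))) (XT.nd (nat_lit 78) (nat_lit 0) (nat_lit 0) (XT.lf (nat_lit 0) (nat_lit 738870123711) (nat_lit 152) (nat_lit 3340195055401) (nat_lit 0) (nat_lit 281303963482) (nat_lit 1) (nat_lit 5) (nat_lit 3) (nat_lit 4) (nat_lit 1) (nat_lit 4) (nat_lit 257) (nat_lit 228) (nat_lit 115)) (XT.lf (nat_lit 0) (nat_lit 1026802839582) (nat_lit 152) (nat_lit 3380369827023) (nat_lit 0) (nat_lit 569236671093) (nat_lit 1) (nat_lit 5) (nat_lit 3) (nat_lit 4) (nat_lit 1) (nat_lit 4) (nat_lit 258) (nat_lit 228) (nat_lit 114))))) (XT.nd (nat_lit 312) (nat_lit 0) (nat_lit 0) (XT.nd (nat_lit 156) (nat_lit 0) (nat_lit 0) (XT.nd (nat_lit 78) (nat_lit 0) (nat_lit 0) (XT.lf (nat_lit 0) (nat_lit 1357925454541) (nat_lit 152) (nat_lit 3426570829942) (nat_lit 0) (nat_lit 900359278869) (nat_lit 1) (nat_lit 5) (nat_lit 3) (nat_lit 4) (nat_lit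 1) (nat_lit 4) (nat_lit 259) (nat_lit 228) (nat_lit 113)) (XT.lf (nat_lit 0) (nat_lit 1738716454531) (nat_lit 152) (nat_lit 3479701996825) (nat_lit 0) (nat_lit 1281150272614) (nat_lit 1) (nat_lit 5) (nat_lit 3) (nat_lit 4) (nat_lit 1) (nat_lit 4) (nat_lit 260) (nat_lit 228) (nat_lit 112))) (XT.nd (nat_lit 78) (nat_lit 0) (nat_lit 0) (XT.lf (nat_lit 0) (nat_lit 2176626098249) (nat_lit 152) (nat_lit 3540802850500) (nat_lit 0) (nat_lit 1719059910900) (nat_lit 1) (nat_lit 5) (nat_lit 3) (nat_lit 4) (nat_lit 1) (nat_lit 4) (nat_lit 261) (nat_lit 228) (nat_lit 111)) (XT.lf (nat_lit 0) (nat_lit 2680222183071) (nat_lit 152) (nat_lit 3611068842454) (nat_lit 0) (nat_lit 2222655990999) (nat_lit 1) (nat_lit 5) (nat_lit 3) (nat_lit 4) (nat_lit 1) (nat_lit 4) (nat_lit 262) (nat_lit 228) (nat_lit 110)))) (XT.nd (nat_lit 936) (nat_lit 0) (nat_lit 0) (XT.nd (nat_lit 78) (nat_lit 0) (nat_lit 0) (XT.lf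 (nat_lit 0) (nat_lit 3259357675874) (nat_lit 152) (nat_lit 3691874742094) (nat_lit 0) (nat_lit 2801791479696) (nat_lit 1) (nat_lit 5) (nat_lit 3) (nat_lit 4) (nat_lit 1) (nat_lit 4) (nat_lit 263) (nat_lit 228) (nat_lit 109)) (XT.lf (nat_lit 0) (nat_lit 3925363488475) (nat_lit 152) (nat_lit 3784801534414) (nat_lit 0) (nat_lit 3467797288726) (nat_lit 1) (nat_lit 5) (nat_lit 3) (nat_lit 4) (nat_lit 1) (nat_lit 4) (nat_lit 264) (nat_lit 228) (nat_lit 108))) (XT.nd (nat_lit 78) (nat_lit 0) (nat_lit 0) (XT.lf (nat_lit 0) (nat_lit 22574636428180) (nat_lit 152) (nat_lit 6386907208625) (nat_lit 0) (nat_lit 22117070209740) (nat_lit 1) (nat_lit 5) (nat_lit 3) (nat_lit 4) (nat_lit 1) (nat_lit 4) (nat_lit 275) (nat_lit 228) (nat_lit 97)) (XT.lf (nat_lit 0) (nat_lit 26137934031274) (nat_lit 152) (nat_lit 6884088912842) (nat_lit 0) (nat_lit 25680367812167) (nat_lit 1) (nat_lit 5) (nat_lit 3) (nat_lit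 4) (nat_lit 1) (nat_lit 4) (nat_lit 276) (nat_lit 228) (nat_lit 96)))))) (XT.nd (nat_lit 28002) (nat_lit 0) (nat_lit 456) (XT.nd (nat_lit 27690) (nat_lit 0) (nat_lit 836) (XT.nd (nat_lit 27534) (nat_lit 0) (nat_lit 1064) (XT.lf (nat_lit 0) (nat_lit 30235726274163) (nat_lit 152) (nat_lit 7455847873948) (nat_lit 0) (nat_lit 29778160054476) (nat_lit 1) (nat_lit 5) (nat_lit 3) (nat_lit 4) (nat_lit 1) (nat_lit 4) (nat_lit 277) (nat_lit 228) (nat_lit 95)) (XT.nd (nat_lit 78) (nat_lit 0) (nat_lit 0) (XT.lf (nat_lit 0) (nat_lit 50518391845) (nat_lit 0) (nat_lit 50518391845) (nat_lit 228) (nat_lit 17313419992) (nat_lit 15) (nat_lit 5) (nat_lit 15) (nat_lit 3) (nat_lit 18) (nat_lit 3) (nat_lit 229) (nat_lit 229) (nat_lit 142)) (XT.lf (nat_lit 0) (nat_lit 213592931973) (nat_lit 0) (nat_lit 3637101125) (nat_lit 228) (nat_lit 37222748103) (nat_lit 15) (nat_lit 5) (nat_lit 15) (nat_lit 3) (nat_lit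 18) (nat_lit 3) (nat_lit 230) (nat_lit 229) (nat_lit 141)))) (XT.nd (nat_lit 156) (nat_lit 228) (nat_lit 0) (XT.nd (nat_lit 78) (nat_lit 0) (nat_lit 0) (XT.lf (nat_lit 76) (nat_lit 69899869829) (nat_lit 0) (nat_lit 172141813583) (nat_lit 304) (nat_lit 31719073071) (nat_lit 16) (nat_lit 5) (nat_lit 15) (nat_lit 5) (nat_lit 19) (nat_lit 5) (nat_lit 231) (nat_lit 229) (nat_lit 140)) (XT.lf (nat_lit 76) (nat_lit 201675404877) (nat_lit 0) (nat_lit 71200706588) (nat_lit 304) (nat_lit 22743664306) (nat_lit 16) (nat_lit 5) (nat_lit 15) (nat_lit 5) (nat_lit 19) (nat_lit 5) (nat_lit 232) (nat_lit 229) (nat_lit 139))) (XT.nd (nat_lit 78) (nat_lit 76) (nat_lit 0) (XT.lf (nat_lit 0) (nat_lit 33591610982) (nat_lit 228) (nat_lit 277993372046) (nat_lit 304) (nat_lit 8685274982) (nat_lit 13) (nat_lit 5) (nat_lit 16) (nat_lit 5) (nat_lit 17) (nat_lit 5) (nat_lit 233) (nat_lit 229) (nat_lit 138)) (XT.lf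 (nat_lit 0) (nat_lit 15350744487) (nat_lit 304) (nat_lit 160999936246) (nat_lit 76) (nat_lit 170940918096) (nat_lit 12) (nat_lit 5) (nat_lit 16) (nat_lit 5) (nat_lit 13) (nat_lit 5) (nat_lit 234) (nat_lit 229) (nat_lit 137))))) (XT.nd (nat_lit 312) (nat_lit 76) (nat_lit 0) (XT.nd (nat_lit 156) (nat_lit 152) (nat_lit 0) (XT.nd (nat_lit 78) (nat_lit 152) (nat_lit 0) (XT.lf (nat_lit 0) (nat_lit 42102853429) (nat_lit 304) (nat_lit 16883113682) (nat_lit 76) (nat_lit 319318153275) (nat_lit 12) (nat_lit 5) (nat_lit 16) (nat_lit 5) (nat_lit 13) (nat_lit 5) (nat_lit 235) (nat_lit 229) (nat_lit 136)) (XT.lf (nat_lit 0) (nat_lit 83102147904) (nat_lit 228) (nat_lit 253024190415) (nat_lit 76) (nat_lit 76307027593) (nat_lit 10) (nat_lit 5) (nat_lit 13) (nat_lit 5) (nat_lit 11) (nat_lit 5) (nat_lit 236) (nat_lit 229) (nat_lit 135))) (XT.nd (nat_lit 78) (nat_lit 152) (nat_lit 0) (XT.lf (nat_lit 0)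 (nat_lit 133984658808) (nat_lit 228) (nat_lit 90357865057) (nat_lit 76) (nat_lit 226779477034) (nat_lit 10) (nat_lit 5) (nat_lit 13) (nat_lit 5) (nat_lit 11) (nat_lit 5) (nat_lit 237) (nat_lit 229) (nat_lit 134)) (XT.lf (nat_lit 0) (nat_lit 106159358030) (nat_lit 152) (nat_lit 90735947222) (nat_lit 228) (nat_lit 298059262889) (nat_lit 8) (nat_lit 5) (nat_lit 10) (nat_lit 5) (nat_lit 11) (nat_lit 5) (nat_lit 238) (nat_lit 229) (nat_lit 133)))) (XT.nd (nat_lit 156) (nat_lit 0) (nat_lit 0) (XT.nd (nat_lit 78) (nat_lit 76) (nat_lit 0) (XT.lf (nat_lit 0) (nat_lit 276795684804) (nat_lit 228) (nat_lit 205174425994) (nat_lit 76) (nat_lit 62258939983) (nat_lit 8) (nat_lit 5) (nat_lit 11) (nat_lit 5) (nat_lit 9) (nat_lit 4) (nat_lit 239) (nat_lit 229) (nat_lit 132)) (XT.lf (nat_lit 0) (nat_lit 1831702691) (nat_lit 76) (nat_lit 371245965311) (nat_lit 152) (nat_lit 227157556447) (nat_lit 7) (nat_lit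 5) (nat_lit 8) (nat_lit 5) (nat_lit 9) (nat_lit 4) (nat_lit 240) (nat_lit 229) (nat_lit 131))) (XT.nd (nat_lit 78) (nat_lit 0) (nat_lit 0) (XT.lf (nat_lit 0) (nat_lit 262947477673) (nat_lit 76) (nat_lit 231579442673) (nat_lit 152) (nat_lit 168506658626) (nat_lit 7) (nat_lit 5) (nat_lit 8) (nat_lit 5) (nat_lit 9) (nat_lit 4) (nat_lit 241) (nat_lit 229) (nat_lit 130)) (XT.lf (nat_lit 0) (nat_lit 563230548766) (nat_lit 76) (nat_lit 70962963821) (nat_lit 152) (nat_lit 101058181762) (nat_lit 7) (nat_lit 5) (nat_lit 8) (nat_lit 5) (nat_lit 9) (nat_lit 4) (nat_lit 242) (nat_lit 229) (nat_lit 129))))))))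
noncomputable def xc54 : XT := (XT.nd (nat_lit 2574) (nat_lit 0) (nat_lit 0) (XT.nd (nat_lit 1092) (nat_lit 0) (nat_lit 0) (XT.nd (nat_lit 546) (nat_lit 228) (nat_lit 0) (XT.nd (nat_lit 234) (nat_lit 76) (nat_lit 0) (XT.nd (nat_lit 78) (nat_lit 76) (nat_lit 0) (XT.lf (nat_lit 0) (nat_lit 93903441599) (nat_lit 76) (nat_lit 709504929584) (nat_lit 76) (nat_lit 13604414639) (nat_lit 6) (nat_lit 4) (nat_lit 7) (nat_lit 5) (nat_lit 7) (nat_lit 4) (nat_lit 243) (nat_lit 229) (nat_lit 128)) (XT.nd (nat_lit 78) (nat_lit 0) (nat_lit 0) (XT.lf (nat_lit 0) (nat_lit 92024329180) (nat_lit 152) (nat_lit 498048274420) (nat_lit 76) (nat_lit 318505364560) (nat_lit 5) (nat_lit 5) (nat_lit 7) (nat_lit 5) (nat_lit 6) (nat_lit 4) (nat_lit 244) (nat_lit 229) (nat_lit 127)) (XT.lf (nat_lit 0) (nat_lit 212104515285) (nat_lit 152) (nat_lit 239875932743) (nat_lit 76) (nat_lit 561800311161) (nat_lit 5) (nat_lit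 5) (nat_lit 7) (nat_lit 5) (nat_lit 6) (nat_lit 4) (nat_lit 245) (nat_lit 229) (nat_lit 126)))) (XT.nd (nat_lit 156) (nat_lit 0) (nat_lit 0) (XT.nd (nat_lit 78) (nat_lit 0) (nat_lit 0) (XT.lf (nat_lit 0) (nat_lit 62594833526) (nat_lit 76) (nat_lit 290193782732) (nat_lit 152) (nat_lit 781586569810) (nat_lit 4) (nat_lit 5) (nat_lit 5) (nat_lit 5) (nat_lit 6) (nat_lit 4) (nat_lit 246) (nat_lit 229) (nat_lit 125)) (XT.lf (nat_lit 0) (nat_lit 437394949296) (nat_lit 76) (nat_lit 89719322759) (nat_lit 152) (nat_lit 744063664181) (nat_lit 4) (nat_lit 5) (nat_lit 5) (nat_lit 5) (nat_lit 6) (nat_lit 4) (nat_lit 247) (nat_lit 229) (nat_lit 124))) (XT.nd (nat_lit 78) (nat_lit 0) (nat_lit 0) (XT.lf (nat_lit 0) (nat_lit 733420066858) (nat_lit 152) (nat_lit 565917379670) (nat_lit 0) (nat_lit 128288958986) (nat_lit 4) (nat_lit 5) (nat_lit 6) (nat_lit 4) (nat_lit 4) (nat_lit 4) (nat_lit 248) (nat_lit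 229) (nat_lit 123)) (XT.lf (nat_lit 0) (nat_lit 974944056636) (nat_lit 152) (nat_lit 262144320139) (nat_lit 0) (nat_lit 369812919705) (nat_lit 4) (nat_lit 5) (nat_lit 6) (nat_lit 4) (nat_lit 4) (nat_lit 4) (nat_lit 249) (nat_lit 229) (nat_lit 122))))) (XT.nd (nat_lit 234) (nat_lit 152) (nat_lit 0) (XT.nd (nat_lit 78) (nat_lit 0) (nat_lit 0) (XT.lf (nat_lit 0) (nat_lit 95715960081) (nat_lit 76) (nat_lit 1160944058635) (nat_lit 76) (nat_lit 555812896436) (nat_lit 3) (nat_lit 4) (nat_lit 4) (nat_lit 5) (nat_lit 4) (nat_lit 4) (nat_lit 250) (nat_lit 229) (nat_lit 121)) (XT.nd (nat_lit 78) (nat_lit 0) (nat_lit 0) (XT.lf (nat_lit 0) (nat_lit 536716695917) (nat_lit 76) (nat_lit 1057619659012) (nat_lit 76) (nat_lit 452488474840) (nat_lit 3) (nat_lit 4) (nat_lit 4) (nat_lit 5) (nat_lit 4) (nat_lit 4) (nat_lit 251) (nat_lit 229) (nat_lit 120)) (XT.lf (nat_lit 0) (nat_lit 1043867513167) (nat_lit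 76) (nat_lit 938796612120) (nat_lit 76) (nat_lit 333665408841) (nat_lit 3) (nat_lit 4) (nat_lit 4) (nat_lit 5) (nat_lit 4) (nat_lit 4) (nat_lit 252) (nat_lit 229) (nat_lit 119)))) (XT.nd (nat_lit 156) (nat_lit 152) (nat_lit 0) (XT.nd (nat_lit 78) (nat_lit 0) (nat_lit 0) (XT.lf (nat_lit 0) (nat_lit 1627090927820) (nat_lit 76) (nat_lit 802150119214) (nat_lit 76) (nat_lit 197018899321) (nat_lit 3) (nat_lit 4) (nat_lit 4) (nat_lit 5) (nat_lit 4) (nat_lit 4) (nat_lit 253) (nat_lit 229) (nat_lit 118)) (XT.lf (nat_lit 0) (nat_lit 2297797832770) (nat_lit 76) (nat_lit 645006661955) (nat_lit 76) (nat_lit 39875427616) (nat_lit 3) (nat_lit 4) (nat_lit 4) (nat_lit 5) (nat_lit 4) (nat_lit 4) (nat_lit 254) (nat_lit 229) (nat_lit 117))) (XT.nd (nat_lit 78) (nat_lit 76) (nat_lit 0) (XT.lf (nat_lit 0) (nat_lit 128301041579) (nat_lit 152) (nat_lit 329284007507) (nat_lit 76) (nat_lit 2934103067486) (nat_lit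 2) (nat_lit 5) (nat_lit 4) (nat_lit 5) (nat_lit 3) (nat_lit 4) (nat_lit 255) (nat_lit 229) (nat_lit 116)) (XT.lf (nat_lit 0) (nat_lit 85353717581) (nat_lit 76) (nat_lit 235802084933) (nat_lit 152) (nat_lit 3540076767148) (nat_lit 1) (nat_lit 5) (nat_lit 2) (nat_lit 5) (nat_lit 3) (nat_lit 4) (nat_lit 256) (nat_lit 229) (nat_lit 115)))))) (XT.nd (nat_lit 546) (nat_lit 0) (nat_lit 0) (XT.nd (nat_lit 234) (nat_lit 0) (nat_lit 0) (XT.nd (nat_lit 78) (nat_lit 0) (nat_lit 0) (XT.lf (nat_lit 0) (nat_lit 561768019555) (nat_lit 152) (nat_lit 3801049367379) (nat_lit 0) (nat_lit 35566917533) (nat_lit 1) (nat_lit 5) (nat_lit 3) (nat_lit 4) (nat_lit 1) (nat_lit 4) (nat_lit 257) (nat_lit 229) (nat_lit 114)) (XT.nd (nat_lit 78) (nat_lit 0) (nat_lit 0) (XT.lf (nat_lit 0) (nat_lit 849700731569) (nat_lit 152) (nat_lit 3841224146235) (nat_lit 0) (nat_lit 323499622364) (nat_lit 1) (nat_lit 5) (nat_lit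 3) (nat_lit 4) (nat_lit 1) (nat_lit 4) (nat_lit 258) (nat_lit 229) (nat_lit 113)) (XT.lf (nat_lit 0) (nat_lit 1180823343173) (nat_lit 152) (nat_lit 3887425155445) (nat_lit 0) (nat_lit 654622227722) (nat_lit 1) (nat_lit 5) (nat_lit 3) (nat_lit 4) (nat_lit 1) (nat_lit 4) (nat_lit 259) (nat_lit 229) (nat_lit 112)))) (XT.nd (nat_lit 156) (nat_lit 0) (nat_lit 0) (XT.nd (nat_lit 78) (nat_lit 0) (nat_lit 0) (XT.lf (nat_lit 0) (nat_lit 1561614340247) (nat_lit 152) (nat_lit 3940556327797) (nat_lit 0) (nat_lit 1035413219365) (nat_lit 1) (nat_lit 5) (nat_lit 3) (nat_lit 4) (nat_lit 1) (nat_lit 4) (nat_lit 260) (nat_lit 229) (nat_lit 111)) (XT.lf (nat_lit 0) (nat_lit 1999523981428) (nat_lit 152) (nat_lit 4001657186230) (nat_lit 0) (nat_lit 1473322855823) (nat_lit 1) (nat_lit 5) (nat_lit 3) (nat_lit 4) (nat_lit 1) (nat_lit 4) (nat_lit 261) (nat_lit 229) (nat_lit 110))) (XT.nd (nat_lit 78) (nat_lit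 0) (nat_lit 0) (XT.lf (nat_lit 0) (nat_lit 2503120064045) (nat_lit 152) (nat_lit 4071923182320) (nat_lit 0) (nat_lit 1976918934333) (nat_lit 1) (nat_lit 5) (nat_lit 3) (nat_lit 4) (nat_lit 1) (nat_lit 4) (nat_lit 262) (nat_lit 229) (nat_lit 109)) (XT.lf (nat_lit 0) (nat_lit 3082255554931) (nat_lit 152) (nat_lit 4152729085557) (nat_lit 0) (nat_lit 2556054421648) (nat_lit 1) (nat_lit 5) (nat_lit 3) (nat_lit 4) (nat_lit 1) (nat_lit 4) (nat_lit 263) (nat_lit 229) (nat_lit 108))))) (XT.nd (nat_lit 468) (nat_lit 0) (nat_lit 0) (XT.nd (nat_lit 312) (nat_lit 0) (nat_lit 0) (XT.nd (nat_lit 234) (nat_lit 0) (nat_lit 0) (XT.lf (nat_lit 0) (nat_lit 3748261365863) (nat_lit 152) (nat_lit 4245655881004) (nat_lit 0) (nat_lit 3222060229475) (nat_lit 1) (nat_lit 5) (nat_lit 3) (nat_lit 4) (nat_lit 1) (nat_lit 4) (nat_lit 264) (nat_lit 229) (nat_lit 107)) (XT.lf (nat_lit 0) (nat_lit 6407872302084) (nat_lit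 152) (nat_lit 4616747458430) (nat_lit 0) (nat_lit 5881671158606) (nat_lit 1) (nat_lit 5) (nat_lit 3) (nat_lit 4) (nat_lit 1) (nat_lit 4) (nat_lit 267) (nat_lit 229) (nat_lit 104))) (XT.nd (nat_lit 78) (nat_lit 0) (nat_lit 0) (XT.lf (nat_lit 0) (nat_lit 7572720614853) (nat_lit 152) (nat_lit 4779277029006) (nat_lit 0) (nat_lit 7046519469599) (nat_lit 1) (nat_lit 5) (nat_lit 3) (nat_lit 4) (nat_lit 1) (nat_lit 4) (nat_lit 268) (nat_lit 229) (nat_lit 103)) (XT.lf (nat_lit 0) (nat_lit 8912296172755) (nat_lit 152) (nat_lit 4966186038511) (nat_lit 0) (nat_lit 8386095025957) (nat_lit 1) (nat_lit 5) (nat_lit 3) (nat_lit 4) (nat_lit 1) (nat_lit 4) (nat_lit 269) (nat_lit 229) (nat_lit 102)))) (XT.nd (nat_lit 312) (nat_lit 0) (nat_lit 0) (XT.nd (nat_lit 78) (nat_lit 0) (nat_lit 0) (XT.lf (nat_lit 0) (nat_lit 10452808062792) (nat_lit 152) (nat_lit 5181131402350) (nat_lit 0) (nat_lit 9926606914651)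 (nat_lit 1) (nat_lit 5) (nat_lit 3) (nat_lit 4) (nat_lit 1) (nat_lit 4) (nat_lit 270) (nat_lit 229) (nat_lit 101)) (XT.lf (nat_lit 0) (nat_lit 12224396734986) (nat_lit 152) (nat_lit 5428318573292) (nat_lit 0) (nat_lit 11698195585678) (nat_lit 1) (nat_lit 5) (nat_lit 3) (nat_lit 4) (nat_lit 1) (nat_lit 4) (nat_lit 271) (nat_lit 229) (nat_lit 100))) (XT.nd (nat_lit 78) (nat_lit 0) (nat_lit 0) (XT.lf (nat_lit 0) (nat_lit 19299014641663) (nat_lit 152) (nat_lit 6415429655458) (nat_lit 0) (nat_lit 18772813489690) (nat_lit 1) (nat_lit 5) (nat_lit 3) (nat_lit 4) (nat_lit 1) (nat_lit 4) (nat_lit 274) (nat_lit 229) (nat_lit 97)) (XT.lf (nat_lit 0) (nat_lit 22397534296840) (nat_lit 152) (nat_lit 6847761571584) (nat_lit 0) (nat_lit 21871333144199) (nat_lit 1) (nat_lit 5) (nat_lit 3) (nat_lit 4) (nat_lit 1) (nat_lit 4) (nat_lit 275) (nat_lit 229) (nat_lit 96))))))) (XT.nd (nat_lit 28782) (nat_lit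 0) (nat_lit 0) (XT.nd (nat_lit 28158) (nat_lit 0) (nat_lit 456) (XT.nd (nat_lit 27846) (nat_lit 0) (nat_lit 836) (XT.nd (nat_lit 27690) (nat_lit 0) (nat_lit 1064) (XT.lf (nat_lit 0) (nat_lit 25960831899623) (nat_lit 152) (nat_lit 7344943276385) (nat_lit 0) (nat_lit 25434630746402) (nat_lit 1) (nat_lit 5) (nat_lit 3) (nat_lit 4) (nat_lit 1) (nat_lit 4) (nat_lit 276) (nat_lit 229) (nat_lit 95)) (XT.nd (nat_lit 78) (nat_lit 0) (nat_lit 0) (XT.lf (nat_lit 0) (nat_lit 58096605073) (nat_lit 0) (nat_lit 58096605073) (nat_lit 228) (nat_lit 19909373862) (nat_lit 15) (nat_lit 5) (nat_lit 15) (nat_lit 3) (nat_lit 18) (nat_lit 3) (nat_lit 230) (nat_lit 230) (nat_lit 140)) (XT.lf (nat_lit 0) (nat_lit 245632662118) (nat_lit 0) (nat_lit 4183456643) (nat_lit 228) (nat_lit 42804318357) (nat_lit 15) (nat_lit 5) (nat_lit 15) (nat_lit 3) (nat_lit 18) (nat_lit 3) (nat_lit 231) (nat_lit 230) (nat_lit 139))))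 (XT.nd (nat_lit 156) (nat_lit 228) (nat_lit 0) (XT.nd (nat_lit 78) (nat_lit 0) (nat_lit 0) (XT.lf (nat_lit 76) (nat_lit 80385885354) (nat_lit 0) (nat_lit 197963439492) (nat_lit 304) (nat_lit 36475315764) (nat_lit 16) (nat_lit 5) (nat_lit 15) (nat_lit 5) (nat_lit 19) (nat_lit 5) (nat_lit 232) (nat_lit 230) (nat_lit 138)) (XT.lf (nat_lit 76) (nat_lit 231927615653) (nat_lit 0) (nat_lit 81881120290) (nat_lit 304) (nat_lit 26153806763) (nat_lit 16) (nat_lit 5) (nat_lit 15) (nat_lit 5) (nat_lit 19) (nat_lit 5) (nat_lit 233) (nat_lit 230) (nat_lit 137))) (XT.nd (nat_lit 78) (nat_lit 76) (nat_lit 0) (XT.lf (nat_lit 0) (nat_lit 38631414291) (nat_lit 228) (nat_lit 319692399297) (nat_lit 304) (nat_lit 9986804773) (nat_lit 13) (nat_lit 5) (nat_lit 16) (nat_lit 5) (nat_lit 17) (nat_lit 5) (nat_lit 234) (nat_lit 230) (nat_lit 136)) (XT.lf (nat_lit 0) (nat_lit 17654355424) (nat_lit 304) (nat_lit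 185148893833) (nat_lit 76) (nat_lit 196581927497) (nat_lit 12) (nat_lit 5) (nat_lit 16) (nat_lit 5) (nat_lit 13) (nat_lit 5) (nat_lit 235) (nat_lit 230) (nat_lit 135))))) (XT.nd (nat_lit 312) (nat_lit 76) (nat_lit 0) (XT.nd (nat_lit 156) (nat_lit 152) (nat_lit 0) (XT.nd (nat_lit 78) (nat_lit 152) (nat_lit 0) (XT.lf (nat_lit 0) (nat_lit 48419150368) (nat_lit 304) (nat_lit 19414682604) (nat_lit 76) (nat_lit 367215764689) (nat_lit 12) (nat_lit 5) (nat_lit 16) (nat_lit 5) (nat_lit 13) (nat_lit 5) (nat_lit 236) (nat_lit 230) (nat_lit 134)) (XT.lf (nat_lit 0) (nat_lit 95568263918) (nat_lit 228) (nat_lit 290976836668) (nat_lit 76) (nat_lit 87753142057) (nat_lit 10) (nat_lit 5) (nat_lit 13) (nat_lit 5) (nat_lit 11) (nat_lit 5) (nat_lit 237) (nat_lit 230) (nat_lit 133))) (XT.nd (nat_lit 78) (nat_lit 152) (nat_lit 0) (XT.lf (nat_lit 0) (nat_lit 154083047914) (nat_lit 228) (nat_lit 103910690634)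 (nat_lit 76) (nat_lit 260796451045) (nat_lit 10) (nat_lit 5) (nat_lit 13) (nat_lit 5) (nat_lit 11) (nat_lit 5) (nat_lit 238) (nat_lit 230) (nat_lit 132)) (XT.lf (nat_lit 0) (nat_lit 122084077090) (nat_lit 152) (nat_lit 104346157960) (nat_lit 228) (nat_lit 342767416343) (nat_lit 8) (nat_lit 5) (nat_lit 10) (nat_lit 5) (nat_lit 11) (nat_lit 5) (nat_lit 239) (nat_lit 230) (nat_lit 131)))) (XT.nd (nat_lit 156) (nat_lit 0) (nat_lit 0) (XT.nd (nat_lit 78) (nat_lit 76) (nat_lit 0) (XT.lf (nat_lit 0) (nat_lit 318315595368) (nat_lit 228) (nat_lit 235949798750) (nat_lit 76) (nat_lit 71597924633) (nat_lit 8) (nat_lit 5) (nat_lit 11) (nat_lit 5) (nat_lit 9) (nat_lit 4) (nat_lit 240) (nat_lit 230) (nat_lit 130)) (XT.lf (nat_lit 0) (nat_lit 2107213277) (nat_lit 76) (nat_lit 426932621277) (nat_lit 152) (nat_lit 261230590917) (nat_lit 7) (nat_lit 5) (nat_lit 8) (nat_lit 5) (nat_lit 9) (nat_lit 4)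 (nat_lit 241) (nat_lit 230) (nat_lit 129))) (XT.nd (nat_lit 78) (nat_lit 0) (nat_lit 0) (XT.lf (nat_lit 0) (nat_lit 302390256004) (nat_lit 76) (nat_lit 266316151395) (nat_lit 152) (nat_lit 193782136553) (nat_lit 7) (nat_lit 5) (nat_lit 8) (nat_lit 5) (nat_lit 9) (nat_lit 4) (nat_lit 242) (nat_lit 230) (nat_lit 128)) (XT.lf (nat_lit 0) (nat_lit 647715702107) (nat_lit 76) (nat_lit 81607227803) (nat_lit 152) (nat_lit 116216456099) (nat_lit 7) (nat_lit 5) (nat_lit 8) (nat_lit 5) (nat_lit 9) (nat_lit 4) (nat_lit 243) (nat_lit 230) (nat_lit 127)))))) (XT.nd (nat_lit 546) (nat_lit 228) (nat_lit 0) (XT.nd (nat_lit 234) (nat_lit 76) (nat_lit 0) (XT.nd (nat_lit 78) (nat_lit 76) (nat_lit 0) (XT.lf (nat_lit 0) (nat_lit 107989555423) (nat_lit 76) (nat_lit 815930442195) (nat_lit 76) (nat_lit 15644647051) (nat_lit 6) (nat_lit 4) (nat_lit 7) (nat_lit 5) (nat_lit 7) (nat_lit 4) (nat_lit 244) (nat_lit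 230) (nat_lit 126)) (XT.nd (nat_lit 78) (nat_lit 0) (nat_lit 0) (XT.lf (nat_lit 0) (nat_lit 105828319011) (nat_lit 152) (nat_lit 572754960092) (nat_lit 76) (nat_lit 366281330632) (nat_lit 5) (nat_lit 5) (nat_lit 7) (nat_lit 5) (nat_lit 6) (nat_lit 4) (nat_lit 245) (nat_lit 230) (nat_lit 125)) (XT.lf (nat_lit 0) (nat_lit 243920488624) (nat_lit 152) (nat_lit 275856839619) (nat_lit 76) (nat_lit 646070498173) (nat_lit 5) (nat_lit 5) (nat_lit 7) (nat_lit 5) (nat_lit 6) (nat_lit 4) (nat_lit 246) (nat_lit 230) (nat_lit 124)))) (XT.nd (nat_lit 156) (nat_lit 0) (nat_lit 0) (XT.nd (nat_lit 78) (nat_lit 0) (nat_lit 0) (XT.lf (nat_lit 0) (nat_lit 71984519634) (nat_lit 76) (nat_lit 333722665586) (nat_lit 152) (nat_lit 898824235327) (nat_lit 4) (nat_lit 5) (nat_lit 5) (nat_lit 5) (nat_lit 6) (nat_lit 4) (nat_lit 247) (nat_lit 230) (nat_lit 123)) (XT.lf (nat_lit 0) (nat_lit 503004592629) (nat_lit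 76) (nat_lit 103177060690) (nat_lit 152) (nat_lit 855672935586) (nat_lit 4) (nat_lit 5) (nat_lit 5) (nat_lit 5) (nat_lit 6) (nat_lit 4) (nat_lit 248) (nat_lit 230) (nat_lit 122))) (XT.nd (nat_lit 78) (nat_lit 0) (nat_lit 0) (XT.lf (nat_lit 0) (nat_lit 843433291758) (nat_lit 152) (nat_lit 650804610917) (nat_lit 0) (nat_lit 147532429960) (nat_lit 4) (nat_lit 5) (nat_lit 6) (nat_lit 4) (nat_lit 4) (nat_lit 4) (nat_lit 249) (nat_lit 230) (nat_lit 121)) (XT.lf (nat_lit 0) (nat_lit 1121185851975) (nat_lit 152) (nat_lit 301465641461) (nat_lit 0) (nat_lit 425284968205) (nat_lit 4) (nat_lit 5) (nat_lit 6) (nat_lit 4) (nat_lit 4) (nat_lit 4) (nat_lit 250) (nat_lit 230) (nat_lit 120))))) (XT.nd (nat_lit 312) (nat_lit 152) (nat_lit 0) (XT.nd (nat_lit 156) (nat_lit 0) (nat_lit 0) (XT.nd (nat_lit 78) (nat_lit 0) (nat_lit 0) (XT.lf (nat_lit 0) (nat_lit 110073665942) (nat_lit 76) (nat_lit 1335085530967)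 (nat_lit 76) (nat_lit 639184628091) (nat_lit 3) (nat_lit 4) (nat_lit 4) (nat_lit 5) (nat_lit 4) (nat_lit 4) (nat_lit 251) (nat_lit 230) (nat_lit 119)) (XT.lf (nat_lit 0) (nat_lit 617224471478) (nat_lit 76) (nat_lit 1216262489200) (nat_lit 76) (nat_lit 520361569710) (nat_lit 3) (nat_lit 4) (nat_lit 4) (nat_lit 5) (nat_lit 4) (nat_lit 4) (nat_lit 252) (nat_lit 230) (nat_lit 118))) (XT.nd (nat_lit 78) (nat_lit 0) (nat_lit 0) (XT.lf (nat_lit 0) (nat_lit 1200447875945) (nat_lit 76) (nat_lit 1079616000752) (nat_lit 76) (nat_lit 383715066814) (nat_lit 3) (nat_lit 4) (nat_lit 4) (nat_lit 5) (nat_lit 4) (nat_lit 4) (nat_lit 253) (nat_lit 230) (nat_lit 117)) (XT.lf (nat_lit 0) (nat_lit 1871154772038) (nat_lit 76) (nat_lit 922472547369) (nat_lit 76) (nat_lit 226571600869) (nat_lit 3) (nat_lit 4) (nat_lit 4) (nat_lit 5) (nat_lit 4) (nat_lit 4) (nat_lit 254) (nat_lit 230) (nat_lit 116)))) (XT.nd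 (nat_lit 156) (nat_lit 76) (nat_lit 0) (XT.nd (nat_lit 78) (nat_lit 76) (nat_lit 0) (XT.lf (nat_lit 0) (nat_lit 2642467685987) (nat_lit 76) (nat_lit 741757583225) (nat_lit 76) (nat_lit 45856625801) (nat_lit 3) (nat_lit 4) (nat_lit 4) (nat_lit 5) (nat_lit 4) (nat_lit 4) (nat_lit 255) (nat_lit 230) (nat_lit 115)) (XT.lf (nat_lit 0) (nat_lit 147546289671) (nat_lit 152) (nat_lit 378676444129) (nat_lit 76) (nat_lit 3374218585996) (nat_lit 2) (nat_lit 5) (nat_lit 4) (nat_lit 5) (nat_lit 3) (nat_lit 4) (nat_lit 256) (nat_lit 230) (nat_lit 114))) (XT.nd (nat_lit 78) (nat_lit 0) (nat_lit 0) (XT.lf (nat_lit 0) (nat_lit 98156932244) (nat_lit 76) (nat_lit 271172327024) (nat_lit 152) (nat_lit 4071088182468) (nat_lit 1) (nat_lit 5) (nat_lit 2) (nat_lit 5) (nat_lit 3) (nat_lit 4) (nat_lit 257) (nat_lit 230) (nat_lit 113)) (XT.lf (nat_lit 0) (nat_lit 646033300142) (nat_lit 152) (nat_lit 4371206626854)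 (nat_lit 0) (nat_lit 40902011128) (nat_lit 1) (nat_lit 5) (nat_lit 3) (nat_lit 4) (nat_lit 1) (nat_lit 4) (nat_lit 258) (nat_lit 230) (nat_lit 112))))))))
noncomputable def xc55 : XT := (XT.nd (nat_lit 30342) (nat_lit 0) (nat_lit 0) (XT.nd (nat_lit 29172) (nat_lit 0) (nat_lit 304) (XT.nd (nat_lit 546) (nat_lit 0) (nat_lit 0) (XT.nd (nat_lit 234) (nat_lit 0) (nat_lit 0) (XT.nd (nat_lit 78) (nat_lit 0) (nat_lit 0) (XT.lf (nat_lit 0) (nat_lit 977155908830) (nat_lit 152) (nat_lit 4417407641534) (nat_lit 0) (nat_lit 372024614384) (nat_lit 1) (nat_lit 5) (nat_lit 3) (nat_lit 4) (nat_lit 1) (nat_lit 4) (nat_lit 259) (nat_lit 230) (nat_lit 111)) (XT.nd (nat_lit 78) (nat_lit 0) (nat_lit 0) (XT.lf (nat_lit 0) (nat_lit 1357946903367) (nat_lit 152) (nat_lit 4470538818643) (nat_lit 0) (nat_lit 752815604198) (nat_lit 1) (nat_lit 5) (nat_lit 3) (nat_lit 4) (nat_lit 1) (nat_lit 4) (nat_lit 260) (nat_lit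 230) (nat_lit 110)) (XT.lf (nat_lit 0) (nat_lit 1795856542343) (nat_lit 152) (nat_lit 4531639681212) (nat_lit 0) (nat_lit 1190725239067) (nat_lit 1) (nat_lit 5) (nat_lit 3) (nat_lit 4) (nat_lit 1) (nat_lit 4) (nat_lit 261) (nat_lit 230) (nat_lit 109)))) (XT.nd (nat_lit 156) (nat_lit 0) (nat_lit 0) (XT.nd (nat_lit 78) (nat_lit 0) (nat_lit 0) (XT.lf (nat_lit 0) (nat_lit 2299452623041) (nat_lit 152) (nat_lit 4601905680899) (nat_lit 0) (nat_lit 1694321316195) (nat_lit 1) (nat_lit 5) (nat_lit 3) (nat_lit 4) (nat_lit 1) (nat_lit 4) (nat_lit 262) (nat_lit 230) (nat_lit 108)) (XT.lf (nat_lit 0) (nat_lit 2878588112259) (nat_lit 152) (nat_lit 4682711587263) (nat_lit 0) (nat_lit 2273456802308) (nat_lit 1) (nat_lit 5) (nat_lit 3) (nat_lit 4) (nat_lit 1) (nat_lit 4) (nat_lit 263) (nat_lit 230) (nat_lit 107))) (XT.nd (nat_lit 78) (nat_lit 0) (nat_lit 0) (XT.lf (nat_lit 0) (nat_lit 3544593921742)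 (nat_lit 152) (nat_lit 4775638385430) (nat_lit 0) (nat_lit 2939462609090) (nat_lit 1) (nat_lit 5) (nat_lit 3) (nat_lit 4) (nat_lit 1) (nat_lit 4) (nat_lit 264) (nat_lit 230) (nat_lit 106)) (XT.lf (nat_lit 0) (nat_lit 4310500599936) (nat_lit 152) (nat_lit 4882504208406) (nat_lit 0) (nat_lit 3705369284936) (nat_lit 1) (nat_lit 5) (nat_lit 3) (nat_lit 4) (nat_lit 1) (nat_lit 4) (nat_lit 265) (nat_lit 230) (nat_lit 105))))) (XT.nd (nat_lit 312) (nat_lit 0) (nat_lit 0) (XT.nd (nat_lit 156) (nat_lit 0) (nat_lit 0) (XT.nd (nat_lit 78) (nat_lit 0) (nat_lit 0) (XT.lf (nat_lit 0) (nat_lit 5191293277501) (nat_lit 152) (nat_lit 5005399909250) (nat_lit 0) (nat_lit 4586161960459) (nat_lit 1) (nat_lit 5) (nat_lit 3) (nat_lit 4) (nat_lit 1) (nat_lit 4) (nat_lit 266) (nat_lit 230) (nat_lit 104)) (XT.lf (nat_lit 0) (nat_lit 6204204854652) (nat_lit 152) (nat_lit 5146729969065) (nat_lit 0) (nat_lit 5599073535834)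 (nat_lit 1) (nat_lit 5) (nat_lit 3) (nat_lit 4) (nat_lit 1) (nat_lit 4) (nat_lit 267) (nat_lit 230) (nat_lit 103))) (XT.nd (nat_lit 78) (nat_lit 0) (nat_lit 0) (XT.lf (nat_lit 0) (nat_lit 7369053166591) (nat_lit 152) (nat_lit 5309259541196) (nat_lit 0) (nat_lit 6763921846230) (nat_lit 1) (nat_lit 5) (nat_lit 3) (nat_lit 4) (nat_lit 1) (nat_lit 4) (nat_lit 268) (nat_lit 230) (nat_lit 102)) (XT.lf (nat_lit 0) (nat_lit 8708628723772) (nat_lit 152) (nat_lit 5496168552054) (nat_lit 0) (nat_lit 8103497402068) (nat_lit 1) (nat_lit 5) (nat_lit 3) (nat_lit 4) (nat_lit 1) (nat_lit 4) (nat_lit 269) (nat_lit 230) (nat_lit 101)))) (XT.nd (nat_lit 390) (nat_lit 0) (nat_lit 0) (XT.nd (nat_lit 312) (nat_lit 0) (nat_lit 0) (XT.lf (nat_lit 0) (nat_lit 10249140613182) (nat_lit 152) (nat_lit 5711113917068) (nat_lit 0) (nat_lit 9644009290311) (nat_lit 1) (nat_lit 5) (nat_lit 3) (nat_lit 4) (nat_lit 1)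 (nat_lit 4) (nat_lit 270) (nat_lit 230) (nat_lit 100)) (XT.lf (nat_lit 0) (nat_lit 19095347190263) (nat_lit 152) (nat_lit 6945412173534) (nat_lit 0) (nat_lit 18490215864059) (nat_lit 1) (nat_lit 5) (nat_lit 3) (nat_lit 4) (nat_lit 1) (nat_lit 4) (nat_lit 274) (nat_lit 230) (nat_lit 96))) (XT.nd (nat_lit 27846) (nat_lit 0) (nat_lit 1064) (XT.lf (nat_lit 0) (nat_lit 22193866845128) (nat_lit 152) (nat_lit 7377744090244) (nat_lit 0) (nat_lit 21588735518344) (nat_lit 1) (nat_lit 5) (nat_lit 3) (nat_lit 4) (nat_lit 1) (nat_lit 4) (nat_lit 275) (nat_lit 230) (nat_lit 95)) (XT.lf (nat_lit 0) (nat_lit 66811439464) (nat_lit 0) (nat_lit 66811439464) (nat_lit 228) (nat_lit 22894979088) (nat_lit 15) (nat_lit 5) (nat_lit 15) (nat_lit 3) (nat_lit 18) (nat_lit 3) (nat_lit 231) (nat_lit 231) (nat_lit 138)))))) (XT.nd (nat_lit 546) (nat_lit 380) (nat_lit 0) (XT.nd (nat_lit 234) (nat_lit 380) (nat_lit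 0) (XT.nd (nat_lit 78) (nat_lit 0) (nat_lit 0) (XT.lf (nat_lit 0) (nat_lit 282478159054) (nat_lit 0) (nat_lit 4811572757) (nat_lit 228) (nat_lit 49223573323) (nat_lit 15) (nat_lit 5) (nat_lit 15) (nat_lit 3) (nat_lit 18) (nat_lit 3) (nat_lit 232) (nat_lit 231) (nat_lit 137)) (XT.nd (nat_lit 78) (nat_lit 0) (nat_lit 0) (XT.lf (nat_lit 76) (nat_lit 92444550805) (nat_lit 0) (nat_lit 227658222993) (nat_lit 304) (nat_lit 41945389486) (nat_lit 16) (nat_lit 5) (nat_lit 15) (nat_lit 5) (nat_lit 19) (nat_lit 5) (nat_lit 233) (nat_lit 231) (nat_lit 136)) (XT.lf (nat_lit 76) (nat_lit 266717438564) (nat_lit 0) (nat_lit 94163521010) (nat_lit 304) (nat_lit 30075813740) (nat_lit 16) (nat_lit 5) (nat_lit 15) (nat_lit 5) (nat_lit 19) (nat_lit 5) (nat_lit 234) (nat_lit 231) (nat_lit 135)))) (XT.nd (nat_lit 156) (nat_lit 152) (nat_lit 0) (XT.nd (nat_lit 78) (nat_lit 76) (nat_lit 0) (XT.lf (nat_lit 0)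 (nat_lit 44426929203) (nat_lit 228) (nat_lit 367646275407) (nat_lit 304) (nat_lit 11483871646) (nat_lit 13) (nat_lit 5) (nat_lit 16) (nat_lit 5) (nat_lit 17) (nat_lit 5) (nat_lit 235) (nat_lit 231) (nat_lit 134)) (XT.lf (nat_lit 0) (nat_lit 20303264324) (nat_lit 304) (nat_lit 212920446925) (nat_lit 76) (nat_lit 226069119598) (nat_lit 12) (nat_lit 5) (nat_lit 16) (nat_lit 5) (nat_lit 13) (nat_lit 5) (nat_lit 236) (nat_lit 231) (nat_lit 133))) (XT.nd (nat_lit 78) (nat_lit 152) (nat_lit 0) (XT.lf (nat_lit 0) (nat_lit 55682679955) (nat_lit 304) (nat_lit 22326205879) (nat_lit 76) (nat_lit 422298045025) (nat_lit 12) (nat_lit 5) (nat_lit 16) (nat_lit 5) (nat_lit 13) (nat_lit 5) (nat_lit 237) (nat_lit 231) (nat_lit 132)) (XT.lf (nat_lit 0) (nat_lit 109904103753) (nat_lit 228) (nat_lit 334622619402) (nat_lit 76) (nat_lit 100916158980) (nat_lit 10) (nat_lit 5) (nat_lit 13) (nat_lit 5) (nat_lit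 11) (nat_lit 5) (nat_lit 238) (nat_lit 231) (nat_lit 131))))) (XT.nd (nat_lit 312) (nat_lit 152) (nat_lit 0) (XT.nd (nat_lit 156) (nat_lit 76) (nat_lit 0) (XT.nd (nat_lit 78) (nat_lit 152) (nat_lit 0) (XT.lf (nat_lit 0) (nat_lit 177196027056) (nat_lit 228) (nat_lit 119496648345) (nat_lit 76) (nat_lit 299915958367) (nat_lit 10) (nat_lit 5) (nat_lit 13) (nat_lit 5) (nat_lit 11) (nat_lit 5) (nat_lit 239) (nat_lit 231) (nat_lit 130)) (XT.lf (nat_lit 0) (nat_lit 140397305179) (nat_lit 152) (nat_lit 119997944531) (nat_lit 228) (nat_lit 394181972289) (nat_lit 8) (nat_lit 5) (nat_lit 10) (nat_lit 5) (nat_lit 11) (nat_lit 5) (nat_lit 240) (nat_lit 231) (nat_lit 129))) (XT.nd (nat_lit 78) (nat_lit 76) (nat_lit 0) (XT.lf (nat_lit 0) (nat_lit 366063356482) (nat_lit 228) (nat_lit 271341670344) (nat_lit 76) (nat_lit 82337721951) (nat_lit 8) (nat_lit 5) (nat_lit 11) (nat_lit 5) (nat_lit 9) (nat_lit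 4) (nat_lit 241) (nat_lit 231) (nat_lit 128)) (XT.lf (nat_lit 0) (nat_lit 2423866295) (nat_lit 76) (nat_lit 490972333878) (nat_lit 152) (nat_lit 300414726628) (nat_lit 7) (nat_lit 5) (nat_lit 8) (nat_lit 5) (nat_lit 9) (nat_lit 4) (nat_lit 242) (nat_lit 231) (nat_lit 127)))) (XT.nd (nat_lit 156) (nat_lit 152) (nat_lit 0) (XT.nd (nat_lit 78) (nat_lit 0) (nat_lit 0) (XT.lf (nat_lit 0) (nat_lit 347749290949) (nat_lit 76) (nat_lit 306263417069) (nat_lit 152) (nat_lit 222849063186) (nat_lit 7) (nat_lit 5) (nat_lit 8) (nat_lit 5) (nat_lit 9) (nat_lit 4) (nat_lit 243) (nat_lit 231) (nat_lit 126)) (XT.lf (nat_lit 0) (nat_lit 744873489202) (nat_lit 76) (nat_lit 93848175421) (nat_lit 152) (nat_lit 133648582035) (nat_lit 7) (nat_lit 5) (nat_lit 8) (nat_lit 5) (nat_lit 9) (nat_lit 4) (nat_lit 244) (nat_lit 231) (nat_lit 125))) (XT.nd (nat_lit 78) (nat_lit 76) (nat_lit 0) (XT.lf (nat_lit 0) (nat_lit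 124188440596) (nat_lit 76) (nat_lit 938319837010) (nat_lit 76) (nat_lit 17991019130) (nat_lit 6) (nat_lit 4) (nat_lit 7) (nat_lit 5) (nat_lit 7) (nat_lit 4) (nat_lit 245) (nat_lit 231) (nat_lit 124)) (XT.lf (nat_lit 0) (nat_lit 121702824295) (nat_lit 152) (nat_lit 658667784074) (nat_lit 76) (nat_lit 421223652259) (nat_lit 5) (nat_lit 5) (nat_lit 7) (nat_lit 5) (nat_lit 6) (nat_lit 4) (nat_lit 246) (nat_lit 231) (nat_lit 123))))))) (XT.nd (nat_lit 1170) (nat_lit 0) (nat_lit 0) (XT.nd (nat_lit 546) (nat_lit 152) (nat_lit 0) (XT.nd (nat_lit 234) (nat_lit 76) (nat_lit 0) (XT.nd (nat_lit 78) (nat_lit 76) (nat_lit 0) (XT.lf (nat_lit 0) (nat_lit 280508785772) (nat_lit 152) (nat_lit 317235000317) (nat_lit 76) (nat_lit 742981179014) (nat_lit 5) (nat_lit 5) (nat_lit 7) (nat_lit 5) (nat_lit 6) (nat_lit 4) (nat_lit 247) (nat_lit 231) (nat_lit 122)) (XT.nd (nat_lit 78) (nat_lit 0) (nat_lit 0)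 (XT.lf (nat_lit 0) (nat_lit 82782546222) (nat_lit 76) (nat_lit 383780925874) (nat_lit 152) (nat_lit 1033647628694) (nat_lit 4) (nat_lit 5) (nat_lit 5) (nat_lit 5) (nat_lit 6) (nat_lit 4) (nat_lit 248) (nat_lit 231) (nat_lit 121)) (XT.lf (nat_lit 0) (nat_lit 578455584691) (nat_lit 76) (nat_lit 118653498445) (nat_lit 152) (nat_lit 984023665549) (nat_lit 4) (nat_lit 5) (nat_lit 5) (nat_lit 5) (nat_lit 6) (nat_lit 4) (nat_lit 249) (nat_lit 231) (nat_lit 120)))) (XT.nd (nat_lit 156) (nat_lit 76) (nat_lit 0) (XT.nd (nat_lit 78) (nat_lit 0) (nat_lit 0) (XT.lf (nat_lit 0) (nat_lit 969948447995) (nat_lit 152) (nat_lit 748425018469) (nat_lit 0) (nat_lit 169662390581) (nat_lit 4) (nat_lit 5) (nat_lit 6) (nat_lit 4) (nat_lit 4) (nat_lit 4) (nat_lit 250) (nat_lit 231) (nat_lit 119)) (XT.lf (nat_lit 0) (nat_lit 1289363871052) (nat_lit 152) (nat_lit 346685240649) (nat_lit 0) (nat_lit 489077797024)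 (nat_lit 4) (nat_lit 5) (nat_lit 6) (nat_lit 4) (nat_lit 4) (nat_lit 4) (nat_lit 251) (nat_lit 231) (nat_lit 118))) (XT.nd (nat_lit 78) (nat_lit 0) (nat_lit 0) (XT.lf (nat_lit 0) (nat_lit 126584951637) (nat_lit 76) (nat_lit 1535348257427) (nat_lit 76) (nat_lit 735062168951) (nat_lit 3) (nat_lit 4) (nat_lit 4) (nat_lit 5) (nat_lit 4) (nat_lit 4) (nat_lit 252) (nat_lit 231) (nat_lit 117)) (XT.lf (nat_lit 0) (nat_lit 709808347246) (nat_lit 76) (nat_lit 1398701772854) (nat_lit 76) (nat_lit 598415671816) (nat_lit 3) (nat_lit 4) (nat_lit 4) (nat_lit 5) (nat_lit 4) (nat_lit 4) (nat_lit 253) (nat_lit 231) (nat_lit 116))))) (XT.nd (nat_lit 312) (nat_lit 76) (nat_lit 0) (XT.nd (nat_lit 156) (nat_lit 76) (nat_lit 0) (XT.nd (nat_lit 78) (nat_lit 0) (nat_lit 0) (XT.lf (nat_lit 0) (nat_lit 1380515235637) (nat_lit 76) (nat_lit 1241558322841) (nat_lit 76) (nat_lit 441272210879) (nat_lit 3) (nat_lit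 4) (nat_lit 4) (nat_lit 5) (nat_lit 4) (nat_lit 4) (nat_lit 254) (nat_lit 231) (nat_lit 115)) (XT.lf (nat_lit 0) (nat_lit 2151828142888) (nat_lit 76) (nat_lit 1060843361628) (nat_lit 76) (nat_lit 260557240167) (nat_lit 3) (nat_lit 4) (nat_lit 4) (nat_lit 5) (nat_lit 4) (nat_lit 4) (nat_lit 255) (nat_lit 231) (nat_lit 114))) (XT.nd (nat_lit 78) (nat_lit 76) (nat_lit 0) (XT.lf (nat_lit 0) (nat_lit 3038837973706) (nat_lit 76) (nat_lit 853021161712) (nat_lit 76) (nat_lit 52735031991) (nat_lit 3) (nat_lit 4) (nat_lit 4) (nat_lit 5) (nat_lit 4) (nat_lit 4) (nat_lit 256) (nat_lit 231) (nat_lit 113)) (XT.lf (nat_lit 0) (nat_lit 169678302578) (nat_lit 152) (nat_lit 435477786360) (nat_lit 76) (nat_lit 3880351418045) (nat_lit 2) (nat_lit 5) (nat_lit 4) (nat_lit 5) (nat_lit 3) (nat_lit 4) (nat_lit 257) (nat_lit 231) (nat_lit 112)))) (XT.nd (nat_lit 156) (nat_lit 0) (nat_lit 0) (XT.nd (nat_lit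 78) (nat_lit 0) (nat_lit 0) (XT.lf (nat_lit 0) (nat_lit 112880590815) (nat_lit 76) (nat_lit 311848122657) (nat_lit 152) (nat_lit 4681751334410) (nat_lit 1) (nat_lit 5) (nat_lit 2) (nat_lit 5) (nat_lit 3) (nat_lit 4) (nat_lit 258) (nat_lit 231) (nat_lit 111)) (XT.lf (nat_lit 0) (nat_lit 742938353881) (nat_lit 152) (nat_lit 5026887510763) (nat_lit 0) (nat_lit 47037355115) (nat_lit 1) (nat_lit 5) (nat_lit 3) (nat_lit 4) (nat_lit 1) (nat_lit 4) (nat_lit 259) (nat_lit 231) (nat_lit 110))) (XT.nd (nat_lit 78) (nat_lit 0) (nat_lit 0) (XT.lf (nat_lit 0) (nat_lit 1123729346213) (nat_lit 152) (nat_lit 5080018692009) (nat_lit 0) (nat_lit 427828343340) (nat_lit 1) (nat_lit 5) (nat_lit 3) (nat_lit 4) (nat_lit 1) (nat_lit 4) (nat_lit 260) (nat_lit 231) (nat_lit 109)) (XT.lf (nat_lit 0) (nat_lit 1561638983271) (nat_lit 152) (nat_lit 5141119558174) (nat_lit 0) (nat_lit 865737976826) (nat_lit 1) (nat_lit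 5) (nat_lit 3) (nat_lit 4) (nat_lit 1) (nat_lit 4) (nat_lit 261) (nat_lit 231) (nat_lit 108)))))) (XT.nd (nat_lit 546) (nat_lit 0) (nat_lit 0) (XT.nd (nat_lit 234) (nat_lit 0) (nat_lit 0) (XT.nd (nat_lit 78) (nat_lit 0) (nat_lit 0) (XT.lf (nat_lit 0) (nat_lit 2065235062302) (nat_lit 152) (nat_lit 5211385560989) (nat_lit 0) (nat_lit 1369334052752) (nat_lit 1) (nat_lit 5) (nat_lit 3) (nat_lit 4) (nat_lit 1) (nat_lit 4) (nat_lit 262) (nat_lit 231) (nat_lit 107)) (XT.nd (nat_lit 78) (nat_lit 0) (nat_lit 0) (XT.lf (nat_lit 0) (nat_lit 2644370550070) (nat_lit 152) (nat_lit 5292191470073) (nat_lit 0) (nat_lit 1948469537819) (nat_lit 1) (nat_lit 5) (nat_lit 3) (nat_lit 4) (nat_lit 1) (nat_lit 4) (nat_lit 263) (nat_lit 231) (nat_lit 106)) (XT.lf (nat_lit 0) (nat_lit 3310376358291) (nat_lit 152) (nat_lit 5385118270605) (nat_lit 0) (nat_lit 2614475343693) (nat_lit 1) (nat_lit 5) (nat_lit 3)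 (nat_lit 4) (nat_lit 1) (nat_lit 4) (nat_lit 264) (nat_lit 231) (nat_lit 105)))) (XT.nd (nat_lit 156) (nat_lit 0) (nat_lit 0) (XT.nd (nat_lit 78) (nat_lit 0) (nat_lit 0) (XT.lf (nat_lit 0) (nat_lit 4076283035389) (nat_lit 152) (nat_lit 5491984095637) (nat_lit 0) (nat_lit 3380382018749) (nat_lit 1) (nat_lit 5) (nat_lit 3) (nat_lit 4) (nat_lit 1) (nat_lit 4) (nat_lit 265) (nat_lit 231) (nat_lit 104)) (XT.lf (nat_lit 0) (nat_lit 4957075712001) (nat_lit 152) (nat_lit 5614879798269) (nat_lit 0) (nat_lit 4261174693585) (nat_lit 1) (nat_lit 5) (nat_lit 3) (nat_lit 4) (nat_lit 1) (nat_lit 4) (nat_lit 266) (nat_lit 231) (nat_lit 103))) (XT.nd (nat_lit 78) (nat_lit 0) (nat_lit 0) (XT.lf (nat_lit 0) (nat_lit 5969987288322) (nat_lit 152) (nat_lit 5756209859640) (nat_lit 0) (nat_lit 5274086268362) (nat_lit 1) (nat_lit 5) (nat_lit 3) (nat_lit 4) (nat_lit 1) (nat_lit 4) (nat_lit 267) (nat_lit 231)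 (nat_lit 102)) (XT.lf (nat_lit 0) (nat_lit 7134835599540) (nat_lit 152) (nat_lit 5918739433123) (nat_lit 0) (nat_lit 6438934578239) (nat_lit 1) (nat_lit 5) (nat_lit 3) (nat_lit 4) (nat_lit 1) (nat_lit 4) (nat_lit 268) (nat_lit 231) (nat_lit 101))))) (XT.nd (nat_lit 28626) (nat_lit 0) (nat_lit 836) (XT.nd (nat_lit 28470) (nat_lit 0) (nat_lit 1064) (XT.nd (nat_lit 28392) (nat_lit 0) (nat_lit 1064) (XT.lf (nat_lit 0) (nat_lit 8474411156094) (nat_lit 152) (nat_lit 6105648445156) (nat_lit 0) (nat_lit 7778510133625) (nat_lit 1) (nat_lit 5) (nat_lit 3) (nat_lit 4) (nat_lit 1) (nat_lit 4) (nat_lit 269) (nat_lit 231) (nat_lit 100)) (XT.lf (nat_lit 0) (nat_lit 76833415217) (nat_lit 0) (nat_lit 76833415217) (nat_lit 228) (nat_lit 26328620392) (nat_lit 15) (nat_lit 5) (nat_lit 15) (nat_lit 3) (nat_lit 18) (nat_lit 3) (nat_lit 232) (nat_lit 232) (nat_lit 136))) (XT.nd (nat_lit 78) (nat_lit 0)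 (nat_lit 0) (XT.lf (nat_lit 0) (nat_lit 324850334797) (nat_lit 0) (nat_lit 5533760556) (nat_lit 228) (nat_lit 56606056173) (nat_lit 15) (nat_lit 5) (nat_lit 15) (nat_lit 3) (nat_lit 18) (nat_lit 3) (nat_lit 233) (nat_lit 232) (nat_lit 135)) (XT.lf (nat_lit 76) (nat_lit 106311825219) (nat_lit 0) (nat_lit 261807158769) (nat_lit 304) (nat_lit 48236272659) (nat_lit 16) (nat_lit 5) (nat_lit 15) (nat_lit 5) (nat_lit 19) (nat_lit 5) (nat_lit 234) (nat_lit 232) (nat_lit 134)))) (XT.nd (nat_lit 156) (nat_lit 76) (nat_lit 0) (XT.nd (nat_lit 78) (nat_lit 152) (nat_lit 0) (XT.lf (nat_lit 76) (nat_lit 306725568952) (nat_lit 0) (nat_lit 108288225098) (nat_lit 304) (nat_lit 34586381237) (nat_lit 16) (nat_lit 5) (nat_lit 15) (nat_lit 5) (nat_lit 19) (nat_lit 5) (nat_lit 235) (nat_lit 232) (nat_lit 133)) (XT.lf (nat_lit 0) (nat_lit 51091575592) (nat_lit 228) (nat_lit 422793228979) (nat_lit 304) (nat_lit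 13205731152) (nat_lit 13) (nat_lit 5) (nat_lit 16) (nat_lit 5) (nat_lit 17) (nat_lit 5) (nat_lit 236) (nat_lit 232) (nat_lit 132))) (XT.nd (nat_lit 78) (nat_lit 0) (nat_lit 0) (XT.lf (nat_lit 0) (nat_lit 23349325305) (nat_lit 304) (nat_lit 244857923428) (nat_lit 76) (nat_lit 259979414174) (nat_lit 12) (nat_lit 5) (nat_lit 16) (nat_lit 5) (nat_lit 13) (nat_lit 5) (nat_lit 237) (nat_lit 232) (nat_lit 131)) (XT.lf (nat_lit 0) (nat_lit 64035578758) (nat_lit 304) (nat_lit 25674623251) (nat_lit 76) (nat_lit 485642687984) (nat_lit 12) (nat_lit 5) (nat_lit 16) (nat_lit 5) (nat_lit 13) (nat_lit 5) (nat_lit 238) (nat_lit 232) (nat_lit 130))))))))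
noncomputable def xc56 : XT := (XT.nd (nat_lit 2262) (nat_lit 0) (nat_lit 0) (XT.nd (nat_lit 1092) (nat_lit 228) (nat_lit 0) (XT.nd (nat_lit 546) (nat_lit 228) (nat_lit 0) (XT.nd (nat_lit 234) (nat_lit 76) (nat_lit 0) (XT.nd (nat_lit 78) (nat_lit 152) (nat_lit 0) (XT.lf (nat_lit 0) (nat_lit 126390173190) (nat_lit 228) (nat_lit 384815450673) (nat_lit 76) (nat_lit 116053617318) (nat_lit 10) (nat_lit 5) (nat_lit 13) (nat_lit 5) (nat_lit 11) (nat_lit 5) (nat_lit 239) (nat_lit 232) (nat_lit 129)) (XT.nd (nat_lit 78) (nat_lit 152) (nat_lit 0) (XT.lf (nat_lit 0) (nat_lit 203775825787) (nat_lit 228) (nat_lit 137420657215) (nat_lit 76) (nat_lit 344903382114) (nat_lit 10) (nat_lit 5) (nat_lit 13) (nat_lit 5) (nat_lit 11) (nat_lit 5) (nat_lit 240) (nat_lit 232) (nat_lit 128)) (XT.lf (nat_lit 0) (nat_lit 161457367138) (nat_lit 152) (nat_lit 137997532526) (nat_lit 228) (nat_lit 453308847334) (nat_lit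 8) (nat_lit 5) (nat_lit 10) (nat_lit 5) (nat_lit 11) (nat_lit 5) (nat_lit 241) (nat_lit 232) (nat_lit 127)))) (XT.nd (nat_lit 156) (nat_lit 0) (nat_lit 0) (XT.nd (nat_lit 78) (nat_lit 76) (nat_lit 0) (XT.lf (nat_lit 0) (nat_lit 420973178903) (nat_lit 228) (nat_lit 312042468557) (nat_lit 76) (nat_lit 94688462377) (nat_lit 8) (nat_lit 5) (nat_lit 11) (nat_lit 5) (nat_lit 9) (nat_lit 4) (nat_lit 242) (nat_lit 232) (nat_lit 126)) (XT.lf (nat_lit 0) (nat_lit 2787878018) (nat_lit 76) (nat_lit 564618047407) (nat_lit 152) (nat_lit 345476593144) (nat_lit 7) (nat_lit 5) (nat_lit 8) (nat_lit 5) (nat_lit 9) (nat_lit 4) (nat_lit 243) (nat_lit 232) (nat_lit 125))) (XT.nd (nat_lit 78) (nat_lit 0) (nat_lit 0) (XT.lf (nat_lit 0) (nat_lit 399912060051) (nat_lit 76) (nat_lit 352202810888) (nat_lit 152) (nat_lit 256276124857) (nat_lit 7) (nat_lit 5) (nat_lit 8) (nat_lit 5) (nat_lit 9) (nat_lit 4) (nat_lit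 244) (nat_lit 232) (nat_lit 124)) (XT.lf (nat_lit 0) (nat_lit 856604839068) (nat_lit 76) (nat_lit 107925298481) (nat_lit 152) (nat_lit 153695610378) (nat_lit 7) (nat_lit 5) (nat_lit 8) (nat_lit 5) (nat_lit 9) (nat_lit 4) (nat_lit 245) (nat_lit 232) (nat_lit 123))))) (XT.nd (nat_lit 234) (nat_lit 76) (nat_lit 0) (XT.nd (nat_lit 78) (nat_lit 76) (nat_lit 0) (XT.lf (nat_lit 0) (nat_lit 142817048356) (nat_lit 76) (nat_lit 1079067682872) (nat_lit 76) (nat_lit 20689426269) (nat_lit 6) (nat_lit 4) (nat_lit 7) (nat_lit 5) (nat_lit 7) (nat_lit 4) (nat_lit 246) (nat_lit 232) (nat_lit 122)) (XT.nd (nat_lit 78) (nat_lit 0) (nat_lit 0) (XT.lf (nat_lit 0) (nat_lit 139958442595) (nat_lit 152) (nat_lit 757467634082) (nat_lit 76) (nat_lit 484407292372) (nat_lit 5) (nat_lit 5) (nat_lit 7) (nat_lit 5) (nat_lit 6) (nat_lit 4) (nat_lit 247) (nat_lit 232) (nat_lit 121)) (XT.lf (nat_lit 0) (nat_lit 322585272903)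 (nat_lit 152) (nat_lit 364819974187) (nat_lit 76) (nat_lit 854428436104) (nat_lit 5) (nat_lit 5) (nat_lit 7) (nat_lit 5) (nat_lit 6) (nat_lit 4) (nat_lit 248) (nat_lit 232) (nat_lit 120)))) (XT.nd (nat_lit 156) (nat_lit 0) (nat_lit 0) (XT.nd (nat_lit 78) (nat_lit 0) (nat_lit 0) (XT.lf (nat_lit 0) (nat_lit 95200191780) (nat_lit 76) (nat_lit 441347959235) (nat_lit 152) (nat_lit 1188694590063) (nat_lit 4) (nat_lit 5) (nat_lit 5) (nat_lit 5) (nat_lit 6) (nat_lit 4) (nat_lit 249) (nat_lit 232) (nat_lit 119)) (XT.lf (nat_lit 0) (nat_lit 665224151633) (nat_lit 76) (nat_lit 136451431455) (nat_lit 152) (nat_lit 1131627056307) (nat_lit 4) (nat_lit 5) (nat_lit 5) (nat_lit 5) (nat_lit 6) (nat_lit 4) (nat_lit 250) (nat_lit 232) (nat_lit 118))) (XT.nd (nat_lit 78) (nat_lit 0) (nat_lit 0) (XT.lf (nat_lit 0) (nat_lit 1115440838047) (nat_lit 152) (nat_lit 860688556429) (nat_lit 0) (nat_lit 195111821853)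 (nat_lit 4) (nat_lit 5) (nat_lit 6) (nat_lit 4) (nat_lit 4) (nat_lit 4) (nat_lit 251) (nat_lit 232) (nat_lit 117)) (XT.lf (nat_lit 0) (nat_lit 1482768558539) (nat_lit 152) (nat_lit 398687839955) (nat_lit 0) (nat_lit 562439529782) (nat_lit 4) (nat_lit 5) (nat_lit 6) (nat_lit 4) (nat_lit 4) (nat_lit 4) (nat_lit 252) (nat_lit 232) (nat_lit 116)))))) (XT.nd (nat_lit 546) (nat_lit 0) (nat_lit 0) (XT.nd (nat_lit 234) (nat_lit 152) (nat_lit 0) (XT.nd (nat_lit 78) (nat_lit 0) (nat_lit 0) (XT.lf (nat_lit 0) (nat_lit 145572872683) (nat_lit 76) (nat_lit 1765650418017) (nat_lit 76) (nat_lit 845321378337) (nat_lit 3) (nat_lit 4) (nat_lit 4) (nat_lit 5) (nat_lit 4) (nat_lit 4) (nat_lit 253) (nat_lit 232) (nat_lit 115)) (XT.nd (nat_lit 78) (nat_lit 0) (nat_lit 0) (XT.lf (nat_lit 0) (nat_lit 816279754377) (nat_lit 76) (nat_lit 1608506970936) (nat_lit 76) (nat_lit 688177921756) (nat_lit 3) (nat_lit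 4) (nat_lit 4) (nat_lit 5) (nat_lit 4) (nat_lit 4) (nat_lit 254) (nat_lit 232) (nat_lit 114)) (XT.lf (nat_lit 0) (nat_lit 1587592655804) (nat_lit 76) (nat_lit 1427792012271) (nat_lit 76) (nat_lit 507462954831) (nat_lit 3) (nat_lit 4) (nat_lit 4) (nat_lit 5) (nat_lit 4) (nat_lit 4) (nat_lit 255) (nat_lit 232) (nat_lit 113)))) (XT.nd (nat_lit 156) (nat_lit 152) (nat_lit 0) (XT.nd (nat_lit 78) (nat_lit 0) (nat_lit 0) (XT.lf (nat_lit 0) (nat_lit 2474602481557) (nat_lit 76) (nat_lit 1219969814571) (nat_lit 76) (nat_lit 299640749948) (nat_lit 3) (nat_lit 4) (nat_lit 4) (nat_lit 5) (nat_lit 4) (nat_lit 4) (nat_lit 256) (nat_lit 232) (nat_lit 112)) (XT.lf (nat_lit 0) (nat_lit 3494663771706) (nat_lit 76) (nat_lit 980974291359) (nat_lit 76) (nat_lit 60645220490) (nat_lit 3) (nat_lit 4) (nat_lit 4) (nat_lit 5) (nat_lit 4) (nat_lit 4) (nat_lit 257) (nat_lit 232) (nat_lit 111))) (XT.nd (nat_lit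 78) (nat_lit 76) (nat_lit 0) (XT.lf (nat_lit 0) (nat_lit 195130100484) (nat_lit 152) (nat_lit 500799360259) (nat_lit 76) (nat_lit 4462404164134) (nat_lit 2) (nat_lit 5) (nat_lit 4) (nat_lit 5) (nat_lit 3) (nat_lit 4) (nat_lit 258) (nat_lit 232) (nat_lit 110)) (XT.lf (nat_lit 0) (nat_lit 129812769217) (nat_lit 76) (nat_lit 358625300661) (nat_lit 152) (nat_lit 5384013977538) (nat_lit 1) (nat_lit 5) (nat_lit 2) (nat_lit 5) (nat_lit 3) (nat_lit 4) (nat_lit 259) (nat_lit 232) (nat_lit 109))))) (XT.nd (nat_lit 312) (nat_lit 0) (nat_lit 0) (XT.nd (nat_lit 156) (nat_lit 0) (nat_lit 0) (XT.nd (nat_lit 78) (nat_lit 0) (nat_lit 0) (XT.lf (nat_lit 0) (nat_lit 854379151363) (nat_lit 152) (nat_lit 5780920554112) (nat_lit 0) (nat_lit 54092990380) (nat_lit 1) (nat_lit 5) (nat_lit 3) (nat_lit 4) (nat_lit 1) (nat_lit 4) (nat_lit 260) (nat_lit 232) (nat_lit 108)) (XT.lf (nat_lit 0) (nat_lit 1292288786753)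 (nat_lit 152) (nat_lit 5842021423405) (nat_lit 0) (nat_lit 492002622665) (nat_lit 1) (nat_lit 5) (nat_lit 3) (nat_lit 4) (nat_lit 1) (nat_lit 4) (nat_lit 261) (nat_lit 232) (nat_lit 107))) (XT.nd (nat_lit 78) (nat_lit 0) (nat_lit 0) (XT.lf (nat_lit 0) (nat_lit 1795884864334) (nat_lit 152) (nat_lit 5912287428940) (nat_lit 0) (nat_lit 995598697546) (nat_lit 1) (nat_lit 5) (nat_lit 3) (nat_lit 4) (nat_lit 1) (nat_lit 4) (nat_lit 262) (nat_lit 232) (nat_lit 106)) (XT.lf (nat_lit 0) (nat_lit 2375020350840) (nat_lit 152) (nat_lit 5993093340389) (nat_lit 0) (nat_lit 1574734181704) (nat_lit 1) (nat_lit 5) (nat_lit 3) (nat_lit 4) (nat_lit 1) (nat_lit 4) (nat_lit 263) (nat_lit 232) (nat_lit 105)))) (XT.nd (nat_lit 156) (nat_lit 0) (nat_lit 0) (XT.nd (nat_lit 78) (nat_lit 0) (nat_lit 0) (XT.lf (nat_lit 0) (nat_lit 3041026157965) (nat_lit 152) (nat_lit 6086020142977) (nat_lit 0) (nat_lit 2240739986788)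 (nat_lit 1) (nat_lit 5) (nat_lit 3) (nat_lit 4) (nat_lit 1) (nat_lit 4) (nat_lit 264) (nat_lit 232) (nat_lit 104)) (XT.lf (nat_lit 0) (nat_lit 3806932834109) (nat_lit 152) (nat_lit 6192885969798) (nat_lit 0) (nat_lit 3006646661156) (nat_lit 1) (nat_lit 5) (nat_lit 3) (nat_lit 4) (nat_lit 1) (nat_lit 4) (nat_lit 265) (nat_lit 232) (nat_lit 103))) (XT.nd (nat_lit 78) (nat_lit 0) (nat_lit 0) (XT.lf (nat_lit 0) (nat_lit 4687725509892) (nat_lit 152) (nat_lit 6315781673985) (nat_lit 0) (nat_lit 3887439335395) (nat_lit 1) (nat_lit 5) (nat_lit 3) (nat_lit 4) (nat_lit 1) (nat_lit 4) (nat_lit 266) (nat_lit 232) (nat_lit 102)) (XT.lf (nat_lit 0) (nat_lit 5700637085492) (nat_lit 152) (nat_lit 6457111736707) (nat_lit 0) (nat_lit 4900350909652) (nat_lit 1) (nat_lit 5) (nat_lit 3) (nat_lit 4) (nat_lit 1) (nat_lit 4) (nat_lit 267) (nat_lit 232) (nat_lit 101))))))) (XT.nd (nat_lit 29640) (nat_lit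 0) (nat_lit 0) (XT.nd (nat_lit 29016) (nat_lit 0) (nat_lit 456) (XT.nd (nat_lit 28704) (nat_lit 0) (nat_lit 836) (XT.nd (nat_lit 28548) (nat_lit 0) (nat_lit 1064) (XT.lf (nat_lit 0) (nat_lit 6865485396084) (nat_lit 152) (nat_lit 6619641311366) (nat_lit 0) (nat_lit 6065199219077) (nat_lit 1) (nat_lit 5) (nat_lit 3) (nat_lit 4) (nat_lit 1) (nat_lit 4) (nat_lit 268) (nat_lit 232) (nat_lit 100)) (XT.nd (nat_lit 78) (nat_lit 0) (nat_lit 0) (XT.lf (nat_lit 0) (nat_lit 88358623972) (nat_lit 0) (nat_lit 88358623972) (nat_lit 228) (nat_lit 30277455560) (nat_lit 15) (nat_lit 5) (nat_lit 15) (nat_lit 3) (nat_lit 18) (nat_lit 3) (nat_lit 233) (nat_lit 233) (nat_lit 134)) (XT.lf (nat_lit 0) (nat_lit 373578226706) (nat_lit 0) (nat_lit 6364166329) (nat_lit 228) (nat_lit 65096168268) (nat_lit 15) (nat_lit 5) (nat_lit 15) (nat_lit 3) (nat_lit 18) (nat_lit 3) (nat_lit 234) (nat_lit 233) (nat_lit 133))))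 (XT.nd (nat_lit 156) (nat_lit 228) (nat_lit 0) (XT.nd (nat_lit 78) (nat_lit 0) (nat_lit 0) (XT.lf (nat_lit 76) (nat_lit 122259046483) (nat_lit 0) (nat_lit 301078385573) (nat_lit 304) (nat_lit 55471013936) (nat_lit 16) (nat_lit 5) (nat_lit 15) (nat_lit 5) (nat_lit 19) (nat_lit 5) (nat_lit 235) (nat_lit 233) (nat_lit 132)) (XT.lf (nat_lit 76) (nat_lit 352734793409) (nat_lit 0) (nat_lit 124531591896) (nat_lit 304) (nat_lit 39773730055) (nat_lit 16) (nat_lit 5) (nat_lit 15) (nat_lit 5) (nat_lit 19) (nat_lit 5) (nat_lit 236) (nat_lit 233) (nat_lit 131))) (XT.nd (nat_lit 78) (nat_lit 76) (nat_lit 0) (XT.lf (nat_lit 0) (nat_lit 58755770917) (nat_lit 228) (nat_lit 486212222597) (nat_lit 304) (nat_lit 15186045462) (nat_lit 13) (nat_lit 5) (nat_lit 16) (nat_lit 5) (nat_lit 17) (nat_lit 5) (nat_lit 237) (nat_lit 233) (nat_lit 130)) (XT.lf (nat_lit 0) (nat_lit 26852156110) (nat_lit 304) (nat_lit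 281586165413) (nat_lit 76) (nat_lit 298976270827) (nat_lit 12) (nat_lit 5) (nat_lit 16) (nat_lit 5) (nat_lit 13) (nat_lit 5) (nat_lit 238) (nat_lit 233) (nat_lit 129))))) (XT.nd (nat_lit 312) (nat_lit 76) (nat_lit 0) (XT.nd (nat_lit 156) (nat_lit 152) (nat_lit 0) (XT.nd (nat_lit 78) (nat_lit 152) (nat_lit 0) (XT.lf (nat_lit 0) (nat_lit 73641291232) (nat_lit 304) (nat_lit 29525428453) (nat_lit 76) (nat_lit 558489042944) (nat_lit 12) (nat_lit 5) (nat_lit 16) (nat_lit 5) (nat_lit 13) (nat_lit 5) (nat_lit 239) (nat_lit 233) (nat_lit 128)) (XT.lf (nat_lit 0) (nat_lit 145349042362) (nat_lit 228) (nat_lit 442537343595) (nat_lit 76) (nat_lit 133461685996) (nat_lit 10) (nat_lit 5) (nat_lit 13) (nat_lit 5) (nat_lit 11) (nat_lit 5) (nat_lit 240) (nat_lit 233) (nat_lit 127))) (XT.nd (nat_lit 78) (nat_lit 152) (nat_lit 0) (XT.lf (nat_lit 0) (nat_lit 234342498084) (nat_lit 228) (nat_lit 158033386511)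 (nat_lit 76) (nat_lit 396638912110) (nat_lit 10) (nat_lit 5) (nat_lit 13) (nat_lit 5) (nat_lit 11) (nat_lit 5) (nat_lit 241) (nat_lit 233) (nat_lit 126)) (XT.lf (nat_lit 0) (nat_lit 185676324710) (nat_lit 152) (nat_lit 158697084005) (nat_lit 228) (nat_lit 521304856250) (nat_lit 8) (nat_lit 5) (nat_lit 10) (nat_lit 5) (nat_lit 11) (nat_lit 5) (nat_lit 242) (nat_lit 233) (nat_lit 125)))) (XT.nd (nat_lit 156) (nat_lit 0) (nat_lit 0) (XT.nd (nat_lit 78) (nat_lit 76) (nat_lit 0) (XT.lf (nat_lit 0) (nat_lit 484119396909) (nat_lit 228) (nat_lit 358848496808) (nat_lit 76) (nat_lit 108891793839) (nat_lit 8) (nat_lit 5) (nat_lit 11) (nat_lit 5) (nat_lit 9) (nat_lit 4) (nat_lit 243) (nat_lit 233) (nat_lit 124)) (XT.lf (nat_lit 0) (nat_lit 3206386207) (nat_lit 76) (nat_lit 649310651265) (nat_lit 152) (nat_lit 397297823153) (nat_lit 7) (nat_lit 5) (nat_lit 8) (nat_lit 5) (nat_lit 9) (nat_lit 4)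 (nat_lit 244) (nat_lit 233) (nat_lit 123))) (XT.nd (nat_lit 78) (nat_lit 0) (nat_lit 0) (XT.lf (nat_lit 0) (nat_lit 459899152960) (nat_lit 76) (nat_lit 405033142736) (nat_lit 152) (nat_lit 294717318401) (nat_lit 7) (nat_lit 5) (nat_lit 8) (nat_lit 5) (nat_lit 9) (nat_lit 4) (nat_lit 245) (nat_lit 233) (nat_lit 122)) (XT.lf (nat_lit 0) (nat_lit 985095811799) (nat_lit 76) (nat_lit 124114015179) (nat_lit 152) (nat_lit 176749756122) (nat_lit 7) (nat_lit 5) (nat_lit 8) (nat_lit 5) (nat_lit 9) (nat_lit 4) (nat_lit 246) (nat_lit 233) (nat_lit 121)))))) (XT.nd (nat_lit 546) (nat_lit 228) (nat_lit 0) (XT.nd (nat_lit 234) (nat_lit 76) (nat_lit 0) (XT.nd (nat_lit 78) (nat_lit 76) (nat_lit 0) (XT.lf (nat_lit 0) (nat_lit 164239863962) (nat_lit 76) (nat_lit 1240927737239) (nat_lit 76) (nat_lit 23792654401) (nat_lit 6) (nat_lit 4) (nat_lit 7) (nat_lit 5) (nat_lit 7) (nat_lit 4) (nat_lit 247) (nat_lit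 233) (nat_lit 120)) (XT.nd (nat_lit 78) (nat_lit 0) (nat_lit 0) (XT.lf (nat_lit 0) (nat_lit 160952356172) (nat_lit 152) (nat_lit 871087539040) (nat_lit 76) (nat_lit 557068456001) (nat_lit 5) (nat_lit 5) (nat_lit 7) (nat_lit 5) (nat_lit 6) (nat_lit 4) (nat_lit 248) (nat_lit 233) (nat_lit 119)) (XT.lf (nat_lit 0) (nat_lit 370973191828) (nat_lit 152) (nat_lit 419542761485) (nat_lit 76) (nat_lit 982592762192) (nat_lit 5) (nat_lit 5) (nat_lit 7) (nat_lit 5) (nat_lit 6) (nat_lit 4) (nat_lit 249) (nat_lit 233) (nat_lit 118)))) (XT.nd (nat_lit 156) (nat_lit 0) (nat_lit 0) (XT.nd (nat_lit 78) (nat_lit 0) (nat_lit 0) (XT.lf (nat_lit 0) (nat_lit 109480419884) (nat_lit 76) (nat_lit 507550073331) (nat_lit 152) (nat_lit 1366998640247) (nat_lit 4) (nat_lit 5) (nat_lit 5) (nat_lit 5) (nat_lit 6) (nat_lit 4) (nat_lit 250) (nat_lit 233) (nat_lit 117)) (XT.lf (nat_lit 0) (nat_lit 765007947715) (nat_lit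 76) (nat_lit 156919076793) (nat_lit 152) (nat_lit 1301370994470) (nat_lit 4) (nat_lit 5) (nat_lit 5) (nat_lit 5) (nat_lit 6) (nat_lit 4) (nat_lit 251) (nat_lit 233) (nat_lit 116))) (XT.nd (nat_lit 78) (nat_lit 0) (nat_lit 0) (XT.lf (nat_lit 0) (nat_lit 1282757056648) (nat_lit 152) (nat_lit 989791677466) (nat_lit 0) (nat_lit 224378650091) (nat_lit 4) (nat_lit 5) (nat_lit 6) (nat_lit 4) (nat_lit 4) (nat_lit 4) (nat_lit 252) (nat_lit 233) (nat_lit 115)) (XT.lf (nat_lit 0) (nat_lit 1705183923098) (nat_lit 152) (nat_lit 458490874708) (nat_lit 0) (nat_lit 646805507041) (nat_lit 4) (nat_lit 5) (nat_lit 6) (nat_lit 4) (nat_lit 4) (nat_lit 4) (nat_lit 253) (nat_lit 233) (nat_lit 114))))) (XT.nd (nat_lit 312) (nat_lit 152) (nat_lit 0) (XT.nd (nat_lit 156) (nat_lit 0) (nat_lit 0) (XT.nd (nat_lit 78) (nat_lit 0) (nat_lit 0) (XT.lf (nat_lit 0) (nat_lit 167408938406) (nat_lit 76) (nat_lit 2030497921723)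 (nat_lit 76) (nat_lit 972119497407) (nat_lit 3) (nat_lit 4) (nat_lit 4) (nat_lit 5) (nat_lit 4) (nat_lit 4) (nat_lit 254) (nat_lit 233) (nat_lit 113)) (XT.lf (nat_lit 0) (nat_lit 938721834769) (nat_lit 76) (nat_lit 1849782965275) (nat_lit 76) (nat_lit 791404533775) (nat_lit 3) (nat_lit 4) (nat_lit 4) (nat_lit 5) (nat_lit 4) (nat_lit 4) (nat_lit 255) (nat_lit 233) (nat_lit 112))) (XT.nd (nat_lit 78) (nat_lit 0) (nat_lit 0) (XT.lf (nat_lit 0) (nat_lit 1825731656119) (nat_lit 76) (nat_lit 1641960769502) (nat_lit 76) (nat_lit 583582331756) (nat_lit 3) (nat_lit 4) (nat_lit 4) (nat_lit 5) (nat_lit 4) (nat_lit 4) (nat_lit 256) (nat_lit 233) (nat_lit 111)) (XT.lf (nat_lit 0) (nat_lit 2845792942438) (nat_lit 76) (nat_lit 1402965247966) (nat_lit 76) (nat_lit 344586804789) (nat_lit 3) (nat_lit 4) (nat_lit 4) (nat_lit 5) (nat_lit 4) (nat_lit 4) (nat_lit 257) (nat_lit 233) (nat_lit 110)))) (XT.nd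 (nat_lit 156) (nat_lit 76) (nat_lit 0) (XT.nd (nat_lit 78) (nat_lit 76) (nat_lit 0) (XT.lf (nat_lit 0) (nat_lit 4018863414546) (nat_lit 76) (nat_lit 1128120401332) (nat_lit 76) (nat_lit 69741953432) (nat_lit 3) (nat_lit 4) (nat_lit 4) (nat_lit 5) (nat_lit 4) (nat_lit 4) (nat_lit 258) (nat_lit 233) (nat_lit 109)) (XT.lf (nat_lit 0) (nat_lit 224399655268) (nat_lit 152) (nat_lit 575919193179) (nat_lit 76) (nat_lit 5131764813997) (nat_lit 2) (nat_lit 5) (nat_lit 4) (nat_lit 5) (nat_lit 3) (nat_lit 4) (nat_lit 259) (nat_lit 233) (nat_lit 108))) (XT.nd (nat_lit 78) (nat_lit 0) (nat_lit 0) (XT.lf (nat_lit 0) (nat_lit 149284752487) (nat_lit 76) (nat_lit 412419065217) (nat_lit 152) (nat_lit 6191616031043) (nat_lit 1) (nat_lit 5) (nat_lit 2) (nat_lit 5) (nat_lit 3) (nat_lit 4) (nat_lit 260) (nat_lit 233) (nat_lit 107)) (XT.lf (nat_lit 0) (nat_lit 982536057639) (nat_lit 152) (nat_lit 6648058574268)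 (nat_lit 0) (nat_lit 62206963133) (nat_lit 1) (nat_lit 5) (nat_lit 3) (nat_lit 4) (nat_lit 1) (nat_lit 4) (nat_lit 261) (nat_lit 233) (nat_lit 106))))))))
noncomputable def xc57 : XT := (XT.nd (nat_lit 30888) (nat_lit 0) (nat_lit 0) (XT.nd (nat_lit 29718) (nat_lit 0) (nat_lit 152) (XT.nd (nat_lit 29172) (nat_lit 0) (nat_lit 684) (XT.nd (nat_lit 234) (nat_lit 0) (nat_lit 0) (XT.nd (nat_lit 78) (nat_lit 0) (nat_lit 0) (XT.lf (nat_lit 0) (nat_lit 1486132133959) (nat_lit 152) (nat_lit 6718324582168) (nat_lit 0) (nat_lit 565803037104) (nat_lit 1) (nat_lit 5) (nat_lit 3) (nat_lit 4) (nat_lit 1) (nat_lit 4) (nat_lit 262) (nat_lit 233) (nat_lit 105)) (XT.nd (nat_lit 78) (nat_lit 0) (nat_lit 0) (XT.lf (nat_lit 0) (nat_lit 2065267619369) (nat_lit 152) (nat_lit 6799130495673) (nat_lit 0) (nat_lit 1144938520473) (nat_lit 1) (nat_lit 5) (nat_lit 3) (nat_lit 4) (nat_lit 1) (nat_lit 4) (nat_lit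 263) (nat_lit 233) (nat_lit 104)) (XT.lf (nat_lit 0) (nat_lit 2731273425541) (nat_lit 152) (nat_lit 6892057300049) (nat_lit 0) (nat_lit 1810944324869) (nat_lit 1) (nat_lit 5) (nat_lit 3) (nat_lit 4) (nat_lit 1) (nat_lit 4) (nat_lit 264) (nat_lit 233) (nat_lit 103)))) (XT.nd (nat_lit 156) (nat_lit 0) (nat_lit 0) (XT.nd (nat_lit 78) (nat_lit 0) (nat_lit 0) (XT.lf (nat_lit 0) (nat_lit 3497180100855) (nat_lit 152) (nat_lit 6998923128425) (nat_lit 0) (nat_lit 2576850998639) (nat_lit 1) (nat_lit 5) (nat_lit 3) (nat_lit 4) (nat_lit 1) (nat_lit 4) (nat_lit 265) (nat_lit 233) (nat_lit 102)) (XT.lf (nat_lit 0) (nat_lit 4377972775917) (nat_lit 152) (nat_lit 7121818833965) (nat_lit 0) (nat_lit 3457643672359) (nat_lit 1) (nat_lit 5) (nat_lit 3) (nat_lit 4) (nat_lit 1) (nat_lit 4) (nat_lit 266) (nat_lit 233) (nat_lit 101))) (XT.nd (nat_lit 28704) (nat_lit 0) (nat_lit 1064) (XT.lf (nat_lit 0) (nat_lit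 5390884350890) (nat_lit 152) (nat_lit 7263148897863) (nat_lit 0) (nat_lit 4470555246164) (nat_lit 1) (nat_lit 5) (nat_lit 3) (nat_lit 4) (nat_lit 1) (nat_lit 4) (nat_lit 267) (nat_lit 233) (nat_lit 100)) (XT.lf (nat_lit 0) (nat_lit 101612566128) (nat_lit 0) (nat_lit 101612566128) (nat_lit 228) (nat_lit 34818727663) (nat_lit 15) (nat_lit 5) (nat_lit 15) (nat_lit 3) (nat_lit 18) (nat_lit 3) (nat_lit 234) (nat_lit 234) (nat_lit 132))))) (XT.nd (nat_lit 234) (nat_lit 380) (nat_lit 0) (XT.nd (nat_lit 78) (nat_lit 0) (nat_lit 0) (XT.lf (nat_lit 0) (nat_lit 429615219079) (nat_lit 0) (nat_lit 7319049646) (nat_lit 228) (nat_lit 74859991368) (nat_lit 15) (nat_lit 5) (nat_lit 15) (nat_lit 3) (nat_lit 18) (nat_lit 3) (nat_lit 235) (nat_lit 234) (nat_lit 131)) (XT.nd (nat_lit 78) (nat_lit 0) (nat_lit 0) (XT.lf (nat_lit 76) (nat_lit 140598241816) (nat_lit 0) (nat_lit 346240259090) (nat_lit 304)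 (nat_lit 63791137012) (nat_lit 16) (nat_lit 5) (nat_lit 15) (nat_lit 5) (nat_lit 19) (nat_lit 5) (nat_lit 236) (nat_lit 234) (nat_lit 130)) (XT.lf (nat_lit 76) (nat_lit 405645306646) (nat_lit 0) (nat_lit 143211431273) (nat_lit 304) (nat_lit 45739329551) (nat_lit 16) (nat_lit 5) (nat_lit 15) (nat_lit 5) (nat_lit 19) (nat_lit 5) (nat_lit 237) (nat_lit 234) (nat_lit 129)))) (XT.nd (nat_lit 156) (nat_lit 152) (nat_lit 0) (XT.nd (nat_lit 78) (nat_lit 76) (nat_lit 0) (XT.lf (nat_lit 0) (nat_lit 67569483613) (nat_lit 228) (nat_lit 559144062997) (nat_lit 304) (nat_lit 17463539909) (nat_lit 13) (nat_lit 5) (nat_lit 16) (nat_lit 5) (nat_lit 17) (nat_lit 5) (nat_lit 238) (nat_lit 234) (nat_lit 128)) (XT.lf (nat_lit 0) (nat_lit 30880306187) (nat_lit 304) (nat_lit 323823752584) (nat_lit 76) (nat_lit 343822669505) (nat_lit 12) (nat_lit 5) (nat_lit 16) (nat_lit 5) (nat_lit 13) (nat_lit 5) (nat_lit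 239) (nat_lit 234) (nat_lit 127))) (XT.nd (nat_lit 78) (nat_lit 152) (nat_lit 0) (XT.lf (nat_lit 0) (nat_lit 84687768970) (nat_lit 304) (nat_lit 33953949120) (nat_lit 76) (nat_lit 642262362911) (nat_lit 12) (nat_lit 5) (nat_lit 16) (nat_lit 5) (nat_lit 13) (nat_lit 5) (nat_lit 240) (nat_lit 234) (nat_lit 126)) (XT.lf (nat_lit 0) (nat_lit 167151658221) (nat_lit 228) (nat_lit 508917624016) (nat_lit 76) (nat_lit 153480958616) (nat_lit 10) (nat_lit 5) (nat_lit 13) (nat_lit 5) (nat_lit 11) (nat_lit 5) (nat_lit 241) (nat_lit 234) (nat_lit 125)))))) (XT.nd (nat_lit 546) (nat_lit 228) (nat_lit 0) (XT.nd (nat_lit 234) (nat_lit 152) (nat_lit 0) (XT.nd (nat_lit 78) (nat_lit 152) (nat_lit 0) (XT.lf (nat_lit 0) (nat_lit 269494098453) (nat_lit 228) (nat_lit 181738115255) (nat_lit 76) (nat_lit 456134766075) (nat_lit 10) (nat_lit 5) (nat_lit 13) (nat_lit 5) (nat_lit 11) (nat_lit 5) (nat_lit 242)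 (nat_lit 234) (nat_lit 124)) (XT.nd (nat_lit 78) (nat_lit 0) (nat_lit 0) (XT.lf (nat_lit 0) (nat_lit 213528039957) (nat_lit 152) (nat_lit 182501587323) (nat_lit 228) (nat_lit 599500344095) (nat_lit 8) (nat_lit 5) (nat_lit 10) (nat_lit 5) (nat_lit 11) (nat_lit 5) (nat_lit 243) (nat_lit 234) (nat_lit 123)) (XT.lf (nat_lit 0) (nat_lit 556737488805) (nat_lit 228) (nat_lit 412675512703) (nat_lit 76) (nat_lit 125225609875) (nat_lit 8) (nat_lit 5) (nat_lit 11) (nat_lit 5) (nat_lit 9) (nat_lit 4) (nat_lit 244) (nat_lit 234) (nat_lit 122)))) (XT.nd (nat_lit 156) (nat_lit 76) (nat_lit 0) (XT.nd (nat_lit 78) (nat_lit 0) (nat_lit 0) (XT.lf (nat_lit 0) (nat_lit 3687591008) (nat_lit 76) (nat_lit 746707170880) (nat_lit 152) (nat_lit 456892300813) (nat_lit 7) (nat_lit 5) (nat_lit 8) (nat_lit 5) (nat_lit 9) (nat_lit 4) (nat_lit 245) (nat_lit 234) (nat_lit 121)) (XT.lf (nat_lit 0) (nat_lit 528884240574)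 (nat_lit 76) (nat_lit 465788046256) (nat_lit 152) (nat_lit 338924745889) (nat_lit 7) (nat_lit 5) (nat_lit 8) (nat_lit 5) (nat_lit 9) (nat_lit 4) (nat_lit 246) (nat_lit 234) (nat_lit 120))) (XT.nd (nat_lit 78) (nat_lit 76) (nat_lit 0) (XT.lf (nat_lit 0) (nat_lit 1132860370238) (nat_lit 76) (nat_lit 142731058420) (nat_lit 152) (nat_lit 203262071477) (nat_lit 7) (nat_lit 5) (nat_lit 8) (nat_lit 5) (nat_lit 9) (nat_lit 4) (nat_lit 247) (nat_lit 234) (nat_lit 119)) (XT.lf (nat_lit 0) (nat_lit 188876038907) (nat_lit 76) (nat_lit 1427066823675) (nat_lit 76) (nat_lit 27361412065) (nat_lit 6) (nat_lit 4) (nat_lit 7) (nat_lit 5) (nat_lit 7) (nat_lit 4) (nat_lit 248) (nat_lit 234) (nat_lit 118))))) (XT.nd (nat_lit 312) (nat_lit 76) (nat_lit 0) (XT.nd (nat_lit 156) (nat_lit 76) (nat_lit 0) (XT.nd (nat_lit 78) (nat_lit 0) (nat_lit 0) (XT.lf (nat_lit 0) (nat_lit 185095320892) (nat_lit 152) (nat_lit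 1001750488304) (nat_lit 76) (nat_lit 640628777159) (nat_lit 5) (nat_lit 5) (nat_lit 7) (nat_lit 5) (nat_lit 6) (nat_lit 4) (nat_lit 249) (nat_lit 234) (nat_lit 117)) (XT.lf (nat_lit 0) (nat_lit 426619267380) (nat_lit 152) (nat_lit 482474017803) (nat_lit 76) (nat_lit 1129981722397) (nat_lit 5) (nat_lit 5) (nat_lit 7) (nat_lit 5) (nat_lit 6) (nat_lit 4) (nat_lit 250) (nat_lit 234) (nat_lit 116))) (XT.nd (nat_lit 78) (nat_lit 0) (nat_lit 0) (XT.lf (nat_lit 0) (nat_lit 125902633595) (nat_lit 76) (nat_lit 583682524000) (nat_lit 152) (nat_lit 1572048331690) (nat_lit 4) (nat_lit 5) (nat_lit 5) (nat_lit 5) (nat_lit 6) (nat_lit 4) (nat_lit 251) (nat_lit 234) (nat_lit 115)) (XT.lf (nat_lit 0) (nat_lit 879759270940) (nat_lit 76) (nat_lit 180456885849) (nat_lit 152) (nat_lit 1496576552689) (nat_lit 4) (nat_lit 5) (nat_lit 5) (nat_lit 5) (nat_lit 6) (nat_lit 4) (nat_lit 252) (nat_lit 234) (nat_lit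 114)))) (XT.nd (nat_lit 156) (nat_lit 76) (nat_lit 0) (XT.nd (nat_lit 78) (nat_lit 0) (nat_lit 0) (XT.lf (nat_lit 0) (nat_lit 1475170685387) (nat_lit 152) (nat_lit 1138260306268) (nat_lit 0) (nat_lit 258035489163) (nat_lit 4) (nat_lit 5) (nat_lit 6) (nat_lit 4) (nat_lit 4) (nat_lit 4) (nat_lit 253) (nat_lit 234) (nat_lit 113)) (XT.lf (nat_lit 0) (nat_lit 1960961572642) (nat_lit 152) (nat_lit 527264399115) (nat_lit 0) (nat_lit 743826369235) (nat_lit 4) (nat_lit 5) (nat_lit 6) (nat_lit 4) (nat_lit 4) (nat_lit 4) (nat_lit 254) (nat_lit 234) (nat_lit 112))) (XT.nd (nat_lit 78) (nat_lit 0) (nat_lit 0) (XT.lf (nat_lit 0) (nat_lit 192520381111) (nat_lit 76) (nat_lit 2335072565372) (nat_lit 76) (nat_lit 1117937355719) (nat_lit 3) (nat_lit 4) (nat_lit 4) (nat_lit 5) (nat_lit 4) (nat_lit 4) (nat_lit 255) (nat_lit 234) (nat_lit 111)) (XT.lf (nat_lit 0) (nat_lit 1079530198632) (nat_lit 76) (nat_lit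 2127250371275) (nat_lit 76) (nat_lit 910115156190) (nat_lit 3) (nat_lit 4) (nat_lit 4) (nat_lit 5) (nat_lit 4) (nat_lit 4) (nat_lit 256) (nat_lit 234) (nat_lit 110))))))) (XT.nd (nat_lit 29952) (nat_lit 0) (nat_lit 228) (XT.nd (nat_lit 546) (nat_lit 0) (nat_lit 0) (XT.nd (nat_lit 234) (nat_lit 152) (nat_lit 0) (XT.nd (nat_lit 78) (nat_lit 0) (nat_lit 0) (XT.lf (nat_lit 0) (nat_lit 2099591481621) (nat_lit 76) (nat_lit 1888254851195) (nat_lit 76) (nat_lit 671119631388) (nat_lit 3) (nat_lit 4) (nat_lit 4) (nat_lit 5) (nat_lit 4) (nat_lit 4) (nat_lit 257) (nat_lit 234) (nat_lit 109)) (XT.nd (nat_lit 78) (nat_lit 0) (nat_lit 0) (XT.lf (nat_lit 0) (nat_lit 3272661950834) (nat_lit 76) (nat_lit 1613410005829) (nat_lit 76) (nat_lit 396274781915) (nat_lit 3) (nat_lit 4) (nat_lit 4) (nat_lit 5) (nat_lit 4) (nat_lit 4) (nat_lit 258) (nat_lit 234) (nat_lit 108)) (XT.lf (nat_lit 0) (nat_lit 4621692985015)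 (nat_lit 76) (nat_lit 1297338436026) (nat_lit 76) (nat_lit 80203208541) (nat_lit 3) (nat_lit 4) (nat_lit 4) (nat_lit 5) (nat_lit 4) (nat_lit 4) (nat_lit 259) (nat_lit 234) (nat_lit 107)))) (XT.nd (nat_lit 156) (nat_lit 0) (nat_lit 0) (XT.nd (nat_lit 78) (nat_lit 76) (nat_lit 0) (XT.lf (nat_lit 0) (nat_lit 258059633586) (nat_lit 152) (nat_lit 662307018379) (nat_lit 76) (nat_lit 5901529555183) (nat_lit 2) (nat_lit 5) (nat_lit 4) (nat_lit 5) (nat_lit 3) (nat_lit 4) (nat_lit 260) (nat_lit 234) (nat_lit 106)) (XT.lf (nat_lit 0) (nat_lit 171677516692) (nat_lit 76) (nat_lit 474281901904) (nat_lit 152) (nat_lit 7120358403090) (nat_lit 1) (nat_lit 5) (nat_lit 2) (nat_lit 5) (nat_lit 3) (nat_lit 4) (nat_lit 261) (nat_lit 234) (nat_lit 105))) (XT.nd (nat_lit 78) (nat_lit 0) (nat_lit 0) (XT.lf (nat_lit 0) (nat_lit 1129916491670) (nat_lit 152) (nat_lit 7645267312801) (nat_lit 0) (nat_lit 71538025898)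 (nat_lit 1) (nat_lit 5) (nat_lit 3) (nat_lit 4) (nat_lit 1) (nat_lit 4) (nat_lit 262) (nat_lit 234) (nat_lit 104)) (XT.lf (nat_lit 0) (nat_lit 1709051976127) (nat_lit 152) (nat_lit 7726073228095) (nat_lit 0) (nat_lit 650673508579) (nat_lit 1) (nat_lit 5) (nat_lit 3) (nat_lit 4) (nat_lit 1) (nat_lit 4) (nat_lit 263) (nat_lit 234) (nat_lit 103))))) (XT.nd (nat_lit 29094) (nat_lit 0) (nat_lit 912) (XT.nd (nat_lit 156) (nat_lit 0) (nat_lit 0) (XT.nd (nat_lit 78) (nat_lit 0) (nat_lit 0) (XT.lf (nat_lit 0) (nat_lit 2375057781469) (nat_lit 152) (nat_lit 7819000034026) (nat_lit 0) (nat_lit 1316679312377) (nat_lit 1) (nat_lit 5) (nat_lit 3) (nat_lit 4) (nat_lit 1) (nat_lit 4) (nat_lit 264) (nat_lit 234) (nat_lit 102)) (XT.lf (nat_lit 0) (nat_lit 3140964456063) (nat_lit 152) (nat_lit 7925865863754) (nat_lit 0) (nat_lit 2082585985628) (nat_lit 1) (nat_lit 5) (nat_lit 3) (nat_lit 4) (nat_lit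 1) (nat_lit 4) (nat_lit 265) (nat_lit 234) (nat_lit 101))) (XT.nd (nat_lit 28860) (nat_lit 0) (nat_lit 1064) (XT.lf (nat_lit 0) (nat_lit 4021757130498) (nat_lit 152) (nat_lit 8048761570470) (nat_lit 0) (nat_lit 2963378658896) (nat_lit 1) (nat_lit 5) (nat_lit 3) (nat_lit 4) (nat_lit 1) (nat_lit 4) (nat_lit 266) (nat_lit 234) (nat_lit 100)) (XT.lf (nat_lit 0) (nat_lit 116854563381) (nat_lit 0) (nat_lit 116854563381) (nat_lit 228) (nat_lit 40041275013) (nat_lit 15) (nat_lit 5) (nat_lit 15) (nat_lit 3) (nat_lit 18) (nat_lit 3) (nat_lit 235) (nat_lit 235) (nat_lit 130)))) (XT.nd (nat_lit 156) (nat_lit 152) (nat_lit 0) (XT.nd (nat_lit 78) (nat_lit 0) (nat_lit 0) (XT.lf (nat_lit 0) (nat_lit 494057697303) (nat_lit 0) (nat_lit 8417102455) (nat_lit 228) (nat_lit 86088534768) (nat_lit 15) (nat_lit 5) (nat_lit 15) (nat_lit 3) (nat_lit 18) (nat_lit 3) (nat_lit 236) (nat_lit 235) (nat_lit 129))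 (XT.lf (nat_lit 76) (nat_lit 161688233937) (nat_lit 0) (nat_lit 398176385425) (nat_lit 304) (nat_lit 73359407553) (nat_lit 16) (nat_lit 5) (nat_lit 15) (nat_lit 5) (nat_lit 19) (nat_lit 5) (nat_lit 237) (nat_lit 235) (nat_lit 128))) (XT.nd (nat_lit 78) (nat_lit 152) (nat_lit 0) (XT.lf (nat_lit 76) (nat_lit 466492325120) (nat_lit 0) (nat_lit 164693222026) (nat_lit 304) (nat_lit 52599881148) (nat_lit 16) (nat_lit 5) (nat_lit 15) (nat_lit 5) (nat_lit 19) (nat_lit 5) (nat_lit 238) (nat_lit 235) (nat_lit 127)) (XT.lf (nat_lit 0) (nat_lit 77705168582) (nat_lit 228) (nat_lit 643015677747) (nat_lit 304) (nat_lit 20082759083) (nat_lit 13) (nat_lit 5) (nat_lit 16) (nat_lit 5) (nat_lit 17) (nat_lit 5) (nat_lit 239) (nat_lit 235) (nat_lit 126)))))) (XT.nd (nat_lit 546) (nat_lit 228) (nat_lit 0) (XT.nd (nat_lit 234) (nat_lit 228) (nat_lit 0) (XT.nd (nat_lit 78) (nat_lit 152) (nat_lit 0) (XT.lf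 (nat_lit 0) (nat_lit 35512599118) (nat_lit 304) (nat_lit 372397060167) (nat_lit 76) (nat_lit 395396038214) (nat_lit 12) (nat_lit 5) (nat_lit 16) (nat_lit 5) (nat_lit 13) (nat_lit 5) (nat_lit 240) (nat_lit 235) (nat_lit 125)) (XT.nd (nat_lit 78) (nat_lit 152) (nat_lit 0) (XT.lf (nat_lit 0) (nat_lit 97391149101) (nat_lit 304) (nat_lit 39046819484) (nat_lit 76) (nat_lit 738601689767) (nat_lit 12) (nat_lit 5) (nat_lit 16) (nat_lit 5) (nat_lit 13) (nat_lit 5) (nat_lit 241) (nat_lit 235) (nat_lit 124)) (XT.lf (nat_lit 0) (nat_lit 192224603176) (nat_lit 228) (nat_lit 585255024807) (nat_lit 76) (nat_lit 176503117320) (nat_lit 10) (nat_lit 5) (nat_lit 13) (nat_lit 5) (nat_lit 11) (nat_lit 5) (nat_lit 242) (nat_lit 235) (nat_lit 123)))) (XT.nd (nat_lit 156) (nat_lit 76) (nat_lit 0) (XT.nd (nat_lit 78) (nat_lit 152) (nat_lit 0) (XT.lf (nat_lit 0) (nat_lit 309918383849) (nat_lit 228) (nat_lit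 208998621402) (nat_lit 76) (nat_lit 524554993953) (nat_lit 10) (nat_lit 5) (nat_lit 13) (nat_lit 5) (nat_lit 11) (nat_lit 5) (nat_lit 243) (nat_lit 235) (nat_lit 122)) (XT.lf (nat_lit 0) (nat_lit 245557447494) (nat_lit 152) (nat_lit 209876780596) (nat_lit 228) (nat_lit 689425213787) (nat_lit 8) (nat_lit 5) (nat_lit 10) (nat_lit 5) (nat_lit 11) (nat_lit 5) (nat_lit 244) (nat_lit 235) (nat_lit 121))) (XT.nd (nat_lit 78) (nat_lit 76) (nat_lit 0) (XT.lf (nat_lit 0) (nat_lit 640248250016) (nat_lit 228) (nat_lit 474576644050) (nat_lit 76) (nat_lit 144009486866) (nat_lit 8) (nat_lit 5) (nat_lit 11) (nat_lit 5) (nat_lit 9) (nat_lit 4) (nat_lit 245) (nat_lit 235) (nat_lit 120)) (XT.lf (nat_lit 0) (nat_lit 4240916329) (nat_lit 76) (nat_lit 858713187477) (nat_lit 152) (nat_lit 525425997872) (nat_lit 7) (nat_lit 5) (nat_lit 8) (nat_lit 5) (nat_lit 9) (nat_lit 4) (nat_lit 246) (nat_lit 235) (nat_lit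 119))))) (XT.nd (nat_lit 312) (nat_lit 76) (nat_lit 0) (XT.nd (nat_lit 156) (nat_lit 152) (nat_lit 0) (XT.nd (nat_lit 78) (nat_lit 0) (nat_lit 0) (XT.lf (nat_lit 0) (nat_lit 608217038981) (nat_lit 76) (nat_lit 535656201859) (nat_lit 152) (nat_lit 389763329022) (nat_lit 7) (nat_lit 5) (nat_lit 8) (nat_lit 5) (nat_lit 9) (nat_lit 4) (nat_lit 247) (nat_lit 235) (nat_lit 118)) (XT.lf (nat_lit 0) (nat_lit 1302789566923) (nat_lit 76) (nat_lit 164140672544) (nat_lit 152) (nat_lit 233751270242) (nat_lit 7) (nat_lit 5) (nat_lit 8) (nat_lit 5) (nat_lit 9) (nat_lit 4) (nat_lit 248) (nat_lit 235) (nat_lit 117))) (XT.nd (nat_lit 78) (nat_lit 76) (nat_lit 0) (XT.lf (nat_lit 0) (nat_lit 217207592457) (nat_lit 76) (nat_lit 1641126791158) (nat_lit 76) (nat_lit 31465517638) (nat_lit 6) (nat_lit 4) (nat_lit 7) (nat_lit 5) (nat_lit 7) (nat_lit 4) (nat_lit 249) (nat_lit 235) (nat_lit 116)) (XT.lf (nat_lit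 0) (nat_lit 212859703181) (nat_lit 152) (nat_lit 1152012924241) (nat_lit 76) (nat_lit 736723133626) (nat_lit 5) (nat_lit 5) (nat_lit 7) (nat_lit 5) (nat_lit 6) (nat_lit 4) (nat_lit 250) (nat_lit 235) (nat_lit 115)))) (XT.nd (nat_lit 156) (nat_lit 0) (nat_lit 0) (XT.nd (nat_lit 78) (nat_lit 76) (nat_lit 0) (XT.lf (nat_lit 0) (nat_lit 490612230665) (nat_lit 152) (nat_lit 554845001074) (nat_lit 76) (nat_lit 1299479015446) (nat_lit 5) (nat_lit 5) (nat_lit 7) (nat_lit 5) (nat_lit 6) (nat_lit 4) (nat_lit 251) (nat_lit 235) (nat_lit 114)) (XT.lf (nat_lit 0) (nat_lit 144788142606) (nat_lit 76) (nat_lit 671234856980) (nat_lit 152) (nat_lit 1807855502356) (nat_lit 4) (nat_lit 5) (nat_lit 5) (nat_lit 5) (nat_lit 6) (nat_lit 4) (nat_lit 252) (nat_lit 235) (nat_lit 113))) (XT.nd (nat_lit 78) (nat_lit 0) (nat_lit 0) (XT.lf (nat_lit 0) (nat_lit 1011723260687) (nat_lit 76) (nat_lit 207525379058)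 (nat_lit 152) (nat_lit 1721062966820) (nat_lit 4) (nat_lit 5) (nat_lit 5) (nat_lit 5) (nat_lit 6) (nat_lit 4) (nat_lit 253) (nat_lit 235) (nat_lit 112)) (XT.lf (nat_lit 0) (nat_lit 1696446341308) (nat_lit 152) (nat_lit 1308999259340) (nat_lit 0) (nat_lit 296740843961) (nat_lit 4) (nat_lit 5) (nat_lit 6) (nat_lit 4) (nat_lit 4) (nat_lit 4) (nat_lit 254) (nat_lit 235) (nat_lit 111))))))))
noncomputable def xc58 : XT := (XT.nd (nat_lit 31044) (nat_lit 0) (nat_lit 0) (XT.nd (nat_lit 29874) (nat_lit 0) (nat_lit 304) (XT.nd (nat_lit 546) (nat_lit 76) (nat_lit 0) (XT.nd (nat_lit 234) (nat_lit 76) (nat_lit 0) (XT.nd (nat_lit 78) (nat_lit 76) (nat_lit 0) (XT.lf (nat_lit 0) (nat_lit 2255105854723) (nat_lit 152) (nat_lit 606353978228) (nat_lit 0) (nat_lit 855400351945) (nat_lit 4) (nat_lit 5) (nat_lit 6) (nat_lit 4) (nat_lit 4) (nat_lit 4) (nat_lit 255) (nat_lit 235) (nat_lit 110)) (XT.nd (nat_lit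 78) (nat_lit 0) (nat_lit 0) (XT.lf (nat_lit 0) (nat_lit 221398515363) (nat_lit 76) (nat_lit 2685333416446) (nat_lit 76) (nat_lit 1285627908945) (nat_lit 3) (nat_lit 4) (nat_lit 4) (nat_lit 5) (nat_lit 4) (nat_lit 4) (nat_lit 256) (nat_lit 235) (nat_lit 109)) (XT.lf (nat_lit 0) (nat_lit 1241459795456) (nat_lit 76) (nat_lit 2446337897634) (nat_lit 76) (nat_lit 1046632386026) (nat_lit 3) (nat_lit 4) (nat_lit 4) (nat_lit 5) (nat_lit 4) (nat_lit 4) (nat_lit 257) (nat_lit 235) (nat_lit 108)))) (XT.nd (nat_lit 156) (nat_lit 76) (nat_lit 0) (XT.nd (nat_lit 78) (nat_lit 0) (nat_lit 0) (XT.lf (nat_lit 0) (nat_lit 2414530262151) (nat_lit 76) (nat_lit 2171493053369) (nat_lit 76) (nat_lit 771787538190) (nat_lit 3) (nat_lit 4) (nat_lit 4) (nat_lit 5) (nat_lit 4) (nat_lit 4) (nat_lit 258) (nat_lit 235) (nat_lit 107)) (XT.lf (nat_lit 0) (nat_lit 3763561294143) (nat_lit 76) (nat_lit 1855421484524)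 (nat_lit 76) (nat_lit 455715966240) (nat_lit 3) (nat_lit 4) (nat_lit 4) (nat_lit 5) (nat_lit 4) (nat_lit 4) (nat_lit 259) (nat_lit 235) (nat_lit 106))) (XT.nd (nat_lit 78) (nat_lit 76) (nat_lit 0) (XT.lf (nat_lit 0) (nat_lit 5314946976841) (nat_lit 76) (nat_lit 1491939182143) (nat_lit 76) (nat_lit 92233661159) (nat_lit 3) (nat_lit 4) (nat_lit 4) (nat_lit 5) (nat_lit 4) (nat_lit 4) (nat_lit 260) (nat_lit 235) (nat_lit 105)) (XT.lf (nat_lit 0) (nat_lit 296768601329) (nat_lit 152) (nat_lit 761653030473) (nat_lit 76) (nat_lit 6786759002893) (nat_lit 2) (nat_lit 5) (nat_lit 4) (nat_lit 5) (nat_lit 3) (nat_lit 4) (nat_lit 261) (nat_lit 235) (nat_lit 104))))) (XT.nd (nat_lit 234) (nat_lit 0) (nat_lit 0) (XT.nd (nat_lit 78) (nat_lit 0) (nat_lit 0) (XT.lf (nat_lit 0) (nat_lit 197429183010) (nat_lit 76) (nat_lit 545424169726) (nat_lit 152) (nat_lit 8188412138897) (nat_lit 1) (nat_lit 5) (nat_lit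 2) (nat_lit 5) (nat_lit 3) (nat_lit 4) (nat_lit 262) (nat_lit 235) (nat_lit 103)) (XT.nd (nat_lit 78) (nat_lit 0) (nat_lit 0) (XT.lf (nat_lit 0) (nat_lit 1299403984616) (nat_lit 152) (nat_lit 8792057373723) (nat_lit 0) (nat_lit 82268743616) (nat_lit 1) (nat_lit 5) (nat_lit 3) (nat_lit 4) (nat_lit 1) (nat_lit 4) (nat_lit 263) (nat_lit 235) (nat_lit 102)) (XT.lf (nat_lit 0) (nat_lit 1965409789237) (nat_lit 152) (nat_lit 8884984181007) (nat_lit 0) (nat_lit 748274546895) (nat_lit 1) (nat_lit 5) (nat_lit 3) (nat_lit 4) (nat_lit 1) (nat_lit 4) (nat_lit 264) (nat_lit 235) (nat_lit 101)))) (XT.nd (nat_lit 780) (nat_lit 0) (nat_lit 0) (XT.nd (nat_lit 702) (nat_lit 0) (nat_lit 0) (XT.lf (nat_lit 0) (nat_lit 2731316463204) (nat_lit 152) (nat_lit 8991850011911) (nat_lit 0) (nat_lit 1514181219694) (nat_lit 1) (nat_lit 5) (nat_lit 3) (nat_lit 4) (nat_lit 1) (nat_lit 4) (nat_lit 265) (nat_lit 235)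 (nat_lit 100)) (XT.lf (nat_lit 0) (nat_lit 17516163033361) (nat_lit 152) (nat_lit 11054758014866) (nat_lit 0) (nat_lit 16299027784281) (nat_lit 1) (nat_lit 5) (nat_lit 3) (nat_lit 4) (nat_lit 1) (nat_lit 4) (nat_lit 274) (nat_lit 235) (nat_lit 91))) (XT.nd (nat_lit 28236) (nat_lit 0) (nat_lit 1064) (XT.lf (nat_lit 0) (nat_lit 20614682687181) (nat_lit 152) (nat_lit 11487089933536) (nat_lit 0) (nat_lit 19397547437812) (nat_lit 1) (nat_lit 5) (nat_lit 3) (nat_lit 4) (nat_lit 1) (nat_lit 4) (nat_lit 275) (nat_lit 235) (nat_lit 90)) (XT.lf (nat_lit 0) (nat_lit 134382832828) (nat_lit 0) (nat_lit 134382832828) (nat_lit 228) (nat_lit 46047268306) (nat_lit 15) (nat_lit 5) (nat_lit 15) (nat_lit 3) (nat_lit 18) (nat_lit 3) (nat_lit 236) (nat_lit 236) (nat_lit 128)))))) (XT.nd (nat_lit 546) (nat_lit 380) (nat_lit 0) (XT.nd (nat_lit 234) (nat_lit 380) (nat_lit 0) (XT.nd (nat_lit 78) (nat_lit 0)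 (nat_lit 0) (XT.lf (nat_lit 0) (nat_lit 568166499621) (nat_lit 0) (nat_lit 9679815545) (nat_lit 228) (nat_lit 99001470708) (nat_lit 15) (nat_lit 5) (nat_lit 15) (nat_lit 3) (nat_lit 18) (nat_lit 3) (nat_lit 237) (nat_lit 236) (nat_lit 127)) (XT.nd (nat_lit 78) (nat_lit 0) (nat_lit 0) (XT.lf (nat_lit 76) (nat_lit 185941662486) (nat_lit 0) (nat_lit 457902909380) (nat_lit 304) (nat_lit 84363016220) (nat_lit 16) (nat_lit 5) (nat_lit 15) (nat_lit 5) (nat_lit 19) (nat_lit 5) (nat_lit 238) (nat_lit 236) (nat_lit 126)) (XT.lf (nat_lit 76) (nat_lit 536466342113) (nat_lit 0) (nat_lit 189397262844) (nat_lit 304) (nat_lit 60489600307) (nat_lit 16) (nat_lit 5) (nat_lit 15) (nat_lit 5) (nat_lit 19) (nat_lit 5) (nat_lit 239) (nat_lit 236) (nat_lit 125)))) (XT.nd (nat_lit 156) (nat_lit 152) (nat_lit 0) (XT.nd (nat_lit 78) (nat_lit 76) (nat_lit 0) (XT.lf (nat_lit 0) (nat_lit 89361142302) (nat_lit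 228) (nat_lit 739468033417) (nat_lit 304) (nat_lit 23094937170) (nat_lit 13) (nat_lit 5) (nat_lit 16) (nat_lit 5) (nat_lit 17) (nat_lit 5) (nat_lit 240) (nat_lit 236) (nat_lit 124)) (XT.lf (nat_lit 0) (nat_lit 40839675755) (nat_lit 304) (nat_lit 428256426145) (nat_lit 76) (nat_lit 454705419963) (nat_lit 12) (nat_lit 5) (nat_lit 16) (nat_lit 5) (nat_lit 13) (nat_lit 5) (nat_lit 241) (nat_lit 236) (nat_lit 123))) (XT.nd (nat_lit 78) (nat_lit 152) (nat_lit 0) (XT.lf (nat_lit 0) (nat_lit 111999983874) (nat_lit 304) (nat_lit 44903674540) (nat_lit 76) (nat_lit 849391922378) (nat_lit 12) (nat_lit 5) (nat_lit 16) (nat_lit 5) (nat_lit 13) (nat_lit 5) (nat_lit 242) (nat_lit 236) (nat_lit 122)) (XT.lf (nat_lit 0) (nat_lit 221058442024) (nat_lit 228) (nat_lit 673043094927) (nat_lit 76) (nat_lit 202978596193) (nat_lit 10) (nat_lit 5) (nat_lit 13) (nat_lit 5) (nat_lit 11) (nat_lit 5) (nat_lit 243)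 (nat_lit 236) (nat_lit 121))))) (XT.nd (nat_lit 312) (nat_lit 152) (nat_lit 0) (XT.nd (nat_lit 156) (nat_lit 76) (nat_lit 0) (XT.nd (nat_lit 78) (nat_lit 152) (nat_lit 0) (XT.lf (nat_lit 0) (nat_lit 356406270445) (nat_lit 228) (nat_lit 240348254960) (nat_lit 76) (nat_lit 603238252850) (nat_lit 10) (nat_lit 5) (nat_lit 13) (nat_lit 5) (nat_lit 11) (nat_lit 5) (nat_lit 244) (nat_lit 236) (nat_lit 120)) (XT.lf (nat_lit 0) (nat_lit 282391217014) (nat_lit 152) (nat_lit 241358263791) (nat_lit 228) (nat_lit 792838858295) (nat_lit 8) (nat_lit 5) (nat_lit 10) (nat_lit 5) (nat_lit 11) (nat_lit 5) (nat_lit 245) (nat_lit 236) (nat_lit 119))) (XT.nd (nat_lit 78) (nat_lit 76) (nat_lit 0) (XT.lf (nat_lit 0) (nat_lit 736285591784) (nat_lit 228) (nat_lit 545762992787) (nat_lit 76) (nat_lit 165610936745) (nat_lit 8) (nat_lit 5) (nat_lit 11) (nat_lit 5) (nat_lit 9) (nat_lit 4) (nat_lit 246) (nat_lit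 236) (nat_lit 118)) (XT.lf (nat_lit 0) (nat_lit 4877194927) (nat_lit 76) (nat_lit 987520120959) (nat_lit 152) (nat_lit 604239785596) (nat_lit 7) (nat_lit 5) (nat_lit 8) (nat_lit 5) (nat_lit 9) (nat_lit 4) (nat_lit 247) (nat_lit 236) (nat_lit 117)))) (XT.nd (nat_lit 156) (nat_lit 152) (nat_lit 0) (XT.nd (nat_lit 78) (nat_lit 0) (nat_lit 0) (XT.lf (nat_lit 0) (nat_lit 699449717567) (nat_lit 76) (nat_lit 616004593321) (nat_lit 152) (nat_lit 448227731022) (nat_lit 7) (nat_lit 5) (nat_lit 8) (nat_lit 5) (nat_lit 9) (nat_lit 4) (nat_lit 248) (nat_lit 236) (nat_lit 116)) (XT.lf (nat_lit 0) (nat_lit 1498208108691) (nat_lit 76) (nat_lit 188761739672) (nat_lit 152) (nat_lit 268813876123) (nat_lit 7) (nat_lit 5) (nat_lit 8) (nat_lit 5) (nat_lit 9) (nat_lit 4) (nat_lit 249) (nat_lit 236) (nat_lit 115))) (XT.nd (nat_lit 78) (nat_lit 76) (nat_lit 0) (XT.lf (nat_lit 0) (nat_lit 249788843018) (nat_lit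 76) (nat_lit 1887295767436) (nat_lit 76) (nat_lit 36185264954) (nat_lit 6) (nat_lit 4) (nat_lit 7) (nat_lit 5) (nat_lit 7) (nat_lit 4) (nat_lit 250) (nat_lit 236) (nat_lit 114)) (XT.lf (nat_lit 0) (nat_lit 244788722292) (nat_lit 152) (nat_lit 1324814759052) (nat_lit 76) (nat_lit 847231633834) (nat_lit 5) (nat_lit 5) (nat_lit 7) (nat_lit 5) (nat_lit 6) (nat_lit 4) (nat_lit 251) (nat_lit 236) (nat_lit 113))))))) (XT.nd (nat_lit 1716) (nat_lit 0) (nat_lit 0) (XT.nd (nat_lit 546) (nat_lit 152) (nat_lit 0) (XT.nd (nat_lit 234) (nat_lit 76) (nat_lit 0) (XT.nd (nat_lit 78) (nat_lit 76) (nat_lit 0) (XT.lf (nat_lit 0) (nat_lit 564204120599) (nat_lit 152) (nat_lit 638071660953) (nat_lit 76) (nat_lit 1494400893993) (nat_lit 5) (nat_lit 5) (nat_lit 7) (nat_lit 5) (nat_lit 6) (nat_lit 4) (nat_lit 252) (nat_lit 236) (nat_lit 112)) (XT.nd (nat_lit 78) (nat_lit 0) (nat_lit 0) (XT.lf (nat_lit 0) (nat_lit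 166506450176) (nat_lit 76) (nat_lit 771920051033) (nat_lit 152) (nat_lit 2079033767907) (nat_lit 4) (nat_lit 5) (nat_lit 5) (nat_lit 5) (nat_lit 6) (nat_lit 4) (nat_lit 253) (nat_lit 236) (nat_lit 111)) (XT.lf (nat_lit 0) (nat_lit 1163481824729) (nat_lit 76) (nat_lit 238654155921) (nat_lit 152) (nat_lit 1979222359842) (nat_lit 4) (nat_lit 5) (nat_lit 5) (nat_lit 5) (nat_lit 6) (nat_lit 4) (nat_lit 254) (nat_lit 236) (nat_lit 110)))) (XT.nd (nat_lit 156) (nat_lit 76) (nat_lit 0) (XT.nd (nat_lit 78) (nat_lit 0) (nat_lit 0) (XT.lf (nat_lit 0) (nat_lit 1950913332665) (nat_lit 152) (nat_lit 1505349078019) (nat_lit 0) (nat_lit 341251994316) (nat_lit 4) (nat_lit 5) (nat_lit 6) (nat_lit 4) (nat_lit 4) (nat_lit 4) (nat_lit 255) (nat_lit 236) (nat_lit 109)) (XT.lf (nat_lit 0) (nat_lit 2593371767855) (nat_lit 152) (nat_lit 697307013899) (nat_lit 0) (nat_lit 983710425399) (nat_lit 4) (nat_lit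 5) (nat_lit 6) (nat_lit 4) (nat_lit 4) (nat_lit 4) (nat_lit 256) (nat_lit 236) (nat_lit 108))) (XT.nd (nat_lit 78) (nat_lit 0) (nat_lit 0) (XT.lf (nat_lit 0) (nat_lit 254608350954) (nat_lit 76) (nat_lit 3088133403407) (nat_lit 76) (nat_lit 1478472057380) (nat_lit 3) (nat_lit 4) (nat_lit 4) (nat_lit 5) (nat_lit 4) (nat_lit 4) (nat_lit 257) (nat_lit 236) (nat_lit 107)) (XT.lf (nat_lit 0) (nat_lit 1427678815459) (nat_lit 76) (nat_lit 2813288560100) (nat_lit 76) (nat_lit 1203627210968) (nat_lit 3) (nat_lit 4) (nat_lit 4) (nat_lit 5) (nat_lit 4) (nat_lit 4) (nat_lit 258) (nat_lit 236) (nat_lit 106))))) (XT.nd (nat_lit 312) (nat_lit 76) (nat_lit 0) (XT.nd (nat_lit 156) (nat_lit 76) (nat_lit 0) (XT.nd (nat_lit 78) (nat_lit 0) (nat_lit 0) (XT.lf (nat_lit 0) (nat_lit 2776709845547) (nat_lit 76) (nat_lit 2497216992088) (nat_lit 76) (nat_lit 887555640256) (nat_lit 3) (nat_lit 4) (nat_lit 4)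 (nat_lit 5) (nat_lit 4) (nat_lit 4) (nat_lit 259) (nat_lit 236) (nat_lit 105)) (XT.lf (nat_lit 0) (nat_lit 4328095526589) (nat_lit 76) (nat_lit 2133734690432) (nat_lit 76) (nat_lit 524073336252) (nat_lit 3) (nat_lit 4) (nat_lit 4) (nat_lit 5) (nat_lit 4) (nat_lit 4) (nat_lit 260) (nat_lit 236) (nat_lit 104))) (XT.nd (nat_lit 78) (nat_lit 76) (nat_lit 0) (XT.lf (nat_lit 0) (nat_lit 6112189056692) (nat_lit 76) (nat_lit 1715730044882) (nat_lit 76) (nat_lit 106068688660) (nat_lit 3) (nat_lit 4) (nat_lit 4) (nat_lit 5) (nat_lit 4) (nat_lit 4) (nat_lit 261) (nat_lit 236) (nat_lit 103)) (XT.lf (nat_lit 0) (nat_lit 341283908697) (nat_lit 152) (nat_lit 875900954297) (nat_lit 76) (nat_lit 7804772864240) (nat_lit 2) (nat_lit 5) (nat_lit 4) (nat_lit 5) (nat_lit 3) (nat_lit 4) (nat_lit 262) (nat_lit 236) (nat_lit 102)))) (XT.nd (nat_lit 702) (nat_lit 0) (nat_lit 0) (XT.nd (nat_lit 78) (nat_lit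 0) (nat_lit 0) (XT.lf (nat_lit 0) (nat_lit 227043589811) (nat_lit 76) (nat_lit 627237781980) (nat_lit 152) (nat_lit 9416673941087) (nat_lit 1) (nat_lit 5) (nat_lit 2) (nat_lit 5) (nat_lit 3) (nat_lit 4) (nat_lit 263) (nat_lit 236) (nat_lit 101)) (XT.lf (nat_lit 0) (nat_lit 1494314596822) (nat_lit 152) (nat_lit 10110865952562) (nat_lit 0) (nat_lit 94609065619) (nat_lit 1) (nat_lit 5) (nat_lit 3) (nat_lit 4) (nat_lit 1) (nat_lit 4) (nat_lit 264) (nat_lit 236) (nat_lit 100))) (XT.nd (nat_lit 78) (nat_lit 0) (nat_lit 0) (XT.lf (nat_lit 0) (nat_lit 12007776906662) (nat_lit 152) (nat_lit 11577793952022) (nat_lit 0) (nat_lit 10608071370220) (nat_lit 1) (nat_lit 5) (nat_lit 3) (nat_lit 4) (nat_lit 1) (nat_lit 4) (nat_lit 272) (nat_lit 236) (nat_lit 92)) (XT.lf (nat_lit 0) (nat_lit 14350702921299) (nat_lit 152) (nat_lit 11904698993732) (nat_lit 0) (nat_lit 12950997384525) (nat_lit 1) (nat_lit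 5) (nat_lit 3) (nat_lit 4) (nat_lit 1) (nat_lit 4) (nat_lit 273) (nat_lit 236) (nat_lit 91)))))) (XT.nd (nat_lit 28782) (nat_lit 0) (nat_lit 456) (XT.nd (nat_lit 28470) (nat_lit 0) (nat_lit 912) (XT.nd (nat_lit 78) (nat_lit 0) (nat_lit 0) (XT.lf (nat_lit 0) (nat_lit 17045067837799) (nat_lit 152) (nat_lit 12280639792322) (nat_lit 0) (nat_lit 15645362300737) (nat_lit 1) (nat_lit 5) (nat_lit 3) (nat_lit 4) (nat_lit 1) (nat_lit 4) (nat_lit 274) (nat_lit 236) (nat_lit 90)) (XT.nd (nat_lit 28314) (nat_lit 0) (nat_lit 1064) (XT.lf (nat_lit 0) (nat_lit 20143587491485) (nat_lit 152) (nat_lit 12712971711245) (nat_lit 0) (nat_lit 18743881954171) (nat_lit 1) (nat_lit 5) (nat_lit 3) (nat_lit 4) (nat_lit 1) (nat_lit 4) (nat_lit 275) (nat_lit 236) (nat_lit 89)) (XT.lf (nat_lit 0) (nat_lit 154540321980) (nat_lit 0) (nat_lit 154540321980) (nat_lit 228) (nat_lit 52954208867) (nat_lit 15) (nat_lit 5)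 (nat_lit 15) (nat_lit 3) (nat_lit 18) (nat_lit 3) (nat_lit 237) (nat_lit 237) (nat_lit 126)))) (XT.nd (nat_lit 156) (nat_lit 152) (nat_lit 0) (XT.nd (nat_lit 78) (nat_lit 0) (nat_lit 0) (XT.lf (nat_lit 0) (nat_lit 653391586263) (nat_lit 0) (nat_lit 11131899576) (nat_lit 228) (nat_lit 113851430992) (nat_lit 15) (nat_lit 5) (nat_lit 15) (nat_lit 3) (nat_lit 18) (nat_lit 3) (nat_lit 238) (nat_lit 237) (nat_lit 125)) (XT.lf (nat_lit 76) (nat_lit 213833058141) (nat_lit 0) (nat_lit 526588395799) (nat_lit 304) (nat_lit 97017239946) (nat_lit 16) (nat_lit 5) (nat_lit 15) (nat_lit 5) (nat_lit 19) (nat_lit 5) (nat_lit 239) (nat_lit 237) (nat_lit 124))) (XT.nd (nat_lit 78) (nat_lit 152) (nat_lit 0) (XT.lf (nat_lit 76) (nat_lit 616936420632) (nat_lit 0) (nat_lit 217806895759) (nat_lit 304) (nat_lit 69562841477) (nat_lit 16) (nat_lit 5) (nat_lit 15) (nat_lit 5) (nat_lit 19) (nat_lit 5) (nat_lit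 240) (nat_lit 237) (nat_lit 123)) (XT.lf (nat_lit 0) (nat_lit 102765463690) (nat_lit 228) (nat_lit 850388241461) (nat_lit 304) (nat_lit 26558999466) (nat_lit 13) (nat_lit 5) (nat_lit 16) (nat_lit 5) (nat_lit 17) (nat_lit 5) (nat_lit 241) (nat_lit 237) (nat_lit 122))))) (XT.nd (nat_lit 312) (nat_lit 228) (nat_lit 0) (XT.nd (nat_lit 156) (nat_lit 152) (nat_lit 0) (XT.nd (nat_lit 78) (nat_lit 0) (nat_lit 0) (XT.lf (nat_lit 0) (nat_lit 46965768343) (nat_lit 304) (nat_lit 492494744096) (nat_lit 76) (nat_lit 522911214823) (nat_lit 12) (nat_lit 5) (nat_lit 16) (nat_lit 5) (nat_lit 13) (nat_lit 5) (nat_lit 242) (nat_lit 237) (nat_lit 121)) (XT.lf (nat_lit 0) (nat_lit 128800104259) (nat_lit 304) (nat_lit 51639098789) (nat_lit 76) (nat_lit 976800694966) (nat_lit 12) (nat_lit 5) (nat_lit 16) (nat_lit 5) (nat_lit 13) (nat_lit 5) (nat_lit 243) (nat_lit 237) (nat_lit 120))) (XT.nd (nat_lit 78)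 (nat_lit 0) (nat_lit 0) (XT.lf (nat_lit 0) (nat_lit 254217320519) (nat_lit 228) (nat_lit 773999420338) (nat_lit 76) (nat_lit 233425394148) (nat_lit 10) (nat_lit 5) (nat_lit 13) (nat_lit 5) (nat_lit 11) (nat_lit 5) (nat_lit 244) (nat_lit 237) (nat_lit 119)) (XT.lf (nat_lit 0) (nat_lit 409867308569) (nat_lit 228) (nat_lit 276400372483) (nat_lit 76) (nat_lit 693723998191) (nat_lit 10) (nat_lit 5) (nat_lit 13) (nat_lit 5) (nat_lit 11) (nat_lit 5) (nat_lit 245) (nat_lit 237) (nat_lit 118)))) (XT.nd (nat_lit 156) (nat_lit 76) (nat_lit 0) (XT.nd (nat_lit 78) (nat_lit 0) (nat_lit 0) (XT.lf (nat_lit 0) (nat_lit 324750014799) (nat_lit 152) (nat_lit 277561977730) (nat_lit 228) (nat_lit 911764583025) (nat_lit 8) (nat_lit 5) (nat_lit 10) (nat_lit 5) (nat_lit 11) (nat_lit 5) (nat_lit 246) (nat_lit 237) (nat_lit 117)) (XT.lf (nat_lit 0) (nat_lit 846728509391) (nat_lit 228) (nat_lit 627627329893)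 (nat_lit 76) (nat_lit 190452597559) (nat_lit 8) (nat_lit 5) (nat_lit 11) (nat_lit 5) (nat_lit 9) (nat_lit 4) (nat_lit 247) (nat_lit 237) (nat_lit 116))) (XT.nd (nat_lit 78) (nat_lit 0) (nat_lit 0) (XT.lf (nat_lit 0) (nat_lit 5608880895) (nat_lit 76) (nat_lit 1135648105349) (nat_lit 152) (nat_lit 694875668780) (nat_lit 7) (nat_lit 5) (nat_lit 8) (nat_lit 5) (nat_lit 9) (nat_lit 4) (nat_lit 248) (nat_lit 237) (nat_lit 115)) (XT.lf (nat_lit 0) (nat_lit 804367268010) (nat_lit 76) (nat_lit 708405252968) (nat_lit 152) (nat_lit 515461817062) (nat_lit 7) (nat_lit 5) (nat_lit 8) (nat_lit 5) (nat_lit 9) (nat_lit 4) (nat_lit 249) (nat_lit 237) (nat_lit 114))))))))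
noncomputable def xc59 : XT := (XT.nd (nat_lit 31200) (nat_lit 0) (nat_lit 0) (XT.nd (nat_lit 1638) (nat_lit 0) (nat_lit 0) (XT.nd (nat_lit 546) (nat_lit 228) (nat_lit 0) (XT.nd (nat_lit 234) (nat_lit 76) (nat_lit 0) (XT.nd (nat_lit 78) (nat_lit 152) (nat_lit 0) (XT.lf (nat_lit 0) (nat_lit 1722939405697) (nat_lit 76) (nat_lit 217075975101) (nat_lit 152) (nat_lit 309135893530) (nat_lit 7) (nat_lit 5) (nat_lit 8) (nat_lit 5) (nat_lit 9) (nat_lit 4) (nat_lit 250) (nat_lit 237) (nat_lit 113)) (XT.nd (nat_lit 78) (nat_lit 76) (nat_lit 0) (XT.lf (nat_lit 0) (nat_lit 287257253927) (nat_lit 76) (nat_lit 2170390100494) (nat_lit 76) (nat_lit 41612993957) (nat_lit 6) (nat_lit 4) (nat_lit 7) (nat_lit 5) (nat_lit 7) (nat_lit 4) (nat_lit 251) (nat_lit 237) (nat_lit 112)) (XT.lf (nat_lit 0) (nat_lit 281507078751) (nat_lit 152) (nat_lit 1523536894403) (nat_lit 76) (nat_lit 974316401718) (nat_lit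 5) (nat_lit 5) (nat_lit 7) (nat_lit 5) (nat_lit 6) (nat_lit 4) (nat_lit 252) (nat_lit 237) (nat_lit 111)))) (XT.nd (nat_lit 156) (nat_lit 0) (nat_lit 0) (XT.nd (nat_lit 78) (nat_lit 76) (nat_lit 0) (XT.lf (nat_lit 0) (nat_lit 648834780528) (nat_lit 152) (nat_lit 733782341829) (nat_lit 76) (nat_lit 1718561047926) (nat_lit 5) (nat_lit 5) (nat_lit 7) (nat_lit 5) (nat_lit 6) (nat_lit 4) (nat_lit 253) (nat_lit 237) (nat_lit 110)) (XT.lf (nat_lit 0) (nat_lit 191482482866) (nat_lit 76) (nat_lit 887708032605) (nat_lit 152) (nat_lit 2390888787875) (nat_lit 4) (nat_lit 5) (nat_lit 5) (nat_lit 5) (nat_lit 6) (nat_lit 4) (nat_lit 254) (nat_lit 237) (nat_lit 109))) (XT.nd (nat_lit 78) (nat_lit 0) (nat_lit 0) (XT.lf (nat_lit 0) (nat_lit 1338004155102) (nat_lit 76) (nat_lit 274452256628) (nat_lit 152) (nat_lit 2276105674498) (nat_lit 4) (nat_lit 5) (nat_lit 5) (nat_lit 5) (nat_lit 6) (nat_lit 4)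 (nat_lit 255) (nat_lit 237) (nat_lit 108)) (XT.lf (nat_lit 0) (nat_lit 2243550362932) (nat_lit 152) (nat_lit 1731151386624) (nat_lit 0) (nat_lit 392439811431) (nat_lit 4) (nat_lit 5) (nat_lit 6) (nat_lit 4) (nat_lit 4) (nat_lit 4) (nat_lit 256) (nat_lit 237) (nat_lit 107))))) (XT.nd (nat_lit 312) (nat_lit 152) (nat_lit 0) (XT.nd (nat_lit 156) (nat_lit 0) (nat_lit 0) (XT.nd (nat_lit 78) (nat_lit 76) (nat_lit 0) (XT.lf (nat_lit 0) (nat_lit 2982377559439) (nat_lit 152) (nat_lit 801903019812) (nat_lit 0) (nat_lit 1131267004832) (nat_lit 4) (nat_lit 5) (nat_lit 6) (nat_lit 4) (nat_lit 4) (nat_lit 4) (nat_lit 257) (nat_lit 237) (nat_lit 106)) (XT.lf (nat_lit 0) (nat_lit 292799647670) (nat_lit 76) (nat_lit 3551353394632) (nat_lit 76) (nat_lit 1700242837325) (nat_lit 3) (nat_lit 4) (nat_lit 4) (nat_lit 5) (nat_lit 4) (nat_lit 4) (nat_lit 258) (nat_lit 237) (nat_lit 105))) (XT.nd (nat_lit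 78) (nat_lit 0) (nat_lit 0) (XT.lf (nat_lit 0) (nat_lit 1641830676103) (nat_lit 76) (nat_lit 3235281827345) (nat_lit 76) (nat_lit 1384171267689) (nat_lit 3) (nat_lit 4) (nat_lit 4) (nat_lit 5) (nat_lit 4) (nat_lit 4) (nat_lit 259) (nat_lit 237) (nat_lit 104)) (XT.lf (nat_lit 0) (nat_lit 3193216355705) (nat_lit 76) (nat_lit 2871799526318) (nat_lit 76) (nat_lit 1020688964621) (nat_lit 3) (nat_lit 4) (nat_lit 4) (nat_lit 5) (nat_lit 4) (nat_lit 4) (nat_lit 260) (nat_lit 237) (nat_lit 103)))) (XT.nd (nat_lit 156) (nat_lit 152) (nat_lit 0) (XT.nd (nat_lit 78) (nat_lit 0) (nat_lit 0) (XT.lf (nat_lit 0) (nat_lit 4977309884557) (nat_lit 76) (nat_lit 2453794881316) (nat_lit 76) (nat_lit 602684317843) (nat_lit 3) (nat_lit 4) (nat_lit 4) (nat_lit 5) (nat_lit 4) (nat_lit 4) (nat_lit 261) (nat_lit 237) (nat_lit 102)) (XT.lf (nat_lit 0) (nat_lit 7029017440395) (nat_lit 76) (nat_lit 1973089540587)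 (nat_lit 76) (nat_lit 121978975571) (nat_lit 3) (nat_lit 4) (nat_lit 4) (nat_lit 5) (nat_lit 4) (nat_lit 4) (nat_lit 262) (nat_lit 237) (nat_lit 101))) (XT.nd (nat_lit 546) (nat_lit 76) (nat_lit 0) (XT.lf (nat_lit 0) (nat_lit 392476507984) (nat_lit 152) (nat_lit 1007286074193) (nat_lit 76) (nat_lit 8975488802128) (nat_lit 2) (nat_lit 5) (nat_lit 4) (nat_lit 5) (nat_lit 3) (nat_lit 4) (nat_lit 263) (nat_lit 237) (nat_lit 100)) (XT.lf (nat_lit 0) (nat_lit 7657101792980) (nat_lit 152) (nat_lit 12456105566509) (nat_lit 0) (nat_lit 6047440426071) (nat_lit 1) (nat_lit 5) (nat_lit 3) (nat_lit 4) (nat_lit 1) (nat_lit 4) (nat_lit 270) (nat_lit 237) (nat_lit 93)))))) (XT.nd (nat_lit 28938) (nat_lit 0) (nat_lit 532) (XT.nd (nat_lit 234) (nat_lit 0) (nat_lit 0) (XT.nd (nat_lit 78) (nat_lit 0) (nat_lit 0) (XT.lf (nat_lit 0) (nat_lit 9428690462361) (nat_lit 152) (nat_lit 12703292742728) (nat_lit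 0) (nat_lit 7819029095071) (nat_lit 1) (nat_lit 5) (nat_lit 3) (nat_lit 4) (nat_lit 1) (nat_lit 4) (nat_lit 271) (nat_lit 237) (nat_lit 92)) (XT.nd (nat_lit 78) (nat_lit 0) (nat_lit 0) (XT.lf (nat_lit 0) (nat_lit 11466017431766) (nat_lit 152) (nat_lit 12987557996097) (nat_lit 0) (nat_lit 9856356064144) (nat_lit 1) (nat_lit 5) (nat_lit 3) (nat_lit 4) (nat_lit 1) (nat_lit 4) (nat_lit 272) (nat_lit 237) (nat_lit 91)) (XT.lf (nat_lit 0) (nat_lit 13808943446248) (nat_lit 152) (nat_lit 13314463038097) (nat_lit 0) (nat_lit 12199282078338) (nat_lit 1) (nat_lit 5) (nat_lit 3) (nat_lit 4) (nat_lit 1) (nat_lit 4) (nat_lit 273) (nat_lit 237) (nat_lit 90)))) (XT.nd (nat_lit 28548) (nat_lit 0) (nat_lit 1064) (XT.nd (nat_lit 28470) (nat_lit 0) (nat_lit 1064) (XT.lf (nat_lit 0) (nat_lit 16503308362614) (nat_lit 152) (nat_lit 13690403836941) (nat_lit 0) (nat_lit 14893646994453) (nat_lit 1) (nat_lit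 5) (nat_lit 3) (nat_lit 4) (nat_lit 1) (nat_lit 4) (nat_lit 274) (nat_lit 237) (nat_lit 89)) (XT.lf (nat_lit 0) (nat_lit 177721418842) (nat_lit 0) (nat_lit 177721418842) (nat_lit 228) (nat_lit 60897227014) (nat_lit 15) (nat_lit 5) (nat_lit 15) (nat_lit 3) (nat_lit 18) (nat_lit 3) (nat_lit 238) (nat_lit 238) (nat_lit 124))) (XT.nd (nat_lit 78) (nat_lit 0) (nat_lit 0) (XT.lf (nat_lit 0) (nat_lit 751400408663) (nat_lit 0) (nat_lit 12801768973) (nat_lit 228) (nat_lit 130928948800) (nat_lit 15) (nat_lit 5) (nat_lit 15) (nat_lit 3) (nat_lit 18) (nat_lit 3) (nat_lit 239) (nat_lit 238) (nat_lit 123)) (XT.lf (nat_lit 76) (nat_lit 245908127473) (nat_lit 0) (nat_lit 605576692985) (nat_lit 304) (nat_lit 111569653002) (nat_lit 16) (nat_lit 5) (nat_lit 15) (nat_lit 5) (nat_lit 19) (nat_lit 5) (nat_lit 240) (nat_lit 238) (nat_lit 122))))) (XT.nd (nat_lit 312) (nat_lit 304) (nat_lit 0) (XT.nd (nat_lit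 156) (nat_lit 76) (nat_lit 0) (XT.nd (nat_lit 78) (nat_lit 152) (nat_lit 0) (XT.lf (nat_lit 76) (nat_lit 709476979910) (nat_lit 0) (nat_lit 250477963007) (nat_lit 304) (nat_lit 79997117319) (nat_lit 16) (nat_lit 5) (nat_lit 15) (nat_lit 5) (nat_lit 19) (nat_lit 5) (nat_lit 241) (nat_lit 238) (nat_lit 121)) (XT.lf (nat_lit 0) (nat_lit 118180396698) (nat_lit 228) (nat_lit 977946479971) (nat_lit 304) (nat_lit 30542714580) (nat_lit 13) (nat_lit 5) (nat_lit 16) (nat_lit 5) (nat_lit 17) (nat_lit 5) (nat_lit 242) (nat_lit 238) (nat_lit 120))) (XT.nd (nat_lit 78) (nat_lit 0) (nat_lit 0) (XT.lf (nat_lit 0) (nat_lit 54010740380) (nat_lit 304) (nat_lit 566368845335) (nat_lit 76) (nat_lit 601347883335) (nat_lit 12) (nat_lit 5) (nat_lit 16) (nat_lit 5) (nat_lit 13) (nat_lit 5) (nat_lit 243) (nat_lit 238) (nat_lit 119)) (XT.lf (nat_lit 0) (nat_lit 148120212756) (nat_lit 304) (nat_lit 59384867629)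 (nat_lit 76) (nat_lit 1123320787287) (nat_lit 12) (nat_lit 5) (nat_lit 16) (nat_lit 5) (nat_lit 13) (nat_lit 5) (nat_lit 244) (nat_lit 238) (nat_lit 118)))) (XT.nd (nat_lit 156) (nat_lit 152) (nat_lit 0) (XT.nd (nat_lit 78) (nat_lit 0) (nat_lit 0) (XT.lf (nat_lit 0) (nat_lit 292350003429) (nat_lit 228) (nat_lit 890099228414) (nat_lit 76) (nat_lit 268439209717) (nat_lit 10) (nat_lit 5) (nat_lit 13) (nat_lit 5) (nat_lit 11) (nat_lit 5) (nat_lit 245) (nat_lit 238) (nat_lit 117)) (XT.lf (nat_lit 0) (nat_lit 471347478622) (nat_lit 228) (nat_lit 317860337074) (nat_lit 76) (nat_lit 797782603526) (nat_lit 10) (nat_lit 5) (nat_lit 13) (nat_lit 5) (nat_lit 11) (nat_lit 5) (nat_lit 246) (nat_lit 238) (nat_lit 116))) (XT.nd (nat_lit 78) (nat_lit 0) (nat_lit 0) (XT.lf (nat_lit 0) (nat_lit 373462604152) (nat_lit 152) (nat_lit 319196255010) (nat_lit 228) (nat_lit 1048529191828) (nat_lit 8) (nat_lit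 5) (nat_lit 10) (nat_lit 5) (nat_lit 11) (nat_lit 5) (nat_lit 247) (nat_lit 238) (nat_lit 115)) (XT.lf (nat_lit 0) (nat_lit 973737845413) (nat_lit 228) (nat_lit 721771344832) (nat_lit 76) (nat_lit 219020502545) (nat_lit 8) (nat_lit 5) (nat_lit 11) (nat_lit 5) (nat_lit 9) (nat_lit 4) (nat_lit 248) (nat_lit 238) (nat_lit 114))))))) (XT.nd (nat_lit 1716) (nat_lit 0) (nat_lit 0) (XT.nd (nat_lit 546) (nat_lit 228) (nat_lit 0) (XT.nd (nat_lit 234) (nat_lit 228) (nat_lit 0) (XT.nd (nat_lit 78) (nat_lit 0) (nat_lit 0) (XT.lf (nat_lit 0) (nat_lit 6450293732) (nat_lit 76) (nat_lit 1305995295629) (nat_lit 152) (nat_lit 799106955086) (nat_lit 7) (nat_lit 5) (nat_lit 8) (nat_lit 5) (nat_lit 9) (nat_lit 4) (nat_lit 249) (nat_lit 238) (nat_lit 113)) (XT.nd (nat_lit 78) (nat_lit 0) (nat_lit 0) (XT.lf (nat_lit 0) (nat_lit 925022428387) (nat_lit 76) (nat_lit 814666018720) (nat_lit 152) (nat_lit 592781033959)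 (nat_lit 7) (nat_lit 5) (nat_lit 8) (nat_lit 5) (nat_lit 9) (nat_lit 4) (nat_lit 250) (nat_lit 238) (nat_lit 112)) (XT.lf (nat_lit 0) (nat_lit 1981380377574) (nat_lit 76) (nat_lit 249637352067) (nat_lit 152) (nat_lit 355506229158) (nat_lit 7) (nat_lit 5) (nat_lit 8) (nat_lit 5) (nat_lit 9) (nat_lit 4) (nat_lit 251) (nat_lit 238) (nat_lit 111)))) (XT.nd (nat_lit 156) (nat_lit 76) (nat_lit 0) (XT.nd (nat_lit 78) (nat_lit 76) (nat_lit 0) (XT.lf (nat_lit 0) (nat_lit 330345905877) (nat_lit 76) (nat_lit 2495948591329) (nat_lit 76) (nat_lit 47854897122) (nat_lit 6) (nat_lit 4) (nat_lit 7) (nat_lit 5) (nat_lit 7) (nat_lit 4) (nat_lit 252) (nat_lit 238) (nat_lit 110)) (XT.lf (nat_lit 0) (nat_lit 323733176947) (nat_lit 152) (nat_lit 1752067369201) (nat_lit 76) (nat_lit 1120463879222) (nat_lit 5) (nat_lit 5) (nat_lit 7) (nat_lit 5) (nat_lit 6) (nat_lit 4) (nat_lit 253) (nat_lit 238) (nat_lit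 109))) (XT.nd (nat_lit 78) (nat_lit 76) (nat_lit 0) (XT.lf (nat_lit 0) (nat_lit 746160029245) (nat_lit 152) (nat_lit 843849641483) (nat_lit 76) (nat_lit 1976345220112) (nat_lit 5) (nat_lit 5) (nat_lit 7) (nat_lit 5) (nat_lit 6) (nat_lit 4) (nat_lit 254) (nat_lit 238) (nat_lit 108)) (XT.lf (nat_lit 0) (nat_lit 220204904569) (nat_lit 76) (nat_lit 1020864217773) (nat_lit 152) (nat_lit 2749522071864) (nat_lit 4) (nat_lit 5) (nat_lit 5) (nat_lit 5) (nat_lit 6) (nat_lit 4) (nat_lit 255) (nat_lit 238) (nat_lit 107))))) (XT.nd (nat_lit 312) (nat_lit 152) (nat_lit 0) (XT.nd (nat_lit 156) (nat_lit 76) (nat_lit 0) (XT.nd (nat_lit 78) (nat_lit 0) (nat_lit 0) (XT.lf (nat_lit 0) (nat_lit 1538704821214) (nat_lit 76) (nat_lit 315620077973) (nat_lit 152) (nat_lit 2617521495940) (nat_lit 4) (nat_lit 5) (nat_lit 5) (nat_lit 5) (nat_lit 6) (nat_lit 4) (nat_lit 256) (nat_lit 238) (nat_lit 106)) (XT.lf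 (nat_lit 0) (nat_lit 2580082940334) (nat_lit 152) (nat_lit 1990824054469) (nat_lit 0) (nat_lit 451305796731) (nat_lit 4) (nat_lit 5) (nat_lit 6) (nat_lit 4) (nat_lit 4) (nat_lit 4) (nat_lit 257) (nat_lit 238) (nat_lit 105))) (XT.nd (nat_lit 78) (nat_lit 76) (nat_lit 0) (XT.lf (nat_lit 0) (nat_lit 3429734213322) (nat_lit 152) (nat_lit 922188437872) (nat_lit 0) (nat_lit 1300957067370) (nat_lit 4) (nat_lit 5) (nat_lit 6) (nat_lit 4) (nat_lit 4) (nat_lit 4) (nat_lit 258) (nat_lit 238) (nat_lit 104)) (XT.lf (nat_lit 0) (nat_lit 336719628146) (nat_lit 76) (nat_lit 4084056389244) (nat_lit 76) (nat_lit 1955279241250) (nat_lit 3) (nat_lit 4) (nat_lit 4) (nat_lit 5) (nat_lit 4) (nat_lit 4) (nat_lit 259) (nat_lit 238) (nat_lit 103)))) (XT.nd (nat_lit 702) (nat_lit 152) (nat_lit 0) (XT.nd (nat_lit 78) (nat_lit 0) (nat_lit 0) (XT.lf (nat_lit 0) (nat_lit 1888105306497) (nat_lit 76) (nat_lit 3720574088765)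 (nat_lit 76) (nat_lit 1591796938996) (nat_lit 3) (nat_lit 4) (nat_lit 4) (nat_lit 5) (nat_lit 4) (nat_lit 4) (nat_lit 260) (nat_lit 238) (nat_lit 102)) (XT.lf (nat_lit 0) (nat_lit 3672198834260) (nat_lit 76) (nat_lit 3302569444239) (nat_lit 76) (nat_lit 1173792292926) (nat_lit 3) (nat_lit 4) (nat_lit 4) (nat_lit 5) (nat_lit 4) (nat_lit 4) (nat_lit 261) (nat_lit 238) (nat_lit 101))) (XT.nd (nat_lit 78) (nat_lit 0) (nat_lit 0) (XT.lf (nat_lit 0) (nat_lit 5493566510253) (nat_lit 152) (nat_lit 13862388846905) (nat_lit 0) (nat_lit 3642455937869) (nat_lit 1) (nat_lit 5) (nat_lit 3) (nat_lit 4) (nat_lit 1) (nat_lit 4) (nat_lit 269) (nat_lit 238) (nat_lit 93)) (XT.lf (nat_lit 0) (nat_lit 7034078396849) (nat_lit 152) (nat_lit 14077334217196) (nat_lit 0) (nat_lit 5182967824084) (nat_lit 1) (nat_lit 5) (nat_lit 3) (nat_lit 4) (nat_lit 1) (nat_lit 4) (nat_lit 270) (nat_lit 238) (nat_lit 92))))))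 (XT.nd (nat_lit 29094) (nat_lit 0) (nat_lit 456) (XT.nd (nat_lit 28782) (nat_lit 0) (nat_lit 1064) (XT.nd (nat_lit 78) (nat_lit 0) (nat_lit 0) (XT.lf (nat_lit 0) (nat_lit 8805667066052) (nat_lit 152) (nat_lit 14324521393748) (nat_lit 0) (nat_lit 6954556492955) (nat_lit 1) (nat_lit 5) (nat_lit 3) (nat_lit 4) (nat_lit 1) (nat_lit 4) (nat_lit 271) (nat_lit 238) (nat_lit 91)) (XT.nd (nat_lit 78) (nat_lit 0) (nat_lit 0) (XT.lf (nat_lit 0) (nat_lit 10842994035303) (nat_lit 152) (nat_lit 14608786647409) (nat_lit 0) (nat_lit 8991883461917) (nat_lit 1) (nat_lit 5) (nat_lit 3) (nat_lit 4) (nat_lit 1) (nat_lit 4) (nat_lit 272) (nat_lit 238) (nat_lit 90)) (XT.lf (nat_lit 0) (nat_lit 13185920049650) (nat_lit 152) (nat_lit 14935691689661) (nat_lit 0) (nat_lit 11334809476014) (nat_lit 1) (nat_lit 5) (nat_lit 3) (nat_lit 4) (nat_lit 1) (nat_lit 4) (nat_lit 273) (nat_lit 238) (nat_lit 89)))) (XT.nd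 (nat_lit 156) (nat_lit 0) (nat_lit 0) (XT.nd (nat_lit 78) (nat_lit 0) (nat_lit 0) (XT.lf (nat_lit 0) (nat_lit 204379668390) (nat_lit 0) (nat_lit 204379668390) (nat_lit 228) (nat_lit 70031725483) (nat_lit 15) (nat_lit 5) (nat_lit 15) (nat_lit 3) (nat_lit 18) (nat_lit 3) (nat_lit 239) (nat_lit 239) (nat_lit 122)) (XT.lf (nat_lit 0) (nat_lit 864110533827) (nat_lit 0) (nat_lit 14722098183) (nat_lit 228) (nat_lit 150568142280) (nat_lit 15) (nat_lit 5) (nat_lit 15) (nat_lit 3) (nat_lit 18) (nat_lit 3) (nat_lit 240) (nat_lit 239) (nat_lit 121))) (XT.nd (nat_lit 78) (nat_lit 0) (nat_lit 0) (XT.lf (nat_lit 76) (nat_lit 282794430232) (nat_lit 0) (nat_lit 696413225528) (nat_lit 304) (nat_lit 128304970188) (nat_lit 16) (nat_lit 5) (nat_lit 15) (nat_lit 5) (nat_lit 19) (nat_lit 5) (nat_lit 241) (nat_lit 239) (nat_lit 120)) (XT.lf (nat_lit 76) (nat_lit 815898599625) (nat_lit 0) (nat_lit 288049682323)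 (nat_lit 304) (nat_lit 91996571209) (nat_lit 16) (nat_lit 5) (nat_lit 15) (nat_lit 5) (nat_lit 19) (nat_lit 5) (nat_lit 242) (nat_lit 239) (nat_lit 119))))) (XT.nd (nat_lit 312) (nat_lit 228) (nat_lit 0) (XT.nd (nat_lit 156) (nat_lit 152) (nat_lit 0) (XT.nd (nat_lit 78) (nat_lit 76) (nat_lit 0) (XT.lf (nat_lit 0) (nat_lit 135907541990) (nat_lit 228) (nat_lit 1124638453700) (nat_lit 304) (nat_lit 35124019835) (nat_lit 13) (nat_lit 5) (nat_lit 16) (nat_lit 5) (nat_lit 17) (nat_lit 5) (nat_lit 243) (nat_lit 239) (nat_lit 118)) (XT.lf (nat_lit 0) (nat_lit 62112432183) (nat_lit 304) (nat_lit 651324088676) (nat_lit 76) (nat_lit 691550055467) (nat_lit 12) (nat_lit 5) (nat_lit 16) (nat_lit 5) (nat_lit 13) (nat_lit 5) (nat_lit 244) (nat_lit 239) (nat_lit 117))) (XT.nd (nat_lit 78) (nat_lit 152) (nat_lit 0) (XT.lf (nat_lit 0) (nat_lit 170338314883) (nat_lit 304) (nat_lit 68292525200) (nat_lit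 76) (nat_lit 1291818896364) (nat_lit 12) (nat_lit 5) (nat_lit 16) (nat_lit 5) (nat_lit 13) (nat_lit 5) (nat_lit 245) (nat_lit 239) (nat_lit 116)) (XT.lf (nat_lit 0) (nat_lit 336202568089) (nat_lit 228) (nat_lit 1023614033301) (nat_lit 76) (nat_lit 308705096049) (nat_lit 10) (nat_lit 5) (nat_lit 13) (nat_lit 5) (nat_lit 11) (nat_lit 5) (nat_lit 246) (nat_lit 239) (nat_lit 115)))) (XT.nd (nat_lit 156) (nat_lit 76) (nat_lit 0) (XT.nd (nat_lit 78) (nat_lit 152) (nat_lit 0) (XT.lf (nat_lit 0) (nat_lit 542049656193) (nat_lit 228) (nat_lit 365539318613) (nat_lit 76) (nat_lit 917449998294) (nat_lit 10) (nat_lit 5) (nat_lit 13) (nat_lit 5) (nat_lit 11) (nat_lit 5) (nat_lit 247) (nat_lit 239) (nat_lit 114)) (XT.lf (nat_lit 0) (nat_lit 429482060660) (nat_lit 152) (nat_lit 367075678608) (nat_lit 228) (nat_lit 1205808511132) (nat_lit 8) (nat_lit 5) (nat_lit 10) (nat_lit 5) (nat_lit 11) (nat_lit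 5) (nat_lit 248) (nat_lit 239) (nat_lit 113))) (XT.nd (nat_lit 78) (nat_lit 76) (nat_lit 0) (XT.lf (nat_lit 0) (nat_lit 1119798567302) (nat_lit 228) (nat_lit 830036982629) (nat_lit 76) (nat_lit 251873589535) (nat_lit 8) (nat_lit 5) (nat_lit 11) (nat_lit 5) (nat_lit 9) (nat_lit 4) (nat_lit 249) (nat_lit 239) (nat_lit 112)) (XT.lf (nat_lit 0) (nat_lit 7417898815) (nat_lit 76) (nat_lit 1501894570675) (nat_lit 152) (nat_lit 918972949947) (nat_lit 7) (nat_lit 5) (nat_lit 8) (nat_lit 5) (nat_lit 9) (nat_lit 4) (nat_lit 250) (nat_lit 239) (nat_lit 111))))))))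
noncomputable def xc60 : XT := (XT.nd (nat_lit 31356) (nat_lit 0) (nat_lit 0) (XT.nd (nat_lit 1482) (nat_lit 0) (nat_lit 0) (XT.nd (nat_lit 546) (nat_lit 228) (nat_lit 0) (XT.nd (nat_lit 234) (nat_lit 152) (nat_lit 0) (XT.nd (nat_lit 78) (nat_lit 76) (nat_lit 0) (XT.lf (nat_lit 0) (nat_lit 1063775845709) (nat_lit 76) (nat_lit 936865904746) (nat_lit 152) (nat_lit 681698146964) (nat_lit 7) (nat_lit 5) (nat_lit 8) (nat_lit 5) (nat_lit 9) (nat_lit 4) (nat_lit 251) (nat_lit 239) (nat_lit 110)) (XT.nd (nat_lit 78) (nat_lit 76) (nat_lit 0) (XT.lf (nat_lit 0) (nat_lit 2278587480352) (nat_lit 76) (nat_lit 287082940284) (nat_lit 152) (nat_lit 408832126933) (nat_lit 7) (nat_lit 5) (nat_lit 8) (nat_lit 5) (nat_lit 9) (nat_lit 4) (nat_lit 252) (nat_lit 239) (nat_lit 109)) (XT.lf (nat_lit 0) (nat_lit 379897840046) (nat_lit 76) (nat_lit 2870340861699) (nat_lit 76) (nat_lit 55033096961) (nat_lit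 6) (nat_lit 4) (nat_lit 7) (nat_lit 5) (nat_lit 7) (nat_lit 4) (nat_lit 253) (nat_lit 239) (nat_lit 108)))) (XT.nd (nat_lit 156) (nat_lit 76) (nat_lit 0) (XT.nd (nat_lit 78) (nat_lit 0) (nat_lit 0) (XT.lf (nat_lit 0) (nat_lit 372293180999) (nat_lit 152) (nat_lit 2014877429695) (nat_lit 76) (nat_lit 1288533474147) (nat_lit 5) (nat_lit 5) (nat_lit 7) (nat_lit 5) (nat_lit 6) (nat_lit 4) (nat_lit 254) (nat_lit 239) (nat_lit 107)) (XT.lf (nat_lit 0) (nat_lit 858084057554) (nat_lit 152) (nat_lit 970427048674) (nat_lit 76) (nat_lit 2272797014469) (nat_lit 5) (nat_lit 5) (nat_lit 7) (nat_lit 5) (nat_lit 6) (nat_lit 4) (nat_lit 255) (nat_lit 239) (nat_lit 106))) (XT.nd (nat_lit 78) (nat_lit 0) (nat_lit 0) (XT.lf (nat_lit 0) (nat_lit 253235677512) (nat_lit 76) (nat_lit 1173993835526) (nat_lit 152) (nat_lit 3161950356790) (nat_lit 4) (nat_lit 5) (nat_lit 5) (nat_lit 5) (nat_lit 6) (nat_lit 4)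 (nat_lit 256) (nat_lit 239) (nat_lit 105)) (XT.lf (nat_lit 0) (nat_lit 1769510576794) (nat_lit 76) (nat_lit 362963076701) (nat_lit 152) (nat_lit 3010149697850) (nat_lit 4) (nat_lit 5) (nat_lit 5) (nat_lit 5) (nat_lit 6) (nat_lit 4) (nat_lit 257) (nat_lit 239) (nat_lit 104))))) (XT.nd (nat_lit 234) (nat_lit 152) (nat_lit 0) (XT.nd (nat_lit 78) (nat_lit 76) (nat_lit 0) (XT.lf (nat_lit 0) (nat_lit 2967095398747) (nat_lit 152) (nat_lit 2289447632280) (nat_lit 0) (nat_lit 519001676513) (nat_lit 4) (nat_lit 5) (nat_lit 6) (nat_lit 4) (nat_lit 4) (nat_lit 4) (nat_lit 258) (nat_lit 239) (nat_lit 103)) (XT.nd (nat_lit 78) (nat_lit 76) (nat_lit 0) (XT.lf (nat_lit 0) (nat_lit 3944194360419) (nat_lit 152) (nat_lit 1060516677154) (nat_lit 0) (nat_lit 1496100636409) (nat_lit 4) (nat_lit 5) (nat_lit 6) (nat_lit 4) (nat_lit 4) (nat_lit 4) (nat_lit 259) (nat_lit 239) (nat_lit 102)) (XT.lf (nat_lit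 0) (nat_lit 387227597567) (nat_lit 76) (nat_lit 4696664836604) (nat_lit 76) (nat_lit 2248571111050) (nat_lit 3) (nat_lit 4) (nat_lit 4) (nat_lit 5) (nat_lit 4) (nat_lit 4) (nat_lit 260) (nat_lit 239) (nat_lit 101)))) (XT.nd (nat_lit 312) (nat_lit 152) (nat_lit 0) (XT.nd (nat_lit 234) (nat_lit 0) (nat_lit 0) (XT.lf (nat_lit 0) (nat_lit 2171321124384) (nat_lit 76) (nat_lit 4278660192492) (nat_lit 76) (nat_lit 1830566465595) (nat_lit 3) (nat_lit 4) (nat_lit 4) (nat_lit 5) (nat_lit 4) (nat_lit 4) (nat_lit 261) (nat_lit 239) (nat_lit 100)) (XT.lf (nat_lit 0) (nat_lit 9295875601243) (nat_lit 76) (nat_lit 2609410901533) (nat_lit 76) (nat_lit 161317171572) (nat_lit 3) (nat_lit 4) (nat_lit 4) (nat_lit 5) (nat_lit 4) (nat_lit 4) (nat_lit 264) (nat_lit 239) (nat_lit 97))) (XT.nd (nat_lit 312) (nat_lit 76) (nat_lit 0) (XT.lf (nat_lit 0) (nat_lit 519050200519) (nat_lit 152) (nat_lit 1332135799611)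 (nat_lit 76) (nat_lit 11870083952708) (nat_lit 2) (nat_lit 5) (nat_lit 4) (nat_lit 5) (nat_lit 3) (nat_lit 4) (nat_lit 265) (nat_lit 239) (nat_lit 96)) (XT.lf (nat_lit 0) (nat_lit 4777089604498) (nat_lit 152) (nat_lit 15726801795579) (nat_lit 0) (nat_lit 2648312445437) (nat_lit 1) (nat_lit 5) (nat_lit 3) (nat_lit 4) (nat_lit 1) (nat_lit 4) (nat_lit 269) (nat_lit 239) (nat_lit 92)))))) (XT.nd (nat_lit 29250) (nat_lit 0) (nat_lit 456) (XT.nd (nat_lit 28938) (nat_lit 0) (nat_lit 1064) (XT.nd (nat_lit 78) (nat_lit 0) (nat_lit 0) (XT.lf (nat_lit 0) (nat_lit 6317601490917) (nat_lit 152) (nat_lit 15941747166204) (nat_lit 0) (nat_lit 4188824331523) (nat_lit 1) (nat_lit 5) (nat_lit 3) (nat_lit 4) (nat_lit 1) (nat_lit 4) (nat_lit 270) (nat_lit 239) (nat_lit 91)) (XT.nd (nat_lit 78) (nat_lit 0) (nat_lit 0) (XT.lf (nat_lit 0) (nat_lit 8089190159965) (nat_lit 152) (nat_lit 16188934343047) (nat_lit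 0) (nat_lit 5960413000283) (nat_lit 1) (nat_lit 5) (nat_lit 3) (nat_lit 4) (nat_lit 1) (nat_lit 4) (nat_lit 271) (nat_lit 239) (nat_lit 90)) (XT.lf (nat_lit 0) (nat_lit 10126517129080) (nat_lit 152) (nat_lit 16473199596960) (nat_lit 0) (nat_lit 7997739969147) (nat_lit 1) (nat_lit 5) (nat_lit 3) (nat_lit 4) (nat_lit 1) (nat_lit 4) (nat_lit 272) (nat_lit 239) (nat_lit 89)))) (XT.nd (nat_lit 156) (nat_lit 0) (nat_lit 0) (XT.nd (nat_lit 78) (nat_lit 0) (nat_lit 0) (XT.lf (nat_lit 0) (nat_lit 235036646415) (nat_lit 0) (nat_lit 235036646415) (nat_lit 228) (nat_lit 80536419592) (nat_lit 15) (nat_lit 5) (nat_lit 15) (nat_lit 3) (nat_lit 18) (nat_lit 3) (nat_lit 240) (nat_lit 240) (nat_lit 120)) (XT.lf (nat_lit 0) (nat_lit 993727162192) (nat_lit 0) (nat_lit 16930461201) (nat_lit 228) (nat_lit 173153251078) (nat_lit 15) (nat_lit 5) (nat_lit 15) (nat_lit 3) (nat_lit 18) (nat_lit 3) (nat_lit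 241) (nat_lit 240) (nat_lit 119))) (XT.nd (nat_lit 78) (nat_lit 0) (nat_lit 0) (XT.lf (nat_lit 76) (nat_lit 325213658008) (nat_lit 0) (nat_lit 800875230978) (nat_lit 304) (nat_lit 147550616840) (nat_lit 16) (nat_lit 5) (nat_lit 15) (nat_lit 5) (nat_lit 19) (nat_lit 5) (nat_lit 242) (nat_lit 240) (nat_lit 118)) (XT.lf (nat_lit 76) (nat_lit 938283444562) (nat_lit 0) (nat_lit 331257153473) (nat_lit 304) (nat_lit 105795970911) (nat_lit 16) (nat_lit 5) (nat_lit 15) (nat_lit 5) (nat_lit 19) (nat_lit 5) (nat_lit 243) (nat_lit 240) (nat_lit 117))))) (XT.nd (nat_lit 312) (nat_lit 228) (nat_lit 0) (XT.nd (nat_lit 156) (nat_lit 152) (nat_lit 0) (XT.nd (nat_lit 78) (nat_lit 76) (nat_lit 0) (XT.lf (nat_lit 0) (nat_lit 156293738157) (nat_lit 228) (nat_lit 1293334223065) (nat_lit 304) (nat_lit 40392545736) (nat_lit 13) (nat_lit 5) (nat_lit 16) (nat_lit 5) (nat_lit 17) (nat_lit 5) (nat_lit 244) (nat_lit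 240) (nat_lit 116)) (XT.lf (nat_lit 0) (nat_lit 71429358066) (nat_lit 304) (nat_lit 749022638870) (nat_lit 76) (nat_lit 795282555947) (nat_lit 12) (nat_lit 5) (nat_lit 16) (nat_lit 5) (nat_lit 13) (nat_lit 5) (nat_lit 245) (nat_lit 240) (nat_lit 115))) (XT.nd (nat_lit 78) (nat_lit 152) (nat_lit 0) (XT.lf (nat_lit 0) (nat_lit 195889115207) (nat_lit 304) (nat_lit 78536349104) (nat_lit 76) (nat_lit 1485591724001) (nat_lit 12) (nat_lit 5) (nat_lit 16) (nat_lit 5) (nat_lit 13) (nat_lit 5) (nat_lit 246) (nat_lit 240) (nat_lit 114)) (XT.lf (nat_lit 0) (nat_lit 386633001805) (nat_lit 228) (nat_lit 1177156078277) (nat_lit 76) (nat_lit 355010864142) (nat_lit 10) (nat_lit 5) (nat_lit 13) (nat_lit 5) (nat_lit 11) (nat_lit 5) (nat_lit 247) (nat_lit 240) (nat_lit 113)))) (XT.nd (nat_lit 156) (nat_lit 76) (nat_lit 0) (XT.nd (nat_lit 78) (nat_lit 152) (nat_lit 0) (XT.lf (nat_lit 0) (nat_lit 623357146799)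 (nat_lit 228) (nat_lit 420370164214) (nat_lit 76) (nat_lit 1055067501243) (nat_lit 10) (nat_lit 5) (nat_lit 13) (nat_lit 5) (nat_lit 11) (nat_lit 5) (nat_lit 248) (nat_lit 240) (nat_lit 112)) (XT.lf (nat_lit 0) (nat_lit 493904419578) (nat_lit 152) (nat_lit 422137019319) (nat_lit 228) (nat_lit 1386679742833) (nat_lit 8) (nat_lit 5) (nat_lit 10) (nat_lit 5) (nat_lit 11) (nat_lit 5) (nat_lit 249) (nat_lit 240) (nat_lit 111))) (XT.nd (nat_lit 78) (nat_lit 76) (nat_lit 0) (XT.lf (nat_lit 0) (nat_lit 1287768386481) (nat_lit 228) (nat_lit 954542481684) (nat_lit 76) (nat_lit 289654636742) (nat_lit 8) (nat_lit 5) (nat_lit 11) (nat_lit 5) (nat_lit 9) (nat_lit 4) (nat_lit 250) (nat_lit 240) (nat_lit 110)) (XT.lf (nat_lit 0) (nat_lit 8530629779) (nat_lit 76) (nat_lit 1727178741683) (nat_lit 152) (nat_lit 1056818855840) (nat_lit 7) (nat_lit 5) (nat_lit 8) (nat_lit 5) (nat_lit 9) (nat_lit 4) (nat_lit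 251) (nat_lit 240) (nat_lit 109))))))) (XT.nd (nat_lit 1326) (nat_lit 0) (nat_lit 0) (XT.nd (nat_lit 546) (nat_lit 228) (nat_lit 0) (XT.nd (nat_lit 234) (nat_lit 152) (nat_lit 0) (XT.nd (nat_lit 78) (nat_lit 76) (nat_lit 0) (XT.lf (nat_lit 0) (nat_lit 1223342262689) (nat_lit 76) (nat_lit 1077395777769) (nat_lit 152) (nat_lit 783952837183) (nat_lit 7) (nat_lit 5) (nat_lit 8) (nat_lit 5) (nat_lit 9) (nat_lit 4) (nat_lit 252) (nat_lit 240) (nat_lit 108)) (XT.nd (nat_lit 78) (nat_lit 76) (nat_lit 0) (XT.lf (nat_lit 0) (nat_lit 2620375637295) (nat_lit 76) (nat_lit 330145370293) (nat_lit 152) (nat_lit 470156918299) (nat_lit 7) (nat_lit 5) (nat_lit 8) (nat_lit 5) (nat_lit 9) (nat_lit 4) (nat_lit 253) (nat_lit 240) (nat_lit 107)) (XT.lf (nat_lit 0) (nat_lit 436882552565) (nat_lit 76) (nat_lit 3300891977095) (nat_lit 76) (nat_lit 63288035245) (nat_lit 6) (nat_lit 4) (nat_lit 7) (nat_lit 5)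 (nat_lit 7) (nat_lit 4) (nat_lit 254) (nat_lit 240) (nat_lit 106)))) (XT.nd (nat_lit 156) (nat_lit 76) (nat_lit 0) (XT.nd (nat_lit 78) (nat_lit 0) (nat_lit 0) (XT.lf (nat_lit 0) (nat_lit 428137178951) (nat_lit 152) (nat_lit 2317109010209) (nat_lit 76) (nat_lit 1481813505130) (nat_lit 5) (nat_lit 5) (nat_lit 7) (nat_lit 5) (nat_lit 6) (nat_lit 4) (nat_lit 255) (nat_lit 240) (nat_lit 105)) (XT.lf (nat_lit 0) (nat_lit 986796684275) (nat_lit 152) (nat_lit 1115991076462) (nat_lit 76) (nat_lit 2613716575214) (nat_lit 5) (nat_lit 5) (nat_lit 7) (nat_lit 5) (nat_lit 6) (nat_lit 4) (nat_lit 256) (nat_lit 240) (nat_lit 104))) (XT.nd (nat_lit 78) (nat_lit 0) (nat_lit 0) (XT.lf (nat_lit 0) (nat_lit 291221057311) (nat_lit 76) (nat_lit 1350092899578) (nat_lit 152) (nat_lit 3636242890759) (nat_lit 4) (nat_lit 5) (nat_lit 5) (nat_lit 5) (nat_lit 6) (nat_lit 4) (nat_lit 257) (nat_lit 240) (nat_lit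 103)) (XT.lf (nat_lit 0) (nat_lit 2034937187810) (nat_lit 76) (nat_lit 417407528401) (nat_lit 152) (nat_lit 3461672135528) (nat_lit 4) (nat_lit 5) (nat_lit 5) (nat_lit 5) (nat_lit 6) (nat_lit 4) (nat_lit 258) (nat_lit 240) (nat_lit 102))))) (XT.nd (nat_lit 312) (nat_lit 152) (nat_lit 0) (XT.nd (nat_lit 156) (nat_lit 76) (nat_lit 0) (XT.nd (nat_lit 78) (nat_lit 0) (nat_lit 0) (XT.lf (nat_lit 0) (nat_lit 3412159721688) (nat_lit 152) (nat_lit 2632864754167) (nat_lit 0) (nat_lit 596851935757) (nat_lit 4) (nat_lit 5) (nat_lit 6) (nat_lit 4) (nat_lit 4) (nat_lit 4) (nat_lit 259) (nat_lit 240) (nat_lit 101)) (XT.lf (nat_lit 0) (nat_lit 4535823525898) (nat_lit 152) (nat_lit 1219594158765) (nat_lit 0) (nat_lit 1720515738624) (nat_lit 4) (nat_lit 5) (nat_lit 6) (nat_lit 4) (nat_lit 4) (nat_lit 4) (nat_lit 260) (nat_lit 240) (nat_lit 100))) (XT.nd (nat_lit 78) (nat_lit 0) (nat_lit 0) (XT.lf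 (nat_lit 0) (nat_lit 445311756257) (nat_lit 76) (nat_lit 5401164553756) (nat_lit 76) (nat_lit 2585856765315) (nat_lit 3) (nat_lit 4) (nat_lit 4) (nat_lit 5) (nat_lit 4) (nat_lit 4) (nat_lit 261) (nat_lit 240) (nat_lit 99)) (XT.lf (nat_lit 0) (nat_lit 2497019309610) (nat_lit 76) (nat_lit 4920459214115) (nat_lit 76) (nat_lit 2105151424659) (nat_lit 3) (nat_lit 4) (nat_lit 4) (nat_lit 5) (nat_lit 4) (nat_lit 4) (nat_lit 262) (nat_lit 240) (nat_lit 98)))) (XT.nd (nat_lit 156) (nat_lit 152) (nat_lit 0) (XT.nd (nat_lit 78) (nat_lit 0) (nat_lit 0) (XT.lf (nat_lit 0) (nat_lit 4856482994629) (nat_lit 76) (nat_lit 4367648074113) (nat_lit 76) (nat_lit 1552340283775) (nat_lit 3) (nat_lit 4) (nat_lit 4) (nat_lit 5) (nat_lit 4) (nat_lit 4) (nat_lit 263) (nat_lit 240) (nat_lit 97)) (XT.lf (nat_lit 0) (nat_lit 7569866231236) (nat_lit 76) (nat_lit 3731915263620) (nat_lit 76) (nat_lit 916607472514)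 (nat_lit 3) (nat_lit 4) (nat_lit 4) (nat_lit 5) (nat_lit 4) (nat_lit 4) (nat_lit 264) (nat_lit 240) (nat_lit 96))) (XT.nd (nat_lit 234) (nat_lit 152) (nat_lit 0) (XT.lf (nat_lit 0) (nat_lit 10690256952323) (nat_lit 76) (nat_lit 3000822531996) (nat_lit 76) (nat_lit 185514740223) (nat_lit 3) (nat_lit 4) (nat_lit 4) (nat_lit 5) (nat_lit 4) (nat_lit 4) (nat_lit 265) (nat_lit 240) (nat_lit 95)) (XT.lf (nat_lit 0) (nat_lit 2613565608935) (nat_lit 152) (nat_lit 17683967669629) (nat_lit 0) (nat_lit 165471875633) (nat_lit 1) (nat_lit 5) (nat_lit 3) (nat_lit 4) (nat_lit 1) (nat_lit 4) (nat_lit 268) (nat_lit 240) (nat_lit 92)))))) (XT.nd (nat_lit 29406) (nat_lit 0) (nat_lit 456) (XT.nd (nat_lit 29094) (nat_lit 0) (nat_lit 1064) (XT.nd (nat_lit 78) (nat_lit 0) (nat_lit 0) (XT.lf (nat_lit 0) (nat_lit 3953141162497) (nat_lit 152) (nat_lit 17870876687272) (nat_lit 0) (nat_lit 1505047428863) (nat_lit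 1) (nat_lit 5) (nat_lit 3) (nat_lit 4) (nat_lit 1) (nat_lit 4) (nat_lit 269) (nat_lit 240) (nat_lit 91)) (XT.nd (nat_lit 78) (nat_lit 0) (nat_lit 0) (XT.lf (nat_lit 0) (nat_lit 5493653048761) (nat_lit 152) (nat_lit 18085822058188) (nat_lit 0) (nat_lit 3045559314838) (nat_lit 1) (nat_lit 5) (nat_lit 3) (nat_lit 4) (nat_lit 1) (nat_lit 4) (nat_lit 270) (nat_lit 240) (nat_lit 90)) (XT.lf (nat_lit 0) (nat_lit 7265241717674) (nat_lit 152) (nat_lit 18333009235284) (nat_lit 0) (nat_lit 4817147983500) (nat_lit 1) (nat_lit 5) (nat_lit 3) (nat_lit 4) (nat_lit 1) (nat_lit 4) (nat_lit 271) (nat_lit 240) (nat_lit 89)))) (XT.nd (nat_lit 156) (nat_lit 0) (nat_lit 0) (XT.nd (nat_lit 78) (nat_lit 0) (nat_lit 0) (XT.lf (nat_lit 0) (nat_lit 270292164374) (nat_lit 0) (nat_lit 270292164374) (nat_lit 228) (nat_lit 92616833599) (nat_lit 15) (nat_lit 5) (nat_lit 15) (nat_lit 3) (nat_lit 18) (nat_lit 3) (nat_lit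 241) (nat_lit 241) (nat_lit 118)) (XT.lf (nat_lit 0) (nat_lit 1142786273035) (nat_lit 0) (nat_lit 19470066896) (nat_lit 228) (nat_lit 199126153640) (nat_lit 15) (nat_lit 5) (nat_lit 15) (nat_lit 3) (nat_lit 18) (nat_lit 3) (nat_lit 242) (nat_lit 241) (nat_lit 117))) (XT.nd (nat_lit 78) (nat_lit 0) (nat_lit 0) (XT.lf (nat_lit 76) (nat_lit 373995754530) (nat_lit 0) (nat_lit 921006531974) (nat_lit 304) (nat_lit 169683134601) (nat_lit 16) (nat_lit 5) (nat_lit 15) (nat_lit 5) (nat_lit 19) (nat_lit 5) (nat_lit 243) (nat_lit 241) (nat_lit 116)) (XT.lf (nat_lit 76) (nat_lit 1079026002829) (nat_lit 0) (nat_lit 380945740711) (nat_lit 304) (nat_lit 121665301535) (nat_lit 16) (nat_lit 5) (nat_lit 15) (nat_lit 5) (nat_lit 19) (nat_lit 5) (nat_lit 244) (nat_lit 241) (nat_lit 115))))) (XT.nd (nat_lit 312) (nat_lit 228) (nat_lit 0) (XT.nd (nat_lit 156) (nat_lit 152) (nat_lit 0) (XT.nd (nat_lit 78)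 (nat_lit 76) (nat_lit 0) (XT.lf (nat_lit 0) (nat_lit 179737847930) (nat_lit 228) (nat_lit 1487334357516) (nat_lit 304) (nat_lit 46451369316) (nat_lit 13) (nat_lit 5) (nat_lit 16) (nat_lit 5) (nat_lit 17) (nat_lit 5) (nat_lit 245) (nat_lit 241) (nat_lit 114)) (XT.lf (nat_lit 0) (nat_lit 82143807943) (nat_lit 304) (nat_lit 861375986982) (nat_lit 76) (nat_lit 914574933411) (nat_lit 12) (nat_lit 5) (nat_lit 16) (nat_lit 5) (nat_lit 13) (nat_lit 5) (nat_lit 246) (nat_lit 241) (nat_lit 113))) (XT.nd (nat_lit 78) (nat_lit 152) (nat_lit 0) (XT.lf (nat_lit 0) (nat_lit 225272522632) (nat_lit 304) (nat_lit 90316759976) (nat_lit 76) (nat_lit 1708430477447) (nat_lit 12) (nat_lit 5) (nat_lit 16) (nat_lit 5) (nat_lit 13) (nat_lit 5) (nat_lit 247) (nat_lit 241) (nat_lit 112)) (XT.lf (nat_lit 0) (nat_lit 444627988751) (nat_lit 228) (nat_lit 1353729444635) (nat_lit 76) (nat_lit 408262496551) (nat_lit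 10) (nat_lit 5) (nat_lit 13) (nat_lit 5) (nat_lit 11) (nat_lit 5) (nat_lit 248) (nat_lit 241) (nat_lit 111)))) (XT.nd (nat_lit 156) (nat_lit 76) (nat_lit 0) (XT.nd (nat_lit 78) (nat_lit 152) (nat_lit 0) (XT.lf (nat_lit 0) (nat_lit 716860750711) (nat_lit 228) (nat_lit 483425649383) (nat_lit 76) (nat_lit 1213327628853) (nat_lit 10) (nat_lit 5) (nat_lit 13) (nat_lit 5) (nat_lit 11) (nat_lit 5) (nat_lit 249) (nat_lit 241) (nat_lit 110)) (XT.lf (nat_lit 0) (nat_lit 567990120184) (nat_lit 152) (nat_lit 485457563839) (nat_lit 228) (nat_lit 1594681670255) (nat_lit 8) (nat_lit 5) (nat_lit 10) (nat_lit 5) (nat_lit 11) (nat_lit 5) (nat_lit 250) (nat_lit 241) (nat_lit 109))) (XT.nd (nat_lit 78) (nat_lit 76) (nat_lit 0) (XT.lf (nat_lit 0) (nat_lit 1480933670226) (nat_lit 228) (nat_lit 1097723817385) (nat_lit 76) (nat_lit 333102838890) (nat_lit 8) (nat_lit 5) (nat_lit 11) (nat_lit 5) (nat_lit 9)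 (nat_lit 4) (nat_lit 251) (nat_lit 241) (nat_lit 108)) (XT.lf (nat_lit 0) (nat_lit 9810259136) (nat_lit 76) (nat_lit 1986255541902) (nat_lit 152) (nat_lit 1215341656542) (nat_lit 7) (nat_lit 5) (nat_lit 8) (nat_lit 5) (nat_lit 9) (nat_lit 4) (nat_lit 252) (nat_lit 241) (nat_lit 107))))))))
noncomputable def xc61 : XT := (XT.nd (nat_lit 31590) (nat_lit 0) (nat_lit 76) (XT.nd (nat_lit 30420) (nat_lit 0) (nat_lit 380) (XT.nd (nat_lit 546) (nat_lit 228) (nat_lit 0) (XT.nd (nat_lit 234) (nat_lit 152) (nat_lit 0) (XT.nd (nat_lit 78) (nat_lit 76) (nat_lit 0) (XT.lf (nat_lit 0) (nat_lit 1406843632431) (nat_lit 76) (nat_lit 1239005134840) (nat_lit 152) (nat_lit 901545738697) (nat_lit 7) (nat_lit 5) (nat_lit 8) (nat_lit 5) (nat_lit 9) (nat_lit 4) (nat_lit 253) (nat_lit 241) (nat_lit 106)) (XT.nd (nat_lit 78) (nat_lit 76) (nat_lit 0) (XT.lf (nat_lit 0) (nat_lit 3013432009271) (nat_lit 76) (nat_lit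 379667167494) (nat_lit 152) (nat_lit 540680435118) (nat_lit 7) (nat_lit 5) (nat_lit 8) (nat_lit 5) (nat_lit 9) (nat_lit 4) (nat_lit 254) (nat_lit 241) (nat_lit 105)) (XT.lf (nat_lit 0) (nat_lit 502414963059) (nat_lit 76) (nat_lit 3796025763180) (nat_lit 76) (nat_lit 72781220676) (nat_lit 6) (nat_lit 4) (nat_lit 7) (nat_lit 5) (nat_lit 7) (nat_lit 4) (nat_lit 255) (nat_lit 241) (nat_lit 104)))) (XT.nd (nat_lit 156) (nat_lit 76) (nat_lit 0) (XT.nd (nat_lit 78) (nat_lit 0) (nat_lit 0) (XT.lf (nat_lit 0) (nat_lit 492357771523) (nat_lit 152) (nat_lit 2664675336076) (nat_lit 76) (nat_lit 1704085538356) (nat_lit 5) (nat_lit 5) (nat_lit 7) (nat_lit 5) (nat_lit 6) (nat_lit 4) (nat_lit 256) (nat_lit 241) (nat_lit 103)) (XT.lf (nat_lit 0) (nat_lit 1134816200594) (nat_lit 152) (nat_lit 1283389715615) (nat_lit 76) (nat_lit 3005774067980) (nat_lit 5) (nat_lit 5) (nat_lit 7) (nat_lit 5) (nat_lit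 6) (nat_lit 4) (nat_lit 257) (nat_lit 241) (nat_lit 102))) (XT.nd (nat_lit 78) (nat_lit 0) (nat_lit 0) (XT.lf (nat_lit 0) (nat_lit 334904237210) (nat_lit 76) (nat_lit 1552606825989) (nat_lit 152) (nat_lit 4181679309591) (nat_lit 4) (nat_lit 5) (nat_lit 5) (nat_lit 5) (nat_lit 6) (nat_lit 4) (nat_lit 258) (nat_lit 241) (nat_lit 101)) (XT.lf (nat_lit 0) (nat_lit 2340177784506) (nat_lit 76) (nat_lit 480018650246) (nat_lit 152) (nat_lit 3980922943003) (nat_lit 4) (nat_lit 5) (nat_lit 5) (nat_lit 5) (nat_lit 6) (nat_lit 4) (nat_lit 259) (nat_lit 241) (nat_lit 100))))) (XT.nd (nat_lit 312) (nat_lit 152) (nat_lit 0) (XT.nd (nat_lit 156) (nat_lit 76) (nat_lit 0) (XT.nd (nat_lit 78) (nat_lit 0) (nat_lit 0) (XT.lf (nat_lit 0) (nat_lit 3923983689869) (nat_lit 152) (nat_lit 3027794449934) (nat_lit 0) (nat_lit 686379731994) (nat_lit 4) (nat_lit 5) (nat_lit 6) (nat_lit 4) (nat_lit 4) (nat_lit 4)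 (nat_lit 260) (nat_lit 241) (nat_lit 99)) (XT.lf (nat_lit 0) (nat_lit 5216197063415) (nat_lit 152) (nat_lit 1402533267486) (nat_lit 0) (nat_lit 1978593104525) (nat_lit 4) (nat_lit 5) (nat_lit 6) (nat_lit 4) (nat_lit 4) (nat_lit 4) (nat_lit 261) (nat_lit 241) (nat_lit 98))) (XT.nd (nat_lit 78) (nat_lit 0) (nat_lit 0) (XT.lf (nat_lit 0) (nat_lit 512108534103) (nat_lit 76) (nat_lit 6211339230515) (nat_lit 76) (nat_lit 2973735270743) (nat_lit 3) (nat_lit 4) (nat_lit 4) (nat_lit 5) (nat_lit 4) (nat_lit 4) (nat_lit 262) (nat_lit 241) (nat_lit 97)) (XT.lf (nat_lit 0) (nat_lit 2871572218580) (nat_lit 76) (nat_lit 5658528090750) (nat_lit 76) (nat_lit 2420924130210) (nat_lit 3) (nat_lit 4) (nat_lit 4) (nat_lit 5) (nat_lit 4) (nat_lit 4) (nat_lit 263) (nat_lit 241) (nat_lit 96)))) (XT.nd (nat_lit 390) (nat_lit 0) (nat_lit 0) (XT.nd (nat_lit 312) (nat_lit 152) (nat_lit 0) (XT.lf (nat_lit 0) (nat_lit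 5584955454717) (nat_lit 76) (nat_lit 5022795280463) (nat_lit 76) (nat_lit 1785191319256) (nat_lit 3) (nat_lit 4) (nat_lit 4) (nat_lit 5) (nat_lit 4) (nat_lit 4) (nat_lit 264) (nat_lit 241) (nat_lit 95)) (XT.lf (nat_lit 0) (nat_lit 456665855647) (nat_lit 76) (nat_lit 1261599176333) (nat_lit 152) (nat_lit 18940294750601) (nat_lit 1) (nat_lit 5) (nat_lit 2) (nat_lit 5) (nat_lit 3) (nat_lit 4) (nat_lit 268) (nat_lit 241) (nat_lit 91))) (XT.nd (nat_lit 78) (nat_lit 0) (nat_lit 0) (XT.lf (nat_lit 0) (nat_lit 3005600453863) (nat_lit 152) (nat_lit 20336562813345) (nat_lit 0) (nat_lit 190292659564) (nat_lit 1) (nat_lit 5) (nat_lit 3) (nat_lit 4) (nat_lit 1) (nat_lit 4) (nat_lit 269) (nat_lit 241) (nat_lit 90)) (XT.lf (nat_lit 0) (nat_lit 4546112339992) (nat_lit 152) (nat_lit 20551508184513) (nat_lit 0) (nat_lit 1730804545441) (nat_lit 1) (nat_lit 5) (nat_lit 3) (nat_lit 4) (nat_lit 1) (nat_lit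 4) (nat_lit 270) (nat_lit 241) (nat_lit 89)))))) (XT.nd (nat_lit 546) (nat_lit 456) (nat_lit 0) (XT.nd (nat_lit 234) (nat_lit 228) (nat_lit 0) (XT.nd (nat_lit 78) (nat_lit 0) (nat_lit 0) (XT.lf (nat_lit 0) (nat_lit 310836004906) (nat_lit 0) (nat_lit 310836004906) (nat_lit 228) (nat_lit 106509321639) (nat_lit 15) (nat_lit 5) (nat_lit 15) (nat_lit 3) (nat_lit 18) (nat_lit 3) (nat_lit 242) (nat_lit 242) (nat_lit 116)) (XT.nd (nat_lit 78) (nat_lit 0) (nat_lit 0) (XT.lf (nat_lit 0) (nat_lit 1314204241601) (nat_lit 0) (nat_lit 22390604541) (nat_lit 228) (nat_lit 228995012338) (nat_lit 15) (nat_lit 5) (nat_lit 15) (nat_lit 3) (nat_lit 18) (nat_lit 3) (nat_lit 243) (nat_lit 242) (nat_lit 115)) (XT.lf (nat_lit 76) (nat_lit 430095153868) (nat_lit 0) (nat_lit 1059157524133) (nat_lit 304) (nat_lit 195135548258) (nat_lit 16) (nat_lit 5) (nat_lit 15) (nat_lit 5) (nat_lit 19) (nat_lit 5) (nat_lit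 244) (nat_lit 242) (nat_lit 114)))) (XT.nd (nat_lit 156) (nat_lit 76) (nat_lit 0) (XT.nd (nat_lit 78) (nat_lit 152) (nat_lit 0) (XT.lf (nat_lit 76) (nat_lit 1240879934696) (nat_lit 0) (nat_lit 438087612567) (nat_lit 304) (nat_lit 139915047606) (nat_lit 16) (nat_lit 5) (nat_lit 15) (nat_lit 5) (nat_lit 19) (nat_lit 5) (nat_lit 245) (nat_lit 242) (nat_lit 113)) (XT.lf (nat_lit 0) (nat_lit 206698562208) (nat_lit 228) (nat_lit 1710434511893) (nat_lit 304) (nat_lit 53419030645) (nat_lit 13) (nat_lit 5) (nat_lit 16) (nat_lit 5) (nat_lit 17) (nat_lit 5) (nat_lit 246) (nat_lit 242) (nat_lit 112))) (XT.nd (nat_lit 78) (nat_lit 0) (nat_lit 0) (XT.lf (nat_lit 0) (nat_lit 94465414043) (nat_lit 304) (nat_lit 990582348948) (nat_lit 76) (nat_lit 1051761168940) (nat_lit 12) (nat_lit 5) (nat_lit 16) (nat_lit 5) (nat_lit 13) (nat_lit 5) (nat_lit 247) (nat_lit 242) (nat_lit 111)) (XT.lf (nat_lit 0)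 (nat_lit 259063431383) (nat_lit 304) (nat_lit 103864242596) (nat_lit 76) (nat_lit 1964695045166) (nat_lit 12) (nat_lit 5) (nat_lit 16) (nat_lit 5) (nat_lit 13) (nat_lit 5) (nat_lit 248) (nat_lit 242) (nat_lit 110))))) (XT.nd (nat_lit 312) (nat_lit 152) (nat_lit 0) (XT.nd (nat_lit 156) (nat_lit 152) (nat_lit 0) (XT.nd (nat_lit 78) (nat_lit 0) (nat_lit 0) (XT.lf (nat_lit 0) (nat_lit 511322214796) (nat_lit 228) (nat_lit 1556788827014) (nat_lit 76) (nat_lit 469501873141) (nat_lit 10) (nat_lit 5) (nat_lit 13) (nat_lit 5) (nat_lit 11) (nat_lit 5) (nat_lit 249) (nat_lit 242) (nat_lit 109)) (XT.lf (nat_lit 0) (nat_lit 824389887432) (nat_lit 228) (nat_lit 555939466950) (nat_lit 76) (nat_lit 1395326775013) (nat_lit 10) (nat_lit 5) (nat_lit 13) (nat_lit 5) (nat_lit 11) (nat_lit 5) (nat_lit 250) (nat_lit 242) (nat_lit 108))) (XT.nd (nat_lit 78) (nat_lit 0) (nat_lit 0) (XT.lf (nat_lit 0) (nat_lit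 653188666696) (nat_lit 152) (nat_lit 558276192080) (nat_lit 228) (nat_lit 1833883895083) (nat_lit 8) (nat_lit 5) (nat_lit 10) (nat_lit 5) (nat_lit 11) (nat_lit 5) (nat_lit 251) (nat_lit 242) (nat_lit 107)) (XT.lf (nat_lit 0) (nat_lit 1703073740248) (nat_lit 228) (nat_lit 1262382362355) (nat_lit 76) (nat_lit 383068269742) (nat_lit 8) (nat_lit 5) (nat_lit 11) (nat_lit 5) (nat_lit 9) (nat_lit 4) (nat_lit 252) (nat_lit 242) (nat_lit 106)))) (XT.nd (nat_lit 156) (nat_lit 76) (nat_lit 0) (XT.nd (nat_lit 78) (nat_lit 0) (nat_lit 0) (XT.lf (nat_lit 0) (nat_lit 11281824388) (nat_lit 76) (nat_lit 2284193864844) (nat_lit 152) (nat_lit 1397642884098) (nat_lit 7) (nat_lit 5) (nat_lit 8) (nat_lit 5) (nat_lit 9) (nat_lit 4) (nat_lit 253) (nat_lit 242) (nat_lit 105)) (XT.lf (nat_lit 0) (nat_lit 1617870200236) (nat_lit 76) (nat_lit 1424855897811) (nat_lit 152) (nat_lit 1036777581305) (nat_lit 7) (nat_lit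 5) (nat_lit 8) (nat_lit 5) (nat_lit 9) (nat_lit 4) (nat_lit 254) (nat_lit 242) (nat_lit 104))) (XT.nd (nat_lit 78) (nat_lit 76) (nat_lit 0) (XT.lf (nat_lit 0) (nat_lit 3465446830610) (nat_lit 76) (nat_lit 436617236309) (nat_lit 152) (nat_lit 621782484563) (nat_lit 7) (nat_lit 5) (nat_lit 8) (nat_lit 5) (nat_lit 9) (nat_lit 4) (nat_lit 255) (nat_lit 242) (nat_lit 103)) (XT.lf (nat_lit 0) (nat_lit 577777228394) (nat_lit 76) (nat_lit 4365429619733) (nat_lit 76) (nat_lit 83698388763) (nat_lit 6) (nat_lit 4) (nat_lit 7) (nat_lit 5) (nat_lit 7) (nat_lit 4) (nat_lit 256) (nat_lit 242) (nat_lit 102))))))) (XT.nd (nat_lit 30732) (nat_lit 0) (nat_lit 152) (XT.nd (nat_lit 858) (nat_lit 76) (nat_lit 0) (XT.nd (nat_lit 234) (nat_lit 76) (nat_lit 0) (XT.nd (nat_lit 78) (nat_lit 76) (nat_lit 0) (XT.lf (nat_lit 0) (nat_lit 566211449145) (nat_lit 152) (nat_lit 3064376617082) (nat_lit 76) (nat_lit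 1959698374747) (nat_lit 5) (nat_lit 5) (nat_lit 7) (nat_lit 5) (nat_lit 6) (nat_lit 4) (nat_lit 257) (nat_lit 242) (nat_lit 101)) (XT.nd (nat_lit 78) (nat_lit 76) (nat_lit 0) (XT.lf (nat_lit 0) (nat_lit 1305038641025) (nat_lit 152) (nat_lit 1475898156082) (nat_lit 76) (nat_lit 3456640183079) (nat_lit 5) (nat_lit 5) (nat_lit 7) (nat_lit 5) (nat_lit 6) (nat_lit 4) (nat_lit 258) (nat_lit 242) (nat_lit 100)) (XT.lf (nat_lit 0) (nat_lit 385139888899) (nat_lit 76) (nat_lit 1785497843440) (nat_lit 152) (nat_lit 4808931194852) (nat_lit 4) (nat_lit 5) (nat_lit 5) (nat_lit 5) (nat_lit 6) (nat_lit 4) (nat_lit 259) (nat_lit 242) (nat_lit 99)))) (XT.nd (nat_lit 156) (nat_lit 76) (nat_lit 0) (XT.nd (nat_lit 78) (nat_lit 0) (nat_lit 0) (XT.lf (nat_lit 0) (nat_lit 2691204466188) (nat_lit 76) (nat_lit 552021442177) (nat_lit 152) (nat_lit 4578061374734) (nat_lit 4) (nat_lit 5) (nat_lit 5) (nat_lit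 5) (nat_lit 6) (nat_lit 4) (nat_lit 260) (nat_lit 242) (nat_lit 98)) (XT.lf (nat_lit 0) (nat_lit 4512581250855) (nat_lit 152) (nat_lit 3481963604299) (nat_lit 0) (nat_lit 789336696235) (nat_lit 4) (nat_lit 5) (nat_lit 6) (nat_lit 4) (nat_lit 4) (nat_lit 4) (nat_lit 261) (nat_lit 242) (nat_lit 97))) (XT.nd (nat_lit 78) (nat_lit 76) (nat_lit 0) (XT.lf (nat_lit 0) (nat_lit 5998626629454) (nat_lit 152) (nat_lit 1612913246196) (nat_lit 0) (nat_lit 2275382074066) (nat_lit 4) (nat_lit 5) (nat_lit 6) (nat_lit 4) (nat_lit 4) (nat_lit 4) (nat_lit 262) (nat_lit 242) (nat_lit 96)) (XT.lf (nat_lit 0) (nat_lit 588924825113) (nat_lit 76) (nat_lit 7143040110325) (nat_lit 76) (nat_lit 3419795554269) (nat_lit 3) (nat_lit 4) (nat_lit 4) (nat_lit 5) (nat_lit 4) (nat_lit 4) (nat_lit 263) (nat_lit 242) (nat_lit 95))))) (XT.nd (nat_lit 29562) (nat_lit 0) (nat_lit 760) (XT.nd (nat_lit 29406) (nat_lit 0)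 (nat_lit 988) (XT.nd (nat_lit 29328) (nat_lit 0) (nat_lit 988) (XT.lf (nat_lit 0) (nat_lit 789410489227) (nat_lit 152) (nat_lit 2026012006454) (nat_lit 76) (nat_lit 18052913941435) (nat_lit 2) (nat_lit 5) (nat_lit 4) (nat_lit 5) (nat_lit 3) (nat_lit 4) (nat_lit 268) (nat_lit 242) (nat_lit 90)) (XT.lf (nat_lit 0) (nat_lit 357461417646) (nat_lit 0) (nat_lit 357461417646) (nat_lit 228) (nat_lit 122485691907) (nat_lit 15) (nat_lit 5) (nat_lit 15) (nat_lit 3) (nat_lit 18) (nat_lit 3) (nat_lit 243) (nat_lit 243) (nat_lit 114))) (XT.nd (nat_lit 78) (nat_lit 0) (nat_lit 0) (XT.lf (nat_lit 0) (nat_lit 1511334898718) (nat_lit 0) (nat_lit 25749216100) (nat_lit 228) (nat_lit 263344215533) (nat_lit 15) (nat_lit 5) (nat_lit 15) (nat_lit 3) (nat_lit 18) (nat_lit 3) (nat_lit 244) (nat_lit 243) (nat_lit 113)) (XT.lf (nat_lit 76) (nat_lit 494609454290) (nat_lit 0) (nat_lit 1218031162100) (nat_lit 304)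 (nat_lit 224405837749) (nat_lit 16) (nat_lit 5) (nat_lit 15) (nat_lit 5) (nat_lit 19) (nat_lit 5) (nat_lit 245) (nat_lit 243) (nat_lit 112)))) (XT.nd (nat_lit 156) (nat_lit 76) (nat_lit 0) (XT.nd (nat_lit 78) (nat_lit 152) (nat_lit 0) (XT.lf (nat_lit 76) (nat_lit 1427011948675) (nat_lit 0) (nat_lit 503800762581) (nat_lit 304) (nat_lit 160902267576) (nat_lit 16) (nat_lit 5) (nat_lit 15) (nat_lit 5) (nat_lit 19) (nat_lit 5) (nat_lit 246) (nat_lit 243) (nat_lit 111)) (XT.lf (nat_lit 0) (nat_lit 237703374583) (nat_lit 228) (nat_lit 1966999689243) (nat_lit 304) (nat_lit 61431851920) (nat_lit 13) (nat_lit 5) (nat_lit 16) (nat_lit 5) (nat_lit 17) (nat_lit 5) (nat_lit 247) (nat_lit 243) (nat_lit 110))) (XT.nd (nat_lit 78) (nat_lit 0) (nat_lit 0) (XT.lf (nat_lit 0) (nat_lit 108635252545) (nat_lit 304) (nat_lit 1139169674007) (nat_lit 76) (nat_lit 1209525340892) (nat_lit 12) (nat_lit 5) (nat_lit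 16) (nat_lit 5) (nat_lit 13) (nat_lit 5) (nat_lit 248) (nat_lit 243) (nat_lit 109)) (XT.lf (nat_lit 0) (nat_lit 297922969043) (nat_lit 304) (nat_lit 119443855262) (nat_lit 76) (nat_lit 2259399298993) (nat_lit 12) (nat_lit 5) (nat_lit 16) (nat_lit 5) (nat_lit 13) (nat_lit 5) (nat_lit 249) (nat_lit 243) (nat_lit 108)))))) (XT.nd (nat_lit 546) (nat_lit 228) (nat_lit 0) (XT.nd (nat_lit 234) (nat_lit 76) (nat_lit 0) (XT.nd (nat_lit 78) (nat_lit 152) (nat_lit 0) (XT.lf (nat_lit 0) (nat_lit 588020567984) (nat_lit 228) (nat_lit 1790307125118) (nat_lit 76) (nat_lit 539927155705) (nat_lit 10) (nat_lit 5) (nat_lit 13) (nat_lit 5) (nat_lit 11) (nat_lit 5) (nat_lit 250) (nat_lit 243) (nat_lit 107)) (XT.nd (nat_lit 78) (nat_lit 152) (nat_lit 0) (XT.lf (nat_lit 0) (nat_lit 948048388781) (nat_lit 228) (nat_lit 639330364429) (nat_lit 76) (nat_lit 1604625792651) (nat_lit 10) (nat_lit 5) (nat_lit 13)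 (nat_lit 5) (nat_lit 11) (nat_lit 5) (nat_lit 251) (nat_lit 243) (nat_lit 106)) (XT.lf (nat_lit 0) (nat_lit 751166988238) (nat_lit 152) (nat_lit 642017616101) (nat_lit 228) (nat_lit 2108966459904) (nat_lit 8) (nat_lit 5) (nat_lit 10) (nat_lit 5) (nat_lit 11) (nat_lit 5) (nat_lit 252) (nat_lit 243) (nat_lit 105)))) (XT.nd (nat_lit 156) (nat_lit 0) (nat_lit 0) (XT.nd (nat_lit 78) (nat_lit 76) (nat_lit 0) (XT.lf (nat_lit 0) (nat_lit 1958534816021) (nat_lit 228) (nat_lit 1451739695810) (nat_lit 76) (nat_lit 440528513998) (nat_lit 8) (nat_lit 5) (nat_lit 11) (nat_lit 5) (nat_lit 9) (nat_lit 4) (nat_lit 253) (nat_lit 243) (nat_lit 104)) (XT.lf (nat_lit 0) (nat_lit 12974117994) (nat_lit 76) (nat_lit 2626822938261) (nat_lit 152) (nat_lit 1607289300890) (nat_lit 7) (nat_lit 5) (nat_lit 8) (nat_lit 5) (nat_lit 9) (nat_lit 4) (nat_lit 254) (nat_lit 243) (nat_lit 103))) (XT.nd (nat_lit 78) (nat_lit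 0) (nat_lit 0) (XT.lf (nat_lit 0) (nat_lit 1860550747618) (nat_lit 76) (nat_lit 1638584276996) (nat_lit 152) (nat_lit 1192294204742) (nat_lit 7) (nat_lit 5) (nat_lit 8) (nat_lit 5) (nat_lit 9) (nat_lit 4) (nat_lit 255) (nat_lit 243) (nat_lit 102)) (XT.lf (nat_lit 0) (nat_lit 3985263870285) (nat_lit 76) (nat_lit 502109816985) (nat_lit 152) (nat_lit 715049845283) (nat_lit 7) (nat_lit 5) (nat_lit 8) (nat_lit 5) (nat_lit 9) (nat_lit 4) (nat_lit 256) (nat_lit 243) (nat_lit 101))))) (XT.nd (nat_lit 312) (nat_lit 0) (nat_lit 0) (XT.nd (nat_lit 156) (nat_lit 76) (nat_lit 0) (XT.nd (nat_lit 78) (nat_lit 76) (nat_lit 0) (XT.lf (nat_lit 0) (nat_lit 664443828439) (nat_lit 76) (nat_lit 5020244056701) (nat_lit 76) (nat_lit 96253135725) (nat_lit 6) (nat_lit 4) (nat_lit 7) (nat_lit 5) (nat_lit 7) (nat_lit 4) (nat_lit 257) (nat_lit 243) (nat_lit 100)) (XT.lf (nat_lit 0) (nat_lit 651143175510) (nat_lit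 152) (nat_lit 3524033094971) (nat_lit 76) (nat_lit 2253653135222) (nat_lit 5) (nat_lit 5) (nat_lit 7) (nat_lit 5) (nat_lit 6) (nat_lit 4) (nat_lit 258) (nat_lit 243) (nat_lit 99))) (XT.nd (nat_lit 78) (nat_lit 76) (nat_lit 0) (XT.lf (nat_lit 0) (nat_lit 1500794444999) (nat_lit 152) (nat_lit 1697282866735) (nat_lit 76) (nat_lit 3975136214248) (nat_lit 5) (nat_lit 5) (nat_lit 7) (nat_lit 5) (nat_lit 6) (nat_lit 4) (nat_lit 259) (nat_lit 243) (nat_lit 98)) (XT.lf (nat_lit 0) (nat_lit 442910884414) (nat_lit 76) (nat_lit 2053322515081) (nat_lit 152) (nat_lit 5530270865629) (nat_lit 4) (nat_lit 5) (nat_lit 5) (nat_lit 5) (nat_lit 6) (nat_lit 4) (nat_lit 260) (nat_lit 243) (nat_lit 97)))) (XT.nd (nat_lit 156) (nat_lit 0) (nat_lit 0) (XT.nd (nat_lit 78) (nat_lit 0) (nat_lit 0) (XT.lf (nat_lit 0) (nat_lit 3094885146707) (nat_lit 76) (nat_lit 634824654264) (nat_lit 152) (nat_lit 5264770573595)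 (nat_lit 4) (nat_lit 5) (nat_lit 5) (nat_lit 5) (nat_lit 6) (nat_lit 4) (nat_lit 261) (nat_lit 243) (nat_lit 96)) (XT.lf (nat_lit 0) (nat_lit 5189468444160) (nat_lit 152) (nat_lit 4004258135020) (nat_lit 0) (nat_lit 907737204028) (nat_lit 4) (nat_lit 5) (nat_lit 6) (nat_lit 4) (nat_lit 4) (nat_lit 4) (nat_lit 262) (nat_lit 243) (nat_lit 95))) (XT.nd (nat_lit 29796) (nat_lit 0) (nat_lit 836) (XT.lf (nat_lit 0) (nat_lit 6898420628808) (nat_lit 152) (nat_lit 1854850224496) (nat_lit 0) (nat_lit 2616689388096) (nat_lit 4) (nat_lit 5) (nat_lit 6) (nat_lit 4) (nat_lit 4) (nat_lit 4) (nat_lit 263) (nat_lit 243) (nat_lit 94)) (XT.lf (nat_lit 0) (nat_lit 411080639370) (nat_lit 0) (nat_lit 411080639370) (nat_lit 228) (nat_lit 140858524539) (nat_lit 15) (nat_lit 5) (nat_lit 15) (nat_lit 3) (nat_lit 18) (nat_lit 3) (nat_lit 244) (nat_lit 244) (nat_lit 112))))))))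
noncomputable def xc62 : XT := (XT.nd (nat_lit 32136) (nat_lit 0) (nat_lit 76) (XT.nd (nat_lit 1092) (nat_lit 152) (nat_lit 0) (XT.nd (nat_lit 546) (nat_lit 304) (nat_lit 0) (XT.nd (nat_lit 234) (nat_lit 380) (nat_lit 0) (XT.nd (nat_lit 78) (nat_lit 0) (nat_lit 0) (XT.lf (nat_lit 0) (nat_lit 1738035149313) (nat_lit 0) (nat_lit 29611614301) (nat_lit 228) (nat_lit 302845811072) (nat_lit 15) (nat_lit 5) (nat_lit 15) (nat_lit 3) (nat_lit 18) (nat_lit 3) (nat_lit 245) (nat_lit 244) (nat_lit 111)) (XT.nd (nat_lit 78) (nat_lit 0) (nat_lit 0) (XT.lf (nat_lit 76) (nat_lit 568800893107) (nat_lit 0) (nat_lit 1400735843484) (nat_lit 304) (nat_lit 258066681089) (nat_lit 16) (nat_lit 5) (nat_lit 15) (nat_lit 5) (nat_lit 19) (nat_lit 5) (nat_lit 246) (nat_lit 244) (nat_lit 110)) (XT.lf (nat_lit 76) (nat_lit 1641063758954) (nat_lit 0) (nat_lit 579370883114) (nat_lit 304) (nat_lit 185037579605) (nat_lit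 16) (nat_lit 5) (nat_lit 15) (nat_lit 5) (nat_lit 19) (nat_lit 5) (nat_lit 247) (nat_lit 244) (nat_lit 109)))) (XT.nd (nat_lit 156) (nat_lit 152) (nat_lit 0) (XT.nd (nat_lit 78) (nat_lit 76) (nat_lit 0) (XT.lf (nat_lit 0) (nat_lit 273358901976) (nat_lit 228) (nat_lit 2262049643058) (nat_lit 304) (nat_lit 70646604512) (nat_lit 13) (nat_lit 5) (nat_lit 16) (nat_lit 5) (nat_lit 17) (nat_lit 5) (nat_lit 248) (nat_lit 244) (nat_lit 108)) (XT.lf (nat_lit 0) (nat_lit 124930560386) (nat_lit 304) (nat_lit 1310045104478) (nat_lit 76) (nat_lit 1390954139463) (nat_lit 12) (nat_lit 5) (nat_lit 16) (nat_lit 5) (nat_lit 13) (nat_lit 5) (nat_lit 249) (nat_lit 244) (nat_lit 107))) (XT.nd (nat_lit 78) (nat_lit 152) (nat_lit 0) (XT.lf (nat_lit 0) (nat_lit 342611431755) (nat_lit 304) (nat_lit 137360415612) (nat_lit 76) (nat_lit 2598309191614) (nat_lit 12) (nat_lit 5) (nat_lit 16) (nat_lit 5) (nat_lit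 13) (nat_lit 5) (nat_lit 250) (nat_lit 244) (nat_lit 106)) (XT.lf (nat_lit 0) (nat_lit 676223669038) (nat_lit 228) (nat_lit 2058853174266) (nat_lit 76) (nat_lit 620916230266) (nat_lit 10) (nat_lit 5) (nat_lit 13) (nat_lit 5) (nat_lit 11) (nat_lit 5) (nat_lit 251) (nat_lit 244) (nat_lit 105))))) (XT.nd (nat_lit 234) (nat_lit 152) (nat_lit 0) (XT.nd (nat_lit 78) (nat_lit 152) (nat_lit 0) (XT.lf (nat_lit 0) (nat_lit 1090255660886) (nat_lit 228) (nat_lit 735229902032) (nat_lit 76) (nat_lit 1845319662597) (nat_lit 10) (nat_lit 5) (nat_lit 13) (nat_lit 5) (nat_lit 11) (nat_lit 5) (nat_lit 252) (nat_lit 244) (nat_lit 104)) (XT.nd (nat_lit 78) (nat_lit 0) (nat_lit 0) (XT.lf (nat_lit 0) (nat_lit 863842052760) (nat_lit 152) (nat_lit 738320254895) (nat_lit 228) (nat_lit 2425311414189) (nat_lit 8) (nat_lit 5) (nat_lit 10) (nat_lit 5) (nat_lit 11) (nat_lit 5) (nat_lit 253) (nat_lit 244) (nat_lit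 103)) (XT.lf (nat_lit 0) (nat_lit 2252315049566) (nat_lit 228) (nat_lit 1669500634380) (nat_lit 76) (nat_lit 506607793967) (nat_lit 8) (nat_lit 5) (nat_lit 11) (nat_lit 5) (nat_lit 9) (nat_lit 4) (nat_lit 254) (nat_lit 244) (nat_lit 102)))) (XT.nd (nat_lit 156) (nat_lit 76) (nat_lit 0) (XT.nd (nat_lit 78) (nat_lit 0) (nat_lit 0) (XT.lf (nat_lit 0) (nat_lit 14920250777) (nat_lit 76) (nat_lit 3020846374230) (nat_lit 152) (nat_lit 1848382684059) (nat_lit 7) (nat_lit 5) (nat_lit 8) (nat_lit 5) (nat_lit 9) (nat_lit 4) (nat_lit 255) (nat_lit 244) (nat_lit 101)) (XT.lf (nat_lit 0) (nat_lit 2139633372878) (nat_lit 76) (nat_lit 1884371914398) (nat_lit 152) (nat_lit 1371138325050) (nat_lit 7) (nat_lit 5) (nat_lit 8) (nat_lit 5) (nat_lit 9) (nat_lit 4) (nat_lit 256) (nat_lit 244) (nat_lit 100))) (XT.nd (nat_lit 78) (nat_lit 76) (nat_lit 0) (XT.lf (nat_lit 0) (nat_lit 4583053462233) (nat_lit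 76) (nat_lit 577426285926) (nat_lit 152) (nat_lit 822307313029) (nat_lit 7) (nat_lit 5) (nat_lit 8) (nat_lit 5) (nat_lit 9) (nat_lit 4) (nat_lit 257) (nat_lit 244) (nat_lit 99)) (XT.lf (nat_lit 0) (nat_lit 764110414641) (nat_lit 76) (nat_lit 5773280660676) (nat_lit 76) (nat_lit 110691097499) (nat_lit 6) (nat_lit 4) (nat_lit 7) (nat_lit 5) (nat_lit 7) (nat_lit 4) (nat_lit 258) (nat_lit 244) (nat_lit 98)))))) (XT.nd (nat_lit 30420) (nat_lit 0) (nat_lit 304) (XT.nd (nat_lit 234) (nat_lit 0) (nat_lit 0) (XT.nd (nat_lit 78) (nat_lit 76) (nat_lit 0) (XT.lf (nat_lit 0) (nat_lit 748814658636) (nat_lit 152) (nat_lit 4052638048121) (nat_lit 76) (nat_lit 2591701108729) (nat_lit 5) (nat_lit 5) (nat_lit 7) (nat_lit 5) (nat_lit 6) (nat_lit 4) (nat_lit 259) (nat_lit 244) (nat_lit 97)) (XT.nd (nat_lit 78) (nat_lit 76) (nat_lit 0) (XT.lf (nat_lit 0) (nat_lit 1725913617663) (nat_lit 152) (nat_lit 1951875287098)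 (nat_lit 76) (nat_lit 4571406649189) (nat_lit 5) (nat_lit 5) (nat_lit 7) (nat_lit 5) (nat_lit 6) (nat_lit 4) (nat_lit 260) (nat_lit 244) (nat_lit 96)) (XT.lf (nat_lit 0) (nat_lit 509347526285) (nat_lit 76) (nat_lit 2361320888657) (nat_lit 152) (nat_lit 6359811489082) (nat_lit 4) (nat_lit 5) (nat_lit 5) (nat_lit 5) (nat_lit 6) (nat_lit 4) (nat_lit 261) (nat_lit 244) (nat_lit 95)))) (XT.nd (nat_lit 30030) (nat_lit 0) (nat_lit 836) (XT.nd (nat_lit 29952) (nat_lit 0) (nat_lit 836) (XT.lf (nat_lit 0) (nat_lit 3559117926722) (nat_lit 76) (nat_lit 730048349199) (nat_lit 152) (nat_lit 6054486154077) (nat_lit 4) (nat_lit 5) (nat_lit 5) (nat_lit 5) (nat_lit 6) (nat_lit 4) (nat_lit 262) (nat_lit 244) (nat_lit 94)) (XT.lf (nat_lit 0) (nat_lit 472742742140) (nat_lit 0) (nat_lit 472742742140) (nat_lit 228) (nat_lit 161987287224) (nat_lit 15) (nat_lit 5) (nat_lit 15) (nat_lit 3) (nat_lit 18) (nat_lit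 3) (nat_lit 245) (nat_lit 245) (nat_lit 110))) (XT.nd (nat_lit 78) (nat_lit 0) (nat_lit 0) (XT.lf (nat_lit 0) (nat_lit 1998740433646) (nat_lit 0) (nat_lit 34053368383) (nat_lit 228) (nat_lit 348272654913) (nat_lit 15) (nat_lit 5) (nat_lit 15) (nat_lit 3) (nat_lit 18) (nat_lit 3) (nat_lit 246) (nat_lit 245) (nat_lit 109)) (XT.lf (nat_lit 76) (nat_lit 654121042706) (nat_lit 0) (nat_lit 1610846225351) (nat_lit 304) (nat_lit 296776658812) (nat_lit 16) (nat_lit 5) (nat_lit 15) (nat_lit 5) (nat_lit 19) (nat_lit 5) (nat_lit 247) (nat_lit 245) (nat_lit 108))))) (XT.nd (nat_lit 312) (nat_lit 304) (nat_lit 0) (XT.nd (nat_lit 156) (nat_lit 76) (nat_lit 0) (XT.nd (nat_lit 78) (nat_lit 152) (nat_lit 0) (XT.lf (nat_lit 76) (nat_lit 1887223336391) (nat_lit 0) (nat_lit 666276520229) (nat_lit 304) (nat_lit 212793195293) (nat_lit 16) (nat_lit 5) (nat_lit 15) (nat_lit 5) (nat_lit 19) (nat_lit 5) (nat_lit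 248) (nat_lit 245) (nat_lit 107)) (XT.lf (nat_lit 0) (nat_lit 314362753307) (nat_lit 228) (nat_lit 2601357089840) (nat_lit 304) (nat_lit 81243576138) (nat_lit 13) (nat_lit 5) (nat_lit 16) (nat_lit 5) (nat_lit 17) (nat_lit 5) (nat_lit 249) (nat_lit 245) (nat_lit 106))) (XT.nd (nat_lit 78) (nat_lit 0) (nat_lit 0) (XT.lf (nat_lit 0) (nat_lit 143670159536) (nat_lit 304) (nat_lit 1506551854551) (nat_lit 76) (nat_lit 1599597258444) (nat_lit 12) (nat_lit 5) (nat_lit 16) (nat_lit 5) (nat_lit 13) (nat_lit 5) (nat_lit 250) (nat_lit 245) (nat_lit 105)) (XT.lf (nat_lit 0) (nat_lit 394003159642) (nat_lit 304) (nat_lit 157964464389) (nat_lit 76) (nat_lit 2988055568671) (nat_lit 12) (nat_lit 5) (nat_lit 16) (nat_lit 5) (nat_lit 13) (nat_lit 5) (nat_lit 251) (nat_lit 245) (nat_lit 104)))) (XT.nd (nat_lit 156) (nat_lit 152) (nat_lit 0) (XT.nd (nat_lit 78) (nat_lit 0) (nat_lit 0) (XT.lf (nat_lit 0)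 (nat_lit 777657231383) (nat_lit 228) (nat_lit 2367681135570) (nat_lit 76) (nat_lit 714053665717) (nat_lit 10) (nat_lit 5) (nat_lit 13) (nat_lit 5) (nat_lit 11) (nat_lit 5) (nat_lit 252) (nat_lit 245) (nat_lit 103)) (XT.lf (nat_lit 0) (nat_lit 1253794020444) (nat_lit 228) (nat_lit 845514374437) (nat_lit 76) (nat_lit 2122117612779) (nat_lit 10) (nat_lit 5) (nat_lit 13) (nat_lit 5) (nat_lit 11) (nat_lit 5) (nat_lit 253) (nat_lit 245) (nat_lit 102))) (XT.nd (nat_lit 78) (nat_lit 0) (nat_lit 0) (XT.lf (nat_lit 0) (nat_lit 993418372988) (nat_lit 152) (nat_lit 849068290390) (nat_lit 228) (nat_lit 2789108115202) (nat_lit 8) (nat_lit 5) (nat_lit 10) (nat_lit 5) (nat_lit 11) (nat_lit 5) (nat_lit 254) (nat_lit 245) (nat_lit 101)) (XT.lf (nat_lit 0) (nat_lit 2590162315426) (nat_lit 228) (nat_lit 1919925717588) (nat_lit 76) (nat_lit 582598965232) (nat_lit 8) (nat_lit 5) (nat_lit 11) (nat_lit 5)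 (nat_lit 9) (nat_lit 4) (nat_lit 255) (nat_lit 245) (nat_lit 100))))))) (XT.nd (nat_lit 31200) (nat_lit 0) (nat_lit 76) (XT.nd (nat_lit 30576) (nat_lit 0) (nat_lit 380) (XT.nd (nat_lit 234) (nat_lit 152) (nat_lit 0) (XT.nd (nat_lit 78) (nat_lit 0) (nat_lit 0) (XT.lf (nat_lit 0) (nat_lit 17158299800) (nat_lit 76) (nat_lit 3473973326758) (nat_lit 152) (nat_lit 2125640077621) (nat_lit 7) (nat_lit 5) (nat_lit 8) (nat_lit 5) (nat_lit 9) (nat_lit 4) (nat_lit 256) (nat_lit 245) (nat_lit 99)) (XT.nd (nat_lit 78) (nat_lit 0) (nat_lit 0) (XT.lf (nat_lit 0) (nat_lit 2460578388727) (nat_lit 76) (nat_lit 2167027698421) (nat_lit 152) (nat_lit 1576809065941) (nat_lit 7) (nat_lit 5) (nat_lit 8) (nat_lit 5) (nat_lit 9) (nat_lit 4) (nat_lit 257) (nat_lit 245) (nat_lit 98)) (XT.lf (nat_lit 0) (nat_lit 5270511490193) (nat_lit 76) (nat_lit 664040226087) (nat_lit 152) (nat_lit 945653403143) (nat_lit 7)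 (nat_lit 5) (nat_lit 8) (nat_lit 5) (nat_lit 9) (nat_lit 4) (nat_lit 258) (nat_lit 245) (nat_lit 97)))) (XT.nd (nat_lit 156) (nat_lit 0) (nat_lit 0) (XT.nd (nat_lit 78) (nat_lit 76) (nat_lit 0) (XT.lf (nat_lit 0) (nat_lit 878726985862) (nat_lit 76) (nat_lit 6639272756351) (nat_lit 76) (nat_lit 127294755633) (nat_lit 6) (nat_lit 4) (nat_lit 7) (nat_lit 5) (nat_lit 7) (nat_lit 4) (nat_lit 259) (nat_lit 245) (nat_lit 96)) (XT.lf (nat_lit 0) (nat_lit 861136862574) (nat_lit 152) (nat_lit 4660533746950) (nat_lit 76) (nat_lit 2980456277476) (nat_lit 5) (nat_lit 5) (nat_lit 7) (nat_lit 5) (nat_lit 6) (nat_lit 4) (nat_lit 260) (nat_lit 245) (nat_lit 95))) (XT.nd (nat_lit 30108) (nat_lit 0) (nat_lit 760) (XT.lf (nat_lit 0) (nat_lit 1984800664783) (nat_lit 152) (nat_lit 2244656572867) (nat_lit 76) (nat_lit 5257117648687) (nat_lit 5) (nat_lit 5) (nat_lit 7) (nat_lit 5) (nat_lit 6) (nat_lit 4)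 (nat_lit 261) (nat_lit 245) (nat_lit 94)) (XT.lf (nat_lit 0) (nat_lit 543654158650) (nat_lit 0) (nat_lit 543654158650) (nat_lit 228) (nat_lit 186285368212) (nat_lit 15) (nat_lit 5) (nat_lit 15) (nat_lit 3) (nat_lit 18) (nat_lit 3) (nat_lit 246) (nat_lit 246) (nat_lit 108))))) (XT.nd (nat_lit 312) (nat_lit 228) (nat_lit 0) (XT.nd (nat_lit 156) (nat_lit 152) (nat_lit 0) (XT.nd (nat_lit 78) (nat_lit 0) (nat_lit 0) (XT.lf (nat_lit 0) (nat_lit 2298551507719) (nat_lit 0) (nat_lit 39161382666) (nat_lit 228) (nat_lit 400513532115) (nat_lit 15) (nat_lit 5) (nat_lit 15) (nat_lit 3) (nat_lit 18) (nat_lit 3) (nat_lit 247) (nat_lit 246) (nat_lit 107)) (XT.lf (nat_lit 76) (nat_lit 752239210932) (nat_lit 0) (nat_lit 1852473163195) (nat_lit 304) (nat_lit 341293139153) (nat_lit 16) (nat_lit 5) (nat_lit 15) (nat_lit 5) (nat_lit 19) (nat_lit 5) (nat_lit 248) (nat_lit 246) (nat_lit 106))) (XT.nd (nat_lit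 78) (nat_lit 152) (nat_lit 0) (XT.lf (nat_lit 76) (nat_lit 2170306847128) (nat_lit 0) (nat_lit 766218001777) (nat_lit 304) (nat_lit 244712158517) (nat_lit 16) (nat_lit 5) (nat_lit 15) (nat_lit 5) (nat_lit 19) (nat_lit 5) (nat_lit 249) (nat_lit 246) (nat_lit 105)) (XT.lf (nat_lit 0) (nat_lit 361517178427) (nat_lit 228) (nat_lit 2991560653562) (nat_lit 304) (nat_lit 93430098152) (nat_lit 13) (nat_lit 5) (nat_lit 16) (nat_lit 5) (nat_lit 17) (nat_lit 5) (nat_lit 250) (nat_lit 246) (nat_lit 104)))) (XT.nd (nat_lit 156) (nat_lit 152) (nat_lit 0) (XT.nd (nat_lit 78) (nat_lit 0) (nat_lit 0) (XT.lf (nat_lit 0) (nat_lit 165220694878) (nat_lit 304) (nat_lit 1732534620938) (nat_lit 76) (nat_lit 1839536845745) (nat_lit 12) (nat_lit 5) (nat_lit 16) (nat_lit 5) (nat_lit 13) (nat_lit 5) (nat_lit 251) (nat_lit 246) (nat_lit 103)) (XT.lf (nat_lit 0) (nat_lit 453103643512) (nat_lit 304) (nat_lit 181659123791)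 (nat_lit 76) (nat_lit 3436263902697) (nat_lit 12) (nat_lit 5) (nat_lit 16) (nat_lit 5) (nat_lit 13) (nat_lit 5) (nat_lit 252) (nat_lit 246) (nat_lit 102))) (XT.nd (nat_lit 78) (nat_lit 0) (nat_lit 0) (XT.lf (nat_lit 0) (nat_lit 894305825156) (nat_lit 228) (nat_lit 2722833294687) (nat_lit 76) (nat_lit 821161716264) (nat_lit 10) (nat_lit 5) (nat_lit 13) (nat_lit 5) (nat_lit 11) (nat_lit 5) (nat_lit 253) (nat_lit 246) (nat_lit 101)) (XT.lf (nat_lit 0) (nat_lit 1441863131394) (nat_lit 228) (nat_lit 972341520847) (nat_lit 76) (nat_lit 2440435255294) (nat_lit 10) (nat_lit 5) (nat_lit 13) (nat_lit 5) (nat_lit 11) (nat_lit 5) (nat_lit 254) (nat_lit 246) (nat_lit 100)))))) (XT.nd (nat_lit 30732) (nat_lit 0) (nat_lit 304) (XT.nd (nat_lit 234) (nat_lit 76) (nat_lit 0) (XT.nd (nat_lit 78) (nat_lit 76) (nat_lit 0) (XT.lf (nat_lit 0) (nat_lit 1142431138248) (nat_lit 152) (nat_lit 976428531878)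 (nat_lit 228) (nat_lit 3207474324078) (nat_lit 8) (nat_lit 5) (nat_lit 10) (nat_lit 5) (nat_lit 11) (nat_lit 5) (nat_lit 255) (nat_lit 246) (nat_lit 99)) (XT.nd (nat_lit 78) (nat_lit 76) (nat_lit 0) (XT.lf (nat_lit 0) (nat_lit 2978686669111) (nat_lit 228) (nat_lit 2207914566191) (nat_lit 76) (nat_lit 669988811658) (nat_lit 8) (nat_lit 5) (nat_lit 11) (nat_lit 5) (nat_lit 9) (nat_lit 4) (nat_lit 256) (nat_lit 246) (nat_lit 98)) (XT.lf (nat_lit 0) (nat_lit 19732053394) (nat_lit 76) (nat_lit 3995069323044) (nat_lit 152) (nat_lit 2444486082424) (nat_lit 7) (nat_lit 5) (nat_lit 8) (nat_lit 5) (nat_lit 9) (nat_lit 4) (nat_lit 257) (nat_lit 246) (nat_lit 97)))) (XT.nd (nat_lit 156) (nat_lit 76) (nat_lit 0) (XT.nd (nat_lit 78) (nat_lit 0) (nat_lit 0) (XT.lf (nat_lit 0) (nat_lit 2829665154536) (nat_lit 76) (nat_lit 2492081850812) (nat_lit 152) (nat_lit 1813330419883) (nat_lit 7) (nat_lit 5)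 (nat_lit 8) (nat_lit 5) (nat_lit 9) (nat_lit 4) (nat_lit 258) (nat_lit 246) (nat_lit 96)) (XT.lf (nat_lit 0) (nat_lit 6061088220243) (nat_lit 76) (nat_lit 763646257938) (nat_lit 152) (nat_lit 1087501408442) (nat_lit 7) (nat_lit 5) (nat_lit 8) (nat_lit 5) (nat_lit 9) (nat_lit 4) (nat_lit 259) (nat_lit 246) (nat_lit 95))) (XT.nd (nat_lit 30264) (nat_lit 0) (nat_lit 684) (XT.lf (nat_lit 0) (nat_lit 1010536040566) (nat_lit 76) (nat_lit 7635163667214) (nat_lit 76) (nat_lit 146388964070) (nat_lit 6) (nat_lit 4) (nat_lit 7) (nat_lit 5) (nat_lit 7) (nat_lit 4) (nat_lit 260) (nat_lit 246) (nat_lit 94)) (XT.lf (nat_lit 0) (nat_lit 625202286372) (nat_lit 0) (nat_lit 625202286372) (nat_lit 228) (nat_lit 214228164298) (nat_lit 15) (nat_lit 5) (nat_lit 15) (nat_lit 3) (nat_lit 18) (nat_lit 3) (nat_lit 247) (nat_lit 247) (nat_lit 106))))) (XT.nd (nat_lit 312) (nat_lit 228) (nat_lit 0) (XT.nd (nat_lit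 156) (nat_lit 152) (nat_lit 0) (XT.nd (nat_lit 78) (nat_lit 0) (nat_lit 0) (XT.lf (nat_lit 0) (nat_lit 2643334240702) (nat_lit 0) (nat_lit 45035596891) (nat_lit 228) (nat_lit 460590546027) (nat_lit 15) (nat_lit 5) (nat_lit 15) (nat_lit 3) (nat_lit 18) (nat_lit 3) (nat_lit 248) (nat_lit 247) (nat_lit 105)) (XT.lf (nat_lit 76) (nat_lit 865075101510) (nat_lit 0) (nat_lit 2130344140730) (nat_lit 304) (nat_lit 392487096052) (nat_lit 16) (nat_lit 5) (nat_lit 15) (nat_lit 5) (nat_lit 19) (nat_lit 5) (nat_lit 249) (nat_lit 247) (nat_lit 104))) (XT.nd (nat_lit 78) (nat_lit 152) (nat_lit 0) (XT.lf (nat_lit 76) (nat_lit 2495852881969) (nat_lit 0) (nat_lit 881150704701) (nat_lit 304) (nat_lit 281418970143) (nat_lit 16) (nat_lit 5) (nat_lit 15) (nat_lit 5) (nat_lit 19) (nat_lit 5) (nat_lit 250) (nat_lit 247) (nat_lit 103)) (XT.lf (nat_lit 0) (nat_lit 415744764359) (nat_lit 228) (nat_lit 3440294751781)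 (nat_lit 304) (nat_lit 107444601982) (nat_lit 13) (nat_lit 5) (nat_lit 16) (nat_lit 5) (nat_lit 17) (nat_lit 5) (nat_lit 251) (nat_lit 247) (nat_lit 102)))) (XT.nd (nat_lit 156) (nat_lit 152) (nat_lit 0) (XT.nd (nat_lit 78) (nat_lit 0) (nat_lit 0) (XT.lf (nat_lit 0) (nat_lit 190003807738) (nat_lit 304) (nat_lit 1992414805160) (nat_lit 76) (nat_lit 2115467371499) (nat_lit 12) (nat_lit 5) (nat_lit 16) (nat_lit 5) (nat_lit 13) (nat_lit 5) (nat_lit 252) (nat_lit 247) (nat_lit 101)) (XT.lf (nat_lit 0) (nat_lit 521069197542) (nat_lit 304) (nat_lit 208907984604) (nat_lit 76) (nat_lit 3951703487139) (nat_lit 12) (nat_lit 5) (nat_lit 16) (nat_lit 5) (nat_lit 13) (nat_lit 5) (nat_lit 253) (nat_lit 247) (nat_lit 100))) (XT.nd (nat_lit 78) (nat_lit 0) (nat_lit 0) (XT.lf (nat_lit 0) (nat_lit 1028451705784) (nat_lit 228) (nat_lit 3131258280408) (nat_lit 76) (nat_lit 944335974224) (nat_lit 10) (nat_lit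 5) (nat_lit 13) (nat_lit 5) (nat_lit 11) (nat_lit 5) (nat_lit 254) (nat_lit 247) (nat_lit 99)) (XT.lf (nat_lit 0) (nat_lit 1658142607064) (nat_lit 228) (nat_lit 1118192741599) (nat_lit 76) (nat_lit 2806500544042) (nat_lit 10) (nat_lit 5) (nat_lit 13) (nat_lit 5) (nat_lit 11) (nat_lit 5) (nat_lit 255) (nat_lit 247) (nat_lit 98))))))))
noncomputable def xc63 : XT := (XT.nd (nat_lit 94068) (nat_lit 0) (nat_lit 76) (XT.nd (nat_lit 62088) (nat_lit 0) (nat_lit 228) (XT.nd (nat_lit 30888) (nat_lit 0) (nat_lit 76) (XT.nd (nat_lit 234) (nat_lit 0) (nat_lit 0) (XT.nd (nat_lit 78) (nat_lit 76) (nat_lit 0) (XT.lf (nat_lit 0) (nat_lit 1313795816026) (nat_lit 152) (nat_lit 1122892810093) (nat_lit 228) (nat_lit 3688595466334) (nat_lit 8) (nat_lit 5) (nat_lit 10) (nat_lit 5) (nat_lit 11) (nat_lit 5) (nat_lit 256) (nat_lit 247) (nat_lit 97)) (XT.nd (nat_lit 78) (nat_lit 76) (nat_lit 0) (XT.lf (nat_lit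 0) (nat_lit 3425489674295) (nat_lit 228) (nat_lit 2539101744288) (nat_lit 76) (nat_lit 770487134647) (nat_lit 8) (nat_lit 5) (nat_lit 11) (nat_lit 5) (nat_lit 9) (nat_lit 4) (nat_lit 257) (nat_lit 247) (nat_lit 96)) (XT.lf (nat_lit 0) (nat_lit 22691867924) (nat_lit 76) (nat_lit 4594329719438) (nat_lit 152) (nat_lit 2811158989615) (nat_lit 7) (nat_lit 5) (nat_lit 8) (nat_lit 5) (nat_lit 9) (nat_lit 4) (nat_lit 258) (nat_lit 247) (nat_lit 95)))) (XT.nd (nat_lit 30498) (nat_lit 0) (nat_lit 608) (XT.nd (nat_lit 30420) (nat_lit 0) (nat_lit 608) (XT.lf (nat_lit 0) (nat_lit 3254114933387) (nat_lit 76) (nat_lit 2865894126641) (nat_lit 152) (nat_lit 2085329978368) (nat_lit 7) (nat_lit 5) (nat_lit 8) (nat_lit 5) (nat_lit 9) (nat_lit 4) (nat_lit 259) (nat_lit 247) (nat_lit 94)) (XT.lf (nat_lit 0) (nat_lit 718982632296) (nat_lit 0) (nat_lit 718982632296) (nat_lit 228) (nat_lit 246362382027) (nat_lit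 15) (nat_lit 5) (nat_lit 15) (nat_lit 3) (nat_lit 18) (nat_lit 3) (nat_lit 248) (nat_lit 248) (nat_lit 104))) (XT.nd (nat_lit 78) (nat_lit 0) (nat_lit 0) (XT.lf (nat_lit 0) (nat_lit 3039834381968) (nat_lit 0) (nat_lit 51790941585) (nat_lit 228) (nat_lit 529679115904) (nat_lit 15) (nat_lit 5) (nat_lit 15) (nat_lit 3) (nat_lit 18) (nat_lit 3) (nat_lit 249) (nat_lit 248) (nat_lit 103)) (XT.lf (nat_lit 76) (nat_lit 994836373494) (nat_lit 0) (nat_lit 2449895764150) (nat_lit 304) (nat_lit 451360149893) (nat_lit 16) (nat_lit 5) (nat_lit 15) (nat_lit 5) (nat_lit 19) (nat_lit 5) (nat_lit 250) (nat_lit 248) (nat_lit 102))))) (XT.nd (nat_lit 312) (nat_lit 304) (nat_lit 0) (XT.nd (nat_lit 156) (nat_lit 76) (nat_lit 0) (XT.nd (nat_lit 78) (nat_lit 152) (nat_lit 0) (XT.lf (nat_lit 76) (nat_lit 2870230820142) (nat_lit 0) (nat_lit 1013323312416) (nat_lit 304) (nat_lit 323631806477) (nat_lit 16) (nat_lit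 5) (nat_lit 15) (nat_lit 5) (nat_lit 19) (nat_lit 5) (nat_lit 251) (nat_lit 248) (nat_lit 101)) (XT.lf (nat_lit 0) (nat_lit 478106485945) (nat_lit 228) (nat_lit 3956338964688) (nat_lit 304) (nat_lit 123561284043) (nat_lit 13) (nat_lit 5) (nat_lit 16) (nat_lit 5) (nat_lit 17) (nat_lit 5) (nat_lit 252) (nat_lit 248) (nat_lit 100))) (XT.nd (nat_lit 78) (nat_lit 0) (nat_lit 0) (XT.lf (nat_lit 0) (nat_lit 218504385424) (nat_lit 304) (nat_lit 2291277019190) (nat_lit 76) (nat_lit 2432787476387) (nat_lit 12) (nat_lit 5) (nat_lit 16) (nat_lit 5) (nat_lit 13) (nat_lit 5) (nat_lit 253) (nat_lit 248) (nat_lit 99)) (XT.lf (nat_lit 0) (nat_lit 599229582847) (nat_lit 304) (nat_lit 240244176430) (nat_lit 76) (nat_lit 4544459009481) (nat_lit 12) (nat_lit 5) (nat_lit 16) (nat_lit 5) (nat_lit 13) (nat_lit 5) (nat_lit 254) (nat_lit 248) (nat_lit 98)))) (XT.nd (nat_lit 156) (nat_lit 152) (nat_lit 0) (XT.nd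 (nat_lit 78) (nat_lit 0) (nat_lit 0) (XT.lf (nat_lit 0) (nat_lit 1182719466835) (nat_lit 228) (nat_lit 3600947016055) (nat_lit 76) (nat_lit 1085986370752) (nat_lit 10) (nat_lit 5) (nat_lit 13) (nat_lit 5) (nat_lit 11) (nat_lit 5) (nat_lit 255) (nat_lit 248) (nat_lit 97)) (XT.lf (nat_lit 0) (nat_lit 1906864002631) (nat_lit 228) (nat_lit 1285921647261) (nat_lit 76) (nat_lit 3227475625991) (nat_lit 10) (nat_lit 5) (nat_lit 13) (nat_lit 5) (nat_lit 11) (nat_lit 5) (nat_lit 256) (nat_lit 248) (nat_lit 96))) (XT.nd (nat_lit 30654) (nat_lit 0) (nat_lit 532) (XT.lf (nat_lit 0) (nat_lit 1510865193753) (nat_lit 152) (nat_lit 1291326730423) (nat_lit 228) (nat_lit 4241884781479) (nat_lit 8) (nat_lit 5) (nat_lit 10) (nat_lit 5) (nat_lit 11) (nat_lit 5) (nat_lit 257) (nat_lit 248) (nat_lit 95)) (XT.lf (nat_lit 0) (nat_lit 826830029384) (nat_lit 0) (nat_lit 826830029384) (nat_lit 228) (nat_lit 283316734102)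 (nat_lit 15) (nat_lit 5) (nat_lit 15) (nat_lit 3) (nat_lit 18) (nat_lit 3) (nat_lit 249) (nat_lit 249) (nat_lit 102)))))) (XT.nd (nat_lit 31278) (nat_lit 0) (nat_lit 0) (XT.nd (nat_lit 234) (nat_lit 380) (nat_lit 0) (XT.nd (nat_lit 78) (nat_lit 0) (nat_lit 0) (XT.lf (nat_lit 0) (nat_lit 3495809543165) (nat_lit 0) (nat_lit 59559586725) (nat_lit 228) (nat_lit 609130974195) (nat_lit 15) (nat_lit 5) (nat_lit 15) (nat_lit 3) (nat_lit 18) (nat_lit 3) (nat_lit 250) (nat_lit 249) (nat_lit 101)) (XT.nd (nat_lit 78) (nat_lit 0) (nat_lit 0) (XT.lf (nat_lit 76) (nat_lit 1144061834629) (nat_lit 0) (nat_lit 2817380130520) (nat_lit 304) (nat_lit 519064164387) (nat_lit 16) (nat_lit 5) (nat_lit 15) (nat_lit 5) (nat_lit 19) (nat_lit 5) (nat_lit 251) (nat_lit 249) (nat_lit 100)) (XT.lf (nat_lit 76) (nat_lit 3300765447607) (nat_lit 0) (nat_lit 1165321810797) (nat_lit 304) (nat_lit 372176570501) (nat_lit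 16) (nat_lit 5) (nat_lit 15) (nat_lit 5) (nat_lit 19) (nat_lit 5) (nat_lit 252) (nat_lit 249) (nat_lit 99)))) (XT.nd (nat_lit 156) (nat_lit 152) (nat_lit 0) (XT.nd (nat_lit 78) (nat_lit 76) (nat_lit 0) (XT.lf (nat_lit 0) (nat_lit 549822464078) (nat_lit 228) (nat_lit 4549789809497) (nat_lit 304) (nat_lit 142095470421) (nat_lit 13) (nat_lit 5) (nat_lit 16) (nat_lit 5) (nat_lit 17) (nat_lit 5) (nat_lit 253) (nat_lit 249) (nat_lit 98)) (XT.lf (nat_lit 0) (nat_lit 251280048171) (nat_lit 304) (nat_lit 2634968566969) (nat_lit 76) (nat_lit 2797705597211) (nat_lit 12) (nat_lit 5) (nat_lit 16) (nat_lit 5) (nat_lit 13) (nat_lit 5) (nat_lit 254) (nat_lit 249) (nat_lit 97))) (XT.nd (nat_lit 78) (nat_lit 152) (nat_lit 0) (XT.lf (nat_lit 0) (nat_lit 689114024564) (nat_lit 304) (nat_lit 276280798461) (nat_lit 76) (nat_lit 5226127860352) (nat_lit 12) (nat_lit 5) (nat_lit 16) (nat_lit 5) (nat_lit 13)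 (nat_lit 5) (nat_lit 255) (nat_lit 249) (nat_lit 96)) (XT.lf (nat_lit 0) (nat_lit 1360127390780) (nat_lit 228) (nat_lit 4141089063613) (nat_lit 76) (nat_lit 1248884326662) (nat_lit 10) (nat_lit 5) (nat_lit 13) (nat_lit 5) (nat_lit 11) (nat_lit 5) (nat_lit 256) (nat_lit 249) (nat_lit 95))))) (XT.nd (nat_lit 312) (nat_lit 380) (nat_lit 0) (XT.nd (nat_lit 156) (nat_lit 0) (nat_lit 0) (XT.nd (nat_lit 78) (nat_lit 0) (nat_lit 0) (XT.lf (nat_lit 0) (nat_lit 950854535488) (nat_lit 0) (nat_lit 950854535488) (nat_lit 228) (nat_lit 325814240264) (nat_lit 15) (nat_lit 5) (nat_lit 15) (nat_lit 3) (nat_lit 18) (nat_lit 3) (nat_lit 250) (nat_lit 250) (nat_lit 100)) (XT.lf (nat_lit 0) (nat_lit 4020180977591) (nat_lit 0) (nat_lit 68493527685) (nat_lit 228) (nat_lit 700500613448) (nat_lit 15) (nat_lit 5) (nat_lit 15) (nat_lit 3) (nat_lit 18) (nat_lit 3) (nat_lit 251) (nat_lit 250) (nat_lit 99))) (XT.nd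 (nat_lit 78) (nat_lit 0) (nat_lit 0) (XT.lf (nat_lit 76) (nat_lit 1315671113687) (nat_lit 0) (nat_lit 3239987151419) (nat_lit 304) (nat_lit 596923783004) (nat_lit 16) (nat_lit 5) (nat_lit 15) (nat_lit 5) (nat_lit 19) (nat_lit 5) (nat_lit 252) (nat_lit 250) (nat_lit 98)) (XT.lf (nat_lit 76) (nat_lit 3795880268108) (nat_lit 0) (nat_lit 1340120083566) (nat_lit 304) (nat_lit 428003050822) (nat_lit 16) (nat_lit 5) (nat_lit 15) (nat_lit 5) (nat_lit 19) (nat_lit 5) (nat_lit 253) (nat_lit 250) (nat_lit 97)))) (XT.nd (nat_lit 156) (nat_lit 152) (nat_lit 0) (XT.nd (nat_lit 78) (nat_lit 76) (nat_lit 0) (XT.lf (nat_lit 0) (nat_lit 632295837654) (nat_lit 228) (nat_lit 5232258281002) (nat_lit 304) (nat_lit 163409786275) (nat_lit 13) (nat_lit 5) (nat_lit 16) (nat_lit 5) (nat_lit 17) (nat_lit 5) (nat_lit 254) (nat_lit 250) (nat_lit 96)) (XT.lf (nat_lit 0) (nat_lit 288972059127) (nat_lit 304) (nat_lit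 3030213848159) (nat_lit 76) (nat_lit 3217361436314) (nat_lit 12) (nat_lit 5) (nat_lit 16) (nat_lit 5) (nat_lit 13) (nat_lit 5) (nat_lit 255) (nat_lit 250) (nat_lit 95))) (XT.nd (nat_lit 156) (nat_lit 152) (nat_lit 0) (XT.lf (nat_lit 0) (nat_lit 792481131493) (nat_lit 304) (nat_lit 317722914877) (nat_lit 76) (nat_lit 6010047038989) (nat_lit 12) (nat_lit 5) (nat_lit 16) (nat_lit 5) (nat_lit 13) (nat_lit 5) (nat_lit 256) (nat_lit 250) (nat_lit 94)) (XT.lf (nat_lit 0) (nat_lit 2521827649976) (nat_lit 228) (nat_lit 1700631370464) (nat_lit 76) (nat_lit 4268336515866) (nat_lit 10) (nat_lit 5) (nat_lit 13) (nat_lit 5) (nat_lit 11) (nat_lit 5) (nat_lit 258) (nat_lit 250) (nat_lit 92))))))) (XT.nd (nat_lit 62400) (nat_lit 0) (nat_lit 152) (XT.nd (nat_lit 31122) (nat_lit 0) (nat_lit 152) (XT.nd (nat_lit 30732) (nat_lit 0) (nat_lit 304) (XT.nd (nat_lit 78) (nat_lit 0) (nat_lit 0) (XT.lf (nat_lit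 0) (nat_lit 1998119226412) (nat_lit 152) (nat_lit 1707779599278) (nat_lit 228) (nat_lit 5609892616580) (nat_lit 8) (nat_lit 5) (nat_lit 10) (nat_lit 5) (nat_lit 11) (nat_lit 5) (nat_lit 259) (nat_lit 250) (nat_lit 91)) (XT.nd (nat_lit 30576) (nat_lit 0) (nat_lit 532) (XT.lf (nat_lit 0) (nat_lit 5209741618461) (nat_lit 228) (nat_lit 3861656351068) (nat_lit 76) (nat_lit 1171814623499) (nat_lit 8) (nat_lit 5) (nat_lit 11) (nat_lit 5) (nat_lit 9) (nat_lit 4) (nat_lit 260) (nat_lit 250) (nat_lit 90)) (XT.lf (nat_lit 0) (nat_lit 1093482717094) (nat_lit 0) (nat_lit 1093482717094) (nat_lit 228) (nat_lit 374686373313) (nat_lit 15) (nat_lit 5) (nat_lit 15) (nat_lit 3) (nat_lit 18) (nat_lit 3) (nat_lit 251) (nat_lit 251) (nat_lit 98)))) (XT.nd (nat_lit 156) (nat_lit 228) (nat_lit 0) (XT.nd (nat_lit 78) (nat_lit 0) (nat_lit 0) (XT.lf (nat_lit 0) (nat_lit 4623208126460) (nat_lit 0) (nat_lit 78767559069)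 (nat_lit 228) (nat_lit 805575700266) (nat_lit 15) (nat_lit 5) (nat_lit 15) (nat_lit 3) (nat_lit 18) (nat_lit 3) (nat_lit 252) (nat_lit 251) (nat_lit 97)) (XT.lf (nat_lit 76) (nat_lit 1513021783662) (nat_lit 0) (nat_lit 3725985225130) (nat_lit 304) (nat_lit 686462345886) (nat_lit 16) (nat_lit 5) (nat_lit 15) (nat_lit 5) (nat_lit 19) (nat_lit 5) (nat_lit 253) (nat_lit 251) (nat_lit 96))) (XT.nd (nat_lit 156) (nat_lit 228) (nat_lit 0) (XT.lf (nat_lit 76) (nat_lit 4365262310865) (nat_lit 0) (nat_lit 1541138096969) (nat_lit 304) (nat_lit 492203504474) (nat_lit 16) (nat_lit 5) (nat_lit 15) (nat_lit 5) (nat_lit 19) (nat_lit 5) (nat_lit 254) (nat_lit 251) (nat_lit 95)) (XT.lf (nat_lit 0) (nat_lit 332317870817) (nat_lit 304) (nat_lit 3484745922467) (nat_lit 76) (nat_lit 3699965651399) (nat_lit 12) (nat_lit 5) (nat_lit 16) (nat_lit 5) (nat_lit 13) (nat_lit 5) (nat_lit 256) (nat_lit 251) (nat_lit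 93))))) (XT.nd (nat_lit 30966) (nat_lit 0) (nat_lit 228) (XT.nd (nat_lit 156) (nat_lit 0) (nat_lit 0) (XT.nd (nat_lit 78) (nat_lit 152) (nat_lit 0) (XT.lf (nat_lit 0) (nat_lit 911353303669) (nat_lit 304) (nat_lit 365381349573) (nat_lit 76) (nat_lit 6911554094522) (nat_lit 12) (nat_lit 5) (nat_lit 16) (nat_lit 5) (nat_lit 13) (nat_lit 5) (nat_lit 257) (nat_lit 251) (nat_lit 92)) (XT.lf (nat_lit 0) (nat_lit 1798768479956) (nat_lit 228) (nat_lit 5476590279639) (nat_lit 76) (nat_lit 1651649522441) (nat_lit 10) (nat_lit 5) (nat_lit 13) (nat_lit 5) (nat_lit 11) (nat_lit 5) (nat_lit 258) (nat_lit 251) (nat_lit 91))) (XT.nd (nat_lit 30732) (nat_lit 0) (nat_lit 380) (XT.lf (nat_lit 0) (nat_lit 2900101799421) (nat_lit 228) (nat_lit 1955726073623) (nat_lit 76) (nat_lit 4908586993394) (nat_lit 10) (nat_lit 5) (nat_lit 13) (nat_lit 5) (nat_lit 11) (nat_lit 5) (nat_lit 259) (nat_lit 251) (nat_lit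 90)) (XT.lf (nat_lit 0) (nat_lit 1257505125628) (nat_lit 0) (nat_lit 1257505125628) (nat_lit 228) (nat_lit 430889327050) (nat_lit 15) (nat_lit 5) (nat_lit 15) (nat_lit 3) (nat_lit 18) (nat_lit 3) (nat_lit 252) (nat_lit 252) (nat_lit 96)))) (XT.nd (nat_lit 156) (nat_lit 152) (nat_lit 0) (XT.nd (nat_lit 78) (nat_lit 0) (nat_lit 0) (XT.lf (nat_lit 0) (nat_lit 5316689347116) (nat_lit 0) (nat_lit 90582694616) (nat_lit 228) (nat_lit 926412051374) (nat_lit 15) (nat_lit 5) (nat_lit 15) (nat_lit 3) (nat_lit 18) (nat_lit 3) (nat_lit 253) (nat_lit 252) (nat_lit 95)) (XT.lf (nat_lit 76) (nat_lit 1739975053421) (nat_lit 0) (nat_lit 4284883009655) (nat_lit 304) (nat_lit 789431694315) (nat_lit 16) (nat_lit 5) (nat_lit 15) (nat_lit 5) (nat_lit 19) (nat_lit 5) (nat_lit 254) (nat_lit 252) (nat_lit 94))) (XT.nd (nat_lit 78) (nat_lit 152) (nat_lit 0) (XT.lf (nat_lit 76) (nat_lit 5020051659416) (nat_lit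 0) (nat_lit 1772308812172) (nat_lit 304) (nat_lit 566034027141) (nat_lit 16) (nat_lit 5) (nat_lit 15) (nat_lit 5) (nat_lit 19) (nat_lit 5) (nat_lit 255) (nat_lit 252) (nat_lit 93)) (XT.lf (nat_lit 0) (nat_lit 836211251010) (nat_lit 228) (nat_lit 6919661576741) (nat_lit 304) (nat_lit 216109435562) (nat_lit 13) (nat_lit 5) (nat_lit 16) (nat_lit 5) (nat_lit 17) (nat_lit 5) (nat_lit 256) (nat_lit 252) (nat_lit 92)))))) (XT.nd (nat_lit 31278) (nat_lit 0) (nat_lit 152) (XT.nd (nat_lit 30966) (nat_lit 0) (nat_lit 380) (XT.nd (nat_lit 78) (nat_lit 152) (nat_lit 0) (XT.lf (nat_lit 0) (nat_lit 382165553573) (nat_lit 304) (nat_lit 4007457808632) (nat_lit 76) (nat_lit 4254960498835) (nat_lit 12) (nat_lit 5) (nat_lit 16) (nat_lit 5) (nat_lit 13) (nat_lit 5) (nat_lit 257) (nat_lit 252) (nat_lit 91)) (XT.nd (nat_lit 78) (nat_lit 152) (nat_lit 0) (XT.lf (nat_lit 0) (nat_lit 1048056301075) (nat_lit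 304) (nat_lit 420188550092) (nat_lit 76) (nat_lit 7948287208462) (nat_lit 12) (nat_lit 5) (nat_lit 16) (nat_lit 5) (nat_lit 13) (nat_lit 5) (nat_lit 258) (nat_lit 252) (nat_lit 90)) (XT.lf (nat_lit 0) (nat_lit 2068583753644) (nat_lit 228) (nat_lit 6298078819488) (nat_lit 76) (nat_lit 1899396950935) (nat_lit 10) (nat_lit 5) (nat_lit 13) (nat_lit 5) (nat_lit 11) (nat_lit 5) (nat_lit 259) (nat_lit 252) (nat_lit 89)))) (XT.nd (nat_lit 156) (nat_lit 0) (nat_lit 0) (XT.nd (nat_lit 78) (nat_lit 0) (nat_lit 0) (XT.lf (nat_lit 0) (nat_lit 1446130895206) (nat_lit 0) (nat_lit 1446130895206) (nat_lit 228) (nat_lit 495522724398) (nat_lit 15) (nat_lit 5) (nat_lit 15) (nat_lit 3) (nat_lit 18) (nat_lit 3) (nat_lit 253) (nat_lit 253) (nat_lit 94)) (XT.lf (nat_lit 0) (nat_lit 6114192750460) (nat_lit 0) (nat_lit 104170100084) (nat_lit 228) (nat_lit 1065373856107) (nat_lit 15) (nat_lit 5) (nat_lit 15)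 (nat_lit 3) (nat_lit 18) (nat_lit 3) (nat_lit 254) (nat_lit 253) (nat_lit 93))) (XT.nd (nat_lit 78) (nat_lit 0) (nat_lit 0) (XT.lf (nat_lit 76) (nat_lit 2000971313105) (nat_lit 0) (nat_lit 4927615461675) (nat_lit 304) (nat_lit 907846445851) (nat_lit 16) (nat_lit 5) (nat_lit 15) (nat_lit 5) (nat_lit 19) (nat_lit 5) (nat_lit 255) (nat_lit 253) (nat_lit 92)) (XT.lf (nat_lit 76) (nat_lit 5773059409781) (nat_lit 0) (nat_lit 2038155134494) (nat_lit 304) (nat_lit 650939128941) (nat_lit 16) (nat_lit 5) (nat_lit 15) (nat_lit 5) (nat_lit 19) (nat_lit 5) (nat_lit 256) (nat_lit 253) (nat_lit 91))))) (XT.nd (nat_lit 31200) (nat_lit 0) (nat_lit 228) (XT.nd (nat_lit 31044) (nat_lit 0) (nat_lit 228) (XT.nd (nat_lit 78) (nat_lit 76) (nat_lit 0) (XT.lf (nat_lit 0) (nat_lit 961642940375) (nat_lit 228) (nat_lit 7957610813287) (nat_lit 304) (nat_lit 248525848860) (nat_lit 13) (nat_lit 5) (nat_lit 16)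 (nat_lit 5) (nat_lit 17) (nat_lit 5) (nat_lit 257) (nat_lit 253) (nat_lit 90)) (XT.lf (nat_lit 0) (nat_lit 439490388221) (nat_lit 304) (nat_lit 4608576478260) (nat_lit 76) (nat_lit 4893204573453) (nat_lit 12) (nat_lit 5) (nat_lit 16) (nat_lit 5) (nat_lit 13) (nat_lit 5) (nat_lit 258) (nat_lit 253) (nat_lit 89))) (XT.nd (nat_lit 78) (nat_lit 0) (nat_lit 0) (XT.lf (nat_lit 0) (nat_lit 1663050530042) (nat_lit 0) (nat_lit 1663050530042) (nat_lit 228) (nat_lit 569851131765) (nat_lit 15) (nat_lit 5) (nat_lit 15) (nat_lit 3) (nat_lit 18) (nat_lit 3) (nat_lit 254) (nat_lit 254) (nat_lit 92)) (XT.lf (nat_lit 0) (nat_lit 7031321663993) (nat_lit 0) (nat_lit 119795616062) (nat_lit 228) (nat_lit 1225179932276) (nat_lit 15) (nat_lit 5) (nat_lit 15) (nat_lit 3) (nat_lit 18) (nat_lit 3) (nat_lit 255) (nat_lit 254) (nat_lit 91)))) (XT.nd (nat_lit 31200) (nat_lit 0) (nat_lit 0) (XT.nd (nat_lit 78)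 (nat_lit 0) (nat_lit 0) (XT.lf (nat_lit 76) (nat_lit 2301117011334) (nat_lit 0) (nat_lit 5666757781358) (nat_lit 304) (nat_lit 1044023410754) (nat_lit 16) (nat_lit 5) (nat_lit 15) (nat_lit 5) (nat_lit 19) (nat_lit 5) (nat_lit 256) (nat_lit 254) (nat_lit 90)) (XT.lf (nat_lit 76) (nat_lit 6639018322346) (nat_lit 0) (nat_lit 2343878405044) (nat_lit 304) (nat_lit 748579996565) (nat_lit 16) (nat_lit 5) (nat_lit 15) (nat_lit 5) (nat_lit 19) (nat_lit 5) (nat_lit 257) (nat_lit 254) (nat_lit 89))) (XT.nd (nat_lit 78) (nat_lit 0) (nat_lit 0) (XT.lf (nat_lit 0) (nat_lit 1912508109967) (nat_lit 0) (nat_lit 1912508109967) (nat_lit 228) (nat_lit 655328800552) (nat_lit 15) (nat_lit 5) (nat_lit 15) (nat_lit 3) (nat_lit 18) (nat_lit 3) (nat_lit 255) (nat_lit 255) (nat_lit 90)) (XT.lf (nat_lit 0) (nat_lit 8086019914321) (nat_lit 0) (nat_lit 137764959200) (nat_lit 228) (nat_lit 1408956920417) (nat_lit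 15) (nat_lit 5) (nat_lit 15) (nat_lit 3) (nat_lit 18) (nat_lit 3) (nat_lit 256) (nat_lit 255) (nat_lit 89))))))))

set_option maxRecDepth 10000000 in
noncomputable def Tp : PT := (PT.nd (nat_lit 3166956) pc0 pc1)

set_option maxRecDepth 10000000 in
noncomputable def Tx : XT := (XT.nd (nat_lit 5026320) (nat_lit 0) (nat_lit 76) XT.nil (XT.nd (nat_lit 2969616) (nat_lit 0) (nat_lit 0) (XT.nd (nat_lit 1406340) (nat_lit 0) (nat_lit 0) (XT.nd (nat_lit 997542) (nat_lit 0) (nat_lit 0) (XT.nd (nat_lit 715884) (nat_lit 0) (nat_lit 0) (XT.nd (nat_lit 499590) (nat_lit 0) (nat_lit 0) (XT.nd (nat_lit 343278) (nat_lit 0) (nat_lit 0) (XT.nd (nat_lit 249444) (nat_lit 0) (nat_lit 0) xc0 xc1) (XT.nd (nat_lit 93288) (nat_lit 0) (nat_lit 0) xc2 xc3)) (XT.nd (nat_lit 123162) (nat_lit 0) (nat_lit 0) (XT.nd (nat_lit 61854) (nat_lit 0) (nat_lit 0) xc4 xc5) (XT.nd (nat_lit 32682) (nat_lit 0) (nat_lit 0) xc6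 xc7))) (XT.nd (nat_lit 155532) (nat_lit 0) (nat_lit 0) (XT.nd (nat_lit 64818) (nat_lit 0) (nat_lit 0) (XT.nd (nat_lit 32526) (nat_lit 0) (nat_lit 0) xc8 xc9) (XT.nd (nat_lit 31902) (nat_lit 0) (nat_lit 0) xc10 xc11)) (XT.nd (nat_lit 63336) (nat_lit 0) (nat_lit 0) (XT.nd (nat_lit 31668) (nat_lit 0) (nat_lit 0) xc12 xc13) (XT.nd (nat_lit 31512) (nat_lit 0) (nat_lit 0) xc14 xc15)))) (XT.nd (nat_lit 217932) (nat_lit 0) (nat_lit 0) (XT.nd (nat_lit 122850) (nat_lit 0) (nat_lit 0) (XT.nd (nat_lit 61698) (nat_lit 0) (nat_lit 0) (XT.nd (nat_lit 30888) (nat_lit 0) (nat_lit 0) xc16 xc17) (XT.nd (nat_lit 30576) (nat_lit 0) (nat_lit 0) xc18 xc19)) (XT.nd (nat_lit 34866) (nat_lit 0) (nat_lit 0) (XT.nd (nat_lit 4602) (nat_lit 0) (nat_lit 0) xc20 xc21) (XT.nd (nat_lit 30108) (nat_lit 0) (nat_lit 0) xc22 xc23))) (XT.nd (nat_lit 95394) (nat_lit 0) (nat_lit 0) (XT.nd (nat_lit 34788) (nat_lit 0) (nat_lit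 0) (XT.nd (nat_lit 30186) (nat_lit 0) (nat_lit 0) xc24 xc25) (XT.nd (nat_lit 30264) (nat_lit 0) (nat_lit 0) xc26 xc27)) (XT.nd (nat_lit 60450) (nat_lit 0) (nat_lit 0) (XT.nd (nat_lit 30108) (nat_lit 0) (nat_lit 0) xc28 xc29) (XT.nd (nat_lit 30342) (nat_lit 0) (nat_lit 0) xc30 xc31))))) (XT.nd (nat_lit 499590) (nat_lit 0) (nat_lit 0) (XT.nd (nat_lit 246324) (nat_lit 0) (nat_lit 0) (XT.nd (nat_lit 122694) (nat_lit 0) (nat_lit 0) (XT.nd (nat_lit 61152) (nat_lit 0) (nat_lit 0) (XT.nd (nat_lit 30498) (nat_lit 0) (nat_lit 0) xc32 xc33) (XT.nd (nat_lit 30810) (nat_lit 0) (nat_lit 0) xc34 xc35)) (XT.nd (nat_lit 61698) (nat_lit 0) (nat_lit 0) (XT.nd (nat_lit 30732) (nat_lit 0) (nat_lit 0) xc36 xc37) (XT.nd (nat_lit 31044) (nat_lit 0) (nat_lit 0) xc38 xc39))) (XT.nd (nat_lit 125736) (nat_lit 0) (nat_lit 0) (XT.nd (nat_lit 35568) (nat_lit 0) (nat_lit 0) (XT.nd (nat_lit 4680) (nat_lit 0) (nat_lit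 0) xc40 xc41) (XT.nd (nat_lit 58344) (nat_lit 0) (nat_lit 0) xc42 xc43)) (XT.nd (nat_lit 63882) (nat_lit 0) (nat_lit 0) (XT.nd (nat_lit 31980) (nat_lit 0) (nat_lit 0) xc44 xc45) (XT.nd (nat_lit 31746) (nat_lit 0) (nat_lit 0) xc46 xc47)))) (XT.nd (nat_lit 342888) (nat_lit 0) (nat_lit 0) (XT.nd (nat_lit 156000) (nat_lit 0) (nat_lit 0) (XT.nd (nat_lit 63882) (nat_lit 0) (nat_lit 0) (XT.nd (nat_lit 31902) (nat_lit 0) (nat_lit 0) xc48 xc49) (XT.nd (nat_lit 59748) (nat_lit 0) (nat_lit 0) xc50 xc51)) (XT.nd (nat_lit 93366) (nat_lit 0) (nat_lit 0) (XT.nd (nat_lit 32370) (nat_lit 0) (nat_lit 0) xc52 xc53) (XT.nd (nat_lit 32526) (nat_lit 0) (nat_lit 0) xc54 xc55))) (XT.nd (nat_lit 219882) (nat_lit 0) (nat_lit 0) (XT.nd (nat_lit 95082) (nat_lit 0) (nat_lit 0) (XT.nd (nat_lit 33072) (nat_lit 0) (nat_lit 0) xc56 xc57) (XT.nd (nat_lit 62166) (nat_lit 0) (nat_lit 0) xc58 xc59)) (XT.nd (nat_lit 155922)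 (nat_lit 0) (nat_lit 228) (XT.nd (nat_lit 62712) (nat_lit 0) (nat_lit 0) xc60 xc61) (XT.nd (nat_lit 94692) (nat_lit 0) (nat_lit 228) xc62 xc63)))))) XT.nil))

set_option maxRecDepth 10000000 in
noncomputable def Te : XT := XT.nil

set_option maxRecDepth 10000000 in
noncomputable def Tz : ZL := (ZL.cons (nat_lit 76) (nat_lit 6) (nat_lit 167472867737695153290) (ZL.cons (nat_lit 152) (nat_lit 6) (nat_lit 158983327320513351348) (ZL.cons (nat_lit 228) (nat_lit 3) (nat_lit 78765735570022635179) (ZL.cons (nat_lit 304) (nat_lit 6) (nat_lit 149220355840754279116) (ZL.cons (nat_lit 380) (nat_lit 6) (nat_lit 142376913062227355818) (ZL.cons (nat_lit 456) (nat_lit 3) (nat_lit 70557214713518860088) (ZL.cons (nat_lit 532) (nat_lit 6) (nat_lit 134506953866921394030) (ZL.cons (nat_lit 608) (nat_lit 6) (nat_lit 129268652464663894298) (ZL.cons (nat_lit 684) (nat_lit 3) (nat_lit 64085420303988627302)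 (ZL.cons (nat_lit 760) (nat_lit 6) (nat_lit 125297036714568878594) (ZL.cons (nat_lit 836) (nat_lit 6) (nat_lit 123244605852067769606) (ZL.cons (nat_lit 912) (nat_lit 6) (nat_lit 122514401091091009652) (ZL.cons (nat_lit 988) (nat_lit 6) (nat_lit 119631866745272970840) (ZL.cons (nat_lit 1064) (nat_lit 3) (nat_lit 59338623869729250773) (ZL.cons (nat_lit 1140) (nat_lit 6) (nat_lit 116088455254600033884) (ZL.cons (nat_lit 1216) (nat_lit 6) (nat_lit 117261939261590351380) (ZL.cons (nat_lit 1292) (nat_lit 6) (nat_lit 115477216772458952262) (ZL.cons (nat_lit 1368) (nat_lit 3) (nat_lit 56477113078714884825) (ZL.cons (nat_lit 1444) (nat_lit 6) (nat_lit 113581903649540869704) (ZL.cons (nat_lit 1520) (nat_lit 3) (nat_lit 56375900083111969940) (ZL.cons (nat_lit 1596) (nat_lit 6) (nat_lit 111402293558185074764) (ZL.cons (nat_lit 1672) (nat_lit 1) (nat_lit 18446744073709551617) ZL.nil))))))))))))))))))))))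

noncomputable def vl : XL := ⟨(nat_lit 0), (nat_lit 76), (nat_lit 332960576), (nat_lit 228), (nat_lit 46457502), (nat_lit 76), (nat_lit 332960576), (nat_lit 1), (nat_lit 5), (nat_lit 3), (nat_lit 4), (nat_lit 1), (nat_lit 4), (nat_lit 0), (nat_lit 0), (nat_lit 0)⟩

noncomputable def cp0 : Nat := (nat_lit 5508517086542638718487490440379482620384364577434062237433664064923723980483422423351296)

noncomputable def cp1 : Nat := (nat_lit 452576087538105942318916716795509338834407892619261479935014920235437515950800981631454937684632558006818167405358735821212556429366213987144997402131231289636521367093777736925575695203019089332073300661032419663894630718304016263506721690413579766820503684519096702093538124450689783167806435399861373229431292487311723333142306173056484163061485912814952018160426639743053416483140928837745452689558923575964923098509488214293330162891675501522338807333713380493063972695624002869892418149889534354361170153755281195008)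

noncomputable def rc0 : Nat := (nat_lit 452576087538105942318916716795509338834407892619261479935014920235437515950800981631454937684632558006818167405358735821212556429366213987144997402131231289636521367093777736925575695203019089332073300661032419663894630718304016263506721690413579766820503684519096702093538124450689783167806435399861373229431292487311723333142306173056484163061485912814952018160426639743053416483140928837745452689558923575964923098509488214293330162891675501522338807333713380493063972695624002869892418149889534354361170153755281195008)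

end Vale.Agent.Lib.P154.PChain.BV.S0
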