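import Vale.Agent.Lib.P154.PChain.BV.R0_0

set_option linter.all false

namespace Vale.Agent.Lib.P154.PChain.BV.S1

open Vale.Agent.Lib.P154.Chain

noncomputable def pc0 : PT := (PT.nd (nat_lit 3042000) (PT.nd (nat_lit 2948166) (PT.nd (nat_lit 2854488) (PT.nd (nat_lit 2823210) (PT.nd (nat_lit 2792010) (PT.nd (nat_lit 2791932) PT.nil (PT.lf (nat_lit 76) (nat_lit 6) (nat_lit 1) (nat_lit 3) (nat_lit 105) (nat_lit 89) (nat_lit 106))) (PT.nd (nat_lit 31122) (PT.lf (nat_lit 76) (nat_lit 6) (nat_lit 1) (nat_lit 1) (nat_lit 106) (nat_lit 89) (nat_lit 105)) (PT.lf (nat_lit 152) (nat_lit 6) (nat_lit 2) (nat_lit 3) (nat_lit 104) (nat_lit 90) (nat_lit 106)))) (PT.nd (nat_lit 78) (PT.lf (nat_lit 228) (nat_lit 3) (nat_lit 3) (nat_lit 1) (nat_lit 105) (nat_lit 90) (nat_lit 105)) (PT.nd (nat_lit 31122) (PT.lf (nat_lit 152) (nat_lit 6) (nat_lit 2) (nat_lit 1) (nat_lit 106) (nat_lit 90) (nat_lit 104))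 (PT.lf (nat_lit 304) (nat_lit 6) (nat_lit 4) (nat_lit 3) (nat_lit 104) (nat_lit 91) (nat_lit 105))))) (PT.nd (nat_lit 31278) (PT.nd (nat_lit 31122) (PT.lf (nat_lit 304) (nat_lit 6) (nat_lit 4) (nat_lit 1) (nat_lit 105) (nat_lit 91) (nat_lit 104)) (PT.nd (nat_lit 78) (PT.lf (nat_lit 380) (nat_lit 6) (nat_lit 5) (nat_lit 3) (nat_lit 103) (nat_lit 92) (nat_lit 105)) (PT.lf (nat_lit 456) (nat_lit 3) (nat_lit 6) (nat_lit 1) (nat_lit 104) (nat_lit 92) (nat_lit 104)))) (PT.nd (nat_lit 31200) (PT.nd (nat_lit 31122) (PT.lf (nat_lit 380) (nat_lit 6) (nat_lit 5) (nat_lit 1) (nat_lit 105) (nat_lit 92) (nat_lit 103)) (PT.lf (nat_lit 532) (nat_lit 6) (nat_lit 7) (nat_lit 3) (nat_lit 103) (nat_lit 93) (nat_lit 104))) (PT.nd (nat_lit 31122) (PT.lf (nat_lit 532) (nat_lit 6) (nat_lit 7) (nat_lit 1) (nat_lit 104) (nat_lit 93) (nat_lit 103)) (PT.lf (nat_lit 608) (nat_lit 6) (nat_lit 8) (nat_lit 3) (nat_lit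 102) (nat_lit 94) (nat_lit 104)))))) (PT.nd (nat_lit 62400) (PT.nd (nat_lit 31200) (PT.nd (nat_lit 78) (PT.lf (nat_lit 684) (nat_lit 3) (nat_lit 9) (nat_lit 1) (nat_lit 103) (nat_lit 94) (nat_lit 103)) (PT.nd (nat_lit 31044) (PT.lf (nat_lit 608) (nat_lit 6) (nat_lit 8) (nat_lit 1) (nat_lit 104) (nat_lit 94) (nat_lit 102)) (PT.lf (nat_lit 760) (nat_lit 6) (nat_lit 10) (nat_lit 3) (nat_lit 101) (nat_lit 95) (nat_lit 104)))) (PT.nd (nat_lit 156) (PT.nd (nat_lit 78) (PT.lf (nat_lit 836) (nat_lit 6) (nat_lit 11) (nat_lit 3) (nat_lit 102) (nat_lit 95) (nat_lit 103)) (PT.lf (nat_lit 836) (nat_lit 6) (nat_lit 11) (nat_lit 1) (nat_lit 103) (nat_lit 95) (nat_lit 102))) (PT.nd (nat_lit 30966) (PT.lf (nat_lit 760) (nat_lit 6) (nat_lit 10) (nat_lit 1) (nat_lit 104) (nat_lit 95) (nat_lit 101)) (PT.lf (nat_lit 912) (nat_lit 6) (nat_lit 12) (nat_lit 3) (nat_lit 100) (nat_lit 96) (nat_lit 104))))) (PT.nd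 (nat_lit 234) (PT.nd (nat_lit 78) (PT.lf (nat_lit 988) (nat_lit 6) (nat_lit 13) (nat_lit 3) (nat_lit 101) (nat_lit 96) (nat_lit 103)) (PT.nd (nat_lit 78) (PT.lf (nat_lit 1064) (nat_lit 3) (nat_lit 14) (nat_lit 1) (nat_lit 102) (nat_lit 96) (nat_lit 102)) (PT.lf (nat_lit 988) (nat_lit 6) (nat_lit 13) (nat_lit 1) (nat_lit 103) (nat_lit 96) (nat_lit 101)))) (PT.nd (nat_lit 31044) (PT.nd (nat_lit 30966) (PT.lf (nat_lit 912) (nat_lit 6) (nat_lit 12) (nat_lit 1) (nat_lit 104) (nat_lit 96) (nat_lit 100)) (PT.lf (nat_lit 1216) (nat_lit 6) (nat_lit 16) (nat_lit 3) (nat_lit 100) (nat_lit 97) (nat_lit 103))) (PT.nd (nat_lit 78) (PT.lf (nat_lit 1292) (nat_lit 6) (nat_lit 17) (nat_lit 3) (nat_lit 101) (nat_lit 97) (nat_lit 102)) (PT.lf (nat_lit 1292) (nat_lit 6) (nat_lit 17) (nat_lit 1) (nat_lit 102) (nat_lit 97) (nat_lit 101))))))) (PT.nd (nat_lit 93366) (PT.nd (nat_lit 62166) (PT.nd (nat_lit 31122)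 (PT.nd (nat_lit 30966) (PT.lf (nat_lit 1216) (nat_lit 6) (nat_lit 16) (nat_lit 1) (nat_lit 103) (nat_lit 97) (nat_lit 100)) (PT.nd (nat_lit 78) (PT.lf (nat_lit 1140) (nat_lit 6) (nat_lit 15) (nat_lit 3) (nat_lit 99) (nat_lit 98) (nat_lit 103)) (PT.lf (nat_lit 1444) (nat_lit 6) (nat_lit 19) (nat_lit 3) (nat_lit 100) (nat_lit 98) (nat_lit 102)))) (PT.nd (nat_lit 78) (PT.lf (nat_lit 1520) (nat_lit 3) (nat_lit 20) (nat_lit 1) (nat_lit 101) (nat_lit 98) (nat_lit 101)) (PT.nd (nat_lit 78) (PT.lf (nat_lit 1444) (nat_lit 6) (nat_lit 19) (nat_lit 1) (nat_lit 102) (nat_lit 98) (nat_lit 100)) (PT.lf (nat_lit 1140) (nat_lit 6) (nat_lit 15) (nat_lit 1) (nat_lit 103) (nat_lit 98) (nat_lit 99))))) (PT.nd (nat_lit 234) (PT.nd (nat_lit 78) (PT.lf (nat_lit 1140) (nat_lit 6) (nat_lit 15) (nat_lit 5) (nat_lit 98) (nat_lit 99) (nat_lit 103)) (PT.nd (nat_lit 78) (PT.lf (nat_lit 1368) (nat_lit 3) (nat_lit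 18) (nat_lit 3) (nat_lit 99) (nat_lit 99) (nat_lit 102)) (PT.lf (nat_lit 1596) (nat_lit 6) (nat_lit 21) (nat_lit 3) (nat_lit 100) (nat_lit 99) (nat_lit 101)))) (PT.nd (nat_lit 156) (PT.nd (nat_lit 78) (PT.lf (nat_lit 1596) (nat_lit 6) (nat_lit 21) (nat_lit 1) (nat_lit 101) (nat_lit 99) (nat_lit 100)) (PT.lf (nat_lit 1368) (nat_lit 3) (nat_lit 18) (nat_lit 0) (nat_lit 102) (nat_lit 99) (nat_lit 99))) (PT.nd (nat_lit 30732) (PT.lf (nat_lit 1140) (nat_lit 6) (nat_lit 15) (nat_lit 0) (nat_lit 103) (nat_lit 99) (nat_lit 98)) (PT.lf (nat_lit 912) (nat_lit 6) (nat_lit 12) (nat_lit 5) (nat_lit 96) (nat_lit 100) (nat_lit 104)))))) (PT.nd (nat_lit 546) (PT.nd (nat_lit 234) (PT.nd (nat_lit 78) (PT.lf (nat_lit 1216) (nat_lit 6) (nat_lit 16) (nat_lit 5) (nat_lit 97) (nat_lit 100) (nat_lit 103)) (PT.nd (nat_lit 78) (PT.lf (nat_lit 1444) (nat_lit 6) (nat_lit 19) (nat_lit 5) (nat_lit 98) (nat_lit 100)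 (nat_lit 102)) (PT.lf (nat_lit 1596) (nat_lit 6) (nat_lit 21) (nat_lit 5) (nat_lit 99) (nat_lit 100) (nat_lit 101)))) (PT.nd (nat_lit 156) (PT.nd (nat_lit 78) (PT.lf (nat_lit 1672) (nat_lit 1) (nat_lit 22) (nat_lit 0) (nat_lit 100) (nat_lit 100) (nat_lit 100)) (PT.lf (nat_lit 1596) (nat_lit 6) (nat_lit 21) (nat_lit 0) (nat_lit 101) (nat_lit 100) (nat_lit 99))) (PT.nd (nat_lit 78) (PT.lf (nat_lit 1444) (nat_lit 6) (nat_lit 19) (nat_lit 0) (nat_lit 102) (nat_lit 100) (nat_lit 98)) (PT.lf (nat_lit 1216) (nat_lit 6) (nat_lit 16) (nat_lit 0) (nat_lit 103) (nat_lit 100) (nat_lit 97))))) (PT.nd (nat_lit 30732) (PT.nd (nat_lit 30576) (PT.lf (nat_lit 912) (nat_lit 6) (nat_lit 12) (nat_lit 0) (nat_lit 104) (nat_lit 100) (nat_lit 96)) (PT.nd (nat_lit 78) (PT.lf (nat_lit 760) (nat_lit 6) (nat_lit 10) (nat_lit 5) (nat_lit 95) (nat_lit 101) (nat_lit 104)) (PT.lf (nat_lit 988) (nat_lit 6) (nat_lit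 13) (nat_lit 5) (nat_lit 96) (nat_lit 101) (nat_lit 103)))) (PT.nd (nat_lit 156) (PT.nd (nat_lit 78) (PT.lf (nat_lit 1292) (nat_lit 6) (nat_lit 17) (nat_lit 5) (nat_lit 97) (nat_lit 101) (nat_lit 102)) (PT.lf (nat_lit 1520) (nat_lit 3) (nat_lit 20) (nat_lit 4) (nat_lit 98) (nat_lit 101) (nat_lit 101))) (PT.nd (nat_lit 78) (PT.lf (nat_lit 1596) (nat_lit 6) (nat_lit 21) (nat_lit 4) (nat_lit 99) (nat_lit 101) (nat_lit 100)) (PT.lf (nat_lit 1596) (nat_lit 6) (nat_lit 21) (nat_lit 2) (nat_lit 100) (nat_lit 101) (nat_lit 99))))))))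
noncomputable def pc1 : PT := (PT.nd (nat_lit 62790) (PT.nd (nat_lit 31434) (PT.nd (nat_lit 30888) (PT.nd (nat_lit 234) (PT.nd (nat_lit 78) (PT.lf (nat_lit 1520) (nat_lit 3) (nat_lit 20) (nat_lit 0) (nat_lit 101) (nat_lit 101) (nat_lit 98)) (PT.nd (nat_lit 78) (PT.lf (nat_lit 1292) (nat_lit 6) (nat_lit 17) (nat_lit 0) (nat_lit 102) (nat_lit 101) (nat_lit 97)) (PT.lf (nat_lit 988) (nat_lit 6) (nat_lit 13) (nat_lit 0) (nat_lit 103) (nat_lit 101) (nat_lit 96)))) (PT.nd (nat_lit 30498) (PT.lf (nat_lit 760) (nat_lit 6) (nat_lit 10) (nat_lit 0) (nat_lit 104) (nat_lit 101) (nat_lit 95)) (PT.nd (nat_lit 78) (PT.lf (nat_lit 608) (nat_lit 6) (nat_lit 8) (nat_lit 5) (nat_lit 94) (nat_lit 102) (nat_lit 104)) (PT.lf (nat_lit 836) (nat_lit 6) (nat_lit 11) (nat_lit 5) (nat_lit 95) (nat_lit 102) (nat_lit 103))))) (PT.nd (nat_lit 234) (PT.nd (nat_lit 78) (PT.lf (nat_lit 1064) (nat_lit 3) (nat_lit 14)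 (nat_lit 4) (nat_lit 96) (nat_lit 102) (nat_lit 102)) (PT.nd (nat_lit 78) (PT.lf (nat_lit 1292) (nat_lit 6) (nat_lit 17) (nat_lit 4) (nat_lit 97) (nat_lit 102) (nat_lit 101)) (PT.lf (nat_lit 1444) (nat_lit 6) (nat_lit 19) (nat_lit 4) (nat_lit 98) (nat_lit 102) (nat_lit 100)))) (PT.nd (nat_lit 156) (PT.nd (nat_lit 78) (PT.lf (nat_lit 1368) (nat_lit 3) (nat_lit 18) (nat_lit 2) (nat_lit 99) (nat_lit 102) (nat_lit 99)) (PT.lf (nat_lit 1444) (nat_lit 6) (nat_lit 19) (nat_lit 2) (nat_lit 100) (nat_lit 102) (nat_lit 98))) (PT.nd (nat_lit 78) (PT.lf (nat_lit 1292) (nat_lit 6) (nat_lit 17) (nat_lit 2) (nat_lit 101) (nat_lit 102) (nat_lit 97)) (PT.lf (nat_lit 1064) (nat_lit 3) (nat_lit 14) (nat_lit 0) (nat_lit 102) (nat_lit 102) (nat_lit 96)))))) (PT.nd (nat_lit 30810) (PT.nd (nat_lit 30498) (PT.nd (nat_lit 78) (PT.lf (nat_lit 836) (nat_lit 6) (nat_lit 11) (nat_lit 0) (nat_lit 103) (nat_lit 102)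 (nat_lit 95)) (PT.nd (nat_lit 30342) (PT.lf (nat_lit 608) (nat_lit 6) (nat_lit 8) (nat_lit 0) (nat_lit 104) (nat_lit 102) (nat_lit 94)) (PT.lf (nat_lit 380) (nat_lit 6) (nat_lit 5) (nat_lit 5) (nat_lit 92) (nat_lit 103) (nat_lit 105)))) (PT.nd (nat_lit 156) (PT.nd (nat_lit 78) (PT.lf (nat_lit 532) (nat_lit 6) (nat_lit 7) (nat_lit 5) (nat_lit 93) (nat_lit 103) (nat_lit 104)) (PT.lf (nat_lit 684) (nat_lit 3) (nat_lit 9) (nat_lit 4) (nat_lit 94) (nat_lit 103) (nat_lit 103))) (PT.nd (nat_lit 78) (PT.lf (nat_lit 836) (nat_lit 6) (nat_lit 11) (nat_lit 4) (nat_lit 95) (nat_lit 103) (nat_lit 102)) (PT.lf (nat_lit 988) (nat_lit 6) (nat_lit 13) (nat_lit 4) (nat_lit 96) (nat_lit 103) (nat_lit 101))))) (PT.nd (nat_lit 234) (PT.nd (nat_lit 78) (PT.lf (nat_lit 1216) (nat_lit 6) (nat_lit 16) (nat_lit 4) (nat_lit 97) (nat_lit 103) (nat_lit 100)) (PT.nd (nat_lit 78) (PT.lf (nat_lit 1140) (nat_lit 6)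 (nat_lit 15) (nat_lit 4) (nat_lit 98) (nat_lit 103) (nat_lit 99)) (PT.lf (nat_lit 1140) (nat_lit 6) (nat_lit 15) (nat_lit 2) (nat_lit 99) (nat_lit 103) (nat_lit 98)))) (PT.nd (nat_lit 156) (PT.nd (nat_lit 78) (PT.lf (nat_lit 1216) (nat_lit 6) (nat_lit 16) (nat_lit 2) (nat_lit 100) (nat_lit 103) (nat_lit 97)) (PT.lf (nat_lit 988) (nat_lit 6) (nat_lit 13) (nat_lit 2) (nat_lit 101) (nat_lit 103) (nat_lit 96))) (PT.nd (nat_lit 78) (PT.lf (nat_lit 836) (nat_lit 6) (nat_lit 11) (nat_lit 2) (nat_lit 102) (nat_lit 103) (nat_lit 95)) (PT.lf (nat_lit 684) (nat_lit 3) (nat_lit 9) (nat_lit 0) (nat_lit 103) (nat_lit 103) (nat_lit 94))))))) (PT.nd (nat_lit 31356) (PT.nd (nat_lit 30576) (PT.nd (nat_lit 30264) (PT.nd (nat_lit 78) (PT.lf (nat_lit 532) (nat_lit 6) (nat_lit 7) (nat_lit 0) (nat_lit 104) (nat_lit 103) (nat_lit 93)) (PT.nd (nat_lit 30108) (PT.lf (nat_lit 380) (nat_lit 6) (nat_lit 5) (nat_lit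 0) (nat_lit 105) (nat_lit 103) (nat_lit 92)) (PT.lf (nat_lit 152) (nat_lit 6) (nat_lit 2) (nat_lit 5) (nat_lit 90) (nat_lit 104) (nat_lit 106)))) (PT.nd (nat_lit 156) (PT.nd (nat_lit 78) (PT.lf (nat_lit 304) (nat_lit 6) (nat_lit 4) (nat_lit 5) (nat_lit 91) (nat_lit 104) (nat_lit 105)) (PT.lf (nat_lit 456) (nat_lit 3) (nat_lit 6) (nat_lit 4) (nat_lit 92) (nat_lit 104) (nat_lit 104))) (PT.nd (nat_lit 78) (PT.lf (nat_lit 532) (nat_lit 6) (nat_lit 7) (nat_lit 4) (nat_lit 93) (nat_lit 104) (nat_lit 103)) (PT.lf (nat_lit 608) (nat_lit 6) (nat_lit 8) (nat_lit 4) (nat_lit 94) (nat_lit 104) (nat_lit 102))))) (PT.nd (nat_lit 468) (PT.nd (nat_lit 78) (PT.lf (nat_lit 760) (nat_lit 6) (nat_lit 10) (nat_lit 4) (nat_lit 95) (nat_lit 104) (nat_lit 101)) (PT.nd (nat_lit 312) (PT.lf (nat_lit 912) (nat_lit 6) (nat_lit 12) (nat_lit 4) (nat_lit 96) (nat_lit 104) (nat_lit 100)) (PT.lf (nat_lit 912) (nat_lit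 6) (nat_lit 12) (nat_lit 2) (nat_lit 100) (nat_lit 104) (nat_lit 96)))) (PT.nd (nat_lit 156) (PT.nd (nat_lit 78) (PT.lf (nat_lit 760) (nat_lit 6) (nat_lit 10) (nat_lit 2) (nat_lit 101) (nat_lit 104) (nat_lit 95)) (PT.lf (nat_lit 608) (nat_lit 6) (nat_lit 8) (nat_lit 2) (nat_lit 102) (nat_lit 104) (nat_lit 94))) (PT.nd (nat_lit 78) (PT.lf (nat_lit 532) (nat_lit 6) (nat_lit 7) (nat_lit 2) (nat_lit 103) (nat_lit 104) (nat_lit 93)) (PT.lf (nat_lit 456) (nat_lit 3) (nat_lit 6) (nat_lit 0) (nat_lit 104) (nat_lit 104) (nat_lit 92)))))) (PT.nd (nat_lit 31200) (PT.nd (nat_lit 30108) (PT.nd (nat_lit 78) (PT.lf (nat_lit 304) (nat_lit 6) (nat_lit 4) (nat_lit 0) (nat_lit 105) (nat_lit 104) (nat_lit 91)) (PT.nd (nat_lit 29952) (PT.lf (nat_lit 152) (nat_lit 6) (nat_lit 2) (nat_lit 0) (nat_lit 106) (nat_lit 104) (nat_lit 90)) (PT.lf (nat_lit 76) (nat_lit 6) (nat_lit 1) (nat_lit 5) (nat_lit 89) (nat_lit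 105) (nat_lit 106)))) (PT.nd (nat_lit 156) (PT.nd (nat_lit 78) (PT.lf (nat_lit 228) (nat_lit 3) (nat_lit 3) (nat_lit 4) (nat_lit 90) (nat_lit 105) (nat_lit 105)) (PT.lf (nat_lit 304) (nat_lit 6) (nat_lit 4) (nat_lit 4) (nat_lit 91) (nat_lit 105) (nat_lit 104))) (PT.nd (nat_lit 858) (PT.lf (nat_lit 380) (nat_lit 6) (nat_lit 5) (nat_lit 4) (nat_lit 92) (nat_lit 105) (nat_lit 103)) (PT.lf (nat_lit 380) (nat_lit 6) (nat_lit 5) (nat_lit 2) (nat_lit 103) (nat_lit 105) (nat_lit 92))))) (PT.nd (nat_lit 30108) (PT.nd (nat_lit 78) (PT.lf (nat_lit 304) (nat_lit 6) (nat_lit 4) (nat_lit 2) (nat_lit 104) (nat_lit 105) (nat_lit 91)) (PT.nd (nat_lit 78) (PT.lf (nat_lit 228) (nat_lit 3) (nat_lit 3) (nat_lit 0) (nat_lit 105) (nat_lit 105) (nat_lit 90)) (PT.lf (nat_lit 76) (nat_lit 6) (nat_lit 1) (nat_lit 0) (nat_lit 106) (nat_lit 105) (nat_lit 89)))) (PT.nd (nat_lit 1170) (PT.nd (nat_lit 78) (PT.lf (nat_lit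 76) (nat_lit 6) (nat_lit 1) (nat_lit 4) (nat_lit 89) (nat_lit 106) (nat_lit 105)) (PT.lf (nat_lit 152) (nat_lit 6) (nat_lit 2) (nat_lit 4) (nat_lit 90) (nat_lit 106) (nat_lit 104))) (PT.nd (nat_lit 78) (PT.lf (nat_lit 152) (nat_lit 6) (nat_lit 2) (nat_lit 2) (nat_lit 104) (nat_lit 106) (nat_lit 90)) (PT.lf (nat_lit 76) (nat_lit 6) (nat_lit 1) (nat_lit 2) (nat_lit 105) (nat_lit 106) (nat_lit 89))))))))
noncomputable def xc0 : XT := (XT.nd (nat_lit 124644) (nat_lit 0) (nat_lit 0) (XT.nd (nat_lit 93366) (nat_lit 0) (nat_lit 0) (XT.nd (nat_lit 62244) (nat_lit 0) (nat_lit 0) (XT.nd (nat_lit 31200) (nat_lit 0) (nat_lit 0) (XT.nd (nat_lit 31122) (nat_lit 0) (nat_lit 0) (XT.lf (nat_lit 0) (nat_lit 2734777036647) (nat_lit 76) (nat_lit 196695690472) (nat_lit 76) (nat_lit 196695690472) (nat_lit 1) (nat_lit 4) (nat_lit 2) (nat_lit 5) (nat_lit 2) (nat_lit 4) (nat_lit 260) (nat_lit 170) (nat_lit 170))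 (XT.lf (nat_lit 0) (nat_lit 2067227698268) (nat_lit 76) (nat_lit 149073562929) (nat_lit 76) (nat_lit 149073562929) (nat_lit 1) (nat_lit 4) (nat_lit 2) (nat_lit 5) (nat_lit 2) (nat_lit 4) (nat_lit 258) (nat_lit 171) (nat_lit 171))) (XT.nd (nat_lit 78) (nat_lit 0) (nat_lit 0) (XT.lf (nat_lit 0) (nat_lit 4755448972761) (nat_lit 76) (nat_lit 342457186615) (nat_lit 76) (nat_lit 342418125274) (nat_lit 1) (nat_lit 4) (nat_lit 2) (nat_lit 5) (nat_lit 2) (nat_lit 4) (nat_lit 259) (nat_lit 171) (nat_lit 170)) (XT.lf (nat_lit 0) (nat_lit 5469521454055) (nat_lit 76) (nat_lit 393444951676) (nat_lit 76) (nat_lit 393371923951) (nat_lit 1) (nat_lit 4) (nat_lit 2) (nat_lit 5) (nat_lit 2) (nat_lit 4) (nat_lit 260) (nat_lit 171) (nat_lit 169)))) (XT.nd (nat_lit 156) (nat_lit 0) (nat_lit 0) (XT.nd (nat_lit 78) (nat_lit 0) (nat_lit 0) (XT.lf (nat_lit 0) (nat_lit 1562365997525) (nat_lit 76) (nat_lit 113115897093)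 (nat_lit 76) (nat_lit 113115897093) (nat_lit 1) (nat_lit 4) (nat_lit 2) (nat_lit 5) (nat_lit 2) (nat_lit 4) (nat_lit 256) (nat_lit 172) (nat_lit 172)) (XT.lf (nat_lit 0) (nat_lit 3594390851065) (nat_lit 76) (nat_lit 259692753976) (nat_lit 76) (nat_lit 259647833433) (nat_lit 1) (nat_lit 4) (nat_lit 2) (nat_lit 5) (nat_lit 2) (nat_lit 4) (nat_lit 257) (nat_lit 172) (nat_lit 171))) (XT.nd (nat_lit 78) (nat_lit 0) (nat_lit 0) (XT.lf (nat_lit 0) (nat_lit 4134417884412) (nat_lit 76) (nat_lit 298208732200) (nat_lit 76) (nat_lit 298124750316) (nat_lit 1) (nat_lit 4) (nat_lit 2) (nat_lit 5) (nat_lit 2) (nat_lit 4) (nat_lit 258) (nat_lit 172) (nat_lit 170)) (XT.nd (nat_lit 78) (nat_lit 0) (nat_lit 0) (XT.lf (nat_lit 0) (nat_lit 4755378841397) (nat_lit 76) (nat_lit 342533302347) (nat_lit 76) (nat_lit 342415354080) (nat_lit 1) (nat_lit 4) (nat_lit 2) (nat_lit 5) (nat_lit 2) (nat_lit 4) (nat_lit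 259) (nat_lit 172) (nat_lit 169)) (XT.lf (nat_lit 0) (nat_lit 5469422958136) (nat_lit 76) (nat_lit 393533684269) (nat_lit 76) (nat_lit 393386200016) (nat_lit 1) (nat_lit 4) (nat_lit 2) (nat_lit 5) (nat_lit 2) (nat_lit 4) (nat_lit 260) (nat_lit 172) (nat_lit 168)))))) (XT.nd (nat_lit 312) (nat_lit 0) (nat_lit 0) (XT.nd (nat_lit 156) (nat_lit 0) (nat_lit 0) (XT.nd (nat_lit 78) (nat_lit 0) (nat_lit 0) (XT.lf (nat_lit 0) (nat_lit 1180504749341) (nat_lit 76) (nat_lit 85985965760) (nat_lit 76) (nat_lit 85985965760) (nat_lit 1) (nat_lit 4) (nat_lit 2) (nat_lit 5) (nat_lit 2) (nat_lit 4) (nat_lit 254) (nat_lit 173) (nat_lit 173)) (XT.lf (nat_lit 0) (nat_lit 2716252338754) (nat_lit 76) (nat_lit 197222840507) (nat_lit 76) (nat_lit 197171181883) (nat_lit 1) (nat_lit 4) (nat_lit 2) (nat_lit 5) (nat_lit 2) (nat_lit 4) (nat_lit 255) (nat_lit 173) (nat_lit 172))) (XT.nd (nat_lit 78) (nat_lit 0) (nat_lit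 0) (XT.lf (nat_lit 0) (nat_lit 3124688856108) (nat_lit 76) (nat_lit 226302641480) (nat_lit 76) (nat_lit 226206062314) (nat_lit 1) (nat_lit 4) (nat_lit 2) (nat_lit 5) (nat_lit 2) (nat_lit 4) (nat_lit 256) (nat_lit 173) (nat_lit 171)) (XT.lf (nat_lit 0) (nat_lit 3594310199997) (nat_lit 76) (nat_lit 259780287067) (nat_lit 76) (nat_lit 259644646560) (nat_lit 1) (nat_lit 4) (nat_lit 2) (nat_lit 5) (nat_lit 2) (nat_lit 4) (nat_lit 257) (nat_lit 173) (nat_lit 170)))) (XT.nd (nat_lit 156) (nat_lit 0) (nat_lit 0) (XT.nd (nat_lit 78) (nat_lit 0) (nat_lit 0) (XT.lf (nat_lit 0) (nat_lit 4134304614105) (nat_lit 76) (nat_lit 298310774682) (nat_lit 76) (nat_lit 298141167791) (nat_lit 1) (nat_lit 4) (nat_lit 2) (nat_lit 5) (nat_lit 2) (nat_lit 4) (nat_lit 258) (nat_lit 173) (nat_lit 169)) (XT.lf (nat_lit 0) (nat_lit 4755237206535) (nat_lit 76) (nat_lit 342647961691) (nat_lit 76) (nat_lit 342448818814)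 (nat_lit 1) (nat_lit 4) (nat_lit 2) (nat_lit 5) (nat_lit 2) (nat_lit 4) (nat_lit 259) (nat_lit 173) (nat_lit 168))) (XT.nd (nat_lit 30654) (nat_lit 0) (nat_lit 0) (XT.lf (nat_lit 0) (nat_lit 5469256658443) (nat_lit 76) (nat_lit 393659314796) (nat_lit 76) (nat_lit 393434488453) (nat_lit 1) (nat_lit 4) (nat_lit 2) (nat_lit 5) (nat_lit 2) (nat_lit 4) (nat_lit 260) (nat_lit 173) (nat_lit 167)) (XT.nd (nat_lit 78) (nat_lit 0) (nat_lit 0) (XT.lf (nat_lit 0) (nat_lit 891632523888) (nat_lit 76) (nat_lit 65539954463) (nat_lit 76) (nat_lit 65539954463) (nat_lit 1) (nat_lit 4) (nat_lit 2) (nat_lit 5) (nat_lit 2) (nat_lit 4) (nat_lit 252) (nat_lit 174) (nat_lit 174)) (XT.lf (nat_lit 0) (nat_lit 2052009932501) (nat_lit 76) (nat_lit 150115282413) (nat_lit 76) (nat_lit 150055874995) (nat_lit 1) (nat_lit 4) (nat_lit 2) (nat_lit 5) (nat_lit 2) (nat_lit 4) (nat_lit 253) (nat_lit 174) (nat_lit 173)))))))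 (XT.nd (nat_lit 31122) (nat_lit 0) (nat_lit 0) (XT.nd (nat_lit 312) (nat_lit 0) (nat_lit 0) (XT.nd (nat_lit 156) (nat_lit 0) (nat_lit 0) (XT.nd (nat_lit 78) (nat_lit 0) (nat_lit 0) (XT.lf (nat_lit 0) (nat_lit 2360959888898) (nat_lit 76) (nat_lit 172053405906) (nat_lit 76) (nat_lit 171942339865) (nat_lit 1) (nat_lit 4) (nat_lit 2) (nat_lit 5) (nat_lit 2) (nat_lit 4) (nat_lit 254) (nat_lit 174) (nat_lit 172)) (XT.lf (nat_lit 0) (nat_lit 2716159590026) (nat_lit 76) (nat_lit 197323503562) (nat_lit 76) (nat_lit 197167516979) (nat_lit 1) (nat_lit 4) (nat_lit 2) (nat_lit 5) (nat_lit 2) (nat_lit 4) (nat_lit 255) (nat_lit 174) (nat_lit 171))) (XT.nd (nat_lit 78) (nat_lit 0) (nat_lit 0) (XT.lf (nat_lit 0) (nat_lit 3124558595255) (nat_lit 76) (nat_lit 226419990335) (nat_lit 76) (nat_lit 226224942410) (nat_lit 1) (nat_lit 4) (nat_lit 2) (nat_lit 5) (nat_lit 2) (nat_lit 4) (nat_lit 256) (nat_lit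 174) (nat_lit 170)) (XT.lf (nat_lit 0) (nat_lit 3594147319905) (nat_lit 76) (nat_lit 259912145312) (nat_lit 76) (nat_lit 259683131004) (nat_lit 1) (nat_lit 4) (nat_lit 2) (nat_lit 5) (nat_lit 2) (nat_lit 4) (nat_lit 257) (nat_lit 174) (nat_lit 169)))) (XT.nd (nat_lit 156) (nat_lit 0) (nat_lit 0) (XT.nd (nat_lit 78) (nat_lit 0) (nat_lit 0) (XT.lf (nat_lit 0) (nat_lit 4134113369457) (nat_lit 76) (nat_lit 298455249788) (nat_lit 76) (nat_lit 298196699494) (nat_lit 1) (nat_lit 4) (nat_lit 2) (nat_lit 5) (nat_lit 2) (nat_lit 4) (nat_lit 258) (nat_lit 174) (nat_lit 168)) (XT.lf (nat_lit 0) (nat_lit 4755021297056) (nat_lit 76) (nat_lit 342803407981) (nat_lit 76) (nat_lit 342519174221) (nat_lit 1) (nat_lit 4) (nat_lit 2) (nat_lit 5) (nat_lit 2) (nat_lit 4) (nat_lit 259) (nat_lit 174) (nat_lit 167))) (XT.nd (nat_lit 30498) (nat_lit 0) (nat_lit 0) (XT.lf (nat_lit 0) (nat_lit 5469019301285) (nat_lit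 76) (nat_lit 393824301246) (nat_lit 76) (nat_lit 393517734037) (nat_lit 1) (nat_lit 4) (nat_lit 2) (nat_lit 5) (nat_lit 2) (nat_lit 4) (nat_lit 260) (nat_lit 174) (nat_lit 166)) (XT.nd (nat_lit 78) (nat_lit 0) (nat_lit 0) (XT.lf (nat_lit 0) (nat_lit 673053819972) (nat_lit 76) (nat_lit 50158164146) (nat_lit 76) (nat_lit 50158164146) (nat_lit 1) (nat_lit 4) (nat_lit 2) (nat_lit 5) (nat_lit 2) (nat_lit 4) (nat_lit 250) (nat_lit 175) (nat_lit 175)) (XT.lf (nat_lit 0) (nat_lit 1549467182629) (nat_lit 76) (nat_lit 114643172756) (nat_lit 76) (nat_lit 114574854226) (nat_lit 1) (nat_lit 4) (nat_lit 2) (nat_lit 5) (nat_lit 2) (nat_lit 4) (nat_lit 251) (nat_lit 175) (nat_lit 174)))))) (XT.nd (nat_lit 312) (nat_lit 0) (nat_lit 0) (XT.nd (nat_lit 156) (nat_lit 0) (nat_lit 0) (XT.nd (nat_lit 78) (nat_lit 0) (nat_lit 0) (XT.lf (nat_lit 0) (nat_lit 1783207996523) (nat_lit 76) (nat_lit 131173604471)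 (nat_lit 76) (nat_lit 131045878523) (nat_lit 1) (nat_lit 4) (nat_lit 2) (nat_lit 5) (nat_lit 2) (nat_lit 4) (nat_lit 252) (nat_lit 175) (nat_lit 173)) (XT.lf (nat_lit 0) (nat_lit 2051903271464) (nat_lit 76) (nat_lit 150231044927) (nat_lit 76) (nat_lit 150051660356) (nat_lit 1) (nat_lit 4) (nat_lit 2) (nat_lit 5) (nat_lit 2) (nat_lit 4) (nat_lit 253) (nat_lit 175) (nat_lit 172))) (XT.nd (nat_lit 78) (nat_lit 0) (nat_lit 0) (XT.lf (nat_lit 0) (nat_lit 2360810088917) (nat_lit 76) (nat_lit 172188357089) (nat_lit 76) (nat_lit 171964051976) (nat_lit 1) (nat_lit 4) (nat_lit 2) (nat_lit 5) (nat_lit 2) (nat_lit 4) (nat_lit 254) (nat_lit 175) (nat_lit 171)) (XT.lf (nat_lit 0) (nat_lit 2715972277920) (nat_lit 76) (nat_lit 197475140544) (nat_lit 76) (nat_lit 197211774090) (nat_lit 1) (nat_lit 4) (nat_lit 2) (nat_lit 5) (nat_lit 2) (nat_lit 4) (nat_lit 255) (nat_lit 175) (nat_lit 170)))) (XT.nd (nat_lit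 156) (nat_lit 0) (nat_lit 0) (XT.nd (nat_lit 78) (nat_lit 0) (nat_lit 0) (XT.lf (nat_lit 0) (nat_lit 3124338663910) (nat_lit 76) (nat_lit 226586136707) (nat_lit 76) (nat_lit 226288803869) (nat_lit 1) (nat_lit 4) (nat_lit 2) (nat_lit 5) (nat_lit 2) (nat_lit 4) (nat_lit 256) (nat_lit 175) (nat_lit 169)) (XT.lf (nat_lit 0) (nat_lit 3593899024004) (nat_lit 76) (nat_lit 260090908546) (nat_lit 76) (nat_lit 259764039722) (nat_lit 1) (nat_lit 4) (nat_lit 2) (nat_lit 5) (nat_lit 2) (nat_lit 4) (nat_lit 257) (nat_lit 175) (nat_lit 168))) (XT.nd (nat_lit 78) (nat_lit 0) (nat_lit 0) (XT.lf (nat_lit 0) (nat_lit 4133840408726) (nat_lit 76) (nat_lit 298644984206) (nat_lit 76) (nat_lit 298292431916) (nat_lit 1) (nat_lit 4) (nat_lit 2) (nat_lit 5) (nat_lit 2) (nat_lit 4) (nat_lit 258) (nat_lit 175) (nat_lit 167)) (XT.nd (nat_lit 78) (nat_lit 0) (nat_lit 0) (XT.lf (nat_lit 0) (nat_lit 4754726888646) (nat_lit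 76) (nat_lit 343002682558) (nat_lit 76) (nat_lit 342627796819) (nat_lit 1) (nat_lit 4) (nat_lit 2) (nat_lit 5) (nat_lit 2) (nat_lit 4) (nat_lit 259) (nat_lit 175) (nat_lit 166)) (XT.lf (nat_lit 0) (nat_lit 5468706242719) (nat_lit 76) (nat_lit 394031871614) (nat_lit 76) (nat_lit 393637565485) (nat_lit 1) (nat_lit 4) (nat_lit 2) (nat_lit 5) (nat_lit 2) (nat_lit 4) (nat_lit 260) (nat_lit 175) (nat_lit 165))))))))
noncomputable def xc1 : XT := (XT.nd (nat_lit 31512) (nat_lit 0) (nat_lit 0) (XT.nd (nat_lit 702) (nat_lit 0) (nat_lit 0) (XT.nd (nat_lit 312) (nat_lit 0) (nat_lit 0) (XT.nd (nat_lit 156) (nat_lit 0) (nat_lit 0) (XT.nd (nat_lit 78) (nat_lit 0) (nat_lit 0) (XT.lf (nat_lit 0) (nat_lit 507604647222) (nat_lit 76) (nat_lit 38617402199) (nat_lit 76) (nat_lit 38617402199) (nat_lit 1) (nat_lit 4) (nat_lit 2) (nat_lit 5) (nat_lit 2) (nat_lit 4) (nat_lit 248) (nat_lit 176) (nat_lit 176))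 (XT.lf (nat_lit 0) (nat_lit 1169150594808) (nat_lit 76) (nat_lit 87991329562) (nat_lit 76) (nat_lit 87912763253) (nat_lit 1) (nat_lit 4) (nat_lit 2) (nat_lit 5) (nat_lit 2) (nat_lit 4) (nat_lit 249) (nat_lit 176) (nat_lit 175))) (XT.nd (nat_lit 78) (nat_lit 0) (nat_lit 0) (XT.lf (nat_lit 0) (nat_lit 1346042031004) (nat_lit 76) (nat_lit 100424078168) (nat_lit 76) (nat_lit 100277193329) (nat_lit 1) (nat_lit 4) (nat_lit 2) (nat_lit 5) (nat_lit 2) (nat_lit 4) (nat_lit 250) (nat_lit 176) (nat_lit 174)) (XT.lf (nat_lit 0) (nat_lit 1549344522436) (nat_lit 76) (nat_lit 114776299647) (nat_lit 76) (nat_lit 114570007390) (nat_lit 1) (nat_lit 4) (nat_lit 2) (nat_lit 5) (nat_lit 2) (nat_lit 4) (nat_lit 251) (nat_lit 176) (nat_lit 173)))) (XT.nd (nat_lit 156) (nat_lit 0) (nat_lit 0) (XT.nd (nat_lit 78) (nat_lit 0) (nat_lit 0) (XT.lf (nat_lit 0) (nat_lit 1783035726545) (nat_lit 76) (nat_lit 131328798331)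 (nat_lit 76) (nat_lit 131070847450) (nat_lit 1) (nat_lit 4) (nat_lit 2) (nat_lit 5) (nat_lit 2) (nat_lit 4) (nat_lit 252) (nat_lit 176) (nat_lit 172)) (XT.lf (nat_lit 0) (nat_lit 2051687862542) (nat_lit 76) (nat_lit 150405427456) (nat_lit 76) (nat_lit 150102556033) (nat_lit 1) (nat_lit 4) (nat_lit 2) (nat_lit 5) (nat_lit 2) (nat_lit 4) (nat_lit 253) (nat_lit 176) (nat_lit 171))) (XT.nd (nat_lit 78) (nat_lit 0) (nat_lit 0) (XT.lf (nat_lit 0) (nat_lit 2360557167871) (nat_lit 76) (nat_lit 172379425417) (nat_lit 76) (nat_lit 172037492653) (nat_lit 1) (nat_lit 4) (nat_lit 2) (nat_lit 5) (nat_lit 2) (nat_lit 4) (nat_lit 254) (nat_lit 176) (nat_lit 170)) (XT.nd (nat_lit 78) (nat_lit 0) (nat_lit 0) (XT.lf (nat_lit 0) (nat_lit 2715686737635) (nat_lit 76) (nat_lit 197680718263) (nat_lit 76) (nat_lit 197304819115) (nat_lit 1) (nat_lit 4) (nat_lit 2) (nat_lit 5) (nat_lit 2) (nat_lit 4) (nat_lit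 255) (nat_lit 176) (nat_lit 169)) (XT.lf (nat_lit 0) (nat_lit 3124024759069) (nat_lit 76) (nat_lit 226804331287) (nat_lit 76) (nat_lit 226398896153) (nat_lit 1) (nat_lit 4) (nat_lit 2) (nat_lit 5) (nat_lit 2) (nat_lit 4) (nat_lit 256) (nat_lit 176) (nat_lit 168)))))) (XT.nd (nat_lit 30420) (nat_lit 0) (nat_lit 0) (XT.nd (nat_lit 156) (nat_lit 0) (nat_lit 0) (XT.nd (nat_lit 78) (nat_lit 0) (nat_lit 0) (XT.lf (nat_lit 0) (nat_lit 3593560454333) (nat_lit 76) (nat_lit 260320074310) (nat_lit 76) (nat_lit 259888955710) (nat_lit 1) (nat_lit 4) (nat_lit 2) (nat_lit 5) (nat_lit 2) (nat_lit 4) (nat_lit 257) (nat_lit 176) (nat_lit 167)) (XT.lf (nat_lit 0) (nat_lit 4133480391375) (nat_lit 76) (nat_lit 298883690129) (nat_lit 76) (nat_lit 298430238081) (nat_lit 1) (nat_lit 4) (nat_lit 2) (nat_lit 5) (nat_lit 2) (nat_lit 4) (nat_lit 258) (nat_lit 176) (nat_lit 166))) (XT.nd (nat_lit 78) (nat_lit 0)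 (nat_lit 0) (XT.lf (nat_lit 0) (nat_lit 4754348221140) (nat_lit 76) (nat_lit 343249684273) (nat_lit 76) (nat_lit 342776811834) (nat_lit 1) (nat_lit 4) (nat_lit 2) (nat_lit 5) (nat_lit 2) (nat_lit 4) (nat_lit 259) (nat_lit 176) (nat_lit 165)) (XT.lf (nat_lit 0) (nat_lit 5468311357686) (nat_lit 76) (nat_lit 394286087060) (nat_lit 76) (nat_lit 393796327326) (nat_lit 1) (nat_lit 4) (nat_lit 2) (nat_lit 5) (nat_lit 2) (nat_lit 4) (nat_lit 260) (nat_lit 176) (nat_lit 164)))) (XT.nd (nat_lit 156) (nat_lit 0) (nat_lit 0) (XT.nd (nat_lit 78) (nat_lit 0) (nat_lit 0) (XT.lf (nat_lit 0) (nat_lit 382303192512) (nat_lit 76) (nat_lit 29994521741) (nat_lit 76) (nat_lit 29994521741) (nat_lit 1) (nat_lit 4) (nat_lit 2) (nat_lit 5) (nat_lit 2) (nat_lit 4) (nat_lit 246) (nat_lit 177) (nat_lit 177)) (XT.lf (nat_lit 0) (nat_lit 881206234906) (nat_lit 76) (nat_lit 68034400182) (nat_lit 76) (nat_lit 67944048926)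 (nat_lit 1) (nat_lit 4) (nat_lit 2) (nat_lit 5) (nat_lit 2) (nat_lit 4) (nat_lit 247) (nat_lit 177) (nat_lit 176))) (XT.nd (nat_lit 78) (nat_lit 0) (nat_lit 0) (XT.lf (nat_lit 0) (nat_lit 1015133844162) (nat_lit 76) (nat_lit 77358716757) (nat_lit 76) (nat_lit 77189799192) (nat_lit 1) (nat_lit 4) (nat_lit 2) (nat_lit 5) (nat_lit 2) (nat_lit 4) (nat_lit 248) (nat_lit 177) (nat_lit 175)) (XT.nd (nat_lit 78) (nat_lit 0) (nat_lit 0) (XT.lf (nat_lit 0) (nat_lit 1169009535585) (nat_lit 76) (nat_lit 88144425487) (nat_lit 76) (nat_lit 87907189392) (nat_lit 1) (nat_lit 4) (nat_lit 2) (nat_lit 5) (nat_lit 2) (nat_lit 4) (nat_lit 249) (nat_lit 177) (nat_lit 174)) (XT.lf (nat_lit 0) (nat_lit 1345843920529) (nat_lit 76) (nat_lit 100602551107) (nat_lit 76) (nat_lit 100305907595) (nat_lit 1) (nat_lit 4) (nat_lit 2) (nat_lit 5) (nat_lit 2) (nat_lit 4) (nat_lit 250) (nat_lit 177) (nat_lit 173))))))) (XT.nd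 (nat_lit 702) (nat_lit 0) (nat_lit 0) (XT.nd (nat_lit 312) (nat_lit 0) (nat_lit 0) (XT.nd (nat_lit 156) (nat_lit 0) (nat_lit 0) (XT.nd (nat_lit 78) (nat_lit 0) (nat_lit 0) (XT.lf (nat_lit 0) (nat_lit 1549096802176) (nat_lit 76) (nat_lit 114976839555) (nat_lit 76) (nat_lit 114628537419) (nat_lit 1) (nat_lit 4) (nat_lit 2) (nat_lit 5) (nat_lit 2) (nat_lit 4) (nat_lit 251) (nat_lit 177) (nat_lit 172)) (XT.lf (nat_lit 0) (nat_lit 1782744867342) (nat_lit 76) (nat_lit 131548526908) (nat_lit 76) (nat_lit 131155304229) (nat_lit 1) (nat_lit 4) (nat_lit 2) (nat_lit 5) (nat_lit 2) (nat_lit 4) (nat_lit 252) (nat_lit 177) (nat_lit 171))) (XT.nd (nat_lit 78) (nat_lit 0) (nat_lit 0) (XT.lf (nat_lit 0) (nat_lit 2051359491214) (nat_lit 76) (nat_lit 150641841832) (nat_lit 76) (nat_lit 150209557812) (nat_lit 1) (nat_lit 4) (nat_lit 2) (nat_lit 5) (nat_lit 2) (nat_lit 4) (nat_lit 253) (nat_lit 177) (nat_lit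 170)) (XT.lf (nat_lit 0) (nat_lit 2360196177304) (nat_lit 76) (nat_lit 172630349184) (nat_lit 76) (nat_lit 172164098781) (nat_lit 1) (nat_lit 4) (nat_lit 2) (nat_lit 5) (nat_lit 2) (nat_lit 4) (nat_lit 254) (nat_lit 177) (nat_lit 169)))) (XT.nd (nat_lit 156) (nat_lit 0) (nat_lit 0) (XT.nd (nat_lit 78) (nat_lit 0) (nat_lit 0) (XT.lf (nat_lit 0) (nat_lit 2715297382512) (nat_lit 76) (nat_lit 197944258891) (nat_lit 76) (nat_lit 197448472502) (nat_lit 1) (nat_lit 4) (nat_lit 2) (nat_lit 5) (nat_lit 2) (nat_lit 4) (nat_lit 255) (nat_lit 177) (nat_lit 168)) (XT.lf (nat_lit 0) (nat_lit 3123610739116) (nat_lit 76) (nat_lit 227078843099) (nat_lit 76) (nat_lit 226557373244) (nat_lit 1) (nat_lit 4) (nat_lit 2) (nat_lit 5) (nat_lit 2) (nat_lit 4) (nat_lit 256) (nat_lit 177) (nat_lit 167))) (XT.nd (nat_lit 78) (nat_lit 0) (nat_lit 0) (XT.lf (nat_lit 0) (nat_lit 3593124986700) (nat_lit 76) (nat_lit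 260604126281) (nat_lit 76) (nat_lit 260060322977) (nat_lit 1) (nat_lit 4) (nat_lit 2) (nat_lit 5) (nat_lit 2) (nat_lit 4) (nat_lit 257) (nat_lit 177) (nat_lit 166)) (XT.nd (nat_lit 78) (nat_lit 0) (nat_lit 0) (XT.lf (nat_lit 0) (nat_lit 4133026273587) (nat_lit 76) (nat_lit 299176037892) (nat_lit 76) (nat_lit 298612814198) (nat_lit 1) (nat_lit 4) (nat_lit 2) (nat_lit 5) (nat_lit 2) (nat_lit 4) (nat_lit 258) (nat_lit 177) (nat_lit 165)) (XT.lf (nat_lit 0) (nat_lit 4753877885825) (nat_lit 76) (nat_lit 343549245767) (nat_lit 76) (nat_lit 342969134777) (nat_lit 1) (nat_lit 4) (nat_lit 2) (nat_lit 5) (nat_lit 2) (nat_lit 4) (nat_lit 259) (nat_lit 177) (nat_lit 164)))))) (XT.nd (nat_lit 30342) (nat_lit 0) (nat_lit 0) (XT.nd (nat_lit 30108) (nat_lit 0) (nat_lit 0) (XT.nd (nat_lit 30030) (nat_lit 0) (nat_lit 0) (XT.lf (nat_lit 0) (nat_lit 5467826920174) (nat_lit 76) (nat_lit 394591921364) (nat_lit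 76) (nat_lit 393997125769) (nat_lit 1) (nat_lit 4) (nat_lit 2) (nat_lit 5) (nat_lit 2) (nat_lit 4) (nat_lit 260) (nat_lit 177) (nat_lit 163)) (XT.lf (nat_lit 0) (nat_lit 287329463985) (nat_lit 76) (nat_lit 23593517931) (nat_lit 76) (nat_lit 23593517931) (nat_lit 1) (nat_lit 4) (nat_lit 2) (nat_lit 5) (nat_lit 2) (nat_lit 4) (nat_lit 244) (nat_lit 178) (nat_lit 178))) (XT.nd (nat_lit 78) (nat_lit 0) (nat_lit 0) (XT.lf (nat_lit 0) (nat_lit 663052993111) (nat_lit 76) (nat_lit 53169141446) (nat_lit 76) (nat_lit 53065237502) (nat_lit 1) (nat_lit 4) (nat_lit 2) (nat_lit 5) (nat_lit 2) (nat_lit 4) (nat_lit 245) (nat_lit 178) (nat_lit 177)) (XT.nd (nat_lit 78) (nat_lit 0) (nat_lit 0) (XT.lf (nat_lit 0) (nat_lit 764519617201) (nat_lit 76) (nat_lit 60131542693) (nat_lit 76) (nat_lit 59937287493) (nat_lit 1) (nat_lit 4) (nat_lit 2) (nat_lit 5) (nat_lit 2) (nat_lit 4) (nat_lit 246) (nat_lit 178)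 (nat_lit 176)) (XT.lf (nat_lit 0) (nat_lit 881044016800) (nat_lit 76) (nat_lit 68210460495) (nat_lit 76) (nat_lit 67937638986) (nat_lit 1) (nat_lit 4) (nat_lit 2) (nat_lit 5) (nat_lit 2) (nat_lit 4) (nat_lit 247) (nat_lit 178) (nat_lit 175))))) (XT.nd (nat_lit 156) (nat_lit 0) (nat_lit 0) (XT.nd (nat_lit 78) (nat_lit 0) (nat_lit 0) (XT.lf (nat_lit 0) (nat_lit 1014906017116) (nat_lit 76) (nat_lit 77563960637) (nat_lit 76) (nat_lit 77222820598) (nat_lit 1) (nat_lit 4) (nat_lit 2) (nat_lit 5) (nat_lit 2) (nat_lit 4) (nat_lit 248) (nat_lit 178) (nat_lit 174)) (XT.lf (nat_lit 0) (nat_lit 1168724657287) (nat_lit 76) (nat_lit 88375046382) (nat_lit 76) (nat_lit 87974498925) (nat_lit 1) (nat_lit 4) (nat_lit 2) (nat_lit 5) (nat_lit 2) (nat_lit 4) (nat_lit 249) (nat_lit 178) (nat_lit 173))) (XT.nd (nat_lit 78) (nat_lit 0) (nat_lit 0) (XT.lf (nat_lit 0) (nat_lit 1345509432445) (nat_lit 76) (nat_lit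 100855238971) (nat_lit 76) (nat_lit 100403032891) (nat_lit 1) (nat_lit 4) (nat_lit 2) (nat_lit 5) (nat_lit 2) (nat_lit 4) (nat_lit 250) (nat_lit 178) (nat_lit 172)) (XT.nd (nat_lit 78) (nat_lit 0) (nat_lit 0) (XT.lf (nat_lit 0) (nat_lit 1548719175148) (nat_lit 76) (nat_lit 115248716088) (nat_lit 76) (nat_lit 114751589465) (nat_lit 1) (nat_lit 4) (nat_lit 2) (nat_lit 5) (nat_lit 2) (nat_lit 4) (nat_lit 251) (nat_lit 178) (nat_lit 171)) (XT.lf (nat_lit 0) (nat_lit 1782329728190) (nat_lit 76) (nat_lit 131837089240) (nat_lit 76) (nat_lit 131300901276) (nat_lit 1) (nat_lit 4) (nat_lit 2) (nat_lit 5) (nat_lit 2) (nat_lit 4) (nat_lit 252) (nat_lit 178) (nat_lit 170))))))))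
noncomputable def xc2 : XT := (XT.nd (nat_lit 31278) (nat_lit 0) (nat_lit 0) (XT.nd (nat_lit 30576) (nat_lit 0) (nat_lit 0) (XT.nd (nat_lit 312) (nat_lit 0) (nat_lit 0) (XT.nd (nat_lit 156) (nat_lit 0) (nat_lit 0) (XT.nd (nat_lit 78) (nat_lit 0) (nat_lit 0) (XT.lf (nat_lit 0) (nat_lit 2050911732823) (nat_lit 76) (nat_lit 150944913555) (nat_lit 76) (nat_lit 150374759207) (nat_lit 1) (nat_lit 4) (nat_lit 2) (nat_lit 5) (nat_lit 2) (nat_lit 4) (nat_lit 253) (nat_lit 178) (nat_lit 169)) (XT.lf (nat_lit 0) (nat_lit 2359720054357) (nat_lit 76) (nat_lit 172946037768) (nat_lit 76) (nat_lit 172346347434) (nat_lit 1) (nat_lit 4) (nat_lit 2) (nat_lit 5) (nat_lit 2) (nat_lit 4) (nat_lit 254) (nat_lit 178) (nat_lit 168))) (XT.nd (nat_lit 78) (nat_lit 0) (nat_lit 0) (XT.lf (nat_lit 0) (nat_lit 2714796594735) (nat_lit 76) (nat_lit 198270918659) (nat_lit 76) (nat_lit 197645544859) (nat_lit 1) (nat_lit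 4) (nat_lit 2) (nat_lit 5) (nat_lit 2) (nat_lit 4) (nat_lit 255) (nat_lit 178) (nat_lit 167)) (XT.lf (nat_lit 0) (nat_lit 3123088503660) (nat_lit 76) (nat_lit 227415043026) (nat_lit 76) (nat_lit 226767335778) (nat_lit 1) (nat_lit 4) (nat_lit 2) (nat_lit 5) (nat_lit 2) (nat_lit 4) (nat_lit 256) (nat_lit 178) (nat_lit 166)))) (XT.nd (nat_lit 156) (nat_lit 0) (nat_lit 0) (XT.nd (nat_lit 78) (nat_lit 0) (nat_lit 0) (XT.lf (nat_lit 0) (nat_lit 3592584101088) (nat_lit 76) (nat_lit 260948622000) (nat_lit 76) (nat_lit 260281494361) (nat_lit 1) (nat_lit 4) (nat_lit 2) (nat_lit 5) (nat_lit 2) (nat_lit 4) (nat_lit 257) (nat_lit 178) (nat_lit 165)) (XT.lf (nat_lit 0) (nat_lit 4132469170448) (nat_lit 76) (nat_lit 299527747342) (nat_lit 76) (nat_lit 298843732408) (nat_lit 1) (nat_lit 4) (nat_lit 2) (nat_lit 5) (nat_lit 2) (nat_lit 4) (nat_lit 258) (nat_lit 178) (nat_lit 164))) (XT.nd (nat_lit 29952)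 (nat_lit 0) (nat_lit 0) (XT.lf (nat_lit 0) (nat_lit 4753306680489) (nat_lit 76) (nat_lit 343907228027) (nat_lit 76) (nat_lit 343208528488) (nat_lit 1) (nat_lit 4) (nat_lit 2) (nat_lit 5) (nat_lit 2) (nat_lit 4) (nat_lit 259) (nat_lit 178) (nat_lit 163)) (XT.nd (nat_lit 78) (nat_lit 0) (nat_lit 0) (XT.lf (nat_lit 0) (nat_lit 215253679496) (nat_lit 76) (nat_lit 18890441975) (nat_lit 76) (nat_lit 18890441975) (nat_lit 1) (nat_lit 4) (nat_lit 2) (nat_lit 5) (nat_lit 2) (nat_lit 4) (nat_lit 242) (nat_lit 179) (nat_lit 179)) (XT.lf (nat_lit 0) (nat_lit 497607972678) (nat_lit 76) (nat_lit 42187674279) (nat_lit 76) (nat_lit 42068184743) (nat_lit 1) (nat_lit 4) (nat_lit 2) (nat_lit 5) (nat_lit 2) (nat_lit 4) (nat_lit 243) (nat_lit 179) (nat_lit 178)))))) (XT.nd (nat_lit 312) (nat_lit 0) (nat_lit 0) (XT.nd (nat_lit 156) (nat_lit 0) (nat_lit 0) (XT.nd (nat_lit 78) (nat_lit 0) (nat_lit 0) (XT.lf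 (nat_lit 0) (nat_lit 574559144972) (nat_lit 76) (nat_lit 47350909955) (nat_lit 76) (nat_lit 47127516475) (nat_lit 1) (nat_lit 4) (nat_lit 2) (nat_lit 5) (nat_lit 2) (nat_lit 4) (nat_lit 244) (nat_lit 179) (nat_lit 177)) (XT.lf (nat_lit 0) (nat_lit 662866442289) (nat_lit 76) (nat_lit 53371610807) (nat_lit 76) (nat_lit 53057866071) (nat_lit 1) (nat_lit 4) (nat_lit 2) (nat_lit 5) (nat_lit 2) (nat_lit 4) (nat_lit 245) (nat_lit 179) (nat_lit 176))) (XT.nd (nat_lit 78) (nat_lit 0) (nat_lit 0) (XT.lf (nat_lit 0) (nat_lit 764257616098) (nat_lit 76) (nat_lit 60367573155) (nat_lit 76) (nat_lit 59975262110) (nat_lit 1) (nat_lit 4) (nat_lit 2) (nat_lit 5) (nat_lit 2) (nat_lit 4) (nat_lit 246) (nat_lit 179) (nat_lit 175)) (XT.lf (nat_lit 0) (nat_lit 880716406756) (nat_lit 76) (nat_lit 68475674524) (nat_lit 76) (nat_lit 68015044949) (nat_lit 1) (nat_lit 4) (nat_lit 2) (nat_lit 5) (nat_lit 2) (nat_lit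 4) (nat_lit 247) (nat_lit 179) (nat_lit 174)))) (XT.nd (nat_lit 156) (nat_lit 0) (nat_lit 0) (XT.nd (nat_lit 78) (nat_lit 0) (nat_lit 0) (XT.lf (nat_lit 0) (nat_lit 1014521355820) (nat_lit 76) (nat_lit 77854551681) (nat_lit 76) (nat_lit 77334514688) (nat_lit 1) (nat_lit 4) (nat_lit 2) (nat_lit 5) (nat_lit 2) (nat_lit 4) (nat_lit 248) (nat_lit 179) (nat_lit 173)) (XT.lf (nat_lit 0) (nat_lit 1168290386205) (nat_lit 76) (nat_lit 88687704394) (nat_lit 76) (nat_lit 88116008778) (nat_lit 1) (nat_lit 4) (nat_lit 2) (nat_lit 5) (nat_lit 2) (nat_lit 4) (nat_lit 249) (nat_lit 179) (nat_lit 172))) (XT.nd (nat_lit 78) (nat_lit 0) (nat_lit 0) (XT.lf (nat_lit 0) (nat_lit 1345032022420) (nat_lit 76) (nat_lit 101187085653) (nat_lit 76) (nat_lit 100570469494) (nat_lit 1) (nat_lit 4) (nat_lit 2) (nat_lit 5) (nat_lit 2) (nat_lit 4) (nat_lit 250) (nat_lit 179) (nat_lit 171)) (XT.nd (nat_lit 78) (nat_lit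 0) (nat_lit 0) (XT.lf (nat_lit 0) (nat_lit 1548204252999) (nat_lit 76) (nat_lit 115597248569) (nat_lit 76) (nat_lit 114941571069) (nat_lit 1) (nat_lit 4) (nat_lit 2) (nat_lit 5) (nat_lit 2) (nat_lit 4) (nat_lit 251) (nat_lit 179) (nat_lit 170)) (XT.lf (nat_lit 0) (nat_lit 1781782186801) (nat_lit 76) (nat_lit 132200131112) (nat_lit 76) (nat_lit 131510487228) (nat_lit 1) (nat_lit 4) (nat_lit 2) (nat_lit 5) (nat_lit 2) (nat_lit 4) (nat_lit 252) (nat_lit 179) (nat_lit 169))))))) (XT.nd (nat_lit 30420) (nat_lit 0) (nat_lit 0) (XT.nd (nat_lit 312) (nat_lit 0) (nat_lit 0) (XT.nd (nat_lit 156) (nat_lit 0) (nat_lit 0) (XT.nd (nat_lit 78) (nat_lit 0) (nat_lit 0) (XT.lf (nat_lit 0) (nat_lit 2050335826879) (nat_lit 76) (nat_lit 151320572287) (nat_lit 76) (nat_lit 150601392418) (nat_lit 1) (nat_lit 4) (nat_lit 2) (nat_lit 5) (nat_lit 2) (nat_lit 4) (nat_lit 253) (nat_lit 179) (nat_lit 168)) (XT.lf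 (nat_lit 0) (nat_lit 2359119483582) (nat_lit 76) (nat_lit 173332667685) (nat_lit 76) (nat_lit 172587804349) (nat_lit 1) (nat_lit 4) (nat_lit 2) (nat_lit 5) (nat_lit 2) (nat_lit 4) (nat_lit 254) (nat_lit 179) (nat_lit 167))) (XT.nd (nat_lit 78) (nat_lit 0) (nat_lit 0) (XT.lf (nat_lit 0) (nat_lit 2714174576281) (nat_lit 76) (nat_lit 198667088735) (nat_lit 76) (nat_lit 197899891951) (nat_lit 1) (nat_lit 4) (nat_lit 2) (nat_lit 5) (nat_lit 2) (nat_lit 4) (nat_lit 255) (nat_lit 179) (nat_lit 166)) (XT.lf (nat_lit 0) (nat_lit 3122447835050) (nat_lit 76) (nat_lit 227819508894) (nat_lit 76) (nat_lit 227032891719) (nat_lit 1) (nat_lit 4) (nat_lit 2) (nat_lit 5) (nat_lit 2) (nat_lit 4) (nat_lit 256) (nat_lit 179) (nat_lit 165)))) (XT.nd (nat_lit 156) (nat_lit 0) (nat_lit 0) (XT.nd (nat_lit 78) (nat_lit 0) (nat_lit 0) (XT.lf (nat_lit 0) (nat_lit 3591927214952) (nat_lit 76) (nat_lit 261360301598)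 (nat_lit 76) (nat_lit 260556797128) (nat_lit 1) (nat_lit 4) (nat_lit 2) (nat_lit 5) (nat_lit 2) (nat_lit 4) (nat_lit 257) (nat_lit 179) (nat_lit 164)) (XT.lf (nat_lit 0) (nat_lit 4131798182115) (nat_lit 76) (nat_lit 299945699751) (nat_lit 76) (nat_lit 299127510675) (nat_lit 1) (nat_lit 4) (nat_lit 2) (nat_lit 5) (nat_lit 2) (nat_lit 4) (nat_lit 258) (nat_lit 179) (nat_lit 163))) (XT.nd (nat_lit 29796) (nat_lit 0) (nat_lit 0) (XT.lf (nat_lit 0) (nat_lit 4752623429375) (nat_lit 76) (nat_lit 344330635053) (nat_lit 76) (nat_lit 343499676756) (nat_lit 1) (nat_lit 4) (nat_lit 2) (nat_lit 5) (nat_lit 2) (nat_lit 4) (nat_lit 259) (nat_lit 179) (nat_lit 162)) (XT.nd (nat_lit 78) (nat_lit 0) (nat_lit 0) (XT.lf (nat_lit 0) (nat_lit 160452730220) (nat_lit 76) (nat_lit 15491793795) (nat_lit 76) (nat_lit 15491793795) (nat_lit 1) (nat_lit 4) (nat_lit 2) (nat_lit 5) (nat_lit 2) (nat_lit 4) (nat_lit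 240) (nat_lit 180) (nat_lit 180)) (XT.lf (nat_lit 0) (nat_lit 371944465820) (nat_lit 76) (nat_lit 34181732125) (nat_lit 76) (nat_lit 34044319159) (nat_lit 1) (nat_lit 4) (nat_lit 2) (nat_lit 5) (nat_lit 2) (nat_lit 4) (nat_lit 241) (nat_lit 180) (nat_lit 179)))))) (XT.nd (nat_lit 390) (nat_lit 0) (nat_lit 0) (XT.nd (nat_lit 156) (nat_lit 0) (nat_lit 0) (XT.nd (nat_lit 78) (nat_lit 0) (nat_lit 0) (XT.lf (nat_lit 0) (nat_lit 430392608545) (nat_lit 76) (nat_lit 37969339158) (nat_lit 76) (nat_lit 37712436655) (nat_lit 1) (nat_lit 4) (nat_lit 2) (nat_lit 5) (nat_lit 2) (nat_lit 4) (nat_lit 242) (nat_lit 180) (nat_lit 178)) (XT.lf (nat_lit 0) (nat_lit 497393439233) (nat_lit 76) (nat_lit 42420514043) (nat_lit 76) (nat_lit 42059707597) (nat_lit 1) (nat_lit 4) (nat_lit 2) (nat_lit 5) (nat_lit 2) (nat_lit 4) (nat_lit 243) (nat_lit 180) (nat_lit 177))) (XT.nd (nat_lit 78) (nat_lit 0) (nat_lit 0)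 (XT.lf (nat_lit 0) (nat_lit 574257843704) (nat_lit 76) (nat_lit 47622344986) (nat_lit 76) (nat_lit 47171187284) (nat_lit 1) (nat_lit 4) (nat_lit 2) (nat_lit 5) (nat_lit 2) (nat_lit 4) (nat_lit 244) (nat_lit 180) (nat_lit 176)) (XT.nd (nat_lit 78) (nat_lit 0) (nat_lit 0) (XT.lf (nat_lit 0) (nat_lit 662489690739) (nat_lit 76) (nat_lit 53676606940) (nat_lit 76) (nat_lit 53146882928) (nat_lit 1) (nat_lit 4) (nat_lit 2) (nat_lit 5) (nat_lit 2) (nat_lit 4) (nat_lit 245) (nat_lit 180) (nat_lit 175)) (XT.lf (nat_lit 0) (nat_lit 763815255607) (nat_lit 76) (nat_lit 60701752855) (nat_lit 76) (nat_lit 60103710314) (nat_lit 1) (nat_lit 4) (nat_lit 2) (nat_lit 5) (nat_lit 2) (nat_lit 4) (nat_lit 246) (nat_lit 180) (nat_lit 174))))) (XT.nd (nat_lit 156) (nat_lit 0) (nat_lit 0) (XT.nd (nat_lit 78) (nat_lit 0) (nat_lit 0) (XT.lf (nat_lit 0) (nat_lit 880216995013) (nat_lit 76) (nat_lit 68835231239) (nat_lit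 76) (nat_lit 68177781280) (nat_lit 1) (nat_lit 4) (nat_lit 2) (nat_lit 5) (nat_lit 2) (nat_lit 4) (nat_lit 247) (nat_lit 180) (nat_lit 173)) (XT.lf (nat_lit 0) (nat_lit 1013972334291) (nat_lit 76) (nat_lit 78236175365) (nat_lit 76) (nat_lit 77527066782) (nat_lit 1) (nat_lit 4) (nat_lit 2) (nat_lit 5) (nat_lit 2) (nat_lit 4) (nat_lit 248) (nat_lit 180) (nat_lit 172))) (XT.nd (nat_lit 78) (nat_lit 0) (nat_lit 0) (XT.lf (nat_lit 0) (nat_lit 1167698225733) (nat_lit 76) (nat_lit 89088516747) (nat_lit 76) (nat_lit 88334487622) (nat_lit 1) (nat_lit 4) (nat_lit 2) (nat_lit 5) (nat_lit 2) (nat_lit 4) (nat_lit 249) (nat_lit 180) (nat_lit 171)) (XT.nd (nat_lit 78) (nat_lit 0) (nat_lit 0) (XT.lf (nat_lit 0) (nat_lit 1344402349823) (nat_lit 76) (nat_lit 101604583805) (nat_lit 76) (nat_lit 100811493339) (nat_lit 1) (nat_lit 4) (nat_lit 2) (nat_lit 5) (nat_lit 2) (nat_lit 4) (nat_lit 250) (nat_lit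 180) (nat_lit 170)) (XT.lf (nat_lit 0) (nat_lit 1547541961163) (nat_lit 76) (nat_lit 116029256112) (nat_lit 76) (nat_lit 115202199261) (nat_lit 1) (nat_lit 4) (nat_lit 2) (nat_lit 5) (nat_lit 2) (nat_lit 4) (nat_lit 251) (nat_lit 180) (nat_lit 169))))))))
noncomputable def xc3 : XT := (XT.nd (nat_lit 30966) (nat_lit 0) (nat_lit 0) (XT.nd (nat_lit 30264) (nat_lit 0) (nat_lit 0) (XT.nd (nat_lit 312) (nat_lit 0) (nat_lit 0) (XT.nd (nat_lit 156) (nat_lit 0) (nat_lit 0) (XT.nd (nat_lit 78) (nat_lit 0) (nat_lit 0) (XT.lf (nat_lit 0) (nat_lit 1781091530410) (nat_lit 76) (nat_lit 132644755515) (nat_lit 76) (nat_lit 131788162680) (nat_lit 1) (nat_lit 4) (nat_lit 2) (nat_lit 5) (nat_lit 2) (nat_lit 4) (nat_lit 252) (nat_lit 180) (nat_lit 168)) (XT.lf (nat_lit 0) (nat_lit 2049620505657) (nat_lit 76) (nat_lit 151776167875) (nat_lit 76) (nat_lit 150893891573) (nat_lit 1) (nat_lit 4) (nat_lit 2) (nat_lit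 5) (nat_lit 2) (nat_lit 4) (nat_lit 253) (nat_lit 180) (nat_lit 167))) (XT.nd (nat_lit 78) (nat_lit 0) (nat_lit 0) (XT.lf (nat_lit 0) (nat_lit 2358382714681) (nat_lit 76) (nat_lit 173797803432) (nat_lit 76) (nat_lit 172893193681) (nat_lit 1) (nat_lit 4) (nat_lit 2) (nat_lit 5) (nat_lit 2) (nat_lit 4) (nat_lit 254) (nat_lit 180) (nat_lit 166)) (XT.lf (nat_lit 0) (nat_lit 2713419157224) (nat_lit 76) (nat_lit 199140520273) (nat_lit 76) (nat_lit 198216490133) (nat_lit 1) (nat_lit 4) (nat_lit 2) (nat_lit 5) (nat_lit 2) (nat_lit 4) (nat_lit 255) (nat_lit 180) (nat_lit 165)))) (XT.nd (nat_lit 156) (nat_lit 0) (nat_lit 0) (XT.nd (nat_lit 78) (nat_lit 0) (nat_lit 0) (XT.lf (nat_lit 0) (nat_lit 3121676198466) (nat_lit 76) (nat_lit 228300154163) (nat_lit 76) (nat_lit 227359236727) (nat_lit 1) (nat_lit 4) (nat_lit 2) (nat_lit 5) (nat_lit 2) (nat_lit 4) (nat_lit 256) (nat_lit 180) (nat_lit 164))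 (XT.lf (nat_lit 0) (nat_lit 3591141476171) (nat_lit 76) (nat_lit 261847219678) (nat_lit 76) (nat_lit 260891617637) (nat_lit 1) (nat_lit 4) (nat_lit 2) (nat_lit 5) (nat_lit 2) (nat_lit 4) (nat_lit 257) (nat_lit 180) (nat_lit 163))) (XT.nd (nat_lit 78) (nat_lit 0) (nat_lit 0) (XT.lf (nat_lit 0) (nat_lit 4131000180554) (nat_lit 76) (nat_lit 300438072448) (nat_lit 76) (nat_lit 299469701185) (nat_lit 1) (nat_lit 4) (nat_lit 2) (nat_lit 5) (nat_lit 2) (nat_lit 4) (nat_lit 258) (nat_lit 180) (nat_lit 162)) (XT.nd (nat_lit 29640) (nat_lit 0) (nat_lit 0) (XT.lf (nat_lit 0) (nat_lit 4751814764527) (nat_lit 76) (nat_lit 344827750895) (nat_lit 76) (nat_lit 343848275961) (nat_lit 1) (nat_lit 4) (nat_lit 2) (nat_lit 5) (nat_lit 2) (nat_lit 4) (nat_lit 259) (nat_lit 180) (nat_lit 161)) (XT.lf (nat_lit 0) (nat_lit 118668843005) (nat_lit 76) (nat_lit 13103113354) (nat_lit 76) (nat_lit 13103113354) (nat_lit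 1) (nat_lit 4) (nat_lit 2) (nat_lit 5) (nat_lit 2) (nat_lit 4) (nat_lit 238) (nat_lit 181) (nat_lit 181)))))) (XT.nd (nat_lit 312) (nat_lit 0) (nat_lit 0) (XT.nd (nat_lit 156) (nat_lit 0) (nat_lit 0) (XT.nd (nat_lit 78) (nat_lit 0) (nat_lit 0) (XT.lf (nat_lit 0) (nat_lit 276277003172) (nat_lit 76) (nat_lit 28470358071) (nat_lit 76) (nat_lit 28312333160) (nat_lit 1) (nat_lit 4) (nat_lit 2) (nat_lit 5) (nat_lit 2) (nat_lit 4) (nat_lit 239) (nat_lit 181) (nat_lit 180)) (XT.lf (nat_lit 0) (nat_lit 320773497427) (nat_lit 76) (nat_lit 31200311078) (nat_lit 76) (nat_lit 30904873201) (nat_lit 1) (nat_lit 4) (nat_lit 2) (nat_lit 5) (nat_lit 2) (nat_lit 4) (nat_lit 240) (nat_lit 181) (nat_lit 179))) (XT.nd (nat_lit 78) (nat_lit 0) (nat_lit 0) (XT.lf (nat_lit 0) (nat_lit 371697752359) (nat_lit 76) (nat_lit 34449497854) (nat_lit 76) (nat_lit 34034570440) (nat_lit 1) (nat_lit 4) (nat_lit 2) (nat_lit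 5) (nat_lit 2) (nat_lit 4) (nat_lit 241) (nat_lit 181) (nat_lit 178)) (XT.lf (nat_lit 0) (nat_lit 430046112086) (nat_lit 76) (nat_lit 38281489444) (nat_lit 76) (nat_lit 37762658086) (nat_lit 1) (nat_lit 4) (nat_lit 2) (nat_lit 5) (nat_lit 2) (nat_lit 4) (nat_lit 242) (nat_lit 181) (nat_lit 177)))) (XT.nd (nat_lit 156) (nat_lit 0) (nat_lit 0) (XT.nd (nat_lit 78) (nat_lit 0) (nat_lit 0) (XT.lf (nat_lit 0) (nat_lit 496960174950) (nat_lit 76) (nat_lit 42771259597) (nat_lit 76) (nat_lit 42162076983) (nat_lit 1) (nat_lit 4) (nat_lit 2) (nat_lit 5) (nat_lit 2) (nat_lit 4) (nat_lit 243) (nat_lit 181) (nat_lit 176)) (XT.lf (nat_lit 0) (nat_lit 573749129139) (nat_lit 76) (nat_lit 48006651642) (nat_lit 76) (nat_lit 47318902719) (nat_lit 1) (nat_lit 4) (nat_lit 2) (nat_lit 5) (nat_lit 2) (nat_lit 4) (nat_lit 244) (nat_lit 181) (nat_lit 175))) (XT.nd (nat_lit 78) (nat_lit 0) (nat_lit 0) (XT.lf (nat_lit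 0) (nat_lit 661915367234) (nat_lit 76) (nat_lit 54090097162) (nat_lit 76) (nat_lit 53334029709) (nat_lit 1) (nat_lit 4) (nat_lit 2) (nat_lit 5) (nat_lit 2) (nat_lit 4) (nat_lit 245) (nat_lit 181) (nat_lit 174)) (XT.nd (nat_lit 78) (nat_lit 0) (nat_lit 0) (XT.lf (nat_lit 0) (nat_lit 763183880850) (nat_lit 76) (nat_lit 61140620092) (nat_lit 76) (nat_lit 60325145222) (nat_lit 1) (nat_lit 4) (nat_lit 2) (nat_lit 5) (nat_lit 2) (nat_lit 4) (nat_lit 246) (nat_lit 181) (nat_lit 173)) (XT.lf (nat_lit 0) (nat_lit 879536010470) (nat_lit 76) (nat_lit 69296165445) (nat_lit 76) (nat_lit 68429031951) (nat_lit 1) (nat_lit 4) (nat_lit 2) (nat_lit 5) (nat_lit 2) (nat_lit 4) (nat_lit 247) (nat_lit 181) (nat_lit 172))))))) (XT.nd (nat_lit 702) (nat_lit 0) (nat_lit 0) (XT.nd (nat_lit 312) (nat_lit 0) (nat_lit 0) (XT.nd (nat_lit 156) (nat_lit 0) (nat_lit 0) (XT.nd (nat_lit 78) (nat_lit 0) (nat_lit 0) (XT.lf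 (nat_lit 0) (nat_lit 1013248210805) (nat_lit 76) (nat_lit 78716298240) (nat_lit 76) (nat_lit 77804244203) (nat_lit 1) (nat_lit 4) (nat_lit 2) (nat_lit 5) (nat_lit 2) (nat_lit 4) (nat_lit 248) (nat_lit 181) (nat_lit 171)) (XT.lf (nat_lit 0) (nat_lit 1166936590122) (nat_lit 76) (nat_lit 89585325421) (nat_lit 76) (nat_lit 88634210044) (nat_lit 1) (nat_lit 4) (nat_lit 2) (nat_lit 5) (nat_lit 2) (nat_lit 4) (nat_lit 249) (nat_lit 181) (nat_lit 170))) (XT.nd (nat_lit 78) (nat_lit 0) (nat_lit 0) (XT.lf (nat_lit 0) (nat_lit 1343608094974) (nat_lit 76) (nat_lit 102115901870) (nat_lit 76) (nat_lit 101130820108) (nat_lit 1) (nat_lit 4) (nat_lit 2) (nat_lit 5) (nat_lit 2) (nat_lit 4) (nat_lit 250) (nat_lit 181) (nat_lit 169)) (XT.lf (nat_lit 0) (nat_lit 1546719341758) (nat_lit 76) (nat_lit 116553191037) (nat_lit 76) (nat_lit 115538573290) (nat_lit 1) (nat_lit 4) (nat_lit 2) (nat_lit 5) (nat_lit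 2) (nat_lit 4) (nat_lit 251) (nat_lit 181) (nat_lit 168)))) (XT.nd (nat_lit 156) (nat_lit 0) (nat_lit 0) (XT.nd (nat_lit 78) (nat_lit 0) (nat_lit 0) (XT.lf (nat_lit 0) (nat_lit 1780244246174) (nat_lit 76) (nat_lit 133179661625) (nat_lit 76) (nat_lit 132139360412) (nat_lit 1) (nat_lit 4) (nat_lit 2) (nat_lit 5) (nat_lit 2) (nat_lit 4) (nat_lit 252) (nat_lit 181) (nat_lit 167)) (XT.lf (nat_lit 0) (nat_lit 2048751773742) (nat_lit 76) (nat_lit 152320614144) (nat_lit 76) (nat_lit 151257979483) (nat_lit 1) (nat_lit 4) (nat_lit 2) (nat_lit 5) (nat_lit 2) (nat_lit 4) (nat_lit 253) (nat_lit 181) (nat_lit 166))) (XT.nd (nat_lit 78) (nat_lit 0) (nat_lit 0) (XT.lf (nat_lit 0) (nat_lit 2357495332610) (nat_lit 76) (nat_lit 174350545492) (nat_lit 76) (nat_lit 173268490441) (nat_lit 1) (nat_lit 4) (nat_lit 2) (nat_lit 5) (nat_lit 2) (nat_lit 4) (nat_lit 254) (nat_lit 181) (nat_lit 165)) (XT.nd (nat_lit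 78) (nat_lit 0) (nat_lit 0) (XT.lf (nat_lit 0) (nat_lit 2712515557627) (nat_lit 76) (nat_lit 199700476065) (nat_lit 76) (nat_lit 198601533718) (nat_lit 1) (nat_lit 4) (nat_lit 2) (nat_lit 5) (nat_lit 2) (nat_lit 4) (nat_lit 255) (nat_lit 181) (nat_lit 164)) (XT.lf (nat_lit 0) (nat_lit 3120758496672) (nat_lit 76) (nat_lit 228866382765) (nat_lit 76) (nat_lit 227752755813) (nat_lit 1) (nat_lit 4) (nat_lit 2) (nat_lit 5) (nat_lit 2) (nat_lit 4) (nat_lit 256) (nat_lit 181) (nat_lit 163)))))) (XT.nd (nat_lit 29796) (nat_lit 0) (nat_lit 0) (XT.nd (nat_lit 156) (nat_lit 0) (nat_lit 0) (XT.nd (nat_lit 78) (nat_lit 0) (nat_lit 0) (XT.lf (nat_lit 0) (nat_lit 3590211511596) (nat_lit 76) (nat_lit 262418902897) (nat_lit 76) (nat_lit 261292506723) (nat_lit 1) (nat_lit 4) (nat_lit 2) (nat_lit 5) (nat_lit 2) (nat_lit 4) (nat_lit 257) (nat_lit 181) (nat_lit 162)) (XT.lf (nat_lit 0) (nat_lit 4130059552692)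 (nat_lit 76) (nat_lit 301014498812) (nat_lit 76) (nat_lit 299876998967) (nat_lit 1) (nat_lit 4) (nat_lit 2) (nat_lit 5) (nat_lit 2) (nat_lit 4) (nat_lit 258) (nat_lit 181) (nat_lit 161))) (XT.nd (nat_lit 29484) (nat_lit 0) (nat_lit 0) (XT.lf (nat_lit 0) (nat_lit 4750864864242) (nat_lit 76) (nat_lit 345408301734) (nat_lit 76) (nat_lit 344261146522) (nat_lit 1) (nat_lit 4) (nat_lit 2) (nat_lit 5) (nat_lit 2) (nat_lit 4) (nat_lit 259) (nat_lit 181) (nat_lit 160)) (XT.nd (nat_lit 78) (nat_lit 0) (nat_lit 0) (XT.lf (nat_lit 0) (nat_lit 86675750364) (nat_lit 76) (nat_lit 11505291503) (nat_lit 76) (nat_lit 11505291503) (nat_lit 1) (nat_lit 4) (nat_lit 2) (nat_lit 5) (nat_lit 2) (nat_lit 4) (nat_lit 236) (nat_lit 182) (nat_lit 182)) (XT.lf (nat_lit 0) (nat_lit 203193689737) (nat_lit 76) (nat_lit 24545347417) (nat_lit 76) (nat_lit 24363618769) (nat_lit 1) (nat_lit 4) (nat_lit 2) (nat_lit 5) (nat_lit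 2) (nat_lit 4) (nat_lit 237) (nat_lit 182) (nat_lit 181))))) (XT.nd (nat_lit 156) (nat_lit 0) (nat_lit 0) (XT.nd (nat_lit 78) (nat_lit 0) (nat_lit 0) (XT.lf (nat_lit 0) (nat_lit 237185928544) (nat_lit 76) (nat_lit 26455458720) (nat_lit 76) (nat_lit 26115705161) (nat_lit 1) (nat_lit 4) (nat_lit 2) (nat_lit 5) (nat_lit 2) (nat_lit 4) (nat_lit 238) (nat_lit 182) (nat_lit 180)) (XT.lf (nat_lit 0) (nat_lit 275993282691) (nat_lit 76) (nat_lit 28778288659) (nat_lit 76) (nat_lit 28301122134) (nat_lit 1) (nat_lit 4) (nat_lit 2) (nat_lit 5) (nat_lit 2) (nat_lit 4) (nat_lit 239) (nat_lit 182) (nat_lit 179))) (XT.nd (nat_lit 78) (nat_lit 0) (nat_lit 0) (XT.lf (nat_lit 0) (nat_lit 320375026499) (nat_lit 76) (nat_lit 31559283907) (nat_lit 76) (nat_lit 30962627846) (nat_lit 1) (nat_lit 4) (nat_lit 2) (nat_lit 5) (nat_lit 2) (nat_lit 4) (nat_lit 240) (nat_lit 182) (nat_lit 178)) (XT.nd (nat_lit 78)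 (nat_lit 0) (nat_lit 0) (XT.lf (nat_lit 0) (nat_lit 371199498433) (nat_lit 76) (nat_lit 34852855240) (nat_lit 76) (nat_lit 34152295235) (nat_lit 1) (nat_lit 4) (nat_lit 2) (nat_lit 5) (nat_lit 2) (nat_lit 4) (nat_lit 241) (nat_lit 182) (nat_lit 177)) (XT.lf (nat_lit 0) (nat_lit 429461090337) (nat_lit 76) (nat_lit 38723442097) (nat_lit 76) (nat_lit 37932530836) (nat_lit 1) (nat_lit 4) (nat_lit 2) (nat_lit 5) (nat_lit 2) (nat_lit 4) (nat_lit 242) (nat_lit 182) (nat_lit 176))))))))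
noncomputable def xc4 : XT := (XT.nd (nat_lit 30654) (nat_lit 0) (nat_lit 0) (XT.nd (nat_lit 702) (nat_lit 0) (nat_lit 0) (XT.nd (nat_lit 312) (nat_lit 0) (nat_lit 0) (XT.nd (nat_lit 156) (nat_lit 0) (nat_lit 0) (XT.nd (nat_lit 78) (nat_lit 0) (nat_lit 0) (XT.lf (nat_lit 0) (nat_lit 496299702920) (nat_lit 76) (nat_lit 43246773352) (nat_lit 76) (nat_lit 42377295781) (nat_lit 1) (nat_lit 4) (nat_lit 2) (nat_lit 5) (nat_lit 2) (nat_lit 4) (nat_lit 243) (nat_lit 182) (nat_lit 175)) (XT.lf (nat_lit 0) (nat_lit 573023048168) (nat_lit 76) (nat_lit 48511348964) (nat_lit 76) (nat_lit 47573552863) (nat_lit 1) (nat_lit 4) (nat_lit 2) (nat_lit 5) (nat_lit 2) (nat_lit 4) (nat_lit 244) (nat_lit 182) (nat_lit 174))) (XT.nd (nat_lit 78) (nat_lit 0) (nat_lit 0) (XT.lf (nat_lit 0) (nat_lit 661132235010) (nat_lit 76) (nat_lit 54620171499) (nat_lit 76) (nat_lit 53622967981) (nat_lit 1) (nat_lit 4) (nat_lit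 2) (nat_lit 5) (nat_lit 2) (nat_lit 4) (nat_lit 245) (nat_lit 182) (nat_lit 173)) (XT.lf (nat_lit 0) (nat_lit 762351138841) (nat_lit 76) (nat_lit 61692761398) (nat_lit 76) (nat_lit 60643899256) (nat_lit 1) (nat_lit 4) (nat_lit 2) (nat_lit 5) (nat_lit 2) (nat_lit 4) (nat_lit 246) (nat_lit 182) (nat_lit 172)))) (XT.nd (nat_lit 156) (nat_lit 0) (nat_lit 0) (XT.nd (nat_lit 78) (nat_lit 0) (nat_lit 0) (XT.lf (nat_lit 0) (nat_lit 878660129518) (nat_lit 76) (nat_lit 69867495420) (nat_lit 76) (nat_lit 68773712736) (nat_lit 1) (nat_lit 4) (nat_lit 2) (nat_lit 5) (nat_lit 2) (nat_lit 4) (nat_lit 247) (nat_lit 182) (nat_lit 171)) (XT.lf (nat_lit 0) (nat_lit 1012334817728) (nat_lit 76) (nat_lit 79304314014) (nat_lit 76) (nat_lit 78171469988) (nat_lit 1) (nat_lit 4) (nat_lit 2) (nat_lit 5) (nat_lit 2) (nat_lit 4) (nat_lit 248) (nat_lit 182) (nat_lit 170))) (XT.nd (nat_lit 78) (nat_lit 0) (nat_lit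 0) (XT.lf (nat_lit 0) (nat_lit 1165990577806) (nat_lit 76) (nat_lit 90187850586) (nat_lit 76) (nat_lit 89021040177) (nat_lit 1) (nat_lit 4) (nat_lit 2) (nat_lit 5) (nat_lit 2) (nat_lit 4) (nat_lit 249) (nat_lit 182) (nat_lit 169)) (XT.nd (nat_lit 78) (nat_lit 0) (nat_lit 0) (XT.lf (nat_lit 0) (nat_lit 1342633718102) (nat_lit 76) (nat_lit 102731043896) (nat_lit 76) (nat_lit 101534697501) (nat_lit 1) (nat_lit 4) (nat_lit 2) (nat_lit 5) (nat_lit 2) (nat_lit 4) (nat_lit 250) (nat_lit 182) (nat_lit 168)) (XT.lf (nat_lit 0) (nat_lit 1545720300056) (nat_lit 76) (nat_lit 117179304247) (nat_lit 76) (nat_lit 115957274386) (nat_lit 1) (nat_lit 4) (nat_lit 2) (nat_lit 5) (nat_lit 2) (nat_lit 4) (nat_lit 251) (nat_lit 182) (nat_lit 167)))))) (XT.nd (nat_lit 312) (nat_lit 0) (nat_lit 0) (XT.nd (nat_lit 156) (nat_lit 0) (nat_lit 0) (XT.nd (nat_lit 78) (nat_lit 0) (nat_lit 0) (XT.lf (nat_lit 0) (nat_lit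 1779223756792) (nat_lit 76) (nat_lit 133815314994) (nat_lit 76) (nat_lit 132570951685) (nat_lit 1) (nat_lit 4) (nat_lit 2) (nat_lit 5) (nat_lit 2) (nat_lit 4) (nat_lit 252) (nat_lit 182) (nat_lit 166)) (XT.lf (nat_lit 0) (nat_lit 2047712634204) (nat_lit 76) (nat_lit 152964563305) (nat_lit 76) (nat_lit 151700779605) (nat_lit 1) (nat_lit 4) (nat_lit 2) (nat_lit 5) (nat_lit 2) (nat_lit 4) (nat_lit 253) (nat_lit 182) (nat_lit 165))) (XT.nd (nat_lit 78) (nat_lit 0) (nat_lit 0) (XT.lf (nat_lit 0) (nat_lit 2356439975546) (nat_lit 76) (nat_lit 175001708384) (nat_lit 76) (nat_lit 173721037389) (nat_lit 1) (nat_lit 4) (nat_lit 2) (nat_lit 5) (nat_lit 2) (nat_lit 4) (nat_lit 254) (nat_lit 182) (nat_lit 164)) (XT.lf (nat_lit 0) (nat_lit 2711446098365) (nat_lit 76) (nat_lit 200357911767) (nat_lit 76) (nat_lit 199062556166) (nat_lit 1) (nat_lit 4) (nat_lit 2) (nat_lit 5) (nat_lit 2) (nat_lit 4) (nat_lit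 255) (nat_lit 182) (nat_lit 163)))) (XT.nd (nat_lit 156) (nat_lit 0) (nat_lit 0) (XT.nd (nat_lit 78) (nat_lit 0) (nat_lit 0) (XT.lf (nat_lit 0) (nat_lit 3119676774630) (nat_lit 76) (nat_lit 229529273084) (nat_lit 76) (nat_lit 228221148262) (nat_lit 1) (nat_lit 4) (nat_lit 2) (nat_lit 5) (nat_lit 2) (nat_lit 4) (nat_lit 256) (nat_lit 182) (nat_lit 162)) (XT.lf (nat_lit 0) (nat_lit 3589119126268) (nat_lit 76) (nat_lit 263086536362) (nat_lit 76) (nat_lit 261767307869) (nat_lit 1) (nat_lit 4) (nat_lit 2) (nat_lit 5) (nat_lit 2) (nat_lit 4) (nat_lit 257) (nat_lit 182) (nat_lit 161))) (XT.nd (nat_lit 78) (nat_lit 0) (nat_lit 0) (XT.lf (nat_lit 0) (nat_lit 4128957894940) (nat_lit 76) (nat_lit 301686256751) (nat_lit 76) (nat_lit 300357372892) (nat_lit 1) (nat_lit 4) (nat_lit 2) (nat_lit 5) (nat_lit 2) (nat_lit 4) (nat_lit 258) (nat_lit 182) (nat_lit 160)) (XT.nd (nat_lit 29328) (nat_lit 0) (nat_lit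 0) (XT.lf (nat_lit 0) (nat_lit 4749755143513) (nat_lit 76) (nat_lit 346083646172) (nat_lit 76) (nat_lit 344746366342) (nat_lit 1) (nat_lit 4) (nat_lit 2) (nat_lit 5) (nat_lit 2) (nat_lit 4) (nat_lit 259) (nat_lit 182) (nat_lit 159)) (XT.lf (nat_lit 0) (nat_lit 62026134400) (nat_lit 76) (nat_lit 10536726927) (nat_lit 76) (nat_lit 10536726927) (nat_lit 1) (nat_lit 4) (nat_lit 2) (nat_lit 5) (nat_lit 2) (nat_lit 4) (nat_lit 234) (nat_lit 183) (nat_lit 183))))))) (XT.nd (nat_lit 702) (nat_lit 0) (nat_lit 0) (XT.nd (nat_lit 312) (nat_lit 0) (nat_lit 0) (XT.nd (nat_lit 156) (nat_lit 0) (nat_lit 0) (XT.nd (nat_lit 78) (nat_lit 0) (nat_lit 0) (XT.lf (nat_lit 0) (nat_lit 147075492604) (nat_lit 76) (nat_lit 22030125435) (nat_lit 76) (nat_lit 21821137490) (nat_lit 1) (nat_lit 4) (nat_lit 2) (nat_lit 5) (nat_lit 2) (nat_lit 4) (nat_lit 235) (nat_lit 183) (nat_lit 182)) (XT.lf (nat_lit 0) (nat_lit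 173176979643) (nat_lit 76) (nat_lit 23297199820) (nat_lit 76) (nat_lit 22906483227) (nat_lit 1) (nat_lit 4) (nat_lit 2) (nat_lit 5) (nat_lit 2) (nat_lit 4) (nat_lit 236) (nat_lit 183) (nat_lit 181))) (XT.nd (nat_lit 78) (nat_lit 0) (nat_lit 0) (XT.lf (nat_lit 0) (nat_lit 202867411185) (nat_lit 76) (nat_lit 24899467594) (nat_lit 76) (nat_lit 24350726090) (nat_lit 1) (nat_lit 4) (nat_lit 2) (nat_lit 5) (nat_lit 2) (nat_lit 4) (nat_lit 237) (nat_lit 183) (nat_lit 180)) (XT.lf (nat_lit 0) (nat_lit 236727686977) (nat_lit 76) (nat_lit 26868277474) (nat_lit 76) (nat_lit 26182123003) (nat_lit 1) (nat_lit 4) (nat_lit 2) (nat_lit 5) (nat_lit 2) (nat_lit 4) (nat_lit 238) (nat_lit 183) (nat_lit 179)))) (XT.nd (nat_lit 156) (nat_lit 0) (nat_lit 0) (XT.nd (nat_lit 78) (nat_lit 0) (nat_lit 0) (XT.lf (nat_lit 0) (nat_lit 275420290677) (nat_lit 76) (nat_lit 29242149654) (nat_lit 76) (nat_lit 28436505647)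 (nat_lit 1) (nat_lit 4) (nat_lit 2) (nat_lit 5) (nat_lit 2) (nat_lit 4) (nat_lit 239) (nat_lit 183) (nat_lit 178)) (XT.lf (nat_lit 0) (nat_lit 319702251487) (nat_lit 76) (nat_lit 32067529459) (nat_lit 76) (nat_lit 31157981508) (nat_lit 1) (nat_lit 4) (nat_lit 2) (nat_lit 5) (nat_lit 2) (nat_lit 4) (nat_lit 240) (nat_lit 183) (nat_lit 177))) (XT.nd (nat_lit 78) (nat_lit 0) (nat_lit 0) (XT.lf (nat_lit 0) (nat_lit 370439955598) (nat_lit 76) (nat_lit 35399696059) (nat_lit 76) (nat_lit 34399796852) (nat_lit 1) (nat_lit 4) (nat_lit 2) (nat_lit 5) (nat_lit 2) (nat_lit 4) (nat_lit 241) (nat_lit 183) (nat_lit 176)) (XT.nd (nat_lit 78) (nat_lit 0) (nat_lit 0) (XT.lf (nat_lit 0) (nat_lit 428626097219) (nat_lit 76) (nat_lit 39303844018) (nat_lit 76) (nat_lit 38225378502) (nat_lit 1) (nat_lit 4) (nat_lit 2) (nat_lit 5) (nat_lit 2) (nat_lit 4) (nat_lit 242) (nat_lit 183) (nat_lit 175)) (XT.lf (nat_lit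 0) (nat_lit 495399100862) (nat_lit 76) (nat_lit 43856358839) (nat_lit 76) (nat_lit 42709574794) (nat_lit 1) (nat_lit 4) (nat_lit 2) (nat_lit 5) (nat_lit 2) (nat_lit 4) (nat_lit 243) (nat_lit 183) (nat_lit 174)))))) (XT.nd (nat_lit 312) (nat_lit 0) (nat_lit 0) (XT.nd (nat_lit 156) (nat_lit 0) (nat_lit 0) (XT.nd (nat_lit 78) (nat_lit 0) (nat_lit 0) (XT.lf (nat_lit 0) (nat_lit 572065394857) (nat_lit 76) (nat_lit 49146311466) (nat_lit 76) (nat_lit 47940120003) (nat_lit 1) (nat_lit 4) (nat_lit 2) (nat_lit 5) (nat_lit 2) (nat_lit 4) (nat_lit 244) (nat_lit 183) (nat_lit 173)) (XT.lf (nat_lit 0) (nat_lit 660124971914) (nat_lit 76) (nat_lit 55277200970) (nat_lit 76) (nat_lit 54019350883) (nat_lit 1) (nat_lit 4) (nat_lit 2) (nat_lit 5) (nat_lit 2) (nat_lit 4) (nat_lit 245) (nat_lit 183) (nat_lit 172))) (XT.nd (nat_lit 78) (nat_lit 0) (nat_lit 0) (XT.lf (nat_lit 0) (nat_lit 761300736802) (nat_lit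 76) (nat_lit 62368979538) (nat_lit 76) (nat_lit 61066208909) (nat_lit 1) (nat_lit 4) (nat_lit 2) (nat_lit 5) (nat_lit 2) (nat_lit 4) (nat_lit 246) (nat_lit 183) (nat_lit 171)) (XT.lf (nat_lit 0) (nat_lit 877572215354) (nat_lit 76) (nat_lit 70560399359) (nat_lit 76) (nat_lit 69218567389) (nat_lit 1) (nat_lit 4) (nat_lit 2) (nat_lit 5) (nat_lit 2) (nat_lit 4) (nat_lit 247) (nat_lit 183) (nat_lit 170)))) (XT.nd (nat_lit 156) (nat_lit 0) (nat_lit 0) (XT.nd (nat_lit 78) (nat_lit 0) (nat_lit 0) (XT.lf (nat_lit 0) (nat_lit 1011214284326) (nat_lit 76) (nat_lit 80011727343) (nat_lit 76) (nat_lit 78635928989) (nat_lit 1) (nat_lit 4) (nat_lit 2) (nat_lit 5) (nat_lit 2) (nat_lit 4) (nat_lit 248) (nat_lit 183) (nat_lit 169)) (XT.lf (nat_lit 0) (nat_lit 1164841679848) (nat_lit 76) (nat_lit 90907880777) (nat_lit 76) (nat_lit 89502546437) (nat_lit 1) (nat_lit 4) (nat_lit 2) (nat_lit 5) (nat_lit 2) (nat_lit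 4) (nat_lit 249) (nat_lit 183) (nat_lit 168))) (XT.nd (nat_lit 78) (nat_lit 0) (nat_lit 0) (XT.lf (nat_lit 0) (nat_lit 1341460155313) (nat_lit 76) (nat_lit 103462045270) (nat_lit 76) (nat_lit 102031027464) (nat_lit 1) (nat_lit 4) (nat_lit 2) (nat_lit 5) (nat_lit 2) (nat_lit 4) (nat_lit 250) (nat_lit 183) (nat_lit 167)) (XT.nd (nat_lit 78) (nat_lit 0) (nat_lit 0) (XT.lf (nat_lit 0) (nat_lit 1544525289588) (nat_lit 76) (nat_lit 117919845781) (nat_lit 76) (nat_lit 116466494527) (nat_lit 1) (nat_lit 4) (nat_lit 2) (nat_lit 5) (nat_lit 2) (nat_lit 4) (nat_lit 251) (nat_lit 183) (nat_lit 166)) (XT.lf (nat_lit 0) (nat_lit 1778010096168) (nat_lit 76) (nat_lit 134564152320) (nat_lit 76) (nat_lit 133091380675) (nat_lit 1) (nat_lit 4) (nat_lit 2) (nat_lit 5) (nat_lit 2) (nat_lit 4) (nat_lit 252) (nat_lit 183) (nat_lit 165))))))))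
noncomputable def xc5 : XT := (XT.nd (nat_lit 30498) (nat_lit 0) (nat_lit 0) (XT.nd (nat_lit 29796) (nat_lit 0) (nat_lit 0) (XT.nd (nat_lit 312) (nat_lit 0) (nat_lit 0) (XT.nd (nat_lit 156) (nat_lit 0) (nat_lit 0) (XT.nd (nat_lit 78) (nat_lit 0) (nat_lit 0) (XT.lf (nat_lit 0) (nat_lit 2046482756054) (nat_lit 76) (nat_lit 153720614362) (nat_lit 76) (nat_lit 152230955421) (nat_lit 1) (nat_lit 4) (nat_lit 2) (nat_lit 5) (nat_lit 2) (nat_lit 4) (nat_lit 253) (nat_lit 183) (nat_lit 164)) (XT.lf (nat_lit 0) (nat_lit 2355195995199) (nat_lit 76) (nat_lit 175764032251) (nat_lit 76) (nat_lit 174259688706) (nat_lit 1) (nat_lit 4) (nat_lit 2) (nat_lit 5) (nat_lit 2) (nat_lit 4) (nat_lit 254) (nat_lit 183) (nat_lit 163))) (XT.nd (nat_lit 78) (nat_lit 0) (nat_lit 0) (XT.lf (nat_lit 0) (nat_lit 2710189855238) (nat_lit 76) (nat_lit 201125690251) (nat_lit 76) (nat_lit 199608577484) (nat_lit 1) (nat_lit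 4) (nat_lit 2) (nat_lit 5) (nat_lit 2) (nat_lit 4) (nat_lit 255) (nat_lit 183) (nat_lit 162)) (XT.lf (nat_lit 0) (nat_lit 3118409868216) (nat_lit 76) (nat_lit 230301794714) (nat_lit 76) (nat_lit 228773578276) (nat_lit 1) (nat_lit 4) (nat_lit 2) (nat_lit 5) (nat_lit 2) (nat_lit 4) (nat_lit 256) (nat_lit 183) (nat_lit 161)))) (XT.nd (nat_lit 156) (nat_lit 0) (nat_lit 0) (XT.nd (nat_lit 78) (nat_lit 0) (nat_lit 0) (XT.lf (nat_lit 0) (nat_lit 3587842947430) (nat_lit 76) (nat_lit 263863182466) (nat_lit 76) (nat_lit 262325310661) (nat_lit 1) (nat_lit 4) (nat_lit 2) (nat_lit 5) (nat_lit 2) (nat_lit 4) (nat_lit 257) (nat_lit 183) (nat_lit 160)) (XT.lf (nat_lit 0) (nat_lit 4127673653125) (nat_lit 76) (nat_lit 302466489354) (nat_lit 76) (nat_lit 300920221579) (nat_lit 1) (nat_lit 4) (nat_lit 2) (nat_lit 5) (nat_lit 2) (nat_lit 4) (nat_lit 258) (nat_lit 183) (nat_lit 159))) (XT.nd (nat_lit 29172)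 (nat_lit 0) (nat_lit 0) (XT.lf (nat_lit 0) (nat_lit 4748463890414) (nat_lit 76) (nat_lit 346866997471) (nat_lit 76) (nat_lit 345313428852) (nat_lit 1) (nat_lit 4) (nat_lit 2) (nat_lit 5) (nat_lit 2) (nat_lit 4) (nat_lit 259) (nat_lit 183) (nat_lit 158)) (XT.nd (nat_lit 78) (nat_lit 0) (nat_lit 0) (XT.lf (nat_lit 0) (nat_lit 42860505585) (nat_lit 76) (nat_lit 10079913999) (nat_lit 76) (nat_lit 10079913999) (nat_lit 1) (nat_lit 4) (nat_lit 2) (nat_lit 5) (nat_lit 2) (nat_lit 4) (nat_lit 232) (nat_lit 184) (nat_lit 184)) (XT.lf (nat_lit 0) (nat_lit 103656853853) (nat_lit 76) (nat_lit 20648803726) (nat_lit 76) (nat_lit 20408467589) (nat_lit 1) (nat_lit 4) (nat_lit 2) (nat_lit 5) (nat_lit 2) (nat_lit 4) (nat_lit 233) (nat_lit 184) (nat_lit 183)))))) (XT.nd (nat_lit 312) (nat_lit 0) (nat_lit 0) (XT.nd (nat_lit 156) (nat_lit 0) (nat_lit 0) (XT.nd (nat_lit 78) (nat_lit 0) (nat_lit 0) (XT.lf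 (nat_lit 0) (nat_lit 123851569551) (nat_lit 76) (nat_lit 21403063189) (nat_lit 76) (nat_lit 20953739107) (nat_lit 1) (nat_lit 4) (nat_lit 2) (nat_lit 5) (nat_lit 2) (nat_lit 4) (nat_lit 234) (nat_lit 184) (nat_lit 182)) (XT.lf (nat_lit 0) (nat_lit 146700272268) (nat_lit 76) (nat_lit 22437363638) (nat_lit 76) (nat_lit 21806310909) (nat_lit 1) (nat_lit 4) (nat_lit 2) (nat_lit 5) (nat_lit 2) (nat_lit 4) (nat_lit 235) (nat_lit 184) (nat_lit 181))) (XT.nd (nat_lit 78) (nat_lit 0) (nat_lit 0) (XT.lf (nat_lit 0) (nat_lit 172650001841) (nat_lit 76) (nat_lit 23771941386) (nat_lit 76) (nat_lit 22982863746) (nat_lit 1) (nat_lit 4) (nat_lit 2) (nat_lit 5) (nat_lit 2) (nat_lit 4) (nat_lit 236) (nat_lit 184) (nat_lit 180)) (XT.lf (nat_lit 0) (nat_lit 202208470368) (nat_lit 76) (nat_lit 25432907737) (nat_lit 76) (nat_lit 24506417130) (nat_lit 1) (nat_lit 4) (nat_lit 2) (nat_lit 5) (nat_lit 2) (nat_lit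 4) (nat_lit 237) (nat_lit 184) (nat_lit 179)))) (XT.nd (nat_lit 156) (nat_lit 0) (nat_lit 0) (XT.nd (nat_lit 78) (nat_lit 0) (nat_lit 0) (XT.lf (nat_lit 0) (nat_lit 235953995714) (nat_lit 76) (nat_lit 27452759858) (nat_lit 76) (nat_lit 26406779715) (nat_lit 1) (nat_lit 4) (nat_lit 2) (nat_lit 5) (nat_lit 2) (nat_lit 4) (nat_lit 238) (nat_lit 184) (nat_lit 178)) (XT.lf (nat_lit 0) (nat_lit 274546816416) (nat_lit 76) (nat_lit 29871016595) (nat_lit 76) (nat_lit 28721132508) (nat_lit 1) (nat_lit 4) (nat_lit 2) (nat_lit 5) (nat_lit 2) (nat_lit 4) (nat_lit 239) (nat_lit 184) (nat_lit 177))) (XT.nd (nat_lit 78) (nat_lit 0) (nat_lit 0) (XT.lf (nat_lit 0) (nat_lit 318742009403) (nat_lit 76) (nat_lit 32734991667) (nat_lit 76) (nat_lit 31494756324) (nat_lit 1) (nat_lit 4) (nat_lit 2) (nat_lit 5) (nat_lit 2) (nat_lit 4) (nat_lit 240) (nat_lit 184) (nat_lit 176)) (XT.nd (nat_lit 78) (nat_lit 0) (nat_lit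 0) (XT.lf (nat_lit 0) (nat_lit 369404263232) (nat_lit 76) (nat_lit 36100719369) (nat_lit 76) (nat_lit 34781917717) (nat_lit 1) (nat_lit 4) (nat_lit 2) (nat_lit 5) (nat_lit 2) (nat_lit 4) (nat_lit 241) (nat_lit 184) (nat_lit 175)) (XT.lf (nat_lit 0) (nat_lit 427524795912) (nat_lit 76) (nat_lit 40034050895) (nat_lit 76) (nat_lit 38646930713) (nat_lit 1) (nat_lit 4) (nat_lit 2) (nat_lit 5) (nat_lit 2) (nat_lit 4) (nat_lit 242) (nat_lit 184) (nat_lit 174))))))) (XT.nd (nat_lit 702) (nat_lit 0) (nat_lit 0) (XT.nd (nat_lit 312) (nat_lit 0) (nat_lit 0) (XT.nd (nat_lit 156) (nat_lit 0) (nat_lit 0) (XT.nd (nat_lit 78) (nat_lit 0) (nat_lit 0) (XT.lf (nat_lit 0) (nat_lit 494240748302) (nat_lit 76) (nat_lit 44611942731) (nat_lit 76) (nat_lit 43165415131) (nat_lit 1) (nat_lit 4) (nat_lit 2) (nat_lit 5) (nat_lit 2) (nat_lit 4) (nat_lit 243) (nat_lit 184) (nat_lit 173)) (XT.lf (nat_lit 0) (nat_lit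 570857432513) (nat_lit 76) (nat_lit 49923962327) (nat_lit 76) (nat_lit 48425776103) (nat_lit 1) (nat_lit 4) (nat_lit 2) (nat_lit 5) (nat_lit 2) (nat_lit 4) (nat_lit 244) (nat_lit 184) (nat_lit 172))) (XT.nd (nat_lit 78) (nat_lit 0) (nat_lit 0) (XT.lf (nat_lit 0) (nat_lit 658873870626) (nat_lit 76) (nat_lit 56074040500) (nat_lit 76) (nat_lit 54530933734) (nat_lit 1) (nat_lit 4) (nat_lit 2) (nat_lit 5) (nat_lit 2) (nat_lit 4) (nat_lit 245) (nat_lit 184) (nat_lit 171)) (XT.lf (nat_lit 0) (nat_lit 760012123389) (nat_lit 76) (nat_lit 63182504867) (nat_lit 76) (nat_lit 61600336760) (nat_lit 1) (nat_lit 4) (nat_lit 2) (nat_lit 5) (nat_lit 2) (nat_lit 4) (nat_lit 246) (nat_lit 184) (nat_lit 170)))) (XT.nd (nat_lit 156) (nat_lit 0) (nat_lit 0) (XT.nd (nat_lit 78) (nat_lit 0) (nat_lit 0) (XT.lf (nat_lit 0) (nat_lit 876250982702) (nat_lit 76) (nat_lit 71388434079) (nat_lit 76) (nat_lit 69772299588)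 (nat_lit 1) (nat_lit 4) (nat_lit 2) (nat_lit 5) (nat_lit 2) (nat_lit 4) (nat_lit 247) (nat_lit 184) (nat_lit 169)) (XT.lf (nat_lit 0) (nat_lit 1009864687118) (nat_lit 76) (nat_lit 80852378924) (nat_lit 76) (nat_lit 79206708448) (nat_lit 1) (nat_lit 4) (nat_lit 2) (nat_lit 5) (nat_lit 2) (nat_lit 4) (nat_lit 248) (nat_lit 184) (nat_lit 168))) (XT.nd (nat_lit 78) (nat_lit 0) (nat_lit 0) (XT.lf (nat_lit 0) (nat_lit 1163467417810) (nat_lit 76) (nat_lit 91759503542) (nat_lit 76) (nat_lit 90088149599) (nat_lit 1) (nat_lit 4) (nat_lit 2) (nat_lit 5) (nat_lit 2) (nat_lit 4) (nat_lit 249) (nat_lit 184) (nat_lit 167)) (XT.nd (nat_lit 78) (nat_lit 0) (nat_lit 0) (XT.lf (nat_lit 0) (nat_lit 1340064445596) (nat_lit 76) (nat_lit 104323208195) (nat_lit 76) (nat_lit 102629520804) (nat_lit 1) (nat_lit 4) (nat_lit 2) (nat_lit 5) (nat_lit 2) (nat_lit 4) (nat_lit 250) (nat_lit 184) (nat_lit 166)) (XT.lf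 (nat_lit 0) (nat_lit 1543110929715) (nat_lit 76) (nat_lit 118789304497) (nat_lit 76) (nat_lit 117076196716) (nat_lit 1) (nat_lit 4) (nat_lit 2) (nat_lit 5) (nat_lit 2) (nat_lit 4) (nat_lit 251) (nat_lit 184) (nat_lit 165)))))) (XT.nd (nat_lit 390) (nat_lit 0) (nat_lit 0) (XT.nd (nat_lit 156) (nat_lit 0) (nat_lit 0) (XT.nd (nat_lit 78) (nat_lit 0) (nat_lit 0) (XT.lf (nat_lit 0) (nat_lit 1776579518769) (nat_lit 76) (nat_lit 135440824767) (nat_lit 76) (nat_lit 133710829690) (nat_lit 1) (nat_lit 4) (nat_lit 2) (nat_lit 5) (nat_lit 2) (nat_lit 4) (nat_lit 252) (nat_lit 184) (nat_lit 164)) (XT.lf (nat_lit 0) (nat_lit 2045038076457) (nat_lit 76) (nat_lit 154603559619) (nat_lit 76) (nat_lit 152858879936) (nat_lit 1) (nat_lit 4) (nat_lit 2) (nat_lit 5) (nat_lit 2) (nat_lit 4) (nat_lit 253) (nat_lit 184) (nat_lit 163))) (XT.nd (nat_lit 78) (nat_lit 0) (nat_lit 0) (XT.lf (nat_lit 0) (nat_lit 2353739052822)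 (nat_lit 76) (nat_lit 176652432125) (nat_lit 76) (nat_lit 174894983221) (nat_lit 1) (nat_lit 4) (nat_lit 2) (nat_lit 5) (nat_lit 2) (nat_lit 4) (nat_lit 254) (nat_lit 184) (nat_lit 162)) (XT.nd (nat_lit 78) (nat_lit 0) (nat_lit 0) (XT.lf (nat_lit 0) (nat_lit 2708722249574) (nat_lit 76) (nat_lit 202018833271) (nat_lit 76) (nat_lit 200250280696) (nat_lit 1) (nat_lit 4) (nat_lit 2) (nat_lit 5) (nat_lit 2) (nat_lit 4) (nat_lit 255) (nat_lit 184) (nat_lit 161)) (XT.lf (nat_lit 0) (nat_lit 3116932990128) (nat_lit 76) (nat_lit 231199062208) (nat_lit 76) (nat_lit 229420854267) (nat_lit 1) (nat_lit 4) (nat_lit 2) (nat_lit 5) (nat_lit 2) (nat_lit 4) (nat_lit 256) (nat_lit 184) (nat_lit 160))))) (XT.nd (nat_lit 156) (nat_lit 0) (nat_lit 0) (XT.nd (nat_lit 78) (nat_lit 0) (nat_lit 0) (XT.lf (nat_lit 0) (nat_lit 3586358006365) (nat_lit 76) (nat_lit 264764036459) (nat_lit 76) (nat_lit 262977432548)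 (nat_lit 1) (nat_lit 4) (nat_lit 2) (nat_lit 5) (nat_lit 2) (nat_lit 4) (nat_lit 257) (nat_lit 184) (nat_lit 159)) (XT.lf (nat_lit 0) (nat_lit 4126181700776) (nat_lit 76) (nat_lit 303370462043) (nat_lit 76) (nat_lit 301576557287) (nat_lit 1) (nat_lit 4) (nat_lit 2) (nat_lit 5) (nat_lit 2) (nat_lit 4) (nat_lit 258) (nat_lit 184) (nat_lit 158))) (XT.nd (nat_lit 29016) (nat_lit 0) (nat_lit 0) (XT.lf (nat_lit 0) (nat_lit 4746965841296) (nat_lit 76) (nat_lit 347773682068) (nat_lit 76) (nat_lit 345973428753) (nat_lit 1) (nat_lit 4) (nat_lit 2) (nat_lit 5) (nat_lit 2) (nat_lit 4) (nat_lit 259) (nat_lit 184) (nat_lit 157)) (XT.nd (nat_lit 78) (nat_lit 0) (nat_lit 0) (XT.lf (nat_lit 0) (nat_lit 27762512255) (nat_lit 76) (nat_lit 10051392995) (nat_lit 76) (nat_lit 10051392995) (nat_lit 1) (nat_lit 4) (nat_lit 2) (nat_lit 5) (nat_lit 2) (nat_lit 4) (nat_lit 230) (nat_lit 185) (nat_lit 185)) (XT.lf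 (nat_lit 0) (nat_lit 69693122844) (nat_lit 76) (nat_lit 20202955646) (nat_lit 76) (nat_lit 19926569088) (nat_lit 1) (nat_lit 4) (nat_lit 2) (nat_lit 5) (nat_lit 2) (nat_lit 4) (nat_lit 231) (nat_lit 185) (nat_lit 184))))))))
noncomputable def xc6 : XT := (XT.nd (nat_lit 1404) (nat_lit 0) (nat_lit 0) (XT.nd (nat_lit 702) (nat_lit 0) (nat_lit 0) (XT.nd (nat_lit 312) (nat_lit 0) (nat_lit 0) (XT.nd (nat_lit 156) (nat_lit 0) (nat_lit 0) (XT.nd (nat_lit 78) (nat_lit 0) (nat_lit 0) (XT.lf (nat_lit 0) (nat_lit 85490207034) (nat_lit 76) (nat_lit 20538878733) (nat_lit 76) (nat_lit 20022156039) (nat_lit 1) (nat_lit 4) (nat_lit 2) (nat_lit 5) (nat_lit 2) (nat_lit 4) (nat_lit 232) (nat_lit 185) (nat_lit 183)) (XT.lf (nat_lit 0) (nat_lit 103225350467) (nat_lit 76) (nat_lit 21117127659) (nat_lit 76) (nat_lit 20391417020) (nat_lit 1) (nat_lit 4) (nat_lit 2) (nat_lit 5) (nat_lit 2) (nat_lit 4) (nat_lit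 233) (nat_lit 185) (nat_lit 182))) (XT.nd (nat_lit 78) (nat_lit 0) (nat_lit 0) (XT.lf (nat_lit 0) (nat_lit 123245545079) (nat_lit 76) (nat_lit 21949015991) (nat_lit 76) (nat_lit 21041576704) (nat_lit 1) (nat_lit 4) (nat_lit 2) (nat_lit 5) (nat_lit 2) (nat_lit 4) (nat_lit 234) (nat_lit 185) (nat_lit 181)) (XT.lf (nat_lit 0) (nat_lit 145942490330) (nat_lit 76) (nat_lit 23050819803) (nat_lit 76) (nat_lit 21985355605) (nat_lit 1) (nat_lit 4) (nat_lit 2) (nat_lit 5) (nat_lit 2) (nat_lit 4) (nat_lit 235) (nat_lit 185) (nat_lit 180)))) (XT.nd (nat_lit 156) (nat_lit 0) (nat_lit 0) (XT.nd (nat_lit 78) (nat_lit 0) (nat_lit 0) (XT.lf (nat_lit 0) (nat_lit 171760256888) (nat_lit 76) (nat_lit 24444096128) (nat_lit 76) (nat_lit 23241218964) (nat_lit 1) (nat_lit 4) (nat_lit 2) (nat_lit 5) (nat_lit 2) (nat_lit 4) (nat_lit 236) (nat_lit 185) (nat_lit 179)) (XT.lf (nat_lit 0) (nat_lit 201203974968) (nat_lit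 76) (nat_lit 26156104720) (nat_lit 76) (nat_lit 24833738019) (nat_lit 1) (nat_lit 4) (nat_lit 2) (nat_lit 5) (nat_lit 2) (nat_lit 4) (nat_lit 237) (nat_lit 185) (nat_lit 178))) (XT.nd (nat_lit 78) (nat_lit 0) (nat_lit 0) (XT.lf (nat_lit 0) (nat_lit 234849717316) (nat_lit 76) (nat_lit 28220341398) (nat_lit 76) (nat_lit 26794070753) (nat_lit 1) (nat_lit 4) (nat_lit 2) (nat_lit 5) (nat_lit 2) (nat_lit 4) (nat_lit 238) (nat_lit 185) (nat_lit 177)) (XT.nd (nat_lit 78) (nat_lit 0) (nat_lit 0) (XT.lf (nat_lit 0) (nat_lit 273355770195) (nat_lit 76) (nat_lit 30677193402) (nat_lit 76) (nat_lit 29160571502) (nat_lit 1) (nat_lit 4) (nat_lit 2) (nat_lit 5) (nat_lit 2) (nat_lit 4) (nat_lit 239) (nat_lit 185) (nat_lit 176)) (XT.lf (nat_lit 0) (nat_lit 317475512900) (nat_lit 76) (nat_lit 33574729576) (nat_lit 76) (nat_lit 31979541366) (nat_lit 1) (nat_lit 4) (nat_lit 2) (nat_lit 5) (nat_lit 2) (nat_lit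 4) (nat_lit 240) (nat_lit 185) (nat_lit 175)))))) (XT.nd (nat_lit 312) (nat_lit 0) (nat_lit 0) (XT.nd (nat_lit 156) (nat_lit 0) (nat_lit 0) (XT.nd (nat_lit 78) (nat_lit 0) (nat_lit 0) (XT.lf (nat_lit 0) (nat_lit 368072157788) (nat_lit 76) (nat_lit 36969640845) (nat_lit 76) (nat_lit 35306134105) (nat_lit 1) (nat_lit 4) (nat_lit 2) (nat_lit 5) (nat_lit 2) (nat_lit 4) (nat_lit 241) (nat_lit 185) (nat_lit 174)) (XT.lf (nat_lit 0) (nat_lit 426135639216) (nat_lit 76) (nat_lit 40928349385) (nat_lit 76) (nat_lit 39205435228) (nat_lit 1) (nat_lit 4) (nat_lit 2) (nat_lit 5) (nat_lit 2) (nat_lit 4) (nat_lit 242) (nat_lit 185) (nat_lit 173))) (XT.nd (nat_lit 78) (nat_lit 0) (nat_lit 0) (XT.lf (nat_lit 0) (nat_lit 492801981821) (nat_lit 76) (nat_lit 45528308191) (nat_lit 76) (nat_lit 43753735410) (nat_lit 1) (nat_lit 4) (nat_lit 2) (nat_lit 5) (nat_lit 2) (nat_lit 4) (nat_lit 243) (nat_lit 185) (nat_lit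 172)) (XT.lf (nat_lit 0) (nat_lit 569375527088) (nat_lit 76) (nat_lit 50859516456) (nat_lit 76) (nat_lit 49040023132) (nat_lit 1) (nat_lit 4) (nat_lit 2) (nat_lit 5) (nat_lit 2) (nat_lit 4) (nat_lit 244) (nat_lit 185) (nat_lit 171)))) (XT.nd (nat_lit 156) (nat_lit 0) (nat_lit 0) (XT.nd (nat_lit 78) (nat_lit 0) (nat_lit 0) (XT.lf (nat_lit 0) (nat_lit 657354453077) (nat_lit 76) (nat_lit 57026280428) (nat_lit 76) (nat_lit 55167725763) (nat_lit 1) (nat_lit 4) (nat_lit 2) (nat_lit 5) (nat_lit 2) (nat_lit 4) (nat_lit 245) (nat_lit 185) (nat_lit 170)) (XT.lf (nat_lit 0) (nat_lit 758460086601) (nat_lit 76) (nat_lit 64149254185) (nat_lit 76) (nat_lit 62256733137) (nat_lit 1) (nat_lit 4) (nat_lit 2) (nat_lit 5) (nat_lit 2) (nat_lit 4) (nat_lit 246) (nat_lit 185) (nat_lit 169))) (XT.nd (nat_lit 78) (nat_lit 0) (nat_lit 0) (XT.lf (nat_lit 0) (nat_lit 874670581358) (nat_lit 76) (nat_lit 72367800259)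 (nat_lit 76) (nat_lit 70445743224) (nat_lit 1) (nat_lit 4) (nat_lit 2) (nat_lit 5) (nat_lit 2) (nat_lit 4) (nat_lit 247) (nat_lit 185) (nat_lit 168)) (XT.nd (nat_lit 78) (nat_lit 0) (nat_lit 0) (XT.lf (nat_lit 0) (nat_lit 1008259620944) (nat_lit 76) (nat_lit 81842716288) (nat_lit 76) (nat_lit 79894975788) (nat_lit 1) (nat_lit 4) (nat_lit 2) (nat_lit 5) (nat_lit 2) (nat_lit 4) (nat_lit 248) (nat_lit 185) (nat_lit 167)) (XT.lf (nat_lit 0) (nat_lit 1161840903956) (nat_lit 76) (nat_lit 92759381065) (nat_lit 76) (nat_lit 90789307116) (nat_lit 1) (nat_lit 4) (nat_lit 2) (nat_lit 5) (nat_lit 2) (nat_lit 4) (nat_lit 249) (nat_lit 185) (nat_lit 166))))))) (XT.nd (nat_lit 702) (nat_lit 0) (nat_lit 0) (XT.nd (nat_lit 312) (nat_lit 0) (nat_lit 0) (XT.nd (nat_lit 156) (nat_lit 0) (nat_lit 0) (XT.nd (nat_lit 78) (nat_lit 0) (nat_lit 0) (XT.lf (nat_lit 0) (nat_lit 1338419281586) (nat_lit 76) (nat_lit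 105331381509) (nat_lit 76) (nat_lit 103341887170) (nat_lit 1) (nat_lit 4) (nat_lit 2) (nat_lit 5) (nat_lit 2) (nat_lit 4) (nat_lit 250) (nat_lit 185) (nat_lit 165)) (XT.lf (nat_lit 0) (nat_lit 1541449548178) (nat_lit 76) (nat_lit 119804691542) (nat_lit 76) (nat_lit 117798309908) (nat_lit 1) (nat_lit 4) (nat_lit 2) (nat_lit 5) (nat_lit 2) (nat_lit 4) (nat_lit 251) (nat_lit 185) (nat_lit 164))) (XT.nd (nat_lit 78) (nat_lit 0) (nat_lit 0) (XT.lf (nat_lit 0) (nat_lit 1774904035035) (nat_lit 76) (nat_lit 136462484622) (nat_lit 76) (nat_lit 134441418383) (nat_lit 1) (nat_lit 4) (nat_lit 2) (nat_lit 5) (nat_lit 2) (nat_lit 4) (nat_lit 252) (nat_lit 185) (nat_lit 163)) (XT.lf (nat_lit 0) (nat_lit 2043350329944) (nat_lit 76) (nat_lit 155630674091) (nat_lit 76) (nat_lit 153596838630) (nat_lit 1) (nat_lit 4) (nat_lit 2) (nat_lit 5) (nat_lit 2) (nat_lit 4) (nat_lit 253) (nat_lit 185) (nat_lit 162))))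 (XT.nd (nat_lit 156) (nat_lit 0) (nat_lit 0) (XT.nd (nat_lit 78) (nat_lit 0) (nat_lit 0) (XT.lf (nat_lit 0) (nat_lit 2352040643021) (nat_lit 76) (nat_lit 177684289743) (nat_lit 76) (nat_lit 175639350611) (nat_lit 1) (nat_lit 4) (nat_lit 2) (nat_lit 5) (nat_lit 2) (nat_lit 4) (nat_lit 254) (nat_lit 185) (nat_lit 161)) (XT.lf (nat_lit 0) (nat_lit 2707014567350) (nat_lit 76) (nat_lit 203054815363) (nat_lit 76) (nat_lit 201000220865) (nat_lit 1) (nat_lit 4) (nat_lit 2) (nat_lit 5) (nat_lit 2) (nat_lit 4) (nat_lit 255) (nat_lit 185) (nat_lit 160))) (XT.nd (nat_lit 78) (nat_lit 0) (nat_lit 0) (XT.lf (nat_lit 0) (nat_lit 3115217244927) (nat_lit 76) (nat_lit 232238630800) (nat_lit 76) (nat_lit 230175640331) (nat_lit 1) (nat_lit 4) (nat_lit 2) (nat_lit 5) (nat_lit 2) (nat_lit 4) (nat_lit 256) (nat_lit 185) (nat_lit 159)) (XT.nd (nat_lit 78) (nat_lit 0) (nat_lit 0) (XT.lf (nat_lit 0) (nat_lit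 3584635249880) (nat_lit 76) (nat_lit 265806723746) (nat_lit 76) (nat_lit 263736432433) (nat_lit 1) (nat_lit 4) (nat_lit 2) (nat_lit 5) (nat_lit 2) (nat_lit 4) (nat_lit 257) (nat_lit 185) (nat_lit 158)) (XT.lf (nat_lit 0) (nat_lit 4124452847522) (nat_lit 76) (nat_lit 304415861239) (nat_lit 76) (nat_lit 302339221366) (nat_lit 1) (nat_lit 4) (nat_lit 2) (nat_lit 5) (nat_lit 2) (nat_lit 4) (nat_lit 258) (nat_lit 185) (nat_lit 157)))))) (XT.nd (nat_lit 29172) (nat_lit 0) (nat_lit 0) (XT.nd (nat_lit 28938) (nat_lit 0) (nat_lit 0) (XT.nd (nat_lit 28860) (nat_lit 0) (nat_lit 0) (XT.lf (nat_lit 0) (nat_lit 4745231686503) (nat_lit 76) (nat_lit 348821439446) (nat_lit 76) (nat_lit 346739279086) (nat_lit 1) (nat_lit 4) (nat_lit 2) (nat_lit 5) (nat_lit 2) (nat_lit 4) (nat_lit 259) (nat_lit 185) (nat_lit 156)) (XT.lf (nat_lit 0) (nat_lit 15649332067) (nat_lit 76) (nat_lit 10394256497) (nat_lit 76)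 (nat_lit 10394256497) (nat_lit 1) (nat_lit 4) (nat_lit 2) (nat_lit 5) (nat_lit 2) (nat_lit 4) (nat_lit 228) (nat_lit 186) (nat_lit 186))) (XT.nd (nat_lit 78) (nat_lit 0) (nat_lit 0) (XT.lf (nat_lit 0) (nat_lit 42708710109) (nat_lit 76) (nat_lit 20554254464) (nat_lit 76) (nat_lit 20236409923) (nat_lit 1) (nat_lit 4) (nat_lit 2) (nat_lit 5) (nat_lit 2) (nat_lit 4) (nat_lit 229) (nat_lit 186) (nat_lit 185)) (XT.nd (nat_lit 78) (nat_lit 0) (nat_lit 0) (XT.lf (nat_lit 0) (nat_lit 55259599754) (nat_lit 76) (nat_lit 20538694335) (nat_lit 76) (nat_lit 19944463237) (nat_lit 1) (nat_lit 4) (nat_lit 2) (nat_lit 5) (nat_lit 2) (nat_lit 4) (nat_lit 230) (nat_lit 186) (nat_lit 184)) (XT.lf (nat_lit 0) (nat_lit 69196893951) (nat_lit 76) (nat_lit 20741528169) (nat_lit 76) (nat_lit 19906960934) (nat_lit 1) (nat_lit 4) (nat_lit 2) (nat_lit 5) (nat_lit 2) (nat_lit 4) (nat_lit 231) (nat_lit 186) (nat_lit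 183))))) (XT.nd (nat_lit 156) (nat_lit 0) (nat_lit 0) (XT.nd (nat_lit 78) (nat_lit 0) (nat_lit 0) (XT.lf (nat_lit 0) (nat_lit 84793278891) (nat_lit 76) (nat_lit 21166724455) (nat_lit 76) (nat_lit 20123169274) (nat_lit 1) (nat_lit 4) (nat_lit 2) (nat_lit 5) (nat_lit 2) (nat_lit 4) (nat_lit 232) (nat_lit 186) (nat_lit 182)) (XT.lf (nat_lit 0) (nat_lit 102353901238) (nat_lit 76) (nat_lit 21822602249) (nat_lit 76) (nat_lit 20597318421) (nat_lit 1) (nat_lit 4) (nat_lit 2) (nat_lit 5) (nat_lit 2) (nat_lit 4) (nat_lit 233) (nat_lit 186) (nat_lit 181))) (XT.nd (nat_lit 78) (nat_lit 0) (nat_lit 0) (XT.lf (nat_lit 0) (nat_lit 122222338383) (nat_lit 76) (nat_lit 22721993944) (nat_lit 76) (nat_lit 21338685205) (nat_lit 1) (nat_lit 4) (nat_lit 2) (nat_lit 5) (nat_lit 2) (nat_lit 4) (nat_lit 234) (nat_lit 186) (nat_lit 180)) (XT.nd (nat_lit 78) (nat_lit 0) (nat_lit 0) (XT.lf (nat_lit 0) (nat_lit 144787320620)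 (nat_lit 76) (nat_lit 23882496333) (nat_lit 76) (nat_lit 22361774628) (nat_lit 1) (nat_lit 4) (nat_lit 2) (nat_lit 5) (nat_lit 2) (nat_lit 4) (nat_lit 235) (nat_lit 186) (nat_lit 179)) (XT.lf (nat_lit 0) (nat_lit 170490336731) (nat_lit 76) (nat_lit 25326814899) (nat_lit 76) (nat_lit 23686603658) (nat_lit 1) (nat_lit 4) (nat_lit 2) (nat_lit 5) (nat_lit 2) (nat_lit 4) (nat_lit 236) (nat_lit 186) (nat_lit 178))))))))
noncomputable def xc7 : XT := (XT.nd (nat_lit 1404) (nat_lit 0) (nat_lit 0) (XT.nd (nat_lit 702) (nat_lit 0) (nat_lit 0) (XT.nd (nat_lit 312) (nat_lit 0) (nat_lit 0) (XT.nd (nat_lit 156) (nat_lit 0) (nat_lit 0) (XT.nd (nat_lit 78) (nat_lit 0) (nat_lit 0) (XT.lf (nat_lit 0) (nat_lit 199834271814) (nat_lit 76) (nat_lit 27083208048) (nat_lit 76) (nat_lit 25339092862) (nat_lit 1) (nat_lit 4) (nat_lit 2) (nat_lit 5) (nat_lit 2) (nat_lit 4) (nat_lit 237) (nat_lit 186) (nat_lit 177))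 (XT.lf (nat_lit 0) (nat_lit 233393246338) (nat_lit 76) (nat_lit 29186039993) (nat_lit 76) (nat_lit 27351573552) (nat_lit 1) (nat_lit 4) (nat_lit 2) (nat_lit 5) (nat_lit 2) (nat_lit 4) (nat_lit 238) (nat_lit 186) (nat_lit 176))) (XT.nd (nat_lit 78) (nat_lit 0) (nat_lit 0) (XT.lf (nat_lit 0) (nat_lit 271823848935) (nat_lit 76) (nat_lit 31676453099) (nat_lit 76) (nat_lit 29763420348) (nat_lit 1) (nat_lit 4) (nat_lit 2) (nat_lit 5) (nat_lit 2) (nat_lit 4) (nat_lit 239) (nat_lit 186) (nat_lit 175)) (XT.lf (nat_lit 0) (nat_lit 315877982699) (nat_lit 76) (nat_lit 34603172840) (nat_lit 76) (nat_lit 32621821559) (nat_lit 1) (nat_lit 4) (nat_lit 2) (nat_lit 5) (nat_lit 2) (nat_lit 4) (nat_lit 240) (nat_lit 186) (nat_lit 174)))) (XT.nd (nat_lit 156) (nat_lit 0) (nat_lit 0) (XT.nd (nat_lit 78) (nat_lit 0) (nat_lit 0) (XT.lf (nat_lit 0) (nat_lit 366417576334) (nat_lit 76) (nat_lit 38023461123) (nat_lit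 76) (nat_lit 35982702425) (nat_lit 1) (nat_lit 4) (nat_lit 2) (nat_lit 5) (nat_lit 2) (nat_lit 4) (nat_lit 241) (nat_lit 186) (nat_lit 173)) (XT.lf (nat_lit 0) (nat_lit 424431447978) (nat_lit 76) (nat_lit 42004236633) (nat_lit 76) (nat_lit 39911819311) (nat_lit 1) (nat_lit 4) (nat_lit 2) (nat_lit 5) (nat_lit 2) (nat_lit 4) (nat_lit 242) (nat_lit 186) (nat_lit 172))) (XT.nd (nat_lit 78) (nat_lit 0) (nat_lit 0) (XT.lf (nat_lit 0) (nat_lit 491054651639) (nat_lit 76) (nat_lit 46623384108) (nat_lit 76) (nat_lit 44486046243) (nat_lit 1) (nat_lit 4) (nat_lit 2) (nat_lit 5) (nat_lit 2) (nat_lit 4) (nat_lit 243) (nat_lit 186) (nat_lit 171)) (XT.nd (nat_lit 78) (nat_lit 0) (nat_lit 0) (XT.lf (nat_lit 0) (nat_lit 567590684781) (nat_lit 76) (nat_lit 51971278171) (nat_lit 76) (nat_lit 49794878966) (nat_lit 1) (nat_lit 4) (nat_lit 2) (nat_lit 5) (nat_lit 2) (nat_lit 4) (nat_lit 244) (nat_lit 186)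 (nat_lit 170)) (XT.lf (nat_lit 0) (nat_lit 655536991531) (nat_lit 76) (nat_lit 58152551534) (nat_lit 76) (nat_lit 55942185945) (nat_lit 1) (nat_lit 4) (nat_lit 2) (nat_lit 5) (nat_lit 2) (nat_lit 4) (nat_lit 245) (nat_lit 186) (nat_lit 169)))))) (XT.nd (nat_lit 312) (nat_lit 0) (nat_lit 0) (XT.nd (nat_lit 156) (nat_lit 0) (nat_lit 0) (XT.nd (nat_lit 78) (nat_lit 0) (nat_lit 0) (XT.lf (nat_lit 0) (nat_lit 756614260500) (nat_lit 76) (nat_lit 65288142153) (nat_lit 76) (nat_lit 63048240578) (nat_lit 1) (nat_lit 4) (nat_lit 2) (nat_lit 5) (nat_lit 2) (nat_lit 4) (nat_lit 246) (nat_lit 186) (nat_lit 168)) (XT.lf (nat_lit 0) (nat_lit 872800090427) (nat_lit 76) (nat_lit 73517659410) (nat_lit 76) (nat_lit 71252074369) (nat_lit 1) (nat_lit 4) (nat_lit 2) (nat_lit 5) (nat_lit 2) (nat_lit 4) (nat_lit 247) (nat_lit 186) (nat_lit 167))) (XT.nd (nat_lit 78) (nat_lit 0) (nat_lit 0) (XT.lf (nat_lit 0)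 (nat_lit 1006367682333) (nat_lit 76) (nat_lit 83002115599) (nat_lit 76) (nat_lit 80714197109) (nat_lit 1) (nat_lit 4) (nat_lit 2) (nat_lit 5) (nat_lit 2) (nat_lit 4) (nat_lit 248) (nat_lit 186) (nat_lit 166)) (XT.lf (nat_lit 0) (nat_lit 1159930315190) (nat_lit 76) (nat_lit 93927076167) (nat_lit 76) (nat_lit 91619737287) (nat_lit 1) (nat_lit 4) (nat_lit 2) (nat_lit 5) (nat_lit 2) (nat_lit 4) (nat_lit 249) (nat_lit 186) (nat_lit 165)))) (XT.nd (nat_lit 156) (nat_lit 0) (nat_lit 0) (XT.nd (nat_lit 78) (nat_lit 0) (nat_lit 0) (XT.lf (nat_lit 0) (nat_lit 1336492475293) (nat_lit 76) (nat_lit 106506290343) (nat_lit 76) (nat_lit 104182064167) (nat_lit 1) (nat_lit 4) (nat_lit 2) (nat_lit 5) (nat_lit 2) (nat_lit 4) (nat_lit 250) (nat_lit 186) (nat_lit 164)) (XT.lf (nat_lit 0) (nat_lit 1539508639688) (nat_lit 76) (nat_lit 120985873186) (nat_lit 76) (nat_lit 118646962405) (nat_lit 1) (nat_lit 4)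 (nat_lit 2) (nat_lit 5) (nat_lit 2) (nat_lit 4) (nat_lit 251) (nat_lit 186) (nat_lit 163))) (XT.nd (nat_lit 78) (nat_lit 0) (nat_lit 0) (XT.lf (nat_lit 0) (nat_lit 1772950863765) (nat_lit 76) (nat_lit 137649120883) (nat_lit 76) (nat_lit 135297440881) (nat_lit 1) (nat_lit 4) (nat_lit 2) (nat_lit 5) (nat_lit 2) (nat_lit 4) (nat_lit 252) (nat_lit 186) (nat_lit 162)) (XT.nd (nat_lit 78) (nat_lit 0) (nat_lit 0) (XT.lf (nat_lit 0) (nat_lit 2041386495386) (nat_lit 76) (nat_lit 156822053498) (nat_lit 76) (nat_lit 154459269824) (nat_lit 1) (nat_lit 4) (nat_lit 2) (nat_lit 5) (nat_lit 2) (nat_lit 4) (nat_lit 253) (nat_lit 186) (nat_lit 161)) (XT.lf (nat_lit 0) (nat_lit 2350067536040) (nat_lit 76) (nat_lit 178879793624) (nat_lit 76) (nat_lit 176507354585) (nat_lit 1) (nat_lit 4) (nat_lit 2) (nat_lit 5) (nat_lit 2) (nat_lit 4) (nat_lit 254) (nat_lit 186) (nat_lit 160))))))) (XT.nd (nat_lit 29328)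 (nat_lit 0) (nat_lit 0) (XT.nd (nat_lit 312) (nat_lit 0) (nat_lit 0) (XT.nd (nat_lit 156) (nat_lit 0) (nat_lit 0) (XT.nd (nat_lit 78) (nat_lit 0) (nat_lit 0) (XT.lf (nat_lit 0) (nat_lit 2705033397392) (nat_lit 76) (nat_lit 204253905743) (nat_lit 76) (nat_lit 201873070733) (nat_lit 1) (nat_lit 4) (nat_lit 2) (nat_lit 5) (nat_lit 2) (nat_lit 4) (nat_lit 255) (nat_lit 186) (nat_lit 159)) (XT.lf (nat_lit 0) (nat_lit 3113229063685) (nat_lit 76) (nat_lit 233440839875) (nat_lit 76) (nat_lit 231052704021) (nat_lit 1) (nat_lit 4) (nat_lit 2) (nat_lit 5) (nat_lit 2) (nat_lit 4) (nat_lit 256) (nat_lit 186) (nat_lit 158))) (XT.nd (nat_lit 78) (nat_lit 0) (nat_lit 0) (XT.lf (nat_lit 0) (nat_lit 3582640971868) (nat_lit 76) (nat_lit 267011644730) (nat_lit 76) (nat_lit 264617160316) (nat_lit 1) (nat_lit 4) (nat_lit 2) (nat_lit 5) (nat_lit 2) (nat_lit 4) (nat_lit 257) (nat_lit 186) (nat_lit 157)) (XT.lf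 (nat_lit 0) (nat_lit 4122453267972) (nat_lit 76) (nat_lit 305623140405) (nat_lit 76) (nat_lit 303223135504) (nat_lit 1) (nat_lit 4) (nat_lit 2) (nat_lit 5) (nat_lit 2) (nat_lit 4) (nat_lit 258) (nat_lit 186) (nat_lit 156)))) (XT.nd (nat_lit 28782) (nat_lit 0) (nat_lit 0) (XT.nd (nat_lit 28704) (nat_lit 0) (nat_lit 0) (XT.lf (nat_lit 0) (nat_lit 4743227496920) (nat_lit 76) (nat_lit 350030769204) (nat_lit 76) (nat_lit 347625963880) (nat_lit 1) (nat_lit 4) (nat_lit 2) (nat_lit 5) (nat_lit 2) (nat_lit 4) (nat_lit 259) (nat_lit 186) (nat_lit 155)) (XT.lf (nat_lit 0) (nat_lit 5688560212) (nat_lit 76) (nat_lit 11072604463) (nat_lit 76) (nat_lit 11072604463) (nat_lit 1) (nat_lit 4) (nat_lit 2) (nat_lit 5) (nat_lit 2) (nat_lit 4) (nat_lit 226) (nat_lit 187) (nat_lit 187))) (XT.nd (nat_lit 78) (nat_lit 0) (nat_lit 0) (XT.lf (nat_lit 0) (nat_lit 20806221797) (nat_lit 76) (nat_lit 21611574465) (nat_lit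 76) (nat_lit 21246053243) (nat_lit 1) (nat_lit 4) (nat_lit 2) (nat_lit 5) (nat_lit 2) (nat_lit 4) (nat_lit 227) (nat_lit 187) (nat_lit 186)) (XT.nd (nat_lit 78) (nat_lit 0) (nat_lit 0) (XT.lf (nat_lit 0) (nat_lit 30993425663) (nat_lit 76) (nat_lit 21289807591) (nat_lit 76) (nat_lit 20606441828) (nat_lit 1) (nat_lit 4) (nat_lit 2) (nat_lit 5) (nat_lit 2) (nat_lit 4) (nat_lit 228) (nat_lit 187) (nat_lit 185)) (XT.lf (nat_lit 0) (nat_lit 42138046882) (nat_lit 76) (nat_lit 21173612866) (nat_lit 76) (nat_lit 20213860546) (nat_lit 1) (nat_lit 4) (nat_lit 2) (nat_lit 5) (nat_lit 2) (nat_lit 4) (nat_lit 229) (nat_lit 187) (nat_lit 184)))))) (XT.nd (nat_lit 390) (nat_lit 0) (nat_lit 0) (XT.nd (nat_lit 156) (nat_lit 0) (nat_lit 0) (XT.nd (nat_lit 78) (nat_lit 0) (nat_lit 0) (XT.lf (nat_lit 0) (nat_lit 54458132389) (nat_lit 76) (nat_lit 21260716915) (nat_lit 76) (nat_lit 20060628458) (nat_lit 1)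 (nat_lit 4) (nat_lit 2) (nat_lit 5) (nat_lit 2) (nat_lit 4) (nat_lit 230) (nat_lit 187) (nat_lit 183)) (XT.lf (nat_lit 0) (nat_lit 68194727337) (nat_lit 76) (nat_lit 21552823947) (nat_lit 76) (nat_lit 20143747545) (nat_lit 1) (nat_lit 4) (nat_lit 2) (nat_lit 5) (nat_lit 2) (nat_lit 4) (nat_lit 231) (nat_lit 187) (nat_lit 182))) (XT.nd (nat_lit 78) (nat_lit 0) (nat_lit 0) (XT.lf (nat_lit 0) (nat_lit 83616591191) (nat_lit 76) (nat_lit 22055649101) (nat_lit 76) (nat_lit 20464844051) (nat_lit 1) (nat_lit 4) (nat_lit 2) (nat_lit 5) (nat_lit 2) (nat_lit 4) (nat_lit 232) (nat_lit 187) (nat_lit 181)) (XT.nd (nat_lit 78) (nat_lit 0) (nat_lit 0) (XT.lf (nat_lit 0) (nat_lit 101025456071) (nat_lit 76) (nat_lit 22779030258) (nat_lit 76) (nat_lit 21030200297) (nat_lit 1) (nat_lit 4) (nat_lit 2) (nat_lit 5) (nat_lit 2) (nat_lit 4) (nat_lit 233) (nat_lit 187) (nat_lit 180)) (XT.lf (nat_lit 0) (nat_lit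 120761930203) (nat_lit 76) (nat_lit 23737120530) (nat_lit 76) (nat_lit 21850877603) (nat_lit 1) (nat_lit 4) (nat_lit 2) (nat_lit 5) (nat_lit 2) (nat_lit 4) (nat_lit 234) (nat_lit 187) (nat_lit 179))))) (XT.nd (nat_lit 156) (nat_lit 0) (nat_lit 0) (XT.nd (nat_lit 78) (nat_lit 0) (nat_lit 0) (XT.lf (nat_lit 0) (nat_lit 143212161992) (nat_lit 76) (nat_lit 24948665161) (nat_lit 76) (nat_lit 22942932697) (nat_lit 1) (nat_lit 4) (nat_lit 2) (nat_lit 5) (nat_lit 2) (nat_lit 4) (nat_lit 235) (nat_lit 187) (nat_lit 178)) (XT.lf (nat_lit 0) (nat_lit 168815395106) (nat_lit 76) (nat_lit 26437368284) (nat_lit 76) (nat_lit 24327731876) (nat_lit 1) (nat_lit 4) (nat_lit 2) (nat_lit 5) (nat_lit 2) (nat_lit 4) (nat_lit 236) (nat_lit 187) (nat_lit 177))) (XT.nd (nat_lit 78) (nat_lit 0) (nat_lit 0) (XT.lf (nat_lit 0) (nat_lit 198072562365) (nat_lit 76) (nat_lit 28232356699) (nat_lit 76) (nat_lit 26032369036)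 (nat_lit 1) (nat_lit 4) (nat_lit 2) (nat_lit 5) (nat_lit 2) (nat_lit 4) (nat_lit 237) (nat_lit 187) (nat_lit 176)) (XT.nd (nat_lit 78) (nat_lit 0) (nat_lit 0) (XT.lf (nat_lit 0) (nat_lit 231556086607) (nat_lit 76) (nat_lit 30368749747) (nat_lit 76) (nat_lit 28090195774) (nat_lit 1) (nat_lit 4) (nat_lit 2) (nat_lit 5) (nat_lit 2) (nat_lit 4) (nat_lit 238) (nat_lit 187) (nat_lit 175)) (XT.lf (nat_lit 0) (nat_lit 269921080263) (nat_lit 76) (nat_lit 32888346420) (nat_lit 76) (nat_lit 30541473917) (nat_lit 1) (nat_lit 4) (nat_lit 2) (nat_lit 5) (nat_lit 2) (nat_lit 4) (nat_lit 239) (nat_lit 187) (nat_lit 174))))))))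
noncomputable def xc8 : XT := (XT.nd (nat_lit 1404) (nat_lit 0) (nat_lit 0) (XT.nd (nat_lit 702) (nat_lit 0) (nat_lit 0) (XT.nd (nat_lit 312) (nat_lit 0) (nat_lit 0) (XT.nd (nat_lit 156) (nat_lit 0) (nat_lit 0) (XT.nd (nat_lit 78) (nat_lit 0) (nat_lit 0) (XT.lf (nat_lit 0) (nat_lit 313918162775) (nat_lit 76) (nat_lit 35840443175) (nat_lit 76) (nat_lit 33434163255) (nat_lit 1) (nat_lit 4) (nat_lit 2) (nat_lit 5) (nat_lit 2) (nat_lit 4) (nat_lit 240) (nat_lit 187) (nat_lit 173)) (XT.lf (nat_lit 0) (nat_lit 364408146625) (nat_lit 76) (nat_lit 39282798428) (nat_lit 76) (nat_lit 36824859884) (nat_lit 1) (nat_lit 4) (nat_lit 2) (nat_lit 5) (nat_lit 2) (nat_lit 4) (nat_lit 241) (nat_lit 187) (nat_lit 172))) (XT.nd (nat_lit 78) (nat_lit 0) (nat_lit 0) (XT.lf (nat_lit 0) (nat_lit 422378879325) (nat_lit 76) (nat_lit 43282762607) (nat_lit 76) (nat_lit 40779903520) (nat_lit 1) (nat_lit 4) (nat_lit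 2) (nat_lit 5) (nat_lit 2) (nat_lit 4) (nat_lit 242) (nat_lit 187) (nat_lit 171)) (XT.lf (nat_lit 0) (nat_lit 488964570862) (nat_lit 76) (nat_lit 47918595880) (nat_lit 76) (nat_lit 45376675452) (nat_lit 1) (nat_lit 4) (nat_lit 2) (nat_lit 5) (nat_lit 2) (nat_lit 4) (nat_lit 243) (nat_lit 187) (nat_lit 170)))) (XT.nd (nat_lit 156) (nat_lit 0) (nat_lit 0) (XT.nd (nat_lit 78) (nat_lit 0) (nat_lit 0) (XT.lf (nat_lit 0) (nat_lit 565467984765) (nat_lit 76) (nat_lit 53280999334) (nat_lit 76) (nat_lit 50705112523) (nat_lit 1) (nat_lit 4) (nat_lit 2) (nat_lit 5) (nat_lit 2) (nat_lit 4) (nat_lit 244) (nat_lit 187) (nat_lit 169)) (XT.lf (nat_lit 0) (nat_lit 653385926960) (nat_lit 76) (nat_lit 59474889558) (nat_lit 76) (nat_lit 56869466761) (nat_lit 1) (nat_lit 4) (nat_lit 2) (nat_lit 5) (nat_lit 2) (nat_lit 4) (nat_lit 245) (nat_lit 187) (nat_lit 168))) (XT.nd (nat_lit 78) (nat_lit 0) (nat_lit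 0) (XT.lf (nat_lit 0) (nat_lit 754438531097) (nat_lit 76) (nat_lit 66621451361) (nat_lit 76) (nat_lit 63990345098) (nat_lit 1) (nat_lit 4) (nat_lit 2) (nat_lit 5) (nat_lit 2) (nat_lit 4) (nat_lit 246) (nat_lit 187) (nat_lit 167)) (XT.nd (nat_lit 78) (nat_lit 0) (nat_lit 0) (XT.lf (nat_lit 0) (nat_lit 870602913345) (nat_lit 76) (nat_lit 74860508777) (nat_lit 76) (nat_lit 72207069066) (nat_lit 1) (nat_lit 4) (nat_lit 2) (nat_lit 5) (nat_lit 2) (nat_lit 4) (nat_lit 247) (nat_lit 187) (nat_lit 166)) (XT.lf (nat_lit 0) (nat_lit 1004151855095) (nat_lit 76) (nat_lit 84353260757) (nat_lit 76) (nat_lit 81680400656) (nat_lit 1) (nat_lit 4) (nat_lit 2) (nat_lit 5) (nat_lit 2) (nat_lit 4) (nat_lit 248) (nat_lit 187) (nat_lit 165)))))) (XT.nd (nat_lit 312) (nat_lit 0) (nat_lit 0) (XT.nd (nat_lit 156) (nat_lit 0) (nat_lit 0) (XT.nd (nat_lit 78) (nat_lit 0) (nat_lit 0) (XT.lf (nat_lit 0) (nat_lit 1157698270426)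 (nat_lit 76) (nat_lit 95285435057) (nat_lit 76) (nat_lit 92595687659) (nat_lit 1) (nat_lit 4) (nat_lit 2) (nat_lit 5) (nat_lit 2) (nat_lit 4) (nat_lit 249) (nat_lit 187) (nat_lit 164)) (XT.lf (nat_lit 0) (nat_lit 1334246328332) (nat_lit 76) (nat_lit 107870922042) (nat_lit 76) (nat_lit 105166490040) (nat_lit 1) (nat_lit 4) (nat_lit 2) (nat_lit 5) (nat_lit 2) (nat_lit 4) (nat_lit 250) (nat_lit 187) (nat_lit 163))) (XT.nd (nat_lit 78) (nat_lit 0) (nat_lit 0) (XT.lf (nat_lit 0) (nat_lit 1537250229947) (nat_lit 76) (nat_lit 122355959503) (nat_lit 76) (nat_lit 119638758279) (nat_lit 1) (nat_lit 4) (nat_lit 2) (nat_lit 5) (nat_lit 2) (nat_lit 4) (nat_lit 251) (nat_lit 187) (nat_lit 162)) (XT.lf (nat_lit 0) (nat_lit 1770681790736) (nat_lit 76) (nat_lit 139023950346) (nat_lit 76) (nat_lit 136295645451) (nat_lit 1) (nat_lit 4) (nat_lit 2) (nat_lit 5) (nat_lit 2) (nat_lit 4) (nat_lit 252) (nat_lit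 187) (nat_lit 161)))) (XT.nd (nat_lit 156) (nat_lit 0) (nat_lit 0) (XT.nd (nat_lit 78) (nat_lit 0) (nat_lit 0) (XT.lf (nat_lit 0) (nat_lit 2039108149934) (nat_lit 76) (nat_lit 158201007435) (nat_lit 76) (nat_lit 155463047173) (nat_lit 1) (nat_lit 4) (nat_lit 2) (nat_lit 5) (nat_lit 2) (nat_lit 4) (nat_lit 253) (nat_lit 187) (nat_lit 160)) (XT.lf (nat_lit 0) (nat_lit 2347781127611) (nat_lit 76) (nat_lit 180262334061) (nat_lit 76) (nat_lit 177515977829) (nat_lit 1) (nat_lit 4) (nat_lit 2) (nat_lit 5) (nat_lit 2) (nat_lit 4) (nat_lit 254) (nat_lit 187) (nat_lit 159))) (XT.nd (nat_lit 78) (nat_lit 0) (nat_lit 0) (XT.lf (nat_lit 0) (nat_lit 2702739977678) (nat_lit 76) (nat_lit 205639564875) (nat_lit 76) (nat_lit 202885907799) (nat_lit 1) (nat_lit 4) (nat_lit 2) (nat_lit 5) (nat_lit 2) (nat_lit 4) (nat_lit 255) (nat_lit 187) (nat_lit 158)) (XT.nd (nat_lit 78) (nat_lit 0) (nat_lit 0) (XT.lf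 (nat_lit 0) (nat_lit 3110929547202) (nat_lit 76) (nat_lit 234829210915) (nat_lit 76) (nat_lit 232069205280) (nat_lit 1) (nat_lit 4) (nat_lit 2) (nat_lit 5) (nat_lit 2) (nat_lit 4) (nat_lit 256) (nat_lit 187) (nat_lit 157)) (XT.lf (nat_lit 0) (nat_lit 3580336153848) (nat_lit 76) (nat_lit 268402373953) (nat_lit 76) (nat_lit 265636847830) (nat_lit 1) (nat_lit 4) (nat_lit 2) (nat_lit 5) (nat_lit 2) (nat_lit 4) (nat_lit 257) (nat_lit 187) (nat_lit 156))))))) (XT.nd (nat_lit 29172) (nat_lit 0) (nat_lit 0) (XT.nd (nat_lit 28782) (nat_lit 0) (nat_lit 0) (XT.nd (nat_lit 28626) (nat_lit 0) (nat_lit 0) (XT.nd (nat_lit 78) (nat_lit 0) (nat_lit 0) (XT.lf (nat_lit 0) (nat_lit 4120143839918) (nat_lit 76) (nat_lit 307015920219) (nat_lit 76) (nat_lit 304245593673) (nat_lit 1) (nat_lit 4) (nat_lit 2) (nat_lit 5) (nat_lit 2) (nat_lit 4) (nat_lit 258) (nat_lit 187) (nat_lit 155)) (XT.lf (nat_lit 0) (nat_lit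 4740914060142) (nat_lit 76) (nat_lit 351425332143) (nat_lit 76) (nat_lit 348650831315) (nat_lit 1) (nat_lit 4) (nat_lit 2) (nat_lit 5) (nat_lit 2) (nat_lit 4) (nat_lit 259) (nat_lit 187) (nat_lit 154))) (XT.nd (nat_lit 78) (nat_lit 76) (nat_lit 0) (XT.lf (nat_lit 0) (nat_lit 9369085106) (nat_lit 152) (nat_lit 2626590229) (nat_lit 0) (nat_lit 9369085106) (nat_lit 2) (nat_lit 5) (nat_lit 4) (nat_lit 4) (nat_lit 2) (nat_lit 4) (nat_lit 224) (nat_lit 188) (nat_lit 188)) (XT.lf (nat_lit 0) (nat_lit 2521639127) (nat_lit 76) (nat_lit 23321501055) (nat_lit 76) (nat_lit 22901151650) (nat_lit 1) (nat_lit 4) (nat_lit 2) (nat_lit 5) (nat_lit 2) (nat_lit 4) (nat_lit 225) (nat_lit 188) (nat_lit 187)))) (XT.nd (nat_lit 156) (nat_lit 0) (nat_lit 0) (XT.nd (nat_lit 78) (nat_lit 0) (nat_lit 0) (XT.lf (nat_lit 0) (nat_lit 11026096183) (nat_lit 76) (nat_lit 22721697713) (nat_lit 76) (nat_lit 21935827086)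 (nat_lit 1) (nat_lit 4) (nat_lit 2) (nat_lit 5) (nat_lit 2) (nat_lit 4) (nat_lit 226) (nat_lit 188) (nat_lit 186)) (XT.lf (nat_lit 0) (nat_lit 20149959085) (nat_lit 76) (nat_lit 22323836627) (nat_lit 76) (nat_lit 21220121459) (nat_lit 1) (nat_lit 4) (nat_lit 2) (nat_lit 5) (nat_lit 2) (nat_lit 4) (nat_lit 227) (nat_lit 188) (nat_lit 185))) (XT.nd (nat_lit 78) (nat_lit 0) (nat_lit 0) (XT.lf (nat_lit 0) (nat_lit 30071738194) (nat_lit 76) (nat_lit 22120133558) (nat_lit 76) (nat_lit 20740031832) (nat_lit 1) (nat_lit 4) (nat_lit 2) (nat_lit 5) (nat_lit 2) (nat_lit 4) (nat_lit 228) (nat_lit 188) (nat_lit 184)) (XT.nd (nat_lit 78) (nat_lit 0) (nat_lit 0) (XT.lf (nat_lit 0) (nat_lit 40985555276) (nat_lit 76) (nat_lit 22106603011) (nat_lit 76) (nat_lit 20486165148) (nat_lit 1) (nat_lit 4) (nat_lit 2) (nat_lit 5) (nat_lit 2) (nat_lit 4) (nat_lit 229) (nat_lit 188) (nat_lit 183)) (XT.lf (nat_lit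 0) (nat_lit 53104941534) (nat_lit 76) (nat_lit 22282980258) (nat_lit 76) (nat_lit 20453554450) (nat_lit 1) (nat_lit 4) (nat_lit 2) (nat_lit 5) (nat_lit 2) (nat_lit 4) (nat_lit 230) (nat_lit 188) (nat_lit 182)))))) (XT.nd (nat_lit 312) (nat_lit 0) (nat_lit 0) (XT.nd (nat_lit 156) (nat_lit 0) (nat_lit 0) (XT.nd (nat_lit 78) (nat_lit 0) (nat_lit 0) (XT.lf (nat_lit 0) (nat_lit 66667015396) (nat_lit 76) (nat_lit 22652716158) (nat_lit 76) (nat_lit 20641561703) (nat_lit 1) (nat_lit 4) (nat_lit 2) (nat_lit 5) (nat_lit 2) (nat_lit 4) (nat_lit 231) (nat_lit 188) (nat_lit 181)) (XT.lf (nat_lit 0) (nat_lit 81937121784) (nat_lit 76) (nat_lit 23223044675) (nat_lit 76) (nat_lit 21053865309) (nat_lit 1) (nat_lit 4) (nat_lit 2) (nat_lit 5) (nat_lit 2) (nat_lit 4) (nat_lit 232) (nat_lit 188) (nat_lit 180))) (XT.nd (nat_lit 78) (nat_lit 0) (nat_lit 0) (XT.lf (nat_lit 0) (nat_lit 99214023649) (nat_lit 76)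 (nat_lit 24005124410) (nat_lit 76) (nat_lit 21698532077) (nat_lit 1) (nat_lit 4) (nat_lit 2) (nat_lit 5) (nat_lit 2) (nat_lit 4) (nat_lit 233) (nat_lit 188) (nat_lit 179)) (XT.lf (nat_lit 0) (nat_lit 118835747334) (nat_lit 76) (nat_lit 25014256922) (nat_lit 76) (nat_lit 22588175054) (nat_lit 1) (nat_lit 4) (nat_lit 2) (nat_lit 5) (nat_lit 2) (nat_lit 4) (nat_lit 234) (nat_lit 188) (nat_lit 178)))) (XT.nd (nat_lit 156) (nat_lit 0) (nat_lit 0) (XT.nd (nat_lit 78) (nat_lit 0) (nat_lit 0) (XT.lf (nat_lit 0) (nat_lit 141186196126) (nat_lit 76) (nat_lit 26270186110) (nat_lit 76) (nat_lit 23740200297) (nat_lit 1) (nat_lit 4) (nat_lit 2) (nat_lit 5) (nat_lit 2) (nat_lit 4) (nat_lit 235) (nat_lit 188) (nat_lit 177)) (XT.lf (nat_lit 0) (nat_lit 166702661415) (nat_lit 76) (nat_lit 27797484500) (nat_lit 76) (nat_lit 25177147431) (nat_lit 1) (nat_lit 4) (nat_lit 2) (nat_lit 5) (nat_lit 2) (nat_lit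 4) (nat_lit 236) (nat_lit 188) (nat_lit 176))) (XT.nd (nat_lit 78) (nat_lit 0) (nat_lit 0) (XT.lf (nat_lit 0) (nat_lit 195884378392) (nat_lit 76) (nat_lit 29626034018) (nat_lit 76) (nat_lit 26927130640) (nat_lit 1) (nat_lit 4) (nat_lit 2) (nat_lit 5) (nat_lit 2) (nat_lit 4) (nat_lit 237) (nat_lit 188) (nat_lit 175)) (XT.nd (nat_lit 78) (nat_lit 0) (nat_lit 0) (XT.lf (nat_lit 0) (nat_lit 229302293694) (nat_lit 76) (nat_lit 31791610632) (nat_lit 76) (nat_lit 29024388724) (nat_lit 1) (nat_lit 4) (nat_lit 2) (nat_lit 5) (nat_lit 2) (nat_lit 4) (nat_lit 238) (nat_lit 188) (nat_lit 174)) (XT.lf (nat_lit 0) (nat_lit 267610236098) (nat_lit 76) (nat_lit 34336584320) (nat_lit 76) (nat_lit 31509954994) (nat_lit 1) (nat_lit 4) (nat_lit 2) (nat_lit 5) (nat_lit 2) (nat_lit 4) (nat_lit 239) (nat_lit 188) (nat_lit 173))))))))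
noncomputable def xc9 : XT := (XT.nd (nat_lit 1404) (nat_lit 0) (nat_lit 0) (XT.nd (nat_lit 702) (nat_lit 0) (nat_lit 0) (XT.nd (nat_lit 312) (nat_lit 0) (nat_lit 0) (XT.nd (nat_lit 156) (nat_lit 0) (nat_lit 0) (XT.nd (nat_lit 78) (nat_lit 0) (nat_lit 0) (XT.lf (nat_lit 0) (nat_lit 311557708824) (nat_lit 76) (nat_lit 37310748044) (nat_lit 76) (nat_lit 34432460095) (nat_lit 1) (nat_lit 4) (nat_lit 2) (nat_lit 5) (nat_lit 2) (nat_lit 4) (nat_lit 240) (nat_lit 188) (nat_lit 172)) (XT.lf (nat_lit 0) (nat_lit 362004553731) (nat_lit 76) (nat_lit 40772291966) (nat_lit 76) (nat_lit 37849083474) (nat_lit 1) (nat_lit 4) (nat_lit 2) (nat_lit 5) (nat_lit 2) (nat_lit 4) (nat_lit 241) (nat_lit 188) (nat_lit 171))) (XT.nd (nat_lit 78) (nat_lit 0) (nat_lit 0) (XT.lf (nat_lit 0) (nat_lit 419937774306) (nat_lit 76) (nat_lit 44788941944) (nat_lit 76) (nat_lit 41826672111) (nat_lit 1) (nat_lit 4) (nat_lit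 2) (nat_lit 5) (nat_lit 2) (nat_lit 4) (nat_lit 242) (nat_lit 188) (nat_lit 170)) (XT.lf (nat_lit 0) (nat_lit 486490846604) (nat_lit 76) (nat_lit 49439284608) (nat_lit 76) (nat_lit 46443048391) (nat_lit 1) (nat_lit 4) (nat_lit 2) (nat_lit 5) (nat_lit 2) (nat_lit 4) (nat_lit 243) (nat_lit 188) (nat_lit 169)))) (XT.nd (nat_lit 156) (nat_lit 0) (nat_lit 0) (XT.nd (nat_lit 78) (nat_lit 0) (nat_lit 0) (XT.lf (nat_lit 0) (nat_lit 562965895952) (nat_lit 76) (nat_lit 54814304923) (nat_lit 76) (nat_lit 51788532721) (nat_lit 1) (nat_lit 4) (nat_lit 2) (nat_lit 5) (nat_lit 2) (nat_lit 4) (nat_lit 244) (nat_lit 188) (nat_lit 168)) (XT.lf (nat_lit 0) (nat_lit 650859173316) (nat_lit 76) (nat_lit 61019166331) (nat_lit 76) (nat_lit 57967710663) (nat_lit 1) (nat_lit 4) (nat_lit 2) (nat_lit 5) (nat_lit 2) (nat_lit 4) (nat_lit 245) (nat_lit 188) (nat_lit 167))) (XT.nd (nat_lit 78) (nat_lit 0) (nat_lit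 0) (XT.lf (nat_lit 0) (nat_lit 751890329774) (nat_lit 76) (nat_lit 68175268293) (nat_lit 76) (nat_lit 65101479176) (nat_lit 1) (nat_lit 4) (nat_lit 2) (nat_lit 5) (nat_lit 2) (nat_lit 4) (nat_lit 246) (nat_lit 188) (nat_lit 166)) (XT.nd (nat_lit 78) (nat_lit 0) (nat_lit 0) (XT.lf (nat_lit 0) (nat_lit 868036061866) (nat_lit 76) (nat_lit 76422621501) (nat_lit 76) (nat_lit 73329411994) (nat_lit 1) (nat_lit 4) (nat_lit 2) (nat_lit 5) (nat_lit 2) (nat_lit 4) (nat_lit 247) (nat_lit 188) (nat_lit 165)) (XT.lf (nat_lit 0) (nat_lit 1001568786090) (nat_lit 76) (nat_lit 85922587212) (nat_lit 76) (nat_lit 82812490410) (nat_lit 1) (nat_lit 4) (nat_lit 2) (nat_lit 5) (nat_lit 2) (nat_lit 4) (nat_lit 248) (nat_lit 188) (nat_lit 164)))))) (XT.nd (nat_lit 312) (nat_lit 0) (nat_lit 0) (XT.nd (nat_lit 156) (nat_lit 0) (nat_lit 0) (XT.nd (nat_lit 78) (nat_lit 0) (nat_lit 0) (XT.lf (nat_lit 0) (nat_lit 1155101099223)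 (nat_lit 76) (nat_lit 96861034322) (nat_lit 76) (nat_lit 93736252914) (nat_lit 1) (nat_lit 4) (nat_lit 2) (nat_lit 5) (nat_lit 2) (nat_lit 4) (nat_lit 249) (nat_lit 188) (nat_lit 163)) (XT.lf (nat_lit 0) (nat_lit 1331636894349) (nat_lit 76) (nat_lit 109451975925) (nat_lit 76) (nat_lit 106314425295) (nat_lit 1) (nat_lit 4) (nat_lit 2) (nat_lit 5) (nat_lit 2) (nat_lit 4) (nat_lit 250) (nat_lit 188) (nat_lit 162))) (XT.nd (nat_lit 78) (nat_lit 0) (nat_lit 0) (XT.lf (nat_lit 0) (nat_lit 1534630132677) (nat_lit 76) (nat_lit 123941756531) (nat_lit 76) (nat_lit 120793102230) (nat_lit 1) (nat_lit 4) (nat_lit 2) (nat_lit 5) (nat_lit 2) (nat_lit 4) (nat_lit 251) (nat_lit 188) (nat_lit 161)) (XT.lf (nat_lit 0) (nat_lit 1768052421043) (nat_lit 76) (nat_lit 140613871848) (nat_lit 76) (nat_lit 137455562181) (nat_lit 1) (nat_lit 4) (nat_lit 2) (nat_lit 5) (nat_lit 2) (nat_lit 4) (nat_lit 252) (nat_lit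 188) (nat_lit 160)))) (XT.nd (nat_lit 156) (nat_lit 0) (nat_lit 0) (XT.nd (nat_lit 78) (nat_lit 0) (nat_lit 0) (XT.lf (nat_lit 0) (nat_lit 2036470717264) (nat_lit 76) (nat_lit 159794515436) (nat_lit 76) (nat_lit 156627809799) (nat_lit 1) (nat_lit 4) (nat_lit 2) (nat_lit 5) (nat_lit 2) (nat_lit 4) (nat_lit 253) (nat_lit 188) (nat_lit 159)) (XT.lf (nat_lit 0) (nat_lit 2345136683657) (nat_lit 76) (nat_lit 181858960757) (nat_lit 76) (nat_lit 178684954276) (nat_lit 1) (nat_lit 4) (nat_lit 2) (nat_lit 5) (nat_lit 2) (nat_lit 4) (nat_lit 254) (nat_lit 188) (nat_lit 158))) (XT.nd (nat_lit 78) (nat_lit 0) (nat_lit 0) (XT.lf (nat_lit 0) (nat_lit 2700089436955) (nat_lit 76) (nat_lit 207238903480) (nat_lit 76) (nat_lit 204058548439) (nat_lit 1) (nat_lit 4) (nat_lit 2) (nat_lit 5) (nat_lit 2) (nat_lit 4) (nat_lit 255) (nat_lit 188) (nat_lit 157)) (XT.nd (nat_lit 78) (nat_lit 0) (nat_lit 0) (XT.lf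 (nat_lit 0) (nat_lit 3108273704941) (nat_lit 76) (nat_lit 236430907702) (nat_lit 76) (nat_lit 233245032174) (nat_lit 1) (nat_lit 4) (nat_lit 2) (nat_lit 5) (nat_lit 2) (nat_lit 4) (nat_lit 256) (nat_lit 188) (nat_lit 156)) (XT.lf (nat_lit 0) (nat_lit 3577675701553) (nat_lit 76) (nat_lit 270006121332) (nat_lit 76) (nat_lit 266815445381) (nat_lit 1) (nat_lit 4) (nat_lit 2) (nat_lit 5) (nat_lit 2) (nat_lit 4) (nat_lit 257) (nat_lit 188) (nat_lit 155))))))) (XT.nd (nat_lit 29016) (nat_lit 0) (nat_lit 0) (XT.nd (nat_lit 28626) (nat_lit 0) (nat_lit 0) (XT.nd (nat_lit 28470) (nat_lit 0) (nat_lit 76) (XT.nd (nat_lit 78) (nat_lit 0) (nat_lit 0) (XT.lf (nat_lit 0) (nat_lit 4117479378899) (nat_lit 76) (nat_lit 308621450723) (nat_lit 76) (nat_lit 305426600490) (nat_lit 1) (nat_lit 4) (nat_lit 2) (nat_lit 5) (nat_lit 2) (nat_lit 4) (nat_lit 258) (nat_lit 188) (nat_lit 154)) (XT.lf (nat_lit 0) (nat_lit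 4738246113275) (nat_lit 76) (nat_lit 353032413189) (nat_lit 76) (nat_lit 349833933147) (nat_lit 1) (nat_lit 4) (nat_lit 2) (nat_lit 5) (nat_lit 2) (nat_lit 4) (nat_lit 259) (nat_lit 188) (nat_lit 153))) (XT.nd (nat_lit 78) (nat_lit 0) (nat_lit 0) (XT.lf (nat_lit 0) (nat_lit 3402861665) (nat_lit 152) (nat_lit 9705784760) (nat_lit 0) (nat_lit 3402861665) (nat_lit 2) (nat_lit 5) (nat_lit 4) (nat_lit 4) (nat_lit 2) (nat_lit 4) (nat_lit 222) (nat_lit 189) (nat_lit 189)) (XT.lf (nat_lit 0) (nat_lit 12695220630) (nat_lit 152) (nat_lit 12621152786) (nat_lit 0) (nat_lit 12211818814) (nat_lit 2) (nat_lit 5) (nat_lit 4) (nat_lit 4) (nat_lit 2) (nat_lit 4) (nat_lit 223) (nat_lit 189) (nat_lit 188)))) (XT.nd (nat_lit 156) (nat_lit 0) (nat_lit 0) (XT.nd (nat_lit 78) (nat_lit 76) (nat_lit 0) (XT.lf (nat_lit 0) (nat_lit 19007162903) (nat_lit 152) (nat_lit 5636664734) (nat_lit 0) (nat_lit 18103411682)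 (nat_lit 2) (nat_lit 5) (nat_lit 4) (nat_lit 4) (nat_lit 2) (nat_lit 4) (nat_lit 224) (nat_lit 189) (nat_lit 187)) (XT.lf (nat_lit 0) (nat_lit 1766937008) (nat_lit 76) (nat_lit 24140602542) (nat_lit 76) (nat_lit 22871330098) (nat_lit 1) (nat_lit 4) (nat_lit 2) (nat_lit 5) (nat_lit 2) (nat_lit 4) (nat_lit 225) (nat_lit 189) (nat_lit 186))) (XT.nd (nat_lit 78) (nat_lit 0) (nat_lit 0) (XT.lf (nat_lit 0) (nat_lit 9966155593) (nat_lit 76) (nat_lit 23676572575) (nat_lit 76) (nat_lit 22089455591) (nat_lit 1) (nat_lit 4) (nat_lit 2) (nat_lit 5) (nat_lit 2) (nat_lit 4) (nat_lit 226) (nat_lit 189) (nat_lit 185)) (XT.nd (nat_lit 78) (nat_lit 0) (nat_lit 0) (XT.lf (nat_lit 0) (nat_lit 18824593738) (nat_lit 76) (nat_lit 23396775294) (nat_lit 76) (nat_lit 21533271752) (nat_lit 1) (nat_lit 4) (nat_lit 2) (nat_lit 5) (nat_lit 2) (nat_lit 4) (nat_lit 227) (nat_lit 189) (nat_lit 184)) (XT.lf (nat_lit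 0) (nat_lit 28515568711) (nat_lit 76) (nat_lit 23295736402) (nat_lit 76) (nat_lit 21191896724) (nat_lit 1) (nat_lit 4) (nat_lit 2) (nat_lit 5) (nat_lit 2) (nat_lit 4) (nat_lit 228) (nat_lit 189) (nat_lit 183)))))) (XT.nd (nat_lit 390) (nat_lit 0) (nat_lit 0) (XT.nd (nat_lit 156) (nat_lit 0) (nat_lit 0) (XT.nd (nat_lit 78) (nat_lit 0) (nat_lit 0) (XT.lf (nat_lit 0) (nat_lit 39228686543) (nat_lit 76) (nat_lit 23371479054) (nat_lit 76) (nat_lit 21058651430) (nat_lit 1) (nat_lit 4) (nat_lit 2) (nat_lit 5) (nat_lit 2) (nat_lit 4) (nat_lit 229) (nat_lit 189) (nat_lit 182)) (XT.lf (nat_lit 0) (nat_lit 51173551715) (nat_lit 76) (nat_lit 23625485169) (nat_lit 76) (nat_lit 21130928897) (nat_lit 1) (nat_lit 4) (nat_lit 2) (nat_lit 5) (nat_lit 2) (nat_lit 4) (nat_lit 230) (nat_lit 189) (nat_lit 181))) (XT.nd (nat_lit 78) (nat_lit 0) (nat_lit 0) (XT.lf (nat_lit 0) (nat_lit 64583868110) (nat_lit 76)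 (nat_lit 24062724432) (nat_lit 76) (nat_lit 21410143250) (nat_lit 1) (nat_lit 4) (nat_lit 2) (nat_lit 5) (nat_lit 2) (nat_lit 4) (nat_lit 231) (nat_lit 189) (nat_lit 180)) (XT.nd (nat_lit 78) (nat_lit 0) (nat_lit 0) (XT.lf (nat_lit 0) (nat_lit 79722011484) (nat_lit 76) (nat_lit 24691751526) (nat_lit 76) (nat_lit 21901757377) (nat_lit 1) (nat_lit 4) (nat_lit 2) (nat_lit 5) (nat_lit 2) (nat_lit 4) (nat_lit 232) (nat_lit 189) (nat_lit 179)) (XT.lf (nat_lit 0) (nat_lit 96884162903) (nat_lit 76) (nat_lit 25524873502) (nat_lit 76) (nat_lit 22615389817) (nat_lit 1) (nat_lit 4) (nat_lit 2) (nat_lit 5) (nat_lit 2) (nat_lit 4) (nat_lit 233) (nat_lit 189) (nat_lit 178))))) (XT.nd (nat_lit 156) (nat_lit 0) (nat_lit 0) (XT.nd (nat_lit 78) (nat_lit 0) (nat_lit 0) (XT.lf (nat_lit 0) (nat_lit 116406103589) (nat_lit 76) (nat_lit 26578390572) (nat_lit 76) (nat_lit 23565002942) (nat_lit 1) (nat_lit 4)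 (nat_lit 2) (nat_lit 5) (nat_lit 2) (nat_lit 4) (nat_lit 234) (nat_lit 189) (nat_lit 177)) (XT.lf (nat_lit 0) (nat_lit 138669784558) (nat_lit 76) (nat_lit 27872915026) (nat_lit 76) (nat_lit 24769176141) (nat_lit 1) (nat_lit 4) (nat_lit 2) (nat_lit 5) (nat_lit 2) (nat_lit 4) (nat_lit 235) (nat_lit 189) (nat_lit 176))) (XT.nd (nat_lit 78) (nat_lit 0) (nat_lit 0) (XT.lf (nat_lit 0) (nat_lit 164110799565) (nat_lit 76) (nat_lit 29433774518) (nat_lit 76) (nat_lit 26251469324) (nat_lit 1) (nat_lit 4) (nat_lit 2) (nat_lit 5) (nat_lit 2) (nat_lit 4) (nat_lit 236) (nat_lit 189) (nat_lit 175)) (XT.nd (nat_lit 78) (nat_lit 0) (nat_lit 0) (XT.lf (nat_lit 0) (nat_lit 193226907602) (nat_lit 76) (nat_lit 31291507603) (nat_lit 76) (nat_lit 28040883878) (nat_lit 1) (nat_lit 4) (nat_lit 2) (nat_lit 5) (nat_lit 2) (nat_lit 4) (nat_lit 237) (nat_lit 189) (nat_lit 174)) (XT.lf (nat_lit 0) (nat_lit 226587771651)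 (nat_lit 76) (nat_lit 33482461232) (nat_lit 76) (nat_lit 30172430090) (nat_lit 1) (nat_lit 4) (nat_lit 2) (nat_lit 5) (nat_lit 2) (nat_lit 4) (nat_lit 238) (nat_lit 189) (nat_lit 173))))))))
noncomputable def xc10 : XT := (XT.nd (nat_lit 1404) (nat_lit 0) (nat_lit 0) (XT.nd (nat_lit 702) (nat_lit 0) (nat_lit 0) (XT.nd (nat_lit 312) (nat_lit 0) (nat_lit 0) (XT.nd (nat_lit 156) (nat_lit 0) (nat_lit 0) (XT.nd (nat_lit 78) (nat_lit 0) (nat_lit 0) (XT.lf (nat_lit 0) (nat_lit 264846104270) (nat_lit 76) (nat_lit 36049501888) (nat_lit 76) (nat_lit 32687812123) (nat_lit 1) (nat_lit 4) (nat_lit 2) (nat_lit 5) (nat_lit 2) (nat_lit 4) (nat_lit 239) (nat_lit 189) (nat_lit 172)) (XT.lf (nat_lit 0) (nat_lit 308750438053) (nat_lit 76) (nat_lit 39042854282) (nat_lit 76) (nat_lit 35636243974) (nat_lit 1) (nat_lit 4) (nat_lit 2) (nat_lit 5) (nat_lit 2) (nat_lit 4) (nat_lit 240) (nat_lit 189) (nat_lit 171)))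 (XT.nd (nat_lit 78) (nat_lit 0) (nat_lit 0) (XT.lf (nat_lit 0) (nat_lit 359159770835) (nat_lit 76) (nat_lit 42521084003) (nat_lit 76) (nat_lit 39075412354) (nat_lit 1) (nat_lit 4) (nat_lit 2) (nat_lit 5) (nat_lit 2) (nat_lit 4) (nat_lit 241) (nat_lit 189) (nat_lit 170)) (XT.lf (nat_lit 0) (nat_lit 417060372172) (nat_lit 76) (nat_lit 46552243371) (nat_lit 76) (nat_lit 43072605338) (nat_lit 1) (nat_lit 4) (nat_lit 2) (nat_lit 5) (nat_lit 2) (nat_lit 4) (nat_lit 242) (nat_lit 189) (nat_lit 169)))) (XT.nd (nat_lit 156) (nat_lit 0) (nat_lit 0) (XT.nd (nat_lit 78) (nat_lit 0) (nat_lit 0) (XT.lf (nat_lit 0) (nat_lit 483585079914) (nat_lit 76) (nat_lit 51215202896) (nat_lit 76) (nat_lit 47706028878) (nat_lit 1) (nat_lit 4) (nat_lit 2) (nat_lit 5) (nat_lit 2) (nat_lit 4) (nat_lit 243) (nat_lit 189) (nat_lit 168)) (XT.lf (nat_lit 0) (nat_lit 560035464431) (nat_lit 76) (nat_lit 56601194396) (nat_lit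 76) (nat_lit 53066336911) (nat_lit 1) (nat_lit 4) (nat_lit 2) (nat_lit 5) (nat_lit 2) (nat_lit 4) (nat_lit 244) (nat_lit 189) (nat_lit 167))) (XT.nd (nat_lit 78) (nat_lit 0) (nat_lit 0) (XT.lf (nat_lit 0) (nat_lit 647907294115) (nat_lit 76) (nat_lit 62815595963) (nat_lit 76) (nat_lit 59258405030) (nat_lit 1) (nat_lit 4) (nat_lit 2) (nat_lit 5) (nat_lit 2) (nat_lit 4) (nat_lit 245) (nat_lit 189) (nat_lit 166)) (XT.nd (nat_lit 78) (nat_lit 0) (nat_lit 0) (XT.lf (nat_lit 0) (nat_lit 748919800418) (nat_lit 76) (nat_lit 69979993717) (nat_lit 76) (nat_lit 66403382393) (nat_lit 1) (nat_lit 4) (nat_lit 2) (nat_lit 5) (nat_lit 2) (nat_lit 4) (nat_lit 246) (nat_lit 189) (nat_lit 165)) (XT.lf (nat_lit 0) (nat_lit 865049314983) (nat_lit 76) (nat_lit 78234560656) (nat_lit 76) (nat_lit 74641062037) (nat_lit 1) (nat_lit 4) (nat_lit 2) (nat_lit 5) (nat_lit 2) (nat_lit 4) (nat_lit 247) (nat_lit 189)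 (nat_lit 164)))))) (XT.nd (nat_lit 312) (nat_lit 0) (nat_lit 0) (XT.nd (nat_lit 156) (nat_lit 0) (nat_lit 0) (XT.nd (nat_lit 78) (nat_lit 0) (nat_lit 0) (XT.lf (nat_lit 0) (nat_lit 998567937010) (nat_lit 76) (nat_lit 87740799177) (nat_lit 76) (nat_lit 84132615953) (nat_lit 1) (nat_lit 4) (nat_lit 2) (nat_lit 5) (nat_lit 2) (nat_lit 4) (nat_lit 248) (nat_lit 189) (nat_lit 163)) (XT.lf (nat_lit 0) (nat_lit 1152087987363) (nat_lit 76) (nat_lit 98684700904) (nat_lit 76) (nat_lit 95063748458) (nat_lit 1) (nat_lit 4) (nat_lit 2) (nat_lit 5) (nat_lit 2) (nat_lit 4) (nat_lit 249) (nat_lit 189) (nat_lit 162))) (XT.nd (nat_lit 78) (nat_lit 0) (nat_lit 0) (XT.lf (nat_lit 0) (nat_lit 1328613119202) (nat_lit 76) (nat_lit 111280385652) (nat_lit 76) (nat_lit 107648329535) (nat_lit 1) (nat_lit 4) (nat_lit 2) (nat_lit 5) (nat_lit 2) (nat_lit 4) (nat_lit 250) (nat_lit 189) (nat_lit 161)) (XT.lf (nat_lit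 0) (nat_lit 1531597085106) (nat_lit 76) (nat_lit 125774290733) (nat_lit 76) (nat_lit 122132579250) (nat_lit 1) (nat_lit 4) (nat_lit 2) (nat_lit 5) (nat_lit 2) (nat_lit 4) (nat_lit 251) (nat_lit 189) (nat_lit 160)))) (XT.nd (nat_lit 156) (nat_lit 0) (nat_lit 0) (XT.nd (nat_lit 78) (nat_lit 0) (nat_lit 0) (XT.lf (nat_lit 0) (nat_lit 1765011310496) (nat_lit 76) (nat_lit 142449992549) (nat_lit 76) (nat_lit 138799885095) (nat_lit 1) (nat_lit 4) (nat_lit 2) (nat_lit 5) (nat_lit 2) (nat_lit 4) (nat_lit 252) (nat_lit 189) (nat_lit 159)) (XT.lf (nat_lit 0) (nat_lit 2033422595432) (nat_lit 76) (nat_lit 161633754832) (nat_lit 76) (nat_lit 157976346535) (nat_lit 1) (nat_lit 4) (nat_lit 2) (nat_lit 5) (nat_lit 2) (nat_lit 4) (nat_lit 253) (nat_lit 189) (nat_lit 158))) (XT.nd (nat_lit 78) (nat_lit 0) (nat_lit 0) (XT.lf (nat_lit 0) (nat_lit 2342082465056) (nat_lit 76) (nat_lit 183700912062) (nat_lit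 76) (nat_lit 180037155205) (nat_lit 1) (nat_lit 4) (nat_lit 2) (nat_lit 5) (nat_lit 2) (nat_lit 4) (nat_lit 254) (nat_lit 189) (nat_lit 157)) (XT.nd (nat_lit 78) (nat_lit 0) (nat_lit 0) (XT.lf (nat_lit 0) (nat_lit 2697029916816) (nat_lit 76) (nat_lit 209083212967) (nat_lit 76) (nat_lit 205413935623) (nat_lit 1) (nat_lit 4) (nat_lit 2) (nat_lit 5) (nat_lit 2) (nat_lit 4) (nat_lit 255) (nat_lit 189) (nat_lit 156)) (XT.lf (nat_lit 0) (nat_lit 3105209574768) (nat_lit 76) (nat_lit 238277267782) (nat_lit 76) (nat_lit 234603190014) (nat_lit 1) (nat_lit 4) (nat_lit 2) (nat_lit 5) (nat_lit 2) (nat_lit 4) (nat_lit 256) (nat_lit 189) (nat_lit 155))))))) (XT.nd (nat_lit 28860) (nat_lit 0) (nat_lit 0) (XT.nd (nat_lit 28470) (nat_lit 0) (nat_lit 0) (XT.nd (nat_lit 156) (nat_lit 0) (nat_lit 0) (XT.nd (nat_lit 78) (nat_lit 0) (nat_lit 0) (XT.lf (nat_lit 0) (nat_lit 3574607562656) (nat_lit 76) (nat_lit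 271854264536) (nat_lit 76) (nat_lit 268176012487) (nat_lit 1) (nat_lit 4) (nat_lit 2) (nat_lit 5) (nat_lit 2) (nat_lit 4) (nat_lit 257) (nat_lit 189) (nat_lit 154)) (XT.lf (nat_lit 0) (nat_lit 4114407754154) (nat_lit 76) (nat_lit 310471144469) (nat_lit 76) (nat_lit 306789262610) (nat_lit 1) (nat_lit 4) (nat_lit 2) (nat_lit 5) (nat_lit 2) (nat_lit 4) (nat_lit 258) (nat_lit 189) (nat_lit 153))) (XT.nd (nat_lit 28236) (nat_lit 0) (nat_lit 228) (XT.lf (nat_lit 0) (nat_lit 4735171457359) (nat_lit 76) (nat_lit 354883455233) (nat_lit 76) (nat_lit 351198417018) (nat_lit 1) (nat_lit 4) (nat_lit 2) (nat_lit 5) (nat_lit 2) (nat_lit 4) (nat_lit 259) (nat_lit 189) (nat_lit 152)) (XT.lf (nat_lit 0) (nat_lit 9645009449) (nat_lit 76) (nat_lit 1618644596) (nat_lit 76) (nat_lit 1618644596) (nat_lit 4) (nat_lit 4) (nat_lit 5) (nat_lit 5) (nat_lit 5) (nat_lit 4) (nat_lit 220) (nat_lit 190) (nat_lit 190))))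 (XT.nd (nat_lit 156) (nat_lit 76) (nat_lit 0) (XT.nd (nat_lit 78) (nat_lit 0) (nat_lit 0) (XT.lf (nat_lit 0) (nat_lit 1779353799) (nat_lit 152) (nat_lit 26140770915) (nat_lit 0) (nat_lit 1223441711) (nat_lit 2) (nat_lit 5) (nat_lit 4) (nat_lit 4) (nat_lit 2) (nat_lit 4) (nat_lit 221) (nat_lit 190) (nat_lit 189)) (XT.lf (nat_lit 0) (nat_lit 7115064924) (nat_lit 152) (nat_lit 19852576436) (nat_lit 0) (nat_lit 6075751020) (nat_lit 2) (nat_lit 5) (nat_lit 4) (nat_lit 4) (nat_lit 2) (nat_lit 4) (nat_lit 222) (nat_lit 190) (nat_lit 188))) (XT.nd (nat_lit 78) (nat_lit 76) (nat_lit 0) (XT.lf (nat_lit 0) (nat_lit 12790153098) (nat_lit 152) (nat_lit 13445643978) (nat_lit 0) (nat_lit 11330489788) (nat_lit 2) (nat_lit 5) (nat_lit 4) (nat_lit 4) (nat_lit 2) (nat_lit 4) (nat_lit 223) (nat_lit 190) (nat_lit 187)) (XT.nd (nat_lit 78) (nat_lit 76) (nat_lit 0) (XT.lf (nat_lit 0) (nat_lit 18915652653)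 (nat_lit 152) (nat_lit 6794620513) (nat_lit 0) (nat_lit 17090468120) (nat_lit 2) (nat_lit 5) (nat_lit 4) (nat_lit 4) (nat_lit 2) (nat_lit 4) (nat_lit 224) (nat_lit 190) (nat_lit 186)) (XT.lf (nat_lit 0) (nat_lit 242766860) (nat_lit 76) (nat_lit 25374482008) (nat_lit 76) (nat_lit 23231452935) (nat_lit 1) (nat_lit 4) (nat_lit 2) (nat_lit 5) (nat_lit 2) (nat_lit 4) (nat_lit 225) (nat_lit 190) (nat_lit 185)))))) (XT.nd (nat_lit 390) (nat_lit 0) (nat_lit 0) (XT.nd (nat_lit 156) (nat_lit 0) (nat_lit 0) (XT.nd (nat_lit 78) (nat_lit 0) (nat_lit 0) (XT.lf (nat_lit 0) (nat_lit 8176560687) (nat_lit 76) (nat_lit 25028515846) (nat_lit 76) (nat_lit 22609100216) (nat_lit 1) (nat_lit 4) (nat_lit 2) (nat_lit 5) (nat_lit 2) (nat_lit 4) (nat_lit 226) (nat_lit 190) (nat_lit 184)) (XT.lf (nat_lit 0) (nat_lit 16804194695) (nat_lit 76) (nat_lit 24851382743) (nat_lit 76) (nat_lit 22191630975) (nat_lit 1) (nat_lit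 4) (nat_lit 2) (nat_lit 5) (nat_lit 2) (nat_lit 4) (nat_lit 227) (nat_lit 190) (nat_lit 183))) (XT.nd (nat_lit 78) (nat_lit 0) (nat_lit 0) (XT.lf (nat_lit 0) (nat_lit 26294470419) (nat_lit 76) (nat_lit 24839617050) (nat_lit 76) (nat_lit 21970877337) (nat_lit 1) (nat_lit 4) (nat_lit 2) (nat_lit 5) (nat_lit 2) (nat_lit 4) (nat_lit 228) (nat_lit 190) (nat_lit 182)) (XT.nd (nat_lit 78) (nat_lit 0) (nat_lit 0) (XT.lf (nat_lit 0) (nat_lit 36833067165) (nat_lit 76) (nat_lit 24992988569) (nat_lit 76) (nat_lit 21942520209) (nat_lit 1) (nat_lit 4) (nat_lit 2) (nat_lit 5) (nat_lit 2) (nat_lit 4) (nat_lit 229) (nat_lit 190) (nat_lit 181)) (XT.lf (nat_lit 0) (nat_lit 48626174871) (nat_lit 76) (nat_lit 25314498047) (nat_lit 76) (nat_lit 22106004776) (nat_lit 1) (nat_lit 4) (nat_lit 2) (nat_lit 5) (nat_lit 2) (nat_lit 4) (nat_lit 230) (nat_lit 190) (nat_lit 180))))) (XT.nd (nat_lit 156) (nat_lit 0)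 (nat_lit 0) (XT.nd (nat_lit 78) (nat_lit 0) (nat_lit 0) (XT.lf (nat_lit 0) (nat_lit 61904528252) (nat_lit 76) (nat_lit 25810435888) (nat_lit 76) (nat_lit 22464529650) (nat_lit 1) (nat_lit 4) (nat_lit 2) (nat_lit 5) (nat_lit 2) (nat_lit 4) (nat_lit 231) (nat_lit 190) (nat_lit 179)) (XT.lf (nat_lit 0) (nat_lit 76927921178) (nat_lit 76) (nat_lit 26490505223) (nat_lit 76) (nat_lit 23025109449) (nat_lit 1) (nat_lit 4) (nat_lit 2) (nat_lit 5) (nat_lit 2) (nat_lit 4) (nat_lit 232) (nat_lit 190) (nat_lit 178))) (XT.nd (nat_lit 78) (nat_lit 0) (nat_lit 0) (XT.lf (nat_lit 0) (nat_lit 93990289599) (nat_lit 76) (nat_lit 27368011755) (nat_lit 76) (nat_lit 23798712038) (nat_lit 1) (nat_lit 4) (nat_lit 2) (nat_lit 5) (nat_lit 2) (nat_lit 4) (nat_lit 233) (nat_lit 190) (nat_lit 177)) (XT.nd (nat_lit 78) (nat_lit 0) (nat_lit 0) (XT.lf (nat_lit 0) (nat_lit 113425462462) (nat_lit 76) (nat_lit 28460124092)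 (nat_lit 76) (nat_lit 24800473119) (nat_lit 1) (nat_lit 4) (nat_lit 2) (nat_lit 5) (nat_lit 2) (nat_lit 4) (nat_lit 234) (nat_lit 190) (nat_lit 176)) (XT.lf (nat_lit 0) (nat_lit 135613693149) (nat_lit 76) (nat_lit 29788209649) (nat_lit 76) (nat_lit 26049992366) (nat_lit 1) (nat_lit 4) (nat_lit 2) (nat_lit 5) (nat_lit 2) (nat_lit 4) (nat_lit 235) (nat_lit 190) (nat_lit 175))))))))
noncomputable def xc11 : XT := (XT.nd (nat_lit 1404) (nat_lit 0) (nat_lit 0) (XT.nd (nat_lit 702) (nat_lit 0) (nat_lit 0) (XT.nd (nat_lit 312) (nat_lit 0) (nat_lit 0) (XT.nd (nat_lit 156) (nat_lit 0) (nat_lit 0) (XT.nd (nat_lit 78) (nat_lit 0) (nat_lit 0) (XT.lf (nat_lit 0) (nat_lit 160989099216) (nat_lit 76) (nat_lit 31378252708) (nat_lit 76) (nat_lit 27571716895) (nat_lit 1) (nat_lit 4) (nat_lit 2) (nat_lit 5) (nat_lit 2) (nat_lit 4) (nat_lit 236) (nat_lit 190) (nat_lit 174)) (XT.lf (nat_lit 0) (nat_lit 190048156000)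 (nat_lit 76) (nat_lit 33261362807) (nat_lit 76) (nat_lit 29395419577) (nat_lit 1) (nat_lit 4) (nat_lit 2) (nat_lit 5) (nat_lit 2) (nat_lit 4) (nat_lit 237) (nat_lit 190) (nat_lit 173))) (XT.nd (nat_lit 78) (nat_lit 0) (nat_lit 0) (XT.lf (nat_lit 0) (nat_lit 223359410264) (nat_lit 76) (nat_lit 35474383405) (nat_lit 76) (nat_lit 31556781551) (nat_lit 1) (nat_lit 4) (nat_lit 2) (nat_lit 5) (nat_lit 2) (nat_lit 4) (nat_lit 238) (nat_lit 190) (nat_lit 172)) (XT.lf (nat_lit 0) (nat_lit 261574603939) (nat_lit 76) (nat_lit 38060612731) (nat_lit 76) (nat_lit 34098090334) (nat_lit 1) (nat_lit 4) (nat_lit 2) (nat_lit 5) (nat_lit 2) (nat_lit 4) (nat_lit 239) (nat_lit 190) (nat_lit 171)))) (XT.nd (nat_lit 156) (nat_lit 0) (nat_lit 0) (XT.nd (nat_lit 78) (nat_lit 0) (nat_lit 0) (XT.lf (nat_lit 0) (nat_lit 305441425598) (nat_lit 76) (nat_lit 41070650923) (nat_lit 76) (nat_lit 37069067186) (nat_lit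 1) (nat_lit 4) (nat_lit 2) (nat_lit 5) (nat_lit 2) (nat_lit 4) (nat_lit 240) (nat_lit 190) (nat_lit 170)) (XT.lf (nat_lit 0) (nat_lit 355818139141) (nat_lit 76) (nat_lit 44563390035) (nat_lit 76) (nat_lit 40527839913) (nat_lit 1) (nat_lit 4) (nat_lit 2) (nat_lit 5) (nat_lit 2) (nat_lit 4) (nat_lit 241) (nat_lit 190) (nat_lit 169))) (XT.nd (nat_lit 78) (nat_lit 0) (nat_lit 0) (XT.lf (nat_lit 0) (nat_lit 413690375922) (nat_lit 76) (nat_lit 48607166264) (nat_lit 76) (nat_lit 44542080157) (nat_lit 1) (nat_lit 4) (nat_lit 2) (nat_lit 5) (nat_lit 2) (nat_lit 4) (nat_lit 242) (nat_lit 190) (nat_lit 168)) (XT.nd (nat_lit 78) (nat_lit 0) (nat_lit 0) (XT.lf (nat_lit 0) (nat_lit 480190418833) (nat_lit 76) (nat_lit 53281096973) (nat_lit 76) (nat_lit 49190327400) (nat_lit 1) (nat_lit 4) (nat_lit 2) (nat_lit 5) (nat_lit 2) (nat_lit 4) (nat_lit 243) (nat_lit 190) (nat_lit 167)) (XT.lf (nat_lit 0) (nat_lit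 556619355671) (nat_lit 76) (nat_lit 58676628632) (nat_lit 76) (nat_lit 54563525610) (nat_lit 1) (nat_lit 4) (nat_lit 2) (nat_lit 5) (nat_lit 2) (nat_lit 4) (nat_lit 244) (nat_lit 190) (nat_lit 166)))))) (XT.nd (nat_lit 312) (nat_lit 0) (nat_lit 0) (XT.nd (nat_lit 156) (nat_lit 0) (nat_lit 0) (XT.nd (nat_lit 78) (nat_lit 0) (nat_lit 0) (XT.lf (nat_lit 0) (nat_lit 644472535200) (nat_lit 76) (nat_lit 64899325991) (nat_lit 76) (nat_lit 60766802579) (nat_lit 1) (nat_lit 4) (nat_lit 2) (nat_lit 5) (nat_lit 2) (nat_lit 4) (nat_lit 245) (nat_lit 190) (nat_lit 165)) (XT.lf (nat_lit 0) (nat_lit 745468823976) (nat_lit 76) (nat_lit 72070937476) (nat_lit 76) (nat_lit 67921526768) (nat_lit 1) (nat_lit 4) (nat_lit 2) (nat_lit 5) (nat_lit 2) (nat_lit 4) (nat_lit 246) (nat_lit 190) (nat_lit 164))) (XT.nd (nat_lit 78) (nat_lit 0) (nat_lit 0) (XT.lf (nat_lit 0) (nat_lit 861584236344) (nat_lit 76) (nat_lit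 80331777225) (nat_lit 76) (nat_lit 76167681912) (nat_lit 1) (nat_lit 4) (nat_lit 2) (nat_lit 5) (nat_lit 2) (nat_lit 4) (nat_lit 247) (nat_lit 190) (nat_lit 163)) (XT.lf (nat_lit 0) (nat_lit 995090595590) (nat_lit 76) (nat_lit 89843470363) (nat_lit 76) (nat_lit 85666605829) (nat_lit 1) (nat_lit 4) (nat_lit 2) (nat_lit 5) (nat_lit 2) (nat_lit 4) (nat_lit 248) (nat_lit 190) (nat_lit 162)))) (XT.nd (nat_lit 156) (nat_lit 0) (nat_lit 0) (XT.nd (nat_lit 78) (nat_lit 0) (nat_lit 0) (XT.lf (nat_lit 0) (nat_lit 1148599982656) (nat_lit 76) (nat_lit 100792115235) (nat_lit 76) (nat_lit 96604147030) (nat_lit 1) (nat_lit 4) (nat_lit 2) (nat_lit 5) (nat_lit 2) (nat_lit 4) (nat_lit 249) (nat_lit 190) (nat_lit 161)) (XT.lf (nat_lit 0) (nat_lit 1325115842072) (nat_lit 76) (nat_lit 113391924458) (nat_lit 76) (nat_lit 109194300887) (nat_lit 1) (nat_lit 4) (nat_lit 2) (nat_lit 5) (nat_lit 2) (nat_lit 4)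 (nat_lit 250) (nat_lit 190) (nat_lit 160))) (XT.nd (nat_lit 78) (nat_lit 0) (nat_lit 0) (XT.lf (nat_lit 0) (nat_lit 1528091744999) (nat_lit 76) (nat_lit 127889416038) (nat_lit 76) (nat_lit 123683396496) (nat_lit 1) (nat_lit 4) (nat_lit 2) (nat_lit 5) (nat_lit 2) (nat_lit 4) (nat_lit 251) (nat_lit 190) (nat_lit 159)) (XT.nd (nat_lit 78) (nat_lit 0) (nat_lit 0) (XT.lf (nat_lit 0) (nat_lit 1761498959104) (nat_lit 76) (nat_lit 144568236550) (nat_lit 76) (nat_lit 140354916164) (nat_lit 1) (nat_lit 4) (nat_lit 2) (nat_lit 5) (nat_lit 2) (nat_lit 4) (nat_lit 252) (nat_lit 190) (nat_lit 158)) (XT.lf (nat_lit 0) (nat_lit 2029904147272) (nat_lit 76) (nat_lit 163754710742) (nat_lit 76) (nat_lit 159535041796) (nat_lit 1) (nat_lit 4) (nat_lit 2) (nat_lit 5) (nat_lit 2) (nat_lit 4) (nat_lit 253) (nat_lit 190) (nat_lit 157))))))) (XT.nd (nat_lit 28704) (nat_lit 0) (nat_lit 0) (XT.nd (nat_lit 312) (nat_lit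 0) (nat_lit 0) (XT.nd (nat_lit 156) (nat_lit 0) (nat_lit 0) (XT.nd (nat_lit 78) (nat_lit 0) (nat_lit 0) (XT.lf (nat_lit 0) (nat_lit 2338558715357) (nat_lit 76) (nat_lit 185824226153) (nat_lit 76) (nat_lit 181599036720) (nat_lit 1) (nat_lit 4) (nat_lit 2) (nat_lit 5) (nat_lit 2) (nat_lit 4) (nat_lit 254) (nat_lit 190) (nat_lit 156)) (XT.lf (nat_lit 0) (nat_lit 2693501557084) (nat_lit 76) (nat_lit 211208577651) (nat_lit 76) (nat_lit 206978587795) (nat_lit 1) (nat_lit 4) (nat_lit 2) (nat_lit 5) (nat_lit 2) (nat_lit 4) (nat_lit 255) (nat_lit 190) (nat_lit 155))) (XT.nd (nat_lit 78) (nat_lit 0) (nat_lit 0) (XT.lf (nat_lit 0) (nat_lit 3101677206312) (nat_lit 76) (nat_lit 240404415590) (nat_lit 76) (nat_lit 236170251452) (nat_lit 1) (nat_lit 4) (nat_lit 2) (nat_lit 5) (nat_lit 2) (nat_lit 4) (nat_lit 256) (nat_lit 190) (nat_lit 154)) (XT.lf (nat_lit 0) (nat_lit 3571071708352) (nat_lit 76) (nat_lit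 273982962886) (nat_lit 76) (nat_lit 269745168939) (nat_lit 1) (nat_lit 4) (nat_lit 2) (nat_lit 5) (nat_lit 2) (nat_lit 4) (nat_lit 257) (nat_lit 190) (nat_lit 153)))) (XT.nd (nat_lit 28158) (nat_lit 0) (nat_lit 228) (XT.nd (nat_lit 78) (nat_lit 0) (nat_lit 0) (XT.lf (nat_lit 0) (nat_lit 4110868868679) (nat_lit 76) (nat_lit 312601191118) (nat_lit 76) (nat_lit 308360240814) (nat_lit 1) (nat_lit 4) (nat_lit 2) (nat_lit 5) (nat_lit 2) (nat_lit 4) (nat_lit 258) (nat_lit 190) (nat_lit 152)) (XT.lf (nat_lit 0) (nat_lit 4731629936082) (nat_lit 76) (nat_lit 357014674315) (nat_lit 76) (nat_lit 352770979354) (nat_lit 1) (nat_lit 4) (nat_lit 2) (nat_lit 5) (nat_lit 2) (nat_lit 4) (nat_lit 259) (nat_lit 190) (nat_lit 151))) (XT.nd (nat_lit 78) (nat_lit 76) (nat_lit 0) (XT.lf (nat_lit 0) (nat_lit 4247559752) (nat_lit 152) (nat_lit 1676080867) (nat_lit 0) (nat_lit 4247559752) (nat_lit 5) (nat_lit 5)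 (nat_lit 7) (nat_lit 4) (nat_lit 5) (nat_lit 4) (nat_lit 218) (nat_lit 191) (nat_lit 191)) (XT.nd (nat_lit 78) (nat_lit 0) (nat_lit 0) (XT.lf (nat_lit 0) (nat_lit 7325329989) (nat_lit 76) (nat_lit 8110786186) (nat_lit 76) (nat_lit 7420343372) (nat_lit 4) (nat_lit 4) (nat_lit 5) (nat_lit 5) (nat_lit 5) (nat_lit 4) (nat_lit 219) (nat_lit 191) (nat_lit 190)) (XT.lf (nat_lit 0) (nat_lit 18840085589) (nat_lit 76) (nat_lit 4118442684) (nat_lit 76) (nat_lit 2827614814) (nat_lit 4) (nat_lit 4) (nat_lit 5) (nat_lit 5) (nat_lit 5) (nat_lit 4) (nat_lit 220) (nat_lit 191) (nat_lit 189)))))) (XT.nd (nat_lit 390) (nat_lit 76) (nat_lit 0) (XT.nd (nat_lit 156) (nat_lit 0) (nat_lit 0) (XT.nd (nat_lit 78) (nat_lit 0) (nat_lit 0) (XT.lf (nat_lit 0) (nat_lit 1888526137) (nat_lit 152) (nat_lit 27088935785) (nat_lit 0) (nat_lit 209913330) (nat_lit 2) (nat_lit 5) (nat_lit 4) (nat_lit 4) (nat_lit 2) (nat_lit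 4) (nat_lit 221) (nat_lit 191) (nat_lit 188)) (XT.lf (nat_lit 0) (nat_lit 7009828136) (nat_lit 152) (nat_lit 21184225582) (nat_lit 0) (nat_lit 4910865924) (nat_lit 2) (nat_lit 5) (nat_lit 4) (nat_lit 4) (nat_lit 2) (nat_lit 4) (nat_lit 222) (nat_lit 191) (nat_lit 187))) (XT.nd (nat_lit 78) (nat_lit 0) (nat_lit 0) (XT.lf (nat_lit 0) (nat_lit 12498473591) (nat_lit 152) (nat_lit 15110757710) (nat_lit 0) (nat_lit 10033990157) (nat_lit 2) (nat_lit 5) (nat_lit 4) (nat_lit 4) (nat_lit 2) (nat_lit 4) (nat_lit 223) (nat_lit 191) (nat_lit 186)) (XT.nd (nat_lit 78) (nat_lit 0) (nat_lit 0) (XT.lf (nat_lit 0) (nat_lit 18461849043) (nat_lit 152) (nat_lit 8749703451) (nat_lit 0) (nat_lit 15679521068) (nat_lit 2) (nat_lit 5) (nat_lit 4) (nat_lit 4) (nat_lit 2) (nat_lit 4) (nat_lit 224) (nat_lit 191) (nat_lit 185)) (XT.lf (nat_lit 0) (nat_lit 25016629229) (nat_lit 152) (nat_lit 1976607396) (nat_lit 0)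 (nat_lit 21957914697) (nat_lit 2) (nat_lit 5) (nat_lit 4) (nat_lit 4) (nat_lit 2) (nat_lit 4) (nat_lit 225) (nat_lit 191) (nat_lit 184))))) (XT.nd (nat_lit 156) (nat_lit 0) (nat_lit 0) (XT.nd (nat_lit 78) (nat_lit 0) (nat_lit 0) (XT.lf (nat_lit 0) (nat_lit 5622297652) (nat_lit 76) (nat_lit 26803978591) (nat_lit 76) (nat_lit 23504927921) (nat_lit 1) (nat_lit 4) (nat_lit 2) (nat_lit 5) (nat_lit 2) (nat_lit 4) (nat_lit 226) (nat_lit 191) (nat_lit 183)) (XT.lf (nat_lit 0) (nat_lit 14049232411) (nat_lit 76) (nat_lit 26716118685) (nat_lit 76) (nat_lit 23208080071) (nat_lit 1) (nat_lit 4) (nat_lit 2) (nat_lit 5) (nat_lit 2) (nat_lit 4) (nat_lit 227) (nat_lit 191) (nat_lit 182))) (XT.nd (nat_lit 78) (nat_lit 0) (nat_lit 0) (XT.lf (nat_lit 0) (nat_lit 23364987048) (nat_lit 76) (nat_lit 26781981860) (nat_lit 76) (nat_lit 23092214598) (nat_lit 1) (nat_lit 4) (nat_lit 2) (nat_lit 5) (nat_lit 2)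 (nat_lit 4) (nat_lit 228) (nat_lit 191) (nat_lit 181)) (XT.nd (nat_lit 78) (nat_lit 0) (nat_lit 0) (XT.lf (nat_lit 0) (nat_lit 33751826328) (nat_lit 76) (nat_lit 27002856743) (nat_lit 76) (nat_lit 23155064570) (nat_lit 1) (nat_lit 4) (nat_lit 2) (nat_lit 5) (nat_lit 2) (nat_lit 4) (nat_lit 229) (nat_lit 191) (nat_lit 180)) (XT.lf (nat_lit 0) (nat_lit 45412971019) (nat_lit 76) (nat_lit 27383064798) (nat_lit 76) (nat_lit 23397859659) (nat_lit 1) (nat_lit 4) (nat_lit 2) (nat_lit 5) (nat_lit 2) (nat_lit 4) (nat_lit 230) (nat_lit 191) (nat_lit 179))))))))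
noncomputable def xc12 : XT := (XT.nd (nat_lit 1404) (nat_lit 0) (nat_lit 0) (XT.nd (nat_lit 702) (nat_lit 0) (nat_lit 0) (XT.nd (nat_lit 312) (nat_lit 0) (nat_lit 0) (XT.nd (nat_lit 156) (nat_lit 0) (nat_lit 0) (XT.nd (nat_lit 78) (nat_lit 0) (nat_lit 0) (XT.lf (nat_lit 0) (nat_lit 58576573953) (nat_lit 76) (nat_lit 27930044880) (nat_lit 76) (nat_lit 23825350204) (nat_lit 1) (nat_lit 4) (nat_lit 2) (nat_lit 5) (nat_lit 2) (nat_lit 4) (nat_lit 231) (nat_lit 191) (nat_lit 178)) (XT.lf (nat_lit 0) (nat_lit 73500183882) (nat_lit 76) (nat_lit 28654498771) (nat_lit 76) (nat_lit 24445900152) (nat_lit 1) (nat_lit 4) (nat_lit 2) (nat_lit 5) (nat_lit 2) (nat_lit 4) (nat_lit 232) (nat_lit 191) (nat_lit 177))) (XT.nd (nat_lit 78) (nat_lit 0) (nat_lit 0) (XT.lf (nat_lit 0) (nat_lit 90475784479) (nat_lit 76) (nat_lit 29570600571) (nat_lit 76) (nat_lit 25271650696) (nat_lit 1) (nat_lit 4) (nat_lit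 2) (nat_lit 5) (nat_lit 2) (nat_lit 4) (nat_lit 233) (nat_lit 191) (nat_lit 176)) (XT.lf (nat_lit 0) (nat_lit 109835507060) (nat_lit 76) (nat_lit 30696274010) (nat_lit 76) (nat_lit 26318757825) (nat_lit 1) (nat_lit 4) (nat_lit 2) (nat_lit 5) (nat_lit 2) (nat_lit 4) (nat_lit 234) (nat_lit 191) (nat_lit 175)))) (XT.nd (nat_lit 156) (nat_lit 0) (nat_lit 0) (XT.nd (nat_lit 78) (nat_lit 0) (nat_lit 0) (XT.lf (nat_lit 0) (nat_lit 131958128806) (nat_lit 76) (nat_lit 32053543134) (nat_lit 76) (nat_lit 27607708419) (nat_lit 1) (nat_lit 4) (nat_lit 2) (nat_lit 5) (nat_lit 2) (nat_lit 4) (nat_lit 235) (nat_lit 191) (nat_lit 174)) (XT.lf (nat_lit 0) (nat_lit 157276483621) (nat_lit 76) (nat_lit 33668963207) (nat_lit 76) (nat_lit 29163721075) (nat_lit 1) (nat_lit 4) (nat_lit 2) (nat_lit 5) (nat_lit 2) (nat_lit 4) (nat_lit 236) (nat_lit 191) (nat_lit 173))) (XT.nd (nat_lit 78) (nat_lit 0) (nat_lit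 0) (XT.lf (nat_lit 0) (nat_lit 186285930620) (nat_lit 76) (nat_lit 35574140276) (nat_lit 76) (nat_lit 31017239520) (nat_lit 1) (nat_lit 4) (nat_lit 2) (nat_lit 5) (nat_lit 2) (nat_lit 4) (nat_lit 237) (nat_lit 191) (nat_lit 172)) (XT.nd (nat_lit 78) (nat_lit 0) (nat_lit 0) (XT.lf (nat_lit 0) (nat_lit 219554045941) (nat_lit 76) (nat_lit 37806349543) (nat_lit 76) (nat_lit 33204528244) (nat_lit 1) (nat_lit 4) (nat_lit 2) (nat_lit 5) (nat_lit 2) (nat_lit 4) (nat_lit 238) (nat_lit 191) (nat_lit 171)) (XT.lf (nat_lit 0) (nat_lit 257731727491) (nat_lit 76) (nat_lit 40409264667) (nat_lit 76) (nat_lit 35768382028) (nat_lit 1) (nat_lit 4) (nat_lit 2) (nat_lit 5) (nat_lit 2) (nat_lit 4) (nat_lit 239) (nat_lit 191) (nat_lit 170)))))) (XT.nd (nat_lit 312) (nat_lit 0) (nat_lit 0) (XT.nd (nat_lit 156) (nat_lit 0) (nat_lit 0) (XT.nd (nat_lit 78) (nat_lit 0) (nat_lit 0) (XT.lf (nat_lit 0) (nat_lit 301565929911)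 (nat_lit 76) (nat_lit 43433812251) (nat_lit 76) (nat_lit 38758963227) (nat_lit 1) (nat_lit 4) (nat_lit 2) (nat_lit 5) (nat_lit 2) (nat_lit 4) (nat_lit 240) (nat_lit 191) (nat_lit 169)) (XT.lf (nat_lit 0) (nat_lit 351914278899) (nat_lit 76) (nat_lit 46939168223) (nat_lit 76) (nat_lit 42234783214) (nat_lit 1) (nat_lit 4) (nat_lit 2) (nat_lit 5) (nat_lit 2) (nat_lit 4) (nat_lit 241) (nat_lit 191) (nat_lit 168))) (XT.nd (nat_lit 78) (nat_lit 0) (nat_lit 0) (XT.lf (nat_lit 0) (nat_lit 409761850848) (nat_lit 76) (nat_lit 50993915636) (nat_lit 76) (nat_lit 46263847161) (nat_lit 1) (nat_lit 4) (nat_lit 2) (nat_lit 5) (nat_lit 2) (nat_lit 4) (nat_lit 242) (nat_lit 191) (nat_lit 167)) (XT.lf (nat_lit 0) (nat_lit 476240446080) (nat_lit 76) (nat_lit 55677386505) (nat_lit 76) (nat_lit 50924984582) (nat_lit 1) (nat_lit 4) (nat_lit 2) (nat_lit 5) (nat_lit 2) (nat_lit 4) (nat_lit 243) (nat_lit 191)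 (nat_lit 166)))) (XT.nd (nat_lit 156) (nat_lit 0) (nat_lit 0) (XT.nd (nat_lit 78) (nat_lit 0) (nat_lit 0) (XT.lf (nat_lit 0) (nat_lit 552650732763) (nat_lit 76) (nat_lit 61081213955) (nat_lit 76) (nat_lit 56309391642) (nat_lit 1) (nat_lit 4) (nat_lit 2) (nat_lit 5) (nat_lit 2) (nat_lit 4) (nat_lit 244) (nat_lit 191) (nat_lit 165)) (XT.lf (nat_lit 0) (nat_lit 640487694765) (nat_lit 76) (nat_lit 67311125045) (nat_lit 76) (nat_lit 62522415436) (nat_lit 1) (nat_lit 4) (nat_lit 2) (nat_lit 5) (nat_lit 2) (nat_lit 4) (nat_lit 245) (nat_lit 191) (nat_lit 164))) (XT.nd (nat_lit 78) (nat_lit 0) (nat_lit 0) (XT.lf (nat_lit 0) (nat_lit 741469881343) (nat_lit 76) (nat_lit 74489009340) (nat_lit 76) (nat_lit 69685615126) (nat_lit 1) (nat_lit 4) (nat_lit 2) (nat_lit 5) (nat_lit 2) (nat_lit 4) (nat_lit 246) (nat_lit 191) (nat_lit 163)) (XT.nd (nat_lit 78) (nat_lit 0) (nat_lit 0) (XT.lf (nat_lit 0) (nat_lit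 857573030932) (nat_lit 76) (nat_lit 82755303707) (nat_lit 76) (nat_lit 77939140270) (nat_lit 1) (nat_lit 4) (nat_lit 2) (nat_lit 5) (nat_lit 2) (nat_lit 4) (nat_lit 247) (nat_lit 191) (nat_lit 162)) (XT.lf (nat_lit 0) (nat_lit 991068726891) (nat_lit 76) (nat_lit 92271739991) (nat_lit 76) (nat_lit 87444472883) (nat_lit 1) (nat_lit 4) (nat_lit 2) (nat_lit 5) (nat_lit 2) (nat_lit 4) (nat_lit 248) (nat_lit 191) (nat_lit 161))))))) (XT.nd (nat_lit 702) (nat_lit 0) (nat_lit 0) (XT.nd (nat_lit 312) (nat_lit 0) (nat_lit 0) (XT.nd (nat_lit 156) (nat_lit 0) (nat_lit 0) (XT.nd (nat_lit 78) (nat_lit 0) (nat_lit 0) (XT.lf (nat_lit 0) (nat_lit 1144568841534) (nat_lit 76) (nat_lit 103224509337) (nat_lit 76) (nat_lit 98387586864) (nat_lit 1) (nat_lit 4) (nat_lit 2) (nat_lit 5) (nat_lit 2) (nat_lit 4) (nat_lit 249) (nat_lit 191) (nat_lit 160)) (XT.lf (nat_lit 0) (nat_lit 1321076637972) (nat_lit 76) (nat_lit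 115827905059) (nat_lit 76) (nat_lit 110982586615) (nat_lit 1) (nat_lit 4) (nat_lit 2) (nat_lit 5) (nat_lit 2) (nat_lit 4) (nat_lit 250) (nat_lit 191) (nat_lit 159))) (XT.nd (nat_lit 78) (nat_lit 0) (nat_lit 0) (XT.lf (nat_lit 0) (nat_lit 1524045529615) (nat_lit 76) (nat_lit 130328515334) (nat_lit 76) (nat_lit 125475896046) (nat_lit 1) (nat_lit 4) (nat_lit 2) (nat_lit 5) (nat_lit 2) (nat_lit 4) (nat_lit 251) (nat_lit 191) (nat_lit 158)) (XT.lf (nat_lit 0) (nat_lit 1757446646951) (nat_lit 76) (nat_lit 147010047755) (nat_lit 76) (nat_lit 142151079907) (nat_lit 1) (nat_lit 4) (nat_lit 2) (nat_lit 5) (nat_lit 2) (nat_lit 4) (nat_lit 252) (nat_lit 191) (nat_lit 157)))) (XT.nd (nat_lit 156) (nat_lit 0) (nat_lit 0) (XT.nd (nat_lit 78) (nat_lit 0) (nat_lit 0) (XT.lf (nat_lit 0) (nat_lit 2025846533580) (nat_lit 76) (nat_lit 166198880129) (nat_lit 76) (nat_lit 161334391794) (nat_lit 1) (nat_lit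 4) (nat_lit 2) (nat_lit 5) (nat_lit 2) (nat_lit 4) (nat_lit 253) (nat_lit 191) (nat_lit 156)) (XT.lf (nat_lit 0) (nat_lit 2334496491633) (nat_lit 76) (nat_lit 188270446133) (nat_lit 76) (nat_lit 183401157374) (nat_lit 1) (nat_lit 4) (nat_lit 2) (nat_lit 5) (nat_lit 2) (nat_lit 4) (nat_lit 254) (nat_lit 191) (nat_lit 155))) (XT.nd (nat_lit 78) (nat_lit 0) (nat_lit 0) (XT.lf (nat_lit 0) (nat_lit 2689435324635) (nat_lit 76) (nat_lit 213656580754) (nat_lit 76) (nat_lit 208783117715) (nat_lit 1) (nat_lit 4) (nat_lit 2) (nat_lit 5) (nat_lit 2) (nat_lit 4) (nat_lit 255) (nat_lit 191) (nat_lit 154)) (XT.nd (nat_lit 78) (nat_lit 0) (nat_lit 0) (XT.lf (nat_lit 0) (nat_lit 3097607488015) (nat_lit 76) (nat_lit 242853969236) (nat_lit 76) (nat_lit 237976876386) (nat_lit 1) (nat_lit 4) (nat_lit 2) (nat_lit 5) (nat_lit 2) (nat_lit 4) (nat_lit 256) (nat_lit 191) (nat_lit 153)) (XT.lf (nat_lit 0) (nat_lit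 3566998958884) (nat_lit 76) (nat_lit 276433864830) (nat_lit 76) (nat_lit 271553615625) (nat_lit 1) (nat_lit 4) (nat_lit 2) (nat_lit 5) (nat_lit 2) (nat_lit 4) (nat_lit 257) (nat_lit 191) (nat_lit 152)))))) (XT.nd (nat_lit 28158) (nat_lit 0) (nat_lit 76) (XT.nd (nat_lit 28002) (nat_lit 0) (nat_lit 304) (XT.nd (nat_lit 78) (nat_lit 0) (nat_lit 0) (XT.lf (nat_lit 0) (nat_lit 4106793483409) (nat_lit 76) (nat_lit 315053265495) (nat_lit 76) (nat_lit 310170271631) (nat_lit 1) (nat_lit 4) (nat_lit 2) (nat_lit 5) (nat_lit 2) (nat_lit 4) (nat_lit 258) (nat_lit 191) (nat_lit 151)) (XT.lf (nat_lit 0) (nat_lit 4727552258811) (nat_lit 76) (nat_lit 359467768199) (nat_lit 76) (nat_lit 354582387677) (nat_lit 1) (nat_lit 4) (nat_lit 2) (nat_lit 5) (nat_lit 2) (nat_lit 4) (nat_lit 259) (nat_lit 191) (nat_lit 150))) (XT.nd (nat_lit 78) (nat_lit 152) (nat_lit 0) (XT.lf (nat_lit 0) (nat_lit 5241091666) (nat_lit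 76) (nat_lit 1458434534) (nat_lit 76) (nat_lit 1458434534) (nat_lit 7) (nat_lit 4) (nat_lit 8) (nat_lit 5) (nat_lit 8) (nat_lit 4) (nat_lit 216) (nat_lit 192) (nat_lit 192)) (XT.lf (nat_lit 0) (nat_lit 2872610852) (nat_lit 152) (nat_lit 13237256863) (nat_lit 0) (nat_lit 2078601616) (nat_lit 5) (nat_lit 5) (nat_lit 7) (nat_lit 4) (nat_lit 5) (nat_lit 4) (nat_lit 217) (nat_lit 192) (nat_lit 191)))) (XT.nd (nat_lit 156) (nat_lit 152) (nat_lit 0) (XT.nd (nat_lit 78) (nat_lit 76) (nat_lit 0) (XT.lf (nat_lit 0) (nat_lit 9003466758) (nat_lit 152) (nat_lit 3843701431) (nat_lit 0) (nat_lit 7519014708) (nat_lit 5) (nat_lit 5) (nat_lit 7) (nat_lit 4) (nat_lit 5) (nat_lit 4) (nat_lit 218) (nat_lit 192) (nat_lit 190)) (XT.lf (nat_lit 0) (nat_lit 6357973375) (nat_lit 76) (nat_lit 9314823380) (nat_lit 76) (nat_lit 7229986274) (nat_lit 4) (nat_lit 4) (nat_lit 5) (nat_lit 5) (nat_lit 5) (nat_lit 4) (nat_lit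 219) (nat_lit 192) (nat_lit 189))) (XT.nd (nat_lit 78) (nat_lit 152) (nat_lit 0) (XT.lf (nat_lit 0) (nat_lit 17481482619) (nat_lit 76) (nat_lit 5488315250) (nat_lit 76) (nat_lit 2881404182) (nat_lit 4) (nat_lit 4) (nat_lit 5) (nat_lit 5) (nat_lit 5) (nat_lit 4) (nat_lit 220) (nat_lit 192) (nat_lit 188)) (XT.nd (nat_lit 78) (nat_lit 0) (nat_lit 0) (XT.lf (nat_lit 0) (nat_lit 237006976) (nat_lit 76) (nat_lit 1348519659) (nat_lit 152) (nat_lit 27687728849) (nat_lit 2) (nat_lit 5) (nat_lit 3) (nat_lit 5) (nat_lit 4) (nat_lit 4) (nat_lit 221) (nat_lit 192) (nat_lit 187)) (XT.lf (nat_lit 0) (nat_lit 6487953986) (nat_lit 152) (nat_lit 23432570961) (nat_lit 0) (nat_lit 3288276814) (nat_lit 2) (nat_lit 5) (nat_lit 4) (nat_lit 4) (nat_lit 2) (nat_lit 4) (nat_lit 222) (nat_lit 192) (nat_lit 186))))))))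
noncomputable def xc13 : XT := (XT.nd (nat_lit 1404) (nat_lit 0) (nat_lit 0) (XT.nd (nat_lit 702) (nat_lit 0) (nat_lit 0) (XT.nd (nat_lit 312) (nat_lit 0) (nat_lit 0) (XT.nd (nat_lit 156) (nat_lit 76) (nat_lit 0) (XT.nd (nat_lit 78) (nat_lit 0) (nat_lit 0) (XT.lf (nat_lit 0) (nat_lit 11814475338) (nat_lit 152) (nat_lit 17649072296) (nat_lit 0) (nat_lit 8296953625) (nat_lit 2) (nat_lit 5) (nat_lit 4) (nat_lit 4) (nat_lit 2) (nat_lit 4) (nat_lit 223) (nat_lit 192) (nat_lit 185)) (XT.lf (nat_lit 0) (nat_lit 17636873309) (nat_lit 152) (nat_lit 11540165173) (nat_lit 0) (nat_lit 13842965039) (nat_lit 2) (nat_lit 5) (nat_lit 4) (nat_lit 4) (nat_lit 2) (nat_lit 4) (nat_lit 224) (nat_lit 192) (nat_lit 184))) (XT.nd (nat_lit 78) (nat_lit 76) (nat_lit 0) (XT.lf (nat_lit 0) (nat_lit 24069064382) (nat_lit 152) (nat_lit 4986327496) (nat_lit 0) (nat_lit 20034819975) (nat_lit 2) (nat_lit 5) (nat_lit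 4) (nat_lit 4) (nat_lit 2) (nat_lit 4) (nat_lit 225) (nat_lit 192) (nat_lit 183)) (XT.lf (nat_lit 0) (nat_lit 2253391775) (nat_lit 76) (nat_lit 29037698123) (nat_lit 76) (nat_lit 24794465771) (nat_lit 1) (nat_lit 4) (nat_lit 2) (nat_lit 5) (nat_lit 2) (nat_lit 4) (nat_lit 226) (nat_lit 192) (nat_lit 182)))) (XT.nd (nat_lit 156) (nat_lit 0) (nat_lit 0) (XT.nd (nat_lit 78) (nat_lit 0) (nat_lit 0) (XT.lf (nat_lit 0) (nat_lit 10505805448) (nat_lit 76) (nat_lit 29027467085) (nat_lit 76) (nat_lit 24602506086) (nat_lit 1) (nat_lit 4) (nat_lit 2) (nat_lit 5) (nat_lit 2) (nat_lit 4) (nat_lit 227) (nat_lit 192) (nat_lit 181)) (XT.lf (nat_lit 0) (nat_lit 19669802619) (nat_lit 76) (nat_lit 29160833624) (nat_lit 76) (nat_lit 24577847713) (nat_lit 1) (nat_lit 4) (nat_lit 2) (nat_lit 5) (nat_lit 2) (nat_lit 4) (nat_lit 228) (nat_lit 192) (nat_lit 180))) (XT.nd (nat_lit 78) (nat_lit 0) (nat_lit 0) (XT.lf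 (nat_lit 0) (nat_lit 29924678884) (nat_lit 76) (nat_lit 29440407083) (nat_lit 76) (nat_lit 24720008207) (nat_lit 1) (nat_lit 4) (nat_lit 2) (nat_lit 5) (nat_lit 2) (nat_lit 4) (nat_lit 229) (nat_lit 192) (nat_lit 179)) (XT.nd (nat_lit 78) (nat_lit 0) (nat_lit 0) (XT.lf (nat_lit 0) (nat_lit 41471073129) (nat_lit 76) (nat_lit 29871657379) (nat_lit 76) (nat_lit 25031768967) (nat_lit 1) (nat_lit 4) (nat_lit 2) (nat_lit 5) (nat_lit 2) (nat_lit 4) (nat_lit 230) (nat_lit 192) (nat_lit 178)) (XT.lf (nat_lit 0) (nat_lit 54534893065) (nat_lit 76) (nat_lit 30463022018) (nat_lit 76) (nat_lit 25519229661) (nat_lit 1) (nat_lit 4) (nat_lit 2) (nat_lit 5) (nat_lit 2) (nat_lit 4) (nat_lit 231) (nat_lit 192) (nat_lit 177)))))) (XT.nd (nat_lit 312) (nat_lit 0) (nat_lit 0) (XT.nd (nat_lit 156) (nat_lit 0) (nat_lit 0) (XT.nd (nat_lit 78) (nat_lit 0) (nat_lit 0) (XT.lf (nat_lit 0) (nat_lit 69371735170) (nat_lit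 76) (nat_lit 31226071177) (nat_lit 76) (nat_lit 26191927564) (nat_lit 1) (nat_lit 4) (nat_lit 2) (nat_lit 5) (nat_lit 2) (nat_lit 4) (nat_lit 232) (nat_lit 192) (nat_lit 176)) (XT.lf (nat_lit 0) (nat_lit 86271885485) (nat_lit 76) (nat_lit 32175734079) (nat_lit 76) (nat_lit 27063024157) (nat_lit 1) (nat_lit 4) (nat_lit 2) (nat_lit 5) (nat_lit 2) (nat_lit 4) (nat_lit 233) (nat_lit 192) (nat_lit 175))) (XT.nd (nat_lit 78) (nat_lit 0) (nat_lit 0) (XT.lf (nat_lit 0) (nat_lit 105565999126) (nat_lit 76) (nat_lit 33330591085) (nat_lit 76) (nat_lit 28149562633) (nat_lit 1) (nat_lit 4) (nat_lit 2) (nat_lit 5) (nat_lit 2) (nat_lit 4) (nat_lit 234) (nat_lit 192) (nat_lit 174)) (XT.lf (nat_lit 0) (nat_lit 127631569619) (nat_lit 76) (nat_lit 34713237223) (nat_lit 76) (nat_lit 29472801353) (nat_lit 1) (nat_lit 4) (nat_lit 2) (nat_lit 5) (nat_lit 2) (nat_lit 4) (nat_lit 235) (nat_lit 192) (nat_lit 173))))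 (XT.nd (nat_lit 156) (nat_lit 0) (nat_lit 0) (XT.nd (nat_lit 78) (nat_lit 0) (nat_lit 0) (XT.lf (nat_lit 0) (nat_lit 152900314649) (nat_lit 76) (nat_lit 36350724266) (nat_lit 76) (nat_lit 31058629772) (nat_lit 1) (nat_lit 4) (nat_lit 2) (nat_lit 5) (nat_lit 2) (nat_lit 4) (nat_lit 236) (nat_lit 192) (nat_lit 172)) (XT.lf (nat_lit 0) (nat_lit 181866622704) (nat_lit 76) (nat_lit 38275090003) (nat_lit 76) (nat_lit 32938074967) (nat_lit 1) (nat_lit 4) (nat_lit 2) (nat_lit 5) (nat_lit 2) (nat_lit 4) (nat_lit 237) (nat_lit 192) (nat_lit 171))) (XT.nd (nat_lit 78) (nat_lit 0) (nat_lit 0) (XT.lf (nat_lit 0) (nat_lit 215097225900) (nat_lit 76) (nat_lit 40523985069) (nat_lit 76) (nat_lit 35147908692) (nat_lit 1) (nat_lit 4) (nat_lit 2) (nat_lit 5) (nat_lit 2) (nat_lit 4) (nat_lit 238) (nat_lit 192) (nat_lit 170)) (XT.nd (nat_lit 78) (nat_lit 0) (nat_lit 0) (XT.lf (nat_lit 0) (nat_lit 253242288212)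 (nat_lit 76) (nat_lit 43141409584) (nat_lit 76) (nat_lit 37731366824) (nat_lit 1) (nat_lit 4) (nat_lit 2) (nat_lit 5) (nat_lit 2) (nat_lit 4) (nat_lit 239) (nat_lit 192) (nat_lit 169)) (XT.lf (nat_lit 0) (nat_lit 297048126076) (nat_lit 76) (nat_lit 46178574029) (nat_lit 76) (nat_lit 40738995282) (nat_lit 1) (nat_lit 4) (nat_lit 2) (nat_lit 5) (nat_lit 2) (nat_lit 4) (nat_lit 240) (nat_lit 192) (nat_lit 168))))))) (XT.nd (nat_lit 702) (nat_lit 0) (nat_lit 0) (XT.nd (nat_lit 312) (nat_lit 0) (nat_lit 0) (XT.nd (nat_lit 156) (nat_lit 0) (nat_lit 0) (XT.nd (nat_lit 78) (nat_lit 0) (nat_lit 0) (XT.lf (nat_lit 0) (nat_lit 347371810233) (nat_lit 76) (nat_lit 49694901185) (nat_lit 76) (nat_lit 44229638973) (nat_lit 1) (nat_lit 4) (nat_lit 2) (nat_lit 5) (nat_lit 2) (nat_lit 4) (nat_lit 241) (nat_lit 192) (nat_lit 167)) (XT.lf (nat_lit 0) (nat_lit 405197934504) (nat_lit 76) (nat_lit 53759188758)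 (nat_lit 76) (nat_lit 48271593097) (nat_lit 1) (nat_lit 4) (nat_lit 2) (nat_lit 5) (nat_lit 2) (nat_lit 4) (nat_lit 242) (nat_lit 192) (nat_lit 166))) (XT.nd (nat_lit 78) (nat_lit 0) (nat_lit 0) (XT.lf (nat_lit 0) (nat_lit 471657879580) (nat_lit 76) (nat_lit 58450955418) (nat_lit 76) (nat_lit 52943939367) (nat_lit 1) (nat_lit 4) (nat_lit 2) (nat_lit 5) (nat_lit 2) (nat_lit 4) (nat_lit 243) (nat_lit 192) (nat_lit 165)) (XT.lf (nat_lit 0) (nat_lit 548051948736) (nat_lit 76) (nat_lit 63861996599) (nat_lit 76) (nat_lit 58338093253) (nat_lit 1) (nat_lit 4) (nat_lit 2) (nat_lit 5) (nat_lit 2) (nat_lit 4) (nat_lit 244) (nat_lit 192) (nat_lit 164)))) (XT.nd (nat_lit 156) (nat_lit 0) (nat_lit 0) (XT.nd (nat_lit 78) (nat_lit 0) (nat_lit 0) (XT.lf (nat_lit 0) (nat_lit 635874808541) (nat_lit 76) (nat_lit 70098180499) (nat_lit 76) (nat_lit 64559592548) (nat_lit 1) (nat_lit 4) (nat_lit 2) (nat_lit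 5) (nat_lit 2) (nat_lit 4) (nat_lit 245) (nat_lit 192) (nat_lit 163)) (XT.lf (nat_lit 0) (nat_lit 736844732339) (nat_lit 76) (nat_lit 77281519411) (nat_lit 76) (nat_lit 71730162238) (nat_lit 1) (nat_lit 4) (nat_lit 2) (nat_lit 5) (nat_lit 2) (nat_lit 4) (nat_lit 246) (nat_lit 192) (nat_lit 162))) (XT.nd (nat_lit 78) (nat_lit 0) (nat_lit 0) (XT.lf (nat_lit 0) (nat_lit 852937218640) (nat_lit 76) (nat_lit 85552556923) (nat_lit 76) (nat_lit 79990096079) (nat_lit 1) (nat_lit 4) (nat_lit 2) (nat_lit 5) (nat_lit 2) (nat_lit 4) (nat_lit 247) (nat_lit 192) (nat_lit 161)) (XT.nd (nat_lit 78) (nat_lit 0) (nat_lit 0) (XT.lf (nat_lit 0) (nat_lit 986423642176) (nat_lit 76) (nat_lit 95073117682) (nat_lit 76) (nat_lit 89501001471) (nat_lit 1) (nat_lit 4) (nat_lit 2) (nat_lit 5) (nat_lit 2) (nat_lit 4) (nat_lit 248) (nat_lit 192) (nat_lit 160)) (XT.lf (nat_lit 0) (nat_lit 1139915693842) (nat_lit 76)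 (nat_lit 106029473528) (nat_lit 76) (nat_lit 100448961346) (nat_lit 1) (nat_lit 4) (nat_lit 2) (nat_lit 5) (nat_lit 2) (nat_lit 4) (nat_lit 249) (nat_lit 192) (nat_lit 159)))))) (XT.nd (nat_lit 390) (nat_lit 0) (nat_lit 0) (XT.nd (nat_lit 156) (nat_lit 0) (nat_lit 0) (XT.nd (nat_lit 78) (nat_lit 0) (nat_lit 0) (XT.lf (nat_lit 0) (nat_lit 1316416478996) (nat_lit 76) (nat_lit 118635987945) (nat_lit 76) (nat_lit 113048174920) (nat_lit 1) (nat_lit 4) (nat_lit 2) (nat_lit 5) (nat_lit 2) (nat_lit 4) (nat_lit 250) (nat_lit 192) (nat_lit 158)) (XT.lf (nat_lit 0) (nat_lit 1519379273870) (nat_lit 76) (nat_lit 133139310129) (nat_lit 76) (nat_lit 127545148544) (nat_lit 1) (nat_lit 4) (nat_lit 2) (nat_lit 5) (nat_lit 2) (nat_lit 4) (nat_lit 251) (nat_lit 192) (nat_lit 157))) (XT.nd (nat_lit 78) (nat_lit 0) (nat_lit 0) (XT.lf (nat_lit 0) (nat_lit 1752775089668) (nat_lit 76) (nat_lit 149823200731)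 (nat_lit 76) (nat_lit 144223518659) (nat_lit 1) (nat_lit 4) (nat_lit 2) (nat_lit 5) (nat_lit 2) (nat_lit 4) (nat_lit 252) (nat_lit 192) (nat_lit 156)) (XT.nd (nat_lit 78) (nat_lit 0) (nat_lit 0) (XT.lf (nat_lit 0) (nat_lit 2021170366264) (nat_lit 76) (nat_lit 169014083697) (nat_lit 76) (nat_lit 163409601202) (nat_lit 1) (nat_lit 4) (nat_lit 2) (nat_lit 5) (nat_lit 2) (nat_lit 4) (nat_lit 253) (nat_lit 192) (nat_lit 155)) (XT.lf (nat_lit 0) (nat_lit 2329816315591) (nat_lit 76) (nat_lit 191087432826) (nat_lit 76) (nat_lit 185478776049) (nat_lit 1) (nat_lit 4) (nat_lit 2) (nat_lit 5) (nat_lit 2) (nat_lit 4) (nat_lit 254) (nat_lit 192) (nat_lit 154))))) (XT.nd (nat_lit 156) (nat_lit 0) (nat_lit 0) (XT.nd (nat_lit 78) (nat_lit 0) (nat_lit 0) (XT.lf (nat_lit 0) (nat_lit 2684751662746) (nat_lit 76) (nat_lit 216475117990) (nat_lit 76) (nat_lit 210862831403) (nat_lit 1) (nat_lit 4) (nat_lit 2)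 (nat_lit 5) (nat_lit 2) (nat_lit 4) (nat_lit 255) (nat_lit 192) (nat_lit 153)) (XT.lf (nat_lit 0) (nat_lit 3092920794955) (nat_lit 76) (nat_lit 245673854769) (nat_lit 76) (nat_lit 240058411826) (nat_lit 1) (nat_lit 4) (nat_lit 2) (nat_lit 5) (nat_lit 2) (nat_lit 4) (nat_lit 256) (nat_lit 192) (nat_lit 152))) (XT.nd (nat_lit 78) (nat_lit 0) (nat_lit 0) (XT.lf (nat_lit 0) (nat_lit 3562309630022) (nat_lit 76) (nat_lit 279254922797) (nat_lit 76) (nat_lit 273636735196) (nat_lit 1) (nat_lit 4) (nat_lit 2) (nat_lit 5) (nat_lit 2) (nat_lit 4) (nat_lit 257) (nat_lit 192) (nat_lit 151)) (XT.nd (nat_lit 78) (nat_lit 0) (nat_lit 0) (XT.lf (nat_lit 0) (nat_lit 4102101862546) (nat_lit 76) (nat_lit 317875342968) (nat_lit 76) (nat_lit 312254768709) (nat_lit 1) (nat_lit 4) (nat_lit 2) (nat_lit 5) (nat_lit 2) (nat_lit 4) (nat_lit 258) (nat_lit 192) (nat_lit 150)) (XT.lf (nat_lit 0) (nat_lit 4722858644903)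 (nat_lit 76) (nat_lit 362290732200) (nat_lit 76) (nat_lit 356668082586) (nat_lit 1) (nat_lit 4) (nat_lit 2) (nat_lit 5) (nat_lit 2) (nat_lit 4) (nat_lit 259) (nat_lit 192) (nat_lit 149))))))))
noncomputable def xc14 : XT := (XT.nd (nat_lit 1404) (nat_lit 0) (nat_lit 0) (XT.nd (nat_lit 702) (nat_lit 76) (nat_lit 0) (XT.nd (nat_lit 312) (nat_lit 228) (nat_lit 0) (XT.nd (nat_lit 156) (nat_lit 228) (nat_lit 0) (XT.nd (nat_lit 78) (nat_lit 0) (nat_lit 0) (XT.lf (nat_lit 0) (nat_lit 443199125) (nat_lit 152) (nat_lit 5778806930) (nat_lit 0) (nat_lit 443199125) (nat_lit 8) (nat_lit 5) (nat_lit 10) (nat_lit 4) (nat_lit 8) (nat_lit 4) (nat_lit 214) (nat_lit 193) (nat_lit 193)) (XT.lf (nat_lit 0) (nat_lit 7202357097) (nat_lit 152) (nat_lit 1296852898) (nat_lit 0) (nat_lit 6216197626) (nat_lit 8) (nat_lit 5) (nat_lit 10) (nat_lit 4) (nat_lit 8) (nat_lit 4) (nat_lit 215) (nat_lit 193) (nat_lit 192)))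 (XT.nd (nat_lit 78) (nat_lit 152) (nat_lit 0) (XT.lf (nat_lit 0) (nat_lit 9983131670) (nat_lit 76) (nat_lit 4100865251) (nat_lit 76) (nat_lit 2257175804) (nat_lit 7) (nat_lit 4) (nat_lit 8) (nat_lit 5) (nat_lit 8) (nat_lit 4) (nat_lit 216) (nat_lit 193) (nat_lit 191)) (XT.lf (nat_lit 0) (nat_lit 3171548211) (nat_lit 152) (nat_lit 14294067209) (nat_lit 0) (nat_lit 773985539) (nat_lit 5) (nat_lit 5) (nat_lit 7) (nat_lit 4) (nat_lit 5) (nat_lit 4) (nat_lit 217) (nat_lit 193) (nat_lit 190)))) (XT.nd (nat_lit 156) (nat_lit 152) (nat_lit 0) (XT.nd (nat_lit 78) (nat_lit 76) (nat_lit 0) (XT.lf (nat_lit 0) (nat_lit 9054002393) (nat_lit 152) (nat_lit 5327937600) (nat_lit 0) (nat_lit 6056054665) (nat_lit 5) (nat_lit 5) (nat_lit 7) (nat_lit 4) (nat_lit 5) (nat_lit 4) (nat_lit 218) (nat_lit 193) (nat_lit 189)) (XT.lf (nat_lit 0) (nat_lit 4404333604) (nat_lit 76) (nat_lit 11056012203) (nat_lit 76)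 (nat_lit 7535990514) (nat_lit 4) (nat_lit 4) (nat_lit 5) (nat_lit 5) (nat_lit 5) (nat_lit 4) (nat_lit 219) (nat_lit 193) (nat_lit 188))) (XT.nd (nat_lit 78) (nat_lit 152) (nat_lit 0) (XT.lf (nat_lit 0) (nat_lit 15187628626) (nat_lit 76) (nat_lit 7373708744) (nat_lit 76) (nat_lit 3399709697) (nat_lit 4) (nat_lit 4) (nat_lit 5) (nat_lit 5) (nat_lit 5) (nat_lit 4) (nat_lit 220) (nat_lit 193) (nat_lit 187)) (XT.nd (nat_lit 78) (nat_lit 76) (nat_lit 0) (XT.lf (nat_lit 0) (nat_lit 912073963) (nat_lit 152) (nat_lit 2471648122) (nat_lit 76) (nat_lit 26015353543) (nat_lit 3) (nat_lit 5) (nat_lit 5) (nat_lit 5) (nat_lit 4) (nat_lit 4) (nat_lit 221) (nat_lit 193) (nat_lit 186)) (XT.lf (nat_lit 0) (nat_lit 5539231891) (nat_lit 152) (nat_lit 26641601941) (nat_lit 0) (nat_lit 1176237381) (nat_lit 2) (nat_lit 5) (nat_lit 4) (nat_lit 4) (nat_lit 2) (nat_lit 4) (nat_lit 222) (nat_lit 193) (nat_lit 185))))))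 (XT.nd (nat_lit 312) (nat_lit 76) (nat_lit 0) (XT.nd (nat_lit 156) (nat_lit 0) (nat_lit 0) (XT.nd (nat_lit 78) (nat_lit 0) (nat_lit 0) (XT.lf (nat_lit 0) (nat_lit 10724775763) (nat_lit 152) (nat_lit 21110250412) (nat_lit 0) (nat_lit 6085394695) (nat_lit 2) (nat_lit 5) (nat_lit 4) (nat_lit 4) (nat_lit 2) (nat_lit 4) (nat_lit 223) (nat_lit 193) (nat_lit 184)) (XT.lf (nat_lit 0) (nat_lit 16424584620) (nat_lit 152) (nat_lit 15220601668) (nat_lit 0) (nat_lit 11544867416) (nat_lit 2) (nat_lit 5) (nat_lit 4) (nat_lit 4) (nat_lit 2) (nat_lit 4) (nat_lit 224) (nat_lit 193) (nat_lit 183))) (XT.nd (nat_lit 78) (nat_lit 0) (nat_lit 0) (XT.lf (nat_lit 0) (nat_lit 22750176463) (nat_lit 152) (nat_lit 8857423451) (nat_lit 0) (nat_lit 17661471314) (nat_lit 2) (nat_lit 5) (nat_lit 4) (nat_lit 4) (nat_lit 2) (nat_lit 4) (nat_lit 225) (nat_lit 193) (nat_lit 182)) (XT.lf (nat_lit 0) (nat_lit 29825312872)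 (nat_lit 152) (nat_lit 1896218796) (nat_lit 0) (nat_lit 24554879075) (nat_lit 2) (nat_lit 5) (nat_lit 4) (nat_lit 4) (nat_lit 2) (nat_lit 4) (nat_lit 226) (nat_lit 193) (nat_lit 181)))) (XT.nd (nat_lit 156) (nat_lit 0) (nat_lit 0) (XT.nd (nat_lit 78) (nat_lit 0) (nat_lit 0) (XT.lf (nat_lit 0) (nat_lit 6104585888) (nat_lit 76) (nat_lit 31830649977) (nat_lit 76) (nat_lit 26402191269) (nat_lit 1) (nat_lit 4) (nat_lit 2) (nat_lit 5) (nat_lit 2) (nat_lit 4) (nat_lit 227) (nat_lit 193) (nat_lit 180)) (XT.lf (nat_lit 0) (nat_lit 15136620044) (nat_lit 76) (nat_lit 32022715092) (nat_lit 76) (nat_lit 26456843418) (nat_lit 1) (nat_lit 4) (nat_lit 2) (nat_lit 5) (nat_lit 2) (nat_lit 4) (nat_lit 228) (nat_lit 193) (nat_lit 179))) (XT.nd (nat_lit 78) (nat_lit 0) (nat_lit 0) (XT.lf (nat_lit 0) (nat_lit 25276745863) (nat_lit 76) (nat_lit 32353330793) (nat_lit 76) (nat_lit 26667969582) (nat_lit 1) (nat_lit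 4) (nat_lit 2) (nat_lit 5) (nat_lit 2) (nat_lit 4) (nat_lit 229) (nat_lit 193) (nat_lit 178)) (XT.nd (nat_lit 78) (nat_lit 0) (nat_lit 0) (XT.lf (nat_lit 0) (nat_lit 36723357110) (nat_lit 76) (nat_lit 32828965646) (nat_lit 76) (nat_lit 27039700491) (nat_lit 1) (nat_lit 4) (nat_lit 2) (nat_lit 5) (nat_lit 2) (nat_lit 4) (nat_lit 230) (nat_lit 193) (nat_lit 177)) (XT.lf (nat_lit 0) (nat_lit 49700409222) (nat_lit 76) (nat_lit 33458925552) (nat_lit 76) (nat_lit 27579309141) (nat_lit 1) (nat_lit 4) (nat_lit 2) (nat_lit 5) (nat_lit 2) (nat_lit 4) (nat_lit 231) (nat_lit 193) (nat_lit 176))))))) (XT.nd (nat_lit 702) (nat_lit 0) (nat_lit 0) (XT.nd (nat_lit 312) (nat_lit 0) (nat_lit 0) (XT.nd (nat_lit 156) (nat_lit 0) (nat_lit 0) (XT.nd (nat_lit 78) (nat_lit 0) (nat_lit 0) (XT.lf (nat_lit 0) (nat_lit 64461801045) (nat_lit 76) (nat_lit 34255535813) (nat_lit 76) (nat_lit 28297353093) (nat_lit 1)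 (nat_lit 4) (nat_lit 2) (nat_lit 5) (nat_lit 2) (nat_lit 4) (nat_lit 232) (nat_lit 193) (nat_lit 175)) (XT.lf (nat_lit 0) (nat_lit 81296342420) (nat_lit 76) (nat_lit 35234382281) (nat_lit 76) (nat_lit 29207881032) (nat_lit 1) (nat_lit 4) (nat_lit 2) (nat_lit 5) (nat_lit 2) (nat_lit 4) (nat_lit 233) (nat_lit 193) (nat_lit 174))) (XT.nd (nat_lit 78) (nat_lit 0) (nat_lit 0) (XT.lf (nat_lit 0) (nat_lit 100533404808) (nat_lit 76) (nat_lit 36414616302) (nat_lit 76) (nat_lit 30328707635) (nat_lit 1) (nat_lit 4) (nat_lit 2) (nat_lit 5) (nat_lit 2) (nat_lit 4) (nat_lit 234) (nat_lit 193) (nat_lit 173)) (XT.lf (nat_lit 0) (nat_lit 122549365516) (nat_lit 76) (nat_lit 37819329409) (nat_lit 76) (nat_lit 31681762118) (nat_lit 1) (nat_lit 4) (nat_lit 2) (nat_lit 5) (nat_lit 2) (nat_lit 4) (nat_lit 235) (nat_lit 193) (nat_lit 172)))) (XT.nd (nat_lit 156) (nat_lit 0) (nat_lit 0) (XT.nd (nat_lit 78) (nat_lit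 0) (nat_lit 0) (XT.lf (nat_lit 0) (nat_lit 147774971603) (nat_lit 76) (nat_lit 39476005121) (nat_lit 76) (nat_lit 33293517287) (nat_lit 1) (nat_lit 4) (nat_lit 2) (nat_lit 5) (nat_lit 2) (nat_lit 4) (nat_lit 236) (nat_lit 193) (nat_lit 171)) (XT.lf (nat_lit 0) (nat_lit 176703767534) (nat_lit 76) (nat_lit 41417056657) (nat_lit 76) (nat_lit 35195507483) (nat_lit 1) (nat_lit 4) (nat_lit 2) (nat_lit 5) (nat_lit 2) (nat_lit 4) (nat_lit 237) (nat_lit 193) (nat_lit 170))) (XT.nd (nat_lit 78) (nat_lit 0) (nat_lit 0) (XT.lf (nat_lit 0) (nat_lit 209901751490) (nat_lit 76) (nat_lit 43680461114) (nat_lit 76) (nat_lit 37424945555) (nat_lit 1) (nat_lit 4) (nat_lit 2) (nat_lit 5) (nat_lit 2) (nat_lit 4) (nat_lit 238) (nat_lit 193) (nat_lit 169)) (XT.nd (nat_lit 78) (nat_lit 0) (nat_lit 0) (XT.lf (nat_lit 0) (nat_lit 248018449247) (nat_lit 76) (nat_lit 46310502490) (nat_lit 76) (nat_lit 40025450946)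 (nat_lit 1) (nat_lit 4) (nat_lit 2) (nat_lit 5) (nat_lit 2) (nat_lit 4) (nat_lit 239) (nat_lit 193) (nat_lit 168)) (XT.lf (nat_lit 0) (nat_lit 291799622280) (nat_lit 76) (nat_lit 49358638119) (nat_lit 76) (nat_lit 43047903109) (nat_lit 1) (nat_lit 4) (nat_lit 2) (nat_lit 5) (nat_lit 2) (nat_lit 4) (nat_lit 240) (nat_lit 193) (nat_lit 167)))))) (XT.nd (nat_lit 390) (nat_lit 0) (nat_lit 0) (XT.nd (nat_lit 156) (nat_lit 0) (nat_lit 0) (XT.nd (nat_lit 78) (nat_lit 0) (nat_lit 0) (XT.lf (nat_lit 0) (nat_lit 342101858758) (nat_lit 76) (nat_lit 52884505434) (nat_lit 76) (nat_lit 46551436976) (nat_lit 1) (nat_lit 4) (nat_lit 2) (nat_lit 5) (nat_lit 2) (nat_lit 4) (nat_lit 241) (nat_lit 193) (nat_lit 166)) (XT.lf (nat_lit 0) (nat_lit 399909332873) (nat_lit 76) (nat_lit 56957088799) (nat_lit 76) (nat_lit 50604599950) (nat_lit 1) (nat_lit 4) (nat_lit 2) (nat_lit 5) (nat_lit 2) (nat_lit 4) (nat_lit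 242) (nat_lit 193) (nat_lit 165))) (XT.nd (nat_lit 78) (nat_lit 0) (nat_lit 0) (XT.lf (nat_lit 0) (nat_lit 466353060422) (nat_lit 76) (nat_lit 61656069190) (nat_lit 76) (nat_lit 55286693046) (nat_lit 1) (nat_lit 4) (nat_lit 2) (nat_lit 5) (nat_lit 2) (nat_lit 4) (nat_lit 243) (nat_lit 193) (nat_lit 164)) (XT.nd (nat_lit 78) (nat_lit 0) (nat_lit 0) (XT.lf (nat_lit 0) (nat_lit 542733027381) (nat_lit 76) (nat_lit 67073383181) (nat_lit 76) (nat_lit 60689322432) (nat_lit 1) (nat_lit 4) (nat_lit 2) (nat_lit 5) (nat_lit 2) (nat_lit 4) (nat_lit 244) (nat_lit 193) (nat_lit 163)) (XT.lf (nat_lit 0) (nat_lit 630543624406) (nat_lit 76) (nat_lit 73315021699) (nat_lit 76) (nat_lit 66918191727) (nat_lit 1) (nat_lit 4) (nat_lit 2) (nat_lit 5) (nat_lit 2) (nat_lit 4) (nat_lit 245) (nat_lit 193) (nat_lit 162))))) (XT.nd (nat_lit 156) (nat_lit 0) (nat_lit 0) (XT.nd (nat_lit 78) (nat_lit 0) (nat_lit 0)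 (XT.lf (nat_lit 0) (nat_lit 731502884917) (nat_lit 76) (nat_lit 80503103756) (nat_lit 76) (nat_lit 74095170114) (nat_lit 1) (nat_lit 4) (nat_lit 2) (nat_lit 5) (nat_lit 2) (nat_lit 4) (nat_lit 246) (nat_lit 193) (nat_lit 161)) (XT.lf (nat_lit 0) (nat_lit 847586098795) (nat_lit 76) (nat_lit 88778265742) (nat_lit 76) (nat_lit 82360676734) (nat_lit 1) (nat_lit 4) (nat_lit 2) (nat_lit 5) (nat_lit 2) (nat_lit 4) (nat_lit 247) (nat_lit 193) (nat_lit 160))) (XT.nd (nat_lit 78) (nat_lit 0) (nat_lit 0) (XT.lf (nat_lit 0) (nat_lit 981064459354) (nat_lit 76) (nat_lit 98302413000) (nat_lit 76) (nat_lit 91876428021) (nat_lit 1) (nat_lit 4) (nat_lit 2) (nat_lit 5) (nat_lit 2) (nat_lit 4) (nat_lit 248) (nat_lit 193) (nat_lit 159)) (XT.nd (nat_lit 78) (nat_lit 0) (nat_lit 0) (XT.lf (nat_lit 0) (nat_lit 1134549499735) (nat_lit 76) (nat_lit 109261887541) (nat_lit 76) (nat_lit 102828601718) (nat_lit 1)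 (nat_lit 4) (nat_lit 2) (nat_lit 5) (nat_lit 2) (nat_lit 4) (nat_lit 249) (nat_lit 193) (nat_lit 158)) (XT.lf (nat_lit 0) (nat_lit 1311044188120) (nat_lit 76) (nat_lit 121871113867) (nat_lit 76) (nat_lit 115431479484) (nat_lit 1) (nat_lit 4) (nat_lit 2) (nat_lit 5) (nat_lit 2) (nat_lit 4) (nat_lit 250) (nat_lit 193) (nat_lit 157))))))))
noncomputable def xc15 : XT := (XT.nd (nat_lit 28938) (nat_lit 0) (nat_lit 0) (XT.nd (nat_lit 28236) (nat_lit 0) (nat_lit 228) (XT.nd (nat_lit 312) (nat_lit 0) (nat_lit 0) (XT.nd (nat_lit 156) (nat_lit 0) (nat_lit 0) (XT.nd (nat_lit 78) (nat_lit 0) (nat_lit 0) (XT.lf (nat_lit 0) (nat_lit 1514001681456) (nat_lit 76) (nat_lit 136376794233) (nat_lit 76) (nat_lit 129931639363) (nat_lit 1) (nat_lit 4) (nat_lit 2) (nat_lit 5) (nat_lit 2) (nat_lit 4) (nat_lit 251) (nat_lit 193) (nat_lit 156)) (XT.lf (nat_lit 0) (nat_lit 1747392887220) (nat_lit 76) (nat_lit 153062735428)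 (nat_lit 76) (nat_lit 146612780134) (nat_lit 1) (nat_lit 4) (nat_lit 2) (nat_lit 5) (nat_lit 2) (nat_lit 4) (nat_lit 252) (nat_lit 193) (nat_lit 155))) (XT.nd (nat_lit 78) (nat_lit 0) (nat_lit 0) (XT.lf (nat_lit 0) (nat_lit 2015784155092) (nat_lit 76) (nat_lit 172255401518) (nat_lit 76) (nat_lit 165801271944) (nat_lit 1) (nat_lit 4) (nat_lit 2) (nat_lit 5) (nat_lit 2) (nat_lit 4) (nat_lit 253) (nat_lit 193) (nat_lit 154)) (XT.lf (nat_lit 0) (nat_lit 2324426618572) (nat_lit 76) (nat_lit 194330301189) (nat_lit 76) (nat_lit 187872541805) (nat_lit 1) (nat_lit 4) (nat_lit 2) (nat_lit 5) (nat_lit 2) (nat_lit 4) (nat_lit 254) (nat_lit 193) (nat_lit 153)))) (XT.nd (nat_lit 156) (nat_lit 0) (nat_lit 0) (XT.nd (nat_lit 78) (nat_lit 0) (nat_lit 0) (XT.lf (nat_lit 0) (nat_lit 2679358934555) (nat_lit 76) (nat_lit 219719334651) (nat_lit 76) (nat_lit 213258418911) (nat_lit 1) (nat_lit 4) (nat_lit 2)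 (nat_lit 5) (nat_lit 2) (nat_lit 4) (nat_lit 255) (nat_lit 193) (nat_lit 152)) (XT.lf (nat_lit 0) (nat_lit 3087525430962) (nat_lit 76) (nat_lit 248919243864) (nat_lit 76) (nat_lit 242455583466) (nat_lit 1) (nat_lit 4) (nat_lit 2) (nat_lit 5) (nat_lit 2) (nat_lit 4) (nat_lit 256) (nat_lit 193) (nat_lit 151))) (XT.nd (nat_lit 78) (nat_lit 0) (nat_lit 0) (XT.lf (nat_lit 0) (nat_lit 3556911974028) (nat_lit 76) (nat_lit 282501331398) (nat_lit 76) (nat_lit 276035284341) (nat_lit 1) (nat_lit 4) (nat_lit 2) (nat_lit 5) (nat_lit 2) (nat_lit 4) (nat_lit 257) (nat_lit 193) (nat_lit 150)) (XT.nd (nat_lit 78) (nat_lit 0) (nat_lit 0) (XT.lf (nat_lit 0) (nat_lit 4096702213507) (nat_lit 76) (nat_lit 321122638098) (nat_lit 76) (nat_lit 314654515685) (nat_lit 1) (nat_lit 4) (nat_lit 2) (nat_lit 5) (nat_lit 2) (nat_lit 4) (nat_lit 258) (nat_lit 193) (nat_lit 149)) (XT.lf (nat_lit 0) (nat_lit 4717457262782)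 (nat_lit 76) (nat_lit 365538798223) (nat_lit 76) (nat_lit 359068871154) (nat_lit 1) (nat_lit 4) (nat_lit 2) (nat_lit 5) (nat_lit 2) (nat_lit 4) (nat_lit 259) (nat_lit 193) (nat_lit 148)))))) (XT.nd (nat_lit 312) (nat_lit 304) (nat_lit 0) (XT.nd (nat_lit 156) (nat_lit 152) (nat_lit 0) (XT.nd (nat_lit 78) (nat_lit 152) (nat_lit 0) (XT.lf (nat_lit 0) (nat_lit 910803495) (nat_lit 152) (nat_lit 3735017761) (nat_lit 0) (nat_lit 910803495) (nat_lit 12) (nat_lit 5) (nat_lit 14) (nat_lit 4) (nat_lit 12) (nat_lit 4) (nat_lit 212) (nat_lit 194) (nat_lit 194)) (XT.lf (nat_lit 0) (nat_lit 3056896904) (nat_lit 152) (nat_lit 5154923135) (nat_lit 152) (nat_lit 3930113072) (nat_lit 10) (nat_lit 4) (nat_lit 12) (nat_lit 5) (nat_lit 12) (nat_lit 4) (nat_lit 213) (nat_lit 194) (nat_lit 193))) (XT.nd (nat_lit 78) (nat_lit 0) (nat_lit 0) (XT.lf (nat_lit 0) (nat_lit 1243709727) (nat_lit 76) (nat_lit 455122974)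 (nat_lit 152) (nat_lit 11658636742) (nat_lit 8) (nat_lit 5) (nat_lit 9) (nat_lit 5) (nat_lit 10) (nat_lit 4) (nat_lit 214) (nat_lit 194) (nat_lit 192)) (XT.lf (nat_lit 0) (nat_lit 7714633083) (nat_lit 152) (nat_lit 2316140113) (nat_lit 0) (nat_lit 4736860244) (nat_lit 8) (nat_lit 5) (nat_lit 10) (nat_lit 4) (nat_lit 8) (nat_lit 4) (nat_lit 215) (nat_lit 194) (nat_lit 191)))) (XT.nd (nat_lit 156) (nat_lit 76) (nat_lit 0) (XT.nd (nat_lit 78) (nat_lit 152) (nat_lit 0) (XT.lf (nat_lit 0) (nat_lit 8476212630) (nat_lit 76) (nat_lit 5832329492) (nat_lit 76) (nat_lit 2108878415) (nat_lit 7) (nat_lit 4) (nat_lit 8) (nat_lit 5) (nat_lit 8) (nat_lit 4) (nat_lit 216) (nat_lit 194) (nat_lit 190)) (XT.lf (nat_lit 0) (nat_lit 1885332816) (nat_lit 76) (nat_lit 1122936296) (nat_lit 152) (nat_lit 15332434975) (nat_lit 5) (nat_lit 5) (nat_lit 6) (nat_lit 5) (nat_lit 7) (nat_lit 4) (nat_lit 217) (nat_lit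 194) (nat_lit 189))) (XT.nd (nat_lit 78) (nat_lit 76) (nat_lit 0) (XT.lf (nat_lit 0) (nat_lit 8647715149) (nat_lit 152) (nat_lit 7833909645) (nat_lit 0) (nat_lit 4077616246) (nat_lit 5) (nat_lit 5) (nat_lit 7) (nat_lit 4) (nat_lit 5) (nat_lit 4) (nat_lit 218) (nat_lit 194) (nat_lit 188)) (XT.nd (nat_lit 78) (nat_lit 0) (nat_lit 0) (XT.lf (nat_lit 0) (nat_lit 1426187290) (nat_lit 76) (nat_lit 13368419393) (nat_lit 76) (nat_lit 8344343131) (nat_lit 4) (nat_lit 4) (nat_lit 5) (nat_lit 5) (nat_lit 5) (nat_lit 4) (nat_lit 219) (nat_lit 194) (nat_lit 187)) (XT.lf (nat_lit 0) (nat_lit 11913643858) (nat_lit 76) (nat_lit 9811511300) (nat_lit 76) (nat_lit 4392672119) (nat_lit 4) (nat_lit 4) (nat_lit 5) (nat_lit 5) (nat_lit 5) (nat_lit 4) (nat_lit 220) (nat_lit 194) (nat_lit 186))))))) (XT.nd (nat_lit 702) (nat_lit 0) (nat_lit 0) (XT.nd (nat_lit 312) (nat_lit 76) (nat_lit 0) (XT.nd (nat_lit 156)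 (nat_lit 0) (nat_lit 0) (XT.nd (nat_lit 78) (nat_lit 152) (nat_lit 0) (XT.lf (nat_lit 0) (nat_lit 23421129627) (nat_lit 76) (nat_lit 5955501809) (nat_lit 76) (nat_lit 193390524) (nat_lit 4) (nat_lit 4) (nat_lit 5) (nat_lit 5) (nat_lit 5) (nat_lit 4) (nat_lit 221) (nat_lit 194) (nat_lit 185)) (XT.lf (nat_lit 0) (nat_lit 2638426257) (nat_lit 76) (nat_lit 1543802119) (nat_lit 152) (nat_lit 29367430269) (nat_lit 2) (nat_lit 5) (nat_lit 3) (nat_lit 5) (nat_lit 4) (nat_lit 4) (nat_lit 222) (nat_lit 194) (nat_lit 184))) (XT.nd (nat_lit 78) (nat_lit 0) (nat_lit 0) (XT.lf (nat_lit 0) (nat_lit 9208054657) (nat_lit 152) (nat_lit 25562010760) (nat_lit 0) (nat_lit 3356043735) (nat_lit 2) (nat_lit 5) (nat_lit 4) (nat_lit 4) (nat_lit 2) (nat_lit 4) (nat_lit 223) (nat_lit 194) (nat_lit 183)) (XT.lf (nat_lit 0) (nat_lit 14801264285) (nat_lit 152) (nat_lit 19863021475) (nat_lit 0) (nat_lit 8740265418)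 (nat_lit 2) (nat_lit 5) (nat_lit 4) (nat_lit 4) (nat_lit 2) (nat_lit 4) (nat_lit 224) (nat_lit 194) (nat_lit 182)))) (XT.nd (nat_lit 156) (nat_lit 76) (nat_lit 0) (XT.nd (nat_lit 78) (nat_lit 0) (nat_lit 0) (XT.lf (nat_lit 0) (nat_lit 21034161146) (nat_lit 152) (nat_lit 13665634093) (nat_lit 0) (nat_lit 14791433632) (nat_lit 2) (nat_lit 5) (nat_lit 4) (nat_lit 4) (nat_lit 2) (nat_lit 4) (nat_lit 225) (nat_lit 194) (nat_lit 181)) (XT.lf (nat_lit 0) (nat_lit 28028693223) (nat_lit 152) (nat_lit 6848595382) (nat_lit 0) (nat_lit 21627940797) (nat_lit 2) (nat_lit 5) (nat_lit 4) (nat_lit 4) (nat_lit 2) (nat_lit 4) (nat_lit 226) (nat_lit 194) (nat_lit 180))) (XT.nd (nat_lit 78) (nat_lit 0) (nat_lit 0) (XT.lf (nat_lit 0) (nat_lit 759462913) (nat_lit 76) (nat_lit 35180512242) (nat_lit 76) (nat_lit 28642346851) (nat_lit 1) (nat_lit 4) (nat_lit 2) (nat_lit 5) (nat_lit 2) (nat_lit 4) (nat_lit 227)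 (nat_lit 194) (nat_lit 179)) (XT.nd (nat_lit 78) (nat_lit 0) (nat_lit 0) (XT.lf (nat_lit 0) (nat_lit 9676746622) (nat_lit 76) (nat_lit 35423619599) (nat_lit 76) (nat_lit 28765964671) (nat_lit 1) (nat_lit 4) (nat_lit 2) (nat_lit 5) (nat_lit 2) (nat_lit 4) (nat_lit 228) (nat_lit 194) (nat_lit 178)) (XT.lf (nat_lit 0) (nat_lit 19717089444) (nat_lit 76) (nat_lit 35798619856) (nat_lit 76) (nat_lit 29037060984) (nat_lit 1) (nat_lit 4) (nat_lit 2) (nat_lit 5) (nat_lit 2) (nat_lit 4) (nat_lit 229) (nat_lit 194) (nat_lit 177)))))) (XT.nd (nat_lit 390) (nat_lit 0) (nat_lit 0) (XT.nd (nat_lit 156) (nat_lit 0) (nat_lit 0) (XT.nd (nat_lit 78) (nat_lit 0) (nat_lit 0) (XT.lf (nat_lit 0) (nat_lit 31076932866) (nat_lit 76) (nat_lit 36312849977) (nat_lit 76) (nat_lit 29460939849) (nat_lit 1) (nat_lit 4) (nat_lit 2) (nat_lit 5) (nat_lit 2) (nat_lit 4) (nat_lit 230) (nat_lit 194) (nat_lit 176)) (XT.lf (nat_lit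 0) (nat_lit 43978534697) (nat_lit 76) (nat_lit 36976370985) (nat_lit 76) (nat_lit 30045894547) (nat_lit 1) (nat_lit 4) (nat_lit 2) (nat_lit 5) (nat_lit 2) (nat_lit 4) (nat_lit 231) (nat_lit 194) (nat_lit 175))) (XT.nd (nat_lit 78) (nat_lit 0) (nat_lit 0) (XT.lf (nat_lit 0) (nat_lit 58674317580) (nat_lit 76) (nat_lit 37802164812) (nat_lit 76) (nat_lit 30803369845) (nat_lit 1) (nat_lit 4) (nat_lit 2) (nat_lit 5) (nat_lit 2) (nat_lit 4) (nat_lit 232) (nat_lit 194) (nat_lit 174)) (XT.nd (nat_lit 78) (nat_lit 0) (nat_lit 0) (XT.lf (nat_lit 0) (nat_lit 75451807702) (nat_lit 76) (nat_lit 38806388296) (nat_lit 76) (nat_lit 31748185911) (nat_lit 1) (nat_lit 4) (nat_lit 2) (nat_lit 5) (nat_lit 2) (nat_lit 4) (nat_lit 233) (nat_lit 194) (nat_lit 173)) (XT.lf (nat_lit 0) (nat_lit 94639260305) (nat_lit 76) (nat_lit 40008689285) (nat_lit 76) (nat_lit 32898828277) (nat_lit 1) (nat_lit 4) (nat_lit 2)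 (nat_lit 5) (nat_lit 2) (nat_lit 4) (nat_lit 234) (nat_lit 194) (nat_lit 172))))) (XT.nd (nat_lit 156) (nat_lit 0) (nat_lit 0) (XT.nd (nat_lit 78) (nat_lit 0) (nat_lit 0) (XT.lf (nat_lit 0) (nat_lit 116612082070) (nat_lit 76) (nat_lit 41432591061) (nat_lit 76) (nat_lit 34277809511) (nat_lit 1) (nat_lit 4) (nat_lit 2) (nat_lit 5) (nat_lit 2) (nat_lit 4) (nat_lit 235) (nat_lit 194) (nat_lit 171)) (XT.lf (nat_lit 0) (nat_lit 141800176031) (nat_lit 76) (nat_lit 43105952572) (nat_lit 76) (nat_lit 35912109680) (nat_lit 1) (nat_lit 4) (nat_lit 2) (nat_lit 5) (nat_lit 2) (nat_lit 4) (nat_lit 236) (nat_lit 194) (nat_lit 170))) (XT.nd (nat_lit 78) (nat_lit 0) (nat_lit 0) (XT.lf (nat_lit 0) (nat_lit 170696352723) (nat_lit 76) (nat_lit 45061513499) (nat_lit 76) (nat_lit 37833704224) (nat_lit 1) (nat_lit 4) (nat_lit 2) (nat_lit 5) (nat_lit 2) (nat_lit 4) (nat_lit 237) (nat_lit 194) (nat_lit 169))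 (XT.nd (nat_lit 78) (nat_lit 0) (nat_lit 0) (XT.lf (nat_lit 0) (nat_lit 203865972125) (nat_lit 76) (nat_lit 47337534817) (nat_lit 76) (nat_lit 40080189555) (nat_lit 1) (nat_lit 4) (nat_lit 2) (nat_lit 5) (nat_lit 2) (nat_lit 4) (nat_lit 238) (nat_lit 194) (nat_lit 168)) (XT.lf (nat_lit 0) (nat_lit 241958005050) (nat_lit 76) (nat_lit 49978547377) (nat_lit 76) (nat_lit 42695518650) (nat_lit 1) (nat_lit 4) (nat_lit 2) (nat_lit 5) (nat_lit 2) (nat_lit 4) (nat_lit 239) (nat_lit 194) (nat_lit 167))))))))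
noncomputable def xc16 : XT := (XT.nd (nat_lit 1404) (nat_lit 0) (nat_lit 0) (XT.nd (nat_lit 702) (nat_lit 0) (nat_lit 0) (XT.nd (nat_lit 312) (nat_lit 0) (nat_lit 0) (XT.nd (nat_lit 156) (nat_lit 0) (nat_lit 0) (XT.nd (nat_lit 78) (nat_lit 0) (nat_lit 0) (XT.lf (nat_lit 0) (nat_lit 285717730404) (nat_lit 76) (nat_lit 53036223165) (nat_lit 76) (nat_lit 45730860989) (nat_lit 1) (nat_lit 4) (nat_lit 2) (nat_lit 5) (nat_lit 2) (nat_lit 4) (nat_lit 240) (nat_lit 194) (nat_lit 166)) (XT.lf (nat_lit 0) (nat_lit 336001316726) (nat_lit 76) (nat_lit 56570386272) (nat_lit 76) (nat_lit 49245603706) (nat_lit 1) (nat_lit 4) (nat_lit 2) (nat_lit 5) (nat_lit 2) (nat_lit 4) (nat_lit 241) (nat_lit 194) (nat_lit 165))) (XT.nd (nat_lit 78) (nat_lit 0) (nat_lit 0) (XT.lf (nat_lit 0) (nat_lit 393792573314) (nat_lit 76) (nat_lit 60650183368) (nat_lit 76) (nat_lit 53308513506) (nat_lit 1) (nat_lit 4) (nat_lit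 2) (nat_lit 5) (nat_lit 2) (nat_lit 4) (nat_lit 242) (nat_lit 194) (nat_lit 164)) (XT.lf (nat_lit 0) (nat_lit 460222198667) (nat_lit 76) (nat_lit 65355436569) (nat_lit 76) (nat_lit 57999082102) (nat_lit 1) (nat_lit 4) (nat_lit 2) (nat_lit 5) (nat_lit 2) (nat_lit 4) (nat_lit 243) (nat_lit 194) (nat_lit 163)))) (XT.nd (nat_lit 156) (nat_lit 0) (nat_lit 0) (XT.nd (nat_lit 78) (nat_lit 0) (nat_lit 0) (XT.lf (nat_lit 0) (nat_lit 536589902845) (nat_lit 76) (nat_lit 70778205178) (nat_lit 76) (nat_lit 63409081489) (nat_lit 1) (nat_lit 4) (nat_lit 2) (nat_lit 5) (nat_lit 2) (nat_lit 4) (nat_lit 244) (nat_lit 194) (nat_lit 162)) (XT.lf (nat_lit 0) (nat_lit 624389836583) (nat_lit 76) (nat_lit 77024586841) (nat_lit 76) (nat_lit 69644359481) (nat_lit 1) (nat_lit 4) (nat_lit 2) (nat_lit 5) (nat_lit 2) (nat_lit 4) (nat_lit 245) (nat_lit 194) (nat_lit 161))) (XT.nd (nat_lit 78) (nat_lit 0) (nat_lit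 0) (XT.lf (nat_lit 0) (nat_lit 725339824671) (nat_lit 76) (nat_lit 84216793373) (nat_lit 76) (nat_lit 76826910647) (nat_lit 1) (nat_lit 4) (nat_lit 2) (nat_lit 5) (nat_lit 2) (nat_lit 4) (nat_lit 246) (nat_lit 194) (nat_lit 160)) (XT.nd (nat_lit 78) (nat_lit 0) (nat_lit 0) (XT.lf (nat_lit 0) (nat_lit 841414975572) (nat_lit 76) (nat_lit 92495541858) (nat_lit 76) (nat_lit 85097263162) (nat_lit 1) (nat_lit 4) (nat_lit 2) (nat_lit 5) (nat_lit 2) (nat_lit 4) (nat_lit 247) (nat_lit 194) (nat_lit 159)) (XT.lf (nat_lit 0) (nat_lit 974886324846) (nat_lit 76) (nat_lit 102022807811) (nat_lit 76) (nat_lit 94617228271) (nat_lit 1) (nat_lit 4) (nat_lit 2) (nat_lit 5) (nat_lit 2) (nat_lit 4) (nat_lit 248) (nat_lit 194) (nat_lit 158)))))) (XT.nd (nat_lit 312) (nat_lit 0) (nat_lit 0) (XT.nd (nat_lit 156) (nat_lit 0) (nat_lit 0) (XT.nd (nat_lit 78) (nat_lit 0) (nat_lit 0) (XT.lf (nat_lit 0) (nat_lit 1128365268459)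 (nat_lit 76) (nat_lit 112984994261) (nat_lit 76) (nat_lit 105573066161) (nat_lit 1) (nat_lit 4) (nat_lit 2) (nat_lit 5) (nat_lit 2) (nat_lit 4) (nat_lit 249) (nat_lit 194) (nat_lit 157)) (XT.lf (nat_lit 0) (nat_lit 1304854655306) (nat_lit 76) (nat_lit 125596578769) (nat_lit 76) (nat_lit 118179130181) (nat_lit 1) (nat_lit 4) (nat_lit 2) (nat_lit 5) (nat_lit 2) (nat_lit 4) (nat_lit 250) (nat_lit 194) (nat_lit 156))) (XT.nd (nat_lit 78) (nat_lit 0) (nat_lit 0) (XT.lf (nat_lit 0) (nat_lit 1507807538608) (nat_lit 76) (nat_lit 140104309727) (nat_lit 76) (nat_lit 132682060716) (nat_lit 1) (nat_lit 4) (nat_lit 2) (nat_lit 5) (nat_lit 2) (nat_lit 4) (nat_lit 251) (nat_lit 194) (nat_lit 155)) (XT.lf (nat_lit 0) (nat_lit 1741194735648) (nat_lit 76) (nat_lit 156792034046) (nat_lit 76) (nat_lit 149365610754) (nat_lit 1) (nat_lit 4) (nat_lit 2) (nat_lit 5) (nat_lit 2) (nat_lit 4) (nat_lit 252) (nat_lit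 194) (nat_lit 154)))) (XT.nd (nat_lit 156) (nat_lit 0) (nat_lit 0) (XT.nd (nat_lit 78) (nat_lit 0) (nat_lit 0) (XT.lf (nat_lit 0) (nat_lit 2009582517672) (nat_lit 76) (nat_lit 175986250679) (nat_lit 76) (nat_lit 168556197577) (nat_lit 1) (nat_lit 4) (nat_lit 2) (nat_lit 5) (nat_lit 2) (nat_lit 4) (nat_lit 253) (nat_lit 194) (nat_lit 153)) (XT.lf (nat_lit 0) (nat_lit 2318221949980) (nat_lit 76) (nat_lit 198062498648) (nat_lit 76) (nat_lit 190629289190) (nat_lit 1) (nat_lit 4) (nat_lit 2) (nat_lit 5) (nat_lit 2) (nat_lit 4) (nat_lit 254) (nat_lit 194) (nat_lit 152))) (XT.nd (nat_lit 78) (nat_lit 0) (nat_lit 0) (XT.lf (nat_lit 0) (nat_lit 2673151630162) (nat_lit 76) (nat_lit 223452704543) (nat_lit 76) (nat_lit 216016750427) (nat_lit 1) (nat_lit 4) (nat_lit 2) (nat_lit 5) (nat_lit 2) (nat_lit 4) (nat_lit 255) (nat_lit 194) (nat_lit 151)) (XT.nd (nat_lit 78) (nat_lit 0) (nat_lit 0) (XT.lf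 (nat_lit 0) (nat_lit 3081315834568) (nat_lit 76) (nat_lit 252653633263) (nat_lit 76) (nat_lit 245215292488) (nat_lit 1) (nat_lit 4) (nat_lit 2) (nat_lit 5) (nat_lit 2) (nat_lit 4) (nat_lit 256) (nat_lit 194) (nat_lit 150)) (XT.lf (nat_lit 0) (nat_lit 3550700384589) (nat_lit 76) (nat_lit 286236607325) (nat_lit 76) (nat_lit 278796191195) (nat_lit 1) (nat_lit 4) (nat_lit 2) (nat_lit 5) (nat_lit 2) (nat_lit 4) (nat_lit 257) (nat_lit 194) (nat_lit 149))))))) (XT.nd (nat_lit 28080) (nat_lit 0) (nat_lit 76) (XT.nd (nat_lit 27690) (nat_lit 0) (nat_lit 456) (XT.nd (nat_lit 27534) (nat_lit 0) (nat_lit 988) (XT.nd (nat_lit 78) (nat_lit 0) (nat_lit 0) (XT.lf (nat_lit 0) (nat_lit 4090488890986) (nat_lit 76) (nat_lit 324858684918) (nat_lit 76) (nat_lit 317416464131) (nat_lit 1) (nat_lit 4) (nat_lit 2) (nat_lit 5) (nat_lit 2) (nat_lit 4) (nat_lit 258) (nat_lit 194) (nat_lit 148)) (XT.lf (nat_lit 0)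 (nat_lit 4711242433233) (nat_lit 76) (nat_lit 369275515386) (nat_lit 76) (nat_lit 361831725332) (nat_lit 1) (nat_lit 4) (nat_lit 2) (nat_lit 5) (nat_lit 2) (nat_lit 4) (nat_lit 259) (nat_lit 194) (nat_lit 147))) (XT.nd (nat_lit 78) (nat_lit 152) (nat_lit 0) (XT.lf (nat_lit 0) (nat_lit 660978580) (nat_lit 228) (nat_lit 3418010247) (nat_lit 0) (nat_lit 660978580) (nat_lit 16) (nat_lit 5) (nat_lit 19) (nat_lit 4) (nat_lit 16) (nat_lit 4) (nat_lit 210) (nat_lit 195) (nat_lit 195)) (XT.lf (nat_lit 0) (nat_lit 3221219553) (nat_lit 152) (nat_lit 4269639939) (nat_lit 152) (nat_lit 2748425840) (nat_lit 14) (nat_lit 4) (nat_lit 16) (nat_lit 5) (nat_lit 16) (nat_lit 4) (nat_lit 211) (nat_lit 195) (nat_lit 194)))) (XT.nd (nat_lit 156) (nat_lit 228) (nat_lit 0) (XT.nd (nat_lit 78) (nat_lit 152) (nat_lit 0) (XT.lf (nat_lit 0) (nat_lit 2891411968) (nat_lit 152) (nat_lit 7992513677) (nat_lit 0) (nat_lit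 258070331) (nat_lit 12) (nat_lit 5) (nat_lit 14) (nat_lit 4) (nat_lit 12) (nat_lit 4) (nat_lit 212) (nat_lit 195) (nat_lit 193)) (XT.lf (nat_lit 0) (nat_lit 2028652995) (nat_lit 152) (nat_lit 6933697863) (nat_lit 152) (nat_lit 3235303998) (nat_lit 10) (nat_lit 4) (nat_lit 12) (nat_lit 5) (nat_lit 12) (nat_lit 4) (nat_lit 213) (nat_lit 195) (nat_lit 192))) (XT.nd (nat_lit 78) (nat_lit 152) (nat_lit 0) (XT.lf (nat_lit 0) (nat_lit 2054749214) (nat_lit 228) (nat_lit 350647871) (nat_lit 76) (nat_lit 11031942179) (nat_lit 9) (nat_lit 5) (nat_lit 12) (nat_lit 5) (nat_lit 10) (nat_lit 4) (nat_lit 214) (nat_lit 195) (nat_lit 191)) (XT.nd (nat_lit 78) (nat_lit 76) (nat_lit 0) (XT.lf (nat_lit 0) (nat_lit 7763048374) (nat_lit 152) (nat_lit 4374657119) (nat_lit 0) (nat_lit 2735401396) (nat_lit 8) (nat_lit 5) (nat_lit 10) (nat_lit 4) (nat_lit 8) (nat_lit 4) (nat_lit 215) (nat_lit 195) (nat_lit 190))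 (XT.lf (nat_lit 0) (nat_lit 5931943013) (nat_lit 76) (nat_lit 8145138268) (nat_lit 76) (nat_lit 2469075430) (nat_lit 7) (nat_lit 4) (nat_lit 8) (nat_lit 5) (nat_lit 8) (nat_lit 4) (nat_lit 216) (nat_lit 195) (nat_lit 189)))))) (XT.nd (nat_lit 312) (nat_lit 152) (nat_lit 0) (XT.nd (nat_lit 156) (nat_lit 76) (nat_lit 0) (XT.nd (nat_lit 78) (nat_lit 76) (nat_lit 0) (XT.lf (nat_lit 0) (nat_lit 2416829485) (nat_lit 152) (nat_lit 1212897387) (nat_lit 76) (nat_lit 14861049902) (nat_lit 6) (nat_lit 5) (nat_lit 8) (nat_lit 5) (nat_lit 7) (nat_lit 4) (nat_lit 217) (nat_lit 195) (nat_lit 188)) (XT.lf (nat_lit 0) (nat_lit 7776655930) (nat_lit 152) (nat_lit 11410647454) (nat_lit 0) (nat_lit 1544990871) (nat_lit 5) (nat_lit 5) (nat_lit 7) (nat_lit 4) (nat_lit 5) (nat_lit 4) (nat_lit 218) (nat_lit 195) (nat_lit 187))) (XT.nd (nat_lit 78) (nat_lit 76) (nat_lit 0) (XT.lf (nat_lit 0) (nat_lit 13725919459)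 (nat_lit 152) (nat_lit 2502933600) (nat_lit 0) (nat_lit 7099491480) (nat_lit 5) (nat_lit 5) (nat_lit 7) (nat_lit 4) (nat_lit 5) (nat_lit 4) (nat_lit 219) (nat_lit 195) (nat_lit 186)) (XT.lf (nat_lit 0) (nat_lit 7595472090) (nat_lit 76) (nat_lit 12849419056) (nat_lit 76) (nat_lit 5879718973) (nat_lit 4) (nat_lit 4) (nat_lit 5) (nat_lit 5) (nat_lit 5) (nat_lit 4) (nat_lit 220) (nat_lit 195) (nat_lit 185)))) (XT.nd (nat_lit 156) (nat_lit 76) (nat_lit 0) (XT.nd (nat_lit 78) (nat_lit 76) (nat_lit 0) (XT.lf (nat_lit 0) (nat_lit 18879261486) (nat_lit 76) (nat_lit 9088226477) (nat_lit 76) (nat_lit 1820028912) (nat_lit 4) (nat_lit 4) (nat_lit 5) (nat_lit 5) (nat_lit 5) (nat_lit 4) (nat_lit 221) (nat_lit 195) (nat_lit 184)) (XT.lf (nat_lit 0) (nat_lit 2458194987) (nat_lit 152) (nat_lit 2414715018) (nat_lit 76) (nat_lit 28911997937) (nat_lit 3) (nat_lit 5) (nat_lit 5) (nat_lit 5) (nat_lit 4) (nat_lit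 4) (nat_lit 222) (nat_lit 195) (nat_lit 183))) (XT.nd (nat_lit 78) (nat_lit 0) (nat_lit 0) (XT.lf (nat_lit 0) (nat_lit 7234637042) (nat_lit 152) (nat_lit 31091452999) (nat_lit 0) (nat_lit 55500400) (nat_lit 2) (nat_lit 5) (nat_lit 4) (nat_lit 4) (nat_lit 2) (nat_lit 4) (nat_lit 223) (nat_lit 195) (nat_lit 182)) (XT.nd (nat_lit 78) (nat_lit 0) (nat_lit 0) (XT.lf (nat_lit 0) (nat_lit 12735151688) (nat_lit 152) (nat_lit 25558254549) (nat_lit 0) (nat_lit 5374286399) (nat_lit 2) (nat_lit 5) (nat_lit 4) (nat_lit 4) (nat_lit 2) (nat_lit 4) (nat_lit 224) (nat_lit 195) (nat_lit 181)) (XT.lf (nat_lit 0) (nat_lit 18887444217) (nat_lit 152) (nat_lit 19505033110) (nat_lit 0) (nat_lit 11368554017) (nat_lit 2) (nat_lit 5) (nat_lit 4) (nat_lit 4) (nat_lit 2) (nat_lit 4) (nat_lit 225) (nat_lit 195) (nat_lit 180))))))))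
noncomputable def xc17 : XT := (XT.nd (nat_lit 1404) (nat_lit 0) (nat_lit 0) (XT.nd (nat_lit 702) (nat_lit 0) (nat_lit 0) (XT.nd (nat_lit 312) (nat_lit 0) (nat_lit 0) (XT.nd (nat_lit 156) (nat_lit 76) (nat_lit 0) (XT.nd (nat_lit 78) (nat_lit 0) (nat_lit 0) (XT.lf (nat_lit 0) (nat_lit 25811885570) (nat_lit 152) (nat_lit 12813356089) (nat_lit 0) (nat_lit 18155582403) (nat_lit 2) (nat_lit 5) (nat_lit 4) (nat_lit 4) (nat_lit 2) (nat_lit 4) (nat_lit 226) (nat_lit 195) (nat_lit 179)) (XT.lf (nat_lit 0) (nat_lit 33643953947) (nat_lit 152) (nat_lit 5352299369) (nat_lit 0) (nat_lit 25868161244) (nat_lit 2) (nat_lit 5) (nat_lit 4) (nat_lit 4) (nat_lit 2) (nat_lit 4) (nat_lit 227) (nat_lit 195) (nat_lit 178))) (XT.nd (nat_lit 78) (nat_lit 0) (nat_lit 0) (XT.lf (nat_lit 0) (nat_lit 3183358743) (nat_lit 76) (nat_lit 39430086579) (nat_lit 76) (nat_lit 31550389932) (nat_lit 1) (nat_lit 4) (nat_lit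 2) (nat_lit 5) (nat_lit 2) (nat_lit 4) (nat_lit 228) (nat_lit 195) (nat_lit 177)) (XT.lf (nat_lit 0) (nat_lit 13136933740) (nat_lit 76) (nat_lit 39843682104) (nat_lit 76) (nat_lit 31873634201) (nat_lit 1) (nat_lit 4) (nat_lit 2) (nat_lit 5) (nat_lit 2) (nat_lit 4) (nat_lit 229) (nat_lit 195) (nat_lit 176)))) (XT.nd (nat_lit 156) (nat_lit 0) (nat_lit 0) (XT.nd (nat_lit 78) (nat_lit 0) (nat_lit 0) (XT.lf (nat_lit 0) (nat_lit 24421326881) (nat_lit 76) (nat_lit 40391473326) (nat_lit 76) (nat_lit 32342859114) (nat_lit 1) (nat_lit 4) (nat_lit 2) (nat_lit 5) (nat_lit 2) (nat_lit 4) (nat_lit 230) (nat_lit 195) (nat_lit 175)) (XT.lf (nat_lit 0) (nat_lit 37257319771) (nat_lit 76) (nat_lit 41084177901) (nat_lit 76) (nat_lit 32967245159) (nat_lit 1) (nat_lit 4) (nat_lit 2) (nat_lit 5) (nat_lit 2) (nat_lit 4) (nat_lit 231) (nat_lit 195) (nat_lit 174))) (XT.nd (nat_lit 78) (nat_lit 0) (nat_lit 0)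 (XT.lf (nat_lit 0) (nat_lit 51896051401) (nat_lit 76) (nat_lit 41935348743) (nat_lit 76) (nat_lit 33759008584) (nat_lit 1) (nat_lit 4) (nat_lit 2) (nat_lit 5) (nat_lit 2) (nat_lit 4) (nat_lit 232) (nat_lit 195) (nat_lit 173)) (XT.nd (nat_lit 78) (nat_lit 0) (nat_lit 0) (XT.lf (nat_lit 0) (nat_lit 68623931739) (nat_lit 76) (nat_lit 42961639196) (nat_lit 76) (nat_lit 34733640412) (nat_lit 1) (nat_lit 4) (nat_lit 2) (nat_lit 5) (nat_lit 2) (nat_lit 4) (nat_lit 233) (nat_lit 195) (nat_lit 172)) (XT.lf (nat_lit 0) (nat_lit 87768245398) (nat_lit 76) (nat_lit 44183128854) (nat_lit 76) (nat_lit 35910209529) (nat_lit 1) (nat_lit 4) (nat_lit 2) (nat_lit 5) (nat_lit 2) (nat_lit 4) (nat_lit 234) (nat_lit 195) (nat_lit 171)))))) (XT.nd (nat_lit 312) (nat_lit 0) (nat_lit 0) (XT.nd (nat_lit 156) (nat_lit 0) (nat_lit 0) (XT.nd (nat_lit 78) (nat_lit 0) (nat_lit 0) (XT.lf (nat_lit 0) (nat_lit 109703555038)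 (nat_lit 76) (nat_lit 45623716430) (nat_lit 76) (nat_lit 37311735763) (nat_lit 1) (nat_lit 4) (nat_lit 2) (nat_lit 5) (nat_lit 2) (nat_lit 4) (nat_lit 235) (nat_lit 195) (nat_lit 170)) (XT.lf (nat_lit 0) (nat_lit 134859029761) (nat_lit 76) (nat_lit 47311587331) (nat_lit 76) (nat_lit 38965640280) (nat_lit 1) (nat_lit 4) (nat_lit 2) (nat_lit 5) (nat_lit 2) (nat_lit 4) (nat_lit 236) (nat_lit 195) (nat_lit 169))) (XT.nd (nat_lit 78) (nat_lit 0) (nat_lit 0) (XT.lf (nat_lit 0) (nat_lit 163726841897) (nat_lit 76) (nat_lit 49279765119) (nat_lit 76) (nat_lit 40904282083) (nat_lit 1) (nat_lit 4) (nat_lit 2) (nat_lit 5) (nat_lit 2) (nat_lit 4) (nat_lit 237) (nat_lit 195) (nat_lit 168)) (XT.lf (nat_lit 0) (nat_lit 196871796468) (nat_lit 76) (nat_lit 51566757621) (nat_lit 76) (nat_lit 43165591118) (nat_lit 1) (nat_lit 4) (nat_lit 2) (nat_lit 5) (nat_lit 2) (nat_lit 4) (nat_lit 238) (nat_lit 195)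 (nat_lit 167)))) (XT.nd (nat_lit 156) (nat_lit 0) (nat_lit 0) (XT.nd (nat_lit 78) (nat_lit 0) (nat_lit 0) (XT.lf (nat_lit 0) (nat_lit 234942381714) (nat_lit 76) (nat_lit 54217310341) (nat_lit 76) (nat_lit 45793810390) (nat_lit 1) (nat_lit 4) (nat_lit 2) (nat_lit 5) (nat_lit 2) (nat_lit 4) (nat_lit 239) (nat_lit 195) (nat_lit 166)) (XT.lf (nat_lit 0) (nat_lit 278683456912) (nat_lit 76) (nat_lit 57283281920) (nat_lit 76) (nat_lit 48840361579) (nat_lit 1) (nat_lit 4) (nat_lit 2) (nat_lit 5) (nat_lit 2) (nat_lit 4) (nat_lit 240) (nat_lit 195) (nat_lit 165))) (XT.nd (nat_lit 78) (nat_lit 0) (nat_lit 0) (XT.lf (nat_lit 0) (nat_lit 328950825708) (nat_lit 76) (nat_lit 60824658758) (nat_lit 76) (nat_lit 52364851121) (nat_lit 1) (nat_lit 4) (nat_lit 2) (nat_lit 5) (nat_lit 2) (nat_lit 4) (nat_lit 241) (nat_lit 195) (nat_lit 164)) (XT.nd (nat_lit 78) (nat_lit 0) (nat_lit 0) (XT.lf (nat_lit 0) (nat_lit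 386727980099) (nat_lit 76) (nat_lit 64910728664) (nat_lit 76) (nat_lit 56436236422) (nat_lit 1) (nat_lit 4) (nat_lit 2) (nat_lit 5) (nat_lit 2) (nat_lit 4) (nat_lit 242) (nat_lit 195) (nat_lit 163)) (XT.lf (nat_lit 0) (nat_lit 453145342671) (nat_lit 76) (nat_lit 69621436482) (nat_lit 76) (nat_lit 61134175019) (nat_lit 1) (nat_lit 4) (nat_lit 2) (nat_lit 5) (nat_lit 2) (nat_lit 4) (nat_lit 243) (nat_lit 195) (nat_lit 162))))))) (XT.nd (nat_lit 702) (nat_lit 0) (nat_lit 0) (XT.nd (nat_lit 312) (nat_lit 0) (nat_lit 0) (XT.nd (nat_lit 156) (nat_lit 0) (nat_lit 0) (XT.nd (nat_lit 78) (nat_lit 0) (nat_lit 0) (XT.lf (nat_lit 0) (nat_lit 529502383562) (nat_lit 76) (nat_lit 75048948237) (nat_lit 76) (nat_lit 66550583102) (nat_lit 1) (nat_lit 4) (nat_lit 2) (nat_lit 5) (nat_lit 2) (nat_lit 4) (nat_lit 244) (nat_lit 195) (nat_lit 161)) (XT.lf (nat_lit 0) (nat_lit 617293044877) (nat_lit 76) (nat_lit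 81299454374) (nat_lit 76) (nat_lit 72791433873) (nat_lit 1) (nat_lit 4) (nat_lit 2) (nat_lit 5) (nat_lit 2) (nat_lit 4) (nat_lit 245) (nat_lit 195) (nat_lit 160))) (XT.nd (nat_lit 78) (nat_lit 0) (nat_lit 0) (XT.lf (nat_lit 0) (nat_lit 718234969988) (nat_lit 76) (nat_lit 88495247405) (nat_lit 76) (nat_lit 79978830934) (nat_lit 1) (nat_lit 4) (nat_lit 2) (nat_lit 5) (nat_lit 2) (nat_lit 4) (nat_lit 246) (nat_lit 195) (nat_lit 159)) (XT.lf (nat_lit 0) (nat_lit 834303109604) (nat_lit 76) (nat_lit 96777114586) (nat_lit 76) (nat_lit 88253397270) (nat_lit 1) (nat_lit 4) (nat_lit 2) (nat_lit 5) (nat_lit 2) (nat_lit 4) (nat_lit 247) (nat_lit 195) (nat_lit 158)))) (XT.nd (nat_lit 156) (nat_lit 0) (nat_lit 0) (XT.nd (nat_lit 78) (nat_lit 0) (nat_lit 0) (XT.lf (nat_lit 0) (nat_lit 967768362110) (nat_lit 76) (nat_lit 106307092448) (nat_lit 76) (nat_lit 97777026572) (nat_lit 1) (nat_lit 4) (nat_lit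 2) (nat_lit 5) (nat_lit 2) (nat_lit 4) (nat_lit 248) (nat_lit 195) (nat_lit 157)) (XT.lf (nat_lit 0) (nat_lit 1121242004184) (nat_lit 76) (nat_lit 117271637079) (nat_lit 76) (nat_lit 108736050717) (nat_lit 1) (nat_lit 4) (nat_lit 2) (nat_lit 5) (nat_lit 2) (nat_lit 4) (nat_lit 249) (nat_lit 195) (nat_lit 156))) (XT.nd (nat_lit 78) (nat_lit 0) (nat_lit 0) (XT.lf (nat_lit 0) (nat_lit 1297726780997) (nat_lit 76) (nat_lit 129885272179) (nat_lit 76) (nat_lit 121344885394) (nat_lit 1) (nat_lit 4) (nat_lit 2) (nat_lit 5) (nat_lit 2) (nat_lit 4) (nat_lit 250) (nat_lit 195) (nat_lit 155)) (XT.nd (nat_lit 78) (nat_lit 0) (nat_lit 0) (XT.lf (nat_lit 0) (nat_lit 1500675655575) (nat_lit 76) (nat_lit 144394786262) (nat_lit 76) (nat_lit 135850225195) (nat_lit 1) (nat_lit 4) (nat_lit 2) (nat_lit 5) (nat_lit 2) (nat_lit 4) (nat_lit 251) (nat_lit 195) (nat_lit 154)) (XT.lf (nat_lit 0) (nat_lit 1734059366768)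 (nat_lit 76) (nat_lit 161084061123) (nat_lit 76) (nat_lit 152535870246) (nat_lit 1) (nat_lit 4) (nat_lit 2) (nat_lit 5) (nat_lit 2) (nat_lit 4) (nat_lit 252) (nat_lit 195) (nat_lit 153)))))) (XT.nd (nat_lit 390) (nat_lit 0) (nat_lit 0) (XT.nd (nat_lit 156) (nat_lit 0) (nat_lit 0) (XT.nd (nat_lit 78) (nat_lit 0) (nat_lit 0) (XT.lf (nat_lit 0) (nat_lit 2002444117620) (nat_lit 76) (nat_lit 180279626054) (nat_lit 76) (nat_lit 171728278821) (nat_lit 1) (nat_lit 4) (nat_lit 2) (nat_lit 5) (nat_lit 2) (nat_lit 4) (nat_lit 253) (nat_lit 195) (nat_lit 152)) (XT.lf (nat_lit 0) (nat_lit 2311080914127) (nat_lit 76) (nat_lit 202357046456) (nat_lit 76) (nat_lit 193802954566) (nat_lit 1) (nat_lit 4) (nat_lit 2) (nat_lit 5) (nat_lit 2) (nat_lit 4) (nat_lit 254) (nat_lit 195) (nat_lit 151))) (XT.nd (nat_lit 78) (nat_lit 0) (nat_lit 0) (XT.lf (nat_lit 0) (nat_lit 2666008302307) (nat_lit 76) (nat_lit 227748271858)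 (nat_lit 76) (nat_lit 219191793309) (nat_lit 1) (nat_lit 4) (nat_lit 2) (nat_lit 5) (nat_lit 2) (nat_lit 4) (nat_lit 255) (nat_lit 195) (nat_lit 150)) (XT.nd (nat_lit 78) (nat_lit 0) (nat_lit 0) (XT.lf (nat_lit 0) (nat_lit 3074170513669) (nat_lit 76) (nat_lit 256950087106) (nat_lit 76) (nat_lit 248391533201) (nat_lit 1) (nat_lit 4) (nat_lit 2) (nat_lit 5) (nat_lit 2) (nat_lit 4) (nat_lit 256) (nat_lit 195) (nat_lit 149)) (XT.lf (nat_lit 0) (nat_lit 3543553330608) (nat_lit 76) (nat_lit 290533832062) (nat_lit 76) (nat_lit 281973473500) (nat_lit 1) (nat_lit 4) (nat_lit 2) (nat_lit 5) (nat_lit 2) (nat_lit 4) (nat_lit 257) (nat_lit 195) (nat_lit 148))))) (XT.nd (nat_lit 27378) (nat_lit 0) (nat_lit 1140) (XT.nd (nat_lit 78) (nat_lit 0) (nat_lit 0) (XT.lf (nat_lit 0) (nat_lit 4083340329977) (nat_lit 76) (nat_lit 329156579997) (nat_lit 76) (nat_lit 320594652168) (nat_lit 1) (nat_lit 4) (nat_lit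 2) (nat_lit 5) (nat_lit 2) (nat_lit 4) (nat_lit 258) (nat_lit 195) (nat_lit 147)) (XT.lf (nat_lit 0) (nat_lit 4704092561764) (nat_lit 76) (nat_lit 373573993372) (nat_lit 76) (nat_lit 365010700963) (nat_lit 1) (nat_lit 4) (nat_lit 2) (nat_lit 5) (nat_lit 2) (nat_lit 4) (nat_lit 259) (nat_lit 195) (nat_lit 146))) (XT.nd (nat_lit 78) (nat_lit 456) (nat_lit 0) (XT.lf (nat_lit 0) (nat_lit 158573995) (nat_lit 228) (nat_lit 3827116317) (nat_lit 0) (nat_lit 158573995) (nat_lit 22) (nat_lit 5) (nat_lit 25) (nat_lit 4) (nat_lit 22) (nat_lit 4) (nat_lit 208) (nat_lit 196) (nat_lit 196)) (XT.nd (nat_lit 78) (nat_lit 228) (nat_lit 0) (XT.lf (nat_lit 0) (nat_lit 1531218744) (nat_lit 228) (nat_lit 4599451133) (nat_lit 228) (nat_lit 2710103222) (nat_lit 19) (nat_lit 4) (nat_lit 22) (nat_lit 5) (nat_lit 22) (nat_lit 4) (nat_lit 209) (nat_lit 196) (nat_lit 195)) (XT.lf (nat_lit 0) (nat_lit 2162374329)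 (nat_lit 152) (nat_lit 575430221) (nat_lit 228) (nat_lit 6770861415) (nat_lit 16) (nat_lit 5) (nat_lit 18) (nat_lit 5) (nat_lit 19) (nat_lit 4) (nat_lit 210) (nat_lit 196) (nat_lit 194))))))))
noncomputable def xc18 : XT := (XT.nd (nat_lit 1404) (nat_lit 76) (nat_lit 0) (XT.nd (nat_lit 702) (nat_lit 228) (nat_lit 0) (XT.nd (nat_lit 312) (nat_lit 304) (nat_lit 0) (XT.nd (nat_lit 156) (nat_lit 228) (nat_lit 0) (XT.nd (nat_lit 78) (nat_lit 152) (nat_lit 0) (XT.lf (nat_lit 0) (nat_lit 2244234759) (nat_lit 152) (nat_lit 6323060039) (nat_lit 152) (nat_lit 1729654858) (nat_lit 14) (nat_lit 4) (nat_lit 16) (nat_lit 5) (nat_lit 16) (nat_lit 4) (nat_lit 211) (nat_lit 196) (nat_lit 193)) (XT.lf (nat_lit 0) (nat_lit 1608597607) (nat_lit 76) (nat_lit 1926142390) (nat_lit 152) (nat_lit 7690351919) (nat_lit 12) (nat_lit 5) (nat_lit 13) (nat_lit 5) (nat_lit 14) (nat_lit 4) (nat_lit 212) (nat_lit 196)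 (nat_lit 192))) (XT.nd (nat_lit 78) (nat_lit 228) (nat_lit 0) (XT.lf (nat_lit 0) (nat_lit 9254439993) (nat_lit 152) (nat_lit 45553852) (nat_lit 0) (nat_lit 3010102446) (nat_lit 12) (nat_lit 5) (nat_lit 14) (nat_lit 4) (nat_lit 12) (nat_lit 4) (nat_lit 213) (nat_lit 196) (nat_lit 191)) (XT.lf (nat_lit 0) (nat_lit 1985771209) (nat_lit 228) (nat_lit 2919265929) (nat_lit 76) (nat_lit 8664572569) (nat_lit 9) (nat_lit 5) (nat_lit 12) (nat_lit 5) (nat_lit 10) (nat_lit 4) (nat_lit 214) (nat_lit 196) (nat_lit 190)))) (XT.nd (nat_lit 156) (nat_lit 152) (nat_lit 0) (XT.nd (nat_lit 78) (nat_lit 76) (nat_lit 0) (XT.lf (nat_lit 0) (nat_lit 7348550226) (nat_lit 152) (nat_lit 7512679248) (nat_lit 0) (nat_lit 172662102) (nat_lit 8) (nat_lit 5) (nat_lit 10) (nat_lit 4) (nat_lit 8) (nat_lit 4) (nat_lit 215) (nat_lit 196) (nat_lit 189)) (XT.lf (nat_lit 0) (nat_lit 2300543630) (nat_lit 76) (nat_lit 11084542185)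 (nat_lit 76) (nat_lit 3344814182) (nat_lit 7) (nat_lit 4) (nat_lit 8) (nat_lit 5) (nat_lit 8) (nat_lit 4) (nat_lit 216) (nat_lit 196) (nat_lit 188))) (XT.nd (nat_lit 78) (nat_lit 76) (nat_lit 0) (XT.lf (nat_lit 0) (nat_lit 1407578013) (nat_lit 152) (nat_lit 5302261280) (nat_lit 76) (nat_lit 11981162307) (nat_lit 6) (nat_lit 5) (nat_lit 8) (nat_lit 5) (nat_lit 7) (nat_lit 4) (nat_lit 217) (nat_lit 196) (nat_lit 187)) (XT.nd (nat_lit 78) (nat_lit 0) (nat_lit 0) (XT.lf (nat_lit 0) (nat_lit 4788898494) (nat_lit 76) (nat_lit 1675171696) (nat_lit 152) (nat_lit 14493246903) (nat_lit 5) (nat_lit 5) (nat_lit 6) (nat_lit 5) (nat_lit 7) (nat_lit 4) (nat_lit 218) (nat_lit 196) (nat_lit 186)) (XT.lf (nat_lit 0) (nat_lit 12231021308) (nat_lit 152) (nat_lit 7464798927) (nat_lit 0) (nat_lit 3872594109) (nat_lit 5) (nat_lit 5) (nat_lit 7) (nat_lit 4) (nat_lit 5) (nat_lit 4) (nat_lit 219) (nat_lit 196)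 (nat_lit 185)))))) (XT.nd (nat_lit 312) (nat_lit 0) (nat_lit 0) (XT.nd (nat_lit 156) (nat_lit 152) (nat_lit 0) (XT.nd (nat_lit 78) (nat_lit 0) (nat_lit 0) (XT.lf (nat_lit 0) (nat_lit 2148627354) (nat_lit 76) (nat_lit 16546869335) (nat_lit 76) (nat_lit 7889944654) (nat_lit 4) (nat_lit 4) (nat_lit 5) (nat_lit 5) (nat_lit 5) (nat_lit 4) (nat_lit 220) (nat_lit 196) (nat_lit 184)) (XT.lf (nat_lit 0) (nat_lit 13237898164) (nat_lit 76) (nat_lit 12868126246) (nat_lit 76) (nat_lit 3951638537) (nat_lit 4) (nat_lit 4) (nat_lit 5) (nat_lit 5) (nat_lit 5) (nat_lit 4) (nat_lit 221) (nat_lit 196) (nat_lit 183))) (XT.nd (nat_lit 78) (nat_lit 76) (nat_lit 0) (XT.lf (nat_lit 0) (nat_lit 332945955) (nat_lit 152) (nat_lit 8449667101) (nat_lit 76) (nat_lit 25284845126) (nat_lit 3) (nat_lit 5) (nat_lit 5) (nat_lit 5) (nat_lit 4) (nat_lit 4) (nat_lit 222) (nat_lit 196) (nat_lit 182)) (XT.lf (nat_lit 0) (nat_lit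 778993163) (nat_lit 76) (nat_lit 4085167794) (nat_lit 152) (nat_lit 33819842457) (nat_lit 2) (nat_lit 5) (nat_lit 3) (nat_lit 5) (nat_lit 4) (nat_lit 4) (nat_lit 223) (nat_lit 196) (nat_lit 181)))) (XT.nd (nat_lit 156) (nat_lit 0) (nat_lit 0) (XT.nd (nat_lit 78) (nat_lit 0) (nat_lit 0) (XT.lf (nat_lit 0) (nat_lit 10185822888) (nat_lit 152) (nat_lit 32417729362) (nat_lit 0) (nat_lit 1381074246) (nat_lit 2) (nat_lit 5) (nat_lit 4) (nat_lit 4) (nat_lit 2) (nat_lit 4) (nat_lit 224) (nat_lit 196) (nat_lit 180)) (XT.lf (nat_lit 0) (nat_lit 16268024693) (nat_lit 152) (nat_lit 26489869613) (nat_lit 0) (nat_lit 7325863085) (nat_lit 2) (nat_lit 5) (nat_lit 4) (nat_lit 4) (nat_lit 2) (nat_lit 4) (nat_lit 225) (nat_lit 196) (nat_lit 179))) (XT.nd (nat_lit 78) (nat_lit 0) (nat_lit 0) (XT.lf (nat_lit 0) (nat_lit 23131517591) (nat_lit 152) (nat_lit 19907202756) (nat_lit 0) (nat_lit 14069866447) (nat_lit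 2) (nat_lit 5) (nat_lit 4) (nat_lit 4) (nat_lit 2) (nat_lit 4) (nat_lit 226) (nat_lit 196) (nat_lit 178)) (XT.nd (nat_lit 78) (nat_lit 0) (nat_lit 0) (XT.lf (nat_lit 0) (nat_lit 30910587311) (nat_lit 152) (nat_lit 12540937484) (nat_lit 0) (nat_lit 21745032223) (nat_lit 2) (nat_lit 5) (nat_lit 4) (nat_lit 4) (nat_lit 2) (nat_lit 4) (nat_lit 227) (nat_lit 196) (nat_lit 177)) (XT.lf (nat_lit 0) (nat_lit 39757433043) (nat_lit 152) (nat_lit 4246951215) (nat_lit 0) (nat_lit 30501526699) (nat_lit 2) (nat_lit 5) (nat_lit 4) (nat_lit 4) (nat_lit 2) (nat_lit 4) (nat_lit 228) (nat_lit 196) (nat_lit 176))))))) (XT.nd (nat_lit 702) (nat_lit 0) (nat_lit 0) (XT.nd (nat_lit 312) (nat_lit 0) (nat_lit 0) (XT.nd (nat_lit 156) (nat_lit 0) (nat_lit 0) (XT.nd (nat_lit 78) (nat_lit 0) (nat_lit 0) (XT.lf (nat_lit 0) (nat_lit 5407536575) (nat_lit 76) (nat_lit 44567660058) (nat_lit 76) (nat_lit 35233187404) (nat_lit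 1) (nat_lit 4) (nat_lit 2) (nat_lit 5) (nat_lit 2) (nat_lit 4) (nat_lit 229) (nat_lit 196) (nat_lit 175)) (XT.lf (nat_lit 0) (nat_lit 16626320776) (nat_lit 76) (nat_lit 45144634847) (nat_lit 76) (nat_lit 35741843664) (nat_lit 1) (nat_lit 4) (nat_lit 2) (nat_lit 5) (nat_lit 2) (nat_lit 4) (nat_lit 230) (nat_lit 196) (nat_lit 174))) (XT.nd (nat_lit 78) (nat_lit 0) (nat_lit 0) (XT.lf (nat_lit 0) (nat_lit 29405262413) (nat_lit 76) (nat_lit 45862716436) (nat_lit 76) (nat_lit 36400517835) (nat_lit 1) (nat_lit 4) (nat_lit 2) (nat_lit 5) (nat_lit 2) (nat_lit 4) (nat_lit 231) (nat_lit 196) (nat_lit 173)) (XT.lf (nat_lit 0) (nat_lit 43994384258) (nat_lit 76) (nat_lit 46735954248) (nat_lit 76) (nat_lit 37222097023) (nat_lit 1) (nat_lit 4) (nat_lit 2) (nat_lit 5) (nat_lit 2) (nat_lit 4) (nat_lit 232) (nat_lit 196) (nat_lit 172)))) (XT.nd (nat_lit 156) (nat_lit 0) (nat_lit 0) (XT.nd (nat_lit 78)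 (nat_lit 0) (nat_lit 0) (XT.lf (nat_lit 0) (nat_lit 60679125652) (nat_lit 76) (nat_lit 47781433369) (nat_lit 76) (nat_lit 38222655602) (nat_lit 1) (nat_lit 4) (nat_lit 2) (nat_lit 5) (nat_lit 2) (nat_lit 4) (nat_lit 233) (nat_lit 196) (nat_lit 171)) (XT.lf (nat_lit 0) (nat_lit 79785927187) (nat_lit 76) (nat_lit 49019608827) (nat_lit 76) (nat_lit 39421769719) (nat_lit 1) (nat_lit 4) (nat_lit 2) (nat_lit 5) (nat_lit 2) (nat_lit 4) (nat_lit 234) (nat_lit 196) (nat_lit 170))) (XT.nd (nat_lit 78) (nat_lit 0) (nat_lit 0) (XT.lf (nat_lit 0) (nat_lit 101688617588) (nat_lit 76) (nat_lit 50474705793) (nat_lit 76) (nat_lit 40842900301) (nat_lit 1) (nat_lit 4) (nat_lit 2) (nat_lit 5) (nat_lit 2) (nat_lit 4) (nat_lit 235) (nat_lit 196) (nat_lit 169)) (XT.nd (nat_lit 78) (nat_lit 0) (nat_lit 0) (XT.lf (nat_lit 0) (nat_lit 126815727755) (nat_lit 76) (nat_lit 52175193555) (nat_lit 76) (nat_lit 42513852078)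 (nat_lit 1) (nat_lit 4) (nat_lit 2) (nat_lit 5) (nat_lit 2) (nat_lit 4) (nat_lit 236) (nat_lit 196) (nat_lit 168)) (XT.lf (nat_lit 0) (nat_lit 155658875061) (nat_lit 76) (nat_lit 54154342527) (nat_lit 76) (nat_lit 44467317584) (nat_lit 1) (nat_lit 4) (nat_lit 2) (nat_lit 5) (nat_lit 2) (nat_lit 4) (nat_lit 237) (nat_lit 196) (nat_lit 167)))))) (XT.nd (nat_lit 390) (nat_lit 0) (nat_lit 0) (XT.nd (nat_lit 156) (nat_lit 0) (nat_lit 0) (XT.nd (nat_lit 78) (nat_lit 0) (nat_lit 0) (XT.lf (nat_lit 0) (nat_lit 188782381952) (nat_lit 76) (nat_lit 56450875188) (nat_lit 76) (nat_lit 46741516796) (nat_lit 1) (nat_lit 4) (nat_lit 2) (nat_lit 5) (nat_lit 2) (nat_lit 4) (nat_lit 238) (nat_lit 196) (nat_lit 166)) (XT.lf (nat_lit 0) (nat_lit 226834317042) (nat_lit 76) (nat_lit 59109723700) (nat_lit 76) (nat_lit 49380944917) (nat_lit 1) (nat_lit 4) (nat_lit 2) (nat_lit 5) (nat_lit 2) (nat_lit 4) (nat_lit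 239) (nat_lit 196) (nat_lit 165))) (XT.nd (nat_lit 78) (nat_lit 0) (nat_lit 0) (XT.lf (nat_lit 0) (nat_lit 270559174714) (nat_lit 76) (nat_lit 62182909010) (nat_lit 76) (nat_lit 52437242932) (nat_lit 1) (nat_lit 4) (nat_lit 2) (nat_lit 5) (nat_lit 2) (nat_lit 4) (nat_lit 240) (nat_lit 196) (nat_lit 164)) (XT.nd (nat_lit 78) (nat_lit 0) (nat_lit 0) (XT.lf (nat_lit 0) (nat_lit 320812441312) (nat_lit 76) (nat_lit 65730558659) (nat_lit 76) (nat_lit 55970207975) (nat_lit 1) (nat_lit 4) (nat_lit 2) (nat_lit 5) (nat_lit 2) (nat_lit 4) (nat_lit 241) (nat_lit 196) (nat_lit 163)) (XT.lf (nat_lit 0) (nat_lit 378577332923) (nat_lit 76) (nat_lit 69822083181) (nat_lit 76) (nat_lit 60048963277) (nat_lit 1) (nat_lit 4) (nat_lit 2) (nat_lit 5) (nat_lit 2) (nat_lit 4) (nat_lit 242) (nat_lit 196) (nat_lit 162))))) (XT.nd (nat_lit 156) (nat_lit 0) (nat_lit 0) (XT.nd (nat_lit 78) (nat_lit 0) (nat_lit 0)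 (XT.lf (nat_lit 0) (nat_lit 444984032209) (nat_lit 76) (nat_lit 74537534145) (nat_lit 76) (nat_lit 64753310569) (nat_lit 1) (nat_lit 4) (nat_lit 2) (nat_lit 5) (nat_lit 2) (nat_lit 4) (nat_lit 243) (nat_lit 196) (nat_lit 161)) (XT.lf (nat_lit 0) (nat_lit 521331800677) (nat_lit 76) (nat_lit 79969170374) (nat_lit 76) (nat_lit 70175291432) (nat_lit 1) (nat_lit 4) (nat_lit 2) (nat_lit 5) (nat_lit 2) (nat_lit 4) (nat_lit 244) (nat_lit 196) (nat_lit 160))) (XT.nd (nat_lit 78) (nat_lit 0) (nat_lit 0) (XT.lf (nat_lit 0) (nat_lit 609114399014) (nat_lit 76) (nat_lit 86223263010) (nat_lit 76) (nat_lit 76420988098) (nat_lit 1) (nat_lit 4) (nat_lit 2) (nat_lit 5) (nat_lit 2) (nat_lit 4) (nat_lit 245) (nat_lit 196) (nat_lit 159)) (XT.nd (nat_lit 78) (nat_lit 0) (nat_lit 0) (XT.lf (nat_lit 0) (nat_lit 710049312841) (nat_lit 76) (nat_lit 93422174737) (nat_lit 76) (nat_lit 83612598980) (nat_lit 1) (nat_lit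 4) (nat_lit 2) (nat_lit 5) (nat_lit 2) (nat_lit 4) (nat_lit 246) (nat_lit 196) (nat_lit 158)) (XT.lf (nat_lit 0) (nat_lit 826111355688) (nat_lit 76) (nat_lit 101706753827) (nat_lit 76) (nat_lit 91890829510) (nat_lit 1) (nat_lit 4) (nat_lit 2) (nat_lit 5) (nat_lit 2) (nat_lit 4) (nat_lit 247) (nat_lit 196) (nat_lit 157))))))))
noncomputable def xc19 : XT := (XT.nd (nat_lit 28470) (nat_lit 0) (nat_lit 0) (XT.nd (nat_lit 702) (nat_lit 0) (nat_lit 0) (XT.nd (nat_lit 312) (nat_lit 0) (nat_lit 0) (XT.nd (nat_lit 156) (nat_lit 0) (nat_lit 0) (XT.nd (nat_lit 78) (nat_lit 0) (nat_lit 0) (XT.lf (nat_lit 0) (nat_lit 959571306655) (nat_lit 76) (nat_lit 111239089870) (nat_lit 76) (nat_lit 101417645066) (nat_lit 1) (nat_lit 4) (nat_lit 2) (nat_lit 5) (nat_lit 2) (nat_lit 4) (nat_lit 248) (nat_lit 196) (nat_lit 156)) (XT.lf (nat_lit 0) (nat_lit 1113040338696) (nat_lit 76) (nat_lit 122205685094) (nat_lit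 76) (nat_lit 112379439867) (nat_lit 1) (nat_lit 4) (nat_lit 2) (nat_lit 5) (nat_lit 2) (nat_lit 4) (nat_lit 249) (nat_lit 196) (nat_lit 155))) (XT.nd (nat_lit 78) (nat_lit 0) (nat_lit 0) (XT.lf (nat_lit 0) (nat_lit 1289521106785) (nat_lit 76) (nat_lit 134821103319) (nat_lit 76) (nat_lit 124990683810) (nat_lit 1) (nat_lit 4) (nat_lit 2) (nat_lit 5) (nat_lit 2) (nat_lit 4) (nat_lit 250) (nat_lit 196) (nat_lit 154)) (XT.lf (nat_lit 0) (nat_lit 1492466495516) (nat_lit 76) (nat_lit 149332167944) (nat_lit 76) (nat_lit 139498118626) (nat_lit 1) (nat_lit 4) (nat_lit 2) (nat_lit 5) (nat_lit 2) (nat_lit 4) (nat_lit 251) (nat_lit 196) (nat_lit 153)))) (XT.nd (nat_lit 156) (nat_lit 0) (nat_lit 0) (XT.nd (nat_lit 78) (nat_lit 0) (nat_lit 0) (XT.lf (nat_lit 0) (nat_lit 1725847175536) (nat_lit 76) (nat_lit 166022791103) (nat_lit 76) (nat_lit 156185585429) (nat_lit 1) (nat_lit 4) (nat_lit 2) (nat_lit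 5) (nat_lit 2) (nat_lit 4) (nat_lit 252) (nat_lit 196) (nat_lit 152)) (XT.lf (nat_lit 0) (nat_lit 1994229290587) (nat_lit 76) (nat_lit 185219528467) (nat_lit 76) (nat_lit 175379578135) (nat_lit 1) (nat_lit 4) (nat_lit 2) (nat_lit 5) (nat_lit 2) (nat_lit 4) (nat_lit 253) (nat_lit 196) (nat_lit 151))) (XT.nd (nat_lit 78) (nat_lit 0) (nat_lit 0) (XT.lf (nat_lit 0) (nat_lit 2302863795093) (nat_lit 76) (nat_lit 207297968376) (nat_lit 76) (nat_lit 197455631385) (nat_lit 1) (nat_lit 4) (nat_lit 2) (nat_lit 5) (nat_lit 2) (nat_lit 4) (nat_lit 254) (nat_lit 196) (nat_lit 150)) (XT.nd (nat_lit 78) (nat_lit 0) (nat_lit 0) (XT.lf (nat_lit 0) (nat_lit 2657789190229) (nat_lit 76) (nat_lit 232690080306) (nat_lit 76) (nat_lit 222845667960) (nat_lit 1) (nat_lit 4) (nat_lit 2) (nat_lit 5) (nat_lit 2) (nat_lit 4) (nat_lit 255) (nat_lit 196) (nat_lit 149)) (XT.lf (nat_lit 0) (nat_lit 3065949668508) (nat_lit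 76) (nat_lit 261892666447) (nat_lit 76) (nat_lit 252046449444) (nat_lit 1) (nat_lit 4) (nat_lit 2) (nat_lit 5) (nat_lit 2) (nat_lit 4) (nat_lit 256) (nat_lit 196) (nat_lit 148)))))) (XT.nd (nat_lit 27378) (nat_lit 0) (nat_lit 988) (XT.nd (nat_lit 156) (nat_lit 0) (nat_lit 0) (XT.nd (nat_lit 78) (nat_lit 0) (nat_lit 0) (XT.lf (nat_lit 0) (nat_lit 3535330978418) (nat_lit 76) (nat_lit 295477081746) (nat_lit 76) (nat_lit 285629295475) (nat_lit 1) (nat_lit 4) (nat_lit 2) (nat_lit 5) (nat_lit 2) (nat_lit 4) (nat_lit 257) (nat_lit 196) (nat_lit 147)) (XT.lf (nat_lit 0) (nat_lit 4075116667329) (nat_lit 76) (nat_lit 334100412587) (nat_lit 76) (nat_lit 324251261737) (nat_lit 1) (nat_lit 4) (nat_lit 2) (nat_lit 5) (nat_lit 2) (nat_lit 4) (nat_lit 258) (nat_lit 196) (nat_lit 146))) (XT.nd (nat_lit 27144) (nat_lit 0) (nat_lit 2584) (XT.lf (nat_lit 0) (nat_lit 4695867759586) (nat_lit 76) (nat_lit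 378518332837) (nat_lit 76) (nat_lit 368667995396) (nat_lit 1) (nat_lit 4) (nat_lit 2) (nat_lit 5) (nat_lit 2) (nat_lit 4) (nat_lit 259) (nat_lit 196) (nat_lit 145)) (XT.lf (nat_lit 0) (nat_lit 3114163425) (nat_lit 380) (nat_lit 302340096) (nat_lit 380) (nat_lit 302340096) (nat_lit 35) (nat_lit 4) (nat_lit 40) (nat_lit 5) (nat_lit 40) (nat_lit 4) (nat_lit 206) (nat_lit 197) (nat_lit 197)))) (XT.nd (nat_lit 156) (nat_lit 608) (nat_lit 0) (XT.nd (nat_lit 78) (nat_lit 456) (nat_lit 0) (XT.lf (nat_lit 0) (nat_lit 4834331857) (nat_lit 532) (nat_lit 507629900) (nat_lit 0) (nat_lit 2487761752) (nat_lit 28) (nat_lit 5) (nat_lit 35) (nat_lit 4) (nat_lit 28) (nat_lit 4) (nat_lit 207) (nat_lit 197) (nat_lit 196)) (XT.lf (nat_lit 0) (nat_lit 146538747) (nat_lit 152) (nat_lit 2033078846) (nat_lit 228) (nat_lit 6136276134) (nat_lit 22) (nat_lit 5) (nat_lit 24) (nat_lit 5) (nat_lit 25) (nat_lit 4) (nat_lit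 208) (nat_lit 197) (nat_lit 195))) (XT.nd (nat_lit 78) (nat_lit 380) (nat_lit 0) (XT.lf (nat_lit 0) (nat_lit 613678340) (nat_lit 228) (nat_lit 6996171643) (nat_lit 228) (nat_lit 1291162409) (nat_lit 19) (nat_lit 4) (nat_lit 22) (nat_lit 5) (nat_lit 22) (nat_lit 4) (nat_lit 209) (nat_lit 197) (nat_lit 194)) (XT.nd (nat_lit 78) (nat_lit 152) (nat_lit 0) (XT.lf (nat_lit 0) (nat_lit 688616062) (nat_lit 152) (nat_lit 3072078050) (nat_lit 228) (nat_lit 5833266919) (nat_lit 16) (nat_lit 5) (nat_lit 18) (nat_lit 5) (nat_lit 19) (nat_lit 4) (nat_lit 210) (nat_lit 197) (nat_lit 193)) (XT.lf (nat_lit 0) (nat_lit 271150252) (nat_lit 152) (nat_lit 8948861750) (nat_lit 152) (nat_lit 1193394517) (nat_lit 14) (nat_lit 4) (nat_lit 16) (nat_lit 5) (nat_lit 16) (nat_lit 4) (nat_lit 211) (nat_lit 197) (nat_lit 192))))))) (XT.nd (nat_lit 702) (nat_lit 304) (nat_lit 0) (XT.nd (nat_lit 312) (nat_lit 228) (nat_lit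 0) (XT.nd (nat_lit 156) (nat_lit 304) (nat_lit 0) (XT.nd (nat_lit 78) (nat_lit 76) (nat_lit 0) (XT.lf (nat_lit 0) (nat_lit 3761384603) (nat_lit 228) (nat_lit 932010221) (nat_lit 76) (nat_lit 6670991759) (nat_lit 13) (nat_lit 5) (nat_lit 16) (nat_lit 5) (nat_lit 14) (nat_lit 4) (nat_lit 212) (nat_lit 197) (nat_lit 191)) (XT.lf (nat_lit 0) (nat_lit 9167605817) (nat_lit 152) (nat_lit 3052794487) (nat_lit 0) (nat_lit 255152767) (nat_lit 12) (nat_lit 5) (nat_lit 14) (nat_lit 4) (nat_lit 12) (nat_lit 4) (nat_lit 213) (nat_lit 197) (nat_lit 190))) (XT.nd (nat_lit 78) (nat_lit 76) (nat_lit 0) (XT.lf (nat_lit 0) (nat_lit 1460637868) (nat_lit 228) (nat_lit 6574615412) (nat_lit 76) (nat_lit 5724008290) (nat_lit 9) (nat_lit 5) (nat_lit 12) (nat_lit 5) (nat_lit 10) (nat_lit 4) (nat_lit 214) (nat_lit 197) (nat_lit 189)) (XT.lf (nat_lit 0) (nat_lit 3379464427) (nat_lit 76) (nat_lit 3159551762) (nat_lit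 152) (nat_lit 8708038120) (nat_lit 8) (nat_lit 5) (nat_lit 9) (nat_lit 5) (nat_lit 10) (nat_lit 4) (nat_lit 215) (nat_lit 197) (nat_lit 188)))) (XT.nd (nat_lit 156) (nat_lit 152) (nat_lit 0) (XT.nd (nat_lit 78) (nat_lit 76) (nat_lit 0) (XT.lf (nat_lit 0) (nat_lit 12278878026) (nat_lit 152) (nat_lit 2364523041) (nat_lit 0) (nat_lit 2324055398) (nat_lit 8) (nat_lit 5) (nat_lit 10) (nat_lit 4) (nat_lit 8) (nat_lit 4) (nat_lit 216) (nat_lit 197) (nat_lit 187)) (XT.lf (nat_lit 0) (nat_lit 8389530856) (nat_lit 76) (nat_lit 10470193915) (nat_lit 76) (nat_lit 89027333) (nat_lit 7) (nat_lit 4) (nat_lit 8) (nat_lit 5) (nat_lit 8) (nat_lit 4) (nat_lit 217) (nat_lit 197) (nat_lit 186))) (XT.nd (nat_lit 78) (nat_lit 76) (nat_lit 0) (XT.lf (nat_lit 0) (nat_lit 4722665288) (nat_lit 152) (nat_lit 928756653) (nat_lit 76) (nat_lit 15584219163) (nat_lit 6) (nat_lit 5) (nat_lit 8) (nat_lit 5) (nat_lit 7)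 (nat_lit 4) (nat_lit 218) (nat_lit 197) (nat_lit 185)) (XT.nd (nat_lit 78) (nat_lit 0) (nat_lit 0) (XT.lf (nat_lit 0) (nat_lit 10238560202) (nat_lit 76) (nat_lit 7996497) (nat_lit 152) (nat_lit 13620028148) (nat_lit 5) (nat_lit 5) (nat_lit 6) (nat_lit 5) (nat_lit 7) (nat_lit 4) (nat_lit 219) (nat_lit 197) (nat_lit 184)) (XT.lf (nat_lit 0) (nat_lit 16551774307) (nat_lit 152) (nat_lit 4306677068) (nat_lit 0) (nat_lit 6038250414) (nat_lit 5) (nat_lit 5) (nat_lit 7) (nat_lit 4) (nat_lit 5) (nat_lit 4) (nat_lit 220) (nat_lit 197) (nat_lit 183)))))) (XT.nd (nat_lit 390) (nat_lit 76) (nat_lit 0) (XT.nd (nat_lit 156) (nat_lit 152) (nat_lit 0) (XT.nd (nat_lit 78) (nat_lit 0) (nat_lit 0) (XT.lf (nat_lit 0) (nat_lit 6386665162) (nat_lit 76) (nat_lit 17369155676) (nat_lit 76) (nat_lit 6629924803) (nat_lit 4) (nat_lit 4) (nat_lit 5) (nat_lit 5) (nat_lit 5) (nat_lit 4) (nat_lit 221) (nat_lit 197)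 (nat_lit 182)) (XT.lf (nat_lit 0) (nat_lit 18628577415) (nat_lit 76) (nat_lit 13355089479) (nat_lit 76) (nat_lit 2419591666) (nat_lit 4) (nat_lit 4) (nat_lit 5) (nat_lit 5) (nat_lit 5) (nat_lit 4) (nat_lit 222) (nat_lit 197) (nat_lit 181))) (XT.nd (nat_lit 78) (nat_lit 76) (nat_lit 0) (XT.lf (nat_lit 0) (nat_lit 2138106908) (nat_lit 152) (nat_lit 6658902347) (nat_lit 76) (nat_lit 30235226841) (nat_lit 3) (nat_lit 5) (nat_lit 5) (nat_lit 5) (nat_lit 4) (nat_lit 4) (nat_lit 223) (nat_lit 197) (nat_lit 180)) (XT.nd (nat_lit 78) (nat_lit 0) (nat_lit 0) (XT.lf (nat_lit 0) (nat_lit 3695194304) (nat_lit 76) (nat_lit 3492192726) (nat_lit 152) (nat_lit 37167447622) (nat_lit 2) (nat_lit 5) (nat_lit 3) (nat_lit 5) (nat_lit 4) (nat_lit 4) (nat_lit 224) (nat_lit 197) (nat_lit 179)) (XT.lf (nat_lit 0) (nat_lit 13124653062) (nat_lit 152) (nat_lit 34756803446) (nat_lit 0) (nat_lit 2584264711) (nat_lit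 2) (nat_lit 5) (nat_lit 4) (nat_lit 4) (nat_lit 2) (nat_lit 4) (nat_lit 225) (nat_lit 197) (nat_lit 178))))) (XT.nd (nat_lit 156) (nat_lit 76) (nat_lit 0) (XT.nd (nat_lit 78) (nat_lit 0) (nat_lit 0) (XT.lf (nat_lit 0) (nat_lit 19935147303) (nat_lit 152) (nat_lit 28268928037) (nat_lit 0) (nat_lit 9290855007) (nat_lit 2) (nat_lit 5) (nat_lit 4) (nat_lit 4) (nat_lit 2) (nat_lit 4) (nat_lit 226) (nat_lit 197) (nat_lit 177)) (XT.lf (nat_lit 0) (nat_lit 27668131234) (nat_lit 152) (nat_lit 20985090111) (nat_lit 0) (nat_lit 16933487682) (nat_lit 2) (nat_lit 5) (nat_lit 4) (nat_lit 4) (nat_lit 2) (nat_lit 4) (nat_lit 227) (nat_lit 197) (nat_lit 176))) (XT.nd (nat_lit 78) (nat_lit 76) (nat_lit 0) (XT.lf (nat_lit 0) (nat_lit 36474902368) (nat_lit 152) (nat_lit 12762779794) (nat_lit 0) (nat_lit 25661692507) (nat_lit 2) (nat_lit 5) (nat_lit 4) (nat_lit 4) (nat_lit 2) (nat_lit 4) (nat_lit 228) (nat_lit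 197) (nat_lit 175)) (XT.nd (nat_lit 78) (nat_lit 76) (nat_lit 0) (XT.lf (nat_lit 0) (nat_lit 46527767096) (nat_lit 152) (nat_lit 3441125799) (nat_lit 0) (nat_lit 35646238705) (nat_lit 2) (nat_lit 5) (nat_lit 4) (nat_lit 4) (nat_lit 2) (nat_lit 4) (nat_lit 229) (nat_lit 197) (nat_lit 174)) (XT.lf (nat_lit 0) (nat_lit 7539403561) (nat_lit 76) (nat_lit 50665331177) (nat_lit 76) (nat_lit 39724395369) (nat_lit 1) (nat_lit 4) (nat_lit 2) (nat_lit 5) (nat_lit 2) (nat_lit 4) (nat_lit 230) (nat_lit 197) (nat_lit 173))))))))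
noncomputable def xc20 : XT := (XT.nd (nat_lit 1404) (nat_lit 0) (nat_lit 0) (XT.nd (nat_lit 702) (nat_lit 0) (nat_lit 0) (XT.nd (nat_lit 312) (nat_lit 0) (nat_lit 0) (XT.nd (nat_lit 156) (nat_lit 0) (nat_lit 0) (XT.nd (nat_lit 78) (nat_lit 0) (nat_lit 0) (XT.lf (nat_lit 0) (nat_lit 20268735413) (nat_lit 76) (nat_lit 51405479736) (nat_lit 76) (nat_lit 40412885304) (nat_lit 1) (nat_lit 4) (nat_lit 2) (nat_lit 5) (nat_lit 2) (nat_lit 4) (nat_lit 231) (nat_lit 197) (nat_lit 172)) (XT.lf (nat_lit 0) (nat_lit 34814718315) (nat_lit 76) (nat_lit 52297906216) (nat_lit 76) (nat_lit 41260391242) (nat_lit 1) (nat_lit 4) (nat_lit 2) (nat_lit 5) (nat_lit 2) (nat_lit 4) (nat_lit 232) (nat_lit 197) (nat_lit 171))) (XT.nd (nat_lit 78) (nat_lit 0) (nat_lit 0) (XT.lf (nat_lit 0) (nat_lit 51461947584) (nat_lit 76) (nat_lit 53360071137) (nat_lit 76) (nat_lit 42283494821) (nat_lit 1) (nat_lit 4) (nat_lit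 2) (nat_lit 5) (nat_lit 2) (nat_lit 4) (nat_lit 233) (nat_lit 197) (nat_lit 170)) (XT.lf (nat_lit 0) (nat_lit 70536129880) (nat_lit 76) (nat_lit 54612755985) (nat_lit 76) (nat_lit 43502213285) (nat_lit 1) (nat_lit 4) (nat_lit 2) (nat_lit 5) (nat_lit 2) (nat_lit 4) (nat_lit 234) (nat_lit 197) (nat_lit 169)))) (XT.nd (nat_lit 156) (nat_lit 0) (nat_lit 0) (XT.nd (nat_lit 78) (nat_lit 0) (nat_lit 0) (XT.lf (nat_lit 0) (nat_lit 92410455726) (nat_lit 76) (nat_lit 56080469812) (nat_lit 76) (nat_lit 44940391127) (nat_lit 1) (nat_lit 4) (nat_lit 2) (nat_lit 5) (nat_lit 2) (nat_lit 4) (nat_lit 235) (nat_lit 197) (nat_lit 168)) (XT.lf (nat_lit 0) (nat_lit 117512901062) (nat_lit 76) (nat_lit 57791928758) (nat_lit 76) (nat_lit 46626166607) (nat_lit 1) (nat_lit 4) (nat_lit 2) (nat_lit 5) (nat_lit 2) (nat_lit 4) (nat_lit 236) (nat_lit 197) (nat_lit 167))) (XT.nd (nat_lit 78) (nat_lit 0) (nat_lit 0)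 (XT.lf (nat_lit 0) (nat_lit 146334600688) (nat_lit 76) (nat_lit 59780617890) (nat_lit 76) (nat_lit 48592522290) (nat_lit 1) (nat_lit 4) (nat_lit 2) (nat_lit 5) (nat_lit 2) (nat_lit 4) (nat_lit 237) (nat_lit 197) (nat_lit 166)) (XT.nd (nat_lit 78) (nat_lit 0) (nat_lit 0) (XT.lf (nat_lit 0) (nat_lit 179439457424) (nat_lit 76) (nat_lit 62085446342) (nat_lit 76) (nat_lit 50877930352) (nat_lit 1) (nat_lit 4) (nat_lit 2) (nat_lit 5) (nat_lit 2) (nat_lit 4) (nat_lit 238) (nat_lit 197) (nat_lit 165)) (XT.lf (nat_lit 0) (nat_lit 217475174988) (nat_lit 76) (nat_lit 64751508585) (nat_lit 76) (nat_lit 53527105299) (nat_lit 1) (nat_lit 4) (nat_lit 2) (nat_lit 5) (nat_lit 2) (nat_lit 4) (nat_lit 239) (nat_lit 197) (nat_lit 164)))))) (XT.nd (nat_lit 312) (nat_lit 0) (nat_lit 0) (XT.nd (nat_lit 156) (nat_lit 0) (nat_lit 0) (XT.nd (nat_lit 78) (nat_lit 0) (nat_lit 0) (XT.lf (nat_lit 0) (nat_lit 261185930462)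 (nat_lit 76) (nat_lit 67830966705) (nat_lit 76) (nat_lit 56591878815) (nat_lit 1) (nat_lit 4) (nat_lit 2) (nat_lit 5) (nat_lit 2) (nat_lit 4) (nat_lit 240) (nat_lit 197) (nat_lit 163)) (XT.lf (nat_lit 0) (nat_lit 311426934281) (nat_lit 76) (nat_lit 71384070971) (nat_lit 76) (nat_lit 60132213859) (nat_lit 1) (nat_lit 4) (nat_lit 2) (nat_lit 5) (nat_lit 2) (nat_lit 4) (nat_lit 241) (nat_lit 197) (nat_lit 162))) (XT.nd (nat_lit 78) (nat_lit 0) (nat_lit 0) (XT.lf (nat_lit 0) (nat_lit 369181162605) (nat_lit 76) (nat_lit 75480338639) (nat_lit 76) (nat_lit 64217377856) (nat_lit 1) (nat_lit 4) (nat_lit 2) (nat_lit 5) (nat_lit 2) (nat_lit 4) (nat_lit 242) (nat_lit 197) (nat_lit 161)) (XT.lf (nat_lit 0) (nat_lit 435578589467) (nat_lit 76) (nat_lit 80199914078) (nat_lit 76) (nat_lit 68927297928) (nat_lit 1) (nat_lit 4) (nat_lit 2) (nat_lit 5) (nat_lit 2) (nat_lit 4) (nat_lit 243) (nat_lit 197)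 (nat_lit 160)))) (XT.nd (nat_lit 156) (nat_lit 0) (nat_lit 0) (XT.nd (nat_lit 78) (nat_lit 0) (nat_lit 0) (XT.lf (nat_lit 0) (nat_lit 511918294957) (nat_lit 76) (nat_lit 85635136806) (nat_lit 76) (nat_lit 74354124686) (nat_lit 1) (nat_lit 4) (nat_lit 2) (nat_lit 5) (nat_lit 2) (nat_lit 4) (nat_lit 244) (nat_lit 197) (nat_lit 159)) (XT.lf (nat_lit 0) (nat_lit 599693882010) (nat_lit 76) (nat_lit 91892348137) (nat_lit 76) (nat_lit 80604035173) (nat_lit 1) (nat_lit 4) (nat_lit 2) (nat_lit 5) (nat_lit 2) (nat_lit 4) (nat_lit 245) (nat_lit 197) (nat_lit 158))) (XT.nd (nat_lit 78) (nat_lit 0) (nat_lit 0) (XT.lf (nat_lit 0) (nat_lit 700622699068) (nat_lit 76) (nat_lit 99093971773) (nat_lit 76) (nat_lit 87799310249) (nat_lit 1) (nat_lit 4) (nat_lit 2) (nat_lit 5) (nat_lit 2) (nat_lit 4) (nat_lit 246) (nat_lit 197) (nat_lit 157)) (XT.nd (nat_lit 78) (nat_lit 0) (nat_lit 0) (XT.lf (nat_lit 0) (nat_lit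 816679440377) (nat_lit 76) (nat_lit 107380909044) (nat_lit 76) (nat_lit 96080727033) (nat_lit 1) (nat_lit 4) (nat_lit 2) (nat_lit 5) (nat_lit 2) (nat_lit 4) (nat_lit 247) (nat_lit 197) (nat_lit 156)) (XT.lf (nat_lit 0) (nat_lit 950134781311) (nat_lit 76) (nat_lit 116915295680) (nat_lit 76) (nat_lit 105610313245) (nat_lit 1) (nat_lit 4) (nat_lit 2) (nat_lit 5) (nat_lit 2) (nat_lit 4) (nat_lit 248) (nat_lit 197) (nat_lit 155))))))) (XT.nd (nat_lit 702) (nat_lit 0) (nat_lit 0) (XT.nd (nat_lit 312) (nat_lit 0) (nat_lit 0) (XT.nd (nat_lit 156) (nat_lit 0) (nat_lit 0) (XT.nd (nat_lit 78) (nat_lit 0) (nat_lit 0) (XT.lf (nat_lit 0) (nat_lit 1103599804627) (nat_lit 76) (nat_lit 127883674028) (nat_lit 76) (nat_lit 116574517312) (nat_lit 1) (nat_lit 4) (nat_lit 2) (nat_lit 5) (nat_lit 2) (nat_lit 4) (nat_lit 249) (nat_lit 197) (nat_lit 154)) (XT.lf (nat_lit 0) (nat_lit 1280077086869) (nat_lit 76)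 (nat_lit 140500642795) (nat_lit 76) (nat_lit 129187856270) (nat_lit 1) (nat_lit 4) (nat_lit 2) (nat_lit 5) (nat_lit 2) (nat_lit 4) (nat_lit 250) (nat_lit 197) (nat_lit 153))) (XT.nd (nat_lit 78) (nat_lit 0) (nat_lit 0) (XT.lf (nat_lit 0) (nat_lit 1483019444428) (nat_lit 76) (nat_lit 155013055718) (nat_lit 76) (nat_lit 143697112836) (nat_lit 1) (nat_lit 4) (nat_lit 2) (nat_lit 5) (nat_lit 2) (nat_lit 4) (nat_lit 251) (nat_lit 197) (nat_lit 152)) (XT.lf (nat_lit 0) (nat_lit 1716397488647) (nat_lit 76) (nat_lit 171704851311) (nat_lit 76) (nat_lit 160386163771) (nat_lit 1) (nat_lit 4) (nat_lit 2) (nat_lit 5) (nat_lit 2) (nat_lit 4) (nat_lit 252) (nat_lit 197) (nat_lit 151)))) (XT.nd (nat_lit 156) (nat_lit 0) (nat_lit 0) (XT.nd (nat_lit 78) (nat_lit 0) (nat_lit 0) (XT.lf (nat_lit 0) (nat_lit 1984777311697) (nat_lit 76) (nat_lit 190902608182) (nat_lit 76) (nat_lit 179581533984) (nat_lit 1)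 (nat_lit 4) (nat_lit 2) (nat_lit 5) (nat_lit 2) (nat_lit 4) (nat_lit 253) (nat_lit 197) (nat_lit 150)) (XT.lf (nat_lit 0) (nat_lit 2293409823158) (nat_lit 76) (nat_lit 212981934619) (nat_lit 76) (nat_lit 201658785065) (nat_lit 1) (nat_lit 4) (nat_lit 2) (nat_lit 5) (nat_lit 2) (nat_lit 4) (nat_lit 254) (nat_lit 197) (nat_lit 149))) (XT.nd (nat_lit 78) (nat_lit 0) (nat_lit 0) (XT.lf (nat_lit 0) (nat_lit 2648333485211) (nat_lit 76) (nat_lit 238374817442) (nat_lit 76) (nat_lit 227049863232) (nat_lit 1) (nat_lit 4) (nat_lit 2) (nat_lit 5) (nat_lit 2) (nat_lit 4) (nat_lit 255) (nat_lit 197) (nat_lit 148)) (XT.nd (nat_lit 78) (nat_lit 0) (nat_lit 0) (XT.lf (nat_lit 0) (nat_lit 3056492456462) (nat_lit 76) (nat_lit 267578073926) (nat_lit 76) (nat_lit 256251550448) (nat_lit 1) (nat_lit 4) (nat_lit 2) (nat_lit 5) (nat_lit 2) (nat_lit 4) (nat_lit 256) (nat_lit 197) (nat_lit 147)) (XT.lf (nat_lit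 0) (nat_lit 3525872455914) (nat_lit 76) (nat_lit 301163072131) (nat_lit 76) (nat_lit 289835184073) (nat_lit 1) (nat_lit 4) (nat_lit 2) (nat_lit 5) (nat_lit 2) (nat_lit 4) (nat_lit 257) (nat_lit 197) (nat_lit 146)))))) (XT.nd (nat_lit 27300) (nat_lit 0) (nat_lit 1140) (XT.nd (nat_lit 27144) (nat_lit 0) (nat_lit 2508) (XT.nd (nat_lit 27066) (nat_lit 0) (nat_lit 3344) (XT.lf (nat_lit 0) (nat_lit 4065657005294) (nat_lit 76) (nat_lit 339786909848) (nat_lit 76) (nat_lit 328457835199) (nat_lit 1) (nat_lit 4) (nat_lit 2) (nat_lit 5) (nat_lit 2) (nat_lit 4) (nat_lit 258) (nat_lit 197) (nat_lit 145)) (XT.lf (nat_lit 0) (nat_lit 2330324054) (nat_lit 228) (nat_lit 551984848) (nat_lit 228) (nat_lit 551984848) (nat_lit 45) (nat_lit 4) (nat_lit 48) (nat_lit 5) (nat_lit 48) (nat_lit 4) (nat_lit 204) (nat_lit 198) (nat_lit 198))) (XT.nd (nat_lit 78) (nat_lit 456) (nat_lit 0) (XT.lf (nat_lit 0) (nat_lit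 4042044779) (nat_lit 380) (nat_lit 1957402991) (nat_lit 0) (nat_lit 1127604709) (nat_lit 40) (nat_lit 5) (nat_lit 45) (nat_lit 4) (nat_lit 40) (nat_lit 4) (nat_lit 205) (nat_lit 198) (nat_lit 197)) (XT.lf (nat_lit 0) (nat_lit 1829540765) (nat_lit 456) (nat_lit 1643290991) (nat_lit 76) (nat_lit 3992743543) (nat_lit 34) (nat_lit 5) (nat_lit 40) (nat_lit 5) (nat_lit 35) (nat_lit 4) (nat_lit 206) (nat_lit 198) (nat_lit 196)))) (XT.nd (nat_lit 156) (nat_lit 608) (nat_lit 0) (XT.nd (nat_lit 78) (nat_lit 304) (nat_lit 0) (XT.lf (nat_lit 0) (nat_lit 6571671669) (nat_lit 456) (nat_lit 266858549) (nat_lit 532) (nat_lit 1052645960) (nat_lit 28) (nat_lit 5) (nat_lit 34) (nat_lit 5) (nat_lit 35) (nat_lit 4) (nat_lit 207) (nat_lit 198) (nat_lit 195)) (XT.lf (nat_lit 0) (nat_lit 3692629954) (nat_lit 304) (nat_lit 1179295289) (nat_lit 76) (nat_lit 3530498274) (nat_lit 24) (nat_lit 5) (nat_lit 28) (nat_lit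 5) (nat_lit 25) (nat_lit 4) (nat_lit 208) (nat_lit 198) (nat_lit 194))) (XT.nd (nat_lit 78) (nat_lit 456) (nat_lit 0) (XT.lf (nat_lit 0) (nat_lit 7818466072) (nat_lit 152) (nat_lit 941793351) (nat_lit 228) (nat_lit 258213620) (nat_lit 22) (nat_lit 5) (nat_lit 24) (nat_lit 5) (nat_lit 25) (nat_lit 4) (nat_lit 209) (nat_lit 198) (nat_lit 193)) (XT.nd (nat_lit 78) (nat_lit 152) (nat_lit 0) (XT.lf (nat_lit 0) (nat_lit 4419741383) (nat_lit 304) (nat_lit 1681505146) (nat_lit 76) (nat_lit 3635514104) (nat_lit 18) (nat_lit 5) (nat_lit 22) (nat_lit 5) (nat_lit 19) (nat_lit 4) (nat_lit 210) (nat_lit 198) (nat_lit 192)) (XT.lf (nat_lit 0) (nat_lit 7943777082) (nat_lit 152) (nat_lit 1622850372) (nat_lit 228) (nat_lit 1015919307) (nat_lit 16) (nat_lit 5) (nat_lit 18) (nat_lit 5) (nat_lit 19) (nat_lit 4) (nat_lit 211) (nat_lit 198) (nat_lit 191))))))))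
noncomputable def xc21 : XT := (XT.nd (nat_lit 1404) (nat_lit 76) (nat_lit 0) (XT.nd (nat_lit 702) (nat_lit 228) (nat_lit 0) (XT.nd (nat_lit 312) (nat_lit 304) (nat_lit 0) (XT.nd (nat_lit 156) (nat_lit 228) (nat_lit 0) (XT.nd (nat_lit 78) (nat_lit 76) (nat_lit 0) (XT.lf (nat_lit 0) (nat_lit 3610149234) (nat_lit 228) (nat_lit 4429915379) (nat_lit 76) (nat_lit 3519791165) (nat_lit 13) (nat_lit 5) (nat_lit 16) (nat_lit 5) (nat_lit 14) (nat_lit 4) (nat_lit 212) (nat_lit 198) (nat_lit 190)) (XT.lf (nat_lit 0) (nat_lit 5462920420) (nat_lit 76) (nat_lit 3267011534) (nat_lit 152) (nat_lit 3964947837) (nat_lit 12) (nat_lit 5) (nat_lit 13) (nat_lit 5) (nat_lit 14) (nat_lit 4) (nat_lit 213) (nat_lit 198) (nat_lit 189))) (XT.nd (nat_lit 78) (nat_lit 0) (nat_lit 0) (XT.lf (nat_lit 0) (nat_lit 469074843) (nat_lit 228) (nat_lit 11388214029) (nat_lit 76) (nat_lit 2152716563) (nat_lit 9) (nat_lit 5)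 (nat_lit 12) (nat_lit 5) (nat_lit 10) (nat_lit 4) (nat_lit 214) (nat_lit 198) (nat_lit 188)) (XT.lf (nat_lit 0) (nat_lit 5309388416) (nat_lit 228) (nat_lit 1849880986) (nat_lit 76) (nat_lit 8358233787) (nat_lit 9) (nat_lit 5) (nat_lit 12) (nat_lit 5) (nat_lit 10) (nat_lit 4) (nat_lit 215) (nat_lit 198) (nat_lit 187)))) (XT.nd (nat_lit 156) (nat_lit 152) (nat_lit 0) (XT.nd (nat_lit 78) (nat_lit 76) (nat_lit 0) (XT.lf (nat_lit 0) (nat_lit 9113909324) (nat_lit 76) (nat_lit 1687903025) (nat_lit 152) (nat_lit 6456461802) (nat_lit 8) (nat_lit 5) (nat_lit 9) (nat_lit 5) (nat_lit 10) (nat_lit 4) (nat_lit 216) (nat_lit 198) (nat_lit 186)) (XT.lf (nat_lit 0) (nat_lit 2132310762) (nat_lit 76) (nat_lit 14934233279) (nat_lit 76) (nat_lit 2198813885) (nat_lit 7) (nat_lit 4) (nat_lit 8) (nat_lit 5) (nat_lit 8) (nat_lit 4) (nat_lit 217) (nat_lit 198) (nat_lit 185))) (XT.nd (nat_lit 78) (nat_lit 76)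 (nat_lit 0) (XT.lf (nat_lit 0) (nat_lit 2601827554) (nat_lit 152) (nat_lit 7645995361) (nat_lit 76) (nat_lit 11318212260) (nat_lit 6) (nat_lit 5) (nat_lit 8) (nat_lit 5) (nat_lit 7) (nat_lit 4) (nat_lit 218) (nat_lit 198) (nat_lit 184)) (XT.nd (nat_lit 78) (nat_lit 0) (nat_lit 0) (XT.lf (nat_lit 0) (nat_lit 2989884501) (nat_lit 76) (nat_lit 4860119943) (nat_lit 152) (nat_lit 16369380954) (nat_lit 5) (nat_lit 5) (nat_lit 6) (nat_lit 5) (nat_lit 7) (nat_lit 4) (nat_lit 219) (nat_lit 198) (nat_lit 183)) (XT.lf (nat_lit 0) (nat_lit 13945144957) (nat_lit 152) (nat_lit 11952144834) (nat_lit 0) (nat_lit 1369322472) (nat_lit 5) (nat_lit 5) (nat_lit 7) (nat_lit 4) (nat_lit 5) (nat_lit 4) (nat_lit 220) (nat_lit 198) (nat_lit 182)))))) (XT.nd (nat_lit 312) (nat_lit 76) (nat_lit 0) (XT.nd (nat_lit 156) (nat_lit 76) (nat_lit 0) (XT.nd (nat_lit 78) (nat_lit 76) (nat_lit 0) (XT.lf (nat_lit 0) (nat_lit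 20914389075) (nat_lit 152) (nat_lit 1718015719) (nat_lit 0) (nat_lit 8142299650) (nat_lit 5) (nat_lit 5) (nat_lit 7) (nat_lit 4) (nat_lit 5) (nat_lit 4) (nat_lit 221) (nat_lit 198) (nat_lit 181)) (XT.lf (nat_lit 0) (nat_lit 10305529742) (nat_lit 76) (nat_lit 18719524068) (nat_lit 76) (nat_lit 5776767739) (nat_lit 4) (nat_lit 4) (nat_lit 5) (nat_lit 5) (nat_lit 5) (nat_lit 4) (nat_lit 222) (nat_lit 198) (nat_lit 180))) (XT.nd (nat_lit 78) (nat_lit 76) (nat_lit 0) (XT.lf (nat_lit 0) (nat_lit 23997529075) (nat_lit 76) (nat_lit 14267044240) (nat_lit 76) (nat_lit 1175881907) (nat_lit 4) (nat_lit 4) (nat_lit 5) (nat_lit 5) (nat_lit 5) (nat_lit 4) (nat_lit 223) (nat_lit 198) (nat_lit 179)) (XT.lf (nat_lit 0) (nat_lit 3786020721) (nat_lit 152) (nat_lit 5345287931) (nat_lit 76) (nat_lit 35645864324) (nat_lit 3) (nat_lit 5) (nat_lit 5) (nat_lit 5) (nat_lit 4) (nat_lit 4) (nat_lit 224) (nat_lit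 198) (nat_lit 178)))) (XT.nd (nat_lit 156) (nat_lit 0) (nat_lit 0) (XT.nd (nat_lit 78) (nat_lit 0) (nat_lit 0) (XT.lf (nat_lit 0) (nat_lit 6366185863) (nat_lit 76) (nat_lit 3104301230) (nat_lit 152) (nat_lit 41437936255) (nat_lit 2) (nat_lit 5) (nat_lit 3) (nat_lit 5) (nat_lit 4) (nat_lit 4) (nat_lit 225) (nat_lit 198) (nat_lit 177)) (XT.lf (nat_lit 0) (nat_lit 16160237026) (nat_lit 152) (nat_lit 38062130903) (nat_lit 0) (nat_lit 3725045686) (nat_lit 2) (nat_lit 5) (nat_lit 4) (nat_lit 4) (nat_lit 2) (nat_lit 4) (nat_lit 226) (nat_lit 198) (nat_lit 176))) (XT.nd (nat_lit 78) (nat_lit 0) (nat_lit 0) (XT.lf (nat_lit 0) (nat_lit 23853146358) (nat_lit 152) (nat_lit 30849968930) (nat_lit 0) (nat_lit 11339388709) (nat_lit 2) (nat_lit 5) (nat_lit 4) (nat_lit 4) (nat_lit 2) (nat_lit 4) (nat_lit 227) (nat_lit 198) (nat_lit 175)) (XT.nd (nat_lit 78) (nat_lit 0) (nat_lit 0) (XT.lf (nat_lit 0) (nat_lit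 32625070015) (nat_lit 152) (nat_lit 22689985530) (nat_lit 0) (nat_lit 20042993835) (nat_lit 2) (nat_lit 5) (nat_lit 4) (nat_lit 4) (nat_lit 2) (nat_lit 4) (nat_lit 228) (nat_lit 198) (nat_lit 174)) (XT.lf (nat_lit 0) (nat_lit 42647632589) (nat_lit 152) (nat_lit 13422528853) (nat_lit 0) (nat_lit 30006148992) (nat_lit 2) (nat_lit 5) (nat_lit 4) (nat_lit 4) (nat_lit 2) (nat_lit 4) (nat_lit 229) (nat_lit 198) (nat_lit 173))))))) (XT.nd (nat_lit 702) (nat_lit 0) (nat_lit 0) (XT.nd (nat_lit 312) (nat_lit 0) (nat_lit 0) (XT.nd (nat_lit 156) (nat_lit 0) (nat_lit 0) (XT.nd (nat_lit 78) (nat_lit 76) (nat_lit 0) (XT.lf (nat_lit 0) (nat_lit 54116927696) (nat_lit 152) (nat_lit 2866279095) (nat_lit 0) (nat_lit 41423785475) (nat_lit 2) (nat_lit 5) (nat_lit 4) (nat_lit 4) (nat_lit 2) (nat_lit 4) (nat_lit 230) (nat_lit 198) (nat_lit 172)) (XT.lf (nat_lit 0) (nat_lit 9668980636) (nat_lit 76) (nat_lit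 57820913168) (nat_lit 76) (nat_lit 45082850405) (nat_lit 1) (nat_lit 4) (nat_lit 2) (nat_lit 5) (nat_lit 2) (nat_lit 4) (nat_lit 231) (nat_lit 198) (nat_lit 171))) (XT.nd (nat_lit 78) (nat_lit 0) (nat_lit 0) (XT.lf (nat_lit 0) (nat_lit 24177451413) (nat_lit 76) (nat_lit 58730025448) (nat_lit 76) (nat_lit 45952901344) (nat_lit 1) (nat_lit 4) (nat_lit 2) (nat_lit 5) (nat_lit 2) (nat_lit 4) (nat_lit 232) (nat_lit 198) (nat_lit 170)) (XT.lf (nat_lit 0) (nat_lit 40792061443) (nat_lit 76) (nat_lit 59806699759) (nat_lit 76) (nat_lit 46995609271) (nat_lit 1) (nat_lit 4) (nat_lit 2) (nat_lit 5) (nat_lit 2) (nat_lit 4) (nat_lit 233) (nat_lit 198) (nat_lit 169)))) (XT.nd (nat_lit 156) (nat_lit 0) (nat_lit 0) (XT.nd (nat_lit 78) (nat_lit 0) (nat_lit 0) (XT.lf (nat_lit 0) (nat_lit 59837879183) (nat_lit 76) (nat_lit 61072001468) (nat_lit 76) (nat_lit 48231374995) (nat_lit 1) (nat_lit 4) (nat_lit 2)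 (nat_lit 5) (nat_lit 2) (nat_lit 4) (nat_lit 234) (nat_lit 198) (nat_lit 168)) (XT.lf (nat_lit 0) (nat_lit 81687540198) (nat_lit 76) (nat_lit 62550686479) (nat_lit 76) (nat_lit 49684376540) (nat_lit 1) (nat_lit 4) (nat_lit 2) (nat_lit 5) (nat_lit 2) (nat_lit 4) (nat_lit 235) (nat_lit 198) (nat_lit 167))) (XT.nd (nat_lit 78) (nat_lit 0) (nat_lit 0) (XT.lf (nat_lit 0) (nat_lit 106768537855) (nat_lit 76) (nat_lit 64271685585) (nat_lit 76) (nat_lit 51383042197) (nat_lit 1) (nat_lit 4) (nat_lit 2) (nat_lit 5) (nat_lit 2) (nat_lit 4) (nat_lit 236) (nat_lit 198) (nat_lit 166)) (XT.nd (nat_lit 78) (nat_lit 0) (nat_lit 0) (XT.lf (nat_lit 0) (nat_lit 135571587326) (nat_lit 76) (nat_lit 66268670508) (nat_lit 76) (nat_lit 53360606730) (nat_lit 1) (nat_lit 4) (nat_lit 2) (nat_lit 5) (nat_lit 2) (nat_lit 4) (nat_lit 237) (nat_lit 198) (nat_lit 165)) (XT.lf (nat_lit 0) (nat_lit 168660226535) (nat_lit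 76) (nat_lit 68580712692) (nat_lit 76) (nat_lit 55655761618) (nat_lit 1) (nat_lit 4) (nat_lit 2) (nat_lit 5) (nat_lit 2) (nat_lit 4) (nat_lit 238) (nat_lit 198) (nat_lit 164)))))) (XT.nd (nat_lit 390) (nat_lit 0) (nat_lit 0) (XT.nd (nat_lit 156) (nat_lit 0) (nat_lit 0) (XT.nd (nat_lit 78) (nat_lit 0) (nat_lit 0) (XT.lf (nat_lit 0) (nat_lit 206681841901) (nat_lit 76) (nat_lit 71253047744) (nat_lit 76) (nat_lit 58313412065) (nat_lit 1) (nat_lit 4) (nat_lit 2) (nat_lit 5) (nat_lit 2) (nat_lit 4) (nat_lit 239) (nat_lit 198) (nat_lit 163)) (XT.lf (nat_lit 0) (nat_lit 250380334596) (nat_lit 76) (nat_lit 74337960482) (nat_lit 76) (nat_lit 61385555581) (nat_lit 1) (nat_lit 4) (nat_lit 2) (nat_lit 5) (nat_lit 2) (nat_lit 4) (nat_lit 240) (nat_lit 198) (nat_lit 162))) (XT.nd (nat_lit 78) (nat_lit 0) (nat_lit 0) (XT.lf (nat_lit 0) (nat_lit 300610675127) (nat_lit 76) (nat_lit 77895807893) (nat_lit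 76) (nat_lit 64932299321) (nat_lit 1) (nat_lit 4) (nat_lit 2) (nat_lit 5) (nat_lit 2) (nat_lit 4) (nat_lit 241) (nat_lit 198) (nat_lit 161)) (XT.nd (nat_lit 78) (nat_lit 0) (nat_lit 0) (XT.lf (nat_lit 0) (nat_lit 358355631028) (nat_lit 76) (nat_lit 81996200036) (nat_lit 76) (nat_lit 69023036098) (nat_lit 1) (nat_lit 4) (nat_lit 2) (nat_lit 5) (nat_lit 2) (nat_lit 4) (nat_lit 242) (nat_lit 198) (nat_lit 160)) (XT.lf (nat_lit 0) (nat_lit 424744994912) (nat_lit 76) (nat_lit 86719361974) (nat_lit 76) (nat_lit 73737802065) (nat_lit 1) (nat_lit 4) (nat_lit 2) (nat_lit 5) (nat_lit 2) (nat_lit 4) (nat_lit 243) (nat_lit 198) (nat_lit 159))))) (XT.nd (nat_lit 156) (nat_lit 0) (nat_lit 0) (XT.nd (nat_lit 78) (nat_lit 0) (nat_lit 0) (XT.lf (nat_lit 0) (nat_lit 501077689119) (nat_lit 76) (nat_lit 92157703397) (nat_lit 76) (nat_lit 79168842644) (nat_lit 1) (nat_lit 4) (nat_lit 2) (nat_lit 5) (nat_lit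 2) (nat_lit 4) (nat_lit 244) (nat_lit 198) (nat_lit 158)) (XT.lf (nat_lit 0) (nat_lit 588847179403) (nat_lit 76) (nat_lit 98417626637) (nat_lit 76) (nat_lit 85422417325) (nat_lit 1) (nat_lit 4) (nat_lit 2) (nat_lit 5) (nat_lit 2) (nat_lit 4) (nat_lit 245) (nat_lit 198) (nat_lit 157))) (XT.nd (nat_lit 78) (nat_lit 0) (nat_lit 0) (XT.lf (nat_lit 0) (nat_lit 689770694922) (nat_lit 76) (nat_lit 105621608454) (nat_lit 76) (nat_lit 92620878655) (nat_lit 1) (nat_lit 4) (nat_lit 2) (nat_lit 5) (nat_lit 2) (nat_lit 4) (nat_lit 246) (nat_lit 198) (nat_lit 156)) (XT.nd (nat_lit 78) (nat_lit 0) (nat_lit 0) (XT.lf (nat_lit 0) (nat_lit 805822826198) (nat_lit 76) (nat_lit 113910596318) (nat_lit 76) (nat_lit 100905066095) (nat_lit 1) (nat_lit 4) (nat_lit 2) (nat_lit 5) (nat_lit 2) (nat_lit 4) (nat_lit 247) (nat_lit 198) (nat_lit 155)) (XT.lf (nat_lit 0) (nat_lit 939274158408) (nat_lit 76) (nat_lit 123446766078)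 (nat_lit 76) (nat_lit 110437061574) (nat_lit 1) (nat_lit 4) (nat_lit 2) (nat_lit 5) (nat_lit 2) (nat_lit 4) (nat_lit 248) (nat_lit 198) (nat_lit 154))))))))
noncomputable def xc22 : XT := (XT.nd (nat_lit 28236) (nat_lit 0) (nat_lit 76) (XT.nd (nat_lit 702) (nat_lit 0) (nat_lit 0) (XT.nd (nat_lit 312) (nat_lit 0) (nat_lit 0) (XT.nd (nat_lit 156) (nat_lit 0) (nat_lit 0) (XT.nd (nat_lit 78) (nat_lit 0) (nat_lit 0) (XT.lf (nat_lit 0) (nat_lit 1092735695876) (nat_lit 76) (nat_lit 134416694969) (nat_lit 76) (nat_lit 121403360655) (nat_lit 1) (nat_lit 4) (nat_lit 2) (nat_lit 5) (nat_lit 2) (nat_lit 4) (nat_lit 249) (nat_lit 198) (nat_lit 153)) (XT.lf (nat_lit 0) (nat_lit 1269209946946) (nat_lit 76) (nat_lit 147035012034) (nat_lit 76) (nat_lit 134018521364) (nat_lit 1) (nat_lit 4) (nat_lit 2) (nat_lit 5) (nat_lit 2) (nat_lit 4) (nat_lit 250) (nat_lit 198) (nat_lit 152))) (XT.nd (nat_lit 78)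 (nat_lit 0) (nat_lit 0) (XT.lf (nat_lit 0) (nat_lit 1472149668704) (nat_lit 76) (nat_lit 161548597390) (nat_lit 76) (nat_lit 148529362062) (nat_lit 1) (nat_lit 4) (nat_lit 2) (nat_lit 5) (nat_lit 2) (nat_lit 4) (nat_lit 251) (nat_lit 198) (nat_lit 151)) (XT.lf (nat_lit 0) (nat_lit 1705525420922) (nat_lit 76) (nat_lit 178241412490) (nat_lit 76) (nat_lit 165219790503) (nat_lit 1) (nat_lit 4) (nat_lit 2) (nat_lit 5) (nat_lit 2) (nat_lit 4) (nat_lit 252) (nat_lit 198) (nat_lit 150)))) (XT.nd (nat_lit 156) (nat_lit 0) (nat_lit 0) (XT.nd (nat_lit 78) (nat_lit 0) (nat_lit 0) (XT.lf (nat_lit 0) (nat_lit 1973903250927) (nat_lit 76) (nat_lit 197440055889) (nat_lit 76) (nat_lit 184416358546) (nat_lit 1) (nat_lit 4) (nat_lit 2) (nat_lit 5) (nat_lit 2) (nat_lit 4) (nat_lit 253) (nat_lit 198) (nat_lit 149)) (XT.lf (nat_lit 0) (nat_lit 2282534029306) (nat_lit 76) (nat_lit 219520153219) (nat_lit 76)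 (nat_lit 206494651220) (nat_lit 1) (nat_lit 4) (nat_lit 2) (nat_lit 5) (nat_lit 2) (nat_lit 4) (nat_lit 254) (nat_lit 198) (nat_lit 148))) (XT.nd (nat_lit 78) (nat_lit 0) (nat_lit 0) (XT.lf (nat_lit 0) (nat_lit 2637456184331) (nat_lit 76) (nat_lit 244913706385) (nat_lit 76) (nat_lit 231886635119) (nat_lit 1) (nat_lit 4) (nat_lit 2) (nat_lit 5) (nat_lit 2) (nat_lit 4) (nat_lit 255) (nat_lit 198) (nat_lit 147)) (XT.nd (nat_lit 78) (nat_lit 0) (nat_lit 0) (XT.lf (nat_lit 0) (nat_lit 3045613845123) (nat_lit 76) (nat_lit 274117545775) (nat_lit 76) (nat_lit 261089109929) (nat_lit 1) (nat_lit 4) (nat_lit 2) (nat_lit 5) (nat_lit 2) (nat_lit 4) (nat_lit 256) (nat_lit 198) (nat_lit 146)) (XT.lf (nat_lit 0) (nat_lit 3514992705045) (nat_lit 76) (nat_lit 307703050855) (nat_lit 76) (nat_lit 294673428418) (nat_lit 1) (nat_lit 4) (nat_lit 2) (nat_lit 5) (nat_lit 2) (nat_lit 4) (nat_lit 257) (nat_lit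 198) (nat_lit 145)))))) (XT.nd (nat_lit 27144) (nat_lit 0) (nat_lit 1520) (XT.nd (nat_lit 26988) (nat_lit 0) (nat_lit 3268) (XT.nd (nat_lit 26910) (nat_lit 0) (nat_lit 3800) (XT.lf (nat_lit 0) (nat_lit 4054776263530) (nat_lit 76) (nat_lit 346327329333) (nat_lit 76) (nat_lit 333296675077) (nat_lit 1) (nat_lit 4) (nat_lit 2) (nat_lit 5) (nat_lit 2) (nat_lit 4) (nat_lit 258) (nat_lit 198) (nat_lit 144)) (XT.lf (nat_lit 0) (nat_lit 2313241298) (nat_lit 76) (nat_lit 479447804) (nat_lit 76) (nat_lit 479447804) (nat_lit 51) (nat_lit 4) (nat_lit 52) (nat_lit 5) (nat_lit 52) (nat_lit 4) (nat_lit 202) (nat_lit 199) (nat_lit 199))) (XT.nd (nat_lit 78) (nat_lit 304) (nat_lit 0) (XT.lf (nat_lit 0) (nat_lit 3982584828) (nat_lit 228) (nat_lit 2340002524) (nat_lit 0) (nat_lit 362850261) (nat_lit 48) (nat_lit 5) (nat_lit 51) (nat_lit 4) (nat_lit 48) (nat_lit 4) (nat_lit 203) (nat_lit 199) (nat_lit 198))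 (XT.lf (nat_lit 0) (nat_lit 2002045972) (nat_lit 304) (nat_lit 2603074220) (nat_lit 76) (nat_lit 2293578822) (nat_lit 44) (nat_lit 5) (nat_lit 48) (nat_lit 5) (nat_lit 45) (nat_lit 4) (nat_lit 204) (nat_lit 199) (nat_lit 197)))) (XT.nd (nat_lit 156) (nat_lit 988) (nat_lit 0) (XT.nd (nat_lit 78) (nat_lit 456) (nat_lit 0) (XT.lf (nat_lit 0) (nat_lit 4450283869) (nat_lit 304) (nat_lit 2258683959) (nat_lit 380) (nat_lit 480192172) (nat_lit 40) (nat_lit 5) (nat_lit 44) (nat_lit 5) (nat_lit 45) (nat_lit 4) (nat_lit 205) (nat_lit 199) (nat_lit 196)) (XT.lf (nat_lit 0) (nat_lit 3912324274) (nat_lit 456) (nat_lit 2866442777) (nat_lit 76) (nat_lit 777988475) (nat_lit 34) (nat_lit 5) (nat_lit 40) (nat_lit 5) (nat_lit 35) (nat_lit 4) (nat_lit 206) (nat_lit 199) (nat_lit 195))) (XT.nd (nat_lit 78) (nat_lit 456) (nat_lit 0) (XT.lf (nat_lit 0) (nat_lit 567607428) (nat_lit 532) (nat_lit 3041296064)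 (nat_lit 76) (nat_lit 4399807733) (nat_lit 27) (nat_lit 5) (nat_lit 34) (nat_lit 5) (nat_lit 28) (nat_lit 5) (nat_lit 207) (nat_lit 199) (nat_lit 194)) (XT.nd (nat_lit 78) (nat_lit 228) (nat_lit 0) (XT.lf (nat_lit 0) (nat_lit 4872936775) (nat_lit 304) (nat_lit 3370503998) (nat_lit 76) (nat_lit 307398240) (nat_lit 24) (nat_lit 5) (nat_lit 28) (nat_lit 5) (nat_lit 25) (nat_lit 4) (nat_lit 208) (nat_lit 199) (nat_lit 193)) (XT.lf (nat_lit 0) (nat_lit 435468334) (nat_lit 228) (nat_lit 3978291739) (nat_lit 76) (nat_lit 4777148468) (nat_lit 21) (nat_lit 5) (nat_lit 24) (nat_lit 5) (nat_lit 22) (nat_lit 5) (nat_lit 209) (nat_lit 199) (nat_lit 192))))))) (XT.nd (nat_lit 702) (nat_lit 380) (nat_lit 0) (XT.nd (nat_lit 312) (nat_lit 380) (nat_lit 0) (XT.nd (nat_lit 156) (nat_lit 304) (nat_lit 0) (XT.nd (nat_lit 78) (nat_lit 152) (nat_lit 0) (XT.lf (nat_lit 0) (nat_lit 4725843334) (nat_lit 304)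 (nat_lit 4998515891) (nat_lit 76) (nat_lit 215659246) (nat_lit 18) (nat_lit 5) (nat_lit 22) (nat_lit 5) (nat_lit 19) (nat_lit 4) (nat_lit 210) (nat_lit 199) (nat_lit 191)) (XT.lf (nat_lit 0) (nat_lit 4183458421) (nat_lit 152) (nat_lit 5408401325) (nat_lit 228) (nat_lit 1217584942) (nat_lit 16) (nat_lit 5) (nat_lit 18) (nat_lit 5) (nat_lit 19) (nat_lit 4) (nat_lit 211) (nat_lit 199) (nat_lit 190))) (XT.nd (nat_lit 78) (nat_lit 76) (nat_lit 0) (XT.lf (nat_lit 0) (nat_lit 2777423176) (nat_lit 152) (nat_lit 268420468) (nat_lit 228) (nat_lit 8772058759) (nat_lit 13) (nat_lit 5) (nat_lit 15) (nat_lit 5) (nat_lit 16) (nat_lit 5) (nat_lit 212) (nat_lit 199) (nat_lit 189)) (XT.lf (nat_lit 0) (nat_lit 368788907) (nat_lit 76) (nat_lit 7507366262) (nat_lit 152) (nat_lit 5100748461) (nat_lit 12) (nat_lit 5) (nat_lit 13) (nat_lit 5) (nat_lit 14) (nat_lit 4) (nat_lit 213) (nat_lit 199) (nat_lit 188))))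 (XT.nd (nat_lit 156) (nat_lit 152) (nat_lit 0) (XT.nd (nat_lit 78) (nat_lit 228) (nat_lit 0) (XT.lf (nat_lit 0) (nat_lit 11266231363) (nat_lit 76) (nat_lit 2124021490) (nat_lit 152) (nat_lit 924295175) (nat_lit 12) (nat_lit 5) (nat_lit 13) (nat_lit 5) (nat_lit 14) (nat_lit 4) (nat_lit 214) (nat_lit 199) (nat_lit 187)) (XT.lf (nat_lit 0) (nat_lit 3695657694) (nat_lit 228) (nat_lit 8130422883) (nat_lit 76) (nat_lit 4019645138) (nat_lit 9) (nat_lit 5) (nat_lit 12) (nat_lit 5) (nat_lit 10) (nat_lit 4) (nat_lit 215) (nat_lit 199) (nat_lit 186))) (XT.nd (nat_lit 78) (nat_lit 76) (nat_lit 0) (XT.lf (nat_lit 0) (nat_lit 2306287808) (nat_lit 76) (nat_lit 6599515690) (nat_lit 152) (nat_lit 8703774359) (nat_lit 8) (nat_lit 5) (nat_lit 9) (nat_lit 5) (nat_lit 10) (nat_lit 4) (nat_lit 216) (nat_lit 199) (nat_lit 185)) (XT.nd (nat_lit 78) (nat_lit 76) (nat_lit 0) (XT.lf (nat_lit 0) (nat_lit 14433755824)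 (nat_lit 76) (nat_lit 469949347) (nat_lit 152) (nat_lit 4734736716) (nat_lit 8) (nat_lit 5) (nat_lit 9) (nat_lit 5) (nat_lit 10) (nat_lit 4) (nat_lit 217) (nat_lit 199) (nat_lit 184)) (XT.lf (nat_lit 0) (nat_lit 6228868599) (nat_lit 76) (nat_lit 15677184349) (nat_lit 76) (nat_lit 58012822) (nat_lit 7) (nat_lit 4) (nat_lit 8) (nat_lit 5) (nat_lit 8) (nat_lit 4) (nat_lit 218) (nat_lit 199) (nat_lit 183)))))) (XT.nd (nat_lit 390) (nat_lit 152) (nat_lit 0) (XT.nd (nat_lit 156) (nat_lit 76) (nat_lit 0) (XT.nd (nat_lit 78) (nat_lit 76) (nat_lit 0) (XT.lf (nat_lit 0) (nat_lit 5032999574) (nat_lit 152) (nat_lit 5394295951) (nat_lit 76) (nat_lit 14203341163) (nat_lit 6) (nat_lit 5) (nat_lit 8) (nat_lit 5) (nat_lit 7) (nat_lit 4) (nat_lit 219) (nat_lit 199) (nat_lit 182)) (XT.lf (nat_lit 0) (nat_lit 6549291437) (nat_lit 76) (nat_lit 4327725292) (nat_lit 152) (nat_lit 16821200826) (nat_lit 5) (nat_lit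 5) (nat_lit 6) (nat_lit 5) (nat_lit 7) (nat_lit 4) (nat_lit 220) (nat_lit 199) (nat_lit 181))) (XT.nd (nat_lit 78) (nat_lit 76) (nat_lit 0) (XT.lf (nat_lit 0) (nat_lit 17671567676) (nat_lit 152) (nat_lit 10932216203) (nat_lit 0) (nat_lit 2616730994) (nat_lit 5) (nat_lit 5) (nat_lit 7) (nat_lit 4) (nat_lit 5) (nat_lit 4) (nat_lit 221) (nat_lit 199) (nat_lit 180)) (XT.nd (nat_lit 78) (nat_lit 0) (nat_lit 0) (XT.lf (nat_lit 0) (nat_lit 494909157) (nat_lit 76) (nat_lit 24989976486) (nat_lit 76) (nat_lit 9786733800) (nat_lit 4) (nat_lit 4) (nat_lit 5) (nat_lit 5) (nat_lit 5) (nat_lit 4) (nat_lit 222) (nat_lit 199) (nat_lit 179)) (XT.lf (nat_lit 0) (nat_lit 14090198375) (nat_lit 76) (nat_lit 20578488626) (nat_lit 76) (nat_lit 5246197241) (nat_lit 4) (nat_lit 4) (nat_lit 5) (nat_lit 5) (nat_lit 5) (nat_lit 4) (nat_lit 223) (nat_lit 199) (nat_lit 178))))) (XT.nd (nat_lit 156) (nat_lit 76) (nat_lit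 0) (XT.nd (nat_lit 78) (nat_lit 76) (nat_lit 0) (XT.lf (nat_lit 0) (nat_lit 29543975108) (nat_lit 76) (nat_lit 15581914743) (nat_lit 76) (nat_lit 137407099) (nat_lit 4) (nat_lit 4) (nat_lit 5) (nat_lit 5) (nat_lit 5) (nat_lit 4) (nat_lit 224) (nat_lit 199) (nat_lit 177)) (XT.lf (nat_lit 0) (nat_lit 5357476022) (nat_lit 152) (nat_lit 4398536873) (nat_lit 76) (nat_lit 41654636945) (nat_lit 3) (nat_lit 5) (nat_lit 5) (nat_lit 5) (nat_lit 4) (nat_lit 4) (nat_lit 225) (nat_lit 199) (nat_lit 176))) (XT.nd (nat_lit 78) (nat_lit 0) (nat_lit 0) (XT.lf (nat_lit 0) (nat_lit 8921652429) (nat_lit 76) (nat_lit 2880554803) (nat_lit 152) (nat_lit 46667140108) (nat_lit 2) (nat_lit 5) (nat_lit 3) (nat_lit 5) (nat_lit 4) (nat_lit 4) (nat_lit 226) (nat_lit 199) (nat_lit 175)) (XT.nd (nat_lit 78) (nat_lit 0) (nat_lit 0) (XT.lf (nat_lit 0) (nat_lit 19390991676) (nat_lit 152) (nat_lit 42328582441) (nat_lit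 0) (nat_lit 4853285539) (nat_lit 2) (nat_lit 5) (nat_lit 4) (nat_lit 4) (nat_lit 2) (nat_lit 4) (nat_lit 227) (nat_lit 199) (nat_lit 174)) (XT.lf (nat_lit 0) (nat_lit 28132613178) (nat_lit 152) (nat_lit 34222796359) (nat_lit 0) (nat_lit 13535499624) (nat_lit 2) (nat_lit 5) (nat_lit 4) (nat_lit 4) (nat_lit 2) (nat_lit 4) (nat_lit 228) (nat_lit 199) (nat_lit 173))))))))
noncomputable def xc23 : XT := (XT.nd (nat_lit 1404) (nat_lit 0) (nat_lit 0) (XT.nd (nat_lit 702) (nat_lit 0) (nat_lit 0) (XT.nd (nat_lit 312) (nat_lit 0) (nat_lit 0) (XT.nd (nat_lit 156) (nat_lit 76) (nat_lit 0) (XT.nd (nat_lit 78) (nat_lit 0) (nat_lit 0) (XT.lf (nat_lit 0) (nat_lit 38128826053) (nat_lit 152) (nat_lit 25002467784) (nat_lit 0) (nat_lit 23480053875) (nat_lit 2) (nat_lit 5) (nat_lit 4) (nat_lit 4) (nat_lit 2) (nat_lit 4) (nat_lit 229) (nat_lit 199) (nat_lit 172)) (XT.lf (nat_lit 0) (nat_lit 49575208378) (nat_lit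 152) (nat_lit 14487198985) (nat_lit 0) (nat_lit 34881515658) (nat_lit 2) (nat_lit 5) (nat_lit 4) (nat_lit 4) (nat_lit 2) (nat_lit 4) (nat_lit 230) (nat_lit 199) (nat_lit 171))) (XT.nd (nat_lit 78) (nat_lit 76) (nat_lit 0) (XT.lf (nat_lit 0) (nat_lit 62695711112) (nat_lit 152) (nat_lit 2471256441) (nat_lit 0) (nat_lit 47962957050) (nat_lit 2) (nat_lit 5) (nat_lit 4) (nat_lit 4) (nat_lit 2) (nat_lit 4) (nat_lit 231) (nat_lit 199) (nat_lit 170)) (XT.lf (nat_lit 0) (nat_lit 11874463111) (nat_lit 76) (nat_lit 66158157754) (nat_lit 76) (nat_lit 51391437309) (nat_lit 1) (nat_lit 4) (nat_lit 2) (nat_lit 5) (nat_lit 2) (nat_lit 4) (nat_lit 232) (nat_lit 199) (nat_lit 169)))) (XT.nd (nat_lit 156) (nat_lit 0) (nat_lit 0) (XT.nd (nat_lit 78) (nat_lit 0) (nat_lit 0) (XT.lf (nat_lit 0) (nat_lit 28460708586) (nat_lit 76) (nat_lit 67247448926) (nat_lit 76) (nat_lit 52451192496) (nat_lit 1) (nat_lit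 4) (nat_lit 2) (nat_lit 5) (nat_lit 2) (nat_lit 4) (nat_lit 233) (nat_lit 199) (nat_lit 168)) (XT.lf (nat_lit 0) (nat_lit 47481861495) (nat_lit 76) (nat_lit 68523721819) (nat_lit 76) (nat_lit 53701781923) (nat_lit 1) (nat_lit 4) (nat_lit 2) (nat_lit 5) (nat_lit 2) (nat_lit 4) (nat_lit 234) (nat_lit 199) (nat_lit 167))) (XT.nd (nat_lit 78) (nat_lit 0) (nat_lit 0) (XT.lf (nat_lit 0) (nat_lit 69310074831) (nat_lit 76) (nat_lit 70011946990) (nat_lit 76) (nat_lit 55167673645) (nat_lit 1) (nat_lit 4) (nat_lit 2) (nat_lit 5) (nat_lit 2) (nat_lit 4) (nat_lit 235) (nat_lit 199) (nat_lit 166)) (XT.nd (nat_lit 78) (nat_lit 0) (nat_lit 0) (XT.lf (nat_lit 0) (nat_lit 94372422332) (nat_lit 76) (nat_lit 71741241887) (nat_lit 76) (nat_lit 56877548152) (nat_lit 1) (nat_lit 4) (nat_lit 2) (nat_lit 5) (nat_lit 2) (nat_lit 4) (nat_lit 236) (nat_lit 199) (nat_lit 165)) (XT.lf (nat_lit 0) (nat_lit 123159254276)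 (nat_lit 76) (nat_lit 73745440541) (nat_lit 76) (nat_lit 58864859510) (nat_lit 1) (nat_lit 4) (nat_lit 2) (nat_lit 5) (nat_lit 2) (nat_lit 4) (nat_lit 237) (nat_lit 199) (nat_lit 164)))))) (XT.nd (nat_lit 312) (nat_lit 0) (nat_lit 0) (XT.nd (nat_lit 156) (nat_lit 0) (nat_lit 0) (XT.nd (nat_lit 78) (nat_lit 0) (nat_lit 0) (XT.lf (nat_lit 0) (nat_lit 156233791288) (nat_lit 76) (nat_lit 76063755535) (nat_lit 76) (nat_lit 61168489899) (nat_lit 1) (nat_lit 4) (nat_lit 2) (nat_lit 5) (nat_lit 2) (nat_lit 4) (nat_lit 238) (nat_lit 199) (nat_lit 163)) (XT.lf (nat_lit 0) (nat_lit 194243143875) (nat_lit 76) (nat_lit 78741545205) (nat_lit 76) (nat_lit 63833510347) (nat_lit 1) (nat_lit 4) (nat_lit 2) (nat_lit 5) (nat_lit 2) (nat_lit 4) (nat_lit 239) (nat_lit 199) (nat_lit 162))) (XT.nd (nat_lit 78) (nat_lit 0) (nat_lit 0) (XT.lf (nat_lit 0) (nat_lit 237930973282) (nat_lit 76) (nat_lit 81831201088)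 (nat_lit 76) (nat_lit 66912062559) (nat_lit 1) (nat_lit 4) (nat_lit 2) (nat_lit 5) (nat_lit 2) (nat_lit 4) (nat_lit 240) (nat_lit 199) (nat_lit 161)) (XT.lf (nat_lit 0) (nat_lit 288152041390) (nat_lit 76) (nat_lit 85393172974) (nat_lit 76) (nat_lit 70464379079) (nat_lit 1) (nat_lit 4) (nat_lit 2) (nat_lit 5) (nat_lit 2) (nat_lit 4) (nat_lit 241) (nat_lit 199) (nat_lit 160)))) (XT.nd (nat_lit 156) (nat_lit 0) (nat_lit 0) (XT.nd (nat_lit 78) (nat_lit 0) (nat_lit 0) (XT.lf (nat_lit 0) (nat_lit 345888934313) (nat_lit 76) (nat_lit 89497151616) (nat_lit 76) (nat_lit 74559961750) (nat_lit 1) (nat_lit 4) (nat_lit 2) (nat_lit 5) (nat_lit 2) (nat_lit 4) (nat_lit 242) (nat_lit 199) (nat_lit 159)) (XT.lf (nat_lit 0) (nat_lit 412271286914) (nat_lit 76) (nat_lit 94223432249) (nat_lit 76) (nat_lit 79278941539) (nat_lit 1) (nat_lit 4) (nat_lit 2) (nat_lit 5) (nat_lit 2) (nat_lit 4) (nat_lit 243) (nat_lit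 199) (nat_lit 158))) (XT.nd (nat_lit 78) (nat_lit 0) (nat_lit 0) (XT.lf (nat_lit 0) (nat_lit 488597884351) (nat_lit 76) (nat_lit 99664485580) (nat_lit 76) (nat_lit 84713646311) (nat_lit 1) (nat_lit 4) (nat_lit 2) (nat_lit 5) (nat_lit 2) (nat_lit 4) (nat_lit 244) (nat_lit 199) (nat_lit 157)) (XT.nd (nat_lit 78) (nat_lit 0) (nat_lit 0) (XT.lf (nat_lit 0) (nat_lit 576362073097) (nat_lit 76) (nat_lit 105926767003) (nat_lit 76) (nat_lit 90970407246) (nat_lit 1) (nat_lit 4) (nat_lit 2) (nat_lit 5) (nat_lit 2) (nat_lit 4) (nat_lit 245) (nat_lit 199) (nat_lit 156)) (XT.lf (nat_lit 0) (nat_lit 677280978583) (nat_lit 76) (nat_lit 113132799412) (nat_lit 76) (nat_lit 98171639232) (nat_lit 1) (nat_lit 4) (nat_lit 2) (nat_lit 5) (nat_lit 2) (nat_lit 4) (nat_lit 246) (nat_lit 199) (nat_lit 155))))))) (XT.nd (nat_lit 702) (nat_lit 0) (nat_lit 0) (XT.nd (nat_lit 312) (nat_lit 0) (nat_lit 0) (XT.nd (nat_lit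 156) (nat_lit 0) (nat_lit 0) (XT.nd (nat_lit 78) (nat_lit 0) (nat_lit 0) (XT.lf (nat_lit 0) (nat_lit 793329101135) (nat_lit 76) (nat_lit 121423570400) (nat_lit 76) (nat_lit 106458235939) (nat_lit 1) (nat_lit 4) (nat_lit 2) (nat_lit 5) (nat_lit 2) (nat_lit 4) (nat_lit 247) (nat_lit 199) (nat_lit 154)) (XT.lf (nat_lit 0) (nat_lit 926776947497) (nat_lit 76) (nat_lit 130961290703) (nat_lit 76) (nat_lit 115992326432) (nat_lit 1) (nat_lit 4) (nat_lit 2) (nat_lit 5) (nat_lit 2) (nat_lit 4) (nat_lit 248) (nat_lit 199) (nat_lit 153))) (XT.nd (nat_lit 78) (nat_lit 0) (nat_lit 0) (XT.lf (nat_lit 0) (nat_lit 1080235453794) (nat_lit 76) (nat_lit 141932567892) (nat_lit 76) (nat_lit 126960447265) (nat_lit 1) (nat_lit 4) (nat_lit 2) (nat_lit 5) (nat_lit 2) (nat_lit 4) (nat_lit 249) (nat_lit 199) (nat_lit 152)) (XT.lf (nat_lit 0) (nat_lit 1256707069062) (nat_lit 76) (nat_lit 154552057390) (nat_lit 76)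 (nat_lit 139577192105) (nat_lit 1) (nat_lit 4) (nat_lit 2) (nat_lit 5) (nat_lit 2) (nat_lit 4) (nat_lit 250) (nat_lit 199) (nat_lit 151)))) (XT.nd (nat_lit 156) (nat_lit 0) (nat_lit 0) (XT.nd (nat_lit 78) (nat_lit 0) (nat_lit 0) (XT.lf (nat_lit 0) (nat_lit 1459644498818) (nat_lit 76) (nat_lit 169066662253) (nat_lit 76) (nat_lit 154089410309) (nat_lit 1) (nat_lit 4) (nat_lit 2) (nat_lit 5) (nat_lit 2) (nat_lit 4) (nat_lit 251) (nat_lit 199) (nat_lit 150)) (XT.lf (nat_lit 0) (nat_lit 1693018257992) (nat_lit 76) (nat_lit 185760363880) (nat_lit 76) (nat_lit 170781036581) (nat_lit 1) (nat_lit 4) (nat_lit 2) (nat_lit 5) (nat_lit 2) (nat_lit 4) (nat_lit 252) (nat_lit 199) (nat_lit 149))) (XT.nd (nat_lit 78) (nat_lit 0) (nat_lit 0) (XT.lf (nat_lit 0) (nat_lit 1961394354914) (nat_lit 76) (nat_lit 204959778173) (nat_lit 76) (nat_lit 189978646217) (nat_lit 1) (nat_lit 4) (nat_lit 2) (nat_lit 5)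 (nat_lit 2) (nat_lit 4) (nat_lit 253) (nat_lit 199) (nat_lit 148)) (XT.nd (nat_lit 78) (nat_lit 0) (nat_lit 0) (XT.lf (nat_lit 0) (nat_lit 2270023626265) (nat_lit 76) (nat_lit 227040545846) (nat_lit 76) (nat_lit 212057844623) (nat_lit 1) (nat_lit 4) (nat_lit 2) (nat_lit 5) (nat_lit 2) (nat_lit 4) (nat_lit 254) (nat_lit 199) (nat_lit 147)) (XT.lf (nat_lit 0) (nat_lit 2624944470831) (nat_lit 76) (nat_lit 252434681918) (nat_lit 76) (nat_lit 237450616115) (nat_lit 1) (nat_lit 4) (nat_lit 2) (nat_lit 5) (nat_lit 2) (nat_lit 4) (nat_lit 255) (nat_lit 199) (nat_lit 146)))))) (XT.nd (nat_lit 27066) (nat_lit 0) (nat_lit 2508) (XT.nd (nat_lit 156) (nat_lit 0) (nat_lit 0) (XT.nd (nat_lit 78) (nat_lit 0) (nat_lit 0) (XT.lf (nat_lit 0) (nat_lit 3033100992094) (nat_lit 76) (nat_lit 281639028183) (nat_lit 76) (nat_lit 266653775789) (nat_lit 1) (nat_lit 4) (nat_lit 2) (nat_lit 5) (nat_lit 2) (nat_lit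 4) (nat_lit 256) (nat_lit 199) (nat_lit 145)) (XT.lf (nat_lit 0) (nat_lit 3502478861120) (nat_lit 76) (nat_lit 315224974024) (nat_lit 76) (nat_lit 300238689811) (nat_lit 1) (nat_lit 4) (nat_lit 2) (nat_lit 5) (nat_lit 2) (nat_lit 4) (nat_lit 257) (nat_lit 199) (nat_lit 144))) (XT.nd (nat_lit 26754) (nat_lit 0) (nat_lit 3876) (XT.lf (nat_lit 0) (nat_lit 4042261557957) (nat_lit 76) (nat_lit 353849635773) (nat_lit 76) (nat_lit 338862454326) (nat_lit 1) (nat_lit 4) (nat_lit 2) (nat_lit 5) (nat_lit 2) (nat_lit 4) (nat_lit 258) (nat_lit 199) (nat_lit 143)) (XT.nd (nat_lit 78) (nat_lit 76) (nat_lit 0) (XT.lf (nat_lit 0) (nat_lit 1073741823) (nat_lit 0) (nat_lit 0) (nat_lit 0) (nat_lit 0) (nat_lit 53) (nat_lit 0) (nat_lit 1) (nat_lit 0) (nat_lit 1) (nat_lit 0) (nat_lit 200) (nat_lit 200) (nat_lit 200)) (XT.lf (nat_lit 0) (nat_lit 4848944715) (nat_lit 76) (nat_lit 1272011919) (nat_lit 0) (nat_lit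 353234383) (nat_lit 52) (nat_lit 5) (nat_lit 53) (nat_lit 0) (nat_lit 52) (nat_lit 4) (nat_lit 201) (nat_lit 200) (nat_lit 199))))) (XT.nd (nat_lit 156) (nat_lit 988) (nat_lit 0) (XT.nd (nat_lit 78) (nat_lit 228) (nat_lit 0) (XT.lf (nat_lit 0) (nat_lit 2942296383) (nat_lit 152) (nat_lit 2285047187) (nat_lit 76) (nat_lit 1348404227) (nat_lit 50) (nat_lit 5) (nat_lit 52) (nat_lit 5) (nat_lit 51) (nat_lit 4) (nat_lit 202) (nat_lit 200) (nat_lit 198)) (XT.lf (nat_lit 0) (nat_lit 662161878) (nat_lit 228) (nat_lit 3080962440) (nat_lit 76) (nat_lit 3005909596) (nat_lit 47) (nat_lit 5) (nat_lit 50) (nat_lit 5) (nat_lit 48) (nat_lit 5) (nat_lit 203) (nat_lit 200) (nat_lit 197))) (XT.nd (nat_lit 78) (nat_lit 760) (nat_lit 0) (XT.lf (nat_lit 0) (nat_lit 3241516685) (nat_lit 228) (nat_lit 1581833099) (nat_lit 304) (nat_lit 2169836134) (nat_lit 44) (nat_lit 5) (nat_lit 47) (nat_lit 5) (nat_lit 48)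 (nat_lit 5) (nat_lit 204) (nat_lit 200) (nat_lit 196)) (XT.nd (nat_lit 78) (nat_lit 380) (nat_lit 0) (XT.lf (nat_lit 0) (nat_lit 1756069750) (nat_lit 380) (nat_lit 4345438709) (nat_lit 76) (nat_lit 1210815600) (nat_lit 39) (nat_lit 5) (nat_lit 44) (nat_lit 5) (nat_lit 40) (nat_lit 5) (nat_lit 205) (nat_lit 200) (nat_lit 195)) (XT.lf (nat_lit 0) (nat_lit 2746988756) (nat_lit 380) (nat_lit 3040811839) (nat_lit 456) (nat_lit 1920524157) (nat_lit 34) (nat_lit 5) (nat_lit 39) (nat_lit 5) (nat_lit 40) (nat_lit 5) (nat_lit 206) (nat_lit 200) (nat_lit 194))))))))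
noncomputable def xc24 : XT := (XT.nd (nat_lit 1404) (nat_lit 228) (nat_lit 0) (XT.nd (nat_lit 702) (nat_lit 380) (nat_lit 0) (XT.nd (nat_lit 312) (nat_lit 684) (nat_lit 0) (XT.nd (nat_lit 156) (nat_lit 456) (nat_lit 0) (XT.nd (nat_lit 78) (nat_lit 228) (nat_lit 0) (XT.lf (nat_lit 0) (nat_lit 1823290456) (nat_lit 532) (nat_lit 5646479159) (nat_lit 76) (nat_lit 719675643) (nat_lit 27) (nat_lit 5) (nat_lit 34) (nat_lit 5) (nat_lit 28) (nat_lit 5) (nat_lit 207) (nat_lit 200) (nat_lit 193)) (XT.lf (nat_lit 0) (nat_lit 2192623566) (nat_lit 228) (nat_lit 3634902687) (nat_lit 304) (nat_lit 2929806126) (nat_lit 24) (nat_lit 5) (nat_lit 27) (nat_lit 5) (nat_lit 28) (nat_lit 5) (nat_lit 208) (nat_lit 200) (nat_lit 192))) (XT.nd (nat_lit 78) (nat_lit 228) (nat_lit 0) (XT.lf (nat_lit 0) (nat_lit 764805911) (nat_lit 228) (nat_lit 7744455144) (nat_lit 76) (nat_lit 918554468) (nat_lit 21) (nat_lit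 5) (nat_lit 24) (nat_lit 5) (nat_lit 22) (nat_lit 5) (nat_lit 209) (nat_lit 200) (nat_lit 191)) (XT.lf (nat_lit 0) (nat_lit 742797559) (nat_lit 228) (nat_lit 4022368176) (nat_lit 304) (nat_lit 5436131449) (nat_lit 18) (nat_lit 5) (nat_lit 21) (nat_lit 5) (nat_lit 22) (nat_lit 5) (nat_lit 210) (nat_lit 200) (nat_lit 190)))) (XT.nd (nat_lit 156) (nat_lit 456) (nat_lit 0) (XT.nd (nat_lit 78) (nat_lit 228) (nat_lit 0) (XT.lf (nat_lit 0) (nat_lit 9268237122) (nat_lit 304) (nat_lit 610975182) (nat_lit 76) (nat_lit 1221564540) (nat_lit 18) (nat_lit 5) (nat_lit 22) (nat_lit 5) (nat_lit 19) (nat_lit 4) (nat_lit 211) (nat_lit 200) (nat_lit 189)) (XT.lf (nat_lit 0) (nat_lit 2225396296) (nat_lit 228) (nat_lit 2677537049) (nat_lit 76) (nat_lit 7227204314) (nat_lit 15) (nat_lit 5) (nat_lit 18) (nat_lit 5) (nat_lit 16) (nat_lit 5) (nat_lit 212) (nat_lit 200) (nat_lit 188))) (XT.nd (nat_lit 78) (nat_lit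 304) (nat_lit 0) (XT.lf (nat_lit 0) (nat_lit 6726265187) (nat_lit 228) (nat_lit 5654567892) (nat_lit 76) (nat_lit 935373840) (nat_lit 13) (nat_lit 5) (nat_lit 16) (nat_lit 5) (nat_lit 14) (nat_lit 4) (nat_lit 213) (nat_lit 200) (nat_lit 187)) (XT.nd (nat_lit 78) (nat_lit 228) (nat_lit 0) (XT.lf (nat_lit 0) (nat_lit 4757909746) (nat_lit 76) (nat_lit 7213434876) (nat_lit 152) (nat_lit 2704647828) (nat_lit 12) (nat_lit 5) (nat_lit 13) (nat_lit 5) (nat_lit 14) (nat_lit 4) (nat_lit 214) (nat_lit 200) (nat_lit 186)) (XT.lf (nat_lit 0) (nat_lit 460626277) (nat_lit 152) (nat_lit 1152055514) (nat_lit 228) (nat_lit 14629747376) (nat_lit 9) (nat_lit 5) (nat_lit 11) (nat_lit 5) (nat_lit 12) (nat_lit 5) (nat_lit 215) (nat_lit 200) (nat_lit 185)))))) (XT.nd (nat_lit 312) (nat_lit 152) (nat_lit 0) (XT.nd (nat_lit 156) (nat_lit 152) (nat_lit 0) (XT.nd (nat_lit 78) (nat_lit 76) (nat_lit 0) (XT.lf (nat_lit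 0) (nat_lit 6636563342) (nat_lit 228) (nat_lit 5594959284) (nat_lit 76) (nat_lit 5790093678) (nat_lit 9) (nat_lit 5) (nat_lit 12) (nat_lit 5) (nat_lit 10) (nat_lit 4) (nat_lit 216) (nat_lit 200) (nat_lit 184)) (XT.lf (nat_lit 0) (nat_lit 6089413676) (nat_lit 76) (nat_lit 6310191625) (nat_lit 152) (nat_lit 7670041073) (nat_lit 8) (nat_lit 5) (nat_lit 9) (nat_lit 5) (nat_lit 10) (nat_lit 4) (nat_lit 217) (nat_lit 200) (nat_lit 183))) (XT.nd (nat_lit 78) (nat_lit 152) (nat_lit 0) (XT.lf (nat_lit 0) (nat_lit 19029478358) (nat_lit 152) (nat_lit 2852578439) (nat_lit 0) (nat_lit 543339493) (nat_lit 8) (nat_lit 5) (nat_lit 10) (nat_lit 4) (nat_lit 8) (nat_lit 4) (nat_lit 218) (nat_lit 200) (nat_lit 182)) (XT.lf (nat_lit 0) (nat_lit 1711316409) (nat_lit 152) (nat_lit 15138569027) (nat_lit 76) (nat_lit 8260828330) (nat_lit 6) (nat_lit 5) (nat_lit 8) (nat_lit 5) (nat_lit 7) (nat_lit 4) (nat_lit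 219) (nat_lit 200) (nat_lit 181)))) (XT.nd (nat_lit 156) (nat_lit 76) (nat_lit 0) (XT.nd (nat_lit 78) (nat_lit 76) (nat_lit 0) (XT.lf (nat_lit 0) (nat_lit 7331161522) (nat_lit 152) (nat_lit 3633611448) (nat_lit 76) (nat_lit 17231685108) (nat_lit 6) (nat_lit 5) (nat_lit 8) (nat_lit 5) (nat_lit 7) (nat_lit 4) (nat_lit 220) (nat_lit 200) (nat_lit 180)) (XT.lf (nat_lit 0) (nat_lit 9883990831) (nat_lit 76) (nat_lit 4023074904) (nat_lit 152) (nat_lit 17829381124) (nat_lit 5) (nat_lit 5) (nat_lit 6) (nat_lit 5) (nat_lit 7) (nat_lit 4) (nat_lit 221) (nat_lit 200) (nat_lit 179))) (XT.nd (nat_lit 78) (nat_lit 76) (nat_lit 0) (XT.lf (nat_lit 0) (nat_lit 21558333811) (nat_lit 152) (nat_lit 10445205264) (nat_lit 0) (nat_lit 3797150020) (nat_lit 5) (nat_lit 5) (nat_lit 7) (nat_lit 4) (nat_lit 5) (nat_lit 4) (nat_lit 222) (nat_lit 200) (nat_lit 178)) (XT.nd (nat_lit 78) (nat_lit 0) (nat_lit 0) (XT.lf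 (nat_lit 0) (nat_lit 2515962202) (nat_lit 76) (nat_lit 27913286826) (nat_lit 76) (nat_lit 10039886775) (nat_lit 4) (nat_lit 4) (nat_lit 5) (nat_lit 5) (nat_lit 5) (nat_lit 4) (nat_lit 223) (nat_lit 200) (nat_lit 177)) (XT.lf (nat_lit 0) (nat_lit 17896612194) (nat_lit 76) (nat_lit 22947708761) (nat_lit 76) (nat_lit 4976729353) (nat_lit 4) (nat_lit 4) (nat_lit 5) (nat_lit 5) (nat_lit 5) (nat_lit 4) (nat_lit 224) (nat_lit 200) (nat_lit 176))))))) (XT.nd (nat_lit 702) (nat_lit 0) (nat_lit 0) (XT.nd (nat_lit 312) (nat_lit 76) (nat_lit 0) (XT.nd (nat_lit 156) (nat_lit 76) (nat_lit 0) (XT.nd (nat_lit 78) (nat_lit 0) (nat_lit 0) (XT.lf (nat_lit 0) (nat_lit 722540626) (nat_lit 152) (nat_lit 16552946519) (nat_lit 76) (nat_lit 34705348305) (nat_lit 3) (nat_lit 5) (nat_lit 5) (nat_lit 5) (nat_lit 4) (nat_lit 4) (nat_lit 225) (nat_lit 200) (nat_lit 175)) (XT.lf (nat_lit 0) (nat_lit 6919927062) (nat_lit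 152) (nat_lit 3736166743) (nat_lit 76) (nat_lit 48403318667) (nat_lit 3) (nat_lit 5) (nat_lit 5) (nat_lit 5) (nat_lit 4) (nat_lit 4) (nat_lit 226) (nat_lit 200) (nat_lit 174))) (XT.nd (nat_lit 78) (nat_lit 0) (nat_lit 0) (XT.lf (nat_lit 0) (nat_lit 11470137485) (nat_lit 76) (nat_lit 2791358922) (nat_lit 152) (nat_lit 52921285539) (nat_lit 2) (nat_lit 5) (nat_lit 3) (nat_lit 5) (nat_lit 4) (nat_lit 4) (nat_lit 227) (nat_lit 200) (nat_lit 173)) (XT.lf (nat_lit 0) (nat_lit 22909635963) (nat_lit 152) (nat_lit 47586854233) (nat_lit 0) (nat_lit 6011889335) (nat_lit 2) (nat_lit 5) (nat_lit 4) (nat_lit 4) (nat_lit 2) (nat_lit 4) (nat_lit 228) (nat_lit 200) (nat_lit 172)))) (XT.nd (nat_lit 156) (nat_lit 76) (nat_lit 0) (XT.nd (nat_lit 78) (nat_lit 0) (nat_lit 0) (XT.lf (nat_lit 0) (nat_lit 32882936056) (nat_lit 152) (nat_lit 38407506617) (nat_lit 0) (nat_lit 15940268885) (nat_lit 2) (nat_lit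 5) (nat_lit 4) (nat_lit 4) (nat_lit 2) (nat_lit 4) (nat_lit 229) (nat_lit 200) (nat_lit 171)) (XT.lf (nat_lit 0) (nat_lit 44309394222) (nat_lit 152) (nat_lit 27927873434) (nat_lit 0) (nat_lit 27327665711) (nat_lit 2) (nat_lit 5) (nat_lit 4) (nat_lit 4) (nat_lit 2) (nat_lit 4) (nat_lit 230) (nat_lit 200) (nat_lit 170))) (XT.nd (nat_lit 78) (nat_lit 76) (nat_lit 0) (XT.lf (nat_lit 0) (nat_lit 57412571601) (nat_lit 152) (nat_lit 15942918383) (nat_lit 0) (nat_lit 40396876706) (nat_lit 2) (nat_lit 5) (nat_lit 4) (nat_lit 4) (nat_lit 2) (nat_lit 4) (nat_lit 231) (nat_lit 200) (nat_lit 169)) (XT.nd (nat_lit 78) (nat_lit 76) (nat_lit 0) (XT.lf (nat_lit 0) (nat_lit 72448834706) (nat_lit 152) (nat_lit 2218153212) (nat_lit 0) (nat_lit 55403603825) (nat_lit 2) (nat_lit 5) (nat_lit 4) (nat_lit 4) (nat_lit 2) (nat_lit 4) (nat_lit 232) (nat_lit 200) (nat_lit 168)) (XT.lf (nat_lit 0) (nat_lit 14226623414)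 (nat_lit 76) (nat_lit 75827898514) (nat_lit 76) (nat_lit 58756984167) (nat_lit 1) (nat_lit 4) (nat_lit 2) (nat_lit 5) (nat_lit 2) (nat_lit 4) (nat_lit 233) (nat_lit 200) (nat_lit 167)))))) (XT.nd (nat_lit 312) (nat_lit 0) (nat_lit 0) (XT.nd (nat_lit 156) (nat_lit 0) (nat_lit 0) (XT.nd (nat_lit 78) (nat_lit 0) (nat_lit 0) (XT.lf (nat_lit 0) (nat_lit 33226328644) (nat_lit 76) (nat_lit 77113711567) (nat_lit 76) (nat_lit 60020463771) (nat_lit 1) (nat_lit 4) (nat_lit 2) (nat_lit 5) (nat_lit 2) (nat_lit 4) (nat_lit 234) (nat_lit 200) (nat_lit 166)) (XT.lf (nat_lit 0) (nat_lit 55035891824) (nat_lit 76) (nat_lit 78610232528) (nat_lit 76) (nat_lit 61497564343) (nat_lit 1) (nat_lit 4) (nat_lit 2) (nat_lit 5) (nat_lit 2) (nat_lit 4) (nat_lit 235) (nat_lit 200) (nat_lit 165))) (XT.nd (nat_lit 78) (nat_lit 0) (nat_lit 0) (XT.lf (nat_lit 0) (nat_lit 80082021799) (nat_lit 76) (nat_lit 80346741157)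 (nat_lit 76) (nat_lit 63217185675) (nat_lit 1) (nat_lit 4) (nat_lit 2) (nat_lit 5) (nat_lit 2) (nat_lit 4) (nat_lit 236) (nat_lit 200) (nat_lit 164)) (XT.lf (nat_lit 0) (nat_lit 108854751546) (nat_lit 76) (nat_lit 82357212621) (nat_lit 76) (nat_lit 65212972534) (nat_lit 1) (nat_lit 4) (nat_lit 2) (nat_lit 5) (nat_lit 2) (nat_lit 4) (nat_lit 237) (nat_lit 200) (nat_lit 163)))) (XT.nd (nat_lit 156) (nat_lit 0) (nat_lit 0) (XT.nd (nat_lit 78) (nat_lit 0) (nat_lit 0) (XT.lf (nat_lit 0) (nat_lit 141917025778) (nat_lit 76) (nat_lit 84680982232) (nat_lit 76) (nat_lit 67523972924) (nat_lit 1) (nat_lit 4) (nat_lit 2) (nat_lit 5) (nat_lit 2) (nat_lit 4) (nat_lit 238) (nat_lit 200) (nat_lit 162)) (XT.lf (nat_lit 0) (nat_lit 179915715077) (nat_lit 76) (nat_lit 87363515047) (nat_lit 76) (nat_lit 70195402068) (nat_lit 1) (nat_lit 4) (nat_lit 2) (nat_lit 5) (nat_lit 2) (nat_lit 4) (nat_lit 239) (nat_lit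 200) (nat_lit 161))) (XT.nd (nat_lit 78) (nat_lit 0) (nat_lit 0) (XT.lf (nat_lit 0) (nat_lit 223594272061) (nat_lit 76) (nat_lit 90457295405) (nat_lit 76) (nat_lit 73279527059) (nat_lit 1) (nat_lit 4) (nat_lit 2) (nat_lit 5) (nat_lit 2) (nat_lit 4) (nat_lit 240) (nat_lit 200) (nat_lit 160)) (XT.nd (nat_lit 78) (nat_lit 0) (nat_lit 0) (XT.lf (nat_lit 0) (nat_lit 273807277192) (nat_lit 76) (nat_lit 94022853790) (nat_lit 76) (nat_lit 76836689474) (nat_lit 1) (nat_lit 4) (nat_lit 2) (nat_lit 5) (nat_lit 2) (nat_lit 4) (nat_lit 241) (nat_lit 200) (nat_lit 159)) (XT.lf (nat_lit 0) (nat_lit 331537158831) (nat_lit 76) (nat_lit 98129951127) (nat_lit 76) (nat_lit 80936485967) (nat_lit 1) (nat_lit 4) (nat_lit 2) (nat_lit 5) (nat_lit 2) (nat_lit 4) (nat_lit 242) (nat_lit 200) (nat_lit 158))))))))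
noncomputable def xc25 : XT := (XT.nd (nat_lit 28158) (nat_lit 0) (nat_lit 380) (XT.nd (nat_lit 702) (nat_lit 0) (nat_lit 0) (XT.nd (nat_lit 312) (nat_lit 0) (nat_lit 0) (XT.nd (nat_lit 156) (nat_lit 0) (nat_lit 0) (XT.nd (nat_lit 78) (nat_lit 0) (nat_lit 0) (XT.lf (nat_lit 0) (nat_lit 397913414662) (nat_lit 76) (nat_lit 102858943669) (nat_lit 76) (nat_lit 85659129949) (nat_lit 1) (nat_lit 4) (nat_lit 2) (nat_lit 5) (nat_lit 2) (nat_lit 4) (nat_lit 243) (nat_lit 200) (nat_lit 157)) (XT.lf (nat_lit 0) (nat_lit 474234710561) (nat_lit 76) (nat_lit 108302355182) (nat_lit 76) (nat_lit 91097020975) (nat_lit 1) (nat_lit 4) (nat_lit 2) (nat_lit 5) (nat_lit 2) (nat_lit 4) (nat_lit 244) (nat_lit 200) (nat_lit 156))) (XT.nd (nat_lit 78) (nat_lit 0) (nat_lit 0) (XT.lf (nat_lit 0) (nat_lit 561994289274) (nat_lit 76) (nat_lit 114566687197) (nat_lit 76) (nat_lit 97356552567) (nat_lit 1) (nat_lit 4)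 (nat_lit 2) (nat_lit 5) (nat_lit 2) (nat_lit 4) (nat_lit 245) (nat_lit 200) (nat_lit 155)) (XT.lf (nat_lit 0) (nat_lit 662909186036) (nat_lit 76) (nat_lit 121774502731) (nat_lit 76) (nat_lit 104560193819) (nat_lit 1) (nat_lit 4) (nat_lit 2) (nat_lit 5) (nat_lit 2) (nat_lit 4) (nat_lit 246) (nat_lit 200) (nat_lit 154)))) (XT.nd (nat_lit 156) (nat_lit 0) (nat_lit 0) (XT.nd (nat_lit 78) (nat_lit 0) (nat_lit 0) (XT.lf (nat_lit 0) (nat_lit 778953822739) (nat_lit 76) (nat_lit 130066824261) (nat_lit 76) (nat_lit 112848885540) (nat_lit 1) (nat_lit 4) (nat_lit 2) (nat_lit 5) (nat_lit 2) (nat_lit 4) (nat_lit 247) (nat_lit 200) (nat_lit 153)) (XT.lf (nat_lit 0) (nat_lit 912398637930) (nat_lit 76) (nat_lit 139605892862) (nat_lit 76) (nat_lit 122384797784) (nat_lit 1) (nat_lit 4) (nat_lit 2) (nat_lit 5) (nat_lit 2) (nat_lit 4) (nat_lit 248) (nat_lit 200) (nat_lit 152))) (XT.nd (nat_lit 78) (nat_lit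 0) (nat_lit 0) (XT.lf (nat_lit 0) (nat_lit 1065854508425) (nat_lit 76) (nat_lit 150578342484) (nat_lit 76) (nat_lit 133354502749) (nat_lit 1) (nat_lit 4) (nat_lit 2) (nat_lit 5) (nat_lit 2) (nat_lit 4) (nat_lit 249) (nat_lit 200) (nat_lit 151)) (XT.nd (nat_lit 78) (nat_lit 0) (nat_lit 0) (XT.lf (nat_lit 0) (nat_lit 1242323831693) (nat_lit 76) (nat_lit 163198851489) (nat_lit 76) (nat_lit 145972625095) (nat_lit 1) (nat_lit 4) (nat_lit 2) (nat_lit 5) (nat_lit 2) (nat_lit 4) (nat_lit 250) (nat_lit 200) (nat_lit 150)) (XT.lf (nat_lit 0) (nat_lit 1445259268404) (nat_lit 76) (nat_lit 177714342880) (nat_lit 76) (nat_lit 160486041130) (nat_lit 1) (nat_lit 4) (nat_lit 2) (nat_lit 5) (nat_lit 2) (nat_lit 4) (nat_lit 251) (nat_lit 200) (nat_lit 149)))))) (XT.nd (nat_lit 312) (nat_lit 0) (nat_lit 0) (XT.nd (nat_lit 156) (nat_lit 0) (nat_lit 0) (XT.nd (nat_lit 78) (nat_lit 0) (nat_lit 0) (XT.lf (nat_lit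 0) (nat_lit 1678631294495) (nat_lit 76) (nat_lit 194408815401) (nat_lit 76) (nat_lit 177178708994) (nat_lit 1) (nat_lit 4) (nat_lit 2) (nat_lit 5) (nat_lit 2) (nat_lit 4) (nat_lit 252) (nat_lit 200) (nat_lit 148)) (XT.lf (nat_lit 0) (nat_lit 1947005884390) (nat_lit 76) (nat_lit 213608900036) (nat_lit 76) (nat_lit 196377224362) (nat_lit 1) (nat_lit 4) (nat_lit 2) (nat_lit 5) (nat_lit 2) (nat_lit 4) (nat_lit 253) (nat_lit 200) (nat_lit 147))) (XT.nd (nat_lit 78) (nat_lit 0) (nat_lit 0) (XT.lf (nat_lit 0) (nat_lit 2255633845281) (nat_lit 76) (nat_lit 235690250615) (nat_lit 76) (nat_lit 218457210362) (nat_lit 1) (nat_lit 4) (nat_lit 2) (nat_lit 5) (nat_lit 2) (nat_lit 4) (nat_lit 254) (nat_lit 200) (nat_lit 146)) (XT.lf (nat_lit 0) (nat_lit 2610553550318) (nat_lit 76) (nat_lit 261084893563) (nat_lit 76) (nat_lit 243850666718) (nat_lit 1) (nat_lit 4) (nat_lit 2) (nat_lit 5) (nat_lit 2) (nat_lit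 4) (nat_lit 255) (nat_lit 200) (nat_lit 145)))) (XT.nd (nat_lit 156) (nat_lit 0) (nat_lit 0) (XT.nd (nat_lit 78) (nat_lit 0) (nat_lit 0) (XT.lf (nat_lit 0) (nat_lit 3018709080685) (nat_lit 76) (nat_lit 290289680589) (nat_lit 76) (nat_lit 273054421926) (nat_lit 1) (nat_lit 4) (nat_lit 2) (nat_lit 5) (nat_lit 2) (nat_lit 4) (nat_lit 256) (nat_lit 200) (nat_lit 144)) (XT.lf (nat_lit 0) (nat_lit 3488086088063) (nat_lit 76) (nat_lit 323876009700) (nat_lit 76) (nat_lit 306639853804) (nat_lit 1) (nat_lit 4) (nat_lit 2) (nat_lit 5) (nat_lit 2) (nat_lit 4) (nat_lit 257) (nat_lit 200) (nat_lit 143))) (XT.nd (nat_lit 26832) (nat_lit 0) (nat_lit 3648) (XT.lf (nat_lit 0) (nat_lit 4027868035640) (nat_lit 76) (nat_lit 362501004727) (nat_lit 76) (nat_lit 345264068628) (nat_lit 1) (nat_lit 4) (nat_lit 2) (nat_lit 5) (nat_lit 2) (nat_lit 4) (nat_lit 258) (nat_lit 200) (nat_lit 142)) (XT.nd (nat_lit 78)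 (nat_lit 0) (nat_lit 0) (XT.lf (nat_lit 0) (nat_lit 1298848206) (nat_lit 228) (nat_lit 985432936) (nat_lit 228) (nat_lit 985432936) (nat_lit 49) (nat_lit 3) (nat_lit 52) (nat_lit 3) (nat_lit 52) (nat_lit 5) (nat_lit 201) (nat_lit 201) (nat_lit 198)) (XT.lf (nat_lit 76) (nat_lit 3333138251) (nat_lit 0) (nat_lit 3339975912) (nat_lit 228) (nat_lit 1845695) (nat_lit 50) (nat_lit 5) (nat_lit 49) (nat_lit 3) (nat_lit 52) (nat_lit 5) (nat_lit 202) (nat_lit 201) (nat_lit 197))))))) (XT.nd (nat_lit 702) (nat_lit 912) (nat_lit 0) (XT.nd (nat_lit 312) (nat_lit 1596) (nat_lit 0) (XT.nd (nat_lit 156) (nat_lit 304) (nat_lit 0) (XT.nd (nat_lit 78) (nat_lit 228) (nat_lit 0) (XT.lf (nat_lit 76) (nat_lit 2296729690) (nat_lit 0) (nat_lit 1408465637) (nat_lit 304) (nat_lit 3172026445) (nat_lit 47) (nat_lit 5) (nat_lit 46) (nat_lit 5) (nat_lit 50) (nat_lit 5) (nat_lit 203) (nat_lit 201) (nat_lit 196)) (XT.lf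 (nat_lit 0) (nat_lit 329465746) (nat_lit 304) (nat_lit 5688051749) (nat_lit 76) (nat_lit 1135430995) (nat_lit 43) (nat_lit 5) (nat_lit 47) (nat_lit 5) (nat_lit 44) (nat_lit 5) (nat_lit 204) (nat_lit 201) (nat_lit 195))) (XT.nd (nat_lit 78) (nat_lit 0) (nat_lit 0) (XT.lf (nat_lit 0) (nat_lit 683722215) (nat_lit 304) (nat_lit 3111134352) (nat_lit 380) (nat_lit 3703600881) (nat_lit 39) (nat_lit 5) (nat_lit 43) (nat_lit 5) (nat_lit 44) (nat_lit 5) (nat_lit 205) (nat_lit 201) (nat_lit 194)) (XT.lf (nat_lit 0) (nat_lit 7451073358) (nat_lit 380) (nat_lit 732883) (nat_lit 76) (nat_lit 474769462) (nat_lit 39) (nat_lit 5) (nat_lit 44) (nat_lit 5) (nat_lit 40) (nat_lit 5) (nat_lit 206) (nat_lit 201) (nat_lit 193)))) (XT.nd (nat_lit 156) (nat_lit 684) (nat_lit 0) (XT.nd (nat_lit 78) (nat_lit 456) (nat_lit 0) (XT.lf (nat_lit 0) (nat_lit 2900244083) (nat_lit 456) (nat_lit 776920203) (nat_lit 76) (nat_lit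 4753086134) (nat_lit 33) (nat_lit 5) (nat_lit 39) (nat_lit 5) (nat_lit 34) (nat_lit 5) (nat_lit 207) (nat_lit 201) (nat_lit 192)) (XT.lf (nat_lit 0) (nat_lit 6550736253) (nat_lit 532) (nat_lit 1640903093) (nat_lit 76) (nat_lit 836251469) (nat_lit 27) (nat_lit 5) (nat_lit 34) (nat_lit 5) (nat_lit 28) (nat_lit 5) (nat_lit 208) (nat_lit 201) (nat_lit 191))) (XT.nd (nat_lit 78) (nat_lit 380) (nat_lit 0) (XT.lf (nat_lit 0) (nat_lit 910268704) (nat_lit 304) (nat_lit 2783004530) (nat_lit 76) (nat_lit 6028163963) (nat_lit 23) (nat_lit 5) (nat_lit 27) (nat_lit 5) (nat_lit 24) (nat_lit 5) (nat_lit 209) (nat_lit 201) (nat_lit 190)) (XT.nd (nat_lit 78) (nat_lit 228) (nat_lit 0) (XT.lf (nat_lit 0) (nat_lit 4572146669) (nat_lit 228) (nat_lit 4314231835) (nat_lit 76) (nat_lit 1636636743) (nat_lit 21) (nat_lit 5) (nat_lit 24) (nat_lit 5) (nat_lit 22) (nat_lit 5) (nat_lit 210) (nat_lit 201) (nat_lit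 189)) (XT.lf (nat_lit 0) (nat_lit 5057428021) (nat_lit 228) (nat_lit 3734573696) (nat_lit 304) (nat_lit 2654035577) (nat_lit 18) (nat_lit 5) (nat_lit 21) (nat_lit 5) (nat_lit 22) (nat_lit 5) (nat_lit 211) (nat_lit 201) (nat_lit 188)))))) (XT.nd (nat_lit 390) (nat_lit 228) (nat_lit 0) (XT.nd (nat_lit 156) (nat_lit 304) (nat_lit 0) (XT.nd (nat_lit 78) (nat_lit 152) (nat_lit 0) (XT.lf (nat_lit 0) (nat_lit 1071554754) (nat_lit 228) (nat_lit 9187380888) (nat_lit 76) (nat_lit 2248630869) (nat_lit 15) (nat_lit 5) (nat_lit 18) (nat_lit 5) (nat_lit 16) (nat_lit 5) (nat_lit 212) (nat_lit 201) (nat_lit 187)) (XT.lf (nat_lit 0) (nat_lit 665799452) (nat_lit 152) (nat_lit 4597943674) (nat_lit 228) (nat_lit 8455206761) (nat_lit 13) (nat_lit 5) (nat_lit 15) (nat_lit 5) (nat_lit 16) (nat_lit 5) (nat_lit 213) (nat_lit 201) (nat_lit 186))) (XT.nd (nat_lit 78) (nat_lit 304) (nat_lit 0) (XT.lf (nat_lit 0)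 (nat_lit 10178281594) (nat_lit 228) (nat_lit 2922745989) (nat_lit 76) (nat_lit 2004689957) (nat_lit 13) (nat_lit 5) (nat_lit 16) (nat_lit 5) (nat_lit 14) (nat_lit 4) (nat_lit 214) (nat_lit 201) (nat_lit 185)) (XT.nd (nat_lit 78) (nat_lit 228) (nat_lit 0) (XT.lf (nat_lit 0) (nat_lit 8748573527) (nat_lit 76) (nat_lit 7221698633) (nat_lit 152) (nat_lit 720013885) (nat_lit 12) (nat_lit 5) (nat_lit 13) (nat_lit 5) (nat_lit 14) (nat_lit 4) (nat_lit 215) (nat_lit 201) (nat_lit 184)) (XT.lf (nat_lit 0) (nat_lit 3647963984) (nat_lit 152) (nat_lit 256185282) (nat_lit 228) (nat_lit 14601945400) (nat_lit 9) (nat_lit 5) (nat_lit 11) (nat_lit 5) (nat_lit 12) (nat_lit 5) (nat_lit 216) (nat_lit 201) (nat_lit 183))))) (XT.nd (nat_lit 156) (nat_lit 152) (nat_lit 0) (XT.nd (nat_lit 78) (nat_lit 76) (nat_lit 0) (XT.lf (nat_lit 0) (nat_lit 9436627800) (nat_lit 228) (nat_lit 3594863266) (nat_lit 76) (nat_lit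 7541406799) (nat_lit 9) (nat_lit 5) (nat_lit 12) (nat_lit 5) (nat_lit 10) (nat_lit 4) (nat_lit 217) (nat_lit 201) (nat_lit 182)) (XT.lf (nat_lit 0) (nat_lit 9601829657) (nat_lit 76) (nat_lit 6289422509) (nat_lit 152) (nat_lit 7051700776) (nat_lit 8) (nat_lit 5) (nat_lit 9) (nat_lit 5) (nat_lit 10) (nat_lit 4) (nat_lit 218) (nat_lit 201) (nat_lit 181))) (XT.nd (nat_lit 78) (nat_lit 152) (nat_lit 0) (XT.lf (nat_lit 0) (nat_lit 23323004118) (nat_lit 152) (nat_lit 921438439) (nat_lit 0) (nat_lit 1423892333) (nat_lit 8) (nat_lit 5) (nat_lit 10) (nat_lit 4) (nat_lit 8) (nat_lit 4) (nat_lit 219) (nat_lit 201) (nat_lit 180)) (XT.nd (nat_lit 78) (nat_lit 0) (nat_lit 0) (XT.lf (nat_lit 0) (nat_lit 3309937360) (nat_lit 152) (nat_lit 15174720559) (nat_lit 76) (nat_lit 10280685423) (nat_lit 6) (nat_lit 5) (nat_lit 8) (nat_lit 5) (nat_lit 7) (nat_lit 4) (nat_lit 220) (nat_lit 201) (nat_lit 179)) (XT.lf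 (nat_lit 0) (nat_lit 9597725741) (nat_lit 152) (nat_lit 2235493320) (nat_lit 76) (nat_lit 20495336000) (nat_lit 6) (nat_lit 5) (nat_lit 8) (nat_lit 5) (nat_lit 7) (nat_lit 4) (nat_lit 221) (nat_lit 201) (nat_lit 178))))))))
noncomputable def xc26 : XT := (XT.nd (nat_lit 1404) (nat_lit 0) (nat_lit 0) (XT.nd (nat_lit 702) (nat_lit 76) (nat_lit 0) (XT.nd (nat_lit 312) (nat_lit 152) (nat_lit 0) (XT.nd (nat_lit 156) (nat_lit 76) (nat_lit 0) (XT.nd (nat_lit 78) (nat_lit 0) (nat_lit 0) (XT.lf (nat_lit 0) (nat_lit 13145270499) (nat_lit 76) (nat_lit 3905319367) (nat_lit 152) (nat_lit 19358230767) (nat_lit 5) (nat_lit 5) (nat_lit 6) (nat_lit 5) (nat_lit 7) (nat_lit 4) (nat_lit 222) (nat_lit 201) (nat_lit 177)) (XT.lf (nat_lit 0) (nat_lit 25726700884) (nat_lit 152) (nat_lit 10403786908) (nat_lit 0) (nat_lit 4962495209) (nat_lit 5) (nat_lit 5) (nat_lit 7) (nat_lit 4) (nat_lit 5) (nat_lit 4) (nat_lit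 223) (nat_lit 201) (nat_lit 176))) (XT.nd (nat_lit 78) (nat_lit 0) (nat_lit 0) (XT.lf (nat_lit 0) (nat_lit 4365429630) (nat_lit 76) (nat_lit 31476320582) (nat_lit 76) (nat_lit 10627263293) (nat_lit 4) (nat_lit 4) (nat_lit 5) (nat_lit 5) (nat_lit 5) (nat_lit 4) (nat_lit 224) (nat_lit 201) (nat_lit 175)) (XT.lf (nat_lit 0) (nat_lit 21861167586) (nat_lit 76) (nat_lit 25847291798) (nat_lit 76) (nat_lit 4924450496) (nat_lit 4) (nat_lit 4) (nat_lit 5) (nat_lit 5) (nat_lit 5) (nat_lit 4) (nat_lit 225) (nat_lit 201) (nat_lit 174)))) (XT.nd (nat_lit 156) (nat_lit 76) (nat_lit 0) (XT.nd (nat_lit 78) (nat_lit 0) (nat_lit 0) (XT.lf (nat_lit 0) (nat_lit 1490773577) (nat_lit 152) (nat_lit 17886192270) (nat_lit 76) (nat_lit 40346355924) (nat_lit 3) (nat_lit 5) (nat_lit 5) (nat_lit 5) (nat_lit 4) (nat_lit 4) (nat_lit 226) (nat_lit 201) (nat_lit 173)) (XT.lf (nat_lit 0) (nat_lit 8531700345) (nat_lit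 152) (nat_lit 3296855906) (nat_lit 76) (nat_lit 56042255923) (nat_lit 3) (nat_lit 5) (nat_lit 5) (nat_lit 5) (nat_lit 4) (nat_lit 4) (nat_lit 227) (nat_lit 201) (nat_lit 172))) (XT.nd (nat_lit 78) (nat_lit 0) (nat_lit 0) (XT.lf (nat_lit 0) (nat_lit 14105771297) (nat_lit 76) (nat_lit 2815900870) (nat_lit 152) (nat_lit 60295451463) (nat_lit 2) (nat_lit 5) (nat_lit 3) (nat_lit 5) (nat_lit 4) (nat_lit 4) (nat_lit 228) (nat_lit 201) (nat_lit 171)) (XT.nd (nat_lit 78) (nat_lit 0) (nat_lit 0) (XT.lf (nat_lit 0) (nat_lit 26807325618) (nat_lit 152) (nat_lit 53899917850) (nat_lit 0) (nat_lit 7239276489) (nat_lit 2) (nat_lit 5) (nat_lit 4) (nat_lit 4) (nat_lit 2) (nat_lit 4) (nat_lit 229) (nat_lit 201) (nat_lit 170)) (XT.lf (nat_lit 0) (nat_lit 38216458430) (nat_lit 152) (nat_lit 43451272160) (nat_lit 0) (nat_lit 18614442917) (nat_lit 2) (nat_lit 5) (nat_lit 4) (nat_lit 4) (nat_lit 2) (nat_lit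 4) (nat_lit 230) (nat_lit 201) (nat_lit 169)))))) (XT.nd (nat_lit 312) (nat_lit 0) (nat_lit 0) (XT.nd (nat_lit 156) (nat_lit 76) (nat_lit 0) (XT.nd (nat_lit 78) (nat_lit 0) (nat_lit 0) (XT.lf (nat_lit 0) (nat_lit 51304570283) (nat_lit 152) (nat_lit 31493262754) (nat_lit 0) (nat_lit 31673018784) (nat_lit 2) (nat_lit 5) (nat_lit 4) (nat_lit 4) (nat_lit 2) (nat_lit 4) (nat_lit 231) (nat_lit 201) (nat_lit 168)) (XT.lf (nat_lit 0) (nat_lit 66327732930) (nat_lit 152) (nat_lit 17791928579) (nat_lit 0) (nat_lit 46670497965) (nat_lit 2) (nat_lit 5) (nat_lit 4) (nat_lit 4) (nat_lit 2) (nat_lit 4) (nat_lit 232) (nat_lit 201) (nat_lit 167))) (XT.nd (nat_lit 78) (nat_lit 76) (nat_lit 0) (XT.lf (nat_lit 0) (nat_lit 83579877815) (nat_lit 152) (nat_lit 2079200053) (nat_lit 0) (nat_lit 63900309402) (nat_lit 2) (nat_lit 5) (nat_lit 4) (nat_lit 4) (nat_lit 2) (nat_lit 4) (nat_lit 233) (nat_lit 201) (nat_lit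 166)) (XT.lf (nat_lit 0) (nat_lit 16792368031) (nat_lit 76) (nat_lit 87010035727) (nat_lit 76) (nat_lit 67311046923) (nat_lit 1) (nat_lit 4) (nat_lit 2) (nat_lit 5) (nat_lit 2) (nat_lit 4) (nat_lit 234) (nat_lit 201) (nat_lit 165)))) (XT.nd (nat_lit 156) (nat_lit 0) (nat_lit 0) (XT.nd (nat_lit 78) (nat_lit 0) (nat_lit 0) (XT.lf (nat_lit 0) (nat_lit 38585713684) (nat_lit 76) (nat_lit 88513770420) (nat_lit 76) (nat_lit 68797894320) (nat_lit 1) (nat_lit 4) (nat_lit 2) (nat_lit 5) (nat_lit 2) (nat_lit 4) (nat_lit 235) (nat_lit 201) (nat_lit 164)) (XT.lf (nat_lit 0) (nat_lit 63617741461) (nat_lit 76) (nat_lit 90256551858) (nat_lit 76) (nat_lit 70525991154) (nat_lit 1) (nat_lit 4) (nat_lit 2) (nat_lit 5) (nat_lit 2) (nat_lit 4) (nat_lit 236) (nat_lit 201) (nat_lit 163))) (XT.nd (nat_lit 78) (nat_lit 0) (nat_lit 0) (XT.lf (nat_lit 0) (nat_lit 92378208428) (nat_lit 76) (nat_lit 92272477940)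 (nat_lit 76) (nat_lit 72529148013) (nat_lit 1) (nat_lit 4) (nat_lit 2) (nat_lit 5) (nat_lit 2) (nat_lit 4) (nat_lit 237) (nat_lit 201) (nat_lit 162)) (XT.nd (nat_lit 78) (nat_lit 0) (nat_lit 0) (XT.lf (nat_lit 0) (nat_lit 125429819373) (nat_lit 76) (nat_lit 94600990696) (nat_lit 76) (nat_lit 74846557099) (nat_lit 1) (nat_lit 4) (nat_lit 2) (nat_lit 5) (nat_lit 2) (nat_lit 4) (nat_lit 238) (nat_lit 201) (nat_lit 161)) (XT.lf (nat_lit 0) (nat_lit 163419236249) (nat_lit 76) (nat_lit 97287647986) (nat_lit 76) (nat_lit 77523559022) (nat_lit 1) (nat_lit 4) (nat_lit 2) (nat_lit 5) (nat_lit 2) (nat_lit 4) (nat_lit 239) (nat_lit 201) (nat_lit 160))))))) (XT.nd (nat_lit 702) (nat_lit 0) (nat_lit 0) (XT.nd (nat_lit 312) (nat_lit 0) (nat_lit 0) (XT.nd (nat_lit 156) (nat_lit 0) (nat_lit 0) (XT.nd (nat_lit 78) (nat_lit 0) (nat_lit 0) (XT.lf (nat_lit 0) (nat_lit 207089730256) (nat_lit 76) (nat_lit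 100385014843) (nat_lit 76) (nat_lit 80612529909) (nat_lit 1) (nat_lit 4) (nat_lit 2) (nat_lit 5) (nat_lit 2) (nat_lit 4) (nat_lit 240) (nat_lit 201) (nat_lit 159)) (XT.lf (nat_lit 0) (nat_lit 257295724102) (nat_lit 76) (nat_lit 103953691923) (nat_lit 76) (nat_lit 84173906145) (nat_lit 1) (nat_lit 4) (nat_lit 2) (nat_lit 5) (nat_lit 2) (nat_lit 4) (nat_lit 241) (nat_lit 201) (nat_lit 158))) (XT.nd (nat_lit 78) (nat_lit 0) (nat_lit 0) (XT.lf (nat_lit 0) (nat_lit 315019508972) (nat_lit 76) (nat_lit 108063501169) (nat_lit 76) (nat_lit 88277366831) (nat_lit 1) (nat_lit 4) (nat_lit 2) (nat_lit 5) (nat_lit 2) (nat_lit 4) (nat_lit 242) (nat_lit 201) (nat_lit 157)) (XT.lf (nat_lit 0) (nat_lit 381390463266) (nat_lit 76) (nat_lit 112794851892) (nat_lit 76) (nat_lit 93003197067) (nat_lit 1) (nat_lit 4) (nat_lit 2) (nat_lit 5) (nat_lit 2) (nat_lit 4) (nat_lit 243) (nat_lit 201) (nat_lit 156)))) (XT.nd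 (nat_lit 156) (nat_lit 0) (nat_lit 0) (XT.nd (nat_lit 78) (nat_lit 0) (nat_lit 0) (XT.lf (nat_lit 0) (nat_lit 457707149132) (nat_lit 76) (nat_lit 118240313998) (nat_lit 76) (nat_lit 98443858750) (nat_lit 1) (nat_lit 4) (nat_lit 2) (nat_lit 5) (nat_lit 2) (nat_lit 4) (nat_lit 244) (nat_lit 201) (nat_lit 155)) (XT.lf (nat_lit 0) (nat_lit 545462719120) (nat_lit 76) (nat_lit 124506429137) (nat_lit 76) (nat_lit 104705799608) (nat_lit 1) (nat_lit 4) (nat_lit 2) (nat_lit 5) (nat_lit 2) (nat_lit 4) (nat_lit 245) (nat_lit 201) (nat_lit 154))) (XT.nd (nat_lit 78) (nat_lit 0) (nat_lit 0) (XT.lf (nat_lit 0) (nat_lit 646374130034) (nat_lit 76) (nat_lit 131715795214) (nat_lit 76) (nat_lit 111911535874) (nat_lit 1) (nat_lit 4) (nat_lit 2) (nat_lit 5) (nat_lit 2) (nat_lit 4) (nat_lit 246) (nat_lit 201) (nat_lit 153)) (XT.nd (nat_lit 78) (nat_lit 0) (nat_lit 0) (XT.lf (nat_lit 0) (nat_lit 762415735566)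 (nat_lit 76) (nat_lit 140009465042) (nat_lit 76) (nat_lit 120202049347) (nat_lit 1) (nat_lit 4) (nat_lit 2) (nat_lit 5) (nat_lit 2) (nat_lit 4) (nat_lit 247) (nat_lit 201) (nat_lit 152)) (XT.lf (nat_lit 0) (nat_lit 895857914955) (nat_lit 76) (nat_lit 149549706076) (nat_lit 76) (nat_lit 129739545723) (nat_lit 1) (nat_lit 4) (nat_lit 2) (nat_lit 5) (nat_lit 2) (nat_lit 4) (nat_lit 248) (nat_lit 201) (nat_lit 151)))))) (XT.nd (nat_lit 390) (nat_lit 0) (nat_lit 0) (XT.nd (nat_lit 156) (nat_lit 0) (nat_lit 0) (XT.nd (nat_lit 78) (nat_lit 0) (nat_lit 0) (XT.lf (nat_lit 0) (nat_lit 1049311493449) (nat_lit 76) (nat_lit 160523175205) (nat_lit 76) (nat_lit 140710628193) (nat_lit 1) (nat_lit 4) (nat_lit 2) (nat_lit 5) (nat_lit 2) (nat_lit 4) (nat_lit 249) (nat_lit 201) (nat_lit 150)) (XT.lf (nat_lit 0) (nat_lit 1225778823672) (nat_lit 76) (nat_lit 173144570738) (nat_lit 76) (nat_lit 153329948370)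 (nat_lit 1) (nat_lit 4) (nat_lit 2) (nat_lit 5) (nat_lit 2) (nat_lit 4) (nat_lit 250) (nat_lit 201) (nat_lit 149))) (XT.nd (nat_lit 78) (nat_lit 0) (nat_lit 0) (XT.lf (nat_lit 0) (nat_lit 1428712527301) (nat_lit 76) (nat_lit 187660833022) (nat_lit 76) (nat_lit 167844405998) (nat_lit 1) (nat_lit 4) (nat_lit 2) (nat_lit 5) (nat_lit 2) (nat_lit 4) (nat_lit 251) (nat_lit 201) (nat_lit 148)) (XT.nd (nat_lit 78) (nat_lit 0) (nat_lit 0) (XT.lf (nat_lit 0) (nat_lit 1662083046364) (nat_lit 76) (nat_lit 204355975886) (nat_lit 76) (nat_lit 184537979594) (nat_lit 1) (nat_lit 4) (nat_lit 2) (nat_lit 5) (nat_lit 2) (nat_lit 4) (nat_lit 252) (nat_lit 201) (nat_lit 147)) (XT.lf (nat_lit 0) (nat_lit 1930456325799) (nat_lit 76) (nat_lit 223556643427) (nat_lit 76) (nat_lit 203737282556) (nat_lit 1) (nat_lit 4) (nat_lit 2) (nat_lit 5) (nat_lit 2) (nat_lit 4) (nat_lit 253) (nat_lit 201) (nat_lit 146)))))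 (XT.nd (nat_lit 156) (nat_lit 0) (nat_lit 0) (XT.nd (nat_lit 78) (nat_lit 0) (nat_lit 0) (XT.lf (nat_lit 0) (nat_lit 2239083147161) (nat_lit 76) (nat_lit 245638500882) (nat_lit 76) (nat_lit 225817953419) (nat_lit 1) (nat_lit 4) (nat_lit 2) (nat_lit 5) (nat_lit 2) (nat_lit 4) (nat_lit 254) (nat_lit 201) (nat_lit 145)) (XT.lf (nat_lit 0) (nat_lit 2594001861302) (nat_lit 76) (nat_lit 271033584590) (nat_lit 76) (nat_lit 251212005309) (nat_lit 1) (nat_lit 4) (nat_lit 2) (nat_lit 5) (nat_lit 2) (nat_lit 4) (nat_lit 255) (nat_lit 201) (nat_lit 144))) (XT.nd (nat_lit 78) (nat_lit 0) (nat_lit 0) (XT.lf (nat_lit 0) (nat_lit 3002156530021) (nat_lit 76) (nat_lit 300238754887) (nat_lit 76) (nat_lit 280416278372) (nat_lit 1) (nat_lit 4) (nat_lit 2) (nat_lit 5) (nat_lit 2) (nat_lit 4) (nat_lit 256) (nat_lit 201) (nat_lit 143)) (XT.nd (nat_lit 78) (nat_lit 0) (nat_lit 0) (XT.lf (nat_lit 0) (nat_lit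 3471532788140) (nat_lit 76) (nat_lit 333825417277) (nat_lit 76) (nat_lit 314002160559) (nat_lit 1) (nat_lit 4) (nat_lit 2) (nat_lit 5) (nat_lit 2) (nat_lit 4) (nat_lit 257) (nat_lit 201) (nat_lit 142)) (XT.lf (nat_lit 0) (nat_lit 4011314084188) (nat_lit 76) (nat_lit 372450702112) (nat_lit 76) (nat_lit 352626766956) (nat_lit 1) (nat_lit 4) (nat_lit 2) (nat_lit 5) (nat_lit 2) (nat_lit 4) (nat_lit 258) (nat_lit 201) (nat_lit 141))))))))
noncomputable def xc27 : XT := (XT.nd (nat_lit 1404) (nat_lit 532) (nat_lit 0) (XT.nd (nat_lit 702) (nat_lit 988) (nat_lit 0) (XT.nd (nat_lit 312) (nat_lit 1596) (nat_lit 0) (XT.nd (nat_lit 156) (nat_lit 304) (nat_lit 0) (XT.nd (nat_lit 78) (nat_lit 0) (nat_lit 0) (XT.lf (nat_lit 0) (nat_lit 833669429) (nat_lit 0) (nat_lit 833669429) (nat_lit 228) (nat_lit 1752078479) (nat_lit 46) (nat_lit 5) (nat_lit 46) (nat_lit 3) (nat_lit 49) (nat_lit 3) (nat_lit 202)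 (nat_lit 202) (nat_lit 196)) (XT.lf (nat_lit 76) (nat_lit 228264424) (nat_lit 0) (nat_lit 6435801240) (nat_lit 304) (nat_lit 410198009) (nat_lit 47) (nat_lit 5) (nat_lit 46) (nat_lit 5) (nat_lit 50) (nat_lit 5) (nat_lit 203) (nat_lit 202) (nat_lit 195))) (XT.nd (nat_lit 78) (nat_lit 0) (nat_lit 0) (XT.lf (nat_lit 0) (nat_lit 2625317963) (nat_lit 304) (nat_lit 1087591613) (nat_lit 380) (nat_lit 3660380423) (nat_lit 42) (nat_lit 5) (nat_lit 46) (nat_lit 5) (nat_lit 47) (nat_lit 5) (nat_lit 204) (nat_lit 202) (nat_lit 194)) (XT.lf (nat_lit 76) (nat_lit 5466188462) (nat_lit 0) (nat_lit 265962237) (nat_lit 380) (nat_lit 2017409343) (nat_lit 43) (nat_lit 5) (nat_lit 42) (nat_lit 5) (nat_lit 47) (nat_lit 5) (nat_lit 205) (nat_lit 202) (nat_lit 193)))) (XT.nd (nat_lit 156) (nat_lit 912) (nat_lit 0) (XT.nd (nat_lit 78) (nat_lit 380) (nat_lit 0) (XT.lf (nat_lit 0) (nat_lit 860156654) (nat_lit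 380) (nat_lit 3534122056) (nat_lit 76) (nat_lit 3805939585) (nat_lit 38) (nat_lit 5) (nat_lit 43) (nat_lit 5) (nat_lit 39) (nat_lit 5) (nat_lit 206) (nat_lit 202) (nat_lit 192)) (XT.lf (nat_lit 0) (nat_lit 3826908085) (nat_lit 456) (nat_lit 4863734632) (nat_lit 76) (nat_lit 44605887) (nat_lit 33) (nat_lit 5) (nat_lit 39) (nat_lit 5) (nat_lit 34) (nat_lit 5) (nat_lit 207) (nat_lit 202) (nat_lit 191))) (XT.nd (nat_lit 78) (nat_lit 456) (nat_lit 0) (XT.lf (nat_lit 0) (nat_lit 2940200374) (nat_lit 456) (nat_lit 4245273202) (nat_lit 532) (nat_lit 2172033715) (nat_lit 27) (nat_lit 5) (nat_lit 33) (nat_lit 5) (nat_lit 34) (nat_lit 5) (nat_lit 208) (nat_lit 202) (nat_lit 190)) (XT.nd (nat_lit 78) (nat_lit 152) (nat_lit 0) (XT.lf (nat_lit 0) (nat_lit 819546525) (nat_lit 304) (nat_lit 8228307155) (nat_lit 76) (nat_lit 1034077152) (nat_lit 23) (nat_lit 5) (nat_lit 27) (nat_lit 5) (nat_lit 24) (nat_lit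 5) (nat_lit 209) (nat_lit 202) (nat_lit 189)) (XT.lf (nat_lit 0) (nat_lit 360393083) (nat_lit 152) (nat_lit 3803590661) (nat_lit 228) (nat_lit 6745805477) (nat_lit 21) (nat_lit 5) (nat_lit 23) (nat_lit 5) (nat_lit 24) (nat_lit 5) (nat_lit 210) (nat_lit 202) (nat_lit 188)))))) (XT.nd (nat_lit 312) (nat_lit 380) (nat_lit 0) (XT.nd (nat_lit 156) (nat_lit 380) (nat_lit 0) (XT.nd (nat_lit 78) (nat_lit 228) (nat_lit 0) (XT.lf (nat_lit 0) (nat_lit 8050119800) (nat_lit 228) (nat_lit 1489236872) (nat_lit 76) (nat_lit 2320921748) (nat_lit 21) (nat_lit 5) (nat_lit 24) (nat_lit 5) (nat_lit 22) (nat_lit 5) (nat_lit 211) (nat_lit 202) (nat_lit 187)) (XT.lf (nat_lit 0) (nat_lit 8994273475) (nat_lit 228) (nat_lit 3620922543) (nat_lit 304) (nat_lit 331902283) (nat_lit 18) (nat_lit 5) (nat_lit 21) (nat_lit 5) (nat_lit 22) (nat_lit 5) (nat_lit 212) (nat_lit 202) (nat_lit 186))) (XT.nd (nat_lit 78) (nat_lit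 152) (nat_lit 0) (XT.lf (nat_lit 0) (nat_lit 3570135700) (nat_lit 228) (nat_lit 7337956653) (nat_lit 76) (nat_lit 3276107029) (nat_lit 15) (nat_lit 5) (nat_lit 18) (nat_lit 5) (nat_lit 16) (nat_lit 5) (nat_lit 213) (nat_lit 202) (nat_lit 185)) (XT.lf (nat_lit 0) (nat_lit 3720006283) (nat_lit 152) (nat_lit 4437261257) (nat_lit 228) (nat_lit 7440360588) (nat_lit 13) (nat_lit 5) (nat_lit 15) (nat_lit 5) (nat_lit 16) (nat_lit 5) (nat_lit 214) (nat_lit 202) (nat_lit 184)))) (XT.nd (nat_lit 156) (nat_lit 228) (nat_lit 0) (XT.nd (nat_lit 78) (nat_lit 152) (nat_lit 0) (XT.lf (nat_lit 0) (nat_lit 13552340755) (nat_lit 228) (nat_lit 654158200) (nat_lit 76) (nat_lit 3007858510) (nat_lit 13) (nat_lit 5) (nat_lit 16) (nat_lit 5) (nat_lit 14) (nat_lit 4) (nat_lit 215) (nat_lit 202) (nat_lit 183)) (XT.lf (nat_lit 0) (nat_lit 930423325) (nat_lit 152) (nat_lit 6537180302) (nat_lit 76) (nat_lit 11582862455)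 (nat_lit 11) (nat_lit 5) (nat_lit 13) (nat_lit 5) (nat_lit 12) (nat_lit 5) (nat_lit 216) (nat_lit 202) (nat_lit 182))) (XT.nd (nat_lit 78) (nat_lit 76) (nat_lit 0) (XT.lf (nat_lit 0) (nat_lit 6051886168) (nat_lit 228) (nat_lit 14610773606) (nat_lit 76) (nat_lit 487776029) (nat_lit 9) (nat_lit 5) (nat_lit 12) (nat_lit 5) (nat_lit 10) (nat_lit 4) (nat_lit 217) (nat_lit 202) (nat_lit 181)) (XT.nd (nat_lit 78) (nat_lit 76) (nat_lit 0) (XT.lf (nat_lit 0) (nat_lit 12216643678) (nat_lit 228) (nat_lit 1987143863) (nat_lit 76) (nat_lit 9340140745) (nat_lit 9) (nat_lit 5) (nat_lit 12) (nat_lit 5) (nat_lit 10) (nat_lit 4) (nat_lit 218) (nat_lit 202) (nat_lit 180)) (XT.lf (nat_lit 0) (nat_lit 13007324468) (nat_lit 76) (nat_lit 6501419735) (nat_lit 152) (nat_lit 6771953846) (nat_lit 8) (nat_lit 5) (nat_lit 9) (nat_lit 5) (nat_lit 10) (nat_lit 4) (nat_lit 219) (nat_lit 202) (nat_lit 179))))))) (XT.nd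 (nat_lit 702) (nat_lit 152) (nat_lit 0) (XT.nd (nat_lit 312) (nat_lit 152) (nat_lit 0) (XT.nd (nat_lit 156) (nat_lit 76) (nat_lit 0) (XT.nd (nat_lit 78) (nat_lit 76) (nat_lit 0) (XT.lf (nat_lit 0) (nat_lit 762239237) (nat_lit 76) (nat_lit 27165716750) (nat_lit 76) (nat_lit 1497766863) (nat_lit 7) (nat_lit 4) (nat_lit 8) (nat_lit 5) (nat_lit 8) (nat_lit 4) (nat_lit 220) (nat_lit 202) (nat_lit 178)) (XT.lf (nat_lit 0) (nat_lit 4821114912) (nat_lit 152) (nat_lit 15761224429) (nat_lit 76) (nat_lit 12413134433) (nat_lit 6) (nat_lit 5) (nat_lit 8) (nat_lit 5) (nat_lit 7) (nat_lit 4) (nat_lit 221) (nat_lit 202) (nat_lit 177))) (XT.nd (nat_lit 78) (nat_lit 76) (nat_lit 0) (XT.lf (nat_lit 0) (nat_lit 11919721079) (nat_lit 152) (nat_lit 1101509307) (nat_lit 76) (nat_lit 24082980918) (nat_lit 6) (nat_lit 5) (nat_lit 8) (nat_lit 5) (nat_lit 7) (nat_lit 4) (nat_lit 222) (nat_lit 202) (nat_lit 176))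 (XT.lf (nat_lit 0) (nat_lit 16461999480) (nat_lit 76) (nat_lit 3945773777) (nat_lit 152) (nat_lit 21395759314) (nat_lit 5) (nat_lit 5) (nat_lit 6) (nat_lit 5) (nat_lit 7) (nat_lit 4) (nat_lit 223) (nat_lit 202) (nat_lit 175)))) (XT.nd (nat_lit 156) (nat_lit 76) (nat_lit 0) (XT.nd (nat_lit 78) (nat_lit 76) (nat_lit 0) (XT.lf (nat_lit 0) (nat_lit 30292410743) (nat_lit 152) (nat_lit 10748325345) (nat_lit 0) (nat_lit 6157359234) (nat_lit 5) (nat_lit 5) (nat_lit 7) (nat_lit 4) (nat_lit 5) (nat_lit 4) (nat_lit 224) (nat_lit 202) (nat_lit 174)) (XT.lf (nat_lit 0) (nat_lit 6133342825) (nat_lit 76) (nat_lit 35725965819) (nat_lit 76) (nat_lit 11526754300) (nat_lit 4) (nat_lit 4) (nat_lit 5) (nat_lit 5) (nat_lit 5) (nat_lit 4) (nat_lit 225) (nat_lit 202) (nat_lit 173))) (XT.nd (nat_lit 78) (nat_lit 76) (nat_lit 0) (XT.lf (nat_lit 0) (nat_lit 26108254681) (nat_lit 76) (nat_lit 29314122220) (nat_lit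 76) (nat_lit 5059119387) (nat_lit 4) (nat_lit 4) (nat_lit 5) (nat_lit 5) (nat_lit 5) (nat_lit 4) (nat_lit 226) (nat_lit 202) (nat_lit 172)) (XT.nd (nat_lit 78) (nat_lit 0) (nat_lit 0) (XT.lf (nat_lit 0) (nat_lit 2213332417) (nat_lit 152) (nat_lit 19699785590) (nat_lit 76) (nat_lit 46727387100) (nat_lit 3) (nat_lit 5) (nat_lit 5) (nat_lit 5) (nat_lit 4) (nat_lit 4) (nat_lit 227) (nat_lit 202) (nat_lit 171)) (XT.lf (nat_lit 0) (nat_lit 10245318705) (nat_lit 152) (nat_lit 3035440360) (nat_lit 76) (nat_lit 64734748909) (nat_lit 3) (nat_lit 5) (nat_lit 5) (nat_lit 5) (nat_lit 4) (nat_lit 4) (nat_lit 228) (nat_lit 202) (nat_lit 170)))))) (XT.nd (nat_lit 390) (nat_lit 76) (nat_lit 0) (XT.nd (nat_lit 156) (nat_lit 0) (nat_lit 0) (XT.nd (nat_lit 78) (nat_lit 0) (nat_lit 0) (XT.lf (nat_lit 0) (nat_lit 16913594034) (nat_lit 76) (nat_lit 2940242982) (nat_lit 152) (nat_lit 68913283808) (nat_lit 2)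 (nat_lit 5) (nat_lit 3) (nat_lit 5) (nat_lit 4) (nat_lit 4) (nat_lit 229) (nat_lit 202) (nat_lit 169)) (XT.lf (nat_lit 0) (nat_lit 31177191389) (nat_lit 152) (nat_lit 61361113832) (nat_lit 0) (nat_lit 8571371179) (nat_lit 2) (nat_lit 5) (nat_lit 4) (nat_lit 4) (nat_lit 2) (nat_lit 4) (nat_lit 230) (nat_lit 202) (nat_lit 168))) (XT.nd (nat_lit 78) (nat_lit 0) (nat_lit 0) (XT.lf (nat_lit 0) (nat_lit 44252202784) (nat_lit 152) (nat_lit 49426535422) (nat_lit 0) (nat_lit 21620699108) (nat_lit 2) (nat_lit 5) (nat_lit 4) (nat_lit 4) (nat_lit 2) (nat_lit 4) (nat_lit 231) (nat_lit 202) (nat_lit 167)) (XT.nd (nat_lit 78) (nat_lit 0) (nat_lit 0) (XT.lf (nat_lit 0) (nat_lit 59263973729) (nat_lit 152) (nat_lit 35745576026) (nat_lit 0) (nat_lit 36610136605) (nat_lit 2) (nat_lit 5) (nat_lit 4) (nat_lit 4) (nat_lit 2) (nat_lit 4) (nat_lit 232) (nat_lit 202) (nat_lit 166)) (XT.lf (nat_lit 0) (nat_lit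 76506212786) (nat_lit 152) (nat_lit 20050564700) (nat_lit 0) (nat_lit 53832955272) (nat_lit 2) (nat_lit 5) (nat_lit 4) (nat_lit 4) (nat_lit 2) (nat_lit 4) (nat_lit 233) (nat_lit 202) (nat_lit 165))))) (XT.nd (nat_lit 156) (nat_lit 0) (nat_lit 0) (XT.nd (nat_lit 78) (nat_lit 76) (nat_lit 0) (XT.lf (nat_lit 0) (nat_lit 96316268110) (nat_lit 152) (nat_lit 2034425134) (nat_lit 0) (nat_lit 73626123300) (nat_lit 2) (nat_lit 5) (nat_lit 4) (nat_lit 4) (nat_lit 2) (nat_lit 4) (nat_lit 234) (nat_lit 202) (nat_lit 164)) (XT.lf (nat_lit 0) (nat_lit 19637689099) (nat_lit 76) (nat_lit 99916325536) (nat_lit 76) (nat_lit 77211496121) (nat_lit 1) (nat_lit 4) (nat_lit 2) (nat_lit 5) (nat_lit 2) (nat_lit 4) (nat_lit 235) (nat_lit 202) (nat_lit 163))) (XT.nd (nat_lit 78) (nat_lit 0) (nat_lit 0) (XT.lf (nat_lit 0) (nat_lit 44657454096) (nat_lit 76) (nat_lit 101664561592) (nat_lit 76) (nat_lit 78946962955)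 (nat_lit 1) (nat_lit 4) (nat_lit 2) (nat_lit 5) (nat_lit 2) (nat_lit 4) (nat_lit 236) (nat_lit 202) (nat_lit 162)) (XT.nd (nat_lit 78) (nat_lit 0) (nat_lit 0) (XT.lf (nat_lit 0) (nat_lit 73407257776) (nat_lit 76) (nat_lit 103685230819) (nat_lit 76) (nat_lit 80956528511) (nat_lit 1) (nat_lit 4) (nat_lit 2) (nat_lit 5) (nat_lit 2) (nat_lit 4) (nat_lit 237) (nat_lit 202) (nat_lit 161)) (XT.lf (nat_lit 0) (nat_lit 106449596297) (nat_lit 76) (nat_lit 106017868050) (nat_lit 76) (nat_lit 83279510376) (nat_lit 1) (nat_lit 4) (nat_lit 2) (nat_lit 5) (nat_lit 2) (nat_lit 4) (nat_lit 238) (nat_lit 202) (nat_lit 160))))))))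
noncomputable def xc28 : XT := (XT.nd (nat_lit 1404) (nat_lit 0) (nat_lit 0) (XT.nd (nat_lit 702) (nat_lit 0) (nat_lit 0) (XT.nd (nat_lit 312) (nat_lit 0) (nat_lit 0) (XT.nd (nat_lit 156) (nat_lit 0) (nat_lit 0) (XT.nd (nat_lit 78) (nat_lit 0) (nat_lit 0) (XT.lf (nat_lit 0) (nat_lit 144430950196) (nat_lit 76) (nat_lit 108708111839) (nat_lit 76) (nat_lit 85961358194) (nat_lit 1) (nat_lit 4) (nat_lit 2) (nat_lit 5) (nat_lit 2) (nat_lit 4) (nat_lit 239) (nat_lit 202) (nat_lit 159)) (XT.lf (nat_lit 0) (nat_lit 188094432919) (nat_lit 76) (nat_lit 111808597391) (nat_lit 76) (nat_lit 89054542902) (nat_lit 1) (nat_lit 4) (nat_lit 2) (nat_lit 5) (nat_lit 2) (nat_lit 4) (nat_lit 240) (nat_lit 202) (nat_lit 158))) (XT.nd (nat_lit 78) (nat_lit 0) (nat_lit 0) (XT.lf (nat_lit 0) (nat_lit 238294329996) (nat_lit 76) (nat_lit 115379986380) (nat_lit 76) (nat_lit 92619583331) (nat_lit 1) (nat_lit 4) (nat_lit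 2) (nat_lit 5) (nat_lit 2) (nat_lit 4) (nat_lit 241) (nat_lit 202) (nat_lit 157)) (XT.lf (nat_lit 0) (nat_lit 296012813328) (nat_lit 76) (nat_lit 119492153808) (nat_lit 76) (nat_lit 96726230272) (nat_lit 1) (nat_lit 4) (nat_lit 2) (nat_lit 5) (nat_lit 2) (nat_lit 4) (nat_lit 242) (nat_lit 202) (nat_lit 156)))) (XT.nd (nat_lit 156) (nat_lit 0) (nat_lit 0) (XT.nd (nat_lit 78) (nat_lit 0) (nat_lit 0) (XT.lf (nat_lit 0) (nat_lit 362379157588) (nat_lit 76) (nat_lit 124225555124) (nat_lit 76) (nat_lit 101454831165) (nat_lit 1) (nat_lit 4) (nat_lit 2) (nat_lit 5) (nat_lit 2) (nat_lit 4) (nat_lit 243) (nat_lit 202) (nat_lit 155)) (XT.lf (nat_lit 0) (nat_lit 438691834729) (nat_lit 76) (nat_lit 129672800354) (nat_lit 76) (nat_lit 106897902114) (nat_lit 1) (nat_lit 4) (nat_lit 2) (nat_lit 5) (nat_lit 2) (nat_lit 4) (nat_lit 244) (nat_lit 202) (nat_lit 154))) (XT.nd (nat_lit 78) (nat_lit 0) (nat_lit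 0) (XT.lf (nat_lit 0) (nat_lit 526443918870) (nat_lit 76) (nat_lit 135940466035) (nat_lit 76) (nat_lit 113161937985) (nat_lit 1) (nat_lit 4) (nat_lit 2) (nat_lit 5) (nat_lit 2) (nat_lit 4) (nat_lit 245) (nat_lit 202) (nat_lit 153)) (XT.nd (nat_lit 78) (nat_lit 0) (nat_lit 0) (XT.lf (nat_lit 0) (nat_lit 627352298612) (nat_lit 76) (nat_lit 143151180410) (nat_lit 76) (nat_lit 120369496003) (nat_lit 1) (nat_lit 4) (nat_lit 2) (nat_lit 5) (nat_lit 2) (nat_lit 4) (nat_lit 246) (nat_lit 202) (nat_lit 152)) (XT.lf (nat_lit 0) (nat_lit 743391268343) (nat_lit 76) (nat_lit 151446022671) (nat_lit 76) (nat_lit 128661593607) (nat_lit 1) (nat_lit 4) (nat_lit 2) (nat_lit 5) (nat_lit 2) (nat_lit 4) (nat_lit 247) (nat_lit 202) (nat_lit 151)))))) (XT.nd (nat_lit 312) (nat_lit 0) (nat_lit 0) (XT.nd (nat_lit 156) (nat_lit 0) (nat_lit 0) (XT.nd (nat_lit 78) (nat_lit 0) (nat_lit 0) (XT.lf (nat_lit 0) (nat_lit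 876831155731) (nat_lit 76) (nat_lit 160987283212) (nat_lit 76) (nat_lit 138200467489) (nat_lit 1) (nat_lit 4) (nat_lit 2) (nat_lit 5) (nat_lit 2) (nat_lit 4) (nat_lit 248) (nat_lit 202) (nat_lit 150)) (XT.lf (nat_lit 0) (nat_lit 1030282741180) (nat_lit 76) (nat_lit 171961638869) (nat_lit 76) (nat_lit 149172747790) (nat_lit 1) (nat_lit 4) (nat_lit 2) (nat_lit 5) (nat_lit 2) (nat_lit 4) (nat_lit 249) (nat_lit 202) (nat_lit 149))) (XT.nd (nat_lit 78) (nat_lit 0) (nat_lit 0) (XT.lf (nat_lit 0) (nat_lit 1206748338321) (nat_lit 76) (nat_lit 184583805296) (nat_lit 76) (nat_lit 161793109560) (nat_lit 1) (nat_lit 4) (nat_lit 2) (nat_lit 5) (nat_lit 2) (nat_lit 4) (nat_lit 250) (nat_lit 202) (nat_lit 148)) (XT.lf (nat_lit 0) (nat_lit 1409680534922) (nat_lit 76) (nat_lit 199100737922) (nat_lit 76) (nat_lit 176308472920) (nat_lit 1) (nat_lit 4) (nat_lit 2) (nat_lit 5) (nat_lit 2) (nat_lit 4) (nat_lit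 251) (nat_lit 202) (nat_lit 147)))) (XT.nd (nat_lit 156) (nat_lit 0) (nat_lit 0) (XT.nd (nat_lit 78) (nat_lit 0) (nat_lit 0) (XT.lf (nat_lit 0) (nat_lit 1643049743526) (nat_lit 76) (nat_lit 215796463692) (nat_lit 76) (nat_lit 193002834110) (nat_lit 1) (nat_lit 4) (nat_lit 2) (nat_lit 5) (nat_lit 2) (nat_lit 4) (nat_lit 252) (nat_lit 202) (nat_lit 146)) (XT.lf (nat_lit 0) (nat_lit 1911421883432) (nat_lit 76) (nat_lit 234997638109) (nat_lit 76) (nat_lit 212202821935) (nat_lit 1) (nat_lit 4) (nat_lit 2) (nat_lit 5) (nat_lit 2) (nat_lit 4) (nat_lit 253) (nat_lit 202) (nat_lit 145))) (XT.nd (nat_lit 78) (nat_lit 0) (nat_lit 0) (XT.lf (nat_lit 0) (nat_lit 2220047713898) (nat_lit 76) (nat_lit 257079936324) (nat_lit 76) (nat_lit 234284088332) (nat_lit 1) (nat_lit 4) (nat_lit 2) (nat_lit 5) (nat_lit 2) (nat_lit 4) (nat_lit 254) (nat_lit 202) (nat_lit 144)) (XT.nd (nat_lit 78) (nat_lit 0) (nat_lit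 0) (XT.lf (nat_lit 0) (nat_lit 2574965566391) (nat_lit 76) (nat_lit 282475403303) (nat_lit 76) (nat_lit 259678658078) (nat_lit 1) (nat_lit 4) (nat_lit 2) (nat_lit 5) (nat_lit 2) (nat_lit 4) (nat_lit 255) (nat_lit 202) (nat_lit 143)) (XT.lf (nat_lit 0) (nat_lit 2983119485850) (nat_lit 76) (nat_lit 311680906879) (nat_lit 76) (nat_lit 288883381450) (nat_lit 1) (nat_lit 4) (nat_lit 2) (nat_lit 5) (nat_lit 2) (nat_lit 4) (nat_lit 256) (nat_lit 202) (nat_lit 142))))))) (XT.nd (nat_lit 27612) (nat_lit 0) (nat_lit 608) (XT.nd (nat_lit 27222) (nat_lit 0) (nat_lit 1900) (XT.nd (nat_lit 27066) (nat_lit 0) (nat_lit 3040) (XT.nd (nat_lit 78) (nat_lit 0) (nat_lit 0) (XT.lf (nat_lit 0) (nat_lit 3452495092439) (nat_lit 76) (nat_lit 345267859076) (nat_lit 76) (nat_lit 322469655210) (nat_lit 1) (nat_lit 4) (nat_lit 2) (nat_lit 5) (nat_lit 2) (nat_lit 4) (nat_lit 257) (nat_lit 202) (nat_lit 141)) (XT.lf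 (nat_lit 0) (nat_lit 3992275821939) (nat_lit 76) (nat_lit 383893395917) (nat_lit 76) (nat_lit 361094602106) (nat_lit 1) (nat_lit 4) (nat_lit 2) (nat_lit 5) (nat_lit 2) (nat_lit 4) (nat_lit 258) (nat_lit 202) (nat_lit 140))) (XT.nd (nat_lit 78) (nat_lit 0) (nat_lit 0) (XT.lf (nat_lit 0) (nat_lit 1121551435) (nat_lit 380) (nat_lit 1272081644) (nat_lit 380) (nat_lit 1272081644) (nat_lit 41) (nat_lit 3) (nat_lit 46) (nat_lit 3) (nat_lit 46) (nat_lit 5) (nat_lit 203) (nat_lit 203) (nat_lit 194)) (XT.lf (nat_lit 76) (nat_lit 3320814009) (nat_lit 0) (nat_lit 1564926552) (nat_lit 380) (nat_lit 2775791111) (nat_lit 42) (nat_lit 5) (nat_lit 41) (nat_lit 3) (nat_lit 46) (nat_lit 5) (nat_lit 204) (nat_lit 203) (nat_lit 193)))) (XT.nd (nat_lit 156) (nat_lit 836) (nat_lit 0) (XT.nd (nat_lit 78) (nat_lit 380) (nat_lit 0) (XT.lf (nat_lit 76) (nat_lit 1940674322) (nat_lit 0) (nat_lit 5730535488) (nat_lit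 380) (nat_lit 394106582) (nat_lit 43) (nat_lit 5) (nat_lit 42) (nat_lit 5) (nat_lit 47) (nat_lit 5) (nat_lit 205) (nat_lit 203) (nat_lit 192)) (XT.lf (nat_lit 76) (nat_lit 545104819) (nat_lit 0) (nat_lit 1477191367) (nat_lit 456) (nat_lit 6522405726) (nat_lit 38) (nat_lit 5) (nat_lit 37) (nat_lit 5) (nat_lit 43) (nat_lit 5) (nat_lit 206) (nat_lit 203) (nat_lit 191))) (XT.nd (nat_lit 78) (nat_lit 912) (nat_lit 0) (XT.lf (nat_lit 0) (nat_lit 4699001086) (nat_lit 380) (nat_lit 888141295) (nat_lit 76) (nat_lit 3517057720) (nat_lit 38) (nat_lit 5) (nat_lit 43) (nat_lit 5) (nat_lit 39) (nat_lit 5) (nat_lit 207) (nat_lit 203) (nat_lit 190)) (XT.nd (nat_lit 78) (nat_lit 532) (nat_lit 0) (XT.lf (nat_lit 0) (nat_lit 7360901715) (nat_lit 380) (nat_lit 334594804) (nat_lit 456) (nat_lit 2061027142) (nat_lit 33) (nat_lit 5) (nat_lit 38) (nat_lit 5) (nat_lit 39) (nat_lit 5) (nat_lit 208) (nat_lit 203)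 (nat_lit 189)) (XT.lf (nat_lit 0) (nat_lit 652599737) (nat_lit 532) (nat_lit 4205651865) (nat_lit 76) (nat_lit 5645159130) (nat_lit 26) (nat_lit 5) (nat_lit 33) (nat_lit 5) (nat_lit 27) (nat_lit 5) (nat_lit 209) (nat_lit 203) (nat_lit 188)))))) (XT.nd (nat_lit 312) (nat_lit 608) (nat_lit 0) (XT.nd (nat_lit 156) (nat_lit 304) (nat_lit 0) (XT.nd (nat_lit 78) (nat_lit 152) (nat_lit 0) (XT.lf (nat_lit 0) (nat_lit 3645528305) (nat_lit 304) (nat_lit 6381840209) (nat_lit 76) (nat_lit 1332790933) (nat_lit 23) (nat_lit 5) (nat_lit 27) (nat_lit 5) (nat_lit 24) (nat_lit 5) (nat_lit 210) (nat_lit 203) (nat_lit 187)) (XT.lf (nat_lit 0) (nat_lit 3234398051) (nat_lit 152) (nat_lit 3972481111) (nat_lit 228) (nat_lit 5130421548) (nat_lit 21) (nat_lit 5) (nat_lit 23) (nat_lit 5) (nat_lit 24) (nat_lit 5) (nat_lit 211) (nat_lit 203) (nat_lit 186))) (XT.nd (nat_lit 78) (nat_lit 76) (nat_lit 0) (XT.lf (nat_lit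 0) (nat_lit 960873284) (nat_lit 228) (nat_lit 10431140907) (nat_lit 304) (nat_lit 2063083649) (nat_lit 18) (nat_lit 5) (nat_lit 21) (nat_lit 5) (nat_lit 22) (nat_lit 5) (nat_lit 212) (nat_lit 203) (nat_lit 185)) (XT.lf (nat_lit 0) (nat_lit 1591403120) (nat_lit 304) (nat_lit 2019628285) (nat_lit 76) (nat_lit 11111699027) (nat_lit 17) (nat_lit 5) (nat_lit 21) (nat_lit 5) (nat_lit 18) (nat_lit 5) (nat_lit 213) (nat_lit 203) (nat_lit 184)))) (XT.nd (nat_lit 156) (nat_lit 304) (nat_lit 0) (XT.nd (nat_lit 78) (nat_lit 152) (nat_lit 0) (XT.lf (nat_lit 0) (nat_lit 5873404813) (nat_lit 228) (nat_lit 5998172746) (nat_lit 76) (nat_lit 4289399477) (nat_lit 15) (nat_lit 5) (nat_lit 18) (nat_lit 5) (nat_lit 16) (nat_lit 5) (nat_lit 214) (nat_lit 203) (nat_lit 183)) (XT.lf (nat_lit 0) (nat_lit 6511910374) (nat_lit 152) (nat_lit 4459845555) (nat_lit 228) (nat_lit 6830042511) (nat_lit 13) (nat_lit 5)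 (nat_lit 15) (nat_lit 5) (nat_lit 16) (nat_lit 5) (nat_lit 215) (nat_lit 203) (nat_lit 182))) (XT.nd (nat_lit 78) (nat_lit 228) (nat_lit 0) (XT.lf (nat_lit 0) (nat_lit 1362770016) (nat_lit 76) (nat_lit 15652033496) (nat_lit 152) (nat_lit 2660206427) (nat_lit 12) (nat_lit 5) (nat_lit 13) (nat_lit 5) (nat_lit 14) (nat_lit 4) (nat_lit 216) (nat_lit 203) (nat_lit 181)) (XT.nd (nat_lit 78) (nat_lit 152) (nat_lit 0) (XT.lf (nat_lit 0) (nat_lit 2368299551) (nat_lit 152) (nat_lit 5570025559) (nat_lit 76) (nat_lit 13860103343) (nat_lit 11) (nat_lit 5) (nat_lit 13) (nat_lit 5) (nat_lit 12) (nat_lit 5) (nat_lit 217) (nat_lit 203) (nat_lit 180)) (XT.lf (nat_lit 0) (nat_lit 8146209708) (nat_lit 228) (nat_lit 14935477566) (nat_lit 76) (nat_lit 1141397151) (nat_lit 9) (nat_lit 5) (nat_lit 12) (nat_lit 5) (nat_lit 10) (nat_lit 4) (nat_lit 218) (nat_lit 203) (nat_lit 179))))))))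
noncomputable def xc29 : XT := (XT.nd (nat_lit 1404) (nat_lit 0) (nat_lit 0) (XT.nd (nat_lit 702) (nat_lit 228) (nat_lit 0) (XT.nd (nat_lit 312) (nat_lit 152) (nat_lit 0) (XT.nd (nat_lit 156) (nat_lit 152) (nat_lit 0) (XT.nd (nat_lit 78) (nat_lit 76) (nat_lit 0) (XT.lf (nat_lit 0) (nat_lit 15080914677) (nat_lit 228) (nat_lit 661813633) (nat_lit 76) (nat_lit 11245905090) (nat_lit 9) (nat_lit 5) (nat_lit 12) (nat_lit 5) (nat_lit 10) (nat_lit 4) (nat_lit 219) (nat_lit 203) (nat_lit 178)) (XT.lf (nat_lit 0) (nat_lit 16444412070) (nat_lit 76) (nat_lit 6923577005) (nat_lit 152) (nat_lit 6776403219) (nat_lit 8) (nat_lit 5) (nat_lit 9) (nat_lit 5) (nat_lit 10) (nat_lit 4) (nat_lit 220) (nat_lit 203) (nat_lit 177))) (XT.nd (nat_lit 78) (nat_lit 76) (nat_lit 0) (XT.lf (nat_lit 0) (nat_lit 2296380761) (nat_lit 76) (nat_lit 30677727371) (nat_lit 76) (nat_lit 793633141) (nat_lit 7) (nat_lit 4) (nat_lit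 8) (nat_lit 5) (nat_lit 8) (nat_lit 4) (nat_lit 221) (nat_lit 203) (nat_lit 176)) (XT.lf (nat_lit 0) (nat_lit 6311531259) (nat_lit 152) (nat_lit 16847748953) (nat_lit 76) (nat_lit 14721491135) (nat_lit 6) (nat_lit 5) (nat_lit 8) (nat_lit 5) (nat_lit 7) (nat_lit 4) (nat_lit 222) (nat_lit 203) (nat_lit 175)))) (XT.nd (nat_lit 156) (nat_lit 76) (nat_lit 0) (XT.nd (nat_lit 78) (nat_lit 76) (nat_lit 0) (XT.lf (nat_lit 0) (nat_lit 14374852380) (nat_lit 152) (nat_lit 155727755) (nat_lit 76) (nat_lit 28083590263) (nat_lit 6) (nat_lit 5) (nat_lit 8) (nat_lit 5) (nat_lit 7) (nat_lit 4) (nat_lit 223) (nat_lit 203) (nat_lit 174)) (XT.lf (nat_lit 0) (nat_lit 19948266061) (nat_lit 76) (nat_lit 4125281813) (nat_lit 152) (nat_lit 23950146979) (nat_lit 5) (nat_lit 5) (nat_lit 6) (nat_lit 5) (nat_lit 7) (nat_lit 4) (nat_lit 224) (nat_lit 203) (nat_lit 173))) (XT.nd (nat_lit 78) (nat_lit 76) (nat_lit 0)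 (XT.lf (nat_lit 0) (nat_lit 35370642658) (nat_lit 152) (nat_lit 11441081066) (nat_lit 0) (nat_lit 7421598086) (nat_lit 5) (nat_lit 5) (nat_lit 7) (nat_lit 4) (nat_lit 5) (nat_lit 4) (nat_lit 225) (nat_lit 203) (nat_lit 172)) (XT.nd (nat_lit 78) (nat_lit 0) (nat_lit 0) (XT.lf (nat_lit 0) (nat_lit 7895006820) (nat_lit 76) (nat_lit 40728109955) (nat_lit 76) (nat_lit 12730551198) (nat_lit 4) (nat_lit 4) (nat_lit 5) (nat_lit 5) (nat_lit 5) (nat_lit 4) (nat_lit 226) (nat_lit 203) (nat_lit 171)) (XT.lf (nat_lit 0) (nat_lit 30756373380) (nat_lit 76) (nat_lit 33401022521) (nat_lit 76) (nat_lit 5361277514) (nat_lit 4) (nat_lit 4) (nat_lit 5) (nat_lit 5) (nat_lit 5) (nat_lit 4) (nat_lit 227) (nat_lit 203) (nat_lit 170)))))) (XT.nd (nat_lit 312) (nat_lit 76) (nat_lit 0) (XT.nd (nat_lit 156) (nat_lit 76) (nat_lit 0) (XT.nd (nat_lit 78) (nat_lit 0) (nat_lit 0) (XT.lf (nat_lit 0) (nat_lit 2922604721)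 (nat_lit 152) (nat_lit 21997410879) (nat_lit 76) (nat_lit 53985325251) (nat_lit 3) (nat_lit 5) (nat_lit 5) (nat_lit 5) (nat_lit 4) (nat_lit 4) (nat_lit 228) (nat_lit 203) (nat_lit 169)) (XT.lf (nat_lit 0) (nat_lit 12110179503) (nat_lit 152) (nat_lit 2919154198) (nat_lit 76) (nat_lit 74661335233) (nat_lit 3) (nat_lit 5) (nat_lit 5) (nat_lit 5) (nat_lit 4) (nat_lit 4) (nat_lit 229) (nat_lit 203) (nat_lit 168))) (XT.nd (nat_lit 78) (nat_lit 0) (nat_lit 0) (XT.lf (nat_lit 0) (nat_lit 19973852075) (nat_lit 76) (nat_lit 3155916089) (nat_lit 152) (nat_lit 78927792165) (nat_lit 2) (nat_lit 5) (nat_lit 3) (nat_lit 5) (nat_lit 4) (nat_lit 4) (nat_lit 230) (nat_lit 203) (nat_lit 167)) (XT.lf (nat_lit 0) (nat_lit 36117488000) (nat_lit 152) (nat_lit 70093604766) (nat_lit 0) (nat_lit 10043241859) (nat_lit 2) (nat_lit 5) (nat_lit 4) (nat_lit 4) (nat_lit 2) (nat_lit 4) (nat_lit 231) (nat_lit 203) (nat_lit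 166)))) (XT.nd (nat_lit 156) (nat_lit 76) (nat_lit 0) (XT.nd (nat_lit 78) (nat_lit 0) (nat_lit 0) (XT.lf (nat_lit 0) (nat_lit 51119353118) (nat_lit 152) (nat_lit 56430362570) (nat_lit 0) (nat_lit 25025686586) (nat_lit 2) (nat_lit 5) (nat_lit 4) (nat_lit 4) (nat_lit 2) (nat_lit 4) (nat_lit 232) (nat_lit 203) (nat_lit 165)) (XT.lf (nat_lit 0) (nat_lit 68352978411) (nat_lit 152) (nat_lit 40750757503) (nat_lit 0) (nat_lit 42242424584) (nat_lit 2) (nat_lit 5) (nat_lit 4) (nat_lit 4) (nat_lit 2) (nat_lit 4) (nat_lit 233) (nat_lit 203) (nat_lit 164))) (XT.nd (nat_lit 78) (nat_lit 76) (nat_lit 0) (XT.lf (nat_lit 0) (nat_lit 88155543506) (nat_lit 152) (nat_lit 22748014686) (nat_lit 0) (nat_lit 62030305074) (nat_lit 2) (nat_lit 5) (nat_lit 4) (nat_lit 4) (nat_lit 2) (nat_lit 4) (nat_lit 234) (nat_lit 203) (nat_lit 163)) (XT.nd (nat_lit 78) (nat_lit 76) (nat_lit 0) (XT.lf (nat_lit 0) (nat_lit 110914489894)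 (nat_lit 152) (nat_lit 2069906540) (nat_lit 0) (nat_lit 84776482240) (nat_lit 2) (nat_lit 5) (nat_lit 4) (nat_lit 4) (nat_lit 2) (nat_lit 4) (nat_lit 235) (nat_lit 203) (nat_lit 162)) (XT.lf (nat_lit 0) (nat_lit 22830197559) (nat_lit 76) (nat_lit 114793970549) (nat_lit 76) (nat_lit 88644859224) (nat_lit 1) (nat_lit 4) (nat_lit 2) (nat_lit 5) (nat_lit 2) (nat_lit 4) (nat_lit 236) (nat_lit 203) (nat_lit 161))))))) (XT.nd (nat_lit 702) (nat_lit 0) (nat_lit 0) (XT.nd (nat_lit 312) (nat_lit 0) (nat_lit 0) (XT.nd (nat_lit 156) (nat_lit 0) (nat_lit 0) (XT.nd (nat_lit 78) (nat_lit 0) (nat_lit 0) (XT.lf (nat_lit 0) (nat_lit 51570728815) (nat_lit 76) (nat_lit 116818764250) (nat_lit 76) (nat_lit 90659997559) (nat_lit 1) (nat_lit 4) (nat_lit 2) (nat_lit 5) (nat_lit 2) (nat_lit 4) (nat_lit 237) (nat_lit 203) (nat_lit 160)) (XT.lf (nat_lit 0) (nat_lit 84605004360) (nat_lit 76) (nat_lit 119154987980)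 (nat_lit 76) (nat_lit 92987825318) (nat_lit 1) (nat_lit 4) (nat_lit 2) (nat_lit 5) (nat_lit 2) (nat_lit 4) (nat_lit 238) (nat_lit 203) (nat_lit 159))) (XT.nd (nat_lit 78) (nat_lit 0) (nat_lit 0) (XT.lf (nat_lit 0) (nat_lit 122579346974) (nat_lit 76) (nat_lit 121848350465) (nat_lit 76) (nat_lit 95673886959) (nat_lit 1) (nat_lit 4) (nat_lit 2) (nat_lit 5) (nat_lit 2) (nat_lit 4) (nat_lit 239) (nat_lit 203) (nat_lit 158)) (XT.lf (nat_lit 0) (nat_lit 166236732928) (nat_lit 76) (nat_lit 124951547926) (nat_lit 76) (nat_lit 98770735860) (nat_lit 1) (nat_lit 4) (nat_lit 2) (nat_lit 5) (nat_lit 2) (nat_lit 4) (nat_lit 240) (nat_lit 203) (nat_lit 157)))) (XT.nd (nat_lit 156) (nat_lit 0) (nat_lit 0) (XT.nd (nat_lit 78) (nat_lit 0) (nat_lit 0) (XT.lf (nat_lit 0) (nat_lit 216431328467) (nat_lit 76) (nat_lit 128525295096) (nat_lit 76) (nat_lit 102338962543) (nat_lit 1) (nat_lit 4) (nat_lit 2) (nat_lit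 5) (nat_lit 2) (nat_lit 4) (nat_lit 241) (nat_lit 203) (nat_lit 156)) (XT.lf (nat_lit 0) (nat_lit 274145201765) (nat_lit 76) (nat_lit 132639513116) (nat_lit 76) (nat_lit 106448380140) (nat_lit 1) (nat_lit 4) (nat_lit 2) (nat_lit 5) (nat_lit 2) (nat_lit 4) (nat_lit 242) (nat_lit 203) (nat_lit 155))) (XT.nd (nat_lit 78) (nat_lit 0) (nat_lit 0) (XT.lf (nat_lit 0) (nat_lit 340507537301) (nat_lit 76) (nat_lit 137374697556) (nat_lit 76) (nat_lit 111179390299) (nat_lit 1) (nat_lit 4) (nat_lit 2) (nat_lit 5) (nat_lit 2) (nat_lit 4) (nat_lit 243) (nat_lit 203) (nat_lit 154)) (XT.nd (nat_lit 78) (nat_lit 0) (nat_lit 0) (XT.lf (nat_lit 0) (nat_lit 416816728595) (nat_lit 76) (nat_lit 142823493329) (nat_lit 76) (nat_lit 116624556262) (nat_lit 1) (nat_lit 4) (nat_lit 2) (nat_lit 5) (nat_lit 2) (nat_lit 4) (nat_lit 244) (nat_lit 203) (nat_lit 153)) (XT.lf (nat_lit 0) (nat_lit 504565781564) (nat_lit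 76) (nat_lit 149092507309) (nat_lit 76) (nat_lit 122890413885) (nat_lit 1) (nat_lit 4) (nat_lit 2) (nat_lit 5) (nat_lit 2) (nat_lit 4) (nat_lit 245) (nat_lit 203) (nat_lit 152)))))) (XT.nd (nat_lit 390) (nat_lit 0) (nat_lit 0) (XT.nd (nat_lit 156) (nat_lit 0) (nat_lit 0) (XT.nd (nat_lit 78) (nat_lit 0) (nat_lit 0) (XT.lf (nat_lit 0) (nat_lit 605471525505) (nat_lit 76) (nat_lit 156304394116) (nat_lit 76) (nat_lit 130099556035) (nat_lit 1) (nat_lit 4) (nat_lit 2) (nat_lit 5) (nat_lit 2) (nat_lit 4) (nat_lit 246) (nat_lit 203) (nat_lit 151)) (XT.lf (nat_lit 0) (nat_lit 721508203234) (nat_lit 76) (nat_lit 164600255885) (nat_lit 76) (nat_lit 138393031145) (nat_lit 1) (nat_lit 4) (nat_lit 2) (nat_lit 5) (nat_lit 2) (nat_lit 4) (nat_lit 247) (nat_lit 203) (nat_lit 150))) (XT.nd (nat_lit 78) (nat_lit 0) (nat_lit 0) (XT.lf (nat_lit 0) (nat_lit 854946097577) (nat_lit 76) (nat_lit 174142402953)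 (nat_lit 76) (nat_lit 147933102858) (nat_lit 1) (nat_lit 4) (nat_lit 2) (nat_lit 5) (nat_lit 2) (nat_lit 4) (nat_lit 248) (nat_lit 203) (nat_lit 149)) (XT.nd (nat_lit 78) (nat_lit 0) (nat_lit 0) (XT.lf (nat_lit 0) (nat_lit 1008395949944) (nat_lit 76) (nat_lit 185117529504) (nat_lit 76) (nat_lit 158906424751) (nat_lit 1) (nat_lit 4) (nat_lit 2) (nat_lit 5) (nat_lit 2) (nat_lit 4) (nat_lit 249) (nat_lit 203) (nat_lit 148)) (XT.lf (nat_lit 0) (nat_lit 1184860040057) (nat_lit 76) (nat_lit 197740366273) (nat_lit 76) (nat_lit 171527692253) (nat_lit 1) (nat_lit 4) (nat_lit 2) (nat_lit 5) (nat_lit 2) (nat_lit 4) (nat_lit 250) (nat_lit 203) (nat_lit 147))))) (XT.nd (nat_lit 156) (nat_lit 0) (nat_lit 0) (XT.nd (nat_lit 78) (nat_lit 0) (nat_lit 0) (XT.lf (nat_lit 0) (nat_lit 1387790926199) (nat_lit 76) (nat_lit 212257881806) (nat_lit 76) (nat_lit 186043843207) (nat_lit 1) (nat_lit 4) (nat_lit 2)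 (nat_lit 5) (nat_lit 2) (nat_lit 4) (nat_lit 251) (nat_lit 203) (nat_lit 146)) (XT.lf (nat_lit 0) (nat_lit 1621158995273) (nat_lit 76) (nat_lit 228954114451) (nat_lit 76) (nat_lit 202738889260) (nat_lit 1) (nat_lit 4) (nat_lit 2) (nat_lit 5) (nat_lit 2) (nat_lit 4) (nat_lit 252) (nat_lit 203) (nat_lit 145))) (XT.nd (nat_lit 78) (nat_lit 0) (nat_lit 0) (XT.lf (nat_lit 0) (nat_lit 1889530144283) (nat_lit 76) (nat_lit 248155729629) (nat_lit 76) (nat_lit 221939472620) (nat_lit 1) (nat_lit 4) (nat_lit 2) (nat_lit 5) (nat_lit 2) (nat_lit 4) (nat_lit 253) (nat_lit 203) (nat_lit 144)) (XT.nd (nat_lit 78) (nat_lit 0) (nat_lit 0) (XT.lf (nat_lit 0) (nat_lit 2198155113102) (nat_lit 76) (nat_lit 270238411115) (nat_lit 76) (nat_lit 244021256872) (nat_lit 1) (nat_lit 4) (nat_lit 2) (nat_lit 5) (nat_lit 2) (nat_lit 4) (nat_lit 254) (nat_lit 203) (nat_lit 143)) (XT.lf (nat_lit 0) (nat_lit 2553072216335)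 (nat_lit 76) (nat_lit 295634211373) (nat_lit 76) (nat_lit 269416276927) (nat_lit 1) (nat_lit 4) (nat_lit 2) (nat_lit 5) (nat_lit 2) (nat_lit 4) (nat_lit 255) (nat_lit 203) (nat_lit 142))))))))
noncomputable def xc30 : XT := (XT.nd (nat_lit 28392) (nat_lit 0) (nat_lit 0) (XT.nd (nat_lit 27690) (nat_lit 0) (nat_lit 760) (XT.nd (nat_lit 27300) (nat_lit 0) (nat_lit 2356) (XT.nd (nat_lit 156) (nat_lit 0) (nat_lit 0) (XT.nd (nat_lit 78) (nat_lit 0) (nat_lit 0) (XT.lf (nat_lit 0) (nat_lit 2961225484265) (nat_lit 76) (nat_lit 324840004755) (nat_lit 76) (nat_lit 298621391872) (nat_lit 1) (nat_lit 4) (nat_lit 2) (nat_lit 5) (nat_lit 2) (nat_lit 4) (nat_lit 256) (nat_lit 203) (nat_lit 141)) (XT.lf (nat_lit 0) (nat_lit 3430600524306) (nat_lit 76) (nat_lit 358427208959) (nat_lit 76) (nat_lit 332208006131) (nat_lit 1) (nat_lit 4) (nat_lit 2) (nat_lit 5) (nat_lit 2) (nat_lit 4) (nat_lit 257) (nat_lit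 203) (nat_lit 140))) (XT.nd (nat_lit 27066) (nat_lit 0) (nat_lit 3040) (XT.lf (nat_lit 0) (nat_lit 3970380761156) (nat_lit 76) (nat_lit 397052964936) (nat_lit 76) (nat_lit 370833249112) (nat_lit 1) (nat_lit 4) (nat_lit 2) (nat_lit 5) (nat_lit 2) (nat_lit 4) (nat_lit 258) (nat_lit 203) (nat_lit 139)) (XT.lf (nat_lit 0) (nat_lit 3585170703) (nat_lit 380) (nat_lit 212935259) (nat_lit 380) (nat_lit 212935259) (nat_lit 41) (nat_lit 3) (nat_lit 46) (nat_lit 3) (nat_lit 46) (nat_lit 5) (nat_lit 204) (nat_lit 204) (nat_lit 192)))) (XT.nd (nat_lit 156) (nat_lit 304) (nat_lit 0) (XT.nd (nat_lit 78) (nat_lit 0) (nat_lit 76) (XT.lf (nat_lit 0) (nat_lit 1154181915) (nat_lit 380) (nat_lit 2372625085) (nat_lit 456) (nat_lit 4921508536) (nat_lit 36) (nat_lit 5) (nat_lit 41) (nat_lit 3) (nat_lit 42) (nat_lit 5) (nat_lit 205) (nat_lit 204) (nat_lit 191)) (XT.lf (nat_lit 0) (nat_lit 3233058427) (nat_lit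 380) (nat_lit 4347292948) (nat_lit 456) (nat_lit 1373280495) (nat_lit 37) (nat_lit 5) (nat_lit 42) (nat_lit 5) (nat_lit 43) (nat_lit 5) (nat_lit 206) (nat_lit 204) (nat_lit 190))) (XT.nd (nat_lit 78) (nat_lit 380) (nat_lit 0) (XT.lf (nat_lit 76) (nat_lit 3084731775) (nat_lit 0) (nat_lit 2485767390) (nat_lit 456) (nat_lit 3970871294) (nat_lit 38) (nat_lit 5) (nat_lit 37) (nat_lit 5) (nat_lit 43) (nat_lit 5) (nat_lit 207) (nat_lit 204) (nat_lit 189)) (XT.nd (nat_lit 78) (nat_lit 76) (nat_lit 0) (XT.lf (nat_lit 0) (nat_lit 1452904895) (nat_lit 380) (nat_lit 6791046358) (nat_lit 456) (nat_lit 1976542119) (nat_lit 33) (nat_lit 5) (nat_lit 38) (nat_lit 5) (nat_lit 39) (nat_lit 5) (nat_lit 208) (nat_lit 204) (nat_lit 188)) (XT.lf (nat_lit 0) (nat_lit 323532246) (nat_lit 456) (nat_lit 346237797) (nat_lit 76) (nat_lit 10330963584) (nat_lit 32) (nat_lit 5) (nat_lit 38) (nat_lit 5) (nat_lit 33)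 (nat_lit 5) (nat_lit 209) (nat_lit 204) (nat_lit 187)))))) (XT.nd (nat_lit 312) (nat_lit 532) (nat_lit 0) (XT.nd (nat_lit 156) (nat_lit 380) (nat_lit 0) (XT.nd (nat_lit 78) (nat_lit 228) (nat_lit 0) (XT.lf (nat_lit 0) (nat_lit 3038192154) (nat_lit 532) (nat_lit 2481733666) (nat_lit 76) (nat_lit 6360487261) (nat_lit 26) (nat_lit 5) (nat_lit 33) (nat_lit 5) (nat_lit 27) (nat_lit 5) (nat_lit 210) (nat_lit 204) (nat_lit 186)) (XT.lf (nat_lit 0) (nat_lit 6236251540) (nat_lit 304) (nat_lit 5009654601) (nat_lit 76) (nat_lit 1641293474) (nat_lit 23) (nat_lit 5) (nat_lit 27) (nat_lit 5) (nat_lit 24) (nat_lit 5) (nat_lit 211) (nat_lit 204) (nat_lit 185))) (XT.nd (nat_lit 78) (nat_lit 228) (nat_lit 0) (XT.lf (nat_lit 0) (nat_lit 5851842073) (nat_lit 152) (nat_lit 4264649574) (nat_lit 228) (nat_lit 3913402738) (nat_lit 21) (nat_lit 5) (nat_lit 23) (nat_lit 5) (nat_lit 24) (nat_lit 5) (nat_lit 212)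 (nat_lit 204) (nat_lit 184)) (XT.lf (nat_lit 0) (nat_lit 3194742914) (nat_lit 228) (nat_lit 11552753141) (nat_lit 304) (nat_lit 583945140) (nat_lit 18) (nat_lit 5) (nat_lit 21) (nat_lit 5) (nat_lit 22) (nat_lit 5) (nat_lit 213) (nat_lit 204) (nat_lit 183)))) (XT.nd (nat_lit 156) (nat_lit 304) (nat_lit 0) (XT.nd (nat_lit 78) (nat_lit 152) (nat_lit 0) (XT.lf (nat_lit 0) (nat_lit 3307616186) (nat_lit 304) (nat_lit 419403781) (nat_lit 76) (nat_lit 13077717777) (nat_lit 17) (nat_lit 5) (nat_lit 21) (nat_lit 5) (nat_lit 18) (nat_lit 5) (nat_lit 214) (nat_lit 204) (nat_lit 182)) (XT.lf (nat_lit 0) (nat_lit 8091087564) (nat_lit 228) (nat_lit 5052547122) (nat_lit 76) (nat_lit 5327422928) (nat_lit 15) (nat_lit 5) (nat_lit 18) (nat_lit 5) (nat_lit 16) (nat_lit 5) (nat_lit 215) (nat_lit 204) (nat_lit 181))) (XT.nd (nat_lit 78) (nat_lit 152) (nat_lit 0) (XT.lf (nat_lit 0) (nat_lit 9177848649) (nat_lit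 152) (nat_lit 4642618312) (nat_lit 228) (nat_lit 6549163508) (nat_lit 13) (nat_lit 5) (nat_lit 15) (nat_lit 5) (nat_lit 16) (nat_lit 5) (nat_lit 216) (nat_lit 204) (nat_lit 180)) (XT.nd (nat_lit 78) (nat_lit 76) (nat_lit 0) (XT.lf (nat_lit 0) (nat_lit 3196422403) (nat_lit 76) (nat_lit 17465994267) (nat_lit 152) (nat_lit 1870820370) (nat_lit 12) (nat_lit 5) (nat_lit 13) (nat_lit 5) (nat_lit 14) (nat_lit 4) (nat_lit 217) (nat_lit 204) (nat_lit 179)) (XT.lf (nat_lit 0) (nat_lit 3705255430) (nat_lit 152) (nat_lit 4932764335) (nat_lit 76) (nat_lit 16347293907) (nat_lit 11) (nat_lit 5) (nat_lit 13) (nat_lit 5) (nat_lit 12) (nat_lit 5) (nat_lit 218) (nat_lit 204) (nat_lit 178))))))) (XT.nd (nat_lit 702) (nat_lit 228) (nat_lit 0) (XT.nd (nat_lit 312) (nat_lit 228) (nat_lit 0) (XT.nd (nat_lit 156) (nat_lit 76) (nat_lit 0) (XT.nd (nat_lit 78) (nat_lit 76) (nat_lit 0) (XT.lf (nat_lit 0) (nat_lit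 10265336336) (nat_lit 228) (nat_lit 15764145454) (nat_lit 76) (nat_lit 1751513883) (nat_lit 9) (nat_lit 5) (nat_lit 12) (nat_lit 5) (nat_lit 10) (nat_lit 4) (nat_lit 219) (nat_lit 204) (nat_lit 177)) (XT.lf (nat_lit 0) (nat_lit 491001187) (nat_lit 76) (nat_lit 17644028996) (nat_lit 152) (nat_lit 12835256656) (nat_lit 8) (nat_lit 5) (nat_lit 9) (nat_lit 5) (nat_lit 10) (nat_lit 4) (nat_lit 220) (nat_lit 204) (nat_lit 176))) (XT.nd (nat_lit 78) (nat_lit 76) (nat_lit 0) (XT.lf (nat_lit 0) (nat_lit 20034695001) (nat_lit 76) (nat_lit 7543923998) (nat_lit 152) (nat_lit 7028142566) (nat_lit 8) (nat_lit 5) (nat_lit 9) (nat_lit 5) (nat_lit 10) (nat_lit 4) (nat_lit 221) (nat_lit 204) (nat_lit 175)) (XT.lf (nat_lit 0) (nat_lit 3714414917) (nat_lit 76) (nat_lit 34853793364) (nat_lit 76) (nat_lit 210372817) (nat_lit 7) (nat_lit 4) (nat_lit 8) (nat_lit 5) (nat_lit 8) (nat_lit 4) (nat_lit 222) (nat_lit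 204) (nat_lit 174)))) (XT.nd (nat_lit 156) (nat_lit 76) (nat_lit 0) (XT.nd (nat_lit 78) (nat_lit 76) (nat_lit 0) (XT.lf (nat_lit 0) (nat_lit 7838411504) (nat_lit 152) (nat_lit 18408817428) (nat_lit 76) (nat_lit 17267247159) (nat_lit 6) (nat_lit 5) (nat_lit 8) (nat_lit 5) (nat_lit 7) (nat_lit 4) (nat_lit 223) (nat_lit 204) (nat_lit 173)) (XT.lf (nat_lit 0) (nat_lit 695801515) (nat_lit 76) (nat_lit 16356491509) (nat_lit 152) (nat_lit 31910567724) (nat_lit 5) (nat_lit 5) (nat_lit 6) (nat_lit 5) (nat_lit 7) (nat_lit 4) (nat_lit 224) (nat_lit 204) (nat_lit 172))) (XT.nd (nat_lit 78) (nat_lit 76) (nat_lit 0) (XT.lf (nat_lit 0) (nat_lit 23709478870) (nat_lit 76) (nat_lit 4432272172) (nat_lit 152) (nat_lit 27047412895) (nat_lit 5) (nat_lit 5) (nat_lit 6) (nat_lit 5) (nat_lit 7) (nat_lit 4) (nat_lit 225) (nat_lit 204) (nat_lit 171)) (XT.nd (nat_lit 78) (nat_lit 76) (nat_lit 0) (XT.lf (nat_lit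 0) (nat_lit 41080299777) (nat_lit 152) (nat_lit 12461974356) (nat_lit 0) (nat_lit 8792406772) (nat_lit 5) (nat_lit 5) (nat_lit 7) (nat_lit 4) (nat_lit 5) (nat_lit 4) (nat_lit 226) (nat_lit 204) (nat_lit 170)) (XT.lf (nat_lit 0) (nat_lit 9715675667) (nat_lit 76) (nat_lit 46567571638) (nat_lit 76) (nat_lit 14242994938) (nat_lit 4) (nat_lit 4) (nat_lit 5) (nat_lit 5) (nat_lit 5) (nat_lit 4) (nat_lit 227) (nat_lit 204) (nat_lit 169)))))) (XT.nd (nat_lit 390) (nat_lit 76) (nat_lit 0) (XT.nd (nat_lit 156) (nat_lit 76) (nat_lit 0) (XT.nd (nat_lit 78) (nat_lit 76) (nat_lit 0) (XT.lf (nat_lit 0) (nat_lit 35923236190) (nat_lit 76) (nat_lit 38176606498) (nat_lit 76) (nat_lit 5820130934) (nat_lit 4) (nat_lit 4) (nat_lit 5) (nat_lit 5) (nat_lit 5) (nat_lit 4) (nat_lit 228) (nat_lit 204) (nat_lit 168)) (XT.lf (nat_lit 0) (nat_lit 3646267596) (nat_lit 152) (nat_lit 24799977106) (nat_lit 76) (nat_lit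 62271275331) (nat_lit 3) (nat_lit 5) (nat_lit 5) (nat_lit 5) (nat_lit 4) (nat_lit 4) (nat_lit 229) (nat_lit 204) (nat_lit 167))) (XT.nd (nat_lit 78) (nat_lit 76) (nat_lit 0) (XT.lf (nat_lit 0) (nat_lit 14174769182) (nat_lit 152) (nat_lit 2924813932) (nat_lit 76) (nat_lit 86024145338) (nat_lit 3) (nat_lit 5) (nat_lit 5) (nat_lit 5) (nat_lit 4) (nat_lit 4) (nat_lit 230) (nat_lit 204) (nat_lit 166)) (XT.nd (nat_lit 78) (nat_lit 0) (nat_lit 0) (XT.lf (nat_lit 0) (nat_lit 23365558572) (nat_lit 76) (nat_lit 3458896440) (nat_lit 152) (nat_lit 90523116593) (nat_lit 2) (nat_lit 5) (nat_lit 3) (nat_lit 5) (nat_lit 4) (nat_lit 4) (nat_lit 231) (nat_lit 204) (nat_lit 165)) (XT.lf (nat_lit 0) (nat_lit 41734519823) (nat_lit 152) (nat_lit 80250990554) (nat_lit 0) (nat_lit 11690495626) (nat_lit 2) (nat_lit 5) (nat_lit 4) (nat_lit 4) (nat_lit 2) (nat_lit 4) (nat_lit 232) (nat_lit 204) (nat_lit 164)))))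 (XT.nd (nat_lit 156) (nat_lit 76) (nat_lit 0) (XT.nd (nat_lit 78) (nat_lit 0) (nat_lit 0) (XT.lf (nat_lit 0) (nat_lit 58960654888) (nat_lit 152) (nat_lit 64584782236) (nat_lit 0) (nat_lit 28901946085) (nat_lit 2) (nat_lit 5) (nat_lit 4) (nat_lit 4) (nat_lit 2) (nat_lit 4) (nat_lit 233) (nat_lit 204) (nat_lit 163)) (XT.lf (nat_lit 0) (nat_lit 78756706740) (nat_lit 152) (nat_lit 46593688765) (nat_lit 0) (nat_lit 48685228716) (nat_lit 2) (nat_lit 5) (nat_lit 4) (nat_lit 4) (nat_lit 2) (nat_lit 4) (nat_lit 234) (nat_lit 204) (nat_lit 162))) (XT.nd (nat_lit 78) (nat_lit 76) (nat_lit 0) (XT.lf (nat_lit 0) (nat_lit 101509989439) (nat_lit 152) (nat_lit 25925710485) (nat_lit 0) (nat_lit 71427407744) (nat_lit 2) (nat_lit 5) (nat_lit 4) (nat_lit 4) (nat_lit 2) (nat_lit 4) (nat_lit 235) (nat_lit 204) (nat_lit 161)) (XT.nd (nat_lit 78) (nat_lit 76) (nat_lit 0) (XT.lf (nat_lit 0) (nat_lit 127665675905)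 (nat_lit 152) (nat_lit 2176473909) (nat_lit 0) (nat_lit 97573438844) (nat_lit 2) (nat_lit 5) (nat_lit 4) (nat_lit 4) (nat_lit 2) (nat_lit 4) (nat_lit 236) (nat_lit 204) (nat_lit 160)) (XT.lf (nat_lit 0) (nat_lit 26441385110) (nat_lit 76) (nat_lit 131930038670) (nat_lit 76) (nat_lit 101829405638) (nat_lit 1) (nat_lit 4) (nat_lit 2) (nat_lit 5) (nat_lit 2) (nat_lit 4) (nat_lit 237) (nat_lit 204) (nat_lit 159))))))))
noncomputable def xc31 : XT := (XT.nd (nat_lit 1404) (nat_lit 0) (nat_lit 0) (XT.nd (nat_lit 702) (nat_lit 0) (nat_lit 0) (XT.nd (nat_lit 312) (nat_lit 0) (nat_lit 0) (XT.nd (nat_lit 156) (nat_lit 0) (nat_lit 0) (XT.nd (nat_lit 78) (nat_lit 0) (nat_lit 0) (XT.lf (nat_lit 0) (nat_lit 59468649370) (nat_lit 76) (nat_lit 134269381095) (nat_lit 76) (nat_lit 104161447219) (nat_lit 1) (nat_lit 4) (nat_lit 2) (nat_lit 5) (nat_lit 2) (nat_lit 4) (nat_lit 238) (nat_lit 204) (nat_lit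 158)) (XT.lf (nat_lit 0) (nat_lit 97436895216) (nat_lit 76) (nat_lit 136965455488) (nat_lit 76) (nat_lit 106851173052) (nat_lit 1) (nat_lit 4) (nat_lit 2) (nat_lit 5) (nat_lit 2) (nat_lit 4) (nat_lit 239) (nat_lit 204) (nat_lit 157))) (XT.nd (nat_lit 78) (nat_lit 0) (nat_lit 0) (XT.lf (nat_lit 0) (nat_lit 141088979631) (nat_lit 76) (nat_lit 140071011131) (nat_lit 76) (nat_lit 109951208208) (nat_lit 1) (nat_lit 4) (nat_lit 2) (nat_lit 5) (nat_lit 2) (nat_lit 4) (nat_lit 240) (nat_lit 204) (nat_lit 156)) (XT.lf (nat_lit 0) (nat_lit 191278965137) (nat_lit 76) (nat_lit 143646808894) (nat_lit 76) (nat_lit 113522205548) (nat_lit 1) (nat_lit 4) (nat_lit 2) (nat_lit 5) (nat_lit 2) (nat_lit 4) (nat_lit 241) (nat_lit 204) (nat_lit 155)))) (XT.nd (nat_lit 156) (nat_lit 0) (nat_lit 0) (XT.nd (nat_lit 78) (nat_lit 0) (nat_lit 0) (XT.lf (nat_lit 0) (nat_lit 248988829711) (nat_lit 76) (nat_lit 147762810038)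 (nat_lit 76) (nat_lit 117634032411) (nat_lit 1) (nat_lit 4) (nat_lit 2) (nat_lit 5) (nat_lit 2) (nat_lit 4) (nat_lit 242) (nat_lit 204) (nat_lit 154)) (XT.lf (nat_lit 0) (nat_lit 315347679399) (nat_lit 76) (nat_lit 152499545021) (nat_lit 76) (nat_lit 122367137584) (nat_lit 1) (nat_lit 4) (nat_lit 2) (nat_lit 5) (nat_lit 2) (nat_lit 4) (nat_lit 243) (nat_lit 204) (nat_lit 153))) (XT.nd (nat_lit 78) (nat_lit 0) (nat_lit 0) (XT.lf (nat_lit 0) (nat_lit 391653839521) (nat_lit 76) (nat_lit 157949689092) (nat_lit 76) (nat_lit 127814125298) (nat_lit 1) (nat_lit 4) (nat_lit 2) (nat_lit 5) (nat_lit 2) (nat_lit 4) (nat_lit 244) (nat_lit 204) (nat_lit 152)) (XT.nd (nat_lit 78) (nat_lit 0) (nat_lit 0) (XT.lf (nat_lit 0) (nat_lit 479400256688) (nat_lit 76) (nat_lit 164219875504) (nat_lit 76) (nat_lit 134081567053) (nat_lit 1) (nat_lit 4) (nat_lit 2) (nat_lit 5) (nat_lit 2) (nat_lit 4) (nat_lit 245)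 (nat_lit 204) (nat_lit 151)) (XT.lf (nat_lit 0) (nat_lit 580303708628) (nat_lit 76) (nat_lit 171432781819) (nat_lit 76) (nat_lit 141292086709) (nat_lit 1) (nat_lit 4) (nat_lit 2) (nat_lit 5) (nat_lit 2) (nat_lit 4) (nat_lit 246) (nat_lit 204) (nat_lit 150)))))) (XT.nd (nat_lit 312) (nat_lit 0) (nat_lit 0) (XT.nd (nat_lit 156) (nat_lit 0) (nat_lit 0) (XT.nd (nat_lit 78) (nat_lit 0) (nat_lit 0) (XT.lf (nat_lit 0) (nat_lit 696338393313) (nat_lit 76) (nat_lit 179729530115) (nat_lit 76) (nat_lit 149586759650) (nat_lit 1) (nat_lit 4) (nat_lit 2) (nat_lit 5) (nat_lit 2) (nat_lit 4) (nat_lit 247) (nat_lit 204) (nat_lit 149)) (XT.lf (nat_lit 0) (nat_lit 829774554574) (nat_lit 76) (nat_lit 189272448077) (nat_lit 76) (nat_lit 159127872955) (nat_lit 1) (nat_lit 4) (nat_lit 2) (nat_lit 5) (nat_lit 2) (nat_lit 4) (nat_lit 248) (nat_lit 204) (nat_lit 148))) (XT.nd (nat_lit 78) (nat_lit 0) (nat_lit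 0) (XT.lf (nat_lit 0) (nat_lit 983222899913) (nat_lit 76) (nat_lit 200248244970) (nat_lit 76) (nat_lit 170102100581) (nat_lit 1) (nat_lit 4) (nat_lit 2) (nat_lit 5) (nat_lit 2) (nat_lit 4) (nat_lit 249) (nat_lit 204) (nat_lit 147)) (XT.lf (nat_lit 0) (nat_lit 1159685679566) (nat_lit 76) (nat_lit 212871664646) (nat_lit 76) (nat_lit 182724155676) (nat_lit 1) (nat_lit 4) (nat_lit 2) (nat_lit 5) (nat_lit 2) (nat_lit 4) (nat_lit 250) (nat_lit 204) (nat_lit 146)))) (XT.nd (nat_lit 156) (nat_lit 0) (nat_lit 0) (XT.nd (nat_lit 78) (nat_lit 0) (nat_lit 0) (XT.lf (nat_lit 0) (nat_lit 1362615426178) (nat_lit 76) (nat_lit 227389687054) (nat_lit 76) (nat_lit 197240991494) (nat_lit 1) (nat_lit 4) (nat_lit 2) (nat_lit 5) (nat_lit 2) (nat_lit 4) (nat_lit 251) (nat_lit 204) (nat_lit 145)) (XT.lf (nat_lit 0) (nat_lit 1595982504357) (nat_lit 76) (nat_lit 244086360460) (nat_lit 76) (nat_lit 213936633081)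 (nat_lit 1) (nat_lit 4) (nat_lit 2) (nat_lit 5) (nat_lit 2) (nat_lit 4) (nat_lit 252) (nat_lit 204) (nat_lit 144))) (XT.nd (nat_lit 78) (nat_lit 0) (nat_lit 0) (XT.lf (nat_lit 0) (nat_lit 1864352791719) (nat_lit 76) (nat_lit 263288358908) (nat_lit 76) (nat_lit 233137734296) (nat_lit 1) (nat_lit 4) (nat_lit 2) (nat_lit 5) (nat_lit 2) (nat_lit 4) (nat_lit 253) (nat_lit 204) (nat_lit 143)) (XT.nd (nat_lit 78) (nat_lit 0) (nat_lit 0) (XT.lf (nat_lit 0) (nat_lit 2172977011278) (nat_lit 76) (nat_lit 285371373673) (nat_lit 76) (nat_lit 255219968857) (nat_lit 1) (nat_lit 4) (nat_lit 2) (nat_lit 5) (nat_lit 2) (nat_lit 4) (nat_lit 254) (nat_lit 204) (nat_lit 142)) (XT.lf (nat_lit 0) (nat_lit 2527893462982) (nat_lit 76) (nat_lit 310767463738) (nat_lit 76) (nat_lit 280615380485) (nat_lit 1) (nat_lit 4) (nat_lit 2) (nat_lit 5) (nat_lit 2) (nat_lit 4) (nat_lit 255) (nat_lit 204) (nat_lit 141)))))))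 (XT.nd (nat_lit 27768) (nat_lit 0) (nat_lit 608) (XT.nd (nat_lit 27378) (nat_lit 0) (nat_lit 1900) (XT.nd (nat_lit 156) (nat_lit 0) (nat_lit 0) (XT.nd (nat_lit 78) (nat_lit 0) (nat_lit 0) (XT.lf (nat_lit 0) (nat_lit 2936046164364) (nat_lit 76) (nat_lit 339973509127) (nat_lit 76) (nat_lit 309820835929) (nat_lit 1) (nat_lit 4) (nat_lit 2) (nat_lit 5) (nat_lit 2) (nat_lit 4) (nat_lit 256) (nat_lit 204) (nat_lit 140)) (XT.lf (nat_lit 0) (nat_lit 3405420711755) (nat_lit 76) (nat_lit 373560932467) (nat_lit 76) (nat_lit 343407746273) (nat_lit 1) (nat_lit 4) (nat_lit 2) (nat_lit 5) (nat_lit 2) (nat_lit 4) (nat_lit 257) (nat_lit 204) (nat_lit 139))) (XT.nd (nat_lit 27144) (nat_lit 0) (nat_lit 2660) (XT.lf (nat_lit 0) (nat_lit 3945200520214) (nat_lit 76) (nat_lit 412186878998) (nat_lit 76) (nat_lit 382033246720) (nat_lit 1) (nat_lit 4) (nat_lit 2) (nat_lit 5) (nat_lit 2) (nat_lit 4) (nat_lit 258)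 (nat_lit 204) (nat_lit 138)) (XT.lf (nat_lit 0) (nat_lit 682544332) (nat_lit 0) (nat_lit 682544332) (nat_lit 380) (nat_lit 3087491155) (nat_lit 36) (nat_lit 5) (nat_lit 36) (nat_lit 3) (nat_lit 41) (nat_lit 3) (nat_lit 205) (nat_lit 205) (nat_lit 190)))) (XT.nd (nat_lit 156) (nat_lit 760) (nat_lit 0) (XT.nd (nat_lit 78) (nat_lit 0) (nat_lit 76) (XT.lf (nat_lit 0) (nat_lit 4493023330) (nat_lit 380) (nat_lit 806077481) (nat_lit 456) (nat_lit 4137756871) (nat_lit 36) (nat_lit 5) (nat_lit 41) (nat_lit 3) (nat_lit 42) (nat_lit 5) (nat_lit 206) (nat_lit 205) (nat_lit 189)) (XT.lf (nat_lit 0) (nat_lit 6488231913) (nat_lit 380) (nat_lit 2969031185) (nat_lit 456) (nat_lit 595667631) (nat_lit 37) (nat_lit 5) (nat_lit 42) (nat_lit 5) (nat_lit 43) (nat_lit 5) (nat_lit 207) (nat_lit 205) (nat_lit 188))) (XT.nd (nat_lit 78) (nat_lit 836) (nat_lit 0) (XT.lf (nat_lit 76) (nat_lit 5405937749) (nat_lit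 0) (nat_lit 3453715536) (nat_lit 456) (nat_lit 1897394018) (nat_lit 38) (nat_lit 5) (nat_lit 37) (nat_lit 5) (nat_lit 43) (nat_lit 5) (nat_lit 208) (nat_lit 205) (nat_lit 187)) (XT.nd (nat_lit 78) (nat_lit 456) (nat_lit 0) (XT.lf (nat_lit 0) (nat_lit 79941005) (nat_lit 456) (nat_lit 7983082632) (nat_lit 76) (nat_lit 3500283289) (nat_lit 32) (nat_lit 5) (nat_lit 38) (nat_lit 5) (nat_lit 33) (nat_lit 5) (nat_lit 209) (nat_lit 205) (nat_lit 186)) (XT.lf (nat_lit 0) (nat_lit 1452740083) (nat_lit 456) (nat_lit 901441829) (nat_lit 532) (nat_lit 10124619943) (nat_lit 26) (nat_lit 5) (nat_lit 32) (nat_lit 5) (nat_lit 33) (nat_lit 5) (nat_lit 210) (nat_lit 205) (nat_lit 185)))))) (XT.nd (nat_lit 390) (nat_lit 456) (nat_lit 0) (XT.nd (nat_lit 156) (nat_lit 608) (nat_lit 0) (XT.nd (nat_lit 78) (nat_lit 228) (nat_lit 0) (XT.lf (nat_lit 0) (nat_lit 5223752702) (nat_lit 532) (nat_lit 1073452334) (nat_lit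 76) (nat_lit 7215168488) (nat_lit 26) (nat_lit 5) (nat_lit 33) (nat_lit 5) (nat_lit 27) (nat_lit 5) (nat_lit 211) (nat_lit 205) (nat_lit 184)) (XT.lf (nat_lit 0) (nat_lit 8717166768) (nat_lit 304) (nat_lit 3999695124) (nat_lit 76) (nat_lit 1969592525) (nat_lit 23) (nat_lit 5) (nat_lit 27) (nat_lit 5) (nat_lit 24) (nat_lit 5) (nat_lit 212) (nat_lit 205) (nat_lit 183))) (XT.nd (nat_lit 78) (nat_lit 456) (nat_lit 0) (XT.lf (nat_lit 0) (nat_lit 8341931665) (nat_lit 152) (nat_lit 4674703378) (nat_lit 228) (nat_lit 2998271718) (nat_lit 21) (nat_lit 5) (nat_lit 23) (nat_lit 5) (nat_lit 24) (nat_lit 5) (nat_lit 213) (nat_lit 205) (nat_lit 182)) (XT.nd (nat_lit 78) (nat_lit 152) (nat_lit 0) (XT.lf (nat_lit 0) (nat_lit 646840951) (nat_lit 304) (nat_lit 12286123200) (nat_lit 76) (nat_lit 4589570258) (nat_lit 17) (nat_lit 5) (nat_lit 21) (nat_lit 5) (nat_lit 18) (nat_lit 5) (nat_lit 214) (nat_lit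 205) (nat_lit 181)) (XT.lf (nat_lit 0) (nat_lit 1007135651) (nat_lit 152) (nat_lit 3938048831) (nat_lit 228) (nat_lit 14282747928) (nat_lit 15) (nat_lit 5) (nat_lit 17) (nat_lit 5) (nat_lit 18) (nat_lit 5) (nat_lit 215) (nat_lit 205) (nat_lit 180))))) (XT.nd (nat_lit 156) (nat_lit 304) (nat_lit 0) (XT.nd (nat_lit 78) (nat_lit 152) (nat_lit 0) (XT.lf (nat_lit 0) (nat_lit 10315466788) (nat_lit 228) (nat_lit 4415078313) (nat_lit 76) (nat_lit 6424920889) (nat_lit 15) (nat_lit 5) (nat_lit 18) (nat_lit 5) (nat_lit 16) (nat_lit 5) (nat_lit 216) (nat_lit 205) (nat_lit 179)) (XT.lf (nat_lit 0) (nat_lit 11831767322) (nat_lit 152) (nat_lit 4971370926) (nat_lit 228) (nat_lit 6544479147) (nat_lit 13) (nat_lit 5) (nat_lit 15) (nat_lit 5) (nat_lit 16) (nat_lit 5) (nat_lit 217) (nat_lit 205) (nat_lit 178))) (XT.nd (nat_lit 78) (nat_lit 228) (nat_lit 0) (XT.lf (nat_lit 0) (nat_lit 4907822917) (nat_lit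 76) (nat_lit 19682230457) (nat_lit 152) (nat_lit 1252829421) (nat_lit 12) (nat_lit 5) (nat_lit 13) (nat_lit 5) (nat_lit 14) (nat_lit 4) (nat_lit 218) (nat_lit 205) (nat_lit 177)) (XT.nd (nat_lit 78) (nat_lit 152) (nat_lit 0) (XT.lf (nat_lit 0) (nat_lit 5003358260) (nat_lit 152) (nat_lit 4559057014) (nat_lit 76) (nat_lit 19108026982) (nat_lit 11) (nat_lit 5) (nat_lit 13) (nat_lit 5) (nat_lit 12) (nat_lit 5) (nat_lit 219) (nat_lit 205) (nat_lit 176)) (XT.lf (nat_lit 0) (nat_lit 12483545234) (nat_lit 228) (nat_lit 17061354231) (nat_lit 76) (nat_lit 2346117835) (nat_lit 9) (nat_lit 5) (nat_lit 12) (nat_lit 5) (nat_lit 10) (nat_lit 4) (nat_lit 220) (nat_lit 205) (nat_lit 175))))))))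
noncomputable def xc32 : XT := (XT.nd (nat_lit 1404) (nat_lit 0) (nat_lit 0) (XT.nd (nat_lit 702) (nat_lit 228) (nat_lit 0) (XT.nd (nat_lit 312) (nat_lit 152) (nat_lit 0) (XT.nd (nat_lit 156) (nat_lit 152) (nat_lit 0) (XT.nd (nat_lit 78) (nat_lit 0) (nat_lit 0) (XT.lf (nat_lit 0) (nat_lit 1541713209) (nat_lit 76) (nat_lit 19926990252) (nat_lit 152) (nat_lit 14095570254) (nat_lit 8) (nat_lit 5) (nat_lit 9) (nat_lit 5) (nat_lit 10) (nat_lit 4) (nat_lit 221) (nat_lit 205) (nat_lit 174)) (XT.lf (nat_lit 0) (nat_lit 23889518246) (nat_lit 76) (nat_lit 8359301212) (nat_lit 152) (nat_lit 7504124906) (nat_lit 8) (nat_lit 5) (nat_lit 9) (nat_lit 5) (nat_lit 10) (nat_lit 4) (nat_lit 222) (nat_lit 205) (nat_lit 173))) (XT.nd (nat_lit 78) (nat_lit 0) (nat_lit 0) (XT.lf (nat_lit 0) (nat_lit 274652259) (nat_lit 152) (nat_lit 39477891093) (nat_lit 76) (nat_lit 4801193897) (nat_lit 6) (nat_lit 5) (nat_lit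 8) (nat_lit 5) (nat_lit 7) (nat_lit 4) (nat_lit 223) (nat_lit 205) (nat_lit 172)) (XT.lf (nat_lit 0) (nat_lit 9452850399) (nat_lit 152) (nat_lit 20439634282) (nat_lit 76) (nat_lit 20112557185) (nat_lit 6) (nat_lit 5) (nat_lit 8) (nat_lit 5) (nat_lit 7) (nat_lit 4) (nat_lit 224) (nat_lit 205) (nat_lit 171)))) (XT.nd (nat_lit 156) (nat_lit 76) (nat_lit 0) (XT.nd (nat_lit 78) (nat_lit 0) (nat_lit 0) (XT.lf (nat_lit 0) (nat_lit 1468843829) (nat_lit 76) (nat_lit 18538833137) (nat_lit 152) (nat_lit 36266495378) (nat_lit 5) (nat_lit 5) (nat_lit 6) (nat_lit 5) (nat_lit 7) (nat_lit 4) (nat_lit 225) (nat_lit 205) (nat_lit 170)) (XT.lf (nat_lit 0) (nat_lit 27847354688) (nat_lit 76) (nat_lit 4861345955) (nat_lit 152) (nat_lit 30730040042) (nat_lit 5) (nat_lit 5) (nat_lit 6) (nat_lit 5) (nat_lit 7) (nat_lit 4) (nat_lit 226) (nat_lit 205) (nat_lit 169))) (XT.nd (nat_lit 78) (nat_lit 76) (nat_lit 0)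 (XT.lf (nat_lit 0) (nat_lit 47547872699) (nat_lit 152) (nat_lit 13805547356) (nat_lit 0) (nat_lit 10306026935) (nat_lit 5) (nat_lit 5) (nat_lit 7) (nat_lit 4) (nat_lit 5) (nat_lit 4) (nat_lit 227) (nat_lit 205) (nat_lit 168)) (XT.nd (nat_lit 78) (nat_lit 0) (nat_lit 0) (XT.lf (nat_lit 0) (nat_lit 11654250324) (nat_lit 76) (nat_lit 53348733992) (nat_lit 76) (nat_lit 16079150085) (nat_lit 4) (nat_lit 4) (nat_lit 5) (nat_lit 5) (nat_lit 5) (nat_lit 4) (nat_lit 228) (nat_lit 205) (nat_lit 167)) (XT.lf (nat_lit 0) (nat_lit 41730176668) (nat_lit 76) (nat_lit 43725729306) (nat_lit 76) (nat_lit 6432025275) (nat_lit 4) (nat_lit 4) (nat_lit 5) (nat_lit 5) (nat_lit 5) (nat_lit 4) (nat_lit 229) (nat_lit 205) (nat_lit 166)))))) (XT.nd (nat_lit 312) (nat_lit 76) (nat_lit 0) (XT.nd (nat_lit 156) (nat_lit 76) (nat_lit 0) (XT.nd (nat_lit 78) (nat_lit 0) (nat_lit 0) (XT.lf (nat_lit 0) (nat_lit 4408914479)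 (nat_lit 152) (nat_lit 28144135936) (nat_lit 76) (nat_lit 71754236040) (nat_lit 3) (nat_lit 5) (nat_lit 5) (nat_lit 5) (nat_lit 4) (nat_lit 4) (nat_lit 230) (nat_lit 205) (nat_lit 165)) (XT.lf (nat_lit 0) (nat_lit 16488555640) (nat_lit 152) (nat_lit 3036720599) (nat_lit 76) (nat_lit 99051479668) (nat_lit 3) (nat_lit 5) (nat_lit 5) (nat_lit 5) (nat_lit 4) (nat_lit 4) (nat_lit 231) (nat_lit 205) (nat_lit 164))) (XT.nd (nat_lit 78) (nat_lit 0) (nat_lit 0) (XT.lf (nat_lit 0) (nat_lit 27169544482) (nat_lit 76) (nat_lit 3848878684) (nat_lit 152) (nat_lit 103917202685) (nat_lit 2) (nat_lit 5) (nat_lit 3) (nat_lit 5) (nat_lit 4) (nat_lit 4) (nat_lit 232) (nat_lit 205) (nat_lit 163)) (XT.lf (nat_lit 0) (nat_lit 48145479364) (nat_lit 152) (nat_lit 92018956773) (nat_lit 0) (nat_lit 13550510415) (nat_lit 2) (nat_lit 5) (nat_lit 4) (nat_lit 4) (nat_lit 2) (nat_lit 4) (nat_lit 233) (nat_lit 205) (nat_lit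 162)))) (XT.nd (nat_lit 156) (nat_lit 76) (nat_lit 0) (XT.nd (nat_lit 78) (nat_lit 0) (nat_lit 0) (XT.lf (nat_lit 0) (nat_lit 67935867527) (nat_lit 152) (nat_lit 74037993168) (nat_lit 0) (nat_lit 33329794907) (nat_lit 2) (nat_lit 5) (nat_lit 4) (nat_lit 4) (nat_lit 2) (nat_lit 4) (nat_lit 234) (nat_lit 205) (nat_lit 161)) (XT.lf (nat_lit 0) (nat_lit 90684225278) (nat_lit 152) (nat_lit 53378823468) (nat_lit 0) (nat_lit 56068497292) (nat_lit 2) (nat_lit 5) (nat_lit 4) (nat_lit 4) (nat_lit 2) (nat_lit 4) (nat_lit 235) (nat_lit 205) (nat_lit 160))) (XT.nd (nat_lit 78) (nat_lit 76) (nat_lit 0) (XT.lf (nat_lit 0) (nat_lit 116835629182) (nat_lit 152) (nat_lit 29637246526) (nat_lit 0) (nat_lit 82211505225) (nat_lit 2) (nat_lit 5) (nat_lit 4) (nat_lit 4) (nat_lit 2) (nat_lit 4) (nat_lit 236) (nat_lit 205) (nat_lit 159)) (XT.nd (nat_lit 78) (nat_lit 76) (nat_lit 0) (XT.lf (nat_lit 0) (nat_lit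 146901737142) (nat_lit 152) (nat_lit 2348753229) (nat_lit 0) (nat_lit 112270312341) (nat_lit 2) (nat_lit 5) (nat_lit 4) (nat_lit 4) (nat_lit 2) (nat_lit 4) (nat_lit 237) (nat_lit 205) (nat_lit 158)) (XT.lf (nat_lit 0) (nat_lit 30548733079) (nat_lit 76) (nat_lit 151656763781) (nat_lit 76) (nat_lit 117018990420) (nat_lit 1) (nat_lit 4) (nat_lit 2) (nat_lit 5) (nat_lit 2) (nat_lit 4) (nat_lit 238) (nat_lit 205) (nat_lit 157))))))) (XT.nd (nat_lit 702) (nat_lit 0) (nat_lit 0) (XT.nd (nat_lit 312) (nat_lit 0) (nat_lit 0) (XT.nd (nat_lit 156) (nat_lit 0) (nat_lit 0) (XT.nd (nat_lit 78) (nat_lit 0) (nat_lit 0) (XT.lf (nat_lit 0) (nat_lit 68511677386) (nat_lit 76) (nat_lit 154355196355) (nat_lit 76) (nat_lit 119711902507) (nat_lit 1) (nat_lit 4) (nat_lit 2) (nat_lit 5) (nat_lit 2) (nat_lit 4) (nat_lit 239) (nat_lit 205) (nat_lit 156)) (XT.lf (nat_lit 0) (nat_lit 112159151768) (nat_lit 76) (nat_lit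 157462802591) (nat_lit 76) (nat_lit 122814708319) (nat_lit 1) (nat_lit 4) (nat_lit 2) (nat_lit 5) (nat_lit 2) (nat_lit 4) (nat_lit 240) (nat_lit 205) (nat_lit 155))) (XT.nd (nat_lit 78) (nat_lit 0) (nat_lit 0) (XT.lf (nat_lit 0) (nat_lit 162345128549) (nat_lit 76) (nat_lit 161040383478) (nat_lit 76) (nat_lit 126388114925) (nat_lit 1) (nat_lit 4) (nat_lit 2) (nat_lit 5) (nat_lit 2) (nat_lit 4) (nat_lit 241) (nat_lit 205) (nat_lit 154)) (XT.lf (nat_lit 0) (nat_lit 220051507276) (nat_lit 76) (nat_lit 165157935165) (nat_lit 76) (nat_lit 130502036803) (nat_lit 1) (nat_lit 4) (nat_lit 2) (nat_lit 5) (nat_lit 2) (nat_lit 4) (nat_lit 242) (nat_lit 205) (nat_lit 153)))) (XT.nd (nat_lit 156) (nat_lit 0) (nat_lit 0) (XT.nd (nat_lit 78) (nat_lit 0) (nat_lit 0) (XT.lf (nat_lit 0) (nat_lit 286407325792) (nat_lit 76) (nat_lit 169896018446) (nat_lit 76) (nat_lit 135236963727) (nat_lit 1) (nat_lit 4)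 (nat_lit 2) (nat_lit 5) (nat_lit 2) (nat_lit 4) (nat_lit 243) (nat_lit 205) (nat_lit 152)) (XT.lf (nat_lit 0) (nat_lit 362710850113) (nat_lit 76) (nat_lit 175347334950) (nat_lit 76) (nat_lit 140685535573) (nat_lit 1) (nat_lit 4) (nat_lit 2) (nat_lit 5) (nat_lit 2) (nat_lit 4) (nat_lit 244) (nat_lit 205) (nat_lit 151))) (XT.nd (nat_lit 78) (nat_lit 0) (nat_lit 0) (XT.lf (nat_lit 0) (nat_lit 450454975279) (nat_lit 76) (nat_lit 181618540869) (nat_lit 76) (nat_lit 146954354834) (nat_lit 1) (nat_lit 4) (nat_lit 2) (nat_lit 5) (nat_lit 2) (nat_lit 4) (nat_lit 245) (nat_lit 205) (nat_lit 150)) (XT.nd (nat_lit 78) (nat_lit 0) (nat_lit 0) (XT.lf (nat_lit 0) (nat_lit 551356434174) (nat_lit 76) (nat_lit 188832333711) (nat_lit 76) (nat_lit 154166072321) (nat_lit 1) (nat_lit 4) (nat_lit 2) (nat_lit 5) (nat_lit 2) (nat_lit 4) (nat_lit 246) (nat_lit 205) (nat_lit 149)) (XT.lf (nat_lit 0) (nat_lit 667389385777)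 (nat_lit 76) (nat_lit 197129852901) (nat_lit 76) (nat_lit 162461786854) (nat_lit 1) (nat_lit 4) (nat_lit 2) (nat_lit 5) (nat_lit 2) (nat_lit 4) (nat_lit 247) (nat_lit 205) (nat_lit 148)))))) (XT.nd (nat_lit 312) (nat_lit 0) (nat_lit 0) (XT.nd (nat_lit 156) (nat_lit 0) (nat_lit 0) (XT.nd (nat_lit 78) (nat_lit 0) (nat_lit 0) (XT.lf (nat_lit 0) (nat_lit 800824040009) (nat_lit 76) (nat_lit 206673441206) (nat_lit 76) (nat_lit 172003805891) (nat_lit 1) (nat_lit 4) (nat_lit 2) (nat_lit 5) (nat_lit 2) (nat_lit 4) (nat_lit 248) (nat_lit 205) (nat_lit 147)) (XT.lf (nat_lit 0) (nat_lit 954271074890) (nat_lit 76) (nat_lit 217649821005) (nat_lit 76) (nat_lit 182978821111) (nat_lit 1) (nat_lit 4) (nat_lit 2) (nat_lit 5) (nat_lit 2) (nat_lit 4) (nat_lit 249) (nat_lit 205) (nat_lit 146))) (XT.nd (nat_lit 78) (nat_lit 0) (nat_lit 0) (XT.lf (nat_lit 0) (nat_lit 1130732715013) (nat_lit 76) (nat_lit 230273747556)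 (nat_lit 76) (nat_lit 195601561070) (nat_lit 1) (nat_lit 4) (nat_lit 2) (nat_lit 5) (nat_lit 2) (nat_lit 4) (nat_lit 250) (nat_lit 205) (nat_lit 145)) (XT.lf (nat_lit 0) (nat_lit 1333661470730) (nat_lit 76) (nat_lit 244792210726) (nat_lit 76) (nat_lit 210118992421) (nat_lit 1) (nat_lit 4) (nat_lit 2) (nat_lit 5) (nat_lit 2) (nat_lit 4) (nat_lit 251) (nat_lit 205) (nat_lit 144)))) (XT.nd (nat_lit 156) (nat_lit 0) (nat_lit 0) (XT.nd (nat_lit 78) (nat_lit 0) (nat_lit 0) (XT.lf (nat_lit 0) (nat_lit 1567027687260) (nat_lit 76) (nat_lit 261489267402) (nat_lit 76) (nat_lit 226815151864) (nat_lit 1) (nat_lit 4) (nat_lit 2) (nat_lit 5) (nat_lit 2) (nat_lit 4) (nat_lit 252) (nat_lit 205) (nat_lit 143)) (XT.lf (nat_lit 0) (nat_lit 1835397225363) (nat_lit 76) (nat_lit 280691599129) (nat_lit 76) (nat_lit 246016703388) (nat_lit 1) (nat_lit 4) (nat_lit 2) (nat_lit 5) (nat_lit 2) (nat_lit 4) (nat_lit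 253) (nat_lit 205) (nat_lit 142))) (XT.nd (nat_lit 78) (nat_lit 0) (nat_lit 0) (XT.lf (nat_lit 0) (nat_lit 2144020793393) (nat_lit 76) (nat_lit 302774903701) (nat_lit 76) (nat_lit 268099329522) (nat_lit 1) (nat_lit 4) (nat_lit 2) (nat_lit 5) (nat_lit 2) (nat_lit 4) (nat_lit 254) (nat_lit 205) (nat_lit 141)) (XT.nd (nat_lit 78) (nat_lit 0) (nat_lit 0) (XT.lf (nat_lit 0) (nat_lit 2498936678549) (nat_lit 76) (nat_lit 328171245773) (nat_lit 76) (nat_lit 293495081649) (nat_lit 1) (nat_lit 4) (nat_lit 2) (nat_lit 5) (nat_lit 2) (nat_lit 4) (nat_lit 255) (nat_lit 205) (nat_lit 140)) (XT.lf (nat_lit 0) (nat_lit 2907088887280) (nat_lit 76) (nat_lit 357377510298) (nat_lit 76) (nat_lit 322700833178) (nat_lit 1) (nat_lit 4) (nat_lit 2) (nat_lit 5) (nat_lit 2) (nat_lit 4) (nat_lit 256) (nat_lit 205) (nat_lit 139))))))))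
noncomputable def xc33 : XT := (XT.nd (nat_lit 28548) (nat_lit 0) (nat_lit 0) (XT.nd (nat_lit 27846) (nat_lit 0) (nat_lit 608) (XT.nd (nat_lit 27456) (nat_lit 0) (nat_lit 1672) (XT.nd (nat_lit 27300) (nat_lit 0) (nat_lit 2660) (XT.nd (nat_lit 78) (nat_lit 0) (nat_lit 0) (XT.lf (nat_lit 0) (nat_lit 3376463006280) (nat_lit 76) (nat_lit 390965124191) (nat_lit 76) (nat_lit 356288000987) (nat_lit 1) (nat_lit 4) (nat_lit 2) (nat_lit 5) (nat_lit 2) (nat_lit 4) (nat_lit 257) (nat_lit 205) (nat_lit 138)) (XT.lf (nat_lit 0) (nat_lit 3916242442224) (nat_lit 76) (nat_lit 429591236420) (nat_lit 76) (nat_lit 394913725318) (nat_lit 1) (nat_lit 4) (nat_lit 2) (nat_lit 5) (nat_lit 2) (nat_lit 4) (nat_lit 258) (nat_lit 205) (nat_lit 137))) (XT.nd (nat_lit 78) (nat_lit 0) (nat_lit 0) (XT.lf (nat_lit 0) (nat_lit 1481501028) (nat_lit 0) (nat_lit 1481501028) (nat_lit 380) (nat_lit 2034948356) (nat_lit 36)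 (nat_lit 5) (nat_lit 36) (nat_lit 3) (nat_lit 41) (nat_lit 3) (nat_lit 206) (nat_lit 206) (nat_lit 188)) (XT.lf (nat_lit 76) (nat_lit 554385363) (nat_lit 0) (nat_lit 7019659137) (nat_lit 456) (nat_lit 3066534034) (nat_lit 37) (nat_lit 5) (nat_lit 36) (nat_lit 5) (nat_lit 42) (nat_lit 5) (nat_lit 207) (nat_lit 206) (nat_lit 187)))) (XT.nd (nat_lit 156) (nat_lit 988) (nat_lit 0) (XT.nd (nat_lit 78) (nat_lit 0) (nat_lit 76) (XT.lf (nat_lit 76) (nat_lit 9495812398) (nat_lit 0) (nat_lit 61821427) (nat_lit 456) (nat_lit 1818810634) (nat_lit 37) (nat_lit 5) (nat_lit 36) (nat_lit 5) (nat_lit 42) (nat_lit 5) (nat_lit 208) (nat_lit 206) (nat_lit 186)) (XT.lf (nat_lit 76) (nat_lit 7622118549) (nat_lit 0) (nat_lit 4421741138) (nat_lit 456) (nat_lit 163774031) (nat_lit 38) (nat_lit 5) (nat_lit 37) (nat_lit 5) (nat_lit 43) (nat_lit 5) (nat_lit 209) (nat_lit 206) (nat_lit 185))) (XT.nd (nat_lit 78)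 (nat_lit 684) (nat_lit 0) (XT.lf (nat_lit 0) (nat_lit 1785133370) (nat_lit 456) (nat_lit 7634247977) (nat_lit 76) (nat_lit 3731250539) (nat_lit 32) (nat_lit 5) (nat_lit 38) (nat_lit 5) (nat_lit 33) (nat_lit 5) (nat_lit 210) (nat_lit 206) (nat_lit 184)) (XT.nd (nat_lit 78) (nat_lit 228) (nat_lit 0) (XT.lf (nat_lit 0) (nat_lit 3086061802) (nat_lit 456) (nat_lit 1127636941) (nat_lit 532) (nat_lit 10006225286) (nat_lit 26) (nat_lit 5) (nat_lit 32) (nat_lit 5) (nat_lit 33) (nat_lit 5) (nat_lit 211) (nat_lit 206) (nat_lit 183)) (XT.lf (nat_lit 0) (nat_lit 117766040) (nat_lit 228) (nat_lit 7200383147) (nat_lit 304) (nat_lit 8107355469) (nat_lit 23) (nat_lit 5) (nat_lit 26) (nat_lit 5) (nat_lit 27) (nat_lit 5) (nat_lit 212) (nat_lit 206) (nat_lit 182)))))) (XT.nd (nat_lit 312) (nat_lit 456) (nat_lit 0) (XT.nd (nat_lit 156) (nat_lit 456) (nat_lit 0) (XT.nd (nat_lit 78) (nat_lit 152) (nat_lit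 0) (XT.lf (nat_lit 0) (nat_lit 11193344806) (nat_lit 304) (nat_lit 3267772140) (nat_lit 76) (nat_lit 2327114601) (nat_lit 23) (nat_lit 5) (nat_lit 27) (nat_lit 5) (nat_lit 24) (nat_lit 5) (nat_lit 213) (nat_lit 206) (nat_lit 181)) (XT.lf (nat_lit 0) (nat_lit 10812361893) (nat_lit 152) (nat_lit 5202265307) (nat_lit 228) (nat_lit 2312177746) (nat_lit 21) (nat_lit 5) (nat_lit 23) (nat_lit 5) (nat_lit 24) (nat_lit 5) (nat_lit 214) (nat_lit 206) (nat_lit 180))) (XT.nd (nat_lit 78) (nat_lit 152) (nat_lit 0) (XT.lf (nat_lit 0) (nat_lit 1715349036) (nat_lit 304) (nat_lit 12877677336) (nat_lit 76) (nat_lit 5474776666) (nat_lit 17) (nat_lit 5) (nat_lit 21) (nat_lit 5) (nat_lit 18) (nat_lit 5) (nat_lit 215) (nat_lit 206) (nat_lit 179)) (XT.lf (nat_lit 0) (nat_lit 2303648585) (nat_lit 152) (nat_lit 4255628397) (nat_lit 228) (nat_lit 15478370557) (nat_lit 15) (nat_lit 5) (nat_lit 17) (nat_lit 5)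 (nat_lit 18) (nat_lit 5) (nat_lit 216) (nat_lit 206) (nat_lit 178)))) (XT.nd (nat_lit 156) (nat_lit 304) (nat_lit 0) (XT.nd (nat_lit 78) (nat_lit 152) (nat_lit 0) (XT.lf (nat_lit 0) (nat_lit 12627033378) (nat_lit 228) (nat_lit 4022254331) (nat_lit 76) (nat_lit 7614280589) (nat_lit 15) (nat_lit 5) (nat_lit 18) (nat_lit 5) (nat_lit 16) (nat_lit 5) (nat_lit 217) (nat_lit 206) (nat_lit 177)) (XT.lf (nat_lit 0) (nat_lit 14572310398) (nat_lit 152) (nat_lit 5439087806) (nat_lit 228) (nat_lit 6779792691) (nat_lit 13) (nat_lit 5) (nat_lit 15) (nat_lit 5) (nat_lit 16) (nat_lit 5) (nat_lit 218) (nat_lit 206) (nat_lit 176))) (XT.nd (nat_lit 78) (nat_lit 228) (nat_lit 0) (XT.lf (nat_lit 0) (nat_lit 6575517831) (nat_lit 76) (nat_lit 22329337841) (nat_lit 152) (nat_lit 761272545) (nat_lit 12) (nat_lit 5) (nat_lit 13) (nat_lit 5) (nat_lit 14) (nat_lit 4) (nat_lit 219) (nat_lit 206) (nat_lit 175)) (XT.nd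 (nat_lit 78) (nat_lit 152) (nat_lit 0) (XT.lf (nat_lit 0) (nat_lit 6315158419) (nat_lit 152) (nat_lit 4400857365) (nat_lit 76) (nat_lit 22207606445) (nat_lit 11) (nat_lit 5) (nat_lit 13) (nat_lit 5) (nat_lit 12) (nat_lit 5) (nat_lit 220) (nat_lit 206) (nat_lit 174)) (XT.lf (nat_lit 0) (nat_lit 14869051270) (nat_lit 228) (nat_lit 18813439754) (nat_lit 76) (nat_lit 2948982103) (nat_lit 9) (nat_lit 5) (nat_lit 12) (nat_lit 5) (nat_lit 10) (nat_lit 4) (nat_lit 221) (nat_lit 206) (nat_lit 173))))))) (XT.nd (nat_lit 702) (nat_lit 228) (nat_lit 0) (XT.nd (nat_lit 312) (nat_lit 152) (nat_lit 0) (XT.nd (nat_lit 156) (nat_lit 152) (nat_lit 0) (XT.nd (nat_lit 78) (nat_lit 0) (nat_lit 0) (XT.lf (nat_lit 0) (nat_lit 2511769316) (nat_lit 76) (nat_lit 22641072367) (nat_lit 152) (nat_lit 15707089231) (nat_lit 8) (nat_lit 5) (nat_lit 9) (nat_lit 5) (nat_lit 10) (nat_lit 4) (nat_lit 222) (nat_lit 206)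 (nat_lit 172)) (XT.lf (nat_lit 0) (nat_lit 28115380006) (nat_lit 76) (nat_lit 9374095156) (nat_lit 152) (nat_lit 8192511850) (nat_lit 8) (nat_lit 5) (nat_lit 9) (nat_lit 5) (nat_lit 10) (nat_lit 4) (nat_lit 223) (nat_lit 206) (nat_lit 171))) (XT.nd (nat_lit 78) (nat_lit 0) (nat_lit 0) (XT.lf (nat_lit 0) (nat_lit 697308505) (nat_lit 152) (nat_lit 44764352356) (nat_lit 76) (nat_lit 5743305983) (nat_lit 6) (nat_lit 5) (nat_lit 8) (nat_lit 5) (nat_lit 7) (nat_lit 4) (nat_lit 224) (nat_lit 206) (nat_lit 170)) (XT.lf (nat_lit 0) (nat_lit 11202480922) (nat_lit 152) (nat_lit 22953212120) (nat_lit 76) (nat_lit 23322425981) (nat_lit 6) (nat_lit 5) (nat_lit 8) (nat_lit 5) (nat_lit 7) (nat_lit 4) (nat_lit 225) (nat_lit 206) (nat_lit 169)))) (XT.nd (nat_lit 156) (nat_lit 76) (nat_lit 0) (XT.nd (nat_lit 78) (nat_lit 0) (nat_lit 0) (XT.lf (nat_lit 0) (nat_lit 2194782566) (nat_lit 76) (nat_lit 21114643288)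 (nat_lit 152) (nat_lit 41380830739) (nat_lit 5) (nat_lit 5) (nat_lit 6) (nat_lit 5) (nat_lit 7) (nat_lit 4) (nat_lit 226) (nat_lit 206) (nat_lit 168)) (XT.lf (nat_lit 0) (nat_lit 32464120642) (nat_lit 76) (nat_lit 5412274092) (nat_lit 152) (nat_lit 35056381749) (nat_lit 5) (nat_lit 5) (nat_lit 6) (nat_lit 5) (nat_lit 7) (nat_lit 4) (nat_lit 227) (nat_lit 206) (nat_lit 167))) (XT.nd (nat_lit 78) (nat_lit 76) (nat_lit 0) (XT.lf (nat_lit 0) (nat_lit 54911076633) (nat_lit 152) (nat_lit 15478857226) (nat_lit 0) (nat_lit 11999196872) (nat_lit 5) (nat_lit 5) (nat_lit 7) (nat_lit 4) (nat_lit 5) (nat_lit 4) (nat_lit 228) (nat_lit 206) (nat_lit 166)) (XT.nd (nat_lit 78) (nat_lit 0) (nat_lit 0) (XT.lf (nat_lit 0) (nat_lit 13766261828) (nat_lit 76) (nat_lit 61196810902) (nat_lit 76) (nat_lit 18263957120) (nat_lit 4) (nat_lit 4) (nat_lit 5) (nat_lit 5) (nat_lit 5) (nat_lit 4) (nat_lit 229) (nat_lit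 206) (nat_lit 165)) (XT.lf (nat_lit 0) (nat_lit 48306115304) (nat_lit 76) (nat_lit 50150472886) (nat_lit 76) (nat_lit 7199380824) (nat_lit 4) (nat_lit 4) (nat_lit 5) (nat_lit 5) (nat_lit 5) (nat_lit 4) (nat_lit 230) (nat_lit 206) (nat_lit 164)))))) (XT.nd (nat_lit 390) (nat_lit 76) (nat_lit 0) (XT.nd (nat_lit 156) (nat_lit 76) (nat_lit 0) (XT.nd (nat_lit 78) (nat_lit 0) (nat_lit 0) (XT.lf (nat_lit 0) (nat_lit 5233356938) (nat_lit 152) (nat_lit 32081569003) (nat_lit 76) (nat_lit 82624947558) (nat_lit 3) (nat_lit 5) (nat_lit 5) (nat_lit 5) (nat_lit 4) (nat_lit 4) (nat_lit 231) (nat_lit 206) (nat_lit 163)) (XT.lf (nat_lit 0) (nat_lit 19103669671) (nat_lit 152) (nat_lit 3245109277) (nat_lit 76) (nat_lit 114002746063) (nat_lit 3) (nat_lit 5) (nat_lit 5) (nat_lit 5) (nat_lit 4) (nat_lit 4) (nat_lit 232) (nat_lit 206) (nat_lit 162))) (XT.nd (nat_lit 78) (nat_lit 0) (nat_lit 0) (XT.lf (nat_lit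 0) (nat_lit 31471178139) (nat_lit 76) (nat_lit 4328779696) (nat_lit 152) (nat_lit 119365364263) (nat_lit 2) (nat_lit 5) (nat_lit 3) (nat_lit 5) (nat_lit 4) (nat_lit 4) (nat_lit 233) (nat_lit 206) (nat_lit 161)) (XT.nd (nat_lit 78) (nat_lit 0) (nat_lit 0) (XT.lf (nat_lit 0) (nat_lit 55481313796) (nat_lit 152) (nat_lit 105617881677) (nat_lit 0) (nat_lit 15663571245) (nat_lit 2) (nat_lit 5) (nat_lit 4) (nat_lit 4) (nat_lit 2) (nat_lit 4) (nat_lit 234) (nat_lit 206) (nat_lit 160)) (XT.lf (nat_lit 0) (nat_lit 78225388984) (nat_lit 152) (nat_lit 84966371611) (nat_lit 0) (nat_lit 38399250463) (nat_lit 2) (nat_lit 5) (nat_lit 4) (nat_lit 4) (nat_lit 2) (nat_lit 4) (nat_lit 235) (nat_lit 206) (nat_lit 159))))) (XT.nd (nat_lit 156) (nat_lit 76) (nat_lit 0) (XT.nd (nat_lit 78) (nat_lit 0) (nat_lit 0) (XT.lf (nat_lit 0) (nat_lit 104373068921) (nat_lit 152) (nat_lit 61231455221) (nat_lit 0) (nat_lit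 64539629555) (nat_lit 2) (nat_lit 5) (nat_lit 4) (nat_lit 4) (nat_lit 2) (nat_lit 4) (nat_lit 236) (nat_lit 206) (nat_lit 158)) (XT.lf (nat_lit 0) (nat_lit 134435938647) (nat_lit 152) (nat_lit 33948753708) (nat_lit 0) (nat_lit 94596150722) (nat_lit 2) (nat_lit 5) (nat_lit 4) (nat_lit 4) (nat_lit 2) (nat_lit 4) (nat_lit 237) (nat_lit 206) (nat_lit 157))) (XT.nd (nat_lit 78) (nat_lit 76) (nat_lit 0) (XT.lf (nat_lit 0) (nat_lit 169002184746) (nat_lit 152) (nat_lit 2584475085) (nat_lit 0) (nat_lit 129156876333) (nat_lit 2) (nat_lit 5) (nat_lit 4) (nat_lit 4) (nat_lit 2) (nat_lit 4) (nat_lit 238) (nat_lit 206) (nat_lit 156)) (XT.nd (nat_lit 78) (nat_lit 0) (nat_lit 0) (XT.lf (nat_lit 0) (nat_lit 35237765310) (nat_lit 76) (nat_lit 174357807127) (nat_lit 76) (nat_lit 134507698292) (nat_lit 1) (nat_lit 4) (nat_lit 2) (nat_lit 5) (nat_lit 2) (nat_lit 4) (nat_lit 239) (nat_lit 206) (nat_lit 155))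 (XT.lf (nat_lit 0) (nat_lit 78881230968) (nat_lit 76) (nat_lit 177467196487) (nat_lit 76) (nat_lit 137612913370) (nat_lit 1) (nat_lit 4) (nat_lit 2) (nat_lit 5) (nat_lit 2) (nat_lit 4) (nat_lit 240) (nat_lit 206) (nat_lit 154))))))))
noncomputable def xc34 : XT := (XT.nd (nat_lit 28704) (nat_lit 0) (nat_lit 380) (XT.nd (nat_lit 702) (nat_lit 0) (nat_lit 0) (XT.nd (nat_lit 312) (nat_lit 0) (nat_lit 0) (XT.nd (nat_lit 156) (nat_lit 0) (nat_lit 0) (XT.nd (nat_lit 78) (nat_lit 0) (nat_lit 0) (XT.lf (nat_lit 0) (nat_lit 129063721902) (nat_lit 76) (nat_lit 181046327916) (nat_lit 76) (nat_lit 141188414990) (nat_lit 1) (nat_lit 4) (nat_lit 2) (nat_lit 5) (nat_lit 2) (nat_lit 4) (nat_lit 241) (nat_lit 206) (nat_lit 153)) (XT.lf (nat_lit 0) (nat_lit 186767069456) (nat_lit 76) (nat_lit 185165227902) (nat_lit 76) (nat_lit 145304158619) (nat_lit 1) (nat_lit 4) (nat_lit 2) (nat_lit 5) (nat_lit 2)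 (nat_lit 4) (nat_lit 242) (nat_lit 206) (nat_lit 152))) (XT.nd (nat_lit 78) (nat_lit 0) (nat_lit 0) (XT.lf (nat_lit 0) (nat_lit 253120252171) (nat_lit 76) (nat_lit 189904483615) (nat_lit 76) (nat_lit 150040669675) (nat_lit 1) (nat_lit 4) (nat_lit 2) (nat_lit 5) (nat_lit 2) (nat_lit 4) (nat_lit 243) (nat_lit 206) (nat_lit 151)) (XT.lf (nat_lit 0) (nat_lit 329421484491) (nat_lit 76) (nat_lit 195356819626) (nat_lit 76) (nat_lit 155490619027) (nat_lit 1) (nat_lit 4) (nat_lit 2) (nat_lit 5) (nat_lit 2) (nat_lit 4) (nat_lit 244) (nat_lit 206) (nat_lit 150)))) (XT.nd (nat_lit 156) (nat_lit 0) (nat_lit 0) (XT.nd (nat_lit 78) (nat_lit 0) (nat_lit 0) (XT.lf (nat_lit 0) (nat_lit 417163616612) (nat_lit 76) (nat_lit 201628912073) (nat_lit 76) (nat_lit 161760636119) (nat_lit 1) (nat_lit 4) (nat_lit 2) (nat_lit 5) (nat_lit 2) (nat_lit 4) (nat_lit 245) (nat_lit 206) (nat_lit 149)) (XT.lf (nat_lit 0)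 (nat_lit 518063342425) (nat_lit 76) (nat_lit 208843475809) (nat_lit 76) (nat_lit 168973395197) (nat_lit 1) (nat_lit 4) (nat_lit 2) (nat_lit 5) (nat_lit 2) (nat_lit 4) (nat_lit 246) (nat_lit 206) (nat_lit 148))) (XT.nd (nat_lit 78) (nat_lit 0) (nat_lit 0) (XT.lf (nat_lit 0) (nat_lit 634094787000) (nat_lit 76) (nat_lit 217141665342) (nat_lit 76) (nat_lit 177270015463) (nat_lit 1) (nat_lit 4) (nat_lit 2) (nat_lit 5) (nat_lit 2) (nat_lit 4) (nat_lit 247) (nat_lit 206) (nat_lit 147)) (XT.nd (nat_lit 78) (nat_lit 0) (nat_lit 0) (XT.lf (nat_lit 0) (nat_lit 767528130773) (nat_lit 76) (nat_lit 226685836553) (nat_lit 76) (nat_lit 186812822094) (nat_lit 1) (nat_lit 4) (nat_lit 2) (nat_lit 5) (nat_lit 2) (nat_lit 4) (nat_lit 248) (nat_lit 206) (nat_lit 146)) (XT.lf (nat_lit 0) (nat_lit 920974026124) (nat_lit 76) (nat_lit 237662723227) (nat_lit 76) (nat_lit 197788522177) (nat_lit 1) (nat_lit 4) (nat_lit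 2) (nat_lit 5) (nat_lit 2) (nat_lit 4) (nat_lit 249) (nat_lit 206) (nat_lit 145)))))) (XT.nd (nat_lit 312) (nat_lit 0) (nat_lit 0) (XT.nd (nat_lit 156) (nat_lit 0) (nat_lit 0) (XT.nd (nat_lit 78) (nat_lit 0) (nat_lit 0) (XT.lf (nat_lit 0) (nat_lit 1097434675352) (nat_lit 76) (nat_lit 250287090539) (nat_lit 76) (nat_lit 210411857671) (nat_lit 1) (nat_lit 4) (nat_lit 2) (nat_lit 5) (nat_lit 2) (nat_lit 4) (nat_lit 250) (nat_lit 206) (nat_lit 144)) (XT.lf (nat_lit 0) (nat_lit 1300362569420) (nat_lit 76) (nat_lit 264805936979) (nat_lit 76) (nat_lit 224929806877) (nat_lit 1) (nat_lit 4) (nat_lit 2) (nat_lit 5) (nat_lit 2) (nat_lit 4) (nat_lit 251) (nat_lit 206) (nat_lit 143))) (XT.nd (nat_lit 78) (nat_lit 0) (nat_lit 0) (XT.lf (nat_lit 0) (nat_lit 1533728036692) (nat_lit 76) (nat_lit 281503326934) (nat_lit 76) (nat_lit 241626416629) (nat_lit 1) (nat_lit 4) (nat_lit 2) (nat_lit 5) (nat_lit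 2) (nat_lit 4) (nat_lit 252) (nat_lit 206) (nat_lit 142)) (XT.lf (nat_lit 0) (nat_lit 1802096923265) (nat_lit 76) (nat_lit 300705948468) (nat_lit 76) (nat_lit 260828359726) (nat_lit 1) (nat_lit 4) (nat_lit 2) (nat_lit 5) (nat_lit 2) (nat_lit 4) (nat_lit 253) (nat_lit 206) (nat_lit 141)))) (XT.nd (nat_lit 156) (nat_lit 0) (nat_lit 0) (XT.nd (nat_lit 78) (nat_lit 0) (nat_lit 0) (XT.lf (nat_lit 0) (nat_lit 2110719924746) (nat_lit 76) (nat_lit 322789505047) (nat_lit 76) (nat_lit 282911326359) (nat_lit 1) (nat_lit 4) (nat_lit 2) (nat_lit 5) (nat_lit 2) (nat_lit 4) (nat_lit 254) (nat_lit 206) (nat_lit 140)) (XT.lf (nat_lit 0) (nat_lit 2465635317252) (nat_lit 76) (nat_lit 348186066255) (nat_lit 76) (nat_lit 308307374571) (nat_lit 1) (nat_lit 4) (nat_lit 2) (nat_lit 5) (nat_lit 2) (nat_lit 4) (nat_lit 255) (nat_lit 206) (nat_lit 139))) (XT.nd (nat_lit 78) (nat_lit 0) (nat_lit 0) (XT.lf (nat_lit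 0) (nat_lit 2873787097593) (nat_lit 76) (nat_lit 377392521333) (nat_lit 76) (nat_lit 337513383565) (nat_lit 1) (nat_lit 4) (nat_lit 2) (nat_lit 5) (nat_lit 2) (nat_lit 4) (nat_lit 256) (nat_lit 206) (nat_lit 138)) (XT.nd (nat_lit 27378) (nat_lit 0) (nat_lit 2660) (XT.lf (nat_lit 0) (nat_lit 3343160844078) (nat_lit 76) (nat_lit 410980300925) (nat_lit 76) (nat_lit 371100775258) (nat_lit 1) (nat_lit 4) (nat_lit 2) (nat_lit 5) (nat_lit 2) (nat_lit 4) (nat_lit 257) (nat_lit 206) (nat_lit 137)) (XT.lf (nat_lit 0) (nat_lit 2230436993) (nat_lit 0) (nat_lit 2230436993) (nat_lit 380) (nat_lit 1194129004) (nat_lit 36) (nat_lit 5) (nat_lit 36) (nat_lit 3) (nat_lit 41) (nat_lit 3) (nat_lit 207) (nat_lit 207) (nat_lit 186))))))) (XT.nd (nat_lit 702) (nat_lit 836) (nat_lit 0) (XT.nd (nat_lit 312) (nat_lit 1064) (nat_lit 0) (XT.nd (nat_lit 156) (nat_lit 380) (nat_lit 0) (XT.nd (nat_lit 78) (nat_lit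 0) (nat_lit 0) (XT.lf (nat_lit 76) (nat_lit 1794585187) (nat_lit 0) (nat_lit 8753400204) (nat_lit 456) (nat_lit 1527103178) (nat_lit 37) (nat_lit 5) (nat_lit 36) (nat_lit 5) (nat_lit 42) (nat_lit 5) (nat_lit 208) (nat_lit 207) (nat_lit 185)) (XT.lf (nat_lit 76) (nat_lit 11926307752) (nat_lit 0) (nat_lit 663087855) (nat_lit 456) (nat_lit 353014002) (nat_lit 37) (nat_lit 5) (nat_lit 36) (nat_lit 5) (nat_lit 42) (nat_lit 5) (nat_lit 209) (nat_lit 207) (nat_lit 184))) (XT.nd (nat_lit 78) (nat_lit 0) (nat_lit 76) (XT.lf (nat_lit 0) (nat_lit 1270812285) (nat_lit 456) (nat_lit 4119684421) (nat_lit 532) (nat_lit 8522479024) (nat_lit 31) (nat_lit 5) (nat_lit 37) (nat_lit 5) (nat_lit 38) (nat_lit 5) (nat_lit 210) (nat_lit 207) (nat_lit 183)) (XT.lf (nat_lit 0) (nat_lit 3333206750) (nat_lit 456) (nat_lit 7610162452) (nat_lit 76) (nat_lit 4068574987) (nat_lit 32) (nat_lit 5) (nat_lit 38) (nat_lit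 5) (nat_lit 33) (nat_lit 5) (nat_lit 211) (nat_lit 207) (nat_lit 182)))) (XT.nd (nat_lit 156) (nat_lit 456) (nat_lit 0) (XT.nd (nat_lit 78) (nat_lit 228) (nat_lit 0) (XT.lf (nat_lit 0) (nat_lit 4619224914) (nat_lit 456) (nat_lit 1365575553) (nat_lit 532) (nat_lit 10269285622) (nat_lit 26) (nat_lit 5) (nat_lit 32) (nat_lit 5) (nat_lit 33) (nat_lit 5) (nat_lit 212) (nat_lit 207) (nat_lit 181)) (XT.lf (nat_lit 0) (nat_lit 1207068933) (nat_lit 228) (nat_lit 8223612455) (nat_lit 304) (nat_lit 8220766101) (nat_lit 23) (nat_lit 5) (nat_lit 26) (nat_lit 5) (nat_lit 27) (nat_lit 5) (nat_lit 213) (nat_lit 207) (nat_lit 180))) (XT.nd (nat_lit 78) (nat_lit 456) (nat_lit 0) (XT.lf (nat_lit 0) (nat_lit 13755978302) (nat_lit 304) (nat_lit 2750847410) (nat_lit 76) (nat_lit 2723125608) (nat_lit 23) (nat_lit 5) (nat_lit 27) (nat_lit 5) (nat_lit 24) (nat_lit 5) (nat_lit 214) (nat_lit 207) (nat_lit 179))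 (XT.nd (nat_lit 78) (nat_lit 304) (nat_lit 0) (XT.lf (nat_lit 0) (nat_lit 13356061528) (nat_lit 152) (nat_lit 5851305610) (nat_lit 228) (nat_lit 1800150169) (nat_lit 21) (nat_lit 5) (nat_lit 23) (nat_lit 5) (nat_lit 24) (nat_lit 5) (nat_lit 215) (nat_lit 207) (nat_lit 178)) (XT.lf (nat_lit 0) (nat_lit 2707231309) (nat_lit 304) (nat_lit 13863117711) (nat_lit 76) (nat_lit 6444780213) (nat_lit 17) (nat_lit 5) (nat_lit 21) (nat_lit 5) (nat_lit 18) (nat_lit 5) (nat_lit 216) (nat_lit 207) (nat_lit 177)))))) (XT.nd (nat_lit 390) (nat_lit 380) (nat_lit 0) (XT.nd (nat_lit 156) (nat_lit 304) (nat_lit 0) (XT.nd (nat_lit 78) (nat_lit 0) (nat_lit 0) (XT.lf (nat_lit 0) (nat_lit 3515315029) (nat_lit 152) (nat_lit 4687448833) (nat_lit 228) (nat_lit 17084217211) (nat_lit 15) (nat_lit 5) (nat_lit 17) (nat_lit 5) (nat_lit 18) (nat_lit 5) (nat_lit 217) (nat_lit 207) (nat_lit 176)) (XT.lf (nat_lit 0) (nat_lit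 15098968589) (nat_lit 228) (nat_lit 3827796088) (nat_lit 76) (nat_lit 8927024996) (nat_lit 15) (nat_lit 5) (nat_lit 18) (nat_lit 5) (nat_lit 16) (nat_lit 5) (nat_lit 218) (nat_lit 207) (nat_lit 175))) (XT.nd (nat_lit 78) (nat_lit 152) (nat_lit 0) (XT.lf (nat_lit 0) (nat_lit 17488423860) (nat_lit 152) (nat_lit 6044751538) (nat_lit 228) (nat_lit 7232407472) (nat_lit 13) (nat_lit 5) (nat_lit 15) (nat_lit 5) (nat_lit 16) (nat_lit 5) (nat_lit 219) (nat_lit 207) (nat_lit 174)) (XT.nd (nat_lit 78) (nat_lit 76) (nat_lit 0) (XT.lf (nat_lit 0) (nat_lit 8266209572) (nat_lit 76) (nat_lit 25447942915) (nat_lit 152) (nat_lit 361677954) (nat_lit 12) (nat_lit 5) (nat_lit 13) (nat_lit 5) (nat_lit 14) (nat_lit 4) (nat_lit 220) (nat_lit 207) (nat_lit 173)) (XT.lf (nat_lit 0) (nat_lit 7686852915) (nat_lit 152) (nat_lit 4424268993) (nat_lit 76) (nat_lit 25715212756) (nat_lit 11) (nat_lit 5) (nat_lit 13)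 (nat_lit 5) (nat_lit 12) (nat_lit 5) (nat_lit 221) (nat_lit 207) (nat_lit 172))))) (XT.nd (nat_lit 156) (nat_lit 152) (nat_lit 0) (XT.nd (nat_lit 78) (nat_lit 76) (nat_lit 0) (XT.lf (nat_lit 0) (nat_lit 17487291193) (nat_lit 228) (nat_lit 21025158846) (nat_lit 76) (nat_lit 3581081096) (nat_lit 9) (nat_lit 5) (nat_lit 12) (nat_lit 5) (nat_lit 10) (nat_lit 4) (nat_lit 222) (nat_lit 207) (nat_lit 171)) (XT.lf (nat_lit 0) (nat_lit 3447172994) (nat_lit 76) (nat_lit 25829319103) (nat_lit 152) (nat_lit 17682951058) (nat_lit 8) (nat_lit 5) (nat_lit 9) (nat_lit 5) (nat_lit 10) (nat_lit 4) (nat_lit 223) (nat_lit 207) (nat_lit 170))) (XT.nd (nat_lit 78) (nat_lit 152) (nat_lit 0) (XT.lf (nat_lit 0) (nat_lit 32818459424) (nat_lit 76) (nat_lit 10599414543) (nat_lit 152) (nat_lit 9090778578) (nat_lit 8) (nat_lit 5) (nat_lit 9) (nat_lit 5) (nat_lit 10) (nat_lit 4) (nat_lit 224) (nat_lit 207) (nat_lit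 169)) (XT.nd (nat_lit 78) (nat_lit 0) (nat_lit 0) (XT.lf (nat_lit 0) (nat_lit 1090342141) (nat_lit 152) (nat_lit 50998685814) (nat_lit 76) (nat_lit 6772615114) (nat_lit 6) (nat_lit 5) (nat_lit 8) (nat_lit 5) (nat_lit 7) (nat_lit 4) (nat_lit 225) (nat_lit 207) (nat_lit 168)) (XT.lf (nat_lit 0) (nat_lit 13133668155) (nat_lit 152) (nat_lit 25978524899) (nat_lit 76) (nat_lit 26966714429) (nat_lit 6) (nat_lit 5) (nat_lit 8) (nat_lit 5) (nat_lit 7) (nat_lit 4) (nat_lit 226) (nat_lit 207) (nat_lit 167))))))))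
noncomputable def xc35 : XT := (XT.nd (nat_lit 1404) (nat_lit 0) (nat_lit 0) (XT.nd (nat_lit 702) (nat_lit 76) (nat_lit 0) (XT.nd (nat_lit 312) (nat_lit 152) (nat_lit 0) (XT.nd (nat_lit 156) (nat_lit 76) (nat_lit 0) (XT.nd (nat_lit 78) (nat_lit 0) (nat_lit 0) (XT.lf (nat_lit 0) (nat_lit 2906315387) (nat_lit 76) (nat_lit 24126819124) (nat_lit 152) (nat_lit 47341725524) (nat_lit 5) (nat_lit 5) (nat_lit 6) (nat_lit 5) (nat_lit 7) (nat_lit 4) (nat_lit 227) (nat_lit 207) (nat_lit 166)) (XT.lf (nat_lit 0) (nat_lit 37666186943) (nat_lit 76) (nat_lit 6089314635) (nat_lit 152) (nat_lit 40100726119) (nat_lit 5) (nat_lit 5) (nat_lit 6) (nat_lit 5) (nat_lit 7) (nat_lit 4) (nat_lit 228) (nat_lit 207) (nat_lit 165))) (XT.nd (nat_lit 78) (nat_lit 76) (nat_lit 0) (XT.lf (nat_lit 0) (nat_lit 63322424728) (nat_lit 152) (nat_lit 17500101891) (nat_lit 0) (nat_lit 13910430578) (nat_lit 5) (nat_lit 5) (nat_lit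 7) (nat_lit 4) (nat_lit 5) (nat_lit 4) (nat_lit 229) (nat_lit 207) (nat_lit 164)) (XT.lf (nat_lit 0) (nat_lit 16106342090) (nat_lit 76) (nat_lit 70259710089) (nat_lit 76) (nat_lit 20831856565) (nat_lit 4) (nat_lit 4) (nat_lit 5) (nat_lit 5) (nat_lit 5) (nat_lit 4) (nat_lit 230) (nat_lit 207) (nat_lit 163)))) (XT.nd (nat_lit 156) (nat_lit 76) (nat_lit 0) (XT.nd (nat_lit 78) (nat_lit 76) (nat_lit 0) (XT.lf (nat_lit 0) (nat_lit 55791285632) (nat_lit 76) (nat_lit 57571632994) (nat_lit 76) (nat_lit 8129988711) (nat_lit 4) (nat_lit 4) (nat_lit 5) (nat_lit 5) (nat_lit 5) (nat_lit 4) (nat_lit 231) (nat_lit 207) (nat_lit 162)) (XT.lf (nat_lit 0) (nat_lit 6141691509) (nat_lit 152) (nat_lit 36678917908) (nat_lit 76) (nat_lit 95100032688) (nat_lit 3) (nat_lit 5) (nat_lit 5) (nat_lit 5) (nat_lit 4) (nat_lit 4) (nat_lit 232) (nat_lit 207) (nat_lit 161))) (XT.nd (nat_lit 78) (nat_lit 76) (nat_lit 0)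 (XT.lf (nat_lit 0) (nat_lit 22076464496) (nat_lit 152) (nat_lit 3545017890) (nat_lit 76) (nat_lit 131173891013) (nat_lit 3) (nat_lit 5) (nat_lit 5) (nat_lit 5) (nat_lit 4) (nat_lit 4) (nat_lit 233) (nat_lit 207) (nat_lit 160)) (XT.nd (nat_lit 78) (nat_lit 0) (nat_lit 0) (XT.lf (nat_lit 0) (nat_lit 36362896058) (nat_lit 76) (nat_lit 4904424975) (nat_lit 152) (nat_lit 137164748240) (nat_lit 2) (nat_lit 5) (nat_lit 3) (nat_lit 5) (nat_lit 4) (nat_lit 4) (nat_lit 234) (nat_lit 207) (nat_lit 159)) (XT.lf (nat_lit 0) (nat_lit 63889720716) (nat_lit 152) (nat_lit 121306372162) (nat_lit 0) (nat_lit 18073964602) (nat_lit 2) (nat_lit 5) (nat_lit 4) (nat_lit 4) (nat_lit 2) (nat_lit 4) (nat_lit 235) (nat_lit 207) (nat_lit 158)))))) (XT.nd (nat_lit 312) (nat_lit 76) (nat_lit 0) (XT.nd (nat_lit 156) (nat_lit 0) (nat_lit 0) (XT.nd (nat_lit 78) (nat_lit 0) (nat_lit 0) (XT.lf (nat_lit 0) (nat_lit 90034162419)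 (nat_lit 152) (nat_lit 97577247556) (nat_lit 0) (nat_lit 44212057745) (nat_lit 2) (nat_lit 5) (nat_lit 4) (nat_lit 4) (nat_lit 2) (nat_lit 4) (nat_lit 236) (nat_lit 207) (nat_lit 157)) (XT.lf (nat_lit 0) (nat_lit 120094216291) (nat_lit 152) (nat_lit 70299582376) (nat_lit 0) (nat_lit 74266591130) (nat_lit 2) (nat_lit 5) (nat_lit 4) (nat_lit 4) (nat_lit 2) (nat_lit 4) (nat_lit 237) (nat_lit 207) (nat_lit 156))) (XT.nd (nat_lit 78) (nat_lit 0) (nat_lit 0) (XT.lf (nat_lit 0) (nat_lit 154658013820) (nat_lit 152) (nat_lit 38939683174) (nat_lit 0) (nat_lit 108825588236) (nat_lit 2) (nat_lit 5) (nat_lit 4) (nat_lit 4) (nat_lit 2) (nat_lit 4) (nat_lit 238) (nat_lit 207) (nat_lit 155)) (XT.lf (nat_lit 0) (nat_lit 194401803219) (nat_lit 152) (nat_lit 2883986704) (nat_lit 0) (nat_lit 148565203354) (nat_lit 2) (nat_lit 5) (nat_lit 4) (nat_lit 4) (nat_lit 2) (nat_lit 4) (nat_lit 239) (nat_lit 207)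 (nat_lit 154)))) (XT.nd (nat_lit 156) (nat_lit 0) (nat_lit 0) (XT.nd (nat_lit 78) (nat_lit 0) (nat_lit 0) (XT.lf (nat_lit 0) (nat_lit 40604127475) (nat_lit 76) (nat_lit 200475583134) (nat_lit 76) (nat_lit 154635353458) (nat_lit 1) (nat_lit 4) (nat_lit 2) (nat_lit 5) (nat_lit 2) (nat_lit 4) (nat_lit 240) (nat_lit 207) (nat_lit 153)) (XT.lf (nat_lit 0) (nat_lit 90783587238) (nat_lit 76) (nat_lit 204056062861) (nat_lit 76) (nat_lit 158212676830) (nat_lit 1) (nat_lit 4) (nat_lit 2) (nat_lit 5) (nat_lit 2) (nat_lit 4) (nat_lit 241) (nat_lit 207) (nat_lit 152))) (XT.nd (nat_lit 78) (nat_lit 0) (nat_lit 0) (XT.lf (nat_lit 0) (nat_lit 148484298991) (nat_lit 76) (nat_lit 208176135280) (nat_lit 76) (nat_lit 162330004590) (nat_lit 1) (nat_lit 4) (nat_lit 2) (nat_lit 5) (nat_lit 2) (nat_lit 4) (nat_lit 242) (nat_lit 207) (nat_lit 151)) (XT.nd (nat_lit 78) (nat_lit 0) (nat_lit 0) (XT.lf (nat_lit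 0) (nat_lit 214835189705) (nat_lit 76) (nat_lit 212916410500) (nat_lit 76) (nat_lit 167067893152) (nat_lit 1) (nat_lit 4) (nat_lit 2) (nat_lit 5) (nat_lit 2) (nat_lit 4) (nat_lit 243) (nat_lit 207) (nat_lit 150)) (XT.lf (nat_lit 0) (nat_lit 291134428980) (nat_lit 76) (nat_lit 218369633039) (nat_lit 76) (nat_lit 172519040335) (nat_lit 1) (nat_lit 4) (nat_lit 2) (nat_lit 5) (nat_lit 2) (nat_lit 4) (nat_lit 244) (nat_lit 207) (nat_lit 149))))))) (XT.nd (nat_lit 702) (nat_lit 0) (nat_lit 0) (XT.nd (nat_lit 312) (nat_lit 0) (nat_lit 0) (XT.nd (nat_lit 156) (nat_lit 0) (nat_lit 0) (XT.nd (nat_lit 78) (nat_lit 0) (nat_lit 0) (XT.lf (nat_lit 0) (nat_lit 378874828019) (nat_lit 76) (nat_lit 224642496380) (nat_lit 76) (nat_lit 178790099019) (nat_lit 1) (nat_lit 4) (nat_lit 2) (nat_lit 5) (nat_lit 2) (nat_lit 4) (nat_lit 245) (nat_lit 207) (nat_lit 148)) (XT.lf (nat_lit 0) (nat_lit 479773046804)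 (nat_lit 76) (nat_lit 231857730458) (nat_lit 76) (nat_lit 186003763831) (nat_lit 1) (nat_lit 4) (nat_lit 2) (nat_lit 5) (nat_lit 2) (nat_lit 4) (nat_lit 246) (nat_lit 207) (nat_lit 147))) (XT.nd (nat_lit 78) (nat_lit 0) (nat_lit 0) (XT.lf (nat_lit 0) (nat_lit 595803180919) (nat_lit 76) (nat_lit 240156502897) (nat_lit 76) (nat_lit 194301171690) (nat_lit 1) (nat_lit 4) (nat_lit 2) (nat_lit 5) (nat_lit 2) (nat_lit 4) (nat_lit 247) (nat_lit 207) (nat_lit 146)) (XT.lf (nat_lit 0) (nat_lit 729235385163) (nat_lit 76) (nat_lit 249701180984) (nat_lit 76) (nat_lit 203844663185) (nat_lit 1) (nat_lit 4) (nat_lit 2) (nat_lit 5) (nat_lit 2) (nat_lit 4) (nat_lit 248) (nat_lit 207) (nat_lit 145)))) (XT.nd (nat_lit 156) (nat_lit 0) (nat_lit 0) (XT.nd (nat_lit 78) (nat_lit 0) (nat_lit 0) (XT.lf (nat_lit 0) (nat_lit 882680289618) (nat_lit 76) (nat_lit 260678508419) (nat_lit 76) (nat_lit 214820958802) (nat_lit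 1) (nat_lit 4) (nat_lit 2) (nat_lit 5) (nat_lit 2) (nat_lit 4) (nat_lit 249) (nat_lit 207) (nat_lit 144)) (XT.lf (nat_lit 0) (nat_lit 1059140077198) (nat_lit 76) (nat_lit 273303259001) (nat_lit 76) (nat_lit 227444812150) (nat_lit 1) (nat_lit 4) (nat_lit 2) (nat_lit 5) (nat_lit 2) (nat_lit 4) (nat_lit 250) (nat_lit 207) (nat_lit 143))) (XT.nd (nat_lit 78) (nat_lit 0) (nat_lit 0) (XT.lf (nat_lit 0) (nat_lit 1262067222007) (nat_lit 76) (nat_lit 287822438720) (nat_lit 76) (nat_lit 241963211666) (nat_lit 1) (nat_lit 4) (nat_lit 2) (nat_lit 5) (nat_lit 2) (nat_lit 4) (nat_lit 251) (nat_lit 207) (nat_lit 142)) (XT.nd (nat_lit 78) (nat_lit 0) (nat_lit 0) (XT.lf (nat_lit 0) (nat_lit 1495432037749) (nat_lit 76) (nat_lit 304520118482) (nat_lit 76) (nat_lit 258660212991) (nat_lit 1) (nat_lit 4) (nat_lit 2) (nat_lit 5) (nat_lit 2) (nat_lit 4) (nat_lit 252) (nat_lit 207) (nat_lit 141)) (XT.lf (nat_lit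 0) (nat_lit 1763800357774) (nat_lit 76) (nat_lit 323722992023) (nat_lit 76) (nat_lit 277862496586) (nat_lit 1) (nat_lit 4) (nat_lit 2) (nat_lit 5) (nat_lit 2) (nat_lit 4) (nat_lit 253) (nat_lit 207) (nat_lit 140)))))) (XT.nd (nat_lit 27768) (nat_lit 0) (nat_lit 1900) (XT.nd (nat_lit 156) (nat_lit 0) (nat_lit 0) (XT.nd (nat_lit 78) (nat_lit 0) (nat_lit 0) (XT.lf (nat_lit 0) (nat_lit 2072422866605) (nat_lit 76) (nat_lit 345806767738) (nat_lit 76) (nat_lit 299945759305) (nat_lit 1) (nat_lit 4) (nat_lit 2) (nat_lit 5) (nat_lit 2) (nat_lit 4) (nat_lit 254) (nat_lit 207) (nat_lit 139)) (XT.lf (nat_lit 0) (nat_lit 2427337830720) (nat_lit 76) (nat_lit 371203519499) (nat_lit 76) (nat_lit 325342064982) (nat_lit 1) (nat_lit 4) (nat_lit 2) (nat_lit 5) (nat_lit 2) (nat_lit 4) (nat_lit 255) (nat_lit 207) (nat_lit 138))) (XT.nd (nat_lit 78) (nat_lit 0) (nat_lit 0) (XT.lf (nat_lit 0) (nat_lit 2835489238546)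 (nat_lit 76) (nat_lit 400410140275) (nat_lit 76) (nat_lit 354548297860) (nat_lit 1) (nat_lit 4) (nat_lit 2) (nat_lit 5) (nat_lit 2) (nat_lit 4) (nat_lit 256) (nat_lit 207) (nat_lit 137)) (XT.nd (nat_lit 27456) (nat_lit 0) (nat_lit 2660) (XT.lf (nat_lit 0) (nat_lit 3304862661106) (nat_lit 76) (nat_lit 433998063953) (nat_lit 76) (nat_lit 388135884234) (nat_lit 1) (nat_lit 4) (nat_lit 2) (nat_lit 5) (nat_lit 2) (nat_lit 4) (nat_lit 257) (nat_lit 207) (nat_lit 136)) (XT.lf (nat_lit 0) (nat_lit 2963271586) (nat_lit 0) (nat_lit 2963271586) (nat_lit 380) (nat_lit 506661130) (nat_lit 36) (nat_lit 5) (nat_lit 36) (nat_lit 3) (nat_lit 41) (nat_lit 3) (nat_lit 208) (nat_lit 208) (nat_lit 184))))) (XT.nd (nat_lit 156) (nat_lit 304) (nat_lit 0) (XT.nd (nat_lit 78) (nat_lit 456) (nat_lit 0) (XT.lf (nat_lit 76) (nat_lit 2938662960) (nat_lit 0) (nat_lit 10581186943) (nat_lit 456) (nat_lit 244326718)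 (nat_lit 37) (nat_lit 5) (nat_lit 36) (nat_lit 5) (nat_lit 42) (nat_lit 5) (nat_lit 209) (nat_lit 208) (nat_lit 183)) (XT.lf (nat_lit 0) (nat_lit 863223252) (nat_lit 456) (nat_lit 323357648) (nat_lit 532) (nat_lit 13589202518) (nat_lit 30) (nat_lit 5) (nat_lit 36) (nat_lit 5) (nat_lit 37) (nat_lit 5) (nat_lit 210) (nat_lit 208) (nat_lit 182))) (XT.nd (nat_lit 78) (nat_lit 380) (nat_lit 0) (XT.lf (nat_lit 0) (nat_lit 2557638957) (nat_lit 456) (nat_lit 3868730892) (nat_lit 532) (nat_lit 9478153063) (nat_lit 31) (nat_lit 5) (nat_lit 37) (nat_lit 5) (nat_lit 38) (nat_lit 5) (nat_lit 211) (nat_lit 208) (nat_lit 181)) (XT.nd (nat_lit 78) (nat_lit 456) (nat_lit 0) (XT.lf (nat_lit 0) (nat_lit 4801281053) (nat_lit 456) (nat_lit 7867586463) (nat_lit 76) (nat_lit 4510722760) (nat_lit 32) (nat_lit 5) (nat_lit 38) (nat_lit 5) (nat_lit 33) (nat_lit 5) (nat_lit 212) (nat_lit 208) (nat_lit 180)) (XT.lf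 (nat_lit 0) (nat_lit 6121374317) (nat_lit 456) (nat_lit 1622429331) (nat_lit 532) (nat_lit 10873668289) (nat_lit 26) (nat_lit 5) (nat_lit 32) (nat_lit 5) (nat_lit 33) (nat_lit 5) (nat_lit 213) (nat_lit 208) (nat_lit 179))))))))
noncomputable def xc36 : XT := (XT.nd (nat_lit 1404) (nat_lit 228) (nat_lit 0) (XT.nd (nat_lit 702) (nat_lit 532) (nat_lit 0) (XT.nd (nat_lit 312) (nat_lit 456) (nat_lit 0) (XT.nd (nat_lit 156) (nat_lit 456) (nat_lit 0) (XT.nd (nat_lit 78) (nat_lit 0) (nat_lit 0) (XT.lf (nat_lit 0) (nat_lit 2198441550) (nat_lit 228) (nat_lit 9414184067) (nat_lit 304) (nat_lit 8620086924) (nat_lit 23) (nat_lit 5) (nat_lit 26) (nat_lit 5) (nat_lit 27) (nat_lit 5) (nat_lit 214) (nat_lit 208) (nat_lit 178)) (XT.lf (nat_lit 0) (nat_lit 16487527618) (nat_lit 304) (nat_lit 2401969380) (nat_lit 76) (nat_lit 3167090720) (nat_lit 23) (nat_lit 5) (nat_lit 27) (nat_lit 5) (nat_lit 24) (nat_lit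 5) (nat_lit 215) (nat_lit 208) (nat_lit 177))) (XT.nd (nat_lit 78) (nat_lit 304) (nat_lit 0) (XT.lf (nat_lit 0) (nat_lit 16056518282) (nat_lit 152) (nat_lit 6629720172) (nat_lit 228) (nat_lit 1420755502) (nat_lit 21) (nat_lit 5) (nat_lit 23) (nat_lit 5) (nat_lit 24) (nat_lit 5) (nat_lit 216) (nat_lit 208) (nat_lit 176)) (XT.lf (nat_lit 0) (nat_lit 3668763958) (nat_lit 304) (nat_lit 15227113743) (nat_lit 76) (nat_lit 7524001628) (nat_lit 17) (nat_lit 5) (nat_lit 21) (nat_lit 5) (nat_lit 18) (nat_lit 5) (nat_lit 217) (nat_lit 208) (nat_lit 175)))) (XT.nd (nat_lit 156) (nat_lit 304) (nat_lit 0) (XT.nd (nat_lit 78) (nat_lit 0) (nat_lit 0) (XT.lf (nat_lit 0) (nat_lit 4697522800) (nat_lit 152) (nat_lit 5234404475) (nat_lit 228) (nat_lit 19105519789) (nat_lit 15) (nat_lit 5) (nat_lit 17) (nat_lit 5) (nat_lit 18) (nat_lit 5) (nat_lit 218) (nat_lit 208) (nat_lit 174)) (XT.lf (nat_lit 0) (nat_lit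 17800774335) (nat_lit 228) (nat_lit 3798716811) (nat_lit 76) (nat_lit 10395078609) (nat_lit 15) (nat_lit 5) (nat_lit 18) (nat_lit 5) (nat_lit 16) (nat_lit 5) (nat_lit 219) (nat_lit 208) (nat_lit 173))) (XT.nd (nat_lit 78) (nat_lit 152) (nat_lit 0) (XT.lf (nat_lit 0) (nat_lit 20663874132) (nat_lit 152) (nat_lit 6792523293) (nat_lit 228) (nat_lit 7890535797) (nat_lit 13) (nat_lit 5) (nat_lit 15) (nat_lit 5) (nat_lit 16) (nat_lit 5) (nat_lit 220) (nat_lit 208) (nat_lit 172)) (XT.nd (nat_lit 78) (nat_lit 76) (nat_lit 0) (XT.lf (nat_lit 0) (nat_lit 10038741435) (nat_lit 76) (nat_lit 29090619719) (nat_lit 152) (nat_lit 27434015) (nat_lit 12) (nat_lit 5) (nat_lit 13) (nat_lit 5) (nat_lit 14) (nat_lit 4) (nat_lit 221) (nat_lit 208) (nat_lit 171)) (XT.lf (nat_lit 0) (nat_lit 9160803902) (nat_lit 152) (nat_lit 4606459833) (nat_lit 76) (nat_lit 29705927821) (nat_lit 11) (nat_lit 5) (nat_lit 13)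 (nat_lit 5) (nat_lit 12) (nat_lit 5) (nat_lit 222) (nat_lit 208) (nat_lit 170)))))) (XT.nd (nat_lit 312) (nat_lit 152) (nat_lit 0) (XT.nd (nat_lit 156) (nat_lit 152) (nat_lit 0) (XT.nd (nat_lit 78) (nat_lit 76) (nat_lit 0) (XT.lf (nat_lit 0) (nat_lit 20403679565) (nat_lit 228) (nat_lit 23717460559) (nat_lit 76) (nat_lit 4261722789) (nat_lit 9) (nat_lit 5) (nat_lit 12) (nat_lit 5) (nat_lit 10) (nat_lit 4) (nat_lit 223) (nat_lit 208) (nat_lit 169)) (XT.lf (nat_lit 0) (nat_lit 4386659741) (nat_lit 76) (nat_lit 29546504024) (nat_lit 152) (nat_lit 20047906716) (nat_lit 8) (nat_lit 5) (nat_lit 9) (nat_lit 5) (nat_lit 10) (nat_lit 4) (nat_lit 224) (nat_lit 208) (nat_lit 168))) (XT.nd (nat_lit 78) (nat_lit 152) (nat_lit 0) (XT.lf (nat_lit 0) (nat_lit 38108542076) (nat_lit 76) (nat_lit 12052619817) (nat_lit 152) (nat_lit 10204406668) (nat_lit 8) (nat_lit 5) (nat_lit 9) (nat_lit 5) (nat_lit 10)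 (nat_lit 4) (nat_lit 225) (nat_lit 208) (nat_lit 167)) (XT.lf (nat_lit 0) (nat_lit 1471993544) (nat_lit 152) (nat_lit 58285298218) (nat_lit 76) (nat_lit 7915398295) (nat_lit 6) (nat_lit 5) (nat_lit 8) (nat_lit 5) (nat_lit 7) (nat_lit 4) (nat_lit 226) (nat_lit 208) (nat_lit 166)))) (XT.nd (nat_lit 156) (nat_lit 76) (nat_lit 0) (XT.nd (nat_lit 78) (nat_lit 76) (nat_lit 0) (XT.lf (nat_lit 0) (nat_lit 15293370624) (nat_lit 152) (nat_lit 29559485835) (nat_lit 76) (nat_lit 31122061519) (nat_lit 6) (nat_lit 5) (nat_lit 8) (nat_lit 5) (nat_lit 7) (nat_lit 4) (nat_lit 227) (nat_lit 208) (nat_lit 165)) (XT.lf (nat_lit 0) (nat_lit 3631348090) (nat_lit 76) (nat_lit 27628624104) (nat_lit 152) (nat_lit 54256799229) (nat_lit 5) (nat_lit 5) (nat_lit 6) (nat_lit 5) (nat_lit 7) (nat_lit 4) (nat_lit 228) (nat_lit 208) (nat_lit 164))) (XT.nd (nat_lit 78) (nat_lit 76) (nat_lit 0) (XT.lf (nat_lit 0) (nat_lit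 43567493590) (nat_lit 76) (nat_lit 6900783231) (nat_lit 152) (nat_lit 45953934929) (nat_lit 5) (nat_lit 5) (nat_lit 6) (nat_lit 5) (nat_lit 7) (nat_lit 4) (nat_lit 229) (nat_lit 208) (nat_lit 163)) (XT.nd (nat_lit 78) (nat_lit 76) (nat_lit 0) (XT.lf (nat_lit 0) (nat_lit 72952876604) (nat_lit 152) (nat_lit 19897832548) (nat_lit 0) (nat_lit 16081194918) (nat_lit 5) (nat_lit 5) (nat_lit 7) (nat_lit 4) (nat_lit 5) (nat_lit 4) (nat_lit 230) (nat_lit 208) (nat_lit 162)) (XT.lf (nat_lit 0) (nat_lit 18730339519) (nat_lit 76) (nat_lit 80710483276) (nat_lit 76) (nat_lit 23826809626) (nat_lit 4) (nat_lit 4) (nat_lit 5) (nat_lit 5) (nat_lit 5) (nat_lit 4) (nat_lit 231) (nat_lit 208) (nat_lit 161))))))) (XT.nd (nat_lit 702) (nat_lit 76) (nat_lit 0) (XT.nd (nat_lit 312) (nat_lit 0) (nat_lit 0) (XT.nd (nat_lit 156) (nat_lit 76) (nat_lit 0) (XT.nd (nat_lit 78) (nat_lit 76) (nat_lit 0) (XT.lf (nat_lit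 0) (nat_lit 64340888142) (nat_lit 76) (nat_lit 66130696790) (nat_lit 76) (nat_lit 9236595345) (nat_lit 4) (nat_lit 4) (nat_lit 5) (nat_lit 5) (nat_lit 5) (nat_lit 4) (nat_lit 232) (nat_lit 208) (nat_lit 160)) (XT.lf (nat_lit 0) (nat_lit 7156201213) (nat_lit 152) (nat_lit 42018270569) (nat_lit 76) (nat_lit 109426544583) (nat_lit 3) (nat_lit 5) (nat_lit 5) (nat_lit 5) (nat_lit 4) (nat_lit 4) (nat_lit 233) (nat_lit 208) (nat_lit 159))) (XT.nd (nat_lit 78) (nat_lit 76) (nat_lit 0) (XT.lf (nat_lit 0) (nat_lit 25469026325) (nat_lit 152) (nat_lit 3935479248) (nat_lit 76) (nat_lit 150903459005) (nat_lit 3) (nat_lit 5) (nat_lit 5) (nat_lit 5) (nat_lit 4) (nat_lit 4) (nat_lit 234) (nat_lit 208) (nat_lit 158)) (XT.lf (nat_lit 0) (nat_lit 41946662186) (nat_lit 76) (nat_lit 5584382350) (nat_lit 152) (nat_lit 157659747310) (nat_lit 2) (nat_lit 5) (nat_lit 3) (nat_lit 5) (nat_lit 4) (nat_lit 4) (nat_lit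 235) (nat_lit 208) (nat_lit 157)))) (XT.nd (nat_lit 156) (nat_lit 0) (nat_lit 0) (XT.nd (nat_lit 78) (nat_lit 0) (nat_lit 0) (XT.lf (nat_lit 0) (nat_lit 73538365856) (nat_lit 152) (nat_lit 139385736858) (nat_lit 0) (nat_lit 20831076434) (nat_lit 2) (nat_lit 5) (nat_lit 4) (nat_lit 4) (nat_lit 2) (nat_lit 4) (nat_lit 236) (nat_lit 208) (nat_lit 156)) (XT.lf (nat_lit 0) (nat_lit 103595971158) (nat_lit 152) (nat_lit 112112451099) (nat_lit 0) (nat_lit 50883881313) (nat_lit 2) (nat_lit 5) (nat_lit 4) (nat_lit 4) (nat_lit 2) (nat_lit 4) (nat_lit 237) (nat_lit 208) (nat_lit 155))) (XT.nd (nat_lit 78) (nat_lit 0) (nat_lit 0) (XT.lf (nat_lit 0) (nat_lit 138157639497) (nat_lit 152) (nat_lit 80756360089) (nat_lit 0) (nat_lit 85441375370) (nat_lit 2) (nat_lit 5) (nat_lit 4) (nat_lit 4) (nat_lit 2) (nat_lit 4) (nat_lit 238) (nat_lit 208) (nat_lit 154)) (XT.nd (nat_lit 78) (nat_lit 0) (nat_lit 0)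 (XT.lf (nat_lit 0) (nat_lit 177899577426) (nat_lit 152) (nat_lit 44703975091) (nat_lit 0) (nat_lit 125179683489) (nat_lit 2) (nat_lit 5) (nat_lit 4) (nat_lit 4) (nat_lit 2) (nat_lit 4) (nat_lit 239) (nat_lit 208) (nat_lit 153)) (XT.lf (nat_lit 0) (nat_lit 223599344600) (nat_lit 152) (nat_lit 3249923354) (nat_lit 0) (nat_lit 170876294307) (nat_lit 2) (nat_lit 5) (nat_lit 4) (nat_lit 4) (nat_lit 2) (nat_lit 4) (nat_lit 240) (nat_lit 208) (nat_lit 152)))))) (XT.nd (nat_lit 312) (nat_lit 0) (nat_lit 0) (XT.nd (nat_lit 156) (nat_lit 0) (nat_lit 0) (XT.nd (nat_lit 78) (nat_lit 0) (nat_lit 0) (XT.lf (nat_lit 0) (nat_lit 46755765401) (nat_lit 76) (nat_lit 230519778779) (nat_lit 76) (nat_lit 177793983829) (nat_lit 1) (nat_lit 4) (nat_lit 2) (nat_lit 5) (nat_lit 2) (nat_lit 4) (nat_lit 241) (nat_lit 208) (nat_lit 151)) (XT.lf (nat_lit 0) (nat_lit 104454185153) (nat_lit 76) (nat_lit 234640870704)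 (nat_lit 76) (nat_lit 181912689095) (nat_lit 1) (nat_lit 4) (nat_lit 2) (nat_lit 5) (nat_lit 2) (nat_lit 4) (nat_lit 242) (nat_lit 208) (nat_lit 150))) (XT.nd (nat_lit 78) (nat_lit 0) (nat_lit 0) (XT.lf (nat_lit 0) (nat_lit 170803082822) (nat_lit 76) (nat_lit 239382032453) (nat_lit 76) (nat_lit 186651775488) (nat_lit 1) (nat_lit 4) (nat_lit 2) (nat_lit 5) (nat_lit 2) (nat_lit 4) (nat_lit 243) (nat_lit 208) (nat_lit 149)) (XT.lf (nat_lit 0) (nat_lit 247100589015) (nat_lit 76) (nat_lit 244836025885) (nat_lit 76) (nat_lit 192103964263) (nat_lit 1) (nat_lit 4) (nat_lit 2) (nat_lit 5) (nat_lit 2) (nat_lit 4) (nat_lit 244) (nat_lit 208) (nat_lit 148)))) (XT.nd (nat_lit 156) (nat_lit 0) (nat_lit 0) (XT.nd (nat_lit 78) (nat_lit 0) (nat_lit 0) (XT.lf (nat_lit 0) (nat_lit 334839481026) (nat_lit 76) (nat_lit 251109559569) (nat_lit 76) (nat_lit 198375928680) (nat_lit 1) (nat_lit 4) (nat_lit 2) (nat_lit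 5) (nat_lit 2) (nat_lit 4) (nat_lit 245) (nat_lit 208) (nat_lit 147)) (XT.lf (nat_lit 0) (nat_lit 435736389352) (nat_lit 76) (nat_lit 258325376553) (nat_lit 76) (nat_lit 205590381085) (nat_lit 1) (nat_lit 4) (nat_lit 2) (nat_lit 5) (nat_lit 2) (nat_lit 4) (nat_lit 246) (nat_lit 208) (nat_lit 146))) (XT.nd (nat_lit 78) (nat_lit 0) (nat_lit 0) (XT.lf (nat_lit 0) (nat_lit 551765383937) (nat_lit 76) (nat_lit 266624655867) (nat_lit 76) (nat_lit 213888473808) (nat_lit 1) (nat_lit 4) (nat_lit 2) (nat_lit 5) (nat_lit 2) (nat_lit 4) (nat_lit 247) (nat_lit 208) (nat_lit 145)) (XT.nd (nat_lit 78) (nat_lit 0) (nat_lit 0) (XT.lf (nat_lit 0) (nat_lit 685196597285) (nat_lit 76) (nat_lit 276169774715) (nat_lit 76) (nat_lit 223432560836) (nat_lit 1) (nat_lit 4) (nat_lit 2) (nat_lit 5) (nat_lit 2) (nat_lit 4) (nat_lit 248) (nat_lit 208) (nat_lit 144)) (XT.lf (nat_lit 0) (nat_lit 838640640092) (nat_lit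 76) (nat_lit 287147485421) (nat_lit 76) (nat_lit 234409374309) (nat_lit 1) (nat_lit 4) (nat_lit 2) (nat_lit 5) (nat_lit 2) (nat_lit 4) (nat_lit 249) (nat_lit 208) (nat_lit 143))))))))
noncomputable def xc37 : XT := (XT.nd (nat_lit 28860) (nat_lit 0) (nat_lit 76) (XT.nd (nat_lit 28158) (nat_lit 0) (nat_lit 1216) (XT.nd (nat_lit 312) (nat_lit 0) (nat_lit 0) (XT.nd (nat_lit 156) (nat_lit 0) (nat_lit 0) (XT.nd (nat_lit 78) (nat_lit 0) (nat_lit 0) (XT.lf (nat_lit 0) (nat_lit 1015099678413) (nat_lit 76) (nat_lit 299772569281) (nat_lit 76) (nat_lit 247033677966) (nat_lit 1) (nat_lit 4) (nat_lit 2) (nat_lit 5) (nat_lit 2) (nat_lit 4) (nat_lit 250) (nat_lit 208) (nat_lit 142)) (XT.lf (nat_lit 0) (nat_lit 1218026171692) (nat_lit 76) (nat_lit 314292038807) (nat_lit 76) (nat_lit 261552469055) (nat_lit 1) (nat_lit 4) (nat_lit 2) (nat_lit 5) (nat_lit 2) (nat_lit 4) (nat_lit 251) (nat_lit 208) (nat_lit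 141))) (XT.nd (nat_lit 78) (nat_lit 0) (nat_lit 0) (XT.lf (nat_lit 0) (nat_lit 1451390420886) (nat_lit 76) (nat_lit 330989970576) (nat_lit 76) (nat_lit 278249810879) (nat_lit 1) (nat_lit 4) (nat_lit 2) (nat_lit 5) (nat_lit 2) (nat_lit 4) (nat_lit 252) (nat_lit 208) (nat_lit 140)) (XT.lf (nat_lit 0) (nat_lit 1719758248262) (nat_lit 76) (nat_lit 350193063253) (nat_lit 76) (nat_lit 297452390559) (nat_lit 1) (nat_lit 4) (nat_lit 2) (nat_lit 5) (nat_lit 2) (nat_lit 4) (nat_lit 253) (nat_lit 208) (nat_lit 139)))) (XT.nd (nat_lit 156) (nat_lit 0) (nat_lit 0) (XT.nd (nat_lit 78) (nat_lit 0) (nat_lit 0) (XT.lf (nat_lit 0) (nat_lit 2028380328702) (nat_lit 76) (nat_lit 372277029521) (nat_lit 76) (nat_lit 319535910744) (nat_lit 1) (nat_lit 4) (nat_lit 2) (nat_lit 5) (nat_lit 2) (nat_lit 4) (nat_lit 254) (nat_lit 208) (nat_lit 138)) (XT.lf (nat_lit 0) (nat_lit 2383294920302) (nat_lit 76) (nat_lit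 397673946981) (nat_lit 76) (nat_lit 344932440304) (nat_lit 1) (nat_lit 4) (nat_lit 2) (nat_lit 5) (nat_lit 2) (nat_lit 4) (nat_lit 255) (nat_lit 208) (nat_lit 137))) (XT.nd (nat_lit 78) (nat_lit 0) (nat_lit 0) (XT.lf (nat_lit 0) (nat_lit 2791446004202) (nat_lit 76) (nat_lit 426880711843) (nat_lit 76) (nat_lit 374138867863) (nat_lit 1) (nat_lit 4) (nat_lit 2) (nat_lit 5) (nat_lit 2) (nat_lit 4) (nat_lit 256) (nat_lit 208) (nat_lit 136)) (XT.nd (nat_lit 27534) (nat_lit 0) (nat_lit 2128) (XT.lf (nat_lit 0) (nat_lit 3260819145088) (nat_lit 76) (nat_lit 460468760812) (nat_lit 76) (nat_lit 407726623525) (nat_lit 1) (nat_lit 4) (nat_lit 2) (nat_lit 5) (nat_lit 2) (nat_lit 4) (nat_lit 257) (nat_lit 208) (nat_lit 135)) (XT.lf (nat_lit 0) (nat_lit 68972189) (nat_lit 532) (nat_lit 3638052928) (nat_lit 532) (nat_lit 3638052928) (nat_lit 29) (nat_lit 3) (nat_lit 36) (nat_lit 3) (nat_lit 36) (nat_lit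 5) (nat_lit 209) (nat_lit 209) (nat_lit 182)))))) (XT.nd (nat_lit 312) (nat_lit 988) (nat_lit 0) (XT.nd (nat_lit 156) (nat_lit 0) (nat_lit 76) (XT.nd (nat_lit 78) (nat_lit 0) (nat_lit 0) (XT.lf (nat_lit 0) (nat_lit 819063545) (nat_lit 456) (nat_lit 11716151938) (nat_lit 532) (nat_lit 3199546740) (nat_lit 30) (nat_lit 5) (nat_lit 36) (nat_lit 5) (nat_lit 37) (nat_lit 5) (nat_lit 210) (nat_lit 209) (nat_lit 181)) (XT.lf (nat_lit 76) (nat_lit 273499655) (nat_lit 0) (nat_lit 1670118434) (nat_lit 532) (nat_lit 14965761855) (nat_lit 31) (nat_lit 5) (nat_lit 30) (nat_lit 5) (nat_lit 37) (nat_lit 5) (nat_lit 211) (nat_lit 209) (nat_lit 180))) (XT.nd (nat_lit 78) (nat_lit 0) (nat_lit 76) (XT.lf (nat_lit 0) (nat_lit 3770173139) (nat_lit 456) (nat_lit 3792022612) (nat_lit 532) (nat_lit 10655870114) (nat_lit 31) (nat_lit 5) (nat_lit 37) (nat_lit 5) (nat_lit 38) (nat_lit 5) (nat_lit 212) (nat_lit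 209) (nat_lit 179)) (XT.lf (nat_lit 0) (nat_lit 6253490821) (nat_lit 456) (nat_lit 8379217546) (nat_lit 76) (nat_lit 5060194331) (nat_lit 32) (nat_lit 5) (nat_lit 38) (nat_lit 5) (nat_lit 33) (nat_lit 5) (nat_lit 213) (nat_lit 209) (nat_lit 178)))) (XT.nd (nat_lit 156) (nat_lit 456) (nat_lit 0) (XT.nd (nat_lit 78) (nat_lit 228) (nat_lit 0) (XT.lf (nat_lit 0) (nat_lit 7651501572) (nat_lit 456) (nat_lit 1905126393) (nat_lit 532) (nat_lit 11796960365) (nat_lit 26) (nat_lit 5) (nat_lit 32) (nat_lit 5) (nat_lit 33) (nat_lit 5) (nat_lit 214) (nat_lit 209) (nat_lit 177)) (XT.lf (nat_lit 0) (nat_lit 3140920280) (nat_lit 228) (nat_lit 10793819989) (nat_lit 304) (nat_lit 9282631840) (nat_lit 23) (nat_lit 5) (nat_lit 26) (nat_lit 5) (nat_lit 27) (nat_lit 5) (nat_lit 215) (nat_lit 209) (nat_lit 176))) (XT.nd (nat_lit 78) (nat_lit 456) (nat_lit 0) (XT.lf (nat_lit 0) (nat_lit 19465876096) (nat_lit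 304) (nat_lit 2186457496) (nat_lit 76) (nat_lit 3668994607) (nat_lit 23) (nat_lit 5) (nat_lit 27) (nat_lit 5) (nat_lit 24) (nat_lit 5) (nat_lit 216) (nat_lit 209) (nat_lit 175)) (XT.nd (nat_lit 78) (nat_lit 304) (nat_lit 0) (XT.lf (nat_lit 0) (nat_lit 18992064096) (nat_lit 152) (nat_lit 7549107288) (nat_lit 228) (nat_lit 1142816129) (nat_lit 21) (nat_lit 5) (nat_lit 23) (nat_lit 5) (nat_lit 24) (nat_lit 5) (nat_lit 217) (nat_lit 209) (nat_lit 174)) (XT.lf (nat_lit 0) (nat_lit 4639077004) (nat_lit 304) (nat_lit 16970181466) (nat_lit 76) (nat_lit 8737671349) (nat_lit 17) (nat_lit 5) (nat_lit 21) (nat_lit 5) (nat_lit 18) (nat_lit 5) (nat_lit 218) (nat_lit 209) (nat_lit 173))))))) (XT.nd (nat_lit 702) (nat_lit 304) (nat_lit 0) (XT.nd (nat_lit 312) (nat_lit 380) (nat_lit 0) (XT.nd (nat_lit 156) (nat_lit 304) (nat_lit 0) (XT.nd (nat_lit 78) (nat_lit 0) (nat_lit 0) (XT.lf (nat_lit 0) (nat_lit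 5897357659) (nat_lit 152) (nat_lit 5901484480) (nat_lit 228) (nat_lit 21562024503) (nat_lit 15) (nat_lit 5) (nat_lit 17) (nat_lit 5) (nat_lit 18) (nat_lit 5) (nat_lit 219) (nat_lit 209) (nat_lit 172)) (XT.lf (nat_lit 0) (nat_lit 20801295368) (nat_lit 228) (nat_lit 3912381656) (nat_lit 76) (nat_lit 12051882829) (nat_lit 15) (nat_lit 5) (nat_lit 18) (nat_lit 5) (nat_lit 16) (nat_lit 5) (nat_lit 220) (nat_lit 209) (nat_lit 171))) (XT.nd (nat_lit 78) (nat_lit 152) (nat_lit 0) (XT.lf (nat_lit 0) (nat_lit 24180987723) (nat_lit 152) (nat_lit 7691219576) (nat_lit 228) (nat_lit 8751444865) (nat_lit 13) (nat_lit 5) (nat_lit 15) (nat_lit 5) (nat_lit 16) (nat_lit 5) (nat_lit 221) (nat_lit 209) (nat_lit 170)) (XT.lf (nat_lit 0) (nat_lit 249092618) (nat_lit 152) (nat_lit 33066351289) (nat_lit 76) (nat_lit 11691371839) (nat_lit 11) (nat_lit 5) (nat_lit 13) (nat_lit 5) (nat_lit 12) (nat_lit 5) (nat_lit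 222) (nat_lit 209) (nat_lit 169)))) (XT.nd (nat_lit 156) (nat_lit 228) (nat_lit 0) (XT.nd (nat_lit 78) (nat_lit 152) (nat_lit 0) (XT.lf (nat_lit 0) (nat_lit 10777588420) (nat_lit 152) (nat_lit 4933383810) (nat_lit 76) (nat_lit 34262711627) (nat_lit 11) (nat_lit 5) (nat_lit 13) (nat_lit 5) (nat_lit 12) (nat_lit 5) (nat_lit 223) (nat_lit 209) (nat_lit 168)) (XT.lf (nat_lit 0) (nat_lit 23686004425) (nat_lit 228) (nat_lit 26926140427) (nat_lit 76) (nat_lit 5009472345) (nat_lit 9) (nat_lit 5) (nat_lit 12) (nat_lit 5) (nat_lit 10) (nat_lit 4) (nat_lit 224) (nat_lit 209) (nat_lit 167))) (XT.nd (nat_lit 78) (nat_lit 152) (nat_lit 0) (XT.lf (nat_lit 0) (nat_lit 5364061952) (nat_lit 76) (nat_lit 33859604055) (nat_lit 152) (nat_lit 22837711249) (nat_lit 8) (nat_lit 5) (nat_lit 9) (nat_lit 5) (nat_lit 10) (nat_lit 4) (nat_lit 225) (nat_lit 209) (nat_lit 166)) (XT.nd (nat_lit 78) (nat_lit 152) (nat_lit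 0) (XT.lf (nat_lit 0) (nat_lit 44102565343) (nat_lit 76) (nat_lit 13757142726) (nat_lit 152) (nat_lit 11546040299) (nat_lit 8) (nat_lit 5) (nat_lit 9) (nat_lit 5) (nat_lit 10) (nat_lit 4) (nat_lit 226) (nat_lit 209) (nat_lit 165)) (XT.lf (nat_lit 0) (nat_lit 1857707573) (nat_lit 152) (nat_lit 66753468777) (nat_lit 76) (nat_lit 9198655801) (nat_lit 6) (nat_lit 5) (nat_lit 8) (nat_lit 5) (nat_lit 7) (nat_lit 4) (nat_lit 227) (nat_lit 209) (nat_lit 164)))))) (XT.nd (nat_lit 390) (nat_lit 152) (nat_lit 0) (XT.nd (nat_lit 156) (nat_lit 76) (nat_lit 0) (XT.nd (nat_lit 78) (nat_lit 76) (nat_lit 0) (XT.lf (nat_lit 0) (nat_lit 17730780563) (nat_lit 152) (nat_lit 33754605081) (nat_lit 76) (nat_lit 35873803583) (nat_lit 6) (nat_lit 5) (nat_lit 8) (nat_lit 5) (nat_lit 7) (nat_lit 4) (nat_lit 228) (nat_lit 209) (nat_lit 163)) (XT.lf (nat_lit 0) (nat_lit 4394640395) (nat_lit 76) (nat_lit 31684284156)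 (nat_lit 152) (nat_lit 62254536411) (nat_lit 5) (nat_lit 5) (nat_lit 6) (nat_lit 5) (nat_lit 7) (nat_lit 4) (nat_lit 229) (nat_lit 209) (nat_lit 162))) (XT.nd (nat_lit 78) (nat_lit 76) (nat_lit 0) (XT.lf (nat_lit 0) (nat_lit 50292695968) (nat_lit 76) (nat_lit 7858828052) (nat_lit 152) (nat_lit 52724605427) (nat_lit 5) (nat_lit 5) (nat_lit 6) (nat_lit 5) (nat_lit 7) (nat_lit 4) (nat_lit 230) (nat_lit 209) (nat_lit 161)) (XT.nd (nat_lit 78) (nat_lit 76) (nat_lit 0) (XT.lf (nat_lit 0) (nat_lit 83995685725) (nat_lit 152) (nat_lit 22710647599) (nat_lit 0) (nat_lit 18557041267) (nat_lit 5) (nat_lit 5) (nat_lit 7) (nat_lit 4) (nat_lit 5) (nat_lit 4) (nat_lit 231) (nat_lit 209) (nat_lit 160)) (XT.lf (nat_lit 0) (nat_lit 21697203200) (nat_lit 76) (nat_lit 92750376504) (nat_lit 76) (nat_lit 27302664398) (nat_lit 4) (nat_lit 4) (nat_lit 5) (nat_lit 5) (nat_lit 5) (nat_lit 4) (nat_lit 232) (nat_lit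 209) (nat_lit 159))))) (XT.nd (nat_lit 156) (nat_lit 76) (nat_lit 0) (XT.nd (nat_lit 78) (nat_lit 76) (nat_lit 0) (XT.lf (nat_lit 0) (nat_lit 74128815062) (nat_lit 76) (nat_lit 75992319341) (nat_lit 76) (nat_lit 10536722323) (nat_lit 4) (nat_lit 4) (nat_lit 5) (nat_lit 5) (nat_lit 5) (nat_lit 4) (nat_lit 233) (nat_lit 209) (nat_lit 158)) (XT.lf (nat_lit 0) (nat_lit 8300146312) (nat_lit 152) (nat_lit 48198149132) (nat_lit 76) (nat_lit 125887034392) (nat_lit 3) (nat_lit 5) (nat_lit 5) (nat_lit 5) (nat_lit 4) (nat_lit 4) (nat_lit 234) (nat_lit 209) (nat_lit 157))) (XT.nd (nat_lit 78) (nat_lit 76) (nat_lit 0) (XT.lf (nat_lit 0) (nat_lit 29350697593) (nat_lit 152) (nat_lit 4418964594) (nat_lit 76) (nat_lit 173579419702) (nat_lit 3) (nat_lit 5) (nat_lit 5) (nat_lit 5) (nat_lit 4) (nat_lit 4) (nat_lit 235) (nat_lit 209) (nat_lit 156)) (XT.nd (nat_lit 78) (nat_lit 0) (nat_lit 0) (XT.lf (nat_lit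 0) (nat_lit 48336454874) (nat_lit 76) (nat_lit 6379917682) (nat_lit 152) (nat_lit 181248434801) (nat_lit 2) (nat_lit 5) (nat_lit 3) (nat_lit 5) (nat_lit 4) (nat_lit 4) (nat_lit 236) (nat_lit 209) (nat_lit 155)) (XT.lf (nat_lit 0) (nat_lit 84618411496) (nat_lit 152) (nat_lit 160205437744) (nat_lit 0) (nat_lit 23990533469) (nat_lit 2) (nat_lit 5) (nat_lit 4) (nat_lit 4) (nat_lit 2) (nat_lit 4) (nat_lit 237) (nat_lit 209) (nat_lit 154))))))))
noncomputable def xc38 : XT := (XT.nd (nat_lit 1404) (nat_lit 0) (nat_lit 0) (XT.nd (nat_lit 702) (nat_lit 0) (nat_lit 0) (XT.nd (nat_lit 312) (nat_lit 76) (nat_lit 0) (XT.nd (nat_lit 156) (nat_lit 0) (nat_lit 0) (XT.nd (nat_lit 78) (nat_lit 0) (nat_lit 0) (XT.lf (nat_lit 0) (nat_lit 119178228364) (nat_lit 152) (nat_lit 128852658205) (nat_lit 0) (nat_lit 58546720528) (nat_lit 2) (nat_lit 5) (nat_lit 4) (nat_lit 4) (nat_lit 2) (nat_lit 4) (nat_lit 238)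 (nat_lit 209) (nat_lit 153)) (XT.lf (nat_lit 0) (nat_lit 158918556319) (nat_lit 152) (nat_lit 92803152747) (nat_lit 0) (nat_lit 98283892126) (nat_lit 2) (nat_lit 5) (nat_lit 4) (nat_lit 4) (nat_lit 2) (nat_lit 4) (nat_lit 239) (nat_lit 209) (nat_lit 152))) (XT.nd (nat_lit 78) (nat_lit 0) (nat_lit 0) (XT.lf (nat_lit 0) (nat_lit 204616923516) (nat_lit 152) (nat_lit 51351604958) (nat_lit 0) (nat_lit 143979514665) (nat_lit 2) (nat_lit 5) (nat_lit 4) (nat_lit 4) (nat_lit 2) (nat_lit 4) (nat_lit 240) (nat_lit 209) (nat_lit 151)) (XT.lf (nat_lit 0) (nat_lit 257167428443) (nat_lit 152) (nat_lit 3687006295) (nat_lit 0) (nat_lit 196527632933) (nat_lit 2) (nat_lit 5) (nat_lit 4) (nat_lit 4) (nat_lit 2) (nat_lit 4) (nat_lit 241) (nat_lit 209) (nat_lit 150)))) (XT.nd (nat_lit 156) (nat_lit 0) (nat_lit 0) (XT.nd (nat_lit 78) (nat_lit 0) (nat_lit 0) (XT.lf (nat_lit 0) (nat_lit 53815269194) (nat_lit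 76) (nat_lit 265077222477) (nat_lit 76) (nat_lit 204435351612) (nat_lit 1) (nat_lit 4) (nat_lit 2) (nat_lit 5) (nat_lit 2) (nat_lit 4) (nat_lit 242) (nat_lit 209) (nat_lit 149)) (XT.lf (nat_lit 0) (nat_lit 120162433780) (nat_lit 76) (nat_lit 269819155120) (nat_lit 76) (nat_lit 209175479598) (nat_lit 1) (nat_lit 4) (nat_lit 2) (nat_lit 5) (nat_lit 2) (nat_lit 4) (nat_lit 243) (nat_lit 209) (nat_lit 148))) (XT.nd (nat_lit 78) (nat_lit 0) (nat_lit 0) (XT.lf (nat_lit 0) (nat_lit 196458432945) (nat_lit 76) (nat_lit 275273818895) (nat_lit 76) (nat_lit 214628574106) (nat_lit 1) (nat_lit 4) (nat_lit 2) (nat_lit 5) (nat_lit 2) (nat_lit 4) (nat_lit 244) (nat_lit 209) (nat_lit 147)) (XT.nd (nat_lit 78) (nat_lit 0) (nat_lit 0) (XT.lf (nat_lit 0) (nat_lit 284196014497) (nat_lit 76) (nat_lit 281547935484) (nat_lit 76) (nat_lit 220901326115) (nat_lit 1) (nat_lit 4) (nat_lit 2) (nat_lit 5) (nat_lit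 2) (nat_lit 4) (nat_lit 245) (nat_lit 209) (nat_lit 146)) (XT.lf (nat_lit 0) (nat_lit 385091783293) (nat_lit 76) (nat_lit 288764259344) (nat_lit 76) (nat_lit 228116463384) (nat_lit 1) (nat_lit 4) (nat_lit 2) (nat_lit 5) (nat_lit 2) (nat_lit 4) (nat_lit 246) (nat_lit 209) (nat_lit 145)))))) (XT.nd (nat_lit 312) (nat_lit 0) (nat_lit 0) (XT.nd (nat_lit 156) (nat_lit 0) (nat_lit 0) (XT.nd (nat_lit 78) (nat_lit 0) (nat_lit 0) (XT.lf (nat_lit 0) (nat_lit 501119786983) (nat_lit 76) (nat_lit 297063979419) (nat_lit 76) (nat_lit 236415151641) (nat_lit 1) (nat_lit 4) (nat_lit 2) (nat_lit 5) (nat_lit 2) (nat_lit 4) (nat_lit 247) (nat_lit 209) (nat_lit 144)) (XT.lf (nat_lit 0) (nat_lit 634550138683) (nat_lit 76) (nat_lit 306609481537) (nat_lit 76) (nat_lit 245959756525) (nat_lit 1) (nat_lit 4) (nat_lit 2) (nat_lit 5) (nat_lit 2) (nat_lit 4) (nat_lit 248) (nat_lit 209) (nat_lit 143))) (XT.nd (nat_lit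 78) (nat_lit 0) (nat_lit 0) (XT.lf (nat_lit 0) (nat_lit 787993432231) (nat_lit 76) (nat_lit 317587525522) (nat_lit 76) (nat_lit 256937020306) (nat_lit 1) (nat_lit 4) (nat_lit 2) (nat_lit 5) (nat_lit 2) (nat_lit 4) (nat_lit 249) (nat_lit 209) (nat_lit 142)) (XT.lf (nat_lit 0) (nat_lit 964451819022) (nat_lit 76) (nat_lit 330212899190) (nat_lit 76) (nat_lit 269561715537) (nat_lit 1) (nat_lit 4) (nat_lit 2) (nat_lit 5) (nat_lit 2) (nat_lit 4) (nat_lit 250) (nat_lit 209) (nat_lit 141)))) (XT.nd (nat_lit 156) (nat_lit 0) (nat_lit 0) (XT.nd (nat_lit 78) (nat_lit 0) (nat_lit 0) (XT.lf (nat_lit 0) (nat_lit 1167377745753) (nat_lit 76) (nat_lit 344732620722) (nat_lit 76) (nat_lit 284080847124) (nat_lit 1) (nat_lit 4) (nat_lit 2) (nat_lit 5) (nat_lit 2) (nat_lit 4) (nat_lit 251) (nat_lit 209) (nat_lit 140)) (XT.lf (nat_lit 0) (nat_lit 1400741502297) (nat_lit 76) (nat_lit 361430771627) (nat_lit 76)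 (nat_lit 300778485033) (nat_lit 1) (nat_lit 4) (nat_lit 2) (nat_lit 5) (nat_lit 2) (nat_lit 4) (nat_lit 252) (nat_lit 209) (nat_lit 139))) (XT.nd (nat_lit 78) (nat_lit 0) (nat_lit 0) (XT.lf (nat_lit 0) (nat_lit 1669108901281) (nat_lit 76) (nat_lit 380634054858) (nat_lit 76) (nat_lit 319981322180) (nat_lit 1) (nat_lit 4) (nat_lit 2) (nat_lit 5) (nat_lit 2) (nat_lit 4) (nat_lit 253) (nat_lit 209) (nat_lit 138)) (XT.nd (nat_lit 78) (nat_lit 0) (nat_lit 0) (XT.lf (nat_lit 0) (nat_lit 1977730609207) (nat_lit 76) (nat_lit 402718186824) (nat_lit 76) (nat_lit 342065066247) (nat_lit 1) (nat_lit 4) (nat_lit 2) (nat_lit 5) (nat_lit 2) (nat_lit 4) (nat_lit 254) (nat_lit 209) (nat_lit 137)) (XT.lf (nat_lit 0) (nat_lit 2332644876882) (nat_lit 76) (nat_lit 428115248369) (nat_lit 76) (nat_lit 367461790489) (nat_lit 1) (nat_lit 4) (nat_lit 2) (nat_lit 5) (nat_lit 2) (nat_lit 4) (nat_lit 255) (nat_lit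 209) (nat_lit 136))))))) (XT.nd (nat_lit 28236) (nat_lit 0) (nat_lit 532) (XT.nd (nat_lit 27846) (nat_lit 0) (nat_lit 1672) (XT.nd (nat_lit 27690) (nat_lit 0) (nat_lit 2128) (XT.nd (nat_lit 78) (nat_lit 0) (nat_lit 0) (XT.lf (nat_lit 0) (nat_lit 2740795679108) (nat_lit 76) (nat_lit 457322138523) (nat_lit 76) (nat_lit 396668387336) (nat_lit 1) (nat_lit 4) (nat_lit 2) (nat_lit 5) (nat_lit 2) (nat_lit 4) (nat_lit 256) (nat_lit 209) (nat_lit 135)) (XT.lf (nat_lit 0) (nat_lit 3210168575059) (nat_lit 76) (nat_lit 490910296441) (nat_lit 76) (nat_lit 430256290205) (nat_lit 1) (nat_lit 4) (nat_lit 2) (nat_lit 5) (nat_lit 2) (nat_lit 4) (nat_lit 257) (nat_lit 209) (nat_lit 134))) (XT.nd (nat_lit 78) (nat_lit 0) (nat_lit 76) (XT.lf (nat_lit 0) (nat_lit 550006457) (nat_lit 532) (nat_lit 3927914590) (nat_lit 532) (nat_lit 3927914590) (nat_lit 29) (nat_lit 3) (nat_lit 36) (nat_lit 3) (nat_lit 36)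 (nat_lit 5) (nat_lit 210) (nat_lit 210) (nat_lit 180)) (XT.lf (nat_lit 0) (nat_lit 1763082795) (nat_lit 456) (nat_lit 12924288302) (nat_lit 532) (nat_lit 3336088266) (nat_lit 30) (nat_lit 5) (nat_lit 36) (nat_lit 5) (nat_lit 37) (nat_lit 5) (nat_lit 211) (nat_lit 210) (nat_lit 179)))) (XT.nd (nat_lit 156) (nat_lit 532) (nat_lit 0) (XT.nd (nat_lit 78) (nat_lit 0) (nat_lit 76) (XT.lf (nat_lit 76) (nat_lit 817316670) (nat_lit 0) (nat_lit 2143988222) (nat_lit 532) (nat_lit 16421325805) (nat_lit 31) (nat_lit 5) (nat_lit 30) (nat_lit 5) (nat_lit 37) (nat_lit 5) (nat_lit 212) (nat_lit 210) (nat_lit 178)) (XT.lf (nat_lit 0) (nat_lit 4962457779) (nat_lit 456) (nat_lit 3864026068) (nat_lit 532) (nat_lit 12069747109) (nat_lit 31) (nat_lit 5) (nat_lit 37) (nat_lit 5) (nat_lit 38) (nat_lit 5) (nat_lit 213) (nat_lit 210) (nat_lit 177))) (XT.nd (nat_lit 78) (nat_lit 684) (nat_lit 0) (XT.lf (nat_lit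 0) (nat_lit 7745024924) (nat_lit 456) (nat_lit 9130612929) (nat_lit 76) (nat_lit 5723089762) (nat_lit 32) (nat_lit 5) (nat_lit 38) (nat_lit 5) (nat_lit 33) (nat_lit 5) (nat_lit 214) (nat_lit 210) (nat_lit 176)) (XT.nd (nat_lit 78) (nat_lit 228) (nat_lit 0) (XT.lf (nat_lit 0) (nat_lit 9261927079) (nat_lit 456) (nat_lit 2220636495) (nat_lit 532) (nat_lit 13031337564) (nat_lit 26) (nat_lit 5) (nat_lit 32) (nat_lit 5) (nat_lit 33) (nat_lit 5) (nat_lit 215) (nat_lit 210) (nat_lit 175)) (XT.lf (nat_lit 0) (nat_lit 4075356997) (nat_lit 228) (nat_lit 12388324604) (nat_lit 304) (nat_lit 10198302137) (nat_lit 23) (nat_lit 5) (nat_lit 26) (nat_lit 5) (nat_lit 27) (nat_lit 5) (nat_lit 216) (nat_lit 210) (nat_lit 174)))))) (XT.nd (nat_lit 390) (nat_lit 532) (nat_lit 0) (XT.nd (nat_lit 156) (nat_lit 456) (nat_lit 0) (XT.nd (nat_lit 78) (nat_lit 152) (nat_lit 0) (XT.lf (nat_lit 0) (nat_lit 22767775911)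 (nat_lit 304) (nat_lit 2079033084) (nat_lit 76) (nat_lit 4239638906) (nat_lit 23) (nat_lit 5) (nat_lit 27) (nat_lit 5) (nat_lit 24) (nat_lit 5) (nat_lit 217) (nat_lit 210) (nat_lit 173)) (XT.lf (nat_lit 0) (nat_lit 22239412895) (nat_lit 152) (nat_lit 8624708987) (nat_lit 228) (nat_lit 942932160) (nat_lit 21) (nat_lit 5) (nat_lit 23) (nat_lit 5) (nat_lit 24) (nat_lit 5) (nat_lit 218) (nat_lit 210) (nat_lit 172))) (XT.nd (nat_lit 78) (nat_lit 152) (nat_lit 0) (XT.lf (nat_lit 0) (nat_lit 5652517725) (nat_lit 304) (nat_lit 19106635462) (nat_lit 76) (nat_lit 10112646798) (nat_lit 17) (nat_lit 5) (nat_lit 21) (nat_lit 5) (nat_lit 18) (nat_lit 5) (nat_lit 219) (nat_lit 210) (nat_lit 171)) (XT.nd (nat_lit 78) (nat_lit 0) (nat_lit 0) (XT.lf (nat_lit 0) (nat_lit 7156408521) (nat_lit 152) (nat_lit 6697421203) (nat_lit 228) (nat_lit 24486820991) (nat_lit 15) (nat_lit 5) (nat_lit 17) (nat_lit 5)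 (nat_lit 18) (nat_lit 5) (nat_lit 220) (nat_lit 210) (nat_lit 170)) (XT.lf (nat_lit 0) (nat_lit 24171323233) (nat_lit 228) (nat_lit 4154329507) (nat_lit 76) (nat_lit 13933421344) (nat_lit 15) (nat_lit 5) (nat_lit 18) (nat_lit 5) (nat_lit 16) (nat_lit 5) (nat_lit 221) (nat_lit 210) (nat_lit 169))))) (XT.nd (nat_lit 156) (nat_lit 228) (nat_lit 0) (XT.nd (nat_lit 78) (nat_lit 152) (nat_lit 0) (XT.lf (nat_lit 0) (nat_lit 28123850416) (nat_lit 152) (nat_lit 8754027494) (nat_lit 228) (nat_lit 9820175733) (nat_lit 13) (nat_lit 5) (nat_lit 15) (nat_lit 5) (nat_lit 16) (nat_lit 5) (nat_lit 222) (nat_lit 210) (nat_lit 168)) (XT.lf (nat_lit 0) (nat_lit 497468626) (nat_lit 152) (nat_lit 37709743115) (nat_lit 76) (nat_lit 13532812078) (nat_lit 11) (nat_lit 5) (nat_lit 13) (nat_lit 5) (nat_lit 12) (nat_lit 5) (nat_lit 223) (nat_lit 210) (nat_lit 167))) (XT.nd (nat_lit 78) (nat_lit 228) (nat_lit 0)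 (XT.lf (nat_lit 0) (nat_lit 12577715478) (nat_lit 152) (nat_lit 5398121062) (nat_lit 76) (nat_lit 39478409209) (nat_lit 11) (nat_lit 5) (nat_lit 13) (nat_lit 5) (nat_lit 12) (nat_lit 5) (nat_lit 224) (nat_lit 210) (nat_lit 166)) (XT.nd (nat_lit 78) (nat_lit 76) (nat_lit 0) (XT.lf (nat_lit 0) (nat_lit 27406597281) (nat_lit 228) (nat_lit 30701213312) (nat_lit 76) (nat_lit 5842928083) (nat_lit 9) (nat_lit 5) (nat_lit 12) (nat_lit 5) (nat_lit 10) (nat_lit 4) (nat_lit 225) (nat_lit 210) (nat_lit 165)) (XT.lf (nat_lit 0) (nat_lit 6410185990) (nat_lit 76) (nat_lit 38848657652) (nat_lit 152) (nat_lit 26098996311) (nat_lit 8) (nat_lit 5) (nat_lit 9) (nat_lit 5) (nat_lit 10) (nat_lit 4) (nat_lit 226) (nat_lit 210) (nat_lit 164))))))))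
noncomputable def xc39 : XT := (XT.nd (nat_lit 1404) (nat_lit 0) (nat_lit 0) (XT.nd (nat_lit 702) (nat_lit 152) (nat_lit 0) (XT.nd (nat_lit 312) (nat_lit 152) (nat_lit 0) (XT.nd (nat_lit 156) (nat_lit 76) (nat_lit 0) (XT.nd (nat_lit 78) (nat_lit 152) (nat_lit 0) (XT.lf (nat_lit 0) (nat_lit 50927962967) (nat_lit 76) (nat_lit 15742551517) (nat_lit 152) (nat_lit 13135014496) (nat_lit 8) (nat_lit 5) (nat_lit 9) (nat_lit 5) (nat_lit 10) (nat_lit 4) (nat_lit 227) (nat_lit 210) (nat_lit 163)) (XT.lf (nat_lit 0) (nat_lit 2261063139) (nat_lit 152) (nat_lit 76558833764) (nat_lit 76) (nat_lit 10651004463) (nat_lit 6) (nat_lit 5) (nat_lit 8) (nat_lit 5) (nat_lit 7) (nat_lit 4) (nat_lit 228) (nat_lit 210) (nat_lit 162))) (XT.nd (nat_lit 78) (nat_lit 76) (nat_lit 0) (XT.lf (nat_lit 0) (nat_lit 20498831934) (nat_lit 152) (nat_lit 38637225992) (nat_lit 76) (nat_lit 41317961330) (nat_lit 6) (nat_lit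 5) (nat_lit 8) (nat_lit 5) (nat_lit 7) (nat_lit 4) (nat_lit 229) (nat_lit 210) (nat_lit 161)) (XT.lf (nat_lit 0) (nat_lit 5219121968) (nat_lit 76) (nat_lit 36369907072) (nat_lit 152) (nat_lit 71486264924) (nat_lit 5) (nat_lit 5) (nat_lit 6) (nat_lit 5) (nat_lit 7) (nat_lit 4) (nat_lit 230) (nat_lit 210) (nat_lit 160)))) (XT.nd (nat_lit 156) (nat_lit 152) (nat_lit 0) (XT.nd (nat_lit 78) (nat_lit 0) (nat_lit 0) (XT.lf (nat_lit 0) (nat_lit 57980326897) (nat_lit 76) (nat_lit 8979374253) (nat_lit 152) (nat_lit 60540729329) (nat_lit 5) (nat_lit 5) (nat_lit 6) (nat_lit 5) (nat_lit 7) (nat_lit 4) (nat_lit 231) (nat_lit 210) (nat_lit 159)) (XT.lf (nat_lit 0) (nat_lit 96670560422) (nat_lit 152) (nat_lit 25987294016) (nat_lit 0) (nat_lit 21388738940) (nat_lit 5) (nat_lit 5) (nat_lit 7) (nat_lit 4) (nat_lit 5) (nat_lit 4) (nat_lit 232) (nat_lit 210) (nat_lit 158))) (XT.nd (nat_lit 78) (nat_lit 76)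 (nat_lit 0) (XT.lf (nat_lit 0) (nat_lit 25070734721) (nat_lit 76) (nat_lit 106612513877) (nat_lit 76) (nat_lit 31323835951) (nat_lit 4) (nat_lit 4) (nat_lit 5) (nat_lit 5) (nat_lit 5) (nat_lit 4) (nat_lit 233) (nat_lit 210) (nat_lit 157)) (XT.nd (nat_lit 78) (nat_lit 76) (nat_lit 0) (XT.lf (nat_lit 0) (nat_lit 85351573009) (nat_lit 76) (nat_lit 87347324544) (nat_lit 76) (nat_lit 12052684491) (nat_lit 4) (nat_lit 4) (nat_lit 5) (nat_lit 5) (nat_lit 5) (nat_lit 4) (nat_lit 234) (nat_lit 210) (nat_lit 156)) (XT.lf (nat_lit 0) (nat_lit 9598487666) (nat_lit 152) (nat_lit 55334970162) (nat_lit 76) (nat_lit 144805256373) (nat_lit 3) (nat_lit 5) (nat_lit 5) (nat_lit 5) (nat_lit 4) (nat_lit 4) (nat_lit 235) (nat_lit 210) (nat_lit 155)))))) (XT.nd (nat_lit 312) (nat_lit 76) (nat_lit 0) (XT.nd (nat_lit 156) (nat_lit 0) (nat_lit 0) (XT.nd (nat_lit 78) (nat_lit 76) (nat_lit 0) (XT.lf (nat_lit 0)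 (nat_lit 33799666934) (nat_lit 152) (nat_lit 5001025509) (nat_lit 76) (nat_lit 199646912502) (nat_lit 3) (nat_lit 5) (nat_lit 5) (nat_lit 5) (nat_lit 4) (nat_lit 4) (nat_lit 236) (nat_lit 210) (nat_lit 154)) (XT.lf (nat_lit 0) (nat_lit 55660868936) (nat_lit 76) (nat_lit 7305055036) (nat_lit 152) (nat_lit 208390123760) (nat_lit 2) (nat_lit 5) (nat_lit 3) (nat_lit 5) (nat_lit 4) (nat_lit 4) (nat_lit 237) (nat_lit 210) (nat_lit 153))) (XT.nd (nat_lit 78) (nat_lit 0) (nat_lit 0) (XT.lf (nat_lit 0) (nat_lit 97348444118) (nat_lit 152) (nat_lit 184169592049) (nat_lit 0) (nat_lit 27615423939) (nat_lit 2) (nat_lit 5) (nat_lit 4) (nat_lit 4) (nat_lit 2) (nat_lit 4) (nat_lit 238) (nat_lit 210) (nat_lit 152)) (XT.lf (nat_lit 0) (nat_lit 137087372095) (nat_lit 152) (nat_lit 148122590539) (nat_lit 0) (nat_lit 67351607259) (nat_lit 2) (nat_lit 5) (nat_lit 4) (nat_lit 4) (nat_lit 2) (nat_lit 4) (nat_lit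 239) (nat_lit 210) (nat_lit 151)))) (XT.nd (nat_lit 156) (nat_lit 76) (nat_lit 0) (XT.nd (nat_lit 78) (nat_lit 0) (nat_lit 0) (XT.lf (nat_lit 0) (nat_lit 182784521920) (nat_lit 152) (nat_lit 106673220097) (nat_lit 0) (nat_lit 113046370425) (nat_lit 2) (nat_lit 5) (nat_lit 4) (nat_lit 4) (nat_lit 2) (nat_lit 4) (nat_lit 240) (nat_lit 210) (nat_lit 150)) (XT.lf (nat_lit 0) (nat_lit 235333968263) (nat_lit 152) (nat_lit 59010514778) (nat_lit 0) (nat_lit 165593741413) (nat_lit 2) (nat_lit 5) (nat_lit 4) (nat_lit 4) (nat_lit 2) (nat_lit 4) (nat_lit 241) (nat_lit 210) (nat_lit 149))) (XT.nd (nat_lit 78) (nat_lit 76) (nat_lit 0) (XT.lf (nat_lit 0) (nat_lit 295763852466) (nat_lit 152) (nat_lit 4201943393) (nat_lit 0) (nat_lit 226021820958) (nat_lit 2) (nat_lit 5) (nat_lit 4) (nat_lit 4) (nat_lit 2) (nat_lit 4) (nat_lit 242) (nat_lit 210) (nat_lit 148)) (XT.nd (nat_lit 78) (nat_lit 0) (nat_lit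 0) (XT.lf (nat_lit 0) (nat_lit 61922447272) (nat_lit 76) (nat_lit 304823287423) (nat_lit 76) (nat_lit 235079686649) (nat_lit 1) (nat_lit 4) (nat_lit 2) (nat_lit 5) (nat_lit 2) (nat_lit 4) (nat_lit 243) (nat_lit 210) (nat_lit 147)) (XT.lf (nat_lit 0) (nat_lit 138217135977) (nat_lit 76) (nat_lit 310278534104) (nat_lit 76) (nat_lit 240533568750) (nat_lit 1) (nat_lit 4) (nat_lit 2) (nat_lit 5) (nat_lit 2) (nat_lit 4) (nat_lit 244) (nat_lit 210) (nat_lit 146))))))) (XT.nd (nat_lit 702) (nat_lit 0) (nat_lit 0) (XT.nd (nat_lit 312) (nat_lit 0) (nat_lit 0) (XT.nd (nat_lit 156) (nat_lit 0) (nat_lit 0) (XT.nd (nat_lit 78) (nat_lit 0) (nat_lit 0) (XT.lf (nat_lit 0) (nat_lit 225953578000) (nat_lit 76) (nat_lit 316553157569) (nat_lit 76) (nat_lit 246807005624) (nat_lit 1) (nat_lit 4) (nat_lit 2) (nat_lit 5) (nat_lit 2) (nat_lit 4) (nat_lit 245) (nat_lit 210) (nat_lit 145)) (XT.lf (nat_lit 0) (nat_lit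 326848355900) (nat_lit 76) (nat_lit 323769922190) (nat_lit 76) (nat_lit 254022738426) (nat_lit 1) (nat_lit 4) (nat_lit 2) (nat_lit 5) (nat_lit 2) (nat_lit 4) (nat_lit 246) (nat_lit 210) (nat_lit 144))) (XT.nd (nat_lit 78) (nat_lit 0) (nat_lit 0) (XT.lf (nat_lit 0) (nat_lit 442875497942) (nat_lit 76) (nat_lit 332070025535) (nat_lit 76) (nat_lit 262321944538) (nat_lit 1) (nat_lit 4) (nat_lit 2) (nat_lit 5) (nat_lit 2) (nat_lit 4) (nat_lit 247) (nat_lit 210) (nat_lit 143)) (XT.lf (nat_lit 0) (nat_lit 576305100383) (nat_lit 76) (nat_lit 341615860932) (nat_lit 76) (nat_lit 271866999731) (nat_lit 1) (nat_lit 4) (nat_lit 2) (nat_lit 5) (nat_lit 2) (nat_lit 4) (nat_lit 248) (nat_lit 210) (nat_lit 142)))) (XT.nd (nat_lit 156) (nat_lit 0) (nat_lit 0) (XT.nd (nat_lit 78) (nat_lit 0) (nat_lit 0) (XT.lf (nat_lit 0) (nat_lit 729747742401) (nat_lit 76) (nat_lit 352594194724) (nat_lit 76) (nat_lit 282844655086)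 (nat_lit 1) (nat_lit 4) (nat_lit 2) (nat_lit 5) (nat_lit 2) (nat_lit 4) (nat_lit 249) (nat_lit 210) (nat_lit 141)) (XT.lf (nat_lit 0) (nat_lit 906205562644) (nat_lit 76) (nat_lit 365219820399) (nat_lit 76) (nat_lit 295469690815) (nat_lit 1) (nat_lit 4) (nat_lit 2) (nat_lit 5) (nat_lit 2) (nat_lit 4) (nat_lit 250) (nat_lit 210) (nat_lit 140))) (XT.nd (nat_lit 78) (nat_lit 0) (nat_lit 0) (XT.lf (nat_lit 0) (nat_lit 1109130996726) (nat_lit 76) (nat_lit 379739761067) (nat_lit 76) (nat_lit 309989118488) (nat_lit 1) (nat_lit 4) (nat_lit 2) (nat_lit 5) (nat_lit 2) (nat_lit 4) (nat_lit 251) (nat_lit 210) (nat_lit 139)) (XT.nd (nat_lit 78) (nat_lit 0) (nat_lit 0) (XT.lf (nat_lit 0) (nat_lit 1342494324878) (nat_lit 76) (nat_lit 396438102526) (nat_lit 76) (nat_lit 326687013862) (nat_lit 1) (nat_lit 4) (nat_lit 2) (nat_lit 5) (nat_lit 2) (nat_lit 4) (nat_lit 252) (nat_lit 210) (nat_lit 138)) (XT.lf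 (nat_lit 0) (nat_lit 1610861351348) (nat_lit 76) (nat_lit 415641551454) (nat_lit 76) (nat_lit 345890074892) (nat_lit 1) (nat_lit 4) (nat_lit 2) (nat_lit 5) (nat_lit 2) (nat_lit 4) (nat_lit 253) (nat_lit 210) (nat_lit 137)))))) (XT.nd (nat_lit 28002) (nat_lit 0) (nat_lit 1900) (XT.nd (nat_lit 156) (nat_lit 0) (nat_lit 0) (XT.nd (nat_lit 78) (nat_lit 0) (nat_lit 0) (XT.lf (nat_lit 0) (nat_lit 1919482735348) (nat_lit 76) (nat_lit 437725827506) (nat_lit 76) (nat_lit 367974013641) (nat_lit 1) (nat_lit 4) (nat_lit 2) (nat_lit 5) (nat_lit 2) (nat_lit 4) (nat_lit 254) (nat_lit 210) (nat_lit 136)) (XT.lf (nat_lit 0) (nat_lit 2274396721348) (nat_lit 76) (nat_lit 463123014343) (nat_lit 76) (nat_lit 393370907170) (nat_lit 1) (nat_lit 4) (nat_lit 2) (nat_lit 5) (nat_lit 2) (nat_lit 4) (nat_lit 255) (nat_lit 210) (nat_lit 135))) (XT.nd (nat_lit 78) (nat_lit 0) (nat_lit 0) (XT.lf (nat_lit 0) (nat_lit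 2682547278640) (nat_lit 76) (nat_lit 492330013446) (nat_lit 76) (nat_lit 422577651224) (nat_lit 1) (nat_lit 4) (nat_lit 2) (nat_lit 5) (nat_lit 2) (nat_lit 4) (nat_lit 256) (nat_lit 210) (nat_lit 134)) (XT.nd (nat_lit 27690) (nat_lit 0) (nat_lit 2128) (XT.lf (nat_lit 0) (nat_lit 3151919961606) (nat_lit 76) (nat_lit 525918266103) (nat_lit 76) (nat_lit 456165682099) (nat_lit 1) (nat_lit 4) (nat_lit 2) (nat_lit 5) (nat_lit 2) (nat_lit 4) (nat_lit 257) (nat_lit 210) (nat_lit 133)) (XT.lf (nat_lit 0) (nat_lit 988415508) (nat_lit 532) (nat_lit 4323645236) (nat_lit 532) (nat_lit 4323645236) (nat_lit 29) (nat_lit 3) (nat_lit 36) (nat_lit 3) (nat_lit 36) (nat_lit 5) (nat_lit 211) (nat_lit 211) (nat_lit 178))))) (XT.nd (nat_lit 156) (nat_lit 304) (nat_lit 0) (XT.nd (nat_lit 78) (nat_lit 0) (nat_lit 0) (XT.lf (nat_lit 0) (nat_lit 2648459935) (nat_lit 456) (nat_lit 14447592094) (nat_lit 532) (nat_lit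 3576848964) (nat_lit 30) (nat_lit 5) (nat_lit 36) (nat_lit 5) (nat_lit 37) (nat_lit 5) (nat_lit 212) (nat_lit 211) (nat_lit 177)) (XT.lf (nat_lit 76) (nat_lit 1320097208) (nat_lit 0) (nat_lit 2634472674) (nat_lit 532) (nat_lit 18287700231) (nat_lit 31) (nat_lit 5) (nat_lit 30) (nat_lit 5) (nat_lit 37) (nat_lit 5) (nat_lit 213) (nat_lit 211) (nat_lit 176))) (XT.nd (nat_lit 78) (nat_lit 380) (nat_lit 0) (XT.lf (nat_lit 0) (nat_lit 6180746044) (nat_lit 456) (nat_lit 4067977853) (nat_lit 532) (nat_lit 13740698005) (nat_lit 31) (nat_lit 5) (nat_lit 37) (nat_lit 5) (nat_lit 38) (nat_lit 5) (nat_lit 214) (nat_lit 211) (nat_lit 175)) (XT.nd (nat_lit 78) (nat_lit 456) (nat_lit 0) (XT.lf (nat_lit 0) (nat_lit 9325312107) (nat_lit 456) (nat_lit 10117983887) (nat_lit 76) (nat_lit 6508862324) (nat_lit 32) (nat_lit 5) (nat_lit 38) (nat_lit 5) (nat_lit 33) (nat_lit 5) (nat_lit 215) (nat_lit 211) (nat_lit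 174)) (XT.lf (nat_lit 0) (nat_lit 11001084020) (nat_lit 456) (nat_lit 2576220546) (nat_lit 532) (nat_lit 14581375170) (nat_lit 26) (nat_lit 5) (nat_lit 32) (nat_lit 5) (nat_lit 33) (nat_lit 5) (nat_lit 216) (nat_lit 211) (nat_lit 173))))))))
noncomputable def xc40 : XT := (XT.nd (nat_lit 1404) (nat_lit 228) (nat_lit 0) (XT.nd (nat_lit 702) (nat_lit 532) (nat_lit 0) (XT.nd (nat_lit 312) (nat_lit 456) (nat_lit 0) (XT.nd (nat_lit 156) (nat_lit 456) (nat_lit 0) (XT.nd (nat_lit 78) (nat_lit 0) (nat_lit 0) (XT.lf (nat_lit 0) (nat_lit 5036980905) (nat_lit 228) (nat_lit 14227996067) (nat_lit 304) (nat_lit 11367575262) (nat_lit 23) (nat_lit 5) (nat_lit 26) (nat_lit 5) (nat_lit 27) (nat_lit 5) (nat_lit 217) (nat_lit 211) (nat_lit 172)) (XT.lf (nat_lit 0) (nat_lit 26471803093) (nat_lit 304) (nat_lit 2061668359) (nat_lit 76) (nat_lit 4890930759) (nat_lit 23) (nat_lit 5) (nat_lit 27) (nat_lit 5)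 (nat_lit 24) (nat_lit 5) (nat_lit 218) (nat_lit 211) (nat_lit 171))) (XT.nd (nat_lit 78) (nat_lit 304) (nat_lit 0) (XT.lf (nat_lit 0) (nat_lit 25876677710) (nat_lit 152) (nat_lit 9875493298) (nat_lit 228) (nat_lit 803611010) (nat_lit 21) (nat_lit 5) (nat_lit 23) (nat_lit 5) (nat_lit 24) (nat_lit 5) (nat_lit 219) (nat_lit 211) (nat_lit 170)) (XT.lf (nat_lit 0) (nat_lit 6740530862) (nat_lit 304) (nat_lit 21663312653) (nat_lit 76) (nat_lit 11678182567) (nat_lit 17) (nat_lit 5) (nat_lit 21) (nat_lit 5) (nat_lit 18) (nat_lit 5) (nat_lit 220) (nat_lit 211) (nat_lit 169)))) (XT.nd (nat_lit 156) (nat_lit 304) (nat_lit 0) (XT.nd (nat_lit 78) (nat_lit 0) (nat_lit 0) (XT.lf (nat_lit 0) (nat_lit 8513005688) (nat_lit 152) (nat_lit 7634521379) (nat_lit 228) (nat_lit 27925812241) (nat_lit 15) (nat_lit 5) (nat_lit 17) (nat_lit 5) (nat_lit 18) (nat_lit 5) (nat_lit 221) (nat_lit 211) (nat_lit 168)) (XT.lf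 (nat_lit 0) (nat_lit 27985931782) (nat_lit 228) (nat_lit 4516677878) (nat_lit 76) (nat_lit 16079204746) (nat_lit 15) (nat_lit 5) (nat_lit 18) (nat_lit 5) (nat_lit 16) (nat_lit 5) (nat_lit 222) (nat_lit 211) (nat_lit 167))) (XT.nd (nat_lit 78) (nat_lit 152) (nat_lit 0) (XT.lf (nat_lit 0) (nat_lit 32581153524) (nat_lit 152) (nat_lit 9998417049) (nat_lit 228) (nat_lit 11108713730) (nat_lit 13) (nat_lit 5) (nat_lit 15) (nat_lit 5) (nat_lit 16) (nat_lit 5) (nat_lit 223) (nat_lit 211) (nat_lit 166)) (XT.nd (nat_lit 78) (nat_lit 0) (nat_lit 0) (XT.lf (nat_lit 0) (nat_lit 731644394) (nat_lit 152) (nat_lit 43126839087) (nat_lit 76) (nat_lit 15629073748) (nat_lit 11) (nat_lit 5) (nat_lit 13) (nat_lit 5) (nat_lit 12) (nat_lit 5) (nat_lit 224) (nat_lit 211) (nat_lit 165)) (XT.lf (nat_lit 0) (nat_lit 14603116690) (nat_lit 152) (nat_lit 5999695312) (nat_lit 76) (nat_lit 45457857424) (nat_lit 11) (nat_lit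 5) (nat_lit 13) (nat_lit 5) (nat_lit 12) (nat_lit 5) (nat_lit 225) (nat_lit 211) (nat_lit 164)))))) (XT.nd (nat_lit 312) (nat_lit 152) (nat_lit 0) (XT.nd (nat_lit 156) (nat_lit 152) (nat_lit 0) (XT.nd (nat_lit 78) (nat_lit 76) (nat_lit 0) (XT.lf (nat_lit 0) (nat_lit 31644386263) (nat_lit 228) (nat_lit 35106888179) (nat_lit 76) (nat_lit 6781397455) (nat_lit 9) (nat_lit 5) (nat_lit 12) (nat_lit 5) (nat_lit 10) (nat_lit 4) (nat_lit 226) (nat_lit 211) (nat_lit 163)) (XT.lf (nat_lit 0) (nat_lit 7554333734) (nat_lit 76) (nat_lit 44607988805) (nat_lit 152) (nat_lit 29889557194) (nat_lit 8) (nat_lit 5) (nat_lit 9) (nat_lit 5) (nat_lit 10) (nat_lit 4) (nat_lit 227) (nat_lit 211) (nat_lit 162))) (XT.nd (nat_lit 78) (nat_lit 152) (nat_lit 0) (XT.lf (nat_lit 0) (nat_lit 58725957277) (nat_lit 76) (nat_lit 18044832075) (nat_lit 152) (nat_lit 14997189658) (nat_lit 8) (nat_lit 5) (nat_lit 9) (nat_lit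 5) (nat_lit 10) (nat_lit 4) (nat_lit 228) (nat_lit 211) (nat_lit 161)) (XT.lf (nat_lit 0) (nat_lit 2694513294) (nat_lit 152) (nat_lit 87885641567) (nat_lit 76) (nat_lit 12303513576) (nat_lit 6) (nat_lit 5) (nat_lit 8) (nat_lit 5) (nat_lit 7) (nat_lit 4) (nat_lit 229) (nat_lit 211) (nat_lit 160)))) (XT.nd (nat_lit 156) (nat_lit 76) (nat_lit 0) (XT.nd (nat_lit 78) (nat_lit 76) (nat_lit 0) (XT.lf (nat_lit 0) (nat_lit 23655648624) (nat_lit 152) (nat_lit 44296273141) (nat_lit 76) (nat_lit 47563358525) (nat_lit 6) (nat_lit 5) (nat_lit 8) (nat_lit 5) (nat_lit 7) (nat_lit 4) (nat_lit 230) (nat_lit 211) (nat_lit 159)) (XT.lf (nat_lit 0) (nat_lit 6126969857) (nat_lit 76) (nat_lit 41774716605) (nat_lit 152) (nat_lit 82128711696) (nat_lit 5) (nat_lit 5) (nat_lit 6) (nat_lit 5) (nat_lit 7) (nat_lit 4) (nat_lit 231) (nat_lit 211) (nat_lit 158))) (XT.nd (nat_lit 78) (nat_lit 76) (nat_lit 0) (XT.lf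 (nat_lit 0) (nat_lit 66786053839) (nat_lit 76) (nat_lit 10282213845) (nat_lit 152) (nat_lit 69551844844) (nat_lit 5) (nat_lit 5) (nat_lit 6) (nat_lit 5) (nat_lit 7) (nat_lit 4) (nat_lit 232) (nat_lit 211) (nat_lit 157)) (XT.nd (nat_lit 78) (nat_lit 76) (nat_lit 0) (XT.lf (nat_lit 0) (nat_lit 111228249844) (nat_lit 152) (nat_lit 29787126702) (nat_lit 0) (nat_lit 24633451658) (nat_lit 5) (nat_lit 5) (nat_lit 7) (nat_lit 4) (nat_lit 5) (nat_lit 4) (nat_lit 233) (nat_lit 211) (nat_lit 156)) (XT.lf (nat_lit 0) (nat_lit 28921289007) (nat_lit 76) (nat_lit 122566266873) (nat_lit 76) (nat_lit 35966284230) (nat_lit 4) (nat_lit 4) (nat_lit 5) (nat_lit 5) (nat_lit 5) (nat_lit 4) (nat_lit 234) (nat_lit 211) (nat_lit 155))))))) (XT.nd (nat_lit 702) (nat_lit 76) (nat_lit 0) (XT.nd (nat_lit 312) (nat_lit 0) (nat_lit 0) (XT.nd (nat_lit 156) (nat_lit 76) (nat_lit 0) (XT.nd (nat_lit 78) (nat_lit 76) (nat_lit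 0) (XT.lf (nat_lit 0) (nat_lit 98232521202) (nat_lit 76) (nat_lit 100416271847) (nat_lit 76) (nat_lit 13811780980) (nat_lit 4) (nat_lit 4) (nat_lit 5) (nat_lit 5) (nat_lit 5) (nat_lit 4) (nat_lit 235) (nat_lit 211) (nat_lit 154)) (XT.lf (nat_lit 0) (nat_lit 11078577949) (nat_lit 152) (nat_lit 63564968926) (nat_lit 76) (nat_lit 166552635999) (nat_lit 3) (nat_lit 5) (nat_lit 5) (nat_lit 5) (nat_lit 4) (nat_lit 4) (nat_lit 236) (nat_lit 211) (nat_lit 153))) (XT.nd (nat_lit 78) (nat_lit 76) (nat_lit 0) (XT.lf (nat_lit 0) (nat_lit 38904675350) (nat_lit 152) (nat_lit 5690095196) (nat_lit 76) (nat_lit 229617072134) (nat_lit 3) (nat_lit 5) (nat_lit 5) (nat_lit 5) (nat_lit 4) (nat_lit 4) (nat_lit 237) (nat_lit 211) (nat_lit 152)) (XT.lf (nat_lit 0) (nat_lit 64065912947) (nat_lit 76) (nat_lit 8376729890) (nat_lit 152) (nat_lit 239614180123) (nat_lit 2) (nat_lit 5) (nat_lit 3) (nat_lit 5) (nat_lit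 4) (nat_lit 4) (nat_lit 238) (nat_lit 211) (nat_lit 151)))) (XT.nd (nat_lit 156) (nat_lit 0) (nat_lit 0) (XT.nd (nat_lit 78) (nat_lit 0) (nat_lit 0) (XT.lf (nat_lit 0) (nat_lit 111978892888) (nat_lit 152) (nat_lit 211744625295) (nat_lit 0) (nat_lit 31777632010) (nat_lit 2) (nat_lit 5) (nat_lit 4) (nat_lit 4) (nat_lit 2) (nat_lit 4) (nat_lit 239) (nat_lit 211) (nat_lit 150)) (XT.lf (nat_lit 0) (nat_lit 157674984129) (nat_lit 152) (nat_lit 170297148197) (nat_lit 0) (nat_lit 77471647896) (nat_lit 2) (nat_lit 5) (nat_lit 4) (nat_lit 4) (nat_lit 2) (nat_lit 4) (nat_lit 240) (nat_lit 211) (nat_lit 149))) (XT.nd (nat_lit 78) (nat_lit 0) (nat_lit 0) (XT.lf (nat_lit 0) (nat_lit 210223509965) (nat_lit 152) (nat_lit 122636089265) (nat_lit 0) (nat_lit 130018369074) (nat_lit 2) (nat_lit 5) (nat_lit 4) (nat_lit 4) (nat_lit 2) (nat_lit 4) (nat_lit 241) (nat_lit 211) (nat_lit 148)) (XT.nd (nat_lit 78)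 (nat_lit 0) (nat_lit 0) (XT.lf (nat_lit 0) (nat_lit 270652593726) (nat_lit 152) (nat_lit 67828949520) (nat_lit 0) (nat_lit 190445883568) (nat_lit 2) (nat_lit 5) (nat_lit 4) (nat_lit 4) (nat_lit 2) (nat_lit 4) (nat_lit 242) (nat_lit 211) (nat_lit 147)) (XT.lf (nat_lit 0) (nat_lit 340144543573) (nat_lit 152) (nat_lit 4803415358) (nat_lit 0) (nat_lit 259936468836) (nat_lit 2) (nat_lit 5) (nat_lit 4) (nat_lit 4) (nat_lit 2) (nat_lit 4) (nat_lit 243) (nat_lit 211) (nat_lit 146)))))) (XT.nd (nat_lit 312) (nat_lit 0) (nat_lit 0) (XT.nd (nat_lit 156) (nat_lit 0) (nat_lit 0) (XT.nd (nat_lit 78) (nat_lit 0) (nat_lit 0) (XT.lf (nat_lit 0) (nat_lit 71237194476) (nat_lit 76) (nat_lit 350535046377) (nat_lit 76) (nat_lit 270325785048) (nat_lit 1) (nat_lit 4) (nat_lit 2) (nat_lit 5) (nat_lit 2) (nat_lit 4) (nat_lit 244) (nat_lit 211) (nat_lit 145)) (XT.lf (nat_lit 0) (nat_lit 158972645603) (nat_lit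 76) (nat_lit 356810110603) (nat_lit 76) (nat_lit 276599817456) (nat_lit 1) (nat_lit 4) (nat_lit 2) (nat_lit 5) (nat_lit 2) (nat_lit 4) (nat_lit 245) (nat_lit 211) (nat_lit 144))) (XT.nd (nat_lit 78) (nat_lit 0) (nat_lit 0) (XT.lf (nat_lit 0) (nat_lit 259866561855) (nat_lit 76) (nat_lit 364027258494) (nat_lit 76) (nat_lit 283816068113) (nat_lit 1) (nat_lit 4) (nat_lit 2) (nat_lit 5) (nat_lit 2) (nat_lit 4) (nat_lit 246) (nat_lit 211) (nat_lit 143)) (XT.lf (nat_lit 0) (nat_lit 375892954638) (nat_lit 76) (nat_lit 372327695118) (nat_lit 76) (nat_lit 292115724535) (nat_lit 1) (nat_lit 4) (nat_lit 2) (nat_lit 5) (nat_lit 2) (nat_lit 4) (nat_lit 247) (nat_lit 211) (nat_lit 142)))) (XT.nd (nat_lit 156) (nat_lit 0) (nat_lit 0) (XT.nd (nat_lit 78) (nat_lit 0) (nat_lit 0) (XT.lf (nat_lit 0) (nat_lit 509321905549) (nat_lit 76) (nat_lit 381873820322) (nat_lit 76) (nat_lit 301661171301) (nat_lit 1)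 (nat_lit 4) (nat_lit 2) (nat_lit 5) (nat_lit 2) (nat_lit 4) (nat_lit 248) (nat_lit 211) (nat_lit 141)) (XT.lf (nat_lit 0) (nat_lit 662763981019) (nat_lit 76) (nat_lit 392852406120) (nat_lit 76) (nat_lit 312639167154) (nat_lit 1) (nat_lit 4) (nat_lit 2) (nat_lit 5) (nat_lit 2) (nat_lit 4) (nat_lit 249) (nat_lit 211) (nat_lit 140))) (XT.nd (nat_lit 78) (nat_lit 0) (nat_lit 0) (XT.lf (nat_lit 0) (nat_lit 839221308612) (nat_lit 76) (nat_lit 405478250931) (nat_lit 76) (nat_lit 325264498969) (nat_lit 1) (nat_lit 4) (nat_lit 2) (nat_lit 5) (nat_lit 2) (nat_lit 4) (nat_lit 250) (nat_lit 211) (nat_lit 139)) (XT.nd (nat_lit 78) (nat_lit 0) (nat_lit 0) (XT.lf (nat_lit 0) (nat_lit 1042146314302) (nat_lit 76) (nat_lit 419998382153) (nat_lit 76) (nat_lit 339784184107) (nat_lit 1) (nat_lit 4) (nat_lit 2) (nat_lit 5) (nat_lit 2) (nat_lit 4) (nat_lit 251) (nat_lit 211) (nat_lit 138)) (XT.lf (nat_lit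 0) (nat_lit 1275509269940) (nat_lit 76) (nat_lit 436696889310) (nat_lit 76) (nat_lit 356482303365) (nat_lit 1) (nat_lit 4) (nat_lit 2) (nat_lit 5) (nat_lit 2) (nat_lit 4) (nat_lit 252) (nat_lit 211) (nat_lit 137))))))))
noncomputable def xc41 : XT := (XT.nd (nat_lit 29094) (nat_lit 0) (nat_lit 76) (XT.nd (nat_lit 28392) (nat_lit 0) (nat_lit 912) (XT.nd (nat_lit 312) (nat_lit 0) (nat_lit 0) (XT.nd (nat_lit 156) (nat_lit 0) (nat_lit 0) (XT.nd (nat_lit 78) (nat_lit 0) (nat_lit 0) (XT.lf (nat_lit 0) (nat_lit 1543875972484) (nat_lit 76) (nat_lit 455900482324) (nat_lit 76) (nat_lit 375685559076) (nat_lit 1) (nat_lit 4) (nat_lit 2) (nat_lit 5) (nat_lit 2) (nat_lit 4) (nat_lit 253) (nat_lit 211) (nat_lit 136)) (XT.lf (nat_lit 0) (nat_lit 1852497074810) (nat_lit 76) (nat_lit 477984883667) (nat_lit 76) (nat_lit 397769667112) (nat_lit 1) (nat_lit 4) (nat_lit 2) (nat_lit 5) (nat_lit 2) (nat_lit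 4) (nat_lit 254) (nat_lit 211) (nat_lit 135))) (XT.nd (nat_lit 78) (nat_lit 0) (nat_lit 0) (XT.lf (nat_lit 0) (nat_lit 2207410815877) (nat_lit 76) (nat_lit 503382179454) (nat_lit 76) (nat_lit 423166707848) (nat_lit 1) (nat_lit 4) (nat_lit 2) (nat_lit 5) (nat_lit 2) (nat_lit 4) (nat_lit 255) (nat_lit 211) (nat_lit 134)) (XT.lf (nat_lit 0) (nat_lit 2615561160182) (nat_lit 76) (nat_lit 532589273296) (nat_lit 76) (nat_lit 452373579908) (nat_lit 1) (nat_lit 4) (nat_lit 2) (nat_lit 5) (nat_lit 2) (nat_lit 4) (nat_lit 256) (nat_lit 211) (nat_lit 133)))) (XT.nd (nat_lit 27846) (nat_lit 0) (nat_lit 2204) (XT.nd (nat_lit 27768) (nat_lit 0) (nat_lit 2128) (XT.lf (nat_lit 0) (nat_lit 3084933657942) (nat_lit 76) (nat_lit 566177608334) (nat_lit 76) (nat_lit 485961722092) (nat_lit 1) (nat_lit 4) (nat_lit 2) (nat_lit 5) (nat_lit 2) (nat_lit 4) (nat_lit 257) (nat_lit 211) (nat_lit 132)) (XT.lf (nat_lit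 0) (nat_lit 1405795477) (nat_lit 532) (nat_lit 4825911082) (nat_lit 532) (nat_lit 4825911082) (nat_lit 29) (nat_lit 3) (nat_lit 36) (nat_lit 3) (nat_lit 36) (nat_lit 5) (nat_lit 212) (nat_lit 212) (nat_lit 176))) (XT.nd (nat_lit 78) (nat_lit 0) (nat_lit 0) (XT.lf (nat_lit 0) (nat_lit 3515229659) (nat_lit 456) (nat_lit 16300674611) (nat_lit 532) (nat_lit 3917041684) (nat_lit 30) (nat_lit 5) (nat_lit 36) (nat_lit 5) (nat_lit 37) (nat_lit 5) (nat_lit 213) (nat_lit 212) (nat_lit 175)) (XT.nd (nat_lit 78) (nat_lit 0) (nat_lit 76) (XT.lf (nat_lit 76) (nat_lit 1805584785) (nat_lit 0) (nat_lit 3157345820) (nat_lit 532) (nat_lit 20579570242) (nat_lit 31) (nat_lit 5) (nat_lit 30) (nat_lit 5) (nat_lit 37) (nat_lit 5) (nat_lit 214) (nat_lit 212) (nat_lit 174)) (XT.lf (nat_lit 0) (nat_lit 7466209253) (nat_lit 456) (nat_lit 4394127556) (nat_lit 532) (nat_lit 15696312218) (nat_lit 31) (nat_lit 5) (nat_lit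 37) (nat_lit 5) (nat_lit 38) (nat_lit 5) (nat_lit 215) (nat_lit 212) (nat_lit 173)))))) (XT.nd (nat_lit 312) (nat_lit 760) (nat_lit 0) (XT.nd (nat_lit 156) (nat_lit 228) (nat_lit 0) (XT.nd (nat_lit 78) (nat_lit 456) (nat_lit 0) (XT.lf (nat_lit 0) (nat_lit 11040580337) (nat_lit 456) (nat_lit 11346667495) (nat_lit 76) (nat_lit 7430226907) (nat_lit 32) (nat_lit 5) (nat_lit 38) (nat_lit 5) (nat_lit 33) (nat_lit 5) (nat_lit 216) (nat_lit 212) (nat_lit 172)) (XT.lf (nat_lit 0) (nat_lit 12915797004) (nat_lit 456) (nat_lit 2979658223) (nat_lit 532) (nat_lit 16462598058) (nat_lit 26) (nat_lit 5) (nat_lit 32) (nat_lit 5) (nat_lit 33) (nat_lit 5) (nat_lit 217) (nat_lit 212) (nat_lit 171))) (XT.nd (nat_lit 78) (nat_lit 0) (nat_lit 0) (XT.lf (nat_lit 0) (nat_lit 6057420562) (nat_lit 228) (nat_lit 16348148424) (nat_lit 304) (nat_lit 12800142784) (nat_lit 23) (nat_lit 5) (nat_lit 26) (nat_lit 5) (nat_lit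 27) (nat_lit 5) (nat_lit 218) (nat_lit 212) (nat_lit 170)) (XT.lf (nat_lit 0) (nat_lit 30660993818) (nat_lit 304) (nat_lit 2121981231) (nat_lit 76) (nat_lit 5636174166) (nat_lit 23) (nat_lit 5) (nat_lit 27) (nat_lit 5) (nat_lit 24) (nat_lit 5) (nat_lit 219) (nat_lit 212) (nat_lit 169)))) (XT.nd (nat_lit 156) (nat_lit 304) (nat_lit 0) (XT.nd (nat_lit 78) (nat_lit 304) (nat_lit 0) (XT.lf (nat_lit 0) (nat_lit 29986045439) (nat_lit 152) (nat_lit 11324362067) (nat_lit 228) (nat_lit 711857029) (nat_lit 21) (nat_lit 5) (nat_lit 23) (nat_lit 5) (nat_lit 24) (nat_lit 5) (nat_lit 220) (nat_lit 212) (nat_lit 168)) (XT.lf (nat_lit 0) (nat_lit 7933187413) (nat_lit 304) (nat_lit 24678920608) (nat_lit 76) (nat_lit 13466687834) (nat_lit 17) (nat_lit 5) (nat_lit 21) (nat_lit 5) (nat_lit 18) (nat_lit 5) (nat_lit 221) (nat_lit 212) (nat_lit 167))) (XT.nd (nat_lit 78) (nat_lit 152) (nat_lit 0) (XT.lf (nat_lit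 0) (nat_lit 10004047951) (nat_lit 152) (nat_lit 8728650055) (nat_lit 228) (nat_lit 31937722339) (nat_lit 15) (nat_lit 5) (nat_lit 17) (nat_lit 5) (nat_lit 18) (nat_lit 5) (nat_lit 222) (nat_lit 212) (nat_lit 166)) (XT.nd (nat_lit 78) (nat_lit 152) (nat_lit 0) (XT.lf (nat_lit 0) (nat_lit 32326664698) (nat_lit 228) (nat_lit 4996976493) (nat_lit 76) (nat_lit 18533255742) (nat_lit 15) (nat_lit 5) (nat_lit 18) (nat_lit 5) (nat_lit 16) (nat_lit 5) (nat_lit 223) (nat_lit 212) (nat_lit 165)) (XT.lf (nat_lit 0) (nat_lit 37648837362) (nat_lit 152) (nat_lit 11446221519) (nat_lit 228) (nat_lit 12635521081) (nat_lit 13) (nat_lit 5) (nat_lit 15) (nat_lit 5) (nat_lit 16) (nat_lit 5) (nat_lit 224) (nat_lit 212) (nat_lit 164))))))) (XT.nd (nat_lit 702) (nat_lit 228) (nat_lit 0) (XT.nd (nat_lit 312) (nat_lit 228) (nat_lit 0) (XT.nd (nat_lit 156) (nat_lit 228) (nat_lit 0) (XT.nd (nat_lit 78) (nat_lit 0)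 (nat_lit 0) (XT.lf (nat_lit 0) (nat_lit 962037915) (nat_lit 152) (nat_lit 49414870247) (nat_lit 76) (nat_lit 18023597275) (nat_lit 11) (nat_lit 5) (nat_lit 13) (nat_lit 5) (nat_lit 12) (nat_lit 5) (nat_lit 225) (nat_lit 212) (nat_lit 163)) (XT.lf (nat_lit 0) (nat_lit 16898494508) (nat_lit 152) (nat_lit 6742262910) (nat_lit 76) (nat_lit 52320155572) (nat_lit 11) (nat_lit 5) (nat_lit 13) (nat_lit 5) (nat_lit 12) (nat_lit 5) (nat_lit 226) (nat_lit 212) (nat_lit 162))) (XT.nd (nat_lit 78) (nat_lit 76) (nat_lit 0) (XT.lf (nat_lit 0) (nat_lit 36486922758) (nat_lit 228) (nat_lit 40222065353) (nat_lit 76) (nat_lit 7845510786) (nat_lit 9) (nat_lit 5) (nat_lit 12) (nat_lit 5) (nat_lit 10) (nat_lit 4) (nat_lit 227) (nat_lit 212) (nat_lit 161)) (XT.lf (nat_lit 0) (nat_lit 8825570633) (nat_lit 76) (nat_lit 51247793936) (nat_lit 152) (nat_lit 34279010763) (nat_lit 8) (nat_lit 5) (nat_lit 9) (nat_lit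 5) (nat_lit 10) (nat_lit 4) (nat_lit 228) (nat_lit 212) (nat_lit 160)))) (XT.nd (nat_lit 156) (nat_lit 76) (nat_lit 0) (XT.nd (nat_lit 78) (nat_lit 152) (nat_lit 0) (XT.lf (nat_lit 0) (nat_lit 67654926381) (nat_lit 76) (nat_lit 20706867156) (nat_lit 152) (nat_lit 17165046359) (nat_lit 8) (nat_lit 5) (nat_lit 9) (nat_lit 5) (nat_lit 10) (nat_lit 4) (nat_lit 229) (nat_lit 212) (nat_lit 159)) (XT.lf (nat_lit 0) (nat_lit 3169987592) (nat_lit 152) (nat_lit 100949760193) (nat_lit 76) (nat_lit 14190521477) (nat_lit 6) (nat_lit 5) (nat_lit 8) (nat_lit 5) (nat_lit 7) (nat_lit 4) (nat_lit 230) (nat_lit 212) (nat_lit 158))) (XT.nd (nat_lit 78) (nat_lit 76) (nat_lit 0) (XT.lf (nat_lit 0) (nat_lit 27265993573) (nat_lit 152) (nat_lit 50837472713) (nat_lit 76) (nat_lit 54733932621) (nat_lit 6) (nat_lit 5) (nat_lit 8) (nat_lit 5) (nat_lit 7) (nat_lit 4) (nat_lit 231) (nat_lit 212) (nat_lit 157)) (XT.nd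 (nat_lit 78) (nat_lit 0) (nat_lit 0) (XT.lf (nat_lit 0) (nat_lit 7140517864) (nat_lit 76) (nat_lit 48002605360) (nat_lit 152) (nat_lit 94387154203) (nat_lit 5) (nat_lit 5) (nat_lit 6) (nat_lit 5) (nat_lit 7) (nat_lit 4) (nat_lit 232) (nat_lit 212) (nat_lit 156)) (XT.lf (nat_lit 0) (nat_lit 76886138027) (nat_lit 76) (nat_lit 11791225282) (nat_lit 152) (nat_lit 79931696139) (nat_lit 5) (nat_lit 5) (nat_lit 6) (nat_lit 5) (nat_lit 7) (nat_lit 4) (nat_lit 233) (nat_lit 212) (nat_lit 155)))))) (XT.nd (nat_lit 390) (nat_lit 76) (nat_lit 0) (XT.nd (nat_lit 156) (nat_lit 76) (nat_lit 0) (XT.nd (nat_lit 78) (nat_lit 76) (nat_lit 0) (XT.lf (nat_lit 0) (nat_lit 127955667177) (nat_lit 152) (nat_lit 34180895960) (nat_lit 0) (nat_lit 28355994456) (nat_lit 5) (nat_lit 5) (nat_lit 7) (nat_lit 4) (nat_lit 5) (nat_lit 4) (nat_lit 234) (nat_lit 212) (nat_lit 154)) (XT.lf (nat_lit 0) (nat_lit 33327493002)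 (nat_lit 76) (nat_lit 140922379619) (nat_lit 76) (nat_lit 41318786704) (nat_lit 4) (nat_lit 4) (nat_lit 5) (nat_lit 5) (nat_lit 5) (nat_lit 4) (nat_lit 235) (nat_lit 212) (nat_lit 153))) (XT.nd (nat_lit 78) (nat_lit 76) (nat_lit 0) (XT.lf (nat_lit 0) (nat_lit 113026539073) (nat_lit 76) (nat_lit 115453645419) (nat_lit 76) (nat_lit 15846643639) (nat_lit 4) (nat_lit 4) (nat_lit 5) (nat_lit 5) (nat_lit 5) (nat_lit 4) (nat_lit 236) (nat_lit 212) (nat_lit 152)) (XT.nd (nat_lit 78) (nat_lit 0) (nat_lit 0) (XT.lf (nat_lit 0) (nat_lit 12770850186) (nat_lit 152) (nat_lit 73046597623) (nat_lit 76) (nat_lit 191555638144) (nat_lit 3) (nat_lit 5) (nat_lit 5) (nat_lit 5) (nat_lit 4) (nat_lit 4) (nat_lit 237) (nat_lit 212) (nat_lit 151)) (XT.lf (nat_lit 0) (nat_lit 44766885822) (nat_lit 152) (nat_lit 6497421091) (nat_lit 76) (nat_lit 264077117080) (nat_lit 3) (nat_lit 5) (nat_lit 5) (nat_lit 5) (nat_lit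 4) (nat_lit 4) (nat_lit 238) (nat_lit 212) (nat_lit 150))))) (XT.nd (nat_lit 156) (nat_lit 0) (nat_lit 0) (XT.nd (nat_lit 78) (nat_lit 0) (nat_lit 0) (XT.lf (nat_lit 0) (nat_lit 73718078658) (nat_lit 76) (nat_lit 9615028863) (nat_lit 152) (nat_lit 275530248766) (nat_lit 2) (nat_lit 5) (nat_lit 3) (nat_lit 5) (nat_lit 4) (nat_lit 4) (nat_lit 239) (nat_lit 212) (nat_lit 149)) (XT.lf (nat_lit 0) (nat_lit 128797036578) (nat_lit 152) (nat_lit 243468205242) (nat_lit 0) (nat_lit 36559319897) (nat_lit 2) (nat_lit 5) (nat_lit 4) (nat_lit 4) (nat_lit 2) (nat_lit 4) (nat_lit 240) (nat_lit 212) (nat_lit 148))) (XT.nd (nat_lit 78) (nat_lit 0) (nat_lit 0) (XT.lf (nat_lit 0) (nat_lit 181344761972) (nat_lit 152) (nat_lit 195808577951) (nat_lit 0) (nat_lit 89105476024) (nat_lit 2) (nat_lit 5) (nat_lit 4) (nat_lit 4) (nat_lit 2) (nat_lit 4) (nat_lit 241) (nat_lit 212) (nat_lit 147)) (XT.nd (nat_lit 78)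 (nat_lit 0) (nat_lit 0) (XT.lf (nat_lit 0) (nat_lit 241773149697) (nat_lit 152) (nat_lit 141002683111) (nat_lit 0) (nat_lit 149532499169) (nat_lit 2) (nat_lit 5) (nat_lit 4) (nat_lit 4) (nat_lit 2) (nat_lit 4) (nat_lit 242) (nat_lit 212) (nat_lit 146)) (XT.lf (nat_lit 0) (nat_lit 311264494295) (nat_lit 152) (nat_lit 77978231475) (nat_lit 0) (nat_lit 219022657176) (nat_lit 2) (nat_lit 5) (nat_lit 4) (nat_lit 4) (nat_lit 2) (nat_lit 4) (nat_lit 243) (nat_lit 212) (nat_lit 145))))))))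
noncomputable def xc42 : XT := (XT.nd (nat_lit 29172) (nat_lit 0) (nat_lit 304) (XT.nd (nat_lit 702) (nat_lit 0) (nat_lit 0) (XT.nd (nat_lit 312) (nat_lit 0) (nat_lit 0) (XT.nd (nat_lit 156) (nat_lit 0) (nat_lit 0) (XT.nd (nat_lit 78) (nat_lit 76) (nat_lit 0) (XT.lf (nat_lit 0) (nat_lit 391178409031) (nat_lit 152) (nat_lit 5502135947) (nat_lit 0) (nat_lit 298935540094) (nat_lit 2) (nat_lit 5) (nat_lit 4) (nat_lit 4) (nat_lit 2) (nat_lit 4) (nat_lit 244) (nat_lit 212) (nat_lit 144)) (XT.lf (nat_lit 0) (nat_lit 81942720803) (nat_lit 76) (nat_lit 403106430623) (nat_lit 76) (nat_lit 310862664452) (nat_lit 1) (nat_lit 4) (nat_lit 2) (nat_lit 5) (nat_lit 2) (nat_lit 4) (nat_lit 245) (nat_lit 212) (nat_lit 143))) (XT.nd (nat_lit 78) (nat_lit 0) (nat_lit 0) (XT.lf (nat_lit 0) (nat_lit 182835887796) (nat_lit 76) (nat_lit 410323911793) (nat_lit 76) (nat_lit 318079365419) (nat_lit 1) (nat_lit 4)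 (nat_lit 2) (nat_lit 5) (nat_lit 2) (nat_lit 4) (nat_lit 246) (nat_lit 212) (nat_lit 142)) (XT.lf (nat_lit 0) (nat_lit 298861629049) (nat_lit 76) (nat_lit 418624638224) (nat_lit 76) (nat_lit 326379413413) (nat_lit 1) (nat_lit 4) (nat_lit 2) (nat_lit 5) (nat_lit 2) (nat_lit 4) (nat_lit 247) (nat_lit 212) (nat_lit 141)))) (XT.nd (nat_lit 156) (nat_lit 0) (nat_lit 0) (XT.nd (nat_lit 78) (nat_lit 0) (nat_lit 0) (XT.lf (nat_lit 0) (nat_lit 432290013412) (nat_lit 76) (nat_lit 428171015435) (nat_lit 76) (nat_lit 335925200678) (nat_lit 1) (nat_lit 4) (nat_lit 2) (nat_lit 5) (nat_lit 2) (nat_lit 4) (nat_lit 248) (nat_lit 212) (nat_lit 140)) (XT.lf (nat_lit 0) (nat_lit 585731596232) (nat_lit 76) (nat_lit 439149820369) (nat_lit 76) (nat_lit 346903492616) (nat_lit 1) (nat_lit 4) (nat_lit 2) (nat_lit 5) (nat_lit 2) (nat_lit 4) (nat_lit 249) (nat_lit 212) (nat_lit 139))) (XT.nd (nat_lit 78) (nat_lit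 0) (nat_lit 0) (XT.lf (nat_lit 0) (nat_lit 762188495433) (nat_lit 76) (nat_lit 451775855733) (nat_lit 76) (nat_lit 359529081897) (nat_lit 1) (nat_lit 4) (nat_lit 2) (nat_lit 5) (nat_lit 2) (nat_lit 4) (nat_lit 250) (nat_lit 212) (nat_lit 138)) (XT.nd (nat_lit 78) (nat_lit 0) (nat_lit 0) (XT.lf (nat_lit 0) (nat_lit 965113128609) (nat_lit 76) (nat_lit 466296152654) (nat_lit 76) (nat_lit 374048990918) (nat_lit 1) (nat_lit 4) (nat_lit 2) (nat_lit 5) (nat_lit 2) (nat_lit 4) (nat_lit 251) (nat_lit 212) (nat_lit 137)) (XT.lf (nat_lit 0) (nat_lit 1198475760322) (nat_lit 76) (nat_lit 482994803896) (nat_lit 76) (nat_lit 390747304857) (nat_lit 1) (nat_lit 4) (nat_lit 2) (nat_lit 5) (nat_lit 2) (nat_lit 4) (nat_lit 252) (nat_lit 212) (nat_lit 136)))))) (XT.nd (nat_lit 312) (nat_lit 0) (nat_lit 0) (XT.nd (nat_lit 156) (nat_lit 0) (nat_lit 0) (XT.nd (nat_lit 78) (nat_lit 0) (nat_lit 0) (XT.lf (nat_lit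 0) (nat_lit 1466842181192) (nat_lit 76) (nat_lit 502198522202) (nat_lit 76) (nat_lit 409950729856) (nat_lit 1) (nat_lit 4) (nat_lit 2) (nat_lit 5) (nat_lit 2) (nat_lit 4) (nat_lit 253) (nat_lit 212) (nat_lit 135)) (XT.lf (nat_lit 0) (nat_lit 1775463038584) (nat_lit 76) (nat_lit 524283032494) (nat_lit 76) (nat_lit 432034985099) (nat_lit 1) (nat_lit 4) (nat_lit 2) (nat_lit 5) (nat_lit 2) (nat_lit 4) (nat_lit 254) (nat_lit 212) (nat_lit 134))) (XT.nd (nat_lit 78) (nat_lit 0) (nat_lit 0) (XT.lf (nat_lit 0) (nat_lit 2130376566664) (nat_lit 76) (nat_lit 549680423019) (nat_lit 76) (nat_lit 457432153841) (nat_lit 1) (nat_lit 4) (nat_lit 2) (nat_lit 5) (nat_lit 2) (nat_lit 4) (nat_lit 255) (nat_lit 212) (nat_lit 133)) (XT.lf (nat_lit 0) (nat_lit 2538526725764) (nat_lit 76) (nat_lit 578887599243) (nat_lit 76) (nat_lit 486639137210) (nat_lit 1) (nat_lit 4) (nat_lit 2) (nat_lit 5) (nat_lit 2) (nat_lit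 4) (nat_lit 256) (nat_lit 212) (nat_lit 132)))) (XT.nd (nat_lit 27924) (nat_lit 0) (nat_lit 2204) (XT.nd (nat_lit 27846) (nat_lit 0) (nat_lit 2128) (XT.lf (nat_lit 0) (nat_lit 3007899062476) (nat_lit 76) (nat_lit 612476005917) (nat_lit 76) (nat_lit 520227376185) (nat_lit 1) (nat_lit 4) (nat_lit 2) (nat_lit 5) (nat_lit 2) (nat_lit 4) (nat_lit 257) (nat_lit 212) (nat_lit 131)) (XT.lf (nat_lit 0) (nat_lit 1820156401) (nat_lit 532) (nat_lit 5439188338) (nat_lit 532) (nat_lit 5439188338) (nat_lit 29) (nat_lit 3) (nat_lit 36) (nat_lit 3) (nat_lit 36) (nat_lit 5) (nat_lit 213) (nat_lit 213) (nat_lit 174))) (XT.nd (nat_lit 78) (nat_lit 0) (nat_lit 0) (XT.lf (nat_lit 0) (nat_lit 4397524115) (nat_lit 456) (nat_lit 18508304122) (nat_lit 532) (nat_lit 4356140753) (nat_lit 30) (nat_lit 5) (nat_lit 36) (nat_lit 5) (nat_lit 37) (nat_lit 5) (nat_lit 214) (nat_lit 213) (nat_lit 173)) (XT.nd (nat_lit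 78) (nat_lit 0) (nat_lit 76) (XT.lf (nat_lit 76) (nat_lit 2293793389) (nat_lit 0) (nat_lit 3727508936) (nat_lit 532) (nat_lit 23325269465) (nat_lit 31) (nat_lit 5) (nat_lit 30) (nat_lit 5) (nat_lit 37) (nat_lit 5) (nat_lit 215) (nat_lit 213) (nat_lit 172)) (XT.lf (nat_lit 0) (nat_lit 8857105710) (nat_lit 456) (nat_lit 4838466368) (nat_lit 532) (nat_lit 17970993086) (nat_lit 31) (nat_lit 5) (nat_lit 37) (nat_lit 5) (nat_lit 38) (nat_lit 5) (nat_lit 216) (nat_lit 213) (nat_lit 171))))))) (XT.nd (nat_lit 702) (nat_lit 608) (nat_lit 0) (XT.nd (nat_lit 312) (nat_lit 760) (nat_lit 0) (XT.nd (nat_lit 156) (nat_lit 228) (nat_lit 0) (XT.nd (nat_lit 78) (nat_lit 456) (nat_lit 0) (XT.lf (nat_lit 0) (nat_lit 12935965243) (nat_lit 456) (nat_lit 12830131533) (nat_lit 76) (nat_lit 8503199683) (nat_lit 32) (nat_lit 5) (nat_lit 38) (nat_lit 5) (nat_lit 33) (nat_lit 5) (nat_lit 217) (nat_lit 213) (nat_lit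 170)) (XT.lf (nat_lit 0) (nat_lit 15053204651) (nat_lit 456) (nat_lit 3439464873) (nat_lit 532) (nat_lit 18700620367) (nat_lit 26) (nat_lit 5) (nat_lit 32) (nat_lit 5) (nat_lit 33) (nat_lit 5) (nat_lit 218) (nat_lit 213) (nat_lit 169))) (XT.nd (nat_lit 78) (nat_lit 0) (nat_lit 0) (XT.lf (nat_lit 0) (nat_lit 7166330448) (nat_lit 228) (nat_lit 18789749098) (nat_lit 304) (nat_lit 14514063054) (nat_lit 23) (nat_lit 5) (nat_lit 26) (nat_lit 5) (nat_lit 27) (nat_lit 5) (nat_lit 219) (nat_lit 213) (nat_lit 168)) (XT.lf (nat_lit 0) (nat_lit 35425299987) (nat_lit 304) (nat_lit 2252045991) (nat_lit 76) (nat_lit 6490374426) (nat_lit 23) (nat_lit 5) (nat_lit 27) (nat_lit 5) (nat_lit 24) (nat_lit 5) (nat_lit 220) (nat_lit 213) (nat_lit 167)))) (XT.nd (nat_lit 156) (nat_lit 304) (nat_lit 0) (XT.nd (nat_lit 78) (nat_lit 304) (nat_lit 0) (XT.lf (nat_lit 0) (nat_lit 34656251742) (nat_lit 152) (nat_lit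 12998475563) (nat_lit 228) (nat_lit 658109585) (nat_lit 21) (nat_lit 5) (nat_lit 23) (nat_lit 5) (nat_lit 24) (nat_lit 5) (nat_lit 221) (nat_lit 213) (nat_lit 166)) (XT.lf (nat_lit 0) (nat_lit 9260463764) (nat_lit 304) (nat_lit 28203905056) (nat_lit 76) (nat_lit 15514500372) (nat_lit 17) (nat_lit 5) (nat_lit 21) (nat_lit 5) (nat_lit 18) (nat_lit 5) (nat_lit 222) (nat_lit 213) (nat_lit 165))) (XT.nd (nat_lit 78) (nat_lit 152) (nat_lit 0) (XT.lf (nat_lit 0) (nat_lit 11666539007) (nat_lit 152) (nat_lit 9999346784) (nat_lit 228) (nat_lit 36594572192) (nat_lit 15) (nat_lit 5) (nat_lit 17) (nat_lit 5) (nat_lit 18) (nat_lit 5) (nat_lit 223) (nat_lit 213) (nat_lit 164)) (XT.nd (nat_lit 78) (nat_lit 152) (nat_lit 0) (XT.lf (nat_lit 0) (nat_lit 37283674345) (nat_lit 228) (nat_lit 5597409116) (nat_lit 76) (nat_lit 21345130897) (nat_lit 15) (nat_lit 5) (nat_lit 18) (nat_lit 5) (nat_lit 16) (nat_lit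 5) (nat_lit 224) (nat_lit 213) (nat_lit 163)) (XT.lf (nat_lit 0) (nat_lit 43432655072) (nat_lit 152) (nat_lit 13123866969) (nat_lit 228) (nat_lit 14425367422) (nat_lit 13) (nat_lit 5) (nat_lit 15) (nat_lit 5) (nat_lit 16) (nat_lit 5) (nat_lit 225) (nat_lit 213) (nat_lit 162)))))) (XT.nd (nat_lit 390) (nat_lit 228) (nat_lit 0) (XT.nd (nat_lit 156) (nat_lit 228) (nat_lit 0) (XT.nd (nat_lit 78) (nat_lit 0) (nat_lit 0) (XT.lf (nat_lit 0) (nat_lit 1197569962) (nat_lit 152) (nat_lit 56690242785) (nat_lit 76) (nat_lit 20765066896) (nat_lit 11) (nat_lit 5) (nat_lit 13) (nat_lit 5) (nat_lit 12) (nat_lit 5) (nat_lit 226) (nat_lit 213) (nat_lit 161)) (XT.lf (nat_lit 0) (nat_lit 19512595954) (nat_lit 152) (nat_lit 7634595391) (nat_lit 76) (nat_lit 60201161542) (nat_lit 11) (nat_lit 5) (nat_lit 13) (nat_lit 5) (nat_lit 12) (nat_lit 5) (nat_lit 227) (nat_lit 213) (nat_lit 160))) (XT.nd (nat_lit 78)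 (nat_lit 76) (nat_lit 0) (XT.lf (nat_lit 0) (nat_lit 42032459134) (nat_lit 228) (nat_lit 46141306307) (nat_lit 76) (nat_lit 9057803350) (nat_lit 9) (nat_lit 5) (nat_lit 12) (nat_lit 5) (nat_lit 10) (nat_lit 4) (nat_lit 228) (nat_lit 213) (nat_lit 159)) (XT.nd (nat_lit 78) (nat_lit 0) (nat_lit 0) (XT.lf (nat_lit 0) (nat_lit 10253819717) (nat_lit 76) (nat_lit 58896102391) (nat_lit 152) (nat_lit 39349799987) (nat_lit 8) (nat_lit 5) (nat_lit 9) (nat_lit 5) (nat_lit 10) (nat_lit 4) (nat_lit 229) (nat_lit 213) (nat_lit 158)) (XT.lf (nat_lit 0) (nat_lit 77893959676) (nat_lit 76) (nat_lit 23779105372) (nat_lit 152) (nat_lit 19678009931) (nat_lit 8) (nat_lit 5) (nat_lit 9) (nat_lit 5) (nat_lit 10) (nat_lit 4) (nat_lit 230) (nat_lit 213) (nat_lit 157))))) (XT.nd (nat_lit 156) (nat_lit 76) (nat_lit 0) (XT.nd (nat_lit 78) (nat_lit 0) (nat_lit 0) (XT.lf (nat_lit 0) (nat_lit 3699396736) (nat_lit 152)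 (nat_lit 116002449093) (nat_lit 76) (nat_lit 16350465192) (nat_lit 6) (nat_lit 5) (nat_lit 8) (nat_lit 5) (nat_lit 7) (nat_lit 4) (nat_lit 231) (nat_lit 213) (nat_lit 156)) (XT.lf (nat_lit 0) (nat_lit 31402771744) (nat_lit 152) (nat_lit 58385028290) (nat_lit 76) (nat_lit 62971296856) (nat_lit 6) (nat_lit 5) (nat_lit 8) (nat_lit 5) (nat_lit 7) (nat_lit 4) (nat_lit 232) (nat_lit 213) (nat_lit 155))) (XT.nd (nat_lit 78) (nat_lit 0) (nat_lit 0) (XT.lf (nat_lit 0) (nat_lit 8283053032) (nat_lit 76) (nat_lit 55174021694) (nat_lit 152) (nat_lit 108499205219) (nat_lit 5) (nat_lit 5) (nat_lit 6) (nat_lit 5) (nat_lit 7) (nat_lit 4) (nat_lit 233) (nat_lit 213) (nat_lit 154)) (XT.nd (nat_lit 78) (nat_lit 0) (nat_lit 0) (XT.lf (nat_lit 0) (nat_lit 88481195678) (nat_lit 76) (nat_lit 13534713883) (nat_lit 152) (nat_lit 91881431329) (nat_lit 5) (nat_lit 5) (nat_lit 6) (nat_lit 5) (nat_lit 7) (nat_lit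 4) (nat_lit 234) (nat_lit 213) (nat_lit 153)) (XT.lf (nat_lit 0) (nat_lit 147181667428) (nat_lit 152) (nat_lit 39251849070) (nat_lit 0) (nat_lit 32630206516) (nat_lit 5) (nat_lit 5) (nat_lit 7) (nat_lit 4) (nat_lit 5) (nat_lit 4) (nat_lit 235) (nat_lit 213) (nat_lit 152))))))))
noncomputable def xc43 : XT := (XT.nd (nat_lit 1404) (nat_lit 0) (nat_lit 0) (XT.nd (nat_lit 702) (nat_lit 76) (nat_lit 0) (XT.nd (nat_lit 312) (nat_lit 76) (nat_lit 0) (XT.nd (nat_lit 156) (nat_lit 76) (nat_lit 0) (XT.nd (nat_lit 78) (nat_lit 0) (nat_lit 0) (XT.lf (nat_lit 0) (nat_lit 38378042770) (nat_lit 76) (nat_lit 162038938992) (nat_lit 76) (nat_lit 47484513850) (nat_lit 4) (nat_lit 4) (nat_lit 5) (nat_lit 5) (nat_lit 5) (nat_lit 4) (nat_lit 236) (nat_lit 213) (nat_lit 151)) (XT.lf (nat_lit 0) (nat_lit 130025238036) (nat_lit 76) (nat_lit 132752737823) (nat_lit 76) (nat_lit 18195735089) (nat_lit 4) (nat_lit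 4) (nat_lit 5) (nat_lit 5) (nat_lit 5) (nat_lit 4) (nat_lit 237) (nat_lit 213) (nat_lit 150))) (XT.nd (nat_lit 78) (nat_lit 0) (nat_lit 0) (XT.lf (nat_lit 0) (nat_lit 14709529165) (nat_lit 152) (nat_lit 83963423453) (nat_lit 76) (nat_lit 220304187453) (nat_lit 3) (nat_lit 5) (nat_lit 5) (nat_lit 5) (nat_lit 4) (nat_lit 4) (nat_lit 238) (nat_lit 213) (nat_lit 149)) (XT.lf (nat_lit 0) (nat_lit 51501963436) (nat_lit 152) (nat_lit 7437109200) (nat_lit 76) (nat_lit 303701905153) (nat_lit 3) (nat_lit 5) (nat_lit 5) (nat_lit 5) (nat_lit 4) (nat_lit 4) (nat_lit 239) (nat_lit 213) (nat_lit 148)))) (XT.nd (nat_lit 156) (nat_lit 0) (nat_lit 0) (XT.nd (nat_lit 78) (nat_lit 0) (nat_lit 0) (XT.lf (nat_lit 0) (nat_lit 84807759279) (nat_lit 76) (nat_lit 11043513429) (nat_lit 152) (nat_lit 316840082206) (nat_lit 2) (nat_lit 5) (nat_lit 3) (nat_lit 5) (nat_lit 4) (nat_lit 4) (nat_lit 240) (nat_lit 213)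 (nat_lit 147)) (XT.lf (nat_lit 0) (nat_lit 148132705303) (nat_lit 152) (nat_lit 279959616485) (nat_lit 0) (nat_lit 42054592616) (nat_lit 2) (nat_lit 5) (nat_lit 4) (nat_lit 4) (nat_lit 2) (nat_lit 4) (nat_lit 241) (nat_lit 213) (nat_lit 146))) (XT.nd (nat_lit 78) (nat_lit 0) (nat_lit 0) (XT.lf (nat_lit 0) (nat_lit 208560487779) (nat_lit 152) (nat_lit 225154804171) (nat_lit 0) (nat_lit 102481188500) (nat_lit 2) (nat_lit 5) (nat_lit 4) (nat_lit 4) (nat_lit 2) (nat_lit 4) (nat_lit 242) (nat_lit 213) (nat_lit 145)) (XT.nd (nat_lit 78) (nat_lit 0) (nat_lit 0) (XT.lf (nat_lit 0) (nat_lit 278051306074) (nat_lit 152) (nat_lit 162131293862) (nat_lit 0) (nat_lit 171970974977) (nat_lit 2) (nat_lit 5) (nat_lit 4) (nat_lit 4) (nat_lit 2) (nat_lit 4) (nat_lit 243) (nat_lit 213) (nat_lit 144)) (XT.lf (nat_lit 0) (nat_lit 357964763155) (nat_lit 152) (nat_lit 89656016879) (nat_lit 0) (nat_lit 251883534825)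 (nat_lit 2) (nat_lit 5) (nat_lit 4) (nat_lit 4) (nat_lit 2) (nat_lit 4) (nat_lit 244) (nat_lit 213) (nat_lit 143)))))) (XT.nd (nat_lit 312) (nat_lit 0) (nat_lit 0) (XT.nd (nat_lit 156) (nat_lit 0) (nat_lit 0) (XT.nd (nat_lit 78) (nat_lit 76) (nat_lit 0) (XT.lf (nat_lit 0) (nat_lit 449864383182) (nat_lit 152) (nat_lit 6310978671) (nat_lit 0) (nat_lit 343782374649) (nat_lit 2) (nat_lit 5) (nat_lit 4) (nat_lit 4) (nat_lit 2) (nat_lit 4) (nat_lit 245) (nat_lit 213) (nat_lit 142)) (XT.lf (nat_lit 0) (nat_lit 94249211838) (nat_lit 76) (nat_lit 463565686172) (nat_lit 76) (nat_lit 357482999202) (nat_lit 1) (nat_lit 4) (nat_lit 2) (nat_lit 5) (nat_lit 2) (nat_lit 4) (nat_lit 246) (nat_lit 213) (nat_lit 141))) (XT.nd (nat_lit 78) (nat_lit 0) (nat_lit 0) (XT.lf (nat_lit 0) (nat_lit 210274386543) (nat_lit 76) (nat_lit 471866664610) (nat_lit 76) (nat_lit 365783387694) (nat_lit 1) (nat_lit 4) (nat_lit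 2) (nat_lit 5) (nat_lit 2) (nat_lit 4) (nat_lit 247) (nat_lit 213) (nat_lit 140)) (XT.lf (nat_lit 0) (nat_lit 343702278257) (nat_lit 76) (nat_lit 481413260957) (nat_lit 76) (nat_lit 375329471045) (nat_lit 1) (nat_lit 4) (nat_lit 2) (nat_lit 5) (nat_lit 2) (nat_lit 4) (nat_lit 248) (nat_lit 213) (nat_lit 139)))) (XT.nd (nat_lit 156) (nat_lit 0) (nat_lit 0) (XT.nd (nat_lit 78) (nat_lit 0) (nat_lit 0) (XT.lf (nat_lit 0) (nat_lit 497143432685) (nat_lit 76) (nat_lit 492392256445) (nat_lit 76) (nat_lit 386308020449) (nat_lit 1) (nat_lit 4) (nat_lit 2) (nat_lit 5) (nat_lit 2) (nat_lit 4) (nat_lit 249) (nat_lit 213) (nat_lit 138)) (XT.lf (nat_lit 0) (nat_lit 673599959373) (nat_lit 76) (nat_lit 505018457507) (nat_lit 76) (nat_lit 398933833612) (nat_lit 1) (nat_lit 4) (nat_lit 2) (nat_lit 5) (nat_lit 2) (nat_lit 4) (nat_lit 250) (nat_lit 213) (nat_lit 137))) (XT.nd (nat_lit 78) (nat_lit 0) (nat_lit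 0) (XT.lf (nat_lit 0) (nat_lit 876524268623) (nat_lit 76) (nat_lit 519538898513) (nat_lit 76) (nat_lit 413453937315) (nat_lit 1) (nat_lit 4) (nat_lit 2) (nat_lit 5) (nat_lit 2) (nat_lit 4) (nat_lit 251) (nat_lit 213) (nat_lit 136)) (XT.nd (nat_lit 78) (nat_lit 0) (nat_lit 0) (XT.lf (nat_lit 0) (nat_lit 1109886618661) (nat_lit 76) (nat_lit 536237675047) (nat_lit 76) (nat_lit 430152420542) (nat_lit 1) (nat_lit 4) (nat_lit 2) (nat_lit 5) (nat_lit 2) (nat_lit 4) (nat_lit 252) (nat_lit 213) (nat_lit 135)) (XT.lf (nat_lit 0) (nat_lit 1378252794597) (nat_lit 76) (nat_lit 555441502302) (nat_lit 76) (nat_lit 449355992747) (nat_lit 1) (nat_lit 4) (nat_lit 2) (nat_lit 5) (nat_lit 2) (nat_lit 4) (nat_lit 253) (nat_lit 213) (nat_lit 134))))))) (XT.nd (nat_lit 28626) (nat_lit 0) (nat_lit 608) (XT.nd (nat_lit 28236) (nat_lit 0) (nat_lit 1900) (XT.nd (nat_lit 156) (nat_lit 0) (nat_lit 0) (XT.nd (nat_lit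 78) (nat_lit 0) (nat_lit 0) (XT.lf (nat_lit 0) (nat_lit 1686873439002) (nat_lit 76) (nat_lit 577526107333) (nat_lit 76) (nat_lit 471440375996) (nat_lit 1) (nat_lit 4) (nat_lit 2) (nat_lit 5) (nat_lit 2) (nat_lit 4) (nat_lit 254) (nat_lit 213) (nat_lit 133)) (XT.lf (nat_lit 0) (nat_lit 2041786781877) (nat_lit 76) (nat_lit 602923580240) (nat_lit 76) (nat_lit 496837656048) (nat_lit 1) (nat_lit 4) (nat_lit 2) (nat_lit 5) (nat_lit 2) (nat_lit 4) (nat_lit 255) (nat_lit 213) (nat_lit 132))) (XT.nd (nat_lit 28002) (nat_lit 0) (nat_lit 2128) (XT.lf (nat_lit 0) (nat_lit 2449936779929) (nat_lit 76) (nat_lit 632130828099) (nat_lit 76) (nat_lit 526044736208) (nat_lit 1) (nat_lit 4) (nat_lit 2) (nat_lit 5) (nat_lit 2) (nat_lit 4) (nat_lit 256) (nat_lit 213) (nat_lit 131)) (XT.lf (nat_lit 0) (nat_lit 2247048746) (nat_lit 532) (nat_lit 6171429988) (nat_lit 532) (nat_lit 6171429988) (nat_lit 29) (nat_lit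 3) (nat_lit 36) (nat_lit 3) (nat_lit 36) (nat_lit 5) (nat_lit 214) (nat_lit 214) (nat_lit 172)))) (XT.nd (nat_lit 156) (nat_lit 304) (nat_lit 0) (XT.nd (nat_lit 78) (nat_lit 0) (nat_lit 0) (XT.lf (nat_lit 0) (nat_lit 5325591301) (nat_lit 456) (nat_lit 21104987033) (nat_lit 532) (nat_lit 4897306908) (nat_lit 30) (nat_lit 5) (nat_lit 36) (nat_lit 5) (nat_lit 37) (nat_lit 5) (nat_lit 215) (nat_lit 214) (nat_lit 171)) (XT.lf (nat_lit 76) (nat_lit 2802226016) (nat_lit 0) (nat_lit 4359649450) (nat_lit 532) (nat_lit 26566036208) (nat_lit 31) (nat_lit 5) (nat_lit 30) (nat_lit 5) (nat_lit 37) (nat_lit 5) (nat_lit 216) (nat_lit 214) (nat_lit 170))) (XT.nd (nat_lit 78) (nat_lit 380) (nat_lit 0) (XT.lf (nat_lit 0) (nat_lit 10390560087) (nat_lit 456) (nat_lit 5401831543) (nat_lit 532) (nat_lit 20606327521) (nat_lit 31) (nat_lit 5) (nat_lit 37) (nat_lit 5) (nat_lit 38) (nat_lit 5) (nat_lit 217) (nat_lit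 214) (nat_lit 169)) (XT.nd (nat_lit 78) (nat_lit 456) (nat_lit 0) (XT.lf (nat_lit 0) (nat_lit 15057303587) (nat_lit 456) (nat_lit 14589406584) (nat_lit 76) (nat_lit 9747253353) (nat_lit 32) (nat_lit 5) (nat_lit 38) (nat_lit 5) (nat_lit 33) (nat_lit 5) (nat_lit 218) (nat_lit 214) (nat_lit 168)) (XT.lf (nat_lit 0) (nat_lit 17462442888) (nat_lit 456) (nat_lit 3965107037) (nat_lit 532) (nat_lit 21330766427) (nat_lit 26) (nat_lit 5) (nat_lit 32) (nat_lit 5) (nat_lit 33) (nat_lit 5) (nat_lit 219) (nat_lit 214) (nat_lit 167)))))) (XT.nd (nat_lit 390) (nat_lit 456) (nat_lit 0) (XT.nd (nat_lit 156) (nat_lit 608) (nat_lit 0) (XT.nd (nat_lit 78) (nat_lit 0) (nat_lit 0) (XT.lf (nat_lit 0) (nat_lit 8392733174) (nat_lit 228) (nat_lit 21600180014) (nat_lit 304) (nat_lit 16535330434) (nat_lit 23) (nat_lit 5) (nat_lit 26) (nat_lit 5) (nat_lit 27) (nat_lit 5) (nat_lit 220) (nat_lit 214) (nat_lit 166))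 (XT.lf (nat_lit 0) (nat_lit 40863977478) (nat_lit 304) (nat_lit 2447522133) (nat_lit 76) (nat_lit 7470565097) (nat_lit 23) (nat_lit 5) (nat_lit 27) (nat_lit 5) (nat_lit 24) (nat_lit 5) (nat_lit 221) (nat_lit 214) (nat_lit 165))) (XT.nd (nat_lit 78) (nat_lit 456) (nat_lit 0) (XT.lf (nat_lit 0) (nat_lit 39984972670) (nat_lit 152) (nat_lit 14929690516) (nat_lit 228) (nat_lit 635445306) (nat_lit 21) (nat_lit 5) (nat_lit 23) (nat_lit 5) (nat_lit 24) (nat_lit 5) (nat_lit 222) (nat_lit 214) (nat_lit 164)) (XT.nd (nat_lit 78) (nat_lit 152) (nat_lit 0) (XT.lf (nat_lit 0) (nat_lit 10753350522) (nat_lit 304) (nat_lit 32300764052) (nat_lit 76) (nat_lit 17862703302) (nat_lit 17) (nat_lit 5) (nat_lit 21) (nat_lit 5) (nat_lit 18) (nat_lit 5) (nat_lit 223) (nat_lit 214) (nat_lit 163)) (XT.lf (nat_lit 0) (nat_lit 13538927316) (nat_lit 152) (nat_lit 11470061067) (nat_lit 228) (nat_lit 41982579572) (nat_lit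 15) (nat_lit 5) (nat_lit 17) (nat_lit 5) (nat_lit 18) (nat_lit 5) (nat_lit 224) (nat_lit 214) (nat_lit 162))))) (XT.nd (nat_lit 156) (nat_lit 304) (nat_lit 0) (XT.nd (nat_lit 78) (nat_lit 152) (nat_lit 0) (XT.lf (nat_lit 0) (nat_lit 42957896530) (nat_lit 228) (nat_lit 6324268990) (nat_lit 76) (nat_lit 24571011528) (nat_lit 15) (nat_lit 5) (nat_lit 18) (nat_lit 5) (nat_lit 16) (nat_lit 5) (nat_lit 225) (nat_lit 214) (nat_lit 161)) (XT.lf (nat_lit 0) (nat_lit 50050760974) (nat_lit 152) (nat_lit 15062739810) (nat_lit 228) (nat_lit 16509413125) (nat_lit 13) (nat_lit 5) (nat_lit 15) (nat_lit 5) (nat_lit 16) (nat_lit 5) (nat_lit 226) (nat_lit 214) (nat_lit 160))) (XT.nd (nat_lit 78) (nat_lit 152) (nat_lit 0) (XT.lf (nat_lit 0) (nat_lit 1446185691) (nat_lit 152) (nat_lit 65090294894) (nat_lit 76) (nat_lit 23908507482) (nat_lit 11) (nat_lit 5) (nat_lit 13) (nat_lit 5) (nat_lit 12) (nat_lit 5)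 (nat_lit 227) (nat_lit 214) (nat_lit 159)) (XT.nd (nat_lit 78) (nat_lit 152) (nat_lit 0) (XT.lf (nat_lit 0) (nat_lit 22499468160) (nat_lit 152) (nat_lit 8689798344) (nat_lit 76) (nat_lit 69256275384) (nat_lit 11) (nat_lit 5) (nat_lit 13) (nat_lit 5) (nat_lit 12) (nat_lit 5) (nat_lit 228) (nat_lit 214) (nat_lit 158)) (XT.lf (nat_lit 0) (nat_lit 48392146880) (nat_lit 228) (nat_lit 52976249816) (nat_lit 76) (nat_lit 10443291202) (nat_lit 9) (nat_lit 5) (nat_lit 12) (nat_lit 5) (nat_lit 10) (nat_lit 4) (nat_lit 229) (nat_lit 214) (nat_lit 157))))))))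
noncomputable def xc44 : XT := (XT.nd (nat_lit 1404) (nat_lit 0) (nat_lit 0) (XT.nd (nat_lit 702) (nat_lit 228) (nat_lit 0) (XT.nd (nat_lit 312) (nat_lit 152) (nat_lit 0) (XT.nd (nat_lit 156) (nat_lit 152) (nat_lit 0) (XT.nd (nat_lit 78) (nat_lit 0) (nat_lit 0) (XT.lf (nat_lit 0) (nat_lit 11870844273) (nat_lit 76) (nat_lit 67701133526) (nat_lit 152) (nat_lit 45198536609) (nat_lit 8) (nat_lit 5) (nat_lit 9) (nat_lit 5) (nat_lit 10) (nat_lit 4) (nat_lit 230) (nat_lit 214) (nat_lit 156)) (XT.lf (nat_lit 0) (nat_lit 89646707191) (nat_lit 76) (nat_lit 27320419680) (nat_lit 152) (nat_lit 22582986745) (nat_lit 8) (nat_lit 5) (nat_lit 9) (nat_lit 5) (nat_lit 10) (nat_lit 4) (nat_lit 231) (nat_lit 214) (nat_lit 155))) (XT.nd (nat_lit 78) (nat_lit 0) (nat_lit 0) (XT.lf (nat_lit 0) (nat_lit 4295070711) (nat_lit 152) (nat_lit 133334933562) (nat_lit 76) (nat_lit 18826751790) (nat_lit 6) (nat_lit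 5) (nat_lit 8) (nat_lit 5) (nat_lit 7) (nat_lit 4) (nat_lit 232) (nat_lit 214) (nat_lit 154)) (XT.lf (nat_lit 0) (nat_lit 36148634866) (nat_lit 152) (nat_lit 67083753929) (nat_lit 76) (nat_lit 72437614705) (nat_lit 6) (nat_lit 5) (nat_lit 8) (nat_lit 5) (nat_lit 7) (nat_lit 4) (nat_lit 233) (nat_lit 214) (nat_lit 153)))) (XT.nd (nat_lit 156) (nat_lit 76) (nat_lit 0) (XT.nd (nat_lit 78) (nat_lit 0) (nat_lit 0) (XT.lf (nat_lit 0) (nat_lit 9579543115) (nat_lit 76) (nat_lit 63428216087) (nat_lit 152) (nat_lit 124739286671) (nat_lit 5) (nat_lit 5) (nat_lit 6) (nat_lit 5) (nat_lit 7) (nat_lit 4) (nat_lit 234) (nat_lit 214) (nat_lit 152)) (XT.lf (nat_lit 0) (nat_lit 101800359488) (nat_lit 76) (nat_lit 15545869782) (nat_lit 152) (nat_lit 105633385740) (nat_lit 5) (nat_lit 5) (nat_lit 6) (nat_lit 5) (nat_lit 7) (nat_lit 4) (nat_lit 235) (nat_lit 214) (nat_lit 151))) (XT.nd (nat_lit 78) (nat_lit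 76) (nat_lit 0) (XT.lf (nat_lit 0) (nat_lit 169283605765) (nat_lit 152) (nat_lit 45097145309) (nat_lit 0) (nat_lit 37540475030) (nat_lit 5) (nat_lit 5) (nat_lit 7) (nat_lit 4) (nat_lit 5) (nat_lit 4) (nat_lit 236) (nat_lit 214) (nat_lit 150)) (XT.nd (nat_lit 78) (nat_lit 0) (nat_lit 0) (XT.lf (nat_lit 0) (nat_lit 44173634492) (nat_lit 76) (nat_lit 186328297747) (nat_lit 76) (nat_lit 54582925628) (nat_lit 4) (nat_lit 4) (nat_lit 5) (nat_lit 5) (nat_lit 5) (nat_lit 4) (nat_lit 237) (nat_lit 214) (nat_lit 149)) (XT.lf (nat_lit 0) (nat_lit 149562837051) (nat_lit 76) (nat_lit 152651316241) (nat_lit 76) (nat_lit 20903995092) (nat_lit 4) (nat_lit 4) (nat_lit 5) (nat_lit 5) (nat_lit 5) (nat_lit 4) (nat_lit 238) (nat_lit 214) (nat_lit 148)))))) (XT.nd (nat_lit 312) (nat_lit 76) (nat_lit 0) (XT.nd (nat_lit 156) (nat_lit 76) (nat_lit 0) (XT.nd (nat_lit 78) (nat_lit 0) (nat_lit 0) (XT.lf (nat_lit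 0) (nat_lit 16933388749) (nat_lit 152) (nat_lit 96527567358) (nat_lit 76) (nat_lit 253361311667) (nat_lit 3) (nat_lit 5) (nat_lit 5) (nat_lit 5) (nat_lit 4) (nat_lit 4) (nat_lit 239) (nat_lit 214) (nat_lit 147)) (XT.lf (nat_lit 0) (nat_lit 59242414654) (nat_lit 152) (nat_lit 8526267221) (nat_lit 76) (nat_lit 349267187531) (nat_lit 3) (nat_lit 5) (nat_lit 5) (nat_lit 5) (nat_lit 4) (nat_lit 4) (nat_lit 240) (nat_lit 214) (nat_lit 146))) (XT.nd (nat_lit 78) (nat_lit 0) (nat_lit 0) (XT.lf (nat_lit 0) (nat_lit 97553096194) (nat_lit 76) (nat_lit 12689628524) (nat_lit 152) (nat_lit 364351195576) (nat_lit 2) (nat_lit 5) (nat_lit 3) (nat_lit 5) (nat_lit 4) (nat_lit 4) (nat_lit 241) (nat_lit 214) (nat_lit 145)) (XT.lf (nat_lit 0) (nat_lit 170364795020) (nat_lit 152) (nat_lit 321931767242) (nat_lit 0) (nat_lit 48371382441) (nat_lit 2) (nat_lit 5) (nat_lit 4) (nat_lit 4) (nat_lit 2) (nat_lit 4)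 (nat_lit 242) (nat_lit 214) (nat_lit 144)))) (XT.nd (nat_lit 156) (nat_lit 76) (nat_lit 0) (XT.nd (nat_lit 78) (nat_lit 0) (nat_lit 0) (XT.lf (nat_lit 0) (nat_lit 239855155661) (nat_lit 152) (nat_lit 258909075479) (nat_lit 0) (nat_lit 117860845848) (nat_lit 2) (nat_lit 5) (nat_lit 4) (nat_lit 4) (nat_lit 2) (nat_lit 4) (nat_lit 243) (nat_lit 214) (nat_lit 143)) (XT.lf (nat_lit 0) (nat_lit 319768214781) (nat_lit 152) (nat_lit 186434510274) (nat_lit 0) (nat_lit 197773124765) (nat_lit 2) (nat_lit 5) (nat_lit 4) (nat_lit 4) (nat_lit 2) (nat_lit 4) (nat_lit 244) (nat_lit 214) (nat_lit 142))) (XT.nd (nat_lit 78) (nat_lit 76) (nat_lit 0) (XT.lf (nat_lit 0) (nat_lit 411667488755) (nat_lit 152) (nat_lit 103090091004) (nat_lit 0) (nat_lit 289671720301) (nat_lit 2) (nat_lit 5) (nat_lit 4) (nat_lit 4) (nat_lit 2) (nat_lit 4) (nat_lit 245) (nat_lit 214) (nat_lit 141)) (XT.nd (nat_lit 78) (nat_lit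 76) (nat_lit 0) (XT.lf (nat_lit 0) (nat_lit 517351006857) (nat_lit 152) (nat_lit 7245165988) (nat_lit 0) (nat_lit 395354648458) (nat_lit 2) (nat_lit 5) (nat_lit 4) (nat_lit 4) (nat_lit 2) (nat_lit 4) (nat_lit 246) (nat_lit 214) (nat_lit 140)) (XT.lf (nat_lit 0) (nat_lit 108397998465) (nat_lit 76) (nat_lit 533095466097) (nat_lit 76) (nat_lit 411098594702) (nat_lit 1) (nat_lit 4) (nat_lit 2) (nat_lit 5) (nat_lit 2) (nat_lit 4) (nat_lit 247) (nat_lit 214) (nat_lit 139))))))) (XT.nd (nat_lit 28704) (nat_lit 0) (nat_lit 1520) (XT.nd (nat_lit 312) (nat_lit 0) (nat_lit 0) (XT.nd (nat_lit 156) (nat_lit 0) (nat_lit 0) (XT.nd (nat_lit 78) (nat_lit 0) (nat_lit 0) (XT.lf (nat_lit 0) (nat_lit 241825461787) (nat_lit 76) (nat_lit 542642252997) (nat_lit 76) (nat_lit 420644935518) (nat_lit 1) (nat_lit 4) (nat_lit 2) (nat_lit 5) (nat_lit 2) (nat_lit 4) (nat_lit 248) (nat_lit 214) (nat_lit 138)) (XT.lf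 (nat_lit 0) (nat_lit 395266243701) (nat_lit 76) (nat_lit 553621414183) (nat_lit 76) (nat_lit 431623708805) (nat_lit 1) (nat_lit 4) (nat_lit 2) (nat_lit 5) (nat_lit 2) (nat_lit 4) (nat_lit 249) (nat_lit 214) (nat_lit 137))) (XT.nd (nat_lit 78) (nat_lit 0) (nat_lit 0) (XT.lf (nat_lit 0) (nat_lit 571722446463) (nat_lit 76) (nat_lit 566247759331) (nat_lit 76) (nat_lit 444249716650) (nat_lit 1) (nat_lit 4) (nat_lit 2) (nat_lit 5) (nat_lit 2) (nat_lit 4) (nat_lit 250) (nat_lit 214) (nat_lit 136)) (XT.lf (nat_lit 0) (nat_lit 774646474039) (nat_lit 76) (nat_lit 580768325628) (nat_lit 76) (nat_lit 458769989640) (nat_lit 1) (nat_lit 4) (nat_lit 2) (nat_lit 5) (nat_lit 2) (nat_lit 4) (nat_lit 251) (nat_lit 214) (nat_lit 135)))) (XT.nd (nat_lit 156) (nat_lit 0) (nat_lit 0) (XT.nd (nat_lit 78) (nat_lit 0) (nat_lit 0) (XT.lf (nat_lit 0) (nat_lit 1008008579143) (nat_lit 76) (nat_lit 597467211112) (nat_lit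 76) (nat_lit 475468620074) (nat_lit 1) (nat_lit 4) (nat_lit 2) (nat_lit 5) (nat_lit 2) (nat_lit 4) (nat_lit 252) (nat_lit 214) (nat_lit 134)) (XT.lf (nat_lit 0) (nat_lit 1276374542092) (nat_lit 76) (nat_lit 616671133106) (nat_lit 76) (nat_lit 494672320285) (nat_lit 1) (nat_lit 4) (nat_lit 2) (nat_lit 5) (nat_lit 2) (nat_lit 4) (nat_lit 253) (nat_lit 214) (nat_lit 133))) (XT.nd (nat_lit 78) (nat_lit 0) (nat_lit 0) (XT.lf (nat_lit 0) (nat_lit 1584995001292) (nat_lit 76) (nat_lit 638755820518) (nat_lit 76) (nat_lit 516756814844) (nat_lit 1) (nat_lit 4) (nat_lit 2) (nat_lit 5) (nat_lit 2) (nat_lit 4) (nat_lit 254) (nat_lit 214) (nat_lit 132)) (XT.nd (nat_lit 78) (nat_lit 0) (nat_lit 0) (XT.lf (nat_lit 0) (nat_lit 1939908183119) (nat_lit 76) (nat_lit 664153365061) (nat_lit 76) (nat_lit 542154191687) (nat_lit 1) (nat_lit 4) (nat_lit 2) (nat_lit 5) (nat_lit 2) (nat_lit 4) (nat_lit 255) (nat_lit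 214) (nat_lit 131)) (XT.lf (nat_lit 0) (nat_lit 2348058041129) (nat_lit 76) (nat_lit 693360675212) (nat_lit 76) (nat_lit 571361356013) (nat_lit 1) (nat_lit 4) (nat_lit 2) (nat_lit 5) (nat_lit 2) (nat_lit 4) (nat_lit 256) (nat_lit 214) (nat_lit 130)))))) (XT.nd (nat_lit 312) (nat_lit 608) (nat_lit 0) (XT.nd (nat_lit 156) (nat_lit 0) (nat_lit 76) (XT.nd (nat_lit 78) (nat_lit 0) (nat_lit 76) (XT.lf (nat_lit 0) (nat_lit 2700453042) (nat_lit 532) (nat_lit 7033903199) (nat_lit 532) (nat_lit 7033903199) (nat_lit 29) (nat_lit 3) (nat_lit 36) (nat_lit 3) (nat_lit 36) (nat_lit 5) (nat_lit 215) (nat_lit 215) (nat_lit 170)) (XT.lf (nat_lit 0) (nat_lit 6327408120) (nat_lit 456) (nat_lit 24134959885) (nat_lit 532) (nat_lit 5547022067) (nat_lit 30) (nat_lit 5) (nat_lit 36) (nat_lit 5) (nat_lit 37) (nat_lit 5) (nat_lit 216) (nat_lit 215) (nat_lit 169))) (XT.nd (nat_lit 78) (nat_lit 0) (nat_lit 76) (XT.lf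 (nat_lit 76) (nat_lit 3346842427) (nat_lit 0) (nat_lit 5068806072) (nat_lit 532) (nat_lit 30355838669) (nat_lit 31) (nat_lit 5) (nat_lit 30) (nat_lit 5) (nat_lit 37) (nat_lit 5) (nat_lit 217) (nat_lit 215) (nat_lit 168)) (XT.lf (nat_lit 0) (nat_lit 12104069257) (nat_lit 456) (nat_lit 6089304928) (nat_lit 532) (nat_lit 23651670200) (nat_lit 31) (nat_lit 5) (nat_lit 37) (nat_lit 5) (nat_lit 38) (nat_lit 5) (nat_lit 218) (nat_lit 215) (nat_lit 167)))) (XT.nd (nat_lit 156) (nat_lit 380) (nat_lit 0) (XT.nd (nat_lit 78) (nat_lit 456) (nat_lit 0) (XT.lf (nat_lit 0) (nat_lit 17452718451) (nat_lit 456) (nat_lit 16652868855) (nat_lit 76) (nat_lit 11185578570) (nat_lit 32) (nat_lit 5) (nat_lit 38) (nat_lit 5) (nat_lit 33) (nat_lit 5) (nat_lit 219) (nat_lit 215) (nat_lit 166)) (XT.lf (nat_lit 0) (nat_lit 20196181751) (nat_lit 456) (nat_lit 4567224648) (nat_lit 532) (nat_lit 24398096329) (nat_lit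 26) (nat_lit 5) (nat_lit 32) (nat_lit 5) (nat_lit 33) (nat_lit 5) (nat_lit 220) (nat_lit 215) (nat_lit 165))) (XT.nd (nat_lit 78) (nat_lit 152) (nat_lit 0) (XT.lf (nat_lit 0) (nat_lit 9766163497) (nat_lit 228) (nat_lit 24834134088) (nat_lit 304) (nat_lit 18897790999) (nat_lit 23) (nat_lit 5) (nat_lit 26) (nat_lit 5) (nat_lit 27) (nat_lit 5) (nat_lit 221) (nat_lit 215) (nat_lit 164)) (XT.nd (nat_lit 78) (nat_lit 152) (nat_lit 0) (XT.lf (nat_lit 0) (nat_lit 47088003206) (nat_lit 304) (nat_lit 2707027954) (nat_lit 76) (nat_lit 8596166502) (nat_lit 23) (nat_lit 5) (nat_lit 27) (nat_lit 5) (nat_lit 24) (nat_lit 5) (nat_lit 222) (nat_lit 215) (nat_lit 163)) (XT.lf (nat_lit 0) (nat_lit 46081231362) (nat_lit 152) (nat_lit 17155112804) (nat_lit 228) (nat_lit 638980842) (nat_lit 21) (nat_lit 5) (nat_lit 23) (nat_lit 5) (nat_lit 24) (nat_lit 5) (nat_lit 223) (nat_lit 215) (nat_lit 162))))))))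
noncomputable def xc45 : XT := (XT.nd (nat_lit 1404) (nat_lit 152) (nat_lit 0) (XT.nd (nat_lit 702) (nat_lit 380) (nat_lit 0) (XT.nd (nat_lit 312) (nat_lit 380) (nat_lit 0) (XT.nd (nat_lit 156) (nat_lit 152) (nat_lit 0) (XT.nd (nat_lit 78) (nat_lit 152) (nat_lit 0) (XT.lf (nat_lit 0) (nat_lit 12444853814) (nat_lit 304) (nat_lit 37044762015) (nat_lit 76) (nat_lit 20558008891) (nat_lit 17) (nat_lit 5) (nat_lit 21) (nat_lit 5) (nat_lit 18) (nat_lit 5) (nat_lit 224) (nat_lit 215) (nat_lit 161)) (XT.lf (nat_lit 0) (nat_lit 15662324038) (nat_lit 152) (nat_lit 13168500106) (nat_lit 228) (nat_lit 48203461065) (nat_lit 15) (nat_lit 5) (nat_lit 17) (nat_lit 5) (nat_lit 18) (nat_lit 5) (nat_lit 225) (nat_lit 215) (nat_lit 160))) (XT.nd (nat_lit 78) (nat_lit 152) (nat_lit 0) (XT.lf (nat_lit 0) (nat_lit 49463336045) (nat_lit 228) (nat_lit 7187653011) (nat_lit 76) (nat_lit 28274894635) (nat_lit 15)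 (nat_lit 5) (nat_lit 18) (nat_lit 5) (nat_lit 16) (nat_lit 5) (nat_lit 226) (nat_lit 215) (nat_lit 159)) (XT.lf (nat_lit 0) (nat_lit 57636414925) (nat_lit 152) (nat_lit 17299687867) (nat_lit 228) (nat_lit 18925515520) (nat_lit 13) (nat_lit 5) (nat_lit 15) (nat_lit 5) (nat_lit 16) (nat_lit 5) (nat_lit 227) (nat_lit 215) (nat_lit 158)))) (XT.nd (nat_lit 156) (nat_lit 228) (nat_lit 0) (XT.nd (nat_lit 78) (nat_lit 0) (nat_lit 0) (XT.lf (nat_lit 0) (nat_lit 1715272512) (nat_lit 152) (nat_lit 74775590123) (nat_lit 76) (nat_lit 27516470222) (nat_lit 11) (nat_lit 5) (nat_lit 13) (nat_lit 5) (nat_lit 12) (nat_lit 5) (nat_lit 228) (nat_lit 215) (nat_lit 157)) (XT.lf (nat_lit 0) (nat_lit 25919744008) (nat_lit 152) (nat_lit 9925225482) (nat_lit 76) (nat_lit 79663574620) (nat_lit 11) (nat_lit 5) (nat_lit 13) (nat_lit 5) (nat_lit 12) (nat_lit 5) (nat_lit 229) (nat_lit 215) (nat_lit 156))) (XT.nd (nat_lit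 78) (nat_lit 76) (nat_lit 0) (XT.lf (nat_lit 0) (nat_lit 55692419857) (nat_lit 228) (nat_lit 60857468053) (nat_lit 76) (nat_lit 12030062652) (nat_lit 9) (nat_lit 5) (nat_lit 12) (nat_lit 5) (nat_lit 10) (nat_lit 4) (nat_lit 230) (nat_lit 215) (nat_lit 155)) (XT.nd (nat_lit 78) (nat_lit 0) (nat_lit 0) (XT.lf (nat_lit 0) (nat_lit 13711169665) (nat_lit 76) (nat_lit 77834084861) (nat_lit 152) (nat_lit 51937686949) (nat_lit 8) (nat_lit 5) (nat_lit 9) (nat_lit 5) (nat_lit 10) (nat_lit 4) (nat_lit 231) (nat_lit 215) (nat_lit 154)) (XT.lf (nat_lit 0) (nat_lit 103145625228) (nat_lit 76) (nat_lit 31399162028) (nat_lit 152) (nat_lit 25935104190) (nat_lit 8) (nat_lit 5) (nat_lit 9) (nat_lit 5) (nat_lit 10) (nat_lit 4) (nat_lit 232) (nat_lit 215) (nat_lit 153)))))) (XT.nd (nat_lit 312) (nat_lit 152) (nat_lit 0) (XT.nd (nat_lit 156) (nat_lit 76) (nat_lit 0) (XT.nd (nat_lit 78) (nat_lit 0) (nat_lit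 0) (XT.lf (nat_lit 0) (nat_lit 4970155110) (nat_lit 152) (nat_lit 153283844374) (nat_lit 76) (nat_lit 21668697881) (nat_lit 6) (nat_lit 5) (nat_lit 8) (nat_lit 5) (nat_lit 7) (nat_lit 4) (nat_lit 233) (nat_lit 215) (nat_lit 152)) (XT.lf (nat_lit 0) (nat_lit 41597733394) (nat_lit 152) (nat_lit 77101682913) (nat_lit 76) (nat_lit 83318851104) (nat_lit 6) (nat_lit 5) (nat_lit 8) (nat_lit 5) (nat_lit 7) (nat_lit 4) (nat_lit 234) (nat_lit 215) (nat_lit 151))) (XT.nd (nat_lit 78) (nat_lit 0) (nat_lit 0) (XT.lf (nat_lit 0) (nat_lit 11057330633) (nat_lit 76) (nat_lit 72925882253) (nat_lit 152) (nat_lit 143423866378) (nat_lit 5) (nat_lit 5) (nat_lit 6) (nat_lit 5) (nat_lit 7) (nat_lit 4) (nat_lit 235) (nat_lit 215) (nat_lit 150)) (XT.lf (nat_lit 0) (nat_lit 117105940412) (nat_lit 76) (nat_lit 17863344818) (nat_lit 152) (nat_lit 121455512477) (nat_lit 5) (nat_lit 5) (nat_lit 6) (nat_lit 5) (nat_lit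 7) (nat_lit 4) (nat_lit 236) (nat_lit 215) (nat_lit 149)))) (XT.nd (nat_lit 156) (nat_lit 76) (nat_lit 0) (XT.nd (nat_lit 78) (nat_lit 76) (nat_lit 0) (XT.lf (nat_lit 0) (nat_lit 194694814474) (nat_lit 152) (nat_lit 51829595274) (nat_lit 0) (nat_lit 43183446123) (nat_lit 5) (nat_lit 5) (nat_lit 7) (nat_lit 4) (nat_lit 5) (nat_lit 4) (nat_lit 237) (nat_lit 215) (nat_lit 148)) (XT.lf (nat_lit 0) (nat_lit 50829082544) (nat_lit 76) (nat_lit 214265079578) (nat_lit 76) (nat_lit 62752016419) (nat_lit 4) (nat_lit 4) (nat_lit 5) (nat_lit 5) (nat_lit 5) (nat_lit 4) (nat_lit 238) (nat_lit 215) (nat_lit 147))) (XT.nd (nat_lit 78) (nat_lit 76) (nat_lit 0) (XT.lf (nat_lit 0) (nat_lit 172022830330) (nat_lit 76) (nat_lit 175538176433) (nat_lit 76) (nat_lit 24023639527) (nat_lit 4) (nat_lit 4) (nat_lit 5) (nat_lit 5) (nat_lit 5) (nat_lit 4) (nat_lit 239) (nat_lit 215) (nat_lit 146)) (XT.nd (nat_lit 78)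 (nat_lit 0) (nat_lit 0) (XT.lf (nat_lit 0) (nat_lit 19486576803) (nat_lit 152) (nat_lit 110983738671) (nat_lit 76) (nat_lit 291374201118) (nat_lit 3) (nat_lit 5) (nat_lit 5) (nat_lit 5) (nat_lit 4) (nat_lit 4) (nat_lit 240) (nat_lit 215) (nat_lit 145)) (XT.lf (nat_lit 0) (nat_lit 68140237498) (nat_lit 152) (nat_lit 9785238790) (nat_lit 76) (nat_lit 401664824531) (nat_lit 3) (nat_lit 5) (nat_lit 5) (nat_lit 5) (nat_lit 4) (nat_lit 4) (nat_lit 241) (nat_lit 215) (nat_lit 144))))))) (XT.nd (nat_lit 702) (nat_lit 0) (nat_lit 0) (XT.nd (nat_lit 312) (nat_lit 76) (nat_lit 0) (XT.nd (nat_lit 156) (nat_lit 0) (nat_lit 0) (XT.nd (nat_lit 78) (nat_lit 0) (nat_lit 0) (XT.lf (nat_lit 0) (nat_lit 112204338902) (nat_lit 76) (nat_lit 14585199897) (nat_lit 152) (nat_lit 418992609158) (nat_lit 2) (nat_lit 5) (nat_lit 3) (nat_lit 5) (nat_lit 4) (nat_lit 4) (nat_lit 242) (nat_lit 215) (nat_lit 143)) (XT.lf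 (nat_lit 0) (nat_lit 195928727069) (nat_lit 152) (nat_lit 370205054661) (nat_lit 0) (nat_lit 55633593348) (nat_lit 2) (nat_lit 5) (nat_lit 4) (nat_lit 4) (nat_lit 2) (nat_lit 4) (nat_lit 243) (nat_lit 215) (nat_lit 142))) (XT.nd (nat_lit 78) (nat_lit 0) (nat_lit 0) (XT.lf (nat_lit 0) (nat_lit 275841440137) (nat_lit 152) (nat_lit 297731108394) (nat_lit 0) (nat_lit 135545627978) (nat_lit 2) (nat_lit 5) (nat_lit 4) (nat_lit 4) (nat_lit 2) (nat_lit 4) (nat_lit 244) (nat_lit 215) (nat_lit 141)) (XT.lf (nat_lit 0) (nat_lit 367740413195) (nat_lit 152) (nat_lit 214387227331) (nat_lit 0) (nat_lit 227444011091) (nat_lit 2) (nat_lit 5) (nat_lit 4) (nat_lit 4) (nat_lit 2) (nat_lit 4) (nat_lit 245) (nat_lit 215) (nat_lit 140)))) (XT.nd (nat_lit 156) (nat_lit 76) (nat_lit 0) (XT.nd (nat_lit 78) (nat_lit 0) (nat_lit 0) (XT.lf (nat_lit 0) (nat_lit 473423669631) (nat_lit 152) (nat_lit 118542770321) (nat_lit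 0) (nat_lit 333126754530) (nat_lit 2) (nat_lit 5) (nat_lit 4) (nat_lit 4) (nat_lit 2) (nat_lit 4) (nat_lit 246) (nat_lit 215) (nat_lit 139)) (XT.lf (nat_lit 0) (nat_lit 594958925331) (nat_lit 152) (nat_lit 8322519726) (nat_lit 0) (nat_lit 454661564147) (nat_lit 2) (nat_lit 5) (nat_lit 4) (nat_lit 4) (nat_lit 2) (nat_lit 4) (nat_lit 247) (nat_lit 215) (nat_lit 138))) (XT.nd (nat_lit 78) (nat_lit 0) (nat_lit 0) (XT.lf (nat_lit 0) (nat_lit 124666321940) (nat_lit 76) (nat_lit 613055950094) (nat_lit 76) (nat_lit 472758201011) (nat_lit 1) (nat_lit 4) (nat_lit 2) (nat_lit 5) (nat_lit 2) (nat_lit 4) (nat_lit 248) (nat_lit 215) (nat_lit 137)) (XT.nd (nat_lit 78) (nat_lit 0) (nat_lit 0) (XT.lf (nat_lit 0) (nat_lit 278106779929) (nat_lit 76) (nat_lit 624035255366) (nat_lit 76) (nat_lit 483737168979) (nat_lit 1) (nat_lit 4) (nat_lit 2) (nat_lit 5) (nat_lit 2) (nat_lit 4) (nat_lit 249) (nat_lit 215)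 (nat_lit 136)) (XT.lf (nat_lit 0) (nat_lit 454562701017) (nat_lit 76) (nat_lit 636661725805) (nat_lit 76) (nat_lit 496363346112) (nat_lit 1) (nat_lit 4) (nat_lit 2) (nat_lit 5) (nat_lit 2) (nat_lit 4) (nat_lit 250) (nat_lit 215) (nat_lit 135)))))) (XT.nd (nat_lit 390) (nat_lit 0) (nat_lit 0) (XT.nd (nat_lit 156) (nat_lit 0) (nat_lit 0) (XT.nd (nat_lit 78) (nat_lit 0) (nat_lit 0) (XT.lf (nat_lit 0) (nat_lit 657486483659) (nat_lit 76) (nat_lit 651182401052) (nat_lit 76) (nat_lit 510883766309) (nat_lit 1) (nat_lit 4) (nat_lit 2) (nat_lit 5) (nat_lit 2) (nat_lit 4) (nat_lit 251) (nat_lit 215) (nat_lit 134)) (XT.lf (nat_lit 0) (nat_lit 890848375777) (nat_lit 76) (nat_lit 667881381274) (nat_lit 76) (nat_lit 527582524749) (nat_lit 1) (nat_lit 4) (nat_lit 2) (nat_lit 5) (nat_lit 2) (nat_lit 4) (nat_lit 252) (nat_lit 215) (nat_lit 133))) (XT.nd (nat_lit 78) (nat_lit 0) (nat_lit 0) (XT.lf (nat_lit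 0) (nat_lit 1159214153520) (nat_lit 76) (nat_lit 687085385650) (nat_lit 76) (nat_lit 546786336270) (nat_lit 1) (nat_lit 4) (nat_lit 2) (nat_lit 5) (nat_lit 2) (nat_lit 4) (nat_lit 253) (nat_lit 215) (nat_lit 132)) (XT.nd (nat_lit 78) (nat_lit 0) (nat_lit 0) (XT.lf (nat_lit 0) (nat_lit 1467834451672) (nat_lit 76) (nat_lit 709170144698) (nat_lit 76) (nat_lit 568870927619) (nat_lit 1) (nat_lit 4) (nat_lit 2) (nat_lit 5) (nat_lit 2) (nat_lit 4) (nat_lit 254) (nat_lit 215) (nat_lit 131)) (XT.lf (nat_lit 0) (nat_lit 1822747493457) (nat_lit 76) (nat_lit 734567751533) (nat_lit 76) (nat_lit 594268388628) (nat_lit 1) (nat_lit 4) (nat_lit 2) (nat_lit 5) (nat_lit 2) (nat_lit 4) (nat_lit 255) (nat_lit 215) (nat_lit 130))))) (XT.nd (nat_lit 28236) (nat_lit 0) (nat_lit 2204) (XT.nd (nat_lit 28158) (nat_lit 0) (nat_lit 2128) (XT.lf (nat_lit 0) (nat_lit 2230897229691) (nat_lit 76) (nat_lit 763775115851)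 (nat_lit 76) (nat_lit 623475626142) (nat_lit 1) (nat_lit 4) (nat_lit 2) (nat_lit 5) (nat_lit 2) (nat_lit 4) (nat_lit 256) (nat_lit 215) (nat_lit 129)) (XT.lf (nat_lit 0) (nat_lit 3193496033) (nat_lit 532) (nat_lit 8041169180) (nat_lit 532) (nat_lit 8041169180) (nat_lit 29) (nat_lit 3) (nat_lit 36) (nat_lit 3) (nat_lit 36) (nat_lit 5) (nat_lit 216) (nat_lit 216) (nat_lit 168))) (XT.nd (nat_lit 78) (nat_lit 0) (nat_lit 0) (XT.lf (nat_lit 0) (nat_lit 7429999961) (nat_lit 456) (nat_lit 27652538307) (nat_lit 532) (nat_lit 6314893241) (nat_lit 30) (nat_lit 5) (nat_lit 36) (nat_lit 5) (nat_lit 37) (nat_lit 5) (nat_lit 217) (nat_lit 216) (nat_lit 167)) (XT.nd (nat_lit 78) (nat_lit 0) (nat_lit 76) (XT.lf (nat_lit 76) (nat_lit 3942844224) (nat_lit 0) (nat_lit 5870873073) (nat_lit 532) (nat_lit 34761688595) (nat_lit 31) (nat_lit 5) (nat_lit 30) (nat_lit 5) (nat_lit 37) (nat_lit 5) (nat_lit 218)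 (nat_lit 216) (nat_lit 166)) (XT.lf (nat_lit 0) (nat_lit 14036825323) (nat_lit 456) (nat_lit 6909845208) (nat_lit 532) (nat_lit 27164935702) (nat_lit 31) (nat_lit 5) (nat_lit 37) (nat_lit 5) (nat_lit 38) (nat_lit 5) (nat_lit 219) (nat_lit 216) (nat_lit 165))))))))
noncomputable def xc46 : XT := (XT.nd (nat_lit 1404) (nat_lit 304) (nat_lit 0) (XT.nd (nat_lit 702) (nat_lit 608) (nat_lit 0) (XT.nd (nat_lit 312) (nat_lit 760) (nat_lit 0) (XT.nd (nat_lit 156) (nat_lit 228) (nat_lit 0) (XT.nd (nat_lit 78) (nat_lit 456) (nat_lit 0) (XT.lf (nat_lit 0) (nat_lit 20174081285) (nat_lit 456) (nat_lit 19056320002) (nat_lit 76) (nat_lit 12845447277) (nat_lit 32) (nat_lit 5) (nat_lit 38) (nat_lit 5) (nat_lit 33) (nat_lit 5) (nat_lit 220) (nat_lit 216) (nat_lit 164)) (XT.lf (nat_lit 0) (nat_lit 23312091003) (nat_lit 456) (nat_lit 5257867178) (nat_lit 532) (nat_lit 27957784267) (nat_lit 26) (nat_lit 5)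 (nat_lit 32) (nat_lit 5) (nat_lit 33) (nat_lit 5) (nat_lit 221) (nat_lit 216) (nat_lit 163))) (XT.nd (nat_lit 78) (nat_lit 0) (nat_lit 0) (XT.lf (nat_lit 0) (nat_lit 11317681856) (nat_lit 228) (nat_lit 28554662194) (nat_lit 304) (nat_lit 21643356436) (nat_lit 23) (nat_lit 5) (nat_lit 26) (nat_lit 5) (nat_lit 27) (nat_lit 5) (nat_lit 222) (nat_lit 216) (nat_lit 162)) (XT.lf (nat_lit 0) (nat_lit 54222605658) (nat_lit 304) (nat_lit 3031704075) (nat_lit 76) (nat_lit 9889384778) (nat_lit 23) (nat_lit 5) (nat_lit 27) (nat_lit 5) (nat_lit 24) (nat_lit 5) (nat_lit 223) (nat_lit 216) (nat_lit 161)))) (XT.nd (nat_lit 156) (nat_lit 304) (nat_lit 0) (XT.nd (nat_lit 78) (nat_lit 304) (nat_lit 0) (XT.lf (nat_lit 0) (nat_lit 53067905890) (nat_lit 152) (nat_lit 19717770054) (nat_lit 228) (nat_lit 665428149) (nat_lit 21) (nat_lit 5) (nat_lit 23) (nat_lit 5) (nat_lit 24) (nat_lit 5) (nat_lit 224) (nat_lit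 216) (nat_lit 160)) (XT.lf (nat_lit 0) (nat_lit 14370939704) (nat_lit 304) (nat_lit 42525017607) (nat_lit 76) (nat_lit 23653732980) (nat_lit 17) (nat_lit 5) (nat_lit 21) (nat_lit 5) (nat_lit 18) (nat_lit 5) (nat_lit 225) (nat_lit 216) (nat_lit 159))) (XT.nd (nat_lit 78) (nat_lit 152) (nat_lit 0) (XT.lf (nat_lit 0) (nat_lit 18081659505) (nat_lit 152) (nat_lit 15127086939) (nat_lit 228) (nat_lit 55376131119) (nat_lit 15) (nat_lit 5) (nat_lit 17) (nat_lit 5) (nat_lit 18) (nat_lit 5) (nat_lit 226) (nat_lit 216) (nat_lit 158)) (XT.nd (nat_lit 78) (nat_lit 152) (nat_lit 0) (XT.lf (nat_lit 0) (nat_lit 56929532130) (nat_lit 228) (nat_lit 8201334930) (nat_lit 76) (nat_lit 32529914371) (nat_lit 15) (nat_lit 5) (nat_lit 18) (nat_lit 5) (nat_lit 16) (nat_lit 5) (nat_lit 227) (nat_lit 216) (nat_lit 157)) (XT.lf (nat_lit 0) (nat_lit 66340886468) (nat_lit 152) (nat_lit 19877655856) (nat_lit 228) (nat_lit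 21718740147) (nat_lit 13) (nat_lit 5) (nat_lit 15) (nat_lit 5) (nat_lit 16) (nat_lit 5) (nat_lit 228) (nat_lit 216) (nat_lit 156)))))) (XT.nd (nat_lit 312) (nat_lit 228) (nat_lit 0) (XT.nd (nat_lit 156) (nat_lit 228) (nat_lit 0) (XT.nd (nat_lit 78) (nat_lit 0) (nat_lit 0) (XT.lf (nat_lit 0) (nat_lit 2012003062) (nat_lit 152) (nat_lit 85932761151) (nat_lit 76) (nat_lit 31660338953) (nat_lit 11) (nat_lit 5) (nat_lit 13) (nat_lit 5) (nat_lit 12) (nat_lit 5) (nat_lit 229) (nat_lit 216) (nat_lit 155)) (XT.lf (nat_lit 0) (nat_lit 29842000977) (nat_lit 152) (nat_lit 11362559314) (nat_lit 76) (nat_lit 91627370116) (nat_lit 11) (nat_lit 5) (nat_lit 13) (nat_lit 5) (nat_lit 12) (nat_lit 5) (nat_lit 230) (nat_lit 216) (nat_lit 154))) (XT.nd (nat_lit 78) (nat_lit 76) (nat_lit 0) (XT.lf (nat_lit 0) (nat_lit 64077625706) (nat_lit 228) (nat_lit 69936773150) (nat_lit 76) (nat_lit 13849904956) (nat_lit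 9) (nat_lit 5) (nat_lit 12) (nat_lit 5) (nat_lit 10) (nat_lit 4) (nat_lit 231) (nat_lit 216) (nat_lit 153)) (XT.lf (nat_lit 0) (nat_lit 15812985948) (nat_lit 76) (nat_lit 89492397065) (nat_lit 152) (nat_lit 59697617759) (nat_lit 8) (nat_lit 5) (nat_lit 9) (nat_lit 5) (nat_lit 10) (nat_lit 4) (nat_lit 232) (nat_lit 216) (nat_lit 152)))) (XT.nd (nat_lit 156) (nat_lit 76) (nat_lit 0) (XT.nd (nat_lit 78) (nat_lit 152) (nat_lit 0) (XT.lf (nat_lit 0) (nat_lit 118656721910) (nat_lit 76) (nat_lit 36094427180) (nat_lit 152) (nat_lit 29798654835) (nat_lit 8) (nat_lit 5) (nat_lit 9) (nat_lit 5) (nat_lit 10) (nat_lit 4) (nat_lit 233) (nat_lit 216) (nat_lit 151)) (XT.lf (nat_lit 0) (nat_lit 5738985592) (nat_lit 152) (nat_lit 176237608765) (nat_lit 76) (nat_lit 24932562732) (nat_lit 6) (nat_lit 5) (nat_lit 8) (nat_lit 5) (nat_lit 7) (nat_lit 4) (nat_lit 234) (nat_lit 216) (nat_lit 150))) (XT.nd (nat_lit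 78) (nat_lit 76) (nat_lit 0) (XT.lf (nat_lit 0) (nat_lit 47857660546) (nat_lit 152) (nat_lit 88633185553) (nat_lit 76) (nat_lit 95828470221) (nat_lit 6) (nat_lit 5) (nat_lit 8) (nat_lit 5) (nat_lit 7) (nat_lit 4) (nat_lit 235) (nat_lit 216) (nat_lit 149)) (XT.nd (nat_lit 78) (nat_lit 0) (nat_lit 0) (XT.lf (nat_lit 0) (nat_lit 12746823272) (nat_lit 76) (nat_lit 83852238129) (nat_lit 152) (nat_lit 164917549704) (nat_lit 5) (nat_lit 5) (nat_lit 6) (nat_lit 5) (nat_lit 7) (nat_lit 4) (nat_lit 236) (nat_lit 216) (nat_lit 148)) (XT.lf (nat_lit 0) (nat_lit 134698694991) (nat_lit 76) (nat_lit 20531953964) (nat_lit 152) (nat_lit 139656537931) (nat_lit 5) (nat_lit 5) (nat_lit 6) (nat_lit 5) (nat_lit 7) (nat_lit 4) (nat_lit 237) (nat_lit 216) (nat_lit 147))))))) (XT.nd (nat_lit 702) (nat_lit 76) (nat_lit 0) (XT.nd (nat_lit 312) (nat_lit 76) (nat_lit 0) (XT.nd (nat_lit 156) (nat_lit 76) (nat_lit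 0) (XT.nd (nat_lit 78) (nat_lit 76) (nat_lit 0) (XT.lf (nat_lit 0) (nat_lit 223913152216) (nat_lit 152) (nat_lit 59579745846) (nat_lit 0) (nat_lit 49669961029) (nat_lit 5) (nat_lit 5) (nat_lit 7) (nat_lit 4) (nat_lit 5) (nat_lit 4) (nat_lit 238) (nat_lit 216) (nat_lit 146)) (XT.lf (nat_lit 0) (nat_lit 58475677726) (nat_lit 76) (nat_lit 246395417824) (nat_lit 76) (nat_lit 72150945118) (nat_lit 4) (nat_lit 4) (nat_lit 5) (nat_lit 5) (nat_lit 5) (nat_lit 4) (nat_lit 239) (nat_lit 216) (nat_lit 145))) (XT.nd (nat_lit 78) (nat_lit 76) (nat_lit 0) (XT.lf (nat_lit 0) (nat_lit 197845587749) (nat_lit 76) (nat_lit 201860708384) (nat_lit 76) (nat_lit 27615121314) (nat_lit 4) (nat_lit 4) (nat_lit 5) (nat_lit 5) (nat_lit 5) (nat_lit 4) (nat_lit 240) (nat_lit 216) (nat_lit 144)) (XT.lf (nat_lit 0) (nat_lit 22419529103) (nat_lit 152) (nat_lit 127613935547) (nat_lit 76) (nat_lit 335086904216) (nat_lit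 3) (nat_lit 5) (nat_lit 5) (nat_lit 5) (nat_lit 4) (nat_lit 4) (nat_lit 241) (nat_lit 216) (nat_lit 143)))) (XT.nd (nat_lit 156) (nat_lit 0) (nat_lit 0) (XT.nd (nat_lit 78) (nat_lit 76) (nat_lit 0) (XT.lf (nat_lit 0) (nat_lit 78369939017) (nat_lit 152) (nat_lit 11237925544) (nat_lit 76) (nat_lit 461920263803) (nat_lit 3) (nat_lit 5) (nat_lit 5) (nat_lit 5) (nat_lit 4) (nat_lit 4) (nat_lit 242) (nat_lit 216) (nat_lit 142)) (XT.lf (nat_lit 0) (nat_lit 129048810741) (nat_lit 76) (nat_lit 16767026833) (nat_lit 152) (nat_lit 481832982003) (nat_lit 2) (nat_lit 5) (nat_lit 3) (nat_lit 5) (nat_lit 4) (nat_lit 4) (nat_lit 243) (nat_lit 216) (nat_lit 141))) (XT.nd (nat_lit 78) (nat_lit 0) (nat_lit 0) (XT.lf (nat_lit 0) (nat_lit 225325002327) (nat_lit 152) (nat_lit 425723353376) (nat_lit 0) (nat_lit 63983549961) (nat_lit 2) (nat_lit 5) (nat_lit 4) (nat_lit 4) (nat_lit 2) (nat_lit 4) (nat_lit 244)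 (nat_lit 216) (nat_lit 140)) (XT.nd (nat_lit 78) (nat_lit 0) (nat_lit 0) (XT.lf (nat_lit 0) (nat_lit 317223713720) (nat_lit 152) (nat_lit 342379940319) (nat_lit 0) (nat_lit 155881748358) (nat_lit 2) (nat_lit 5) (nat_lit 4) (nat_lit 4) (nat_lit 2) (nat_lit 4) (nat_lit 245) (nat_lit 216) (nat_lit 139)) (XT.lf (nat_lit 0) (nat_lit 422906742620) (nat_lit 152) (nat_lit 246535890270) (nat_lit 0) (nat_lit 261564331175) (nat_lit 2) (nat_lit 5) (nat_lit 4) (nat_lit 4) (nat_lit 2) (nat_lit 4) (nat_lit 246) (nat_lit 216) (nat_lit 138)))))) (XT.nd (nat_lit 390) (nat_lit 0) (nat_lit 0) (XT.nd (nat_lit 156) (nat_lit 76) (nat_lit 0) (XT.nd (nat_lit 78) (nat_lit 0) (nat_lit 0) (XT.lf (nat_lit 0) (nat_lit 544441800464) (nat_lit 152) (nat_lit 136315993556) (nat_lit 0) (nat_lit 383099001119) (nat_lit 2) (nat_lit 5) (nat_lit 4) (nat_lit 4) (nat_lit 2) (nat_lit 4) (nat_lit 247) (nat_lit 216) (nat_lit 137))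 (XT.lf (nat_lit 0) (nat_lit 684206747077) (nat_lit 152) (nat_lit 9563773935) (nat_lit 0) (nat_lit 522863610429) (nat_lit 2) (nat_lit 5) (nat_lit 4) (nat_lit 4) (nat_lit 2) (nat_lit 4) (nat_lit 248) (nat_lit 216) (nat_lit 136))) (XT.nd (nat_lit 78) (nat_lit 0) (nat_lit 0) (XT.lf (nat_lit 0) (nat_lit 143372790992) (nat_lit 76) (nat_lit 705011442103) (nat_lit 76) (nat_lit 543668012149) (nat_lit 1) (nat_lit 4) (nat_lit 2) (nat_lit 5) (nat_lit 2) (nat_lit 4) (nat_lit 249) (nat_lit 216) (nat_lit 135)) (XT.nd (nat_lit 78) (nat_lit 0) (nat_lit 0) (XT.lf (nat_lit 0) (nat_lit 319828467145) (nat_lit 76) (nat_lit 717638021492) (nat_lit 76) (nat_lit 556294336488) (nat_lit 1) (nat_lit 4) (nat_lit 2) (nat_lit 5) (nat_lit 2) (nat_lit 4) (nat_lit 250) (nat_lit 216) (nat_lit 134)) (XT.lf (nat_lit 0) (nat_lit 522752036801) (nat_lit 76) (nat_lit 732158791478) (nat_lit 76) (nat_lit 570814884691) (nat_lit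 1) (nat_lit 4) (nat_lit 2) (nat_lit 5) (nat_lit 2) (nat_lit 4) (nat_lit 251) (nat_lit 216) (nat_lit 133))))) (XT.nd (nat_lit 156) (nat_lit 0) (nat_lit 0) (XT.nd (nat_lit 78) (nat_lit 0) (nat_lit 0) (XT.lf (nat_lit 0) (nat_lit 756113743713) (nat_lit 76) (nat_lit 748857854081) (nat_lit 76) (nat_lit 587513754440) (nat_lit 1) (nat_lit 4) (nat_lit 2) (nat_lit 5) (nat_lit 2) (nat_lit 4) (nat_lit 252) (nat_lit 216) (nat_lit 132)) (XT.lf (nat_lit 0) (nat_lit 1024479360409) (nat_lit 76) (nat_lit 768061930093) (nat_lit 76) (nat_lit 606717662752) (nat_lit 1) (nat_lit 4) (nat_lit 2) (nat_lit 5) (nat_lit 2) (nat_lit 4) (nat_lit 253) (nat_lit 216) (nat_lit 131))) (XT.nd (nat_lit 78) (nat_lit 0) (nat_lit 0) (XT.lf (nat_lit 0) (nat_lit 1333099518519) (nat_lit 76) (nat_lit 790146751434) (nat_lit 76) (nat_lit 628802338267) (nat_lit 1) (nat_lit 4) (nat_lit 2) (nat_lit 5) (nat_lit 2) (nat_lit 4) (nat_lit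 254) (nat_lit 216) (nat_lit 130)) (XT.nd (nat_lit 78) (nat_lit 0) (nat_lit 0) (XT.lf (nat_lit 0) (nat_lit 1688012438528) (nat_lit 76) (nat_lit 815544412435) (nat_lit 76) (nat_lit 654199872464) (nat_lit 1) (nat_lit 4) (nat_lit 2) (nat_lit 5) (nat_lit 2) (nat_lit 4) (nat_lit 255) (nat_lit 216) (nat_lit 129)) (XT.lf (nat_lit 0) (nat_lit 2096162068871) (nat_lit 76) (nat_lit 844751823855) (nat_lit 76) (nat_lit 683407173620) (nat_lit 1) (nat_lit 4) (nat_lit 2) (nat_lit 5) (nat_lit 2) (nat_lit 4) (nat_lit 256) (nat_lit 216) (nat_lit 128))))))))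
noncomputable def xc47 : XT := (XT.nd (nat_lit 1404) (nat_lit 532) (nat_lit 0) (XT.nd (nat_lit 702) (nat_lit 988) (nat_lit 0) (XT.nd (nat_lit 312) (nat_lit 608) (nat_lit 0) (XT.nd (nat_lit 156) (nat_lit 0) (nat_lit 76) (XT.nd (nat_lit 78) (nat_lit 0) (nat_lit 76) (XT.lf (nat_lit 0) (nat_lit 3739042204) (nat_lit 532) (nat_lit 9211186146) (nat_lit 532) (nat_lit 9211186146) (nat_lit 29) (nat_lit 3) (nat_lit 36) (nat_lit 3) (nat_lit 36) (nat_lit 5) (nat_lit 217) (nat_lit 217) (nat_lit 166)) (XT.lf (nat_lit 0) (nat_lit 8660553357) (nat_lit 456) (nat_lit 31722789139) (nat_lit 532) (nat_lit 7213596310) (nat_lit 30) (nat_lit 5) (nat_lit 36) (nat_lit 5) (nat_lit 37) (nat_lit 5) (nat_lit 218) (nat_lit 217) (nat_lit 165))) (XT.nd (nat_lit 78) (nat_lit 0) (nat_lit 76) (XT.lf (nat_lit 76) (nat_lit 4605329786) (nat_lit 0) (nat_lit 6783070075) (nat_lit 532) (nat_lit 39864391128) (nat_lit 31) (nat_lit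 5) (nat_lit 30) (nat_lit 5) (nat_lit 37) (nat_lit 5) (nat_lit 219) (nat_lit 217) (nat_lit 164)) (XT.lf (nat_lit 0) (nat_lit 16230928083) (nat_lit 456) (nat_lit 7876109921) (nat_lit 532) (nat_lit 31213600423) (nat_lit 31) (nat_lit 5) (nat_lit 37) (nat_lit 5) (nat_lit 38) (nat_lit 5) (nat_lit 220) (nat_lit 217) (nat_lit 163)))) (XT.nd (nat_lit 156) (nat_lit 380) (nat_lit 0) (XT.nd (nat_lit 78) (nat_lit 456) (nat_lit 0) (XT.lf (nat_lit 0) (nat_lit 23278420371) (nat_lit 456) (nat_lit 21843328168) (nat_lit 76) (nat_lit 14758677919) (nat_lit 32) (nat_lit 5) (nat_lit 38) (nat_lit 5) (nat_lit 33) (nat_lit 5) (nat_lit 221) (nat_lit 217) (nat_lit 162)) (XT.lf (nat_lit 0) (nat_lit 26874297462) (nat_lit 456) (nat_lit 6050750530) (nat_lit 532) (nat_lit 32075817494) (nat_lit 26) (nat_lit 5) (nat_lit 32) (nat_lit 5) (nat_lit 33) (nat_lit 5) (nat_lit 222) (nat_lit 217) (nat_lit 161))) (XT.nd (nat_lit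 78) (nat_lit 152) (nat_lit 0) (XT.lf (nat_lit 0) (nat_lit 13080811515) (nat_lit 228) (nat_lit 32834389307) (nat_lit 304) (nat_lit 24822485070) (nat_lit 23) (nat_lit 5) (nat_lit 26) (nat_lit 5) (nat_lit 27) (nat_lit 5) (nat_lit 223) (nat_lit 217) (nat_lit 160)) (XT.nd (nat_lit 78) (nat_lit 152) (nat_lit 0) (XT.lf (nat_lit 0) (nat_lit 62409986654) (nat_lit 304) (nat_lit 3424926173) (nat_lit 76) (nat_lit 11375660775) (nat_lit 23) (nat_lit 5) (nat_lit 27) (nat_lit 5) (nat_lit 24) (nat_lit 5) (nat_lit 224) (nat_lit 217) (nat_lit 159)) (XT.lf (nat_lit 0) (nat_lit 61084416781) (nat_lit 152) (nat_lit 22667413126) (nat_lit 228) (nat_lit 712766138) (nat_lit 21) (nat_lit 5) (nat_lit 23) (nat_lit 5) (nat_lit 24) (nat_lit 5) (nat_lit 225) (nat_lit 217) (nat_lit 158)))))) (XT.nd (nat_lit 312) (nat_lit 380) (nat_lit 0) (XT.nd (nat_lit 156) (nat_lit 152) (nat_lit 0) (XT.nd (nat_lit 78) (nat_lit 152)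 (nat_lit 0) (XT.lf (nat_lit 0) (nat_lit 16571463698) (nat_lit 304) (nat_lit 48845956478) (nat_lit 76) (nat_lit 27210883857) (nat_lit 17) (nat_lit 5) (nat_lit 21) (nat_lit 5) (nat_lit 18) (nat_lit 5) (nat_lit 226) (nat_lit 217) (nat_lit 157)) (XT.lf (nat_lit 0) (nat_lit 20846828553) (nat_lit 152) (nat_lit 17383531317) (nat_lit 228) (nat_lit 63638808551) (nat_lit 15) (nat_lit 5) (nat_lit 17) (nat_lit 5) (nat_lit 18) (nat_lit 5) (nat_lit 227) (nat_lit 217) (nat_lit 156))) (XT.nd (nat_lit 78) (nat_lit 152) (nat_lit 0) (XT.lf (nat_lit 0) (nat_lit 65504270592) (nat_lit 228) (nat_lit 9382789588) (nat_lit 76) (nat_lit 37419825376) (nat_lit 15) (nat_lit 5) (nat_lit 18) (nat_lit 5) (nat_lit 16) (nat_lit 5) (nat_lit 228) (nat_lit 217) (nat_lit 155)) (XT.lf (nat_lit 0) (nat_lit 76336638949) (nat_lit 152) (nat_lit 22846460990) (nat_lit 228) (nat_lit 24942068974) (nat_lit 13) (nat_lit 5) (nat_lit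 15) (nat_lit 5) (nat_lit 16) (nat_lit 5) (nat_lit 229) (nat_lit 217) (nat_lit 154)))) (XT.nd (nat_lit 156) (nat_lit 228) (nat_lit 0) (XT.nd (nat_lit 78) (nat_lit 0) (nat_lit 0) (XT.lf (nat_lit 0) (nat_lit 2343625581) (nat_lit 152) (nat_lit 98777936202) (nat_lit 76) (nat_lit 36421789190) (nat_lit 11) (nat_lit 5) (nat_lit 13) (nat_lit 5) (nat_lit 12) (nat_lit 5) (nat_lit 230) (nat_lit 217) (nat_lit 153)) (XT.lf (nat_lit 0) (nat_lit 34344233349) (nat_lit 152) (nat_lit 13028039626) (nat_lit 76) (nat_lit 105382257715) (nat_lit 11) (nat_lit 5) (nat_lit 13) (nat_lit 5) (nat_lit 12) (nat_lit 5) (nat_lit 231) (nat_lit 217) (nat_lit 152))) (XT.nd (nat_lit 78) (nat_lit 76) (nat_lit 0) (XT.lf (nat_lit 0) (nat_lit 73712969274) (nat_lit 228) (nat_lit 80389999814) (nat_lit 76) (nat_lit 15938984580) (nat_lit 9) (nat_lit 5) (nat_lit 12) (nat_lit 5) (nat_lit 10) (nat_lit 4) (nat_lit 232) (nat_lit 217)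 (nat_lit 151)) (XT.nd (nat_lit 78) (nat_lit 0) (nat_lit 0) (XT.lf (nat_lit 0) (nat_lit 18219066795) (nat_lit 76) (nat_lit 102903553014) (nat_lit 152) (nat_lit 68629030002) (nat_lit 8) (nat_lit 5) (nat_lit 9) (nat_lit 5) (nat_lit 10) (nat_lit 4) (nat_lit 233) (nat_lit 217) (nat_lit 150)) (XT.lf (nat_lit 0) (nat_lit 136484911027) (nat_lit 76) (nat_lit 41497544639) (nat_lit 152) (nat_lit 34248252694) (nat_lit 8) (nat_lit 5) (nat_lit 9) (nat_lit 5) (nat_lit 10) (nat_lit 4) (nat_lit 234) (nat_lit 217) (nat_lit 149))))))) (XT.nd (nat_lit 702) (nat_lit 152) (nat_lit 0) (XT.nd (nat_lit 312) (nat_lit 152) (nat_lit 0) (XT.nd (nat_lit 156) (nat_lit 76) (nat_lit 0) (XT.nd (nat_lit 78) (nat_lit 0) (nat_lit 0) (XT.lf (nat_lit 0) (nat_lit 6617457034) (nat_lit 152) (nat_lit 202643902431) (nat_lit 76) (nat_lit 28682700577) (nat_lit 6) (nat_lit 5) (nat_lit 8) (nat_lit 5) (nat_lit 7) (nat_lit 4) (nat_lit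 235) (nat_lit 217) (nat_lit 148)) (XT.lf (nat_lit 0) (nat_lit 55051634501) (nat_lit 152) (nat_lit 101902643692) (nat_lit 76) (nat_lit 110211656785) (nat_lit 6) (nat_lit 5) (nat_lit 8) (nat_lit 5) (nat_lit 7) (nat_lit 4) (nat_lit 236) (nat_lit 217) (nat_lit 147))) (XT.nd (nat_lit 78) (nat_lit 0) (nat_lit 0) (XT.lf (nat_lit 0) (nat_lit 14682206343) (nat_lit 76) (nat_lit 96420602043) (nat_lit 152) (nat_lit 189640137449) (nat_lit 5) (nat_lit 5) (nat_lit 6) (nat_lit 5) (nat_lit 7) (nat_lit 4) (nat_lit 237) (nat_lit 217) (nat_lit 146)) (XT.lf (nat_lit 0) (nat_lit 154923811917) (nat_lit 76) (nat_lit 23603510706) (nat_lit 152) (nat_lit 160591936263) (nat_lit 5) (nat_lit 5) (nat_lit 6) (nat_lit 5) (nat_lit 7) (nat_lit 4) (nat_lit 238) (nat_lit 217) (nat_lit 145)))) (XT.nd (nat_lit 156) (nat_lit 76) (nat_lit 0) (XT.nd (nat_lit 78) (nat_lit 76) (nat_lit 0) (XT.lf (nat_lit 0) (nat_lit 257510798449)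 (nat_lit 152) (nat_lit 68498341961) (nat_lit 0) (nat_lit 57127258954) (nat_lit 5) (nat_lit 5) (nat_lit 7) (nat_lit 4) (nat_lit 5) (nat_lit 4) (nat_lit 239) (nat_lit 217) (nat_lit 144)) (XT.lf (nat_lit 0) (nat_lit 67263840576) (nat_lit 76) (nat_lit 283347604833) (nat_lit 76) (nat_lit 82963096327) (nat_lit 4) (nat_lit 4) (nat_lit 5) (nat_lit 5) (nat_lit 5) (nat_lit 4) (nat_lit 240) (nat_lit 217) (nat_lit 143))) (XT.nd (nat_lit 78) (nat_lit 76) (nat_lit 0) (XT.lf (nat_lit 0) (nat_lit 227537044338) (nat_lit 76) (nat_lit 232133618412) (nat_lit 76) (nat_lit 31748267286) (nat_lit 4) (nat_lit 4) (nat_lit 5) (nat_lit 5) (nat_lit 5) (nat_lit 4) (nat_lit 241) (nat_lit 217) (nat_lit 142)) (XT.nd (nat_lit 78) (nat_lit 0) (nat_lit 0) (XT.lf (nat_lit 0) (nat_lit 25789994028) (nat_lit 152) (nat_lit 146742896258) (nat_lit 76) (nat_lit 385354909929) (nat_lit 3) (nat_lit 5) (nat_lit 5) (nat_lit 5) (nat_lit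 4) (nat_lit 4) (nat_lit 242) (nat_lit 217) (nat_lit 141)) (XT.lf (nat_lit 0) (nat_lit 90131982531) (nat_lit 152) (nat_lit 12912197313) (nat_lit 76) (nat_lit 531212625181) (nat_lit 3) (nat_lit 5) (nat_lit 5) (nat_lit 5) (nat_lit 4) (nat_lit 4) (nat_lit 243) (nat_lit 217) (nat_lit 140)))))) (XT.nd (nat_lit 390) (nat_lit 76) (nat_lit 0) (XT.nd (nat_lit 156) (nat_lit 0) (nat_lit 0) (XT.nd (nat_lit 78) (nat_lit 0) (nat_lit 0) (XT.lf (nat_lit 0) (nat_lit 148416583017) (nat_lit 76) (nat_lit 19277579498) (nat_lit 152) (nat_lit 554101488071) (nat_lit 2) (nat_lit 5) (nat_lit 3) (nat_lit 5) (nat_lit 4) (nat_lit 4) (nat_lit 244) (nat_lit 217) (nat_lit 139)) (XT.lf (nat_lit 0) (nat_lit 259129020122) (nat_lit 152) (nat_lit 489572435223) (nat_lit 0) (nat_lit 73584800876) (nat_lit 2) (nat_lit 5) (nat_lit 4) (nat_lit 4) (nat_lit 2) (nat_lit 4) (nat_lit 245) (nat_lit 217) (nat_lit 138))) (XT.nd (nat_lit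 78) (nat_lit 0) (nat_lit 0) (XT.lf (nat_lit 0) (nat_lit 364811851166) (nat_lit 152) (nat_lit 393728739054) (nat_lit 0) (nat_lit 179267244021) (nat_lit 2) (nat_lit 5) (nat_lit 4) (nat_lit 4) (nat_lit 2) (nat_lit 4) (nat_lit 246) (nat_lit 217) (nat_lit 137)) (XT.nd (nat_lit 78) (nat_lit 0) (nat_lit 0) (XT.lf (nat_lit 0) (nat_lit 486346736959) (nat_lit 152) (nat_lit 283509150061) (nat_lit 0) (nat_lit 300801792511) (nat_lit 2) (nat_lit 5) (nat_lit 4) (nat_lit 4) (nat_lit 2) (nat_lit 4) (nat_lit 247) (nat_lit 217) (nat_lit 136)) (XT.lf (nat_lit 0) (nat_lit 626111533964) (nat_lit 152) (nat_lit 156757198023) (nat_lit 0) (nat_lit 440566296209) (nat_lit 2) (nat_lit 5) (nat_lit 4) (nat_lit 4) (nat_lit 2) (nat_lit 4) (nat_lit 248) (nat_lit 217) (nat_lit 135))))) (XT.nd (nat_lit 156) (nat_lit 0) (nat_lit 0) (XT.nd (nat_lit 78) (nat_lit 76) (nat_lit 0) (XT.lf (nat_lit 0) (nat_lit 786840770818) (nat_lit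 152) (nat_lit 10992953446) (nat_lit 0) (nat_lit 601295278013) (nat_lit 2) (nat_lit 5) (nat_lit 4) (nat_lit 4) (nat_lit 2) (nat_lit 4) (nat_lit 249) (nat_lit 217) (nat_lit 134)) (XT.lf (nat_lit 0) (nat_lit 164883640273) (nat_lit 76) (nat_lit 810760965221) (nat_lit 76) (nat_lit 625215250633) (nat_lit 1) (nat_lit 4) (nat_lit 2) (nat_lit 5) (nat_lit 2) (nat_lit 4) (nat_lit 250) (nat_lit 217) (nat_lit 133))) (XT.nd (nat_lit 78) (nat_lit 0) (nat_lit 0) (XT.lf (nat_lit 0) (nat_lit 367807024723) (nat_lit 76) (nat_lit 825281817587) (nat_lit 76) (nat_lit 639735910146) (nat_lit 1) (nat_lit 4) (nat_lit 2) (nat_lit 5) (nat_lit 2) (nat_lit 4) (nat_lit 251) (nat_lit 217) (nat_lit 132)) (XT.nd (nat_lit 78) (nat_lit 0) (nat_lit 0) (XT.lf (nat_lit 0) (nat_lit 601168570587) (nat_lit 76) (nat_lit 841980951827) (nat_lit 76) (nat_lit 656434876686) (nat_lit 1) (nat_lit 4) (nat_lit 2) (nat_lit 5) (nat_lit 2)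 (nat_lit 4) (nat_lit 252) (nat_lit 217) (nat_lit 131)) (XT.lf (nat_lit 0) (nat_lit 869534047241) (nat_lit 76) (nat_lit 861185090130) (nat_lit 76) (nat_lit 675638869164) (nat_lit 1) (nat_lit 4) (nat_lit 2) (nat_lit 5) (nat_lit 2) (nat_lit 4) (nat_lit 253) (nat_lit 217) (nat_lit 130))))))))
noncomputable def xc48 : XT := (XT.nd (nat_lit 29640) (nat_lit 0) (nat_lit 76) (XT.nd (nat_lit 28938) (nat_lit 0) (nat_lit 760) (XT.nd (nat_lit 28548) (nat_lit 0) (nat_lit 1900) (XT.nd (nat_lit 156) (nat_lit 0) (nat_lit 0) (XT.nd (nat_lit 78) (nat_lit 0) (nat_lit 0) (XT.lf (nat_lit 0) (nat_lit 1178154083575) (nat_lit 76) (nat_lit 883269965638) (nat_lit 76) (nat_lit 697723617867) (nat_lit 1) (nat_lit 4) (nat_lit 2) (nat_lit 5) (nat_lit 2) (nat_lit 4) (nat_lit 254) (nat_lit 217) (nat_lit 129)) (XT.lf (nat_lit 0) (nat_lit 1533066897692) (nat_lit 76) (nat_lit 908667673741) (nat_lit 76) (nat_lit 723121215705)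 (nat_lit 1) (nat_lit 4) (nat_lit 2) (nat_lit 5) (nat_lit 2) (nat_lit 4) (nat_lit 255) (nat_lit 217) (nat_lit 128))) (XT.nd (nat_lit 28314) (nat_lit 0) (nat_lit 2128) (XT.lf (nat_lit 0) (nat_lit 1941216435955) (nat_lit 76) (nat_lit 937875126120) (nat_lit 76) (nat_lit 752328572201) (nat_lit 1) (nat_lit 4) (nat_lit 2) (nat_lit 5) (nat_lit 2) (nat_lit 4) (nat_lit 256) (nat_lit 217) (nat_lit 127)) (XT.lf (nat_lit 0) (nat_lit 4350198546) (nat_lit 532) (nat_lit 10565523115) (nat_lit 532) (nat_lit 10565523115) (nat_lit 29) (nat_lit 3) (nat_lit 36) (nat_lit 3) (nat_lit 36) (nat_lit 5) (nat_lit 218) (nat_lit 218) (nat_lit 164)))) (XT.nd (nat_lit 156) (nat_lit 304) (nat_lit 0) (XT.nd (nat_lit 78) (nat_lit 0) (nat_lit 0) (XT.lf (nat_lit 0) (nat_lit 10047389404) (nat_lit 456) (nat_lit 36422508143) (nat_lit 532) (nat_lit 8258939412) (nat_lit 30) (nat_lit 5) (nat_lit 36) (nat_lit 5) (nat_lit 37) (nat_lit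 5) (nat_lit 219) (nat_lit 218) (nat_lit 163)) (XT.lf (nat_lit 76) (nat_lit 5349860012) (nat_lit 0) (nat_lit 7824399049) (nat_lit 532) (nat_lit 45759701399) (nat_lit 31) (nat_lit 5) (nat_lit 30) (nat_lit 5) (nat_lit 37) (nat_lit 5) (nat_lit 220) (nat_lit 218) (nat_lit 162))) (XT.nd (nat_lit 78) (nat_lit 380) (nat_lit 0) (XT.lf (nat_lit 0) (nat_lit 18732545716) (nat_lit 456) (nat_lit 9004435998) (nat_lit 532) (nat_lit 35875923560) (nat_lit 31) (nat_lit 5) (nat_lit 37) (nat_lit 5) (nat_lit 38) (nat_lit 5) (nat_lit 221) (nat_lit 218) (nat_lit 161)) (XT.nd (nat_lit 78) (nat_lit 456) (nat_lit 0) (XT.lf (nat_lit 0) (nat_lit 26829334197) (nat_lit 456) (nat_lit 25065808615) (nat_lit 76) (nat_lit 16962206299) (nat_lit 32) (nat_lit 5) (nat_lit 38) (nat_lit 5) (nat_lit 33) (nat_lit 5) (nat_lit 222) (nat_lit 218) (nat_lit 160)) (XT.lf (nat_lit 0) (nat_lit 30954888439) (nat_lit 456) (nat_lit 6961541391)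 (nat_lit 532) (nat_lit 36829999635) (nat_lit 26) (nat_lit 5) (nat_lit 32) (nat_lit 5) (nat_lit 33) (nat_lit 5) (nat_lit 223) (nat_lit 218) (nat_lit 159)))))) (XT.nd (nat_lit 312) (nat_lit 456) (nat_lit 0) (XT.nd (nat_lit 156) (nat_lit 456) (nat_lit 0) (XT.nd (nat_lit 78) (nat_lit 0) (nat_lit 0) (XT.lf (nat_lit 0) (nat_lit 15092443548) (nat_lit 228) (nat_lit 37756922208) (nat_lit 304) (nat_lit 28494912779) (nat_lit 23) (nat_lit 5) (nat_lit 26) (nat_lit 5) (nat_lit 27) (nat_lit 5) (nat_lit 224) (nat_lit 218) (nat_lit 158)) (XT.lf (nat_lit 0) (nat_lit 71812308961) (nat_lit 304) (nat_lit 3892136923) (nat_lit 76) (nat_lit 13084178723) (nat_lit 23) (nat_lit 5) (nat_lit 27) (nat_lit 5) (nat_lit 24) (nat_lit 5) (nat_lit 225) (nat_lit 218) (nat_lit 157))) (XT.nd (nat_lit 78) (nat_lit 304) (nat_lit 0) (XT.lf (nat_lit 0) (nat_lit 70289669097) (nat_lit 152) (nat_lit 26061458981) (nat_lit 228) (nat_lit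 780001488) (nat_lit 21) (nat_lit 5) (nat_lit 23) (nat_lit 5) (nat_lit 24) (nat_lit 5) (nat_lit 226) (nat_lit 218) (nat_lit 156)) (XT.lf (nat_lit 0) (nat_lit 19091121277) (nat_lit 304) (nat_lit 56129134434) (nat_lit 76) (nat_lit 31299390484) (nat_lit 17) (nat_lit 5) (nat_lit 21) (nat_lit 5) (nat_lit 18) (nat_lit 5) (nat_lit 227) (nat_lit 218) (nat_lit 155)))) (XT.nd (nat_lit 156) (nat_lit 304) (nat_lit 0) (XT.nd (nat_lit 78) (nat_lit 0) (nat_lit 0) (XT.lf (nat_lit 0) (nat_lit 24013868051) (nat_lit 152) (nat_lit 19981519492) (nat_lit 228) (nat_lit 73151554420) (nat_lit 15) (nat_lit 5) (nat_lit 17) (nat_lit 5) (nat_lit 18) (nat_lit 5) (nat_lit 228) (nat_lit 218) (nat_lit 154)) (XT.lf (nat_lit 0) (nat_lit 75356609586) (nat_lit 228) (nat_lit 10753349363) (nat_lit 76) (nat_lit 43040681110) (nat_lit 15) (nat_lit 5) (nat_lit 18) (nat_lit 5) (nat_lit 16) (nat_lit 5) (nat_lit 229) (nat_lit 218)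 (nat_lit 153))) (XT.nd (nat_lit 78) (nat_lit 152) (nat_lit 0) (XT.lf (nat_lit 0) (nat_lit 87820873553) (nat_lit 152) (nat_lit 26263718801) (nat_lit 228) (nat_lit 28657305828) (nat_lit 13) (nat_lit 5) (nat_lit 15) (nat_lit 5) (nat_lit 16) (nat_lit 5) (nat_lit 230) (nat_lit 218) (nat_lit 152)) (XT.nd (nat_lit 78) (nat_lit 0) (nat_lit 0) (XT.lf (nat_lit 0) (nat_lit 2717719179) (nat_lit 152) (nat_lit 113560797428) (nat_lit 76) (nat_lit 41894433292) (nat_lit 11) (nat_lit 5) (nat_lit 13) (nat_lit 5) (nat_lit 12) (nat_lit 5) (nat_lit 231) (nat_lit 218) (nat_lit 151)) (XT.lf (nat_lit 0) (nat_lit 39515476839) (nat_lit 152) (nat_lit 14952828871) (nat_lit 76) (nat_lit 121197749175) (nat_lit 11) (nat_lit 5) (nat_lit 13) (nat_lit 5) (nat_lit 12) (nat_lit 5) (nat_lit 232) (nat_lit 218) (nat_lit 150))))))) (XT.nd (nat_lit 702) (nat_lit 152) (nat_lit 0) (XT.nd (nat_lit 312) (nat_lit 152) (nat_lit 0)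 (XT.nd (nat_lit 156) (nat_lit 152) (nat_lit 0) (XT.nd (nat_lit 78) (nat_lit 76) (nat_lit 0) (XT.lf (nat_lit 0) (nat_lit 84787835053) (nat_lit 228) (nat_lit 92420303711) (nat_lit 76) (nat_lit 18338598907) (nat_lit 9) (nat_lit 5) (nat_lit 12) (nat_lit 5) (nat_lit 10) (nat_lit 4) (nat_lit 233) (nat_lit 218) (nat_lit 149)) (XT.lf (nat_lit 0) (nat_lit 20977736231) (nat_lit 76) (nat_lit 118329480211) (nat_lit 152) (nat_lit 78905818966) (nat_lit 8) (nat_lit 5) (nat_lit 9) (nat_lit 5) (nat_lit 10) (nat_lit 4) (nat_lit 234) (nat_lit 218) (nat_lit 148))) (XT.nd (nat_lit 78) (nat_lit 152) (nat_lit 0) (XT.lf (nat_lit 0) (nat_lit 156980090652) (nat_lit 76) (nat_lit 47713823504) (nat_lit 152) (nat_lit 39370216219) (nat_lit 8) (nat_lit 5) (nat_lit 9) (nat_lit 5) (nat_lit 10) (nat_lit 4) (nat_lit 235) (nat_lit 218) (nat_lit 147)) (XT.lf (nat_lit 0) (nat_lit 7623401565) (nat_lit 152) (nat_lit 233018296756)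 (nat_lit 76) (nat_lit 32992858734) (nat_lit 6) (nat_lit 5) (nat_lit 8) (nat_lit 5) (nat_lit 7) (nat_lit 4) (nat_lit 236) (nat_lit 218) (nat_lit 146)))) (XT.nd (nat_lit 156) (nat_lit 76) (nat_lit 0) (XT.nd (nat_lit 78) (nat_lit 76) (nat_lit 0) (XT.lf (nat_lit 0) (nat_lit 63320967481) (nat_lit 152) (nat_lit 117168743690) (nat_lit 76) (nat_lit 126750147103) (nat_lit 6) (nat_lit 5) (nat_lit 8) (nat_lit 5) (nat_lit 7) (nat_lit 4) (nat_lit 237) (nat_lit 218) (nat_lit 145)) (XT.lf (nat_lit 0) (nat_lit 16902200493) (nat_lit 76) (nat_lit 110876530304) (nat_lit 152) (nat_lit 218074782103) (nat_lit 5) (nat_lit 5) (nat_lit 6) (nat_lit 5) (nat_lit 7) (nat_lit 4) (nat_lit 238) (nat_lit 218) (nat_lit 144))) (XT.nd (nat_lit 78) (nat_lit 76) (nat_lit 0) (XT.lf (nat_lit 0) (nat_lit 178177743008) (nat_lit 76) (nat_lit 27137809446) (nat_lit 152) (nat_lit 184670834561) (nat_lit 5) (nat_lit 5) (nat_lit 6)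 (nat_lit 5) (nat_lit 7) (nat_lit 4) (nat_lit 239) (nat_lit 218) (nat_lit 143)) (XT.nd (nat_lit 78) (nat_lit 76) (nat_lit 0) (XT.lf (nat_lit 0) (nat_lit 296145488840) (nat_lit 152) (nat_lit 78759206102) (nat_lit 0) (nat_lit 65701492426) (nat_lit 5) (nat_lit 5) (nat_lit 7) (nat_lit 4) (nat_lit 5) (nat_lit 4) (nat_lit 240) (nat_lit 218) (nat_lit 142)) (XT.lf (nat_lit 0) (nat_lit 77366128339) (nat_lit 76) (nat_lit 325844357533) (nat_lit 76) (nat_lit 95399628406) (nat_lit 4) (nat_lit 4) (nat_lit 5) (nat_lit 5) (nat_lit 5) (nat_lit 4) (nat_lit 241) (nat_lit 218) (nat_lit 141)))))) (XT.nd (nat_lit 312) (nat_lit 0) (nat_lit 0) (XT.nd (nat_lit 156) (nat_lit 76) (nat_lit 0) (XT.nd (nat_lit 78) (nat_lit 76) (nat_lit 0) (XT.lf (nat_lit 0) (nat_lit 261678654620) (nat_lit 76) (nat_lit 266948975934) (nat_lit 76) (nat_lit 36503609666) (nat_lit 4) (nat_lit 4) (nat_lit 5) (nat_lit 5) (nat_lit 5) (nat_lit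 4) (nat_lit 242) (nat_lit 218) (nat_lit 140)) (XT.lf (nat_lit 0) (nat_lit 29664191099) (nat_lit 152) (nat_lit 168744402816) (nat_lit 76) (nat_lit 443161904512) (nat_lit 3) (nat_lit 5) (nat_lit 5) (nat_lit 5) (nat_lit 4) (nat_lit 4) (nat_lit 243) (nat_lit 218) (nat_lit 139))) (XT.nd (nat_lit 78) (nat_lit 76) (nat_lit 0) (XT.lf (nat_lit 0) (nat_lit 103656734664) (nat_lit 152) (nat_lit 14840393971) (nat_lit 76) (nat_lit 610897786867) (nat_lit 3) (nat_lit 5) (nat_lit 5) (nat_lit 5) (nat_lit 4) (nat_lit 4) (nat_lit 244) (nat_lit 218) (nat_lit 138)) (XT.lf (nat_lit 0) (nat_lit 170686972674) (nat_lit 76) (nat_lit 22165812747) (nat_lit 152) (nat_lit 637211840785) (nat_lit 2) (nat_lit 5) (nat_lit 3) (nat_lit 5) (nat_lit 4) (nat_lit 4) (nat_lit 245) (nat_lit 218) (nat_lit 137)))) (XT.nd (nat_lit 156) (nat_lit 0) (nat_lit 0) (XT.nd (nat_lit 78) (nat_lit 0) (nat_lit 0) (XT.lf (nat_lit 0) (nat_lit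 298002356087) (nat_lit 152) (nat_lit 563001176756) (nat_lit 0) (nat_lit 84625332668) (nat_lit 2) (nat_lit 5) (nat_lit 4) (nat_lit 4) (nat_lit 2) (nat_lit 4) (nat_lit 246) (nat_lit 218) (nat_lit 136)) (XT.lf (nat_lit 0) (nat_lit 419537092272) (nat_lit 152) (nat_lit 452781855347) (nat_lit 0) (nat_lit 206159775546) (nat_lit 2) (nat_lit 5) (nat_lit 4) (nat_lit 4) (nat_lit 2) (nat_lit 4) (nat_lit 247) (nat_lit 218) (nat_lit 135))) (XT.nd (nat_lit 78) (nat_lit 0) (nat_lit 0) (XT.lf (nat_lit 0) (nat_lit 559301759183) (nat_lit 152) (nat_lit 326030135991) (nat_lit 0) (nat_lit 345924187407) (nat_lit 2) (nat_lit 5) (nat_lit 4) (nat_lit 4) (nat_lit 2) (nat_lit 4) (nat_lit 248) (nat_lit 218) (nat_lit 134)) (XT.nd (nat_lit 78) (nat_lit 0) (nat_lit 0) (XT.lf (nat_lit 0) (nat_lit 720030882911) (nat_lit 152) (nat_lit 180266093745) (nat_lit 0) (nat_lit 506653089353) (nat_lit 2) (nat_lit 5) (nat_lit 4)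 (nat_lit 4) (nat_lit 2) (nat_lit 4) (nat_lit 249) (nat_lit 218) (nat_lit 133)) (XT.lf (nat_lit 0) (nat_lit 904869163703) (nat_lit 152) (nat_lit 12637823436) (nat_lit 0) (nat_lit 691491177291) (nat_lit 2) (nat_lit 5) (nat_lit 4) (nat_lit 4) (nat_lit 2) (nat_lit 4) (nat_lit 250) (nat_lit 218) (nat_lit 132))))))))
noncomputable def xc49 : XT := (XT.nd (nat_lit 29718) (nat_lit 0) (nat_lit 76) (XT.nd (nat_lit 29016) (nat_lit 0) (nat_lit 1064) (XT.nd (nat_lit 312) (nat_lit 0) (nat_lit 0) (XT.nd (nat_lit 156) (nat_lit 0) (nat_lit 0) (XT.nd (nat_lit 78) (nat_lit 0) (nat_lit 0) (XT.lf (nat_lit 0) (nat_lit 189619914579) (nat_lit 76) (nat_lit 932373451631) (nat_lit 76) (nat_lit 718995297519) (nat_lit 1) (nat_lit 4) (nat_lit 2) (nat_lit 5) (nat_lit 2) (nat_lit 4) (nat_lit 251) (nat_lit 218) (nat_lit 131)) (XT.lf (nat_lit 0) (nat_lit 422981320402) (nat_lit 76) (nat_lit 949072648162) (nat_lit 76)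 (nat_lit 735694348225) (nat_lit 1) (nat_lit 4) (nat_lit 2) (nat_lit 5) (nat_lit 2) (nat_lit 4) (nat_lit 252) (nat_lit 218) (nat_lit 130))) (XT.nd (nat_lit 78) (nat_lit 0) (nat_lit 0) (XT.lf (nat_lit 0) (nat_lit 691346675280) (nat_lit 76) (nat_lit 968276840633) (nat_lit 76) (nat_lit 754898413891) (nat_lit 1) (nat_lit 4) (nat_lit 2) (nat_lit 5) (nat_lit 2) (nat_lit 4) (nat_lit 253) (nat_lit 218) (nat_lit 129)) (XT.lf (nat_lit 0) (nat_lit 999966605722) (nat_lit 76) (nat_lit 990361763242) (nat_lit 76) (nat_lit 776983226236) (nat_lit 1) (nat_lit 4) (nat_lit 2) (nat_lit 5) (nat_lit 2) (nat_lit 4) (nat_lit 254) (nat_lit 218) (nat_lit 128)))) (XT.nd (nat_lit 28470) (nat_lit 0) (nat_lit 2128) (XT.nd (nat_lit 78) (nat_lit 0) (nat_lit 0) (XT.lf (nat_lit 0) (nat_lit 1354879327760) (nat_lit 76) (nat_lit 1015759512304) (nat_lit 76) (nat_lit 802380879414) (nat_lit 1) (nat_lit 4) (nat_lit 2) (nat_lit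 5) (nat_lit 2) (nat_lit 4) (nat_lit 255) (nat_lit 218) (nat_lit 127)) (XT.lf (nat_lit 0) (nat_lit 1763028785953) (nat_lit 76) (nat_lit 1044967000298) (nat_lit 76) (nat_lit 831588284033) (nat_lit 1) (nat_lit 4) (nat_lit 2) (nat_lit 5) (nat_lit 2) (nat_lit 4) (nat_lit 256) (nat_lit 218) (nat_lit 126))) (XT.nd (nat_lit 78) (nat_lit 0) (nat_lit 76) (XT.lf (nat_lit 0) (nat_lit 5040762364) (nat_lit 532) (nat_lit 12129677893) (nat_lit 532) (nat_lit 12129677893) (nat_lit 29) (nat_lit 3) (nat_lit 36) (nat_lit 3) (nat_lit 36) (nat_lit 5) (nat_lit 219) (nat_lit 219) (nat_lit 162)) (XT.nd (nat_lit 78) (nat_lit 0) (nat_lit 0) (XT.lf (nat_lit 0) (nat_lit 11620851724) (nat_lit 456) (nat_lit 41841499209) (nat_lit 532) (nat_lit 9470032614) (nat_lit 30) (nat_lit 5) (nat_lit 36) (nat_lit 5) (nat_lit 37) (nat_lit 5) (nat_lit 220) (nat_lit 219) (nat_lit 161)) (XT.lf (nat_lit 76) (nat_lit 6192967186) (nat_lit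 0) (nat_lit 9016106894) (nat_lit 532) (nat_lit 52559877103) (nat_lit 31) (nat_lit 5) (nat_lit 30) (nat_lit 5) (nat_lit 37) (nat_lit 5) (nat_lit 221) (nat_lit 219) (nat_lit 160)))))) (XT.nd (nat_lit 312) (nat_lit 608) (nat_lit 0) (XT.nd (nat_lit 156) (nat_lit 608) (nat_lit 0) (XT.nd (nat_lit 78) (nat_lit 0) (nat_lit 76) (XT.lf (nat_lit 0) (nat_lit 21593072882) (nat_lit 456) (nat_lit 10314957420) (nat_lit 532) (nat_lit 41242403265) (nat_lit 31) (nat_lit 5) (nat_lit 37) (nat_lit 5) (nat_lit 38) (nat_lit 5) (nat_lit 222) (nat_lit 219) (nat_lit 159)) (XT.lf (nat_lit 0) (nat_lit 30898460807) (nat_lit 456) (nat_lit 28784833950) (nat_lit 76) (nat_lit 19498769147) (nat_lit 32) (nat_lit 5) (nat_lit 38) (nat_lit 5) (nat_lit 33) (nat_lit 5) (nat_lit 223) (nat_lit 219) (nat_lit 158))) (XT.nd (nat_lit 78) (nat_lit 228) (nat_lit 0) (XT.lf (nat_lit 0) (nat_lit 35635510256) (nat_lit 456) (nat_lit 8008175836)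 (nat_lit 532) (nat_lit 42311255359) (nat_lit 26) (nat_lit 5) (nat_lit 32) (nat_lit 5) (nat_lit 33) (nat_lit 5) (nat_lit 224) (nat_lit 219) (nat_lit 157)) (XT.lf (nat_lit 0) (nat_lit 17393746985) (nat_lit 228) (nat_lit 43418475288) (nat_lit 304) (nat_lit 32730627918) (nat_lit 23) (nat_lit 5) (nat_lit 26) (nat_lit 5) (nat_lit 27) (nat_lit 5) (nat_lit 225) (nat_lit 219) (nat_lit 156)))) (XT.nd (nat_lit 156) (nat_lit 456) (nat_lit 0) (XT.nd (nat_lit 78) (nat_lit 152) (nat_lit 0) (XT.lf (nat_lit 0) (nat_lit 82615024348) (nat_lit 304) (nat_lit 4440775475) (nat_lit 76) (nat_lit 15048445480) (nat_lit 23) (nat_lit 5) (nat_lit 27) (nat_lit 5) (nat_lit 24) (nat_lit 5) (nat_lit 226) (nat_lit 219) (nat_lit 155)) (XT.lf (nat_lit 0) (nat_lit 80865323467) (nat_lit 152) (nat_lit 29966090975) (nat_lit 228) (nat_lit 866998254) (nat_lit 21) (nat_lit 5) (nat_lit 23) (nat_lit 5) (nat_lit 24) (nat_lit 5) (nat_lit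 227) (nat_lit 219) (nat_lit 154))) (XT.nd (nat_lit 78) (nat_lit 152) (nat_lit 0) (XT.lf (nat_lit 0) (nat_lit 21980451492) (nat_lit 304) (nat_lit 64515449389) (nat_lit 76) (nat_lit 35999496826) (nat_lit 17) (nat_lit 5) (nat_lit 21) (nat_lit 5) (nat_lit 18) (nat_lit 5) (nat_lit 228) (nat_lit 219) (nat_lit 153)) (XT.nd (nat_lit 78) (nat_lit 0) (nat_lit 0) (XT.lf (nat_lit 0) (nat_lit 27646205510) (nat_lit 152) (nat_lit 22971532655) (nat_lit 228) (nat_lit 84099277818) (nat_lit 15) (nat_lit 5) (nat_lit 17) (nat_lit 5) (nat_lit 18) (nat_lit 5) (nat_lit 229) (nat_lit 219) (nat_lit 152)) (XT.lf (nat_lit 0) (nat_lit 86680288855) (nat_lit 228) (nat_lit 12338481323) (nat_lit 76) (nat_lit 49502743147) (nat_lit 15) (nat_lit 5) (nat_lit 18) (nat_lit 5) (nat_lit 16) (nat_lit 5) (nat_lit 230) (nat_lit 219) (nat_lit 151))))))) (XT.nd (nat_lit 702) (nat_lit 228) (nat_lit 0) (XT.nd (nat_lit 312) (nat_lit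 304) (nat_lit 0) (XT.nd (nat_lit 156) (nat_lit 152) (nat_lit 0) (XT.nd (nat_lit 78) (nat_lit 152) (nat_lit 0) (XT.lf (nat_lit 0) (nat_lit 101019515936) (nat_lit 152) (nat_lit 30195933454) (nat_lit 228) (nat_lit 32936186395) (nat_lit 13) (nat_lit 5) (nat_lit 15) (nat_lit 5) (nat_lit 16) (nat_lit 5) (nat_lit 231) (nat_lit 219) (nat_lit 150)) (XT.lf (nat_lit 0) (nat_lit 3142427915) (nat_lit 152) (nat_lit 130569337303) (nat_lit 76) (nat_lit 48185687680) (nat_lit 11) (nat_lit 5) (nat_lit 13) (nat_lit 5) (nat_lit 12) (nat_lit 5) (nat_lit 232) (nat_lit 219) (nat_lit 149))) (XT.nd (nat_lit 78) (nat_lit 152) (nat_lit 0) (XT.lf (nat_lit 0) (nat_lit 45457625199) (nat_lit 152) (nat_lit 17173509950) (nat_lit 76) (nat_lit 139383576242) (nat_lit 11) (nat_lit 5) (nat_lit 13) (nat_lit 5) (nat_lit 12) (nat_lit 5) (nat_lit 233) (nat_lit 219) (nat_lit 148)) (XT.lf (nat_lit 0) (nat_lit 97519560699) (nat_lit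 228) (nat_lit 106262028984) (nat_lit 76) (nat_lit 21096017581) (nat_lit 9) (nat_lit 5) (nat_lit 12) (nat_lit 5) (nat_lit 10) (nat_lit 4) (nat_lit 234) (nat_lit 219) (nat_lit 147)))) (XT.nd (nat_lit 156) (nat_lit 228) (nat_lit 0) (XT.nd (nat_lit 78) (nat_lit 0) (nat_lit 0) (XT.lf (nat_lit 0) (nat_lit 24143912294) (nat_lit 76) (nat_lit 136071638912) (nat_lit 152) (nat_lit 90728409743) (nat_lit 8) (nat_lit 5) (nat_lit 9) (nat_lit 5) (nat_lit 10) (nat_lit 4) (nat_lit 235) (nat_lit 219) (nat_lit 146)) (XT.lf (nat_lit 0) (nat_lit 180544074361) (nat_lit 76) (nat_lit 54864581090) (nat_lit 152) (nat_lit 45264199026) (nat_lit 8) (nat_lit 5) (nat_lit 9) (nat_lit 5) (nat_lit 10) (nat_lit 4) (nat_lit 236) (nat_lit 219) (nat_lit 145))) (XT.nd (nat_lit 78) (nat_lit 76) (nat_lit 0) (XT.lf (nat_lit 0) (nat_lit 8776988152) (nat_lit 152) (nat_lit 267954261656) (nat_lit 76) (nat_lit 37947649979) (nat_lit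 6) (nat_lit 5) (nat_lit 8) (nat_lit 5) (nat_lit 7) (nat_lit 4) (nat_lit 237) (nat_lit 219) (nat_lit 144)) (XT.nd (nat_lit 78) (nat_lit 76) (nat_lit 0) (XT.lf (nat_lit 0) (nat_lit 72827874649) (nat_lit 152) (nat_lit 134729464275) (nat_lit 76) (nat_lit 145767766938) (nat_lit 6) (nat_lit 5) (nat_lit 8) (nat_lit 5) (nat_lit 7) (nat_lit 4) (nat_lit 238) (nat_lit 219) (nat_lit 143)) (XT.lf (nat_lit 0) (nat_lit 19450886482) (nat_lit 76) (nat_lit 127502594314) (nat_lit 152) (nat_lit 250777397556) (nat_lit 5) (nat_lit 5) (nat_lit 6) (nat_lit 5) (nat_lit 7) (nat_lit 4) (nat_lit 239) (nat_lit 219) (nat_lit 142)))))) (XT.nd (nat_lit 390) (nat_lit 76) (nat_lit 0) (XT.nd (nat_lit 156) (nat_lit 152) (nat_lit 0) (XT.nd (nat_lit 78) (nat_lit 0) (nat_lit 0) (XT.lf (nat_lit 0) (nat_lit 204916018299) (nat_lit 76) (nat_lit 31203771702) (nat_lit 152) (nat_lit 212363979864) (nat_lit 5) (nat_lit 5) (nat_lit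 6) (nat_lit 5) (nat_lit 7) (nat_lit 4) (nat_lit 240) (nat_lit 219) (nat_lit 141)) (XT.lf (nat_lit 0) (nat_lit 340573414717) (nat_lit 152) (nat_lit 90562586333) (nat_lit 0) (nat_lit 75560606368) (nat_lit 5) (nat_lit 5) (nat_lit 7) (nat_lit 4) (nat_lit 5) (nat_lit 4) (nat_lit 241) (nat_lit 219) (nat_lit 140))) (XT.nd (nat_lit 78) (nat_lit 76) (nat_lit 0) (XT.lf (nat_lit 0) (nat_lit 88980659443) (nat_lit 76) (nat_lit 374716937041) (nat_lit 76) (nat_lit 109703574656) (nat_lit 4) (nat_lit 4) (nat_lit 5) (nat_lit 5) (nat_lit 5) (nat_lit 4) (nat_lit 242) (nat_lit 219) (nat_lit 139)) (XT.nd (nat_lit 78) (nat_lit 76) (nat_lit 0) (XT.lf (nat_lit 0) (nat_lit 300938810946) (nat_lit 76) (nat_lit 306987779610) (nat_lit 76) (nat_lit 41973935455) (nat_lit 4) (nat_lit 4) (nat_lit 5) (nat_lit 5) (nat_lit 5) (nat_lit 4) (nat_lit 243) (nat_lit 219) (nat_lit 138)) (XT.lf (nat_lit 0) (nat_lit 34118128245)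 (nat_lit 152) (nat_lit 194048556335) (nat_lit 76) (nat_lit 509639031849) (nat_lit 3) (nat_lit 5) (nat_lit 5) (nat_lit 5) (nat_lit 4) (nat_lit 4) (nat_lit 244) (nat_lit 219) (nat_lit 137))))) (XT.nd (nat_lit 156) (nat_lit 0) (nat_lit 0) (XT.nd (nat_lit 78) (nat_lit 76) (nat_lit 0) (XT.lf (nat_lit 0) (nat_lit 119208991369) (nat_lit 152) (nat_lit 17059925324) (nat_lit 76) (nat_lit 702534925905) (nat_lit 3) (nat_lit 5) (nat_lit 5) (nat_lit 5) (nat_lit 4) (nat_lit 4) (nat_lit 245) (nat_lit 219) (nat_lit 136)) (XT.lf (nat_lit 0) (nat_lit 196295993777) (nat_lit 76) (nat_lit 25488110992) (nat_lit 152) (nat_lit 732789934108) (nat_lit 2) (nat_lit 5) (nat_lit 3) (nat_lit 5) (nat_lit 4) (nat_lit 4) (nat_lit 246) (nat_lit 219) (nat_lit 135))) (XT.nd (nat_lit 78) (nat_lit 0) (nat_lit 0) (XT.lf (nat_lit 0) (nat_lit 342705721179) (nat_lit 152) (nat_lit 647445966691) (nat_lit 0) (nat_lit 97321258587)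 (nat_lit 2) (nat_lit 5) (nat_lit 4) (nat_lit 4) (nat_lit 2) (nat_lit 4) (nat_lit 247) (nat_lit 219) (nat_lit 134)) (XT.nd (nat_lit 78) (nat_lit 0) (nat_lit 0) (XT.lf (nat_lit 0) (nat_lit 482470274964) (nat_lit 152) (nat_lit 520694449667) (nat_lit 0) (nat_lit 237085590590) (nat_lit 2) (nat_lit 5) (nat_lit 4) (nat_lit 4) (nat_lit 2) (nat_lit 4) (nat_lit 248) (nat_lit 219) (nat_lit 133)) (XT.lf (nat_lit 0) (nat_lit 643199300322) (nat_lit 152) (nat_lit 374930583362) (nat_lit 0) (nat_lit 397814423094) (nat_lit 2) (nat_lit 5) (nat_lit 4) (nat_lit 4) (nat_lit 2) (nat_lit 4) (nat_lit 249) (nat_lit 219) (nat_lit 132))))))))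
noncomputable def xc50 : XT := (XT.nd (nat_lit 29874) (nat_lit 0) (nat_lit 76) (XT.nd (nat_lit 29172) (nat_lit 0) (nat_lit 1064) (XT.nd (nat_lit 312) (nat_lit 0) (nat_lit 0) (XT.nd (nat_lit 156) (nat_lit 76) (nat_lit 0) (XT.nd (nat_lit 78) (nat_lit 0) (nat_lit 0) (XT.lf (nat_lit 0) (nat_lit 828037495575) (nat_lit 152) (nat_lit 207302466044) (nat_lit 0) (nat_lit 582652450648) (nat_lit 2) (nat_lit 5) (nat_lit 4) (nat_lit 4) (nat_lit 2) (nat_lit 4) (nat_lit 250) (nat_lit 219) (nat_lit 131)) (XT.lf (nat_lit 0) (nat_lit 1040601260196) (nat_lit 152) (nat_lit 14530417157) (nat_lit 0) (nat_lit 795216069443) (nat_lit 2) (nat_lit 5) (nat_lit 4) (nat_lit 4) (nat_lit 2) (nat_lit 4) (nat_lit 251) (nat_lit 219) (nat_lit 130))) (XT.nd (nat_lit 78) (nat_lit 0) (nat_lit 0) (XT.lf (nat_lit 0) (nat_lit 218065720871) (nat_lit 76) (nat_lit 1072228215407) (nat_lit 76) (nat_lit 826842897849) (nat_lit 1) (nat_lit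 4) (nat_lit 2) (nat_lit 5) (nat_lit 2) (nat_lit 4) (nat_lit 252) (nat_lit 219) (nat_lit 129)) (XT.lf (nat_lit 0) (nat_lit 486430969857) (nat_lit 76) (nat_lit 1091432454979) (nat_lit 76) (nat_lit 846047027156) (nat_lit 1) (nat_lit 4) (nat_lit 2) (nat_lit 5) (nat_lit 2) (nat_lit 4) (nat_lit 253) (nat_lit 219) (nat_lit 128)))) (XT.nd (nat_lit 28626) (nat_lit 0) (nat_lit 2128) (XT.nd (nat_lit 78) (nat_lit 0) (nat_lit 0) (XT.lf (nat_lit 0) (nat_lit 795050808220) (nat_lit 76) (nat_lit 1113517418547) (nat_lit 76) (nat_lit 868131894842) (nat_lit 1) (nat_lit 4) (nat_lit 2) (nat_lit 5) (nat_lit 2) (nat_lit 4) (nat_lit 254) (nat_lit 219) (nat_lit 127)) (XT.lf (nat_lit 0) (nat_lit 1149963450188) (nat_lit 76) (nat_lit 1138915203224) (nat_lit 76) (nat_lit 893529596143) (nat_lit 1) (nat_lit 4) (nat_lit 2) (nat_lit 5) (nat_lit 2) (nat_lit 4) (nat_lit 255) (nat_lit 219) (nat_lit 126))) (XT.nd (nat_lit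 78) (nat_lit 0) (nat_lit 76) (XT.lf (nat_lit 0) (nat_lit 5825635913) (nat_lit 532) (nat_lit 13933497299) (nat_lit 532) (nat_lit 13933497299) (nat_lit 29) (nat_lit 3) (nat_lit 36) (nat_lit 3) (nat_lit 36) (nat_lit 5) (nat_lit 220) (nat_lit 220) (nat_lit 160)) (XT.nd (nat_lit 78) (nat_lit 0) (nat_lit 0) (XT.lf (nat_lit 0) (nat_lit 13414152570) (nat_lit 456) (nat_lit 48084162537) (nat_lit 532) (nat_lit 10869556252) (nat_lit 30) (nat_lit 5) (nat_lit 36) (nat_lit 5) (nat_lit 37) (nat_lit 5) (nat_lit 221) (nat_lit 220) (nat_lit 159)) (XT.lf (nat_lit 76) (nat_lit 7152633000) (nat_lit 0) (nat_lit 10382169799) (nat_lit 532) (nat_lit 60395632198) (nat_lit 31) (nat_lit 5) (nat_lit 30) (nat_lit 5) (nat_lit 37) (nat_lit 5) (nat_lit 222) (nat_lit 220) (nat_lit 158)))))) (XT.nd (nat_lit 312) (nat_lit 608) (nat_lit 0) (XT.nd (nat_lit 156) (nat_lit 608) (nat_lit 0) (XT.nd (nat_lit 78) (nat_lit 0) (nat_lit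 76) (XT.lf (nat_lit 0) (nat_lit 24870328944) (nat_lit 456) (nat_lit 11831846419) (nat_lit 532) (nat_lit 47417490538) (nat_lit 31) (nat_lit 5) (nat_lit 37) (nat_lit 5) (nat_lit 38) (nat_lit 5) (nat_lit 223) (nat_lit 220) (nat_lit 157)) (XT.lf (nat_lit 0) (nat_lit 35567049573) (nat_lit 456) (nat_lit 33071673631) (nat_lit 76) (nat_lit 22417710722) (nat_lit 32) (nat_lit 5) (nat_lit 38) (nat_lit 5) (nat_lit 33) (nat_lit 5) (nat_lit 224) (nat_lit 220) (nat_lit 156))) (XT.nd (nat_lit 78) (nat_lit 228) (nat_lit 0) (XT.lf (nat_lit 0) (nat_lit 41009107910) (nat_lit 456) (nat_lit 9211219403) (nat_lit 532) (nat_lit 48625244818) (nat_lit 26) (nat_lit 5) (nat_lit 32) (nat_lit 5) (nat_lit 33) (nat_lit 5) (nat_lit 225) (nat_lit 220) (nat_lit 155)) (XT.lf (nat_lit 0) (nat_lit 20031116711) (nat_lit 228) (nat_lit 49929745446) (nat_lit 304) (nat_lit 37611094107) (nat_lit 23) (nat_lit 5) (nat_lit 26) (nat_lit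 5) (nat_lit 27) (nat_lit 5) (nat_lit 226) (nat_lit 220) (nat_lit 154)))) (XT.nd (nat_lit 156) (nat_lit 456) (nat_lit 0) (XT.nd (nat_lit 78) (nat_lit 152) (nat_lit 0) (XT.lf (nat_lit 0) (nat_lit 95030619431) (nat_lit 304) (nat_lit 5080289160) (nat_lit 76) (nat_lit 17306952339) (nat_lit 23) (nat_lit 5) (nat_lit 27) (nat_lit 5) (nat_lit 24) (nat_lit 5) (nat_lit 227) (nat_lit 220) (nat_lit 153)) (XT.lf (nat_lit 0) (nat_lit 93019472843) (nat_lit 152) (nat_lit 34457536301) (nat_lit 228) (nat_lit 974361068) (nat_lit 21) (nat_lit 5) (nat_lit 23) (nat_lit 5) (nat_lit 24) (nat_lit 5) (nat_lit 228) (nat_lit 220) (nat_lit 152))) (XT.nd (nat_lit 78) (nat_lit 152) (nat_lit 0) (XT.lf (nat_lit 0) (nat_lit 25296923391) (nat_lit 304) (nat_lit 74167772309) (nat_lit 76) (nat_lit 41403351610) (nat_lit 17) (nat_lit 5) (nat_lit 21) (nat_lit 5) (nat_lit 18) (nat_lit 5) (nat_lit 229) (nat_lit 220) (nat_lit 151))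 (XT.nd (nat_lit 78) (nat_lit 0) (nat_lit 0) (XT.lf (nat_lit 0) (nat_lit 31816015166) (nat_lit 152) (nat_lit 26411807157) (nat_lit 228) (nat_lit 96695258515) (nat_lit 15) (nat_lit 5) (nat_lit 17) (nat_lit 5) (nat_lit 18) (nat_lit 5) (nat_lit 230) (nat_lit 220) (nat_lit 150)) (XT.lf (nat_lit 0) (nat_lit 99697597083) (nat_lit 228) (nat_lit 14168179461) (nat_lit 76) (nat_lit 56932661136) (nat_lit 15) (nat_lit 5) (nat_lit 18) (nat_lit 5) (nat_lit 16) (nat_lit 5) (nat_lit 231) (nat_lit 220) (nat_lit 149))))))) (XT.nd (nat_lit 702) (nat_lit 228) (nat_lit 0) (XT.nd (nat_lit 312) (nat_lit 304) (nat_lit 0) (XT.nd (nat_lit 156) (nat_lit 152) (nat_lit 0) (XT.nd (nat_lit 78) (nat_lit 152) (nat_lit 0) (XT.lf (nat_lit 0) (nat_lit 116191733573) (nat_lit 152) (nat_lit 34719770984) (nat_lit 228) (nat_lit 37861706751) (nat_lit 13) (nat_lit 5) (nat_lit 15) (nat_lit 5) (nat_lit 16) (nat_lit 5) (nat_lit 232)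 (nat_lit 220) (nat_lit 148)) (XT.lf (nat_lit 0) (nat_lit 3626685001) (nat_lit 152) (nat_lit 150135395942) (nat_lit 76) (nat_lit 55418901432) (nat_lit 11) (nat_lit 5) (nat_lit 13) (nat_lit 5) (nat_lit 12) (nat_lit 5) (nat_lit 233) (nat_lit 220) (nat_lit 147))) (XT.nd (nat_lit 78) (nat_lit 152) (nat_lit 0) (XT.lf (nat_lit 0) (nat_lit 52287480196) (nat_lit 152) (nat_lit 19732717350) (nat_lit 76) (nat_lit 160295774069) (nat_lit 11) (nat_lit 5) (nat_lit 13) (nat_lit 5) (nat_lit 12) (nat_lit 5) (nat_lit 234) (nat_lit 220) (nat_lit 146)) (XT.lf (nat_lit 0) (nat_lit 112157740843) (nat_lit 228) (nat_lit 122185212135) (nat_lit 76) (nat_lit 24265432573) (nat_lit 9) (nat_lit 5) (nat_lit 12) (nat_lit 5) (nat_lit 10) (nat_lit 4) (nat_lit 235) (nat_lit 220) (nat_lit 145)))) (XT.nd (nat_lit 156) (nat_lit 228) (nat_lit 0) (XT.nd (nat_lit 78) (nat_lit 0) (nat_lit 0) (XT.lf (nat_lit 0) (nat_lit 27780255756)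 (nat_lit 76) (nat_lit 156476892628) (nat_lit 152) (nat_lit 104327628052) (nat_lit 8) (nat_lit 5) (nat_lit 9) (nat_lit 5) (nat_lit 10) (nat_lit 4) (nat_lit 236) (nat_lit 220) (nat_lit 144)) (XT.lf (nat_lit 0) (nat_lit 207638517358) (nat_lit 76) (nat_lit 63089492496) (nat_lit 152) (nat_lit 52045095705) (nat_lit 8) (nat_lit 5) (nat_lit 9) (nat_lit 5) (nat_lit 10) (nat_lit 4) (nat_lit 237) (nat_lit 220) (nat_lit 143))) (XT.nd (nat_lit 78) (nat_lit 76) (nat_lit 0) (XT.lf (nat_lit 0) (nat_lit 10101155544) (nat_lit 152) (nat_lit 308134713106) (nat_lit 76) (nat_lit 43644230319) (nat_lit 6) (nat_lit 5) (nat_lit 8) (nat_lit 5) (nat_lit 7) (nat_lit 4) (nat_lit 238) (nat_lit 220) (nat_lit 142)) (XT.nd (nat_lit 78) (nat_lit 76) (nat_lit 0) (XT.lf (nat_lit 0) (nat_lit 83758681211) (nat_lit 152) (nat_lit 154927851048) (nat_lit 76) (nat_lit 167636786625) (nat_lit 6) (nat_lit 5) (nat_lit 8) (nat_lit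 5) (nat_lit 7) (nat_lit 4) (nat_lit 239) (nat_lit 220) (nat_lit 141)) (XT.lf (nat_lit 0) (nat_lit 22378618445) (nat_lit 76) (nat_lit 146623888538) (nat_lit 152) (nat_lit 288387502946) (nat_lit 5) (nat_lit 5) (nat_lit 6) (nat_lit 5) (nat_lit 7) (nat_lit 4) (nat_lit 240) (nat_lit 220) (nat_lit 140)))))) (XT.nd (nat_lit 390) (nat_lit 76) (nat_lit 0) (XT.nd (nat_lit 156) (nat_lit 152) (nat_lit 0) (XT.nd (nat_lit 78) (nat_lit 0) (nat_lit 0) (XT.lf (nat_lit 0) (nat_lit 235662202775) (nat_lit 76) (nat_lit 35880776655) (nat_lit 152) (nat_lit 244212920980) (nat_lit 5) (nat_lit 5) (nat_lit 6) (nat_lit 5) (nat_lit 7) (nat_lit 4) (nat_lit 241) (nat_lit 220) (nat_lit 139)) (XT.lf (nat_lit 0) (nat_lit 391664041330) (nat_lit 152) (nat_lit 104139034258) (nat_lit 0) (nat_lit 86897638781) (nat_lit 5) (nat_lit 5) (nat_lit 7) (nat_lit 4) (nat_lit 5) (nat_lit 4) (nat_lit 242) (nat_lit 220) (nat_lit 138)))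 (XT.nd (nat_lit 78) (nat_lit 76) (nat_lit 0) (XT.lf (nat_lit 0) (nat_lit 102335026301) (nat_lit 76) (nat_lit 430921396976) (nat_lit 76) (nat_lit 126154575497) (nat_lit 4) (nat_lit 4) (nat_lit 5) (nat_lit 5) (nat_lit 5) (nat_lit 4) (nat_lit 243) (nat_lit 220) (nat_lit 137)) (XT.nd (nat_lit 78) (nat_lit 76) (nat_lit 0) (XT.lf (nat_lit 0) (nat_lit 346085952538) (nat_lit 76) (nat_lit 353033267750) (nat_lit 76) (nat_lit 48266081983) (nat_lit 4) (nat_lit 4) (nat_lit 5) (nat_lit 5) (nat_lit 5) (nat_lit 4) (nat_lit 244) (nat_lit 220) (nat_lit 136)) (XT.lf (nat_lit 0) (nat_lit 39239105312) (nat_lit 152) (nat_lit 223150163487) (nat_lit 76) (nat_lit 586087035329) (nat_lit 3) (nat_lit 5) (nat_lit 5) (nat_lit 5) (nat_lit 4) (nat_lit 4) (nat_lit 245) (nat_lit 220) (nat_lit 135))))) (XT.nd (nat_lit 156) (nat_lit 0) (nat_lit 0) (XT.nd (nat_lit 78) (nat_lit 76) (nat_lit 0) (XT.lf (nat_lit 0) (nat_lit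 137093172971) (nat_lit 152) (nat_lit 19613978212) (nat_lit 76) (nat_lit 807917033228) (nat_lit 3) (nat_lit 5) (nat_lit 5) (nat_lit 5) (nat_lit 4) (nat_lit 4) (nat_lit 246) (nat_lit 220) (nat_lit 134)) (XT.lf (nat_lit 0) (nat_lit 225744910954) (nat_lit 76) (nat_lit 29309381579) (nat_lit 152) (nat_lit 842705639502) (nat_lit 2) (nat_lit 5) (nat_lit 3) (nat_lit 5) (nat_lit 4) (nat_lit 4) (nat_lit 247) (nat_lit 220) (nat_lit 133))) (XT.nd (nat_lit 78) (nat_lit 0) (nat_lit 0) (XT.lf (nat_lit 0) (nat_lit 394113856618) (nat_lit 152) (nat_lit 744558788667) (nat_lit 0) (nat_lit 111921054951) (nat_lit 2) (nat_lit 5) (nat_lit 4) (nat_lit 4) (nat_lit 2) (nat_lit 4) (nat_lit 248) (nat_lit 220) (nat_lit 132)) (XT.nd (nat_lit 78) (nat_lit 0) (nat_lit 0) (XT.lf (nat_lit 0) (nat_lit 554842796437) (nat_lit 152) (nat_lit 598795075354) (nat_lit 0) (nat_lit 272649827071) (nat_lit 2) (nat_lit 5) (nat_lit 4)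 (nat_lit 4) (nat_lit 2) (nat_lit 4) (nat_lit 249) (nat_lit 220) (nat_lit 131)) (XT.lf (nat_lit 0) (nat_lit 739680917308) (nat_lit 152) (nat_lit 431167091073) (nat_lit 0) (nat_lit 457487802117) (nat_lit 2) (nat_lit 5) (nat_lit 4) (nat_lit 4) (nat_lit 2) (nat_lit 4) (nat_lit 250) (nat_lit 220) (nat_lit 130))))))))
noncomputable def xc51 : XT := (XT.nd (nat_lit 29952) (nat_lit 0) (nat_lit 76) (XT.nd (nat_lit 29250) (nat_lit 0) (nat_lit 912) (XT.nd (nat_lit 312) (nat_lit 0) (nat_lit 0) (XT.nd (nat_lit 156) (nat_lit 76) (nat_lit 0) (XT.nd (nat_lit 78) (nat_lit 0) (nat_lit 0) (XT.lf (nat_lit 0) (nat_lit 952244617249) (nat_lit 152) (nat_lit 238395157869) (nat_lit 0) (nat_lit 670051375252) (nat_lit 2) (nat_lit 5) (nat_lit 4) (nat_lit 4) (nat_lit 2) (nat_lit 4) (nat_lit 251) (nat_lit 220) (nat_lit 129)) (XT.lf (nat_lit 0) (nat_lit 1196692751257) (nat_lit 152) (nat_lit 16707650964) (nat_lit 0)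 (nat_lit 914499398996) (nat_lit 2) (nat_lit 5) (nat_lit 4) (nat_lit 4) (nat_lit 2) (nat_lit 4) (nat_lit 252) (nat_lit 220) (nat_lit 128))) (XT.nd (nat_lit 78) (nat_lit 0) (nat_lit 0) (XT.lf (nat_lit 0) (nat_lit 250777710650) (nat_lit 76) (nat_lit 1233061499538) (nat_lit 76) (nat_lit 950868051394) (nat_lit 1) (nat_lit 4) (nat_lit 2) (nat_lit 5) (nat_lit 2) (nat_lit 4) (nat_lit 253) (nat_lit 220) (nat_lit 127)) (XT.lf (nat_lit 0) (nat_lit 559397468943) (nat_lit 76) (nat_lit 1255146498722) (nat_lit 76) (nat_lit 972952967202) (nat_lit 1) (nat_lit 4) (nat_lit 2) (nat_lit 5) (nat_lit 2) (nat_lit 4) (nat_lit 254) (nat_lit 220) (nat_lit 126)))) (XT.nd (nat_lit 28704) (nat_lit 0) (nat_lit 2204) (XT.nd (nat_lit 28626) (nat_lit 0) (nat_lit 2128) (XT.lf (nat_lit 0) (nat_lit 914310041286) (nat_lit 76) (nat_lit 1280544314369) (nat_lit 76) (nat_lit 998350710348) (nat_lit 1) (nat_lit 4) (nat_lit 2)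 (nat_lit 5) (nat_lit 2) (nat_lit 4) (nat_lit 255) (nat_lit 220) (nat_lit 125)) (XT.lf (nat_lit 0) (nat_lit 6721227383) (nat_lit 532) (nat_lit 16011701645) (nat_lit 532) (nat_lit 16011701645) (nat_lit 29) (nat_lit 3) (nat_lit 36) (nat_lit 3) (nat_lit 36) (nat_lit 5) (nat_lit 221) (nat_lit 221) (nat_lit 158))) (XT.nd (nat_lit 78) (nat_lit 0) (nat_lit 0) (XT.lf (nat_lit 0) (nat_lit 15464213519) (nat_lit 456) (nat_lit 55271409561) (nat_lit 532) (nat_lit 12484124847) (nat_lit 30) (nat_lit 5) (nat_lit 36) (nat_lit 5) (nat_lit 37) (nat_lit 5) (nat_lit 222) (nat_lit 221) (nat_lit 157)) (XT.nd (nat_lit 78) (nat_lit 0) (nat_lit 76) (XT.lf (nat_lit 76) (nat_lit 8248757240) (nat_lit 0) (nat_lit 11949814264) (nat_lit 532) (nat_lit 69418510888) (nat_lit 31) (nat_lit 5) (nat_lit 30) (nat_lit 5) (nat_lit 37) (nat_lit 5) (nat_lit 223) (nat_lit 221) (nat_lit 156)) (XT.lf (nat_lit 0) (nat_lit 28629834906)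 (nat_lit 456) (nat_lit 13583670932) (nat_lit 532) (nat_lit 54521589947) (nat_lit 31) (nat_lit 5) (nat_lit 37) (nat_lit 5) (nat_lit 38) (nat_lit 5) (nat_lit 224) (nat_lit 221) (nat_lit 155)))))) (XT.nd (nat_lit 312) (nat_lit 760) (nat_lit 0) (XT.nd (nat_lit 156) (nat_lit 228) (nat_lit 0) (XT.nd (nat_lit 78) (nat_lit 456) (nat_lit 0) (XT.lf (nat_lit 0) (nat_lit 40927679519) (nat_lit 456) (nat_lit 38009070867) (nat_lit 76) (nat_lit 25775925897) (nat_lit 32) (nat_lit 5) (nat_lit 38) (nat_lit 5) (nat_lit 33) (nat_lit 5) (nat_lit 225) (nat_lit 221) (nat_lit 154)) (XT.lf (nat_lit 0) (nat_lit 47181851121) (nat_lit 456) (nat_lit 10594276372) (nat_lit 532) (nat_lit 55894306517) (nat_lit 26) (nat_lit 5) (nat_lit 32) (nat_lit 5) (nat_lit 33) (nat_lit 5) (nat_lit 226) (nat_lit 221) (nat_lit 153))) (XT.nd (nat_lit 78) (nat_lit 0) (nat_lit 0) (XT.lf (nat_lit 0) (nat_lit 23057188889) (nat_lit 228) (nat_lit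 57418072190) (nat_lit 304) (nat_lit 43230733272) (nat_lit 23) (nat_lit 5) (nat_lit 26) (nat_lit 5) (nat_lit 27) (nat_lit 5) (nat_lit 227) (nat_lit 221) (nat_lit 152)) (XT.lf (nat_lit 0) (nat_lit 109302861820) (nat_lit 304) (nat_lit 5822217120) (nat_lit 76) (nat_lit 19903932836) (nat_lit 23) (nat_lit 5) (nat_lit 27) (nat_lit 5) (nat_lit 24) (nat_lit 5) (nat_lit 228) (nat_lit 221) (nat_lit 151)))) (XT.nd (nat_lit 156) (nat_lit 304) (nat_lit 0) (XT.nd (nat_lit 78) (nat_lit 304) (nat_lit 0) (XT.lf (nat_lit 0) (nat_lit 106990806515) (nat_lit 152) (nat_lit 39623544198) (nat_lit 228) (nat_lit 1103360655) (nat_lit 21) (nat_lit 5) (nat_lit 23) (nat_lit 5) (nat_lit 24) (nat_lit 5) (nat_lit 229) (nat_lit 221) (nat_lit 150)) (XT.lf (nat_lit 0) (nat_lit 29106134245) (nat_lit 304) (nat_lit 85274038732) (nat_lit 76) (nat_lit 47616826193) (nat_lit 17) (nat_lit 5) (nat_lit 21) (nat_lit 5) (nat_lit 18)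 (nat_lit 5) (nat_lit 230) (nat_lit 221) (nat_lit 149))) (XT.nd (nat_lit 78) (nat_lit 152) (nat_lit 0) (XT.lf (nat_lit 0) (nat_lit 36605717123) (nat_lit 152) (nat_lit 30369453167) (nat_lit 228) (nat_lit 111185247878) (nat_lit 15) (nat_lit 5) (nat_lit 17) (nat_lit 5) (nat_lit 18) (nat_lit 5) (nat_lit 231) (nat_lit 221) (nat_lit 148)) (XT.nd (nat_lit 78) (nat_lit 152) (nat_lit 0) (XT.lf (nat_lit 0) (nat_lit 114663779103) (nat_lit 228) (nat_lit 16277471363) (nat_lit 76) (nat_lit 65475967882) (nat_lit 15) (nat_lit 5) (nat_lit 18) (nat_lit 5) (nat_lit 16) (nat_lit 5) (nat_lit 232) (nat_lit 221) (nat_lit 147)) (XT.lf (nat_lit 0) (nat_lit 133635079806) (nat_lit 152) (nat_lit 39923538152) (nat_lit 228) (nat_lit 43529690473) (nat_lit 13) (nat_lit 5) (nat_lit 15) (nat_lit 5) (nat_lit 16) (nat_lit 5) (nat_lit 233) (nat_lit 221) (nat_lit 146))))))) (XT.nd (nat_lit 702) (nat_lit 228) (nat_lit 0) (XT.nd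 (nat_lit 312) (nat_lit 228) (nat_lit 0) (XT.nd (nat_lit 156) (nat_lit 228) (nat_lit 0) (XT.nd (nat_lit 78) (nat_lit 0) (nat_lit 0) (XT.lf (nat_lit 0) (nat_lit 4180436636) (nat_lit 152) (nat_lit 172641080034) (nat_lit 76) (nat_lit 63735790031) (nat_lit 11) (nat_lit 5) (nat_lit 13) (nat_lit 5) (nat_lit 12) (nat_lit 5) (nat_lit 234) (nat_lit 221) (nat_lit 145)) (XT.lf (nat_lit 0) (nat_lit 60139079516) (nat_lit 152) (nat_lit 22679907301) (nat_lit 76) (nat_lit 184343664861) (nat_lit 11) (nat_lit 5) (nat_lit 13) (nat_lit 5) (nat_lit 12) (nat_lit 5) (nat_lit 235) (nat_lit 221) (nat_lit 144))) (XT.nd (nat_lit 78) (nat_lit 76) (nat_lit 0) (XT.lf (nat_lit 0) (nat_lit 128989149448) (nat_lit 228) (nat_lit 140500804014) (nat_lit 76) (nat_lit 27909037519) (nat_lit 9) (nat_lit 5) (nat_lit 12) (nat_lit 5) (nat_lit 10) (nat_lit 4) (nat_lit 236) (nat_lit 221) (nat_lit 143)) (XT.lf (nat_lit 0) (nat_lit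 31958452243) (nat_lit 76) (nat_lit 179944273689) (nat_lit 152) (nat_lit 119969178194) (nat_lit 8) (nat_lit 5) (nat_lit 9) (nat_lit 5) (nat_lit 10) (nat_lit 4) (nat_lit 237) (nat_lit 221) (nat_lit 142)))) (XT.nd (nat_lit 156) (nat_lit 76) (nat_lit 0) (XT.nd (nat_lit 78) (nat_lit 152) (nat_lit 0) (XT.lf (nat_lit 0) (nat_lit 238793997678) (nat_lit 76) (nat_lit 72549305212) (nat_lit 152) (nat_lit 59845256525) (nat_lit 8) (nat_lit 5) (nat_lit 9) (nat_lit 5) (nat_lit 10) (nat_lit 4) (nat_lit 238) (nat_lit 221) (nat_lit 141)) (XT.lf (nat_lit 0) (nat_lit 11622090063) (nat_lit 152) (nat_lit 354345326274) (nat_lit 76) (nat_lit 50194216733) (nat_lit 6) (nat_lit 5) (nat_lit 8) (nat_lit 5) (nat_lit 7) (nat_lit 4) (nat_lit 239) (nat_lit 221) (nat_lit 140))) (XT.nd (nat_lit 78) (nat_lit 76) (nat_lit 0) (XT.lf (nat_lit 0) (nat_lit 96327493121) (nat_lit 152) (nat_lit 178158686272) (nat_lit 76) (nat_lit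 192785219285) (nat_lit 6) (nat_lit 5) (nat_lit 8) (nat_lit 5) (nat_lit 7) (nat_lit 4) (nat_lit 240) (nat_lit 221) (nat_lit 139)) (XT.nd (nat_lit 78) (nat_lit 0) (nat_lit 0) (XT.lf (nat_lit 0) (nat_lit 25743047500) (nat_lit 76) (nat_lit 168614375469) (nat_lit 152) (nat_lit 331640710245) (nat_lit 5) (nat_lit 5) (nat_lit 6) (nat_lit 5) (nat_lit 7) (nat_lit 4) (nat_lit 241) (nat_lit 221) (nat_lit 138)) (XT.lf (nat_lit 0) (nat_lit 271018173441) (nat_lit 76) (nat_lit 41260200675) (nat_lit 152) (nat_lit 280840582481) (nat_lit 5) (nat_lit 5) (nat_lit 6) (nat_lit 5) (nat_lit 7) (nat_lit 4) (nat_lit 242) (nat_lit 221) (nat_lit 137)))))) (XT.nd (nat_lit 390) (nat_lit 76) (nat_lit 0) (XT.nd (nat_lit 156) (nat_lit 76) (nat_lit 0) (XT.nd (nat_lit 78) (nat_lit 76) (nat_lit 0) (XT.lf (nat_lit 0) (nat_lit 450417136683) (nat_lit 152) (nat_lit 119753885597) (nat_lit 0) (nat_lit 99934508763) (nat_lit 5)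 (nat_lit 5) (nat_lit 7) (nat_lit 4) (nat_lit 5) (nat_lit 4) (nat_lit 243) (nat_lit 221) (nat_lit 136)) (XT.lf (nat_lit 0) (nat_lit 117690775854) (nat_lit 76) (nat_lit 495557277130) (nat_lit 76) (nat_lit 145074332439) (nat_lit 4) (nat_lit 4) (nat_lit 5) (nat_lit 5) (nat_lit 5) (nat_lit 4) (nat_lit 244) (nat_lit 221) (nat_lit 135))) (XT.nd (nat_lit 78) (nat_lit 76) (nat_lit 0) (XT.lf (nat_lit 0) (nat_lit 398003624208) (nat_lit 76) (nat_lit 405986232354) (nat_lit 76) (nat_lit 55503012209) (nat_lit 4) (nat_lit 4) (nat_lit 5) (nat_lit 5) (nat_lit 5) (nat_lit 4) (nat_lit 245) (nat_lit 221) (nat_lit 134)) (XT.nd (nat_lit 78) (nat_lit 0) (nat_lit 0) (XT.lf (nat_lit 0) (nat_lit 45127434497) (nat_lit 152) (nat_lit 256618395914) (nat_lit 76) (nat_lit 674001715356) (nat_lit 3) (nat_lit 5) (nat_lit 5) (nat_lit 5) (nat_lit 4) (nat_lit 4) (nat_lit 246) (nat_lit 221) (nat_lit 133)) (XT.lf (nat_lit 0)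 (nat_lit 157659290993) (nat_lit 152) (nat_lit 22552342686) (nat_lit 76) (nat_lit 929106001019) (nat_lit 3) (nat_lit 5) (nat_lit 5) (nat_lit 5) (nat_lit 4) (nat_lit 4) (nat_lit 247) (nat_lit 221) (nat_lit 132))))) (XT.nd (nat_lit 156) (nat_lit 0) (nat_lit 0) (XT.nd (nat_lit 78) (nat_lit 0) (nat_lit 0) (XT.lf (nat_lit 0) (nat_lit 259610063939) (nat_lit 76) (nat_lit 33704317314) (nat_lit 152) (nat_lit 969109379777) (nat_lit 2) (nat_lit 5) (nat_lit 3) (nat_lit 5) (nat_lit 4) (nat_lit 4) (nat_lit 248) (nat_lit 221) (nat_lit 131)) (XT.lf (nat_lit 0) (nat_lit 453232657048) (nat_lit 152) (nat_lit 856239527173) (nat_lit 0) (nat_lit 128710428752) (nat_lit 2) (nat_lit 5) (nat_lit 4) (nat_lit 4) (nat_lit 2) (nat_lit 4) (nat_lit 249) (nat_lit 221) (nat_lit 130))) (XT.nd (nat_lit 78) (nat_lit 0) (nat_lit 0) (XT.lf (nat_lit 0) (nat_lit 638070713240) (nat_lit 152) (nat_lit 688611658576) (nat_lit 0)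 (nat_lit 313548358139) (nat_lit 2) (nat_lit 5) (nat_lit 4) (nat_lit 4) (nat_lit 2) (nat_lit 4) (nat_lit 250) (nat_lit 221) (nat_lit 129)) (XT.nd (nat_lit 78) (nat_lit 0) (nat_lit 0) (XT.lf (nat_lit 0) (nat_lit 850634356937) (nat_lit 152) (nat_lit 495839825967) (nat_lit 0) (nat_lit 526111891571) (nat_lit 2) (nat_lit 5) (nat_lit 4) (nat_lit 4) (nat_lit 2) (nat_lit 4) (nat_lit 251) (nat_lit 221) (nat_lit 128)) (XT.lf (nat_lit 0) (nat_lit 1095082442038) (nat_lit 152) (nat_lit 274152406535) (nat_lit 0) (nat_lit 770559880790) (nat_lit 2) (nat_lit 5) (nat_lit 4) (nat_lit 4) (nat_lit 2) (nat_lit 4) (nat_lit 252) (nat_lit 221) (nat_lit 127))))))))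
noncomputable def xc52 : XT := (XT.nd (nat_lit 30030) (nat_lit 0) (nat_lit 76) (XT.nd (nat_lit 29328) (nat_lit 0) (nat_lit 760) (XT.nd (nat_lit 28938) (nat_lit 0) (nat_lit 1900) (XT.nd (nat_lit 156) (nat_lit 0) (nat_lit 0) (XT.nd (nat_lit 78) (nat_lit 76) (nat_lit 0) (XT.lf (nat_lit 0) (nat_lit 1376197648469) (nat_lit 152) (nat_lit 19212037727) (nat_lit 0) (nat_lit 1051675003845) (nat_lit 2) (nat_lit 5) (nat_lit 4) (nat_lit 4) (nat_lit 2) (nat_lit 4) (nat_lit 253) (nat_lit 221) (nat_lit 126)) (XT.lf (nat_lit 0) (nat_lit 288395979080) (nat_lit 76) (nat_lit 1418020007508) (nat_lit 76) (nat_lit 1093497290383) (nat_lit 1) (nat_lit 4) (nat_lit 2) (nat_lit 5) (nat_lit 2) (nat_lit 4) (nat_lit 254) (nat_lit 221) (nat_lit 125))) (XT.nd (nat_lit 28704) (nat_lit 0) (nat_lit 2128) (XT.lf (nat_lit 0) (nat_lit 643308490878) (nat_lit 76) (nat_lit 1443417850086) (nat_lit 76) (nat_lit 1118895069916)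 (nat_lit 1) (nat_lit 4) (nat_lit 2) (nat_lit 5) (nat_lit 2) (nat_lit 4) (nat_lit 255) (nat_lit 221) (nat_lit 124)) (XT.lf (nat_lit 0) (nat_lit 7745854654) (nat_lit 532) (nat_lit 18404519085) (nat_lit 532) (nat_lit 18404519085) (nat_lit 29) (nat_lit 3) (nat_lit 36) (nat_lit 3) (nat_lit 36) (nat_lit 5) (nat_lit 222) (nat_lit 222) (nat_lit 156)))) (XT.nd (nat_lit 156) (nat_lit 304) (nat_lit 0) (XT.nd (nat_lit 78) (nat_lit 0) (nat_lit 0) (XT.lf (nat_lit 0) (nat_lit 17812532172) (nat_lit 456) (nat_lit 63542932068) (nat_lit 532) (nat_lit 14344747474) (nat_lit 30) (nat_lit 5) (nat_lit 36) (nat_lit 5) (nat_lit 37) (nat_lit 5) (nat_lit 223) (nat_lit 222) (nat_lit 155)) (XT.lf (nat_lit 76) (nat_lit 9503635506) (nat_lit 0) (nat_lit 13750089046) (nat_lit 532) (nat_lit 79803713880) (nat_lit 31) (nat_lit 5) (nat_lit 30) (nat_lit 5) (nat_lit 37) (nat_lit 5) (nat_lit 224) (nat_lit 222) (nat_lit 154)))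 (XT.nd (nat_lit 78) (nat_lit 380) (nat_lit 0) (XT.lf (nat_lit 0) (nat_lit 32946205506) (nat_lit 456) (nat_lit 15603866222) (nat_lit 532) (nat_lit 62693382941) (nat_lit 31) (nat_lit 5) (nat_lit 37) (nat_lit 5) (nat_lit 38) (nat_lit 5) (nat_lit 225) (nat_lit 222) (nat_lit 153)) (XT.nd (nat_lit 78) (nat_lit 456) (nat_lit 0) (XT.lf (nat_lit 0) (nat_lit 47086167938) (nat_lit 456) (nat_lit 43692772663) (nat_lit 76) (nat_lit 29638956419) (nat_lit 32) (nat_lit 5) (nat_lit 38) (nat_lit 5) (nat_lit 33) (nat_lit 5) (nat_lit 226) (nat_lit 222) (nat_lit 152)) (XT.lf (nat_lit 0) (nat_lit 54275292892) (nat_lit 456) (nat_lit 12184456814) (nat_lit 532) (nat_lit 64259756825) (nat_lit 26) (nat_lit 5) (nat_lit 32) (nat_lit 5) (nat_lit 33) (nat_lit 5) (nat_lit 227) (nat_lit 222) (nat_lit 151)))))) (XT.nd (nat_lit 312) (nat_lit 456) (nat_lit 0) (XT.nd (nat_lit 156) (nat_lit 456) (nat_lit 0) (XT.nd (nat_lit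 78) (nat_lit 0) (nat_lit 0) (XT.lf (nat_lit 0) (nat_lit 26531952229) (nat_lit 228) (nat_lit 66029924739) (nat_lit 304) (nat_lit 49698689235) (nat_lit 23) (nat_lit 5) (nat_lit 26) (nat_lit 5) (nat_lit 27) (nat_lit 5) (nat_lit 228) (nat_lit 222) (nat_lit 150)) (XT.lf (nat_lit 0) (nat_lit 125711636632) (nat_lit 304) (nat_lit 6680339544) (nat_lit 76) (nat_lit 22890231756) (nat_lit 23) (nat_lit 5) (nat_lit 27) (nat_lit 5) (nat_lit 24) (nat_lit 5) (nat_lit 229) (nat_lit 222) (nat_lit 149))) (XT.nd (nat_lit 78) (nat_lit 304) (nat_lit 0) (XT.lf (nat_lit 0) (nat_lit 123053350172) (nat_lit 152) (nat_lit 45565092804) (nat_lit 228) (nat_lit 1255893431) (nat_lit 21) (nat_lit 5) (nat_lit 23) (nat_lit 5) (nat_lit 24) (nat_lit 5) (nat_lit 230) (nat_lit 222) (nat_lit 148)) (XT.lf (nat_lit 0) (nat_lit 33483148782) (nat_lit 304) (nat_lit 98050853862) (nat_lit 76) (nat_lit 54761597260) (nat_lit 17) (nat_lit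 5) (nat_lit 21) (nat_lit 5) (nat_lit 18) (nat_lit 5) (nat_lit 231) (nat_lit 222) (nat_lit 147)))) (XT.nd (nat_lit 156) (nat_lit 304) (nat_lit 0) (XT.nd (nat_lit 78) (nat_lit 0) (nat_lit 0) (XT.lf (nat_lit 0) (nat_lit 42109655736) (nat_lit 152) (nat_lit 34921752001) (nat_lit 228) (nat_lit 127852222649) (nat_lit 15) (nat_lit 5) (nat_lit 17) (nat_lit 5) (nat_lit 18) (nat_lit 5) (nat_lit 232) (nat_lit 222) (nat_lit 146)) (XT.lf (nat_lit 0) (nat_lit 131872073725) (nat_lit 228) (nat_lit 18707042905) (nat_lit 76) (nat_lit 75299939680) (nat_lit 15) (nat_lit 5) (nat_lit 18) (nat_lit 5) (nat_lit 16) (nat_lit 5) (nat_lit 233) (nat_lit 222) (nat_lit 145))) (XT.nd (nat_lit 78) (nat_lit 152) (nat_lit 0) (XT.lf (nat_lit 0) (nat_lit 153691371038) (nat_lit 152) (nat_lit 45908894221) (nat_lit 228) (nat_lit 50050620573) (nat_lit 13) (nat_lit 5) (nat_lit 15) (nat_lit 5) (nat_lit 16) (nat_lit 5) (nat_lit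 234) (nat_lit 222) (nat_lit 144)) (XT.nd (nat_lit 78) (nat_lit 0) (nat_lit 0) (XT.lf (nat_lit 0) (nat_lit 4814873688) (nat_lit 152) (nat_lit 198526183213) (nat_lit 76) (nat_lit 73299223476) (nat_lit 11) (nat_lit 5) (nat_lit 13) (nat_lit 5) (nat_lit 12) (nat_lit 5) (nat_lit 235) (nat_lit 222) (nat_lit 143)) (XT.lf (nat_lit 0) (nat_lit 69166351493) (nat_lit 152) (nat_lit 26072277025) (nat_lit 76) (nat_lit 211997879756) (nat_lit 11) (nat_lit 5) (nat_lit 13) (nat_lit 5) (nat_lit 12) (nat_lit 5) (nat_lit 236) (nat_lit 222) (nat_lit 142))))))) (XT.nd (nat_lit 702) (nat_lit 152) (nat_lit 0) (XT.nd (nat_lit 312) (nat_lit 152) (nat_lit 0) (XT.nd (nat_lit 156) (nat_lit 152) (nat_lit 0) (XT.nd (nat_lit 78) (nat_lit 76) (nat_lit 0) (XT.lf (nat_lit 0) (nat_lit 148343380072) (nat_lit 228) (nat_lit 161566707269) (nat_lit 76) (nat_lit 32098258977) (nat_lit 9) (nat_lit 5) (nat_lit 12) (nat_lit 5) (nat_lit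 10) (nat_lit 4) (nat_lit 237) (nat_lit 222) (nat_lit 141)) (XT.lf (nat_lit 0) (nat_lit 36760657224) (nat_lit 76) (nat_lit 206932774604) (nat_lit 152) (nat_lit 137958812718) (nat_lit 8) (nat_lit 5) (nat_lit 9) (nat_lit 5) (nat_lit 10) (nat_lit 4) (nat_lit 238) (nat_lit 222) (nat_lit 140))) (XT.nd (nat_lit 78) (nat_lit 152) (nat_lit 0) (XT.lf (nat_lit 0) (nat_lit 274620433977) (nat_lit 76) (nat_lit 83428970439) (nat_lit 152) (nat_lit 68817051782) (nat_lit 8) (nat_lit 5) (nat_lit 9) (nat_lit 5) (nat_lit 10) (nat_lit 4) (nat_lit 239) (nat_lit 222) (nat_lit 139)) (XT.lf (nat_lit 0) (nat_lit 13369759858) (nat_lit 152) (nat_lit 407489870925) (nat_lit 76) (nat_lit 57725883735) (nat_lit 6) (nat_lit 5) (nat_lit 8) (nat_lit 5) (nat_lit 7) (nat_lit 4) (nat_lit 240) (nat_lit 222) (nat_lit 138)))) (XT.nd (nat_lit 156) (nat_lit 76) (nat_lit 0) (XT.nd (nat_lit 78) (nat_lit 76) (nat_lit 0) (XT.lf (nat_lit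 0) (nat_lit 110780405163) (nat_lit 152) (nat_lit 204876181135) (nat_lit 76) (nat_lit 221705206084) (nat_lit 6) (nat_lit 5) (nat_lit 8) (nat_lit 5) (nat_lit 7) (nat_lit 4) (nat_lit 241) (nat_lit 222) (nat_lit 137)) (XT.lf (nat_lit 0) (nat_lit 29610278756) (nat_lit 76) (nat_lit 193904190504) (nat_lit 152) (nat_lit 381383097959) (nat_lit 5) (nat_lit 5) (nat_lit 6) (nat_lit 5) (nat_lit 7) (nat_lit 4) (nat_lit 242) (nat_lit 222) (nat_lit 136))) (XT.nd (nat_lit 78) (nat_lit 76) (nat_lit 0) (XT.lf (nat_lit 0) (nat_lit 311675920441) (nat_lit 76) (nat_lit 47447194876) (nat_lit 152) (nat_lit 322963436095) (nat_lit 5) (nat_lit 5) (nat_lit 6) (nat_lit 5) (nat_lit 7) (nat_lit 4) (nat_lit 243) (nat_lit 222) (nat_lit 135)) (XT.nd (nat_lit 78) (nat_lit 76) (nat_lit 0) (XT.lf (nat_lit 0) (nat_lit 517982345487) (nat_lit 152) (nat_lit 137712428701) (nat_lit 0) (nat_lit 114926366866) (nat_lit 5) (nat_lit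 5) (nat_lit 7) (nat_lit 4) (nat_lit 5) (nat_lit 4) (nat_lit 244) (nat_lit 222) (nat_lit 134)) (XT.lf (nat_lit 0) (nat_lit 135348547702) (nat_lit 76) (nat_lit 569889107345) (nat_lit 76) (nat_lit 166832889199) (nat_lit 4) (nat_lit 4) (nat_lit 5) (nat_lit 5) (nat_lit 5) (nat_lit 4) (nat_lit 245) (nat_lit 222) (nat_lit 133)))))) (XT.nd (nat_lit 312) (nat_lit 0) (nat_lit 0) (XT.nd (nat_lit 156) (nat_lit 76) (nat_lit 0) (XT.nd (nat_lit 78) (nat_lit 76) (nat_lit 0) (XT.lf (nat_lit 0) (nat_lit 457707781291) (nat_lit 76) (nat_lit 466882635594) (nat_lit 76) (nat_lit 63826209166) (nat_lit 4) (nat_lit 4) (nat_lit 5) (nat_lit 5) (nat_lit 5) (nat_lit 4) (nat_lit 246) (nat_lit 222) (nat_lit 132)) (XT.lf (nat_lit 0) (nat_lit 51898412347) (nat_lit 152) (nat_lit 295107909859) (nat_lit 76) (nat_lit 775103201187) (nat_lit 3) (nat_lit 5) (nat_lit 5) (nat_lit 5) (nat_lit 4) (nat_lit 4) (nat_lit 247) (nat_lit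 222) (nat_lit 131))) (XT.nd (nat_lit 78) (nat_lit 76) (nat_lit 0) (XT.lf (nat_lit 0) (nat_lit 181309804360) (nat_lit 152) (nat_lit 25932371965) (nat_lit 76) (nat_lit 1068472969457) (nat_lit 3) (nat_lit 5) (nat_lit 5) (nat_lit 5) (nat_lit 4) (nat_lit 4) (nat_lit 248) (nat_lit 222) (nat_lit 130)) (XT.lf (nat_lit 0) (nat_lit 298554156774) (nat_lit 76) (nat_lit 38758852244) (nat_lit 152) (nat_lit 1114474194570) (nat_lit 2) (nat_lit 5) (nat_lit 3) (nat_lit 5) (nat_lit 4) (nat_lit 4) (nat_lit 249) (nat_lit 222) (nat_lit 129)))) (XT.nd (nat_lit 156) (nat_lit 0) (nat_lit 0) (XT.nd (nat_lit 78) (nat_lit 0) (nat_lit 0) (XT.lf (nat_lit 0) (nat_lit 521218857638) (nat_lit 152) (nat_lit 984673127483) (nat_lit 0) (nat_lit 148017912202) (nat_lit 2) (nat_lit 5) (nat_lit 4) (nat_lit 4) (nat_lit 2) (nat_lit 4) (nat_lit 250) (nat_lit 222) (nat_lit 128)) (XT.lf (nat_lit 0) (nat_lit 733782452427) (nat_lit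 152) (nat_lit 791901382348) (nat_lit 0) (nat_lit 360581411109) (nat_lit 2) (nat_lit 5) (nat_lit 4) (nat_lit 4) (nat_lit 2) (nat_lit 4) (nat_lit 251) (nat_lit 222) (nat_lit 127))) (XT.nd (nat_lit 78) (nat_lit 0) (nat_lit 0) (XT.lf (nat_lit 0) (nat_lit 978230495001) (nat_lit 152) (nat_lit 570214038980) (nat_lit 0) (nat_lit 605029370306) (nat_lit 2) (nat_lit 5) (nat_lit 4) (nat_lit 4) (nat_lit 2) (nat_lit 4) (nat_lit 252) (nat_lit 222) (nat_lit 126)) (XT.nd (nat_lit 78) (nat_lit 0) (nat_lit 0) (XT.lf (nat_lit 0) (nat_lit 1259345664451) (nat_lit 152) (nat_lit 315273736314) (nat_lit 0) (nat_lit 886144467255) (nat_lit 2) (nat_lit 5) (nat_lit 4) (nat_lit 4) (nat_lit 2) (nat_lit 4) (nat_lit 253) (nat_lit 222) (nat_lit 125)) (XT.lf (nat_lit 0) (nat_lit 1582628040180) (nat_lit 152) (nat_lit 22092511906) (nat_lit 0) (nat_lit 1209426779941) (nat_lit 2) (nat_lit 5) (nat_lit 4) (nat_lit 4) (nat_lit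 2) (nat_lit 4) (nat_lit 254) (nat_lit 222) (nat_lit 124))))))))
noncomputable def xc53 : XT := (XT.nd (nat_lit 30108) (nat_lit 0) (nat_lit 76) (XT.nd (nat_lit 29406) (nat_lit 0) (nat_lit 532) (XT.nd (nat_lit 29016) (nat_lit 0) (nat_lit 1672) (XT.nd (nat_lit 28860) (nat_lit 0) (nat_lit 2204) (XT.nd (nat_lit 28782) (nat_lit 0) (nat_lit 2128) (XT.lf (nat_lit 0) (nat_lit 331656594719) (nat_lit 76) (nat_lit 1630722466510) (nat_lit 76) (nat_lit 1257521151449) (nat_lit 1) (nat_lit 4) (nat_lit 2) (nat_lit 5) (nat_lit 2) (nat_lit 4) (nat_lit 255) (nat_lit 222) (nat_lit 123)) (XT.lf (nat_lit 0) (nat_lit 8920166246) (nat_lit 532) (nat_lit 21158438683) (nat_lit 532) (nat_lit 21158438683) (nat_lit 29) (nat_lit 3) (nat_lit 36) (nat_lit 3) (nat_lit 36) (nat_lit 5) (nat_lit 223) (nat_lit 223) (nat_lit 154))) (XT.nd (nat_lit 78) (nat_lit 0) (nat_lit 0) (XT.lf (nat_lit 0) (nat_lit 20506103209) (nat_lit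 456) (nat_lit 73059862292) (nat_lit 532) (nat_lit 16487388820) (nat_lit 30) (nat_lit 5) (nat_lit 36) (nat_lit 5) (nat_lit 37) (nat_lit 5) (nat_lit 224) (nat_lit 223) (nat_lit 153)) (XT.lf (nat_lit 76) (nat_lit 10942462254) (nat_lit 0) (nat_lit 15818502322) (nat_lit 532) (nat_lit 91753421328) (nat_lit 31) (nat_lit 5) (nat_lit 30) (nat_lit 5) (nat_lit 37) (nat_lit 5) (nat_lit 225) (nat_lit 223) (nat_lit 152)))) (XT.nd (nat_lit 156) (nat_lit 608) (nat_lit 0) (XT.nd (nat_lit 78) (nat_lit 0) (nat_lit 76) (XT.lf (nat_lit 0) (nat_lit 37904692373) (nat_lit 456) (nat_lit 17931323018) (nat_lit 532) (nat_lit 72092516659) (nat_lit 31) (nat_lit 5) (nat_lit 37) (nat_lit 5) (nat_lit 38) (nat_lit 5) (nat_lit 226) (nat_lit 223) (nat_lit 151)) (XT.lf (nat_lit 0) (nat_lit 54163714295) (nat_lit 456) (nat_lit 50233335947) (nat_lit 76) (nat_lit 34082260477) (nat_lit 32) (nat_lit 5) (nat_lit 38) (nat_lit 5)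 (nat_lit 33) (nat_lit 5) (nat_lit 227) (nat_lit 223) (nat_lit 150))) (XT.nd (nat_lit 78) (nat_lit 228) (nat_lit 0) (XT.lf (nat_lit 0) (nat_lit 62428809209) (nat_lit 456) (nat_lit 14012910958) (nat_lit 532) (nat_lit 73884583736) (nat_lit 26) (nat_lit 5) (nat_lit 32) (nat_lit 5) (nat_lit 33) (nat_lit 5) (nat_lit 228) (nat_lit 223) (nat_lit 149)) (XT.nd (nat_lit 78) (nat_lit 0) (nat_lit 0) (XT.lf (nat_lit 0) (nat_lit 30523983254) (nat_lit 228) (nat_lit 75933764468) (nat_lit 304) (nat_lit 57140899782) (nat_lit 23) (nat_lit 5) (nat_lit 26) (nat_lit 5) (nat_lit 27) (nat_lit 5) (nat_lit 229) (nat_lit 223) (nat_lit 148)) (XT.lf (nat_lit 0) (nat_lit 144578473272) (nat_lit 304) (nat_lit 7670889422) (nat_lit 76) (nat_lit 26324302622) (nat_lit 23) (nat_lit 5) (nat_lit 27) (nat_lit 5) (nat_lit 24) (nat_lit 5) (nat_lit 230) (nat_lit 223) (nat_lit 147)))))) (XT.nd (nat_lit 312) (nat_lit 532) (nat_lit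 0) (XT.nd (nat_lit 156) (nat_lit 152) (nat_lit 0) (XT.nd (nat_lit 78) (nat_lit 304) (nat_lit 0) (XT.lf (nat_lit 0) (nat_lit 141521880245) (nat_lit 152) (nat_lit 52398357274) (nat_lit 228) (nat_lit 1434469262) (nat_lit 21) (nat_lit 5) (nat_lit 23) (nat_lit 5) (nat_lit 24) (nat_lit 5) (nat_lit 231) (nat_lit 223) (nat_lit 146)) (XT.lf (nat_lit 0) (nat_lit 38514010060) (nat_lit 304) (nat_lit 112747676134) (nat_lit 76) (nat_lit 62977536009) (nat_lit 17) (nat_lit 5) (nat_lit 21) (nat_lit 5) (nat_lit 18) (nat_lit 5) (nat_lit 232) (nat_lit 223) (nat_lit 145))) (XT.nd (nat_lit 78) (nat_lit 0) (nat_lit 0) (XT.lf (nat_lit 0) (nat_lit 48435995246) (nat_lit 152) (nat_lit 40157656283) (nat_lit 228) (nat_lit 147021880310) (nat_lit 15) (nat_lit 5) (nat_lit 17) (nat_lit 5) (nat_lit 18) (nat_lit 5) (nat_lit 233) (nat_lit 223) (nat_lit 144)) (XT.lf (nat_lit 0) (nat_lit 151659484222) (nat_lit 228) (nat_lit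 21503988443) (nat_lit 76) (nat_lit 86596878924) (nat_lit 15) (nat_lit 5) (nat_lit 18) (nat_lit 5) (nat_lit 16) (nat_lit 5) (nat_lit 234) (nat_lit 223) (nat_lit 143)))) (XT.nd (nat_lit 156) (nat_lit 228) (nat_lit 0) (XT.nd (nat_lit 78) (nat_lit 152) (nat_lit 0) (XT.lf (nat_lit 0) (nat_lit 176753416399) (nat_lit 152) (nat_lit 52792827860) (nat_lit 228) (nat_lit 57551768690) (nat_lit 13) (nat_lit 5) (nat_lit 15) (nat_lit 5) (nat_lit 16) (nat_lit 5) (nat_lit 235) (nat_lit 223) (nat_lit 142)) (XT.lf (nat_lit 0) (nat_lit 5542678697) (nat_lit 152) (nat_lit 228296748633) (nat_lit 76) (nat_lit 84296424533) (nat_lit 11) (nat_lit 5) (nat_lit 13) (nat_lit 5) (nat_lit 12) (nat_lit 5) (nat_lit 236) (nat_lit 223) (nat_lit 141))) (XT.nd (nat_lit 78) (nat_lit 228) (nat_lit 0) (XT.lf (nat_lit 0) (nat_lit 79546151135) (nat_lit 152) (nat_lit 29975847221) (nat_lit 76) (nat_lit 243799576968) (nat_lit 11)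 (nat_lit 5) (nat_lit 13) (nat_lit 5) (nat_lit 12) (nat_lit 5) (nat_lit 237) (nat_lit 223) (nat_lit 140)) (XT.nd (nat_lit 78) (nat_lit 76) (nat_lit 0) (XT.lf (nat_lit 0) (nat_lit 170599316728) (nat_lit 228) (nat_lit 185794743721) (nat_lit 76) (nat_lit 36915164803) (nat_lit 9) (nat_lit 5) (nat_lit 12) (nat_lit 5) (nat_lit 10) (nat_lit 4) (nat_lit 238) (nat_lit 223) (nat_lit 139)) (XT.lf (nat_lit 0) (nat_lit 42281135501) (nat_lit 76) (nat_lit 237970316399) (nat_lit 152) (nat_lit 158648292694) (nat_lit 8) (nat_lit 5) (nat_lit 9) (nat_lit 5) (nat_lit 10) (nat_lit 4) (nat_lit 239) (nat_lit 223) (nat_lit 138))))))) (XT.nd (nat_lit 702) (nat_lit 76) (nat_lit 0) (XT.nd (nat_lit 312) (nat_lit 152) (nat_lit 0) (XT.nd (nat_lit 156) (nat_lit 76) (nat_lit 0) (XT.nd (nat_lit 78) (nat_lit 152) (nat_lit 0) (XT.lf (nat_lit 0) (nat_lit 315819046632) (nat_lit 76) (nat_lit 95941251313) (nat_lit 152) (nat_lit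 79135833957) (nat_lit 8) (nat_lit 5) (nat_lit 9) (nat_lit 5) (nat_lit 10) (nat_lit 4) (nat_lit 240) (nat_lit 223) (nat_lit 137)) (XT.lf (nat_lit 0) (nat_lit 15378517814) (nat_lit 152) (nat_lit 468607866278) (nat_lit 76) (nat_lit 66386682736) (nat_lit 6) (nat_lit 5) (nat_lit 8) (nat_lit 5) (nat_lit 7) (nat_lit 4) (nat_lit 241) (nat_lit 223) (nat_lit 136))) (XT.nd (nat_lit 78) (nat_lit 76) (nat_lit 0) (XT.lf (nat_lit 0) (nat_lit 127400330266) (nat_lit 152) (nat_lit 235602838491) (nat_lit 76) (nat_lit 254962653466) (nat_lit 6) (nat_lit 5) (nat_lit 8) (nat_lit 5) (nat_lit 7) (nat_lit 4) (nat_lit 242) (nat_lit 223) (nat_lit 135)) (XT.lf (nat_lit 0) (nat_lit 34056186642) (nat_lit 76) (nat_lit 222988048731) (nat_lit 152) (nat_lit 438587750689) (nat_lit 5) (nat_lit 5) (nat_lit 6) (nat_lit 5) (nat_lit 7) (nat_lit 4) (nat_lit 243) (nat_lit 223) (nat_lit 134)))) (XT.nd (nat_lit 156) (nat_lit 152)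 (nat_lit 0) (XT.nd (nat_lit 78) (nat_lit 0) (nat_lit 0) (XT.lf (nat_lit 0) (nat_lit 358431105092) (nat_lit 76) (nat_lit 54562734674) (nat_lit 152) (nat_lit 371405506323) (nat_lit 5) (nat_lit 5) (nat_lit 6) (nat_lit 5) (nat_lit 7) (nat_lit 4) (nat_lit 244) (nat_lit 223) (nat_lit 133)) (XT.lf (nat_lit 0) (nat_lit 595681692244) (nat_lit 152) (nat_lit 158365860314) (nat_lit 0) (nat_lit 132166593570) (nat_lit 5) (nat_lit 5) (nat_lit 7) (nat_lit 4) (nat_lit 5) (nat_lit 4) (nat_lit 245) (nat_lit 223) (nat_lit 132))) (XT.nd (nat_lit 78) (nat_lit 76) (nat_lit 0) (XT.lf (nat_lit 0) (nat_lit 155653971989) (nat_lit 76) (nat_lit 655371141609) (nat_lit 76) (nat_lit 191855861819) (nat_lit 4) (nat_lit 4) (nat_lit 5) (nat_lit 5) (nat_lit 5) (nat_lit 4) (nat_lit 246) (nat_lit 223) (nat_lit 131)) (XT.nd (nat_lit 78) (nat_lit 76) (nat_lit 0) (XT.lf (nat_lit 0) (nat_lit 526366680773) (nat_lit 76) (nat_lit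 536913872814) (nat_lit 76) (nat_lit 73398435532) (nat_lit 4) (nat_lit 4) (nat_lit 5) (nat_lit 5) (nat_lit 5) (nat_lit 4) (nat_lit 247) (nat_lit 223) (nat_lit 130)) (XT.lf (nat_lit 0) (nat_lit 59684582650) (nat_lit 152) (nat_lit 339371642318) (nat_lit 76) (nat_lit 891369610309) (nat_lit 3) (nat_lit 5) (nat_lit 5) (nat_lit 5) (nat_lit 4) (nat_lit 4) (nat_lit 248) (nat_lit 223) (nat_lit 129)))))) (XT.nd (nat_lit 390) (nat_lit 0) (nat_lit 0) (XT.nd (nat_lit 156) (nat_lit 0) (nat_lit 0) (XT.nd (nat_lit 78) (nat_lit 76) (nat_lit 0) (XT.lf (nat_lit 0) (nat_lit 208507499753) (nat_lit 152) (nat_lit 29820093830) (nat_lit 76) (nat_lit 1228744722652) (nat_lit 3) (nat_lit 5) (nat_lit 5) (nat_lit 5) (nat_lit 4) (nat_lit 4) (nat_lit 249) (nat_lit 223) (nat_lit 128)) (XT.lf (nat_lit 0) (nat_lit 343339233594) (nat_lit 76) (nat_lit 44571838744) (nat_lit 152) (nat_lit 1281644119843) (nat_lit 2) (nat_lit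 5) (nat_lit 3) (nat_lit 5) (nat_lit 4) (nat_lit 4) (nat_lit 250) (nat_lit 223) (nat_lit 127))) (XT.nd (nat_lit 78) (nat_lit 0) (nat_lit 0) (XT.lf (nat_lit 0) (nat_lit 599402670807) (nat_lit 152) (nat_lit 1132372335723) (nat_lit 0) (nat_lit 170221294032) (nat_lit 2) (nat_lit 5) (nat_lit 4) (nat_lit 4) (nat_lit 2) (nat_lit 4) (nat_lit 251) (nat_lit 223) (nat_lit 126)) (XT.nd (nat_lit 78) (nat_lit 0) (nat_lit 0) (XT.lf (nat_lit 0) (nat_lit 843850676399) (nat_lit 152) (nat_lit 910685058498) (nat_lit 0) (nat_lit 414669227123) (nat_lit 2) (nat_lit 5) (nat_lit 4) (nat_lit 4) (nat_lit 2) (nat_lit 4) (nat_lit 252) (nat_lit 223) (nat_lit 125)) (XT.lf (nat_lit 0) (nat_lit 1124965813692) (nat_lit 152) (nat_lit 655744813347) (nat_lit 0) (nat_lit 695784301372) (nat_lit 2) (nat_lit 5) (nat_lit 4) (nat_lit 4) (nat_lit 2) (nat_lit 4) (nat_lit 253) (nat_lit 223) (nat_lit 124))))) (XT.nd (nat_lit 29016)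 (nat_lit 0) (nat_lit 2128) (XT.nd (nat_lit 28938) (nat_lit 0) (nat_lit 2052) (XT.lf (nat_lit 0) (nat_lit 1448248161459) (nat_lit 152) (nat_lit 362563638953) (nat_lit 0) (nat_lit 1019066594317) (nat_lit 2) (nat_lit 5) (nat_lit 4) (nat_lit 4) (nat_lit 2) (nat_lit 4) (nat_lit 254) (nat_lit 223) (nat_lit 123)) (XT.lf (nat_lit 0) (nat_lit 10267592615) (nat_lit 532) (nat_lit 24327094265) (nat_lit 532) (nat_lit 24327094265) (nat_lit 29) (nat_lit 3) (nat_lit 36) (nat_lit 3) (nat_lit 36) (nat_lit 5) (nat_lit 224) (nat_lit 224) (nat_lit 152))) (XT.nd (nat_lit 78) (nat_lit 0) (nat_lit 0) (XT.lf (nat_lit 0) (nat_lit 23598420361) (nat_lit 456) (nat_lit 84007870304) (nat_lit 532) (nat_lit 18953638334) (nat_lit 30) (nat_lit 5) (nat_lit 36) (nat_lit 5) (nat_lit 37) (nat_lit 5) (nat_lit 225) (nat_lit 224) (nat_lit 151)) (XT.nd (nat_lit 78) (nat_lit 0) (nat_lit 76) (XT.lf (nat_lit 76) (nat_lit 12593874255)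 (nat_lit 0) (nat_lit 18195738857) (nat_lit 532) (nat_lit 105500669209) (nat_lit 31) (nat_lit 5) (nat_lit 30) (nat_lit 5) (nat_lit 37) (nat_lit 5) (nat_lit 226) (nat_lit 224) (nat_lit 150)) (XT.lf (nat_lit 0) (nat_lit 43602914975) (nat_lit 456) (nat_lit 20611098493) (nat_lit 532) (nat_lit 82902708924) (nat_lit 31) (nat_lit 5) (nat_lit 37) (nat_lit 5) (nat_lit 38) (nat_lit 5) (nat_lit 227) (nat_lit 224) (nat_lit 149))))))))
noncomputable def xc54 : XT := (XT.nd (nat_lit 1404) (nat_lit 228) (nat_lit 0) (XT.nd (nat_lit 702) (nat_lit 608) (nat_lit 0) (XT.nd (nat_lit 312) (nat_lit 760) (nat_lit 0) (XT.nd (nat_lit 156) (nat_lit 228) (nat_lit 0) (XT.nd (nat_lit 78) (nat_lit 456) (nat_lit 0) (XT.lf (nat_lit 0) (nat_lit 62299327141) (nat_lit 456) (nat_lit 57758239843) (nat_lit 76) (nat_lit 39192679394) (nat_lit 32) (nat_lit 5) (nat_lit 38) (nat_lit 5) (nat_lit 33) (nat_lit 5) (nat_lit 228) (nat_lit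 224) (nat_lit 148)) (XT.lf (nat_lit 0) (nat_lit 71802372468) (nat_lit 456) (nat_lit 16115441645) (nat_lit 532) (nat_lit 84956581986) (nat_lit 26) (nat_lit 5) (nat_lit 32) (nat_lit 5) (nat_lit 33) (nat_lit 5) (nat_lit 229) (nat_lit 224) (nat_lit 147))) (XT.nd (nat_lit 78) (nat_lit 0) (nat_lit 0) (XT.lf (nat_lit 0) (nat_lit 35111834573) (nat_lit 228) (nat_lit 87323338415) (nat_lit 304) (nat_lit 65702512755) (nat_lit 23) (nat_lit 5) (nat_lit 26) (nat_lit 5) (nat_lit 27) (nat_lit 5) (nat_lit 230) (nat_lit 224) (nat_lit 146)) (XT.lf (nat_lit 0) (nat_lit 166272874618) (nat_lit 304) (nat_lit 8812826387) (nat_lit 76) (nat_lit 30273353385) (nat_lit 23) (nat_lit 5) (nat_lit 27) (nat_lit 5) (nat_lit 24) (nat_lit 5) (nat_lit 231) (nat_lit 224) (nat_lit 145)))) (XT.nd (nat_lit 156) (nat_lit 304) (nat_lit 0) (XT.nd (nat_lit 78) (nat_lit 304) (nat_lit 0) (XT.lf (nat_lit 0) (nat_lit 162758122620) (nat_lit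 152) (nat_lit 60256977065) (nat_lit 228) (nat_lit 1642223256) (nat_lit 21) (nat_lit 5) (nat_lit 23) (nat_lit 5) (nat_lit 24) (nat_lit 5) (nat_lit 232) (nat_lit 224) (nat_lit 144)) (XT.lf (nat_lit 0) (nat_lit 44297454829) (nat_lit 304) (nat_lit 129651656812) (nat_lit 76) (nat_lit 72425451220) (nat_lit 17) (nat_lit 5) (nat_lit 21) (nat_lit 5) (nat_lit 18) (nat_lit 5) (nat_lit 233) (nat_lit 224) (nat_lit 143))) (XT.nd (nat_lit 78) (nat_lit 152) (nat_lit 0) (XT.lf (nat_lit 0) (nat_lit 55708873663) (nat_lit 152) (nat_lit 46179521347) (nat_lit 228) (nat_lit 169068980325) (nat_lit 15) (nat_lit 5) (nat_lit 17) (nat_lit 5) (nat_lit 18) (nat_lit 5) (nat_lit 234) (nat_lit 224) (nat_lit 142)) (XT.nd (nat_lit 78) (nat_lit 152) (nat_lit 0) (XT.lf (nat_lit 0) (nat_lit 174413396978) (nat_lit 228) (nat_lit 24722697561) (nat_lit 76) (nat_lit 99587883952) (nat_lit 15) (nat_lit 5) (nat_lit 18) (nat_lit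 5) (nat_lit 16) (nat_lit 5) (nat_lit 235) (nat_lit 224) (nat_lit 141)) (XT.lf (nat_lit 0) (nat_lit 203272734875) (nat_lit 152) (nat_lit 60709936921) (nat_lit 228) (nat_lit 66179660671) (nat_lit 13) (nat_lit 5) (nat_lit 15) (nat_lit 5) (nat_lit 16) (nat_lit 5) (nat_lit 236) (nat_lit 224) (nat_lit 140)))))) (XT.nd (nat_lit 312) (nat_lit 228) (nat_lit 0) (XT.nd (nat_lit 156) (nat_lit 228) (nat_lit 0) (XT.nd (nat_lit 78) (nat_lit 0) (nat_lit 0) (XT.lf (nat_lit 0) (nat_lit 6378295213) (nat_lit 152) (nat_lit 262534938008) (nat_lit 76) (nat_lit 96942640603) (nat_lit 11) (nat_lit 5) (nat_lit 13) (nat_lit 5) (nat_lit 12) (nat_lit 5) (nat_lit 237) (nat_lit 224) (nat_lit 139)) (XT.lf (nat_lit 0) (nat_lit 91481738772) (nat_lit 152) (nat_lit 34466726113) (nat_lit 76) (nat_lit 280371037331) (nat_lit 11) (nat_lit 5) (nat_lit 13) (nat_lit 5) (nat_lit 12) (nat_lit 5) (nat_lit 238) (nat_lit 224) (nat_lit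 138))) (XT.nd (nat_lit 78) (nat_lit 76) (nat_lit 0) (XT.lf (nat_lit 0) (nat_lit 196192563686) (nat_lit 228) (nat_lit 213658685231) (nat_lit 76) (nat_lit 42454078071) (nat_lit 9) (nat_lit 5) (nat_lit 12) (nat_lit 5) (nat_lit 10) (nat_lit 4) (nat_lit 239) (nat_lit 224) (nat_lit 137)) (XT.lf (nat_lit 0) (nat_lit 48628129791) (nat_lit 76) (nat_lit 273664068475) (nat_lit 152) (nat_lit 182442253474) (nat_lit 8) (nat_lit 5) (nat_lit 9) (nat_lit 5) (nat_lit 10) (nat_lit 4) (nat_lit 240) (nat_lit 224) (nat_lit 136)))) (XT.nd (nat_lit 156) (nat_lit 76) (nat_lit 0) (XT.nd (nat_lit 78) (nat_lit 152) (nat_lit 0) (XT.lf (nat_lit 0) (nat_lit 363196098379) (nat_lit 76) (nat_lit 110330877806) (nat_lit 152) (nat_lit 91003354160) (nat_lit 8) (nat_lit 5) (nat_lit 9) (nat_lit 5) (nat_lit 10) (nat_lit 4) (nat_lit 241) (nat_lit 224) (nat_lit 135)) (XT.lf (nat_lit 0) (nat_lit 17687786207) (nat_lit 152) (nat_lit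 538894898556) (nat_lit 76) (nat_lit 76346134251) (nat_lit 6) (nat_lit 5) (nat_lit 8) (nat_lit 5) (nat_lit 7) (nat_lit 4) (nat_lit 242) (nat_lit 224) (nat_lit 134))) (XT.nd (nat_lit 78) (nat_lit 76) (nat_lit 0) (XT.lf (nat_lit 0) (nat_lit 146512545650) (nat_lit 152) (nat_lit 270939657601) (nat_lit 76) (nat_lit 293208311577) (nat_lit 6) (nat_lit 5) (nat_lit 8) (nat_lit 5) (nat_lit 7) (nat_lit 4) (nat_lit 243) (nat_lit 224) (nat_lit 133)) (XT.nd (nat_lit 78) (nat_lit 0) (nat_lit 0) (XT.lf (nat_lit 0) (nat_lit 39167916017) (nat_lit 76) (nat_lit 256434917404) (nat_lit 152) (nat_lit 504373787044) (nat_lit 5) (nat_lit 5) (nat_lit 6) (nat_lit 5) (nat_lit 7) (nat_lit 4) (nat_lit 244) (nat_lit 224) (nat_lit 132)) (XT.lf (nat_lit 0) (nat_lit 412198641620) (nat_lit 76) (nat_lit 62745980843) (nat_lit 152) (nat_lit 427114483359) (nat_lit 5) (nat_lit 5) (nat_lit 6) (nat_lit 5) (nat_lit 7) (nat_lit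 4) (nat_lit 245) (nat_lit 224) (nat_lit 131))))))) (XT.nd (nat_lit 29640) (nat_lit 0) (nat_lit 1140) (XT.nd (nat_lit 312) (nat_lit 76) (nat_lit 0) (XT.nd (nat_lit 156) (nat_lit 76) (nat_lit 0) (XT.nd (nat_lit 78) (nat_lit 76) (nat_lit 0) (XT.lf (nat_lit 0) (nat_lit 685035454538) (nat_lit 152) (nat_lit 182118143753) (nat_lit 0) (nat_lit 151992544173) (nat_lit 5) (nat_lit 5) (nat_lit 7) (nat_lit 4) (nat_lit 5) (nat_lit 4) (nat_lit 246) (nat_lit 224) (nat_lit 130)) (XT.lf (nat_lit 0) (nat_lit 179004443691) (nat_lit 76) (nat_lit 753675805790) (nat_lit 76) (nat_lit 220632758475) (nat_lit 4) (nat_lit 4) (nat_lit 5) (nat_lit 5) (nat_lit 5) (nat_lit 4) (nat_lit 247) (nat_lit 224) (nat_lit 129))) (XT.nd (nat_lit 78) (nat_lit 76) (nat_lit 0) (XT.lf (nat_lit 0) (nat_lit 605323748892) (nat_lit 76) (nat_lit 617450078031) (nat_lit 76) (nat_lit 84406911630) (nat_lit 4) (nat_lit 4) (nat_lit 5) (nat_lit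 5) (nat_lit 5) (nat_lit 4) (nat_lit 248) (nat_lit 224) (nat_lit 128)) (XT.lf (nat_lit 0) (nat_lit 68638335038) (nat_lit 152) (nat_lit 390275533074) (nat_lit 76) (nat_lit 1025075754270) (nat_lit 3) (nat_lit 5) (nat_lit 5) (nat_lit 5) (nat_lit 4) (nat_lit 4) (nat_lit 249) (nat_lit 224) (nat_lit 127)))) (XT.nd (nat_lit 156) (nat_lit 0) (nat_lit 0) (XT.nd (nat_lit 78) (nat_lit 76) (nat_lit 0) (XT.lf (nat_lit 0) (nat_lit 239784550795) (nat_lit 152) (nat_lit 34291494346) (nat_lit 76) (nat_lit 1413057041846) (nat_lit 3) (nat_lit 5) (nat_lit 5) (nat_lit 5) (nat_lit 4) (nat_lit 4) (nat_lit 250) (nat_lit 224) (nat_lit 126)) (XT.lf (nat_lit 0) (nat_lit 394841595612) (nat_lit 76) (nat_lit 51256978384) (nat_lit 152) (nat_lit 1473889827489) (nat_lit 2) (nat_lit 5) (nat_lit 3) (nat_lit 5) (nat_lit 4) (nat_lit 4) (nat_lit 251) (nat_lit 224) (nat_lit 125))) (XT.nd (nat_lit 78) (nat_lit 0) (nat_lit 0)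 (XT.lf (nat_lit 0) (nat_lit 689313815869) (nat_lit 152) (nat_lit 1302226854602) (nat_lit 0) (nat_lit 195755013656) (nat_lit 2) (nat_lit 5) (nat_lit 4) (nat_lit 4) (nat_lit 2) (nat_lit 4) (nat_lit 252) (nat_lit 224) (nat_lit 124)) (XT.nd (nat_lit 78) (nat_lit 0) (nat_lit 0) (XT.lf (nat_lit 0) (nat_lit 970428925199) (nat_lit 152) (nat_lit 1047286659464) (nat_lit 0) (nat_lit 476870068165) (nat_lit 2) (nat_lit 5) (nat_lit 4) (nat_lit 4) (nat_lit 2) (nat_lit 4) (nat_lit 253) (nat_lit 224) (nat_lit 123)) (XT.lf (nat_lit 0) (nat_lit 1293711248650) (nat_lit 152) (nat_lit 754105528559) (nat_lit 0) (nat_lit 800152343946) (nat_lit 2) (nat_lit 5) (nat_lit 4) (nat_lit 4) (nat_lit 2) (nat_lit 4) (nat_lit 254) (nat_lit 224) (nat_lit 122)))))) (XT.nd (nat_lit 390) (nat_lit 912) (nat_lit 0) (XT.nd (nat_lit 156) (nat_lit 0) (nat_lit 76) (XT.nd (nat_lit 78) (nat_lit 0) (nat_lit 76) (XT.lf (nat_lit 0) (nat_lit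 11814840340) (nat_lit 532) (nat_lit 27972294345) (nat_lit 532) (nat_lit 27972294345) (nat_lit 29) (nat_lit 3) (nat_lit 36) (nat_lit 3) (nat_lit 36) (nat_lit 5) (nat_lit 225) (nat_lit 225) (nat_lit 150)) (XT.lf (nat_lit 0) (nat_lit 27150585436) (nat_lit 456) (nat_lit 96600754947) (nat_lit 532) (nat_lit 21791497839) (nat_lit 30) (nat_lit 5) (nat_lit 36) (nat_lit 5) (nat_lit 37) (nat_lit 5) (nat_lit 226) (nat_lit 225) (nat_lit 149))) (XT.nd (nat_lit 78) (nat_lit 0) (nat_lit 76) (XT.lf (nat_lit 76) (nat_lit 14490549089) (nat_lit 0) (nat_lit 20928472983) (nat_lit 532) (nat_lit 121313848744) (nat_lit 31) (nat_lit 5) (nat_lit 30) (nat_lit 5) (nat_lit 37) (nat_lit 5) (nat_lit 227) (nat_lit 225) (nat_lit 148)) (XT.nd (nat_lit 78) (nat_lit 0) (nat_lit 76) (XT.lf (nat_lit 0) (nat_lit 50152818192) (nat_lit 456) (nat_lit 23695260071) (nat_lit 532) (nat_lit 95335328696) (nat_lit 31) (nat_lit 5) (nat_lit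 37) (nat_lit 5) (nat_lit 38) (nat_lit 5) (nat_lit 228) (nat_lit 225) (nat_lit 147)) (XT.lf (nat_lit 0) (nat_lit 71652585911) (nat_lit 456) (nat_lit 66414341418) (nat_lit 76) (nat_lit 45070129390) (nat_lit 32) (nat_lit 5) (nat_lit 38) (nat_lit 5) (nat_lit 33) (nat_lit 5) (nat_lit 229) (nat_lit 225) (nat_lit 146))))) (XT.nd (nat_lit 156) (nat_lit 456) (nat_lit 0) (XT.nd (nat_lit 78) (nat_lit 228) (nat_lit 0) (XT.lf (nat_lit 0) (nat_lit 82579716526) (nat_lit 456) (nat_lit 18533207074) (nat_lit 532) (nat_lit 97691986630) (nat_lit 26) (nat_lit 5) (nat_lit 32) (nat_lit 5) (nat_lit 33) (nat_lit 5) (nat_lit 230) (nat_lit 225) (nat_lit 145)) (XT.lf (nat_lit 0) (nat_lit 40385606984) (nat_lit 228) (nat_lit 100421468119) (nat_lit 304) (nat_lit 75550689673) (nat_lit 23) (nat_lit 5) (nat_lit 26) (nat_lit 5) (nat_lit 27) (nat_lit 5) (nat_lit 231) (nat_lit 225) (nat_lit 144))) (XT.nd (nat_lit 78) (nat_lit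 456) (nat_lit 0) (XT.lf (nat_lit 0) (nat_lit 191219575456) (nat_lit 304) (nat_lit 10128174580) (nat_lit 76) (nat_lit 34814662911) (nat_lit 23) (nat_lit 5) (nat_lit 27) (nat_lit 5) (nat_lit 24) (nat_lit 5) (nat_lit 232) (nat_lit 225) (nat_lit 143)) (XT.nd (nat_lit 78) (nat_lit 304) (nat_lit 0) (XT.lf (nat_lit 0) (nat_lit 187177860172) (nat_lit 152) (nat_lit 69294666309) (nat_lit 228) (nat_lit 1882948884) (nat_lit 21) (nat_lit 5) (nat_lit 23) (nat_lit 5) (nat_lit 24) (nat_lit 5) (nat_lit 233) (nat_lit 225) (nat_lit 142)) (XT.lf (nat_lit 0) (nat_lit 50946869469) (nat_lit 304) (nat_lit 149093227078) (nat_lit 76) (nat_lit 83290240403) (nat_lit 17) (nat_lit 5) (nat_lit 21) (nat_lit 5) (nat_lit 18) (nat_lit 5) (nat_lit 234) (nat_lit 225) (nat_lit 141))))))))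
noncomputable def xc55 : XT := (XT.nd (nat_lit 1404) (nat_lit 0) (nat_lit 0) (XT.nd (nat_lit 702) (nat_lit 304) (nat_lit 0) (XT.nd (nat_lit 312) (nat_lit 380) (nat_lit 0) (XT.nd (nat_lit 156) (nat_lit 304) (nat_lit 0) (XT.nd (nat_lit 78) (nat_lit 0) (nat_lit 0) (XT.lf (nat_lit 0) (nat_lit 64070860009) (nat_lit 152) (nat_lit 53105101058) (nat_lit 228) (nat_lit 194424652870) (nat_lit 15) (nat_lit 5) (nat_lit 17) (nat_lit 5) (nat_lit 18) (nat_lit 5) (nat_lit 235) (nat_lit 225) (nat_lit 140)) (XT.lf (nat_lit 0) (nat_lit 200579179775) (nat_lit 228) (nat_lit 28425893010) (nat_lit 76) (nat_lit 114527180487) (nat_lit 15) (nat_lit 5) (nat_lit 18) (nat_lit 5) (nat_lit 16) (nat_lit 5) (nat_lit 236) (nat_lit 225) (nat_lit 139))) (XT.nd (nat_lit 78) (nat_lit 152) (nat_lit 0) (XT.lf (nat_lit 0) (nat_lit 233768413360) (nat_lit 152) (nat_lit 69815054969) (nat_lit 228) (nat_lit 76102924840) (nat_lit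 13) (nat_lit 5) (nat_lit 15) (nat_lit 5) (nat_lit 16) (nat_lit 5) (nat_lit 237) (nat_lit 225) (nat_lit 138)) (XT.lf (nat_lit 0) (nat_lit 7338226423) (nat_lit 152) (nat_lit 301910397673) (nat_lit 76) (nat_lit 111485361752) (nat_lit 11) (nat_lit 5) (nat_lit 13) (nat_lit 5) (nat_lit 12) (nat_lit 5) (nat_lit 238) (nat_lit 225) (nat_lit 137)))) (XT.nd (nat_lit 156) (nat_lit 228) (nat_lit 0) (XT.nd (nat_lit 78) (nat_lit 152) (nat_lit 0) (XT.lf (nat_lit 0) (nat_lit 105206770829) (nat_lit 152) (nat_lit 39632577607) (nat_lit 76) (nat_lit 322427845155) (nat_lit 11) (nat_lit 5) (nat_lit 13) (nat_lit 5) (nat_lit 12) (nat_lit 5) (nat_lit 239) (nat_lit 225) (nat_lit 136)) (XT.lf (nat_lit 0) (nat_lit 225623980903) (nat_lit 228) (nat_lit 245703503103) (nat_lit 76) (nat_lit 48823428759) (nat_lit 9) (nat_lit 5) (nat_lit 12) (nat_lit 5) (nat_lit 10) (nat_lit 4) (nat_lit 240) (nat_lit 225) (nat_lit 135)))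 (XT.nd (nat_lit 78) (nat_lit 152) (nat_lit 0) (XT.lf (nat_lit 0) (nat_lit 55925996871) (nat_lit 76) (nat_lit 314712321178) (nat_lit 152) (nat_lit 209806108982) (nat_lit 8) (nat_lit 5) (nat_lit 9) (nat_lit 5) (nat_lit 10) (nat_lit 4) (nat_lit 241) (nat_lit 225) (nat_lit 134)) (XT.nd (nat_lit 78) (nat_lit 152) (nat_lit 0) (XT.lf (nat_lit 0) (nat_lit 417678684971) (nat_lit 76) (nat_lit 126879328982) (nat_lit 152) (nat_lit 104651698576) (nat_lit 8) (nat_lit 5) (nat_lit 9) (nat_lit 5) (nat_lit 10) (nat_lit 4) (nat_lit 242) (nat_lit 225) (nat_lit 133)) (XT.lf (nat_lit 0) (nat_lit 20342837480) (nat_lit 152) (nat_lit 619725997110) (nat_lit 76) (nat_lit 87799150120) (nat_lit 6) (nat_lit 5) (nat_lit 8) (nat_lit 5) (nat_lit 7) (nat_lit 4) (nat_lit 243) (nat_lit 225) (nat_lit 132)))))) (XT.nd (nat_lit 312) (nat_lit 228) (nat_lit 0) (XT.nd (nat_lit 156) (nat_lit 0) (nat_lit 0) (XT.nd (nat_lit 78)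 (nat_lit 76) (nat_lit 0) (XT.lf (nat_lit 0) (nat_lit 168491065186) (nat_lit 152) (nat_lit 311577879085) (nat_lit 76) (nat_lit 337190511123) (nat_lit 6) (nat_lit 5) (nat_lit 8) (nat_lit 5) (nat_lit 7) (nat_lit 4) (nat_lit 244) (nat_lit 225) (nat_lit 131)) (XT.lf (nat_lit 0) (nat_lit 45045599735) (nat_lit 76) (nat_lit 294899142812) (nat_lit 152) (nat_lit 580028247351) (nat_lit 5) (nat_lit 5) (nat_lit 6) (nat_lit 5) (nat_lit 7) (nat_lit 4) (nat_lit 245) (nat_lit 225) (nat_lit 130))) (XT.nd (nat_lit 78) (nat_lit 0) (nat_lit 0) (XT.lf (nat_lit 0) (nat_lit 474030608572) (nat_lit 76) (nat_lit 72156997793) (nat_lit 152) (nat_lit 491180257820) (nat_lit 5) (nat_lit 5) (nat_lit 6) (nat_lit 5) (nat_lit 7) (nat_lit 4) (nat_lit 246) (nat_lit 225) (nat_lit 129)) (XT.lf (nat_lit 0) (nat_lit 787791913330) (nat_lit 152) (nat_lit 209433902663) (nat_lit 0) (nat_lit 174792152882) (nat_lit 5) (nat_lit 5)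 (nat_lit 7) (nat_lit 4) (nat_lit 5) (nat_lit 4) (nat_lit 247) (nat_lit 225) (nat_lit 128)))) (XT.nd (nat_lit 156) (nat_lit 152) (nat_lit 0) (XT.nd (nat_lit 78) (nat_lit 0) (nat_lit 0) (XT.lf (nat_lit 0) (nat_lit 205856906768) (nat_lit 76) (nat_lit 866726415176) (nat_lit 76) (nat_lit 253726551175) (nat_lit 4) (nat_lit 4) (nat_lit 5) (nat_lit 5) (nat_lit 5) (nat_lit 4) (nat_lit 248) (nat_lit 225) (nat_lit 127)) (XT.lf (nat_lit 0) (nat_lit 696123873421) (nat_lit 76) (nat_lit 710066927577) (nat_lit 76) (nat_lit 97066973530) (nat_lit 4) (nat_lit 4) (nat_lit 5) (nat_lit 5) (nat_lit 5) (nat_lit 4) (nat_lit 249) (nat_lit 225) (nat_lit 126))) (XT.nd (nat_lit 78) (nat_lit 76) (nat_lit 0) (XT.lf (nat_lit 0) (nat_lit 78934890580) (nat_lit 152) (nat_lit 448815459941) (nat_lit 76) (nat_lit 1178837648537) (nat_lit 3) (nat_lit 5) (nat_lit 5) (nat_lit 5) (nat_lit 4) (nat_lit 4) (nat_lit 250) (nat_lit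 225) (nat_lit 125)) (XT.nd (nat_lit 78) (nat_lit 76) (nat_lit 0) (XT.lf (nat_lit 0) (nat_lit 275752933663) (nat_lit 152) (nat_lit 39433998416) (nat_lit 76) (nat_lit 1625016059972) (nat_lit 3) (nat_lit 5) (nat_lit 5) (nat_lit 5) (nat_lit 4) (nat_lit 4) (nat_lit 251) (nat_lit 225) (nat_lit 124)) (XT.lf (nat_lit 0) (nat_lit 454068951762) (nat_lit 76) (nat_lit 58945044105) (nat_lit 152) (nat_lit 1694972613272) (nat_lit 2) (nat_lit 5) (nat_lit 3) (nat_lit 5) (nat_lit 4) (nat_lit 4) (nat_lit 252) (nat_lit 225) (nat_lit 123))))))) (XT.nd (nat_lit 29718) (nat_lit 0) (nat_lit 456) (XT.nd (nat_lit 29328) (nat_lit 0) (nat_lit 1596) (XT.nd (nat_lit 29172) (nat_lit 0) (nat_lit 2052) (XT.nd (nat_lit 78) (nat_lit 0) (nat_lit 0) (XT.lf (nat_lit 0) (nat_lit 792711451153) (nat_lit 152) (nat_lit 1497559876002) (nat_lit 0) (nat_lit 225118663073) (nat_lit 2) (nat_lit 5) (nat_lit 4) (nat_lit 4) (nat_lit 2)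 (nat_lit 4) (nat_lit 253) (nat_lit 225) (nat_lit 122)) (XT.lf (nat_lit 0) (nat_lit 1115993753461) (nat_lit 152) (nat_lit 1204378782914) (nat_lit 0) (nat_lit 548400923927) (nat_lit 2) (nat_lit 5) (nat_lit 4) (nat_lit 4) (nat_lit 2) (nat_lit 4) (nat_lit 254) (nat_lit 225) (nat_lit 121))) (XT.nd (nat_lit 78) (nat_lit 0) (nat_lit 76) (XT.lf (nat_lit 0) (nat_lit 13592441690) (nat_lit 532) (nat_lit 32165216712) (nat_lit 532) (nat_lit 32165216712) (nat_lit 29) (nat_lit 3) (nat_lit 36) (nat_lit 3) (nat_lit 36) (nat_lit 5) (nat_lit 226) (nat_lit 226) (nat_lit 148)) (XT.lf (nat_lit 0) (nat_lit 31232550960) (nat_lit 456) (nat_lit 111084595295) (nat_lit 532) (nat_lit 25056300968) (nat_lit 30) (nat_lit 5) (nat_lit 36) (nat_lit 5) (nat_lit 37) (nat_lit 5) (nat_lit 227) (nat_lit 226) (nat_lit 147)))) (XT.nd (nat_lit 156) (nat_lit 532) (nat_lit 0) (XT.nd (nat_lit 78) (nat_lit 0) (nat_lit 76) (XT.lf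 (nat_lit 76) (nat_lit 16669873377) (nat_lit 0) (nat_lit 24070294628) (nat_lit 532) (nat_lit 139501912184) (nat_lit 31) (nat_lit 5) (nat_lit 30) (nat_lit 5) (nat_lit 37) (nat_lit 5) (nat_lit 228) (nat_lit 226) (nat_lit 146)) (XT.lf (nat_lit 0) (nat_lit 57682898554) (nat_lit 456) (nat_lit 27243875587) (nat_lit 532) (nat_lit 109633520955) (nat_lit 31) (nat_lit 5) (nat_lit 37) (nat_lit 5) (nat_lit 38) (nat_lit 5) (nat_lit 229) (nat_lit 226) (nat_lit 145))) (XT.nd (nat_lit 78) (nat_lit 684) (nat_lit 0) (XT.lf (nat_lit 0) (nat_lit 82406794931) (nat_lit 456) (nat_lit 76370719926) (nat_lit 76) (nat_lit 51829550944) (nat_lit 32) (nat_lit 5) (nat_lit 38) (nat_lit 5) (nat_lit 33) (nat_lit 5) (nat_lit 230) (nat_lit 226) (nat_lit 144)) (XT.nd (nat_lit 78) (nat_lit 228) (nat_lit 0) (XT.lf (nat_lit 0) (nat_lit 94971958078) (nat_lit 456) (nat_lit 21313527782) (nat_lit 532) (nat_lit 112339672976) (nat_lit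 26) (nat_lit 5) (nat_lit 32) (nat_lit 5) (nat_lit 33) (nat_lit 5) (nat_lit 231) (nat_lit 226) (nat_lit 143)) (XT.lf (nat_lit 0) (nat_lit 46448738939) (nat_lit 228) (nat_lit 115484407765) (nat_lit 304) (nat_lit 86877848893) (nat_lit 23) (nat_lit 5) (nat_lit 26) (nat_lit 5) (nat_lit 27) (nat_lit 5) (nat_lit 232) (nat_lit 226) (nat_lit 142)))))) (XT.nd (nat_lit 390) (nat_lit 532) (nat_lit 0) (XT.nd (nat_lit 156) (nat_lit 456) (nat_lit 0) (XT.nd (nat_lit 78) (nat_lit 152) (nat_lit 0) (XT.lf (nat_lit 0) (nat_lit 219906874454) (nat_lit 304) (nat_lit 11642428544) (nat_lit 76) (nat_lit 40037094120) (nat_lit 23) (nat_lit 5) (nat_lit 27) (nat_lit 5) (nat_lit 24) (nat_lit 5) (nat_lit 233) (nat_lit 226) (nat_lit 141)) (XT.lf (nat_lit 0) (nat_lit 215259090547) (nat_lit 152) (nat_lit 79688218002) (nat_lit 228) (nat_lit 2161150868) (nat_lit 21) (nat_lit 5) (nat_lit 23) (nat_lit 5) (nat_lit 24) (nat_lit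 5) (nat_lit 234) (nat_lit 226) (nat_lit 140))) (XT.nd (nat_lit 78) (nat_lit 152) (nat_lit 0) (XT.lf (nat_lit 0) (nat_lit 58592526668) (nat_lit 304) (nat_lit 171452539492) (nat_lit 76) (nat_lit 95784511057) (nat_lit 17) (nat_lit 5) (nat_lit 21) (nat_lit 5) (nat_lit 18) (nat_lit 5) (nat_lit 235) (nat_lit 226) (nat_lit 139)) (XT.nd (nat_lit 78) (nat_lit 0) (nat_lit 0) (XT.lf (nat_lit 0) (nat_lit 73685765227) (nat_lit 152) (nat_lit 61069846565) (nat_lit 228) (nat_lit 223584816204) (nat_lit 15) (nat_lit 5) (nat_lit 17) (nat_lit 5) (nat_lit 18) (nat_lit 5) (nat_lit 236) (nat_lit 226) (nat_lit 138)) (XT.lf (nat_lit 0) (nat_lit 230668909860) (nat_lit 228) (nat_lit 32685838069) (nat_lit 76) (nat_lit 131707099860) (nat_lit 15) (nat_lit 5) (nat_lit 18) (nat_lit 5) (nat_lit 16) (nat_lit 5) (nat_lit 237) (nat_lit 226) (nat_lit 137))))) (XT.nd (nat_lit 156) (nat_lit 228) (nat_lit 0) (XT.nd (nat_lit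 78) (nat_lit 152) (nat_lit 0) (XT.lf (nat_lit 0) (nat_lit 268837280849) (nat_lit 152) (nat_lit 80286275414) (nat_lit 228) (nat_lit 87515577229) (nat_lit 13) (nat_lit 5) (nat_lit 15) (nat_lit 5) (nat_lit 16) (nat_lit 5) (nat_lit 238) (nat_lit 226) (nat_lit 136)) (XT.lf (nat_lit 0) (nat_lit 8441370162) (nat_lit 152) (nat_lit 347193342174) (nat_lit 76) (nat_lit 128209167949) (nat_lit 11) (nat_lit 5) (nat_lit 13) (nat_lit 5) (nat_lit 12) (nat_lit 5) (nat_lit 239) (nat_lit 226) (nat_lit 135))) (XT.nd (nat_lit 78) (nat_lit 228) (nat_lit 0) (XT.lf (nat_lit 0) (nat_lit 120989881910) (nat_lit 152) (nat_lit 45574320639) (nat_lit 76) (nat_lit 370792893176) (nat_lit 11) (nat_lit 5) (nat_lit 13) (nat_lit 5) (nat_lit 12) (nat_lit 5) (nat_lit 240) (nat_lit 226) (nat_lit 134)) (XT.nd (nat_lit 78) (nat_lit 76) (nat_lit 0) (XT.lf (nat_lit 0) (nat_lit 259469493097) (nat_lit 228) (nat_lit 282556015401)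 (nat_lit 76) (nat_lit 56147879918) (nat_lit 9) (nat_lit 5) (nat_lit 12) (nat_lit 5) (nat_lit 10) (nat_lit 4) (nat_lit 241) (nat_lit 226) (nat_lit 133)) (XT.lf (nat_lit 0) (nat_lit 64317654519) (nat_lit 76) (nat_lit 361918142838) (nat_lit 152) (nat_lit 241275148192) (nat_lit 8) (nat_lit 5) (nat_lit 9) (nat_lit 5) (nat_lit 10) (nat_lit 4) (nat_lit 242) (nat_lit 226) (nat_lit 132))))))))
noncomputable def xc56 : XT := (XT.nd (nat_lit 30498) (nat_lit 0) (nat_lit 152) (XT.nd (nat_lit 702) (nat_lit 76) (nat_lit 0) (XT.nd (nat_lit 312) (nat_lit 152) (nat_lit 0) (XT.nd (nat_lit 156) (nat_lit 76) (nat_lit 0) (XT.nd (nat_lit 78) (nat_lit 152) (nat_lit 0) (XT.lf (nat_lit 0) (nat_lit 480332886080) (nat_lit 76) (nat_lit 145910335707) (nat_lit 152) (nat_lit 120347821070) (nat_lit 8) (nat_lit 5) (nat_lit 9) (nat_lit 5) (nat_lit 10) (nat_lit 4) (nat_lit 243) (nat_lit 226) (nat_lit 131)) (XT.lf (nat_lit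 0) (nat_lit 23395687179) (nat_lit 152) (nat_lit 712682525236) (nat_lit 76) (nat_lit 100969851168) (nat_lit 6) (nat_lit 5) (nat_lit 8) (nat_lit 5) (nat_lit 7) (nat_lit 4) (nat_lit 244) (nat_lit 226) (nat_lit 130))) (XT.nd (nat_lit 78) (nat_lit 76) (nat_lit 0) (XT.lf (nat_lit 0) (nat_lit 193765963292) (nat_lit 152) (nat_lit 358312498826) (nat_lit 76) (nat_lit 387769808253) (nat_lit 6) (nat_lit 5) (nat_lit 8) (nat_lit 5) (nat_lit 7) (nat_lit 4) (nat_lit 245) (nat_lit 226) (nat_lit 129)) (XT.lf (nat_lit 0) (nat_lit 51804327269) (nat_lit 76) (nat_lit 339133248863) (nat_lit 152) (nat_lit 667031268764) (nat_lit 5) (nat_lit 5) (nat_lit 6) (nat_lit 5) (nat_lit 7) (nat_lit 4) (nat_lit 246) (nat_lit 226) (nat_lit 128)))) (XT.nd (nat_lit 156) (nat_lit 152) (nat_lit 0) (XT.nd (nat_lit 78) (nat_lit 0) (nat_lit 0) (XT.lf (nat_lit 0) (nat_lit 545136841227) (nat_lit 76) (nat_lit 82979881923) (nat_lit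 152) (nat_lit 564856239372) (nat_lit 5) (nat_lit 5) (nat_lit 6) (nat_lit 5) (nat_lit 7) (nat_lit 4) (nat_lit 247) (nat_lit 226) (nat_lit 127)) (XT.lf (nat_lit 0) (nat_lit 905961562795) (nat_lit 152) (nat_lit 240847504015) (nat_lit 0) (nat_lit 201011525594) (nat_lit 5) (nat_lit 5) (nat_lit 7) (nat_lit 4) (nat_lit 5) (nat_lit 4) (nat_lit 248) (nat_lit 226) (nat_lit 126))) (XT.nd (nat_lit 78) (nat_lit 76) (nat_lit 0) (XT.lf (nat_lit 0) (nat_lit 236736801214) (nat_lit 76) (nat_lit 996734801662) (nat_lit 76) (nat_lit 291784686161) (nat_lit 4) (nat_lit 4) (nat_lit 5) (nat_lit 5) (nat_lit 5) (nat_lit 4) (nat_lit 249) (nat_lit 226) (nat_lit 125)) (XT.nd (nat_lit 78) (nat_lit 76) (nat_lit 0) (XT.lf (nat_lit 0) (nat_lit 800543635677) (nat_lit 76) (nat_lit 816576466027) (nat_lit 76) (nat_lit 111626282438) (nat_lit 4) (nat_lit 4) (nat_lit 5) (nat_lit 5) (nat_lit 5) (nat_lit 4) (nat_lit 250) (nat_lit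 226) (nat_lit 124)) (XT.lf (nat_lit 0) (nat_lit 90775733078) (nat_lit 152) (nat_lit 516136717992) (nat_lit 76) (nat_lit 1355663697425) (nat_lit 3) (nat_lit 5) (nat_lit 5) (nat_lit 5) (nat_lit 4) (nat_lit 4) (nat_lit 251) (nat_lit 226) (nat_lit 123)))))) (XT.nd (nat_lit 29406) (nat_lit 0) (nat_lit 1824) (XT.nd (nat_lit 156) (nat_lit 0) (nat_lit 0) (XT.nd (nat_lit 78) (nat_lit 76) (nat_lit 0) (XT.lf (nat_lit 0) (nat_lit 317116403201) (nat_lit 152) (nat_lit 45348175622) (nat_lit 76) (nat_lit 1868768818192) (nat_lit 3) (nat_lit 5) (nat_lit 5) (nat_lit 5) (nat_lit 4) (nat_lit 4) (nat_lit 252) (nat_lit 226) (nat_lit 122)) (XT.lf (nat_lit 0) (nat_lit 522180138993) (nat_lit 76) (nat_lit 67786436988) (nat_lit 152) (nat_lit 1949217984778) (nat_lit 2) (nat_lit 5) (nat_lit 3) (nat_lit 5) (nat_lit 4) (nat_lit 4) (nat_lit 253) (nat_lit 226) (nat_lit 121))) (XT.nd (nat_lit 29172) (nat_lit 0) (nat_lit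 2052) (XT.lf (nat_lit 0) (nat_lit 911618594463) (nat_lit 152) (nat_lit 1722193096124) (nat_lit 0) (nat_lit 258886763001) (nat_lit 2) (nat_lit 5) (nat_lit 4) (nat_lit 4) (nat_lit 2) (nat_lit 4) (nat_lit 254) (nat_lit 226) (nat_lit 120)) (XT.lf (nat_lit 0) (nat_lit 15635372442) (nat_lit 532) (nat_lit 36987789930) (nat_lit 532) (nat_lit 36987789930) (nat_lit 29) (nat_lit 3) (nat_lit 36) (nat_lit 3) (nat_lit 36) (nat_lit 5) (nat_lit 227) (nat_lit 227) (nat_lit 146)))) (XT.nd (nat_lit 156) (nat_lit 304) (nat_lit 0) (XT.nd (nat_lit 78) (nat_lit 0) (nat_lit 0) (XT.lf (nat_lit 0) (nat_lit 35924524499) (nat_lit 456) (nat_lit 127742541380) (nat_lit 532) (nat_lit 28811780861) (nat_lit 30) (nat_lit 5) (nat_lit 36) (nat_lit 5) (nat_lit 37) (nat_lit 5) (nat_lit 228) (nat_lit 227) (nat_lit 145)) (XT.lf (nat_lit 76) (nat_lit 19174696105) (nat_lit 0) (nat_lit 27682767516) (nat_lit 532) (nat_lit 160420383229)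 (nat_lit 31) (nat_lit 5) (nat_lit 30) (nat_lit 5) (nat_lit 37) (nat_lit 5) (nat_lit 229) (nat_lit 227) (nat_lit 144))) (XT.nd (nat_lit 78) (nat_lit 380) (nat_lit 0) (XT.lf (nat_lit 0) (nat_lit 66340745537) (nat_lit 456) (nat_lit 31326166948) (nat_lit 532) (nat_lit 126076955870) (nat_lit 31) (nat_lit 5) (nat_lit 37) (nat_lit 5) (nat_lit 38) (nat_lit 5) (nat_lit 230) (nat_lit 227) (nat_lit 143)) (XT.nd (nat_lit 78) (nat_lit 456) (nat_lit 0) (XT.lf (nat_lit 0) (nat_lit 94772593856) (nat_lit 456) (nat_lit 87821962921) (nat_lit 76) (nat_lit 59603153450) (nat_lit 32) (nat_lit 5) (nat_lit 38) (nat_lit 5) (nat_lit 33) (nat_lit 5) (nat_lit 231) (nat_lit 227) (nat_lit 142)) (XT.lf (nat_lit 0) (nat_lit 109221747309) (nat_lit 456) (nat_lit 24510813770) (nat_lit 532) (nat_lit 129186002639) (nat_lit 26) (nat_lit 5) (nat_lit 32) (nat_lit 5) (nat_lit 33) (nat_lit 5) (nat_lit 232) (nat_lit 227) (nat_lit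 141))))))) (XT.nd (nat_lit 702) (nat_lit 532) (nat_lit 0) (XT.nd (nat_lit 312) (nat_lit 456) (nat_lit 0) (XT.nd (nat_lit 156) (nat_lit 456) (nat_lit 0) (XT.nd (nat_lit 78) (nat_lit 0) (nat_lit 0) (XT.lf (nat_lit 0) (nat_lit 53420050466) (nat_lit 228) (nat_lit 132806856776) (nat_lit 304) (nat_lit 99905409606) (nat_lit 23) (nat_lit 5) (nat_lit 26) (nat_lit 5) (nat_lit 27) (nat_lit 5) (nat_lit 233) (nat_lit 227) (nat_lit 140)) (XT.lf (nat_lit 0) (nat_lit 252896204436) (nat_lit 304) (nat_lit 13385033111) (nat_lit 76) (nat_lit 46042833490) (nat_lit 23) (nat_lit 5) (nat_lit 27) (nat_lit 5) (nat_lit 24) (nat_lit 5) (nat_lit 234) (nat_lit 227) (nat_lit 139))) (XT.nd (nat_lit 78) (nat_lit 304) (nat_lit 0) (XT.lf (nat_lit 0) (nat_lit 247551395602) (nat_lit 152) (nat_lit 91640960529) (nat_lit 228) (nat_lit 2482117186) (nat_lit 21) (nat_lit 5) (nat_lit 23) (nat_lit 5) (nat_lit 24) (nat_lit 5) (nat_lit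 235) (nat_lit 227) (nat_lit 138)) (XT.lf (nat_lit 0) (nat_lit 67384148035) (nat_lit 304) (nat_lit 197166887978) (nat_lit 76) (nat_lit 110152743174) (nat_lit 17) (nat_lit 5) (nat_lit 21) (nat_lit 5) (nat_lit 18) (nat_lit 5) (nat_lit 236) (nat_lit 227) (nat_lit 137)))) (XT.nd (nat_lit 156) (nat_lit 304) (nat_lit 0) (XT.nd (nat_lit 78) (nat_lit 0) (nat_lit 0) (XT.lf (nat_lit 0) (nat_lit 84741863445) (nat_lit 152) (nat_lit 70229552546) (nat_lit 228) (nat_lit 257119865971) (nat_lit 15) (nat_lit 5) (nat_lit 17) (nat_lit 5) (nat_lit 18) (nat_lit 5) (nat_lit 237) (nat_lit 227) (nat_lit 136)) (XT.lf (nat_lit 0) (nat_lit 265271403707) (nat_lit 228) (nat_lit 37585735411) (nat_lit 76) (nat_lit 151463801739) (nat_lit 15) (nat_lit 5) (nat_lit 18) (nat_lit 5) (nat_lit 16) (nat_lit 5) (nat_lit 238) (nat_lit 227) (nat_lit 135))) (XT.nd (nat_lit 78) (nat_lit 152) (nat_lit 0) (XT.lf (nat_lit 0) (nat_lit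 309165599241) (nat_lit 152) (nat_lit 92328432001) (nat_lit 228) (nat_lit 100640806941) (nat_lit 13) (nat_lit 5) (nat_lit 15) (nat_lit 5) (nat_lit 16) (nat_lit 5) (nat_lit 239) (nat_lit 227) (nat_lit 134)) (XT.nd (nat_lit 78) (nat_lit 0) (nat_lit 0) (XT.lf (nat_lit 0) (nat_lit 9709397822) (nat_lit 152) (nat_lit 399269609927) (nat_lit 76) (nat_lit 147441300748) (nat_lit 11) (nat_lit 5) (nat_lit 13) (nat_lit 5) (nat_lit 12) (nat_lit 5) (nat_lit 240) (nat_lit 227) (nat_lit 133)) (XT.lf (nat_lit 0) (nat_lit 139139948663) (nat_lit 152) (nat_lit 52408091716) (nat_lit 76) (nat_lit 426412485940) (nat_lit 11) (nat_lit 5) (nat_lit 13) (nat_lit 5) (nat_lit 12) (nat_lit 5) (nat_lit 241) (nat_lit 227) (nat_lit 132)))))) (XT.nd (nat_lit 312) (nat_lit 152) (nat_lit 0) (XT.nd (nat_lit 156) (nat_lit 152) (nat_lit 0) (XT.nd (nat_lit 78) (nat_lit 76) (nat_lit 0) (XT.lf (nat_lit 0) (nat_lit 298391365120)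 (nat_lit 228) (nat_lit 324937139324) (nat_lit 76) (nat_lit 64570770295) (nat_lit 9) (nat_lit 5) (nat_lit 12) (nat_lit 5) (nat_lit 10) (nat_lit 4) (nat_lit 242) (nat_lit 227) (nat_lit 131)) (XT.lf (nat_lit 0) (nat_lit 73967388230) (nat_lit 76) (nat_lit 416205088070) (nat_lit 152) (nat_lit 277465001036) (nat_lit 8) (nat_lit 5) (nat_lit 9) (nat_lit 5) (nat_lit 10) (nat_lit 4) (nat_lit 243) (nat_lit 227) (nat_lit 130))) (XT.nd (nat_lit 78) (nat_lit 152) (nat_lit 0) (XT.lf (nat_lit 0) (nat_lit 552384632499) (nat_lit 76) (nat_lit 167796211111) (nat_lit 152) (nat_lit 138398759982) (nat_lit 8) (nat_lit 5) (nat_lit 9) (nat_lit 5) (nat_lit 10) (nat_lit 4) (nat_lit 244) (nat_lit 227) (nat_lit 129)) (XT.lf (nat_lit 0) (nat_lit 26906117063) (nat_lit 152) (nat_lit 819583110872) (nat_lit 76) (nat_lit 116115955331) (nat_lit 6) (nat_lit 5) (nat_lit 8) (nat_lit 5) (nat_lit 7) (nat_lit 4) (nat_lit 245)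 (nat_lit 227) (nat_lit 128)))) (XT.nd (nat_lit 156) (nat_lit 76) (nat_lit 0) (XT.nd (nat_lit 78) (nat_lit 76) (nat_lit 0) (XT.lf (nat_lit 0) (nat_lit 222831794140) (nat_lit 152) (nat_lit 412057814389) (nat_lit 76) (nat_lit 445935824263) (nat_lit 6) (nat_lit 5) (nat_lit 8) (nat_lit 5) (nat_lit 7) (nat_lit 4) (nat_lit 246) (nat_lit 227) (nat_lit 127)) (XT.lf (nat_lit 0) (nat_lit 59576403637) (nat_lit 76) (nat_lit 390002657463) (nat_lit 152) (nat_lit 767085039843) (nat_lit 5) (nat_lit 5) (nat_lit 6) (nat_lit 5) (nat_lit 7) (nat_lit 4) (nat_lit 247) (nat_lit 227) (nat_lit 126))) (XT.nd (nat_lit 78) (nat_lit 76) (nat_lit 0) (XT.lf (nat_lit 0) (nat_lit 626908608521) (nat_lit 76) (nat_lit 95426360968) (nat_lit 152) (nat_lit 649583875942) (nat_lit 5) (nat_lit 5) (nat_lit 6) (nat_lit 5) (nat_lit 7) (nat_lit 4) (nat_lit 248) (nat_lit 227) (nat_lit 125)) (XT.nd (nat_lit 78) (nat_lit 76) (nat_lit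 0) (XT.lf (nat_lit 0) (nat_lit 1041856449362) (nat_lit 152) (nat_lit 276973507464) (nat_lit 0) (nat_lit 231163670146) (nat_lit 5) (nat_lit 5) (nat_lit 7) (nat_lit 4) (nat_lit 5) (nat_lit 4) (nat_lit 249) (nat_lit 227) (nat_lit 124)) (XT.lf (nat_lit 0) (nat_lit 272248348564) (nat_lit 76) (nat_lit 1146244586531) (nat_lit 76) (nat_lit 335551748109) (nat_lit 4) (nat_lit 4) (nat_lit 5) (nat_lit 5) (nat_lit 5) (nat_lit 4) (nat_lit 250) (nat_lit 227) (nat_lit 123))))))))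
noncomputable def xc57 : XT := (XT.nd (nat_lit 30654) (nat_lit 0) (nat_lit 0) (XT.nd (nat_lit 29952) (nat_lit 0) (nat_lit 608) (XT.nd (nat_lit 29562) (nat_lit 0) (nat_lit 1748) (XT.nd (nat_lit 156) (nat_lit 0) (nat_lit 0) (XT.nd (nat_lit 78) (nat_lit 76) (nat_lit 0) (XT.lf (nat_lit 0) (nat_lit 920626074219) (nat_lit 76) (nat_lit 939062557339) (nat_lit 76) (nat_lit 128369667433) (nat_lit 4) (nat_lit 4) (nat_lit 5) (nat_lit 5) (nat_lit 5) (nat_lit 4) (nat_lit 251) (nat_lit 227) (nat_lit 122)) (XT.lf (nat_lit 0) (nat_lit 104392553465) (nat_lit 152) (nat_lit 593556423467) (nat_lit 76) (nat_lit 1559013555712) (nat_lit 3) (nat_lit 5) (nat_lit 5) (nat_lit 5) (nat_lit 4) (nat_lit 4) (nat_lit 252) (nat_lit 227) (nat_lit 121))) (XT.nd (nat_lit 29328) (nat_lit 0) (nat_lit 1976) (XT.lf (nat_lit 0) (nat_lit 364684264050) (nat_lit 152) (nat_lit 52149704379) (nat_lit 76) (nat_lit 2149084404985) (nat_lit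 3) (nat_lit 5) (nat_lit 5) (nat_lit 5) (nat_lit 4) (nat_lit 4) (nat_lit 253) (nat_lit 227) (nat_lit 120)) (XT.lf (nat_lit 0) (nat_lit 17983751653) (nat_lit 532) (nat_lit 42534287880) (nat_lit 532) (nat_lit 42534287880) (nat_lit 29) (nat_lit 3) (nat_lit 36) (nat_lit 3) (nat_lit 36) (nat_lit 5) (nat_lit 228) (nat_lit 228) (nat_lit 144)))) (XT.nd (nat_lit 156) (nat_lit 304) (nat_lit 0) (XT.nd (nat_lit 78) (nat_lit 0) (nat_lit 0) (XT.lf (nat_lit 0) (nat_lit 41318564910) (nat_lit 456) (nat_lit 146900336039) (nat_lit 532) (nat_lit 33131305833) (nat_lit 30) (nat_lit 5) (nat_lit 36) (nat_lit 5) (nat_lit 37) (nat_lit 5) (nat_lit 229) (nat_lit 228) (nat_lit 143)) (XT.lf (nat_lit 76) (nat_lit 22054183485) (nat_lit 0) (nat_lit 31836641014) (nat_lit 532) (nat_lit 184478287003) (nat_lit 31) (nat_lit 5) (nat_lit 30) (nat_lit 5) (nat_lit 37) (nat_lit 5) (nat_lit 230) (nat_lit 228) (nat_lit 142))) (XT.nd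 (nat_lit 78) (nat_lit 380) (nat_lit 0) (XT.lf (nat_lit 0) (nat_lit 76295949767) (nat_lit 456) (nat_lit 36021848152) (nat_lit 532) (nat_lit 144987294541) (nat_lit 31) (nat_lit 5) (nat_lit 37) (nat_lit 5) (nat_lit 38) (nat_lit 5) (nat_lit 231) (nat_lit 228) (nat_lit 141)) (XT.nd (nat_lit 78) (nat_lit 456) (nat_lit 0) (XT.lf (nat_lit 0) (nat_lit 108992097063) (nat_lit 456) (nat_lit 100991956797) (nat_lit 76) (nat_lit 68542998766) (nat_lit 32) (nat_lit 5) (nat_lit 38) (nat_lit 5) (nat_lit 33) (nat_lit 5) (nat_lit 232) (nat_lit 228) (nat_lit 140)) (XT.lf (nat_lit 0) (nat_lit 125608030592) (nat_lit 456) (nat_lit 28187630030) (nat_lit 532) (nat_lit 148560408681) (nat_lit 26) (nat_lit 5) (nat_lit 32) (nat_lit 5) (nat_lit 33) (nat_lit 5) (nat_lit 233) (nat_lit 228) (nat_lit 139)))))) (XT.nd (nat_lit 312) (nat_lit 456) (nat_lit 0) (XT.nd (nat_lit 156) (nat_lit 456) (nat_lit 0) (XT.nd (nat_lit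 78) (nat_lit 0) (nat_lit 0) (XT.lf (nat_lit 0) (nat_lit 61436083130) (nat_lit 228) (nat_lit 152727724874) (nat_lit 304) (nat_lit 114888108290) (nat_lit 23) (nat_lit 5) (nat_lit 26) (nat_lit 5) (nat_lit 27) (nat_lit 5) (nat_lit 234) (nat_lit 228) (nat_lit 138)) (XT.lf (nat_lit 0) (nat_lit 290833129478) (nat_lit 304) (nat_lit 15389945193) (nat_lit 76) (nat_lit 52949391030) (nat_lit 23) (nat_lit 5) (nat_lit 27) (nat_lit 5) (nat_lit 24) (nat_lit 5) (nat_lit 235) (nat_lit 228) (nat_lit 137))) (XT.nd (nat_lit 78) (nat_lit 304) (nat_lit 0) (XT.lf (nat_lit 0) (nat_lit 284686707191) (nat_lit 152) (nat_lit 105386733967) (nat_lit 228) (nat_lit 2852010331) (nat_lit 21) (nat_lit 5) (nat_lit 23) (nat_lit 5) (nat_lit 24) (nat_lit 5) (nat_lit 236) (nat_lit 228) (nat_lit 136)) (XT.lf (nat_lit 0) (nat_lit 77493843863) (nat_lit 304) (nat_lit 226739250145) (nat_lit 76) (nat_lit 126676074657) (nat_lit 17)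 (nat_lit 5) (nat_lit 21) (nat_lit 5) (nat_lit 18) (nat_lit 5) (nat_lit 237) (nat_lit 228) (nat_lit 135)))) (XT.nd (nat_lit 156) (nat_lit 304) (nat_lit 0) (XT.nd (nat_lit 78) (nat_lit 0) (nat_lit 0) (XT.lf (nat_lit 0) (nat_lit 97455587903) (nat_lit 152) (nat_lit 80763402438) (nat_lit 228) (nat_lit 295685824950) (nat_lit 15) (nat_lit 5) (nat_lit 17) (nat_lit 5) (nat_lit 18) (nat_lit 5) (nat_lit 238) (nat_lit 228) (nat_lit 134)) (XT.lf (nat_lit 0) (nat_lit 305063745543) (nat_lit 228) (nat_lit 43221343648) (nat_lit 76) (nat_lit 174183853588) (nat_lit 15) (nat_lit 5) (nat_lit 18) (nat_lit 5) (nat_lit 16) (nat_lit 5) (nat_lit 239) (nat_lit 228) (nat_lit 133))) (XT.nd (nat_lit 78) (nat_lit 152) (nat_lit 0) (XT.lf (nat_lit 0) (nat_lit 355542500575) (nat_lit 152) (nat_lit 106177103435) (nat_lit 228) (nat_lit 115735334885) (nat_lit 13) (nat_lit 5) (nat_lit 15) (nat_lit 5) (nat_lit 16) (nat_lit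 5) (nat_lit 240) (nat_lit 228) (nat_lit 132)) (XT.nd (nat_lit 78) (nat_lit 0) (nat_lit 0) (XT.lf (nat_lit 0) (nat_lit 11167185292) (nat_lit 152) (nat_lit 459157984443) (nat_lit 76) (nat_lit 169558068720) (nat_lit 11) (nat_lit 5) (nat_lit 13) (nat_lit 5) (nat_lit 12) (nat_lit 5) (nat_lit 241) (nat_lit 228) (nat_lit 131)) (XT.lf (nat_lit 0) (nat_lit 160012139046) (nat_lit 152) (nat_lit 60267508104) (nat_lit 76) (nat_lit 490374856970) (nat_lit 11) (nat_lit 5) (nat_lit 13) (nat_lit 5) (nat_lit 12) (nat_lit 5) (nat_lit 242) (nat_lit 228) (nat_lit 130))))))) (XT.nd (nat_lit 702) (nat_lit 76) (nat_lit 0) (XT.nd (nat_lit 312) (nat_lit 152) (nat_lit 0) (XT.nd (nat_lit 156) (nat_lit 152) (nat_lit 0) (XT.nd (nat_lit 78) (nat_lit 76) (nat_lit 0) (XT.lf (nat_lit 0) (nat_lit 343151164829) (nat_lit 228) (nat_lit 373675987435) (nat_lit 76) (nat_lit 74256921483) (nat_lit 9) (nat_lit 5) (nat_lit 12) (nat_lit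 5) (nat_lit 10) (nat_lit 4) (nat_lit 243) (nat_lit 228) (nat_lit 129)) (XT.lf (nat_lit 0) (nat_lit 85064073427) (nat_lit 76) (nat_lit 478635264366) (nat_lit 152) (nat_lit 319083677933) (nat_lit 8) (nat_lit 5) (nat_lit 9) (nat_lit 5) (nat_lit 10) (nat_lit 4) (nat_lit 244) (nat_lit 228) (nat_lit 128))) (XT.nd (nat_lit 78) (nat_lit 152) (nat_lit 0) (XT.lf (nat_lit 0) (nat_lit 635243698646) (nat_lit 76) (nat_lit 192965132418) (nat_lit 152) (nat_lit 159157640711) (nat_lit 8) (nat_lit 5) (nat_lit 9) (nat_lit 5) (nat_lit 10) (nat_lit 4) (nat_lit 245) (nat_lit 228) (nat_lit 127)) (XT.lf (nat_lit 0) (nat_lit 30942848844) (nat_lit 152) (nat_lit 942519221624) (nat_lit 76) (nat_lit 133533822345) (nat_lit 6) (nat_lit 5) (nat_lit 8) (nat_lit 5) (nat_lit 7) (nat_lit 4) (nat_lit 246) (nat_lit 228) (nat_lit 126)))) (XT.nd (nat_lit 156) (nat_lit 76) (nat_lit 0) (XT.nd (nat_lit 78) (nat_lit 76) (nat_lit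 0) (XT.lf (nat_lit 0) (nat_lit 256257271280) (nat_lit 152) (nat_lit 473865307523) (nat_lit 76) (nat_lit 512826609828) (nat_lit 6) (nat_lit 5) (nat_lit 8) (nat_lit 5) (nat_lit 7) (nat_lit 4) (nat_lit 247) (nat_lit 228) (nat_lit 125)) (XT.lf (nat_lit 0) (nat_lit 68513943409) (nat_lit 76) (nat_lit 448502618480) (nat_lit 152) (nat_lit 882147100745) (nat_lit 5) (nat_lit 5) (nat_lit 6) (nat_lit 5) (nat_lit 7) (nat_lit 4) (nat_lit 248) (nat_lit 228) (nat_lit 124))) (XT.nd (nat_lit 78) (nat_lit 76) (nat_lit 0) (XT.lf (nat_lit 0) (nat_lit 720945838257) (nat_lit 76) (nat_lit 109739934589) (nat_lit 152) (nat_lit 747020852921) (nat_lit 5) (nat_lit 5) (nat_lit 6) (nat_lit 5) (nat_lit 7) (nat_lit 4) (nat_lit 249) (nat_lit 228) (nat_lit 123)) (XT.nd (nat_lit 78) (nat_lit 76) (nat_lit 0) (XT.lf (nat_lit 0) (nat_lit 1198135409883) (nat_lit 152) (nat_lit 318518685075) (nat_lit 0) (nat_lit 265838535006)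 (nat_lit 5) (nat_lit 5) (nat_lit 7) (nat_lit 4) (nat_lit 5) (nat_lit 4) (nat_lit 250) (nat_lit 228) (nat_lit 122)) (XT.lf (nat_lit 0) (nat_lit 313086377536) (nat_lit 76) (nat_lit 1318180945301) (nat_lit 76) (nat_lit 385884025655) (nat_lit 4) (nat_lit 4) (nat_lit 5) (nat_lit 5) (nat_lit 5) (nat_lit 4) (nat_lit 251) (nat_lit 228) (nat_lit 121)))))) (XT.nd (nat_lit 29718) (nat_lit 0) (nat_lit 1520) (XT.nd (nat_lit 29484) (nat_lit 0) (nat_lit 1976) (XT.nd (nat_lit 78) (nat_lit 76) (nat_lit 0) (XT.lf (nat_lit 0) (nat_lit 1058720660732) (nat_lit 76) (nat_lit 1079921654671) (nat_lit 76) (nat_lit 147624696096) (nat_lit 4) (nat_lit 4) (nat_lit 5) (nat_lit 5) (nat_lit 5) (nat_lit 4) (nat_lit 252) (nat_lit 228) (nat_lit 120)) (XT.lf (nat_lit 0) (nat_lit 120051784632) (nat_lit 152) (nat_lit 682589280391) (nat_lit 76) (nat_lit 1792865818690) (nat_lit 3) (nat_lit 5) (nat_lit 5) (nat_lit 5) (nat_lit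 4) (nat_lit 4) (nat_lit 253) (nat_lit 228) (nat_lit 119))) (XT.nd (nat_lit 78) (nat_lit 0) (nat_lit 76) (XT.lf (nat_lit 0) (nat_lit 20683638292) (nat_lit 532) (nat_lit 48913167894) (nat_lit 532) (nat_lit 48913167894) (nat_lit 29) (nat_lit 3) (nat_lit 36) (nat_lit 3) (nat_lit 36) (nat_lit 5) (nat_lit 229) (nat_lit 229) (nat_lit 142)) (XT.nd (nat_lit 78) (nat_lit 0) (nat_lit 0) (XT.lf (nat_lit 0) (nat_lit 47520403888) (nat_lit 456) (nat_lit 168932674500) (nat_lit 532) (nat_lit 38099306315) (nat_lit 30) (nat_lit 5) (nat_lit 36) (nat_lit 5) (nat_lit 37) (nat_lit 5) (nat_lit 230) (nat_lit 229) (nat_lit 141)) (XT.lf (nat_lit 76) (nat_lit 25364793400) (nat_lit 0) (nat_lit 36613239903) (nat_lit 532) (nat_lit 212146133108) (nat_lit 31) (nat_lit 5) (nat_lit 30) (nat_lit 5) (nat_lit 37) (nat_lit 5) (nat_lit 231) (nat_lit 229) (nat_lit 140))))) (XT.nd (nat_lit 156) (nat_lit 608) (nat_lit 0) (XT.nd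 (nat_lit 78) (nat_lit 0) (nat_lit 76) (XT.lf (nat_lit 0) (nat_lit 87743436675) (nat_lit 456) (nat_lit 41422672566) (nat_lit 532) (nat_lit 166734477788) (nat_lit 31) (nat_lit 5) (nat_lit 37) (nat_lit 5) (nat_lit 38) (nat_lit 5) (nat_lit 232) (nat_lit 229) (nat_lit 139)) (XT.lf (nat_lit 0) (nat_lit 125343644423) (nat_lit 456) (nat_lit 116138254617) (nat_lit 76) (nat_lit 78823973948) (nat_lit 32) (nat_lit 5) (nat_lit 38) (nat_lit 5) (nat_lit 33) (nat_lit 5) (nat_lit 233) (nat_lit 229) (nat_lit 138))) (XT.nd (nat_lit 78) (nat_lit 228) (nat_lit 0) (XT.lf (nat_lit 0) (nat_lit 144451519631) (nat_lit 456) (nat_lit 32415921373) (nat_lit 532) (nat_lit 170841827749) (nat_lit 26) (nat_lit 5) (nat_lit 32) (nat_lit 5) (nat_lit 33) (nat_lit 5) (nat_lit 234) (nat_lit 229) (nat_lit 137)) (XT.nd (nat_lit 78) (nat_lit 0) (nat_lit 0) (XT.lf (nat_lit 0) (nat_lit 70653783005) (nat_lit 228) (nat_lit 175636762306)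 (nat_lit 304) (nat_lit 132118970842) (nat_lit 23) (nat_lit 5) (nat_lit 26) (nat_lit 5) (nat_lit 27) (nat_lit 5) (nat_lit 235) (nat_lit 229) (nat_lit 136)) (XT.lf (nat_lit 0) (nat_lit 334459985007) (nat_lit 304) (nat_lit 17696287343) (nat_lit 76) (nat_lit 60891899886) (nat_lit 23) (nat_lit 5) (nat_lit 27) (nat_lit 5) (nat_lit 24) (nat_lit 5) (nat_lit 236) (nat_lit 229) (nat_lit 135))))))))
noncomputable def xc58 : XT := (XT.nd (nat_lit 30810) (nat_lit 0) (nat_lit 152) (XT.nd (nat_lit 702) (nat_lit 304) (nat_lit 0) (XT.nd (nat_lit 312) (nat_lit 532) (nat_lit 0) (XT.nd (nat_lit 156) (nat_lit 152) (nat_lit 0) (XT.nd (nat_lit 78) (nat_lit 304) (nat_lit 0) (XT.lf (nat_lit 0) (nat_lit 327391680944) (nat_lit 152) (nat_lit 121194463804) (nat_lit 228) (nat_lit 3277978661) (nat_lit 21) (nat_lit 5) (nat_lit 23) (nat_lit 5) (nat_lit 24) (nat_lit 5) (nat_lit 237) (nat_lit 229) (nat_lit 134)) (XT.lf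 (nat_lit 0) (nat_lit 89119488399) (nat_lit 304) (nat_lit 260748117984) (nat_lit 76) (nat_lit 145677803441) (nat_lit 17) (nat_lit 5) (nat_lit 21) (nat_lit 5) (nat_lit 18) (nat_lit 5) (nat_lit 238) (nat_lit 229) (nat_lit 133))) (XT.nd (nat_lit 78) (nat_lit 0) (nat_lit 0) (XT.lf (nat_lit 0) (nat_lit 112075774815) (nat_lit 152) (nat_lit 92877471980) (nat_lit 228) (nat_lit 340037170589) (nat_lit 15) (nat_lit 5) (nat_lit 17) (nat_lit 5) (nat_lit 18) (nat_lit 5) (nat_lit 239) (nat_lit 229) (nat_lit 132)) (XT.lf (nat_lit 0) (nat_lit 350824540856) (nat_lit 228) (nat_lit 49702842304) (nat_lit 76) (nat_lit 200311795777) (nat_lit 15) (nat_lit 5) (nat_lit 18) (nat_lit 5) (nat_lit 16) (nat_lit 5) (nat_lit 240) (nat_lit 229) (nat_lit 131)))) (XT.nd (nat_lit 156) (nat_lit 228) (nat_lit 0) (XT.nd (nat_lit 78) (nat_lit 152) (nat_lit 0) (XT.lf (nat_lit 0) (nat_lit 408875434412) (nat_lit 152) (nat_lit 122103220281)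 (nat_lit 228) (nat_lit 133094430507) (nat_lit 13) (nat_lit 5) (nat_lit 15) (nat_lit 5) (nat_lit 16) (nat_lit 5) (nat_lit 241) (nat_lit 229) (nat_lit 130)) (XT.lf (nat_lit 0) (nat_lit 12843304898) (nat_lit 152) (nat_lit 528030119180) (nat_lit 76) (nat_lit 194992212192) (nat_lit 11) (nat_lit 5) (nat_lit 13) (nat_lit 5) (nat_lit 12) (nat_lit 5) (nat_lit 242) (nat_lit 229) (nat_lit 129))) (XT.nd (nat_lit 78) (nat_lit 228) (nat_lit 0) (XT.lf (nat_lit 0) (nat_lit 184014865827) (nat_lit 152) (nat_lit 69306275251) (nat_lit 76) (nat_lit 563931462180) (nat_lit 11) (nat_lit 5) (nat_lit 13) (nat_lit 5) (nat_lit 12) (nat_lit 5) (nat_lit 243) (nat_lit 229) (nat_lit 128)) (XT.nd (nat_lit 78) (nat_lit 76) (nat_lit 0) (XT.lf (nat_lit 0) (nat_lit 394624667486) (nat_lit 228) (nat_lit 429726082875) (nat_lit 76) (nat_lit 85395864730) (nat_lit 9) (nat_lit 5) (nat_lit 12) (nat_lit 5) (nat_lit 10) (nat_lit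 4) (nat_lit 244) (nat_lit 229) (nat_lit 127)) (XT.lf (nat_lit 0) (nat_lit 97824876851) (nat_lit 76) (nat_lit 550430110229) (nat_lit 152) (nat_lit 366945418084) (nat_lit 8) (nat_lit 5) (nat_lit 9) (nat_lit 5) (nat_lit 10) (nat_lit 4) (nat_lit 245) (nat_lit 229) (nat_lit 126)))))) (XT.nd (nat_lit 312) (nat_lit 76) (nat_lit 0) (XT.nd (nat_lit 156) (nat_lit 76) (nat_lit 0) (XT.nd (nat_lit 78) (nat_lit 152) (nat_lit 0) (XT.lf (nat_lit 0) (nat_lit 730531290322) (nat_lit 76) (nat_lit 221909516375) (nat_lit 152) (nat_lit 183030581132) (nat_lit 8) (nat_lit 5) (nat_lit 9) (nat_lit 5) (nat_lit 10) (nat_lit 4) (nat_lit 246) (nat_lit 229) (nat_lit 125)) (XT.lf (nat_lit 0) (nat_lit 35584891838) (nat_lit 152) (nat_lit 1083896079628) (nat_lit 76) (nat_lit 153564253894) (nat_lit 6) (nat_lit 5) (nat_lit 8) (nat_lit 5) (nat_lit 7) (nat_lit 4) (nat_lit 247) (nat_lit 229) (nat_lit 124))) (XT.nd (nat_lit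 78) (nat_lit 76) (nat_lit 0) (XT.lf (nat_lit 0) (nat_lit 294696397335) (nat_lit 152) (nat_lit 544944212139) (nat_lit 76) (nat_lit 589750912778) (nat_lit 6) (nat_lit 5) (nat_lit 8) (nat_lit 5) (nat_lit 7) (nat_lit 4) (nat_lit 248) (nat_lit 229) (nat_lit 123)) (XT.lf (nat_lit 0) (nat_lit 78791850970) (nat_lit 76) (nat_lit 515777680361) (nat_lit 152) (nat_lit 1014468640280) (nat_lit 5) (nat_lit 5) (nat_lit 6) (nat_lit 5) (nat_lit 7) (nat_lit 4) (nat_lit 249) (nat_lit 229) (nat_lit 122)))) (XT.nd (nat_lit 156) (nat_lit 76) (nat_lit 0) (XT.nd (nat_lit 78) (nat_lit 0) (nat_lit 0) (XT.lf (nat_lit 0) (nat_lit 829088423604) (nat_lit 76) (nat_lit 126200637046) (nat_lit 152) (nat_lit 859073523836) (nat_lit 5) (nat_lit 5) (nat_lit 6) (nat_lit 5) (nat_lit 7) (nat_lit 4) (nat_lit 250) (nat_lit 229) (nat_lit 121)) (XT.lf (nat_lit 0) (nat_lit 1377856094233) (nat_lit 152) (nat_lit 366295846241) (nat_lit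 0) (nat_lit 305714552942) (nat_lit 5) (nat_lit 5) (nat_lit 7) (nat_lit 4) (nat_lit 5) (nat_lit 4) (nat_lit 251) (nat_lit 229) (nat_lit 120))) (XT.nd (nat_lit 78) (nat_lit 0) (nat_lit 0) (XT.lf (nat_lit 0) (nat_lit 360049921453) (nat_lit 76) (nat_lit 1515907838166) (nat_lit 76) (nat_lit 443766263023) (nat_lit 4) (nat_lit 4) (nat_lit 5) (nat_lit 5) (nat_lit 5) (nat_lit 4) (nat_lit 252) (nat_lit 229) (nat_lit 119)) (XT.nd (nat_lit 29484) (nat_lit 0) (nat_lit 1900) (XT.lf (nat_lit 0) (nat_lit 1217529270526) (nat_lit 76) (nat_lit 1241909686411) (nat_lit 76) (nat_lit 169768081832) (nat_lit 4) (nat_lit 4) (nat_lit 5) (nat_lit 5) (nat_lit 5) (nat_lit 4) (nat_lit 253) (nat_lit 229) (nat_lit 118)) (XT.lf (nat_lit 0) (nat_lit 23787941230) (nat_lit 532) (nat_lit 56249187941) (nat_lit 532) (nat_lit 56249187941) (nat_lit 29) (nat_lit 3) (nat_lit 36) (nat_lit 3) (nat_lit 36) (nat_lit 5) (nat_lit 230)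 (nat_lit 230) (nat_lit 140))))))) (XT.nd (nat_lit 702) (nat_lit 836) (nat_lit 0) (XT.nd (nat_lit 312) (nat_lit 988) (nat_lit 0) (XT.nd (nat_lit 156) (nat_lit 0) (nat_lit 76) (XT.nd (nat_lit 78) (nat_lit 0) (nat_lit 0) (XT.lf (nat_lit 0) (nat_lit 54651530061) (nat_lit 456) (nat_lit 194270525054) (nat_lit 532) (nat_lit 43812920302) (nat_lit 30) (nat_lit 5) (nat_lit 36) (nat_lit 5) (nat_lit 37) (nat_lit 5) (nat_lit 231) (nat_lit 230) (nat_lit 139)) (XT.lf (nat_lit 76) (nat_lit 29171389456) (nat_lit 0) (nat_lit 42106059716) (nat_lit 532) (nat_lit 243965106423) (nat_lit 31) (nat_lit 5) (nat_lit 30) (nat_lit 5) (nat_lit 37) (nat_lit 5) (nat_lit 232) (nat_lit 230) (nat_lit 138))) (XT.nd (nat_lit 78) (nat_lit 0) (nat_lit 76) (XT.lf (nat_lit 0) (nat_lit 100907292019) (nat_lit 456) (nat_lit 47634218776) (nat_lit 532) (nat_lit 191743960660) (nat_lit 31) (nat_lit 5) (nat_lit 37) (nat_lit 5) (nat_lit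 38) (nat_lit 5) (nat_lit 233) (nat_lit 230) (nat_lit 137)) (XT.lf (nat_lit 0) (nat_lit 144147257476) (nat_lit 456) (nat_lit 133557105703) (nat_lit 76) (nat_lit 90647211149) (nat_lit 32) (nat_lit 5) (nat_lit 38) (nat_lit 5) (nat_lit 33) (nat_lit 5) (nat_lit 234) (nat_lit 230) (nat_lit 136)))) (XT.nd (nat_lit 156) (nat_lit 456) (nat_lit 0) (XT.nd (nat_lit 78) (nat_lit 228) (nat_lit 0) (XT.lf (nat_lit 0) (nat_lit 166120974949) (nat_lit 456) (nat_lit 37278420610) (nat_lit 532) (nat_lit 196466104003) (nat_lit 26) (nat_lit 5) (nat_lit 32) (nat_lit 5) (nat_lit 33) (nat_lit 5) (nat_lit 235) (nat_lit 230) (nat_lit 135)) (XT.lf (nat_lit 0) (nat_lit 81253580062) (nat_lit 228) (nat_lit 201982184932) (nat_lit 304) (nat_lit 151935036739) (nat_lit 23) (nat_lit 5) (nat_lit 26) (nat_lit 5) (nat_lit 27) (nat_lit 5) (nat_lit 236) (nat_lit 230) (nat_lit 134))) (XT.nd (nat_lit 78) (nat_lit 456) (nat_lit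 0) (XT.lf (nat_lit 0) (nat_lit 384630408926) (nat_lit 304) (nat_lit 20349105016) (nat_lit 76) (nat_lit 70025760636) (nat_lit 23) (nat_lit 5) (nat_lit 27) (nat_lit 5) (nat_lit 24) (nat_lit 5) (nat_lit 237) (nat_lit 230) (nat_lit 133)) (XT.nd (nat_lit 78) (nat_lit 304) (nat_lit 0) (XT.lf (nat_lit 0) (nat_lit 376501920930) (nat_lit 152) (nat_lit 139373421460) (nat_lit 228) (nat_lit 3768289282) (nat_lit 21) (nat_lit 5) (nat_lit 23) (nat_lit 5) (nat_lit 24) (nat_lit 5) (nat_lit 238) (nat_lit 230) (nat_lit 132)) (XT.lf (nat_lit 0) (nat_lit 102488597260) (nat_lit 304) (nat_lit 299858808511) (nat_lit 76) (nat_lit 167529714097) (nat_lit 17) (nat_lit 5) (nat_lit 21) (nat_lit 5) (nat_lit 18) (nat_lit 5) (nat_lit 239) (nat_lit 230) (nat_lit 131)))))) (XT.nd (nat_lit 390) (nat_lit 380) (nat_lit 0) (XT.nd (nat_lit 156) (nat_lit 304) (nat_lit 0) (XT.nd (nat_lit 78) (nat_lit 0) (nat_lit 0) (XT.lf (nat_lit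 0) (nat_lit 128888538940) (nat_lit 152) (nat_lit 106808759450) (nat_lit 228) (nat_lit 391041590712) (nat_lit 15) (nat_lit 5) (nat_lit 17) (nat_lit 5) (nat_lit 18) (nat_lit 5) (nat_lit 240) (nat_lit 230) (nat_lit 130)) (XT.lf (nat_lit 0) (nat_lit 403449154675) (nat_lit 228) (nat_lit 57156981018) (nat_lit 76) (nat_lit 230358840493) (nat_lit 15) (nat_lit 5) (nat_lit 18) (nat_lit 5) (nat_lit 16) (nat_lit 5) (nat_lit 241) (nat_lit 230) (nat_lit 129))) (XT.nd (nat_lit 78) (nat_lit 152) (nat_lit 0) (XT.lf (nat_lit 0) (nat_lit 470207928213) (nat_lit 152) (nat_lit 140418364065) (nat_lit 228) (nat_lit 153057684225) (nat_lit 13) (nat_lit 5) (nat_lit 15) (nat_lit 5) (nat_lit 16) (nat_lit 5) (nat_lit 242) (nat_lit 230) (nat_lit 128)) (XT.nd (nat_lit 78) (nat_lit 0) (nat_lit 0) (XT.lf (nat_lit 0) (nat_lit 14770588393) (nat_lit 152) (nat_lit 607233455258) (nat_lit 76) (nat_lit 224241371555) (nat_lit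 11) (nat_lit 5) (nat_lit 13) (nat_lit 5) (nat_lit 12) (nat_lit 5) (nat_lit 243) (nat_lit 230) (nat_lit 127)) (XT.lf (nat_lit 0) (nat_lit 211617780709) (nat_lit 152) (nat_lit 79701188888) (nat_lit 76) (nat_lit 648521466319) (nat_lit 11) (nat_lit 5) (nat_lit 13) (nat_lit 5) (nat_lit 12) (nat_lit 5) (nat_lit 244) (nat_lit 230) (nat_lit 126))))) (XT.nd (nat_lit 156) (nat_lit 152) (nat_lit 0) (XT.nd (nat_lit 78) (nat_lit 76) (nat_lit 0) (XT.lf (nat_lit 0) (nat_lit 453818993645) (nat_lit 228) (nat_lit 494184010297) (nat_lit 76) (nat_lit 98205550695) (nat_lit 9) (nat_lit 5) (nat_lit 12) (nat_lit 5) (nat_lit 10) (nat_lit 4) (nat_lit 245) (nat_lit 230) (nat_lit 125)) (XT.lf (nat_lit 0) (nat_lit 112499510012) (nat_lit 76) (nat_lit 632994291194) (nat_lit 152) (nat_lit 421986617158) (nat_lit 8) (nat_lit 5) (nat_lit 9) (nat_lit 5) (nat_lit 10) (nat_lit 4) (nat_lit 246) (nat_lit 230) (nat_lit 124)))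 (XT.nd (nat_lit 78) (nat_lit 152) (nat_lit 0) (XT.lf (nat_lit 0) (nat_lit 840111767899) (nat_lit 76) (nat_lit 255195652031) (nat_lit 152) (nat_lit 210484634702) (nat_lit 8) (nat_lit 5) (nat_lit 9) (nat_lit 5) (nat_lit 10) (nat_lit 4) (nat_lit 247) (nat_lit 230) (nat_lit 123)) (XT.nd (nat_lit 78) (nat_lit 0) (nat_lit 0) (XT.lf (nat_lit 0) (nat_lit 40923091148) (nat_lit 152) (nat_lit 1246479716345) (nat_lit 76) (nat_lit 176599162826) (nat_lit 6) (nat_lit 5) (nat_lit 8) (nat_lit 5) (nat_lit 7) (nat_lit 4) (nat_lit 248) (nat_lit 230) (nat_lit 122)) (XT.lf (nat_lit 0) (nat_lit 338901261747) (nat_lit 152) (nat_lit 626685169848) (nat_lit 76) (nat_lit 678213785214) (nat_lit 6) (nat_lit 5) (nat_lit 8) (nat_lit 5) (nat_lit 7) (nat_lit 4) (nat_lit 249) (nat_lit 230) (nat_lit 121))))))))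
noncomputable def xc59 : XT := (XT.nd (nat_lit 30888) (nat_lit 0) (nat_lit 76) (XT.nd (nat_lit 30186) (nat_lit 0) (nat_lit 532) (XT.nd (nat_lit 29796) (nat_lit 0) (nat_lit 1900) (XT.nd (nat_lit 156) (nat_lit 76) (nat_lit 0) (XT.nd (nat_lit 78) (nat_lit 0) (nat_lit 0) (XT.lf (nat_lit 0) (nat_lit 90611245667) (nat_lit 76) (nat_lit 593144082214) (nat_lit 152) (nat_lit 1166638538911) (nat_lit 5) (nat_lit 5) (nat_lit 6) (nat_lit 5) (nat_lit 7) (nat_lit 4) (nat_lit 250) (nat_lit 230) (nat_lit 120)) (XT.lf (nat_lit 0) (nat_lit 953452223711) (nat_lit 76) (nat_lit 145130515037) (nat_lit 152) (nat_lit 987934206837) (nat_lit 5) (nat_lit 5) (nat_lit 6) (nat_lit 5) (nat_lit 7) (nat_lit 4) (nat_lit 251) (nat_lit 230) (nat_lit 119))) (XT.nd (nat_lit 78) (nat_lit 76) (nat_lit 0) (XT.lf (nat_lit 0) (nat_lit 1584534790310) (nat_lit 152) (nat_lit 421239738040) (nat_lit 0) (nat_lit 351571915607) (nat_lit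 5) (nat_lit 5) (nat_lit 7) (nat_lit 4) (nat_lit 5) (nat_lit 4) (nat_lit 252) (nat_lit 230) (nat_lit 118)) (XT.lf (nat_lit 0) (nat_lit 414057853745) (nat_lit 76) (nat_lit 1743293825665) (nat_lit 76) (nat_lit 510330925365) (nat_lit 4) (nat_lit 4) (nat_lit 5) (nat_lit 5) (nat_lit 5) (nat_lit 4) (nat_lit 253) (nat_lit 230) (nat_lit 117)))) (XT.nd (nat_lit 156) (nat_lit 0) (nat_lit 76) (XT.nd (nat_lit 78) (nat_lit 0) (nat_lit 76) (XT.lf (nat_lit 0) (nat_lit 27357461107) (nat_lit 532) (nat_lit 64685843912) (nat_lit 532) (nat_lit 64685843912) (nat_lit 29) (nat_lit 3) (nat_lit 36) (nat_lit 3) (nat_lit 36) (nat_lit 5) (nat_lit 231) (nat_lit 231) (nat_lit 138)) (XT.lf (nat_lit 0) (nat_lit 62851577597) (nat_lit 456) (nat_lit 223409553249) (nat_lit 532) (nat_lit 50383889001) (nat_lit 30) (nat_lit 5) (nat_lit 36) (nat_lit 5) (nat_lit 37) (nat_lit 5) (nat_lit 232) (nat_lit 231) (nat_lit 137))) (XT.nd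 (nat_lit 78) (nat_lit 0) (nat_lit 76) (XT.lf (nat_lit 76) (nat_lit 33548517190) (nat_lit 0) (nat_lit 48422599167) (nat_lit 532) (nat_lit 280557644295) (nat_lit 31) (nat_lit 5) (nat_lit 30) (nat_lit 5) (nat_lit 37) (nat_lit 5) (nat_lit 233) (nat_lit 231) (nat_lit 136)) (XT.nd (nat_lit 78) (nat_lit 0) (nat_lit 76) (XT.lf (nat_lit 0) (nat_lit 116045155080) (nat_lit 456) (nat_lit 54777949191) (nat_lit 532) (nat_lit 220505033930) (nat_lit 31) (nat_lit 5) (nat_lit 37) (nat_lit 5) (nat_lit 38) (nat_lit 5) (nat_lit 234) (nat_lit 231) (nat_lit 135)) (XT.lf (nat_lit 0) (nat_lit 165770908585) (nat_lit 456) (nat_lit 153589244634) (nat_lit 76) (nat_lit 104244021449) (nat_lit 32) (nat_lit 5) (nat_lit 38) (nat_lit 5) (nat_lit 33) (nat_lit 5) (nat_lit 235) (nat_lit 231) (nat_lit 134)))))) (XT.nd (nat_lit 312) (nat_lit 760) (nat_lit 0) (XT.nd (nat_lit 156) (nat_lit 152) (nat_lit 0) (XT.nd (nat_lit 78)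 (nat_lit 228) (nat_lit 0) (XT.lf (nat_lit 0) (nat_lit 191040427334) (nat_lit 456) (nat_lit 42870267657) (nat_lit 532) (nat_lit 225934508898) (nat_lit 26) (nat_lit 5) (nat_lit 32) (nat_lit 5) (nat_lit 33) (nat_lit 5) (nat_lit 236) (nat_lit 231) (nat_lit 133)) (XT.lf (nat_lit 0) (nat_lit 93442924903) (nat_lit 228) (nat_lit 232279443318) (nat_lit 304) (nat_lit 174723946519) (nat_lit 23) (nat_lit 5) (nat_lit 26) (nat_lit 5) (nat_lit 27) (nat_lit 5) (nat_lit 237) (nat_lit 231) (nat_lit 132))) (XT.nd (nat_lit 78) (nat_lit 152) (nat_lit 0) (XT.lf (nat_lit 0) (nat_lit 442326048652) (nat_lit 304) (nat_lit 23400241711) (nat_lit 76) (nat_lit 80529682022) (nat_lit 23) (nat_lit 5) (nat_lit 27) (nat_lit 5) (nat_lit 24) (nat_lit 5) (nat_lit 238) (nat_lit 231) (nat_lit 131)) (XT.lf (nat_lit 0) (nat_lit 432978334093) (nat_lit 152) (nat_lit 160279274440) (nat_lit 228) (nat_lit 4332484526) (nat_lit 21)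 (nat_lit 5) (nat_lit 23) (nat_lit 5) (nat_lit 24) (nat_lit 5) (nat_lit 239) (nat_lit 231) (nat_lit 130)))) (XT.nd (nat_lit 156) (nat_lit 304) (nat_lit 0) (XT.nd (nat_lit 78) (nat_lit 152) (nat_lit 0) (XT.lf (nat_lit 0) (nat_lit 117862783333) (nat_lit 304) (nat_lit 344836475028) (nat_lit 76) (nat_lit 192659352792) (nat_lit 17) (nat_lit 5) (nat_lit 21) (nat_lit 5) (nat_lit 18) (nat_lit 5) (nat_lit 240) (nat_lit 231) (nat_lit 129)) (XT.lf (nat_lit 0) (nat_lit 148222876797) (nat_lit 152) (nat_lit 122829821325) (nat_lit 228) (nat_lit 449696955620) (nat_lit 15) (nat_lit 5) (nat_lit 17) (nat_lit 5) (nat_lit 18) (nat_lit 5) (nat_lit 241) (nat_lit 231) (nat_lit 128))) (XT.nd (nat_lit 78) (nat_lit 304) (nat_lit 0) (XT.lf (nat_lit 0) (nat_lit 463967233123) (nat_lit 228) (nat_lit 65729554537) (nat_lit 76) (nat_lit 264912874770) (nat_lit 15) (nat_lit 5) (nat_lit 18) (nat_lit 5) (nat_lit 16) (nat_lit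 5) (nat_lit 242) (nat_lit 231) (nat_lit 127)) (XT.nd (nat_lit 78) (nat_lit 152) (nat_lit 0) (XT.lf (nat_lit 0) (nat_lit 540740008666) (nat_lit 152) (nat_lit 161480862146) (nat_lit 228) (nat_lit 176015648118) (nat_lit 13) (nat_lit 5) (nat_lit 15) (nat_lit 5) (nat_lit 16) (nat_lit 5) (nat_lit 243) (nat_lit 231) (nat_lit 126)) (XT.lf (nat_lit 0) (nat_lit 16986772311) (nat_lit 152) (nat_lit 698317579937) (nat_lit 76) (nat_lit 257877824951) (nat_lit 11) (nat_lit 5) (nat_lit 13) (nat_lit 5) (nat_lit 12) (nat_lit 5) (nat_lit 244) (nat_lit 231) (nat_lit 125))))))) (XT.nd (nat_lit 30342) (nat_lit 0) (nat_lit 760) (XT.nd (nat_lit 312) (nat_lit 228) (nat_lit 0) (XT.nd (nat_lit 156) (nat_lit 76) (nat_lit 0) (XT.nd (nat_lit 78) (nat_lit 152) (nat_lit 0) (XT.lf (nat_lit 0) (nat_lit 243360965781) (nat_lit 152) (nat_lit 91655590169) (nat_lit 76) (nat_lit 745799901626) (nat_lit 11) (nat_lit 5) (nat_lit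 13) (nat_lit 5) (nat_lit 12) (nat_lit 5) (nat_lit 245) (nat_lit 231) (nat_lit 124)) (XT.lf (nat_lit 0) (nat_lit 521892316065) (nat_lit 228) (nat_lit 568310867032) (nat_lit 76) (nat_lit 112936614873) (nat_lit 9) (nat_lit 5) (nat_lit 12) (nat_lit 5) (nat_lit 10) (nat_lit 4) (nat_lit 246) (nat_lit 231) (nat_lit 123))) (XT.nd (nat_lit 78) (nat_lit 0) (nat_lit 0) (XT.lf (nat_lit 0) (nat_lit 129375118279) (nat_lit 76) (nat_lit 727943181134) (nat_lit 152) (nat_lit 485284145732) (nat_lit 8) (nat_lit 5) (nat_lit 9) (nat_lit 5) (nat_lit 10) (nat_lit 4) (nat_lit 247) (nat_lit 231) (nat_lit 122)) (XT.lf (nat_lit 0) (nat_lit 966129125923) (nat_lit 76) (nat_lit 293474779193) (nat_lit 152) (nat_lit 242056926430) (nat_lit 8) (nat_lit 5) (nat_lit 9) (nat_lit 5) (nat_lit 10) (nat_lit 4) (nat_lit 248) (nat_lit 231) (nat_lit 121)))) (XT.nd (nat_lit 156) (nat_lit 76) (nat_lit 0) (XT.nd (nat_lit 78) (nat_lit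 0) (nat_lit 0) (XT.lf (nat_lit 0) (nat_lit 47061906830) (nat_lit 152) (nat_lit 1433451087613) (nat_lit 76) (nat_lit 203089242050) (nat_lit 6) (nat_lit 5) (nat_lit 8) (nat_lit 5) (nat_lit 7) (nat_lit 4) (nat_lit 249) (nat_lit 231) (nat_lit 120)) (XT.lf (nat_lit 0) (nat_lit 389736757105) (nat_lit 152) (nat_lit 720687435601) (nat_lit 76) (nat_lit 779946031084) (nat_lit 6) (nat_lit 5) (nat_lit 8) (nat_lit 5) (nat_lit 7) (nat_lit 4) (nat_lit 250) (nat_lit 231) (nat_lit 119))) (XT.nd (nat_lit 78) (nat_lit 0) (nat_lit 0) (XT.lf (nat_lit 0) (nat_lit 104203399097) (nat_lit 76) (nat_lit 682115505359) (nat_lit 152) (nat_lit 1341634019248) (nat_lit 5) (nat_lit 5) (nat_lit 6) (nat_lit 5) (nat_lit 7) (nat_lit 4) (nat_lit 251) (nat_lit 231) (nat_lit 118)) (XT.nd (nat_lit 29718) (nat_lit 0) (nat_lit 1824) (XT.lf (nat_lit 0) (nat_lit 1096470462989) (nat_lit 76) (nat_lit 166899927782) (nat_lit 152) (nat_lit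 1136124076558) (nat_lit 5) (nat_lit 5) (nat_lit 6) (nat_lit 5) (nat_lit 7) (nat_lit 4) (nat_lit 252) (nat_lit 231) (nat_lit 117)) (XT.lf (nat_lit 0) (nat_lit 31462084954) (nat_lit 532) (nat_lit 74388174396) (nat_lit 532) (nat_lit 74388174396) (nat_lit 29) (nat_lit 3) (nat_lit 36) (nat_lit 3) (nat_lit 36) (nat_lit 5) (nat_lit 232) (nat_lit 232) (nat_lit 136)))))) (XT.nd (nat_lit 390) (nat_lit 836) (nat_lit 0) (XT.nd (nat_lit 156) (nat_lit 304) (nat_lit 0) (XT.nd (nat_lit 78) (nat_lit 0) (nat_lit 0) (XT.lf (nat_lit 0) (nat_lit 72281066997) (nat_lit 456) (nat_lit 256919813787) (nat_lit 532) (nat_lit 57940739387) (nat_lit 30) (nat_lit 5) (nat_lit 36) (nat_lit 5) (nat_lit 37) (nat_lit 5) (nat_lit 233) (nat_lit 232) (nat_lit 135)) (XT.lf (nat_lit 76) (nat_lit 38581867976) (nat_lit 0) (nat_lit 55686465786) (nat_lit 532) (nat_lit 322639606183) (nat_lit 31) (nat_lit 5) (nat_lit 30) (nat_lit 5)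 (nat_lit 37) (nat_lit 5) (nat_lit 234) (nat_lit 232) (nat_lit 134))) (XT.nd (nat_lit 78) (nat_lit 380) (nat_lit 0) (XT.lf (nat_lit 0) (nat_lit 133453266155) (nat_lit 456) (nat_lit 62993581153) (nat_lit 532) (nat_lit 253580395198) (nat_lit 31) (nat_lit 5) (nat_lit 37) (nat_lit 5) (nat_lit 38) (nat_lit 5) (nat_lit 235) (nat_lit 232) (nat_lit 133)) (XT.nd (nat_lit 78) (nat_lit 456) (nat_lit 0) (XT.lf (nat_lit 0) (nat_lit 190637726338) (nat_lit 456) (nat_lit 176626552370) (nat_lit 76) (nat_lit 119880419469) (nat_lit 32) (nat_lit 5) (nat_lit 38) (nat_lit 5) (nat_lit 33) (nat_lit 5) (nat_lit 236) (nat_lit 232) (nat_lit 132)) (XT.lf (nat_lit 0) (nat_lit 219697479065) (nat_lit 456) (nat_lit 49300871288) (nat_lit 532) (nat_lit 259823542922) (nat_lit 26) (nat_lit 5) (nat_lit 32) (nat_lit 5) (nat_lit 33) (nat_lit 5) (nat_lit 237) (nat_lit 232) (nat_lit 131))))) (XT.nd (nat_lit 156) (nat_lit 608)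 (nat_lit 0) (XT.nd (nat_lit 78) (nat_lit 0) (nat_lit 0) (XT.lf (nat_lit 0) (nat_lit 107460352547) (nat_lit 228) (nat_lit 267121307375) (nat_lit 304) (nat_lit 200931520932) (nat_lit 23) (nat_lit 5) (nat_lit 26) (nat_lit 5) (nat_lit 27) (nat_lit 5) (nat_lit 238) (nat_lit 232) (nat_lit 130)) (XT.lf (nat_lit 0) (nat_lit 508675771367) (nat_lit 304) (nat_lit 26909348624) (nat_lit 76) (nat_lit 92609177645) (nat_lit 23) (nat_lit 5) (nat_lit 27) (nat_lit 5) (nat_lit 24) (nat_lit 5) (nat_lit 239) (nat_lit 232) (nat_lit 129))) (XT.nd (nat_lit 78) (nat_lit 456) (nat_lit 0) (XT.lf (nat_lit 0) (nat_lit 497925934887) (nat_lit 152) (nat_lit 184321044443) (nat_lit 228) (nat_lit 4981564653) (nat_lit 21) (nat_lit 5) (nat_lit 23) (nat_lit 5) (nat_lit 24) (nat_lit 5) (nat_lit 240) (nat_lit 232) (nat_lit 128)) (XT.nd (nat_lit 78) (nat_lit 152) (nat_lit 0) (XT.lf (nat_lit 0) (nat_lit 135542878704) (nat_lit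 304) (nat_lit 396561073118) (nat_lit 76) (nat_lit 221558393011) (nat_lit 17) (nat_lit 5) (nat_lit 21) (nat_lit 5) (nat_lit 18) (nat_lit 5) (nat_lit 241) (nat_lit 232) (nat_lit 127)) (XT.lf (nat_lit 0) (nat_lit 170457107572) (nat_lit 152) (nat_lit 141254103944) (nat_lit 228) (nat_lit 517150838322) (nat_lit 15) (nat_lit 5) (nat_lit 17) (nat_lit 5) (nat_lit 18) (nat_lit 5) (nat_lit 242) (nat_lit 232) (nat_lit 126))))))))
noncomputable def xc60 : XT := (XT.nd (nat_lit 31122) (nat_lit 0) (nat_lit 76) (XT.nd (nat_lit 702) (nat_lit 76) (nat_lit 0) (XT.nd (nat_lit 312) (nat_lit 380) (nat_lit 0) (XT.nd (nat_lit 156) (nat_lit 152) (nat_lit 0) (XT.nd (nat_lit 78) (nat_lit 152) (nat_lit 0) (XT.lf (nat_lit 0) (nat_lit 533562851360) (nat_lit 228) (nat_lit 75588251510) (nat_lit 76) (nat_lit 304649963418) (nat_lit 15) (nat_lit 5) (nat_lit 18) (nat_lit 5) (nat_lit 16) (nat_lit 5) (nat_lit 243) (nat_lit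 232) (nat_lit 125)) (XT.lf (nat_lit 0) (nat_lit 621851683857) (nat_lit 152) (nat_lit 185702797496) (nat_lit 228) (nat_lit 202417474550) (nat_lit 13) (nat_lit 5) (nat_lit 15) (nat_lit 5) (nat_lit 16) (nat_lit 5) (nat_lit 244) (nat_lit 232) (nat_lit 124))) (XT.nd (nat_lit 78) (nat_lit 0) (nat_lit 0) (XT.lf (nat_lit 0) (nat_lit 19535238562) (nat_lit 152) (nat_lit 803064541230) (nat_lit 76) (nat_lit 296559685962) (nat_lit 11) (nat_lit 5) (nat_lit 13) (nat_lit 5) (nat_lit 12) (nat_lit 5) (nat_lit 245) (nat_lit 232) (nat_lit 123)) (XT.lf (nat_lit 0) (nat_lit 279865502304) (nat_lit 152) (nat_lit 105403341132) (nat_lit 76) (nat_lit 857670049713) (nat_lit 11) (nat_lit 5) (nat_lit 13) (nat_lit 5) (nat_lit 12) (nat_lit 5) (nat_lit 246) (nat_lit 232) (nat_lit 122)))) (XT.nd (nat_lit 156) (nat_lit 152) (nat_lit 0) (XT.nd (nat_lit 78) (nat_lit 76) (nat_lit 0) (XT.lf (nat_lit 0) (nat_lit 600176521413)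 (nat_lit 228) (nat_lit 653556933905) (nat_lit 76) (nat_lit 129877282207) (nat_lit 9) (nat_lit 5) (nat_lit 12) (nat_lit 5) (nat_lit 10) (nat_lit 4) (nat_lit 247) (nat_lit 232) (nat_lit 121)) (XT.lf (nat_lit 0) (nat_lit 148781901532) (nat_lit 76) (nat_lit 837134466440) (nat_lit 152) (nat_lit 558076416741) (nat_lit 8) (nat_lit 5) (nat_lit 9) (nat_lit 5) (nat_lit 10) (nat_lit 4) (nat_lit 248) (nat_lit 232) (nat_lit 120))) (XT.nd (nat_lit 78) (nat_lit 152) (nat_lit 0) (XT.lf (nat_lit 0) (nat_lit 1111048943082) (nat_lit 76) (nat_lit 337495829234) (nat_lit 152) (nat_lit 278365160307) (nat_lit 8) (nat_lit 5) (nat_lit 9) (nat_lit 5) (nat_lit 10) (nat_lit 4) (nat_lit 249) (nat_lit 232) (nat_lit 119)) (XT.nd (nat_lit 78) (nat_lit 0) (nat_lit 0) (XT.lf (nat_lit 0) (nat_lit 54121459025) (nat_lit 152) (nat_lit 1648468307516) (nat_lit 76) (nat_lit 233552783215) (nat_lit 6) (nat_lit 5) (nat_lit 8) (nat_lit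 5) (nat_lit 7) (nat_lit 4) (nat_lit 250) (nat_lit 232) (nat_lit 118)) (XT.lf (nat_lit 0) (nat_lit 448197502123) (nat_lit 152) (nat_lit 828790165516) (nat_lit 76) (nat_lit 896938070405) (nat_lit 6) (nat_lit 5) (nat_lit 8) (nat_lit 5) (nat_lit 7) (nat_lit 4) (nat_lit 251) (nat_lit 232) (nat_lit 117)))))) (XT.nd (nat_lit 30030) (nat_lit 0) (nat_lit 1368) (XT.nd (nat_lit 29874) (nat_lit 0) (nat_lit 1900) (XT.nd (nat_lit 29796) (nat_lit 0) (nat_lit 1824) (XT.lf (nat_lit 0) (nat_lit 119834261762) (nat_lit 76) (nat_lit 784432688109) (nat_lit 152) (nat_lit 1542878894914) (nat_lit 5) (nat_lit 5) (nat_lit 6) (nat_lit 5) (nat_lit 7) (nat_lit 4) (nat_lit 252) (nat_lit 232) (nat_lit 116)) (XT.lf (nat_lit 0) (nat_lit 36182157381) (nat_lit 532) (nat_lit 85545987624) (nat_lit 532) (nat_lit 85545987624) (nat_lit 29) (nat_lit 3) (nat_lit 36) (nat_lit 3) (nat_lit 36) (nat_lit 5) (nat_lit 233) (nat_lit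 233) (nat_lit 134))) (XT.nd (nat_lit 78) (nat_lit 0) (nat_lit 0) (XT.lf (nat_lit 0) (nat_lit 83124552386) (nat_lit 456) (nat_lit 295456899316) (nat_lit 532) (nat_lit 66631296068) (nat_lit 30) (nat_lit 5) (nat_lit 36) (nat_lit 5) (nat_lit 37) (nat_lit 5) (nat_lit 234) (nat_lit 233) (nat_lit 133)) (XT.lf (nat_lit 76) (nat_lit 44369959671) (nat_lit 0) (nat_lit 64039796140) (nat_lit 532) (nat_lit 371034273192) (nat_lit 31) (nat_lit 5) (nat_lit 30) (nat_lit 5) (nat_lit 37) (nat_lit 5) (nat_lit 235) (nat_lit 233) (nat_lit 132)))) (XT.nd (nat_lit 156) (nat_lit 608) (nat_lit 0) (XT.nd (nat_lit 78) (nat_lit 0) (nat_lit 76) (XT.lf (nat_lit 0) (nat_lit 153472267657) (nat_lit 456) (nat_lit 72441816499) (nat_lit 532) (nat_lit 291617156692) (nat_lit 31) (nat_lit 5) (nat_lit 37) (nat_lit 5) (nat_lit 38) (nat_lit 5) (nat_lit 236) (nat_lit 233) (nat_lit 131)) (XT.lf (nat_lit 0) (nat_lit 219234278646)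 (nat_lit 456) (nat_lit 203119719377) (nat_lit 76) (nat_lit 137862327231) (nat_lit 32) (nat_lit 5) (nat_lit 38) (nat_lit 5) (nat_lit 33) (nat_lit 5) (nat_lit 237) (nat_lit 233) (nat_lit 130))) (XT.nd (nat_lit 78) (nat_lit 228) (nat_lit 0) (XT.lf (nat_lit 0) (nat_lit 252652847716) (nat_lit 456) (nat_lit 56696049982) (nat_lit 532) (nat_lit 298796210609) (nat_lit 26) (nat_lit 5) (nat_lit 32) (nat_lit 5) (nat_lit 33) (nat_lit 5) (nat_lit 238) (nat_lit 233) (nat_lit 129)) (XT.nd (nat_lit 78) (nat_lit 0) (nat_lit 0) (XT.lf (nat_lit 0) (nat_lit 123580153186) (nat_lit 228) (nat_lit 307189463828) (nat_lit 304) (nat_lit 231070479646) (nat_lit 23) (nat_lit 5) (nat_lit 26) (nat_lit 5) (nat_lit 27) (nat_lit 5) (nat_lit 239) (nat_lit 233) (nat_lit 128)) (XT.lf (nat_lit 0) (nat_lit 584977753643) (nat_lit 304) (nat_lit 30945048200) (nat_lit 76) (nat_lit 106500587048) (nat_lit 23) (nat_lit 5) (nat_lit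 27) (nat_lit 5) (nat_lit 24) (nat_lit 5) (nat_lit 240) (nat_lit 233) (nat_lit 127))))))) (XT.nd (nat_lit 702) (nat_lit 152) (nat_lit 0) (XT.nd (nat_lit 312) (nat_lit 532) (nat_lit 0) (XT.nd (nat_lit 156) (nat_lit 152) (nat_lit 0) (XT.nd (nat_lit 78) (nat_lit 304) (nat_lit 0) (XT.lf (nat_lit 0) (nat_lit 572615468356) (nat_lit 152) (nat_lit 211969109493) (nat_lit 228) (nat_lit 5728200068) (nat_lit 21) (nat_lit 5) (nat_lit 23) (nat_lit 5) (nat_lit 24) (nat_lit 5) (nat_lit 241) (nat_lit 233) (nat_lit 126)) (XT.lf (nat_lit 0) (nat_lit 155874823077) (nat_lit 304) (nat_lit 456044573848) (nat_lit 76) (nat_lit 254792255782) (nat_lit 17) (nat_lit 5) (nat_lit 21) (nat_lit 5) (nat_lit 18) (nat_lit 5) (nat_lit 242) (nat_lit 233) (nat_lit 125))) (XT.nd (nat_lit 78) (nat_lit 0) (nat_lit 0) (XT.lf (nat_lit 0) (nat_lit 196026278060) (nat_lit 152) (nat_lit 162442075429) (nat_lit 228) (nat_lit 594722964531)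 (nat_lit 15) (nat_lit 5) (nat_lit 17) (nat_lit 5) (nat_lit 18) (nat_lit 5) (nat_lit 243) (nat_lit 233) (nat_lit 124)) (XT.lf (nat_lit 0) (nat_lit 613597682292) (nat_lit 228) (nat_lit 86925932559) (nat_lit 76) (nat_lit 350347576972) (nat_lit 15) (nat_lit 5) (nat_lit 18) (nat_lit 5) (nat_lit 16) (nat_lit 5) (nat_lit 244) (nat_lit 233) (nat_lit 123)))) (XT.nd (nat_lit 156) (nat_lit 228) (nat_lit 0) (XT.nd (nat_lit 78) (nat_lit 152) (nat_lit 0) (XT.lf (nat_lit 0) (nat_lit 715129945994) (nat_lit 152) (nat_lit 213558070450) (nat_lit 228) (nat_lit 232779701943) (nat_lit 13) (nat_lit 5) (nat_lit 15) (nat_lit 5) (nat_lit 16) (nat_lit 5) (nat_lit 245) (nat_lit 233) (nat_lit 122)) (XT.lf (nat_lit 0) (nat_lit 22465864917) (nat_lit 152) (nat_lit 923523711490) (nat_lit 76) (nat_lit 341043780459) (nat_lit 11) (nat_lit 5) (nat_lit 13) (nat_lit 5) (nat_lit 12) (nat_lit 5) (nat_lit 246) (nat_lit 233)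 (nat_lit 121))) (XT.nd (nat_lit 78) (nat_lit 228) (nat_lit 0) (XT.lf (nat_lit 0) (nat_lit 321845623797) (nat_lit 152) (nat_lit 121213398019) (nat_lit 76) (nat_lit 986320680302) (nat_lit 11) (nat_lit 5) (nat_lit 13) (nat_lit 5) (nat_lit 12) (nat_lit 5) (nat_lit 247) (nat_lit 233) (nat_lit 120)) (XT.nd (nat_lit 78) (nat_lit 76) (nat_lit 0) (XT.lf (nat_lit 0) (nat_lit 690203270278) (nat_lit 228) (nat_lit 751590048144) (nat_lit 76) (nat_lit 149359006942) (nat_lit 9) (nat_lit 5) (nat_lit 12) (nat_lit 5) (nat_lit 10) (nat_lit 4) (nat_lit 248) (nat_lit 233) (nat_lit 119)) (XT.lf (nat_lit 0) (nat_lit 171099576563) (nat_lit 76) (nat_lit 962704491330) (nat_lit 152) (nat_lit 641787613959) (nat_lit 8) (nat_lit 5) (nat_lit 9) (nat_lit 5) (nat_lit 10) (nat_lit 4) (nat_lit 249) (nat_lit 233) (nat_lit 118)))))) (XT.nd (nat_lit 30108) (nat_lit 0) (nat_lit 1520) (XT.nd (nat_lit 156) (nat_lit 0) (nat_lit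 0) (XT.nd (nat_lit 78) (nat_lit 152) (nat_lit 0) (XT.lf (nat_lit 0) (nat_lit 1277706623502) (nat_lit 76) (nat_lit 388120077466) (nat_lit 152) (nat_lit 320119703664) (nat_lit 8) (nat_lit 5) (nat_lit 9) (nat_lit 5) (nat_lit 10) (nat_lit 4) (nat_lit 250) (nat_lit 233) (nat_lit 117)) (XT.lf (nat_lit 0) (nat_lit 62239879141) (nat_lit 152) (nat_lit 1895738218491) (nat_lit 76) (nat_lit 268585817793) (nat_lit 6) (nat_lit 5) (nat_lit 8) (nat_lit 5) (nat_lit 7) (nat_lit 4) (nat_lit 251) (nat_lit 233) (nat_lit 116))) (XT.nd (nat_lit 29874) (nat_lit 0) (nat_lit 1748) (XT.lf (nat_lit 0) (nat_lit 515427302453) (nat_lit 152) (nat_lit 953108398906) (nat_lit 76) (nat_lit 1031478882788) (nat_lit 6) (nat_lit 5) (nat_lit 8) (nat_lit 5) (nat_lit 7) (nat_lit 4) (nat_lit 252) (nat_lit 233) (nat_lit 115)) (XT.lf (nat_lit 0) (nat_lit 41610055419) (nat_lit 532) (nat_lit 98377573532) (nat_lit 532) (nat_lit 98377573532)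 (nat_lit 29) (nat_lit 3) (nat_lit 36) (nat_lit 3) (nat_lit 36) (nat_lit 5) (nat_lit 234) (nat_lit 234) (nat_lit 132)))) (XT.nd (nat_lit 156) (nat_lit 304) (nat_lit 0) (XT.nd (nat_lit 78) (nat_lit 0) (nat_lit 0) (XT.lf (nat_lit 0) (nat_lit 95594237391) (nat_lit 456) (nat_lit 339774763862) (nat_lit 532) (nat_lit 76625571403) (nat_lit 30) (nat_lit 5) (nat_lit 36) (nat_lit 5) (nat_lit 37) (nat_lit 5) (nat_lit 235) (nat_lit 234) (nat_lit 131)) (XT.lf (nat_lit 76) (nat_lit 51026067231) (nat_lit 0) (nat_lit 73646038141) (nat_lit 532) (nat_lit 426688450905) (nat_lit 31) (nat_lit 5) (nat_lit 30) (nat_lit 5) (nat_lit 37) (nat_lit 5) (nat_lit 236) (nat_lit 234) (nat_lit 130))) (XT.nd (nat_lit 78) (nat_lit 380) (nat_lit 0) (XT.lf (nat_lit 0) (nat_lit 176493872704) (nat_lit 456) (nat_lit 83307482677) (nat_lit 532) (nat_lit 335359505026) (nat_lit 31) (nat_lit 5) (nat_lit 37) (nat_lit 5) (nat_lit 38)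 (nat_lit 5) (nat_lit 237) (nat_lit 234) (nat_lit 129)) (XT.nd (nat_lit 78) (nat_lit 456) (nat_lit 0) (XT.lf (nat_lit 0) (nat_lit 252120095950) (nat_lit 456) (nat_lit 233587060384) (nat_lit 76) (nat_lit 158541558994) (nat_lit 32) (nat_lit 5) (nat_lit 38) (nat_lit 5) (nat_lit 33) (nat_lit 5) (nat_lit 238) (nat_lit 234) (nat_lit 128)) (XT.lf (nat_lit 0) (nat_lit 290551339555) (nat_lit 456) (nat_lit 65200493776) (nat_lit 532) (nat_lit 343614989080) (nat_lit 26) (nat_lit 5) (nat_lit 32) (nat_lit 5) (nat_lit 33) (nat_lit 5) (nat_lit 239) (nat_lit 234) (nat_lit 127))))))))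
noncomputable def xc61 : XT := (XT.nd (nat_lit 31356) (nat_lit 0) (nat_lit 0) (XT.nd (nat_lit 702) (nat_lit 228) (nat_lit 0) (XT.nd (nat_lit 312) (nat_lit 456) (nat_lit 0) (XT.nd (nat_lit 156) (nat_lit 456) (nat_lit 0) (XT.nd (nat_lit 78) (nat_lit 0) (nat_lit 0) (XT.lf (nat_lit 0) (nat_lit 142117741576) (nat_lit 228) (nat_lit 353267853419) (nat_lit 304) (nat_lit 265730469796) (nat_lit 23) (nat_lit 5) (nat_lit 26) (nat_lit 5) (nat_lit 27) (nat_lit 5) (nat_lit 240) (nat_lit 234) (nat_lit 126)) (XT.lf (nat_lit 0) (nat_lit 672724882907) (nat_lit 304) (nat_lit 35586274075) (nat_lit 76) (nat_lit 122475699873) (nat_lit 23) (nat_lit 5) (nat_lit 27) (nat_lit 5) (nat_lit 24) (nat_lit 5) (nat_lit 241) (nat_lit 234) (nat_lit 125))) (XT.nd (nat_lit 78) (nat_lit 304) (nat_lit 0) (XT.lf (nat_lit 0) (nat_lit 658508274988) (nat_lit 152) (nat_lit 243764406641) (nat_lit 228) (nat_lit 6586976935) (nat_lit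 21) (nat_lit 5) (nat_lit 23) (nat_lit 5) (nat_lit 24) (nat_lit 5) (nat_lit 242) (nat_lit 234) (nat_lit 124)) (XT.lf (nat_lit 0) (nat_lit 179256434114) (nat_lit 304) (nat_lit 524450760690) (nat_lit 76) (nat_lit 293011172652) (nat_lit 17) (nat_lit 5) (nat_lit 21) (nat_lit 5) (nat_lit 18) (nat_lit 5) (nat_lit 243) (nat_lit 234) (nat_lit 123)))) (XT.nd (nat_lit 156) (nat_lit 304) (nat_lit 0) (XT.nd (nat_lit 78) (nat_lit 0) (nat_lit 0) (XT.lf (nat_lit 0) (nat_lit 225430676745) (nat_lit 152) (nat_lit 186808277779) (nat_lit 228) (nat_lit 683931031486) (nat_lit 15) (nat_lit 5) (nat_lit 17) (nat_lit 5) (nat_lit 18) (nat_lit 5) (nat_lit 244) (nat_lit 234) (nat_lit 122)) (XT.lf (nat_lit 0) (nat_lit 705637639534) (nat_lit 228) (nat_lit 99964401514) (nat_lit 76) (nat_lit 402899803530) (nat_lit 15) (nat_lit 5) (nat_lit 18) (nat_lit 5) (nat_lit 16) (nat_lit 5) (nat_lit 245) (nat_lit 234) (nat_lit 121)))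 (XT.nd (nat_lit 78) (nat_lit 152) (nat_lit 0) (XT.lf (nat_lit 0) (nat_lit 822399823193) (nat_lit 152) (nat_lit 245591670113) (nat_lit 228) (nat_lit 267696359473) (nat_lit 13) (nat_lit 5) (nat_lit 15) (nat_lit 5) (nat_lit 16) (nat_lit 5) (nat_lit 246) (nat_lit 234) (nat_lit 120)) (XT.nd (nat_lit 78) (nat_lit 0) (nat_lit 0) (XT.lf (nat_lit 0) (nat_lit 25836002175) (nat_lit 152) (nat_lit 1062051881882) (nat_lit 76) (nat_lit 392200454599) (nat_lit 11) (nat_lit 5) (nat_lit 13) (nat_lit 5) (nat_lit 12) (nat_lit 5) (nat_lit 247) (nat_lit 234) (nat_lit 119)) (XT.lf (nat_lit 0) (nat_lit 370122691297) (nat_lit 152) (nat_lit 139395071781) (nat_lit 76) (nat_lit 1134268875453) (nat_lit 11) (nat_lit 5) (nat_lit 13) (nat_lit 5) (nat_lit 12) (nat_lit 5) (nat_lit 248) (nat_lit 234) (nat_lit 118)))))) (XT.nd (nat_lit 30264) (nat_lit 0) (nat_lit 1368) (XT.nd (nat_lit 156) (nat_lit 0) (nat_lit 0) (XT.nd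 (nat_lit 78) (nat_lit 76) (nat_lit 0) (XT.lf (nat_lit 0) (nat_lit 793733965471) (nat_lit 228) (nat_lit 864328233364) (nat_lit 76) (nat_lit 171762958099) (nat_lit 9) (nat_lit 5) (nat_lit 12) (nat_lit 5) (nat_lit 10) (nat_lit 4) (nat_lit 249) (nat_lit 234) (nat_lit 117)) (XT.lf (nat_lit 0) (nat_lit 196764807794) (nat_lit 76) (nat_lit 1107110055331) (nat_lit 152) (nat_lit 738055555454) (nat_lit 8) (nat_lit 5) (nat_lit 9) (nat_lit 5) (nat_lit 10) (nat_lit 4) (nat_lit 250) (nat_lit 234) (nat_lit 116))) (XT.nd (nat_lit 30030) (nat_lit 0) (nat_lit 1596) (XT.lf (nat_lit 0) (nat_lit 1469362873328) (nat_lit 76) (nat_lit 446337993696) (nat_lit 152) (nat_lit 368137484779) (nat_lit 8) (nat_lit 5) (nat_lit 9) (nat_lit 5) (nat_lit 10) (nat_lit 4) (nat_lit 251) (nat_lit 234) (nat_lit 115)) (XT.lf (nat_lit 0) (nat_lit 47851998084) (nat_lit 532) (nat_lit 113133973466) (nat_lit 532) (nat_lit 113133973466)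 (nat_lit 29) (nat_lit 3) (nat_lit 36) (nat_lit 3) (nat_lit 36) (nat_lit 5) (nat_lit 235) (nat_lit 235) (nat_lit 130)))) (XT.nd (nat_lit 156) (nat_lit 304) (nat_lit 0) (XT.nd (nat_lit 78) (nat_lit 0) (nat_lit 0) (XT.lf (nat_lit 0) (nat_lit 109934130766) (nat_lit 456) (nat_lit 390740471559) (nat_lit 532) (nat_lit 88119090232) (nat_lit 30) (nat_lit 5) (nat_lit 36) (nat_lit 5) (nat_lit 37) (nat_lit 5) (nat_lit 236) (nat_lit 235) (nat_lit 129)) (XT.lf (nat_lit 76) (nat_lit 58680441292) (nat_lit 0) (nat_lit 84693149972) (nat_lit 532) (nat_lit 490690990174) (nat_lit 31) (nat_lit 5) (nat_lit 30) (nat_lit 5) (nat_lit 37) (nat_lit 5) (nat_lit 237) (nat_lit 235) (nat_lit 128))) (XT.nd (nat_lit 78) (nat_lit 380) (nat_lit 0) (XT.lf (nat_lit 0) (nat_lit 202968531983) (nat_lit 456) (nat_lit 95803146632) (nat_lit 532) (nat_lit 385663260520) (nat_lit 31) (nat_lit 5) (nat_lit 37) (nat_lit 5) (nat_lit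 38) (nat_lit 5) (nat_lit 238) (nat_lit 235) (nat_lit 127)) (XT.nd (nat_lit 78) (nat_lit 456) (nat_lit 0) (XT.lf (nat_lit 0) (nat_lit 289938621122) (nat_lit 456) (nat_lit 268624652978) (nat_lit 76) (nat_lit 182322704131) (nat_lit 32) (nat_lit 5) (nat_lit 38) (nat_lit 5) (nat_lit 33) (nat_lit 5) (nat_lit 239) (nat_lit 235) (nat_lit 126)) (XT.lf (nat_lit 0) (nat_lit 334134467468) (nat_lit 456) (nat_lit 74980595288) (nat_lit 532) (nat_lit 395156743590) (nat_lit 26) (nat_lit 5) (nat_lit 32) (nat_lit 5) (nat_lit 33) (nat_lit 5) (nat_lit 240) (nat_lit 235) (nat_lit 125))))))) (XT.nd (nat_lit 702) (nat_lit 228) (nat_lit 0) (XT.nd (nat_lit 312) (nat_lit 456) (nat_lit 0) (XT.nd (nat_lit 156) (nat_lit 456) (nat_lit 0) (XT.nd (nat_lit 78) (nat_lit 0) (nat_lit 0) (XT.lf (nat_lit 0) (nat_lit 163435830345) (nat_lit 228) (nat_lit 406258008761) (nat_lit 304) (nat_lit 305589600344) (nat_lit 23) (nat_lit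 5) (nat_lit 26) (nat_lit 5) (nat_lit 27) (nat_lit 5) (nat_lit 241) (nat_lit 235) (nat_lit 124)) (XT.lf (nat_lit 0) (nat_lit 773633967870) (nat_lit 304) (nat_lit 40923813405) (nat_lit 76) (nat_lit 140847073582) (nat_lit 23) (nat_lit 5) (nat_lit 27) (nat_lit 5) (nat_lit 24) (nat_lit 5) (nat_lit 242) (nat_lit 235) (nat_lit 123))) (XT.nd (nat_lit 78) (nat_lit 304) (nat_lit 0) (XT.lf (nat_lit 0) (nat_lit 757284884009) (nat_lit 152) (nat_lit 280329015256) (nat_lit 228) (nat_lit 7574680833) (nat_lit 21) (nat_lit 5) (nat_lit 23) (nat_lit 5) (nat_lit 24) (nat_lit 5) (nat_lit 243) (nat_lit 235) (nat_lit 122)) (XT.lf (nat_lit 0) (nat_lit 206145192294) (nat_lit 304) (nat_lit 603117997301) (nat_lit 76) (nat_lit 336962907909) (nat_lit 17) (nat_lit 5) (nat_lit 21) (nat_lit 5) (nat_lit 18) (nat_lit 5) (nat_lit 244) (nat_lit 235) (nat_lit 121)))) (XT.nd (nat_lit 156) (nat_lit 304) (nat_lit 0) (XT.nd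 (nat_lit 78) (nat_lit 0) (nat_lit 0) (XT.lf (nat_lit 0) (nat_lit 259245623798) (nat_lit 152) (nat_lit 214829437053) (nat_lit 228) (nat_lit 786520400596) (nat_lit 15) (nat_lit 5) (nat_lit 17) (nat_lit 5) (nat_lit 18) (nat_lit 5) (nat_lit 245) (nat_lit 235) (nat_lit 120)) (XT.lf (nat_lit 0) (nat_lit 811483516010) (nat_lit 228) (nat_lit 114958743458) (nat_lit 76) (nat_lit 463334842122) (nat_lit 15) (nat_lit 5) (nat_lit 18) (nat_lit 5) (nat_lit 16) (nat_lit 5) (nat_lit 246) (nat_lit 235) (nat_lit 119))) (XT.nd (nat_lit 78) (nat_lit 152) (nat_lit 0) (XT.lf (nat_lit 0) (nat_lit 945760088013) (nat_lit 152) (nat_lit 282430336770) (nat_lit 228) (nat_lit 307850588244) (nat_lit 13) (nat_lit 5) (nat_lit 15) (nat_lit 5) (nat_lit 16) (nat_lit 5) (nat_lit 247) (nat_lit 235) (nat_lit 118)) (XT.nd (nat_lit 78) (nat_lit 0) (nat_lit 0) (XT.lf (nat_lit 0) (nat_lit 29711597223) (nat_lit 152) (nat_lit 1221359372041)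 (nat_lit 76) (nat_lit 451030603751) (nat_lit 11) (nat_lit 5) (nat_lit 13) (nat_lit 5) (nat_lit 12) (nat_lit 5) (nat_lit 248) (nat_lit 235) (nat_lit 117)) (XT.lf (nat_lit 0) (nat_lit 425641264316) (nat_lit 152) (nat_lit 160304078529) (nat_lit 76) (nat_lit 1304409277172) (nat_lit 11) (nat_lit 5) (nat_lit 13) (nat_lit 5) (nat_lit 12) (nat_lit 5) (nat_lit 249) (nat_lit 235) (nat_lit 116)))))) (XT.nd (nat_lit 30420) (nat_lit 0) (nat_lit 1140) (XT.nd (nat_lit 30186) (nat_lit 0) (nat_lit 1596) (XT.nd (nat_lit 78) (nat_lit 76) (nat_lit 0) (XT.lf (nat_lit 0) (nat_lit 912794215039) (nat_lit 228) (nat_lit 993977224889) (nat_lit 76) (nat_lit 197527477516) (nat_lit 9) (nat_lit 5) (nat_lit 12) (nat_lit 5) (nat_lit 10) (nat_lit 4) (nat_lit 250) (nat_lit 235) (nat_lit 115)) (XT.lf (nat_lit 0) (nat_lit 226279751833) (nat_lit 76) (nat_lit 1273176480683) (nat_lit 152) (nat_lit 848763737090) (nat_lit 8)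 (nat_lit 5) (nat_lit 9) (nat_lit 5) (nat_lit 10) (nat_lit 4) (nat_lit 251) (nat_lit 235) (nat_lit 114))) (XT.nd (nat_lit 78) (nat_lit 0) (nat_lit 76) (XT.lf (nat_lit 0) (nat_lit 55030126228) (nat_lit 532) (nat_lit 130103890965) (nat_lit 532) (nat_lit 130103890965) (nat_lit 29) (nat_lit 3) (nat_lit 36) (nat_lit 3) (nat_lit 36) (nat_lit 5) (nat_lit 236) (nat_lit 236) (nat_lit 128)) (XT.nd (nat_lit 78) (nat_lit 0) (nat_lit 0) (XT.lf (nat_lit 0) (nat_lit 126424823362) (nat_lit 456) (nat_lit 449351159018) (nat_lit 532) (nat_lit 101336714160) (nat_lit 30) (nat_lit 5) (nat_lit 36) (nat_lit 5) (nat_lit 37) (nat_lit 5) (nat_lit 237) (nat_lit 236) (nat_lit 127)) (XT.lf (nat_lit 76) (nat_lit 67482858320) (nat_lit 0) (nat_lit 97397278316) (nat_lit 532) (nat_lit 564294087950) (nat_lit 31) (nat_lit 5) (nat_lit 30) (nat_lit 5) (nat_lit 37) (nat_lit 5) (nat_lit 238) (nat_lit 236) (nat_lit 126))))) (XT.nd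 (nat_lit 156) (nat_lit 608) (nat_lit 0) (XT.nd (nat_lit 78) (nat_lit 0) (nat_lit 76) (XT.lf (nat_lit 0) (nat_lit 233414249114) (nat_lit 456) (nat_lit 110173271974) (nat_lit 532) (nat_lit 443512620858) (nat_lit 31) (nat_lit 5) (nat_lit 37) (nat_lit 5) (nat_lit 38) (nat_lit 5) (nat_lit 239) (nat_lit 236) (nat_lit 125)) (XT.lf (nat_lit 0) (nat_lit 333429800513) (nat_lit 456) (nat_lit 308917998211) (nat_lit 76) (nat_lit 209671042671) (nat_lit 32) (nat_lit 5) (nat_lit 38) (nat_lit 5) (nat_lit 33) (nat_lit 5) (nat_lit 240) (nat_lit 236) (nat_lit 124))) (XT.nd (nat_lit 78) (nat_lit 228) (nat_lit 0) (XT.lf (nat_lit 0) (nat_lit 384254960447) (nat_lit 456) (nat_lit 86227705334) (nat_lit 532) (nat_lit 454429881705) (nat_lit 26) (nat_lit 5) (nat_lit 32) (nat_lit 5) (nat_lit 33) (nat_lit 5) (nat_lit 241) (nat_lit 236) (nat_lit 123)) (XT.nd (nat_lit 78) (nat_lit 0) (nat_lit 0) (XT.lf (nat_lit 0) (nat_lit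 187951528173) (nat_lit 228) (nat_lit 467196692932) (nat_lit 304) (nat_lit 351427707751) (nat_lit 23) (nat_lit 5) (nat_lit 26) (nat_lit 5) (nat_lit 27) (nat_lit 5) (nat_lit 242) (nat_lit 236) (nat_lit 122)) (XT.lf (nat_lit 0) (nat_lit 889679329611) (nat_lit 304) (nat_lit 47062081611) (nat_lit 76) (nat_lit 161974148781) (nat_lit 23) (nat_lit 5) (nat_lit 27) (nat_lit 5) (nat_lit 24) (nat_lit 5) (nat_lit 243) (nat_lit 236) (nat_lit 121))))))))
noncomputable def xc62 : XT := (XT.nd (nat_lit 31590) (nat_lit 0) (nat_lit 152) (XT.nd (nat_lit 30888) (nat_lit 0) (nat_lit 456) (XT.nd (nat_lit 312) (nat_lit 456) (nat_lit 0) (XT.nd (nat_lit 156) (nat_lit 152) (nat_lit 0) (XT.nd (nat_lit 78) (nat_lit 304) (nat_lit 0) (XT.lf (nat_lit 0) (nat_lit 870877894699) (nat_lit 152) (nat_lit 322378327935) (nat_lit 228) (nat_lit 8710623872) (nat_lit 21) (nat_lit 5) (nat_lit 23) (nat_lit 5) (nat_lit 24) (nat_lit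 5) (nat_lit 244) (nat_lit 236) (nat_lit 120)) (XT.lf (nat_lit 0) (nat_lit 237067192735) (nat_lit 304) (nat_lit 693585411457) (nat_lit 76) (nat_lit 387507388979) (nat_lit 17) (nat_lit 5) (nat_lit 21) (nat_lit 5) (nat_lit 18) (nat_lit 5) (nat_lit 245) (nat_lit 236) (nat_lit 119))) (XT.nd (nat_lit 78) (nat_lit 0) (nat_lit 0) (XT.lf (nat_lit 0) (nat_lit 298132728645) (nat_lit 152) (nat_lit 247053790310) (nat_lit 228) (nat_lit 904498244721) (nat_lit 15) (nat_lit 5) (nat_lit 17) (nat_lit 5) (nat_lit 18) (nat_lit 5) (nat_lit 246) (nat_lit 236) (nat_lit 118)) (XT.lf (nat_lit 0) (nat_lit 933206217738) (nat_lit 228) (nat_lit 132202314309) (nat_lit 76) (nat_lit 532835119905) (nat_lit 15) (nat_lit 5) (nat_lit 18) (nat_lit 5) (nat_lit 16) (nat_lit 5) (nat_lit 247) (nat_lit 236) (nat_lit 117)))) (XT.nd (nat_lit 234) (nat_lit 152) (nat_lit 0) (XT.nd (nat_lit 78) (nat_lit 152) (nat_lit 0) (XT.lf (nat_lit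 0) (nat_lit 1087624321512) (nat_lit 152) (nat_lit 324794823876) (nat_lit 228) (nat_lit 354028006234) (nat_lit 13) (nat_lit 5) (nat_lit 15) (nat_lit 5) (nat_lit 16) (nat_lit 5) (nat_lit 248) (nat_lit 236) (nat_lit 116)) (XT.lf (nat_lit 0) (nat_lit 34168484045) (nat_lit 152) (nat_lit 1404563056961) (nat_lit 76) (nat_lit 518685255532) (nat_lit 11) (nat_lit 5) (nat_lit 13) (nat_lit 5) (nat_lit 12) (nat_lit 5) (nat_lit 249) (nat_lit 236) (nat_lit 115))) (XT.nd (nat_lit 30186) (nat_lit 0) (nat_lit 1520) (XT.lf (nat_lit 0) (nat_lit 1049713464305) (nat_lit 228) (nat_lit 1143073624518) (nat_lit 76) (nat_lit 227156656384) (nat_lit 9) (nat_lit 5) (nat_lit 12) (nat_lit 5) (nat_lit 10) (nat_lit 4) (nat_lit 251) (nat_lit 236) (nat_lit 113)) (XT.nd (nat_lit 78) (nat_lit 0) (nat_lit 76) (XT.lf (nat_lit 0) (nat_lit 63284893505) (nat_lit 532) (nat_lit 149619339621) (nat_lit 532) (nat_lit 149619339621)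 (nat_lit 29) (nat_lit 3) (nat_lit 36) (nat_lit 3) (nat_lit 36) (nat_lit 5) (nat_lit 237) (nat_lit 237) (nat_lit 126)) (XT.lf (nat_lit 0) (nat_lit 145388980122) (nat_lit 456) (nat_lit 516753543059) (nat_lit 532) (nat_lit 116537040106) (nat_lit 30) (nat_lit 5) (nat_lit 36) (nat_lit 5) (nat_lit 37) (nat_lit 5) (nat_lit 238) (nat_lit 237) (nat_lit 125)))))) (XT.nd (nat_lit 312) (nat_lit 836) (nat_lit 0) (XT.nd (nat_lit 156) (nat_lit 304) (nat_lit 0) (XT.nd (nat_lit 78) (nat_lit 0) (nat_lit 76) (XT.lf (nat_lit 76) (nat_lit 77605552348) (nat_lit 0) (nat_lit 112006987907) (nat_lit 532) (nat_lit 648937784696) (nat_lit 31) (nat_lit 5) (nat_lit 30) (nat_lit 5) (nat_lit 37) (nat_lit 5) (nat_lit 239) (nat_lit 237) (nat_lit 124)) (XT.lf (nat_lit 0) (nat_lit 268426717168) (nat_lit 456) (nat_lit 126699000652) (nat_lit 532) (nat_lit 510039416640) (nat_lit 31) (nat_lit 5) (nat_lit 37) (nat_lit 5) (nat_lit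 38) (nat_lit 5) (nat_lit 240) (nat_lit 237) (nat_lit 123))) (XT.nd (nat_lit 78) (nat_lit 456) (nat_lit 0) (XT.lf (nat_lit 0) (nat_lit 383444562631) (nat_lit 456) (nat_lit 355255431240) (nat_lit 76) (nat_lit 241121648351) (nat_lit 32) (nat_lit 5) (nat_lit 38) (nat_lit 5) (nat_lit 33) (nat_lit 5) (nat_lit 241) (nat_lit 237) (nat_lit 122)) (XT.lf (nat_lit 0) (nat_lit 441893448641) (nat_lit 456) (nat_lit 99161876825) (nat_lit 532) (nat_lit 522594081600) (nat_lit 26) (nat_lit 5) (nat_lit 32) (nat_lit 5) (nat_lit 33) (nat_lit 5) (nat_lit 242) (nat_lit 237) (nat_lit 121)))) (XT.nd (nat_lit 156) (nat_lit 608) (nat_lit 0) (XT.nd (nat_lit 78) (nat_lit 0) (nat_lit 0) (XT.lf (nat_lit 0) (nat_lit 216144501842) (nat_lit 228) (nat_lit 537276183909) (nat_lit 304) (nat_lit 404141612387) (nat_lit 23) (nat_lit 5) (nat_lit 26) (nat_lit 5) (nat_lit 27) (nat_lit 5) (nat_lit 243) (nat_lit 237) (nat_lit 120))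 (XT.lf (nat_lit 0) (nat_lit 1023131430611) (nat_lit 304) (nat_lit 54121164134) (nat_lit 76) (nat_lit 186270281806) (nat_lit 23) (nat_lit 5) (nat_lit 27) (nat_lit 5) (nat_lit 24) (nat_lit 5) (nat_lit 244) (nat_lit 237) (nat_lit 119))) (XT.nd (nat_lit 78) (nat_lit 456) (nat_lit 0) (XT.lf (nat_lit 0) (nat_lit 1001509789179) (nat_lit 152) (nat_lit 370735047176) (nat_lit 228) (nat_lit 10017021546) (nat_lit 21) (nat_lit 5) (nat_lit 23) (nat_lit 5) (nat_lit 24) (nat_lit 5) (nat_lit 245) (nat_lit 237) (nat_lit 118)) (XT.nd (nat_lit 78) (nat_lit 152) (nat_lit 0) (XT.lf (nat_lit 0) (nat_lit 272627439205) (nat_lit 304) (nat_lit 797623007343) (nat_lit 76) (nat_lit 445633531264) (nat_lit 17) (nat_lit 5) (nat_lit 21) (nat_lit 5) (nat_lit 18) (nat_lit 5) (nat_lit 246) (nat_lit 237) (nat_lit 117)) (XT.lf (nat_lit 0) (nat_lit 342852835506) (nat_lit 152) (nat_lit 284111811748) (nat_lit 228) (nat_lit 1040172818128)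 (nat_lit 15) (nat_lit 5) (nat_lit 17) (nat_lit 5) (nat_lit 18) (nat_lit 5) (nat_lit 247) (nat_lit 237) (nat_lit 116))))))) (XT.nd (nat_lit 30966) (nat_lit 0) (nat_lit 152) (XT.nd (nat_lit 30576) (nat_lit 0) (nat_lit 1140) (XT.nd (nat_lit 156) (nat_lit 152) (nat_lit 0) (XT.nd (nat_lit 78) (nat_lit 152) (nat_lit 0) (XT.lf (nat_lit 0) (nat_lit 1073187282215) (nat_lit 228) (nat_lit 152032479477) (nat_lit 76) (nat_lit 612760426805) (nat_lit 15) (nat_lit 5) (nat_lit 18) (nat_lit 5) (nat_lit 16) (nat_lit 5) (nat_lit 248) (nat_lit 237) (nat_lit 115)) (XT.lf (nat_lit 0) (nat_lit 1250768136314) (nat_lit 152) (nat_lit 373513999511) (nat_lit 228) (nat_lit 407132078439) (nat_lit 13) (nat_lit 5) (nat_lit 15) (nat_lit 5) (nat_lit 16) (nat_lit 5) (nat_lit 249) (nat_lit 237) (nat_lit 114))) (XT.nd (nat_lit 30342) (nat_lit 0) (nat_lit 1368) (XT.lf (nat_lit 0) (nat_lit 39293867984) (nat_lit 152) (nat_lit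 1615247348483) (nat_lit 76) (nat_lit 596488090151) (nat_lit 11) (nat_lit 5) (nat_lit 13) (nat_lit 5) (nat_lit 12) (nat_lit 5) (nat_lit 250) (nat_lit 237) (nat_lit 113)) (XT.lf (nat_lit 0) (nat_lit 72777815313) (nat_lit 532) (nat_lit 172062138494) (nat_lit 532) (nat_lit 172062138494) (nat_lit 29) (nat_lit 3) (nat_lit 36) (nat_lit 3) (nat_lit 36) (nat_lit 5) (nat_lit 238) (nat_lit 238) (nat_lit 124)))) (XT.nd (nat_lit 156) (nat_lit 304) (nat_lit 0) (XT.nd (nat_lit 78) (nat_lit 0) (nat_lit 0) (XT.lf (nat_lit 0) (nat_lit 167197654744) (nat_lit 456) (nat_lit 594266355379) (nat_lit 532) (nat_lit 134017459126) (nat_lit 30) (nat_lit 5) (nat_lit 36) (nat_lit 5) (nat_lit 37) (nat_lit 5) (nat_lit 239) (nat_lit 238) (nat_lit 123)) (XT.lf (nat_lit 76) (nat_lit 89246585790) (nat_lit 0) (nat_lit 128808125200) (nat_lit 532) (nat_lit 746278137508) (nat_lit 31) (nat_lit 5) (nat_lit 30) (nat_lit 5) (nat_lit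 37) (nat_lit 5) (nat_lit 240) (nat_lit 238) (nat_lit 122))) (XT.nd (nat_lit 78) (nat_lit 380) (nat_lit 0) (XT.lf (nat_lit 0) (nat_lit 308690974791) (nat_lit 456) (nat_lit 145703652550) (nat_lit 532) (nat_lit 586545255528) (nat_lit 31) (nat_lit 5) (nat_lit 37) (nat_lit 5) (nat_lit 38) (nat_lit 5) (nat_lit 241) (nat_lit 238) (nat_lit 121)) (XT.nd (nat_lit 78) (nat_lit 456) (nat_lit 0) (XT.lf (nat_lit 0) (nat_lit 440961467850) (nat_lit 456) (nat_lit 408543544261) (nat_lit 76) (nat_lit 277289857251) (nat_lit 32) (nat_lit 5) (nat_lit 38) (nat_lit 5) (nat_lit 33) (nat_lit 5) (nat_lit 242) (nat_lit 238) (nat_lit 120)) (XT.lf (nat_lit 0) (nat_lit 508177650533) (nat_lit 456) (nat_lit 114036170215) (nat_lit 532) (nat_lit 600982980334) (nat_lit 26) (nat_lit 5) (nat_lit 32) (nat_lit 5) (nat_lit 33) (nat_lit 5) (nat_lit 243) (nat_lit 238) (nat_lit 119)))))) (XT.nd (nat_lit 390) (nat_lit 152) (nat_lit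 0) (XT.nd (nat_lit 156) (nat_lit 608) (nat_lit 0) (XT.nd (nat_lit 78) (nat_lit 0) (nat_lit 0) (XT.lf (nat_lit 0) (nat_lit 248566361952) (nat_lit 228) (nat_lit 617867601694) (nat_lit 304) (nat_lit 464762664055) (nat_lit 23) (nat_lit 5) (nat_lit 26) (nat_lit 5) (nat_lit 27) (nat_lit 5) (nat_lit 244) (nat_lit 238) (nat_lit 118)) (XT.lf (nat_lit 0) (nat_lit 1176601297610) (nat_lit 304) (nat_lit 62239165053) (nat_lit 76) (nat_lit 214210832174) (nat_lit 23) (nat_lit 5) (nat_lit 27) (nat_lit 5) (nat_lit 24) (nat_lit 5) (nat_lit 245) (nat_lit 238) (nat_lit 117))) (XT.nd (nat_lit 78) (nat_lit 456) (nat_lit 0) (XT.lf (nat_lit 0) (nat_lit 1151736416554) (nat_lit 152) (nat_lit 426345281606) (nat_lit 228) (nat_lit 11519426645) (nat_lit 21) (nat_lit 5) (nat_lit 23) (nat_lit 5) (nat_lit 24) (nat_lit 5) (nat_lit 246) (nat_lit 238) (nat_lit 116)) (XT.nd (nat_lit 78) (nat_lit 152) (nat_lit 0) (XT.lf (nat_lit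 0) (nat_lit 313521681784) (nat_lit 304) (nat_lit 917266295243) (nat_lit 76) (nat_lit 512478586616) (nat_lit 17) (nat_lit 5) (nat_lit 21) (nat_lit 5) (nat_lit 18) (nat_lit 5) (nat_lit 247) (nat_lit 238) (nat_lit 115)) (XT.lf (nat_lit 0) (nat_lit 394280910218) (nat_lit 152) (nat_lit 326728547889) (nat_lit 228) (nat_lit 1196198617369) (nat_lit 15) (nat_lit 5) (nat_lit 17) (nat_lit 5) (nat_lit 18) (nat_lit 5) (nat_lit 248) (nat_lit 238) (nat_lit 114))))) (XT.nd (nat_lit 30498) (nat_lit 0) (nat_lit 1216) (XT.nd (nat_lit 78) (nat_lit 152) (nat_lit 0) (XT.lf (nat_lit 0) (nat_lit 1234165474219) (nat_lit 228) (nat_lit 174837213796) (nat_lit 76) (nat_lit 704674520251) (nat_lit 15) (nat_lit 5) (nat_lit 18) (nat_lit 5) (nat_lit 16) (nat_lit 5) (nat_lit 249) (nat_lit 238) (nat_lit 113)) (XT.lf (nat_lit 0) (nat_lit 1438383482716) (nat_lit 152) (nat_lit 429541063183) (nat_lit 228) (nat_lit 468201792866)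 (nat_lit 13) (nat_lit 5) (nat_lit 15) (nat_lit 5) (nat_lit 16) (nat_lit 5) (nat_lit 250) (nat_lit 238) (nat_lit 112))) (XT.nd (nat_lit 78) (nat_lit 0) (nat_lit 76) (XT.lf (nat_lit 0) (nat_lit 83694629600) (nat_lit 532) (nat_lit 197871382088) (nat_lit 532) (nat_lit 197871382088) (nat_lit 29) (nat_lit 3) (nat_lit 36) (nat_lit 3) (nat_lit 36) (nat_lit 5) (nat_lit 239) (nat_lit 239) (nat_lit 122)) (XT.nd (nat_lit 78) (nat_lit 0) (nat_lit 0) (XT.lf (nat_lit 0) (nat_lit 192277550671) (nat_lit 456) (nat_lit 683406142985) (nat_lit 532) (nat_lit 154119974406) (nat_lit 30) (nat_lit 5) (nat_lit 36) (nat_lit 5) (nat_lit 37) (nat_lit 5) (nat_lit 240) (nat_lit 239) (nat_lit 121)) (XT.lf (nat_lit 76) (nat_lit 102633725334) (nat_lit 0) (nat_lit 148129411358) (nat_lit 532) (nat_lit 858219620030) (nat_lit 31) (nat_lit 5) (nat_lit 30) (nat_lit 5) (nat_lit 37) (nat_lit 5) (nat_lit 241) (nat_lit 239) (nat_lit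 120))))))))
noncomputable def xc63 : XT := (XT.nd (nat_lit 62634) (nat_lit 0) (nat_lit 456) (XT.nd (nat_lit 31278) (nat_lit 0) (nat_lit 304) (XT.nd (nat_lit 312) (nat_lit 456) (nat_lit 0) (XT.nd (nat_lit 156) (nat_lit 608) (nat_lit 0) (XT.nd (nat_lit 78) (nat_lit 0) (nat_lit 76) (XT.lf (nat_lit 0) (nat_lit 354994810081) (nat_lit 456) (nat_lit 167559050566) (nat_lit 532) (nat_lit 674526988198) (nat_lit 31) (nat_lit 5) (nat_lit 37) (nat_lit 5) (nat_lit 38) (nat_lit 5) (nat_lit 242) (nat_lit 239) (nat_lit 119)) (XT.lf (nat_lit 0) (nat_lit 507105855002) (nat_lit 456) (nat_lit 469824923413) (nat_lit 76) (nat_lit 318883306838) (nat_lit 32) (nat_lit 5) (nat_lit 38) (nat_lit 5) (nat_lit 33) (nat_lit 5) (nat_lit 243) (nat_lit 239) (nat_lit 118))) (XT.nd (nat_lit 78) (nat_lit 228) (nat_lit 0) (XT.lf (nat_lit 0) (nat_lit 584404437694) (nat_lit 456) (nat_lit 131141604719) (nat_lit 532) (nat_lit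 691130265942) (nat_lit 26) (nat_lit 5) (nat_lit 32) (nat_lit 5) (nat_lit 33) (nat_lit 5) (nat_lit 244) (nat_lit 239) (nat_lit 117)) (XT.lf (nat_lit 0) (nat_lit 285851456006) (nat_lit 228) (nat_lit 710547734537) (nat_lit 304) (nat_lit 534476919853) (nat_lit 23) (nat_lit 5) (nat_lit 26) (nat_lit 5) (nat_lit 27) (nat_lit 5) (nat_lit 245) (nat_lit 239) (nat_lit 116)))) (XT.nd (nat_lit 156) (nat_lit 304) (nat_lit 0) (XT.nd (nat_lit 78) (nat_lit 152) (nat_lit 0) (XT.lf (nat_lit 0) (nat_lit 1353091607494) (nat_lit 304) (nat_lit 71574908468) (nat_lit 76) (nat_lit 246342463123) (nat_lit 23) (nat_lit 5) (nat_lit 27) (nat_lit 5) (nat_lit 24) (nat_lit 5) (nat_lit 246) (nat_lit 239) (nat_lit 115)) (XT.lf (nat_lit 0) (nat_lit 1324496999262) (nat_lit 152) (nat_lit 490297056724) (nat_lit 228) (nat_lit 13247228631) (nat_lit 21) (nat_lit 5) (nat_lit 23) (nat_lit 5) (nat_lit 24) (nat_lit 5) (nat_lit 247)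 (nat_lit 239) (nat_lit 114))) (XT.nd (nat_lit 30654) (nat_lit 0) (nat_lit 912) (XT.lf (nat_lit 0) (nat_lit 360550029855) (nat_lit 304) (nat_lit 1054856116127) (nat_lit 76) (nat_lit 589350394014) (nat_lit 17) (nat_lit 5) (nat_lit 21) (nat_lit 5) (nat_lit 18) (nat_lit 5) (nat_lit 248) (nat_lit 239) (nat_lit 113)) (XT.nd (nat_lit 78) (nat_lit 0) (nat_lit 76) (XT.lf (nat_lit 0) (nat_lit 96248931405) (nat_lit 532) (nat_lit 227552031042) (nat_lit 532) (nat_lit 227552031042) (nat_lit 29) (nat_lit 3) (nat_lit 36) (nat_lit 3) (nat_lit 36) (nat_lit 5) (nat_lit 240) (nat_lit 240) (nat_lit 120)) (XT.lf (nat_lit 0) (nat_lit 221119370580) (nat_lit 456) (nat_lit 785916939140) (nat_lit 532) (nat_lit 177237892238) (nat_lit 30) (nat_lit 5) (nat_lit 36) (nat_lit 5) (nat_lit 37) (nat_lit 5) (nat_lit 241) (nat_lit 240) (nat_lit 119)))))) (XT.nd (nat_lit 312) (nat_lit 380) (nat_lit 0) (XT.nd (nat_lit 156)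 (nat_lit 304) (nat_lit 0) (XT.nd (nat_lit 78) (nat_lit 0) (nat_lit 76) (XT.lf (nat_lit 76) (nat_lit 118028898822) (nat_lit 0) (nat_lit 170348874008) (nat_lit 532) (nat_lit 986952382993) (nat_lit 31) (nat_lit 5) (nat_lit 30) (nat_lit 5) (nat_lit 37) (nat_lit 5) (nat_lit 242) (nat_lit 240) (nat_lit 118)) (XT.lf (nat_lit 0) (nat_lit 408244174558) (nat_lit 456) (nat_lit 192692794829) (nat_lit 532) (nat_lit 775705994343) (nat_lit 31) (nat_lit 5) (nat_lit 37) (nat_lit 5) (nat_lit 38) (nat_lit 5) (nat_lit 243) (nat_lit 240) (nat_lit 117))) (XT.nd (nat_lit 78) (nat_lit 456) (nat_lit 0) (XT.lf (nat_lit 0) (nat_lit 583171859509) (nat_lit 456) (nat_lit 540298546622) (nat_lit 76) (nat_lit 366715780936) (nat_lit 32) (nat_lit 5) (nat_lit 38) (nat_lit 5) (nat_lit 33) (nat_lit 5) (nat_lit 244) (nat_lit 240) (nat_lit 116)) (XT.lf (nat_lit 0) (nat_lit 672065208891) (nat_lit 456) (nat_lit 150812852211)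 (nat_lit 532) (nat_lit 794799683761) (nat_lit 26) (nat_lit 5) (nat_lit 32) (nat_lit 5) (nat_lit 33) (nat_lit 5) (nat_lit 245) (nat_lit 240) (nat_lit 115)))) (XT.nd (nat_lit 156) (nat_lit 152) (nat_lit 0) (XT.nd (nat_lit 78) (nat_lit 0) (nat_lit 0) (XT.lf (nat_lit 0) (nat_lit 328729280087) (nat_lit 228) (nat_lit 817129889113) (nat_lit 304) (nat_lit 614648349089) (nat_lit 23) (nat_lit 5) (nat_lit 26) (nat_lit 5) (nat_lit 27) (nat_lit 5) (nat_lit 246) (nat_lit 240) (nat_lit 114)) (XT.lf (nat_lit 0) (nat_lit 1556055435757) (nat_lit 304) (nat_lit 82311045424) (nat_lit 76) (nat_lit 283293837220) (nat_lit 23) (nat_lit 5) (nat_lit 27) (nat_lit 5) (nat_lit 24) (nat_lit 5) (nat_lit 247) (nat_lit 240) (nat_lit 113))) (XT.nd (nat_lit 30732) (nat_lit 0) (nat_lit 608) (XT.lf (nat_lit 0) (nat_lit 1523171640059) (nat_lit 152) (nat_lit 563841602284) (nat_lit 228) (nat_lit 15234228230) (nat_lit 21) (nat_lit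 5) (nat_lit 23) (nat_lit 5) (nat_lit 24) (nat_lit 5) (nat_lit 248) (nat_lit 240) (nat_lit 112)) (XT.nd (nat_lit 78) (nat_lit 0) (nat_lit 76) (XT.lf (nat_lit 0) (nat_lit 110686352299) (nat_lit 532) (nat_lit 261684791571) (nat_lit 532) (nat_lit 261684791571) (nat_lit 29) (nat_lit 3) (nat_lit 36) (nat_lit 3) (nat_lit 36) (nat_lit 5) (nat_lit 241) (nat_lit 241) (nat_lit 118)) (XT.lf (nat_lit 0) (nat_lit 254287417799) (nat_lit 456) (nat_lit 903804385271) (nat_lit 532) (nat_lit 203823516847) (nat_lit 30) (nat_lit 5) (nat_lit 36) (nat_lit 5) (nat_lit 37) (nat_lit 5) (nat_lit 242) (nat_lit 241) (nat_lit 117))))))) (XT.nd (nat_lit 31512) (nat_lit 0) (nat_lit 228) (XT.nd (nat_lit 312) (nat_lit 228) (nat_lit 0) (XT.nd (nat_lit 156) (nat_lit 304) (nat_lit 0) (XT.nd (nat_lit 78) (nat_lit 0) (nat_lit 76) (XT.lf (nat_lit 76) (nat_lit 135733320366) (nat_lit 0) (nat_lit 195901243633) (nat_lit 532) (nat_lit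 1134995104305) (nat_lit 31) (nat_lit 5) (nat_lit 30) (nat_lit 5) (nat_lit 37) (nat_lit 5) (nat_lit 243) (nat_lit 241) (nat_lit 116)) (XT.lf (nat_lit 0) (nat_lit 469480908844) (nat_lit 456) (nat_lit 221596628367) (nat_lit 532) (nat_lit 892061861671) (nat_lit 31) (nat_lit 5) (nat_lit 37) (nat_lit 5) (nat_lit 38) (nat_lit 5) (nat_lit 244) (nat_lit 241) (nat_lit 115))) (XT.nd (nat_lit 78) (nat_lit 456) (nat_lit 0) (XT.lf (nat_lit 0) (nat_lit 670647733904) (nat_lit 456) (nat_lit 621343241430) (nat_lit 76) (nat_lit 421723131495) (nat_lit 32) (nat_lit 5) (nat_lit 38) (nat_lit 5) (nat_lit 33) (nat_lit 5) (nat_lit 245) (nat_lit 241) (nat_lit 114)) (XT.lf (nat_lit 0) (nat_lit 772875070030) (nat_lit 456) (nat_lit 173434785172) (nat_lit 532) (nat_lit 914019544021) (nat_lit 26) (nat_lit 5) (nat_lit 32) (nat_lit 5) (nat_lit 33) (nat_lit 5) (nat_lit 246) (nat_lit 241) (nat_lit 113)))) (XT.nd (nat_lit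 30966) (nat_lit 0) (nat_lit 532) (XT.nd (nat_lit 30888) (nat_lit 0) (nat_lit 456) (XT.lf (nat_lit 0) (nat_lit 378038752008) (nat_lit 228) (nat_lit 939699368243) (nat_lit 304) (nat_lit 706845519227) (nat_lit 23) (nat_lit 5) (nat_lit 26) (nat_lit 5) (nat_lit 27) (nat_lit 5) (nat_lit 247) (nat_lit 241) (nat_lit 112)) (XT.lf (nat_lit 0) (nat_lit 127289366531) (nat_lit 532) (nat_lit 300937476940) (nat_lit 532) (nat_lit 300937476940) (nat_lit 29) (nat_lit 3) (nat_lit 36) (nat_lit 3) (nat_lit 36) (nat_lit 5) (nat_lit 242) (nat_lit 242) (nat_lit 116))) (XT.nd (nat_lit 78) (nat_lit 0) (nat_lit 0) (XT.lf (nat_lit 0) (nat_lit 292430637563) (nat_lit 456) (nat_lit 1039374971425) (nat_lit 532) (nat_lit 234396999590) (nat_lit 30) (nat_lit 5) (nat_lit 36) (nat_lit 5) (nat_lit 37) (nat_lit 5) (nat_lit 243) (nat_lit 242) (nat_lit 115)) (XT.nd (nat_lit 78) (nat_lit 0) (nat_lit 76) (XT.lf (nat_lit 76) (nat_lit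 156093383994) (nat_lit 0) (nat_lit 225286459307) (nat_lit 532) (nat_lit 1305244267011) (nat_lit 31) (nat_lit 5) (nat_lit 30) (nat_lit 5) (nat_lit 37) (nat_lit 5) (nat_lit 244) (nat_lit 242) (nat_lit 114)) (XT.lf (nat_lit 0) (nat_lit 539903126911) (nat_lit 456) (nat_lit 254836057830) (nat_lit 532) (nat_lit 1025871116859) (nat_lit 31) (nat_lit 5) (nat_lit 37) (nat_lit 5) (nat_lit 38) (nat_lit 5) (nat_lit 245) (nat_lit 242) (nat_lit 113)))))) (XT.nd (nat_lit 31278) (nat_lit 0) (nat_lit 228) (XT.nd (nat_lit 31044) (nat_lit 0) (nat_lit 228) (XT.nd (nat_lit 78) (nat_lit 456) (nat_lit 0) (XT.lf (nat_lit 0) (nat_lit 771244966178) (nat_lit 456) (nat_lit 714544661719) (nat_lit 76) (nat_lit 484981588682) (nat_lit 32) (nat_lit 5) (nat_lit 38) (nat_lit 5) (nat_lit 33) (nat_lit 5) (nat_lit 246) (nat_lit 242) (nat_lit 112)) (XT.lf (nat_lit 0) (nat_lit 888806390879) (nat_lit 456) (nat_lit 199450006827)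 (nat_lit 532) (nat_lit 1051122405828) (nat_lit 26) (nat_lit 5) (nat_lit 32) (nat_lit 5) (nat_lit 33) (nat_lit 5) (nat_lit 247) (nat_lit 242) (nat_lit 111))) (XT.nd (nat_lit 78) (nat_lit 0) (nat_lit 76) (XT.lf (nat_lit 0) (nat_lit 146382817927) (nat_lit 532) (nat_lit 346078073250) (nat_lit 532) (nat_lit 346078073250) (nat_lit 29) (nat_lit 3) (nat_lit 36) (nat_lit 3) (nat_lit 36) (nat_lit 5) (nat_lit 243) (nat_lit 243) (nat_lit 114)) (XT.nd (nat_lit 78) (nat_lit 0) (nat_lit 0) (XT.lf (nat_lit 0) (nat_lit 336295314176) (nat_lit 456) (nat_lit 1195281162971) (nat_lit 532) (nat_lit 269556515665) (nat_lit 30) (nat_lit 5) (nat_lit 36) (nat_lit 5) (nat_lit 37) (nat_lit 5) (nat_lit 244) (nat_lit 243) (nat_lit 113)) (XT.lf (nat_lit 76) (nat_lit 179507441176) (nat_lit 0) (nat_lit 259079450229) (nat_lit 532) (nat_lit 1501030829226) (nat_lit 31) (nat_lit 5) (nat_lit 30) (nat_lit 5) (nat_lit 37) (nat_lit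 5) (nat_lit 245) (nat_lit 243) (nat_lit 112))))) (XT.nd (nat_lit 31200) (nat_lit 0) (nat_lit 76) (XT.nd (nat_lit 31122) (nat_lit 152) (nat_lit 0) (XT.lf (nat_lit 0) (nat_lit 620888657755) (nat_lit 456) (nat_lit 293061417513) (nat_lit 532) (nat_lit 1179751766194) (nat_lit 31) (nat_lit 5) (nat_lit 37) (nat_lit 5) (nat_lit 38) (nat_lit 5) (nat_lit 246) (nat_lit 243) (nat_lit 111)) (XT.lf (nat_lit 0) (nat_lit 168340275714) (nat_lit 532) (nat_lit 397989765160) (nat_lit 532) (nat_lit 397989765160) (nat_lit 29) (nat_lit 3) (nat_lit 36) (nat_lit 3) (nat_lit 36) (nat_lit 5) (nat_lit 244) (nat_lit 244) (nat_lit 112))) (XT.nd (nat_lit 78) (nat_lit 0) (nat_lit 0) (XT.lf (nat_lit 0) (nat_lit 386739672534) (nat_lit 456) (nat_lit 1374573296458) (nat_lit 532) (nat_lit 309989967409) (nat_lit 30) (nat_lit 5) (nat_lit 36) (nat_lit 5) (nat_lit 37) (nat_lit 5) (nat_lit 245) (nat_lit 244) (nat_lit 111)) (XT.nd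 (nat_lit 31356) (nat_lit 0) (nat_lit 0) (XT.lf (nat_lit 76) (nat_lit 206433594844) (nat_lit 0) (nat_lit 297941384418) (nat_lit 532) (nat_lit 1726185394755) (nat_lit 31) (nat_lit 5) (nat_lit 30) (nat_lit 5) (nat_lit 37) (nat_lit 5) (nat_lit 246) (nat_lit 244) (nat_lit 110)) (XT.lf (nat_lit 76) (nat_lit 237398662420) (nat_lit 0) (nat_lit 342632604675) (nat_lit 532) (nat_lit 1985113159465) (nat_lit 31) (nat_lit 5) (nat_lit 30) (nat_lit 5) (nat_lit 37) (nat_lit 5) (nat_lit 247) (nat_lit 245) (nat_lit 108))))))))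

set_option maxRecDepth 10000000 in
noncomputable def Tp : PT := (PT.nd (nat_lit 3166956) pc0 pc1)

set_option maxRecDepth 10000000 in
noncomputable def Tx : XT := (XT.nd (nat_lit 5337540) (nat_lit 0) (nat_lit 76) XT.nil (XT.nd (nat_lit 2344914) (nat_lit 0) (nat_lit 0) (XT.nd (nat_lit 1091688) (nat_lit 0) (nat_lit 0) (XT.nd (nat_lit 749112) (nat_lit 0) (nat_lit 0) (XT.nd (nat_lit 530166) (nat_lit 0) (nat_lit 0) (XT.nd (nat_lit 374010) (nat_lit 0) (nat_lit 0) (XT.nd (nat_lit 249678) (nat_lit 0) (nat_lit 0) (XT.nd (nat_lit 186732) (nat_lit 0) (nat_lit 0) xc0 xc1) (XT.nd (nat_lit 62478) (nat_lit 0) (nat_lit 0) xc2 xc3)) (XT.nd (nat_lit 92976) (nat_lit 0) (nat_lit 0) (XT.nd (nat_lit 32058) (nat_lit 0) (nat_lit 0) xc4 xc5) (XT.nd (nat_lit 31668) (nat_lit 0) (nat_lit 0) xc6 xc7))) (XT.nd (nat_lit 124410) (nat_lit 0) (nat_lit 0) (XT.nd (nat_lit 62478) (nat_lit 0) (nat_lit 0) (XT.nd (nat_lit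 31278) (nat_lit 0) (nat_lit 0) xc8 xc9) (XT.nd (nat_lit 31044) (nat_lit 0) (nat_lit 0) xc10 xc11)) (XT.nd (nat_lit 61230) (nat_lit 0) (nat_lit 0) (XT.nd (nat_lit 30654) (nat_lit 0) (nat_lit 0) xc12 xc13) (XT.nd (nat_lit 2886) (nat_lit 0) (nat_lit 0) xc14 xc15)))) (XT.nd (nat_lit 185094) (nat_lit 0) (nat_lit 0) (XT.nd (nat_lit 93132) (nat_lit 0) (nat_lit 0) (XT.nd (nat_lit 60294) (nat_lit 0) (nat_lit 0) (XT.nd (nat_lit 30186) (nat_lit 0) (nat_lit 0) xc16 xc17) (XT.nd (nat_lit 2886) (nat_lit 0) (nat_lit 0) xc18 xc19)) (XT.nd (nat_lit 32682) (nat_lit 0) (nat_lit 0) (XT.nd (nat_lit 29796) (nat_lit 0) (nat_lit 0) xc20 xc21) (XT.nd (nat_lit 29718) (nat_lit 0) (nat_lit 0) xc22 xc23))) (XT.nd (nat_lit 65052) (nat_lit 0) (nat_lit 0) (XT.nd (nat_lit 32448) (nat_lit 0) (nat_lit 0) (XT.nd (nat_lit 2808) (nat_lit 0) (nat_lit 0) xc24 xc25) (XT.nd (nat_lit 29718) (nat_lit 0) (nat_lit 0) xc26 xc27))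 (XT.nd (nat_lit 32604) (nat_lit 0) (nat_lit 0) (XT.nd (nat_lit 29718) (nat_lit 0) (nat_lit 0) xc28 xc29) (XT.nd (nat_lit 29874) (nat_lit 0) (nat_lit 0) xc30 xc31))))) (XT.nd (nat_lit 377910) (nat_lit 0) (nat_lit 0) (XT.nd (nat_lit 187356) (nat_lit 0) (nat_lit 0) (XT.nd (nat_lit 93288) (nat_lit 0) (nat_lit 0) (XT.nd (nat_lit 32838) (nat_lit 0) (nat_lit 0) (XT.nd (nat_lit 2808) (nat_lit 0) (nat_lit 0) xc32 xc33) (XT.nd (nat_lit 30186) (nat_lit 0) (nat_lit 0) xc34 xc35)) (XT.nd (nat_lit 33150) (nat_lit 0) (nat_lit 0) (XT.nd (nat_lit 2808) (nat_lit 0) (nat_lit 0) xc36 xc37) (XT.nd (nat_lit 30420) (nat_lit 0) (nat_lit 0) xc38 xc39))) (XT.nd (nat_lit 94848) (nat_lit 0) (nat_lit 0) (XT.nd (nat_lit 33384) (nat_lit 0) (nat_lit 0) (XT.nd (nat_lit 2808) (nat_lit 0) (nat_lit 0) xc40 xc41) (XT.nd (nat_lit 30654) (nat_lit 0) (nat_lit 0) xc42 xc43)) (XT.nd (nat_lit 61776) (nat_lit 0) (nat_lit 0) (XT.nd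 (nat_lit 30810) (nat_lit 0) (nat_lit 0) xc44 xc45) (XT.nd (nat_lit 31044) (nat_lit 0) (nat_lit 0) xc46 xc47)))) (XT.nd (nat_lit 280644) (nat_lit 0) (nat_lit 76) (XT.nd (nat_lit 125034) (nat_lit 0) (nat_lit 0) (XT.nd (nat_lit 62244) (nat_lit 0) (nat_lit 0) (XT.nd (nat_lit 31044) (nat_lit 0) (nat_lit 0) xc48 xc49) (XT.nd (nat_lit 31356) (nat_lit 0) (nat_lit 0) xc50 xc51)) (XT.nd (nat_lit 91884) (nat_lit 0) (nat_lit 76) (XT.nd (nat_lit 31434) (nat_lit 0) (nat_lit 0) xc52 xc53) (XT.nd (nat_lit 31824) (nat_lit 0) (nat_lit 0) xc54 xc55))) (XT.nd (nat_lit 187668) (nat_lit 0) (nat_lit 228) (XT.nd (nat_lit 93366) (nat_lit 0) (nat_lit 152) (XT.nd (nat_lit 31902) (nat_lit 0) (nat_lit 76) xc56 xc57) (XT.nd (nat_lit 32292) (nat_lit 0) (nat_lit 0) xc58 xc59)) (XT.nd (nat_lit 125190) (nat_lit 0) (nat_lit 304) (XT.nd (nat_lit 62322) (nat_lit 0) (nat_lit 228) xc60 xc61) (XT.nd (nat_lit 93678) (nat_lit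 0) (nat_lit 608) xc62 xc63)))))) XT.nil))

set_option maxRecDepth 10000000 in
noncomputable def Te : XT := XT.nil

set_option maxRecDepth 10000000 in
noncomputable def Tz : ZL := (ZL.cons (nat_lit 76) (nat_lit 6) (nat_lit 167472867737695153290) (ZL.cons (nat_lit 152) (nat_lit 6) (nat_lit 158983327320513351348) (ZL.cons (nat_lit 228) (nat_lit 3) (nat_lit 78765735570022635179) (ZL.cons (nat_lit 304) (nat_lit 6) (nat_lit 149220355840754279116) (ZL.cons (nat_lit 380) (nat_lit 6) (nat_lit 142376913062227355818) (ZL.cons (nat_lit 456) (nat_lit 3) (nat_lit 70557214713518860088) (ZL.cons (nat_lit 532) (nat_lit 6) (nat_lit 134506953866921394030) (ZL.cons (nat_lit 608) (nat_lit 6) (nat_lit 129268652464663894298) (ZL.cons (nat_lit 684) (nat_lit 3) (nat_lit 64085420303988627302) (ZL.cons (nat_lit 760) (nat_lit 6) (nat_lit 125297036714568878594) (ZL.cons (nat_lit 836) (nat_lit 6) (nat_lit 123244605852067769606)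 (ZL.cons (nat_lit 912) (nat_lit 6) (nat_lit 122514401091091009652) (ZL.cons (nat_lit 988) (nat_lit 6) (nat_lit 119631866745272970840) (ZL.cons (nat_lit 1064) (nat_lit 3) (nat_lit 59338623869729250773) (ZL.cons (nat_lit 1140) (nat_lit 6) (nat_lit 116088455254600033884) (ZL.cons (nat_lit 1216) (nat_lit 6) (nat_lit 117261939261590351380) (ZL.cons (nat_lit 1292) (nat_lit 6) (nat_lit 115477216772458952262) (ZL.cons (nat_lit 1368) (nat_lit 3) (nat_lit 56477113078714884825) (ZL.cons (nat_lit 1444) (nat_lit 6) (nat_lit 113581903649540869704) (ZL.cons (nat_lit 1520) (nat_lit 3) (nat_lit 56375900083111969940) (ZL.cons (nat_lit 1596) (nat_lit 6) (nat_lit 111402293558185074764) (ZL.cons (nat_lit 1672) (nat_lit 1) (nat_lit 18446744073709551617) ZL.nil))))))))))))))))))))))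

noncomputable def vl : XL := ⟨(nat_lit 0), (nat_lit 76), (nat_lit 624189102), (nat_lit 152), (nat_lit 44667872), (nat_lit 152), (nat_lit 44667872), (nat_lit 1), (nat_lit 4), (nat_lit 2), (nat_lit 5), (nat_lit 2), (nat_lit 4), (nat_lit 0), (nat_lit 0), (nat_lit 0)⟩

noncomputable def cp0 : Nat := (nat_lit 452576087538105942318916716795509338834407892619261479935014920235437515950800981631454937684632558006818167405358735821212556429366213987144997402131231289636521367093777736925575695203019089332073300661032419663894630718304016263506721690413579766820503684519096702093538124450689783167806435399861373229431292487311723333142306173056484163061485912814952018160426639743053416483140928837745452689558923575964923098509488214293330162891675501522338807333713380493063972695624002869892418149889534354361170153755281195008)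

noncomputable def cp1 : Nat := (nat_lit 6027065433837379466539372887327942669693537008100958958298111700641913022968266236348618074021529201773997116446005737980180056382707224998408960448136960719723316741324904884346731406326121438427618036001631539746870077176483548060436301114867199066298136320561071997371741174895090929860919808044214073732281246404479782061065355965024405611276217862869632611660780868678581178503185772533227566064877166190202110433371833751104730117973555994443160237733105652512995019647363671061581272433658065060533256793159467708239169802050061134571264234179318984996897443805192819582335528446178428444337753244611639327096998330960649494490373720645354443289449101502847134076561976957871902377299848408552045481130946987665399395826273648616791751555595357393248348976263360029217204157946306660295236750133757046325772111958197790512993427717103729210958279916356483574131314521414125177559638870831376490738544400812405659466380648771970478841933959440483759979486503774899617462448809048886633646443882269982940709540570067212786899299132471090900626127511264275166526064946196592488285090747982899783831125670013625454047747220706689245021540895125930122853978220242515902841878090719942072274521124467963231292140756966248147845120)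

noncomputable def rc0 : Nat := (nat_lit 6027065433837379466539372887327942669693537008100958958298111700641913022968266236348618074021529201773997116446005737980180056382707224998408960448136960719723316741324904884346731406326121438427618036001631539746870077176483548060436301114867199066298136320561071997371741174895090929860919808044214073732281246404479782061065355965024405611276217862869632611660780868678581178503185772533227566064877166190202110433371833751104730117973555994443160237733105652512995019647363671061581272433658065060533256793159467708239169802050061134571264234179318984996897443805192819582335528446178428444337753244611639327096998330960649494490373720645354443289449101502847134076561976957871902377299848408552045481130946987665399395826273648616791751555595357393248348976263360029217204157946306660295236750133757046325772111958197790512993427717103729210958279916356483574131314521414125177559638870831376490738544400812405659466380648771970478841933959440483759979486503774899617462448809048886633646443882269982940709540570067212786899299132471090900626127511264275166526064946196592488285090747982899783831125670013625454047747220706689245021540895125930122853978220242515902841878090719942072274521124467963231292140756966248147845120)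

end Vale.Agent.Lib.P154.PChain.BV.S1
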