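import Vale.Agent.Lib.P154.PChain.BV.R1_0

set_option linter.all false

namespace Vale.Agent.Lib.P154.PChain.BV.S2

open Vale.Agent.Lib.P154.Chain

noncomputable def pc0 : PT := (PT.nd (nat_lit 4024254) (PT.nd (nat_lit 3911778) (PT.nd (nat_lit 3836898) (PT.nd (nat_lit 3799458) (PT.nd (nat_lit 3799380) (PT.nd (nat_lit 3761940) PT.nil (PT.lf (nat_lit 76) (nat_lit 3) (nat_lit 1) (nat_lit 1) (nat_lit 130) (nat_lit 100) (nat_lit 130))) (PT.lf (nat_lit 152) (nat_lit 6) (nat_lit 2) (nat_lit 3) (nat_lit 129) (nat_lit 101) (nat_lit 130))) (PT.nd (nat_lit 37362) (PT.lf (nat_lit 152) (nat_lit 6) (nat_lit 2) (nat_lit 1) (nat_lit 130) (nat_lit 101) (nat_lit 129)) (PT.lf (nat_lit 228) (nat_lit 6) (nat_lit 3) (nat_lit 3) (nat_lit 128) (nat_lit 102) (nat_lit 130)))) (PT.nd (nat_lit 37440) (PT.nd (nat_lit 78) (PT.lf (nat_lit 304) (nat_lit 3) (nat_lit 4) (nat_lit 1) (nat_lit 129) (nat_lit 102) (nat_lit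 129)) (PT.lf (nat_lit 228) (nat_lit 6) (nat_lit 3) (nat_lit 1) (nat_lit 130) (nat_lit 102) (nat_lit 128))) (PT.nd (nat_lit 78) (PT.lf (nat_lit 380) (nat_lit 6) (nat_lit 5) (nat_lit 3) (nat_lit 128) (nat_lit 103) (nat_lit 129)) (PT.lf (nat_lit 380) (nat_lit 6) (nat_lit 5) (nat_lit 1) (nat_lit 129) (nat_lit 103) (nat_lit 128))))) (PT.nd (nat_lit 37596) (PT.nd (nat_lit 156) (PT.nd (nat_lit 78) (PT.lf (nat_lit 456) (nat_lit 6) (nat_lit 6) (nat_lit 3) (nat_lit 127) (nat_lit 104) (nat_lit 129)) (PT.lf (nat_lit 532) (nat_lit 3) (nat_lit 7) (nat_lit 1) (nat_lit 128) (nat_lit 104) (nat_lit 128))) (PT.nd (nat_lit 37362) (PT.lf (nat_lit 456) (nat_lit 6) (nat_lit 6) (nat_lit 1) (nat_lit 129) (nat_lit 104) (nat_lit 127)) (PT.lf (nat_lit 608) (nat_lit 6) (nat_lit 8) (nat_lit 3) (nat_lit 127) (nat_lit 105) (nat_lit 128)))) (PT.nd (nat_lit 37440) (PT.nd (nat_lit 37362) (PT.lf (nat_lit 608) (nat_lit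 6) (nat_lit 8) (nat_lit 1) (nat_lit 128) (nat_lit 105) (nat_lit 127)) (PT.lf (nat_lit 684) (nat_lit 6) (nat_lit 9) (nat_lit 3) (nat_lit 126) (nat_lit 106) (nat_lit 128))) (PT.nd (nat_lit 78) (PT.lf (nat_lit 760) (nat_lit 3) (nat_lit 10) (nat_lit 1) (nat_lit 127) (nat_lit 106) (nat_lit 127)) (PT.nd (nat_lit 37284) (PT.lf (nat_lit 684) (nat_lit 6) (nat_lit 9) (nat_lit 1) (nat_lit 128) (nat_lit 106) (nat_lit 126)) (PT.lf (nat_lit 836) (nat_lit 6) (nat_lit 11) (nat_lit 3) (nat_lit 125) (nat_lit 107) (nat_lit 128))))))) (PT.nd (nat_lit 75036) (PT.nd (nat_lit 37518) (PT.nd (nat_lit 156) (PT.nd (nat_lit 78) (PT.lf (nat_lit 912) (nat_lit 6) (nat_lit 12) (nat_lit 3) (nat_lit 126) (nat_lit 107) (nat_lit 127)) (PT.lf (nat_lit 912) (nat_lit 6) (nat_lit 12) (nat_lit 1) (nat_lit 127) (nat_lit 107) (nat_lit 126))) (PT.nd (nat_lit 37284) (PT.lf (nat_lit 836) (nat_lit 6) (nat_lit 11) (nat_lit 1) (nat_lit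 128) (nat_lit 107) (nat_lit 125)) (PT.lf (nat_lit 988) (nat_lit 6) (nat_lit 13) (nat_lit 3) (nat_lit 125) (nat_lit 108) (nat_lit 127)))) (PT.nd (nat_lit 37362) (PT.nd (nat_lit 78) (PT.lf (nat_lit 1064) (nat_lit 3) (nat_lit 14) (nat_lit 1) (nat_lit 126) (nat_lit 108) (nat_lit 126)) (PT.lf (nat_lit 988) (nat_lit 6) (nat_lit 13) (nat_lit 1) (nat_lit 127) (nat_lit 108) (nat_lit 125))) (PT.nd (nat_lit 78) (PT.lf (nat_lit 1140) (nat_lit 6) (nat_lit 15) (nat_lit 3) (nat_lit 124) (nat_lit 109) (nat_lit 127)) (PT.lf (nat_lit 1216) (nat_lit 6) (nat_lit 16) (nat_lit 3) (nat_lit 125) (nat_lit 109) (nat_lit 126))))) (PT.nd (nat_lit 37440) (PT.nd (nat_lit 37284) (PT.nd (nat_lit 78) (PT.lf (nat_lit 1216) (nat_lit 6) (nat_lit 16) (nat_lit 1) (nat_lit 126) (nat_lit 109) (nat_lit 125)) (PT.lf (nat_lit 1140) (nat_lit 6) (nat_lit 15) (nat_lit 1) (nat_lit 127) (nat_lit 109) (nat_lit 124))) (PT.nd (nat_lit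 78) (PT.lf (nat_lit 1292) (nat_lit 6) (nat_lit 17) (nat_lit 3) (nat_lit 123) (nat_lit 110) (nat_lit 127)) (PT.lf (nat_lit 1368) (nat_lit 6) (nat_lit 18) (nat_lit 3) (nat_lit 124) (nat_lit 110) (nat_lit 126)))) (PT.nd (nat_lit 156) (PT.nd (nat_lit 78) (PT.lf (nat_lit 1444) (nat_lit 3) (nat_lit 19) (nat_lit 1) (nat_lit 125) (nat_lit 110) (nat_lit 125)) (PT.lf (nat_lit 1368) (nat_lit 6) (nat_lit 18) (nat_lit 1) (nat_lit 126) (nat_lit 110) (nat_lit 124))) (PT.nd (nat_lit 37128) (PT.lf (nat_lit 1292) (nat_lit 6) (nat_lit 17) (nat_lit 1) (nat_lit 127) (nat_lit 110) (nat_lit 123)) (PT.nd (nat_lit 78) (PT.lf (nat_lit 1520) (nat_lit 6) (nat_lit 20) (nat_lit 3) (nat_lit 122) (nat_lit 111) (nat_lit 127)) (PT.lf (nat_lit 1596) (nat_lit 6) (nat_lit 21) (nat_lit 3) (nat_lit 123) (nat_lit 111) (nat_lit 126))))))))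
noncomputable def pc1 : PT := (PT.nd (nat_lit 112398) (PT.nd (nat_lit 37674) (PT.nd (nat_lit 37362) (PT.nd (nat_lit 156) (PT.nd (nat_lit 78) (PT.lf (nat_lit 1672) (nat_lit 6) (nat_lit 22) (nat_lit 3) (nat_lit 124) (nat_lit 111) (nat_lit 125)) (PT.lf (nat_lit 1672) (nat_lit 6) (nat_lit 22) (nat_lit 1) (nat_lit 125) (nat_lit 111) (nat_lit 124))) (PT.nd (nat_lit 78) (PT.lf (nat_lit 1596) (nat_lit 6) (nat_lit 21) (nat_lit 1) (nat_lit 126) (nat_lit 111) (nat_lit 123)) (PT.lf (nat_lit 1520) (nat_lit 6) (nat_lit 20) (nat_lit 1) (nat_lit 127) (nat_lit 111) (nat_lit 122)))) (PT.nd (nat_lit 156) (PT.nd (nat_lit 78) (PT.lf (nat_lit 1748) (nat_lit 6) (nat_lit 23) (nat_lit 3) (nat_lit 122) (nat_lit 112) (nat_lit 126)) (PT.lf (nat_lit 1824) (nat_lit 6) (nat_lit 24) (nat_lit 3) (nat_lit 123) (nat_lit 112) (nat_lit 125))) (PT.nd (nat_lit 78) (PT.lf (nat_lit 1900) (nat_lit 3) (nat_lit 25) (nat_lit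 1) (nat_lit 124) (nat_lit 112) (nat_lit 124)) (PT.lf (nat_lit 1824) (nat_lit 6) (nat_lit 24) (nat_lit 1) (nat_lit 125) (nat_lit 112) (nat_lit 123))))) (PT.nd (nat_lit 37362) (PT.nd (nat_lit 37206) (PT.nd (nat_lit 37128) (PT.lf (nat_lit 1748) (nat_lit 6) (nat_lit 23) (nat_lit 1) (nat_lit 126) (nat_lit 112) (nat_lit 122)) (PT.lf (nat_lit 1976) (nat_lit 6) (nat_lit 26) (nat_lit 3) (nat_lit 121) (nat_lit 113) (nat_lit 126))) (PT.nd (nat_lit 78) (PT.lf (nat_lit 2052) (nat_lit 6) (nat_lit 27) (nat_lit 3) (nat_lit 122) (nat_lit 113) (nat_lit 125)) (PT.lf (nat_lit 2128) (nat_lit 6) (nat_lit 28) (nat_lit 3) (nat_lit 123) (nat_lit 113) (nat_lit 124)))) (PT.nd (nat_lit 156) (PT.nd (nat_lit 78) (PT.lf (nat_lit 2128) (nat_lit 6) (nat_lit 28) (nat_lit 1) (nat_lit 124) (nat_lit 113) (nat_lit 123)) (PT.lf (nat_lit 2052) (nat_lit 6) (nat_lit 27) (nat_lit 1) (nat_lit 125) (nat_lit 113) (nat_lit 122)))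 (PT.nd (nat_lit 37050) (PT.lf (nat_lit 1976) (nat_lit 6) (nat_lit 26) (nat_lit 1) (nat_lit 126) (nat_lit 113) (nat_lit 121)) (PT.nd (nat_lit 78) (PT.lf (nat_lit 2432) (nat_lit 6) (nat_lit 32) (nat_lit 3) (nat_lit 120) (nat_lit 114) (nat_lit 126)) (PT.lf (nat_lit 2508) (nat_lit 6) (nat_lit 33) (nat_lit 3) (nat_lit 121) (nat_lit 114) (nat_lit 125))))))) (PT.nd (nat_lit 37518) (PT.nd (nat_lit 312) (PT.nd (nat_lit 156) (PT.nd (nat_lit 78) (PT.lf (nat_lit 2584) (nat_lit 6) (nat_lit 34) (nat_lit 3) (nat_lit 122) (nat_lit 114) (nat_lit 124)) (PT.lf (nat_lit 2660) (nat_lit 3) (nat_lit 35) (nat_lit 1) (nat_lit 123) (nat_lit 114) (nat_lit 123))) (PT.nd (nat_lit 78) (PT.lf (nat_lit 2584) (nat_lit 6) (nat_lit 34) (nat_lit 1) (nat_lit 124) (nat_lit 114) (nat_lit 122)) (PT.lf (nat_lit 2508) (nat_lit 6) (nat_lit 33) (nat_lit 1) (nat_lit 125) (nat_lit 114) (nat_lit 121)))) (PT.nd (nat_lit 37050)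 (PT.nd (nat_lit 36972) (PT.lf (nat_lit 2432) (nat_lit 6) (nat_lit 32) (nat_lit 1) (nat_lit 126) (nat_lit 114) (nat_lit 120)) (PT.lf (nat_lit 2356) (nat_lit 6) (nat_lit 31) (nat_lit 3) (nat_lit 119) (nat_lit 115) (nat_lit 126))) (PT.nd (nat_lit 78) (PT.lf (nat_lit 2888) (nat_lit 6) (nat_lit 38) (nat_lit 3) (nat_lit 120) (nat_lit 115) (nat_lit 125)) (PT.lf (nat_lit 2964) (nat_lit 6) (nat_lit 39) (nat_lit 3) (nat_lit 121) (nat_lit 115) (nat_lit 124))))) (PT.nd (nat_lit 312) (PT.nd (nat_lit 156) (PT.nd (nat_lit 78) (PT.lf (nat_lit 3040) (nat_lit 6) (nat_lit 40) (nat_lit 3) (nat_lit 122) (nat_lit 115) (nat_lit 123)) (PT.lf (nat_lit 3040) (nat_lit 6) (nat_lit 40) (nat_lit 1) (nat_lit 123) (nat_lit 115) (nat_lit 122))) (PT.nd (nat_lit 78) (PT.lf (nat_lit 2964) (nat_lit 6) (nat_lit 39) (nat_lit 1) (nat_lit 124) (nat_lit 115) (nat_lit 121)) (PT.lf (nat_lit 2888) (nat_lit 6) (nat_lit 38) (nat_lit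 1) (nat_lit 125) (nat_lit 115) (nat_lit 120)))) (PT.nd (nat_lit 36972) (PT.nd (nat_lit 36894) (PT.lf (nat_lit 2356) (nat_lit 6) (nat_lit 31) (nat_lit 1) (nat_lit 126) (nat_lit 115) (nat_lit 119)) (PT.lf (nat_lit 2280) (nat_lit 6) (nat_lit 30) (nat_lit 3) (nat_lit 118) (nat_lit 116) (nat_lit 126))) (PT.nd (nat_lit 78) (PT.lf (nat_lit 2812) (nat_lit 6) (nat_lit 37) (nat_lit 3) (nat_lit 119) (nat_lit 116) (nat_lit 125)) (PT.nd (nat_lit 78) (PT.lf (nat_lit 3268) (nat_lit 6) (nat_lit 43) (nat_lit 3) (nat_lit 120) (nat_lit 116) (nat_lit 124)) (PT.lf (nat_lit 3344) (nat_lit 6) (nat_lit 44) (nat_lit 3) (nat_lit 121) (nat_lit 116) (nat_lit 123))))))))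
noncomputable def pc2 : PT := (PT.nd (nat_lit 74724) (PT.nd (nat_lit 37362) (PT.nd (nat_lit 312) (PT.nd (nat_lit 156) (PT.nd (nat_lit 78) (PT.lf (nat_lit 3420) (nat_lit 3) (nat_lit 45) (nat_lit 1) (nat_lit 122) (nat_lit 116) (nat_lit 122)) (PT.lf (nat_lit 3344) (nat_lit 6) (nat_lit 44) (nat_lit 1) (nat_lit 123) (nat_lit 116) (nat_lit 121))) (PT.nd (nat_lit 78) (PT.lf (nat_lit 3268) (nat_lit 6) (nat_lit 43) (nat_lit 1) (nat_lit 124) (nat_lit 116) (nat_lit 120)) (PT.lf (nat_lit 2812) (nat_lit 6) (nat_lit 37) (nat_lit 1) (nat_lit 125) (nat_lit 116) (nat_lit 119)))) (PT.nd (nat_lit 36894) (PT.nd (nat_lit 36816) (PT.lf (nat_lit 2280) (nat_lit 6) (nat_lit 30) (nat_lit 1) (nat_lit 126) (nat_lit 116) (nat_lit 118)) (PT.lf (nat_lit 2204) (nat_lit 3) (nat_lit 29) (nat_lit 3) (nat_lit 117) (nat_lit 117) (nat_lit 126))) (PT.nd (nat_lit 78) (PT.lf (nat_lit 2736) (nat_lit 6) (nat_lit 36) (nat_lit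 3) (nat_lit 118) (nat_lit 117) (nat_lit 125)) (PT.lf (nat_lit 3192) (nat_lit 6) (nat_lit 42) (nat_lit 3) (nat_lit 119) (nat_lit 117) (nat_lit 124))))) (PT.nd (nat_lit 312) (PT.nd (nat_lit 156) (PT.nd (nat_lit 78) (PT.lf (nat_lit 3572) (nat_lit 6) (nat_lit 47) (nat_lit 3) (nat_lit 120) (nat_lit 117) (nat_lit 123)) (PT.lf (nat_lit 3648) (nat_lit 6) (nat_lit 48) (nat_lit 3) (nat_lit 121) (nat_lit 117) (nat_lit 122))) (PT.nd (nat_lit 78) (PT.lf (nat_lit 3648) (nat_lit 6) (nat_lit 48) (nat_lit 1) (nat_lit 122) (nat_lit 117) (nat_lit 121)) (PT.lf (nat_lit 3572) (nat_lit 6) (nat_lit 47) (nat_lit 1) (nat_lit 123) (nat_lit 117) (nat_lit 120)))) (PT.nd (nat_lit 156) (PT.nd (nat_lit 78) (PT.lf (nat_lit 3192) (nat_lit 6) (nat_lit 42) (nat_lit 1) (nat_lit 124) (nat_lit 117) (nat_lit 119)) (PT.lf (nat_lit 2736) (nat_lit 6) (nat_lit 36) (nat_lit 1) (nat_lit 125) (nat_lit 117) (nat_lit 118))) (PT.nd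 (nat_lit 36738) (PT.lf (nat_lit 2204) (nat_lit 3) (nat_lit 29) (nat_lit 0) (nat_lit 126) (nat_lit 117) (nat_lit 117)) (PT.nd (nat_lit 78) (PT.lf (nat_lit 2280) (nat_lit 6) (nat_lit 30) (nat_lit 5) (nat_lit 116) (nat_lit 118) (nat_lit 126)) (PT.lf (nat_lit 2736) (nat_lit 6) (nat_lit 36) (nat_lit 5) (nat_lit 117) (nat_lit 118) (nat_lit 125))))))) (PT.nd (nat_lit 624) (PT.nd (nat_lit 312) (PT.nd (nat_lit 156) (PT.nd (nat_lit 78) (PT.lf (nat_lit 3116) (nat_lit 3) (nat_lit 41) (nat_lit 3) (nat_lit 118) (nat_lit 118) (nat_lit 124)) (PT.lf (nat_lit 3496) (nat_lit 6) (nat_lit 46) (nat_lit 3) (nat_lit 119) (nat_lit 118) (nat_lit 123))) (PT.nd (nat_lit 78) (PT.lf (nat_lit 3800) (nat_lit 6) (nat_lit 50) (nat_lit 3) (nat_lit 120) (nat_lit 118) (nat_lit 122)) (PT.lf (nat_lit 3876) (nat_lit 3) (nat_lit 51) (nat_lit 1) (nat_lit 121) (nat_lit 118) (nat_lit 121)))) (PT.nd (nat_lit 156) (PT.nd (nat_lit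 78) (PT.lf (nat_lit 3800) (nat_lit 6) (nat_lit 50) (nat_lit 1) (nat_lit 122) (nat_lit 118) (nat_lit 120)) (PT.lf (nat_lit 3496) (nat_lit 6) (nat_lit 46) (nat_lit 1) (nat_lit 123) (nat_lit 118) (nat_lit 119))) (PT.nd (nat_lit 78) (PT.lf (nat_lit 3116) (nat_lit 3) (nat_lit 41) (nat_lit 0) (nat_lit 124) (nat_lit 118) (nat_lit 118)) (PT.lf (nat_lit 2736) (nat_lit 6) (nat_lit 36) (nat_lit 0) (nat_lit 125) (nat_lit 118) (nat_lit 117))))) (PT.nd (nat_lit 36894) (PT.nd (nat_lit 36738) (PT.nd (nat_lit 36660) (PT.lf (nat_lit 2280) (nat_lit 6) (nat_lit 30) (nat_lit 0) (nat_lit 126) (nat_lit 118) (nat_lit 116)) (PT.lf (nat_lit 2356) (nat_lit 6) (nat_lit 31) (nat_lit 5) (nat_lit 115) (nat_lit 119) (nat_lit 126))) (PT.nd (nat_lit 78) (PT.lf (nat_lit 2812) (nat_lit 6) (nat_lit 37) (nat_lit 5) (nat_lit 116) (nat_lit 119) (nat_lit 125)) (PT.lf (nat_lit 3192) (nat_lit 6) (nat_lit 42) (nat_lit 5) (nat_lit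 117) (nat_lit 119) (nat_lit 124)))) (PT.nd (nat_lit 156) (PT.nd (nat_lit 78) (PT.lf (nat_lit 3496) (nat_lit 6) (nat_lit 46) (nat_lit 5) (nat_lit 118) (nat_lit 119) (nat_lit 123)) (PT.lf (nat_lit 3724) (nat_lit 3) (nat_lit 49) (nat_lit 3) (nat_lit 119) (nat_lit 119) (nat_lit 122))) (PT.nd (nat_lit 78) (PT.lf (nat_lit 3952) (nat_lit 6) (nat_lit 52) (nat_lit 3) (nat_lit 120) (nat_lit 119) (nat_lit 121)) (PT.nd (nat_lit 78) (PT.lf (nat_lit 3952) (nat_lit 6) (nat_lit 52) (nat_lit 1) (nat_lit 121) (nat_lit 119) (nat_lit 120)) (PT.lf (nat_lit 3724) (nat_lit 3) (nat_lit 49) (nat_lit 0) (nat_lit 122) (nat_lit 119) (nat_lit 119))))))))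
noncomputable def pc3 : PT := (PT.nd (nat_lit 74256) (PT.nd (nat_lit 37128) (PT.nd (nat_lit 36816) (PT.nd (nat_lit 156) (PT.nd (nat_lit 78) (PT.lf (nat_lit 3496) (nat_lit 6) (nat_lit 46) (nat_lit 0) (nat_lit 123) (nat_lit 119) (nat_lit 118)) (PT.lf (nat_lit 3192) (nat_lit 6) (nat_lit 42) (nat_lit 0) (nat_lit 124) (nat_lit 119) (nat_lit 117))) (PT.nd (nat_lit 78) (PT.lf (nat_lit 2812) (nat_lit 6) (nat_lit 37) (nat_lit 0) (nat_lit 125) (nat_lit 119) (nat_lit 116)) (PT.lf (nat_lit 2356) (nat_lit 6) (nat_lit 31) (nat_lit 0) (nat_lit 126) (nat_lit 119) (nat_lit 115)))) (PT.nd (nat_lit 156) (PT.nd (nat_lit 78) (PT.lf (nat_lit 2432) (nat_lit 6) (nat_lit 32) (nat_lit 5) (nat_lit 114) (nat_lit 120) (nat_lit 126)) (PT.lf (nat_lit 2888) (nat_lit 6) (nat_lit 38) (nat_lit 5) (nat_lit 115) (nat_lit 120) (nat_lit 125))) (PT.nd (nat_lit 78) (PT.lf (nat_lit 3268) (nat_lit 6) (nat_lit 43) (nat_lit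 5) (nat_lit 116) (nat_lit 120) (nat_lit 124)) (PT.lf (nat_lit 3572) (nat_lit 6) (nat_lit 47) (nat_lit 5) (nat_lit 117) (nat_lit 120) (nat_lit 123))))) (PT.nd (nat_lit 312) (PT.nd (nat_lit 156) (PT.nd (nat_lit 78) (PT.lf (nat_lit 3800) (nat_lit 6) (nat_lit 50) (nat_lit 5) (nat_lit 118) (nat_lit 120) (nat_lit 122)) (PT.lf (nat_lit 3952) (nat_lit 6) (nat_lit 52) (nat_lit 5) (nat_lit 119) (nat_lit 120) (nat_lit 121))) (PT.nd (nat_lit 78) (PT.lf (nat_lit 4028) (nat_lit 1) (nat_lit 53) (nat_lit 0) (nat_lit 120) (nat_lit 120) (nat_lit 120)) (PT.lf (nat_lit 3952) (nat_lit 6) (nat_lit 52) (nat_lit 0) (nat_lit 121) (nat_lit 120) (nat_lit 119)))) (PT.nd (nat_lit 156) (PT.nd (nat_lit 78) (PT.lf (nat_lit 3800) (nat_lit 6) (nat_lit 50) (nat_lit 0) (nat_lit 122) (nat_lit 120) (nat_lit 118)) (PT.lf (nat_lit 3572) (nat_lit 6) (nat_lit 47) (nat_lit 0) (nat_lit 123) (nat_lit 120) (nat_lit 117))) (PT.nd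 (nat_lit 78) (PT.lf (nat_lit 3268) (nat_lit 6) (nat_lit 43) (nat_lit 0) (nat_lit 124) (nat_lit 120) (nat_lit 116)) (PT.nd (nat_lit 78) (PT.lf (nat_lit 2888) (nat_lit 6) (nat_lit 38) (nat_lit 0) (nat_lit 125) (nat_lit 120) (nat_lit 115)) (PT.lf (nat_lit 2432) (nat_lit 6) (nat_lit 32) (nat_lit 0) (nat_lit 126) (nat_lit 120) (nat_lit 114))))))) (PT.nd (nat_lit 702) (PT.nd (nat_lit 312) (PT.nd (nat_lit 156) (PT.nd (nat_lit 78) (PT.lf (nat_lit 1976) (nat_lit 6) (nat_lit 26) (nat_lit 5) (nat_lit 113) (nat_lit 121) (nat_lit 126)) (PT.lf (nat_lit 2508) (nat_lit 6) (nat_lit 33) (nat_lit 5) (nat_lit 114) (nat_lit 121) (nat_lit 125))) (PT.nd (nat_lit 78) (PT.lf (nat_lit 2964) (nat_lit 6) (nat_lit 39) (nat_lit 5) (nat_lit 115) (nat_lit 121) (nat_lit 124)) (PT.lf (nat_lit 3344) (nat_lit 6) (nat_lit 44) (nat_lit 5) (nat_lit 116) (nat_lit 121) (nat_lit 123)))) (PT.nd (nat_lit 156) (PT.nd (nat_lit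 78) (PT.lf (nat_lit 3648) (nat_lit 6) (nat_lit 48) (nat_lit 5) (nat_lit 117) (nat_lit 121) (nat_lit 122)) (PT.lf (nat_lit 3876) (nat_lit 3) (nat_lit 51) (nat_lit 4) (nat_lit 118) (nat_lit 121) (nat_lit 121))) (PT.nd (nat_lit 78) (PT.lf (nat_lit 3952) (nat_lit 6) (nat_lit 52) (nat_lit 4) (nat_lit 119) (nat_lit 121) (nat_lit 120)) (PT.nd (nat_lit 78) (PT.lf (nat_lit 3952) (nat_lit 6) (nat_lit 52) (nat_lit 2) (nat_lit 120) (nat_lit 121) (nat_lit 119)) (PT.lf (nat_lit 3876) (nat_lit 3) (nat_lit 51) (nat_lit 0) (nat_lit 121) (nat_lit 121) (nat_lit 118)))))) (PT.nd (nat_lit 312) (PT.nd (nat_lit 156) (PT.nd (nat_lit 78) (PT.lf (nat_lit 3648) (nat_lit 6) (nat_lit 48) (nat_lit 0) (nat_lit 122) (nat_lit 121) (nat_lit 117)) (PT.lf (nat_lit 3344) (nat_lit 6) (nat_lit 44) (nat_lit 0) (nat_lit 123) (nat_lit 121) (nat_lit 116))) (PT.nd (nat_lit 78) (PT.lf (nat_lit 2964) (nat_lit 6) (nat_lit 39)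 (nat_lit 0) (nat_lit 124) (nat_lit 121) (nat_lit 115)) (PT.lf (nat_lit 2508) (nat_lit 6) (nat_lit 33) (nat_lit 0) (nat_lit 125) (nat_lit 121) (nat_lit 114)))) (PT.nd (nat_lit 36426) (PT.nd (nat_lit 36348) (PT.lf (nat_lit 1976) (nat_lit 6) (nat_lit 26) (nat_lit 0) (nat_lit 126) (nat_lit 121) (nat_lit 113)) (PT.lf (nat_lit 1520) (nat_lit 6) (nat_lit 20) (nat_lit 5) (nat_lit 111) (nat_lit 122) (nat_lit 127))) (PT.nd (nat_lit 78) (PT.lf (nat_lit 1748) (nat_lit 6) (nat_lit 23) (nat_lit 5) (nat_lit 112) (nat_lit 122) (nat_lit 126)) (PT.nd (nat_lit 78) (PT.lf (nat_lit 2052) (nat_lit 6) (nat_lit 27) (nat_lit 5) (nat_lit 113) (nat_lit 122) (nat_lit 125)) (PT.lf (nat_lit 2584) (nat_lit 6) (nat_lit 34) (nat_lit 5) (nat_lit 114) (nat_lit 122) (nat_lit 124))))))))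
noncomputable def pc4 : PT := (PT.nd (nat_lit 37440) (PT.nd (nat_lit 624) (PT.nd (nat_lit 312) (PT.nd (nat_lit 156) (PT.nd (nat_lit 78) (PT.lf (nat_lit 3040) (nat_lit 6) (nat_lit 40) (nat_lit 5) (nat_lit 115) (nat_lit 122) (nat_lit 123)) (PT.lf (nat_lit 3420) (nat_lit 3) (nat_lit 45) (nat_lit 4) (nat_lit 116) (nat_lit 122) (nat_lit 122))) (PT.nd (nat_lit 78) (PT.lf (nat_lit 3648) (nat_lit 6) (nat_lit 48) (nat_lit 4) (nat_lit 117) (nat_lit 122) (nat_lit 121)) (PT.lf (nat_lit 3800) (nat_lit 6) (nat_lit 50) (nat_lit 4) (nat_lit 118) (nat_lit 122) (nat_lit 120)))) (PT.nd (nat_lit 156) (PT.nd (nat_lit 78) (PT.lf (nat_lit 3724) (nat_lit 3) (nat_lit 49) (nat_lit 2) (nat_lit 119) (nat_lit 122) (nat_lit 119)) (PT.lf (nat_lit 3800) (nat_lit 6) (nat_lit 50) (nat_lit 2) (nat_lit 120) (nat_lit 122) (nat_lit 118))) (PT.nd (nat_lit 78) (PT.lf (nat_lit 3648) (nat_lit 6) (nat_lit 48) (nat_lit 2) (nat_lit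 121) (nat_lit 122) (nat_lit 117)) (PT.lf (nat_lit 3420) (nat_lit 3) (nat_lit 45) (nat_lit 0) (nat_lit 122) (nat_lit 122) (nat_lit 116))))) (PT.nd (nat_lit 312) (PT.nd (nat_lit 156) (PT.nd (nat_lit 78) (PT.lf (nat_lit 3040) (nat_lit 6) (nat_lit 40) (nat_lit 0) (nat_lit 123) (nat_lit 122) (nat_lit 115)) (PT.lf (nat_lit 2584) (nat_lit 6) (nat_lit 34) (nat_lit 0) (nat_lit 124) (nat_lit 122) (nat_lit 114))) (PT.nd (nat_lit 78) (PT.lf (nat_lit 2052) (nat_lit 6) (nat_lit 27) (nat_lit 0) (nat_lit 125) (nat_lit 122) (nat_lit 113)) (PT.lf (nat_lit 1748) (nat_lit 6) (nat_lit 23) (nat_lit 0) (nat_lit 126) (nat_lit 122) (nat_lit 112)))) (PT.nd (nat_lit 36270) (PT.nd (nat_lit 36192) (PT.lf (nat_lit 1520) (nat_lit 6) (nat_lit 20) (nat_lit 0) (nat_lit 127) (nat_lit 122) (nat_lit 111)) (PT.lf (nat_lit 1292) (nat_lit 6) (nat_lit 17) (nat_lit 5) (nat_lit 110) (nat_lit 123) (nat_lit 127))) (PT.nd (nat_lit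 78) (PT.lf (nat_lit 1596) (nat_lit 6) (nat_lit 21) (nat_lit 5) (nat_lit 111) (nat_lit 123) (nat_lit 126)) (PT.nd (nat_lit 78) (PT.lf (nat_lit 1824) (nat_lit 6) (nat_lit 24) (nat_lit 5) (nat_lit 112) (nat_lit 123) (nat_lit 125)) (PT.lf (nat_lit 2128) (nat_lit 6) (nat_lit 28) (nat_lit 5) (nat_lit 113) (nat_lit 123) (nat_lit 124))))))) (PT.nd (nat_lit 624) (PT.nd (nat_lit 312) (PT.nd (nat_lit 156) (PT.nd (nat_lit 78) (PT.lf (nat_lit 2660) (nat_lit 3) (nat_lit 35) (nat_lit 4) (nat_lit 114) (nat_lit 123) (nat_lit 123)) (PT.lf (nat_lit 3040) (nat_lit 6) (nat_lit 40) (nat_lit 4) (nat_lit 115) (nat_lit 123) (nat_lit 122))) (PT.nd (nat_lit 78) (PT.lf (nat_lit 3344) (nat_lit 6) (nat_lit 44) (nat_lit 4) (nat_lit 116) (nat_lit 123) (nat_lit 121)) (PT.lf (nat_lit 3572) (nat_lit 6) (nat_lit 47) (nat_lit 4) (nat_lit 117) (nat_lit 123) (nat_lit 120)))) (PT.nd (nat_lit 156) (PT.nd (nat_lit 78) (PT.lf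 (nat_lit 3496) (nat_lit 6) (nat_lit 46) (nat_lit 4) (nat_lit 118) (nat_lit 123) (nat_lit 119)) (PT.lf (nat_lit 3496) (nat_lit 6) (nat_lit 46) (nat_lit 2) (nat_lit 119) (nat_lit 123) (nat_lit 118))) (PT.nd (nat_lit 78) (PT.lf (nat_lit 3572) (nat_lit 6) (nat_lit 47) (nat_lit 2) (nat_lit 120) (nat_lit 123) (nat_lit 117)) (PT.lf (nat_lit 3344) (nat_lit 6) (nat_lit 44) (nat_lit 2) (nat_lit 121) (nat_lit 123) (nat_lit 116))))) (PT.nd (nat_lit 312) (PT.nd (nat_lit 156) (PT.nd (nat_lit 78) (PT.lf (nat_lit 3040) (nat_lit 6) (nat_lit 40) (nat_lit 2) (nat_lit 122) (nat_lit 123) (nat_lit 115)) (PT.lf (nat_lit 2660) (nat_lit 3) (nat_lit 35) (nat_lit 0) (nat_lit 123) (nat_lit 123) (nat_lit 114))) (PT.nd (nat_lit 78) (PT.lf (nat_lit 2128) (nat_lit 6) (nat_lit 28) (nat_lit 0) (nat_lit 124) (nat_lit 123) (nat_lit 113)) (PT.lf (nat_lit 1824) (nat_lit 6) (nat_lit 24) (nat_lit 0) (nat_lit 125) (nat_lit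 123) (nat_lit 112)))) (PT.nd (nat_lit 36192) (PT.nd (nat_lit 78) (PT.lf (nat_lit 1596) (nat_lit 6) (nat_lit 21) (nat_lit 0) (nat_lit 126) (nat_lit 123) (nat_lit 111)) (PT.lf (nat_lit 1292) (nat_lit 6) (nat_lit 17) (nat_lit 0) (nat_lit 127) (nat_lit 123) (nat_lit 110))) (PT.nd (nat_lit 78) (PT.lf (nat_lit 1140) (nat_lit 6) (nat_lit 15) (nat_lit 5) (nat_lit 109) (nat_lit 124) (nat_lit 127)) (PT.nd (nat_lit 78) (PT.lf (nat_lit 1368) (nat_lit 6) (nat_lit 18) (nat_lit 5) (nat_lit 110) (nat_lit 124) (nat_lit 126)) (PT.lf (nat_lit 1672) (nat_lit 6) (nat_lit 22) (nat_lit 5) (nat_lit 111) (nat_lit 124) (nat_lit 125))))))))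
noncomputable def pc5 : PT := (PT.nd (nat_lit 37206) (PT.nd (nat_lit 624) (PT.nd (nat_lit 312) (PT.nd (nat_lit 156) (PT.nd (nat_lit 78) (PT.lf (nat_lit 1900) (nat_lit 3) (nat_lit 25) (nat_lit 4) (nat_lit 112) (nat_lit 124) (nat_lit 124)) (PT.lf (nat_lit 2128) (nat_lit 6) (nat_lit 28) (nat_lit 4) (nat_lit 113) (nat_lit 124) (nat_lit 123))) (PT.nd (nat_lit 78) (PT.lf (nat_lit 2584) (nat_lit 6) (nat_lit 34) (nat_lit 4) (nat_lit 114) (nat_lit 124) (nat_lit 122)) (PT.lf (nat_lit 2964) (nat_lit 6) (nat_lit 39) (nat_lit 4) (nat_lit 115) (nat_lit 124) (nat_lit 121)))) (PT.nd (nat_lit 156) (PT.nd (nat_lit 78) (PT.lf (nat_lit 3268) (nat_lit 6) (nat_lit 43) (nat_lit 4) (nat_lit 116) (nat_lit 124) (nat_lit 120)) (PT.lf (nat_lit 3192) (nat_lit 6) (nat_lit 42) (nat_lit 4) (nat_lit 117) (nat_lit 124) (nat_lit 119))) (PT.nd (nat_lit 78) (PT.lf (nat_lit 3116) (nat_lit 3) (nat_lit 41) (nat_lit 2) (nat_lit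 118) (nat_lit 124) (nat_lit 118)) (PT.lf (nat_lit 3192) (nat_lit 6) (nat_lit 42) (nat_lit 2) (nat_lit 119) (nat_lit 124) (nat_lit 117))))) (PT.nd (nat_lit 312) (PT.nd (nat_lit 156) (PT.nd (nat_lit 78) (PT.lf (nat_lit 3268) (nat_lit 6) (nat_lit 43) (nat_lit 2) (nat_lit 120) (nat_lit 124) (nat_lit 116)) (PT.lf (nat_lit 2964) (nat_lit 6) (nat_lit 39) (nat_lit 2) (nat_lit 121) (nat_lit 124) (nat_lit 115))) (PT.nd (nat_lit 78) (PT.lf (nat_lit 2584) (nat_lit 6) (nat_lit 34) (nat_lit 2) (nat_lit 122) (nat_lit 124) (nat_lit 114)) (PT.lf (nat_lit 2128) (nat_lit 6) (nat_lit 28) (nat_lit 2) (nat_lit 123) (nat_lit 124) (nat_lit 113)))) (PT.nd (nat_lit 156) (PT.nd (nat_lit 78) (PT.lf (nat_lit 1900) (nat_lit 3) (nat_lit 25) (nat_lit 0) (nat_lit 124) (nat_lit 124) (nat_lit 112)) (PT.lf (nat_lit 1672) (nat_lit 6) (nat_lit 22) (nat_lit 0) (nat_lit 125) (nat_lit 124) (nat_lit 111))) (PT.nd (nat_lit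 78) (PT.lf (nat_lit 1368) (nat_lit 6) (nat_lit 18) (nat_lit 0) (nat_lit 126) (nat_lit 124) (nat_lit 110)) (PT.nd (nat_lit 35958) (PT.lf (nat_lit 1140) (nat_lit 6) (nat_lit 15) (nat_lit 0) (nat_lit 127) (nat_lit 124) (nat_lit 109)) (PT.lf (nat_lit 836) (nat_lit 6) (nat_lit 11) (nat_lit 5) (nat_lit 107) (nat_lit 125) (nat_lit 128))))))) (PT.nd (nat_lit 624) (PT.nd (nat_lit 312) (PT.nd (nat_lit 156) (PT.nd (nat_lit 78) (PT.lf (nat_lit 988) (nat_lit 6) (nat_lit 13) (nat_lit 5) (nat_lit 108) (nat_lit 125) (nat_lit 127)) (PT.lf (nat_lit 1216) (nat_lit 6) (nat_lit 16) (nat_lit 5) (nat_lit 109) (nat_lit 125) (nat_lit 126))) (PT.nd (nat_lit 78) (PT.lf (nat_lit 1444) (nat_lit 3) (nat_lit 19) (nat_lit 4) (nat_lit 110) (nat_lit 125) (nat_lit 125)) (PT.lf (nat_lit 1672) (nat_lit 6) (nat_lit 22) (nat_lit 4) (nat_lit 111) (nat_lit 125) (nat_lit 124)))) (PT.nd (nat_lit 156) (PT.nd (nat_lit 78) (PT.lf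 (nat_lit 1824) (nat_lit 6) (nat_lit 24) (nat_lit 4) (nat_lit 112) (nat_lit 125) (nat_lit 123)) (PT.lf (nat_lit 2052) (nat_lit 6) (nat_lit 27) (nat_lit 4) (nat_lit 113) (nat_lit 125) (nat_lit 122))) (PT.nd (nat_lit 78) (PT.lf (nat_lit 2508) (nat_lit 6) (nat_lit 33) (nat_lit 4) (nat_lit 114) (nat_lit 125) (nat_lit 121)) (PT.lf (nat_lit 2888) (nat_lit 6) (nat_lit 38) (nat_lit 4) (nat_lit 115) (nat_lit 125) (nat_lit 120))))) (PT.nd (nat_lit 312) (PT.nd (nat_lit 156) (PT.nd (nat_lit 78) (PT.lf (nat_lit 2812) (nat_lit 6) (nat_lit 37) (nat_lit 4) (nat_lit 116) (nat_lit 125) (nat_lit 119)) (PT.lf (nat_lit 2736) (nat_lit 6) (nat_lit 36) (nat_lit 4) (nat_lit 117) (nat_lit 125) (nat_lit 118))) (PT.nd (nat_lit 78) (PT.lf (nat_lit 2736) (nat_lit 6) (nat_lit 36) (nat_lit 2) (nat_lit 118) (nat_lit 125) (nat_lit 117)) (PT.lf (nat_lit 2812) (nat_lit 6) (nat_lit 37) (nat_lit 2) (nat_lit 119) (nat_lit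 125) (nat_lit 116)))) (PT.nd (nat_lit 156) (PT.nd (nat_lit 78) (PT.lf (nat_lit 2888) (nat_lit 6) (nat_lit 38) (nat_lit 2) (nat_lit 120) (nat_lit 125) (nat_lit 115)) (PT.lf (nat_lit 2508) (nat_lit 6) (nat_lit 33) (nat_lit 2) (nat_lit 121) (nat_lit 125) (nat_lit 114))) (PT.nd (nat_lit 78) (PT.lf (nat_lit 2052) (nat_lit 6) (nat_lit 27) (nat_lit 2) (nat_lit 122) (nat_lit 125) (nat_lit 113)) (PT.nd (nat_lit 78) (PT.lf (nat_lit 1824) (nat_lit 6) (nat_lit 24) (nat_lit 2) (nat_lit 123) (nat_lit 125) (nat_lit 112)) (PT.lf (nat_lit 1672) (nat_lit 6) (nat_lit 22) (nat_lit 2) (nat_lit 124) (nat_lit 125) (nat_lit 111))))))))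
noncomputable def pc6 : PT := (PT.nd (nat_lit 37050) (PT.nd (nat_lit 36348) (PT.nd (nat_lit 36036) (PT.nd (nat_lit 156) (PT.nd (nat_lit 78) (PT.lf (nat_lit 1444) (nat_lit 3) (nat_lit 19) (nat_lit 0) (nat_lit 125) (nat_lit 125) (nat_lit 110)) (PT.lf (nat_lit 1216) (nat_lit 6) (nat_lit 16) (nat_lit 0) (nat_lit 126) (nat_lit 125) (nat_lit 109))) (PT.nd (nat_lit 78) (PT.lf (nat_lit 988) (nat_lit 6) (nat_lit 13) (nat_lit 0) (nat_lit 127) (nat_lit 125) (nat_lit 108)) (PT.lf (nat_lit 836) (nat_lit 6) (nat_lit 11) (nat_lit 0) (nat_lit 128) (nat_lit 125) (nat_lit 107)))) (PT.nd (nat_lit 156) (PT.nd (nat_lit 78) (PT.lf (nat_lit 684) (nat_lit 6) (nat_lit 9) (nat_lit 5) (nat_lit 106) (nat_lit 126) (nat_lit 128)) (PT.lf (nat_lit 912) (nat_lit 6) (nat_lit 12) (nat_lit 5) (nat_lit 107) (nat_lit 126) (nat_lit 127))) (PT.nd (nat_lit 78) (PT.lf (nat_lit 1064) (nat_lit 3) (nat_lit 14) (nat_lit 4) (nat_lit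 108) (nat_lit 126) (nat_lit 126)) (PT.lf (nat_lit 1216) (nat_lit 6) (nat_lit 16) (nat_lit 4) (nat_lit 109) (nat_lit 126) (nat_lit 125))))) (PT.nd (nat_lit 312) (PT.nd (nat_lit 156) (PT.nd (nat_lit 78) (PT.lf (nat_lit 1368) (nat_lit 6) (nat_lit 18) (nat_lit 4) (nat_lit 110) (nat_lit 126) (nat_lit 124)) (PT.lf (nat_lit 1596) (nat_lit 6) (nat_lit 21) (nat_lit 4) (nat_lit 111) (nat_lit 126) (nat_lit 123))) (PT.nd (nat_lit 78) (PT.lf (nat_lit 1748) (nat_lit 6) (nat_lit 23) (nat_lit 4) (nat_lit 112) (nat_lit 126) (nat_lit 122)) (PT.lf (nat_lit 1976) (nat_lit 6) (nat_lit 26) (nat_lit 4) (nat_lit 113) (nat_lit 126) (nat_lit 121)))) (PT.nd (nat_lit 156) (PT.nd (nat_lit 78) (PT.lf (nat_lit 2432) (nat_lit 6) (nat_lit 32) (nat_lit 4) (nat_lit 114) (nat_lit 126) (nat_lit 120)) (PT.lf (nat_lit 2356) (nat_lit 6) (nat_lit 31) (nat_lit 4) (nat_lit 115) (nat_lit 126) (nat_lit 119))) (PT.nd (nat_lit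 78) (PT.lf (nat_lit 2280) (nat_lit 6) (nat_lit 30) (nat_lit 4) (nat_lit 116) (nat_lit 126) (nat_lit 118)) (PT.nd (nat_lit 78) (PT.lf (nat_lit 2204) (nat_lit 3) (nat_lit 29) (nat_lit 2) (nat_lit 117) (nat_lit 126) (nat_lit 117)) (PT.lf (nat_lit 2280) (nat_lit 6) (nat_lit 30) (nat_lit 2) (nat_lit 118) (nat_lit 126) (nat_lit 116))))))) (PT.nd (nat_lit 624) (PT.nd (nat_lit 312) (PT.nd (nat_lit 156) (PT.nd (nat_lit 78) (PT.lf (nat_lit 2356) (nat_lit 6) (nat_lit 31) (nat_lit 2) (nat_lit 119) (nat_lit 126) (nat_lit 115)) (PT.lf (nat_lit 2432) (nat_lit 6) (nat_lit 32) (nat_lit 2) (nat_lit 120) (nat_lit 126) (nat_lit 114))) (PT.nd (nat_lit 78) (PT.lf (nat_lit 1976) (nat_lit 6) (nat_lit 26) (nat_lit 2) (nat_lit 121) (nat_lit 126) (nat_lit 113)) (PT.lf (nat_lit 1748) (nat_lit 6) (nat_lit 23) (nat_lit 2) (nat_lit 122) (nat_lit 126) (nat_lit 112)))) (PT.nd (nat_lit 156) (PT.nd (nat_lit 78) (PT.lf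 (nat_lit 1596) (nat_lit 6) (nat_lit 21) (nat_lit 2) (nat_lit 123) (nat_lit 126) (nat_lit 111)) (PT.lf (nat_lit 1368) (nat_lit 6) (nat_lit 18) (nat_lit 2) (nat_lit 124) (nat_lit 126) (nat_lit 110))) (PT.nd (nat_lit 78) (PT.lf (nat_lit 1216) (nat_lit 6) (nat_lit 16) (nat_lit 2) (nat_lit 125) (nat_lit 126) (nat_lit 109)) (PT.lf (nat_lit 1064) (nat_lit 3) (nat_lit 14) (nat_lit 0) (nat_lit 126) (nat_lit 126) (nat_lit 108))))) (PT.nd (nat_lit 35880) (PT.nd (nat_lit 35724) (PT.nd (nat_lit 78) (PT.lf (nat_lit 912) (nat_lit 6) (nat_lit 12) (nat_lit 0) (nat_lit 127) (nat_lit 126) (nat_lit 107)) (PT.lf (nat_lit 684) (nat_lit 6) (nat_lit 9) (nat_lit 0) (nat_lit 128) (nat_lit 126) (nat_lit 106))) (PT.nd (nat_lit 78) (PT.lf (nat_lit 456) (nat_lit 6) (nat_lit 6) (nat_lit 5) (nat_lit 104) (nat_lit 127) (nat_lit 129)) (PT.lf (nat_lit 608) (nat_lit 6) (nat_lit 8) (nat_lit 5) (nat_lit 105) (nat_lit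 127) (nat_lit 128)))) (PT.nd (nat_lit 156) (PT.nd (nat_lit 78) (PT.lf (nat_lit 760) (nat_lit 3) (nat_lit 10) (nat_lit 4) (nat_lit 106) (nat_lit 127) (nat_lit 127)) (PT.lf (nat_lit 912) (nat_lit 6) (nat_lit 12) (nat_lit 4) (nat_lit 107) (nat_lit 127) (nat_lit 126))) (PT.nd (nat_lit 78) (PT.lf (nat_lit 988) (nat_lit 6) (nat_lit 13) (nat_lit 4) (nat_lit 108) (nat_lit 127) (nat_lit 125)) (PT.nd (nat_lit 78) (PT.lf (nat_lit 1140) (nat_lit 6) (nat_lit 15) (nat_lit 4) (nat_lit 109) (nat_lit 127) (nat_lit 124)) (PT.lf (nat_lit 1292) (nat_lit 6) (nat_lit 17) (nat_lit 4) (nat_lit 110) (nat_lit 127) (nat_lit 123))))))))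
noncomputable def pc7 : PT := (PT.nd (nat_lit 38766) (PT.nd (nat_lit 1404) (PT.nd (nat_lit 1092) (PT.nd (nat_lit 936) (PT.nd (nat_lit 858) (PT.lf (nat_lit 1520) (nat_lit 6) (nat_lit 20) (nat_lit 4) (nat_lit 111) (nat_lit 127) (nat_lit 122)) (PT.lf (nat_lit 1520) (nat_lit 6) (nat_lit 20) (nat_lit 2) (nat_lit 122) (nat_lit 127) (nat_lit 111))) (PT.nd (nat_lit 78) (PT.lf (nat_lit 1292) (nat_lit 6) (nat_lit 17) (nat_lit 2) (nat_lit 123) (nat_lit 127) (nat_lit 110)) (PT.lf (nat_lit 1140) (nat_lit 6) (nat_lit 15) (nat_lit 2) (nat_lit 124) (nat_lit 127) (nat_lit 109)))) (PT.nd (nat_lit 156) (PT.nd (nat_lit 78) (PT.lf (nat_lit 988) (nat_lit 6) (nat_lit 13) (nat_lit 2) (nat_lit 125) (nat_lit 127) (nat_lit 108)) (PT.lf (nat_lit 912) (nat_lit 6) (nat_lit 12) (nat_lit 2) (nat_lit 126) (nat_lit 127) (nat_lit 107))) (PT.nd (nat_lit 78) (PT.lf (nat_lit 760) (nat_lit 3) (nat_lit 10) (nat_lit 0) (nat_lit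 127) (nat_lit 127) (nat_lit 106)) (PT.lf (nat_lit 608) (nat_lit 6) (nat_lit 8) (nat_lit 0) (nat_lit 128) (nat_lit 127) (nat_lit 105))))) (PT.nd (nat_lit 35646) (PT.nd (nat_lit 35490) (PT.nd (nat_lit 35412) (PT.lf (nat_lit 456) (nat_lit 6) (nat_lit 6) (nat_lit 0) (nat_lit 129) (nat_lit 127) (nat_lit 104)) (PT.lf (nat_lit 228) (nat_lit 6) (nat_lit 3) (nat_lit 5) (nat_lit 102) (nat_lit 128) (nat_lit 130))) (PT.nd (nat_lit 78) (PT.lf (nat_lit 380) (nat_lit 6) (nat_lit 5) (nat_lit 5) (nat_lit 103) (nat_lit 128) (nat_lit 129)) (PT.lf (nat_lit 532) (nat_lit 3) (nat_lit 7) (nat_lit 4) (nat_lit 104) (nat_lit 128) (nat_lit 128)))) (PT.nd (nat_lit 156) (PT.nd (nat_lit 78) (PT.lf (nat_lit 608) (nat_lit 6) (nat_lit 8) (nat_lit 4) (nat_lit 105) (nat_lit 128) (nat_lit 127)) (PT.lf (nat_lit 684) (nat_lit 6) (nat_lit 9) (nat_lit 4) (nat_lit 106) (nat_lit 128) (nat_lit 126))) (PT.nd (nat_lit 1404)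 (PT.lf (nat_lit 836) (nat_lit 6) (nat_lit 11) (nat_lit 4) (nat_lit 107) (nat_lit 128) (nat_lit 125)) (PT.nd (nat_lit 78) (PT.lf (nat_lit 836) (nat_lit 6) (nat_lit 11) (nat_lit 2) (nat_lit 125) (nat_lit 128) (nat_lit 107)) (PT.lf (nat_lit 684) (nat_lit 6) (nat_lit 9) (nat_lit 2) (nat_lit 126) (nat_lit 128) (nat_lit 106))))))) (PT.nd (nat_lit 37596) (PT.nd (nat_lit 35490) (PT.nd (nat_lit 156) (PT.nd (nat_lit 78) (PT.lf (nat_lit 608) (nat_lit 6) (nat_lit 8) (nat_lit 2) (nat_lit 127) (nat_lit 128) (nat_lit 105)) (PT.lf (nat_lit 532) (nat_lit 3) (nat_lit 7) (nat_lit 0) (nat_lit 128) (nat_lit 128) (nat_lit 104))) (PT.nd (nat_lit 78) (PT.lf (nat_lit 380) (nat_lit 6) (nat_lit 5) (nat_lit 0) (nat_lit 129) (nat_lit 128) (nat_lit 103)) (PT.lf (nat_lit 228) (nat_lit 6) (nat_lit 3) (nat_lit 0) (nat_lit 130) (nat_lit 128) (nat_lit 102)))) (PT.nd (nat_lit 156) (PT.nd (nat_lit 78) (PT.lf (nat_lit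 152) (nat_lit 6) (nat_lit 2) (nat_lit 5) (nat_lit 101) (nat_lit 129) (nat_lit 130)) (PT.lf (nat_lit 304) (nat_lit 3) (nat_lit 4) (nat_lit 4) (nat_lit 102) (nat_lit 129) (nat_lit 129))) (PT.nd (nat_lit 78) (PT.lf (nat_lit 380) (nat_lit 6) (nat_lit 5) (nat_lit 4) (nat_lit 103) (nat_lit 129) (nat_lit 128)) (PT.nd (nat_lit 1794) (PT.lf (nat_lit 456) (nat_lit 6) (nat_lit 6) (nat_lit 4) (nat_lit 104) (nat_lit 129) (nat_lit 127)) (PT.lf (nat_lit 456) (nat_lit 6) (nat_lit 6) (nat_lit 2) (nat_lit 127) (nat_lit 129) (nat_lit 104)))))) (PT.nd (nat_lit 35412) (PT.nd (nat_lit 156) (PT.nd (nat_lit 78) (PT.lf (nat_lit 380) (nat_lit 6) (nat_lit 5) (nat_lit 2) (nat_lit 128) (nat_lit 129) (nat_lit 103)) (PT.lf (nat_lit 304) (nat_lit 3) (nat_lit 4) (nat_lit 0) (nat_lit 129) (nat_lit 129) (nat_lit 102))) (PT.nd (nat_lit 35178) (PT.lf (nat_lit 152) (nat_lit 6) (nat_lit 2) (nat_lit 0) (nat_lit 130) (nat_lit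 129) (nat_lit 101)) (PT.lf (nat_lit 76) (nat_lit 3) (nat_lit 1) (nat_lit 4) (nat_lit 100) (nat_lit 130) (nat_lit 130)))) (PT.nd (nat_lit 2106) (PT.nd (nat_lit 78) (PT.lf (nat_lit 152) (nat_lit 6) (nat_lit 2) (nat_lit 4) (nat_lit 101) (nat_lit 130) (nat_lit 129)) (PT.lf (nat_lit 228) (nat_lit 6) (nat_lit 3) (nat_lit 4) (nat_lit 102) (nat_lit 130) (nat_lit 128))) (PT.nd (nat_lit 78) (PT.lf (nat_lit 228) (nat_lit 6) (nat_lit 3) (nat_lit 2) (nat_lit 128) (nat_lit 130) (nat_lit 102)) (PT.nd (nat_lit 78) (PT.lf (nat_lit 152) (nat_lit 6) (nat_lit 2) (nat_lit 2) (nat_lit 129) (nat_lit 130) (nat_lit 101)) (PT.lf (nat_lit 76) (nat_lit 3) (nat_lit 1) (nat_lit 0) (nat_lit 130) (nat_lit 130) (nat_lit 100))))))))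
noncomputable def xc0 : XT := (XT.nd (nat_lit 149994) (nat_lit 0) (nat_lit 0) (XT.nd (nat_lit 112242) (nat_lit 0) (nat_lit 0) (XT.nd (nat_lit 74802) (nat_lit 0) (nat_lit 0) (XT.nd (nat_lit 37440) (nat_lit 0) (nat_lit 0) (XT.nd (nat_lit 37362) (nat_lit 0) (nat_lit 0) (XT.lf (nat_lit 0) (nat_lit 1174641734593) (nat_lit 76) (nat_lit 85570144983) (nat_lit 76) (nat_lit 85570144983) (nat_lit 1) (nat_lit 4) (nat_lit 2) (nat_lit 5) (nat_lit 2) (nat_lit 4) (nat_lit 338) (nat_lit 191) (nat_lit 191)) (XT.lf (nat_lit 0) (nat_lit 1006499974115) (nat_lit 76) (nat_lit 73658565328) (nat_lit 76) (nat_lit 73658565328) (nat_lit 1) (nat_lit 4) (nat_lit 2) (nat_lit 5) (nat_lit 2) (nat_lit 4) (nat_lit 336) (nat_lit 192) (nat_lit 192))) (XT.nd (nat_lit 78) (nat_lit 0) (nat_lit 0) (XT.lf (nat_lit 0) (nat_lit 2174682539186) (nat_lit 76) (nat_lit 158782364166) (nat_lit 76) (nat_lit 158750601491) (nat_lit 1)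 (nat_lit 4) (nat_lit 2) (nat_lit 5) (nat_lit 2) (nat_lit 4) (nat_lit 337) (nat_lit 192) (nat_lit 191)) (XT.nd (nat_lit 37206) (nat_lit 0) (nat_lit 0) (XT.lf (nat_lit 0) (nat_lit 2349268406010) (nat_lit 76) (nat_lit 171178752905) (nat_lit 76) (nat_lit 171117580346) (nat_lit 1) (nat_lit 4) (nat_lit 2) (nat_lit 5) (nat_lit 2) (nat_lit 4) (nat_lit 338) (nat_lit 192) (nat_lit 190)) (XT.lf (nat_lit 0) (nat_lit 862300236752) (nat_lit 76) (nat_lit 63469982332) (nat_lit 76) (nat_lit 63469982332) (nat_lit 1) (nat_lit 4) (nat_lit 2) (nat_lit 5) (nat_lit 2) (nat_lit 4) (nat_lit 334) (nat_lit 193) (nat_lit 193))))) (XT.nd (nat_lit 234) (nat_lit 0) (nat_lit 0) (XT.nd (nat_lit 78) (nat_lit 0) (nat_lit 0) (XT.lf (nat_lit 0) (nat_lit 1863262514089) (nat_lit 76) (nat_lit 136749413939) (nat_lit 76) (nat_lit 136715110250) (nat_lit 1) (nat_lit 4) (nat_lit 2) (nat_lit 5) (nat_lit 2) (nat_lit 4) (nat_lit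 335) (nat_lit 193) (nat_lit 192)) (XT.nd (nat_lit 78) (nat_lit 0) (nat_lit 0) (XT.lf (nat_lit 0) (nat_lit 2012983680001) (nat_lit 76) (nat_lit 147358670629) (nat_lit 76) (nat_lit 147292604265) (nat_lit 1) (nat_lit 4) (nat_lit 2) (nat_lit 5) (nat_lit 2) (nat_lit 4) (nat_lit 336) (nat_lit 193) (nat_lit 191)) (XT.lf (nat_lit 0) (nat_lit 2174651207779) (nat_lit 76) (nat_lit 158830604403) (nat_lit 76) (nat_lit 158735128155) (nat_lit 1) (nat_lit 4) (nat_lit 2) (nat_lit 5) (nat_lit 2) (nat_lit 4) (nat_lit 337) (nat_lit 193) (nat_lit 190)))) (XT.nd (nat_lit 37050) (nat_lit 0) (nat_lit 0) (XT.lf (nat_lit 0) (nat_lit 2349223127218) (nat_lit 76) (nat_lit 171233197091) (nat_lit 76) (nat_lit 171110489468) (nat_lit 1) (nat_lit 4) (nat_lit 2) (nat_lit 5) (nat_lit 2) (nat_lit 4) (nat_lit 338) (nat_lit 193) (nat_lit 189)) (XT.nd (nat_lit 78) (nat_lit 0) (nat_lit 0) (XT.lf (nat_lit 0) (nat_lit 738623302938)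 (nat_lit 76) (nat_lit 54760485392) (nat_lit 76) (nat_lit 54760485392) (nat_lit 1) (nat_lit 4) (nat_lit 2) (nat_lit 5) (nat_lit 2) (nat_lit 4) (nat_lit 332) (nat_lit 194) (nat_lit 194)) (XT.lf (nat_lit 0) (nat_lit 1596175857267) (nat_lit 76) (nat_lit 117909240718) (nat_lit 76) (nat_lit 117872192734) (nat_lit 1) (nat_lit 4) (nat_lit 2) (nat_lit 5) (nat_lit 2) (nat_lit 4) (nat_lit 333) (nat_lit 194) (nat_lit 193)))))) (XT.nd (nat_lit 37284) (nat_lit 0) (nat_lit 0) (XT.nd (nat_lit 234) (nat_lit 0) (nat_lit 0) (XT.nd (nat_lit 78) (nat_lit 0) (nat_lit 0) (XT.lf (nat_lit 0) (nat_lit 1724582903816) (nat_lit 76) (nat_lit 126984827836) (nat_lit 76) (nat_lit 126913476163) (nat_lit 1) (nat_lit 4) (nat_lit 2) (nat_lit 5) (nat_lit 2) (nat_lit 4) (nat_lit 334) (nat_lit 194) (nat_lit 192)) (XT.nd (nat_lit 78) (nat_lit 0) (nat_lit 0) (XT.lf (nat_lit 0) (nat_lit 1863228676170) (nat_lit 76) (nat_lit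 136801513396) (nat_lit 76) (nat_lit 136698399048) (nat_lit 1) (nat_lit 4) (nat_lit 2) (nat_lit 5) (nat_lit 2) (nat_lit 4) (nat_lit 335) (nat_lit 194) (nat_lit 191)) (XT.lf (nat_lit 0) (nat_lit 2012934778905) (nat_lit 76) (nat_lit 147417470350) (nat_lit 76) (nat_lit 147284946118) (nat_lit 1) (nat_lit 4) (nat_lit 2) (nat_lit 5) (nat_lit 2) (nat_lit 4) (nat_lit 336) (nat_lit 194) (nat_lit 190)))) (XT.nd (nat_lit 78) (nat_lit 0) (nat_lit 0) (XT.lf (nat_lit 0) (nat_lit 2174588359299) (nat_lit 76) (nat_lit 158895608072) (nat_lit 76) (nat_lit 158735852465) (nat_lit 1) (nat_lit 4) (nat_lit 2) (nat_lit 5) (nat_lit 2) (nat_lit 4) (nat_lit 337) (nat_lit 194) (nat_lit 189)) (XT.nd (nat_lit 36894) (nat_lit 0) (nat_lit 0) (XT.lf (nat_lit 0) (nat_lit 2349147364492) (nat_lit 76) (nat_lit 171303945156) (nat_lit 76) (nat_lit 171118975313) (nat_lit 1) (nat_lit 4) (nat_lit 2) (nat_lit 5) (nat_lit 2)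 (nat_lit 4) (nat_lit 338) (nat_lit 194) (nat_lit 188)) (XT.lf (nat_lit 0) (nat_lit 632537453221) (nat_lit 76) (nat_lit 47321112009) (nat_lit 76) (nat_lit 47321112009) (nat_lit 1) (nat_lit 4) (nat_lit 2) (nat_lit 5) (nat_lit 2) (nat_lit 4) (nat_lit 330) (nat_lit 195) (nat_lit 195))))) (XT.nd (nat_lit 234) (nat_lit 0) (nat_lit 0) (XT.nd (nat_lit 78) (nat_lit 0) (nat_lit 0) (XT.lf (nat_lit 0) (nat_lit 1367090383711) (nat_lit 76) (nat_lit 101810321593) (nat_lit 76) (nat_lit 101770309770) (nat_lit 1) (nat_lit 4) (nat_lit 2) (nat_lit 5) (nat_lit 2) (nat_lit 4) (nat_lit 331) (nat_lit 195) (nat_lit 194)) (XT.nd (nat_lit 78) (nat_lit 0) (nat_lit 0) (XT.lf (nat_lit 0) (nat_lit 1477227630613) (nat_lit 76) (nat_lit 109569423010) (nat_lit 76) (nat_lit 109492363203) (nat_lit 1) (nat_lit 4) (nat_lit 2) (nat_lit 5) (nat_lit 2) (nat_lit 4) (nat_lit 332) (nat_lit 195) (nat_lit 193)) (XT.lf (nat_lit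 0) (nat_lit 1596139312314) (nat_lit 76) (nat_lit 117965508131) (nat_lit 76) (nat_lit 117854144635) (nat_lit 1) (nat_lit 4) (nat_lit 2) (nat_lit 5) (nat_lit 2) (nat_lit 4) (nat_lit 333) (nat_lit 195) (nat_lit 192)))) (XT.nd (nat_lit 78) (nat_lit 0) (nat_lit 0) (XT.lf (nat_lit 0) (nat_lit 1724530090633) (nat_lit 76) (nat_lit 127048331534) (nat_lit 76) (nat_lit 126905205363) (nat_lit 1) (nat_lit 4) (nat_lit 2) (nat_lit 5) (nat_lit 2) (nat_lit 4) (nat_lit 334) (nat_lit 195) (nat_lit 191)) (XT.nd (nat_lit 78) (nat_lit 0) (nat_lit 0) (XT.lf (nat_lit 0) (nat_lit 1863160799811) (nat_lit 76) (nat_lit 136871717358) (nat_lit 76) (nat_lit 136699181303) (nat_lit 1) (nat_lit 4) (nat_lit 2) (nat_lit 5) (nat_lit 2) (nat_lit 4) (nat_lit 335) (nat_lit 195) (nat_lit 190)) (XT.lf (nat_lit 0) (nat_lit 2012852955161) (nat_lit 76) (nat_lit 147493878260) (nat_lit 76) (nat_lit 147294110830) (nat_lit 1) (nat_lit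 4) (nat_lit 2) (nat_lit 5) (nat_lit 2) (nat_lit 4) (nat_lit 336) (nat_lit 195) (nat_lit 189))))))) (XT.nd (nat_lit 37596) (nat_lit 0) (nat_lit 0) (XT.nd (nat_lit 37128) (nat_lit 0) (nat_lit 0) (XT.nd (nat_lit 36894) (nat_lit 0) (nat_lit 0) (XT.nd (nat_lit 78) (nat_lit 0) (nat_lit 0) (XT.lf (nat_lit 0) (nat_lit 2174493621309) (nat_lit 76) (nat_lit 158977760378) (nat_lit 76) (nat_lit 158752778713) (nat_lit 1) (nat_lit 4) (nat_lit 2) (nat_lit 5) (nat_lit 2) (nat_lit 4) (nat_lit 337) (nat_lit 195) (nat_lit 188)) (XT.nd (nat_lit 36738) (nat_lit 0) (nat_lit 0) (XT.lf (nat_lit 0) (nat_lit 2349040668867) (nat_lit 76) (nat_lit 171391416347) (nat_lit 76) (nat_lit 171143088168) (nat_lit 1) (nat_lit 4) (nat_lit 2) (nat_lit 5) (nat_lit 2) (nat_lit 4) (nat_lit 338) (nat_lit 195) (nat_lit 187)) (XT.lf (nat_lit 0) (nat_lit 541528897736) (nat_lit 76) (nat_lit 40972874175) (nat_lit 76) (nat_lit 40972874175)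 (nat_lit 1) (nat_lit 4) (nat_lit 2) (nat_lit 5) (nat_lit 2) (nat_lit 4) (nat_lit 328) (nat_lit 196) (nat_lit 196)))) (XT.nd (nat_lit 78) (nat_lit 0) (nat_lit 0) (XT.lf (nat_lit 0) (nat_lit 1170576662644) (nat_lit 76) (nat_lit 88065865443) (nat_lit 76) (nat_lit 88022652674) (nat_lit 1) (nat_lit 4) (nat_lit 2) (nat_lit 5) (nat_lit 2) (nat_lit 4) (nat_lit 329) (nat_lit 196) (nat_lit 195)) (XT.nd (nat_lit 78) (nat_lit 0) (nat_lit 0) (XT.lf (nat_lit 0) (nat_lit 1265054413157) (nat_lit 76) (nat_lit 94694552423) (nat_lit 76) (nat_lit 94611327832) (nat_lit 1) (nat_lit 4) (nat_lit 2) (nat_lit 5) (nat_lit 2) (nat_lit 4) (nat_lit 330) (nat_lit 196) (nat_lit 194)) (XT.lf (nat_lit 0) (nat_lit 1367050915162) (nat_lit 76) (nat_lit 101871090399) (nat_lit 76) (nat_lit 101750817824) (nat_lit 1) (nat_lit 4) (nat_lit 2) (nat_lit 5) (nat_lit 2) (nat_lit 4) (nat_lit 331) (nat_lit 196) (nat_lit 193)))))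 (XT.nd (nat_lit 234) (nat_lit 0) (nat_lit 0) (XT.nd (nat_lit 78) (nat_lit 0) (nat_lit 0) (XT.lf (nat_lit 0) (nat_lit 1477170592375) (nat_lit 76) (nat_lit 109638007004) (nat_lit 76) (nat_lit 109483430739) (nat_lit 1) (nat_lit 4) (nat_lit 2) (nat_lit 5) (nat_lit 2) (nat_lit 4) (nat_lit 332) (nat_lit 196) (nat_lit 192)) (XT.nd (nat_lit 78) (nat_lit 0) (nat_lit 0) (XT.lf (nat_lit 0) (nat_lit 1596066005847) (nat_lit 76) (nat_lit 118041328410) (nat_lit 76) (nat_lit 117854989470) (nat_lit 1) (nat_lit 4) (nat_lit 2) (nat_lit 5) (nat_lit 2) (nat_lit 4) (nat_lit 333) (nat_lit 196) (nat_lit 191)) (XT.lf (nat_lit 0) (nat_lit 1724441720989) (nat_lit 76) (nat_lit 127130852077) (nat_lit 76) (nat_lit 126915103253) (nat_lit 1) (nat_lit 4) (nat_lit 2) (nat_lit 5) (nat_lit 2) (nat_lit 4) (nat_lit 334) (nat_lit 196) (nat_lit 190)))) (XT.nd (nat_lit 78) (nat_lit 0) (nat_lit 0) (XT.lf (nat_lit 0) (nat_lit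 1863058482782) (nat_lit 76) (nat_lit 136960441849) (nat_lit 76) (nat_lit 136717461650) (nat_lit 1) (nat_lit 4) (nat_lit 2) (nat_lit 5) (nat_lit 2) (nat_lit 4) (nat_lit 335) (nat_lit 196) (nat_lit 189)) (XT.nd (nat_lit 78) (nat_lit 0) (nat_lit 0) (XT.lf (nat_lit 0) (nat_lit 2012737723886) (nat_lit 76) (nat_lit 147588347147) (nat_lit 76) (nat_lit 147320152713) (nat_lit 1) (nat_lit 4) (nat_lit 2) (nat_lit 5) (nat_lit 2) (nat_lit 4) (nat_lit 336) (nat_lit 196) (nat_lit 188)) (XT.lf (nat_lit 0) (nat_lit 2174366432399) (nat_lit 76) (nat_lit 159077548150) (nat_lit 76) (nat_lit 158786007202) (nat_lit 1) (nat_lit 4) (nat_lit 2) (nat_lit 5) (nat_lit 2) (nat_lit 4) (nat_lit 337) (nat_lit 196) (nat_lit 187)))))) (XT.nd (nat_lit 36972) (nat_lit 0) (nat_lit 0) (XT.nd (nat_lit 36738) (nat_lit 0) (nat_lit 0) (XT.nd (nat_lit 36582) (nat_lit 0) (nat_lit 0) (XT.lf (nat_lit 0) (nat_lit 2348902408073)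 (nat_lit 76) (nat_lit 171496129013) (nat_lit 76) (nat_lit 171182970922) (nat_lit 1) (nat_lit 4) (nat_lit 2) (nat_lit 5) (nat_lit 2) (nat_lit 4) (nat_lit 338) (nat_lit 196) (nat_lit 186)) (XT.nd (nat_lit 78) (nat_lit 0) (nat_lit 0) (XT.lf (nat_lit 0) (nat_lit 463442128843) (nat_lit 76) (nat_lit 35562495265) (nat_lit 76) (nat_lit 35562495265) (nat_lit 1) (nat_lit 4) (nat_lit 2) (nat_lit 5) (nat_lit 2) (nat_lit 4) (nat_lit 326) (nat_lit 197) (nat_lit 197)) (XT.lf (nat_lit 0) (nat_lit 1001979181318) (nat_lit 76) (nat_lit 76344603576) (nat_lit 76) (nat_lit 76297933786) (nat_lit 1) (nat_lit 4) (nat_lit 2) (nat_lit 5) (nat_lit 2) (nat_lit 4) (nat_lit 327) (nat_lit 197) (nat_lit 196)))) (XT.nd (nat_lit 78) (nat_lit 0) (nat_lit 0) (XT.lf (nat_lit 0) (nat_lit 1083035662725) (nat_lit 76) (nat_lit 82002263027) (nat_lit 76) (nat_lit 81912380468) (nat_lit 1) (nat_lit 4) (nat_lit 2) (nat_lit 5)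 (nat_lit 2) (nat_lit 4) (nat_lit 328) (nat_lit 197) (nat_lit 195)) (XT.nd (nat_lit 78) (nat_lit 0) (nat_lit 0) (XT.lf (nat_lit 0) (nat_lit 1170534036611) (nat_lit 76) (nat_lit 88131495754) (nat_lit 76) (nat_lit 88001601372) (nat_lit 1) (nat_lit 4) (nat_lit 2) (nat_lit 5) (nat_lit 2) (nat_lit 4) (nat_lit 329) (nat_lit 197) (nat_lit 194)) (XT.lf (nat_lit 0) (nat_lit 1264992811861) (nat_lit 76) (nat_lit 94768623137) (nat_lit 76) (nat_lit 94601680771) (nat_lit 1) (nat_lit 4) (nat_lit 2) (nat_lit 5) (nat_lit 2) (nat_lit 4) (nat_lit 330) (nat_lit 197) (nat_lit 193))))) (XT.nd (nat_lit 234) (nat_lit 0) (nat_lit 0) (XT.nd (nat_lit 78) (nat_lit 0) (nat_lit 0) (XT.lf (nat_lit 0) (nat_lit 1366971744177) (nat_lit 76) (nat_lit 101952976301) (nat_lit 76) (nat_lit 101751730246) (nat_lit 1) (nat_lit 4) (nat_lit 2) (nat_lit 5) (nat_lit 2) (nat_lit 4) (nat_lit 331) (nat_lit 197) (nat_lit 192)) (XT.nd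 (nat_lit 78) (nat_lit 0) (nat_lit 0) (XT.lf (nat_lit 0) (nat_lit 1477075153160) (nat_lit 76) (nat_lit 109727129190) (nat_lit 76) (nat_lit 109494120460) (nat_lit 1) (nat_lit 4) (nat_lit 2) (nat_lit 5) (nat_lit 2) (nat_lit 4) (nat_lit 332) (nat_lit 197) (nat_lit 191)) (XT.lf (nat_lit 0) (nat_lit 1595955503455) (nat_lit 76) (nat_lit 118137150860) (nat_lit 76) (nat_lit 117874732246) (nat_lit 1) (nat_lit 4) (nat_lit 2) (nat_lit 5) (nat_lit 2) (nat_lit 4) (nat_lit 333) (nat_lit 197) (nat_lit 190)))) (XT.nd (nat_lit 78) (nat_lit 0) (nat_lit 0) (XT.lf (nat_lit 0) (nat_lit 1724317271212) (nat_lit 76) (nat_lit 127232878475) (nat_lit 76) (nat_lit 126943228486) (nat_lit 1) (nat_lit 4) (nat_lit 2) (nat_lit 5) (nat_lit 2) (nat_lit 4) (nat_lit 334) (nat_lit 197) (nat_lit 189)) (XT.nd (nat_lit 78) (nat_lit 0) (nat_lit 0) (XT.lf (nat_lit 0) (nat_lit 1862921118759) (nat_lit 76) (nat_lit 137068212643)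 (nat_lit 76) (nat_lit 136753348419) (nat_lit 1) (nat_lit 4) (nat_lit 2) (nat_lit 5) (nat_lit 2) (nat_lit 4) (nat_lit 335) (nat_lit 197) (nat_lit 188)) (XT.lf (nat_lit 0) (nat_lit 2012588402229) (nat_lit 76) (nat_lit 147701436826) (nat_lit 76) (nat_lit 147363226088) (nat_lit 1) (nat_lit 4) (nat_lit 2) (nat_lit 5) (nat_lit 2) (nat_lit 4) (nat_lit 336) (nat_lit 197) (nat_lit 187))))))))
noncomputable def xc1 : XT := (XT.nd (nat_lit 74412) (nat_lit 0) (nat_lit 0) (XT.nd (nat_lit 37284) (nat_lit 0) (nat_lit 0) (XT.nd (nat_lit 36816) (nat_lit 0) (nat_lit 0) (XT.nd (nat_lit 36582) (nat_lit 0) (nat_lit 0) (XT.nd (nat_lit 78) (nat_lit 0) (nat_lit 0) (XT.lf (nat_lit 0) (nat_lit 2174206038857) (nat_lit 76) (nat_lit 159195562724) (nat_lit 76) (nat_lit 158835734842) (nat_lit 1) (nat_lit 4) (nat_lit 2) (nat_lit 5) (nat_lit 2) (nat_lit 4) (nat_lit 337) (nat_lit 197) (nat_lit 186)) (XT.nd (nat_lit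 36426) (nat_lit 0) (nat_lit 0) (XT.lf (nat_lit 0) (nat_lit 2348731762787) (nat_lit 76) (nat_lit 171618703674) (nat_lit 76) (nat_lit 171238859919) (nat_lit 1) (nat_lit 4) (nat_lit 2) (nat_lit 5) (nat_lit 2) (nat_lit 4) (nat_lit 338) (nat_lit 197) (nat_lit 185)) (XT.lf (nat_lit 0) (nat_lit 396428781119) (nat_lit 76) (nat_lit 30958756166) (nat_lit 76) (nat_lit 30958756166) (nat_lit 1) (nat_lit 4) (nat_lit 2) (nat_lit 5) (nat_lit 2) (nat_lit 4) (nat_lit 324) (nat_lit 198) (nat_lit 198)))) (XT.nd (nat_lit 78) (nat_lit 0) (nat_lit 0) (XT.lf (nat_lit 0) (nat_lit 857305884875) (nat_lit 76) (nat_lit 66362896226) (nat_lit 76) (nat_lit 66312492852) (nat_lit 1) (nat_lit 4) (nat_lit 2) (nat_lit 5) (nat_lit 2) (nat_lit 4) (nat_lit 325) (nat_lit 198) (nat_lit 197)) (XT.nd (nat_lit 78) (nat_lit 0) (nat_lit 0) (XT.lf (nat_lit 0) (nat_lit 926860354318) (nat_lit 76) (nat_lit 71186026381) (nat_lit 76)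 (nat_lit 71088953218) (nat_lit 1) (nat_lit 4) (nat_lit 2) (nat_lit 5) (nat_lit 2) (nat_lit 4) (nat_lit 326) (nat_lit 198) (nat_lit 196)) (XT.lf (nat_lit 0) (nat_lit 1001933145202) (nat_lit 76) (nat_lit 76415484312) (nat_lit 76) (nat_lit 76275198379) (nat_lit 1) (nat_lit 4) (nat_lit 2) (nat_lit 5) (nat_lit 2) (nat_lit 4) (nat_lit 327) (nat_lit 198) (nat_lit 195))))) (XT.nd (nat_lit 234) (nat_lit 0) (nat_lit 0) (XT.nd (nat_lit 78) (nat_lit 0) (nat_lit 0) (XT.lf (nat_lit 0) (nat_lit 1082969133324) (nat_lit 76) (nat_lit 82082259397) (nat_lit 76) (nat_lit 81901961642) (nat_lit 1) (nat_lit 4) (nat_lit 2) (nat_lit 5) (nat_lit 2) (nat_lit 4) (nat_lit 328) (nat_lit 198) (nat_lit 194)) (XT.nd (nat_lit 78) (nat_lit 0) (nat_lit 0) (XT.lf (nat_lit 0) (nat_lit 1170448531947) (nat_lit 76) (nat_lit 88219932527) (nat_lit 76) (nat_lit 88002586788) (nat_lit 1) (nat_lit 4) (nat_lit 2) (nat_lit 5) (nat_lit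 2) (nat_lit 4) (nat_lit 329) (nat_lit 198) (nat_lit 193)) (XT.lf (nat_lit 0) (nat_lit 1264889737508) (nat_lit 76) (nat_lit 94864875098) (nat_lit 76) (nat_lit 94613225669) (nat_lit 1) (nat_lit 4) (nat_lit 2) (nat_lit 5) (nat_lit 2) (nat_lit 4) (nat_lit 330) (nat_lit 198) (nat_lit 192)))) (XT.nd (nat_lit 78) (nat_lit 0) (nat_lit 0) (XT.lf (nat_lit 0) (nat_lit 1366852401594) (nat_lit 76) (nat_lit 102056464547) (nat_lit 76) (nat_lit 101773052443) (nat_lit 1) (nat_lit 4) (nat_lit 2) (nat_lit 5) (nat_lit 2) (nat_lit 4) (nat_lit 331) (nat_lit 198) (nat_lit 191)) (XT.nd (nat_lit 78) (nat_lit 0) (nat_lit 0) (XT.lf (nat_lit 0) (nat_lit 1476940747401) (nat_lit 76) (nat_lit 109837317700) (nat_lit 76) (nat_lit 109524495712) (nat_lit 1) (nat_lit 4) (nat_lit 2) (nat_lit 5) (nat_lit 2) (nat_lit 4) (nat_lit 332) (nat_lit 198) (nat_lit 190)) (XT.lf (nat_lit 0) (nat_lit 1595807150311) (nat_lit 76) (nat_lit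 118253543317) (nat_lit 76) (nat_lit 117913489956) (nat_lit 1) (nat_lit 4) (nat_lit 2) (nat_lit 5) (nat_lit 2) (nat_lit 4) (nat_lit 333) (nat_lit 198) (nat_lit 189)))))) (XT.nd (nat_lit 36660) (nat_lit 0) (nat_lit 0) (XT.nd (nat_lit 234) (nat_lit 0) (nat_lit 0) (XT.nd (nat_lit 78) (nat_lit 0) (nat_lit 0) (XT.lf (nat_lit 0) (nat_lit 1724156003822) (nat_lit 76) (nat_lit 127355015329) (nat_lit 76) (nat_lit 126989747731) (nat_lit 1) (nat_lit 4) (nat_lit 2) (nat_lit 5) (nat_lit 2) (nat_lit 4) (nat_lit 334) (nat_lit 198) (nat_lit 188)) (XT.nd (nat_lit 78) (nat_lit 0) (nat_lit 0) (XT.lf (nat_lit 0) (nat_lit 1862747893734) (nat_lit 76) (nat_lit 137195668382) (nat_lit 76) (nat_lit 136807054270) (nat_lit 1) (nat_lit 4) (nat_lit 2) (nat_lit 5) (nat_lit 2) (nat_lit 4) (nat_lit 335) (nat_lit 198) (nat_lit 187)) (XT.lf (nat_lit 0) (nat_lit 2012404105319) (nat_lit 76) (nat_lit 147833817460) (nat_lit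 76) (nat_lit 147423586205) (nat_lit 1) (nat_lit 4) (nat_lit 2) (nat_lit 5) (nat_lit 2) (nat_lit 4) (nat_lit 336) (nat_lit 198) (nat_lit 186)))) (XT.nd (nat_lit 78) (nat_lit 0) (nat_lit 0) (XT.lf (nat_lit 0) (nat_lit 2174011490203) (nat_lit 76) (nat_lit 159332503444) (nat_lit 76) (nat_lit 158902256316) (nat_lit 1) (nat_lit 4) (nat_lit 2) (nat_lit 5) (nat_lit 2) (nat_lit 4) (nat_lit 337) (nat_lit 198) (nat_lit 185)) (XT.nd (nat_lit 36270) (nat_lit 0) (nat_lit 0) (XT.lf (nat_lit 0) (nat_lit 2348527721777) (nat_lit 76) (nat_lit 171759866697) (nat_lit 76) (nat_lit 171311086353) (nat_lit 1) (nat_lit 4) (nat_lit 2) (nat_lit 5) (nat_lit 2) (nat_lit 4) (nat_lit 338) (nat_lit 198) (nat_lit 184)) (XT.lf (nat_lit 0) (nat_lit 338903784884) (nat_lit 76) (nat_lit 27049363792) (nat_lit 76) (nat_lit 27049363792) (nat_lit 1) (nat_lit 4) (nat_lit 2) (nat_lit 5) (nat_lit 2) (nat_lit 4) (nat_lit 322)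 (nat_lit 199) (nat_lit 199))))) (XT.nd (nat_lit 234) (nat_lit 0) (nat_lit 0) (XT.nd (nat_lit 78) (nat_lit 0) (nat_lit 0) (XT.lf (nat_lit 0) (nat_lit 733133470421) (nat_lit 76) (nat_lit 57877967330) (nat_lit 76) (nat_lit 57823531687) (nat_lit 1) (nat_lit 4) (nat_lit 2) (nat_lit 5) (nat_lit 2) (nat_lit 4) (nat_lit 323) (nat_lit 199) (nat_lit 198)) (XT.nd (nat_lit 78) (nat_lit 0) (nat_lit 0) (XT.lf (nat_lit 0) (nat_lit 792831746601) (nat_lit 76) (nat_lit 61983431051) (nat_lit 76) (nat_lit 61878592034) (nat_lit 1) (nat_lit 4) (nat_lit 2) (nat_lit 5) (nat_lit 2) (nat_lit 4) (nat_lit 324) (nat_lit 199) (nat_lit 197)) (XT.lf (nat_lit 0) (nat_lit 857256165870) (nat_lit 76) (nat_lit 66439447420) (nat_lit 76) (nat_lit 66287938613) (nat_lit 1) (nat_lit 4) (nat_lit 2) (nat_lit 5) (nat_lit 2) (nat_lit 4) (nat_lit 325) (nat_lit 199) (nat_lit 196)))) (XT.nd (nat_lit 78) (nat_lit 0) (nat_lit 0) (XT.lf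 (nat_lit 0) (nat_lit 926788502566) (nat_lit 76) (nat_lit 71272422462) (nat_lit 76) (nat_lit 71077700886) (nat_lit 1) (nat_lit 4) (nat_lit 2) (nat_lit 5) (nat_lit 2) (nat_lit 4) (nat_lit 326) (nat_lit 199) (nat_lit 195)) (XT.nd (nat_lit 78) (nat_lit 0) (nat_lit 0) (XT.lf (nat_lit 0) (nat_lit 1001840800165) (nat_lit 76) (nat_lit 76510996027) (nat_lit 76) (nat_lit 76276262628) (nat_lit 1) (nat_lit 4) (nat_lit 2) (nat_lit 5) (nat_lit 2) (nat_lit 4) (nat_lit 327) (nat_lit 199) (nat_lit 194)) (XT.lf (nat_lit 0) (nat_lit 1082857813024) (nat_lit 76) (nat_lit 82186211515) (nat_lit 76) (nat_lit 81914430132) (nat_lit 1) (nat_lit 4) (nat_lit 2) (nat_lit 5) (nat_lit 2) (nat_lit 4) (nat_lit 328) (nat_lit 199) (nat_lit 193))))))) (XT.nd (nat_lit 36972) (nat_lit 0) (nat_lit 0) (XT.nd (nat_lit 468) (nat_lit 0) (nat_lit 0) (XT.nd (nat_lit 234) (nat_lit 0) (nat_lit 0) (XT.nd (nat_lit 78) (nat_lit 0)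 (nat_lit 0) (XT.lf (nat_lit 0) (nat_lit 1170319641958) (nat_lit 76) (nat_lit 88331699833) (nat_lit 76) (nat_lit 88025614761) (nat_lit 1) (nat_lit 4) (nat_lit 2) (nat_lit 5) (nat_lit 2) (nat_lit 4) (nat_lit 329) (nat_lit 199) (nat_lit 192)) (XT.nd (nat_lit 78) (nat_lit 0) (nat_lit 0) (XT.lf (nat_lit 0) (nat_lit 1264744579288) (nat_lit 76) (nat_lit 94983878688) (nat_lit 76) (nat_lit 94646030941) (nat_lit 1) (nat_lit 4) (nat_lit 2) (nat_lit 5) (nat_lit 2) (nat_lit 4) (nat_lit 330) (nat_lit 199) (nat_lit 191)) (XT.lf (nat_lit 0) (nat_lit 1366692180198) (nat_lit 76) (nat_lit 102182168401) (nat_lit 76) (nat_lit 101814910770) (nat_lit 1) (nat_lit 4) (nat_lit 2) (nat_lit 5) (nat_lit 2) (nat_lit 4) (nat_lit 331) (nat_lit 199) (nat_lit 190)))) (XT.nd (nat_lit 78) (nat_lit 0) (nat_lit 0) (XT.lf (nat_lit 0) (nat_lit 1476766578620) (nat_lit 76) (nat_lit 109969225502) (nat_lit 76) (nat_lit 109574736497)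 (nat_lit 1) (nat_lit 4) (nat_lit 2) (nat_lit 5) (nat_lit 2) (nat_lit 4) (nat_lit 332) (nat_lit 199) (nat_lit 189)) (XT.nd (nat_lit 78) (nat_lit 0) (nat_lit 0) (XT.lf (nat_lit 0) (nat_lit 1595620067284) (nat_lit 76) (nat_lit 118391195516) (nat_lit 76) (nat_lit 117971492275) (nat_lit 1) (nat_lit 4) (nat_lit 2) (nat_lit 5) (nat_lit 2) (nat_lit 4) (nat_lit 333) (nat_lit 199) (nat_lit 188)) (XT.lf (nat_lit 0) (nat_lit 1723956963160) (nat_lit 76) (nat_lit 127497986412) (nat_lit 76) (nat_lit 127054936657) (nat_lit 1) (nat_lit 4) (nat_lit 2) (nat_lit 5) (nat_lit 2) (nat_lit 4) (nat_lit 334) (nat_lit 199) (nat_lit 187))))) (XT.nd (nat_lit 234) (nat_lit 0) (nat_lit 0) (XT.nd (nat_lit 78) (nat_lit 0) (nat_lit 0) (XT.lf (nat_lit 0) (nat_lit 1862537781188) (nat_lit 76) (nat_lit 137343564360) (nat_lit 76) (nat_lit 136878897462) (nat_lit 1) (nat_lit 4) (nat_lit 2) (nat_lit 5) (nat_lit 2) (nat_lit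 4) (nat_lit 335) (nat_lit 199) (nat_lit 186)) (XT.nd (nat_lit 78) (nat_lit 0) (nat_lit 0) (XT.lf (nat_lit 0) (nat_lit 2012183741029) (nat_lit 76) (nat_lit 147986273524) (nat_lit 76) (nat_lit 147501590753) (nat_lit 1) (nat_lit 4) (nat_lit 2) (nat_lit 5) (nat_lit 2) (nat_lit 4) (nat_lit 336) (nat_lit 199) (nat_lit 185)) (XT.lf (nat_lit 0) (nat_lit 2173781633556) (nat_lit 76) (nat_lit 159489181811) (nat_lit 76) (nat_lit 158985965825) (nat_lit 1) (nat_lit 4) (nat_lit 2) (nat_lit 5) (nat_lit 2) (nat_lit 4) (nat_lit 337) (nat_lit 199) (nat_lit 184)))) (XT.nd (nat_lit 36114) (nat_lit 0) (nat_lit 0) (XT.lf (nat_lit 0) (nat_lit 2348289075911) (nat_lit 76) (nat_lit 171920454604) (nat_lit 76) (nat_lit 171400078232) (nat_lit 1) (nat_lit 4) (nat_lit 2) (nat_lit 5) (nat_lit 2) (nat_lit 4) (nat_lit 338) (nat_lit 199) (nat_lit 183)) (XT.nd (nat_lit 78) (nat_lit 0) (nat_lit 0) (XT.lf (nat_lit 0) (nat_lit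 289507772582) (nat_lit 76) (nat_lit 23738267570) (nat_lit 76) (nat_lit 23738267570) (nat_lit 1) (nat_lit 4) (nat_lit 2) (nat_lit 5) (nat_lit 2) (nat_lit 4) (nat_lit 320) (nat_lit 200) (nat_lit 200)) (XT.lf (nat_lit 0) (nat_lit 626526187455) (nat_lit 76) (nat_lit 50682106814) (nat_lit 76) (nat_lit 50623316319) (nat_lit 1) (nat_lit 4) (nat_lit 2) (nat_lit 5) (nat_lit 2) (nat_lit 4) (nat_lit 321) (nat_lit 200) (nat_lit 199)))))) (XT.nd (nat_lit 468) (nat_lit 0) (nat_lit 0) (XT.nd (nat_lit 234) (nat_lit 0) (nat_lit 0) (XT.nd (nat_lit 78) (nat_lit 0) (nat_lit 0) (XT.lf (nat_lit 0) (nat_lit 677779688881) (nat_lit 76) (nat_lit 54169919800) (nat_lit 76) (nat_lit 54056693662) (nat_lit 1) (nat_lit 4) (nat_lit 2) (nat_lit 5) (nat_lit 2) (nat_lit 4) (nat_lit 322) (nat_lit 200) (nat_lit 198)) (XT.nd (nat_lit 78) (nat_lit 0) (nat_lit 0) (XT.lf (nat_lit 0) (nat_lit 733079773896) (nat_lit 76) (nat_lit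 57960642620) (nat_lit 76) (nat_lit 57797013109) (nat_lit 1) (nat_lit 4) (nat_lit 2) (nat_lit 5) (nat_lit 2) (nat_lit 4) (nat_lit 323) (nat_lit 200) (nat_lit 197)) (XT.lf (nat_lit 0) (nat_lit 792754146709) (nat_lit 76) (nat_lit 62076738818) (nat_lit 76) (nat_lit 61866439516) (nat_lit 1) (nat_lit 4) (nat_lit 2) (nat_lit 5) (nat_lit 2) (nat_lit 4) (nat_lit 324) (nat_lit 200) (nat_lit 196)))) (XT.nd (nat_lit 78) (nat_lit 0) (nat_lit 0) (XT.lf (nat_lit 0) (nat_lit 857156433230) (nat_lit 76) (nat_lit 66542600073) (nat_lit 76) (nat_lit 66289088002) (nat_lit 1) (nat_lit 4) (nat_lit 2) (nat_lit 5) (nat_lit 2) (nat_lit 4) (nat_lit 325) (nat_lit 200) (nat_lit 195)) (XT.nd (nat_lit 78) (nat_lit 0) (nat_lit 0) (XT.lf (nat_lit 0) (nat_lit 926668276641) (nat_lit 76) (nat_lit 71384690749) (nat_lit 76) (nat_lit 71091166856) (nat_lit 1) (nat_lit 4) (nat_lit 2) (nat_lit 5) (nat_lit 2) (nat_lit 4) (nat_lit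 326) (nat_lit 200) (nat_lit 194)) (XT.lf (nat_lit 0) (nat_lit 1001701598977) (nat_lit 76) (nat_lit 76631704717) (nat_lit 76) (nat_lit 76301132840) (nat_lit 1) (nat_lit 4) (nat_lit 2) (nat_lit 5) (nat_lit 2) (nat_lit 4) (nat_lit 327) (nat_lit 200) (nat_lit 193))))) (XT.nd (nat_lit 234) (nat_lit 0) (nat_lit 0) (XT.nd (nat_lit 78) (nat_lit 0) (nat_lit 0) (XT.lf (nat_lit 0) (nat_lit 1082701042146) (nat_lit 76) (nat_lit 82314735393) (nat_lit 76) (nat_lit 81949859826) (nat_lit 1) (nat_lit 4) (nat_lit 2) (nat_lit 5) (nat_lit 2) (nat_lit 4) (nat_lit 328) (nat_lit 200) (nat_lit 192)) (XT.nd (nat_lit 78) (nat_lit 0) (nat_lit 0) (XT.lf (nat_lit 0) (nat_lit 1170146602850) (nat_lit 76) (nat_lit 88467459995) (nat_lit 76) (nat_lit 88070821754) (nat_lit 1) (nat_lit 4) (nat_lit 2) (nat_lit 5) (nat_lit 2) (nat_lit 4) (nat_lit 329) (nat_lit 200) (nat_lit 191)) (XT.lf (nat_lit 0) (nat_lit 1264556477004)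 (nat_lit 76) (nat_lit 95126339115) (nat_lit 76) (nat_lit 94700290989) (nat_lit 1) (nat_lit 4) (nat_lit 2) (nat_lit 5) (nat_lit 2) (nat_lit 4) (nat_lit 330) (nat_lit 200) (nat_lit 190)))) (XT.nd (nat_lit 78) (nat_lit 0) (nat_lit 0) (XT.lf (nat_lit 0) (nat_lit 1366490130529) (nat_lit 76) (nat_lit 102330832775) (nat_lit 76) (nat_lit 101877553275) (nat_lit 1) (nat_lit 4) (nat_lit 2) (nat_lit 5) (nat_lit 2) (nat_lit 4) (nat_lit 331) (nat_lit 200) (nat_lit 189)) (XT.nd (nat_lit 78) (nat_lit 0) (nat_lit 0) (XT.lf (nat_lit 0) (nat_lit 1476551614705) (nat_lit 76) (nat_lit 110123634273) (nat_lit 76) (nat_lit 109645140537) (nat_lit 1) (nat_lit 4) (nat_lit 2) (nat_lit 5) (nat_lit 2) (nat_lit 4) (nat_lit 332) (nat_lit 200) (nat_lit 188)) (XT.lf (nat_lit 0) (nat_lit 1595393145734) (nat_lit 76) (nat_lit 118550923172) (nat_lit 76) (nat_lit 118049082922) (nat_lit 1) (nat_lit 4) (nat_lit 2) (nat_lit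 5) (nat_lit 2) (nat_lit 4) (nat_lit 333) (nat_lit 200) (nat_lit 187))))))))
noncomputable def xc2 : XT := (XT.nd (nat_lit 37674) (nat_lit 0) (nat_lit 0) (XT.nd (nat_lit 36738) (nat_lit 0) (nat_lit 0) (XT.nd (nat_lit 36270) (nat_lit 0) (nat_lit 0) (XT.nd (nat_lit 156) (nat_lit 0) (nat_lit 0) (XT.nd (nat_lit 78) (nat_lit 0) (nat_lit 0) (XT.lf (nat_lit 0) (nat_lit 1723718969726) (nat_lit 76) (nat_lit 127662638962) (nat_lit 76) (nat_lit 127139181570) (nat_lit 1) (nat_lit 4) (nat_lit 2) (nat_lit 5) (nat_lit 2) (nat_lit 4) (nat_lit 334) (nat_lit 200) (nat_lit 186)) (XT.lf (nat_lit 0) (nat_lit 1862289536009) (nat_lit 76) (nat_lit 137512776997) (nat_lit 76) (nat_lit 136969303731) (nat_lit 1) (nat_lit 4) (nat_lit 2) (nat_lit 5) (nat_lit 2) (nat_lit 4) (nat_lit 335) (nat_lit 200) (nat_lit 185))) (XT.nd (nat_lit 78) (nat_lit 0) (nat_lit 0) (XT.lf (nat_lit 0) (nat_lit 2011926003494) (nat_lit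 76) (nat_lit 148159708464) (nat_lit 76) (nat_lit 147597701982) (nat_lit 1) (nat_lit 4) (nat_lit 2) (nat_lit 5) (nat_lit 2) (nat_lit 4) (nat_lit 336) (nat_lit 200) (nat_lit 184)) (XT.nd (nat_lit 78) (nat_lit 0) (nat_lit 0) (XT.lf (nat_lit 0) (nat_lit 2173515106803) (nat_lit 76) (nat_lit 159666526291) (nat_lit 76) (nat_lit 159087359424) (nat_lit 1) (nat_lit 4) (nat_lit 2) (nat_lit 5) (nat_lit 2) (nat_lit 4) (nat_lit 337) (nat_lit 200) (nat_lit 183)) (XT.lf (nat_lit 0) (nat_lit 2348014410993) (nat_lit 76) (nat_lit 172101419027) (nat_lit 76) (nat_lit 171506362915) (nat_lit 1) (nat_lit 4) (nat_lit 2) (nat_lit 5) (nat_lit 2) (nat_lit 4) (nat_lit 338) (nat_lit 200) (nat_lit 182))))) (XT.nd (nat_lit 234) (nat_lit 0) (nat_lit 0) (XT.nd (nat_lit 78) (nat_lit 0) (nat_lit 0) (XT.lf (nat_lit 0) (nat_lit 247074845784) (nat_lit 76) (nat_lit 20943360076) (nat_lit 76) (nat_lit 20943360076) (nat_lit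 1) (nat_lit 4) (nat_lit 2) (nat_lit 5) (nat_lit 2) (nat_lit 4) (nat_lit 318) (nat_lit 201) (nat_lit 201)) (XT.nd (nat_lit 78) (nat_lit 0) (nat_lit 0) (XT.lf (nat_lit 0) (nat_lit 534966217465) (nat_lit 76) (nat_lit 44597702535) (nat_lit 76) (nat_lit 44534208800) (nat_lit 1) (nat_lit 4) (nat_lit 2) (nat_lit 5) (nat_lit 2) (nat_lit 4) (nat_lit 319) (nat_lit 201) (nat_lit 200)) (XT.lf (nat_lit 0) (nat_lit 578985433807) (nat_lit 76) (nat_lit 47553422734) (nat_lit 76) (nat_lit 47431138505) (nat_lit 1) (nat_lit 4) (nat_lit 2) (nat_lit 5) (nat_lit 2) (nat_lit 4) (nat_lit 320) (nat_lit 201) (nat_lit 199)))) (XT.nd (nat_lit 78) (nat_lit 0) (nat_lit 0) (XT.lf (nat_lit 0) (nat_lit 626468195208) (nat_lit 76) (nat_lit 50771396127) (nat_lit 76) (nat_lit 50594676255) (nat_lit 1) (nat_lit 4) (nat_lit 2) (nat_lit 5) (nat_lit 2) (nat_lit 4) (nat_lit 321) (nat_lit 201) (nat_lit 198)) (XT.nd (nat_lit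 78) (nat_lit 0) (nat_lit 0) (XT.lf (nat_lit 0) (nat_lit 677695880997) (nat_lit 76) (nat_lit 54270692188) (nat_lit 76) (nat_lit 54043568942) (nat_lit 1) (nat_lit 4) (nat_lit 2) (nat_lit 5) (nat_lit 2) (nat_lit 4) (nat_lit 322) (nat_lit 201) (nat_lit 197)) (XT.lf (nat_lit 0) (nat_lit 732972062645) (nat_lit 76) (nat_lit 58072047485) (nat_lit 76) (nat_lit 57798254449) (nat_lit 1) (nat_lit 4) (nat_lit 2) (nat_lit 5) (nat_lit 2) (nat_lit 4) (nat_lit 323) (nat_lit 201) (nat_lit 196)))))) (XT.nd (nat_lit 468) (nat_lit 0) (nat_lit 0) (XT.nd (nat_lit 234) (nat_lit 0) (nat_lit 0) (XT.nd (nat_lit 78) (nat_lit 0) (nat_lit 0) (XT.lf (nat_lit 0) (nat_lit 792624302710) (nat_lit 76) (nat_lit 62197988568) (nat_lit 76) (nat_lit 61880982763) (nat_lit 1) (nat_lit 4) (nat_lit 2) (nat_lit 5) (nat_lit 2) (nat_lit 4) (nat_lit 324) (nat_lit 201) (nat_lit 195)) (XT.nd (nat_lit 78) (nat_lit 0) (nat_lit 0) (XT.lf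 (nat_lit 0) (nat_lit 857006095947) (nat_lit 76) (nat_lit 66672965458) (nat_lit 76) (nat_lit 66315947830) (nat_lit 1) (nat_lit 4) (nat_lit 2) (nat_lit 5) (nat_lit 2) (nat_lit 4) (nat_lit 325) (nat_lit 201) (nat_lit 194)) (XT.lf (nat_lit 0) (nat_lit 926498964094) (nat_lit 76) (nat_lit 71523496537) (nat_lit 76) (nat_lit 71129430925) (nat_lit 1) (nat_lit 4) (nat_lit 2) (nat_lit 5) (nat_lit 2) (nat_lit 4) (nat_lit 326) (nat_lit 201) (nat_lit 193)))) (XT.nd (nat_lit 78) (nat_lit 0) (nat_lit 0) (XT.lf (nat_lit 0) (nat_lit 1001514716740) (nat_lit 76) (nat_lit 76778325693) (nat_lit 76) (nat_lit 76349956392) (nat_lit 1) (nat_lit 4) (nat_lit 2) (nat_lit 5) (nat_lit 2) (nat_lit 4) (nat_lit 327) (nat_lit 201) (nat_lit 192)) (XT.nd (nat_lit 78) (nat_lit 0) (nat_lit 0) (XT.lf (nat_lit 0) (nat_lit 1082497891680) (nat_lit 76) (nat_lit 82468592653) (nat_lit 76) (nat_lit 82008460678) (nat_lit 1) (nat_lit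 4) (nat_lit 2) (nat_lit 5) (nat_lit 2) (nat_lit 4) (nat_lit 328) (nat_lit 201) (nat_lit 191)) (XT.lf (nat_lit 0) (nat_lit 1169928389208) (nat_lit 76) (nat_lit 88628017519) (nat_lit 76) (nat_lit 88138475660) (nat_lit 1) (nat_lit 4) (nat_lit 2) (nat_lit 5) (nat_lit 2) (nat_lit 4) (nat_lit 329) (nat_lit 201) (nat_lit 190))))) (XT.nd (nat_lit 234) (nat_lit 0) (nat_lit 0) (XT.nd (nat_lit 78) (nat_lit 0) (nat_lit 0) (XT.lf (nat_lit 0) (nat_lit 1264324315976) (nat_lit 76) (nat_lit 95293100587) (nat_lit 76) (nat_lit 94776327352) (nat_lit 1) (nat_lit 4) (nat_lit 2) (nat_lit 5) (nat_lit 2) (nat_lit 4) (nat_lit 330) (nat_lit 201) (nat_lit 189)) (XT.nd (nat_lit 78) (nat_lit 0) (nat_lit 0) (XT.lf (nat_lit 0) (nat_lit 1366245055255) (nat_lit 76) (nat_lit 102503338644) (nat_lit 76) (nat_lit 101961351174) (nat_lit 1) (nat_lit 4) (nat_lit 2) (nat_lit 5) (nat_lit 2) (nat_lit 4) (nat_lit 331) (nat_lit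 201) (nat_lit 188)) (XT.lf (nat_lit 0) (nat_lit 1476294581796) (nat_lit 76) (nat_lit 110301459027) (nat_lit 76) (nat_lit 109736125043) (nat_lit 1) (nat_lit 4) (nat_lit 2) (nat_lit 5) (nat_lit 2) (nat_lit 4) (nat_lit 332) (nat_lit 201) (nat_lit 187)))) (XT.nd (nat_lit 78) (nat_lit 0) (nat_lit 0) (XT.lf (nat_lit 0) (nat_lit 1595125040941) (nat_lit 76) (nat_lit 118733672820) (nat_lit 76) (nat_lit 118146721693) (nat_lit 1) (nat_lit 4) (nat_lit 2) (nat_lit 5) (nat_lit 2) (nat_lit 4) (nat_lit 333) (nat_lit 201) (nat_lit 186)) (XT.nd (nat_lit 78) (nat_lit 0) (nat_lit 0) (XT.lf (nat_lit 0) (nat_lit 1723440613189) (nat_lit 76) (nat_lit 127849948697) (nat_lit 76) (nat_lit 127242981697) (nat_lit 1) (nat_lit 4) (nat_lit 2) (nat_lit 5) (nat_lit 2) (nat_lit 4) (nat_lit 334) (nat_lit 201) (nat_lit 185)) (XT.lf (nat_lit 0) (nat_lit 1862001687115) (nat_lit 76) (nat_lit 137704309034) (nat_lit 76) (nat_lit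 137078808819) (nat_lit 1) (nat_lit 4) (nat_lit 2) (nat_lit 5) (nat_lit 2) (nat_lit 4) (nat_lit 335) (nat_lit 201) (nat_lit 184))))))) (XT.nd (nat_lit 36660) (nat_lit 0) (nat_lit 0) (XT.nd (nat_lit 36192) (nat_lit 0) (nat_lit 0) (XT.nd (nat_lit 35958) (nat_lit 0) (nat_lit 0) (XT.nd (nat_lit 78) (nat_lit 0) (nat_lit 0) (XT.lf (nat_lit 0) (nat_lit 2011629365382) (nat_lit 76) (nat_lit 148355150041) (nat_lit 76) (nat_lit 147712489440) (nat_lit 1) (nat_lit 4) (nat_lit 2) (nat_lit 5) (nat_lit 2) (nat_lit 4) (nat_lit 336) (nat_lit 201) (nat_lit 183)) (XT.nd (nat_lit 78) (nat_lit 0) (nat_lit 0) (XT.lf (nat_lit 0) (nat_lit 2173210330525) (nat_lit 76) (nat_lit 159865587812) (nat_lit 76) (nat_lit 159207037965) (nat_lit 1) (nat_lit 4) (nat_lit 2) (nat_lit 5) (nat_lit 2) (nat_lit 4) (nat_lit 337) (nat_lit 201) (nat_lit 182)) (XT.lf (nat_lit 0) (nat_lit 2347702099377) (nat_lit 76) (nat_lit 172303832348)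 (nat_lit 76) (nat_lit 171630570238) (nat_lit 1) (nat_lit 4) (nat_lit 2) (nat_lit 5) (nat_lit 2) (nat_lit 4) (nat_lit 338) (nat_lit 201) (nat_lit 181)))) (XT.nd (nat_lit 78) (nat_lit 0) (nat_lit 0) (XT.lf (nat_lit 0) (nat_lit 210604937867) (nat_lit 76) (nat_lit 18594507122) (nat_lit 76) (nat_lit 18594507122) (nat_lit 1) (nat_lit 4) (nat_lit 2) (nat_lit 5) (nat_lit 2) (nat_lit 4) (nat_lit 316) (nat_lit 202) (nat_lit 202)) (XT.nd (nat_lit 78) (nat_lit 0) (nat_lit 0) (XT.lf (nat_lit 0) (nat_lit 456293980409) (nat_lit 76) (nat_lit 39472983737) (nat_lit 76) (nat_lit 39404410504) (nat_lit 1) (nat_lit 4) (nat_lit 2) (nat_lit 5) (nat_lit 2) (nat_lit 4) (nat_lit 317) (nat_lit 202) (nat_lit 201)) (XT.lf (nat_lit 0) (nat_lit 494117171302) (nat_lit 76) (nat_lit 41969758752) (nat_lit 76) (nat_lit 41837691784) (nat_lit 1) (nat_lit 4) (nat_lit 2) (nat_lit 5) (nat_lit 2) (nat_lit 4) (nat_lit 318)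 (nat_lit 202) (nat_lit 200))))) (XT.nd (nat_lit 234) (nat_lit 0) (nat_lit 0) (XT.nd (nat_lit 78) (nat_lit 0) (nat_lit 0) (XT.lf (nat_lit 0) (nat_lit 534903585839) (nat_lit 76) (nat_lit 44694134993) (nat_lit 76) (nat_lit 44503277531) (nat_lit 1) (nat_lit 4) (nat_lit 2) (nat_lit 5) (nat_lit 2) (nat_lit 4) (nat_lit 319) (nat_lit 202) (nat_lit 199)) (XT.nd (nat_lit 78) (nat_lit 0) (nat_lit 0) (XT.lf (nat_lit 0) (nat_lit 578894921292) (nat_lit 76) (nat_lit 47662256913) (nat_lit 76) (nat_lit 47416963807) (nat_lit 1) (nat_lit 4) (nat_lit 2) (nat_lit 5) (nat_lit 2) (nat_lit 4) (nat_lit 320) (nat_lit 202) (nat_lit 198)) (XT.lf (nat_lit 0) (nat_lit 626351867057) (nat_lit 76) (nat_lit 50891713381) (nat_lit 76) (nat_lit 50596016902) (nat_lit 1) (nat_lit 4) (nat_lit 2) (nat_lit 5) (nat_lit 2) (nat_lit 4) (nat_lit 321) (nat_lit 202) (nat_lit 197)))) (XT.nd (nat_lit 78) (nat_lit 0) (nat_lit 0) (XT.lf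 (nat_lit 0) (nat_lit 677555649479) (nat_lit 76) (nat_lit 54401641919) (nat_lit 76) (nat_lit 54059275649) (nat_lit 1) (nat_lit 4) (nat_lit 2) (nat_lit 5) (nat_lit 2) (nat_lit 4) (nat_lit 322) (nat_lit 202) (nat_lit 196)) (XT.nd (nat_lit 78) (nat_lit 0) (nat_lit 0) (XT.lf (nat_lit 0) (nat_lit 732809698379) (nat_lit 76) (nat_lit 58212842101) (nat_lit 76) (nat_lit 57827263063) (nat_lit 1) (nat_lit 4) (nat_lit 2) (nat_lit 5) (nat_lit 2) (nat_lit 4) (nat_lit 323) (nat_lit 202) (nat_lit 195)) (XT.lf (nat_lit 0) (nat_lit 792441445158) (nat_lit 76) (nat_lit 62347898819) (nat_lit 76) (nat_lit 61922307958) (nat_lit 1) (nat_lit 4) (nat_lit 2) (nat_lit 5) (nat_lit 2) (nat_lit 4) (nat_lit 324) (nat_lit 202) (nat_lit 194)))))) (XT.nd (nat_lit 468) (nat_lit 0) (nat_lit 0) (XT.nd (nat_lit 234) (nat_lit 0) (nat_lit 0) (XT.nd (nat_lit 78) (nat_lit 0) (nat_lit 0) (XT.lf (nat_lit 0) (nat_lit 856804263131)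 (nat_lit 76) (nat_lit 66831316112) (nat_lit 76) (nat_lit 66368677267) (nat_lit 1) (nat_lit 4) (nat_lit 2) (nat_lit 5) (nat_lit 2) (nat_lit 4) (nat_lit 325) (nat_lit 202) (nat_lit 193)) (XT.nd (nat_lit 78) (nat_lit 0) (nat_lit 0) (XT.lf (nat_lit 0) (nat_lit 926279561590) (nat_lit 76) (nat_lit 71689662378) (nat_lit 76) (nat_lit 71192719845) (nat_lit 1) (nat_lit 4) (nat_lit 2) (nat_lit 5) (nat_lit 2) (nat_lit 4) (nat_lit 326) (nat_lit 202) (nat_lit 192)) (XT.lf (nat_lit 0) (nat_lit 1001279046006) (nat_lit 76) (nat_lit 76951727819) (nat_lit 76) (nat_lit 76423022610) (nat_lit 1) (nat_lit 4) (nat_lit 2) (nat_lit 5) (nat_lit 2) (nat_lit 4) (nat_lit 327) (nat_lit 202) (nat_lit 191)))) (XT.nd (nat_lit 78) (nat_lit 0) (nat_lit 0) (XT.lf (nat_lit 0) (nat_lit 1082247157769) (nat_lit 76) (nat_lit 82648695043) (nat_lit 76) (nat_lit 82090579950) (nat_lit 1) (nat_lit 4) (nat_lit 2) (nat_lit 5) (nat_lit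 2) (nat_lit 4) (nat_lit 328) (nat_lit 202) (nat_lit 190)) (XT.nd (nat_lit 78) (nat_lit 0) (nat_lit 0) (XT.lf (nat_lit 0) (nat_lit 1169663707912) (nat_lit 76) (nat_lit 88814323857) (nat_lit 76) (nat_lit 88228977390) (nat_lit 1) (nat_lit 4) (nat_lit 2) (nat_lit 5) (nat_lit 2) (nat_lit 4) (nat_lit 329) (nat_lit 202) (nat_lit 189)) (XT.lf (nat_lit 0) (nat_lit 1264046720435) (nat_lit 76) (nat_lit 95485151321) (nat_lit 76) (nat_lit 94874590618) (nat_lit 1) (nat_lit 4) (nat_lit 2) (nat_lit 5) (nat_lit 2) (nat_lit 4) (nat_lit 330) (nat_lit 202) (nat_lit 188))))) (XT.nd (nat_lit 234) (nat_lit 0) (nat_lit 0) (XT.nd (nat_lit 78) (nat_lit 0) (nat_lit 0) (XT.lf (nat_lit 0) (nat_lit 1365955502079) (nat_lit 76) (nat_lit 102700708263) (nat_lit 76) (nat_lit 102066801046) (nat_lit 1) (nat_lit 4) (nat_lit 2) (nat_lit 5) (nat_lit 2) (nat_lit 4) (nat_lit 331) (nat_lit 202) (nat_lit 187)) (XT.nd (nat_lit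 78) (nat_lit 0) (nat_lit 0) (XT.lf (nat_lit 0) (nat_lit 1475993956735) (nat_lit 76) (nat_lit 110503753540) (nat_lit 76) (nat_lit 109848229180) (nat_lit 1) (nat_lit 4) (nat_lit 2) (nat_lit 5) (nat_lit 2) (nat_lit 4) (nat_lit 332) (nat_lit 202) (nat_lit 186)) (XT.lf (nat_lit 0) (nat_lit 1594814164136) (nat_lit 76) (nat_lit 118940527420) (nat_lit 76) (nat_lit 118264987187) (nat_lit 1) (nat_lit 4) (nat_lit 2) (nat_lit 5) (nat_lit 2) (nat_lit 4) (nat_lit 333) (nat_lit 202) (nat_lit 185)))) (XT.nd (nat_lit 78) (nat_lit 0) (nat_lit 0) (XT.lf (nat_lit 0) (nat_lit 1723120244027) (nat_lit 76) (nat_lit 128061025600) (nat_lit 76) (nat_lit 127366952152) (nat_lit 1) (nat_lit 4) (nat_lit 2) (nat_lit 5) (nat_lit 2) (nat_lit 4) (nat_lit 334) (nat_lit 202) (nat_lit 184)) (XT.nd (nat_lit 78) (nat_lit 0) (nat_lit 0) (XT.lf (nat_lit 0) (nat_lit 1861672528736) (nat_lit 76) (nat_lit 137919295477) (nat_lit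 76) (nat_lit 137208061643) (nat_lit 1) (nat_lit 4) (nat_lit 2) (nat_lit 5) (nat_lit 2) (nat_lit 4) (nat_lit 335) (nat_lit 202) (nat_lit 183)) (XT.lf (nat_lit 0) (nat_lit 2011292068837) (nat_lit 76) (nat_lit 148573756428) (nat_lit 76) (nat_lit 147846633349) (nat_lit 1) (nat_lit 4) (nat_lit 2) (nat_lit 5) (nat_lit 2) (nat_lit 4) (nat_lit 336) (nat_lit 202) (nat_lit 182))))))))
noncomputable def xc3 : XT := (XT.nd (nat_lit 37440) (nat_lit 0) (nat_lit 0) (XT.nd (nat_lit 36504) (nat_lit 0) (nat_lit 0) (XT.nd (nat_lit 36036) (nat_lit 0) (nat_lit 0) (XT.nd (nat_lit 35802) (nat_lit 0) (nat_lit 0) (XT.nd (nat_lit 78) (nat_lit 0) (nat_lit 0) (XT.lf (nat_lit 0) (nat_lit 2172865498642) (nat_lit 76) (nat_lit 160087545999) (nat_lit 76) (nat_lit 159345710655) (nat_lit 1) (nat_lit 4) (nat_lit 2) (nat_lit 5) (nat_lit 2) (nat_lit 4) (nat_lit 337) (nat_lit 202) (nat_lit 181)) (XT.nd (nat_lit 35646)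 (nat_lit 0) (nat_lit 0) (XT.lf (nat_lit 0) (nat_lit 2347350290328) (nat_lit 76) (nat_lit 172528894054) (nat_lit 76) (nat_lit 171773436243) (nat_lit 1) (nat_lit 4) (nat_lit 2) (nat_lit 5) (nat_lit 2) (nat_lit 4) (nat_lit 338) (nat_lit 202) (nat_lit 180)) (XT.lf (nat_lit 0) (nat_lit 179240116521) (nat_lit 76) (nat_lit 16631860422) (nat_lit 76) (nat_lit 16631860422) (nat_lit 1) (nat_lit 4) (nat_lit 2) (nat_lit 5) (nat_lit 2) (nat_lit 4) (nat_lit 314) (nat_lit 203) (nat_lit 203)))) (XT.nd (nat_lit 78) (nat_lit 0) (nat_lit 0) (XT.lf (nat_lit 0) (nat_lit 388656951472) (nat_lit 76) (nat_lit 35178374733) (nat_lit 76) (nat_lit 35104315642) (nat_lit 1) (nat_lit 4) (nat_lit 2) (nat_lit 5) (nat_lit 2) (nat_lit 4) (nat_lit 315) (nat_lit 203) (nat_lit 202)) (XT.nd (nat_lit 78) (nat_lit 0) (nat_lit 0) (XT.lf (nat_lit 0) (nat_lit 421174753846) (nat_lit 76) (nat_lit 37278695933) (nat_lit 76) (nat_lit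 37136063608) (nat_lit 1) (nat_lit 4) (nat_lit 2) (nat_lit 5) (nat_lit 2) (nat_lit 4) (nat_lit 316) (nat_lit 203) (nat_lit 201)) (XT.lf (nat_lit 0) (nat_lit 456226338253) (nat_lit 76) (nat_lit 39577130792) (nat_lit 76) (nat_lit 39371004733) (nat_lit 1) (nat_lit 4) (nat_lit 2) (nat_lit 5) (nat_lit 2) (nat_lit 4) (nat_lit 317) (nat_lit 203) (nat_lit 200))))) (XT.nd (nat_lit 234) (nat_lit 0) (nat_lit 0) (XT.nd (nat_lit 78) (nat_lit 0) (nat_lit 0) (XT.lf (nat_lit 0) (nat_lit 494019417786) (nat_lit 76) (nat_lit 42087299665) (nat_lit 76) (nat_lit 41822383111) (nat_lit 1) (nat_lit 4) (nat_lit 2) (nat_lit 5) (nat_lit 2) (nat_lit 4) (nat_lit 318) (nat_lit 203) (nat_lit 199)) (XT.nd (nat_lit 78) (nat_lit 0) (nat_lit 0) (XT.lf (nat_lit 0) (nat_lit 534777951435) (nat_lit 76) (nat_lit 44824077627) (nat_lit 76) (nat_lit 44504725430) (nat_lit 1) (nat_lit 4) (nat_lit 2) (nat_lit 5) (nat_lit 2) (nat_lit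 4) (nat_lit 319) (nat_lit 203) (nat_lit 198)) (XT.lf (nat_lit 0) (nat_lit 578743471252) (nat_lit 76) (nat_lit 47803682621) (nat_lit 76) (nat_lit 47433927051) (nat_lit 1) (nat_lit 4) (nat_lit 2) (nat_lit 5) (nat_lit 2) (nat_lit 4) (nat_lit 320) (nat_lit 203) (nat_lit 197)))) (XT.nd (nat_lit 78) (nat_lit 0) (nat_lit 0) (XT.lf (nat_lit 0) (nat_lit 626176513649) (nat_lit 76) (nat_lit 51043771567) (nat_lit 76) (nat_lit 50627346206) (nat_lit 1) (nat_lit 4) (nat_lit 2) (nat_lit 5) (nat_lit 2) (nat_lit 4) (nat_lit 321) (nat_lit 203) (nat_lit 196)) (XT.nd (nat_lit 78) (nat_lit 0) (nat_lit 0) (XT.lf (nat_lit 0) (nat_lit 677358163323) (nat_lit 76) (nat_lit 54563544990) (nat_lit 76) (nat_lit 54103906860) (nat_lit 1) (nat_lit 4) (nat_lit 2) (nat_lit 5) (nat_lit 2) (nat_lit 4) (nat_lit 322) (nat_lit 203) (nat_lit 195)) (XT.lf (nat_lit 0) (nat_lit 732591718938) (nat_lit 76) (nat_lit 58383860807)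 (nat_lit 76) (nat_lit 57884210855) (nat_lit 1) (nat_lit 4) (nat_lit 2) (nat_lit 5) (nat_lit 2) (nat_lit 4) (nat_lit 323) (nat_lit 203) (nat_lit 194)))))) (XT.nd (nat_lit 468) (nat_lit 0) (nat_lit 0) (XT.nd (nat_lit 234) (nat_lit 0) (nat_lit 0) (XT.nd (nat_lit 78) (nat_lit 0) (nat_lit 0) (XT.lf (nat_lit 0) (nat_lit 792204490454) (nat_lit 76) (nat_lit 62527357927) (nat_lit 76) (nat_lit 61990659991) (nat_lit 1) (nat_lit 4) (nat_lit 2) (nat_lit 5) (nat_lit 2) (nat_lit 4) (nat_lit 324) (nat_lit 203) (nat_lit 193)) (XT.nd (nat_lit 78) (nat_lit 0) (nat_lit 0) (XT.lf (nat_lit 0) (nat_lit 856549738739) (nat_lit 76) (nat_lit 67018590408) (nat_lit 76) (nat_lit 66447588783) (nat_lit 1) (nat_lit 4) (nat_lit 2) (nat_lit 5) (nat_lit 2) (nat_lit 4) (nat_lit 325) (nat_lit 203) (nat_lit 192)) (XT.lf (nat_lit 0) (nat_lit 926008768967) (nat_lit 76) (nat_lit 71884172960) (nat_lit 76) (nat_lit 71281408659)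 (nat_lit 1) (nat_lit 4) (nat_lit 2) (nat_lit 5) (nat_lit 2) (nat_lit 4) (nat_lit 326) (nat_lit 203) (nat_lit 191)))) (XT.nd (nat_lit 78) (nat_lit 0) (nat_lit 0) (XT.lf (nat_lit 0) (nat_lit 1000993190207) (nat_lit 76) (nat_lit 77152938664) (nat_lit 76) (nat_lit 76520764479) (nat_lit 1) (nat_lit 4) (nat_lit 2) (nat_lit 5) (nat_lit 2) (nat_lit 4) (nat_lit 327) (nat_lit 203) (nat_lit 190)) (XT.nd (nat_lit 78) (nat_lit 0) (nat_lit 0) (XT.lf (nat_lit 0) (nat_lit 1081947354585) (nat_lit 76) (nat_lit 82856109836) (nat_lit 76) (nat_lit 82196704277) (nat_lit 1) (nat_lit 4) (nat_lit 2) (nat_lit 5) (nat_lit 2) (nat_lit 4) (nat_lit 328) (nat_lit 203) (nat_lit 189)) (XT.lf (nat_lit 0) (nat_lit 1169350990481) (nat_lit 76) (nat_lit 89027483047) (nat_lit 76) (nat_lit 88342863252) (nat_lit 1) (nat_lit 4) (nat_lit 2) (nat_lit 5) (nat_lit 2) (nat_lit 4) (nat_lit 329) (nat_lit 203) (nat_lit 188))))) (XT.nd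 (nat_lit 234) (nat_lit 0) (nat_lit 0) (XT.nd (nat_lit 78) (nat_lit 0) (nat_lit 0) (XT.lf (nat_lit 0) (nat_lit 1263722045369) (nat_lit 76) (nat_lit 95703629396) (nat_lit 76) (nat_lit 94995663087) (nat_lit 1) (nat_lit 4) (nat_lit 2) (nat_lit 5) (nat_lit 2) (nat_lit 4) (nat_lit 330) (nat_lit 203) (nat_lit 187)) (XT.nd (nat_lit 78) (nat_lit 0) (nat_lit 0) (XT.lf (nat_lit 0) (nat_lit 1365619755129) (nat_lit 76) (nat_lit 102924111232) (nat_lit 76) (nat_lit 102194527780) (nat_lit 1) (nat_lit 4) (nat_lit 2) (nat_lit 5) (nat_lit 2) (nat_lit 4) (nat_lit 331) (nat_lit 203) (nat_lit 186)) (XT.lf (nat_lit 0) (nat_lit 1475647958041) (nat_lit 76) (nat_lit 110731716596) (nat_lit 76) (nat_lit 109982117271) (nat_lit 1) (nat_lit 4) (nat_lit 2) (nat_lit 5) (nat_lit 2) (nat_lit 4) (nat_lit 332) (nat_lit 203) (nat_lit 185)))) (XT.nd (nat_lit 78) (nat_lit 0) (nat_lit 0) (XT.lf (nat_lit 0) (nat_lit 1594458673086)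 (nat_lit 76) (nat_lit 119172712779) (nat_lit 76) (nat_lit 118404580238) (nat_lit 1) (nat_lit 4) (nat_lit 2) (nat_lit 5) (nat_lit 2) (nat_lit 4) (nat_lit 333) (nat_lit 203) (nat_lit 184)) (XT.nd (nat_lit 78) (nat_lit 0) (nat_lit 0) (XT.lf (nat_lit 0) (nat_lit 1722755963759) (nat_lit 76) (nat_lit 128297120498) (nat_lit 76) (nat_lit 127511827573) (nat_lit 1) (nat_lit 4) (nat_lit 2) (nat_lit 5) (nat_lit 2) (nat_lit 4) (nat_lit 334) (nat_lit 203) (nat_lit 183)) (XT.lf (nat_lit 0) (nat_lit 1861300110301) (nat_lit 76) (nat_lit 138159010319) (nat_lit 76) (nat_lit 137357828148) (nat_lit 1) (nat_lit 4) (nat_lit 2) (nat_lit 5) (nat_lit 2) (nat_lit 4) (nat_lit 335) (nat_lit 203) (nat_lit 182))))))) (XT.nd (nat_lit 36348) (nat_lit 0) (nat_lit 0) (XT.nd (nat_lit 35880) (nat_lit 0) (nat_lit 0) (XT.nd (nat_lit 35646) (nat_lit 0) (nat_lit 0) (XT.nd (nat_lit 78) (nat_lit 0) (nat_lit 0) (XT.lf (nat_lit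 0) (nat_lit 2010912115064) (nat_lit 76) (nat_lit 148816823070) (nat_lit 76) (nat_lit 148000928635) (nat_lit 1) (nat_lit 4) (nat_lit 2) (nat_lit 5) (nat_lit 2) (nat_lit 4) (nat_lit 336) (nat_lit 203) (nat_lit 181)) (XT.nd (nat_lit 78) (nat_lit 0) (nat_lit 0) (XT.lf (nat_lit 0) (nat_lit 2172478567704) (nat_lit 76) (nat_lit 160333716159) (nat_lit 76) (nat_lit 159504199257) (nat_lit 1) (nat_lit 4) (nat_lit 2) (nat_lit 5) (nat_lit 2) (nat_lit 4) (nat_lit 337) (nat_lit 203) (nat_lit 180)) (XT.lf (nat_lit 0) (nat_lit 2346956899052) (nat_lit 76) (nat_lit 172777937842) (nat_lit 76) (nat_lit 171935807545) (nat_lit 1) (nat_lit 4) (nat_lit 2) (nat_lit 5) (nat_lit 2) (nat_lit 4) (nat_lit 338) (nat_lit 203) (nat_lit 179)))) (XT.nd (nat_lit 78) (nat_lit 0) (nat_lit 0) (XT.lf (nat_lit 0) (nat_lit 152244263793) (nat_lit 76) (nat_lit 15004412626) (nat_lit 76) (nat_lit 15004412626) (nat_lit 1) (nat_lit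 4) (nat_lit 2) (nat_lit 5) (nat_lit 2) (nat_lit 4) (nat_lit 312) (nat_lit 204) (nat_lit 204)) (XT.nd (nat_lit 78) (nat_lit 0) (nat_lit 0) (XT.lf (nat_lit 0) (nat_lit 330465773561) (nat_lit 76) (nat_lit 31603371990) (nat_lit 76) (nat_lit 31523388171) (nat_lit 1) (nat_lit 4) (nat_lit 2) (nat_lit 5) (nat_lit 2) (nat_lit 4) (nat_lit 313) (nat_lit 204) (nat_lit 203)) (XT.lf (nat_lit 0) (nat_lit 358442301403) (nat_lit 76) (nat_lit 33360577068) (nat_lit 76) (nat_lit 33206534157) (nat_lit 1) (nat_lit 4) (nat_lit 2) (nat_lit 5) (nat_lit 2) (nat_lit 4) (nat_lit 314) (nat_lit 204) (nat_lit 202))))) (XT.nd (nat_lit 234) (nat_lit 0) (nat_lit 0) (XT.nd (nat_lit 78) (nat_lit 0) (nat_lit 0) (XT.lf (nat_lit 0) (nat_lit 388583897942) (nat_lit 76) (nat_lit 35290853553) (nat_lit 76) (nat_lit 35068237409) (nat_lit 1) (nat_lit 4) (nat_lit 2) (nat_lit 5) (nat_lit 2) (nat_lit 4) (nat_lit 315) (nat_lit 204)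 (nat_lit 201)) (XT.nd (nat_lit 78) (nat_lit 0) (nat_lit 0) (XT.lf (nat_lit 0) (nat_lit 421069180049) (nat_lit 76) (nat_lit 37405640119) (nat_lit 76) (nat_lit 37119530241) (nat_lit 1) (nat_lit 4) (nat_lit 2) (nat_lit 5) (nat_lit 2) (nat_lit 4) (nat_lit 316) (nat_lit 204) (nat_lit 200)) (XT.lf (nat_lit 0) (nat_lit 456090653097) (nat_lit 76) (nat_lit 39717468837) (nat_lit 76) (nat_lit 39372568464) (nat_lit 1) (nat_lit 4) (nat_lit 2) (nat_lit 5) (nat_lit 2) (nat_lit 4) (nat_lit 317) (nat_lit 204) (nat_lit 199)))) (XT.nd (nat_lit 78) (nat_lit 0) (nat_lit 0) (XT.lf (nat_lit 0) (nat_lit 493855851743) (nat_lit 76) (nat_lit 42240039431) (nat_lit 76) (nat_lit 41840703414) (nat_lit 1) (nat_lit 4) (nat_lit 2) (nat_lit 5) (nat_lit 2) (nat_lit 4) (nat_lit 318) (nat_lit 204) (nat_lit 198)) (XT.nd (nat_lit 78) (nat_lit 0) (nat_lit 0) (XT.lf (nat_lit 0) (nat_lit 534588569755) (nat_lit 76) (nat_lit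 44988300467) (nat_lit 76) (nat_lit 44538561078) (nat_lit 1) (nat_lit 4) (nat_lit 2) (nat_lit 5) (nat_lit 2) (nat_lit 4) (nat_lit 319) (nat_lit 204) (nat_lit 197)) (XT.lf (nat_lit 0) (nat_lit 578530186204) (nat_lit 76) (nat_lit 47978537938) (nat_lit 76) (nat_lit 47482128758) (nat_lit 1) (nat_lit 4) (nat_lit 2) (nat_lit 5) (nat_lit 2) (nat_lit 4) (nat_lit 320) (nat_lit 204) (nat_lit 196)))))) (XT.nd (nat_lit 468) (nat_lit 0) (nat_lit 0) (XT.nd (nat_lit 234) (nat_lit 0) (nat_lit 0) (XT.nd (nat_lit 78) (nat_lit 0) (nat_lit 0) (XT.lf (nat_lit 0) (nat_lit 625941095854) (nat_lit 76) (nat_lit 51228471769) (nat_lit 76) (nat_lit 50688849820) (nat_lit 1) (nat_lit 4) (nat_lit 2) (nat_lit 5) (nat_lit 2) (nat_lit 4) (nat_lit 321) (nat_lit 204) (nat_lit 195)) (XT.nd (nat_lit 78) (nat_lit 0) (nat_lit 0) (XT.lf (nat_lit 0) (nat_lit 677102252243) (nat_lit 76) (nat_lit 54757360827) (nat_lit 76) (nat_lit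 54177727056) (nat_lit 1) (nat_lit 4) (nat_lit 2) (nat_lit 5) (nat_lit 2) (nat_lit 4) (nat_lit 322) (nat_lit 204) (nat_lit 194)) (XT.lf (nat_lit 0) (nat_lit 732316832594) (nat_lit 76) (nat_lit 58586117047) (nat_lit 76) (nat_lit 57969435292) (nat_lit 1) (nat_lit 4) (nat_lit 2) (nat_lit 5) (nat_lit 2) (nat_lit 4) (nat_lit 323) (nat_lit 204) (nat_lit 193)))) (XT.nd (nat_lit 78) (nat_lit 0) (nat_lit 0) (XT.lf (nat_lit 0) (nat_lit 791912034421) (nat_lit 76) (nat_lit 62737429355) (nat_lit 76) (nat_lit 62086443911) (nat_lit 1) (nat_lit 4) (nat_lit 2) (nat_lit 5) (nat_lit 2) (nat_lit 4) (nat_lit 324) (nat_lit 204) (nat_lit 192)) (XT.nd (nat_lit 78) (nat_lit 0) (nat_lit 0) (XT.lf (nat_lit 0) (nat_lit 856241014475) (nat_lit 76) (nat_lit 67235898121) (nat_lit 76) (nat_lit 66553150001) (nat_lit 1) (nat_lit 4) (nat_lit 2) (nat_lit 5) (nat_lit 2) (nat_lit 4) (nat_lit 325) (nat_lit 204) (nat_lit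 191)) (XT.lf (nat_lit 0) (nat_lit 925684981527) (nat_lit 76) (nat_lit 72108180936) (nat_lit 76) (nat_lit 71396022932) (nat_lit 1) (nat_lit 4) (nat_lit 2) (nat_lit 5) (nat_lit 2) (nat_lit 4) (nat_lit 326) (nat_lit 204) (nat_lit 190))))) (XT.nd (nat_lit 234) (nat_lit 0) (nat_lit 0) (XT.nd (nat_lit 78) (nat_lit 0) (nat_lit 0) (XT.lf (nat_lit 0) (nat_lit 1000655455382) (nat_lit 76) (nat_lit 77383150588) (nat_lit 76) (nat_lit 76643761210) (nat_lit 1) (nat_lit 4) (nat_lit 2) (nat_lit 5) (nat_lit 2) (nat_lit 4) (nat_lit 327) (nat_lit 204) (nat_lit 189)) (XT.nd (nat_lit 78) (nat_lit 0) (nat_lit 0) (XT.lf (nat_lit 0) (nat_lit 1081596705514) (nat_lit 76) (nat_lit 83092066157) (nat_lit 76) (nat_lit 82327462543) (nat_lit 1) (nat_lit 4) (nat_lit 2) (nat_lit 5) (nat_lit 2) (nat_lit 4) (nat_lit 328) (nat_lit 204) (nat_lit 188)) (XT.lf (nat_lit 0) (nat_lit 1168988383776) (nat_lit 76) (nat_lit 89268758253)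 (nat_lit 76) (nat_lit 88480808125) (nat_lit 1) (nat_lit 4) (nat_lit 2) (nat_lit 5) (nat_lit 2) (nat_lit 4) (nat_lit 329) (nat_lit 204) (nat_lit 187)))) (XT.nd (nat_lit 78) (nat_lit 0) (nat_lit 0) (XT.lf (nat_lit 0) (nat_lit 1263348366780) (nat_lit 76) (nat_lit 95949829496) (nat_lit 76) (nat_lit 95140262225) (nat_lit 1) (nat_lit 4) (nat_lit 2) (nat_lit 5) (nat_lit 2) (nat_lit 4) (nat_lit 330) (nat_lit 204) (nat_lit 186)) (XT.nd (nat_lit 78) (nat_lit 0) (nat_lit 0) (XT.lf (nat_lit 0) (nat_lit 1365235824795) (nat_lit 76) (nat_lit 103174871419) (nat_lit 76) (nat_lit 102345288275) (nat_lit 1) (nat_lit 4) (nat_lit 2) (nat_lit 5) (nat_lit 2) (nat_lit 4) (nat_lit 331) (nat_lit 204) (nat_lit 185)) (XT.lf (nat_lit 0) (nat_lit 1475254535351) (nat_lit 76) (nat_lit 110986699086) (nat_lit 76) (nat_lit 110138582726) (nat_lit 1) (nat_lit 4) (nat_lit 2) (nat_lit 5) (nat_lit 2) (nat_lit 4) (nat_lit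 332) (nat_lit 204) (nat_lit 184))))))))
noncomputable def xc4 : XT := (XT.nd (nat_lit 37050) (nat_lit 0) (nat_lit 0) (XT.nd (nat_lit 36114) (nat_lit 0) (nat_lit 0) (XT.nd (nat_lit 390) (nat_lit 0) (nat_lit 0) (XT.nd (nat_lit 156) (nat_lit 0) (nat_lit 0) (XT.nd (nat_lit 78) (nat_lit 0) (nat_lit 0) (XT.lf (nat_lit 0) (nat_lit 1594056461177) (nat_lit 76) (nat_lit 119431604808) (nat_lit 76) (nat_lit 118566328063) (nat_lit 1) (nat_lit 4) (nat_lit 2) (nat_lit 5) (nat_lit 2) (nat_lit 4) (nat_lit 333) (nat_lit 204) (nat_lit 183)) (XT.lf (nat_lit 0) (nat_lit 1722345613684) (nat_lit 76) (nat_lit 128559632472) (nat_lit 76) (nat_lit 127678466481) (nat_lit 1) (nat_lit 4) (nat_lit 2) (nat_lit 5) (nat_lit 2) (nat_lit 4) (nat_lit 334) (nat_lit 204) (nat_lit 182))) (XT.nd (nat_lit 78) (nat_lit 0) (nat_lit 0) (XT.lf (nat_lit 0) (nat_lit 1860882224889) (nat_lit 76) (nat_lit 138424874093) (nat_lit 76)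 (nat_lit 137528995838) (nat_lit 1) (nat_lit 4) (nat_lit 2) (nat_lit 5) (nat_lit 2) (nat_lit 4) (nat_lit 335) (nat_lit 204) (nat_lit 181)) (XT.nd (nat_lit 78) (nat_lit 0) (nat_lit 0) (XT.lf (nat_lit 0) (nat_lit 2010487252486) (nat_lit 76) (nat_lit 149085790362) (nat_lit 76) (nat_lit 148176289640) (nat_lit 1) (nat_lit 4) (nat_lit 2) (nat_lit 5) (nat_lit 2) (nat_lit 4) (nat_lit 336) (nat_lit 204) (nat_lit 180)) (XT.lf (nat_lit 0) (nat_lit 2172047244788) (nat_lit 76) (nat_lit 160605557079) (nat_lit 76) (nat_lit 159683442963) (nat_lit 1) (nat_lit 4) (nat_lit 2) (nat_lit 5) (nat_lit 2) (nat_lit 4) (nat_lit 337) (nat_lit 204) (nat_lit 179))))) (XT.nd (nat_lit 35490) (nat_lit 0) (nat_lit 0) (XT.nd (nat_lit 35334) (nat_lit 0) (nat_lit 0) (XT.lf (nat_lit 0) (nat_lit 2346519594342) (nat_lit 76) (nat_lit 173052439530) (nat_lit 76) (nat_lit 172118646343) (nat_lit 1) (nat_lit 4) (nat_lit 2) (nat_lit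 5) (nat_lit 2) (nat_lit 4) (nat_lit 338) (nat_lit 204) (nat_lit 178)) (XT.nd (nat_lit 78) (nat_lit 0) (nat_lit 0) (XT.lf (nat_lit 0) (nat_lit 128985651561) (nat_lit 76) (nat_lit 13668760294) (nat_lit 76) (nat_lit 13668760294) (nat_lit 1) (nat_lit 4) (nat_lit 2) (nat_lit 5) (nat_lit 2) (nat_lit 4) (nat_lit 310) (nat_lit 205) (nat_lit 205)) (XT.lf (nat_lit 0) (nat_lit 280356624242) (nat_lit 76) (nat_lit 28653870211) (nat_lit 76) (nat_lit 28567487687) (nat_lit 1) (nat_lit 4) (nat_lit 2) (nat_lit 5) (nat_lit 2) (nat_lit 4) (nat_lit 311) (nat_lit 205) (nat_lit 204)))) (XT.nd (nat_lit 78) (nat_lit 0) (nat_lit 0) (XT.lf (nat_lit 0) (nat_lit 304447561415) (nat_lit 76) (nat_lit 30113429973) (nat_lit 76) (nat_lit 29947063629) (nat_lit 1) (nat_lit 4) (nat_lit 2) (nat_lit 5) (nat_lit 2) (nat_lit 4) (nat_lit 312) (nat_lit 205) (nat_lit 203)) (XT.nd (nat_lit 78) (nat_lit 0) (nat_lit 0) (XT.lf (nat_lit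 0) (nat_lit 330386875750) (nat_lit 76) (nat_lit 31724849115) (nat_lit 76) (nat_lit 31484423680) (nat_lit 1) (nat_lit 4) (nat_lit 2) (nat_lit 5) (nat_lit 2) (nat_lit 4) (nat_lit 313) (nat_lit 205) (nat_lit 202)) (XT.lf (nat_lit 0) (nat_lit 358328281702) (nat_lit 76) (nat_lit 33497676789) (nat_lit 76) (nat_lit 33188678121) (nat_lit 1) (nat_lit 4) (nat_lit 2) (nat_lit 5) (nat_lit 2) (nat_lit 4) (nat_lit 314) (nat_lit 205) (nat_lit 201)))))) (XT.nd (nat_lit 468) (nat_lit 0) (nat_lit 0) (XT.nd (nat_lit 234) (nat_lit 0) (nat_lit 0) (XT.nd (nat_lit 78) (nat_lit 0) (nat_lit 0) (XT.lf (nat_lit 0) (nat_lit 388437357974) (nat_lit 76) (nat_lit 35442418641) (nat_lit 76) (nat_lit 35069926238) (nat_lit 1) (nat_lit 4) (nat_lit 2) (nat_lit 5) (nat_lit 2) (nat_lit 4) (nat_lit 315) (nat_lit 205) (nat_lit 200)) (XT.nd (nat_lit 78) (nat_lit 0) (nat_lit 0) (XT.lf (nat_lit 0) (nat_lit 420892528722) (nat_lit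 76) (nat_lit 37570599066) (nat_lit 76) (nat_lit 37139316169) (nat_lit 1) (nat_lit 4) (nat_lit 2) (nat_lit 5) (nat_lit 2) (nat_lit 4) (nat_lit 316) (nat_lit 205) (nat_lit 199)) (XT.lf (nat_lit 0) (nat_lit 455886120882) (nat_lit 76) (nat_lit 39894829504) (nat_lit 76) (nat_lit 39409110963) (nat_lit 1) (nat_lit 4) (nat_lit 2) (nat_lit 5) (nat_lit 2) (nat_lit 4) (nat_lit 317) (nat_lit 205) (nat_lit 198)))) (XT.nd (nat_lit 78) (nat_lit 0) (nat_lit 0) (XT.lf (nat_lit 0) (nat_lit 493625503891) (nat_lit 76) (nat_lit 42428883173) (nat_lit 76) (nat_lit 41892761259) (nat_lit 1) (nat_lit 4) (nat_lit 2) (nat_lit 5) (nat_lit 2) (nat_lit 4) (nat_lit 318) (nat_lit 205) (nat_lit 197)) (XT.nd (nat_lit 78) (nat_lit 0) (nat_lit 0) (XT.lf (nat_lit 0) (nat_lit 534334318536) (nat_lit 76) (nat_lit 45187776686) (nat_lit 76) (nat_lit 44604984982) (nat_lit 1) (nat_lit 4) (nat_lit 2) (nat_lit 5) (nat_lit 2) (nat_lit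 4) (nat_lit 319) (nat_lit 205) (nat_lit 196)) (XT.lf (nat_lit 0) (nat_lit 578253802237) (nat_lit 76) (nat_lit 48187859043) (nat_lit 76) (nat_lit 47561854569) (nat_lit 1) (nat_lit 4) (nat_lit 2) (nat_lit 5) (nat_lit 2) (nat_lit 4) (nat_lit 320) (nat_lit 205) (nat_lit 195))))) (XT.nd (nat_lit 234) (nat_lit 0) (nat_lit 0) (XT.nd (nat_lit 78) (nat_lit 0) (nat_lit 0) (XT.lf (nat_lit 0) (nat_lit 625644218602) (nat_lit 76) (nat_lit 51446908508) (nat_lit 76) (nat_lit 50780892212) (nat_lit 1) (nat_lit 4) (nat_lit 2) (nat_lit 5) (nat_lit 2) (nat_lit 4) (nat_lit 321) (nat_lit 205) (nat_lit 194)) (XT.nd (nat_lit 78) (nat_lit 0) (nat_lit 0) (XT.lf (nat_lit 0) (nat_lit 676786399727) (nat_lit 76) (nat_lit 54984237969) (nat_lit 76) (nat_lit 54281173689) (nat_lit 1) (nat_lit 4) (nat_lit 2) (nat_lit 5) (nat_lit 2) (nat_lit 4) (nat_lit 322) (nat_lit 205) (nat_lit 193)) (XT.lf (nat_lit 0) (nat_lit 731983410390)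 (nat_lit 76) (nat_lit 58820809377) (nat_lit 76) (nat_lit 58083441408) (nat_lit 1) (nat_lit 4) (nat_lit 2) (nat_lit 5) (nat_lit 2) (nat_lit 4) (nat_lit 323) (nat_lit 205) (nat_lit 192)))) (XT.nd (nat_lit 78) (nat_lit 0) (nat_lit 0) (XT.lf (nat_lit 0) (nat_lit 791562343986) (nat_lit 76) (nat_lit 62979357970) (nat_lit 76) (nat_lit 62210227326) (nat_lit 1) (nat_lit 4) (nat_lit 2) (nat_lit 5) (nat_lit 2) (nat_lit 4) (nat_lit 324) (nat_lit 205) (nat_lit 191)) (XT.nd (nat_lit 78) (nat_lit 0) (nat_lit 0) (XT.lf (nat_lit 0) (nat_lit 855876260864) (nat_lit 76) (nat_lit 67484526999) (nat_lit 76) (nat_lit 66685986471) (nat_lit 1) (nat_lit 4) (nat_lit 2) (nat_lit 5) (nat_lit 2) (nat_lit 4) (nat_lit 325) (nat_lit 205) (nat_lit 190)) (XT.lf (nat_lit 0) (nat_lit 925306280531) (nat_lit 76) (nat_lit 72363013762) (nat_lit 76) (nat_lit 71537241860) (nat_lit 1) (nat_lit 4) (nat_lit 2) (nat_lit 5) (nat_lit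 2) (nat_lit 4) (nat_lit 326) (nat_lit 205) (nat_lit 189))))))) (XT.nd (nat_lit 36036) (nat_lit 0) (nat_lit 0) (XT.nd (nat_lit 468) (nat_lit 0) (nat_lit 0) (XT.nd (nat_lit 234) (nat_lit 0) (nat_lit 0) (XT.nd (nat_lit 78) (nat_lit 0) (nat_lit 0) (XT.lf (nat_lit 0) (nat_lit 1000263840140) (nat_lit 76) (nat_lit 77643727811) (nat_lit 76) (nat_lit 76792741673) (nat_lit 1) (nat_lit 4) (nat_lit 2) (nat_lit 5) (nat_lit 2) (nat_lit 4) (nat_lit 327) (nat_lit 205) (nat_lit 188)) (XT.nd (nat_lit 78) (nat_lit 0) (nat_lit 0) (XT.lf (nat_lit 0) (nat_lit 1081193132637) (nat_lit 76) (nat_lit 83357962265) (nat_lit 76) (nat_lit 82483629612) (nat_lit 1) (nat_lit 4) (nat_lit 2) (nat_lit 5) (nat_lit 2) (nat_lit 4) (nat_lit 328) (nat_lit 205) (nat_lit 187)) (XT.lf (nat_lit 0) (nat_lit 1168573739015) (nat_lit 76) (nat_lit 89539579255) (nat_lit 76) (nat_lit 88643629459) (nat_lit 1) (nat_lit 4) (nat_lit 2)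 (nat_lit 5) (nat_lit 2) (nat_lit 4) (nat_lit 329) (nat_lit 205) (nat_lit 186)))) (XT.nd (nat_lit 78) (nat_lit 0) (nat_lit 0) (XT.lf (nat_lit 0) (nat_lit 1262923470274) (nat_lit 76) (nat_lit 96225210584) (nat_lit 76) (nat_lit 95309244916) (nat_lit 1) (nat_lit 4) (nat_lit 2) (nat_lit 5) (nat_lit 2) (nat_lit 4) (nat_lit 330) (nat_lit 205) (nat_lit 185)) (XT.nd (nat_lit 78) (nat_lit 0) (nat_lit 0) (XT.lf (nat_lit 0) (nat_lit 1364801435933) (nat_lit 76) (nat_lit 103454474810) (nat_lit 76) (nat_lit 102519975926) (nat_lit 1) (nat_lit 4) (nat_lit 2) (nat_lit 5) (nat_lit 2) (nat_lit 4) (nat_lit 331) (nat_lit 205) (nat_lit 184)) (XT.lf (nat_lit 0) (nat_lit 1474811357271) (nat_lit 76) (nat_lit 111270212017) (nat_lit 76) (nat_lit 110318552747) (nat_lit 1) (nat_lit 4) (nat_lit 2) (nat_lit 5) (nat_lit 2) (nat_lit 4) (nat_lit 332) (nat_lit 205) (nat_lit 183))))) (XT.nd (nat_lit 234) (nat_lit 0)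 (nat_lit 0) (XT.nd (nat_lit 78) (nat_lit 0) (nat_lit 0) (XT.lf (nat_lit 0) (nat_lit 1593605144931) (nat_lit 76) (nat_lit 119718737683) (nat_lit 76) (nat_lit 118751189168) (nat_lit 1) (nat_lit 4) (nat_lit 2) (nat_lit 5) (nat_lit 2) (nat_lit 4) (nat_lit 333) (nat_lit 205) (nat_lit 182)) (XT.nd (nat_lit 78) (nat_lit 0) (nat_lit 0) (XT.lf (nat_lit 0) (nat_lit 1721886762100) (nat_lit 76) (nat_lit 128850117147) (nat_lit 76) (nat_lit 127867856368) (nat_lit 1) (nat_lit 4) (nat_lit 2) (nat_lit 5) (nat_lit 2) (nat_lit 4) (nat_lit 334) (nat_lit 205) (nat_lit 181)) (XT.lf (nat_lit 0) (nat_lit 1860416396139) (nat_lit 76) (nat_lit 138718462286) (nat_lit 76) (nat_lit 137722579041) (nat_lit 1) (nat_lit 4) (nat_lit 2) (nat_lit 5) (nat_lit 2) (nat_lit 4) (nat_lit 335) (nat_lit 205) (nat_lit 180)))) (XT.nd (nat_lit 78) (nat_lit 0) (nat_lit 0) (XT.lf (nat_lit 0) (nat_lit 2010014963399) (nat_lit 76) (nat_lit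 149382252184) (nat_lit 76) (nat_lit 148373755543) (nat_lit 1) (nat_lit 4) (nat_lit 2) (nat_lit 5) (nat_lit 2) (nat_lit 4) (nat_lit 336) (nat_lit 205) (nat_lit 179)) (XT.nd (nat_lit 78) (nat_lit 0) (nat_lit 0) (XT.lf (nat_lit 0) (nat_lit 2171568973906) (nat_lit 76) (nat_lit 160904679668) (nat_lit 76) (nat_lit 159884503958) (nat_lit 1) (nat_lit 4) (nat_lit 2) (nat_lit 5) (nat_lit 2) (nat_lit 4) (nat_lit 337) (nat_lit 205) (nat_lit 178)) (XT.lf (nat_lit 0) (nat_lit 2346035784761) (nat_lit 76) (nat_lit 173354025792) (nat_lit 76) (nat_lit 172323036127) (nat_lit 1) (nat_lit 4) (nat_lit 2) (nat_lit 5) (nat_lit 2) (nat_lit 4) (nat_lit 338) (nat_lit 205) (nat_lit 177)))))) (XT.nd (nat_lit 468) (nat_lit 0) (nat_lit 0) (XT.nd (nat_lit 234) (nat_lit 0) (nat_lit 0) (XT.nd (nat_lit 78) (nat_lit 0) (nat_lit 0) (XT.lf (nat_lit 0) (nat_lit 108921999112) (nat_lit 76) (nat_lit 12588045290) (nat_lit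 76) (nat_lit 12588045290) (nat_lit 1) (nat_lit 4) (nat_lit 2) (nat_lit 5) (nat_lit 2) (nat_lit 4) (nat_lit 308) (nat_lit 206) (nat_lit 206)) (XT.nd (nat_lit 78) (nat_lit 0) (nat_lit 0) (XT.lf (nat_lit 0) (nat_lit 237158944301) (nat_lit 76) (nat_lit 26249873640) (nat_lit 76) (nat_lit 26156580514) (nat_lit 1) (nat_lit 4) (nat_lit 2) (nat_lit 5) (nat_lit 2) (nat_lit 4) (nat_lit 309) (nat_lit 206) (nat_lit 205)) (XT.lf (nat_lit 0) (nat_lit 257927059657) (nat_lit 76) (nat_lit 27450493687) (nat_lit 76) (nat_lit 27270818036) (nat_lit 1) (nat_lit 4) (nat_lit 2) (nat_lit 5) (nat_lit 2) (nat_lit 4) (nat_lit 310) (nat_lit 206) (nat_lit 204)))) (XT.nd (nat_lit 78) (nat_lit 0) (nat_lit 0) (XT.lf (nat_lit 0) (nat_lit 280271414606) (nat_lit 76) (nat_lit 28785065506) (nat_lit 76) (nat_lit 28525406036) (nat_lit 1) (nat_lit 4) (nat_lit 2) (nat_lit 5) (nat_lit 2) (nat_lit 4) (nat_lit 311) (nat_lit 206)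 (nat_lit 203)) (XT.nd (nat_lit 78) (nat_lit 0) (nat_lit 0) (XT.lf (nat_lit 0) (nat_lit 304324420138) (nat_lit 76) (nat_lit 30261497672) (nat_lit 76) (nat_lit 29927779110) (nat_lit 1) (nat_lit 4) (nat_lit 2) (nat_lit 5) (nat_lit 2) (nat_lit 4) (nat_lit 312) (nat_lit 206) (nat_lit 202)) (XT.lf (nat_lit 0) (nat_lit 330228612584) (nat_lit 76) (nat_lit 31888539411) (nat_lit 76) (nat_lit 31486247616) (nat_lit 1) (nat_lit 4) (nat_lit 2) (nat_lit 5) (nat_lit 2) (nat_lit 4) (nat_lit 313) (nat_lit 206) (nat_lit 201))))) (XT.nd (nat_lit 234) (nat_lit 0) (nat_lit 0) (XT.nd (nat_lit 78) (nat_lit 0) (nat_lit 0) (XT.lf (nat_lit 0) (nat_lit 358137498269) (nat_lit 76) (nat_lit 33675832452) (nat_lit 76) (nat_lit 33210046923) (nat_lit 1) (nat_lit 4) (nat_lit 2) (nat_lit 5) (nat_lit 2) (nat_lit 4) (nat_lit 314) (nat_lit 206) (nat_lit 200)) (XT.nd (nat_lit 78) (nat_lit 0) (nat_lit 0) (XT.lf (nat_lit 0)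 (nat_lit 388216463182) (nat_lit 76) (nat_lit 35633968162) (nat_lit 76) (nat_lit 35109392138) (nat_lit 1) (nat_lit 4) (nat_lit 2) (nat_lit 5) (nat_lit 2) (nat_lit 4) (nat_lit 315) (nat_lit 206) (nat_lit 199)) (XT.lf (nat_lit 0) (nat_lit 420643753042) (nat_lit 76) (nat_lit 37774550308) (nat_lit 76) (nat_lit 37195538640) (nat_lit 1) (nat_lit 4) (nat_lit 2) (nat_lit 5) (nat_lit 2) (nat_lit 4) (nat_lit 316) (nat_lit 206) (nat_lit 198)))) (XT.nd (nat_lit 78) (nat_lit 0) (nat_lit 0) (XT.lf (nat_lit 0) (nat_lit 455611529565) (nat_lit 76) (nat_lit 40110263820) (nat_lit 76) (nat_lit 39480848780) (nat_lit 1) (nat_lit 4) (nat_lit 2) (nat_lit 5) (nat_lit 2) (nat_lit 4) (nat_lit 317) (nat_lit 206) (nat_lit 197)) (XT.nd (nat_lit 78) (nat_lit 0) (nat_lit 0) (XT.lf (nat_lit 0) (nat_lit 493327009207) (nat_lit 76) (nat_lit 42654949965) (nat_lit 76) (nat_lit 41978865134) (nat_lit 1) (nat_lit 4) (nat_lit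 2) (nat_lit 5) (nat_lit 2) (nat_lit 4) (nat_lit 318) (nat_lit 206) (nat_lit 196)) (XT.lf (nat_lit 0) (nat_lit 534013691104) (nat_lit 76) (nat_lit 45423688364) (nat_lit 76) (nat_lit 44704390765) (nat_lit 1) (nat_lit 4) (nat_lit 2) (nat_lit 5) (nat_lit 2) (nat_lit 4) (nat_lit 319) (nat_lit 206) (nat_lit 195))))))))
noncomputable def xc5 : XT := (XT.nd (nat_lit 36894) (nat_lit 0) (nat_lit 0) (XT.nd (nat_lit 936) (nat_lit 0) (nat_lit 0) (XT.nd (nat_lit 468) (nat_lit 0) (nat_lit 0) (XT.nd (nat_lit 234) (nat_lit 0) (nat_lit 0) (XT.nd (nat_lit 78) (nat_lit 0) (nat_lit 0) (XT.lf (nat_lit 0) (nat_lit 577912681520) (nat_lit 76) (nat_lit 48432886356) (nat_lit 76) (nat_lit 47673576933) (nat_lit 1) (nat_lit 4) (nat_lit 2) (nat_lit 5) (nat_lit 2) (nat_lit 4) (nat_lit 320) (nat_lit 206) (nat_lit 194)) (XT.nd (nat_lit 78) (nat_lit 0) (nat_lit 0) (XT.lf (nat_lit 0) (nat_lit 625284122621) (nat_lit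 76) (nat_lit 51700376224) (nat_lit 76) (nat_lit 50904018818) (nat_lit 1) (nat_lit 4) (nat_lit 2) (nat_lit 5) (nat_lit 2) (nat_lit 4) (nat_lit 321) (nat_lit 206) (nat_lit 193)) (XT.lf (nat_lit 0) (nat_lit 676408734057) (nat_lit 76) (nat_lit 55245520873) (nat_lit 76) (nat_lit 54414859777) (nat_lit 1) (nat_lit 4) (nat_lit 2) (nat_lit 5) (nat_lit 2) (nat_lit 4) (nat_lit 322) (nat_lit 206) (nat_lit 192)))) (XT.nd (nat_lit 78) (nat_lit 0) (nat_lit 0) (XT.lf (nat_lit 0) (nat_lit 731589476490) (nat_lit 76) (nat_lit 59089328565) (nat_lit 76) (nat_lit 58226904795) (nat_lit 1) (nat_lit 4) (nat_lit 2) (nat_lit 5) (nat_lit 2) (nat_lit 4) (nat_lit 323) (nat_lit 206) (nat_lit 191)) (XT.nd (nat_lit 78) (nat_lit 0) (nat_lit 0) (XT.lf (nat_lit 0) (nat_lit 791153346910) (nat_lit 76) (nat_lit 63254577422) (nat_lit 76) (nat_lit 62362743767) (nat_lit 1) (nat_lit 4) (nat_lit 2) (nat_lit 5) (nat_lit 2) (nat_lit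 4) (nat_lit 324) (nat_lit 206) (nat_lit 190)) (XT.lf (nat_lit 0) (nat_lit 855453316403) (nat_lit 76) (nat_lit 67765950399) (nat_lit 76) (nat_lit 66846885370) (nat_lit 1) (nat_lit 4) (nat_lit 2) (nat_lit 5) (nat_lit 2) (nat_lit 4) (nat_lit 325) (nat_lit 206) (nat_lit 189))))) (XT.nd (nat_lit 234) (nat_lit 0) (nat_lit 0) (XT.nd (nat_lit 78) (nat_lit 0) (nat_lit 0) (XT.lf (nat_lit 0) (nat_lit 924870421824) (nat_lit 76) (nat_lit 72650181559) (nat_lit 76) (nat_lit 71705902294) (nat_lit 1) (nat_lit 4) (nat_lit 2) (nat_lit 5) (nat_lit 2) (nat_lit 4) (nat_lit 326) (nat_lit 206) (nat_lit 188)) (XT.nd (nat_lit 78) (nat_lit 0) (nat_lit 0) (XT.lf (nat_lit 0) (nat_lit 999816023798) (nat_lit 76) (nat_lit 77936214493) (nat_lit 76) (nat_lit 76968588714) (nat_lit 1) (nat_lit 4) (nat_lit 2) (nat_lit 5) (nat_lit 2) (nat_lit 4) (nat_lit 327) (nat_lit 206) (nat_lit 187)) (XT.lf (nat_lit 0) (nat_lit 1080734244411)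 (nat_lit 76) (nat_lit 83655373841) (nat_lit 76) (nat_lit 82666130919) (nat_lit 1) (nat_lit 4) (nat_lit 2) (nat_lit 5) (nat_lit 2) (nat_lit 4) (nat_lit 328) (nat_lit 206) (nat_lit 186)))) (XT.nd (nat_lit 78) (nat_lit 0) (nat_lit 0) (XT.lf (nat_lit 0) (nat_lit 1168104599044) (nat_lit 76) (nat_lit 89841550918) (nat_lit 76) (nat_lit 88832292123) (nat_lit 1) (nat_lit 4) (nat_lit 2) (nat_lit 5) (nat_lit 2) (nat_lit 4) (nat_lit 329) (nat_lit 206) (nat_lit 185)) (XT.nd (nat_lit 78) (nat_lit 0) (nat_lit 0) (XT.lf (nat_lit 0) (nat_lit 1262444837947) (nat_lit 76) (nat_lit 96531404550) (nat_lit 76) (nat_lit 95503612539) (nat_lit 1) (nat_lit 4) (nat_lit 2) (nat_lit 5) (nat_lit 2) (nat_lit 4) (nat_lit 330) (nat_lit 206) (nat_lit 184)) (XT.lf (nat_lit 0) (nat_lit 1364314014388) (nat_lit 76) (nat_lit 103764578316) (nat_lit 76) (nat_lit 102719625920) (nat_lit 1) (nat_lit 4) (nat_lit 2) (nat_lit 5)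 (nat_lit 2) (nat_lit 4) (nat_lit 331) (nat_lit 206) (nat_lit 183)))))) (XT.nd (nat_lit 35490) (nat_lit 0) (nat_lit 0) (XT.nd (nat_lit 234) (nat_lit 0) (nat_lit 0) (XT.nd (nat_lit 78) (nat_lit 0) (nat_lit 0) (XT.lf (nat_lit 0) (nat_lit 1474315797560) (nat_lit 76) (nat_lit 111583935466) (nat_lit 76) (nat_lit 110523093825) (nat_lit 1) (nat_lit 4) (nat_lit 2) (nat_lit 5) (nat_lit 2) (nat_lit 4) (nat_lit 332) (nat_lit 206) (nat_lit 182)) (XT.nd (nat_lit 78) (nat_lit 0) (nat_lit 0) (XT.lf (nat_lit 0) (nat_lit 1593102049882) (nat_lit 76) (nat_lit 120035812932) (nat_lit 76) (nat_lit 118960259027) (nat_lit 1) (nat_lit 4) (nat_lit 2) (nat_lit 5) (nat_lit 2) (nat_lit 4) (nat_lit 333) (nat_lit 206) (nat_lit 181)) (XT.lf (nat_lit 0) (nat_lit 1721376689886) (nat_lit 76) (nat_lit 129170295915) (nat_lit 76) (nat_lit 128081119542) (nat_lit 1) (nat_lit 4) (nat_lit 2) (nat_lit 5) (nat_lit 2) (nat_lit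 4) (nat_lit 334) (nat_lit 206) (nat_lit 180)))) (XT.nd (nat_lit 78) (nat_lit 0) (nat_lit 0) (XT.lf (nat_lit 0) (nat_lit 1859899863587) (nat_lit 76) (nat_lit 139041514682) (nat_lit 76) (nat_lit 137939724915) (nat_lit 1) (nat_lit 4) (nat_lit 2) (nat_lit 5) (nat_lit 2) (nat_lit 4) (nat_lit 335) (nat_lit 206) (nat_lit 179)) (XT.nd (nat_lit 78) (nat_lit 0) (nat_lit 0) (XT.lf (nat_lit 0) (nat_lit 2009492449052) (nat_lit 76) (nat_lit 149707965347) (nat_lit 76) (nat_lit 148594496510) (nat_lit 1) (nat_lit 4) (nat_lit 2) (nat_lit 5) (nat_lit 2) (nat_lit 4) (nat_lit 336) (nat_lit 206) (nat_lit 178)) (XT.lf (nat_lit 0) (nat_lit 2171040920861) (nat_lit 76) (nat_lit 161232856504) (nat_lit 76) (nat_lit 160108573714) (nat_lit 1) (nat_lit 4) (nat_lit 2) (nat_lit 5) (nat_lit 2) (nat_lit 4) (nat_lit 337) (nat_lit 206) (nat_lit 177))))) (XT.nd (nat_lit 234) (nat_lit 0) (nat_lit 0) (XT.nd (nat_lit 78)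 (nat_lit 0) (nat_lit 0) (XT.lf (nat_lit 0) (nat_lit 91587658411) (nat_lit 76) (nat_lit 11731049280) (nat_lit 76) (nat_lit 11731049280) (nat_lit 1) (nat_lit 4) (nat_lit 2) (nat_lit 5) (nat_lit 2) (nat_lit 4) (nat_lit 306) (nat_lit 207) (nat_lit 207)) (XT.nd (nat_lit 78) (nat_lit 0) (nat_lit 0) (XT.lf (nat_lit 0) (nat_lit 199867762486) (nat_lit 76) (nat_lit 24323537924) (nat_lit 76) (nat_lit 24222781348) (nat_lit 1) (nat_lit 4) (nat_lit 2) (nat_lit 5) (nat_lit 2) (nat_lit 4) (nat_lit 307) (nat_lit 207) (nat_lit 206)) (XT.lf (nat_lit 0) (nat_lit 217796215282) (nat_lit 76) (nat_lit 25298101526) (nat_lit 76) (nat_lit 25104051823) (nat_lit 1) (nat_lit 4) (nat_lit 2) (nat_lit 5) (nat_lit 2) (nat_lit 4) (nat_lit 308) (nat_lit 207) (nat_lit 205)))) (XT.nd (nat_lit 78) (nat_lit 0) (nat_lit 0) (XT.lf (nat_lit 0) (nat_lit 237066917894) (nat_lit 76) (nat_lit 26391564559) (nat_lit 76) (nat_lit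 26111132331) (nat_lit 1) (nat_lit 4) (nat_lit 2) (nat_lit 5) (nat_lit 2) (nat_lit 4) (nat_lit 309) (nat_lit 207) (nat_lit 204)) (XT.nd (nat_lit 78) (nat_lit 0) (nat_lit 0) (XT.lf (nat_lit 0) (nat_lit 257794067079) (nat_lit 76) (nat_lit 27610406802) (nat_lit 76) (nat_lit 27249990755) (nat_lit 1) (nat_lit 4) (nat_lit 2) (nat_lit 5) (nat_lit 2) (nat_lit 4) (nat_lit 310) (nat_lit 207) (nat_lit 203)) (XT.lf (nat_lit 0) (nat_lit 280100490387) (nat_lit 76) (nat_lit 28961851026) (nat_lit 76) (nat_lit 28527375887) (nat_lit 1) (nat_lit 4) (nat_lit 2) (nat_lit 5) (nat_lit 2) (nat_lit 4) (nat_lit 311) (nat_lit 207) (nat_lit 202))))))) (XT.nd (nat_lit 936) (nat_lit 0) (nat_lit 0) (XT.nd (nat_lit 468) (nat_lit 0) (nat_lit 0) (XT.nd (nat_lit 234) (nat_lit 0) (nat_lit 0) (XT.nd (nat_lit 78) (nat_lit 0) (nat_lit 0) (XT.lf (nat_lit 0) (nat_lit 304118374030) (nat_lit 76) (nat_lit 30453905787) (nat_lit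 76) (nat_lit 29950857415) (nat_lit 1) (nat_lit 4) (nat_lit 2) (nat_lit 5) (nat_lit 2) (nat_lit 4) (nat_lit 312) (nat_lit 207) (nat_lit 201)) (XT.nd (nat_lit 78) (nat_lit 0) (nat_lit 0) (XT.lf (nat_lit 0) (nat_lit 329990046209) (nat_lit 76) (nat_lit 32095412893) (nat_lit 76) (nat_lit 31528870787) (nat_lit 1) (nat_lit 4) (nat_lit 2) (nat_lit 5) (nat_lit 2) (nat_lit 4) (nat_lit 313) (nat_lit 207) (nat_lit 200)) (XT.lf (nat_lit 0) (nat_lit 357868820535) (nat_lit 76) (nat_lit 33896099793) (nat_lit 76) (nat_lit 33270767192) (nat_lit 1) (nat_lit 4) (nat_lit 2) (nat_lit 5) (nat_lit 2) (nat_lit 4) (nat_lit 314) (nat_lit 207) (nat_lit 199)))) (XT.nd (nat_lit 78) (nat_lit 0) (nat_lit 0) (XT.lf (nat_lit 0) (nat_lit 387919904560) (nat_lit 76) (nat_lit 35866637223) (nat_lit 76) (nat_lit 35186868979) (nat_lit 1) (nat_lit 4) (nat_lit 2) (nat_lit 5) (nat_lit 2) (nat_lit 4) (nat_lit 315) (nat_lit 207)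 (nat_lit 198)) (XT.nd (nat_lit 78) (nat_lit 0) (nat_lit 0) (XT.lf (nat_lit 0) (nat_lit 420321378783) (nat_lit 76) (nat_lit 38018702444) (nat_lit 76) (nat_lit 37288530826) (nat_lit 1) (nat_lit 4) (nat_lit 2) (nat_lit 5) (nat_lit 2) (nat_lit 4) (nat_lit 316) (nat_lit 207) (nat_lit 197)) (XT.lf (nat_lit 0) (nat_lit 455265251939) (nat_lit 76) (nat_lit 40365048433) (nat_lit 76) (nat_lit 39588207025) (nat_lit 1) (nat_lit 4) (nat_lit 2) (nat_lit 5) (nat_lit 2) (nat_lit 4) (nat_lit 317) (nat_lit 207) (nat_lit 196))))) (XT.nd (nat_lit 234) (nat_lit 0) (nat_lit 0) (XT.nd (nat_lit 78) (nat_lit 0) (nat_lit 0) (XT.lf (nat_lit 0) (nat_lit 492958598832) (nat_lit 76) (nat_lit 42919579464) (nat_lit 76) (nat_lit 42099525288) (nat_lit 1) (nat_lit 4) (nat_lit 2) (nat_lit 5) (nat_lit 2) (nat_lit 4) (nat_lit 318) (nat_lit 207) (nat_lit 195)) (XT.nd (nat_lit 78) (nat_lit 0) (nat_lit 0) (XT.lf (nat_lit 0)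 (nat_lit 533624787445) (nat_lit 76) (nat_lit 45697433498) (nat_lit 76) (nat_lit 44837367498) (nat_lit 1) (nat_lit 4) (nat_lit 2) (nat_lit 5) (nat_lit 2) (nat_lit 4) (nat_lit 319) (nat_lit 207) (nat_lit 194)) (XT.lf (nat_lit 0) (nat_lit 577504802597) (nat_lit 76) (nat_lit 48715071892) (nat_lit 76) (nat_lit 47817957909) (nat_lit 1) (nat_lit 4) (nat_lit 2) (nat_lit 5) (nat_lit 2) (nat_lit 4) (nat_lit 320) (nat_lit 207) (nat_lit 193)))) (XT.nd (nat_lit 78) (nat_lit 0) (nat_lit 0) (XT.lf (nat_lit 0) (nat_lit 624858674009) (nat_lit 76) (nat_lit 51990376948) (nat_lit 76) (nat_lit 51058959276) (nat_lit 1) (nat_lit 4) (nat_lit 2) (nat_lit 5) (nat_lit 2) (nat_lit 4) (nat_lit 321) (nat_lit 207) (nat_lit 192)) (XT.nd (nat_lit 78) (nat_lit 0) (nat_lit 0) (XT.lf (nat_lit 0) (nat_lit 675967017215) (nat_lit 76) (nat_lit 55542757881) (nat_lit 76) (nat_lit 54579577534) (nat_lit 1) (nat_lit 4) (nat_lit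 2) (nat_lit 5) (nat_lit 2) (nat_lit 4) (nat_lit 322) (nat_lit 207) (nat_lit 191)) (XT.lf (nat_lit 0) (nat_lit 731132696472) (nat_lit 76) (nat_lit 59393265838) (nat_lit 76) (nat_lit 58400675606) (nat_lit 1) (nat_lit 4) (nat_lit 2) (nat_lit 5) (nat_lit 2) (nat_lit 4) (nat_lit 323) (nat_lit 207) (nat_lit 190)))))) (XT.nd (nat_lit 468) (nat_lit 0) (nat_lit 0) (XT.nd (nat_lit 234) (nat_lit 0) (nat_lit 0) (XT.nd (nat_lit 78) (nat_lit 0) (nat_lit 0) (XT.lf (nat_lit 0) (nat_lit 790682619507) (nat_lit 76) (nat_lit 63564718642) (nat_lit 76) (nat_lit 62544897037) (nat_lit 1) (nat_lit 4) (nat_lit 2) (nat_lit 5) (nat_lit 2) (nat_lit 4) (nat_lit 324) (nat_lit 207) (nat_lit 189)) (XT.nd (nat_lit 78) (nat_lit 0) (nat_lit 0) (XT.lf (nat_lit 0) (nat_lit 854969674754) (nat_lit 76) (nat_lit 68081836016) (nat_lit 76) (nat_lit 67036800174) (nat_lit 1) (nat_lit 4) (nat_lit 2) (nat_lit 5) (nat_lit 2) (nat_lit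 4) (nat_lit 325) (nat_lit 207) (nat_lit 188)) (XT.lf (nat_lit 0) (nat_lit 924374822540) (nat_lit 76) (nat_lit 72971386061) (nat_lit 76) (nat_lit 71903003705) (nat_lit 1) (nat_lit 4) (nat_lit 2) (nat_lit 5) (nat_lit 2) (nat_lit 4) (nat_lit 326) (nat_lit 207) (nat_lit 187)))) (XT.nd (nat_lit 78) (nat_lit 0) (nat_lit 0) (XT.lf (nat_lit 0) (nat_lit 999309352630) (nat_lit 76) (nat_lit 78262343889) (nat_lit 76) (nat_lit 77172344390) (nat_lit 1) (nat_lit 4) (nat_lit 2) (nat_lit 5) (nat_lit 2) (nat_lit 4) (nat_lit 327) (nat_lit 207) (nat_lit 186)) (XT.nd (nat_lit 78) (nat_lit 0) (nat_lit 0) (XT.lf (nat_lit 0) (nat_lit 1080217321498) (nat_lit 76) (nat_lit 83986063324) (nat_lit 76) (nat_lit 82876047952) (nat_lit 1) (nat_lit 4) (nat_lit 2) (nat_lit 5) (nat_lit 2) (nat_lit 4) (nat_lit 328) (nat_lit 207) (nat_lit 185)) (XT.lf (nat_lit 0) (nat_lit 1167578183775) (nat_lit 76) (nat_lit 90176462703)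 (nat_lit 76) (nat_lit 89047914116) (nat_lit 1) (nat_lit 4) (nat_lit 2) (nat_lit 5) (nat_lit 2) (nat_lit 4) (nat_lit 329) (nat_lit 207) (nat_lit 184))))) (XT.nd (nat_lit 234) (nat_lit 0) (nat_lit 0) (XT.nd (nat_lit 78) (nat_lit 0) (nat_lit 0) (XT.lf (nat_lit 0) (nat_lit 1261909633460) (nat_lit 76) (nat_lit 96870225875) (nat_lit 76) (nat_lit 95724516903) (nat_lit 1) (nat_lit 4) (nat_lit 2) (nat_lit 5) (nat_lit 2) (nat_lit 4) (nat_lit 330) (nat_lit 207) (nat_lit 183)) (XT.nd (nat_lit 78) (nat_lit 0) (nat_lit 0) (XT.lf (nat_lit 0) (nat_lit 1363770671735) (nat_lit 76) (nat_lit 104107019585) (nat_lit 76) (nat_lit 102945421367) (nat_lit 1) (nat_lit 4) (nat_lit 2) (nat_lit 5) (nat_lit 2) (nat_lit 4) (nat_lit 331) (nat_lit 207) (nat_lit 182)) (XT.lf (nat_lit 0) (nat_lit 1473764919568) (nat_lit 76) (nat_lit 111929728535) (nat_lit 76) (nat_lit 110753418053) (nat_lit 1) (nat_lit 4) (nat_lit 2)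 (nat_lit 5) (nat_lit 2) (nat_lit 4) (nat_lit 332) (nat_lit 207) (nat_lit 181)))) (XT.nd (nat_lit 78) (nat_lit 0) (nat_lit 0) (XT.lf (nat_lit 0) (nat_lit 1592544194725) (nat_lit 76) (nat_lit 120384709520) (nat_lit 76) (nat_lit 119194776571) (nat_lit 1) (nat_lit 4) (nat_lit 2) (nat_lit 5) (nat_lit 2) (nat_lit 4) (nat_lit 333) (nat_lit 207) (nat_lit 180)) (XT.nd (nat_lit 78) (nat_lit 0) (nat_lit 0) (XT.lf (nat_lit 0) (nat_lit 1720812374391) (nat_lit 76) (nat_lit 129522066131) (nat_lit 76) (nat_lit 128319519787) (nat_lit 1) (nat_lit 4) (nat_lit 2) (nat_lit 5) (nat_lit 2) (nat_lit 4) (nat_lit 334) (nat_lit 207) (nat_lit 179)) (XT.lf (nat_lit 0) (nat_lit 1859329566298) (nat_lit 76) (nat_lit 139395945665) (nat_lit 76) (nat_lit 138181720252) (nat_lit 1) (nat_lit 4) (nat_lit 2) (nat_lit 5) (nat_lit 2) (nat_lit 4) (nat_lit 335) (nat_lit 207) (nat_lit 178))))))))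
noncomputable def xc6 : XT := (XT.nd (nat_lit 36660) (nat_lit 0) (nat_lit 0) (XT.nd (nat_lit 35724) (nat_lit 0) (nat_lit 0) (XT.nd (nat_lit 35256) (nat_lit 0) (nat_lit 0) (XT.nd (nat_lit 35022) (nat_lit 0) (nat_lit 0) (XT.nd (nat_lit 78) (nat_lit 0) (nat_lit 0) (XT.lf (nat_lit 0) (nat_lit 2008916613064) (nat_lit 76) (nat_lit 150064860003) (nat_lit 76) (nat_lit 148839820636) (nat_lit 1) (nat_lit 4) (nat_lit 2) (nat_lit 5) (nat_lit 2) (nat_lit 4) (nat_lit 336) (nat_lit 207) (nat_lit 177)) (XT.lf (nat_lit 0) (nat_lit 2170459956449) (nat_lit 76) (nat_lit 161592032339) (nat_lit 76) (nat_lit 160356980052) (nat_lit 1) (nat_lit 4) (nat_lit 2) (nat_lit 5) (nat_lit 2) (nat_lit 4) (nat_lit 337) (nat_lit 207) (nat_lit 176))) (XT.nd (nat_lit 78) (nat_lit 0) (nat_lit 0) (XT.lf (nat_lit 0) (nat_lit 76582623220) (nat_lit 76) (nat_lit 11071419682) (nat_lit 76) (nat_lit 11071419682) (nat_lit 1) (nat_lit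 4) (nat_lit 2) (nat_lit 5) (nat_lit 2) (nat_lit 4) (nat_lit 304) (nat_lit 208) (nat_lit 208)) (XT.nd (nat_lit 78) (nat_lit 0) (nat_lit 0) (XT.lf (nat_lit 0) (nat_lit 167619960097) (nat_lit 76) (nat_lit 22817495712) (nat_lit 76) (nat_lit 22708678609) (nat_lit 1) (nat_lit 4) (nat_lit 2) (nat_lit 5) (nat_lit 2) (nat_lit 4) (nat_lit 305) (nat_lit 208) (nat_lit 207)) (XT.lf (nat_lit 0) (nat_lit 183123711246) (nat_lit 76) (nat_lit 23593870383) (nat_lit 76) (nat_lit 23384296703) (nat_lit 1) (nat_lit 4) (nat_lit 2) (nat_lit 5) (nat_lit 2) (nat_lit 4) (nat_lit 306) (nat_lit 208) (nat_lit 206))))) (XT.nd (nat_lit 234) (nat_lit 0) (nat_lit 0) (XT.nd (nat_lit 78) (nat_lit 0) (nat_lit 0) (XT.lf (nat_lit 0) (nat_lit 199768373966) (nat_lit 76) (nat_lit 24476564116) (nat_lit 76) (nat_lit 24173697310) (nat_lit 1) (nat_lit 4) (nat_lit 2) (nat_lit 5) (nat_lit 2) (nat_lit 4) (nat_lit 307) (nat_lit 208)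 (nat_lit 205)) (XT.nd (nat_lit 78) (nat_lit 0) (nat_lit 0) (XT.lf (nat_lit 0) (nat_lit 217652583297) (nat_lit 76) (nat_lit 25470807691) (nat_lit 76) (nat_lit 25081558360) (nat_lit 1) (nat_lit 4) (nat_lit 2) (nat_lit 5) (nat_lit 2) (nat_lit 4) (nat_lit 308) (nat_lit 208) (nat_lit 204)) (XT.lf (nat_lit 0) (nat_lit 236882319738) (nat_lit 76) (nat_lit 26582492919) (nat_lit 76) (nat_lit 26113259770) (nat_lit 1) (nat_lit 4) (nat_lit 2) (nat_lit 5) (nat_lit 2) (nat_lit 4) (nat_lit 309) (nat_lit 208) (nat_lit 203)))) (XT.nd (nat_lit 78) (nat_lit 0) (nat_lit 0) (XT.lf (nat_lit 0) (nat_lit 257571537282) (nat_lit 76) (nat_lit 27818207567) (nat_lit 76) (nat_lit 27274915325) (nat_lit 1) (nat_lit 4) (nat_lit 2) (nat_lit 5) (nat_lit 2) (nat_lit 4) (nat_lit 310) (nat_lit 208) (nat_lit 202)) (XT.nd (nat_lit 78) (nat_lit 0) (nat_lit 0) (XT.lf (nat_lit 0) (nat_lit 279842838701) (nat_lit 76) (nat_lit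 29185274387) (nat_lit 76) (nat_lit 28573408912) (nat_lit 1) (nat_lit 4) (nat_lit 2) (nat_lit 5) (nat_lit 2) (nat_lit 4) (nat_lit 311) (nat_lit 208) (nat_lit 201)) (XT.lf (nat_lit 0) (nat_lit 303828202077) (nat_lit 76) (nat_lit 30691794515) (nat_lit 76) (nat_lit 30016435306) (nat_lit 1) (nat_lit 4) (nat_lit 2) (nat_lit 5) (nat_lit 2) (nat_lit 4) (nat_lit 312) (nat_lit 208) (nat_lit 200)))))) (XT.nd (nat_lit 468) (nat_lit 0) (nat_lit 0) (XT.nd (nat_lit 234) (nat_lit 0) (nat_lit 0) (XT.nd (nat_lit 78) (nat_lit 0) (nat_lit 0) (XT.lf (nat_lit 0) (nat_lit 329669762897) (nat_lit 76) (nat_lit 32346695479) (nat_lit 76) (nat_lit 31612545776) (nat_lit 1) (nat_lit 4) (nat_lit 2) (nat_lit 5) (nat_lit 2) (nat_lit 4) (nat_lit 313) (nat_lit 208) (nat_lit 199)) (XT.nd (nat_lit 78) (nat_lit 0) (nat_lit 0) (XT.lf (nat_lit 0) (nat_lit 357520656335) (nat_lit 76) (nat_lit 34159784100) (nat_lit 76) (nat_lit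 33371198753) (nat_lit 1) (nat_lit 4) (nat_lit 2) (nat_lit 5) (nat_lit 2) (nat_lit 4) (nat_lit 314) (nat_lit 208) (nat_lit 198)) (XT.lf (nat_lit 0) (nat_lit 387545924723) (nat_lit 76) (nat_lit 36141804605) (nat_lit 76) (nat_lit 35302815885) (nat_lit 1) (nat_lit 4) (nat_lit 2) (nat_lit 5) (nat_lit 2) (nat_lit 4) (nat_lit 315) (nat_lit 208) (nat_lit 197)))) (XT.nd (nat_lit 78) (nat_lit 0) (nat_lit 0) (XT.lf (nat_lit 0) (nat_lit 419923495579) (nat_lit 76) (nat_lit 38304502302) (nat_lit 76) (nat_lit 37418843792) (nat_lit 1) (nat_lit 4) (nat_lit 2) (nat_lit 5) (nat_lit 2) (nat_lit 4) (nat_lit 316) (nat_lit 208) (nat_lit 196)) (XT.nd (nat_lit 78) (nat_lit 0) (nat_lit 0) (XT.lf (nat_lit 0) (nat_lit 454845235987) (nat_lit 76) (nat_lit 40660693177) (nat_lit 76) (nat_lit 39731821898) (nat_lit 1) (nat_lit 4) (nat_lit 2) (nat_lit 5) (nat_lit 2) (nat_lit 4) (nat_lit 317) (nat_lit 208) (nat_lit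 195)) (XT.lf (nat_lit 0) (nat_lit 492518089595) (nat_lit 76) (nat_lit 43224339843) (nat_lit 76) (nat_lit 42255456741) (nat_lit 1) (nat_lit 4) (nat_lit 2) (nat_lit 5) (nat_lit 2) (nat_lit 4) (nat_lit 318) (nat_lit 208) (nat_lit 194))))) (XT.nd (nat_lit 234) (nat_lit 0) (nat_lit 0) (XT.nd (nat_lit 78) (nat_lit 0) (nat_lit 0) (XT.lf (nat_lit 0) (nat_lit 533165302944) (nat_lit 76) (nat_lit 46010634279) (nat_lit 76) (nat_lit 45004703193) (nat_lit 1) (nat_lit 4) (nat_lit 2) (nat_lit 5) (nat_lit 2) (nat_lit 4) (nat_lit 319) (nat_lit 208) (nat_lit 193)) (XT.nd (nat_lit 78) (nat_lit 0) (nat_lit 0) (XT.lf (nat_lit 0) (nat_lit 577027748408) (nat_lit 76) (nat_lit 49036087861) (nat_lit 76) (nat_lit 47995853086) (nat_lit 1) (nat_lit 4) (nat_lit 2) (nat_lit 5) (nat_lit 2) (nat_lit 4) (nat_lit 320) (nat_lit 208) (nat_lit 192)) (XT.lf (nat_lit 0) (nat_lit 624365351590) (nat_lit 76) (nat_lit 52318629202)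 (nat_lit 76) (nat_lit 51246631752) (nat_lit 1) (nat_lit 4) (nat_lit 2) (nat_lit 5) (nat_lit 2) (nat_lit 4) (nat_lit 321) (nat_lit 208) (nat_lit 191)))) (XT.nd (nat_lit 78) (nat_lit 0) (nat_lit 0) (XT.lf (nat_lit 0) (nat_lit 675458631620) (nat_lit 76) (nat_lit 55877710399) (nat_lit 76) (nat_lit 54776303065) (nat_lit 1) (nat_lit 4) (nat_lit 2) (nat_lit 5) (nat_lit 2) (nat_lit 4) (nat_lit 322) (nat_lit 208) (nat_lit 190)) (XT.nd (nat_lit 78) (nat_lit 0) (nat_lit 0) (XT.lf (nat_lit 0) (nat_lit 730610363491) (nat_lit 76) (nat_lit 59734422304) (nat_lit 76) (nat_lit 58605783595) (nat_lit 1) (nat_lit 4) (nat_lit 2) (nat_lit 5) (nat_lit 2) (nat_lit 4) (nat_lit 323) (nat_lit 208) (nat_lit 189)) (XT.lf (nat_lit 0) (nat_lit 790147372280) (nat_lit 76) (nat_lit 63911619505) (nat_lit 76) (nat_lit 62757766560) (nat_lit 1) (nat_lit 4) (nat_lit 2) (nat_lit 5) (nat_lit 2) (nat_lit 4) (nat_lit 324) (nat_lit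 208) (nat_lit 188))))))) (XT.nd (nat_lit 936) (nat_lit 0) (nat_lit 0) (XT.nd (nat_lit 468) (nat_lit 0) (nat_lit 0) (XT.nd (nat_lit 234) (nat_lit 0) (nat_lit 0) (XT.nd (nat_lit 78) (nat_lit 0) (nat_lit 0) (XT.lf (nat_lit 0) (nat_lit 854422469892) (nat_lit 76) (nat_lit 68434055763) (nat_lit 76) (nat_lit 67256856305) (nat_lit 1) (nat_lit 4) (nat_lit 2) (nat_lit 5) (nat_lit 2) (nat_lit 4) (nat_lit 325) (nat_lit 208) (nat_lit 187)) (XT.nd (nat_lit 78) (nat_lit 0) (nat_lit 0) (XT.lf (nat_lit 0) (nat_lit 923816545794) (nat_lit 76) (nat_lit 73328530702) (nat_lit 76) (nat_lit 72129714101) (nat_lit 1) (nat_lit 4) (nat_lit 2) (nat_lit 5) (nat_lit 2) (nat_lit 4) (nat_lit 326) (nat_lit 208) (nat_lit 186)) (XT.lf (nat_lit 0) (nat_lit 998740824139) (nat_lit 76) (nat_lit 78624048617) (nat_lit 76) (nat_lit 77405216143) (nat_lit 1) (nat_lit 4) (nat_lit 2) (nat_lit 5) (nat_lit 2) (nat_lit 4) (nat_lit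 327) (nat_lit 208) (nat_lit 185)))) (XT.nd (nat_lit 78) (nat_lit 0) (nat_lit 0) (XT.lf (nat_lit 0) (nat_lit 1079639300651) (nat_lit 76) (nat_lit 84351990355) (nat_lit 76) (nat_lit 83114624665) (nat_lit 1) (nat_lit 4) (nat_lit 2) (nat_lit 5) (nat_lit 2) (nat_lit 4) (nat_lit 328) (nat_lit 208) (nat_lit 184)) (XT.nd (nat_lit 78) (nat_lit 0) (nat_lit 0) (XT.lf (nat_lit 0) (nat_lit 1166991373710) (nat_lit 76) (nat_lit 90546299274) (nat_lit 76) (nat_lit 89291773199) (nat_lit 1) (nat_lit 4) (nat_lit 2) (nat_lit 5) (nat_lit 2) (nat_lit 4) (nat_lit 329) (nat_lit 208) (nat_lit 183)) (XT.lf (nat_lit 0) (nat_lit 1261314685229) (nat_lit 76) (nat_lit 97243682390) (nat_lit 76) (nat_lit 95973267069) (nat_lit 1) (nat_lit 4) (nat_lit 2) (nat_lit 5) (nat_lit 2) (nat_lit 4) (nat_lit 330) (nat_lit 208) (nat_lit 182))))) (XT.nd (nat_lit 234) (nat_lit 0) (nat_lit 0) (XT.nd (nat_lit 78) (nat_lit 0) (nat_lit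 0) (XT.lf (nat_lit 0) (nat_lit 1363168188166) (nat_lit 76) (nat_lit 104483827900) (nat_lit 76) (nat_lit 103198700315) (nat_lit 1) (nat_lit 4) (nat_lit 2) (nat_lit 5) (nat_lit 2) (nat_lit 4) (nat_lit 331) (nat_lit 208) (nat_lit 181)) (XT.nd (nat_lit 78) (nat_lit 0) (nat_lit 0) (XT.lf (nat_lit 0) (nat_lit 1473155458834) (nat_lit 76) (nat_lit 112309640369) (nat_lit 76) (nat_lit 111010890317) (nat_lit 1) (nat_lit 4) (nat_lit 2) (nat_lit 5) (nat_lit 2) (nat_lit 4) (nat_lit 332) (nat_lit 208) (nat_lit 180)) (XT.lf (nat_lit 0) (nat_lit 1591928273653) (nat_lit 76) (nat_lit 120767494982) (nat_lit 76) (nat_lit 119456131535) (nat_lit 1) (nat_lit 4) (nat_lit 2) (nat_lit 5) (nat_lit 2) (nat_lit 4) (nat_lit 333) (nat_lit 208) (nat_lit 179)))) (XT.nd (nat_lit 78) (nat_lit 0) (nat_lit 0) (XT.lf (nat_lit 0) (nat_lit 1720190471525) (nat_lit 76) (nat_lit 129907512359) (nat_lit 76) (nat_lit 128584469843)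 (nat_lit 1) (nat_lit 4) (nat_lit 2) (nat_lit 5) (nat_lit 2) (nat_lit 4) (nat_lit 334) (nat_lit 208) (nat_lit 178)) (XT.nd (nat_lit 78) (nat_lit 0) (nat_lit 0) (XT.lf (nat_lit 0) (nat_lit 1858702124733) (nat_lit 76) (nat_lit 139783855567) (nat_lit 76) (nat_lit 138449999097) (nat_lit 1) (nat_lit 4) (nat_lit 2) (nat_lit 5) (nat_lit 2) (nat_lit 4) (nat_lit 335) (nat_lit 208) (nat_lit 177)) (XT.lf (nat_lit 0) (nat_lit 2008284043074) (nat_lit 76) (nat_lit 150455051084) (nat_lit 76) (nat_lit 149111181694) (nat_lit 1) (nat_lit 4) (nat_lit 2) (nat_lit 5) (nat_lit 2) (nat_lit 4) (nat_lit 336) (nat_lit 208) (nat_lit 176)))))) (XT.nd (nat_lit 35178) (nat_lit 0) (nat_lit 0) (XT.nd (nat_lit 34944) (nat_lit 0) (nat_lit 0) (XT.nd (nat_lit 34788) (nat_lit 0) (nat_lit 0) (XT.lf (nat_lit 0) (nat_lit 2169822637917) (nat_lit 76) (nat_lit 161984335623) (nat_lit 76) (nat_lit 160631195010) (nat_lit 1) (nat_lit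 4) (nat_lit 2) (nat_lit 5) (nat_lit 2) (nat_lit 4) (nat_lit 337) (nat_lit 208) (nat_lit 175)) (XT.nd (nat_lit 78) (nat_lit 0) (nat_lit 0) (XT.lf (nat_lit 0) (nat_lit 63563101506) (nat_lit 76) (nat_lit 10587008480) (nat_lit 76) (nat_lit 10587008480) (nat_lit 1) (nat_lit 4) (nat_lit 2) (nat_lit 5) (nat_lit 2) (nat_lit 4) (nat_lit 302) (nat_lit 209) (nat_lit 209)) (XT.lf (nat_lit 0) (nat_lit 139673912711) (nat_lit 76) (nat_lit 21683425851) (nat_lit 76) (nat_lit 21565903380) (nat_lit 1) (nat_lit 4) (nat_lit 2) (nat_lit 5) (nat_lit 2) (nat_lit 4) (nat_lit 303) (nat_lit 209) (nat_lit 208)))) (XT.nd (nat_lit 78) (nat_lit 0) (nat_lit 0) (XT.lf (nat_lit 0) (nat_lit 153109512416) (nat_lit 76) (nat_lit 22285152934) (nat_lit 76) (nat_lit 22058813360) (nat_lit 1) (nat_lit 4) (nat_lit 2) (nat_lit 5) (nat_lit 2) (nat_lit 4) (nat_lit 304) (nat_lit 209) (nat_lit 207)) (XT.nd (nat_lit 78) (nat_lit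 0) (nat_lit 0) (XT.lf (nat_lit 0) (nat_lit 167512620496) (nat_lit 76) (nat_lit 22982763999) (nat_lit 76) (nat_lit 22655667849) (nat_lit 1) (nat_lit 4) (nat_lit 2) (nat_lit 5) (nat_lit 2) (nat_lit 4) (nat_lit 305) (nat_lit 209) (nat_lit 206)) (XT.lf (nat_lit 0) (nat_lit 182968588702) (nat_lit 76) (nat_lit 23780393040) (nat_lit 76) (nat_lit 23360003763) (nat_lit 1) (nat_lit 4) (nat_lit 2) (nat_lit 5) (nat_lit 2) (nat_lit 4) (nat_lit 306) (nat_lit 209) (nat_lit 205))))) (XT.nd (nat_lit 234) (nat_lit 0) (nat_lit 0) (XT.nd (nat_lit 78) (nat_lit 0) (nat_lit 0) (XT.lf (nat_lit 0) (nat_lit 199569007957) (nat_lit 76) (nat_lit 24682766746) (nat_lit 76) (nat_lit 24175994944) (nat_lit 1) (nat_lit 4) (nat_lit 2) (nat_lit 5) (nat_lit 2) (nat_lit 4) (nat_lit 307) (nat_lit 209) (nat_lit 204)) (XT.nd (nat_lit 78) (nat_lit 0) (nat_lit 0) (XT.lf (nat_lit 0) (nat_lit 217412251117) (nat_lit 76) (nat_lit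 25695232516) (nat_lit 76) (nat_lit 25108476896) (nat_lit 1) (nat_lit 4) (nat_lit 2) (nat_lit 5) (nat_lit 2) (nat_lit 4) (nat_lit 308) (nat_lit 209) (nat_lit 203)) (XT.lf (nat_lit 0) (nat_lit 236604055917) (nat_lit 76) (nat_lit 26823790149) (nat_lit 76) (nat_lit 26162975437) (nat_lit 1) (nat_lit 4) (nat_lit 2) (nat_lit 5) (nat_lit 2) (nat_lit 4) (nat_lit 309) (nat_lit 209) (nat_lit 202)))) (XT.nd (nat_lit 78) (nat_lit 0) (nat_lit 0) (XT.lf (nat_lit 0) (nat_lit 257258151573) (nat_lit 76) (nat_lit 28075127393) (nat_lit 76) (nat_lit 27345739448) (nat_lit 1) (nat_lit 4) (nat_lit 2) (nat_lit 5) (nat_lit 2) (nat_lit 4) (nat_lit 310) (nat_lit 209) (nat_lit 201)) (XT.nd (nat_lit 78) (nat_lit 0) (nat_lit 0) (XT.lf (nat_lit 0) (nat_lit 279496932724) (nat_lit 76) (nat_lit 29456659580) (nat_lit 76) (nat_lit 28663777900) (nat_lit 1) (nat_lit 4) (nat_lit 2) (nat_lit 5) (nat_lit 2) (nat_lit 4) (nat_lit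 311) (nat_lit 209) (nat_lit 200)) (XT.lf (nat_lit 0) (nat_lit 303452184741) (nat_lit 76) (nat_lit 30976573567) (nat_lit 76) (nat_lit 30124901392) (nat_lit 1) (nat_lit 4) (nat_lit 2) (nat_lit 5) (nat_lit 2) (nat_lit 4) (nat_lit 312) (nat_lit 209) (nat_lit 199))))))))
noncomputable def xc7 : XT := (XT.nd (nat_lit 1872) (nat_lit 0) (nat_lit 0) (XT.nd (nat_lit 936) (nat_lit 0) (nat_lit 0) (XT.nd (nat_lit 468) (nat_lit 0) (nat_lit 0) (XT.nd (nat_lit 234) (nat_lit 0) (nat_lit 0) (XT.nd (nat_lit 78) (nat_lit 0) (nat_lit 0) (XT.lf (nat_lit 0) (nat_lit 329265864673) (nat_lit 76) (nat_lit 32643876252) (nat_lit 76) (nat_lit 31737768434) (nat_lit 1) (nat_lit 4) (nat_lit 2) (nat_lit 5) (nat_lit 2) (nat_lit 4) (nat_lit 313) (nat_lit 209) (nat_lit 198)) (XT.nd (nat_lit 78) (nat_lit 0) (nat_lit 0) (XT.lf (nat_lit 0) (nat_lit 357090942474) (nat_lit 76) (nat_lit 34468447947) (nat_lit 76) (nat_lit 33511936755)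 (nat_lit 1) (nat_lit 4) (nat_lit 2) (nat_lit 5) (nat_lit 2) (nat_lit 4) (nat_lit 314) (nat_lit 209) (nat_lit 197)) (XT.lf (nat_lit 0) (nat_lit 387092307495) (nat_lit 76) (nat_lit 36461100928) (nat_lit 76) (nat_lit 35457919947) (nat_lit 1) (nat_lit 4) (nat_lit 2) (nat_lit 5) (nat_lit 2) (nat_lit 4) (nat_lit 315) (nat_lit 209) (nat_lit 196)))) (XT.nd (nat_lit 78) (nat_lit 0) (nat_lit 0) (XT.lf (nat_lit 0) (nat_lit 419447745603) (nat_lit 76) (nat_lit 38633643511) (nat_lit 76) (nat_lit 37587249761) (nat_lit 1) (nat_lit 4) (nat_lit 2) (nat_lit 5) (nat_lit 2) (nat_lit 4) (nat_lit 316) (nat_lit 209) (nat_lit 195)) (XT.nd (nat_lit 78) (nat_lit 0) (nat_lit 0) (XT.lf (nat_lit 0) (nat_lit 454348992726) (nat_lit 76) (nat_lit 40998950021) (nat_lit 76) (nat_lit 39912544448) (nat_lit 1) (nat_lit 4) (nat_lit 2) (nat_lit 5) (nat_lit 2) (nat_lit 4) (nat_lit 317) (nat_lit 209) (nat_lit 194)) (XT.lf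 (nat_lit 0) (nat_lit 492002871071) (nat_lit 76) (nat_lit 43571037089) (nat_lit 76) (nat_lit 42447583532) (nat_lit 1) (nat_lit 4) (nat_lit 2) (nat_lit 5) (nat_lit 2) (nat_lit 4) (nat_lit 318) (nat_lit 209) (nat_lit 193))))) (XT.nd (nat_lit 234) (nat_lit 0) (nat_lit 0) (XT.nd (nat_lit 78) (nat_lit 0) (nat_lit 0) (XT.lf (nat_lit 0) (nat_lit 532632514731) (nat_lit 76) (nat_lit 46365146714) (nat_lit 76) (nat_lit 45207389468) (nat_lit 1) (nat_lit 4) (nat_lit 2) (nat_lit 5) (nat_lit 2) (nat_lit 4) (nat_lit 319) (nat_lit 209) (nat_lit 192)) (XT.nd (nat_lit 78) (nat_lit 0) (nat_lit 0) (XT.lf (nat_lit 0) (nat_lit 576478691964) (nat_lit 76) (nat_lit 49397836581) (nat_lit 76) (nat_lit 48208316659) (nat_lit 1) (nat_lit 4) (nat_lit 2) (nat_lit 5) (nat_lit 2) (nat_lit 4) (nat_lit 320) (nat_lit 209) (nat_lit 191)) (XT.lf (nat_lit 0) (nat_lit 623801231970) (nat_lit 76) (nat_lit 52687078185) (nat_lit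 76) (nat_lit 51468148380) (nat_lit 1) (nat_lit 4) (nat_lit 2) (nat_lit 5) (nat_lit 2) (nat_lit 4) (nat_lit 321) (nat_lit 209) (nat_lit 190)))) (XT.nd (nat_lit 78) (nat_lit 0) (nat_lit 0) (XT.lf (nat_lit 0) (nat_lit 674880564615) (nat_lit 76) (nat_lit 56252363330) (nat_lit 76) (nat_lit 55006202151) (nat_lit 1) (nat_lit 4) (nat_lit 2) (nat_lit 5) (nat_lit 2) (nat_lit 4) (nat_lit 322) (nat_lit 209) (nat_lit 189)) (XT.nd (nat_lit 78) (nat_lit 0) (nat_lit 0) (XT.lf (nat_lit 0) (nat_lit 730019382240) (nat_lit 76) (nat_lit 60114819631) (nat_lit 76) (nat_lit 58843444216) (nat_lit 1) (nat_lit 4) (nat_lit 2) (nat_lit 5) (nat_lit 2) (nat_lit 4) (nat_lit 323) (nat_lit 209) (nat_lit 188)) (XT.lf (nat_lit 0) (nat_lit 789544433394) (nat_lit 76) (nat_lit 64297335717) (nat_lit 76) (nat_lit 63002613788) (nat_lit 1) (nat_lit 4) (nat_lit 2) (nat_lit 5) (nat_lit 2) (nat_lit 4) (nat_lit 324) (nat_lit 209)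 (nat_lit 187)))))) (XT.nd (nat_lit 468) (nat_lit 0) (nat_lit 0) (XT.nd (nat_lit 234) (nat_lit 0) (nat_lit 0) (XT.nd (nat_lit 78) (nat_lit 0) (nat_lit 0) (XT.lf (nat_lit 0) (nat_lit 853808459122) (nat_lit 76) (nat_lit 68824696870) (nat_lit 76) (nat_lit 67508357798) (nat_lit 1) (nat_lit 4) (nat_lit 2) (nat_lit 5) (nat_lit 2) (nat_lit 4) (nat_lit 325) (nat_lit 209) (nat_lit 186)) (XT.nd (nat_lit 78) (nat_lit 0) (nat_lit 0) (XT.lf (nat_lit 0) (nat_lit 923192283280) (nat_lit 76) (nat_lit 73723731896) (nat_lit 76) (nat_lit 72387376950) (nat_lit 1) (nat_lit 4) (nat_lit 2) (nat_lit 5) (nat_lit 2) (nat_lit 4) (nat_lit 326) (nat_lit 209) (nat_lit 185)) (XT.lf (nat_lit 0) (nat_lit 998107069269) (nat_lit 76) (nat_lit 79023472114) (nat_lit 76) (nat_lit 77668583952) (nat_lit 1) (nat_lit 4) (nat_lit 2) (nat_lit 5) (nat_lit 2) (nat_lit 4) (nat_lit 327) (nat_lit 209) (nat_lit 184)))) (XT.nd (nat_lit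 78) (nat_lit 0) (nat_lit 0) (XT.lf (nat_lit 0) (nat_lit 1078996756562) (nat_lit 76) (nat_lit 84755323391) (nat_lit 76) (nat_lit 83383274845) (nat_lit 1) (nat_lit 4) (nat_lit 2) (nat_lit 5) (nat_lit 2) (nat_lit 4) (nat_lit 328) (nat_lit 209) (nat_lit 183)) (XT.nd (nat_lit 78) (nat_lit 0) (nat_lit 0) (XT.lf (nat_lit 0) (nat_lit 1166340691455) (nat_lit 76) (nat_lit 90953252254) (nat_lit 76) (nat_lit 89565314462) (nat_lit 1) (nat_lit 4) (nat_lit 2) (nat_lit 5) (nat_lit 2) (nat_lit 4) (nat_lit 329) (nat_lit 209) (nat_lit 182)) (XT.lf (nat_lit 0) (nat_lit 1260656467636) (nat_lit 76) (nat_lit 97653987170) (nat_lit 76) (nat_lit 96251337114) (nat_lit 1) (nat_lit 4) (nat_lit 2) (nat_lit 5) (nat_lit 2) (nat_lit 4) (nat_lit 330) (nat_lit 209) (nat_lit 181))))) (XT.nd (nat_lit 234) (nat_lit 0) (nat_lit 0) (XT.nd (nat_lit 78) (nat_lit 0) (nat_lit 0) (XT.lf (nat_lit 0) (nat_lit 1362502993408) (nat_lit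 76) (nat_lit 104897236198) (nat_lit 76) (nat_lit 103480963675) (nat_lit 1) (nat_lit 4) (nat_lit 2) (nat_lit 5) (nat_lit 2) (nat_lit 4) (nat_lit 331) (nat_lit 209) (nat_lit 180)) (XT.nd (nat_lit 78) (nat_lit 0) (nat_lit 0) (XT.lf (nat_lit 0) (nat_lit 1472483803738) (nat_lit 76) (nat_lit 112725922296) (nat_lit 76) (nat_lit 111297036377) (nat_lit 1) (nat_lit 4) (nat_lit 2) (nat_lit 5) (nat_lit 2) (nat_lit 4) (nat_lit 332) (nat_lit 209) (nat_lit 179)) (XT.lf (nat_lit 0) (nat_lit 1591250636762) (nat_lit 76) (nat_lit 121186437676) (nat_lit 76) (nat_lit 119745872688) (nat_lit 1) (nat_lit 4) (nat_lit 2) (nat_lit 5) (nat_lit 2) (nat_lit 4) (nat_lit 333) (nat_lit 209) (nat_lit 178)))) (XT.nd (nat_lit 78) (nat_lit 0) (nat_lit 0) (XT.lf (nat_lit 0) (nat_lit 1719507295935) (nat_lit 76) (nat_lit 130328918726) (nat_lit 76) (nat_lit 128877539785) (nat_lit 1) (nat_lit 4) (nat_lit 2) (nat_lit 5) (nat_lit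 2) (nat_lit 4) (nat_lit 334) (nat_lit 209) (nat_lit 177)) (XT.nd (nat_lit 78) (nat_lit 0) (nat_lit 0) (XT.lf (nat_lit 0) (nat_lit 1858013820719) (nat_lit 76) (nat_lit 140207543113) (nat_lit 76) (nat_lit 138746151252) (nat_lit 1) (nat_lit 4) (nat_lit 2) (nat_lit 5) (nat_lit 2) (nat_lit 4) (nat_lit 335) (nat_lit 209) (nat_lit 176)) (XT.lf (nat_lit 0) (nat_lit 2007590990519) (nat_lit 76) (nat_lit 150880850832) (nat_lit 76) (nat_lit 149410187749) (nat_lit 1) (nat_lit 4) (nat_lit 2) (nat_lit 5) (nat_lit 2) (nat_lit 4) (nat_lit 336) (nat_lit 209) (nat_lit 175))))))) (XT.nd (nat_lit 35490) (nat_lit 0) (nat_lit 0) (XT.nd (nat_lit 35022) (nat_lit 0) (nat_lit 0) (XT.nd (nat_lit 34788) (nat_lit 0) (nat_lit 0) (XT.nd (nat_lit 34632) (nat_lit 0) (nat_lit 0) (XT.lf (nat_lit 0) (nat_lit 2169125188564) (nat_lit 76) (nat_lit 162412091114) (nat_lit 76) (nat_lit 160932843566) (nat_lit 1) (nat_lit 4)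 (nat_lit 2) (nat_lit 5) (nat_lit 2) (nat_lit 4) (nat_lit 337) (nat_lit 209) (nat_lit 174)) (XT.nd (nat_lit 78) (nat_lit 0) (nat_lit 0) (XT.lf (nat_lit 0) (nat_lit 52233427772) (nat_lit 76) (nat_lit 10259307999) (nat_lit 76) (nat_lit 10259307999) (nat_lit 1) (nat_lit 4) (nat_lit 2) (nat_lit 5) (nat_lit 2) (nat_lit 4) (nat_lit 300) (nat_lit 210) (nat_lit 210)) (XT.lf (nat_lit 0) (nat_lit 115392026522) (nat_lit 76) (nat_lit 20880831813) (nat_lit 76) (nat_lit 20753907544) (nat_lit 1) (nat_lit 4) (nat_lit 2) (nat_lit 5) (nat_lit 2) (nat_lit 4) (nat_lit 301) (nat_lit 210) (nat_lit 209)))) (XT.nd (nat_lit 78) (nat_lit 0) (nat_lit 0) (XT.lf (nat_lit 0) (nat_lit 127066010267) (nat_lit 76) (nat_lit 21327715614) (nat_lit 76) (nat_lit 21083268874) (nat_lit 1) (nat_lit 4) (nat_lit 2) (nat_lit 5) (nat_lit 2) (nat_lit 4) (nat_lit 302) (nat_lit 210) (nat_lit 208)) (XT.nd (nat_lit 78) (nat_lit 0)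 (nat_lit 0) (XT.lf (nat_lit 0) (nat_lit 139557985942) (nat_lit 76) (nat_lit 21861915601) (nat_lit 76) (nat_lit 21508651759) (nat_lit 1) (nat_lit 4) (nat_lit 2) (nat_lit 5) (nat_lit 2) (nat_lit 4) (nat_lit 303) (nat_lit 210) (nat_lit 207)) (XT.lf (nat_lit 0) (nat_lit 152941980069) (nat_lit 76) (nat_lit 22486597403) (nat_lit 76) (nat_lit 22032576984) (nat_lit 1) (nat_lit 4) (nat_lit 2) (nat_lit 5) (nat_lit 2) (nat_lit 4) (nat_lit 304) (nat_lit 210) (nat_lit 206))))) (XT.nd (nat_lit 234) (nat_lit 0) (nat_lit 0) (XT.nd (nat_lit 78) (nat_lit 0) (nat_lit 0) (XT.lf (nat_lit 0) (nat_lit 167297305206) (nat_lit 76) (nat_lit 23205462839) (nat_lit 76) (nat_lit 22658149294) (nat_lit 1) (nat_lit 4) (nat_lit 2) (nat_lit 5) (nat_lit 2) (nat_lit 4) (nat_lit 305) (nat_lit 210) (nat_lit 205)) (XT.nd (nat_lit 78) (nat_lit 0) (nat_lit 0) (XT.lf (nat_lit 0) (nat_lit 182709029947) (nat_lit 76) (nat_lit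 24022771852) (nat_lit 76) (nat_lit 23389075782) (nat_lit 1) (nat_lit 4) (nat_lit 2) (nat_lit 5) (nat_lit 2) (nat_lit 4) (nat_lit 306) (nat_lit 210) (nat_lit 204)) (XT.lf (nat_lit 0) (nat_lit 199268483031) (nat_lit 76) (nat_lit 24943367754) (nat_lit 76) (nat_lit 24229687865) (nat_lit 1) (nat_lit 4) (nat_lit 2) (nat_lit 5) (nat_lit 2) (nat_lit 4) (nat_lit 307) (nat_lit 210) (nat_lit 203)))) (XT.nd (nat_lit 78) (nat_lit 0) (nat_lit 0) (XT.lf (nat_lit 0) (nat_lit 217073794551) (nat_lit 76) (nat_lit 25972705929) (nat_lit 76) (nat_lit 25184966948) (nat_lit 1) (nat_lit 4) (nat_lit 2) (nat_lit 5) (nat_lit 2) (nat_lit 4) (nat_lit 308) (nat_lit 210) (nat_lit 202)) (XT.nd (nat_lit 78) (nat_lit 0) (nat_lit 0) (XT.lf (nat_lit 0) (nat_lit 236230477462) (nat_lit 76) (nat_lit 27116886158) (nat_lit 76) (nat_lit 26260573944) (nat_lit 1) (nat_lit 4) (nat_lit 2) (nat_lit 5) (nat_lit 2) (nat_lit 4) (nat_lit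 309) (nat_lit 210) (nat_lit 201)) (XT.lf (nat_lit 0) (nat_lit 256852052850) (nat_lit 76) (nat_lit 28382688769) (nat_lit 76) (nat_lit 27462882820) (nat_lit 1) (nat_lit 4) (nat_lit 2) (nat_lit 5) (nat_lit 2) (nat_lit 4) (nat_lit 310) (nat_lit 210) (nat_lit 200)))))) (XT.nd (nat_lit 468) (nat_lit 0) (nat_lit 0) (XT.nd (nat_lit 234) (nat_lit 0) (nat_lit 0) (XT.nd (nat_lit 78) (nat_lit 0) (nat_lit 0) (XT.lf (nat_lit 0) (nat_lit 279060722643) (nat_lit 76) (nat_lit 29777614814) (nat_lit 76) (nat_lit 28799018370) (nat_lit 1) (nat_lit 4) (nat_lit 2) (nat_lit 5) (nat_lit 2) (nat_lit 4) (nat_lit 311) (nat_lit 210) (nat_lit 199)) (XT.nd (nat_lit 78) (nat_lit 0) (nat_lit 0) (XT.lf (nat_lit 0) (nat_lit 302988093772) (nat_lit 76) (nat_lit 31309930521) (nat_lit 76) (nat_lit 30276898435) (nat_lit 1) (nat_lit 4) (nat_lit 2) (nat_lit 5) (nat_lit 2) (nat_lit 4) (nat_lit 312) (nat_lit 210) (nat_lit 198))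 (XT.lf (nat_lit 0) (nat_lit 328775958067) (nat_lit 76) (nat_lit 32988716281) (nat_lit 76) (nat_lit 31905280821) (nat_lit 1) (nat_lit 4) (nat_lit 2) (nat_lit 5) (nat_lit 2) (nat_lit 4) (nat_lit 313) (nat_lit 210) (nat_lit 197)))) (XT.nd (nat_lit 78) (nat_lit 0) (nat_lit 0) (XT.lf (nat_lit 0) (nat_lit 356577132500) (nat_lit 76) (nat_lit 34823920452) (nat_lit 76) (nat_lit 33693815202) (nat_lit 1) (nat_lit 4) (nat_lit 2) (nat_lit 5) (nat_lit 2) (nat_lit 4) (nat_lit 314) (nat_lit 210) (nat_lit 196)) (XT.nd (nat_lit 78) (nat_lit 0) (nat_lit 0) (XT.lf (nat_lit 0) (nat_lit 386556364774) (nat_lit 76) (nat_lit 36826418320) (nat_lit 76) (nat_lit 35653100301) (nat_lit 1) (nat_lit 4) (nat_lit 2) (nat_lit 5) (nat_lit 2) (nat_lit 4) (nat_lit 315) (nat_lit 210) (nat_lit 195)) (XT.lf (nat_lit 0) (nat_lit 418891309596) (nat_lit 76) (nat_lit 39008076538) (nat_lit 76) (nat_lit 37794746696) (nat_lit 1)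 (nat_lit 4) (nat_lit 2) (nat_lit 5) (nat_lit 2) (nat_lit 4) (nat_lit 316) (nat_lit 210) (nat_lit 194))))) (XT.nd (nat_lit 234) (nat_lit 0) (nat_lit 0) (XT.nd (nat_lit 78) (nat_lit 0) (nat_lit 0) (XT.lf (nat_lit 0) (nat_lit 453773581456) (nat_lit 76) (nat_lit 41381823450) (nat_lit 76) (nat_lit 40131445625) (nat_lit 1) (nat_lit 4) (nat_lit 2) (nat_lit 5) (nat_lit 2) (nat_lit 4) (nat_lit 317) (nat_lit 210) (nat_lit 193)) (XT.nd (nat_lit 78) (nat_lit 0) (nat_lit 0) (XT.lf (nat_lit 0) (nat_lit 491409890112) (nat_lit 76) (nat_lit 43961725706) (nat_lit 76) (nat_lit 42677044192) (nat_lit 1) (nat_lit 4) (nat_lit 2) (nat_lit 5) (nat_lit 2) (nat_lit 4) (nat_lit 318) (nat_lit 210) (nat_lit 192)) (XT.lf (nat_lit 0) (nat_lit 532023265541) (nat_lit 76) (nat_lit 46763071616) (nat_lit 76) (nat_lit 45446627426) (nat_lit 1) (nat_lit 4) (nat_lit 2) (nat_lit 5) (nat_lit 2) (nat_lit 4) (nat_lit 319) (nat_lit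 210) (nat_lit 191)))) (XT.nd (nat_lit 78) (nat_lit 0) (nat_lit 0) (XT.lf (nat_lit 0) (nat_lit 575854379599) (nat_lit 76) (nat_lit 49802461746) (nat_lit 76) (nat_lit 48456607672) (nat_lit 1) (nat_lit 4) (nat_lit 2) (nat_lit 5) (nat_lit 2) (nat_lit 4) (nat_lit 320) (nat_lit 210) (nat_lit 190)) (XT.nd (nat_lit 78) (nat_lit 0) (nat_lit 0) (XT.lf (nat_lit 0) (nat_lit 623162972219) (nat_lit 76) (nat_lit 53097907299) (nat_lit 76) (nat_lit 51724821850) (nat_lit 1) (nat_lit 4) (nat_lit 2) (nat_lit 5) (nat_lit 2) (nat_lit 4) (nat_lit 321) (nat_lit 210) (nat_lit 189)) (XT.lf (nat_lit 0) (nat_lit 674229390618) (nat_lit 76) (nat_lit 56668936840) (nat_lit 76) (nat_lit 55270637156) (nat_lit 1) (nat_lit 4) (nat_lit 2) (nat_lit 5) (nat_lit 2) (nat_lit 4) (nat_lit 322) (nat_lit 210) (nat_lit 188))))))))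
noncomputable def xc8 : XT := (XT.nd (nat_lit 36192) (nat_lit 0) (nat_lit 0) (XT.nd (nat_lit 858) (nat_lit 0) (nat_lit 0) (XT.nd (nat_lit 390) (nat_lit 0) (nat_lit 0) (XT.nd (nat_lit 156) (nat_lit 0) (nat_lit 0) (XT.nd (nat_lit 78) (nat_lit 0) (nat_lit 0) (XT.lf (nat_lit 0) (nat_lit 729356250608) (nat_lit 76) (nat_lit 60536712026) (nat_lit 76) (nat_lit 59115065828) (nat_lit 1) (nat_lit 4) (nat_lit 2) (nat_lit 5) (nat_lit 2) (nat_lit 4) (nat_lit 323) (nat_lit 210) (nat_lit 187)) (XT.lf (nat_lit 0) (nat_lit 788870229879) (nat_lit 76) (nat_lit 64724153007) (nat_lit 76) (nat_lit 63280889665) (nat_lit 1) (nat_lit 4) (nat_lit 2) (nat_lit 5) (nat_lit 2) (nat_lit 4) (nat_lit 324) (nat_lit 210) (nat_lit 186))) (XT.nd (nat_lit 78) (nat_lit 0) (nat_lit 0) (XT.lf (nat_lit 0) (nat_lit 853124003862) (nat_lit 76) (nat_lit 69256074246) (nat_lit 76) (nat_lit 67792795032) (nat_lit 1) (nat_lit 4) (nat_lit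 2) (nat_lit 5) (nat_lit 2) (nat_lit 4) (nat_lit 325) (nat_lit 210) (nat_lit 185)) (XT.nd (nat_lit 78) (nat_lit 0) (nat_lit 0) (XT.lf (nat_lit 0) (nat_lit 922498335663) (nat_lit 76) (nat_lit 74159331575) (nat_lit 76) (nat_lit 72677519145) (nat_lit 1) (nat_lit 4) (nat_lit 2) (nat_lit 5) (nat_lit 2) (nat_lit 4) (nat_lit 326) (nat_lit 210) (nat_lit 184)) (XT.lf (nat_lit 0) (nat_lit 997404332434) (nat_lit 76) (nat_lit 79462981332) (nat_lit 76) (nat_lit 77964008517) (nat_lit 1) (nat_lit 4) (nat_lit 2) (nat_lit 5) (nat_lit 2) (nat_lit 4) (nat_lit 327) (nat_lit 210) (nat_lit 183))))) (XT.nd (nat_lit 234) (nat_lit 0) (nat_lit 0) (XT.nd (nat_lit 78) (nat_lit 0) (nat_lit 0) (XT.lf (nat_lit 0) (nat_lit 1078285881562) (nat_lit 76) (nat_lit 85198452553) (nat_lit 76) (nat_lit 83683590493) (nat_lit 1) (nat_lit 4) (nat_lit 2) (nat_lit 5) (nat_lit 2) (nat_lit 4) (nat_lit 328) (nat_lit 210) (nat_lit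 182)) (XT.nd (nat_lit 78) (nat_lit 0) (nat_lit 0) (XT.lf (nat_lit 0) (nat_lit 1165622281117) (nat_lit 76) (nat_lit 91399733217) (nat_lit 76) (nat_lit 89870158892) (nat_lit 1) (nat_lit 4) (nat_lit 2) (nat_lit 5) (nat_lit 2) (nat_lit 4) (nat_lit 329) (nat_lit 210) (nat_lit 181)) (XT.lf (nat_lit 0) (nat_lit 1259931080132) (nat_lit 76) (nat_lit 98103571651) (nat_lit 76) (nat_lit 96560374860) (nat_lit 1) (nat_lit 4) (nat_lit 2) (nat_lit 5) (nat_lit 2) (nat_lit 4) (nat_lit 330) (nat_lit 210) (nat_lit 180)))) (XT.nd (nat_lit 78) (nat_lit 0) (nat_lit 0) (XT.lf (nat_lit 0) (nat_lit 1361771145566) (nat_lit 76) (nat_lit 105349694308) (nat_lit 76) (nat_lit 103793884121) (nat_lit 1) (nat_lit 4) (nat_lit 2) (nat_lit 5) (nat_lit 2) (nat_lit 4) (nat_lit 331) (nat_lit 210) (nat_lit 179)) (XT.nd (nat_lit 78) (nat_lit 0) (nat_lit 0) (XT.lf (nat_lit 0) (nat_lit 1471745974102) (nat_lit 76) (nat_lit 113181041172)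 (nat_lit 76) (nat_lit 111613551915) (nat_lit 1) (nat_lit 4) (nat_lit 2) (nat_lit 5) (nat_lit 2) (nat_lit 4) (nat_lit 332) (nat_lit 210) (nat_lit 178)) (XT.lf (nat_lit 0) (nat_lit 1590507268427) (nat_lit 76) (nat_lit 121644020225) (nat_lit 76) (nat_lit 120065717015) (nat_lit 1) (nat_lit 4) (nat_lit 2) (nat_lit 5) (nat_lit 2) (nat_lit 4) (nat_lit 333) (nat_lit 210) (nat_lit 177)))))) (XT.nd (nat_lit 34866) (nat_lit 0) (nat_lit 0) (XT.nd (nat_lit 234) (nat_lit 0) (nat_lit 0) (XT.nd (nat_lit 78) (nat_lit 0) (nat_lit 0) (XT.lf (nat_lit 0) (nat_lit 1718758799176) (nat_lit 76) (nat_lit 130788782455) (nat_lit 76) (nat_lit 129200466325) (nat_lit 1) (nat_lit 4) (nat_lit 2) (nat_lit 5) (nat_lit 2) (nat_lit 4) (nat_lit 334) (nat_lit 210) (nat_lit 176)) (XT.nd (nat_lit 78) (nat_lit 0) (nat_lit 0) (XT.lf (nat_lit 0) (nat_lit 1857260575418) (nat_lit 76) (nat_lit 140669519044) (nat_lit 76) (nat_lit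 139071931692) (nat_lit 1) (nat_lit 4) (nat_lit 2) (nat_lit 5) (nat_lit 2) (nat_lit 4) (nat_lit 335) (nat_lit 210) (nat_lit 175)) (XT.lf (nat_lit 0) (nat_lit 2006833348421) (nat_lit 76) (nat_lit 151344782506) (nat_lit 76) (nat_lit 149738610689) (nat_lit 1) (nat_lit 4) (nat_lit 2) (nat_lit 5) (nat_lit 2) (nat_lit 4) (nat_lit 336) (nat_lit 210) (nat_lit 174)))) (XT.nd (nat_lit 34476) (nat_lit 0) (nat_lit 0) (XT.lf (nat_lit 0) (nat_lit 2168363475357) (nat_lit 76) (nat_lit 162877833661) (nat_lit 76) (nat_lit 161263713266) (nat_lit 1) (nat_lit 4) (nat_lit 2) (nat_lit 5) (nat_lit 2) (nat_lit 4) (nat_lit 337) (nat_lit 210) (nat_lit 173)) (XT.nd (nat_lit 78) (nat_lit 0) (nat_lit 0) (XT.lf (nat_lit 0) (nat_lit 42339123724) (nat_lit 76) (nat_lit 10072970025) (nat_lit 76) (nat_lit 10072970025) (nat_lit 1) (nat_lit 4) (nat_lit 2) (nat_lit 5) (nat_lit 2) (nat_lit 4) (nat_lit 298) (nat_lit 211)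 (nat_lit 211)) (XT.lf (nat_lit 0) (nat_lit 94225755580) (nat_lit 76) (nat_lit 20375999914) (nat_lit 76) (nat_lit 20238921704) (nat_lit 1) (nat_lit 4) (nat_lit 2) (nat_lit 5) (nat_lit 2) (nat_lit 4) (nat_lit 299) (nat_lit 211) (nat_lit 210))))) (XT.nd (nat_lit 234) (nat_lit 0) (nat_lit 0) (XT.nd (nat_lit 78) (nat_lit 0) (nat_lit 0) (XT.lf (nat_lit 0) (nat_lit 104401847379) (nat_lit 76) (nat_lit 20684610543) (nat_lit 76) (nat_lit 20420608064) (nat_lit 1) (nat_lit 4) (nat_lit 2) (nat_lit 5) (nat_lit 2) (nat_lit 4) (nat_lit 300) (nat_lit 211) (nat_lit 209)) (XT.nd (nat_lit 78) (nat_lit 0) (nat_lit 0) (XT.lf (nat_lit 0) (nat_lit 115266825611) (nat_lit 76) (nat_lit 21073600744) (nat_lit 76) (nat_lit 20692075794) (nat_lit 1) (nat_lit 4) (nat_lit 2) (nat_lit 5) (nat_lit 2) (nat_lit 4) (nat_lit 301) (nat_lit 211) (nat_lit 208)) (XT.lf (nat_lit 0) (nat_lit 126885075332) (nat_lit 76) (nat_lit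 21545275642) (nat_lit 76) (nat_lit 21054933589) (nat_lit 1) (nat_lit 4) (nat_lit 2) (nat_lit 5) (nat_lit 2) (nat_lit 4) (nat_lit 302) (nat_lit 211) (nat_lit 207)))) (XT.nd (nat_lit 78) (nat_lit 0) (nat_lit 0) (XT.lf (nat_lit 0) (nat_lit 139325445429) (nat_lit 76) (nat_lit 22102430348) (nat_lit 76) (nat_lit 21511331719) (nat_lit 1) (nat_lit 4) (nat_lit 2) (nat_lit 5) (nat_lit 2) (nat_lit 4) (nat_lit 303) (nat_lit 211) (nat_lit 206)) (XT.nd (nat_lit 78) (nat_lit 0) (nat_lit 0) (XT.lf (nat_lit 0) (nat_lit 152661656614) (nat_lit 76) (nat_lit 22748366520) (nat_lit 76) (nat_lit 22063974764) (nat_lit 1) (nat_lit 4) (nat_lit 2) (nat_lit 5) (nat_lit 2) (nat_lit 4) (nat_lit 304) (nat_lit 211) (nat_lit 205)) (XT.lf (nat_lit 0) (nat_lit 166972738286) (nat_lit 76) (nat_lit 23486911928) (nat_lit 76) (nat_lit 22716137648) (nat_lit 1) (nat_lit 4) (nat_lit 2) (nat_lit 5) (nat_lit 2) (nat_lit 4) (nat_lit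 305) (nat_lit 211) (nat_lit 204))))))) (XT.nd (nat_lit 936) (nat_lit 0) (nat_lit 0) (XT.nd (nat_lit 468) (nat_lit 0) (nat_lit 0) (XT.nd (nat_lit 234) (nat_lit 0) (nat_lit 0) (XT.nd (nat_lit 78) (nat_lit 0) (nat_lit 0) (XT.lf (nat_lit 0) (nat_lit 182343496856) (nat_lit 76) (nat_lit 24322443137) (nat_lit 76) (nat_lit 23471685038) (nat_lit 1) (nat_lit 4) (nat_lit 2) (nat_lit 5) (nat_lit 2) (nat_lit 4) (nat_lit 306) (nat_lit 211) (nat_lit 203)) (XT.nd (nat_lit 78) (nat_lit 0) (nat_lit 0) (XT.lf (nat_lit 0) (nat_lit 198865018300) (nat_lit 76) (nat_lit 25259911443) (nat_lit 76) (nat_lit 24335094252) (nat_lit 1) (nat_lit 4) (nat_lit 2) (nat_lit 5) (nat_lit 2) (nat_lit 4) (nat_lit 307) (nat_lit 211) (nat_lit 202)) (XT.lf (nat_lit 0) (nat_lit 216635207930) (nat_lit 76) (nat_lit 26304872215) (nat_lit 76) (nat_lit 25311481790) (nat_lit 1) (nat_lit 4) (nat_lit 2) (nat_lit 5) (nat_lit 2) (nat_lit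 4) (nat_lit 308) (nat_lit 211) (nat_lit 201)))) (XT.nd (nat_lit 78) (nat_lit 0) (nat_lit 0) (XT.lf (nat_lit 0) (nat_lit 235759370574) (nat_lit 76) (nat_lit 27463517811) (nat_lit 76) (nat_lit 26406633652) (nat_lit 1) (nat_lit 4) (nat_lit 2) (nat_lit 5) (nat_lit 2) (nat_lit 4) (nat_lit 309) (nat_lit 211) (nat_lit 200)) (XT.nd (nat_lit 78) (nat_lit 0) (nat_lit 0) (XT.lf (nat_lit 0) (nat_lit 256350834603) (nat_lit 76) (nat_lit 28742714280) (nat_lit 76) (nat_lit 27627039626) (nat_lit 1) (nat_lit 4) (nat_lit 2) (nat_lit 5) (nat_lit 2) (nat_lit 4) (nat_lit 310) (nat_lit 211) (nat_lit 199)) (XT.lf (nat_lit 0) (nat_lit 278531623508) (nat_lit 76) (nat_lit 30150042045) (nat_lit 76) (nat_lit 28979931749) (nat_lit 1) (nat_lit 4) (nat_lit 2) (nat_lit 5) (nat_lit 2) (nat_lit 4) (nat_lit 311) (nat_lit 211) (nat_lit 198))))) (XT.nd (nat_lit 234) (nat_lit 0) (nat_lit 0) (XT.nd (nat_lit 78) (nat_lit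 0) (nat_lit 0) (XT.lf (nat_lit 0) (nat_lit 302433179000) (nat_lit 76) (nat_lit 31693840828) (nat_lit 76) (nat_lit 30473327158) (nat_lit 1) (nat_lit 4) (nat_lit 2) (nat_lit 5) (nat_lit 2) (nat_lit 4) (nat_lit 312) (nat_lit 211) (nat_lit 197)) (XT.nd (nat_lit 78) (nat_lit 0) (nat_lit 0) (XT.lf (nat_lit 0) (nat_lit 328197139927) (nat_lit 76) (nat_lit 33383259064) (nat_lit 76) (nat_lit 32116075604) (nat_lit 1) (nat_lit 4) (nat_lit 2) (nat_lit 5) (nat_lit 2) (nat_lit 4) (nat_lit 313) (nat_lit 211) (nat_lit 196)) (XT.lf (nat_lit 0) (nat_lit 355976181613) (nat_lit 76) (nat_lit 35228308121) (nat_lit 76) (nat_lit 33917911892) (nat_lit 1) (nat_lit 4) (nat_lit 2) (nat_lit 5) (nat_lit 2) (nat_lit 4) (nat_lit 314) (nat_lit 211) (nat_lit 195)))) (XT.nd (nat_lit 78) (nat_lit 0) (nat_lit 0) (XT.lf (nat_lit 0) (nat_lit 385934920602) (nat_lit 76) (nat_lit 37239921624) (nat_lit 76) (nat_lit 35889513572)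 (nat_lit 1) (nat_lit 4) (nat_lit 2) (nat_lit 5) (nat_lit 2) (nat_lit 4) (nat_lit 315) (nat_lit 211) (nat_lit 194)) (XT.nd (nat_lit 78) (nat_lit 0) (nat_lit 0) (XT.lf (nat_lit 0) (nat_lit 418250890161) (nat_lit 76) (nat_lit 39430020244) (nat_lit 76) (nat_lit 38042564208) (nat_lit 1) (nat_lit 4) (nat_lit 2) (nat_lit 5) (nat_lit 2) (nat_lit 4) (nat_lit 316) (nat_lit 211) (nat_lit 193)) (XT.lf (nat_lit 0) (nat_lit 453115592332) (nat_lit 76) (nat_lit 41811582344) (nat_lit 76) (nat_lit 40389822619) (nat_lit 1) (nat_lit 4) (nat_lit 2) (nat_lit 5) (nat_lit 2) (nat_lit 4) (nat_lit 317) (nat_lit 211) (nat_lit 192)))))) (XT.nd (nat_lit 468) (nat_lit 0) (nat_lit 0) (XT.nd (nat_lit 234) (nat_lit 0) (nat_lit 0) (XT.nd (nat_lit 78) (nat_lit 0) (nat_lit 0) (XT.lf (nat_lit 0) (nat_lit 490735632757) (nat_lit 76) (nat_lit 44398720885) (nat_lit 76) (nat_lit 42945198485) (nat_lit 1) (nat_lit 4) (nat_lit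 2) (nat_lit 5) (nat_lit 2) (nat_lit 4) (nat_lit 318) (nat_lit 211) (nat_lit 191)) (XT.nd (nat_lit 78) (nat_lit 0) (nat_lit 0) (XT.lf (nat_lit 0) (nat_lit 531333945011) (nat_lit 76) (nat_lit 47206767058) (nat_lit 76) (nat_lit 45723834774) (nat_lit 1) (nat_lit 4) (nat_lit 2) (nat_lit 5) (nat_lit 2) (nat_lit 4) (nat_lit 319) (nat_lit 211) (nat_lit 190)) (XT.lf (nat_lit 0) (nat_lit 575151111683) (nat_lit 76) (nat_lit 50252361137) (nat_lit 76) (nat_lit 48742197478) (nat_lit 1) (nat_lit 4) (nat_lit 2) (nat_lit 5) (nat_lit 2) (nat_lit 4) (nat_lit 320) (nat_lit 211) (nat_lit 189)))) (XT.nd (nat_lit 78) (nat_lit 0) (nat_lit 0) (XT.lf (nat_lit 0) (nat_lit 622446790057) (nat_lit 76) (nat_lit 53553551086) (nat_lit 76) (nat_lit 52018173192) (nat_lit 1) (nat_lit 4) (nat_lit 2) (nat_lit 5) (nat_lit 2) (nat_lit 4) (nat_lit 321) (nat_lit 211) (nat_lit 188)) (XT.nd (nat_lit 78) (nat_lit 0) (nat_lit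 0) (XT.lf (nat_lit 0) (nat_lit 673501250821) (nat_lit 76) (nat_lit 57129899512) (nat_lit 76) (nat_lit 55571175104) (nat_lit 1) (nat_lit 4) (nat_lit 2) (nat_lit 5) (nat_lit 2) (nat_lit 4) (nat_lit 322) (nat_lit 211) (nat_lit 187)) (XT.lf (nat_lit 0) (nat_lit 728617038927) (nat_lit 76) (nat_lit 61002599593) (nat_lit 76) (nat_lit 59422258041) (nat_lit 1) (nat_lit 4) (nat_lit 2) (nat_lit 5) (nat_lit 2) (nat_lit 4) (nat_lit 323) (nat_lit 211) (nat_lit 186))))) (XT.nd (nat_lit 234) (nat_lit 0) (nat_lit 0) (XT.nd (nat_lit 78) (nat_lit 0) (nat_lit 0) (XT.lf (nat_lit 0) (nat_lit 788120766453) (nat_lit 76) (nat_lit 65194600660) (nat_lit 76) (nat_lit 63594243235) (nat_lit 1) (nat_lit 4) (nat_lit 2) (nat_lit 5) (nat_lit 2) (nat_lit 4) (nat_lit 324) (nat_lit 211) (nat_lit 185)) (XT.nd (nat_lit 78) (nat_lit 0) (nat_lit 0) (XT.lf (nat_lit 0) (nat_lit 852365048080) (nat_lit 76) (nat_lit 69730744202)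 (nat_lit 76) (nat_lit 68111853562) (nat_lit 1) (nat_lit 4) (nat_lit 2) (nat_lit 5) (nat_lit 2) (nat_lit 4) (nat_lit 325) (nat_lit 211) (nat_lit 184)) (XT.lf (nat_lit 0) (nat_lit 921730590663) (nat_lit 76) (nat_lit 74637911070) (nat_lit 76) (nat_lit 73001860045) (nat_lit 1) (nat_lit 4) (nat_lit 2) (nat_lit 5) (nat_lit 2) (nat_lit 4) (nat_lit 326) (nat_lit 211) (nat_lit 183)))) (XT.nd (nat_lit 78) (nat_lit 0) (nat_lit 0) (XT.lf (nat_lit 0) (nat_lit 996628449268) (nat_lit 76) (nat_lit 79945180772) (nat_lit 76) (nat_lit 78293240501) (nat_lit 1) (nat_lit 4) (nat_lit 2) (nat_lit 5) (nat_lit 2) (nat_lit 4) (nat_lit 327) (nat_lit 211) (nat_lit 182)) (XT.nd (nat_lit 78) (nat_lit 0) (nat_lit 0) (XT.lf (nat_lit 0) (nat_lit 1077502463058) (nat_lit 76) (nat_lit 85684003793) (nat_lit 76) (nat_lit 84017351258) (nat_lit 1) (nat_lit 4) (nat_lit 2) (nat_lit 5) (nat_lit 2) (nat_lit 4) (nat_lit 328)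 (nat_lit 211) (nat_lit 181)) (XT.lf (nat_lit 0) (nat_lit 1164831885448) (nat_lit 76) (nat_lit 91888387975) (nat_lit 76) (nat_lit 90208112973) (nat_lit 1) (nat_lit 4) (nat_lit 2) (nat_lit 5) (nat_lit 2) (nat_lit 4) (nat_lit 329) (nat_lit 211) (nat_lit 180))))))))
noncomputable def xc9 : XT := (XT.nd (nat_lit 36114) (nat_lit 0) (nat_lit 0) (XT.nd (nat_lit 35178) (nat_lit 0) (nat_lit 0) (XT.nd (nat_lit 468) (nat_lit 0) (nat_lit 0) (XT.nd (nat_lit 234) (nat_lit 0) (nat_lit 0) (XT.nd (nat_lit 78) (nat_lit 0) (nat_lit 0) (XT.lf (nat_lit 0) (nat_lit 1259134224125) (nat_lit 76) (nat_lit 98595100038) (nat_lit 76) (nat_lit 96902211641) (nat_lit 1) (nat_lit 4) (nat_lit 2) (nat_lit 5) (nat_lit 2) (nat_lit 4) (nat_lit 330) (nat_lit 211) (nat_lit 179)) (XT.nd (nat_lit 78) (nat_lit 0) (nat_lit 0) (XT.lf (nat_lit 0) (nat_lit 1360968307764) (nat_lit 76) (nat_lit 105843883461) (nat_lit 76) (nat_lit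 104139315994) (nat_lit 1) (nat_lit 4) (nat_lit 2) (nat_lit 5) (nat_lit 2) (nat_lit 4) (nat_lit 331) (nat_lit 211) (nat_lit 178)) (XT.lf (nat_lit 0) (nat_lit 1470937597602) (nat_lit 76) (nat_lit 113677693998) (nat_lit 76) (nat_lit 111962312578) (nat_lit 1) (nat_lit 4) (nat_lit 2) (nat_lit 5) (nat_lit 2) (nat_lit 4) (nat_lit 332) (nat_lit 211) (nat_lit 177)))) (XT.nd (nat_lit 78) (nat_lit 0) (nat_lit 0) (XT.lf (nat_lit 0) (nat_lit 1589693763502) (nat_lit 76) (nat_lit 122142954230) (nat_lit 76) (nat_lit 120417559890) (nat_lit 1) (nat_lit 4) (nat_lit 2) (nat_lit 5) (nat_lit 2) (nat_lit 4) (nat_lit 333) (nat_lit 211) (nat_lit 176)) (XT.nd (nat_lit 78) (nat_lit 0) (nat_lit 0) (XT.lf (nat_lit 0) (nat_lit 1717940545709) (nat_lit 76) (nat_lit 131289828662) (nat_lit 76) (nat_lit 129555163100) (nat_lit 1) (nat_lit 4) (nat_lit 2) (nat_lit 5) (nat_lit 2) (nat_lit 4) (nat_lit 334) (nat_lit 211)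 (nat_lit 175)) (XT.lf (nat_lit 0) (nat_lit 1856437925154) (nat_lit 76) (nat_lit 141172520995) (nat_lit 76) (nat_lit 139429270968) (nat_lit 1) (nat_lit 4) (nat_lit 2) (nat_lit 5) (nat_lit 2) (nat_lit 4) (nat_lit 335) (nat_lit 211) (nat_lit 174))))) (XT.nd (nat_lit 34476) (nat_lit 0) (nat_lit 0) (XT.nd (nat_lit 78) (nat_lit 0) (nat_lit 0) (XT.lf (nat_lit 0) (nat_lit 2006006627048) (nat_lit 76) (nat_lit 151849595330) (nat_lit 76) (nat_lit 150098396725) (nat_lit 1) (nat_lit 4) (nat_lit 2) (nat_lit 5) (nat_lit 2) (nat_lit 4) (nat_lit 336) (nat_lit 211) (nat_lit 173)) (XT.nd (nat_lit 34320) (nat_lit 0) (nat_lit 0) (XT.lf (nat_lit 0) (nat_lit 2167532984439) (nat_lit 76) (nat_lit 163384323220) (nat_lit 76) (nat_lit 161625764819) (nat_lit 1) (nat_lit 4) (nat_lit 2) (nat_lit 5) (nat_lit 2) (nat_lit 4) (nat_lit 337) (nat_lit 211) (nat_lit 172)) (XT.lf (nat_lit 0) (nat_lit 33660943033) (nat_lit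 76) (nat_lit 10015396608) (nat_lit 76) (nat_lit 10015396608) (nat_lit 1) (nat_lit 4) (nat_lit 2) (nat_lit 5) (nat_lit 2) (nat_lit 4) (nat_lit 296) (nat_lit 212) (nat_lit 212)))) (XT.nd (nat_lit 78) (nat_lit 0) (nat_lit 0) (XT.lf (nat_lit 0) (nat_lit 75702745155) (nat_lit 76) (nat_lit 20141112105) (nat_lit 76) (nat_lit 19993067638) (nat_lit 1) (nat_lit 4) (nat_lit 2) (nat_lit 5) (nat_lit 2) (nat_lit 4) (nat_lit 297) (nat_lit 212) (nat_lit 211)) (XT.nd (nat_lit 78) (nat_lit 0) (nat_lit 0) (XT.lf (nat_lit 0) (nat_lit 84608038629) (nat_lit 76) (nat_lit 20325214161) (nat_lit 76) (nat_lit 20040091483) (nat_lit 1) (nat_lit 4) (nat_lit 2) (nat_lit 5) (nat_lit 2) (nat_lit 4) (nat_lit 298) (nat_lit 212) (nat_lit 210)) (XT.lf (nat_lit 0) (nat_lit 94090538596) (nat_lit 76) (nat_lit 20584190359) (nat_lit 76) (nat_lit 20172143413) (nat_lit 1) (nat_lit 4) (nat_lit 2) (nat_lit 5) (nat_lit 2) (nat_lit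 4) (nat_lit 299) (nat_lit 212) (nat_lit 209)))))) (XT.nd (nat_lit 468) (nat_lit 0) (nat_lit 0) (XT.nd (nat_lit 234) (nat_lit 0) (nat_lit 0) (XT.nd (nat_lit 78) (nat_lit 0) (nat_lit 0) (XT.lf (nat_lit 0) (nat_lit 104206437649) (nat_lit 76) (nat_lit 20919575373) (nat_lit 76) (nat_lit 20390005956) (nat_lit 1) (nat_lit 4) (nat_lit 2) (nat_lit 5) (nat_lit 2) (nat_lit 4) (nat_lit 300) (nat_lit 212) (nat_lit 208)) (XT.nd (nat_lit 78) (nat_lit 0) (nat_lit 0) (XT.lf (nat_lit 0) (nat_lit 115015681858) (nat_lit 76) (nat_lit 21333356670) (nat_lit 76) (nat_lit 20694970151) (nat_lit 1) (nat_lit 4) (nat_lit 2) (nat_lit 5) (nat_lit 2) (nat_lit 4) (nat_lit 301) (nat_lit 212) (nat_lit 207)) (XT.lf (nat_lit 0) (nat_lit 126582326001) (nat_lit 76) (nat_lit 21827986288) (nat_lit 76) (nat_lit 21088843191) (nat_lit 1) (nat_lit 4) (nat_lit 2) (nat_lit 5) (nat_lit 2) (nat_lit 4) (nat_lit 302) (nat_lit 212)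 (nat_lit 206)))) (XT.nd (nat_lit 78) (nat_lit 0) (nat_lit 0) (XT.lf (nat_lit 0) (nat_lit 138974913156) (nat_lit 76) (nat_lit 22406395364) (nat_lit 76) (nat_lit 21573959141) (nat_lit 1) (nat_lit 4) (nat_lit 2) (nat_lit 5) (nat_lit 2) (nat_lit 4) (nat_lit 303) (nat_lit 212) (nat_lit 205)) (XT.nd (nat_lit 78) (nat_lit 0) (nat_lit 0) (XT.lf (nat_lit 0) (nat_lit 152266880875) (nat_lit 76) (nat_lit 23072011508) (nat_lit 76) (nat_lit 22153192761) (nat_lit 1) (nat_lit 4) (nat_lit 2) (nat_lit 5) (nat_lit 2) (nat_lit 4) (nat_lit 304) (nat_lit 212) (nat_lit 204)) (XT.lf (nat_lit 0) (nat_lit 166536996376) (nat_lit 76) (nat_lit 23828779113) (nat_lit 76) (nat_lit 22829976546) (nat_lit 1) (nat_lit 4) (nat_lit 2) (nat_lit 5) (nat_lit 2) (nat_lit 4) (nat_lit 305) (nat_lit 212) (nat_lit 203))))) (XT.nd (nat_lit 234) (nat_lit 0) (nat_lit 0) (XT.nd (nat_lit 78) (nat_lit 0) (nat_lit 0) (XT.lf (nat_lit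 0) (nat_lit 181869823306) (nat_lit 76) (nat_lit 24681182726) (nat_lit 76) (nat_lit 23608321067) (nat_lit 1) (nat_lit 4) (nat_lit 2) (nat_lit 5) (nat_lit 2) (nat_lit 4) (nat_lit 306) (nat_lit 212) (nat_lit 202)) (XT.nd (nat_lit 78) (nat_lit 0) (nat_lit 0) (XT.lf (nat_lit 0) (nat_lit 198356222861) (nat_lit 76) (nat_lit 25634273628) (nat_lit 76) (nat_lit 24492838737) (nat_lit 1) (nat_lit 4) (nat_lit 2) (nat_lit 5) (nat_lit 2) (nat_lit 4) (nat_lit 307) (nat_lit 212) (nat_lit 201)) (XT.lf (nat_lit 0) (nat_lit 216093892224) (nat_lit 76) (nat_lit 26693699766) (nat_lit 76) (nat_lit 25488771141) (nat_lit 1) (nat_lit 4) (nat_lit 2) (nat_lit 5) (nat_lit 2) (nat_lit 4) (nat_lit 308) (nat_lit 212) (nat_lit 200)))) (XT.nd (nat_lit 78) (nat_lit 0) (nat_lit 0) (XT.lf (nat_lit 0) (nat_lit 235187943509) (nat_lit 76) (nat_lit 27865739221) (nat_lit 76) (nat_lit 26602020100) (nat_lit 1) (nat_lit 4) (nat_lit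 2) (nat_lit 5) (nat_lit 2) (nat_lit 4) (nat_lit 309) (nat_lit 212) (nat_lit 199)) (XT.nd (nat_lit 78) (nat_lit 0) (nat_lit 0) (XT.lf (nat_lit 0) (nat_lit 255751526650) (nat_lit 76) (nat_lit 29157337411) (nat_lit 76) (nat_lit 27839182647) (nat_lit 1) (nat_lit 4) (nat_lit 2) (nat_lit 5) (nat_lit 2) (nat_lit 4) (nat_lit 310) (nat_lit 212) (nat_lit 198)) (XT.lf (nat_lit 0) (nat_lit 277906499918) (nat_lit 76) (nat_lit 30576148251) (nat_lit 76) (nat_lit 29207590114) (nat_lit 1) (nat_lit 4) (nat_lit 2) (nat_lit 5) (nat_lit 2) (nat_lit 4) (nat_lit 311) (nat_lit 212) (nat_lit 197))))))) (XT.nd (nat_lit 936) (nat_lit 0) (nat_lit 0) (XT.nd (nat_lit 468) (nat_lit 0) (nat_lit 0) (XT.nd (nat_lit 234) (nat_lit 0) (nat_lit 0) (XT.nd (nat_lit 78) (nat_lit 0) (nat_lit 0) (XT.lf (nat_lit 0) (nat_lit 301784152042) (nat_lit 76) (nat_lit 32130579510) (nat_lit 76) (nat_lit 30715351583) (nat_lit 1) (nat_lit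 4) (nat_lit 2) (nat_lit 5) (nat_lit 2) (nat_lit 4) (nat_lit 312) (nat_lit 212) (nat_lit 196)) (XT.nd (nat_lit 78) (nat_lit 0) (nat_lit 0) (XT.lf (nat_lit 0) (nat_lit 327525980222) (nat_lit 76) (nat_lit 33829842632) (nat_lit 76) (nat_lit 32371401936) (nat_lit 1) (nat_lit 4) (nat_lit 2) (nat_lit 5) (nat_lit 2) (nat_lit 4) (nat_lit 313) (nat_lit 212) (nat_lit 195)) (XT.lf (nat_lit 0) (nat_lit 355284528623) (nat_lit 76) (nat_lit 35684007324) (nat_lit 76) (nat_lit 34185554805) (nat_lit 1) (nat_lit 4) (nat_lit 2) (nat_lit 5) (nat_lit 2) (nat_lit 4) (nat_lit 314) (nat_lit 212) (nat_lit 194)))) (XT.nd (nat_lit 78) (nat_lit 0) (nat_lit 0) (XT.lf (nat_lit 0) (nat_lit 385224292348) (nat_lit 76) (nat_lit 37704061229) (nat_lit 76) (nat_lit 36168560726) (nat_lit 1) (nat_lit 4) (nat_lit 2) (nat_lit 5) (nat_lit 2) (nat_lit 4) (nat_lit 315) (nat_lit 212) (nat_lit 193)) (XT.nd (nat_lit 78) (nat_lit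 0) (nat_lit 0) (XT.lf (nat_lit 0) (nat_lit 417522692218) (nat_lit 76) (nat_lit 39901975037) (nat_lit 76) (nat_lit 38332170845) (nat_lit 1) (nat_lit 4) (nat_lit 2) (nat_lit 5) (nat_lit 2) (nat_lit 4) (nat_lit 316) (nat_lit 212) (nat_lit 192)) (XT.lf (nat_lit 0) (nat_lit 452371126158) (nat_lit 76) (nat_lit 42290773422) (nat_lit 76) (nat_lit 40689206555) (nat_lit 1) (nat_lit 4) (nat_lit 2) (nat_lit 5) (nat_lit 2) (nat_lit 4) (nat_lit 317) (nat_lit 212) (nat_lit 191))))) (XT.nd (nat_lit 234) (nat_lit 0) (nat_lit 0) (XT.nd (nat_lit 78) (nat_lit 0) (nat_lit 0) (XT.lf (nat_lit 0) (nat_lit 489976103408) (nat_lit 76) (nat_lit 44884612227) (nat_lit 76) (nat_lit 43253635476) (nat_lit 1) (nat_lit 4) (nat_lit 2) (nat_lit 5) (nat_lit 2) (nat_lit 4) (nat_lit 318) (nat_lit 212) (nat_lit 190)) (XT.nd (nat_lit 78) (nat_lit 0) (nat_lit 0) (XT.lf (nat_lit 0) (nat_lit 530560468276) (nat_lit 76) (nat_lit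 47698862348) (nat_lit 76) (nat_lit 46040654222) (nat_lit 1) (nat_lit 4) (nat_lit 2) (nat_lit 5) (nat_lit 2) (nat_lit 4) (nat_lit 319) (nat_lit 212) (nat_lit 189)) (XT.lf (nat_lit 0) (nat_lit 574364720702) (nat_lit 76) (nat_lit 50750200823) (nat_lit 76) (nat_lit 49066778462) (nat_lit 1) (nat_lit 4) (nat_lit 2) (nat_lit 5) (nat_lit 2) (nat_lit 4) (nat_lit 320) (nat_lit 212) (nat_lit 188)))) (XT.nd (nat_lit 78) (nat_lit 0) (nat_lit 0) (XT.lf (nat_lit 0) (nat_lit 621648441442) (nat_lit 76) (nat_lit 54056709657) (nat_lit 76) (nat_lit 52349940782) (nat_lit 1) (nat_lit 4) (nat_lit 2) (nat_lit 5) (nat_lit 2) (nat_lit 4) (nat_lit 321) (nat_lit 212) (nat_lit 187)) (XT.nd (nat_lit 78) (nat_lit 0) (nat_lit 0) (XT.lf (nat_lit 0) (nat_lit 672691830322) (nat_lit 76) (nat_lit 57637982978) (nat_lit 76) (nat_lit 55909596959) (nat_lit 1) (nat_lit 4) (nat_lit 2) (nat_lit 5) (nat_lit 2) (nat_lit 4) (nat_lit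 322) (nat_lit 212) (nat_lit 186)) (XT.lf (nat_lit 0) (nat_lit 727797366683) (nat_lit 76) (nat_lit 61515243145) (nat_lit 76) (nat_lit 59766841253) (nat_lit 1) (nat_lit 4) (nat_lit 2) (nat_lit 5) (nat_lit 2) (nat_lit 4) (nat_lit 323) (nat_lit 212) (nat_lit 185)))))) (XT.nd (nat_lit 468) (nat_lit 0) (nat_lit 0) (XT.nd (nat_lit 234) (nat_lit 0) (nat_lit 0) (XT.nd (nat_lit 78) (nat_lit 0) (nat_lit 0) (XT.lf (nat_lit 0) (nat_lit 787291601853) (nat_lit 76) (nat_lit 65711466515) (nat_lit 76) (nat_lit 63944531408) (nat_lit 1) (nat_lit 4) (nat_lit 2) (nat_lit 5) (nat_lit 2) (nat_lit 4) (nat_lit 324) (nat_lit 212) (nat_lit 184)) (XT.nd (nat_lit 78) (nat_lit 0) (nat_lit 0) (XT.lf (nat_lit 0) (nat_lit 851527094261) (nat_lit 76) (nat_lit 70251519597) (nat_lit 76) (nat_lit 68467424105) (nat_lit 1) (nat_lit 4) (nat_lit 2) (nat_lit 5) (nat_lit 2) (nat_lit 4) (nat_lit 325) (nat_lit 212) (nat_lit 183))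 (XT.lf (nat_lit 0) (nat_lit 920884498679) (nat_lit 76) (nat_lit 75162306409) (nat_lit 76) (nat_lit 73362321672) (nat_lit 1) (nat_lit 4) (nat_lit 2) (nat_lit 5) (nat_lit 2) (nat_lit 4) (nat_lit 326) (nat_lit 212) (nat_lit 182)))) (XT.nd (nat_lit 78) (nat_lit 0) (nat_lit 0) (XT.lf (nat_lit 0) (nat_lit 995774821945) (nat_lit 76) (nat_lit 80472927910) (nat_lit 76) (nat_lit 78658230908) (nat_lit 1) (nat_lit 4) (nat_lit 2) (nat_lit 5) (nat_lit 2) (nat_lit 4) (nat_lit 327) (nat_lit 212) (nat_lit 181)) (XT.nd (nat_lit 78) (nat_lit 0) (nat_lit 0) (XT.lf (nat_lit 0) (nat_lit 1076641858570) (nat_lit 76) (nat_lit 86214854450) (nat_lit 76) (nat_lit 84386534982) (nat_lit 1) (nat_lit 4) (nat_lit 2) (nat_lit 5) (nat_lit 2) (nat_lit 4) (nat_lit 328) (nat_lit 212) (nat_lit 180)) (XT.lf (nat_lit 0) (nat_lit 1163964820622) (nat_lit 76) (nat_lit 92422112260) (nat_lit 76) (nat_lit 90581179396) (nat_lit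 1) (nat_lit 4) (nat_lit 2) (nat_lit 5) (nat_lit 2) (nat_lit 4) (nat_lit 329) (nat_lit 212) (nat_lit 179))))) (XT.nd (nat_lit 234) (nat_lit 0) (nat_lit 0) (XT.nd (nat_lit 78) (nat_lit 0) (nat_lit 0) (XT.lf (nat_lit 0) (nat_lit 1258261177505) (nat_lit 76) (nat_lit 99131485090) (nat_lit 76) (nat_lit 97278873157) (nat_lit 1) (nat_lit 4) (nat_lit 2) (nat_lit 5) (nat_lit 2) (nat_lit 4) (nat_lit 330) (nat_lit 212) (nat_lit 178)) (XT.nd (nat_lit 78) (nat_lit 0) (nat_lit 0) (XT.lf (nat_lit 0) (nat_lit 1360089722445) (nat_lit 76) (nat_lit 106382732187) (nat_lit 76) (nat_lit 104519306300) (nat_lit 1) (nat_lit 4) (nat_lit 2) (nat_lit 5) (nat_lit 2) (nat_lit 4) (nat_lit 331) (nat_lit 212) (nat_lit 177)) (XT.lf (nat_lit 0) (nat_lit 1470053883858) (nat_lit 76) (nat_lit 114218823903) (nat_lit 76) (nat_lit 112345385096) (nat_lit 1) (nat_lit 4) (nat_lit 2) (nat_lit 5) (nat_lit 2) (nat_lit 4) (nat_lit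 332) (nat_lit 212) (nat_lit 176)))) (XT.nd (nat_lit 78) (nat_lit 0) (nat_lit 0) (XT.lf (nat_lit 0) (nat_lit 1588805301217) (nat_lit 76) (nat_lit 122686196337) (nat_lit 76) (nat_lit 120803486308) (nat_lit 1) (nat_lit 4) (nat_lit 2) (nat_lit 5) (nat_lit 2) (nat_lit 4) (nat_lit 333) (nat_lit 212) (nat_lit 175)) (XT.nd (nat_lit 78) (nat_lit 0) (nat_lit 0) (XT.lf (nat_lit 0) (nat_lit 1717047686627) (nat_lit 76) (nat_lit 131835026513) (nat_lit 76) (nat_lit 129943732019) (nat_lit 1) (nat_lit 4) (nat_lit 2) (nat_lit 5) (nat_lit 2) (nat_lit 4) (nat_lit 334) (nat_lit 212) (nat_lit 174)) (XT.lf (nat_lit 0) (nat_lit 1855540994963) (nat_lit 76) (nat_lit 141719529718) (nat_lit 76) (nat_lit 139820286646) (nat_lit 1) (nat_lit 4) (nat_lit 2) (nat_lit 5) (nat_lit 2) (nat_lit 4) (nat_lit 335) (nat_lit 212) (nat_lit 173))))))))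
noncomputable def xc10 : XT := (XT.nd (nat_lit 35880) (nat_lit 0) (nat_lit 0) (XT.nd (nat_lit 34944) (nat_lit 0) (nat_lit 0) (XT.nd (nat_lit 34476) (nat_lit 0) (nat_lit 0) (XT.nd (nat_lit 34242) (nat_lit 0) (nat_lit 0) (XT.nd (nat_lit 78) (nat_lit 0) (nat_lit 0) (XT.lf (nat_lit 0) (nat_lit 2005105927311) (nat_lit 76) (nat_lit 152398280788) (nat_lit 76) (nat_lit 150491677921) (nat_lit 1) (nat_lit 4) (nat_lit 2) (nat_lit 5) (nat_lit 2) (nat_lit 4) (nat_lit 336) (nat_lit 212) (nat_lit 172)) (XT.lf (nat_lit 0) (nat_lit 2166628794383) (nat_lit 76) (nat_lit 163934561210) (nat_lit 76) (nat_lit 162021143717) (nat_lit 1) (nat_lit 4) (nat_lit 2) (nat_lit 5) (nat_lit 2) (nat_lit 4) (nat_lit 337) (nat_lit 212) (nat_lit 171))) (XT.nd (nat_lit 78) (nat_lit 0) (nat_lit 0) (XT.lf (nat_lit 0) (nat_lit 26009759329) (nat_lit 76) (nat_lit 10076392552) (nat_lit 76) (nat_lit 10076392552) (nat_lit 1) (nat_lit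 4) (nat_lit 2) (nat_lit 5) (nat_lit 2) (nat_lit 4) (nat_lit 294) (nat_lit 213) (nat_lit 213)) (XT.nd (nat_lit 78) (nat_lit 0) (nat_lit 0) (XT.lf (nat_lit 0) (nat_lit 59415797011) (nat_lit 76) (nat_lit 20153491778) (nat_lit 76) (nat_lit 19993603753) (nat_lit 1) (nat_lit 4) (nat_lit 2) (nat_lit 5) (nat_lit 2) (nat_lit 4) (nat_lit 295) (nat_lit 213) (nat_lit 212)) (XT.lf (nat_lit 0) (nat_lit 67246060542) (nat_lit 76) (nat_lit 20224409254) (nat_lit 76) (nat_lit 19916476763) (nat_lit 1) (nat_lit 4) (nat_lit 2) (nat_lit 5) (nat_lit 2) (nat_lit 4) (nat_lit 296) (nat_lit 213) (nat_lit 211))))) (XT.nd (nat_lit 234) (nat_lit 0) (nat_lit 0) (XT.nd (nat_lit 78) (nat_lit 0) (nat_lit 0) (XT.lf (nat_lit 0) (nat_lit 75556710813) (nat_lit 76) (nat_lit 20365957785) (nat_lit 76) (nat_lit 19920947084) (nat_lit 1) (nat_lit 4) (nat_lit 2) (nat_lit 5) (nat_lit 2) (nat_lit 4) (nat_lit 297) (nat_lit 213)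 (nat_lit 210)) (XT.nd (nat_lit 78) (nat_lit 0) (nat_lit 0) (XT.lf (nat_lit 0) (nat_lit 84396996121) (nat_lit 76) (nat_lit 20578976177) (nat_lit 76) (nat_lit 20007041206) (nat_lit 1) (nat_lit 4) (nat_lit 2) (nat_lit 5) (nat_lit 2) (nat_lit 4) (nat_lit 298) (nat_lit 213) (nat_lit 209)) (XT.lf (nat_lit 0) (nat_lit 93819303342) (nat_lit 76) (nat_lit 20864726760) (nat_lit 76) (nat_lit 20175269318) (nat_lit 1) (nat_lit 4) (nat_lit 2) (nat_lit 5) (nat_lit 2) (nat_lit 4) (nat_lit 299) (nat_lit 213) (nat_lit 208)))) (XT.nd (nat_lit 78) (nat_lit 0) (nat_lit 0) (XT.lf (nat_lit 0) (nat_lit 103879468372) (nat_lit 76) (nat_lit 21224902871) (nat_lit 76) (nat_lit 20426628327) (nat_lit 1) (nat_lit 4) (nat_lit 2) (nat_lit 5) (nat_lit 2) (nat_lit 4) (nat_lit 300) (nat_lit 213) (nat_lit 207)) (XT.nd (nat_lit 78) (nat_lit 0) (nat_lit 0) (XT.lf (nat_lit 0) (nat_lit 114637107002) (nat_lit 76) (nat_lit 21661638888)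 (nat_lit 76) (nat_lit 20762607767) (nat_lit 1) (nat_lit 4) (nat_lit 2) (nat_lit 5) (nat_lit 2) (nat_lit 4) (nat_lit 301) (nat_lit 213) (nat_lit 206)) (XT.lf (nat_lit 0) (nat_lit 126155968203) (nat_lit 76) (nat_lit 22177522875) (nat_lit 76) (nat_lit 21185198628) (nat_lit 1) (nat_lit 4) (nat_lit 2) (nat_lit 5) (nat_lit 2) (nat_lit 4) (nat_lit 302) (nat_lit 213) (nat_lit 205)))))) (XT.nd (nat_lit 468) (nat_lit 0) (nat_lit 0) (XT.nd (nat_lit 234) (nat_lit 0) (nat_lit 0) (XT.nd (nat_lit 78) (nat_lit 0) (nat_lit 0) (XT.lf (nat_lit 0) (nat_lit 138504311893) (nat_lit 76) (nat_lit 22775611923) (nat_lit 76) (nat_lit 21696905151) (nat_lit 1) (nat_lit 4) (nat_lit 2) (nat_lit 5) (nat_lit 2) (nat_lit 4) (nat_lit 303) (nat_lit 213) (nat_lit 204)) (XT.nd (nat_lit 78) (nat_lit 0) (nat_lit 0) (XT.lf (nat_lit 0) (nat_lit 151755313441) (nat_lit 76) (nat_lit 23459450264) (nat_lit 76) (nat_lit 22300759673)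 (nat_lit 1) (nat_lit 4) (nat_lit 2) (nat_lit 5) (nat_lit 2) (nat_lit 4) (nat_lit 304) (nat_lit 213) (nat_lit 203)) (XT.lf (nat_lit 0) (nat_lit 165987497302) (nat_lit 76) (nat_lit 24233090272) (nat_lit 76) (nat_lit 23000340590) (nat_lit 1) (nat_lit 4) (nat_lit 2) (nat_lit 5) (nat_lit 2) (nat_lit 4) (nat_lit 305) (nat_lit 213) (nat_lit 202)))) (XT.nd (nat_lit 78) (nat_lit 0) (nat_lit 0) (XT.lf (nat_lit 0) (nat_lit 181285202343) (nat_lit 76) (nat_lit 25101116482) (nat_lit 76) (nat_lit 23799793566) (nat_lit 1) (nat_lit 4) (nat_lit 2) (nat_lit 5) (nat_lit 2) (nat_lit 4) (nat_lit 306) (nat_lit 213) (nat_lit 201)) (XT.nd (nat_lit 78) (nat_lit 0) (nat_lit 0) (XT.lf (nat_lit 0) (nat_lit 197739081630) (nat_lit 76) (nat_lit 26068672751) (nat_lit 76) (nat_lit 24703856101) (nat_lit 1) (nat_lit 4) (nat_lit 2) (nat_lit 5) (nat_lit 2) (nat_lit 4) (nat_lit 307) (nat_lit 213) (nat_lit 200)) (XT.lf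 (nat_lit 0) (nat_lit 215446639634) (nat_lit 76) (nat_lit 27141492748) (nat_lit 76) (nat_lit 25717885603) (nat_lit 1) (nat_lit 4) (nat_lit 2) (nat_lit 5) (nat_lit 2) (nat_lit 4) (nat_lit 308) (nat_lit 213) (nat_lit 199))))) (XT.nd (nat_lit 234) (nat_lit 0) (nat_lit 0) (XT.nd (nat_lit 78) (nat_lit 0) (nat_lit 0) (XT.lf (nat_lit 0) (nat_lit 234512810031) (nat_lit 76) (nat_lit 28325933923) (nat_lit 76) (nat_lit 26847891135) (nat_lit 1) (nat_lit 4) (nat_lit 2) (nat_lit 5) (nat_lit 2) (nat_lit 4) (nat_lit 309) (nat_lit 213) (nat_lit 198)) (XT.nd (nat_lit 78) (nat_lit 0) (nat_lit 0) (XT.lf (nat_lit 0) (nat_lit 255050577535) (nat_lit 76) (nat_lit 29629015187) (nat_lit 76) (nat_lit 28100569026) (nat_lit 1) (nat_lit 4) (nat_lit 2) (nat_lit 5) (nat_lit 2) (nat_lit 4) (nat_lit 310) (nat_lit 213) (nat_lit 197)) (XT.lf (nat_lit 0) (nat_lit 277181647435) (nat_lit 76) (nat_lit 31058458504) (nat_lit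 76) (nat_lit 29483342553) (nat_lit 1) (nat_lit 4) (nat_lit 2) (nat_lit 5) (nat_lit 2) (nat_lit 4) (nat_lit 311) (nat_lit 213) (nat_lit 196)))) (XT.nd (nat_lit 78) (nat_lit 0) (nat_lit 0) (XT.lf (nat_lit 0) (nat_lit 301037166812) (nat_lit 76) (nat_lit 32622734649) (nat_lit 76) (nat_lit 31004405929) (nat_lit 1) (nat_lit 4) (nat_lit 2) (nat_lit 5) (nat_lit 2) (nat_lit 4) (nat_lit 312) (nat_lit 213) (nat_lit 195)) (XT.nd (nat_lit 78) (nat_lit 0) (nat_lit 0) (XT.lf (nat_lit 0) (nat_lit 326758501707) (nat_lit 76) (nat_lit 34331113406) (nat_lit 76) (nat_lit 32672772862) (nat_lit 1) (nat_lit 4) (nat_lit 2) (nat_lit 5) (nat_lit 2) (nat_lit 4) (nat_lit 313) (nat_lit 213) (nat_lit 194)) (XT.lf (nat_lit 0) (nat_lit 354498074844) (nat_lit 76) (nat_lit 36193718501) (nat_lit 76) (nat_lit 34498329973) (nat_lit 1) (nat_lit 4) (nat_lit 2) (nat_lit 5) (nat_lit 2) (nat_lit 4) (nat_lit 314) (nat_lit 213)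 (nat_lit 193))))))) (XT.nd (nat_lit 936) (nat_lit 0) (nat_lit 0) (XT.nd (nat_lit 468) (nat_lit 0) (nat_lit 0) (XT.nd (nat_lit 234) (nat_lit 0) (nat_lit 0) (XT.nd (nat_lit 78) (nat_lit 0) (nat_lit 0) (XT.lf (nat_lit 0) (nat_lit 384420268880) (nat_lit 76) (nat_lit 38221587594) (nat_lit 76) (nat_lit 36491895377) (nat_lit 1) (nat_lit 4) (nat_lit 2) (nat_lit 5) (nat_lit 2) (nat_lit 4) (nat_lit 315) (nat_lit 213) (nat_lit 192)) (XT.nd (nat_lit 78) (nat_lit 0) (nat_lit 0) (XT.lf (nat_lit 0) (nat_lit 416702400520) (nat_lit 76) (nat_lit 40426737686) (nat_lit 76) (nat_lit 38665282795) (nat_lit 1) (nat_lit 4) (nat_lit 2) (nat_lit 5) (nat_lit 2) (nat_lit 4) (nat_lit 316) (nat_lit 213) (nat_lit 191)) (XT.lf (nat_lit 0) (nat_lit 451535771285) (nat_lit 76) (nat_lit 42822236336) (nat_lit 76) (nat_lit 41031371560) (nat_lit 1) (nat_lit 4) (nat_lit 2) (nat_lit 5) (nat_lit 2) (nat_lit 4) (nat_lit 317)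 (nat_lit 213) (nat_lit 190)))) (XT.nd (nat_lit 78) (nat_lit 0) (nat_lit 0) (XT.lf (nat_lit 0) (nat_lit 489126801149) (nat_lit 76) (nat_lit 45422279088) (nat_lit 76) (nat_lit 43604182938) (nat_lit 1) (nat_lit 4) (nat_lit 2) (nat_lit 5) (nat_lit 2) (nat_lit 4) (nat_lit 318) (nat_lit 213) (nat_lit 189)) (XT.nd (nat_lit 78) (nat_lit 0) (nat_lit 0) (XT.lf (nat_lit 0) (nat_lit 529698251771) (nat_lit 76) (nat_lit 48242273605) (nat_lit 76) (nat_lit 46398963220) (nat_lit 1) (nat_lit 4) (nat_lit 2) (nat_lit 5) (nat_lit 2) (nat_lit 4) (nat_lit 319) (nat_lit 213) (nat_lit 188)) (XT.lf (nat_lit 0) (nat_lit 573490546562) (nat_lit 76) (nat_lit 51298930966) (nat_lit 76) (nat_lit 49432274066) (nat_lit 1) (nat_lit 4) (nat_lit 2) (nat_lit 5) (nat_lit 2) (nat_lit 4) (nat_lit 320) (nat_lit 213) (nat_lit 187))))) (XT.nd (nat_lit 234) (nat_lit 0) (nat_lit 0) (XT.nd (nat_lit 78) (nat_lit 0) (nat_lit 0) (XT.lf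 (nat_lit 0) (nat_lit 620763195418) (nat_lit 76) (nat_lit 54610364694) (nat_lit 76) (nat_lit 52722090651) (nat_lit 1) (nat_lit 4) (nat_lit 2) (nat_lit 5) (nat_lit 2) (nat_lit 4) (nat_lit 321) (nat_lit 213) (nat_lit 186)) (XT.nd (nat_lit 78) (nat_lit 0) (nat_lit 0) (XT.lf (nat_lit 0) (nat_lit 671796332553) (nat_lit 76) (nat_lit 58196198101) (nat_lit 76) (nat_lit 56287908186) (nat_lit 1) (nat_lit 4) (nat_lit 2) (nat_lit 5) (nat_lit 2) (nat_lit 4) (nat_lit 322) (nat_lit 213) (nat_lit 185)) (XT.lf (nat_lit 0) (nat_lit 726892376559) (nat_lit 76) (nat_lit 62077680571) (nat_lit 76) (nat_lit 60150857440) (nat_lit 1) (nat_lit 4) (nat_lit 2) (nat_lit 5) (nat_lit 2) (nat_lit 4) (nat_lit 323) (nat_lit 213) (nat_lit 184)))) (XT.nd (nat_lit 78) (nat_lit 0) (nat_lit 0) (XT.lf (nat_lit 0) (nat_lit 786377822510) (nat_lit 76) (nat_lit 66277813481) (nat_lit 76) (nat_lit 64333829964) (nat_lit 1) (nat_lit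 4) (nat_lit 2) (nat_lit 5) (nat_lit 2) (nat_lit 4) (nat_lit 324) (nat_lit 213) (nat_lit 183)) (XT.nd (nat_lit 78) (nat_lit 0) (nat_lit 0) (XT.lf (nat_lit 0) (nat_lit 850605176753) (nat_lit 76) (nat_lit 70821486507) (nat_lit 76) (nat_lit 68861613745) (nat_lit 1) (nat_lit 4) (nat_lit 2) (nat_lit 5) (nat_lit 2) (nat_lit 4) (nat_lit 325) (nat_lit 213) (nat_lit 182)) (XT.lf (nat_lit 0) (nat_lit 919955045832) (nat_lit 76) (nat_lit 75735625119) (nat_lit 76) (nat_lit 73761040093) (nat_lit 1) (nat_lit 4) (nat_lit 2) (nat_lit 5) (nat_lit 2) (nat_lit 4) (nat_lit 326) (nat_lit 213) (nat_lit 181)))))) (XT.nd (nat_lit 468) (nat_lit 0) (nat_lit 0) (XT.nd (nat_lit 234) (nat_lit 0) (nat_lit 0) (XT.nd (nat_lit 78) (nat_lit 0) (nat_lit 0) (XT.lf (nat_lit 0) (nat_lit 994838391933) (nat_lit 76) (nat_lit 81049350139) (nat_lit 76) (nat_lit 79061142646) (nat_lit 1) (nat_lit 4) (nat_lit 2) (nat_lit 5) (nat_lit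 2) (nat_lit 4) (nat_lit 327) (nat_lit 213) (nat_lit 180)) (XT.nd (nat_lit 78) (nat_lit 0) (nat_lit 0) (XT.lf (nat_lit 0) (nat_lit 1075698968220) (nat_lit 76) (nat_lit 86794150307) (nat_lit 76) (nat_lit 84793329419) (nat_lit 1) (nat_lit 4) (nat_lit 2) (nat_lit 5) (nat_lit 2) (nat_lit 4) (nat_lit 328) (nat_lit 213) (nat_lit 179)) (XT.lf (nat_lit 0) (nat_lit 1163015948477) (nat_lit 76) (nat_lit 93004068884) (nat_lit 76) (nat_lit 90991568926) (nat_lit 1) (nat_lit 4) (nat_lit 2) (nat_lit 5) (nat_lit 2) (nat_lit 4) (nat_lit 329) (nat_lit 213) (nat_lit 178)))) (XT.nd (nat_lit 78) (nat_lit 0) (nat_lit 0) (XT.lf (nat_lit 0) (nat_lit 1257306766662) (nat_lit 76) (nat_lit 99715905387) (nat_lit 76) (nat_lit 97692591476) (nat_lit 1) (nat_lit 4) (nat_lit 2) (nat_lit 5) (nat_lit 2) (nat_lit 4) (nat_lit 330) (nat_lit 213) (nat_lit 177)) (XT.nd (nat_lit 78) (nat_lit 0) (nat_lit 0) (XT.lf (nat_lit 0)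 (nat_lit 1359130183177) (nat_lit 76) (nat_lit 106969433662) (nat_lit 76) (nat_lit 104936106831) (nat_lit 1) (nat_lit 4) (nat_lit 2) (nat_lit 5) (nat_lit 2) (nat_lit 4) (nat_lit 331) (nat_lit 213) (nat_lit 176)) (XT.lf (nat_lit 0) (nat_lit 1469089596049) (nat_lit 76) (nat_lit 114807637581) (nat_lit 76) (nat_lit 112765039528) (nat_lit 1) (nat_lit 4) (nat_lit 2) (nat_lit 5) (nat_lit 2) (nat_lit 4) (nat_lit 332) (nat_lit 213) (nat_lit 175))))) (XT.nd (nat_lit 234) (nat_lit 0) (nat_lit 0) (XT.nd (nat_lit 78) (nat_lit 0) (nat_lit 0) (XT.lf (nat_lit 0) (nat_lit 1587836616611) (nat_lit 76) (nat_lit 123276965759) (nat_lit 76) (nat_lit 121225783240) (nat_lit 1) (nat_lit 4) (nat_lit 2) (nat_lit 5) (nat_lit 2) (nat_lit 4) (nat_lit 333) (nat_lit 213) (nat_lit 174)) (XT.nd (nat_lit 78) (nat_lit 0) (nat_lit 0) (XT.lf (nat_lit 0) (nat_lit 1716074930911) (nat_lit 76) (nat_lit 132427606807) (nat_lit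 76) (nat_lit 130368475710) (nat_lit 1) (nat_lit 4) (nat_lit 2) (nat_lit 5) (nat_lit 2) (nat_lit 4) (nat_lit 334) (nat_lit 213) (nat_lit 173)) (XT.lf (nat_lit 0) (nat_lit 1854564469702) (nat_lit 76) (nat_lit 142313786747) (nat_lit 76) (nat_lit 140247295855) (nat_lit 1) (nat_lit 4) (nat_lit 2) (nat_lit 5) (nat_lit 2) (nat_lit 4) (nat_lit 335) (nat_lit 213) (nat_lit 172)))) (XT.nd (nat_lit 78) (nat_lit 0) (nat_lit 0) (XT.lf (nat_lit 0) (nat_lit 2004125911731) (nat_lit 76) (nat_lit 152994090349) (nat_lit 76) (nat_lit 150920784832) (nat_lit 1) (nat_lit 4) (nat_lit 2) (nat_lit 5) (nat_lit 2) (nat_lit 4) (nat_lit 336) (nat_lit 213) (nat_lit 171)) (XT.nd (nat_lit 34008) (nat_lit 0) (nat_lit 0) (XT.lf (nat_lit 0) (nat_lit 2165645547025) (nat_lit 76) (nat_lit 164531808300) (nat_lit 76) (nat_lit 162452192946) (nat_lit 1) (nat_lit 4) (nat_lit 2) (nat_lit 5) (nat_lit 2) (nat_lit 4) (nat_lit 337)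 (nat_lit 213) (nat_lit 170)) (XT.lf (nat_lit 0) (nat_lit 19222176610) (nat_lit 76) (nat_lit 10247871081) (nat_lit 76) (nat_lit 10247871081) (nat_lit 1) (nat_lit 4) (nat_lit 2) (nat_lit 5) (nat_lit 2) (nat_lit 4) (nat_lit 292) (nat_lit 214) (nat_lit 214))))))))
noncomputable def xc11 : XT := (XT.nd (nat_lit 1872) (nat_lit 0) (nat_lit 0) (XT.nd (nat_lit 936) (nat_lit 0) (nat_lit 0) (XT.nd (nat_lit 468) (nat_lit 0) (nat_lit 0) (XT.nd (nat_lit 234) (nat_lit 0) (nat_lit 0) (XT.nd (nat_lit 78) (nat_lit 0) (nat_lit 0) (XT.lf (nat_lit 0) (nat_lit 45013395686) (nat_lit 76) (nat_lit 20394964111) (nat_lit 76) (nat_lit 20222285045) (nat_lit 1) (nat_lit 4) (nat_lit 2) (nat_lit 5) (nat_lit 2) (nat_lit 4) (nat_lit 293) (nat_lit 214) (nat_lit 213)) (XT.nd (nat_lit 78) (nat_lit 0) (nat_lit 0) (XT.lf (nat_lit 0) (nat_lit 51937627093) (nat_lit 76) (nat_lit 20361890425) (nat_lit 76) (nat_lit 20029323334)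 (nat_lit 1) (nat_lit 4) (nat_lit 2) (nat_lit 5) (nat_lit 2) (nat_lit 4) (nat_lit 294) (nat_lit 214) (nat_lit 212)) (XT.lf (nat_lit 0) (nat_lit 59258079921) (nat_lit 76) (nat_lit 20396325113) (nat_lit 76) (nat_lit 19915713555) (nat_lit 1) (nat_lit 4) (nat_lit 2) (nat_lit 5) (nat_lit 2) (nat_lit 4) (nat_lit 295) (nat_lit 214) (nat_lit 211)))) (XT.nd (nat_lit 78) (nat_lit 0) (nat_lit 0) (XT.lf (nat_lit 0) (nat_lit 67018134633) (nat_lit 76) (nat_lit 20498472232) (nat_lit 76) (nat_lit 19880782464) (nat_lit 1) (nat_lit 4) (nat_lit 2) (nat_lit 5) (nat_lit 2) (nat_lit 4) (nat_lit 296) (nat_lit 214) (nat_lit 210)) (XT.nd (nat_lit 78) (nat_lit 0) (nat_lit 0) (XT.lf (nat_lit 0) (nat_lit 75263776738) (nat_lit 76) (nat_lit 20668937098) (nat_lit 76) (nat_lit 19924323062) (nat_lit 1) (nat_lit 4) (nat_lit 2) (nat_lit 5) (nat_lit 2) (nat_lit 4) (nat_lit 297) (nat_lit 214) (nat_lit 209)) (XT.lf (nat_lit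 0) (nat_lit 84043869301) (nat_lit 76) (nat_lit 20908729874) (nat_lit 76) (nat_lit 20046593367) (nat_lit 1) (nat_lit 4) (nat_lit 2) (nat_lit 5) (nat_lit 2) (nat_lit 4) (nat_lit 298) (nat_lit 214) (nat_lit 208))))) (XT.nd (nat_lit 234) (nat_lit 0) (nat_lit 0) (XT.nd (nat_lit 78) (nat_lit 0) (nat_lit 0) (XT.lf (nat_lit 0) (nat_lit 93410442498) (nat_lit 76) (nat_lit 21219271554) (nat_lit 76) (nat_lit 20248317944) (nat_lit 1) (nat_lit 4) (nat_lit 2) (nat_lit 5) (nat_lit 2) (nat_lit 4) (nat_lit 299) (nat_lit 214) (nat_lit 207)) (XT.nd (nat_lit 78) (nat_lit 0) (nat_lit 0) (XT.lf (nat_lit 0) (nat_lit 103419001950) (nat_lit 76) (nat_lit 21602402385) (nat_lit 76) (nat_lit 20530692198) (nat_lit 1) (nat_lit 4) (nat_lit 2) (nat_lit 5) (nat_lit 2) (nat_lit 4) (nat_lit 300) (nat_lit 214) (nat_lit 206)) (XT.lf (nat_lit 0) (nat_lit 114128857638) (nat_lit 76) (nat_lit 22060392772) (nat_lit 76) (nat_lit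 20895389458) (nat_lit 1) (nat_lit 4) (nat_lit 2) (nat_lit 5) (nat_lit 2) (nat_lit 4) (nat_lit 301) (nat_lit 214) (nat_lit 205)))) (XT.nd (nat_lit 78) (nat_lit 0) (nat_lit 0) (XT.lf (nat_lit 0) (nat_lit 125603475374) (nat_lit 76) (nat_lit 22595956731) (nat_lit 76) (nat_lit 21344570893) (nat_lit 1) (nat_lit 4) (nat_lit 2) (nat_lit 5) (nat_lit 2) (nat_lit 4) (nat_lit 302) (nat_lit 214) (nat_lit 204)) (XT.nd (nat_lit 78) (nat_lit 0) (nat_lit 0) (XT.lf (nat_lit 0) (nat_lit 137910852893) (nat_lit 76) (nat_lit 23212267976) (nat_lit 76) (nat_lit 21880898319) (nat_lit 1) (nat_lit 4) (nat_lit 2) (nat_lit 5) (nat_lit 2) (nat_lit 4) (nat_lit 303) (nat_lit 214) (nat_lit 203)) (XT.lf (nat_lit 0) (nat_lit 151123922801) (nat_lit 76) (nat_lit 23912978721) (nat_lit 76) (nat_lit 22507549972) (nat_lit 1) (nat_lit 4) (nat_lit 2) (nat_lit 5) (nat_lit 2) (nat_lit 4) (nat_lit 304) (nat_lit 214) (nat_lit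 202)))))) (XT.nd (nat_lit 468) (nat_lit 0) (nat_lit 0) (XT.nd (nat_lit 234) (nat_lit 0) (nat_lit 0) (XT.nd (nat_lit 78) (nat_lit 0) (nat_lit 0) (XT.lf (nat_lit 0) (nat_lit 165320984773) (nat_lit 76) (nat_lit 24702241325) (nat_lit 76) (nat_lit 23228239343) (nat_lit 1) (nat_lit 4) (nat_lit 2) (nat_lit 5) (nat_lit 2) (nat_lit 4) (nat_lit 305) (nat_lit 214) (nat_lit 201)) (XT.nd (nat_lit 78) (nat_lit 0) (nat_lit 0) (XT.lf (nat_lit 0) (nat_lit 180586169546) (nat_lit 76) (nat_lit 25584732902) (nat_lit 76) (nat_lit 24047237185) (nat_lit 1) (nat_lit 4) (nat_lit 2) (nat_lit 5) (nat_lit 2) (nat_lit 4) (nat_lit 306) (nat_lit 214) (nat_lit 200)) (XT.lf (nat_lit 0) (nat_lit 197009937474) (nat_lit 76) (nat_lit 26565683030) (nat_lit 76) (nat_lit 24969396818) (nat_lit 1) (nat_lit 4) (nat_lit 2) (nat_lit 5) (nat_lit 2) (nat_lit 4) (nat_lit 307) (nat_lit 214) (nat_lit 199)))) (XT.nd (nat_lit 78) (nat_lit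 0) (nat_lit 0) (XT.lf (nat_lit 0) (nat_lit 214689614590) (nat_lit 76) (nat_lit 27650904747) (nat_lit 76) (nat_lit 26000182892) (nat_lit 1) (nat_lit 4) (nat_lit 2) (nat_lit 5) (nat_lit 2) (nat_lit 4) (nat_lit 308) (nat_lit 214) (nat_lit 198)) (XT.nd (nat_lit 78) (nat_lit 0) (nat_lit 0) (XT.lf (nat_lit 0) (nat_lit 233729969350) (nat_lit 76) (nat_lit 28846828997) (nat_lit 76) (nat_lit 27145703769) (nat_lit 1) (nat_lit 4) (nat_lit 2) (nat_lit 5) (nat_lit 2) (nat_lit 4) (nat_lit 309) (nat_lit 214) (nat_lit 197)) (XT.lf (nat_lit 0) (nat_lit 254243833487) (nat_lit 76) (nat_lit 30160542738) (nat_lit 76) (nat_lit 28412747720) (nat_lit 1) (nat_lit 4) (nat_lit 2) (nat_lit 5) (nat_lit 2) (nat_lit 4) (nat_lit 310) (nat_lit 214) (nat_lit 196))))) (XT.nd (nat_lit 234) (nat_lit 0) (nat_lit 0) (XT.nd (nat_lit 78) (nat_lit 0) (nat_lit 0) (XT.lf (nat_lit 0) (nat_lit 276352770640) (nat_lit 76) (nat_lit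 31599830940) (nat_lit 76) (nat_lit 29808823154) (nat_lit 1) (nat_lit 4) (nat_lit 2) (nat_lit 5) (nat_lit 2) (nat_lit 4) (nat_lit 311) (nat_lit 214) (nat_lit 195)) (XT.nd (nat_lit 78) (nat_lit 0) (nat_lit 0) (XT.lf (nat_lit 0) (nat_lit 300187796732) (nat_lit 76) (nat_lit 33173222720) (nat_lit 76) (nat_lit 31342203110) (nat_lit 1) (nat_lit 4) (nat_lit 2) (nat_lit 5) (nat_lit 2) (nat_lit 4) (nat_lit 312) (nat_lit 214) (nat_lit 194)) (XT.lf (nat_lit 0) (nat_lit 325890156363) (nat_lit 76) (nat_lit 34890041879) (nat_lit 76) (nat_lit 33021974285) (nat_lit 1) (nat_lit 4) (nat_lit 2) (nat_lit 5) (nat_lit 2) (nat_lit 4) (nat_lit 313) (nat_lit 214) (nat_lit 193)))) (XT.nd (nat_lit 78) (nat_lit 0) (nat_lit 0) (XT.lf (nat_lit 0) (nat_lit 353612159811) (nat_lit 76) (nat_lit 36760462162) (nat_lit 76) (nat_lit 34858090879) (nat_lit 1) (nat_lit 4) (nat_lit 2) (nat_lit 5) (nat_lit 2) (nat_lit 4) (nat_lit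 314) (nat_lit 214) (nat_lit 192)) (XT.nd (nat_lit 78) (nat_lit 0) (nat_lit 0) (XT.lf (nat_lit 0) (nat_lit 383518085617) (nat_lit 76) (nat_lit 38795567540) (nat_lit 76) (nat_lit 36861433582) (nat_lit 1) (nat_lit 4) (nat_lit 2) (nat_lit 5) (nat_lit 2) (nat_lit 4) (nat_lit 315) (nat_lit 214) (nat_lit 191)) (XT.lf (nat_lit 0) (nat_lit 415785154080) (nat_lit 76) (nat_lit 41007417896) (nat_lit 76) (nat_lit 39043874054) (nat_lit 1) (nat_lit 4) (nat_lit 2) (nat_lit 5) (nat_lit 2) (nat_lit 4) (nat_lit 316) (nat_lit 214) (nat_lit 190))))))) (XT.nd (nat_lit 936) (nat_lit 0) (nat_lit 0) (XT.nd (nat_lit 468) (nat_lit 0) (nat_lit 0) (XT.nd (nat_lit 234) (nat_lit 0) (nat_lit 0) (XT.nd (nat_lit 78) (nat_lit 0) (nat_lit 0) (XT.lf (nat_lit 0) (nat_lit 450604577460) (nat_lit 76) (nat_lit 43409120493) (nat_lit 76) (nat_lit 41418345277) (nat_lit 1) (nat_lit 4) (nat_lit 2) (nat_lit 5) (nat_lit 2) (nat_lit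 4) (nat_lit 317) (nat_lit 214) (nat_lit 189)) (XT.nd (nat_lit 78) (nat_lit 0) (nat_lit 0) (XT.lf (nat_lit 0) (nat_lit 488182693078) (nat_lit 76) (nat_lit 46014907642) (nat_lit 76) (nat_lit 43998918190) (nat_lit 1) (nat_lit 4) (nat_lit 2) (nat_lit 5) (nat_lit 2) (nat_lit 4) (nat_lit 318) (nat_lit 214) (nat_lit 188)) (XT.lf (nat_lit 0) (nat_lit 528742186065) (nat_lit 76) (nat_lit 48840221045) (nat_lit 76) (nat_lit 46800885079) (nat_lit 1) (nat_lit 4) (nat_lit 2) (nat_lit 5) (nat_lit 2) (nat_lit 4) (nat_lit 319) (nat_lit 214) (nat_lit 187)))) (XT.nd (nat_lit 78) (nat_lit 0) (nat_lit 0) (XT.lf (nat_lit 0) (nat_lit 572523408973) (nat_lit 76) (nat_lit 51901803299) (nat_lit 76) (nat_lit 49840850190) (nat_lit 1) (nat_lit 4) (nat_lit 2) (nat_lit 5) (nat_lit 2) (nat_lit 4) (nat_lit 320) (nat_lit 214) (nat_lit 186)) (XT.nd (nat_lit 78) (nat_lit 0) (nat_lit 0) (XT.lf (nat_lit 0) (nat_lit 619785806084)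 (nat_lit 76) (nat_lit 55217797114) (nat_lit 76) (nat_lit 53136828132) (nat_lit 1) (nat_lit 4) (nat_lit 2) (nat_lit 5) (nat_lit 2) (nat_lit 4) (nat_lit 321) (nat_lit 214) (nat_lit 185)) (XT.lf (nat_lit 0) (nat_lit 670809450863) (nat_lit 76) (nat_lit 58807852825) (nat_lit 76) (nat_lit 56708350627) (nat_lit 1) (nat_lit 4) (nat_lit 2) (nat_lit 5) (nat_lit 2) (nat_lit 4) (nat_lit 322) (nat_lit 214) (nat_lit 184))))) (XT.nd (nat_lit 234) (nat_lit 0) (nat_lit 0) (XT.nd (nat_lit 78) (nat_lit 0) (nat_lit 0) (XT.lf (nat_lit 0) (nat_lit 725896705650) (nat_lit 76) (nat_lit 62693244834) (nat_lit 76) (nat_lit 60576582251) (nat_lit 1) (nat_lit 4) (nat_lit 2) (nat_lit 5) (nat_lit 2) (nat_lit 4) (nat_lit 323) (nat_lit 214) (nat_lit 183)) (XT.nd (nat_lit 78) (nat_lit 0) (nat_lit 0) (XT.lf (nat_lit 0) (nat_lit 785374013435) (nat_lit 76) (nat_lit 66896997688) (nat_lit 76) (nat_lit 64764445859) (nat_lit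 1) (nat_lit 4) (nat_lit 2) (nat_lit 5) (nat_lit 2) (nat_lit 4) (nat_lit 324) (nat_lit 214) (nat_lit 182)) (XT.lf (nat_lit 0) (nat_lit 849593832340) (nat_lit 76) (nat_lit 71444022514) (nat_lit 76) (nat_lit 69296758421) (nat_lit 1) (nat_lit 4) (nat_lit 2) (nat_lit 5) (nat_lit 2) (nat_lit 4) (nat_lit 325) (nat_lit 214) (nat_lit 181)))) (XT.nd (nat_lit 78) (nat_lit 0) (nat_lit 0) (XT.lf (nat_lit 0) (nat_lit 918936724254) (nat_lit 76) (nat_lit 76361264644) (nat_lit 76) (nat_lit 74200378085) (nat_lit 1) (nat_lit 4) (nat_lit 2) (nat_lit 5) (nat_lit 2) (nat_lit 4) (nat_lit 326) (nat_lit 214) (nat_lit 180)) (XT.nd (nat_lit 78) (nat_lit 0) (nat_lit 0) (XT.lf (nat_lit 0) (nat_lit 993813610017) (nat_lit 76) (nat_lit 81677863292) (nat_lit 76) (nat_lit 79504363338) (nat_lit 1) (nat_lit 4) (nat_lit 2) (nat_lit 5) (nat_lit 2) (nat_lit 4) (nat_lit 327) (nat_lit 214) (nat_lit 179)) (XT.lf (nat_lit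 0) (nat_lit 1074668204510) (nat_lit 76) (nat_lit 87425324228) (nat_lit 76) (nat_lit 85240145203) (nat_lit 1) (nat_lit 4) (nat_lit 2) (nat_lit 5) (nat_lit 2) (nat_lit 4) (nat_lit 328) (nat_lit 214) (nat_lit 178)))))) (XT.nd (nat_lit 468) (nat_lit 0) (nat_lit 0) (XT.nd (nat_lit 234) (nat_lit 0) (nat_lit 0) (XT.nd (nat_lit 78) (nat_lit 0) (nat_lit 0) (XT.lf (nat_lit 0) (nat_lit 1161979646068) (nat_lit 76) (nat_lit 93637706478) (nat_lit 76) (nat_lit 91441713500) (nat_lit 1) (nat_lit 4) (nat_lit 2) (nat_lit 5) (nat_lit 2) (nat_lit 4) (nat_lit 329) (nat_lit 214) (nat_lit 177)) (XT.nd (nat_lit 78) (nat_lit 0) (nat_lit 0) (XT.lf (nat_lit 0) (nat_lit 1256265335828) (nat_lit 76) (nat_lit 100351824160) (nat_lit 76) (nat_lit 98145818262) (nat_lit 1) (nat_lit 4) (nat_lit 2) (nat_lit 5) (nat_lit 2) (nat_lit 4) (nat_lit 330) (nat_lit 214) (nat_lit 176)) (XT.lf (nat_lit 0) (nat_lit 1358084003802)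 (nat_lit 76) (nat_lit 107607464637) (nat_lit 76) (nat_lit 105392187518) (nat_lit 1) (nat_lit 4) (nat_lit 2) (nat_lit 5) (nat_lit 2) (nat_lit 4) (nat_lit 331) (nat_lit 214) (nat_lit 175)))) (XT.nd (nat_lit 78) (nat_lit 0) (nat_lit 0) (XT.lf (nat_lit 0) (nat_lit 1468039019876) (nat_lit 76) (nat_lit 115447624299) (nat_lit 76) (nat_lit 113223762714) (nat_lit 1) (nat_lit 4) (nat_lit 2) (nat_lit 5) (nat_lit 2) (nat_lit 4) (nat_lit 332) (nat_lit 214) (nat_lit 174)) (XT.nd (nat_lit 78) (nat_lit 0) (nat_lit 0) (XT.lf (nat_lit 0) (nat_lit 1586781969329) (nat_lit 76) (nat_lit 123918763350) (nat_lit 76) (nat_lit 121686953187) (nat_lit 1) (nat_lit 4) (nat_lit 2) (nat_lit 5) (nat_lit 2) (nat_lit 4) (nat_lit 333) (nat_lit 214) (nat_lit 173)) (XT.lf (nat_lit 0) (nat_lit 1715016514084) (nat_lit 76) (nat_lit 133071081133) (nat_lit 76) (nat_lit 130831911175) (nat_lit 1) (nat_lit 4) (nat_lit 2) (nat_lit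 5) (nat_lit 2) (nat_lit 4) (nat_lit 334) (nat_lit 214) (nat_lit 172))))) (XT.nd (nat_lit 34008) (nat_lit 0) (nat_lit 0) (XT.nd (nat_lit 78) (nat_lit 0) (nat_lit 0) (XT.lf (nat_lit 0) (nat_lit 1853502562555) (nat_lit 76) (nat_lit 142958813605) (nat_lit 76) (nat_lit 140712829022) (nat_lit 1) (nat_lit 4) (nat_lit 2) (nat_lit 5) (nat_lit 2) (nat_lit 4) (nat_lit 335) (nat_lit 214) (nat_lit 171)) (XT.nd (nat_lit 78) (nat_lit 0) (nat_lit 0) (XT.lf (nat_lit 0) (nat_lit 2003060772807) (nat_lit 76) (nat_lit 153640554736) (nat_lit 76) (nat_lit 151388260315) (nat_lit 1) (nat_lit 4) (nat_lit 2) (nat_lit 5) (nat_lit 2) (nat_lit 4) (nat_lit 336) (nat_lit 214) (nat_lit 170)) (XT.lf (nat_lit 0) (nat_lit 2164577415715) (nat_lit 76) (nat_lit 165179603734) (nat_lit 76) (nat_lit 162921466870) (nat_lit 1) (nat_lit 4) (nat_lit 2) (nat_lit 5) (nat_lit 2) (nat_lit 4) (nat_lit 337) (nat_lit 214) (nat_lit 169))))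 (XT.nd (nat_lit 78) (nat_lit 0) (nat_lit 0) (XT.lf (nat_lit 0) (nat_lit 13156758467) (nat_lit 76) (nat_lit 10523605368) (nat_lit 76) (nat_lit 10523605368) (nat_lit 1) (nat_lit 4) (nat_lit 2) (nat_lit 5) (nat_lit 2) (nat_lit 4) (nat_lit 290) (nat_lit 215) (nat_lit 215)) (XT.nd (nat_lit 78) (nat_lit 0) (nat_lit 0) (XT.lf (nat_lit 0) (nat_lit 32191572034) (nat_lit 76) (nat_lit 20851315176) (nat_lit 76) (nat_lit 20664821784) (nat_lit 1) (nat_lit 4) (nat_lit 2) (nat_lit 5) (nat_lit 2) (nat_lit 4) (nat_lit 291) (nat_lit 215) (nat_lit 214)) (XT.lf (nat_lit 0) (nat_lit 38355910328) (nat_lit 76) (nat_lit 20721575910) (nat_lit 76) (nat_lit 20362403452) (nat_lit 1) (nat_lit 4) (nat_lit 2) (nat_lit 5) (nat_lit 2) (nat_lit 4) (nat_lit 292) (nat_lit 215) (nat_lit 213))))))))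
noncomputable def xc12 : XT := (XT.nd (nat_lit 1794) (nat_lit 0) (nat_lit 0) (XT.nd (nat_lit 858) (nat_lit 0) (nat_lit 0) (XT.nd (nat_lit 390) (nat_lit 0) (nat_lit 0) (XT.nd (nat_lit 156) (nat_lit 0) (nat_lit 0) (XT.nd (nat_lit 78) (nat_lit 0) (nat_lit 0) (XT.lf (nat_lit 0) (nat_lit 44843061229) (nat_lit 76) (nat_lit 20657224113) (nat_lit 76) (nat_lit 20138163630) (nat_lit 1) (nat_lit 4) (nat_lit 2) (nat_lit 5) (nat_lit 2) (nat_lit 4) (nat_lit 293) (nat_lit 215) (nat_lit 212)) (XT.lf (nat_lit 0) (nat_lit 51691467111) (nat_lit 76) (nat_lit 20657878441) (nat_lit 76) (nat_lit 19990773491) (nat_lit 1) (nat_lit 4) (nat_lit 2) (nat_lit 5) (nat_lit 2) (nat_lit 4) (nat_lit 294) (nat_lit 215) (nat_lit 211))) (XT.nd (nat_lit 78) (nat_lit 0) (nat_lit 0) (XT.lf (nat_lit 0) (nat_lit 58941711121) (nat_lit 76) (nat_lit 20723542771) (nat_lit 76) (nat_lit 19919359611) (nat_lit 1) (nat_lit 4) (nat_lit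 2) (nat_lit 5) (nat_lit 2) (nat_lit 4) (nat_lit 295) (nat_lit 215) (nat_lit 210)) (XT.nd (nat_lit 78) (nat_lit 0) (nat_lit 0) (XT.lf (nat_lit 0) (nat_lit 66636757668) (nat_lit 76) (nat_lit 20854606225) (nat_lit 76) (nat_lit 19923498797) (nat_lit 1) (nat_lit 4) (nat_lit 2) (nat_lit 5) (nat_lit 2) (nat_lit 4) (nat_lit 296) (nat_lit 215) (nat_lit 209)) (XT.lf (nat_lit 0) (nat_lit 74822207027) (nat_lit 76) (nat_lit 21051845477) (nat_lit 76) (nat_lit 20003215577) (nat_lit 1) (nat_lit 4) (nat_lit 2) (nat_lit 5) (nat_lit 2) (nat_lit 4) (nat_lit 297) (nat_lit 215) (nat_lit 208))))) (XT.nd (nat_lit 234) (nat_lit 0) (nat_lit 0) (XT.nd (nat_lit 78) (nat_lit 0) (nat_lit 0) (XT.lf (nat_lit 0) (nat_lit 83546565565) (nat_lit 76) (nat_lit 21316429350) (nat_lit 76) (nat_lit 20158982348) (nat_lit 1) (nat_lit 4) (nat_lit 2) (nat_lit 5) (nat_lit 2) (nat_lit 4) (nat_lit 298) (nat_lit 215) (nat_lit 207))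 (XT.nd (nat_lit 78) (nat_lit 0) (nat_lit 0) (XT.lf (nat_lit 0) (nat_lit 92861533185) (nat_lit 76) (nat_lit 21649925749) (nat_lit 76) (nat_lit 20391722170) (nat_lit 1) (nat_lit 4) (nat_lit 2) (nat_lit 5) (nat_lit 2) (nat_lit 4) (nat_lit 299) (nat_lit 215) (nat_lit 206)) (XT.lf (nat_lit 0) (nat_lit 102822309695) (nat_lit 76) (nat_lit 22054310950) (nat_lit 76) (nat_lit 20702814244) (nat_lit 1) (nat_lit 4) (nat_lit 2) (nat_lit 5) (nat_lit 2) (nat_lit 4) (nat_lit 300) (nat_lit 215) (nat_lit 205)))) (XT.nd (nat_lit 78) (nat_lit 0) (nat_lit 0) (XT.lf (nat_lit 0) (nat_lit 113487921918) (nat_lit 76) (nat_lit 22531981308) (nat_lit 76) (nat_lit 21094102079) (nat_lit 1) (nat_lit 4) (nat_lit 2) (nat_lit 5) (nat_lit 2) (nat_lit 4) (nat_lit 301) (nat_lit 215) (nat_lit 204)) (XT.nd (nat_lit 78) (nat_lit 0) (nat_lit 0) (XT.lf (nat_lit 0) (nat_lit 124921573483) (nat_lit 76) (nat_lit 23085767464) (nat_lit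 76) (nat_lit 21567904415) (nat_lit 1) (nat_lit 4) (nat_lit 2) (nat_lit 5) (nat_lit 2) (nat_lit 4) (nat_lit 302) (nat_lit 215) (nat_lit 203)) (XT.lf (nat_lit 0) (nat_lit 137191019361) (nat_lit 76) (nat_lit 23718951113) (nat_lit 76) (nat_lit 22127028972) (nat_lit 1) (nat_lit 4) (nat_lit 2) (nat_lit 5) (nat_lit 2) (nat_lit 4) (nat_lit 303) (nat_lit 215) (nat_lit 202)))))) (XT.nd (nat_lit 468) (nat_lit 0) (nat_lit 0) (XT.nd (nat_lit 234) (nat_lit 0) (nat_lit 0) (XT.nd (nat_lit 78) (nat_lit 0) (nat_lit 0) (XT.lf (nat_lit 0) (nat_lit 150368967380) (nat_lit 76) (nat_lit 24435284454) (nat_lit 76) (nat_lit 22774789080) (nat_lit 1) (nat_lit 4) (nat_lit 2) (nat_lit 5) (nat_lit 2) (nat_lit 4) (nat_lit 304) (nat_lit 215) (nat_lit 201)) (XT.nd (nat_lit 78) (nat_lit 0) (nat_lit 0) (XT.lf (nat_lit 0) (nat_lit 164533509084) (nat_lit 76) (nat_lit 25239012426) (nat_lit 76) (nat_lit 23515023318) (nat_lit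 1) (nat_lit 4) (nat_lit 2) (nat_lit 5) (nat_lit 2) (nat_lit 4) (nat_lit 305) (nat_lit 215) (nat_lit 200)) (XT.lf (nat_lit 0) (nat_lit 179768582499) (nat_lit 76) (nat_lit 26134897861) (nat_lit 76) (nat_lit 24352118258) (nat_lit 1) (nat_lit 4) (nat_lit 2) (nat_lit 5) (nat_lit 2) (nat_lit 4) (nat_lit 306) (nat_lit 215) (nat_lit 199)))) (XT.nd (nat_lit 78) (nat_lit 0) (nat_lit 0) (XT.lf (nat_lit 0) (nat_lit 196164469539) (nat_lit 76) (nat_lit 27128249709) (nat_lit 76) (nat_lit 25291034463) (nat_lit 1) (nat_lit 4) (nat_lit 2) (nat_lit 5) (nat_lit 2) (nat_lit 4) (nat_lit 307) (nat_lit 215) (nat_lit 198)) (XT.nd (nat_lit 78) (nat_lit 0) (nat_lit 0) (XT.lf (nat_lit 0) (nat_lit 213818331018) (nat_lit 76) (nat_lit 28224954501) (nat_lit 76) (nat_lit 26337335881) (nat_lit 1) (nat_lit 4) (nat_lit 2) (nat_lit 5) (nat_lit 2) (nat_lit 4) (nat_lit 308) (nat_lit 215) (nat_lit 197)) (XT.lf (nat_lit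 0) (nat_lit 232834782411) (nat_lit 76) (nat_lit 29431511227) (nat_lit 76) (nat_lit 27497222818) (nat_lit 1) (nat_lit 4) (nat_lit 2) (nat_lit 5) (nat_lit 2) (nat_lit 4) (nat_lit 309) (nat_lit 215) (nat_lit 196))))) (XT.nd (nat_lit 234) (nat_lit 0) (nat_lit 0) (XT.nd (nat_lit 78) (nat_lit 0) (nat_lit 0) (XT.lf (nat_lit 0) (nat_lit 253326513800) (nat_lit 76) (nat_lit 30755069854) (nat_lit 76) (nat_lit 28777568676) (nat_lit 1) (nat_lit 4) (nat_lit 2) (nat_lit 5) (nat_lit 2) (nat_lit 4) (nat_lit 310) (nat_lit 215) (nat_lit 195)) (XT.nd (nat_lit 78) (nat_lit 0) (nat_lit 0) (XT.lf (nat_lit 0) (nat_lit 275414957668) (nat_lit 76) (nat_lit 32203473692) (nat_lit 76) (nat_lit 30185960690) (nat_lit 1) (nat_lit 4) (nat_lit 2) (nat_lit 5) (nat_lit 2) (nat_lit 4) (nat_lit 311) (nat_lit 215) (nat_lit 194)) (XT.lf (nat_lit 0) (nat_lit 299231008496) (nat_lit 76) (nat_lit 33785305874) (nat_lit 76) (nat_lit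 31730744888) (nat_lit 1) (nat_lit 4) (nat_lit 2) (nat_lit 5) (nat_lit 2) (nat_lit 4) (nat_lit 312) (nat_lit 215) (nat_lit 193)))) (XT.nd (nat_lit 78) (nat_lit 0) (nat_lit 0) (XT.lf (nat_lit 0) (nat_lit 324915798438) (nat_lit 76) (nat_lit 35509940221) (nat_lit 76) (nat_lit 33421075547) (nat_lit 1) (nat_lit 4) (nat_lit 2) (nat_lit 5) (nat_lit 2) (nat_lit 4) (nat_lit 313) (nat_lit 215) (nat_lit 192)) (XT.nd (nat_lit 78) (nat_lit 0) (nat_lit 0) (XT.lf (nat_lit 0) (nat_lit 352621533656) (nat_lit 76) (nat_lit 37387596788) (nat_lit 76) (nat_lit 35266969439) (nat_lit 1) (nat_lit 4) (nat_lit 2) (nat_lit 5) (nat_lit 2) (nat_lit 4) (nat_lit 314) (nat_lit 215) (nat_lit 191)) (XT.lf (nat_lit 0) (nat_lit 382512396286) (nat_lit 76) (nat_lit 39429402430) (nat_lit 76) (nat_lit 37279365196) (nat_lit 1) (nat_lit 4) (nat_lit 2) (nat_lit 5) (nat_lit 2) (nat_lit 4) (nat_lit 315) (nat_lit 215) (nat_lit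 190))))))) (XT.nd (nat_lit 936) (nat_lit 0) (nat_lit 0) (XT.nd (nat_lit 468) (nat_lit 0) (nat_lit 0) (XT.nd (nat_lit 234) (nat_lit 0) (nat_lit 0) (XT.nd (nat_lit 78) (nat_lit 0) (nat_lit 0) (XT.lf (nat_lit 0) (nat_lit 414765517364) (nat_lit 76) (nat_lit 41647456735) (nat_lit 76) (nat_lit 39470188127) (nat_lit 1) (nat_lit 4) (nat_lit 2) (nat_lit 5) (nat_lit 2) (nat_lit 4) (nat_lit 316) (nat_lit 215) (nat_lit 189)) (XT.nd (nat_lit 78) (nat_lit 0) (nat_lit 0) (XT.lf (nat_lit 0) (nat_lit 449572026498) (nat_lit 76) (nat_lit 44054903728) (nat_lit 76) (nat_lit 41852420884) (nat_lit 1) (nat_lit 4) (nat_lit 2) (nat_lit 5) (nat_lit 2) (nat_lit 4) (nat_lit 317) (nat_lit 215) (nat_lit 188)) (XT.lf (nat_lit 0) (nat_lit 487138184481) (nat_lit 76) (nat_lit 46666009762) (nat_lit 76) (nat_lit 44440180405) (nat_lit 1) (nat_lit 4) (nat_lit 2) (nat_lit 5) (nat_lit 2) (nat_lit 4) (nat_lit 318) (nat_lit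 215) (nat_lit 187)))) (XT.nd (nat_lit 78) (nat_lit 0) (nat_lit 0) (XT.lf (nat_lit 0) (nat_lit 527686605584) (nat_lit 76) (nat_lit 49496248059) (nat_lit 76) (nat_lit 47248801558) (nat_lit 1) (nat_lit 4) (nat_lit 2) (nat_lit 5) (nat_lit 2) (nat_lit 4) (nat_lit 319) (nat_lit 215) (nat_lit 186)) (XT.nd (nat_lit 78) (nat_lit 0) (nat_lit 0) (XT.lf (nat_lit 0) (nat_lit 571457576747) (nat_lit 76) (nat_lit 52562390400) (nat_lit 76) (nat_lit 50294928026) (nat_lit 1) (nat_lit 4) (nat_lit 2) (nat_lit 5) (nat_lit 2) (nat_lit 4) (nat_lit 320) (nat_lit 215) (nat_lit 185)) (XT.lf (nat_lit 0) (nat_lit 618710481502) (nat_lit 76) (nat_lit 55882606518) (nat_lit 76) (nat_lit 53596610928) (nat_lit 1) (nat_lit 4) (nat_lit 2) (nat_lit 5) (nat_lit 2) (nat_lit 4) (nat_lit 321) (nat_lit 215) (nat_lit 184))))) (XT.nd (nat_lit 234) (nat_lit 0) (nat_lit 0) (XT.nd (nat_lit 78) (nat_lit 0) (nat_lit 0) (XT.lf (nat_lit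 0) (nat_lit 669725337062) (nat_lit 76) (nat_lit 59476571768) (nat_lit 76) (nat_lit 57173415793) (nat_lit 1) (nat_lit 4) (nat_lit 2) (nat_lit 5) (nat_lit 2) (nat_lit 4) (nat_lit 322) (nat_lit 215) (nat_lit 183)) (XT.nd (nat_lit 78) (nat_lit 0) (nat_lit 0) (XT.lf (nat_lit 0) (nat_lit 724804453684) (nat_lit 76) (nat_lit 63365583721) (nat_lit 76) (nat_lit 61046538501) (nat_lit 1) (nat_lit 4) (nat_lit 2) (nat_lit 5) (nat_lit 2) (nat_lit 4) (nat_lit 323) (nat_lit 215) (nat_lit 182)) (XT.lf (nat_lit 0) (nat_lit 784274226131) (nat_lit 76) (nat_lit 67572688375) (nat_lit 76) (nat_lit 65238930891) (nat_lit 1) (nat_lit 4) (nat_lit 2) (nat_lit 5) (nat_lit 2) (nat_lit 4) (nat_lit 324) (nat_lit 215) (nat_lit 181)))) (XT.nd (nat_lit 78) (nat_lit 0) (nat_lit 0) (XT.lf (nat_lit 0) (nat_lit 848487067871) (nat_lit 76) (nat_lit 72122816720) (nat_lit 76) (nat_lit 69775436768) (nat_lit 1) (nat_lit 4) (nat_lit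 2) (nat_lit 5) (nat_lit 2) (nat_lit 4) (nat_lit 325) (nat_lit 215) (nat_lit 180)) (XT.nd (nat_lit 78) (nat_lit 0) (nat_lit 0) (XT.lf (nat_lit 0) (nat_lit 917823499446) (nat_lit 76) (nat_lit 77042932479) (nat_lit 76) (nat_lit 74682939132) (nat_lit 1) (nat_lit 4) (nat_lit 2) (nat_lit 5) (nat_lit 2) (nat_lit 4) (nat_lit 326) (nat_lit 215) (nat_lit 179)) (XT.lf (nat_lit 0) (nat_lit 992694403415) (nat_lit 76) (nat_lit 82362191894) (nat_lit 76) (nat_lit 79990519478) (nat_lit 1) (nat_lit 4) (nat_lit 2) (nat_lit 5) (nat_lit 2) (nat_lit 4) (nat_lit 327) (nat_lit 215) (nat_lit 178)))))) (XT.nd (nat_lit 468) (nat_lit 0) (nat_lit 0) (XT.nd (nat_lit 234) (nat_lit 0) (nat_lit 0) (XT.nd (nat_lit 78) (nat_lit 0) (nat_lit 0) (XT.lf (nat_lit 0) (nat_lit 1073543459209) (nat_lit 76) (nat_lit 88112116502) (nat_lit 76) (nat_lit 85729630132) (nat_lit 1) (nat_lit 4) (nat_lit 2) (nat_lit 5) (nat_lit 2) (nat_lit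 4) (nat_lit 328) (nat_lit 215) (nat_lit 177)) (XT.nd (nat_lit 78) (nat_lit 0) (nat_lit 0) (XT.lf (nat_lit 0) (nat_lit 1160849772343) (nat_lit 76) (nat_lit 94326779931) (nat_lit 76) (nat_lit 91934280641) (nat_lit 1) (nat_lit 4) (nat_lit 2) (nat_lit 5) (nat_lit 2) (nat_lit 4) (nat_lit 329) (nat_lit 215) (nat_lit 176)) (XT.lf (nat_lit 0) (nat_lit 1255130713561) (nat_lit 76) (nat_lit 101043009815) (nat_lit 76) (nat_lit 98641239304) (nat_lit 1) (nat_lit 4) (nat_lit 2) (nat_lit 5) (nat_lit 2) (nat_lit 4) (nat_lit 330) (nat_lit 215) (nat_lit 175)))) (XT.nd (nat_lit 78) (nat_lit 0) (nat_lit 0) (XT.lf (nat_lit 0) (nat_lit 1356944984738) (nat_lit 76) (nat_lit 108300606036) (nat_lit 76) (nat_lit 105890251060) (nat_lit 1) (nat_lit 4) (nat_lit 2) (nat_lit 5) (nat_lit 2) (nat_lit 4) (nat_lit 331) (nat_lit 215) (nat_lit 174)) (XT.nd (nat_lit 78) (nat_lit 0) (nat_lit 0) (XT.lf (nat_lit 0) (nat_lit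 1466895929703) (nat_lit 76) (nat_lit 116142576571) (nat_lit 76) (nat_lit 113724273016) (nat_lit 1) (nat_lit 4) (nat_lit 2) (nat_lit 5) (nat_lit 2) (nat_lit 4) (nat_lit 332) (nat_lit 215) (nat_lit 173)) (XT.lf (nat_lit 0) (nat_lit 1585635109611) (nat_lit 76) (nat_lit 124615392357) (nat_lit 76) (nat_lit 122189729007) (nat_lit 1) (nat_lit 4) (nat_lit 2) (nat_lit 5) (nat_lit 2) (nat_lit 4) (nat_lit 333) (nat_lit 215) (nat_lit 172))))) (XT.nd (nat_lit 234) (nat_lit 0) (nat_lit 0) (XT.nd (nat_lit 78) (nat_lit 0) (nat_lit 0) (XT.lf (nat_lit 0) (nat_lit 1713866164047) (nat_lit 76) (nat_lit 133769262672) (nat_lit 76) (nat_lit 131336784697) (nat_lit 1) (nat_lit 4) (nat_lit 2) (nat_lit 5) (nat_lit 2) (nat_lit 4) (nat_lit 334) (nat_lit 215) (nat_lit 171)) (XT.nd (nat_lit 78) (nat_lit 0) (nat_lit 0) (XT.lf (nat_lit 0) (nat_lit 1852348980740) (nat_lit 76) (nat_lit 143658432673) (nat_lit 76) (nat_lit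 141219644860) (nat_lit 1) (nat_lit 4) (nat_lit 2) (nat_lit 5) (nat_lit 2) (nat_lit 4) (nat_lit 335) (nat_lit 215) (nat_lit 170)) (XT.lf (nat_lit 0) (nat_lit 2001904198605) (nat_lit 76) (nat_lit 154341504850) (nat_lit 76) (nat_lit 151896874595) (nat_lit 1) (nat_lit 4) (nat_lit 2) (nat_lit 5) (nat_lit 2) (nat_lit 4) (nat_lit 336) (nat_lit 215) (nat_lit 169)))) (XT.nd (nat_lit 33696) (nat_lit 0) (nat_lit 0) (XT.lf (nat_lit 0) (nat_lit 2163418070784) (nat_lit 76) (nat_lit 165881786298) (nat_lit 76) (nat_lit 163431746373) (nat_lit 1) (nat_lit 4) (nat_lit 2) (nat_lit 5) (nat_lit 2) (nat_lit 4) (nat_lit 337) (nat_lit 215) (nat_lit 168)) (XT.nd (nat_lit 78) (nat_lit 0) (nat_lit 0) (XT.lf (nat_lit 0) (nat_lit 7690787251) (nat_lit 76) (nat_lit 10899019689) (nat_lit 76) (nat_lit 10899019689) (nat_lit 1) (nat_lit 4) (nat_lit 2) (nat_lit 5) (nat_lit 2) (nat_lit 4) (nat_lit 288) (nat_lit 216) (nat_lit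 216)) (XT.lf (nat_lit 0) (nat_lit 20686912109) (nat_lit 76) (nat_lit 21511836316) (nat_lit 76) (nat_lit 21310423453) (nat_lit 1) (nat_lit 4) (nat_lit 2) (nat_lit 5) (nat_lit 2) (nat_lit 4) (nat_lit 289) (nat_lit 216) (nat_lit 215))))))))
noncomputable def xc13 : XT := (XT.nd (nat_lit 1872) (nat_lit 0) (nat_lit 0) (XT.nd (nat_lit 936) (nat_lit 0) (nat_lit 0) (XT.nd (nat_lit 468) (nat_lit 0) (nat_lit 0) (XT.nd (nat_lit 234) (nat_lit 0) (nat_lit 0) (XT.nd (nat_lit 78) (nat_lit 0) (nat_lit 0) (XT.lf (nat_lit 0) (nat_lit 26217998611) (nat_lit 76) (nat_lit 21291111183) (nat_lit 76) (nat_lit 20903204928) (nat_lit 1) (nat_lit 4) (nat_lit 2) (nat_lit 5) (nat_lit 2) (nat_lit 4) (nat_lit 290) (nat_lit 216) (nat_lit 214)) (XT.nd (nat_lit 78) (nat_lit 0) (nat_lit 0) (XT.lf (nat_lit 0) (nat_lit 32007610820) (nat_lit 76) (nat_lit 21134555978) (nat_lit 76) (nat_lit 20573970657) (nat_lit 1) (nat_lit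 4) (nat_lit 2) (nat_lit 5) (nat_lit 2) (nat_lit 4) (nat_lit 291) (nat_lit 216) (nat_lit 213)) (XT.lf (nat_lit 0) (nat_lit 38090057548) (nat_lit 76) (nat_lit 21041242967) (nat_lit 76) (nat_lit 20320769621) (nat_lit 1) (nat_lit 4) (nat_lit 2) (nat_lit 5) (nat_lit 2) (nat_lit 4) (nat_lit 292) (nat_lit 216) (nat_lit 212)))) (XT.nd (nat_lit 78) (nat_lit 0) (nat_lit 0) (XT.lf (nat_lit 0) (nat_lit 44501382925) (nat_lit 76) (nat_lit 21010619183) (nat_lit 76) (nat_lit 20142101371) (nat_lit 1) (nat_lit 4) (nat_lit 2) (nat_lit 5) (nat_lit 2) (nat_lit 4) (nat_lit 293) (nat_lit 216) (nat_lit 211)) (XT.nd (nat_lit 78) (nat_lit 0) (nat_lit 0) (XT.lf (nat_lit 0) (nat_lit 51279579988) (nat_lit 76) (nat_lit 21042503154) (nat_lit 76) (nat_lit 20036907131) (nat_lit 1) (nat_lit 4) (nat_lit 2) (nat_lit 5) (nat_lit 2) (nat_lit 4) (nat_lit 294) (nat_lit 216) (nat_lit 210)) (XT.lf (nat_lit 0) (nat_lit 58464815833)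 (nat_lit 76) (nat_lit 21137083819) (nat_lit 76) (nat_lit 20004563528) (nat_lit 1) (nat_lit 4) (nat_lit 2) (nat_lit 5) (nat_lit 2) (nat_lit 4) (nat_lit 295) (nat_lit 216) (nat_lit 209))))) (XT.nd (nat_lit 234) (nat_lit 0) (nat_lit 0) (XT.nd (nat_lit 78) (nat_lit 0) (nat_lit 0) (XT.lf (nat_lit 0) (nat_lit 66099669634) (nat_lit 76) (nat_lit 21294921659) (nat_lit 76) (nat_lit 20044878896) (nat_lit 1) (nat_lit 4) (nat_lit 2) (nat_lit 5) (nat_lit 2) (nat_lit 4) (nat_lit 296) (nat_lit 216) (nat_lit 208)) (XT.nd (nat_lit 78) (nat_lit 0) (nat_lit 0) (XT.lf (nat_lit 0) (nat_lit 74229384969) (nat_lit 76) (nat_lit 21516952007) (nat_lit 76) (nat_lit 20158092142) (nat_lit 1) (nat_lit 4) (nat_lit 2) (nat_lit 5) (nat_lit 2) (nat_lit 4) (nat_lit 297) (nat_lit 216) (nat_lit 207)) (XT.lf (nat_lit 0) (nat_lit 82902137930) (nat_lit 76) (nat_lit 21804490599) (nat_lit 76) (nat_lit 20344874158) (nat_lit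 1) (nat_lit 4) (nat_lit 2) (nat_lit 5) (nat_lit 2) (nat_lit 4) (nat_lit 298) (nat_lit 216) (nat_lit 206)))) (XT.nd (nat_lit 78) (nat_lit 0) (nat_lit 0) (XT.lf (nat_lit 0) (nat_lit 92169322607) (nat_lit 76) (nat_lit 22159241369) (nat_lit 76) (nat_lit 20606331800) (nat_lit 1) (nat_lit 4) (nat_lit 2) (nat_lit 5) (nat_lit 2) (nat_lit 4) (nat_lit 299) (nat_lit 216) (nat_lit 205)) (XT.nd (nat_lit 78) (nat_lit 0) (nat_lit 0) (XT.lf (nat_lit 0) (nat_lit 102085855652) (nat_lit 76) (nat_lit 22583306542) (nat_lit 76) (nat_lit 20944014449) (nat_lit 1) (nat_lit 4) (nat_lit 2) (nat_lit 5) (nat_lit 2) (nat_lit 4) (nat_lit 300) (nat_lit 216) (nat_lit 204)) (XT.lf (nat_lit 0) (nat_lit 112710501704) (nat_lit 76) (nat_lit 23079199097) (nat_lit 76) (nat_lit 21359923185) (nat_lit 1) (nat_lit 4) (nat_lit 2) (nat_lit 5) (nat_lit 2) (nat_lit 4) (nat_lit 301) (nat_lit 216) (nat_lit 203)))))) (XT.nd (nat_lit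 468) (nat_lit 0) (nat_lit 0) (XT.nd (nat_lit 234) (nat_lit 0) (nat_lit 0) (XT.nd (nat_lit 78) (nat_lit 0) (nat_lit 0) (XT.lf (nat_lit 0) (nat_lit 124106221628) (nat_lit 76) (nat_lit 23649857656) (nat_lit 76) (nat_lit 21856522653) (nat_lit 1) (nat_lit 4) (nat_lit 2) (nat_lit 5) (nat_lit 2) (nat_lit 4) (nat_lit 302) (nat_lit 216) (nat_lit 202)) (XT.nd (nat_lit 78) (nat_lit 0) (nat_lit 0) (XT.lf (nat_lit 0) (nat_lit 136340545617) (nat_lit 76) (nat_lit 24298663902) (nat_lit 76) (nat_lit 22436755665) (nat_lit 1) (nat_lit 4) (nat_lit 2) (nat_lit 5) (nat_lit 2) (nat_lit 4) (nat_lit 303) (nat_lit 216) (nat_lit 201)) (XT.lf (nat_lit 0) (nat_lit 149485973369) (nat_lit 76) (nat_lit 25029462610) (nat_lit 76) (nat_lit 23104060639) (nat_lit 1) (nat_lit 4) (nat_lit 2) (nat_lit 5) (nat_lit 2) (nat_lit 4) (nat_lit 304) (nat_lit 216) (nat_lit 200)))) (XT.nd (nat_lit 78) (nat_lit 0) (nat_lit 0) (XT.lf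 (nat_lit 0) (nat_lit 163620403715) (nat_lit 76) (nat_lit 25846584440) (nat_lit 76) (nat_lit 23862391974) (nat_lit 1) (nat_lit 4) (nat_lit 2) (nat_lit 5) (nat_lit 2) (nat_lit 4) (nat_lit 305) (nat_lit 216) (nat_lit 199)) (XT.nd (nat_lit 78) (nat_lit 0) (nat_lit 0) (XT.lf (nat_lit 0) (nat_lit 178827596241) (nat_lit 76) (nat_lit 26754871595) (nat_lit 76) (nat_lit 24716243486) (nat_lit 1) (nat_lit 4) (nat_lit 2) (nat_lit 5) (nat_lit 2) (nat_lit 4) (nat_lit 306) (nat_lit 216) (nat_lit 198)) (XT.lf (nat_lit 0) (nat_lit 195197667644) (nat_lit 76) (nat_lit 27759706518) (nat_lit 76) (nat_lit 25670675036) (nat_lit 1) (nat_lit 4) (nat_lit 2) (nat_lit 5) (nat_lit 2) (nat_lit 4) (nat_lit 307) (nat_lit 216) (nat_lit 197))))) (XT.nd (nat_lit 234) (nat_lit 0) (nat_lit 0) (XT.nd (nat_lit 78) (nat_lit 0) (nat_lit 0) (XT.lf (nat_lit 0) (nat_lit 212827625756) (nat_lit 76) (nat_lit 28867043787) (nat_lit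 76) (nat_lit 26731342514) (nat_lit 1) (nat_lit 4) (nat_lit 2) (nat_lit 5) (nat_lit 2) (nat_lit 4) (nat_lit 308) (nat_lit 216) (nat_lit 196)) (XT.nd (nat_lit 78) (nat_lit 0) (nat_lit 0) (XT.lf (nat_lit 0) (nat_lit 231821944401) (nat_lit 76) (nat_lit 30083445399) (nat_lit 76) (nat_lit 27904531357) (nat_lit 1) (nat_lit 4) (nat_lit 2) (nat_lit 5) (nat_lit 2) (nat_lit 4) (nat_lit 309) (nat_lit 216) (nat_lit 195)) (XT.lf (nat_lit 0) (nat_lit 252293182505) (nat_lit 76) (nat_lit 31416119660) (nat_lit 76) (nat_lit 29197193796) (nat_lit 1) (nat_lit 4) (nat_lit 2) (nat_lit 5) (nat_lit 2) (nat_lit 4) (nat_lit 310) (nat_lit 216) (nat_lit 194)))) (XT.nd (nat_lit 78) (nat_lit 0) (nat_lit 0) (XT.lf (nat_lit 0) (nat_lit 274362651109) (nat_lit 76) (nat_lit 32872963901) (nat_lit 76) (nat_lit 30616990052) (nat_lit 1) (nat_lit 4) (nat_lit 2) (nat_lit 5) (nat_lit 2) (nat_lit 4) (nat_lit 311) (nat_lit 216)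 (nat_lit 193)) (XT.nd (nat_lit 78) (nat_lit 0) (nat_lit 0) (XT.lf (nat_lit 0) (nat_lit 298161132249) (nat_lit 76) (nat_lit 34462611271) (nat_lit 76) (nat_lit 32172333733) (nat_lit 1) (nat_lit 4) (nat_lit 2) (nat_lit 5) (nat_lit 2) (nat_lit 4) (nat_lit 312) (nat_lit 216) (nat_lit 192)) (XT.lf (nat_lit 0) (nat_lit 323829653960) (nat_lit 76) (nat_lit 36194481903) (nat_lit 76) (nat_lit 33872441690) (nat_lit 1) (nat_lit 4) (nat_lit 2) (nat_lit 5) (nat_lit 2) (nat_lit 4) (nat_lit 313) (nat_lit 216) (nat_lit 191))))))) (XT.nd (nat_lit 936) (nat_lit 0) (nat_lit 0) (XT.nd (nat_lit 468) (nat_lit 0) (nat_lit 0) (XT.nd (nat_lit 234) (nat_lit 0) (nat_lit 0) (XT.nd (nat_lit 78) (nat_lit 0) (nat_lit 0) (XT.lf (nat_lit 0) (nat_lit 351520326003) (nat_lit 76) (nat_lit 38078838734) (nat_lit 76) (nat_lit 35727388637) (nat_lit 1) (nat_lit 4) (nat_lit 2) (nat_lit 5) (nat_lit 2) (nat_lit 4) (nat_lit 314)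 (nat_lit 216) (nat_lit 190)) (XT.nd (nat_lit 78) (nat_lit 0) (nat_lit 0) (XT.lf (nat_lit 0) (nat_lit 381397241247) (nat_lit 76) (nat_lit 40126848324) (nat_lit 76) (nat_lit 37748166853) (nat_lit 1) (nat_lit 4) (nat_lit 2) (nat_lit 5) (nat_lit 2) (nat_lit 4) (nat_lit 315) (nat_lit 216) (nat_lit 189)) (XT.lf (nat_lit 0) (nat_lit 413637448079) (nat_lit 76) (nat_lit 42350647024) (nat_lit 76) (nat_lit 39946751318) (nat_lit 1) (nat_lit 4) (nat_lit 2) (nat_lit 5) (nat_lit 2) (nat_lit 4) (nat_lit 316) (nat_lit 216) (nat_lit 188)))) (XT.nd (nat_lit 78) (nat_lit 0) (nat_lit 0) (XT.lf (nat_lit 0) (nat_lit 448431999578) (nat_lit 76) (nat_lit 44763412903) (nat_lit 76) (nat_lit 42336170682) (nat_lit 1) (nat_lit 4) (nat_lit 2) (nat_lit 5) (nat_lit 2) (nat_lit 4) (nat_lit 317) (nat_lit 216) (nat_lit 187)) (XT.nd (nat_lit 78) (nat_lit 0) (nat_lit 0) (XT.lf (nat_lit 0) (nat_lit 485987085677) (nat_lit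 76) (nat_lit 47379443831) (nat_lit 76) (nat_lit 44930584468) (nat_lit 1) (nat_lit 4) (nat_lit 2) (nat_lit 5) (nat_lit 2) (nat_lit 4) (nat_lit 318) (nat_lit 216) (nat_lit 186)) (XT.lf (nat_lit 0) (nat_lit 526525255036) (nat_lit 76) (nat_lit 50214242215) (nat_lit 76) (nat_lit 47745366978) (nat_lit 1) (nat_lit 4) (nat_lit 2) (nat_lit 5) (nat_lit 2) (nat_lit 4) (nat_lit 319) (nat_lit 216) (nat_lit 185))))) (XT.nd (nat_lit 234) (nat_lit 0) (nat_lit 0) (XT.nd (nat_lit 78) (nat_lit 0) (nat_lit 0) (XT.lf (nat_lit 0) (nat_lit 570286733842) (nat_lit 76) (nat_lit 53284606859) (nat_lit 76) (nat_lit 50797198406) (nat_lit 1) (nat_lit 4) (nat_lit 2) (nat_lit 5) (nat_lit 2) (nat_lit 4) (nat_lit 320) (nat_lit 216) (nat_lit 184)) (XT.nd (nat_lit 78) (nat_lit 0) (nat_lit 0) (XT.lf (nat_lit 0) (nat_lit 617530849378) (nat_lit 76) (nat_lit 56608732516) (nat_lit 76) (nat_lit 54104163679) (nat_lit 1) (nat_lit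 4) (nat_lit 2) (nat_lit 5) (nat_lit 2) (nat_lit 4) (nat_lit 321) (nat_lit 216) (nat_lit 183)) (XT.lf (nat_lit 0) (nat_lit 668537566774) (nat_lit 76) (nat_lit 60206317710) (nat_lit 76) (nat_lit 57685859627) (nat_lit 1) (nat_lit 4) (nat_lit 2) (nat_lit 5) (nat_lit 2) (nat_lit 4) (nat_lit 322) (nat_lit 216) (nat_lit 182)))) (XT.nd (nat_lit 78) (nat_lit 0) (nat_lit 0) (XT.lf (nat_lit 0) (nat_lit 723609148057) (nat_lit 76) (nat_lit 64098681464) (nat_lit 76) (nat_lit 61563511116) (nat_lit 1) (nat_lit 4) (nat_lit 2) (nat_lit 5) (nat_lit 2) (nat_lit 4) (nat_lit 323) (nat_lit 216) (nat_lit 181)) (XT.nd (nat_lit 78) (nat_lit 0) (nat_lit 0) (XT.lf (nat_lit 0) (nat_lit 783071943339) (nat_lit 76) (nat_lit 68308889636) (nat_lit 76) (nat_lit 65760096822) (nat_lit 1) (nat_lit 4) (nat_lit 2) (nat_lit 5) (nat_lit 2) (nat_lit 4) (nat_lit 324) (nat_lit 216) (nat_lit 180)) (XT.lf (nat_lit 0) (nat_lit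 847278324740) (nat_lit 76) (nat_lit 72861891609) (nat_lit 76) (nat_lit 70300485399) (nat_lit 1) (nat_lit 4) (nat_lit 2) (nat_lit 5) (nat_lit 2) (nat_lit 4) (nat_lit 325) (nat_lit 216) (nat_lit 179)))))) (XT.nd (nat_lit 468) (nat_lit 0) (nat_lit 0) (XT.nd (nat_lit 234) (nat_lit 0) (nat_lit 0) (XT.nd (nat_lit 78) (nat_lit 0) (nat_lit 0) (XT.lf (nat_lit 0) (nat_lit 916608774522) (nat_lit 76) (nat_lit 77784668135) (nat_lit 76) (nat_lit 75211582856) (nat_lit 1) (nat_lit 4) (nat_lit 2) (nat_lit 5) (nat_lit 2) (nat_lit 4) (nat_lit 326) (nat_lit 216) (nat_lit 178)) (XT.nd (nat_lit 78) (nat_lit 0) (nat_lit 0) (XT.lf (nat_lit 0) (nat_lit 991474139792) (nat_lit 76) (nat_lit 83106391223) (nat_lit 76) (nat_lit 80522491990) (nat_lit 1) (nat_lit 4) (nat_lit 2) (nat_lit 5) (nat_lit 2) (nat_lit 4) (nat_lit 327) (nat_lit 216) (nat_lit 177)) (XT.lf (nat_lit 0) (nat_lit 1072318067161) (nat_lit 76) (nat_lit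 88858597010) (nat_lit 76) (nat_lit 86264684858) (nat_lit 1) (nat_lit 4) (nat_lit 2) (nat_lit 5) (nat_lit 2) (nat_lit 4) (nat_lit 328) (nat_lit 216) (nat_lit 176)))) (XT.nd (nat_lit 78) (nat_lit 0) (nat_lit 0) (XT.lf (nat_lit 0) (nat_lit 1159619631753) (nat_lit 76) (nat_lit 95075372641) (nat_lit 76) (nat_lit 92472189267) (nat_lit 1) (nat_lit 4) (nat_lit 2) (nat_lit 5) (nat_lit 2) (nat_lit 4) (nat_lit 329) (nat_lit 216) (nat_lit 175)) (XT.nd (nat_lit 78) (nat_lit 0) (nat_lit 0) (XT.lf (nat_lit 0) (nat_lit 1253896176174) (nat_lit 76) (nat_lit 101793558269) (nat_lit 76) (nat_lit 99181790430) (nat_lit 1) (nat_lit 4) (nat_lit 2) (nat_lit 5) (nat_lit 2) (nat_lit 4) (nat_lit 330) (nat_lit 216) (nat_lit 174)) (XT.lf (nat_lit 0) (nat_lit 1355706376242) (nat_lit 76) (nat_lit 109052965363) (nat_lit 76) (nat_lit 106433248945) (nat_lit 1) (nat_lit 4) (nat_lit 2) (nat_lit 5) (nat_lit 2) (nat_lit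 4) (nat_lit 331) (nat_lit 216) (nat_lit 173))))) (XT.nd (nat_lit 234) (nat_lit 0) (nat_lit 0) (XT.nd (nat_lit 78) (nat_lit 0) (nat_lit 0) (XT.lf (nat_lit 0) (nat_lit 1465653551662) (nat_lit 76) (nat_lit 116896612633) (nat_lit 76) (nat_lit 114269536420) (nat_lit 1) (nat_lit 4) (nat_lit 2) (nat_lit 5) (nat_lit 2) (nat_lit 4) (nat_lit 332) (nat_lit 216) (nat_lit 172)) (XT.nd (nat_lit 78) (nat_lit 0) (nat_lit 0) (XT.lf (nat_lit 0) (nat_lit 1584389241250) (nat_lit 76) (nat_lit 125370980950) (nat_lit 76) (nat_lit 122737090112) (nat_lit 1) (nat_lit 4) (nat_lit 2) (nat_lit 5) (nat_lit 2) (nat_lit 4) (nat_lit 333) (nat_lit 216) (nat_lit 171)) (XT.lf (nat_lit 0) (nat_lit 1712617063909) (nat_lit 76) (nat_lit 134526288795) (nat_lit 76) (nat_lit 131886088119) (nat_lit 1) (nat_lit 4) (nat_lit 2) (nat_lit 5) (nat_lit 2) (nat_lit 4) (nat_lit 334) (nat_lit 216) (nat_lit 170)))) (XT.nd (nat_lit 78)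 (nat_lit 0) (nat_lit 0) (XT.lf (nat_lit 0) (nat_lit 1851096888216) (nat_lit 76) (nat_lit 144416789842) (nat_lit 76) (nat_lit 141770746724) (nat_lit 1) (nat_lit 4) (nat_lit 2) (nat_lit 5) (nat_lit 2) (nat_lit 4) (nat_lit 335) (nat_lit 216) (nat_lit 169)) (XT.nd (nat_lit 78) (nat_lit 0) (nat_lit 0) (XT.lf (nat_lit 0) (nat_lit 2000649335352) (nat_lit 76) (nat_lit 155101094469) (nat_lit 76) (nat_lit 152449641682) (nat_lit 1) (nat_lit 4) (nat_lit 2) (nat_lit 5) (nat_lit 2) (nat_lit 4) (nat_lit 336) (nat_lit 216) (nat_lit 168)) (XT.lf (nat_lit 0) (nat_lit 2162160642043) (nat_lit 76) (nat_lit 166642517074) (nat_lit 76) (nat_lit 163986055334) (nat_lit 1) (nat_lit 4) (nat_lit 2) (nat_lit 5) (nat_lit 2) (nat_lit 4) (nat_lit 337) (nat_lit 216) (nat_lit 167))))))))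
noncomputable def xc14 : XT := (XT.nd (nat_lit 1794) (nat_lit 0) (nat_lit 0) (XT.nd (nat_lit 858) (nat_lit 0) (nat_lit 0) (XT.nd (nat_lit 390) (nat_lit 0) (nat_lit 0) (XT.nd (nat_lit 156) (nat_lit 0) (nat_lit 0) (XT.nd (nat_lit 78) (nat_lit 0) (nat_lit 0) (XT.lf (nat_lit 0) (nat_lit 2717476935) (nat_lit 76) (nat_lit 11371014902) (nat_lit 76) (nat_lit 11371014902) (nat_lit 1) (nat_lit 4) (nat_lit 2) (nat_lit 5) (nat_lit 2) (nat_lit 4) (nat_lit 286) (nat_lit 217) (nat_lit 217)) (XT.lf (nat_lit 0) (nat_lit 10270546757) (nat_lit 76) (nat_lit 22368942280) (nat_lit 76) (nat_lit 22151416388) (nat_lit 1) (nat_lit 4) (nat_lit 2) (nat_lit 5) (nat_lit 2) (nat_lit 4) (nat_lit 287) (nat_lit 217) (nat_lit 216))) (XT.nd (nat_lit 78) (nat_lit 0) (nat_lit 0) (XT.lf (nat_lit 0) (nat_lit 15278414715) (nat_lit 76) (nat_lit 22061451861) (nat_lit 76) (nat_lit 21642513106) (nat_lit 1) (nat_lit 4) (nat_lit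 2) (nat_lit 5) (nat_lit 2) (nat_lit 4) (nat_lit 288) (nat_lit 217) (nat_lit 215)) (XT.nd (nat_lit 78) (nat_lit 0) (nat_lit 0) (XT.lf (nat_lit 0) (nat_lit 20488233997) (nat_lit 76) (nat_lit 21817736382) (nat_lit 76) (nat_lit 21212304235) (nat_lit 1) (nat_lit 4) (nat_lit 2) (nat_lit 5) (nat_lit 2) (nat_lit 4) (nat_lit 289) (nat_lit 217) (nat_lit 214)) (XT.lf (nat_lit 0) (nat_lit 25930877609) (nat_lit 76) (nat_lit 21636351604) (nat_lit 76) (nat_lit 20858240391) (nat_lit 1) (nat_lit 4) (nat_lit 2) (nat_lit 5) (nat_lit 2) (nat_lit 4) (nat_lit 290) (nat_lit 217) (nat_lit 213))))) (XT.nd (nat_lit 234) (nat_lit 0) (nat_lit 0) (XT.nd (nat_lit 78) (nat_lit 0) (nat_lit 0) (XT.lf (nat_lit 0) (nat_lit 31638598252) (nat_lit 76) (nat_lit 21516222654) (nat_lit 76) (nat_lit 20578223417) (nat_lit 1) (nat_lit 4) (nat_lit 2) (nat_lit 5) (nat_lit 2) (nat_lit 4) (nat_lit 291) (nat_lit 217) (nat_lit 212))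 (XT.nd (nat_lit 78) (nat_lit 0) (nat_lit 0) (XT.lf (nat_lit 0) (nat_lit 37645219456) (nat_lit 76) (nat_lit 21456637657) (nat_lit 76) (nat_lit 20370593952) (nat_lit 1) (nat_lit 4) (nat_lit 2) (nat_lit 5) (nat_lit 2) (nat_lit 4) (nat_lit 292) (nat_lit 217) (nat_lit 211)) (XT.lf (nat_lit 0) (nat_lit 43986336013) (nat_lit 76) (nat_lit 21457243516) (nat_lit 76) (nat_lit 20234121601) (nat_lit 1) (nat_lit 4) (nat_lit 2) (nat_lit 5) (nat_lit 2) (nat_lit 4) (nat_lit 293) (nat_lit 217) (nat_lit 210)))) (XT.nd (nat_lit 78) (nat_lit 0) (nat_lit 0) (XT.lf (nat_lit 0) (nat_lit 50699524911) (nat_lit 76) (nat_lit 21518043822) (nat_lit 76) (nat_lit 20167997638) (nat_lit 1) (nat_lit 4) (nat_lit 2) (nat_lit 5) (nat_lit 2) (nat_lit 4) (nat_lit 294) (nat_lit 217) (nat_lit 209)) (XT.nd (nat_lit 78) (nat_lit 0) (nat_lit 0) (XT.lf (nat_lit 0) (nat_lit 57824568010) (nat_lit 76) (nat_lit 21639398872) (nat_lit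 76) (nat_lit 20171830218) (nat_lit 1) (nat_lit 4) (nat_lit 2) (nat_lit 5) (nat_lit 2) (nat_lit 4) (nat_lit 295) (nat_lit 217) (nat_lit 208)) (XT.lf (nat_lit 0) (nat_lit 65403687787) (nat_lit 76) (nat_lit 21822027808) (nat_lit 76) (nat_lit 20245642051) (nat_lit 1) (nat_lit 4) (nat_lit 2) (nat_lit 5) (nat_lit 2) (nat_lit 4) (nat_lit 296) (nat_lit 217) (nat_lit 207)))))) (XT.nd (nat_lit 468) (nat_lit 0) (nat_lit 0) (XT.nd (nat_lit 234) (nat_lit 0) (nat_lit 0) (XT.nd (nat_lit 78) (nat_lit 0) (nat_lit 0) (XT.lf (nat_lit 0) (nat_lit 73481797545) (nat_lit 76) (nat_lit 22067012876) (nat_lit 76) (nat_lit 20389870542) (nat_lit 1) (nat_lit 4) (nat_lit 2) (nat_lit 5) (nat_lit 2) (nat_lit 4) (nat_lit 297) (nat_lit 217) (nat_lit 206)) (XT.nd (nat_lit 78) (nat_lit 0) (nat_lit 0) (XT.lf (nat_lit 0) (nat_lit 82106767563) (nat_lit 76) (nat_lit 22375805839) (nat_lit 76) (nat_lit 20605370378) (nat_lit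 1) (nat_lit 4) (nat_lit 2) (nat_lit 5) (nat_lit 2) (nat_lit 4) (nat_lit 298) (nat_lit 217) (nat_lit 205)) (XT.lf (nat_lit 0) (nat_lit 91329708776) (nat_lit 76) (nat_lit 22750236580) (nat_lit 76) (nat_lit 20893418595) (nat_lit 1) (nat_lit 4) (nat_lit 2) (nat_lit 5) (nat_lit 2) (nat_lit 4) (nat_lit 299) (nat_lit 217) (nat_lit 204)))) (XT.nd (nat_lit 78) (nat_lit 0) (nat_lit 0) (XT.lf (nat_lit 0) (nat_lit 101205275649) (nat_lit 76) (nat_lit 23192523949) (nat_lit 76) (nat_lit 21255722145) (nat_lit 1) (nat_lit 4) (nat_lit 2) (nat_lit 5) (nat_lit 2) (nat_lit 4) (nat_lit 300) (nat_lit 217) (nat_lit 203)) (XT.nd (nat_lit 78) (nat_lit 0) (nat_lit 0) (XT.lf (nat_lit 0) (nat_lit 111791990061) (nat_lit 76) (nat_lit 23705288908) (nat_lit 76) (nat_lit 21694428013) (nat_lit 1) (nat_lit 4) (nat_lit 2) (nat_lit 5) (nat_lit 2) (nat_lit 4) (nat_lit 301) (nat_lit 217) (nat_lit 202)) (XT.lf (nat_lit 0)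 (nat_lit 123152588096) (nat_lit 76) (nat_lit 24291570064) (nat_lit 76) (nat_lit 22212135936) (nat_lit 1) (nat_lit 4) (nat_lit 2) (nat_lit 5) (nat_lit 2) (nat_lit 4) (nat_lit 302) (nat_lit 217) (nat_lit 201))))) (XT.nd (nat_lit 234) (nat_lit 0) (nat_lit 0) (XT.nd (nat_lit 78) (nat_lit 0) (nat_lit 0) (XT.lf (nat_lit 0) (nat_lit 135354391818) (nat_lit 76) (nat_lit 24954841677) (nat_lit 76) (nat_lit 22811913813) (nat_lit 1) (nat_lit 4) (nat_lit 2) (nat_lit 5) (nat_lit 2) (nat_lit 4) (nat_lit 303) (nat_lit 217) (nat_lit 200)) (XT.nd (nat_lit 78) (nat_lit 0) (nat_lit 0) (XT.lf (nat_lit 0) (nat_lit 148469708211) (nat_lit 76) (nat_lit 25699034243) (nat_lit 76) (nat_lit 23497315885) (nat_lit 1) (nat_lit 4) (nat_lit 2) (nat_lit 5) (nat_lit 2) (nat_lit 4) (nat_lit 304) (nat_lit 217) (nat_lit 199)) (XT.lf (nat_lit 0) (nat_lit 162576257668) (nat_lit 76) (nat_lit 26528557794) (nat_lit 76) (nat_lit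 24272403793) (nat_lit 1) (nat_lit 4) (nat_lit 2) (nat_lit 5) (nat_lit 2) (nat_lit 4) (nat_lit 305) (nat_lit 217) (nat_lit 198)))) (XT.nd (nat_lit 78) (nat_lit 0) (nat_lit 0) (XT.lf (nat_lit 0) (nat_lit 177757634558) (nat_lit 76) (nat_lit 27448328024) (nat_lit 76) (nat_lit 25141770649) (nat_lit 1) (nat_lit 4) (nat_lit 2) (nat_lit 5) (nat_lit 2) (nat_lit 4) (nat_lit 306) (nat_lit 217) (nat_lit 197)) (XT.nd (nat_lit 78) (nat_lit 0) (nat_lit 0) (XT.lf (nat_lit 0) (nat_lit 194103802594) (nat_lit 76) (nat_lit 28463795424) (nat_lit 76) (nat_lit 26110568259) (nat_lit 1) (nat_lit 4) (nat_lit 2) (nat_lit 5) (nat_lit 2) (nat_lit 4) (nat_lit 307) (nat_lit 217) (nat_lit 196)) (XT.lf (nat_lit 0) (nat_lit 211711627958) (nat_lit 76) (nat_lit 29580977578) (nat_lit 76) (nat_lit 27184537644) (nat_lit 1) (nat_lit 4) (nat_lit 2) (nat_lit 5) (nat_lit 2) (nat_lit 4) (nat_lit 308) (nat_lit 217) (nat_lit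 195))))))) (XT.nd (nat_lit 936) (nat_lit 0) (nat_lit 0) (XT.nd (nat_lit 468) (nat_lit 0) (nat_lit 0) (XT.nd (nat_lit 234) (nat_lit 0) (nat_lit 0) (XT.nd (nat_lit 78) (nat_lit 0) (nat_lit 0) (XT.lf (nat_lit 0) (nat_lit 230685453318) (nat_lit 76) (nat_lit 30806494825) (nat_lit 76) (nat_lit 28370043068) (nat_lit 1) (nat_lit 4) (nat_lit 2) (nat_lit 5) (nat_lit 2) (nat_lit 4) (nat_lit 309) (nat_lit 217) (nat_lit 194)) (XT.nd (nat_lit 78) (nat_lit 0) (nat_lit 0) (XT.lf (nat_lit 0) (nat_lit 251137716158) (nat_lit 76) (nat_lit 32147609489) (nat_lit 76) (nat_lit 29674109749) (nat_lit 1) (nat_lit 4) (nat_lit 2) (nat_lit 5) (nat_lit 2) (nat_lit 4) (nat_lit 310) (nat_lit 217) (nat_lit 193)) (XT.lf (nat_lit 0) (nat_lit 273189615073) (nat_lit 76) (nat_lit 33612268917) (nat_lit 76) (nat_lit 31104465488) (nat_lit 1) (nat_lit 4) (nat_lit 2) (nat_lit 5) (nat_lit 2) (nat_lit 4) (nat_lit 311) (nat_lit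 217) (nat_lit 192)))) (XT.nd (nat_lit 78) (nat_lit 0) (nat_lit 0) (XT.lf (nat_lit 0) (nat_lit 296971827983) (nat_lit 76) (nat_lit 35209152572) (nat_lit 76) (nat_lit 32669586467) (nat_lit 1) (nat_lit 4) (nat_lit 2) (nat_lit 5) (nat_lit 2) (nat_lit 4) (nat_lit 312) (nat_lit 217) (nat_lit 191)) (XT.nd (nat_lit 78) (nat_lit 0) (nat_lit 0) (XT.lf (nat_lit 0) (nat_lit 322625286518) (nat_lit 76) (nat_lit 36947723468) (nat_lit 76) (nat_lit 34378747479) (nat_lit 1) (nat_lit 4) (nat_lit 2) (nat_lit 5) (nat_lit 2) (nat_lit 4) (nat_lit 313) (nat_lit 217) (nat_lit 190)) (XT.lf (nat_lit 0) (nat_lit 350302011175) (nat_lit 76) (nat_lit 38838284247) (nat_lit 76) (nat_lit 36242076884) (nat_lit 1) (nat_lit 4) (nat_lit 2) (nat_lit 5) (nat_lit 2) (nat_lit 4) (nat_lit 314) (nat_lit 217) (nat_lit 189))))) (XT.nd (nat_lit 234) (nat_lit 0) (nat_lit 0) (XT.nd (nat_lit 78) (nat_lit 0) (nat_lit 0) (XT.lf (nat_lit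 0) (nat_lit 380166012173) (nat_lit 76) (nat_lit 40892038233) (nat_lit 76) (nat_lit 38270616634) (nat_lit 1) (nat_lit 4) (nat_lit 2) (nat_lit 5) (nat_lit 2) (nat_lit 4) (nat_lit 315) (nat_lit 217) (nat_lit 188)) (XT.nd (nat_lit 78) (nat_lit 0) (nat_lit 0) (XT.lf (nat_lit 0) (nat_lit 412394261371) (nat_lit 76) (nat_lit 43121155819) (nat_lit 76) (nat_lit 40476387706) (nat_lit 1) (nat_lit 4) (nat_lit 2) (nat_lit 5) (nat_lit 2) (nat_lit 4) (nat_lit 316) (nat_lit 217) (nat_lit 187)) (XT.lf (nat_lit 0) (nat_lit 447177740985) (nat_lit 76) (nat_lit 45538846592) (nat_lit 76) (nat_lit 42872461336) (nat_lit 1) (nat_lit 4) (nat_lit 2) (nat_lit 5) (nat_lit 2) (nat_lit 4) (nat_lit 317) (nat_lit 217) (nat_lit 186)))) (XT.nd (nat_lit 78) (nat_lit 0) (nat_lit 0) (XT.lf (nat_lit 0) (nat_lit 484722575340) (nat_lit 76) (nat_lit 48159437607) (nat_lit 76) (nat_lit 45473036478) (nat_lit 1) (nat_lit 4) (nat_lit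 2) (nat_lit 5) (nat_lit 2) (nat_lit 4) (nat_lit 318) (nat_lit 217) (nat_lit 185)) (XT.nd (nat_lit 78) (nat_lit 0) (nat_lit 0) (XT.lf (nat_lit 0) (nat_lit 525251252343) (nat_lit 76) (nat_lit 50998458293) (nat_lit 76) (nat_lit 48293523948) (nat_lit 1) (nat_lit 4) (nat_lit 2) (nat_lit 5) (nat_lit 2) (nat_lit 4) (nat_lit 319) (nat_lit 217) (nat_lit 184)) (XT.lf (nat_lit 0) (nat_lit 569003941930) (nat_lit 76) (nat_lit 54072732476) (nat_lit 76) (nat_lit 51350637747) (nat_lit 1) (nat_lit 4) (nat_lit 2) (nat_lit 5) (nat_lit 2) (nat_lit 4) (nat_lit 320) (nat_lit 217) (nat_lit 183)))))) (XT.nd (nat_lit 468) (nat_lit 0) (nat_lit 0) (XT.nd (nat_lit 234) (nat_lit 0) (nat_lit 0) (XT.nd (nat_lit 78) (nat_lit 0) (nat_lit 0) (XT.lf (nat_lit 0) (nat_lit 616239919301) (nat_lit 76) (nat_lit 57400478078) (nat_lit 76) (nat_lit 54662494103) (nat_lit 1) (nat_lit 4) (nat_lit 2) (nat_lit 5) (nat_lit 2) (nat_lit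 4) (nat_lit 321) (nat_lit 217) (nat_lit 182)) (XT.nd (nat_lit 78) (nat_lit 0) (nat_lit 0) (XT.lf (nat_lit 0) (nat_lit 667239101358) (nat_lit 76) (nat_lit 61001415072) (nat_lit 76) (nat_lit 58248718833) (nat_lit 1) (nat_lit 4) (nat_lit 2) (nat_lit 5) (nat_lit 2) (nat_lit 4) (nat_lit 322) (nat_lit 217) (nat_lit 181)) (XT.lf (nat_lit 0) (nat_lit 722303705476) (nat_lit 76) (nat_lit 64896882344) (nat_lit 76) (nat_lit 62130563638) (nat_lit 1) (nat_lit 4) (nat_lit 2) (nat_lit 5) (nat_lit 2) (nat_lit 4) (nat_lit 323) (nat_lit 217) (nat_lit 180)))) (XT.nd (nat_lit 78) (nat_lit 0) (nat_lit 0) (XT.lf (nat_lit 0) (nat_lit 781760040420) (nat_lit 76) (nat_lit 69109964145) (nat_lit 76) (nat_lit 66331032043) (nat_lit 1) (nat_lit 4) (nat_lit 2) (nat_lit 5) (nat_lit 2) (nat_lit 4) (nat_lit 324) (nat_lit 217) (nat_lit 179)) (XT.nd (nat_lit 78) (nat_lit 0) (nat_lit 0) (XT.lf (nat_lit 0) (nat_lit 845960440027)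 (nat_lit 76) (nat_lit 73665626884) (nat_lit 76) (nat_lit 70875015713) (nat_lit 1) (nat_lit 4) (nat_lit 2) (nat_lit 5) (nat_lit 2) (nat_lit 4) (nat_lit 325) (nat_lit 217) (nat_lit 178)) (XT.lf (nat_lit 0) (nat_lit 915285351110) (nat_lit 76) (nat_lit 78590867083) (nat_lit 76) (nat_lit 75789441959) (nat_lit 1) (nat_lit 4) (nat_lit 2) (nat_lit 5) (nat_lit 2) (nat_lit 4) (nat_lit 326) (nat_lit 217) (nat_lit 177))))) (XT.nd (nat_lit 234) (nat_lit 0) (nat_lit 0) (XT.nd (nat_lit 78) (nat_lit 0) (nat_lit 0) (XT.lf (nat_lit 0) (nat_lit 990145587956) (nat_lit 76) (nat_lit 83914871350) (nat_lit 76) (nat_lit 81103433306) (nat_lit 1) (nat_lit 4) (nat_lit 2) (nat_lit 5) (nat_lit 2) (nat_lit 4) (nat_lit 327) (nat_lit 217) (nat_lit 176)) (XT.nd (nat_lit 78) (nat_lit 0) (nat_lit 0) (XT.lf (nat_lit 0) (nat_lit 1070984766783) (nat_lit 76) (nat_lit 89669189340) (nat_lit 76) (nat_lit 86848480074) (nat_lit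 1) (nat_lit 4) (nat_lit 2) (nat_lit 5) (nat_lit 2) (nat_lit 4) (nat_lit 328) (nat_lit 217) (nat_lit 175)) (XT.lf (nat_lit 0) (nat_lit 1158281934578) (nat_lit 76) (nat_lit 95887920714) (nat_lit 76) (nat_lit 93058626983) (nat_lit 1) (nat_lit 4) (nat_lit 2) (nat_lit 5) (nat_lit 2) (nat_lit 4) (nat_lit 329) (nat_lit 217) (nat_lit 174)))) (XT.nd (nat_lit 78) (nat_lit 0) (nat_lit 0) (XT.lf (nat_lit 0) (nat_lit 1252554407890) (nat_lit 76) (nat_lit 102607917215) (nat_lit 76) (nat_lit 99770674906) (nat_lit 1) (nat_lit 4) (nat_lit 2) (nat_lit 5) (nat_lit 2) (nat_lit 4) (nat_lit 330) (nat_lit 217) (nat_lit 173)) (XT.nd (nat_lit 78) (nat_lit 0) (nat_lit 0) (XT.lf (nat_lit 0) (nat_lit 1354360838413) (nat_lit 76) (nat_lit 109869001044) (nat_lit 76) (nat_lit 107024398939) (nat_lit 1) (nat_lit 4) (nat_lit 2) (nat_lit 5) (nat_lit 2) (nat_lit 4) (nat_lit 331) (nat_lit 217) (nat_lit 172)) (XT.lf (nat_lit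 0) (nat_lit 1464304523513) (nat_lit 76) (nat_lit 117714200846) (nat_lit 76) (nat_lit 114862784116) (nat_lit 1) (nat_lit 4) (nat_lit 2) (nat_lit 5) (nat_lit 2) (nat_lit 4) (nat_lit 332) (nat_lit 217) (nat_lit 171))))))))
noncomputable def xc15 : XT := (XT.nd (nat_lit 35178) (nat_lit 0) (nat_lit 0) (XT.nd (nat_lit 34242) (nat_lit 0) (nat_lit 0) (XT.nd (nat_lit 33774) (nat_lit 0) (nat_lit 0) (XT.nd (nat_lit 234) (nat_lit 0) (nat_lit 0) (XT.nd (nat_lit 78) (nat_lit 0) (nat_lit 0) (XT.lf (nat_lit 0) (nat_lit 1583036981324) (nat_lit 76) (nat_lit 126190006693) (nat_lit 76) (nat_lit 123332280125) (nat_lit 1) (nat_lit 4) (nat_lit 2) (nat_lit 5) (nat_lit 2) (nat_lit 4) (nat_lit 333) (nat_lit 217) (nat_lit 170)) (XT.nd (nat_lit 78) (nat_lit 0) (nat_lit 0) (XT.lf (nat_lit 0) (nat_lit 1711261811596) (nat_lit 76) (nat_lit 135346645583) (nat_lit 76) (nat_lit 132483076573) (nat_lit 1) (nat_lit 4)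 (nat_lit 2) (nat_lit 5) (nat_lit 2) (nat_lit 4) (nat_lit 334) (nat_lit 217) (nat_lit 169)) (XT.lf (nat_lit 0) (nat_lit 1849738865174) (nat_lit 76) (nat_lit 145238379081) (nat_lit 76) (nat_lit 142369400401) (nat_lit 1) (nat_lit 4) (nat_lit 2) (nat_lit 5) (nat_lit 2) (nat_lit 4) (nat_lit 335) (nat_lit 217) (nat_lit 168)))) (XT.nd (nat_lit 78) (nat_lit 0) (nat_lit 0) (XT.lf (nat_lit 0) (nat_lit 1999288746822) (nat_lit 76) (nat_lit 155923824865) (nat_lit 76) (nat_lit 153049837233) (nat_lit 1) (nat_lit 4) (nat_lit 2) (nat_lit 5) (nat_lit 2) (nat_lit 4) (nat_lit 336) (nat_lit 217) (nat_lit 167)) (XT.nd (nat_lit 33384) (nat_lit 0) (nat_lit 76) (XT.lf (nat_lit 0) (nat_lit 2160797678059) (nat_lit 76) (nat_lit 167466304097) (nat_lit 76) (nat_lit 164587678545) (nat_lit 1) (nat_lit 4) (nat_lit 2) (nat_lit 5) (nat_lit 2) (nat_lit 4) (nat_lit 337) (nat_lit 217) (nat_lit 166)) (XT.lf (nat_lit 0)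 (nat_lit 10126045037) (nat_lit 152) (nat_lit 1763559812) (nat_lit 0) (nat_lit 10126045037) (nat_lit 2) (nat_lit 5) (nat_lit 4) (nat_lit 4) (nat_lit 2) (nat_lit 4) (nat_lit 284) (nat_lit 218) (nat_lit 218))))) (XT.nd (nat_lit 234) (nat_lit 0) (nat_lit 0) (XT.nd (nat_lit 78) (nat_lit 0) (nat_lit 0) (XT.lf (nat_lit 0) (nat_lit 742980690) (nat_lit 76) (nat_lit 23417853289) (nat_lit 76) (nat_lit 23182925325) (nat_lit 1) (nat_lit 4) (nat_lit 2) (nat_lit 5) (nat_lit 2) (nat_lit 4) (nat_lit 285) (nat_lit 218) (nat_lit 217)) (XT.nd (nat_lit 78) (nat_lit 0) (nat_lit 0) (XT.lf (nat_lit 0) (nat_lit 5323541299) (nat_lit 76) (nat_lit 23026515286) (nat_lit 76) (nat_lit 22574061431) (nat_lit 1) (nat_lit 4) (nat_lit 2) (nat_lit 5) (nat_lit 2) (nat_lit 4) (nat_lit 286) (nat_lit 218) (nat_lit 216)) (XT.lf (nat_lit 0) (nat_lit 10055974397) (nat_lit 76) (nat_lit 22699314351) (nat_lit 76) (nat_lit 22045447633)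 (nat_lit 1) (nat_lit 4) (nat_lit 2) (nat_lit 5) (nat_lit 2) (nat_lit 4) (nat_lit 287) (nat_lit 218) (nat_lit 215)))) (XT.nd (nat_lit 78) (nat_lit 0) (nat_lit 0) (XT.lf (nat_lit 0) (nat_lit 14968324032) (nat_lit 76) (nat_lit 22434311516) (nat_lit 76) (nat_lit 21593951406) (nat_lit 1) (nat_lit 4) (nat_lit 2) (nat_lit 5) (nat_lit 2) (nat_lit 4) (nat_lit 288) (nat_lit 218) (nat_lit 214)) (XT.nd (nat_lit 78) (nat_lit 0) (nat_lit 0) (XT.lf (nat_lit 0) (nat_lit 20089700423) (nat_lit 76) (nat_lit 22229936392) (nat_lit 76) (nat_lit 21216897216) (nat_lit 1) (nat_lit 4) (nat_lit 2) (nat_lit 5) (nat_lit 2) (nat_lit 4) (nat_lit 289) (nat_lit 218) (nat_lit 213)) (XT.lf (nat_lit 0) (nat_lit 25450452469) (nat_lit 76) (nat_lit 22084977869) (nat_lit 76) (nat_lit 20912050669) (nat_lit 1) (nat_lit 4) (nat_lit 2) (nat_lit 5) (nat_lit 2) (nat_lit 4) (nat_lit 290) (nat_lit 218) (nat_lit 212)))))) (XT.nd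 (nat_lit 468) (nat_lit 0) (nat_lit 0) (XT.nd (nat_lit 234) (nat_lit 0) (nat_lit 0) (XT.nd (nat_lit 78) (nat_lit 0) (nat_lit 0) (XT.lf (nat_lit 0) (nat_lit 31082347587) (nat_lit 76) (nat_lit 21998576933) (nat_lit 76) (nat_lit 20677605265) (nat_lit 1) (nat_lit 4) (nat_lit 2) (nat_lit 5) (nat_lit 2) (nat_lit 4) (nat_lit 291) (nat_lit 218) (nat_lit 211)) (XT.nd (nat_lit 78) (nat_lit 0) (nat_lit 0) (XT.lf (nat_lit 0) (nat_lit 37018759973) (nat_lit 76) (nat_lit 21970221578) (nat_lit 76) (nat_lit 20512171700) (nat_lit 1) (nat_lit 4) (nat_lit 2) (nat_lit 5) (nat_lit 2) (nat_lit 4) (nat_lit 292) (nat_lit 218) (nat_lit 210)) (XT.lf (nat_lit 0) (nat_lit 43294868365) (nat_lit 76) (nat_lit 21999743773) (nat_lit 76) (nat_lit 20414769626) (nat_lit 1) (nat_lit 4) (nat_lit 2) (nat_lit 5) (nat_lit 2) (nat_lit 4) (nat_lit 293) (nat_lit 218) (nat_lit 209)))) (XT.nd (nat_lit 78) (nat_lit 0) (nat_lit 0)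 (XT.lf (nat_lit 0) (nat_lit 49947864517) (nat_lit 76) (nat_lit 22087318463) (nat_lit 76) (nat_lit 20384821846) (nat_lit 1) (nat_lit 4) (nat_lit 2) (nat_lit 5) (nat_lit 2) (nat_lit 4) (nat_lit 294) (nat_lit 218) (nat_lit 208)) (XT.nd (nat_lit 78) (nat_lit 0) (nat_lit 0) (XT.lf (nat_lit 0) (nat_lit 57017173592) (nat_lit 76) (nat_lit 22233464611) (nat_lit 76) (nat_lit 20422150890) (nat_lit 1) (nat_lit 4) (nat_lit 2) (nat_lit 5) (nat_lit 2) (nat_lit 4) (nat_lit 295) (nat_lit 218) (nat_lit 207)) (XT.lf (nat_lit 0) (nat_lit 64544687792) (nat_lit 76) (nat_lit 22439048267) (nat_lit 76) (nat_lit 20526977969) (nat_lit 1) (nat_lit 4) (nat_lit 2) (nat_lit 5) (nat_lit 2) (nat_lit 4) (nat_lit 296) (nat_lit 218) (nat_lit 206))))) (XT.nd (nat_lit 234) (nat_lit 0) (nat_lit 0) (XT.nd (nat_lit 78) (nat_lit 0) (nat_lit 0) (XT.lf (nat_lit 0) (nat_lit 72575014607) (nat_lit 76) (nat_lit 22705287704) (nat_lit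 76) (nat_lit 20699924281) (nat_lit 1) (nat_lit 4) (nat_lit 2) (nat_lit 5) (nat_lit 2) (nat_lit 4) (nat_lit 297) (nat_lit 218) (nat_lit 205)) (XT.nd (nat_lit 78) (nat_lit 0) (nat_lit 0) (XT.lf (nat_lit 0) (nat_lit 81155741160) (nat_lit 76) (nat_lit 23033760639) (nat_lit 76) (nat_lit 20942014690) (nat_lit 1) (nat_lit 4) (nat_lit 2) (nat_lit 5) (nat_lit 2) (nat_lit 4) (nat_lit 298) (nat_lit 218) (nat_lit 204)) (XT.lf (nat_lit 0) (nat_lit 90337716202) (nat_lit 76) (nat_lit 23426413576) (nat_lit 76) (nat_lit 21254683809) (nat_lit 1) (nat_lit 4) (nat_lit 2) (nat_lit 5) (nat_lit 2) (nat_lit 4) (nat_lit 299) (nat_lit 218) (nat_lit 203)))) (XT.nd (nat_lit 78) (nat_lit 0) (nat_lit 0) (XT.lf (nat_lit 0) (nat_lit 100175351435) (nat_lit 76) (nat_lit 23885573350) (nat_lit 76) (nat_lit 21639784491) (nat_lit 1) (nat_lit 4) (nat_lit 2) (nat_lit 5) (nat_lit 2) (nat_lit 4) (nat_lit 300) (nat_lit 218)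 (nat_lit 202)) (XT.nd (nat_lit 78) (nat_lit 0) (nat_lit 0) (XT.lf (nat_lit 0) (nat_lit 110726943958) (nat_lit 76) (nat_lit 24413960905) (nat_lit 76) (nat_lit 22099598813) (nat_lit 1) (nat_lit 4) (nat_lit 2) (nat_lit 5) (nat_lit 2) (nat_lit 4) (nat_lit 301) (nat_lit 218) (nat_lit 201)) (XT.lf (nat_lit 0) (nat_lit 122055021725) (nat_lit 76) (nat_lit 25014707428) (nat_lit 76) (nat_lit 22636851602) (nat_lit 1) (nat_lit 4) (nat_lit 2) (nat_lit 5) (nat_lit 2) (nat_lit 4) (nat_lit 302) (nat_lit 218) (nat_lit 200))))))) (XT.nd (nat_lit 936) (nat_lit 0) (nat_lit 0) (XT.nd (nat_lit 468) (nat_lit 0) (nat_lit 0) (XT.nd (nat_lit 234) (nat_lit 0) (nat_lit 0) (XT.nd (nat_lit 78) (nat_lit 0) (nat_lit 0) (XT.lf (nat_lit 0) (nat_lit 134226714088) (nat_lit 76) (nat_lit 25691372899) (nat_lit 76) (nat_lit 23254726578) (nat_lit 1) (nat_lit 4) (nat_lit 2) (nat_lit 5) (nat_lit 2) (nat_lit 4) (nat_lit 303)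 (nat_lit 218) (nat_lit 199)) (XT.nd (nat_lit 78) (nat_lit 0) (nat_lit 0) (XT.lf (nat_lit 0) (nat_lit 147314149593) (nat_lit 76) (nat_lit 26447967186) (nat_lit 76) (nat_lit 23956885221) (nat_lit 1) (nat_lit 4) (nat_lit 2) (nat_lit 5) (nat_lit 2) (nat_lit 4) (nat_lit 304) (nat_lit 218) (nat_lit 198)) (XT.lf (nat_lit 0) (nat_lit 161394883414) (nat_lit 76) (nat_lit 27288973811) (nat_lit 76) (nat_lit 24747488473) (nat_lit 1) (nat_lit 4) (nat_lit 2) (nat_lit 5) (nat_lit 2) (nat_lit 4) (nat_lit 305) (nat_lit 218) (nat_lit 197)))) (XT.nd (nat_lit 78) (nat_lit 0) (nat_lit 0) (XT.lf (nat_lit 0) (nat_lit 176552356935) (nat_lit 76) (nat_lit 28219376518) (nat_lit 76) (nat_lit 25631221390) (nat_lit 1) (nat_lit 4) (nat_lit 2) (nat_lit 5) (nat_lit 2) (nat_lit 4) (nat_lit 306) (nat_lit 218) (nat_lit 196)) (XT.nd (nat_lit 78) (nat_lit 0) (nat_lit 0) (XT.lf (nat_lit 0) (nat_lit 192876392224) (nat_lit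 76) (nat_lit 29244688803) (nat_lit 76) (nat_lit 26613320907) (nat_lit 1) (nat_lit 4) (nat_lit 2) (nat_lit 5) (nat_lit 2) (nat_lit 4) (nat_lit 307) (nat_lit 218) (nat_lit 195)) (XT.lf (nat_lit 0) (nat_lit 210463724303) (nat_lit 76) (nat_lit 30370986592) (nat_lit 76) (nat_lit 27699606873) (nat_lit 1) (nat_lit 4) (nat_lit 2) (nat_lit 5) (nat_lit 2) (nat_lit 4) (nat_lit 308) (nat_lit 218) (nat_lit 194))))) (XT.nd (nat_lit 234) (nat_lit 0) (nat_lit 0) (XT.nd (nat_lit 78) (nat_lit 0) (nat_lit 0) (XT.lf (nat_lit 0) (nat_lit 229418574399) (nat_lit 76) (nat_lit 31604944242) (nat_lit 76) (nat_lit 28896516538) (nat_lit 1) (nat_lit 4) (nat_lit 2) (nat_lit 5) (nat_lit 2) (nat_lit 4) (nat_lit 309) (nat_lit 218) (nat_lit 193)) (XT.nd (nat_lit 78) (nat_lit 0) (nat_lit 0) (XT.lf (nat_lit 0) (nat_lit 249853267551) (nat_lit 76) (nat_lit 32953874094) (nat_lit 76) (nat_lit 30211142701) (nat_lit 1) (nat_lit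 4) (nat_lit 2) (nat_lit 5) (nat_lit 2) (nat_lit 4) (nat_lit 310) (nat_lit 218) (nat_lit 192)) (XT.lf (nat_lit 0) (nat_lit 271888898236) (nat_lit 76) (nat_lit 34425769807) (nat_lit 76) (nat_lit 31651275739) (nat_lit 1) (nat_lit 4) (nat_lit 2) (nat_lit 5) (nat_lit 2) (nat_lit 4) (nat_lit 311) (nat_lit 218) (nat_lit 191)))) (XT.nd (nat_lit 78) (nat_lit 0) (nat_lit 0) (XT.lf (nat_lit 0) (nat_lit 295656047969) (nat_lit 76) (nat_lit 36029353726) (nat_lit 76) (nat_lit 33225449774) (nat_lit 1) (nat_lit 4) (nat_lit 2) (nat_lit 5) (nat_lit 2) (nat_lit 4) (nat_lit 312) (nat_lit 218) (nat_lit 190)) (XT.nd (nat_lit 78) (nat_lit 0) (nat_lit 0) (XT.lf (nat_lit 0) (nat_lit 321295559119) (nat_lit 76) (nat_lit 37774128569) (nat_lit 76) (nat_lit 34942993243) (nat_lit 1) (nat_lit 4) (nat_lit 2) (nat_lit 5) (nat_lit 2) (nat_lit 4) (nat_lit 313) (nat_lit 218) (nat_lit 189)) (XT.lf (nat_lit 0) (nat_lit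 348959369530) (nat_lit 76) (nat_lit 39670433745) (nat_lit 76) (nat_lit 36814084183) (nat_lit 1) (nat_lit 4) (nat_lit 2) (nat_lit 5) (nat_lit 2) (nat_lit 4) (nat_lit 314) (nat_lit 218) (nat_lit 188)))))) (XT.nd (nat_lit 468) (nat_lit 0) (nat_lit 0) (XT.nd (nat_lit 234) (nat_lit 0) (nat_lit 0) (XT.nd (nat_lit 78) (nat_lit 0) (nat_lit 0) (XT.lf (nat_lit 0) (nat_lit 378811412894) (nat_lit 76) (nat_lit 41729506616) (nat_lit 76) (nat_lit 38849810540) (nat_lit 1) (nat_lit 4) (nat_lit 2) (nat_lit 5) (nat_lit 2) (nat_lit 4) (nat_lit 315) (nat_lit 218) (nat_lit 187)) (XT.nd (nat_lit 78) (nat_lit 0) (nat_lit 0) (XT.lf (nat_lit 0) (nat_lit 411028590207) (nat_lit 76) (nat_lit 43963549096) (nat_lit 76) (nat_lit 41062235877) (nat_lit 1) (nat_lit 4) (nat_lit 2) (nat_lit 5) (nat_lit 2) (nat_lit 4) (nat_lit 316) (nat_lit 218) (nat_lit 186)) (XT.lf (nat_lit 0) (nat_lit 445801818077) (nat_lit 76) (nat_lit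 46385799956) (nat_lit 76) (nat_lit 43464470864) (nat_lit 1) (nat_lit 4) (nat_lit 2) (nat_lit 5) (nat_lit 2) (nat_lit 4) (nat_lit 317) (nat_lit 218) (nat_lit 185)))) (XT.nd (nat_lit 78) (nat_lit 0) (nat_lit 0) (XT.lf (nat_lit 0) (nat_lit 483337160076) (nat_lit 76) (nat_lit 49010613274) (nat_lit 76) (nat_lit 46070750966) (nat_lit 1) (nat_lit 4) (nat_lit 2) (nat_lit 5) (nat_lit 2) (nat_lit 4) (nat_lit 318) (nat_lit 218) (nat_lit 184)) (XT.nd (nat_lit 78) (nat_lit 0) (nat_lit 0) (XT.lf (nat_lit 0) (nat_lit 523857047859) (nat_lit 76) (nat_lit 51853543500) (nat_lit 76) (nat_lit 48896520807) (nat_lit 1) (nat_lit 4) (nat_lit 2) (nat_lit 5) (nat_lit 2) (nat_lit 4) (nat_lit 319) (nat_lit 218) (nat_lit 183)) (XT.lf (nat_lit 0) (nat_lit 567601599282) (nat_lit 76) (nat_lit 54931437627) (nat_lit 76) (nat_lit 51958525689) (nat_lit 1) (nat_lit 4) (nat_lit 2) (nat_lit 5) (nat_lit 2) (nat_lit 4) (nat_lit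 320) (nat_lit 218) (nat_lit 182))))) (XT.nd (nat_lit 234) (nat_lit 0) (nat_lit 0) (XT.nd (nat_lit 78) (nat_lit 0) (nat_lit 0) (XT.lf (nat_lit 0) (nat_lit 614830041314) (nat_lit 76) (nat_lit 58262535029) (nat_lit 76) (nat_lit 55274910826) (nat_lit 1) (nat_lit 4) (nat_lit 2) (nat_lit 5) (nat_lit 2) (nat_lit 4) (nat_lit 321) (nat_lit 218) (nat_lit 181)) (XT.nd (nat_lit 78) (nat_lit 0) (nat_lit 0) (XT.lf (nat_lit 0) (nat_lit 665822246206) (nat_lit 76) (nat_lit 61866575541) (nat_lit 76) (nat_lit 58865328872) (nat_lit 1) (nat_lit 4) (nat_lit 2) (nat_lit 5) (nat_lit 2) (nat_lit 4) (nat_lit 322) (nat_lit 218) (nat_lit 180)) (XT.lf (nat_lit 0) (nat_lit 720880389986) (nat_lit 76) (nat_lit 65764916442) (nat_lit 76) (nat_lit 62751056377) (nat_lit 1) (nat_lit 4) (nat_lit 2) (nat_lit 5) (nat_lit 2) (nat_lit 4) (nat_lit 323) (nat_lit 218) (nat_lit 179)))) (XT.nd (nat_lit 78) (nat_lit 0) (nat_lit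 0) (XT.lf (nat_lit 0) (nat_lit 780330743135) (nat_lit 76) (nat_lit 69980659009) (nat_lit 76) (nat_lit 66955119875) (nat_lit 1) (nat_lit 4) (nat_lit 2) (nat_lit 5) (nat_lit 2) (nat_lit 4) (nat_lit 324) (nat_lit 218) (nat_lit 178)) (XT.nd (nat_lit 78) (nat_lit 0) (nat_lit 0) (XT.lf (nat_lit 0) (nat_lit 844525604044) (nat_lit 76) (nat_lit 74538785422) (nat_lit 76) (nat_lit 71502432334) (nat_lit 1) (nat_lit 4) (nat_lit 2) (nat_lit 5) (nat_lit 2) (nat_lit 4) (nat_lit 325) (nat_lit 218) (nat_lit 177)) (XT.lf (nat_lit 0) (nat_lit 913845386702) (nat_lit 76) (nat_lit 79466306800) (nat_lit 76) (nat_lit 76419940792) (nat_lit 1) (nat_lit 4) (nat_lit 2) (nat_lit 5) (nat_lit 2) (nat_lit 4) (nat_lit 326) (nat_lit 218) (nat_lit 176))))))))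
noncomputable def xc16 : XT := (XT.nd (nat_lit 34944) (nat_lit 0) (nat_lit 0) (XT.nd (nat_lit 34008) (nat_lit 0) (nat_lit 0) (XT.nd (nat_lit 390) (nat_lit 0) (nat_lit 0) (XT.nd (nat_lit 156) (nat_lit 0) (nat_lit 0) (XT.nd (nat_lit 78) (nat_lit 0) (nat_lit 0) (XT.lf (nat_lit 0) (nat_lit 988700875006) (nat_lit 76) (nat_lit 84792423269) (nat_lit 76) (nat_lit 81736786040) (nat_lit 1) (nat_lit 4) (nat_lit 2) (nat_lit 5) (nat_lit 2) (nat_lit 4) (nat_lit 327) (nat_lit 218) (nat_lit 175)) (XT.lf (nat_lit 0) (nat_lit 1069535657036) (nat_lit 76) (nat_lit 90548697002) (nat_lit 76) (nat_lit 87484475308) (nat_lit 1) (nat_lit 4) (nat_lit 2) (nat_lit 5) (nat_lit 2) (nat_lit 4) (nat_lit 328) (nat_lit 218) (nat_lit 174))) (XT.nd (nat_lit 78) (nat_lit 0) (nat_lit 0) (XT.lf (nat_lit 0) (nat_lit 1156828753722) (nat_lit 76) (nat_lit 96769239250) (nat_lit 76) (nat_lit 93697068977) (nat_lit 1) (nat_lit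 4) (nat_lit 2) (nat_lit 5) (nat_lit 2) (nat_lit 4) (nat_lit 329) (nat_lit 218) (nat_lit 173)) (XT.nd (nat_lit 78) (nat_lit 0) (nat_lit 0) (XT.lf (nat_lit 0) (nat_lit 1251097457489) (nat_lit 76) (nat_lit 103490912485) (nat_lit 76) (nat_lit 100411382417) (nat_lit 1) (nat_lit 4) (nat_lit 2) (nat_lit 5) (nat_lit 2) (nat_lit 4) (nat_lit 330) (nat_lit 218) (nat_lit 172)) (XT.lf (nat_lit 0) (nat_lit 1352900397693) (nat_lit 76) (nat_lit 110753548846) (nat_lit 76) (nat_lit 107667204153) (nat_lit 1) (nat_lit 4) (nat_lit 2) (nat_lit 5) (nat_lit 2) (nat_lit 4) (nat_lit 331) (nat_lit 218) (nat_lit 171))))) (XT.nd (nat_lit 234) (nat_lit 0) (nat_lit 0) (XT.nd (nat_lit 78) (nat_lit 0) (nat_lit 0) (XT.lf (nat_lit 0) (nat_lit 1462840851015) (nat_lit 76) (nat_lit 118600186177) (nat_lit 76) (nat_lit 115507531646) (nat_lit 1) (nat_lit 4) (nat_lit 2) (nat_lit 5) (nat_lit 2) (nat_lit 4) (nat_lit 332) (nat_lit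 218) (nat_lit 170)) (XT.nd (nat_lit 78) (nat_lit 0) (nat_lit 0) (XT.lf (nat_lit 0) (nat_lit 1581570316439) (nat_lit 76) (nat_lit 127077323070) (nat_lit 76) (nat_lit 123978826096) (nat_lit 1) (nat_lit 4) (nat_lit 2) (nat_lit 5) (nat_lit 2) (nat_lit 4) (nat_lit 333) (nat_lit 218) (nat_lit 169)) (XT.lf (nat_lit 0) (nat_lit 1709792375983) (nat_lit 76) (nat_lit 136235194410) (nat_lit 76) (nat_lit 133131287768) (nat_lit 1) (nat_lit 4) (nat_lit 2) (nat_lit 5) (nat_lit 2) (nat_lit 4) (nat_lit 334) (nat_lit 218) (nat_lit 168)))) (XT.nd (nat_lit 78) (nat_lit 0) (nat_lit 0) (XT.lf (nat_lit 0) (nat_lit 1848266864072) (nat_lit 76) (nat_lit 146128069065) (nat_lit 76) (nat_lit 143019153470) (nat_lit 1) (nat_lit 4) (nat_lit 2) (nat_lit 5) (nat_lit 2) (nat_lit 4) (nat_lit 335) (nat_lit 218) (nat_lit 167)) (XT.nd (nat_lit 78) (nat_lit 0) (nat_lit 0) (XT.lf (nat_lit 0) (nat_lit 1997814370267) (nat_lit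 76) (nat_lit 156814571477) (nat_lit 76) (nat_lit 153701017962) (nat_lit 1) (nat_lit 4) (nat_lit 2) (nat_lit 5) (nat_lit 2) (nat_lit 4) (nat_lit 336) (nat_lit 218) (nat_lit 166)) (XT.lf (nat_lit 0) (nat_lit 2159321102011) (nat_lit 76) (nat_lit 168358029067) (nat_lit 76) (nat_lit 165240181183) (nat_lit 1) (nat_lit 4) (nat_lit 2) (nat_lit 5) (nat_lit 2) (nat_lit 4) (nat_lit 337) (nat_lit 218) (nat_lit 165)))))) (XT.nd (nat_lit 468) (nat_lit 0) (nat_lit 0) (XT.nd (nat_lit 234) (nat_lit 76) (nat_lit 0) (XT.nd (nat_lit 78) (nat_lit 0) (nat_lit 0) (XT.lf (nat_lit 0) (nat_lit 6633194541) (nat_lit 152) (nat_lit 5806925602) (nat_lit 0) (nat_lit 6633194541) (nat_lit 2) (nat_lit 5) (nat_lit 4) (nat_lit 4) (nat_lit 2) (nat_lit 4) (nat_lit 282) (nat_lit 219) (nat_lit 219)) (XT.nd (nat_lit 78) (nat_lit 0) (nat_lit 0) (XT.lf (nat_lit 0) (nat_lit 16780064846) (nat_lit 152) (nat_lit 7666648080) (nat_lit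 0) (nat_lit 16526342645) (nat_lit 2) (nat_lit 5) (nat_lit 4) (nat_lit 4) (nat_lit 2) (nat_lit 4) (nat_lit 283) (nat_lit 219) (nat_lit 218)) (XT.lf (nat_lit 0) (nat_lit 20441902649) (nat_lit 152) (nat_lit 3641426028) (nat_lit 0) (nat_lit 19953252485) (nat_lit 2) (nat_lit 5) (nat_lit 4) (nat_lit 4) (nat_lit 2) (nat_lit 4) (nat_lit 284) (nat_lit 219) (nat_lit 217)))) (XT.nd (nat_lit 78) (nat_lit 0) (nat_lit 0) (XT.lf (nat_lit 0) (nat_lit 511242541) (nat_lit 76) (nat_lit 23774655126) (nat_lit 76) (nat_lit 23068479070) (nat_lit 1) (nat_lit 4) (nat_lit 2) (nat_lit 5) (nat_lit 2) (nat_lit 4) (nat_lit 285) (nat_lit 219) (nat_lit 216)) (XT.nd (nat_lit 78) (nat_lit 0) (nat_lit 0) (XT.lf (nat_lit 0) (nat_lit 4988643362) (nat_lit 76) (nat_lit 23429203713) (nat_lit 76) (nat_lit 22521614795) (nat_lit 1) (nat_lit 4) (nat_lit 2) (nat_lit 5) (nat_lit 2) (nat_lit 4) (nat_lit 286) (nat_lit 219) (nat_lit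 215)) (XT.lf (nat_lit 0) (nat_lit 9625558137) (nat_lit 76) (nat_lit 23144490362) (nat_lit 76) (nat_lit 22050408052) (nat_lit 1) (nat_lit 4) (nat_lit 2) (nat_lit 5) (nat_lit 2) (nat_lit 4) (nat_lit 287) (nat_lit 219) (nat_lit 214))))) (XT.nd (nat_lit 234) (nat_lit 0) (nat_lit 0) (XT.nd (nat_lit 78) (nat_lit 0) (nat_lit 0) (XT.lf (nat_lit 0) (nat_lit 14449464880) (nat_lit 76) (nat_lit 22918827882) (nat_lit 76) (nat_lit 21652066505) (nat_lit 1) (nat_lit 4) (nat_lit 2) (nat_lit 5) (nat_lit 2) (nat_lit 4) (nat_lit 288) (nat_lit 219) (nat_lit 213)) (XT.nd (nat_lit 78) (nat_lit 0) (nat_lit 0) (XT.lf (nat_lit 0) (nat_lit 19488949706) (nat_lit 76) (nat_lit 22750879014) (nat_lit 76) (nat_lit 21324229613) (nat_lit 1) (nat_lit 4) (nat_lit 2) (nat_lit 5) (nat_lit 2) (nat_lit 4) (nat_lit 289) (nat_lit 219) (nat_lit 212)) (XT.lf (nat_lit 0) (nat_lit 24773876227) (nat_lit 76) (nat_lit 22639648504)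 (nat_lit 76) (nat_lit 21064954636) (nat_lit 1) (nat_lit 4) (nat_lit 2) (nat_lit 5) (nat_lit 2) (nat_lit 4) (nat_lit 290) (nat_lit 219) (nat_lit 211)))) (XT.nd (nat_lit 78) (nat_lit 0) (nat_lit 0) (XT.lf (nat_lit 0) (nat_lit 30335562527) (nat_lit 76) (nat_lit 22584477211) (nat_lit 76) (nat_lit 20872705132) (nat_lit 1) (nat_lit 4) (nat_lit 2) (nat_lit 5) (nat_lit 2) (nat_lit 4) (nat_lit 291) (nat_lit 219) (nat_lit 210)) (XT.nd (nat_lit 78) (nat_lit 0) (nat_lit 0) (XT.lf (nat_lit 0) (nat_lit 36206966747) (nat_lit 76) (nat_lit 22585038191) (nat_lit 76) (nat_lit 20746341844) (nat_lit 1) (nat_lit 4) (nat_lit 2) (nat_lit 5) (nat_lit 2) (nat_lit 4) (nat_lit 292) (nat_lit 219) (nat_lit 209)) (XT.lf (nat_lit 0) (nat_lit 42422882393) (nat_lit 76) (nat_lit 22641334771) (nat_lit 76) (nat_lit 20685115953) (nat_lit 1) (nat_lit 4) (nat_lit 2) (nat_lit 5) (nat_lit 2) (nat_lit 4) (nat_lit 293) (nat_lit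 219) (nat_lit 208))))))) (XT.nd (nat_lit 936) (nat_lit 0) (nat_lit 0) (XT.nd (nat_lit 468) (nat_lit 0) (nat_lit 0) (XT.nd (nat_lit 234) (nat_lit 0) (nat_lit 0) (XT.nd (nat_lit 78) (nat_lit 0) (nat_lit 0) (XT.lf (nat_lit 0) (nat_lit 49020144522) (nat_lit 76) (nat_lit 22753700558) (nat_lit 76) (nat_lit 20688664637) (nat_lit 1) (nat_lit 4) (nat_lit 2) (nat_lit 5) (nat_lit 2) (nat_lit 4) (nat_lit 294) (nat_lit 219) (nat_lit 207)) (XT.nd (nat_lit 78) (nat_lit 0) (nat_lit 0) (XT.lf (nat_lit 0) (nat_lit 56037848019) (nat_lit 76) (nat_lit 22922801425) (nat_lit 76) (nat_lit 20757008928) (nat_lit 1) (nat_lit 4) (nat_lit 2) (nat_lit 5) (nat_lit 2) (nat_lit 4) (nat_lit 295) (nat_lit 219) (nat_lit 206)) (XT.lf (nat_lit 0) (nat_lit 63517579276) (nat_lit 76) (nat_lit 23149639451) (nat_lit 76) (nat_lit 20890553827) (nat_lit 1) (nat_lit 4) (nat_lit 2) (nat_lit 5) (nat_lit 2) (nat_lit 4) (nat_lit 296)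 (nat_lit 219) (nat_lit 205)))) (XT.nd (nat_lit 78) (nat_lit 0) (nat_lit 0) (XT.lf (nat_lit 0) (nat_lit 71503662627) (nat_lit 76) (nat_lit 23435558860) (nat_lit 76) (nat_lit 21090090712) (nat_lit 1) (nat_lit 4) (nat_lit 2) (nat_lit 5) (nat_lit 2) (nat_lit 4) (nat_lit 297) (nat_lit 219) (nat_lit 204)) (XT.nd (nat_lit 78) (nat_lit 0) (nat_lit 0) (XT.lf (nat_lit 0) (nat_lit 80043423009) (nat_lit 76) (nat_lit 23782253991) (nat_lit 76) (nat_lit 21356802024) (nat_lit 1) (nat_lit 4) (nat_lit 2) (nat_lit 5) (nat_lit 2) (nat_lit 4) (nat_lit 298) (nat_lit 219) (nat_lit 203)) (XT.lf (nat_lit 0) (nat_lit 89187466410) (nat_lit 76) (nat_lit 24191779333) (nat_lit 76) (nat_lit 21692268274) (nat_lit 1) (nat_lit 4) (nat_lit 2) (nat_lit 5) (nat_lit 2) (nat_lit 4) (nat_lit 299) (nat_lit 219) (nat_lit 202))))) (XT.nd (nat_lit 234) (nat_lit 0) (nat_lit 0) (XT.nd (nat_lit 78) (nat_lit 0) (nat_lit 0) (XT.lf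 (nat_lit 0) (nat_lit 98989979754) (nat_lit 76) (nat_lit 24666561703) (nat_lit 76) (nat_lit 22098477410) (nat_lit 1) (nat_lit 4) (nat_lit 2) (nat_lit 5) (nat_lit 2) (nat_lit 4) (nat_lit 300) (nat_lit 219) (nat_lit 201)) (XT.nd (nat_lit 78) (nat_lit 0) (nat_lit 0) (XT.lf (nat_lit 0) (nat_lit 109509052009) (nat_lit 76) (nat_lit 25209414625) (nat_lit 76) (nat_lit 22577836598) (nat_lit 1) (nat_lit 4) (nat_lit 2) (nat_lit 5) (nat_lit 2) (nat_lit 4) (nat_lit 301) (nat_lit 219) (nat_lit 200)) (XT.lf (nat_lit 0) (nat_lit 120807018418) (nat_lit 76) (nat_lit 25823555007) (nat_lit 76) (nat_lit 23133186485) (nat_lit 1) (nat_lit 4) (nat_lit 2) (nat_lit 5) (nat_lit 2) (nat_lit 4) (nat_lit 302) (nat_lit 219) (nat_lit 199)))) (XT.nd (nat_lit 78) (nat_lit 0) (nat_lit 0) (XT.lf (nat_lit 0) (nat_lit 132950829893) (nat_lit 76) (nat_lit 26512622198) (nat_lit 76) (nat_lit 23767818033) (nat_lit 1) (nat_lit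 4) (nat_lit 2) (nat_lit 5) (nat_lit 2) (nat_lit 4) (nat_lit 303) (nat_lit 219) (nat_lit 198)) (XT.nd (nat_lit 78) (nat_lit 0) (nat_lit 0) (XT.lf (nat_lit 0) (nat_lit 146012449761) (nat_lit 76) (nat_lit 27280699560) (nat_lit 76) (nat_lit 24485492021) (nat_lit 1) (nat_lit 4) (nat_lit 2) (nat_lit 5) (nat_lit 2) (nat_lit 4) (nat_lit 304) (nat_lit 219) (nat_lit 197)) (XT.lf (nat_lit 0) (nat_lit 160069280214) (nat_lit 76) (nat_lit 28132338662) (nat_lit 76) (nat_lit 25290461333) (nat_lit 1) (nat_lit 4) (nat_lit 2) (nat_lit 5) (nat_lit 2) (nat_lit 4) (nat_lit 305) (nat_lit 219) (nat_lit 196)))))) (XT.nd (nat_lit 468) (nat_lit 0) (nat_lit 0) (XT.nd (nat_lit 234) (nat_lit 0) (nat_lit 0) (XT.nd (nat_lit 78) (nat_lit 0) (nat_lit 0) (XT.lf (nat_lit 0) (nat_lit 175204620988) (nat_lit 76) (nat_lit 29072586254) (nat_lit 76) (nat_lit 26187496157) (nat_lit 1) (nat_lit 4) (nat_lit 2) (nat_lit 5) (nat_lit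 2) (nat_lit 4) (nat_lit 306) (nat_lit 219) (nat_lit 195)) (XT.nd (nat_lit 78) (nat_lit 0) (nat_lit 0) (XT.lf (nat_lit 0) (nat_lit 191508162992) (nat_lit 76) (nat_lit 30107014174) (nat_lit 76) (nat_lit 27181912254) (nat_lit 1) (nat_lit 4) (nat_lit 2) (nat_lit 5) (nat_lit 2) (nat_lit 4) (nat_lit 307) (nat_lit 219) (nat_lit 194)) (XT.lf (nat_lit 0) (nat_lit 209076519807) (nat_lit 76) (nat_lit 31241752366) (nat_lit 76) (nat_lit 28279602462) (nat_lit 1) (nat_lit 4) (nat_lit 2) (nat_lit 5) (nat_lit 2) (nat_lit 4) (nat_lit 308) (nat_lit 219) (nat_lit 193)))) (XT.nd (nat_lit 78) (nat_lit 0) (nat_lit 0) (XT.lf (nat_lit 0) (nat_lit 228013800215) (nat_lit 76) (nat_lit 32483525203) (nat_lit 76) (nat_lit 29487071610) (nat_lit 1) (nat_lit 4) (nat_lit 2) (nat_lit 5) (nat_lit 2) (nat_lit 4) (nat_lit 309) (nat_lit 219) (nat_lit 192)) (XT.nd (nat_lit 78) (nat_lit 0) (nat_lit 0) (XT.lf (nat_lit 0) (nat_lit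 248432225136) (nat_lit 76) (nat_lit 33839691340) (nat_lit 76) (nat_lit 30811475072) (nat_lit 1) (nat_lit 4) (nat_lit 2) (nat_lit 5) (nat_lit 2) (nat_lit 4) (nat_lit 310) (nat_lit 219) (nat_lit 191)) (XT.lf (nat_lit 0) (nat_lit 270452792645) (nat_lit 76) (nat_lit 35318287317) (nat_lit 76) (nat_lit 32260661165) (nat_lit 1) (nat_lit 4) (nat_lit 2) (nat_lit 5) (nat_lit 2) (nat_lit 4) (nat_lit 311) (nat_lit 219) (nat_lit 190))))) (XT.nd (nat_lit 234) (nat_lit 0) (nat_lit 0) (XT.nd (nat_lit 78) (nat_lit 0) (nat_lit 0) (XT.lf (nat_lit 0) (nat_lit 294205994992) (nat_lit 76) (nat_lit 36928075184) (nat_lit 76) (nat_lit 33843217657) (nat_lit 1) (nat_lit 4) (nat_lit 2) (nat_lit 5) (nat_lit 2) (nat_lit 4) (nat_lit 312) (nat_lit 219) (nat_lit 189)) (XT.nd (nat_lit 78) (nat_lit 0) (nat_lit 0) (XT.lf (nat_lit 0) (nat_lit 319832591897) (nat_lit 76) (nat_lit 38678594424) (nat_lit 76) (nat_lit 35568522661)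 (nat_lit 1) (nat_lit 4) (nat_lit 2) (nat_lit 5) (nat_lit 2) (nat_lit 4) (nat_lit 313) (nat_lit 219) (nat_lit 188)) (XT.lf (nat_lit 0) (nat_lit 347484444673) (nat_lit 76) (nat_lit 40580218485) (nat_lit 76) (nat_lit 37446800208) (nat_lit 1) (nat_lit 4) (nat_lit 2) (nat_lit 5) (nat_lit 2) (nat_lit 4) (nat_lit 314) (nat_lit 219) (nat_lit 187)))) (XT.nd (nat_lit 78) (nat_lit 0) (nat_lit 0) (XT.lf (nat_lit 0) (nat_lit 377325416152) (nat_lit 76) (nat_lit 42644216250) (nat_lit 76) (nat_lit 39489180830) (nat_lit 1) (nat_lit 4) (nat_lit 2) (nat_lit 5) (nat_lit 2) (nat_lit 4) (nat_lit 315) (nat_lit 219) (nat_lit 186)) (XT.nd (nat_lit 78) (nat_lit 0) (nat_lit 0) (XT.lf (nat_lit 0) (nat_lit 409532341721) (nat_lit 76) (nat_lit 44882818817) (nat_lit 76) (nat_lit 41707767524) (nat_lit 1) (nat_lit 4) (nat_lit 2) (nat_lit 5) (nat_lit 2) (nat_lit 4) (nat_lit 316) (nat_lit 219) (nat_lit 185)) (XT.lf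 (nat_lit 0) (nat_lit 444296077235) (nat_lit 76) (nat_lit 47309291979) (nat_lit 76) (nat_lit 44115707471) (nat_lit 1) (nat_lit 4) (nat_lit 2) (nat_lit 5) (nat_lit 2) (nat_lit 4) (nat_lit 317) (nat_lit 219) (nat_lit 184))))))))
noncomputable def xc17 : XT := (XT.nd (nat_lit 34866) (nat_lit 0) (nat_lit 0) (XT.nd (nat_lit 936) (nat_lit 0) (nat_lit 0) (XT.nd (nat_lit 468) (nat_lit 0) (nat_lit 0) (XT.nd (nat_lit 234) (nat_lit 0) (nat_lit 0) (XT.nd (nat_lit 78) (nat_lit 0) (nat_lit 0) (XT.lf (nat_lit 0) (nat_lit 481822630015) (nat_lit 76) (nat_lit 49938014837) (nat_lit 76) (nat_lit 46727269943) (nat_lit 1) (nat_lit 4) (nat_lit 2) (nat_lit 5) (nat_lit 2) (nat_lit 4) (nat_lit 318) (nat_lit 219) (nat_lit 183)) (XT.nd (nat_lit 78) (nat_lit 0) (nat_lit 0) (XT.lf (nat_lit 0) (nat_lit 522334379633) (nat_lit 76) (nat_lit 52784565007) (nat_lit 76) (nat_lit 49557930868) (nat_lit 1) (nat_lit 4) (nat_lit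 2) (nat_lit 5) (nat_lit 2) (nat_lit 4) (nat_lit 319) (nat_lit 219) (nat_lit 182)) (XT.lf (nat_lit 0) (nat_lit 566071395717) (nat_lit 76) (nat_lit 55865810934) (nat_lit 76) (nat_lit 52624464531) (nat_lit 1) (nat_lit 4) (nat_lit 2) (nat_lit 5) (nat_lit 2) (nat_lit 4) (nat_lit 320) (nat_lit 219) (nat_lit 181)))) (XT.nd (nat_lit 78) (nat_lit 0) (nat_lit 0) (XT.lf (nat_lit 0) (nat_lit 613292860585) (nat_lit 76) (nat_lit 59200011854) (nat_lit 76) (nat_lit 55945042984) (nat_lit 1) (nat_lit 4) (nat_lit 2) (nat_lit 5) (nat_lit 2) (nat_lit 4) (nat_lit 321) (nat_lit 219) (nat_lit 180)) (XT.nd (nat_lit 78) (nat_lit 0) (nat_lit 0) (XT.lf (nat_lit 0) (nat_lit 664278605139) (nat_lit 76) (nat_lit 62806925995) (nat_lit 76) (nat_lit 59539343730) (nat_lit 1) (nat_lit 4) (nat_lit 2) (nat_lit 5) (nat_lit 2) (nat_lit 4) (nat_lit 322) (nat_lit 219) (nat_lit 179)) (XT.lf (nat_lit 0) (nat_lit 719330767124)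 (nat_lit 76) (nat_lit 66707927662) (nat_lit 76) (nat_lit 63428666327) (nat_lit 1) (nat_lit 4) (nat_lit 2) (nat_lit 5) (nat_lit 2) (nat_lit 4) (nat_lit 323) (nat_lit 219) (nat_lit 178))))) (XT.nd (nat_lit 234) (nat_lit 0) (nat_lit 0) (XT.nd (nat_lit 78) (nat_lit 0) (nat_lit 0) (XT.lf (nat_lit 0) (nat_lit 778775581575) (nat_lit 76) (nat_lit 70926133903) (nat_lit 76) (nat_lit 67636058615) (nat_lit 1) (nat_lit 4) (nat_lit 2) (nat_lit 5) (nat_lit 2) (nat_lit 4) (nat_lit 324) (nat_lit 219) (nat_lit 177)) (XT.nd (nat_lit 78) (nat_lit 0) (nat_lit 0) (XT.lf (nat_lit 0) (nat_lit 842965314059) (nat_lit 76) (nat_lit 75486541495) (nat_lit 76) (nat_lit 72186453287) (nat_lit 1) (nat_lit 4) (nat_lit 2) (nat_lit 5) (nat_lit 2) (nat_lit 4) (nat_lit 325) (nat_lit 219) (nat_lit 176)) (XT.lf (nat_lit 0) (nat_lit 912280348175) (nat_lit 76) (nat_lit 80416175075) (nat_lit 76) (nat_lit 77106815645) (nat_lit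 1) (nat_lit 4) (nat_lit 2) (nat_lit 5) (nat_lit 2) (nat_lit 4) (nat_lit 326) (nat_lit 219) (nat_lit 175)))) (XT.nd (nat_lit 78) (nat_lit 0) (nat_lit 0) (XT.lf (nat_lit 0) (nat_lit 987131439682) (nat_lit 76) (nat_lit 85744247288) (nat_lit 76) (nat_lit 82426303393) (nat_lit 1) (nat_lit 4) (nat_lit 2) (nat_lit 5) (nat_lit 2) (nat_lit 4) (nat_lit 327) (nat_lit 219) (nat_lit 174)) (XT.nd (nat_lit 78) (nat_lit 0) (nat_lit 0) (XT.lf (nat_lit 0) (nat_lit 1067962150603) (nat_lit 76) (nat_lit 91502331894) (nat_lit 76) (nat_lit 88176439420) (nat_lit 1) (nat_lit 4) (nat_lit 2) (nat_lit 5) (nat_lit 2) (nat_lit 4) (nat_lit 328) (nat_lit 219) (nat_lit 173)) (XT.lf (nat_lit 0) (nat_lit 1155251477744) (nat_lit 76) (nat_lit 97724550876) (nat_lit 76) (nat_lit 94391298607) (nat_lit 1) (nat_lit 4) (nat_lit 2) (nat_lit 5) (nat_lit 2) (nat_lit 4) (nat_lit 329) (nat_lit 219) (nat_lit 172)))))) (XT.nd (nat_lit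 468) (nat_lit 0) (nat_lit 0) (XT.nd (nat_lit 234) (nat_lit 0) (nat_lit 0) (XT.nd (nat_lit 78) (nat_lit 0) (nat_lit 0) (XT.lf (nat_lit 0) (nat_lit 1249516691191) (nat_lit 76) (nat_lit 104447776643) (nat_lit 76) (nat_lit 101107709750) (nat_lit 1) (nat_lit 4) (nat_lit 2) (nat_lit 5) (nat_lit 2) (nat_lit 4) (nat_lit 330) (nat_lit 219) (nat_lit 171)) (XT.nd (nat_lit 78) (nat_lit 0) (nat_lit 0) (XT.lf (nat_lit 0) (nat_lit 1351316399617) (nat_lit 76) (nat_lit 111711850534) (nat_lit 76) (nat_lit 108365473802) (nat_lit 1) (nat_lit 4) (nat_lit 2) (nat_lit 5) (nat_lit 2) (nat_lit 4) (nat_lit 331) (nat_lit 219) (nat_lit 170)) (XT.lf (nat_lit 0) (nat_lit 1461253860553) (nat_lit 76) (nat_lit 119559818911) (nat_lit 76) (nat_lit 116207599736) (nat_lit 1) (nat_lit 4) (nat_lit 2) (nat_lit 5) (nat_lit 2) (nat_lit 4) (nat_lit 332) (nat_lit 219) (nat_lit 169)))) (XT.nd (nat_lit 78) (nat_lit 0) (nat_lit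 0) (XT.lf (nat_lit 0) (nat_lit 1579980555249) (nat_lit 76) (nat_lit 128038188254) (nat_lit 76) (nat_lit 124680559410) (nat_lit 1) (nat_lit 4) (nat_lit 2) (nat_lit 5) (nat_lit 2) (nat_lit 4) (nat_lit 333) (nat_lit 219) (nat_lit 168)) (XT.nd (nat_lit 78) (nat_lit 0) (nat_lit 0) (XT.lf (nat_lit 0) (nat_lit 1708200049304) (nat_lit 76) (nat_lit 137197200751) (nat_lit 76) (nat_lit 133834562955) (nat_lit 1) (nat_lit 4) (nat_lit 2) (nat_lit 5) (nat_lit 2) (nat_lit 4) (nat_lit 334) (nat_lit 219) (nat_lit 167)) (XT.lf (nat_lit 0) (nat_lit 1846672161940) (nat_lit 76) (nat_lit 147091132033) (nat_lit 76) (nat_lit 143723856318) (nat_lit 1) (nat_lit 4) (nat_lit 2) (nat_lit 5) (nat_lit 2) (nat_lit 4) (nat_lit 335) (nat_lit 219) (nat_lit 166))))) (XT.nd (nat_lit 33228) (nat_lit 0) (nat_lit 76) (XT.nd (nat_lit 78) (nat_lit 0) (nat_lit 0) (XT.lf (nat_lit 0) (nat_lit 1996217468642) (nat_lit 76) (nat_lit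 157778612803) (nat_lit 76) (nat_lit 154407042718) (nat_lit 1) (nat_lit 4) (nat_lit 2) (nat_lit 5) (nat_lit 2) (nat_lit 4) (nat_lit 336) (nat_lit 219) (nat_lit 165)) (XT.nd (nat_lit 33072) (nat_lit 0) (nat_lit 76) (XT.lf (nat_lit 0) (nat_lit 2157722163818) (nat_lit 76) (nat_lit 169322976281) (nat_lit 76) (nat_lit 165947429928) (nat_lit 1) (nat_lit 4) (nat_lit 2) (nat_lit 5) (nat_lit 2) (nat_lit 4) (nat_lit 337) (nat_lit 219) (nat_lit 164)) (XT.lf (nat_lit 0) (nat_lit 3474777661) (nat_lit 152) (nat_lit 9617056643) (nat_lit 0) (nat_lit 3474777661) (nat_lit 2) (nat_lit 5) (nat_lit 4) (nat_lit 4) (nat_lit 2) (nat_lit 4) (nat_lit 280) (nat_lit 220) (nat_lit 220)))) (XT.nd (nat_lit 78) (nat_lit 0) (nat_lit 0) (XT.lf (nat_lit 0) (nat_lit 10154073556) (nat_lit 152) (nat_lit 15506426232) (nat_lit 0) (nat_lit 9880053579) (nat_lit 2) (nat_lit 5) (nat_lit 4) (nat_lit 4) (nat_lit 2) (nat_lit 4)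 (nat_lit 281) (nat_lit 220) (nat_lit 219)) (XT.nd (nat_lit 78) (nat_lit 0) (nat_lit 0) (XT.lf (nat_lit 0) (nat_lit 13471386665) (nat_lit 152) (nat_lit 11737302121) (nat_lit 0) (nat_lit 12943644488) (nat_lit 2) (nat_lit 5) (nat_lit 4) (nat_lit 4) (nat_lit 2) (nat_lit 4) (nat_lit 282) (nat_lit 220) (nat_lit 218)) (XT.lf (nat_lit 0) (nat_lit 16921152802) (nat_lit 152) (nat_lit 7904405402) (nat_lit 0) (nat_lit 16158482662) (nat_lit 2) (nat_lit 5) (nat_lit 4) (nat_lit 4) (nat_lit 2) (nat_lit 4) (nat_lit 283) (nat_lit 220) (nat_lit 217))))))) (XT.nd (nat_lit 936) (nat_lit 0) (nat_lit 0) (XT.nd (nat_lit 468) (nat_lit 0) (nat_lit 0) (XT.nd (nat_lit 234) (nat_lit 0) (nat_lit 0) (XT.nd (nat_lit 78) (nat_lit 76) (nat_lit 0) (XT.lf (nat_lit 0) (nat_lit 20523815026) (nat_lit 152) (nat_lit 3985022613) (nat_lit 0) (nat_lit 19543618994) (nat_lit 2) (nat_lit 5) (nat_lit 4) (nat_lit 4) (nat_lit 2)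 (nat_lit 4) (nat_lit 284) (nat_lit 220) (nat_lit 216)) (XT.nd (nat_lit 78) (nat_lit 0) (nat_lit 0) (XT.lf (nat_lit 0) (nat_lit 46392980) (nat_lit 76) (nat_lit 24255445218) (nat_lit 76) (nat_lit 23073836322) (nat_lit 1) (nat_lit 4) (nat_lit 2) (nat_lit 5) (nat_lit 2) (nat_lit 4) (nat_lit 285) (nat_lit 220) (nat_lit 215)) (XT.lf (nat_lit 0) (nat_lit 4428275478) (nat_lit 76) (nat_lit 23952481389) (nat_lit 76) (nat_lit 22584379102) (nat_lit 1) (nat_lit 4) (nat_lit 2) (nat_lit 5) (nat_lit 2) (nat_lit 4) (nat_lit 286) (nat_lit 220) (nat_lit 214)))) (XT.nd (nat_lit 78) (nat_lit 0) (nat_lit 0) (XT.lf (nat_lit 0) (nat_lit 8976747362) (nat_lit 76) (nat_lit 23707108393) (nat_lit 76) (nat_lit 22166327040) (nat_lit 1) (nat_lit 4) (nat_lit 2) (nat_lit 5) (nat_lit 2) (nat_lit 4) (nat_lit 287) (nat_lit 220) (nat_lit 213)) (XT.nd (nat_lit 78) (nat_lit 0) (nat_lit 0) (XT.lf (nat_lit 0) (nat_lit 13718762540)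 (nat_lit 76) (nat_lit 23517872168) (nat_lit 76) (nat_lit 21817202790) (nat_lit 1) (nat_lit 4) (nat_lit 2) (nat_lit 5) (nat_lit 2) (nat_lit 4) (nat_lit 288) (nat_lit 220) (nat_lit 212)) (XT.lf (nat_lit 0) (nat_lit 18682421841) (nat_lit 76) (nat_lit 23383651313) (nat_lit 76) (nat_lit 21534937469) (nat_lit 1) (nat_lit 4) (nat_lit 2) (nat_lit 5) (nat_lit 2) (nat_lit 4) (nat_lit 289) (nat_lit 220) (nat_lit 211))))) (XT.nd (nat_lit 234) (nat_lit 0) (nat_lit 0) (XT.nd (nat_lit 78) (nat_lit 0) (nat_lit 0) (XT.lf (nat_lit 0) (nat_lit 23897139543) (nat_lit 76) (nat_lit 23303650447) (nat_lit 76) (nat_lit 21317858392) (nat_lit 1) (nat_lit 4) (nat_lit 2) (nat_lit 5) (nat_lit 2) (nat_lit 4) (nat_lit 290) (nat_lit 220) (nat_lit 210)) (XT.nd (nat_lit 78) (nat_lit 0) (nat_lit 0) (XT.lf (nat_lit 0) (nat_lit 29393817678) (nat_lit 76) (nat_lit 23277395488) (nat_lit 76) (nat_lit 21164679165) (nat_lit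 1) (nat_lit 4) (nat_lit 2) (nat_lit 5) (nat_lit 2) (nat_lit 4) (nat_lit 291) (nat_lit 220) (nat_lit 209)) (XT.lf (nat_lit 0) (nat_lit 35205029152) (nat_lit 76) (nat_lit 23304730854) (nat_lit 76) (nat_lit 21074492059) (nat_lit 1) (nat_lit 4) (nat_lit 2) (nat_lit 5) (nat_lit 2) (nat_lit 4) (nat_lit 292) (nat_lit 220) (nat_lit 208)))) (XT.nd (nat_lit 78) (nat_lit 0) (nat_lit 0) (XT.lf (nat_lit 0) (nat_lit 41365210775) (nat_lit 76) (nat_lit 23385818530) (nat_lit 76) (nat_lit 21046762633) (nat_lit 1) (nat_lit 4) (nat_lit 2) (nat_lit 5) (nat_lit 2) (nat_lit 4) (nat_lit 293) (nat_lit 220) (nat_lit 207)) (XT.nd (nat_lit 78) (nat_lit 0) (nat_lit 0) (XT.lf (nat_lit 0) (nat_lit 47910867326) (nat_lit 76) (nat_lit 23521139037) (nat_lit 76) (nat_lit 21081326563) (nat_lit 1) (nat_lit 4) (nat_lit 2) (nat_lit 5) (nat_lit 2) (nat_lit 4) (nat_lit 294) (nat_lit 220) (nat_lit 206)) (XT.lf (nat_lit 0)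 (nat_lit 54880787881) (nat_lit 76) (nat_lit 23711494274) (nat_lit 76) (nat_lit 21178388673) (nat_lit 1) (nat_lit 4) (nat_lit 2) (nat_lit 5) (nat_lit 2) (nat_lit 4) (nat_lit 295) (nat_lit 220) (nat_lit 205)))))) (XT.nd (nat_lit 468) (nat_lit 0) (nat_lit 0) (XT.nd (nat_lit 234) (nat_lit 0) (nat_lit 0) (XT.nd (nat_lit 78) (nat_lit 0) (nat_lit 0) (XT.lf (nat_lit 0) (nat_lit 62316275673) (nat_lit 76) (nat_lit 23958012272) (nat_lit 76) (nat_lit 21338524146) (nat_lit 1) (nat_lit 4) (nat_lit 2) (nat_lit 5) (nat_lit 2) (nat_lit 4) (nat_lit 296) (nat_lit 220) (nat_lit 204)) (XT.nd (nat_lit 78) (nat_lit 0) (nat_lit 0) (XT.lf (nat_lit 0) (nat_lit 70261392852) (nat_lit 76) (nat_lit 24262153878) (nat_lit 76) (nat_lit 21562681933) (nat_lit 1) (nat_lit 4) (nat_lit 2) (nat_lit 5) (nat_lit 2) (nat_lit 4) (nat_lit 297) (nat_lit 220) (nat_lit 203)) (XT.lf (nat_lit 0) (nat_lit 78763221594) (nat_lit 76)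 (nat_lit 24625721413) (nat_lit 76) (nat_lit 21852190377) (nat_lit 1) (nat_lit 4) (nat_lit 2) (nat_lit 5) (nat_lit 2) (nat_lit 4) (nat_lit 298) (nat_lit 220) (nat_lit 202)))) (XT.nd (nat_lit 78) (nat_lit 0) (nat_lit 0) (XT.lf (nat_lit 0) (nat_lit 87872143106) (nat_lit 76) (nat_lit 25050869351) (nat_lit 76) (nat_lit 22208765082) (nat_lit 1) (nat_lit 4) (nat_lit 2) (nat_lit 5) (nat_lit 2) (nat_lit 4) (nat_lit 299) (nat_lit 220) (nat_lit 201)) (XT.nd (nat_lit 78) (nat_lit 0) (nat_lit 0) (XT.lf (nat_lit 0) (nat_lit 97642136182) (nat_lit 76) (nat_lit 25540117087) (nat_lit 76) (nat_lit 22634519084) (nat_lit 1) (nat_lit 4) (nat_lit 2) (nat_lit 5) (nat_lit 2) (nat_lit 4) (nat_lit 300) (nat_lit 220) (nat_lit 200)) (XT.lf (nat_lit 0) (nat_lit 108131097078) (nat_lit 76) (nat_lit 26096363868) (nat_lit 76) (nat_lit 23131975370) (nat_lit 1) (nat_lit 4) (nat_lit 2) (nat_lit 5) (nat_lit 2) (nat_lit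 4) (nat_lit 301) (nat_lit 220) (nat_lit 199))))) (XT.nd (nat_lit 234) (nat_lit 0) (nat_lit 0) (XT.nd (nat_lit 78) (nat_lit 0) (nat_lit 0) (XT.lf (nat_lit 0) (nat_lit 119401182600) (nat_lit 76) (nat_lit 26722905970) (nat_lit 76) (nat_lit 23704081829) (nat_lit 1) (nat_lit 4) (nat_lit 2) (nat_lit 5) (nat_lit 2) (nat_lit 4) (nat_lit 302) (nat_lit 220) (nat_lit 198)) (XT.nd (nat_lit 78) (nat_lit 0) (nat_lit 0) (XT.lf (nat_lit 0) (nat_lit 131519178437) (nat_lit 76) (nat_lit 27423456236) (nat_lit 76) (nat_lit 24354228721) (nat_lit 1) (nat_lit 4) (nat_lit 2) (nat_lit 5) (nat_lit 2) (nat_lit 4) (nat_lit 303) (nat_lit 220) (nat_lit 197)) (XT.lf (nat_lit 0) (nat_lit 144556894938) (nat_lit 76) (nat_lit 28202166074) (nat_lit 76) (nat_lit 25086268770) (nat_lit 1) (nat_lit 4) (nat_lit 2) (nat_lit 5) (nat_lit 2) (nat_lit 4) (nat_lit 304) (nat_lit 220) (nat_lit 196)))) (XT.nd (nat_lit 78) (nat_lit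 0) (nat_lit 0) (XT.lf (nat_lit 0) (nat_lit 158591592643) (nat_lit 76) (nat_lit 29063650062) (nat_lit 76) (nat_lit 25904539989) (nat_lit 1) (nat_lit 4) (nat_lit 2) (nat_lit 5) (nat_lit 2) (nat_lit 4) (nat_lit 305) (nat_lit 220) (nat_lit 195)) (XT.nd (nat_lit 78) (nat_lit 0) (nat_lit 0) (XT.lf (nat_lit 0) (nat_lit 173706440133) (nat_lit 76) (nat_lit 30013013289) (nat_lit 76) (nat_lit 26813891393) (nat_lit 1) (nat_lit 4) (nat_lit 2) (nat_lit 5) (nat_lit 2) (nat_lit 4) (nat_lit 306) (nat_lit 220) (nat_lit 194)) (XT.lf (nat_lit 0) (nat_lit 189991006872) (nat_lit 76) (nat_lit 31055881613) (nat_lit 76) (nat_lit 27819711732) (nat_lit 1) (nat_lit 4) (nat_lit 2) (nat_lit 5) (nat_lit 2) (nat_lit 4) (nat_lit 307) (nat_lit 220) (nat_lit 193))))))))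
noncomputable def xc18 : XT := (XT.nd (nat_lit 1794) (nat_lit 0) (nat_lit 0) (XT.nd (nat_lit 858) (nat_lit 0) (nat_lit 0) (XT.nd (nat_lit 390) (nat_lit 0) (nat_lit 0) (XT.nd (nat_lit 156) (nat_lit 0) (nat_lit 0) (XT.nd (nat_lit 78) (nat_lit 0) (nat_lit 0) (XT.lf (nat_lit 0) (nat_lit 207541793999) (nat_lit 76) (nat_lit 32198434992) (nat_lit 76) (nat_lit 28927961422) (nat_lit 1) (nat_lit 4) (nat_lit 2) (nat_lit 5) (nat_lit 2) (nat_lit 4) (nat_lit 308) (nat_lit 220) (nat_lit 192)) (XT.lf (nat_lit 0) (nat_lit 226462806176) (nat_lit 76) (nat_lit 33447444114) (nat_lit 76) (nat_lit 30145207870) (nat_lit 1) (nat_lit 4) (nat_lit 2) (nat_lit 5) (nat_lit 2) (nat_lit 4) (nat_lit 309) (nat_lit 220) (nat_lit 191))) (XT.nd (nat_lit 78) (nat_lit 0) (nat_lit 0) (XT.lf (nat_lit 0) (nat_lit 246866167921) (nat_lit 76) (nat_lit 34810310515) (nat_lit 76) (nat_lit 31478664386) (nat_lit 1) (nat_lit 4) (nat_lit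 2) (nat_lit 5) (nat_lit 2) (nat_lit 4) (nat_lit 310) (nat_lit 220) (nat_lit 190)) (XT.nd (nat_lit 78) (nat_lit 0) (nat_lit 0) (XT.lf (nat_lit 0) (nat_lit 268872788045) (nat_lit 76) (nat_lit 36295110440) (nat_lit 76) (nat_lit 32936232936) (nat_lit 1) (nat_lit 4) (nat_lit 2) (nat_lit 5) (nat_lit 2) (nat_lit 4) (nat_lit 311) (nat_lit 220) (nat_lit 189)) (XT.lf (nat_lit 0) (nat_lit 292613076147) (nat_lit 76) (nat_lit 37910642702) (nat_lit 76) (nat_lit 34526550964) (nat_lit 1) (nat_lit 4) (nat_lit 2) (nat_lit 5) (nat_lit 2) (nat_lit 4) (nat_lit 312) (nat_lit 220) (nat_lit 188))))) (XT.nd (nat_lit 234) (nat_lit 0) (nat_lit 0) (XT.nd (nat_lit 78) (nat_lit 0) (nat_lit 0) (XT.lf (nat_lit 0) (nat_lit 318227715416) (nat_lit 76) (nat_lit 39666480828) (nat_lit 76) (nat_lit 36259042575) (nat_lit 1) (nat_lit 4) (nat_lit 2) (nat_lit 5) (nat_lit 2) (nat_lit 4) (nat_lit 313) (nat_lit 220) (nat_lit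 187)) (XT.nd (nat_lit 78) (nat_lit 0) (nat_lit 0) (XT.lf (nat_lit 0) (nat_lit 345868496308) (nat_lit 76) (nat_lit 41573029783) (nat_lit 76) (nat_lit 38143974387) (nat_lit 1) (nat_lit 4) (nat_lit 2) (nat_lit 5) (nat_lit 2) (nat_lit 4) (nat_lit 314) (nat_lit 220) (nat_lit 186)) (XT.lf (nat_lit 0) (nat_lit 375699216043) (nat_lit 76) (nat_lit 43641587635) (nat_lit 76) (nat_lit 40192516366) (nat_lit 1) (nat_lit 4) (nat_lit 2) (nat_lit 5) (nat_lit 2) (nat_lit 4) (nat_lit 315) (nat_lit 220) (nat_lit 185)))) (XT.nd (nat_lit 78) (nat_lit 0) (nat_lit 0) (XT.lf (nat_lit 0) (nat_lit 407896649256) (nat_lit 76) (nat_lit 45884412505) (nat_lit 76) (nat_lit 42416808020) (nat_lit 1) (nat_lit 4) (nat_lit 2) (nat_lit 5) (nat_lit 2) (nat_lit 4) (nat_lit 316) (nat_lit 220) (nat_lit 184)) (XT.nd (nat_lit 78) (nat_lit 0) (nat_lit 0) (XT.lf (nat_lit 0) (nat_lit 442651595551) (nat_lit 76) (nat_lit 48314795207)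 (nat_lit 76) (nat_lit 44830030337) (nat_lit 1) (nat_lit 4) (nat_lit 2) (nat_lit 5) (nat_lit 2) (nat_lit 4) (nat_lit 317) (nat_lit 220) (nat_lit 183)) (XT.lf (nat_lit 0) (nat_lit 480170010166) (nat_lit 76) (nat_lit 50947138008) (nat_lit 76) (nat_lit 47446483893) (nat_lit 1) (nat_lit 4) (nat_lit 2) (nat_lit 5) (nat_lit 2) (nat_lit 4) (nat_lit 318) (nat_lit 220) (nat_lit 182)))))) (XT.nd (nat_lit 468) (nat_lit 0) (nat_lit 0) (XT.nd (nat_lit 234) (nat_lit 0) (nat_lit 0) (XT.nd (nat_lit 78) (nat_lit 0) (nat_lit 0) (XT.lf (nat_lit 0) (nat_lit 520674224446) (nat_lit 76) (nat_lit 53797039978) (nat_lit 76) (nat_lit 50281673599) (nat_lit 1) (nat_lit 4) (nat_lit 2) (nat_lit 5) (nat_lit 2) (nat_lit 4) (nat_lit 319) (nat_lit 220) (nat_lit 181)) (XT.nd (nat_lit 78) (nat_lit 0) (nat_lit 0) (XT.lf (nat_lit 0) (nat_lit 564404263365) (nat_lit 76) (nat_lit 56881389424) (nat_lit 76) (nat_lit 53352400578)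 (nat_lit 1) (nat_lit 4) (nat_lit 2) (nat_lit 5) (nat_lit 2) (nat_lit 4) (nat_lit 320) (nat_lit 220) (nat_lit 180)) (XT.lf (nat_lit 0) (nat_lit 611619267894) (nat_lit 76) (nat_lit 60218463973) (nat_lit 76) (nat_lit 56676861731) (nat_lit 1) (nat_lit 4) (nat_lit 2) (nat_lit 5) (nat_lit 2) (nat_lit 4) (nat_lit 321) (nat_lit 220) (nat_lit 179)))) (XT.nd (nat_lit 78) (nat_lit 0) (nat_lit 0) (XT.lf (nat_lit 0) (nat_lit 662599030653) (nat_lit 76) (nat_lit 63828038880) (nat_lit 76) (nat_lit 60274757569) (nat_lit 1) (nat_lit 4) (nat_lit 2) (nat_lit 5) (nat_lit 2) (nat_lit 4) (nat_lit 322) (nat_lit 220) (nat_lit 178)) (XT.nd (nat_lit 78) (nat_lit 0) (nat_lit 0) (XT.lf (nat_lit 0) (nat_lit 717645653940) (nat_lit 76) (nat_lit 67731504221) (nat_lit 76) (nat_lit 64167408956) (nat_lit 1) (nat_lit 4) (nat_lit 2) (nat_lit 5) (nat_lit 2) (nat_lit 4) (nat_lit 323) (nat_lit 220) (nat_lit 177)) (XT.lf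 (nat_lit 0) (nat_lit 777085339966) (nat_lit 76) (nat_lit 71951991640) (nat_lit 76) (nat_lit 68377883455) (nat_lit 1) (nat_lit 4) (nat_lit 2) (nat_lit 5) (nat_lit 2) (nat_lit 4) (nat_lit 324) (nat_lit 220) (nat_lit 176))))) (XT.nd (nat_lit 234) (nat_lit 0) (nat_lit 0) (XT.nd (nat_lit 78) (nat_lit 0) (nat_lit 0) (XT.lf (nat_lit 0) (nat_lit 841270323909) (nat_lit 76) (nat_lit 76514511434) (nat_lit 76) (nat_lit 72931132028) (nat_lit 1) (nat_lit 4) (nat_lit 2) (nat_lit 5) (nat_lit 2) (nat_lit 4) (nat_lit 325) (nat_lit 220) (nat_lit 175)) (XT.nd (nat_lit 78) (nat_lit 0) (nat_lit 0) (XT.lf (nat_lit 0) (nat_lit 910580961228) (nat_lit 76) (nat_lit 81446100758) (nat_lit 76) (nat_lit 77854136886) (nat_lit 1) (nat_lit 4) (nat_lit 2) (nat_lit 5) (nat_lit 2) (nat_lit 4) (nat_lit 326) (nat_lit 220) (nat_lit 174)) (XT.lf (nat_lit 0) (nat_lit 985427981626) (nat_lit 76) (nat_lit 86775983844) (nat_lit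 76) (nat_lit 83176071394) (nat_lit 1) (nat_lit 4) (nat_lit 2) (nat_lit 5) (nat_lit 2) (nat_lit 4) (nat_lit 327) (nat_lit 220) (nat_lit 173)))) (XT.nd (nat_lit 78) (nat_lit 0) (nat_lit 0) (XT.lf (nat_lit 0) (nat_lit 1066254923002) (nat_lit 76) (nat_lit 92535745184) (nat_lit 76) (nat_lit 88928472939) (nat_lit 1) (nat_lit 4) (nat_lit 2) (nat_lit 5) (nat_lit 2) (nat_lit 4) (nat_lit 328) (nat_lit 220) (nat_lit 172)) (XT.nd (nat_lit 78) (nat_lit 0) (nat_lit 0) (XT.lf (nat_lit 0) (nat_lit 1153540759823) (nat_lit 76) (nat_lit 98759516699) (nat_lit 76) (nat_lit 95145429829) (nat_lit 1) (nat_lit 4) (nat_lit 2) (nat_lit 5) (nat_lit 2) (nat_lit 4) (nat_lit 329) (nat_lit 220) (nat_lit 171)) (XT.lf (nat_lit 0) (nat_lit 1247802741493) (nat_lit 76) (nat_lit 105484179996) (nat_lit 76) (nat_lit 101863783288) (nat_lit 1) (nat_lit 4) (nat_lit 2) (nat_lit 5) (nat_lit 2) (nat_lit 4) (nat_lit 330) (nat_lit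 220) (nat_lit 170))))))) (XT.nd (nat_lit 33774) (nat_lit 0) (nat_lit 0) (XT.nd (nat_lit 468) (nat_lit 0) (nat_lit 0) (XT.nd (nat_lit 234) (nat_lit 0) (nat_lit 0) (XT.nd (nat_lit 78) (nat_lit 0) (nat_lit 0) (XT.lf (nat_lit 0) (nat_lit 1349599457532) (nat_lit 76) (nat_lit 112749584932) (nat_lit 76) (nat_lit 109123345781) (nat_lit 1) (nat_lit 4) (nat_lit 2) (nat_lit 5) (nat_lit 2) (nat_lit 4) (nat_lit 331) (nat_lit 220) (nat_lit 169)) (XT.nd (nat_lit 78) (nat_lit 0) (nat_lit 0) (XT.lf (nat_lit 0) (nat_lit 1459534147740) (nat_lit 76) (nat_lit 120598785759) (nat_lit 76) (nat_lit 116967136939) (nat_lit 1) (nat_lit 4) (nat_lit 2) (nat_lit 5) (nat_lit 2) (nat_lit 4) (nat_lit 332) (nat_lit 220) (nat_lit 168)) (XT.lf (nat_lit 0) (nat_lit 1578258276947) (nat_lit 76) (nat_lit 129078296259) (nat_lit 76) (nat_lit 125441638486) (nat_lit 1) (nat_lit 4) (nat_lit 2) (nat_lit 5) (nat_lit 2) (nat_lit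 4) (nat_lit 333) (nat_lit 220) (nat_lit 167)))) (XT.nd (nat_lit 78) (nat_lit 0) (nat_lit 0) (XT.lf (nat_lit 0) (nat_lit 1706475395548) (nat_lit 76) (nat_lit 138238365384) (nat_lit 76) (nat_lit 134597069692) (nat_lit 1) (nat_lit 4) (nat_lit 2) (nat_lit 5) (nat_lit 2) (nat_lit 4) (nat_lit 334) (nat_lit 220) (nat_lit 166)) (XT.nd (nat_lit 78) (nat_lit 0) (nat_lit 0) (XT.lf (nat_lit 0) (nat_lit 1844945308691) (nat_lit 76) (nat_lit 148133275024) (nat_lit 76) (nat_lit 144487684963) (nat_lit 1) (nat_lit 4) (nat_lit 2) (nat_lit 5) (nat_lit 2) (nat_lit 4) (nat_lit 335) (nat_lit 220) (nat_lit 165)) (XT.lf (nat_lit 0) (nat_lit 1994488578825) (nat_lit 76) (nat_lit 158821661682) (nat_lit 76) (nat_lit 155172095352) (nat_lit 1) (nat_lit 4) (nat_lit 2) (nat_lit 5) (nat_lit 2) (nat_lit 4) (nat_lit 336) (nat_lit 220) (nat_lit 164))))) (XT.nd (nat_lit 33072) (nat_lit 0) (nat_lit 76) (XT.nd (nat_lit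 32916) (nat_lit 0) (nat_lit 76) (XT.lf (nat_lit 0) (nat_lit 2155991388289) (nat_lit 76) (nat_lit 170366863944) (nat_lit 76) (nat_lit 166713615885) (nat_lit 1) (nat_lit 4) (nat_lit 2) (nat_lit 5) (nat_lit 2) (nat_lit 4) (nat_lit 337) (nat_lit 220) (nat_lit 163)) (XT.nd (nat_lit 78) (nat_lit 0) (nat_lit 0) (XT.lf (nat_lit 0) (nat_lit 589974858) (nat_lit 152) (nat_lit 13254714207) (nat_lit 0) (nat_lit 589974858) (nat_lit 2) (nat_lit 5) (nat_lit 4) (nat_lit 4) (nat_lit 2) (nat_lit 4) (nat_lit 278) (nat_lit 221) (nat_lit 221)) (XT.lf (nat_lit 0) (nat_lit 4134783804) (nat_lit 152) (nat_lit 22942453282) (nat_lit 0) (nat_lit 3838842230) (nat_lit 2) (nat_lit 5) (nat_lit 4) (nat_lit 4) (nat_lit 2) (nat_lit 4) (nat_lit 279) (nat_lit 221) (nat_lit 220)))) (XT.nd (nat_lit 78) (nat_lit 0) (nat_lit 0) (XT.lf (nat_lit 0) (nat_lit 7170952711) (nat_lit 152) (nat_lit 19367440277) (nat_lit 0) (nat_lit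 6600991160) (nat_lit 2) (nat_lit 5) (nat_lit 4) (nat_lit 4) (nat_lit 2) (nat_lit 4) (nat_lit 280) (nat_lit 221) (nat_lit 219)) (XT.nd (nat_lit 78) (nat_lit 0) (nat_lit 0) (XT.lf (nat_lit 0) (nat_lit 10306448548) (nat_lit 152) (nat_lit 15763204140) (nat_lit 0) (nat_lit 9482764797) (nat_lit 2) (nat_lit 5) (nat_lit 4) (nat_lit 4) (nat_lit 2) (nat_lit 4) (nat_lit 281) (nat_lit 221) (nat_lit 218)) (XT.lf (nat_lit 0) (nat_lit 13559852032) (nat_lit 152) (nat_lit 12108386433) (nat_lit 0) (nat_lit 12501240317) (nat_lit 2) (nat_lit 5) (nat_lit 4) (nat_lit 4) (nat_lit 2) (nat_lit 4) (nat_lit 282) (nat_lit 221) (nat_lit 217)))))) (XT.nd (nat_lit 468) (nat_lit 0) (nat_lit 0) (XT.nd (nat_lit 234) (nat_lit 76) (nat_lit 0) (XT.nd (nat_lit 78) (nat_lit 0) (nat_lit 0) (XT.lf (nat_lit 0) (nat_lit 16950442590) (nat_lit 152) (nat_lit 8381328977) (nat_lit 0) (nat_lit 15674304983) (nat_lit 2) (nat_lit 5)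 (nat_lit 4) (nat_lit 4) (nat_lit 2) (nat_lit 4) (nat_lit 283) (nat_lit 221) (nat_lit 216)) (XT.nd (nat_lit 78) (nat_lit 0) (nat_lit 0) (XT.lf (nat_lit 0) (nat_lit 20498312611) (nat_lit 152) (nat_lit 4559945507) (nat_lit 0) (nat_lit 19020762142) (nat_lit 2) (nat_lit 5) (nat_lit 4) (nat_lit 4) (nat_lit 2) (nat_lit 4) (nat_lit 284) (nat_lit 221) (nat_lit 215)) (XT.lf (nat_lit 0) (nat_lit 24224486511) (nat_lit 152) (nat_lit 621590786) (nat_lit 0) (nat_lit 22560442649) (nat_lit 2) (nat_lit 5) (nat_lit 4) (nat_lit 4) (nat_lit 2) (nat_lit 4) (nat_lit 285) (nat_lit 221) (nat_lit 214)))) (XT.nd (nat_lit 78) (nat_lit 0) (nat_lit 0) (XT.lf (nat_lit 0) (nat_lit 3639116950) (nat_lit 76) (nat_lit 24599449218) (nat_lit 76) (nat_lit 22762726290) (nat_lit 1) (nat_lit 4) (nat_lit 2) (nat_lit 5) (nat_lit 2) (nat_lit 4) (nat_lit 286) (nat_lit 221) (nat_lit 213)) (XT.nd (nat_lit 78) (nat_lit 0) (nat_lit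 0) (XT.lf (nat_lit 0) (nat_lit 8105697268) (nat_lit 76) (nat_lit 24390502477) (nat_lit 76) (nat_lit 22393891525) (nat_lit 1) (nat_lit 4) (nat_lit 2) (nat_lit 5) (nat_lit 2) (nat_lit 4) (nat_lit 287) (nat_lit 221) (nat_lit 212)) (XT.lf (nat_lit 0) (nat_lit 12771886921) (nat_lit 76) (nat_lit 24234994266) (nat_lit 76) (nat_lit 22090338846) (nat_lit 1) (nat_lit 4) (nat_lit 2) (nat_lit 5) (nat_lit 2) (nat_lit 4) (nat_lit 288) (nat_lit 221) (nat_lit 211))))) (XT.nd (nat_lit 234) (nat_lit 0) (nat_lit 0) (XT.nd (nat_lit 78) (nat_lit 0) (nat_lit 0) (XT.lf (nat_lit 0) (nat_lit 17665337404) (nat_lit 76) (nat_lit 24132003053) (nat_lit 76) (nat_lit 21850269424) (nat_lit 1) (nat_lit 4) (nat_lit 2) (nat_lit 5) (nat_lit 2) (nat_lit 4) (nat_lit 289) (nat_lit 221) (nat_lit 210)) (XT.nd (nat_lit 78) (nat_lit 0) (nat_lit 0) (XT.lf (nat_lit 0) (nat_lit 22815046941) (nat_lit 76) (nat_lit 24080918522) (nat_lit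 76) (nat_lit 21672260624) (nat_lit 1) (nat_lit 4) (nat_lit 2) (nat_lit 5) (nat_lit 2) (nat_lit 4) (nat_lit 290) (nat_lit 221) (nat_lit 209)) (XT.lf (nat_lit 0) (nat_lit 28251532330) (nat_lit 76) (nat_lit 24081437949) (nat_lit 76) (nat_lit 21555257579) (nat_lit 1) (nat_lit 4) (nat_lit 2) (nat_lit 5) (nat_lit 2) (nat_lit 4) (nat_lit 291) (nat_lit 221) (nat_lit 208)))) (XT.nd (nat_lit 78) (nat_lit 0) (nat_lit 0) (XT.lf (nat_lit 0) (nat_lit 34007009780) (nat_lit 76) (nat_lit 24133564411) (nat_lit 76) (nat_lit 21498566939) (nat_lit 1) (nat_lit 4) (nat_lit 2) (nat_lit 5) (nat_lit 2) (nat_lit 4) (nat_lit 292) (nat_lit 221) (nat_lit 207)) (XT.nd (nat_lit 78) (nat_lit 0) (nat_lit 0) (XT.lf (nat_lit 0) (nat_lit 40115585825) (nat_lit 76) (nat_lit 24237606807) (nat_lit 76) (nat_lit 21501852758) (nat_lit 1) (nat_lit 4) (nat_lit 2) (nat_lit 5) (nat_lit 2) (nat_lit 4) (nat_lit 293) (nat_lit 221)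 (nat_lit 206)) (XT.lf (nat_lit 0) (nat_lit 46613459434) (nat_lit 76) (nat_lit 24394181684) (nat_lit 76) (nat_lit 21565134508) (nat_lit 1) (nat_lit 4) (nat_lit 2) (nat_lit 5) (nat_lit 2) (nat_lit 4) (nat_lit 294) (nat_lit 221) (nat_lit 205))))))))
noncomputable def xc19 : XT := (XT.nd (nat_lit 1872) (nat_lit 0) (nat_lit 0) (XT.nd (nat_lit 936) (nat_lit 0) (nat_lit 0) (XT.nd (nat_lit 468) (nat_lit 0) (nat_lit 0) (XT.nd (nat_lit 234) (nat_lit 0) (nat_lit 0) (XT.nd (nat_lit 78) (nat_lit 0) (nat_lit 0) (XT.lf (nat_lit 0) (nat_lit 53539136524) (nat_lit 76) (nat_lit 24604216893) (nat_lit 76) (nat_lit 21688787193) (nat_lit 1) (nat_lit 4) (nat_lit 2) (nat_lit 5) (nat_lit 2) (nat_lit 4) (nat_lit 295) (nat_lit 221) (nat_lit 204)) (XT.nd (nat_lit 78) (nat_lit 0) (nat_lit 0) (XT.lf (nat_lit 0) (nat_lit 60933658144) (nat_lit 76) (nat_lit 24868957087) (nat_lit 76) (nat_lit 21873543568) (nat_lit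 1) (nat_lit 4) (nat_lit 2) (nat_lit 5) (nat_lit 2) (nat_lit 4) (nat_lit 296) (nat_lit 221) (nat_lit 203)) (XT.lf (nat_lit 0) (nat_lit 68840843683) (nat_lit 76) (nat_lit 25189971097) (nat_lit 76) (nat_lit 22120498486) (nat_lit 1) (nat_lit 4) (nat_lit 2) (nat_lit 5) (nat_lit 2) (nat_lit 4) (nat_lit 297) (nat_lit 221) (nat_lit 202)))) (XT.nd (nat_lit 78) (nat_lit 0) (nat_lit 0) (XT.lf (nat_lit 0) (nat_lit 77307550536) (nat_lit 76) (nat_lit 25569161228) (nat_lit 76) (nat_lit 22431115384) (nat_lit 1) (nat_lit 4) (nat_lit 2) (nat_lit 5) (nat_lit 2) (nat_lit 4) (nat_lit 298) (nat_lit 221) (nat_lit 201)) (XT.nd (nat_lit 78) (nat_lit 0) (nat_lit 0) (XT.lf (nat_lit 0) (nat_lit 86383951781) (nat_lit 76) (nat_lit 26008774533) (nat_lit 76) (nat_lit 22807234955) (nat_lit 1) (nat_lit 4) (nat_lit 2) (nat_lit 5) (nat_lit 2) (nat_lit 4) (nat_lit 299) (nat_lit 221) (nat_lit 200)) (XT.lf (nat_lit 0)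 (nat_lit 96123833498) (nat_lit 76) (nat_lit 26511416128) (nat_lit 76) (nat_lit 23251086055) (nat_lit 1) (nat_lit 4) (nat_lit 2) (nat_lit 5) (nat_lit 2) (nat_lit 4) (nat_lit 300) (nat_lit 221) (nat_lit 199))))) (XT.nd (nat_lit 234) (nat_lit 0) (nat_lit 0) (XT.nd (nat_lit 78) (nat_lit 0) (nat_lit 0) (XT.lf (nat_lit 0) (nat_lit 106584913507) (nat_lit 76) (nat_lit 27080064630) (nat_lit 76) (nat_lit 23765298914) (nat_lit 1) (nat_lit 4) (nat_lit 2) (nat_lit 5) (nat_lit 2) (nat_lit 4) (nat_lit 301) (nat_lit 221) (nat_lit 198)) (XT.nd (nat_lit 78) (nat_lit 0) (nat_lit 0) (XT.lf (nat_lit 0) (nat_lit 117829183391) (nat_lit 76) (nat_lit 27718089806) (nat_lit 76) (nat_lit 24352920717) (nat_lit 1) (nat_lit 4) (nat_lit 2) (nat_lit 5) (nat_lit 2) (nat_lit 4) (nat_lit 302) (nat_lit 221) (nat_lit 197)) (XT.lf (nat_lit 0) (nat_lit 129923275861) (nat_lit 76) (nat_lit 28429272549) (nat_lit 76) (nat_lit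 25017433669) (nat_lit 1) (nat_lit 4) (nat_lit 2) (nat_lit 5) (nat_lit 2) (nat_lit 4) (nat_lit 303) (nat_lit 221) (nat_lit 196)))) (XT.nd (nat_lit 78) (nat_lit 0) (nat_lit 0) (XT.lf (nat_lit 0) (nat_lit 142938859614) (nat_lit 76) (nat_lit 29217827273) (nat_lit 76) (nat_lit 25762775625) (nat_lit 1) (nat_lit 4) (nat_lit 2) (nat_lit 5) (nat_lit 2) (nat_lit 4) (nat_lit 304) (nat_lit 221) (nat_lit 195)) (XT.nd (nat_lit 78) (nat_lit 0) (nat_lit 0) (XT.lf (nat_lit 0) (nat_lit 156953064035) (nat_lit 76) (nat_lit 30088426895) (nat_lit 76) (nat_lit 26593363424) (nat_lit 1) (nat_lit 4) (nat_lit 2) (nat_lit 5) (nat_lit 2) (nat_lit 4) (nat_lit 305) (nat_lit 221) (nat_lit 194)) (XT.lf (nat_lit 0) (nat_lit 172048936260) (nat_lit 76) (nat_lit 31046230525) (nat_lit 76) (nat_lit 27514119070) (nat_lit 1) (nat_lit 4) (nat_lit 2) (nat_lit 5) (nat_lit 2) (nat_lit 4) (nat_lit 306) (nat_lit 221) (nat_lit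 193)))))) (XT.nd (nat_lit 468) (nat_lit 0) (nat_lit 0) (XT.nd (nat_lit 234) (nat_lit 0) (nat_lit 0) (XT.nd (nat_lit 78) (nat_lit 0) (nat_lit 0) (XT.lf (nat_lit 0) (nat_lit 188315933311) (nat_lit 76) (nat_lit 32096914036) (nat_lit 76) (nat_lit 28530498892) (nat_lit 1) (nat_lit 4) (nat_lit 2) (nat_lit 5) (nat_lit 2) (nat_lit 4) (nat_lit 307) (nat_lit 221) (nat_lit 192)) (XT.nd (nat_lit 78) (nat_lit 0) (nat_lit 0) (XT.lf (nat_lit 0) (nat_lit 205850452207) (nat_lit 76) (nat_lit 33246703701) (nat_lit 76) (nat_lit 29648525881) (nat_lit 1) (nat_lit 4) (nat_lit 2) (nat_lit 5) (nat_lit 2) (nat_lit 4) (nat_lit 308) (nat_lit 221) (nat_lit 191)) (XT.lf (nat_lit 0) (nat_lit 224756401208) (nat_lit 76) (nat_lit 34502413087) (nat_lit 76) (nat_lit 30874825383) (nat_lit 1) (nat_lit 4) (nat_lit 2) (nat_lit 5) (nat_lit 2) (nat_lit 4) (nat_lit 309) (nat_lit 221) (nat_lit 190)))) (XT.nd (nat_lit 78) (nat_lit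 0) (nat_lit 0) (XT.lf (nat_lit 0) (nat_lit 245145815568) (nat_lit 76) (nat_lit 35871483435) (nat_lit 76) (nat_lit 32216664358) (nat_lit 1) (nat_lit 4) (nat_lit 2) (nat_lit 5) (nat_lit 2) (nat_lit 4) (nat_lit 310) (nat_lit 221) (nat_lit 189)) (XT.nd (nat_lit 78) (nat_lit 0) (nat_lit 0) (XT.lf (nat_lit 0) (nat_lit 267139521446) (nat_lit 76) (nat_lit 37362027756) (nat_lit 76) (nat_lit 33681994443) (nat_lit 1) (nat_lit 4) (nat_lit 2) (nat_lit 5) (nat_lit 2) (nat_lit 4) (nat_lit 311) (nat_lit 221) (nat_lit 188)) (XT.lf (nat_lit 0) (nat_lit 290867851913) (nat_lit 76) (nat_lit 38982878904) (nat_lit 76) (nat_lit 35279499077) (nat_lit 1) (nat_lit 4) (nat_lit 2) (nat_lit 5) (nat_lit 2) (nat_lit 4) (nat_lit 312) (nat_lit 221) (nat_lit 187))))) (XT.nd (nat_lit 234) (nat_lit 0) (nat_lit 0) (XT.nd (nat_lit 78) (nat_lit 0) (nat_lit 0) (XT.lf (nat_lit 0) (nat_lit 316471419298) (nat_lit 76) (nat_lit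 40743641924) (nat_lit 76) (nat_lit 37018644953) (nat_lit 1) (nat_lit 4) (nat_lit 2) (nat_lit 5) (nat_lit 2) (nat_lit 4) (nat_lit 313) (nat_lit 221) (nat_lit 186)) (XT.nd (nat_lit 78) (nat_lit 0) (nat_lit 0) (XT.lf (nat_lit 0) (nat_lit 344101948446) (nat_lit 76) (nat_lit 42654750966) (nat_lit 76) (nat_lit 38909738122) (nat_lit 1) (nat_lit 4) (nat_lit 2) (nat_lit 5) (nat_lit 2) (nat_lit 4) (nat_lit 314) (nat_lit 221) (nat_lit 185)) (XT.lf (nat_lit 0) (nat_lit 373923175824) (nat_lit 76) (nat_lit 44727531120) (nat_lit 76) (nat_lit 40963985061) (nat_lit 1) (nat_lit 4) (nat_lit 2) (nat_lit 5) (nat_lit 2) (nat_lit 4) (nat_lit 315) (nat_lit 221) (nat_lit 184)))) (XT.nd (nat_lit 78) (nat_lit 0) (nat_lit 0) (XT.lf (nat_lit 0) (nat_lit 406111819818) (nat_lit 76) (nat_lit 46974265530) (nat_lit 76) (nat_lit 43193559086) (nat_lit 1) (nat_lit 4) (nat_lit 2) (nat_lit 5) (nat_lit 2) (nat_lit 4) (nat_lit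 316) (nat_lit 221) (nat_lit 183)) (XT.nd (nat_lit 78) (nat_lit 0) (nat_lit 0) (XT.lf (nat_lit 0) (nat_lit 440858627948) (nat_lit 76) (nat_lit 49408268176) (nat_lit 76) (nat_lit 45611672486) (nat_lit 1) (nat_lit 4) (nat_lit 2) (nat_lit 5) (nat_lit 2) (nat_lit 4) (nat_lit 317) (nat_lit 221) (nat_lit 182)) (XT.lf (nat_lit 0) (nat_lit 478369507224) (nat_lit 76) (nat_lit 52043962778) (nat_lit 76) (nat_lit 48232654823) (nat_lit 1) (nat_lit 4) (nat_lit 2) (nat_lit 5) (nat_lit 2) (nat_lit 4) (nat_lit 318) (nat_lit 221) (nat_lit 181))))))) (XT.nd (nat_lit 936) (nat_lit 0) (nat_lit 0) (XT.nd (nat_lit 468) (nat_lit 0) (nat_lit 0) (XT.nd (nat_lit 234) (nat_lit 0) (nat_lit 0) (XT.nd (nat_lit 78) (nat_lit 0) (nat_lit 0) (XT.lf (nat_lit 0) (nat_lit 518866744339) (nat_lit 76) (nat_lit 54896968266) (nat_lit 76) (nat_lit 51072037845) (nat_lit 1) (nat_lit 4) (nat_lit 2) (nat_lit 5) (nat_lit 2) (nat_lit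 4) (nat_lit 319) (nat_lit 221) (nat_lit 180)) (XT.nd (nat_lit 78) (nat_lit 0) (nat_lit 0) (XT.lf (nat_lit 0) (nat_lit 562590322920) (nat_lit 76) (nat_lit 57984191340) (nat_lit 76) (nat_lit 54146647524) (nat_lit 1) (nat_lit 4) (nat_lit 2) (nat_lit 5) (nat_lit 2) (nat_lit 4) (nat_lit 320) (nat_lit 221) (nat_lit 179)) (XT.lf (nat_lit 0) (nat_lit 609799345655) (nat_lit 76) (nat_lit 61323926656) (nat_lit 76) (nat_lit 57474703770) (nat_lit 1) (nat_lit 4) (nat_lit 2) (nat_lit 5) (nat_lit 2) (nat_lit 4) (nat_lit 321) (nat_lit 221) (nat_lit 178)))) (XT.nd (nat_lit 78) (nat_lit 0) (nat_lit 0) (XT.lf (nat_lit 0) (nat_lit 660773569716) (nat_lit 76) (nat_lit 64935965236) (nat_lit 76) (nat_lit 61075928397) (nat_lit 1) (nat_lit 4) (nat_lit 2) (nat_lit 5) (nat_lit 2) (nat_lit 4) (nat_lit 322) (nat_lit 221) (nat_lit 177)) (XT.nd (nat_lit 78) (nat_lit 0) (nat_lit 0) (XT.lf (nat_lit 0) (nat_lit 715815064578)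 (nat_lit 76) (nat_lit 68841711756) (nat_lit 76) (nat_lit 64971661996) (nat_lit 1) (nat_lit 4) (nat_lit 2) (nat_lit 5) (nat_lit 2) (nat_lit 4) (nat_lit 323) (nat_lit 221) (nat_lit 176)) (XT.lf (nat_lit 0) (nat_lit 775250002063) (nat_lit 76) (nat_lit 73064311378) (nat_lit 76) (nat_lit 69184990396) (nat_lit 1) (nat_lit 4) (nat_lit 2) (nat_lit 5) (nat_lit 2) (nat_lit 4) (nat_lit 324) (nat_lit 221) (nat_lit 175))))) (XT.nd (nat_lit 234) (nat_lit 0) (nat_lit 0) (XT.nd (nat_lit 78) (nat_lit 0) (nat_lit 0) (XT.lf (nat_lit 0) (nat_lit 839430589208) (nat_lit 76) (nat_lit 77628786915) (nat_lit 76) (nat_lit 73740881469) (nat_lit 1) (nat_lit 4) (nat_lit 2) (nat_lit 5) (nat_lit 2) (nat_lit 4) (nat_lit 325) (nat_lit 221) (nat_lit 174)) (XT.nd (nat_lit 78) (nat_lit 0) (nat_lit 0) (XT.lf (nat_lit 0) (nat_lit 908737155418) (nat_lit 76) (nat_lit 82562187112) (nat_lit 76) (nat_lit 78666333087) (nat_lit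 1) (nat_lit 4) (nat_lit 2) (nat_lit 5) (nat_lit 2) (nat_lit 4) (nat_lit 326) (nat_lit 221) (nat_lit 173)) (XT.lf (nat_lit 0) (nat_lit 983580406271) (nat_lit 76) (nat_lit 87893746932) (nat_lit 76) (nat_lit 83990533113) (nat_lit 1) (nat_lit 4) (nat_lit 2) (nat_lit 5) (nat_lit 2) (nat_lit 4) (nat_lit 327) (nat_lit 221) (nat_lit 172)))) (XT.nd (nat_lit 78) (nat_lit 0) (nat_lit 0) (XT.lf (nat_lit 0) (nat_lit 1064403857327) (nat_lit 76) (nat_lit 93655060805) (nat_lit 76) (nat_lit 89745032360) (nat_lit 1) (nat_lit 4) (nat_lit 2) (nat_lit 5) (nat_lit 2) (nat_lit 4) (nat_lit 328) (nat_lit 221) (nat_lit 171)) (XT.nd (nat_lit 78) (nat_lit 0) (nat_lit 0) (XT.lf (nat_lit 0) (nat_lit 1151686462371) (nat_lit 76) (nat_lit 99880269849) (nat_lit 76) (nat_lit 95963931566) (nat_lit 1) (nat_lit 4) (nat_lit 2) (nat_lit 5) (nat_lit 2) (nat_lit 4) (nat_lit 329) (nat_lit 221) (nat_lit 170)) (XT.lf (nat_lit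 0) (nat_lit 1245945451654) (nat_lit 76) (nat_lit 106606264191) (nat_lit 76) (nat_lit 102684083466) (nat_lit 1) (nat_lit 4) (nat_lit 2) (nat_lit 5) (nat_lit 2) (nat_lit 4) (nat_lit 330) (nat_lit 221) (nat_lit 169)))))) (XT.nd (nat_lit 468) (nat_lit 0) (nat_lit 0) (XT.nd (nat_lit 234) (nat_lit 0) (nat_lit 0) (XT.nd (nat_lit 78) (nat_lit 0) (nat_lit 0) (XT.lf (nat_lit 0) (nat_lit 1347739396965) (nat_lit 76) (nat_lit 113872901577) (nat_lit 76) (nat_lit 109945311183) (nat_lit 1) (nat_lit 4) (nat_lit 2) (nat_lit 5) (nat_lit 2) (nat_lit 4) (nat_lit 331) (nat_lit 221) (nat_lit 168)) (XT.nd (nat_lit 78) (nat_lit 0) (nat_lit 0) (XT.lf (nat_lit 0) (nat_lit 1457671521684) (nat_lit 76) (nat_lit 121723243562) (nat_lit 76) (nat_lit 117790644215) (nat_lit 1) (nat_lit 4) (nat_lit 2) (nat_lit 5) (nat_lit 2) (nat_lit 4) (nat_lit 332) (nat_lit 221) (nat_lit 167)) (XT.lf (nat_lit 0) (nat_lit 1576393275438)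 (nat_lit 76) (nat_lit 130203810689) (nat_lit 76) (nat_lit 126266573423) (nat_lit 1) (nat_lit 4) (nat_lit 2) (nat_lit 5) (nat_lit 2) (nat_lit 4) (nat_lit 333) (nat_lit 221) (nat_lit 166)))) (XT.nd (nat_lit 78) (nat_lit 0) (nat_lit 0) (XT.lf (nat_lit 0) (nat_lit 1704608194546) (nat_lit 76) (nat_lit 139364858172) (nat_lit 76) (nat_lit 135423326537) (nat_lit 1) (nat_lit 4) (nat_lit 2) (nat_lit 5) (nat_lit 2) (nat_lit 4) (nat_lit 334) (nat_lit 221) (nat_lit 165)) (XT.nd (nat_lit 78) (nat_lit 0) (nat_lit 0) (XT.lf (nat_lit 0) (nat_lit 1843076071121) (nat_lit 76) (nat_lit 149260673700) (nat_lit 76) (nat_lit 145315165796) (nat_lit 1) (nat_lit 4) (nat_lit 2) (nat_lit 5) (nat_lit 2) (nat_lit 4) (nat_lit 335) (nat_lit 221) (nat_lit 164)) (XT.lf (nat_lit 0) (nat_lit 1992617455543) (nat_lit 76) (nat_lit 159949899143) (nat_lit 76) (nat_lit 156000709509) (nat_lit 1) (nat_lit 4) (nat_lit 2) (nat_lit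 5) (nat_lit 2) (nat_lit 4) (nat_lit 336) (nat_lit 221) (nat_lit 163))))) (XT.nd (nat_lit 32916) (nat_lit 0) (nat_lit 76) (XT.nd (nat_lit 32760) (nat_lit 0) (nat_lit 228) (XT.lf (nat_lit 0) (nat_lit 2154118518979) (nat_lit 76) (nat_lit 171495878058) (nat_lit 76) (nat_lit 167543279415) (nat_lit 1) (nat_lit 4) (nat_lit 2) (nat_lit 5) (nat_lit 2) (nat_lit 4) (nat_lit 337) (nat_lit 221) (nat_lit 162)) (XT.nd (nat_lit 78) (nat_lit 0) (nat_lit 0) (XT.lf (nat_lit 0) (nat_lit 8565418496) (nat_lit 76) (nat_lit 2021888932) (nat_lit 76) (nat_lit 2021888932) (nat_lit 4) (nat_lit 4) (nat_lit 5) (nat_lit 5) (nat_lit 5) (nat_lit 4) (nat_lit 276) (nat_lit 222) (nat_lit 222)) (XT.lf (nat_lit 0) (nat_lit 23950941100) (nat_lit 76) (nat_lit 1684572174) (nat_lit 76) (nat_lit 1339385921) (nat_lit 4) (nat_lit 4) (nat_lit 5) (nat_lit 5) (nat_lit 5) (nat_lit 4) (nat_lit 277) (nat_lit 222) (nat_lit 221))))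 (XT.nd (nat_lit 78) (nat_lit 0) (nat_lit 0) (XT.lf (nat_lit 0) (nat_lit 1419058895) (nat_lit 152) (nat_lit 26653421565) (nat_lit 0) (nat_lit 803500420) (nat_lit 2) (nat_lit 5) (nat_lit 4) (nat_lit 4) (nat_lit 2) (nat_lit 4) (nat_lit 278) (nat_lit 222) (nat_lit 220)) (XT.nd (nat_lit 78) (nat_lit 0) (nat_lit 0) (XT.lf (nat_lit 0) (nat_lit 4299348796) (nat_lit 152) (nat_lit 23219773421) (nat_lit 0) (nat_lit 3409770345) (nat_lit 2) (nat_lit 5) (nat_lit 4) (nat_lit 4) (nat_lit 2) (nat_lit 4) (nat_lit 279) (nat_lit 222) (nat_lit 219)) (XT.lf (nat_lit 0) (nat_lit 7266495308) (nat_lit 152) (nat_lit 19768211334) (nat_lit 0) (nat_lit 6123194656) (nat_lit 2) (nat_lit 5) (nat_lit 4) (nat_lit 4) (nat_lit 2) (nat_lit 4) (nat_lit 280) (nat_lit 222) (nat_lit 218))))))))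
noncomputable def xc20 : XT := (XT.nd (nat_lit 1794) (nat_lit 0) (nat_lit 0) (XT.nd (nat_lit 858) (nat_lit 0) (nat_lit 0) (XT.nd (nat_lit 390) (nat_lit 76) (nat_lit 0) (XT.nd (nat_lit 156) (nat_lit 0) (nat_lit 0) (XT.nd (nat_lit 78) (nat_lit 0) (nat_lit 0) (XT.lf (nat_lit 0) (nat_lit 10338081520) (nat_lit 152) (nat_lit 16278281601) (nat_lit 0) (nat_lit 8959852904) (nat_lit 2) (nat_lit 5) (nat_lit 4) (nat_lit 4) (nat_lit 2) (nat_lit 4) (nat_lit 281) (nat_lit 222) (nat_lit 217)) (XT.lf (nat_lit 0) (nat_lit 13532309424) (nat_lit 152) (nat_lit 12729303158) (nat_lit 0) (nat_lit 11936554917) (nat_lit 2) (nat_lit 5) (nat_lit 4) (nat_lit 4) (nat_lit 2) (nat_lit 4) (nat_lit 282) (nat_lit 222) (nat_lit 216))) (XT.nd (nat_lit 78) (nat_lit 0) (nat_lit 0) (XT.lf (nat_lit 0) (nat_lit 16868107780) (nat_lit 152) (nat_lit 9100245020) (nat_lit 0) (nat_lit 15070940410) (nat_lit 2) (nat_lit 5) (nat_lit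 4) (nat_lit 4) (nat_lit 2) (nat_lit 4) (nat_lit 283) (nat_lit 222) (nat_lit 215)) (XT.nd (nat_lit 78) (nat_lit 0) (nat_lit 0) (XT.lf (nat_lit 0) (nat_lit 20365244280) (nat_lit 152) (nat_lit 5369601659) (nat_lit 0) (nat_lit 18381583518) (nat_lit 2) (nat_lit 5) (nat_lit 4) (nat_lit 4) (nat_lit 2) (nat_lit 4) (nat_lit 284) (nat_lit 222) (nat_lit 214)) (XT.lf (nat_lit 0) (nat_lit 24044442697) (nat_lit 152) (nat_lit 1515265558) (nat_lit 0) (nat_lit 21888102869) (nat_lit 2) (nat_lit 5) (nat_lit 4) (nat_lit 4) (nat_lit 2) (nat_lit 4) (nat_lit 285) (nat_lit 222) (nat_lit 213))))) (XT.nd (nat_lit 234) (nat_lit 0) (nat_lit 0) (XT.nd (nat_lit 78) (nat_lit 0) (nat_lit 0) (XT.lf (nat_lit 0) (nat_lit 2616491282) (nat_lit 76) (nat_lit 25373941083) (nat_lit 76) (nat_lit 23057713231) (nat_lit 1) (nat_lit 4) (nat_lit 2) (nat_lit 5) (nat_lit 2) (nat_lit 4) (nat_lit 286) (nat_lit 222) (nat_lit 212))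 (XT.nd (nat_lit 78) (nat_lit 0) (nat_lit 0) (XT.lf (nat_lit 0) (nat_lit 7007246076) (nat_lit 76) (nat_lit 25198722356) (nat_lit 76) (nat_lit 22734450036) (nat_lit 1) (nat_lit 4) (nat_lit 2) (nat_lit 5) (nat_lit 2) (nat_lit 4) (nat_lit 287) (nat_lit 222) (nat_lit 211)) (XT.lf (nat_lit 0) (nat_lit 11603226910) (nat_lit 76) (nat_lit 25074443787) (nat_lit 76) (nat_lit 22473093257) (nat_lit 1) (nat_lit 4) (nat_lit 2) (nat_lit 5) (nat_lit 2) (nat_lit 4) (nat_lit 288) (nat_lit 222) (nat_lit 210)))) (XT.nd (nat_lit 78) (nat_lit 0) (nat_lit 0) (XT.lf (nat_lit 0) (nat_lit 16431669228) (nat_lit 76) (nat_lit 25000368910) (nat_lit 76) (nat_lit 22272094112) (nat_lit 1) (nat_lit 4) (nat_lit 2) (nat_lit 5) (nat_lit 2) (nat_lit 4) (nat_lit 289) (nat_lit 222) (nat_lit 209)) (XT.nd (nat_lit 78) (nat_lit 0) (nat_lit 0) (XT.lf (nat_lit 0) (nat_lit 21521186019) (nat_lit 76) (nat_lit 24976058764) (nat_lit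 76) (nat_lit 22130261494) (nat_lit 1) (nat_lit 4) (nat_lit 2) (nat_lit 5) (nat_lit 2) (nat_lit 4) (nat_lit 290) (nat_lit 222) (nat_lit 208)) (XT.lf (nat_lit 0) (nat_lit 26901937384) (nat_lit 76) (nat_lit 25001369287) (nat_lit 76) (nat_lit 22046754915) (nat_lit 1) (nat_lit 4) (nat_lit 2) (nat_lit 5) (nat_lit 2) (nat_lit 4) (nat_lit 291) (nat_lit 222) (nat_lit 207)))))) (XT.nd (nat_lit 468) (nat_lit 0) (nat_lit 0) (XT.nd (nat_lit 234) (nat_lit 0) (nat_lit 0) (XT.nd (nat_lit 78) (nat_lit 0) (nat_lit 0) (XT.lf (nat_lit 0) (nat_lit 32605809257) (nat_lit 76) (nat_lit 25076450469) (nat_lit 76) (nat_lit 22021079520) (nat_lit 1) (nat_lit 4) (nat_lit 2) (nat_lit 5) (nat_lit 2) (nat_lit 4) (nat_lit 292) (nat_lit 222) (nat_lit 206)) (XT.nd (nat_lit 78) (nat_lit 0) (nat_lit 0) (XT.lf (nat_lit 0) (nat_lit 38666602359) (nat_lit 76) (nat_lit 25201747235) (nat_lit 76) (nat_lit 22053083159) (nat_lit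 1) (nat_lit 4) (nat_lit 2) (nat_lit 5) (nat_lit 2) (nat_lit 4) (nat_lit 293) (nat_lit 222) (nat_lit 205)) (XT.lf (nat_lit 0) (nat_lit 45120232503) (nat_lit 76) (nat_lit 25378002084) (nat_lit 76) (nat_lit 22142955483) (nat_lit 1) (nat_lit 4) (nat_lit 2) (nat_lit 5) (nat_lit 2) (nat_lit 4) (nat_lit 294) (nat_lit 222) (nat_lit 204)))) (XT.nd (nat_lit 78) (nat_lit 0) (nat_lit 0) (XT.lf (nat_lit 0) (nat_lit 52004943421) (nat_lit 76) (nat_lit 25606259489) (nat_lit 76) (nat_lit 22291229070) (nat_lit 1) (nat_lit 4) (nat_lit 2) (nat_lit 5) (nat_lit 2) (nat_lit 4) (nat_lit 295) (nat_lit 222) (nat_lit 203)) (XT.nd (nat_lit 78) (nat_lit 0) (nat_lit 0) (XT.lf (nat_lit 0) (nat_lit 59361533402) (nat_lit 76) (nat_lit 25887872087) (nat_lit 76) (nat_lit 22498782576) (nat_lit 1) (nat_lit 4) (nat_lit 2) (nat_lit 5) (nat_lit 2) (nat_lit 4) (nat_lit 296) (nat_lit 222) (nat_lit 202)) (XT.lf (nat_lit 0)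 (nat_lit 67233597052) (nat_lit 76) (nat_lit 26224508694) (nat_lit 76) (nat_lit 22766845950) (nat_lit 1) (nat_lit 4) (nat_lit 2) (nat_lit 5) (nat_lit 2) (nat_lit 4) (nat_lit 297) (nat_lit 222) (nat_lit 201))))) (XT.nd (nat_lit 234) (nat_lit 0) (nat_lit 0) (XT.nd (nat_lit 78) (nat_lit 0) (nat_lit 0) (XT.lf (nat_lit 0) (nat_lit 75667783637) (nat_lit 76) (nat_lit 26618164192) (nat_lit 76) (nat_lit 23097007714) (nat_lit 1) (nat_lit 4) (nat_lit 2) (nat_lit 5) (nat_lit 2) (nat_lit 4) (nat_lit 298) (nat_lit 222) (nat_lit 200)) (XT.nd (nat_lit 78) (nat_lit 0) (nat_lit 0) (XT.lf (nat_lit 0) (nat_lit 84714073523) (nat_lit 76) (nat_lit 27071171355) (nat_lit 76) (nat_lit 23491224382) (nat_lit 1) (nat_lit 4) (nat_lit 2) (nat_lit 5) (nat_lit 2) (nat_lit 4) (nat_lit 299) (nat_lit 222) (nat_lit 199)) (XT.lf (nat_lit 0) (nat_lit 94426074353) (nat_lit 76) (nat_lit 27586214671) (nat_lit 76) (nat_lit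 23951832055) (nat_lit 1) (nat_lit 4) (nat_lit 2) (nat_lit 5) (nat_lit 2) (nat_lit 4) (nat_lit 300) (nat_lit 222) (nat_lit 198)))) (XT.nd (nat_lit 78) (nat_lit 0) (nat_lit 0) (XT.lf (nat_lit 0) (nat_lit 104861338724) (nat_lit 76) (nat_lit 28166346247) (nat_lit 76) (nat_lit 24481560257) (nat_lit 1) (nat_lit 4) (nat_lit 2) (nat_lit 5) (nat_lit 2) (nat_lit 4) (nat_lit 301) (nat_lit 222) (nat_lit 197)) (XT.nd (nat_lit 78) (nat_lit 0) (nat_lit 0) (XT.lf (nat_lit 0) (nat_lit 116081705241) (nat_lit 76) (nat_lit 28815003901) (nat_lit 76) (nat_lit 25083548121) (nat_lit 1) (nat_lit 4) (nat_lit 2) (nat_lit 5) (nat_lit 2) (nat_lit 4) (nat_lit 302) (nat_lit 222) (nat_lit 196)) (XT.lf (nat_lit 0) (nat_lit 128153664963) (nat_lit 76) (nat_lit 29536031529) (nat_lit 76) (nat_lit 25761362980) (nat_lit 1) (nat_lit 4) (nat_lit 2) (nat_lit 5) (nat_lit 2) (nat_lit 4) (nat_lit 303) (nat_lit 222) (nat_lit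 195))))))) (XT.nd (nat_lit 936) (nat_lit 0) (nat_lit 0) (XT.nd (nat_lit 468) (nat_lit 0) (nat_lit 0) (XT.nd (nat_lit 234) (nat_lit 0) (nat_lit 0) (XT.nd (nat_lit 78) (nat_lit 0) (nat_lit 0) (XT.lf (nat_lit 0) (nat_lit 141148755431) (nat_lit 76) (nat_lit 30333701888) (nat_lit 76) (nat_lit 26519021516) (nat_lit 1) (nat_lit 4) (nat_lit 2) (nat_lit 5) (nat_lit 2) (nat_lit 4) (nat_lit 304) (nat_lit 222) (nat_lit 194)) (XT.nd (nat_lit 78) (nat_lit 0) (nat_lit 0) (XT.lf (nat_lit 0) (nat_lit 155143984588) (nat_lit 76) (nat_lit 31212741913) (nat_lit 76) (nat_lit 27361013557) (nat_lit 1) (nat_lit 4) (nat_lit 2) (nat_lit 5) (nat_lit 2) (nat_lit 4) (nat_lit 305) (nat_lit 222) (nat_lit 193)) (XT.lf (nat_lit 0) (nat_lit 170222287125) (nat_lit 76) (nat_lit 32178360731) (nat_lit 76) (nat_lit 28292328686) (nat_lit 1) (nat_lit 4) (nat_lit 2) (nat_lit 5) (nat_lit 2) (nat_lit 4) (nat_lit 306) (nat_lit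 222) (nat_lit 192)))) (XT.nd (nat_lit 78) (nat_lit 0) (nat_lit 0) (XT.lf (nat_lit 0) (nat_lit 186473015946) (nat_lit 76) (nat_lit 33236280526) (nat_lit 76) (nat_lit 29318485807) (nat_lit 1) (nat_lit 4) (nat_lit 2) (nat_lit 5) (nat_lit 2) (nat_lit 4) (nat_lit 307) (nat_lit 222) (nat_lit 191)) (XT.nd (nat_lit 78) (nat_lit 0) (nat_lit 0) (XT.lf (nat_lit 0) (nat_lit 203992471665) (nat_lit 76) (nat_lit 34392770455) (nat_lit 76) (nat_lit 30445565850) (nat_lit 1) (nat_lit 4) (nat_lit 2) (nat_lit 5) (nat_lit 2) (nat_lit 4) (nat_lit 308) (nat_lit 222) (nat_lit 190)) (XT.lf (nat_lit 0) (nat_lit 222884473281) (nat_lit 76) (nat_lit 35654683789) (nat_lit 76) (nat_lit 31680247810) (nat_lit 1) (nat_lit 4) (nat_lit 2) (nat_lit 5) (nat_lit 2) (nat_lit 4) (nat_lit 309) (nat_lit 222) (nat_lit 189))))) (XT.nd (nat_lit 234) (nat_lit 0) (nat_lit 0) (XT.nd (nat_lit 78) (nat_lit 0) (nat_lit 0) (XT.lf (nat_lit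 0) (nat_lit 243260973395) (nat_lit 76) (nat_lit 37029498534) (nat_lit 76) (nat_lit 33029848320) (nat_lit 1) (nat_lit 4) (nat_lit 2) (nat_lit 5) (nat_lit 2) (nat_lit 4) (nat_lit 310) (nat_lit 222) (nat_lit 188)) (XT.nd (nat_lit 78) (nat_lit 0) (nat_lit 0) (XT.lf (nat_lit 0) (nat_lit 265242721638) (nat_lit 76) (nat_lit 38525361740) (nat_lit 76) (nat_lit 34502365012) (nat_lit 1) (nat_lit 4) (nat_lit 2) (nat_lit 5) (nat_lit 2) (nat_lit 4) (nat_lit 311) (nat_lit 222) (nat_lit 187)) (XT.lf (nat_lit 0) (nat_lit 288959980221) (nat_lit 76) (nat_lit 40151137782) (nat_lit 76) (nat_lit 36106523911) (nat_lit 1) (nat_lit 4) (nat_lit 2) (nat_lit 5) (nat_lit 2) (nat_lit 4) (nat_lit 312) (nat_lit 222) (nat_lit 186)))) (XT.nd (nat_lit 78) (nat_lit 0) (nat_lit 0) (XT.lf (nat_lit 0) (nat_lit 314553295862) (nat_lit 76) (nat_lit 41916460888) (nat_lit 76) (nat_lit 37851831144) (nat_lit 1) (nat_lit 4) (nat_lit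 2) (nat_lit 5) (nat_lit 2) (nat_lit 4) (nat_lit 313) (nat_lit 222) (nat_lit 185)) (XT.nd (nat_lit 78) (nat_lit 0) (nat_lit 0) (XT.lf (nat_lit 0) (nat_lit 342174332653) (nat_lit 76) (nat_lit 43831792233) (nat_lit 76) (nat_lit 39748629273) (nat_lit 1) (nat_lit 4) (nat_lit 2) (nat_lit 5) (nat_lit 2) (nat_lit 4) (nat_lit 314) (nat_lit 222) (nat_lit 184)) (XT.lf (nat_lit 0) (nat_lit 371986770813) (nat_lit 76) (nat_lit 45908481927) (nat_lit 76) (nat_lit 41808158582) (nat_lit 1) (nat_lit 4) (nat_lit 2) (nat_lit 5) (nat_lit 2) (nat_lit 4) (nat_lit 315) (nat_lit 222) (nat_lit 183)))))) (XT.nd (nat_lit 468) (nat_lit 0) (nat_lit 0) (XT.nd (nat_lit 234) (nat_lit 0) (nat_lit 0) (XT.nd (nat_lit 78) (nat_lit 0) (nat_lit 0) (XT.lf (nat_lit 0) (nat_lit 404167276642) (nat_lit 76) (nat_lit 48158836281) (nat_lit 76) (nat_lit 44042623690) (nat_lit 1) (nat_lit 4) (nat_lit 2) (nat_lit 5) (nat_lit 2) (nat_lit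 4) (nat_lit 316) (nat_lit 222) (nat_lit 182)) (XT.nd (nat_lit 78) (nat_lit 0) (nat_lit 0) (XT.lf (nat_lit 0) (nat_lit 438906549433) (nat_lit 76) (nat_lit 50596190727) (nat_lit 76) (nat_lit 46465265872) (nat_lit 1) (nat_lit 4) (nat_lit 2) (nat_lit 5) (nat_lit 2) (nat_lit 4) (nat_lit 317) (nat_lit 222) (nat_lit 181)) (XT.lf (nat_lit 0) (nat_lit 476410451545) (nat_lit 76) (nat_lit 53234988847) (nat_lit 76) (nat_lit 49090441525) (nat_lit 1) (nat_lit 4) (nat_lit 2) (nat_lit 5) (nat_lit 2) (nat_lit 4) (nat_lit 318) (nat_lit 222) (nat_lit 180)))) (XT.nd (nat_lit 78) (nat_lit 0) (nat_lit 0) (XT.lf (nat_lit 0) (nat_lit 516901228321) (nat_lit 76) (nat_lit 56090867964) (nat_lit 76) (nat_lit 51933707247) (nat_lit 1) (nat_lit 4) (nat_lit 2) (nat_lit 5) (nat_lit 2) (nat_lit 4) (nat_lit 319) (nat_lit 222) (nat_lit 179)) (XT.nd (nat_lit 78) (nat_lit 0) (nat_lit 0) (XT.lf (nat_lit 0) (nat_lit 560618825108)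 (nat_lit 76) (nat_lit 59180751805) (nat_lit 76) (nat_lit 55011912018) (nat_lit 1) (nat_lit 4) (nat_lit 2) (nat_lit 5) (nat_lit 2) (nat_lit 4) (nat_lit 320) (nat_lit 222) (nat_lit 178)) (XT.lf (nat_lit 0) (nat_lit 607822309144) (nat_lit 76) (nat_lit 62522950793) (nat_lit 76) (nat_lit 58343297054) (nat_lit 1) (nat_lit 4) (nat_lit 2) (nat_lit 5) (nat_lit 2) (nat_lit 4) (nat_lit 321) (nat_lit 222) (nat_lit 177))))) (XT.nd (nat_lit 234) (nat_lit 0) (nat_lit 0) (XT.nd (nat_lit 78) (nat_lit 0) (nat_lit 0) (XT.lf (nat_lit 0) (nat_lit 658791404780) (nat_lit 76) (nat_lit 66137270553) (nat_lit 76) (nat_lit 61947603893) (nat_lit 1) (nat_lit 4) (nat_lit 2) (nat_lit 5) (nat_lit 2) (nat_lit 4) (nat_lit 322) (nat_lit 222) (nat_lit 176)) (XT.nd (nat_lit 78) (nat_lit 0) (nat_lit 0) (XT.lf (nat_lit 0) (nat_lit 713828151101) (nat_lit 76) (nat_lit 70045129275) (nat_lit 76) (nat_lit 65846191393) (nat_lit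 1) (nat_lit 4) (nat_lit 2) (nat_lit 5) (nat_lit 2) (nat_lit 4) (nat_lit 323) (nat_lit 222) (nat_lit 175)) (XT.lf (nat_lit 0) (nat_lit 773258691788) (nat_lit 76) (nat_lit 74269684640) (nat_lit 76) (nat_lit 70062162293) (nat_lit 1) (nat_lit 4) (nat_lit 2) (nat_lit 5) (nat_lit 2) (nat_lit 4) (nat_lit 324) (nat_lit 222) (nat_lit 174)))) (XT.nd (nat_lit 78) (nat_lit 0) (nat_lit 0) (XT.lf (nat_lit 0) (nat_lit 837435207824) (nat_lit 76) (nat_lit 78835971051) (nat_lit 76) (nat_lit 74620500125) (nat_lit 1) (nat_lit 4) (nat_lit 2) (nat_lit 5) (nat_lit 2) (nat_lit 4) (nat_lit 325) (nat_lit 222) (nat_lit 173)) (XT.nd (nat_lit 78) (nat_lit 0) (nat_lit 0) (XT.lf (nat_lit 0) (nat_lit 906738004489) (nat_lit 76) (nat_lit 83771047982) (nat_lit 76) (nat_lit 79548217262) (nat_lit 1) (nat_lit 4) (nat_lit 2) (nat_lit 5) (nat_lit 2) (nat_lit 4) (nat_lit 326) (nat_lit 222) (nat_lit 172)) (XT.lf (nat_lit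 0) (nat_lit 981577765022) (nat_lit 76) (nat_lit 89104160334) (nat_lit 76) (nat_lit 84874514989) (nat_lit 1) (nat_lit 4) (nat_lit 2) (nat_lit 5) (nat_lit 2) (nat_lit 4) (nat_lit 327) (nat_lit 222) (nat_lit 171))))))))
noncomputable def xc21 : XT := (XT.nd (nat_lit 34398) (nat_lit 0) (nat_lit 0) (XT.nd (nat_lit 33462) (nat_lit 0) (nat_lit 0) (XT.nd (nat_lit 468) (nat_lit 0) (nat_lit 0) (XT.nd (nat_lit 234) (nat_lit 0) (nat_lit 0) (XT.nd (nat_lit 78) (nat_lit 0) (nat_lit 0) (XT.lf (nat_lit 0) (nat_lit 1062397984301) (nat_lit 76) (nat_lit 94866911736) (nat_lit 76) (nat_lit 90630956553) (nat_lit 1) (nat_lit 4) (nat_lit 2) (nat_lit 5) (nat_lit 2) (nat_lit 4) (nat_lit 328) (nat_lit 222) (nat_lit 170)) (XT.nd (nat_lit 78) (nat_lit 0) (nat_lit 0) (XT.lf (nat_lit 0) (nat_lit 1149677596958) (nat_lit 76) (nat_lit 101093451826) (nat_lit 76) (nat_lit 96851654200) (nat_lit 1) (nat_lit 4) (nat_lit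 2) (nat_lit 5) (nat_lit 2) (nat_lit 4) (nat_lit 329) (nat_lit 222) (nat_lit 169)) (XT.lf (nat_lit 0) (nat_lit 1243933815513) (nat_lit 76) (nat_lit 107820678619) (nat_lit 76) (nat_lit 103573471324) (nat_lit 1) (nat_lit 4) (nat_lit 2) (nat_lit 5) (nat_lit 2) (nat_lit 4) (nat_lit 330) (nat_lit 222) (nat_lit 168)))) (XT.nd (nat_lit 78) (nat_lit 0) (nat_lit 0) (XT.lf (nat_lit 0) (nat_lit 1345725195335) (nat_lit 76) (nat_lit 115088457162) (nat_lit 76) (nat_lit 110836240915) (nat_lit 1) (nat_lit 4) (nat_lit 2) (nat_lit 5) (nat_lit 2) (nat_lit 4) (nat_lit 331) (nat_lit 222) (nat_lit 167)) (XT.nd (nat_lit 78) (nat_lit 0) (nat_lit 0) (XT.lf (nat_lit 0) (nat_lit 1455654944601) (nat_lit 76) (nat_lit 122939855774) (nat_lit 76) (nat_lit 118683001607) (nat_lit 1) (nat_lit 4) (nat_lit 2) (nat_lit 5) (nat_lit 2) (nat_lit 4) (nat_lit 332) (nat_lit 222) (nat_lit 166)) (XT.lf (nat_lit 0) (nat_lit 1574374498862)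 (nat_lit 76) (nat_lit 131421401260) (nat_lit 76) (nat_lit 127160252723) (nat_lit 1) (nat_lit 4) (nat_lit 2) (nat_lit 5) (nat_lit 2) (nat_lit 4) (nat_lit 333) (nat_lit 222) (nat_lit 165))))) (XT.nd (nat_lit 234) (nat_lit 0) (nat_lit 0) (XT.nd (nat_lit 78) (nat_lit 0) (nat_lit 0) (XT.lf (nat_lit 0) (nat_lit 1702587381402) (nat_lit 76) (nat_lit 140583354630) (nat_lit 76) (nat_lit 136318229826) (nat_lit 1) (nat_lit 4) (nat_lit 2) (nat_lit 5) (nat_lit 2) (nat_lit 4) (nat_lit 334) (nat_lit 222) (nat_lit 164)) (XT.nd (nat_lit 78) (nat_lit 0) (nat_lit 0) (XT.lf (nat_lit 0) (nat_lit 1841053372266) (nat_lit 76) (nat_lit 150480008943) (nat_lit 76) (nat_lit 146211202408) (nat_lit 1) (nat_lit 4) (nat_lit 2) (nat_lit 5) (nat_lit 2) (nat_lit 4) (nat_lit 335) (nat_lit 222) (nat_lit 163)) (XT.lf (nat_lit 0) (nat_lit 1990593010659) (nat_lit 76) (nat_lit 161170011038) (nat_lit 76) (nat_lit 156897795494)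 (nat_lit 1) (nat_lit 4) (nat_lit 2) (nat_lit 5) (nat_lit 2) (nat_lit 4) (nat_lit 336) (nat_lit 222) (nat_lit 162)))) (XT.nd (nat_lit 32604) (nat_lit 0) (nat_lit 228) (XT.lf (nat_lit 0) (nat_lit 2152092457402) (nat_lit 76) (nat_lit 172716709075) (nat_lit 76) (nat_lit 168441337042) (nat_lit 1) (nat_lit 4) (nat_lit 2) (nat_lit 5) (nat_lit 2) (nat_lit 4) (nat_lit 337) (nat_lit 222) (nat_lit 161)) (XT.nd (nat_lit 78) (nat_lit 0) (nat_lit 0) (XT.lf (nat_lit 0) (nat_lit 2159539970) (nat_lit 76) (nat_lit 4449527239) (nat_lit 76) (nat_lit 4449527239) (nat_lit 4) (nat_lit 4) (nat_lit 5) (nat_lit 5) (nat_lit 5) (nat_lit 4) (nat_lit 274) (nat_lit 223) (nat_lit 223)) (XT.lf (nat_lit 0) (nat_lit 10550214454) (nat_lit 76) (nat_lit 6713654283) (nat_lit 76) (nat_lit 6340853131) (nat_lit 4) (nat_lit 4) (nat_lit 5) (nat_lit 5) (nat_lit 5) (nat_lit 4) (nat_lit 275) (nat_lit 223) (nat_lit 222)))))) (XT.nd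 (nat_lit 468) (nat_lit 76) (nat_lit 0) (XT.nd (nat_lit 234) (nat_lit 0) (nat_lit 0) (XT.nd (nat_lit 78) (nat_lit 152) (nat_lit 0) (XT.lf (nat_lit 0) (nat_lit 16992871495) (nat_lit 76) (nat_lit 4475057670) (nat_lit 76) (nat_lit 3757070264) (nat_lit 4) (nat_lit 4) (nat_lit 5) (nat_lit 5) (nat_lit 5) (nat_lit 4) (nat_lit 276) (nat_lit 223) (nat_lit 221)) (XT.nd (nat_lit 78) (nat_lit 152) (nat_lit 0) (XT.lf (nat_lit 0) (nat_lit 23685229772) (nat_lit 76) (nat_lit 2169998879) (nat_lit 76) (nat_lit 1132394573) (nat_lit 4) (nat_lit 4) (nat_lit 5) (nat_lit 5) (nat_lit 5) (nat_lit 4) (nat_lit 277) (nat_lit 223) (nat_lit 220)) (XT.lf (nat_lit 0) (nat_lit 1522244899) (nat_lit 152) (nat_lit 27086254306) (nat_lit 0) (nat_lit 287480195) (nat_lit 2) (nat_lit 5) (nat_lit 4) (nat_lit 4) (nat_lit 2) (nat_lit 4) (nat_lit 278) (nat_lit 223) (nat_lit 219)))) (XT.nd (nat_lit 78) (nat_lit 0) (nat_lit 0)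 (XT.lf (nat_lit 0) (nat_lit 4333512405) (nat_lit 152) (nat_lit 23776057080) (nat_lit 0) (nat_lit 2845025501) (nat_lit 2) (nat_lit 5) (nat_lit 4) (nat_lit 4) (nat_lit 2) (nat_lit 4) (nat_lit 279) (nat_lit 223) (nat_lit 218)) (XT.nd (nat_lit 78) (nat_lit 0) (nat_lit 0) (XT.lf (nat_lit 0) (nat_lit 7236749292) (nat_lit 152) (nat_lit 20438801397) (nat_lit 0) (nat_lit 5513334424) (nat_lit 2) (nat_lit 5) (nat_lit 4) (nat_lit 4) (nat_lit 2) (nat_lit 4) (nat_lit 280) (nat_lit 223) (nat_lit 217)) (XT.lf (nat_lit 0) (nat_lit 10249159925) (nat_lit 152) (nat_lit 17054710927) (nat_lit 0) (nat_lit 8308219165) (nat_lit 2) (nat_lit 5) (nat_lit 4) (nat_lit 4) (nat_lit 2) (nat_lit 4) (nat_lit 281) (nat_lit 223) (nat_lit 216))))) (XT.nd (nat_lit 234) (nat_lit 76) (nat_lit 0) (XT.nd (nat_lit 78) (nat_lit 0) (nat_lit 0) (XT.lf (nat_lit 0) (nat_lit 13388595627) (nat_lit 152) (nat_lit 13603731802) (nat_lit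 0) (nat_lit 11246242004) (nat_lit 2) (nat_lit 5) (nat_lit 4) (nat_lit 4) (nat_lit 2) (nat_lit 4) (nat_lit 282) (nat_lit 223) (nat_lit 215)) (XT.nd (nat_lit 78) (nat_lit 0) (nat_lit 0) (XT.lf (nat_lit 0) (nat_lit 16673660461) (nat_lit 152) (nat_lit 10065413774) (nat_lit 0) (nat_lit 14344813447) (nat_lit 2) (nat_lit 5) (nat_lit 4) (nat_lit 4) (nat_lit 2) (nat_lit 4) (nat_lit 283) (nat_lit 223) (nat_lit 214)) (XT.lf (nat_lit 0) (nat_lit 20123821479) (nat_lit 152) (nat_lit 6418789033) (nat_lit 0) (nat_lit 17622295398) (nat_lit 2) (nat_lit 5) (nat_lit 4) (nat_lit 4) (nat_lit 2) (nat_lit 4) (nat_lit 284) (nat_lit 223) (nat_lit 213)))) (XT.nd (nat_lit 78) (nat_lit 76) (nat_lit 0) (XT.lf (nat_lit 0) (nat_lit 23759524079) (nat_lit 152) (nat_lit 2642247950) (nat_lit 0) (nat_lit 21098109974) (nat_lit 2) (nat_lit 5) (nat_lit 4) (nat_lit 4) (nat_lit 2) (nat_lit 4) (nat_lit 285) (nat_lit 223) (nat_lit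 212)) (XT.nd (nat_lit 78) (nat_lit 0) (nat_lit 0) (XT.lf (nat_lit 0) (nat_lit 1354338471) (nat_lit 76) (nat_lit 26280546567) (nat_lit 76) (nat_lit 23471087994) (nat_lit 1) (nat_lit 4) (nat_lit 2) (nat_lit 5) (nat_lit 2) (nat_lit 4) (nat_lit 286) (nat_lit 223) (nat_lit 211)) (XT.lf (nat_lit 0) (nat_lit 5674884446) (nat_lit 76) (nat_lit 26136557482) (nat_lit 76) (nat_lit 23190020699) (nat_lit 1) (nat_lit 4) (nat_lit 2) (nat_lit 5) (nat_lit 2) (nat_lit 4) (nat_lit 287) (nat_lit 223) (nat_lit 210))))))) (XT.nd (nat_lit 936) (nat_lit 0) (nat_lit 0) (XT.nd (nat_lit 468) (nat_lit 0) (nat_lit 0) (XT.nd (nat_lit 234) (nat_lit 0) (nat_lit 0) (XT.nd (nat_lit 78) (nat_lit 0) (nat_lit 0) (XT.lf (nat_lit 0) (nat_lit 10205857115) (nat_lit 76) (nat_lit 26041195248) (nat_lit 76) (nat_lit 22967734197) (nat_lit 1) (nat_lit 4) (nat_lit 2) (nat_lit 5) (nat_lit 2) (nat_lit 4) (nat_lit 288) (nat_lit 223)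 (nat_lit 209)) (XT.nd (nat_lit 78) (nat_lit 0) (nat_lit 0) (XT.lf (nat_lit 0) (nat_lit 14974106686) (nat_lit 76) (nat_lit 25993894756) (nat_lit 76) (nat_lit 22802911234) (nat_lit 1) (nat_lit 4) (nat_lit 2) (nat_lit 5) (nat_lit 2) (nat_lit 4) (nat_lit 289) (nat_lit 223) (nat_lit 208)) (XT.lf (nat_lit 0) (nat_lit 20007889454) (nat_lit 76) (nat_lit 25994375707) (nat_lit 76) (nat_lit 22694575082) (nat_lit 1) (nat_lit 4) (nat_lit 2) (nat_lit 5) (nat_lit 2) (nat_lit 4) (nat_lit 290) (nat_lit 223) (nat_lit 207)))) (XT.nd (nat_lit 78) (nat_lit 0) (nat_lit 0) (XT.lf (nat_lit 0) (nat_lit 25337035241) (nat_lit 76) (nat_lit 26042640950) (nat_lit 76) (nat_lit 22642083748) (nat_lit 1) (nat_lit 4) (nat_lit 2) (nat_lit 5) (nat_lit 2) (nat_lit 4) (nat_lit 291) (nat_lit 223) (nat_lit 206)) (XT.nd (nat_lit 78) (nat_lit 0) (nat_lit 0) (XT.lf (nat_lit 0) (nat_lit 30993124172) (nat_lit 76) (nat_lit 26138976501)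 (nat_lit 76) (nat_lit 22645126173) (nat_lit 1) (nat_lit 4) (nat_lit 2) (nat_lit 5) (nat_lit 2) (nat_lit 4) (nat_lit 292) (nat_lit 223) (nat_lit 205)) (XT.lf (nat_lit 0) (nat_lit 37009673809) (nat_lit 76) (nat_lit 26283953239) (nat_lit 76) (nat_lit 22703720386) (nat_lit 1) (nat_lit 4) (nat_lit 2) (nat_lit 5) (nat_lit 2) (nat_lit 4) (nat_lit 293) (nat_lit 223) (nat_lit 204))))) (XT.nd (nat_lit 234) (nat_lit 0) (nat_lit 0) (XT.nd (nat_lit 78) (nat_lit 0) (nat_lit 0) (XT.lf (nat_lit 0) (nat_lit 43422337781) (nat_lit 76) (nat_lit 26478430284) (nat_lit 76) (nat_lit 22818213613) (nat_lit 1) (nat_lit 4) (nat_lit 2) (nat_lit 5) (nat_lit 2) (nat_lit 4) (nat_lit 294) (nat_lit 223) (nat_lit 203)) (XT.nd (nat_lit 78) (nat_lit 0) (nat_lit 0) (XT.lf (nat_lit 0) (nat_lit 50269117060) (nat_lit 76) (nat_lit 26723560094) (nat_lit 76) (nat_lit 22989284330) (nat_lit 1) (nat_lit 4) (nat_lit 2) (nat_lit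 5) (nat_lit 2) (nat_lit 4) (nat_lit 295) (nat_lit 223) (nat_lit 202)) (XT.lf (nat_lit 0) (nat_lit 57590585151) (nat_lit 76) (nat_lit 27020795288) (nat_lit 76) (nat_lit 23217946292) (nat_lit 1) (nat_lit 4) (nat_lit 2) (nat_lit 5) (nat_lit 2) (nat_lit 4) (nat_lit 296) (nat_lit 223) (nat_lit 201)))) (XT.nd (nat_lit 78) (nat_lit 0) (nat_lit 0) (XT.lf (nat_lit 0) (nat_lit 65430128534) (nat_lit 76) (nat_lit 27371897262) (nat_lit 76) (nat_lit 23505554531) (nat_lit 1) (nat_lit 4) (nat_lit 2) (nat_lit 5) (nat_lit 2) (nat_lit 4) (nat_lit 297) (nat_lit 223) (nat_lit 200)) (XT.nd (nat_lit 78) (nat_lit 0) (nat_lit 0) (XT.lf (nat_lit 0) (nat_lit 73834203760) (nat_lit 76) (nat_lit 27778946618) (nat_lit 76) (nat_lit 23853813393) (nat_lit 1) (nat_lit 4) (nat_lit 2) (nat_lit 5) (nat_lit 2) (nat_lit 4) (nat_lit 298) (nat_lit 223) (nat_lit 199)) (XT.lf (nat_lit 0) (nat_lit 82852612758) (nat_lit 76) (nat_lit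 28244355503) (nat_lit 76) (nat_lit 24264786633) (nat_lit 1) (nat_lit 4) (nat_lit 2) (nat_lit 5) (nat_lit 2) (nat_lit 4) (nat_lit 299) (nat_lit 223) (nat_lit 198)))))) (XT.nd (nat_lit 468) (nat_lit 0) (nat_lit 0) (XT.nd (nat_lit 234) (nat_lit 0) (nat_lit 0) (XT.nd (nat_lit 78) (nat_lit 0) (nat_lit 0) (XT.lf (nat_lit 0) (nat_lit 92538797951) (nat_lit 76) (nat_lit 28770881893) (nat_lit 76) (nat_lit 24740909650) (nat_lit 1) (nat_lit 4) (nat_lit 2) (nat_lit 5) (nat_lit 2) (nat_lit 4) (nat_lit 300) (nat_lit 223) (nat_lit 197)) (XT.nd (nat_lit 78) (nat_lit 0) (nat_lit 0) (XT.lf (nat_lit 0) (nat_lit 102950158955) (nat_lit 76) (nat_lit 29361645946) (nat_lit 76) (nat_lit 25285003913) (nat_lit 1) (nat_lit 4) (nat_lit 2) (nat_lit 5) (nat_lit 2) (nat_lit 4) (nat_lit 301) (nat_lit 223) (nat_lit 196)) (XT.lf (nat_lit 0) (nat_lit 114148392724) (nat_lit 76) (nat_lit 30020148485) (nat_lit 76) (nat_lit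 25900293683) (nat_lit 1) (nat_lit 4) (nat_lit 2) (nat_lit 5) (nat_lit 2) (nat_lit 4) (nat_lit 302) (nat_lit 223) (nat_lit 195)))) (XT.nd (nat_lit 78) (nat_lit 0) (nat_lit 0) (XT.lf (nat_lit 0) (nat_lit 126199859161) (nat_lit 76) (nat_lit 30750291748) (nat_lit 76) (nat_lit 26590425123) (nat_lit 1) (nat_lit 4) (nat_lit 2) (nat_lit 5) (nat_lit 2) (nat_lit 4) (nat_lit 303) (nat_lit 223) (nat_lit 194)) (XT.nd (nat_lit 78) (nat_lit 0) (nat_lit 0) (XT.lf (nat_lit 0) (nat_lit 139175974366) (nat_lit 76) (nat_lit 31556402509) (nat_lit 76) (nat_lit 27359487901) (nat_lit 1) (nat_lit 4) (nat_lit 2) (nat_lit 5) (nat_lit 2) (nat_lit 4) (nat_lit 304) (nat_lit 223) (nat_lit 193)) (XT.lf (nat_lit 0) (nat_lit 153153633834) (nat_lit 76) (nat_lit 32443257722) (nat_lit 76) (nat_lit 28212039425) (nat_lit 1) (nat_lit 4) (nat_lit 2) (nat_lit 5) (nat_lit 2) (nat_lit 4) (nat_lit 305) (nat_lit 223) (nat_lit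 192))))) (XT.nd (nat_lit 234) (nat_lit 0) (nat_lit 0) (XT.nd (nat_lit 78) (nat_lit 0) (nat_lit 0) (XT.lf (nat_lit 0) (nat_lit 168215668140) (nat_lit 76) (nat_lit 33416112825) (nat_lit 76) (nat_lit 29153131853) (nat_lit 1) (nat_lit 4) (nat_lit 2) (nat_lit 5) (nat_lit 2) (nat_lit 4) (nat_lit 306) (nat_lit 223) (nat_lit 191)) (XT.nd (nat_lit 78) (nat_lit 0) (nat_lit 0) (XT.lf (nat_lit 0) (nat_lit 184451333785) (nat_lit 76) (nat_lit 34480732885) (nat_lit 76) (nat_lit 30188342028) (nat_lit 1) (nat_lit 4) (nat_lit 2) (nat_lit 5) (nat_lit 2) (nat_lit 4) (nat_lit 307) (nat_lit 223) (nat_lit 190)) (XT.lf (nat_lit 0) (nat_lit 201956842119) (nat_lit 76) (nat_lit 35643426761) (nat_lit 76) (nat_lit 31323804529) (nat_lit 1) (nat_lit 4) (nat_lit 2) (nat_lit 5) (nat_lit 2) (nat_lit 4) (nat_lit 308) (nat_lit 223) (nat_lit 189)))) (XT.nd (nat_lit 78) (nat_lit 0) (nat_lit 0) (XT.lf (nat_lit 0) (nat_lit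 220835929489) (nat_lit 76) (nat_lit 36911084491) (nat_lit 76) (nat_lit 32566248024) (nat_lit 1) (nat_lit 4) (nat_lit 2) (nat_lit 5) (nat_lit 2) (nat_lit 4) (nat_lit 309) (nat_lit 223) (nat_lit 188)) (XT.nd (nat_lit 78) (nat_lit 0) (nat_lit 0) (XT.lf (nat_lit 0) (nat_lit 241200471969) (nat_lit 76) (nat_lit 38291218121) (nat_lit 76) (nat_lit 33923035140) (nat_lit 1) (nat_lit 4) (nat_lit 2) (nat_lit 5) (nat_lit 2) (nat_lit 4) (nat_lit 310) (nat_lit 223) (nat_lit 187)) (XT.lf (nat_lit 0) (nat_lit 263171148327) (nat_lit 76) (nat_lit 39792006221) (nat_lit 76) (nat_lit 35402206098) (nat_lit 1) (nat_lit 4) (nat_lit 2) (nat_lit 5) (nat_lit 2) (nat_lit 4) (nat_lit 311) (nat_lit 223) (nat_lit 186))))))))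
noncomputable def xc22 : XT := (XT.nd (nat_lit 1794) (nat_lit 0) (nat_lit 0) (XT.nd (nat_lit 858) (nat_lit 0) (nat_lit 0) (XT.nd (nat_lit 390) (nat_lit 0) (nat_lit 0) (XT.nd (nat_lit 156) (nat_lit 0) (nat_lit 0) (XT.nd (nat_lit 78) (nat_lit 0) (nat_lit 0) (XT.lf (nat_lit 0) (nat_lit 286878155165) (nat_lit 76) (nat_lit 41422342351) (nat_lit 76) (nat_lit 37012526354) (nat_lit 1) (nat_lit 4) (nat_lit 2) (nat_lit 5) (nat_lit 2) (nat_lit 4) (nat_lit 312) (nat_lit 223) (nat_lit 185)) (XT.lf (nat_lit 0) (nat_lit 312461978450) (nat_lit 76) (nat_lit 43191887760) (nat_lit 76) (nat_lit 38763538547) (nat_lit 1) (nat_lit 4) (nat_lit 2) (nat_lit 5) (nat_lit 2) (nat_lit 4) (nat_lit 313) (nat_lit 223) (nat_lit 184))) (XT.nd (nat_lit 78) (nat_lit 0) (nat_lit 0) (XT.lf (nat_lit 0) (nat_lit 340074226023) (nat_lit 76) (nat_lit 45111128644) (nat_lit 76) (nat_lit 40665619046) (nat_lit 1) (nat_lit 4) (nat_lit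 2) (nat_lit 5) (nat_lit 2) (nat_lit 4) (nat_lit 314) (nat_lit 223) (nat_lit 183)) (XT.nd (nat_lit 78) (nat_lit 0) (nat_lit 0) (XT.lf (nat_lit 0) (nat_lit 369878526017) (nat_lit 76) (nat_lit 47191438282) (nat_lit 76) (nat_lit 42730039439) (nat_lit 1) (nat_lit 4) (nat_lit 2) (nat_lit 5) (nat_lit 2) (nat_lit 4) (nat_lit 315) (nat_lit 223) (nat_lit 182)) (XT.lf (nat_lit 0) (nat_lit 402051496508) (nat_lit 76) (nat_lit 49445144436) (nat_lit 76) (nat_lit 44969033328) (nat_lit 1) (nat_lit 4) (nat_lit 2) (nat_lit 5) (nat_lit 2) (nat_lit 4) (nat_lit 316) (nat_lit 223) (nat_lit 181))))) (XT.nd (nat_lit 234) (nat_lit 0) (nat_lit 0) (XT.nd (nat_lit 78) (nat_lit 0) (nat_lit 0) (XT.lf (nat_lit 0) (nat_lit 436783792134) (nat_lit 76) (nat_lit 51885602400) (nat_lit 76) (nat_lit 47395868826) (nat_lit 1) (nat_lit 4) (nat_lit 2) (nat_lit 5) (nat_lit 2) (nat_lit 4) (nat_lit 317) (nat_lit 223) (nat_lit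 180)) (XT.nd (nat_lit 78) (nat_lit 0) (nat_lit 0) (XT.lf (nat_lit 0) (nat_lit 474281233907) (nat_lit 76) (nat_lit 54527274149) (nat_lit 76) (nat_lit 50024927179) (nat_lit 1) (nat_lit 4) (nat_lit 2) (nat_lit 5) (nat_lit 2) (nat_lit 4) (nat_lit 318) (nat_lit 223) (nat_lit 179)) (XT.lf (nat_lit 0) (nat_lit 514766028889) (nat_lit 76) (nat_lit 57385814032) (nat_lit 76) (nat_lit 52871787993) (nat_lit 1) (nat_lit 4) (nat_lit 2) (nat_lit 5) (nat_lit 2) (nat_lit 4) (nat_lit 319) (nat_lit 223) (nat_lit 178)))) (XT.nd (nat_lit 78) (nat_lit 0) (nat_lit 0) (XT.lf (nat_lit 0) (nat_lit 558478086977) (nat_lit 76) (nat_lit 60478161547) (nat_lit 76) (nat_lit 55953321554) (nat_lit 1) (nat_lit 4) (nat_lit 2) (nat_lit 5) (nat_lit 2) (nat_lit 4) (nat_lit 320) (nat_lit 223) (nat_lit 177)) (XT.nd (nat_lit 78) (nat_lit 0) (nat_lit 0) (XT.lf (nat_lit 0) (nat_lit 605676442589) (nat_lit 76) (nat_lit 63822641714)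 (nat_lit 76) (nat_lit 59287788802) (nat_lit 1) (nat_lit 4) (nat_lit 2) (nat_lit 5) (nat_lit 2) (nat_lit 4) (nat_lit 321) (nat_lit 223) (nat_lit 176)) (XT.lf (nat_lit 0) (nat_lit 656640789683) (nat_lit 76) (nat_lit 67439073676) (nat_lit 76) (nat_lit 62894949542) (nat_lit 1) (nat_lit 4) (nat_lit 2) (nat_lit 5) (nat_lit 2) (nat_lit 4) (nat_lit 322) (nat_lit 223) (nat_lit 175)))))) (XT.nd (nat_lit 468) (nat_lit 0) (nat_lit 0) (XT.nd (nat_lit 234) (nat_lit 0) (nat_lit 0) (XT.nd (nat_lit 78) (nat_lit 0) (nat_lit 0) (XT.lf (nat_lit 0) (nat_lit 711673139206) (nat_lit 76) (nat_lit 71348888141) (nat_lit 76) (nat_lit 66796179542) (nat_lit 1) (nat_lit 4) (nat_lit 2) (nat_lit 5) (nat_lit 2) (nat_lit 4) (nat_lit 323) (nat_lit 223) (nat_lit 174)) (XT.nd (nat_lit 78) (nat_lit 0) (nat_lit 0) (XT.lf (nat_lit 0) (nat_lit 771099608785) (nat_lit 76) (nat_lit 75575254379) (nat_lit 76) (nat_lit 71014597202)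 (nat_lit 1) (nat_lit 4) (nat_lit 2) (nat_lit 5) (nat_lit 2) (nat_lit 4) (nat_lit 324) (nat_lit 223) (nat_lit 173)) (XT.lf (nat_lit 0) (nat_lit 835272355276) (nat_lit 76) (nat_lit 80143217525) (nat_lit 76) (nat_lit 75575200552) (nat_lit 1) (nat_lit 4) (nat_lit 2) (nat_lit 5) (nat_lit 2) (nat_lit 4) (nat_lit 325) (nat_lit 223) (nat_lit 172)))) (XT.nd (nat_lit 78) (nat_lit 0) (nat_lit 0) (XT.lf (nat_lit 0) (nat_lit 904571661621) (nat_lit 76) (nat_lit 85079846988) (nat_lit 76) (nat_lit 80505015390) (nat_lit 1) (nat_lit 4) (nat_lit 2) (nat_lit 5) (nat_lit 2) (nat_lit 4) (nat_lit 326) (nat_lit 223) (nat_lit 171)) (XT.nd (nat_lit 78) (nat_lit 0) (nat_lit 0) (XT.lf (nat_lit 0) (nat_lit 979408190377) (nat_lit 76) (nat_lit 90414396870) (nat_lit 76) (nat_lit 85833255434) (nat_lit 1) (nat_lit 4) (nat_lit 2) (nat_lit 5) (nat_lit 2) (nat_lit 4) (nat_lit 327) (nat_lit 223) (nat_lit 170)) (XT.lf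 (nat_lit 0) (nat_lit 1060225417269) (nat_lit 76) (nat_lit 96178479318) (nat_lit 76) (nat_lit 91591495440) (nat_lit 1) (nat_lit 4) (nat_lit 2) (nat_lit 5) (nat_lit 2) (nat_lit 4) (nat_lit 328) (nat_lit 223) (nat_lit 169))))) (XT.nd (nat_lit 234) (nat_lit 0) (nat_lit 0) (XT.nd (nat_lit 78) (nat_lit 0) (nat_lit 0) (XT.lf (nat_lit 0) (nat_lit 1147502259198) (nat_lit 76) (nat_lit 102406251858) (nat_lit 76) (nat_lit 97813858310) (nat_lit 1) (nat_lit 4) (nat_lit 2) (nat_lit 5) (nat_lit 2) (nat_lit 4) (nat_lit 329) (nat_lit 223) (nat_lit 168)) (XT.nd (nat_lit 78) (nat_lit 0) (nat_lit 0) (XT.lf (nat_lit 0) (nat_lit 1241755912264) (nat_lit 76) (nat_lit 109134619808) (nat_lit 76) (nat_lit 104537217307) (nat_lit 1) (nat_lit 4) (nat_lit 2) (nat_lit 5) (nat_lit 2) (nat_lit 4) (nat_lit 330) (nat_lit 223) (nat_lit 167)) (XT.lf (nat_lit 0) (nat_lit 1343544916633) (nat_lit 76) (nat_lit 116403454978)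 (nat_lit 76) (nat_lit 111801414559) (nat_lit 1) (nat_lit 4) (nat_lit 2) (nat_lit 5) (nat_lit 2) (nat_lit 4) (nat_lit 331) (nat_lit 223) (nat_lit 166)))) (XT.nd (nat_lit 78) (nat_lit 0) (nat_lit 0) (XT.lf (nat_lit 0) (nat_lit 1453472466406) (nat_lit 76) (nat_lit 124255831948) (nat_lit 76) (nat_lit 119649497159) (nat_lit 1) (nat_lit 4) (nat_lit 2) (nat_lit 5) (nat_lit 2) (nat_lit 4) (nat_lit 332) (nat_lit 223) (nat_lit 165)) (XT.nd (nat_lit 78) (nat_lit 0) (nat_lit 0) (XT.lf (nat_lit 0) (nat_lit 1572189984098) (nat_lit 76) (nat_lit 132738283321) (nat_lit 76) (nat_lit 128127972264) (nat_lit 1) (nat_lit 4) (nat_lit 2) (nat_lit 5) (nat_lit 2) (nat_lit 4) (nat_lit 333) (nat_lit 223) (nat_lit 164)) (XT.lf (nat_lit 0) (nat_lit 1700400980927) (nat_lit 76) (nat_lit 141901075477) (nat_lit 76) (nat_lit 137287082690) (nat_lit 1) (nat_lit 4) (nat_lit 2) (nat_lit 5) (nat_lit 2) (nat_lit 4) (nat_lit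 334) (nat_lit 223) (nat_lit 163))))))) (XT.nd (nat_lit 33306) (nat_lit 0) (nat_lit 0) (XT.nd (nat_lit 32838) (nat_lit 0) (nat_lit 76) (XT.nd (nat_lit 32604) (nat_lit 0) (nat_lit 228) (XT.nd (nat_lit 78) (nat_lit 0) (nat_lit 0) (XT.lf (nat_lit 0) (nat_lit 1838865225762) (nat_lit 76) (nat_lit 151798506442) (nat_lit 76) (nat_lit 147181104646) (nat_lit 1) (nat_lit 4) (nat_lit 2) (nat_lit 5) (nat_lit 2) (nat_lit 4) (nat_lit 335) (nat_lit 223) (nat_lit 162)) (XT.nd (nat_lit 78) (nat_lit 0) (nat_lit 0) (XT.lf (nat_lit 0) (nat_lit 1988403247462) (nat_lit 76) (nat_lit 162489227660) (nat_lit 76) (nat_lit 157868669373) (nat_lit 1) (nat_lit 4) (nat_lit 2) (nat_lit 5) (nat_lit 2) (nat_lit 4) (nat_lit 336) (nat_lit 223) (nat_lit 161)) (XT.lf (nat_lit 0) (nat_lit 2149901197267) (nat_lit 76) (nat_lit 174036591552) (nat_lit 76) (nat_lit 169413110590) (nat_lit 1) (nat_lit 4) (nat_lit 2) (nat_lit 5)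 (nat_lit 2) (nat_lit 4) (nat_lit 337) (nat_lit 223) (nat_lit 160)))) (XT.nd (nat_lit 78) (nat_lit 76) (nat_lit 0) (XT.lf (nat_lit 0) (nat_lit 3091059864) (nat_lit 152) (nat_lit 3559733192) (nat_lit 0) (nat_lit 3091059864) (nat_lit 5) (nat_lit 5) (nat_lit 7) (nat_lit 4) (nat_lit 5) (nat_lit 4) (nat_lit 272) (nat_lit 224) (nat_lit 224)) (XT.nd (nat_lit 78) (nat_lit 76) (nat_lit 0) (XT.lf (nat_lit 0) (nat_lit 9751162620) (nat_lit 152) (nat_lit 1650542638) (nat_lit 0) (nat_lit 9348537375) (nat_lit 5) (nat_lit 5) (nat_lit 7) (nat_lit 4) (nat_lit 5) (nat_lit 4) (nat_lit 273) (nat_lit 224) (nat_lit 223)) (XT.lf (nat_lit 0) (nat_lit 4170077203) (nat_lit 76) (nat_lit 9364836668) (nat_lit 76) (nat_lit 8589410270) (nat_lit 4) (nat_lit 4) (nat_lit 5) (nat_lit 5) (nat_lit 5) (nat_lit 4) (nat_lit 274) (nat_lit 224) (nat_lit 222))))) (XT.nd (nat_lit 234) (nat_lit 152) (nat_lit 0) (XT.nd (nat_lit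 78) (nat_lit 0) (nat_lit 0) (XT.lf (nat_lit 0) (nat_lit 10263246220) (nat_lit 76) (nat_lit 7237915125) (nat_lit 76) (nat_lit 6117302475) (nat_lit 4) (nat_lit 4) (nat_lit 5) (nat_lit 5) (nat_lit 5) (nat_lit 4) (nat_lit 275) (nat_lit 224) (nat_lit 221)) (XT.nd (nat_lit 78) (nat_lit 0) (nat_lit 0) (XT.lf (nat_lit 0) (nat_lit 16578157430) (nat_lit 76) (nat_lit 5053465412) (nat_lit 76) (nat_lit 3613235861) (nat_lit 4) (nat_lit 4) (nat_lit 5) (nat_lit 5) (nat_lit 5) (nat_lit 4) (nat_lit 276) (nat_lit 224) (nat_lit 220)) (XT.lf (nat_lit 0) (nat_lit 23152232529) (nat_lit 76) (nat_lit 2798542640) (nat_lit 76) (nat_lit 1062371515) (nat_lit 4) (nat_lit 4) (nat_lit 5) (nat_lit 5) (nat_lit 5) (nat_lit 4) (nat_lit 277) (nat_lit 224) (nat_lit 219)))) (XT.nd (nat_lit 78) (nat_lit 0) (nat_lit 0) (XT.lf (nat_lit 0) (nat_lit 1108801932) (nat_lit 76) (nat_lit 390713949) (nat_lit 152) (nat_lit 27429174305)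 (nat_lit 2) (nat_lit 5) (nat_lit 3) (nat_lit 5) (nat_lit 4) (nat_lit 4) (nat_lit 278) (nat_lit 224) (nat_lit 218)) (XT.nd (nat_lit 78) (nat_lit 0) (nat_lit 0) (XT.lf (nat_lit 0) (nat_lit 4237477083) (nat_lit 152) (nat_lit 24614600752) (nat_lit 0) (nat_lit 2141261062) (nat_lit 2) (nat_lit 5) (nat_lit 4) (nat_lit 4) (nat_lit 2) (nat_lit 4) (nat_lit 279) (nat_lit 224) (nat_lit 217)) (XT.lf (nat_lit 0) (nat_lit 7081538390) (nat_lit 152) (nat_lit 21383184333) (nat_lit 0) (nat_lit 4767796477) (nat_lit 2) (nat_lit 5) (nat_lit 4) (nat_lit 4) (nat_lit 2) (nat_lit 4) (nat_lit 280) (nat_lit 224) (nat_lit 216)))))) (XT.nd (nat_lit 468) (nat_lit 76) (nat_lit 0) (XT.nd (nat_lit 234) (nat_lit 0) (nat_lit 0) (XT.nd (nat_lit 78) (nat_lit 0) (nat_lit 0) (XT.lf (nat_lit 0) (nat_lit 10039156820) (nat_lit 152) (nat_lit 18097093182) (nat_lit 0) (nat_lit 7524002045) (nat_lit 2) (nat_lit 5) (nat_lit 4) (nat_lit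 4) (nat_lit 2) (nat_lit 4) (nat_lit 281) (nat_lit 224) (nat_lit 215)) (XT.nd (nat_lit 78) (nat_lit 0) (nat_lit 0) (XT.lf (nat_lit 0) (nat_lit 13127859002) (nat_lit 152) (nat_lit 14736854165) (nat_lit 0) (nat_lit 10426210834) (nat_lit 2) (nat_lit 5) (nat_lit 4) (nat_lit 4) (nat_lit 2) (nat_lit 4) (nat_lit 282) (nat_lit 224) (nat_lit 214)) (XT.lf (nat_lit 0) (nat_lit 16365948354) (nat_lit 152) (nat_lit 11282554757) (nat_lit 0) (nat_lit 13491621120) (nat_lit 2) (nat_lit 5) (nat_lit 4) (nat_lit 4) (nat_lit 2) (nat_lit 4) (nat_lit 283) (nat_lit 224) (nat_lit 213)))) (XT.nd (nat_lit 78) (nat_lit 0) (nat_lit 0) (XT.lf (nat_lit 0) (nat_lit 19772613554) (nat_lit 152) (nat_lit 7713725034) (nat_lit 0) (nat_lit 16738398296) (nat_lit 2) (nat_lit 5) (nat_lit 4) (nat_lit 4) (nat_lit 2) (nat_lit 4) (nat_lit 284) (nat_lit 224) (nat_lit 212)) (XT.nd (nat_lit 78) (nat_lit 0) (nat_lit 0) (XT.lf (nat_lit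 0) (nat_lit 23368042249) (nat_lit 152) (nat_lit 4009216376) (nat_lit 0) (nat_lit 20185782524) (nat_lit 2) (nat_lit 5) (nat_lit 4) (nat_lit 4) (nat_lit 2) (nat_lit 4) (nat_lit 285) (nat_lit 224) (nat_lit 211)) (XT.lf (nat_lit 0) (nat_lit 27173540683) (nat_lit 152) (nat_lit 147076139) (nat_lit 0) (nat_lit 23854202748) (nat_lit 2) (nat_lit 5) (nat_lit 4) (nat_lit 4) (nat_lit 2) (nat_lit 4) (nat_lit 286) (nat_lit 224) (nat_lit 210))))) (XT.nd (nat_lit 234) (nat_lit 0) (nat_lit 0) (XT.nd (nat_lit 78) (nat_lit 0) (nat_lit 0) (XT.lf (nat_lit 0) (nat_lit 4100716901) (nat_lit 76) (nat_lit 27209565395) (nat_lit 76) (nat_lit 23763303191) (nat_lit 1) (nat_lit 4) (nat_lit 2) (nat_lit 5) (nat_lit 2) (nat_lit 4) (nat_lit 287) (nat_lit 224) (nat_lit 209)) (XT.nd (nat_lit 78) (nat_lit 0) (nat_lit 0) (XT.lf (nat_lit 0) (nat_lit 8571496824) (nat_lit 76) (nat_lit 27140977547) (nat_lit 76) (nat_lit 23577192871)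 (nat_lit 1) (nat_lit 4) (nat_lit 2) (nat_lit 5) (nat_lit 2) (nat_lit 4) (nat_lit 288) (nat_lit 224) (nat_lit 208)) (XT.lf (nat_lit 0) (nat_lit 13284012372) (nat_lit 76) (nat_lit 27118468152) (nat_lit 76) (nat_lit 23445866374) (nat_lit 1) (nat_lit 4) (nat_lit 2) (nat_lit 5) (nat_lit 2) (nat_lit 4) (nat_lit 289) (nat_lit 224) (nat_lit 207)))) (XT.nd (nat_lit 78) (nat_lit 0) (nat_lit 0) (XT.lf (nat_lit 0) (nat_lit 18266189562) (nat_lit 76) (nat_lit 27141903821) (nat_lit 76) (nat_lit 23368545467) (nat_lit 1) (nat_lit 4) (nat_lit 2) (nat_lit 5) (nat_lit 2) (nat_lit 4) (nat_lit 290) (nat_lit 224) (nat_lit 206)) (XT.nd (nat_lit 78) (nat_lit 0) (nat_lit 0) (XT.lf (nat_lit 0) (nat_lit 23547552407) (nat_lit 76) (nat_lit 27211423434) (nat_lit 76) (nat_lit 23344771953) (nat_lit 1) (nat_lit 4) (nat_lit 2) (nat_lit 5) (nat_lit 2) (nat_lit 4) (nat_lit 291) (nat_lit 224) (nat_lit 205)) (XT.lf (nat_lit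 0) (nat_lit 29159397872) (nat_lit 76) (nat_lit 27327438958) (nat_lit 76) (nat_lit 23374404952) (nat_lit 1) (nat_lit 4) (nat_lit 2) (nat_lit 5) (nat_lit 2) (nat_lit 4) (nat_lit 292) (nat_lit 224) (nat_lit 204))))))))
noncomputable def xc23 : XT := (XT.nd (nat_lit 1872) (nat_lit 0) (nat_lit 0) (XT.nd (nat_lit 936) (nat_lit 0) (nat_lit 0) (XT.nd (nat_lit 468) (nat_lit 0) (nat_lit 0) (XT.nd (nat_lit 234) (nat_lit 0) (nat_lit 0) (XT.nd (nat_lit 78) (nat_lit 0) (nat_lit 0) (XT.lf (nat_lit 0) (nat_lit 35134981339) (nat_lit 76) (nat_lit 27490637892) (nat_lit 76) (nat_lit 23457620068) (nat_lit 1) (nat_lit 4) (nat_lit 2) (nat_lit 5) (nat_lit 2) (nat_lit 4) (nat_lit 293) (nat_lit 224) (nat_lit 203)) (XT.nd (nat_lit 78) (nat_lit 0) (nat_lit 0) (XT.lf (nat_lit 0) (nat_lit 41509713671) (nat_lit 76) (nat_lit 27701987342) (nat_lit 76) (nat_lit 23594910425) (nat_lit 1) (nat_lit 4) (nat_lit 2) (nat_lit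 5) (nat_lit 2) (nat_lit 4) (nat_lit 294) (nat_lit 224) (nat_lit 202)) (XT.lf (nat_lit 0) (nat_lit 48321371060) (nat_lit 76) (nat_lit 27962739747) (nat_lit 76) (nat_lit 23787089598) (nat_lit 1) (nat_lit 4) (nat_lit 2) (nat_lit 5) (nat_lit 2) (nat_lit 4) (nat_lit 295) (nat_lit 224) (nat_lit 201)))) (XT.nd (nat_lit 78) (nat_lit 0) (nat_lit 0) (XT.lf (nat_lit 0) (nat_lit 55610318884) (nat_lit 76) (nat_lit 28274440309) (nat_lit 76) (nat_lit 24035296425) (nat_lit 1) (nat_lit 4) (nat_lit 2) (nat_lit 5) (nat_lit 2) (nat_lit 4) (nat_lit 296) (nat_lit 224) (nat_lit 200)) (XT.nd (nat_lit 78) (nat_lit 0) (nat_lit 0) (XT.lf (nat_lit 0) (nat_lit 63419750908) (nat_lit 76) (nat_lit 28638936141) (nat_lit 76) (nat_lit 24341001762) (nat_lit 1) (nat_lit 4) (nat_lit 2) (nat_lit 5) (nat_lit 2) (nat_lit 4) (nat_lit 297) (nat_lit 224) (nat_lit 199)) (XT.lf (nat_lit 0) (nat_lit 71795945246) (nat_lit 76) (nat_lit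 29058387218) (nat_lit 76) (nat_lit 24706017196) (nat_lit 1) (nat_lit 4) (nat_lit 2) (nat_lit 5) (nat_lit 2) (nat_lit 4) (nat_lit 298) (nat_lit 224) (nat_lit 198))))) (XT.nd (nat_lit 234) (nat_lit 0) (nat_lit 0) (XT.nd (nat_lit 78) (nat_lit 0) (nat_lit 0) (XT.lf (nat_lit 0) (nat_lit 80788538607) (nat_lit 76) (nat_lit 29535279177) (nat_lit 76) (nat_lit 25132505781) (nat_lit 1) (nat_lit 4) (nat_lit 2) (nat_lit 5) (nat_lit 2) (nat_lit 4) (nat_lit 299) (nat_lit 224) (nat_lit 197)) (XT.nd (nat_lit 78) (nat_lit 0) (nat_lit 0) (XT.lf (nat_lit 0) (nat_lit 90450820432) (nat_lit 76) (nat_lit 30072438044) (nat_lit 76) (nat_lit 25622994858) (nat_lit 1) (nat_lit 4) (nat_lit 2) (nat_lit 5) (nat_lit 2) (nat_lit 4) (nat_lit 300) (nat_lit 224) (nat_lit 196)) (XT.lf (nat_lit 0) (nat_lit 100840048688) (nat_lit 76) (nat_lit 30673046982) (nat_lit 76) (nat_lit 26180391028) (nat_lit 1) (nat_lit 4) (nat_lit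 2) (nat_lit 5) (nat_lit 2) (nat_lit 4) (nat_lit 301) (nat_lit 224) (nat_lit 195)))) (XT.nd (nat_lit 78) (nat_lit 0) (nat_lit 0) (XT.lf (nat_lit 0) (nat_lit 112017789172) (nat_lit 76) (nat_lit 31340665156) (nat_lit 76) (nat_lit 26807997379) (nat_lit 1) (nat_lit 4) (nat_lit 2) (nat_lit 5) (nat_lit 2) (nat_lit 4) (nat_lit 302) (nat_lit 224) (nat_lit 194)) (XT.nd (nat_lit 78) (nat_lit 0) (nat_lit 0) (XT.lf (nat_lit 0) (nat_lit 124050280346) (nat_lit 76) (nat_lit 32079248822) (nat_lit 76) (nat_lit 27509533061) (nat_lit 1) (nat_lit 4) (nat_lit 2) (nat_lit 5) (nat_lit 2) (nat_lit 4) (nat_lit 303) (nat_lit 224) (nat_lit 193)) (XT.lf (nat_lit 0) (nat_lit 137008825862) (nat_lit 76) (nat_lit 32893174771) (nat_lit 76) (nat_lit 28289155321) (nat_lit 1) (nat_lit 4) (nat_lit 2) (nat_lit 5) (nat_lit 2) (nat_lit 4) (nat_lit 304) (nat_lit 224) (nat_lit 192)))))) (XT.nd (nat_lit 468) (nat_lit 0) (nat_lit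 0) (XT.nd (nat_lit 234) (nat_lit 0) (nat_lit 0) (XT.nd (nat_lit 78) (nat_lit 0) (nat_lit 0) (XT.lf (nat_lit 0) (nat_lit 150970217100) (nat_lit 76) (nat_lit 33787266269) (nat_lit 76) (nat_lit 29151484144) (nat_lit 1) (nat_lit 4) (nat_lit 2) (nat_lit 5) (nat_lit 2) (nat_lit 4) (nat_lit 305) (nat_lit 224) (nat_lit 191)) (XT.nd (nat_lit 78) (nat_lit 0) (nat_lit 0) (XT.lf (nat_lit 0) (nat_lit 166017188230) (nat_lit 76) (nat_lit 34766821636) (nat_lit 76) (nat_lit 30101629626) (nat_lit 1) (nat_lit 4) (nat_lit 2) (nat_lit 5) (nat_lit 2) (nat_lit 4) (nat_lit 306) (nat_lit 224) (nat_lit 190)) (XT.lf (nat_lit 0) (nat_lit 182238906489) (nat_lit 76) (nat_lit 35837645643) (nat_lit 76) (nat_lit 31145222259) (nat_lit 1) (nat_lit 4) (nat_lit 2) (nat_lit 5) (nat_lit 2) (nat_lit 4) (nat_lit 307) (nat_lit 224) (nat_lit 189)))) (XT.nd (nat_lit 78) (nat_lit 0) (nat_lit 0) (XT.lf (nat_lit 0) (nat_lit 199731500578)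 (nat_lit 76) (nat_lit 37006083915) (nat_lit 76) (nat_lit 32288446296) (nat_lit 1) (nat_lit 4) (nat_lit 2) (nat_lit 5) (nat_lit 2) (nat_lit 4) (nat_lit 308) (nat_lit 224) (nat_lit 188)) (XT.nd (nat_lit 78) (nat_lit 0) (nat_lit 0) (XT.lf (nat_lit 0) (nat_lit 218598630313) (nat_lit 76) (nat_lit 38279060531) (nat_lit 76) (nat_lit 33538076397) (nat_lit 1) (nat_lit 4) (nat_lit 2) (nat_lit 5) (nat_lit 2) (nat_lit 4) (nat_lit 309) (nat_lit 224) (nat_lit 187)) (XT.lf (nat_lit 0) (nat_lit 238952100908) (nat_lit 76) (nat_lit 39664119055) (nat_lit 76) (nat_lit 34901517779) (nat_lit 1) (nat_lit 4) (nat_lit 2) (nat_lit 5) (nat_lit 2) (nat_lit 4) (nat_lit 310) (nat_lit 224) (nat_lit 186))))) (XT.nd (nat_lit 234) (nat_lit 0) (nat_lit 0) (XT.nd (nat_lit 78) (nat_lit 0) (nat_lit 0) (XT.lf (nat_lit 0) (nat_lit 260912525522) (nat_lit 76) (nat_lit 41169467242) (nat_lit 76) (nat_lit 36386850093) (nat_lit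 1) (nat_lit 4) (nat_lit 2) (nat_lit 5) (nat_lit 2) (nat_lit 4) (nat_lit 311) (nat_lit 224) (nat_lit 185)) (XT.nd (nat_lit 78) (nat_lit 0) (nat_lit 0) (XT.lf (nat_lit 0) (nat_lit 284610040004) (nat_lit 76) (nat_lit 42804025674) (nat_lit 76) (nat_lit 38002875309) (nat_lit 1) (nat_lit 4) (nat_lit 2) (nat_lit 5) (nat_lit 2) (nat_lit 4) (nat_lit 312) (nat_lit 224) (nat_lit 184)) (XT.lf (nat_lit 0) (nat_lit 310185074071) (nat_lit 76) (nat_lit 44577480623) (nat_lit 76) (nat_lit 39759169872) (nat_lit 1) (nat_lit 4) (nat_lit 2) (nat_lit 5) (nat_lit 2) (nat_lit 4) (nat_lit 313) (nat_lit 224) (nat_lit 183)))) (XT.nd (nat_lit 78) (nat_lit 0) (nat_lit 0) (XT.lf (nat_lit 0) (nat_lit 337789183478) (nat_lit 76) (nat_lit 46500341451) (nat_lit 76) (nat_lit 41666141455) (nat_lit 1) (nat_lit 4) (nat_lit 2) (nat_lit 5) (nat_lit 2) (nat_lit 4) (nat_lit 314) (nat_lit 224) (nat_lit 182)) (XT.nd (nat_lit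 78) (nat_lit 0) (nat_lit 0) (XT.lf (nat_lit 0) (nat_lit 367585948134) (nat_lit 76) (nat_lit 48584002890) (nat_lit 76) (nat_lit 43735090629) (nat_lit 1) (nat_lit 4) (nat_lit 2) (nat_lit 5) (nat_lit 2) (nat_lit 4) (nat_lit 315) (nat_lit 224) (nat_lit 181)) (XT.lf (nat_lit 0) (nat_lit 399751941459) (nat_lit 76) (nat_lit 50840812562) (nat_lit 76) (nat_lit 45978277835) (nat_lit 1) (nat_lit 4) (nat_lit 2) (nat_lit 5) (nat_lit 2) (nat_lit 4) (nat_lit 316) (nat_lit 224) (nat_lit 180))))))) (XT.nd (nat_lit 936) (nat_lit 0) (nat_lit 0) (XT.nd (nat_lit 468) (nat_lit 0) (nat_lit 0) (XT.nd (nat_lit 234) (nat_lit 0) (nat_lit 0) (XT.nd (nat_lit 78) (nat_lit 0) (nat_lit 0) (XT.lf (nat_lit 0) (nat_lit 434477776748) (nat_lit 76) (nat_lit 53284144154) (nat_lit 76) (nat_lit 48408996032) (nat_lit 1) (nat_lit 4) (nat_lit 2) (nat_lit 5) (nat_lit 2) (nat_lit 4) (nat_lit 317) (nat_lit 224) (nat_lit 179))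 (XT.nd (nat_lit 78) (nat_lit 0) (nat_lit 0) (XT.lf (nat_lit 0) (nat_lit 471969236726) (nat_lit 76) (nat_lit 55928476670) (nat_lit 76) (nat_lit 51041649478) (nat_lit 1) (nat_lit 4) (nat_lit 2) (nat_lit 5) (nat_lit 2) (nat_lit 4) (nat_lit 318) (nat_lit 224) (nat_lit 178)) (XT.lf (nat_lit 0) (nat_lit 512448493010) (nat_lit 76) (nat_lit 58789480227) (nat_lit 76) (nat_lit 53891839081) (nat_lit 1) (nat_lit 4) (nat_lit 2) (nat_lit 5) (nat_lit 2) (nat_lit 4) (nat_lit 319) (nat_lit 224) (nat_lit 177)))) (XT.nd (nat_lit 78) (nat_lit 0) (nat_lit 0) (XT.lf (nat_lit 0) (nat_lit 556155422673) (nat_lit 76) (nat_lit 61884108920) (nat_lit 76) (nat_lit 56976454855) (nat_lit 1) (nat_lit 4) (nat_lit 2) (nat_lit 5) (nat_lit 2) (nat_lit 4) (nat_lit 320) (nat_lit 224) (nat_lit 176)) (XT.nd (nat_lit 78) (nat_lit 0) (nat_lit 0) (XT.lf (nat_lit 0) (nat_lit 603349029743) (nat_lit 76) (nat_lit 65230701290) (nat_lit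 76) (nat_lit 60313776003) (nat_lit 1) (nat_lit 4) (nat_lit 2) (nat_lit 5) (nat_lit 2) (nat_lit 4) (nat_lit 321) (nat_lit 224) (nat_lit 175)) (XT.lf (nat_lit 0) (nat_lit 654308980040) (nat_lit 76) (nat_lit 68849088995) (nat_lit 76) (nat_lit 63923579243) (nat_lit 1) (nat_lit 4) (nat_lit 2) (nat_lit 5) (nat_lit 2) (nat_lit 4) (nat_lit 322) (nat_lit 224) (nat_lit 174))))) (XT.nd (nat_lit 234) (nat_lit 0) (nat_lit 0) (XT.nd (nat_lit 78) (nat_lit 0) (nat_lit 0) (XT.lf (nat_lit 0) (nat_lit 709337258454) (nat_lit 76) (nat_lit 72760714333) (nat_lit 76) (nat_lit 67827256002) (nat_lit 1) (nat_lit 4) (nat_lit 2) (nat_lit 5) (nat_lit 2) (nat_lit 4) (nat_lit 323) (nat_lit 224) (nat_lit 173)) (XT.nd (nat_lit 78) (nat_lit 0) (nat_lit 0) (XT.lf (nat_lit 0) (nat_lit 768759958488) (nat_lit 76) (nat_lit 76988757306) (nat_lit 76) (nat_lit 72047939180) (nat_lit 1) (nat_lit 4) (nat_lit 2) (nat_lit 5) (nat_lit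 2) (nat_lit 4) (nat_lit 324) (nat_lit 224) (nat_lit 172)) (XT.lf (nat_lit 0) (nat_lit 832929214659) (nat_lit 76) (nat_lit 81558272983) (nat_lit 76) (nat_lit 76610640233) (nat_lit 1) (nat_lit 4) (nat_lit 2) (nat_lit 5) (nat_lit 2) (nat_lit 4) (nat_lit 325) (nat_lit 224) (nat_lit 171)))) (XT.nd (nat_lit 78) (nat_lit 0) (nat_lit 0) (XT.lf (nat_lit 0) (nat_lit 902225289227) (nat_lit 76) (nat_lit 86496339976) (nat_lit 76) (nat_lit 81542397387) (nat_lit 1) (nat_lit 4) (nat_lit 2) (nat_lit 5) (nat_lit 2) (nat_lit 4) (nat_lit 326) (nat_lit 224) (nat_lit 170)) (XT.nd (nat_lit 78) (nat_lit 0) (nat_lit 0) (XT.lf (nat_lit 0) (nat_lit 977058825596) (nat_lit 76) (nat_lit 91832220904) (nat_lit 76) (nat_lit 86872435873) (nat_lit 1) (nat_lit 4) (nat_lit 2) (nat_lit 5) (nat_lit 2) (nat_lit 4) (nat_lit 327) (nat_lit 224) (nat_lit 169)) (XT.lf (nat_lit 0) (nat_lit 1057873281760) (nat_lit 76) (nat_lit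 97597535802) (nat_lit 76) (nat_lit 92632341102) (nat_lit 1) (nat_lit 4) (nat_lit 2) (nat_lit 5) (nat_lit 2) (nat_lit 4) (nat_lit 328) (nat_lit 224) (nat_lit 168)))))) (XT.nd (nat_lit 468) (nat_lit 0) (nat_lit 0) (XT.nd (nat_lit 234) (nat_lit 0) (nat_lit 0) (XT.nd (nat_lit 78) (nat_lit 0) (nat_lit 0) (XT.lf (nat_lit 0) (nat_lit 1145147558200) (nat_lit 76) (nat_lit 103826449499) (nat_lit 76) (nat_lit 98856245846) (nat_lit 1) (nat_lit 4) (nat_lit 2) (nat_lit 5) (nat_lit 2) (nat_lit 4) (nat_lit 329) (nat_lit 224) (nat_lit 167)) (XT.nd (nat_lit 78) (nat_lit 0) (nat_lit 0) (XT.lf (nat_lit 0) (nat_lit 1239398835813) (nat_lit 76) (nat_lit 110555874076) (nat_lit 76) (nat_lit 105581032504) (nat_lit 1) (nat_lit 4) (nat_lit 2) (nat_lit 5) (nat_lit 2) (nat_lit 4) (nat_lit 330) (nat_lit 224) (nat_lit 166)) (XT.lf (nat_lit 0) (nat_lit 1341185640689) (nat_lit 76) (nat_lit 117825687605) (nat_lit 76)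 (nat_lit 112846551663) (nat_lit 1) (nat_lit 4) (nat_lit 2) (nat_lit 5) (nat_lit 2) (nat_lit 4) (nat_lit 331) (nat_lit 224) (nat_lit 165)))) (XT.nd (nat_lit 78) (nat_lit 0) (nat_lit 0) (XT.lf (nat_lit 0) (nat_lit 1451111153893) (nat_lit 76) (nat_lit 125678970462) (nat_lit 76) (nat_lit 120695858252) (nat_lit 1) (nat_lit 4) (nat_lit 2) (nat_lit 5) (nat_lit 2) (nat_lit 4) (nat_lit 332) (nat_lit 224) (nat_lit 164)) (XT.nd (nat_lit 78) (nat_lit 0) (nat_lit 0) (XT.lf (nat_lit 0) (nat_lit 1569826785874) (nat_lit 76) (nat_lit 134162260621) (nat_lit 76) (nat_lit 129175466681) (nat_lit 1) (nat_lit 4) (nat_lit 2) (nat_lit 5) (nat_lit 2) (nat_lit 4) (nat_lit 333) (nat_lit 224) (nat_lit 163)) (XT.lf (nat_lit 0) (nat_lit 1698036036675) (nat_lit 76) (nat_lit 143325829429) (nat_lit 76) (nat_lit 138335626479) (nat_lit 1) (nat_lit 4) (nat_lit 2) (nat_lit 5) (nat_lit 2) (nat_lit 4) (nat_lit 334) (nat_lit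 224) (nat_lit 162))))) (XT.nd (nat_lit 32448) (nat_lit 0) (nat_lit 304) (XT.nd (nat_lit 78) (nat_lit 0) (nat_lit 0) (XT.lf (nat_lit 0) (nat_lit 1836498664817) (nat_lit 76) (nat_lit 153223979516) (nat_lit 76) (nat_lit 148230620077) (nat_lit 1) (nat_lit 4) (nat_lit 2) (nat_lit 5) (nat_lit 2) (nat_lit 4) (nat_lit 335) (nat_lit 224) (nat_lit 161)) (XT.nd (nat_lit 78) (nat_lit 0) (nat_lit 0) (XT.lf (nat_lit 0) (nat_lit 1986035189578) (nat_lit 76) (nat_lit 163915366588) (nat_lit 76) (nat_lit 158919084473) (nat_lit 1) (nat_lit 4) (nat_lit 2) (nat_lit 5) (nat_lit 2) (nat_lit 4) (nat_lit 336) (nat_lit 224) (nat_lit 160)) (XT.lf (nat_lit 0) (nat_lit 2147531753329) (nat_lit 76) (nat_lit 175463347012) (nat_lit 76) (nat_lit 170464358716) (nat_lit 1) (nat_lit 4) (nat_lit 2) (nat_lit 5) (nat_lit 2) (nat_lit 4) (nat_lit 337) (nat_lit 224) (nat_lit 159)))) (XT.nd (nat_lit 78) (nat_lit 152) (nat_lit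 0) (XT.lf (nat_lit 0) (nat_lit 8467564613) (nat_lit 76) (nat_lit 80885673) (nat_lit 76) (nat_lit 80885673) (nat_lit 7) (nat_lit 4) (nat_lit 8) (nat_lit 5) (nat_lit 8) (nat_lit 4) (nat_lit 270) (nat_lit 225) (nat_lit 225)) (XT.nd (nat_lit 78) (nat_lit 0) (nat_lit 0) (XT.lf (nat_lit 0) (nat_lit 3141180121) (nat_lit 152) (nat_lit 12477706624) (nat_lit 0) (nat_lit 2706344856) (nat_lit 5) (nat_lit 5) (nat_lit 7) (nat_lit 4) (nat_lit 5) (nat_lit 4) (nat_lit 271) (nat_lit 225) (nat_lit 224)) (XT.lf (nat_lit 0) (nat_lit 6528111738) (nat_lit 152) (nat_lit 7272339323) (nat_lit 0) (nat_lit 5690651228) (nat_lit 5) (nat_lit 5) (nat_lit 7) (nat_lit 4) (nat_lit 5) (nat_lit 4) (nat_lit 272) (nat_lit 225) (nat_lit 223))))))))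
noncomputable def xc24 : XT := (XT.nd (nat_lit 1794) (nat_lit 0) (nat_lit 0) (XT.nd (nat_lit 858) (nat_lit 76) (nat_lit 0) (XT.nd (nat_lit 390) (nat_lit 152) (nat_lit 0) (XT.nd (nat_lit 156) (nat_lit 0) (nat_lit 0) (XT.nd (nat_lit 78) (nat_lit 76) (nat_lit 0) (XT.lf (nat_lit 0) (nat_lit 10014892356) (nat_lit 152) (nat_lit 1944964593) (nat_lit 0) (nat_lit 8804630693) (nat_lit 5) (nat_lit 5) (nat_lit 7) (nat_lit 4) (nat_lit 5) (nat_lit 4) (nat_lit 273) (nat_lit 225) (nat_lit 222)) (XT.lf (nat_lit 0) (nat_lit 3722186012) (nat_lit 76) (nat_lit 9989517029) (nat_lit 76) (nat_lit 8434069114) (nat_lit 4) (nat_lit 4) (nat_lit 5) (nat_lit 5) (nat_lit 5) (nat_lit 4) (nat_lit 274) (nat_lit 225) (nat_lit 221))) (XT.nd (nat_lit 78) (nat_lit 0) (nat_lit 0) (XT.lf (nat_lit 0) (nat_lit 9687609198) (nat_lit 76) (nat_lit 7916742387) (nat_lit 76) (nat_lit 6041677571) (nat_lit 4) (nat_lit 4) (nat_lit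 5) (nat_lit 5) (nat_lit 5) (nat_lit 4) (nat_lit 275) (nat_lit 225) (nat_lit 220)) (XT.nd (nat_lit 78) (nat_lit 0) (nat_lit 0) (XT.lf (nat_lit 0) (nat_lit 15884237231) (nat_lit 76) (nat_lit 5782428692) (nat_lit 76) (nat_lit 3611422302) (nat_lit 4) (nat_lit 4) (nat_lit 5) (nat_lit 5) (nat_lit 5) (nat_lit 4) (nat_lit 276) (nat_lit 225) (nat_lit 219)) (XT.lf (nat_lit 0) (nat_lit 22348790871) (nat_lit 76) (nat_lit 3573928161) (nat_lit 76) (nat_lit 1128901794) (nat_lit 4) (nat_lit 4) (nat_lit 5) (nat_lit 5) (nat_lit 5) (nat_lit 4) (nat_lit 277) (nat_lit 225) (nat_lit 218))))) (XT.nd (nat_lit 234) (nat_lit 0) (nat_lit 0) (XT.nd (nat_lit 78) (nat_lit 0) (nat_lit 0) (XT.lf (nat_lit 0) (nat_lit 113978102) (nat_lit 76) (nat_lit 1238294335) (nat_lit 152) (nat_lit 27621911819) (nat_lit 2) (nat_lit 5) (nat_lit 3) (nat_lit 5) (nat_lit 4) (nat_lit 4) (nat_lit 278) (nat_lit 225) (nat_lit 217)) (XT.nd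 (nat_lit 78) (nat_lit 0) (nat_lit 0) (XT.lf (nat_lit 0) (nat_lit 4010673730) (nat_lit 152) (nat_lit 25740373587) (nat_lit 0) (nat_lit 1294306572) (nat_lit 2) (nat_lit 5) (nat_lit 4) (nat_lit 4) (nat_lit 2) (nat_lit 4) (nat_lit 279) (nat_lit 225) (nat_lit 216)) (XT.lf (nat_lit 0) (nat_lit 6799942835) (nat_lit 152) (nat_lit 22606956485) (nat_lit 0) (nat_lit 3882162814) (nat_lit 2) (nat_lit 5) (nat_lit 4) (nat_lit 4) (nat_lit 2) (nat_lit 4) (nat_lit 280) (nat_lit 225) (nat_lit 215)))) (XT.nd (nat_lit 78) (nat_lit 0) (nat_lit 0) (XT.lf (nat_lit 0) (nat_lit 9706827744) (nat_lit 152) (nat_lit 19411605443) (nat_lit 0) (nat_lit 6602554332) (nat_lit 2) (nat_lit 5) (nat_lit 4) (nat_lit 4) (nat_lit 2) (nat_lit 4) (nat_lit 281) (nat_lit 225) (nat_lit 214)) (XT.nd (nat_lit 78) (nat_lit 0) (nat_lit 0) (XT.lf (nat_lit 0) (nat_lit 12748554443) (nat_lit 152) (nat_lit 16135385047) (nat_lit 0) (nat_lit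 9471601964) (nat_lit 2) (nat_lit 5) (nat_lit 4) (nat_lit 4) (nat_lit 2) (nat_lit 4) (nat_lit 282) (nat_lit 225) (nat_lit 213)) (XT.lf (nat_lit 0) (nat_lit 15943147978) (nat_lit 152) (nat_lit 12758880657) (nat_lit 0) (nat_lit 12506307475) (nat_lit 2) (nat_lit 5) (nat_lit 4) (nat_lit 4) (nat_lit 2) (nat_lit 4) (nat_lit 283) (nat_lit 225) (nat_lit 212)))))) (XT.nd (nat_lit 468) (nat_lit 0) (nat_lit 0) (XT.nd (nat_lit 234) (nat_lit 76) (nat_lit 0) (XT.nd (nat_lit 78) (nat_lit 0) (nat_lit 0) (XT.lf (nat_lit 0) (nat_lit 19309539274) (nat_lit 152) (nat_lit 9262083358) (nat_lit 0) (nat_lit 15724654304) (nat_lit 2) (nat_lit 5) (nat_lit 4) (nat_lit 4) (nat_lit 2) (nat_lit 4) (nat_lit 284) (nat_lit 225) (nat_lit 211)) (XT.nd (nat_lit 78) (nat_lit 0) (nat_lit 0) (XT.lf (nat_lit 0) (nat_lit 22867677317) (nat_lit 152) (nat_lit 5624271389) (nat_lit 0) (nat_lit 19145714136) (nat_lit 2) (nat_lit 5)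 (nat_lit 4) (nat_lit 4) (nat_lit 2) (nat_lit 4) (nat_lit 285) (nat_lit 225) (nat_lit 210)) (XT.lf (nat_lit 0) (nat_lit 26638647368) (nat_lit 152) (nat_lit 1823887346) (nat_lit 0) (nat_lit 22789759919) (nat_lit 2) (nat_lit 5) (nat_lit 4) (nat_lit 4) (nat_lit 2) (nat_lit 4) (nat_lit 286) (nat_lit 225) (nat_lit 209)))) (XT.nd (nat_lit 78) (nat_lit 0) (nat_lit 0) (XT.lf (nat_lit 0) (nat_lit 2275415042) (nat_lit 76) (nat_lit 28424104662) (nat_lit 76) (nat_lit 24457694742) (nat_lit 1) (nat_lit 4) (nat_lit 2) (nat_lit 5) (nat_lit 2) (nat_lit 4) (nat_lit 287) (nat_lit 225) (nat_lit 208)) (XT.nd (nat_lit 78) (nat_lit 0) (nat_lit 0) (XT.lf (nat_lit 0) (nat_lit 6690460941) (nat_lit 76) (nat_lit 28380307910) (nat_lit 76) (nat_lit 24305080888) (nat_lit 1) (nat_lit 4) (nat_lit 2) (nat_lit 5) (nat_lit 2) (nat_lit 4) (nat_lit 288) (nat_lit 225) (nat_lit 207)) (XT.lf (nat_lit 0) (nat_lit 11351370911)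 (nat_lit 76) (nat_lit 28380753235) (nat_lit 76) (nat_lit 24204769635) (nat_lit 1) (nat_lit 4) (nat_lit 2) (nat_lit 5) (nat_lit 2) (nat_lit 4) (nat_lit 289) (nat_lit 225) (nat_lit 206))))) (XT.nd (nat_lit 234) (nat_lit 0) (nat_lit 0) (XT.nd (nat_lit 78) (nat_lit 0) (nat_lit 0) (XT.lf (nat_lit 0) (nat_lit 16285765159) (nat_lit 76) (nat_lit 28425443275) (nat_lit 76) (nat_lit 24156166549) (nat_lit 1) (nat_lit 4) (nat_lit 2) (nat_lit 5) (nat_lit 2) (nat_lit 4) (nat_lit 290) (nat_lit 225) (nat_lit 205)) (XT.nd (nat_lit 78) (nat_lit 0) (nat_lit 0) (XT.lf (nat_lit 0) (nat_lit 21522884539) (nat_lit 76) (nat_lit 28514642860) (nat_lit 76) (nat_lit 24158983609) (nat_lit 1) (nat_lit 4) (nat_lit 2) (nat_lit 5) (nat_lit 2) (nat_lit 4) (nat_lit 291) (nat_lit 225) (nat_lit 204)) (XT.lf (nat_lit 0) (nat_lit 27093763833) (nat_lit 76) (nat_lit 28648880580) (nat_lit 76) (nat_lit 24213237510) (nat_lit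 1) (nat_lit 4) (nat_lit 2) (nat_lit 5) (nat_lit 2) (nat_lit 4) (nat_lit 292) (nat_lit 225) (nat_lit 203)))) (XT.nd (nat_lit 78) (nat_lit 0) (nat_lit 0) (XT.lf (nat_lit 0) (nat_lit 33031415659) (nat_lit 76) (nat_lit 28828951918) (nat_lit 76) (nat_lit 24319249757) (nat_lit 1) (nat_lit 4) (nat_lit 2) (nat_lit 5) (nat_lit 2) (nat_lit 4) (nat_lit 293) (nat_lit 225) (nat_lit 202)) (XT.nd (nat_lit 78) (nat_lit 0) (nat_lit 0) (XT.lf (nat_lit 0) (nat_lit 39371026102) (nat_lit 76) (nat_lit 29055923964) (nat_lit 76) (nat_lit 24477648569) (nat_lit 1) (nat_lit 4) (nat_lit 2) (nat_lit 5) (nat_lit 2) (nat_lit 4) (nat_lit 294) (nat_lit 225) (nat_lit 201)) (XT.lf (nat_lit 0) (nat_lit 46150163224) (nat_lit 76) (nat_lit 29331141737) (nat_lit 76) (nat_lit 24689372608) (nat_lit 1) (nat_lit 4) (nat_lit 2) (nat_lit 5) (nat_lit 2) (nat_lit 4) (nat_lit 295) (nat_lit 225) (nat_lit 200))))))) (XT.nd (nat_lit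 936) (nat_lit 0) (nat_lit 0) (XT.nd (nat_lit 468) (nat_lit 0) (nat_lit 0) (XT.nd (nat_lit 234) (nat_lit 0) (nat_lit 0) (XT.nd (nat_lit 78) (nat_lit 0) (nat_lit 0) (XT.lf (nat_lit 0) (nat_lit 53408999689) (nat_lit 76) (nat_lit 29656236156) (nat_lit 76) (nat_lit 24955676533) (nat_lit 1) (nat_lit 4) (nat_lit 2) (nat_lit 5) (nat_lit 2) (nat_lit 4) (nat_lit 296) (nat_lit 225) (nat_lit 199)) (XT.nd (nat_lit 78) (nat_lit 0) (nat_lit 0) (XT.lf (nat_lit 0) (nat_lit 61190550824) (nat_lit 76) (nat_lit 30033133709) (nat_lit 76) (nat_lit 25278138442) (nat_lit 1) (nat_lit 4) (nat_lit 2) (nat_lit 5) (nat_lit 2) (nat_lit 4) (nat_lit 297) (nat_lit 225) (nat_lit 198)) (XT.lf (nat_lit 0) (nat_lit 69540929526) (nat_lit 76) (nat_lit 30464067861) (nat_lit 76) (nat_lit 25658669220) (nat_lit 1) (nat_lit 4) (nat_lit 2) (nat_lit 5) (nat_lit 2) (nat_lit 4) (nat_lit 298) (nat_lit 225) (nat_lit 197)))) (XT.nd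 (nat_lit 78) (nat_lit 0) (nat_lit 0) (XT.lf (nat_lit 0) (nat_lit 78509619519) (nat_lit 76) (nat_lit 30951592296) (nat_lit 76) (nat_lit 26099523866) (nat_lit 1) (nat_lit 4) (nat_lit 2) (nat_lit 5) (nat_lit 2) (nat_lit 4) (nat_lit 299) (nat_lit 225) (nat_lit 196)) (XT.nd (nat_lit 78) (nat_lit 0) (nat_lit 0) (XT.lf (nat_lit 0) (nat_lit 88149768597) (nat_lit 76) (nat_lit 31498596049) (nat_lit 76) (nat_lit 26603314849) (nat_lit 1) (nat_lit 4) (nat_lit 2) (nat_lit 5) (nat_lit 2) (nat_lit 4) (nat_lit 300) (nat_lit 225) (nat_lit 195)) (XT.lf (nat_lit 0) (nat_lit 98518503568) (nat_lit 76) (nat_lit 32108320622) (nat_lit 76) (nat_lit 27173027600) (nat_lit 1) (nat_lit 4) (nat_lit 2) (nat_lit 5) (nat_lit 2) (nat_lit 4) (nat_lit 301) (nat_lit 225) (nat_lit 194))))) (XT.nd (nat_lit 234) (nat_lit 0) (nat_lit 0) (XT.nd (nat_lit 78) (nat_lit 0) (nat_lit 0) (XT.lf (nat_lit 0) (nat_lit 109677268789)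 (nat_lit 76) (nat_lit 32784379199) (nat_lit 76) (nat_lit 27812038193) (nat_lit 1) (nat_lit 4) (nat_lit 2) (nat_lit 5) (nat_lit 2) (nat_lit 4) (nat_lit 302) (nat_lit 225) (nat_lit 193)) (XT.nd (nat_lit 78) (nat_lit 0) (nat_lit 0) (XT.lf (nat_lit 0) (nat_lit 121692190274) (nat_lit 76) (nat_lit 33530778052) (nat_lit 76) (nat_lit 28524133357) (nat_lit 1) (nat_lit 4) (nat_lit 2) (nat_lit 5) (nat_lit 2) (nat_lit 4) (nat_lit 303) (nat_lit 225) (nat_lit 192)) (XT.lf (nat_lit 0) (nat_lit 134634467559) (nat_lit 76) (nat_lit 34351940287) (nat_lit 76) (nat_lit 29313532916) (nat_lit 1) (nat_lit 4) (nat_lit 2) (nat_lit 5) (nat_lit 2) (nat_lit 4) (nat_lit 304) (nat_lit 225) (nat_lit 191)))) (XT.nd (nat_lit 78) (nat_lit 0) (nat_lit 0) (XT.lf (nat_lit 0) (nat_lit 148580795621) (nat_lit 76) (nat_lit 35252732048) (nat_lit 76) (nat_lit 30184914794) (nat_lit 1) (nat_lit 4) (nat_lit 2) (nat_lit 5) (nat_lit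 2) (nat_lit 4) (nat_lit 305) (nat_lit 225) (nat_lit 190)) (XT.nd (nat_lit 78) (nat_lit 0) (nat_lit 0) (XT.lf (nat_lit 0) (nat_lit 163613819365) (nat_lit 76) (nat_lit 36238491363) (nat_lit 76) (nat_lit 31143442734) (nat_lit 1) (nat_lit 4) (nat_lit 2) (nat_lit 5) (nat_lit 2) (nat_lit 4) (nat_lit 306) (nat_lit 225) (nat_lit 189)) (XT.lf (nat_lit 0) (nat_lit 179822623379) (nat_lit 76) (nat_lit 37315059766) (nat_lit 76) (nat_lit 32194796902) (nat_lit 1) (nat_lit 4) (nat_lit 2) (nat_lit 5) (nat_lit 2) (nat_lit 4) (nat_lit 307) (nat_lit 225) (nat_lit 188)))))) (XT.nd (nat_lit 468) (nat_lit 0) (nat_lit 0) (XT.nd (nat_lit 234) (nat_lit 0) (nat_lit 0) (XT.nd (nat_lit 78) (nat_lit 0) (nat_lit 0) (XT.lf (nat_lit 0) (nat_lit 197303259833) (nat_lit 76) (nat_lit 38488816924) (nat_lit 76) (nat_lit 33345207545) (nat_lit 1) (nat_lit 4) (nat_lit 2) (nat_lit 5) (nat_lit 2) (nat_lit 4) (nat_lit 308) (nat_lit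 225) (nat_lit 187)) (XT.nd (nat_lit 78) (nat_lit 0) (nat_lit 0) (XT.lf (nat_lit 0) (nat_lit 216159317684) (nat_lit 76) (nat_lit 39766718434) (nat_lit 76) (nat_lit 34601491912) (nat_lit 1) (nat_lit 4) (nat_lit 2) (nat_lit 5) (nat_lit 2) (nat_lit 4) (nat_lit 309) (nat_lit 225) (nat_lit 186)) (XT.lf (nat_lit 0) (nat_lit 236502536534) (nat_lit 76) (nat_lit 41156337045) (nat_lit 76) (nat_lit 35971094650) (nat_lit 1) (nat_lit 4) (nat_lit 2) (nat_lit 5) (nat_lit 2) (nat_lit 4) (nat_lit 310) (nat_lit 225) (nat_lit 185)))) (XT.nd (nat_lit 78) (nat_lit 0) (nat_lit 0) (XT.lf (nat_lit 0) (nat_lit 258453468792) (nat_lit 76) (nat_lit 42665907535) (nat_lit 76) (nat_lit 37462131924) (nat_lit 1) (nat_lit 4) (nat_lit 2) (nat_lit 5) (nat_lit 2) (nat_lit 4) (nat_lit 311) (nat_lit 225) (nat_lit 184)) (XT.nd (nat_lit 78) (nat_lit 0) (nat_lit 0) (XT.lf (nat_lit 0) (nat_lit 282142194056) (nat_lit 76) (nat_lit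 44304375506) (nat_lit 76) (nat_lit 39083439511) (nat_lit 1) (nat_lit 4) (nat_lit 2) (nat_lit 5) (nat_lit 2) (nat_lit 4) (nat_lit 312) (nat_lit 225) (nat_lit 183)) (XT.lf (nat_lit 0) (nat_lit 307709089957) (nat_lit 76) (nat_lit 46081450399) (nat_lit 76) (nat_lit 40844625158) (nat_lit 1) (nat_lit 4) (nat_lit 2) (nat_lit 5) (nat_lit 2) (nat_lit 4) (nat_lit 313) (nat_lit 225) (nat_lit 182))))) (XT.nd (nat_lit 234) (nat_lit 0) (nat_lit 0) (XT.nd (nat_lit 78) (nat_lit 0) (nat_lit 0) (XT.lf (nat_lit 0) (nat_lit 335305664026) (nat_lit 76) (nat_lit 48007663027) (nat_lit 76) (nat_lit 42756125522) (nat_lit 1) (nat_lit 4) (nat_lit 2) (nat_lit 5) (nat_lit 2) (nat_lit 4) (nat_lit 314) (nat_lit 225) (nat_lit 181)) (XT.nd (nat_lit 78) (nat_lit 0) (nat_lit 0) (XT.lf (nat_lit 0) (nat_lit 365095451517) (nat_lit 76) (nat_lit 50094427984) (nat_lit 76) (nat_lit 44829268012) (nat_lit 1) (nat_lit 4) (nat_lit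 2) (nat_lit 5) (nat_lit 2) (nat_lit 4) (nat_lit 315) (nat_lit 225) (nat_lit 180)) (XT.lf (nat_lit 0) (nat_lit 397254984504) (nat_lit 76) (nat_lit 52354111285) (nat_lit 76) (nat_lit 47076337917) (nat_lit 1) (nat_lit 4) (nat_lit 2) (nat_lit 5) (nat_lit 2) (nat_lit 4) (nat_lit 316) (nat_lit 225) (nat_lit 179)))) (XT.nd (nat_lit 78) (nat_lit 0) (nat_lit 0) (XT.lf (nat_lit 0) (nat_lit 431974837997) (nat_lit 76) (nat_lit 54800103644) (nat_lit 76) (nat_lit 49510651207) (nat_lit 1) (nat_lit 4) (nat_lit 2) (nat_lit 5) (nat_lit 2) (nat_lit 4) (nat_lit 317) (nat_lit 225) (nat_lit 178)) (XT.nd (nat_lit 78) (nat_lit 0) (nat_lit 0) (XT.lf (nat_lit 0) (nat_lit 469460759277) (nat_lit 76) (nat_lit 57446899833) (nat_lit 76) (nat_lit 52146633442) (nat_lit 1) (nat_lit 4) (nat_lit 2) (nat_lit 5) (nat_lit 2) (nat_lit 4) (nat_lit 318) (nat_lit 225) (nat_lit 177)) (XT.lf (nat_lit 0) (nat_lit 509934887137)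 (nat_lit 76) (nat_lit 60310184568) (nat_lit 76) (nat_lit 54999905258) (nat_lit 1) (nat_lit 4) (nat_lit 2) (nat_lit 5) (nat_lit 2) (nat_lit 4) (nat_lit 319) (nat_lit 225) (nat_lit 176))))))))
noncomputable def xc25 : XT := (XT.nd (nat_lit 34008) (nat_lit 0) (nat_lit 0) (XT.nd (nat_lit 936) (nat_lit 0) (nat_lit 0) (XT.nd (nat_lit 468) (nat_lit 0) (nat_lit 0) (XT.nd (nat_lit 234) (nat_lit 0) (nat_lit 0) (XT.nd (nat_lit 78) (nat_lit 0) (nat_lit 0) (XT.lf (nat_lit 0) (nat_lit 553637068258) (nat_lit 76) (nat_lit 63406925464) (nat_lit 76) (nat_lit 58087374932) (nat_lit 1) (nat_lit 4) (nat_lit 2) (nat_lit 5) (nat_lit 2) (nat_lit 4) (nat_lit 320) (nat_lit 225) (nat_lit 175)) (XT.nd (nat_lit 78) (nat_lit 0) (nat_lit 0) (XT.lf (nat_lit 0) (nat_lit 600826278531) (nat_lit 76) (nat_lit 66755473577) (nat_lit 76) (nat_lit 61427338580) (nat_lit 1) (nat_lit 4) (nat_lit 2) (nat_lit 5) (nat_lit 2) (nat_lit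 4) (nat_lit 321) (nat_lit 225) (nat_lit 174)) (XT.lf (nat_lit 0) (nat_lit 651782157719) (nat_lit 76) (nat_lit 70375672156) (nat_lit 76) (nat_lit 65039588580) (nat_lit 1) (nat_lit 4) (nat_lit 2) (nat_lit 5) (nat_lit 2) (nat_lit 4) (nat_lit 322) (nat_lit 225) (nat_lit 173)))) (XT.nd (nat_lit 78) (nat_lit 0) (nat_lit 0) (XT.lf (nat_lit 0) (nat_lit 706806666588) (nat_lit 76) (nat_lit 74288974228) (nat_lit 76) (nat_lit 68945530858) (nat_lit 1) (nat_lit 4) (nat_lit 2) (nat_lit 5) (nat_lit 2) (nat_lit 4) (nat_lit 323) (nat_lit 225) (nat_lit 172)) (XT.nd (nat_lit 78) (nat_lit 0) (nat_lit 0) (XT.lf (nat_lit 0) (nat_lit 766225876302) (nat_lit 76) (nat_lit 78518569733) (nat_lit 76) (nat_lit 73168311737) (nat_lit 1) (nat_lit 4) (nat_lit 2) (nat_lit 5) (nat_lit 2) (nat_lit 4) (nat_lit 324) (nat_lit 225) (nat_lit 171)) (XT.lf (nat_lit 0) (nat_lit 830391900696) (nat_lit 76) (nat_lit 83089522940)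 (nat_lit 76) (nat_lit 77732955106) (nat_lit 1) (nat_lit 4) (nat_lit 2) (nat_lit 5) (nat_lit 2) (nat_lit 4) (nat_lit 325) (nat_lit 225) (nat_lit 170))))) (XT.nd (nat_lit 234) (nat_lit 0) (nat_lit 0) (XT.nd (nat_lit 78) (nat_lit 0) (nat_lit 0) (XT.lf (nat_lit 0) (nat_lit 899684982877) (nat_lit 76) (nat_lit 88028920979) (nat_lit 76) (nat_lit 82666510703) (nat_lit 1) (nat_lit 4) (nat_lit 2) (nat_lit 5) (nat_lit 2) (nat_lit 4) (nat_lit 326) (nat_lit 225) (nat_lit 169)) (XT.nd (nat_lit 78) (nat_lit 0) (nat_lit 0) (XT.lf (nat_lit 0) (nat_lit 974515748518) (nat_lit 76) (nat_lit 93366034356) (nat_lit 76) (nat_lit 87998214411) (nat_lit 1) (nat_lit 4) (nat_lit 2) (nat_lit 5) (nat_lit 2) (nat_lit 4) (nat_lit 327) (nat_lit 225) (nat_lit 168)) (XT.lf (nat_lit 0) (nat_lit 1055327639193) (nat_lit 76) (nat_lit 99132490412) (nat_lit 76) (nat_lit 93759661514) (nat_lit 1) (nat_lit 4) (nat_lit 2) (nat_lit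 5) (nat_lit 2) (nat_lit 4) (nat_lit 328) (nat_lit 225) (nat_lit 167)))) (XT.nd (nat_lit 78) (nat_lit 0) (nat_lit 0) (XT.lf (nat_lit 0) (nat_lit 1142599540180) (nat_lit 76) (nat_lit 105362460736) (nat_lit 76) (nat_lit 99984993919) (nat_lit 1) (nat_lit 4) (nat_lit 2) (nat_lit 5) (nat_lit 2) (nat_lit 4) (nat_lit 329) (nat_lit 225) (nat_lit 166)) (XT.nd (nat_lit 78) (nat_lit 0) (nat_lit 0) (XT.lf (nat_lit 0) (nat_lit 1236848618299) (nat_lit 76) (nat_lit 112092863672) (nat_lit 76) (nat_lit 106711102485) (nat_lit 1) (nat_lit 4) (nat_lit 2) (nat_lit 5) (nat_lit 2) (nat_lit 4) (nat_lit 330) (nat_lit 225) (nat_lit 165)) (XT.lf (nat_lit 0) (nat_lit 1338633386607) (nat_lit 76) (nat_lit 119363583088) (nat_lit 76) (nat_lit 113977845633) (nat_lit 1) (nat_lit 4) (nat_lit 2) (nat_lit 5) (nat_lit 2) (nat_lit 4) (nat_lit 331) (nat_lit 225) (nat_lit 164)))))) (XT.nd (nat_lit 32604) (nat_lit 0) (nat_lit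 228) (XT.nd (nat_lit 234) (nat_lit 0) (nat_lit 0) (XT.nd (nat_lit 78) (nat_lit 0) (nat_lit 0) (XT.lf (nat_lit 0) (nat_lit 1448557014100) (nat_lit 76) (nat_lit 127217704730) (nat_lit 76) (nat_lit 121828285545) (nat_lit 1) (nat_lit 4) (nat_lit 2) (nat_lit 5) (nat_lit 2) (nat_lit 4) (nat_lit 332) (nat_lit 225) (nat_lit 163)) (XT.nd (nat_lit 78) (nat_lit 0) (nat_lit 0) (XT.lf (nat_lit 0) (nat_lit 1567270900053) (nat_lit 76) (nat_lit 135701771541) (nat_lit 76) (nat_lit 130308943347) (nat_lit 1) (nat_lit 4) (nat_lit 2) (nat_lit 5) (nat_lit 2) (nat_lit 4) (nat_lit 333) (nat_lit 225) (nat_lit 162)) (XT.lf (nat_lit 0) (nat_lit 1695478534160) (nat_lit 76) (nat_lit 144866059471) (nat_lit 76) (nat_lit 139470074787) (nat_lit 1) (nat_lit 4) (nat_lit 2) (nat_lit 5) (nat_lit 2) (nat_lit 4) (nat_lit 334) (nat_lit 225) (nat_lit 161)))) (XT.nd (nat_lit 78) (nat_lit 0) (nat_lit 0) (XT.lf (nat_lit 0)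 (nat_lit 1833939665364) (nat_lit 76) (nat_lit 154764875414) (nat_lit 76) (nat_lit 149365968054) (nat_lit 1) (nat_lit 4) (nat_lit 2) (nat_lit 5) (nat_lit 2) (nat_lit 4) (nat_lit 335) (nat_lit 225) (nat_lit 160)) (XT.nd (nat_lit 32214) (nat_lit 0) (nat_lit 456) (XT.lf (nat_lit 0) (nat_lit 1983474804071) (nat_lit 76) (nat_lit 165456879017) (nat_lit 76) (nat_lit 160055265476) (nat_lit 1) (nat_lit 4) (nat_lit 2) (nat_lit 5) (nat_lit 2) (nat_lit 4) (nat_lit 336) (nat_lit 225) (nat_lit 159)) (XT.lf (nat_lit 0) (nat_lit 1782710782) (nat_lit 76) (nat_lit 2946337385) (nat_lit 76) (nat_lit 2946337385) (nat_lit 7) (nat_lit 4) (nat_lit 8) (nat_lit 5) (nat_lit 8) (nat_lit 4) (nat_lit 268) (nat_lit 226) (nat_lit 226))))) (XT.nd (nat_lit 234) (nat_lit 76) (nat_lit 0) (XT.nd (nat_lit 78) (nat_lit 152) (nat_lit 0) (XT.lf (nat_lit 0) (nat_lit 10068849594) (nat_lit 76) (nat_lit 3351271939) (nat_lit 76)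 (nat_lit 2844080087) (nat_lit 7) (nat_lit 4) (nat_lit 8) (nat_lit 5) (nat_lit 8) (nat_lit 4) (nat_lit 269) (nat_lit 226) (nat_lit 225)) (XT.nd (nat_lit 78) (nat_lit 76) (nat_lit 0) (XT.lf (nat_lit 0) (nat_lit 237557739) (nat_lit 152) (nat_lit 482693840) (nat_lit 76) (nat_lit 16545314533) (nat_lit 6) (nat_lit 5) (nat_lit 8) (nat_lit 5) (nat_lit 7) (nat_lit 4) (nat_lit 270) (nat_lit 226) (nat_lit 224)) (XT.lf (nat_lit 0) (nat_lit 3426008236) (nat_lit 152) (nat_lit 12795682335) (nat_lit 0) (nat_lit 2118925640) (nat_lit 5) (nat_lit 5) (nat_lit 7) (nat_lit 4) (nat_lit 5) (nat_lit 4) (nat_lit 271) (nat_lit 226) (nat_lit 223)))) (XT.nd (nat_lit 78) (nat_lit 76) (nat_lit 0) (XT.lf (nat_lit 0) (nat_lit 6730677580) (nat_lit 152) (nat_lit 7731864052) (nat_lit 0) (nat_lit 5050793831) (nat_lit 5) (nat_lit 5) (nat_lit 7) (nat_lit 4) (nat_lit 5) (nat_lit 4) (nat_lit 272) (nat_lit 226) (nat_lit 222))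 (XT.nd (nat_lit 78) (nat_lit 76) (nat_lit 0) (XT.lf (nat_lit 0) (nat_lit 10141289426) (nat_lit 152) (nat_lit 2535553226) (nat_lit 0) (nat_lit 8116219425) (nat_lit 5) (nat_lit 5) (nat_lit 7) (nat_lit 4) (nat_lit 5) (nat_lit 4) (nat_lit 273) (nat_lit 226) (nat_lit 221)) (XT.lf (nat_lit 0) (nat_lit 2972752197) (nat_lit 76) (nat_lit 10776797373) (nat_lit 76) (nat_lit 8432110471) (nat_lit 4) (nat_lit 4) (nat_lit 5) (nat_lit 5) (nat_lit 5) (nat_lit 4) (nat_lit 274) (nat_lit 226) (nat_lit 220))))))) (XT.nd (nat_lit 936) (nat_lit 76) (nat_lit 0) (XT.nd (nat_lit 468) (nat_lit 0) (nat_lit 0) (XT.nd (nat_lit 234) (nat_lit 152) (nat_lit 0) (XT.nd (nat_lit 78) (nat_lit 0) (nat_lit 0) (XT.lf (nat_lit 0) (nat_lit 8819892207) (nat_lit 76) (nat_lit 8754158749) (nat_lit 76) (nat_lit 6113530273) (nat_lit 4) (nat_lit 4) (nat_lit 5) (nat_lit 5) (nat_lit 5) (nat_lit 4) (nat_lit 275) (nat_lit 226) (nat_lit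 219)) (XT.nd (nat_lit 78) (nat_lit 0) (nat_lit 0) (XT.lf (nat_lit 0) (nat_lit 14906998780) (nat_lit 76) (nat_lit 6666267294) (nat_lit 76) (nat_lit 3751618841) (nat_lit 4) (nat_lit 4) (nat_lit 5) (nat_lit 5) (nat_lit 5) (nat_lit 4) (nat_lit 276) (nat_lit 226) (nat_lit 218)) (XT.lf (nat_lit 0) (nat_lit 21270143660) (nat_lit 76) (nat_lit 4500750317) (nat_lit 76) (nat_lit 1332379664) (nat_lit 4) (nat_lit 4) (nat_lit 5) (nat_lit 5) (nat_lit 5) (nat_lit 4) (nat_lit 277) (nat_lit 226) (nat_lit 217)))) (XT.nd (nat_lit 78) (nat_lit 76) (nat_lit 0) (XT.lf (nat_lit 0) (nat_lit 1100569452) (nat_lit 152) (nat_lit 1114114154) (nat_lit 76) (nat_lit 26816373400) (nat_lit 3) (nat_lit 5) (nat_lit 5) (nat_lit 5) (nat_lit 4) (nat_lit 4) (nat_lit 278) (nat_lit 226) (nat_lit 216)) (XT.nd (nat_lit 78) (nat_lit 0) (nat_lit 0) (XT.lf (nat_lit 0) (nat_lit 3651758328) (nat_lit 152) (nat_lit 27160046830) (nat_lit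 0) (nat_lit 299143042) (nat_lit 2) (nat_lit 5) (nat_lit 4) (nat_lit 4) (nat_lit 2) (nat_lit 4) (nat_lit 279) (nat_lit 226) (nat_lit 215)) (XT.lf (nat_lit 0) (nat_lit 6390293912) (nat_lit 152) (nat_lit 24117369838) (nat_lit 0) (nat_lit 2851185234) (nat_lit 2) (nat_lit 5) (nat_lit 4) (nat_lit 4) (nat_lit 2) (nat_lit 4) (nat_lit 280) (nat_lit 226) (nat_lit 214))))) (XT.nd (nat_lit 234) (nat_lit 0) (nat_lit 0) (XT.nd (nat_lit 78) (nat_lit 0) (nat_lit 0) (XT.lf (nat_lit 0) (nat_lit 9250203338) (nat_lit 152) (nat_lit 21006037415) (nat_lit 0) (nat_lit 5538415595) (nat_lit 2) (nat_lit 5) (nat_lit 4) (nat_lit 4) (nat_lit 2) (nat_lit 4) (nat_lit 281) (nat_lit 226) (nat_lit 213)) (XT.nd (nat_lit 78) (nat_lit 0) (nat_lit 0) (XT.lf (nat_lit 0) (nat_lit 12248434220) (nat_lit 152) (nat_lit 17807612037) (nat_lit 0) (nat_lit 8376758452) (nat_lit 2) (nat_lit 5) (nat_lit 4) (nat_lit 4) (nat_lit 2) (nat_lit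 4) (nat_lit 282) (nat_lit 226) (nat_lit 212)) (XT.lf (nat_lit 0) (nat_lit 15402753850) (nat_lit 152) (nat_lit 14503140071) (nat_lit 0) (nat_lit 11383033615) (nat_lit 2) (nat_lit 5) (nat_lit 4) (nat_lit 4) (nat_lit 2) (nat_lit 4) (nat_lit 283) (nat_lit 226) (nat_lit 211)))) (XT.nd (nat_lit 78) (nat_lit 0) (nat_lit 0) (XT.lf (nat_lit 0) (nat_lit 18731854494) (nat_lit 152) (nat_lit 11073039462) (nat_lit 0) (nat_lit 14575056049) (nat_lit 2) (nat_lit 5) (nat_lit 4) (nat_lit 4) (nat_lit 2) (nat_lit 4) (nat_lit 284) (nat_lit 226) (nat_lit 210)) (XT.nd (nat_lit 78) (nat_lit 0) (nat_lit 0) (XT.lf (nat_lit 0) (nat_lit 22255464155) (nat_lit 152) (nat_lit 7496983687) (nat_lit 0) (nat_lit 17971741441) (nat_lit 2) (nat_lit 5) (nat_lit 4) (nat_lit 4) (nat_lit 2) (nat_lit 4) (nat_lit 285) (nat_lit 226) (nat_lit 209)) (XT.lf (nat_lit 0) (nat_lit 25994463482) (nat_lit 152) (nat_lit 3753781304) (nat_lit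 0) (nat_lit 21593218297) (nat_lit 2) (nat_lit 5) (nat_lit 4) (nat_lit 4) (nat_lit 2) (nat_lit 4) (nat_lit 286) (nat_lit 226) (nat_lit 208)))))) (XT.nd (nat_lit 468) (nat_lit 0) (nat_lit 0) (XT.nd (nat_lit 234) (nat_lit 0) (nat_lit 0) (XT.nd (nat_lit 78) (nat_lit 0) (nat_lit 0) (XT.lf (nat_lit 0) (nat_lit 188162264) (nat_lit 76) (nat_lit 29787372552) (nat_lit 76) (nat_lit 25277310265) (nat_lit 1) (nat_lit 4) (nat_lit 2) (nat_lit 5) (nat_lit 2) (nat_lit 4) (nat_lit 287) (nat_lit 226) (nat_lit 207)) (XT.nd (nat_lit 78) (nat_lit 0) (nat_lit 0) (XT.lf (nat_lit 0) (nat_lit 4551602586) (nat_lit 76) (nat_lit 29766530520) (nat_lit 76) (nat_lit 25155711656) (nat_lit 1) (nat_lit 4) (nat_lit 2) (nat_lit 5) (nat_lit 2) (nat_lit 4) (nat_lit 288) (nat_lit 226) (nat_lit 206)) (XT.lf (nat_lit 0) (nat_lit 9164729613) (nat_lit 76) (nat_lit 29788230214) (nat_lit 76) (nat_lit 25084118224) (nat_lit 1)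 (nat_lit 4) (nat_lit 2) (nat_lit 5) (nat_lit 2) (nat_lit 4) (nat_lit 289) (nat_lit 226) (nat_lit 205)))) (XT.nd (nat_lit 78) (nat_lit 0) (nat_lit 0) (XT.lf (nat_lit 0) (nat_lit 14054880396) (nat_lit 76) (nat_lit 29852600226) (nat_lit 76) (nat_lit 25062105711) (nat_lit 1) (nat_lit 4) (nat_lit 2) (nat_lit 5) (nat_lit 2) (nat_lit 4) (nat_lit 290) (nat_lit 226) (nat_lit 204)) (XT.nd (nat_lit 78) (nat_lit 0) (nat_lit 0) (XT.lf (nat_lit 0) (nat_lit 19251033605) (nat_lit 76) (nat_lit 29960022008) (nat_lit 76) (nat_lit 25089543673) (nat_lit 1) (nat_lit 4) (nat_lit 2) (nat_lit 5) (nat_lit 2) (nat_lit 4) (nat_lit 291) (nat_lit 226) (nat_lit 203)) (XT.lf (nat_lit 0) (nat_lit 24783981258) (nat_lit 76) (nat_lit 30111132132) (nat_lit 76) (nat_lit 25166594706) (nat_lit 1) (nat_lit 4) (nat_lit 2) (nat_lit 5) (nat_lit 2) (nat_lit 4) (nat_lit 292) (nat_lit 226) (nat_lit 202))))) (XT.nd (nat_lit 234)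 (nat_lit 0) (nat_lit 0) (XT.nd (nat_lit 78) (nat_lit 0) (nat_lit 0) (XT.lf (nat_lit 0) (nat_lit 30686511196) (nat_lit 76) (nat_lit 30306826066) (nat_lit 76) (nat_lit 25293715407) (nat_lit 1) (nat_lit 4) (nat_lit 2) (nat_lit 5) (nat_lit 2) (nat_lit 4) (nat_lit 293) (nat_lit 226) (nat_lit 201)) (XT.nd (nat_lit 78) (nat_lit 0) (nat_lit 0) (XT.lf (nat_lit 0) (nat_lit 36993601371) (nat_lit 76) (nat_lit 30548263479) (nat_lit 76) (nat_lit 25471659086) (nat_lit 1) (nat_lit 4) (nat_lit 2) (nat_lit 5) (nat_lit 2) (nat_lit 4) (nat_lit 294) (nat_lit 226) (nat_lit 200)) (XT.lf (nat_lit 0) (nat_lit 43742627134) (nat_lit 76) (nat_lit 30836875110) (nat_lit 76) (nat_lit 25701480222) (nat_lit 1) (nat_lit 4) (nat_lit 2) (nat_lit 5) (nat_lit 2) (nat_lit 4) (nat_lit 295) (nat_lit 226) (nat_lit 199)))) (XT.nd (nat_lit 78) (nat_lit 0) (nat_lit 0) (XT.lf (nat_lit 0) (nat_lit 50973582711) (nat_lit 76) (nat_lit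 31174371251) (nat_lit 76) (nat_lit 25984540719) (nat_lit 1) (nat_lit 4) (nat_lit 2) (nat_lit 5) (nat_lit 2) (nat_lit 4) (nat_lit 296) (nat_lit 226) (nat_lit 198)) (XT.nd (nat_lit 78) (nat_lit 0) (nat_lit 0) (XT.lf (nat_lit 0) (nat_lit 58729318210) (nat_lit 76) (nat_lit 31562751878) (nat_lit 76) (nat_lit 26322517973) (nat_lit 1) (nat_lit 4) (nat_lit 2) (nat_lit 5) (nat_lit 2) (nat_lit 4) (nat_lit 297) (nat_lit 226) (nat_lit 197)) (XT.lf (nat_lit 0) (nat_lit 67055793544) (nat_lit 76) (nat_lit 32004318506) (nat_lit 76) (nat_lit 26717414811) (nat_lit 1) (nat_lit 4) (nat_lit 2) (nat_lit 5) (nat_lit 2) (nat_lit 4) (nat_lit 298) (nat_lit 226) (nat_lit 196))))))))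
noncomputable def xc26 : XT := (XT.nd (nat_lit 1794) (nat_lit 0) (nat_lit 0) (XT.nd (nat_lit 858) (nat_lit 0) (nat_lit 0) (XT.nd (nat_lit 390) (nat_lit 0) (nat_lit 0) (XT.nd (nat_lit 156) (nat_lit 0) (nat_lit 0) (XT.nd (nat_lit 78) (nat_lit 0) (nat_lit 0) (XT.lf (nat_lit 0) (nat_lit 76002350790) (nat_lit 76) (nat_lit 32501687827) (nat_lit 76) (nat_lit 27171571364) (nat_lit 1) (nat_lit 4) (nat_lit 2) (nat_lit 5) (nat_lit 2) (nat_lit 4) (nat_lit 299) (nat_lit 226) (nat_lit 195)) (XT.lf (nat_lit 0) (nat_lit 85622006582) (nat_lit 76) (nat_lit 33057807215) (nat_lit 76) (nat_lit 27687678928) (nat_lit 1) (nat_lit 4) (nat_lit 2) (nat_lit 5) (nat_lit 2) (nat_lit 4) (nat_lit 300) (nat_lit 226) (nat_lit 194))) (XT.nd (nat_lit 78) (nat_lit 0) (nat_lit 0) (XT.lf (nat_lit 0) (nat_lit 95971766290) (nat_lit 76) (nat_lit 33675972191) (nat_lit 76) (nat_lit 28268795920) (nat_lit 1) (nat_lit 4) (nat_lit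 2) (nat_lit 5) (nat_lit 2) (nat_lit 4) (nat_lit 301) (nat_lit 226) (nat_lit 193)) (XT.nd (nat_lit 78) (nat_lit 0) (nat_lit 0) (XT.lf (nat_lit 0) (nat_lit 107112961821) (nat_lit 76) (nat_lit 34359845956) (nat_lit 76) (nat_lit 28918365996) (nat_lit 1) (nat_lit 4) (nat_lit 2) (nat_lit 5) (nat_lit 2) (nat_lit 4) (nat_lit 302) (nat_lit 226) (nat_lit 192)) (XT.lf (nat_lit 0) (nat_lit 119111615076) (nat_lit 76) (nat_lit 35113481094) (nat_lit 76) (nat_lit 29640238459) (nat_lit 1) (nat_lit 4) (nat_lit 2) (nat_lit 5) (nat_lit 2) (nat_lit 4) (nat_lit 303) (nat_lit 226) (nat_lit 191))))) (XT.nd (nat_lit 234) (nat_lit 0) (nat_lit 0) (XT.nd (nat_lit 78) (nat_lit 0) (nat_lit 0) (XT.lf (nat_lit 0) (nat_lit 132038829185) (nat_lit 76) (nat_lit 35941343592) (nat_lit 76) (nat_lit 30438691073) (nat_lit 1) (nat_lit 4) (nat_lit 2) (nat_lit 5) (nat_lit 2) (nat_lit 4) (nat_lit 304) (nat_lit 226) (nat_lit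 190)) (XT.nd (nat_lit 78) (nat_lit 0) (nat_lit 0) (XT.lf (nat_lit 0) (nat_lit 145971209862) (nat_lit 76) (nat_lit 36848339301) (nat_lit 76) (nat_lit 31318455408) (nat_lit 1) (nat_lit 4) (nat_lit 2) (nat_lit 5) (nat_lit 2) (nat_lit 4) (nat_lit 305) (nat_lit 226) (nat_lit 189)) (XT.lf (nat_lit 0) (nat_lit 160991319361) (nat_lit 76) (nat_lit 37839843012) (nat_lit 76) (nat_lit 32284744883) (nat_lit 1) (nat_lit 4) (nat_lit 2) (nat_lit 5) (nat_lit 2) (nat_lit 4) (nat_lit 306) (nat_lit 226) (nat_lit 188)))) (XT.nd (nat_lit 78) (nat_lit 0) (nat_lit 0) (XT.lf (nat_lit 0) (nat_lit 177188165739) (nat_lit 76) (nat_lit 38921730301) (nat_lit 76) (nat_lit 33343285658) (nat_lit 1) (nat_lit 4) (nat_lit 2) (nat_lit 5) (nat_lit 2) (nat_lit 4) (nat_lit 307) (nat_lit 226) (nat_lit 187)) (XT.nd (nat_lit 78) (nat_lit 0) (nat_lit 0) (XT.lf (nat_lit 0) (nat_lit 194657730309) (nat_lit 76) (nat_lit 40100412353)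 (nat_lit 76) (nat_lit 34500350567) (nat_lit 1) (nat_lit 4) (nat_lit 2) (nat_lit 5) (nat_lit 2) (nat_lit 4) (nat_lit 308) (nat_lit 226) (nat_lit 186)) (XT.lf (nat_lit 0) (nat_lit 213503536416) (nat_lit 76) (nat_lit 41382873949) (nat_lit 76) (nat_lit 35762796290) (nat_lit 1) (nat_lit 4) (nat_lit 2) (nat_lit 5) (nat_lit 2) (nat_lit 4) (nat_lit 309) (nat_lit 226) (nat_lit 185)))))) (XT.nd (nat_lit 468) (nat_lit 0) (nat_lit 0) (XT.nd (nat_lit 234) (nat_lit 0) (nat_lit 0) (XT.nd (nat_lit 78) (nat_lit 0) (nat_lit 0) (XT.lf (nat_lit 0) (nat_lit 233837262910) (nat_lit 76) (nat_lit 42776714863) (nat_lit 76) (nat_lit 37138103988) (nat_lit 1) (nat_lit 4) (nat_lit 2) (nat_lit 5) (nat_lit 2) (nat_lit 4) (nat_lit 310) (nat_lit 226) (nat_lit 184)) (XT.nd (nat_lit 78) (nat_lit 0) (nat_lit 0) (XT.lf (nat_lit 0) (nat_lit 255779405949) (nat_lit 76) (nat_lit 44290194893) (nat_lit 76) (nat_lit 38634423633)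 (nat_lit 1) (nat_lit 4) (nat_lit 2) (nat_lit 5) (nat_lit 2) (nat_lit 4) (nat_lit 311) (nat_lit 226) (nat_lit 183)) (XT.lf (nat_lit 0) (nat_lit 279459993047) (nat_lit 76) (nat_lit 45932282808) (nat_lit 76) (nat_lit 40260622303) (nat_lit 1) (nat_lit 4) (nat_lit 2) (nat_lit 5) (nat_lit 2) (nat_lit 4) (nat_lit 312) (nat_lit 226) (nat_lit 182)))) (XT.nd (nat_lit 78) (nat_lit 0) (nat_lit 0) (XT.lf (nat_lit 0) (nat_lit 305019353610) (nat_lit 76) (nat_lit 47712709501) (nat_lit 76) (nat_lit 42026336731) (nat_lit 1) (nat_lit 4) (nat_lit 2) (nat_lit 5) (nat_lit 2) (nat_lit 4) (nat_lit 313) (nat_lit 226) (nat_lit 181)) (XT.nd (nat_lit 78) (nat_lit 0) (nat_lit 0) (XT.lf (nat_lit 0) (nat_lit 332608950514) (nat_lit 76) (nat_lit 49642025648) (nat_lit 76) (nat_lit 43942030411) (nat_lit 1) (nat_lit 4) (nat_lit 2) (nat_lit 5) (nat_lit 2) (nat_lit 4) (nat_lit 314) (nat_lit 226) (nat_lit 180)) (XT.lf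 (nat_lit 0) (nat_lit 362392277667) (nat_lit 76) (nat_lit 51731664233) (nat_lit 76) (nat_lit 46019055601) (nat_lit 1) (nat_lit 4) (nat_lit 2) (nat_lit 5) (nat_lit 2) (nat_lit 4) (nat_lit 315) (nat_lit 226) (nat_lit 179))))) (XT.nd (nat_lit 234) (nat_lit 0) (nat_lit 0) (XT.nd (nat_lit 78) (nat_lit 0) (nat_lit 0) (XT.lf (nat_lit 0) (nat_lit 394545828859) (nat_lit 76) (nat_lit 53994008301) (nat_lit 76) (nat_lit 48269720599) (nat_lit 1) (nat_lit 4) (nat_lit 2) (nat_lit 5) (nat_lit 2) (nat_lit 4) (nat_lit 316) (nat_lit 226) (nat_lit 178)) (XT.nd (nat_lit 78) (nat_lit 0) (nat_lit 0) (XT.lf (nat_lit 0) (nat_lit 429260143654) (nat_lit 76) (nat_lit 56442464333) (nat_lit 76) (nat_lit 50707362678) (nat_lit 1) (nat_lit 4) (nat_lit 2) (nat_lit 5) (nat_lit 2) (nat_lit 4) (nat_lit 317) (nat_lit 226) (nat_lit 177)) (XT.lf (nat_lit 0) (nat_lit 466740936510) (nat_lit 76) (nat_lit 59091541701) (nat_lit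 76) (nat_lit 53346427126) (nat_lit 1) (nat_lit 4) (nat_lit 2) (nat_lit 5) (nat_lit 2) (nat_lit 4) (nat_lit 318) (nat_lit 226) (nat_lit 176)))) (XT.nd (nat_lit 78) (nat_lit 0) (nat_lit 0) (XT.lf (nat_lit 0) (nat_lit 507210315827) (nat_lit 76) (nat_lit 61956938639) (nat_lit 76) (nat_lit 56202552842) (nat_lit 1) (nat_lit 4) (nat_lit 2) (nat_lit 5) (nat_lit 2) (nat_lit 4) (nat_lit 319) (nat_lit 226) (nat_lit 175)) (XT.nd (nat_lit 78) (nat_lit 0) (nat_lit 0) (XT.lf (nat_lit 0) (nat_lit 550908100152) (nat_lit 76) (nat_lit 65055635278) (nat_lit 76) (nat_lit 59292665016) (nat_lit 1) (nat_lit 4) (nat_lit 2) (nat_lit 5) (nat_lit 2) (nat_lit 4) (nat_lit 320) (nat_lit 226) (nat_lit 174)) (XT.lf (nat_lit 0) (nat_lit 598093239315) (nat_lit 76) (nat_lit 68405994264) (nat_lit 76) (nat_lit 62635075424) (nat_lit 1) (nat_lit 4) (nat_lit 2) (nat_lit 5) (nat_lit 2) (nat_lit 4) (nat_lit 321) (nat_lit 226)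 (nat_lit 173))))))) (XT.nd (nat_lit 936) (nat_lit 0) (nat_lit 0) (XT.nd (nat_lit 468) (nat_lit 0) (nat_lit 0) (XT.nd (nat_lit 234) (nat_lit 0) (nat_lit 0) (XT.nd (nat_lit 78) (nat_lit 0) (nat_lit 0) (XT.lf (nat_lit 0) (nat_lit 649045348958) (nat_lit 76) (nat_lit 72027869577) (nat_lit 76) (nat_lit 66249590942) (nat_lit 1) (nat_lit 4) (nat_lit 2) (nat_lit 5) (nat_lit 2) (nat_lit 4) (nat_lit 322) (nat_lit 226) (nat_lit 172)) (XT.nd (nat_lit 78) (nat_lit 0) (nat_lit 0) (XT.lf (nat_lit 0) (nat_lit 704066367508) (nat_lit 76) (nat_lit 75942724181) (nat_lit 76) (nat_lit 70157630921) (nat_lit 1) (nat_lit 4) (nat_lit 2) (nat_lit 5) (nat_lit 2) (nat_lit 4) (nat_lit 323) (nat_lit 226) (nat_lit 171)) (XT.lf (nat_lit 0) (nat_lit 763482345444) (nat_lit 76) (nat_lit 80173757216) (nat_lit 76) (nat_lit 74382354118) (nat_lit 1) (nat_lit 4) (nat_lit 2) (nat_lit 5) (nat_lit 2) (nat_lit 4) (nat_lit 324)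 (nat_lit 226) (nat_lit 170)))) (XT.nd (nat_lit 78) (nat_lit 0) (nat_lit 0) (XT.lf (nat_lit 0) (nat_lit 827645377451) (nat_lit 76) (nat_lit 84746041469) (nat_lit 76) (nat_lit 78948795928) (nat_lit 1) (nat_lit 4) (nat_lit 2) (nat_lit 5) (nat_lit 2) (nat_lit 4) (nat_lit 325) (nat_lit 226) (nat_lit 169)) (XT.nd (nat_lit 78) (nat_lit 0) (nat_lit 0) (XT.lf (nat_lit 0) (nat_lit 896935688905) (nat_lit 76) (nat_lit 89686671957) (nat_lit 76) (nat_lit 83884016748) (nat_lit 1) (nat_lit 4) (nat_lit 2) (nat_lit 5) (nat_lit 2) (nat_lit 4) (nat_lit 326) (nat_lit 226) (nat_lit 168)) (XT.lf (nat_lit 0) (nat_lit 971763889056) (nat_lit 76) (nat_lit 95024926492) (nat_lit 76) (nat_lit 89217262330) (nat_lit 1) (nat_lit 4) (nat_lit 2) (nat_lit 5) (nat_lit 2) (nat_lit 4) (nat_lit 327) (nat_lit 226) (nat_lit 167))))) (XT.nd (nat_lit 234) (nat_lit 0) (nat_lit 0) (XT.nd (nat_lit 78) (nat_lit 0) (nat_lit 0) (XT.lf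 (nat_lit 0) (nat_lit 1052573404278) (nat_lit 76) (nat_lit 100792439175) (nat_lit 76) (nat_lit 94980137093) (nat_lit 1) (nat_lit 4) (nat_lit 2) (nat_lit 5) (nat_lit 2) (nat_lit 4) (nat_lit 328) (nat_lit 226) (nat_lit 166)) (XT.nd (nat_lit 78) (nat_lit 0) (nat_lit 0) (XT.lf (nat_lit 0) (nat_lit 1139843105772) (nat_lit 76) (nat_lit 107023387857) (nat_lit 76) (nat_lit 101206791406) (nat_lit 1) (nat_lit 4) (nat_lit 2) (nat_lit 5) (nat_lit 2) (nat_lit 4) (nat_lit 329) (nat_lit 226) (nat_lit 165)) (XT.lf (nat_lit 0) (nat_lit 1234090147323) (nat_lit 76) (nat_lit 113754696681) (nat_lit 76) (nat_lit 107934123961) (nat_lit 1) (nat_lit 4) (nat_lit 2) (nat_lit 5) (nat_lit 2) (nat_lit 4) (nat_lit 330) (nat_lit 226) (nat_lit 164)))) (XT.nd (nat_lit 78) (nat_lit 0) (nat_lit 0) (XT.lf (nat_lit 0) (nat_lit 1335873029920) (nat_lit 76) (nat_lit 121026254882) (nat_lit 76) (nat_lit 115202000432) (nat_lit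 1) (nat_lit 4) (nat_lit 2) (nat_lit 5) (nat_lit 2) (nat_lit 4) (nat_lit 331) (nat_lit 226) (nat_lit 163)) (XT.nd (nat_lit 78) (nat_lit 0) (nat_lit 0) (XT.lf (nat_lit 0) (nat_lit 1445794911384) (nat_lit 76) (nat_lit 128881153176) (nat_lit 76) (nat_lit 123053489718) (nat_lit 1) (nat_lit 4) (nat_lit 2) (nat_lit 5) (nat_lit 2) (nat_lit 4) (nat_lit 332) (nat_lit 226) (nat_lit 162)) (XT.lf (nat_lit 0) (nat_lit 1564507180644) (nat_lit 76) (nat_lit 137365939110) (nat_lit 76) (nat_lit 131535119161) (nat_lit 1) (nat_lit 4) (nat_lit 2) (nat_lit 5) (nat_lit 2) (nat_lit 4) (nat_lit 333) (nat_lit 226) (nat_lit 161)))))) (XT.nd (nat_lit 32448) (nat_lit 0) (nat_lit 228) (XT.nd (nat_lit 32214) (nat_lit 0) (nat_lit 456) (XT.nd (nat_lit 78) (nat_lit 0) (nat_lit 0) (XT.lf (nat_lit 0) (nat_lit 1692713317812) (nat_lit 76) (nat_lit 146530892895) (nat_lit 76) (nat_lit 140697150270) (nat_lit 1) (nat_lit 4)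 (nat_lit 2) (nat_lit 5) (nat_lit 2) (nat_lit 4) (nat_lit 334) (nat_lit 226) (nat_lit 160)) (XT.nd (nat_lit 78) (nat_lit 0) (nat_lit 0) (XT.lf (nat_lit 0) (nat_lit 1831173062962) (nat_lit 76) (nat_lit 156430325369) (nat_lit 76) (nat_lit 150593876563) (nat_lit 1) (nat_lit 4) (nat_lit 2) (nat_lit 5) (nat_lit 2) (nat_lit 4) (nat_lit 335) (nat_lit 226) (nat_lit 159)) (XT.lf (nat_lit 0) (nat_lit 1980706918287) (nat_lit 76) (nat_lit 167122899835) (nat_lit 76) (nat_lit 161283945306) (nat_lit 1) (nat_lit 4) (nat_lit 2) (nat_lit 5) (nat_lit 2) (nat_lit 4) (nat_lit 336) (nat_lit 226) (nat_lit 158)))) (XT.nd (nat_lit 78) (nat_lit 76) (nat_lit 0) (XT.lf (nat_lit 0) (nat_lit 1352035235) (nat_lit 152) (nat_lit 4167186162) (nat_lit 0) (nat_lit 1352035235) (nat_lit 8) (nat_lit 5) (nat_lit 10) (nat_lit 4) (nat_lit 8) (nat_lit 4) (nat_lit 266) (nat_lit 227) (nat_lit 227)) (XT.nd (nat_lit 78) (nat_lit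 76) (nat_lit 0) (XT.lf (nat_lit 0) (nat_lit 6220692259) (nat_lit 152) (nat_lit 2621416265) (nat_lit 0) (nat_lit 5672925058) (nat_lit 8) (nat_lit 5) (nat_lit 10) (nat_lit 4) (nat_lit 8) (nat_lit 4) (nat_lit 267) (nat_lit 227) (nat_lit 226)) (XT.lf (nat_lit 0) (nat_lit 3407998923) (nat_lit 76) (nat_lit 6502848292) (nat_lit 76) (nat_lit 5447889238) (nat_lit 7) (nat_lit 4) (nat_lit 8) (nat_lit 5) (nat_lit 8) (nat_lit 4) (nat_lit 268) (nat_lit 227) (nat_lit 225))))) (XT.nd (nat_lit 234) (nat_lit 76) (nat_lit 0) (XT.nd (nat_lit 78) (nat_lit 152) (nat_lit 0) (XT.lf (nat_lit 0) (nat_lit 9765665249) (nat_lit 76) (nat_lit 4019229088) (nat_lit 76) (nat_lit 2494647949) (nat_lit 7) (nat_lit 4) (nat_lit 8) (nat_lit 5) (nat_lit 8) (nat_lit 4) (nat_lit 269) (nat_lit 227) (nat_lit 224)) (XT.nd (nat_lit 78) (nat_lit 76) (nat_lit 0) (XT.lf (nat_lit 0) (nat_lit 485636317) (nat_lit 152) (nat_lit 949292864)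 (nat_lit 76) (nat_lit 15852304161) (nat_lit 6) (nat_lit 5) (nat_lit 8) (nat_lit 5) (nat_lit 7) (nat_lit 4) (nat_lit 270) (nat_lit 227) (nat_lit 223)) (XT.lf (nat_lit 0) (nat_lit 3562517072) (nat_lit 152) (nat_lit 13433518059) (nat_lit 0) (nat_lit 1375441471) (nat_lit 5) (nat_lit 5) (nat_lit 7) (nat_lit 4) (nat_lit 5) (nat_lit 4) (nat_lit 271) (nat_lit 227) (nat_lit 222)))) (XT.nd (nat_lit 78) (nat_lit 76) (nat_lit 0) (XT.lf (nat_lit 0) (nat_lit 6791017644) (nat_lit 152) (nat_lit 8500763679) (nat_lit 0) (nat_lit 4258755790) (nat_lit 5) (nat_lit 5) (nat_lit 7) (nat_lit 4) (nat_lit 5) (nat_lit 4) (nat_lit 272) (nat_lit 227) (nat_lit 221)) (XT.nd (nat_lit 78) (nat_lit 76) (nat_lit 0) (XT.lf (nat_lit 0) (nat_lit 10131102850) (nat_lit 152) (nat_lit 3425808321) (nat_lit 0) (nat_lit 7279224096) (nat_lit 5) (nat_lit 5) (nat_lit 7) (nat_lit 4) (nat_lit 5) (nat_lit 4) (nat_lit 273) (nat_lit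 227) (nat_lit 220)) (XT.lf (nat_lit 0) (nat_lit 1917334670) (nat_lit 76) (nat_lit 11731343062) (nat_lit 76) (nat_lit 8583522734) (nat_lit 4) (nat_lit 4) (nat_lit 5) (nat_lit 5) (nat_lit 5) (nat_lit 4) (nat_lit 274) (nat_lit 227) (nat_lit 219))))))))
noncomputable def xc27 : XT := (XT.nd (nat_lit 1872) (nat_lit 0) (nat_lit 0) (XT.nd (nat_lit 936) (nat_lit 76) (nat_lit 0) (XT.nd (nat_lit 468) (nat_lit 0) (nat_lit 0) (XT.nd (nat_lit 234) (nat_lit 152) (nat_lit 0) (XT.nd (nat_lit 78) (nat_lit 0) (nat_lit 0) (XT.lf (nat_lit 0) (nat_lit 7654953220) (nat_lit 76) (nat_lit 9755126678) (nat_lit 76) (nat_lit 6333286373) (nat_lit 4) (nat_lit 4) (nat_lit 5) (nat_lit 5) (nat_lit 5) (nat_lit 4) (nat_lit 275) (nat_lit 227) (nat_lit 218)) (XT.nd (nat_lit 78) (nat_lit 0) (nat_lit 0) (XT.lf (nat_lit 0) (nat_lit 13640651034) (nat_lit 76) (nat_lit 7710218778) (nat_lit 76) (nat_lit 4034656273) (nat_lit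 4) (nat_lit 4) (nat_lit 5) (nat_lit 5) (nat_lit 5) (nat_lit 4) (nat_lit 276) (nat_lit 227) (nat_lit 217)) (XT.lf (nat_lit 0) (nat_lit 19909898915) (nat_lit 76) (nat_lit 5584501390) (nat_lit 76) (nat_lit 1674010921) (nat_lit 4) (nat_lit 4) (nat_lit 5) (nat_lit 5) (nat_lit 5) (nat_lit 4) (nat_lit 277) (nat_lit 227) (nat_lit 216)))) (XT.nd (nat_lit 78) (nat_lit 76) (nat_lit 0) (XT.lf (nat_lit 0) (nat_lit 724488415) (nat_lit 152) (nat_lit 2621080456) (nat_lit 76) (nat_lit 25755550748) (nat_lit 3) (nat_lit 5) (nat_lit 5) (nat_lit 5) (nat_lit 4) (nat_lit 4) (nat_lit 278) (nat_lit 227) (nat_lit 215)) (XT.nd (nat_lit 78) (nat_lit 0) (nat_lit 0) (XT.lf (nat_lit 0) (nat_lit 2285233204) (nat_lit 76) (nat_lit 894892963) (nat_lit 152) (nat_lit 28008662593) (nat_lit 2) (nat_lit 5) (nat_lit 3) (nat_lit 5) (nat_lit 4) (nat_lit 4) (nat_lit 279) (nat_lit 227) (nat_lit 214)) (XT.lf (nat_lit 0) (nat_lit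 5850164071) (nat_lit 152) (nat_lit 25923374987) (nat_lit 0) (nat_lit 1668754242) (nat_lit 2) (nat_lit 5) (nat_lit 4) (nat_lit 4) (nat_lit 2) (nat_lit 4) (nat_lit 280) (nat_lit 227) (nat_lit 213))))) (XT.nd (nat_lit 234) (nat_lit 0) (nat_lit 0) (XT.nd (nat_lit 78) (nat_lit 0) (nat_lit 0) (XT.lf (nat_lit 0) (nat_lit 8666577681) (nat_lit 152) (nat_lit 22889837583) (nat_lit 0) (nat_lit 4325279827) (nat_lit 2) (nat_lit 5) (nat_lit 4) (nat_lit 4) (nat_lit 2) (nat_lit 4) (nat_lit 281) (nat_lit 227) (nat_lit 212)) (XT.nd (nat_lit 78) (nat_lit 0) (nat_lit 0) (XT.lf (nat_lit 0) (nat_lit 11624534658) (nat_lit 152) (nat_lit 19763444629) (nat_lit 0) (nat_lit 7135192337) (nat_lit 2) (nat_lit 5) (nat_lit 4) (nat_lit 4) (nat_lit 2) (nat_lit 4) (nat_lit 282) (nat_lit 227) (nat_lit 211)) (XT.lf (nat_lit 0) (nat_lit 14741563635) (nat_lit 152) (nat_lit 16525669353) (nat_lit 0) (nat_lit 10115143105) (nat_lit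 2) (nat_lit 5) (nat_lit 4) (nat_lit 4) (nat_lit 2) (nat_lit 4) (nat_lit 283) (nat_lit 227) (nat_lit 210)))) (XT.nd (nat_lit 78) (nat_lit 0) (nat_lit 0) (XT.lf (nat_lit 0) (nat_lit 18036135897) (nat_lit 152) (nat_lit 13157324937) (nat_lit 0) (nat_lit 13282791097) (nat_lit 2) (nat_lit 5) (nat_lit 4) (nat_lit 4) (nat_lit 2) (nat_lit 4) (nat_lit 284) (nat_lit 227) (nat_lit 209)) (XT.nd (nat_lit 78) (nat_lit 0) (nat_lit 0) (XT.lf (nat_lit 0) (nat_lit 21527774834) (nat_lit 152) (nat_lit 9638450822) (nat_lit 0) (nat_lit 16656907563) (nat_lit 2) (nat_lit 5) (nat_lit 4) (nat_lit 4) (nat_lit 2) (nat_lit 4) (nat_lit 285) (nat_lit 227) (nat_lit 208)) (XT.lf (nat_lit 0) (nat_lit 25237171639) (nat_lit 152) (nat_lit 5948194422) (nat_lit 0) (nat_lit 20257487266) (nat_lit 2) (nat_lit 5) (nat_lit 4) (nat_lit 4) (nat_lit 2) (nat_lit 4) (nat_lit 286) (nat_lit 227) (nat_lit 207)))))) (XT.nd (nat_lit 468)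 (nat_lit 0) (nat_lit 0) (XT.nd (nat_lit 234) (nat_lit 0) (nat_lit 0) (XT.nd (nat_lit 78) (nat_lit 76) (nat_lit 0) (XT.lf (nat_lit 0) (nat_lit 29186307924) (nat_lit 152) (nat_lit 2064687549) (nat_lit 0) (nat_lit 24105866974) (nat_lit 2) (nat_lit 5) (nat_lit 4) (nat_lit 4) (nat_lit 2) (nat_lit 4) (nat_lit 287) (nat_lit 227) (nat_lit 206)) (XT.nd (nat_lit 78) (nat_lit 0) (nat_lit 0) (XT.lf (nat_lit 0) (nat_lit 2142247042) (nat_lit 76) (nat_lit 31307860028) (nat_lit 76) (nat_lit 26134125951) (nat_lit 1) (nat_lit 4) (nat_lit 2) (nat_lit 5) (nat_lit 2) (nat_lit 4) (nat_lit 288) (nat_lit 227) (nat_lit 205)) (XT.lf (nat_lit 0) (nat_lit 6711130604) (nat_lit 76) (nat_lit 31349239694) (nat_lit 76) (nat_lit 26089123093) (nat_lit 1) (nat_lit 4) (nat_lit 2) (nat_lit 5) (nat_lit 2) (nat_lit 4) (nat_lit 289) (nat_lit 227) (nat_lit 204)))) (XT.nd (nat_lit 78) (nat_lit 0) (nat_lit 0) (XT.lf (nat_lit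 0) (nat_lit 11560315216) (nat_lit 76) (nat_lit 31431831902) (nat_lit 76) (nat_lit 26091731482) (nat_lit 1) (nat_lit 4) (nat_lit 2) (nat_lit 5) (nat_lit 2) (nat_lit 4) (nat_lit 290) (nat_lit 227) (nat_lit 203)) (XT.nd (nat_lit 78) (nat_lit 0) (nat_lit 0) (XT.lf (nat_lit 0) (nat_lit 16718536784) (nat_lit 76) (nat_lit 31556126088) (nat_lit 76) (nat_lit 26141966576) (nat_lit 1) (nat_lit 4) (nat_lit 2) (nat_lit 5) (nat_lit 2) (nat_lit 4) (nat_lit 291) (nat_lit 227) (nat_lit 202)) (XT.lf (nat_lit 0) (nat_lit 22216362549) (nat_lit 76) (nat_lit 31722858808) (nat_lit 76) (nat_lit 26240126063) (nat_lit 1) (nat_lit 4) (nat_lit 2) (nat_lit 5) (nat_lit 2) (nat_lit 4) (nat_lit 292) (nat_lit 227) (nat_lit 201))))) (XT.nd (nat_lit 234) (nat_lit 0) (nat_lit 0) (XT.nd (nat_lit 78) (nat_lit 0) (nat_lit 0) (XT.lf (nat_lit 0) (nat_lit 28086372219) (nat_lit 76) (nat_lit 31933018110) (nat_lit 76) (nat_lit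 26386791631) (nat_lit 1) (nat_lit 4) (nat_lit 2) (nat_lit 5) (nat_lit 2) (nat_lit 4) (nat_lit 293) (nat_lit 227) (nat_lit 200)) (XT.nd (nat_lit 78) (nat_lit 0) (nat_lit 0) (XT.lf (nat_lit 0) (nat_lit 34363351035) (nat_lit 76) (nat_lit 32187849381) (nat_lit 76) (nat_lit 26582832407) (nat_lit 1) (nat_lit 4) (nat_lit 2) (nat_lit 5) (nat_lit 2) (nat_lit 4) (nat_lit 294) (nat_lit 227) (nat_lit 199)) (XT.lf (nat_lit 0) (nat_lit 41084495910) (nat_lit 76) (nat_lit 32488862733) (nat_lit 76) (nat_lit 26829410115) (nat_lit 1) (nat_lit 4) (nat_lit 2) (nat_lit 5) (nat_lit 2) (nat_lit 4) (nat_lit 295) (nat_lit 227) (nat_lit 198)))) (XT.nd (nat_lit 78) (nat_lit 0) (nat_lit 0) (XT.lf (nat_lit 0) (nat_lit 48289635851) (nat_lit 76) (nat_lit 32837841948) (nat_lit 76) (nat_lit 27127985957) (nat_lit 1) (nat_lit 4) (nat_lit 2) (nat_lit 5) (nat_lit 2) (nat_lit 4) (nat_lit 296) (nat_lit 227) (nat_lit 197))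 (XT.nd (nat_lit 78) (nat_lit 0) (nat_lit 0) (XT.lf (nat_lit 0) (nat_lit 56021467982) (nat_lit 76) (nat_lit 33236855052) (nat_lit 76) (nat_lit 27480329271) (nat_lit 1) (nat_lit 4) (nat_lit 2) (nat_lit 5) (nat_lit 2) (nat_lit 4) (nat_lit 297) (nat_lit 227) (nat_lit 196)) (XT.lf (nat_lit 0) (nat_lit 64325810568) (nat_lit 76) (nat_lit 33688266566) (nat_lit 76) (nat_lit 27888528016) (nat_lit 1) (nat_lit 4) (nat_lit 2) (nat_lit 5) (nat_lit 2) (nat_lit 4) (nat_lit 298) (nat_lit 227) (nat_lit 195))))))) (XT.nd (nat_lit 936) (nat_lit 0) (nat_lit 0) (XT.nd (nat_lit 468) (nat_lit 0) (nat_lit 0) (XT.nd (nat_lit 234) (nat_lit 0) (nat_lit 0) (XT.nd (nat_lit 78) (nat_lit 0) (nat_lit 0) (XT.lf (nat_lit 0) (nat_lit 73251874529) (nat_lit 76) (nat_lit 34194751522) (nat_lit 76) (nat_lit 28355001149) (nat_lit 1) (nat_lit 4) (nat_lit 2) (nat_lit 5) (nat_lit 2) (nat_lit 4) (nat_lit 299) (nat_lit 227) (nat_lit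 194)) (XT.nd (nat_lit 78) (nat_lit 0) (nat_lit 0) (XT.lf (nat_lit 0) (nat_lit 82852555058) (nat_lit 76) (nat_lit 34759311312) (nat_lit 76) (nat_lit 28882512955) (nat_lit 1) (nat_lit 4) (nat_lit 2) (nat_lit 5) (nat_lit 2) (nat_lit 4) (nat_lit 300) (nat_lit 227) (nat_lit 193)) (XT.lf (nat_lit 0) (nat_lit 93184745077) (nat_lit 76) (nat_lit 35385291476) (nat_lit 76) (nat_lit 29474189430) (nat_lit 1) (nat_lit 4) (nat_lit 2) (nat_lit 5) (nat_lit 2) (nat_lit 4) (nat_lit 301) (nat_lit 227) (nat_lit 192)))) (XT.nd (nat_lit 78) (nat_lit 0) (nat_lit 0) (XT.lf (nat_lit 0) (nat_lit 104309672378) (nat_lit 76) (nat_lit 36076401525) (nat_lit 76) (nat_lit 30133536804) (nat_lit 1) (nat_lit 4) (nat_lit 2) (nat_lit 5) (nat_lit 2) (nat_lit 4) (nat_lit 302) (nat_lit 227) (nat_lit 191)) (XT.nd (nat_lit 78) (nat_lit 0) (nat_lit 0) (XT.lf (nat_lit 0) (nat_lit 116293262457) (nat_lit 76) (nat_lit 36836736927)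 (nat_lit 76) (nat_lit 30864462322) (nat_lit 1) (nat_lit 4) (nat_lit 2) (nat_lit 5) (nat_lit 2) (nat_lit 4) (nat_lit 303) (nat_lit 227) (nat_lit 190)) (XT.lf (nat_lit 0) (nat_lit 129206529180) (nat_lit 76) (nat_lit 37670803373) (nat_lit 76) (nat_lit 31671297394) (nat_lit 1) (nat_lit 4) (nat_lit 2) (nat_lit 5) (nat_lit 2) (nat_lit 4) (nat_lit 304) (nat_lit 227) (nat_lit 189))))) (XT.nd (nat_lit 234) (nat_lit 0) (nat_lit 0) (XT.nd (nat_lit 78) (nat_lit 0) (nat_lit 0) (XT.lf (nat_lit 0) (nat_lit 143125995611) (nat_lit 76) (nat_lit 38583543479) (nat_lit 76) (nat_lit 32558823264) (nat_lit 1) (nat_lit 4) (nat_lit 2) (nat_lit 5) (nat_lit 2) (nat_lit 4) (nat_lit 305) (nat_lit 227) (nat_lit 188)) (XT.nd (nat_lit 78) (nat_lit 0) (nat_lit 0) (XT.lf (nat_lit 0) (nat_lit 158134147475) (nat_lit 76) (nat_lit 39580366075) (nat_lit 76) (nat_lit 33532299346) (nat_lit 1) (nat_lit 4) (nat_lit 2) (nat_lit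 5) (nat_lit 2) (nat_lit 4) (nat_lit 306) (nat_lit 227) (nat_lit 187)) (XT.lf (nat_lit 0) (nat_lit 174319921970) (nat_lit 76) (nat_lit 40667178258) (nat_lit 76) (nat_lit 34597494386) (nat_lit 1) (nat_lit 4) (nat_lit 2) (nat_lit 5) (nat_lit 2) (nat_lit 4) (nat_lit 307) (nat_lit 227) (nat_lit 186)))) (XT.nd (nat_lit 78) (nat_lit 0) (nat_lit 0) (XT.lf (nat_lit 0) (nat_lit 191779234795) (nat_lit 76) (nat_lit 41850420397) (nat_lit 76) (nat_lit 35760720652) (nat_lit 1) (nat_lit 4) (nat_lit 2) (nat_lit 5) (nat_lit 2) (nat_lit 4) (nat_lit 308) (nat_lit 227) (nat_lit 185)) (XT.nd (nat_lit 78) (nat_lit 0) (nat_lit 0) (XT.lf (nat_lit 0) (nat_lit 210615548545) (nat_lit 76) (nat_lit 43137104296) (nat_lit 76) (nat_lit 37028871335) (nat_lit 1) (nat_lit 4) (nat_lit 2) (nat_lit 5) (nat_lit 2) (nat_lit 4) (nat_lit 309) (nat_lit 227) (nat_lit 184)) (XT.lf (nat_lit 0) (nat_lit 230940485821) (nat_lit 76)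 (nat_lit 44534854750) (nat_lit 76) (nat_lit 38409461404) (nat_lit 1) (nat_lit 4) (nat_lit 2) (nat_lit 5) (nat_lit 2) (nat_lit 4) (nat_lit 310) (nat_lit 227) (nat_lit 183)))))) (XT.nd (nat_lit 468) (nat_lit 0) (nat_lit 0) (XT.nd (nat_lit 234) (nat_lit 0) (nat_lit 0) (XT.nd (nat_lit 78) (nat_lit 0) (nat_lit 0) (XT.lf (nat_lit 0) (nat_lit 252874490695) (nat_lit 76) (nat_lit 46051954723) (nat_lit 76) (nat_lit 39910672132) (nat_lit 1) (nat_lit 4) (nat_lit 2) (nat_lit 5) (nat_lit 2) (nat_lit 4) (nat_lit 311) (nat_lit 227) (nat_lit 182)) (XT.nd (nat_lit 78) (nat_lit 0) (nat_lit 0) (XT.lf (nat_lit 0) (nat_lit 276547542454) (nat_lit 76) (nat_lit 47697394439) (nat_lit 76) (nat_lit 41541399583) (nat_lit 1) (nat_lit 4) (nat_lit 2) (nat_lit 5) (nat_lit 2) (nat_lit 4) (nat_lit 312) (nat_lit 227) (nat_lit 181)) (XT.lf (nat_lit 0) (nat_lit 302099925852) (nat_lit 76) (nat_lit 49480924650) (nat_lit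 76) (nat_lit 43311307328) (nat_lit 1) (nat_lit 4) (nat_lit 2) (nat_lit 5) (nat_lit 2) (nat_lit 4) (nat_lit 313) (nat_lit 227) (nat_lit 180)))) (XT.nd (nat_lit 78) (nat_lit 0) (nat_lit 0) (XT.lf (nat_lit 0) (nat_lit 329683062418) (nat_lit 76) (nat_lit 51413114425) (nat_lit 76) (nat_lit 45230883707) (nat_lit 1) (nat_lit 4) (nat_lit 2) (nat_lit 5) (nat_lit 2) (nat_lit 4) (nat_lit 314) (nat_lit 227) (nat_lit 179)) (XT.nd (nat_lit 78) (nat_lit 0) (nat_lit 0) (XT.lf (nat_lit 0) (nat_lit 359460407776) (nat_lit 76) (nat_lit 53505413777) (nat_lit 76) (nat_lit 47311503990) (nat_lit 1) (nat_lit 4) (nat_lit 2) (nat_lit 5) (nat_lit 2) (nat_lit 4) (nat_lit 315) (nat_lit 227) (nat_lit 178)) (XT.lf (nat_lit 0) (nat_lit 391608420270) (nat_lit 76) (nat_lit 55770221518) (nat_lit 76) (nat_lit 49565497777) (nat_lit 1) (nat_lit 4) (nat_lit 2) (nat_lit 5) (nat_lit 2) (nat_lit 4) (nat_lit 316) (nat_lit 227)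 (nat_lit 177))))) (XT.nd (nat_lit 234) (nat_lit 0) (nat_lit 0) (XT.nd (nat_lit 78) (nat_lit 0) (nat_lit 0) (XT.lf (nat_lit 0) (nat_lit 426317606640) (nat_lit 76) (nat_lit 58220958729) (nat_lit 76) (nat_lit 52006222069) (nat_lit 1) (nat_lit 4) (nat_lit 2) (nat_lit 5) (nat_lit 2) (nat_lit 4) (nat_lit 317) (nat_lit 227) (nat_lit 176)) (XT.nd (nat_lit 78) (nat_lit 0) (nat_lit 0) (XT.lf (nat_lit 0) (nat_lit 463793650954) (nat_lit 76) (nat_lit 60872148299) (nat_lit 76) (nat_lit 54648140417) (nat_lit 1) (nat_lit 4) (nat_lit 2) (nat_lit 5) (nat_lit 2) (nat_lit 4) (nat_lit 318) (nat_lit 227) (nat_lit 175)) (XT.lf (nat_lit 0) (nat_lit 504258633475) (nat_lit 76) (nat_lit 63739500980) (nat_lit 76) (nat_lit 57506908633) (nat_lit 1) (nat_lit 4) (nat_lit 2) (nat_lit 5) (nat_lit 2) (nat_lit 4) (nat_lit 319) (nat_lit 227) (nat_lit 174)))) (XT.nd (nat_lit 78) (nat_lit 0) (nat_lit 0) (XT.lf (nat_lit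 0) (nat_lit 547952346690) (nat_lit 76) (nat_lit 66840008493) (nat_lit 76) (nat_lit 60599467566) (nat_lit 1) (nat_lit 4) (nat_lit 2) (nat_lit 5) (nat_lit 2) (nat_lit 4) (nat_lit 320) (nat_lit 227) (nat_lit 173)) (XT.nd (nat_lit 78) (nat_lit 0) (nat_lit 0) (XT.lf (nat_lit 0) (nat_lit 595133716309) (nat_lit 76) (nat_lit 70192044213) (nat_lit 76) (nat_lit 63944143492) (nat_lit 1) (nat_lit 4) (nat_lit 2) (nat_lit 5) (nat_lit 2) (nat_lit 4) (nat_lit 321) (nat_lit 227) (nat_lit 172)) (XT.lf (nat_lit 0) (nat_lit 646082335632) (nat_lit 76) (nat_lit 73815472058) (nat_lit 76) (nat_lit 67560756712) (nat_lit 1) (nat_lit 4) (nat_lit 2) (nat_lit 5) (nat_lit 2) (nat_lit 4) (nat_lit 322) (nat_lit 227) (nat_lit 171))))))))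
noncomputable def xc28 : XT := (XT.nd (nat_lit 33618) (nat_lit 0) (nat_lit 0) (XT.nd (nat_lit 858) (nat_lit 0) (nat_lit 0) (XT.nd (nat_lit 390) (nat_lit 0) (nat_lit 0) (XT.nd (nat_lit 156) (nat_lit 0) (nat_lit 0) (XT.nd (nat_lit 78) (nat_lit 0) (nat_lit 0) (XT.lf (nat_lit 0) (nat_lit 701100122404) (nat_lit 76) (nat_lit 77731764193) (nat_lit 76) (nat_lit 71470739008) (nat_lit 1) (nat_lit 4) (nat_lit 2) (nat_lit 5) (nat_lit 2) (nat_lit 4) (nat_lit 323) (nat_lit 227) (nat_lit 170)) (XT.lf (nat_lit 0) (nat_lit 760513107954) (nat_lit 76) (nat_lit 81964128273) (nat_lit 76) (nat_lit 75697260646) (nat_lit 1) (nat_lit 4) (nat_lit 2) (nat_lit 5) (nat_lit 2) (nat_lit 4) (nat_lit 324) (nat_lit 227) (nat_lit 169))) (XT.nd (nat_lit 78) (nat_lit 0) (nat_lit 0) (XT.lf (nat_lit 0) (nat_lit 824673369233) (nat_lit 76) (nat_lit 86537644976) (nat_lit 76) (nat_lit 80265367680) (nat_lit 1) (nat_lit 4) (nat_lit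 2) (nat_lit 5) (nat_lit 2) (nat_lit 4) (nat_lit 325) (nat_lit 227) (nat_lit 168)) (XT.nd (nat_lit 78) (nat_lit 0) (nat_lit 0) (XT.lf (nat_lit 0) (nat_lit 893961115197) (nat_lit 76) (nat_lit 91479416622) (nat_lit 76) (nat_lit 85202130373) (nat_lit 1) (nat_lit 4) (nat_lit 2) (nat_lit 5) (nat_lit 2) (nat_lit 4) (nat_lit 326) (nat_lit 227) (nat_lit 167)) (XT.lf (nat_lit 0) (nat_lit 968786939896) (nat_lit 76) (nat_lit 96818727784) (nat_lit 76) (nat_lit 90536803616) (nat_lit 1) (nat_lit 4) (nat_lit 2) (nat_lit 5) (nat_lit 2) (nat_lit 4) (nat_lit 327) (nat_lit 227) (nat_lit 166))))) (XT.nd (nat_lit 234) (nat_lit 0) (nat_lit 0) (XT.nd (nat_lit 78) (nat_lit 0) (nat_lit 0) (XT.lf (nat_lit 0) (nat_lit 1049594255624) (nat_lit 76) (nat_lit 102587218825) (nat_lit 76) (nat_lit 96301000287) (nat_lit 1) (nat_lit 4) (nat_lit 2) (nat_lit 5) (nat_lit 2) (nat_lit 4) (nat_lit 328) (nat_lit 227) (nat_lit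 165)) (XT.nd (nat_lit 78) (nat_lit 0) (nat_lit 0) (XT.lf (nat_lit 0) (nat_lit 1136861920550) (nat_lit 76) (nat_lit 108819073395) (nat_lit 76) (nat_lit 102528878589) (nat_lit 1) (nat_lit 4) (nat_lit 2) (nat_lit 5) (nat_lit 2) (nat_lit 4) (nat_lit 329) (nat_lit 227) (nat_lit 164)) (XT.lf (nat_lit 0) (nat_lit 1231107076390) (nat_lit 76) (nat_lit 115551221003) (nat_lit 76) (nat_lit 109257344467) (nat_lit 1) (nat_lit 4) (nat_lit 2) (nat_lit 5) (nat_lit 2) (nat_lit 4) (nat_lit 330) (nat_lit 227) (nat_lit 163)))) (XT.nd (nat_lit 78) (nat_lit 0) (nat_lit 0) (XT.lf (nat_lit 0) (nat_lit 1332888212958) (nat_lit 76) (nat_lit 122823555856) (nat_lit 76) (nat_lit 116526270312) (nat_lit 1) (nat_lit 4) (nat_lit 2) (nat_lit 5) (nat_lit 2) (nat_lit 4) (nat_lit 331) (nat_lit 227) (nat_lit 162)) (XT.nd (nat_lit 78) (nat_lit 0) (nat_lit 0) (XT.lf (nat_lit 0) (nat_lit 1442808477729) (nat_lit 76) (nat_lit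 130679173274) (nat_lit 76) (nat_lit 124378731239) (nat_lit 1) (nat_lit 4) (nat_lit 2) (nat_lit 5) (nat_lit 2) (nat_lit 4) (nat_lit 332) (nat_lit 227) (nat_lit 161)) (XT.lf (nat_lit 0) (nat_lit 1561519250050) (nat_lit 76) (nat_lit 139164625061) (nat_lit 76) (nat_lit 132861260351) (nat_lit 1) (nat_lit 4) (nat_lit 2) (nat_lit 5) (nat_lit 2) (nat_lit 4) (nat_lit 333) (nat_lit 227) (nat_lit 160)))))) (XT.nd (nat_lit 32292) (nat_lit 0) (nat_lit 304) (XT.nd (nat_lit 32058) (nat_lit 0) (nat_lit 532) (XT.nd (nat_lit 78) (nat_lit 0) (nat_lit 0) (XT.lf (nat_lit 0) (nat_lit 1689724001165) (nat_lit 76) (nat_lit 148330195378) (nat_lit 76) (nat_lit 142024124487) (nat_lit 1) (nat_lit 4) (nat_lit 2) (nat_lit 5) (nat_lit 2) (nat_lit 4) (nat_lit 334) (nat_lit 227) (nat_lit 159)) (XT.nd (nat_lit 78) (nat_lit 0) (nat_lit 0) (XT.lf (nat_lit 0) (nat_lit 1828182462931) (nat_lit 76) (nat_lit 158230198715)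 (nat_lit 76) (nat_lit 151921622100) (nat_lit 1) (nat_lit 4) (nat_lit 2) (nat_lit 5) (nat_lit 2) (nat_lit 4) (nat_lit 335) (nat_lit 227) (nat_lit 158)) (XT.lf (nat_lit 0) (nat_lit 1977715129938) (nat_lit 76) (nat_lit 168923301758) (nat_lit 76) (nat_lit 162612405029) (nat_lit 1) (nat_lit 4) (nat_lit 2) (nat_lit 5) (nat_lit 2) (nat_lit 4) (nat_lit 336) (nat_lit 227) (nat_lit 157)))) (XT.nd (nat_lit 78) (nat_lit 152) (nat_lit 0) (XT.lf (nat_lit 0) (nat_lit 2836196345) (nat_lit 152) (nat_lit 1676162888) (nat_lit 152) (nat_lit 1676162888) (nat_lit 10) (nat_lit 4) (nat_lit 12) (nat_lit 5) (nat_lit 12) (nat_lit 4) (nat_lit 264) (nat_lit 228) (nat_lit 228)) (XT.nd (nat_lit 78) (nat_lit 152) (nat_lit 0) (XT.lf (nat_lit 0) (nat_lit 12170207526) (nat_lit 152) (nat_lit 754191600) (nat_lit 152) (nat_lit 115275937) (nat_lit 10) (nat_lit 4) (nat_lit 12) (nat_lit 5) (nat_lit 12) (nat_lit 4) (nat_lit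 265) (nat_lit 228) (nat_lit 227)) (XT.lf (nat_lit 0) (nat_lit 3197130321) (nat_lit 152) (nat_lit 8495883865) (nat_lit 0) (nat_lit 2057774543) (nat_lit 8) (nat_lit 5) (nat_lit 10) (nat_lit 4) (nat_lit 8) (nat_lit 4) (nat_lit 266) (nat_lit 228) (nat_lit 226))))) (XT.nd (nat_lit 234) (nat_lit 152) (nat_lit 0) (XT.nd (nat_lit 78) (nat_lit 76) (nat_lit 0) (XT.lf (nat_lit 0) (nat_lit 6622521806) (nat_lit 152) (nat_lit 2932475528) (nat_lit 0) (nat_lit 4975974175) (nat_lit 8) (nat_lit 5) (nat_lit 10) (nat_lit 4) (nat_lit 8) (nat_lit 4) (nat_lit 267) (nat_lit 228) (nat_lit 225)) (XT.nd (nat_lit 78) (nat_lit 0) (nat_lit 0) (XT.lf (nat_lit 0) (nat_lit 2934798127) (nat_lit 76) (nat_lit 7282025642) (nat_lit 76) (nat_lit 5165855925) (nat_lit 7) (nat_lit 4) (nat_lit 8) (nat_lit 5) (nat_lit 8) (nat_lit 4) (nat_lit 268) (nat_lit 228) (nat_lit 224)) (XT.lf (nat_lit 0) (nat_lit 9157499911) (nat_lit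 76) (nat_lit 4851909799) (nat_lit 76) (nat_lit 2300904818) (nat_lit 7) (nat_lit 4) (nat_lit 8) (nat_lit 5) (nat_lit 8) (nat_lit 4) (nat_lit 269) (nat_lit 228) (nat_lit 223)))) (XT.nd (nat_lit 78) (nat_lit 76) (nat_lit 0) (XT.lf (nat_lit 0) (nat_lit 592026939) (nat_lit 152) (nat_lit 1722214192) (nat_lit 76) (nat_lit 15009872126) (nat_lit 6) (nat_lit 5) (nat_lit 8) (nat_lit 5) (nat_lit 7) (nat_lit 4) (nat_lit 270) (nat_lit 228) (nat_lit 222)) (XT.nd (nat_lit 78) (nat_lit 0) (nat_lit 0) (XT.lf (nat_lit 0) (nat_lit 3551515570) (nat_lit 152) (nat_lit 14394993561) (nat_lit 0) (nat_lit 471486515) (nat_lit 5) (nat_lit 5) (nat_lit 7) (nat_lit 4) (nat_lit 5) (nat_lit 4) (nat_lit 271) (nat_lit 228) (nat_lit 221)) (XT.lf (nat_lit 0) (nat_lit 6709489502) (nat_lit 152) (nat_lit 9583594649) (nat_lit 0) (nat_lit 3309843547) (nat_lit 5) (nat_lit 5) (nat_lit 7) (nat_lit 4) (nat_lit 5) (nat_lit 4) (nat_lit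 272) (nat_lit 228) (nat_lit 220))))))) (XT.nd (nat_lit 936) (nat_lit 76) (nat_lit 0) (XT.nd (nat_lit 468) (nat_lit 76) (nat_lit 0) (XT.nd (nat_lit 234) (nat_lit 76) (nat_lit 0) (XT.nd (nat_lit 78) (nat_lit 76) (nat_lit 0) (XT.lf (nat_lit 0) (nat_lit 9984272263) (nat_lit 152) (nat_lit 4621005464) (nat_lit 0) (nat_lit 6288684734) (nat_lit 5) (nat_lit 5) (nat_lit 7) (nat_lit 4) (nat_lit 5) (nat_lit 4) (nat_lit 273) (nat_lit 228) (nat_lit 219)) (XT.nd (nat_lit 78) (nat_lit 0) (nat_lit 0) (XT.lf (nat_lit 0) (nat_lit 549679104) (nat_lit 76) (nat_lit 12858810666) (nat_lit 76) (nat_lit 8889203159) (nat_lit 4) (nat_lit 4) (nat_lit 5) (nat_lit 5) (nat_lit 5) (nat_lit 4) (nat_lit 274) (nat_lit 228) (nat_lit 218)) (XT.lf (nat_lit 0) (nat_lit 6185888894) (nat_lit 76) (nat_lit 10925577837) (nat_lit 76) (nat_lit 6702248130) (nat_lit 4) (nat_lit 4) (nat_lit 5) (nat_lit 5) (nat_lit 5) (nat_lit 4)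 (nat_lit 275) (nat_lit 228) (nat_lit 217)))) (XT.nd (nat_lit 78) (nat_lit 76) (nat_lit 0) (XT.lf (nat_lit 0) (nat_lit 12077689709) (nat_lit 76) (nat_lit 8920469525) (nat_lit 76) (nat_lit 4462211855) (nat_lit 4) (nat_lit 4) (nat_lit 5) (nat_lit 5) (nat_lit 5) (nat_lit 4) (nat_lit 276) (nat_lit 228) (nat_lit 216)) (XT.nd (nat_lit 78) (nat_lit 76) (nat_lit 0) (XT.lf (nat_lit 0) (nat_lit 18259995924) (nat_lit 76) (nat_lit 6831603607) (nat_lit 76) (nat_lit 2155820045) (nat_lit 4) (nat_lit 4) (nat_lit 5) (nat_lit 5) (nat_lit 5) (nat_lit 4) (nat_lit 277) (nat_lit 228) (nat_lit 215)) (XT.lf (nat_lit 0) (nat_lit 219059520) (nat_lit 152) (nat_lit 4421552623) (nat_lit 76) (nat_lit 24544394431) (nat_lit 3) (nat_lit 5) (nat_lit 5) (nat_lit 5) (nat_lit 4) (nat_lit 4) (nat_lit 278) (nat_lit 228) (nat_lit 214))))) (XT.nd (nat_lit 234) (nat_lit 0) (nat_lit 0) (XT.nd (nat_lit 78) (nat_lit 0) (nat_lit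 0) (XT.lf (nat_lit 0) (nat_lit 308908040) (nat_lit 76) (nat_lit 2274071698) (nat_lit 152) (nat_lit 28697157321) (nat_lit 2) (nat_lit 5) (nat_lit 3) (nat_lit 5) (nat_lit 4) (nat_lit 4) (nat_lit 279) (nat_lit 228) (nat_lit 213)) (XT.nd (nat_lit 78) (nat_lit 0) (nat_lit 0) (XT.lf (nat_lit 0) (nat_lit 5176352543) (nat_lit 152) (nat_lit 28035674186) (nat_lit 0) (nat_lit 327862837) (nat_lit 2) (nat_lit 5) (nat_lit 4) (nat_lit 4) (nat_lit 2) (nat_lit 4) (nat_lit 280) (nat_lit 228) (nat_lit 212)) (XT.lf (nat_lit 0) (nat_lit 7952492249) (nat_lit 152) (nat_lit 25074169206) (nat_lit 0) (nat_lit 2955958075) (nat_lit 2) (nat_lit 5) (nat_lit 4) (nat_lit 4) (nat_lit 2) (nat_lit 4) (nat_lit 281) (nat_lit 228) (nat_lit 211)))) (XT.nd (nat_lit 78) (nat_lit 0) (nat_lit 0) (XT.lf (nat_lit 0) (nat_lit 10873158573) (nat_lit 152) (nat_lit 22014472942) (nat_lit 0) (nat_lit 5739546189) (nat_lit 2) (nat_lit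 5) (nat_lit 4) (nat_lit 4) (nat_lit 2) (nat_lit 4) (nat_lit 282) (nat_lit 228) (nat_lit 210)) (XT.nd (nat_lit 78) (nat_lit 0) (nat_lit 0) (XT.lf (nat_lit 0) (nat_lit 13955659169) (nat_lit 152) (nat_lit 18838453859) (nat_lit 0) (nat_lit 8695122517) (nat_lit 2) (nat_lit 5) (nat_lit 4) (nat_lit 4) (nat_lit 2) (nat_lit 4) (nat_lit 283) (nat_lit 228) (nat_lit 209)) (XT.lf (nat_lit 0) (nat_lit 17218260707) (nat_lit 152) (nat_lit 15527291104) (nat_lit 0) (nat_lit 11840201583) (nat_lit 2) (nat_lit 5) (nat_lit 4) (nat_lit 4) (nat_lit 2) (nat_lit 4) (nat_lit 284) (nat_lit 228) (nat_lit 208)))))) (XT.nd (nat_lit 468) (nat_lit 0) (nat_lit 0) (XT.nd (nat_lit 234) (nat_lit 76) (nat_lit 0) (XT.nd (nat_lit 78) (nat_lit 0) (nat_lit 0) (XT.lf (nat_lit 0) (nat_lit 20680297121) (nat_lit 152) (nat_lit 12061362972) (nat_lit 0) (nat_lit 15193420895) (nat_lit 2) (nat_lit 5) (nat_lit 4) (nat_lit 4) (nat_lit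 2) (nat_lit 4) (nat_lit 285) (nat_lit 228) (nat_lit 207)) (XT.nd (nat_lit 78) (nat_lit 0) (nat_lit 0) (XT.lf (nat_lit 0) (nat_lit 24362284184) (nat_lit 152) (nat_lit 8420130629) (nat_lit 0) (nat_lit 18774651381) (nat_lit 2) (nat_lit 5) (nat_lit 4) (nat_lit 4) (nat_lit 2) (nat_lit 4) (nat_lit 286) (nat_lit 228) (nat_lit 206)) (XT.lf (nat_lit 0) (nat_lit 28286041077) (nat_lit 152) (nat_lit 4582016402) (nat_lit 0) (nat_lit 22605115148) (nat_lit 2) (nat_lit 5) (nat_lit 4) (nat_lit 4) (nat_lit 2) (nat_lit 4) (nat_lit 287) (nat_lit 228) (nat_lit 205)))) (XT.nd (nat_lit 78) (nat_lit 76) (nat_lit 0) (XT.lf (nat_lit 0) (nat_lit 32474819694) (nat_lit 152) (nat_lit 524275911) (nat_lit 0) (nat_lit 26707511240) (nat_lit 2) (nat_lit 5) (nat_lit 4) (nat_lit 4) (nat_lit 2) (nat_lit 4) (nat_lit 288) (nat_lit 228) (nat_lit 204)) (XT.nd (nat_lit 78) (nat_lit 0) (nat_lit 0) (XT.lf (nat_lit 0) (nat_lit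 3976034039) (nat_lit 76) (nat_lit 33073032101) (nat_lit 76) (nat_lit 27225739828) (nat_lit 1) (nat_lit 4) (nat_lit 2) (nat_lit 5) (nat_lit 2) (nat_lit 4) (nat_lit 289) (nat_lit 228) (nat_lit 203)) (XT.lf (nat_lit 0) (nat_lit 8787287010) (nat_lit 76) (nat_lit 33172496713) (nat_lit 76) (nat_lit 27251145348) (nat_lit 1) (nat_lit 4) (nat_lit 2) (nat_lit 5) (nat_lit 2) (nat_lit 4) (nat_lit 290) (nat_lit 228) (nat_lit 202))))) (XT.nd (nat_lit 234) (nat_lit 0) (nat_lit 0) (XT.nd (nat_lit 78) (nat_lit 0) (nat_lit 0) (XT.lf (nat_lit 0) (nat_lit 13910386689) (nat_lit 76) (nat_lit 33312413495) (nat_lit 76) (nat_lit 27322488897) (nat_lit 1) (nat_lit 4) (nat_lit 2) (nat_lit 5) (nat_lit 2) (nat_lit 4) (nat_lit 291) (nat_lit 228) (nat_lit 201)) (XT.nd (nat_lit 78) (nat_lit 0) (nat_lit 0) (XT.lf (nat_lit 0) (nat_lit 19375692186) (nat_lit 76) (nat_lit 33493611582) (nat_lit 76) (nat_lit 27440193250)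 (nat_lit 1) (nat_lit 4) (nat_lit 2) (nat_lit 5) (nat_lit 2) (nat_lit 4) (nat_lit 292) (nat_lit 228) (nat_lit 200)) (XT.lf (nat_lit 0) (nat_lit 25215590497) (nat_lit 76) (nat_lit 33717164742) (nat_lit 76) (nat_lit 27604955915) (nat_lit 1) (nat_lit 4) (nat_lit 2) (nat_lit 5) (nat_lit 2) (nat_lit 4) (nat_lit 293) (nat_lit 228) (nat_lit 199)))) (XT.nd (nat_lit 78) (nat_lit 0) (nat_lit 0) (XT.lf (nat_lit 0) (nat_lit 31464688426) (nat_lit 76) (nat_lit 33984397734) (nat_lit 76) (nat_lit 27817753264) (nat_lit 1) (nat_lit 4) (nat_lit 2) (nat_lit 5) (nat_lit 2) (nat_lit 4) (nat_lit 294) (nat_lit 228) (nat_lit 198)) (XT.nd (nat_lit 78) (nat_lit 0) (nat_lit 0) (XT.lf (nat_lit 0) (nat_lit 38160017664) (nat_lit 76) (nat_lit 34296894160) (nat_lit 76) (nat_lit 28079846317) (nat_lit 1) (nat_lit 4) (nat_lit 2) (nat_lit 5) (nat_lit 2) (nat_lit 4) (nat_lit 295) (nat_lit 228) (nat_lit 197)) (XT.lf (nat_lit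 0) (nat_lit 45341254237) (nat_lit 76) (nat_lit 34656505852) (nat_lit 76) (nat_lit 28392788218) (nat_lit 1) (nat_lit 4) (nat_lit 2) (nat_lit 5) (nat_lit 2) (nat_lit 4) (nat_lit 296) (nat_lit 228) (nat_lit 196))))))))
noncomputable def xc29 : XT := (XT.nd (nat_lit 1872) (nat_lit 0) (nat_lit 0) (XT.nd (nat_lit 936) (nat_lit 0) (nat_lit 0) (XT.nd (nat_lit 468) (nat_lit 0) (nat_lit 0) (XT.nd (nat_lit 234) (nat_lit 0) (nat_lit 0) (XT.nd (nat_lit 78) (nat_lit 0) (nat_lit 0) (XT.lf (nat_lit 0) (nat_lit 53050953620) (nat_lit 76) (nat_lit 35065363841) (nat_lit 76) (nat_lit 28758433439) (nat_lit 1) (nat_lit 4) (nat_lit 2) (nat_lit 5) (nat_lit 2) (nat_lit 4) (nat_lit 297) (nat_lit 228) (nat_lit 195)) (XT.nd (nat_lit 78) (nat_lit 0) (nat_lit 0) (XT.lf (nat_lit 0) (nat_lit 61334802922) (nat_lit 76) (nat_lit 35525890991) (nat_lit 76) (nat_lit 29178948765) (nat_lit 1) (nat_lit 4) (nat_lit 2) (nat_lit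 5) (nat_lit 2) (nat_lit 4) (nat_lit 298) (nat_lit 228) (nat_lit 194)) (XT.lf (nat_lit 0) (nat_lit 70241891619) (nat_lit 76) (nat_lit 36040816349) (nat_lit 76) (nat_lit 29656826140) (nat_lit 1) (nat_lit 4) (nat_lit 2) (nat_lit 5) (nat_lit 2) (nat_lit 4) (nat_lit 299) (nat_lit 228) (nat_lit 193)))) (XT.nd (nat_lit 78) (nat_lit 0) (nat_lit 0) (XT.lf (nat_lit 0) (nat_lit 79825002459) (nat_lit 76) (nat_lit 36613191327) (nat_lit 76) (nat_lit 30194897429) (nat_lit 1) (nat_lit 4) (nat_lit 2) (nat_lit 5) (nat_lit 2) (nat_lit 4) (nat_lit 300) (nat_lit 228) (nat_lit 192)) (XT.nd (nat_lit 78) (nat_lit 0) (nat_lit 0) (XT.lf (nat_lit 0) (nat_lit 90140924247) (nat_lit 76) (nat_lit 37246407776) (nat_lit 76) (nat_lit 30796351202) (nat_lit 1) (nat_lit 4) (nat_lit 2) (nat_lit 5) (nat_lit 2) (nat_lit 4) (nat_lit 301) (nat_lit 228) (nat_lit 191)) (XT.lf (nat_lit 0) (nat_lit 101250788372) (nat_lit 76)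 (nat_lit 37944218089) (nat_lit 76) (nat_lit 31464751631) (nat_lit 1) (nat_lit 4) (nat_lit 2) (nat_lit 5) (nat_lit 2) (nat_lit 4) (nat_lit 302) (nat_lit 228) (nat_lit 190))))) (XT.nd (nat_lit 234) (nat_lit 0) (nat_lit 0) (XT.nd (nat_lit 78) (nat_lit 0) (nat_lit 0) (XT.lf (nat_lit 0) (nat_lit 113220431066) (nat_lit 76) (nat_lit 38710757439) (nat_lit 76) (nat_lit 32204059607) (nat_lit 1) (nat_lit 4) (nat_lit 2) (nat_lit 5) (nat_lit 2) (nat_lit 4) (nat_lit 303) (nat_lit 228) (nat_lit 189)) (XT.nd (nat_lit 78) (nat_lit 0) (nat_lit 0) (XT.lf (nat_lit 0) (nat_lit 126120783544) (nat_lit 76) (nat_lit 39550568281) (nat_lit 76) (nat_lit 33018656214) (nat_lit 1) (nat_lit 4) (nat_lit 2) (nat_lit 5) (nat_lit 2) (nat_lit 4) (nat_lit 304) (nat_lit 228) (nat_lit 188)) (XT.lf (nat_lit 0) (nat_lit 140028292339) (nat_lit 76) (nat_lit 40468627273) (nat_lit 76) (nat_lit 33913368691) (nat_lit 1) (nat_lit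 4) (nat_lit 2) (nat_lit 5) (nat_lit 2) (nat_lit 4) (nat_lit 305) (nat_lit 228) (nat_lit 187)))) (XT.nd (nat_lit 78) (nat_lit 0) (nat_lit 0) (XT.lf (nat_lit 0) (nat_lit 155025372320) (nat_lit 76) (nat_lit 41470374763) (nat_lit 76) (nat_lit 34893499038) (nat_lit 1) (nat_lit 4) (nat_lit 2) (nat_lit 5) (nat_lit 2) (nat_lit 4) (nat_lit 306) (nat_lit 228) (nat_lit 186)) (XT.nd (nat_lit 78) (nat_lit 0) (nat_lit 0) (XT.lf (nat_lit 0) (nat_lit 171200895069) (nat_lit 76) (nat_lit 42561747033) (nat_lit 76) (nat_lit 35964855435) (nat_lit 1) (nat_lit 4) (nat_lit 2) (nat_lit 5) (nat_lit 2) (nat_lit 4) (nat_lit 307) (nat_lit 228) (nat_lit 185)) (XT.lf (nat_lit 0) (nat_lit 188650715538) (nat_lit 76) (nat_lit 43749211474) (nat_lit 76) (nat_lit 37133786660) (nat_lit 1) (nat_lit 4) (nat_lit 2) (nat_lit 5) (nat_lit 2) (nat_lit 4) (nat_lit 308) (nat_lit 228) (nat_lit 184)))))) (XT.nd (nat_lit 468) (nat_lit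 0) (nat_lit 0) (XT.nd (nat_lit 234) (nat_lit 0) (nat_lit 0) (XT.nd (nat_lit 78) (nat_lit 0) (nat_lit 0) (XT.lf (nat_lit 0) (nat_lit 207478240070) (nat_lit 76) (nat_lit 45039804913) (nat_lit 76) (nat_lit 38407219714) (nat_lit 1) (nat_lit 4) (nat_lit 2) (nat_lit 5) (nat_lit 2) (nat_lit 4) (nat_lit 309) (nat_lit 228) (nat_lit 183)) (XT.nd (nat_lit 78) (nat_lit 0) (nat_lit 0) (XT.lf (nat_lit 0) (nat_lit 227795039180) (nat_lit 76) (nat_lit 46441175311) (nat_lit 76) (nat_lit 39792700867) (nat_lit 1) (nat_lit 4) (nat_lit 2) (nat_lit 5) (nat_lit 2) (nat_lit 4) (nat_lit 310) (nat_lit 228) (nat_lit 182)) (XT.lf (nat_lit 0) (nat_lit 249721508716) (nat_lit 76) (nat_lit 47961627084) (nat_lit 76) (nat_lit 41298440376) (nat_lit 1) (nat_lit 4) (nat_lit 2) (nat_lit 5) (nat_lit 2) (nat_lit 4) (nat_lit 311) (nat_lit 228) (nat_lit 181)))) (XT.nd (nat_lit 78) (nat_lit 0) (nat_lit 0) (XT.lf (nat_lit 0)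 (nat_lit 273387583311) (nat_lit 76) (nat_lit 49610170318) (nat_lit 76) (nat_lit 42933361143) (nat_lit 1) (nat_lit 4) (nat_lit 2) (nat_lit 5) (nat_lit 2) (nat_lit 4) (nat_lit 312) (nat_lit 228) (nat_lit 180)) (XT.nd (nat_lit 78) (nat_lit 0) (nat_lit 0) (XT.lf (nat_lit 0) (nat_lit 298933506370) (nat_lit 76) (nat_lit 51396574158) (nat_lit 76) (nat_lit 44707151587) (nat_lit 1) (nat_lit 4) (nat_lit 2) (nat_lit 5) (nat_lit 2) (nat_lit 4) (nat_lit 313) (nat_lit 228) (nat_lit 179)) (XT.lf (nat_lit 0) (nat_lit 326510661141) (nat_lit 76) (nat_lit 53331424700) (nat_lit 76) (nat_lit 46630323060) (nat_lit 1) (nat_lit 4) (nat_lit 2) (nat_lit 5) (nat_lit 2) (nat_lit 4) (nat_lit 314) (nat_lit 228) (nat_lit 178))))) (XT.nd (nat_lit 234) (nat_lit 0) (nat_lit 0) (XT.nd (nat_lit 78) (nat_lit 0) (nat_lit 0) (XT.lf (nat_lit 0) (nat_lit 356282467801) (nat_lit 76) (nat_lit 55426187725) (nat_lit 76) (nat_lit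 48714272132) (nat_lit 1) (nat_lit 4) (nat_lit 2) (nat_lit 5) (nat_lit 2) (nat_lit 4) (nat_lit 315) (nat_lit 228) (nat_lit 177)) (XT.nd (nat_lit 78) (nat_lit 0) (nat_lit 0) (XT.lf (nat_lit 0) (nat_lit 388425351871) (nat_lit 76) (nat_lit 57693276644) (nat_lit 76) (nat_lit 50971348131) (nat_lit 1) (nat_lit 4) (nat_lit 2) (nat_lit 5) (nat_lit 2) (nat_lit 4) (nat_lit 316) (nat_lit 228) (nat_lit 176)) (XT.lf (nat_lit 0) (nat_lit 423129789699) (nat_lit 76) (nat_lit 60146126058) (nat_lit 76) (nat_lit 53414926323) (nat_lit 1) (nat_lit 4) (nat_lit 2) (nat_lit 5) (nat_lit 2) (nat_lit 4) (nat_lit 317) (nat_lit 228) (nat_lit 175)))) (XT.nd (nat_lit 78) (nat_lit 0) (nat_lit 0) (XT.lf (nat_lit 0) (nat_lit 460601437216) (nat_lit 76) (nat_lit 62799271371) (nat_lit 76) (nat_lit 56059487171) (nat_lit 1) (nat_lit 4) (nat_lit 2) (nat_lit 5) (nat_lit 2) (nat_lit 4) (nat_lit 318) (nat_lit 228) (nat_lit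 174)) (XT.nd (nat_lit 78) (nat_lit 0) (nat_lit 0) (XT.lf (nat_lit 0) (nat_lit 501062348627) (nat_lit 76) (nat_lit 65668434926) (nat_lit 76) (nat_lit 58920702147) (nat_lit 1) (nat_lit 4) (nat_lit 2) (nat_lit 5) (nat_lit 2) (nat_lit 4) (nat_lit 319) (nat_lit 228) (nat_lit 173)) (XT.lf (nat_lit 0) (nat_lit 544752292297) (nat_lit 76) (nat_lit 68770619173) (nat_lit 76) (nat_lit 62015526599) (nat_lit 1) (nat_lit 4) (nat_lit 2) (nat_lit 5) (nat_lit 2) (nat_lit 4) (nat_lit 320) (nat_lit 228) (nat_lit 172))))))) (XT.nd (nat_lit 936) (nat_lit 0) (nat_lit 0) (XT.nd (nat_lit 468) (nat_lit 0) (nat_lit 0) (XT.nd (nat_lit 234) (nat_lit 0) (nat_lit 0) (XT.nd (nat_lit 78) (nat_lit 0) (nat_lit 0) (XT.lf (nat_lit 0) (nat_lit 591930171596) (nat_lit 76) (nat_lit 72124207425) (nat_lit 76) (nat_lit 65362300227) (nat_lit 1) (nat_lit 4) (nat_lit 2) (nat_lit 5) (nat_lit 2) (nat_lit 4) (nat_lit 321) (nat_lit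 228) (nat_lit 171)) (XT.nd (nat_lit 78) (nat_lit 0) (nat_lit 0) (XT.lf (nat_lit 0) (nat_lit 642875559142) (nat_lit 76) (nat_lit 75749072800) (nat_lit 76) (nat_lit 68980855763) (nat_lit 1) (nat_lit 4) (nat_lit 2) (nat_lit 5) (nat_lit 2) (nat_lit 4) (nat_lit 322) (nat_lit 228) (nat_lit 170)) (XT.lf (nat_lit 0) (nat_lit 697890353528) (nat_lit 76) (nat_lit 79666695980) (nat_lit 76) (nat_lit 72892636501) (nat_lit 1) (nat_lit 4) (nat_lit 2) (nat_lit 5) (nat_lit 2) (nat_lit 4) (nat_lit 323) (nat_lit 228) (nat_lit 169)))) (XT.nd (nat_lit 78) (nat_lit 0) (nat_lit 0) (XT.lf (nat_lit 0) (nat_lit 757300568349) (nat_lit 76) (nat_lit 83900292510) (nat_lit 76) (nat_lit 77120823362) (nat_lit 1) (nat_lit 4) (nat_lit 2) (nat_lit 5) (nat_lit 2) (nat_lit 4) (nat_lit 324) (nat_lit 228) (nat_lit 168)) (XT.nd (nat_lit 78) (nat_lit 0) (nat_lit 0) (XT.lf (nat_lit 0) (nat_lit 821458264139) (nat_lit 76) (nat_lit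 88474950370) (nat_lit 76) (nat_lit 81690472269) (nat_lit 1) (nat_lit 4) (nat_lit 2) (nat_lit 5) (nat_lit 2) (nat_lit 4) (nat_lit 325) (nat_lit 228) (nat_lit 167)) (XT.lf (nat_lit 0) (nat_lit 890743634650) (nat_lit 76) (nat_lit 93417778643) (nat_lit 76) (nat_lit 86628662623) (nat_lit 1) (nat_lit 4) (nat_lit 2) (nat_lit 5) (nat_lit 2) (nat_lit 4) (nat_lit 326) (nat_lit 228) (nat_lit 166))))) (XT.nd (nat_lit 234) (nat_lit 0) (nat_lit 0) (XT.nd (nat_lit 78) (nat_lit 0) (nat_lit 0) (XT.lf (nat_lit 0) (nat_lit 965567259856) (nat_lit 76) (nat_lit 98758068164) (nat_lit 76) (nat_lit 91964657774) (nat_lit 1) (nat_lit 4) (nat_lit 2) (nat_lit 5) (nat_lit 2) (nat_lit 4) (nat_lit 327) (nat_lit 228) (nat_lit 165)) (XT.nd (nat_lit 78) (nat_lit 0) (nat_lit 0) (XT.lf (nat_lit 0) (nat_lit 1046372539016) (nat_lit 76) (nat_lit 104527465093) (nat_lit 76) (nat_lit 97730078434) (nat_lit 1) (nat_lit 4) (nat_lit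 2) (nat_lit 5) (nat_lit 2) (nat_lit 4) (nat_lit 328) (nat_lit 228) (nat_lit 164)) (XT.lf (nat_lit 0) (nat_lit 1133638318231) (nat_lit 76) (nat_lit 110760158447) (nat_lit 76) (nat_lit 103959090059) (nat_lit 1) (nat_lit 4) (nat_lit 2) (nat_lit 5) (nat_lit 2) (nat_lit 4) (nat_lit 329) (nat_lit 228) (nat_lit 163)))) (XT.nd (nat_lit 78) (nat_lit 0) (nat_lit 0) (XT.lf (nat_lit 0) (nat_lit 1227881728042) (nat_lit 76) (nat_lit 117493082708) (nat_lit 76) (nat_lit 110688605311) (nat_lit 1) (nat_lit 4) (nat_lit 2) (nat_lit 5) (nat_lit 2) (nat_lit 4) (nat_lit 330) (nat_lit 228) (nat_lit 162)) (XT.nd (nat_lit 78) (nat_lit 0) (nat_lit 0) (XT.lf (nat_lit 0) (nat_lit 1329661247917) (nat_lit 76) (nat_lit 124766136684) (nat_lit 76) (nat_lit 117958502797) (nat_lit 1) (nat_lit 4) (nat_lit 2) (nat_lit 5) (nat_lit 2) (nat_lit 4) (nat_lit 331) (nat_lit 228) (nat_lit 161)) (XT.lf (nat_lit 0) (nat_lit 1439580015750)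 (nat_lit 76) (nat_lit 132622419956) (nat_lit 76) (nat_lit 125811863393) (nat_lit 1) (nat_lit 4) (nat_lit 2) (nat_lit 5) (nat_lit 2) (nat_lit 4) (nat_lit 332) (nat_lit 228) (nat_lit 160)))))) (XT.nd (nat_lit 32136) (nat_lit 0) (nat_lit 456) (XT.nd (nat_lit 234) (nat_lit 0) (nat_lit 0) (XT.nd (nat_lit 78) (nat_lit 0) (nat_lit 0) (XT.lf (nat_lit 0) (nat_lit 1558289402017) (nat_lit 76) (nat_lit 141108488275) (nat_lit 76) (nat_lit 134295225531) (nat_lit 1) (nat_lit 4) (nat_lit 2) (nat_lit 5) (nat_lit 2) (nat_lit 4) (nat_lit 333) (nat_lit 228) (nat_lit 159)) (XT.nd (nat_lit 78) (nat_lit 0) (nat_lit 0) (XT.lf (nat_lit 0) (nat_lit 1686492869748) (nat_lit 76) (nat_lit 150274629455) (nat_lit 76) (nat_lit 143458860987) (nat_lit 1) (nat_lit 4) (nat_lit 2) (nat_lit 5) (nat_lit 2) (nat_lit 4) (nat_lit 334) (nat_lit 228) (nat_lit 158)) (XT.lf (nat_lit 0) (nat_lit 1824950143197) (nat_lit 76) (nat_lit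 160175161368) (nat_lit 76) (nat_lit 153357072786) (nat_lit 1) (nat_lit 4) (nat_lit 2) (nat_lit 5) (nat_lit 2) (nat_lit 4) (nat_lit 335) (nat_lit 228) (nat_lit 157)))) (XT.nd (nat_lit 31746) (nat_lit 0) (nat_lit 836) (XT.lf (nat_lit 0) (nat_lit 1974481709909) (nat_lit 76) (nat_lit 170868753834) (nat_lit 76) (nat_lit 164048516998) (nat_lit 1) (nat_lit 4) (nat_lit 2) (nat_lit 5) (nat_lit 2) (nat_lit 4) (nat_lit 336) (nat_lit 228) (nat_lit 156)) (XT.nd (nat_lit 78) (nat_lit 0) (nat_lit 0) (XT.lf (nat_lit 0) (nat_lit 1229528597) (nat_lit 152) (nat_lit 3151782711) (nat_lit 0) (nat_lit 1229528597) (nat_lit 12) (nat_lit 5) (nat_lit 14) (nat_lit 4) (nat_lit 12) (nat_lit 4) (nat_lit 262) (nat_lit 229) (nat_lit 229)) (XT.lf (nat_lit 0) (nat_lit 5930713583) (nat_lit 152) (nat_lit 606839615) (nat_lit 0) (nat_lit 5240684667) (nat_lit 12) (nat_lit 5) (nat_lit 14) (nat_lit 4) (nat_lit 12) (nat_lit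 4) (nat_lit 263) (nat_lit 229) (nat_lit 228))))) (XT.nd (nat_lit 234) (nat_lit 76) (nat_lit 0) (XT.nd (nat_lit 78) (nat_lit 152) (nat_lit 0) (XT.lf (nat_lit 0) (nat_lit 5519379440) (nat_lit 152) (nat_lit 4097450676) (nat_lit 152) (nat_lit 2768506097) (nat_lit 10) (nat_lit 4) (nat_lit 12) (nat_lit 5) (nat_lit 12) (nat_lit 4) (nat_lit 264) (nat_lit 229) (nat_lit 227)) (XT.nd (nat_lit 78) (nat_lit 76) (nat_lit 0) (XT.lf (nat_lit 0) (nat_lit 351682861) (nat_lit 228) (nat_lit 1189032804) (nat_lit 76) (nat_lit 11514216844) (nat_lit 9) (nat_lit 5) (nat_lit 12) (nat_lit 5) (nat_lit 10) (nat_lit 4) (nat_lit 265) (nat_lit 229) (nat_lit 226)) (XT.lf (nat_lit 0) (nat_lit 3539875928) (nat_lit 152) (nat_lit 8981375592) (nat_lit 0) (nat_lit 1254412635) (nat_lit 8) (nat_lit 5) (nat_lit 10) (nat_lit 4) (nat_lit 8) (nat_lit 4) (nat_lit 266) (nat_lit 229) (nat_lit 225)))) (XT.nd (nat_lit 78) (nat_lit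 76) (nat_lit 0) (XT.lf (nat_lit 0) (nat_lit 6880794910) (nat_lit 152) (nat_lit 3556437368) (nat_lit 0) (nat_lit 4125709531) (nat_lit 8) (nat_lit 5) (nat_lit 10) (nat_lit 4) (nat_lit 8) (nat_lit 4) (nat_lit 267) (nat_lit 229) (nat_lit 224)) (XT.nd (nat_lit 78) (nat_lit 0) (nat_lit 0) (XT.lf (nat_lit 0) (nat_lit 2143015021) (nat_lit 76) (nat_lit 8234824169) (nat_lit 76) (nat_lit 5044903525) (nat_lit 7) (nat_lit 4) (nat_lit 8) (nat_lit 5) (nat_lit 8) (nat_lit 4) (nat_lit 268) (nat_lit 229) (nat_lit 223)) (XT.lf (nat_lit 0) (nat_lit 8240749638) (nat_lit 76) (nat_lit 5854248474) (nat_lit 76) (nat_lit 2261702585) (nat_lit 7) (nat_lit 4) (nat_lit 8) (nat_lit 5) (nat_lit 8) (nat_lit 4) (nat_lit 269) (nat_lit 229) (nat_lit 222))))))))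
noncomputable def xc30 : XT := (XT.nd (nat_lit 1794) (nat_lit 0) (nat_lit 0) (XT.nd (nat_lit 858) (nat_lit 76) (nat_lit 0) (XT.nd (nat_lit 390) (nat_lit 228) (nat_lit 0) (XT.nd (nat_lit 156) (nat_lit 0) (nat_lit 0) (XT.nd (nat_lit 78) (nat_lit 76) (nat_lit 0) (XT.lf (nat_lit 0) (nat_lit 557360067) (nat_lit 152) (nat_lit 2806038101) (nat_lit 76) (nat_lit 14013026237) (nat_lit 6) (nat_lit 5) (nat_lit 8) (nat_lit 5) (nat_lit 7) (nat_lit 4) (nat_lit 270) (nat_lit 229) (nat_lit 221)) (XT.lf (nat_lit 0) (nat_lit 2778284067) (nat_lit 76) (nat_lit 629801202) (nat_lit 152) (nat_lit 15071152007) (nat_lit 5) (nat_lit 5) (nat_lit 6) (nat_lit 5) (nat_lit 7) (nat_lit 4) (nat_lit 271) (nat_lit 229) (nat_lit 220))) (XT.nd (nat_lit 78) (nat_lit 0) (nat_lit 0) (XT.lf (nat_lit 0) (nat_lit 6485610023) (nat_lit 152) (nat_lit 10986773736) (nat_lit 0) (nat_lit 2198433916) (nat_lit 5) (nat_lit 5) (nat_lit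 7) (nat_lit 4) (nat_lit 5) (nat_lit 4) (nat_lit 272) (nat_lit 229) (nat_lit 219)) (XT.nd (nat_lit 78) (nat_lit 0) (nat_lit 0) (XT.lf (nat_lit 0) (nat_lit 9699927558) (nat_lit 152) (nat_lit 6128227304) (nat_lit 0) (nat_lit 5138731475) (nat_lit 5) (nat_lit 5) (nat_lit 7) (nat_lit 4) (nat_lit 5) (nat_lit 4) (nat_lit 273) (nat_lit 229) (nat_lit 218)) (XT.lf (nat_lit 0) (nat_lit 13054938948) (nat_lit 152) (nat_lit 1081375793) (nat_lit 0) (nat_lit 8240020664) (nat_lit 5) (nat_lit 5) (nat_lit 7) (nat_lit 4) (nat_lit 5) (nat_lit 4) (nat_lit 274) (nat_lit 229) (nat_lit 217))))) (XT.nd (nat_lit 234) (nat_lit 152) (nat_lit 0) (XT.nd (nat_lit 78) (nat_lit 0) (nat_lit 0) (XT.lf (nat_lit 0) (nat_lit 4403993664) (nat_lit 76) (nat_lit 12272448231) (nat_lit 76) (nat_lit 7222601984) (nat_lit 4) (nat_lit 4) (nat_lit 5) (nat_lit 5) (nat_lit 5) (nat_lit 4) (nat_lit 275) (nat_lit 229) (nat_lit 216)) (XT.nd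 (nat_lit 78) (nat_lit 0) (nat_lit 0) (XT.lf (nat_lit 0) (nat_lit 10208852813) (nat_lit 76) (nat_lit 10304191390) (nat_lit 76) (nat_lit 5036819251) (nat_lit 4) (nat_lit 4) (nat_lit 5) (nat_lit 5) (nat_lit 5) (nat_lit 4) (nat_lit 276) (nat_lit 229) (nat_lit 215)) (XT.lf (nat_lit 0) (nat_lit 16310657485) (nat_lit 76) (nat_lit 8249447204) (nat_lit 76) (nat_lit 2780662202) (nat_lit 4) (nat_lit 4) (nat_lit 5) (nat_lit 5) (nat_lit 5) (nat_lit 4) (nat_lit 277) (nat_lit 229) (nat_lit 214)))) (XT.nd (nat_lit 78) (nat_lit 152) (nat_lit 0) (XT.lf (nat_lit 0) (nat_lit 22745566523) (nat_lit 76) (nat_lit 6096039411) (nat_lit 76) (nat_lit 440761018) (nat_lit 4) (nat_lit 4) (nat_lit 5) (nat_lit 5) (nat_lit 5) (nat_lit 4) (nat_lit 278) (nat_lit 229) (nat_lit 213)) (XT.nd (nat_lit 78) (nat_lit 76) (nat_lit 0) (XT.lf (nat_lit 0) (nat_lit 1896864841) (nat_lit 152) (nat_lit 1882478590) (nat_lit 76) (nat_lit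 27602984233) (nat_lit 3) (nat_lit 5) (nat_lit 5) (nat_lit 5) (nat_lit 4) (nat_lit 4) (nat_lit 279) (nat_lit 229) (nat_lit 212)) (XT.lf (nat_lit 0) (nat_lit 3153183527) (nat_lit 76) (nat_lit 1241541958) (nat_lit 152) (nat_lit 29255101919) (nat_lit 2) (nat_lit 5) (nat_lit 3) (nat_lit 5) (nat_lit 4) (nat_lit 4) (nat_lit 280) (nat_lit 229) (nat_lit 211)))))) (XT.nd (nat_lit 468) (nat_lit 76) (nat_lit 0) (XT.nd (nat_lit 234) (nat_lit 0) (nat_lit 0) (XT.nd (nat_lit 78) (nat_lit 0) (nat_lit 0) (XT.lf (nat_lit 0) (nat_lit 7103715425) (nat_lit 152) (nat_lit 27571976474) (nat_lit 0) (nat_lit 1422335840) (nat_lit 2) (nat_lit 5) (nat_lit 4) (nat_lit 4) (nat_lit 2) (nat_lit 4) (nat_lit 281) (nat_lit 229) (nat_lit 210)) (XT.nd (nat_lit 78) (nat_lit 0) (nat_lit 0) (XT.lf (nat_lit 0) (nat_lit 9989853367) (nat_lit 152) (nat_lit 24574036403) (nat_lit 0) (nat_lit 4181549514) (nat_lit 2) (nat_lit 5)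 (nat_lit 4) (nat_lit 4) (nat_lit 2) (nat_lit 4) (nat_lit 282) (nat_lit 229) (nat_lit 209)) (XT.lf (nat_lit 0) (nat_lit 13040383239) (nat_lit 152) (nat_lit 21455198981) (nat_lit 0) (nat_lit 7114556915) (nat_lit 2) (nat_lit 5) (nat_lit 4) (nat_lit 4) (nat_lit 2) (nat_lit 4) (nat_lit 283) (nat_lit 229) (nat_lit 208)))) (XT.nd (nat_lit 78) (nat_lit 0) (nat_lit 0) (XT.lf (nat_lit 0) (nat_lit 16273382255) (nat_lit 152) (nat_lit 18196982208) (nat_lit 0) (nat_lit 10238738828) (nat_lit 2) (nat_lit 5) (nat_lit 4) (nat_lit 4) (nat_lit 2) (nat_lit 4) (nat_lit 284) (nat_lit 229) (nat_lit 207)) (XT.nd (nat_lit 78) (nat_lit 0) (nat_lit 0) (XT.lf (nat_lit 0) (nat_lit 19708008926) (nat_lit 152) (nat_lit 14780078133) (nat_lit 0) (nat_lit 13572608923) (nat_lit 2) (nat_lit 5) (nat_lit 4) (nat_lit 4) (nat_lit 2) (nat_lit 4) (nat_lit 285) (nat_lit 229) (nat_lit 206)) (XT.lf (nat_lit 0) (nat_lit 23364616597)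 (nat_lit 152) (nat_lit 11184238437) (nat_lit 0) (nat_lit 17135923467) (nat_lit 2) (nat_lit 5) (nat_lit 4) (nat_lit 4) (nat_lit 2) (nat_lit 4) (nat_lit 286) (nat_lit 229) (nat_lit 205))))) (XT.nd (nat_lit 234) (nat_lit 0) (nat_lit 0) (XT.nd (nat_lit 78) (nat_lit 76) (nat_lit 0) (XT.lf (nat_lit 0) (nat_lit 27264874054) (nat_lit 152) (nat_lit 7388154438) (nat_lit 0) (nat_lit 20949798399) (nat_lit 2) (nat_lit 5) (nat_lit 4) (nat_lit 4) (nat_lit 2) (nat_lit 4) (nat_lit 287) (nat_lit 229) (nat_lit 204)) (XT.nd (nat_lit 78) (nat_lit 76) (nat_lit 0) (XT.lf (nat_lit 0) (nat_lit 31431893933) (nat_lit 152) (nat_lit 3369330824) (nat_lit 0) (nat_lit 25036834459) (nat_lit 2) (nat_lit 5) (nat_lit 4) (nat_lit 4) (nat_lit 2) (nat_lit 4) (nat_lit 288) (nat_lit 229) (nat_lit 203)) (XT.lf (nat_lit 0) (nat_lit 943231936) (nat_lit 76) (nat_lit 34969822500) (nat_lit 76) (nat_lit 28500703935) (nat_lit 1)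 (nat_lit 4) (nat_lit 2) (nat_lit 5) (nat_lit 2) (nat_lit 4) (nat_lit 289) (nat_lit 229) (nat_lit 202)))) (XT.nd (nat_lit 78) (nat_lit 0) (nat_lit 0) (XT.lf (nat_lit 0) (nat_lit 5719363018) (nat_lit 76) (nat_lit 35084909709) (nat_lit 76) (nat_lit 28547217910) (nat_lit 1) (nat_lit 4) (nat_lit 2) (nat_lit 5) (nat_lit 2) (nat_lit 4) (nat_lit 290) (nat_lit 229) (nat_lit 201)) (XT.nd (nat_lit 78) (nat_lit 0) (nat_lit 0) (XT.lf (nat_lit 0) (nat_lit 10809942430) (nat_lit 76) (nat_lit 35239291858) (nat_lit 76) (nat_lit 28638106325) (nat_lit 1) (nat_lit 4) (nat_lit 2) (nat_lit 5) (nat_lit 2) (nat_lit 4) (nat_lit 291) (nat_lit 229) (nat_lit 200)) (XT.lf (nat_lit 0) (nat_lit 16245136568) (nat_lit 76) (nat_lit 35433883803) (nat_lit 76) (nat_lit 28773907776) (nat_lit 1) (nat_lit 4) (nat_lit 2) (nat_lit 5) (nat_lit 2) (nat_lit 4) (nat_lit 292) (nat_lit 229) (nat_lit 199))))))) (XT.nd (nat_lit 936)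 (nat_lit 0) (nat_lit 0) (XT.nd (nat_lit 468) (nat_lit 0) (nat_lit 0) (XT.nd (nat_lit 234) (nat_lit 0) (nat_lit 0) (XT.nd (nat_lit 78) (nat_lit 0) (nat_lit 0) (XT.lf (nat_lit 0) (nat_lit 22057153991) (nat_lit 76) (nat_lit 35669838684) (nat_lit 76) (nat_lit 28955427013) (nat_lit 1) (nat_lit 4) (nat_lit 2) (nat_lit 5) (nat_lit 2) (nat_lit 4) (nat_lit 293) (nat_lit 229) (nat_lit 198)) (XT.nd (nat_lit 78) (nat_lit 0) (nat_lit 0) (XT.lf (nat_lit 0) (nat_lit 28280436283) (nat_lit 76) (nat_lit 35948554750) (nat_lit 76) (nat_lit 29183739706) (nat_lit 1) (nat_lit 4) (nat_lit 2) (nat_lit 5) (nat_lit 2) (nat_lit 4) (nat_lit 294) (nat_lit 229) (nat_lit 197)) (XT.lf (nat_lit 0) (nat_lit 34951862153) (nat_lit 76) (nat_lit 36271683653) (nat_lit 76) (nat_lit 29460198819) (nat_lit 1) (nat_lit 4) (nat_lit 2) (nat_lit 5) (nat_lit 2) (nat_lit 4) (nat_lit 295) (nat_lit 229) (nat_lit 196)))) (XT.nd (nat_lit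 78) (nat_lit 0) (nat_lit 0) (XT.lf (nat_lit 0) (nat_lit 42110965979) (nat_lit 76) (nat_lit 36641140231) (nat_lit 76) (nat_lit 29786442628) (nat_lit 1) (nat_lit 4) (nat_lit 2) (nat_lit 5) (nat_lit 2) (nat_lit 4) (nat_lit 296) (nat_lit 229) (nat_lit 195)) (XT.nd (nat_lit 78) (nat_lit 0) (nat_lit 0) (XT.lf (nat_lit 0) (nat_lit 49800172077) (nat_lit 76) (nat_lit 37059113855) (nat_lit 76) (nat_lit 30164404429) (nat_lit 1) (nat_lit 4) (nat_lit 2) (nat_lit 5) (nat_lit 2) (nat_lit 4) (nat_lit 297) (nat_lit 229) (nat_lit 194)) (XT.lf (nat_lit 0) (nat_lit 58065046115) (nat_lit 76) (nat_lit 37528081407) (nat_lit 76) (nat_lit 30596323997) (nat_lit 1) (nat_lit 4) (nat_lit 2) (nat_lit 5) (nat_lit 2) (nat_lit 4) (nat_lit 298) (nat_lit 229) (nat_lit 193))))) (XT.nd (nat_lit 234) (nat_lit 0) (nat_lit 0) (XT.nd (nat_lit 78) (nat_lit 0) (nat_lit 0) (XT.lf (nat_lit 0) (nat_lit 66954565123) (nat_lit 76)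 (nat_lit 38050821954) (nat_lit 76) (nat_lit 31084760854) (nat_lit 1) (nat_lit 4) (nat_lit 2) (nat_lit 5) (nat_lit 2) (nat_lit 4) (nat_lit 299) (nat_lit 229) (nat_lit 192)) (XT.nd (nat_lit 78) (nat_lit 0) (nat_lit 0) (XT.lf (nat_lit 0) (nat_lit 76521407733) (nat_lit 76) (nat_lit 38630433216) (nat_lit 76) (nat_lit 31632609442) (nat_lit 1) (nat_lit 4) (nat_lit 2) (nat_lit 5) (nat_lit 2) (nat_lit 4) (nat_lit 300) (nat_lit 229) (nat_lit 191)) (XT.lf (nat_lit 0) (nat_lit 86822266345) (nat_lit 76) (nat_lit 39270349929) (nat_lit 76) (nat_lit 32243116270) (nat_lit 1) (nat_lit 4) (nat_lit 2) (nat_lit 5) (nat_lit 2) (nat_lit 4) (nat_lit 301) (nat_lit 229) (nat_lit 190)))) (XT.nd (nat_lit 78) (nat_lit 0) (nat_lit 0) (XT.lf (nat_lit 0) (nat_lit 97918183085) (nat_lit 76) (nat_lit 39974364190) (nat_lit 76) (nat_lit 32919899157) (nat_lit 1) (nat_lit 4) (nat_lit 2) (nat_lit 5) (nat_lit 2) (nat_lit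 4) (nat_lit 302) (nat_lit 229) (nat_lit 189)) (XT.nd (nat_lit 78) (nat_lit 0) (nat_lit 0) (XT.lf (nat_lit 0) (nat_lit 109874911533) (nat_lit 76) (nat_lit 40746647936) (nat_lit 76) (nat_lit 33666968668) (nat_lit 1) (nat_lit 4) (nat_lit 2) (nat_lit 5) (nat_lit 2) (nat_lit 4) (nat_lit 303) (nat_lit 229) (nat_lit 188)) (XT.lf (nat_lit 0) (nat_lit 122763306376) (nat_lit 76) (nat_lit 41591777664) (nat_lit 76) (nat_lit 34488751881) (nat_lit 1) (nat_lit 4) (nat_lit 2) (nat_lit 5) (nat_lit 2) (nat_lit 4) (nat_lit 304) (nat_lit 229) (nat_lit 187)))))) (XT.nd (nat_lit 468) (nat_lit 0) (nat_lit 0) (XT.nd (nat_lit 234) (nat_lit 0) (nat_lit 0) (XT.nd (nat_lit 78) (nat_lit 0) (nat_lit 0) (XT.lf (nat_lit 0) (nat_lit 136659743287) (nat_lit 76) (nat_lit 42514761549) (nat_lit 76) (nat_lit 35390118623) (nat_lit 1) (nat_lit 4) (nat_lit 2) (nat_lit 5) (nat_lit 2) (nat_lit 4) (nat_lit 305) (nat_lit 229)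 (nat_lit 186)) (XT.nd (nat_lit 78) (nat_lit 0) (nat_lit 0) (XT.lf (nat_lit 0) (nat_lit 151646571523) (nat_lit 76) (nat_lit 43521069126) (nat_lit 76) (nat_lit 36376410327) (nat_lit 1) (nat_lit 4) (nat_lit 2) (nat_lit 5) (nat_lit 2) (nat_lit 4) (nat_lit 306) (nat_lit 229) (nat_lit 185)) (XT.lf (nat_lit 0) (nat_lit 167812601916) (nat_lit 76) (nat_lit 44616663699) (nat_lit 76) (nat_lit 37453471684) (nat_lit 1) (nat_lit 4) (nat_lit 2) (nat_lit 5) (nat_lit 2) (nat_lit 4) (nat_lit 307) (nat_lit 229) (nat_lit 184)))) (XT.nd (nat_lit 78) (nat_lit 0) (nat_lit 0) (XT.lf (nat_lit 0) (nat_lit 185253633167) (nat_lit 76) (nat_lit 45808037680) (nat_lit 76) (nat_lit 38627685280) (nat_lit 1) (nat_lit 4) (nat_lit 2) (nat_lit 5) (nat_lit 2) (nat_lit 4) (nat_lit 308) (nat_lit 229) (nat_lit 183)) (XT.nd (nat_lit 78) (nat_lit 0) (nat_lit 0) (XT.lf (nat_lit 0) (nat_lit 204073019533) (nat_lit 76) (nat_lit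 47102251063) (nat_lit 76) (nat_lit 39906009418) (nat_lit 1) (nat_lit 4) (nat_lit 2) (nat_lit 5) (nat_lit 2) (nat_lit 4) (nat_lit 309) (nat_lit 229) (nat_lit 182)) (XT.lf (nat_lit 0) (nat_lit 224382283305) (nat_lit 76) (nat_lit 48506973260) (nat_lit 76) (nat_lit 41296019351) (nat_lit 1) (nat_lit 4) (nat_lit 2) (nat_lit 5) (nat_lit 2) (nat_lit 4) (nat_lit 310) (nat_lit 229) (nat_lit 181))))) (XT.nd (nat_lit 234) (nat_lit 0) (nat_lit 0) (XT.nd (nat_lit 78) (nat_lit 0) (nat_lit 0) (XT.lf (nat_lit 0) (nat_lit 246301775675) (nat_lit 76) (nat_lit 50030528552) (nat_lit 76) (nat_lit 42805952176) (nat_lit 1) (nat_lit 4) (nat_lit 2) (nat_lit 5) (nat_lit 2) (nat_lit 4) (nat_lit 311) (nat_lit 229) (nat_lit 180)) (XT.nd (nat_lit 78) (nat_lit 0) (nat_lit 0) (XT.lf (nat_lit 0) (nat_lit 269961389932) (nat_lit 76) (nat_lit 51681945415) (nat_lit 76) (nat_lit 44444755643) (nat_lit 1) (nat_lit 4) (nat_lit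 2) (nat_lit 5) (nat_lit 2) (nat_lit 4) (nat_lit 312) (nat_lit 229) (nat_lit 179)) (XT.lf (nat_lit 0) (nat_lit 295501331197) (nat_lit 76) (nat_lit 53471010021) (nat_lit 76) (nat_lit 46222141180) (nat_lit 1) (nat_lit 4) (nat_lit 2) (nat_lit 5) (nat_lit 2) (nat_lit 4) (nat_lit 313) (nat_lit 229) (nat_lit 178)))) (XT.nd (nat_lit 78) (nat_lit 0) (nat_lit 0) (XT.lf (nat_lit 0) (nat_lit 323072947270) (nat_lit 76) (nat_lit 55408324236) (nat_lit 76) (nat_lit 48148641442) (nat_lit 1) (nat_lit 4) (nat_lit 2) (nat_lit 5) (nat_lit 2) (nat_lit 4) (nat_lit 314) (nat_lit 229) (nat_lit 177)) (XT.nd (nat_lit 78) (nat_lit 0) (nat_lit 0) (XT.lf (nat_lit 0) (nat_lit 352839625505) (nat_lit 76) (nat_lit 57505368440) (nat_lit 76) (nat_lit 50235672726) (nat_lit 1) (nat_lit 4) (nat_lit 2) (nat_lit 5) (nat_lit 2) (nat_lit 4) (nat_lit 315) (nat_lit 229) (nat_lit 176)) (XT.lf (nat_lit 0) (nat_lit 384977761033)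 (nat_lit 76) (nat_lit 59774569562) (nat_lit 76) (nat_lit 52495602626) (nat_lit 1) (nat_lit 4) (nat_lit 2) (nat_lit 5) (nat_lit 2) (nat_lit 4) (nat_lit 316) (nat_lit 229) (nat_lit 175))))))))
noncomputable def xc31 : XT := (XT.nd (nat_lit 33384) (nat_lit 0) (nat_lit 76) (XT.nd (nat_lit 936) (nat_lit 0) (nat_lit 0) (XT.nd (nat_lit 468) (nat_lit 0) (nat_lit 0) (XT.nd (nat_lit 234) (nat_lit 0) (nat_lit 0) (XT.nd (nat_lit 78) (nat_lit 0) (nat_lit 0) (XT.lf (nat_lit 0) (nat_lit 419677802064) (nat_lit 76) (nat_lit 62229374720) (nat_lit 76) (nat_lit 54941823318) (nat_lit 1) (nat_lit 4) (nat_lit 2) (nat_lit 5) (nat_lit 2) (nat_lit 4) (nat_lit 317) (nat_lit 229) (nat_lit 174)) (XT.nd (nat_lit 78) (nat_lit 0) (nat_lit 0) (XT.lf (nat_lit 0) (nat_lit 457145378472) (nat_lit 76) (nat_lit 64884330906) (nat_lit 76) (nat_lit 57588830926) (nat_lit 1) (nat_lit 4) (nat_lit 2) (nat_lit 5) (nat_lit 2) (nat_lit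 4) (nat_lit 318) (nat_lit 229) (nat_lit 173)) (XT.lf (nat_lit 0) (nat_lit 497602520338) (nat_lit 76) (nat_lit 67755171195) (nat_lit 76) (nat_lit 60452311420) (nat_lit 1) (nat_lit 4) (nat_lit 2) (nat_lit 5) (nat_lit 2) (nat_lit 4) (nat_lit 319) (nat_lit 229) (nat_lit 172)))) (XT.nd (nat_lit 78) (nat_lit 0) (nat_lit 0) (XT.lf (nat_lit 0) (nat_lit 541288973689) (nat_lit 76) (nat_lit 70858907973) (nat_lit 76) (nat_lit 63549233574) (nat_lit 1) (nat_lit 4) (nat_lit 2) (nat_lit 5) (nat_lit 2) (nat_lit 4) (nat_lit 320) (nat_lit 229) (nat_lit 171)) (XT.nd (nat_lit 78) (nat_lit 0) (nat_lit 0) (XT.lf (nat_lit 0) (nat_lit 588463621210) (nat_lit 76) (nat_lit 74213933756) (nat_lit 76) (nat_lit 66897949518) (nat_lit 1) (nat_lit 4) (nat_lit 2) (nat_lit 5) (nat_lit 2) (nat_lit 4) (nat_lit 321) (nat_lit 229) (nat_lit 170)) (XT.lf (nat_lit 0) (nat_lit 639406016369) (nat_lit 76) (nat_lit 77840130176)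 (nat_lit 76) (nat_lit 70518303496) (nat_lit 1) (nat_lit 4) (nat_lit 2) (nat_lit 5) (nat_lit 2) (nat_lit 4) (nat_lit 322) (nat_lit 229) (nat_lit 169))))) (XT.nd (nat_lit 234) (nat_lit 0) (nat_lit 0) (XT.nd (nat_lit 78) (nat_lit 0) (nat_lit 0) (XT.lf (nat_lit 0) (nat_lit 694418040027) (nat_lit 76) (nat_lit 81758985806) (nat_lit 76) (nat_lit 74431749457) (nat_lit 1) (nat_lit 4) (nat_lit 2) (nat_lit 5) (nat_lit 2) (nat_lit 4) (nat_lit 323) (nat_lit 229) (nat_lit 168)) (XT.nd (nat_lit 78) (nat_lit 0) (nat_lit 0) (XT.lf (nat_lit 0) (nat_lit 753825689359) (nat_lit 76) (nat_lit 85993723494) (nat_lit 76) (nat_lit 78661478192) (nat_lit 1) (nat_lit 4) (nat_lit 2) (nat_lit 5) (nat_lit 2) (nat_lit 4) (nat_lit 324) (nat_lit 229) (nat_lit 167)) (XT.lf (nat_lit 0) (nat_lit 817981009696) (nat_lit 76) (nat_lit 90569437981) (nat_lit 76) (nat_lit 83232554760) (nat_lit 1) (nat_lit 4) (nat_lit 2) (nat_lit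 5) (nat_lit 2) (nat_lit 4) (nat_lit 325) (nat_lit 229) (nat_lit 166)))) (XT.nd (nat_lit 78) (nat_lit 0) (nat_lit 0) (XT.lf (nat_lit 0) (nat_lit 887264180714) (nat_lit 76) (nat_lit 95513244613) (nat_lit 76) (nat_lit 88172067022) (nat_lit 1) (nat_lit 4) (nat_lit 2) (nat_lit 5) (nat_lit 2) (nat_lit 4) (nat_lit 326) (nat_lit 229) (nat_lit 165)) (XT.nd (nat_lit 78) (nat_lit 0) (nat_lit 0) (XT.lf (nat_lit 0) (nat_lit 962085769351) (nat_lit 76) (nat_lit 100854440021) (nat_lit 76) (nat_lit 93509286162) (nat_lit 1) (nat_lit 4) (nat_lit 2) (nat_lit 5) (nat_lit 2) (nat_lit 4) (nat_lit 327) (nat_lit 229) (nat_lit 164)) (XT.lf (nat_lit 0) (nat_lit 1042889162801) (nat_lit 76) (nat_lit 106624675734) (nat_lit 76) (nat_lit 99275840145) (nat_lit 1) (nat_lit 4) (nat_lit 2) (nat_lit 5) (nat_lit 2) (nat_lit 4) (nat_lit 328) (nat_lit 229) (nat_lit 163)))))) (XT.nd (nat_lit 468) (nat_lit 0) (nat_lit 0)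 (XT.nd (nat_lit 234) (nat_lit 0) (nat_lit 0) (XT.nd (nat_lit 78) (nat_lit 0) (nat_lit 0) (XT.lf (nat_lit 0) (nat_lit 1130153195986) (nat_lit 76) (nat_lit 112858145741) (nat_lit 76) (nat_lit 105505901143) (nat_lit 1) (nat_lit 4) (nat_lit 2) (nat_lit 5) (nat_lit 2) (nat_lit 4) (nat_lit 329) (nat_lit 229) (nat_lit 162)) (XT.nd (nat_lit 78) (nat_lit 0) (nat_lit 0) (XT.lf (nat_lit 0) (nat_lit 1224394989105) (nat_lit 76) (nat_lit 119591789124) (nat_lit 76) (nat_lit 112236388036) (nat_lit 1) (nat_lit 4) (nat_lit 2) (nat_lit 5) (nat_lit 2) (nat_lit 4) (nat_lit 330) (nat_lit 229) (nat_lit 161)) (XT.lf (nat_lit 0) (nat_lit 1326173012041) (nat_lit 76) (nat_lit 126865508955) (nat_lit 76) (nat_lit 119507185191) (nat_lit 1) (nat_lit 4) (nat_lit 2) (nat_lit 5) (nat_lit 2) (nat_lit 4) (nat_lit 331) (nat_lit 229) (nat_lit 160)))) (XT.nd (nat_lit 78) (nat_lit 0) (nat_lit 0) (XT.lf (nat_lit 0) (nat_lit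 1436090393820) (nat_lit 76) (nat_lit 134722408759) (nat_lit 76) (nat_lit 127361378813) (nat_lit 1) (nat_lit 4) (nat_lit 2) (nat_lit 5) (nat_lit 2) (nat_lit 4) (nat_lit 332) (nat_lit 229) (nat_lit 159)) (XT.nd (nat_lit 78) (nat_lit 0) (nat_lit 0) (XT.lf (nat_lit 0) (nat_lit 1554798496703) (nat_lit 76) (nat_lit 143209047941) (nat_lit 76) (nat_lit 135845512272) (nat_lit 1) (nat_lit 4) (nat_lit 2) (nat_lit 5) (nat_lit 2) (nat_lit 4) (nat_lit 333) (nat_lit 229) (nat_lit 158)) (XT.lf (nat_lit 0) (nat_lit 1683000776117) (nat_lit 76) (nat_lit 152375717697) (nat_lit 76) (nat_lit 145009861914) (nat_lit 1) (nat_lit 4) (nat_lit 2) (nat_lit 5) (nat_lit 2) (nat_lit 4) (nat_lit 334) (nat_lit 229) (nat_lit 157))))) (XT.nd (nat_lit 31746) (nat_lit 0) (nat_lit 836) (XT.nd (nat_lit 78) (nat_lit 0) (nat_lit 0) (XT.lf (nat_lit 0) (nat_lit 1821456949271) (nat_lit 76) (nat_lit 162276739033) (nat_lit 76)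 (nat_lit 154908734996) (nat_lit 1) (nat_lit 4) (nat_lit 2) (nat_lit 5) (nat_lit 2) (nat_lit 4) (nat_lit 335) (nat_lit 229) (nat_lit 156)) (XT.nd (nat_lit 31590) (nat_lit 0) (nat_lit 988) (XT.lf (nat_lit 0) (nat_lit 1970987497193) (nat_lit 76) (nat_lit 172970784668) (nat_lit 76) (nat_lit 165600791507) (nat_lit 1) (nat_lit 4) (nat_lit 2) (nat_lit 5) (nat_lit 2) (nat_lit 4) (nat_lit 336) (nat_lit 229) (nat_lit 155)) (XT.lf (nat_lit 0) (nat_lit 1743279028) (nat_lit 152) (nat_lit 1689067093) (nat_lit 152) (nat_lit 1689067093) (nat_lit 14) (nat_lit 4) (nat_lit 16) (nat_lit 5) (nat_lit 16) (nat_lit 4) (nat_lit 260) (nat_lit 230) (nat_lit 230)))) (XT.nd (nat_lit 78) (nat_lit 152) (nat_lit 0) (XT.lf (nat_lit 0) (nat_lit 9590100967) (nat_lit 152) (nat_lit 966608174) (nat_lit 152) (nat_lit 161758446) (nat_lit 14) (nat_lit 4) (nat_lit 16) (nat_lit 5) (nat_lit 16) (nat_lit 4) (nat_lit 261) (nat_lit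 230) (nat_lit 229)) (XT.nd (nat_lit 78) (nat_lit 0) (nat_lit 0) (XT.lf (nat_lit 0) (nat_lit 3102512144) (nat_lit 152) (nat_lit 6460553043) (nat_lit 0) (nat_lit 1667251999) (nat_lit 12) (nat_lit 5) (nat_lit 14) (nat_lit 4) (nat_lit 12) (nat_lit 4) (nat_lit 262) (nat_lit 230) (nat_lit 228)) (XT.lf (nat_lit 0) (nat_lit 6479931237) (nat_lit 152) (nat_lit 909186145) (nat_lit 0) (nat_lit 4405755429) (nat_lit 12) (nat_lit 5) (nat_lit 14) (nat_lit 4) (nat_lit 12) (nat_lit 4) (nat_lit 263) (nat_lit 230) (nat_lit 227))))))) (XT.nd (nat_lit 936) (nat_lit 152) (nat_lit 0) (XT.nd (nat_lit 468) (nat_lit 228) (nat_lit 0) (XT.nd (nat_lit 234) (nat_lit 76) (nat_lit 0) (XT.nd (nat_lit 78) (nat_lit 152) (nat_lit 0) (XT.lf (nat_lit 0) (nat_lit 5059432941) (nat_lit 152) (nat_lit 5008296349) (nat_lit 152) (nat_lit 2342531963) (nat_lit 10) (nat_lit 4) (nat_lit 12) (nat_lit 5) (nat_lit 12) (nat_lit 4) (nat_lit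 264) (nat_lit 230) (nat_lit 226)) (XT.nd (nat_lit 78) (nat_lit 76) (nat_lit 0) (XT.lf (nat_lit 0) (nat_lit 669845797) (nat_lit 228) (nat_lit 1820252327) (nat_lit 76) (nat_lit 10596224071) (nat_lit 9) (nat_lit 5) (nat_lit 12) (nat_lit 5) (nat_lit 10) (nat_lit 4) (nat_lit 265) (nat_lit 230) (nat_lit 225)) (XT.lf (nat_lit 0) (nat_lit 3734338378) (nat_lit 152) (nat_lit 9793724492) (nat_lit 0) (nat_lit 289224083) (nat_lit 8) (nat_lit 5) (nat_lit 10) (nat_lit 4) (nat_lit 8) (nat_lit 4) (nat_lit 266) (nat_lit 230) (nat_lit 224)))) (XT.nd (nat_lit 78) (nat_lit 76) (nat_lit 0) (XT.lf (nat_lit 0) (nat_lit 6997042080) (nat_lit 152) (nat_lit 4496999337) (nat_lit 0) (nat_lit 3117092520) (nat_lit 8) (nat_lit 5) (nat_lit 10) (nat_lit 4) (nat_lit 8) (nat_lit 4) (nat_lit 267) (nat_lit 230) (nat_lit 223)) (XT.nd (nat_lit 78) (nat_lit 0) (nat_lit 0) (XT.lf (nat_lit 0) (nat_lit 1027957558) (nat_lit 76)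 (nat_lit 9366890087) (nat_lit 76) (nat_lit 5084315282) (nat_lit 7) (nat_lit 4) (nat_lit 8) (nat_lit 5) (nat_lit 8) (nat_lit 4) (nat_lit 268) (nat_lit 230) (nat_lit 222)) (XT.lf (nat_lit 0) (nat_lit 7009981835) (nat_lit 76) (nat_lit 7032184900) (nat_lit 76) (nat_lit 2376808942) (nat_lit 7) (nat_lit 4) (nat_lit 8) (nat_lit 5) (nat_lit 8) (nat_lit 4) (nat_lit 269) (nat_lit 230) (nat_lit 221))))) (XT.nd (nat_lit 234) (nat_lit 76) (nat_lit 0) (XT.nd (nat_lit 78) (nat_lit 76) (nat_lit 0) (XT.lf (nat_lit 0) (nat_lit 381430269) (nat_lit 152) (nat_lit 4207187249) (nat_lit 76) (nat_lit 12855859260) (nat_lit 6) (nat_lit 5) (nat_lit 8) (nat_lit 5) (nat_lit 7) (nat_lit 4) (nat_lit 270) (nat_lit 230) (nat_lit 220)) (XT.nd (nat_lit 78) (nat_lit 0) (nat_lit 0) (XT.lf (nat_lit 0) (nat_lit 1195285165) (nat_lit 76) (nat_lit 1937149583) (nat_lit 152) (nat_lit 15423044974) (nat_lit 5) (nat_lit 5) (nat_lit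 6) (nat_lit 5) (nat_lit 7) (nat_lit 4) (nat_lit 271) (nat_lit 230) (nat_lit 219)) (XT.lf (nat_lit 0) (nat_lit 6118052514) (nat_lit 152) (nat_lit 12718616077) (nat_lit 0) (nat_lit 917940768) (nat_lit 5) (nat_lit 5) (nat_lit 7) (nat_lit 4) (nat_lit 5) (nat_lit 4) (nat_lit 272) (nat_lit 230) (nat_lit 218)))) (XT.nd (nat_lit 78) (nat_lit 76) (nat_lit 0) (XT.lf (nat_lit 0) (nat_lit 9276383728) (nat_lit 152) (nat_lit 7956405527) (nat_lit 0) (nat_lit 3822549782) (nat_lit 5) (nat_lit 5) (nat_lit 7) (nat_lit 4) (nat_lit 5) (nat_lit 4) (nat_lit 273) (nat_lit 230) (nat_lit 217)) (XT.nd (nat_lit 78) (nat_lit 76) (nat_lit 0) (XT.lf (nat_lit 0) (nat_lit 12579555933) (nat_lit 152) (nat_lit 2998753907) (nat_lit 0) (nat_lit 6890794023) (nat_lit 5) (nat_lit 5) (nat_lit 7) (nat_lit 4) (nat_lit 5) (nat_lit 4) (nat_lit 274) (nat_lit 230) (nat_lit 216)) (XT.lf (nat_lit 0) (nat_lit 2298708150) (nat_lit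 76) (nat_lit 13803719316) (nat_lit 76) (nat_lit 7897431514) (nat_lit 4) (nat_lit 4) (nat_lit 5) (nat_lit 5) (nat_lit 5) (nat_lit 4) (nat_lit 275) (nat_lit 230) (nat_lit 215)))))) (XT.nd (nat_lit 468) (nat_lit 0) (nat_lit 0) (XT.nd (nat_lit 234) (nat_lit 152) (nat_lit 0) (XT.nd (nat_lit 78) (nat_lit 0) (nat_lit 0) (XT.lf (nat_lit 0) (nat_lit 8023065757) (nat_lit 76) (nat_lit 11869584207) (nat_lit 76) (nat_lit 5761883542) (nat_lit 4) (nat_lit 4) (nat_lit 5) (nat_lit 5) (nat_lit 5) (nat_lit 4) (nat_lit 276) (nat_lit 230) (nat_lit 214)) (XT.nd (nat_lit 78) (nat_lit 0) (nat_lit 0) (XT.lf (nat_lit 0) (nat_lit 14050331963) (nat_lit 76) (nat_lit 9846434217) (nat_lit 76) (nat_lit 3552240161) (nat_lit 4) (nat_lit 4) (nat_lit 5) (nat_lit 5) (nat_lit 5) (nat_lit 4) (nat_lit 277) (nat_lit 230) (nat_lit 213)) (XT.lf (nat_lit 0) (nat_lit 20416223904) (nat_lit 76) (nat_lit 7722280310) (nat_lit 76)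 (nat_lit 1255407187) (nat_lit 4) (nat_lit 4) (nat_lit 5) (nat_lit 5) (nat_lit 5) (nat_lit 4) (nat_lit 278) (nat_lit 230) (nat_lit 212)))) (XT.nd (nat_lit 78) (nat_lit 76) (nat_lit 0) (XT.lf (nat_lit 0) (nat_lit 1085087457) (nat_lit 152) (nat_lit 4369779235) (nat_lit 76) (nat_lit 26043709710) (nat_lit 3) (nat_lit 5) (nat_lit 5) (nat_lit 5) (nat_lit 4) (nat_lit 4) (nat_lit 279) (nat_lit 230) (nat_lit 211)) (XT.nd (nat_lit 78) (nat_lit 0) (nat_lit 0) (XT.lf (nat_lit 0) (nat_lit 470571234) (nat_lit 76) (nat_lit 3012783019) (nat_lit 152) (nat_lit 30290787786) (nat_lit 2) (nat_lit 5) (nat_lit 3) (nat_lit 5) (nat_lit 4) (nat_lit 4) (nat_lit 280) (nat_lit 230) (nat_lit 210)) (XT.lf (nat_lit 0) (nat_lit 5822758892) (nat_lit 76) (nat_lit 299665490) (nat_lit 152) (nat_lit 30105602676) (nat_lit 2) (nat_lit 5) (nat_lit 3) (nat_lit 5) (nat_lit 4) (nat_lit 4) (nat_lit 281) (nat_lit 230) (nat_lit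 209))))) (XT.nd (nat_lit 234) (nat_lit 0) (nat_lit 0) (XT.nd (nat_lit 78) (nat_lit 0) (nat_lit 0) (XT.lf (nat_lit 0) (nat_lit 8969384639) (nat_lit 152) (nat_lit 27457302795) (nat_lit 0) (nat_lit 2451969738) (nat_lit 2) (nat_lit 5) (nat_lit 4) (nat_lit 4) (nat_lit 2) (nat_lit 4) (nat_lit 282) (nat_lit 230) (nat_lit 208)) (XT.nd (nat_lit 78) (nat_lit 0) (nat_lit 0) (XT.lf (nat_lit 0) (nat_lit 11990311989) (nat_lit 152) (nat_lit 24391411355) (nat_lit 0) (nat_lit 5364079985) (nat_lit 2) (nat_lit 5) (nat_lit 4) (nat_lit 4) (nat_lit 2) (nat_lit 4) (nat_lit 283) (nat_lit 230) (nat_lit 207)) (XT.lf (nat_lit 0) (nat_lit 15195901261) (nat_lit 152) (nat_lit 21182218640) (nat_lit 0) (nat_lit 8468912681) (nat_lit 2) (nat_lit 5) (nat_lit 4) (nat_lit 4) (nat_lit 2) (nat_lit 4) (nat_lit 284) (nat_lit 230) (nat_lit 206)))) (XT.nd (nat_lit 78) (nat_lit 0) (nat_lit 0) (XT.lf (nat_lit 0) (nat_lit 18605148541)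 (nat_lit 152) (nat_lit 17810707211) (nat_lit 0) (nat_lit 11784866834) (nat_lit 2) (nat_lit 5) (nat_lit 4) (nat_lit 4) (nat_lit 2) (nat_lit 4) (nat_lit 285) (nat_lit 230) (nat_lit 205)) (XT.nd (nat_lit 78) (nat_lit 0) (nat_lit 0) (XT.lf (nat_lit 0) (nat_lit 22238256776) (nat_lit 152) (nat_lit 14256897742) (nat_lit 0) (nat_lit 15331592544) (nat_lit 2) (nat_lit 5) (nat_lit 4) (nat_lit 4) (nat_lit 2) (nat_lit 4) (nat_lit 286) (nat_lit 230) (nat_lit 204)) (XT.lf (nat_lit 0) (nat_lit 26116755495) (nat_lit 152) (nat_lit 10499730621) (nat_lit 0) (nat_lit 19130107444) (nat_lit 2) (nat_lit 5) (nat_lit 4) (nat_lit 4) (nat_lit 2) (nat_lit 4) (nat_lit 287) (nat_lit 230) (nat_lit 203))))))))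
noncomputable def xc32 : XT := (XT.nd (nat_lit 1794) (nat_lit 0) (nat_lit 0) (XT.nd (nat_lit 858) (nat_lit 0) (nat_lit 0) (XT.nd (nat_lit 390) (nat_lit 0) (nat_lit 0) (XT.nd (nat_lit 156) (nat_lit 76) (nat_lit 0) (XT.nd (nat_lit 78) (nat_lit 0) (nat_lit 0) (XT.lf (nat_lit 0) (nat_lit 30263628395) (nat_lit 152) (nat_lit 6516941153) (nat_lit 0) (nat_lit 23202921253) (nat_lit 2) (nat_lit 5) (nat_lit 4) (nat_lit 4) (nat_lit 2) (nat_lit 4) (nat_lit 288) (nat_lit 230) (nat_lit 202)) (XT.lf (nat_lit 0) (nat_lit 34703449537) (nat_lit 152) (nat_lit 2284927624) (nat_lit 0) (nat_lit 27574169162) (nat_lit 2) (nat_lit 5) (nat_lit 4) (nat_lit 4) (nat_lit 2) (nat_lit 4) (nat_lit 289) (nat_lit 230) (nat_lit 201))) (XT.nd (nat_lit 78) (nat_lit 0) (nat_lit 0) (XT.lf (nat_lit 0) (nat_lit 2338362950) (nat_lit 76) (nat_lit 37180403708) (nat_lit 76) (nat_lit 29987629598) (nat_lit 1) (nat_lit 4) (nat_lit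 2) (nat_lit 5) (nat_lit 2) (nat_lit 4) (nat_lit 290) (nat_lit 230) (nat_lit 200)) (XT.nd (nat_lit 78) (nat_lit 0) (nat_lit 0) (XT.lf (nat_lit 0) (nat_lit 7398831003) (nat_lit 76) (nat_lit 37348179715) (nat_lit 76) (nat_lit 30096615110) (nat_lit 1) (nat_lit 4) (nat_lit 2) (nat_lit 5) (nat_lit 2) (nat_lit 4) (nat_lit 291) (nat_lit 230) (nat_lit 199)) (XT.lf (nat_lit 0) (nat_lit 12806144254) (nat_lit 76) (nat_lit 37555173381) (nat_lit 76) (nat_lit 30249173133) (nat_lit 1) (nat_lit 4) (nat_lit 2) (nat_lit 5) (nat_lit 2) (nat_lit 4) (nat_lit 292) (nat_lit 230) (nat_lit 198))))) (XT.nd (nat_lit 234) (nat_lit 0) (nat_lit 0) (XT.nd (nat_lit 78) (nat_lit 0) (nat_lit 0) (XT.lf (nat_lit 0) (nat_lit 18592346040) (nat_lit 76) (nat_lit 37802611337) (nat_lit 76) (nat_lit 30446207715) (nat_lit 1) (nat_lit 4) (nat_lit 2) (nat_lit 5) (nat_lit 2) (nat_lit 4) (nat_lit 293) (nat_lit 230) (nat_lit 197))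 (XT.nd (nat_lit 78) (nat_lit 0) (nat_lit 0) (XT.lf (nat_lit 0) (nat_lit 24791724964) (nat_lit 76) (nat_lit 38091959880) (nat_lit 76) (nat_lit 30688886468) (nat_lit 1) (nat_lit 4) (nat_lit 2) (nat_lit 5) (nat_lit 2) (nat_lit 4) (nat_lit 294) (nat_lit 230) (nat_lit 196)) (XT.lf (nat_lit 0) (nat_lit 31441018087) (nat_lit 76) (nat_lit 38424933668) (nat_lit 76) (nat_lit 30978647488) (nat_lit 1) (nat_lit 4) (nat_lit 2) (nat_lit 5) (nat_lit 2) (nat_lit 4) (nat_lit 295) (nat_lit 230) (nat_lit 195)))) (XT.nd (nat_lit 78) (nat_lit 0) (nat_lit 0) (XT.lf (nat_lit 0) (nat_lit 38579628627) (nat_lit 76) (nat_lit 38803505881) (nat_lit 76) (nat_lit 31317207878) (nat_lit 1) (nat_lit 4) (nat_lit 2) (nat_lit 5) (nat_lit 2) (nat_lit 4) (nat_lit 296) (nat_lit 230) (nat_lit 194)) (XT.nd (nat_lit 78) (nat_lit 0) (nat_lit 0) (XT.lf (nat_lit 0) (nat_lit 46249859462) (nat_lit 76) (nat_lit 39229919908) (nat_lit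 76) (nat_lit 31706573920) (nat_lit 1) (nat_lit 4) (nat_lit 2) (nat_lit 5) (nat_lit 2) (nat_lit 4) (nat_lit 297) (nat_lit 230) (nat_lit 193)) (XT.lf (nat_lit 0) (nat_lit 54497163811) (nat_lit 76) (nat_lit 39706702647) (nat_lit 76) (nat_lit 32149052971) (nat_lit 1) (nat_lit 4) (nat_lit 2) (nat_lit 5) (nat_lit 2) (nat_lit 4) (nat_lit 298) (nat_lit 230) (nat_lit 192)))))) (XT.nd (nat_lit 468) (nat_lit 0) (nat_lit 0) (XT.nd (nat_lit 234) (nat_lit 0) (nat_lit 0) (XT.nd (nat_lit 78) (nat_lit 0) (nat_lit 0) (XT.lf (nat_lit 0) (nat_lit 63370414589) (nat_lit 76) (nat_lit 40236679479) (nat_lit 76) (nat_lit 32647267127) (nat_lit 1) (nat_lit 4) (nat_lit 2) (nat_lit 5) (nat_lit 2) (nat_lit 4) (nat_lit 299) (nat_lit 230) (nat_lit 191)) (XT.nd (nat_lit 78) (nat_lit 0) (nat_lit 0) (XT.lf (nat_lit 0) (nat_lit 72922194023) (nat_lit 76) (nat_lit 40822991005) (nat_lit 76) (nat_lit 33204168770) (nat_lit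 1) (nat_lit 4) (nat_lit 2) (nat_lit 5) (nat_lit 2) (nat_lit 4) (nat_lit 300) (nat_lit 230) (nat_lit 190)) (XT.lf (nat_lit 0) (nat_lit 83209105250) (nat_lit 76) (nat_lit 41469111666) (nat_lit 76) (nat_lit 33823058056) (nat_lit 1) (nat_lit 4) (nat_lit 2) (nat_lit 5) (nat_lit 2) (nat_lit 4) (nat_lit 301) (nat_lit 230) (nat_lit 189)))) (XT.nd (nat_lit 78) (nat_lit 0) (nat_lit 0) (XT.lf (nat_lit 0) (nat_lit 94292107744) (nat_lit 76) (nat_lit 42178870323) (nat_lit 76) (nat_lit 34507602478) (nat_lit 1) (nat_lit 4) (nat_lit 2) (nat_lit 5) (nat_lit 2) (nat_lit 4) (nat_lit 302) (nat_lit 230) (nat_lit 188)) (XT.nd (nat_lit 78) (nat_lit 0) (nat_lit 0) (XT.lf (nat_lit 0) (nat_lit 106236878556) (nat_lit 76) (nat_lit 42956472955) (nat_lit 76) (nat_lit 35261858595) (nat_lit 1) (nat_lit 4) (nat_lit 2) (nat_lit 5) (nat_lit 2) (nat_lit 4) (nat_lit 303) (nat_lit 230) (nat_lit 187)) (XT.lf (nat_lit 0)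 (nat_lit 119114201515) (nat_lit 76) (nat_lit 43806527576) (nat_lit 76) (nat_lit 36090296074) (nat_lit 1) (nat_lit 4) (nat_lit 2) (nat_lit 5) (nat_lit 2) (nat_lit 4) (nat_lit 304) (nat_lit 230) (nat_lit 186))))) (XT.nd (nat_lit 234) (nat_lit 0) (nat_lit 0) (XT.nd (nat_lit 78) (nat_lit 0) (nat_lit 0) (XT.lf (nat_lit 0) (nat_lit 133000386682) (nat_lit 76) (nat_lit 44734071548) (nat_lit 76) (nat_lit 36997824173) (nat_lit 1) (nat_lit 4) (nat_lit 2) (nat_lit 5) (nat_lit 2) (nat_lit 4) (nat_lit 305) (nat_lit 230) (nat_lit 185)) (XT.nd (nat_lit 78) (nat_lit 0) (nat_lit 0) (XT.lf (nat_lit 0) (nat_lit 147977722561) (nat_lit 76) (nat_lit 45744601428) (nat_lit 76) (nat_lit 37989820837) (nat_lit 1) (nat_lit 4) (nat_lit 2) (nat_lit 5) (nat_lit 2) (nat_lit 4) (nat_lit 306) (nat_lit 230) (nat_lit 184)) (XT.lf (nat_lit 0) (nat_lit 164134963737) (nat_lit 76) (nat_lit 46844105540) (nat_lit 76) (nat_lit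 39072164564) (nat_lit 1) (nat_lit 4) (nat_lit 2) (nat_lit 5) (nat_lit 2) (nat_lit 4) (nat_lit 307) (nat_lit 230) (nat_lit 183)))) (XT.nd (nat_lit 78) (nat_lit 0) (nat_lit 0) (XT.lf (nat_lit 0) (nat_lit 181567856821) (nat_lit 76) (nat_lit 48039099465) (nat_lit 76) (nat_lit 40251269244) (nat_lit 1) (nat_lit 4) (nat_lit 2) (nat_lit 5) (nat_lit 2) (nat_lit 4) (nat_lit 308) (nat_lit 230) (nat_lit 182)) (XT.nd (nat_lit 78) (nat_lit 0) (nat_lit 0) (XT.lf (nat_lit 0) (nat_lit 200379707850) (nat_lit 76) (nat_lit 49336664648) (nat_lit 76) (nat_lit 41534122162) (nat_lit 1) (nat_lit 4) (nat_lit 2) (nat_lit 5) (nat_lit 2) (nat_lit 4) (nat_lit 309) (nat_lit 230) (nat_lit 181)) (XT.lf (nat_lit 0) (nat_lit 220681994456) (nat_lit 76) (nat_lit 50744490365) (nat_lit 76) (nat_lit 42928325412) (nat_lit 1) (nat_lit 4) (nat_lit 2) (nat_lit 5) (nat_lit 2) (nat_lit 4) (nat_lit 310) (nat_lit 230) (nat_lit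 180))))))) (XT.nd (nat_lit 936) (nat_lit 0) (nat_lit 0) (XT.nd (nat_lit 468) (nat_lit 0) (nat_lit 0) (XT.nd (nat_lit 234) (nat_lit 0) (nat_lit 0) (XT.nd (nat_lit 78) (nat_lit 0) (nat_lit 0) (XT.lf (nat_lit 0) (nat_lit 242595026489) (nat_lit 76) (nat_lit 52270919285) (nat_lit 76) (nat_lit 44442140937) (nat_lit 1) (nat_lit 4) (nat_lit 2) (nat_lit 5) (nat_lit 2) (nat_lit 4) (nat_lit 311) (nat_lit 230) (nat_lit 179)) (XT.nd (nat_lit 78) (nat_lit 0) (nat_lit 0) (XT.lf (nat_lit 0) (nat_lit 266248658951) (nat_lit 76) (nat_lit 53924996914) (nat_lit 76) (nat_lit 46084539496) (nat_lit 1) (nat_lit 4) (nat_lit 2) (nat_lit 5) (nat_lit 2) (nat_lit 4) (nat_lit 312) (nat_lit 230) (nat_lit 178)) (XT.lf (nat_lit 0) (nat_lit 291783061517) (nat_lit 76) (nat_lit 55716525194) (nat_lit 76) (nat_lit 47865253822) (nat_lit 1) (nat_lit 4) (nat_lit 2) (nat_lit 5) (nat_lit 2) (nat_lit 4) (nat_lit 313) (nat_lit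 230) (nat_lit 177)))) (XT.nd (nat_lit 78) (nat_lit 0) (nat_lit 0) (XT.lf (nat_lit 0) (nat_lit 319349549165) (nat_lit 76) (nat_lit 57656120588) (nat_lit 76) (nat_lit 49794836297) (nat_lit 1) (nat_lit 4) (nat_lit 2) (nat_lit 5) (nat_lit 2) (nat_lit 4) (nat_lit 314) (nat_lit 230) (nat_lit 176)) (XT.nd (nat_lit 78) (nat_lit 0) (nat_lit 0) (XT.lf (nat_lit 0) (nat_lit 349111478859) (nat_lit 76) (nat_lit 59755276994) (nat_lit 76) (nat_lit 51884721481) (nat_lit 1) (nat_lit 4) (nat_lit 2) (nat_lit 5) (nat_lit 2) (nat_lit 4) (nat_lit 315) (nat_lit 230) (nat_lit 175)) (XT.lf (nat_lit 0) (nat_lit 381245217589) (nat_lit 76) (nat_lit 62026433859) (nat_lit 76) (nat_lit 54147293881) (nat_lit 1) (nat_lit 4) (nat_lit 2) (nat_lit 5) (nat_lit 2) (nat_lit 4) (nat_lit 316) (nat_lit 230) (nat_lit 174))))) (XT.nd (nat_lit 234) (nat_lit 0) (nat_lit 0) (XT.nd (nat_lit 78) (nat_lit 0) (nat_lit 0) (XT.lf (nat_lit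 0) (nat_lit 415941187512) (nat_lit 76) (nat_lit 64483049890) (nat_lit 76) (nat_lit 56595961333) (nat_lit 1) (nat_lit 4) (nat_lit 2) (nat_lit 5) (nat_lit 2) (nat_lit 4) (nat_lit 317) (nat_lit 230) (nat_lit 173)) (XT.nd (nat_lit 78) (nat_lit 0) (nat_lit 0) (XT.lf (nat_lit 0) (nat_lit 453404994374) (nat_lit 76) (nat_lit 67139682811) (nat_lit 76) (nat_lit 59245234459) (nat_lit 1) (nat_lit 4) (nat_lit 2) (nat_lit 5) (nat_lit 2) (nat_lit 4) (nat_lit 318) (nat_lit 230) (nat_lit 172)) (XT.lf (nat_lit 0) (nat_lit 493858645921) (nat_lit 76) (nat_lit 70012075632) (nat_lit 76) (nat_lit 62110812655) (nat_lit 1) (nat_lit 4) (nat_lit 2) (nat_lit 5) (nat_lit 2) (nat_lit 4) (nat_lit 319) (nat_lit 230) (nat_lit 171)))) (XT.nd (nat_lit 78) (nat_lit 0) (nat_lit 0) (XT.lf (nat_lit 0) (nat_lit 537541867494) (nat_lit 76) (nat_lit 73117249940) (nat_lit 76) (nat_lit 65209677125) (nat_lit 1) (nat_lit 4) (nat_lit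 2) (nat_lit 5) (nat_lit 2) (nat_lit 4) (nat_lit 320) (nat_lit 230) (nat_lit 170)) (XT.nd (nat_lit 78) (nat_lit 0) (nat_lit 0) (XT.lf (nat_lit 0) (nat_lit 584713522629) (nat_lit 76) (nat_lit 76473606768) (nat_lit 76) (nat_lit 68560191511) (nat_lit 1) (nat_lit 4) (nat_lit 2) (nat_lit 5) (nat_lit 2) (nat_lit 4) (nat_lit 321) (nat_lit 230) (nat_lit 169)) (XT.lf (nat_lit 0) (nat_lit 635653147060) (nat_lit 76) (nat_lit 80101035639) (nat_lit 76) (nat_lit 72182210712) (nat_lit 1) (nat_lit 4) (nat_lit 2) (nat_lit 5) (nat_lit 2) (nat_lit 4) (nat_lit 322) (nat_lit 230) (nat_lit 168)))))) (XT.nd (nat_lit 468) (nat_lit 0) (nat_lit 0) (XT.nd (nat_lit 234) (nat_lit 0) (nat_lit 0) (XT.nd (nat_lit 78) (nat_lit 0) (nat_lit 0) (XT.lf (nat_lit 0) (nat_lit 690662605228) (nat_lit 76) (nat_lit 84021032426) (nat_lit 76) (nat_lit 76097198547) (nat_lit 1) (nat_lit 4) (nat_lit 2) (nat_lit 5) (nat_lit 2) (nat_lit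 4) (nat_lit 323) (nat_lit 230) (nat_lit 167)) (XT.nd (nat_lit 78) (nat_lit 0) (nat_lit 0) (XT.lf (nat_lit 0) (nat_lit 750067879108) (nat_lit 76) (nat_lit 88256826741) (nat_lit 76) (nat_lit 80328354942) (nat_lit 1) (nat_lit 4) (nat_lit 2) (nat_lit 5) (nat_lit 2) (nat_lit 4) (nat_lit 324) (nat_lit 230) (nat_lit 166)) (XT.lf (nat_lit 0) (nat_lit 814220999951) (nat_lit 76) (nat_lit 92833519586) (nat_lit 76) (nat_lit 84900753418) (nat_lit 1) (nat_lit 4) (nat_lit 2) (nat_lit 5) (nat_lit 2) (nat_lit 4) (nat_lit 325) (nat_lit 230) (nat_lit 165)))) (XT.nd (nat_lit 78) (nat_lit 0) (nat_lit 0) (XT.lf (nat_lit 0) (nat_lit 883502134401) (nat_lit 76) (nat_lit 97778232105) (nat_lit 76) (nat_lit 89841489669) (nat_lit 1) (nat_lit 4) (nat_lit 2) (nat_lit 5) (nat_lit 2) (nat_lit 4) (nat_lit 326) (nat_lit 230) (nat_lit 164)) (XT.nd (nat_lit 78) (nat_lit 0) (nat_lit 0) (XT.lf (nat_lit 0) (nat_lit 958321837327)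 (nat_lit 76) (nat_lit 103120266298) (nat_lit 76) (nat_lit 95179842132) (nat_lit 1) (nat_lit 4) (nat_lit 2) (nat_lit 5) (nat_lit 2) (nat_lit 4) (nat_lit 327) (nat_lit 230) (nat_lit 163)) (XT.lf (nat_lit 0) (nat_lit 1039123484748) (nat_lit 76) (nat_lit 108891278664) (nat_lit 76) (nat_lit 100947445489) (nat_lit 1) (nat_lit 4) (nat_lit 2) (nat_lit 5) (nat_lit 2) (nat_lit 4) (nat_lit 328) (nat_lit 230) (nat_lit 162))))) (XT.nd (nat_lit 234) (nat_lit 0) (nat_lit 0) (XT.nd (nat_lit 78) (nat_lit 0) (nat_lit 0) (XT.lf (nat_lit 0) (nat_lit 1126385901240) (nat_lit 76) (nat_lit 115125467794) (nat_lit 76) (nat_lit 107178478129) (nat_lit 1) (nat_lit 4) (nat_lit 2) (nat_lit 5) (nat_lit 2) (nat_lit 4) (nat_lit 329) (nat_lit 230) (nat_lit 161)) (XT.nd (nat_lit 78) (nat_lit 0) (nat_lit 0) (XT.lf (nat_lit 0) (nat_lit 1220626197420) (nat_lit 76) (nat_lit 121859777031) (nat_lit 76) (nat_lit 113909864691)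 (nat_lit 1) (nat_lit 4) (nat_lit 2) (nat_lit 5) (nat_lit 2) (nat_lit 4) (nat_lit 330) (nat_lit 230) (nat_lit 160)) (XT.lf (nat_lit 0) (nat_lit 1322402834302) (nat_lit 76) (nat_lit 129134113394) (nat_lit 76) (nat_lit 121181494872) (nat_lit 1) (nat_lit 4) (nat_lit 2) (nat_lit 5) (nat_lit 2) (nat_lit 4) (nat_lit 331) (nat_lit 230) (nat_lit 159)))) (XT.nd (nat_lit 78) (nat_lit 0) (nat_lit 0) (XT.lf (nat_lit 0) (nat_lit 1432318932698) (nat_lit 76) (nat_lit 136991584060) (nat_lit 76) (nat_lit 129036459814) (nat_lit 1) (nat_lit 4) (nat_lit 2) (nat_lit 5) (nat_lit 2) (nat_lit 4) (nat_lit 332) (nat_lit 230) (nat_lit 158)) (XT.nd (nat_lit 78) (nat_lit 0) (nat_lit 0) (XT.lf (nat_lit 0) (nat_lit 1551025847264) (nat_lit 76) (nat_lit 145478751819) (nat_lit 76) (nat_lit 137521307459) (nat_lit 1) (nat_lit 4) (nat_lit 2) (nat_lit 5) (nat_lit 2) (nat_lit 4) (nat_lit 333) (nat_lit 230) (nat_lit 157))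 (XT.lf (nat_lit 0) (nat_lit 1679227026383) (nat_lit 76) (nat_lit 154645910998) (nat_lit 76) (nat_lit 146686318384) (nat_lit 1) (nat_lit 4) (nat_lit 2) (nat_lit 5) (nat_lit 2) (nat_lit 4) (nat_lit 334) (nat_lit 230) (nat_lit 156))))))))
noncomputable def xc33 : XT := (XT.nd (nat_lit 33228) (nat_lit 0) (nat_lit 0) (XT.nd (nat_lit 32292) (nat_lit 0) (nat_lit 152) (XT.nd (nat_lit 31824) (nat_lit 0) (nat_lit 532) (XT.nd (nat_lit 31590) (nat_lit 0) (nat_lit 912) (XT.nd (nat_lit 78) (nat_lit 0) (nat_lit 0) (XT.lf (nat_lit 0) (nat_lit 1817682180746) (nat_lit 76) (nat_lit 164547385504) (nat_lit 76) (nat_lit 156585803766) (nat_lit 1) (nat_lit 4) (nat_lit 2) (nat_lit 5) (nat_lit 2) (nat_lit 4) (nat_lit 335) (nat_lit 230) (nat_lit 155)) (XT.nd (nat_lit 31434) (nat_lit 0) (nat_lit 1140) (XT.lf (nat_lit 0) (nat_lit 1967211785343) (nat_lit 76) (nat_lit 175241850740) (nat_lit 76) (nat_lit 167278427220)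 (nat_lit 1) (nat_lit 4) (nat_lit 2) (nat_lit 5) (nat_lit 2) (nat_lit 4) (nat_lit 336) (nat_lit 230) (nat_lit 154)) (XT.lf (nat_lit 0) (nat_lit 433190540) (nat_lit 228) (nat_lit 3843643509) (nat_lit 0) (nat_lit 433190540) (nat_lit 16) (nat_lit 5) (nat_lit 19) (nat_lit 4) (nat_lit 16) (nat_lit 4) (nat_lit 258) (nat_lit 231) (nat_lit 231)))) (XT.nd (nat_lit 78) (nat_lit 228) (nat_lit 0) (XT.lf (nat_lit 0) (nat_lit 4178671620) (nat_lit 228) (nat_lit 2326362929) (nat_lit 0) (nat_lit 3309433914) (nat_lit 16) (nat_lit 5) (nat_lit 19) (nat_lit 4) (nat_lit 16) (nat_lit 4) (nat_lit 259) (nat_lit 231) (nat_lit 230)) (XT.nd (nat_lit 78) (nat_lit 76) (nat_lit 0) (XT.lf (nat_lit 0) (nat_lit 3339099366) (nat_lit 152) (nat_lit 4293258956) (nat_lit 152) (nat_lit 2619171522) (nat_lit 14) (nat_lit 4) (nat_lit 16) (nat_lit 5) (nat_lit 16) (nat_lit 4) (nat_lit 260) (nat_lit 231) (nat_lit 229)) (XT.lf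 (nat_lit 0) (nat_lit 470330904) (nat_lit 228) (nat_lit 1441030382) (nat_lit 76) (nat_lit 8822915868) (nat_lit 13) (nat_lit 5) (nat_lit 16) (nat_lit 5) (nat_lit 14) (nat_lit 4) (nat_lit 261) (nat_lit 231) (nat_lit 228))))) (XT.nd (nat_lit 234) (nat_lit 152) (nat_lit 0) (XT.nd (nat_lit 78) (nat_lit 152) (nat_lit 0) (XT.lf (nat_lit 0) (nat_lit 3601429915) (nat_lit 152) (nat_lit 6932446204) (nat_lit 0) (nat_lit 722404378) (nat_lit 12) (nat_lit 5) (nat_lit 14) (nat_lit 4) (nat_lit 12) (nat_lit 4) (nat_lit 262) (nat_lit 231) (nat_lit 227)) (XT.nd (nat_lit 78) (nat_lit 152) (nat_lit 0) (XT.lf (nat_lit 0) (nat_lit 6891592252) (nat_lit 152) (nat_lit 1515670888) (nat_lit 0) (nat_lit 3420978139) (nat_lit 12) (nat_lit 5) (nat_lit 14) (nat_lit 4) (nat_lit 12) (nat_lit 4) (nat_lit 263) (nat_lit 231) (nat_lit 226)) (XT.lf (nat_lit 0) (nat_lit 4289827586) (nat_lit 152) (nat_lit 6090260400) (nat_lit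 152) (nat_lit 2071879085) (nat_lit 10) (nat_lit 4) (nat_lit 12) (nat_lit 5) (nat_lit 12) (nat_lit 4) (nat_lit 264) (nat_lit 231) (nat_lit 225)))) (XT.nd (nat_lit 78) (nat_lit 76) (nat_lit 0) (XT.lf (nat_lit 0) (nat_lit 846864850) (nat_lit 228) (nat_lit 2764094277) (nat_lit 76) (nat_lit 9523292796) (nat_lit 9) (nat_lit 5) (nat_lit 12) (nat_lit 5) (nat_lit 10) (nat_lit 4) (nat_lit 265) (nat_lit 231) (nat_lit 224)) (XT.nd (nat_lit 78) (nat_lit 0) (nat_lit 0) (XT.lf (nat_lit 0) (nat_lit 2915096215) (nat_lit 76) (nat_lit 887928528) (nat_lit 152) (nat_lit 10071170660) (nat_lit 8) (nat_lit 5) (nat_lit 9) (nat_lit 5) (nat_lit 10) (nat_lit 4) (nat_lit 266) (nat_lit 231) (nat_lit 223)) (XT.lf (nat_lit 0) (nat_lit 6971952187) (nat_lit 152) (nat_lit 5759735135) (nat_lit 0) (nat_lit 1944146152) (nat_lit 8) (nat_lit 5) (nat_lit 10) (nat_lit 4) (nat_lit 8) (nat_lit 4) (nat_lit 267) (nat_lit 231)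 (nat_lit 222)))))) (XT.nd (nat_lit 468) (nat_lit 152) (nat_lit 0) (XT.nd (nat_lit 234) (nat_lit 76) (nat_lit 0) (XT.nd (nat_lit 78) (nat_lit 152) (nat_lit 0) (XT.lf (nat_lit 0) (nat_lit 10277978352) (nat_lit 152) (nat_lit 396122880) (nat_lit 0) (nat_lit 4877371165) (nat_lit 8) (nat_lit 5) (nat_lit 10) (nat_lit 4) (nat_lit 8) (nat_lit 4) (nat_lit 268) (nat_lit 231) (nat_lit 221)) (XT.nd (nat_lit 78) (nat_lit 76) (nat_lit 0) (XT.lf (nat_lit 0) (nat_lit 5457903063) (nat_lit 76) (nat_lit 8392699440) (nat_lit 76) (nat_lit 2646906000) (nat_lit 7) (nat_lit 4) (nat_lit 8) (nat_lit 5) (nat_lit 8) (nat_lit 4) (nat_lit 269) (nat_lit 231) (nat_lit 220)) (XT.lf (nat_lit 0) (nat_lit 63194998) (nat_lit 152) (nat_lit 5933964743) (nat_lit 76) (nat_lit 11531513909) (nat_lit 6) (nat_lit 5) (nat_lit 8) (nat_lit 5) (nat_lit 7) (nat_lit 4) (nat_lit 270) (nat_lit 231) (nat_lit 219)))) (XT.nd (nat_lit 78)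 (nat_lit 76) (nat_lit 0) (XT.lf (nat_lit 0) (nat_lit 2728369912) (nat_lit 152) (nat_lit 686342498) (nat_lit 76) (nat_lit 15232027229) (nat_lit 6) (nat_lit 5) (nat_lit 8) (nat_lit 5) (nat_lit 7) (nat_lit 4) (nat_lit 271) (nat_lit 231) (nat_lit 218)) (XT.nd (nat_lit 78) (nat_lit 0) (nat_lit 0) (XT.lf (nat_lit 0) (nat_lit 5050671513) (nat_lit 76) (nat_lit 567618584) (nat_lit 152) (nat_lit 14235417096) (nat_lit 5) (nat_lit 5) (nat_lit 6) (nat_lit 5) (nat_lit 7) (nat_lit 4) (nat_lit 272) (nat_lit 231) (nat_lit 217)) (XT.lf (nat_lit 0) (nat_lit 8711130886) (nat_lit 152) (nat_lit 10116373782) (nat_lit 0) (nat_lit 2332340060) (nat_lit 5) (nat_lit 5) (nat_lit 7) (nat_lit 4) (nat_lit 5) (nat_lit 4) (nat_lit 273) (nat_lit 231) (nat_lit 216))))) (XT.nd (nat_lit 234) (nat_lit 76) (nat_lit 0) (XT.nd (nat_lit 78) (nat_lit 76) (nat_lit 0) (XT.lf (nat_lit 0) (nat_lit 11966303843) (nat_lit 152) (nat_lit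 5241314653) (nat_lit 0) (nat_lit 5369987125) (nat_lit 5) (nat_lit 5) (nat_lit 7) (nat_lit 4) (nat_lit 5) (nat_lit 4) (nat_lit 274) (nat_lit 231) (nat_lit 215)) (XT.nd (nat_lit 78) (nat_lit 76) (nat_lit 0) (XT.lf (nat_lit 0) (nat_lit 15389447645) (nat_lit 152) (nat_lit 135317816) (nat_lit 0) (nat_lit 8591718064) (nat_lit 5) (nat_lit 5) (nat_lit 7) (nat_lit 4) (nat_lit 5) (nat_lit 4) (nat_lit 275) (nat_lit 231) (nat_lit 214)) (XT.lf (nat_lit 0) (nat_lit 5507375728) (nat_lit 76) (nat_lit 13625924377) (nat_lit 76) (nat_lit 6641701404) (nat_lit 4) (nat_lit 4) (nat_lit 5) (nat_lit 5) (nat_lit 5) (nat_lit 4) (nat_lit 276) (nat_lit 231) (nat_lit 213)))) (XT.nd (nat_lit 78) (nat_lit 76) (nat_lit 0) (XT.lf (nat_lit 0) (nat_lit 11465624837) (nat_lit 76) (nat_lit 11632028273) (nat_lit 76) (nat_lit 4475126234) (nat_lit 4) (nat_lit 4) (nat_lit 5) (nat_lit 5) (nat_lit 5) (nat_lit 4) (nat_lit 277)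 (nat_lit 231) (nat_lit 212)) (XT.nd (nat_lit 78) (nat_lit 76) (nat_lit 0) (XT.lf (nat_lit 0) (nat_lit 17767612057) (nat_lit 76) (nat_lit 9534961297) (nat_lit 76) (nat_lit 2218171233) (nat_lit 4) (nat_lit 4) (nat_lit 5) (nat_lit 5) (nat_lit 5) (nat_lit 4) (nat_lit 278) (nat_lit 231) (nat_lit 211)) (XT.lf (nat_lit 0) (nat_lit 135407809) (nat_lit 152) (nat_lit 7183186285) (nat_lit 76) (nat_lit 24311572399) (nat_lit 3) (nat_lit 5) (nat_lit 5) (nat_lit 5) (nat_lit 4) (nat_lit 4) (nat_lit 279) (nat_lit 231) (nat_lit 210))))))) (XT.nd (nat_lit 936) (nat_lit 0) (nat_lit 0) (XT.nd (nat_lit 468) (nat_lit 76) (nat_lit 0) (XT.nd (nat_lit 234) (nat_lit 0) (nat_lit 0) (XT.nd (nat_lit 78) (nat_lit 76) (nat_lit 0) (XT.lf (nat_lit 0) (nat_lit 2489878691) (nat_lit 152) (nat_lit 2422965061) (nat_lit 76) (nat_lit 28996483152) (nat_lit 3) (nat_lit 5) (nat_lit 5) (nat_lit 5) (nat_lit 4) (nat_lit 4) (nat_lit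 280) (nat_lit 231) (nat_lit 209)) (XT.nd (nat_lit 78) (nat_lit 0) (nat_lit 0) (XT.lf (nat_lit 0) (nat_lit 2746476824) (nat_lit 76) (nat_lit 2289731749) (nat_lit 152) (nat_lit 31334506924) (nat_lit 2) (nat_lit 5) (nat_lit 3) (nat_lit 5) (nat_lit 4) (nat_lit 4) (nat_lit 281) (nat_lit 231) (nat_lit 208)) (XT.lf (nat_lit 0) (nat_lit 7805705166) (nat_lit 152) (nat_lit 30681358141) (nat_lit 0) (nat_lit 540557499) (nat_lit 2) (nat_lit 5) (nat_lit 4) (nat_lit 4) (nat_lit 2) (nat_lit 4) (nat_lit 282) (nat_lit 231) (nat_lit 207)))) (XT.nd (nat_lit 78) (nat_lit 0) (nat_lit 0) (XT.lf (nat_lit 0) (nat_lit 10799222773) (nat_lit 152) (nat_lit 27664490759) (nat_lit 0) (nat_lit 3433318529) (nat_lit 2) (nat_lit 5) (nat_lit 4) (nat_lit 4) (nat_lit 2) (nat_lit 4) (nat_lit 283) (nat_lit 231) (nat_lit 206)) (XT.nd (nat_lit 78) (nat_lit 0) (nat_lit 0) (XT.lf (nat_lit 0) (nat_lit 13979432654) (nat_lit 152)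 (nat_lit 24500690690) (nat_lit 0) (nat_lit 6520235284) (nat_lit 2) (nat_lit 5) (nat_lit 4) (nat_lit 4) (nat_lit 2) (nat_lit 4) (nat_lit 284) (nat_lit 231) (nat_lit 205)) (XT.lf (nat_lit 0) (nat_lit 17365180498) (nat_lit 152) (nat_lit 21171209489) (nat_lit 0) (nat_lit 9819600603) (nat_lit 2) (nat_lit 5) (nat_lit 4) (nat_lit 4) (nat_lit 2) (nat_lit 4) (nat_lit 285) (nat_lit 231) (nat_lit 204))))) (XT.nd (nat_lit 234) (nat_lit 76) (nat_lit 0) (XT.nd (nat_lit 78) (nat_lit 0) (nat_lit 0) (XT.lf (nat_lit 0) (nat_lit 20976529995) (nat_lit 152) (nat_lit 17656316898) (nat_lit 0) (nat_lit 13350966281) (nat_lit 2) (nat_lit 5) (nat_lit 4) (nat_lit 4) (nat_lit 2) (nat_lit 4) (nat_lit 286) (nat_lit 231) (nat_lit 203)) (XT.nd (nat_lit 78) (nat_lit 0) (nat_lit 0) (XT.lf (nat_lit 0) (nat_lit 24834881735) (nat_lit 152) (nat_lit 13935183922) (nat_lit 0) (nat_lit 17135258929) (nat_lit 2) (nat_lit 5)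 (nat_lit 4) (nat_lit 4) (nat_lit 2) (nat_lit 4) (nat_lit 287) (nat_lit 231) (nat_lit 202)) (XT.lf (nat_lit 0) (nat_lit 28963100024) (nat_lit 152) (nat_lit 9985759404) (nat_lit 0) (nat_lit 21194903986) (nat_lit 2) (nat_lit 5) (nat_lit 4) (nat_lit 4) (nat_lit 2) (nat_lit 4) (nat_lit 288) (nat_lit 231) (nat_lit 201)))) (XT.nd (nat_lit 78) (nat_lit 76) (nat_lit 0) (XT.lf (nat_lit 0) (nat_lit 33385648379) (nat_lit 152) (nat_lit 5784639347) (nat_lit 0) (nat_lit 25553958606) (nat_lit 2) (nat_lit 5) (nat_lit 4) (nat_lit 4) (nat_lit 2) (nat_lit 4) (nat_lit 289) (nat_lit 231) (nat_lit 200)) (XT.nd (nat_lit 78) (nat_lit 76) (nat_lit 0) (XT.lf (nat_lit 0) (nat_lit 38128734494) (nat_lit 152) (nat_lit 1306928224) (nat_lit 0) (nat_lit 30238254226) (nat_lit 2) (nat_lit 5) (nat_lit 4) (nat_lit 4) (nat_lit 2) (nat_lit 4) (nat_lit 290) (nat_lit 231) (nat_lit 199)) (XT.lf (nat_lit 0) (nat_lit 3656838416)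 (nat_lit 76) (nat_lit 39651574180) (nat_lit 76) (nat_lit 31706658269) (nat_lit 1) (nat_lit 4) (nat_lit 2) (nat_lit 5) (nat_lit 2) (nat_lit 4) (nat_lit 291) (nat_lit 231) (nat_lit 198)))))) (XT.nd (nat_lit 468) (nat_lit 0) (nat_lit 0) (XT.nd (nat_lit 234) (nat_lit 0) (nat_lit 0) (XT.nd (nat_lit 78) (nat_lit 0) (nat_lit 0) (XT.lf (nat_lit 0) (nat_lit 9038336029) (nat_lit 76) (nat_lit 39870050921) (nat_lit 76) (nat_lit 31874731636) (nat_lit 1) (nat_lit 4) (nat_lit 2) (nat_lit 5) (nat_lit 2) (nat_lit 4) (nat_lit 292) (nat_lit 231) (nat_lit 197)) (XT.nd (nat_lit 78) (nat_lit 0) (nat_lit 0) (XT.lf (nat_lit 0) (nat_lit 14800634448) (nat_lit 76) (nat_lit 40128121353) (nat_lit 76) (nat_lit 32086132278) (nat_lit 1) (nat_lit 4) (nat_lit 2) (nat_lit 5) (nat_lit 2) (nat_lit 4) (nat_lit 293) (nat_lit 231) (nat_lit 196)) (XT.lf (nat_lit 0) (nat_lit 20977880624) (nat_lit 76) (nat_lit 40427314781)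 (nat_lit 76) (nat_lit 32342112938) (nat_lit 1) (nat_lit 4) (nat_lit 2) (nat_lit 5) (nat_lit 2) (nat_lit 4) (nat_lit 294) (nat_lit 231) (nat_lit 195)))) (XT.nd (nat_lit 78) (nat_lit 0) (nat_lit 0) (XT.lf (nat_lit 0) (nat_lit 27606680462) (nat_lit 76) (nat_lit 40769404205) (nat_lit 76) (nat_lit 32644190539) (nat_lit 1) (nat_lit 4) (nat_lit 2) (nat_lit 5) (nat_lit 2) (nat_lit 4) (nat_lit 295) (nat_lit 231) (nat_lit 194)) (XT.nd (nat_lit 78) (nat_lit 0) (nat_lit 0) (XT.lf (nat_lit 0) (nat_lit 34726315739) (nat_lit 76) (nat_lit 41156416820) (nat_lit 76) (nat_lit 32994155170) (nat_lit 1) (nat_lit 4) (nat_lit 2) (nat_lit 5) (nat_lit 2) (nat_lit 4) (nat_lit 296) (nat_lit 231) (nat_lit 193)) (XT.lf (nat_lit 0) (nat_lit 42378976885) (nat_lit 76) (nat_lit 41590646035) (nat_lit 76) (nat_lit 33394080695) (nat_lit 1) (nat_lit 4) (nat_lit 2) (nat_lit 5) (nat_lit 2) (nat_lit 4) (nat_lit 297) (nat_lit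 231) (nat_lit 192))))) (XT.nd (nat_lit 234) (nat_lit 0) (nat_lit 0) (XT.nd (nat_lit 78) (nat_lit 0) (nat_lit 0) (XT.lf (nat_lit 0) (nat_lit 50610013004) (nat_lit 76) (nat_lit 42074665059) (nat_lit 76) (nat_lit 33846337045) (nat_lit 1) (nat_lit 4) (nat_lit 2) (nat_lit 5) (nat_lit 2) (nat_lit 4) (nat_lit 298) (nat_lit 231) (nat_lit 191)) (XT.nd (nat_lit 78) (nat_lit 0) (nat_lit 0) (XT.lf (nat_lit 0) (nat_lit 59468200605) (nat_lit 76) (nat_lit 42611342154) (nat_lit 76) (nat_lit 34353604256) (nat_lit 1) (nat_lit 4) (nat_lit 2) (nat_lit 5) (nat_lit 2) (nat_lit 4) (nat_lit 299) (nat_lit 231) (nat_lit 190)) (XT.lf (nat_lit 0) (nat_lit 69006032654) (nat_lit 76) (nat_lit 43203857629) (nat_lit 76) (nat_lit 34918888356) (nat_lit 1) (nat_lit 4) (nat_lit 2) (nat_lit 5) (nat_lit 2) (nat_lit 4) (nat_lit 300) (nat_lit 231) (nat_lit 189)))) (XT.nd (nat_lit 78) (nat_lit 0) (nat_lit 0) (XT.lf (nat_lit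 0) (nat_lit 79280029635) (nat_lit 76) (nat_lit 43855722686) (nat_lit 76) (nat_lit 35545539177) (nat_lit 1) (nat_lit 4) (nat_lit 2) (nat_lit 5) (nat_lit 2) (nat_lit 4) (nat_lit 301) (nat_lit 231) (nat_lit 188)) (XT.nd (nat_lit 78) (nat_lit 0) (nat_lit 0) (XT.lf (nat_lit 0) (nat_lit 90351074494) (nat_lit 76) (nat_lit 44570800228) (nat_lit 76) (nat_lit 36237270206) (nat_lit 1) (nat_lit 4) (nat_lit 2) (nat_lit 5) (nat_lit 2) (nat_lit 4) (nat_lit 302) (nat_lit 231) (nat_lit 187)) (XT.lf (nat_lit 0) (nat_lit 102284773423) (nat_lit 76) (nat_lit 45353327754) (nat_lit 76) (nat_lit 36998180588) (nat_lit 1) (nat_lit 4) (nat_lit 2) (nat_lit 5) (nat_lit 2) (nat_lit 4) (nat_lit 303) (nat_lit 231) (nat_lit 186))))))))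
noncomputable def xc34 : XT := (XT.nd (nat_lit 1794) (nat_lit 0) (nat_lit 0) (XT.nd (nat_lit 858) (nat_lit 0) (nat_lit 0) (XT.nd (nat_lit 390) (nat_lit 0) (nat_lit 0) (XT.nd (nat_lit 156) (nat_lit 0) (nat_lit 0) (XT.nd (nat_lit 78) (nat_lit 0) (nat_lit 0) (XT.lf (nat_lit 0) (nat_lit 115151844637) (nat_lit 76) (nat_lit 46207942463) (nat_lit 76) (nat_lit 37832779424) (nat_lit 1) (nat_lit 4) (nat_lit 2) (nat_lit 5) (nat_lit 2) (nat_lit 4) (nat_lit 304) (nat_lit 231) (nat_lit 185)) (XT.lf (nat_lit 0) (nat_lit 129028537448) (nat_lit 76) (nat_lit 47139708738) (nat_lit 76) (nat_lit 38746012483) (nat_lit 1) (nat_lit 4) (nat_lit 2) (nat_lit 5) (nat_lit 2) (nat_lit 4) (nat_lit 305) (nat_lit 231) (nat_lit 184))) (XT.nd (nat_lit 78) (nat_lit 0) (nat_lit 0) (XT.lf (nat_lit 0) (nat_lit 143997084109) (nat_lit 76) (nat_lit 48154148157) (nat_lit 76) (nat_lit 39743291517) (nat_lit 1) (nat_lit 4) (nat_lit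 2) (nat_lit 5) (nat_lit 2) (nat_lit 4) (nat_lit 306) (nat_lit 231) (nat_lit 183)) (XT.nd (nat_lit 78) (nat_lit 0) (nat_lit 0) (XT.lf (nat_lit 0) (nat_lit 160146187118) (nat_lit 76) (nat_lit 49257272213) (nat_lit 76) (nat_lit 40830526328) (nat_lit 1) (nat_lit 4) (nat_lit 2) (nat_lit 5) (nat_lit 2) (nat_lit 4) (nat_lit 307) (nat_lit 231) (nat_lit 182)) (XT.lf (nat_lit 0) (nat_lit 177571544865) (nat_lit 76) (nat_lit 50455617938) (nat_lit 76) (nat_lit 42014159789) (nat_lit 1) (nat_lit 4) (nat_lit 2) (nat_lit 5) (nat_lit 2) (nat_lit 4) (nat_lit 308) (nat_lit 231) (nat_lit 181))))) (XT.nd (nat_lit 234) (nat_lit 0) (nat_lit 0) (XT.nd (nat_lit 78) (nat_lit 0) (nat_lit 0) (XT.lf (nat_lit 0) (nat_lit 196376418728) (nat_lit 76) (nat_lit 51756286640) (nat_lit 76) (nat_lit 43301206023) (nat_lit 1) (nat_lit 4) (nat_lit 2) (nat_lit 5) (nat_lit 2) (nat_lit 4) (nat_lit 309) (nat_lit 231) (nat_lit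 180)) (XT.nd (nat_lit 78) (nat_lit 0) (nat_lit 0) (XT.lf (nat_lit 0) (nat_lit 216672244997) (nat_lit 76) (nat_lit 53166985984) (nat_lit 76) (nat_lit 44699291973) (nat_lit 1) (nat_lit 4) (nat_lit 2) (nat_lit 5) (nat_lit 2) (nat_lit 4) (nat_lit 310) (nat_lit 231) (nat_lit 179)) (XT.lf (nat_lit 0) (nat_lit 238579295234) (nat_lit 76) (nat_lit 54696075671) (nat_lit 76) (nat_lit 46216702590) (nat_lit 1) (nat_lit 4) (nat_lit 2) (nat_lit 5) (nat_lit 2) (nat_lit 4) (nat_lit 311) (nat_lit 231) (nat_lit 178)))) (XT.nd (nat_lit 78) (nat_lit 0) (nat_lit 0) (XT.lf (nat_lit 0) (nat_lit 262227388998) (nat_lit 76) (nat_lit 56352616974) (nat_lit 76) (nat_lit 47862429939) (nat_lit 1) (nat_lit 4) (nat_lit 2) (nat_lit 5) (nat_lit 2) (nat_lit 4) (nat_lit 312) (nat_lit 231) (nat_lit 177)) (XT.nd (nat_lit 78) (nat_lit 0) (nat_lit 0) (XT.lf (nat_lit 0) (nat_lit 287756663139) (nat_lit 76) (nat_lit 58146426432)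 (nat_lit 76) (nat_lit 49646226478) (nat_lit 1) (nat_lit 4) (nat_lit 2) (nat_lit 5) (nat_lit 2) (nat_lit 4) (nat_lit 313) (nat_lit 231) (nat_lit 176)) (XT.lf (nat_lit 0) (nat_lit 315318402246) (nat_lit 76) (nat_lit 60088134029) (nat_lit 76) (nat_lit 51578662852) (nat_lit 1) (nat_lit 4) (nat_lit 2) (nat_lit 5) (nat_lit 2) (nat_lit 4) (nat_lit 314) (nat_lit 231) (nat_lit 175)))))) (XT.nd (nat_lit 468) (nat_lit 0) (nat_lit 0) (XT.nd (nat_lit 234) (nat_lit 0) (nat_lit 0) (XT.nd (nat_lit 78) (nat_lit 0) (nat_lit 0) (XT.lf (nat_lit 0) (nat_lit 345075935142) (nat_lit 76) (nat_lit 62189246178) (nat_lit 76) (nat_lit 53671190537) (nat_lit 1) (nat_lit 4) (nat_lit 2) (nat_lit 5) (nat_lit 2) (nat_lit 4) (nat_lit 315) (nat_lit 231) (nat_lit 174)) (XT.nd (nat_lit 78) (nat_lit 0) (nat_lit 0) (XT.lf (nat_lit 0) (nat_lit 377205602764) (nat_lit 76) (nat_lit 64462213917) (nat_lit 76) (nat_lit 55936209697)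 (nat_lit 1) (nat_lit 4) (nat_lit 2) (nat_lit 5) (nat_lit 2) (nat_lit 4) (nat_lit 316) (nat_lit 231) (nat_lit 173)) (XT.lf (nat_lit 0) (nat_lit 411897803141) (nat_lit 76) (nat_lit 66920506682) (nat_lit 76) (nat_lit 58387142667) (nat_lit 1) (nat_lit 4) (nat_lit 2) (nat_lit 5) (nat_lit 2) (nat_lit 4) (nat_lit 317) (nat_lit 231) (nat_lit 172)))) (XT.nd (nat_lit 78) (nat_lit 0) (nat_lit 0) (XT.lf (nat_lit 0) (nat_lit 449358119684) (nat_lit 76) (nat_lit 69578692135) (nat_lit 76) (nat_lit 61038513495) (nat_lit 1) (nat_lit 4) (nat_lit 2) (nat_lit 5) (nat_lit 2) (nat_lit 4) (nat_lit 318) (nat_lit 231) (nat_lit 171)) (XT.nd (nat_lit 78) (nat_lit 0) (nat_lit 0) (XT.lf (nat_lit 0) (nat_lit 489808539453) (nat_lit 76) (nat_lit 72452522485) (nat_lit 76) (nat_lit 63906034007) (nat_lit 1) (nat_lit 4) (nat_lit 2) (nat_lit 5) (nat_lit 2) (nat_lit 4) (nat_lit 319) (nat_lit 231) (nat_lit 170)) (XT.lf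 (nat_lit 0) (nat_lit 533488768640) (nat_lit 76) (nat_lit 75559027839) (nat_lit 76) (nat_lit 67006696919) (nat_lit 1) (nat_lit 4) (nat_lit 2) (nat_lit 5) (nat_lit 2) (nat_lit 4) (nat_lit 320) (nat_lit 231) (nat_lit 169))))) (XT.nd (nat_lit 234) (nat_lit 0) (nat_lit 0) (XT.nd (nat_lit 78) (nat_lit 0) (nat_lit 0) (XT.lf (nat_lit 0) (nat_lit 580657653047) (nat_lit 76) (nat_lit 78916617117) (nat_lit 76) (nat_lit 70358876528) (nat_lit 1) (nat_lit 4) (nat_lit 2) (nat_lit 5) (nat_lit 2) (nat_lit 4) (nat_lit 321) (nat_lit 231) (nat_lit 168)) (XT.nd (nat_lit 78) (nat_lit 0) (nat_lit 0) (XT.lf (nat_lit 0) (nat_lit 631594711988) (nat_lit 76) (nat_lit 82545187145) (nat_lit 76) (nat_lit 73982437603) (nat_lit 1) (nat_lit 4) (nat_lit 2) (nat_lit 5) (nat_lit 2) (nat_lit 4) (nat_lit 322) (nat_lit 231) (nat_lit 167)) (XT.lf (nat_lit 0) (nat_lit 686601794704) (nat_lit 76) (nat_lit 86466240560) (nat_lit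 76) (nat_lit 77898853098) (nat_lit 1) (nat_lit 4) (nat_lit 2) (nat_lit 5) (nat_lit 2) (nat_lit 4) (nat_lit 323) (nat_lit 231) (nat_lit 166)))) (XT.nd (nat_lit 78) (nat_lit 0) (nat_lit 0) (XT.lf (nat_lit 0) (nat_lit 746004869090) (nat_lit 76) (nat_lit 90703013233) (nat_lit 76) (nat_lit 82131331402) (nat_lit 1) (nat_lit 4) (nat_lit 2) (nat_lit 5) (nat_lit 2) (nat_lit 4) (nat_lit 324) (nat_lit 231) (nat_lit 165)) (XT.nd (nat_lit 78) (nat_lit 0) (nat_lit 0) (XT.lf (nat_lit 0) (nat_lit 810155953365) (nat_lit 76) (nat_lit 95280611966) (nat_lit 76) (nat_lit 86704953867) (nat_lit 1) (nat_lit 4) (nat_lit 2) (nat_lit 5) (nat_lit 2) (nat_lit 4) (nat_lit 325) (nat_lit 231) (nat_lit 164)) (XT.lf (nat_lit 0) (nat_lit 879435202104) (nat_lit 76) (nat_lit 100226163270) (nat_lit 76) (nat_lit 91646823441) (nat_lit 1) (nat_lit 4) (nat_lit 2) (nat_lit 5) (nat_lit 2) (nat_lit 4) (nat_lit 326) (nat_lit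 231) (nat_lit 163))))))) (XT.nd (nat_lit 32136) (nat_lit 0) (nat_lit 456) (XT.nd (nat_lit 468) (nat_lit 0) (nat_lit 0) (XT.nd (nat_lit 234) (nat_lit 0) (nat_lit 0) (XT.nd (nat_lit 78) (nat_lit 0) (nat_lit 0) (XT.lf (nat_lit 0) (nat_lit 954253159001) (nat_lit 76) (nat_lit 105568974115) (nat_lit 76) (nat_lit 96986225277) (nat_lit 1) (nat_lit 4) (nat_lit 2) (nat_lit 5) (nat_lit 2) (nat_lit 4) (nat_lit 327) (nat_lit 231) (nat_lit 162)) (XT.nd (nat_lit 78) (nat_lit 0) (nat_lit 0) (XT.lf (nat_lit 0) (nat_lit 1035053189729) (nat_lit 76) (nat_lit 111340705603) (nat_lit 76) (nat_lit 102754800275) (nat_lit 1) (nat_lit 4) (nat_lit 2) (nat_lit 5) (nat_lit 2) (nat_lit 4) (nat_lit 328) (nat_lit 231) (nat_lit 161)) (XT.lf (nat_lit 0) (nat_lit 1122314109283) (nat_lit 76) (nat_lit 117575560588) (nat_lit 76) (nat_lit 108986732584) (nat_lit 1) (nat_lit 4) (nat_lit 2) (nat_lit 5) (nat_lit 2) (nat_lit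 4) (nat_lit 329) (nat_lit 231) (nat_lit 160)))) (XT.nd (nat_lit 78) (nat_lit 0) (nat_lit 0) (XT.lf (nat_lit 0) (nat_lit 1216553019409) (nat_lit 76) (nat_lit 124310486357) (nat_lit 76) (nat_lit 115718952172) (nat_lit 1) (nat_lit 4) (nat_lit 2) (nat_lit 5) (nat_lit 2) (nat_lit 4) (nat_lit 330) (nat_lit 231) (nat_lit 159)) (XT.nd (nat_lit 78) (nat_lit 0) (nat_lit 0) (XT.lf (nat_lit 0) (nat_lit 1318328372908) (nat_lit 76) (nat_lit 131585393582) (nat_lit 76) (nat_lit 122991353674) (nat_lit 1) (nat_lit 4) (nat_lit 2) (nat_lit 5) (nat_lit 2) (nat_lit 4) (nat_lit 331) (nat_lit 231) (nat_lit 158)) (XT.lf (nat_lit 0) (nat_lit 1428243282985) (nat_lit 76) (nat_lit 139443392825) (nat_lit 76) (nat_lit 130847032802) (nat_lit 1) (nat_lit 4) (nat_lit 2) (nat_lit 5) (nat_lit 2) (nat_lit 4) (nat_lit 332) (nat_lit 231) (nat_lit 157))))) (XT.nd (nat_lit 234) (nat_lit 0) (nat_lit 0) (XT.nd (nat_lit 78)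 (nat_lit 0) (nat_lit 0) (XT.lf (nat_lit 0) (nat_lit 1546949097257) (nat_lit 76) (nat_lit 147931050007) (nat_lit 76) (nat_lit 139332541730) (nat_lit 1) (nat_lit 4) (nat_lit 2) (nat_lit 5) (nat_lit 2) (nat_lit 4) (nat_lit 333) (nat_lit 231) (nat_lit 156)) (XT.nd (nat_lit 78) (nat_lit 0) (nat_lit 0) (XT.lf (nat_lit 0) (nat_lit 1675149257585) (nat_lit 76) (nat_lit 157098662355) (nat_lit 76) (nat_lit 148498164954) (nat_lit 1) (nat_lit 4) (nat_lit 2) (nat_lit 5) (nat_lit 2) (nat_lit 4) (nat_lit 334) (nat_lit 231) (nat_lit 155)) (XT.lf (nat_lit 0) (nat_lit 1813603468624) (nat_lit 76) (nat_lit 167000556462) (nat_lit 76) (nat_lit 158398217279) (nat_lit 1) (nat_lit 4) (nat_lit 2) (nat_lit 5) (nat_lit 2) (nat_lit 4) (nat_lit 335) (nat_lit 231) (nat_lit 154)))) (XT.nd (nat_lit 31278) (nat_lit 0) (nat_lit 1368) (XT.lf (nat_lit 0) (nat_lit 1963132199771) (nat_lit 76) (nat_lit 177695410218) (nat_lit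 76) (nat_lit 169091365682) (nat_lit 1) (nat_lit 4) (nat_lit 2) (nat_lit 5) (nat_lit 2) (nat_lit 4) (nat_lit 336) (nat_lit 231) (nat_lit 153)) (XT.nd (nat_lit 78) (nat_lit 228) (nat_lit 0) (XT.lf (nat_lit 0) (nat_lit 2122932731) (nat_lit 228) (nat_lit 115715639) (nat_lit 0) (nat_lit 2122932731) (nat_lit 22) (nat_lit 5) (nat_lit 25) (nat_lit 4) (nat_lit 22) (nat_lit 4) (nat_lit 256) (nat_lit 232) (nat_lit 232)) (XT.lf (nat_lit 0) (nat_lit 5285123476) (nat_lit 228) (nat_lit 2393009346) (nat_lit 228) (nat_lit 1379130486) (nat_lit 19) (nat_lit 4) (nat_lit 22) (nat_lit 5) (nat_lit 22) (nat_lit 4) (nat_lit 257) (nat_lit 232) (nat_lit 231)))))) (XT.nd (nat_lit 468) (nat_lit 380) (nat_lit 0) (XT.nd (nat_lit 234) (nat_lit 152) (nat_lit 0) (XT.nd (nat_lit 78) (nat_lit 152) (nat_lit 0) (XT.lf (nat_lit 0) (nat_lit 1587593952) (nat_lit 152) (nat_lit 114449093) (nat_lit 228) (nat_lit 7726879215)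 (nat_lit 16) (nat_lit 5) (nat_lit 18) (nat_lit 5) (nat_lit 19) (nat_lit 4) (nat_lit 258) (nat_lit 232) (nat_lit 230)) (XT.nd (nat_lit 78) (nat_lit 152) (nat_lit 0) (XT.lf (nat_lit 0) (nat_lit 4913555842) (nat_lit 228) (nat_lit 2617733924) (nat_lit 0) (nat_lit 2300691685) (nat_lit 16) (nat_lit 5) (nat_lit 19) (nat_lit 4) (nat_lit 16) (nat_lit 4) (nat_lit 259) (nat_lit 232) (nat_lit 229)) (XT.lf (nat_lit 0) (nat_lit 2895849466) (nat_lit 152) (nat_lit 5369968795) (nat_lit 152) (nat_lit 2011873409) (nat_lit 14) (nat_lit 4) (nat_lit 16) (nat_lit 5) (nat_lit 16) (nat_lit 4) (nat_lit 260) (nat_lit 232) (nat_lit 228)))) (XT.nd (nat_lit 78) (nat_lit 76) (nat_lit 0) (XT.lf (nat_lit 0) (nat_lit 957435858) (nat_lit 228) (nat_lit 2056657715) (nat_lit 76) (nat_lit 7752820641) (nat_lit 13) (nat_lit 5) (nat_lit 16) (nat_lit 5) (nat_lit 14) (nat_lit 4) (nat_lit 261) (nat_lit 232) (nat_lit 227)) (XT.nd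 (nat_lit 78) (nat_lit 0) (nat_lit 0) (XT.lf (nat_lit 0) (nat_lit 3567262759) (nat_lit 76) (nat_lit 401152011) (nat_lit 152) (nat_lit 7330537012) (nat_lit 12) (nat_lit 5) (nat_lit 13) (nat_lit 5) (nat_lit 14) (nat_lit 4) (nat_lit 262) (nat_lit 232) (nat_lit 226)) (XT.lf (nat_lit 0) (nat_lit 7168136101) (nat_lit 152) (nat_lit 2429887827) (nat_lit 0) (nat_lit 2280517081) (nat_lit 12) (nat_lit 5) (nat_lit 14) (nat_lit 4) (nat_lit 12) (nat_lit 4) (nat_lit 263) (nat_lit 232) (nat_lit 225))))) (XT.nd (nat_lit 234) (nat_lit 76) (nat_lit 0) (XT.nd (nat_lit 78) (nat_lit 152) (nat_lit 0) (XT.lf (nat_lit 0) (nat_lit 3206002750) (nat_lit 152) (nat_lit 7349754467) (nat_lit 152) (nat_lit 1954943594) (nat_lit 10) (nat_lit 4) (nat_lit 12) (nat_lit 5) (nat_lit 12) (nat_lit 4) (nat_lit 264) (nat_lit 232) (nat_lit 224)) (XT.nd (nat_lit 78) (nat_lit 76) (nat_lit 0) (XT.lf (nat_lit 0) (nat_lit 883789021)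 (nat_lit 228) (nat_lit 4026151793) (nat_lit 76) (nat_lit 8289064910) (nat_lit 9) (nat_lit 5) (nat_lit 12) (nat_lit 5) (nat_lit 10) (nat_lit 4) (nat_lit 265) (nat_lit 232) (nat_lit 223)) (XT.lf (nat_lit 0) (nat_lit 1472848440) (nat_lit 76) (nat_lit 2263746109) (nat_lit 152) (nat_lit 10210911991) (nat_lit 8) (nat_lit 5) (nat_lit 9) (nat_lit 5) (nat_lit 10) (nat_lit 4) (nat_lit 266) (nat_lit 232) (nat_lit 222)))) (XT.nd (nat_lit 78) (nat_lit 76) (nat_lit 0) (XT.lf (nat_lit 0) (nat_lit 6805376551) (nat_lit 152) (nat_lit 7352127642) (nat_lit 0) (nat_lit 599919635) (nat_lit 8) (nat_lit 5) (nat_lit 10) (nat_lit 4) (nat_lit 8) (nat_lit 4) (nat_lit 267) (nat_lit 232) (nat_lit 221)) (XT.nd (nat_lit 78) (nat_lit 76) (nat_lit 0) (XT.lf (nat_lit 0) (nat_lit 10049312905) (nat_lit 152) (nat_lit 2090295054) (nat_lit 0) (nat_lit 3498669737) (nat_lit 8) (nat_lit 5) (nat_lit 10) (nat_lit 4) (nat_lit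 8) (nat_lit 4) (nat_lit 268) (nat_lit 232) (nat_lit 220)) (XT.lf (nat_lit 0) (nat_lit 3575315818) (nat_lit 76) (nat_lit 9943854402) (nat_lit 76) (nat_lit 3073594334) (nat_lit 7) (nat_lit 4) (nat_lit 8) (nat_lit 5) (nat_lit 8) (nat_lit 4) (nat_lit 269) (nat_lit 232) (nat_lit 219))))))))
noncomputable def xc35 : XT := (XT.nd (nat_lit 1872) (nat_lit 0) (nat_lit 0) (XT.nd (nat_lit 936) (nat_lit 152) (nat_lit 0) (XT.nd (nat_lit 468) (nat_lit 152) (nat_lit 0) (XT.nd (nat_lit 234) (nat_lit 0) (nat_lit 0) (XT.nd (nat_lit 78) (nat_lit 152) (nat_lit 0) (XT.lf (nat_lit 0) (nat_lit 9621994927) (nat_lit 76) (nat_lit 7586456055) (nat_lit 76) (nat_lit 420254412) (nat_lit 7) (nat_lit 4) (nat_lit 8) (nat_lit 5) (nat_lit 8) (nat_lit 4) (nat_lit 270) (nat_lit 232) (nat_lit 218)) (XT.nd (nat_lit 78) (nat_lit 76) (nat_lit 0) (XT.lf (nat_lit 0) (nat_lit 2213088765) (nat_lit 152) (nat_lit 2836996986) (nat_lit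 76) (nat_lit 13701904677) (nat_lit 6) (nat_lit 5) (nat_lit 8) (nat_lit 5) (nat_lit 7) (nat_lit 4) (nat_lit 271) (nat_lit 232) (nat_lit 217)) (XT.lf (nat_lit 0) (nat_lit 2700979728) (nat_lit 76) (nat_lit 2296579669) (nat_lit 152) (nat_lit 14970003173) (nat_lit 5) (nat_lit 5) (nat_lit 6) (nat_lit 5) (nat_lit 7) (nat_lit 4) (nat_lit 272) (nat_lit 232) (nat_lit 216)))) (XT.nd (nat_lit 78) (nat_lit 0) (nat_lit 0) (XT.lf (nat_lit 0) (nat_lit 8000819383) (nat_lit 152) (nat_lit 12620931879) (nat_lit 0) (nat_lit 659271436) (nat_lit 5) (nat_lit 5) (nat_lit 7) (nat_lit 4) (nat_lit 5) (nat_lit 4) (nat_lit 273) (nat_lit 232) (nat_lit 215)) (XT.nd (nat_lit 78) (nat_lit 0) (nat_lit 0) (XT.lf (nat_lit 0) (nat_lit 11211548594) (nat_lit 152) (nat_lit 7822347280) (nat_lit 0) (nat_lit 3668587784) (nat_lit 5) (nat_lit 5) (nat_lit 7) (nat_lit 4) (nat_lit 5) (nat_lit 4) (nat_lit 274) (nat_lit 232) (nat_lit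 214)) (XT.lf (nat_lit 0) (nat_lit 14593540779) (nat_lit 152) (nat_lit 2787160192) (nat_lit 0) (nat_lit 6864086576) (nat_lit 5) (nat_lit 5) (nat_lit 7) (nat_lit 4) (nat_lit 5) (nat_lit 4) (nat_lit 275) (nat_lit 232) (nat_lit 213))))) (XT.nd (nat_lit 234) (nat_lit 76) (nat_lit 0) (XT.nd (nat_lit 78) (nat_lit 0) (nat_lit 0) (XT.lf (nat_lit 0) (nat_lit 2646874933) (nat_lit 76) (nat_lit 15583619843) (nat_lit 76) (nat_lit 7681486574) (nat_lit 4) (nat_lit 4) (nat_lit 5) (nat_lit 5) (nat_lit 5) (nat_lit 4) (nat_lit 276) (nat_lit 232) (nat_lit 212)) (XT.nd (nat_lit 78) (nat_lit 0) (nat_lit 0) (XT.lf (nat_lit 0) (nat_lit 8541219323) (nat_lit 76) (nat_lit 13616810669) (nat_lit 76) (nat_lit 5554789376) (nat_lit 4) (nat_lit 4) (nat_lit 5) (nat_lit 5) (nat_lit 5) (nat_lit 4) (nat_lit 277) (nat_lit 232) (nat_lit 211)) (XT.lf (nat_lit 0) (nat_lit 14784035506) (nat_lit 76) (nat_lit 11544824185) (nat_lit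 76) (nat_lit 3334758425) (nat_lit 4) (nat_lit 4) (nat_lit 5) (nat_lit 5) (nat_lit 5) (nat_lit 4) (nat_lit 278) (nat_lit 232) (nat_lit 210)))) (XT.nd (nat_lit 78) (nat_lit 76) (nat_lit 0) (XT.lf (nat_lit 0) (nat_lit 21412317950) (nat_lit 76) (nat_lit 9355381950) (nat_lit 76) (nat_lit 1008237980) (nat_lit 4) (nat_lit 4) (nat_lit 5) (nat_lit 5) (nat_lit 5) (nat_lit 4) (nat_lit 279) (nat_lit 232) (nat_lit 209)) (XT.nd (nat_lit 78) (nat_lit 0) (nat_lit 0) (XT.lf (nat_lit 0) (nat_lit 1366596210) (nat_lit 152) (nat_lit 5631548121) (nat_lit 76) (nat_lit 27061383992) (nat_lit 3) (nat_lit 5) (nat_lit 5) (nat_lit 5) (nat_lit 4) (nat_lit 4) (nat_lit 280) (nat_lit 232) (nat_lit 208)) (XT.lf (nat_lit 0) (nat_lit 3819028038) (nat_lit 152) (nat_lit 648012390) (nat_lit 76) (nat_lit 32061466436) (nat_lit 3) (nat_lit 5) (nat_lit 5) (nat_lit 5) (nat_lit 4) (nat_lit 4) (nat_lit 281) (nat_lit 232) (nat_lit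 207)))))) (XT.nd (nat_lit 468) (nat_lit 76) (nat_lit 0) (XT.nd (nat_lit 234) (nat_lit 0) (nat_lit 0) (XT.nd (nat_lit 78) (nat_lit 0) (nat_lit 0) (XT.lf (nat_lit 0) (nat_lit 4885142065) (nat_lit 76) (nat_lit 1646372298) (nat_lit 152) (nat_lit 32658530950) (nat_lit 2) (nat_lit 5) (nat_lit 3) (nat_lit 5) (nat_lit 4) (nat_lit 4) (nat_lit 282) (nat_lit 232) (nat_lit 206)) (XT.nd (nat_lit 78) (nat_lit 0) (nat_lit 0) (XT.lf (nat_lit 0) (nat_lit 9460057286) (nat_lit 152) (nat_lit 31293833219) (nat_lit 0) (nat_lit 1310831000) (nat_lit 2) (nat_lit 5) (nat_lit 4) (nat_lit 4) (nat_lit 2) (nat_lit 4) (nat_lit 283) (nat_lit 232) (nat_lit 205)) (XT.lf (nat_lit 0) (nat_lit 12616767731) (nat_lit 152) (nat_lit 28172063378) (nat_lit 0) (nat_lit 4381158920) (nat_lit 2) (nat_lit 5) (nat_lit 4) (nat_lit 4) (nat_lit 2) (nat_lit 4) (nat_lit 284) (nat_lit 232) (nat_lit 204)))) (XT.nd (nat_lit 78) (nat_lit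 0) (nat_lit 0) (XT.lf (nat_lit 0) (nat_lit 15980756837) (nat_lit 152) (nat_lit 24881499055) (nat_lit 0) (nat_lit 7665164207) (nat_lit 2) (nat_lit 5) (nat_lit 4) (nat_lit 4) (nat_lit 2) (nat_lit 4) (nat_lit 285) (nat_lit 232) (nat_lit 203)) (XT.nd (nat_lit 78) (nat_lit 0) (nat_lit 0) (XT.lf (nat_lit 0) (nat_lit 19571959355) (nat_lit 152) (nat_lit 21402640609) (nat_lit 0) (nat_lit 11182307633) (nat_lit 2) (nat_lit 5) (nat_lit 4) (nat_lit 4) (nat_lit 2) (nat_lit 4) (nat_lit 286) (nat_lit 232) (nat_lit 202)) (XT.lf (nat_lit 0) (nat_lit 23411656484) (nat_lit 152) (nat_lit 17714872583) (nat_lit 0) (nat_lit 14953431529) (nat_lit 2) (nat_lit 5) (nat_lit 4) (nat_lit 4) (nat_lit 2) (nat_lit 4) (nat_lit 287) (nat_lit 232) (nat_lit 201))))) (XT.nd (nat_lit 234) (nat_lit 76) (nat_lit 0) (XT.nd (nat_lit 78) (nat_lit 0) (nat_lit 0) (XT.lf (nat_lit 0) (nat_lit 27522601986) (nat_lit 152) (nat_lit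 13796341538) (nat_lit 0) (nat_lit 19000883297) (nat_lit 2) (nat_lit 5) (nat_lit 4) (nat_lit 4) (nat_lit 2) (nat_lit 4) (nat_lit 288) (nat_lit 232) (nat_lit 200)) (XT.nd (nat_lit 78) (nat_lit 0) (nat_lit 0) (XT.lf (nat_lit 0) (nat_lit 31929157019) (nat_lit 152) (nat_lit 9623826547) (nat_lit 0) (nat_lit 23348647836) (nat_lit 2) (nat_lit 5) (nat_lit 4) (nat_lit 4) (nat_lit 2) (nat_lit 4) (nat_lit 289) (nat_lit 232) (nat_lit 199)) (XT.lf (nat_lit 0) (nat_lit 36657434503) (nat_lit 152) (nat_lit 5172601597) (nat_lit 0) (nat_lit 28022489675) (nat_lit 2) (nat_lit 5) (nat_lit 4) (nat_lit 4) (nat_lit 2) (nat_lit 4) (nat_lit 290) (nat_lit 232) (nat_lit 198)))) (XT.nd (nat_lit 78) (nat_lit 76) (nat_lit 0) (XT.lf (nat_lit 0) (nat_lit 41735453858) (nat_lit 152) (nat_lit 416289058) (nat_lit 0) (nat_lit 33050105657) (nat_lit 2) (nat_lit 5) (nat_lit 4) (nat_lit 4) (nat_lit 2) (nat_lit 4) (nat_lit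 291) (nat_lit 232) (nat_lit 197)) (XT.nd (nat_lit 78) (nat_lit 0) (nat_lit 0) (XT.lf (nat_lit 0) (nat_lit 4919384143) (nat_lit 76) (nat_lit 42392234215) (nat_lit 76) (nat_lit 33660216224) (nat_lit 1) (nat_lit 4) (nat_lit 2) (nat_lit 5) (nat_lit 2) (nat_lit 4) (nat_lit 292) (nat_lit 232) (nat_lit 196)) (XT.lf (nat_lit 0) (nat_lit 10659549813) (nat_lit 76) (nat_lit 42660149532) (nat_lit 76) (nat_lit 33884918773) (nat_lit 1) (nat_lit 4) (nat_lit 2) (nat_lit 5) (nat_lit 2) (nat_lit 4) (nat_lit 293) (nat_lit 232) (nat_lit 195))))))) (XT.nd (nat_lit 936) (nat_lit 0) (nat_lit 0) (XT.nd (nat_lit 468) (nat_lit 0) (nat_lit 0) (XT.nd (nat_lit 234) (nat_lit 0) (nat_lit 0) (XT.nd (nat_lit 78) (nat_lit 0) (nat_lit 0) (XT.lf (nat_lit 0) (nat_lit 16816302705) (nat_lit 76) (nat_lit 42968458596) (nat_lit 76) (nat_lit 34153216014) (nat_lit 1) (nat_lit 4) (nat_lit 2) (nat_lit 5) (nat_lit 2) (nat_lit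 4) (nat_lit 294) (nat_lit 232) (nat_lit 194)) (XT.nd (nat_lit 78) (nat_lit 0) (nat_lit 0) (XT.lf (nat_lit 0) (nat_lit 23426127279) (nat_lit 76) (nat_lit 43318988422) (nat_lit 76) (nat_lit 34466697856) (nat_lit 1) (nat_lit 4) (nat_lit 2) (nat_lit 5) (nat_lit 2) (nat_lit 4) (nat_lit 295) (nat_lit 232) (nat_lit 193)) (XT.lf (nat_lit 0) (nat_lit 30528192867) (nat_lit 76) (nat_lit 43713816225) (nat_lit 76) (nat_lit 34827221970) (nat_lit 1) (nat_lit 4) (nat_lit 2) (nat_lit 5) (nat_lit 2) (nat_lit 4) (nat_lit 296) (nat_lit 232) (nat_lit 192)))) (XT.nd (nat_lit 78) (nat_lit 0) (nat_lit 0) (XT.lf (nat_lit 0) (nat_lit 38164585783) (nat_lit 76) (nat_lit 44155281725) (nat_lit 76) (nat_lit 35236924794) (nat_lit 1) (nat_lit 4) (nat_lit 2) (nat_lit 5) (nat_lit 2) (nat_lit 4) (nat_lit 297) (nat_lit 232) (nat_lit 191)) (XT.nd (nat_lit 78) (nat_lit 0) (nat_lit 0) (XT.lf (nat_lit 0) (nat_lit 46380558725)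 (nat_lit 76) (nat_lit 44646001013) (nat_lit 76) (nat_lit 35698234198) (nat_lit 1) (nat_lit 4) (nat_lit 2) (nat_lit 5) (nat_lit 2) (nat_lit 4) (nat_lit 298) (nat_lit 232) (nat_lit 190)) (XT.lf (nat_lit 0) (nat_lit 55224798942) (nat_lit 76) (nat_lit 45188882056) (nat_lit 76) (nat_lit 36213883867) (nat_lit 1) (nat_lit 4) (nat_lit 2) (nat_lit 5) (nat_lit 2) (nat_lit 4) (nat_lit 299) (nat_lit 232) (nat_lit 189))))) (XT.nd (nat_lit 234) (nat_lit 0) (nat_lit 0) (XT.nd (nat_lit 78) (nat_lit 0) (nat_lit 0) (XT.lf (nat_lit 0) (nat_lit 64749716745) (nat_lit 76) (nat_lit 45787141927) (nat_lit 76) (nat_lit 36786929502) (nat_lit 1) (nat_lit 4) (nat_lit 2) (nat_lit 5) (nat_lit 2) (nat_lit 4) (nat_lit 300) (nat_lit 232) (nat_lit 188)) (XT.nd (nat_lit 78) (nat_lit 0) (nat_lit 0) (XT.lf (nat_lit 0) (nat_lit 75011756091) (nat_lit 76) (nat_lit 46444325869) (nat_lit 76) (nat_lit 37420766930) (nat_lit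 1) (nat_lit 4) (nat_lit 2) (nat_lit 5) (nat_lit 2) (nat_lit 4) (nat_lit 301) (nat_lit 232) (nat_lit 187)) (XT.lf (nat_lit 0) (nat_lit 86071729066) (nat_lit 76) (nat_lit 47164328306) (nat_lit 76) (nat_lit 38119152224) (nat_lit 1) (nat_lit 4) (nat_lit 2) (nat_lit 5) (nat_lit 2) (nat_lit 4) (nat_lit 302) (nat_lit 232) (nat_lit 186)))) (XT.nd (nat_lit 78) (nat_lit 0) (nat_lit 0) (XT.lf (nat_lit 0) (nat_lit 97995176250) (nat_lit 76) (nat_lit 47951415918) (nat_lit 76) (nat_lit 38886223963) (nat_lit 1) (nat_lit 4) (nat_lit 2) (nat_lit 5) (nat_lit 2) (nat_lit 4) (nat_lit 303) (nat_lit 232) (nat_lit 185)) (XT.nd (nat_lit 78) (nat_lit 0) (nat_lit 0) (XT.lf (nat_lit 0) (nat_lit 110852755108) (nat_lit 76) (nat_lit 48810252929) (nat_lit 76) (nat_lit 39726527759) (nat_lit 1) (nat_lit 4) (nat_lit 2) (nat_lit 5) (nat_lit 2) (nat_lit 4) (nat_lit 304) (nat_lit 232) (nat_lit 184)) (XT.lf (nat_lit 0)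 (nat_lit 124720658700) (nat_lit 76) (nat_lit 49745928744) (nat_lit 76) (nat_lit 40645043188) (nat_lit 1) (nat_lit 4) (nat_lit 2) (nat_lit 5) (nat_lit 2) (nat_lit 4) (nat_lit 305) (nat_lit 232) (nat_lit 183)))))) (XT.nd (nat_lit 468) (nat_lit 0) (nat_lit 0) (XT.nd (nat_lit 234) (nat_lit 0) (nat_lit 0) (XT.nd (nat_lit 78) (nat_lit 0) (nat_lit 0) (XT.lf (nat_lit 0) (nat_lit 139681067195) (nat_lit 76) (nat_lit 50763988107) (nat_lit 76) (nat_lit 41647213306) (nat_lit 1) (nat_lit 4) (nat_lit 2) (nat_lit 5) (nat_lit 2) (nat_lit 4) (nat_lit 306) (nat_lit 232) (nat_lit 182)) (XT.nd (nat_lit 78) (nat_lit 0) (nat_lit 0) (XT.lf (nat_lit 0) (nat_lit 155822634867) (nat_lit 76) (nat_lit 51870463964) (nat_lit 76) (nat_lit 42738976898) (nat_lit 1) (nat_lit 4) (nat_lit 2) (nat_lit 5) (nat_lit 2) (nat_lit 4) (nat_lit 307) (nat_lit 232) (nat_lit 181)) (XT.lf (nat_lit 0) (nat_lit 173241015448) (nat_lit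 76) (nat_lit 53071913207) (nat_lit 76) (nat_lit 43926803675) (nat_lit 1) (nat_lit 4) (nat_lit 2) (nat_lit 5) (nat_lit 2) (nat_lit 4) (nat_lit 308) (nat_lit 232) (nat_lit 180)))) (XT.nd (nat_lit 78) (nat_lit 0) (nat_lit 0) (XT.lf (nat_lit 0) (nat_lit 192039428973) (nat_lit 76) (nat_lit 54375455537) (nat_lit 76) (nat_lit 45217732609) (nat_lit 1) (nat_lit 4) (nat_lit 2) (nat_lit 5) (nat_lit 2) (nat_lit 4) (nat_lit 309) (nat_lit 232) (nat_lit 179)) (XT.nd (nat_lit 78) (nat_lit 0) (nat_lit 0) (XT.lf (nat_lit 0) (nat_lit 212329273447) (nat_lit 76) (nat_lit 55788815648) (nat_lit 76) (nat_lit 46619413651) (nat_lit 1) (nat_lit 4) (nat_lit 2) (nat_lit 5) (nat_lit 2) (nat_lit 4) (nat_lit 310) (nat_lit 232) (nat_lit 178)) (XT.lf (nat_lit 0) (nat_lit 234230784986) (nat_lit 76) (nat_lit 57320369009) (nat_lit 76) (nat_lit 48140153058) (nat_lit 1) (nat_lit 4) (nat_lit 2) (nat_lit 5) (nat_lit 2) (nat_lit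 4) (nat_lit 311) (nat_lit 232) (nat_lit 177))))) (XT.nd (nat_lit 234) (nat_lit 0) (nat_lit 0) (XT.nd (nat_lit 78) (nat_lit 0) (nat_lit 0) (XT.lf (nat_lit 0) (nat_lit 257873750325) (nat_lit 76) (nat_lit 58979191490) (nat_lit 76) (nat_lit 49788962619) (nat_lit 1) (nat_lit 4) (nat_lit 2) (nat_lit 5) (nat_lit 2) (nat_lit 4) (nat_lit 312) (nat_lit 232) (nat_lit 176)) (XT.nd (nat_lit 78) (nat_lit 0) (nat_lit 0) (XT.lf (nat_lit 0) (nat_lit 283398275925) (nat_lit 76) (nat_lit 60775113151) (nat_lit 76) (nat_lit 51575613058) (nat_lit 1) (nat_lit 4) (nat_lit 2) (nat_lit 5) (nat_lit 2) (nat_lit 4) (nat_lit 313) (nat_lit 232) (nat_lit 175)) (XT.lf (nat_lit 0) (nat_lit 310955618235) (nat_lit 76) (nat_lit 62718776490) (nat_lit 76) (nat_lit 53510691933) (nat_lit 1) (nat_lit 4) (nat_lit 2) (nat_lit 5) (nat_lit 2) (nat_lit 4) (nat_lit 314) (nat_lit 232) (nat_lit 174)))) (XT.nd (nat_lit 78) (nat_lit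 0) (nat_lit 0) (XT.lf (nat_lit 0) (nat_lit 340709080022) (nat_lit 76) (nat_lit 64821699514) (nat_lit 76) (nat_lit 55605666378) (nat_lit 1) (nat_lit 4) (nat_lit 2) (nat_lit 5) (nat_lit 2) (nat_lit 4) (nat_lit 315) (nat_lit 232) (nat_lit 173)) (XT.nd (nat_lit 78) (nat_lit 0) (nat_lit 0) (XT.lf (nat_lit 0) (nat_lit 372834978099) (nat_lit 76) (nat_lit 67096343986) (nat_lit 76) (nat_lit 57872951055) (nat_lit 1) (nat_lit 4) (nat_lit 2) (nat_lit 5) (nat_lit 2) (nat_lit 4) (nat_lit 316) (nat_lit 232) (nat_lit 172)) (XT.lf (nat_lit 0) (nat_lit 407523688156) (nat_lit 76) (nat_lit 69556189283) (nat_lit 76) (nat_lit 60325981728) (nat_lit 1) (nat_lit 4) (nat_lit 2) (nat_lit 5) (nat_lit 2) (nat_lit 4) (nat_lit 317) (nat_lit 232) (nat_lit 171))))))))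
noncomputable def xc36 : XT := (XT.nd (nat_lit 32838) (nat_lit 0) (nat_lit 152) (XT.nd (nat_lit 858) (nat_lit 0) (nat_lit 0) (XT.nd (nat_lit 390) (nat_lit 0) (nat_lit 0) (XT.nd (nat_lit 156) (nat_lit 0) (nat_lit 0) (XT.nd (nat_lit 78) (nat_lit 0) (nat_lit 0) (XT.lf (nat_lit 0) (nat_lit 444980772922) (nat_lit 76) (nat_lit 72215812266) (nat_lit 76) (nat_lit 62979294872) (nat_lit 1) (nat_lit 4) (nat_lit 2) (nat_lit 5) (nat_lit 2) (nat_lit 4) (nat_lit 318) (nat_lit 232) (nat_lit 170)) (XT.lf (nat_lit 0) (nat_lit 485428200304) (nat_lit 76) (nat_lit 75090973662) (nat_lit 76) (nat_lit 65848613826) (nat_lit 1) (nat_lit 4) (nat_lit 2) (nat_lit 5) (nat_lit 2) (nat_lit 4) (nat_lit 319) (nat_lit 232) (nat_lit 169))) (XT.nd (nat_lit 78) (nat_lit 0) (nat_lit 0) (XT.lf (nat_lit 0) (nat_lit 529105658763) (nat_lit 76) (nat_lit 78198711466) (nat_lit 76) (nat_lit 68950941961) (nat_lit 1) (nat_lit 4)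 (nat_lit 2) (nat_lit 5) (nat_lit 2) (nat_lit 4) (nat_lit 320) (nat_lit 232) (nat_lit 168)) (XT.nd (nat_lit 78) (nat_lit 0) (nat_lit 0) (XT.lf (nat_lit 0) (nat_lit 576271977680) (nat_lit 76) (nat_lit 81557441902) (nat_lit 76) (nat_lit 72304663444) (nat_lit 1) (nat_lit 4) (nat_lit 2) (nat_lit 5) (nat_lit 2) (nat_lit 4) (nat_lit 321) (nat_lit 232) (nat_lit 167)) (XT.lf (nat_lit 0) (nat_lit 627206661169) (nat_lit 76) (nat_lit 85187068557) (nat_lit 76) (nat_lit 75929652179) (nat_lit 1) (nat_lit 4) (nat_lit 2) (nat_lit 5) (nat_lit 2) (nat_lit 4) (nat_lit 322) (nat_lit 232) (nat_lit 166))))) (XT.nd (nat_lit 234) (nat_lit 0) (nat_lit 0) (XT.nd (nat_lit 78) (nat_lit 0) (nat_lit 0) (XT.lf (nat_lit 0) (nat_lit 682211544391) (nat_lit 76) (nat_lit 89109100330) (nat_lit 76) (nat_lit 79847389582) (nat_lit 1) (nat_lit 4) (nat_lit 2) (nat_lit 5) (nat_lit 2) (nat_lit 4) (nat_lit 323) (nat_lit 232)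 (nat_lit 165)) (XT.nd (nat_lit 78) (nat_lit 0) (nat_lit 0) (XT.lf (nat_lit 0) (nat_lit 741612582209) (nat_lit 76) (nat_lit 93346778890) (nat_lit 76) (nat_lit 84081091875) (nat_lit 1) (nat_lit 4) (nat_lit 2) (nat_lit 5) (nat_lit 2) (nat_lit 4) (nat_lit 324) (nat_lit 232) (nat_lit 164)) (XT.lf (nat_lit 0) (nat_lit 805761780773) (nat_lit 76) (nat_lit 97925216408) (nat_lit 76) (nat_lit 88655847663) (nat_lit 1) (nat_lit 4) (nat_lit 2) (nat_lit 5) (nat_lit 2) (nat_lit 4) (nat_lit 325) (nat_lit 232) (nat_lit 163)))) (XT.nd (nat_lit 78) (nat_lit 0) (nat_lit 0) (XT.lf (nat_lit 0) (nat_lit 875039283483) (nat_lit 76) (nat_lit 102871544365) (nat_lit 76) (nat_lit 93598766610) (nat_lit 1) (nat_lit 4) (nat_lit 2) (nat_lit 5) (nat_lit 2) (nat_lit 4) (nat_lit 326) (nat_lit 232) (nat_lit 162)) (XT.nd (nat_lit 78) (nat_lit 0) (nat_lit 0) (XT.lf (nat_lit 0) (nat_lit 949855623688) (nat_lit 76) (nat_lit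 108215074333) (nat_lit 76) (nat_lit 98939140088) (nat_lit 1) (nat_lit 4) (nat_lit 2) (nat_lit 5) (nat_lit 2) (nat_lit 4) (nat_lit 327) (nat_lit 232) (nat_lit 161)) (XT.lf (nat_lit 0) (nat_lit 1030654157477) (nat_lit 76) (nat_lit 113987471675) (nat_lit 76) (nat_lit 104708614755) (nat_lit 1) (nat_lit 4) (nat_lit 2) (nat_lit 5) (nat_lit 2) (nat_lit 4) (nat_lit 328) (nat_lit 232) (nat_lit 160)))))) (XT.nd (nat_lit 468) (nat_lit 0) (nat_lit 0) (XT.nd (nat_lit 234) (nat_lit 0) (nat_lit 0) (XT.nd (nat_lit 78) (nat_lit 0) (nat_lit 0) (XT.lf (nat_lit 0) (nat_lit 1117913690977) (nat_lit 76) (nat_lit 120222943191) (nat_lit 76) (nat_lit 110941380090) (nat_lit 1) (nat_lit 4) (nat_lit 2) (nat_lit 5) (nat_lit 2) (nat_lit 4) (nat_lit 329) (nat_lit 232) (nat_lit 159)) (XT.nd (nat_lit 78) (nat_lit 0) (nat_lit 0) (XT.lf (nat_lit 0) (nat_lit 1212151317719) (nat_lit 76) (nat_lit 126958439823) (nat_lit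 76) (nat_lit 117674370998) (nat_lit 1) (nat_lit 4) (nat_lit 2) (nat_lit 5) (nat_lit 2) (nat_lit 4) (nat_lit 330) (nat_lit 232) (nat_lit 158)) (XT.lf (nat_lit 0) (nat_lit 1313925482900) (nat_lit 76) (nat_lit 134233875625) (nat_lit 76) (nat_lit 124947486686) (nat_lit 1) (nat_lit 4) (nat_lit 2) (nat_lit 5) (nat_lit 2) (nat_lit 4) (nat_lit 331) (nat_lit 232) (nat_lit 157)))) (XT.nd (nat_lit 78) (nat_lit 0) (nat_lit 0) (XT.lf (nat_lit 0) (nat_lit 1423839292684) (nat_lit 76) (nat_lit 142092364291) (nat_lit 76) (nat_lit 132803827098) (nat_lit 1) (nat_lit 4) (nat_lit 2) (nat_lit 5) (nat_lit 2) (nat_lit 4) (nat_lit 332) (nat_lit 232) (nat_lit 156)) (XT.nd (nat_lit 78) (nat_lit 0) (nat_lit 0) (XT.lf (nat_lit 0) (nat_lit 1542544088164) (nat_lit 76) (nat_lit 150580474642) (nat_lit 76) (nat_lit 141289948325) (nat_lit 1) (nat_lit 4) (nat_lit 2) (nat_lit 5) (nat_lit 2) (nat_lit 4) (nat_lit 333)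 (nat_lit 232) (nat_lit 155)) (XT.lf (nat_lit 0) (nat_lit 1670743305168) (nat_lit 76) (nat_lit 159748506592) (nat_lit 76) (nat_lit 150456138493) (nat_lit 1) (nat_lit 4) (nat_lit 2) (nat_lit 5) (nat_lit 2) (nat_lit 4) (nat_lit 334) (nat_lit 232) (nat_lit 154))))) (XT.nd (nat_lit 31278) (nat_lit 0) (nat_lit 1368) (XT.nd (nat_lit 78) (nat_lit 0) (nat_lit 0) (XT.lf (nat_lit 0) (nat_lit 1809196642757) (nat_lit 76) (nat_lit 169650789218) (nat_lit 76) (nat_lit 160356715766) (nat_lit 1) (nat_lit 4) (nat_lit 2) (nat_lit 5) (nat_lit 2) (nat_lit 4) (nat_lit 335) (nat_lit 232) (nat_lit 153)) (XT.nd (nat_lit 31122) (nat_lit 0) (nat_lit 1824) (XT.lf (nat_lit 0) (nat_lit 1958724565155) (nat_lit 76) (nat_lit 180346002714) (nat_lit 76) (nat_lit 171050350231) (nat_lit 1) (nat_lit 4) (nat_lit 2) (nat_lit 5) (nat_lit 2) (nat_lit 4) (nat_lit 336) (nat_lit 232) (nat_lit 152)) (XT.lf (nat_lit 0) (nat_lit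 3060697764) (nat_lit 228) (nat_lit 505476340) (nat_lit 228) (nat_lit 505476340) (nat_lit 25) (nat_lit 4) (nat_lit 28) (nat_lit 5) (nat_lit 28) (nat_lit 4) (nat_lit 254) (nat_lit 233) (nat_lit 233)))) (XT.nd (nat_lit 78) (nat_lit 228) (nat_lit 0) (XT.lf (nat_lit 0) (nat_lit 2082541952) (nat_lit 228) (nat_lit 5351539111) (nat_lit 0) (nat_lit 987552783) (nat_lit 22) (nat_lit 5) (nat_lit 25) (nat_lit 4) (nat_lit 22) (nat_lit 4) (nat_lit 255) (nat_lit 233) (nat_lit 232)) (XT.nd (nat_lit 78) (nat_lit 228) (nat_lit 0) (XT.lf (nat_lit 0) (nat_lit 5238057670) (nat_lit 228) (nat_lit 364866367) (nat_lit 0) (nat_lit 3129189641) (nat_lit 22) (nat_lit 5) (nat_lit 25) (nat_lit 4) (nat_lit 22) (nat_lit 4) (nat_lit 256) (nat_lit 233) (nat_lit 231)) (XT.lf (nat_lit 0) (nat_lit 5014604949) (nat_lit 228) (nat_lit 3554031734) (nat_lit 228) (nat_lit 506386982) (nat_lit 19) (nat_lit 4) (nat_lit 22) (nat_lit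 5) (nat_lit 22) (nat_lit 4) (nat_lit 257) (nat_lit 233) (nat_lit 230))))))) (XT.nd (nat_lit 936) (nat_lit 304) (nat_lit 0) (XT.nd (nat_lit 468) (nat_lit 380) (nat_lit 0) (XT.nd (nat_lit 234) (nat_lit 152) (nat_lit 0) (XT.nd (nat_lit 78) (nat_lit 152) (nat_lit 0) (XT.lf (nat_lit 0) (nat_lit 1129457834) (nat_lit 152) (nat_lit 1296667306) (nat_lit 228) (nat_lit 7027856263) (nat_lit 16) (nat_lit 5) (nat_lit 18) (nat_lit 5) (nat_lit 19) (nat_lit 4) (nat_lit 258) (nat_lit 233) (nat_lit 229)) (XT.nd (nat_lit 78) (nat_lit 152) (nat_lit 0) (XT.lf (nat_lit 0) (nat_lit 5518441448) (nat_lit 228) (nat_lit 3202202558) (nat_lit 0) (nat_lit 1146467202) (nat_lit 16) (nat_lit 5) (nat_lit 19) (nat_lit 4) (nat_lit 16) (nat_lit 4) (nat_lit 259) (nat_lit 233) (nat_lit 228)) (XT.lf (nat_lit 0) (nat_lit 2154181690) (nat_lit 152) (nat_lit 6614644205) (nat_lit 152) (nat_lit 1552641043) (nat_lit 14) (nat_lit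 4) (nat_lit 16) (nat_lit 5) (nat_lit 16) (nat_lit 4) (nat_lit 260) (nat_lit 233) (nat_lit 227)))) (XT.nd (nat_lit 78) (nat_lit 76) (nat_lit 0) (XT.lf (nat_lit 0) (nat_lit 1310534777) (nat_lit 228) (nat_lit 2975006487) (nat_lit 76) (nat_lit 6531342133) (nat_lit 13) (nat_lit 5) (nat_lit 16) (nat_lit 5) (nat_lit 14) (nat_lit 4) (nat_lit 261) (nat_lit 233) (nat_lit 226)) (XT.nd (nat_lit 78) (nat_lit 0) (nat_lit 0) (XT.lf (nat_lit 0) (nat_lit 2481779282) (nat_lit 76) (nat_lit 1736627777) (nat_lit 152) (nat_lit 7139155601) (nat_lit 12) (nat_lit 5) (nat_lit 13) (nat_lit 5) (nat_lit 14) (nat_lit 4) (nat_lit 262) (nat_lit 233) (nat_lit 225)) (XT.lf (nat_lit 0) (nat_lit 7311201562) (nat_lit 152) (nat_lit 3657254545) (nat_lit 0) (nat_lit 977613966) (nat_lit 12) (nat_lit 5) (nat_lit 14) (nat_lit 4) (nat_lit 12) (nat_lit 4) (nat_lit 263) (nat_lit 233) (nat_lit 224))))) (XT.nd (nat_lit 234) (nat_lit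 152) (nat_lit 0) (XT.nd (nat_lit 78) (nat_lit 76) (nat_lit 0) (XT.lf (nat_lit 0) (nat_lit 1801535768) (nat_lit 152) (nat_lit 8794242219) (nat_lit 152) (nat_lit 1991032537) (nat_lit 10) (nat_lit 4) (nat_lit 12) (nat_lit 5) (nat_lit 12) (nat_lit 4) (nat_lit 264) (nat_lit 233) (nat_lit 223)) (XT.nd (nat_lit 78) (nat_lit 0) (nat_lit 0) (XT.lf (nat_lit 0) (nat_lit 780837121) (nat_lit 228) (nat_lit 5613903733) (nat_lit 76) (nat_lit 6886226468) (nat_lit 9) (nat_lit 5) (nat_lit 12) (nat_lit 5) (nat_lit 10) (nat_lit 4) (nat_lit 265) (nat_lit 233) (nat_lit 222)) (XT.lf (nat_lit 0) (nat_lit 3534638875) (nat_lit 228) (nat_lit 288621329) (nat_lit 76) (nat_lit 10214395817) (nat_lit 9) (nat_lit 5) (nat_lit 12) (nat_lit 5) (nat_lit 10) (nat_lit 4) (nat_lit 266) (nat_lit 233) (nat_lit 221)))) (XT.nd (nat_lit 78) (nat_lit 76) (nat_lit 0) (XT.lf (nat_lit 0) (nat_lit 5547523667) (nat_lit 76) (nat_lit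 972185472) (nat_lit 152) (nat_lit 8334808868) (nat_lit 8) (nat_lit 5) (nat_lit 9) (nat_lit 5) (nat_lit 10) (nat_lit 4) (nat_lit 267) (nat_lit 233) (nat_lit 220)) (XT.nd (nat_lit 78) (nat_lit 76) (nat_lit 0) (XT.lf (nat_lit 0) (nat_lit 9682773844) (nat_lit 152) (nat_lit 4116021101) (nat_lit 0) (nat_lit 1943276069) (nat_lit 8) (nat_lit 5) (nat_lit 10) (nat_lit 4) (nat_lit 8) (nat_lit 4) (nat_lit 268) (nat_lit 233) (nat_lit 219)) (XT.lf (nat_lit 0) (nat_lit 1351064029) (nat_lit 76) (nat_lit 11694841816) (nat_lit 76) (nat_lit 3659402467) (nat_lit 7) (nat_lit 4) (nat_lit 8) (nat_lit 5) (nat_lit 8) (nat_lit 4) (nat_lit 269) (nat_lit 233) (nat_lit 218)))))) (XT.nd (nat_lit 468) (nat_lit 152) (nat_lit 0) (XT.nd (nat_lit 234) (nat_lit 76) (nat_lit 0) (XT.nd (nat_lit 78) (nat_lit 76) (nat_lit 0) (XT.lf (nat_lit 0) (nat_lit 7312692583) (nat_lit 76) (nat_lit 9371159662) (nat_lit 76) (nat_lit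 1061700336) (nat_lit 7) (nat_lit 4) (nat_lit 8) (nat_lit 5) (nat_lit 8) (nat_lit 4) (nat_lit 270) (nat_lit 233) (nat_lit 217)) (XT.nd (nat_lit 78) (nat_lit 0) (nat_lit 0) (XT.lf (nat_lit 0) (nat_lit 1554791154) (nat_lit 152) (nat_lit 5329215924) (nat_lit 76) (nat_lit 11990148454) (nat_lit 6) (nat_lit 5) (nat_lit 8) (nat_lit 5) (nat_lit 7) (nat_lit 4) (nat_lit 271) (nat_lit 233) (nat_lit 216)) (XT.lf (nat_lit 0) (nat_lit 4228988890) (nat_lit 152) (nat_lit 1812596) (nat_lit 76) (nat_lit 15867904150) (nat_lit 6) (nat_lit 5) (nat_lit 8) (nat_lit 5) (nat_lit 7) (nat_lit 4) (nat_lit 272) (nat_lit 233) (nat_lit 215)))) (XT.nd (nat_lit 78) (nat_lit 0) (nat_lit 0) (XT.lf (nat_lit 0) (nat_lit 5901679620) (nat_lit 76) (nat_lit 1270106438) (nat_lit 152) (nat_lit 14245361298) (nat_lit 5) (nat_lit 5) (nat_lit 6) (nat_lit 5) (nat_lit 7) (nat_lit 4) (nat_lit 273) (nat_lit 233) (nat_lit 214)) (XT.nd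 (nat_lit 78) (nat_lit 0) (nat_lit 0) (XT.lf (nat_lit 0) (nat_lit 10310817561) (nat_lit 152) (nat_lit 10757146796) (nat_lit 0) (nat_lit 1776513631) (nat_lit 5) (nat_lit 5) (nat_lit 7) (nat_lit 4) (nat_lit 5) (nat_lit 4) (nat_lit 274) (nat_lit 233) (nat_lit 213)) (XT.lf (nat_lit 0) (nat_lit 13654706396) (nat_lit 152) (nat_lit 5787524291) (nat_lit 0) (nat_lit 4947723400) (nat_lit 5) (nat_lit 5) (nat_lit 7) (nat_lit 4) (nat_lit 5) (nat_lit 4) (nat_lit 275) (nat_lit 233) (nat_lit 212))))) (XT.nd (nat_lit 234) (nat_lit 76) (nat_lit 0) (XT.nd (nat_lit 78) (nat_lit 76) (nat_lit 0) (XT.lf (nat_lit 0) (nat_lit 17192722110) (nat_lit 152) (nat_lit 546604516) (nat_lit 0) (nat_lit 8325851089) (nat_lit 5) (nat_lit 5) (nat_lit 7) (nat_lit 4) (nat_lit 5) (nat_lit 4) (nat_lit 276) (nat_lit 233) (nat_lit 211)) (XT.nd (nat_lit 78) (nat_lit 0) (nat_lit 0) (XT.lf (nat_lit 0) (nat_lit 5259785610) (nat_lit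 76) (nat_lit 15812543080) (nat_lit 76) (nat_lit 6797627592) (nat_lit 4) (nat_lit 4) (nat_lit 5) (nat_lit 5) (nat_lit 5) (nat_lit 4) (nat_lit 277) (nat_lit 233) (nat_lit 210)) (XT.lf (nat_lit 0) (nat_lit 11447813796) (nat_lit 76) (nat_lit 13763779273) (nat_lit 76) (nat_lit 4611785575) (nat_lit 4) (nat_lit 4) (nat_lit 5) (nat_lit 5) (nat_lit 5) (nat_lit 4) (nat_lit 278) (nat_lit 233) (nat_lit 209)))) (XT.nd (nat_lit 78) (nat_lit 76) (nat_lit 0) (XT.lf (nat_lit 0) (nat_lit 18025366613) (nat_lit 76) (nat_lit 11595839518) (nat_lit 76) (nat_lit 2316921551) (nat_lit 4) (nat_lit 4) (nat_lit 5) (nat_lit 5) (nat_lit 5) (nat_lit 4) (nat_lit 279) (nat_lit 233) (nat_lit 208)) (XT.nd (nat_lit 78) (nat_lit 0) (nat_lit 0) (XT.lf (nat_lit 0) (nat_lit 95533071) (nat_lit 152) (nat_lit 9197731649) (nat_lit 76) (nat_lit 24933277037) (nat_lit 3) (nat_lit 5) (nat_lit 5) (nat_lit 5) (nat_lit 4) (nat_lit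 4) (nat_lit 280) (nat_lit 233) (nat_lit 207)) (XT.lf (nat_lit 0) (nat_lit 2522182287) (nat_lit 152) (nat_lit 4259118382) (nat_lit 76) (nat_lit 29916354556) (nat_lit 3) (nat_lit 5) (nat_lit 5) (nat_lit 5) (nat_lit 4) (nat_lit 4) (nat_lit 281) (nat_lit 233) (nat_lit 206))))))))
noncomputable def xc37 : XT := (XT.nd (nat_lit 1872) (nat_lit 0) (nat_lit 0) (XT.nd (nat_lit 936) (nat_lit 0) (nat_lit 0) (XT.nd (nat_lit 468) (nat_lit 76) (nat_lit 0) (XT.nd (nat_lit 234) (nat_lit 0) (nat_lit 0) (XT.nd (nat_lit 78) (nat_lit 0) (nat_lit 0) (XT.lf (nat_lit 0) (nat_lit 1040096445) (nat_lit 76) (nat_lit 4078225940) (nat_lit 152) (nat_lit 34250245950) (nat_lit 2) (nat_lit 5) (nat_lit 3) (nat_lit 5) (nat_lit 4) (nat_lit 4) (nat_lit 282) (nat_lit 233) (nat_lit 205)) (XT.nd (nat_lit 78) (nat_lit 0) (nat_lit 0) (XT.lf (nat_lit 0) (nat_lit 6921141269) (nat_lit 76) (nat_lit 1069458977) (nat_lit 152) (nat_lit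 34257207487) (nat_lit 2) (nat_lit 5) (nat_lit 3) (nat_lit 5) (nat_lit 4) (nat_lit 4) (nat_lit 283) (nat_lit 233) (nat_lit 204)) (XT.lf (nat_lit 0) (nat_lit 11099831439) (nat_lit 152) (nat_lit 32218092986) (nat_lit 0) (nat_lit 2039007580) (nat_lit 2) (nat_lit 5) (nat_lit 4) (nat_lit 4) (nat_lit 2) (nat_lit 4) (nat_lit 284) (nat_lit 233) (nat_lit 203)))) (XT.nd (nat_lit 78) (nat_lit 0) (nat_lit 0) (XT.lf (nat_lit 0) (nat_lit 14443673566) (nat_lit 152) (nat_lit 28963562809) (nat_lit 0) (nat_lit 5308790615) (nat_lit 2) (nat_lit 5) (nat_lit 4) (nat_lit 4) (nat_lit 2) (nat_lit 4) (nat_lit 285) (nat_lit 233) (nat_lit 202)) (XT.nd (nat_lit 78) (nat_lit 0) (nat_lit 0) (XT.lf (nat_lit 0) (nat_lit 18016221473) (nat_lit 152) (nat_lit 25518069313) (nat_lit 0) (nat_lit 8812765289) (nat_lit 2) (nat_lit 5) (nat_lit 4) (nat_lit 4) (nat_lit 2) (nat_lit 4) (nat_lit 286) (nat_lit 233) (nat_lit 201))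 (XT.lf (nat_lit 0) (nat_lit 21838645816) (nat_lit 152) (nat_lit 21861194760) (nat_lit 0) (nat_lit 12571695897) (nat_lit 2) (nat_lit 5) (nat_lit 4) (nat_lit 4) (nat_lit 2) (nat_lit 4) (nat_lit 287) (nat_lit 233) (nat_lit 200))))) (XT.nd (nat_lit 234) (nat_lit 76) (nat_lit 0) (XT.nd (nat_lit 78) (nat_lit 0) (nat_lit 0) (XT.lf (nat_lit 0) (nat_lit 25933597996) (nat_lit 152) (nat_lit 17971268781) (nat_lit 0) (nat_lit 16607857583) (nat_lit 2) (nat_lit 5) (nat_lit 4) (nat_lit 4) (nat_lit 2) (nat_lit 4) (nat_lit 288) (nat_lit 233) (nat_lit 199)) (XT.nd (nat_lit 78) (nat_lit 0) (nat_lit 0) (XT.lf (nat_lit 0) (nat_lit 30325344398) (nat_lit 152) (nat_lit 13825239963) (nat_lit 0) (nat_lit 20945168341) (nat_lit 2) (nat_lit 5) (nat_lit 4) (nat_lit 4) (nat_lit 2) (nat_lit 4) (nat_lit 289) (nat_lit 233) (nat_lit 198)) (XT.lf (nat_lit 0) (nat_lit 35039910186) (nat_lit 152) (nat_lit 9398539247) (nat_lit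 0) (nat_lit 25609330756) (nat_lit 2) (nat_lit 5) (nat_lit 4) (nat_lit 4) (nat_lit 2) (nat_lit 4) (nat_lit 290) (nat_lit 233) (nat_lit 197)))) (XT.nd (nat_lit 78) (nat_lit 76) (nat_lit 0) (XT.lf (nat_lit 0) (nat_lit 40105233526) (nat_lit 152) (nat_lit 4664934333) (nat_lit 0) (nat_lit 30627984306) (nat_lit 2) (nat_lit 5) (nat_lit 4) (nat_lit 4) (nat_lit 2) (nat_lit 4) (nat_lit 291) (nat_lit 233) (nat_lit 196)) (XT.nd (nat_lit 78) (nat_lit 0) (nat_lit 0) (XT.lf (nat_lit 0) (nat_lit 424879990) (nat_lit 76) (nat_lit 45136669535) (nat_lit 76) (nat_lit 35616207546) (nat_lit 1) (nat_lit 4) (nat_lit 2) (nat_lit 5) (nat_lit 2) (nat_lit 4) (nat_lit 292) (nat_lit 233) (nat_lit 195)) (XT.lf (nat_lit 0) (nat_lit 6144552376) (nat_lit 76) (nat_lit 45413700487) (nat_lit 76) (nat_lit 35853226675) (nat_lit 1) (nat_lit 4) (nat_lit 2) (nat_lit 5) (nat_lit 2) (nat_lit 4) (nat_lit 293) (nat_lit 233) (nat_lit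 194)))))) (XT.nd (nat_lit 468) (nat_lit 0) (nat_lit 0) (XT.nd (nat_lit 234) (nat_lit 0) (nat_lit 0) (XT.nd (nat_lit 78) (nat_lit 0) (nat_lit 0) (XT.lf (nat_lit 0) (nat_lit 12282330003) (nat_lit 76) (nat_lit 45730449953) (nat_lit 76) (nat_lit 36132928157) (nat_lit 1) (nat_lit 4) (nat_lit 2) (nat_lit 5) (nat_lit 2) (nat_lit 4) (nat_lit 294) (nat_lit 233) (nat_lit 193)) (XT.nd (nat_lit 78) (nat_lit 0) (nat_lit 0) (XT.lf (nat_lit 0) (nat_lit 18874584889) (nat_lit 76) (nat_lit 46088794967) (nat_lit 76) (nat_lit 36456969482) (nat_lit 1) (nat_lit 4) (nat_lit 2) (nat_lit 5) (nat_lit 2) (nat_lit 4) (nat_lit 295) (nat_lit 233) (nat_lit 192)) (XT.lf (nat_lit 0) (nat_lit 25960382246) (nat_lit 76) (nat_lit 46490859055) (nat_lit 76) (nat_lit 36827270895) (nat_lit 1) (nat_lit 4) (nat_lit 2) (nat_lit 5) (nat_lit 2) (nat_lit 4) (nat_lit 296) (nat_lit 233) (nat_lit 191)))) (XT.nd (nat_lit 78) (nat_lit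 0) (nat_lit 0) (XT.lf (nat_lit 0) (nat_lit 33581711986) (nat_lit 76) (nat_lit 46939024818) (nat_lit 76) (nat_lit 37246026774) (nat_lit 1) (nat_lit 4) (nat_lit 2) (nat_lit 5) (nat_lit 2) (nat_lit 4) (nat_lit 297) (nat_lit 233) (nat_lit 190)) (XT.nd (nat_lit 78) (nat_lit 0) (nat_lit 0) (XT.lf (nat_lit 0) (nat_lit 41783737543) (nat_lit 76) (nat_lit 47435948055) (nat_lit 76) (nat_lit 37715718636) (nat_lit 1) (nat_lit 4) (nat_lit 2) (nat_lit 5) (nat_lit 2) (nat_lit 4) (nat_lit 298) (nat_lit 233) (nat_lit 189)) (XT.lf (nat_lit 0) (nat_lit 50615063514) (nat_lit 76) (nat_lit 47984573494) (nat_lit 76) (nat_lit 38239129840) (nat_lit 1) (nat_lit 4) (nat_lit 2) (nat_lit 5) (nat_lit 2) (nat_lit 4) (nat_lit 299) (nat_lit 233) (nat_lit 188))))) (XT.nd (nat_lit 234) (nat_lit 0) (nat_lit 0) (XT.nd (nat_lit 78) (nat_lit 0) (nat_lit 0) (XT.lf (nat_lit 0) (nat_lit 60128023682) (nat_lit 76) (nat_lit 48588152250)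 (nat_lit 76) (nat_lit 38819362082) (nat_lit 1) (nat_lit 4) (nat_lit 2) (nat_lit 5) (nat_lit 2) (nat_lit 4) (nat_lit 300) (nat_lit 233) (nat_lit 187)) (XT.nd (nat_lit 78) (nat_lit 0) (nat_lit 0) (XT.lf (nat_lit 0) (nat_lit 70378991144) (nat_lit 76) (nat_lit 49250261086) (nat_lit 76) (nat_lit 39459853775) (nat_lit 1) (nat_lit 4) (nat_lit 2) (nat_lit 5) (nat_lit 2) (nat_lit 4) (nat_lit 301) (nat_lit 233) (nat_lit 186)) (XT.lf (nat_lit 0) (nat_lit 81428712374) (nat_lit 76) (nat_lit 49974823610) (nat_lit 76) (nat_lit 40164400425) (nat_lit 1) (nat_lit 4) (nat_lit 2) (nat_lit 5) (nat_lit 2) (nat_lit 4) (nat_lit 302) (nat_lit 233) (nat_lit 185)))) (XT.nd (nat_lit 78) (nat_lit 0) (nat_lit 0) (XT.lf (nat_lit 0) (nat_lit 93342667202) (nat_lit 76) (nat_lit 50766133525) (nat_lit 76) (nat_lit 40937177125) (nat_lit 1) (nat_lit 4) (nat_lit 2) (nat_lit 5) (nat_lit 2) (nat_lit 4) (nat_lit 303) (nat_lit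 233) (nat_lit 184)) (XT.nd (nat_lit 78) (nat_lit 0) (nat_lit 0) (XT.lf (nat_lit 0) (nat_lit 106191456842) (nat_lit 76) (nat_lit 51628880076) (nat_lit 76) (nat_lit 41782763291) (nat_lit 1) (nat_lit 4) (nat_lit 2) (nat_lit 5) (nat_lit 2) (nat_lit 4) (nat_lit 304) (nat_lit 233) (nat_lit 183)) (XT.lf (nat_lit 0) (nat_lit 120051222268) (nat_lit 76) (nat_lit 52568175834) (nat_lit 76) (nat_lit 42706169804) (nat_lit 1) (nat_lit 4) (nat_lit 2) (nat_lit 5) (nat_lit 2) (nat_lit 4) (nat_lit 305) (nat_lit 233) (nat_lit 182))))))) (XT.nd (nat_lit 936) (nat_lit 0) (nat_lit 0) (XT.nd (nat_lit 468) (nat_lit 0) (nat_lit 0) (XT.nd (nat_lit 234) (nat_lit 0) (nat_lit 0) (XT.nd (nat_lit 78) (nat_lit 0) (nat_lit 0) (XT.lf (nat_lit 0) (nat_lit 135004095425) (nat_lit 76) (nat_lit 53589586998) (nat_lit 76) (nat_lit 43712868703) (nat_lit 1) (nat_lit 4) (nat_lit 2) (nat_lit 5) (nat_lit 2) (nat_lit 4) (nat_lit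 306) (nat_lit 233) (nat_lit 181)) (XT.nd (nat_lit 78) (nat_lit 0) (nat_lit 0) (XT.lf (nat_lit 0) (nat_lit 151138685932) (nat_lit 76) (nat_lit 54699166373) (nat_lit 76) (nat_lit 44808825611) (nat_lit 1) (nat_lit 4) (nat_lit 2) (nat_lit 5) (nat_lit 2) (nat_lit 4) (nat_lit 307) (nat_lit 233) (nat_lit 180)) (XT.lf (nat_lit 0) (nat_lit 168550606175) (nat_lit 76) (nat_lit 55903489245) (nat_lit 76) (nat_lit 46000535088) (nat_lit 1) (nat_lit 4) (nat_lit 2) (nat_lit 5) (nat_lit 2) (nat_lit 4) (nat_lit 308) (nat_lit 233) (nat_lit 179)))) (XT.nd (nat_lit 78) (nat_lit 0) (nat_lit 0) (XT.lf (nat_lit 0) (nat_lit 187343037905) (nat_lit 76) (nat_lit 57209692341) (nat_lit 76) (nat_lit 47295059115) (nat_lit 1) (nat_lit 4) (nat_lit 2) (nat_lit 5) (nat_lit 2) (nat_lit 4) (nat_lit 309) (nat_lit 233) (nat_lit 178)) (XT.nd (nat_lit 78) (nat_lit 0) (nat_lit 0) (XT.lf (nat_lit 0) (nat_lit 207627343681) (nat_lit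 76) (nat_lit 58625516126) (nat_lit 76) (nat_lit 48700068946) (nat_lit 1) (nat_lit 4) (nat_lit 2) (nat_lit 5) (nat_lit 2) (nat_lit 4) (nat_lit 310) (nat_lit 233) (nat_lit 177)) (XT.lf (nat_lit 0) (nat_lit 229523726796) (nat_lit 76) (nat_lit 60159350665) (nat_lit 76) (nat_lit 50223890565) (nat_lit 1) (nat_lit 4) (nat_lit 2) (nat_lit 5) (nat_lit 2) (nat_lit 4) (nat_lit 311) (nat_lit 233) (nat_lit 176))))) (XT.nd (nat_lit 234) (nat_lit 0) (nat_lit 0) (XT.nd (nat_lit 78) (nat_lit 0) (nat_lit 0) (XT.lf (nat_lit 0) (nat_lit 253161943593) (nat_lit 76) (nat_lit 61820285349) (nat_lit 76) (nat_lit 51875554027) (nat_lit 1) (nat_lit 4) (nat_lit 2) (nat_lit 5) (nat_lit 2) (nat_lit 4) (nat_lit 312) (nat_lit 233) (nat_lit 175)) (XT.nd (nat_lit 78) (nat_lit 0) (nat_lit 0) (XT.lf (nat_lit 0) (nat_lit 278682072396) (nat_lit 76) (nat_lit 63618162753) (nat_lit 76) (nat_lit 53664846966) (nat_lit 1) (nat_lit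 4) (nat_lit 2) (nat_lit 5) (nat_lit 2) (nat_lit 4) (nat_lit 313) (nat_lit 233) (nat_lit 174)) (XT.lf (nat_lit 0) (nat_lit 306235343596) (nat_lit 76) (nat_lit 65563636966) (nat_lit 76) (nat_lit 55602372600) (nat_lit 1) (nat_lit 4) (nat_lit 2) (nat_lit 5) (nat_lit 2) (nat_lit 4) (nat_lit 314) (nat_lit 233) (nat_lit 173)))) (XT.nd (nat_lit 78) (nat_lit 0) (nat_lit 0) (XT.lf (nat_lit 0) (nat_lit 335985035838) (nat_lit 76) (nat_lit 67668236723) (nat_lit 76) (nat_lit 57699612563) (nat_lit 1) (nat_lit 4) (nat_lit 2) (nat_lit 5) (nat_lit 2) (nat_lit 4) (nat_lit 315) (nat_lit 233) (nat_lit 172)) (XT.nd (nat_lit 78) (nat_lit 0) (nat_lit 0) (XT.lf (nat_lit 0) (nat_lit 368107443595) (nat_lit 76) (nat_lit 69944433728) (nat_lit 76) (nat_lit 59968994943) (nat_lit 1) (nat_lit 4) (nat_lit 2) (nat_lit 5) (nat_lit 2) (nat_lit 4) (nat_lit 316) (nat_lit 233) (nat_lit 171)) (XT.lf (nat_lit 0) (nat_lit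 402792921875) (nat_lit 76) (nat_lit 72405716555) (nat_lit 76) (nat_lit 62423967931) (nat_lit 1) (nat_lit 4) (nat_lit 2) (nat_lit 5) (nat_lit 2) (nat_lit 4) (nat_lit 317) (nat_lit 233) (nat_lit 170)))))) (XT.nd (nat_lit 468) (nat_lit 0) (nat_lit 0) (XT.nd (nat_lit 234) (nat_lit 0) (nat_lit 0) (XT.nd (nat_lit 78) (nat_lit 0) (nat_lit 0) (XT.lf (nat_lit 0) (nat_lit 440247014254) (nat_lit 76) (nat_lit 75066670583) (nat_lit 76) (nat_lit 65079079517) (nat_lit 1) (nat_lit 4) (nat_lit 2) (nat_lit 5) (nat_lit 2) (nat_lit 4) (nat_lit 318) (nat_lit 233) (nat_lit 169)) (XT.nd (nat_lit 78) (nat_lit 0) (nat_lit 0) (XT.lf (nat_lit 0) (nat_lit 480691670908) (nat_lit 76) (nat_lit 77943064429) (nat_lit 76) (nat_lit 67950063694) (nat_lit 1) (nat_lit 4) (nat_lit 2) (nat_lit 5) (nat_lit 2) (nat_lit 4) (nat_lit 319) (nat_lit 233) (nat_lit 168)) (XT.lf (nat_lit 0) (nat_lit 524366563878) (nat_lit 76) (nat_lit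 81051943391) (nat_lit 76) (nat_lit 71053933703) (nat_lit 1) (nat_lit 4) (nat_lit 2) (nat_lit 5) (nat_lit 2) (nat_lit 4) (nat_lit 320) (nat_lit 233) (nat_lit 167)))) (XT.nd (nat_lit 78) (nat_lit 0) (nat_lit 0) (XT.lf (nat_lit 0) (nat_lit 571530507342) (nat_lit 76) (nat_lit 84411730453) (nat_lit 76) (nat_lit 74409082846) (nat_lit 1) (nat_lit 4) (nat_lit 2) (nat_lit 5) (nat_lit 2) (nat_lit 4) (nat_lit 321) (nat_lit 233) (nat_lit 166)) (XT.nd (nat_lit 78) (nat_lit 0) (nat_lit 0) (XT.lf (nat_lit 0) (nat_lit 622462991338) (nat_lit 76) (nat_lit 88042335467) (nat_lit 76) (nat_lit 78035393490) (nat_lit 1) (nat_lit 4) (nat_lit 2) (nat_lit 5) (nat_lit 2) (nat_lit 4) (nat_lit 322) (nat_lit 233) (nat_lit 165)) (XT.lf (nat_lit 0) (nat_lit 677465837992) (nat_lit 76) (nat_lit 91965273127) (nat_lit 76) (nat_lit 81954354882) (nat_lit 1) (nat_lit 4) (nat_lit 2) (nat_lit 5) (nat_lit 2) (nat_lit 4) (nat_lit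 323) (nat_lit 233) (nat_lit 164))))) (XT.nd (nat_lit 234) (nat_lit 0) (nat_lit 0) (XT.nd (nat_lit 78) (nat_lit 0) (nat_lit 0) (XT.lf (nat_lit 0) (nat_lit 736864990099) (nat_lit 76) (nat_lit 96203790473) (nat_lit 76) (nat_lit 86189190498) (nat_lit 1) (nat_lit 4) (nat_lit 2) (nat_lit 5) (nat_lit 2) (nat_lit 4) (nat_lit 324) (nat_lit 233) (nat_lit 163)) (XT.nd (nat_lit 78) (nat_lit 0) (nat_lit 0) (XT.lf (nat_lit 0) (nat_lit 801012442634) (nat_lit 76) (nat_lit 100783004643) (nat_lit 76) (nat_lit 90764995659) (nat_lit 1) (nat_lit 4) (nat_lit 2) (nat_lit 5) (nat_lit 2) (nat_lit 4) (nat_lit 325) (nat_lit 233) (nat_lit 162)) (XT.lf (nat_lit 0) (nat_lit 870288328651) (nat_lit 76) (nat_lit 105730051722) (nat_lit 76) (nat_lit 95708886248) (nat_lit 1) (nat_lit 4) (nat_lit 2) (nat_lit 5) (nat_lit 2) (nat_lit 4) (nat_lit 326) (nat_lit 233) (nat_lit 161)))) (XT.nd (nat_lit 78) (nat_lit 0) (nat_lit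 0) (XT.lf (nat_lit 0) (nat_lit 945103171917) (nat_lit 76) (nat_lit 111074247544) (nat_lit 76) (nat_lit 101050159395) (nat_lit 1) (nat_lit 4) (nat_lit 2) (nat_lit 5) (nat_lit 2) (nat_lit 4) (nat_lit 327) (nat_lit 233) (nat_lit 160)) (XT.nd (nat_lit 78) (nat_lit 0) (nat_lit 0) (XT.lf (nat_lit 0) (nat_lit 1025900319652) (nat_lit 76) (nat_lit 116847261419) (nat_lit 76) (nat_lit 106820467088) (nat_lit 1) (nat_lit 4) (nat_lit 2) (nat_lit 5) (nat_lit 2) (nat_lit 4) (nat_lit 328) (nat_lit 233) (nat_lit 159)) (XT.lf (nat_lit 0) (nat_lit 1113158569769) (nat_lit 76) (nat_lit 123083303798) (nat_lit 76) (nat_lit 113054003743) (nat_lit 1) (nat_lit 4) (nat_lit 2) (nat_lit 5) (nat_lit 2) (nat_lit 4) (nat_lit 329) (nat_lit 233) (nat_lit 158))))))))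
noncomputable def xc38 : XT := (XT.nd (nat_lit 32682) (nat_lit 0) (nat_lit 76) (XT.nd (nat_lit 31746) (nat_lit 0) (nat_lit 532) (XT.nd (nat_lit 390) (nat_lit 0) (nat_lit 0) (XT.nd (nat_lit 156) (nat_lit 0) (nat_lit 0) (XT.nd (nat_lit 78) (nat_lit 0) (nat_lit 0) (XT.lf (nat_lit 0) (nat_lit 1207395008194) (nat_lit 76) (nat_lit 129819329006) (nat_lit 76) (nat_lit 119787708838) (nat_lit 1) (nat_lit 4) (nat_lit 2) (nat_lit 5) (nat_lit 2) (nat_lit 4) (nat_lit 330) (nat_lit 233) (nat_lit 157)) (XT.lf (nat_lit 0) (nat_lit 1309168073080) (nat_lit 76) (nat_lit 137095254231) (nat_lit 76) (nat_lit 127061485809) (nat_lit 1) (nat_lit 4) (nat_lit 2) (nat_lit 5) (nat_lit 2) (nat_lit 4) (nat_lit 331) (nat_lit 233) (nat_lit 156))) (XT.nd (nat_lit 78) (nat_lit 0) (nat_lit 0) (XT.lf (nat_lit 0) (nat_lit 1419080864073) (nat_lit 76) (nat_lit 144954196066) (nat_lit 76) (nat_lit 134918438519) (nat_lit 1)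 (nat_lit 4) (nat_lit 2) (nat_lit 5) (nat_lit 2) (nat_lit 4) (nat_lit 332) (nat_lit 233) (nat_lit 155)) (XT.nd (nat_lit 78) (nat_lit 0) (nat_lit 0) (XT.lf (nat_lit 0) (nat_lit 1537784716228) (nat_lit 76) (nat_lit 153442726018) (nat_lit 76) (nat_lit 143405126690) (nat_lit 1) (nat_lit 4) (nat_lit 2) (nat_lit 5) (nat_lit 2) (nat_lit 4) (nat_lit 333) (nat_lit 233) (nat_lit 154)) (XT.lf (nat_lit 0) (nat_lit 1665983059782) (nat_lit 76) (nat_lit 162611146488) (nat_lit 76) (nat_lit 152571841806) (nat_lit 1) (nat_lit 4) (nat_lit 2) (nat_lit 5) (nat_lit 2) (nat_lit 4) (nat_lit 334) (nat_lit 233) (nat_lit 153))))) (XT.nd (nat_lit 31122) (nat_lit 0) (nat_lit 1596) (XT.nd (nat_lit 78) (nat_lit 0) (nat_lit 0) (XT.lf (nat_lit 0) (nat_lit 1804435588622) (nat_lit 76) (nat_lit 172513788854) (nat_lit 76) (nat_lit 162472905142) (nat_lit 1) (nat_lit 4) (nat_lit 2) (nat_lit 5) (nat_lit 2) (nat_lit 4) (nat_lit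 335) (nat_lit 233) (nat_lit 152)) (XT.nd (nat_lit 30966) (nat_lit 0) (nat_lit 2052) (XT.lf (nat_lit 0) (nat_lit 1953962762178) (nat_lit 76) (nat_lit 183209335443) (nat_lit 76) (nat_lit 173166989665) (nat_lit 1) (nat_lit 4) (nat_lit 2) (nat_lit 5) (nat_lit 2) (nat_lit 4) (nat_lit 336) (nat_lit 233) (nat_lit 151)) (XT.lf (nat_lit 0) (nat_lit 986180575) (nat_lit 532) (nat_lit 1858206155) (nat_lit 0) (nat_lit 986180575) (nat_lit 28) (nat_lit 5) (nat_lit 35) (nat_lit 4) (nat_lit 28) (nat_lit 4) (nat_lit 252) (nat_lit 234) (nat_lit 234)))) (XT.nd (nat_lit 78) (nat_lit 228) (nat_lit 0) (XT.lf (nat_lit 0) (nat_lit 974981598) (nat_lit 228) (nat_lit 4097159934) (nat_lit 228) (nat_lit 2819964568) (nat_lit 25) (nat_lit 4) (nat_lit 28) (nat_lit 5) (nat_lit 28) (nat_lit 4) (nat_lit 253) (nat_lit 234) (nat_lit 233)) (XT.nd (nat_lit 78) (nat_lit 152) (nat_lit 0) (XT.lf (nat_lit 0) (nat_lit 145745125)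 (nat_lit 304) (nat_lit 2156633809) (nat_lit 76) (nat_lit 5849769961) (nat_lit 24) (nat_lit 5) (nat_lit 28) (nat_lit 5) (nat_lit 25) (nat_lit 4) (nat_lit 254) (nat_lit 234) (nat_lit 232)) (XT.lf (nat_lit 0) (nat_lit 2804602866) (nat_lit 152) (nat_lit 252789299) (nat_lit 228) (nat_lit 5382374383) (nat_lit 22) (nat_lit 5) (nat_lit 24) (nat_lit 5) (nat_lit 25) (nat_lit 4) (nat_lit 255) (nat_lit 234) (nat_lit 231)))))) (XT.nd (nat_lit 468) (nat_lit 380) (nat_lit 0) (XT.nd (nat_lit 234) (nat_lit 228) (nat_lit 0) (XT.nd (nat_lit 78) (nat_lit 456) (nat_lit 0) (XT.lf (nat_lit 0) (nat_lit 6111645924) (nat_lit 228) (nat_lit 765962357) (nat_lit 0) (nat_lit 1881412869) (nat_lit 22) (nat_lit 5) (nat_lit 25) (nat_lit 4) (nat_lit 22) (nat_lit 4) (nat_lit 256) (nat_lit 234) (nat_lit 230)) (XT.nd (nat_lit 78) (nat_lit 152) (nat_lit 0) (XT.lf (nat_lit 0) (nat_lit 218867787) (nat_lit 304) (nat_lit 4644225762)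 (nat_lit 76) (nat_lit 4247112800) (nat_lit 18) (nat_lit 5) (nat_lit 22) (nat_lit 5) (nat_lit 19) (nat_lit 4) (nat_lit 257) (nat_lit 234) (nat_lit 229)) (XT.lf (nat_lit 0) (nat_lit 379327319) (nat_lit 152) (nat_lit 2641657203) (nat_lit 228) (nat_lit 6476145279) (nat_lit 16) (nat_lit 5) (nat_lit 18) (nat_lit 5) (nat_lit 19) (nat_lit 4) (nat_lit 258) (nat_lit 234) (nat_lit 228)))) (XT.nd (nat_lit 78) (nat_lit 228) (nat_lit 0) (XT.lf (nat_lit 0) (nat_lit 5832456708) (nat_lit 152) (nat_lit 168508881) (nat_lit 228) (nat_lit 3918776110) (nat_lit 16) (nat_lit 5) (nat_lit 18) (nat_lit 5) (nat_lit 19) (nat_lit 4) (nat_lit 259) (nat_lit 234) (nat_lit 227)) (XT.nd (nat_lit 78) (nat_lit 76) (nat_lit 0) (XT.lf (nat_lit 0) (nat_lit 1109700970) (nat_lit 152) (nat_lit 8034661041) (nat_lit 152) (nat_lit 1238753046) (nat_lit 14) (nat_lit 4) (nat_lit 16) (nat_lit 5) (nat_lit 16) (nat_lit 4) (nat_lit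 260) (nat_lit 234) (nat_lit 226)) (XT.lf (nat_lit 0) (nat_lit 1531720099) (nat_lit 228) (nat_lit 4201518765) (nat_lit 76) (nat_lit 5151241954) (nat_lit 13) (nat_lit 5) (nat_lit 16) (nat_lit 5) (nat_lit 14) (nat_lit 4) (nat_lit 261) (nat_lit 234) (nat_lit 225))))) (XT.nd (nat_lit 234) (nat_lit 152) (nat_lit 0) (XT.nd (nat_lit 78) (nat_lit 152) (nat_lit 0) (XT.lf (nat_lit 0) (nat_lit 1080703184) (nat_lit 76) (nat_lit 3253896313) (nat_lit 152) (nat_lit 7099324053) (nat_lit 12) (nat_lit 5) (nat_lit 13) (nat_lit 5) (nat_lit 14) (nat_lit 4) (nat_lit 262) (nat_lit 234) (nat_lit 224)) (XT.nd (nat_lit 78) (nat_lit 152) (nat_lit 0) (XT.lf (nat_lit 0) (nat_lit 6812637779) (nat_lit 76) (nat_lit 521541741) (nat_lit 152) (nat_lit 4696045676) (nat_lit 12) (nat_lit 5) (nat_lit 13) (nat_lit 5) (nat_lit 14) (nat_lit 4) (nat_lit 263) (nat_lit 234) (nat_lit 223)) (XT.lf (nat_lit 0) (nat_lit 68103873)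 (nat_lit 152) (nat_lit 10432283584) (nat_lit 152) (nat_lit 2180359777) (nat_lit 10) (nat_lit 4) (nat_lit 12) (nat_lit 5) (nat_lit 12) (nat_lit 4) (nat_lit 264) (nat_lit 234) (nat_lit 222)))) (XT.nd (nat_lit 78) (nat_lit 76) (nat_lit 0) (XT.lf (nat_lit 0) (nat_lit 537399063) (nat_lit 228) (nat_lit 7536758999) (nat_lit 76) (nat_lit 5306464354) (nat_lit 9) (nat_lit 5) (nat_lit 12) (nat_lit 5) (nat_lit 10) (nat_lit 4) (nat_lit 265) (nat_lit 234) (nat_lit 221)) (XT.nd (nat_lit 78) (nat_lit 76) (nat_lit 0) (XT.lf (nat_lit 0) (nat_lit 3232328843) (nat_lit 228) (nat_lit 2304106210) (nat_lit 76) (nat_lit 8605833580) (nat_lit 9) (nat_lit 5) (nat_lit 12) (nat_lit 5) (nat_lit 10) (nat_lit 4) (nat_lit 266) (nat_lit 234) (nat_lit 220)) (XT.lf (nat_lit 0) (nat_lit 3335622361) (nat_lit 76) (nat_lit 2774069377) (nat_lit 152) (nat_lit 8858284877) (nat_lit 8) (nat_lit 5) (nat_lit 9) (nat_lit 5) (nat_lit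 10) (nat_lit 4) (nat_lit 267) (nat_lit 234) (nat_lit 219))))))) (XT.nd (nat_lit 936) (nat_lit 152) (nat_lit 0) (XT.nd (nat_lit 468) (nat_lit 76) (nat_lit 0) (XT.nd (nat_lit 234) (nat_lit 152) (nat_lit 0) (XT.nd (nat_lit 78) (nat_lit 76) (nat_lit 0) (XT.lf (nat_lit 0) (nat_lit 9176189086) (nat_lit 152) (nat_lit 6485305324) (nat_lit 0) (nat_lit 201973015) (nat_lit 8) (nat_lit 5) (nat_lit 10) (nat_lit 4) (nat_lit 8) (nat_lit 4) (nat_lit 268) (nat_lit 234) (nat_lit 218)) (XT.nd (nat_lit 78) (nat_lit 76) (nat_lit 0) (XT.lf (nat_lit 0) (nat_lit 12457539072) (nat_lit 152) (nat_lit 1166601869) (nat_lit 0) (nat_lit 3209303023) (nat_lit 8) (nat_lit 5) (nat_lit 10) (nat_lit 4) (nat_lit 8) (nat_lit 4) (nat_lit 269) (nat_lit 234) (nat_lit 217)) (XT.lf (nat_lit 0) (nat_lit 4654844984) (nat_lit 76) (nat_lit 11363574446) (nat_lit 76) (nat_lit 1861616198) (nat_lit 7) (nat_lit 4) (nat_lit 8) (nat_lit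 5) (nat_lit 8) (nat_lit 4) (nat_lit 270) (nat_lit 234) (nat_lit 216)))) (XT.nd (nat_lit 78) (nat_lit 76) (nat_lit 0) (XT.lf (nat_lit 0) (nat_lit 749576055) (nat_lit 152) (nat_lit 8177768016) (nat_lit 76) (nat_lit 10086614820) (nat_lit 6) (nat_lit 5) (nat_lit 8) (nat_lit 5) (nat_lit 7) (nat_lit 4) (nat_lit 271) (nat_lit 234) (nat_lit 215)) (XT.nd (nat_lit 78) (nat_lit 76) (nat_lit 0) (XT.lf (nat_lit 0) (nat_lit 3381816135) (nat_lit 152) (nat_lit 2920234541) (nat_lit 76) (nat_lit 13939959496) (nat_lit 6) (nat_lit 5) (nat_lit 8) (nat_lit 5) (nat_lit 7) (nat_lit 4) (nat_lit 272) (nat_lit 234) (nat_lit 214)) (XT.lf (nat_lit 0) (nat_lit 2761477750) (nat_lit 76) (nat_lit 3448763940) (nat_lit 152) (nat_lit 15359493788) (nat_lit 5) (nat_lit 5) (nat_lit 6) (nat_lit 5) (nat_lit 7) (nat_lit 4) (nat_lit 273) (nat_lit 234) (nat_lit 213))))) (XT.nd (nat_lit 234) (nat_lit 76) (nat_lit 0) (XT.nd (nat_lit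 78) (nat_lit 0) (nat_lit 0) (XT.lf (nat_lit 0) (nat_lit 8932645876) (nat_lit 76) (nat_lit 334163851) (nat_lit 152) (nat_lit 13736977403) (nat_lit 5) (nat_lit 5) (nat_lit 6) (nat_lit 5) (nat_lit 7) (nat_lit 4) (nat_lit 274) (nat_lit 234) (nat_lit 212)) (XT.nd (nat_lit 78) (nat_lit 0) (nat_lit 0) (XT.lf (nat_lit 0) (nat_lit 12567381035) (nat_lit 152) (nat_lit 9154190048) (nat_lit 0) (nat_lit 2831272308) (nat_lit 5) (nat_lit 5) (nat_lit 7) (nat_lit 4) (nat_lit 5) (nat_lit 4) (nat_lit 275) (nat_lit 234) (nat_lit 211)) (XT.lf (nat_lit 0) (nat_lit 16072729268) (nat_lit 152) (nat_lit 3969481335) (nat_lit 0) (nat_lit 6188576074) (nat_lit 5) (nat_lit 5) (nat_lit 7) (nat_lit 4) (nat_lit 5) (nat_lit 4) (nat_lit 276) (nat_lit 234) (nat_lit 210)))) (XT.nd (nat_lit 78) (nat_lit 0) (nat_lit 0) (XT.lf (nat_lit 0) (nat_lit 1601878167) (nat_lit 76) (nat_lit 18232237253) (nat_lit 76) (nat_lit 8211005849)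 (nat_lit 4) (nat_lit 4) (nat_lit 5) (nat_lit 5) (nat_lit 5) (nat_lit 4) (nat_lit 277) (nat_lit 234) (nat_lit 209)) (XT.nd (nat_lit 78) (nat_lit 0) (nat_lit 0) (XT.lf (nat_lit 0) (nat_lit 7739176726) (nat_lit 76) (nat_lit 16204975925) (nat_lit 76) (nat_lit 6056820252) (nat_lit 4) (nat_lit 4) (nat_lit 5) (nat_lit 5) (nat_lit 5) (nat_lit 4) (nat_lit 278) (nat_lit 234) (nat_lit 208)) (XT.lf (nat_lit 0) (nat_lit 14269757666) (nat_lit 76) (nat_lit 14056945872) (nat_lit 76) (nat_lit 3791267729) (nat_lit 4) (nat_lit 4) (nat_lit 5) (nat_lit 5) (nat_lit 5) (nat_lit 4) (nat_lit 279) (nat_lit 234) (nat_lit 207)))))) (XT.nd (nat_lit 468) (nat_lit 0) (nat_lit 0) (XT.nd (nat_lit 234) (nat_lit 76) (nat_lit 0) (XT.nd (nat_lit 78) (nat_lit 76) (nat_lit 0) (XT.lf (nat_lit 0) (nat_lit 21232320725) (nat_lit 76) (nat_lit 11775418029) (nat_lit 76) (nat_lit 1400922782) (nat_lit 4) (nat_lit 4) (nat_lit 5)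 (nat_lit 5) (nat_lit 5) (nat_lit 4) (nat_lit 280) (nat_lit 234) (nat_lit 206)) (XT.nd (nat_lit 78) (nat_lit 0) (nat_lit 0) (XT.lf (nat_lit 0) (nat_lit 1071933476) (nat_lit 152) (nat_lit 8245630191) (nat_lit 76) (nat_lit 27566883499) (nat_lit 3) (nat_lit 5) (nat_lit 5) (nat_lit 5) (nat_lit 4) (nat_lit 4) (nat_lit 281) (nat_lit 234) (nat_lit 205)) (XT.lf (nat_lit 0) (nat_lit 3620954796) (nat_lit 152) (nat_lit 3036958973) (nat_lit 76) (nat_lit 32901278012) (nat_lit 3) (nat_lit 5) (nat_lit 5) (nat_lit 5) (nat_lit 4) (nat_lit 4) (nat_lit 282) (nat_lit 234) (nat_lit 204)))) (XT.nd (nat_lit 78) (nat_lit 0) (nat_lit 0) (XT.lf (nat_lit 0) (nat_lit 2646626233) (nat_lit 76) (nat_lit 3748351510) (nat_lit 152) (nat_lit 36051371238) (nat_lit 2) (nat_lit 5) (nat_lit 3) (nat_lit 5) (nat_lit 4) (nat_lit 4) (nat_lit 283) (nat_lit 234) (nat_lit 203)) (XT.nd (nat_lit 78) (nat_lit 0) (nat_lit 0) (XT.lf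 (nat_lit 0) (nat_lit 8885315971) (nat_lit 76) (nat_lit 547485597) (nat_lit 152) (nat_lit 36128437431) (nat_lit 2) (nat_lit 5) (nat_lit 3) (nat_lit 5) (nat_lit 4) (nat_lit 4) (nat_lit 284) (nat_lit 234) (nat_lit 202)) (XT.lf (nat_lit 0) (nat_lit 12744822044) (nat_lit 152) (nat_lit 33441590759) (nat_lit 0) (nat_lit 2736516132) (nat_lit 2) (nat_lit 5) (nat_lit 4) (nat_lit 4) (nat_lit 2) (nat_lit 4) (nat_lit 285) (nat_lit 234) (nat_lit 201))))) (XT.nd (nat_lit 234) (nat_lit 0) (nat_lit 0) (XT.nd (nat_lit 78) (nat_lit 0) (nat_lit 0) (XT.lf (nat_lit 0) (nat_lit 16300097164) (nat_lit 152) (nat_lit 30026990735) (nat_lit 0) (nat_lit 6228297517) (nat_lit 2) (nat_lit 5) (nat_lit 4) (nat_lit 4) (nat_lit 2) (nat_lit 4) (nat_lit 286) (nat_lit 234) (nat_lit 200)) (XT.nd (nat_lit 78) (nat_lit 0) (nat_lit 0) (XT.lf (nat_lit 0) (nat_lit 20106528184) (nat_lit 152) (nat_lit 26398721249) (nat_lit 0) (nat_lit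 9975938043) (nat_lit 2) (nat_lit 5) (nat_lit 4) (nat_lit 4) (nat_lit 2) (nat_lit 4) (nat_lit 287) (nat_lit 234) (nat_lit 199)) (XT.lf (nat_lit 0) (nat_lit 24186671734) (nat_lit 152) (nat_lit 22535281443) (nat_lit 0) (nat_lit 14001645949) (nat_lit 2) (nat_lit 5) (nat_lit 4) (nat_lit 4) (nat_lit 2) (nat_lit 4) (nat_lit 288) (nat_lit 234) (nat_lit 198)))) (XT.nd (nat_lit 78) (nat_lit 0) (nat_lit 0) (XT.lf (nat_lit 0) (nat_lit 28564706440) (nat_lit 152) (nat_lit 18413776859) (nat_lit 0) (nat_lit 18329277282) (nat_lit 2) (nat_lit 5) (nat_lit 4) (nat_lit 4) (nat_lit 2) (nat_lit 4) (nat_lit 289) (nat_lit 234) (nat_lit 197)) (XT.nd (nat_lit 78) (nat_lit 0) (nat_lit 0) (XT.lf (nat_lit 0) (nat_lit 33266576213) (nat_lit 152) (nat_lit 14009783768) (nat_lit 0) (nat_lit 22984477265) (nat_lit 2) (nat_lit 5) (nat_lit 4) (nat_lit 4) (nat_lit 2) (nat_lit 4) (nat_lit 290) (nat_lit 234) (nat_lit 196))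 (XT.lf (nat_lit 0) (nat_lit 38320143985) (nat_lit 152) (nat_lit 9297204431) (nat_lit 0) (nat_lit 27994832268) (nat_lit 2) (nat_lit 5) (nat_lit 4) (nat_lit 4) (nat_lit 2) (nat_lit 4) (nat_lit 291) (nat_lit 234) (nat_lit 195))))))))
noncomputable def xc39 : XT := (XT.nd (nat_lit 1872) (nat_lit 0) (nat_lit 0) (XT.nd (nat_lit 936) (nat_lit 0) (nat_lit 0) (XT.nd (nat_lit 468) (nat_lit 0) (nat_lit 0) (XT.nd (nat_lit 234) (nat_lit 0) (nat_lit 0) (XT.nd (nat_lit 78) (nat_lit 76) (nat_lit 0) (XT.lf (nat_lit 0) (nat_lit 43755356824) (nat_lit 152) (nat_lit 4248112453) (nat_lit 0) (nat_lit 33390033284) (nat_lit 2) (nat_lit 5) (nat_lit 4) (nat_lit 4) (nat_lit 2) (nat_lit 4) (nat_lit 292) (nat_lit 234) (nat_lit 194)) (XT.nd (nat_lit 78) (nat_lit 0) (nat_lit 0) (XT.lf (nat_lit 0) (nat_lit 1228886594) (nat_lit 76) (nat_lit 48405091556) (nat_lit 76) (nat_lit 38002720032) (nat_lit 1) (nat_lit 4) (nat_lit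 2) (nat_lit 5) (nat_lit 2) (nat_lit 4) (nat_lit 293) (nat_lit 234) (nat_lit 193)) (XT.lf (nat_lit 0) (nat_lit 7349094533) (nat_lit 76) (nat_lit 48729656210) (nat_lit 76) (nat_lit 38292980997) (nat_lit 1) (nat_lit 4) (nat_lit 2) (nat_lit 5) (nat_lit 2) (nat_lit 4) (nat_lit 294) (nat_lit 234) (nat_lit 192)))) (XT.nd (nat_lit 78) (nat_lit 0) (nat_lit 0) (XT.lf (nat_lit 0) (nat_lit 13925081189) (nat_lit 76) (nat_lit 49095237508) (nat_lit 76) (nat_lit 38626799621) (nat_lit 1) (nat_lit 4) (nat_lit 2) (nat_lit 5) (nat_lit 2) (nat_lit 4) (nat_lit 295) (nat_lit 234) (nat_lit 191)) (XT.nd (nat_lit 78) (nat_lit 0) (nat_lit 0) (XT.lf (nat_lit 0) (nat_lit 20995815370) (nat_lit 76) (nat_lit 49504001860) (nat_lit 76) (nat_lit 39006154088) (nat_lit 1) (nat_lit 4) (nat_lit 2) (nat_lit 5) (nat_lit 2) (nat_lit 4) (nat_lit 296) (nat_lit 234) (nat_lit 190)) (XT.lf (nat_lit 0) (nat_lit 28603197724) (nat_lit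 76) (nat_lit 49958371571) (nat_lit 76) (nat_lit 39433292425) (nat_lit 1) (nat_lit 4) (nat_lit 2) (nat_lit 5) (nat_lit 2) (nat_lit 4) (nat_lit 297) (nat_lit 234) (nat_lit 189))))) (XT.nd (nat_lit 234) (nat_lit 0) (nat_lit 0) (XT.nd (nat_lit 78) (nat_lit 0) (nat_lit 0) (XT.lf (nat_lit 0) (nat_lit 36792309036) (nat_lit 76) (nat_lit 50461039204) (nat_lit 76) (nat_lit 39910745822) (nat_lit 1) (nat_lit 4) (nat_lit 2) (nat_lit 5) (nat_lit 2) (nat_lit 4) (nat_lit 298) (nat_lit 234) (nat_lit 188)) (XT.nd (nat_lit 78) (nat_lit 0) (nat_lit 0) (XT.lf (nat_lit 0) (nat_lit 45611677371) (nat_lit 76) (nat_lit 51014983529) (nat_lit 76) (nat_lit 40441343632) (nat_lit 1) (nat_lit 4) (nat_lit 2) (nat_lit 5) (nat_lit 2) (nat_lit 4) (nat_lit 299) (nat_lit 234) (nat_lit 187)) (XT.lf (nat_lit 0) (nat_lit 55113565655) (nat_lit 76) (nat_lit 51623487179) (nat_lit 76) (nat_lit 41028230139) (nat_lit 1) (nat_lit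 4) (nat_lit 2) (nat_lit 5) (nat_lit 2) (nat_lit 4) (nat_lit 300) (nat_lit 234) (nat_lit 186)))) (XT.nd (nat_lit 78) (nat_lit 0) (nat_lit 0) (XT.lf (nat_lit 0) (nat_lit 65354281373) (nat_lit 76) (nat_lit 52290156102) (nat_lit 76) (nat_lit 41674883189) (nat_lit 1) (nat_lit 4) (nat_lit 2) (nat_lit 5) (nat_lit 2) (nat_lit 4) (nat_lit 301) (nat_lit 234) (nat_lit 185)) (XT.nd (nat_lit 78) (nat_lit 0) (nat_lit 0) (XT.lf (nat_lit 0) (nat_lit 76394510247) (nat_lit 76) (nat_lit 53018940928) (nat_lit 76) (nat_lit 42385134800) (nat_lit 1) (nat_lit 4) (nat_lit 2) (nat_lit 5) (nat_lit 2) (nat_lit 4) (nat_lit 302) (nat_lit 234) (nat_lit 184)) (XT.lf (nat_lit 0) (nat_lit 88299675856) (nat_lit 76) (nat_lit 53814160383) (nat_lit 76) (nat_lit 43163193870) (nat_lit 1) (nat_lit 4) (nat_lit 2) (nat_lit 5) (nat_lit 2) (nat_lit 4) (nat_lit 303) (nat_lit 234) (nat_lit 183)))))) (XT.nd (nat_lit 468) (nat_lit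 0) (nat_lit 0) (XT.nd (nat_lit 234) (nat_lit 0) (nat_lit 0) (XT.nd (nat_lit 78) (nat_lit 0) (nat_lit 0) (XT.lf (nat_lit 0) (nat_lit 101140327330) (nat_lit 76) (nat_lit 54680526878) (nat_lit 76) (nat_lit 44013671119) (nat_lit 1) (nat_lit 4) (nat_lit 2) (nat_lit 5) (nat_lit 2) (nat_lit 4) (nat_lit 304) (nat_lit 234) (nat_lit 182)) (XT.nd (nat_lit 78) (nat_lit 0) (nat_lit 0) (XT.lf (nat_lit 0) (nat_lit 114992557418) (nat_lit 76) (nat_lit 55623174436) (nat_lit 76) (nat_lit 44941606414) (nat_lit 1) (nat_lit 4) (nat_lit 2) (nat_lit 5) (nat_lit 2) (nat_lit 4) (nat_lit 305) (nat_lit 234) (nat_lit 181)) (XT.lf (nat_lit 0) (nat_lit 129938453410) (nat_lit 76) (nat_lit 56647689118) (nat_lit 76) (nat_lit 45952498629) (nat_lit 1) (nat_lit 4) (nat_lit 2) (nat_lit 5) (nat_lit 2) (nat_lit 4) (nat_lit 306) (nat_lit 234) (nat_lit 180)))) (XT.nd (nat_lit 78) (nat_lit 0) (nat_lit 0) (XT.lf (nat_lit 0)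 (nat_lit 146066583579) (nat_lit 76) (nat_lit 57760142121) (nat_lit 76) (nat_lit 47052338237) (nat_lit 1) (nat_lit 4) (nat_lit 2) (nat_lit 5) (nat_lit 2) (nat_lit 4) (nat_lit 307) (nat_lit 234) (nat_lit 179)) (XT.nd (nat_lit 78) (nat_lit 0) (nat_lit 0) (XT.lf (nat_lit 0) (nat_lit 163472522027) (nat_lit 76) (nat_lit 58967125760) (nat_lit 76) (nat_lit 48247642806) (nat_lit 1) (nat_lit 4) (nat_lit 2) (nat_lit 5) (nat_lit 2) (nat_lit 4) (nat_lit 308) (nat_lit 234) (nat_lit 178)) (XT.lf (nat_lit 0) (nat_lit 182259415059) (nat_lit 76) (nat_lit 60275792530) (nat_lit 76) (nat_lit 49545495622) (nat_lit 1) (nat_lit 4) (nat_lit 2) (nat_lit 5) (nat_lit 2) (nat_lit 4) (nat_lit 309) (nat_lit 234) (nat_lit 177))))) (XT.nd (nat_lit 234) (nat_lit 0) (nat_lit 0) (XT.nd (nat_lit 78) (nat_lit 0) (nat_lit 0) (XT.lf (nat_lit 0) (nat_lit 202538592410) (nat_lit 76) (nat_lit 61693897493) (nat_lit 76) (nat_lit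 50953587666) (nat_lit 1) (nat_lit 4) (nat_lit 2) (nat_lit 5) (nat_lit 2) (nat_lit 4) (nat_lit 310) (nat_lit 234) (nat_lit 176)) (XT.nd (nat_lit 78) (nat_lit 0) (nat_lit 0) (XT.lf (nat_lit 0) (nat_lit 224430226983) (nat_lit 76) (nat_lit 63229844235) (nat_lit 76) (nat_lit 52480263185) (nat_lit 1) (nat_lit 4) (nat_lit 2) (nat_lit 5) (nat_lit 2) (nat_lit 4) (nat_lit 311) (nat_lit 234) (nat_lit 175)) (XT.lf (nat_lit 0) (nat_lit 248064046983) (nat_lit 76) (nat_lit 64892734662) (nat_lit 76) (nat_lit 54134569147) (nat_lit 1) (nat_lit 4) (nat_lit 2) (nat_lit 5) (nat_lit 2) (nat_lit 4) (nat_lit 312) (nat_lit 234) (nat_lit 174)))) (XT.nd (nat_lit 78) (nat_lit 0) (nat_lit 0) (XT.lf (nat_lit 0) (nat_lit 273580104677) (nat_lit 76) (nat_lit 66692422939) (nat_lit 76) (nat_lit 55926308846) (nat_lit 1) (nat_lit 4) (nat_lit 2) (nat_lit 5) (nat_lit 2) (nat_lit 4) (nat_lit 313) (nat_lit 234) (nat_lit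 173)) (XT.nd (nat_lit 78) (nat_lit 0) (nat_lit 0) (XT.lf (nat_lit 0) (nat_lit 301129606332) (nat_lit 76) (nat_lit 68639573887) (nat_lit 76) (nat_lit 57866099999) (nat_lit 1) (nat_lit 4) (nat_lit 2) (nat_lit 5) (nat_lit 2) (nat_lit 4) (nat_lit 314) (nat_lit 234) (nat_lit 172)) (XT.lf (nat_lit 0) (nat_lit 330875808255) (nat_lit 76) (nat_lit 70745726176) (nat_lit 76) (nat_lit 59965437663) (nat_lit 1) (nat_lit 4) (nat_lit 2) (nat_lit 5) (nat_lit 2) (nat_lit 4) (nat_lit 315) (nat_lit 234) (nat_lit 171))))))) (XT.nd (nat_lit 936) (nat_lit 0) (nat_lit 0) (XT.nd (nat_lit 468) (nat_lit 0) (nat_lit 0) (XT.nd (nat_lit 234) (nat_lit 0) (nat_lit 0) (XT.nd (nat_lit 78) (nat_lit 0) (nat_lit 0) (XT.lf (nat_lit 0) (nat_lit 362994984234) (nat_lit 76) (nat_lit 73023360711) (nat_lit 76) (nat_lit 62236762360) (nat_lit 1) (nat_lit 4) (nat_lit 2) (nat_lit 5) (nat_lit 2) (nat_lit 4) (nat_lit 316) (nat_lit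 234) (nat_lit 170)) (XT.nd (nat_lit 78) (nat_lit 0) (nat_lit 0) (XT.lf (nat_lit 0) (nat_lit 397677470128) (nat_lit 76) (nat_lit 75485974583) (nat_lit 76) (nat_lit 64693533790) (nat_lit 1) (nat_lit 4) (nat_lit 2) (nat_lit 5) (nat_lit 2) (nat_lit 4) (nat_lit 317) (nat_lit 234) (nat_lit 169)) (XT.lf (nat_lit 0) (nat_lit 435128791779) (nat_lit 76) (nat_lit 78148161061) (nat_lit 76) (nat_lit 67350310599) (nat_lit 1) (nat_lit 4) (nat_lit 2) (nat_lit 5) (nat_lit 2) (nat_lit 4) (nat_lit 318) (nat_lit 234) (nat_lit 168)))) (XT.nd (nat_lit 78) (nat_lit 0) (nat_lit 0) (XT.lf (nat_lit 0) (nat_lit 475570882944) (nat_lit 76) (nat_lit 81025696065) (nat_lit 76) (nat_lit 70222836650) (nat_lit 1) (nat_lit 4) (nat_lit 2) (nat_lit 5) (nat_lit 2) (nat_lit 4) (nat_lit 319) (nat_lit 234) (nat_lit 167)) (XT.nd (nat_lit 78) (nat_lit 0) (nat_lit 0) (XT.lf (nat_lit 0) (nat_lit 519243400460) (nat_lit 76) (nat_lit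 84135631654) (nat_lit 76) (nat_lit 73328134319) (nat_lit 1) (nat_lit 4) (nat_lit 2) (nat_lit 5) (nat_lit 2) (nat_lit 4) (nat_lit 320) (nat_lit 234) (nat_lit 166)) (XT.lf (nat_lit 0) (nat_lit 566405144431) (nat_lit 76) (nat_lit 87496397075) (nat_lit 76) (nat_lit 76684605370) (nat_lit 1) (nat_lit 4) (nat_lit 2) (nat_lit 5) (nat_lit 2) (nat_lit 4) (nat_lit 321) (nat_lit 234) (nat_lit 165))))) (XT.nd (nat_lit 234) (nat_lit 0) (nat_lit 0) (XT.nd (nat_lit 78) (nat_lit 0) (nat_lit 0) (XT.lf (nat_lit 0) (nat_lit 617335591859) (nat_lit 76) (nat_lit 91127907976) (nat_lit 76) (nat_lit 80312140003) (nat_lit 1) (nat_lit 4) (nat_lit 2) (nat_lit 5) (nat_lit 2) (nat_lit 4) (nat_lit 322) (nat_lit 234) (nat_lit 164)) (XT.nd (nat_lit 78) (nat_lit 0) (nat_lit 0) (XT.lf (nat_lit 0) (nat_lit 672336552801) (nat_lit 76) (nat_lit 95051684421) (nat_lit 76) (nat_lit 84232234718) (nat_lit 1) (nat_lit 4) (nat_lit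 2) (nat_lit 5) (nat_lit 2) (nat_lit 4) (nat_lit 323) (nat_lit 234) (nat_lit 163)) (XT.lf (nat_lit 0) (nat_lit 731733958880) (nat_lit 76) (nat_lit 99290978419) (nat_lit 76) (nat_lit 88468119707) (nat_lit 1) (nat_lit 4) (nat_lit 2) (nat_lit 5) (nat_lit 2) (nat_lit 4) (nat_lit 324) (nat_lit 234) (nat_lit 162)))) (XT.nd (nat_lit 78) (nat_lit 0) (nat_lit 0) (XT.lf (nat_lit 0) (nat_lit 795879794722) (nat_lit 76) (nat_lit 103870911712) (nat_lit 76) (nat_lit 93044896510) (nat_lit 1) (nat_lit 4) (nat_lit 2) (nat_lit 5) (nat_lit 2) (nat_lit 4) (nat_lit 325) (nat_lit 234) (nat_lit 161)) (XT.nd (nat_lit 78) (nat_lit 0) (nat_lit 0) (XT.lf (nat_lit 0) (nat_lit 865154183800) (nat_lit 76) (nat_lit 108818624645) (nat_lit 76) (nat_lit 97989686768) (nat_lit 1) (nat_lit 4) (nat_lit 2) (nat_lit 5) (nat_lit 2) (nat_lit 4) (nat_lit 326) (nat_lit 234) (nat_lit 160)) (XT.lf (nat_lit 0) (nat_lit 939967641012)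 (nat_lit 76) (nat_lit 114163436999) (nat_lit 76) (nat_lit 103331792941) (nat_lit 1) (nat_lit 4) (nat_lit 2) (nat_lit 5) (nat_lit 2) (nat_lit 4) (nat_lit 327) (nat_lit 234) (nat_lit 159)))))) (XT.nd (nat_lit 468) (nat_lit 0) (nat_lit 0) (XT.nd (nat_lit 234) (nat_lit 0) (nat_lit 0) (XT.nd (nat_lit 78) (nat_lit 0) (nat_lit 0) (XT.lf (nat_lit 0) (nat_lit 1020763505364) (nat_lit 76) (nat_lit 119937021737) (nat_lit 76) (nat_lit 109102871954) (nat_lit 1) (nat_lit 4) (nat_lit 2) (nat_lit 5) (nat_lit 2) (nat_lit 4) (nat_lit 328) (nat_lit 234) (nat_lit 158)) (XT.nd (nat_lit 78) (nat_lit 0) (nat_lit 0) (XT.lf (nat_lit 0) (nat_lit 1108020567163) (nat_lit 76) (nat_lit 126173592692) (nat_lit 76) (nat_lit 115337122796) (nat_lit 1) (nat_lit 4) (nat_lit 2) (nat_lit 5) (nat_lit 2) (nat_lit 4) (nat_lit 329) (nat_lit 234) (nat_lit 157)) (XT.lf (nat_lit 0) (nat_lit 1202255905294) (nat_lit 76) (nat_lit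 132910107324) (nat_lit 76) (nat_lit 122071489173) (nat_lit 1) (nat_lit 4) (nat_lit 2) (nat_lit 5) (nat_lit 2) (nat_lit 4) (nat_lit 330) (nat_lit 234) (nat_lit 156)))) (XT.nd (nat_lit 78) (nat_lit 0) (nat_lit 0) (XT.lf (nat_lit 0) (nat_lit 1304027951389) (nat_lit 76) (nat_lit 140186485718) (nat_lit 76) (nat_lit 129345878443) (nat_lit 1) (nat_lit 4) (nat_lit 2) (nat_lit 5) (nat_lit 2) (nat_lit 4) (nat_lit 331) (nat_lit 234) (nat_lit 155)) (XT.nd (nat_lit 78) (nat_lit 0) (nat_lit 0) (XT.lf (nat_lit 0) (nat_lit 1413939799057) (nat_lit 76) (nat_lit 148045847154) (nat_lit 76) (nat_lit 137203398098) (nat_lit 1) (nat_lit 4) (nat_lit 2) (nat_lit 5) (nat_lit 2) (nat_lit 4) (nat_lit 332) (nat_lit 234) (nat_lit 154)) (XT.lf (nat_lit 0) (nat_lit 1532642777763) (nat_lit 76) (nat_lit 156534765626) (nat_lit 76) (nat_lit 145690611216) (nat_lit 1) (nat_lit 4) (nat_lit 2) (nat_lit 5) (nat_lit 2) (nat_lit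 4) (nat_lit 333) (nat_lit 234) (nat_lit 153))))) (XT.nd (nat_lit 30966) (nat_lit 0) (nat_lit 2052) (XT.nd (nat_lit 78) (nat_lit 0) (nat_lit 0) (XT.lf (nat_lit 0) (nat_lit 1660840312568) (nat_lit 76) (nat_lit 165703545835) (nat_lit 76) (nat_lit 154857812395) (nat_lit 1) (nat_lit 4) (nat_lit 2) (nat_lit 5) (nat_lit 2) (nat_lit 4) (nat_lit 334) (nat_lit 234) (nat_lit 152)) (XT.nd (nat_lit 78) (nat_lit 0) (nat_lit 0) (XT.lf (nat_lit 0) (nat_lit 1799292092566) (nat_lit 76) (nat_lit 175606521295) (nat_lit 76) (nat_lit 164759325789) (nat_lit 1) (nat_lit 4) (nat_lit 2) (nat_lit 5) (nat_lit 2) (nat_lit 4) (nat_lit 335) (nat_lit 234) (nat_lit 151)) (XT.lf (nat_lit 0) (nat_lit 1948818572750) (nat_lit 76) (nat_lit 186302376303) (nat_lit 76) (nat_lit 175453827033) (nat_lit 1) (nat_lit 4) (nat_lit 2) (nat_lit 5) (nat_lit 2) (nat_lit 4) (nat_lit 336) (nat_lit 234) (nat_lit 150)))) (XT.nd (nat_lit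 78) (nat_lit 532) (nat_lit 0) (XT.lf (nat_lit 0) (nat_lit 1055706450) (nat_lit 380) (nat_lit 1289788865) (nat_lit 380) (nat_lit 1289788865) (nat_lit 35) (nat_lit 4) (nat_lit 40) (nat_lit 5) (nat_lit 40) (nat_lit 4) (nat_lit 250) (nat_lit 235) (nat_lit 235)) (XT.nd (nat_lit 78) (nat_lit 456) (nat_lit 0) (XT.lf (nat_lit 0) (nat_lit 340965134) (nat_lit 456) (nat_lit 780513195) (nat_lit 76) (nat_lit 6338807315) (nat_lit 34) (nat_lit 5) (nat_lit 40) (nat_lit 5) (nat_lit 35) (nat_lit 4) (nat_lit 251) (nat_lit 235) (nat_lit 234)) (XT.lf (nat_lit 0) (nat_lit 3242924193) (nat_lit 532) (nat_lit 3841473940) (nat_lit 0) (nat_lit 586357829) (nat_lit 28) (nat_lit 5) (nat_lit 35) (nat_lit 4) (nat_lit 28) (nat_lit 4) (nat_lit 252) (nat_lit 235) (nat_lit 233))))))))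
noncomputable def xc40 : XT := (XT.nd (nat_lit 1794) (nat_lit 304) (nat_lit 0) (XT.nd (nat_lit 858) (nat_lit 532) (nat_lit 0) (XT.nd (nat_lit 390) (nat_lit 456) (nat_lit 0) (XT.nd (nat_lit 156) (nat_lit 456) (nat_lit 0) (XT.nd (nat_lit 78) (nat_lit 76) (nat_lit 0) (XT.lf (nat_lit 0) (nat_lit 721438933) (nat_lit 228) (nat_lit 5514419831) (nat_lit 228) (nat_lit 1675265165) (nat_lit 25) (nat_lit 4) (nat_lit 28) (nat_lit 5) (nat_lit 28) (nat_lit 4) (nat_lit 253) (nat_lit 235) (nat_lit 232)) (XT.lf (nat_lit 0) (nat_lit 1133942190) (nat_lit 304) (nat_lit 2575544079) (nat_lit 76) (nat_lit 4468144956) (nat_lit 24) (nat_lit 5) (nat_lit 28) (nat_lit 5) (nat_lit 25) (nat_lit 4) (nat_lit 254) (nat_lit 235) (nat_lit 231))) (XT.nd (nat_lit 78) (nat_lit 304) (nat_lit 0) (XT.lf (nat_lit 0) (nat_lit 2247821891) (nat_lit 152) (nat_lit 1692488006) (nat_lit 228) (nat_lit 4534035142) (nat_lit 22) (nat_lit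 5) (nat_lit 24) (nat_lit 5) (nat_lit 25) (nat_lit 4) (nat_lit 255) (nat_lit 235) (nat_lit 230)) (XT.nd (nat_lit 78) (nat_lit 304) (nat_lit 0) (XT.lf (nat_lit 0) (nat_lit 6871807041) (nat_lit 228) (nat_lit 1437096116) (nat_lit 0) (nat_lit 495140914) (nat_lit 22) (nat_lit 5) (nat_lit 25) (nat_lit 4) (nat_lit 22) (nat_lit 4) (nat_lit 256) (nat_lit 235) (nat_lit 229)) (XT.lf (nat_lit 0) (nat_lit 793776626) (nat_lit 304) (nat_lit 5530460472) (nat_lit 76) (nat_lit 2838507560) (nat_lit 18) (nat_lit 5) (nat_lit 22) (nat_lit 5) (nat_lit 19) (nat_lit 4) (nat_lit 257) (nat_lit 235) (nat_lit 228))))) (XT.nd (nat_lit 234) (nat_lit 304) (nat_lit 0) (XT.nd (nat_lit 78) (nat_lit 152) (nat_lit 0) (XT.lf (nat_lit 0) (nat_lit 3506193491) (nat_lit 304) (nat_lit 633864623) (nat_lit 76) (nat_lit 5417281259) (nat_lit 18) (nat_lit 5) (nat_lit 22) (nat_lit 5) (nat_lit 19) (nat_lit 4) (nat_lit 258) (nat_lit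 235) (nat_lit 227)) (XT.nd (nat_lit 78) (nat_lit 0) (nat_lit 0) (XT.lf (nat_lit 0) (nat_lit 4680638548) (nat_lit 152) (nat_lit 1712349215) (nat_lit 228) (nat_lit 3594877036) (nat_lit 16) (nat_lit 5) (nat_lit 18) (nat_lit 5) (nat_lit 19) (nat_lit 4) (nat_lit 259) (nat_lit 235) (nat_lit 226)) (XT.lf (nat_lit 0) (nat_lit 9400514975) (nat_lit 228) (nat_lit 231587235) (nat_lit 0) (nat_lit 830430101) (nat_lit 16) (nat_lit 5) (nat_lit 19) (nat_lit 4) (nat_lit 16) (nat_lit 4) (nat_lit 260) (nat_lit 235) (nat_lit 225)))) (XT.nd (nat_lit 78) (nat_lit 76) (nat_lit 0) (XT.lf (nat_lit 0) (nat_lit 1622302550) (nat_lit 228) (nat_lit 5743462769) (nat_lit 76) (nat_lit 3604341731) (nat_lit 13) (nat_lit 5) (nat_lit 16) (nat_lit 5) (nat_lit 14) (nat_lit 4) (nat_lit 261) (nat_lit 235) (nat_lit 224)) (XT.nd (nat_lit 78) (nat_lit 76) (nat_lit 0) (XT.lf (nat_lit 0) (nat_lit 4333175300) (nat_lit 228) (nat_lit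 612039302) (nat_lit 76) (nat_lit 6582032788) (nat_lit 13) (nat_lit 5) (nat_lit 16) (nat_lit 5) (nat_lit 14) (nat_lit 4) (nat_lit 262) (nat_lit 235) (nat_lit 223)) (XT.lf (nat_lit 0) (nat_lit 4993378100) (nat_lit 76) (nat_lit 2260489261) (nat_lit 152) (nat_lit 4876304817) (nat_lit 12) (nat_lit 5) (nat_lit 13) (nat_lit 5) (nat_lit 14) (nat_lit 4) (nat_lit 263) (nat_lit 235) (nat_lit 222)))))) (XT.nd (nat_lit 468) (nat_lit 228) (nat_lit 0) (XT.nd (nat_lit 234) (nat_lit 76) (nat_lit 0) (XT.nd (nat_lit 78) (nat_lit 228) (nat_lit 0) (XT.lf (nat_lit 0) (nat_lit 10317230187) (nat_lit 152) (nat_lit 1904288658) (nat_lit 0) (nat_lit 567691966) (nat_lit 12) (nat_lit 5) (nat_lit 14) (nat_lit 4) (nat_lit 12) (nat_lit 4) (nat_lit 264) (nat_lit 235) (nat_lit 221)) (XT.nd (nat_lit 78) (nat_lit 0) (nat_lit 0) (XT.lf (nat_lit 0) (nat_lit 152032253) (nat_lit 228) (nat_lit 9806112286) (nat_lit 76) (nat_lit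 3540417016) (nat_lit 9) (nat_lit 5) (nat_lit 12) (nat_lit 5) (nat_lit 10) (nat_lit 4) (nat_lit 265) (nat_lit 235) (nat_lit 220)) (XT.lf (nat_lit 0) (nat_lit 2792450944) (nat_lit 228) (nat_lit 4659227661) (nat_lit 76) (nat_lit 6813119461) (nat_lit 9) (nat_lit 5) (nat_lit 12) (nat_lit 5) (nat_lit 10) (nat_lit 4) (nat_lit 266) (nat_lit 235) (nat_lit 219)))) (XT.nd (nat_lit 78) (nat_lit 0) (nat_lit 0) (XT.lf (nat_lit 0) (nat_lit 772887571) (nat_lit 76) (nat_lit 4784819206) (nat_lit 152) (nat_lit 9541980251) (nat_lit 8) (nat_lit 5) (nat_lit 9) (nat_lit 5) (nat_lit 10) (nat_lit 4) (nat_lit 267) (nat_lit 235) (nat_lit 218)) (XT.nd (nat_lit 78) (nat_lit 0) (nat_lit 0) (XT.lf (nat_lit 0) (nat_lit 6743545151) (nat_lit 76) (nat_lit 1826949681) (nat_lit 152) (nat_lit 7429176428) (nat_lit 8) (nat_lit 5) (nat_lit 9) (nat_lit 5) (nat_lit 10) (nat_lit 4) (nat_lit 268) (nat_lit 235) (nat_lit 217))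 (XT.lf (nat_lit 0) (nat_lit 11762268769) (nat_lit 152) (nat_lit 3968295565) (nat_lit 0) (nat_lit 1246431660) (nat_lit 8) (nat_lit 5) (nat_lit 10) (nat_lit 4) (nat_lit 8) (nat_lit 4) (nat_lit 269) (nat_lit 235) (nat_lit 216))))) (XT.nd (nat_lit 234) (nat_lit 76) (nat_lit 0) (XT.nd (nat_lit 78) (nat_lit 76) (nat_lit 0) (XT.lf (nat_lit 0) (nat_lit 1632701921) (nat_lit 76) (nat_lit 13575507311) (nat_lit 76) (nat_lit 2824742239) (nat_lit 7) (nat_lit 4) (nat_lit 8) (nat_lit 5) (nat_lit 8) (nat_lit 4) (nat_lit 270) (nat_lit 235) (nat_lit 215)) (XT.nd (nat_lit 78) (nat_lit 76) (nat_lit 0) (XT.lf (nat_lit 0) (nat_lit 7767026678) (nat_lit 76) (nat_lit 11186536675) (nat_lit 76) (nat_lit 218245711) (nat_lit 7) (nat_lit 4) (nat_lit 8) (nat_lit 5) (nat_lit 8) (nat_lit 4) (nat_lit 271) (nat_lit 235) (nat_lit 214)) (XT.lf (nat_lit 0) (nat_lit 2386062222) (nat_lit 152) (nat_lit 6206694405) (nat_lit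 76) (nat_lit 11810765455) (nat_lit 6) (nat_lit 5) (nat_lit 8) (nat_lit 5) (nat_lit 7) (nat_lit 4) (nat_lit 272) (nat_lit 235) (nat_lit 213)))) (XT.nd (nat_lit 78) (nat_lit 76) (nat_lit 0) (XT.lf (nat_lit 0) (nat_lit 5112102243) (nat_lit 152) (nat_lit 723024552) (nat_lit 76) (nat_lit 15904435376) (nat_lit 6) (nat_lit 5) (nat_lit 8) (nat_lit 5) (nat_lit 7) (nat_lit 4) (nat_lit 273) (nat_lit 235) (nat_lit 212)) (XT.nd (nat_lit 78) (nat_lit 0) (nat_lit 0) (XT.lf (nat_lit 0) (nat_lit 5351684754) (nat_lit 76) (nat_lit 2763969591) (nat_lit 152) (nat_lit 15062315514) (nat_lit 5) (nat_lit 5) (nat_lit 6) (nat_lit 5) (nat_lit 7) (nat_lit 4) (nat_lit 274) (nat_lit 235) (nat_lit 211)) (XT.lf (nat_lit 0) (nat_lit 11325121286) (nat_lit 152) (nat_lit 12907108075) (nat_lit 0) (nat_lit 502191369) (nat_lit 5) (nat_lit 5) (nat_lit 7) (nat_lit 4) (nat_lit 5) (nat_lit 4) (nat_lit 275) (nat_lit 235) (nat_lit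 210))))))) (XT.nd (nat_lit 936) (nat_lit 76) (nat_lit 0) (XT.nd (nat_lit 468) (nat_lit 152) (nat_lit 0) (XT.nd (nat_lit 234) (nat_lit 0) (nat_lit 0) (XT.nd (nat_lit 78) (nat_lit 76) (nat_lit 0) (XT.lf (nat_lit 0) (nat_lit 14800221851) (nat_lit 152) (nat_lit 7774446641) (nat_lit 0) (nat_lit 3840213725) (nat_lit 5) (nat_lit 5) (nat_lit 7) (nat_lit 4) (nat_lit 5) (nat_lit 4) (nat_lit 276) (nat_lit 235) (nat_lit 209)) (XT.nd (nat_lit 78) (nat_lit 76) (nat_lit 0) (XT.lf (nat_lit 0) (nat_lit 18495075696) (nat_lit 152) (nat_lit 2331411498) (nat_lit 0) (nat_lit 7408143301) (nat_lit 5) (nat_lit 5) (nat_lit 7) (nat_lit 4) (nat_lit 5) (nat_lit 4) (nat_lit 277) (nat_lit 235) (nat_lit 208)) (XT.lf (nat_lit 0) (nat_lit 3636147186) (nat_lit 76) (nat_lit 18882880491) (nat_lit 76) (nat_lit 7678425625) (nat_lit 4) (nat_lit 4) (nat_lit 5) (nat_lit 5) (nat_lit 5) (nat_lit 4) (nat_lit 278) (nat_lit 235)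 (nat_lit 207)))) (XT.nd (nat_lit 78) (nat_lit 0) (nat_lit 0) (XT.lf (nat_lit 0) (nat_lit 10123235647) (nat_lit 76) (nat_lit 16753285349) (nat_lit 76) (nat_lit 5440013379) (nat_lit 4) (nat_lit 4) (nat_lit 5) (nat_lit 5) (nat_lit 5) (nat_lit 4) (nat_lit 279) (nat_lit 235) (nat_lit 206)) (XT.nd (nat_lit 78) (nat_lit 0) (nat_lit 0) (XT.lf (nat_lit 0) (nat_lit 17045527892) (nat_lit 76) (nat_lit 14488826866) (nat_lit 76) (nat_lit 3074798320) (nat_lit 4) (nat_lit 4) (nat_lit 5) (nat_lit 5) (nat_lit 5) (nat_lit 4) (nat_lit 280) (nat_lit 235) (nat_lit 205)) (XT.lf (nat_lit 0) (nat_lit 24444044914) (nat_lit 76) (nat_lit 12076086030) (nat_lit 76) (nat_lit 568764358) (nat_lit 4) (nat_lit 4) (nat_lit 5) (nat_lit 5) (nat_lit 5) (nat_lit 4) (nat_lit 281) (nat_lit 235) (nat_lit 204))))) (XT.nd (nat_lit 234) (nat_lit 0) (nat_lit 0) (XT.nd (nat_lit 78) (nat_lit 76) (nat_lit 0) (XT.lf (nat_lit 0) (nat_lit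 1988241789) (nat_lit 152) (nat_lit 7458161274) (nat_lit 76) (nat_lit 30320025932) (nat_lit 3) (nat_lit 5) (nat_lit 5) (nat_lit 5) (nat_lit 4) (nat_lit 4) (nat_lit 282) (nat_lit 235) (nat_lit 203)) (XT.nd (nat_lit 78) (nat_lit 76) (nat_lit 0) (XT.lf (nat_lit 0) (nat_lit 4679662323) (nat_lit 152) (nat_lit 1939990382) (nat_lit 76) (nat_lit 36040594839) (nat_lit 3) (nat_lit 5) (nat_lit 5) (nat_lit 5) (nat_lit 4) (nat_lit 4) (nat_lit 283) (nat_lit 235) (nat_lit 202)) (XT.lf (nat_lit 0) (nat_lit 4164359481) (nat_lit 76) (nat_lit 3485691763) (nat_lit 152) (nat_lit 38130530330) (nat_lit 2) (nat_lit 5) (nat_lit 3) (nat_lit 5) (nat_lit 4) (nat_lit 4) (nat_lit 284) (nat_lit 235) (nat_lit 201)))) (XT.nd (nat_lit 78) (nat_lit 0) (nat_lit 0) (XT.lf (nat_lit 0) (nat_lit 10805403424) (nat_lit 76) (nat_lit 70425308) (nat_lit 152) (nat_lit 38273387789) (nat_lit 2) (nat_lit 5) (nat_lit 3) (nat_lit 5)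 (nat_lit 4) (nat_lit 4) (nat_lit 285) (nat_lit 235) (nat_lit 200)) (XT.nd (nat_lit 78) (nat_lit 0) (nat_lit 0) (XT.lf (nat_lit 0) (nat_lit 14413416801) (nat_lit 152) (nat_lit 34956124410) (nat_lit 0) (nat_lit 3413588953) (nat_lit 2) (nat_lit 5) (nat_lit 4) (nat_lit 4) (nat_lit 2) (nat_lit 4) (nat_lit 286) (nat_lit 235) (nat_lit 199)) (XT.lf (nat_lit 0) (nat_lit 18205039190) (nat_lit 152) (nat_lit 31354341097) (nat_lit 0) (nat_lit 7150775699) (nat_lit 2) (nat_lit 5) (nat_lit 4) (nat_lit 4) (nat_lit 2) (nat_lit 4) (nat_lit 287) (nat_lit 235) (nat_lit 198)))))) (XT.nd (nat_lit 468) (nat_lit 76) (nat_lit 0) (XT.nd (nat_lit 234) (nat_lit 0) (nat_lit 0) (XT.nd (nat_lit 78) (nat_lit 0) (nat_lit 0) (XT.lf (nat_lit 0) (nat_lit 22271471044) (nat_lit 152) (nat_lit 27515425525) (nat_lit 0) (nat_lit 11166804180) (nat_lit 2) (nat_lit 5) (nat_lit 4) (nat_lit 4) (nat_lit 2) (nat_lit 4) (nat_lit 288)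 (nat_lit 235) (nat_lit 197)) (XT.nd (nat_lit 78) (nat_lit 0) (nat_lit 0) (XT.lf (nat_lit 0) (nat_lit 26636809736) (nat_lit 152) (nat_lit 23416628566) (nat_lit 0) (nat_lit 15485473082) (nat_lit 2) (nat_lit 5) (nat_lit 4) (nat_lit 4) (nat_lit 2) (nat_lit 4) (nat_lit 289) (nat_lit 235) (nat_lit 196)) (XT.lf (nat_lit 0) (nat_lit 31326923940) (nat_lit 152) (nat_lit 19033661052) (nat_lit 0) (nat_lit 20132374517) (nat_lit 2) (nat_lit 5) (nat_lit 4) (nat_lit 4) (nat_lit 2) (nat_lit 4) (nat_lit 290) (nat_lit 235) (nat_lit 195)))) (XT.nd (nat_lit 78) (nat_lit 0) (nat_lit 0) (XT.lf (nat_lit 0) (nat_lit 36369606926) (nat_lit 152) (nat_lit 14340549843) (nat_lit 0) (nat_lit 25135045680) (nat_lit 2) (nat_lit 5) (nat_lit 4) (nat_lit 4) (nat_lit 2) (nat_lit 4) (nat_lit 291) (nat_lit 235) (nat_lit 194)) (XT.nd (nat_lit 78) (nat_lit 0) (nat_lit 0) (XT.lf (nat_lit 0) (nat_lit 41794741259) (nat_lit 152)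 (nat_lit 9309483910) (nat_lit 0) (nat_lit 30523132029) (nat_lit 2) (nat_lit 5) (nat_lit 4) (nat_lit 4) (nat_lit 2) (nat_lit 4) (nat_lit 292) (nat_lit 235) (nat_lit 193)) (XT.lf (nat_lit 0) (nat_lit 47634475884) (nat_lit 152) (nat_lit 3910649528) (nat_lit 0) (nat_lit 36328562965) (nat_lit 2) (nat_lit 5) (nat_lit 4) (nat_lit 4) (nat_lit 2) (nat_lit 4) (nat_lit 293) (nat_lit 235) (nat_lit 192))))) (XT.nd (nat_lit 234) (nat_lit 0) (nat_lit 0) (XT.nd (nat_lit 78) (nat_lit 0) (nat_lit 0) (XT.lf (nat_lit 0) (nat_lit 1987362306) (nat_lit 76) (nat_lit 51983850439) (nat_lit 76) (nat_lit 40646174845) (nat_lit 1) (nat_lit 4) (nat_lit 2) (nat_lit 5) (nat_lit 2) (nat_lit 4) (nat_lit 294) (nat_lit 235) (nat_lit 191)) (XT.nd (nat_lit 78) (nat_lit 0) (nat_lit 0) (XT.lf (nat_lit 0) (nat_lit 8548285786) (nat_lit 76) (nat_lit 52356132002) (nat_lit 76) (nat_lit 40989046524) (nat_lit 1) (nat_lit 4) (nat_lit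 2) (nat_lit 5) (nat_lit 2) (nat_lit 4) (nat_lit 295) (nat_lit 235) (nat_lit 190)) (XT.lf (nat_lit 0) (nat_lit 15605072581) (nat_lit 76) (nat_lit 52771100301) (nat_lit 76) (nat_lit 41376783449) (nat_lit 1) (nat_lit 4) (nat_lit 2) (nat_lit 5) (nat_lit 2) (nat_lit 4) (nat_lit 296) (nat_lit 235) (nat_lit 189)))) (XT.nd (nat_lit 78) (nat_lit 0) (nat_lit 0) (XT.lf (nat_lit 0) (nat_lit 23199540690) (nat_lit 76) (nat_lit 53231214409) (nat_lit 76) (nat_lit 41811683321) (nat_lit 1) (nat_lit 4) (nat_lit 2) (nat_lit 5) (nat_lit 2) (nat_lit 4) (nat_lit 297) (nat_lit 235) (nat_lit 188)) (XT.nd (nat_lit 78) (nat_lit 0) (nat_lit 0) (XT.lf (nat_lit 0) (nat_lit 31376694367) (nat_lit 76) (nat_lit 53739200927) (nat_lit 76) (nat_lit 42296323324) (nat_lit 1) (nat_lit 4) (nat_lit 2) (nat_lit 5) (nat_lit 2) (nat_lit 4) (nat_lit 298) (nat_lit 235) (nat_lit 187)) (XT.lf (nat_lit 0) (nat_lit 40184990818) (nat_lit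 76) (nat_lit 54298070145) (nat_lit 76) (nat_lit 42833575400) (nat_lit 1) (nat_lit 4) (nat_lit 2) (nat_lit 5) (nat_lit 2) (nat_lit 4) (nat_lit 299) (nat_lit 235) (nat_lit 186))))))))
noncomputable def xc41 : XT := (XT.nd (nat_lit 1872) (nat_lit 0) (nat_lit 0) (XT.nd (nat_lit 936) (nat_lit 0) (nat_lit 0) (XT.nd (nat_lit 468) (nat_lit 0) (nat_lit 0) (XT.nd (nat_lit 234) (nat_lit 0) (nat_lit 0) (XT.nd (nat_lit 78) (nat_lit 0) (nat_lit 0) (XT.lf (nat_lit 0) (nat_lit 49676627357) (nat_lit 76) (nat_lit 54911133882) (nat_lit 76) (nat_lit 43426623264) (nat_lit 1) (nat_lit 4) (nat_lit 2) (nat_lit 5) (nat_lit 2) (nat_lit 4) (nat_lit 300) (nat_lit 235) (nat_lit 185)) (XT.nd (nat_lit 78) (nat_lit 0) (nat_lit 0) (XT.lf (nat_lit 0) (nat_lit 59907850719) (nat_lit 76) (nat_lit 55582025108) (nat_lit 76) (nat_lit 44078981274) (nat_lit 1) (nat_lit 4) (nat_lit 2) (nat_lit 5) (nat_lit 2) (nat_lit 4) (nat_lit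 301) (nat_lit 235) (nat_lit 184)) (XT.lf (nat_lit 0) (nat_lit 70939290374) (nat_lit 76) (nat_lit 56314719474) (nat_lit 76) (nat_lit 44794515255) (nat_lit 1) (nat_lit 4) (nat_lit 2) (nat_lit 5) (nat_lit 2) (nat_lit 4) (nat_lit 302) (nat_lit 235) (nat_lit 183)))) (XT.nd (nat_lit 78) (nat_lit 0) (nat_lit 0) (XT.lf (nat_lit 0) (nat_lit 82836317818) (nat_lit 76) (nat_lit 57113558873) (nat_lit 76) (nat_lit 45577465409) (nat_lit 1) (nat_lit 4) (nat_lit 2) (nat_lit 5) (nat_lit 2) (nat_lit 4) (nat_lit 303) (nat_lit 235) (nat_lit 182)) (XT.nd (nat_lit 78) (nat_lit 0) (nat_lit 0) (XT.lf (nat_lit 0) (nat_lit 95669433954) (nat_lit 76) (nat_lit 57983277168) (nat_lit 76) (nat_lit 46432471439) (nat_lit 1) (nat_lit 4) (nat_lit 2) (nat_lit 5) (nat_lit 2) (nat_lit 4) (nat_lit 304) (nat_lit 235) (nat_lit 181)) (XT.lf (nat_lit 0) (nat_lit 109514686877) (nat_lit 76) (nat_lit 58929028245) (nat_lit 76) (nat_lit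 47364600049) (nat_lit 1) (nat_lit 4) (nat_lit 2) (nat_lit 5) (nat_lit 2) (nat_lit 4) (nat_lit 305) (nat_lit 235) (nat_lit 180))))) (XT.nd (nat_lit 234) (nat_lit 0) (nat_lit 0) (XT.nd (nat_lit 78) (nat_lit 0) (nat_lit 0) (XT.lf (nat_lit 0) (nat_lit 124454122531) (nat_lit 76) (nat_lit 59956416555) (nat_lit 76) (nat_lit 48379374964) (nat_lit 1) (nat_lit 4) (nat_lit 2) (nat_lit 5) (nat_lit 2) (nat_lit 4) (nat_lit 306) (nat_lit 235) (nat_lit 179)) (XT.nd (nat_lit 78) (nat_lit 0) (nat_lit 0) (XT.lf (nat_lit 0) (nat_lit 140576270905) (nat_lit 76) (nat_lit 61071530325) (nat_lit 76) (nat_lit 49482809665) (nat_lit 1) (nat_lit 4) (nat_lit 2) (nat_lit 5) (nat_lit 2) (nat_lit 4) (nat_lit 307) (nat_lit 235) (nat_lit 178)) (XT.lf (nat_lit 0) (nat_lit 157976670655) (nat_lit 76) (nat_lit 62280977637) (nat_lit 76) (nat_lit 50681443023) (nat_lit 1) (nat_lit 4) (nat_lit 2) (nat_lit 5) (nat_lit 2) (nat_lit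 4) (nat_lit 308) (nat_lit 235) (nat_lit 177)))) (XT.nd (nat_lit 78) (nat_lit 0) (nat_lit 0) (XT.lf (nat_lit 0) (nat_lit 176758435262) (nat_lit 76) (nat_lit 63591925586) (nat_lit 76) (nat_lit 51982378052) (nat_lit 1) (nat_lit 4) (nat_lit 2) (nat_lit 5) (nat_lit 2) (nat_lit 4) (nat_lit 309) (nat_lit 235) (nat_lit 176)) (XT.nd (nat_lit 78) (nat_lit 0) (nat_lit 0) (XT.lf (nat_lit 0) (nat_lit 197032864072) (nat_lit 76) (nat_lit 65012142752) (nat_lit 76) (nat_lit 53393323996) (nat_lit 1) (nat_lit 4) (nat_lit 2) (nat_lit 5) (nat_lit 2) (nat_lit 4) (nat_lit 310) (nat_lit 235) (nat_lit 175)) (XT.lf (nat_lit 0) (nat_lit 218920101847) (nat_lit 76) (nat_lit 66550045237) (nat_lit 76) (nat_lit 54922642016) (nat_lit 1) (nat_lit 4) (nat_lit 2) (nat_lit 5) (nat_lit 2) (nat_lit 4) (nat_lit 311) (nat_lit 235) (nat_lit 174)))))) (XT.nd (nat_lit 468) (nat_lit 0) (nat_lit 0) (XT.nd (nat_lit 234) (nat_lit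 0) (nat_lit 0) (XT.nd (nat_lit 78) (nat_lit 0) (nat_lit 0) (XT.lf (nat_lit 0) (nat_lit 242549850738) (nat_lit 76) (nat_lit 68214746537) (nat_lit 76) (nat_lit 56579394738) (nat_lit 1) (nat_lit 4) (nat_lit 2) (nat_lit 5) (nat_lit 2) (nat_lit 4) (nat_lit 312) (nat_lit 235) (nat_lit 173)) (XT.nd (nat_lit 78) (nat_lit 0) (nat_lit 0) (XT.lf (nat_lit 0) (nat_lit 268062138887) (nat_lit 76) (nat_lit 70016111549) (nat_lit 76) (nat_lit 58373399954) (nat_lit 1) (nat_lit 4) (nat_lit 2) (nat_lit 5) (nat_lit 2) (nat_lit 4) (nat_lit 313) (nat_lit 235) (nat_lit 172)) (XT.lf (nat_lit 0) (nat_lit 295608150222) (nat_lit 76) (nat_lit 71964815028) (nat_lit 76) (nat_lit 60315288809) (nat_lit 1) (nat_lit 4) (nat_lit 2) (nat_lit 5) (nat_lit 2) (nat_lit 4) (nat_lit 314) (nat_lit 235) (nat_lit 171)))) (XT.nd (nat_lit 78) (nat_lit 0) (nat_lit 0) (XT.lf (nat_lit 0) (nat_lit 325351120368) (nat_lit 76) (nat_lit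 74072404847) (nat_lit 76) (nat_lit 62416568790) (nat_lit 1) (nat_lit 4) (nat_lit 2) (nat_lit 5) (nat_lit 2) (nat_lit 4) (nat_lit 315) (nat_lit 235) (nat_lit 170)) (XT.nd (nat_lit 78) (nat_lit 0) (nat_lit 0) (XT.lf (nat_lit 0) (nat_lit 357467303961) (nat_lit 76) (nat_lit 76351370427) (nat_lit 76) (nat_lit 64689691928) (nat_lit 1) (nat_lit 4) (nat_lit 2) (nat_lit 5) (nat_lit 2) (nat_lit 4) (nat_lit 316) (nat_lit 235) (nat_lit 169)) (XT.lf (nat_lit 0) (nat_lit 392147019126) (nat_lit 76) (nat_lit 78815216750) (nat_lit 76) (nat_lit 67148128581) (nat_lit 1) (nat_lit 4) (nat_lit 2) (nat_lit 5) (nat_lit 2) (nat_lit 4) (nat_lit 317) (nat_lit 235) (nat_lit 168))))) (XT.nd (nat_lit 234) (nat_lit 0) (nat_lit 0) (XT.nd (nat_lit 78) (nat_lit 0) (nat_lit 0) (XT.lf (nat_lit 0) (nat_lit 429595775287) (nat_lit 76) (nat_lit 81478544385) (nat_lit 76) (nat_lit 69806447264) (nat_lit 1) (nat_lit 4) (nat_lit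 2) (nat_lit 5) (nat_lit 2) (nat_lit 4) (nat_lit 318) (nat_lit 235) (nat_lit 167)) (XT.nd (nat_lit 78) (nat_lit 0) (nat_lit 0) (XT.lf (nat_lit 0) (nat_lit 470035491000) (nat_lit 76) (nat_lit 84357136016) (nat_lit 76) (nat_lit 72680400975) (nat_lit 1) (nat_lit 4) (nat_lit 2) (nat_lit 5) (nat_lit 2) (nat_lit 4) (nat_lit 319) (nat_lit 235) (nat_lit 166)) (XT.lf (nat_lit 0) (nat_lit 513705809022) (nat_lit 76) (nat_lit 87468049963) (nat_lit 76) (nat_lit 75787020553) (nat_lit 1) (nat_lit 4) (nat_lit 2) (nat_lit 5) (nat_lit 2) (nat_lit 4) (nat_lit 320) (nat_lit 235) (nat_lit 165)))) (XT.nd (nat_lit 78) (nat_lit 0) (nat_lit 0) (XT.lf (nat_lit 0) (nat_lit 560865516426) (nat_lit 76) (nat_lit 90829721272) (nat_lit 76) (nat_lit 79144715593) (nat_lit 1) (nat_lit 4) (nat_lit 2) (nat_lit 5) (nat_lit 2) (nat_lit 4) (nat_lit 321) (nat_lit 235) (nat_lit 164)) (XT.nd (nat_lit 78) (nat_lit 0) (nat_lit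 0) (XT.lf (nat_lit 0) (nat_lit 611794078142) (nat_lit 76) (nat_lit 94462070957) (nat_lit 76) (nat_lit 82773383549) (nat_lit 1) (nat_lit 4) (nat_lit 2) (nat_lit 5) (nat_lit 2) (nat_lit 4) (nat_lit 322) (nat_lit 235) (nat_lit 163)) (XT.lf (nat_lit 0) (nat_lit 666793293056) (nat_lit 76) (nat_lit 98386624055) (nat_lit 76) (nat_lit 86694527637) (nat_lit 1) (nat_lit 4) (nat_lit 2) (nat_lit 5) (nat_lit 2) (nat_lit 4) (nat_lit 323) (nat_lit 235) (nat_lit 162))))))) (XT.nd (nat_lit 936) (nat_lit 0) (nat_lit 0) (XT.nd (nat_lit 468) (nat_lit 0) (nat_lit 0) (XT.nd (nat_lit 234) (nat_lit 0) (nat_lit 0) (XT.nd (nat_lit 78) (nat_lit 0) (nat_lit 0) (XT.lf (nat_lit 0) (nat_lit 726189082441) (nat_lit 76) (nat_lit 102626637176) (nat_lit 76) (nat_lit 90931384268) (nat_lit 1) (nat_lit 4) (nat_lit 2) (nat_lit 5) (nat_lit 2) (nat_lit 4) (nat_lit 324) (nat_lit 235) (nat_lit 161)) (XT.nd (nat_lit 78) (nat_lit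 0) (nat_lit 0) (XT.lf (nat_lit 0) (nat_lit 790333421345) (nat_lit 76) (nat_lit 107207236323) (nat_lit 76) (nat_lit 95509060740) (nat_lit 1) (nat_lit 4) (nat_lit 2) (nat_lit 5) (nat_lit 2) (nat_lit 4) (nat_lit 325) (nat_lit 235) (nat_lit 160)) (XT.lf (nat_lit 0) (nat_lit 859606424369) (nat_lit 76) (nat_lit 112155565788) (nat_lit 76) (nat_lit 100454684023) (nat_lit 1) (nat_lit 4) (nat_lit 2) (nat_lit 5) (nat_lit 2) (nat_lit 4) (nat_lit 326) (nat_lit 235) (nat_lit 159)))) (XT.nd (nat_lit 78) (nat_lit 0) (nat_lit 0) (XT.lf (nat_lit 0) (nat_lit 934418598198) (nat_lit 76) (nat_lit 117500949005) (nat_lit 76) (nat_lit 105797561517) (nat_lit 1) (nat_lit 4) (nat_lit 2) (nat_lit 5) (nat_lit 2) (nat_lit 4) (nat_lit 327) (nat_lit 235) (nat_lit 158)) (XT.nd (nat_lit 78) (nat_lit 0) (nat_lit 0) (XT.lf (nat_lit 0) (nat_lit 1015213274232) (nat_lit 76) (nat_lit 123275062319) (nat_lit 76) (nat_lit 111569354717)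 (nat_lit 1) (nat_lit 4) (nat_lit 2) (nat_lit 5) (nat_lit 2) (nat_lit 4) (nat_lit 328) (nat_lit 235) (nat_lit 157)) (XT.lf (nat_lit 0) (nat_lit 1102469235737) (nat_lit 76) (nat_lit 129512122698) (nat_lit 76) (nat_lit 117804266841) (nat_lit 1) (nat_lit 4) (nat_lit 2) (nat_lit 5) (nat_lit 2) (nat_lit 4) (nat_lit 329) (nat_lit 235) (nat_lit 156))))) (XT.nd (nat_lit 234) (nat_lit 0) (nat_lit 0) (XT.nd (nat_lit 78) (nat_lit 0) (nat_lit 0) (XT.lf (nat_lit 0) (nat_lit 1196703555076) (nat_lit 76) (nat_lit 136249090498) (nat_lit 76) (nat_lit 124539245518) (nat_lit 1) (nat_lit 4) (nat_lit 2) (nat_lit 5) (nat_lit 2) (nat_lit 4) (nat_lit 330) (nat_lit 235) (nat_lit 155)) (XT.nd (nat_lit 78) (nat_lit 0) (nat_lit 0) (XT.lf (nat_lit 0) (nat_lit 1298474657847) (nat_lit 76) (nat_lit 143525888494) (nat_lit 76) (nat_lit 131814201731) (nat_lit 1) (nat_lit 4) (nat_lit 2) (nat_lit 5) (nat_lit 2) (nat_lit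 4) (nat_lit 331) (nat_lit 235) (nat_lit 154)) (XT.lf (nat_lit 0) (nat_lit 1408385632065) (nat_lit 76) (nat_lit 151385638449) (nat_lit 76) (nat_lit 139672246334) (nat_lit 1) (nat_lit 4) (nat_lit 2) (nat_lit 5) (nat_lit 2) (nat_lit 4) (nat_lit 332) (nat_lit 235) (nat_lit 153)))) (XT.nd (nat_lit 78) (nat_lit 0) (nat_lit 0) (XT.lf (nat_lit 0) (nat_lit 1527087802022) (nat_lit 76) (nat_lit 159874916661) (nat_lit 76) (nat_lit 148159945515) (nat_lit 1) (nat_lit 4) (nat_lit 2) (nat_lit 5) (nat_lit 2) (nat_lit 4) (nat_lit 333) (nat_lit 235) (nat_lit 152)) (XT.nd (nat_lit 78) (nat_lit 0) (nat_lit 0) (XT.lf (nat_lit 0) (nat_lit 1655284587985) (nat_lit 76) (nat_lit 169044029964) (nat_lit 76) (nat_lit 157327596752) (nat_lit 1) (nat_lit 4) (nat_lit 2) (nat_lit 5) (nat_lit 2) (nat_lit 4) (nat_lit 334) (nat_lit 235) (nat_lit 151)) (XT.lf (nat_lit 0) (nat_lit 1793735674611) (nat_lit 76) (nat_lit 178947313843)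 (nat_lit 76) (nat_lit 167229526867) (nat_lit 1) (nat_lit 4) (nat_lit 2) (nat_lit 5) (nat_lit 2) (nat_lit 4) (nat_lit 335) (nat_lit 235) (nat_lit 150)))))) (XT.nd (nat_lit 31044) (nat_lit 0) (nat_lit 1292) (XT.nd (nat_lit 30810) (nat_lit 0) (nat_lit 2052) (XT.nd (nat_lit 30654) (nat_lit 0) (nat_lit 2964) (XT.lf (nat_lit 0) (nat_lit 1943261512784) (nat_lit 76) (nat_lit 189643454425) (nat_lit 76) (nat_lit 177924413963) (nat_lit 1) (nat_lit 4) (nat_lit 2) (nat_lit 5) (nat_lit 2) (nat_lit 4) (nat_lit 336) (nat_lit 235) (nat_lit 149)) (XT.nd (nat_lit 78) (nat_lit 0) (nat_lit 0) (XT.lf (nat_lit 0) (nat_lit 179154629) (nat_lit 380) (nat_lit 3124195315) (nat_lit 0) (nat_lit 179154629) (nat_lit 40) (nat_lit 5) (nat_lit 45) (nat_lit 4) (nat_lit 40) (nat_lit 4) (nat_lit 248) (nat_lit 236) (nat_lit 236)) (XT.lf (nat_lit 0) (nat_lit 3246376683) (nat_lit 380) (nat_lit 2224979289) (nat_lit 0) (nat_lit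 1637478353) (nat_lit 40) (nat_lit 5) (nat_lit 45) (nat_lit 4) (nat_lit 40) (nat_lit 4) (nat_lit 249) (nat_lit 236) (nat_lit 235)))) (XT.nd (nat_lit 78) (nat_lit 532) (nat_lit 0) (XT.lf (nat_lit 0) (nat_lit 1999798492) (nat_lit 380) (nat_lit 4189646812) (nat_lit 380) (nat_lit 1091027806) (nat_lit 35) (nat_lit 4) (nat_lit 40) (nat_lit 5) (nat_lit 40) (nat_lit 4) (nat_lit 250) (nat_lit 236) (nat_lit 234)) (XT.nd (nat_lit 78) (nat_lit 456) (nat_lit 0) (XT.lf (nat_lit 0) (nat_lit 1649192419) (nat_lit 456) (nat_lit 1047669770) (nat_lit 76) (nat_lit 4779849696) (nat_lit 34) (nat_lit 5) (nat_lit 40) (nat_lit 5) (nat_lit 35) (nat_lit 4) (nat_lit 251) (nat_lit 236) (nat_lit 233)) (XT.lf (nat_lit 0) (nat_lit 3457032466) (nat_lit 456) (nat_lit 971918416) (nat_lit 532) (nat_lit 3268856179) (nat_lit 28) (nat_lit 5) (nat_lit 34) (nat_lit 5) (nat_lit 35) (nat_lit 4) (nat_lit 252) (nat_lit 236) (nat_lit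 232))))) (XT.nd (nat_lit 234) (nat_lit 304) (nat_lit 0) (XT.nd (nat_lit 78) (nat_lit 228) (nat_lit 0) (XT.lf (nat_lit 0) (nat_lit 212851126) (nat_lit 228) (nat_lit 7080142834) (nat_lit 228) (nat_lit 656278323) (nat_lit 25) (nat_lit 4) (nat_lit 28) (nat_lit 5) (nat_lit 28) (nat_lit 4) (nat_lit 253) (nat_lit 236) (nat_lit 231)) (XT.nd (nat_lit 78) (nat_lit 152) (nat_lit 0) (XT.lf (nat_lit 0) (nat_lit 2010066445) (nat_lit 304) (nat_lit 3256805164) (nat_lit 76) (nat_lit 2954972350) (nat_lit 24) (nat_lit 5) (nat_lit 28) (nat_lit 5) (nat_lit 25) (nat_lit 4) (nat_lit 254) (nat_lit 236) (nat_lit 230)) (XT.lf (nat_lit 0) (nat_lit 1423453810) (nat_lit 152) (nat_lit 3288072104) (nat_lit 228) (nat_lit 3816048419) (nat_lit 22) (nat_lit 5) (nat_lit 24) (nat_lit 5) (nat_lit 25) (nat_lit 4) (nat_lit 255) (nat_lit 236) (nat_lit 229)))) (XT.nd (nat_lit 78) (nat_lit 304) (nat_lit 0) (XT.lf (nat_lit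 0) (nat_lit 6456828096) (nat_lit 152) (nat_lit 1092492045) (nat_lit 228) (nat_lit 1316027144) (nat_lit 22) (nat_lit 5) (nat_lit 24) (nat_lit 5) (nat_lit 25) (nat_lit 4) (nat_lit 256) (nat_lit 236) (nat_lit 228)) (XT.nd (nat_lit 78) (nat_lit 0) (nat_lit 0) (XT.lf (nat_lit 0) (nat_lit 1247077929) (nat_lit 304) (nat_lit 6712195987) (nat_lit 76) (nat_lit 1274650302) (nat_lit 18) (nat_lit 5) (nat_lit 22) (nat_lit 5) (nat_lit 19) (nat_lit 4) (nat_lit 257) (nat_lit 236) (nat_lit 227)) (XT.lf (nat_lit 0) (nat_lit 3884886424) (nat_lit 304) (nat_lit 1915583235) (nat_lit 76) (nat_lit 3834476531) (nat_lit 18) (nat_lit 5) (nat_lit 22) (nat_lit 5) (nat_lit 19) (nat_lit 4) (nat_lit 258) (nat_lit 236) (nat_lit 226))))))))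
noncomputable def xc42 : XT := (XT.nd (nat_lit 1794) (nat_lit 228) (nat_lit 0) (XT.nd (nat_lit 858) (nat_lit 304) (nat_lit 0) (XT.nd (nat_lit 390) (nat_lit 304) (nat_lit 0) (XT.nd (nat_lit 156) (nat_lit 304) (nat_lit 0) (XT.nd (nat_lit 78) (nat_lit 0) (nat_lit 0) (XT.lf (nat_lit 0) (nat_lit 3233975026) (nat_lit 152) (nat_lit 3433831553) (nat_lit 228) (nat_lit 3406399583) (nat_lit 16) (nat_lit 5) (nat_lit 18) (nat_lit 5) (nat_lit 19) (nat_lit 4) (nat_lit 259) (nat_lit 236) (nat_lit 225)) (XT.lf (nat_lit 0) (nat_lit 8716753764) (nat_lit 152) (nat_lit 871421717) (nat_lit 228) (nat_lit 968064022) (nat_lit 16) (nat_lit 5) (nat_lit 18) (nat_lit 5) (nat_lit 19) (nat_lit 4) (nat_lit 260) (nat_lit 236) (nat_lit 224))) (XT.nd (nat_lit 78) (nat_lit 76) (nat_lit 0) (XT.lf (nat_lit 0) (nat_lit 1582818917) (nat_lit 228) (nat_lit 7609975946) (nat_lit 76) (nat_lit 1881474648) (nat_lit 13) (nat_lit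 5) (nat_lit 16) (nat_lit 5) (nat_lit 14) (nat_lit 4) (nat_lit 261) (nat_lit 236) (nat_lit 223)) (XT.nd (nat_lit 78) (nat_lit 76) (nat_lit 0) (XT.lf (nat_lit 0) (nat_lit 4232566008) (nat_lit 228) (nat_lit 2568124083) (nat_lit 76) (nat_lit 4835921919) (nat_lit 13) (nat_lit 5) (nat_lit 16) (nat_lit 5) (nat_lit 14) (nat_lit 4) (nat_lit 262) (nat_lit 236) (nat_lit 222)) (XT.lf (nat_lit 0) (nat_lit 2846985392) (nat_lit 76) (nat_lit 4198054048) (nat_lit 152) (nat_lit 5203443836) (nat_lit 12) (nat_lit 5) (nat_lit 13) (nat_lit 5) (nat_lit 14) (nat_lit 4) (nat_lit 263) (nat_lit 236) (nat_lit 221))))) (XT.nd (nat_lit 234) (nat_lit 76) (nat_lit 0) (XT.nd (nat_lit 78) (nat_lit 228) (nat_lit 0) (XT.lf (nat_lit 0) (nat_lit 8673214142) (nat_lit 76) (nat_lit 1366466642) (nat_lit 152) (nat_lit 2873606424) (nat_lit 12) (nat_lit 5) (nat_lit 13) (nat_lit 5) (nat_lit 14) (nat_lit 4) (nat_lit 264) (nat_lit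 236) (nat_lit 220)) (XT.nd (nat_lit 78) (nat_lit 76) (nat_lit 0) (XT.lf (nat_lit 0) (nat_lit 1189749218) (nat_lit 152) (nat_lit 12047541848) (nat_lit 152) (nat_lit 397427919) (nat_lit 10) (nat_lit 4) (nat_lit 12) (nat_lit 5) (nat_lit 12) (nat_lit 4) (nat_lit 265) (nat_lit 236) (nat_lit 219)) (XT.lf (nat_lit 0) (nat_lit 2212398496) (nat_lit 228) (nat_lit 7367941957) (nat_lit 76) (nat_lit 4825629968) (nat_lit 9) (nat_lit 5) (nat_lit 12) (nat_lit 5) (nat_lit 10) (nat_lit 4) (nat_lit 266) (nat_lit 236) (nat_lit 218)))) (XT.nd (nat_lit 78) (nat_lit 76) (nat_lit 0) (XT.lf (nat_lit 0) (nat_lit 4912331892) (nat_lit 228) (nat_lit 2048022066) (nat_lit 76) (nat_lit 8285927899) (nat_lit 9) (nat_lit 5) (nat_lit 12) (nat_lit 5) (nat_lit 10) (nat_lit 4) (nat_lit 267) (nat_lit 236) (nat_lit 217)) (XT.nd (nat_lit 78) (nat_lit 0) (nat_lit 0) (XT.lf (nat_lit 0) (nat_lit 3743119504) (nat_lit 76) (nat_lit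 4085155440) (nat_lit 152) (nat_lit 8325920857) (nat_lit 8) (nat_lit 5) (nat_lit 9) (nat_lit 5) (nat_lit 10) (nat_lit 4) (nat_lit 268) (nat_lit 236) (nat_lit 216)) (XT.lf (nat_lit 0) (nat_lit 9975992584) (nat_lit 76) (nat_lit 970837783) (nat_lit 152) (nat_lit 6190716270) (nat_lit 8) (nat_lit 5) (nat_lit 9) (nat_lit 5) (nat_lit 10) (nat_lit 4) (nat_lit 269) (nat_lit 236) (nat_lit 215)))))) (XT.nd (nat_lit 468) (nat_lit 76) (nat_lit 0) (XT.nd (nat_lit 234) (nat_lit 76) (nat_lit 0) (XT.nd (nat_lit 78) (nat_lit 152) (nat_lit 0) (XT.lf (nat_lit 0) (nat_lit 14291028525) (nat_lit 152) (nat_lit 1683020712) (nat_lit 0) (nat_lit 2227748392) (nat_lit 8) (nat_lit 5) (nat_lit 10) (nat_lit 4) (nat_lit 8) (nat_lit 4) (nat_lit 270) (nat_lit 236) (nat_lit 214)) (XT.nd (nat_lit 78) (nat_lit 76) (nat_lit 0) (XT.lf (nat_lit 0) (nat_lit 4300164460) (nat_lit 76) (nat_lit 13655877778) (nat_lit 76) (nat_lit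 1391184782) (nat_lit 7) (nat_lit 4) (nat_lit 8) (nat_lit 5) (nat_lit 8) (nat_lit 4) (nat_lit 271) (nat_lit 236) (nat_lit 213)) (XT.lf (nat_lit 0) (nat_lit 1235826386) (nat_lit 152) (nat_lit 9880667504) (nat_lit 76) (nat_lit 9467704580) (nat_lit 6) (nat_lit 5) (nat_lit 8) (nat_lit 5) (nat_lit 7) (nat_lit 4) (nat_lit 272) (nat_lit 236) (nat_lit 212)))) (XT.nd (nat_lit 78) (nat_lit 76) (nat_lit 0) (XT.lf (nat_lit 0) (nat_lit 3928559067) (nat_lit 152) (nat_lit 4452462594) (nat_lit 76) (nat_lit 13541996247) (nat_lit 6) (nat_lit 5) (nat_lit 8) (nat_lit 5) (nat_lit 7) (nat_lit 4) (nat_lit 273) (nat_lit 236) (nat_lit 211)) (XT.nd (nat_lit 78) (nat_lit 0) (nat_lit 0) (XT.lf (nat_lit 0) (nat_lit 1371800347) (nat_lit 76) (nat_lit 5433754376) (nat_lit 152) (nat_lit 16566101648) (nat_lit 5) (nat_lit 5) (nat_lit 6) (nat_lit 5) (nat_lit 7) (nat_lit 4) (nat_lit 274) (nat_lit 236) (nat_lit 210)) (XT.lf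 (nat_lit 0) (nat_lit 7811102786) (nat_lit 76) (nat_lit 2161445642) (nat_lit 152) (nat_lit 14959055062) (nat_lit 5) (nat_lit 5) (nat_lit 6) (nat_lit 5) (nat_lit 7) (nat_lit 4) (nat_lit 275) (nat_lit 236) (nat_lit 209))))) (XT.nd (nat_lit 234) (nat_lit 76) (nat_lit 0) (XT.nd (nat_lit 78) (nat_lit 0) (nat_lit 0) (XT.lf (nat_lit 0) (nat_lit 13367659075) (nat_lit 152) (nat_lit 11984048377) (nat_lit 0) (nat_lit 1266847820) (nat_lit 5) (nat_lit 5) (nat_lit 7) (nat_lit 4) (nat_lit 5) (nat_lit 4) (nat_lit 276) (nat_lit 236) (nat_lit 208)) (XT.nd (nat_lit 78) (nat_lit 0) (nat_lit 0) (XT.lf (nat_lit 0) (nat_lit 17036580420) (nat_lit 152) (nat_lit 6585635387) (nat_lit 0) (nat_lit 4818246694) (nat_lit 5) (nat_lit 5) (nat_lit 7) (nat_lit 4) (nat_lit 5) (nat_lit 4) (nat_lit 277) (nat_lit 236) (nat_lit 207)) (XT.lf (nat_lit 0) (nat_lit 20949071401) (nat_lit 152) (nat_lit 841288320) (nat_lit 0) (nat_lit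 8621920571) (nat_lit 5) (nat_lit 5) (nat_lit 7) (nat_lit 4) (nat_lit 5) (nat_lit 4) (nat_lit 278) (nat_lit 236) (nat_lit 206)))) (XT.nd (nat_lit 78) (nat_lit 0) (nat_lit 0) (XT.lf (nat_lit 0) (nat_lit 5561228574) (nat_lit 76) (nat_lit 19700836254) (nat_lit 76) (nat_lit 7272928848) (nat_lit 4) (nat_lit 4) (nat_lit 5) (nat_lit 5) (nat_lit 5) (nat_lit 4) (nat_lit 279) (nat_lit 236) (nat_lit 205)) (XT.nd (nat_lit 78) (nat_lit 0) (nat_lit 0) (XT.lf (nat_lit 0) (nat_lit 12446233030) (nat_lit 76) (nat_lit 17452182735) (nat_lit 76) (nat_lit 4930982203) (nat_lit 4) (nat_lit 4) (nat_lit 5) (nat_lit 5) (nat_lit 5) (nat_lit 4) (nat_lit 280) (nat_lit 236) (nat_lit 204)) (XT.lf (nat_lit 0) (nat_lit 19810224319) (nat_lit 76) (nat_lit 15054076125) (nat_lit 76) (nat_lit 2446493068) (nat_lit 4) (nat_lit 4) (nat_lit 5) (nat_lit 5) (nat_lit 5) (nat_lit 4) (nat_lit 281) (nat_lit 236) (nat_lit 203)))))))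 (XT.nd (nat_lit 936) (nat_lit 76) (nat_lit 0) (XT.nd (nat_lit 468) (nat_lit 0) (nat_lit 0) (XT.nd (nat_lit 234) (nat_lit 76) (nat_lit 0) (XT.nd (nat_lit 78) (nat_lit 0) (nat_lit 0) (XT.lf (nat_lit 0) (nat_lit 185493685) (nat_lit 152) (nat_lit 12301740011) (nat_lit 76) (nat_lit 27506275499) (nat_lit 3) (nat_lit 5) (nat_lit 5) (nat_lit 5) (nat_lit 4) (nat_lit 4) (nat_lit 282) (nat_lit 236) (nat_lit 202)) (XT.nd (nat_lit 78) (nat_lit 0) (nat_lit 0) (XT.lf (nat_lit 0) (nat_lit 2859367006) (nat_lit 152) (nat_lit 6814142594) (nat_lit 76) (nat_lit 33215271141) (nat_lit 3) (nat_lit 5) (nat_lit 5) (nat_lit 5) (nat_lit 4) (nat_lit 4) (nat_lit 283) (nat_lit 236) (nat_lit 201)) (XT.lf (nat_lit 0) (nat_lit 5713355563) (nat_lit 152) (nat_lit 946419629) (nat_lit 76) (nat_lit 39358697180) (nat_lit 3) (nat_lit 5) (nat_lit 5) (nat_lit 5) (nat_lit 4) (nat_lit 4) (nat_lit 284) (nat_lit 236) (nat_lit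 200)))) (XT.nd (nat_lit 78) (nat_lit 0) (nat_lit 0) (XT.lf (nat_lit 0) (nat_lit 5617195438) (nat_lit 76) (nat_lit 3282270125) (nat_lit 152) (nat_lit 40490857353) (nat_lit 2) (nat_lit 5) (nat_lit 3) (nat_lit 5) (nat_lit 4) (nat_lit 4) (nat_lit 285) (nat_lit 236) (nat_lit 199)) (XT.nd (nat_lit 78) (nat_lit 0) (nat_lit 0) (XT.lf (nat_lit 0) (nat_lit 12345000055) (nat_lit 152) (nat_lit 40334680019) (nat_lit 0) (nat_lit 351959842) (nat_lit 2) (nat_lit 5) (nat_lit 4) (nat_lit 4) (nat_lit 2) (nat_lit 4) (nat_lit 286) (nat_lit 236) (nat_lit 198)) (XT.lf (nat_lit 0) (nat_lit 16122910749) (nat_lit 152) (nat_lit 36757420939) (nat_lit 0) (nat_lit 4079467163) (nat_lit 2) (nat_lit 5) (nat_lit 4) (nat_lit 4) (nat_lit 2) (nat_lit 4) (nat_lit 287) (nat_lit 236) (nat_lit 197))))) (XT.nd (nat_lit 234) (nat_lit 0) (nat_lit 0) (XT.nd (nat_lit 78) (nat_lit 0) (nat_lit 0) (XT.lf (nat_lit 0) (nat_lit 20176646589)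 (nat_lit 152) (nat_lit 32941212992) (nat_lit 0) (nat_lit 8086533212) (nat_lit 2) (nat_lit 5) (nat_lit 4) (nat_lit 4) (nat_lit 2) (nat_lit 4) (nat_lit 288) (nat_lit 236) (nat_lit 196)) (XT.nd (nat_lit 78) (nat_lit 0) (nat_lit 0) (XT.lf (nat_lit 0) (nat_lit 24530229712) (nat_lit 152) (nat_lit 28863441611) (nat_lit 0) (nat_lit 12396903567) (nat_lit 2) (nat_lit 5) (nat_lit 4) (nat_lit 4) (nat_lit 2) (nat_lit 4) (nat_lit 289) (nat_lit 236) (nat_lit 195)) (XT.lf (nat_lit 0) (nat_lit 29209459130) (nat_lit 152) (nat_lit 24499942225) (nat_lit 0) (nat_lit 17036121162) (nat_lit 2) (nat_lit 5) (nat_lit 4) (nat_lit 4) (nat_lit 2) (nat_lit 4) (nat_lit 290) (nat_lit 236) (nat_lit 194)))) (XT.nd (nat_lit 78) (nat_lit 0) (nat_lit 0) (XT.lf (nat_lit 0) (nat_lit 34242063610) (nat_lit 152) (nat_lit 19824857060) (nat_lit 0) (nat_lit 22031677658) (nat_lit 2) (nat_lit 5) (nat_lit 4) (nat_lit 4) (nat_lit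 2) (nat_lit 4) (nat_lit 291) (nat_lit 236) (nat_lit 193)) (XT.nd (nat_lit 78) (nat_lit 0) (nat_lit 0) (XT.lf (nat_lit 0) (nat_lit 39657865994) (nat_lit 152) (nat_lit 14810481909) (nat_lit 0) (nat_lit 27413176353) (nat_lit 2) (nat_lit 5) (nat_lit 4) (nat_lit 4) (nat_lit 2) (nat_lit 4) (nat_lit 292) (nat_lit 236) (nat_lit 192)) (XT.lf (nat_lit 0) (nat_lit 45488959925) (nat_lit 152) (nat_lit 9427101954) (nat_lit 0) (nat_lit 33212507608) (nat_lit 2) (nat_lit 5) (nat_lit 4) (nat_lit 4) (nat_lit 2) (nat_lit 4) (nat_lit 293) (nat_lit 236) (nat_lit 191)))))) (XT.nd (nat_lit 468) (nat_lit 0) (nat_lit 0) (XT.nd (nat_lit 234) (nat_lit 0) (nat_lit 0) (XT.nd (nat_lit 78) (nat_lit 76) (nat_lit 0) (XT.lf (nat_lit 0) (nat_lit 51769900033) (nat_lit 152) (nat_lit 3642815686) (nat_lit 0) (nat_lit 39464037832) (nat_lit 2) (nat_lit 5) (nat_lit 4) (nat_lit 4) (nat_lit 2) (nat_lit 4) (nat_lit 294) (nat_lit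 236) (nat_lit 190)) (XT.nd (nat_lit 78) (nat_lit 0) (nat_lit 0) (XT.lf (nat_lit 0) (nat_lit 2712336189) (nat_lit 76) (nat_lit 55890802266) (nat_lit 76) (nat_lit 43557708691) (nat_lit 1) (nat_lit 4) (nat_lit 2) (nat_lit 5) (nat_lit 2) (nat_lit 4) (nat_lit 295) (nat_lit 236) (nat_lit 189)) (XT.lf (nat_lit 0) (nat_lit 9756208739) (nat_lit 76) (nat_lit 56311514962) (nat_lit 76) (nat_lit 43953207151) (nat_lit 1) (nat_lit 4) (nat_lit 2) (nat_lit 5) (nat_lit 2) (nat_lit 4) (nat_lit 296) (nat_lit 236) (nat_lit 188)))) (XT.nd (nat_lit 78) (nat_lit 0) (nat_lit 0) (XT.lf (nat_lit 0) (nat_lit 17338719213) (nat_lit 76) (nat_lit 56776947955) (nat_lit 76) (nat_lit 44395293630) (nat_lit 1) (nat_lit 4) (nat_lit 2) (nat_lit 5) (nat_lit 2) (nat_lit 4) (nat_lit 297) (nat_lit 236) (nat_lit 187)) (XT.nd (nat_lit 78) (nat_lit 0) (nat_lit 0) (XT.lf (nat_lit 0) (nat_lit 25504801005) (nat_lit 76) (nat_lit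 57289859367) (nat_lit 76) (nat_lit 44886587899) (nat_lit 1) (nat_lit 4) (nat_lit 2) (nat_lit 5) (nat_lit 2) (nat_lit 4) (nat_lit 298) (nat_lit 236) (nat_lit 186)) (XT.lf (nat_lit 0) (nat_lit 34302845712) (nat_lit 76) (nat_lit 57853288672) (nat_lit 76) (nat_lit 45430001331) (nat_lit 1) (nat_lit 4) (nat_lit 2) (nat_lit 5) (nat_lit 2) (nat_lit 4) (nat_lit 299) (nat_lit 236) (nat_lit 185))))) (XT.nd (nat_lit 234) (nat_lit 0) (nat_lit 0) (XT.nd (nat_lit 78) (nat_lit 0) (nat_lit 0) (XT.lf (nat_lit 0) (nat_lit 43784989895) (nat_lit 76) (nat_lit 58470574712) (nat_lit 76) (nat_lit 46028754155) (nat_lit 1) (nat_lit 4) (nat_lit 2) (nat_lit 5) (nat_lit 2) (nat_lit 4) (nat_lit 300) (nat_lit 236) (nat_lit 184)) (XT.nd (nat_lit 78) (nat_lit 0) (nat_lit 0) (XT.lf (nat_lit 0) (nat_lit 54007424038) (nat_lit 76) (nat_lit 59145375477) (nat_lit 76) (nat_lit 46686394536) (nat_lit 1) (nat_lit 4) (nat_lit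 2) (nat_lit 5) (nat_lit 2) (nat_lit 4) (nat_lit 301) (nat_lit 236) (nat_lit 183)) (XT.lf (nat_lit 0) (nat_lit 65030725528) (nat_lit 76) (nat_lit 59881689787) (nat_lit 76) (nat_lit 47406819600) (nat_lit 1) (nat_lit 4) (nat_lit 2) (nat_lit 5) (nat_lit 2) (nat_lit 4) (nat_lit 302) (nat_lit 236) (nat_lit 182)))) (XT.nd (nat_lit 78) (nat_lit 0) (nat_lit 0) (XT.lf (nat_lit 0) (nat_lit 76920217634) (nat_lit 76) (nat_lit 60683880986) (nat_lit 76) (nat_lit 48194298535) (nat_lit 1) (nat_lit 4) (nat_lit 2) (nat_lit 5) (nat_lit 2) (nat_lit 4) (nat_lit 303) (nat_lit 236) (nat_lit 181)) (XT.nd (nat_lit 78) (nat_lit 0) (nat_lit 0) (XT.lf (nat_lit 0) (nat_lit 89746356604) (nat_lit 76) (nat_lit 61556702800) (nat_lit 76) (nat_lit 49053497882) (nat_lit 1) (nat_lit 4) (nat_lit 2) (nat_lit 5) (nat_lit 2) (nat_lit 4) (nat_lit 304) (nat_lit 236) (nat_lit 180)) (XT.lf (nat_lit 0) (nat_lit 103585149189) (nat_lit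 76) (nat_lit 62505327505) (nat_lit 76) (nat_lit 49989509192) (nat_lit 1) (nat_lit 4) (nat_lit 2) (nat_lit 5) (nat_lit 2) (nat_lit 4) (nat_lit 305) (nat_lit 236) (nat_lit 179))))))))
noncomputable def xc43 : XT := (XT.nd (nat_lit 1872) (nat_lit 0) (nat_lit 0) (XT.nd (nat_lit 936) (nat_lit 0) (nat_lit 0) (XT.nd (nat_lit 468) (nat_lit 0) (nat_lit 0) (XT.nd (nat_lit 234) (nat_lit 0) (nat_lit 0) (XT.nd (nat_lit 78) (nat_lit 0) (nat_lit 0) (XT.lf (nat_lit 0) (nat_lit 118518603049) (nat_lit 76) (nat_lit 63535376582) (nat_lit 76) (nat_lit 51007879199) (nat_lit 1) (nat_lit 4) (nat_lit 2) (nat_lit 5) (nat_lit 2) (nat_lit 4) (nat_lit 306) (nat_lit 236) (nat_lit 178)) (XT.nd (nat_lit 78) (nat_lit 0) (nat_lit 0) (XT.lf (nat_lit 0) (nat_lit 134635212724) (nat_lit 76) (nat_lit 64652954026) (nat_lit 76) (nat_lit 52114642689) (nat_lit 1) (nat_lit 4) (nat_lit 2) (nat_lit 5) (nat_lit 2) (nat_lit 4)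 (nat_lit 307) (nat_lit 236) (nat_lit 177)) (XT.lf (nat_lit 0) (nat_lit 152030484049) (nat_lit 76) (nat_lit 65864682516) (nat_lit 76) (nat_lit 53316358260) (nat_lit 1) (nat_lit 4) (nat_lit 2) (nat_lit 5) (nat_lit 2) (nat_lit 4) (nat_lit 308) (nat_lit 236) (nat_lit 176)))) (XT.nd (nat_lit 78) (nat_lit 0) (nat_lit 0) (XT.lf (nat_lit 0) (nat_lit 170807500115) (nat_lit 76) (nat_lit 67177742667) (nat_lit 76) (nat_lit 54620147189) (nat_lit 1) (nat_lit 4) (nat_lit 2) (nat_lit 5) (nat_lit 2) (nat_lit 4) (nat_lit 309) (nat_lit 236) (nat_lit 175)) (XT.nd (nat_lit 78) (nat_lit 0) (nat_lit 0) (XT.lf (nat_lit 0) (nat_lit 191077532127) (nat_lit 76) (nat_lit 68599915576) (nat_lit 76) (nat_lit 56033735633) (nat_lit 1) (nat_lit 4) (nat_lit 2) (nat_lit 5) (nat_lit 2) (nat_lit 4) (nat_lit 310) (nat_lit 236) (nat_lit 174)) (XT.lf (nat_lit 0) (nat_lit 212960698794) (nat_lit 76) (nat_lit 70139628935) (nat_lit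 76) (nat_lit 57565500413) (nat_lit 1) (nat_lit 4) (nat_lit 2) (nat_lit 5) (nat_lit 2) (nat_lit 4) (nat_lit 311) (nat_lit 236) (nat_lit 173))))) (XT.nd (nat_lit 234) (nat_lit 0) (nat_lit 0) (XT.nd (nat_lit 78) (nat_lit 0) (nat_lit 0) (XT.lf (nat_lit 0) (nat_lit 236586678140) (nat_lit 76) (nat_lit 71806006969) (nat_lit 76) (nat_lit 59224518653) (nat_lit 1) (nat_lit 4) (nat_lit 2) (nat_lit 5) (nat_lit 2) (nat_lit 4) (nat_lit 312) (nat_lit 236) (nat_lit 172)) (XT.nd (nat_lit 78) (nat_lit 0) (nat_lit 0) (XT.lf (nat_lit 0) (nat_lit 262095475969) (nat_lit 76) (nat_lit 73608924513) (nat_lit 76) (nat_lit 61020621571) (nat_lit 1) (nat_lit 4) (nat_lit 2) (nat_lit 5) (nat_lit 2) (nat_lit 4) (nat_lit 313) (nat_lit 236) (nat_lit 171)) (XT.lf (nat_lit 0) (nat_lit 289638255527) (nat_lit 76) (nat_lit 75559065522) (nat_lit 76) (nat_lit 62964452742) (nat_lit 1) (nat_lit 4) (nat_lit 2) (nat_lit 5) (nat_lit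 2) (nat_lit 4) (nat_lit 314) (nat_lit 236) (nat_lit 170)))) (XT.nd (nat_lit 78) (nat_lit 0) (nat_lit 0) (XT.lf (nat_lit 0) (nat_lit 319378233285) (nat_lit 76) (nat_lit 77667986387) (nat_lit 76) (nat_lit 65067531165) (nat_lit 1) (nat_lit 4) (nat_lit 2) (nat_lit 5) (nat_lit 2) (nat_lit 4) (nat_lit 315) (nat_lit 236) (nat_lit 169)) (XT.nd (nat_lit 78) (nat_lit 0) (nat_lit 0) (XT.lf (nat_lit 0) (nat_lit 351491646150) (nat_lit 76) (nat_lit 79948184417) (nat_lit 76) (nat_lit 67342319526) (nat_lit 1) (nat_lit 4) (nat_lit 2) (nat_lit 5) (nat_lit 2) (nat_lit 4) (nat_lit 316) (nat_lit 236) (nat_lit 168)) (XT.lf (nat_lit 0) (nat_lit 386168795826) (nat_lit 76) (nat_lit 82413171897) (nat_lit 76) (nat_lit 69802298053) (nat_lit 1) (nat_lit 4) (nat_lit 2) (nat_lit 5) (nat_lit 2) (nat_lit 4) (nat_lit 317) (nat_lit 236) (nat_lit 167)))))) (XT.nd (nat_lit 468) (nat_lit 0) (nat_lit 0) (XT.nd (nat_lit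 234) (nat_lit 0) (nat_lit 0) (XT.nd (nat_lit 78) (nat_lit 0) (nat_lit 0) (XT.lf (nat_lit 0) (nat_lit 423615176535) (nat_lit 76) (nat_lit 85077556160) (nat_lit 76) (nat_lit 72462044396) (nat_lit 1) (nat_lit 4) (nat_lit 2) (nat_lit 5) (nat_lit 2) (nat_lit 4) (nat_lit 318) (nat_lit 236) (nat_lit 166)) (XT.nd (nat_lit 78) (nat_lit 0) (nat_lit 0) (XT.lf (nat_lit 0) (nat_lit 464052692754) (nat_lit 76) (nat_lit 87957126149) (nat_lit 76) (nat_lit 75337320016) (nat_lit 1) (nat_lit 4) (nat_lit 2) (nat_lit 5) (nat_lit 2) (nat_lit 4) (nat_lit 319) (nat_lit 236) (nat_lit 165)) (XT.lf (nat_lit 0) (nat_lit 507720974209) (nat_lit 76) (nat_lit 91068945984) (nat_lit 76) (nat_lit 78445163582) (nat_lit 1) (nat_lit 4) (nat_lit 2) (nat_lit 5) (nat_lit 2) (nat_lit 4) (nat_lit 320) (nat_lit 236) (nat_lit 164)))) (XT.nd (nat_lit 78) (nat_lit 0) (nat_lit 0) (XT.lf (nat_lit 0) (nat_lit 554878795901) (nat_lit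 76) (nat_lit 94431456077) (nat_lit 76) (nat_lit 81803991946) (nat_lit 1) (nat_lit 4) (nat_lit 2) (nat_lit 5) (nat_lit 2) (nat_lit 4) (nat_lit 321) (nat_lit 236) (nat_lit 163)) (XT.nd (nat_lit 78) (nat_lit 0) (nat_lit 0) (XT.lf (nat_lit 0) (nat_lit 605805611588) (nat_lit 76) (nat_lit 98064582415) (nat_lit 76) (nat_lit 85433709275) (nat_lit 1) (nat_lit 4) (nat_lit 2) (nat_lit 5) (nat_lit 2) (nat_lit 4) (nat_lit 322) (nat_lit 236) (nat_lit 162)) (XT.lf (nat_lit 0) (nat_lit 660803209809) (nat_lit 76) (nat_lit 101989854635) (nat_lit 76) (nat_lit 89355825005) (nat_lit 1) (nat_lit 4) (nat_lit 2) (nat_lit 5) (nat_lit 2) (nat_lit 4) (nat_lit 323) (nat_lit 236) (nat_lit 161))))) (XT.nd (nat_lit 234) (nat_lit 0) (nat_lit 0) (XT.nd (nat_lit 78) (nat_lit 0) (nat_lit 0) (XT.lf (nat_lit 0) (nat_lit 720197502256) (nat_lit 76) (nat_lit 106230533610) (nat_lit 76) (nat_lit 93593581304) (nat_lit 1) (nat_lit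 4) (nat_lit 2) (nat_lit 5) (nat_lit 2) (nat_lit 4) (nat_lit 324) (nat_lit 236) (nat_lit 160)) (XT.nd (nat_lit 78) (nat_lit 0) (nat_lit 0) (XT.lf (nat_lit 0) (nat_lit 784340455106) (nat_lit 76) (nat_lit 110811749289) (nat_lit 76) (nat_lit 98172090802) (nat_lit 1) (nat_lit 4) (nat_lit 2) (nat_lit 5) (nat_lit 2) (nat_lit 4) (nat_lit 325) (nat_lit 236) (nat_lit 159)) (XT.lf (nat_lit 0) (nat_lit 853612174747) (nat_lit 76) (nat_lit 115760649617) (nat_lit 76) (nat_lit 103118485407) (nat_lit 1) (nat_lit 4) (nat_lit 2) (nat_lit 5) (nat_lit 2) (nat_lit 4) (nat_lit 326) (nat_lit 236) (nat_lit 158)))) (XT.nd (nat_lit 78) (nat_lit 0) (nat_lit 0) (XT.lf (nat_lit 0) (nat_lit 928423160258) (nat_lit 76) (nat_lit 121106561411) (nat_lit 76) (nat_lit 108462077086) (nat_lit 1) (nat_lit 4) (nat_lit 2) (nat_lit 5) (nat_lit 2) (nat_lit 4) (nat_lit 327) (nat_lit 236) (nat_lit 157)) (XT.nd (nat_lit 78) (nat_lit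 0) (nat_lit 0) (XT.lf (nat_lit 0) (nat_lit 1009216735997) (nat_lit 76) (nat_lit 126881164148) (nat_lit 76) (nat_lit 114234531569) (nat_lit 1) (nat_lit 4) (nat_lit 2) (nat_lit 5) (nat_lit 2) (nat_lit 4) (nat_lit 328) (nat_lit 236) (nat_lit 156)) (XT.lf (nat_lit 0) (nat_lit 1096471678711) (nat_lit 76) (nat_lit 133118677695) (nat_lit 76) (nat_lit 120470055992) (nat_lit 1) (nat_lit 4) (nat_lit 2) (nat_lit 5) (nat_lit 2) (nat_lit 4) (nat_lit 329) (nat_lit 236) (nat_lit 155))))))) (XT.nd (nat_lit 31356) (nat_lit 0) (nat_lit 912) (XT.nd (nat_lit 468) (nat_lit 0) (nat_lit 0) (XT.nd (nat_lit 234) (nat_lit 0) (nat_lit 0) (XT.nd (nat_lit 78) (nat_lit 0) (nat_lit 0) (XT.lf (nat_lit 0) (nat_lit 1190705054725) (nat_lit 76) (nat_lit 139856065097) (nat_lit 76) (nat_lit 127205601613) (nat_lit 1) (nat_lit 4) (nat_lit 2) (nat_lit 5) (nat_lit 2) (nat_lit 4) (nat_lit 330) (nat_lit 236) (nat_lit 154))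 (XT.nd (nat_lit 78) (nat_lit 0) (nat_lit 0) (XT.lf (nat_lit 0) (nat_lit 1292475284047) (nat_lit 76) (nat_lit 147133251612) (nat_lit 76) (nat_lit 134481082774) (nat_lit 1) (nat_lit 4) (nat_lit 2) (nat_lit 5) (nat_lit 2) (nat_lit 4) (nat_lit 331) (nat_lit 236) (nat_lit 153)) (XT.lf (nat_lit 0) (nat_lit 1402385449516) (nat_lit 76) (nat_lit 154993361308) (nat_lit 76) (nat_lit 142339613440) (nat_lit 1) (nat_lit 4) (nat_lit 2) (nat_lit 5) (nat_lit 2) (nat_lit 4) (nat_lit 332) (nat_lit 236) (nat_lit 152)))) (XT.nd (nat_lit 78) (nat_lit 0) (nat_lit 0) (XT.lf (nat_lit 0) (nat_lit 1521086870631) (nat_lit 76) (nat_lit 163482972613) (nat_lit 76) (nat_lit 150827762679) (nat_lit 1) (nat_lit 4) (nat_lit 2) (nat_lit 5) (nat_lit 2) (nat_lit 4) (nat_lit 333) (nat_lit 236) (nat_lit 151)) (XT.nd (nat_lit 78) (nat_lit 0) (nat_lit 0) (XT.lf (nat_lit 0) (nat_lit 1649282963222) (nat_lit 76) (nat_lit 172652394335)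 (nat_lit 76) (nat_lit 159995830636) (nat_lit 1) (nat_lit 4) (nat_lit 2) (nat_lit 5) (nat_lit 2) (nat_lit 4) (nat_lit 334) (nat_lit 236) (nat_lit 150)) (XT.lf (nat_lit 0) (nat_lit 1787733407837) (nat_lit 76) (nat_lit 182555963788) (nat_lit 76) (nat_lit 169898146603) (nat_lit 1) (nat_lit 4) (nat_lit 2) (nat_lit 5) (nat_lit 2) (nat_lit 4) (nat_lit 335) (nat_lit 236) (nat_lit 149))))) (XT.nd (nat_lit 30654) (nat_lit 0) (nat_lit 2508) (XT.nd (nat_lit 30498) (nat_lit 0) (nat_lit 3344) (XT.lf (nat_lit 0) (nat_lit 1937258651555) (nat_lit 76) (nat_lit 193252368790) (nat_lit 76) (nat_lit 180593390971) (nat_lit 1) (nat_lit 4) (nat_lit 2) (nat_lit 5) (nat_lit 2) (nat_lit 4) (nat_lit 336) (nat_lit 236) (nat_lit 148)) (XT.nd (nat_lit 78) (nat_lit 228) (nat_lit 0) (XT.lf (nat_lit 0) (nat_lit 1612809678) (nat_lit 228) (nat_lit 138954661) (nat_lit 0) (nat_lit 1612809678) (nat_lit 48) (nat_lit 5) (nat_lit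 51) (nat_lit 4) (nat_lit 48) (nat_lit 4) (nat_lit 246) (nat_lit 237) (nat_lit 237)) (XT.lf (nat_lit 0) (nat_lit 3581248478) (nat_lit 228) (nat_lit 2567163166) (nat_lit 228) (nat_lit 690544153) (nat_lit 45) (nat_lit 4) (nat_lit 48) (nat_lit 5) (nat_lit 48) (nat_lit 4) (nat_lit 247) (nat_lit 237) (nat_lit 236)))) (XT.nd (nat_lit 78) (nat_lit 456) (nat_lit 0) (XT.lf (nat_lit 0) (nat_lit 575194879) (nat_lit 304) (nat_lit 1438951316) (nat_lit 380) (nat_lit 4958559611) (nat_lit 40) (nat_lit 5) (nat_lit 44) (nat_lit 5) (nat_lit 45) (nat_lit 4) (nat_lit 248) (nat_lit 237) (nat_lit 235)) (XT.nd (nat_lit 78) (nat_lit 456) (nat_lit 0) (XT.lf (nat_lit 0) (nat_lit 4681377347) (nat_lit 304) (nat_lit 80403847) (nat_lit 380) (nat_lit 2367053642) (nat_lit 40) (nat_lit 5) (nat_lit 44) (nat_lit 5) (nat_lit 45) (nat_lit 4) (nat_lit 249) (nat_lit 237) (nat_lit 234)) (XT.lf (nat_lit 0) (nat_lit 270575946)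 (nat_lit 456) (nat_lit 5652802229) (nat_lit 76) (nat_lit 1386319877) (nat_lit 34) (nat_lit 5) (nat_lit 40) (nat_lit 5) (nat_lit 35) (nat_lit 4) (nat_lit 250) (nat_lit 237) (nat_lit 233)))))) (XT.nd (nat_lit 468) (nat_lit 684) (nat_lit 0) (XT.nd (nat_lit 234) (nat_lit 380) (nat_lit 0) (XT.nd (nat_lit 78) (nat_lit 532) (nat_lit 0) (XT.lf (nat_lit 0) (nat_lit 2858200631) (nat_lit 456) (nat_lit 1547738251) (nat_lit 76) (nat_lit 3106589050) (nat_lit 34) (nat_lit 5) (nat_lit 40) (nat_lit 5) (nat_lit 35) (nat_lit 4) (nat_lit 251) (nat_lit 237) (nat_lit 232)) (XT.nd (nat_lit 78) (nat_lit 76) (nat_lit 0) (XT.lf (nat_lit 0) (nat_lit 2831504364) (nat_lit 456) (nat_lit 2700653439) (nat_lit 532) (nat_lit 2210715344) (nat_lit 28) (nat_lit 5) (nat_lit 34) (nat_lit 5) (nat_lit 35) (nat_lit 4) (nat_lit 252) (nat_lit 237) (nat_lit 231)) (XT.lf (nat_lit 0) (nat_lit 264892518) (nat_lit 532) (nat_lit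 552634439) (nat_lit 76) (nat_lit 7186061419) (nat_lit 27) (nat_lit 5) (nat_lit 34) (nat_lit 5) (nat_lit 28) (nat_lit 5) (nat_lit 253) (nat_lit 237) (nat_lit 230)))) (XT.nd (nat_lit 78) (nat_lit 152) (nat_lit 0) (XT.lf (nat_lit 0) (nat_lit 2779309738) (nat_lit 304) (nat_lit 4204454168) (nat_lit 76) (nat_lit 1301285194) (nat_lit 24) (nat_lit 5) (nat_lit 28) (nat_lit 5) (nat_lit 25) (nat_lit 4) (nat_lit 254) (nat_lit 237) (nat_lit 229)) (XT.nd (nat_lit 78) (nat_lit 0) (nat_lit 0) (XT.lf (nat_lit 0) (nat_lit 326613480) (nat_lit 152) (nat_lit 5048996909) (nat_lit 228) (nat_lit 3224159478) (nat_lit 22) (nat_lit 5) (nat_lit 24) (nat_lit 5) (nat_lit 25) (nat_lit 4) (nat_lit 255) (nat_lit 237) (nat_lit 228)) (XT.lf (nat_lit 0) (nat_lit 5268052757) (nat_lit 152) (nat_lit 2870196576) (nat_lit 228) (nat_lit 805840803) (nat_lit 22) (nat_lit 5) (nat_lit 24) (nat_lit 5) (nat_lit 25) (nat_lit 4)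 (nat_lit 256) (nat_lit 237) (nat_lit 227))))) (XT.nd (nat_lit 234) (nat_lit 228) (nat_lit 0) (XT.nd (nat_lit 78) (nat_lit 152) (nat_lit 0) (XT.lf (nat_lit 0) (nat_lit 1115325971) (nat_lit 228) (nat_lit 477618696) (nat_lit 304) (nat_lit 7730303229) (nat_lit 18) (nat_lit 5) (nat_lit 21) (nat_lit 5) (nat_lit 22) (nat_lit 5) (nat_lit 257) (nat_lit 237) (nat_lit 226)) (XT.nd (nat_lit 78) (nat_lit 152) (nat_lit 0) (XT.lf (nat_lit 0) (nat_lit 4150184597) (nat_lit 304) (nat_lit 3492399374) (nat_lit 76) (nat_lit 2088555999) (nat_lit 18) (nat_lit 5) (nat_lit 22) (nat_lit 5) (nat_lit 19) (nat_lit 4) (nat_lit 258) (nat_lit 237) (nat_lit 225)) (XT.lf (nat_lit 0) (nat_lit 1483893322) (nat_lit 152) (nat_lit 5343157271) (nat_lit 228) (nat_lit 3352226846) (nat_lit 16) (nat_lit 5) (nat_lit 18) (nat_lit 5) (nat_lit 19) (nat_lit 4) (nat_lit 259) (nat_lit 237) (nat_lit 224)))) (XT.nd (nat_lit 78) (nat_lit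 228) (nat_lit 0) (XT.lf (nat_lit 0) (nat_lit 6883122780) (nat_lit 152) (nat_lit 2803060822) (nat_lit 228) (nat_lit 980390089) (nat_lit 16) (nat_lit 5) (nat_lit 18) (nat_lit 5) (nat_lit 19) (nat_lit 4) (nat_lit 260) (nat_lit 237) (nat_lit 223)) (XT.nd (nat_lit 78) (nat_lit 0) (nat_lit 0) (XT.lf (nat_lit 0) (nat_lit 1384712564) (nat_lit 152) (nat_lit 29020603) (nat_lit 228) (nat_lit 9783796457) (nat_lit 13) (nat_lit 5) (nat_lit 15) (nat_lit 5) (nat_lit 16) (nat_lit 5) (nat_lit 261) (nat_lit 237) (nat_lit 222)) (XT.lf (nat_lit 0) (nat_lit 4006184480) (nat_lit 228) (nat_lit 4853203922) (nat_lit 76) (nat_lit 2905356370) (nat_lit 13) (nat_lit 5) (nat_lit 16) (nat_lit 5) (nat_lit 14) (nat_lit 4) (nat_lit 262) (nat_lit 237) (nat_lit 221))))))))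
noncomputable def xc44 : XT := (XT.nd (nat_lit 1794) (nat_lit 152) (nat_lit 0) (XT.nd (nat_lit 858) (nat_lit 228) (nat_lit 0) (XT.nd (nat_lit 390) (nat_lit 228) (nat_lit 0) (XT.nd (nat_lit 156) (nat_lit 228) (nat_lit 0) (XT.nd (nat_lit 78) (nat_lit 0) (nat_lit 0) (XT.lf (nat_lit 0) (nat_lit 360740290) (nat_lit 76) (nat_lit 6345717967) (nat_lit 152) (nat_lit 5679401334) (nat_lit 12) (nat_lit 5) (nat_lit 13) (nat_lit 5) (nat_lit 14) (nat_lit 4) (nat_lit 263) (nat_lit 237) (nat_lit 220)) (XT.lf (nat_lit 0) (nat_lit 6112119958) (nat_lit 76) (nat_lit 3538656001) (nat_lit 152) (nat_lit 3404161215) (nat_lit 12) (nat_lit 5) (nat_lit 13) (nat_lit 5) (nat_lit 14) (nat_lit 4) (nat_lit 264) (nat_lit 237) (nat_lit 219))) (XT.nd (nat_lit 78) (nat_lit 228) (nat_lit 0) (XT.lf (nat_lit 0) (nat_lit 12179456213) (nat_lit 76) (nat_lit 554263260) (nat_lit 152) (nat_lit 1052052227) (nat_lit 12) (nat_lit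 5) (nat_lit 13) (nat_lit 5) (nat_lit 14) (nat_lit 4) (nat_lit 265) (nat_lit 237) (nat_lit 218)) (XT.nd (nat_lit 78) (nat_lit 0) (nat_lit 0) (XT.lf (nat_lit 0) (nat_lit 1488734150) (nat_lit 228) (nat_lit 10446300738) (nat_lit 76) (nat_lit 2631587386) (nat_lit 9) (nat_lit 5) (nat_lit 12) (nat_lit 5) (nat_lit 10) (nat_lit 4) (nat_lit 266) (nat_lit 237) (nat_lit 217)) (XT.lf (nat_lit 0) (nat_lit 4145394887) (nat_lit 228) (nat_lit 5194466380) (nat_lit 76) (nat_lit 6070716366) (nat_lit 9) (nat_lit 5) (nat_lit 12) (nat_lit 5) (nat_lit 10) (nat_lit 4) (nat_lit 267) (nat_lit 237) (nat_lit 216))))) (XT.nd (nat_lit 234) (nat_lit 152) (nat_lit 0) (XT.nd (nat_lit 78) (nat_lit 0) (nat_lit 0) (XT.lf (nat_lit 0) (nat_lit 364627159) (nat_lit 76) (nat_lit 6575390680) (nat_lit 152) (nat_lit 9388347967) (nat_lit 8) (nat_lit 5) (nat_lit 9) (nat_lit 5) (nat_lit 10) (nat_lit 4) (nat_lit 268) (nat_lit 237)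 (nat_lit 215)) (XT.nd (nat_lit 78) (nat_lit 0) (nat_lit 0) (XT.lf (nat_lit 0) (nat_lit 6536054084) (nat_lit 76) (nat_lit 3483942067) (nat_lit 152) (nat_lit 7294962792) (nat_lit 8) (nat_lit 5) (nat_lit 9) (nat_lit 5) (nat_lit 10) (nat_lit 4) (nat_lit 269) (nat_lit 237) (nat_lit 214)) (XT.lf (nat_lit 0) (nat_lit 13082854417) (nat_lit 76) (nat_lit 189221650) (nat_lit 152) (nat_lit 5114647892) (nat_lit 8) (nat_lit 5) (nat_lit 9) (nat_lit 5) (nat_lit 10) (nat_lit 4) (nat_lit 270) (nat_lit 237) (nat_lit 213)))) (XT.nd (nat_lit 78) (nat_lit 76) (nat_lit 0) (XT.lf (nat_lit 0) (nat_lit 435554589) (nat_lit 76) (nat_lit 16370495252) (nat_lit 76) (nat_lit 2736720561) (nat_lit 7) (nat_lit 4) (nat_lit 8) (nat_lit 5) (nat_lit 8) (nat_lit 4) (nat_lit 271) (nat_lit 237) (nat_lit 212)) (XT.nd (nat_lit 78) (nat_lit 76) (nat_lit 0) (XT.lf (nat_lit 0) (nat_lit 6819114503) (nat_lit 76) (nat_lit 13886147968)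 (nat_lit 76) (nat_lit 79694211) (nat_lit 7) (nat_lit 4) (nat_lit 8) (nat_lit 5) (nat_lit 8) (nat_lit 4) (nat_lit 272) (nat_lit 237) (nat_lit 211)) (XT.lf (nat_lit 0) (nat_lit 2586184967) (nat_lit 152) (nat_lit 8587077049) (nat_lit 76) (nat_lit 10953240906) (nat_lit 6) (nat_lit 5) (nat_lit 8) (nat_lit 5) (nat_lit 7) (nat_lit 4) (nat_lit 273) (nat_lit 237) (nat_lit 210)))))) (XT.nd (nat_lit 468) (nat_lit 76) (nat_lit 0) (XT.nd (nat_lit 234) (nat_lit 76) (nat_lit 0) (XT.nd (nat_lit 78) (nat_lit 76) (nat_lit 0) (XT.lf (nat_lit 0) (nat_lit 5401633116) (nat_lit 152) (nat_lit 2878989365) (nat_lit 76) (nat_lit 15299541094) (nat_lit 6) (nat_lit 5) (nat_lit 8) (nat_lit 5) (nat_lit 7) (nat_lit 4) (nat_lit 274) (nat_lit 237) (nat_lit 209)) (XT.nd (nat_lit 78) (nat_lit 0) (nat_lit 0) (XT.lf (nat_lit 0) (nat_lit 3362362200) (nat_lit 76) (nat_lit 5105823693) (nat_lit 152) (nat_lit 16680051175) (nat_lit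 5) (nat_lit 5) (nat_lit 6) (nat_lit 5) (nat_lit 7) (nat_lit 4) (nat_lit 275) (nat_lit 237) (nat_lit 208)) (XT.lf (nat_lit 0) (nat_lit 10177488995) (nat_lit 76) (nat_lit 1628221448) (nat_lit 152) (nat_lit 15034169648) (nat_lit 5) (nat_lit 5) (nat_lit 6) (nat_lit 5) (nat_lit 7) (nat_lit 4) (nat_lit 276) (nat_lit 237) (nat_lit 207)))) (XT.nd (nat_lit 78) (nat_lit 76) (nat_lit 0) (XT.lf (nat_lit 0) (nat_lit 15411461450) (nat_lit 152) (nat_lit 11266136150) (nat_lit 0) (nat_lit 1989321451) (nat_lit 5) (nat_lit 5) (nat_lit 7) (nat_lit 4) (nat_lit 5) (nat_lit 4) (nat_lit 277) (nat_lit 237) (nat_lit 206)) (XT.nd (nat_lit 78) (nat_lit 76) (nat_lit 0) (XT.lf (nat_lit 0) (nat_lit 19301719492) (nat_lit 152) (nat_lit 5560045387) (nat_lit 0) (nat_lit 5778822917) (nat_lit 5) (nat_lit 5) (nat_lit 7) (nat_lit 4) (nat_lit 5) (nat_lit 4) (nat_lit 278) (nat_lit 237) (nat_lit 205)) (XT.lf (nat_lit 0) (nat_lit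 556702332) (nat_lit 76) (nat_lit 22917065557) (nat_lit 76) (nat_lit 9300875855) (nat_lit 4) (nat_lit 4) (nat_lit 5) (nat_lit 5) (nat_lit 5) (nat_lit 4) (nat_lit 279) (nat_lit 237) (nat_lit 204))))) (XT.nd (nat_lit 234) (nat_lit 76) (nat_lit 0) (XT.nd (nat_lit 78) (nat_lit 0) (nat_lit 0) (XT.lf (nat_lit 0) (nat_lit 7407181056) (nat_lit 76) (nat_lit 20683046264) (nat_lit 76) (nat_lit 6980474038) (nat_lit 4) (nat_lit 4) (nat_lit 5) (nat_lit 5) (nat_lit 5) (nat_lit 4) (nat_lit 280) (nat_lit 237) (nat_lit 203)) (XT.nd (nat_lit 78) (nat_lit 0) (nat_lit 0) (XT.lf (nat_lit 0) (nat_lit 14739204075) (nat_lit 76) (nat_lit 18298489864) (nat_lit 76) (nat_lit 4515933818) (nat_lit 4) (nat_lit 4) (nat_lit 5) (nat_lit 5) (nat_lit 5) (nat_lit 4) (nat_lit 281) (nat_lit 237) (nat_lit 202)) (XT.lf (nat_lit 0) (nat_lit 22596220416) (nat_lit 76) (nat_lit 15749265650) (nat_lit 76) (nat_lit 1892650513) (nat_lit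 4) (nat_lit 4) (nat_lit 5) (nat_lit 5) (nat_lit 5) (nat_lit 4) (nat_lit 282) (nat_lit 237) (nat_lit 201)))) (XT.nd (nat_lit 78) (nat_lit 0) (nat_lit 0) (XT.lf (nat_lit 0) (nat_lit 859653433) (nat_lit 152) (nat_lit 12137109229) (nat_lit 76) (nat_lit 30141632294) (nat_lit 3) (nat_lit 5) (nat_lit 5) (nat_lit 5) (nat_lit 4) (nat_lit 4) (nat_lit 283) (nat_lit 237) (nat_lit 200)) (XT.nd (nat_lit 78) (nat_lit 0) (nat_lit 0) (XT.lf (nat_lit 0) (nat_lit 3698598083) (nat_lit 152) (nat_lit 6295598091) (nat_lit 76) (nat_lit 36275136123) (nat_lit 3) (nat_lit 5) (nat_lit 5) (nat_lit 5) (nat_lit 4) (nat_lit 4) (nat_lit 284) (nat_lit 237) (nat_lit 199)) (XT.lf (nat_lit 0) (nat_lit 6735684856) (nat_lit 152) (nat_lit 37248098) (nat_lit 76) (nat_lit 42880210817) (nat_lit 3) (nat_lit 5) (nat_lit 5) (nat_lit 5) (nat_lit 4) (nat_lit 4) (nat_lit 285) (nat_lit 237) (nat_lit 198))))))) (XT.nd (nat_lit 936)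 (nat_lit 0) (nat_lit 0) (XT.nd (nat_lit 468) (nat_lit 76) (nat_lit 0) (XT.nd (nat_lit 234) (nat_lit 0) (nat_lit 0) (XT.nd (nat_lit 78) (nat_lit 0) (nat_lit 0) (XT.lf (nat_lit 0) (nat_lit 7026522375) (nat_lit 76) (nat_lit 3131376960) (nat_lit 152) (nat_lit 43138463215) (nat_lit 2) (nat_lit 5) (nat_lit 3) (nat_lit 5) (nat_lit 4) (nat_lit 4) (nat_lit 286) (nat_lit 237) (nat_lit 197)) (XT.nd (nat_lit 78) (nat_lit 0) (nat_lit 0) (XT.lf (nat_lit 0) (nat_lit 13847804323) (nat_lit 152) (nat_lit 42639979028) (nat_lit 0) (nat_lit 743812086) (nat_lit 2) (nat_lit 5) (nat_lit 4) (nat_lit 4) (nat_lit 2) (nat_lit 4) (nat_lit 287) (nat_lit 237) (nat_lit 196)) (XT.lf (nat_lit 0) (nat_lit 17889784594) (nat_lit 152) (nat_lit 38844796659) (nat_lit 0) (nat_lit 4742579588) (nat_lit 2) (nat_lit 5) (nat_lit 4) (nat_lit 4) (nat_lit 2) (nat_lit 4) (nat_lit 288) (nat_lit 237) (nat_lit 195)))) (XT.nd (nat_lit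 78) (nat_lit 0) (nat_lit 0) (XT.lf (nat_lit 0) (nat_lit 22232482931) (nat_lit 152) (nat_lit 34786493405) (nat_lit 0) (nat_lit 9045266103) (nat_lit 2) (nat_lit 5) (nat_lit 4) (nat_lit 4) (nat_lit 2) (nat_lit 4) (nat_lit 289) (nat_lit 237) (nat_lit 194)) (XT.nd (nat_lit 78) (nat_lit 0) (nat_lit 0) (XT.lf (nat_lit 0) (nat_lit 26901633844) (nat_lit 152) (nat_lit 30441020064) (nat_lit 0) (nat_lit 13677369031) (nat_lit 2) (nat_lit 5) (nat_lit 4) (nat_lit 4) (nat_lit 2) (nat_lit 4) (nat_lit 290) (nat_lit 237) (nat_lit 193)) (XT.lf (nat_lit 0) (nat_lit 31924906375) (nat_lit 152) (nat_lit 25782625681) (nat_lit 0) (nat_lit 18666337873) (nat_lit 2) (nat_lit 5) (nat_lit 4) (nat_lit 4) (nat_lit 2) (nat_lit 4) (nat_lit 291) (nat_lit 237) (nat_lit 192))))) (XT.nd (nat_lit 234) (nat_lit 76) (nat_lit 0) (XT.nd (nat_lit 78) (nat_lit 0) (nat_lit 0) (XT.lf (nat_lit 0) (nat_lit 37332068064) (nat_lit 152)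 (nat_lit 20783704957) (nat_lit 0) (nat_lit 24041736887) (nat_lit 2) (nat_lit 5) (nat_lit 4) (nat_lit 4) (nat_lit 2) (nat_lit 4) (nat_lit 292) (nat_lit 237) (nat_lit 191)) (XT.nd (nat_lit 78) (nat_lit 0) (nat_lit 0) (XT.lf (nat_lit 0) (nat_lit 43155161352) (nat_lit 152) (nat_lit 15414634657) (nat_lit 0) (nat_lit 29835420291) (nat_lit 2) (nat_lit 5) (nat_lit 4) (nat_lit 4) (nat_lit 2) (nat_lit 4) (nat_lit 293) (nat_lit 237) (nat_lit 190)) (XT.lf (nat_lit 0) (nat_lit 49428693458) (nat_lit 152) (nat_lit 9643598069) (nat_lit 0) (nat_lit 36081721023) (nat_lit 2) (nat_lit 5) (nat_lit 4) (nat_lit 4) (nat_lit 2) (nat_lit 4) (nat_lit 294) (nat_lit 237) (nat_lit 189)))) (XT.nd (nat_lit 78) (nat_lit 76) (nat_lit 0) (XT.lf (nat_lit 0) (nat_lit 56189840868) (nat_lit 152) (nat_lit 3436396458) (nat_lit 0) (nat_lit 42817654197) (nat_lit 2) (nat_lit 5) (nat_lit 4) (nat_lit 4) (nat_lit 2) (nat_lit 4)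 (nat_lit 295) (nat_lit 237) (nat_lit 188)) (XT.nd (nat_lit 78) (nat_lit 0) (nat_lit 0) (XT.lf (nat_lit 0) (nat_lit 3414563909) (nat_lit 76) (nat_lit 60146226077) (nat_lit 76) (nat_lit 46750692892) (nat_lit 1) (nat_lit 4) (nat_lit 2) (nat_lit 5) (nat_lit 2) (nat_lit 4) (nat_lit 296) (nat_lit 237) (nat_lit 187)) (XT.lf (nat_lit 0) (nat_lit 10986002498) (nat_lit 76) (nat_lit 60616583964) (nat_lit 76) (nat_lit 47199433636) (nat_lit 1) (nat_lit 4) (nat_lit 2) (nat_lit 5) (nat_lit 2) (nat_lit 4) (nat_lit 297) (nat_lit 237) (nat_lit 186)))))) (XT.nd (nat_lit 468) (nat_lit 0) (nat_lit 0) (XT.nd (nat_lit 234) (nat_lit 0) (nat_lit 0) (XT.nd (nat_lit 78) (nat_lit 0) (nat_lit 0) (XT.lf (nat_lit 0) (nat_lit 19141832546) (nat_lit 76) (nat_lit 61134055463) (nat_lit 76) (nat_lit 47696889262) (nat_lit 1) (nat_lit 4) (nat_lit 2) (nat_lit 5) (nat_lit 2) (nat_lit 4) (nat_lit 298) (nat_lit 237) (nat_lit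 185)) (XT.nd (nat_lit 78) (nat_lit 0) (nat_lit 0) (XT.lf (nat_lit 0) (nat_lit 27930384897) (nat_lit 76) (nat_lit 61701707071) (nat_lit 76) (nat_lit 48246007654) (nat_lit 1) (nat_lit 4) (nat_lit 2) (nat_lit 5) (nat_lit 2) (nat_lit 4) (nat_lit 299) (nat_lit 237) (nat_lit 184)) (XT.lf (nat_lit 0) (nat_lit 37403739861) (nat_lit 76) (nat_lit 62322902650) (nat_lit 76) (nat_lit 48850042848) (nat_lit 1) (nat_lit 4) (nat_lit 2) (nat_lit 5) (nat_lit 2) (nat_lit 4) (nat_lit 300) (nat_lit 237) (nat_lit 183)))) (XT.nd (nat_lit 78) (nat_lit 0) (nat_lit 0) (XT.lf (nat_lit 0) (nat_lit 47618035838) (nat_lit 76) (nat_lit 63001323360) (nat_lit 76) (nat_lit 49512574312) (nat_lit 1) (nat_lit 4) (nat_lit 2) (nat_lit 5) (nat_lit 2) (nat_lit 4) (nat_lit 301) (nat_lit 237) (nat_lit 182)) (XT.nd (nat_lit 78) (nat_lit 0) (nat_lit 0) (XT.lf (nat_lit 0) (nat_lit 58633801990) (nat_lit 76) (nat_lit 63740989470)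 (nat_lit 76) (nat_lit 50237528158) (nat_lit 1) (nat_lit 4) (nat_lit 2) (nat_lit 5) (nat_lit 2) (nat_lit 4) (nat_lit 302) (nat_lit 237) (nat_lit 181)) (XT.lf (nat_lit 0) (nat_lit 70516316931) (nat_lit 76) (nat_lit 64546284187) (nat_lit 76) (nat_lit 51029200409) (nat_lit 1) (nat_lit 4) (nat_lit 2) (nat_lit 5) (nat_lit 2) (nat_lit 4) (nat_lit 303) (nat_lit 237) (nat_lit 180))))) (XT.nd (nat_lit 234) (nat_lit 0) (nat_lit 0) (XT.nd (nat_lit 78) (nat_lit 0) (nat_lit 0) (XT.lf (nat_lit 0) (nat_lit 83335995563) (nat_lit 76) (nat_lit 65421979629) (nat_lit 76) (nat_lit 51892282455) (nat_lit 1) (nat_lit 4) (nat_lit 2) (nat_lit 5) (nat_lit 2) (nat_lit 4) (nat_lit 304) (nat_lit 237) (nat_lit 179)) (XT.nd (nat_lit 78) (nat_lit 0) (nat_lit 0) (XT.lf (nat_lit 0) (nat_lit 97168806354) (nat_lit 76) (nat_lit 66373265101) (nat_lit 76) (nat_lit 52831888858) (nat_lit 1) (nat_lit 4) (nat_lit 2) (nat_lit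 5) (nat_lit 2) (nat_lit 4) (nat_lit 305) (nat_lit 237) (nat_lit 178)) (XT.lf (nat_lit 0) (nat_lit 112096721515) (nat_lit 76) (nat_lit 67405777852) (nat_lit 76) (nat_lit 53853587655) (nat_lit 1) (nat_lit 4) (nat_lit 2) (nat_lit 5) (nat_lit 2) (nat_lit 4) (nat_lit 306) (nat_lit 237) (nat_lit 177)))) (XT.nd (nat_lit 78) (nat_lit 0) (nat_lit 0) (XT.lf (nat_lit 0) (nat_lit 128208202765) (nat_lit 76) (nat_lit 68525636474) (nat_lit 76) (nat_lit 54963433357) (nat_lit 1) (nat_lit 4) (nat_lit 2) (nat_lit 5) (nat_lit 2) (nat_lit 4) (nat_lit 307) (nat_lit 237) (nat_lit 176)) (XT.nd (nat_lit 78) (nat_lit 0) (nat_lit 0) (XT.lf (nat_lit 0) (nat_lit 145598725549) (nat_lit 76) (nat_lit 69739477167) (nat_lit 76) (nat_lit 56168002828) (nat_lit 1) (nat_lit 4) (nat_lit 2) (nat_lit 5) (nat_lit 2) (nat_lit 4) (nat_lit 308) (nat_lit 237) (nat_lit 175)) (XT.lf (nat_lit 0) (nat_lit 164371344817) (nat_lit 76)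 (nat_lit 71054493061) (nat_lit 76) (nat_lit 57474434258) (nat_lit 1) (nat_lit 4) (nat_lit 2) (nat_lit 5) (nat_lit 2) (nat_lit 4) (nat_lit 309) (nat_lit 237) (nat_lit 174))))))))
noncomputable def xc45 : XT := (XT.nd (nat_lit 1872) (nat_lit 0) (nat_lit 0) (XT.nd (nat_lit 936) (nat_lit 0) (nat_lit 0) (XT.nd (nat_lit 468) (nat_lit 0) (nat_lit 0) (XT.nd (nat_lit 234) (nat_lit 0) (nat_lit 0) (XT.nd (nat_lit 78) (nat_lit 0) (nat_lit 0) (XT.lf (nat_lit 0) (nat_lit 184637305721) (nat_lit 76) (nat_lit 72478476844) (nat_lit 76) (nat_lit 58890469461) (nat_lit 1) (nat_lit 4) (nat_lit 2) (nat_lit 5) (nat_lit 2) (nat_lit 4) (nat_lit 310) (nat_lit 237) (nat_lit 173)) (XT.nd (nat_lit 78) (nat_lit 0) (nat_lit 0) (XT.lf (nat_lit 0) (nat_lit 206516702842) (nat_lit 76) (nat_lit 74019866936) (nat_lit 76) (nat_lit 60424499759) (nat_lit 1) (nat_lit 4) (nat_lit 2) (nat_lit 5) (nat_lit 2) (nat_lit 4) (nat_lit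 311) (nat_lit 237) (nat_lit 172)) (XT.lf (nat_lit 0) (nat_lit 230139191869) (nat_lit 76) (nat_lit 75687797503) (nat_lit 76) (nat_lit 62085615701) (nat_lit 1) (nat_lit 4) (nat_lit 2) (nat_lit 5) (nat_lit 2) (nat_lit 4) (nat_lit 312) (nat_lit 237) (nat_lit 171)))) (XT.nd (nat_lit 78) (nat_lit 0) (nat_lit 0) (XT.lf (nat_lit 0) (nat_lit 255644757920) (nat_lit 76) (nat_lit 77492152576) (nat_lit 76) (nat_lit 63883660936) (nat_lit 1) (nat_lit 4) (nat_lit 2) (nat_lit 5) (nat_lit 2) (nat_lit 4) (nat_lit 313) (nat_lit 237) (nat_lit 170)) (XT.nd (nat_lit 78) (nat_lit 0) (nat_lit 0) (XT.lf (nat_lit 0) (nat_lit 283184545092) (nat_lit 76) (nat_lit 79443624631) (nat_lit 76) (nat_lit 65829290548) (nat_lit 1) (nat_lit 4) (nat_lit 2) (nat_lit 5) (nat_lit 2) (nat_lit 4) (nat_lit 314) (nat_lit 237) (nat_lit 169)) (XT.lf (nat_lit 0) (nat_lit 312921752122) (nat_lit 76) (nat_lit 81553777946) (nat_lit 76)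 (nat_lit 67934034194) (nat_lit 1) (nat_lit 4) (nat_lit 2) (nat_lit 5) (nat_lit 2) (nat_lit 4) (nat_lit 315) (nat_lit 237) (nat_lit 168))))) (XT.nd (nat_lit 234) (nat_lit 0) (nat_lit 0) (XT.nd (nat_lit 78) (nat_lit 0) (nat_lit 0) (XT.lf (nat_lit 0) (nat_lit 345032599497) (nat_lit 76) (nat_lit 83835117134) (nat_lit 76) (nat_lit 70210364429) (nat_lit 1) (nat_lit 4) (nat_lit 2) (nat_lit 5) (nat_lit 2) (nat_lit 4) (nat_lit 316) (nat_lit 237) (nat_lit 167)) (XT.nd (nat_lit 78) (nat_lit 0) (nat_lit 0) (XT.lf (nat_lit 0) (nat_lit 379707373721) (nat_lit 76) (nat_lit 86301161241) (nat_lit 76) (nat_lit 72671770617) (nat_lit 1) (nat_lit 4) (nat_lit 2) (nat_lit 5) (nat_lit 2) (nat_lit 4) (nat_lit 317) (nat_lit 237) (nat_lit 166)) (XT.lf (nat_lit 0) (nat_lit 417151554936) (nat_lit 76) (nat_lit 88966523862) (nat_lit 76) (nat_lit 75332838868) (nat_lit 1) (nat_lit 4) (nat_lit 2) (nat_lit 5) (nat_lit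 2) (nat_lit 4) (nat_lit 318) (nat_lit 237) (nat_lit 165)))) (XT.nd (nat_lit 78) (nat_lit 0) (nat_lit 0) (XT.lf (nat_lit 0) (nat_lit 457587034587) (nat_lit 76) (nat_lit 91846999738) (nat_lit 76) (nat_lit 78209338477) (nat_lit 1) (nat_lit 4) (nat_lit 2) (nat_lit 5) (nat_lit 2) (nat_lit 4) (nat_lit 319) (nat_lit 237) (nat_lit 164)) (XT.nd (nat_lit 78) (nat_lit 0) (nat_lit 0) (XT.lf (nat_lit 0) (nat_lit 501253430331) (nat_lit 76) (nat_lit 94959658358) (nat_lit 76) (nat_lit 81318315366) (nat_lit 1) (nat_lit 4) (nat_lit 2) (nat_lit 5) (nat_lit 2) (nat_lit 4) (nat_lit 320) (nat_lit 237) (nat_lit 163)) (XT.lf (nat_lit 0) (nat_lit 548409505994) (nat_lit 76) (nat_lit 98322945104) (nat_lit 76) (nat_lit 84678193103) (nat_lit 1) (nat_lit 4) (nat_lit 2) (nat_lit 5) (nat_lit 2) (nat_lit 4) (nat_lit 321) (nat_lit 237) (nat_lit 162)))))) (XT.nd (nat_lit 468) (nat_lit 0) (nat_lit 0) (XT.nd (nat_lit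 234) (nat_lit 0) (nat_lit 0) (XT.nd (nat_lit 78) (nat_lit 0) (nat_lit 0) (XT.lf (nat_lit 0) (nat_lit 599334704988) (nat_lit 76) (nat_lit 101956790564) (nat_lit 76) (nat_lit 88308882074) (nat_lit 1) (nat_lit 4) (nat_lit 2) (nat_lit 5) (nat_lit 2) (nat_lit 4) (nat_lit 322) (nat_lit 237) (nat_lit 161)) (XT.nd (nat_lit 78) (nat_lit 0) (nat_lit 0) (XT.lf (nat_lit 0) (nat_lit 654330806271) (nat_lit 76) (nat_lit 105882728639) (nat_lit 76) (nat_lit 92231897473) (nat_lit 1) (nat_lit 4) (nat_lit 2) (nat_lit 5) (nat_lit 2) (nat_lit 4) (nat_lit 323) (nat_lit 237) (nat_lit 160)) (XT.lf (nat_lit 0) (nat_lit 713723712663) (nat_lit 76) (nat_lit 110124024146) (nat_lit 76) (nat_lit 96470486798) (nat_lit 1) (nat_lit 4) (nat_lit 2) (nat_lit 5) (nat_lit 2) (nat_lit 4) (nat_lit 324) (nat_lit 237) (nat_lit 159)))) (XT.nd (nat_lit 78) (nat_lit 0) (nat_lit 0) (XT.lf (nat_lit 0) (nat_lit 777865382130) (nat_lit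 76) (nat_lit 114705810688) (nat_lit 76) (nat_lit 101049767617) (nat_lit 1) (nat_lit 4) (nat_lit 2) (nat_lit 5) (nat_lit 2) (nat_lit 4) (nat_lit 325) (nat_lit 237) (nat_lit 158)) (XT.nd (nat_lit 78) (nat_lit 0) (nat_lit 0) (XT.lf (nat_lit 0) (nat_lit 847135913453) (nat_lit 76) (nat_lit 119655239592) (nat_lit 76) (nat_lit 105996876407) (nat_lit 1) (nat_lit 4) (nat_lit 2) (nat_lit 5) (nat_lit 2) (nat_lit 4) (nat_lit 326) (nat_lit 237) (nat_lit 157)) (XT.lf (nat_lit 0) (nat_lit 921945798670) (nat_lit 76) (nat_lit 125001640809) (nat_lit 76) (nat_lit 111341129369) (nat_lit 1) (nat_lit 4) (nat_lit 2) (nat_lit 5) (nat_lit 2) (nat_lit 4) (nat_lit 327) (nat_lit 237) (nat_lit 156))))) (XT.nd (nat_lit 234) (nat_lit 0) (nat_lit 0) (XT.nd (nat_lit 78) (nat_lit 0) (nat_lit 0) (XT.lf (nat_lit 0) (nat_lit 1002738355618) (nat_lit 76) (nat_lit 130776696715) (nat_lit 76) (nat_lit 117114196151) (nat_lit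 1) (nat_lit 4) (nat_lit 2) (nat_lit 5) (nat_lit 2) (nat_lit 4) (nat_lit 328) (nat_lit 237) (nat_lit 155)) (XT.nd (nat_lit 78) (nat_lit 0) (nat_lit 0) (XT.lf (nat_lit 0) (nat_lit 1089992355007) (nat_lit 76) (nat_lit 137014629864) (nat_lit 76) (nat_lit 123350287519) (nat_lit 1) (nat_lit 4) (nat_lit 2) (nat_lit 5) (nat_lit 2) (nat_lit 4) (nat_lit 329) (nat_lit 237) (nat_lit 154)) (XT.lf (nat_lit 0) (nat_lit 1184224857572) (nat_lit 76) (nat_lit 143752405785) (nat_lit 76) (nat_lit 130086358087) (nat_lit 1) (nat_lit 4) (nat_lit 2) (nat_lit 5) (nat_lit 2) (nat_lit 4) (nat_lit 330) (nat_lit 237) (nat_lit 153)))) (XT.nd (nat_lit 78) (nat_lit 0) (nat_lit 0) (XT.lf (nat_lit 0) (nat_lit 1285994278145) (nat_lit 76) (nat_lit 151029952040) (nat_lit 76) (nat_lit 137362325311) (nat_lit 1) (nat_lit 4) (nat_lit 2) (nat_lit 5) (nat_lit 2) (nat_lit 4) (nat_lit 331) (nat_lit 237) (nat_lit 152)) (XT.nd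 (nat_lit 78) (nat_lit 0) (nat_lit 0) (XT.lf (nat_lit 0) (nat_lit 1395903694772) (nat_lit 76) (nat_lit 158890394829) (nat_lit 76) (nat_lit 145221306035) (nat_lit 1) (nat_lit 4) (nat_lit 2) (nat_lit 5) (nat_lit 2) (nat_lit 4) (nat_lit 332) (nat_lit 237) (nat_lit 151)) (XT.lf (nat_lit 0) (nat_lit 1514604422515) (nat_lit 76) (nat_lit 167380314554) (nat_lit 76) (nat_lit 153709871995) (nat_lit 1) (nat_lit 4) (nat_lit 2) (nat_lit 5) (nat_lit 2) (nat_lit 4) (nat_lit 333) (nat_lit 237) (nat_lit 150))))))) (XT.nd (nat_lit 31278) (nat_lit 0) (nat_lit 836) (XT.nd (nat_lit 30810) (nat_lit 0) (nat_lit 1976) (XT.nd (nat_lit 30576) (nat_lit 0) (nat_lit 3268) (XT.nd (nat_lit 78) (nat_lit 0) (nat_lit 0) (XT.lf (nat_lit 0) (nat_lit 1642799873095) (nat_lit 76) (nat_lit 176550021849) (nat_lit 76) (nat_lit 162878325805) (nat_lit 1) (nat_lit 4) (nat_lit 2) (nat_lit 5) (nat_lit 2) (nat_lit 4) (nat_lit 334)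 (nat_lit 237) (nat_lit 149)) (XT.nd (nat_lit 30420) (nat_lit 0) (nat_lit 3800) (XT.lf (nat_lit 0) (nat_lit 1781249723255) (nat_lit 76) (nat_lit 186453855722) (nat_lit 76) (nat_lit 172780999042) (nat_lit 1) (nat_lit 4) (nat_lit 2) (nat_lit 5) (nat_lit 2) (nat_lit 4) (nat_lit 335) (nat_lit 237) (nat_lit 148)) (XT.lf (nat_lit 0) (nat_lit 2938057926) (nat_lit 76) (nat_lit 173106186) (nat_lit 76) (nat_lit 173106186) (nat_lit 51) (nat_lit 4) (nat_lit 52) (nat_lit 5) (nat_lit 52) (nat_lit 4) (nat_lit 244) (nat_lit 238) (nat_lit 238)))) (XT.nd (nat_lit 78) (nat_lit 304) (nat_lit 0) (XT.lf (nat_lit 0) (nat_lit 2401281422) (nat_lit 228) (nat_lit 3865837794) (nat_lit 0) (nat_lit 374532889) (nat_lit 48) (nat_lit 5) (nat_lit 51) (nat_lit 4) (nat_lit 48) (nat_lit 4) (nat_lit 245) (nat_lit 238) (nat_lit 237)) (XT.nd (nat_lit 78) (nat_lit 304) (nat_lit 0) (XT.lf (nat_lit 0) (nat_lit 5135776443) (nat_lit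 228) (nat_lit 371636967) (nat_lit 0) (nat_lit 1232408898) (nat_lit 48) (nat_lit 5) (nat_lit 51) (nat_lit 4) (nat_lit 48) (nat_lit 4) (nat_lit 246) (nat_lit 238) (nat_lit 236)) (XT.lf (nat_lit 0) (nat_lit 1031830152) (nat_lit 304) (nat_lit 3494771025) (nat_lit 76) (nat_lit 2331188290) (nat_lit 44) (nat_lit 5) (nat_lit 48) (nat_lit 5) (nat_lit 45) (nat_lit 4) (nat_lit 247) (nat_lit 238) (nat_lit 235))))) (XT.nd (nat_lit 234) (nat_lit 532) (nat_lit 0) (XT.nd (nat_lit 78) (nat_lit 456) (nat_lit 0) (XT.lf (nat_lit 0) (nat_lit 212136886) (nat_lit 304) (nat_lit 3375369343) (nat_lit 380) (nat_lit 3412931533) (nat_lit 40) (nat_lit 5) (nat_lit 44) (nat_lit 5) (nat_lit 45) (nat_lit 4) (nat_lit 248) (nat_lit 238) (nat_lit 234)) (XT.nd (nat_lit 78) (nat_lit 456) (nat_lit 0) (XT.lf (nat_lit 0) (nat_lit 4229403796) (nat_lit 304) (nat_lit 2005692618) (nat_lit 380) (nat_lit 930464016) (nat_lit 40)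 (nat_lit 5) (nat_lit 44) (nat_lit 5) (nat_lit 45) (nat_lit 4) (nat_lit 249) (nat_lit 238) (nat_lit 233)) (XT.lf (nat_lit 0) (nat_lit 1051123239) (nat_lit 380) (nat_lit 437690123) (nat_lit 456) (nat_lit 5867414148) (nat_lit 34) (nat_lit 5) (nat_lit 39) (nat_lit 5) (nat_lit 40) (nat_lit 5) (nat_lit 250) (nat_lit 238) (nat_lit 232)))) (XT.nd (nat_lit 78) (nat_lit 532) (nat_lit 0) (XT.lf (nat_lit 0) (nat_lit 3975154265) (nat_lit 456) (nat_lit 2283682007) (nat_lit 76) (nat_lit 1309109756) (nat_lit 34) (nat_lit 5) (nat_lit 40) (nat_lit 5) (nat_lit 35) (nat_lit 4) (nat_lit 251) (nat_lit 238) (nat_lit 231)) (XT.nd (nat_lit 78) (nat_lit 76) (nat_lit 0) (XT.lf (nat_lit 0) (nat_lit 1965022947) (nat_lit 456) (nat_lit 4579215031) (nat_lit 532) (nat_lit 1263170861) (nat_lit 28) (nat_lit 5) (nat_lit 34) (nat_lit 5) (nat_lit 35) (nat_lit 4) (nat_lit 252) (nat_lit 238) (nat_lit 230)) (XT.lf (nat_lit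 0) (nat_lit 1082469082) (nat_lit 532) (nat_lit 1596397137) (nat_lit 76) (nat_lit 5394664105) (nat_lit 27) (nat_lit 5) (nat_lit 34) (nat_lit 5) (nat_lit 28) (nat_lit 5) (nat_lit 253) (nat_lit 238) (nat_lit 229)))))) (XT.nd (nat_lit 468) (nat_lit 456) (nat_lit 0) (XT.nd (nat_lit 234) (nat_lit 304) (nat_lit 0) (XT.nd (nat_lit 78) (nat_lit 152) (nat_lit 0) (XT.lf (nat_lit 0) (nat_lit 2929769258) (nat_lit 228) (nat_lit 529188279) (nat_lit 304) (nat_lit 4907645500) (nat_lit 24) (nat_lit 5) (nat_lit 27) (nat_lit 5) (nat_lit 28) (nat_lit 5) (nat_lit 254) (nat_lit 238) (nat_lit 228)) (XT.nd (nat_lit 78) (nat_lit 152) (nat_lit 0) (XT.lf (nat_lit 0) (nat_lit 5961731893) (nat_lit 304) (nat_lit 996713715) (nat_lit 76) (nat_lit 1730895193) (nat_lit 24) (nat_lit 5) (nat_lit 28) (nat_lit 5) (nat_lit 25) (nat_lit 4) (nat_lit 255) (nat_lit 238) (nat_lit 227)) (XT.lf (nat_lit 0) (nat_lit 3807115376)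 (nat_lit 152) (nat_lit 4822433979) (nat_lit 228) (nat_lit 412192708) (nat_lit 22) (nat_lit 5) (nat_lit 24) (nat_lit 5) (nat_lit 25) (nat_lit 4) (nat_lit 256) (nat_lit 238) (nat_lit 226)))) (XT.nd (nat_lit 78) (nat_lit 228) (nat_lit 0) (XT.lf (nat_lit 0) (nat_lit 1873534489) (nat_lit 228) (nat_lit 591271799) (nat_lit 76) (nat_lit 6963230085) (nat_lit 21) (nat_lit 5) (nat_lit 24) (nat_lit 5) (nat_lit 22) (nat_lit 5) (nat_lit 257) (nat_lit 238) (nat_lit 225)) (XT.nd (nat_lit 78) (nat_lit 0) (nat_lit 0) (XT.lf (nat_lit 0) (nat_lit 4303660147) (nat_lit 304) (nat_lit 5373657137) (nat_lit 76) (nat_lit 169173467) (nat_lit 18) (nat_lit 5) (nat_lit 22) (nat_lit 5) (nat_lit 19) (nat_lit 4) (nat_lit 258) (nat_lit 238) (nat_lit 224)) (XT.lf (nat_lit 0) (nat_lit 6885611944) (nat_lit 304) (nat_lit 550964600) (nat_lit 76) (nat_lit 2866008853) (nat_lit 18) (nat_lit 5) (nat_lit 22) (nat_lit 5) (nat_lit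 19) (nat_lit 4) (nat_lit 259) (nat_lit 238) (nat_lit 223))))) (XT.nd (nat_lit 234) (nat_lit 76) (nat_lit 0) (XT.nd (nat_lit 78) (nat_lit 228) (nat_lit 0) (XT.lf (nat_lit 0) (nat_lit 4741891595) (nat_lit 152) (nat_lit 4932204987) (nat_lit 228) (nat_lit 1121774012) (nat_lit 16) (nat_lit 5) (nat_lit 18) (nat_lit 5) (nat_lit 19) (nat_lit 4) (nat_lit 260) (nat_lit 238) (nat_lit 222)) (XT.nd (nat_lit 78) (nat_lit 152) (nat_lit 0) (XT.lf (nat_lit 0) (nat_lit 1191959436) (nat_lit 228) (nat_lit 1026455166) (nat_lit 76) (nat_lit 9115969927) (nat_lit 15) (nat_lit 5) (nat_lit 18) (nat_lit 5) (nat_lit 16) (nat_lit 5) (nat_lit 261) (nat_lit 238) (nat_lit 221)) (XT.lf (nat_lit 0) (nat_lit 3652689196) (nat_lit 228) (nat_lit 7480820033) (nat_lit 76) (nat_lit 778895753) (nat_lit 13) (nat_lit 5) (nat_lit 16) (nat_lit 5) (nat_lit 14) (nat_lit 4) (nat_lit 262) (nat_lit 238) (nat_lit 220)))) (XT.nd (nat_lit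 78) (nat_lit 76) (nat_lit 0) (XT.lf (nat_lit 0) (nat_lit 6295763642) (nat_lit 228) (nat_lit 2356026337) (nat_lit 76) (nat_lit 3886553527) (nat_lit 13) (nat_lit 5) (nat_lit 16) (nat_lit 5) (nat_lit 14) (nat_lit 4) (nat_lit 263) (nat_lit 238) (nat_lit 219)) (XT.nd (nat_lit 78) (nat_lit 0) (nat_lit 0) (XT.lf (nat_lit 0) (nat_lit 3201984453) (nat_lit 76) (nat_lit 5931854691) (nat_lit 152) (nat_lit 4082310730) (nat_lit 12) (nat_lit 5) (nat_lit 13) (nat_lit 5) (nat_lit 14) (nat_lit 4) (nat_lit 264) (nat_lit 238) (nat_lit 218)) (XT.lf (nat_lit 0) (nat_lit 9205149684) (nat_lit 76) (nat_lit 2968488562) (nat_lit 152) (nat_lit 1777010121) (nat_lit 12) (nat_lit 5) (nat_lit 13) (nat_lit 5) (nat_lit 14) (nat_lit 4) (nat_lit 265) (nat_lit 238) (nat_lit 217))))))))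
noncomputable def xc46 : XT := (XT.nd (nat_lit 1794) (nat_lit 76) (nat_lit 0) (XT.nd (nat_lit 858) (nat_lit 228) (nat_lit 0) (XT.nd (nat_lit 390) (nat_lit 228) (nat_lit 0) (XT.nd (nat_lit 156) (nat_lit 76) (nat_lit 0) (XT.nd (nat_lit 78) (nat_lit 0) (nat_lit 0) (XT.lf (nat_lit 0) (nat_lit 617169525) (nat_lit 228) (nat_lit 13912546131) (nat_lit 76) (nat_lit 217989981) (nat_lit 9) (nat_lit 5) (nat_lit 12) (nat_lit 5) (nat_lit 10) (nat_lit 4) (nat_lit 266) (nat_lit 238) (nat_lit 216)) (XT.lf (nat_lit 0) (nat_lit 3233762985) (nat_lit 228) (nat_lit 8723753933) (nat_lit 76) (nat_lit 3637518081) (nat_lit 9) (nat_lit 5) (nat_lit 12) (nat_lit 5) (nat_lit 10) (nat_lit 4) (nat_lit 267) (nat_lit 238) (nat_lit 215))) (XT.nd (nat_lit 78) (nat_lit 76) (nat_lit 0) (XT.lf (nat_lit 0) (nat_lit 5982517315) (nat_lit 228) (nat_lit 3241272891) (nat_lit 76) (nat_lit 7292858587) (nat_lit 9) (nat_lit 5) (nat_lit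 12) (nat_lit 5) (nat_lit 10) (nat_lit 4) (nat_lit 268) (nat_lit 238) (nat_lit 214)) (XT.nd (nat_lit 78) (nat_lit 0) (nat_lit 0) (XT.lf (nat_lit 0) (nat_lit 2702579757) (nat_lit 76) (nat_lit 6242138779) (nat_lit 152) (nat_lit 8568090125) (nat_lit 8) (nat_lit 5) (nat_lit 9) (nat_lit 5) (nat_lit 10) (nat_lit 4) (nat_lit 269) (nat_lit 238) (nat_lit 213)) (XT.lf (nat_lit 0) (nat_lit 9196699915) (nat_lit 76) (nat_lit 2967024881) (nat_lit 152) (nat_lit 6423628631) (nat_lit 8) (nat_lit 5) (nat_lit 9) (nat_lit 5) (nat_lit 10) (nat_lit 4) (nat_lit 270) (nat_lit 238) (nat_lit 212))))) (XT.nd (nat_lit 234) (nat_lit 76) (nat_lit 0) (XT.nd (nat_lit 78) (nat_lit 152) (nat_lit 0) (XT.lf (nat_lit 0) (nat_lit 15589356874) (nat_lit 152) (nat_lit 3657126523) (nat_lit 0) (nat_lit 505707750) (nat_lit 8) (nat_lit 5) (nat_lit 10) (nat_lit 4) (nat_lit 8) (nat_lit 4) (nat_lit 271) (nat_lit 238) (nat_lit 211))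 (XT.nd (nat_lit 78) (nat_lit 76) (nat_lit 0) (XT.lf (nat_lit 0) (nat_lit 2484229407) (nat_lit 76) (nat_lit 16881801509) (nat_lit 76) (nat_lit 1638264360) (nat_lit 7) (nat_lit 4) (nat_lit 8) (nat_lit 5) (nat_lit 8) (nat_lit 4) (nat_lit 272) (nat_lit 238) (nat_lit 210)) (XT.lf (nat_lit 0) (nat_lit 1077025133) (nat_lit 152) (nat_lit 13151369338) (nat_lit 76) (nat_lit 8122828579) (nat_lit 6) (nat_lit 5) (nat_lit 8) (nat_lit 5) (nat_lit 7) (nat_lit 4) (nat_lit 273) (nat_lit 238) (nat_lit 209)))) (XT.nd (nat_lit 78) (nat_lit 76) (nat_lit 0) (XT.lf (nat_lit 0) (nat_lit 3866032842) (nat_lit 152) (nat_lit 7487311513) (nat_lit 76) (nat_lit 12453745684) (nat_lit 6) (nat_lit 5) (nat_lit 8) (nat_lit 5) (nat_lit 7) (nat_lit 4) (nat_lit 274) (nat_lit 238) (nat_lit 208)) (XT.nd (nat_lit 78) (nat_lit 76) (nat_lit 0) (XT.lf (nat_lit 0) (nat_lit 6827238838) (nat_lit 152) (nat_lit 1454927310) (nat_lit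 76) (nat_lit 17101509480) (nat_lit 6) (nat_lit 5) (nat_lit 8) (nat_lit 5) (nat_lit 7) (nat_lit 4) (nat_lit 275) (nat_lit 238) (nat_lit 207)) (XT.lf (nat_lit 0) (nat_lit 5243849312) (nat_lit 76) (nat_lit 4860456397) (nat_lit 152) (nat_lit 16975927659) (nat_lit 5) (nat_lit 5) (nat_lit 6) (nat_lit 5) (nat_lit 7) (nat_lit 4) (nat_lit 276) (nat_lit 238) (nat_lit 206)))))) (XT.nd (nat_lit 468) (nat_lit 152) (nat_lit 0) (XT.nd (nat_lit 234) (nat_lit 76) (nat_lit 0) (XT.nd (nat_lit 78) (nat_lit 0) (nat_lit 0) (XT.lf (nat_lit 0) (nat_lit 12484741944) (nat_lit 76) (nat_lit 1153078061) (nat_lit 152) (nat_lit 15275303580) (nat_lit 5) (nat_lit 5) (nat_lit 6) (nat_lit 5) (nat_lit 7) (nat_lit 4) (nat_lit 277) (nat_lit 238) (nat_lit 205)) (XT.nd (nat_lit 78) (nat_lit 0) (nat_lit 0) (XT.lf (nat_lit 0) (nat_lit 17479760438) (nat_lit 152) (nat_lit 10729981828) (nat_lit 0) (nat_lit 2680982434) (nat_lit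 5) (nat_lit 5) (nat_lit 7) (nat_lit 4) (nat_lit 5) (nat_lit 4) (nat_lit 278) (nat_lit 238) (nat_lit 204)) (XT.lf (nat_lit 0) (nat_lit 21619358970) (nat_lit 152) (nat_lit 4673881228) (nat_lit 0) (nat_lit 6734198441) (nat_lit 5) (nat_lit 5) (nat_lit 7) (nat_lit 4) (nat_lit 5) (nat_lit 4) (nat_lit 279) (nat_lit 238) (nat_lit 203)))) (XT.nd (nat_lit 78) (nat_lit 0) (nat_lit 0) (XT.lf (nat_lit 0) (nat_lit 1898510922) (nat_lit 76) (nat_lit 24200563311) (nat_lit 76) (nat_lit 9235418963) (nat_lit 4) (nat_lit 4) (nat_lit 5) (nat_lit 5) (nat_lit 5) (nat_lit 4) (nat_lit 280) (nat_lit 238) (nat_lit 202)) (XT.nd (nat_lit 78) (nat_lit 0) (nat_lit 0) (XT.lf (nat_lit 0) (nat_lit 9200933691) (nat_lit 76) (nat_lit 21828553400) (nat_lit 76) (nat_lit 6789349960) (nat_lit 4) (nat_lit 4) (nat_lit 5) (nat_lit 5) (nat_lit 5) (nat_lit 4) (nat_lit 281) (nat_lit 238) (nat_lit 201)) (XT.lf (nat_lit 0) (nat_lit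 17030542393) (nat_lit 76) (nat_lit 19290946307) (nat_lit 76) (nat_lit 4183169634) (nat_lit 4) (nat_lit 4) (nat_lit 5) (nat_lit 5) (nat_lit 5) (nat_lit 4) (nat_lit 282) (nat_lit 238) (nat_lit 200))))) (XT.nd (nat_lit 234) (nat_lit 76) (nat_lit 0) (XT.nd (nat_lit 78) (nat_lit 76) (nat_lit 0) (XT.lf (nat_lit 0) (nat_lit 25433734709) (nat_lit 76) (nat_lit 16572704360) (nat_lit 76) (nat_lit 1401433953) (nat_lit 4) (nat_lit 4) (nat_lit 5) (nat_lit 5) (nat_lit 5) (nat_lit 4) (nat_lit 283) (nat_lit 238) (nat_lit 199)) (XT.nd (nat_lit 78) (nat_lit 0) (nat_lit 0) (XT.lf (nat_lit 0) (nat_lit 1493686556) (nat_lit 152) (nat_lit 12123192865) (nat_lit 76) (nat_lit 32925780739) (nat_lit 3) (nat_lit 5) (nat_lit 5) (nat_lit 5) (nat_lit 4) (nat_lit 4) (nat_lit 284) (nat_lit 238) (nat_lit 198)) (XT.lf (nat_lit 0) (nat_lit 4517875604) (nat_lit 152) (nat_lit 5887315288) (nat_lit 76) (nat_lit 39522348737)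 (nat_lit 3) (nat_lit 5) (nat_lit 5) (nat_lit 5) (nat_lit 4) (nat_lit 4) (nat_lit 285) (nat_lit 238) (nat_lit 197)))) (XT.nd (nat_lit 78) (nat_lit 0) (nat_lit 0) (XT.lf (nat_lit 0) (nat_lit 846497520) (nat_lit 76) (nat_lit 6933020479) (nat_lit 152) (nat_lit 45804119674) (nat_lit 2) (nat_lit 5) (nat_lit 3) (nat_lit 5) (nat_lit 4) (nat_lit 4) (nat_lit 286) (nat_lit 238) (nat_lit 196)) (XT.nd (nat_lit 78) (nat_lit 0) (nat_lit 0) (XT.lf (nat_lit 0) (nat_lit 8411647682) (nat_lit 76) (nat_lit 3027399140) (nat_lit 152) (nat_lit 46082284848) (nat_lit 2) (nat_lit 5) (nat_lit 3) (nat_lit 5) (nat_lit 4) (nat_lit 4) (nat_lit 287) (nat_lit 238) (nat_lit 195)) (XT.lf (nat_lit 0) (nat_lit 15397333285) (nat_lit 152) (nat_lit 45261160725) (nat_lit 0) (nat_lit 1115127287) (nat_lit 2) (nat_lit 5) (nat_lit 4) (nat_lit 4) (nat_lit 2) (nat_lit 4) (nat_lit 288) (nat_lit 238) (nat_lit 194))))))) (XT.nd (nat_lit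 936) (nat_lit 0) (nat_lit 0) (XT.nd (nat_lit 468) (nat_lit 76) (nat_lit 0) (XT.nd (nat_lit 234) (nat_lit 0) (nat_lit 0) (XT.nd (nat_lit 78) (nat_lit 0) (nat_lit 0) (XT.lf (nat_lit 0) (nat_lit 19729953116) (nat_lit 152) (nat_lit 41220883516) (nat_lit 0) (nat_lit 5410699135) (nat_lit 2) (nat_lit 5) (nat_lit 4) (nat_lit 4) (nat_lit 2) (nat_lit 4) (nat_lit 289) (nat_lit 238) (nat_lit 193)) (XT.nd (nat_lit 78) (nat_lit 0) (nat_lit 0) (XT.lf (nat_lit 0) (nat_lit 24389772080) (nat_lit 152) (nat_lit 36892100956) (nat_lit 0) (nat_lit 10036214409) (nat_lit 2) (nat_lit 5) (nat_lit 4) (nat_lit 4) (nat_lit 2) (nat_lit 4) (nat_lit 290) (nat_lit 238) (nat_lit 192)) (XT.lf (nat_lit 0) (nat_lit 29404403916) (nat_lit 152) (nat_lit 32249161000) (nat_lit 0) (nat_lit 15019083570) (nat_lit 2) (nat_lit 5) (nat_lit 4) (nat_lit 4) (nat_lit 2) (nat_lit 4) (nat_lit 291) (nat_lit 238) (nat_lit 191)))) (XT.nd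 (nat_lit 78) (nat_lit 0) (nat_lit 0) (XT.lf (nat_lit 0) (nat_lit 34803564963) (nat_lit 152) (nat_lit 27264549931) (nat_lit 0) (nat_lit 20388834733) (nat_lit 2) (nat_lit 5) (nat_lit 4) (nat_lit 4) (nat_lit 2) (nat_lit 4) (nat_lit 292) (nat_lit 238) (nat_lit 190)) (XT.nd (nat_lit 78) (nat_lit 0) (nat_lit 0) (XT.lf (nat_lit 0) (nat_lit 40619250249) (nat_lit 152) (nat_lit 21908729312) (nat_lit 0) (nat_lit 26177288644) (nat_lit 2) (nat_lit 5) (nat_lit 4) (nat_lit 4) (nat_lit 2) (nat_lit 4) (nat_lit 293) (nat_lit 238) (nat_lit 189)) (XT.lf (nat_lit 0) (nat_lit 46885923093) (nat_lit 152) (nat_lit 16149960947) (nat_lit 0) (nat_lit 32418747253) (nat_lit 2) (nat_lit 5) (nat_lit 4) (nat_lit 4) (nat_lit 2) (nat_lit 4) (nat_lit 294) (nat_lit 238) (nat_lit 188))))) (XT.nd (nat_lit 234) (nat_lit 0) (nat_lit 0) (XT.nd (nat_lit 78) (nat_lit 76) (nat_lit 0) (XT.lf (nat_lit 0) (nat_lit 53640719335)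 (nat_lit 152) (nat_lit 9954118802) (nat_lit 0) (nat_lit 39150196981) (nat_lit 2) (nat_lit 5) (nat_lit 4) (nat_lit 4) (nat_lit 2) (nat_lit 4) (nat_lit 295) (nat_lit 238) (nat_lit 187)) (XT.nd (nat_lit 78) (nat_lit 76) (nat_lit 0) (XT.lf (nat_lit 0) (nat_lit 60923667398) (nat_lit 152) (nat_lit 3284486774) (nat_lit 0) (nat_lit 46411527900) (nat_lit 2) (nat_lit 5) (nat_lit 4) (nat_lit 4) (nat_lit 2) (nat_lit 4) (nat_lit 296) (nat_lit 238) (nat_lit 186)) (XT.lf (nat_lit 0) (nat_lit 4103744817) (nat_lit 76) (nat_lit 64772875835) (nat_lit 76) (nat_lit 50240720464) (nat_lit 1) (nat_lit 4) (nat_lit 2) (nat_lit 5) (nat_lit 2) (nat_lit 4) (nat_lit 297) (nat_lit 238) (nat_lit 185)))) (XT.nd (nat_lit 78) (nat_lit 0) (nat_lit 0) (XT.lf (nat_lit 0) (nat_lit 12250082509) (nat_lit 76) (nat_lit 65294569636) (nat_lit 76) (nat_lit 50743881050) (nat_lit 1) (nat_lit 4) (nat_lit 2) (nat_lit 5) (nat_lit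 2) (nat_lit 4) (nat_lit 298) (nat_lit 238) (nat_lit 184)) (XT.nd (nat_lit 78) (nat_lit 0) (nat_lit 0) (XT.lf (nat_lit 0) (nat_lit 21029845641) (nat_lit 76) (nat_lit 65866130784) (nat_lit 76) (nat_lit 51298281813) (nat_lit 1) (nat_lit 4) (nat_lit 2) (nat_lit 5) (nat_lit 2) (nat_lit 4) (nat_lit 299) (nat_lit 238) (nat_lit 183)) (XT.lf (nat_lit 0) (nat_lit 30495062440) (nat_lit 76) (nat_lit 66490946307) (nat_lit 76) (nat_lit 51907208091) (nat_lit 1) (nat_lit 4) (nat_lit 2) (nat_lit 5) (nat_lit 2) (nat_lit 4) (nat_lit 300) (nat_lit 238) (nat_lit 182)))))) (XT.nd (nat_lit 468) (nat_lit 0) (nat_lit 0) (XT.nd (nat_lit 234) (nat_lit 0) (nat_lit 0) (XT.nd (nat_lit 78) (nat_lit 0) (nat_lit 0) (XT.lf (nat_lit 0) (nat_lit 40701823079) (nat_lit 76) (nat_lit 67172718817) (nat_lit 76) (nat_lit 52574268336) (nat_lit 1) (nat_lit 4) (nat_lit 2) (nat_lit 5) (nat_lit 2) (nat_lit 4) (nat_lit 301) (nat_lit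 238) (nat_lit 181)) (XT.nd (nat_lit 78) (nat_lit 0) (nat_lit 0) (XT.lf (nat_lit 0) (nat_lit 51710612066) (nat_lit 76) (nat_lit 67915488445) (nat_lit 76) (nat_lit 53303415498) (nat_lit 1) (nat_lit 4) (nat_lit 2) (nat_lit 5) (nat_lit 2) (nat_lit 4) (nat_lit 302) (nat_lit 238) (nat_lit 180)) (XT.lf (nat_lit 0) (nat_lit 63586666668) (nat_lit 76) (nat_lit 68723656791) (nat_lit 76) (nat_lit 54098970448) (nat_lit 1) (nat_lit 4) (nat_lit 2) (nat_lit 5) (nat_lit 2) (nat_lit 4) (nat_lit 303) (nat_lit 238) (nat_lit 179)))) (XT.nd (nat_lit 78) (nat_lit 0) (nat_lit 0) (XT.lf (nat_lit 0) (nat_lit 76400363507) (nat_lit 76) (nat_lit 69602013000) (nat_lit 76) (nat_lit 54965647587) (nat_lit 1) (nat_lit 4) (nat_lit 2) (nat_lit 5) (nat_lit 2) (nat_lit 4) (nat_lit 304) (nat_lit 238) (nat_lit 178)) (XT.nd (nat_lit 78) (nat_lit 0) (nat_lit 0) (XT.lf (nat_lit 0) (nat_lit 90227635599) (nat_lit 76) (nat_lit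 70555762145) (nat_lit 76) (nat_lit 55908582779) (nat_lit 1) (nat_lit 4) (nat_lit 2) (nat_lit 5) (nat_lit 2) (nat_lit 4) (nat_lit 305) (nat_lit 238) (nat_lit 177)) (XT.lf (nat_lit 0) (nat_lit 105150422335) (nat_lit 76) (nat_lit 71590556074) (nat_lit 76) (nat_lit 56933363789) (nat_lit 1) (nat_lit 4) (nat_lit 2) (nat_lit 5) (nat_lit 2) (nat_lit 4) (nat_lit 306) (nat_lit 238) (nat_lit 176))))) (XT.nd (nat_lit 234) (nat_lit 0) (nat_lit 0) (XT.nd (nat_lit 78) (nat_lit 0) (nat_lit 0) (XT.lf (nat_lit 0) (nat_lit 121257155044) (nat_lit 76) (nat_lit 72712526899) (nat_lit 76) (nat_lit 58046063391) (nat_lit 1) (nat_lit 4) (nat_lit 2) (nat_lit 5) (nat_lit 2) (nat_lit 4) (nat_lit 307) (nat_lit 238) (nat_lit 175)) (XT.nd (nat_lit 78) (nat_lit 0) (nat_lit 0) (XT.lf (nat_lit 0) (nat_lit 138643281030) (nat_lit 76) (nat_lit 73928323335) (nat_lit 76) (nat_lit 59253275363) (nat_lit 1) (nat_lit 4) (nat_lit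 2) (nat_lit 5) (nat_lit 2) (nat_lit 4) (nat_lit 308) (nat_lit 238) (nat_lit 174)) (XT.lf (nat_lit 0) (nat_lit 157411829190) (nat_lit 76) (nat_lit 75245150103) (nat_lit 76) (nat_lit 60562153552) (nat_lit 1) (nat_lit 4) (nat_lit 2) (nat_lit 5) (nat_lit 2) (nat_lit 4) (nat_lit 309) (nat_lit 238) (nat_lit 173)))) (XT.nd (nat_lit 78) (nat_lit 0) (nat_lit 0) (XT.lf (nat_lit 0) (nat_lit 177674020548) (nat_lit 76) (nat_lit 76670810620) (nat_lit 76) (nat_lit 61980454274) (nat_lit 1) (nat_lit 4) (nat_lit 2) (nat_lit 5) (nat_lit 2) (nat_lit 4) (nat_lit 310) (nat_lit 238) (nat_lit 172)) (XT.nd (nat_lit 78) (nat_lit 0) (nat_lit 0) (XT.lf (nat_lit 0) (nat_lit 199549927350) (nat_lit 76) (nat_lit 78213753244) (nat_lit 76) (nat_lit 63516582273) (nat_lit 1) (nat_lit 4) (nat_lit 2) (nat_lit 5) (nat_lit 2) (nat_lit 4) (nat_lit 311) (nat_lit 238) (nat_lit 171)) (XT.lf (nat_lit 0) (nat_lit 223169184599)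 (nat_lit 76) (nat_lit 79883121341) (nat_lit 76) (nat_lit 65179640531) (nat_lit 1) (nat_lit 4) (nat_lit 2) (nat_lit 5) (nat_lit 2) (nat_lit 4) (nat_lit 312) (nat_lit 238) (nat_lit 170))))))))
noncomputable def xc47 : XT := (XT.nd (nat_lit 32058) (nat_lit 0) (nat_lit 836) (XT.nd (nat_lit 936) (nat_lit 0) (nat_lit 0) (XT.nd (nat_lit 468) (nat_lit 0) (nat_lit 0) (XT.nd (nat_lit 234) (nat_lit 0) (nat_lit 0) (XT.nd (nat_lit 78) (nat_lit 0) (nat_lit 0) (XT.lf (nat_lit 0) (nat_lit 248671758263) (nat_lit 76) (nat_lit 81688807460) (nat_lit 76) (nat_lit 66979484208) (nat_lit 1) (nat_lit 4) (nat_lit 2) (nat_lit 5) (nat_lit 2) (nat_lit 4) (nat_lit 313) (nat_lit 238) (nat_lit 169)) (XT.nd (nat_lit 78) (nat_lit 0) (nat_lit 0) (XT.lf (nat_lit 0) (nat_lit 276208774707) (nat_lit 76) (nat_lit 83641511965) (nat_lit 76) (nat_lit 68926779044) (nat_lit 1) (nat_lit 4) (nat_lit 2) (nat_lit 5) (nat_lit 2)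 (nat_lit 4) (nat_lit 314) (nat_lit 238) (nat_lit 168)) (XT.lf (nat_lit 0) (nat_lit 305943416248) (nat_lit 76) (nat_lit 85752806437) (nat_lit 76) (nat_lit 71033064563) (nat_lit 1) (nat_lit 4) (nat_lit 2) (nat_lit 5) (nat_lit 2) (nat_lit 4) (nat_lit 315) (nat_lit 238) (nat_lit 167)))) (XT.nd (nat_lit 78) (nat_lit 0) (nat_lit 0) (XT.lf (nat_lit 0) (nat_lit 338051888171) (nat_lit 76) (nat_lit 88035202252) (nat_lit 76) (nat_lit 73310822459) (nat_lit 1) (nat_lit 4) (nat_lit 2) (nat_lit 5) (nat_lit 2) (nat_lit 4) (nat_lit 316) (nat_lit 238) (nat_lit 166)) (XT.nd (nat_lit 78) (nat_lit 0) (nat_lit 0) (XT.lf (nat_lit 0) (nat_lit 372724462901) (nat_lit 76) (nat_lit 90502224717) (nat_lit 76) (nat_lit 75773550555) (nat_lit 1) (nat_lit 4) (nat_lit 2) (nat_lit 5) (nat_lit 2) (nat_lit 4) (nat_lit 317) (nat_lit 238) (nat_lit 165)) (XT.lf (nat_lit 0) (nat_lit 410166607548) (nat_lit 76) (nat_lit 93168493226)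 (nat_lit 76) (nat_lit 78435842795) (nat_lit 1) (nat_lit 4) (nat_lit 2) (nat_lit 5) (nat_lit 2) (nat_lit 4) (nat_lit 318) (nat_lit 238) (nat_lit 164))))) (XT.nd (nat_lit 234) (nat_lit 0) (nat_lit 0) (XT.nd (nat_lit 78) (nat_lit 0) (nat_lit 0) (XT.lf (nat_lit 0) (nat_lit 450600201487) (nat_lit 76) (nat_lit 96049807887) (nat_lit 76) (nat_lit 81313475727) (nat_lit 1) (nat_lit 4) (nat_lit 2) (nat_lit 5) (nat_lit 2) (nat_lit 4) (nat_lit 319) (nat_lit 238) (nat_lit 163)) (XT.nd (nat_lit 78) (nat_lit 0) (nat_lit 0) (XT.lf (nat_lit 0) (nat_lit 494264851202) (nat_lit 76) (nat_lit 99163243159) (nat_lit 76) (nat_lit 84423501989) (nat_lit 1) (nat_lit 4) (nat_lit 2) (nat_lit 5) (nat_lit 2) (nat_lit 4) (nat_lit 320) (nat_lit 238) (nat_lit 162)) (XT.lf (nat_lit 0) (nat_lit 541419310172) (nat_lit 76) (nat_lit 102527249028) (nat_lit 76) (nat_lit 87784351368) (nat_lit 1) (nat_lit 4) (nat_lit 2) (nat_lit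 5) (nat_lit 2) (nat_lit 4) (nat_lit 321) (nat_lit 238) (nat_lit 161)))) (XT.nd (nat_lit 78) (nat_lit 0) (nat_lit 0) (XT.lf (nat_lit 0) (nat_lit 592343012228) (nat_lit 76) (nat_lit 106161760343) (nat_lit 76) (nat_lit 91415940007) (nat_lit 1) (nat_lit 4) (nat_lit 2) (nat_lit 5) (nat_lit 2) (nat_lit 4) (nat_lit 322) (nat_lit 238) (nat_lit 160)) (XT.nd (nat_lit 78) (nat_lit 0) (nat_lit 0) (XT.lf (nat_lit 0) (nat_lit 647337727457) (nat_lit 76) (nat_lit 110088314949) (nat_lit 76) (nat_lit 95339788432) (nat_lit 1) (nat_lit 4) (nat_lit 2) (nat_lit 5) (nat_lit 2) (nat_lit 4) (nat_lit 323) (nat_lit 238) (nat_lit 159)) (XT.lf (nat_lit 0) (nat_lit 706729350466) (nat_lit 76) (nat_lit 114330181319) (nat_lit 76) (nat_lit 99579149078) (nat_lit 1) (nat_lit 4) (nat_lit 2) (nat_lit 5) (nat_lit 2) (nat_lit 4) (nat_lit 324) (nat_lit 238) (nat_lit 158)))))) (XT.nd (nat_lit 468) (nat_lit 0) (nat_lit 0)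 (XT.nd (nat_lit 234) (nat_lit 0) (nat_lit 0) (XT.nd (nat_lit 78) (nat_lit 0) (nat_lit 0) (XT.lf (nat_lit 0) (nat_lit 770869831615) (nat_lit 76) (nat_lit 118912496437) (nat_lit 76) (nat_lit 104159144083) (nat_lit 1) (nat_lit 4) (nat_lit 2) (nat_lit 5) (nat_lit 2) (nat_lit 4) (nat_lit 325) (nat_lit 238) (nat_lit 157)) (XT.nd (nat_lit 78) (nat_lit 0) (nat_lit 0) (XT.lf (nat_lit 0) (nat_lit 840139262644) (nat_lit 76) (nat_lit 123862414765) (nat_lit 76) (nat_lit 109106914156) (nat_lit 1) (nat_lit 4) (nat_lit 2) (nat_lit 5) (nat_lit 2) (nat_lit 4) (nat_lit 326) (nat_lit 238) (nat_lit 156)) (XT.lf (nat_lit 0) (nat_lit 914948129069) (nat_lit 76) (nat_lit 129209269150) (nat_lit 76) (nat_lit 114451779418) (nat_lit 1) (nat_lit 4) (nat_lit 2) (nat_lit 5) (nat_lit 2) (nat_lit 4) (nat_lit 327) (nat_lit 238) (nat_lit 155)))) (XT.nd (nat_lit 78) (nat_lit 0) (nat_lit 0) (XT.lf (nat_lit 0) (nat_lit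 995739742693) (nat_lit 76) (nat_lit 134984744658) (nat_lit 76) (nat_lit 120225413143) (nat_lit 1) (nat_lit 4) (nat_lit 2) (nat_lit 5) (nat_lit 2) (nat_lit 4) (nat_lit 328) (nat_lit 238) (nat_lit 154)) (XT.nd (nat_lit 78) (nat_lit 0) (nat_lit 0) (XT.lf (nat_lit 0) (nat_lit 1082992868632) (nat_lit 76) (nat_lit 141223066326) (nat_lit 76) (nat_lit 126462029459) (nat_lit 1) (nat_lit 4) (nat_lit 2) (nat_lit 5) (nat_lit 2) (nat_lit 4) (nat_lit 329) (nat_lit 238) (nat_lit 153)) (XT.lf (nat_lit 0) (nat_lit 1177224562449) (nat_lit 76) (nat_lit 147961201988) (nat_lit 76) (nat_lit 133198586090) (nat_lit 1) (nat_lit 4) (nat_lit 2) (nat_lit 5) (nat_lit 2) (nat_lit 4) (nat_lit 330) (nat_lit 238) (nat_lit 152))))) (XT.nd (nat_lit 234) (nat_lit 0) (nat_lit 0) (XT.nd (nat_lit 78) (nat_lit 0) (nat_lit 0) (XT.lf (nat_lit 0) (nat_lit 1278993234179) (nat_lit 76) (nat_lit 155239081336) (nat_lit 76) (nat_lit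 140475003372) (nat_lit 1) (nat_lit 4) (nat_lit 2) (nat_lit 5) (nat_lit 2) (nat_lit 4) (nat_lit 331) (nat_lit 238) (nat_lit 151)) (XT.nd (nat_lit 78) (nat_lit 0) (nat_lit 0) (XT.lf (nat_lit 0) (nat_lit 1388901957434) (nat_lit 76) (nat_lit 163099832545) (nat_lit 76) (nat_lit 148334400816) (nat_lit 1) (nat_lit 4) (nat_lit 2) (nat_lit 5) (nat_lit 2) (nat_lit 4) (nat_lit 332) (nat_lit 238) (nat_lit 150)) (XT.lf (nat_lit 0) (nat_lit 1507602043167) (nat_lit 76) (nat_lit 171590037843) (nat_lit 76) (nat_lit 156823352629) (nat_lit 1) (nat_lit 4) (nat_lit 2) (nat_lit 5) (nat_lit 2) (nat_lit 4) (nat_lit 333) (nat_lit 238) (nat_lit 149)))) (XT.nd (nat_lit 78) (nat_lit 0) (nat_lit 0) (XT.lf (nat_lit 0) (nat_lit 1635796899292) (nat_lit 76) (nat_lit 180760009558) (nat_lit 76) (nat_lit 165992163709) (nat_lit 1) (nat_lit 4) (nat_lit 2) (nat_lit 5) (nat_lit 2) (nat_lit 4) (nat_lit 334) (nat_lit 238)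 (nat_lit 148)) (XT.nd (nat_lit 30264) (nat_lit 0) (nat_lit 3876) (XT.lf (nat_lit 0) (nat_lit 1774246199031) (nat_lit 76) (nat_lit 190664088264) (nat_lit 76) (nat_lit 175895167753) (nat_lit 1) (nat_lit 4) (nat_lit 2) (nat_lit 5) (nat_lit 2) (nat_lit 4) (nat_lit 335) (nat_lit 238) (nat_lit 147)) (XT.lf (nat_lit 0) (nat_lit 1453169275) (nat_lit 76) (nat_lit 328743782) (nat_lit 0) (nat_lit 1453169275) (nat_lit 52) (nat_lit 5) (nat_lit 53) (nat_lit 0) (nat_lit 52) (nat_lit 4) (nat_lit 242) (nat_lit 239) (nat_lit 239))))))) (XT.nd (nat_lit 936) (nat_lit 912) (nat_lit 0) (XT.nd (nat_lit 468) (nat_lit 1520) (nat_lit 0) (XT.nd (nat_lit 234) (nat_lit 304) (nat_lit 0) (XT.nd (nat_lit 78) (nat_lit 228) (nat_lit 0) (XT.lf (nat_lit 0) (nat_lit 2505281604) (nat_lit 76) (nat_lit 3185532976) (nat_lit 76) (nat_lit 821533487) (nat_lit 51) (nat_lit 4) (nat_lit 52) (nat_lit 5) (nat_lit 52) (nat_lit 4)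 (nat_lit 243) (nat_lit 239) (nat_lit 238)) (XT.nd (nat_lit 78) (nat_lit 152) (nat_lit 0) (XT.lf (nat_lit 0) (nat_lit 1792146892) (nat_lit 152) (nat_lit 825222368) (nat_lit 76) (nat_lit 3958720010) (nat_lit 50) (nat_lit 5) (nat_lit 52) (nat_lit 5) (nat_lit 51) (nat_lit 4) (nat_lit 244) (nat_lit 239) (nat_lit 237)) (XT.lf (nat_lit 0) (nat_lit 2555362940) (nat_lit 152) (nat_lit 1836463683) (nat_lit 228) (nat_lit 2268494608) (nat_lit 48) (nat_lit 5) (nat_lit 50) (nat_lit 5) (nat_lit 51) (nat_lit 4) (nat_lit 245) (nat_lit 239) (nat_lit 236)))) (XT.nd (nat_lit 78) (nat_lit 228) (nat_lit 0) (XT.lf (nat_lit 0) (nat_lit 214396903) (nat_lit 228) (nat_lit 680465540) (nat_lit 76) (nat_lit 5874878718) (nat_lit 47) (nat_lit 5) (nat_lit 50) (nat_lit 5) (nat_lit 48) (nat_lit 5) (nat_lit 246) (nat_lit 239) (nat_lit 235)) (XT.nd (nat_lit 78) (nat_lit 0) (nat_lit 0) (XT.lf (nat_lit 0) (nat_lit 2634750162)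 (nat_lit 304) (nat_lit 3958484148) (nat_lit 76) (nat_lit 303279632) (nat_lit 44) (nat_lit 5) (nat_lit 48) (nat_lit 5) (nat_lit 45) (nat_lit 4) (nat_lit 247) (nat_lit 239) (nat_lit 234)) (XT.lf (nat_lit 0) (nat_lit 5087417951) (nat_lit 304) (nat_lit 346655824) (nat_lit 76) (nat_lit 1614319179) (nat_lit 44) (nat_lit 5) (nat_lit 48) (nat_lit 5) (nat_lit 45) (nat_lit 4) (nat_lit 248) (nat_lit 239) (nat_lit 233))))) (XT.nd (nat_lit 234) (nat_lit 760) (nat_lit 0) (XT.nd (nat_lit 78) (nat_lit 380) (nat_lit 0) (XT.lf (nat_lit 0) (nat_lit 390490273) (nat_lit 380) (nat_lit 3662403399) (nat_lit 76) (nat_lit 3168860614) (nat_lit 39) (nat_lit 5) (nat_lit 44) (nat_lit 5) (nat_lit 40) (nat_lit 5) (nat_lit 249) (nat_lit 239) (nat_lit 232)) (XT.nd (nat_lit 78) (nat_lit 0) (nat_lit 0) (XT.lf (nat_lit 0) (nat_lit 177082654) (nat_lit 380) (nat_lit 2476312218) (nat_lit 456) (nat_lit 4766808392) (nat_lit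 34) (nat_lit 5) (nat_lit 39) (nat_lit 5) (nat_lit 40) (nat_lit 5) (nat_lit 250) (nat_lit 239) (nat_lit 231)) (XT.lf (nat_lit 0) (nat_lit 4366391909) (nat_lit 380) (nat_lit 656058621) (nat_lit 456) (nat_lit 2619581791) (nat_lit 34) (nat_lit 5) (nat_lit 39) (nat_lit 5) (nat_lit 40) (nat_lit 5) (nat_lit 251) (nat_lit 239) (nat_lit 230)))) (XT.nd (nat_lit 78) (nat_lit 304) (nat_lit 0) (XT.lf (nat_lit 0) (nat_lit 852453509) (nat_lit 456) (nat_lit 6618735410) (nat_lit 532) (nat_lit 420607653) (nat_lit 28) (nat_lit 5) (nat_lit 34) (nat_lit 5) (nat_lit 35) (nat_lit 4) (nat_lit 252) (nat_lit 239) (nat_lit 229)) (XT.nd (nat_lit 78) (nat_lit 228) (nat_lit 0) (XT.lf (nat_lit 0) (nat_lit 1806432102) (nat_lit 532) (nat_lit 2896911603) (nat_lit 76) (nat_lit 3459647085) (nat_lit 27) (nat_lit 5) (nat_lit 34) (nat_lit 5) (nat_lit 28) (nat_lit 5) (nat_lit 253) (nat_lit 239) (nat_lit 228)) (XT.lf (nat_lit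 0) (nat_lit 1479587074) (nat_lit 228) (nat_lit 2597667896) (nat_lit 304) (nat_lit 4387796675) (nat_lit 24) (nat_lit 5) (nat_lit 27) (nat_lit 5) (nat_lit 28) (nat_lit 5) (nat_lit 254) (nat_lit 239) (nat_lit 227)))))) (XT.nd (nat_lit 468) (nat_lit 304) (nat_lit 0) (XT.nd (nat_lit 234) (nat_lit 380) (nat_lit 0) (XT.nd (nat_lit 78) (nat_lit 228) (nat_lit 0) (XT.lf (nat_lit 0) (nat_lit 6214599412) (nat_lit 228) (nat_lit 254256846) (nat_lit 304) (nat_lit 2328322269) (nat_lit 24) (nat_lit 5) (nat_lit 27) (nat_lit 5) (nat_lit 28) (nat_lit 5) (nat_lit 255) (nat_lit 239) (nat_lit 226)) (XT.nd (nat_lit 78) (nat_lit 76) (nat_lit 0) (XT.lf (nat_lit 0) (nat_lit 2065358544) (nat_lit 152) (nat_lit 6960773069) (nat_lit 228) (nat_lit 132750132) (nat_lit 22) (nat_lit 5) (nat_lit 24) (nat_lit 5) (nat_lit 25) (nat_lit 4) (nat_lit 256) (nat_lit 239) (nat_lit 225)) (XT.lf (nat_lit 0) (nat_lit 2077384526)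 (nat_lit 228) (nat_lit 2533507518) (nat_lit 76) (nat_lit 4939068621) (nat_lit 21) (nat_lit 5) (nat_lit 24) (nat_lit 5) (nat_lit 22) (nat_lit 5) (nat_lit 257) (nat_lit 239) (nat_lit 224)))) (XT.nd (nat_lit 78) (nat_lit 152) (nat_lit 0) (XT.lf (nat_lit 0) (nat_lit 2358269813) (nat_lit 228) (nat_lit 2036941231) (nat_lit 304) (nat_lit 5582551970) (nat_lit 18) (nat_lit 5) (nat_lit 21) (nat_lit 5) (nat_lit 22) (nat_lit 5) (nat_lit 258) (nat_lit 239) (nat_lit 223)) (XT.nd (nat_lit 78) (nat_lit 152) (nat_lit 0) (XT.lf (nat_lit 0) (nat_lit 6873334977) (nat_lit 304) (nat_lit 2821302741) (nat_lit 76) (nat_lit 747863247) (nat_lit 18) (nat_lit 5) (nat_lit 22) (nat_lit 5) (nat_lit 19) (nat_lit 4) (nat_lit 259) (nat_lit 239) (nat_lit 222)) (XT.lf (nat_lit 0) (nat_lit 2280371430) (nat_lit 152) (nat_lit 7271471362) (nat_lit 228) (nat_lit 1393053621) (nat_lit 16) (nat_lit 5) (nat_lit 18) (nat_lit 5)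 (nat_lit 19) (nat_lit 4) (nat_lit 260) (nat_lit 239) (nat_lit 221))))) (XT.nd (nat_lit 234) (nat_lit 76) (nat_lit 0) (XT.nd (nat_lit 78) (nat_lit 152) (nat_lit 0) (XT.lf (nat_lit 0) (nat_lit 884102152) (nat_lit 228) (nat_lit 3699709275) (nat_lit 76) (nat_lit 6904400299) (nat_lit 15) (nat_lit 5) (nat_lit 18) (nat_lit 5) (nat_lit 16) (nat_lit 5) (nat_lit 261) (nat_lit 239) (nat_lit 220)) (XT.nd (nat_lit 78) (nat_lit 0) (nat_lit 0) (XT.lf (nat_lit 0) (nat_lit 1571378719) (nat_lit 152) (nat_lit 1638000605) (nat_lit 228) (nat_lit 8867936822) (nat_lit 13) (nat_lit 5) (nat_lit 15) (nat_lit 5) (nat_lit 16) (nat_lit 5) (nat_lit 262) (nat_lit 239) (nat_lit 219)) (XT.lf (nat_lit 0) (nat_lit 5768130632) (nat_lit 228) (nat_lit 5407587581) (nat_lit 76) (nat_lit 1534511716) (nat_lit 13) (nat_lit 5) (nat_lit 16) (nat_lit 5) (nat_lit 14) (nat_lit 4) (nat_lit 263) (nat_lit 239) (nat_lit 218)))) (XT.nd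 (nat_lit 78) (nat_lit 76) (nat_lit 0) (XT.lf (nat_lit 0) (nat_lit 8487597234) (nat_lit 228) (nat_lit 70713949) (nat_lit 76) (nat_lit 4839426238) (nat_lit 13) (nat_lit 5) (nat_lit 16) (nat_lit 5) (nat_lit 14) (nat_lit 4) (nat_lit 264) (nat_lit 239) (nat_lit 217)) (XT.nd (nat_lit 78) (nat_lit 0) (nat_lit 0) (XT.lf (nat_lit 0) (nat_lit 5869309995) (nat_lit 76) (nat_lit 5616347585) (nat_lit 152) (nat_lit 2650114115) (nat_lit 12) (nat_lit 5) (nat_lit 13) (nat_lit 5) (nat_lit 14) (nat_lit 4) (nat_lit 265) (nat_lit 239) (nat_lit 216)) (XT.lf (nat_lit 0) (nat_lit 12174123498) (nat_lit 76) (nat_lit 2474434794) (nat_lit 152) (nat_lit 290669566) (nat_lit 12) (nat_lit 5) (nat_lit 13) (nat_lit 5) (nat_lit 14) (nat_lit 4) (nat_lit 266) (nat_lit 239) (nat_lit 215))))))))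
noncomputable def xc48 : XT := (XT.nd (nat_lit 1794) (nat_lit 76) (nat_lit 0) (XT.nd (nat_lit 858) (nat_lit 228) (nat_lit 0) (XT.nd (nat_lit 390) (nat_lit 228) (nat_lit 0) (XT.nd (nat_lit 156) (nat_lit 76) (nat_lit 0) (XT.nd (nat_lit 78) (nat_lit 0) (nat_lit 0) (XT.lf (nat_lit 0) (nat_lit 2172033923) (nat_lit 228) (nat_lit 12656799021) (nat_lit 76) (nat_lit 971914090) (nat_lit 9) (nat_lit 5) (nat_lit 12) (nat_lit 5) (nat_lit 10) (nat_lit 4) (nat_lit 267) (nat_lit 239) (nat_lit 214)) (XT.lf (nat_lit 0) (nat_lit 4886437021) (nat_lit 228) (nat_lit 7228366470) (nat_lit 76) (nat_lit 4610450001) (nat_lit 9) (nat_lit 5) (nat_lit 12) (nat_lit 5) (nat_lit 10) (nat_lit 4) (nat_lit 268) (nat_lit 239) (nat_lit 213))) (XT.nd (nat_lit 78) (nat_lit 76) (nat_lit 0) (XT.lf (nat_lit 0) (nat_lit 7751834438) (nat_lit 228) (nat_lit 1469752705) (nat_lit 76) (nat_lit 8507704379) (nat_lit 9) (nat_lit 5)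 (nat_lit 12) (nat_lit 5) (nat_lit 10) (nat_lit 4) (nat_lit 269) (nat_lit 239) (nat_lit 212)) (XT.nd (nat_lit 78) (nat_lit 0) (nat_lit 0) (XT.lf (nat_lit 0) (nat_lit 4898194939) (nat_lit 76) (nat_lit 6004813074) (nat_lit 152) (nat_lit 7906378831) (nat_lit 8) (nat_lit 5) (nat_lit 9) (nat_lit 5) (nat_lit 10) (nat_lit 4) (nat_lit 270) (nat_lit 239) (nat_lit 211)) (XT.lf (nat_lit 0) (nat_lit 11765221835) (nat_lit 76) (nat_lit 2522260198) (nat_lit 152) (nat_lit 5690149936) (nat_lit 8) (nat_lit 5) (nat_lit 9) (nat_lit 5) (nat_lit 10) (nat_lit 4) (nat_lit 271) (nat_lit 239) (nat_lit 210))))) (XT.nd (nat_lit 234) (nat_lit 76) (nat_lit 0) (XT.nd (nat_lit 78) (nat_lit 152) (nat_lit 0) (XT.lf (nat_lit 0) (nat_lit 17917120625) (nat_lit 152) (nat_lit 2178316557) (nat_lit 0) (nat_lit 1146168013) (nat_lit 8) (nat_lit 5) (nat_lit 10) (nat_lit 4) (nat_lit 8) (nat_lit 4) (nat_lit 272) (nat_lit 239)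 (nat_lit 209)) (XT.nd (nat_lit 78) (nat_lit 76) (nat_lit 0) (XT.lf (nat_lit 0) (nat_lit 4409502782) (nat_lit 76) (nat_lit 17547903446) (nat_lit 76) (nat_lit 639872624) (nat_lit 7) (nat_lit 4) (nat_lit 8) (nat_lit 5) (nat_lit 8) (nat_lit 4) (nat_lit 273) (nat_lit 239) (nat_lit 208)) (XT.lf (nat_lit 0) (nat_lit 2156662215) (nat_lit 152) (nat_lit 12549097681) (nat_lit 76) (nat_lit 9350659964) (nat_lit 6) (nat_lit 5) (nat_lit 8) (nat_lit 5) (nat_lit 7) (nat_lit 4) (nat_lit 274) (nat_lit 239) (nat_lit 207)))) (XT.nd (nat_lit 78) (nat_lit 76) (nat_lit 0) (XT.lf (nat_lit 0) (nat_lit 5095199795) (nat_lit 152) (nat_lit 6554461986) (nat_lit 76) (nat_lit 13985235245) (nat_lit 6) (nat_lit 5) (nat_lit 8) (nat_lit 5) (nat_lit 7) (nat_lit 4) (nat_lit 275) (nat_lit 239) (nat_lit 206)) (XT.nd (nat_lit 78) (nat_lit 76) (nat_lit 0) (XT.lf (nat_lit 0) (nat_lit 8225162691) (nat_lit 152) (nat_lit 152956265)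 (nat_lit 76) (nat_lit 18965176447) (nat_lit 6) (nat_lit 5) (nat_lit 8) (nat_lit 5) (nat_lit 7) (nat_lit 4) (nat_lit 276) (nat_lit 239) (nat_lit 205)) (XT.lf (nat_lit 0) (nat_lit 7045814506) (nat_lit 76) (nat_lit 4688736333) (nat_lit 152) (nat_lit 17443631835) (nat_lit 5) (nat_lit 5) (nat_lit 6) (nat_lit 5) (nat_lit 7) (nat_lit 4) (nat_lit 277) (nat_lit 239) (nat_lit 204)))))) (XT.nd (nat_lit 468) (nat_lit 152) (nat_lit 0) (XT.nd (nat_lit 234) (nat_lit 76) (nat_lit 0) (XT.nd (nat_lit 78) (nat_lit 0) (nat_lit 0) (XT.lf (nat_lit 0) (nat_lit 14763574308) (nat_lit 76) (nat_lit 726290439) (nat_lit 152) (nat_lit 15672911166) (nat_lit 5) (nat_lit 5) (nat_lit 6) (nat_lit 5) (nat_lit 7) (nat_lit 4) (nat_lit 278) (nat_lit 239) (nat_lit 203)) (XT.nd (nat_lit 78) (nat_lit 0) (nat_lit 0) (XT.lf (nat_lit 0) (nat_lit 19594346753) (nat_lit 152) (nat_lit 10356002791) (nat_lit 0) (nat_lit 3352007038)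 (nat_lit 5) (nat_lit 5) (nat_lit 7) (nat_lit 4) (nat_lit 5) (nat_lit 4) (nat_lit 279) (nat_lit 239) (nat_lit 202)) (XT.lf (nat_lit 0) (nat_lit 24012060910) (nat_lit 152) (nat_lit 3906701371) (nat_lit 0) (nat_lit 7695662103) (nat_lit 5) (nat_lit 5) (nat_lit 7) (nat_lit 4) (nat_lit 5) (nat_lit 4) (nat_lit 280) (nat_lit 239) (nat_lit 201)))) (XT.nd (nat_lit 78) (nat_lit 0) (nat_lit 0) (XT.lf (nat_lit 0) (nat_lit 3162593787) (nat_lit 76) (nat_lit 25665185630) (nat_lit 76) (nat_lit 9280213590) (nat_lit 4) (nat_lit 4) (nat_lit 5) (nat_lit 5) (nat_lit 5) (nat_lit 4) (nat_lit 281) (nat_lit 239) (nat_lit 200)) (XT.nd (nat_lit 78) (nat_lit 0) (nat_lit 0) (XT.lf (nat_lit 0) (nat_lit 10966825046) (nat_lit 76) (nat_lit 23138335130) (nat_lit 76) (nat_lit 6689869356) (nat_lit 4) (nat_lit 4) (nat_lit 5) (nat_lit 5) (nat_lit 5) (nat_lit 4) (nat_lit 282) (nat_lit 239) (nat_lit 199)) (XT.lf (nat_lit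 0) (nat_lit 19346519728) (nat_lit 76) (nat_lit 20430052991) (nat_lit 76) (nat_lit 3922796722) (nat_lit 4) (nat_lit 4) (nat_lit 5) (nat_lit 5) (nat_lit 5) (nat_lit 4) (nat_lit 283) (nat_lit 239) (nat_lit 198))))) (XT.nd (nat_lit 234) (nat_lit 76) (nat_lit 0) (XT.nd (nat_lit 78) (nat_lit 76) (nat_lit 0) (XT.lf (nat_lit 0) (nat_lit 28351335285) (nat_lit 76) (nat_lit 17524290134) (nat_lit 76) (nat_lit 962598222) (nat_lit 4) (nat_lit 4) (nat_lit 5) (nat_lit 5) (nat_lit 5) (nat_lit 4) (nat_lit 284) (nat_lit 239) (nat_lit 197)) (XT.nd (nat_lit 78) (nat_lit 0) (nat_lit 0) (XT.lf (nat_lit 0) (nat_lit 2097801549) (nat_lit 152) (nat_lit 12248668062) (nat_lit 76) (nat_lit 35879474424) (nat_lit 3) (nat_lit 5) (nat_lit 5) (nat_lit 5) (nat_lit 4) (nat_lit 4) (nat_lit 285) (nat_lit 239) (nat_lit 196)) (XT.lf (nat_lit 0) (nat_lit 5328027938) (nat_lit 152) (nat_lit 5576466963) (nat_lit 76) (nat_lit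 42980091475) (nat_lit 3) (nat_lit 5) (nat_lit 5) (nat_lit 5) (nat_lit 4) (nat_lit 4) (nat_lit 286) (nat_lit 239) (nat_lit 195)))) (XT.nd (nat_lit 78) (nat_lit 0) (nat_lit 0) (XT.lf (nat_lit 0) (nat_lit 1676257615) (nat_lit 76) (nat_lit 7159432509) (nat_lit 152) (nat_lit 48998768300) (nat_lit 2) (nat_lit 5) (nat_lit 3) (nat_lit 5) (nat_lit 4) (nat_lit 4) (nat_lit 287) (nat_lit 239) (nat_lit 194)) (XT.nd (nat_lit 78) (nat_lit 0) (nat_lit 0) (XT.lf (nat_lit 0) (nat_lit 9790172361) (nat_lit 76) (nat_lit 2965674767) (nat_lit 152) (nat_lit 49333977870) (nat_lit 2) (nat_lit 5) (nat_lit 3) (nat_lit 5) (nat_lit 4) (nat_lit 4) (nat_lit 288) (nat_lit 239) (nat_lit 193)) (XT.lf (nat_lit 0) (nat_lit 17007810461) (nat_lit 152) (nat_lit 48204741661) (nat_lit 0) (nat_lit 1471664488) (nat_lit 2) (nat_lit 5) (nat_lit 4) (nat_lit 4) (nat_lit 2) (nat_lit 4) (nat_lit 289) (nat_lit 239) (nat_lit 192)))))))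 (XT.nd (nat_lit 936) (nat_lit 0) (nat_lit 0) (XT.nd (nat_lit 468) (nat_lit 76) (nat_lit 0) (XT.nd (nat_lit 234) (nat_lit 0) (nat_lit 0) (XT.nd (nat_lit 78) (nat_lit 0) (nat_lit 0) (XT.lf (nat_lit 0) (nat_lit 21658988731) (nat_lit 152) (nat_lit 43891413528) (nat_lit 0) (nat_lit 6091080082) (nat_lit 2) (nat_lit 5) (nat_lit 4) (nat_lit 4) (nat_lit 2) (nat_lit 4) (nat_lit 290) (nat_lit 239) (nat_lit 191)) (XT.nd (nat_lit 78) (nat_lit 0) (nat_lit 0) (XT.lf (nat_lit 0) (nat_lit 26665619925) (nat_lit 152) (nat_lit 39262783228) (nat_lit 0) (nat_lit 11068301392) (nat_lit 2) (nat_lit 5) (nat_lit 4) (nat_lit 4) (nat_lit 2) (nat_lit 4) (nat_lit 291) (nat_lit 239) (nat_lit 190)) (XT.lf (nat_lit 0) (nat_lit 32057372969) (nat_lit 152) (nat_lit 34291421840) (nat_lit 0) (nat_lit 16432823062) (nat_lit 2) (nat_lit 5) (nat_lit 4) (nat_lit 4) (nat_lit 2) (nat_lit 4) (nat_lit 292) (nat_lit 239) (nat_lit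 189)))) (XT.nd (nat_lit 78) (nat_lit 0) (nat_lit 0) (XT.lf (nat_lit 0) (nat_lit 37866198993) (nat_lit 152) (nat_lit 28947869443) (nat_lit 0) (nat_lit 22216434850) (nat_lit 2) (nat_lit 5) (nat_lit 4) (nat_lit 4) (nat_lit 2) (nat_lit 4) (nat_lit 293) (nat_lit 239) (nat_lit 188)) (XT.nd (nat_lit 78) (nat_lit 0) (nat_lit 0) (XT.lf (nat_lit 0) (nat_lit 44126520669) (nat_lit 152) (nat_lit 23200460544) (nat_lit 0) (nat_lit 28453410012) (nat_lit 2) (nat_lit 5) (nat_lit 4) (nat_lit 4) (nat_lit 2) (nat_lit 4) (nat_lit 294) (nat_lit 239) (nat_lit 187)) (XT.lf (nat_lit 0) (nat_lit 50875436200) (nat_lit 152) (nat_lit 17015136422) (nat_lit 0) (nat_lit 35180708400) (nat_lit 2) (nat_lit 5) (nat_lit 4) (nat_lit 4) (nat_lit 2) (nat_lit 4) (nat_lit 295) (nat_lit 239) (nat_lit 186))))) (XT.nd (nat_lit 234) (nat_lit 0) (nat_lit 0) (XT.nd (nat_lit 78) (nat_lit 76) (nat_lit 0) (XT.lf (nat_lit 0) (nat_lit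 58152939160) (nat_lit 152) (nat_lit 10355243305) (nat_lit 0) (nat_lit 42438195487) (nat_lit 2) (nat_lit 5) (nat_lit 4) (nat_lit 4) (nat_lit 2) (nat_lit 4) (nat_lit 296) (nat_lit 239) (nat_lit 185)) (XT.nd (nat_lit 78) (nat_lit 76) (nat_lit 0) (XT.lf (nat_lit 0) (nat_lit 66002155491) (nat_lit 152) (nat_lit 3181315159) (nat_lit 0) (nat_lit 50268878602) (nat_lit 2) (nat_lit 5) (nat_lit 4) (nat_lit 4) (nat_lit 2) (nat_lit 4) (nat_lit 297) (nat_lit 239) (nat_lit 184)) (XT.lf (nat_lit 0) (nat_lit 4788710895) (nat_lit 76) (nat_lit 69796056786) (nat_lit 76) (nat_lit 54045619512) (nat_lit 1) (nat_lit 4) (nat_lit 2) (nat_lit 5) (nat_lit 2) (nat_lit 4) (nat_lit 298) (nat_lit 239) (nat_lit 183)))) (XT.nd (nat_lit 78) (nat_lit 0) (nat_lit 0) (XT.lf (nat_lit 0) (nat_lit 13560335862) (nat_lit 76) (nat_lit 70371237878) (nat_lit 76) (nat_lit 54604911359) (nat_lit 1) (nat_lit 4) (nat_lit 2) (nat_lit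 5) (nat_lit 2) (nat_lit 4) (nat_lit 299) (nat_lit 239) (nat_lit 182)) (XT.nd (nat_lit 78) (nat_lit 0) (nat_lit 0) (XT.lf (nat_lit 0) (nat_lit 23018017322) (nat_lit 76) (nat_lit 70999405201) (nat_lit 76) (nat_lit 55218366418) (nat_lit 1) (nat_lit 4) (nat_lit 2) (nat_lit 5) (nat_lit 2) (nat_lit 4) (nat_lit 300) (nat_lit 239) (nat_lit 181)) (XT.lf (nat_lit 0) (nat_lit 33217800796) (nat_lit 76) (nat_lit 71684281229) (nat_lit 76) (nat_lit 55889619979) (nat_lit 1) (nat_lit 4) (nat_lit 2) (nat_lit 5) (nat_lit 2) (nat_lit 4) (nat_lit 301) (nat_lit 239) (nat_lit 180)))))) (XT.nd (nat_lit 468) (nat_lit 0) (nat_lit 0) (XT.nd (nat_lit 234) (nat_lit 0) (nat_lit 0) (XT.nd (nat_lit 78) (nat_lit 0) (nat_lit 0) (XT.lf (nat_lit 0) (nat_lit 44220129445) (nat_lit 76) (nat_lit 72429924486) (nat_lit 76) (nat_lit 56622649840) (nat_lit 1) (nat_lit 4) (nat_lit 2) (nat_lit 5) (nat_lit 2) (nat_lit 4) (nat_lit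 302) (nat_lit 239) (nat_lit 179)) (XT.nd (nat_lit 78) (nat_lit 0) (nat_lit 0) (XT.lf (nat_lit 0) (nat_lit 56090202253) (nat_lit 76) (nat_lit 73240753599) (nat_lit 76) (nat_lit 57421799884) (nat_lit 1) (nat_lit 4) (nat_lit 2) (nat_lit 5) (nat_lit 2) (nat_lit 4) (nat_lit 303) (nat_lit 239) (nat_lit 178)) (XT.lf (nat_lit 0) (nat_lit 68898360392) (nat_lit 76) (nat_lit 74121573481) (nat_lit 76) (nat_lit 58291805812) (nat_lit 1) (nat_lit 4) (nat_lit 2) (nat_lit 5) (nat_lit 2) (nat_lit 4) (nat_lit 304) (nat_lit 239) (nat_lit 177)))) (XT.nd (nat_lit 78) (nat_lit 0) (nat_lit 0) (XT.lf (nat_lit 0) (nat_lit 82720504059) (nat_lit 76) (nat_lit 75077603805) (nat_lit 76) (nat_lit 59237823216) (nat_lit 1) (nat_lit 4) (nat_lit 2) (nat_lit 5) (nat_lit 2) (nat_lit 4) (nat_lit 305) (nat_lit 239) (nat_lit 176)) (XT.nd (nat_lit 78) (nat_lit 0) (nat_lit 0) (XT.lf (nat_lit 0) (nat_lit 97638542254) (nat_lit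 76) (nat_lit 76114509936) (nat_lit 76) (nat_lit 60265458126) (nat_lit 1) (nat_lit 4) (nat_lit 2) (nat_lit 5) (nat_lit 2) (nat_lit 4) (nat_lit 306) (nat_lit 239) (nat_lit 175)) (XT.lf (nat_lit 0) (nat_lit 113740878166) (nat_lit 76) (nat_lit 77238436504) (nat_lit 76) (nat_lit 61380800229) (nat_lit 1) (nat_lit 4) (nat_lit 2) (nat_lit 5) (nat_lit 2) (nat_lit 4) (nat_lit 307) (nat_lit 239) (nat_lit 174))))) (XT.nd (nat_lit 234) (nat_lit 0) (nat_lit 0) (XT.nd (nat_lit 78) (nat_lit 0) (nat_lit 0) (XT.lf (nat_lit 0) (nat_lit 131122933044) (nat_lit 76) (nat_lit 78456043814) (nat_lit 76) (nat_lit 62590458960) (nat_lit 1) (nat_lit 4) (nat_lit 2) (nat_lit 5) (nat_lit 2) (nat_lit 4) (nat_lit 308) (nat_lit 239) (nat_lit 173)) (XT.nd (nat_lit 78) (nat_lit 0) (nat_lit 0) (XT.lf (nat_lit 0) (nat_lit 149887711658) (nat_lit 76) (nat_lit 79774547316) (nat_lit 76) (nat_lit 63901602667) (nat_lit 1) (nat_lit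 4) (nat_lit 2) (nat_lit 5) (nat_lit 2) (nat_lit 4) (nat_lit 309) (nat_lit 239) (nat_lit 172)) (XT.lf (nat_lit 0) (nat_lit 170146412696) (nat_lit 76) (nat_lit 81201760365) (nat_lit 76) (nat_lit 65322001091) (nat_lit 1) (nat_lit 4) (nat_lit 2) (nat_lit 5) (nat_lit 2) (nat_lit 4) (nat_lit 310) (nat_lit 239) (nat_lit 171)))) (XT.nd (nat_lit 78) (nat_lit 0) (nat_lit 0) (XT.lf (nat_lit 0) (nat_lit 192019087721) (nat_lit 76) (nat_lit 82746140519) (nat_lit 76) (nat_lit 66860071407) (nat_lit 1) (nat_lit 4) (nat_lit 2) (nat_lit 5) (nat_lit 2) (nat_lit 4) (nat_lit 311) (nat_lit 239) (nat_lit 170)) (XT.nd (nat_lit 78) (nat_lit 0) (nat_lit 0) (XT.lf (nat_lit 0) (nat_lit 215635352583) (nat_lit 76) (nat_lit 84416839661) (nat_lit 76) (nat_lit 68524928106) (nat_lit 1) (nat_lit 4) (nat_lit 2) (nat_lit 5) (nat_lit 2) (nat_lit 4) (nat_lit 312) (nat_lit 239) (nat_lit 169)) (XT.lf (nat_lit 0) (nat_lit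 241135155519) (nat_lit 76) (nat_lit 86223758230) (nat_lit 76) (nat_lit 70326437007) (nat_lit 1) (nat_lit 4) (nat_lit 2) (nat_lit 5) (nat_lit 2) (nat_lit 4) (nat_lit 313) (nat_lit 239) (nat_lit 168))))))))
noncomputable def xc49 : XT := (XT.nd (nat_lit 31902) (nat_lit 0) (nat_lit 836) (XT.nd (nat_lit 936) (nat_lit 0) (nat_lit 0) (XT.nd (nat_lit 468) (nat_lit 0) (nat_lit 0) (XT.nd (nat_lit 234) (nat_lit 0) (nat_lit 0) (XT.nd (nat_lit 78) (nat_lit 0) (nat_lit 0) (XT.lf (nat_lit 0) (nat_lit 268669606474) (nat_lit 76) (nat_lit 88177603892) (nat_lit 76) (nat_lit 72275273716) (nat_lit 1) (nat_lit 4) (nat_lit 2) (nat_lit 5) (nat_lit 2) (nat_lit 4) (nat_lit 314) (nat_lit 239) (nat_lit 167)) (XT.nd (nat_lit 78) (nat_lit 0) (nat_lit 0) (XT.lf (nat_lit 0) (nat_lit 298401872562) (nat_lit 76) (nat_lit 90289954992) (nat_lit 76) (nat_lit 74382986896) (nat_lit 1) (nat_lit 4) (nat_lit 2) (nat_lit 5)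 (nat_lit 2) (nat_lit 4) (nat_lit 315) (nat_lit 239) (nat_lit 166)) (XT.lf (nat_lit 0) (nat_lit 330508144991) (nat_lit 76) (nat_lit 92573329165) (nat_lit 76) (nat_lit 76662066700) (nat_lit 1) (nat_lit 4) (nat_lit 2) (nat_lit 5) (nat_lit 2) (nat_lit 4) (nat_lit 316) (nat_lit 239) (nat_lit 165)))) (XT.nd (nat_lit 78) (nat_lit 0) (nat_lit 0) (XT.lf (nat_lit 0) (nat_lit 365178683153) (nat_lit 76) (nat_lit 95041257518) (nat_lit 76) (nat_lit 79126018784) (nat_lit 1) (nat_lit 4) (nat_lit 2) (nat_lit 5) (nat_lit 2) (nat_lit 4) (nat_lit 317) (nat_lit 239) (nat_lit 164)) (XT.nd (nat_lit 78) (nat_lit 0) (nat_lit 0) (XT.lf (nat_lit 0) (nat_lit 402618942089) (nat_lit 76) (nat_lit 97708364811) (nat_lit 76) (nat_lit 81789444348) (nat_lit 1) (nat_lit 4) (nat_lit 2) (nat_lit 5) (nat_lit 2) (nat_lit 4) (nat_lit 318) (nat_lit 239) (nat_lit 163)) (XT.lf (nat_lit 0) (nat_lit 443050790000) (nat_lit 76)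 (nat_lit 100590456125) (nat_lit 76) (nat_lit 84668126653) (nat_lit 1) (nat_lit 4) (nat_lit 2) (nat_lit 5) (nat_lit 2) (nat_lit 4) (nat_lit 319) (nat_lit 239) (nat_lit 162))))) (XT.nd (nat_lit 234) (nat_lit 0) (nat_lit 0) (XT.nd (nat_lit 78) (nat_lit 0) (nat_lit 0) (XT.lf (nat_lit 0) (nat_lit 486713823022) (nat_lit 76) (nat_lit 103704610520) (nat_lit 76) (nat_lit 87779124557) (nat_lit 1) (nat_lit 4) (nat_lit 2) (nat_lit 5) (nat_lit 2) (nat_lit 4) (nat_lit 320) (nat_lit 239) (nat_lit 161)) (XT.nd (nat_lit 78) (nat_lit 0) (nat_lit 0) (XT.lf (nat_lit 0) (nat_lit 533866785053) (nat_lit 76) (nat_lit 107069282242) (nat_lit 76) (nat_lit 91140873604) (nat_lit 1) (nat_lit 4) (nat_lit 2) (nat_lit 5) (nat_lit 2) (nat_lit 4) (nat_lit 321) (nat_lit 239) (nat_lit 160)) (XT.lf (nat_lit 0) (nat_lit 584789101056) (nat_lit 76) (nat_lit 110704410089) (nat_lit 76) (nat_lit 94773295270) (nat_lit 1) (nat_lit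 4) (nat_lit 2) (nat_lit 5) (nat_lit 2) (nat_lit 4) (nat_lit 322) (nat_lit 239) (nat_lit 159)))) (XT.nd (nat_lit 78) (nat_lit 0) (nat_lit 0) (XT.lf (nat_lit 0) (nat_lit 639782532901) (nat_lit 76) (nat_lit 114631535559) (nat_lit 76) (nat_lit 98697915016) (nat_lit 1) (nat_lit 4) (nat_lit 2) (nat_lit 5) (nat_lit 2) (nat_lit 4) (nat_lit 323) (nat_lit 239) (nat_lit 158)) (XT.nd (nat_lit 78) (nat_lit 0) (nat_lit 0) (XT.lf (nat_lit 0) (nat_lit 699172967592) (nat_lit 76) (nat_lit 118873930505) (nat_lit 76) (nat_lit 102937989848) (nat_lit 1) (nat_lit 4) (nat_lit 2) (nat_lit 5) (nat_lit 2) (nat_lit 4) (nat_lit 324) (nat_lit 239) (nat_lit 157)) (XT.lf (nat_lit 0) (nat_lit 763312348447) (nat_lit 76) (nat_lit 123456735046) (nat_lit 76) (nat_lit 107518646135) (nat_lit 1) (nat_lit 4) (nat_lit 2) (nat_lit 5) (nat_lit 2) (nat_lit 4) (nat_lit 325) (nat_lit 239) (nat_lit 156)))))) (XT.nd (nat_lit 468)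 (nat_lit 0) (nat_lit 0) (XT.nd (nat_lit 234) (nat_lit 0) (nat_lit 0) (XT.nd (nat_lit 78) (nat_lit 0) (nat_lit 0) (XT.lf (nat_lit 0) (nat_lit 832580760684) (nat_lit 76) (nat_lit 128407106543) (nat_lit 76) (nat_lit 112467028508) (nat_lit 1) (nat_lit 4) (nat_lit 2) (nat_lit 5) (nat_lit 2) (nat_lit 4) (nat_lit 326) (nat_lit 239) (nat_lit 155)) (XT.nd (nat_lit 78) (nat_lit 0) (nat_lit 0) (XT.lf (nat_lit 0) (nat_lit 907388683785) (nat_lit 76) (nat_lit 133754380530) (nat_lit 76) (nat_lit 117812460713) (nat_lit 1) (nat_lit 4) (nat_lit 2) (nat_lit 5) (nat_lit 2) (nat_lit 4) (nat_lit 327) (nat_lit 239) (nat_lit 154)) (XT.lf (nat_lit 0) (nat_lit 988179423960) (nat_lit 76) (nat_lit 139530244557) (nat_lit 76) (nat_lit 123586619386) (nat_lit 1) (nat_lit 4) (nat_lit 2) (nat_lit 5) (nat_lit 2) (nat_lit 4) (nat_lit 328) (nat_lit 239) (nat_lit 153)))) (XT.nd (nat_lit 78) (nat_lit 0) (nat_lit 0) (XT.lf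 (nat_lit 0) (nat_lit 1075431741150) (nat_lit 76) (nat_lit 145768925965) (nat_lit 76) (nat_lit 129823721764) (nat_lit 1) (nat_lit 4) (nat_lit 2) (nat_lit 5) (nat_lit 2) (nat_lit 4) (nat_lit 329) (nat_lit 239) (nat_lit 152)) (XT.nd (nat_lit 78) (nat_lit 0) (nat_lit 0) (XT.lf (nat_lit 0) (nat_lit 1169662686124) (nat_lit 76) (nat_lit 152507394720) (nat_lit 76) (nat_lit 136560728454) (nat_lit 1) (nat_lit 4) (nat_lit 2) (nat_lit 5) (nat_lit 2) (nat_lit 4) (nat_lit 330) (nat_lit 239) (nat_lit 151)) (XT.lf (nat_lit 0) (nat_lit 1271430664483) (nat_lit 76) (nat_lit 159785582488) (nat_lit 76) (nat_lit 143837562457) (nat_lit 1) (nat_lit 4) (nat_lit 2) (nat_lit 5) (nat_lit 2) (nat_lit 4) (nat_lit 331) (nat_lit 239) (nat_lit 150))))) (XT.nd (nat_lit 234) (nat_lit 0) (nat_lit 0) (XT.nd (nat_lit 78) (nat_lit 0) (nat_lit 0) (XT.lf (nat_lit 0) (nat_lit 1381338745727) (nat_lit 76) (nat_lit 167646619270)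 (nat_lit 76) (nat_lit 151697345753) (nat_lit 1) (nat_lit 4) (nat_lit 2) (nat_lit 5) (nat_lit 2) (nat_lit 4) (nat_lit 332) (nat_lit 239) (nat_lit 149)) (XT.nd (nat_lit 78) (nat_lit 0) (nat_lit 0) (XT.lf (nat_lit 0) (nat_lit 1500038237004) (nat_lit 76) (nat_lit 176137088988) (nat_lit 76) (nat_lit 160186654836) (nat_lit 1) (nat_lit 4) (nat_lit 2) (nat_lit 5) (nat_lit 2) (nat_lit 4) (nat_lit 333) (nat_lit 239) (nat_lit 148)) (XT.lf (nat_lit 0) (nat_lit 1628232542708) (nat_lit 76) (nat_lit 185307305536) (nat_lit 76) (nat_lit 169355796723) (nat_lit 1) (nat_lit 4) (nat_lit 2) (nat_lit 5) (nat_lit 2) (nat_lit 4) (nat_lit 334) (nat_lit 239) (nat_lit 147)))) (XT.nd (nat_lit 30108) (nat_lit 0) (nat_lit 3876) (XT.lf (nat_lit 0) (nat_lit 1766681332798) (nat_lit 76) (nat_lit 195211610940) (nat_lit 76) (nat_lit 179259107069) (nat_lit 1) (nat_lit 4) (nat_lit 2) (nat_lit 5) (nat_lit 2) (nat_lit 4)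 (nat_lit 335) (nat_lit 239) (nat_lit 146)) (XT.nd (nat_lit 78) (nat_lit 76) (nat_lit 0) (XT.lf (nat_lit 0) (nat_lit 1073741823) (nat_lit 0) (nat_lit 0) (nat_lit 0) (nat_lit 0) (nat_lit 53) (nat_lit 0) (nat_lit 1) (nat_lit 0) (nat_lit 1) (nat_lit 0) (nat_lit 240) (nat_lit 240) (nat_lit 240)) (XT.lf (nat_lit 0) (nat_lit 2691054213) (nat_lit 76) (nat_lit 3620599668) (nat_lit 0) (nat_lit 137934764) (nat_lit 52) (nat_lit 5) (nat_lit 53) (nat_lit 0) (nat_lit 52) (nat_lit 4) (nat_lit 241) (nat_lit 240) (nat_lit 239))))))) (XT.nd (nat_lit 936) (nat_lit 1140) (nat_lit 0) (XT.nd (nat_lit 468) (nat_lit 1292) (nat_lit 0) (XT.nd (nat_lit 234) (nat_lit 456) (nat_lit 0) (XT.nd (nat_lit 78) (nat_lit 152) (nat_lit 0) (XT.lf (nat_lit 0) (nat_lit 5331740623) (nat_lit 76) (nat_lit 735716523) (nat_lit 0) (nat_lit 414621686) (nat_lit 52) (nat_lit 5) (nat_lit 53) (nat_lit 0) (nat_lit 52) (nat_lit 4) (nat_lit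 242) (nat_lit 240) (nat_lit 238)) (XT.nd (nat_lit 78) (nat_lit 0) (nat_lit 0) (XT.lf (nat_lit 0) (nat_lit 1385584149) (nat_lit 152) (nat_lit 4223992321) (nat_lit 76) (nat_lit 923216294) (nat_lit 50) (nat_lit 5) (nat_lit 52) (nat_lit 5) (nat_lit 51) (nat_lit 4) (nat_lit 243) (nat_lit 240) (nat_lit 237)) (XT.lf (nat_lit 0) (nat_lit 3842702966) (nat_lit 152) (nat_lit 1139933715) (nat_lit 76) (nat_lit 1622900822) (nat_lit 50) (nat_lit 5) (nat_lit 52) (nat_lit 5) (nat_lit 51) (nat_lit 4) (nat_lit 244) (nat_lit 240) (nat_lit 236)))) (XT.nd (nat_lit 78) (nat_lit 304) (nat_lit 0) (XT.lf (nat_lit 0) (nat_lit 2148027246) (nat_lit 152) (nat_lit 4177646861) (nat_lit 228) (nat_lit 374679227) (nat_lit 48) (nat_lit 5) (nat_lit 50) (nat_lit 5) (nat_lit 51) (nat_lit 4) (nat_lit 245) (nat_lit 240) (nat_lit 235)) (XT.nd (nat_lit 78) (nat_lit 228) (nat_lit 0) (XT.lf (nat_lit 0) (nat_lit 1909077400) (nat_lit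 228) (nat_lit 1250365053) (nat_lit 76) (nat_lit 3656108249) (nat_lit 47) (nat_lit 5) (nat_lit 50) (nat_lit 5) (nat_lit 48) (nat_lit 5) (nat_lit 246) (nat_lit 240) (nat_lit 234)) (XT.lf (nat_lit 0) (nat_lit 2271376173) (nat_lit 228) (nat_lit 1937478715) (nat_lit 304) (nat_lit 2744104709) (nat_lit 44) (nat_lit 5) (nat_lit 47) (nat_lit 5) (nat_lit 48) (nat_lit 5) (nat_lit 247) (nat_lit 240) (nat_lit 233))))) (XT.nd (nat_lit 234) (nat_lit 912) (nat_lit 0) (XT.nd (nat_lit 78) (nat_lit 380) (nat_lit 0) (XT.lf (nat_lit 0) (nat_lit 6001451494) (nat_lit 228) (nat_lit 535704410) (nat_lit 304) (nat_lit 578548763) (nat_lit 44) (nat_lit 5) (nat_lit 47) (nat_lit 5) (nat_lit 48) (nat_lit 5) (nat_lit 248) (nat_lit 240) (nat_lit 232)) (XT.nd (nat_lit 78) (nat_lit 0) (nat_lit 0) (XT.lf (nat_lit 0) (nat_lit 1582134153) (nat_lit 380) (nat_lit 4640839425) (nat_lit 76) (nat_lit 1073948791) (nat_lit 39)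 (nat_lit 5) (nat_lit 44) (nat_lit 5) (nat_lit 40) (nat_lit 5) (nat_lit 249) (nat_lit 240) (nat_lit 231)) (XT.lf (nat_lit 0) (nat_lit 3758551666) (nat_lit 380) (nat_lit 885853511) (nat_lit 76) (nat_lit 2858612856) (nat_lit 39) (nat_lit 5) (nat_lit 44) (nat_lit 5) (nat_lit 40) (nat_lit 5) (nat_lit 250) (nat_lit 240) (nat_lit 230)))) (XT.nd (nat_lit 78) (nat_lit 532) (nat_lit 0) (XT.lf (nat_lit 0) (nat_lit 3183081499) (nat_lit 380) (nat_lit 2844188759) (nat_lit 456) (nat_lit 1706277610) (nat_lit 34) (nat_lit 5) (nat_lit 39) (nat_lit 5) (nat_lit 40) (nat_lit 5) (nat_lit 251) (nat_lit 240) (nat_lit 229)) (XT.nd (nat_lit 78) (nat_lit 456) (nat_lit 0) (XT.lf (nat_lit 0) (nat_lit 339876108) (nat_lit 456) (nat_lit 516570279) (nat_lit 76) (nat_lit 7136749368) (nat_lit 33) (nat_lit 5) (nat_lit 39) (nat_lit 5) (nat_lit 34) (nat_lit 5) (nat_lit 252) (nat_lit 240) (nat_lit 228)) (XT.lf (nat_lit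 0) (nat_lit 2441071729) (nat_lit 532) (nat_lit 4461884588) (nat_lit 76) (nat_lit 1369543593) (nat_lit 27) (nat_lit 5) (nat_lit 34) (nat_lit 5) (nat_lit 28) (nat_lit 5) (nat_lit 253) (nat_lit 240) (nat_lit 227)))))) (XT.nd (nat_lit 468) (nat_lit 456) (nat_lit 0) (XT.nd (nat_lit 234) (nat_lit 228) (nat_lit 0) (XT.nd (nat_lit 78) (nat_lit 456) (nat_lit 0) (XT.lf (nat_lit 0) (nat_lit 4610765427) (nat_lit 532) (nat_lit 230811711) (nat_lit 76) (nat_lit 3741569233) (nat_lit 27) (nat_lit 5) (nat_lit 34) (nat_lit 5) (nat_lit 28) (nat_lit 5) (nat_lit 254) (nat_lit 240) (nat_lit 226)) (XT.nd (nat_lit 78) (nat_lit 228) (nat_lit 0) (XT.lf (nat_lit 0) (nat_lit 4422443497) (nat_lit 228) (nat_lit 2511716054) (nat_lit 304) (nat_lit 1987028862) (nat_lit 24) (nat_lit 5) (nat_lit 27) (nat_lit 5) (nat_lit 28) (nat_lit 5) (nat_lit 255) (nat_lit 240) (nat_lit 225)) (XT.lf (nat_lit 0) (nat_lit 31550370)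 (nat_lit 152) (nat_lit 906344) (nat_lit 228) (nat_lit 9263679193) (nat_lit 21) (nat_lit 5) (nat_lit 23) (nat_lit 5) (nat_lit 24) (nat_lit 5) (nat_lit 256) (nat_lit 240) (nat_lit 224)))) (XT.nd (nat_lit 78) (nat_lit 228) (nat_lit 0) (XT.lf (nat_lit 0) (nat_lit 2178879163) (nat_lit 228) (nat_lit 4778683853) (nat_lit 76) (nat_lit 2734326161) (nat_lit 21) (nat_lit 5) (nat_lit 24) (nat_lit 5) (nat_lit 22) (nat_lit 5) (nat_lit 257) (nat_lit 240) (nat_lit 223)) (XT.nd (nat_lit 78) (nat_lit 228) (nat_lit 0) (XT.lf (nat_lit 0) (nat_lit 4387165428) (nat_lit 228) (nat_lit 70564833) (nat_lit 76) (nat_lit 5671061561) (nat_lit 21) (nat_lit 5) (nat_lit 24) (nat_lit 5) (nat_lit 22) (nat_lit 5) (nat_lit 258) (nat_lit 240) (nat_lit 222)) (XT.lf (nat_lit 0) (nat_lit 5145070550) (nat_lit 228) (nat_lit 1649048372) (nat_lit 304) (nat_lit 3805416590) (nat_lit 18) (nat_lit 5) (nat_lit 21) (nat_lit 5) (nat_lit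 22) (nat_lit 5) (nat_lit 259) (nat_lit 240) (nat_lit 221))))) (XT.nd (nat_lit 234) (nat_lit 228) (nat_lit 0) (XT.nd (nat_lit 78) (nat_lit 228) (nat_lit 0) (XT.lf (nat_lit 0) (nat_lit 9331108169) (nat_lit 304) (nat_lit 490210863) (nat_lit 76) (nat_lit 1292222402) (nat_lit 18) (nat_lit 5) (nat_lit 22) (nat_lit 5) (nat_lit 19) (nat_lit 4) (nat_lit 260) (nat_lit 240) (nat_lit 220)) (XT.nd (nat_lit 78) (nat_lit 0) (nat_lit 0) (XT.lf (nat_lit 0) (nat_lit 455034604) (nat_lit 228) (nat_lit 6720160200) (nat_lit 76) (nat_lit 4487392169) (nat_lit 15) (nat_lit 5) (nat_lit 18) (nat_lit 5) (nat_lit 16) (nat_lit 5) (nat_lit 261) (nat_lit 240) (nat_lit 219)) (XT.lf (nat_lit 0) (nat_lit 2699526099) (nat_lit 228) (nat_lit 1587034563) (nat_lit 76) (nat_lit 7971822993) (nat_lit 15) (nat_lit 5) (nat_lit 18) (nat_lit 5) (nat_lit 16) (nat_lit 5) (nat_lit 262) (nat_lit 240) (nat_lit 218)))) (XT.nd (nat_lit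 78) (nat_lit 76) (nat_lit 0) (XT.lf (nat_lit 0) (nat_lit 4044761953) (nat_lit 152) (nat_lit 1093288358) (nat_lit 228) (nat_lit 7763077709) (nat_lit 13) (nat_lit 5) (nat_lit 15) (nat_lit 5) (nat_lit 16) (nat_lit 5) (nat_lit 263) (nat_lit 240) (nat_lit 217)) (XT.nd (nat_lit 78) (nat_lit 76) (nat_lit 0) (XT.lf (nat_lit 0) (nat_lit 7792703769) (nat_lit 228) (nat_lit 3549644129) (nat_lit 76) (nat_lit 2251669346) (nat_lit 13) (nat_lit 5) (nat_lit 16) (nat_lit 5) (nat_lit 14) (nat_lit 4) (nat_lit 264) (nat_lit 240) (nat_lit 216)) (XT.lf (nat_lit 0) (nat_lit 2152169208) (nat_lit 76) (nat_lit 8513531346) (nat_lit 152) (nat_lit 3676538159) (nat_lit 12) (nat_lit 5) (nat_lit 13) (nat_lit 5) (nat_lit 14) (nat_lit 4) (nat_lit 265) (nat_lit 240) (nat_lit 215))))))))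
noncomputable def xc50 : XT := (XT.nd (nat_lit 1794) (nat_lit 76) (nat_lit 0) (XT.nd (nat_lit 858) (nat_lit 304) (nat_lit 0) (XT.nd (nat_lit 390) (nat_lit 152) (nat_lit 0) (XT.nd (nat_lit 156) (nat_lit 228) (nat_lit 0) (XT.nd (nat_lit 78) (nat_lit 76) (nat_lit 0) (XT.lf (nat_lit 0) (nat_lit 8406041683) (nat_lit 76) (nat_lit 5388310157) (nat_lit 152) (nat_lit 1354251610) (nat_lit 12) (nat_lit 5) (nat_lit 13) (nat_lit 5) (nat_lit 14) (nat_lit 4) (nat_lit 266) (nat_lit 240) (nat_lit 214)) (XT.lf (nat_lit 0) (nat_lit 1028115563) (nat_lit 152) (nat_lit 988991998) (nat_lit 76) (nat_lit 14005889246) (nat_lit 11) (nat_lit 5) (nat_lit 13) (nat_lit 5) (nat_lit 12) (nat_lit 5) (nat_lit 267) (nat_lit 240) (nat_lit 213))) (XT.nd (nat_lit 78) (nat_lit 76) (nat_lit 0) (XT.lf (nat_lit 0) (nat_lit 3636512375) (nat_lit 228) (nat_lit 11638520926) (nat_lit 76) (nat_lit 1681084323) (nat_lit 9) (nat_lit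 5) (nat_lit 12) (nat_lit 5) (nat_lit 10) (nat_lit 4) (nat_lit 268) (nat_lit 240) (nat_lit 212)) (XT.nd (nat_lit 78) (nat_lit 76) (nat_lit 0) (XT.lf (nat_lit 0) (nat_lit 6472459148) (nat_lit 228) (nat_lit 5926245031) (nat_lit 76) (nat_lit 5563931469) (nat_lit 9) (nat_lit 5) (nat_lit 12) (nat_lit 5) (nat_lit 10) (nat_lit 4) (nat_lit 269) (nat_lit 240) (nat_lit 211)) (XT.lf (nat_lit 0) (nat_lit 161866865) (nat_lit 76) (nat_lit 9320587938) (nat_lit 152) (nat_lit 9571685161) (nat_lit 8) (nat_lit 5) (nat_lit 9) (nat_lit 5) (nat_lit 10) (nat_lit 4) (nat_lit 270) (nat_lit 240) (nat_lit 210))))) (XT.nd (nat_lit 234) (nat_lit 152) (nat_lit 0) (XT.nd (nat_lit 78) (nat_lit 0) (nat_lit 0) (XT.lf (nat_lit 0) (nat_lit 6987074540) (nat_lit 76) (nat_lit 5853599349) (nat_lit 152) (nat_lit 7383917855) (nat_lit 8) (nat_lit 5) (nat_lit 9) (nat_lit 5) (nat_lit 10) (nat_lit 4) (nat_lit 271) (nat_lit 240)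 (nat_lit 209)) (XT.nd (nat_lit 78) (nat_lit 0) (nat_lit 0) (XT.lf (nat_lit 0) (nat_lit 14277758107) (nat_lit 76) (nat_lit 2139227337) (nat_lit 152) (nat_lit 5075944077) (nat_lit 8) (nat_lit 5) (nat_lit 9) (nat_lit 5) (nat_lit 10) (nat_lit 4) (nat_lit 272) (nat_lit 240) (nat_lit 208)) (XT.lf (nat_lit 0) (nat_lit 20276943636) (nat_lit 152) (nat_lit 833908966) (nat_lit 0) (nat_lit 1752267869) (nat_lit 8) (nat_lit 5) (nat_lit 10) (nat_lit 4) (nat_lit 8) (nat_lit 4) (nat_lit 273) (nat_lit 240) (nat_lit 207)))) (XT.nd (nat_lit 78) (nat_lit 0) (nat_lit 0) (XT.lf (nat_lit 0) (nat_lit 263391633) (nat_lit 152) (nat_lit 18094343639) (nat_lit 76) (nat_lit 5971895277) (nat_lit 6) (nat_lit 5) (nat_lit 8) (nat_lit 5) (nat_lit 7) (nat_lit 4) (nat_lit 274) (nat_lit 240) (nat_lit 206)) (XT.nd (nat_lit 78) (nat_lit 0) (nat_lit 0) (XT.lf (nat_lit 0) (nat_lit 3180939939) (nat_lit 152) (nat_lit 12134660266)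 (nat_lit 76) (nat_lit 10594258971) (nat_lit 6) (nat_lit 5) (nat_lit 8) (nat_lit 5) (nat_lit 7) (nat_lit 4) (nat_lit 275) (nat_lit 240) (nat_lit 205)) (XT.lf (nat_lit 0) (nat_lit 6291468322) (nat_lit 152) (nat_lit 5765517806) (nat_lit 76) (nat_lit 15562893148) (nat_lit 6) (nat_lit 5) (nat_lit 8) (nat_lit 5) (nat_lit 7) (nat_lit 4) (nat_lit 276) (nat_lit 240) (nat_lit 204)))))) (XT.nd (nat_lit 468) (nat_lit 152) (nat_lit 0) (XT.nd (nat_lit 234) (nat_lit 76) (nat_lit 0) (XT.nd (nat_lit 78) (nat_lit 0) (nat_lit 0) (XT.lf (nat_lit 0) (nat_lit 1106161483) (nat_lit 76) (nat_lit 8533851270) (nat_lit 152) (nat_lit 19827683293) (nat_lit 5) (nat_lit 5) (nat_lit 6) (nat_lit 5) (nat_lit 7) (nat_lit 4) (nat_lit 277) (nat_lit 240) (nat_lit 203)) (XT.nd (nat_lit 78) (nat_lit 0) (nat_lit 0) (XT.lf (nat_lit 0) (nat_lit 8794713934) (nat_lit 76) (nat_lit 4583248326) (nat_lit 152) (nat_lit 18075773585)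 (nat_lit 5) (nat_lit 5) (nat_lit 6) (nat_lit 5) (nat_lit 7) (nat_lit 4) (nat_lit 278) (nat_lit 240) (nat_lit 202)) (XT.lf (nat_lit 0) (nat_lit 17042099389) (nat_lit 76) (nat_lit 339405791) (nat_lit 152) (nat_lit 16219939618) (nat_lit 5) (nat_lit 5) (nat_lit 6) (nat_lit 5) (nat_lit 7) (nat_lit 4) (nat_lit 279) (nat_lit 240) (nat_lit 201)))) (XT.nd (nat_lit 78) (nat_lit 76) (nat_lit 0) (XT.lf (nat_lit 0) (nat_lit 21775925255) (nat_lit 152) (nat_lit 10127917871) (nat_lit 0) (nat_lit 4011582219) (nat_lit 5) (nat_lit 5) (nat_lit 7) (nat_lit 4) (nat_lit 5) (nat_lit 4) (nat_lit 280) (nat_lit 240) (nat_lit 200)) (XT.nd (nat_lit 78) (nat_lit 76) (nat_lit 0) (XT.lf (nat_lit 0) (nat_lit 26501572784) (nat_lit 152) (nat_lit 3240936422) (nat_lit 0) (nat_lit 8673736014) (nat_lit 5) (nat_lit 5) (nat_lit 7) (nat_lit 4) (nat_lit 5) (nat_lit 4) (nat_lit 281) (nat_lit 240) (nat_lit 199)) (XT.lf (nat_lit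 0) (nat_lit 4369135234) (nat_lit 76) (nat_lit 27314231460) (nat_lit 76) (nat_lit 9427604195) (nat_lit 4) (nat_lit 4) (nat_lit 5) (nat_lit 5) (nat_lit 5) (nat_lit 4) (nat_lit 282) (nat_lit 240) (nat_lit 198))))) (XT.nd (nat_lit 234) (nat_lit 152) (nat_lit 0) (XT.nd (nat_lit 78) (nat_lit 0) (nat_lit 0) (XT.lf (nat_lit 0) (nat_lit 12727072849) (nat_lit 76) (nat_lit 24615171366) (nat_lit 76) (nat_lit 6674108457) (nat_lit 4) (nat_lit 4) (nat_lit 5) (nat_lit 5) (nat_lit 5) (nat_lit 4) (nat_lit 283) (nat_lit 240) (nat_lit 197)) (XT.nd (nat_lit 78) (nat_lit 0) (nat_lit 0) (XT.lf (nat_lit 0) (nat_lit 21711742973) (nat_lit 76) (nat_lit 21717947439) (nat_lit 76) (nat_lit 3726481157) (nat_lit 4) (nat_lit 4) (nat_lit 5) (nat_lit 5) (nat_lit 5) (nat_lit 4) (nat_lit 284) (nat_lit 240) (nat_lit 196)) (XT.lf (nat_lit 0) (nat_lit 31376388095) (nat_lit 76) (nat_lit 18605390945) (nat_lit 76) (nat_lit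 567254873) (nat_lit 4) (nat_lit 4) (nat_lit 5) (nat_lit 5) (nat_lit 5) (nat_lit 4) (nat_lit 285) (nat_lit 240) (nat_lit 195)))) (XT.nd (nat_lit 78) (nat_lit 76) (nat_lit 0) (XT.lf (nat_lit 0) (nat_lit 2681109271) (nat_lit 152) (nat_lit 12504641555) (nat_lit 76) (nat_lit 39023864637) (nat_lit 3) (nat_lit 5) (nat_lit 5) (nat_lit 5) (nat_lit 4) (nat_lit 4) (nat_lit 286) (nat_lit 240) (nat_lit 194)) (XT.nd (nat_lit 78) (nat_lit 76) (nat_lit 0) (XT.lf (nat_lit 0) (nat_lit 6138977208) (nat_lit 152) (nat_lit 5352288068) (nat_lit 76) (nat_lit 46672232365) (nat_lit 3) (nat_lit 5) (nat_lit 5) (nat_lit 5) (nat_lit 4) (nat_lit 4) (nat_lit 287) (nat_lit 240) (nat_lit 193)) (XT.lf (nat_lit 0) (nat_lit 2463684950) (nat_lit 76) (nat_lit 7450783125) (nat_lit 152) (nat_lit 52515994054) (nat_lit 2) (nat_lit 5) (nat_lit 3) (nat_lit 5) (nat_lit 4) (nat_lit 4) (nat_lit 288) (nat_lit 240) (nat_lit 192)))))))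 (XT.nd (nat_lit 936) (nat_lit 0) (nat_lit 0) (XT.nd (nat_lit 468) (nat_lit 76) (nat_lit 0) (XT.nd (nat_lit 234) (nat_lit 0) (nat_lit 0) (XT.nd (nat_lit 78) (nat_lit 0) (nat_lit 0) (XT.lf (nat_lit 0) (nat_lit 11178318304) (nat_lit 76) (nat_lit 2942369503) (nat_lit 152) (nat_lit 52907848220) (nat_lit 2) (nat_lit 5) (nat_lit 3) (nat_lit 5) (nat_lit 4) (nat_lit 4) (nat_lit 289) (nat_lit 240) (nat_lit 191)) (XT.nd (nat_lit 78) (nat_lit 0) (nat_lit 0) (XT.lf (nat_lit 0) (nat_lit 18693101377) (nat_lit 152) (nat_lit 51480435189) (nat_lit 0) (nat_lit 1818587477) (nat_lit 2) (nat_lit 5) (nat_lit 4) (nat_lit 4) (nat_lit 2) (nat_lit 4) (nat_lit 290) (nat_lit 240) (nat_lit 190)) (XT.lf (nat_lit 0) (nat_lit 23692324568) (nat_lit 152) (nat_lit 46865054570) (nat_lit 0) (nat_lit 6790579294) (nat_lit 2) (nat_lit 5) (nat_lit 4) (nat_lit 4) (nat_lit 2) (nat_lit 4) (nat_lit 291) (nat_lit 240) (nat_lit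 189)))) (XT.nd (nat_lit 78) (nat_lit 0) (nat_lit 0) (XT.lf (nat_lit 0) (nat_lit 29077218351) (nat_lit 152) (nat_lit 41905961404) (nat_lit 0) (nat_lit 12150258842) (nat_lit 2) (nat_lit 5) (nat_lit 4) (nat_lit 4) (nat_lit 2) (nat_lit 4) (nat_lit 292) (nat_lit 240) (nat_lit 188)) (XT.nd (nat_lit 78) (nat_lit 0) (nat_lit 0) (XT.lf (nat_lit 0) (nat_lit 34879693207) (nat_lit 152) (nat_lit 36573768473) (nat_lit 0) (nat_lit 17929387183) (nat_lit 2) (nat_lit 5) (nat_lit 4) (nat_lit 4) (nat_lit 2) (nat_lit 4) (nat_lit 293) (nat_lit 240) (nat_lit 187)) (XT.lf (nat_lit 0) (nat_lit 41134134172) (nat_lit 152) (nat_lit 30836877598) (nat_lit 0) (nat_lit 24162211005) (nat_lit 2) (nat_lit 5) (nat_lit 4) (nat_lit 4) (nat_lit 2) (nat_lit 4) (nat_lit 294) (nat_lit 240) (nat_lit 186))))) (XT.nd (nat_lit 234) (nat_lit 76) (nat_lit 0) (XT.nd (nat_lit 78) (nat_lit 0) (nat_lit 0) (XT.lf (nat_lit 0) (nat_lit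 47877604600) (nat_lit 152) (nat_lit 24661292387) (nat_lit 0) (nat_lit 30885665561) (nat_lit 2) (nat_lit 5) (nat_lit 4) (nat_lit 4) (nat_lit 2) (nat_lit 4) (nat_lit 295) (nat_lit 240) (nat_lit 185)) (XT.nd (nat_lit 78) (nat_lit 0) (nat_lit 0) (XT.lf (nat_lit 0) (nat_lit 55150065798) (nat_lit 152) (nat_lit 18010416779) (nat_lit 0) (nat_lit 38139593542) (nat_lit 2) (nat_lit 5) (nat_lit 4) (nat_lit 4) (nat_lit 2) (nat_lit 4) (nat_lit 296) (nat_lit 240) (nat_lit 184)) (XT.lf (nat_lit 0) (nat_lit 62994613831) (nat_lit 152) (nat_lit 10844838180) (nat_lit 0) (nat_lit 45966981190) (nat_lit 2) (nat_lit 5) (nat_lit 4) (nat_lit 4) (nat_lit 2) (nat_lit 4) (nat_lit 297) (nat_lit 240) (nat_lit 183)))) (XT.nd (nat_lit 78) (nat_lit 76) (nat_lit 0) (XT.lf (nat_lit 0) (nat_lit 71457734910) (nat_lit 152) (nat_lit 3122093900) (nat_lit 0) (nat_lit 54414213024) (nat_lit 2) (nat_lit 5) (nat_lit 4) (nat_lit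 4) (nat_lit 2) (nat_lit 4) (nat_lit 298) (nat_lit 240) (nat_lit 182)) (XT.nd (nat_lit 78) (nat_lit 0) (nat_lit 0) (XT.lf (nat_lit 0) (nat_lit 5477591796) (nat_lit 76) (nat_lit 75243725283) (nat_lit 76) (nat_lit 58185491133) (nat_lit 1) (nat_lit 4) (nat_lit 2) (nat_lit 5) (nat_lit 2) (nat_lit 4) (nat_lit 299) (nat_lit 240) (nat_lit 181)) (XT.lf (nat_lit 0) (nat_lit 14928296091) (nat_lit 76) (nat_lit 75874996125) (nat_lit 76) (nat_lit 58803139508) (nat_lit 1) (nat_lit 4) (nat_lit 2) (nat_lit 5) (nat_lit 2) (nat_lit 4) (nat_lit 300) (nat_lit 240) (nat_lit 180)))))) (XT.nd (nat_lit 468) (nat_lit 0) (nat_lit 0) (XT.nd (nat_lit 234) (nat_lit 0) (nat_lit 0) (XT.nd (nat_lit 78) (nat_lit 0) (nat_lit 0) (XT.lf (nat_lit 0) (nat_lit 25121619227) (nat_lit 76) (nat_lit 76562745781) (nat_lit 76) (nat_lit 59478275769) (nat_lit 1) (nat_lit 4) (nat_lit 2) (nat_lit 5) (nat_lit 2) (nat_lit 4) (nat_lit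 301) (nat_lit 240) (nat_lit 179)) (XT.nd (nat_lit 78) (nat_lit 0) (nat_lit 0) (XT.lf (nat_lit 0) (nat_lit 36117966081) (nat_lit 76) (nat_lit 77311049805) (nat_lit 76) (nat_lit 60214900723) (nat_lit 1) (nat_lit 4) (nat_lit 2) (nat_lit 5) (nat_lit 2) (nat_lit 4) (nat_lit 302) (nat_lit 240) (nat_lit 178)) (XT.lf (nat_lit 0) (nat_lit 47982500190) (nat_lit 76) (nat_lit 78124342591) (nat_lit 76) (nat_lit 61017379555) (nat_lit 1) (nat_lit 4) (nat_lit 2) (nat_lit 5) (nat_lit 2) (nat_lit 4) (nat_lit 303) (nat_lit 240) (nat_lit 177)))) (XT.nd (nat_lit 78) (nat_lit 0) (nat_lit 0) (XT.lf (nat_lit 0) (nat_lit 60785529905) (nat_lit 76) (nat_lit 79007443651) (nat_lit 76) (nat_lit 61890467696) (nat_lit 1) (nat_lit 4) (nat_lit 2) (nat_lit 5) (nat_lit 2) (nat_lit 4) (nat_lit 304) (nat_lit 240) (nat_lit 176)) (XT.nd (nat_lit 78) (nat_lit 0) (nat_lit 0) (XT.lf (nat_lit 0) (nat_lit 74602925031) (nat_lit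 76) (nat_lit 79965586178) (nat_lit 76) (nat_lit 62839339001) (nat_lit 1) (nat_lit 4) (nat_lit 2) (nat_lit 5) (nat_lit 2) (nat_lit 4) (nat_lit 305) (nat_lit 240) (nat_lit 175)) (XT.lf (nat_lit 0) (nat_lit 89516566428) (nat_lit 76) (nat_lit 81004448053) (nat_lit 76) (nat_lit 63869616411) (nat_lit 1) (nat_lit 4) (nat_lit 2) (nat_lit 5) (nat_lit 2) (nat_lit 4) (nat_lit 306) (nat_lit 240) (nat_lit 174))))) (XT.nd (nat_lit 234) (nat_lit 0) (nat_lit 0) (XT.nd (nat_lit 78) (nat_lit 0) (nat_lit 0) (XT.lf (nat_lit 0) (nat_lit 105614831231) (nat_lit 76) (nat_lit 82130185494) (nat_lit 76) (nat_lit 64987405273) (nat_lit 1) (nat_lit 4) (nat_lit 2) (nat_lit 5) (nat_lit 2) (nat_lit 4) (nat_lit 307) (nat_lit 240) (nat_lit 173)) (XT.nd (nat_lit 78) (nat_lit 0) (nat_lit 0) (XT.lf (nat_lit 0) (nat_lit 122993116564) (nat_lit 76) (nat_lit 83349469538) (nat_lit 76) (nat_lit 66199329522) (nat_lit 1) (nat_lit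 4) (nat_lit 2) (nat_lit 5) (nat_lit 2) (nat_lit 4) (nat_lit 308) (nat_lit 240) (nat_lit 172)) (XT.lf (nat_lit 0) (nat_lit 141754404858) (nat_lit 76) (nat_lit 84669525572) (nat_lit 76) (nat_lit 67512570931) (nat_lit 1) (nat_lit 4) (nat_lit 2) (nat_lit 5) (nat_lit 2) (nat_lit 4) (nat_lit 309) (nat_lit 240) (nat_lit 171)))) (XT.nd (nat_lit 78) (nat_lit 0) (nat_lit 0) (XT.lf (nat_lit 0) (nat_lit 162009874119) (nat_lit 76) (nat_lit 86098176151) (nat_lit 76) (nat_lit 68934911672) (nat_lit 1) (nat_lit 4) (nat_lit 2) (nat_lit 5) (nat_lit 2) (nat_lit 4) (nat_lit 310) (nat_lit 240) (nat_lit 170)) (XT.nd (nat_lit 78) (nat_lit 0) (nat_lit 0) (XT.lf (nat_lit 0) (nat_lit 183879556757) (nat_lit 76) (nat_lit 87643887351) (nat_lit 76) (nat_lit 70474780429) (nat_lit 1) (nat_lit 4) (nat_lit 2) (nat_lit 5) (nat_lit 2) (nat_lit 4) (nat_lit 311) (nat_lit 240) (nat_lit 169)) (XT.lf (nat_lit 0) (nat_lit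 207493050891) (nat_lit 76) (nat_lit 89315818943) (nat_lit 76) (nat_lit 72141302352) (nat_lit 1) (nat_lit 4) (nat_lit 2) (nat_lit 5) (nat_lit 2) (nat_lit 4) (nat_lit 312) (nat_lit 240) (nat_lit 168))))))))
noncomputable def xc51 : XT := (XT.nd (nat_lit 31980) (nat_lit 0) (nat_lit 912) (XT.nd (nat_lit 936) (nat_lit 0) (nat_lit 0) (XT.nd (nat_lit 468) (nat_lit 0) (nat_lit 0) (XT.nd (nat_lit 234) (nat_lit 0) (nat_lit 0) (XT.nd (nat_lit 78) (nat_lit 0) (nat_lit 0) (XT.lf (nat_lit 0) (nat_lit 232990288339) (nat_lit 76) (nat_lit 91123878669) (nat_lit 76) (nat_lit 73944353126) (nat_lit 1) (nat_lit 4) (nat_lit 2) (nat_lit 5) (nat_lit 2) (nat_lit 4) (nat_lit 313) (nat_lit 240) (nat_lit 167)) (XT.nd (nat_lit 78) (nat_lit 0) (nat_lit 0) (XT.lf (nat_lit 0) (nat_lit 260522363840) (nat_lit 76) (nat_lit 93078780958) (nat_lit 76) (nat_lit 75894617496) (nat_lit 1) (nat_lit 4) (nat_lit 2) (nat_lit 5)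 (nat_lit 2) (nat_lit 4) (nat_lit 314) (nat_lit 240) (nat_lit 166)) (XT.lf (nat_lit 0) (nat_lit 290252430435) (nat_lit 76) (nat_lit 95192110416) (nat_lit 76) (nat_lit 78003652584) (nat_lit 1) (nat_lit 4) (nat_lit 2) (nat_lit 5) (nat_lit 2) (nat_lit 4) (nat_lit 315) (nat_lit 240) (nat_lit 165)))) (XT.nd (nat_lit 78) (nat_lit 0) (nat_lit 0) (XT.lf (nat_lit 0) (nat_lit 322356666296) (nat_lit 76) (nat_lit 97476390477) (nat_lit 76) (nat_lit 80283956377) (nat_lit 1) (nat_lit 4) (nat_lit 2) (nat_lit 5) (nat_lit 2) (nat_lit 4) (nat_lit 316) (nat_lit 240) (nat_lit 164)) (XT.nd (nat_lit 78) (nat_lit 0) (nat_lit 0) (XT.lf (nat_lit 0) (nat_lit 357025318747) (nat_lit 76) (nat_lit 99945157615) (nat_lit 76) (nat_lit 82749041785) (nat_lit 1) (nat_lit 4) (nat_lit 2) (nat_lit 5) (nat_lit 2) (nat_lit 4) (nat_lit 317) (nat_lit 240) (nat_lit 163)) (XT.lf (nat_lit 0) (nat_lit 394463831654) (nat_lit 76)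 (nat_lit 102613041561) (nat_lit 76) (nat_lit 85413516721) (nat_lit 1) (nat_lit 4) (nat_lit 2) (nat_lit 5) (nat_lit 2) (nat_lit 4) (nat_lit 318) (nat_lit 240) (nat_lit 162))))) (XT.nd (nat_lit 234) (nat_lit 0) (nat_lit 0) (XT.nd (nat_lit 78) (nat_lit 0) (nat_lit 0) (XT.lf (nat_lit 0) (nat_lit 434894062872) (nat_lit 76) (nat_lit 105495851997) (nat_lit 76) (nat_lit 88293170668) (nat_lit 1) (nat_lit 4) (nat_lit 2) (nat_lit 5) (nat_lit 2) (nat_lit 4) (nat_lit 319) (nat_lit 240) (nat_lit 161)) (XT.nd (nat_lit 78) (nat_lit 0) (nat_lit 0) (XT.lf (nat_lit 0) (nat_lit 478555598955) (nat_lit 76) (nat_lit 108610672246) (nat_lit 76) (nat_lit 91405068241) (nat_lit 1) (nat_lit 4) (nat_lit 2) (nat_lit 5) (nat_lit 2) (nat_lit 4) (nat_lit 320) (nat_lit 240) (nat_lit 160)) (XT.lf (nat_lit 0) (nat_lit 525707174933) (nat_lit 76) (nat_lit 111975960501) (nat_lit 76) (nat_lit 94767650314) (nat_lit 1) (nat_lit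 4) (nat_lit 2) (nat_lit 5) (nat_lit 2) (nat_lit 4) (nat_lit 321) (nat_lit 240) (nat_lit 159)))) (XT.nd (nat_lit 78) (nat_lit 0) (nat_lit 0) (XT.lf (nat_lit 0) (nat_lit 576628207552) (nat_lit 76) (nat_lit 115611659210) (nat_lit 76) (nat_lit 98400843301) (nat_lit 1) (nat_lit 4) (nat_lit 2) (nat_lit 5) (nat_lit 2) (nat_lit 4) (nat_lit 322) (nat_lit 240) (nat_lit 158)) (XT.nd (nat_lit 78) (nat_lit 0) (nat_lit 0) (XT.lf (nat_lit 0) (nat_lit 631620451079) (nat_lit 76) (nat_lit 119539313256) (nat_lit 76) (nat_lit 102326177232) (nat_lit 1) (nat_lit 4) (nat_lit 2) (nat_lit 5) (nat_lit 2) (nat_lit 4) (nat_lit 323) (nat_lit 240) (nat_lit 157)) (XT.lf (nat_lit 0) (nat_lit 691009785476) (nat_lit 76) (nat_lit 123782197625) (nat_lit 76) (nat_lit 106566913347) (nat_lit 1) (nat_lit 4) (nat_lit 2) (nat_lit 5) (nat_lit 2) (nat_lit 4) (nat_lit 324) (nat_lit 240) (nat_lit 156)))))) (XT.nd (nat_lit 468)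 (nat_lit 0) (nat_lit 0) (XT.nd (nat_lit 234) (nat_lit 0) (nat_lit 0) (XT.nd (nat_lit 78) (nat_lit 0) (nat_lit 0) (XT.lf (nat_lit 0) (nat_lit 755148147540) (nat_lit 76) (nat_lit 128365455336) (nat_lit 76) (nat_lit 111148181934) (nat_lit 1) (nat_lit 4) (nat_lit 2) (nat_lit 5) (nat_lit 2) (nat_lit 4) (nat_lit 325) (nat_lit 240) (nat_lit 155)) (XT.nd (nat_lit 78) (nat_lit 0) (nat_lit 0) (XT.lf (nat_lit 0) (nat_lit 824415616452) (nat_lit 76) (nat_lit 133316246434) (nat_lit 76) (nat_lit 116097131250) (nat_lit 1) (nat_lit 4) (nat_lit 2) (nat_lit 5) (nat_lit 2) (nat_lit 4) (nat_lit 326) (nat_lit 240) (nat_lit 154)) (XT.lf (nat_lit 0) (nat_lit 899222666104) (nat_lit 76) (nat_lit 138663908940) (nat_lit 76) (nat_lit 121443088403) (nat_lit 1) (nat_lit 4) (nat_lit 2) (nat_lit 5) (nat_lit 2) (nat_lit 4) (nat_lit 327) (nat_lit 240) (nat_lit 153)))) (XT.nd (nat_lit 78) (nat_lit 0) (nat_lit 0) (XT.lf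 (nat_lit 0) (nat_lit 980012597529) (nat_lit 76) (nat_lit 144440132708) (nat_lit 76) (nat_lit 127217733140) (nat_lit 1) (nat_lit 4) (nat_lit 2) (nat_lit 5) (nat_lit 2) (nat_lit 4) (nat_lit 328) (nat_lit 240) (nat_lit 152)) (XT.nd (nat_lit 78) (nat_lit 0) (nat_lit 0) (XT.lf (nat_lit 0) (nat_lit 1067264165878) (nat_lit 76) (nat_lit 150679147209) (nat_lit 76) (nat_lit 133455285576) (nat_lit 1) (nat_lit 4) (nat_lit 2) (nat_lit 5) (nat_lit 2) (nat_lit 4) (nat_lit 329) (nat_lit 240) (nat_lit 151)) (XT.lf (nat_lit 0) (nat_lit 1161494417480) (nat_lit 76) (nat_lit 157417924384) (nat_lit 76) (nat_lit 140192708986) (nat_lit 1) (nat_lit 4) (nat_lit 2) (nat_lit 5) (nat_lit 2) (nat_lit 4) (nat_lit 330) (nat_lit 240) (nat_lit 150))))) (XT.nd (nat_lit 234) (nat_lit 0) (nat_lit 0) (XT.nd (nat_lit 78) (nat_lit 0) (nat_lit 0) (XT.lf (nat_lit 0) (nat_lit 1263261753827) (nat_lit 76) (nat_lit 164696397725)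 (nat_lit 76) (nat_lit 147469928841) (nat_lit 1) (nat_lit 4) (nat_lit 2) (nat_lit 5) (nat_lit 2) (nat_lit 4) (nat_lit 331) (nat_lit 240) (nat_lit 149)) (XT.nd (nat_lit 78) (nat_lit 0) (nat_lit 0) (XT.lf (nat_lit 0) (nat_lit 1373169240616) (nat_lit 76) (nat_lit 172557698927) (nat_lit 76) (nat_lit 155330069408) (nat_lit 1) (nat_lit 4) (nat_lit 2) (nat_lit 5) (nat_lit 2) (nat_lit 4) (nat_lit 332) (nat_lit 240) (nat_lit 148)) (XT.lf (nat_lit 0) (nat_lit 1491868181473) (nat_lit 76) (nat_lit 181048413478) (nat_lit 76) (nat_lit 163819709298) (nat_lit 1) (nat_lit 4) (nat_lit 2) (nat_lit 5) (nat_lit 2) (nat_lit 4) (nat_lit 333) (nat_lit 240) (nat_lit 147)))) (XT.nd (nat_lit 78) (nat_lit 0) (nat_lit 0) (XT.lf (nat_lit 0) (nat_lit 1620061977528) (nat_lit 76) (nat_lit 190218856724) (nat_lit 76) (nat_lit 172989157486) (nat_lit 1) (nat_lit 4) (nat_lit 2) (nat_lit 5) (nat_lit 2) (nat_lit 4) (nat_lit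 334) (nat_lit 240) (nat_lit 146)) (XT.nd (nat_lit 30186) (nat_lit 0) (nat_lit 3876) (XT.lf (nat_lit 0) (nat_lit 1758510295720) (nat_lit 76) (nat_lit 200123372032) (nat_lit 76) (nat_lit 182892751445) (nat_lit 1) (nat_lit 4) (nat_lit 2) (nat_lit 5) (nat_lit 2) (nat_lit 4) (nat_lit 335) (nat_lit 240) (nat_lit 145)) (XT.lf (nat_lit 0) (nat_lit 1311463129) (nat_lit 0) (nat_lit 1311463129) (nat_lit 76) (nat_lit 611735541) (nat_lit 52) (nat_lit 5) (nat_lit 52) (nat_lit 3) (nat_lit 53) (nat_lit 0) (nat_lit 241) (nat_lit 241) (nat_lit 238))))))) (XT.nd (nat_lit 936) (nat_lit 1064) (nat_lit 0) (XT.nd (nat_lit 468) (nat_lit 1292) (nat_lit 0) (XT.nd (nat_lit 234) (nat_lit 380) (nat_lit 0) (XT.nd (nat_lit 78) (nat_lit 0) (nat_lit 0) (XT.lf (nat_lit 0) (nat_lit 1183971242) (nat_lit 228) (nat_lit 1055478291) (nat_lit 228) (nat_lit 4271673498) (nat_lit 49) (nat_lit 3) (nat_lit 52) (nat_lit 3) (nat_lit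 52) (nat_lit 5) (nat_lit 242) (nat_lit 241) (nat_lit 237)) (XT.nd (nat_lit 78) (nat_lit 0) (nat_lit 0) (XT.lf (nat_lit 76) (nat_lit 1890853556) (nat_lit 0) (nat_lit 1633143154) (nat_lit 228) (nat_lit 3048042141) (nat_lit 50) (nat_lit 5) (nat_lit 49) (nat_lit 3) (nat_lit 52) (nat_lit 5) (nat_lit 243) (nat_lit 241) (nat_lit 236)) (XT.lf (nat_lit 76) (nat_lit 5005555643) (nat_lit 0) (nat_lit 849808510) (nat_lit 228) (nat_lit 800726729) (nat_lit 50) (nat_lit 5) (nat_lit 49) (nat_lit 3) (nat_lit 52) (nat_lit 5) (nat_lit 244) (nat_lit 241) (nat_lit 235)))) (XT.nd (nat_lit 78) (nat_lit 228) (nat_lit 0) (XT.lf (nat_lit 0) (nat_lit 1369920112) (nat_lit 228) (nat_lit 5235791929) (nat_lit 76) (nat_lit 154257624) (nat_lit 47) (nat_lit 5) (nat_lit 50) (nat_lit 5) (nat_lit 48) (nat_lit 5) (nat_lit 245) (nat_lit 241) (nat_lit 234)) (XT.nd (nat_lit 78) (nat_lit 228) (nat_lit 0) (XT.lf (nat_lit 0)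 (nat_lit 3538268425) (nat_lit 228) (nat_lit 2014124725) (nat_lit 76) (nat_lit 1330776279) (nat_lit 47) (nat_lit 5) (nat_lit 50) (nat_lit 5) (nat_lit 48) (nat_lit 5) (nat_lit 246) (nat_lit 241) (nat_lit 233)) (XT.lf (nat_lit 0) (nat_lit 1397920110) (nat_lit 228) (nat_lit 4329614217) (nat_lit 304) (nat_lit 1302801640) (nat_lit 44) (nat_lit 5) (nat_lit 47) (nat_lit 5) (nat_lit 48) (nat_lit 5) (nat_lit 247) (nat_lit 241) (nat_lit 232))))) (XT.nd (nat_lit 234) (nat_lit 912) (nat_lit 0) (XT.nd (nat_lit 78) (nat_lit 304) (nat_lit 0) (XT.lf (nat_lit 0) (nat_lit 732174581) (nat_lit 304) (nat_lit 2155555883) (nat_lit 76) (nat_lit 4311470269) (nat_lit 43) (nat_lit 5) (nat_lit 47) (nat_lit 5) (nat_lit 44) (nat_lit 5) (nat_lit 248) (nat_lit 241) (nat_lit 231)) (XT.nd (nat_lit 78) (nat_lit 0) (nat_lit 0) (XT.lf (nat_lit 0) (nat_lit 1506708013) (nat_lit 304) (nat_lit 1220725252) (nat_lit 380) (nat_lit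 4663518390) (nat_lit 39) (nat_lit 5) (nat_lit 43) (nat_lit 5) (nat_lit 44) (nat_lit 5) (nat_lit 249) (nat_lit 241) (nat_lit 230)) (XT.lf (nat_lit 0) (nat_lit 4798355043) (nat_lit 380) (nat_lit 2169937913) (nat_lit 76) (nat_lit 637867836) (nat_lit 39) (nat_lit 5) (nat_lit 44) (nat_lit 5) (nat_lit 40) (nat_lit 5) (nat_lit 250) (nat_lit 241) (nat_lit 229)))) (XT.nd (nat_lit 78) (nat_lit 532) (nat_lit 0) (XT.lf (nat_lit 0) (nat_lit 1763113963) (nat_lit 380) (nat_lit 5199311953) (nat_lit 456) (nat_lit 883260430) (nat_lit 34) (nat_lit 5) (nat_lit 39) (nat_lit 5) (nat_lit 40) (nat_lit 5) (nat_lit 251) (nat_lit 241) (nat_lit 228)) (XT.nd (nat_lit 78) (nat_lit 456) (nat_lit 0) (XT.lf (nat_lit 0) (nat_lit 1052643291) (nat_lit 456) (nat_lit 2135851187) (nat_lit 76) (nat_lit 4921317511) (nat_lit 33) (nat_lit 5) (nat_lit 39) (nat_lit 5) (nat_lit 34) (nat_lit 5) (nat_lit 252) (nat_lit 241) (nat_lit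 227)) (XT.lf (nat_lit 0) (nat_lit 2077836245) (nat_lit 456) (nat_lit 934794370) (nat_lit 532) (nat_lit 5388277464) (nat_lit 27) (nat_lit 5) (nat_lit 33) (nat_lit 5) (nat_lit 34) (nat_lit 5) (nat_lit 253) (nat_lit 241) (nat_lit 226)))))) (XT.nd (nat_lit 468) (nat_lit 380) (nat_lit 0) (XT.nd (nat_lit 234) (nat_lit 380) (nat_lit 0) (XT.nd (nat_lit 78) (nat_lit 304) (nat_lit 0) (XT.lf (nat_lit 0) (nat_lit 5099152612) (nat_lit 532) (nat_lit 2135638300) (nat_lit 76) (nat_lit 1483875951) (nat_lit 27) (nat_lit 5) (nat_lit 34) (nat_lit 5) (nat_lit 28) (nat_lit 5) (nat_lit 254) (nat_lit 241) (nat_lit 225)) (XT.nd (nat_lit 78) (nat_lit 76) (nat_lit 0) (XT.lf (nat_lit 0) (nat_lit 2352864900) (nat_lit 228) (nat_lit 4963714092) (nat_lit 304) (nat_lit 1749031950) (nat_lit 24) (nat_lit 5) (nat_lit 27) (nat_lit 5) (nat_lit 28) (nat_lit 5) (nat_lit 255) (nat_lit 241) (nat_lit 224)) (XT.lf (nat_lit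 0) (nat_lit 202560090) (nat_lit 304) (nat_lit 2252698523) (nat_lit 76) (nat_lit 6989684993) (nat_lit 23) (nat_lit 5) (nat_lit 27) (nat_lit 5) (nat_lit 24) (nat_lit 5) (nat_lit 256) (nat_lit 241) (nat_lit 223)))) (XT.nd (nat_lit 78) (nat_lit 228) (nat_lit 0) (XT.lf (nat_lit 0) (nat_lit 2178619850) (nat_lit 228) (nat_lit 7340105552) (nat_lit 76) (nat_lit 335937564) (nat_lit 21) (nat_lit 5) (nat_lit 24) (nat_lit 5) (nat_lit 22) (nat_lit 5) (nat_lit 257) (nat_lit 241) (nat_lit 222)) (XT.nd (nat_lit 78) (nat_lit 228) (nat_lit 0) (XT.lf (nat_lit 0) (nat_lit 4337995181) (nat_lit 228) (nat_lit 2692808852) (nat_lit 76) (nat_lit 3264986559) (nat_lit 21) (nat_lit 5) (nat_lit 24) (nat_lit 5) (nat_lit 22) (nat_lit 5) (nat_lit 258) (nat_lit 241) (nat_lit 221)) (XT.lf (nat_lit 0) (nat_lit 2325461295) (nat_lit 228) (nat_lit 4306387808) (nat_lit 304) (nat_lit 4144022132) (nat_lit 18) (nat_lit 5) (nat_lit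 21) (nat_lit 5) (nat_lit 22) (nat_lit 5) (nat_lit 259) (nat_lit 241) (nat_lit 220))))) (XT.nd (nat_lit 234) (nat_lit 152) (nat_lit 0) (XT.nd (nat_lit 78) (nat_lit 228) (nat_lit 0) (XT.lf (nat_lit 0) (nat_lit 7784161750) (nat_lit 228) (nat_lit 1308708731) (nat_lit 304) (nat_lit 2203351686) (nat_lit 18) (nat_lit 5) (nat_lit 21) (nat_lit 5) (nat_lit 22) (nat_lit 5) (nat_lit 260) (nat_lit 241) (nat_lit 219)) (XT.nd (nat_lit 78) (nat_lit 76) (nat_lit 0) (XT.lf (nat_lit 0) (nat_lit 1750163060) (nat_lit 152) (nat_lit 10005247442) (nat_lit 228) (nat_lit 102935057) (nat_lit 16) (nat_lit 5) (nat_lit 18) (nat_lit 5) (nat_lit 19) (nat_lit 4) (nat_lit 261) (nat_lit 241) (nat_lit 218)) (XT.lf (nat_lit 0) (nat_lit 2106896423) (nat_lit 228) (nat_lit 5027540188) (nat_lit 76) (nat_lit 5323300830) (nat_lit 15) (nat_lit 5) (nat_lit 18) (nat_lit 5) (nat_lit 16) (nat_lit 5) (nat_lit 262) (nat_lit 241)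 (nat_lit 217)))) (XT.nd (nat_lit 78) (nat_lit 0) (nat_lit 0) (XT.lf (nat_lit 0) (nat_lit 369517847) (nat_lit 152) (nat_lit 4050652670) (nat_lit 228) (nat_lit 8690527979) (nat_lit 13) (nat_lit 5) (nat_lit 15) (nat_lit 5) (nat_lit 16) (nat_lit 5) (nat_lit 263) (nat_lit 241) (nat_lit 216)) (XT.nd (nat_lit 78) (nat_lit 0) (nat_lit 0) (XT.lf (nat_lit 0) (nat_lit 6381094055) (nat_lit 152) (nat_lit 601402751) (nat_lit 228) (nat_lit 6828659198) (nat_lit 13) (nat_lit 5) (nat_lit 15) (nat_lit 5) (nat_lit 16) (nat_lit 5) (nat_lit 264) (nat_lit 241) (nat_lit 215)) (XT.lf (nat_lit 0) (nat_lit 9756245829) (nat_lit 228) (nat_lit 1869837832) (nat_lit 76) (nat_lit 2941402254) (nat_lit 13) (nat_lit 5) (nat_lit 16) (nat_lit 5) (nat_lit 14) (nat_lit 4) (nat_lit 265) (nat_lit 241) (nat_lit 214))))))))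
noncomputable def xc52 : XT := (XT.nd (nat_lit 1794) (nat_lit 152) (nat_lit 0) (XT.nd (nat_lit 858) (nat_lit 228) (nat_lit 0) (XT.nd (nat_lit 390) (nat_lit 228) (nat_lit 0) (XT.nd (nat_lit 156) (nat_lit 228) (nat_lit 0) (XT.nd (nat_lit 78) (nat_lit 0) (nat_lit 0) (XT.lf (nat_lit 0) (nat_lit 4238404678) (nat_lit 76) (nat_lit 8567442341) (nat_lit 152) (nat_lit 2574483773) (nat_lit 12) (nat_lit 5) (nat_lit 13) (nat_lit 5) (nat_lit 14) (nat_lit 4) (nat_lit 266) (nat_lit 241) (nat_lit 213)) (XT.lf (nat_lit 0) (nat_lit 10850804585) (nat_lit 76) (nat_lit 5238660606) (nat_lit 152) (nat_lit 169834851) (nat_lit 12) (nat_lit 5) (nat_lit 13) (nat_lit 5) (nat_lit 14) (nat_lit 4) (nat_lit 267) (nat_lit 241) (nat_lit 212))) (XT.nd (nat_lit 78) (nat_lit 0) (nat_lit 0) (XT.lf (nat_lit 0) (nat_lit 671381665) (nat_lit 152) (nat_lit 1592248363) (nat_lit 228) (nat_lit 14943915756) (nat_lit 9) (nat_lit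 5) (nat_lit 11) (nat_lit 5) (nat_lit 12) (nat_lit 5) (nat_lit 268) (nat_lit 241) (nat_lit 211)) (XT.nd (nat_lit 78) (nat_lit 0) (nat_lit 0) (XT.lf (nat_lit 0) (nat_lit 5034014073) (nat_lit 228) (nat_lit 10828500048) (nat_lit 76) (nat_lit 2356909464) (nat_lit 9) (nat_lit 5) (nat_lit 12) (nat_lit 5) (nat_lit 10) (nat_lit 4) (nat_lit 269) (nat_lit 241) (nat_lit 210)) (XT.lf (nat_lit 0) (nat_lit 8014867646) (nat_lit 228) (nat_lit 4788212641) (nat_lit 76) (nat_lit 6510285242) (nat_lit 9) (nat_lit 5) (nat_lit 12) (nat_lit 5) (nat_lit 10) (nat_lit 4) (nat_lit 270) (nat_lit 241) (nat_lit 209))))) (XT.nd (nat_lit 234) (nat_lit 152) (nat_lit 0) (XT.nd (nat_lit 78) (nat_lit 0) (nat_lit 0) (XT.lf (nat_lit 0) (nat_lit 1746134739) (nat_lit 76) (nat_lit 9481421295) (nat_lit 152) (nat_lit 9268002120) (nat_lit 8) (nat_lit 5) (nat_lit 9) (nat_lit 5) (nat_lit 10) (nat_lit 4) (nat_lit 271) (nat_lit 241)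 (nat_lit 208)) (XT.nd (nat_lit 78) (nat_lit 0) (nat_lit 0) (XT.lf (nat_lit 0) (nat_lit 9000965063) (nat_lit 76) (nat_lit 5780393151) (nat_lit 152) (nat_lit 6984429567) (nat_lit 8) (nat_lit 5) (nat_lit 9) (nat_lit 5) (nat_lit 10) (nat_lit 4) (nat_lit 272) (nat_lit 241) (nat_lit 207)) (XT.lf (nat_lit 0) (nat_lit 16767131125) (nat_lit 76) (nat_lit 1808982056) (nat_lit 152) (nat_lit 4565166161) (nat_lit 8) (nat_lit 5) (nat_lit 9) (nat_lit 5) (nat_lit 10) (nat_lit 4) (nat_lit 273) (nat_lit 241) (nat_lit 206)))) (XT.nd (nat_lit 78) (nat_lit 76) (nat_lit 0) (XT.lf (nat_lit 0) (nat_lit 422532340) (nat_lit 76) (nat_lit 22281013131) (nat_lit 76) (nat_lit 1921099460) (nat_lit 7) (nat_lit 4) (nat_lit 8) (nat_lit 5) (nat_lit 8) (nat_lit 4) (nat_lit 274) (nat_lit 241) (nat_lit 205)) (XT.nd (nat_lit 78) (nat_lit 0) (nat_lit 0) (XT.lf (nat_lit 0) (nat_lit 1073115507) (nat_lit 152) (nat_lit 18228589992)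 (nat_lit 76) (nat_lit 6908485982) (nat_lit 6) (nat_lit 5) (nat_lit 8) (nat_lit 5) (nat_lit 7) (nat_lit 4) (nat_lit 275) (nat_lit 241) (nat_lit 204)) (XT.lf (nat_lit 0) (nat_lit 4165648970) (nat_lit 152) (nat_lit 11889413515) (nat_lit 76) (nat_lit 11866650691) (nat_lit 6) (nat_lit 5) (nat_lit 8) (nat_lit 5) (nat_lit 7) (nat_lit 4) (nat_lit 276) (nat_lit 241) (nat_lit 203)))))) (XT.nd (nat_lit 468) (nat_lit 152) (nat_lit 0) (XT.nd (nat_lit 234) (nat_lit 0) (nat_lit 0) (XT.nd (nat_lit 78) (nat_lit 76) (nat_lit 0) (XT.lf (nat_lit 0) (nat_lit 7470928228) (nat_lit 152) (nat_lit 5100815182) (nat_lit 76) (nat_lit 17201305157) (nat_lit 6) (nat_lit 5) (nat_lit 8) (nat_lit 5) (nat_lit 7) (nat_lit 4) (nat_lit 277) (nat_lit 241) (nat_lit 202)) (XT.nd (nat_lit 78) (nat_lit 0) (nat_lit 0) (XT.lf (nat_lit 0) (nat_lit 2292093538) (nat_lit 76) (nat_lit 8771571488) (nat_lit 152) (nat_lit 20707093515)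 (nat_lit 5) (nat_lit 5) (nat_lit 6) (nat_lit 5) (nat_lit 7) (nat_lit 4) (nat_lit 278) (nat_lit 241) (nat_lit 201)) (XT.lf (nat_lit 0) (nat_lit 10514438397) (nat_lit 76) (nat_lit 4537882374) (nat_lit 152) (nat_lit 18867386915) (nat_lit 5) (nat_lit 5) (nat_lit 6) (nat_lit 5) (nat_lit 7) (nat_lit 4) (nat_lit 279) (nat_lit 241) (nat_lit 200)))) (XT.nd (nat_lit 78) (nat_lit 0) (nat_lit 0) (XT.lf (nat_lit 0) (nat_lit 19331756861) (nat_lit 152) (nat_lit 16896976249) (nat_lit 0) (nat_lit 14199415) (nat_lit 5) (nat_lit 5) (nat_lit 7) (nat_lit 4) (nat_lit 5) (nat_lit 4) (nat_lit 280) (nat_lit 241) (nat_lit 199)) (XT.nd (nat_lit 78) (nat_lit 0) (nat_lit 0) (XT.lf (nat_lit 0) (nat_lit 24044431684) (nat_lit 152) (nat_lit 10032316986) (nat_lit 0) (nat_lit 4668083743) (nat_lit 5) (nat_lit 5) (nat_lit 7) (nat_lit 4) (nat_lit 5) (nat_lit 4) (nat_lit 281) (nat_lit 241) (nat_lit 198)) (XT.lf (nat_lit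 0) (nat_lit 29109136022) (nat_lit 152) (nat_lit 2661475860) (nat_lit 0) (nat_lit 9678352438) (nat_lit 5) (nat_lit 5) (nat_lit 7) (nat_lit 4) (nat_lit 5) (nat_lit 4) (nat_lit 282) (nat_lit 241) (nat_lit 197))))) (XT.nd (nat_lit 234) (nat_lit 76) (nat_lit 0) (XT.nd (nat_lit 78) (nat_lit 0) (nat_lit 0) (XT.lf (nat_lit 0) (nat_lit 5536167719) (nat_lit 76) (nat_lit 29152860185) (nat_lit 76) (nat_lit 9671673228) (nat_lit 4) (nat_lit 4) (nat_lit 5) (nat_lit 5) (nat_lit 5) (nat_lit 4) (nat_lit 283) (nat_lit 241) (nat_lit 196)) (XT.nd (nat_lit 78) (nat_lit 0) (nat_lit 0) (XT.lf (nat_lit 0) (nat_lit 14502184664) (nat_lit 76) (nat_lit 26263542676) (nat_lit 76) (nat_lit 6735685928) (nat_lit 4) (nat_lit 4) (nat_lit 5) (nat_lit 5) (nat_lit 5) (nat_lit 4) (nat_lit 284) (nat_lit 241) (nat_lit 195)) (XT.lf (nat_lit 0) (nat_lit 24149558325) (nat_lit 76) (nat_lit 23158306938) (nat_lit 76) (nat_lit 3587237422)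 (nat_lit 4) (nat_lit 4) (nat_lit 5) (nat_lit 5) (nat_lit 5) (nat_lit 4) (nat_lit 285) (nat_lit 241) (nat_lit 194)))) (XT.nd (nat_lit 78) (nat_lit 76) (nat_lit 0) (XT.lf (nat_lit 0) (nat_lit 34535458323) (nat_lit 76) (nat_lit 19818751577) (nat_lit 76) (nat_lit 207670237) (nat_lit 4) (nat_lit 4) (nat_lit 5) (nat_lit 5) (nat_lit 5) (nat_lit 4) (nat_lit 286) (nat_lit 241) (nat_lit 193)) (XT.nd (nat_lit 78) (nat_lit 0) (nat_lit 0) (XT.lf (nat_lit 0) (nat_lit 3251808231) (nat_lit 152) (nat_lit 12884368202) (nat_lit 76) (nat_lit 42380712301) (nat_lit 3) (nat_lit 5) (nat_lit 5) (nat_lit 5) (nat_lit 4) (nat_lit 4) (nat_lit 287) (nat_lit 241) (nat_lit 192)) (XT.lf (nat_lit 0) (nat_lit 6959919661) (nat_lit 152) (nat_lit 5205800116) (nat_lit 76) (nat_lit 50623546596) (nat_lit 3) (nat_lit 5) (nat_lit 5) (nat_lit 5) (nat_lit 4) (nat_lit 4) (nat_lit 288) (nat_lit 241) (nat_lit 191))))))) (XT.nd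 (nat_lit 936) (nat_lit 0) (nat_lit 0) (XT.nd (nat_lit 468) (nat_lit 76) (nat_lit 0) (XT.nd (nat_lit 234) (nat_lit 0) (nat_lit 0) (XT.nd (nat_lit 78) (nat_lit 0) (nat_lit 0) (XT.lf (nat_lit 0) (nat_lit 3220902111) (nat_lit 76) (nat_lit 7805587215) (nat_lit 152) (nat_lit 56372044061) (nat_lit 2) (nat_lit 5) (nat_lit 3) (nat_lit 5) (nat_lit 4) (nat_lit 4) (nat_lit 289) (nat_lit 241) (nat_lit 190)) (XT.nd (nat_lit 78) (nat_lit 0) (nat_lit 0) (XT.lf (nat_lit 0) (nat_lit 12591215587) (nat_lit 76) (nat_lit 2954371508) (nat_lit 152) (nat_lit 56820819116) (nat_lit 2) (nat_lit 5) (nat_lit 3) (nat_lit 5) (nat_lit 4) (nat_lit 4) (nat_lit 290) (nat_lit 241) (nat_lit 189)) (XT.lf (nat_lit 0) (nat_lit 20466898320) (nat_lit 152) (nat_lit 55101025522) (nat_lit 0) (nat_lit 2160567814) (nat_lit 2) (nat_lit 5) (nat_lit 4) (nat_lit 4) (nat_lit 2) (nat_lit 4) (nat_lit 291) (nat_lit 241) (nat_lit 188))))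 (XT.nd (nat_lit 78) (nat_lit 0) (nat_lit 0) (XT.lf (nat_lit 0) (nat_lit 25845440935) (nat_lit 152) (nat_lit 50153291822) (nat_lit 0) (nat_lit 7515763914) (nat_lit 2) (nat_lit 5) (nat_lit 4) (nat_lit 4) (nat_lit 2) (nat_lit 4) (nat_lit 292) (nat_lit 241) (nat_lit 187)) (XT.nd (nat_lit 78) (nat_lit 0) (nat_lit 0) (XT.lf (nat_lit 0) (nat_lit 31642035079) (nat_lit 152) (nat_lit 44831616915) (nat_lit 0) (nat_lit 13290740916) (nat_lit 2) (nat_lit 5) (nat_lit 4) (nat_lit 4) (nat_lit 2) (nat_lit 4) (nat_lit 293) (nat_lit 241) (nat_lit 186)) (XT.lf (nat_lit 0) (nat_lit 37891030941) (nat_lit 152) (nat_lit 39104464950) (nat_lit 0) (nat_lit 19519720905) (nat_lit 2) (nat_lit 5) (nat_lit 4) (nat_lit 4) (nat_lit 2) (nat_lit 4) (nat_lit 294) (nat_lit 241) (nat_lit 185))))) (XT.nd (nat_lit 234) (nat_lit 76) (nat_lit 0) (XT.nd (nat_lit 78) (nat_lit 0) (nat_lit 0) (XT.lf (nat_lit 0) (nat_lit 44629459608)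 (nat_lit 152) (nat_lit 32937897249) (nat_lit 0) (nat_lit 26239616356) (nat_lit 2) (nat_lit 5) (nat_lit 4) (nat_lit 4) (nat_lit 2) (nat_lit 4) (nat_lit 295) (nat_lit 241) (nat_lit 184)) (XT.nd (nat_lit 78) (nat_lit 0) (nat_lit 0) (XT.lf (nat_lit 0) (nat_lit 51897252507) (nat_lit 152) (nat_lit 26295371188) (nat_lit 0) (nat_lit 33490248870) (nat_lit 2) (nat_lit 5) (nat_lit 4) (nat_lit 4) (nat_lit 2) (nat_lit 4) (nat_lit 296) (nat_lit 241) (nat_lit 183)) (XT.lf (nat_lit 0) (nat_lit 59737478042) (nat_lit 152) (nat_lit 19137523650) (nat_lit 0) (nat_lit 41314585159) (nat_lit 2) (nat_lit 5) (nat_lit 4) (nat_lit 4) (nat_lit 2) (nat_lit 4) (nat_lit 297) (nat_lit 241) (nat_lit 182)))) (XT.nd (nat_lit 78) (nat_lit 76) (nat_lit 0) (XT.lf (nat_lit 0) (nat_lit 68196596808) (nat_lit 152) (nat_lit 11421937760) (nat_lit 0) (nat_lit 49758991661) (nat_lit 2) (nat_lit 5) (nat_lit 4) (nat_lit 4) (nat_lit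 2) (nat_lit 4) (nat_lit 298) (nat_lit 241) (nat_lit 181)) (XT.nd (nat_lit 78) (nat_lit 76) (nat_lit 0) (XT.lf (nat_lit 0) (nat_lit 77324736917) (nat_lit 152) (nat_lit 3102891529) (nat_lit 0) (nat_lit 58873509303) (nat_lit 2) (nat_lit 5) (nat_lit 4) (nat_lit 4) (nat_lit 2) (nat_lit 4) (nat_lit 299) (nat_lit 241) (nat_lit 180)) (XT.lf (nat_lit 0) (nat_lit 6177959658) (nat_lit 76) (nat_lit 81146611469) (nat_lit 76) (nat_lit 62682770461) (nat_lit 1) (nat_lit 4) (nat_lit 2) (nat_lit 5) (nat_lit 2) (nat_lit 4) (nat_lit 300) (nat_lit 241) (nat_lit 179)))))) (XT.nd (nat_lit 468) (nat_lit 0) (nat_lit 0) (XT.nd (nat_lit 234) (nat_lit 0) (nat_lit 0) (XT.nd (nat_lit 78) (nat_lit 0) (nat_lit 0) (XT.lf (nat_lit 0) (nat_lit 16365301000) (nat_lit 76) (nat_lit 81837021893) (nat_lit 76) (nat_lit 63361501814) (nat_lit 1) (nat_lit 4) (nat_lit 2) (nat_lit 5) (nat_lit 2) (nat_lit 4) (nat_lit 301) (nat_lit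 241) (nat_lit 178)) (XT.nd (nat_lit 78) (nat_lit 0) (nat_lit 0) (XT.lf (nat_lit 0) (nat_lit 27356109155) (nat_lit 76) (nat_lit 82587789590) (nat_lit 76) (nat_lit 64101455558) (nat_lit 1) (nat_lit 4) (nat_lit 2) (nat_lit 5) (nat_lit 2) (nat_lit 4) (nat_lit 302) (nat_lit 241) (nat_lit 177)) (XT.lf (nat_lit 0) (nat_lit 39215514840) (nat_lit 76) (nat_lit 83403363554) (nat_lit 76) (nat_lit 64907016603) (nat_lit 1) (nat_lit 4) (nat_lit 2) (nat_lit 5) (nat_lit 2) (nat_lit 4) (nat_lit 303) (nat_lit 241) (nat_lit 176)))) (XT.nd (nat_lit 78) (nat_lit 0) (nat_lit 0) (XT.lf (nat_lit 0) (nat_lit 52013796013) (nat_lit 76) (nat_lit 84288576817) (nat_lit 76) (nat_lit 65782958644) (nat_lit 1) (nat_lit 4) (nat_lit 2) (nat_lit 5) (nat_lit 2) (nat_lit 4) (nat_lit 304) (nat_lit 241) (nat_lit 175)) (XT.nd (nat_lit 78) (nat_lit 0) (nat_lit 0) (XT.lf (nat_lit 0) (nat_lit 65826794342) (nat_lit 76) (nat_lit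 85248675087) (nat_lit 76) (nat_lit 66734472449) (nat_lit 1) (nat_lit 4) (nat_lit 2) (nat_lit 5) (nat_lit 2) (nat_lit 4) (nat_lit 305) (nat_lit 241) (nat_lit 174)) (XT.lf (nat_lit 0) (nat_lit 80736364630) (nat_lit 76) (nat_lit 86289347835) (nat_lit 76) (nat_lit 67767196618) (nat_lit 1) (nat_lit 4) (nat_lit 2) (nat_lit 5) (nat_lit 2) (nat_lit 4) (nat_lit 306) (nat_lit 241) (nat_lit 173))))) (XT.nd (nat_lit 234) (nat_lit 0) (nat_lit 0) (XT.nd (nat_lit 78) (nat_lit 0) (nat_lit 0) (XT.lf (nat_lit 0) (nat_lit 96830859888) (nat_lit 76) (nat_lit 87416762011) (nat_lit 76) (nat_lit 68887250999) (nat_lit 1) (nat_lit 4) (nat_lit 2) (nat_lit 5) (nat_lit 2) (nat_lit 4) (nat_lit 307) (nat_lit 241) (nat_lit 172)) (XT.nd (nat_lit 78) (nat_lit 0) (nat_lit 0) (XT.lf (nat_lit 0) (nat_lit 114205654901) (nat_lit 76) (nat_lit 88637598587) (nat_lit 76) (nat_lit 70101272950) (nat_lit 1) (nat_lit 4) (nat_lit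 2) (nat_lit 5) (nat_lit 2) (nat_lit 4) (nat_lit 308) (nat_lit 241) (nat_lit 171)) (XT.lf (nat_lit 0) (nat_lit 132963711418) (nat_lit 76) (nat_lit 89959092151) (nat_lit 76) (nat_lit 71416456676) (nat_lit 1) (nat_lit 4) (nat_lit 2) (nat_lit 5) (nat_lit 2) (nat_lit 4) (nat_lit 309) (nat_lit 241) (nat_lit 170)))) (XT.nd (nat_lit 78) (nat_lit 0) (nat_lit 0) (XT.lf (nat_lit 0) (nat_lit 153216188292) (nat_lit 76) (nat_lit 91389073775) (nat_lit 76) (nat_lit 72840595857) (nat_lit 1) (nat_lit 4) (nat_lit 2) (nat_lit 5) (nat_lit 2) (nat_lit 4) (nat_lit 310) (nat_lit 241) (nat_lit 169)) (XT.nd (nat_lit 78) (nat_lit 0) (nat_lit 0) (XT.lf (nat_lit 0) (nat_lit 175083100202) (nat_lit 76) (nat_lit 92936017425) (nat_lit 76) (nat_lit 74382129838) (nat_lit 1) (nat_lit 4) (nat_lit 2) (nat_lit 5) (nat_lit 2) (nat_lit 4) (nat_lit 311) (nat_lit 241) (nat_lit 168)) (XT.lf (nat_lit 0) (nat_lit 198694028847)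 (nat_lit 76) (nat_lit 94609090174) (nat_lit 76) (nat_lit 76050193635) (nat_lit 1) (nat_lit 4) (nat_lit 2) (nat_lit 5) (nat_lit 2) (nat_lit 4) (nat_lit 312) (nat_lit 241) (nat_lit 167))))))))
noncomputable def xc53 : XT := (XT.nd (nat_lit 32058) (nat_lit 0) (nat_lit 912) (XT.nd (nat_lit 936) (nat_lit 0) (nat_lit 0) (XT.nd (nat_lit 468) (nat_lit 0) (nat_lit 0) (XT.nd (nat_lit 234) (nat_lit 0) (nat_lit 0) (XT.nd (nat_lit 78) (nat_lit 0) (nat_lit 0) (XT.lf (nat_lit 0) (nat_lit 224188890841) (nat_lit 76) (nat_lit 96418206528) (nat_lit 76) (nat_lit 77854672069) (nat_lit 1) (nat_lit 4) (nat_lit 2) (nat_lit 5) (nat_lit 2) (nat_lit 4) (nat_lit 313) (nat_lit 241) (nat_lit 166)) (XT.nd (nat_lit 78) (nat_lit 0) (nat_lit 0) (XT.lf (nat_lit 0) (nat_lit 251718766849) (nat_lit 76) (nat_lit 98374087176) (nat_lit 76) (nat_lit 79806258347) (nat_lit 1) (nat_lit 4) (nat_lit 2) (nat_lit 5) (nat_lit 2)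 (nat_lit 4) (nat_lit 314) (nat_lit 241) (nat_lit 165)) (XT.lf (nat_lit 0) (nat_lit 281446796876) (nat_lit 76) (nat_lit 100488322521) (nat_lit 76) (nat_lit 81916517425) (nat_lit 1) (nat_lit 4) (nat_lit 2) (nat_lit 5) (nat_lit 2) (nat_lit 4) (nat_lit 315) (nat_lit 241) (nat_lit 164)))) (XT.nd (nat_lit 78) (nat_lit 0) (nat_lit 0) (XT.lf (nat_lit 0) (nat_lit 313549147026) (nat_lit 76) (nat_lit 102773441366) (nat_lit 76) (nat_lit 84197954540) (nat_lit 1) (nat_lit 4) (nat_lit 2) (nat_lit 5) (nat_lit 2) (nat_lit 4) (nat_lit 316) (nat_lit 241) (nat_lit 163)) (XT.nd (nat_lit 78) (nat_lit 0) (nat_lit 0) (XT.lf (nat_lit 0) (nat_lit 348216053448) (nat_lit 76) (nat_lit 105242985157) (nat_lit 76) (nat_lit 86664089321) (nat_lit 1) (nat_lit 4) (nat_lit 2) (nat_lit 5) (nat_lit 2) (nat_lit 4) (nat_lit 317) (nat_lit 241) (nat_lit 162)) (XT.lf (nat_lit 0) (nat_lit 385652949662) (nat_lit 76) (nat_lit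 107911588225) (nat_lit 76) (nat_lit 89329535900) (nat_lit 1) (nat_lit 4) (nat_lit 2) (nat_lit 5) (nat_lit 2) (nat_lit 4) (nat_lit 318) (nat_lit 241) (nat_lit 161))))) (XT.nd (nat_lit 234) (nat_lit 0) (nat_lit 0) (XT.nd (nat_lit 78) (nat_lit 0) (nat_lit 0) (XT.lf (nat_lit 0) (nat_lit 426081683941) (nat_lit 76) (nat_lit 110795064516) (nat_lit 76) (nat_lit 92210089515) (nat_lit 1) (nat_lit 4) (nat_lit 2) (nat_lit 5) (nat_lit 2) (nat_lit 4) (nat_lit 319) (nat_lit 241) (nat_lit 160)) (XT.nd (nat_lit 78) (nat_lit 0) (nat_lit 0) (XT.lf (nat_lit 0) (nat_lit 469741833971) (nat_lit 76) (nat_lit 113910501297) (nat_lit 76) (nat_lit 95322820114) (nat_lit 1) (nat_lit 4) (nat_lit 2) (nat_lit 5) (nat_lit 2) (nat_lit 4) (nat_lit 320) (nat_lit 241) (nat_lit 159)) (XT.lf (nat_lit 0) (nat_lit 516892126565) (nat_lit 76) (nat_lit 117276360414) (nat_lit 76) (nat_lit 98686173508) (nat_lit 1) (nat_lit 4)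 (nat_lit 2) (nat_lit 5) (nat_lit 2) (nat_lit 4) (nat_lit 321) (nat_lit 241) (nat_lit 158)))) (XT.nd (nat_lit 78) (nat_lit 0) (nat_lit 0) (XT.lf (nat_lit 0) (nat_lit 567811970866) (nat_lit 76) (nat_lit 120912587701) (nat_lit 76) (nat_lit 102320080680) (nat_lit 1) (nat_lit 4) (nat_lit 2) (nat_lit 5) (nat_lit 2) (nat_lit 4) (nat_lit 322) (nat_lit 241) (nat_lit 157)) (XT.nd (nat_lit 78) (nat_lit 0) (nat_lit 0) (XT.lf (nat_lit 0) (nat_lit 622803114099) (nat_lit 76) (nat_lit 124840731169) (nat_lit 76) (nat_lit 106246075895) (nat_lit 1) (nat_lit 4) (nat_lit 2) (nat_lit 5) (nat_lit 2) (nat_lit 4) (nat_lit 323) (nat_lit 241) (nat_lit 156)) (XT.lf (nat_lit 0) (nat_lit 682191429705) (nat_lit 76) (nat_lit 129084068708) (nat_lit 76) (nat_lit 110487424309) (nat_lit 1) (nat_lit 4) (nat_lit 2) (nat_lit 5) (nat_lit 2) (nat_lit 4) (nat_lit 324) (nat_lit 241) (nat_lit 155)))))) (XT.nd (nat_lit 468)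 (nat_lit 0) (nat_lit 0) (XT.nd (nat_lit 234) (nat_lit 0) (nat_lit 0) (XT.nd (nat_lit 78) (nat_lit 0) (nat_lit 0) (XT.lf (nat_lit 0) (nat_lit 746328848444) (nat_lit 76) (nat_lit 133667746019) (nat_lit 76) (nat_lit 115069259839) (nat_lit 1) (nat_lit 4) (nat_lit 2) (nat_lit 5) (nat_lit 2) (nat_lit 4) (nat_lit 325) (nat_lit 241) (nat_lit 154)) (XT.nd (nat_lit 78) (nat_lit 0) (nat_lit 0) (XT.lf (nat_lit 0) (nat_lit 815595443907) (nat_lit 76) (nat_lit 138618925637) (nat_lit 76) (nat_lit 120018734104) (nat_lit 1) (nat_lit 4) (nat_lit 2) (nat_lit 5) (nat_lit 2) (nat_lit 4) (nat_lit 326) (nat_lit 241) (nat_lit 153)) (XT.lf (nat_lit 0) (nat_lit 890401684810) (nat_lit 76) (nat_lit 143966947884) (nat_lit 76) (nat_lit 125365177320) (nat_lit 1) (nat_lit 4) (nat_lit 2) (nat_lit 5) (nat_lit 2) (nat_lit 4) (nat_lit 327) (nat_lit 241) (nat_lit 152)))) (XT.nd (nat_lit 78) (nat_lit 0) (nat_lit 0) (XT.lf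 (nat_lit 0) (nat_lit 971190867393) (nat_lit 76) (nat_lit 149743504744) (nat_lit 76) (nat_lit 131140272114) (nat_lit 1) (nat_lit 4) (nat_lit 2) (nat_lit 5) (nat_lit 2) (nat_lit 4) (nat_lit 328) (nat_lit 241) (nat_lit 151)) (XT.nd (nat_lit 78) (nat_lit 0) (nat_lit 0) (XT.lf (nat_lit 0) (nat_lit 1058441742370) (nat_lit 76) (nat_lit 155982827665) (nat_lit 76) (nat_lit 137378241271) (nat_lit 1) (nat_lit 4) (nat_lit 2) (nat_lit 5) (nat_lit 2) (nat_lit 4) (nat_lit 329) (nat_lit 241) (nat_lit 150)) (XT.lf (nat_lit 0) (nat_lit 1152671351961) (nat_lit 76) (nat_lit 162721890413) (nat_lit 76) (nat_lit 144116050533) (nat_lit 1) (nat_lit 4) (nat_lit 2) (nat_lit 5) (nat_lit 2) (nat_lit 4) (nat_lit 330) (nat_lit 241) (nat_lit 149))))) (XT.nd (nat_lit 234) (nat_lit 0) (nat_lit 0) (XT.nd (nat_lit 78) (nat_lit 0) (nat_lit 0) (XT.lf (nat_lit 0) (nat_lit 1254438093853) (nat_lit 76) (nat_lit 170000628174)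 (nat_lit 76) (nat_lit 151393627659) (nat_lit 1) (nat_lit 4) (nat_lit 2) (nat_lit 5) (nat_lit 2) (nat_lit 4) (nat_lit 331) (nat_lit 241) (nat_lit 148)) (XT.nd (nat_lit 78) (nat_lit 0) (nat_lit 0) (XT.lf (nat_lit 0) (nat_lit 1364345030221) (nat_lit 76) (nat_lit 177862174209) (nat_lit 76) (nat_lit 159254099033) (nat_lit 1) (nat_lit 4) (nat_lit 2) (nat_lit 5) (nat_lit 2) (nat_lit 4) (nat_lit 332) (nat_lit 241) (nat_lit 147)) (XT.lf (nat_lit 0) (nat_lit 1483043461429) (nat_lit 76) (nat_lit 186353115458) (nat_lit 76) (nat_lit 167744045224) (nat_lit 1) (nat_lit 4) (nat_lit 2) (nat_lit 5) (nat_lit 2) (nat_lit 4) (nat_lit 333) (nat_lit 241) (nat_lit 146)))) (XT.nd (nat_lit 78) (nat_lit 0) (nat_lit 0) (XT.lf (nat_lit 0) (nat_lit 1611236785586) (nat_lit 76) (nat_lit 195523768609) (nat_lit 76) (nat_lit 176913777026) (nat_lit 1) (nat_lit 4) (nat_lit 2) (nat_lit 5) (nat_lit 2) (nat_lit 4) (nat_lit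 334) (nat_lit 241) (nat_lit 145)) (XT.nd (nat_lit 30264) (nat_lit 0) (nat_lit 3648) (XT.lf (nat_lit 0) (nat_lit 1749684666837) (nat_lit 76) (nat_lit 205428478274) (nat_lit 76) (nat_lit 186817633589) (nat_lit 1) (nat_lit 4) (nat_lit 2) (nat_lit 5) (nat_lit 2) (nat_lit 4) (nat_lit 335) (nat_lit 241) (nat_lit 144)) (XT.lf (nat_lit 0) (nat_lit 1707560078) (nat_lit 228) (nat_lit 786500634) (nat_lit 228) (nat_lit 786500634) (nat_lit 49) (nat_lit 3) (nat_lit 52) (nat_lit 3) (nat_lit 52) (nat_lit 5) (nat_lit 242) (nat_lit 242) (nat_lit 236))))))) (XT.nd (nat_lit 936) (nat_lit 1064) (nat_lit 0) (XT.nd (nat_lit 468) (nat_lit 1216) (nat_lit 0) (XT.nd (nat_lit 234) (nat_lit 228) (nat_lit 0) (XT.nd (nat_lit 78) (nat_lit 228) (nat_lit 0) (XT.lf (nat_lit 76) (nat_lit 1284846863) (nat_lit 0) (nat_lit 4349159072) (nat_lit 228) (nat_lit 998970937) (nat_lit 50) (nat_lit 5) (nat_lit 49) (nat_lit 3) (nat_lit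 52) (nat_lit 5) (nat_lit 243) (nat_lit 242) (nat_lit 235)) (XT.nd (nat_lit 78) (nat_lit 0) (nat_lit 0) (XT.lf (nat_lit 0) (nat_lit 1082166845) (nat_lit 228) (nat_lit 2410730362) (nat_lit 304) (nat_lit 3231097566) (nat_lit 46) (nat_lit 5) (nat_lit 49) (nat_lit 3) (nat_lit 50) (nat_lit 5) (nat_lit 244) (nat_lit 242) (nat_lit 234)) (XT.lf (nat_lit 76) (nat_lit 646271206) (nat_lit 0) (nat_lit 2445319872) (nat_lit 304) (nat_lit 3745425292) (nat_lit 47) (nat_lit 5) (nat_lit 46) (nat_lit 5) (nat_lit 50) (nat_lit 5) (nat_lit 245) (nat_lit 242) (nat_lit 233)))) (XT.nd (nat_lit 78) (nat_lit 228) (nat_lit 0) (XT.lf (nat_lit 76) (nat_lit 3966244250) (nat_lit 0) (nat_lit 1173605433) (nat_lit 304) (nat_lit 1830890345) (nat_lit 47) (nat_lit 5) (nat_lit 46) (nat_lit 5) (nat_lit 50) (nat_lit 5) (nat_lit 246) (nat_lit 242) (nat_lit 232)) (XT.nd (nat_lit 78) (nat_lit 0) (nat_lit 0) (XT.lf (nat_lit 0)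 (nat_lit 59273065) (nat_lit 304) (nat_lit 6810438628) (nat_lit 76) (nat_lit 259884076) (nat_lit 43) (nat_lit 5) (nat_lit 47) (nat_lit 5) (nat_lit 44) (nat_lit 5) (nat_lit 247) (nat_lit 242) (nat_lit 231)) (XT.lf (nat_lit 0) (nat_lit 1948132261) (nat_lit 304) (nat_lit 3429467559) (nat_lit 76) (nat_lit 1925557490) (nat_lit 43) (nat_lit 5) (nat_lit 47) (nat_lit 5) (nat_lit 44) (nat_lit 5) (nat_lit 248) (nat_lit 242) (nat_lit 230))))) (XT.nd (nat_lit 234) (nat_lit 532) (nat_lit 0) (XT.nd (nat_lit 78) (nat_lit 380) (nat_lit 0) (XT.lf (nat_lit 0) (nat_lit 102792253) (nat_lit 304) (nat_lit 3731884845) (nat_lit 380) (nat_lit 3669602056) (nat_lit 39) (nat_lit 5) (nat_lit 43) (nat_lit 5) (nat_lit 44) (nat_lit 5) (nat_lit 249) (nat_lit 242) (nat_lit 229)) (XT.nd (nat_lit 78) (nat_lit 380) (nat_lit 0) (XT.lf (nat_lit 0) (nat_lit 3991486303) (nat_lit 304) (nat_lit 1827165020) (nat_lit 380) (nat_lit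 1908416672) (nat_lit 39) (nat_lit 5) (nat_lit 43) (nat_lit 5) (nat_lit 44) (nat_lit 5) (nat_lit 250) (nat_lit 242) (nat_lit 228)) (XT.lf (nat_lit 0) (nat_lit 98074678) (nat_lit 380) (nat_lit 7735384488) (nat_lit 456) (nat_lit 145653111) (nat_lit 34) (nat_lit 5) (nat_lit 39) (nat_lit 5) (nat_lit 40) (nat_lit 5) (nat_lit 251) (nat_lit 242) (nat_lit 227)))) (XT.nd (nat_lit 78) (nat_lit 456) (nat_lit 0) (XT.lf (nat_lit 0) (nat_lit 1689390148) (nat_lit 456) (nat_lit 4014445980) (nat_lit 76) (nat_lit 2543594896) (nat_lit 33) (nat_lit 5) (nat_lit 39) (nat_lit 5) (nat_lit 34) (nat_lit 5) (nat_lit 252) (nat_lit 242) (nat_lit 226)) (XT.nd (nat_lit 78) (nat_lit 0) (nat_lit 0) (XT.lf (nat_lit 0) (nat_lit 39507373) (nat_lit 456) (nat_lit 3501623838) (nat_lit 532) (nat_lit 5006514192) (nat_lit 27) (nat_lit 5) (nat_lit 33) (nat_lit 5) (nat_lit 34) (nat_lit 5) (nat_lit 253) (nat_lit 242) (nat_lit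 225)) (XT.lf (nat_lit 0) (nat_lit 4528965372) (nat_lit 456) (nat_lit 1004929780) (nat_lit 532) (nat_lit 3339434296) (nat_lit 27) (nat_lit 5) (nat_lit 33) (nat_lit 5) (nat_lit 34) (nat_lit 5) (nat_lit 254) (nat_lit 242) (nat_lit 224)))))) (XT.nd (nat_lit 468) (nat_lit 380) (nat_lit 0) (XT.nd (nat_lit 234) (nat_lit 380) (nat_lit 0) (XT.nd (nat_lit 78) (nat_lit 304) (nat_lit 0) (XT.lf (nat_lit 0) (nat_lit 7618534704) (nat_lit 532) (nat_lit 6080366) (nat_lit 76) (nat_lit 1606674566) (nat_lit 27) (nat_lit 5) (nat_lit 34) (nat_lit 5) (nat_lit 28) (nat_lit 5) (nat_lit 255) (nat_lit 242) (nat_lit 223)) (XT.nd (nat_lit 78) (nat_lit 0) (nat_lit 0) (XT.lf (nat_lit 0) (nat_lit 280723919) (nat_lit 304) (nat_lit 4839211466) (nat_lit 76) (nat_lit 4494865479) (nat_lit 23) (nat_lit 5) (nat_lit 27) (nat_lit 5) (nat_lit 24) (nat_lit 5) (nat_lit 256) (nat_lit 242) (nat_lit 222)) (XT.lf (nat_lit 0) (nat_lit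 2140232741) (nat_lit 304) (nat_lit 242983979) (nat_lit 76) (nat_lit 7650939683) (nat_lit 23) (nat_lit 5) (nat_lit 27) (nat_lit 5) (nat_lit 24) (nat_lit 5) (nat_lit 257) (nat_lit 242) (nat_lit 221)))) (XT.nd (nat_lit 78) (nat_lit 228) (nat_lit 0) (XT.lf (nat_lit 0) (nat_lit 4190692480) (nat_lit 228) (nat_lit 5641971673) (nat_lit 76) (nat_lit 651622112) (nat_lit 21) (nat_lit 5) (nat_lit 24) (nat_lit 5) (nat_lit 22) (nat_lit 5) (nat_lit 258) (nat_lit 242) (nat_lit 220)) (XT.nd (nat_lit 78) (nat_lit 228) (nat_lit 0) (XT.lf (nat_lit 0) (nat_lit 6386685760) (nat_lit 228) (nat_lit 792175853) (nat_lit 76) (nat_lit 3793601727) (nat_lit 21) (nat_lit 5) (nat_lit 24) (nat_lit 5) (nat_lit 22) (nat_lit 5) (nat_lit 259) (nat_lit 242) (nat_lit 219)) (XT.lf (nat_lit 0) (nat_lit 4573984825) (nat_lit 228) (nat_lit 4213617805) (nat_lit 304) (nat_lit 2710267762) (nat_lit 18) (nat_lit 5) (nat_lit 21) (nat_lit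 5) (nat_lit 22) (nat_lit 5) (nat_lit 260) (nat_lit 242) (nat_lit 218))))) (XT.nd (nat_lit 234) (nat_lit 152) (nat_lit 0) (XT.nd (nat_lit 78) (nat_lit 228) (nat_lit 0) (XT.lf (nat_lit 0) (nat_lit 10316604529) (nat_lit 228) (nat_lit 1008515589) (nat_lit 304) (nat_lit 745104876) (nat_lit 18) (nat_lit 5) (nat_lit 21) (nat_lit 5) (nat_lit 22) (nat_lit 5) (nat_lit 261) (nat_lit 242) (nat_lit 217)) (XT.nd (nat_lit 78) (nat_lit 0) (nat_lit 0) (XT.lf (nat_lit 0) (nat_lit 1390186722) (nat_lit 228) (nat_lit 8849133065) (nat_lit 76) (nat_lit 2440262410) (nat_lit 15) (nat_lit 5) (nat_lit 18) (nat_lit 5) (nat_lit 16) (nat_lit 5) (nat_lit 262) (nat_lit 242) (nat_lit 216)) (XT.lf (nat_lit 0) (nat_lit 3660443894) (nat_lit 228) (nat_lit 3517678221) (nat_lit 76) (nat_lit 6158044602) (nat_lit 15) (nat_lit 5) (nat_lit 18) (nat_lit 5) (nat_lit 16) (nat_lit 5) (nat_lit 263) (nat_lit 242) (nat_lit 215))))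 (XT.nd (nat_lit 78) (nat_lit 0) (nat_lit 0) (XT.lf (nat_lit 0) (nat_lit 2262737744) (nat_lit 152) (nat_lit 3838270925) (nat_lit 228) (nat_lit 7945525099) (nat_lit 13) (nat_lit 5) (nat_lit 15) (nat_lit 5) (nat_lit 16) (nat_lit 5) (nat_lit 264) (nat_lit 242) (nat_lit 214)) (XT.nd (nat_lit 78) (nat_lit 0) (nat_lit 0) (XT.lf (nat_lit 0) (nat_lit 8617191273) (nat_lit 152) (nat_lit 152816861) (nat_lit 228) (nat_lit 6041391639) (nat_lit 13) (nat_lit 5) (nat_lit 15) (nat_lit 5) (nat_lit 16) (nat_lit 5) (nat_lit 265) (nat_lit 242) (nat_lit 213)) (XT.lf (nat_lit 0) (nat_lit 11685687333) (nat_lit 228) (nat_lit 335801893) (nat_lit 76) (nat_lit 3613613748) (nat_lit 13) (nat_lit 5) (nat_lit 16) (nat_lit 5) (nat_lit 14) (nat_lit 4) (nat_lit 266) (nat_lit 242) (nat_lit 212))))))))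
noncomputable def xc54 : XT := (XT.nd (nat_lit 1794) (nat_lit 152) (nat_lit 0) (XT.nd (nat_lit 858) (nat_lit 228) (nat_lit 0) (XT.nd (nat_lit 390) (nat_lit 228) (nat_lit 0) (XT.nd (nat_lit 156) (nat_lit 152) (nat_lit 0) (XT.nd (nat_lit 78) (nat_lit 76) (nat_lit 0) (XT.lf (nat_lit 0) (nat_lit 6218476652) (nat_lit 76) (nat_lit 8715139243) (nat_lit 152) (nat_lit 1583445356) (nat_lit 12) (nat_lit 5) (nat_lit 13) (nat_lit 5) (nat_lit 14) (nat_lit 4) (nat_lit 267) (nat_lit 242) (nat_lit 211)) (XT.lf (nat_lit 0) (nat_lit 878641330) (nat_lit 152) (nat_lit 4257219545) (nat_lit 76) (nat_lit 12335648085) (nat_lit 11) (nat_lit 5) (nat_lit 13) (nat_lit 5) (nat_lit 12) (nat_lit 5) (nat_lit 268) (nat_lit 242) (nat_lit 210))) (XT.nd (nat_lit 78) (nat_lit 0) (nat_lit 0) (XT.lf (nat_lit 0) (nat_lit 2264647990) (nat_lit 152) (nat_lit 1191994605) (nat_lit 228) (nat_lit 15042241049) (nat_lit 9) (nat_lit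 5) (nat_lit 11) (nat_lit 5) (nat_lit 12) (nat_lit 5) (nat_lit 269) (nat_lit 242) (nat_lit 209)) (XT.nd (nat_lit 78) (nat_lit 0) (nat_lit 0) (XT.lf (nat_lit 0) (nat_lit 6385449798) (nat_lit 228) (nat_lit 10202065244) (nat_lit 76) (nat_lit 3009572643) (nat_lit 9) (nat_lit 5) (nat_lit 12) (nat_lit 5) (nat_lit 10) (nat_lit 4) (nat_lit 270) (nat_lit 242) (nat_lit 208)) (XT.lf (nat_lit 0) (nat_lit 9534496501) (nat_lit 228) (nat_lit 3789126312) (nat_lit 76) (nat_lit 7460839933) (nat_lit 9) (nat_lit 5) (nat_lit 12) (nat_lit 5) (nat_lit 10) (nat_lit 4) (nat_lit 271) (nat_lit 242) (nat_lit 207))))) (XT.nd (nat_lit 234) (nat_lit 152) (nat_lit 0) (XT.nd (nat_lit 78) (nat_lit 0) (nat_lit 0) (XT.lf (nat_lit 0) (nat_lit 3232977888) (nat_lit 76) (nat_lit 9738551531) (nat_lit 152) (nat_lit 9092588848) (nat_lit 8) (nat_lit 5) (nat_lit 9) (nat_lit 5) (nat_lit 10) (nat_lit 4) (nat_lit 272) (nat_lit 242)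 (nat_lit 206)) (XT.nd (nat_lit 78) (nat_lit 0) (nat_lit 0) (XT.lf (nat_lit 0) (nat_lit 10968405574) (nat_lit 76) (nat_lit 5778580651) (nat_lit 152) (nat_lit 6694245560) (nat_lit 8) (nat_lit 5) (nat_lit 9) (nat_lit 5) (nat_lit 10) (nat_lit 4) (nat_lit 273) (nat_lit 242) (nat_lit 205)) (XT.lf (nat_lit 0) (nat_lit 19263467639) (nat_lit 76) (nat_lit 1523845109) (nat_lit 152) (nat_lit 4144325406) (nat_lit 8) (nat_lit 5) (nat_lit 9) (nat_lit 5) (nat_lit 10) (nat_lit 4) (nat_lit 274) (nat_lit 242) (nat_lit 204)))) (XT.nd (nat_lit 78) (nat_lit 76) (nat_lit 0) (XT.lf (nat_lit 0) (nat_lit 1631385653) (nat_lit 76) (nat_lit 23597674332) (nat_lit 76) (nat_lit 1306100762) (nat_lit 7) (nat_lit 4) (nat_lit 8) (nat_lit 5) (nat_lit 8) (nat_lit 4) (nat_lit 275) (nat_lit 242) (nat_lit 203)) (XT.nd (nat_lit 78) (nat_lit 0) (nat_lit 0) (XT.lf (nat_lit 0) (nat_lit 1835107188) (nat_lit 152) (nat_lit 18560933142)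 (nat_lit 76) (nat_lit 7854545418) (nat_lit 6) (nat_lit 5) (nat_lit 8) (nat_lit 5) (nat_lit 7) (nat_lit 4) (nat_lit 276) (nat_lit 242) (nat_lit 202)) (XT.lf (nat_lit 0) (nat_lit 5124958703) (nat_lit 152) (nat_lit 11798025810) (nat_lit 76) (nat_lit 13180224003) (nat_lit 6) (nat_lit 5) (nat_lit 8) (nat_lit 5) (nat_lit 7) (nat_lit 4) (nat_lit 277) (nat_lit 242) (nat_lit 201)))))) (XT.nd (nat_lit 468) (nat_lit 152) (nat_lit 0) (XT.nd (nat_lit 234) (nat_lit 0) (nat_lit 0) (XT.nd (nat_lit 78) (nat_lit 76) (nat_lit 0) (XT.lf (nat_lit 0) (nat_lit 8648285649) (nat_lit 152) (nat_lit 4543564854) (nat_lit 76) (nat_lit 18914669993) (nat_lit 6) (nat_lit 5) (nat_lit 8) (nat_lit 5) (nat_lit 7) (nat_lit 4) (nat_lit 278) (nat_lit 242) (nat_lit 200)) (XT.nd (nat_lit 78) (nat_lit 0) (nat_lit 0) (XT.lf (nat_lit 0) (nat_lit 3416338195) (nat_lit 76) (nat_lit 9091791820) (nat_lit 152) (nat_lit 21757690110)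 (nat_lit 5) (nat_lit 5) (nat_lit 6) (nat_lit 5) (nat_lit 7) (nat_lit 4) (nat_lit 279) (nat_lit 242) (nat_lit 199)) (XT.lf (nat_lit 0) (nat_lit 12226776038) (nat_lit 76) (nat_lit 4547667236) (nat_lit 152) (nat_lit 19815693715) (nat_lit 5) (nat_lit 5) (nat_lit 6) (nat_lit 5) (nat_lit 7) (nat_lit 4) (nat_lit 280) (nat_lit 242) (nat_lit 198)))) (XT.nd (nat_lit 78) (nat_lit 0) (nat_lit 0) (XT.lf (nat_lit 0) (nat_lit 21365734826) (nat_lit 152) (nat_lit 17409998873) (nat_lit 0) (nat_lit 326052911) (nat_lit 5) (nat_lit 5) (nat_lit 7) (nat_lit 4) (nat_lit 5) (nat_lit 4) (nat_lit 281) (nat_lit 242) (nat_lit 197)) (XT.nd (nat_lit 78) (nat_lit 0) (nat_lit 0) (XT.lf (nat_lit 0) (nat_lit 26419317159) (nat_lit 152) (nat_lit 10058295423) (nat_lit 0) (nat_lit 5329231872) (nat_lit 5) (nat_lit 5) (nat_lit 7) (nat_lit 4) (nat_lit 5) (nat_lit 4) (nat_lit 282) (nat_lit 242) (nat_lit 196)) (XT.lf (nat_lit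 0) (nat_lit 31855765923) (nat_lit 152) (nat_lit 2155313445) (nat_lit 0) (nat_lit 10719010845) (nat_lit 5) (nat_lit 5) (nat_lit 7) (nat_lit 4) (nat_lit 5) (nat_lit 4) (nat_lit 283) (nat_lit 242) (nat_lit 195))))) (XT.nd (nat_lit 234) (nat_lit 76) (nat_lit 0) (XT.nd (nat_lit 78) (nat_lit 0) (nat_lit 0) (XT.lf (nat_lit 0) (nat_lit 6679937051) (nat_lit 76) (nat_lit 31188012704) (nat_lit 76) (nat_lit 10008044858) (nat_lit 4) (nat_lit 4) (nat_lit 5) (nat_lit 5) (nat_lit 5) (nat_lit 4) (nat_lit 284) (nat_lit 242) (nat_lit 194)) (XT.nd (nat_lit 78) (nat_lit 0) (nat_lit 0) (XT.lf (nat_lit 0) (nat_lit 16311318617) (nat_lit 76) (nat_lit 28089555445) (nat_lit 76) (nat_lit 6869575776) (nat_lit 4) (nat_lit 4) (nat_lit 5) (nat_lit 5) (nat_lit 5) (nat_lit 4) (nat_lit 285) (nat_lit 242) (nat_lit 193)) (XT.lf (nat_lit 0) (nat_lit 26682411121) (nat_lit 76) (nat_lit 24756276453) (nat_lit 76) (nat_lit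 3499248799) (nat_lit 4) (nat_lit 4) (nat_lit 5) (nat_lit 5) (nat_lit 5) (nat_lit 4) (nat_lit 286) (nat_lit 242) (nat_lit 192)))) (XT.nd (nat_lit 78) (nat_lit 0) (nat_lit 0) (XT.lf (nat_lit 0) (nat_lit 116760005) (nat_lit 152) (nat_lit 21048470530) (nat_lit 76) (nat_lit 37734720455) (nat_lit 3) (nat_lit 5) (nat_lit 5) (nat_lit 5) (nat_lit 4) (nat_lit 4) (nat_lit 287) (nat_lit 242) (nat_lit 191)) (XT.nd (nat_lit 78) (nat_lit 0) (nat_lit 0) (XT.lf (nat_lit 0) (nat_lit 3817345737) (nat_lit 152) (nat_lit 13383014883) (nat_lit 76) (nat_lit 45972591175) (nat_lit 3) (nat_lit 5) (nat_lit 5) (nat_lit 5) (nat_lit 4) (nat_lit 4) (nat_lit 288) (nat_lit 242) (nat_lit 190)) (XT.lf (nat_lit 0) (nat_lit 7799484389) (nat_lit 152) (nat_lit 5129576370) (nat_lit 76) (nat_lit 54859932074) (nat_lit 3) (nat_lit 5) (nat_lit 5) (nat_lit 5) (nat_lit 4) (nat_lit 4) (nat_lit 289) (nat_lit 242) (nat_lit 189)))))))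 (XT.nd (nat_lit 936) (nat_lit 0) (nat_lit 0) (XT.nd (nat_lit 468) (nat_lit 76) (nat_lit 0) (XT.nd (nat_lit 234) (nat_lit 0) (nat_lit 0) (XT.nd (nat_lit 78) (nat_lit 0) (nat_lit 0) (XT.lf (nat_lit 0) (nat_lit 3958788927) (nat_lit 76) (nat_lit 8223193862) (nat_lit 152) (nat_lit 60585828918) (nat_lit 2) (nat_lit 5) (nat_lit 3) (nat_lit 5) (nat_lit 4) (nat_lit 4) (nat_lit 290) (nat_lit 242) (nat_lit 188)) (XT.nd (nat_lit 78) (nat_lit 0) (nat_lit 0) (XT.lf (nat_lit 0) (nat_lit 14043156027) (nat_lit 76) (nat_lit 2999202405) (nat_lit 152) (nat_lit 61092430324) (nat_lit 2) (nat_lit 5) (nat_lit 3) (nat_lit 5) (nat_lit 4) (nat_lit 4) (nat_lit 291) (nat_lit 242) (nat_lit 187)) (XT.lf (nat_lit 0) (nat_lit 22342889445) (nat_lit 152) (nat_lit 59082286163) (nat_lit 0) (nat_lit 2501874606) (nat_lit 2) (nat_lit 5) (nat_lit 4) (nat_lit 4) (nat_lit 2) (nat_lit 4) (nat_lit 292) (nat_lit 242) (nat_lit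 186)))) (XT.nd (nat_lit 78) (nat_lit 0) (nat_lit 0) (XT.lf (nat_lit 0) (nat_lit 28134038487) (nat_lit 152) (nat_lit 53770350167) (nat_lit 0) (nat_lit 8273007775) (nat_lit 2) (nat_lit 5) (nat_lit 4) (nat_lit 4) (nat_lit 2) (nat_lit 4) (nat_lit 293) (nat_lit 242) (nat_lit 185)) (XT.nd (nat_lit 78) (nat_lit 0) (nat_lit 0) (XT.lf (nat_lit 0) (nat_lit 34377992587) (nat_lit 152) (nat_lit 48052215712) (nat_lit 0) (nat_lit 14498428659) (nat_lit 2) (nat_lit 5) (nat_lit 4) (nat_lit 4) (nat_lit 2) (nat_lit 4) (nat_lit 294) (nat_lit 242) (nat_lit 184)) (XT.lf (nat_lit 0) (nat_lit 41111752955) (nat_lit 152) (nat_lit 41893997557) (nat_lit 0) (nat_lit 21215028642) (nat_lit 2) (nat_lit 5) (nat_lit 4) (nat_lit 4) (nat_lit 2) (nat_lit 4) (nat_lit 295) (nat_lit 242) (nat_lit 183))))) (XT.nd (nat_lit 234) (nat_lit 76) (nat_lit 0) (XT.nd (nat_lit 78) (nat_lit 0) (nat_lit 0) (XT.lf (nat_lit 0) (nat_lit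 48375223356) (nat_lit 152) (nat_lit 35259202557) (nat_lit 0) (nat_lit 28462609798) (nat_lit 2) (nat_lit 5) (nat_lit 4) (nat_lit 4) (nat_lit 2) (nat_lit 4) (nat_lit 296) (nat_lit 242) (nat_lit 182)) (XT.nd (nat_lit 78) (nat_lit 0) (nat_lit 0) (XT.lf (nat_lit 0) (nat_lit 56211446578) (nat_lit 152) (nat_lit 28108513409) (nat_lit 0) (nat_lit 36284120755) (nat_lit 2) (nat_lit 5) (nat_lit 4) (nat_lit 4) (nat_lit 2) (nat_lit 4) (nat_lit 297) (nat_lit 242) (nat_lit 181)) (XT.lf (nat_lit 0) (nat_lit 64666859499) (nat_lit 152) (nat_lit 20399555659) (nat_lit 0) (nat_lit 44725911209) (nat_lit 2) (nat_lit 5) (nat_lit 4) (nat_lit 4) (nat_lit 2) (nat_lit 4) (nat_lit 298) (nat_lit 242) (nat_lit 180)))) (XT.nd (nat_lit 78) (nat_lit 76) (nat_lit 0) (XT.lf (nat_lit 0) (nat_lit 73791568269) (nat_lit 152) (nat_lit 12086646593) (nat_lit 0) (nat_lit 53838006584) (nat_lit 2) (nat_lit 5) (nat_lit 4) (nat_lit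 4) (nat_lit 2) (nat_lit 4) (nat_lit 299) (nat_lit 242) (nat_lit 179)) (XT.nd (nat_lit 78) (nat_lit 76) (nat_lit 0) (XT.lf (nat_lit 0) (nat_lit 83639645237) (nat_lit 152) (nat_lit 3120524529) (nat_lit 0) (nat_lit 63674404482) (nat_lit 2) (nat_lit 5) (nat_lit 4) (nat_lit 4) (nat_lit 2) (nat_lit 4) (nat_lit 300) (nat_lit 242) (nat_lit 178)) (XT.lf (nat_lit 0) (nat_lit 6896956821) (nat_lit 76) (nat_lit 87538364533) (nat_lit 76) (nat_lit 67562309825) (nat_lit 1) (nat_lit 4) (nat_lit 2) (nat_lit 5) (nat_lit 2) (nat_lit 4) (nat_lit 301) (nat_lit 242) (nat_lit 177)))))) (XT.nd (nat_lit 468) (nat_lit 0) (nat_lit 0) (XT.nd (nat_lit 234) (nat_lit 0) (nat_lit 0) (XT.nd (nat_lit 78) (nat_lit 0) (nat_lit 0) (XT.lf (nat_lit 0) (nat_lit 17882636552) (nat_lit 76) (nat_lit 88291413409) (nat_lit 76) (nat_lit 68305345781) (nat_lit 1) (nat_lit 4) (nat_lit 2) (nat_lit 5) (nat_lit 2) (nat_lit 4) (nat_lit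 302) (nat_lit 242) (nat_lit 176)) (XT.nd (nat_lit 78) (nat_lit 0) (nat_lit 0) (XT.lf (nat_lit 0) (nat_lit 29737293695) (nat_lit 76) (nat_lit 89109099576) (nat_lit 76) (nat_lit 69113760726) (nat_lit 1) (nat_lit 4) (nat_lit 2) (nat_lit 5) (nat_lit 2) (nat_lit 4) (nat_lit 303) (nat_lit 242) (nat_lit 175)) (XT.lf (nat_lit 0) (nat_lit 42531178071) (nat_lit 76) (nat_lit 89996268582) (nat_lit 76) (nat_lit 69992345268) (nat_lit 1) (nat_lit 4) (nat_lit 2) (nat_lit 5) (nat_lit 2) (nat_lit 4) (nat_lit 304) (nat_lit 242) (nat_lit 174)))) (XT.nd (nat_lit 78) (nat_lit 0) (nat_lit 0) (XT.lf (nat_lit 0) (nat_lit 56340105291) (nat_lit 76) (nat_lit 90958177726) (nat_lit 76) (nat_lit 70946305832) (nat_lit 1) (nat_lit 4) (nat_lit 2) (nat_lit 5) (nat_lit 2) (nat_lit 4) (nat_lit 305) (nat_lit 242) (nat_lit 173)) (XT.nd (nat_lit 78) (nat_lit 0) (nat_lit 0) (XT.lf (nat_lit 0) (nat_lit 71245906034) (nat_lit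 76) (nat_lit 92000527208) (nat_lit 76) (nat_lit 71981295520) (nat_lit 1) (nat_lit 4) (nat_lit 2) (nat_lit 5) (nat_lit 2) (nat_lit 4) (nat_lit 306) (nat_lit 242) (nat_lit 172)) (XT.lf (nat_lit 0) (nat_lit 87336910972) (nat_lit 76) (nat_lit 93129493915) (nat_lit 76) (nat_lit 73103447602) (nat_lit 1) (nat_lit 4) (nat_lit 2) (nat_lit 5) (nat_lit 2) (nat_lit 4) (nat_lit 307) (nat_lit 242) (nat_lit 171))))) (XT.nd (nat_lit 234) (nat_lit 0) (nat_lit 0) (XT.nd (nat_lit 78) (nat_lit 0) (nat_lit 0) (XT.lf (nat_lit 0) (nat_lit 104708474207) (nat_lit 76) (nat_lit 94351768021) (nat_lit 76) (nat_lit 74319411870) (nat_lit 1) (nat_lit 4) (nat_lit 2) (nat_lit 5) (nat_lit 2) (nat_lit 4) (nat_lit 308) (nat_lit 242) (nat_lit 170)) (XT.nd (nat_lit 78) (nat_lit 0) (nat_lit 0) (XT.lf (nat_lit 0) (nat_lit 123463538338) (nat_lit 76) (nat_lit 95674592631) (nat_lit 76) (nat_lit 75636394037) (nat_lit 1) (nat_lit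 4) (nat_lit 2) (nat_lit 5) (nat_lit 2) (nat_lit 4) (nat_lit 309) (nat_lit 242) (nat_lit 169)) (XT.lf (nat_lit 0) (nat_lit 143713244484) (nat_lit 76) (nat_lit 97105806705) (nat_lit 76) (nat_lit 77062198442) (nat_lit 1) (nat_lit 4) (nat_lit 2) (nat_lit 5) (nat_lit 2) (nat_lit 4) (nat_lit 310) (nat_lit 242) (nat_lit 168)))) (XT.nd (nat_lit 78) (nat_lit 0) (nat_lit 0) (XT.lf (nat_lit 0) (nat_lit 165577590905) (nat_lit 76) (nat_lit 98653891512) (nat_lit 76) (nat_lit 78605274297) (nat_lit 1) (nat_lit 4) (nat_lit 2) (nat_lit 5) (nat_lit 2) (nat_lit 4) (nat_lit 311) (nat_lit 242) (nat_lit 167)) (XT.nd (nat_lit 78) (nat_lit 0) (nat_lit 0) (XT.lf (nat_lit 0) (nat_lit 189186144097) (nat_lit 76) (nat_lit 100328020889) (nat_lit 76) (nat_lit 80274765754) (nat_lit 1) (nat_lit 4) (nat_lit 2) (nat_lit 5) (nat_lit 2) (nat_lit 4) (nat_lit 312) (nat_lit 242) (nat_lit 166)) (XT.lf (nat_lit 0) (nat_lit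 214678806598) (nat_lit 76) (nat_lit 102138115601) (nat_lit 76) (nat_lit 82080566097) (nat_lit 1) (nat_lit 4) (nat_lit 2) (nat_lit 5) (nat_lit 2) (nat_lit 4) (nat_lit 313) (nat_lit 242) (nat_lit 165))))))))
noncomputable def xc55 : XT := (XT.nd (nat_lit 32136) (nat_lit 0) (nat_lit 836) (XT.nd (nat_lit 936) (nat_lit 0) (nat_lit 0) (XT.nd (nat_lit 468) (nat_lit 0) (nat_lit 0) (XT.nd (nat_lit 234) (nat_lit 0) (nat_lit 0) (XT.nd (nat_lit 78) (nat_lit 0) (nat_lit 0) (XT.lf (nat_lit 0) (nat_lit 242206646038) (nat_lit 76) (nat_lit 104094902136) (nat_lit 76) (nat_lit 84033376364) (nat_lit 1) (nat_lit 4) (nat_lit 2) (nat_lit 5) (nat_lit 2) (nat_lit 4) (nat_lit 314) (nat_lit 242) (nat_lit 164)) (XT.nd (nat_lit 78) (nat_lit 0) (nat_lit 0) (XT.lf (nat_lit 0) (nat_lit 271932790354) (nat_lit 76) (nat_lit 106209976266) (nat_lit 76) (nat_lit 86144768764) (nat_lit 1) (nat_lit 4) (nat_lit 2) (nat_lit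 5) (nat_lit 2) (nat_lit 4) (nat_lit 315) (nat_lit 242) (nat_lit 163)) (XT.lf (nat_lit 0) (nat_lit 304033394475) (nat_lit 76) (nat_lit 108495871764) (nat_lit 76) (nat_lit 88427255253) (nat_lit 1) (nat_lit 4) (nat_lit 2) (nat_lit 5) (nat_lit 2) (nat_lit 4) (nat_lit 316) (nat_lit 242) (nat_lit 162)))) (XT.nd (nat_lit 78) (nat_lit 0) (nat_lit 0) (XT.lf (nat_lit 0) (nat_lit 338698684204) (nat_lit 76) (nat_lit 110966134677) (nat_lit 76) (nat_lit 90894361676) (nat_lit 1) (nat_lit 4) (nat_lit 2) (nat_lit 5) (nat_lit 2) (nat_lit 4) (nat_lit 317) (nat_lit 242) (nat_lit 161)) (XT.nd (nat_lit 78) (nat_lit 0) (nat_lit 0) (XT.lf (nat_lit 0) (nat_lit 376134083479) (nat_lit 76) (nat_lit 113635403600) (nat_lit 76) (nat_lit 93560707923) (nat_lit 1) (nat_lit 4) (nat_lit 2) (nat_lit 5) (nat_lit 2) (nat_lit 4) (nat_lit 318) (nat_lit 242) (nat_lit 160)) (XT.lf (nat_lit 0) (nat_lit 416561431705) (nat_lit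 76) (nat_lit 116519496423) (nat_lit 76) (nat_lit 96442094564) (nat_lit 1) (nat_lit 4) (nat_lit 2) (nat_lit 5) (nat_lit 2) (nat_lit 4) (nat_lit 319) (nat_lit 242) (nat_lit 159))))) (XT.nd (nat_lit 234) (nat_lit 0) (nat_lit 0) (XT.nd (nat_lit 78) (nat_lit 0) (nat_lit 0) (XT.lf (nat_lit 0) (nat_lit 460220298351) (nat_lit 76) (nat_lit 119635504066) (nat_lit 76) (nat_lit 99555596484) (nat_lit 1) (nat_lit 4) (nat_lit 2) (nat_lit 5) (nat_lit 2) (nat_lit 4) (nat_lit 320) (nat_lit 242) (nat_lit 158)) (XT.nd (nat_lit 78) (nat_lit 0) (nat_lit 0) (XT.lf (nat_lit 0) (nat_lit 507369402627) (nat_lit 76) (nat_lit 123001891760) (nat_lit 76) (nat_lit 102919664064) (nat_lit 1) (nat_lit 4) (nat_lit 2) (nat_lit 5) (nat_lit 2) (nat_lit 4) (nat_lit 321) (nat_lit 242) (nat_lit 157)) (XT.lf (nat_lit 0) (nat_lit 558288146634) (nat_lit 76) (nat_lit 126638608469) (nat_lit 76) (nat_lit 106554232519) (nat_lit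 1) (nat_lit 4) (nat_lit 2) (nat_lit 5) (nat_lit 2) (nat_lit 4) (nat_lit 322) (nat_lit 242) (nat_lit 156)))) (XT.nd (nat_lit 78) (nat_lit 0) (nat_lit 0) (XT.lf (nat_lit 0) (nat_lit 613278271076) (nat_lit 76) (nat_lit 130567205107) (nat_lit 76) (nat_lit 110480840033) (nat_lit 1) (nat_lit 4) (nat_lit 2) (nat_lit 5) (nat_lit 2) (nat_lit 4) (nat_lit 323) (nat_lit 242) (nat_lit 155)) (XT.nd (nat_lit 78) (nat_lit 0) (nat_lit 0) (XT.lf (nat_lit 0) (nat_lit 672665643357) (nat_lit 76) (nat_lit 134810962247) (nat_lit 76) (nat_lit 114722755391) (nat_lit 1) (nat_lit 4) (nat_lit 2) (nat_lit 5) (nat_lit 2) (nat_lit 4) (nat_lit 324) (nat_lit 242) (nat_lit 154)) (XT.lf (nat_lit 0) (nat_lit 736802188646) (nat_lit 76) (nat_lit 139395028078) (nat_lit 76) (nat_lit 119305115869) (nat_lit 1) (nat_lit 4) (nat_lit 2) (nat_lit 5) (nat_lit 2) (nat_lit 4) (nat_lit 325) (nat_lit 242) (nat_lit 153)))))) (XT.nd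 (nat_lit 468) (nat_lit 0) (nat_lit 0) (XT.nd (nat_lit 234) (nat_lit 0) (nat_lit 0) (XT.nd (nat_lit 78) (nat_lit 0) (nat_lit 0) (XT.lf (nat_lit 0) (nat_lit 806067975361) (nat_lit 76) (nat_lit 144346567436) (nat_lit 76) (nat_lit 124255076196) (nat_lit 1) (nat_lit 4) (nat_lit 2) (nat_lit 5) (nat_lit 2) (nat_lit 4) (nat_lit 326) (nat_lit 242) (nat_lit 152)) (XT.nd (nat_lit 78) (nat_lit 0) (nat_lit 0) (XT.lf (nat_lit 0) (nat_lit 880873467421) (nat_lit 76) (nat_lit 149694922776) (nat_lit 76) (nat_lit 129601969470) (nat_lit 1) (nat_lit 4) (nat_lit 2) (nat_lit 5) (nat_lit 2) (nat_lit 4) (nat_lit 327) (nat_lit 242) (nat_lit 151)) (XT.lf (nat_lit 0) (nat_lit 961661956633) (nat_lit 76) (nat_lit 155471788056) (nat_lit 76) (nat_lit 135377480985) (nat_lit 1) (nat_lit 4) (nat_lit 2) (nat_lit 5) (nat_lit 2) (nat_lit 4) (nat_lit 328) (nat_lit 242) (nat_lit 150)))) (XT.nd (nat_lit 78) (nat_lit 0) (nat_lit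 0) (XT.lf (nat_lit 0) (nat_lit 1048912189598) (nat_lit 76) (nat_lit 161711396550) (nat_lit 76) (nat_lit 141615835995) (nat_lit 1) (nat_lit 4) (nat_lit 2) (nat_lit 5) (nat_lit 2) (nat_lit 4) (nat_lit 329) (nat_lit 242) (nat_lit 149)) (XT.nd (nat_lit 78) (nat_lit 0) (nat_lit 0) (XT.lf (nat_lit 0) (nat_lit 1143141204734) (nat_lit 76) (nat_lit 168450723718) (nat_lit 76) (nat_lit 148354002527) (nat_lit 1) (nat_lit 4) (nat_lit 2) (nat_lit 5) (nat_lit 2) (nat_lit 4) (nat_lit 330) (nat_lit 242) (nat_lit 148)) (XT.lf (nat_lit 0) (nat_lit 1244907396206) (nat_lit 76) (nat_lit 175729706312) (nat_lit 76) (nat_lit 155631910460) (nat_lit 1) (nat_lit 4) (nat_lit 2) (nat_lit 5) (nat_lit 2) (nat_lit 4) (nat_lit 331) (nat_lit 242) (nat_lit 147))))) (XT.nd (nat_lit 234) (nat_lit 0) (nat_lit 0) (XT.nd (nat_lit 78) (nat_lit 0) (nat_lit 0) (XT.lf (nat_lit 0) (nat_lit 1354813822925) (nat_lit 76) (nat_lit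 183591479045) (nat_lit 76) (nat_lit 163492688135) (nat_lit 1) (nat_lit 4) (nat_lit 2) (nat_lit 5) (nat_lit 2) (nat_lit 4) (nat_lit 332) (nat_lit 242) (nat_lit 146)) (XT.nd (nat_lit 78) (nat_lit 0) (nat_lit 0) (XT.lf (nat_lit 0) (nat_lit 1473511782235) (nat_lit 76) (nat_lit 192082630199) (nat_lit 76) (nat_lit 171982917940) (nat_lit 1) (nat_lit 4) (nat_lit 2) (nat_lit 5) (nat_lit 2) (nat_lit 4) (nat_lit 333) (nat_lit 242) (nat_lit 145)) (XT.lf (nat_lit 0) (nat_lit 1601704669450) (nat_lit 76) (nat_lit 201253477706) (nat_lit 76) (nat_lit 181152912346) (nat_lit 1) (nat_lit 4) (nat_lit 2) (nat_lit 5) (nat_lit 2) (nat_lit 4) (nat_lit 334) (nat_lit 242) (nat_lit 144)))) (XT.nd (nat_lit 30342) (nat_lit 0) (nat_lit 3420) (XT.lf (nat_lit 0) (nat_lit 1740152146125) (nat_lit 76) (nat_lit 211158367331) (nat_lit 76) (nat_lit 191057012062) (nat_lit 1) (nat_lit 4) (nat_lit 2) (nat_lit 5) (nat_lit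 2) (nat_lit 4) (nat_lit 335) (nat_lit 242) (nat_lit 143)) (XT.nd (nat_lit 78) (nat_lit 0) (nat_lit 0) (XT.lf (nat_lit 0) (nat_lit 237236844) (nat_lit 0) (nat_lit 237236844) (nat_lit 228) (nat_lit 2883039336) (nat_lit 46) (nat_lit 5) (nat_lit 46) (nat_lit 3) (nat_lit 49) (nat_lit 3) (nat_lit 243) (nat_lit 243) (nat_lit 234)) (XT.lf (nat_lit 0) (nat_lit 2872654833) (nat_lit 228) (nat_lit 3374311047) (nat_lit 304) (nat_lit 566742722) (nat_lit 46) (nat_lit 5) (nat_lit 49) (nat_lit 3) (nat_lit 50) (nat_lit 5) (nat_lit 244) (nat_lit 243) (nat_lit 233))))))) (XT.nd (nat_lit 936) (nat_lit 836) (nat_lit 0) (XT.nd (nat_lit 468) (nat_lit 1216) (nat_lit 0) (XT.nd (nat_lit 234) (nat_lit 228) (nat_lit 0) (XT.nd (nat_lit 78) (nat_lit 304) (nat_lit 0) (XT.lf (nat_lit 0) (nat_lit 4777604144) (nat_lit 228) (nat_lit 403846137) (nat_lit 304) (nat_lit 1754554626) (nat_lit 46) (nat_lit 5) (nat_lit 49)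 (nat_lit 3) (nat_lit 50) (nat_lit 5) (nat_lit 245) (nat_lit 243) (nat_lit 232)) (XT.nd (nat_lit 78) (nat_lit 304) (nat_lit 0) (XT.lf (nat_lit 76) (nat_lit 2842025869) (nat_lit 0) (nat_lit 3889997716) (nat_lit 304) (nat_lit 346060924) (nat_lit 47) (nat_lit 5) (nat_lit 46) (nat_lit 5) (nat_lit 50) (nat_lit 5) (nat_lit 246) (nat_lit 243) (nat_lit 231)) (XT.lf (nat_lit 0) (nat_lit 1375220274) (nat_lit 304) (nat_lit 1011202499) (nat_lit 380) (nat_lit 4855956784) (nat_lit 42) (nat_lit 5) (nat_lit 46) (nat_lit 5) (nat_lit 47) (nat_lit 5) (nat_lit 247) (nat_lit 243) (nat_lit 230)))) (XT.nd (nat_lit 78) (nat_lit 228) (nat_lit 0) (XT.lf (nat_lit 76) (nat_lit 2483116971) (nat_lit 0) (nat_lit 637690812) (nat_lit 380) (nat_lit 4307268863) (nat_lit 43) (nat_lit 5) (nat_lit 42) (nat_lit 5) (nat_lit 47) (nat_lit 5) (nat_lit 248) (nat_lit 243) (nat_lit 229)) (XT.nd (nat_lit 78) (nat_lit 304) (nat_lit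 0) (XT.lf (nat_lit 0) (nat_lit 4920146170) (nat_lit 304) (nat_lit 1457852258) (nat_lit 76) (nat_lit 1258800479) (nat_lit 43) (nat_lit 5) (nat_lit 47) (nat_lit 5) (nat_lit 44) (nat_lit 5) (nat_lit 249) (nat_lit 243) (nat_lit 228)) (XT.lf (nat_lit 0) (nat_lit 2300128270) (nat_lit 304) (nat_lit 4501529844) (nat_lit 380) (nat_lit 1066704304) (nat_lit 39) (nat_lit 5) (nat_lit 43) (nat_lit 5) (nat_lit 44) (nat_lit 5) (nat_lit 250) (nat_lit 243) (nat_lit 227))))) (XT.nd (nat_lit 234) (nat_lit 760) (nat_lit 0) (XT.nd (nat_lit 78) (nat_lit 380) (nat_lit 0) (XT.lf (nat_lit 0) (nat_lit 589766804) (nat_lit 380) (nat_lit 1803644492) (nat_lit 76) (nat_lit 5731869278) (nat_lit 38) (nat_lit 5) (nat_lit 43) (nat_lit 5) (nat_lit 39) (nat_lit 5) (nat_lit 251) (nat_lit 243) (nat_lit 226)) (XT.nd (nat_lit 78) (nat_lit 0) (nat_lit 0) (XT.lf (nat_lit 0) (nat_lit 2243093984) (nat_lit 380) (nat_lit 11062051)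 (nat_lit 456) (nat_lit 6152691064) (nat_lit 33) (nat_lit 5) (nat_lit 38) (nat_lit 5) (nat_lit 39) (nat_lit 5) (nat_lit 252) (nat_lit 243) (nat_lit 225)) (XT.lf (nat_lit 0) (nat_lit 4049843493) (nat_lit 456) (nat_lit 2164999495) (nat_lit 76) (nat_lit 2497127396) (nat_lit 33) (nat_lit 5) (nat_lit 39) (nat_lit 5) (nat_lit 34) (nat_lit 5) (nat_lit 253) (nat_lit 243) (nat_lit 224)))) (XT.nd (nat_lit 78) (nat_lit 304) (nat_lit 0) (XT.lf (nat_lit 0) (nat_lit 2158318173) (nat_lit 456) (nat_lit 3777449911) (nat_lit 532) (nat_lit 3110826656) (nat_lit 27) (nat_lit 5) (nat_lit 33) (nat_lit 5) (nat_lit 34) (nat_lit 5) (nat_lit 254) (nat_lit 243) (nat_lit 223)) (XT.nd (nat_lit 78) (nat_lit 304) (nat_lit 0) (XT.lf (nat_lit 0) (nat_lit 6850217982) (nat_lit 456) (nat_lit 1081339131) (nat_lit 532) (nat_lit 1480469899) (nat_lit 27) (nat_lit 5) (nat_lit 33) (nat_lit 5) (nat_lit 34) (nat_lit 5) (nat_lit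 255) (nat_lit 243) (nat_lit 222)) (XT.lf (nat_lit 0) (nat_lit 266652605) (nat_lit 304) (nat_lit 7744894219) (nat_lit 76) (nat_lit 1795228117) (nat_lit 23) (nat_lit 5) (nat_lit 27) (nat_lit 5) (nat_lit 24) (nat_lit 5) (nat_lit 256) (nat_lit 243) (nat_lit 221)))))) (XT.nd (nat_lit 468) (nat_lit 380) (nat_lit 0) (XT.nd (nat_lit 234) (nat_lit 304) (nat_lit 0) (XT.nd (nat_lit 78) (nat_lit 152) (nat_lit 0) (XT.lf (nat_lit 0) (nat_lit 2082318725) (nat_lit 304) (nat_lit 3198635026) (nat_lit 76) (nat_lit 4948973134) (nat_lit 23) (nat_lit 5) (nat_lit 27) (nat_lit 5) (nat_lit 24) (nat_lit 5) (nat_lit 257) (nat_lit 243) (nat_lit 220)) (XT.nd (nat_lit 78) (nat_lit 0) (nat_lit 0) (XT.lf (nat_lit 0) (nat_lit 1700137428) (nat_lit 152) (nat_lit 2299551252) (nat_lit 228) (nat_lit 6691282828) (nat_lit 21) (nat_lit 5) (nat_lit 23) (nat_lit 5) (nat_lit 24) (nat_lit 5) (nat_lit 258) (nat_lit 243) (nat_lit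 219)) (XT.lf (nat_lit 0) (nat_lit 6101550623) (nat_lit 228) (nat_lit 4134016715) (nat_lit 76) (nat_lit 951359513) (nat_lit 21) (nat_lit 5) (nat_lit 24) (nat_lit 5) (nat_lit 22) (nat_lit 5) (nat_lit 259) (nat_lit 243) (nat_lit 218)))) (XT.nd (nat_lit 78) (nat_lit 76) (nat_lit 0) (XT.lf (nat_lit 0) (nat_lit 1009108174) (nat_lit 228) (nat_lit 7371672953) (nat_lit 304) (nat_lit 3341517093) (nat_lit 18) (nat_lit 5) (nat_lit 21) (nat_lit 5) (nat_lit 22) (nat_lit 5) (nat_lit 260) (nat_lit 243) (nat_lit 217)) (XT.nd (nat_lit 78) (nat_lit 76) (nat_lit 0) (XT.lf (nat_lit 0) (nat_lit 6708153461) (nat_lit 228) (nat_lit 4175809229) (nat_lit 304) (nat_lit 1413649420) (nat_lit 18) (nat_lit 5) (nat_lit 21) (nat_lit 5) (nat_lit 22) (nat_lit 5) (nat_lit 261) (nat_lit 243) (nat_lit 216)) (XT.lf (nat_lit 0) (nat_lit 566774507) (nat_lit 304) (nat_lit 159797931) (nat_lit 76) (nat_lit 12196930145) (nat_lit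 17) (nat_lit 5) (nat_lit 21) (nat_lit 5) (nat_lit 18) (nat_lit 5) (nat_lit 262) (nat_lit 243) (nat_lit 215))))) (XT.nd (nat_lit 234) (nat_lit 76) (nat_lit 0) (XT.nd (nat_lit 78) (nat_lit 152) (nat_lit 0) (XT.lf (nat_lit 0) (nat_lit 2783805139) (nat_lit 228) (nat_lit 7786632986) (nat_lit 76) (nat_lit 3014075722) (nat_lit 15) (nat_lit 5) (nat_lit 18) (nat_lit 5) (nat_lit 16) (nat_lit 5) (nat_lit 263) (nat_lit 243) (nat_lit 214)) (XT.nd (nat_lit 78) (nat_lit 152) (nat_lit 0) (XT.lf (nat_lit 0) (nat_lit 5140690034) (nat_lit 228) (nat_lit 2159804771) (nat_lit 76) (nat_lit 7001236613) (nat_lit 15) (nat_lit 5) (nat_lit 18) (nat_lit 5) (nat_lit 16) (nat_lit 5) (nat_lit 264) (nat_lit 243) (nat_lit 213)) (XT.lf (nat_lit 0) (nat_lit 4041543516) (nat_lit 152) (nat_lit 3685426941) (nat_lit 228) (nat_lit 7346389056) (nat_lit 13) (nat_lit 5) (nat_lit 15) (nat_lit 5) (nat_lit 16) (nat_lit 5) (nat_lit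 265) (nat_lit 243) (nat_lit 212)))) (XT.nd (nat_lit 78) (nat_lit 76) (nat_lit 0) (XT.lf (nat_lit 0) (nat_lit 10531474551) (nat_lit 228) (nat_lit 5126865758) (nat_lit 76) (nat_lit 247750270) (nat_lit 13) (nat_lit 5) (nat_lit 16) (nat_lit 5) (nat_lit 14) (nat_lit 4) (nat_lit 266) (nat_lit 243) (nat_lit 211)) (XT.nd (nat_lit 78) (nat_lit 0) (nat_lit 0) (XT.lf (nat_lit 0) (nat_lit 1137680678) (nat_lit 76) (nat_lit 12495255329) (nat_lit 152) (nat_lit 3166954160) (nat_lit 12) (nat_lit 5) (nat_lit 13) (nat_lit 5) (nat_lit 14) (nat_lit 4) (nat_lit 267) (nat_lit 243) (nat_lit 210)) (XT.lf (nat_lit 0) (nat_lit 8122847445) (nat_lit 76) (nat_lit 8951360597) (nat_lit 152) (nat_lit 683888888) (nat_lit 12) (nat_lit 5) (nat_lit 13) (nat_lit 5) (nat_lit 14) (nat_lit 4) (nat_lit 268) (nat_lit 243) (nat_lit 209))))))))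
noncomputable def xc56 : XT := (XT.nd (nat_lit 1794) (nat_lit 76) (nat_lit 0) (XT.nd (nat_lit 858) (nat_lit 304) (nat_lit 0) (XT.nd (nat_lit 390) (nat_lit 152) (nat_lit 0) (XT.nd (nat_lit 156) (nat_lit 76) (nat_lit 0) (XT.nd (nat_lit 78) (nat_lit 152) (nat_lit 0) (XT.lf (nat_lit 0) (nat_lit 1851613943) (nat_lit 152) (nat_lit 3243592502) (nat_lit 76) (nat_lit 13697816108) (nat_lit 11) (nat_lit 5) (nat_lit 13) (nat_lit 5) (nat_lit 12) (nat_lit 5) (nat_lit 269) (nat_lit 243) (nat_lit 208)) (XT.lf (nat_lit 0) (nat_lit 3765740775) (nat_lit 152) (nat_lit 834993383) (nat_lit 228) (nat_lit 15304958496) (nat_lit 9) (nat_lit 5) (nat_lit 11) (nat_lit 5) (nat_lit 12) (nat_lit 5) (nat_lit 270) (nat_lit 243) (nat_lit 207))) (XT.nd (nat_lit 78) (nat_lit 76) (nat_lit 0) (XT.lf (nat_lit 0) (nat_lit 7709655637) (nat_lit 228) (nat_lit 9738468112) (nat_lit 76) (nat_lit 3648238336) (nat_lit 9) (nat_lit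 5) (nat_lit 12) (nat_lit 5) (nat_lit 10) (nat_lit 4) (nat_lit 271) (nat_lit 243) (nat_lit 206)) (XT.nd (nat_lit 78) (nat_lit 76) (nat_lit 0) (XT.lf (nat_lit 0) (nat_lit 11050376458) (nat_lit 228) (nat_lit 2907291276) (nat_lit 76) (nat_lit 8426132944) (nat_lit 9) (nat_lit 5) (nat_lit 12) (nat_lit 5) (nat_lit 10) (nat_lit 4) (nat_lit 272) (nat_lit 243) (nat_lit 205)) (XT.lf (nat_lit 0) (nat_lit 4646582143) (nat_lit 76) (nat_lit 10087780142) (nat_lit 152) (nat_lit 9033941908) (nat_lit 8) (nat_lit 5) (nat_lit 9) (nat_lit 5) (nat_lit 10) (nat_lit 4) (nat_lit 273) (nat_lit 243) (nat_lit 204))))) (XT.nd (nat_lit 234) (nat_lit 76) (nat_lit 0) (XT.nd (nat_lit 78) (nat_lit 76) (nat_lit 0) (XT.lf (nat_lit 0) (nat_lit 12915291005) (nat_lit 76) (nat_lit 5842852741) (nat_lit 152) (nat_lit 6501957383) (nat_lit 8) (nat_lit 5) (nat_lit 9) (nat_lit 5) (nat_lit 10) (nat_lit 4) (nat_lit 274) (nat_lit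 243) (nat_lit 203)) (XT.nd (nat_lit 78) (nat_lit 76) (nat_lit 0) (XT.lf (nat_lit 0) (nat_lit 21794742258) (nat_lit 76) (nat_lit 1277220901) (nat_lit 152) (nat_lit 3801956789) (nat_lit 8) (nat_lit 5) (nat_lit 9) (nat_lit 5) (nat_lit 10) (nat_lit 4) (nat_lit 275) (nat_lit 243) (nat_lit 202)) (XT.lf (nat_lit 0) (nat_lit 2769313108) (nat_lit 76) (nat_lit 25086122838) (nat_lit 76) (nat_lit 751563912) (nat_lit 7) (nat_lit 4) (nat_lit 8) (nat_lit 5) (nat_lit 8) (nat_lit 4) (nat_lit 276) (nat_lit 243) (nat_lit 201)))) (XT.nd (nat_lit 78) (nat_lit 0) (nat_lit 0) (XT.lf (nat_lit 0) (nat_lit 2561598926) (nat_lit 152) (nat_lit 19080492251) (nat_lit 76) (nat_lit 8820169475) (nat_lit 6) (nat_lit 5) (nat_lit 8) (nat_lit 5) (nat_lit 7) (nat_lit 4) (nat_lit 277) (nat_lit 243) (nat_lit 200)) (XT.nd (nat_lit 78) (nat_lit 0) (nat_lit 0) (XT.lf (nat_lit 0) (nat_lit 6071699068) (nat_lit 152) (nat_lit 11848057187)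 (nat_lit 76) (nat_lit 14546920094) (nat_lit 6) (nat_lit 5) (nat_lit 8) (nat_lit 5) (nat_lit 7) (nat_lit 4) (nat_lit 278) (nat_lit 243) (nat_lit 199)) (XT.lf (nat_lit 0) (nat_lit 9837133380) (nat_lit 152) (nat_lit 4079447554) (nat_lit 76) (nat_lit 20716990046) (nat_lit 6) (nat_lit 5) (nat_lit 8) (nat_lit 5) (nat_lit 7) (nat_lit 4) (nat_lit 279) (nat_lit 243) (nat_lit 198)))))) (XT.nd (nat_lit 468) (nat_lit 152) (nat_lit 0) (XT.nd (nat_lit 234) (nat_lit 76) (nat_lit 0) (XT.nd (nat_lit 78) (nat_lit 0) (nat_lit 0) (XT.lf (nat_lit 0) (nat_lit 4496295777) (nat_lit 76) (nat_lit 9492055788) (nat_lit 152) (nat_lit 22978782955) (nat_lit 5) (nat_lit 5) (nat_lit 6) (nat_lit 5) (nat_lit 7) (nat_lit 4) (nat_lit 280) (nat_lit 243) (nat_lit 197)) (XT.nd (nat_lit 78) (nat_lit 0) (nat_lit 0) (XT.lf (nat_lit 0) (nat_lit 13951816757) (nat_lit 76) (nat_lit 4608629338) (nat_lit 152) (nat_lit 20919909986)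 (nat_lit 5) (nat_lit 5) (nat_lit 6) (nat_lit 5) (nat_lit 7) (nat_lit 4) (nat_lit 281) (nat_lit 243) (nat_lit 196)) (XT.lf (nat_lit 0) (nat_lit 23492892631) (nat_lit 152) (nat_lit 18083718299) (nat_lit 0) (nat_lit 618527356) (nat_lit 5) (nat_lit 5) (nat_lit 7) (nat_lit 4) (nat_lit 5) (nat_lit 4) (nat_lit 282) (nat_lit 243) (nat_lit 195)))) (XT.nd (nat_lit 78) (nat_lit 76) (nat_lit 0) (XT.lf (nat_lit 0) (nat_lit 28919806068) (nat_lit 152) (nat_lit 10197143795) (nat_lit 0) (nat_lit 6002228025) (nat_lit 5) (nat_lit 5) (nat_lit 7) (nat_lit 4) (nat_lit 5) (nat_lit 4) (nat_lit 283) (nat_lit 243) (nat_lit 194)) (XT.nd (nat_lit 78) (nat_lit 76) (nat_lit 0) (XT.lf (nat_lit 0) (nat_lit 34762508249) (nat_lit 152) (nat_lit 1711242908) (nat_lit 0) (nat_lit 11804918383) (nat_lit 5) (nat_lit 5) (nat_lit 7) (nat_lit 4) (nat_lit 5) (nat_lit 4) (nat_lit 284) (nat_lit 243) (nat_lit 193)) (XT.lf (nat_lit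 0) (nat_lit 7815220144) (nat_lit 76) (nat_lit 33428358680) (nat_lit 76) (nat_lit 10433720830) (nat_lit 4) (nat_lit 4) (nat_lit 5) (nat_lit 5) (nat_lit 5) (nat_lit 4) (nat_lit 285) (nat_lit 243) (nat_lit 192))))) (XT.nd (nat_lit 234) (nat_lit 76) (nat_lit 0) (XT.nd (nat_lit 78) (nat_lit 76) (nat_lit 0) (XT.lf (nat_lit 0) (nat_lit 18172602004) (nat_lit 76) (nat_lit 30100891140) (nat_lit 76) (nat_lit 7071949600) (nat_lit 4) (nat_lit 4) (nat_lit 5) (nat_lit 5) (nat_lit 5) (nat_lit 4) (nat_lit 286) (nat_lit 243) (nat_lit 191)) (XT.nd (nat_lit 78) (nat_lit 76) (nat_lit 0) (XT.lf (nat_lit 0) (nat_lit 29332168730) (nat_lit 76) (nat_lit 26518418623) (nat_lit 76) (nat_lit 3457714409) (nat_lit 4) (nat_lit 4) (nat_lit 5) (nat_lit 5) (nat_lit 5) (nat_lit 4) (nat_lit 287) (nat_lit 243) (nat_lit 190)) (XT.lf (nat_lit 0) (nat_lit 408871961) (nat_lit 152) (nat_lit 22239660418) (nat_lit 76) (nat_lit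 40939999842) (nat_lit 3) (nat_lit 5) (nat_lit 5) (nat_lit 5) (nat_lit 4) (nat_lit 4) (nat_lit 288) (nat_lit 243) (nat_lit 189)))) (XT.nd (nat_lit 78) (nat_lit 76) (nat_lit 0) (XT.lf (nat_lit 0) (nat_lit 4384558540) (nat_lit 152) (nat_lit 13997463708) (nat_lit 76) (nat_lit 49823085275) (nat_lit 3) (nat_lit 5) (nat_lit 5) (nat_lit 5) (nat_lit 4) (nat_lit 4) (nat_lit 289) (nat_lit 243) (nat_lit 188)) (XT.nd (nat_lit 78) (nat_lit 76) (nat_lit 0) (XT.lf (nat_lit 0) (nat_lit 8665873829) (nat_lit 152) (nat_lit 5117542141) (nat_lit 76) (nat_lit 59408621831) (nat_lit 3) (nat_lit 5) (nat_lit 5) (nat_lit 5) (nat_lit 4) (nat_lit 4) (nat_lit 290) (nat_lit 243) (nat_lit 187)) (XT.lf (nat_lit 0) (nat_lit 4687198701) (nat_lit 76) (nat_lit 8703717127) (nat_lit 152) (nat_lit 65178941229) (nat_lit 2) (nat_lit 5) (nat_lit 3) (nat_lit 5) (nat_lit 4) (nat_lit 4) (nat_lit 291) (nat_lit 243) (nat_lit 186)))))))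 (XT.nd (nat_lit 936) (nat_lit 0) (nat_lit 0) (XT.nd (nat_lit 468) (nat_lit 76) (nat_lit 0) (XT.nd (nat_lit 234) (nat_lit 0) (nat_lit 0) (XT.nd (nat_lit 78) (nat_lit 0) (nat_lit 0) (XT.lf (nat_lit 0) (nat_lit 15547818378) (nat_lit 76) (nat_lit 3074942075) (nat_lit 152) (nat_lit 65744867341) (nat_lit 2) (nat_lit 5) (nat_lit 3) (nat_lit 5) (nat_lit 4) (nat_lit 4) (nat_lit 292) (nat_lit 243) (nat_lit 185)) (XT.nd (nat_lit 78) (nat_lit 0) (nat_lit 0) (XT.lf (nat_lit 0) (nat_lit 24334915302) (nat_lit 152) (nat_lit 63442938499) (nat_lit 0) (nat_lit 2846453045) (nat_lit 2) (nat_lit 5) (nat_lit 4) (nat_lit 4) (nat_lit 2) (nat_lit 4) (nat_lit 293) (nat_lit 243) (nat_lit 184)) (XT.lf (nat_lit 0) (nat_lit 30574201104) (nat_lit 152) (nat_lit 57733153591) (nat_lit 0) (nat_lit 9068578462) (nat_lit 2) (nat_lit 5) (nat_lit 4) (nat_lit 4) (nat_lit 2) (nat_lit 4) (nat_lit 294) (nat_lit 243) (nat_lit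 183)))) (XT.nd (nat_lit 78) (nat_lit 0) (nat_lit 0) (XT.lf (nat_lit 0) (nat_lit 37303638974) (nat_lit 152) (nat_lit 51582666497) (nat_lit 0) (nat_lit 15782127086) (nat_lit 2) (nat_lit 5) (nat_lit 4) (nat_lit 4) (nat_lit 2) (nat_lit 4) (nat_lit 295) (nat_lit 243) (nat_lit 182)) (XT.nd (nat_lit 78) (nat_lit 0) (nat_lit 0) (XT.lf (nat_lit 0) (nat_lit 44563107062) (nat_lit 152) (nat_lit 44955029888) (nat_lit 0) (nat_lit 23026882910) (nat_lit 2) (nat_lit 5) (nat_lit 4) (nat_lit 4) (nat_lit 2) (nat_lit 4) (nat_lit 296) (nat_lit 243) (nat_lit 181)) (XT.lf (nat_lit 0) (nat_lit 52395624438) (nat_lit 152) (nat_lit 37810968879) (nat_lit 0) (nat_lit 30845777819) (nat_lit 2) (nat_lit 5) (nat_lit 4) (nat_lit 4) (nat_lit 2) (nat_lit 4) (nat_lit 297) (nat_lit 243) (nat_lit 180))))) (XT.nd (nat_lit 234) (nat_lit 76) (nat_lit 0) (XT.nd (nat_lit 78) (nat_lit 0) (nat_lit 0) (XT.lf (nat_lit 0) (nat_lit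 60847606020) (nat_lit 152) (nat_lit 30108148294) (nat_lit 0) (nat_lit 39285146006) (nat_lit 2) (nat_lit 5) (nat_lit 4) (nat_lit 4) (nat_lit 2) (nat_lit 4) (nat_lit 298) (nat_lit 243) (nat_lit 179)) (XT.nd (nat_lit 78) (nat_lit 0) (nat_lit 0) (XT.lf (nat_lit 0) (nat_lit 69969137625) (nat_lit 152) (nat_lit 21800921789) (nat_lit 0) (nat_lit 48394998541) (nat_lit 2) (nat_lit 5) (nat_lit 4) (nat_lit 4) (nat_lit 2) (nat_lit 4) (nat_lit 299) (nat_lit 243) (nat_lit 178)) (XT.lf (nat_lit 0) (nat_lit 79814272773) (nat_lit 152) (nat_lit 12840061356) (nat_lit 0) (nat_lit 58229319736) (nat_lit 2) (nat_lit 5) (nat_lit 4) (nat_lit 4) (nat_lit 2) (nat_lit 4) (nat_lit 300) (nat_lit 243) (nat_lit 177)))) (XT.nd (nat_lit 78) (nat_lit 76) (nat_lit 0) (XT.lf (nat_lit 0) (nat_lit 90441353007) (nat_lit 152) (nat_lit 3172465598) (nat_lit 0) (nat_lit 68846387049) (nat_lit 2) (nat_lit 5) (nat_lit 4) (nat_lit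 4) (nat_lit 2) (nat_lit 4) (nat_lit 301) (nat_lit 243) (nat_lit 176)) (XT.nd (nat_lit 78) (nat_lit 0) (nat_lit 0) (XT.lf (nat_lit 0) (nat_lit 7641409175) (nat_lit 76) (nat_lit 94455720515) (nat_lit 76) (nat_lit 72851483335) (nat_lit 1) (nat_lit 4) (nat_lit 2) (nat_lit 5) (nat_lit 2) (nat_lit 4) (nat_lit 302) (nat_lit 243) (nat_lit 175)) (XT.lf (nat_lit 0) (nat_lit 19491669520) (nat_lit 76) (nat_lit 95275362425) (nat_lit 76) (nat_lit 73662540781) (nat_lit 1) (nat_lit 4) (nat_lit 2) (nat_lit 5) (nat_lit 2) (nat_lit 4) (nat_lit 303) (nat_lit 243) (nat_lit 174)))))) (XT.nd (nat_lit 468) (nat_lit 0) (nat_lit 0) (XT.nd (nat_lit 234) (nat_lit 0) (nat_lit 0) (XT.nd (nat_lit 78) (nat_lit 0) (nat_lit 0) (XT.lf (nat_lit 0) (nat_lit 32281482787) (nat_lit 76) (nat_lit 96164342305) (nat_lit 76) (nat_lit 74543572082) (nat_lit 1) (nat_lit 4) (nat_lit 2) (nat_lit 5) (nat_lit 2) (nat_lit 4) (nat_lit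 304) (nat_lit 243) (nat_lit 173)) (XT.nd (nat_lit 78) (nat_lit 0) (nat_lit 0) (XT.lf (nat_lit 0) (nat_lit 46086640462) (nat_lit 76) (nat_lit 97127928183) (nat_lit 76) (nat_lit 75499798164) (nat_lit 1) (nat_lit 4) (nat_lit 2) (nat_lit 5) (nat_lit 2) (nat_lit 4) (nat_lit 305) (nat_lit 243) (nat_lit 172)) (XT.lf (nat_lit 0) (nat_lit 60988950885) (nat_lit 76) (nat_lit 98171830197) (nat_lit 76) (nat_lit 76536885554) (nat_lit 1) (nat_lit 4) (nat_lit 2) (nat_lit 5) (nat_lit 2) (nat_lit 4) (nat_lit 306) (nat_lit 243) (nat_lit 171)))) (XT.nd (nat_lit 78) (nat_lit 0) (nat_lit 0) (XT.lf (nat_lit 0) (nat_lit 77076724046) (nat_lit 76) (nat_lit 99302234434) (nat_lit 76) (nat_lit 77660979953) (nat_lit 1) (nat_lit 4) (nat_lit 2) (nat_lit 5) (nat_lit 2) (nat_lit 4) (nat_lit 307) (nat_lit 243) (nat_lit 170)) (XT.nd (nat_lit 78) (nat_lit 0) (nat_lit 0) (XT.lf (nat_lit 0) (nat_lit 94445294895) (nat_lit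 76) (nat_lit 100525839586) (nat_lit 76) (nat_lit 78878742662) (nat_lit 1) (nat_lit 4) (nat_lit 2) (nat_lit 5) (nat_lit 2) (nat_lit 4) (nat_lit 308) (nat_lit 243) (nat_lit 169)) (XT.lf (nat_lit 0) (nat_lit 113197588297) (nat_lit 76) (nat_lit 101849896645) (nat_lit 76) (nat_lit 80197390053) (nat_lit 1) (nat_lit 4) (nat_lit 2) (nat_lit 5) (nat_lit 2) (nat_lit 4) (nat_lit 309) (nat_lit 243) (nat_lit 168))))) (XT.nd (nat_lit 234) (nat_lit 0) (nat_lit 0) (XT.nd (nat_lit 78) (nat_lit 0) (nat_lit 0) (XT.lf (nat_lit 0) (nat_lit 133444728954) (nat_lit 76) (nat_lit 103282251877) (nat_lit 76) (nat_lit 81624736331) (nat_lit 1) (nat_lit 4) (nat_lit 2) (nat_lit 5) (nat_lit 2) (nat_lit 4) (nat_lit 310) (nat_lit 243) (nat_lit 167)) (XT.nd (nat_lit 78) (nat_lit 0) (nat_lit 0) (XT.lf (nat_lit 0) (nat_lit 155306699922) (nat_lit 76) (nat_lit 104831393311) (nat_lit 76) (nat_lit 83169239847) (nat_lit 1)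 (nat_lit 4) (nat_lit 2) (nat_lit 5) (nat_lit 2) (nat_lit 4) (nat_lit 311) (nat_lit 243) (nat_lit 166)) (XT.lf (nat_lit 0) (nat_lit 178913053620) (nat_lit 76) (nat_lit 106506501046) (nat_lit 76) (nat_lit 84840053212) (nat_lit 1) (nat_lit 4) (nat_lit 2) (nat_lit 5) (nat_lit 2) (nat_lit 4) (nat_lit 312) (nat_lit 243) (nat_lit 165)))) (XT.nd (nat_lit 78) (nat_lit 0) (nat_lit 0) (XT.lf (nat_lit 0) (nat_lit 204403679553) (nat_lit 76) (nat_lit 108317501646) (nat_lit 76) (nat_lit 86647077543) (nat_lit 1) (nat_lit 4) (nat_lit 2) (nat_lit 5) (nat_lit 2) (nat_lit 4) (nat_lit 313) (nat_lit 243) (nat_lit 164)) (XT.nd (nat_lit 78) (nat_lit 0) (nat_lit 0) (XT.lf (nat_lit 0) (nat_lit 231929633282) (nat_lit 76) (nat_lit 110275126966) (nat_lit 76) (nat_lit 88601021133) (nat_lit 1) (nat_lit 4) (nat_lit 2) (nat_lit 5) (nat_lit 2) (nat_lit 4) (nat_lit 314) (nat_lit 243) (nat_lit 163)) (XT.lf (nat_lit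 0) (nat_lit 261654031569) (nat_lit 76) (nat_lit 112390977748) (nat_lit 76) (nat_lit 90713462907) (nat_lit 1) (nat_lit 4) (nat_lit 2) (nat_lit 5) (nat_lit 2) (nat_lit 4) (nat_lit 315) (nat_lit 243) (nat_lit 162))))))))
noncomputable def xc57 : XT := (XT.nd (nat_lit 32214) (nat_lit 0) (nat_lit 608) (XT.nd (nat_lit 936) (nat_lit 0) (nat_lit 0) (XT.nd (nat_lit 468) (nat_lit 0) (nat_lit 0) (XT.nd (nat_lit 234) (nat_lit 0) (nat_lit 0) (XT.nd (nat_lit 78) (nat_lit 0) (nat_lit 0) (XT.lf (nat_lit 0) (nat_lit 293753018997) (nat_lit 76) (nat_lit 114677592369) (nat_lit 76) (nat_lit 92996921038) (nat_lit 1) (nat_lit 4) (nat_lit 2) (nat_lit 5) (nat_lit 2) (nat_lit 4) (nat_lit 316) (nat_lit 243) (nat_lit 161)) (XT.nd (nat_lit 78) (nat_lit 0) (nat_lit 0) (XT.lf (nat_lit 0) (nat_lit 328416811788) (nat_lit 76) (nat_lit 117148521136) (nat_lit 76) (nat_lit 95464927129) (nat_lit 1) (nat_lit 4) (nat_lit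 2) (nat_lit 5) (nat_lit 2) (nat_lit 4) (nat_lit 317) (nat_lit 243) (nat_lit 160)) (XT.lf (nat_lit 0) (nat_lit 365850825009) (nat_lit 76) (nat_lit 119818406591) (nat_lit 76) (nat_lit 98132106402) (nat_lit 1) (nat_lit 4) (nat_lit 2) (nat_lit 5) (nat_lit 2) (nat_lit 4) (nat_lit 318) (nat_lit 243) (nat_lit 159)))) (XT.nd (nat_lit 78) (nat_lit 0) (nat_lit 0) (XT.lf (nat_lit 0) (nat_lit 406276889851) (nat_lit 76) (nat_lit 122703070276) (nat_lit 76) (nat_lit 101014264364) (nat_lit 1) (nat_lit 4) (nat_lit 2) (nat_lit 5) (nat_lit 2) (nat_lit 4) (nat_lit 319) (nat_lit 243) (nat_lit 158)) (XT.nd (nat_lit 78) (nat_lit 0) (nat_lit 0) (XT.lf (nat_lit 0) (nat_lit 449934568180) (nat_lit 76) (nat_lit 125819606496) (nat_lit 76) (nat_lit 104128480470) (nat_lit 1) (nat_lit 4) (nat_lit 2) (nat_lit 5) (nat_lit 2) (nat_lit 4) (nat_lit 320) (nat_lit 243) (nat_lit 157)) (XT.lf (nat_lit 0) (nat_lit 497082572162)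 (nat_lit 76) (nat_lit 129186483613) (nat_lit 76) (nat_lit 107493209333) (nat_lit 1) (nat_lit 4) (nat_lit 2) (nat_lit 5) (nat_lit 2) (nat_lit 4) (nat_lit 321) (nat_lit 243) (nat_lit 156))))) (XT.nd (nat_lit 234) (nat_lit 0) (nat_lit 0) (XT.nd (nat_lit 78) (nat_lit 0) (nat_lit 0) (XT.lf (nat_lit 0) (nat_lit 548000297378) (nat_lit 76) (nat_lit 132823653492) (nat_lit 76) (nat_lit 111128390087) (nat_lit 1) (nat_lit 4) (nat_lit 2) (nat_lit 5) (nat_lit 2) (nat_lit 4) (nat_lit 322) (nat_lit 243) (nat_lit 155)) (XT.nd (nat_lit 78) (nat_lit 0) (nat_lit 0) (XT.lf (nat_lit 0) (nat_lit 602989478494) (nat_lit 76) (nat_lit 136752669731) (nat_lit 76) (nat_lit 115055564545) (nat_lit 1) (nat_lit 4) (nat_lit 2) (nat_lit 5) (nat_lit 2) (nat_lit 4) (nat_lit 323) (nat_lit 243) (nat_lit 154)) (XT.lf (nat_lit 0) (nat_lit 662375977326) (nat_lit 76) (nat_lit 140996815390) (nat_lit 76) (nat_lit 119298004851)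 (nat_lit 1) (nat_lit 4) (nat_lit 2) (nat_lit 5) (nat_lit 2) (nat_lit 4) (nat_lit 324) (nat_lit 243) (nat_lit 153)))) (XT.nd (nat_lit 78) (nat_lit 0) (nat_lit 0) (XT.lf (nat_lit 0) (nat_lit 726511713867) (nat_lit 76) (nat_lit 145581240962) (nat_lit 76) (nat_lit 123880851392) (nat_lit 1) (nat_lit 4) (nat_lit 2) (nat_lit 5) (nat_lit 2) (nat_lit 4) (nat_lit 325) (nat_lit 243) (nat_lit 152)) (XT.nd (nat_lit 78) (nat_lit 0) (nat_lit 0) (XT.lf (nat_lit 0) (nat_lit 795776751739) (nat_lit 76) (nat_lit 150533113413) (nat_lit 76) (nat_lit 128831261777) (nat_lit 1) (nat_lit 4) (nat_lit 2) (nat_lit 5) (nat_lit 2) (nat_lit 4) (nat_lit 326) (nat_lit 243) (nat_lit 151)) (XT.lf (nat_lit 0) (nat_lit 870581550428) (nat_lit 76) (nat_lit 155881777172) (nat_lit 76) (nat_lit 134178571772) (nat_lit 1) (nat_lit 4) (nat_lit 2) (nat_lit 5) (nat_lit 2) (nat_lit 4) (nat_lit 327) (nat_lit 243) (nat_lit 150))))))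 (XT.nd (nat_lit 468) (nat_lit 0) (nat_lit 0) (XT.nd (nat_lit 234) (nat_lit 0) (nat_lit 0) (XT.nd (nat_lit 78) (nat_lit 0) (nat_lit 0) (XT.lf (nat_lit 0) (nat_lit 951369397628) (nat_lit 76) (nat_lit 161658928025) (nat_lit 76) (nat_lit 139954469139) (nat_lit 1) (nat_lit 4) (nat_lit 2) (nat_lit 5) (nat_lit 2) (nat_lit 4) (nat_lit 328) (nat_lit 243) (nat_lit 149)) (XT.nd (nat_lit 78) (nat_lit 0) (nat_lit 0) (XT.lf (nat_lit 0) (nat_lit 1038619036138) (nat_lit 76) (nat_lit 167898800940) (nat_lit 76) (nat_lit 146193181419) (nat_lit 1) (nat_lit 4) (nat_lit 2) (nat_lit 5) (nat_lit 2) (nat_lit 4) (nat_lit 329) (nat_lit 243) (nat_lit 148)) (XT.lf (nat_lit 0) (nat_lit 1132847500854) (nat_lit 76) (nat_lit 174638372941) (nat_lit 76) (nat_lit 152931678758) (nat_lit 1) (nat_lit 4) (nat_lit 2) (nat_lit 5) (nat_lit 2) (nat_lit 4) (nat_lit 330) (nat_lit 243) (nat_lit 147)))) (XT.nd (nat_lit 78) (nat_lit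 0) (nat_lit 0) (XT.lf (nat_lit 0) (nat_lit 1234613182676) (nat_lit 76) (nat_lit 181917582232) (nat_lit 76) (nat_lit 160209892993) (nat_lit 1) (nat_lit 4) (nat_lit 2) (nat_lit 5) (nat_lit 2) (nat_lit 4) (nat_lit 331) (nat_lit 243) (nat_lit 146)) (XT.nd (nat_lit 78) (nat_lit 0) (nat_lit 0) (XT.lf (nat_lit 0) (nat_lit 1344519137498) (nat_lit 76) (nat_lit 189779564870) (nat_lit 76) (nat_lit 168070954281) (nat_lit 1) (nat_lit 4) (nat_lit 2) (nat_lit 5) (nat_lit 2) (nat_lit 4) (nat_lit 332) (nat_lit 243) (nat_lit 145)) (XT.lf (nat_lit 0) (nat_lit 1463216659866) (nat_lit 76) (nat_lit 198270910380) (nat_lit 76) (nat_lit 176561446690) (nat_lit 1) (nat_lit 4) (nat_lit 2) (nat_lit 5) (nat_lit 2) (nat_lit 4) (nat_lit 333) (nat_lit 243) (nat_lit 144))))) (XT.nd (nat_lit 30576) (nat_lit 0) (nat_lit 3116) (XT.nd (nat_lit 78) (nat_lit 0) (nat_lit 0) (XT.lf (nat_lit 0) (nat_lit 1591409142505) (nat_lit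 76) (nat_lit 207441937848) (nat_lit 76) (nat_lit 185731684249) (nat_lit 1) (nat_lit 4) (nat_lit 2) (nat_lit 5) (nat_lit 2) (nat_lit 4) (nat_lit 334) (nat_lit 243) (nat_lit 143)) (XT.nd (nat_lit 30420) (nat_lit 0) (nat_lit 3420) (XT.lf (nat_lit 0) (nat_lit 1729856244572) (nat_lit 76) (nat_lit 217346994102) (nat_lit 76) (nat_lit 195636009106) (nat_lit 1) (nat_lit 4) (nat_lit 2) (nat_lit 5) (nat_lit 2) (nat_lit 4) (nat_lit 335) (nat_lit 243) (nat_lit 142)) (XT.lf (nat_lit 0) (nat_lit 1169412986) (nat_lit 0) (nat_lit 1169412986) (nat_lit 228) (nat_lit 1122576376) (nat_lit 46) (nat_lit 5) (nat_lit 46) (nat_lit 3) (nat_lit 49) (nat_lit 3) (nat_lit 244) (nat_lit 244) (nat_lit 232)))) (XT.nd (nat_lit 78) (nat_lit 304) (nat_lit 0) (XT.lf (nat_lit 0) (nat_lit 5422390687) (nat_lit 0) (nat_lit 1046792616) (nat_lit 228) (nat_lit 585839948) (nat_lit 46) (nat_lit 5) (nat_lit 46) (nat_lit 3) (nat_lit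 49) (nat_lit 3) (nat_lit 245) (nat_lit 244) (nat_lit 231)) (XT.nd (nat_lit 78) (nat_lit 0) (nat_lit 0) (XT.lf (nat_lit 0) (nat_lit 1027874421) (nat_lit 304) (nat_lit 5708443059) (nat_lit 380) (nat_lit 470134982) (nat_lit 42) (nat_lit 5) (nat_lit 46) (nat_lit 5) (nat_lit 47) (nat_lit 5) (nat_lit 246) (nat_lit 244) (nat_lit 230)) (XT.lf (nat_lit 0) (nat_lit 2657604381) (nat_lit 304) (nat_lit 2541790525) (nat_lit 380) (nat_lit 2177299785) (nat_lit 42) (nat_lit 5) (nat_lit 46) (nat_lit 5) (nat_lit 47) (nat_lit 5) (nat_lit 247) (nat_lit 244) (nat_lit 229))))))) (XT.nd (nat_lit 936) (nat_lit 912) (nat_lit 0) (XT.nd (nat_lit 468) (nat_lit 912) (nat_lit 0) (XT.nd (nat_lit 234) (nat_lit 456) (nat_lit 0) (XT.nd (nat_lit 78) (nat_lit 228) (nat_lit 0) (XT.lf (nat_lit 76) (nat_lit 823312865) (nat_lit 0) (nat_lit 3471220077) (nat_lit 380) (nat_lit 3277175455) (nat_lit 43) (nat_lit 5) (nat_lit 42)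 (nat_lit 5) (nat_lit 47) (nat_lit 5) (nat_lit 248) (nat_lit 244) (nat_lit 228)) (XT.nd (nat_lit 78) (nat_lit 228) (nat_lit 0) (XT.lf (nat_lit 76) (nat_lit 4508543688) (nat_lit 0) (nat_lit 1488727900) (nat_lit 380) (nat_lit 1791464737) (nat_lit 43) (nat_lit 5) (nat_lit 42) (nat_lit 5) (nat_lit 47) (nat_lit 5) (nat_lit 249) (nat_lit 244) (nat_lit 227)) (XT.lf (nat_lit 0) (nat_lit 369566356) (nat_lit 304) (nat_lit 7367485732) (nat_lit 380) (nat_lit 295121156) (nat_lit 39) (nat_lit 5) (nat_lit 43) (nat_lit 5) (nat_lit 44) (nat_lit 5) (nat_lit 250) (nat_lit 244) (nat_lit 226)))) (XT.nd (nat_lit 78) (nat_lit 380) (nat_lit 0) (XT.lf (nat_lit 0) (nat_lit 1264619405) (nat_lit 380) (nat_lit 3966343245) (nat_lit 76) (nat_lit 3061753436) (nat_lit 38) (nat_lit 5) (nat_lit 43) (nat_lit 5) (nat_lit 39) (nat_lit 5) (nat_lit 251) (nat_lit 244) (nat_lit 225)) (XT.nd (nat_lit 78) (nat_lit 380) (nat_lit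 0) (XT.lf (nat_lit 0) (nat_lit 2821235478) (nat_lit 380) (nat_lit 77896209) (nat_lit 76) (nat_lit 5684197396) (nat_lit 38) (nat_lit 5) (nat_lit 43) (nat_lit 5) (nat_lit 39) (nat_lit 5) (nat_lit 252) (nat_lit 244) (nat_lit 224)) (XT.lf (nat_lit 0) (nat_lit 4245238565) (nat_lit 380) (nat_lit 255574130) (nat_lit 456) (nat_lit 4397321654) (nat_lit 33) (nat_lit 5) (nat_lit 38) (nat_lit 5) (nat_lit 39) (nat_lit 5) (nat_lit 253) (nat_lit 244) (nat_lit 223))))) (XT.nd (nat_lit 234) (nat_lit 380) (nat_lit 0) (XT.nd (nat_lit 78) (nat_lit 532) (nat_lit 0) (XT.lf (nat_lit 0) (nat_lit 6281668878) (nat_lit 456) (nat_lit 477257956) (nat_lit 76) (nat_lit 2482601385) (nat_lit 33) (nat_lit 5) (nat_lit 39) (nat_lit 5) (nat_lit 34) (nat_lit 5) (nat_lit 254) (nat_lit 244) (nat_lit 222)) (XT.nd (nat_lit 78) (nat_lit 76) (nat_lit 0) (XT.lf (nat_lit 0) (nat_lit 4144812682) (nat_lit 456) (nat_lit 4075956060)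 (nat_lit 532) (nat_lit 1391063955) (nat_lit 27) (nat_lit 5) (nat_lit 33) (nat_lit 5) (nat_lit 34) (nat_lit 5) (nat_lit 255) (nat_lit 244) (nat_lit 221)) (XT.lf (nat_lit 0) (nat_lit 212696749) (nat_lit 532) (nat_lit 945917483) (nat_lit 76) (nat_lit 8859194512) (nat_lit 26) (nat_lit 5) (nat_lit 33) (nat_lit 5) (nat_lit 27) (nat_lit 5) (nat_lit 256) (nat_lit 244) (nat_lit 220)))) (XT.nd (nat_lit 78) (nat_lit 152) (nat_lit 0) (XT.lf (nat_lit 0) (nat_lit 1935333788) (nat_lit 304) (nat_lit 6486973389) (nat_lit 76) (nat_lit 2026363419) (nat_lit 23) (nat_lit 5) (nat_lit 27) (nat_lit 5) (nat_lit 24) (nat_lit 5) (nat_lit 257) (nat_lit 244) (nat_lit 219)) (XT.nd (nat_lit 78) (nat_lit 152) (nat_lit 0) (XT.lf (nat_lit 0) (nat_lit 3774227347) (nat_lit 304) (nat_lit 1716088451) (nat_lit 76) (nat_lit 5425925293) (nat_lit 23) (nat_lit 5) (nat_lit 27) (nat_lit 5) (nat_lit 24) (nat_lit 5) (nat_lit 258)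 (nat_lit 244) (nat_lit 218)) (XT.lf (nat_lit 0) (nat_lit 3530574727) (nat_lit 152) (nat_lit 2242176268) (nat_lit 228) (nat_lit 5647941909) (nat_lit 21) (nat_lit 5) (nat_lit 23) (nat_lit 5) (nat_lit 24) (nat_lit 5) (nat_lit 259) (nat_lit 244) (nat_lit 217)))))) (XT.nd (nat_lit 468) (nat_lit 456) (nat_lit 0) (XT.nd (nat_lit 234) (nat_lit 228) (nat_lit 0) (XT.nd (nat_lit 78) (nat_lit 228) (nat_lit 0) (XT.lf (nat_lit 0) (nat_lit 7940500071) (nat_lit 228) (nat_lit 2784943221) (nat_lit 76) (nat_lit 1239751909) (nat_lit 21) (nat_lit 5) (nat_lit 24) (nat_lit 5) (nat_lit 22) (nat_lit 5) (nat_lit 260) (nat_lit 244) (nat_lit 216)) (XT.nd (nat_lit 78) (nat_lit 0) (nat_lit 0) (XT.lf (nat_lit 0) (nat_lit 2727105208) (nat_lit 228) (nat_lit 7614279011) (nat_lit 304) (nat_lit 2207505346) (nat_lit 18) (nat_lit 5) (nat_lit 21) (nat_lit 5) (nat_lit 22) (nat_lit 5) (nat_lit 261) (nat_lit 244) (nat_lit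 215)) (XT.lf (nat_lit 0) (nat_lit 8760794979) (nat_lit 228) (nat_lit 4188459358) (nat_lit 304) (nat_lit 229210712) (nat_lit 18) (nat_lit 5) (nat_lit 21) (nat_lit 5) (nat_lit 22) (nat_lit 5) (nat_lit 262) (nat_lit 244) (nat_lit 214)))) (XT.nd (nat_lit 78) (nat_lit 0) (nat_lit 0) (XT.lf (nat_lit 0) (nat_lit 1365874071) (nat_lit 152) (nat_lit 420409222) (nat_lit 228) (nat_lit 12070830366) (nat_lit 15) (nat_lit 5) (nat_lit 17) (nat_lit 5) (nat_lit 18) (nat_lit 5) (nat_lit 263) (nat_lit 244) (nat_lit 213)) (XT.nd (nat_lit 78) (nat_lit 0) (nat_lit 0) (XT.lf (nat_lit 0) (nat_lit 4105963835) (nat_lit 228) (nat_lit 6891704637) (nat_lit 76) (nat_lit 3579783672) (nat_lit 15) (nat_lit 5) (nat_lit 18) (nat_lit 5) (nat_lit 16) (nat_lit 5) (nat_lit 264) (nat_lit 244) (nat_lit 212)) (XT.lf (nat_lit 0) (nat_lit 6569958464) (nat_lit 228) (nat_lit 927164163) (nat_lit 76) (nat_lit 7861874332) (nat_lit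 15) (nat_lit 5) (nat_lit 18) (nat_lit 5) (nat_lit 16) (nat_lit 5) (nat_lit 265) (nat_lit 244) (nat_lit 211))))) (XT.nd (nat_lit 234) (nat_lit 228) (nat_lit 0) (XT.nd (nat_lit 78) (nat_lit 76) (nat_lit 0) (XT.lf (nat_lit 0) (nat_lit 5734711607) (nat_lit 152) (nat_lit 3585966122) (nat_lit 228) (nat_lit 6875477024) (nat_lit 13) (nat_lit 5) (nat_lit 15) (nat_lit 5) (nat_lit 16) (nat_lit 5) (nat_lit 266) (nat_lit 244) (nat_lit 210)) (XT.nd (nat_lit 78) (nat_lit 76) (nat_lit 0) (XT.lf (nat_lit 0) (nat_lit 12286059589) (nat_lit 228) (nat_lit 4200500826) (nat_lit 76) (nat_lit 614395053) (nat_lit 13) (nat_lit 5) (nat_lit 16) (nat_lit 5) (nat_lit 14) (nat_lit 4) (nat_lit 267) (nat_lit 244) (nat_lit 209)) (XT.lf (nat_lit 0) (nat_lit 2531373522) (nat_lit 76) (nat_lit 13068033361) (nat_lit 152) (nat_lit 2470095588) (nat_lit 12) (nat_lit 5) (nat_lit 13) (nat_lit 5) (nat_lit 14) (nat_lit 4) (nat_lit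 268) (nat_lit 244) (nat_lit 208)))) (XT.nd (nat_lit 78) (nat_lit 152) (nat_lit 0) (XT.lf (nat_lit 0) (nat_lit 134163789) (nat_lit 152) (nat_lit 9134412941) (nat_lit 76) (nat_lit 9841026870) (nat_lit 11) (nat_lit 5) (nat_lit 13) (nat_lit 5) (nat_lit 12) (nat_lit 5) (nat_lit 269) (nat_lit 244) (nat_lit 207)) (XT.nd (nat_lit 78) (nat_lit 152) (nat_lit 0) (XT.lf (nat_lit 0) (nat_lit 2773646785) (nat_lit 152) (nat_lit 2342067721) (nat_lit 76) (nat_lit 15115414525) (nat_lit 11) (nat_lit 5) (nat_lit 13) (nat_lit 5) (nat_lit 12) (nat_lit 5) (nat_lit 270) (nat_lit 244) (nat_lit 206)) (XT.lf (nat_lit 0) (nat_lit 5198619504) (nat_lit 152) (nat_lit 513966387) (nat_lit 228) (nat_lit 15722889265) (nat_lit 9) (nat_lit 5) (nat_lit 11) (nat_lit 5) (nat_lit 12) (nat_lit 5) (nat_lit 271) (nat_lit 244) (nat_lit 205))))))))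
noncomputable def xc58 : XT := (XT.nd (nat_lit 1794) (nat_lit 76) (nat_lit 0) (XT.nd (nat_lit 858) (nat_lit 228) (nat_lit 0) (XT.nd (nat_lit 390) (nat_lit 228) (nat_lit 0) (XT.nd (nat_lit 156) (nat_lit 76) (nat_lit 0) (XT.nd (nat_lit 78) (nat_lit 0) (nat_lit 0) (XT.lf (nat_lit 0) (nat_lit 9023761640) (nat_lit 228) (nat_lit 9420355615) (nat_lit 76) (nat_lit 4281232418) (nat_lit 9) (nat_lit 5) (nat_lit 12) (nat_lit 5) (nat_lit 10) (nat_lit 4) (nat_lit 272) (nat_lit 244) (nat_lit 204)) (XT.lf (nat_lit 0) (nat_lit 12580085789) (nat_lit 228) (nat_lit 2123957962) (nat_lit 76) (nat_lit 9416089334) (nat_lit 9) (nat_lit 5) (nat_lit 12) (nat_lit 5) (nat_lit 10) (nat_lit 4) (nat_lit 273) (nat_lit 244) (nat_lit 203))) (XT.nd (nat_lit 78) (nat_lit 0) (nat_lit 0) (XT.lf (nat_lit 0) (nat_lit 6008505922) (nat_lit 76) (nat_lit 10526270737) (nat_lit 152) (nat_lit 9082742610) (nat_lit 8) (nat_lit 5)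 (nat_lit 9) (nat_lit 5) (nat_lit 10) (nat_lit 4) (nat_lit 274) (nat_lit 244) (nat_lit 202)) (XT.nd (nat_lit 78) (nat_lit 0) (nat_lit 0) (XT.lf (nat_lit 0) (nat_lit 14865363552) (nat_lit 76) (nat_lit 5969047797) (nat_lit 152) (nat_lit 6398118927) (nat_lit 8) (nat_lit 5) (nat_lit 9) (nat_lit 5) (nat_lit 10) (nat_lit 4) (nat_lit 275) (nat_lit 244) (nat_lit 201)) (XT.lf (nat_lit 0) (nat_lit 24387256145) (nat_lit 76) (nat_lit 1063441941) (nat_lit 152) (nat_lit 3528340141) (nat_lit 8) (nat_lit 5) (nat_lit 9) (nat_lit 5) (nat_lit 10) (nat_lit 4) (nat_lit 276) (nat_lit 244) (nat_lit 200))))) (XT.nd (nat_lit 234) (nat_lit 76) (nat_lit 0) (XT.nd (nat_lit 78) (nat_lit 76) (nat_lit 0) (XT.lf (nat_lit 0) (nat_lit 3854555519) (nat_lit 76) (nat_lit 26750621169) (nat_lit 76) (nat_lit 246681386) (nat_lit 7) (nat_lit 4) (nat_lit 8) (nat_lit 5) (nat_lit 8) (nat_lit 4) (nat_lit 277) (nat_lit 244) (nat_lit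 199)) (XT.nd (nat_lit 78) (nat_lit 0) (nat_lit 0) (XT.lf (nat_lit 0) (nat_lit 3263511718) (nat_lit 152) (nat_lit 19779329142) (nat_lit 76) (nat_lit 9814929487) (nat_lit 6) (nat_lit 5) (nat_lit 8) (nat_lit 5) (nat_lit 7) (nat_lit 4) (nat_lit 278) (nat_lit 244) (nat_lit 198)) (XT.lf (nat_lit 0) (nat_lit 7017606178) (nat_lit 152) (nat_lit 12029603161) (nat_lit 76) (nat_lit 15978401899) (nat_lit 6) (nat_lit 5) (nat_lit 8) (nat_lit 5) (nat_lit 7) (nat_lit 4) (nat_lit 279) (nat_lit 244) (nat_lit 197)))) (XT.nd (nat_lit 78) (nat_lit 76) (nat_lit 0) (XT.lf (nat_lit 0) (nat_lit 11050188480) (nat_lit 152) (nat_lit 3696267617) (nat_lit 76) (nat_lit 22622245730) (nat_lit 6) (nat_lit 5) (nat_lit 8) (nat_lit 5) (nat_lit 7) (nat_lit 4) (nat_lit 280) (nat_lit 244) (nat_lit 196)) (XT.nd (nat_lit 78) (nat_lit 0) (nat_lit 0) (XT.lf (nat_lit 0) (nat_lit 5547572251) (nat_lit 76) (nat_lit 9971002402) (nat_lit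 152) (nat_lit 24371678900) (nat_lit 5) (nat_lit 5) (nat_lit 6) (nat_lit 5) (nat_lit 7) (nat_lit 4) (nat_lit 281) (nat_lit 244) (nat_lit 195)) (XT.lf (nat_lit 0) (nat_lit 15708307293) (nat_lit 76) (nat_lit 4717673530) (nat_lit 152) (nat_lit 22181089182) (nat_lit 5) (nat_lit 5) (nat_lit 6) (nat_lit 5) (nat_lit 7) (nat_lit 4) (nat_lit 282) (nat_lit 244) (nat_lit 194)))))) (XT.nd (nat_lit 468) (nat_lit 152) (nat_lit 0) (XT.nd (nat_lit 234) (nat_lit 76) (nat_lit 0) (XT.nd (nat_lit 78) (nat_lit 0) (nat_lit 0) (XT.lf (nat_lit 0) (nat_lit 25730605093) (nat_lit 152) (nat_lit 18913920150) (nat_lit 0) (nat_lit 896396215) (nat_lit 5) (nat_lit 5) (nat_lit 7) (nat_lit 4) (nat_lit 5) (nat_lit 4) (nat_lit 283) (nat_lit 244) (nat_lit 193)) (XT.nd (nat_lit 78) (nat_lit 0) (nat_lit 0) (XT.lf (nat_lit 0) (nat_lit 31565132268) (nat_lit 152) (nat_lit 10442086027) (nat_lit 0) (nat_lit 6693875406) (nat_lit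 5) (nat_lit 5) (nat_lit 7) (nat_lit 4) (nat_lit 5) (nat_lit 4) (nat_lit 284) (nat_lit 244) (nat_lit 192)) (XT.lf (nat_lit 0) (nat_lit 37850677163) (nat_lit 152) (nat_lit 1319596718) (nat_lit 0) (nat_lit 12945116611) (nat_lit 5) (nat_lit 5) (nat_lit 7) (nat_lit 4) (nat_lit 5) (nat_lit 4) (nat_lit 285) (nat_lit 244) (nat_lit 191)))) (XT.nd (nat_lit 78) (nat_lit 0) (nat_lit 0) (XT.lf (nat_lit 0) (nat_lit 8955602476) (nat_lit 76) (nat_lit 35884267428) (nat_lit 76) (nat_lit 10946944202) (nat_lit 4) (nat_lit 4) (nat_lit 5) (nat_lit 5) (nat_lit 5) (nat_lit 4) (nat_lit 286) (nat_lit 244) (nat_lit 190)) (XT.nd (nat_lit 78) (nat_lit 0) (nat_lit 0) (XT.lf (nat_lit 0) (nat_lit 20103414535) (nat_lit 76) (nat_lit 32306777296) (nat_lit 76) (nat_lit 7340044185) (nat_lit 4) (nat_lit 4) (nat_lit 5) (nat_lit 5) (nat_lit 5) (nat_lit 4) (nat_lit 287) (nat_lit 244) (nat_lit 189)) (XT.lf (nat_lit 0) (nat_lit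 32120412942) (nat_lit 76) (nat_lit 28452683654) (nat_lit 76) (nat_lit 3458719169) (nat_lit 4) (nat_lit 4) (nat_lit 5) (nat_lit 5) (nat_lit 5) (nat_lit 4) (nat_lit 288) (nat_lit 244) (nat_lit 188))))) (XT.nd (nat_lit 234) (nat_lit 76) (nat_lit 0) (XT.nd (nat_lit 78) (nat_lit 0) (nat_lit 0) (XT.lf (nat_lit 0) (nat_lit 684012407) (nat_lit 152) (nat_lit 23596432912) (nat_lit 76) (nat_lit 44375095020) (nat_lit 3) (nat_lit 5) (nat_lit 5) (nat_lit 5) (nat_lit 4) (nat_lit 4) (nat_lit 289) (nat_lit 244) (nat_lit 187)) (XT.nd (nat_lit 78) (nat_lit 0) (nat_lit 0) (XT.lf (nat_lit 0) (nat_lit 4959796083) (nat_lit 152) (nat_lit 14726149380) (nat_lit 76) (nat_lit 53956983200) (nat_lit 3) (nat_lit 5) (nat_lit 5) (nat_lit 5) (nat_lit 4) (nat_lit 4) (nat_lit 290) (nat_lit 244) (nat_lit 186)) (XT.lf (nat_lit 0) (nat_lit 9566988977) (nat_lit 152) (nat_lit 5164805305) (nat_lit 76) (nat_lit 64298395932)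 (nat_lit 3) (nat_lit 5) (nat_lit 5) (nat_lit 5) (nat_lit 4) (nat_lit 4) (nat_lit 291) (nat_lit 244) (nat_lit 185)))) (XT.nd (nat_lit 78) (nat_lit 0) (nat_lit 0) (XT.lf (nat_lit 0) (nat_lit 5415146699) (nat_lit 76) (nat_lit 9247980680) (nat_lit 152) (nat_lit 70175703371) (nat_lit 2) (nat_lit 5) (nat_lit 3) (nat_lit 5) (nat_lit 4) (nat_lit 4) (nat_lit 292) (nat_lit 244) (nat_lit 184)) (XT.nd (nat_lit 78) (nat_lit 0) (nat_lit 0) (XT.lf (nat_lit 0) (nat_lit 17118469869) (nat_lit 76) (nat_lit 3180165388) (nat_lit 152) (nat_lit 70803018620) (nat_lit 2) (nat_lit 5) (nat_lit 3) (nat_lit 5) (nat_lit 4) (nat_lit 4) (nat_lit 293) (nat_lit 244) (nat_lit 183)) (XT.lf (nat_lit 0) (nat_lit 26457115507) (nat_lit 152) (nat_lit 68204647107) (nat_lit 0) (nat_lit 3197993422) (nat_lit 2) (nat_lit 5) (nat_lit 4) (nat_lit 4) (nat_lit 2) (nat_lit 4) (nat_lit 294) (nat_lit 244) (nat_lit 182))))))) (XT.nd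 (nat_lit 936) (nat_lit 0) (nat_lit 0) (XT.nd (nat_lit 468) (nat_lit 76) (nat_lit 0) (XT.nd (nat_lit 234) (nat_lit 0) (nat_lit 0) (XT.nd (nat_lit 78) (nat_lit 0) (nat_lit 0) (XT.lf (nat_lit 0) (nat_lit 33182551063) (nat_lit 152) (nat_lit 62061318404) (nat_lit 0) (nat_lit 9908716714) (nat_lit 2) (nat_lit 5) (nat_lit 4) (nat_lit 4) (nat_lit 2) (nat_lit 4) (nat_lit 295) (nat_lit 244) (nat_lit 181)) (XT.nd (nat_lit 78) (nat_lit 0) (nat_lit 0) (XT.lf (nat_lit 0) (nat_lit 40438313306) (nat_lit 152) (nat_lit 55440309934) (nat_lit 0) (nat_lit 17150856490) (nat_lit 2) (nat_lit 5) (nat_lit 4) (nat_lit 4) (nat_lit 2) (nat_lit 4) (nat_lit 296) (nat_lit 244) (nat_lit 180)) (XT.lf (nat_lit 0) (nat_lit 48267399343) (nat_lit 152) (nat_lit 48302386091) (nat_lit 0) (nat_lit 24967329132) (nat_lit 2) (nat_lit 5) (nat_lit 4) (nat_lit 4) (nat_lit 2) (nat_lit 4) (nat_lit 297) (nat_lit 244) (nat_lit 179))))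 (XT.nd (nat_lit 78) (nat_lit 0) (nat_lit 0) (XT.lf (nat_lit 0) (nat_lit 56716203760) (nat_lit 152) (nat_lit 40605248067) (nat_lit 0) (nat_lit 33404454479) (nat_lit 2) (nat_lit 5) (nat_lit 4) (nat_lit 4) (nat_lit 2) (nat_lit 4) (nat_lit 298) (nat_lit 244) (nat_lit 178)) (XT.nd (nat_lit 78) (nat_lit 0) (nat_lit 0) (XT.lf (nat_lit 0) (nat_lit 65834793545) (nat_lit 152) (nat_lit 32303283193) (nat_lit 0) (nat_lit 42512230311) (nat_lit 2) (nat_lit 5) (nat_lit 4) (nat_lit 4) (nat_lit 2) (nat_lit 4) (nat_lit 299) (nat_lit 244) (nat_lit 177)) (XT.lf (nat_lit 0) (nat_lit 75677204786) (nat_lit 152) (nat_lit 23347294639) (nat_lit 0) (nat_lit 52344628632) (nat_lit 2) (nat_lit 5) (nat_lit 4) (nat_lit 4) (nat_lit 2) (nat_lit 4) (nat_lit 300) (nat_lit 244) (nat_lit 176))))) (XT.nd (nat_lit 234) (nat_lit 0) (nat_lit 0) (XT.nd (nat_lit 78) (nat_lit 76) (nat_lit 0) (XT.lf (nat_lit 0) (nat_lit 86301762884)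 (nat_lit 152) (nat_lit 13684209881) (nat_lit 0) (nat_lit 62959915507) (nat_lit 2) (nat_lit 5) (nat_lit 4) (nat_lit 4) (nat_lit 2) (nat_lit 4) (nat_lit 301) (nat_lit 244) (nat_lit 175)) (XT.nd (nat_lit 78) (nat_lit 76) (nat_lit 0) (XT.lf (nat_lit 0) (nat_lit 97771428181) (nat_lit 152) (nat_lit 3256766195) (nat_lit 0) (nat_lit 74420996340) (nat_lit 2) (nat_lit 5) (nat_lit 4) (nat_lit 4) (nat_lit 2) (nat_lit 4) (nat_lit 302) (nat_lit 244) (nat_lit 174)) (XT.lf (nat_lit 0) (nat_lit 8417927505) (nat_lit 76) (nat_lit 101938692919) (nat_lit 76) (nat_lit 78580312499) (nat_lit 1) (nat_lit 4) (nat_lit 2) (nat_lit 5) (nat_lit 2) (nat_lit 4) (nat_lit 303) (nat_lit 244) (nat_lit 173)))) (XT.nd (nat_lit 78) (nat_lit 0) (nat_lit 0) (XT.lf (nat_lit 0) (nat_lit 21203971227) (nat_lit 76) (nat_lit 102829349533) (nat_lit 76) (nat_lit 79463609318) (nat_lit 1) (nat_lit 4) (nat_lit 2) (nat_lit 5) (nat_lit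 2) (nat_lit 4) (nat_lit 304) (nat_lit 244) (nat_lit 172)) (XT.nd (nat_lit 78) (nat_lit 0) (nat_lit 0) (XT.lf (nat_lit 0) (nat_lit 35005638582) (nat_lit 76) (nat_lit 103794487943) (nat_lit 76) (nat_lit 80421933103) (nat_lit 1) (nat_lit 4) (nat_lit 2) (nat_lit 5) (nat_lit 2) (nat_lit 4) (nat_lit 305) (nat_lit 244) (nat_lit 171)) (XT.lf (nat_lit 0) (nat_lit 49904717228) (nat_lit 76) (nat_lit 104839827487) (nat_lit 76) (nat_lit 81460962809) (nat_lit 1) (nat_lit 4) (nat_lit 2) (nat_lit 5) (nat_lit 2) (nat_lit 4) (nat_lit 306) (nat_lit 244) (nat_lit 170)))))) (XT.nd (nat_lit 468) (nat_lit 0) (nat_lit 0) (XT.nd (nat_lit 234) (nat_lit 0) (nat_lit 0) (XT.nd (nat_lit 78) (nat_lit 0) (nat_lit 0) (XT.lf (nat_lit 0) (nat_lit 65989498002) (nat_lit 76) (nat_lit 105971562770) (nat_lit 76) (nat_lit 82586855650) (nat_lit 1) (nat_lit 4) (nat_lit 2) (nat_lit 5) (nat_lit 2) (nat_lit 4) (nat_lit 307) (nat_lit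 244) (nat_lit 169)) (XT.nd (nat_lit 78) (nat_lit 0) (nat_lit 0) (XT.lf (nat_lit 0) (nat_lit 83355298122) (nat_lit 76) (nat_lit 107196400371) (nat_lit 76) (nat_lit 83806283582) (nat_lit 1) (nat_lit 4) (nat_lit 2) (nat_lit 5) (nat_lit 2) (nat_lit 4) (nat_lit 308) (nat_lit 244) (nat_lit 168)) (XT.lf (nat_lit 0) (nat_lit 102105026036) (nat_lit 76) (nat_lit 108521598588) (nat_lit 76) (nat_lit 85126472846) (nat_lit 1) (nat_lit 4) (nat_lit 2) (nat_lit 5) (nat_lit 2) (nat_lit 4) (nat_lit 309) (nat_lit 244) (nat_lit 167)))) (XT.nd (nat_lit 78) (nat_lit 0) (nat_lit 0) (XT.lf (nat_lit 0) (nat_lit 122349791240) (nat_lit 76) (nat_lit 109955010447) (nat_lit 76) (nat_lit 86555246786) (nat_lit 1) (nat_lit 4) (nat_lit 2) (nat_lit 5) (nat_lit 2) (nat_lit 4) (nat_lit 310) (nat_lit 244) (nat_lit 166)) (XT.nd (nat_lit 78) (nat_lit 0) (nat_lit 0) (XT.lf (nat_lit 0) (nat_lit 144209562714) (nat_lit 76) (nat_lit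 111505130240) (nat_lit 76) (nat_lit 88101072209) (nat_lit 1) (nat_lit 4) (nat_lit 2) (nat_lit 5) (nat_lit 2) (nat_lit 4) (nat_lit 311) (nat_lit 244) (nat_lit 165)) (XT.lf (nat_lit 0) (nat_lit 167813879844) (nat_lit 76) (nat_lit 113181143862) (nat_lit 76) (nat_lit 89773109563) (nat_lit 1) (nat_lit 4) (nat_lit 2) (nat_lit 5) (nat_lit 2) (nat_lit 4) (nat_lit 312) (nat_lit 244) (nat_lit 164))))) (XT.nd (nat_lit 234) (nat_lit 0) (nat_lit 0) (XT.nd (nat_lit 78) (nat_lit 0) (nat_lit 0) (XT.lf (nat_lit 0) (nat_lit 193302620066) (nat_lit 76) (nat_lit 114992983247) (nat_lit 76) (nat_lit 91581267218) (nat_lit 1) (nat_lit 4) (nat_lit 2) (nat_lit 5) (nat_lit 2) (nat_lit 4) (nat_lit 313) (nat_lit 244) (nat_lit 163)) (XT.nd (nat_lit 78) (nat_lit 0) (nat_lit 0) (XT.lf (nat_lit 0) (nat_lit 220826827766) (nat_lit 76) (nat_lit 116951385219) (nat_lit 76) (nat_lit 93536260181) (nat_lit 1) (nat_lit 4)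 (nat_lit 2) (nat_lit 5) (nat_lit 2) (nat_lit 4) (nat_lit 314) (nat_lit 244) (nat_lit 162)) (XT.lf (nat_lit 0) (nat_lit 250549609360) (nat_lit 76) (nat_lit 119067955124) (nat_lit 76) (nat_lit 95649673596) (nat_lit 1) (nat_lit 4) (nat_lit 2) (nat_lit 5) (nat_lit 2) (nat_lit 4) (nat_lit 315) (nat_lit 244) (nat_lit 161)))) (XT.nd (nat_lit 78) (nat_lit 0) (nat_lit 0) (XT.lf (nat_lit 0) (nat_lit 282647099850) (nat_lit 76) (nat_lit 121355235599) (nat_lit 76) (nat_lit 97934031395) (nat_lit 1) (nat_lit 4) (nat_lit 2) (nat_lit 5) (nat_lit 2) (nat_lit 4) (nat_lit 316) (nat_lit 244) (nat_lit 160)) (XT.nd (nat_lit 78) (nat_lit 0) (nat_lit 0) (XT.lf (nat_lit 0) (nat_lit 317309506586) (nat_lit 76) (nat_lit 123826780898) (nat_lit 76) (nat_lit 100402870513) (nat_lit 1) (nat_lit 4) (nat_lit 2) (nat_lit 5) (nat_lit 2) (nat_lit 4) (nat_lit 317) (nat_lit 244) (nat_lit 159)) (XT.lf (nat_lit 0) (nat_lit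 354742236425) (nat_lit 76) (nat_lit 126497237216) (nat_lit 76) (nat_lit 103070821107) (nat_lit 1) (nat_lit 4) (nat_lit 2) (nat_lit 5) (nat_lit 2) (nat_lit 4) (nat_lit 318) (nat_lit 244) (nat_lit 158))))))))
noncomputable def xc59 : XT := (XT.nd (nat_lit 32292) (nat_lit 0) (nat_lit 532) (XT.nd (nat_lit 936) (nat_lit 0) (nat_lit 0) (XT.nd (nat_lit 468) (nat_lit 0) (nat_lit 0) (XT.nd (nat_lit 234) (nat_lit 0) (nat_lit 0) (XT.nd (nat_lit 78) (nat_lit 0) (nat_lit 0) (XT.lf (nat_lit 0) (nat_lit 395167112949) (nat_lit 76) (nat_lit 129382429478) (nat_lit 76) (nat_lit 105953693255) (nat_lit 1) (nat_lit 4) (nat_lit 2) (nat_lit 5) (nat_lit 2) (nat_lit 4) (nat_lit 319) (nat_lit 244) (nat_lit 157)) (XT.nd (nat_lit 78) (nat_lit 0) (nat_lit 0) (XT.lf (nat_lit 0) (nat_lit 438823690983) (nat_lit 76) (nat_lit 132499455121) (nat_lit 76) (nat_lit 109068570644) (nat_lit 1) (nat_lit 4) (nat_lit 2) (nat_lit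 5) (nat_lit 2) (nat_lit 4) (nat_lit 320) (nat_lit 244) (nat_lit 156)) (XT.lf (nat_lit 0) (nat_lit 485970676174) (nat_lit 76) (nat_lit 135866785407) (nat_lit 76) (nat_lit 112433911806) (nat_lit 1) (nat_lit 4) (nat_lit 2) (nat_lit 5) (nat_lit 2) (nat_lit 4) (nat_lit 321) (nat_lit 244) (nat_lit 155)))) (XT.nd (nat_lit 78) (nat_lit 0) (nat_lit 0) (XT.lf (nat_lit 0) (nat_lit 536887458065) (nat_lit 76) (nat_lit 139504374886) (nat_lit 76) (nat_lit 116069659504) (nat_lit 1) (nat_lit 4) (nat_lit 2) (nat_lit 5) (nat_lit 2) (nat_lit 4) (nat_lit 322) (nat_lit 244) (nat_lit 154)) (XT.nd (nat_lit 78) (nat_lit 0) (nat_lit 0) (XT.lf (nat_lit 0) (nat_lit 591875765733) (nat_lit 76) (nat_lit 143433779645) (nat_lit 76) (nat_lit 119997358909) (nat_lit 1) (nat_lit 4) (nat_lit 2) (nat_lit 5) (nat_lit 2) (nat_lit 4) (nat_lit 323) (nat_lit 244) (nat_lit 153)) (XT.lf (nat_lit 0) (nat_lit 651261455815) (nat_lit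 76) (nat_lit 147678285045) (nat_lit 76) (nat_lit 124240285278) (nat_lit 1) (nat_lit 4) (nat_lit 2) (nat_lit 5) (nat_lit 2) (nat_lit 4) (nat_lit 324) (nat_lit 244) (nat_lit 152))))) (XT.nd (nat_lit 234) (nat_lit 0) (nat_lit 0) (XT.nd (nat_lit 78) (nat_lit 0) (nat_lit 0) (XT.lf (nat_lit 0) (nat_lit 715396443514) (nat_lit 76) (nat_lit 152263043709) (nat_lit 76) (nat_lit 128823581877) (nat_lit 1) (nat_lit 4) (nat_lit 2) (nat_lit 5) (nat_lit 2) (nat_lit 4) (nat_lit 325) (nat_lit 244) (nat_lit 151)) (XT.nd (nat_lit 78) (nat_lit 0) (nat_lit 0) (XT.lf (nat_lit 0) (nat_lit 784660788014) (nat_lit 76) (nat_lit 157215224580) (nat_lit 76) (nat_lit 133774408983) (nat_lit 1) (nat_lit 4) (nat_lit 2) (nat_lit 5) (nat_lit 2) (nat_lit 4) (nat_lit 326) (nat_lit 244) (nat_lit 150)) (XT.lf (nat_lit 0) (nat_lit 859464944692) (nat_lit 76) (nat_lit 162564173913) (nat_lit 76) (nat_lit 139122104830) (nat_lit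 1) (nat_lit 4) (nat_lit 2) (nat_lit 5) (nat_lit 2) (nat_lit 4) (nat_lit 327) (nat_lit 244) (nat_lit 149)))) (XT.nd (nat_lit 78) (nat_lit 0) (nat_lit 0) (XT.lf (nat_lit 0) (nat_lit 940252197437) (nat_lit 76) (nat_lit 168341589185) (nat_lit 76) (nat_lit 144898359469) (nat_lit 1) (nat_lit 4) (nat_lit 2) (nat_lit 5) (nat_lit 2) (nat_lit 4) (nat_lit 328) (nat_lit 244) (nat_lit 148)) (XT.nd (nat_lit 78) (nat_lit 0) (nat_lit 0) (XT.lf (nat_lit 0) (nat_lit 1027501285526) (nat_lit 76) (nat_lit 174581706933) (nat_lit 76) (nat_lit 151137402555) (nat_lit 1) (nat_lit 4) (nat_lit 2) (nat_lit 5) (nat_lit 2) (nat_lit 4) (nat_lit 329) (nat_lit 244) (nat_lit 147)) (XT.lf (nat_lit 0) (nat_lit 1121729240593) (nat_lit 76) (nat_lit 181321505632) (nat_lit 76) (nat_lit 157876206196) (nat_lit 1) (nat_lit 4) (nat_lit 2) (nat_lit 5) (nat_lit 2) (nat_lit 4) (nat_lit 330) (nat_lit 244) (nat_lit 146)))))) (XT.nd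 (nat_lit 30888) (nat_lit 0) (nat_lit 2736) (XT.nd (nat_lit 234) (nat_lit 0) (nat_lit 0) (XT.nd (nat_lit 78) (nat_lit 0) (nat_lit 0) (XT.lf (nat_lit 0) (nat_lit 1223494450518) (nat_lit 76) (nat_lit 188600924829) (nat_lit 76) (nat_lit 165154704043) (nat_lit 1) (nat_lit 4) (nat_lit 2) (nat_lit 5) (nat_lit 2) (nat_lit 4) (nat_lit 331) (nat_lit 244) (nat_lit 145)) (XT.nd (nat_lit 78) (nat_lit 0) (nat_lit 0) (XT.lf (nat_lit 0) (nat_lit 1333399968397) (nat_lit 76) (nat_lit 196463101823) (nat_lit 76) (nat_lit 173016027936) (nat_lit 1) (nat_lit 4) (nat_lit 2) (nat_lit 5) (nat_lit 2) (nat_lit 4) (nat_lit 332) (nat_lit 244) (nat_lit 144)) (XT.lf (nat_lit 0) (nat_lit 1452097086189) (nat_lit 76) (nat_lit 204954627293) (nat_lit 76) (nat_lit 181506763498) (nat_lit 1) (nat_lit 4) (nat_lit 2) (nat_lit 5) (nat_lit 2) (nat_lit 4) (nat_lit 333) (nat_lit 244) (nat_lit 143)))) (XT.nd (nat_lit 78) (nat_lit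 0) (nat_lit 0) (XT.lf (nat_lit 0) (nat_lit 1580289194221) (nat_lit 76) (nat_lit 214125821390) (nat_lit 76) (nat_lit 190677226198) (nat_lit 1) (nat_lit 4) (nat_lit 2) (nat_lit 5) (nat_lit 2) (nat_lit 4) (nat_lit 334) (nat_lit 244) (nat_lit 142)) (XT.nd (nat_lit 30498) (nat_lit 0) (nat_lit 3040) (XT.lf (nat_lit 0) (nat_lit 1718735949430) (nat_lit 76) (nat_lit 224031031930) (nat_lit 76) (nat_lit 200581759519) (nat_lit 1) (nat_lit 4) (nat_lit 2) (nat_lit 5) (nat_lit 2) (nat_lit 4) (nat_lit 335) (nat_lit 244) (nat_lit 141)) (XT.lf (nat_lit 0) (nat_lit 469924674) (nat_lit 380) (nat_lit 1563112183) (nat_lit 380) (nat_lit 1563112183) (nat_lit 41) (nat_lit 3) (nat_lit 46) (nat_lit 3) (nat_lit 46) (nat_lit 5) (nat_lit 245) (nat_lit 245) (nat_lit 230))))) (XT.nd (nat_lit 234) (nat_lit 304) (nat_lit 0) (XT.nd (nat_lit 78) (nat_lit 0) (nat_lit 0) (XT.lf (nat_lit 0) (nat_lit 2402015426) (nat_lit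 380) (nat_lit 112695992) (nat_lit 380) (nat_lit 4838341909) (nat_lit 41) (nat_lit 3) (nat_lit 46) (nat_lit 3) (nat_lit 46) (nat_lit 5) (nat_lit 246) (nat_lit 245) (nat_lit 229)) (XT.nd (nat_lit 78) (nat_lit 0) (nat_lit 76) (XT.lf (nat_lit 76) (nat_lit 3225662607) (nat_lit 0) (nat_lit 690543713) (nat_lit 380) (nat_lit 3616956262) (nat_lit 42) (nat_lit 5) (nat_lit 41) (nat_lit 3) (nat_lit 46) (nat_lit 5) (nat_lit 247) (nat_lit 245) (nat_lit 228)) (XT.lf (nat_lit 0) (nat_lit 5453077873) (nat_lit 304) (nat_lit 1009739210) (nat_lit 380) (nat_lit 1273941452) (nat_lit 42) (nat_lit 5) (nat_lit 46) (nat_lit 5) (nat_lit 47) (nat_lit 5) (nat_lit 248) (nat_lit 245) (nat_lit 227)))) (XT.nd (nat_lit 78) (nat_lit 380) (nat_lit 0) (XT.lf (nat_lit 76) (nat_lit 2580638412) (nat_lit 0) (nat_lit 4489678630) (nat_lit 380) (nat_lit 890844273) (nat_lit 43) (nat_lit 5) (nat_lit 42) (nat_lit 5) (nat_lit 47)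 (nat_lit 5) (nat_lit 249) (nat_lit 245) (nat_lit 226)) (XT.nd (nat_lit 78) (nat_lit 0) (nat_lit 76) (XT.lf (nat_lit 0) (nat_lit 491648396) (nat_lit 380) (nat_lit 1788624961) (nat_lit 456) (nat_lit 5930303394) (nat_lit 37) (nat_lit 5) (nat_lit 42) (nat_lit 5) (nat_lit 43) (nat_lit 5) (nat_lit 250) (nat_lit 245) (nat_lit 225)) (XT.lf (nat_lit 0) (nat_lit 1881500687) (nat_lit 380) (nat_lit 6397910114) (nat_lit 76) (nat_lit 203975605) (nat_lit 38) (nat_lit 5) (nat_lit 43) (nat_lit 5) (nat_lit 39) (nat_lit 5) (nat_lit 251) (nat_lit 245) (nat_lit 224))))))) (XT.nd (nat_lit 936) (nat_lit 684) (nat_lit 0) (XT.nd (nat_lit 468) (nat_lit 456) (nat_lit 0) (XT.nd (nat_lit 234) (nat_lit 760) (nat_lit 0) (XT.nd (nat_lit 78) (nat_lit 380) (nat_lit 0) (XT.lf (nat_lit 0) (nat_lit 3388277226) (nat_lit 380) (nat_lit 2552132333) (nat_lit 76) (nat_lit 2837970169) (nat_lit 38) (nat_lit 5) (nat_lit 43) (nat_lit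 5) (nat_lit 39) (nat_lit 5) (nat_lit 252) (nat_lit 245) (nat_lit 223)) (XT.nd (nat_lit 78) (nat_lit 0) (nat_lit 0) (XT.lf (nat_lit 0) (nat_lit 1599124531) (nat_lit 380) (nat_lit 3358943090) (nat_lit 456) (nat_lit 4144264360) (nat_lit 33) (nat_lit 5) (nat_lit 38) (nat_lit 5) (nat_lit 39) (nat_lit 5) (nat_lit 253) (nat_lit 245) (nat_lit 222)) (XT.lf (nat_lit 0) (nat_lit 6147526598) (nat_lit 380) (nat_lit 484891044) (nat_lit 456) (nat_lit 2822165776) (nat_lit 33) (nat_lit 5) (nat_lit 38) (nat_lit 5) (nat_lit 39) (nat_lit 5) (nat_lit 254) (nat_lit 245) (nat_lit 221)))) (XT.nd (nat_lit 78) (nat_lit 304) (nat_lit 0) (XT.lf (nat_lit 0) (nat_lit 1136890671) (nat_lit 456) (nat_lit 7310317464) (nat_lit 532) (nat_lit 1387936618) (nat_lit 27) (nat_lit 5) (nat_lit 33) (nat_lit 5) (nat_lit 34) (nat_lit 5) (nat_lit 255) (nat_lit 245) (nat_lit 220)) (XT.nd (nat_lit 78) (nat_lit 228) (nat_lit 0) (XT.lf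 (nat_lit 0) (nat_lit 176156747) (nat_lit 532) (nat_lit 4217895914) (nat_lit 76) (nat_lit 5850490574) (nat_lit 26) (nat_lit 5) (nat_lit 33) (nat_lit 5) (nat_lit 27) (nat_lit 5) (nat_lit 256) (nat_lit 245) (nat_lit 219)) (XT.lf (nat_lit 0) (nat_lit 533187006) (nat_lit 228) (nat_lit 1193934046) (nat_lit 304) (nat_lit 8962265613) (nat_lit 23) (nat_lit 5) (nat_lit 26) (nat_lit 5) (nat_lit 27) (nat_lit 5) (nat_lit 257) (nat_lit 245) (nat_lit 218))))) (XT.nd (nat_lit 234) (nat_lit 304) (nat_lit 0) (XT.nd (nat_lit 78) (nat_lit 152) (nat_lit 0) (XT.lf (nat_lit 0) (nat_lit 3502496717) (nat_lit 304) (nat_lit 5396267022) (nat_lit 76) (nat_lit 2263504259) (nat_lit 23) (nat_lit 5) (nat_lit 27) (nat_lit 5) (nat_lit 24) (nat_lit 5) (nat_lit 258) (nat_lit 245) (nat_lit 217)) (XT.nd (nat_lit 78) (nat_lit 152) (nat_lit 0) (XT.lf (nat_lit 0) (nat_lit 5383884263) (nat_lit 304) (nat_lit 362945677) (nat_lit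 76) (nat_lit 5929473174) (nat_lit 23) (nat_lit 5) (nat_lit 27) (nat_lit 5) (nat_lit 24) (nat_lit 5) (nat_lit 259) (nat_lit 245) (nat_lit 216)) (XT.lf (nat_lit 0) (nat_lit 5265718154) (nat_lit 152) (nat_lit 2214641003) (nat_lit 228) (nat_lit 4746344868) (nat_lit 21) (nat_lit 5) (nat_lit 23) (nat_lit 5) (nat_lit 24) (nat_lit 5) (nat_lit 260) (nat_lit 245) (nat_lit 215)))) (XT.nd (nat_lit 78) (nat_lit 304) (nat_lit 0) (XT.lf (nat_lit 0) (nat_lit 9733855131) (nat_lit 228) (nat_lit 1567585359) (nat_lit 76) (nat_lit 1520931064) (nat_lit 21) (nat_lit 5) (nat_lit 24) (nat_lit 5) (nat_lit 22) (nat_lit 5) (nat_lit 261) (nat_lit 245) (nat_lit 214)) (XT.nd (nat_lit 78) (nat_lit 76) (nat_lit 0) (XT.lf (nat_lit 0) (nat_lit 4348967366) (nat_lit 228) (nat_lit 7925815212) (nat_lit 304) (nat_lit 1182688494) (nat_lit 18) (nat_lit 5) (nat_lit 21) (nat_lit 5) (nat_lit 22) (nat_lit 5) (nat_lit 262) (nat_lit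 245) (nat_lit 213)) (XT.lf (nat_lit 0) (nat_lit 821611245) (nat_lit 304) (nat_lit 3403899331) (nat_lit 76) (nat_lit 9917299452) (nat_lit 17) (nat_lit 5) (nat_lit 21) (nat_lit 5) (nat_lit 18) (nat_lit 5) (nat_lit 263) (nat_lit 245) (nat_lit 212)))))) (XT.nd (nat_lit 468) (nat_lit 304) (nat_lit 0) (XT.nd (nat_lit 234) (nat_lit 76) (nat_lit 0) (XT.nd (nat_lit 78) (nat_lit 152) (nat_lit 0) (XT.lf (nat_lit 0) (nat_lit 2801913276) (nat_lit 152) (nat_lit 137677330) (nat_lit 228) (nat_lit 11939827859) (nat_lit 15) (nat_lit 5) (nat_lit 17) (nat_lit 5) (nat_lit 18) (nat_lit 5) (nat_lit 264) (nat_lit 245) (nat_lit 211)) (XT.nd (nat_lit 78) (nat_lit 152) (nat_lit 0) (XT.lf (nat_lit 0) (nat_lit 5377045782) (nat_lit 228) (nat_lit 6141721573) (nat_lit 76) (nat_lit 4144443023) (nat_lit 15) (nat_lit 5) (nat_lit 18) (nat_lit 5) (nat_lit 16) (nat_lit 5) (nat_lit 265) (nat_lit 245) (nat_lit 210)) (XT.lf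 (nat_lit 0) (nat_lit 214308694) (nat_lit 152) (nat_lit 7759182836) (nat_lit 228) (nat_lit 8539333284) (nat_lit 13) (nat_lit 5) (nat_lit 15) (nat_lit 5) (nat_lit 16) (nat_lit 5) (nat_lit 266) (nat_lit 245) (nat_lit 209)))) (XT.nd (nat_lit 78) (nat_lit 76) (nat_lit 0) (XT.lf (nat_lit 0) (nat_lit 7367909498) (nat_lit 152) (nat_lit 3534799024) (nat_lit 228) (nat_lit 6517916457) (nat_lit 13) (nat_lit 5) (nat_lit 15) (nat_lit 5) (nat_lit 16) (nat_lit 5) (nat_lit 267) (nat_lit 245) (nat_lit 208)) (XT.nd (nat_lit 78) (nat_lit 76) (nat_lit 0) (XT.lf (nat_lit 0) (nat_lit 14050894865) (nat_lit 228) (nat_lit 3390695392) (nat_lit 76) (nat_lit 960892990) (nat_lit 13) (nat_lit 5) (nat_lit 16) (nat_lit 5) (nat_lit 14) (nat_lit 4) (nat_lit 268) (nat_lit 245) (nat_lit 207)) (XT.lf (nat_lit 0) (nat_lit 3850720158) (nat_lit 76) (nat_lit 13747527476) (nat_lit 152) (nat_lit 1853047109) (nat_lit 12) (nat_lit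 5) (nat_lit 13) (nat_lit 5) (nat_lit 14) (nat_lit 4) (nat_lit 269) (nat_lit 245) (nat_lit 206))))) (XT.nd (nat_lit 234) (nat_lit 76) (nat_lit 0) (XT.nd (nat_lit 78) (nat_lit 152) (nat_lit 0) (XT.lf (nat_lit 0) (nat_lit 861474417) (nat_lit 152) (nat_lit 8790154698) (nat_lit 76) (nat_lit 10926247101) (nat_lit 11) (nat_lit 5) (nat_lit 13) (nat_lit 5) (nat_lit 12) (nat_lit 5) (nat_lit 270) (nat_lit 245) (nat_lit 205)) (XT.nd (nat_lit 78) (nat_lit 152) (nat_lit 0) (XT.lf (nat_lit 0) (nat_lit 3659036237) (nat_lit 152) (nat_lit 1534052326) (nat_lit 76) (nat_lit 16600516280) (nat_lit 11) (nat_lit 5) (nat_lit 13) (nat_lit 5) (nat_lit 12) (nat_lit 5) (nat_lit 271) (nat_lit 245) (nat_lit 204)) (XT.lf (nat_lit 0) (nat_lit 6584690364) (nat_lit 152) (nat_lit 222585013) (nat_lit 228) (nat_lit 16289305874) (nat_lit 9) (nat_lit 5) (nat_lit 11) (nat_lit 5) (nat_lit 12) (nat_lit 5) (nat_lit 272) (nat_lit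 245) (nat_lit 203)))) (XT.nd (nat_lit 78) (nat_lit 76) (nat_lit 0) (XT.lf (nat_lit 0) (nat_lit 10343513696) (nat_lit 228) (nat_lit 9233320531) (nat_lit 76) (nat_lit 4916199303) (nat_lit 9) (nat_lit 5) (nat_lit 12) (nat_lit 5) (nat_lit 10) (nat_lit 4) (nat_lit 273) (nat_lit 245) (nat_lit 202)) (XT.nd (nat_lit 78) (nat_lit 76) (nat_lit 0) (XT.lf (nat_lit 0) (nat_lit 14140058508) (nat_lit 228) (nat_lit 1422889846) (nat_lit 76) (nat_lit 10440180454) (nat_lit 9) (nat_lit 5) (nat_lit 12) (nat_lit 5) (nat_lit 10) (nat_lit 4) (nat_lit 274) (nat_lit 245) (nat_lit 201)) (XT.lf (nat_lit 0) (nat_lit 7338120903) (nat_lit 76) (nat_lit 11052415763) (nat_lit 152) (nat_lit 9231588828) (nat_lit 8) (nat_lit 5) (nat_lit 9) (nat_lit 5) (nat_lit 10) (nat_lit 4) (nat_lit 275) (nat_lit 245) (nat_lit 200))))))))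
noncomputable def xc60 : XT := (XT.nd (nat_lit 1794) (nat_lit 76) (nat_lit 0) (XT.nd (nat_lit 858) (nat_lit 228) (nat_lit 0) (XT.nd (nat_lit 390) (nat_lit 76) (nat_lit 0) (XT.nd (nat_lit 156) (nat_lit 152) (nat_lit 0) (XT.nd (nat_lit 78) (nat_lit 0) (nat_lit 0) (XT.lf (nat_lit 0) (nat_lit 16840643105) (nat_lit 76) (nat_lit 6154019183) (nat_lit 152) (nat_lit 6374993264) (nat_lit 8) (nat_lit 5) (nat_lit 9) (nat_lit 5) (nat_lit 10) (nat_lit 4) (nat_lit 276) (nat_lit 245) (nat_lit 199)) (XT.lf (nat_lit 0) (nat_lit 27066061145) (nat_lit 76) (nat_lit 877635409) (nat_lit 152) (nat_lit 3315259966) (nat_lit 8) (nat_lit 5) (nat_lit 9) (nat_lit 5) (nat_lit 10) (nat_lit 4) (nat_lit 277) (nat_lit 245) (nat_lit 198))) (XT.nd (nat_lit 78) (nat_lit 0) (nat_lit 0) (XT.lf (nat_lit 0) (nat_lit 207082489) (nat_lit 152) (nat_lit 28384380851) (nat_lit 76) (nat_lit 4690656747) (nat_lit 6) (nat_lit 5) (nat_lit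 8) (nat_lit 5) (nat_lit 7) (nat_lit 4) (nat_lit 278) (nat_lit 245) (nat_lit 197)) (XT.nd (nat_lit 78) (nat_lit 0) (nat_lit 0) (XT.lf (nat_lit 0) (nat_lit 3950677085) (nat_lit 152) (nat_lit 20652139733) (nat_lit 76) (nat_lit 10848020325) (nat_lit 6) (nat_lit 5) (nat_lit 8) (nat_lit 5) (nat_lit 7) (nat_lit 4) (nat_lit 279) (nat_lit 245) (nat_lit 196)) (XT.lf (nat_lit 0) (nat_lit 7973537292) (nat_lit 152) (nat_lit 12334993876) (nat_lit 76) (nat_lit 17486207828) (nat_lit 6) (nat_lit 5) (nat_lit 8) (nat_lit 5) (nat_lit 7) (nat_lit 4) (nat_lit 280) (nat_lit 245) (nat_lit 195))))) (XT.nd (nat_lit 234) (nat_lit 0) (nat_lit 0) (XT.nd (nat_lit 78) (nat_lit 76) (nat_lit 0) (XT.lf (nat_lit 0) (nat_lit 12299502280) (nat_lit 152) (nat_lit 3383656491) (nat_lit 76) (nat_lit 24644556663) (nat_lit 6) (nat_lit 5) (nat_lit 8) (nat_lit 5) (nat_lit 7) (nat_lit 4) (nat_lit 281) (nat_lit 245) (nat_lit 194))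 (XT.nd (nat_lit 78) (nat_lit 0) (nat_lit 0) (XT.lf (nat_lit 0) (nat_lit 6584290249) (nat_lit 76) (nat_lit 10528269487) (nat_lit 152) (nat_lit 25939548765) (nat_lit 5) (nat_lit 5) (nat_lit 6) (nat_lit 5) (nat_lit 7) (nat_lit 4) (nat_lit 282) (nat_lit 245) (nat_lit 193)) (XT.lf (nat_lit 0) (nat_lit 17513964671) (nat_lit 76) (nat_lit 4872482683) (nat_lit 152) (nat_lit 23601998124) (nat_lit 5) (nat_lit 5) (nat_lit 6) (nat_lit 5) (nat_lit 7) (nat_lit 4) (nat_lit 283) (nat_lit 245) (nat_lit 192)))) (XT.nd (nat_lit 78) (nat_lit 0) (nat_lit 0) (XT.lf (nat_lit 0) (nat_lit 28096221755) (nat_lit 152) (nat_lit 19898488140) (nat_lit 0) (nat_lit 1163912670) (nat_lit 5) (nat_lit 5) (nat_lit 7) (nat_lit 4) (nat_lit 5) (nat_lit 4) (nat_lit 284) (nat_lit 245) (nat_lit 191)) (XT.nd (nat_lit 78) (nat_lit 0) (nat_lit 0) (XT.lf (nat_lit 0) (nat_lit 34374757900) (nat_lit 152) (nat_lit 10788058814) (nat_lit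 0) (nat_lit 7410686140) (nat_lit 5) (nat_lit 5) (nat_lit 7) (nat_lit 4) (nat_lit 5) (nat_lit 4) (nat_lit 285) (nat_lit 245) (nat_lit 190)) (XT.lf (nat_lit 0) (nat_lit 41142078604) (nat_lit 152) (nat_lit 972021776) (nat_lit 0) (nat_lit 14148596961) (nat_lit 5) (nat_lit 5) (nat_lit 7) (nat_lit 4) (nat_lit 5) (nat_lit 4) (nat_lit 286) (nat_lit 245) (nat_lit 189)))))) (XT.nd (nat_lit 468) (nat_lit 76) (nat_lit 0) (XT.nd (nat_lit 234) (nat_lit 76) (nat_lit 0) (XT.nd (nat_lit 78) (nat_lit 0) (nat_lit 0) (XT.lf (nat_lit 0) (nat_lit 10113721388) (nat_lit 76) (nat_lit 38567800364) (nat_lit 76) (nat_lit 11547087346) (nat_lit 4) (nat_lit 4) (nat_lit 5) (nat_lit 5) (nat_lit 5) (nat_lit 4) (nat_lit 287) (nat_lit 245) (nat_lit 188)) (XT.nd (nat_lit 78) (nat_lit 0) (nat_lit 0) (XT.lf (nat_lit 0) (nat_lit 22120642062) (nat_lit 76) (nat_lit 34717978314) (nat_lit 76) (nat_lit 7672051061) (nat_lit 4)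 (nat_lit 4) (nat_lit 5) (nat_lit 5) (nat_lit 5) (nat_lit 4) (nat_lit 288) (nat_lit 245) (nat_lit 187)) (XT.lf (nat_lit 0) (nat_lit 35068707426) (nat_lit 76) (nat_lit 30568397268) (nat_lit 76) (nat_lit 3499123500) (nat_lit 4) (nat_lit 4) (nat_lit 5) (nat_lit 5) (nat_lit 5) (nat_lit 4) (nat_lit 289) (nat_lit 245) (nat_lit 186)))) (XT.nd (nat_lit 78) (nat_lit 0) (nat_lit 0) (XT.lf (nat_lit 0) (nat_lit 946578640) (nat_lit 152) (nat_lit 25122007337) (nat_lit 76) (nat_lit 48062186976) (nat_lit 3) (nat_lit 5) (nat_lit 5) (nat_lit 5) (nat_lit 4) (nat_lit 4) (nat_lit 290) (nat_lit 245) (nat_lit 185)) (XT.nd (nat_lit 78) (nat_lit 0) (nat_lit 0) (XT.lf (nat_lit 0) (nat_lit 5549029067) (nat_lit 152) (nat_lit 15568926323) (nat_lit 76) (nat_lit 58400471813) (nat_lit 3) (nat_lit 5) (nat_lit 5) (nat_lit 5) (nat_lit 4) (nat_lit 4) (nat_lit 291) (nat_lit 245) (nat_lit 184)) (XT.lf (nat_lit 0) (nat_lit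 10510541888) (nat_lit 152) (nat_lit 5267512870) (nat_lit 76) (nat_lit 69559795345) (nat_lit 3) (nat_lit 5) (nat_lit 5) (nat_lit 5) (nat_lit 4) (nat_lit 4) (nat_lit 292) (nat_lit 245) (nat_lit 183))))) (XT.nd (nat_lit 234) (nat_lit 0) (nat_lit 0) (XT.nd (nat_lit 78) (nat_lit 0) (nat_lit 0) (XT.lf (nat_lit 0) (nat_lit 6150975120) (nat_lit 76) (nat_lit 9857474641) (nat_lit 152) (nat_lit 75603242874) (nat_lit 2) (nat_lit 5) (nat_lit 3) (nat_lit 5) (nat_lit 4) (nat_lit 4) (nat_lit 293) (nat_lit 245) (nat_lit 182)) (XT.nd (nat_lit 78) (nat_lit 0) (nat_lit 0) (XT.lf (nat_lit 0) (nat_lit 18768148093) (nat_lit 76) (nat_lit 3313889273) (nat_lit 152) (nat_lit 76294559400) (nat_lit 2) (nat_lit 5) (nat_lit 3) (nat_lit 5) (nat_lit 4) (nat_lit 4) (nat_lit 294) (nat_lit 245) (nat_lit 181)) (XT.lf (nat_lit 0) (nat_lit 28724067961) (nat_lit 152) (nat_lit 73392048993) (nat_lit 0) (nat_lit 3559992133)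 (nat_lit 2) (nat_lit 5) (nat_lit 4) (nat_lit 4) (nat_lit 2) (nat_lit 4) (nat_lit 295) (nat_lit 245) (nat_lit 180)))) (XT.nd (nat_lit 78) (nat_lit 0) (nat_lit 0) (XT.lf (nat_lit 0) (nat_lit 35976398864) (nat_lit 152) (nat_lit 66777177688) (nat_lit 0) (nat_lit 10799709641) (nat_lit 2) (nat_lit 5) (nat_lit 4) (nat_lit 4) (nat_lit 2) (nat_lit 4) (nat_lit 296) (nat_lit 245) (nat_lit 179)) (XT.nd (nat_lit 78) (nat_lit 0) (nat_lit 0) (XT.lf (nat_lit 0) (nat_lit 43802307737) (nat_lit 152) (nat_lit 59644936406) (nat_lit 0) (nat_lit 18613939444) (nat_lit 2) (nat_lit 5) (nat_lit 4) (nat_lit 4) (nat_lit 2) (nat_lit 4) (nat_lit 297) (nat_lit 245) (nat_lit 178)) (XT.lf (nat_lit 0) (nat_lit 52248170334) (nat_lit 152) (nat_lit 51953060013) (nat_lit 0) (nat_lit 27048988088) (nat_lit 2) (nat_lit 5) (nat_lit 4) (nat_lit 4) (nat_lit 2) (nat_lit 4) (nat_lit 298) (nat_lit 245) (nat_lit 177))))))) (XT.nd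 (nat_lit 936) (nat_lit 0) (nat_lit 0) (XT.nd (nat_lit 468) (nat_lit 0) (nat_lit 0) (XT.nd (nat_lit 234) (nat_lit 76) (nat_lit 0) (XT.nd (nat_lit 78) (nat_lit 0) (nat_lit 0) (XT.lf (nat_lit 0) (nat_lit 61364036212) (nat_lit 152) (nat_lit 43655967019) (nat_lit 0) (nat_lit 36154841046) (nat_lit 2) (nat_lit 5) (nat_lit 4) (nat_lit 4) (nat_lit 2) (nat_lit 4) (nat_lit 299) (nat_lit 245) (nat_lit 176)) (XT.nd (nat_lit 78) (nat_lit 0) (nat_lit 0) (XT.lf (nat_lit 0) (nat_lit 71203925317) (nat_lit 152) (nat_lit 34704489465) (nat_lit 0) (nat_lit 45985458929) (nat_lit 2) (nat_lit 5) (nat_lit 4) (nat_lit 4) (nat_lit 2) (nat_lit 4) (nat_lit 300) (nat_lit 245) (nat_lit 175)) (XT.lf (nat_lit 0) (nat_lit 81826148103) (nat_lit 152) (nat_lit 25045581559) (nat_lit 0) (nat_lit 56599097250) (nat_lit 2) (nat_lit 5) (nat_lit 4) (nat_lit 4) (nat_lit 2) (nat_lit 4) (nat_lit 301) (nat_lit 245) (nat_lit 174))))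 (XT.nd (nat_lit 78) (nat_lit 76) (nat_lit 0) (XT.lf (nat_lit 0) (nat_lit 93293651075) (nat_lit 152) (nat_lit 14622005328) (nat_lit 0) (nat_lit 68058651643) (nat_lit 2) (nat_lit 5) (nat_lit 4) (nat_lit 4) (nat_lit 2) (nat_lit 4) (nat_lit 302) (nat_lit 245) (nat_lit 173)) (XT.nd (nat_lit 78) (nat_lit 76) (nat_lit 0) (XT.lf (nat_lit 0) (nat_lit 105674389806) (nat_lit 152) (nat_lit 3371991431) (nat_lit 0) (nat_lit 80432030580) (nat_lit 2) (nat_lit 5) (nat_lit 4) (nat_lit 4) (nat_lit 2) (nat_lit 4) (nat_lit 303) (nat_lit 245) (nat_lit 172)) (XT.lf (nat_lit 0) (nat_lit 9232998877) (nat_lit 76) (nat_lit 110030786606) (nat_lit 76) (nat_lit 84781612754) (nat_lit 1) (nat_lit 4) (nat_lit 2) (nat_lit 5) (nat_lit 2) (nat_lit 4) (nat_lit 304) (nat_lit 245) (nat_lit 171))))) (XT.nd (nat_lit 234) (nat_lit 0) (nat_lit 0) (XT.nd (nat_lit 78) (nat_lit 0) (nat_lit 0) (XT.lf (nat_lit 0) (nat_lit 23031434454)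 (nat_lit 76) (nat_lit 110997362545) (nat_lit 76) (nat_lit 85741878855) (nat_lit 1) (nat_lit 4) (nat_lit 2) (nat_lit 5) (nat_lit 2) (nat_lit 4) (nat_lit 305) (nat_lit 245) (nat_lit 170)) (XT.nd (nat_lit 78) (nat_lit 0) (nat_lit 0) (XT.lf (nat_lit 0) (nat_lit 37927520714) (nat_lit 76) (nat_lit 112044033135) (nat_lit 76) (nat_lit 86782707003) (nat_lit 1) (nat_lit 4) (nat_lit 2) (nat_lit 5) (nat_lit 2) (nat_lit 4) (nat_lit 306) (nat_lit 245) (nat_lit 169)) (XT.lf (nat_lit 0) (nat_lit 54009530759) (nat_lit 76) (nat_lit 113177000868) (nat_lit 76) (nat_lit 87910265067) (nat_lit 1) (nat_lit 4) (nat_lit 2) (nat_lit 5) (nat_lit 2) (nat_lit 4) (nat_lit 307) (nat_lit 245) (nat_lit 168)))) (XT.nd (nat_lit 78) (nat_lit 0) (nat_lit 0) (XT.lf (nat_lit 0) (nat_lit 71372765391) (nat_lit 76) (nat_lit 114402979627) (nat_lit 76) (nat_lit 89131234873) (nat_lit 1) (nat_lit 4) (nat_lit 2) (nat_lit 5) (nat_lit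 2) (nat_lit 4) (nat_lit 308) (nat_lit 245) (nat_lit 167)) (XT.nd (nat_lit 78) (nat_lit 0) (nat_lit 0) (XT.lf (nat_lit 0) (nat_lit 90120117851) (nat_lit 76) (nat_lit 115729234471) (nat_lit 76) (nat_lit 90452851797) (nat_lit 1) (nat_lit 4) (nat_lit 2) (nat_lit 5) (nat_lit 2) (nat_lit 4) (nat_lit 309) (nat_lit 245) (nat_lit 166)) (XT.lf (nat_lit 0) (nat_lit 110362683562) (nat_lit 76) (nat_lit 117163624688) (nat_lit 76) (nat_lit 91882947645) (nat_lit 1) (nat_lit 4) (nat_lit 2) (nat_lit 5) (nat_lit 2) (nat_lit 4) (nat_lit 310) (nat_lit 245) (nat_lit 165)))))) (XT.nd (nat_lit 468) (nat_lit 0) (nat_lit 0) (XT.nd (nat_lit 234) (nat_lit 0) (nat_lit 0) (XT.nd (nat_lit 78) (nat_lit 0) (nat_lit 0) (XT.lf (nat_lit 0) (nat_lit 132220418468) (nat_lit 76) (nat_lit 118714650368) (nat_lit 76) (nat_lit 93429997057) (nat_lit 1) (nat_lit 4) (nat_lit 2) (nat_lit 5) (nat_lit 2) (nat_lit 4) (nat_lit 311)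 (nat_lit 245) (nat_lit 164)) (XT.nd (nat_lit 78) (nat_lit 0) (nat_lit 0) (XT.lf (nat_lit 0) (nat_lit 155822849887) (nat_lit 76) (nat_lit 120391502775) (nat_lit 76) (nat_lit 95103167734) (nat_lit 1) (nat_lit 4) (nat_lit 2) (nat_lit 5) (nat_lit 2) (nat_lit 4) (nat_lit 312) (nat_lit 245) (nat_lit 163)) (XT.lf (nat_lit 0) (nat_lit 181309844081) (nat_lit 76) (nat_lit 122204118812) (nat_lit 76) (nat_lit 96912374762) (nat_lit 1) (nat_lit 4) (nat_lit 2) (nat_lit 5) (nat_lit 2) (nat_lit 4) (nat_lit 313) (nat_lit 245) (nat_lit 162)))) (XT.nd (nat_lit 78) (nat_lit 0) (nat_lit 0) (XT.lf (nat_lit 0) (nat_lit 208832435087) (nat_lit 76) (nat_lit 124163239907) (nat_lit 76) (nat_lit 98868339367) (nat_lit 1) (nat_lit 4) (nat_lit 2) (nat_lit 5) (nat_lit 2) (nat_lit 4) (nat_lit 314) (nat_lit 245) (nat_lit 161)) (XT.nd (nat_lit 78) (nat_lit 0) (nat_lit 0) (XT.lf (nat_lit 0) (nat_lit 238553719743) (nat_lit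 76) (nat_lit 126280475667) (nat_lit 76) (nat_lit 100982652451) (nat_lit 1) (nat_lit 4) (nat_lit 2) (nat_lit 5) (nat_lit 2) (nat_lit 4) (nat_lit 315) (nat_lit 245) (nat_lit 160)) (XT.lf (nat_lit 0) (nat_lit 270649824178) (nat_lit 76) (nat_lit 128568372674) (nat_lit 76) (nat_lit 103267843277) (nat_lit 1) (nat_lit 4) (nat_lit 2) (nat_lit 5) (nat_lit 2) (nat_lit 4) (nat_lit 316) (nat_lit 245) (nat_lit 159))))) (XT.nd (nat_lit 234) (nat_lit 0) (nat_lit 0) (XT.nd (nat_lit 78) (nat_lit 0) (nat_lit 0) (XT.lf (nat_lit 0) (nat_lit 305310947532) (nat_lit 76) (nat_lit 131040488836) (nat_lit 76) (nat_lit 105737453715) (nat_lit 1) (nat_lit 4) (nat_lit 2) (nat_lit 5) (nat_lit 2) (nat_lit 4) (nat_lit 317) (nat_lit 245) (nat_lit 158)) (XT.nd (nat_lit 78) (nat_lit 0) (nat_lit 0) (XT.lf (nat_lit 0) (nat_lit 342742489052) (nat_lit 76) (nat_lit 133711473730) (nat_lit 76) (nat_lit 108406118495) (nat_lit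 1) (nat_lit 4) (nat_lit 2) (nat_lit 5) (nat_lit 2) (nat_lit 4) (nat_lit 318) (nat_lit 245) (nat_lit 157)) (XT.lf (nat_lit 0) (nat_lit 383166265282) (nat_lit 76) (nat_lit 136597155415) (nat_lit 76) (nat_lit 111289651926) (nat_lit 1) (nat_lit 4) (nat_lit 2) (nat_lit 5) (nat_lit 2) (nat_lit 4) (nat_lit 319) (nat_lit 245) (nat_lit 156)))) (XT.nd (nat_lit 78) (nat_lit 0) (nat_lit 0) (XT.lf (nat_lit 0) (nat_lit 426821824525) (nat_lit 76) (nat_lit 139714634227) (nat_lit 76) (nat_lit 114405141614) (nat_lit 1) (nat_lit 4) (nat_lit 2) (nat_lit 5) (nat_lit 2) (nat_lit 4) (nat_lit 320) (nat_lit 245) (nat_lit 155)) (XT.nd (nat_lit 78) (nat_lit 0) (nat_lit 0) (XT.lf (nat_lit 0) (nat_lit 473967866391) (nat_lit 76) (nat_lit 143082384114) (nat_lit 76) (nat_lit 117771049720) (nat_lit 1) (nat_lit 4) (nat_lit 2) (nat_lit 5) (nat_lit 2) (nat_lit 4) (nat_lit 321) (nat_lit 245) (nat_lit 154)) (XT.lf (nat_lit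 0) (nat_lit 524883774833) (nat_lit 76) (nat_lit 146720362113) (nat_lit 76) (nat_lit 121407322366) (nat_lit 1) (nat_lit 4) (nat_lit 2) (nat_lit 5) (nat_lit 2) (nat_lit 4) (nat_lit 322) (nat_lit 245) (nat_lit 153))))))))
noncomputable def xc61 : XT := (XT.nd (nat_lit 32370) (nat_lit 0) (nat_lit 380) (XT.nd (nat_lit 936) (nat_lit 0) (nat_lit 0) (XT.nd (nat_lit 468) (nat_lit 0) (nat_lit 0) (XT.nd (nat_lit 234) (nat_lit 0) (nat_lit 0) (XT.nd (nat_lit 78) (nat_lit 0) (nat_lit 0) (XT.lf (nat_lit 0) (nat_lit 579871273751) (nat_lit 76) (nat_lit 150650126613) (nat_lit 76) (nat_lit 125335507834) (nat_lit 1) (nat_lit 4) (nat_lit 2) (nat_lit 5) (nat_lit 2) (nat_lit 4) (nat_lit 323) (nat_lit 245) (nat_lit 152)) (XT.nd (nat_lit 78) (nat_lit 0) (nat_lit 0) (XT.lf (nat_lit 0) (nat_lit 639256214992) (nat_lit 76) (nat_lit 154894965105) (nat_lit 76) (nat_lit 129578884261) (nat_lit 1) (nat_lit 4) (nat_lit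 2) (nat_lit 5) (nat_lit 2) (nat_lit 4) (nat_lit 324) (nat_lit 245) (nat_lit 151)) (XT.lf (nat_lit 0) (nat_lit 703390509319) (nat_lit 76) (nat_lit 159480032189) (nat_lit 76) (nat_lit 134162597581) (nat_lit 1) (nat_lit 4) (nat_lit 2) (nat_lit 5) (nat_lit 2) (nat_lit 4) (nat_lit 325) (nat_lit 245) (nat_lit 150)))) (XT.nd (nat_lit 78) (nat_lit 0) (nat_lit 0) (XT.lf (nat_lit 0) (nat_lit 772654211808) (nat_lit 76) (nat_lit 164432498633) (nat_lit 76) (nat_lit 139113810539) (nat_lit 1) (nat_lit 4) (nat_lit 2) (nat_lit 5) (nat_lit 2) (nat_lit 4) (nat_lit 326) (nat_lit 245) (nat_lit 149)) (XT.nd (nat_lit 78) (nat_lit 0) (nat_lit 0) (XT.lf (nat_lit 0) (nat_lit 847457774031) (nat_lit 76) (nat_lit 169781712386) (nat_lit 76) (nat_lit 144461863657) (nat_lit 1) (nat_lit 4) (nat_lit 2) (nat_lit 5) (nat_lit 2) (nat_lit 4) (nat_lit 327) (nat_lit 245) (nat_lit 148)) (XT.lf (nat_lit 0) (nat_lit 928244476355)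 (nat_lit 76) (nat_lit 175559372492) (nat_lit 76) (nat_lit 150238449101) (nat_lit 1) (nat_lit 4) (nat_lit 2) (nat_lit 5) (nat_lit 2) (nat_lit 4) (nat_lit 328) (nat_lit 245) (nat_lit 147))))) (XT.nd (nat_lit 234) (nat_lit 0) (nat_lit 0) (XT.nd (nat_lit 78) (nat_lit 0) (nat_lit 0) (XT.lf (nat_lit 0) (nat_lit 1015493054795) (nat_lit 76) (nat_lit 181799716937) (nat_lit 76) (nat_lit 156477798489) (nat_lit 1) (nat_lit 4) (nat_lit 2) (nat_lit 5) (nat_lit 2) (nat_lit 4) (nat_lit 329) (nat_lit 245) (nat_lit 146)) (XT.nd (nat_lit 78) (nat_lit 0) (nat_lit 0) (XT.lf (nat_lit 0) (nat_lit 1109720537964) (nat_lit 76) (nat_lit 188539725541) (nat_lit 76) (nat_lit 163216885743) (nat_lit 1) (nat_lit 4) (nat_lit 2) (nat_lit 5) (nat_lit 2) (nat_lit 4) (nat_lit 330) (nat_lit 245) (nat_lit 145)) (XT.lf (nat_lit 0) (nat_lit 1211485310947) (nat_lit 76) (nat_lit 195819339094) (nat_lit 76) (nat_lit 170495646195)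 (nat_lit 1) (nat_lit 4) (nat_lit 2) (nat_lit 5) (nat_lit 2) (nat_lit 4) (nat_lit 331) (nat_lit 245) (nat_lit 144)))) (XT.nd (nat_lit 78) (nat_lit 0) (nat_lit 0) (XT.lf (nat_lit 0) (nat_lit 1321390424250) (nat_lit 76) (nat_lit 203681696048) (nat_lit 76) (nat_lit 178357213241) (nat_lit 1) (nat_lit 4) (nat_lit 2) (nat_lit 5) (nat_lit 2) (nat_lit 4) (nat_lit 332) (nat_lit 245) (nat_lit 143)) (XT.nd (nat_lit 78) (nat_lit 0) (nat_lit 0) (XT.lf (nat_lit 0) (nat_lit 1440087167435) (nat_lit 76) (nat_lit 212173388148) (nat_lit 76) (nat_lit 186848173943) (nat_lit 1) (nat_lit 4) (nat_lit 2) (nat_lit 5) (nat_lit 2) (nat_lit 4) (nat_lit 333) (nat_lit 245) (nat_lit 142)) (XT.lf (nat_lit 0) (nat_lit 1568278928608) (nat_lit 76) (nat_lit 221344736531) (nat_lit 76) (nat_lit 196018845107) (nat_lit 1) (nat_lit 4) (nat_lit 2) (nat_lit 5) (nat_lit 2) (nat_lit 4) (nat_lit 334) (nat_lit 245) (nat_lit 141))))))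 (XT.nd (nat_lit 30966) (nat_lit 0) (nat_lit 1900) (XT.nd (nat_lit 30732) (nat_lit 0) (nat_lit 2736) (XT.nd (nat_lit 30576) (nat_lit 0) (nat_lit 3040) (XT.lf (nat_lit 0) (nat_lit 1706725362652) (nat_lit 76) (nat_lit 231250089929) (nat_lit 76) (nat_lit 205923571451) (nat_lit 1) (nat_lit 4) (nat_lit 2) (nat_lit 5) (nat_lit 2) (nat_lit 4) (nat_lit 335) (nat_lit 245) (nat_lit 140)) (XT.nd (nat_lit 78) (nat_lit 0) (nat_lit 0) (XT.lf (nat_lit 0) (nat_lit 1897829758) (nat_lit 380) (nat_lit 931063678) (nat_lit 380) (nat_lit 931063678) (nat_lit 41) (nat_lit 3) (nat_lit 46) (nat_lit 3) (nat_lit 46) (nat_lit 5) (nat_lit 246) (nat_lit 246) (nat_lit 228)) (XT.lf (nat_lit 76) (nat_lit 1347740117) (nat_lit 0) (nat_lit 3853499929) (nat_lit 380) (nat_lit 2508049956) (nat_lit 42) (nat_lit 5) (nat_lit 41) (nat_lit 3) (nat_lit 46) (nat_lit 5) (nat_lit 247) (nat_lit 246) (nat_lit 227)))) (XT.nd (nat_lit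 78) (nat_lit 304) (nat_lit 0) (XT.lf (nat_lit 76) (nat_lit 4850253495) (nat_lit 0) (nat_lit 1796049973) (nat_lit 380) (nat_lit 1274462032) (nat_lit 42) (nat_lit 5) (nat_lit 41) (nat_lit 3) (nat_lit 46) (nat_lit 5) (nat_lit 248) (nat_lit 246) (nat_lit 226)) (XT.nd (nat_lit 78) (nat_lit 380) (nat_lit 0) (XT.lf (nat_lit 76) (nat_lit 418224035) (nat_lit 0) (nat_lit 7695548920) (nat_lit 380) (nat_lit 43872174) (nat_lit 43) (nat_lit 5) (nat_lit 42) (nat_lit 5) (nat_lit 47) (nat_lit 5) (nat_lit 249) (nat_lit 246) (nat_lit 225)) (XT.lf (nat_lit 0) (nat_lit 1243095326) (nat_lit 380) (nat_lit 4206852281) (nat_lit 456) (nat_lit 2960160495) (nat_lit 37) (nat_lit 5) (nat_lit 42) (nat_lit 5) (nat_lit 43) (nat_lit 5) (nat_lit 250) (nat_lit 246) (nat_lit 224))))) (XT.nd (nat_lit 234) (nat_lit 836) (nat_lit 0) (XT.nd (nat_lit 78) (nat_lit 0) (nat_lit 0) (XT.lf (nat_lit 0) (nat_lit 2528275094) (nat_lit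 380) (nat_lit 467850474) (nat_lit 456) (nat_lit 5695559152) (nat_lit 37) (nat_lit 5) (nat_lit 42) (nat_lit 5) (nat_lit 43) (nat_lit 5) (nat_lit 251) (nat_lit 246) (nat_lit 223)) (XT.nd (nat_lit 78) (nat_lit 0) (nat_lit 76) (XT.lf (nat_lit 76) (nat_lit 3685142239) (nat_lit 0) (nat_lit 224963195) (nat_lit 456) (nat_lit 5086932345) (nat_lit 38) (nat_lit 5) (nat_lit 37) (nat_lit 5) (nat_lit 43) (nat_lit 5) (nat_lit 252) (nat_lit 246) (nat_lit 222)) (XT.lf (nat_lit 0) (nat_lit 5393297110) (nat_lit 380) (nat_lit 1271805000) (nat_lit 76) (nat_lit 2663152894) (nat_lit 38) (nat_lit 5) (nat_lit 43) (nat_lit 5) (nat_lit 39) (nat_lit 5) (nat_lit 253) (nat_lit 246) (nat_lit 221)))) (XT.nd (nat_lit 78) (nat_lit 532) (nat_lit 0) (XT.lf (nat_lit 0) (nat_lit 3173970186) (nat_lit 380) (nat_lit 3821057596) (nat_lit 456) (nat_lit 2691600313) (nat_lit 33) (nat_lit 5) (nat_lit 38) (nat_lit 5) (nat_lit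 39) (nat_lit 5) (nat_lit 254) (nat_lit 246) (nat_lit 220)) (XT.nd (nat_lit 78) (nat_lit 532) (nat_lit 0) (XT.lf (nat_lit 0) (nat_lit 7979065479) (nat_lit 380) (nat_lit 702755530) (nat_lit 456) (nat_lit 1395897190) (nat_lit 33) (nat_lit 5) (nat_lit 38) (nat_lit 5) (nat_lit 39) (nat_lit 5) (nat_lit 255) (nat_lit 246) (nat_lit 219)) (XT.lf (nat_lit 0) (nat_lit 60598482) (nat_lit 532) (nat_lit 7829958392) (nat_lit 76) (nat_lit 2605462556) (nat_lit 26) (nat_lit 5) (nat_lit 33) (nat_lit 5) (nat_lit 27) (nat_lit 5) (nat_lit 256) (nat_lit 246) (nat_lit 218))))))) (XT.nd (nat_lit 936) (nat_lit 532) (nat_lit 0) (XT.nd (nat_lit 468) (nat_lit 608) (nat_lit 0) (XT.nd (nat_lit 234) (nat_lit 152) (nat_lit 0) (XT.nd (nat_lit 78) (nat_lit 228) (nat_lit 0) (XT.lf (nat_lit 0) (nat_lit 1564865400) (nat_lit 532) (nat_lit 3140414888) (nat_lit 76) (nat_lit 6239547770) (nat_lit 26) (nat_lit 5) (nat_lit 33)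 (nat_lit 5) (nat_lit 27) (nat_lit 5) (nat_lit 257) (nat_lit 246) (nat_lit 217)) (XT.nd (nat_lit 78) (nat_lit 0) (nat_lit 0) (XT.lf (nat_lit 0) (nat_lit 1954934091) (nat_lit 228) (nat_lit 1216316542) (nat_lit 304) (nat_lit 8260190409) (nat_lit 23) (nat_lit 5) (nat_lit 26) (nat_lit 5) (nat_lit 27) (nat_lit 5) (nat_lit 258) (nat_lit 246) (nat_lit 216)) (XT.lf (nat_lit 0) (nat_lit 4993547129) (nat_lit 304) (nat_lit 4447940745) (nat_lit 76) (nat_lit 2508912246) (nat_lit 23) (nat_lit 5) (nat_lit 27) (nat_lit 5) (nat_lit 24) (nat_lit 5) (nat_lit 259) (nat_lit 246) (nat_lit 215)))) (XT.nd (nat_lit 78) (nat_lit 0) (nat_lit 0) (XT.lf (nat_lit 0) (nat_lit 932467856) (nat_lit 152) (nat_lit 6025711054) (nat_lit 228) (nat_lit 5553351682) (nat_lit 21) (nat_lit 5) (nat_lit 23) (nat_lit 5) (nat_lit 24) (nat_lit 5) (nat_lit 260) (nat_lit 246) (nat_lit 214)) (XT.nd (nat_lit 78) (nat_lit 0) (nat_lit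 0) (XT.lf (nat_lit 0) (nat_lit 6932429524) (nat_lit 152) (nat_lit 2214420852) (nat_lit 228) (nat_lit 3965702326) (nat_lit 21) (nat_lit 5) (nat_lit 23) (nat_lit 5) (nat_lit 24) (nat_lit 5) (nat_lit 261) (nat_lit 246) (nat_lit 213)) (XT.lf (nat_lit 0) (nat_lit 11505460535) (nat_lit 228) (nat_lit 458292840) (nat_lit 76) (nat_lit 1798640358) (nat_lit 21) (nat_lit 5) (nat_lit 24) (nat_lit 5) (nat_lit 22) (nat_lit 5) (nat_lit 262) (nat_lit 246) (nat_lit 212))))) (XT.nd (nat_lit 234) (nat_lit 152) (nat_lit 0) (XT.nd (nat_lit 78) (nat_lit 228) (nat_lit 0) (XT.lf (nat_lit 0) (nat_lit 5900325892) (nat_lit 228) (nat_lit 8304731149) (nat_lit 304) (nat_lit 247281900) (nat_lit 18) (nat_lit 5) (nat_lit 21) (nat_lit 5) (nat_lit 22) (nat_lit 5) (nat_lit 263) (nat_lit 246) (nat_lit 211)) (XT.nd (nat_lit 78) (nat_lit 152) (nat_lit 0) (XT.lf (nat_lit 0) (nat_lit 1793354790) (nat_lit 304) (nat_lit 2509175253)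 (nat_lit 76) (nat_lit 10894194065) (nat_lit 17) (nat_lit 5) (nat_lit 21) (nat_lit 5) (nat_lit 18) (nat_lit 5) (nat_lit 264) (nat_lit 246) (nat_lit 210)) (XT.lf (nat_lit 0) (nat_lit 4043964080) (nat_lit 228) (nat_lit 11835204168) (nat_lit 76) (nat_lit 116410205) (nat_lit 15) (nat_lit 5) (nat_lit 18) (nat_lit 5) (nat_lit 16) (nat_lit 5) (nat_lit 265) (nat_lit 246) (nat_lit 209)))) (XT.nd (nat_lit 78) (nat_lit 152) (nat_lit 0) (XT.lf (nat_lit 0) (nat_lit 6615341166) (nat_lit 228) (nat_lit 5517387630) (nat_lit 76) (nat_lit 4714575845) (nat_lit 15) (nat_lit 5) (nat_lit 18) (nat_lit 5) (nat_lit 16) (nat_lit 5) (nat_lit 266) (nat_lit 246) (nat_lit 208)) (XT.nd (nat_lit 78) (nat_lit 0) (nat_lit 0) (XT.lf (nat_lit 0) (nat_lit 1318880206) (nat_lit 152) (nat_lit 8066913400) (nat_lit 228) (nat_lit 8382110754) (nat_lit 13) (nat_lit 5) (nat_lit 15) (nat_lit 5) (nat_lit 16) (nat_lit 5) (nat_lit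 267) (nat_lit 246) (nat_lit 207)) (XT.lf (nat_lit 0) (nat_lit 8964218939) (nat_lit 152) (nat_lit 3527764370) (nat_lit 228) (nat_lit 6261230150) (nat_lit 13) (nat_lit 5) (nat_lit 15) (nat_lit 5) (nat_lit 16) (nat_lit 5) (nat_lit 268) (nat_lit 246) (nat_lit 206)))))) (XT.nd (nat_lit 468) (nat_lit 228) (nat_lit 0) (XT.nd (nat_lit 234) (nat_lit 152) (nat_lit 0) (XT.nd (nat_lit 78) (nat_lit 152) (nat_lit 0) (XT.lf (nat_lit 0) (nat_lit 15845362981) (nat_lit 228) (nat_lit 2679573193) (nat_lit 76) (nat_lit 1292690982) (nat_lit 13) (nat_lit 5) (nat_lit 16) (nat_lit 5) (nat_lit 14) (nat_lit 4) (nat_lit 269) (nat_lit 246) (nat_lit 205)) (XT.nd (nat_lit 78) (nat_lit 76) (nat_lit 0) (XT.lf (nat_lit 0) (nat_lit 5116285276) (nat_lit 76) (nat_lit 14533587773) (nat_lit 152) (nat_lit 1302854556) (nat_lit 12) (nat_lit 5) (nat_lit 13) (nat_lit 5) (nat_lit 14) (nat_lit 4) (nat_lit 270) (nat_lit 246) (nat_lit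 204)) (XT.lf (nat_lit 0) (nat_lit 1544742100) (nat_lit 152) (nat_lit 8571718173) (nat_lit 76) (nat_lit 12055780753) (nat_lit 11) (nat_lit 5) (nat_lit 13) (nat_lit 5) (nat_lit 12) (nat_lit 5) (nat_lit 271) (nat_lit 246) (nat_lit 203)))) (XT.nd (nat_lit 78) (nat_lit 152) (nat_lit 0) (XT.lf (nat_lit 0) (nat_lit 4520601478) (nat_lit 152) (nat_lit 803397900) (nat_lit 76) (nat_lit 18165070438) (nat_lit 11) (nat_lit 5) (nat_lit 13) (nat_lit 5) (nat_lit 12) (nat_lit 5) (nat_lit 272) (nat_lit 246) (nat_lit 202)) (XT.nd (nat_lit 78) (nat_lit 0) (nat_lit 0) (XT.lf (nat_lit 0) (nat_lit 7899641834) (nat_lit 228) (nat_lit 16956075976) (nat_lit 76) (nat_lit 42437531) (nat_lit 9) (nat_lit 5) (nat_lit 12) (nat_lit 5) (nat_lit 10) (nat_lit 4) (nat_lit 273) (nat_lit 246) (nat_lit 201)) (XT.lf (nat_lit 0) (nat_lit 11683555770) (nat_lit 228) (nat_lit 9165518809) (nat_lit 76) (nat_lit 5560239667) (nat_lit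 9) (nat_lit 5) (nat_lit 12) (nat_lit 5) (nat_lit 10) (nat_lit 4) (nat_lit 274) (nat_lit 246) (nat_lit 200))))) (XT.nd (nat_lit 234) (nat_lit 152) (nat_lit 0) (XT.nd (nat_lit 78) (nat_lit 76) (nat_lit 0) (XT.lf (nat_lit 0) (nat_lit 15745856687) (nat_lit 228) (nat_lit 789991993) (nat_lit 76) (nat_lit 11507565650) (nat_lit 9) (nat_lit 5) (nat_lit 12) (nat_lit 5) (nat_lit 10) (nat_lit 4) (nat_lit 275) (nat_lit 246) (nat_lit 199)) (XT.nd (nat_lit 78) (nat_lit 0) (nat_lit 0) (XT.lf (nat_lit 0) (nat_lit 8652995083) (nat_lit 76) (nat_lit 11665727137) (nat_lit 152) (nat_lit 9474768548) (nat_lit 8) (nat_lit 5) (nat_lit 9) (nat_lit 5) (nat_lit 10) (nat_lit 4) (nat_lit 276) (nat_lit 246) (nat_lit 198)) (XT.lf (nat_lit 0) (nat_lit 18861806135) (nat_lit 76) (nat_lit 6395524156) (nat_lit 152) (nat_lit 6426337738) (nat_lit 8) (nat_lit 5) (nat_lit 9) (nat_lit 5) (nat_lit 10) (nat_lit 4) (nat_lit 277)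 (nat_lit 246) (nat_lit 197)))) (XT.nd (nat_lit 78) (nat_lit 152) (nat_lit 0) (XT.lf (nat_lit 0) (nat_lit 29855338242) (nat_lit 76) (nat_lit 715608684) (nat_lit 152) (nat_lit 3155800219) (nat_lit 8) (nat_lit 5) (nat_lit 9) (nat_lit 5) (nat_lit 10) (nat_lit 4) (nat_lit 278) (nat_lit 246) (nat_lit 196)) (XT.nd (nat_lit 78) (nat_lit 0) (nat_lit 0) (XT.lf (nat_lit 0) (nat_lit 618171708) (nat_lit 152) (nat_lit 29998153781) (nat_lit 76) (nat_lit 5295443064) (nat_lit 6) (nat_lit 5) (nat_lit 8) (nat_lit 5) (nat_lit 7) (nat_lit 4) (nat_lit 279) (nat_lit 246) (nat_lit 195)) (XT.lf (nat_lit 0) (nat_lit 4632029974) (nat_lit 152) (nat_lit 21695998376) (nat_lit 76) (nat_lit 11928393226) (nat_lit 6) (nat_lit 5) (nat_lit 8) (nat_lit 5) (nat_lit 7) (nat_lit 4) (nat_lit 280) (nat_lit 246) (nat_lit 194))))))))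
noncomputable def xc62 : XT := (XT.nd (nat_lit 1794) (nat_lit 76) (nat_lit 0) (XT.nd (nat_lit 858) (nat_lit 76) (nat_lit 0) (XT.nd (nat_lit 390) (nat_lit 152) (nat_lit 0) (XT.nd (nat_lit 156) (nat_lit 76) (nat_lit 0) (XT.nd (nat_lit 78) (nat_lit 0) (nat_lit 0) (XT.lf (nat_lit 0) (nat_lit 8949659833) (nat_lit 152) (nat_lit 12758541039) (nat_lit 76) (nat_lit 19081892672) (nat_lit 6) (nat_lit 5) (nat_lit 8) (nat_lit 5) (nat_lit 7) (nat_lit 4) (nat_lit 281) (nat_lit 246) (nat_lit 193)) (XT.lf (nat_lit 0) (nat_lit 13596647238) (nat_lit 152) (nat_lit 3132819059) (nat_lit 76) (nat_lit 26798332509) (nat_lit 6) (nat_lit 5) (nat_lit 8) (nat_lit 5) (nat_lit 7) (nat_lit 4) (nat_lit 282) (nat_lit 246) (nat_lit 192))) (XT.nd (nat_lit 78) (nat_lit 0) (nat_lit 0) (XT.lf (nat_lit 0) (nat_lit 7619360130) (nat_lit 76) (nat_lit 11164415557) (nat_lit 152) (nat_lit 27687325452) (nat_lit 5) (nat_lit 5)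 (nat_lit 6) (nat_lit 5) (nat_lit 7) (nat_lit 4) (nat_lit 283) (nat_lit 246) (nat_lit 191)) (XT.nd (nat_lit 78) (nat_lit 0) (nat_lit 0) (XT.lf (nat_lit 0) (nat_lit 19385754679) (nat_lit 76) (nat_lit 5071433622) (nat_lit 152) (nat_lit 25187021665) (nat_lit 5) (nat_lit 5) (nat_lit 6) (nat_lit 5) (nat_lit 7) (nat_lit 4) (nat_lit 284) (nat_lit 246) (nat_lit 190)) (XT.lf (nat_lit 0) (nat_lit 30607266764) (nat_lit 152) (nat_lit 21037224511) (nat_lit 0) (nat_lit 1424896704) (nat_lit 5) (nat_lit 5) (nat_lit 7) (nat_lit 4) (nat_lit 5) (nat_lit 4) (nat_lit 285) (nat_lit 246) (nat_lit 189))))) (XT.nd (nat_lit 234) (nat_lit 76) (nat_lit 0) (XT.nd (nat_lit 78) (nat_lit 76) (nat_lit 0) (XT.lf (nat_lit 0) (nat_lit 37368578595) (nat_lit 152) (nat_lit 11231526964) (nat_lit 0) (nat_lit 8158977162) (nat_lit 5) (nat_lit 5) (nat_lit 7) (nat_lit 4) (nat_lit 5) (nat_lit 4) (nat_lit 286) (nat_lit 246) (nat_lit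 188)) (XT.nd (nat_lit 78) (nat_lit 76) (nat_lit 0) (XT.lf (nat_lit 0) (nat_lit 44659222729) (nat_lit 152) (nat_lit 661286707) (nat_lit 0) (nat_lit 15424407060) (nat_lit 5) (nat_lit 5) (nat_lit 7) (nat_lit 4) (nat_lit 5) (nat_lit 4) (nat_lit 287) (nat_lit 246) (nat_lit 187)) (XT.lf (nat_lit 0) (nat_lit 11301480547) (nat_lit 76) (nat_lit 41492723315) (nat_lit 76) (nat_lit 12234561131) (nat_lit 4) (nat_lit 4) (nat_lit 5) (nat_lit 5) (nat_lit 5) (nat_lit 4) (nat_lit 288) (nat_lit 246) (nat_lit 186)))) (XT.nd (nat_lit 78) (nat_lit 76) (nat_lit 0) (XT.lf (nat_lit 0) (nat_lit 24240905880) (nat_lit 76) (nat_lit 37346804469) (nat_lit 76) (nat_lit 8067025143) (nat_lit 4) (nat_lit 4) (nat_lit 5) (nat_lit 5) (nat_lit 5) (nat_lit 4) (nat_lit 289) (nat_lit 246) (nat_lit 185)) (XT.nd (nat_lit 78) (nat_lit 76) (nat_lit 0) (XT.lf (nat_lit 0) (nat_lit 38198845179) (nat_lit 76) (nat_lit 32876265244)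 (nat_lit 76) (nat_lit 3576470044) (nat_lit 4) (nat_lit 4) (nat_lit 5) (nat_lit 5) (nat_lit 5) (nat_lit 4) (nat_lit 290) (nat_lit 246) (nat_lit 184)) (XT.lf (nat_lit 0) (nat_lit 1200498725) (nat_lit 152) (nat_lit 26821291065) (nat_lit 76) (nat_lit 52024689672) (nat_lit 3) (nat_lit 5) (nat_lit 5) (nat_lit 5) (nat_lit 4) (nat_lit 4) (nat_lit 291) (nat_lit 246) (nat_lit 183)))))) (XT.nd (nat_lit 468) (nat_lit 0) (nat_lit 0) (XT.nd (nat_lit 234) (nat_lit 0) (nat_lit 0) (XT.nd (nat_lit 78) (nat_lit 76) (nat_lit 0) (XT.lf (nat_lit 0) (nat_lit 6157945646) (nat_lit 152) (nat_lit 16526961856) (nat_lit 76) (nat_lit 63181331539) (nat_lit 3) (nat_lit 5) (nat_lit 5) (nat_lit 5) (nat_lit 4) (nat_lit 4) (nat_lit 292) (nat_lit 246) (nat_lit 182)) (XT.nd (nat_lit 78) (nat_lit 76) (nat_lit 0) (XT.lf (nat_lit 0) (nat_lit 11504157696) (nat_lit 152) (nat_lit 5422730036) (nat_lit 76) (nat_lit 75225340065)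 (nat_lit 3) (nat_lit 5) (nat_lit 5) (nat_lit 5) (nat_lit 4) (nat_lit 4) (nat_lit 293) (nat_lit 246) (nat_lit 181)) (XT.lf (nat_lit 0) (nat_lit 6902498161) (nat_lit 76) (nat_lit 10534323218) (nat_lit 152) (nat_lit 81491594240) (nat_lit 2) (nat_lit 5) (nat_lit 3) (nat_lit 5) (nat_lit 4) (nat_lit 4) (nat_lit 294) (nat_lit 246) (nat_lit 180)))) (XT.nd (nat_lit 78) (nat_lit 0) (nat_lit 0) (XT.lf (nat_lit 0) (nat_lit 20509826822) (nat_lit 76) (nat_lit 3475528754) (nat_lit 152) (nat_lit 82250061129) (nat_lit 2) (nat_lit 5) (nat_lit 3) (nat_lit 5) (nat_lit 4) (nat_lit 4) (nat_lit 295) (nat_lit 246) (nat_lit 179)) (XT.nd (nat_lit 78) (nat_lit 0) (nat_lit 0) (XT.lf (nat_lit 0) (nat_lit 31150922764) (nat_lit 152) (nat_lit 79032814590) (nat_lit 0) (nat_lit 3935805938) (nat_lit 2) (nat_lit 5) (nat_lit 4) (nat_lit 4) (nat_lit 2) (nat_lit 4) (nat_lit 296) (nat_lit 246) (nat_lit 178)) (XT.lf (nat_lit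 0) (nat_lit 38973889817) (nat_lit 152) (nat_lit 71905834938) (nat_lit 0) (nat_lit 11747959037) (nat_lit 2) (nat_lit 5) (nat_lit 4) (nat_lit 4) (nat_lit 2) (nat_lit 4) (nat_lit 297) (nat_lit 246) (nat_lit 177))))) (XT.nd (nat_lit 234) (nat_lit 0) (nat_lit 0) (XT.nd (nat_lit 78) (nat_lit 0) (nat_lit 0) (XT.lf (nat_lit 0) (nat_lit 47417028507) (nat_lit 152) (nat_lit 64218830425) (nat_lit 0) (nat_lit 20181084808) (nat_lit 2) (nat_lit 5) (nat_lit 4) (nat_lit 4) (nat_lit 2) (nat_lit 4) (nat_lit 298) (nat_lit 246) (nat_lit 176)) (XT.nd (nat_lit 78) (nat_lit 0) (nat_lit 0) (XT.lf (nat_lit 0) (nat_lit 56530372249) (nat_lit 152) (nat_lit 55926248431) (nat_lit 0) (nat_lit 29285157327) (nat_lit 2) (nat_lit 5) (nat_lit 4) (nat_lit 4) (nat_lit 2) (nat_lit 4) (nat_lit 299) (nat_lit 246) (nat_lit 175)) (XT.lf (nat_lit 0) (nat_lit 66367926042) (nat_lit 152) (nat_lit 46978947729) (nat_lit 0) (nat_lit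 39114126656) (nat_lit 2) (nat_lit 5) (nat_lit 4) (nat_lit 4) (nat_lit 2) (nat_lit 4) (nat_lit 300) (nat_lit 246) (nat_lit 174)))) (XT.nd (nat_lit 78) (nat_lit 0) (nat_lit 0) (XT.lf (nat_lit 0) (nat_lit 76987986503) (nat_lit 152) (nat_lit 37323907279) (nat_lit 0) (nat_lit 49726238538) (nat_lit 2) (nat_lit 5) (nat_lit 4) (nat_lit 4) (nat_lit 2) (nat_lit 4) (nat_lit 301) (nat_lit 246) (nat_lit 173)) (XT.nd (nat_lit 78) (nat_lit 0) (nat_lit 0) (XT.lf (nat_lit 0) (nat_lit 88453487322) (nat_lit 152) (nat_lit 26903912025) (nat_lit 0) (nat_lit 61184379562) (nat_lit 2) (nat_lit 5) (nat_lit 4) (nat_lit 4) (nat_lit 2) (nat_lit 4) (nat_lit 302) (nat_lit 246) (nat_lit 172)) (XT.lf (nat_lit 0) (nat_lit 100832372208) (nat_lit 152) (nat_lit 15657213848) (nat_lit 0) (nat_lit 73556449823) (nat_lit 2) (nat_lit 5) (nat_lit 4) (nat_lit 4) (nat_lit 2) (nat_lit 4) (nat_lit 303) (nat_lit 246) (nat_lit 171)))))))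 (XT.nd (nat_lit 936) (nat_lit 0) (nat_lit 0) (XT.nd (nat_lit 468) (nat_lit 0) (nat_lit 0) (XT.nd (nat_lit 234) (nat_lit 0) (nat_lit 0) (XT.nd (nat_lit 78) (nat_lit 76) (nat_lit 0) (XT.lf (nat_lit 0) (nat_lit 114197997516) (nat_lit 152) (nat_lit 3517165648) (nat_lit 0) (nat_lit 86915765293) (nat_lit 2) (nat_lit 5) (nat_lit 4) (nat_lit 4) (nat_lit 2) (nat_lit 4) (nat_lit 304) (nat_lit 246) (nat_lit 170)) (XT.nd (nat_lit 78) (nat_lit 0) (nat_lit 0) (XT.lf (nat_lit 0) (nat_lit 10093069832) (nat_lit 76) (nat_lit 118779235691) (nat_lit 76) (nat_lit 91491161026) (nat_lit 1) (nat_lit 4) (nat_lit 2) (nat_lit 5) (nat_lit 2) (nat_lit 4) (nat_lit 305) (nat_lit 246) (nat_lit 169)) (XT.lf (nat_lit 0) (nat_lit 24986385363) (nat_lit 76) (nat_lit 119827138731) (nat_lit 76) (nat_lit 92533654397) (nat_lit 1) (nat_lit 4) (nat_lit 2) (nat_lit 5) (nat_lit 2) (nat_lit 4) (nat_lit 306) (nat_lit 246) (nat_lit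 168)))) (XT.nd (nat_lit 78) (nat_lit 0) (nat_lit 0) (XT.lf (nat_lit 0) (nat_lit 41065829920) (nat_lit 76) (nat_lit 120961247621) (nat_lit 76) (nat_lit 93662754334) (nat_lit 1) (nat_lit 4) (nat_lit 2) (nat_lit 5) (nat_lit 2) (nat_lit 4) (nat_lit 307) (nat_lit 246) (nat_lit 167)) (XT.nd (nat_lit 78) (nat_lit 0) (nat_lit 0) (XT.lf (nat_lit 0) (nat_lit 58426689099) (nat_lit 76) (nat_lit 122188283007) (nat_lit 76) (nat_lit 94885151801) (nat_lit 1) (nat_lit 4) (nat_lit 2) (nat_lit 5) (nat_lit 2) (nat_lit 4) (nat_lit 308) (nat_lit 246) (nat_lit 166)) (XT.lf (nat_lit 0) (nat_lit 77171842065) (nat_lit 76) (nat_lit 123515516210) (nat_lit 76) (nat_lit 96208090634) (nat_lit 1) (nat_lit 4) (nat_lit 2) (nat_lit 5) (nat_lit 2) (nat_lit 4) (nat_lit 309) (nat_lit 246) (nat_lit 165))))) (XT.nd (nat_lit 234) (nat_lit 0) (nat_lit 0) (XT.nd (nat_lit 78) (nat_lit 0) (nat_lit 0) (XT.lf (nat_lit 0) (nat_lit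 97412371208) (nat_lit 76) (nat_lit 124950812314) (nat_lit 76) (nat_lit 97639410470) (nat_lit 1) (nat_lit 4) (nat_lit 2) (nat_lit 5) (nat_lit 2) (nat_lit 4) (nat_lit 310) (nat_lit 246) (nat_lit 164)) (XT.nd (nat_lit 78) (nat_lit 0) (nat_lit 0) (XT.lf (nat_lit 0) (nat_lit 119268220403) (nat_lit 76) (nat_lit 126502676780) (nat_lit 76) (nat_lit 99187593205) (nat_lit 1) (nat_lit 4) (nat_lit 2) (nat_lit 5) (nat_lit 2) (nat_lit 4) (nat_lit 311) (nat_lit 246) (nat_lit 163)) (XT.lf (nat_lit 0) (nat_lit 142868905794) (nat_lit 76) (nat_lit 128180305839) (nat_lit 76) (nat_lit 100861813256) (nat_lit 1) (nat_lit 4) (nat_lit 2) (nat_lit 5) (nat_lit 2) (nat_lit 4) (nat_lit 312) (nat_lit 246) (nat_lit 162)))) (XT.nd (nat_lit 78) (nat_lit 0) (nat_lit 0) (XT.lf (nat_lit 0) (nat_lit 168354283294) (nat_lit 76) (nat_lit 129993640999) (nat_lit 76) (nat_lit 102671991926) (nat_lit 1) (nat_lit 4) (nat_lit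 2) (nat_lit 5) (nat_lit 2) (nat_lit 4) (nat_lit 313) (nat_lit 246) (nat_lit 161)) (XT.nd (nat_lit 78) (nat_lit 0) (nat_lit 0) (XT.lf (nat_lit 0) (nat_lit 195875377362) (nat_lit 76) (nat_lit 131953427948) (nat_lit 76) (nat_lit 104628856199) (nat_lit 1) (nat_lit 4) (nat_lit 2) (nat_lit 5) (nat_lit 2) (nat_lit 4) (nat_lit 314) (nat_lit 246) (nat_lit 160)) (XT.lf (nat_lit 0) (nat_lit 225595275964) (nat_lit 76) (nat_lit 134071280240) (nat_lit 76) (nat_lit 106744002309) (nat_lit 1) (nat_lit 4) (nat_lit 2) (nat_lit 5) (nat_lit 2) (nat_lit 4) (nat_lit 315) (nat_lit 246) (nat_lit 159)))))) (XT.nd (nat_lit 468) (nat_lit 0) (nat_lit 0) (XT.nd (nat_lit 234) (nat_lit 0) (nat_lit 0) (XT.nd (nat_lit 78) (nat_lit 0) (nat_lit 0) (XT.lf (nat_lit 0) (nat_lit 257690097016) (nat_lit 76) (nat_lit 136359748109) (nat_lit 76) (nat_lit 109029964455) (nat_lit 1) (nat_lit 4) (nat_lit 2) (nat_lit 5) (nat_lit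 2) (nat_lit 4) (nat_lit 316) (nat_lit 246) (nat_lit 158)) (XT.nd (nat_lit 78) (nat_lit 0) (nat_lit 0) (XT.lf (nat_lit 0) (nat_lit 292350032052) (nat_lit 76) (nat_lit 138832392848) (nat_lit 76) (nat_lit 111500289079) (nat_lit 1) (nat_lit 4) (nat_lit 2) (nat_lit 5) (nat_lit 2) (nat_lit 4) (nat_lit 317) (nat_lit 246) (nat_lit 157)) (XT.lf (nat_lit 0) (nat_lit 329780473278) (nat_lit 76) (nat_lit 141503867164) (nat_lit 76) (nat_lit 114169615142) (nat_lit 1) (nat_lit 4) (nat_lit 2) (nat_lit 5) (nat_lit 2) (nat_lit 4) (nat_lit 318) (nat_lit 246) (nat_lit 156)))) (XT.nd (nat_lit 78) (nat_lit 0) (nat_lit 0) (XT.lf (nat_lit 0) (nat_lit 370203230716) (nat_lit 76) (nat_lit 144390002019) (nat_lit 76) (nat_lit 117053760873) (nat_lit 1) (nat_lit 4) (nat_lit 2) (nat_lit 5) (nat_lit 2) (nat_lit 4) (nat_lit 319) (nat_lit 246) (nat_lit 155)) (XT.nd (nat_lit 78) (nat_lit 0) (nat_lit 0) (XT.lf (nat_lit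 0) (nat_lit 413857846634) (nat_lit 76) (nat_lit 147507900432) (nat_lit 76) (nat_lit 120169817504) (nat_lit 1) (nat_lit 4) (nat_lit 2) (nat_lit 5) (nat_lit 2) (nat_lit 4) (nat_lit 320) (nat_lit 246) (nat_lit 154)) (XT.lf (nat_lit 0) (nat_lit 461003015052) (nat_lit 76) (nat_lit 150876038839) (nat_lit 76) (nat_lit 123536250558) (nat_lit 1) (nat_lit 4) (nat_lit 2) (nat_lit 5) (nat_lit 2) (nat_lit 4) (nat_lit 321) (nat_lit 246) (nat_lit 153))))) (XT.nd (nat_lit 234) (nat_lit 0) (nat_lit 0) (XT.nd (nat_lit 78) (nat_lit 0) (nat_lit 0) (XT.lf (nat_lit 0) (nat_lit 511918114744) (nat_lit 76) (nat_lit 154514376579) (nat_lit 76) (nat_lit 127173009267) (nat_lit 1) (nat_lit 4) (nat_lit 2) (nat_lit 5) (nat_lit 2) (nat_lit 4) (nat_lit 322) (nat_lit 246) (nat_lit 152)) (XT.nd (nat_lit 78) (nat_lit 0) (nat_lit 0) (XT.lf (nat_lit 0) (nat_lit 566904864821) (nat_lit 76) (nat_lit 158444474171) (nat_lit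 76) (nat_lit 131101644793) (nat_lit 1) (nat_lit 4) (nat_lit 2) (nat_lit 5) (nat_lit 2) (nat_lit 4) (nat_lit 323) (nat_lit 246) (nat_lit 151)) (XT.lf (nat_lit 0) (nat_lit 626289112690) (nat_lit 76) (nat_lit 162689621083) (nat_lit 76) (nat_lit 135345437941) (nat_lit 1) (nat_lit 4) (nat_lit 2) (nat_lit 5) (nat_lit 2) (nat_lit 4) (nat_lit 324) (nat_lit 246) (nat_lit 150)))) (XT.nd (nat_lit 78) (nat_lit 0) (nat_lit 0) (XT.lf (nat_lit 0) (nat_lit 690422765005) (nat_lit 76) (nat_lit 167274973740) (nat_lit 76) (nat_lit 139929537113) (nat_lit 1) (nat_lit 4) (nat_lit 2) (nat_lit 5) (nat_lit 2) (nat_lit 4) (nat_lit 325) (nat_lit 246) (nat_lit 149)) (XT.nd (nat_lit 78) (nat_lit 0) (nat_lit 0) (XT.lf (nat_lit 0) (nat_lit 759685873039) (nat_lit 76) (nat_lit 172227704604) (nat_lit 76) (nat_lit 144881107342) (nat_lit 1) (nat_lit 4) (nat_lit 2) (nat_lit 5) (nat_lit 2) (nat_lit 4) (nat_lit 326) (nat_lit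 246) (nat_lit 148)) (XT.lf (nat_lit 0) (nat_lit 834488884841) (nat_lit 76) (nat_lit 177577163190) (nat_lit 76) (nat_lit 150229491266) (nat_lit 1) (nat_lit 4) (nat_lit 2) (nat_lit 5) (nat_lit 2) (nat_lit 4) (nat_lit 327) (nat_lit 246) (nat_lit 147))))))))
noncomputable def xc63 : XT := (XT.nd (nat_lit 32526) (nat_lit 0) (nat_lit 304) (XT.nd (nat_lit 31590) (nat_lit 0) (nat_lit 1292) (XT.nd (nat_lit 468) (nat_lit 0) (nat_lit 0) (XT.nd (nat_lit 234) (nat_lit 0) (nat_lit 0) (XT.nd (nat_lit 78) (nat_lit 0) (nat_lit 0) (XT.lf (nat_lit 0) (nat_lit 915275077516) (nat_lit 76) (nat_lit 183355049994) (nat_lit 76) (nat_lit 156006383012) (nat_lit 1) (nat_lit 4) (nat_lit 2) (nat_lit 5) (nat_lit 2) (nat_lit 4) (nat_lit 328) (nat_lit 246) (nat_lit 146)) (XT.nd (nat_lit 78) (nat_lit 0) (nat_lit 0) (XT.lf (nat_lit 0) (nat_lit 1002523184059) (nat_lit 76) (nat_lit 189595604344) (nat_lit 76) (nat_lit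 162246016013) (nat_lit 1) (nat_lit 4) (nat_lit 2) (nat_lit 5) (nat_lit 2) (nat_lit 4) (nat_lit 329) (nat_lit 246) (nat_lit 145)) (XT.lf (nat_lit 0) (nat_lit 1096750230286) (nat_lit 76) (nat_lit 196335807304) (nat_lit 76) (nat_lit 168985365872) (nat_lit 1) (nat_lit 4) (nat_lit 2) (nat_lit 5) (nat_lit 2) (nat_lit 4) (nat_lit 330) (nat_lit 246) (nat_lit 144)))) (XT.nd (nat_lit 78) (nat_lit 0) (nat_lit 0) (XT.lf (nat_lit 0) (nat_lit 1198514598693) (nat_lit 76) (nat_lit 203615600817) (nat_lit 76) (nat_lit 176264369477) (nat_lit 1) (nat_lit 4) (nat_lit 2) (nat_lit 5) (nat_lit 2) (nat_lit 4) (nat_lit 331) (nat_lit 246) (nat_lit 143)) (XT.nd (nat_lit 78) (nat_lit 0) (nat_lit 0) (XT.lf (nat_lit 0) (nat_lit 1308419337389) (nat_lit 76) (nat_lit 211478124401) (nat_lit 76) (nat_lit 184126161663) (nat_lit 1) (nat_lit 4) (nat_lit 2) (nat_lit 5) (nat_lit 2) (nat_lit 4) (nat_lit 332) (nat_lit 246)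 (nat_lit 142)) (XT.lf (nat_lit 0) (nat_lit 1427115733715) (nat_lit 76) (nat_lit 219969970786) (nat_lit 76) (nat_lit 192617330830) (nat_lit 1) (nat_lit 4) (nat_lit 2) (nat_lit 5) (nat_lit 2) (nat_lit 4) (nat_lit 333) (nat_lit 246) (nat_lit 141))))) (XT.nd (nat_lit 30888) (nat_lit 0) (nat_lit 2660) (XT.nd (nat_lit 30732) (nat_lit 0) (nat_lit 3040) (XT.lf (nat_lit 0) (nat_lit 1555307173723) (nat_lit 76) (nat_lit 229141462028) (nat_lit 76) (nat_lit 201788195016) (nat_lit 1) (nat_lit 4) (nat_lit 2) (nat_lit 5) (nat_lit 2) (nat_lit 4) (nat_lit 334) (nat_lit 246) (nat_lit 140)) (XT.nd (nat_lit 78) (nat_lit 0) (nat_lit 0) (XT.lf (nat_lit 0) (nat_lit 3241623826) (nat_lit 380) (nat_lit 356459712) (nat_lit 380) (nat_lit 356459712) (nat_lit 41) (nat_lit 3) (nat_lit 46) (nat_lit 3) (nat_lit 46) (nat_lit 5) (nat_lit 247) (nat_lit 247) (nat_lit 226)) (XT.lf (nat_lit 76) (nat_lit 2720872178) (nat_lit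 0) (nat_lit 5134245445) (nat_lit 380) (nat_lit 271795128) (nat_lit 42) (nat_lit 5) (nat_lit 41) (nat_lit 3) (nat_lit 46) (nat_lit 5) (nat_lit 248) (nat_lit 247) (nat_lit 225)))) (XT.nd (nat_lit 78) (nat_lit 0) (nat_lit 0) (XT.lf (nat_lit 0) (nat_lit 835949201) (nat_lit 380) (nat_lit 1981359475) (nat_lit 456) (nat_lit 5551054214) (nat_lit 36) (nat_lit 5) (nat_lit 41) (nat_lit 3) (nat_lit 42) (nat_lit 5) (nat_lit 249) (nat_lit 247) (nat_lit 224)) (XT.nd (nat_lit 78) (nat_lit 0) (nat_lit 76) (XT.lf (nat_lit 76) (nat_lit 1735263181) (nat_lit 0) (nat_lit 222367885) (nat_lit 456) (nat_lit 6676550828) (nat_lit 37) (nat_lit 5) (nat_lit 36) (nat_lit 5) (nat_lit 42) (nat_lit 5) (nat_lit 250) (nat_lit 247) (nat_lit 223)) (XT.lf (nat_lit 0) (nat_lit 3191890013) (nat_lit 380) (nat_lit 3187970385) (nat_lit 456) (nat_lit 2540335822) (nat_lit 37) (nat_lit 5) (nat_lit 42) (nat_lit 5) (nat_lit 43)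 (nat_lit 5) (nat_lit 251) (nat_lit 247) (nat_lit 222)))))) (XT.nd (nat_lit 468) (nat_lit 608) (nat_lit 0) (XT.nd (nat_lit 234) (nat_lit 836) (nat_lit 0) (XT.nd (nat_lit 78) (nat_lit 0) (nat_lit 0) (XT.lf (nat_lit 76) (nat_lit 789229808) (nat_lit 0) (nat_lit 3672646679) (nat_lit 456) (nat_lit 4772957375) (nat_lit 38) (nat_lit 5) (nat_lit 37) (nat_lit 5) (nat_lit 43) (nat_lit 5) (nat_lit 252) (nat_lit 247) (nat_lit 221)) (XT.nd (nat_lit 78) (nat_lit 0) (nat_lit 76) (XT.lf (nat_lit 76) (nat_lit 5203208611) (nat_lit 0) (nat_lit 634641598) (nat_lit 456) (nat_lit 3737090421) (nat_lit 38) (nat_lit 5) (nat_lit 37) (nat_lit 5) (nat_lit 43) (nat_lit 5) (nat_lit 253) (nat_lit 247) (nat_lit 220)) (XT.lf (nat_lit 0) (nat_lit 7311350132) (nat_lit 380) (nat_lit 100831706) (nat_lit 76) (nat_lit 2531679330) (nat_lit 38) (nat_lit 5) (nat_lit 43) (nat_lit 5) (nat_lit 39) (nat_lit 5) (nat_lit 254) (nat_lit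 247) (nat_lit 219)))) (XT.nd (nat_lit 78) (nat_lit 532) (nat_lit 0) (XT.lf (nat_lit 0) (nat_lit 4668384795) (nat_lit 380) (nat_lit 4292550724) (nat_lit 456) (nat_lit 1377259961) (nat_lit 33) (nat_lit 5) (nat_lit 38) (nat_lit 5) (nat_lit 39) (nat_lit 5) (nat_lit 255) (nat_lit 247) (nat_lit 218)) (XT.nd (nat_lit 78) (nat_lit 532) (nat_lit 0) (XT.lf (nat_lit 0) (nat_lit 9765999044) (nat_lit 380) (nat_lit 912502380) (nat_lit 456) (nat_lit 91209357) (nat_lit 33) (nat_lit 5) (nat_lit 38) (nat_lit 5) (nat_lit 39) (nat_lit 5) (nat_lit 256) (nat_lit 247) (nat_lit 217)) (XT.lf (nat_lit 0) (nat_lit 1338239058) (nat_lit 532) (nat_lit 7146250712) (nat_lit 76) (nat_lit 2740768033) (nat_lit 26) (nat_lit 5) (nat_lit 33) (nat_lit 5) (nat_lit 27) (nat_lit 5) (nat_lit 257) (nat_lit 247) (nat_lit 216))))) (XT.nd (nat_lit 234) (nat_lit 380) (nat_lit 0) (XT.nd (nat_lit 78) (nat_lit 228) (nat_lit 0) (XT.lf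 (nat_lit 0) (nat_lit 2868566389) (nat_lit 532) (nat_lit 2178588494) (nat_lit 76) (nat_lit 6670997214) (nat_lit 26) (nat_lit 5) (nat_lit 33) (nat_lit 5) (nat_lit 27) (nat_lit 5) (nat_lit 258) (nat_lit 247) (nat_lit 215)) (XT.nd (nat_lit 78) (nat_lit 0) (nat_lit 0) (XT.lf (nat_lit 0) (nat_lit 3293678033) (nat_lit 228) (nat_lit 1250922767) (nat_lit 304) (nat_lit 7704393455) (nat_lit 23) (nat_lit 5) (nat_lit 26) (nat_lit 5) (nat_lit 27) (nat_lit 5) (nat_lit 259) (nat_lit 247) (nat_lit 214)) (XT.lf (nat_lit 0) (nat_lit 6431140188) (nat_lit 304) (nat_lit 3620624736) (nat_lit 76) (nat_lit 2764775814) (nat_lit 23) (nat_lit 5) (nat_lit 27) (nat_lit 5) (nat_lit 24) (nat_lit 5) (nat_lit 260) (nat_lit 247) (nat_lit 213)))) (XT.nd (nat_lit 78) (nat_lit 228) (nat_lit 0) (XT.lf (nat_lit 0) (nat_lit 2160263356) (nat_lit 152) (nat_lit 6343516612) (nat_lit 228) (nat_lit 4923221546) (nat_lit 21) (nat_lit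 5) (nat_lit 23) (nat_lit 5) (nat_lit 24) (nat_lit 5) (nat_lit 261) (nat_lit 247) (nat_lit 212)) (XT.nd (nat_lit 78) (nat_lit 228) (nat_lit 0) (XT.lf (nat_lit 0) (nat_lit 8554799878) (nat_lit 152) (nat_lit 2239489959) (nat_lit 228) (nat_lit 3288145298) (nat_lit 21) (nat_lit 5) (nat_lit 23) (nat_lit 5) (nat_lit 24) (nat_lit 5) (nat_lit 262) (nat_lit 247) (nat_lit 211)) (XT.lf (nat_lit 0) (nat_lit 593277560) (nat_lit 228) (nat_lit 12698137294) (nat_lit 304) (nat_lit 1497297065) (nat_lit 18) (nat_lit 5) (nat_lit 21) (nat_lit 5) (nat_lit 22) (nat_lit 5) (nat_lit 263) (nat_lit 247) (nat_lit 210))))))) (XT.nd (nat_lit 936) (nat_lit 304) (nat_lit 0) (XT.nd (nat_lit 468) (nat_lit 304) (nat_lit 0) (XT.nd (nat_lit 234) (nat_lit 152) (nat_lit 0) (XT.nd (nat_lit 78) (nat_lit 152) (nat_lit 0) (XT.lf (nat_lit 0) (nat_lit 585197642) (nat_lit 304) (nat_lit 8149162276) (nat_lit 76) (nat_lit 6802910785)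 (nat_lit 17) (nat_lit 5) (nat_lit 21) (nat_lit 5) (nat_lit 18) (nat_lit 5) (nat_lit 264) (nat_lit 247) (nat_lit 209)) (XT.nd (nat_lit 78) (nat_lit 152) (nat_lit 0) (XT.lf (nat_lit 0) (nat_lit 2713584701) (nat_lit 304) (nat_lit 1709363984) (nat_lit 76) (nat_lit 11923060400) (nat_lit 17) (nat_lit 5) (nat_lit 21) (nat_lit 5) (nat_lit 18) (nat_lit 5) (nat_lit 265) (nat_lit 247) (nat_lit 208)) (XT.lf (nat_lit 0) (nat_lit 5115751319) (nat_lit 228) (nat_lit 11748991178) (nat_lit 76) (nat_lit 346628004) (nat_lit 15) (nat_lit 5) (nat_lit 18) (nat_lit 5) (nat_lit 16) (nat_lit 5) (nat_lit 266) (nat_lit 247) (nat_lit 207)))) (XT.nd (nat_lit 78) (nat_lit 152) (nat_lit 0) (XT.lf (nat_lit 0) (nat_lit 7837411157) (nat_lit 228) (nat_lit 5002270008) (nat_lit 76) (nat_lit 5296283563) (nat_lit 15) (nat_lit 5) (nat_lit 18) (nat_lit 5) (nat_lit 16) (nat_lit 5) (nat_lit 267) (nat_lit 247) (nat_lit 206))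 (XT.nd (nat_lit 78) (nat_lit 0) (nat_lit 0) (XT.lf (nat_lit 0) (nat_lit 2356683846) (nat_lit 152) (nat_lit 8443915938) (nat_lit 228) (nat_lit 8332198481) (nat_lit 13) (nat_lit 5) (nat_lit 15) (nat_lit 5) (nat_lit 16) (nat_lit 5) (nat_lit 268) (nat_lit 247) (nat_lit 205)) (XT.lf (nat_lit 0) (nat_lit 10544590921) (nat_lit 152) (nat_lit 3561512803) (nat_lit 228) (nat_lit 6095016402) (nat_lit 13) (nat_lit 5) (nat_lit 15) (nat_lit 5) (nat_lit 16) (nat_lit 5) (nat_lit 269) (nat_lit 247) (nat_lit 204))))) (XT.nd (nat_lit 234) (nat_lit 152) (nat_lit 0) (XT.nd (nat_lit 78) (nat_lit 152) (nat_lit 0) (XT.lf (nat_lit 0) (nat_lit 17687748987) (nat_lit 228) (nat_lit 2051708399) (nat_lit 76) (nat_lit 1614664691) (nat_lit 13) (nat_lit 5) (nat_lit 16) (nat_lit 5) (nat_lit 14) (nat_lit 4) (nat_lit 270) (nat_lit 247) (nat_lit 203)) (XT.nd (nat_lit 78) (nat_lit 76) (nat_lit 0) (XT.lf (nat_lit 0) (nat_lit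 6346496453) (nat_lit 76) (nat_lit 15427291682) (nat_lit 152) (nat_lit 808286349) (nat_lit 12) (nat_lit 5) (nat_lit 13) (nat_lit 5) (nat_lit 14) (nat_lit 4) (nat_lit 271) (nat_lit 247) (nat_lit 202)) (XT.lf (nat_lit 0) (nat_lit 2195027340) (nat_lit 152) (nat_lit 8467290246) (nat_lit 76) (nat_lit 13239236597) (nat_lit 11) (nat_lit 5) (nat_lit 13) (nat_lit 5) (nat_lit 12) (nat_lit 5) (nat_lit 272) (nat_lit 247) (nat_lit 201)))) (XT.nd (nat_lit 78) (nat_lit 152) (nat_lit 0) (XT.lf (nat_lit 0) (nat_lit 5369940219) (nat_lit 152) (nat_lit 136035119) (nat_lit 76) (nat_lit 19821047725) (nat_lit 11) (nat_lit 5) (nat_lit 13) (nat_lit 5) (nat_lit 12) (nat_lit 5) (nat_lit 273) (nat_lit 247) (nat_lit 200)) (XT.nd (nat_lit 78) (nat_lit 0) (nat_lit 0) (XT.lf (nat_lit 0) (nat_lit 9006206679) (nat_lit 228) (nat_lit 17565833013) (nat_lit 76) (nat_lit 278003293) (nat_lit 9) (nat_lit 5) (nat_lit 12) (nat_lit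 5) (nat_lit 10) (nat_lit 4) (nat_lit 274) (nat_lit 247) (nat_lit 199)) (XT.lf (nat_lit 0) (nat_lit 13057678656) (nat_lit 228) (nat_lit 9207344535) (nat_lit 76) (nat_lit 6220031766) (nat_lit 9) (nat_lit 5) (nat_lit 12) (nat_lit 5) (nat_lit 10) (nat_lit 4) (nat_lit 275) (nat_lit 247) (nat_lit 198)))))) (XT.nd (nat_lit 468) (nat_lit 76) (nat_lit 0) (XT.nd (nat_lit 234) (nat_lit 152) (nat_lit 0) (XT.nd (nat_lit 78) (nat_lit 76) (nat_lit 0) (XT.lf (nat_lit 0) (nat_lit 17412412652) (nat_lit 228) (nat_lit 212991557) (nat_lit 76) (nat_lit 12627219906) (nat_lit 9) (nat_lit 5) (nat_lit 12) (nat_lit 5) (nat_lit 10) (nat_lit 4) (nat_lit 276) (nat_lit 247) (nat_lit 197)) (XT.nd (nat_lit 78) (nat_lit 0) (nat_lit 0) (XT.lf (nat_lit 0) (nat_lit 9969226895) (nat_lit 76) (nat_lit 12366747751) (nat_lit 152) (nat_lit 9808069488) (nat_lit 8) (nat_lit 5) (nat_lit 9) (nat_lit 5) (nat_lit 10) (nat_lit 4)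 (nat_lit 277) (nat_lit 247) (nat_lit 196)) (XT.lf (nat_lit 0) (nat_lit 20948521186) (nat_lit 76) (nat_lit 6692131313) (nat_lit 152) (nat_lit 6547222032) (nat_lit 8) (nat_lit 5) (nat_lit 9) (nat_lit 5) (nat_lit 10) (nat_lit 4) (nat_lit 278) (nat_lit 247) (nat_lit 195)))) (XT.nd (nat_lit 78) (nat_lit 152) (nat_lit 0) (XT.lf (nat_lit 0) (nat_lit 32778738042) (nat_lit 76) (nat_lit 573751105) (nat_lit 152) (nat_lit 3044169121) (nat_lit 8) (nat_lit 5) (nat_lit 9) (nat_lit 5) (nat_lit 10) (nat_lit 4) (nat_lit 279) (nat_lit 247) (nat_lit 194)) (XT.nd (nat_lit 78) (nat_lit 0) (nat_lit 0) (XT.lf (nat_lit 0) (nat_lit 1005865002) (nat_lit 152) (nat_lit 31834753736) (nat_lit 76) (nat_lit 5915866726) (nat_lit 6) (nat_lit 5) (nat_lit 8) (nat_lit 5) (nat_lit 7) (nat_lit 4) (nat_lit 280) (nat_lit 247) (nat_lit 193)) (XT.lf (nat_lit 0) (nat_lit 5315777148) (nat_lit 152) (nat_lit 22910148295) (nat_lit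 76) (nat_lit 13064875997) (nat_lit 6) (nat_lit 5) (nat_lit 8) (nat_lit 5) (nat_lit 7) (nat_lit 4) (nat_lit 281) (nat_lit 247) (nat_lit 192))))) (XT.nd (nat_lit 234) (nat_lit 0) (nat_lit 0) (XT.nd (nat_lit 78) (nat_lit 76) (nat_lit 0) (XT.lf (nat_lit 0) (nat_lit 9955618523) (nat_lit 152) (nat_lit 13296326219) (nat_lit 76) (nat_lit 20777158264) (nat_lit 6) (nat_lit 5) (nat_lit 8) (nat_lit 5) (nat_lit 7) (nat_lit 4) (nat_lit 282) (nat_lit 247) (nat_lit 191)) (XT.nd (nat_lit 78) (nat_lit 76) (nat_lit 0) (XT.lf (nat_lit 0) (nat_lit 14952884483) (nat_lit 152) (nat_lit 2936316710) (nat_lit 76) (nat_lit 29098415942) (nat_lit 6) (nat_lit 5) (nat_lit 8) (nat_lit 5) (nat_lit 7) (nat_lit 4) (nat_lit 283) (nat_lit 247) (nat_lit 190)) (XT.lf (nat_lit 0) (nat_lit 8664717121) (nat_lit 76) (nat_lit 11880857990) (nat_lit 152) (nat_lit 29621629719) (nat_lit 5) (nat_lit 5) (nat_lit 6) (nat_lit 5) (nat_lit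 7) (nat_lit 4) (nat_lit 284) (nat_lit 247) (nat_lit 189)))) (XT.nd (nat_lit 78) (nat_lit 0) (nat_lit 0) (XT.lf (nat_lit 0) (nat_lit 21340141146) (nat_lit 76) (nat_lit 5313527191) (nat_lit 152) (nat_lit 26942092872) (nat_lit 5) (nat_lit 5) (nat_lit 6) (nat_lit 5) (nat_lit 7) (nat_lit 4) (nat_lit 285) (nat_lit 247) (nat_lit 188)) (XT.nd (nat_lit 78) (nat_lit 0) (nat_lit 0) (XT.lf (nat_lit 0) (nat_lit 33281625942) (nat_lit 152) (nat_lit 22331705662) (nat_lit 0) (nat_lit 1682810783) (nat_lit 5) (nat_lit 5) (nat_lit 7) (nat_lit 4) (nat_lit 5) (nat_lit 4) (nat_lit 286) (nat_lit 247) (nat_lit 187)) (XT.lf (nat_lit 0) (nat_lit 40567118436) (nat_lit 152) (nat_lit 11770329852) (nat_lit 0) (nat_lit 8944956763) (nat_lit 5) (nat_lit 5) (nat_lit 7) (nat_lit 4) (nat_lit 5) (nat_lit 4) (nat_lit 287) (nat_lit 247) (nat_lit 186))))))))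
noncomputable def xc64 : XT := (XT.nd (nat_lit 1794) (nat_lit 0) (nat_lit 0) (XT.nd (nat_lit 858) (nat_lit 76) (nat_lit 0) (XT.nd (nat_lit 390) (nat_lit 76) (nat_lit 0) (XT.nd (nat_lit 156) (nat_lit 76) (nat_lit 0) (XT.nd (nat_lit 78) (nat_lit 76) (nat_lit 0) (XT.lf (nat_lit 0) (nat_lit 48425528652) (nat_lit 152) (nat_lit 381116247) (nat_lit 0) (nat_lit 16781749836) (nat_lit 5) (nat_lit 5) (nat_lit 7) (nat_lit 4) (nat_lit 5) (nat_lit 4) (nat_lit 288) (nat_lit 247) (nat_lit 185)) (XT.lf (nat_lit 0) (nat_lit 12530240150) (nat_lit 76) (nat_lit 44674537374) (nat_lit 76) (nat_lit 13010742685) (nat_lit 4) (nat_lit 4) (nat_lit 5) (nat_lit 5) (nat_lit 5) (nat_lit 4) (nat_lit 289) (nat_lit 247) (nat_lit 184))) (XT.nd (nat_lit 78) (nat_lit 76) (nat_lit 0) (XT.lf (nat_lit 0) (nat_lit 26480772016) (nat_lit 76) (nat_lit 40207137896) (nat_lit 76) (nat_lit 8524809991) (nat_lit 4) (nat_lit 4) (nat_lit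 5) (nat_lit 5) (nat_lit 5) (nat_lit 4) (nat_lit 290) (nat_lit 247) (nat_lit 183)) (XT.nd (nat_lit 78) (nat_lit 76) (nat_lit 0) (XT.lf (nat_lit 0) (nat_lit 41533080262) (nat_lit 76) (nat_lit 35388393379) (nat_lit 76) (nat_lit 3688905089) (nat_lit 4) (nat_lit 4) (nat_lit 5) (nat_lit 5) (nat_lit 5) (nat_lit 4) (nat_lit 291) (nat_lit 247) (nat_lit 182)) (XT.lf (nat_lit 0) (nat_lit 1449311080) (nat_lit 152) (nat_lit 28700810487) (nat_lit 76) (nat_lit 56287425939) (nat_lit 3) (nat_lit 5) (nat_lit 5) (nat_lit 5) (nat_lit 4) (nat_lit 4) (nat_lit 292) (nat_lit 247) (nat_lit 181))))) (XT.nd (nat_lit 234) (nat_lit 0) (nat_lit 0) (XT.nd (nat_lit 78) (nat_lit 76) (nat_lit 0) (XT.lf (nat_lit 0) (nat_lit 6792037276) (nat_lit 152) (nat_lit 17602652263) (nat_lit 76) (nat_lit 68329135370) (nat_lit 3) (nat_lit 5) (nat_lit 5) (nat_lit 5) (nat_lit 4) (nat_lit 4) (nat_lit 293) (nat_lit 247) (nat_lit 180))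 (XT.nd (nat_lit 78) (nat_lit 76) (nat_lit 0) (XT.lf (nat_lit 0) (nat_lit 12555468070) (nat_lit 152) (nat_lit 5628338679) (nat_lit 76) (nat_lit 81329753667) (nat_lit 3) (nat_lit 5) (nat_lit 5) (nat_lit 5) (nat_lit 4) (nat_lit 4) (nat_lit 294) (nat_lit 247) (nat_lit 179)) (XT.lf (nat_lit 0) (nat_lit 7677130312) (nat_lit 76) (nat_lit 11281261982) (nat_lit 152) (nat_lit 87873826388) (nat_lit 2) (nat_lit 5) (nat_lit 3) (nat_lit 5) (nat_lit 4) (nat_lit 4) (nat_lit 295) (nat_lit 247) (nat_lit 178)))) (XT.nd (nat_lit 78) (nat_lit 0) (nat_lit 0) (XT.lf (nat_lit 0) (nat_lit 22356568798) (nat_lit 76) (nat_lit 3664860782) (nat_lit 152) (nat_lit 88703125842) (nat_lit 2) (nat_lit 5) (nat_lit 3) (nat_lit 5) (nat_lit 4) (nat_lit 4) (nat_lit 296) (nat_lit 247) (nat_lit 177)) (XT.nd (nat_lit 78) (nat_lit 0) (nat_lit 0) (XT.lf (nat_lit 0) (nat_lit 33753532737) (nat_lit 152) (nat_lit 85157738864) (nat_lit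 0) (nat_lit 4328700622) (nat_lit 2) (nat_lit 5) (nat_lit 4) (nat_lit 4) (nat_lit 2) (nat_lit 4) (nat_lit 297) (nat_lit 247) (nat_lit 176)) (XT.lf (nat_lit 0) (nat_lit 42194149290) (nat_lit 152) (nat_lit 77475245350) (nat_lit 0) (nat_lit 12760045953) (nat_lit 2) (nat_lit 5) (nat_lit 4) (nat_lit 4) (nat_lit 2) (nat_lit 4) (nat_lit 298) (nat_lit 247) (nat_lit 175)))))) (XT.nd (nat_lit 468) (nat_lit 76) (nat_lit 0) (XT.nd (nat_lit 234) (nat_lit 0) (nat_lit 0) (XT.nd (nat_lit 78) (nat_lit 0) (nat_lit 0) (XT.lf (nat_lit 0) (nat_lit 51305157721) (nat_lit 152) (nat_lit 69186840208) (nat_lit 0) (nat_lit 21862469919) (nat_lit 2) (nat_lit 5) (nat_lit 4) (nat_lit 4) (nat_lit 2) (nat_lit 4) (nat_lit 299) (nat_lit 247) (nat_lit 174)) (XT.nd (nat_lit 78) (nat_lit 0) (nat_lit 0) (XT.lf (nat_lit 0) (nat_lit 61140549189) (nat_lit 152) (nat_lit 60243406962) (nat_lit 0) (nat_lit 31689912809) (nat_lit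 2) (nat_lit 5) (nat_lit 4) (nat_lit 4) (nat_lit 2) (nat_lit 4) (nat_lit 300) (nat_lit 247) (nat_lit 173)) (XT.lf (nat_lit 0) (nat_lit 71758607497) (nat_lit 152) (nat_lit 50591947489) (nat_lit 0) (nat_lit 42300611321) (nat_lit 2) (nat_lit 5) (nat_lit 4) (nat_lit 4) (nat_lit 2) (nat_lit 4) (nat_lit 301) (nat_lit 247) (nat_lit 172)))) (XT.nd (nat_lit 78) (nat_lit 0) (nat_lit 0) (XT.lf (nat_lit 0) (nat_lit 83222254470) (nat_lit 152) (nat_lit 40175267955) (nat_lit 0) (nat_lit 53757443670) (nat_lit 2) (nat_lit 5) (nat_lit 4) (nat_lit 4) (nat_lit 2) (nat_lit 4) (nat_lit 302) (nat_lit 247) (nat_lit 171)) (XT.nd (nat_lit 78) (nat_lit 0) (nat_lit 0) (XT.lf (nat_lit 0) (nat_lit 95599422833) (nat_lit 152) (nat_lit 28931639889) (nat_lit 0) (nat_lit 66128302194) (nat_lit 2) (nat_lit 5) (nat_lit 4) (nat_lit 4) (nat_lit 2) (nat_lit 4) (nat_lit 303) (nat_lit 247) (nat_lit 170)) (XT.lf (nat_lit 0)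 (nat_lit 108963458767) (nat_lit 152) (nat_lit 16794434383) (nat_lit 0) (nat_lit 79486495686) (nat_lit 2) (nat_lit 5) (nat_lit 4) (nat_lit 4) (nat_lit 2) (nat_lit 4) (nat_lit 304) (nat_lit 247) (nat_lit 169))))) (XT.nd (nat_lit 234) (nat_lit 0) (nat_lit 0) (XT.nd (nat_lit 78) (nat_lit 76) (nat_lit 0) (XT.lf (nat_lit 0) (nat_lit 123393556560) (nat_lit 152) (nat_lit 3691727258) (nat_lit 0) (nat_lit 93911183810) (nat_lit 2) (nat_lit 5) (nat_lit 4) (nat_lit 4) (nat_lit 2) (nat_lit 4) (nat_lit 305) (nat_lit 247) (nat_lit 168)) (XT.nd (nat_lit 78) (nat_lit 0) (nat_lit 0) (XT.lf (nat_lit 0) (nat_lit 11004622968) (nat_lit 76) (nat_lit 128235266382) (nat_lit 76) (nat_lit 98747884679) (nat_lit 1) (nat_lit 4) (nat_lit 2) (nat_lit 5) (nat_lit 2) (nat_lit 4) (nat_lit 306) (nat_lit 247) (nat_lit 167)) (XT.lf (nat_lit 0) (nat_lit 27081692071) (nat_lit 76) (nat_lit 129370431899) (nat_lit 76) (nat_lit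 99878412277) (nat_lit 1) (nat_lit 4) (nat_lit 2) (nat_lit 5) (nat_lit 2) (nat_lit 4) (nat_lit 307) (nat_lit 247) (nat_lit 166)))) (XT.nd (nat_lit 78) (nat_lit 0) (nat_lit 0) (XT.lf (nat_lit 0) (nat_lit 44440351757) (nat_lit 76) (nat_lit 130598445644) (nat_lit 76) (nat_lit 101102131652) (nat_lit 1) (nat_lit 4) (nat_lit 2) (nat_lit 5) (nat_lit 2) (nat_lit 4) (nat_lit 308) (nat_lit 247) (nat_lit 165)) (XT.nd (nat_lit 78) (nat_lit 0) (nat_lit 0) (XT.lf (nat_lit 0) (nat_lit 63183468155) (nat_lit 76) (nat_lit 131926584734) (nat_lit 76) (nat_lit 102426294474) (nat_lit 1) (nat_lit 4) (nat_lit 2) (nat_lit 5) (nat_lit 2) (nat_lit 4) (nat_lit 309) (nat_lit 247) (nat_lit 164)) (XT.lf (nat_lit 0) (nat_lit 83422111587) (nat_lit 76) (nat_lit 133362719623) (nat_lit 76) (nat_lit 103858747633) (nat_lit 1) (nat_lit 4) (nat_lit 2) (nat_lit 5) (nat_lit 2) (nat_lit 4) (nat_lit 310) (nat_lit 247) (nat_lit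 163))))))) (XT.nd (nat_lit 936) (nat_lit 0) (nat_lit 0) (XT.nd (nat_lit 468) (nat_lit 0) (nat_lit 0) (XT.nd (nat_lit 234) (nat_lit 0) (nat_lit 0) (XT.nd (nat_lit 78) (nat_lit 0) (nat_lit 0) (XT.lf (nat_lit 0) (nat_lit 105276214753) (nat_lit 76) (nat_lit 134915360741) (nat_lit 76) (nat_lit 105407979742) (nat_lit 1) (nat_lit 4) (nat_lit 2) (nat_lit 5) (nat_lit 2) (nat_lit 4) (nat_lit 311) (nat_lit 247) (nat_lit 162)) (XT.nd (nat_lit 78) (nat_lit 0) (nat_lit 0) (XT.lf (nat_lit 0) (nat_lit 128875283451) (nat_lit 76) (nat_lit 136593708923) (nat_lit 76) (nat_lit 107083171434) (nat_lit 1) (nat_lit 4) (nat_lit 2) (nat_lit 5) (nat_lit 2) (nat_lit 4) (nat_lit 312) (nat_lit 247) (nat_lit 161)) (XT.lf (nat_lit 0) (nat_lit 154359164012) (nat_lit 76) (nat_lit 138407709937) (nat_lit 76) (nat_lit 108894249772) (nat_lit 1) (nat_lit 4) (nat_lit 2) (nat_lit 5) (nat_lit 2) (nat_lit 4) (nat_lit 313) (nat_lit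 247) (nat_lit 160)))) (XT.nd (nat_lit 78) (nat_lit 0) (nat_lit 0) (XT.lf (nat_lit 0) (nat_lit 181878872027) (nat_lit 76) (nat_lit 140368113418) (nat_lit 76) (nat_lit 110851947072) (nat_lit 1) (nat_lit 4) (nat_lit 2) (nat_lit 5) (nat_lit 2) (nat_lit 4) (nat_lit 314) (nat_lit 247) (nat_lit 159)) (XT.nd (nat_lit 78) (nat_lit 0) (nat_lit 0) (XT.lf (nat_lit 0) (nat_lit 211597487245) (nat_lit 76) (nat_lit 142486536573) (nat_lit 76) (nat_lit 112967864503) (nat_lit 1) (nat_lit 4) (nat_lit 2) (nat_lit 5) (nat_lit 2) (nat_lit 4) (nat_lit 315) (nat_lit 247) (nat_lit 158)) (XT.lf (nat_lit 0) (nat_lit 243691119980) (nat_lit 76) (nat_lit 144775533019) (nat_lit 76) (nat_lit 115254540835) (nat_lit 1) (nat_lit 4) (nat_lit 2) (nat_lit 5) (nat_lit 2) (nat_lit 4) (nat_lit 316) (nat_lit 247) (nat_lit 157))))) (XT.nd (nat_lit 234) (nat_lit 0) (nat_lit 0) (XT.nd (nat_lit 78) (nat_lit 0) (nat_lit 0) (XT.lf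 (nat_lit 0) (nat_lit 278349954721) (nat_lit 76) (nat_lit 147248667180) (nat_lit 76) (nat_lit 117725526742) (nat_lit 1) (nat_lit 4) (nat_lit 2) (nat_lit 5) (nat_lit 2) (nat_lit 4) (nat_lit 317) (nat_lit 247) (nat_lit 156)) (XT.nd (nat_lit 78) (nat_lit 0) (nat_lit 0) (XT.lf (nat_lit 0) (nat_lit 315779377156) (nat_lit 76) (nat_lit 149920594666) (nat_lit 76) (nat_lit 120395465104) (nat_lit 1) (nat_lit 4) (nat_lit 2) (nat_lit 5) (nat_lit 2) (nat_lit 4) (nat_lit 318) (nat_lit 247) (nat_lit 155)) (XT.lf (nat_lit 0) (nat_lit 356201191270) (nat_lit 76) (nat_lit 152807149122) (nat_lit 76) (nat_lit 123280177778) (nat_lit 1) (nat_lit 4) (nat_lit 2) (nat_lit 5) (nat_lit 2) (nat_lit 4) (nat_lit 319) (nat_lit 247) (nat_lit 154)))) (XT.nd (nat_lit 78) (nat_lit 0) (nat_lit 0) (XT.lf (nat_lit 0) (nat_lit 399854933738) (nat_lit 76) (nat_lit 155925436054) (nat_lit 76) (nat_lit 126396759358) (nat_lit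 1) (nat_lit 4) (nat_lit 2) (nat_lit 5) (nat_lit 2) (nat_lit 4) (nat_lit 320) (nat_lit 247) (nat_lit 153)) (XT.nd (nat_lit 78) (nat_lit 0) (nat_lit 0) (XT.lf (nat_lit 0) (nat_lit 446999293406) (nat_lit 76) (nat_lit 159293934202) (nat_lit 76) (nat_lit 129763678474) (nat_lit 1) (nat_lit 4) (nat_lit 2) (nat_lit 5) (nat_lit 2) (nat_lit 4) (nat_lit 321) (nat_lit 247) (nat_lit 152)) (XT.lf (nat_lit 0) (nat_lit 497913644257) (nat_lit 76) (nat_lit 162932605034) (nat_lit 76) (nat_lit 133400887241) (nat_lit 1) (nat_lit 4) (nat_lit 2) (nat_lit 5) (nat_lit 2) (nat_lit 4) (nat_lit 322) (nat_lit 247) (nat_lit 151)))))) (XT.nd (nat_lit 468) (nat_lit 0) (nat_lit 0) (XT.nd (nat_lit 234) (nat_lit 0) (nat_lit 0) (XT.nd (nat_lit 78) (nat_lit 0) (nat_lit 0) (XT.lf (nat_lit 0) (nat_lit 552899700962) (nat_lit 76) (nat_lit 166863011046) (nat_lit 76) (nat_lit 137329939488) (nat_lit 1) (nat_lit 4) (nat_lit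 2) (nat_lit 5) (nat_lit 2) (nat_lit 4) (nat_lit 323) (nat_lit 247) (nat_lit 150)) (XT.nd (nat_lit 78) (nat_lit 0) (nat_lit 0) (XT.lf (nat_lit 0) (nat_lit 612283306819) (nat_lit 76) (nat_lit 171108443531) (nat_lit 76) (nat_lit 141574118488) (nat_lit 1) (nat_lit 4) (nat_lit 2) (nat_lit 5) (nat_lit 2) (nat_lit 4) (nat_lit 324) (nat_lit 247) (nat_lit 149)) (XT.lf (nat_lit 0) (nat_lit 676416364680) (nat_lit 76) (nat_lit 175694060609) (nat_lit 76) (nat_lit 146158574931) (nat_lit 1) (nat_lit 4) (nat_lit 2) (nat_lit 5) (nat_lit 2) (nat_lit 4) (nat_lit 325) (nat_lit 247) (nat_lit 148)))) (XT.nd (nat_lit 78) (nat_lit 0) (nat_lit 0) (XT.lf (nat_lit 0) (nat_lit 745678922293) (nat_lit 76) (nat_lit 180647036306) (nat_lit 76) (nat_lit 151110475966) (nat_lit 1) (nat_lit 4) (nat_lit 2) (nat_lit 5) (nat_lit 2) (nat_lit 4) (nat_lit 326) (nat_lit 247) (nat_lit 147)) (XT.nd (nat_lit 78) (nat_lit 0) (nat_lit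 0) (XT.lf (nat_lit 0) (nat_lit 820481424446) (nat_lit 76) (nat_lit 185996721589) (nat_lit 76) (nat_lit 156459166192) (nat_lit 1) (nat_lit 4) (nat_lit 2) (nat_lit 5) (nat_lit 2) (nat_lit 4) (nat_lit 327) (nat_lit 247) (nat_lit 146)) (XT.lf (nat_lit 0) (nat_lit 901267145223) (nat_lit 76) (nat_lit 191774818298) (nat_lit 76) (nat_lit 162236341552) (nat_lit 1) (nat_lit 4) (nat_lit 2) (nat_lit 5) (nat_lit 2) (nat_lit 4) (nat_lit 328) (nat_lit 247) (nat_lit 145))))) (XT.nd (nat_lit 234) (nat_lit 0) (nat_lit 0) (XT.nd (nat_lit 78) (nat_lit 0) (nat_lit 0) (XT.lf (nat_lit 0) (nat_lit 988514814824) (nat_lit 76) (nat_lit 198015567005) (nat_lit 76) (nat_lit 168476237157) (nat_lit 1) (nat_lit 4) (nat_lit 2) (nat_lit 5) (nat_lit 2) (nat_lit 4) (nat_lit 329) (nat_lit 247) (nat_lit 144)) (XT.nd (nat_lit 78) (nat_lit 0) (nat_lit 0) (XT.lf (nat_lit 0) (nat_lit 1082741456475) (nat_lit 76) (nat_lit 204755949925)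 (nat_lit 76) (nat_lit 175215830169) (nat_lit 1) (nat_lit 4) (nat_lit 2) (nat_lit 5) (nat_lit 2) (nat_lit 4) (nat_lit 330) (nat_lit 247) (nat_lit 143)) (XT.lf (nat_lit 0) (nat_lit 1184505450275) (nat_lit 76) (nat_lit 212035910067) (nat_lit 76) (nat_lit 182495058914) (nat_lit 1) (nat_lit 4) (nat_lit 2) (nat_lit 5) (nat_lit 2) (nat_lit 4) (nat_lit 331) (nat_lit 247) (nat_lit 142)))) (XT.nd (nat_lit 78) (nat_lit 0) (nat_lit 0) (XT.lf (nat_lit 0) (nat_lit 1294409842112) (nat_lit 76) (nat_lit 219898587937) (nat_lit 76) (nat_lit 190357059565) (nat_lit 1) (nat_lit 4) (nat_lit 2) (nat_lit 5) (nat_lit 2) (nat_lit 4) (nat_lit 332) (nat_lit 247) (nat_lit 141)) (XT.nd (nat_lit 78) (nat_lit 0) (nat_lit 0) (XT.lf (nat_lit 0) (nat_lit 1413105917273) (nat_lit 76) (nat_lit 228390577181) (nat_lit 76) (nat_lit 198848421754) (nat_lit 1) (nat_lit 4) (nat_lit 2) (nat_lit 5) (nat_lit 2) (nat_lit 4) (nat_lit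 333) (nat_lit 247) (nat_lit 140)) (XT.lf (nat_lit 0) (nat_lit 1541297059905) (nat_lit 76) (nat_lit 237562200698) (nat_lit 76) (nat_lit 208019464664) (nat_lit 1) (nat_lit 4) (nat_lit 2) (nat_lit 5) (nat_lit 2) (nat_lit 4) (nat_lit 334) (nat_lit 247) (nat_lit 139))))))))
noncomputable def xc65 : XT := (XT.nd (nat_lit 1872) (nat_lit 760) (nat_lit 0) (XT.nd (nat_lit 936) (nat_lit 988) (nat_lit 0) (XT.nd (nat_lit 468) (nat_lit 760) (nat_lit 0) (XT.nd (nat_lit 234) (nat_lit 0) (nat_lit 0) (XT.nd (nat_lit 78) (nat_lit 0) (nat_lit 0) (XT.lf (nat_lit 0) (nat_lit 167170663) (nat_lit 0) (nat_lit 167170663) (nat_lit 380) (nat_lit 3844169048) (nat_lit 36) (nat_lit 5) (nat_lit 36) (nat_lit 3) (nat_lit 41) (nat_lit 3) (nat_lit 248) (nat_lit 248) (nat_lit 224)) (XT.nd (nat_lit 78) (nat_lit 0) (nat_lit 0) (XT.lf (nat_lit 0) (nat_lit 1705880576) (nat_lit 380) (nat_lit 4626195149) (nat_lit 456) (nat_lit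 2270821405) (nat_lit 36) (nat_lit 5) (nat_lit 41) (nat_lit 3) (nat_lit 42) (nat_lit 5) (nat_lit 249) (nat_lit 248) (nat_lit 223)) (XT.lf (nat_lit 0) (nat_lit 2740543025) (nat_lit 380) (nat_lit 1023878366) (nat_lit 456) (nat_lit 5111620336) (nat_lit 36) (nat_lit 5) (nat_lit 41) (nat_lit 3) (nat_lit 42) (nat_lit 5) (nat_lit 250) (nat_lit 248) (nat_lit 222)))) (XT.nd (nat_lit 78) (nat_lit 0) (nat_lit 76) (XT.lf (nat_lit 76) (nat_lit 2961821195) (nat_lit 0) (nat_lit 880171094) (nat_lit 456) (nat_lit 5331025613) (nat_lit 37) (nat_lit 5) (nat_lit 36) (nat_lit 5) (nat_lit 42) (nat_lit 5) (nat_lit 251) (nat_lit 248) (nat_lit 221)) (XT.nd (nat_lit 78) (nat_lit 0) (nat_lit 0) (XT.lf (nat_lit 0) (nat_lit 5032758242) (nat_lit 380) (nat_lit 2280945192) (nat_lit 456) (nat_lit 2180601858) (nat_lit 37) (nat_lit 5) (nat_lit 42) (nat_lit 5) (nat_lit 43) (nat_lit 5) (nat_lit 252) (nat_lit 248) (nat_lit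 220)) (XT.lf (nat_lit 76) (nat_lit 1985011705) (nat_lit 0) (nat_lit 4329126327) (nat_lit 456) (nat_lit 3528130529) (nat_lit 38) (nat_lit 5) (nat_lit 37) (nat_lit 5) (nat_lit 43) (nat_lit 5) (nat_lit 253) (nat_lit 248) (nat_lit 219))))) (XT.nd (nat_lit 234) (nat_lit 532) (nat_lit 0) (XT.nd (nat_lit 78) (nat_lit 304) (nat_lit 0) (XT.lf (nat_lit 76) (nat_lit 6668209293) (nat_lit 0) (nat_lit 1021216550) (nat_lit 456) (nat_lit 2529887807) (nat_lit 38) (nat_lit 5) (nat_lit 37) (nat_lit 5) (nat_lit 43) (nat_lit 5) (nat_lit 254) (nat_lit 248) (nat_lit 218)) (XT.nd (nat_lit 78) (nat_lit 0) (nat_lit 0) (XT.lf (nat_lit 0) (nat_lit 1033975695) (nat_lit 380) (nat_lit 8161660265) (nat_lit 456) (nat_lit 1429729782) (nat_lit 33) (nat_lit 5) (nat_lit 38) (nat_lit 5) (nat_lit 39) (nat_lit 5) (nat_lit 255) (nat_lit 248) (nat_lit 217)) (XT.lf (nat_lit 0) (nat_lit 6105381807) (nat_lit 380) (nat_lit 4778108863)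 (nat_lit 456) (nat_lit 175996676) (nat_lit 33) (nat_lit 5) (nat_lit 38) (nat_lit 5) (nat_lit 39) (nat_lit 5) (nat_lit 256) (nat_lit 248) (nat_lit 216)))) (XT.nd (nat_lit 78) (nat_lit 456) (nat_lit 0) (XT.lf (nat_lit 0) (nat_lit 1059977436) (nat_lit 456) (nat_lit 28167622) (nat_lit 76) (nat_lit 10443066378) (nat_lit 32) (nat_lit 5) (nat_lit 38) (nat_lit 5) (nat_lit 33) (nat_lit 5) (nat_lit 257) (nat_lit 248) (nat_lit 215)) (XT.nd (nat_lit 78) (nat_lit 0) (nat_lit 0) (XT.lf (nat_lit 0) (nat_lit 2536512773) (nat_lit 532) (nat_lit 6594747451) (nat_lit 76) (nat_lit 2897330977) (nat_lit 26) (nat_lit 5) (nat_lit 33) (nat_lit 5) (nat_lit 27) (nat_lit 5) (nat_lit 258) (nat_lit 248) (nat_lit 214)) (XT.lf (nat_lit 0) (nat_lit 4108435580) (nat_lit 532) (nat_lit 1312872501) (nat_lit 76) (nat_lit 7146622827) (nat_lit 26) (nat_lit 5) (nat_lit 33) (nat_lit 5) (nat_lit 27) (nat_lit 5) (nat_lit 259)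 (nat_lit 248) (nat_lit 213)))))) (XT.nd (nat_lit 468) (nat_lit 304) (nat_lit 0) (XT.nd (nat_lit 234) (nat_lit 304) (nat_lit 0) (XT.nd (nat_lit 78) (nat_lit 152) (nat_lit 0) (XT.lf (nat_lit 0) (nat_lit 4570846157) (nat_lit 228) (nat_lit 1297242217) (nat_lit 304) (nat_lit 7277696075) (nat_lit 23) (nat_lit 5) (nat_lit 26) (nat_lit 5) (nat_lit 27) (nat_lit 5) (nat_lit 260) (nat_lit 248) (nat_lit 212)) (XT.nd (nat_lit 78) (nat_lit 152) (nat_lit 0) (XT.lf (nat_lit 0) (nat_lit 7835642796) (nat_lit 304) (nat_lit 2895913203) (nat_lit 76) (nat_lit 3033240620) (nat_lit 23) (nat_lit 5) (nat_lit 27) (nat_lit 5) (nat_lit 24) (nat_lit 5) (nat_lit 261) (nat_lit 248) (nat_lit 211)) (XT.lf (nat_lit 0) (nat_lit 3321765898) (nat_lit 152) (nat_lit 6710178904) (nat_lit 228) (nat_lit 4395955924) (nat_lit 21) (nat_lit 5) (nat_lit 23) (nat_lit 5) (nat_lit 24) (nat_lit 5) (nat_lit 262) (nat_lit 248) (nat_lit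 210)))) (XT.nd (nat_lit 78) (nat_lit 304) (nat_lit 0) (XT.lf (nat_lit 0) (nat_lit 10154629677) (nat_lit 152) (nat_lit 2288261158) (nat_lit 228) (nat_lit 2698304936) (nat_lit 21) (nat_lit 5) (nat_lit 23) (nat_lit 5) (nat_lit 24) (nat_lit 5) (nat_lit 263) (nat_lit 248) (nat_lit 209)) (XT.nd (nat_lit 78) (nat_lit 76) (nat_lit 0) (XT.lf (nat_lit 0) (nat_lit 1596070140) (nat_lit 228) (nat_lit 13511442553) (nat_lit 304) (nat_lit 799416417) (nat_lit 18) (nat_lit 5) (nat_lit 21) (nat_lit 5) (nat_lit 22) (nat_lit 5) (nat_lit 264) (nat_lit 248) (nat_lit 208)) (XT.lf (nat_lit 0) (nat_lit 1351237090) (nat_lit 304) (nat_lit 7874664435) (nat_lit 76) (nat_lit 7492820324) (nat_lit 17) (nat_lit 5) (nat_lit 21) (nat_lit 5) (nat_lit 18) (nat_lit 5) (nat_lit 265) (nat_lit 248) (nat_lit 207))))) (XT.nd (nat_lit 234) (nat_lit 152) (nat_lit 0) (XT.nd (nat_lit 78) (nat_lit 152) (nat_lit 0) (XT.lf (nat_lit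 0) (nat_lit 3596619289) (nat_lit 304) (nat_lit 988306785) (nat_lit 76) (nat_lit 13011791044) (nat_lit 17) (nat_lit 5) (nat_lit 21) (nat_lit 5) (nat_lit 18) (nat_lit 5) (nat_lit 266) (nat_lit 248) (nat_lit 206)) (XT.nd (nat_lit 78) (nat_lit 0) (nat_lit 0) (XT.lf (nat_lit 0) (nat_lit 6166532440) (nat_lit 228) (nat_lit 11803254331) (nat_lit 76) (nat_lit 563748661) (nat_lit 15) (nat_lit 5) (nat_lit 18) (nat_lit 5) (nat_lit 16) (nat_lit 5) (nat_lit 267) (nat_lit 248) (nat_lit 205)) (XT.lf (nat_lit 0) (nat_lit 9058404990) (nat_lit 228) (nat_lit 4582399626) (nat_lit 76) (nat_lit 5895347745) (nat_lit 15) (nat_lit 5) (nat_lit 18) (nat_lit 5) (nat_lit 16) (nat_lit 5) (nat_lit 268) (nat_lit 248) (nat_lit 204)))) (XT.nd (nat_lit 78) (nat_lit 0) (nat_lit 0) (XT.lf (nat_lit 0) (nat_lit 3344509727) (nat_lit 152) (nat_lit 8889361883) (nat_lit 228) (nat_lit 8381077915) (nat_lit 13) (nat_lit 5) (nat_lit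 15) (nat_lit 5) (nat_lit 16) (nat_lit 5) (nat_lit 269) (nat_lit 248) (nat_lit 203)) (XT.nd (nat_lit 78) (nat_lit 0) (nat_lit 0) (XT.lf (nat_lit 0) (nat_lit 12128242614) (nat_lit 152) (nat_lit 3633408521) (nat_lit 228) (nat_lit 6010676562) (nat_lit 13) (nat_lit 5) (nat_lit 15) (nat_lit 5) (nat_lit 16) (nat_lit 5) (nat_lit 270) (nat_lit 248) (nat_lit 202)) (XT.lf (nat_lit 0) (nat_lit 19595530367) (nat_lit 228) (nat_lit 1493768039) (nat_lit 76) (nat_lit 1931216494) (nat_lit 13) (nat_lit 5) (nat_lit 16) (nat_lit 5) (nat_lit 14) (nat_lit 4) (nat_lit 271) (nat_lit 248) (nat_lit 201))))))) (XT.nd (nat_lit 936) (nat_lit 228) (nat_lit 0) (XT.nd (nat_lit 468) (nat_lit 152) (nat_lit 0) (XT.nd (nat_lit 234) (nat_lit 76) (nat_lit 0) (XT.nd (nat_lit 78) (nat_lit 228) (nat_lit 0) (XT.lf (nat_lit 0) (nat_lit 7558012770) (nat_lit 76) (nat_lit 16430865353) (nat_lit 152) (nat_lit 359577710) (nat_lit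 12) (nat_lit 5) (nat_lit 13) (nat_lit 5) (nat_lit 14) (nat_lit 4) (nat_lit 272) (nat_lit 248) (nat_lit 200)) (XT.nd (nat_lit 78) (nat_lit 152) (nat_lit 0) (XT.lf (nat_lit 0) (nat_lit 2822194919) (nat_lit 152) (nat_lit 8467234009) (nat_lit 76) (nat_lit 14486127054) (nat_lit 11) (nat_lit 5) (nat_lit 13) (nat_lit 5) (nat_lit 12) (nat_lit 5) (nat_lit 273) (nat_lit 248) (nat_lit 199)) (XT.lf (nat_lit 0) (nat_lit 505634722) (nat_lit 152) (nat_lit 5724177344) (nat_lit 228) (nat_lit 21087101356) (nat_lit 9) (nat_lit 5) (nat_lit 11) (nat_lit 5) (nat_lit 12) (nat_lit 5) (nat_lit 274) (nat_lit 248) (nat_lit 198)))) (XT.nd (nat_lit 78) (nat_lit 76) (nat_lit 0) (XT.lf (nat_lit 0) (nat_lit 10133590643) (nat_lit 228) (nat_lit 18330899859) (nat_lit 76) (nat_lit 499292561) (nat_lit 9) (nat_lit 5) (nat_lit 12) (nat_lit 5) (nat_lit 10) (nat_lit 4) (nat_lit 275) (nat_lit 248) (nat_lit 197)) (XT.nd (nat_lit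 78) (nat_lit 76) (nat_lit 0) (XT.lf (nat_lit 0) (nat_lit 14479040568) (nat_lit 228) (nat_lit 9351154510) (nat_lit 76) (nat_lit 6901938941) (nat_lit 9) (nat_lit 5) (nat_lit 12) (nat_lit 5) (nat_lit 10) (nat_lit 4) (nat_lit 276) (nat_lit 248) (nat_lit 196)) (XT.lf (nat_lit 0) (nat_lit 335626659) (nat_lit 76) (nat_lit 18826691223) (nat_lit 152) (nat_lit 13480495107) (nat_lit 8) (nat_lit 5) (nat_lit 9) (nat_lit 5) (nat_lit 10) (nat_lit 4) (nat_lit 277) (nat_lit 248) (nat_lit 195))))) (XT.nd (nat_lit 234) (nat_lit 152) (nat_lit 0) (XT.nd (nat_lit 78) (nat_lit 0) (nat_lit 0) (XT.lf (nat_lit 0) (nat_lit 11301737788) (nat_lit 76) (nat_lit 13156981297) (nat_lit 152) (nat_lit 10228619931) (nat_lit 8) (nat_lit 5) (nat_lit 9) (nat_lit 5) (nat_lit 10) (nat_lit 4) (nat_lit 278) (nat_lit 248) (nat_lit 194)) (XT.nd (nat_lit 78) (nat_lit 0) (nat_lit 0) (XT.lf (nat_lit 0) (nat_lit 23119748012) (nat_lit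 76) (nat_lit 7043144157) (nat_lit 152) (nat_lit 6733874686) (nat_lit 8) (nat_lit 5) (nat_lit 9) (nat_lit 5) (nat_lit 10) (nat_lit 4) (nat_lit 279) (nat_lit 248) (nat_lit 193)) (XT.lf (nat_lit 0) (nat_lit 35859689985) (nat_lit 76) (nat_lit 448949656) (nat_lit 152) (nat_lit 2975549773) (nat_lit 8) (nat_lit 5) (nat_lit 9) (nat_lit 5) (nat_lit 10) (nat_lit 4) (nat_lit 280) (nat_lit 248) (nat_lit 192)))) (XT.nd (nat_lit 78) (nat_lit 0) (nat_lit 0) (XT.lf (nat_lit 0) (nat_lit 1376320106) (nat_lit 152) (nat_lit 33898635931) (nat_lit 76) (nat_lit 6557850243) (nat_lit 6) (nat_lit 5) (nat_lit 8) (nat_lit 5) (nat_lit 7) (nat_lit 4) (nat_lit 281) (nat_lit 248) (nat_lit 191)) (XT.nd (nat_lit 78) (nat_lit 0) (nat_lit 0) (XT.lf (nat_lit 0) (nat_lit 6009544786) (nat_lit 152) (nat_lit 24295832285) (nat_lit 76) (nat_lit 14266282909) (nat_lit 6) (nat_lit 5) (nat_lit 8) (nat_lit 5) (nat_lit 7) (nat_lit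 4) (nat_lit 282) (nat_lit 248) (nat_lit 190)) (XT.lf (nat_lit 0) (nat_lit 11000684177) (nat_lit 152) (nat_lit 13946025026) (nat_lit 76) (nat_lit 22583976140) (nat_lit 6) (nat_lit 5) (nat_lit 8) (nat_lit 5) (nat_lit 7) (nat_lit 4) (nat_lit 283) (nat_lit 248) (nat_lit 189)))))) (XT.nd (nat_lit 468) (nat_lit 152) (nat_lit 0) (XT.nd (nat_lit 234) (nat_lit 0) (nat_lit 0) (XT.nd (nat_lit 78) (nat_lit 76) (nat_lit 0) (XT.lf (nat_lit 0) (nat_lit 16379315402) (nat_lit 152) (nat_lit 2787881964) (nat_lit 76) (nat_lit 31560219971) (nat_lit 6) (nat_lit 5) (nat_lit 8) (nat_lit 5) (nat_lit 7) (nat_lit 4) (nat_lit 284) (nat_lit 248) (nat_lit 188)) (XT.nd (nat_lit 78) (nat_lit 0) (nat_lit 0) (XT.lf (nat_lit 0) (nat_lit 9731529762) (nat_lit 76) (nat_lit 12679825592) (nat_lit 152) (nat_lit 31750720721) (nat_lit 5) (nat_lit 5) (nat_lit 6) (nat_lit 5) (nat_lit 7) (nat_lit 4) (nat_lit 285) (nat_lit 248)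 (nat_lit 187)) (XT.lf (nat_lit 0) (nat_lit 23393311023) (nat_lit 76) (nat_lit 5598330627) (nat_lit 152) (nat_lit 28874646064) (nat_lit 5) (nat_lit 5) (nat_lit 6) (nat_lit 5) (nat_lit 7) (nat_lit 4) (nat_lit 286) (nat_lit 248) (nat_lit 186)))) (XT.nd (nat_lit 78) (nat_lit 0) (nat_lit 0) (XT.lf (nat_lit 0) (nat_lit 36137724121) (nat_lit 152) (nat_lit 23785168717) (nat_lit 0) (nat_lit 1940825857) (nat_lit 5) (nat_lit 5) (nat_lit 7) (nat_lit 4) (nat_lit 5) (nat_lit 4) (nat_lit 287) (nat_lit 248) (nat_lit 185)) (XT.nd (nat_lit 78) (nat_lit 0) (nat_lit 0) (XT.lf (nat_lit 0) (nat_lit 43991717637) (nat_lit 152) (nat_lit 12403554947) (nat_lit 0) (nat_lit 9774803500) (nat_lit 5) (nat_lit 5) (nat_lit 7) (nat_lit 4) (nat_lit 5) (nat_lit 4) (nat_lit 288) (nat_lit 248) (nat_lit 184)) (XT.lf (nat_lit 0) (nat_lit 52465524394) (nat_lit 152) (nat_lit 126048793) (nat_lit 0) (nat_lit 18230077042) (nat_lit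 5) (nat_lit 5) (nat_lit 7) (nat_lit 4) (nat_lit 5) (nat_lit 4) (nat_lit 289) (nat_lit 248) (nat_lit 183))))) (XT.nd (nat_lit 234) (nat_lit 76) (nat_lit 0) (XT.nd (nat_lit 78) (nat_lit 0) (nat_lit 0) (XT.lf (nat_lit 0) (nat_lit 13810986831) (nat_lit 76) (nat_lit 48130527280) (nat_lit 76) (nat_lit 13877919542) (nat_lit 4) (nat_lit 4) (nat_lit 5) (nat_lit 5) (nat_lit 5) (nat_lit 4) (nat_lit 290) (nat_lit 248) (nat_lit 182)) (XT.nd (nat_lit 78) (nat_lit 0) (nat_lit 0) (XT.lf (nat_lit 0) (nat_lit 28856944397) (nat_lit 76) (nat_lit 43314474590) (nat_lit 76) (nat_lit 9045977607) (nat_lit 4) (nat_lit 4) (nat_lit 5) (nat_lit 5) (nat_lit 5) (nat_lit 4) (nat_lit 291) (nat_lit 248) (nat_lit 181)) (XT.lf (nat_lit 0) (nat_lit 45094347627) (nat_lit 76) (nat_lit 38118321944) (nat_lit 76) (nat_lit 3835112697) (nat_lit 4) (nat_lit 4) (nat_lit 5) (nat_lit 5) (nat_lit 5) (nat_lit 4) (nat_lit 292) (nat_lit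 248) (nat_lit 180)))) (XT.nd (nat_lit 78) (nat_lit 0) (nat_lit 0) (XT.lf (nat_lit 0) (nat_lit 1696233724) (nat_lit 152) (nat_lit 30768665566) (nat_lit 76) (nat_lit 60876806410) (nat_lit 3) (nat_lit 5) (nat_lit 5) (nat_lit 5) (nat_lit 4) (nat_lit 4) (nat_lit 293) (nat_lit 248) (nat_lit 179)) (XT.nd (nat_lit 78) (nat_lit 0) (nat_lit 0) (XT.lf (nat_lit 0) (nat_lit 7456675960) (nat_lit 152) (nat_lit 18799559111) (nat_lit 76) (nat_lit 73875453603) (nat_lit 3) (nat_lit 5) (nat_lit 5) (nat_lit 5) (nat_lit 4) (nat_lit 4) (nat_lit 294) (nat_lit 248) (nat_lit 178)) (XT.lf (nat_lit 0) (nat_lit 13672197832) (nat_lit 152) (nat_lit 5882952687) (nat_lit 76) (nat_lit 87910196371) (nat_lit 3) (nat_lit 5) (nat_lit 5) (nat_lit 5) (nat_lit 4) (nat_lit 4) (nat_lit 295) (nat_lit 248) (nat_lit 177))))))))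
noncomputable def xc66 : XT := (XT.nd (nat_lit 1794) (nat_lit 0) (nat_lit 0) (XT.nd (nat_lit 858) (nat_lit 76) (nat_lit 0) (XT.nd (nat_lit 390) (nat_lit 0) (nat_lit 0) (XT.nd (nat_lit 156) (nat_lit 0) (nat_lit 0) (XT.nd (nat_lit 78) (nat_lit 0) (nat_lit 0) (XT.lf (nat_lit 0) (nat_lit 8482000580) (nat_lit 76) (nat_lit 12101623800) (nat_lit 152) (nat_lit 94786195297) (nat_lit 2) (nat_lit 5) (nat_lit 3) (nat_lit 5) (nat_lit 4) (nat_lit 4) (nat_lit 296) (nat_lit 248) (nat_lit 176)) (XT.lf (nat_lit 0) (nat_lit 24321668232) (nat_lit 76) (nat_lit 3881994885) (nat_lit 152) (nat_lit 95690545168) (nat_lit 2) (nat_lit 5) (nat_lit 3) (nat_lit 5) (nat_lit 4) (nat_lit 4) (nat_lit 297) (nat_lit 248) (nat_lit 175))) (XT.nd (nat_lit 78) (nat_lit 0) (nat_lit 0) (XT.lf (nat_lit 0) (nat_lit 36548582289) (nat_lit 152) (nat_lit 91800861322) (nat_lit 0) (nat_lit 4741894998) (nat_lit 2) (nat_lit 5) (nat_lit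 4) (nat_lit 4) (nat_lit 2) (nat_lit 4) (nat_lit 298) (nat_lit 248) (nat_lit 174)) (XT.nd (nat_lit 78) (nat_lit 0) (nat_lit 0) (XT.lf (nat_lit 0) (nat_lit 45657428394) (nat_lit 152) (nat_lit 83516323635) (nat_lit 0) (nat_lit 13842792525) (nat_lit 2) (nat_lit 5) (nat_lit 4) (nat_lit 4) (nat_lit 2) (nat_lit 4) (nat_lit 299) (nat_lit 248) (nat_lit 173)) (XT.lf (nat_lit 0) (nat_lit 55490817710) (nat_lit 152) (nat_lit 74576471366) (nat_lit 0) (nat_lit 23668822045) (nat_lit 2) (nat_lit 5) (nat_lit 4) (nat_lit 4) (nat_lit 2) (nat_lit 4) (nat_lit 300) (nat_lit 248) (nat_lit 172))))) (XT.nd (nat_lit 234) (nat_lit 0) (nat_lit 0) (XT.nd (nat_lit 78) (nat_lit 0) (nat_lit 0) (XT.lf (nat_lit 0) (nat_lit 66107022172) (nat_lit 152) (nat_lit 64928327613) (nat_lit 0) (nat_lit 34278211882) (nat_lit 2) (nat_lit 5) (nat_lit 4) (nat_lit 4) (nat_lit 2) (nat_lit 4) (nat_lit 301) (nat_lit 248) (nat_lit 171))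 (XT.nd (nat_lit 78) (nat_lit 0) (nat_lit 0) (XT.lf (nat_lit 0) (nat_lit 77568952622) (nat_lit 152) (nat_lit 54514718190) (nat_lit 0) (nat_lit 45733832494) (nat_lit 2) (nat_lit 5) (nat_lit 4) (nat_lit 4) (nat_lit 2) (nat_lit 4) (nat_lit 302) (nat_lit 248) (nat_lit 170)) (XT.lf (nat_lit 0) (nat_lit 89944531611) (nat_lit 152) (nat_lit 43273932819) (nat_lit 0) (nat_lit 58103569041) (nat_lit 2) (nat_lit 5) (nat_lit 4) (nat_lit 4) (nat_lit 2) (nat_lit 4) (nat_lit 303) (nat_lit 248) (nat_lit 169)))) (XT.nd (nat_lit 78) (nat_lit 0) (nat_lit 0) (XT.lf (nat_lit 0) (nat_lit 103307095903) (nat_lit 152) (nat_lit 31139359439) (nat_lit 0) (nat_lit 71460723664) (nat_lit 2) (nat_lit 5) (nat_lit 4) (nat_lit 4) (nat_lit 2) (nat_lit 4) (nat_lit 304) (nat_lit 248) (nat_lit 168)) (XT.nd (nat_lit 78) (nat_lit 0) (nat_lit 0) (XT.lf (nat_lit 0) (nat_lit 117735831064) (nat_lit 152) (nat_lit 18039089466) (nat_lit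 0) (nat_lit 85884449872) (nat_lit 2) (nat_lit 5) (nat_lit 4) (nat_lit 4) (nat_lit 2) (nat_lit 4) (nat_lit 305) (nat_lit 248) (nat_lit 167)) (XT.lf (nat_lit 0) (nat_lit 133316240711) (nat_lit 152) (nat_lit 3895491672) (nat_lit 0) (nat_lit 101460221600) (nat_lit 2) (nat_lit 5) (nat_lit 4) (nat_lit 4) (nat_lit 2) (nat_lit 4) (nat_lit 306) (nat_lit 248) (nat_lit 166)))))) (XT.nd (nat_lit 468) (nat_lit 0) (nat_lit 0) (XT.nd (nat_lit 234) (nat_lit 0) (nat_lit 0) (XT.nd (nat_lit 78) (nat_lit 0) (nat_lit 0) (XT.lf (nat_lit 0) (nat_lit 11974248249) (nat_lit 76) (nat_lit 138454385905) (nat_lit 76) (nat_lit 106594072424) (nat_lit 1) (nat_lit 4) (nat_lit 2) (nat_lit 5) (nat_lit 2) (nat_lit 4) (nat_lit 307) (nat_lit 248) (nat_lit 165)) (XT.nd (nat_lit 78) (nat_lit 0) (nat_lit 0) (XT.lf (nat_lit 0) (nat_lit 29330871366) (nat_lit 76) (nat_lit 139683305537) (nat_lit 76) (nat_lit 107819015788) (nat_lit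 1) (nat_lit 4) (nat_lit 2) (nat_lit 5) (nat_lit 2) (nat_lit 4) (nat_lit 308) (nat_lit 248) (nat_lit 164)) (XT.lf (nat_lit 0) (nat_lit 48072102054) (nat_lit 76) (nat_lit 141012283412) (nat_lit 76) (nat_lit 109144311933) (nat_lit 1) (nat_lit 4) (nat_lit 2) (nat_lit 5) (nat_lit 2) (nat_lit 4) (nat_lit 309) (nat_lit 248) (nat_lit 163)))) (XT.nd (nat_lit 78) (nat_lit 0) (nat_lit 0) (XT.lf (nat_lit 0) (nat_lit 68308999457) (nat_lit 76) (nat_lit 142449194954) (nat_lit 76) (nat_lit 110577814466) (nat_lit 1) (nat_lit 4) (nat_lit 2) (nat_lit 5) (nat_lit 2) (nat_lit 4) (nat_lit 310) (nat_lit 248) (nat_lit 162)) (XT.nd (nat_lit 78) (nat_lit 0) (nat_lit 0) (XT.lf (nat_lit 0) (nat_lit 90161485929) (nat_lit 76) (nat_lit 144002555194) (nat_lit 76) (nat_lit 112128018216) (nat_lit 1) (nat_lit 4) (nat_lit 2) (nat_lit 5) (nat_lit 2) (nat_lit 4) (nat_lit 311) (nat_lit 248) (nat_lit 161)) (XT.lf (nat_lit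 0) (nat_lit 113759057689) (nat_lit 76) (nat_lit 145681569231) (nat_lit 76) (nat_lit 113804109577) (nat_lit 1) (nat_lit 4) (nat_lit 2) (nat_lit 5) (nat_lit 2) (nat_lit 4) (nat_lit 312) (nat_lit 248) (nat_lit 160))))) (XT.nd (nat_lit 234) (nat_lit 0) (nat_lit 0) (XT.nd (nat_lit 78) (nat_lit 0) (nat_lit 0) (XT.lf (nat_lit 0) (nat_lit 139241552196) (nat_lit 76) (nat_lit 147496186777) (nat_lit 76) (nat_lit 115616020941) (nat_lit 1) (nat_lit 4) (nat_lit 2) (nat_lit 5) (nat_lit 2) (nat_lit 4) (nat_lit 313) (nat_lit 248) (nat_lit 159)) (XT.nd (nat_lit 78) (nat_lit 0) (nat_lit 0) (XT.lf (nat_lit 0) (nat_lit 166759976827) (nat_lit 76) (nat_lit 149457161121) (nat_lit 76) (nat_lit 117574489562) (nat_lit 1) (nat_lit 4) (nat_lit 2) (nat_lit 5) (nat_lit 2) (nat_lit 4) (nat_lit 314) (nat_lit 248) (nat_lit 158)) (XT.lf (nat_lit 0) (nat_lit 196477403728) (nat_lit 76) (nat_lit 151576112852) (nat_lit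 76) (nat_lit 119691121179) (nat_lit 1) (nat_lit 4) (nat_lit 2) (nat_lit 5) (nat_lit 2) (nat_lit 4) (nat_lit 315) (nat_lit 248) (nat_lit 157)))) (XT.nd (nat_lit 78) (nat_lit 0) (nat_lit 0) (XT.lf (nat_lit 0) (nat_lit 228569936168) (nat_lit 76) (nat_lit 153865598720) (nat_lit 76) (nat_lit 121978458794) (nat_lit 1) (nat_lit 4) (nat_lit 2) (nat_lit 5) (nat_lit 2) (nat_lit 4) (nat_lit 316) (nat_lit 248) (nat_lit 156)) (XT.nd (nat_lit 78) (nat_lit 0) (nat_lit 0) (XT.lf (nat_lit 0) (nat_lit 263227752118) (nat_lit 76) (nat_lit 156339186051) (nat_lit 76) (nat_lit 124450057000) (nat_lit 1) (nat_lit 4) (nat_lit 2) (nat_lit 5) (nat_lit 2) (nat_lit 4) (nat_lit 317) (nat_lit 248) (nat_lit 155)) (XT.lf (nat_lit 0) (nat_lit 300656231228) (nat_lit 76) (nat_lit 159011533138) (nat_lit 76) (nat_lit 127120562306) (nat_lit 1) (nat_lit 4) (nat_lit 2) (nat_lit 5) (nat_lit 2) (nat_lit 4) (nat_lit 318) (nat_lit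 248) (nat_lit 154))))))) (XT.nd (nat_lit 936) (nat_lit 0) (nat_lit 0) (XT.nd (nat_lit 468) (nat_lit 0) (nat_lit 0) (XT.nd (nat_lit 234) (nat_lit 0) (nat_lit 0) (XT.nd (nat_lit 78) (nat_lit 0) (nat_lit 0) (XT.lf (nat_lit 0) (nat_lit 341077171893) (nat_lit 76) (nat_lit 161898476113) (nat_lit 76) (nat_lit 130005799928) (nat_lit 1) (nat_lit 4) (nat_lit 2) (nat_lit 5) (nat_lit 2) (nat_lit 4) (nat_lit 319) (nat_lit 248) (nat_lit 153)) (XT.nd (nat_lit 78) (nat_lit 0) (nat_lit 0) (XT.lf (nat_lit 0) (nat_lit 384730105613) (nat_lit 76) (nat_lit 165017122787) (nat_lit 76) (nat_lit 133122867570) (nat_lit 1) (nat_lit 4) (nat_lit 2) (nat_lit 5) (nat_lit 2) (nat_lit 4) (nat_lit 320) (nat_lit 248) (nat_lit 152)) (XT.lf (nat_lit 0) (nat_lit 431873716439) (nat_lit 76) (nat_lit 168385954027) (nat_lit 76) (nat_lit 136490236745) (nat_lit 1) (nat_lit 4) (nat_lit 2) (nat_lit 5) (nat_lit 2) (nat_lit 4) (nat_lit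 321) (nat_lit 248) (nat_lit 151)))) (XT.nd (nat_lit 78) (nat_lit 0) (nat_lit 0) (XT.lf (nat_lit 0) (nat_lit 482787373917) (nat_lit 76) (nat_lit 172024933279) (nat_lit 76) (nat_lit 140127862232) (nat_lit 1) (nat_lit 4) (nat_lit 2) (nat_lit 5) (nat_lit 2) (nat_lit 4) (nat_lit 322) (nat_lit 248) (nat_lit 150)) (XT.nd (nat_lit 78) (nat_lit 0) (nat_lit 0) (XT.lf (nat_lit 0) (nat_lit 537772788611) (nat_lit 76) (nat_lit 175955624864) (nat_lit 76) (nat_lit 144057300332) (nat_lit 1) (nat_lit 4) (nat_lit 2) (nat_lit 5) (nat_lit 2) (nat_lit 4) (nat_lit 323) (nat_lit 248) (nat_lit 149)) (XT.lf (nat_lit 0) (nat_lit 597155800014) (nat_lit 76) (nat_lit 180201321769) (nat_lit 76) (nat_lit 148301836602) (nat_lit 1) (nat_lit 4) (nat_lit 2) (nat_lit 5) (nat_lit 2) (nat_lit 4) (nat_lit 324) (nat_lit 248) (nat_lit 148))))) (XT.nd (nat_lit 234) (nat_lit 0) (nat_lit 0) (XT.nd (nat_lit 78) (nat_lit 0) (nat_lit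 0) (XT.lf (nat_lit 0) (nat_lit 661288307453) (nat_lit 76) (nat_lit 184787183680) (nat_lit 76) (nat_lit 152886623851) (nat_lit 1) (nat_lit 4) (nat_lit 2) (nat_lit 5) (nat_lit 2) (nat_lit 4) (nat_lit 325) (nat_lit 248) (nat_lit 147)) (XT.nd (nat_lit 78) (nat_lit 0) (nat_lit 0) (XT.lf (nat_lit 0) (nat_lit 730550355417) (nat_lit 76) (nat_lit 189740386075) (nat_lit 76) (nat_lit 157838831188) (nat_lit 1) (nat_lit 4) (nat_lit 2) (nat_lit 5) (nat_lit 2) (nat_lit 4) (nat_lit 326) (nat_lit 248) (nat_lit 146)) (XT.lf (nat_lit 0) (nat_lit 805352385672) (nat_lit 76) (nat_lit 195090281263) (nat_lit 76) (nat_lit 163187805028) (nat_lit 1) (nat_lit 4) (nat_lit 2) (nat_lit 5) (nat_lit 2) (nat_lit 4) (nat_lit 327) (nat_lit 248) (nat_lit 145)))) (XT.nd (nat_lit 78) (nat_lit 0) (nat_lit 0) (XT.lf (nat_lit 0) (nat_lit 886137669508) (nat_lit 76) (nat_lit 200868572328) (nat_lit 76) (nat_lit 168965242992)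 (nat_lit 1) (nat_lit 4) (nat_lit 2) (nat_lit 5) (nat_lit 2) (nat_lit 4) (nat_lit 328) (nat_lit 248) (nat_lit 144)) (XT.nd (nat_lit 78) (nat_lit 0) (nat_lit 0) (XT.lf (nat_lit 0) (nat_lit 973384934533) (nat_lit 76) (nat_lit 207109500995) (nat_lit 76) (nat_lit 175205381750) (nat_lit 1) (nat_lit 4) (nat_lit 2) (nat_lit 5) (nat_lit 2) (nat_lit 4) (nat_lit 329) (nat_lit 248) (nat_lit 143)) (XT.lf (nat_lit 0) (nat_lit 1067611201576) (nat_lit 76) (nat_lit 213850050544) (nat_lit 76) (nat_lit 181945199902) (nat_lit 1) (nat_lit 4) (nat_lit 2) (nat_lit 5) (nat_lit 2) (nat_lit 4) (nat_lit 330) (nat_lit 248) (nat_lit 142)))))) (XT.nd (nat_lit 31278) (nat_lit 0) (nat_lit 2432) (XT.nd (nat_lit 234) (nat_lit 0) (nat_lit 0) (XT.nd (nat_lit 78) (nat_lit 0) (nat_lit 0) (XT.lf (nat_lit 0) (nat_lit 1169374848517) (nat_lit 76) (nat_lit 221130164973) (nat_lit 76) (nat_lit 189224637112) (nat_lit 1) (nat_lit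 4) (nat_lit 2) (nat_lit 5) (nat_lit 2) (nat_lit 4) (nat_lit 331) (nat_lit 248) (nat_lit 141)) (XT.nd (nat_lit 78) (nat_lit 0) (nat_lit 0) (XT.lf (nat_lit 0) (nat_lit 1279278919190) (nat_lit 76) (nat_lit 228992985701) (nat_lit 76) (nat_lit 197086830785) (nat_lit 1) (nat_lit 4) (nat_lit 2) (nat_lit 5) (nat_lit 2) (nat_lit 4) (nat_lit 332) (nat_lit 248) (nat_lit 140)) (XT.lf (nat_lit 0) (nat_lit 1397974696975) (nat_lit 76) (nat_lit 237485107220) (nat_lit 76) (nat_lit 205578371698) (nat_lit 1) (nat_lit 4) (nat_lit 2) (nat_lit 5) (nat_lit 2) (nat_lit 4) (nat_lit 333) (nat_lit 248) (nat_lit 139)))) (XT.nd (nat_lit 30888) (nat_lit 0) (nat_lit 2660) (XT.lf (nat_lit 0) (nat_lit 1526165564260) (nat_lit 76) (nat_lit 246656853215) (nat_lit 76) (nat_lit 214749580094) (nat_lit 1) (nat_lit 4) (nat_lit 2) (nat_lit 5) (nat_lit 2) (nat_lit 4) (nat_lit 334) (nat_lit 248) (nat_lit 138)) (XT.nd (nat_lit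 78) (nat_lit 0) (nat_lit 0) (XT.lf (nat_lit 0) (nat_lit 645565676) (nat_lit 0) (nat_lit 645565676) (nat_lit 380) (nat_lit 3139870053) (nat_lit 36) (nat_lit 5) (nat_lit 36) (nat_lit 3) (nat_lit 41) (nat_lit 3) (nat_lit 249) (nat_lit 249) (nat_lit 222)) (XT.lf (nat_lit 0) (nat_lit 3543941659) (nat_lit 380) (nat_lit 3962966810) (nat_lit 456) (nat_lit 1634414695) (nat_lit 36) (nat_lit 5) (nat_lit 41) (nat_lit 3) (nat_lit 42) (nat_lit 5) (nat_lit 250) (nat_lit 249) (nat_lit 221))))) (XT.nd (nat_lit 234) (nat_lit 228) (nat_lit 0) (XT.nd (nat_lit 78) (nat_lit 0) (nat_lit 0) (XT.lf (nat_lit 0) (nat_lit 4535333353) (nat_lit 380) (nat_lit 149007199) (nat_lit 456) (nat_lit 4763075499) (nat_lit 36) (nat_lit 5) (nat_lit 41) (nat_lit 3) (nat_lit 42) (nat_lit 5) (nat_lit 251) (nat_lit 249) (nat_lit 220)) (XT.nd (nat_lit 78) (nat_lit 0) (nat_lit 76) (XT.lf (nat_lit 76) (nat_lit 4131326013) (nat_lit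 0) (nat_lit 1499293439) (nat_lit 456) (nat_lit 4146011365) (nat_lit 37) (nat_lit 5) (nat_lit 36) (nat_lit 5) (nat_lit 42) (nat_lit 5) (nat_lit 252) (nat_lit 249) (nat_lit 219)) (XT.lf (nat_lit 0) (nat_lit 6794704200) (nat_lit 380) (nat_lit 1467139237) (nat_lit 456) (nat_lit 1872401833) (nat_lit 37) (nat_lit 5) (nat_lit 42) (nat_lit 5) (nat_lit 43) (nat_lit 5) (nat_lit 253) (nat_lit 249) (nat_lit 218)))) (XT.nd (nat_lit 78) (nat_lit 304) (nat_lit 0) (XT.lf (nat_lit 76) (nat_lit 3114871894) (nat_lit 0) (nat_lit 4986385715) (nat_lit 456) (nat_lit 2415779260) (nat_lit 38) (nat_lit 5) (nat_lit 37) (nat_lit 5) (nat_lit 43) (nat_lit 5) (nat_lit 254) (nat_lit 249) (nat_lit 217)) (XT.nd (nat_lit 78) (nat_lit 304) (nat_lit 0) (XT.lf (nat_lit 76) (nat_lit 8100794974) (nat_lit 0) (nat_lit 1390811357) (nat_lit 456) (nat_lit 1440980950) (nat_lit 38) (nat_lit 5) (nat_lit 37) (nat_lit 5) (nat_lit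 43) (nat_lit 5) (nat_lit 255) (nat_lit 249) (nat_lit 216)) (XT.lf (nat_lit 0) (nat_lit 2101440259) (nat_lit 380) (nat_lit 8946217236) (nat_lit 456) (nat_lit 329808088) (nat_lit 33) (nat_lit 5) (nat_lit 38) (nat_lit 5) (nat_lit 39) (nat_lit 5) (nat_lit 256) (nat_lit 249) (nat_lit 215))))))))
noncomputable def xc67 : XT := (XT.nd (nat_lit 1872) (nat_lit 456) (nat_lit 0) (XT.nd (nat_lit 936) (nat_lit 532) (nat_lit 0) (XT.nd (nat_lit 468) (nat_lit 608) (nat_lit 0) (XT.nd (nat_lit 234) (nat_lit 228) (nat_lit 0) (XT.nd (nat_lit 78) (nat_lit 456) (nat_lit 0) (XT.lf (nat_lit 0) (nat_lit 887539266) (nat_lit 456) (nat_lit 4370425622) (nat_lit 76) (nat_lit 6593808511) (nat_lit 32) (nat_lit 5) (nat_lit 38) (nat_lit 5) (nat_lit 33) (nat_lit 5) (nat_lit 257) (nat_lit 249) (nat_lit 214)) (XT.nd (nat_lit 78) (nat_lit 0) (nat_lit 0) (XT.lf (nat_lit 0) (nat_lit 918719461) (nat_lit 456) (nat_lit 1237139622)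 (nat_lit 532) (nat_lit 10210119944) (nat_lit 26) (nat_lit 5) (nat_lit 32) (nat_lit 5) (nat_lit 33) (nat_lit 5) (nat_lit 258) (nat_lit 249) (nat_lit 213)) (XT.lf (nat_lit 0) (nat_lit 3674974424) (nat_lit 532) (nat_lit 6159361438) (nat_lit 76) (nat_lit 3075363599) (nat_lit 26) (nat_lit 5) (nat_lit 33) (nat_lit 5) (nat_lit 27) (nat_lit 5) (nat_lit 259) (nat_lit 249) (nat_lit 212)))) (XT.nd (nat_lit 78) (nat_lit 228) (nat_lit 0) (XT.lf (nat_lit 0) (nat_lit 5303351749) (nat_lit 532) (nat_lit 526267293) (nat_lit 76) (nat_lit 7668580564) (nat_lit 26) (nat_lit 5) (nat_lit 33) (nat_lit 5) (nat_lit 27) (nat_lit 5) (nat_lit 260) (nat_lit 249) (nat_lit 211)) (XT.nd (nat_lit 78) (nat_lit 0) (nat_lit 0) (XT.lf (nat_lit 0) (nat_lit 5805575819) (nat_lit 228) (nat_lit 1354935885) (nat_lit 304) (nat_lit 6965665486) (nat_lit 23) (nat_lit 5) (nat_lit 26) (nat_lit 5) (nat_lit 27) (nat_lit 5) (nat_lit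 261) (nat_lit 249) (nat_lit 210)) (XT.lf (nat_lit 0) (nat_lit 9225535537) (nat_lit 304) (nat_lit 2257934757) (nat_lit 76) (nat_lit 3316437199) (nat_lit 23) (nat_lit 5) (nat_lit 27) (nat_lit 5) (nat_lit 24) (nat_lit 5) (nat_lit 262) (nat_lit 249) (nat_lit 209))))) (XT.nd (nat_lit 234) (nat_lit 228) (nat_lit 0) (XT.nd (nat_lit 78) (nat_lit 228) (nat_lit 0) (XT.lf (nat_lit 0) (nat_lit 4435142179) (nat_lit 152) (nat_lit 7126263588) (nat_lit 228) (nat_lit 3957917595) (nat_lit 21) (nat_lit 5) (nat_lit 23) (nat_lit 5) (nat_lit 24) (nat_lit 5) (nat_lit 263) (nat_lit 249) (nat_lit 208)) (XT.nd (nat_lit 78) (nat_lit 228) (nat_lit 0) (XT.lf (nat_lit 0) (nat_lit 11751847282) (nat_lit 152) (nat_lit 2359535358) (nat_lit 228) (nat_lit 2182951921) (nat_lit 21) (nat_lit 5) (nat_lit 23) (nat_lit 5) (nat_lit 24) (nat_lit 5) (nat_lit 264) (nat_lit 249) (nat_lit 207)) (XT.lf (nat_lit 0) (nat_lit 2542797567)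 (nat_lit 228) (nat_lit 14418707645) (nat_lit 304) (nat_lit 162354287) (nat_lit 18) (nat_lit 5) (nat_lit 21) (nat_lit 5) (nat_lit 22) (nat_lit 5) (nat_lit 265) (nat_lit 249) (nat_lit 206)))) (XT.nd (nat_lit 78) (nat_lit 152) (nat_lit 0) (XT.lf (nat_lit 0) (nat_lit 2075954401) (nat_lit 304) (nat_lit 7710372481) (nat_lit 76) (nat_lit 8217140220) (nat_lit 17) (nat_lit 5) (nat_lit 21) (nat_lit 5) (nat_lit 18) (nat_lit 5) (nat_lit 266) (nat_lit 249) (nat_lit 205)) (XT.nd (nat_lit 78) (nat_lit 152) (nat_lit 0) (XT.lf (nat_lit 0) (nat_lit 4455291743) (nat_lit 304) (nat_lit 331940672) (nat_lit 76) (nat_lit 14168377169) (nat_lit 17) (nat_lit 5) (nat_lit 21) (nat_lit 5) (nat_lit 18) (nat_lit 5) (nat_lit 267) (nat_lit 249) (nat_lit 204)) (XT.lf (nat_lit 0) (nat_lit 7209855906) (nat_lit 228) (nat_lit 11988207287) (nat_lit 76) (nat_lit 771220310) (nat_lit 15) (nat_lit 5) (nat_lit 18) (nat_lit 5)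 (nat_lit 16) (nat_lit 5) (nat_lit 268) (nat_lit 249) (nat_lit 203)))))) (XT.nd (nat_lit 468) (nat_lit 228) (nat_lit 0) (XT.nd (nat_lit 234) (nat_lit 152) (nat_lit 0) (XT.nd (nat_lit 78) (nat_lit 152) (nat_lit 0) (XT.lf (nat_lit 0) (nat_lit 10292337454) (nat_lit 228) (nat_lit 4245929197) (nat_lit 76) (nat_lit 6517319783) (nat_lit 15) (nat_lit 5) (nat_lit 18) (nat_lit 5) (nat_lit 16) (nat_lit 5) (nat_lit 269) (nat_lit 249) (nat_lit 202)) (XT.nd (nat_lit 78) (nat_lit 0) (nat_lit 0) (XT.lf (nat_lit 0) (nat_lit 4297333856) (nat_lit 152) (nat_lit 9403265181) (nat_lit 228) (nat_lit 8521989007) (nat_lit 13) (nat_lit 5) (nat_lit 15) (nat_lit 5) (nat_lit 16) (nat_lit 5) (nat_lit 270) (nat_lit 249) (nat_lit 201)) (XT.lf (nat_lit 0) (nat_lit 13733005126) (nat_lit 152) (nat_lit 3741446339) (nat_lit 228) (nat_lit 6001183334) (nat_lit 13) (nat_lit 5) (nat_lit 15) (nat_lit 5) (nat_lit 16) (nat_lit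 5) (nat_lit 271) (nat_lit 249) (nat_lit 200)))) (XT.nd (nat_lit 78) (nat_lit 152) (nat_lit 0) (XT.lf (nat_lit 0) (nat_lit 21585636325) (nat_lit 228) (nat_lit 994204811) (nat_lit 76) (nat_lit 2246360784) (nat_lit 13) (nat_lit 5) (nat_lit 16) (nat_lit 5) (nat_lit 14) (nat_lit 4) (nat_lit 272) (nat_lit 249) (nat_lit 199)) (XT.nd (nat_lit 78) (nat_lit 0) (nat_lit 0) (XT.lf (nat_lit 0) (nat_lit 49198712) (nat_lit 152) (nat_lit 17497080072) (nat_lit 76) (nat_lit 8715502046) (nat_lit 11) (nat_lit 5) (nat_lit 13) (nat_lit 5) (nat_lit 12) (nat_lit 5) (nat_lit 273) (nat_lit 249) (nat_lit 198)) (XT.lf (nat_lit 0) (nat_lit 3435115053) (nat_lit 152) (nat_lit 8563817586) (nat_lit 76) (nat_lit 15805983893) (nat_lit 11) (nat_lit 5) (nat_lit 13) (nat_lit 5) (nat_lit 12) (nat_lit 5) (nat_lit 274) (nat_lit 249) (nat_lit 197))))) (XT.nd (nat_lit 234) (nat_lit 76) (nat_lit 0) (XT.nd (nat_lit 78) (nat_lit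 0) (nat_lit 0) (XT.lf (nat_lit 0) (nat_lit 1112176970) (nat_lit 152) (nat_lit 5988101742) (nat_lit 228) (nat_lit 22370635726) (nat_lit 9) (nat_lit 5) (nat_lit 11) (nat_lit 5) (nat_lit 12) (nat_lit 5) (nat_lit 275) (nat_lit 249) (nat_lit 196)) (XT.nd (nat_lit 78) (nat_lit 0) (nat_lit 0) (XT.lf (nat_lit 0) (nat_lit 11293118284) (nat_lit 228) (nat_lit 19248503711) (nat_lit 76) (nat_lit 709888404) (nat_lit 9) (nat_lit 5) (nat_lit 12) (nat_lit 5) (nat_lit 10) (nat_lit 4) (nat_lit 276) (nat_lit 249) (nat_lit 195)) (XT.lf (nat_lit 0) (nat_lit 15960364174) (nat_lit 228) (nat_lit 9591035633) (nat_lit 76) (nat_lit 7612105574) (nat_lit 9) (nat_lit 5) (nat_lit 12) (nat_lit 5) (nat_lit 10) (nat_lit 4) (nat_lit 277) (nat_lit 249) (nat_lit 194)))) (XT.nd (nat_lit 78) (nat_lit 0) (nat_lit 0) (XT.lf (nat_lit 0) (nat_lit 857821923) (nat_lit 76) (nat_lit 20148468860) (nat_lit 152) (nat_lit 14221809608)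 (nat_lit 8) (nat_lit 5) (nat_lit 9) (nat_lit 5) (nat_lit 10) (nat_lit 4) (nat_lit 278) (nat_lit 249) (nat_lit 193)) (XT.nd (nat_lit 78) (nat_lit 0) (nat_lit 0) (XT.lf (nat_lit 0) (nat_lit 12664529710) (nat_lit 76) (nat_lit 14038838263) (nat_lit 152) (nat_lit 10734756648) (nat_lit 8) (nat_lit 5) (nat_lit 9) (nat_lit 5) (nat_lit 10) (nat_lit 4) (nat_lit 279) (nat_lit 249) (nat_lit 192)) (XT.lf (nat_lit 0) (nat_lit 25394006463) (nat_lit 76) (nat_lit 7448538710) (nat_lit 152) (nat_lit 6983554219) (nat_lit 8) (nat_lit 5) (nat_lit 9) (nat_lit 5) (nat_lit 10) (nat_lit 4) (nat_lit 280) (nat_lit 249) (nat_lit 191))))))) (XT.nd (nat_lit 936) (nat_lit 152) (nat_lit 0) (XT.nd (nat_lit 468) (nat_lit 76) (nat_lit 0) (XT.nd (nat_lit 234) (nat_lit 76) (nat_lit 0) (XT.nd (nat_lit 78) (nat_lit 152) (nat_lit 0) (XT.lf (nat_lit 0) (nat_lit 39121686118) (nat_lit 76) (nat_lit 338516574) (nat_lit 152) (nat_lit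 2945972975) (nat_lit 8) (nat_lit 5) (nat_lit 9) (nat_lit 5) (nat_lit 10) (nat_lit 4) (nat_lit 281) (nat_lit 249) (nat_lit 190)) (XT.nd (nat_lit 78) (nat_lit 0) (nat_lit 0) (XT.lf (nat_lit 0) (nat_lit 1735041886) (nat_lit 152) (nat_lit 36196519516) (nat_lit 76) (nat_lit 7227123477) (nat_lit 6) (nat_lit 5) (nat_lit 8) (nat_lit 5) (nat_lit 7) (nat_lit 4) (nat_lit 282) (nat_lit 249) (nat_lit 189)) (XT.lf (nat_lit 0) (nat_lit 6720508528) (nat_lit 152) (nat_lit 25856158784) (nat_lit 76) (nat_lit 15541516296) (nat_lit 6) (nat_lit 5) (nat_lit 8) (nat_lit 5) (nat_lit 7) (nat_lit 4) (nat_lit 283) (nat_lit 249) (nat_lit 188)))) (XT.nd (nat_lit 78) (nat_lit 76) (nat_lit 0) (XT.lf (nat_lit 0) (nat_lit 12093887207) (nat_lit 152) (nat_lit 14706762507) (nat_lit 76) (nat_lit 24514704189) (nat_lit 6) (nat_lit 5) (nat_lit 8) (nat_lit 5) (nat_lit 7) (nat_lit 4) (nat_lit 284) (nat_lit 249) (nat_lit 187))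 (XT.nd (nat_lit 78) (nat_lit 76) (nat_lit 0) (XT.lf (nat_lit 0) (nat_lit 17887020167) (nat_lit 152) (nat_lit 2682260186) (nat_lit 76) (nat_lit 34199861604) (nat_lit 6) (nat_lit 5) (nat_lit 8) (nat_lit 5) (nat_lit 7) (nat_lit 4) (nat_lit 285) (nat_lit 249) (nat_lit 186)) (XT.lf (nat_lit 0) (nat_lit 10830384166) (nat_lit 76) (nat_lit 13564323918) (nat_lit 152) (nat_lit 34084468900) (nat_lit 5) (nat_lit 5) (nat_lit 6) (nat_lit 5) (nat_lit 7) (nat_lit 4) (nat_lit 286) (nat_lit 249) (nat_lit 185))))) (XT.nd (nat_lit 234) (nat_lit 76) (nat_lit 0) (XT.nd (nat_lit 78) (nat_lit 0) (nat_lit 0) (XT.lf (nat_lit 0) (nat_lit 25561379629) (nat_lit 76) (nat_lit 5925930669) (nat_lit 152) (nat_lit 30993590454) (nat_lit 5) (nat_lit 5) (nat_lit 6) (nat_lit 5) (nat_lit 7) (nat_lit 4) (nat_lit 287) (nat_lit 249) (nat_lit 184)) (XT.nd (nat_lit 78) (nat_lit 0) (nat_lit 0) (XT.lf (nat_lit 0) (nat_lit 39194695501)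 (nat_lit 152) (nat_lit 25402425461) (nat_lit 0) (nat_lit 2201879144) (nat_lit 5) (nat_lit 5) (nat_lit 7) (nat_lit 4) (nat_lit 5) (nat_lit 4) (nat_lit 288) (nat_lit 249) (nat_lit 183)) (XT.lf (nat_lit 0) (nat_lit 47664715649) (nat_lit 152) (nat_lit 13131434941) (nat_lit 0) (nat_lit 10654738908) (nat_lit 5) (nat_lit 5) (nat_lit 7) (nat_lit 4) (nat_lit 5) (nat_lit 4) (nat_lit 289) (nat_lit 249) (nat_lit 182)))) (XT.nd (nat_lit 78) (nat_lit 0) (nat_lit 0) (XT.lf (nat_lit 0) (nat_lit 114409415) (nat_lit 76) (nat_lit 56693386815) (nat_lit 76) (nat_lit 19667520828) (nat_lit 4) (nat_lit 4) (nat_lit 5) (nat_lit 5) (nat_lit 5) (nat_lit 4) (nat_lit 290) (nat_lit 249) (nat_lit 181)) (XT.nd (nat_lit 78) (nat_lit 0) (nat_lit 0) (XT.lf (nat_lit 0) (nat_lit 15154486721) (nat_lit 76) (nat_lit 51879826557) (nat_lit 76) (nat_lit 14839248306) (nat_lit 4) (nat_lit 4) (nat_lit 5) (nat_lit 5) (nat_lit 5)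 (nat_lit 4) (nat_lit 291) (nat_lit 249) (nat_lit 180)) (XT.lf (nat_lit 0) (nat_lit 31386445266) (nat_lit 76) (nat_lit 46685981719) (nat_lit 76) (nat_lit 9631781001) (nat_lit 4) (nat_lit 4) (nat_lit 5) (nat_lit 5) (nat_lit 5) (nat_lit 4) (nat_lit 292) (nat_lit 249) (nat_lit 179)))))) (XT.nd (nat_lit 468) (nat_lit 0) (nat_lit 0) (XT.nd (nat_lit 234) (nat_lit 76) (nat_lit 0) (XT.nd (nat_lit 78) (nat_lit 76) (nat_lit 0) (XT.lf (nat_lit 0) (nat_lit 48906474435) (nat_lit 76) (nat_lit 41081073961) (nat_lit 76) (nat_lit 4014259847) (nat_lit 4) (nat_lit 4) (nat_lit 5) (nat_lit 5) (nat_lit 5) (nat_lit 4) (nat_lit 293) (nat_lit 249) (nat_lit 178)) (XT.nd (nat_lit 78) (nat_lit 0) (nat_lit 0) (XT.lf (nat_lit 0) (nat_lit 1944224739) (nat_lit 152) (nat_lit 33034505725) (nat_lit 76) (nat_lit 65821013334) (nat_lit 3) (nat_lit 5) (nat_lit 5) (nat_lit 5) (nat_lit 4) (nat_lit 4) (nat_lit 294) (nat_lit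 249) (nat_lit 177)) (XT.lf (nat_lit 0) (nat_lit 8157184404) (nat_lit 152) (nat_lit 20122363575) (nat_lit 76) (nat_lit 79854066198) (nat_lit 3) (nat_lit 5) (nat_lit 5) (nat_lit 5) (nat_lit 4) (nat_lit 4) (nat_lit 295) (nat_lit 249) (nat_lit 176)))) (XT.nd (nat_lit 78) (nat_lit 76) (nat_lit 0) (XT.lf (nat_lit 0) (nat_lit 14862246221) (nat_lit 152) (nat_lit 6185847916) (nat_lit 76) (nat_lit 95006508661) (nat_lit 3) (nat_lit 5) (nat_lit 5) (nat_lit 5) (nat_lit 4) (nat_lit 4) (nat_lit 296) (nat_lit 249) (nat_lit 175)) (XT.nd (nat_lit 78) (nat_lit 0) (nat_lit 0) (XT.lf (nat_lit 0) (nat_lit 9324055006) (nat_lit 76) (nat_lit 12999332630) (nat_lit 152) (nat_lit 102268321716) (nat_lit 2) (nat_lit 5) (nat_lit 3) (nat_lit 5) (nat_lit 4) (nat_lit 4) (nat_lit 297) (nat_lit 249) (nat_lit 174)) (XT.lf (nat_lit 0) (nat_lit 26418785374) (nat_lit 76) (nat_lit 4127349778) (nat_lit 152) (nat_lit 103252483962)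 (nat_lit 2) (nat_lit 5) (nat_lit 3) (nat_lit 5) (nat_lit 4) (nat_lit 4) (nat_lit 298) (nat_lit 249) (nat_lit 173))))) (XT.nd (nat_lit 234) (nat_lit 0) (nat_lit 0) (XT.nd (nat_lit 78) (nat_lit 0) (nat_lit 0) (XT.lf (nat_lit 0) (nat_lit 39553716243) (nat_lit 152) (nat_lit 98999614169) (nat_lit 0) (nat_lit 5178601130) (nat_lit 2) (nat_lit 5) (nat_lit 4) (nat_lit 4) (nat_lit 2) (nat_lit 4) (nat_lit 299) (nat_lit 249) (nat_lit 172)) (XT.nd (nat_lit 78) (nat_lit 0) (nat_lit 0) (XT.lf (nat_lit 0) (nat_lit 49385251713) (nat_lit 152) (nat_lit 90063077620) (nat_lit 0) (nat_lit 15003321975) (nat_lit 2) (nat_lit 5) (nat_lit 4) (nat_lit 4) (nat_lit 2) (nat_lit 4) (nat_lit 300) (nat_lit 249) (nat_lit 171)) (XT.lf (nat_lit 0) (nat_lit 59999739652) (nat_lit 152) (nat_lit 80418003977) (nat_lit 0) (nat_lit 25611500076) (nat_lit 2) (nat_lit 5) (nat_lit 4) (nat_lit 4) (nat_lit 2) (nat_lit 4) (nat_lit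 301) (nat_lit 249) (nat_lit 170)))) (XT.nd (nat_lit 78) (nat_lit 0) (nat_lit 0) (XT.lf (nat_lit 0) (nat_lit 71460080728) (nat_lit 152) (nat_lit 70007237249) (nat_lit 0) (nat_lit 37065998710) (nat_lit 2) (nat_lit 5) (nat_lit 4) (nat_lit 4) (nat_lit 2) (nat_lit 4) (nat_lit 302) (nat_lit 249) (nat_lit 169)) (XT.nd (nat_lit 78) (nat_lit 0) (nat_lit 0) (XT.lf (nat_lit 0) (nat_lit 83834188075) (nat_lit 152) (nat_lit 58769084004) (nat_lit 0) (nat_lit 49434696387) (nat_lit 2) (nat_lit 5) (nat_lit 4) (nat_lit 4) (nat_lit 2) (nat_lit 4) (nat_lit 303) (nat_lit 249) (nat_lit 168)) (XT.lf (nat_lit 0) (nat_lit 97195389735) (nat_lit 152) (nat_lit 46636947776) (nat_lit 0) (nat_lit 62790889095) (nat_lit 2) (nat_lit 5) (nat_lit 4) (nat_lit 4) (nat_lit 2) (nat_lit 4) (nat_lit 304) (nat_lit 249) (nat_lit 167))))))))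
noncomputable def xc68 : XT := (XT.nd (nat_lit 1794) (nat_lit 0) (nat_lit 0) (XT.nd (nat_lit 858) (nat_lit 0) (nat_lit 0) (XT.nd (nat_lit 390) (nat_lit 0) (nat_lit 0) (XT.nd (nat_lit 156) (nat_lit 76) (nat_lit 0) (XT.nd (nat_lit 78) (nat_lit 0) (nat_lit 0) (XT.lf (nat_lit 0) (nat_lit 111622863200) (nat_lit 152) (nat_lit 33538934427) (nat_lit 0) (nat_lit 77213724641) (nat_lit 2) (nat_lit 5) (nat_lit 4) (nat_lit 4) (nat_lit 2) (nat_lit 4) (nat_lit 305) (nat_lit 249) (nat_lit 166)) (XT.lf (nat_lit 0) (nat_lit 127202104610) (nat_lit 152) (nat_lit 19397426099) (nat_lit 0) (nat_lit 92788671681) (nat_lit 2) (nat_lit 5) (nat_lit 4) (nat_lit 4) (nat_lit 2) (nat_lit 4) (nat_lit 306) (nat_lit 249) (nat_lit 165))) (XT.nd (nat_lit 78) (nat_lit 76) (nat_lit 0) (XT.lf (nat_lit 0) (nat_lit 144025435394) (nat_lit 152) (nat_lit 4128621261) (nat_lit 0) (nat_lit 109608026197) (nat_lit 2) (nat_lit 5)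 (nat_lit 4) (nat_lit 4) (nat_lit 2) (nat_lit 4) (nat_lit 307) (nat_lit 249) (nat_lit 164)) (XT.nd (nat_lit 78) (nat_lit 0) (nat_lit 0) (XT.lf (nat_lit 0) (nat_lit 13008710265) (nat_lit 76) (nat_lit 149496698894) (nat_lit 76) (nat_lit 115075607967) (nat_lit 1) (nat_lit 4) (nat_lit 2) (nat_lit 5) (nat_lit 2) (nat_lit 4) (nat_lit 308) (nat_lit 249) (nat_lit 163)) (XT.lf (nat_lit 0) (nat_lit 31748194924) (nat_lit 76) (nat_lit 150826453422) (nat_lit 76) (nat_lit 116401953485) (nat_lit 1) (nat_lit 4) (nat_lit 2) (nat_lit 5) (nat_lit 2) (nat_lit 4) (nat_lit 309) (nat_lit 249) (nat_lit 162))))) (XT.nd (nat_lit 234) (nat_lit 0) (nat_lit 0) (XT.nd (nat_lit 78) (nat_lit 0) (nat_lit 0) (XT.lf (nat_lit 0) (nat_lit 51983475633) (nat_lit 76) (nat_lit 152264084086) (nat_lit 76) (nat_lit 117836427660) (nat_lit 1) (nat_lit 4) (nat_lit 2) (nat_lit 5) (nat_lit 2) (nat_lit 4) (nat_lit 310) (nat_lit 249)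 (nat_lit 161)) (XT.nd (nat_lit 78) (nat_lit 0) (nat_lit 0) (XT.lf (nat_lit 0) (nat_lit 73834465168) (nat_lit 76) (nat_lit 153818110181) (nat_lit 76) (nat_lit 119387531079) (nat_lit 1) (nat_lit 4) (nat_lit 2) (nat_lit 5) (nat_lit 2) (nat_lit 4) (nat_lit 311) (nat_lit 249) (nat_lit 160)) (XT.lf (nat_lit 0) (nat_lit 97430650873) (nat_lit 76) (nat_lit 155497740749) (nat_lit 76) (nat_lit 121064455466) (nat_lit 1) (nat_lit 4) (nat_lit 2) (nat_lit 5) (nat_lit 2) (nat_lit 4) (nat_lit 312) (nat_lit 249) (nat_lit 159)))) (XT.nd (nat_lit 78) (nat_lit 0) (nat_lit 0) (XT.lf (nat_lit 0) (nat_lit 122911861998) (nat_lit 76) (nat_lit 157312929158) (nat_lit 76) (nat_lit 122877138151) (nat_lit 1) (nat_lit 4) (nat_lit 2) (nat_lit 5) (nat_lit 2) (nat_lit 4) (nat_lit 313) (nat_lit 249) (nat_lit 158)) (XT.nd (nat_lit 78) (nat_lit 0) (nat_lit 0) (XT.lf (nat_lit 0) (nat_lit 150429098311) (nat_lit 76) (nat_lit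 159274432079) (nat_lit 76) (nat_lit 124836320957) (nat_lit 1) (nat_lit 4) (nat_lit 2) (nat_lit 5) (nat_lit 2) (nat_lit 4) (nat_lit 314) (nat_lit 249) (nat_lit 157)) (XT.lf (nat_lit 0) (nat_lit 180145424917) (nat_lit 76) (nat_lit 161393873232) (nat_lit 76) (nat_lit 126953613857) (nat_lit 1) (nat_lit 4) (nat_lit 2) (nat_lit 5) (nat_lit 2) (nat_lit 4) (nat_lit 315) (nat_lit 249) (nat_lit 156)))))) (XT.nd (nat_lit 468) (nat_lit 0) (nat_lit 0) (XT.nd (nat_lit 234) (nat_lit 0) (nat_lit 0) (XT.nd (nat_lit 78) (nat_lit 0) (nat_lit 0) (XT.lf (nat_lit 0) (nat_lit 212236938566) (nat_lit 76) (nat_lit 163683812270) (nat_lit 76) (nat_lit 129241563771) (nat_lit 1) (nat_lit 4) (nat_lit 2) (nat_lit 5) (nat_lit 2) (nat_lit 4) (nat_lit 316) (nat_lit 249) (nat_lit 155)) (XT.nd (nat_lit 78) (nat_lit 0) (nat_lit 0) (XT.lf (nat_lit 0) (nat_lit 246893811191) (nat_lit 76) (nat_lit 166157819202) (nat_lit 76)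 (nat_lit 131713728921) (nat_lit 1) (nat_lit 4) (nat_lit 2) (nat_lit 5) (nat_lit 2) (nat_lit 4) (nat_lit 317) (nat_lit 249) (nat_lit 154)) (XT.lf (nat_lit 0) (nat_lit 284321416852) (nat_lit 76) (nat_lit 168830554809) (nat_lit 76) (nat_lit 134384759175) (nat_lit 1) (nat_lit 4) (nat_lit 2) (nat_lit 5) (nat_lit 2) (nat_lit 4) (nat_lit 318) (nat_lit 249) (nat_lit 153)))) (XT.nd (nat_lit 78) (nat_lit 0) (nat_lit 0) (XT.lf (nat_lit 0) (nat_lit 324741548768) (nat_lit 76) (nat_lit 171717857525) (nat_lit 76) (nat_lit 137270482860) (nat_lit 1) (nat_lit 4) (nat_lit 2) (nat_lit 5) (nat_lit 2) (nat_lit 4) (nat_lit 319) (nat_lit 249) (nat_lit 152)) (XT.nd (nat_lit 78) (nat_lit 0) (nat_lit 0) (XT.lf (nat_lit 0) (nat_lit 368393733646) (nat_lit 76) (nat_lit 174836837291) (nat_lit 76) (nat_lit 140388000560) (nat_lit 1) (nat_lit 4) (nat_lit 2) (nat_lit 5) (nat_lit 2) (nat_lit 4) (nat_lit 320) (nat_lit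 249) (nat_lit 151)) (XT.lf (nat_lit 0) (nat_lit 415536651100) (nat_lit 76) (nat_lit 178205976951) (nat_lit 76) (nat_lit 143755786456) (nat_lit 1) (nat_lit 4) (nat_lit 2) (nat_lit 5) (nat_lit 2) (nat_lit 4) (nat_lit 321) (nat_lit 249) (nat_lit 150))))) (XT.nd (nat_lit 234) (nat_lit 0) (nat_lit 0) (XT.nd (nat_lit 78) (nat_lit 0) (nat_lit 0) (XT.lf (nat_lit 0) (nat_lit 466449666567) (nat_lit 76) (nat_lit 181845241776) (nat_lit 76) (nat_lit 147393797796) (nat_lit 1) (nat_lit 4) (nat_lit 2) (nat_lit 5) (nat_lit 2) (nat_lit 4) (nat_lit 322) (nat_lit 249) (nat_lit 149)) (XT.nd (nat_lit 78) (nat_lit 0) (nat_lit 0) (XT.lf (nat_lit 0) (nat_lit 521434486806) (nat_lit 76) (nat_lit 185776197781) (nat_lit 76) (nat_lit 151323593166) (nat_lit 1) (nat_lit 4) (nat_lit 2) (nat_lit 5) (nat_lit 2) (nat_lit 4) (nat_lit 323) (nat_lit 249) (nat_lit 148)) (XT.lf (nat_lit 0) (nat_lit 580816947788) (nat_lit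 76) (nat_lit 190022139519) (nat_lit 76) (nat_lit 155568460242) (nat_lit 1) (nat_lit 4) (nat_lit 2) (nat_lit 5) (nat_lit 2) (nat_lit 4) (nat_lit 324) (nat_lit 249) (nat_lit 147)))) (XT.nd (nat_lit 78) (nat_lit 0) (nat_lit 0) (XT.lf (nat_lit 0) (nat_lit 644948945578) (nat_lit 76) (nat_lit 194608228128) (nat_lit 76) (nat_lit 160153553794) (nat_lit 1) (nat_lit 4) (nat_lit 2) (nat_lit 5) (nat_lit 2) (nat_lit 4) (nat_lit 325) (nat_lit 249) (nat_lit 146)) (XT.nd (nat_lit 78) (nat_lit 0) (nat_lit 0) (XT.lf (nat_lit 0) (nat_lit 714210521645) (nat_lit 76) (nat_lit 199561640427) (nat_lit 76) (nat_lit 165106044744) (nat_lit 1) (nat_lit 4) (nat_lit 2) (nat_lit 5) (nat_lit 2) (nat_lit 4) (nat_lit 326) (nat_lit 249) (nat_lit 145)) (XT.lf (nat_lit 0) (nat_lit 789012114958) (nat_lit 76) (nat_lit 204911729972) (nat_lit 76) (nat_lit 170455281188) (nat_lit 1) (nat_lit 4) (nat_lit 2) (nat_lit 5) (nat_lit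 2) (nat_lit 4) (nat_lit 327) (nat_lit 249) (nat_lit 144))))))) (XT.nd (nat_lit 31824) (nat_lit 0) (nat_lit 1216) (XT.nd (nat_lit 468) (nat_lit 0) (nat_lit 0) (XT.nd (nat_lit 234) (nat_lit 0) (nat_lit 0) (XT.nd (nat_lit 78) (nat_lit 0) (nat_lit 0) (XT.lf (nat_lit 0) (nat_lit 869796994217) (nat_lit 76) (nat_lit 210690200997) (nat_lit 76) (nat_lit 176232962304) (nat_lit 1) (nat_lit 4) (nat_lit 2) (nat_lit 5) (nat_lit 2) (nat_lit 4) (nat_lit 328) (nat_lit 249) (nat_lit 143)) (XT.nd (nat_lit 78) (nat_lit 0) (nat_lit 0) (XT.lf (nat_lit 0) (nat_lit 957043884635) (nat_lit 76) (nat_lit 216931296293) (nat_lit 76) (nat_lit 182473326203) (nat_lit 1) (nat_lit 4) (nat_lit 2) (nat_lit 5) (nat_lit 2) (nat_lit 4) (nat_lit 329) (nat_lit 249) (nat_lit 142)) (XT.lf (nat_lit 0) (nat_lit 1051269804820) (nat_lit 76) (nat_lit 223672000129) (nat_lit 76) (nat_lit 189213352820) (nat_lit 1) (nat_lit 4) (nat_lit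 2) (nat_lit 5) (nat_lit 2) (nat_lit 4) (nat_lit 330) (nat_lit 249) (nat_lit 141)))) (XT.nd (nat_lit 78) (nat_lit 0) (nat_lit 0) (XT.lf (nat_lit 0) (nat_lit 1153033130595) (nat_lit 76) (nat_lit 230952257416) (nat_lit 76) (nat_lit 196492983052) (nat_lit 1) (nat_lit 4) (nat_lit 2) (nat_lit 5) (nat_lit 2) (nat_lit 4) (nat_lit 331) (nat_lit 249) (nat_lit 140)) (XT.nd (nat_lit 78) (nat_lit 0) (nat_lit 0) (XT.lf (nat_lit 0) (nat_lit 1262936903892) (nat_lit 76) (nat_lit 238815210419) (nat_lit 76) (nat_lit 204355355449) (nat_lit 1) (nat_lit 4) (nat_lit 2) (nat_lit 5) (nat_lit 2) (nat_lit 4) (nat_lit 332) (nat_lit 249) (nat_lit 139)) (XT.lf (nat_lit 0) (nat_lit 1381632406330) (nat_lit 76) (nat_lit 247307454417) (nat_lit 76) (nat_lit 212847061848) (nat_lit 1) (nat_lit 4) (nat_lit 2) (nat_lit 5) (nat_lit 2) (nat_lit 4) (nat_lit 333) (nat_lit 249) (nat_lit 138))))) (XT.nd (nat_lit 31122) (nat_lit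 0) (nat_lit 2660) (XT.nd (nat_lit 30966) (nat_lit 0) (nat_lit 2660) (XT.lf (nat_lit 0) (nat_lit 1509823018663) (nat_lit 76) (nat_lit 256479313816) (nat_lit 76) (nat_lit 222018423471) (nat_lit 1) (nat_lit 4) (nat_lit 2) (nat_lit 5) (nat_lit 2) (nat_lit 4) (nat_lit 334) (nat_lit 249) (nat_lit 137)) (XT.nd (nat_lit 78) (nat_lit 0) (nat_lit 0) (XT.lf (nat_lit 0) (nat_lit 1095891794) (nat_lit 0) (nat_lit 1095891794) (nat_lit 380) (nat_lit 2523576360) (nat_lit 36) (nat_lit 5) (nat_lit 36) (nat_lit 3) (nat_lit 41) (nat_lit 3) (nat_lit 250) (nat_lit 250) (nat_lit 220)) (XT.lf (nat_lit 0) (nat_lit 5286296701) (nat_lit 380) (nat_lit 3394095417) (nat_lit 456) (nat_lit 1063802626) (nat_lit 36) (nat_lit 5) (nat_lit 41) (nat_lit 3) (nat_lit 42) (nat_lit 5) (nat_lit 251) (nat_lit 250) (nat_lit 219)))) (XT.nd (nat_lit 78) (nat_lit 0) (nat_lit 0) (XT.lf (nat_lit 76) (nat_lit 694078721) (nat_lit 0)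 (nat_lit 5571551419) (nat_lit 456) (nat_lit 3817323164) (nat_lit 37) (nat_lit 5) (nat_lit 36) (nat_lit 5) (nat_lit 42) (nat_lit 5) (nat_lit 252) (nat_lit 250) (nat_lit 218)) (XT.nd (nat_lit 78) (nat_lit 0) (nat_lit 76) (XT.lf (nat_lit 76) (nat_lit 5261351231) (nat_lit 0) (nat_lit 2089666146) (nat_lit 456) (nat_lit 3096093940) (nat_lit 37) (nat_lit 5) (nat_lit 36) (nat_lit 5) (nat_lit 42) (nat_lit 5) (nat_lit 253) (nat_lit 250) (nat_lit 217)) (XT.lf (nat_lit 0) (nat_lit 8503682884) (nat_lit 380) (nat_lit 730359509) (nat_lit 456) (nat_lit 1608400963) (nat_lit 37) (nat_lit 5) (nat_lit 42) (nat_lit 5) (nat_lit 43) (nat_lit 5) (nat_lit 254) (nat_lit 250) (nat_lit 216)))))) (XT.nd (nat_lit 468) (nat_lit 684) (nat_lit 0) (XT.nd (nat_lit 234) (nat_lit 456) (nat_lit 0) (XT.nd (nat_lit 78) (nat_lit 380) (nat_lit 0) (XT.lf (nat_lit 76) (nat_lit 4196588440) (nat_lit 0) (nat_lit 5651868316) (nat_lit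 456) (nat_lit 1413395415) (nat_lit 38) (nat_lit 5) (nat_lit 37) (nat_lit 5) (nat_lit 43) (nat_lit 5) (nat_lit 255) (nat_lit 250) (nat_lit 215)) (XT.nd (nat_lit 78) (nat_lit 380) (nat_lit 0) (XT.lf (nat_lit 76) (nat_lit 9519716714) (nat_lit 0) (nat_lit 1748901953) (nat_lit 456) (nat_lit 449179625) (nat_lit 38) (nat_lit 5) (nat_lit 37) (nat_lit 5) (nat_lit 43) (nat_lit 5) (nat_lit 256) (nat_lit 250) (nat_lit 214)) (XT.lf (nat_lit 0) (nat_lit 650613694) (nat_lit 456) (nat_lit 9106358482) (nat_lit 76) (nat_lit 2445414263) (nat_lit 32) (nat_lit 5) (nat_lit 38) (nat_lit 5) (nat_lit 33) (nat_lit 5) (nat_lit 257) (nat_lit 250) (nat_lit 213)))) (XT.nd (nat_lit 78) (nat_lit 456) (nat_lit 0) (XT.lf (nat_lit 0) (nat_lit 1874272248) (nat_lit 456) (nat_lit 3883779648) (nat_lit 76) (nat_lit 6962269202) (nat_lit 32) (nat_lit 5) (nat_lit 38) (nat_lit 5) (nat_lit 33) (nat_lit 5) (nat_lit 258) (nat_lit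 250) (nat_lit 212)) (XT.nd (nat_lit 78) (nat_lit 0) (nat_lit 0) (XT.lf (nat_lit 0) (nat_lit 1807325395) (nat_lit 456) (nat_lit 1388503791) (nat_lit 532) (nat_lit 10084161585) (nat_lit 26) (nat_lit 5) (nat_lit 32) (nat_lit 5) (nat_lit 33) (nat_lit 5) (nat_lit 259) (nat_lit 250) (nat_lit 211)) (XT.lf (nat_lit 0) (nat_lit 4771047677) (nat_lit 532) (nat_lit 5826522383) (nat_lit 76) (nat_lit 3275307420) (nat_lit 26) (nat_lit 5) (nat_lit 33) (nat_lit 5) (nat_lit 27) (nat_lit 5) (nat_lit 260) (nat_lit 250) (nat_lit 210))))) (XT.nd (nat_lit 234) (nat_lit 456) (nat_lit 0) (XT.nd (nat_lit 78) (nat_lit 0) (nat_lit 0) (XT.lf (nat_lit 0) (nat_lit 206389044) (nat_lit 228) (nat_lit 6268856821) (nat_lit 304) (nat_lit 8037970082) (nat_lit 23) (nat_lit 5) (nat_lit 26) (nat_lit 5) (nat_lit 27) (nat_lit 5) (nat_lit 261) (nat_lit 250) (nat_lit 209)) (XT.nd (nat_lit 78) (nat_lit 0) (nat_lit 0) (XT.lf (nat_lit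 0) (nat_lit 7015102448) (nat_lit 228) (nat_lit 1423819689) (nat_lit 304) (nat_lit 6756246677) (nat_lit 23) (nat_lit 5) (nat_lit 26) (nat_lit 5) (nat_lit 27) (nat_lit 5) (nat_lit 262) (nat_lit 250) (nat_lit 208)) (XT.lf (nat_lit 0) (nat_lit 10617763323) (nat_lit 304) (nat_lit 1692983544) (nat_lit 76) (nat_lit 3616506400) (nat_lit 23) (nat_lit 5) (nat_lit 27) (nat_lit 5) (nat_lit 24) (nat_lit 5) (nat_lit 263) (nat_lit 250) (nat_lit 207)))) (XT.nd (nat_lit 78) (nat_lit 304) (nat_lit 0) (XT.lf (nat_lit 0) (nat_lit 5516663952) (nat_lit 152) (nat_lit 7592858478) (nat_lit 228) (nat_lit 3597497846) (nat_lit 21) (nat_lit 5) (nat_lit 23) (nat_lit 5) (nat_lit 24) (nat_lit 5) (nat_lit 264) (nat_lit 250) (nat_lit 206)) (XT.nd (nat_lit 78) (nat_lit 304) (nat_lit 0) (XT.lf (nat_lit 0) (nat_lit 13364875063) (nat_lit 152) (nat_lit 2452459116) (nat_lit 228) (nat_lit 1730687003) (nat_lit 21) (nat_lit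 5) (nat_lit 23) (nat_lit 5) (nat_lit 24) (nat_lit 5) (nat_lit 265) (nat_lit 250) (nat_lit 205)) (XT.lf (nat_lit 0) (nat_lit 404371629) (nat_lit 304) (nat_lit 15007899237) (nat_lit 76) (nat_lit 3032989851) (nat_lit 17) (nat_lit 5) (nat_lit 21) (nat_lit 5) (nat_lit 18) (nat_lit 5) (nat_lit 266) (nat_lit 250) (nat_lit 204))))))))
noncomputable def xc69 : XT := (XT.nd (nat_lit 1872) (nat_lit 304) (nat_lit 0) (XT.nd (nat_lit 936) (nat_lit 304) (nat_lit 0) (XT.nd (nat_lit 468) (nat_lit 304) (nat_lit 0) (XT.nd (nat_lit 234) (nat_lit 152) (nat_lit 0) (XT.nd (nat_lit 78) (nat_lit 152) (nat_lit 0) (XT.lf (nat_lit 0) (nat_lit 2770681597) (nat_lit 304) (nat_lit 7646247968) (nat_lit 76) (nat_lit 8981588143) (nat_lit 17) (nat_lit 5) (nat_lit 21) (nat_lit 5) (nat_lit 18) (nat_lit 5) (nat_lit 267) (nat_lit 250) (nat_lit 203)) (XT.nd (nat_lit 78) (nat_lit 0) (nat_lit 0) (XT.lf (nat_lit 0) (nat_lit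 286341275) (nat_lit 152) (nat_lit 5021751844) (nat_lit 228) (nat_lit 15121537680) (nat_lit 15) (nat_lit 5) (nat_lit 17) (nat_lit 5) (nat_lit 18) (nat_lit 5) (nat_lit 268) (nat_lit 250) (nat_lit 202)) (XT.lf (nat_lit 0) (nat_lit 8258181477) (nat_lit 228) (nat_lit 12296280166) (nat_lit 76) (nat_lit 972125545) (nat_lit 15) (nat_lit 5) (nat_lit 18) (nat_lit 5) (nat_lit 16) (nat_lit 5) (nat_lit 269) (nat_lit 250) (nat_lit 201)))) (XT.nd (nat_lit 78) (nat_lit 152) (nat_lit 0) (XT.lf (nat_lit 0) (nat_lit 11552332875) (nat_lit 228) (nat_lit 3982840845) (nat_lit 76) (nat_lit 7167601301) (nat_lit 15) (nat_lit 5) (nat_lit 18) (nat_lit 5) (nat_lit 16) (nat_lit 5) (nat_lit 270) (nat_lit 250) (nat_lit 200)) (XT.nd (nat_lit 78) (nat_lit 0) (nat_lit 0) (XT.lf (nat_lit 0) (nat_lit 5228623438) (nat_lit 152) (nat_lit 9986420039) (nat_lit 228) (nat_lit 8749722801) (nat_lit 13) (nat_lit 5) (nat_lit 15)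 (nat_lit 5) (nat_lit 16) (nat_lit 5) (nat_lit 271) (nat_lit 250) (nat_lit 199)) (XT.lf (nat_lit 0) (nat_lit 15375629678) (nat_lit 152) (nat_lit 3884182087) (nat_lit 228) (nat_lit 6060884179) (nat_lit 13) (nat_lit 5) (nat_lit 15) (nat_lit 5) (nat_lit 16) (nat_lit 5) (nat_lit 272) (nat_lit 250) (nat_lit 198))))) (XT.nd (nat_lit 234) (nat_lit 152) (nat_lit 0) (XT.nd (nat_lit 78) (nat_lit 152) (nat_lit 0) (XT.lf (nat_lit 0) (nat_lit 23674681615) (nat_lit 228) (nat_lit 542993022) (nat_lit 76) (nat_lit 2563798532) (nat_lit 13) (nat_lit 5) (nat_lit 16) (nat_lit 5) (nat_lit 14) (nat_lit 4) (nat_lit 273) (nat_lit 250) (nat_lit 197)) (XT.nd (nat_lit 78) (nat_lit 0) (nat_lit 0) (XT.lf (nat_lit 0) (nat_lit 411601775) (nat_lit 152) (nat_lit 18359073196) (nat_lit 76) (nat_lit 9561785428) (nat_lit 11) (nat_lit 5) (nat_lit 13) (nat_lit 5) (nat_lit 12) (nat_lit 5) (nat_lit 274) (nat_lit 250) (nat_lit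 196)) (XT.lf (nat_lit 0) (nat_lit 4041838300) (nat_lit 152) (nat_lit 8750984769) (nat_lit 76) (nat_lit 17208465584) (nat_lit 11) (nat_lit 5) (nat_lit 13) (nat_lit 5) (nat_lit 12) (nat_lit 5) (nat_lit 275) (nat_lit 250) (nat_lit 195)))) (XT.nd (nat_lit 78) (nat_lit 0) (nat_lit 0) (XT.lf (nat_lit 0) (nat_lit 1686483320) (nat_lit 152) (nat_lit 6300817758) (nat_lit 228) (nat_lit 23814407179) (nat_lit 9) (nat_lit 5) (nat_lit 11) (nat_lit 5) (nat_lit 12) (nat_lit 5) (nat_lit 276) (nat_lit 250) (nat_lit 194)) (XT.nd (nat_lit 78) (nat_lit 0) (nat_lit 0) (XT.lf (nat_lit 0) (nat_lit 12495642155) (nat_lit 228) (nat_lit 20317818047) (nat_lit 76) (nat_lit 912986438) (nat_lit 9) (nat_lit 5) (nat_lit 12) (nat_lit 5) (nat_lit 10) (nat_lit 4) (nat_lit 277) (nat_lit 250) (nat_lit 193)) (XT.lf (nat_lit 0) (nat_lit 17514114056) (nat_lit 228) (nat_lit 9922609261) (nat_lit 76) (nat_lit 8356543428) (nat_lit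 9) (nat_lit 5) (nat_lit 12) (nat_lit 5) (nat_lit 10) (nat_lit 4) (nat_lit 278) (nat_lit 250) (nat_lit 192)))))) (XT.nd (nat_lit 468) (nat_lit 76) (nat_lit 0) (XT.nd (nat_lit 234) (nat_lit 152) (nat_lit 0) (XT.nd (nat_lit 78) (nat_lit 0) (nat_lit 0) (XT.lf (nat_lit 0) (nat_lit 1351126286) (nat_lit 76) (nat_lit 21602289390) (nat_lit 152) (nat_lit 15070523935) (nat_lit 8) (nat_lit 5) (nat_lit 9) (nat_lit 5) (nat_lit 10) (nat_lit 4) (nat_lit 279) (nat_lit 250) (nat_lit 191)) (XT.nd (nat_lit 78) (nat_lit 0) (nat_lit 0) (XT.lf (nat_lit 0) (nat_lit 14070913021) (nat_lit 76) (nat_lit 15015596270) (nat_lit 152) (nat_lit 11325916400) (nat_lit 8) (nat_lit 5) (nat_lit 9) (nat_lit 5) (nat_lit 10) (nat_lit 4) (nat_lit 280) (nat_lit 250) (nat_lit 190)) (XT.lf (nat_lit 0) (nat_lit 27789620438) (nat_lit 76) (nat_lit 7908913423) (nat_lit 152) (nat_lit 7294441539) (nat_lit 8) (nat_lit 5) (nat_lit 9)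 (nat_lit 5) (nat_lit 10) (nat_lit 4) (nat_lit 281) (nat_lit 250) (nat_lit 189)))) (XT.nd (nat_lit 78) (nat_lit 152) (nat_lit 0) (XT.lf (nat_lit 0) (nat_lit 42588544581) (nat_lit 76) (nat_lit 240127174) (nat_lit 152) (nat_lit 2952209129) (nat_lit 8) (nat_lit 5) (nat_lit 9) (nat_lit 5) (nat_lit 10) (nat_lit 4) (nat_lit 282) (nat_lit 250) (nat_lit 188)) (XT.nd (nat_lit 78) (nat_lit 0) (nat_lit 0) (XT.lf (nat_lit 0) (nat_lit 2086993533) (nat_lit 152) (nat_lit 38737296555) (nat_lit 76) (nat_lit 7929303313) (nat_lit 6) (nat_lit 5) (nat_lit 8) (nat_lit 5) (nat_lit 7) (nat_lit 4) (nat_lit 283) (nat_lit 250) (nat_lit 187)) (XT.lf (nat_lit 0) (nat_lit 7455508744) (nat_lit 152) (nat_lit 27595999152) (nat_lit 76) (nat_lit 16899661635) (nat_lit 6) (nat_lit 5) (nat_lit 8) (nat_lit 5) (nat_lit 7) (nat_lit 4) (nat_lit 284) (nat_lit 250) (nat_lit 186))))) (XT.nd (nat_lit 234) (nat_lit 0) (nat_lit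 0) (XT.nd (nat_lit 78) (nat_lit 76) (nat_lit 0) (XT.lf (nat_lit 0) (nat_lit 13244138492) (nat_lit 152) (nat_lit 15578995790) (nat_lit 76) (nat_lit 26582199075) (nat_lit 6) (nat_lit 5) (nat_lit 8) (nat_lit 5) (nat_lit 7) (nat_lit 4) (nat_lit 285) (nat_lit 250) (nat_lit 185)) (XT.nd (nat_lit 78) (nat_lit 76) (nat_lit 0) (XT.lf (nat_lit 0) (nat_lit 19487185770) (nat_lit 152) (nat_lit 2615074596) (nat_lit 76) (nat_lit 37034293635) (nat_lit 6) (nat_lit 5) (nat_lit 8) (nat_lit 5) (nat_lit 7) (nat_lit 4) (nat_lit 286) (nat_lit 250) (nat_lit 184)) (XT.lf (nat_lit 0) (nat_lit 11971447977) (nat_lit 76) (nat_lit 14538112045) (nat_lit 152) (nat_lit 36634349287) (nat_lit 5) (nat_lit 5) (nat_lit 6) (nat_lit 5) (nat_lit 7) (nat_lit 4) (nat_lit 287) (nat_lit 250) (nat_lit 183)))) (XT.nd (nat_lit 78) (nat_lit 0) (nat_lit 0) (XT.lf (nat_lit 0) (nat_lit 27860579887) (nat_lit 76) (nat_lit 6296896061)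 (nat_lit 152) (nat_lit 33309302574) (nat_lit 5) (nat_lit 5) (nat_lit 6) (nat_lit 5) (nat_lit 7) (nat_lit 4) (nat_lit 288) (nat_lit 250) (nat_lit 182)) (XT.nd (nat_lit 78) (nat_lit 0) (nat_lit 0) (XT.lf (nat_lit 0) (nat_lit 42472549476) (nat_lit 152) (nat_lit 27189800608) (nat_lit 0) (nat_lit 2468724965) (nat_lit 5) (nat_lit 5) (nat_lit 7) (nat_lit 4) (nat_lit 5) (nat_lit 4) (nat_lit 289) (nat_lit 250) (nat_lit 181)) (XT.lf (nat_lit 0) (nat_lit 51609632101) (nat_lit 152) (nat_lit 13955265579) (nat_lit 0) (nat_lit 11591095325) (nat_lit 5) (nat_lit 5) (nat_lit 7) (nat_lit 4) (nat_lit 5) (nat_lit 4) (nat_lit 290) (nat_lit 250) (nat_lit 180))))))) (XT.nd (nat_lit 936) (nat_lit 76) (nat_lit 0) (XT.nd (nat_lit 468) (nat_lit 76) (nat_lit 0) (XT.nd (nat_lit 234) (nat_lit 76) (nat_lit 0) (XT.nd (nat_lit 78) (nat_lit 0) (nat_lit 0) (XT.lf (nat_lit 0) (nat_lit 344507487) (nat_lit 76) (nat_lit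 61135206922) (nat_lit 76) (nat_lit 21103047679) (nat_lit 4) (nat_lit 4) (nat_lit 5) (nat_lit 5) (nat_lit 5) (nat_lit 4) (nat_lit 291) (nat_lit 250) (nat_lit 179)) (XT.nd (nat_lit 78) (nat_lit 0) (nat_lit 0) (XT.lf (nat_lit 0) (nat_lit 16571424657) (nat_lit 76) (nat_lit 55943498943) (nat_lit 76) (nat_lit 15898726305) (nat_lit 4) (nat_lit 4) (nat_lit 5) (nat_lit 5) (nat_lit 5) (nat_lit 4) (nat_lit 292) (nat_lit 250) (nat_lit 178)) (XT.lf (nat_lit 0) (nat_lit 34086785886) (nat_lit 76) (nat_lit 50340569758) (nat_lit 76) (nat_lit 10284118050) (nat_lit 4) (nat_lit 4) (nat_lit 5) (nat_lit 5) (nat_lit 5) (nat_lit 4) (nat_lit 293) (nat_lit 250) (nat_lit 177)))) (XT.nd (nat_lit 78) (nat_lit 76) (nat_lit 0) (XT.lf (nat_lit 0) (nat_lit 52994385907) (nat_lit 76) (nat_lit 44293216823) (nat_lit 76) (nat_lit 4225951162) (nat_lit 4) (nat_lit 4) (nat_lit 5) (nat_lit 5) (nat_lit 5) (nat_lit 4) (nat_lit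 294) (nat_lit 250) (nat_lit 176)) (XT.nd (nat_lit 78) (nat_lit 0) (nat_lit 0) (XT.lf (nat_lit 0) (nat_lit 2196035280) (nat_lit 152) (nat_lit 35509525197) (nat_lit 76) (nat_lit 71150190981) (nat_lit 3) (nat_lit 5) (nat_lit 5) (nat_lit 5) (nat_lit 4) (nat_lit 4) (nat_lit 295) (nat_lit 250) (nat_lit 175)) (XT.lf (nat_lit 0) (nat_lit 8898900417) (nat_lit 152) (nat_lit 21576836933) (nat_lit 76) (nat_lit 86301184624) (nat_lit 3) (nat_lit 5) (nat_lit 5) (nat_lit 5) (nat_lit 4) (nat_lit 4) (nat_lit 296) (nat_lit 250) (nat_lit 174))))) (XT.nd (nat_lit 234) (nat_lit 0) (nat_lit 0) (XT.nd (nat_lit 78) (nat_lit 76) (nat_lit 0) (XT.lf (nat_lit 0) (nat_lit 16133764123) (nat_lit 152) (nat_lit 6536904890) (nat_lit 76) (nat_lit 102661467437) (nat_lit 3) (nat_lit 5) (nat_lit 5) (nat_lit 5) (nat_lit 4) (nat_lit 4) (nat_lit 297) (nat_lit 250) (nat_lit 173)) (XT.nd (nat_lit 78) (nat_lit 0) (nat_lit 0)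 (XT.lf (nat_lit 0) (nat_lit 10210149484) (nat_lit 76) (nat_lit 13978904520) (nat_lit 152) (nat_lit 110363394102) (nat_lit 2) (nat_lit 5) (nat_lit 3) (nat_lit 5) (nat_lit 4) (nat_lit 4) (nat_lit 298) (nat_lit 250) (nat_lit 172)) (XT.lf (nat_lit 0) (nat_lit 28662075314) (nat_lit 76) (nat_lit 4401635241) (nat_lit 152) (nat_lit 111432688835) (nat_lit 2) (nat_lit 5) (nat_lit 3) (nat_lit 5) (nat_lit 4) (nat_lit 4) (nat_lit 299) (nat_lit 250) (nat_lit 171)))) (XT.nd (nat_lit 78) (nat_lit 0) (nat_lit 0) (XT.lf (nat_lit 0) (nat_lit 42787670068) (nat_lit 152) (nat_lit 106794998204) (nat_lit 0) (nat_lit 5642061488) (nat_lit 2) (nat_lit 5) (nat_lit 4) (nat_lit 4) (nat_lit 2) (nat_lit 4) (nat_lit 300) (nat_lit 250) (nat_lit 170)) (XT.nd (nat_lit 78) (nat_lit 0) (nat_lit 0) (XT.lf (nat_lit 0) (nat_lit 53400568633) (nat_lit 152) (nat_lit 97152767257) (nat_lit 0) (nat_lit 16249117610) (nat_lit 2)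 (nat_lit 5) (nat_lit 4) (nat_lit 4) (nat_lit 2) (nat_lit 4) (nat_lit 301) (nat_lit 250) (nat_lit 169)) (XT.lf (nat_lit 0) (nat_lit 64859438067) (nat_lit 152) (nat_lit 86744632654) (nat_lit 0) (nat_lit 27702577376) (nat_lit 2) (nat_lit 5) (nat_lit 4) (nat_lit 4) (nat_lit 2) (nat_lit 4) (nat_lit 302) (nat_lit 250) (nat_lit 168)))))) (XT.nd (nat_lit 468) (nat_lit 76) (nat_lit 0) (XT.nd (nat_lit 234) (nat_lit 0) (nat_lit 0) (XT.nd (nat_lit 78) (nat_lit 0) (nat_lit 0) (XT.lf (nat_lit 0) (nat_lit 77232182782) (nat_lit 152) (nat_lit 75508916561) (nat_lit 0) (nat_lit 40070313138) (nat_lit 2) (nat_lit 5) (nat_lit 4) (nat_lit 4) (nat_lit 2) (nat_lit 4) (nat_lit 303) (nat_lit 250) (nat_lit 167)) (XT.nd (nat_lit 78) (nat_lit 0) (nat_lit 0) (XT.lf (nat_lit 0) (nat_lit 90592122746) (nat_lit 152) (nat_lit 63379036957) (nat_lit 0) (nat_lit 53425615183) (nat_lit 2) (nat_lit 5) (nat_lit 4) (nat_lit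 4) (nat_lit 2) (nat_lit 4) (nat_lit 304) (nat_lit 250) (nat_lit 166)) (XT.lf (nat_lit 0) (nat_lit 105018427974) (nat_lit 152) (nat_lit 50283113074) (nat_lit 0) (nat_lit 67847626041) (nat_lit 2) (nat_lit 5) (nat_lit 4) (nat_lit 4) (nat_lit 2) (nat_lit 4) (nat_lit 305) (nat_lit 250) (nat_lit 165)))) (XT.nd (nat_lit 78) (nat_lit 0) (nat_lit 0) (XT.lf (nat_lit 0) (nat_lit 120596587683) (nat_lit 152) (nat_lit 36143539437) (nat_lit 0) (nat_lit 83421809482) (nat_lit 2) (nat_lit 5) (nat_lit 4) (nat_lit 4) (nat_lit 2) (nat_lit 4) (nat_lit 306) (nat_lit 250) (nat_lit 164)) (XT.nd (nat_lit 78) (nat_lit 0) (nat_lit 0) (XT.lf (nat_lit 0) (nat_lit 137418916892) (nat_lit 152) (nat_lit 20876525979) (nat_lit 0) (nat_lit 100240456961) (nat_lit 2) (nat_lit 5) (nat_lit 4) (nat_lit 4) (nat_lit 2) (nat_lit 4) (nat_lit 307) (nat_lit 250) (nat_lit 163)) (XT.lf (nat_lit 0) (nat_lit 155585103479) (nat_lit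 152) (nat_lit 4391601510) (nat_lit 0) (nat_lit 118403234539) (nat_lit 2) (nat_lit 5) (nat_lit 4) (nat_lit 4) (nat_lit 2) (nat_lit 4) (nat_lit 308) (nat_lit 250) (nat_lit 162))))) (XT.nd (nat_lit 234) (nat_lit 0) (nat_lit 0) (XT.nd (nat_lit 78) (nat_lit 0) (nat_lit 0) (XT.lf (nat_lit 0) (nat_lit 14115012502) (nat_lit 76) (nat_lit 161427252807) (nat_lit 76) (nat_lit 124242227377) (nat_lit 1) (nat_lit 4) (nat_lit 2) (nat_lit 5) (nat_lit 2) (nat_lit 4) (nat_lit 309) (nat_lit 250) (nat_lit 161)) (XT.nd (nat_lit 78) (nat_lit 0) (nat_lit 0) (XT.lf (nat_lit 0) (nat_lit 34348796273) (nat_lit 76) (nat_lit 162865549326) (nat_lit 76) (nat_lit 125677601220) (nat_lit 1) (nat_lit 4) (nat_lit 2) (nat_lit 5) (nat_lit 2) (nat_lit 4) (nat_lit 310) (nat_lit 250) (nat_lit 160)) (XT.lf (nat_lit 0) (nat_lit 56198399753) (nat_lit 76) (nat_lit 164420191953) (nat_lit 76) (nat_lit 127229537665) (nat_lit 1)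 (nat_lit 4) (nat_lit 2) (nat_lit 5) (nat_lit 2) (nat_lit 4) (nat_lit 311) (nat_lit 250) (nat_lit 159)))) (XT.nd (nat_lit 78) (nat_lit 0) (nat_lit 0) (XT.lf (nat_lit 0) (nat_lit 79793302075) (nat_lit 76) (nat_lit 166100393384) (nat_lit 76) (nat_lit 128907233373) (nat_lit 1) (nat_lit 4) (nat_lit 2) (nat_lit 5) (nat_lit 2) (nat_lit 4) (nat_lit 312) (nat_lit 250) (nat_lit 158)) (XT.nd (nat_lit 78) (nat_lit 0) (nat_lit 0) (XT.lf (nat_lit 0) (nat_lit 105273324882) (nat_lit 76) (nat_lit 167916110369) (nat_lit 76) (nat_lit 130720630244) (nat_lit 1) (nat_lit 4) (nat_lit 2) (nat_lit 5) (nat_lit 2) (nat_lit 4) (nat_lit 313) (nat_lit 250) (nat_lit 157)) (XT.lf (nat_lit 0) (nat_lit 132789460901) (nat_lit 76) (nat_lit 169878102712) (nat_lit 76) (nat_lit 132680474333) (nat_lit 1) (nat_lit 4) (nat_lit 2) (nat_lit 5) (nat_lit 2) (nat_lit 4) (nat_lit 314) (nat_lit 250) (nat_lit 156))))))))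
noncomputable def xc70 : XT := (XT.nd (nat_lit 32760) (nat_lit 0) (nat_lit 608) (XT.nd (nat_lit 858) (nat_lit 0) (nat_lit 0) (XT.nd (nat_lit 390) (nat_lit 0) (nat_lit 0) (XT.nd (nat_lit 156) (nat_lit 0) (nat_lit 0) (XT.nd (nat_lit 78) (nat_lit 0) (nat_lit 0) (XT.lf (nat_lit 0) (nat_lit 162504768716) (nat_lit 76) (nat_lit 171997997036) (nat_lit 76) (nat_lit 134798379532) (nat_lit 1) (nat_lit 4) (nat_lit 2) (nat_lit 5) (nat_lit 2) (nat_lit 4) (nat_lit 315) (nat_lit 250) (nat_lit 155)) (XT.lf (nat_lit 0) (nat_lit 194595339040) (nat_lit 76) (nat_lit 174288355675) (nat_lit 76) (nat_lit 137086896390) (nat_lit 1) (nat_lit 4) (nat_lit 2) (nat_lit 5) (nat_lit 2) (nat_lit 4) (nat_lit 316) (nat_lit 250) (nat_lit 154))) (XT.nd (nat_lit 78) (nat_lit 0) (nat_lit 0) (XT.lf (nat_lit 0) (nat_lit 229251338216) (nat_lit 76) (nat_lit 176762751126) (nat_lit 76) (nat_lit 139559586488) (nat_lit 1) (nat_lit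 4) (nat_lit 2) (nat_lit 5) (nat_lit 2) (nat_lit 4) (nat_lit 317) (nat_lit 250) (nat_lit 153)) (XT.nd (nat_lit 78) (nat_lit 0) (nat_lit 0) (XT.lf (nat_lit 0) (nat_lit 266678135128) (nat_lit 76) (nat_lit 179435846474) (nat_lit 76) (nat_lit 142231102805) (nat_lit 1) (nat_lit 4) (nat_lit 2) (nat_lit 5) (nat_lit 2) (nat_lit 4) (nat_lit 318) (nat_lit 250) (nat_lit 152)) (XT.lf (nat_lit 0) (nat_lit 307097518202) (nat_lit 76) (nat_lit 182323482282) (nat_lit 76) (nat_lit 145117276548) (nat_lit 1) (nat_lit 4) (nat_lit 2) (nat_lit 5) (nat_lit 2) (nat_lit 4) (nat_lit 319) (nat_lit 250) (nat_lit 151))))) (XT.nd (nat_lit 234) (nat_lit 0) (nat_lit 0) (XT.nd (nat_lit 78) (nat_lit 0) (nat_lit 0) (XT.lf (nat_lit 0) (nat_lit 350749009707) (nat_lit 76) (nat_lit 185442770468) (nat_lit 76) (nat_lit 148235210969) (nat_lit 1) (nat_lit 4) (nat_lit 2) (nat_lit 5) (nat_lit 2) (nat_lit 4) (nat_lit 320) (nat_lit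 250) (nat_lit 150)) (XT.nd (nat_lit 78) (nat_lit 0) (nat_lit 0) (XT.lf (nat_lit 0) (nat_lit 397891285150) (nat_lit 76) (nat_lit 188812195701) (nat_lit 76) (nat_lit 151603382717) (nat_lit 1) (nat_lit 4) (nat_lit 2) (nat_lit 5) (nat_lit 2) (nat_lit 4) (nat_lit 321) (nat_lit 250) (nat_lit 149)) (XT.lf (nat_lit 0) (nat_lit 448803706163) (nat_lit 76) (nat_lit 192451724946) (nat_lit 76) (nat_lit 155241751327) (nat_lit 1) (nat_lit 4) (nat_lit 2) (nat_lit 5) (nat_lit 2) (nat_lit 4) (nat_lit 322) (nat_lit 250) (nat_lit 148)))) (XT.nd (nat_lit 78) (nat_lit 0) (nat_lit 0) (XT.lf (nat_lit 0) (nat_lit 503787975980) (nat_lit 76) (nat_lit 196382925784) (nat_lit 76) (nat_lit 159171877503) (nat_lit 1) (nat_lit 4) (nat_lit 2) (nat_lit 5) (nat_lit 2) (nat_lit 4) (nat_lit 323) (nat_lit 250) (nat_lit 147)) (XT.nd (nat_lit 78) (nat_lit 0) (nat_lit 0) (XT.lf (nat_lit 0) (nat_lit 563169927313) (nat_lit 76)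 (nat_lit 200629094220) (nat_lit 76) (nat_lit 163417050882) (nat_lit 1) (nat_lit 4) (nat_lit 2) (nat_lit 5) (nat_lit 2) (nat_lit 4) (nat_lit 324) (nat_lit 250) (nat_lit 146)) (XT.lf (nat_lit 0) (nat_lit 627301453206) (nat_lit 76) (nat_lit 205215392734) (nat_lit 76) (nat_lit 168002428046) (nat_lit 1) (nat_lit 4) (nat_lit 2) (nat_lit 5) (nat_lit 2) (nat_lit 4) (nat_lit 325) (nat_lit 250) (nat_lit 145)))))) (XT.nd (nat_lit 468) (nat_lit 0) (nat_lit 0) (XT.nd (nat_lit 234) (nat_lit 0) (nat_lit 0) (XT.nd (nat_lit 78) (nat_lit 0) (nat_lit 0) (XT.lf (nat_lit 0) (nat_lit 696562592331) (nat_lit 76) (nat_lit 210168999390) (nat_lit 76) (nat_lit 172955181601) (nat_lit 1) (nat_lit 4) (nat_lit 2) (nat_lit 5) (nat_lit 2) (nat_lit 4) (nat_lit 326) (nat_lit 250) (nat_lit 144)) (XT.nd (nat_lit 78) (nat_lit 0) (nat_lit 0) (XT.lf (nat_lit 0) (nat_lit 771363781068) (nat_lit 76) (nat_lit 215519268895) (nat_lit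 76) (nat_lit 178304661197) (nat_lit 1) (nat_lit 4) (nat_lit 2) (nat_lit 5) (nat_lit 2) (nat_lit 4) (nat_lit 327) (nat_lit 250) (nat_lit 143)) (XT.lf (nat_lit 0) (nat_lit 852148285720) (nat_lit 76) (nat_lit 221297906549) (nat_lit 76) (nat_lit 184082567455) (nat_lit 1) (nat_lit 4) (nat_lit 2) (nat_lit 5) (nat_lit 2) (nat_lit 4) (nat_lit 328) (nat_lit 250) (nat_lit 142)))) (XT.nd (nat_lit 78) (nat_lit 0) (nat_lit 0) (XT.lf (nat_lit 0) (nat_lit 939394829279) (nat_lit 76) (nat_lit 227539156132) (nat_lit 76) (nat_lit 190323139818) (nat_lit 1) (nat_lit 4) (nat_lit 2) (nat_lit 5) (nat_lit 2) (nat_lit 4) (nat_lit 329) (nat_lit 250) (nat_lit 141)) (XT.nd (nat_lit 78) (nat_lit 0) (nat_lit 0) (XT.lf (nat_lit 0) (nat_lit 1033620428299) (nat_lit 76) (nat_lit 234280002825) (nat_lit 76) (nat_lit 197063359457) (nat_lit 1) (nat_lit 4) (nat_lit 2) (nat_lit 5) (nat_lit 2) (nat_lit 4) (nat_lit 330) (nat_lit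 250) (nat_lit 140)) (XT.lf (nat_lit 0) (nat_lit 1135383456699) (nat_lit 76) (nat_lit 241560392388) (nat_lit 76) (nat_lit 204343168413) (nat_lit 1) (nat_lit 4) (nat_lit 2) (nat_lit 5) (nat_lit 2) (nat_lit 4) (nat_lit 331) (nat_lit 250) (nat_lit 139))))) (XT.nd (nat_lit 31200) (nat_lit 0) (nat_lit 2660) (XT.nd (nat_lit 78) (nat_lit 0) (nat_lit 0) (XT.lf (nat_lit 0) (nat_lit 1245286954648) (nat_lit 76) (nat_lit 249423467869) (nat_lit 76) (nat_lit 212205706296) (nat_lit 1) (nat_lit 4) (nat_lit 2) (nat_lit 5) (nat_lit 2) (nat_lit 4) (nat_lit 332) (nat_lit 250) (nat_lit 138)) (XT.nd (nat_lit 78) (nat_lit 0) (nat_lit 0) (XT.lf (nat_lit 0) (nat_lit 1363982202134) (nat_lit 76) (nat_lit 257915825271) (nat_lit 76) (nat_lit 220697565922) (nat_lit 1) (nat_lit 4) (nat_lit 2) (nat_lit 5) (nat_lit 2) (nat_lit 4) (nat_lit 333) (nat_lit 250) (nat_lit 137)) (XT.lf (nat_lit 0) (nat_lit 1492172578401)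 (nat_lit 76) (nat_lit 267087789676) (nat_lit 76) (nat_lit 229869069422) (nat_lit 1) (nat_lit 4) (nat_lit 2) (nat_lit 5) (nat_lit 2) (nat_lit 4) (nat_lit 334) (nat_lit 250) (nat_lit 136)))) (XT.nd (nat_lit 78) (nat_lit 0) (nat_lit 0) (XT.lf (nat_lit 0) (nat_lit 1525367719) (nat_lit 0) (nat_lit 1525367719) (nat_lit 380) (nat_lit 1981735362) (nat_lit 36) (nat_lit 5) (nat_lit 36) (nat_lit 3) (nat_lit 41) (nat_lit 3) (nat_lit 251) (nat_lit 251) (nat_lit 218)) (XT.nd (nat_lit 78) (nat_lit 0) (nat_lit 0) (XT.lf (nat_lit 0) (nat_lit 6959920352) (nat_lit 380) (nat_lit 2906099099) (nat_lit 456) (nat_lit 547599185) (nat_lit 36) (nat_lit 5) (nat_lit 41) (nat_lit 3) (nat_lit 42) (nat_lit 5) (nat_lit 252) (nat_lit 251) (nat_lit 217)) (XT.lf (nat_lit 76) (nat_lit 1489900516) (nat_lit 0) (nat_lit 6452858155) (nat_lit 456) (nat_lit 2843451300) (nat_lit 37) (nat_lit 5) (nat_lit 36) (nat_lit 5) (nat_lit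 42) (nat_lit 5) (nat_lit 253) (nat_lit 251) (nat_lit 216))))))) (XT.nd (nat_lit 936) (nat_lit 912) (nat_lit 0) (XT.nd (nat_lit 468) (nat_lit 760) (nat_lit 0) (XT.nd (nat_lit 234) (nat_lit 380) (nat_lit 0) (XT.nd (nat_lit 78) (nat_lit 0) (nat_lit 76) (XT.lf (nat_lit 76) (nat_lit 6367718123) (nat_lit 0) (nat_lit 2660156682) (nat_lit 456) (nat_lit 2159283569) (nat_lit 37) (nat_lit 5) (nat_lit 36) (nat_lit 5) (nat_lit 42) (nat_lit 5) (nat_lit 254) (nat_lit 251) (nat_lit 215)) (XT.nd (nat_lit 78) (nat_lit 0) (nat_lit 0) (XT.lf (nat_lit 0) (nat_lit 10183122188) (nat_lit 380) (nat_lit 56491573) (nat_lit 456) (nat_lit 1382312224) (nat_lit 37) (nat_lit 5) (nat_lit 42) (nat_lit 5) (nat_lit 43) (nat_lit 5) (nat_lit 255) (nat_lit 251) (nat_lit 214)) (XT.lf (nat_lit 76) (nat_lit 5246073054) (nat_lit 0) (nat_lit 6332560085) (nat_lit 456) (nat_lit 501393157) (nat_lit 38) (nat_lit 5) (nat_lit 37)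 (nat_lit 5) (nat_lit 43) (nat_lit 5) (nat_lit 256) (nat_lit 251) (nat_lit 213)))) (XT.nd (nat_lit 78) (nat_lit 0) (nat_lit 76) (XT.lf (nat_lit 0) (nat_lit 440815911) (nat_lit 456) (nat_lit 1647558754) (nat_lit 532) (nat_lit 10489312062) (nat_lit 31) (nat_lit 5) (nat_lit 37) (nat_lit 5) (nat_lit 38) (nat_lit 5) (nat_lit 257) (nat_lit 251) (nat_lit 212)) (XT.nd (nat_lit 78) (nat_lit 0) (nat_lit 0) (XT.lf (nat_lit 0) (nat_lit 1550560790) (nat_lit 456) (nat_lit 9060533805) (nat_lit 76) (nat_lit 2493784451) (nat_lit 32) (nat_lit 5) (nat_lit 38) (nat_lit 5) (nat_lit 33) (nat_lit 5) (nat_lit 258) (nat_lit 251) (nat_lit 211)) (XT.lf (nat_lit 0) (nat_lit 2809304768) (nat_lit 456) (nat_lit 3477506692) (nat_lit 76) (nat_lit 7382896152) (nat_lit 32) (nat_lit 5) (nat_lit 38) (nat_lit 5) (nat_lit 33) (nat_lit 5) (nat_lit 259) (nat_lit 251) (nat_lit 210))))) (XT.nd (nat_lit 234) (nat_lit 152) (nat_lit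 0) (XT.nd (nat_lit 78) (nat_lit 228) (nat_lit 0) (XT.lf (nat_lit 0) (nat_lit 2650735481) (nat_lit 456) (nat_lit 1544502646) (nat_lit 532) (nat_lit 10082622946) (nat_lit 26) (nat_lit 5) (nat_lit 32) (nat_lit 5) (nat_lit 33) (nat_lit 5) (nat_lit 260) (nat_lit 251) (nat_lit 209)) (XT.nd (nat_lit 78) (nat_lit 228) (nat_lit 0) (XT.lf (nat_lit 0) (nat_lit 5840381782) (nat_lit 532) (nat_lit 5584835558) (nat_lit 76) (nat_lit 3497821324) (nat_lit 26) (nat_lit 5) (nat_lit 33) (nat_lit 5) (nat_lit 27) (nat_lit 5) (nat_lit 261) (nat_lit 251) (nat_lit 208)) (XT.lf (nat_lit 0) (nat_lit 912789578) (nat_lit 228) (nat_lit 6733781045) (nat_lit 304) (nat_lit 7971126163) (nat_lit 23) (nat_lit 5) (nat_lit 26) (nat_lit 5) (nat_lit 27) (nat_lit 5) (nat_lit 262) (nat_lit 251) (nat_lit 207)))) (XT.nd (nat_lit 78) (nat_lit 152) (nat_lit 0) (XT.lf (nat_lit 0) (nat_lit 8215097136) (nat_lit 228) (nat_lit 1503850892)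 (nat_lit 304) (nat_lit 6639448703) (nat_lit 23) (nat_lit 5) (nat_lit 26) (nat_lit 5) (nat_lit 27) (nat_lit 5) (nat_lit 263) (nat_lit 251) (nat_lit 206)) (XT.nd (nat_lit 78) (nat_lit 152) (nat_lit 0) (XT.lf (nat_lit 0) (nat_lit 12028042537) (nat_lit 304) (nat_lit 1189202412) (nat_lit 76) (nat_lit 3935623059) (nat_lit 23) (nat_lit 5) (nat_lit 27) (nat_lit 5) (nat_lit 24) (nat_lit 5) (nat_lit 264) (nat_lit 251) (nat_lit 205)) (XT.lf (nat_lit 0) (nat_lit 6581034103) (nat_lit 152) (nat_lit 8111547276) (nat_lit 228) (nat_lit 3304833718) (nat_lit 21) (nat_lit 5) (nat_lit 23) (nat_lit 5) (nat_lit 24) (nat_lit 5) (nat_lit 265) (nat_lit 251) (nat_lit 204)))))) (XT.nd (nat_lit 468) (nat_lit 456) (nat_lit 0) (XT.nd (nat_lit 234) (nat_lit 152) (nat_lit 0) (XT.nd (nat_lit 78) (nat_lit 304) (nat_lit 0) (XT.lf (nat_lit 0) (nat_lit 15010951212) (nat_lit 152) (nat_lit 2566489289) (nat_lit 228) (nat_lit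 1331675338) (nat_lit 21) (nat_lit 5) (nat_lit 23) (nat_lit 5) (nat_lit 24) (nat_lit 5) (nat_lit 266) (nat_lit 251) (nat_lit 203)) (XT.nd (nat_lit 78) (nat_lit 0) (nat_lit 0) (XT.lf (nat_lit 0) (nat_lit 926212881) (nat_lit 304) (nat_lit 15578017924) (nat_lit 76) (nat_lit 3374774137) (nat_lit 17) (nat_lit 5) (nat_lit 21) (nat_lit 5) (nat_lit 18) (nat_lit 5) (nat_lit 267) (nat_lit 251) (nat_lit 202)) (XT.lf (nat_lit 0) (nat_lit 3445569015) (nat_lit 304) (nat_lit 7674139239) (nat_lit 76) (nat_lit 9791916211) (nat_lit 17) (nat_lit 5) (nat_lit 21) (nat_lit 5) (nat_lit 18) (nat_lit 5) (nat_lit 268) (nat_lit 251) (nat_lit 201)))) (XT.nd (nat_lit 78) (nat_lit 0) (nat_lit 0) (XT.lf (nat_lit 0) (nat_lit 878277179) (nat_lit 152) (nat_lit 5287808625) (nat_lit 228) (nat_lit 15860918185) (nat_lit 15) (nat_lit 5) (nat_lit 17) (nat_lit 5) (nat_lit 18) (nat_lit 5) (nat_lit 269) (nat_lit 251) (nat_lit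 200)) (XT.nd (nat_lit 78) (nat_lit 0) (nat_lit 0) (XT.lf (nat_lit 0) (nat_lit 9323103054) (nat_lit 228) (nat_lit 12721868980) (nat_lit 76) (nat_lit 1169243677) (nat_lit 15) (nat_lit 5) (nat_lit 18) (nat_lit 5) (nat_lit 16) (nat_lit 5) (nat_lit 270) (nat_lit 251) (nat_lit 199)) (XT.lf (nat_lit 0) (nat_lit 12850840856) (nat_lit 228) (nat_lit 3784696261) (nat_lit 76) (nat_lit 7851516895) (nat_lit 15) (nat_lit 5) (nat_lit 18) (nat_lit 5) (nat_lit 16) (nat_lit 5) (nat_lit 271) (nat_lit 251) (nat_lit 198))))) (XT.nd (nat_lit 234) (nat_lit 304) (nat_lit 0) (XT.nd (nat_lit 78) (nat_lit 0) (nat_lit 0) (XT.lf (nat_lit 0) (nat_lit 6150602333) (nat_lit 152) (nat_lit 10640352199) (nat_lit 228) (nat_lit 9060447087) (nat_lit 13) (nat_lit 5) (nat_lit 15) (nat_lit 5) (nat_lit 16) (nat_lit 5) (nat_lit 272) (nat_lit 251) (nat_lit 197)) (XT.nd (nat_lit 78) (nat_lit 0) (nat_lit 0) (XT.lf (nat_lit 0) (nat_lit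 17072058775) (nat_lit 152) (nat_lit 4060674577) (nat_lit 228) (nat_lit 6185334971) (nat_lit 13) (nat_lit 5) (nat_lit 15) (nat_lit 5) (nat_lit 16) (nat_lit 5) (nat_lit 273) (nat_lit 251) (nat_lit 196)) (XT.lf (nat_lit 0) (nat_lit 25879179450) (nat_lit 228) (nat_lit 131401450) (nat_lit 76) (nat_lit 2886982734) (nat_lit 13) (nat_lit 5) (nat_lit 16) (nat_lit 5) (nat_lit 14) (nat_lit 4) (nat_lit 274) (nat_lit 251) (nat_lit 195)))) (XT.nd (nat_lit 78) (nat_lit 152) (nat_lit 0) (XT.lf (nat_lit 0) (nat_lit 751857735) (nat_lit 152) (nat_lit 19366745141) (nat_lit 76) (nat_lit 10454508798) (nat_lit 11) (nat_lit 5) (nat_lit 13) (nat_lit 5) (nat_lit 12) (nat_lit 5) (nat_lit 275) (nat_lit 251) (nat_lit 194)) (XT.nd (nat_lit 78) (nat_lit 152) (nat_lit 0) (XT.lf (nat_lit 0) (nat_lit 4649748159) (nat_lit 152) (nat_lit 9024161782) (nat_lit 76) (nat_lit 18703458142) (nat_lit 11) (nat_lit 5) (nat_lit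 13) (nat_lit 5) (nat_lit 12) (nat_lit 5) (nat_lit 276) (nat_lit 251) (nat_lit 193)) (XT.lf (nat_lit 0) (nat_lit 2237496115) (nat_lit 152) (nat_lit 6662280192) (nat_lit 228) (nat_lit 25423023911) (nat_lit 9) (nat_lit 5) (nat_lit 11) (nat_lit 5) (nat_lit 12) (nat_lit 5) (nat_lit 277) (nat_lit 251) (nat_lit 192))))))))
noncomputable def xc71 : XT := (XT.nd (nat_lit 1872) (nat_lit 76) (nat_lit 0) (XT.nd (nat_lit 936) (nat_lit 228) (nat_lit 0) (XT.nd (nat_lit 468) (nat_lit 228) (nat_lit 0) (XT.nd (nat_lit 234) (nat_lit 0) (nat_lit 0) (XT.nd (nat_lit 78) (nat_lit 76) (nat_lit 0) (XT.lf (nat_lit 0) (nat_lit 13751701627) (nat_lit 228) (nat_lit 21539809025) (nat_lit 76) (nat_lit 1111459990) (nat_lit 9) (nat_lit 5) (nat_lit 12) (nat_lit 5) (nat_lit 10) (nat_lit 4) (nat_lit 278) (nat_lit 251) (nat_lit 191)) (XT.nd (nat_lit 78) (nat_lit 76) (nat_lit 0) (XT.lf (nat_lit 0) (nat_lit 19152658088)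 (nat_lit 228) (nat_lit 10342867570) (nat_lit 76) (nat_lit 9141210085) (nat_lit 9) (nat_lit 5) (nat_lit 12) (nat_lit 5) (nat_lit 10) (nat_lit 4) (nat_lit 279) (nat_lit 251) (nat_lit 190)) (XT.lf (nat_lit 0) (nat_lit 1823309848) (nat_lit 76) (nat_lit 23194964157) (nat_lit 152) (nat_lit 16028368832) (nat_lit 8) (nat_lit 5) (nat_lit 9) (nat_lit 5) (nat_lit 10) (nat_lit 4) (nat_lit 280) (nat_lit 251) (nat_lit 189)))) (XT.nd (nat_lit 78) (nat_lit 0) (nat_lit 0) (XT.lf (nat_lit 0) (nat_lit 15533709636) (nat_lit 76) (nat_lit 16091373245) (nat_lit 152) (nat_lit 12002548028) (nat_lit 8) (nat_lit 5) (nat_lit 9) (nat_lit 5) (nat_lit 10) (nat_lit 4) (nat_lit 281) (nat_lit 251) (nat_lit 188)) (XT.nd (nat_lit 78) (nat_lit 0) (nat_lit 0) (XT.lf (nat_lit 0) (nat_lit 30324941530) (nat_lit 76) (nat_lit 8425449899) (nat_lit 152) (nat_lit 7665550858) (nat_lit 8) (nat_lit 5) (nat_lit 9) (nat_lit 5) (nat_lit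 10) (nat_lit 4) (nat_lit 282) (nat_lit 251) (nat_lit 187)) (XT.lf (nat_lit 0) (nat_lit 46284657273) (nat_lit 76) (nat_lit 151766423) (nat_lit 152) (nat_lit 2991676597) (nat_lit 8) (nat_lit 5) (nat_lit 9) (nat_lit 5) (nat_lit 10) (nat_lit 4) (nat_lit 283) (nat_lit 251) (nat_lit 186))))) (XT.nd (nat_lit 234) (nat_lit 76) (nat_lit 0) (XT.nd (nat_lit 78) (nat_lit 0) (nat_lit 0) (XT.lf (nat_lit 0) (nat_lit 2436693324) (nat_lit 152) (nat_lit 41531972562) (nat_lit 76) (nat_lit 8669966129) (nat_lit 6) (nat_lit 5) (nat_lit 8) (nat_lit 5) (nat_lit 7) (nat_lit 4) (nat_lit 284) (nat_lit 251) (nat_lit 185)) (XT.nd (nat_lit 78) (nat_lit 0) (nat_lit 0) (XT.lf (nat_lit 0) (nat_lit 8221153433) (nat_lit 152) (nat_lit 29521912680) (nat_lit 76) (nat_lit 18350077668) (nat_lit 6) (nat_lit 5) (nat_lit 8) (nat_lit 5) (nat_lit 7) (nat_lit 4) (nat_lit 285) (nat_lit 251) (nat_lit 184)) (XT.lf (nat_lit 0) (nat_lit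 14460339932) (nat_lit 152) (nat_lit 16564420634) (nat_lit 76) (nat_lit 28799926022) (nat_lit 6) (nat_lit 5) (nat_lit 8) (nat_lit 5) (nat_lit 7) (nat_lit 4) (nat_lit 286) (nat_lit 251) (nat_lit 183)))) (XT.nd (nat_lit 78) (nat_lit 76) (nat_lit 0) (XT.lf (nat_lit 0) (nat_lit 21191225780) (nat_lit 152) (nat_lit 2582711286) (nat_lit 76) (nat_lit 40081436220) (nat_lit 6) (nat_lit 5) (nat_lit 8) (nat_lit 5) (nat_lit 7) (nat_lit 4) (nat_lit 287) (nat_lit 251) (nat_lit 182)) (XT.nd (nat_lit 78) (nat_lit 0) (nat_lit 0) (XT.lf (nat_lit 0) (nat_lit 13164617415) (nat_lit 76) (nat_lit 15605689656) (nat_lit 152) (nat_lit 39413453604) (nat_lit 5) (nat_lit 5) (nat_lit 6) (nat_lit 5) (nat_lit 7) (nat_lit 4) (nat_lit 288) (nat_lit 251) (nat_lit 181)) (XT.lf (nat_lit 0) (nat_lit 30307438870) (nat_lit 76) (nat_lit 6712248346) (nat_lit 152) (nat_lit 35833636016) (nat_lit 5) (nat_lit 5) (nat_lit 6) (nat_lit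 5) (nat_lit 7) (nat_lit 4) (nat_lit 289) (nat_lit 251) (nat_lit 180)))))) (XT.nd (nat_lit 468) (nat_lit 152) (nat_lit 0) (XT.nd (nat_lit 234) (nat_lit 0) (nat_lit 0) (XT.nd (nat_lit 78) (nat_lit 76) (nat_lit 0) (XT.lf (nat_lit 0) (nat_lit 45992334174) (nat_lit 152) (nat_lit 29155091918) (nat_lit 0) (nat_lit 2743979725) (nat_lit 5) (nat_lit 5) (nat_lit 7) (nat_lit 4) (nat_lit 5) (nat_lit 4) (nat_lit 290) (nat_lit 251) (nat_lit 179)) (XT.nd (nat_lit 78) (nat_lit 76) (nat_lit 0) (XT.lf (nat_lit 0) (nat_lit 55851347798) (nat_lit 152) (nat_lit 14877341697) (nat_lit 0) (nat_lit 12590379954) (nat_lit 5) (nat_lit 5) (nat_lit 7) (nat_lit 4) (nat_lit 5) (nat_lit 4) (nat_lit 291) (nat_lit 251) (nat_lit 178)) (XT.lf (nat_lit 0) (nat_lit 561493084) (nat_lit 76) (nat_lit 65945732977) (nat_lit 76) (nat_lit 22673086063) (nat_lit 4) (nat_lit 4) (nat_lit 5) (nat_lit 5) (nat_lit 5) (nat_lit 4) (nat_lit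 292) (nat_lit 251) (nat_lit 177)))) (XT.nd (nat_lit 78) (nat_lit 0) (nat_lit 0) (XT.lf (nat_lit 0) (nat_lit 18072532147) (nat_lit 76) (nat_lit 60344635804) (nat_lit 76) (nat_lit 17061174937) (nat_lit 4) (nat_lit 4) (nat_lit 5) (nat_lit 5) (nat_lit 5) (nat_lit 4) (nat_lit 293) (nat_lit 251) (nat_lit 176)) (XT.nd (nat_lit 78) (nat_lit 0) (nat_lit 0) (XT.lf (nat_lit 0) (nat_lit 36976130162) (nat_lit 76) (nat_lit 54298979177) (nat_lit 76) (nat_lit 11005505390) (nat_lit 4) (nat_lit 4) (nat_lit 5) (nat_lit 5) (nat_lit 5) (nat_lit 4) (nat_lit 294) (nat_lit 251) (nat_lit 175)) (XT.lf (nat_lit 0) (nat_lit 57384308451) (nat_lit 76) (nat_lit 47772936982) (nat_lit 76) (nat_lit 4470191973) (nat_lit 4) (nat_lit 4) (nat_lit 5) (nat_lit 5) (nat_lit 5) (nat_lit 4) (nat_lit 295) (nat_lit 251) (nat_lit 174))))) (XT.nd (nat_lit 234) (nat_lit 76) (nat_lit 0) (XT.nd (nat_lit 78) (nat_lit 0) (nat_lit 0)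 (XT.lf (nat_lit 0) (nat_lit 2454256307) (nat_lit 152) (nat_lit 38206476353) (nat_lit 76) (nat_lit 76896644343) (nat_lit 3) (nat_lit 5) (nat_lit 5) (nat_lit 5) (nat_lit 4) (nat_lit 4) (nat_lit 296) (nat_lit 251) (nat_lit 173)) (XT.nd (nat_lit 78) (nat_lit 0) (nat_lit 0) (XT.lf (nat_lit 0) (nat_lit 9687236714) (nat_lit 152) (nat_lit 23169825685) (nat_lit 76) (nat_lit 93255685026) (nat_lit 3) (nat_lit 5) (nat_lit 5) (nat_lit 5) (nat_lit 4) (nat_lit 4) (nat_lit 297) (nat_lit 251) (nat_lit 172)) (XT.lf (nat_lit 0) (nat_lit 17495228460) (nat_lit 152) (nat_lit 6936562649) (nat_lit 76) (nat_lit 110921056714) (nat_lit 3) (nat_lit 5) (nat_lit 5) (nat_lit 5) (nat_lit 4) (nat_lit 4) (nat_lit 298) (nat_lit 251) (nat_lit 171)))) (XT.nd (nat_lit 78) (nat_lit 0) (nat_lit 0) (XT.lf (nat_lit 0) (nat_lit 11147134692) (nat_lit 76) (nat_lit 15045455290) (nat_lit 152) (nat_lit 119118397255) (nat_lit 2)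 (nat_lit 5) (nat_lit 3) (nat_lit 5) (nat_lit 4) (nat_lit 4) (nat_lit 299) (nat_lit 251) (nat_lit 170)) (XT.nd (nat_lit 78) (nat_lit 0) (nat_lit 0) (XT.lf (nat_lit 0) (nat_lit 31066312866) (nat_lit 76) (nat_lit 4705838660) (nat_lit 152) (nat_lit 120278722113) (nat_lit 2) (nat_lit 5) (nat_lit 3) (nat_lit 5) (nat_lit 4) (nat_lit 4) (nat_lit 300) (nat_lit 251) (nat_lit 169)) (XT.lf (nat_lit 0) (nat_lit 46270402916) (nat_lit 152) (nat_lit 115231786419) (nat_lit 0) (nat_lit 6135583701) (nat_lit 2) (nat_lit 5) (nat_lit 4) (nat_lit 4) (nat_lit 2) (nat_lit 4) (nat_lit 301) (nat_lit 251) (nat_lit 168))))))) (XT.nd (nat_lit 936) (nat_lit 0) (nat_lit 0) (XT.nd (nat_lit 468) (nat_lit 76) (nat_lit 0) (XT.nd (nat_lit 234) (nat_lit 0) (nat_lit 0) (XT.nd (nat_lit 78) (nat_lit 0) (nat_lit 0) (XT.lf (nat_lit 0) (nat_lit 57727909719) (nat_lit 152) (nat_lit 104826088970) (nat_lit 0) (nat_lit 17588081550)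 (nat_lit 2) (nat_lit 5) (nat_lit 4) (nat_lit 4) (nat_lit 2) (nat_lit 4) (nat_lit 302) (nat_lit 251) (nat_lit 167)) (XT.nd (nat_lit 78) (nat_lit 0) (nat_lit 0) (XT.lf (nat_lit 0) (nat_lit 70099392738) (nat_lit 152) (nat_lit 93592629500) (nat_lit 0) (nat_lit 29954926650) (nat_lit 2) (nat_lit 5) (nat_lit 4) (nat_lit 4) (nat_lit 2) (nat_lit 4) (nat_lit 303) (nat_lit 251) (nat_lit 166)) (XT.lf (nat_lit 0) (nat_lit 83458164465) (nat_lit 152) (nat_lit 81464839362) (nat_lit 0) (nat_lit 43309404008) (nat_lit 2) (nat_lit 5) (nat_lit 4) (nat_lit 4) (nat_lit 2) (nat_lit 4) (nat_lit 304) (nat_lit 251) (nat_lit 165)))) (XT.nd (nat_lit 78) (nat_lit 0) (nat_lit 0) (XT.lf (nat_lit 0) (nat_lit 97883387992) (nat_lit 152) (nat_lit 68370850169) (nat_lit 0) (nat_lit 57730651267) (nat_lit 2) (nat_lit 5) (nat_lit 4) (nat_lit 4) (nat_lit 2) (nat_lit 4) (nat_lit 305) (nat_lit 251) (nat_lit 164)) (XT.nd (nat_lit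 78) (nat_lit 0) (nat_lit 0) (XT.lf (nat_lit 0) (nat_lit 113460546126) (nat_lit 152) (nat_lit 54233067912) (nat_lit 0) (nat_lit 73304127670) (nat_lit 2) (nat_lit 5) (nat_lit 4) (nat_lit 4) (nat_lit 2) (nat_lit 4) (nat_lit 306) (nat_lit 251) (nat_lit 163)) (XT.lf (nat_lit 0) (nat_lit 130281947951) (nat_lit 152) (nat_lit 38967713139) (nat_lit 0) (nat_lit 90122120486) (nat_lit 2) (nat_lit 5) (nat_lit 4) (nat_lit 4) (nat_lit 2) (nat_lit 4) (nat_lit 307) (nat_lit 251) (nat_lit 162))))) (XT.nd (nat_lit 234) (nat_lit 0) (nat_lit 0) (XT.nd (nat_lit 78) (nat_lit 76) (nat_lit 0) (XT.lf (nat_lit 0) (nat_lit 148447275848) (nat_lit 152) (nat_lit 22484324490) (nat_lit 0) (nat_lit 108284291894) (nat_lit 2) (nat_lit 5) (nat_lit 4) (nat_lit 4) (nat_lit 2) (nat_lit 4) (nat_lit 308) (nat_lit 251) (nat_lit 161)) (XT.nd (nat_lit 78) (nat_lit 76) (nat_lit 0) (XT.lf (nat_lit 0) (nat_lit 168064176206) (nat_lit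 152) (nat_lit 4685222625) (nat_lit 0) (nat_lit 127898269576) (nat_lit 2) (nat_lit 5) (nat_lit 4) (nat_lit 4) (nat_lit 2) (nat_lit 4) (nat_lit 309) (nat_lit 251) (nat_lit 160)) (XT.lf (nat_lit 0) (nat_lit 15300459571) (nat_lit 76) (nat_lit 174316414171) (nat_lit 76) (nat_lit 134147801360) (nat_lit 1) (nat_lit 4) (nat_lit 2) (nat_lit 5) (nat_lit 2) (nat_lit 4) (nat_lit 310) (nat_lit 251) (nat_lit 159)))) (XT.nd (nat_lit 78) (nat_lit 0) (nat_lit 0) (XT.lf (nat_lit 0) (nat_lit 37148779669) (nat_lit 76) (nat_lit 175871627661) (nat_lit 76) (nat_lit 135700509126) (nat_lit 1) (nat_lit 4) (nat_lit 2) (nat_lit 5) (nat_lit 2) (nat_lit 4) (nat_lit 311) (nat_lit 251) (nat_lit 158)) (XT.nd (nat_lit 78) (nat_lit 0) (nat_lit 0) (XT.lf (nat_lit 0) (nat_lit 60742493673) (nat_lit 76) (nat_lit 177552357669) (nat_lit 76) (nat_lit 137378919019) (nat_lit 1) (nat_lit 4) (nat_lit 2) (nat_lit 5) (nat_lit 2)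 (nat_lit 4) (nat_lit 312) (nat_lit 251) (nat_lit 157)) (XT.lf (nat_lit 0) (nat_lit 86221416185) (nat_lit 76) (nat_lit 179368564077) (nat_lit 76) (nat_lit 139192977173) (nat_lit 1) (nat_lit 4) (nat_lit 2) (nat_lit 5) (nat_lit 2) (nat_lit 4) (nat_lit 313) (nat_lit 251) (nat_lit 156)))))) (XT.nd (nat_lit 468) (nat_lit 0) (nat_lit 0) (XT.nd (nat_lit 234) (nat_lit 0) (nat_lit 0) (XT.nd (nat_lit 78) (nat_lit 0) (nat_lit 0) (XT.lf (nat_lit 0) (nat_lit 113736533413) (nat_lit 76) (nat_lit 181331009589) (nat_lit 76) (nat_lit 141153433562) (nat_lit 1) (nat_lit 4) (nat_lit 2) (nat_lit 5) (nat_lit 2) (nat_lit 4) (nat_lit 314) (nat_lit 251) (nat_lit 155)) (XT.nd (nat_lit 78) (nat_lit 0) (nat_lit 0) (XT.lf (nat_lit 0) (nat_lit 143450897903) (nat_lit 76) (nat_lit 183451323514) (nat_lit 76) (nat_lit 143271905705) (nat_lit 1) (nat_lit 4) (nat_lit 2) (nat_lit 5) (nat_lit 2) (nat_lit 4) (nat_lit 315)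 (nat_lit 251) (nat_lit 154)) (XT.lf (nat_lit 0) (nat_lit 175540594778) (nat_lit 76) (nat_lit 185742070672) (nat_lit 76) (nat_lit 145560947510) (nat_lit 1) (nat_lit 4) (nat_lit 2) (nat_lit 5) (nat_lit 2) (nat_lit 4) (nat_lit 316) (nat_lit 251) (nat_lit 153)))) (XT.nd (nat_lit 78) (nat_lit 0) (nat_lit 0) (XT.lf (nat_lit 0) (nat_lit 210195785205) (nat_lit 76) (nat_lit 188216825864) (nat_lit 76) (nat_lit 148034123671) (nat_lit 1) (nat_lit 4) (nat_lit 2) (nat_lit 5) (nat_lit 2) (nat_lit 4) (nat_lit 317) (nat_lit 251) (nat_lit 152)) (XT.nd (nat_lit 78) (nat_lit 0) (nat_lit 0) (XT.lf (nat_lit 0) (nat_lit 247621833275) (nat_lit 76) (nat_lit 190890254304) (nat_lit 76) (nat_lit 150706090046) (nat_lit 1) (nat_lit 4) (nat_lit 2) (nat_lit 5) (nat_lit 2) (nat_lit 4) (nat_lit 318) (nat_lit 251) (nat_lit 151)) (XT.lf (nat_lit 0) (nat_lit 288040522976) (nat_lit 76) (nat_lit 193778198532) (nat_lit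 76) (nat_lit 153592680509) (nat_lit 1) (nat_lit 4) (nat_lit 2) (nat_lit 5) (nat_lit 2) (nat_lit 4) (nat_lit 319) (nat_lit 251) (nat_lit 150))))) (XT.nd (nat_lit 234) (nat_lit 0) (nat_lit 0) (XT.nd (nat_lit 78) (nat_lit 0) (nat_lit 0) (XT.lf (nat_lit 0) (nat_lit 331691372471) (nat_lit 76) (nat_lit 196897772291) (nat_lit 76) (nat_lit 156711000783) (nat_lit 1) (nat_lit 4) (nat_lit 2) (nat_lit 5) (nat_lit 2) (nat_lit 4) (nat_lit 320) (nat_lit 251) (nat_lit 149)) (XT.nd (nat_lit 78) (nat_lit 0) (nat_lit 0) (XT.lf (nat_lit 0) (nat_lit 378833053459) (nat_lit 76) (nat_lit 200267461945) (nat_lit 76) (nat_lit 160079529801) (nat_lit 1) (nat_lit 4) (nat_lit 2) (nat_lit 5) (nat_lit 2) (nat_lit 4) (nat_lit 321) (nat_lit 251) (nat_lit 148)) (XT.lf (nat_lit 0) (nat_lit 429744924050) (nat_lit 76) (nat_lit 203907236023) (nat_lit 76) (nat_lit 163718229218) (nat_lit 1) (nat_lit 4) (nat_lit 2) (nat_lit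 5) (nat_lit 2) (nat_lit 4) (nat_lit 322) (nat_lit 251) (nat_lit 147)))) (XT.nd (nat_lit 78) (nat_lit 0) (nat_lit 0) (XT.lf (nat_lit 0) (nat_lit 484728684219) (nat_lit 76) (nat_lit 207838663559) (nat_lit 76) (nat_lit 167648661696) (nat_lit 1) (nat_lit 4) (nat_lit 2) (nat_lit 5) (nat_lit 2) (nat_lit 4) (nat_lit 323) (nat_lit 251) (nat_lit 146)) (XT.nd (nat_lit 78) (nat_lit 0) (nat_lit 0) (XT.lf (nat_lit 0) (nat_lit 544110163654) (nat_lit 76) (nat_lit 212085041900) (nat_lit 76) (nat_lit 171894118688) (nat_lit 1) (nat_lit 4) (nat_lit 2) (nat_lit 5) (nat_lit 2) (nat_lit 4) (nat_lit 324) (nat_lit 251) (nat_lit 145)) (XT.lf (nat_lit 0) (nat_lit 608241252605) (nat_lit 76) (nat_lit 216671534770) (nat_lit 76) (nat_lit 176479758457) (nat_lit 1) (nat_lit 4) (nat_lit 2) (nat_lit 5) (nat_lit 2) (nat_lit 4) (nat_lit 325) (nat_lit 251) (nat_lit 144))))))))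
noncomputable def xc72 : XT := (XT.nd (nat_lit 32838) (nat_lit 0) (nat_lit 304) (XT.nd (nat_lit 31902) (nat_lit 0) (nat_lit 1672) (XT.nd (nat_lit 390) (nat_lit 0) (nat_lit 0) (XT.nd (nat_lit 156) (nat_lit 0) (nat_lit 0) (XT.nd (nat_lit 78) (nat_lit 0) (nat_lit 0) (XT.lf (nat_lit 0) (nat_lit 677501987154) (nat_lit 76) (nat_lit 221625321386) (nat_lit 76) (nat_lit 181432755164) (nat_lit 1) (nat_lit 4) (nat_lit 2) (nat_lit 5) (nat_lit 2) (nat_lit 4) (nat_lit 326) (nat_lit 251) (nat_lit 143)) (XT.lf (nat_lit 0) (nat_lit 752302801284) (nat_lit 76) (nat_lit 226975757520) (nat_lit 76) (nat_lit 186782459901) (nat_lit 1) (nat_lit 4) (nat_lit 2) (nat_lit 5) (nat_lit 2) (nat_lit 4) (nat_lit 327) (nat_lit 251) (nat_lit 142))) (XT.nd (nat_lit 78) (nat_lit 0) (nat_lit 0) (XT.lf (nat_lit 0) (nat_lit 833086959077) (nat_lit 76) (nat_lit 232754549461) (nat_lit 76) (nat_lit 192560574623) (nat_lit 1)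 (nat_lit 4) (nat_lit 2) (nat_lit 5) (nat_lit 2) (nat_lit 4) (nat_lit 328) (nat_lit 251) (nat_lit 141)) (XT.nd (nat_lit 78) (nat_lit 0) (nat_lit 0) (XT.lf (nat_lit 0) (nat_lit 920333181471) (nat_lit 76) (nat_lit 238995941901) (nat_lit 76) (nat_lit 198801340009) (nat_lit 1) (nat_lit 4) (nat_lit 2) (nat_lit 5) (nat_lit 2) (nat_lit 4) (nat_lit 329) (nat_lit 251) (nat_lit 140)) (XT.lf (nat_lit 0) (nat_lit 1014558483115) (nat_lit 76) (nat_lit 245736920871) (nat_lit 76) (nat_lit 205541738372) (nat_lit 1) (nat_lit 4) (nat_lit 2) (nat_lit 5) (nat_lit 2) (nat_lit 4) (nat_lit 330) (nat_lit 251) (nat_lit 139))))) (XT.nd (nat_lit 234) (nat_lit 0) (nat_lit 0) (XT.nd (nat_lit 78) (nat_lit 0) (nat_lit 0) (XT.lf (nat_lit 0) (nat_lit 1116321236167) (nat_lit 76) (nat_lit 253017432911) (nat_lit 76) (nat_lit 212821712813) (nat_lit 1) (nat_lit 4) (nat_lit 2) (nat_lit 5) (nat_lit 2) (nat_lit 4) (nat_lit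 331) (nat_lit 251) (nat_lit 138)) (XT.nd (nat_lit 78) (nat_lit 0) (nat_lit 0) (XT.lf (nat_lit 0) (nat_lit 1226224479165) (nat_lit 76) (nat_lit 260880621797) (nat_lit 76) (nat_lit 220684403923) (nat_lit 1) (nat_lit 4) (nat_lit 2) (nat_lit 5) (nat_lit 2) (nat_lit 4) (nat_lit 332) (nat_lit 251) (nat_lit 137)) (XT.lf (nat_lit 0) (nat_lit 1344919490585) (nat_lit 76) (nat_lit 269373084204) (nat_lit 76) (nat_lit 229176405426) (nat_lit 1) (nat_lit 4) (nat_lit 2) (nat_lit 5) (nat_lit 2) (nat_lit 4) (nat_lit 333) (nat_lit 251) (nat_lit 136)))) (XT.nd (nat_lit 31122) (nat_lit 0) (nat_lit 2660) (XT.lf (nat_lit 0) (nat_lit 1473109648273) (nat_lit 76) (nat_lit 278545145835) (nat_lit 76) (nat_lit 238348040294) (nat_lit 1) (nat_lit 4) (nat_lit 2) (nat_lit 5) (nat_lit 2) (nat_lit 4) (nat_lit 334) (nat_lit 251) (nat_lit 135)) (XT.nd (nat_lit 78) (nat_lit 0) (nat_lit 0) (XT.lf (nat_lit 0) (nat_lit 1940439473)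 (nat_lit 0) (nat_lit 1940439473) (nat_lit 380) (nat_lit 1502648071) (nat_lit 36) (nat_lit 5) (nat_lit 36) (nat_lit 3) (nat_lit 41) (nat_lit 3) (nat_lit 252) (nat_lit 252) (nat_lit 216)) (XT.lf (nat_lit 0) (nat_lit 8589004717) (nat_lit 380) (nat_lit 2487417658) (nat_lit 456) (nat_lit 75882727) (nat_lit 36) (nat_lit 5) (nat_lit 41) (nat_lit 3) (nat_lit 42) (nat_lit 5) (nat_lit 253) (nat_lit 252) (nat_lit 215)))))) (XT.nd (nat_lit 468) (nat_lit 608) (nat_lit 0) (XT.nd (nat_lit 234) (nat_lit 380) (nat_lit 0) (XT.nd (nat_lit 78) (nat_lit 0) (nat_lit 0) (XT.lf (nat_lit 76) (nat_lit 2243776625) (nat_lit 0) (nat_lit 7342528700) (nat_lit 456) (nat_lit 1974170102) (nat_lit 37) (nat_lit 5) (nat_lit 36) (nat_lit 5) (nat_lit 42) (nat_lit 5) (nat_lit 254) (nat_lit 252) (nat_lit 214)) (XT.nd (nat_lit 78) (nat_lit 0) (nat_lit 76) (XT.lf (nat_lit 76) (nat_lit 7464806007) (nat_lit 0) (nat_lit 3218748746)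 (nat_lit 456) (nat_lit 1316510234) (nat_lit 37) (nat_lit 5) (nat_lit 36) (nat_lit 5) (nat_lit 42) (nat_lit 5) (nat_lit 255) (nat_lit 252) (nat_lit 213)) (XT.lf (nat_lit 76) (nat_lit 596662984) (nat_lit 0) (nat_lit 11272064254) (nat_lit 456) (nat_lit 606433757) (nat_lit 38) (nat_lit 5) (nat_lit 37) (nat_lit 5) (nat_lit 43) (nat_lit 5) (nat_lit 256) (nat_lit 252) (nat_lit 212)))) (XT.nd (nat_lit 78) (nat_lit 0) (nat_lit 0) (XT.lf (nat_lit 0) (nat_lit 320456365) (nat_lit 456) (nat_lit 6705884870) (nat_lit 532) (nat_lit 5948472735) (nat_lit 31) (nat_lit 5) (nat_lit 37) (nat_lit 5) (nat_lit 38) (nat_lit 5) (nat_lit 257) (nat_lit 252) (nat_lit 211)) (XT.nd (nat_lit 78) (nat_lit 0) (nat_lit 76) (XT.lf (nat_lit 0) (nat_lit 1249111482) (nat_lit 456) (nat_lit 1166621388) (nat_lit 532) (nat_lit 11100894458) (nat_lit 31) (nat_lit 5) (nat_lit 37) (nat_lit 5) (nat_lit 38) (nat_lit 5) (nat_lit 258)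 (nat_lit 252) (nat_lit 210)) (XT.lf (nat_lit 0) (nat_lit 2401541524) (nat_lit 456) (nat_lit 9121510465) (nat_lit 76) (nat_lit 2567032961) (nat_lit 32) (nat_lit 5) (nat_lit 38) (nat_lit 5) (nat_lit 33) (nat_lit 5) (nat_lit 259) (nat_lit 252) (nat_lit 209))))) (XT.nd (nat_lit 234) (nat_lit 228) (nat_lit 0) (XT.nd (nat_lit 78) (nat_lit 456) (nat_lit 0) (XT.lf (nat_lit 0) (nat_lit 3707137919) (nat_lit 456) (nat_lit 3141016445) (nat_lit 76) (nat_lit 7856625765) (nat_lit 32) (nat_lit 5) (nat_lit 38) (nat_lit 5) (nat_lit 33) (nat_lit 5) (nat_lit 260) (nat_lit 252) (nat_lit 208)) (XT.nd (nat_lit 78) (nat_lit 0) (nat_lit 0) (XT.lf (nat_lit 0) (nat_lit 3461923309) (nat_lit 456) (nat_lit 1706573277) (nat_lit 532) (nat_lit 10196270192) (nat_lit 26) (nat_lit 5) (nat_lit 32) (nat_lit 5) (nat_lit 33) (nat_lit 5) (nat_lit 261) (nat_lit 252) (nat_lit 207)) (XT.lf (nat_lit 0) (nat_lit 6897161614) (nat_lit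 532) (nat_lit 5424790598) (nat_lit 76) (nat_lit 3743772983) (nat_lit 26) (nat_lit 5) (nat_lit 33) (nat_lit 5) (nat_lit 27) (nat_lit 5) (nat_lit 262) (nat_lit 252) (nat_lit 206)))) (XT.nd (nat_lit 78) (nat_lit 0) (nat_lit 0) (XT.lf (nat_lit 0) (nat_lit 1577281718) (nat_lit 228) (nat_lit 7241118369) (nat_lit 304) (nat_lit 8000207267) (nat_lit 23) (nat_lit 5) (nat_lit 26) (nat_lit 5) (nat_lit 27) (nat_lit 5) (nat_lit 263) (nat_lit 252) (nat_lit 205)) (XT.nd (nat_lit 78) (nat_lit 0) (nat_lit 0) (XT.lf (nat_lit 0) (nat_lit 9419961364) (nat_lit 228) (nat_lit 1595117150) (nat_lit 304) (nat_lit 6607077757) (nat_lit 23) (nat_lit 5) (nat_lit 26) (nat_lit 5) (nat_lit 27) (nat_lit 5) (nat_lit 264) (nat_lit 252) (nat_lit 204)) (XT.lf (nat_lit 0) (nat_lit 13471131402) (nat_lit 304) (nat_lit 736310642) (nat_lit 76) (nat_lit 4276018297) (nat_lit 23) (nat_lit 5) (nat_lit 27) (nat_lit 5) (nat_lit 24)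 (nat_lit 5) (nat_lit 265) (nat_lit 252) (nat_lit 203))))))) (XT.nd (nat_lit 936) (nat_lit 456) (nat_lit 0) (XT.nd (nat_lit 468) (nat_lit 304) (nat_lit 0) (XT.nd (nat_lit 234) (nat_lit 152) (nat_lit 0) (XT.nd (nat_lit 78) (nat_lit 304) (nat_lit 0) (XT.lf (nat_lit 0) (nat_lit 7641670669) (nat_lit 152) (nat_lit 8684390914) (nat_lit 228) (nat_lit 3071566133) (nat_lit 21) (nat_lit 5) (nat_lit 23) (nat_lit 5) (nat_lit 24) (nat_lit 5) (nat_lit 266) (nat_lit 252) (nat_lit 202)) (XT.nd (nat_lit 78) (nat_lit 304) (nat_lit 0) (XT.lf (nat_lit 0) (nat_lit 16706414195) (nat_lit 152) (nat_lit 2701363854) (nat_lit 228) (nat_lit 977418363) (nat_lit 21) (nat_lit 5) (nat_lit 23) (nat_lit 5) (nat_lit 24) (nat_lit 5) (nat_lit 267) (nat_lit 252) (nat_lit 201)) (XT.lf (nat_lit 0) (nat_lit 1419969995) (nat_lit 304) (nat_lit 16283695871) (nat_lit 76) (nat_lit 3729757009) (nat_lit 17) (nat_lit 5) (nat_lit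 21) (nat_lit 5) (nat_lit 18) (nat_lit 5) (nat_lit 268) (nat_lit 252) (nat_lit 200)))) (XT.nd (nat_lit 78) (nat_lit 152) (nat_lit 0) (XT.lf (nat_lit 0) (nat_lit 4109788688) (nat_lit 304) (nat_lit 7787548631) (nat_lit 76) (nat_lit 10653974083) (nat_lit 17) (nat_lit 5) (nat_lit 21) (nat_lit 5) (nat_lit 18) (nat_lit 5) (nat_lit 269) (nat_lit 252) (nat_lit 199)) (XT.nd (nat_lit 78) (nat_lit 0) (nat_lit 0) (XT.lf (nat_lit 0) (nat_lit 1436389664) (nat_lit 152) (nat_lit 5594506697) (nat_lit 228) (nat_lit 16726548748) (nat_lit 15) (nat_lit 5) (nat_lit 17) (nat_lit 5) (nat_lit 18) (nat_lit 5) (nat_lit 270) (nat_lit 252) (nat_lit 198)) (XT.lf (nat_lit 0) (nat_lit 10415545142) (nat_lit 228) (nat_lit 13261126043) (nat_lit 76) (nat_lit 1365104920) (nat_lit 15) (nat_lit 5) (nat_lit 18) (nat_lit 5) (nat_lit 16) (nat_lit 5) (nat_lit 271) (nat_lit 252) (nat_lit 197))))) (XT.nd (nat_lit 234) (nat_lit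 152) (nat_lit 0) (XT.nd (nat_lit 78) (nat_lit 152) (nat_lit 0) (XT.lf (nat_lit 0) (nat_lit 14199828349) (nat_lit 228) (nat_lit 3644423392) (nat_lit 76) (nat_lit 8574380607) (nat_lit 15) (nat_lit 5) (nat_lit 18) (nat_lit 5) (nat_lit 16) (nat_lit 5) (nat_lit 272) (nat_lit 252) (nat_lit 196)) (XT.nd (nat_lit 78) (nat_lit 0) (nat_lit 0) (XT.lf (nat_lit 0) (nat_lit 7074482670) (nat_lit 152) (nat_lit 11367282155) (nat_lit 228) (nat_lit 9451560685) (nat_lit 13) (nat_lit 5) (nat_lit 15) (nat_lit 5) (nat_lit 16) (nat_lit 5) (nat_lit 273) (nat_lit 252) (nat_lit 195)) (XT.lf (nat_lit 0) (nat_lit 18837668061) (nat_lit 152) (nat_lit 4270437599) (nat_lit 228) (nat_lit 6371159761) (nat_lit 13) (nat_lit 5) (nat_lit 15) (nat_lit 5) (nat_lit 16) (nat_lit 5) (nat_lit 274) (nat_lit 252) (nat_lit 194)))) (XT.nd (nat_lit 78) (nat_lit 76) (nat_lit 0) (XT.lf (nat_lit 0) (nat_lit 261272073) (nat_lit 76) (nat_lit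 27960749017) (nat_lit 152) (nat_lit 2964187721) (nat_lit 12) (nat_lit 5) (nat_lit 13) (nat_lit 5) (nat_lit 14) (nat_lit 4) (nat_lit 275) (nat_lit 252) (nat_lit 193)) (XT.nd (nat_lit 78) (nat_lit 0) (nat_lit 0) (XT.lf (nat_lit 0) (nat_lit 1075490423) (nat_lit 152) (nat_lit 20520805337) (nat_lit 76) (nat_lit 11400420716) (nat_lit 11) (nat_lit 5) (nat_lit 13) (nat_lit 5) (nat_lit 12) (nat_lit 5) (nat_lit 276) (nat_lit 252) (nat_lit 192)) (XT.lf (nat_lit 0) (nat_lit 5265694742) (nat_lit 152) (nat_lit 9380095265) (nat_lit 76) (nat_lit 20301171103) (nat_lit 11) (nat_lit 5) (nat_lit 13) (nat_lit 5) (nat_lit 12) (nat_lit 5) (nat_lit 277) (nat_lit 252) (nat_lit 191)))))) (XT.nd (nat_lit 468) (nat_lit 228) (nat_lit 0) (XT.nd (nat_lit 234) (nat_lit 76) (nat_lit 0) (XT.nd (nat_lit 78) (nat_lit 0) (nat_lit 0) (XT.lf (nat_lit 0) (nat_lit 2773229454) (nat_lit 152) (nat_lit 7073003530) (nat_lit 228)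 (nat_lit 27202634136) (nat_lit 9) (nat_lit 5) (nat_lit 11) (nat_lit 5) (nat_lit 12) (nat_lit 5) (nat_lit 278) (nat_lit 252) (nat_lit 190)) (XT.nd (nat_lit 78) (nat_lit 0) (nat_lit 0) (XT.lf (nat_lit 0) (nat_lit 15071666375) (nat_lit 228) (nat_lit 22917113718) (nat_lit 76) (nat_lit 1307916773) (nat_lit 9) (nat_lit 5) (nat_lit 12) (nat_lit 5) (nat_lit 10) (nat_lit 4) (nat_lit 279) (nat_lit 252) (nat_lit 189)) (XT.lf (nat_lit 0) (nat_lit 20888415751) (nat_lit 228) (nat_lit 10850037689) (nat_lit 76) (nat_lit 9972080950) (nat_lit 9) (nat_lit 5) (nat_lit 12) (nat_lit 5) (nat_lit 10) (nat_lit 4) (nat_lit 280) (nat_lit 252) (nat_lit 188)))) (XT.nd (nat_lit 78) (nat_lit 0) (nat_lit 0) (XT.lf (nat_lit 0) (nat_lit 2281326092) (nat_lit 76) (nat_lit 24934384691) (nat_lit 152) (nat_lit 17098192335) (nat_lit 8) (nat_lit 5) (nat_lit 9) (nat_lit 5) (nat_lit 10) (nat_lit 4) (nat_lit 281) (nat_lit 252)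 (nat_lit 187)) (XT.nd (nat_lit 78) (nat_lit 0) (nat_lit 0) (XT.lf (nat_lit 0) (nat_lit 17065435533) (nat_lit 76) (nat_lit 17271112181) (nat_lit 152) (nat_lit 12766042608) (nat_lit 8) (nat_lit 5) (nat_lit 9) (nat_lit 5) (nat_lit 10) (nat_lit 4) (nat_lit 282) (nat_lit 252) (nat_lit 186)) (XT.lf (nat_lit 0) (nat_lit 33018556413) (nat_lit 76) (nat_lit 8999883183) (nat_lit 152) (nat_lit 8096656721) (nat_lit 8) (nat_lit 5) (nat_lit 9) (nat_lit 5) (nat_lit 10) (nat_lit 4) (nat_lit 283) (nat_lit 252) (nat_lit 185))))) (XT.nd (nat_lit 234) (nat_lit 76) (nat_lit 0) (XT.nd (nat_lit 78) (nat_lit 152) (nat_lit 0) (XT.lf (nat_lit 0) (nat_lit 50235225745) (nat_lit 76) (nat_lit 71683008) (nat_lit 152) (nat_lit 3062364238) (nat_lit 8) (nat_lit 5) (nat_lit 9) (nat_lit 5) (nat_lit 10) (nat_lit 4) (nat_lit 284) (nat_lit 252) (nat_lit 184)) (XT.nd (nat_lit 78) (nat_lit 0) (nat_lit 0) (XT.lf (nat_lit 0)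 (nat_lit 2788299151) (nat_lit 152) (nat_lit 44593635548) (nat_lit 76) (nat_lit 9454714441) (nat_lit 6) (nat_lit 5) (nat_lit 8) (nat_lit 5) (nat_lit 7) (nat_lit 4) (nat_lit 285) (nat_lit 252) (nat_lit 183)) (XT.lf (nat_lit 0) (nat_lit 9023910856) (nat_lit 152) (nat_lit 31642096417) (nat_lit 76) (nat_lit 19902482975) (nat_lit 6) (nat_lit 5) (nat_lit 8) (nat_lit 5) (nat_lit 7) (nat_lit 4) (nat_lit 286) (nat_lit 252) (nat_lit 182)))) (XT.nd (nat_lit 78) (nat_lit 76) (nat_lit 0) (XT.lf (nat_lit 0) (nat_lit 15751486709) (nat_lit 152) (nat_lit 17665899028) (nat_lit 76) (nat_lit 31182067413) (nat_lit 6) (nat_lit 5) (nat_lit 8) (nat_lit 5) (nat_lit 7) (nat_lit 4) (nat_lit 287) (nat_lit 252) (nat_lit 181)) (XT.nd (nat_lit 78) (nat_lit 76) (nat_lit 0) (XT.lf (nat_lit 0) (nat_lit 23010893826) (nat_lit 152) (nat_lit 2582221470) (nat_lit 76) (nat_lit 43360309737) (nat_lit 6) (nat_lit 5) (nat_lit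 8) (nat_lit 5) (nat_lit 7) (nat_lit 4) (nat_lit 288) (nat_lit 252) (nat_lit 180)) (XT.lf (nat_lit 0) (nat_lit 14419650319) (nat_lit 76) (nat_lit 16772293532) (nat_lit 152) (nat_lit 42436519925) (nat_lit 5) (nat_lit 5) (nat_lit 6) (nat_lit 5) (nat_lit 7) (nat_lit 4) (nat_lit 289) (nat_lit 252) (nat_lit 179))))))))
noncomputable def xc73 : XT := (XT.nd (nat_lit 1872) (nat_lit 0) (nat_lit 0) (XT.nd (nat_lit 936) (nat_lit 76) (nat_lit 0) (XT.nd (nat_lit 468) (nat_lit 152) (nat_lit 0) (XT.nd (nat_lit 234) (nat_lit 76) (nat_lit 0) (XT.nd (nat_lit 78) (nat_lit 0) (nat_lit 0) (XT.lf (nat_lit 0) (nat_lit 32918944638) (nat_lit 76) (nat_lit 7173439976) (nat_lit 152) (nat_lit 38579947298) (nat_lit 5) (nat_lit 5) (nat_lit 6) (nat_lit 5) (nat_lit 7) (nat_lit 4) (nat_lit 290) (nat_lit 252) (nat_lit 178)) (XT.nd (nat_lit 78) (nat_lit 0) (nat_lit 0) (XT.lf (nat_lit 0) (nat_lit 49776299732) (nat_lit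 152) (nat_lit 31307550079) (nat_lit 0) (nat_lit 3030161995) (nat_lit 5) (nat_lit 5) (nat_lit 7) (nat_lit 4) (nat_lit 5) (nat_lit 4) (nat_lit 291) (nat_lit 252) (nat_lit 177)) (XT.lf (nat_lit 0) (nat_lit 60416287866) (nat_lit 152) (nat_lit 15900909410) (nat_lit 0) (nat_lit 13659336177) (nat_lit 5) (nat_lit 5) (nat_lit 7) (nat_lit 4) (nat_lit 5) (nat_lit 4) (nat_lit 292) (nat_lit 252) (nat_lit 176)))) (XT.nd (nat_lit 78) (nat_lit 0) (nat_lit 0) (XT.lf (nat_lit 0) (nat_lit 768813935) (nat_lit 76) (nat_lit 71152555453) (nat_lit 76) (nat_lit 24385590844) (nat_lit 4) (nat_lit 4) (nat_lit 5) (nat_lit 5) (nat_lit 5) (nat_lit 4) (nat_lit 293) (nat_lit 252) (nat_lit 175)) (XT.nd (nat_lit 78) (nat_lit 0) (nat_lit 0) (XT.lf (nat_lit 0) (nat_lit 19668706389) (nat_lit 76) (nat_lit 65108469481) (nat_lit 76) (nat_lit 18332233650) (nat_lit 4) (nat_lit 4) (nat_lit 5) (nat_lit 5) (nat_lit 5) (nat_lit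 4) (nat_lit 294) (nat_lit 252) (nat_lit 174)) (XT.lf (nat_lit 0) (nat_lit 40073453604) (nat_lit 76) (nat_lit 58583881597) (nat_lit 76) (nat_lit 11799061301) (nat_lit 4) (nat_lit 4) (nat_lit 5) (nat_lit 5) (nat_lit 5) (nat_lit 4) (nat_lit 295) (nat_lit 252) (nat_lit 173))))) (XT.nd (nat_lit 234) (nat_lit 76) (nat_lit 0) (XT.nd (nat_lit 78) (nat_lit 76) (nat_lit 0) (XT.lf (nat_lit 0) (nat_lit 62103972598) (nat_lit 76) (nat_lit 51540127576) (nat_lit 76) (nat_lit 4747358701) (nat_lit 4) (nat_lit 4) (nat_lit 5) (nat_lit 5) (nat_lit 5) (nat_lit 4) (nat_lit 296) (nat_lit 252) (nat_lit 172)) (XT.nd (nat_lit 78) (nat_lit 0) (nat_lit 0) (XT.lf (nat_lit 0) (nat_lit 2721360019) (nat_lit 152) (nat_lit 41139699829) (nat_lit 76) (nat_lit 83095047772) (nat_lit 3) (nat_lit 5) (nat_lit 5) (nat_lit 5) (nat_lit 4) (nat_lit 4) (nat_lit 297) (nat_lit 252) (nat_lit 171)) (XT.lf (nat_lit 0) (nat_lit 10527737140)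 (nat_lit 152) (nat_lit 24909250043) (nat_lit 76) (nat_lit 100759354534) (nat_lit 3) (nat_lit 5) (nat_lit 5) (nat_lit 5) (nat_lit 4) (nat_lit 4) (nat_lit 298) (nat_lit 252) (nat_lit 170)))) (XT.nd (nat_lit 78) (nat_lit 76) (nat_lit 0) (XT.lf (nat_lit 0) (nat_lit 18955514781) (nat_lit 152) (nat_lit 7385782386) (nat_lit 76) (nat_lit 119834754868) (nat_lit 3) (nat_lit 5) (nat_lit 5) (nat_lit 5) (nat_lit 4) (nat_lit 4) (nat_lit 299) (nat_lit 252) (nat_lit 169)) (XT.nd (nat_lit 78) (nat_lit 0) (nat_lit 0) (XT.lf (nat_lit 0) (nat_lit 12141934659) (nat_lit 76) (nat_lit 16204714491) (nat_lit 152) (nat_lit 128584367343) (nat_lit 2) (nat_lit 5) (nat_lit 3) (nat_lit 5) (nat_lit 4) (nat_lit 4) (nat_lit 300) (nat_lit 252) (nat_lit 168)) (XT.lf (nat_lit 0) (nat_lit 33647015295) (nat_lit 76) (nat_lit 5041215733) (nat_lit 152) (nat_lit 129842222019) (nat_lit 2) (nat_lit 5) (nat_lit 3) (nat_lit 5)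 (nat_lit 4) (nat_lit 4) (nat_lit 301) (nat_lit 252) (nat_lit 167)))))) (XT.nd (nat_lit 468) (nat_lit 76) (nat_lit 0) (XT.nd (nat_lit 234) (nat_lit 0) (nat_lit 0) (XT.nd (nat_lit 78) (nat_lit 0) (nat_lit 0) (XT.lf (nat_lit 0) (nat_lit 50023234775) (nat_lit 152) (nat_lit 124358755566) (nat_lit 0) (nat_lit 6662573481) (nat_lit 2) (nat_lit 5) (nat_lit 4) (nat_lit 4) (nat_lit 2) (nat_lit 4) (nat_lit 302) (nat_lit 252) (nat_lit 166)) (XT.nd (nat_lit 78) (nat_lit 0) (nat_lit 0) (XT.lf (nat_lit 0) (nat_lit 62393549557) (nat_lit 152) (nat_lit 113127385563) (nat_lit 0) (nat_lit 19028593893) (nat_lit 2) (nat_lit 5) (nat_lit 4) (nat_lit 4) (nat_lit 2) (nat_lit 4) (nat_lit 303) (nat_lit 252) (nat_lit 165)) (XT.lf (nat_lit 0) (nat_lit 75751239583) (nat_lit 152) (nat_lit 101001530115) (nat_lit 0) (nat_lit 32382307651) (nat_lit 2) (nat_lit 5) (nat_lit 4) (nat_lit 4) (nat_lit 2) (nat_lit 4) (nat_lit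 304) (nat_lit 252) (nat_lit 164)))) (XT.nd (nat_lit 78) (nat_lit 0) (nat_lit 0) (XT.lf (nat_lit 0) (nat_lit 90175461535) (nat_lit 152) (nat_lit 87909332303) (nat_lit 0) (nat_lit 46802847874) (nat_lit 2) (nat_lit 5) (nat_lit 4) (nat_lit 4) (nat_lit 2) (nat_lit 4) (nat_lit 305) (nat_lit 252) (nat_lit 163)) (XT.nd (nat_lit 78) (nat_lit 0) (nat_lit 0) (XT.lf (nat_lit 0) (nat_lit 105751692285) (nat_lit 152) (nat_lit 73773208731) (nat_lit 0) (nat_lit 62375669614) (nat_lit 2) (nat_lit 5) (nat_lit 4) (nat_lit 4) (nat_lit 2) (nat_lit 4) (nat_lit 306) (nat_lit 252) (nat_lit 162)) (XT.lf (nat_lit 0) (nat_lit 122572235421) (nat_lit 152) (nat_lit 58509389778) (nat_lit 0) (nat_lit 79193056260) (nat_lit 2) (nat_lit 5) (nat_lit 4) (nat_lit 4) (nat_lit 2) (nat_lit 4) (nat_lit 307) (nat_lit 252) (nat_lit 161))))) (XT.nd (nat_lit 234) (nat_lit 76) (nat_lit 0) (XT.nd (nat_lit 78) (nat_lit 0) (nat_lit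 0) (XT.lf (nat_lit 0) (nat_lit 140736768236) (nat_lit 152) (nat_lit 42027423184) (nat_lit 0) (nat_lit 97354666399) (nat_lit 2) (nat_lit 5) (nat_lit 4) (nat_lit 4) (nat_lit 2) (nat_lit 4) (nat_lit 308) (nat_lit 252) (nat_lit 160)) (XT.nd (nat_lit 78) (nat_lit 0) (nat_lit 0) (XT.lf (nat_lit 0) (nat_lit 160352932406) (nat_lit 152) (nat_lit 24229638036) (nat_lit 0) (nat_lit 116968124388) (nat_lit 2) (nat_lit 5) (nat_lit 4) (nat_lit 4) (nat_lit 2) (nat_lit 4) (nat_lit 309) (nat_lit 252) (nat_lit 159)) (XT.lf (nat_lit 0) (nat_lit 181536971867) (nat_lit 152) (nat_lit 5010565978) (nat_lit 0) (nat_lit 138149658126) (nat_lit 2) (nat_lit 5) (nat_lit 4) (nat_lit 4) (nat_lit 2) (nat_lit 4) (nat_lit 310) (nat_lit 252) (nat_lit 158)))) (XT.nd (nat_lit 78) (nat_lit 0) (nat_lit 0) (XT.lf (nat_lit 0) (nat_lit 16572718276) (nat_lit 76) (nat_lit 188240277665) (nat_lit 76) (nat_lit 144850643809) (nat_lit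 1) (nat_lit 4) (nat_lit 2) (nat_lit 5) (nat_lit 2) (nat_lit 4) (nat_lit 311) (nat_lit 252) (nat_lit 157)) (XT.nd (nat_lit 78) (nat_lit 0) (nat_lit 0) (XT.lf (nat_lit 0) (nat_lit 40165331985) (nat_lit 76) (nat_lit 189921497096) (nat_lit 76) (nat_lit 146529714986) (nat_lit 1) (nat_lit 4) (nat_lit 2) (nat_lit 5) (nat_lit 2) (nat_lit 4) (nat_lit 312) (nat_lit 252) (nat_lit 156)) (XT.lf (nat_lit 0) (nat_lit 65643235707) (nat_lit 76) (nat_lit 191738156673) (nat_lit 76) (nat_lit 148344385439) (nat_lit 1) (nat_lit 4) (nat_lit 2) (nat_lit 5) (nat_lit 2) (nat_lit 4) (nat_lit 313) (nat_lit 252) (nat_lit 155))))))) (XT.nd (nat_lit 936) (nat_lit 0) (nat_lit 0) (XT.nd (nat_lit 468) (nat_lit 0) (nat_lit 0) (XT.nd (nat_lit 234) (nat_lit 0) (nat_lit 0) (XT.nd (nat_lit 78) (nat_lit 0) (nat_lit 0) (XT.lf (nat_lit 0) (nat_lit 93157409609) (nat_lit 76) (nat_lit 193701021787) (nat_lit 76) (nat_lit 150305408771)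 (nat_lit 1) (nat_lit 4) (nat_lit 2) (nat_lit 5) (nat_lit 2) (nat_lit 4) (nat_lit 314) (nat_lit 252) (nat_lit 154)) (XT.nd (nat_lit 78) (nat_lit 0) (nat_lit 0) (XT.lf (nat_lit 0) (nat_lit 122870900650) (nat_lit 76) (nat_lit 195821724231) (nat_lit 76) (nat_lit 152424405862) (nat_lit 1) (nat_lit 4) (nat_lit 2) (nat_lit 5) (nat_lit 2) (nat_lit 4) (nat_lit 315) (nat_lit 252) (nat_lit 153)) (XT.lf (nat_lit 0) (nat_lit 154959788776) (nat_lit 76) (nat_lit 198112831130) (nat_lit 76) (nat_lit 154713933731) (nat_lit 1) (nat_lit 4) (nat_lit 2) (nat_lit 5) (nat_lit 2) (nat_lit 4) (nat_lit 316) (nat_lit 252) (nat_lit 152)))) (XT.nd (nat_lit 78) (nat_lit 0) (nat_lit 0) (XT.lf (nat_lit 0) (nat_lit 189614230361) (nat_lit 76) (nat_lit 200587919415) (nat_lit 76) (nat_lit 157187559950) (nat_lit 1) (nat_lit 4) (nat_lit 2) (nat_lit 5) (nat_lit 2) (nat_lit 4) (nat_lit 317) (nat_lit 252) (nat_lit 151)) (XT.nd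 (nat_lit 78) (nat_lit 0) (nat_lit 0) (XT.lf (nat_lit 0) (nat_lit 227039585059) (nat_lit 76) (nat_lit 203261656274) (nat_lit 76) (nat_lit 159859943045) (nat_lit 1) (nat_lit 4) (nat_lit 2) (nat_lit 5) (nat_lit 2) (nat_lit 4) (nat_lit 318) (nat_lit 252) (nat_lit 150)) (XT.lf (nat_lit 0) (nat_lit 267457632750) (nat_lit 76) (nat_lit 206149886076) (nat_lit 76) (nat_lit 162746919361) (nat_lit 1) (nat_lit 4) (nat_lit 2) (nat_lit 5) (nat_lit 2) (nat_lit 4) (nat_lit 319) (nat_lit 252) (nat_lit 149))))) (XT.nd (nat_lit 234) (nat_lit 0) (nat_lit 0) (XT.nd (nat_lit 78) (nat_lit 0) (nat_lit 0) (XT.lf (nat_lit 0) (nat_lit 311107887789) (nat_lit 76) (nat_lit 209269724255) (nat_lit 76) (nat_lit 165865596905) (nat_lit 1) (nat_lit 4) (nat_lit 2) (nat_lit 5) (nat_lit 2) (nat_lit 4) (nat_lit 320) (nat_lit 252) (nat_lit 148)) (XT.nd (nat_lit 78) (nat_lit 0) (nat_lit 0) (XT.lf (nat_lit 0) (nat_lit 358249018357)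 (nat_lit 76) (nat_lit 212639658741) (nat_lit 76) (nat_lit 169234456730) (nat_lit 1) (nat_lit 4) (nat_lit 2) (nat_lit 5) (nat_lit 2) (nat_lit 4) (nat_lit 321) (nat_lit 252) (nat_lit 147)) (XT.lf (nat_lit 0) (nat_lit 409160379299) (nat_lit 76) (nat_lit 216279659517) (nat_lit 76) (nat_lit 172873462448) (nat_lit 1) (nat_lit 4) (nat_lit 2) (nat_lit 5) (nat_lit 2) (nat_lit 4) (nat_lit 322) (nat_lit 252) (nat_lit 146)))) (XT.nd (nat_lit 78) (nat_lit 0) (nat_lit 0) (XT.lf (nat_lit 0) (nat_lit 464143667570) (nat_lit 76) (nat_lit 220211296958) (nat_lit 76) (nat_lit 176804178540) (nat_lit 1) (nat_lit 4) (nat_lit 2) (nat_lit 5) (nat_lit 2) (nat_lit 4) (nat_lit 323) (nat_lit 252) (nat_lit 145)) (XT.nd (nat_lit 78) (nat_lit 0) (nat_lit 0) (XT.lf (nat_lit 0) (nat_lit 523524710063) (nat_lit 76) (nat_lit 224457869656) (nat_lit 76) (nat_lit 181049898136) (nat_lit 1) (nat_lit 4) (nat_lit 2) (nat_lit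 5) (nat_lit 2) (nat_lit 4) (nat_lit 324) (nat_lit 252) (nat_lit 144)) (XT.lf (nat_lit 0) (nat_lit 587655394438) (nat_lit 76) (nat_lit 229044542485) (nat_lit 76) (nat_lit 185635781057) (nat_lit 1) (nat_lit 4) (nat_lit 2) (nat_lit 5) (nat_lit 2) (nat_lit 4) (nat_lit 325) (nat_lit 252) (nat_lit 143)))))) (XT.nd (nat_lit 468) (nat_lit 0) (nat_lit 0) (XT.nd (nat_lit 234) (nat_lit 0) (nat_lit 0) (XT.nd (nat_lit 78) (nat_lit 0) (nat_lit 0) (XT.lf (nat_lit 0) (nat_lit 656915754380) (nat_lit 76) (nat_lit 233998495730) (nat_lit 76) (nat_lit 190589002906) (nat_lit 1) (nat_lit 4) (nat_lit 2) (nat_lit 5) (nat_lit 2) (nat_lit 4) (nat_lit 326) (nat_lit 252) (nat_lit 142)) (XT.nd (nat_lit 78) (nat_lit 0) (nat_lit 0) (XT.lf (nat_lit 0) (nat_lit 731716221651) (nat_lit 76) (nat_lit 239349086151) (nat_lit 76) (nat_lit 195938916107) (nat_lit 1) (nat_lit 4) (nat_lit 2) (nat_lit 5) (nat_lit 2) (nat_lit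 4) (nat_lit 327) (nat_lit 252) (nat_lit 141)) (XT.lf (nat_lit 0) (nat_lit 812500058279) (nat_lit 76) (nat_lit 245128020950) (nat_lit 76) (nat_lit 201717223851) (nat_lit 1) (nat_lit 4) (nat_lit 2) (nat_lit 5) (nat_lit 2) (nat_lit 4) (nat_lit 328) (nat_lit 252) (nat_lit 140)))) (XT.nd (nat_lit 78) (nat_lit 0) (nat_lit 0) (XT.lf (nat_lit 0) (nat_lit 899745983297) (nat_lit 76) (nat_lit 251369545666) (nat_lit 76) (nat_lit 207958167961) (nat_lit 1) (nat_lit 4) (nat_lit 2) (nat_lit 5) (nat_lit 2) (nat_lit 4) (nat_lit 329) (nat_lit 252) (nat_lit 139)) (XT.nd (nat_lit 78) (nat_lit 0) (nat_lit 0) (XT.lf (nat_lit 0) (nat_lit 993971009594) (nat_lit 76) (nat_lit 258110647113) (nat_lit 76) (nat_lit 214698731809) (nat_lit 1) (nat_lit 4) (nat_lit 2) (nat_lit 5) (nat_lit 2) (nat_lit 4) (nat_lit 330) (nat_lit 252) (nat_lit 138)) (XT.lf (nat_lit 0) (nat_lit 1095733507695) (nat_lit 76) (nat_lit 265391272558)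 (nat_lit 76) (nat_lit 221978859478) (nat_lit 1) (nat_lit 4) (nat_lit 2) (nat_lit 5) (nat_lit 2) (nat_lit 4) (nat_lit 331) (nat_lit 252) (nat_lit 137))))) (XT.nd (nat_lit 31356) (nat_lit 0) (nat_lit 2660) (XT.nd (nat_lit 78) (nat_lit 0) (nat_lit 0) (XT.lf (nat_lit 0) (nat_lit 1205636514626) (nat_lit 76) (nat_lit 273254566449) (nat_lit 76) (nat_lit 229841692465) (nat_lit 1) (nat_lit 4) (nat_lit 2) (nat_lit 5) (nat_lit 2) (nat_lit 4) (nat_lit 332) (nat_lit 252) (nat_lit 136)) (XT.nd (nat_lit 78) (nat_lit 0) (nat_lit 0) (XT.lf (nat_lit 0) (nat_lit 1324331307466) (nat_lit 76) (nat_lit 281747126083) (nat_lit 76) (nat_lit 238333825336) (nat_lit 1) (nat_lit 4) (nat_lit 2) (nat_lit 5) (nat_lit 2) (nat_lit 4) (nat_lit 333) (nat_lit 252) (nat_lit 135)) (XT.lf (nat_lit 0) (nat_lit 1452521262765) (nat_lit 76) (nat_lit 290919277739) (nat_lit 76) (nat_lit 247505581841) (nat_lit 1) (nat_lit 4) (nat_lit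 2) (nat_lit 5) (nat_lit 2) (nat_lit 4) (nat_lit 334) (nat_lit 252) (nat_lit 134)))) (XT.nd (nat_lit 78) (nat_lit 0) (nat_lit 0) (XT.lf (nat_lit 0) (nat_lit 2346911202) (nat_lit 0) (nat_lit 2346911202) (nat_lit 380) (nat_lit 1076198290) (nat_lit 36) (nat_lit 5) (nat_lit 36) (nat_lit 3) (nat_lit 41) (nat_lit 3) (nat_lit 253) (nat_lit 253) (nat_lit 214)) (XT.nd (nat_lit 78) (nat_lit 0) (nat_lit 0) (XT.lf (nat_lit 0) (nat_lit 9825572100) (nat_lit 0) (nat_lit 378984045) (nat_lit 380) (nat_lit 1758268821) (nat_lit 36) (nat_lit 5) (nat_lit 36) (nat_lit 3) (nat_lit 41) (nat_lit 3) (nat_lit 254) (nat_lit 253) (nat_lit 213)) (XT.lf (nat_lit 76) (nat_lit 2967418046) (nat_lit 0) (nat_lit 8250097227) (nat_lit 456) (nat_lit 1191811099) (nat_lit 37) (nat_lit 5) (nat_lit 36) (nat_lit 5) (nat_lit 42) (nat_lit 5) (nat_lit 255) (nat_lit 253) (nat_lit 212))))))))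
noncomputable def xc74 : XT := (XT.nd (nat_lit 1794) (nat_lit 684) (nat_lit 0) (XT.nd (nat_lit 858) (nat_lit 912) (nat_lit 0) (XT.nd (nat_lit 390) (nat_lit 608) (nat_lit 0) (XT.nd (nat_lit 156) (nat_lit 0) (nat_lit 0) (XT.nd (nat_lit 78) (nat_lit 380) (nat_lit 0) (XT.lf (nat_lit 76) (nat_lit 8565823163) (nat_lit 0) (nat_lit 3772698860) (nat_lit 456) (nat_lit 551189746) (nat_lit 37) (nat_lit 5) (nat_lit 36) (nat_lit 5) (nat_lit 42) (nat_lit 5) (nat_lit 256) (nat_lit 253) (nat_lit 211)) (XT.lf (nat_lit 0) (nat_lit 150845014) (nat_lit 456) (nat_lit 12200284259) (nat_lit 532) (nat_lit 1056030386) (nat_lit 31) (nat_lit 5) (nat_lit 37) (nat_lit 5) (nat_lit 38) (nat_lit 5) (nat_lit 257) (nat_lit 253) (nat_lit 210))) (XT.nd (nat_lit 78) (nat_lit 0) (nat_lit 0) (XT.lf (nat_lit 0) (nat_lit 1061861669) (nat_lit 456) (nat_lit 6675001894) (nat_lit 532) (nat_lit 6213644471) (nat_lit 31) (nat_lit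 5) (nat_lit 37) (nat_lit 5) (nat_lit 38) (nat_lit 5) (nat_lit 258) (nat_lit 253) (nat_lit 209)) (XT.nd (nat_lit 78) (nat_lit 0) (nat_lit 76) (XT.lf (nat_lit 0) (nat_lit 2011789285) (nat_lit 456) (nat_lit 734623538) (nat_lit 532) (nat_lit 11793867789) (nat_lit 31) (nat_lit 5) (nat_lit 37) (nat_lit 5) (nat_lit 38) (nat_lit 5) (nat_lit 259) (nat_lit 253) (nat_lit 208)) (XT.lf (nat_lit 0) (nat_lit 3216895188) (nat_lit 456) (nat_lit 9282073171) (nat_lit 76) (nat_lit 2664152931) (nat_lit 32) (nat_lit 5) (nat_lit 38) (nat_lit 5) (nat_lit 33) (nat_lit 5) (nat_lit 260) (nat_lit 253) (nat_lit 207))))) (XT.nd (nat_lit 234) (nat_lit 228) (nat_lit 0) (XT.nd (nat_lit 78) (nat_lit 456) (nat_lit 0) (XT.lf (nat_lit 0) (nat_lit 4580774085) (nat_lit 456) (nat_lit 2865299490) (nat_lit 76) (nat_lit 8384931134) (nat_lit 32) (nat_lit 5) (nat_lit 38) (nat_lit 5) (nat_lit 33) (nat_lit 5) (nat_lit 261) (nat_lit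 253) (nat_lit 206)) (XT.nd (nat_lit 78) (nat_lit 0) (nat_lit 0) (XT.lf (nat_lit 0) (nat_lit 4252533716) (nat_lit 456) (nat_lit 1876115616) (nat_lit 532) (nat_lit 10417868077) (nat_lit 26) (nat_lit 5) (nat_lit 32) (nat_lit 5) (nat_lit 33) (nat_lit 5) (nat_lit 262) (nat_lit 253) (nat_lit 205)) (XT.lf (nat_lit 0) (nat_lit 7954378035) (nat_lit 532) (nat_lit 5338513383) (nat_lit 76) (nat_lit 4014233285) (nat_lit 26) (nat_lit 5) (nat_lit 33) (nat_lit 5) (nat_lit 27) (nat_lit 5) (nat_lit 263) (nat_lit 253) (nat_lit 204)))) (XT.nd (nat_lit 78) (nat_lit 0) (nat_lit 0) (XT.lf (nat_lit 0) (nat_lit 2210553568) (nat_lit 228) (nat_lit 7793517271) (nat_lit 304) (nat_lit 8118439735) (nat_lit 23) (nat_lit 5) (nat_lit 26) (nat_lit 5) (nat_lit 27) (nat_lit 5) (nat_lit 264) (nat_lit 253) (nat_lit 203)) (XT.nd (nat_lit 78) (nat_lit 0) (nat_lit 0) (XT.lf (nat_lit 0) (nat_lit 10643085414) (nat_lit 228)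 (nat_lit 1697827847) (nat_lit 304) (nat_lit 6652510540) (nat_lit 23) (nat_lit 5) (nat_lit 26) (nat_lit 5) (nat_lit 27) (nat_lit 5) (nat_lit 265) (nat_lit 253) (nat_lit 202)) (XT.lf (nat_lit 0) (nat_lit 14961069396) (nat_lit 304) (nat_lit 325369847) (nat_lit 76) (nat_lit 4640000819) (nat_lit 23) (nat_lit 5) (nat_lit 27) (nat_lit 5) (nat_lit 24) (nat_lit 5) (nat_lit 266) (nat_lit 253) (nat_lit 201)))))) (XT.nd (nat_lit 468) (nat_lit 304) (nat_lit 0) (XT.nd (nat_lit 234) (nat_lit 152) (nat_lit 0) (XT.nd (nat_lit 78) (nat_lit 304) (nat_lit 0) (XT.lf (nat_lit 0) (nat_lit 8710955143) (nat_lit 152) (nat_lit 9313915726) (nat_lit 228) (nat_lit 2890633089) (nat_lit 21) (nat_lit 5) (nat_lit 23) (nat_lit 5) (nat_lit 24) (nat_lit 5) (nat_lit 267) (nat_lit 253) (nat_lit 200)) (XT.nd (nat_lit 78) (nat_lit 304) (nat_lit 0) (XT.lf (nat_lit 0) (nat_lit 18466955868) (nat_lit 152) (nat_lit 2857078091)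 (nat_lit 228) (nat_lit 660557818) (nat_lit 21) (nat_lit 5) (nat_lit 23) (nat_lit 5) (nat_lit 24) (nat_lit 5) (nat_lit 268) (nat_lit 253) (nat_lit 199)) (XT.lf (nat_lit 0) (nat_lit 1893358476) (nat_lit 304) (nat_lit 17122945479) (nat_lit 76) (nat_lit 4101012177) (nat_lit 17) (nat_lit 5) (nat_lit 21) (nat_lit 5) (nat_lit 18) (nat_lit 5) (nat_lit 269) (nat_lit 253) (nat_lit 198)))) (XT.nd (nat_lit 78) (nat_lit 152) (nat_lit 0) (XT.lf (nat_lit 0) (nat_lit 4771711488) (nat_lit 304) (nat_lit 7981435797) (nat_lit 76) (nat_lit 11573768498) (nat_lit 17) (nat_lit 5) (nat_lit 21) (nat_lit 5) (nat_lit 18) (nat_lit 5) (nat_lit 270) (nat_lit 253) (nat_lit 197)) (XT.nd (nat_lit 78) (nat_lit 0) (nat_lit 0) (XT.lf (nat_lit 0) (nat_lit 1969553847) (nat_lit 152) (nat_lit 5942335908) (nat_lit 228) (nat_lit 17718956862) (nat_lit 15) (nat_lit 5) (nat_lit 17) (nat_lit 5) (nat_lit 18) (nat_lit 5) (nat_lit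 271) (nat_lit 253) (nat_lit 196)) (XT.lf (nat_lit 0) (nat_lit 11545937110) (nat_lit 228) (nat_lit 13911785969) (nat_lit 76) (nat_lit 1562037721) (nat_lit 15) (nat_lit 5) (nat_lit 18) (nat_lit 5) (nat_lit 16) (nat_lit 5) (nat_lit 272) (nat_lit 253) (nat_lit 195))))) (XT.nd (nat_lit 234) (nat_lit 152) (nat_lit 0) (XT.nd (nat_lit 78) (nat_lit 152) (nat_lit 0) (XT.lf (nat_lit 0) (nat_lit 15610951985) (nat_lit 228) (nat_lit 3556134525) (nat_lit 76) (nat_lit 9341557359) (nat_lit 15) (nat_lit 5) (nat_lit 18) (nat_lit 5) (nat_lit 16) (nat_lit 5) (nat_lit 273) (nat_lit 253) (nat_lit 194)) (XT.nd (nat_lit 78) (nat_lit 0) (nat_lit 0) (XT.lf (nat_lit 0) (nat_lit 8010667750) (nat_lit 152) (nat_lit 12170099038) (nat_lit 228) (nat_lit 9921572570) (nat_lit 13) (nat_lit 5) (nat_lit 15) (nat_lit 5) (nat_lit 16) (nat_lit 5) (nat_lit 274) (nat_lit 253) (nat_lit 193)) (XT.lf (nat_lit 0) (nat_lit 20687483789)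 (nat_lit 152) (nat_lit 4513400672) (nat_lit 228) (nat_lit 6615933124) (nat_lit 13) (nat_lit 5) (nat_lit 15) (nat_lit 5) (nat_lit 16) (nat_lit 5) (nat_lit 275) (nat_lit 253) (nat_lit 192)))) (XT.nd (nat_lit 78) (nat_lit 76) (nat_lit 0) (XT.lf (nat_lit 0) (nat_lit 634247361) (nat_lit 76) (nat_lit 30082246692) (nat_lit 152) (nat_lit 2944509152) (nat_lit 12) (nat_lit 5) (nat_lit 13) (nat_lit 5) (nat_lit 14) (nat_lit 4) (nat_lit 276) (nat_lit 253) (nat_lit 191)) (XT.nd (nat_lit 78) (nat_lit 0) (nat_lit 0) (XT.lf (nat_lit 0) (nat_lit 1387424777) (nat_lit 152) (nat_lit 21823581376) (nat_lit 76) (nat_lit 12406376882) (nat_lit 11) (nat_lit 5) (nat_lit 13) (nat_lit 5) (nat_lit 12) (nat_lit 5) (nat_lit 277) (nat_lit 253) (nat_lit 190)) (XT.lf (nat_lit 0) (nat_lit 5896112470) (nat_lit 152) (nat_lit 9816717341) (nat_lit 76) (nat_lit 22012230077) (nat_lit 11) (nat_lit 5) (nat_lit 13) (nat_lit 5)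 (nat_lit 12) (nat_lit 5) (nat_lit 278) (nat_lit 253) (nat_lit 189))))))) (XT.nd (nat_lit 936) (nat_lit 228) (nat_lit 0) (XT.nd (nat_lit 468) (nat_lit 228) (nat_lit 0) (XT.nd (nat_lit 234) (nat_lit 76) (nat_lit 0) (XT.nd (nat_lit 78) (nat_lit 0) (nat_lit 0) (XT.lf (nat_lit 0) (nat_lit 3300929418) (nat_lit 152) (nat_lit 7534026360) (nat_lit 228) (nat_lit 29160882171) (nat_lit 9) (nat_lit 5) (nat_lit 11) (nat_lit 5) (nat_lit 12) (nat_lit 5) (nat_lit 279) (nat_lit 253) (nat_lit 188)) (XT.nd (nat_lit 78) (nat_lit 0) (nat_lit 0) (XT.lf (nat_lit 0) (nat_lit 16465867293) (nat_lit 228) (nat_lit 24453946439) (nat_lit 76) (nat_lit 1504748317) (nat_lit 9) (nat_lit 5) (nat_lit 12) (nat_lit 5) (nat_lit 10) (nat_lit 4) (nat_lit 280) (nat_lit 253) (nat_lit 187)) (XT.lf (nat_lit 0) (nat_lit 22733996056) (nat_lit 228) (nat_lit 11443469986) (nat_lit 76) (nat_lit 10855216133) (nat_lit 9) (nat_lit 5)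 (nat_lit 12) (nat_lit 5) (nat_lit 10) (nat_lit 4) (nat_lit 281) (nat_lit 253) (nat_lit 186)))) (XT.nd (nat_lit 78) (nat_lit 0) (nat_lit 0) (XT.lf (nat_lit 0) (nat_lit 2731451740) (nat_lit 76) (nat_lit 26829532759) (nat_lit 152) (nat_lit 18283909516) (nat_lit 8) (nat_lit 5) (nat_lit 9) (nat_lit 5) (nat_lit 10) (nat_lit 4) (nat_lit 282) (nat_lit 253) (nat_lit 185)) (XT.nd (nat_lit 78) (nat_lit 0) (nat_lit 0) (XT.lf (nat_lit 0) (nat_lit 18678466266) (nat_lit 76) (nat_lit 18560576426) (nat_lit 152) (nat_lit 13618679530) (nat_lit 8) (nat_lit 5) (nat_lit 9) (nat_lit 5) (nat_lit 10) (nat_lit 4) (nat_lit 283) (nat_lit 253) (nat_lit 184)) (XT.lf (nat_lit 0) (nat_lit 35889481565) (nat_lit 76) (nat_lit 9634480570) (nat_lit 152) (nat_lit 8588235104) (nat_lit 8) (nat_lit 5) (nat_lit 9) (nat_lit 5) (nat_lit 10) (nat_lit 4) (nat_lit 284) (nat_lit 253) (nat_lit 183))))) (XT.nd (nat_lit 234) (nat_lit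 76) (nat_lit 0) (XT.nd (nat_lit 78) (nat_lit 152) (nat_lit 0) (XT.lf (nat_lit 0) (nat_lit 54464878336) (nat_lit 152) (nat_lit 3161155693) (nat_lit 0) (nat_lit 1567642) (nat_lit 8) (nat_lit 5) (nat_lit 10) (nat_lit 4) (nat_lit 8) (nat_lit 4) (nat_lit 285) (nat_lit 253) (nat_lit 182)) (XT.nd (nat_lit 78) (nat_lit 0) (nat_lit 0) (XT.lf (nat_lit 0) (nat_lit 3145682665) (nat_lit 152) (nat_lit 47937451135) (nat_lit 76) (nat_lit 10289238905) (nat_lit 6) (nat_lit 5) (nat_lit 8) (nat_lit 5) (nat_lit 7) (nat_lit 4) (nat_lit 286) (nat_lit 253) (nat_lit 181)) (XT.lf (nat_lit 0) (nat_lit 9870193708) (nat_lit 152) (nat_lit 33966357411) (nat_lit 76) (nat_lit 21567040232) (nat_lit 6) (nat_lit 5) (nat_lit 8) (nat_lit 5) (nat_lit 7) (nat_lit 4) (nat_lit 287) (nat_lit 253) (nat_lit 180)))) (XT.nd (nat_lit 78) (nat_lit 76) (nat_lit 0) (XT.lf (nat_lit 0) (nat_lit 17126763038) (nat_lit 152) (nat_lit 18887405469)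 (nat_lit 76) (nat_lit 33743631528) (nat_lit 6) (nat_lit 5) (nat_lit 8) (nat_lit 5) (nat_lit 7) (nat_lit 4) (nat_lit 288) (nat_lit 253) (nat_lit 179)) (XT.nd (nat_lit 78) (nat_lit 76) (nat_lit 0) (XT.lf (nat_lit 0) (nat_lit 24958392546) (nat_lit 152) (nat_lit 2611238557) (nat_lit 76) (nat_lit 46891170369) (nat_lit 6) (nat_lit 5) (nat_lit 8) (nat_lit 5) (nat_lit 7) (nat_lit 4) (nat_lit 289) (nat_lit 253) (nat_lit 178)) (XT.lf (nat_lit 0) (nat_lit 15746287769) (nat_lit 76) (nat_lit 18043902720) (nat_lit 152) (nat_lit 45719978927) (nat_lit 5) (nat_lit 5) (nat_lit 6) (nat_lit 5) (nat_lit 7) (nat_lit 4) (nat_lit 290) (nat_lit 253) (nat_lit 177)))))) (XT.nd (nat_lit 468) (nat_lit 152) (nat_lit 0) (XT.nd (nat_lit 234) (nat_lit 76) (nat_lit 0) (XT.nd (nat_lit 78) (nat_lit 0) (nat_lit 0) (XT.lf (nat_lit 0) (nat_lit 35712705973) (nat_lit 76) (nat_lit 7682338975) (nat_lit 152) (nat_lit 41563136978)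 (nat_lit 5) (nat_lit 5) (nat_lit 6) (nat_lit 5) (nat_lit 7) (nat_lit 4) (nat_lit 291) (nat_lit 253) (nat_lit 176)) (XT.nd (nat_lit 78) (nat_lit 0) (nat_lit 0) (XT.lf (nat_lit 0) (nat_lit 53848063196) (nat_lit 152) (nat_lit 33657876657) (nat_lit 0) (nat_lit 3329728497) (nat_lit 5) (nat_lit 5) (nat_lit 7) (nat_lit 4) (nat_lit 5) (nat_lit 4) (nat_lit 292) (nat_lit 253) (nat_lit 175)) (XT.lf (nat_lit 0) (nat_lit 65332608938) (nat_lit 152) (nat_lit 17030132691) (nat_lit 0) (nat_lit 14805003017) (nat_lit 5) (nat_lit 5) (nat_lit 7) (nat_lit 4) (nat_lit 5) (nat_lit 4) (nat_lit 293) (nat_lit 253) (nat_lit 174)))) (XT.nd (nat_lit 78) (nat_lit 0) (nat_lit 0) (XT.lf (nat_lit 0) (nat_lit 969552079) (nat_lit 76) (nat_lit 76785743976) (nat_lit 76) (nat_lit 26249553591) (nat_lit 4) (nat_lit 4) (nat_lit 5) (nat_lit 5) (nat_lit 5) (nat_lit 4) (nat_lit 294) (nat_lit 253) (nat_lit 173)) (XT.nd (nat_lit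 78) (nat_lit 0) (nat_lit 0) (XT.lf (nat_lit 0) (nat_lit 21371122372) (nat_lit 76) (nat_lit 70262502675) (nat_lit 76) (nat_lit 19718363712) (nat_lit 4) (nat_lit 4) (nat_lit 5) (nat_lit 5) (nat_lit 5) (nat_lit 4) (nat_lit 295) (nat_lit 253) (nat_lit 172)) (XT.lf (nat_lit 0) (nat_lit 43398699772) (nat_lit 76) (nat_lit 63219995491) (nat_lit 76) (nat_lit 12668496733) (nat_lit 4) (nat_lit 4) (nat_lit 5) (nat_lit 5) (nat_lit 5) (nat_lit 4) (nat_lit 296) (nat_lit 253) (nat_lit 171))))) (XT.nd (nat_lit 234) (nat_lit 76) (nat_lit 0) (XT.nd (nat_lit 78) (nat_lit 76) (nat_lit 0) (XT.lf (nat_lit 0) (nat_lit 67182818073) (nat_lit 76) (nat_lit 55616489048) (nat_lit 76) (nat_lit 5058175664) (nat_lit 4) (nat_lit 4) (nat_lit 5) (nat_lit 5) (nat_lit 5) (nat_lit 4) (nat_lit 297) (nat_lit 253) (nat_lit 170)) (XT.nd (nat_lit 78) (nat_lit 0) (nat_lit 0) (XT.lf (nat_lit 0) (nat_lit 2999736865) (nat_lit 152)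 (nat_lit 44325170541) (nat_lit 76) (nat_lit 89782665210) (nat_lit 3) (nat_lit 5) (nat_lit 5) (nat_lit 5) (nat_lit 4) (nat_lit 4) (nat_lit 298) (nat_lit 253) (nat_lit 169)) (XT.lf (nat_lit 0) (nat_lit 11426130226) (nat_lit 152) (nat_lit 26804114793) (nat_lit 76) (nat_lit 108857152541) (nat_lit 3) (nat_lit 5) (nat_lit 5) (nat_lit 5) (nat_lit 4) (nat_lit 4) (nat_lit 299) (nat_lit 253) (nat_lit 168)))) (XT.nd (nat_lit 78) (nat_lit 76) (nat_lit 0) (XT.lf (nat_lit 0) (nat_lit 20523969034) (nat_lit 152) (nat_lit 7886019742) (nat_lit 76) (nat_lit 129455840484) (nat_lit 3) (nat_lit 5) (nat_lit 5) (nat_lit 5) (nat_lit 4) (nat_lit 4) (nat_lit 300) (nat_lit 253) (nat_lit 167)) (XT.nd (nat_lit 78) (nat_lit 0) (nat_lit 0) (XT.lf (nat_lit 0) (nat_lit 13201620358) (nat_lit 76) (nat_lit 17463045336) (nat_lit 152) (nat_lit 138816674265) (nat_lit 2) (nat_lit 5) (nat_lit 3) (nat_lit 5) (nat_lit 4) (nat_lit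 4) (nat_lit 301) (nat_lit 253) (nat_lit 166)) (XT.lf (nat_lit 0) (nat_lit 36420564413) (nat_lit 76) (nat_lit 5409284922) (nat_lit 152) (nat_lit 140179190090) (nat_lit 2) (nat_lit 5) (nat_lit 3) (nat_lit 5) (nat_lit 4) (nat_lit 4) (nat_lit 302) (nat_lit 253) (nat_lit 165))))))))
noncomputable def xc75 : XT := (XT.nd (nat_lit 1872) (nat_lit 0) (nat_lit 0) (XT.nd (nat_lit 936) (nat_lit 0) (nat_lit 0) (XT.nd (nat_lit 468) (nat_lit 76) (nat_lit 0) (XT.nd (nat_lit 234) (nat_lit 0) (nat_lit 0) (XT.nd (nat_lit 78) (nat_lit 0) (nat_lit 0) (XT.lf (nat_lit 0) (nat_lit 54068988984) (nat_lit 152) (nat_lit 134228946267) (nat_lit 0) (nat_lit 7226566229) (nat_lit 2) (nat_lit 5) (nat_lit 4) (nat_lit 4) (nat_lit 2) (nat_lit 4) (nat_lit 303) (nat_lit 253) (nat_lit 164)) (XT.nd (nat_lit 78) (nat_lit 0) (nat_lit 0) (XT.lf (nat_lit 0) (nat_lit 67425677435) (nat_lit 152) (nat_lit 122104882199) (nat_lit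 0) (nat_lit 20579572950) (nat_lit 2) (nat_lit 5) (nat_lit 4) (nat_lit 4) (nat_lit 2) (nat_lit 4) (nat_lit 304) (nat_lit 253) (nat_lit 163)) (XT.lf (nat_lit 0) (nat_lit 81848972003) (nat_lit 152) (nat_lit 109014343072) (nat_lit 0) (nat_lit 34999458509) (nat_lit 2) (nat_lit 5) (nat_lit 4) (nat_lit 4) (nat_lit 2) (nat_lit 4) (nat_lit 305) (nat_lit 253) (nat_lit 162)))) (XT.nd (nat_lit 78) (nat_lit 0) (nat_lit 0) (XT.lf (nat_lit 0) (nat_lit 97424344063) (nat_lit 152) (nat_lit 94879755320) (nat_lit 0) (nat_lit 50571674080) (nat_lit 2) (nat_lit 5) (nat_lit 4) (nat_lit 4) (nat_lit 2) (nat_lit 4) (nat_lit 306) (nat_lit 253) (nat_lit 161)) (XT.nd (nat_lit 78) (nat_lit 0) (nat_lit 0) (XT.lf (nat_lit 0) (nat_lit 114244092116) (nat_lit 152) (nat_lit 79617358423) (nat_lit 0) (nat_lit 67388499457) (nat_lit 2) (nat_lit 5) (nat_lit 4) (nat_lit 4) (nat_lit 2) (nat_lit 4) (nat_lit 307) (nat_lit 253)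 (nat_lit 160)) (XT.lf (nat_lit 0) (nat_lit 132407888744) (nat_lit 152) (nat_lit 63136708547) (nat_lit 0) (nat_lit 85549589903) (nat_lit 2) (nat_lit 5) (nat_lit 4) (nat_lit 4) (nat_lit 2) (nat_lit 4) (nat_lit 308) (nat_lit 253) (nat_lit 159))))) (XT.nd (nat_lit 234) (nat_lit 76) (nat_lit 0) (XT.nd (nat_lit 78) (nat_lit 0) (nat_lit 0) (XT.lf (nat_lit 0) (nat_lit 152023371259) (nat_lit 152) (nat_lit 45340142582) (nat_lit 0) (nat_lit 105162566695) (nat_lit 2) (nat_lit 5) (nat_lit 4) (nat_lit 4) (nat_lit 2) (nat_lit 4) (nat_lit 309) (nat_lit 253) (nat_lit 158)) (XT.nd (nat_lit 78) (nat_lit 0) (nat_lit 0) (XT.lf (nat_lit 0) (nat_lit 173206779558) (nat_lit 152) (nat_lit 26122199397) (nat_lit 0) (nat_lit 126343654880) (nat_lit 2) (nat_lit 5) (nat_lit 4) (nat_lit 4) (nat_lit 2) (nat_lit 4) (nat_lit 310) (nat_lit 253) (nat_lit 157)) (XT.lf (nat_lit 0) (nat_lit 196083644949) (nat_lit 152) (nat_lit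 5368994884) (nat_lit 0) (nat_lit 149218372017) (nat_lit 2) (nat_lit 5) (nat_lit 4) (nat_lit 4) (nat_lit 2) (nat_lit 4) (nat_lit 311) (nat_lit 253) (nat_lit 156)))) (XT.nd (nat_lit 78) (nat_lit 0) (nat_lit 0) (XT.lf (nat_lit 0) (nat_lit 17939878278) (nat_lit 76) (nat_lit 203281110269) (nat_lit 76) (nat_lit 156413848212) (nat_lit 1) (nat_lit 4) (nat_lit 2) (nat_lit 5) (nat_lit 2) (nat_lit 4) (nat_lit 312) (nat_lit 253) (nat_lit 155)) (XT.nd (nat_lit 78) (nat_lit 0) (nat_lit 0) (XT.lf (nat_lit 0) (nat_lit 43416838674) (nat_lit 76) (nat_lit 205098189447) (nat_lit 76) (nat_lit 158229085609) (nat_lit 1) (nat_lit 4) (nat_lit 2) (nat_lit 5) (nat_lit 2) (nat_lit 4) (nat_lit 313) (nat_lit 253) (nat_lit 154)) (XT.lf (nat_lit 0) (nat_lit 70930139128) (nat_lit 76) (nat_lit 207061443081) (nat_lit 76) (nat_lit 160190633889) (nat_lit 1) (nat_lit 4) (nat_lit 2) (nat_lit 5) (nat_lit 2) (nat_lit 4)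 (nat_lit 314) (nat_lit 253) (nat_lit 153)))))) (XT.nd (nat_lit 468) (nat_lit 0) (nat_lit 0) (XT.nd (nat_lit 234) (nat_lit 0) (nat_lit 0) (XT.nd (nat_lit 78) (nat_lit 0) (nat_lit 0) (XT.lf (nat_lit 0) (nat_lit 100642821419) (nat_lit 76) (nat_lit 209182505265) (nat_lit 76) (nat_lit 162310117043) (nat_lit 1) (nat_lit 4) (nat_lit 2) (nat_lit 5) (nat_lit 2) (nat_lit 4) (nat_lit 315) (nat_lit 253) (nat_lit 152)) (XT.nd (nat_lit 78) (nat_lit 0) (nat_lit 0) (XT.lf (nat_lit 0) (nat_lit 132730960704) (nat_lit 76) (nat_lit 211473945257) (nat_lit 76) (nat_lit 164600094970) (nat_lit 1) (nat_lit 4) (nat_lit 2) (nat_lit 5) (nat_lit 2) (nat_lit 4) (nat_lit 316) (nat_lit 253) (nat_lit 151)) (XT.lf (nat_lit 0) (nat_lit 167384708916) (nat_lit 76) (nat_lit 213949341961) (nat_lit 76) (nat_lit 167074137909) (nat_lit 1) (nat_lit 4) (nat_lit 2) (nat_lit 5) (nat_lit 2) (nat_lit 4) (nat_lit 317) (nat_lit 253)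 (nat_lit 150)))) (XT.nd (nat_lit 78) (nat_lit 0) (nat_lit 0) (XT.lf (nat_lit 0) (nat_lit 204809421603) (nat_lit 76) (nat_lit 216623364395) (nat_lit 76) (nat_lit 169746906857) (nat_lit 1) (nat_lit 4) (nat_lit 2) (nat_lit 5) (nat_lit 2) (nat_lit 4) (nat_lit 318) (nat_lit 253) (nat_lit 149)) (XT.nd (nat_lit 78) (nat_lit 0) (nat_lit 0) (XT.lf (nat_lit 0) (nat_lit 245226874839) (nat_lit 76) (nat_lit 219511858616) (nat_lit 76) (nat_lit 172634240443) (nat_lit 1) (nat_lit 4) (nat_lit 2) (nat_lit 5) (nat_lit 2) (nat_lit 4) (nat_lit 319) (nat_lit 253) (nat_lit 148)) (XT.lf (nat_lit 0) (nat_lit 288876579458) (nat_lit 76) (nat_lit 222631941628) (nat_lit 76) (nat_lit 175753248794) (nat_lit 1) (nat_lit 4) (nat_lit 2) (nat_lit 5) (nat_lit 2) (nat_lit 4) (nat_lit 320) (nat_lit 253) (nat_lit 147))))) (XT.nd (nat_lit 234) (nat_lit 0) (nat_lit 0) (XT.nd (nat_lit 78) (nat_lit 0) (nat_lit 0) (XT.lf (nat_lit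 0) (nat_lit 336017200376) (nat_lit 76) (nat_lit 226002102812) (nat_lit 76) (nat_lit 179122414920) (nat_lit 1) (nat_lit 4) (nat_lit 2) (nat_lit 5) (nat_lit 2) (nat_lit 4) (nat_lit 321) (nat_lit 253) (nat_lit 146)) (XT.nd (nat_lit 78) (nat_lit 0) (nat_lit 0) (XT.lf (nat_lit 0) (nat_lit 386928089420) (nat_lit 76) (nat_lit 229642313493) (nat_lit 76) (nat_lit 182761704252) (nat_lit 1) (nat_lit 4) (nat_lit 2) (nat_lit 5) (nat_lit 2) (nat_lit 4) (nat_lit 322) (nat_lit 253) (nat_lit 145)) (XT.lf (nat_lit 0) (nat_lit 441910940749) (nat_lit 76) (nat_lit 233574145290) (nat_lit 76) (nat_lit 186692682948) (nat_lit 1) (nat_lit 4) (nat_lit 2) (nat_lit 5) (nat_lit 2) (nat_lit 4) (nat_lit 323) (nat_lit 253) (nat_lit 144)))) (XT.nd (nat_lit 78) (nat_lit 0) (nat_lit 0) (XT.lf (nat_lit 0) (nat_lit 501291578667) (nat_lit 76) (nat_lit 237820897948) (nat_lit 76) (nat_lit 190938645697) (nat_lit 1) (nat_lit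 4) (nat_lit 2) (nat_lit 5) (nat_lit 2) (nat_lit 4) (nat_lit 324) (nat_lit 253) (nat_lit 143)) (XT.nd (nat_lit 78) (nat_lit 0) (nat_lit 0) (XT.lf (nat_lit 0) (nat_lit 565421888434) (nat_lit 76) (nat_lit 242407737407) (nat_lit 76) (nat_lit 195524753759) (nat_lit 1) (nat_lit 4) (nat_lit 2) (nat_lit 5) (nat_lit 2) (nat_lit 4) (nat_lit 325) (nat_lit 253) (nat_lit 142)) (XT.lf (nat_lit 0) (nat_lit 634681901517) (nat_lit 76) (nat_lit 247361844939) (nat_lit 76) (nat_lit 200478184072) (nat_lit 1) (nat_lit 4) (nat_lit 2) (nat_lit 5) (nat_lit 2) (nat_lit 4) (nat_lit 326) (nat_lit 253) (nat_lit 141))))))) (XT.nd (nat_lit 32136) (nat_lit 0) (nat_lit 1520) (XT.nd (nat_lit 468) (nat_lit 0) (nat_lit 0) (XT.nd (nat_lit 234) (nat_lit 0) (nat_lit 0) (XT.nd (nat_lit 78) (nat_lit 0) (nat_lit 0) (XT.lf (nat_lit 0) (nat_lit 709482047623) (nat_lit 76) (nat_lit 252712578217) (nat_lit 76) (nat_lit 205828290295)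 (nat_lit 1) (nat_lit 4) (nat_lit 2) (nat_lit 5) (nat_lit 2) (nat_lit 4) (nat_lit 327) (nat_lit 253) (nat_lit 140)) (XT.nd (nat_lit 78) (nat_lit 0) (nat_lit 0) (XT.lf (nat_lit 0) (nat_lit 790265586876) (nat_lit 76) (nat_lit 258491645292) (nat_lit 76) (nat_lit 211606776764) (nat_lit 1) (nat_lit 4) (nat_lit 2) (nat_lit 5) (nat_lit 2) (nat_lit 4) (nat_lit 328) (nat_lit 253) (nat_lit 139)) (XT.lf (nat_lit 0) (nat_lit 877511236546) (nat_lit 76) (nat_lit 264733292485) (nat_lit 76) (nat_lit 217847886359) (nat_lit 1) (nat_lit 4) (nat_lit 2) (nat_lit 5) (nat_lit 2) (nat_lit 4) (nat_lit 329) (nat_lit 253) (nat_lit 138)))) (XT.nd (nat_lit 78) (nat_lit 0) (nat_lit 0) (XT.lf (nat_lit 0) (nat_lit 971736007891) (nat_lit 76) (nat_lit 271474507337) (nat_lit 76) (nat_lit 224588603435) (nat_lit 1) (nat_lit 4) (nat_lit 2) (nat_lit 5) (nat_lit 2) (nat_lit 4) (nat_lit 330) (nat_lit 253) (nat_lit 137)) (XT.nd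 (nat_lit 78) (nat_lit 0) (nat_lit 0) (XT.lf (nat_lit 0) (nat_lit 1073498269926) (nat_lit 76) (nat_lit 278755237788) (nat_lit 76) (nat_lit 231868872981) (nat_lit 1) (nat_lit 4) (nat_lit 2) (nat_lit 5) (nat_lit 2) (nat_lit 4) (nat_lit 331) (nat_lit 253) (nat_lit 136)) (XT.lf (nat_lit 0) (nat_lit 1183401058278) (nat_lit 76) (nat_lit 286618628905) (nat_lit 76) (nat_lit 239731837335) (nat_lit 1) (nat_lit 4) (nat_lit 2) (nat_lit 5) (nat_lit 2) (nat_lit 4) (nat_lit 332) (nat_lit 253) (nat_lit 135))))) (XT.nd (nat_lit 31434) (nat_lit 0) (nat_lit 2204) (XT.nd (nat_lit 78) (nat_lit 0) (nat_lit 0) (XT.lf (nat_lit 0) (nat_lit 1302095648730) (nat_lit 76) (nat_lit 295111278564) (nat_lit 76) (nat_lit 248224091843) (nat_lit 1) (nat_lit 4) (nat_lit 2) (nat_lit 5) (nat_lit 2) (nat_lit 4) (nat_lit 333) (nat_lit 253) (nat_lit 134)) (XT.nd (nat_lit 31278) (nat_lit 0) (nat_lit 2660) (XT.lf (nat_lit 0)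 (nat_lit 1430285416631) (nat_lit 76) (nat_lit 304283513576) (nat_lit 76) (nat_lit 257395960974) (nat_lit 1) (nat_lit 4) (nat_lit 2) (nat_lit 5) (nat_lit 2) (nat_lit 4) (nat_lit 334) (nat_lit 253) (nat_lit 133)) (XT.lf (nat_lit 0) (nat_lit 2750058963) (nat_lit 0) (nat_lit 2750058963) (nat_lit 380) (nat_lit 693619920) (nat_lit 36) (nat_lit 5) (nat_lit 36) (nat_lit 3) (nat_lit 41) (nat_lit 3) (nat_lit 254) (nat_lit 254) (nat_lit 212)))) (XT.nd (nat_lit 78) (nat_lit 456) (nat_lit 0) (XT.lf (nat_lit 0) (nat_lit 11010497248) (nat_lit 0) (nat_lit 808182150) (nat_lit 380) (nat_lit 1031015080) (nat_lit 36) (nat_lit 5) (nat_lit 36) (nat_lit 3) (nat_lit 41) (nat_lit 3) (nat_lit 255) (nat_lit 254) (nat_lit 211)) (XT.nd (nat_lit 78) (nat_lit 456) (nat_lit 0) (XT.lf (nat_lit 76) (nat_lit 3671323227) (nat_lit 0) (nat_lit 9184595944) (nat_lit 456) (nat_lit 481006629) (nat_lit 37) (nat_lit 5) (nat_lit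 36) (nat_lit 5) (nat_lit 42) (nat_lit 5) (nat_lit 256) (nat_lit 254) (nat_lit 210)) (XT.lf (nat_lit 0) (nat_lit 143588545) (nat_lit 456) (nat_lit 4181158534) (nat_lit 532) (nat_lit 9535529818) (nat_lit 30) (nat_lit 5) (nat_lit 36) (nat_lit 5) (nat_lit 37) (nat_lit 5) (nat_lit 257) (nat_lit 254) (nat_lit 209)))))) (XT.nd (nat_lit 468) (nat_lit 380) (nat_lit 0) (XT.nd (nat_lit 234) (nat_lit 380) (nat_lit 0) (XT.nd (nat_lit 78) (nat_lit 0) (nat_lit 0) (XT.lf (nat_lit 0) (nat_lit 825661499) (nat_lit 456) (nat_lit 12650979439) (nat_lit 532) (nat_lit 945414592) (nat_lit 31) (nat_lit 5) (nat_lit 37) (nat_lit 5) (nat_lit 38) (nat_lit 5) (nat_lit 258) (nat_lit 254) (nat_lit 208)) (XT.nd (nat_lit 78) (nat_lit 0) (nat_lit 0) (XT.lf (nat_lit 0) (nat_lit 1760466977) (nat_lit 456) (nat_lit 6722587637) (nat_lit 532) (nat_lit 6530089524) (nat_lit 31) (nat_lit 5) (nat_lit 37) (nat_lit 5) (nat_lit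 38) (nat_lit 5) (nat_lit 259) (nat_lit 254) (nat_lit 207)) (XT.lf (nat_lit 0) (nat_lit 2740932774) (nat_lit 456) (nat_lit 343009709) (nat_lit 532) (nat_lit 12570111931) (nat_lit 31) (nat_lit 5) (nat_lit 37) (nat_lit 5) (nat_lit 38) (nat_lit 5) (nat_lit 260) (nat_lit 254) (nat_lit 206)))) (XT.nd (nat_lit 78) (nat_lit 456) (nat_lit 0) (XT.lf (nat_lit 0) (nat_lit 4008566370) (nat_lit 456) (nat_lit 9536677663) (nat_lit 76) (nat_lit 2784484525) (nat_lit 32) (nat_lit 5) (nat_lit 38) (nat_lit 5) (nat_lit 33) (nat_lit 5) (nat_lit 261) (nat_lit 254) (nat_lit 205)) (XT.nd (nat_lit 78) (nat_lit 456) (nat_lit 0) (XT.lf (nat_lit 0) (nat_lit 5441976351) (nat_lit 456) (nat_lit 2642707374) (nat_lit 76) (nat_lit 8969799107) (nat_lit 32) (nat_lit 5) (nat_lit 38) (nat_lit 5) (nat_lit 33) (nat_lit 5) (nat_lit 262) (nat_lit 254) (nat_lit 204)) (XT.lf (nat_lit 0) (nat_lit 5033114107) (nat_lit 456) (nat_lit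 2054511172) (nat_lit 532) (nat_lit 10741949333) (nat_lit 26) (nat_lit 5) (nat_lit 32) (nat_lit 5) (nat_lit 33) (nat_lit 5) (nat_lit 263) (nat_lit 254) (nat_lit 203))))) (XT.nd (nat_lit 234) (nat_lit 152) (nat_lit 0) (XT.nd (nat_lit 78) (nat_lit 228) (nat_lit 0) (XT.lf (nat_lit 0) (nat_lit 9024064605) (nat_lit 532) (nat_lit 5319554962) (nat_lit 76) (nat_lit 4310473512) (nat_lit 26) (nat_lit 5) (nat_lit 33) (nat_lit 5) (nat_lit 27) (nat_lit 5) (nat_lit 264) (nat_lit 254) (nat_lit 202)) (XT.nd (nat_lit 78) (nat_lit 0) (nat_lit 0) (XT.lf (nat_lit 0) (nat_lit 2822145206) (nat_lit 228) (nat_lit 8393944324) (nat_lit 304) (nat_lit 8320569138) (nat_lit 23) (nat_lit 5) (nat_lit 26) (nat_lit 5) (nat_lit 27) (nat_lit 5) (nat_lit 265) (nat_lit 254) (nat_lit 201)) (XT.lf (nat_lit 0) (nat_lit 11897076092) (nat_lit 228) (nat_lit 1812307474) (nat_lit 304) (nat_lit 6770502331) (nat_lit 23) (nat_lit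 5) (nat_lit 26) (nat_lit 5) (nat_lit 27) (nat_lit 5) (nat_lit 266) (nat_lit 254) (nat_lit 200)))) (XT.nd (nat_lit 78) (nat_lit 0) (nat_lit 0) (XT.lf (nat_lit 0) (nat_lit 54125031) (nat_lit 152) (nat_lit 16458567394) (nat_lit 228) (nat_lit 4977154188) (nat_lit 21) (nat_lit 5) (nat_lit 23) (nat_lit 5) (nat_lit 24) (nat_lit 5) (nat_lit 267) (nat_lit 254) (nat_lit 199)) (XT.nd (nat_lit 78) (nat_lit 0) (nat_lit 0) (XT.lf (nat_lit 0) (nat_lit 9800450571) (nat_lit 152) (nat_lit 10003107806) (nat_lit 228) (nat_lit 2756092982) (nat_lit 21) (nat_lit 5) (nat_lit 23) (nat_lit 5) (nat_lit 24) (nat_lit 5) (nat_lit 268) (nat_lit 254) (nat_lit 198)) (XT.lf (nat_lit 0) (nat_lit 20307848464) (nat_lit 152) (nat_lit 3033865470) (nat_lit 228) (nat_lit 374707301) (nat_lit 21) (nat_lit 5) (nat_lit 23) (nat_lit 5) (nat_lit 24) (nat_lit 5) (nat_lit 269) (nat_lit 254) (nat_lit 197))))))))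
noncomputable def xc76 : XT := (XT.nd (nat_lit 1794) (nat_lit 304) (nat_lit 0) (XT.nd (nat_lit 858) (nat_lit 304) (nat_lit 0) (XT.nd (nat_lit 390) (nat_lit 456) (nat_lit 0) (XT.nd (nat_lit 156) (nat_lit 152) (nat_lit 0) (XT.nd (nat_lit 78) (nat_lit 0) (nat_lit 0) (XT.lf (nat_lit 0) (nat_lit 2353289844) (nat_lit 304) (nat_lit 18095450817) (nat_lit 76) (nat_lit 4491571380) (nat_lit 17) (nat_lit 5) (nat_lit 21) (nat_lit 5) (nat_lit 18) (nat_lit 5) (nat_lit 270) (nat_lit 254) (nat_lit 196)) (XT.lf (nat_lit 0) (nat_lit 5439062009) (nat_lit 304) (nat_lit 8252052235) (nat_lit 76) (nat_lit 12557520190) (nat_lit 17) (nat_lit 5) (nat_lit 21) (nat_lit 5) (nat_lit 18) (nat_lit 5) (nat_lit 271) (nat_lit 254) (nat_lit 195))) (XT.nd (nat_lit 78) (nat_lit 0) (nat_lit 0) (XT.lf (nat_lit 0) (nat_lit 2485702697) (nat_lit 152) (nat_lit 6332219244) (nat_lit 228) (nat_lit 18840077847) (nat_lit 15) (nat_lit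 5) (nat_lit 17) (nat_lit 5) (nat_lit 18) (nat_lit 5) (nat_lit 272) (nat_lit 254) (nat_lit 194)) (XT.nd (nat_lit 78) (nat_lit 0) (nat_lit 0) (XT.lf (nat_lit 0) (nat_lit 12724368900) (nat_lit 228) (nat_lit 14673022608) (nat_lit 76) (nat_lit 1762210279) (nat_lit 15) (nat_lit 5) (nat_lit 18) (nat_lit 5) (nat_lit 16) (nat_lit 5) (nat_lit 273) (nat_lit 254) (nat_lit 193)) (XT.lf (nat_lit 0) (nat_lit 17095714090) (nat_lit 228) (nat_lit 3514971362) (nat_lit 76) (nat_lit 10158520410) (nat_lit 15) (nat_lit 5) (nat_lit 18) (nat_lit 5) (nat_lit 16) (nat_lit 5) (nat_lit 274) (nat_lit 254) (nat_lit 192))))) (XT.nd (nat_lit 234) (nat_lit 228) (nat_lit 0) (XT.nd (nat_lit 78) (nat_lit 76) (nat_lit 0) (XT.lf (nat_lit 0) (nat_lit 8968930692) (nat_lit 152) (nat_lit 13052344059) (nat_lit 228) (nat_lit 10470002618) (nat_lit 13) (nat_lit 5) (nat_lit 15) (nat_lit 5) (nat_lit 16) (nat_lit 5) (nat_lit 275)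 (nat_lit 254) (nat_lit 191)) (XT.nd (nat_lit 78) (nat_lit 76) (nat_lit 0) (XT.lf (nat_lit 0) (nat_lit 22636380198) (nat_lit 152) (nat_lit 4789877446) (nat_lit 228) (nat_lit 6918082073) (nat_lit 13) (nat_lit 5) (nat_lit 15) (nat_lit 5) (nat_lit 16) (nat_lit 5) (nat_lit 276) (nat_lit 254) (nat_lit 190)) (XT.lf (nat_lit 0) (nat_lit 986833448) (nat_lit 76) (nat_lit 32389921896) (nat_lit 152) (nat_lit 2959893628) (nat_lit 12) (nat_lit 5) (nat_lit 13) (nat_lit 5) (nat_lit 14) (nat_lit 4) (nat_lit 277) (nat_lit 254) (nat_lit 189)))) (XT.nd (nat_lit 78) (nat_lit 152) (nat_lit 0) (XT.lf (nat_lit 0) (nat_lit 1692087416) (nat_lit 152) (nat_lit 23278925715) (nat_lit 76) (nat_lit 13479410446) (nat_lit 11) (nat_lit 5) (nat_lit 13) (nat_lit 5) (nat_lit 12) (nat_lit 5) (nat_lit 278) (nat_lit 254) (nat_lit 188)) (XT.nd (nat_lit 78) (nat_lit 152) (nat_lit 0) (XT.lf (nat_lit 0) (nat_lit 6547124297)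 (nat_lit 152) (nat_lit 10333034200) (nat_lit 76) (nat_lit 23847767199) (nat_lit 11) (nat_lit 5) (nat_lit 13) (nat_lit 5) (nat_lit 12) (nat_lit 5) (nat_lit 279) (nat_lit 254) (nat_lit 187)) (XT.lf (nat_lit 0) (nat_lit 3827213653) (nat_lit 152) (nat_lit 8046884398) (nat_lit 228) (nat_lit 31306884864) (nat_lit 9) (nat_lit 5) (nat_lit 11) (nat_lit 5) (nat_lit 12) (nat_lit 5) (nat_lit 280) (nat_lit 254) (nat_lit 186)))))) (XT.nd (nat_lit 468) (nat_lit 228) (nat_lit 0) (XT.nd (nat_lit 234) (nat_lit 0) (nat_lit 0) (XT.nd (nat_lit 78) (nat_lit 76) (nat_lit 0) (XT.lf (nat_lit 0) (nat_lit 17944717273) (nat_lit 228) (nat_lit 26156030008) (nat_lit 76) (nat_lit 1704173281) (nat_lit 9) (nat_lit 5) (nat_lit 12) (nat_lit 5) (nat_lit 10) (nat_lit 4) (nat_lit 281) (nat_lit 254) (nat_lit 185)) (XT.nd (nat_lit 78) (nat_lit 76) (nat_lit 0) (XT.lf (nat_lit 0) (nat_lit 24702327404) (nat_lit 228) (nat_lit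 12123547449) (nat_lit 76) (nat_lit 11796823329) (nat_lit 9) (nat_lit 5) (nat_lit 12) (nat_lit 5) (nat_lit 10) (nat_lit 4) (nat_lit 282) (nat_lit 254) (nat_lit 184)) (XT.lf (nat_lit 0) (nat_lit 3179408519) (nat_lit 76) (nat_lit 28890502112) (nat_lit 152) (nat_lit 19590468122) (nat_lit 8) (nat_lit 5) (nat_lit 9) (nat_lit 5) (nat_lit 10) (nat_lit 4) (nat_lit 283) (nat_lit 254) (nat_lit 183)))) (XT.nd (nat_lit 78) (nat_lit 0) (nat_lit 0) (XT.lf (nat_lit 0) (nat_lit 20385188603) (nat_lit 76) (nat_lit 19966354699) (nat_lit 152) (nat_lit 14563586712) (nat_lit 8) (nat_lit 5) (nat_lit 9) (nat_lit 5) (nat_lit 10) (nat_lit 4) (nat_lit 284) (nat_lit 254) (nat_lit 182)) (XT.nd (nat_lit 78) (nat_lit 0) (nat_lit 0) (XT.lf (nat_lit 0) (nat_lit 38957348457) (nat_lit 76) (nat_lit 10332028052) (nat_lit 152) (nat_lit 9141416894) (nat_lit 8) (nat_lit 5) (nat_lit 9) (nat_lit 5) (nat_lit 10) (nat_lit 4)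 (nat_lit 285) (nat_lit 254) (nat_lit 181)) (XT.lf (nat_lit 0) (nat_lit 58938048352) (nat_lit 152) (nat_lit 3223930318) (nat_lit 0) (nat_lit 66089956) (nat_lit 8) (nat_lit 5) (nat_lit 10) (nat_lit 4) (nat_lit 8) (nat_lit 4) (nat_lit 286) (nat_lit 254) (nat_lit 180))))) (XT.nd (nat_lit 234) (nat_lit 76) (nat_lit 0) (XT.nd (nat_lit 78) (nat_lit 0) (nat_lit 0) (XT.lf (nat_lit 0) (nat_lit 3512494670) (nat_lit 152) (nat_lit 51580681745) (nat_lit 76) (nat_lit 11179376739) (nat_lit 6) (nat_lit 5) (nat_lit 8) (nat_lit 5) (nat_lit 7) (nat_lit 4) (nat_lit 287) (nat_lit 254) (nat_lit 179)) (XT.nd (nat_lit 78) (nat_lit 0) (nat_lit 0) (XT.lf (nat_lit 0) (nat_lit 10766436419) (nat_lit 152) (nat_lit 36506105373) (nat_lit 76) (nat_lit 23354439304) (nat_lit 6) (nat_lit 5) (nat_lit 8) (nat_lit 5) (nat_lit 7) (nat_lit 4) (nat_lit 288) (nat_lit 254) (nat_lit 178)) (XT.lf (nat_lit 0) (nat_lit 18595632983)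 (nat_lit 152) (nat_lit 20233989915) (nat_lit 76) (nat_lit 36500562655) (nat_lit 6) (nat_lit 5) (nat_lit 8) (nat_lit 5) (nat_lit 7) (nat_lit 4) (nat_lit 289) (nat_lit 254) (nat_lit 177)))) (XT.nd (nat_lit 78) (nat_lit 76) (nat_lit 0) (XT.lf (nat_lit 0) (nat_lit 27046479601) (nat_lit 152) (nat_lit 2667908021) (nat_lit 76) (nat_lit 50695649744) (nat_lit 6) (nat_lit 5) (nat_lit 8) (nat_lit 5) (nat_lit 7) (nat_lit 4) (nat_lit 290) (nat_lit 254) (nat_lit 176)) (XT.nd (nat_lit 78) (nat_lit 0) (nat_lit 0) (XT.lf (nat_lit 0) (nat_lit 17154366498) (nat_lit 76) (nat_lit 19427251791) (nat_lit 152) (nat_lit 49282016034) (nat_lit 5) (nat_lit 5) (nat_lit 6) (nat_lit 5) (nat_lit 7) (nat_lit 4) (nat_lit 291) (nat_lit 254) (nat_lit 175)) (XT.lf (nat_lit 0) (nat_lit 38707107364) (nat_lit 76) (nat_lit 8241219476) (nat_lit 152) (nat_lit 44799705337) (nat_lit 5) (nat_lit 5) (nat_lit 6) (nat_lit 5) (nat_lit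 7) (nat_lit 4) (nat_lit 292) (nat_lit 254) (nat_lit 174))))))) (XT.nd (nat_lit 936) (nat_lit 76) (nat_lit 0) (XT.nd (nat_lit 468) (nat_lit 152) (nat_lit 0) (XT.nd (nat_lit 234) (nat_lit 0) (nat_lit 0) (XT.nd (nat_lit 78) (nat_lit 76) (nat_lit 0) (XT.lf (nat_lit 0) (nat_lit 58232776809) (nat_lit 152) (nat_lit 36218238760) (nat_lit 0) (nat_lit 3645106728) (nat_lit 5) (nat_lit 5) (nat_lit 7) (nat_lit 4) (nat_lit 5) (nat_lit 4) (nat_lit 293) (nat_lit 254) (nat_lit 173)) (XT.nd (nat_lit 78) (nat_lit 76) (nat_lit 0) (XT.lf (nat_lit 0) (nat_lit 70630392243) (nat_lit 152) (nat_lit 18270072910) (nat_lit 0) (nat_lit 16034773583) (nat_lit 5) (nat_lit 5) (nat_lit 7) (nat_lit 4) (nat_lit 5) (nat_lit 4) (nat_lit 294) (nat_lit 254) (nat_lit 172)) (XT.lf (nat_lit 0) (nat_lit 1166486126) (nat_lit 76) (nat_lit 82878006860) (nat_lit 76) (nat_lit 28275028406) (nat_lit 4) (nat_lit 4) (nat_lit 5) (nat_lit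 5) (nat_lit 5) (nat_lit 4) (nat_lit 295) (nat_lit 254) (nat_lit 171)))) (XT.nd (nat_lit 78) (nat_lit 0) (nat_lit 0) (XT.lf (nat_lit 0) (nat_lit 23191339829) (nat_lit 76) (nat_lit 75836654154) (nat_lit 76) (nat_lit 21226861075) (nat_lit 4) (nat_lit 4) (nat_lit 5) (nat_lit 5) (nat_lit 5) (nat_lit 4) (nat_lit 296) (nat_lit 254) (nat_lit 170)) (XT.nd (nat_lit 78) (nat_lit 0) (nat_lit 0) (XT.lf (nat_lit 0) (nat_lit 46972936187) (nat_lit 76) (nat_lit 68234216672) (nat_lit 76) (nat_lit 13618113755) (nat_lit 4) (nat_lit 4) (nat_lit 5) (nat_lit 5) (nat_lit 5) (nat_lit 4) (nat_lit 297) (nat_lit 254) (nat_lit 169)) (XT.lf (nat_lit 0) (nat_lit 72652203179) (nat_lit 76) (nat_lit 60025642932) (nat_lit 76) (nat_lit 5403697572) (nat_lit 4) (nat_lit 4) (nat_lit 5) (nat_lit 5) (nat_lit 5) (nat_lit 4) (nat_lit 298) (nat_lit 254) (nat_lit 168))))) (XT.nd (nat_lit 234) (nat_lit 76) (nat_lit 0) (XT.nd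 (nat_lit 78) (nat_lit 0) (nat_lit 0) (XT.lf (nat_lit 0) (nat_lit 3291728884) (nat_lit 152) (nat_lit 47780558949) (nat_lit 76) (nat_lit 96999583654) (nat_lit 3) (nat_lit 5) (nat_lit 5) (nat_lit 5) (nat_lit 4) (nat_lit 4) (nat_lit 299) (nat_lit 254) (nat_lit 167)) (XT.nd (nat_lit 78) (nat_lit 0) (nat_lit 0) (XT.lf (nat_lit 0) (nat_lit 12388380894) (nat_lit 152) (nat_lit 28864531721) (nat_lit 76) (nat_lit 117597488843) (nat_lit 3) (nat_lit 5) (nat_lit 5) (nat_lit 5) (nat_lit 4) (nat_lit 4) (nat_lit 300) (nat_lit 254) (nat_lit 166)) (XT.lf (nat_lit 0) (nat_lit 22210479380) (nat_lit 152) (nat_lit 8439204789) (nat_lit 76) (nat_lit 139841718925) (nat_lit 3) (nat_lit 5) (nat_lit 5) (nat_lit 5) (nat_lit 4) (nat_lit 4) (nat_lit 301) (nat_lit 254) (nat_lit 165)))) (XT.nd (nat_lit 78) (nat_lit 0) (nat_lit 0) (XT.lf (nat_lit 0) (nat_lit 14333479518) (nat_lit 76) (nat_lit 18827470380) (nat_lit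 152) (nat_lit 149875332566) (nat_lit 2) (nat_lit 5) (nat_lit 3) (nat_lit 5) (nat_lit 4) (nat_lit 4) (nat_lit 302) (nat_lit 254) (nat_lit 164)) (XT.nd (nat_lit 78) (nat_lit 0) (nat_lit 0) (XT.lf (nat_lit 0) (nat_lit 39404329503) (nat_lit 76) (nat_lit 5811825324) (nat_lit 152) (nat_lit 151350307112) (nat_lit 2) (nat_lit 5) (nat_lit 3) (nat_lit 5) (nat_lit 4) (nat_lit 4) (nat_lit 303) (nat_lit 254) (nat_lit 163)) (XT.lf (nat_lit 0) (nat_lit 58432141355) (nat_lit 152) (nat_lit 144899952516) (nat_lit 0) (nat_lit 7831257773) (nat_lit 2) (nat_lit 5) (nat_lit 4) (nat_lit 4) (nat_lit 2) (nat_lit 4) (nat_lit 304) (nat_lit 254) (nat_lit 162)))))) (XT.nd (nat_lit 468) (nat_lit 76) (nat_lit 0) (XT.nd (nat_lit 234) (nat_lit 0) (nat_lit 0) (XT.nd (nat_lit 78) (nat_lit 0) (nat_lit 0) (XT.lf (nat_lit 0) (nat_lit 72854577234) (nat_lit 152) (nat_lit 131810949209) (nat_lit 0) (nat_lit 22250537162) (nat_lit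 2) (nat_lit 5) (nat_lit 4) (nat_lit 4) (nat_lit 2) (nat_lit 4) (nat_lit 305) (nat_lit 254) (nat_lit 161)) (XT.nd (nat_lit 78) (nat_lit 0) (nat_lit 0) (XT.lf (nat_lit 0) (nat_lit 88429154212) (nat_lit 152) (nat_lit 117677783512) (nat_lit 0) (nat_lit 37822191464) (nat_lit 2) (nat_lit 5) (nat_lit 4) (nat_lit 4) (nat_lit 2) (nat_lit 4) (nat_lit 306) (nat_lit 254) (nat_lit 160)) (XT.lf (nat_lit 0) (nat_lit 105248166078) (nat_lit 152) (nat_lit 102416703332) (nat_lit 0) (nat_lit 54638497149) (nat_lit 2) (nat_lit 5) (nat_lit 4) (nat_lit 4) (nat_lit 2) (nat_lit 4) (nat_lit 307) (nat_lit 254) (nat_lit 159)))) (XT.nd (nat_lit 78) (nat_lit 0) (nat_lit 0) (XT.lf (nat_lit 0) (nat_lit 123411281050) (nat_lit 152) (nat_lit 85937272640) (nat_lit 0) (nat_lit 72799106398) (nat_lit 2) (nat_lit 5) (nat_lit 4) (nat_lit 4) (nat_lit 2) (nat_lit 4) (nat_lit 308) (nat_lit 254) (nat_lit 158)) (XT.nd (nat_lit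 78) (nat_lit 0) (nat_lit 0) (XT.lf (nat_lit 0) (nat_lit 143026132403) (nat_lit 152) (nat_lit 68141835549) (nat_lit 0) (nat_lit 92411637636) (nat_lit 2) (nat_lit 5) (nat_lit 4) (nat_lit 4) (nat_lit 2) (nat_lit 4) (nat_lit 309) (nat_lit 254) (nat_lit 157)) (XT.lf (nat_lit 0) (nat_lit 164208956293) (nat_lit 152) (nat_lit 48924937617) (nat_lit 0) (nat_lit 113592313272) (nat_lit 2) (nat_lit 5) (nat_lit 4) (nat_lit 4) (nat_lit 2) (nat_lit 4) (nat_lit 310) (nat_lit 254) (nat_lit 156))))) (XT.nd (nat_lit 234) (nat_lit 0) (nat_lit 0) (XT.nd (nat_lit 78) (nat_lit 76) (nat_lit 0) (XT.lf (nat_lit 0) (nat_lit 187085280564) (nat_lit 152) (nat_lit 28172700930) (nat_lit 0) (nat_lit 136466648419) (nat_lit 2) (nat_lit 5) (nat_lit 4) (nat_lit 4) (nat_lit 2) (nat_lit 4) (nat_lit 311) (nat_lit 254) (nat_lit 155)) (XT.nd (nat_lit 78) (nat_lit 76) (nat_lit 0) (XT.lf (nat_lit 0) (nat_lit 211790668621) (nat_lit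 152) (nat_lit 5762149272) (nat_lit 0) (nat_lit 161170194695) (nat_lit 2) (nat_lit 5) (nat_lit 4) (nat_lit 4) (nat_lit 2) (nat_lit 4) (nat_lit 312) (nat_lit 254) (nat_lit 154)) (XT.lf (nat_lit 0) (nat_lit 19410513105) (nat_lit 76) (nat_lit 219527832964) (nat_lit 76) (nat_lit 168905653684) (nat_lit 1) (nat_lit 4) (nat_lit 2) (nat_lit 5) (nat_lit 2) (nat_lit 4) (nat_lit 313) (nat_lit 254) (nat_lit 153)))) (XT.nd (nat_lit 78) (nat_lit 0) (nat_lit 0) (XT.lf (nat_lit 0) (nat_lit 46923004809) (nat_lit 76) (nat_lit 221491446338) (nat_lit 76) (nat_lit 170867688028) (nat_lit 1) (nat_lit 4) (nat_lit 2) (nat_lit 5) (nat_lit 2) (nat_lit 4) (nat_lit 314) (nat_lit 254) (nat_lit 152)) (XT.nd (nat_lit 78) (nat_lit 0) (nat_lit 0) (XT.lf (nat_lit 0) (nat_lit 76634938259) (nat_lit 76) (nat_lit 223612841615) (nat_lit 76) (nat_lit 172987621239) (nat_lit 1) (nat_lit 4) (nat_lit 2) (nat_lit 5) (nat_lit 2)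 (nat_lit 4) (nat_lit 315) (nat_lit 254) (nat_lit 151)) (XT.lf (nat_lit 0) (nat_lit 108722384171) (nat_lit 76) (nat_lit 225904590027) (nat_lit 76) (nat_lit 175278015886) (nat_lit 1) (nat_lit 4) (nat_lit 2) (nat_lit 5) (nat_lit 2) (nat_lit 4) (nat_lit 316) (nat_lit 254) (nat_lit 150))))))))
noncomputable def xc77 : XT := (XT.nd (nat_lit 33228) (nat_lit 0) (nat_lit 532) (XT.nd (nat_lit 936) (nat_lit 0) (nat_lit 0) (XT.nd (nat_lit 468) (nat_lit 0) (nat_lit 0) (XT.nd (nat_lit 234) (nat_lit 0) (nat_lit 0) (XT.nd (nat_lit 78) (nat_lit 0) (nat_lit 0) (XT.lf (nat_lit 0) (nat_lit 143375490373) (nat_lit 76) (nat_lit 228380272305) (nat_lit 76) (nat_lit 177752444678) (nat_lit 1) (nat_lit 4) (nat_lit 2) (nat_lit 5) (nat_lit 2) (nat_lit 4) (nat_lit 317) (nat_lit 254) (nat_lit 149)) (XT.nd (nat_lit 78) (nat_lit 0) (nat_lit 0) (XT.lf (nat_lit 0) (nat_lit 180799608605) (nat_lit 76) (nat_lit 231054559158)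 (nat_lit 76) (nat_lit 180425570897) (nat_lit 1) (nat_lit 4) (nat_lit 2) (nat_lit 5) (nat_lit 2) (nat_lit 4) (nat_lit 318) (nat_lit 254) (nat_lit 148)) (XT.lf (nat_lit 0) (nat_lit 221216511420) (nat_lit 76) (nat_lit 233943298212) (nat_lit 76) (nat_lit 183313235289) (nat_lit 1) (nat_lit 4) (nat_lit 2) (nat_lit 5) (nat_lit 2) (nat_lit 4) (nat_lit 319) (nat_lit 254) (nat_lit 147)))) (XT.nd (nat_lit 78) (nat_lit 0) (nat_lit 0) (XT.lf (nat_lit 0) (nat_lit 264865706389) (nat_lit 76) (nat_lit 237063607922) (nat_lit 76) (nat_lit 186432549942) (nat_lit 1) (nat_lit 4) (nat_lit 2) (nat_lit 5) (nat_lit 2) (nat_lit 4) (nat_lit 320) (nat_lit 254) (nat_lit 146)) (XT.nd (nat_lit 78) (nat_lit 0) (nat_lit 0) (XT.lf (nat_lit 0) (nat_lit 312005855410) (nat_lit 76) (nat_lit 240433979011) (nat_lit 76) (nat_lit 189801999682) (nat_lit 1) (nat_lit 4) (nat_lit 2) (nat_lit 5) (nat_lit 2) (nat_lit 4) (nat_lit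 321) (nat_lit 254) (nat_lit 145)) (XT.lf (nat_lit 0) (nat_lit 362916307512) (nat_lit 76) (nat_lit 244074384049) (nat_lit 76) (nat_lit 193441551618) (nat_lit 1) (nat_lit 4) (nat_lit 2) (nat_lit 5) (nat_lit 2) (nat_lit 4) (nat_lit 322) (nat_lit 254) (nat_lit 144))))) (XT.nd (nat_lit 234) (nat_lit 0) (nat_lit 0) (XT.nd (nat_lit 78) (nat_lit 0) (nat_lit 0) (XT.lf (nat_lit 0) (nat_lit 417898754266) (nat_lit 76) (nat_lit 248006395806) (nat_lit 76) (nat_lit 197372773466) (nat_lit 1) (nat_lit 4) (nat_lit 2) (nat_lit 5) (nat_lit 2) (nat_lit 4) (nat_lit 323) (nat_lit 254) (nat_lit 143)) (XT.nd (nat_lit 78) (nat_lit 0) (nat_lit 0) (XT.lf (nat_lit 0) (nat_lit 477279017576) (nat_lit 76) (nat_lit 252253315093) (nat_lit 76) (nat_lit 201618961356) (nat_lit 1) (nat_lit 4) (nat_lit 2) (nat_lit 5) (nat_lit 2) (nat_lit 4) (nat_lit 324) (nat_lit 254) (nat_lit 142)) (XT.lf (nat_lit 0) (nat_lit 541408980485)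 (nat_lit 76) (nat_lit 256840308838) (nat_lit 76) (nat_lit 206205277883) (nat_lit 1) (nat_lit 4) (nat_lit 2) (nat_lit 5) (nat_lit 2) (nat_lit 4) (nat_lit 325) (nat_lit 254) (nat_lit 141)))) (XT.nd (nat_lit 78) (nat_lit 0) (nat_lit 0) (XT.lf (nat_lit 0) (nat_lit 610668672402) (nat_lit 76) (nat_lit 261794559228) (nat_lit 76) (nat_lit 211158901217) (nat_lit 1) (nat_lit 4) (nat_lit 2) (nat_lit 5) (nat_lit 2) (nat_lit 4) (nat_lit 326) (nat_lit 254) (nat_lit 140)) (XT.nd (nat_lit 78) (nat_lit 0) (nat_lit 0) (XT.lf (nat_lit 0) (nat_lit 685468521132) (nat_lit 76) (nat_lit 267145424782) (nat_lit 76) (nat_lit 216509186165) (nat_lit 1) (nat_lit 4) (nat_lit 2) (nat_lit 5) (nat_lit 2) (nat_lit 4) (nat_lit 327) (nat_lit 254) (nat_lit 139)) (XT.lf (nat_lit 0) (nat_lit 766251785038) (nat_lit 76) (nat_lit 272924614334) (nat_lit 76) (nat_lit 222287838119) (nat_lit 1) (nat_lit 4) (nat_lit 2) (nat_lit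 5) (nat_lit 2) (nat_lit 4) (nat_lit 328) (nat_lit 254) (nat_lit 138)))))) (XT.nd (nat_lit 31824) (nat_lit 0) (nat_lit 2204) (XT.nd (nat_lit 234) (nat_lit 0) (nat_lit 0) (XT.nd (nat_lit 78) (nat_lit 0) (nat_lit 0) (XT.lf (nat_lit 0) (nat_lit 853497179757) (nat_lit 76) (nat_lit 279166374933) (nat_lit 76) (nat_lit 228529100942) (nat_lit 1) (nat_lit 4) (nat_lit 2) (nat_lit 5) (nat_lit 2) (nat_lit 4) (nat_lit 329) (nat_lit 254) (nat_lit 137)) (XT.nd (nat_lit 78) (nat_lit 0) (nat_lit 0) (XT.lf (nat_lit 0) (nat_lit 947721715035) (nat_lit 76) (nat_lit 285907694790) (nat_lit 76) (nat_lit 235269959894) (nat_lit 1) (nat_lit 4) (nat_lit 2) (nat_lit 5) (nat_lit 2) (nat_lit 4) (nat_lit 330) (nat_lit 254) (nat_lit 136)) (XT.lf (nat_lit 0) (nat_lit 1049483758491) (nat_lit 76) (nat_lit 293188522467) (nat_lit 76) (nat_lit 242550360808) (nat_lit 1) (nat_lit 4) (nat_lit 2) (nat_lit 5) (nat_lit 2) (nat_lit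 4) (nat_lit 331) (nat_lit 254) (nat_lit 135)))) (XT.nd (nat_lit 78) (nat_lit 0) (nat_lit 0) (XT.lf (nat_lit 0) (nat_lit 1159386344454) (nat_lit 76) (nat_lit 301052003609) (nat_lit 76) (nat_lit 250413446800) (nat_lit 1) (nat_lit 4) (nat_lit 2) (nat_lit 5) (nat_lit 2) (nat_lit 4) (nat_lit 332) (nat_lit 254) (nat_lit 134)) (XT.nd (nat_lit 31434) (nat_lit 0) (nat_lit 2660) (XT.lf (nat_lit 0) (nat_lit 1278080747508) (nat_lit 76) (nat_lit 309544736624) (nat_lit 76) (nat_lit 258905813934) (nat_lit 1) (nat_lit 4) (nat_lit 2) (nat_lit 5) (nat_lit 2) (nat_lit 4) (nat_lit 333) (nat_lit 254) (nat_lit 133)) (XT.lf (nat_lit 0) (nat_lit 3154730060) (nat_lit 0) (nat_lit 3154730060) (nat_lit 380) (nat_lit 347296899) (nat_lit 36) (nat_lit 5) (nat_lit 36) (nat_lit 3) (nat_lit 41) (nat_lit 3) (nat_lit 255) (nat_lit 255) (nat_lit 210))))) (XT.nd (nat_lit 234) (nat_lit 0) (nat_lit 76) (XT.nd (nat_lit 78)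 (nat_lit 456) (nat_lit 0) (XT.lf (nat_lit 0) (nat_lit 12233311806) (nat_lit 0) (nat_lit 1214811499) (nat_lit 380) (nat_lit 369398852) (nat_lit 36) (nat_lit 5) (nat_lit 36) (nat_lit 3) (nat_lit 41) (nat_lit 3) (nat_lit 256) (nat_lit 255) (nat_lit 209)) (XT.nd (nat_lit 78) (nat_lit 0) (nat_lit 0) (XT.lf (nat_lit 0) (nat_lit 163069052) (nat_lit 456) (nat_lit 9987167707) (nat_lit 532) (nat_lit 4197460058) (nat_lit 30) (nat_lit 5) (nat_lit 36) (nat_lit 5) (nat_lit 37) (nat_lit 5) (nat_lit 257) (nat_lit 255) (nat_lit 208)) (XT.lf (nat_lit 0) (nat_lit 763010222) (nat_lit 456) (nat_lit 4108994372) (nat_lit 532) (nat_lit 10044147659) (nat_lit 30) (nat_lit 5) (nat_lit 36) (nat_lit 5) (nat_lit 37) (nat_lit 5) (nat_lit 258) (nat_lit 255) (nat_lit 207)))) (XT.nd (nat_lit 78) (nat_lit 0) (nat_lit 0) (XT.lf (nat_lit 0) (nat_lit 1459914765) (nat_lit 456) (nat_lit 13212674082) (nat_lit 532) (nat_lit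 853782477) (nat_lit 31) (nat_lit 5) (nat_lit 37) (nat_lit 5) (nat_lit 38) (nat_lit 5) (nat_lit 259) (nat_lit 255) (nat_lit 206)) (XT.nd (nat_lit 78) (nat_lit 0) (nat_lit 0) (XT.lf (nat_lit 0) (nat_lit 2427415766) (nat_lit 456) (nat_lit 6843372693) (nat_lit 532) (nat_lit 6897621425) (nat_lit 31) (nat_lit 5) (nat_lit 37) (nat_lit 5) (nat_lit 38) (nat_lit 5) (nat_lit 260) (nat_lit 255) (nat_lit 205)) (XT.lf (nat_lit 76) (nat_lit 16506684) (nat_lit 0) (nat_lit 3431237912) (nat_lit 532) (nat_lit 13416208167) (nat_lit 32) (nat_lit 5) (nat_lit 31) (nat_lit 5) (nat_lit 38) (nat_lit 5) (nat_lit 261) (nat_lit 255) (nat_lit 204))))))) (XT.nd (nat_lit 936) (nat_lit 532) (nat_lit 0) (XT.nd (nat_lit 468) (nat_lit 608) (nat_lit 0) (XT.nd (nat_lit 234) (nat_lit 228) (nat_lit 0) (XT.nd (nat_lit 78) (nat_lit 456) (nat_lit 0) (XT.lf (nat_lit 0) (nat_lit 4787344586) (nat_lit 456) (nat_lit 9881263658)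 (nat_lit 76) (nat_lit 2927681696) (nat_lit 32) (nat_lit 5) (nat_lit 38) (nat_lit 5) (nat_lit 33) (nat_lit 5) (nat_lit 262) (nat_lit 255) (nat_lit 203)) (XT.nd (nat_lit 78) (nat_lit 456) (nat_lit 0) (XT.lf (nat_lit 0) (nat_lit 6301494557) (nat_lit 456) (nat_lit 2466764503) (nat_lit 76) (nat_lit 9613714895) (nat_lit 32) (nat_lit 5) (nat_lit 38) (nat_lit 5) (nat_lit 33) (nat_lit 5) (nat_lit 263) (nat_lit 255) (nat_lit 202)) (XT.lf (nat_lit 0) (nat_lit 5813316128) (nat_lit 456) (nat_lit 2243140162) (nat_lit 532) (nat_lit 11164621302) (nat_lit 26) (nat_lit 5) (nat_lit 32) (nat_lit 5) (nat_lit 33) (nat_lit 5) (nat_lit 264) (nat_lit 255) (nat_lit 201)))) (XT.nd (nat_lit 78) (nat_lit 228) (nat_lit 0) (XT.lf (nat_lit 0) (nat_lit 10117505829) (nat_lit 532) (nat_lit 5362712387) (nat_lit 76) (nat_lit 4633964997) (nat_lit 26) (nat_lit 5) (nat_lit 33) (nat_lit 5) (nat_lit 27) (nat_lit 5) (nat_lit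 265) (nat_lit 255) (nat_lit 200)) (XT.nd (nat_lit 78) (nat_lit 0) (nat_lit 0) (XT.lf (nat_lit 0) (nat_lit 3420642605) (nat_lit 228) (nat_lit 9045694499) (nat_lit 304) (nat_lit 8602687769) (nat_lit 23) (nat_lit 5) (nat_lit 26) (nat_lit 5) (nat_lit 27) (nat_lit 5) (nat_lit 266) (nat_lit 255) (nat_lit 199)) (XT.lf (nat_lit 0) (nat_lit 13193958645) (nat_lit 228) (nat_lit 1938990803) (nat_lit 304) (nat_lit 6957025018) (nat_lit 23) (nat_lit 5) (nat_lit 26) (nat_lit 5) (nat_lit 27) (nat_lit 5) (nat_lit 267) (nat_lit 255) (nat_lit 198))))) (XT.nd (nat_lit 234) (nat_lit 456) (nat_lit 0) (XT.nd (nat_lit 78) (nat_lit 0) (nat_lit 0) (XT.lf (nat_lit 0) (nat_lit 421991159) (nat_lit 152) (nat_lit 17723473917) (nat_lit 228) (nat_lit 5036631380) (nat_lit 21) (nat_lit 5) (nat_lit 23) (nat_lit 5) (nat_lit 24) (nat_lit 5) (nat_lit 268) (nat_lit 255) (nat_lit 197)) (XT.nd (nat_lit 78) (nat_lit 0) (nat_lit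 0) (XT.lf (nat_lit 0) (nat_lit 10921094141) (nat_lit 152) (nat_lit 10755413035) (nat_lit 228) (nat_lit 2662973807) (nat_lit 21) (nat_lit 5) (nat_lit 23) (nat_lit 5) (nat_lit 24) (nat_lit 5) (nat_lit 269) (nat_lit 255) (nat_lit 196)) (XT.lf (nat_lit 0) (nat_lit 22244149975) (nat_lit 152) (nat_lit 3232182674) (nat_lit 228) (nat_lit 114307391) (nat_lit 21) (nat_lit 5) (nat_lit 23) (nat_lit 5) (nat_lit 24) (nat_lit 5) (nat_lit 270) (nat_lit 255) (nat_lit 195)))) (XT.nd (nat_lit 78) (nat_lit 152) (nat_lit 0) (XT.lf (nat_lit 0) (nat_lit 2806010070) (nat_lit 304) (nat_lit 19202440191) (nat_lit 76) (nat_lit 4904462102) (nat_lit 17) (nat_lit 5) (nat_lit 21) (nat_lit 5) (nat_lit 18) (nat_lit 5) (nat_lit 271) (nat_lit 255) (nat_lit 194)) (XT.nd (nat_lit 78) (nat_lit 152) (nat_lit 0) (XT.lf (nat_lit 0) (nat_lit 6119054598) (nat_lit 304) (nat_lit 8596802811) (nat_lit 76) (nat_lit 13611719038)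 (nat_lit 17) (nat_lit 5) (nat_lit 21) (nat_lit 5) (nat_lit 18) (nat_lit 5) (nat_lit 272) (nat_lit 255) (nat_lit 193)) (XT.lf (nat_lit 0) (nat_lit 2991987361) (nat_lit 152) (nat_lit 6765491283) (nat_lit 228) (nat_lit 20093172652) (nat_lit 15) (nat_lit 5) (nat_lit 17) (nat_lit 5) (nat_lit 18) (nat_lit 5) (nat_lit 273) (nat_lit 255) (nat_lit 192)))))) (XT.nd (nat_lit 468) (nat_lit 228) (nat_lit 0) (XT.nd (nat_lit 234) (nat_lit 152) (nat_lit 0) (XT.nd (nat_lit 78) (nat_lit 152) (nat_lit 0) (XT.lf (nat_lit 0) (nat_lit 13960731326) (nat_lit 228) (nat_lit 15545333004) (nat_lit 76) (nat_lit 1967667160) (nat_lit 15) (nat_lit 5) (nat_lit 18) (nat_lit 5) (nat_lit 16) (nat_lit 5) (nat_lit 274) (nat_lit 255) (nat_lit 191)) (XT.nd (nat_lit 78) (nat_lit 152) (nat_lit 0) (XT.lf (nat_lit 0) (nat_lit 18665605396) (nat_lit 228) (nat_lit 3516973319) (nat_lit 76) (nat_lit 11030905801) (nat_lit 15) (nat_lit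 5) (nat_lit 18) (nat_lit 5) (nat_lit 16) (nat_lit 5) (nat_lit 275) (nat_lit 255) (nat_lit 190)) (XT.lf (nat_lit 0) (nat_lit 9958572652) (nat_lit 152) (nat_lit 14018202621) (nat_lit 228) (nat_lit 11097301253) (nat_lit 13) (nat_lit 5) (nat_lit 15) (nat_lit 5) (nat_lit 16) (nat_lit 5) (nat_lit 276) (nat_lit 255) (nat_lit 189)))) (XT.nd (nat_lit 78) (nat_lit 152) (nat_lit 0) (XT.lf (nat_lit 0) (nat_lit 24699260526) (nat_lit 152) (nat_lit 5100540824) (nat_lit 228) (nat_lit 7276804959) (nat_lit 13) (nat_lit 5) (nat_lit 15) (nat_lit 5) (nat_lit 16) (nat_lit 5) (nat_lit 277) (nat_lit 255) (nat_lit 188)) (XT.nd (nat_lit 78) (nat_lit 76) (nat_lit 0) (XT.lf (nat_lit 0) (nat_lit 1324564674) (nat_lit 76) (nat_lit 34896320953) (nat_lit 152) (nat_lit 3007919466) (nat_lit 12) (nat_lit 5) (nat_lit 13) (nat_lit 5) (nat_lit 14) (nat_lit 4) (nat_lit 278) (nat_lit 255) (nat_lit 187)) (XT.lf (nat_lit 0)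 (nat_lit 1993494066) (nat_lit 152) (nat_lit 24892146690) (nat_lit 76) (nat_lit 14626799129) (nat_lit 11) (nat_lit 5) (nat_lit 13) (nat_lit 5) (nat_lit 12) (nat_lit 5) (nat_lit 279) (nat_lit 255) (nat_lit 186))))) (XT.nd (nat_lit 234) (nat_lit 76) (nat_lit 0) (XT.nd (nat_lit 78) (nat_lit 152) (nat_lit 0) (XT.lf (nat_lit 0) (nat_lit 7224634664) (nat_lit 152) (nat_lit 10929035194) (nat_lit 76) (nat_lit 25819510656) (nat_lit 11) (nat_lit 5) (nat_lit 13) (nat_lit 5) (nat_lit 12) (nat_lit 5) (nat_lit 280) (nat_lit 255) (nat_lit 185)) (XT.nd (nat_lit 78) (nat_lit 0) (nat_lit 0) (XT.lf (nat_lit 0) (nat_lit 4358193457) (nat_lit 152) (nat_lit 8613591193) (nat_lit 228) (nat_lit 33651226565) (nat_lit 9) (nat_lit 5) (nat_lit 11) (nat_lit 5) (nat_lit 12) (nat_lit 5) (nat_lit 281) (nat_lit 255) (nat_lit 184)) (XT.lf (nat_lit 0) (nat_lit 19518823973) (nat_lit 228) (nat_lit 28030549319) (nat_lit 76)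 (nat_lit 1908275575) (nat_lit 9) (nat_lit 5) (nat_lit 12) (nat_lit 5) (nat_lit 10) (nat_lit 4) (nat_lit 282) (nat_lit 255) (nat_lit 183)))) (XT.nd (nat_lit 78) (nat_lit 76) (nat_lit 0) (XT.lf (nat_lit 0) (nat_lit 26806781483) (nat_lit 228) (nat_lit 12891613570) (nat_lit 76) (nat_lit 12803317743) (nat_lit 9) (nat_lit 5) (nat_lit 12) (nat_lit 5) (nat_lit 10) (nat_lit 4) (nat_lit 283) (nat_lit 255) (nat_lit 182)) (XT.nd (nat_lit 78) (nat_lit 0) (nat_lit 0) (XT.lf (nat_lit 0) (nat_lit 3630469567) (nat_lit 76) (nat_lit 31128531317) (nat_lit 152) (nat_lit 21023828554) (nat_lit 8) (nat_lit 5) (nat_lit 9) (nat_lit 5) (nat_lit 10) (nat_lit 4) (nat_lit 284) (nat_lit 255) (nat_lit 181)) (XT.lf (nat_lit 0) (nat_lit 22198141068) (nat_lit 76) (nat_lit 21495875146) (nat_lit 152) (nat_lit 15604713447) (nat_lit 8) (nat_lit 5) (nat_lit 9) (nat_lit 5) (nat_lit 10) (nat_lit 4) (nat_lit 285) (nat_lit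 255) (nat_lit 180))))))))
noncomputable def xc78 : XT := (XT.nd (nat_lit 1794) (nat_lit 76) (nat_lit 0) (XT.nd (nat_lit 858) (nat_lit 152) (nat_lit 0) (XT.nd (nat_lit 390) (nat_lit 152) (nat_lit 0) (XT.nd (nat_lit 156) (nat_lit 152) (nat_lit 0) (XT.nd (nat_lit 78) (nat_lit 0) (nat_lit 0) (XT.lf (nat_lit 0) (nat_lit 42242582053) (nat_lit 76) (nat_lit 11095823695) (nat_lit 152) (nat_lit 9757952280) (nat_lit 8) (nat_lit 5) (nat_lit 9) (nat_lit 5) (nat_lit 10) (nat_lit 4) (nat_lit 286) (nat_lit 255) (nat_lit 179)) (XT.lf (nat_lit 0) (nat_lit 63752526161) (nat_lit 152) (nat_lit 3318849347) (nat_lit 0) (nat_lit 126587117) (nat_lit 8) (nat_lit 5) (nat_lit 10) (nat_lit 4) (nat_lit 8) (nat_lit 4) (nat_lit 287) (nat_lit 255) (nat_lit 178))) (XT.nd (nat_lit 78) (nat_lit 0) (nat_lit 0) (XT.lf (nat_lit 0) (nat_lit 3892223146) (nat_lit 152) (nat_lit 55542728294) (nat_lit 76) (nat_lit 12131167483)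 (nat_lit 6) (nat_lit 5) (nat_lit 8) (nat_lit 5) (nat_lit 7) (nat_lit 4) (nat_lit 288) (nat_lit 255) (nat_lit 177)) (XT.nd (nat_lit 78) (nat_lit 0) (nat_lit 0) (XT.lf (nat_lit 0) (nat_lit 11719166984) (nat_lit 152) (nat_lit 39274364182) (nat_lit 76) (nat_lit 25275980194) (nat_lit 6) (nat_lit 5) (nat_lit 8) (nat_lit 5) (nat_lit 7) (nat_lit 4) (nat_lit 289) (nat_lit 255) (nat_lit 176)) (XT.lf (nat_lit 0) (nat_lit 20167927743) (nat_lit 152) (nat_lit 21711755756) (nat_lit 76) (nat_lit 39469853728) (nat_lit 6) (nat_lit 5) (nat_lit 8) (nat_lit 5) (nat_lit 7) (nat_lit 4) (nat_lit 290) (nat_lit 255) (nat_lit 175))))) (XT.nd (nat_lit 234) (nat_lit 76) (nat_lit 0) (XT.nd (nat_lit 78) (nat_lit 76) (nat_lit 0) (XT.lf (nat_lit 0) (nat_lit 29288572155) (nat_lit 152) (nat_lit 2750828298) (nat_lit 76) (nat_lit 54796899927) (nat_lit 6) (nat_lit 5) (nat_lit 8) (nat_lit 5) (nat_lit 7) (nat_lit 4) (nat_lit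 291) (nat_lit 255) (nat_lit 174)) (XT.nd (nat_lit 78) (nat_lit 0) (nat_lit 0) (XT.lf (nat_lit 0) (nat_lit 18653924071) (nat_lit 76) (nat_lit 20929851734) (nat_lit 152) (nat_lit 53142648984) (nat_lit 5) (nat_lit 5) (nat_lit 6) (nat_lit 5) (nat_lit 7) (nat_lit 4) (nat_lit 292) (nat_lit 255) (nat_lit 173)) (XT.lf (nat_lit 0) (nat_lit 41921461373) (nat_lit 76) (nat_lit 8852757589) (nat_lit 152) (nat_lit 48307822197) (nat_lit 5) (nat_lit 5) (nat_lit 6) (nat_lit 5) (nat_lit 7) (nat_lit 4) (nat_lit 293) (nat_lit 255) (nat_lit 172)))) (XT.nd (nat_lit 78) (nat_lit 76) (nat_lit 0) (XT.lf (nat_lit 0) (nat_lit 62957301352) (nat_lit 152) (nat_lit 39002299346) (nat_lit 0) (nat_lit 3978724826) (nat_lit 5) (nat_lit 5) (nat_lit 7) (nat_lit 4) (nat_lit 5) (nat_lit 4) (nat_lit 294) (nat_lit 255) (nat_lit 171)) (XT.nd (nat_lit 78) (nat_lit 76) (nat_lit 0) (XT.lf (nat_lit 0) (nat_lit 76341844361) (nat_lit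 152) (nat_lit 19626680117) (nat_lit 0) (nat_lit 17356453211) (nat_lit 5) (nat_lit 5) (nat_lit 7) (nat_lit 4) (nat_lit 5) (nat_lit 4) (nat_lit 295) (nat_lit 255) (nat_lit 170)) (XT.lf (nat_lit 0) (nat_lit 1362145449) (nat_lit 76) (nat_lit 89464868951) (nat_lit 76) (nat_lit 30473167962) (nat_lit 4) (nat_lit 4) (nat_lit 5) (nat_lit 5) (nat_lit 5) (nat_lit 4) (nat_lit 296) (nat_lit 255) (nat_lit 169)))))) (XT.nd (nat_lit 468) (nat_lit 76) (nat_lit 0) (XT.nd (nat_lit 234) (nat_lit 76) (nat_lit 0) (XT.nd (nat_lit 78) (nat_lit 0) (nat_lit 0) (XT.lf (nat_lit 0) (nat_lit 25141406675) (nat_lit 76) (nat_lit 81863421248) (nat_lit 76) (nat_lit 22865877816) (nat_lit 4) (nat_lit 4) (nat_lit 5) (nat_lit 5) (nat_lit 5) (nat_lit 4) (nat_lit 297) (nat_lit 255) (nat_lit 168)) (XT.nd (nat_lit 78) (nat_lit 0) (nat_lit 0) (XT.lf (nat_lit 0) (nat_lit 50818511508) (nat_lit 76) (nat_lit 73655763970) (nat_lit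 76) (nat_lit 14652810870) (nat_lit 4) (nat_lit 4) (nat_lit 5) (nat_lit 5) (nat_lit 5) (nat_lit 4) (nat_lit 298) (nat_lit 255) (nat_lit 167)) (XT.lf (nat_lit 0) (nat_lit 78545620568) (nat_lit 76) (nat_lit 64793259148) (nat_lit 76) (nat_lit 5785297095) (nat_lit 4) (nat_lit 4) (nat_lit 5) (nat_lit 5) (nat_lit 5) (nat_lit 4) (nat_lit 299) (nat_lit 255) (nat_lit 166)))) (XT.nd (nat_lit 78) (nat_lit 0) (nat_lit 0) (XT.lf (nat_lit 0) (nat_lit 3599660018) (nat_lit 152) (nat_lit 51525307132) (nat_lit 76) (nat_lit 104788961548) (nat_lit 3) (nat_lit 5) (nat_lit 5) (nat_lit 5) (nat_lit 4) (nat_lit 4) (nat_lit 300) (nat_lit 255) (nat_lit 165)) (XT.nd (nat_lit 78) (nat_lit 0) (nat_lit 0) (XT.lf (nat_lit 0) (nat_lit 13420741017) (nat_lit 152) (nat_lit 31101753025) (nat_lit 76) (nat_lit 127032520546) (nat_lit 3) (nat_lit 5) (nat_lit 5) (nat_lit 5) (nat_lit 4) (nat_lit 4) (nat_lit 301) (nat_lit 255)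 (nat_lit 164)) (XT.lf (nat_lit 0) (nat_lit 24025548890) (nat_lit 152) (nat_lit 9047728918) (nat_lit 76) (nat_lit 151054271804) (nat_lit 3) (nat_lit 5) (nat_lit 5) (nat_lit 5) (nat_lit 4) (nat_lit 4) (nat_lit 302) (nat_lit 255) (nat_lit 163))))) (XT.nd (nat_lit 234) (nat_lit 0) (nat_lit 0) (XT.nd (nat_lit 78) (nat_lit 0) (nat_lit 0) (XT.lf (nat_lit 0) (nat_lit 15545083747) (nat_lit 76) (nat_lit 20305702833) (nat_lit 152) (nat_lit 161825342334) (nat_lit 2) (nat_lit 5) (nat_lit 3) (nat_lit 5) (nat_lit 4) (nat_lit 4) (nat_lit 303) (nat_lit 255) (nat_lit 162)) (XT.nd (nat_lit 78) (nat_lit 0) (nat_lit 0) (XT.lf (nat_lit 0) (nat_lit 42616792407) (nat_lit 76) (nat_lit 6250877668) (nat_lit 152) (nat_lit 163421279053) (nat_lit 2) (nat_lit 5) (nat_lit 3) (nat_lit 5) (nat_lit 4) (nat_lit 4) (nat_lit 304) (nat_lit 255) (nat_lit 161)) (XT.lf (nat_lit 0) (nat_lit 63138977113) (nat_lit 152) (nat_lit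 156434241711) (nat_lit 0) (nat_lit 8480534669) (nat_lit 2) (nat_lit 5) (nat_lit 4) (nat_lit 4) (nat_lit 2) (nat_lit 4) (nat_lit 305) (nat_lit 255) (nat_lit 160)))) (XT.nd (nat_lit 78) (nat_lit 0) (nat_lit 0) (XT.lf (nat_lit 0) (nat_lit 78712817903) (nat_lit 152) (nat_lit 142302392732) (nat_lit 0) (nat_lit 24051669278) (nat_lit 2) (nat_lit 5) (nat_lit 4) (nat_lit 4) (nat_lit 2) (nat_lit 4) (nat_lit 306) (nat_lit 255) (nat_lit 159)) (XT.nd (nat_lit 78) (nat_lit 0) (nat_lit 0) (XT.lf (nat_lit 0) (nat_lit 95531148114) (nat_lit 152) (nat_lit 127042531736) (nat_lit 0) (nat_lit 40867493765) (nat_lit 2) (nat_lit 5) (nat_lit 4) (nat_lit 4) (nat_lit 2) (nat_lit 4) (nat_lit 307) (nat_lit 255) (nat_lit 158)) (XT.lf (nat_lit 0) (nat_lit 113693631924) (nat_lit 152) (nat_lit 110564229917) (nat_lit 0) (nat_lit 59027657461) (nat_lit 2) (nat_lit 5) (nat_lit 4) (nat_lit 4) (nat_lit 2) (nat_lit 4) (nat_lit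 308) (nat_lit 255) (nat_lit 157))))))) (XT.nd (nat_lit 936) (nat_lit 0) (nat_lit 0) (XT.nd (nat_lit 468) (nat_lit 0) (nat_lit 0) (XT.nd (nat_lit 234) (nat_lit 76) (nat_lit 0) (XT.nd (nat_lit 78) (nat_lit 0) (nat_lit 0) (XT.lf (nat_lit 0) (nat_lit 133307898867) (nat_lit 152) (nat_lit 92769838079) (nat_lit 0) (nat_lit 78639776151) (nat_lit 2) (nat_lit 5) (nat_lit 4) (nat_lit 4) (nat_lit 2) (nat_lit 4) (nat_lit 309) (nat_lit 255) (nat_lit 156)) (XT.nd (nat_lit 78) (nat_lit 0) (nat_lit 0) (XT.lf (nat_lit 0) (nat_lit 154490181637) (nat_lit 152) (nat_lit 73553907974) (nat_lit 0) (nat_lit 99820069796) (nat_lit 2) (nat_lit 5) (nat_lit 4) (nat_lit 4) (nat_lit 2) (nat_lit 4) (nat_lit 310) (nat_lit 255) (nat_lit 155)) (XT.lf (nat_lit 0) (nat_lit 177366004872) (nat_lit 152) (nat_lit 52802567424) (nat_lit 0) (nat_lit 122694051250) (nat_lit 2) (nat_lit 5) (nat_lit 4) (nat_lit 4) (nat_lit 2) (nat_lit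 4) (nat_lit 311) (nat_lit 255) (nat_lit 154)))) (XT.nd (nat_lit 78) (nat_lit 76) (nat_lit 0) (XT.lf (nat_lit 0) (nat_lit 202070929006) (nat_lit 152) (nat_lit 30392845521) (nat_lit 0) (nat_lit 147397270030) (nat_lit 2) (nat_lit 5) (nat_lit 4) (nat_lit 4) (nat_lit 2) (nat_lit 4) (nat_lit 312) (nat_lit 255) (nat_lit 153)) (XT.nd (nat_lit 78) (nat_lit 76) (nat_lit 0) (XT.lf (nat_lit 0) (nat_lit 228751353589) (nat_lit 152) (nat_lit 6191943914) (nat_lit 0) (nat_lit 174076115582) (nat_lit 2) (nat_lit 5) (nat_lit 4) (nat_lit 4) (nat_lit 2) (nat_lit 4) (nat_lit 313) (nat_lit 255) (nat_lit 152)) (XT.lf (nat_lit 0) (nat_lit 20993742154) (nat_lit 76) (nat_lit 237076542690) (nat_lit 76) (nat_lit 182399842618) (nat_lit 1) (nat_lit 4) (nat_lit 2) (nat_lit 5) (nat_lit 2) (nat_lit 4) (nat_lit 314) (nat_lit 255) (nat_lit 151))))) (XT.nd (nat_lit 234) (nat_lit 0) (nat_lit 0) (XT.nd (nat_lit 78) (nat_lit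 0) (nat_lit 0) (XT.lf (nat_lit 0) (nat_lit 50704982232) (nat_lit 76) (nat_lit 239198246386) (nat_lit 76) (nat_lit 184520192550) (nat_lit 1) (nat_lit 4) (nat_lit 2) (nat_lit 5) (nat_lit 2) (nat_lit 4) (nat_lit 315) (nat_lit 255) (nat_lit 150)) (XT.nd (nat_lit 78) (nat_lit 0) (nat_lit 0) (XT.lf (nat_lit 0) (nat_lit 82791786133) (nat_lit 76) (nat_lit 241490280371) (nat_lit 76) (nat_lit 186810973049) (nat_lit 1) (nat_lit 4) (nat_lit 2) (nat_lit 5) (nat_lit 2) (nat_lit 4) (nat_lit 316) (nat_lit 255) (nat_lit 149)) (XT.lf (nat_lit 0) (nat_lit 117444297880) (nat_lit 76) (nat_lit 243966227069) (nat_lit 76) (nat_lit 189285759112) (nat_lit 1) (nat_lit 4) (nat_lit 2) (nat_lit 5) (nat_lit 2) (nat_lit 4) (nat_lit 317) (nat_lit 255) (nat_lit 148)))) (XT.nd (nat_lit 78) (nat_lit 0) (nat_lit 0) (XT.lf (nat_lit 0) (nat_lit 154867865691) (nat_lit 76) (nat_lit 246640758755) (nat_lit 76) (nat_lit 191959216137)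 (nat_lit 1) (nat_lit 4) (nat_lit 2) (nat_lit 5) (nat_lit 2) (nat_lit 4) (nat_lit 318) (nat_lit 255) (nat_lit 147)) (XT.nd (nat_lit 78) (nat_lit 0) (nat_lit 0) (XT.lf (nat_lit 0) (nat_lit 195284258856) (nat_lit 76) (nat_lit 249529724507) (nat_lit 76) (nat_lit 194847186832) (nat_lit 1) (nat_lit 4) (nat_lit 2) (nat_lit 5) (nat_lit 2) (nat_lit 4) (nat_lit 319) (nat_lit 255) (nat_lit 146)) (XT.lf (nat_lit 0) (nat_lit 238932981928) (nat_lit 76) (nat_lit 252650244122) (nat_lit 76) (nat_lit 197966785097) (nat_lit 1) (nat_lit 4) (nat_lit 2) (nat_lit 5) (nat_lit 2) (nat_lit 4) (nat_lit 320) (nat_lit 255) (nat_lit 145)))))) (XT.nd (nat_lit 468) (nat_lit 0) (nat_lit 0) (XT.nd (nat_lit 234) (nat_lit 0) (nat_lit 0) (XT.nd (nat_lit 78) (nat_lit 0) (nat_lit 0) (XT.lf (nat_lit 0) (nat_lit 286072694007) (nat_lit 76) (nat_lit 256020809568) (nat_lit 76) (nat_lit 201336497441) (nat_lit 1) (nat_lit 4)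 (nat_lit 2) (nat_lit 5) (nat_lit 2) (nat_lit 4) (nat_lit 321) (nat_lit 255) (nat_lit 144)) (XT.nd (nat_lit 78) (nat_lit 0) (nat_lit 0) (XT.lf (nat_lit 0) (nat_lit 336982741534) (nat_lit 76) (nat_lit 259661394565) (nat_lit 76) (nat_lit 204976292530) (nat_lit 1) (nat_lit 4) (nat_lit 2) (nat_lit 5) (nat_lit 2) (nat_lit 4) (nat_lit 322) (nat_lit 255) (nat_lit 143)) (XT.lf (nat_lit 0) (nat_lit 391964813680) (nat_lit 76) (nat_lit 263593572952) (nat_lit 76) (nat_lit 208907739520) (nat_lit 1) (nat_lit 4) (nat_lit 2) (nat_lit 5) (nat_lit 2) (nat_lit 4) (nat_lit 323) (nat_lit 255) (nat_lit 142)))) (XT.nd (nat_lit 78) (nat_lit 0) (nat_lit 0) (XT.lf (nat_lit 0) (nat_lit 451344730131) (nat_lit 76) (nat_lit 267840646525) (nat_lit 76) (nat_lit 213154135874) (nat_lit 1) (nat_lit 4) (nat_lit 2) (nat_lit 5) (nat_lit 2) (nat_lit 4) (nat_lit 324) (nat_lit 255) (nat_lit 141)) (XT.nd (nat_lit 78) (nat_lit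 0) (nat_lit 0) (XT.lf (nat_lit 0) (nat_lit 515474371875) (nat_lit 76) (nat_lit 272427783128) (nat_lit 76) (nat_lit 217740645422) (nat_lit 1) (nat_lit 4) (nat_lit 2) (nat_lit 5) (nat_lit 2) (nat_lit 4) (nat_lit 325) (nat_lit 255) (nat_lit 140)) (XT.lf (nat_lit 0) (nat_lit 584733766417) (nat_lit 76) (nat_lit 277382165794) (nat_lit 76) (nat_lit 222694447481) (nat_lit 1) (nat_lit 4) (nat_lit 2) (nat_lit 5) (nat_lit 2) (nat_lit 4) (nat_lit 326) (nat_lit 255) (nat_lit 139))))) (XT.nd (nat_lit 234) (nat_lit 0) (nat_lit 0) (XT.nd (nat_lit 78) (nat_lit 0) (nat_lit 0) (XT.lf (nat_lit 0) (nat_lit 659533339799) (nat_lit 76) (nat_lit 282733153825) (nat_lit 76) (nat_lit 228044897915) (nat_lit 1) (nat_lit 4) (nat_lit 2) (nat_lit 5) (nat_lit 2) (nat_lit 4) (nat_lit 327) (nat_lit 255) (nat_lit 138)) (XT.nd (nat_lit 78) (nat_lit 0) (nat_lit 0) (XT.lf (nat_lit 0) (nat_lit 740316348753) (nat_lit 76)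 (nat_lit 288512456783) (nat_lit 76) (nat_lit 233823703096) (nat_lit 1) (nat_lit 4) (nat_lit 2) (nat_lit 5) (nat_lit 2) (nat_lit 4) (nat_lit 328) (nat_lit 255) (nat_lit 137)) (XT.lf (nat_lit 0) (nat_lit 827561507406) (nat_lit 76) (nat_lit 294754322386) (nat_lit 76) (nat_lit 240065107795) (nat_lit 1) (nat_lit 4) (nat_lit 2) (nat_lit 5) (nat_lit 2) (nat_lit 4) (nat_lit 329) (nat_lit 255) (nat_lit 136)))) (XT.nd (nat_lit 78) (nat_lit 0) (nat_lit 0) (XT.lf (nat_lit 0) (nat_lit 921785824105) (nat_lit 76) (nat_lit 301495739470) (nat_lit 76) (nat_lit 246806098116) (nat_lit 1) (nat_lit 4) (nat_lit 2) (nat_lit 5) (nat_lit 2) (nat_lit 4) (nat_lit 330) (nat_lit 255) (nat_lit 135)) (XT.nd (nat_lit 78) (nat_lit 0) (nat_lit 0) (XT.lf (nat_lit 0) (nat_lit 1023547665172) (nat_lit 76) (nat_lit 308776657172) (nat_lit 76) (nat_lit 254086620666) (nat_lit 1) (nat_lit 4) (nat_lit 2) (nat_lit 5) (nat_lit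 2) (nat_lit 4) (nat_lit 331) (nat_lit 255) (nat_lit 134)) (XT.lf (nat_lit 0) (nat_lit 1133450063738) (nat_lit 76) (nat_lit 316640221670) (nat_lit 76) (nat_lit 261949819285) (nat_lit 1) (nat_lit 4) (nat_lit 2) (nat_lit 5) (nat_lit 2) (nat_lit 4) (nat_lit 332) (nat_lit 255) (nat_lit 133))))))))
noncomputable def xc79 : XT := (XT.nd (nat_lit 33306) (nat_lit 0) (nat_lit 152) (XT.nd (nat_lit 32370) (nat_lit 0) (nat_lit 912) (XT.nd (nat_lit 31902) (nat_lit 0) (nat_lit 1900) (XT.nd (nat_lit 31668) (nat_lit 0) (nat_lit 2204) (XT.nd (nat_lit 31512) (nat_lit 0) (nat_lit 2128) (XT.lf (nat_lit 0) (nat_lit 1252144293277) (nat_lit 76) (nat_lit 325133031866) (nat_lit 76) (nat_lit 270442290703) (nat_lit 1) (nat_lit 4) (nat_lit 2) (nat_lit 5) (nat_lit 2) (nat_lit 4) (nat_lit 333) (nat_lit 255) (nat_lit 132)) (XT.nd (nat_lit 78) (nat_lit 532) (nat_lit 0) (XT.lf (nat_lit 0) (nat_lit 3565430121) (nat_lit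 0) (nat_lit 3565430121) (nat_lit 380) (nat_lit 30591099) (nat_lit 36) (nat_lit 5) (nat_lit 36) (nat_lit 3) (nat_lit 41) (nat_lit 3) (nat_lit 256) (nat_lit 256) (nat_lit 208)) (XT.lf (nat_lit 0) (nat_lit 227037464) (nat_lit 532) (nat_lit 1371939600) (nat_lit 532) (nat_lit 13271919931) (nat_lit 29) (nat_lit 3) (nat_lit 36) (nat_lit 3) (nat_lit 36) (nat_lit 5) (nat_lit 257) (nat_lit 256) (nat_lit 207)))) (XT.nd (nat_lit 78) (nat_lit 0) (nat_lit 0) (XT.lf (nat_lit 0) (nat_lit 739016978) (nat_lit 456) (nat_lit 10409607008) (nat_lit 532) (nat_lit 4297863766) (nat_lit 30) (nat_lit 5) (nat_lit 36) (nat_lit 5) (nat_lit 37) (nat_lit 5) (nat_lit 258) (nat_lit 256) (nat_lit 206)) (XT.nd (nat_lit 78) (nat_lit 0) (nat_lit 76) (XT.lf (nat_lit 0) (nat_lit 1345256967) (nat_lit 456) (nat_lit 4089071222) (nat_lit 532) (nat_lit 10629722900) (nat_lit 30) (nat_lit 5) (nat_lit 36) (nat_lit 5) (nat_lit 37)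 (nat_lit 5) (nat_lit 259) (nat_lit 256) (nat_lit 205)) (XT.lf (nat_lit 0) (nat_lit 2063848161) (nat_lit 456) (nat_lit 13883556569) (nat_lit 532) (nat_lit 778682056) (nat_lit 31) (nat_lit 5) (nat_lit 37) (nat_lit 5) (nat_lit 38) (nat_lit 5) (nat_lit 260) (nat_lit 256) (nat_lit 204))))) (XT.nd (nat_lit 234) (nat_lit 380) (nat_lit 0) (XT.nd (nat_lit 78) (nat_lit 0) (nat_lit 0) (XT.lf (nat_lit 0) (nat_lit 3072664782) (nat_lit 456) (nat_lit 7033313398) (nat_lit 532) (nat_lit 7316650566) (nat_lit 31) (nat_lit 5) (nat_lit 37) (nat_lit 5) (nat_lit 38) (nat_lit 5) (nat_lit 261) (nat_lit 256) (nat_lit 203)) (XT.nd (nat_lit 78) (nat_lit 0) (nat_lit 76) (XT.lf (nat_lit 76) (nat_lit 366304960) (nat_lit 0) (nat_lit 3783284319) (nat_lit 532) (nat_lit 14026463002) (nat_lit 32) (nat_lit 5) (nat_lit 31) (nat_lit 5) (nat_lit 38) (nat_lit 5) (nat_lit 262) (nat_lit 256) (nat_lit 202)) (XT.lf (nat_lit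 0) (nat_lit 5563072985) (nat_lit 456) (nat_lit 10313098583) (nat_lit 76) (nat_lit 3093684991) (nat_lit 32) (nat_lit 5) (nat_lit 38) (nat_lit 5) (nat_lit 33) (nat_lit 5) (nat_lit 263) (nat_lit 256) (nat_lit 201)))) (XT.nd (nat_lit 78) (nat_lit 456) (nat_lit 0) (XT.lf (nat_lit 0) (nat_lit 7169263041) (nat_lit 456) (nat_lit 2332007361) (nat_lit 76) (nat_lit 10319653530) (nat_lit 32) (nat_lit 5) (nat_lit 38) (nat_lit 5) (nat_lit 33) (nat_lit 5) (nat_lit 264) (nat_lit 256) (nat_lit 200)) (XT.nd (nat_lit 78) (nat_lit 0) (nat_lit 0) (XT.lf (nat_lit 0) (nat_lit 6602072169) (nat_lit 456) (nat_lit 2443397356) (nat_lit 532) (nat_lit 11683404881) (nat_lit 26) (nat_lit 5) (nat_lit 32) (nat_lit 5) (nat_lit 33) (nat_lit 5) (nat_lit 265) (nat_lit 256) (nat_lit 199)) (XT.lf (nat_lit 0) (nat_lit 11245421432) (nat_lit 532) (nat_lit 5463877036) (nat_lit 76) (nat_lit 4986381103) (nat_lit 26) (nat_lit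 5) (nat_lit 33) (nat_lit 5) (nat_lit 27) (nat_lit 5) (nat_lit 266) (nat_lit 256) (nat_lit 198)))))) (XT.nd (nat_lit 468) (nat_lit 304) (nat_lit 0) (XT.nd (nat_lit 234) (nat_lit 304) (nat_lit 0) (XT.nd (nat_lit 78) (nat_lit 152) (nat_lit 0) (XT.lf (nat_lit 0) (nat_lit 4013846296) (nat_lit 228) (nat_lit 9752404440) (nat_lit 304) (nat_lit 8962090291) (nat_lit 23) (nat_lit 5) (nat_lit 26) (nat_lit 5) (nat_lit 27) (nat_lit 5) (nat_lit 267) (nat_lit 256) (nat_lit 197)) (XT.nd (nat_lit 78) (nat_lit 152) (nat_lit 0) (XT.lf (nat_lit 0) (nat_lit 14545357079) (nat_lit 228) (nat_lit 2078419679) (nat_lit 304) (nat_lit 7209131001) (nat_lit 23) (nat_lit 5) (nat_lit 26) (nat_lit 5) (nat_lit 27) (nat_lit 5) (nat_lit 268) (nat_lit 256) (nat_lit 196)) (XT.lf (nat_lit 0) (nat_lit 767424086) (nat_lit 152) (nat_lit 19096959797) (nat_lit 228) (nat_lit 5149185397) (nat_lit 21) (nat_lit 5) (nat_lit 23) (nat_lit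 5) (nat_lit 24) (nat_lit 5) (nat_lit 269) (nat_lit 256) (nat_lit 195)))) (XT.nd (nat_lit 78) (nat_lit 304) (nat_lit 0) (XT.lf (nat_lit 0) (nat_lit 12083368370) (nat_lit 152) (nat_lit 11574742343) (nat_lit 228) (nat_lit 2607144588) (nat_lit 21) (nat_lit 5) (nat_lit 23) (nat_lit 5) (nat_lit 24) (nat_lit 5) (nat_lit 270) (nat_lit 256) (nat_lit 194)) (XT.nd (nat_lit 78) (nat_lit 228) (nat_lit 0) (XT.lf (nat_lit 0) (nat_lit 119221087) (nat_lit 228) (nat_lit 3330217471) (nat_lit 76) (nat_lit 24168411075) (nat_lit 20) (nat_lit 5) (nat_lit 23) (nat_lit 5) (nat_lit 21) (nat_lit 5) (nat_lit 271) (nat_lit 256) (nat_lit 193)) (XT.lf (nat_lit 0) (nat_lit 3257220161) (nat_lit 304) (nat_lit 20446585774) (nat_lit 76) (nat_lit 5342742434) (nat_lit 17) (nat_lit 5) (nat_lit 21) (nat_lit 5) (nat_lit 18) (nat_lit 5) (nat_lit 272) (nat_lit 256) (nat_lit 192))))) (XT.nd (nat_lit 234) (nat_lit 152) (nat_lit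 0) (XT.nd (nat_lit 78) (nat_lit 152) (nat_lit 0) (XT.lf (nat_lit 0) (nat_lit 6818513490) (nat_lit 304) (nat_lit 9014130710) (nat_lit 76) (nat_lit 14743178194) (nat_lit 17) (nat_lit 5) (nat_lit 21) (nat_lit 5) (nat_lit 18) (nat_lit 5) (nat_lit 273) (nat_lit 256) (nat_lit 191)) (XT.nd (nat_lit 78) (nat_lit 0) (nat_lit 0) (XT.lf (nat_lit 0) (nat_lit 3494916693) (nat_lit 152) (nat_lit 7243882933) (nat_lit 228) (nat_lit 21482766877) (nat_lit 15) (nat_lit 5) (nat_lit 17) (nat_lit 5) (nat_lit 18) (nat_lit 5) (nat_lit 274) (nat_lit 256) (nat_lit 190)) (XT.lf (nat_lit 0) (nat_lit 15264843701) (nat_lit 228) (nat_lit 16530445059) (nat_lit 76) (nat_lit 2180361790) (nat_lit 15) (nat_lit 5) (nat_lit 18) (nat_lit 5) (nat_lit 16) (nat_lit 5) (nat_lit 275) (nat_lit 256) (nat_lit 189)))) (XT.nd (nat_lit 78) (nat_lit 152) (nat_lit 0) (XT.lf (nat_lit 0) (nat_lit 20332237040) (nat_lit 228) (nat_lit 3558965828)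 (nat_lit 76) (nat_lit 11964564615) (nat_lit 15) (nat_lit 5) (nat_lit 18) (nat_lit 5) (nat_lit 16) (nat_lit 5) (nat_lit 276) (nat_lit 256) (nat_lit 188)) (XT.nd (nat_lit 78) (nat_lit 0) (nat_lit 0) (XT.lf (nat_lit 0) (nat_lit 10988563939) (nat_lit 152) (nat_lit 15072504370) (nat_lit 228) (nat_lit 11804785650) (nat_lit 13) (nat_lit 5) (nat_lit 15) (nat_lit 5) (nat_lit 16) (nat_lit 5) (nat_lit 277) (nat_lit 256) (nat_lit 187)) (XT.lf (nat_lit 0) (nat_lit 26891224955) (nat_lit 152) (nat_lit 5446404034) (nat_lit 228) (nat_lit 7692005185) (nat_lit 13) (nat_lit 5) (nat_lit 15) (nat_lit 5) (nat_lit 16) (nat_lit 5) (nat_lit 278) (nat_lit 256) (nat_lit 186))))))) (XT.nd (nat_lit 936) (nat_lit 228) (nat_lit 0) (XT.nd (nat_lit 468) (nat_lit 228) (nat_lit 0) (XT.nd (nat_lit 234) (nat_lit 152) (nat_lit 0) (XT.nd (nat_lit 78) (nat_lit 76) (nat_lit 0) (XT.lf (nat_lit 0) (nat_lit 1652395888) (nat_lit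 76) (nat_lit 37615328845) (nat_lit 152) (nat_lit 3086716901) (nat_lit 12) (nat_lit 5) (nat_lit 13) (nat_lit 5) (nat_lit 14) (nat_lit 4) (nat_lit 279) (nat_lit 256) (nat_lit 185)) (XT.nd (nat_lit 78) (nat_lit 0) (nat_lit 0) (XT.lf (nat_lit 0) (nat_lit 2295325836) (nat_lit 152) (nat_lit 26669961256) (nat_lit 76) (nat_lit 15856130172) (nat_lit 11) (nat_lit 5) (nat_lit 13) (nat_lit 5) (nat_lit 12) (nat_lit 5) (nat_lit 280) (nat_lit 256) (nat_lit 184)) (XT.lf (nat_lit 0) (nat_lit 7934413071) (nat_lit 152) (nat_lit 11605619889) (nat_lit 76) (nat_lit 27939874390) (nat_lit 11) (nat_lit 5) (nat_lit 13) (nat_lit 5) (nat_lit 12) (nat_lit 5) (nat_lit 281) (nat_lit 256) (nat_lit 183)))) (XT.nd (nat_lit 78) (nat_lit 0) (nat_lit 0) (XT.lf (nat_lit 0) (nat_lit 4899581025) (nat_lit 152) (nat_lit 9236625714) (nat_lit 228) (nat_lit 36205971219) (nat_lit 9) (nat_lit 5) (nat_lit 11) (nat_lit 5) (nat_lit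 12) (nat_lit 5) (nat_lit 282) (nat_lit 256) (nat_lit 182)) (XT.nd (nat_lit 78) (nat_lit 0) (nat_lit 0) (XT.lf (nat_lit 0) (nat_lit 21199096453) (nat_lit 228) (nat_lit 30086125047) (nat_lit 76) (nat_lit 2119038128) (nat_lit 9) (nat_lit 5) (nat_lit 12) (nat_lit 5) (nat_lit 10) (nat_lit 4) (nat_lit 283) (nat_lit 256) (nat_lit 181)) (XT.lf (nat_lit 0) (nat_lit 29061293041) (nat_lit 228) (nat_lit 13749916528) (nat_lit 76) (nat_lit 13881379929) (nat_lit 9) (nat_lit 5) (nat_lit 12) (nat_lit 5) (nat_lit 10) (nat_lit 4) (nat_lit 284) (nat_lit 256) (nat_lit 180))))) (XT.nd (nat_lit 234) (nat_lit 152) (nat_lit 0) (XT.nd (nat_lit 78) (nat_lit 0) (nat_lit 0) (XT.lf (nat_lit 0) (nat_lit 4089552851) (nat_lit 76) (nat_lit 33556047221) (nat_lit 152) (nat_lit 22590956873) (nat_lit 8) (nat_lit 5) (nat_lit 9) (nat_lit 5) (nat_lit 10) (nat_lit 4) (nat_lit 285) (nat_lit 256) (nat_lit 179)) (XT.nd (nat_lit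 78) (nat_lit 0) (nat_lit 0) (XT.lf (nat_lit 0) (nat_lit 24130145797) (nat_lit 76) (nat_lit 23157427934) (nat_lit 152) (nat_lit 16746814629) (nat_lit 8) (nat_lit 5) (nat_lit 9) (nat_lit 5) (nat_lit 10) (nat_lit 4) (nat_lit 286) (nat_lit 256) (nat_lit 178)) (XT.lf (nat_lit 0) (nat_lit 45766575139) (nat_lit 76) (nat_lit 11929677347) (nat_lit 152) (nat_lit 10440184858) (nat_lit 8) (nat_lit 5) (nat_lit 9) (nat_lit 5) (nat_lit 10) (nat_lit 4) (nat_lit 287) (nat_lit 256) (nat_lit 177)))) (XT.nd (nat_lit 78) (nat_lit 152) (nat_lit 0) (XT.lf (nat_lit 0) (nat_lit 68937976831) (nat_lit 152) (nat_lit 3444615014) (nat_lit 0) (nat_lit 184047732) (nat_lit 8) (nat_lit 5) (nat_lit 10) (nat_lit 4) (nat_lit 8) (nat_lit 4) (nat_lit 288) (nat_lit 256) (nat_lit 176)) (XT.nd (nat_lit 78) (nat_lit 0) (nat_lit 0) (XT.lf (nat_lit 0) (nat_lit 4288245119) (nat_lit 152) (nat_lit 59845193204) (nat_lit 76) (nat_lit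 13150906942) (nat_lit 6) (nat_lit 5) (nat_lit 8) (nat_lit 5) (nat_lit 7) (nat_lit 4) (nat_lit 289) (nat_lit 256) (nat_lit 175)) (XT.lf (nat_lit 0) (nat_lit 12735074528) (nat_lit 152) (nat_lit 42285800952) (nat_lit 76) (nat_lit 27343656814) (nat_lit 6) (nat_lit 5) (nat_lit 8) (nat_lit 5) (nat_lit 7) (nat_lit 4) (nat_lit 290) (nat_lit 256) (nat_lit 174)))))) (XT.nd (nat_lit 468) (nat_lit 152) (nat_lit 0) (XT.nd (nat_lit 234) (nat_lit 0) (nat_lit 0) (XT.nd (nat_lit 78) (nat_lit 76) (nat_lit 0) (XT.lf (nat_lit 0) (nat_lit 21853930653) (nat_lit 152) (nat_lit 23327851435) (nat_lit 76) (nat_lit 42669662585) (nat_lit 6) (nat_lit 5) (nat_lit 8) (nat_lit 5) (nat_lit 7) (nat_lit 4) (nat_lit 291) (nat_lit 256) (nat_lit 173)) (XT.nd (nat_lit 78) (nat_lit 76) (nat_lit 0) (XT.lf (nat_lit 0) (nat_lit 31698851160) (nat_lit 152) (nat_lit 2859001246) (nat_lit 76) (nat_lit 59219745032) (nat_lit 6) (nat_lit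 5) (nat_lit 8) (nat_lit 5) (nat_lit 7) (nat_lit 4) (nat_lit 292) (nat_lit 256) (nat_lit 172)) (XT.lf (nat_lit 0) (nat_lit 20255298571) (nat_lit 76) (nat_lit 22560018163) (nat_lit 152) (nat_lit 57323820562) (nat_lit 5) (nat_lit 5) (nat_lit 6) (nat_lit 5) (nat_lit 7) (nat_lit 4) (nat_lit 293) (nat_lit 256) (nat_lit 171)))) (XT.nd (nat_lit 78) (nat_lit 0) (nat_lit 0) (XT.lf (nat_lit 0) (nat_lit 45376160296) (nat_lit 76) (nat_lit 9520032169) (nat_lit 152) (nat_lit 52107410621) (nat_lit 5) (nat_lit 5) (nat_lit 6) (nat_lit 5) (nat_lit 7) (nat_lit 4) (nat_lit 294) (nat_lit 256) (nat_lit 170)) (XT.nd (nat_lit 78) (nat_lit 0) (nat_lit 0) (XT.lf (nat_lit 0) (nat_lit 68050386144) (nat_lit 152) (nat_lit 42025262344) (nat_lit 0) (nat_lit 4333039239) (nat_lit 5) (nat_lit 5) (nat_lit 7) (nat_lit 4) (nat_lit 5) (nat_lit 4) (nat_lit 295) (nat_lit 256) (nat_lit 169)) (XT.lf (nat_lit 0) (nat_lit 82501507359)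 (nat_lit 152) (nat_lit 21106795128) (nat_lit 0) (nat_lit 18778318011) (nat_lit 5) (nat_lit 5) (nat_lit 7) (nat_lit 4) (nat_lit 5) (nat_lit 4) (nat_lit 296) (nat_lit 256) (nat_lit 168))))) (XT.nd (nat_lit 234) (nat_lit 76) (nat_lit 0) (XT.nd (nat_lit 78) (nat_lit 0) (nat_lit 0) (XT.lf (nat_lit 0) (nat_lit 1558857510) (nat_lit 76) (nat_lit 96584868430) (nat_lit 76) (nat_lit 32856269413) (nat_lit 4) (nat_lit 4) (nat_lit 5) (nat_lit 5) (nat_lit 5) (nat_lit 4) (nat_lit 297) (nat_lit 256) (nat_lit 167)) (XT.nd (nat_lit 78) (nat_lit 0) (nat_lit 0) (XT.lf (nat_lit 0) (nat_lit 27233960344) (nat_lit 76) (nat_lit 88378059729) (nat_lit 76) (nat_lit 24644451759) (nat_lit 4) (nat_lit 4) (nat_lit 5) (nat_lit 5) (nat_lit 5) (nat_lit 4) (nat_lit 298) (nat_lit 256) (nat_lit 166)) (XT.lf (nat_lit 0) (nat_lit 54959215701) (nat_lit 76) (nat_lit 79516340626) (nat_lit 76) (nat_lit 15778094736) (nat_lit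 4) (nat_lit 4) (nat_lit 5) (nat_lit 5) (nat_lit 5) (nat_lit 4) (nat_lit 299) (nat_lit 256) (nat_lit 165)))) (XT.nd (nat_lit 78) (nat_lit 76) (nat_lit 0) (XT.lf (nat_lit 0) (nat_lit 84898921393) (nat_lit 76) (nat_lit 69947197230) (nat_lit 76) (nat_lit 6204656971) (nat_lit 4) (nat_lit 4) (nat_lit 5) (nat_lit 5) (nat_lit 5) (nat_lit 4) (nat_lit 300) (nat_lit 256) (nat_lit 164)) (XT.nd (nat_lit 78) (nat_lit 0) (nat_lit 0) (XT.lf (nat_lit 0) (nat_lit 3925863979) (nat_lit 152) (nat_lit 55580719449) (nat_lit 76) (nat_lit 113197293838) (nat_lit 3) (nat_lit 5) (nat_lit 5) (nat_lit 5) (nat_lit 4) (nat_lit 4) (nat_lit 301) (nat_lit 256) (nat_lit 163)) (XT.lf (nat_lit 0) (nat_lit 14529799520) (nat_lit 152) (nat_lit 33528215254) (nat_lit 76) (nat_lit 137218469750) (nat_lit 3) (nat_lit 5) (nat_lit 5) (nat_lit 5) (nat_lit 4) (nat_lit 4) (nat_lit 302) (nat_lit 256) (nat_lit 162))))))))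
noncomputable def xc80 : XT := (XT.nd (nat_lit 1794) (nat_lit 0) (nat_lit 0) (XT.nd (nat_lit 858) (nat_lit 76) (nat_lit 0) (XT.nd (nat_lit 390) (nat_lit 0) (nat_lit 0) (XT.nd (nat_lit 156) (nat_lit 0) (nat_lit 0) (XT.nd (nat_lit 78) (nat_lit 76) (nat_lit 0) (XT.lf (nat_lit 0) (nat_lit 25980369858) (nat_lit 152) (nat_lit 9714437961) (nat_lit 76) (nat_lit 163160231661) (nat_lit 3) (nat_lit 5) (nat_lit 5) (nat_lit 5) (nat_lit 4) (nat_lit 4) (nat_lit 303) (nat_lit 256) (nat_lit 161)) (XT.lf (nat_lit 0) (nat_lit 16844353913) (nat_lit 76) (nat_lit 21906183427) (nat_lit 152) (nat_lit 174737061732) (nat_lit 2) (nat_lit 5) (nat_lit 3) (nat_lit 5) (nat_lit 4) (nat_lit 4) (nat_lit 304) (nat_lit 256) (nat_lit 160))) (XT.nd (nat_lit 78) (nat_lit 0) (nat_lit 0) (XT.lf (nat_lit 0) (nat_lit 46077676046) (nat_lit 76) (nat_lit 6728748222) (nat_lit 152) (nat_lit 176463214721) (nat_lit 2) (nat_lit 5)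 (nat_lit 3) (nat_lit 5) (nat_lit 4) (nat_lit 4) (nat_lit 305) (nat_lit 256) (nat_lit 159)) (XT.nd (nat_lit 78) (nat_lit 0) (nat_lit 0) (XT.lf (nat_lit 0) (nat_lit 68217756846) (nat_lit 152) (nat_lit 168899506591) (nat_lit 0) (nat_lit 9178504427) (nat_lit 2) (nat_lit 5) (nat_lit 4) (nat_lit 4) (nat_lit 2) (nat_lit 4) (nat_lit 306) (nat_lit 256) (nat_lit 158)) (XT.lf (nat_lit 0) (nat_lit 85035455895) (nat_lit 152) (nat_lit 153640774469) (nat_lit 0) (nat_lit 25993883361) (nat_lit 2) (nat_lit 5) (nat_lit 4) (nat_lit 4) (nat_lit 2) (nat_lit 4) (nat_lit 307) (nat_lit 256) (nat_lit 157))))) (XT.nd (nat_lit 234) (nat_lit 0) (nat_lit 0) (XT.nd (nat_lit 78) (nat_lit 0) (nat_lit 0) (XT.lf (nat_lit 0) (nat_lit 103197355296) (nat_lit 152) (nat_lit 137163517903) (nat_lit 0) (nat_lit 44153634508) (nat_lit 2) (nat_lit 5) (nat_lit 4) (nat_lit 4) (nat_lit 2) (nat_lit 4) (nat_lit 308) (nat_lit 256)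 (nat_lit 156)) (XT.nd (nat_lit 78) (nat_lit 0) (nat_lit 0) (XT.lf (nat_lit 0) (nat_lit 122811081120) (nat_lit 152) (nat_lit 119370093892) (nat_lit 0) (nat_lit 63765371207) (nat_lit 2) (nat_lit 5) (nat_lit 4) (nat_lit 4) (nat_lit 2) (nat_lit 4) (nat_lit 309) (nat_lit 256) (nat_lit 155)) (XT.lf (nat_lit 0) (nat_lit 143992862853) (nat_lit 152) (nat_lit 100155059923) (nat_lit 0) (nat_lit 84945311159) (nat_lit 2) (nat_lit 5) (nat_lit 4) (nat_lit 4) (nat_lit 2) (nat_lit 4) (nat_lit 310) (nat_lit 256) (nat_lit 154)))) (XT.nd (nat_lit 78) (nat_lit 0) (nat_lit 0) (XT.lf (nat_lit 0) (nat_lit 166868222164) (nat_lit 152) (nat_lit 79404549128) (nat_lit 0) (nat_lit 107818965117) (nat_lit 2) (nat_lit 5) (nat_lit 4) (nat_lit 4) (nat_lit 2) (nat_lit 4) (nat_lit 311) (nat_lit 256) (nat_lit 153)) (XT.nd (nat_lit 78) (nat_lit 0) (nat_lit 0) (XT.lf (nat_lit 0) (nat_lit 191572716740) (nat_lit 152) (nat_lit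 56995595518) (nat_lit 0) (nat_lit 132521880662) (nat_lit 2) (nat_lit 5) (nat_lit 4) (nat_lit 4) (nat_lit 2) (nat_lit 4) (nat_lit 312) (nat_lit 256) (nat_lit 152)) (XT.lf (nat_lit 0) (nat_lit 218252743583) (nat_lit 152) (nat_lit 32795405292) (nat_lit 0) (nat_lit 159200445440) (nat_lit 2) (nat_lit 5) (nat_lit 4) (nat_lit 4) (nat_lit 2) (nat_lit 4) (nat_lit 313) (nat_lit 256) (nat_lit 151)))))) (XT.nd (nat_lit 468) (nat_lit 0) (nat_lit 0) (XT.nd (nat_lit 234) (nat_lit 0) (nat_lit 0) (XT.nd (nat_lit 78) (nat_lit 76) (nat_lit 0) (XT.lf (nat_lit 0) (nat_lit 247066406558) (nat_lit 152) (nat_lit 6660569918) (nat_lit 0) (nat_lit 188012754651) (nat_lit 2) (nat_lit 5) (nat_lit 4) (nat_lit 4) (nat_lit 2) (nat_lit 4) (nat_lit 314) (nat_lit 256) (nat_lit 150)) (XT.nd (nat_lit 78) (nat_lit 0) (nat_lit 0) (XT.lf (nat_lit 0) (nat_lit 22699294340) (nat_lit 76) (nat_lit 256031077532) (nat_lit 76) (nat_lit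 196976172138) (nat_lit 1) (nat_lit 4) (nat_lit 2) (nat_lit 5) (nat_lit 2) (nat_lit 4) (nat_lit 315) (nat_lit 256) (nat_lit 149)) (XT.lf (nat_lit 0) (nat_lit 54785503786) (nat_lit 76) (nat_lit 258323375937) (nat_lit 76) (nat_lit 199267309909) (nat_lit 1) (nat_lit 4) (nat_lit 2) (nat_lit 5) (nat_lit 2) (nat_lit 4) (nat_lit 316) (nat_lit 256) (nat_lit 148)))) (XT.nd (nat_lit 78) (nat_lit 0) (nat_lit 0) (XT.lf (nat_lit 0) (nat_lit 89437465112) (nat_lit 76) (nat_lit 260799567468) (nat_lit 76) (nat_lit 201742426778) (nat_lit 1) (nat_lit 4) (nat_lit 2) (nat_lit 5) (nat_lit 2) (nat_lit 4) (nat_lit 317) (nat_lit 256) (nat_lit 147)) (XT.nd (nat_lit 78) (nat_lit 0) (nat_lit 0) (XT.lf (nat_lit 0) (nat_lit 126860523273) (nat_lit 76) (nat_lit 263474325851) (nat_lit 76) (nat_lit 204416190104) (nat_lit 1) (nat_lit 4) (nat_lit 2) (nat_lit 5) (nat_lit 2) (nat_lit 4) (nat_lit 318) (nat_lit 256) (nat_lit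 146)) (XT.lf (nat_lit 0) (nat_lit 167276444541) (nat_lit 76) (nat_lit 266363501509) (nat_lit 76) (nat_lit 207304444412) (nat_lit 1) (nat_lit 4) (nat_lit 2) (nat_lit 5) (nat_lit 2) (nat_lit 4) (nat_lit 319) (nat_lit 256) (nat_lit 145))))) (XT.nd (nat_lit 234) (nat_lit 0) (nat_lit 0) (XT.nd (nat_lit 78) (nat_lit 0) (nat_lit 0) (XT.lf (nat_lit 0) (nat_lit 210924730672) (nat_lit 76) (nat_lit 269484215480) (nat_lit 76) (nat_lit 210424305282) (nat_lit 1) (nat_lit 4) (nat_lit 2) (nat_lit 5) (nat_lit 2) (nat_lit 4) (nat_lit 320) (nat_lit 256) (nat_lit 144)) (XT.nd (nat_lit 78) (nat_lit 0) (nat_lit 0) (XT.lf (nat_lit 0) (nat_lit 258064038174) (nat_lit 76) (nat_lit 272854960885) (nat_lit 76) (nat_lit 213794260779) (nat_lit 1) (nat_lit 4) (nat_lit 2) (nat_lit 5) (nat_lit 2) (nat_lit 4) (nat_lit 321) (nat_lit 256) (nat_lit 143)) (XT.lf (nat_lit 0) (nat_lit 308973711094) (nat_lit 76) (nat_lit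 276495712512) (nat_lit 76) (nat_lit 217434281009) (nat_lit 1) (nat_lit 4) (nat_lit 2) (nat_lit 5) (nat_lit 2) (nat_lit 4) (nat_lit 322) (nat_lit 256) (nat_lit 142)))) (XT.nd (nat_lit 78) (nat_lit 0) (nat_lit 0) (XT.lf (nat_lit 0) (nat_lit 363955436381) (nat_lit 76) (nat_lit 280428045185) (nat_lit 76) (nat_lit 221365936463) (nat_lit 1) (nat_lit 4) (nat_lit 2) (nat_lit 5) (nat_lit 2) (nat_lit 4) (nat_lit 323) (nat_lit 256) (nat_lit 141)) (XT.nd (nat_lit 78) (nat_lit 0) (nat_lit 0) (XT.lf (nat_lit 0) (nat_lit 423335031667) (nat_lit 76) (nat_lit 284675261616) (nat_lit 76) (nat_lit 225612525839) (nat_lit 1) (nat_lit 4) (nat_lit 2) (nat_lit 5) (nat_lit 2) (nat_lit 4) (nat_lit 324) (nat_lit 256) (nat_lit 140)) (XT.lf (nat_lit 0) (nat_lit 487464376035) (nat_lit 76) (nat_lit 289262530495) (nat_lit 76) (nat_lit 230199214112) (nat_lit 1) (nat_lit 4) (nat_lit 2) (nat_lit 5) (nat_lit 2) (nat_lit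 4) (nat_lit 325) (nat_lit 256) (nat_lit 139))))))) (XT.nd (nat_lit 32448) (nat_lit 0) (nat_lit 1444) (XT.nd (nat_lit 468) (nat_lit 0) (nat_lit 0) (XT.nd (nat_lit 234) (nat_lit 0) (nat_lit 0) (XT.nd (nat_lit 78) (nat_lit 0) (nat_lit 0) (XT.lf (nat_lit 0) (nat_lit 556723495230) (nat_lit 76) (nat_lit 294217035638) (nat_lit 76) (nat_lit 235153181656) (nat_lit 1) (nat_lit 4) (nat_lit 2) (nat_lit 5) (nat_lit 2) (nat_lit 4) (nat_lit 326) (nat_lit 256) (nat_lit 138)) (XT.nd (nat_lit 78) (nat_lit 0) (nat_lit 0) (XT.lf (nat_lit 0) (nat_lit 631522813661) (nat_lit 76) (nat_lit 299568137075) (nat_lit 76) (nat_lit 240503785317) (nat_lit 1) (nat_lit 4) (nat_lit 2) (nat_lit 5) (nat_lit 2) (nat_lit 4) (nat_lit 327) (nat_lit 256) (nat_lit 137)) (XT.lf (nat_lit 0) (nat_lit 712305586549) (nat_lit 76) (nat_lit 305347545037) (nat_lit 76) (nat_lit 246282732375) (nat_lit 1) (nat_lit 4) (nat_lit 2) (nat_lit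 5) (nat_lit 2) (nat_lit 4) (nat_lit 328) (nat_lit 256) (nat_lit 136)))) (XT.nd (nat_lit 78) (nat_lit 0) (nat_lit 0) (XT.lf (nat_lit 0) (nat_lit 799550526622) (nat_lit 76) (nat_lit 311589507868) (nat_lit 76) (nat_lit 252524268442) (nat_lit 1) (nat_lit 4) (nat_lit 2) (nat_lit 5) (nat_lit 2) (nat_lit 4) (nat_lit 329) (nat_lit 256) (nat_lit 135)) (XT.nd (nat_lit 78) (nat_lit 0) (nat_lit 0) (XT.lf (nat_lit 0) (nat_lit 893774640932) (nat_lit 76) (nat_lit 318331014976) (nat_lit 76) (nat_lit 259265380399) (nat_lit 1) (nat_lit 4) (nat_lit 2) (nat_lit 5) (nat_lit 2) (nat_lit 4) (nat_lit 330) (nat_lit 256) (nat_lit 134)) (XT.lf (nat_lit 0) (nat_lit 995536294601) (nat_lit 76) (nat_lit 325612016034) (nat_lit 76) (nat_lit 266546015577) (nat_lit 1) (nat_lit 4) (nat_lit 2) (nat_lit 5) (nat_lit 2) (nat_lit 4) (nat_lit 331) (nat_lit 256) (nat_lit 133))))) (XT.nd (nat_lit 31746) (nat_lit 0) (nat_lit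 2128) (XT.nd (nat_lit 78) (nat_lit 0) (nat_lit 0) (XT.lf (nat_lit 0) (nat_lit 1105438519652) (nat_lit 76) (nat_lit 333475657714) (nat_lit 76) (nat_lit 274409318479) (nat_lit 1) (nat_lit 4) (nat_lit 2) (nat_lit 5) (nat_lit 2) (nat_lit 4) (nat_lit 332) (nat_lit 256) (nat_lit 132)) (XT.nd (nat_lit 31590) (nat_lit 0) (nat_lit 2128) (XT.lf (nat_lit 0) (nat_lit 1224132588528) (nat_lit 76) (nat_lit 341968539375) (nat_lit 76) (nat_lit 282901886456) (nat_lit 1) (nat_lit 4) (nat_lit 2) (nat_lit 5) (nat_lit 2) (nat_lit 4) (nat_lit 333) (nat_lit 256) (nat_lit 131)) (XT.lf (nat_lit 0) (nat_lit 249184277) (nat_lit 532) (nat_lit 3730402416) (nat_lit 532) (nat_lit 3730402416) (nat_lit 29) (nat_lit 3) (nat_lit 36) (nat_lit 3) (nat_lit 36) (nat_lit 5) (nat_lit 257) (nat_lit 257) (nat_lit 206)))) (XT.nd (nat_lit 78) (nat_lit 0) (nat_lit 76) (XT.lf (nat_lit 0) (nat_lit 764774444) (nat_lit 532) (nat_lit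 1199276383) (nat_lit 532) (nat_lit 14051255140) (nat_lit 29) (nat_lit 3) (nat_lit 36) (nat_lit 3) (nat_lit 36) (nat_lit 5) (nat_lit 258) (nat_lit 257) (nat_lit 205)) (XT.nd (nat_lit 78) (nat_lit 0) (nat_lit 0) (XT.lf (nat_lit 0) (nat_lit 1280736417) (nat_lit 456) (nat_lit 10919558254) (nat_lit 532) (nat_lit 4439881227) (nat_lit 30) (nat_lit 5) (nat_lit 36) (nat_lit 5) (nat_lit 37) (nat_lit 5) (nat_lit 259) (nat_lit 257) (nat_lit 204)) (XT.lf (nat_lit 0) (nat_lit 1899727599) (nat_lit 456) (nat_lit 4117291998) (nat_lit 532) (nat_lit 11293238103) (nat_lit 30) (nat_lit 5) (nat_lit 36) (nat_lit 5) (nat_lit 37) (nat_lit 5) (nat_lit 260) (nat_lit 257) (nat_lit 203)))))) (XT.nd (nat_lit 468) (nat_lit 456) (nat_lit 0) (XT.nd (nat_lit 234) (nat_lit 380) (nat_lit 0) (XT.nd (nat_lit 78) (nat_lit 0) (nat_lit 0) (XT.lf (nat_lit 0) (nat_lit 2646600231) (nat_lit 456) (nat_lit 14663195622) (nat_lit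 532) (nat_lit 718031645) (nat_lit 31) (nat_lit 5) (nat_lit 37) (nat_lit 5) (nat_lit 38) (nat_lit 5) (nat_lit 261) (nat_lit 257) (nat_lit 202)) (XT.nd (nat_lit 78) (nat_lit 0) (nat_lit 0) (XT.lf (nat_lit 0) (nat_lit 3705185573) (nat_lit 456) (nat_lit 7289454883) (nat_lit 532) (nat_lit 7788144671) (nat_lit 31) (nat_lit 5) (nat_lit 37) (nat_lit 5) (nat_lit 38) (nat_lit 5) (nat_lit 262) (nat_lit 257) (nat_lit 201)) (XT.lf (nat_lit 76) (nat_lit 694372852) (nat_lit 0) (nat_lit 4152431438) (nat_lit 532) (nat_lit 14751596316) (nat_lit 32) (nat_lit 5) (nat_lit 31) (nat_lit 5) (nat_lit 38) (nat_lit 5) (nat_lit 263) (nat_lit 257) (nat_lit 200)))) (XT.nd (nat_lit 78) (nat_lit 456) (nat_lit 0) (XT.lf (nat_lit 0) (nat_lit 6344830786) (nat_lit 456) (nat_lit 10830648041) (nat_lit 76) (nat_lit 3282699646) (nat_lit 32) (nat_lit 5) (nat_lit 38) (nat_lit 5) (nat_lit 33) (nat_lit 5) (nat_lit 264) (nat_lit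 257) (nat_lit 199)) (XT.nd (nat_lit 78) (nat_lit 456) (nat_lit 0) (XT.lf (nat_lit 0) (nat_lit 8054574419) (nat_lit 456) (nat_lit 2233847182) (nat_lit 76) (nat_lit 11091077530) (nat_lit 32) (nat_lit 5) (nat_lit 38) (nat_lit 5) (nat_lit 33) (nat_lit 5) (nat_lit 265) (nat_lit 257) (nat_lit 198)) (XT.lf (nat_lit 0) (nat_lit 7407750590) (nat_lit 456) (nat_lit 2656706919) (nat_lit 532) (nat_lit 12297101512) (nat_lit 26) (nat_lit 5) (nat_lit 32) (nat_lit 5) (nat_lit 33) (nat_lit 5) (nat_lit 266) (nat_lit 257) (nat_lit 197))))) (XT.nd (nat_lit 234) (nat_lit 228) (nat_lit 0) (XT.nd (nat_lit 78) (nat_lit 228) (nat_lit 0) (XT.lf (nat_lit 0) (nat_lit 12418130538) (nat_lit 532) (nat_lit 5619906659) (nat_lit 76) (nat_lit 5369601353) (nat_lit 26) (nat_lit 5) (nat_lit 33) (nat_lit 5) (nat_lit 27) (nat_lit 5) (nat_lit 267) (nat_lit 257) (nat_lit 196)) (XT.nd (nat_lit 78) (nat_lit 0) (nat_lit 0) (XT.lf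 (nat_lit 0) (nat_lit 4608918576) (nat_lit 228) (nat_lit 10518068657) (nat_lit 304) (nat_lit 9397153794) (nat_lit 23) (nat_lit 5) (nat_lit 26) (nat_lit 5) (nat_lit 27) (nat_lit 5) (nat_lit 268) (nat_lit 257) (nat_lit 195)) (XT.lf (nat_lit 0) (nat_lit 15962656550) (nat_lit 228) (nat_lit 2231241274) (nat_lit 304) (nat_lit 7524839517) (nat_lit 23) (nat_lit 5) (nat_lit 26) (nat_lit 5) (nat_lit 27) (nat_lit 5) (nat_lit 269) (nat_lit 257) (nat_lit 194)))) (XT.nd (nat_lit 78) (nat_lit 76) (nat_lit 0) (XT.lf (nat_lit 0) (nat_lit 1096027918) (nat_lit 152) (nat_lit 20586657567) (nat_lit 228) (nat_lit 5312169188) (nat_lit 21) (nat_lit 5) (nat_lit 23) (nat_lit 5) (nat_lit 24) (nat_lit 5) (nat_lit 270) (nat_lit 257) (nat_lit 193)) (XT.nd (nat_lit 78) (nat_lit 76) (nat_lit 0) (XT.lf (nat_lit 0) (nat_lit 13297454418) (nat_lit 152) (nat_lit 12465481903) (nat_lit 228) (nat_lit 2585205932) (nat_lit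 21) (nat_lit 5) (nat_lit 23) (nat_lit 5) (nat_lit 24) (nat_lit 5) (nat_lit 271) (nat_lit 257) (nat_lit 192)) (XT.lf (nat_lit 0) (nat_lit 331517262) (nat_lit 228) (nat_lit 3355703134) (nat_lit 76) (nat_lit 26122671121) (nat_lit 20) (nat_lit 5) (nat_lit 23) (nat_lit 5) (nat_lit 21) (nat_lit 5) (nat_lit 272) (nat_lit 257) (nat_lit 191))))))))
noncomputable def xc81 : XT := (XT.nd (nat_lit 1872) (nat_lit 304) (nat_lit 0) (XT.nd (nat_lit 936) (nat_lit 304) (nat_lit 0) (XT.nd (nat_lit 468) (nat_lit 304) (nat_lit 0) (XT.nd (nat_lit 234) (nat_lit 152) (nat_lit 0) (XT.nd (nat_lit 78) (nat_lit 152) (nat_lit 0) (XT.lf (nat_lit 0) (nat_lit 3712181593) (nat_lit 304) (nat_lit 21831927149) (nat_lit 76) (nat_lit 5809533711) (nat_lit 17) (nat_lit 5) (nat_lit 21) (nat_lit 5) (nat_lit 18) (nat_lit 5) (nat_lit 273) (nat_lit 257) (nat_lit 190)) (XT.nd (nat_lit 78) (nat_lit 152) (nat_lit 0) (XT.lf (nat_lit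 0) (nat_lit 7543979586) (nat_lit 304) (nat_lit 9503422753) (nat_lit 76) (nat_lit 15959087897) (nat_lit 17) (nat_lit 5) (nat_lit 21) (nat_lit 5) (nat_lit 18) (nat_lit 5) (nat_lit 274) (nat_lit 257) (nat_lit 189)) (XT.lf (nat_lit 0) (nat_lit 4000479115) (nat_lit 152) (nat_lit 7769511836) (nat_lit 228) (nat_lit 23014608745) (nat_lit 15) (nat_lit 5) (nat_lit 17) (nat_lit 5) (nat_lit 18) (nat_lit 5) (nat_lit 275) (nat_lit 257) (nat_lit 188)))) (XT.nd (nat_lit 78) (nat_lit 152) (nat_lit 0) (XT.lf (nat_lit 0) (nat_lit 16646571208) (nat_lit 228) (nat_lit 17631246075) (nat_lit 76) (nat_lit 2402185502) (nat_lit 15) (nat_lit 5) (nat_lit 18) (nat_lit 5) (nat_lit 16) (nat_lit 5) (nat_lit 276) (nat_lit 257) (nat_lit 187)) (XT.nd (nat_lit 78) (nat_lit 152) (nat_lit 0) (XT.lf (nat_lit 0) (nat_lit 22107464162) (nat_lit 228) (nat_lit 3638465882) (nat_lit 76) (nat_lit 12965613828) (nat_lit 15) (nat_lit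 5) (nat_lit 18) (nat_lit 5) (nat_lit 16) (nat_lit 5) (nat_lit 277) (nat_lit 257) (nat_lit 186)) (XT.lf (nat_lit 0) (nat_lit 12067670894) (nat_lit 152) (nat_lit 16220730594) (nat_lit 228) (nat_lit 12594590566) (nat_lit 13) (nat_lit 5) (nat_lit 15) (nat_lit 5) (nat_lit 16) (nat_lit 5) (nat_lit 278) (nat_lit 257) (nat_lit 185))))) (XT.nd (nat_lit 234) (nat_lit 152) (nat_lit 0) (XT.nd (nat_lit 78) (nat_lit 152) (nat_lit 0) (XT.lf (nat_lit 0) (nat_lit 29227728359) (nat_lit 152) (nat_lit 5828806981) (nat_lit 228) (nat_lit 8164237882) (nat_lit 13) (nat_lit 5) (nat_lit 15) (nat_lit 5) (nat_lit 16) (nat_lit 5) (nat_lit 279) (nat_lit 257) (nat_lit 184)) (XT.nd (nat_lit 78) (nat_lit 76) (nat_lit 0) (XT.lf (nat_lit 0) (nat_lit 1974801928) (nat_lit 76) (nat_lit 40562228521) (nat_lit 152) (nat_lit 3194905864) (nat_lit 12) (nat_lit 5) (nat_lit 13) (nat_lit 5) (nat_lit 14) (nat_lit 4) (nat_lit 280)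 (nat_lit 257) (nat_lit 183)) (XT.lf (nat_lit 0) (nat_lit 2600996007) (nat_lit 152) (nat_lit 28620467305) (nat_lit 76) (nat_lit 17175363995) (nat_lit 11) (nat_lit 5) (nat_lit 13) (nat_lit 5) (nat_lit 12) (nat_lit 5) (nat_lit 281) (nat_lit 257) (nat_lit 182)))) (XT.nd (nat_lit 78) (nat_lit 152) (nat_lit 0) (XT.lf (nat_lit 0) (nat_lit 8682169917) (nat_lit 152) (nat_lit 12364540915) (nat_lit 76) (nat_lit 30222048980) (nat_lit 11) (nat_lit 5) (nat_lit 13) (nat_lit 5) (nat_lit 12) (nat_lit 5) (nat_lit 282) (nat_lit 257) (nat_lit 181)) (XT.nd (nat_lit 78) (nat_lit 0) (nat_lit 0) (XT.lf (nat_lit 0) (nat_lit 5456784211) (nat_lit 152) (nat_lit 9918926163) (nat_lit 228) (nat_lit 38984690454) (nat_lit 9) (nat_lit 5) (nat_lit 11) (nat_lit 5) (nat_lit 12) (nat_lit 5) (nat_lit 283) (nat_lit 257) (nat_lit 180)) (XT.lf (nat_lit 0) (nat_lit 22996847353) (nat_lit 228) (nat_lit 32332805674) (nat_lit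 76) (nat_lit 2338372999) (nat_lit 9) (nat_lit 5) (nat_lit 12) (nat_lit 5) (nat_lit 10) (nat_lit 4) (nat_lit 284) (nat_lit 257) (nat_lit 179)))))) (XT.nd (nat_lit 468) (nat_lit 76) (nat_lit 0) (XT.nd (nat_lit 234) (nat_lit 152) (nat_lit 0) (XT.nd (nat_lit 78) (nat_lit 76) (nat_lit 0) (XT.lf (nat_lit 0) (nat_lit 31480477211) (nat_lit 228) (nat_lit 14701567835) (nat_lit 76) (nat_lit 15038012379) (nat_lit 9) (nat_lit 5) (nat_lit 12) (nat_lit 5) (nat_lit 10) (nat_lit 4) (nat_lit 285) (nat_lit 257) (nat_lit 178)) (XT.nd (nat_lit 78) (nat_lit 0) (nat_lit 0) (XT.lf (nat_lit 0) (nat_lit 4561303601) (nat_lit 76) (nat_lit 36186718755) (nat_lit 152) (nat_lit 24299829817) (nat_lit 8) (nat_lit 5) (nat_lit 9) (nat_lit 5) (nat_lit 10) (nat_lit 4) (nat_lit 286) (nat_lit 257) (nat_lit 177)) (XT.lf (nat_lit 0) (nat_lit 26194433869) (nat_lit 76) (nat_lit 24960196017) (nat_lit 152) (nat_lit 17995445350)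 (nat_lit 8) (nat_lit 5) (nat_lit 9) (nat_lit 5) (nat_lit 10) (nat_lit 4) (nat_lit 287) (nat_lit 257) (nat_lit 176)))) (XT.nd (nat_lit 78) (nat_lit 152) (nat_lit 0) (XT.lf (nat_lit 0) (nat_lit 49551860788) (nat_lit 76) (nat_lit 12837916209) (nat_lit 152) (nat_lit 11191034415) (nat_lit 8) (nat_lit 5) (nat_lit 9) (nat_lit 5) (nat_lit 10) (nat_lit 4) (nat_lit 288) (nat_lit 257) (nat_lit 175)) (XT.nd (nat_lit 78) (nat_lit 152) (nat_lit 0) (XT.lf (nat_lit 0) (nat_lit 74526101893) (nat_lit 152) (nat_lit 3600377733) (nat_lit 0) (nat_lit 239352522) (nat_lit 8) (nat_lit 5) (nat_lit 10) (nat_lit 4) (nat_lit 8) (nat_lit 4) (nat_lit 289) (nat_lit 257) (nat_lit 174)) (XT.lf (nat_lit 0) (nat_lit 4703873419) (nat_lit 152) (nat_lit 64511963879) (nat_lit 76) (nat_lit 14245200057) (nat_lit 6) (nat_lit 5) (nat_lit 8) (nat_lit 5) (nat_lit 7) (nat_lit 4) (nat_lit 290) (nat_lit 257) (nat_lit 173))))) (XT.nd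 (nat_lit 234) (nat_lit 76) (nat_lit 0) (XT.nd (nat_lit 78) (nat_lit 0) (nat_lit 0) (XT.lf (nat_lit 0) (nat_lit 13821073723) (nat_lit 152) (nat_lit 45556771712) (nat_lit 76) (nat_lit 29570242469) (nat_lit 6) (nat_lit 5) (nat_lit 8) (nat_lit 5) (nat_lit 7) (nat_lit 4) (nat_lit 291) (nat_lit 257) (nat_lit 172)) (XT.nd (nat_lit 78) (nat_lit 0) (nat_lit 0) (XT.lf (nat_lit 0) (nat_lit 23664461061) (nat_lit 152) (nat_lit 25090474627) (nat_lit 76) (nat_lit 46119432917) (nat_lit 6) (nat_lit 5) (nat_lit 8) (nat_lit 5) (nat_lit 7) (nat_lit 4) (nat_lit 292) (nat_lit 257) (nat_lit 171)) (XT.lf (nat_lit 0) (nat_lit 34292366619) (nat_lit 152) (nat_lit 2991790862) (nat_lit 76) (nat_lit 63990840676) (nat_lit 6) (nat_lit 5) (nat_lit 8) (nat_lit 5) (nat_lit 7) (nat_lit 4) (nat_lit 293) (nat_lit 257) (nat_lit 170)))) (XT.nd (nat_lit 78) (nat_lit 0) (nat_lit 0) (XT.lf (nat_lit 0) (nat_lit 21969224320)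 (nat_lit 76) (nat_lit 24326906629) (nat_lit 152) (nat_lit 61849506437) (nat_lit 5) (nat_lit 5) (nat_lit 6) (nat_lit 5) (nat_lit 7) (nat_lit 4) (nat_lit 294) (nat_lit 257) (nat_lit 169)) (XT.nd (nat_lit 78) (nat_lit 0) (nat_lit 0) (XT.lf (nat_lit 0) (nat_lit 49092828920) (nat_lit 76) (nat_lit 10246530124) (nat_lit 152) (nat_lit 56220244424) (nat_lit 5) (nat_lit 5) (nat_lit 6) (nat_lit 5) (nat_lit 7) (nat_lit 4) (nat_lit 295) (nat_lit 257) (nat_lit 168)) (XT.lf (nat_lit 0) (nat_lit 73542857266) (nat_lit 152) (nat_lit 45303932037) (nat_lit 0) (nat_lit 4710560658) (nat_lit 5) (nat_lit 5) (nat_lit 7) (nat_lit 4) (nat_lit 5) (nat_lit 4) (nat_lit 296) (nat_lit 257) (nat_lit 167))))))) (XT.nd (nat_lit 936) (nat_lit 76) (nat_lit 0) (XT.nd (nat_lit 468) (nat_lit 76) (nat_lit 0) (XT.nd (nat_lit 234) (nat_lit 76) (nat_lit 0) (XT.nd (nat_lit 78) (nat_lit 76) (nat_lit 0) (XT.lf (nat_lit 0) (nat_lit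 89146480013) (nat_lit 152) (nat_lit 22718161614) (nat_lit 0) (nat_lit 20309174452) (nat_lit 5) (nat_lit 5) (nat_lit 7) (nat_lit 4) (nat_lit 5) (nat_lit 4) (nat_lit 297) (nat_lit 257) (nat_lit 166)) (XT.nd (nat_lit 78) (nat_lit 0) (nat_lit 0) (XT.lf (nat_lit 0) (nat_lit 1758789384) (nat_lit 76) (nat_lit 104279773443) (nat_lit 76) (nat_lit 35437829963) (nat_lit 4) (nat_lit 4) (nat_lit 5) (nat_lit 5) (nat_lit 5) (nat_lit 4) (nat_lit 298) (nat_lit 257) (nat_lit 165)) (XT.lf (nat_lit 0) (nat_lit 29482328350) (nat_lit 76) (nat_lit 95418781857) (nat_lit 76) (nat_lit 26572544008) (nat_lit 4) (nat_lit 4) (nat_lit 5) (nat_lit 5) (nat_lit 5) (nat_lit 4) (nat_lit 299) (nat_lit 257) (nat_lit 164)))) (XT.nd (nat_lit 78) (nat_lit 76) (nat_lit 0) (XT.lf (nat_lit 0) (nat_lit 59420444790) (nat_lit 76) (nat_lit 85850312089) (nat_lit 76) (nat_lit 17000097971) (nat_lit 4) (nat_lit 4) (nat_lit 5) (nat_lit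 5) (nat_lit 5) (nat_lit 4) (nat_lit 300) (nat_lit 257) (nat_lit 163)) (XT.nd (nat_lit 78) (nat_lit 76) (nat_lit 0) (XT.lf (nat_lit 0) (nat_lit 91750549764) (nat_lit 76) (nat_lit 75517662095) (nat_lit 76) (nat_lit 6663766247) (nat_lit 4) (nat_lit 4) (nat_lit 5) (nat_lit 5) (nat_lit 5) (nat_lit 4) (nat_lit 301) (nat_lit 257) (nat_lit 162)) (XT.lf (nat_lit 0) (nat_lit 4272710154) (nat_lit 152) (nat_lit 59970067735) (nat_lit 76) (nat_lit 122274695457) (nat_lit 3) (nat_lit 5) (nat_lit 5) (nat_lit 5) (nat_lit 4) (nat_lit 4) (nat_lit 302) (nat_lit 257) (nat_lit 161))))) (XT.nd (nat_lit 234) (nat_lit 0) (nat_lit 0) (XT.nd (nat_lit 78) (nat_lit 76) (nat_lit 0) (XT.lf (nat_lit 0) (nat_lit 15722532608) (nat_lit 152) (nat_lit 36157593520) (nat_lit 76) (nat_lit 148215964100) (nat_lit 3) (nat_lit 5) (nat_lit 5) (nat_lit 5) (nat_lit 4) (nat_lit 4) (nat_lit 303) (nat_lit 257) (nat_lit 160)) (XT.nd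 (nat_lit 78) (nat_lit 76) (nat_lit 0) (XT.lf (nat_lit 0) (nat_lit 28086900489) (nat_lit 152) (nat_lit 10442631003) (nat_lit 76) (nat_lit 176231584240) (nat_lit 3) (nat_lit 5) (nat_lit 5) (nat_lit 5) (nat_lit 4) (nat_lit 4) (nat_lit 304) (nat_lit 257) (nat_lit 159)) (XT.lf (nat_lit 0) (nat_lit 18239624677) (nat_lit 76) (nat_lit 23638122861) (nat_lit 152) (nat_lit 188686613100) (nat_lit 2) (nat_lit 5) (nat_lit 3) (nat_lit 5) (nat_lit 4) (nat_lit 4) (nat_lit 305) (nat_lit 257) (nat_lit 158)))) (XT.nd (nat_lit 78) (nat_lit 0) (nat_lit 0) (XT.lf (nat_lit 0) (nat_lit 49808077584) (nat_lit 76) (nat_lit 7248015449) (nat_lit 152) (nat_lit 190553037112) (nat_lit 2) (nat_lit 5) (nat_lit 3) (nat_lit 5) (nat_lit 4) (nat_lit 4) (nat_lit 306) (nat_lit 257) (nat_lit 157)) (XT.nd (nat_lit 78) (nat_lit 0) (nat_lit 0) (XT.lf (nat_lit 0) (nat_lit 73698892727) (nat_lit 152) (nat_lit 182369050746) (nat_lit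 0) (nat_lit 9929526022) (nat_lit 2) (nat_lit 5) (nat_lit 4) (nat_lit 4) (nat_lit 2) (nat_lit 4) (nat_lit 307) (nat_lit 257) (nat_lit 156)) (XT.lf (nat_lit 0) (nat_lit 91860251008) (nat_lit 152) (nat_lit 165892762007) (nat_lit 0) (nat_lit 28088895179) (nat_lit 2) (nat_lit 5) (nat_lit 4) (nat_lit 4) (nat_lit 2) (nat_lit 4) (nat_lit 308) (nat_lit 257) (nat_lit 155)))))) (XT.nd (nat_lit 468) (nat_lit 76) (nat_lit 0) (XT.nd (nat_lit 234) (nat_lit 0) (nat_lit 0) (XT.nd (nat_lit 78) (nat_lit 0) (nat_lit 0) (XT.lf (nat_lit 0) (nat_lit 111473475795) (nat_lit 152) (nat_lit 148100234132) (nat_lit 0) (nat_lit 47700278184) (nat_lit 2) (nat_lit 5) (nat_lit 4) (nat_lit 4) (nat_lit 2) (nat_lit 4) (nat_lit 309) (nat_lit 257) (nat_lit 154)) (XT.nd (nat_lit 78) (nat_lit 0) (nat_lit 0) (XT.lf (nat_lit 0) (nat_lit 132654793605) (nat_lit 152) (nat_lit 128886029919) (nat_lit 0) (nat_lit 68879890641) (nat_lit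 2) (nat_lit 5) (nat_lit 4) (nat_lit 4) (nat_lit 2) (nat_lit 4) (nat_lit 310) (nat_lit 257) (nat_lit 153)) (XT.lf (nat_lit 0) (nat_lit 155529723359) (nat_lit 152) (nat_lit 108136287417) (nat_lit 0) (nat_lit 91753241364) (nat_lit 2) (nat_lit 5) (nat_lit 4) (nat_lit 4) (nat_lit 2) (nat_lit 4) (nat_lit 311) (nat_lit 257) (nat_lit 152)))) (XT.nd (nat_lit 78) (nat_lit 0) (nat_lit 0) (XT.lf (nat_lit 0) (nat_lit 180233820195) (nat_lit 152) (nat_lit 85728045188) (nat_lit 0) (nat_lit 116455876134) (nat_lit 2) (nat_lit 5) (nat_lit 4) (nat_lit 4) (nat_lit 2) (nat_lit 4) (nat_lit 312) (nat_lit 257) (nat_lit 151)) (XT.nd (nat_lit 78) (nat_lit 0) (nat_lit 0) (XT.lf (nat_lit 0) (nat_lit 206913478761) (nat_lit 152) (nat_lit 61528513649) (nat_lit 0) (nat_lit 143134180937) (nat_lit 2) (nat_lit 5) (nat_lit 4) (nat_lit 4) (nat_lit 2) (nat_lit 4) (nat_lit 313) (nat_lit 257) (nat_lit 150)) (XT.lf (nat_lit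 0) (nat_lit 235726800739) (nat_lit 152) (nat_lit 35394288170) (nat_lit 0) (nat_lit 171946249429) (nat_lit 2) (nat_lit 5) (nat_lit 4) (nat_lit 4) (nat_lit 2) (nat_lit 4) (nat_lit 314) (nat_lit 257) (nat_lit 149))))) (XT.nd (nat_lit 234) (nat_lit 0) (nat_lit 0) (XT.nd (nat_lit 78) (nat_lit 76) (nat_lit 0) (XT.lf (nat_lit 0) (nat_lit 266844531740) (nat_lit 152) (nat_lit 7170499265) (nat_lit 0) (nat_lit 203062819794) (nat_lit 2) (nat_lit 5) (nat_lit 4) (nat_lit 4) (nat_lit 2) (nat_lit 4) (nat_lit 315) (nat_lit 257) (nat_lit 148)) (XT.nd (nat_lit 78) (nat_lit 0) (nat_lit 0) (XT.lf (nat_lit 0) (nat_lit 24537573975) (nat_lit 76) (nat_lit 276503628401) (nat_lit 76) (nat_lit 212720841794) (nat_lit 1) (nat_lit 4) (nat_lit 2) (nat_lit 5) (nat_lit 2) (nat_lit 4) (nat_lit 316) (nat_lit 257) (nat_lit 147)) (XT.lf (nat_lit 0) (nat_lit 59189025652) (nat_lit 76) (nat_lit 278980046629) (nat_lit 76)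 (nat_lit 215196264964) (nat_lit 1) (nat_lit 4) (nat_lit 2) (nat_lit 5) (nat_lit 2) (nat_lit 4) (nat_lit 317) (nat_lit 257) (nat_lit 146)))) (XT.nd (nat_lit 78) (nat_lit 0) (nat_lit 0) (XT.lf (nat_lit 0) (nat_lit 96611611916) (nat_lit 76) (nat_lit 281655014918) (nat_lit 76) (nat_lit 217870311904) (nat_lit 1) (nat_lit 4) (nat_lit 2) (nat_lit 5) (nat_lit 2) (nat_lit 4) (nat_lit 318) (nat_lit 257) (nat_lit 145)) (XT.nd (nat_lit 78) (nat_lit 0) (nat_lit 0) (XT.lf (nat_lit 0) (nat_lit 137027096242) (nat_lit 76) (nat_lit 284544384931) (nat_lit 76) (nat_lit 220758828817) (nat_lit 1) (nat_lit 4) (nat_lit 2) (nat_lit 5) (nat_lit 2) (nat_lit 4) (nat_lit 319) (nat_lit 257) (nat_lit 144)) (XT.lf (nat_lit 0) (nat_lit 180674977796) (nat_lit 76) (nat_lit 287665278862) (nat_lit 76) (nat_lit 223878932839) (nat_lit 1) (nat_lit 4) (nat_lit 2) (nat_lit 5) (nat_lit 2) (nat_lit 4) (nat_lit 320) (nat_lit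 257) (nat_lit 143))))))))
noncomputable def xc82 : XT := (XT.nd (nat_lit 33384) (nat_lit 0) (nat_lit 380) (XT.nd (nat_lit 858) (nat_lit 0) (nat_lit 0) (XT.nd (nat_lit 390) (nat_lit 0) (nat_lit 0) (XT.nd (nat_lit 156) (nat_lit 0) (nat_lit 0) (XT.nd (nat_lit 78) (nat_lit 0) (nat_lit 0) (XT.lf (nat_lit 0) (nat_lit 227813910692) (nat_lit 76) (nat_lit 291036190897) (nat_lit 76) (nat_lit 227249113477) (nat_lit 1) (nat_lit 4) (nat_lit 2) (nat_lit 5) (nat_lit 2) (nat_lit 4) (nat_lit 321) (nat_lit 257) (nat_lit 142)) (XT.lf (nat_lit 0) (nat_lit 278723236753) (nat_lit 76) (nat_lit 294677096810) (nat_lit 76) (nat_lit 230889342171) (nat_lit 1) (nat_lit 4) (nat_lit 2) (nat_lit 5) (nat_lit 2) (nat_lit 4) (nat_lit 322) (nat_lit 257) (nat_lit 141))) (XT.nd (nat_lit 78) (nat_lit 0) (nat_lit 0) (XT.lf (nat_lit 0) (nat_lit 333704640874) (nat_lit 76) (nat_lit 298609572341) (nat_lit 76) (nat_lit 234821190647)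 (nat_lit 1) (nat_lit 4) (nat_lit 2) (nat_lit 5) (nat_lit 2) (nat_lit 4) (nat_lit 323) (nat_lit 257) (nat_lit 140)) (XT.nd (nat_lit 78) (nat_lit 0) (nat_lit 0) (XT.lf (nat_lit 0) (nat_lit 393083938785) (nat_lit 76) (nat_lit 302856921048) (nat_lit 76) (nat_lit 239067958747) (nat_lit 1) (nat_lit 4) (nat_lit 2) (nat_lit 5) (nat_lit 2) (nat_lit 4) (nat_lit 324) (nat_lit 257) (nat_lit 139)) (XT.lf (nat_lit 0) (nat_lit 457213007805) (nat_lit 76) (nat_lit 307444312405) (nat_lit 76) (nat_lit 243654812506) (nat_lit 1) (nat_lit 4) (nat_lit 2) (nat_lit 5) (nat_lit 2) (nat_lit 4) (nat_lit 325) (nat_lit 257) (nat_lit 138))))) (XT.nd (nat_lit 234) (nat_lit 0) (nat_lit 0) (XT.nd (nat_lit 78) (nat_lit 0) (nat_lit 0) (XT.lf (nat_lit 0) (nat_lit 526471872048) (nat_lit 76) (nat_lit 312398930953) (nat_lit 76) (nat_lit 248608933277) (nat_lit 1) (nat_lit 4) (nat_lit 2) (nat_lit 5) (nat_lit 2) (nat_lit 4)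 (nat_lit 326) (nat_lit 257) (nat_lit 137)) (XT.nd (nat_lit 78) (nat_lit 0) (nat_lit 0) (XT.lf (nat_lit 0) (nat_lit 601270954413) (nat_lit 76) (nat_lit 317750137395) (nat_lit 76) (nat_lit 253959678815) (nat_lit 1) (nat_lit 4) (nat_lit 2) (nat_lit 5) (nat_lit 2) (nat_lit 4) (nat_lit 327) (nat_lit 257) (nat_lit 136)) (XT.lf (nat_lit 0) (nat_lit 682053508721) (nat_lit 76) (nat_lit 323529642584) (nat_lit 76) (nat_lit 259738757241) (nat_lit 1) (nat_lit 4) (nat_lit 2) (nat_lit 5) (nat_lit 2) (nat_lit 4) (nat_lit 328) (nat_lit 257) (nat_lit 135)))) (XT.nd (nat_lit 78) (nat_lit 0) (nat_lit 0) (XT.lf (nat_lit 0) (nat_lit 769298246406) (nat_lit 76) (nat_lit 329771695439) (nat_lit 76) (nat_lit 265980414945) (nat_lit 1) (nat_lit 4) (nat_lit 2) (nat_lit 5) (nat_lit 2) (nat_lit 4) (nat_lit 329) (nat_lit 257) (nat_lit 134)) (XT.nd (nat_lit 78) (nat_lit 0) (nat_lit 0) (XT.lf (nat_lit 0) (nat_lit 863522173319)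 (nat_lit 76) (nat_lit 336513285903) (nat_lit 76) (nat_lit 272721639529) (nat_lit 1) (nat_lit 4) (nat_lit 2) (nat_lit 5) (nat_lit 2) (nat_lit 4) (nat_lit 330) (nat_lit 257) (nat_lit 133)) (XT.lf (nat_lit 0) (nat_lit 965283653473) (nat_lit 76) (nat_lit 343794364142) (nat_lit 76) (nat_lit 280002378990) (nat_lit 1) (nat_lit 4) (nat_lit 2) (nat_lit 5) (nat_lit 2) (nat_lit 4) (nat_lit 331) (nat_lit 257) (nat_lit 132)))))) (XT.nd (nat_lit 32058) (nat_lit 0) (nat_lit 1900) (XT.nd (nat_lit 31824) (nat_lit 0) (nat_lit 2128) (XT.nd (nat_lit 78) (nat_lit 0) (nat_lit 0) (XT.lf (nat_lit 0) (nat_lit 1075185717861) (nat_lit 76) (nat_lit 351658077287) (nat_lit 76) (nat_lit 287865778451) (nat_lit 1) (nat_lit 4) (nat_lit 2) (nat_lit 5) (nat_lit 2) (nat_lit 4) (nat_lit 332) (nat_lit 257) (nat_lit 131)) (XT.nd (nat_lit 31668) (nat_lit 0) (nat_lit 2128) (XT.lf (nat_lit 0) (nat_lit 1193879637975) (nat_lit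 76) (nat_lit 360151025119) (nat_lit 76) (nat_lit 296358435835) (nat_lit 1) (nat_lit 4) (nat_lit 2) (nat_lit 5) (nat_lit 2) (nat_lit 4) (nat_lit 333) (nat_lit 257) (nat_lit 130)) (XT.lf (nat_lit 0) (nat_lit 509662529) (nat_lit 532) (nat_lit 3898085357) (nat_lit 532) (nat_lit 3898085357) (nat_lit 29) (nat_lit 3) (nat_lit 36) (nat_lit 3) (nat_lit 36) (nat_lit 5) (nat_lit 258) (nat_lit 258) (nat_lit 204)))) (XT.nd (nat_lit 78) (nat_lit 0) (nat_lit 76) (XT.lf (nat_lit 0) (nat_lit 1271407344) (nat_lit 532) (nat_lit 1053090248) (nat_lit 532) (nat_lit 14933227306) (nat_lit 29) (nat_lit 3) (nat_lit 36) (nat_lit 3) (nat_lit 36) (nat_lit 5) (nat_lit 259) (nat_lit 258) (nat_lit 203)) (XT.nd (nat_lit 78) (nat_lit 0) (nat_lit 0) (XT.lf (nat_lit 0) (nat_lit 1796945399) (nat_lit 456) (nat_lit 11516359099) (nat_lit 532) (nat_lit 4622050772) (nat_lit 30) (nat_lit 5) (nat_lit 36) (nat_lit 5) (nat_lit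 37) (nat_lit 5) (nat_lit 260) (nat_lit 258) (nat_lit 202)) (XT.lf (nat_lit 0) (nat_lit 2434807723) (nat_lit 456) (nat_lit 4190412566) (nat_lit 532) (nat_lit 12036492565) (nat_lit 30) (nat_lit 5) (nat_lit 36) (nat_lit 5) (nat_lit 37) (nat_lit 5) (nat_lit 261) (nat_lit 258) (nat_lit 201))))) (XT.nd (nat_lit 234) (nat_lit 380) (nat_lit 0) (XT.nd (nat_lit 78) (nat_lit 0) (nat_lit 0) (XT.lf (nat_lit 0) (nat_lit 3216390850) (nat_lit 456) (nat_lit 15552433136) (nat_lit 532) (nat_lit 670068676) (nat_lit 31) (nat_lit 5) (nat_lit 37) (nat_lit 5) (nat_lit 38) (nat_lit 5) (nat_lit 262) (nat_lit 258) (nat_lit 200)) (XT.nd (nat_lit 78) (nat_lit 0) (nat_lit 0) (XT.lf (nat_lit 0) (nat_lit 4333139864) (nat_lit 456) (nat_lit 7609816704) (nat_lit 532) (nat_lit 8313598559) (nat_lit 31) (nat_lit 5) (nat_lit 37) (nat_lit 5) (nat_lit 38) (nat_lit 5) (nat_lit 263) (nat_lit 258) (nat_lit 199)) (XT.lf (nat_lit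 76) (nat_lit 1006064223) (nat_lit 0) (nat_lit 4541625588) (nat_lit 532) (nat_lit 15591374461) (nat_lit 32) (nat_lit 5) (nat_lit 31) (nat_lit 5) (nat_lit 38) (nat_lit 5) (nat_lit 264) (nat_lit 258) (nat_lit 198)))) (XT.nd (nat_lit 78) (nat_lit 456) (nat_lit 0) (XT.lf (nat_lit 0) (nat_lit 7141093484) (nat_lit 456) (nat_lit 11433469544) (nat_lit 76) (nat_lit 3495178319) (nat_lit 32) (nat_lit 5) (nat_lit 38) (nat_lit 5) (nat_lit 33) (nat_lit 5) (nat_lit 265) (nat_lit 258) (nat_lit 197)) (XT.nd (nat_lit 78) (nat_lit 456) (nat_lit 0) (XT.lf (nat_lit 0) (nat_lit 8966233184) (nat_lit 456) (nat_lit 2168452789) (nat_lit 76) (nat_lit 11931940309) (nat_lit 32) (nat_lit 5) (nat_lit 38) (nat_lit 5) (nat_lit 33) (nat_lit 5) (nat_lit 266) (nat_lit 258) (nat_lit 196)) (XT.lf (nat_lit 0) (nat_lit 8238293002) (nat_lit 456) (nat_lit 2884536490) (nat_lit 532) (nat_lit 13005684654) (nat_lit 26) (nat_lit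 5) (nat_lit 32) (nat_lit 5) (nat_lit 33) (nat_lit 5) (nat_lit 267) (nat_lit 258) (nat_lit 195))))))) (XT.nd (nat_lit 936) (nat_lit 532) (nat_lit 0) (XT.nd (nat_lit 468) (nat_lit 532) (nat_lit 0) (XT.nd (nat_lit 234) (nat_lit 228) (nat_lit 0) (XT.nd (nat_lit 78) (nat_lit 228) (nat_lit 0) (XT.lf (nat_lit 0) (nat_lit 13645699116) (nat_lit 532) (nat_lit 5828517934) (nat_lit 76) (nat_lit 5785717611) (nat_lit 26) (nat_lit 5) (nat_lit 33) (nat_lit 5) (nat_lit 27) (nat_lit 5) (nat_lit 268) (nat_lit 258) (nat_lit 194)) (XT.nd (nat_lit 78) (nat_lit 0) (nat_lit 0) (XT.lf (nat_lit 0) (nat_lit 5212512530) (nat_lit 228) (nat_lit 11347058614) (nat_lit 304) (nat_lit 9907239094) (nat_lit 23) (nat_lit 5) (nat_lit 26) (nat_lit 5) (nat_lit 27) (nat_lit 5) (nat_lit 269) (nat_lit 258) (nat_lit 193)) (XT.lf (nat_lit 0) (nat_lit 17457150989) (nat_lit 228) (nat_lit 2398207672) (nat_lit 304) (nat_lit 7903042416)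 (nat_lit 23) (nat_lit 5) (nat_lit 26) (nat_lit 5) (nat_lit 27) (nat_lit 5) (nat_lit 270) (nat_lit 258) (nat_lit 192)))) (XT.nd (nat_lit 78) (nat_lit 76) (nat_lit 0) (XT.lf (nat_lit 0) (nat_lit 1412799577) (nat_lit 152) (nat_lit 22200960703) (nat_lit 228) (nat_lit 5523707331) (nat_lit 21) (nat_lit 5) (nat_lit 23) (nat_lit 5) (nat_lit 24) (nat_lit 5) (nat_lit 271) (nat_lit 258) (nat_lit 191)) (XT.nd (nat_lit 78) (nat_lit 76) (nat_lit 0) (XT.lf (nat_lit 0) (nat_lit 14573370610) (nat_lit 152) (nat_lit 13432507983) (nat_lit 228) (nat_lit 2594397044) (nat_lit 21) (nat_lit 5) (nat_lit 23) (nat_lit 5) (nat_lit 24) (nat_lit 5) (nat_lit 272) (nat_lit 258) (nat_lit 190)) (XT.lf (nat_lit 0) (nat_lit 531871367) (nat_lit 228) (nat_lit 3417599255) (nat_lit 76) (nat_lit 28230306450) (nat_lit 20) (nat_lit 5) (nat_lit 23) (nat_lit 5) (nat_lit 21) (nat_lit 5) (nat_lit 273) (nat_lit 258) (nat_lit 189)))))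 (XT.nd (nat_lit 234) (nat_lit 152) (nat_lit 0) (XT.nd (nat_lit 78) (nat_lit 152) (nat_lit 0) (XT.lf (nat_lit 0) (nat_lit 4175808913) (nat_lit 304) (nat_lit 23363816123) (nat_lit 76) (nat_lit 6308051451) (nat_lit 17) (nat_lit 5) (nat_lit 21) (nat_lit 5) (nat_lit 18) (nat_lit 5) (nat_lit 274) (nat_lit 258) (nat_lit 188)) (XT.nd (nat_lit 78) (nat_lit 152) (nat_lit 0) (XT.lf (nat_lit 0) (nat_lit 8301806095) (nat_lit 304) (nat_lit 10064932501) (nat_lit 76) (nat_lit 17267069598) (nat_lit 17) (nat_lit 5) (nat_lit 21) (nat_lit 5) (nat_lit 18) (nat_lit 5) (nat_lit 275) (nat_lit 258) (nat_lit 187)) (XT.lf (nat_lit 0) (nat_lit 4514249515) (nat_lit 152) (nat_lit 8344877883) (nat_lit 228) (nat_lit 24695644145) (nat_lit 15) (nat_lit 5) (nat_lit 17) (nat_lit 5) (nat_lit 18) (nat_lit 5) (nat_lit 276) (nat_lit 258) (nat_lit 186)))) (XT.nd (nat_lit 78) (nat_lit 152) (nat_lit 0) (XT.lf (nat_lit 0) (nat_lit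 18115934089) (nat_lit 228) (nat_lit 18851729823) (nat_lit 76) (nat_lit 2634993716) (nat_lit 15) (nat_lit 5) (nat_lit 18) (nat_lit 5) (nat_lit 16) (nat_lit 5) (nat_lit 277) (nat_lit 258) (nat_lit 185)) (XT.nd (nat_lit 78) (nat_lit 152) (nat_lit 0) (XT.lf (nat_lit 0) (nat_lit 24003503132) (nat_lit 228) (nat_lit 3753602469) (nat_lit 76) (nat_lit 14040486429) (nat_lit 15) (nat_lit 5) (nat_lit 18) (nat_lit 5) (nat_lit 16) (nat_lit 5) (nat_lit 278) (nat_lit 258) (nat_lit 184)) (XT.lf (nat_lit 0) (nat_lit 13204571054) (nat_lit 152) (nat_lit 17469028508) (nat_lit 228) (nat_lit 13469632146) (nat_lit 13) (nat_lit 5) (nat_lit 15) (nat_lit 5) (nat_lit 16) (nat_lit 5) (nat_lit 279) (nat_lit 258) (nat_lit 183)))))) (XT.nd (nat_lit 468) (nat_lit 228) (nat_lit 0) (XT.nd (nat_lit 234) (nat_lit 152) (nat_lit 0) (XT.nd (nat_lit 78) (nat_lit 152) (nat_lit 0) (XT.lf (nat_lit 0) (nat_lit 31724730413) (nat_lit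 152) (nat_lit 6249407342) (nat_lit 228) (nat_lit 8694667964) (nat_lit 13) (nat_lit 5) (nat_lit 15) (nat_lit 5) (nat_lit 16) (nat_lit 5) (nat_lit 280) (nat_lit 258) (nat_lit 182)) (XT.nd (nat_lit 78) (nat_lit 76) (nat_lit 0) (XT.lf (nat_lit 0) (nat_lit 2295864246) (nat_lit 76) (nat_lit 43753771761) (nat_lit 152) (nat_lit 3331543952) (nat_lit 12) (nat_lit 5) (nat_lit 13) (nat_lit 5) (nat_lit 14) (nat_lit 4) (nat_lit 281) (nat_lit 258) (nat_lit 181)) (XT.lf (nat_lit 0) (nat_lit 2913708837) (nat_lit 152) (nat_lit 30753133795) (nat_lit 76) (nat_lit 18592897409) (nat_lit 11) (nat_lit 5) (nat_lit 13) (nat_lit 5) (nat_lit 12) (nat_lit 5) (nat_lit 282) (nat_lit 258) (nat_lit 180)))) (XT.nd (nat_lit 78) (nat_lit 152) (nat_lit 0) (XT.lf (nat_lit 0) (nat_lit 9473626056) (nat_lit 152) (nat_lit 13208360767) (nat_lit 76) (nat_lit 32680094652) (nat_lit 11) (nat_lit 5) (nat_lit 13) (nat_lit 5) (nat_lit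 12) (nat_lit 5) (nat_lit 283) (nat_lit 258) (nat_lit 179)) (XT.nd (nat_lit 78) (nat_lit 0) (nat_lit 0) (XT.lf (nat_lit 0) (nat_lit 6034990788) (nat_lit 152) (nat_lit 10663889494) (nat_lit 228) (nat_lit 42002506789) (nat_lit 9) (nat_lit 5) (nat_lit 11) (nat_lit 5) (nat_lit 12) (nat_lit 5) (nat_lit 284) (nat_lit 258) (nat_lit 178)) (XT.lf (nat_lit 0) (nat_lit 24923892110) (nat_lit 228) (nat_lit 34782076410) (nat_lit 76) (nat_lit 2568148446) (nat_lit 9) (nat_lit 5) (nat_lit 12) (nat_lit 5) (nat_lit 10) (nat_lit 4) (nat_lit 285) (nat_lit 258) (nat_lit 177))))) (XT.nd (nat_lit 234) (nat_lit 152) (nat_lit 0) (XT.nd (nat_lit 78) (nat_lit 76) (nat_lit 0) (XT.lf (nat_lit 0) (nat_lit 34079745914) (nat_lit 228) (nat_lit 15750513893) (nat_lit 76) (nat_lit 16280595598) (nat_lit 9) (nat_lit 5) (nat_lit 12) (nat_lit 5) (nat_lit 10) (nat_lit 4) (nat_lit 286) (nat_lit 258) (nat_lit 176)) (XT.nd (nat_lit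 78) (nat_lit 0) (nat_lit 0) (XT.lf (nat_lit 0) (nat_lit 5050167527) (nat_lit 76) (nat_lit 39035520930) (nat_lit 152) (nat_lit 26159450972) (nat_lit 8) (nat_lit 5) (nat_lit 9) (nat_lit 5) (nat_lit 10) (nat_lit 4) (nat_lit 287) (nat_lit 258) (nat_lit 175)) (XT.lf (nat_lit 0) (nat_lit 28404766022) (nat_lit 76) (nat_lit 26914293805) (nat_lit 152) (nat_lit 19356965024) (nat_lit 8) (nat_lit 5) (nat_lit 9) (nat_lit 5) (nat_lit 10) (nat_lit 4) (nat_lit 288) (nat_lit 258) (nat_lit 174)))) (XT.nd (nat_lit 78) (nat_lit 152) (nat_lit 0) (XT.lf (nat_lit 0) (nat_lit 53622285061) (nat_lit 76) (nat_lit 13825395900) (nat_lit 152) (nat_lit 12013987581) (nat_lit 8) (nat_lit 5) (nat_lit 9) (nat_lit 5) (nat_lit 10) (nat_lit 4) (nat_lit 289) (nat_lit 258) (nat_lit 173)) (XT.nd (nat_lit 78) (nat_lit 152) (nat_lit 0) (XT.lf (nat_lit 0) (nat_lit 80550850294) (nat_lit 152) (nat_lit 3785693203) (nat_lit 0)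 (nat_lit 293292367) (nat_lit 8) (nat_lit 5) (nat_lit 10) (nat_lit 4) (nat_lit 8) (nat_lit 4) (nat_lit 290) (nat_lit 258) (nat_lit 172)) (XT.lf (nat_lit 0) (nat_lit 5142399249) (nat_lit 152) (nat_lit 69569316067) (nat_lit 76) (nat_lit 15421013386) (nat_lit 6) (nat_lit 5) (nat_lit 8) (nat_lit 5) (nat_lit 7) (nat_lit 4) (nat_lit 291) (nat_lit 258) (nat_lit 171))))))))
noncomputable def xc83 : XT := (XT.nd (nat_lit 1872) (nat_lit 76) (nat_lit 0) (XT.nd (nat_lit 936) (nat_lit 76) (nat_lit 0) (XT.nd (nat_lit 468) (nat_lit 152) (nat_lit 0) (XT.nd (nat_lit 234) (nat_lit 76) (nat_lit 0) (XT.nd (nat_lit 78) (nat_lit 0) (nat_lit 0) (XT.lf (nat_lit 0) (nat_lit 14984366987) (nat_lit 152) (nat_lit 49105382966) (nat_lit 76) (nat_lit 31969377908) (nat_lit 6) (nat_lit 5) (nat_lit 8) (nat_lit 5) (nat_lit 7) (nat_lit 4) (nat_lit 292) (nat_lit 258) (nat_lit 170)) (XT.nd (nat_lit 78) (nat_lit 0) (nat_lit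 0) (XT.lf (nat_lit 0) (nat_lit 25610958100) (nat_lit 152) (nat_lit 27008888075) (nat_lit 76) (nat_lit 49840020922) (nat_lit 6) (nat_lit 5) (nat_lit 8) (nat_lit 5) (nat_lit 7) (nat_lit 4) (nat_lit 293) (nat_lit 258) (nat_lit 169)) (XT.lf (nat_lit 0) (nat_lit 37085144980) (nat_lit 152) (nat_lit 3148889204) (nat_lit 76) (nat_lit 69138842533) (nat_lit 6) (nat_lit 5) (nat_lit 8) (nat_lit 5) (nat_lit 7) (nat_lit 4) (nat_lit 294) (nat_lit 258) (nat_lit 168)))) (XT.nd (nat_lit 78) (nat_lit 0) (nat_lit 0) (XT.lf (nat_lit 0) (nat_lit 23806925044) (nat_lit 76) (nat_lit 26240554883) (nat_lit 152) (nat_lit 66745838206) (nat_lit 5) (nat_lit 5) (nat_lit 6) (nat_lit 5) (nat_lit 7) (nat_lit 4) (nat_lit 295) (nat_lit 258) (nat_lit 167)) (XT.nd (nat_lit 78) (nat_lit 0) (nat_lit 0) (XT.lf (nat_lit 0) (nat_lit 53094480027) (nat_lit 76) (nat_lit 11036155982) (nat_lit 152) (nat_lit 60670059582) (nat_lit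 5) (nat_lit 5) (nat_lit 6) (nat_lit 5) (nat_lit 7) (nat_lit 4) (nat_lit 296) (nat_lit 258) (nat_lit 166)) (XT.lf (nat_lit 0) (nat_lit 79467815537) (nat_lit 152) (nat_lit 48856786300) (nat_lit 0) (nat_lit 5113878660) (nat_lit 5) (nat_lit 5) (nat_lit 7) (nat_lit 4) (nat_lit 5) (nat_lit 4) (nat_lit 297) (nat_lit 258) (nat_lit 165))))) (XT.nd (nat_lit 234) (nat_lit 76) (nat_lit 0) (XT.nd (nat_lit 78) (nat_lit 76) (nat_lit 0) (XT.lf (nat_lit 0) (nat_lit 96316651830) (nat_lit 152) (nat_lit 24469447599) (nat_lit 0) (nat_lit 21958420583) (nat_lit 5) (nat_lit 5) (nat_lit 7) (nat_lit 4) (nat_lit 5) (nat_lit 4) (nat_lit 298) (nat_lit 258) (nat_lit 164)) (XT.nd (nat_lit 78) (nat_lit 0) (nat_lit 0) (XT.lf (nat_lit 0) (nat_lit 1963984367) (nat_lit 76) (nat_lit 112594819532) (nat_lit 76) (nat_lit 38232612016) (nat_lit 4) (nat_lit 4) (nat_lit 5) (nat_lit 5) (nat_lit 5) (nat_lit 4) (nat_lit 299) (nat_lit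 258) (nat_lit 163)) (XT.lf (nat_lit 0) (nat_lit 31900629278) (nat_lit 76) (nat_lit 103026973492) (nat_lit 76) (nat_lit 28661084247) (nat_lit 4) (nat_lit 4) (nat_lit 5) (nat_lit 5) (nat_lit 5) (nat_lit 4) (nat_lit 300) (nat_lit 258) (nat_lit 162)))) (XT.nd (nat_lit 78) (nat_lit 76) (nat_lit 0) (XT.lf (nat_lit 0) (nat_lit 64229371724) (nat_lit 76) (nat_lit 92694901025) (nat_lit 76) (nat_lit 18325602770) (nat_lit 4) (nat_lit 4) (nat_lit 5) (nat_lit 5) (nat_lit 5) (nat_lit 4) (nat_lit 301) (nat_lit 258) (nat_lit 161)) (XT.nd (nat_lit 78) (nat_lit 76) (nat_lit 0) (XT.lf (nat_lit 0) (nat_lit 99141789440) (nat_lit 76) (nat_lit 81537375033) (nat_lit 76) (nat_lit 7164920289) (nat_lit 4) (nat_lit 4) (nat_lit 5) (nat_lit 5) (nat_lit 5) (nat_lit 4) (nat_lit 302) (nat_lit 258) (nat_lit 160)) (XT.lf (nat_lit 0) (nat_lit 4642628010) (nat_lit 152) (nat_lit 64718711159) (nat_lit 76) (nat_lit 132075205140)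 (nat_lit 3) (nat_lit 5) (nat_lit 5) (nat_lit 5) (nat_lit 4) (nat_lit 4) (nat_lit 303) (nat_lit 258) (nat_lit 159)))))) (XT.nd (nat_lit 468) (nat_lit 0) (nat_lit 0) (XT.nd (nat_lit 234) (nat_lit 0) (nat_lit 0) (XT.nd (nat_lit 78) (nat_lit 76) (nat_lit 0) (XT.lf (nat_lit 0) (nat_lit 17006354701) (nat_lit 152) (nat_lit 39004865821) (nat_lit 76) (nat_lit 160090402383) (nat_lit 3) (nat_lit 5) (nat_lit 5) (nat_lit 5) (nat_lit 4) (nat_lit 4) (nat_lit 304) (nat_lit 258) (nat_lit 158)) (XT.nd (nat_lit 78) (nat_lit 76) (nat_lit 0) (XT.lf (nat_lit 0) (nat_lit 30357944644) (nat_lit 152) (nat_lit 11236064464) (nat_lit 76) (nat_lit 190346000937) (nat_lit 3) (nat_lit 5) (nat_lit 5) (nat_lit 5) (nat_lit 4) (nat_lit 4) (nat_lit 305) (nat_lit 258) (nat_lit 157)) (XT.lf (nat_lit 0) (nat_lit 19739708961) (nat_lit 76) (nat_lit 25511549885) (nat_lit 152) (nat_lit 203756324752) (nat_lit 2) (nat_lit 5) (nat_lit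 3) (nat_lit 5) (nat_lit 4) (nat_lit 4) (nat_lit 306) (nat_lit 258) (nat_lit 156)))) (XT.nd (nat_lit 78) (nat_lit 0) (nat_lit 0) (XT.lf (nat_lit 0) (nat_lit 53830607411) (nat_lit 76) (nat_lit 7811539273) (nat_lit 152) (nat_lit 205773930640) (nat_lit 2) (nat_lit 5) (nat_lit 3) (nat_lit 5) (nat_lit 4) (nat_lit 4) (nat_lit 307) (nat_lit 258) (nat_lit 155)) (XT.nd (nat_lit 78) (nat_lit 0) (nat_lit 0) (XT.lf (nat_lit 0) (nat_lit 79615136221) (nat_lit 152) (nat_lit 196922209603) (nat_lit 0) (nat_lit 10738241020) (nat_lit 2) (nat_lit 5) (nat_lit 4) (nat_lit 4) (nat_lit 2) (nat_lit 4) (nat_lit 308) (nat_lit 258) (nat_lit 154)) (XT.lf (nat_lit 0) (nat_lit 99227897085) (nat_lit 152) (nat_lit 179130511484) (nat_lit 0) (nat_lit 30349296531) (nat_lit 2) (nat_lit 5) (nat_lit 4) (nat_lit 4) (nat_lit 2) (nat_lit 4) (nat_lit 309) (nat_lit 258) (nat_lit 153))))) (XT.nd (nat_lit 234) (nat_lit 0) (nat_lit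 0) (XT.nd (nat_lit 78) (nat_lit 0) (nat_lit 0) (XT.lf (nat_lit 0) (nat_lit 120408785337) (nat_lit 152) (nat_lit 159917075563) (nat_lit 0) (nat_lit 51528605751) (nat_lit 2) (nat_lit 5) (nat_lit 4) (nat_lit 4) (nat_lit 2) (nat_lit 4) (nat_lit 310) (nat_lit 258) (nat_lit 152)) (XT.nd (nat_lit 78) (nat_lit 0) (nat_lit 0) (XT.lf (nat_lit 0) (nat_lit 143283317351) (nat_lit 152) (nat_lit 139168044442) (nat_lit 0) (nat_lit 74401675700) (nat_lit 2) (nat_lit 5) (nat_lit 4) (nat_lit 4) (nat_lit 2) (nat_lit 4) (nat_lit 311) (nat_lit 258) (nat_lit 151)) (XT.lf (nat_lit 0) (nat_lit 167987045910) (nat_lit 152) (nat_lit 116760460900) (nat_lit 0) (nat_lit 99104050495) (nat_lit 2) (nat_lit 5) (nat_lit 4) (nat_lit 4) (nat_lit 2) (nat_lit 4) (nat_lit 312) (nat_lit 258) (nat_lit 150)))) (XT.nd (nat_lit 78) (nat_lit 0) (nat_lit 0) (XT.lf (nat_lit 0) (nat_lit 194666363479) (nat_lit 152) (nat_lit 92561539257)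 (nat_lit 0) (nat_lit 125782114579) (nat_lit 2) (nat_lit 5) (nat_lit 4) (nat_lit 4) (nat_lit 2) (nat_lit 4) (nat_lit 313) (nat_lit 258) (nat_lit 149)) (XT.nd (nat_lit 78) (nat_lit 0) (nat_lit 0) (XT.lf (nat_lit 0) (nat_lit 223479369719) (nat_lit 152) (nat_lit 66427878495) (nat_lit 0) (nat_lit 154593960183) (nat_lit 2) (nat_lit 5) (nat_lit 4) (nat_lit 4) (nat_lit 2) (nat_lit 4) (nat_lit 314) (nat_lit 258) (nat_lit 148)) (XT.lf (nat_lit 0) (nat_lit 254596808369) (nat_lit 152) (nat_lit 38204612477) (nat_lit 0) (nat_lit 185710324172) (nat_lit 2) (nat_lit 5) (nat_lit 4) (nat_lit 4) (nat_lit 2) (nat_lit 4) (nat_lit 315) (nat_lit 258) (nat_lit 147))))))) (XT.nd (nat_lit 936) (nat_lit 0) (nat_lit 0) (XT.nd (nat_lit 468) (nat_lit 0) (nat_lit 0) (XT.nd (nat_lit 234) (nat_lit 0) (nat_lit 0) (XT.nd (nat_lit 78) (nat_lit 76) (nat_lit 0) (XT.lf (nat_lit 0) (nat_lit 288203079067) (nat_lit 152) (nat_lit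 7724492219) (nat_lit 0) (nat_lit 219315599812) (nat_lit 2) (nat_lit 5) (nat_lit 4) (nat_lit 4) (nat_lit 2) (nat_lit 4) (nat_lit 316) (nat_lit 258) (nat_lit 146)) (XT.nd (nat_lit 78) (nat_lit 0) (nat_lit 0) (XT.lf (nat_lit 0) (nat_lit 26519729488) (nat_lit 76) (nat_lit 298615400725) (nat_lit 76) (nat_lit 229727000121) (nat_lit 1) (nat_lit 4) (nat_lit 2) (nat_lit 5) (nat_lit 2) (nat_lit 4) (nat_lit 317) (nat_lit 258) (nat_lit 145)) (XT.lf (nat_lit 0) (nat_lit 63941878811) (nat_lit 76) (nat_lit 301290563371) (nat_lit 76) (nat_lit 232401309666) (nat_lit 1) (nat_lit 4) (nat_lit 2) (nat_lit 5) (nat_lit 2) (nat_lit 4) (nat_lit 318) (nat_lit 258) (nat_lit 144)))) (XT.nd (nat_lit 78) (nat_lit 0) (nat_lit 0) (XT.lf (nat_lit 0) (nat_lit 104356958561) (nat_lit 76) (nat_lit 304180113344) (nat_lit 76) (nat_lit 235290069731) (nat_lit 1) (nat_lit 4) (nat_lit 2) (nat_lit 5) (nat_lit 2) (nat_lit 4)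 (nat_lit 319) (nat_lit 258) (nat_lit 143)) (XT.nd (nat_lit 78) (nat_lit 0) (nat_lit 0) (XT.lf (nat_lit 0) (nat_lit 148004465508) (nat_lit 76) (nat_lit 307301173905) (nat_lit 76) (nat_lit 238410398894) (nat_lit 1) (nat_lit 4) (nat_lit 2) (nat_lit 5) (nat_lit 2) (nat_lit 4) (nat_lit 320) (nat_lit 258) (nat_lit 142)) (XT.lf (nat_lit 0) (nat_lit 195143051544) (nat_lit 76) (nat_lit 310672240226) (nat_lit 76) (nat_lit 241780787996) (nat_lit 1) (nat_lit 4) (nat_lit 2) (nat_lit 5) (nat_lit 2) (nat_lit 4) (nat_lit 321) (nat_lit 258) (nat_lit 141))))) (XT.nd (nat_lit 234) (nat_lit 0) (nat_lit 0) (XT.nd (nat_lit 78) (nat_lit 0) (nat_lit 0) (XT.lf (nat_lit 0) (nat_lit 246052056440) (nat_lit 76) (nat_lit 314313288997) (nat_lit 76) (nat_lit 245421209712) (nat_lit 1) (nat_lit 4) (nat_lit 2) (nat_lit 5) (nat_lit 2) (nat_lit 4) (nat_lit 322) (nat_lit 258) (nat_lit 140)) (XT.nd (nat_lit 78) (nat_lit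 0) (nat_lit 0) (XT.lf (nat_lit 0) (nat_lit 301033163186) (nat_lit 76) (nat_lit 318245896804) (nat_lit 76) (nat_lit 249353236913) (nat_lit 1) (nat_lit 4) (nat_lit 2) (nat_lit 5) (nat_lit 2) (nat_lit 4) (nat_lit 323) (nat_lit 258) (nat_lit 139)) (XT.lf (nat_lit 0) (nat_lit 360412185749) (nat_lit 76) (nat_lit 322493367988) (nat_lit 76) (nat_lit 253600170499) (nat_lit 1) (nat_lit 4) (nat_lit 2) (nat_lit 5) (nat_lit 2) (nat_lit 4) (nat_lit 324) (nat_lit 258) (nat_lit 138)))) (XT.nd (nat_lit 78) (nat_lit 0) (nat_lit 0) (XT.lf (nat_lit 0) (nat_lit 424540999818) (nat_lit 76) (nat_lit 327080872750) (nat_lit 76) (nat_lit 258187177484) (nat_lit 1) (nat_lit 4) (nat_lit 2) (nat_lit 5) (nat_lit 2) (nat_lit 4) (nat_lit 325) (nat_lit 258) (nat_lit 137)) (XT.nd (nat_lit 78) (nat_lit 0) (nat_lit 0) (XT.lf (nat_lit 0) (nat_lit 493799627995) (nat_lit 76) (nat_lit 332035596303) (nat_lit 76) (nat_lit 263141440133)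 (nat_lit 1) (nat_lit 4) (nat_lit 2) (nat_lit 5) (nat_lit 2) (nat_lit 4) (nat_lit 326) (nat_lit 258) (nat_lit 136)) (XT.lf (nat_lit 0) (nat_lit 568598491780) (nat_lit 76) (nat_lit 337386899971) (nat_lit 76) (nat_lit 268492317039) (nat_lit 1) (nat_lit 4) (nat_lit 2) (nat_lit 5) (nat_lit 2) (nat_lit 4) (nat_lit 327) (nat_lit 258) (nat_lit 135)))))) (XT.nd (nat_lit 32136) (nat_lit 0) (nat_lit 2128) (XT.nd (nat_lit 234) (nat_lit 0) (nat_lit 0) (XT.nd (nat_lit 78) (nat_lit 0) (nat_lit 0) (XT.lf (nat_lit 0) (nat_lit 649380843700) (nat_lit 76) (nat_lit 343166495185) (nat_lit 76) (nat_lit 274271517101) (nat_lit 1) (nat_lit 4) (nat_lit 2) (nat_lit 5) (nat_lit 2) (nat_lit 4) (nat_lit 328) (nat_lit 258) (nat_lit 134)) (XT.nd (nat_lit 78) (nat_lit 0) (nat_lit 0) (XT.lf (nat_lit 0) (nat_lit 736625393987) (nat_lit 76) (nat_lit 349408631396) (nat_lit 76) (nat_lit 280513287432) (nat_lit 1) (nat_lit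 4) (nat_lit 2) (nat_lit 5) (nat_lit 2) (nat_lit 4) (nat_lit 329) (nat_lit 258) (nat_lit 133)) (XT.lf (nat_lit 0) (nat_lit 830849147385) (nat_lit 76) (nat_lit 356150299042) (nat_lit 76) (nat_lit 287254616300) (nat_lit 1) (nat_lit 4) (nat_lit 2) (nat_lit 5) (nat_lit 2) (nat_lit 4) (nat_lit 330) (nat_lit 258) (nat_lit 132)))) (XT.nd (nat_lit 78) (nat_lit 0) (nat_lit 0) (XT.lf (nat_lit 0) (nat_lit 932610466876) (nat_lit 76) (nat_lit 363431448746) (nat_lit 76) (nat_lit 294535452320) (nat_lit 1) (nat_lit 4) (nat_lit 2) (nat_lit 5) (nat_lit 2) (nat_lit 4) (nat_lit 331) (nat_lit 258) (nat_lit 131)) (XT.nd (nat_lit 78) (nat_lit 0) (nat_lit 0) (XT.lf (nat_lit 0) (nat_lit 1042512382502) (nat_lit 76) (nat_lit 371295228062) (nat_lit 76) (nat_lit 302398941188) (nat_lit 1) (nat_lit 4) (nat_lit 2) (nat_lit 5) (nat_lit 2) (nat_lit 4) (nat_lit 332) (nat_lit 258) (nat_lit 130)) (XT.lf (nat_lit 0) (nat_lit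 1161206164874) (nat_lit 76) (nat_lit 379788237163) (nat_lit 76) (nat_lit 310891681356) (nat_lit 1) (nat_lit 4) (nat_lit 2) (nat_lit 5) (nat_lit 2) (nat_lit 4) (nat_lit 333) (nat_lit 258) (nat_lit 129))))) (XT.nd (nat_lit 234) (nat_lit 0) (nat_lit 76) (XT.nd (nat_lit 78) (nat_lit 0) (nat_lit 0) (XT.lf (nat_lit 0) (nat_lit 756662821) (nat_lit 532) (nat_lit 4097835776) (nat_lit 532) (nat_lit 4097835776) (nat_lit 29) (nat_lit 3) (nat_lit 36) (nat_lit 3) (nat_lit 36) (nat_lit 5) (nat_lit 259) (nat_lit 259) (nat_lit 202)) (XT.nd (nat_lit 78) (nat_lit 0) (nat_lit 76) (XT.lf (nat_lit 0) (nat_lit 1755022320) (nat_lit 532) (nat_lit 929751524) (nat_lit 532) (nat_lit 15920299547) (nat_lit 29) (nat_lit 3) (nat_lit 36) (nat_lit 3) (nat_lit 36) (nat_lit 5) (nat_lit 260) (nat_lit 259) (nat_lit 201)) (XT.lf (nat_lit 0) (nat_lit 2295425027) (nat_lit 456) (nat_lit 12200387463) (nat_lit 532) (nat_lit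 4843477254) (nat_lit 30) (nat_lit 5) (nat_lit 36) (nat_lit 5) (nat_lit 37) (nat_lit 5) (nat_lit 261) (nat_lit 259) (nat_lit 200)))) (XT.nd (nat_lit 78) (nat_lit 0) (nat_lit 76) (XT.lf (nat_lit 0) (nat_lit 2958040485) (nat_lit 456) (nat_lit 4305941531) (nat_lit 532) (nat_lit 12862062359) (nat_lit 30) (nat_lit 5) (nat_lit 36) (nat_lit 5) (nat_lit 37) (nat_lit 5) (nat_lit 262) (nat_lit 259) (nat_lit 199)) (XT.nd (nat_lit 78) (nat_lit 0) (nat_lit 0) (XT.lf (nat_lit 0) (nat_lit 3780683085) (nat_lit 456) (nat_lit 16553299481) (nat_lit 532) (nat_lit 633305943) (nat_lit 31) (nat_lit 5) (nat_lit 37) (nat_lit 5) (nat_lit 38) (nat_lit 5) (nat_lit 263) (nat_lit 259) (nat_lit 198)) (XT.lf (nat_lit 0) (nat_lit 4964032689) (nat_lit 456) (nat_lit 7993298054) (nat_lit 532) (nat_lit 8895012159) (nat_lit 31) (nat_lit 5) (nat_lit 37) (nat_lit 5) (nat_lit 38) (nat_lit 5) (nat_lit 264) (nat_lit 259) (nat_lit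 197))))))))
noncomputable def xc84 : XT := (XT.nd (nat_lit 1794) (nat_lit 532) (nat_lit 0) (XT.nd (nat_lit 858) (nat_lit 608) (nat_lit 0) (XT.nd (nat_lit 390) (nat_lit 684) (nat_lit 0) (XT.nd (nat_lit 156) (nat_lit 380) (nat_lit 0) (XT.nd (nat_lit 78) (nat_lit 0) (nat_lit 76) (XT.lf (nat_lit 76) (nat_lit 1306149449) (nat_lit 0) (nat_lit 4953823635) (nat_lit 532) (nat_lit 16546889528) (nat_lit 32) (nat_lit 5) (nat_lit 31) (nat_lit 5) (nat_lit 38) (nat_lit 5) (nat_lit 265) (nat_lit 259) (nat_lit 196)) (XT.lf (nat_lit 0) (nat_lit 7959874307) (nat_lit 456) (nat_lit 12122126583) (nat_lit 76) (nat_lit 3731807932) (nat_lit 32) (nat_lit 5) (nat_lit 38) (nat_lit 5) (nat_lit 33) (nat_lit 5) (nat_lit 266) (nat_lit 259) (nat_lit 195))) (XT.nd (nat_lit 78) (nat_lit 456) (nat_lit 0) (XT.lf (nat_lit 0) (nat_lit 9912692342) (nat_lit 456) (nat_lit 2132650749) (nat_lit 76) (nat_lit 12846694929) (nat_lit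 32) (nat_lit 5) (nat_lit 38) (nat_lit 5) (nat_lit 33) (nat_lit 5) (nat_lit 267) (nat_lit 259) (nat_lit 194)) (XT.nd (nat_lit 78) (nat_lit 0) (nat_lit 0) (XT.lf (nat_lit 0) (nat_lit 9101336523) (nat_lit 456) (nat_lit 3128410706) (nat_lit 532) (nat_lit 13810212661) (nat_lit 26) (nat_lit 5) (nat_lit 32) (nat_lit 5) (nat_lit 33) (nat_lit 5) (nat_lit 268) (nat_lit 259) (nat_lit 193)) (XT.lf (nat_lit 0) (nat_lit 14938073610) (nat_lit 532) (nat_lit 6088196780) (nat_lit 76) (nat_lit 6237042227) (nat_lit 26) (nat_lit 5) (nat_lit 33) (nat_lit 5) (nat_lit 27) (nat_lit 5) (nat_lit 269) (nat_lit 259) (nat_lit 192))))) (XT.nd (nat_lit 234) (nat_lit 304) (nat_lit 0) (XT.nd (nat_lit 78) (nat_lit 152) (nat_lit 0) (XT.lf (nat_lit 0) (nat_lit 5830885675) (nat_lit 228) (nat_lit 12244144688) (nat_lit 304) (nat_lit 10492610571) (nat_lit 23) (nat_lit 5) (nat_lit 26) (nat_lit 5) (nat_lit 27) (nat_lit 5)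 (nat_lit 270) (nat_lit 259) (nat_lit 191)) (XT.nd (nat_lit 78) (nat_lit 152) (nat_lit 0) (XT.lf (nat_lit 0) (nat_lit 19040178755) (nat_lit 228) (nat_lit 2580176680) (nat_lit 304) (nat_lit 8343426874) (nat_lit 23) (nat_lit 5) (nat_lit 26) (nat_lit 5) (nat_lit 27) (nat_lit 5) (nat_lit 271) (nat_lit 259) (nat_lit 190)) (XT.lf (nat_lit 0) (nat_lit 1722230800) (nat_lit 152) (nat_lit 23949063048) (nat_lit 228) (nat_lit 5782617471) (nat_lit 21) (nat_lit 5) (nat_lit 23) (nat_lit 5) (nat_lit 24) (nat_lit 5) (nat_lit 272) (nat_lit 259) (nat_lit 189)))) (XT.nd (nat_lit 78) (nat_lit 304) (nat_lit 0) (XT.lf (nat_lit 0) (nat_lit 15921098830) (nat_lit 152) (nat_lit 14481206296) (nat_lit 228) (nat_lit 2632516912) (nat_lit 21) (nat_lit 5) (nat_lit 23) (nat_lit 5) (nat_lit 24) (nat_lit 5) (nat_lit 273) (nat_lit 259) (nat_lit 188)) (XT.nd (nat_lit 78) (nat_lit 228) (nat_lit 0) (XT.lf (nat_lit 0) (nat_lit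 723454619) (nat_lit 228) (nat_lit 3513915177) (nat_lit 76) (nat_lit 30504010149) (nat_lit 20) (nat_lit 5) (nat_lit 23) (nat_lit 5) (nat_lit 21) (nat_lit 5) (nat_lit 274) (nat_lit 259) (nat_lit 187)) (XT.lf (nat_lit 0) (nat_lit 4652751536) (nat_lit 304) (nat_lit 25048880605) (nat_lit 76) (nat_lit 6841635077) (nat_lit 17) (nat_lit 5) (nat_lit 21) (nat_lit 5) (nat_lit 18) (nat_lit 5) (nat_lit 275) (nat_lit 259) (nat_lit 186)))))) (XT.nd (nat_lit 468) (nat_lit 304) (nat_lit 0) (XT.nd (nat_lit 234) (nat_lit 152) (nat_lit 0) (XT.nd (nat_lit 78) (nat_lit 152) (nat_lit 0) (XT.lf (nat_lit 0) (nat_lit 9098244943) (nat_lit 304) (nat_lit 10699718946) (nat_lit 76) (nat_lit 18675231008) (nat_lit 17) (nat_lit 5) (nat_lit 21) (nat_lit 5) (nat_lit 18) (nat_lit 5) (nat_lit 276) (nat_lit 259) (nat_lit 185)) (XT.nd (nat_lit 78) (nat_lit 0) (nat_lit 0) (XT.lf (nat_lit 0) (nat_lit 5041483501) (nat_lit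 152) (nat_lit 8972863432) (nat_lit 228) (nat_lit 26534007181) (nat_lit 15) (nat_lit 5) (nat_lit 17) (nat_lit 5) (nat_lit 18) (nat_lit 5) (nat_lit 277) (nat_lit 259) (nat_lit 184)) (XT.lf (nat_lit 0) (nat_lit 19683210517) (nat_lit 228) (nat_lit 20196960169) (nat_lit 76) (nat_lit 2880629783) (nat_lit 15) (nat_lit 5) (nat_lit 18) (nat_lit 5) (nat_lit 16) (nat_lit 5) (nat_lit 278) (nat_lit 259) (nat_lit 183)))) (XT.nd (nat_lit 78) (nat_lit 152) (nat_lit 0) (XT.lf (nat_lit 0) (nat_lit 26033044216) (nat_lit 228) (nat_lit 3903049890) (nat_lit 76) (nat_lit 15195981426) (nat_lit 15) (nat_lit 5) (nat_lit 18) (nat_lit 5) (nat_lit 16) (nat_lit 5) (nat_lit 279) (nat_lit 259) (nat_lit 182)) (XT.nd (nat_lit 78) (nat_lit 0) (nat_lit 0) (XT.lf (nat_lit 0) (nat_lit 14407958762) (nat_lit 152) (nat_lit 18824232087) (nat_lit 228) (nat_lit 14433583321) (nat_lit 13) (nat_lit 5) (nat_lit 15) (nat_lit 5)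 (nat_lit 16) (nat_lit 5) (nat_lit 280) (nat_lit 259) (nat_lit 181)) (XT.lf (nat_lit 0) (nat_lit 34398840349) (nat_lit 152) (nat_lit 6710175947) (nat_lit 228) (nat_lit 9285038255) (nat_lit 13) (nat_lit 5) (nat_lit 15) (nat_lit 5) (nat_lit 16) (nat_lit 5) (nat_lit 281) (nat_lit 259) (nat_lit 180))))) (XT.nd (nat_lit 234) (nat_lit 152) (nat_lit 0) (XT.nd (nat_lit 78) (nat_lit 76) (nat_lit 0) (XT.lf (nat_lit 0) (nat_lit 2619346625) (nat_lit 76) (nat_lit 47208261567) (nat_lit 152) (nat_lit 3496083260) (nat_lit 12) (nat_lit 5) (nat_lit 13) (nat_lit 5) (nat_lit 14) (nat_lit 4) (nat_lit 282) (nat_lit 259) (nat_lit 179)) (XT.nd (nat_lit 78) (nat_lit 0) (nat_lit 0) (XT.lf (nat_lit 0) (nat_lit 3236511604) (nat_lit 152) (nat_lit 33078807257) (nat_lit 76) (nat_lit 20117627122) (nat_lit 11) (nat_lit 5) (nat_lit 13) (nat_lit 5) (nat_lit 12) (nat_lit 5) (nat_lit 283) (nat_lit 259) (nat_lit 178))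 (XT.lf (nat_lit 0) (nat_lit 10314577308) (nat_lit 152) (nat_lit 14140421071) (nat_lit 76) (nat_lit 35329037336) (nat_lit 11) (nat_lit 5) (nat_lit 13) (nat_lit 5) (nat_lit 12) (nat_lit 5) (nat_lit 284) (nat_lit 259) (nat_lit 177)))) (XT.nd (nat_lit 78) (nat_lit 0) (nat_lit 0) (XT.lf (nat_lit 0) (nat_lit 6639243961) (nat_lit 152) (nat_lit 11475376201) (nat_lit 228) (nat_lit 45276151347) (nat_lit 9) (nat_lit 5) (nat_lit 11) (nat_lit 5) (nat_lit 12) (nat_lit 5) (nat_lit 285) (nat_lit 259) (nat_lit 176)) (XT.nd (nat_lit 78) (nat_lit 0) (nat_lit 0) (XT.lf (nat_lit 0) (nat_lit 26992646559) (nat_lit 228) (nat_lit 37446883848) (nat_lit 76) (nat_lit 2810213496) (nat_lit 9) (nat_lit 5) (nat_lit 12) (nat_lit 5) (nat_lit 10) (nat_lit 4) (nat_lit 286) (nat_lit 259) (nat_lit 175)) (XT.lf (nat_lit 0) (nat_lit 36875424736) (nat_lit 228) (nat_lit 16901519194) (nat_lit 76) (nat_lit 17616944334) (nat_lit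 9) (nat_lit 5) (nat_lit 12) (nat_lit 5) (nat_lit 10) (nat_lit 4) (nat_lit 287) (nat_lit 259) (nat_lit 174))))))) (XT.nd (nat_lit 936) (nat_lit 228) (nat_lit 0) (XT.nd (nat_lit 468) (nat_lit 76) (nat_lit 0) (XT.nd (nat_lit 234) (nat_lit 152) (nat_lit 0) (XT.nd (nat_lit 78) (nat_lit 0) (nat_lit 0) (XT.lf (nat_lit 0) (nat_lit 5560456339) (nat_lit 76) (nat_lit 42118808999) (nat_lit 152) (nat_lit 28179877462) (nat_lit 8) (nat_lit 5) (nat_lit 9) (nat_lit 5) (nat_lit 10) (nat_lit 4) (nat_lit 288) (nat_lit 259) (nat_lit 173)) (XT.nd (nat_lit 78) (nat_lit 0) (nat_lit 0) (XT.lf (nat_lit 0) (nat_lit 30775550461) (nat_lit 76) (nat_lit 29030813600) (nat_lit 152) (nat_lit 20838550385) (nat_lit 8) (nat_lit 5) (nat_lit 9) (nat_lit 5) (nat_lit 10) (nat_lit 4) (nat_lit 289) (nat_lit 259) (nat_lit 172)) (XT.lf (nat_lit 0) (nat_lit 58003181900) (nat_lit 76) (nat_lit 14897516730) (nat_lit 152) (nat_lit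 12913095624) (nat_lit 8) (nat_lit 5) (nat_lit 9) (nat_lit 5) (nat_lit 10) (nat_lit 4) (nat_lit 290) (nat_lit 259) (nat_lit 171)))) (XT.nd (nat_lit 78) (nat_lit 152) (nat_lit 0) (XT.lf (nat_lit 0) (nat_lit 87048639381) (nat_lit 152) (nat_lit 4000487319) (nat_lit 0) (nat_lit 346583982) (nat_lit 8) (nat_lit 5) (nat_lit 10) (nat_lit 4) (nat_lit 8) (nat_lit 4) (nat_lit 291) (nat_lit 259) (nat_lit 170)) (XT.nd (nat_lit 78) (nat_lit 0) (nat_lit 0) (XT.lf (nat_lit 0) (nat_lit 5607131343) (nat_lit 152) (nat_lit 75046036830) (nat_lit 76) (nat_lit 16685727828) (nat_lit 6) (nat_lit 5) (nat_lit 8) (nat_lit 5) (nat_lit 7) (nat_lit 4) (nat_lit 292) (nat_lit 259) (nat_lit 169)) (XT.lf (nat_lit 0) (nat_lit 16232505378) (nat_lit 152) (nat_lit 52951568675) (nat_lit 76) (nat_lit 34555662744) (nat_lit 6) (nat_lit 5) (nat_lit 8) (nat_lit 5) (nat_lit 7) (nat_lit 4) (nat_lit 293) (nat_lit 259) (nat_lit 168)))))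 (XT.nd (nat_lit 234) (nat_lit 0) (nat_lit 0) (XT.nd (nat_lit 78) (nat_lit 76) (nat_lit 0) (XT.lf (nat_lit 0) (nat_lit 27705565333) (nat_lit 152) (nat_lit 29093446411) (nat_lit 76) (nat_lit 53853828710) (nat_lit 6) (nat_lit 5) (nat_lit 8) (nat_lit 5) (nat_lit 7) (nat_lit 4) (nat_lit 294) (nat_lit 259) (nat_lit 167)) (XT.nd (nat_lit 78) (nat_lit 76) (nat_lit 0) (XT.lf (nat_lit 0) (nat_lit 40094299712) (nat_lit 152) (nat_lit 3330288571) (nat_lit 76) (nat_lit 74694585227) (nat_lit 6) (nat_lit 5) (nat_lit 8) (nat_lit 5) (nat_lit 7) (nat_lit 4) (nat_lit 295) (nat_lit 259) (nat_lit 166)) (XT.lf (nat_lit 0) (nat_lit 25780205709) (nat_lit 76) (nat_lit 28311932096) (nat_lit 152) (nat_lit 72041241933) (nat_lit 5) (nat_lit 5) (nat_lit 6) (nat_lit 5) (nat_lit 7) (nat_lit 4) (nat_lit 296) (nat_lit 259) (nat_lit 165)))) (XT.nd (nat_lit 78) (nat_lit 0) (nat_lit 0) (XT.lf (nat_lit 0) (nat_lit 57405674227)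 (nat_lit 76) (nat_lit 11893245519) (nat_lit 152) (nat_lit 65482679785) (nat_lit 5) (nat_lit 5) (nat_lit 6) (nat_lit 5) (nat_lit 7) (nat_lit 4) (nat_lit 297) (nat_lit 259) (nat_lit 164)) (XT.nd (nat_lit 78) (nat_lit 0) (nat_lit 0) (XT.lf (nat_lit 0) (nat_lit 85860845795) (nat_lit 152) (nat_lit 52704063514) (nat_lit 0) (nat_lit 5545685411) (nat_lit 5) (nat_lit 5) (nat_lit 7) (nat_lit 4) (nat_lit 5) (nat_lit 4) (nat_lit 298) (nat_lit 259) (nat_lit 163)) (XT.lf (nat_lit 0) (nat_lit 104054951583) (nat_lit 152) (nat_lit 26370275916) (nat_lit 0) (nat_lit 23736109469) (nat_lit 5) (nat_lit 5) (nat_lit 7) (nat_lit 4) (nat_lit 5) (nat_lit 4) (nat_lit 299) (nat_lit 259) (nat_lit 162)))))) (XT.nd (nat_lit 468) (nat_lit 76) (nat_lit 0) (XT.nd (nat_lit 234) (nat_lit 76) (nat_lit 0) (XT.nd (nat_lit 78) (nat_lit 0) (nat_lit 0) (XT.lf (nat_lit 0) (nat_lit 2176394468) (nat_lit 76) (nat_lit 121578969063)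 (nat_lit 76) (nat_lit 41256717939) (nat_lit 4) (nat_lit 4) (nat_lit 5) (nat_lit 5) (nat_lit 5) (nat_lit 4) (nat_lit 300) (nat_lit 259) (nat_lit 161)) (XT.nd (nat_lit 78) (nat_lit 0) (nat_lit 0) (XT.lf (nat_lit 0) (nat_lit 34503875316) (nat_lit 76) (nat_lit 111247431343) (nat_lit 76) (nat_lit 30922023729) (nat_lit 4) (nat_lit 4) (nat_lit 5) (nat_lit 5) (nat_lit 5) (nat_lit 4) (nat_lit 301) (nat_lit 259) (nat_lit 160)) (XT.lf (nat_lit 0) (nat_lit 69415124884) (nat_lit 76) (nat_lit 100090400487) (nat_lit 76) (nat_lit 19762070198) (nat_lit 4) (nat_lit 4) (nat_lit 5) (nat_lit 5) (nat_lit 5) (nat_lit 4) (nat_lit 302) (nat_lit 259) (nat_lit 159)))) (XT.nd (nat_lit 78) (nat_lit 76) (nat_lit 0) (XT.lf (nat_lit 0) (nat_lit 107117024653) (nat_lit 76) (nat_lit 88041760759) (nat_lit 76) (nat_lit 7710724288) (nat_lit 4) (nat_lit 4) (nat_lit 5) (nat_lit 5) (nat_lit 5) (nat_lit 4) (nat_lit 303) (nat_lit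 259) (nat_lit 158)) (XT.nd (nat_lit 78) (nat_lit 0) (nat_lit 0) (XT.lf (nat_lit 0) (nat_lit 5038130366) (nat_lit 152) (nat_lit 69854231032) (nat_lit 76) (nat_lit 142657111509) (nat_lit 3) (nat_lit 5) (nat_lit 5) (nat_lit 5) (nat_lit 4) (nat_lit 4) (nat_lit 304) (nat_lit 259) (nat_lit 157)) (XT.lf (nat_lit 0) (nat_lit 18389170591) (nat_lit 152) (nat_lit 42086387477) (nat_lit 76) (nat_lit 172912347497) (nat_lit 3) (nat_lit 5) (nat_lit 5) (nat_lit 5) (nat_lit 4) (nat_lit 4) (nat_lit 305) (nat_lit 259) (nat_lit 156))))) (XT.nd (nat_lit 234) (nat_lit 0) (nat_lit 0) (XT.nd (nat_lit 78) (nat_lit 76) (nat_lit 0) (XT.lf (nat_lit 0) (nat_lit 32807235321) (nat_lit 152) (nat_lit 12098961093) (nat_lit 76) (nat_lit 205587304089) (nat_lit 3) (nat_lit 5) (nat_lit 5) (nat_lit 5) (nat_lit 4) (nat_lit 4) (nat_lit 306) (nat_lit 259) (nat_lit 155)) (XT.nd (nat_lit 78) (nat_lit 0) (nat_lit 0) (XT.lf (nat_lit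 0) (nat_lit 21353963104) (nat_lit 76) (nat_lit 27537365160) (nat_lit 152) (nat_lit 220035210880) (nat_lit 2) (nat_lit 5) (nat_lit 3) (nat_lit 5) (nat_lit 4) (nat_lit 4) (nat_lit 307) (nat_lit 259) (nat_lit 154)) (XT.lf (nat_lit 0) (nat_lit 58169535102) (nat_lit 76) (nat_lit 8422472864) (nat_lit 152) (nat_lit 222215826709) (nat_lit 2) (nat_lit 5) (nat_lit 3) (nat_lit 5) (nat_lit 4) (nat_lit 4) (nat_lit 308) (nat_lit 259) (nat_lit 153)))) (XT.nd (nat_lit 78) (nat_lit 0) (nat_lit 0) (XT.lf (nat_lit 0) (nat_lit 86001778597) (nat_lit 152) (nat_lit 212644809072) (nat_lit 0) (nat_lit 11609605614) (nat_lit 2) (nat_lit 5) (nat_lit 4) (nat_lit 4) (nat_lit 2) (nat_lit 4) (nat_lit 309) (nat_lit 259) (nat_lit 152)) (XT.nd (nat_lit 78) (nat_lit 0) (nat_lit 0) (XT.lf (nat_lit 0) (nat_lit 107182269109) (nat_lit 152) (nat_lit 193432084532) (nat_lit 0) (nat_lit 32788634061) (nat_lit 2) (nat_lit 5)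 (nat_lit 4) (nat_lit 4) (nat_lit 2) (nat_lit 4) (nat_lit 310) (nat_lit 259) (nat_lit 151)) (XT.lf (nat_lit 0) (nat_lit 130056432846) (nat_lit 152) (nat_lit 172683712099) (nat_lit 0) (nat_lit 55661444033) (nat_lit 2) (nat_lit 5) (nat_lit 4) (nat_lit 4) (nat_lit 2) (nat_lit 4) (nat_lit 311) (nat_lit 259) (nat_lit 150))))))))
noncomputable def xc85 : XT := (XT.nd (nat_lit 33696) (nat_lit 0) (nat_lit 608) (XT.nd (nat_lit 936) (nat_lit 0) (nat_lit 0) (XT.nd (nat_lit 468) (nat_lit 76) (nat_lit 0) (XT.nd (nat_lit 234) (nat_lit 0) (nat_lit 0) (XT.nd (nat_lit 78) (nat_lit 0) (nat_lit 0) (XT.lf (nat_lit 0) (nat_lit 154759820408) (nat_lit 152) (nat_lit 150276738452) (nat_lit 0) (nat_lit 80363578110) (nat_lit 2) (nat_lit 5) (nat_lit 4) (nat_lit 4) (nat_lit 2) (nat_lit 4) (nat_lit 312) (nat_lit 259) (nat_lit 149)) (XT.nd (nat_lit 78) (nat_lit 0) (nat_lit 0) (XT.lf (nat_lit 0) (nat_lit 181438822239)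 (nat_lit 152) (nat_lit 126078381526) (nat_lit 0) (nat_lit 107041419306) (nat_lit 2) (nat_lit 5) (nat_lit 4) (nat_lit 4) (nat_lit 2) (nat_lit 4) (nat_lit 313) (nat_lit 259) (nat_lit 148)) (XT.lf (nat_lit 0) (nat_lit 210251536129) (nat_lit 152) (nat_lit 99945243651) (nat_lit 0) (nat_lit 135853058534) (nat_lit 2) (nat_lit 5) (nat_lit 4) (nat_lit 4) (nat_lit 2) (nat_lit 4) (nat_lit 314) (nat_lit 259) (nat_lit 147)))) (XT.nd (nat_lit 78) (nat_lit 0) (nat_lit 0) (XT.lf (nat_lit 0) (nat_lit 241368704084) (nat_lit 152) (nat_lit 71722461788) (nat_lit 0) (nat_lit 166969231432) (nat_lit 2) (nat_lit 5) (nat_lit 4) (nat_lit 4) (nat_lit 2) (nat_lit 4) (nat_lit 315) (nat_lit 259) (nat_lit 146)) (XT.nd (nat_lit 78) (nat_lit 0) (nat_lit 0) (XT.lf (nat_lit 0) (nat_lit 274974724139) (nat_lit 152) (nat_lit 41242789820) (nat_lit 0) (nat_lit 200574330137) (nat_lit 2) (nat_lit 5) (nat_lit 4) (nat_lit 4)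 (nat_lit 2) (nat_lit 4) (nat_lit 316) (nat_lit 259) (nat_lit 145)) (XT.lf (nat_lit 0) (nat_lit 311268743077) (nat_lit 152) (nat_lit 8325607471) (nat_lit 0) (nat_lit 236867495974) (nat_lit 2) (nat_lit 5) (nat_lit 4) (nat_lit 4) (nat_lit 2) (nat_lit 4) (nat_lit 317) (nat_lit 259) (nat_lit 144))))) (XT.nd (nat_lit 234) (nat_lit 0) (nat_lit 0) (XT.nd (nat_lit 78) (nat_lit 0) (nat_lit 0) (XT.lf (nat_lit 0) (nat_lit 28657725539) (nat_lit 76) (nat_lit 322497330017) (nat_lit 76) (nat_lit 248095293005) (nat_lit 1) (nat_lit 4) (nat_lit 2) (nat_lit 5) (nat_lit 2) (nat_lit 4) (nat_lit 318) (nat_lit 259) (nat_lit 143)) (XT.nd (nat_lit 78) (nat_lit 0) (nat_lit 0) (XT.lf (nat_lit 0) (nat_lit 69072430682) (nat_lit 76) (nat_lit 325387046619) (nat_lit 76) (nat_lit 250984278211) (nat_lit 1) (nat_lit 4) (nat_lit 2) (nat_lit 5) (nat_lit 2) (nat_lit 4) (nat_lit 319) (nat_lit 259) (nat_lit 142)) (XT.lf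 (nat_lit 0) (nat_lit 112719590770) (nat_lit 76) (nat_lit 328508261466) (nat_lit 76) (nat_lit 254104815839) (nat_lit 1) (nat_lit 4) (nat_lit 2) (nat_lit 5) (nat_lit 2) (nat_lit 4) (nat_lit 320) (nat_lit 259) (nat_lit 141)))) (XT.nd (nat_lit 78) (nat_lit 0) (nat_lit 0) (XT.lf (nat_lit 0) (nat_lit 159857855641) (nat_lit 76) (nat_lit 331879470645) (nat_lit 76) (nat_lit 257475397963) (nat_lit 1) (nat_lit 4) (nat_lit 2) (nat_lit 5) (nat_lit 2) (nat_lit 4) (nat_lit 321) (nat_lit 259) (nat_lit 140)) (XT.nd (nat_lit 78) (nat_lit 0) (nat_lit 0) (XT.lf (nat_lit 0) (nat_lit 210766563161) (nat_lit 76) (nat_lit 335520651692) (nat_lit 76) (nat_lit 261115998404) (nat_lit 1) (nat_lit 4) (nat_lit 2) (nat_lit 5) (nat_lit 2) (nat_lit 4) (nat_lit 322) (nat_lit 259) (nat_lit 139)) (XT.lf (nat_lit 0) (nat_lit 265747394560) (nat_lit 76) (nat_lit 339453381977) (nat_lit 76) (nat_lit 265048191089) (nat_lit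 1) (nat_lit 4) (nat_lit 2) (nat_lit 5) (nat_lit 2) (nat_lit 4) (nat_lit 323) (nat_lit 259) (nat_lit 138)))))) (XT.nd (nat_lit 468) (nat_lit 0) (nat_lit 0) (XT.nd (nat_lit 234) (nat_lit 0) (nat_lit 0) (XT.nd (nat_lit 78) (nat_lit 0) (nat_lit 0) (XT.lf (nat_lit 0) (nat_lit 325126162172) (nat_lit 76) (nat_lit 343700966566) (nat_lit 76) (nat_lit 269295277903) (nat_lit 1) (nat_lit 4) (nat_lit 2) (nat_lit 5) (nat_lit 2) (nat_lit 4) (nat_lit 324) (nat_lit 259) (nat_lit 137)) (XT.nd (nat_lit 78) (nat_lit 0) (nat_lit 0) (XT.lf (nat_lit 0) (nat_lit 389254740174) (nat_lit 76) (nat_lit 348288576333) (nat_lit 76) (nat_lit 273882426765) (nat_lit 1) (nat_lit 4) (nat_lit 2) (nat_lit 5) (nat_lit 2) (nat_lit 4) (nat_lit 325) (nat_lit 259) (nat_lit 136)) (XT.lf (nat_lit 0) (nat_lit 458513149772) (nat_lit 76) (nat_lit 353243397112) (nat_lit 76) (nat_lit 278836820782) (nat_lit 1) (nat_lit 4) (nat_lit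 2) (nat_lit 5) (nat_lit 2) (nat_lit 4) (nat_lit 326) (nat_lit 259) (nat_lit 135)))) (XT.nd (nat_lit 78) (nat_lit 0) (nat_lit 0) (XT.lf (nat_lit 0) (nat_lit 533311811168) (nat_lit 76) (nat_lit 358594790806) (nat_lit 76) (nat_lit 284187819324) (nat_lit 1) (nat_lit 4) (nat_lit 2) (nat_lit 5) (nat_lit 2) (nat_lit 4) (nat_lit 327) (nat_lit 259) (nat_lit 134)) (XT.nd (nat_lit 78) (nat_lit 0) (nat_lit 0) (XT.lf (nat_lit 0) (nat_lit 614093975690) (nat_lit 76) (nat_lit 364374469375) (nat_lit 76) (nat_lit 289967132013) (nat_lit 1) (nat_lit 4) (nat_lit 2) (nat_lit 5) (nat_lit 2) (nat_lit 4) (nat_lit 328) (nat_lit 259) (nat_lit 133)) (XT.lf (nat_lit 0) (nat_lit 701338352462) (nat_lit 76) (nat_lit 370616682768) (nat_lit 76) (nat_lit 296209006628) (nat_lit 1) (nat_lit 4) (nat_lit 2) (nat_lit 5) (nat_lit 2) (nat_lit 4) (nat_lit 329) (nat_lit 259) (nat_lit 132))))) (XT.nd (nat_lit 32058) (nat_lit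 0) (nat_lit 2128) (XT.nd (nat_lit 78) (nat_lit 0) (nat_lit 0) (XT.lf (nat_lit 0) (nat_lit 795561945197) (nat_lit 76) (nat_lit 377358421879) (nat_lit 76) (nat_lit 302950432055) (nat_lit 1) (nat_lit 4) (nat_lit 2) (nat_lit 5) (nat_lit 2) (nat_lit 4) (nat_lit 330) (nat_lit 259) (nat_lit 131)) (XT.nd (nat_lit 78) (nat_lit 0) (nat_lit 0) (XT.lf (nat_lit 0) (nat_lit 897323115927) (nat_lit 76) (nat_lit 384639637753) (nat_lit 76) (nat_lit 310231357482) (nat_lit 1) (nat_lit 4) (nat_lit 2) (nat_lit 5) (nat_lit 2) (nat_lit 4) (nat_lit 331) (nat_lit 259) (nat_lit 130)) (XT.lf (nat_lit 0) (nat_lit 1007224893810) (nat_lit 76) (nat_lit 392503478338) (nat_lit 76) (nat_lit 318094929134) (nat_lit 1) (nat_lit 4) (nat_lit 2) (nat_lit 5) (nat_lit 2) (nat_lit 4) (nat_lit 332) (nat_lit 259) (nat_lit 129)))) (XT.nd (nat_lit 78) (nat_lit 0) (nat_lit 0) (XT.lf (nat_lit 0) (nat_lit 994002508) (nat_lit 532)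 (nat_lit 4329558034) (nat_lit 532) (nat_lit 4329558034) (nat_lit 29) (nat_lit 3) (nat_lit 36) (nat_lit 3) (nat_lit 36) (nat_lit 5) (nat_lit 260) (nat_lit 260) (nat_lit 200)) (XT.nd (nat_lit 78) (nat_lit 0) (nat_lit 76) (XT.lf (nat_lit 0) (nat_lit 2222843848) (nat_lit 532) (nat_lit 826160157) (nat_lit 532) (nat_lit 17015952022) (nat_lit 29) (nat_lit 3) (nat_lit 36) (nat_lit 3) (nat_lit 36) (nat_lit 5) (nat_lit 261) (nat_lit 260) (nat_lit 199)) (XT.lf (nat_lit 0) (nat_lit 2783177682) (nat_lit 456) (nat_lit 12972988794) (nat_lit 532) (nat_lit 5103779869) (nat_lit 30) (nat_lit 5) (nat_lit 36) (nat_lit 5) (nat_lit 37) (nat_lit 5) (nat_lit 262) (nat_lit 260) (nat_lit 198))))))) (XT.nd (nat_lit 936) (nat_lit 912) (nat_lit 0) (XT.nd (nat_lit 468) (nat_lit 684) (nat_lit 0) (XT.nd (nat_lit 234) (nat_lit 0) (nat_lit 76) (XT.nd (nat_lit 78) (nat_lit 0) (nat_lit 76) (XT.lf (nat_lit 0) (nat_lit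 3476275069) (nat_lit 456) (nat_lit 4462056051) (nat_lit 532) (nat_lit 13773272194) (nat_lit 30) (nat_lit 5) (nat_lit 36) (nat_lit 5) (nat_lit 37) (nat_lit 5) (nat_lit 263) (nat_lit 260) (nat_lit 197)) (XT.nd (nat_lit 78) (nat_lit 0) (nat_lit 0) (XT.lf (nat_lit 0) (nat_lit 4346324432) (nat_lit 456) (nat_lit 17668948638) (nat_lit 532) (nat_lit 606494229) (nat_lit 31) (nat_lit 5) (nat_lit 37) (nat_lit 5) (nat_lit 38) (nat_lit 5) (nat_lit 264) (nat_lit 260) (nat_lit 196)) (XT.lf (nat_lit 0) (nat_lit 5604846693) (nat_lit 456) (nat_lit 8439600045) (nat_lit 532) (nat_lit 9534875919) (nat_lit 31) (nat_lit 5) (nat_lit 37) (nat_lit 5) (nat_lit 38) (nat_lit 5) (nat_lit 265) (nat_lit 260) (nat_lit 195)))) (XT.nd (nat_lit 78) (nat_lit 0) (nat_lit 76) (XT.lf (nat_lit 76) (nat_lit 1598913086) (nat_lit 0) (nat_lit 5392025959) (nat_lit 532) (nat_lit 17620473603) (nat_lit 32) (nat_lit 5) (nat_lit 31)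 (nat_lit 5) (nat_lit 38) (nat_lit 5) (nat_lit 266) (nat_lit 260) (nat_lit 194)) (XT.nd (nat_lit 78) (nat_lit 0) (nat_lit 0) (XT.lf (nat_lit 0) (nat_lit 8808849903) (nat_lit 456) (nat_lit 12898120539) (nat_lit 76) (nat_lit 3993500156) (nat_lit 32) (nat_lit 5) (nat_lit 38) (nat_lit 5) (nat_lit 33) (nat_lit 5) (nat_lit 267) (nat_lit 260) (nat_lit 193)) (XT.lf (nat_lit 0) (nat_lit 10902175925) (nat_lit 456) (nat_lit 2123840429) (nat_lit 76) (nat_lit 13840307921) (nat_lit 32) (nat_lit 5) (nat_lit 38) (nat_lit 5) (nat_lit 33) (nat_lit 5) (nat_lit 268) (nat_lit 260) (nat_lit 192))))) (XT.nd (nat_lit 234) (nat_lit 152) (nat_lit 0) (XT.nd (nat_lit 78) (nat_lit 228) (nat_lit 0) (XT.lf (nat_lit 0) (nat_lit 10004323486) (nat_lit 456) (nat_lit 3389924387) (nat_lit 532) (nat_lit 14712760500) (nat_lit 26) (nat_lit 5) (nat_lit 32) (nat_lit 5) (nat_lit 33) (nat_lit 5) (nat_lit 269) (nat_lit 260) (nat_lit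 191)) (XT.nd (nat_lit 78) (nat_lit 228) (nat_lit 0) (XT.lf (nat_lit 0) (nat_lit 16305203316) (nat_lit 532) (nat_lit 6398124104) (nat_lit 76) (nat_lit 6726118093) (nat_lit 26) (nat_lit 5) (nat_lit 33) (nat_lit 5) (nat_lit 27) (nat_lit 5) (nat_lit 270) (nat_lit 260) (nat_lit 190)) (XT.lf (nat_lit 0) (nat_lit 6470000684) (nat_lit 228) (nat_lit 13214521072) (nat_lit 304) (nat_lit 11154372254) (nat_lit 23) (nat_lit 5) (nat_lit 26) (nat_lit 5) (nat_lit 27) (nat_lit 5) (nat_lit 271) (nat_lit 260) (nat_lit 189)))) (XT.nd (nat_lit 78) (nat_lit 152) (nat_lit 0) (XT.lf (nat_lit 0) (nat_lit 20723248755) (nat_lit 228) (nat_lit 2778113786) (nat_lit 304) (nat_lit 8846412911) (nat_lit 23) (nat_lit 5) (nat_lit 26) (nat_lit 5) (nat_lit 27) (nat_lit 5) (nat_lit 272) (nat_lit 260) (nat_lit 188)) (XT.nd (nat_lit 78) (nat_lit 0) (nat_lit 0) (XT.lf (nat_lit 0) (nat_lit 2028396830) (nat_lit 152) (nat_lit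 25841004457) (nat_lit 228) (nat_lit 6088345484) (nat_lit 21) (nat_lit 5) (nat_lit 23) (nat_lit 5) (nat_lit 24) (nat_lit 5) (nat_lit 273) (nat_lit 260) (nat_lit 187)) (XT.lf (nat_lit 0) (nat_lit 17350701150) (nat_lit 152) (nat_lit 15617495731) (nat_lit 228) (nat_lit 2697857724) (nat_lit 21) (nat_lit 5) (nat_lit 23) (nat_lit 5) (nat_lit 24) (nat_lit 5) (nat_lit 274) (nat_lit 260) (nat_lit 186)))))) (XT.nd (nat_lit 468) (nat_lit 456) (nat_lit 0) (XT.nd (nat_lit 234) (nat_lit 152) (nat_lit 0) (XT.nd (nat_lit 78) (nat_lit 228) (nat_lit 0) (XT.lf (nat_lit 0) (nat_lit 909103230) (nat_lit 228) (nat_lit 3643200530) (nat_lit 76) (nat_lit 32957430397) (nat_lit 20) (nat_lit 5) (nat_lit 23) (nat_lit 5) (nat_lit 21) (nat_lit 5) (nat_lit 275) (nat_lit 260) (nat_lit 185)) (XT.nd (nat_lit 78) (nat_lit 0) (nat_lit 0) (XT.lf (nat_lit 0) (nat_lit 5147466437) (nat_lit 304) (nat_lit 26895005725) (nat_lit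 76) (nat_lit 7413776847) (nat_lit 17) (nat_lit 5) (nat_lit 21) (nat_lit 5) (nat_lit 18) (nat_lit 5) (nat_lit 276) (nat_lit 260) (nat_lit 184)) (XT.lf (nat_lit 0) (nat_lit 9939525629) (nat_lit 304) (nat_lit 11409598934) (nat_lit 76) (nat_lit 20192222604) (nat_lit 17) (nat_lit 5) (nat_lit 21) (nat_lit 5) (nat_lit 18) (nat_lit 5) (nat_lit 277) (nat_lit 260) (nat_lit 183)))) (XT.nd (nat_lit 78) (nat_lit 0) (nat_lit 0) (XT.lf (nat_lit 0) (nat_lit 5587201037) (nat_lit 152) (nat_lit 9656737876) (nat_lit 228) (nat_lit 28539024999) (nat_lit 15) (nat_lit 5) (nat_lit 17) (nat_lit 5) (nat_lit 18) (nat_lit 5) (nat_lit 278) (nat_lit 260) (nat_lit 182)) (XT.nd (nat_lit 78) (nat_lit 0) (nat_lit 0) (XT.lf (nat_lit 0) (nat_lit 21359034797) (nat_lit 228) (nat_lit 21673049596) (nat_lit 76) (nat_lit 3140946909) (nat_lit 15) (nat_lit 5) (nat_lit 18) (nat_lit 5) (nat_lit 16) (nat_lit 5) (nat_lit 279) (nat_lit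 260) (nat_lit 181)) (XT.lf (nat_lit 0) (nat_lit 28209361308) (nat_lit 228) (nat_lit 4085972227) (nat_lit 76) (nat_lit 16439314332) (nat_lit 15) (nat_lit 5) (nat_lit 18) (nat_lit 5) (nat_lit 16) (nat_lit 5) (nat_lit 280) (nat_lit 260) (nat_lit 180))))) (XT.nd (nat_lit 234) (nat_lit 228) (nat_lit 0) (XT.nd (nat_lit 78) (nat_lit 76) (nat_lit 0) (XT.lf (nat_lit 0) (nat_lit 15686643151) (nat_lit 152) (nat_lit 20293889189) (nat_lit 228) (nat_lit 15490859667) (nat_lit 13) (nat_lit 5) (nat_lit 15) (nat_lit 5) (nat_lit 16) (nat_lit 5) (nat_lit 281) (nat_lit 260) (nat_lit 179)) (XT.nd (nat_lit 78) (nat_lit 76) (nat_lit 0) (XT.lf (nat_lit 0) (nat_lit 37267458400) (nat_lit 152) (nat_lit 7213396073) (nat_lit 228) (nat_lit 9937646575) (nat_lit 13) (nat_lit 5) (nat_lit 15) (nat_lit 5) (nat_lit 16) (nat_lit 5) (nat_lit 282) (nat_lit 260) (nat_lit 178)) (XT.lf (nat_lit 0) (nat_lit 2948761673) (nat_lit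 76) (nat_lit 50945646142) (nat_lit 152) (nat_lit 3688334900) (nat_lit 12) (nat_lit 5) (nat_lit 13) (nat_lit 5) (nat_lit 14) (nat_lit 4) (nat_lit 283) (nat_lit 260) (nat_lit 177)))) (XT.nd (nat_lit 78) (nat_lit 152) (nat_lit 0) (XT.lf (nat_lit 0) (nat_lit 3572341021) (nat_lit 152) (nat_lit 35609733544) (nat_lit 76) (nat_lit 21759014247) (nat_lit 11) (nat_lit 5) (nat_lit 13) (nat_lit 5) (nat_lit 12) (nat_lit 5) (nat_lit 284) (nat_lit 260) (nat_lit 176)) (XT.nd (nat_lit 78) (nat_lit 152) (nat_lit 0) (XT.lf (nat_lit 0) (nat_lit 11210955055) (nat_lit 152) (nat_lit 15164823004) (nat_lit 76) (nat_lit 38184968615) (nat_lit 11) (nat_lit 5) (nat_lit 13) (nat_lit 5) (nat_lit 12) (nat_lit 5) (nat_lit 285) (nat_lit 260) (nat_lit 175)) (XT.lf (nat_lit 0) (nat_lit 7274510630) (nat_lit 152) (nat_lit 12357720039) (nat_lit 228) (nat_lit 48824035648) (nat_lit 9) (nat_lit 5) (nat_lit 11) (nat_lit 5)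 (nat_lit 12) (nat_lit 5) (nat_lit 286) (nat_lit 260) (nat_lit 174))))))))
noncomputable def xc86 : XT := (XT.nd (nat_lit 1794) (nat_lit 76) (nat_lit 0) (XT.nd (nat_lit 858) (nat_lit 228) (nat_lit 0) (XT.nd (nat_lit 390) (nat_lit 228) (nat_lit 0) (XT.nd (nat_lit 156) (nat_lit 76) (nat_lit 0) (XT.nd (nat_lit 78) (nat_lit 0) (nat_lit 0) (XT.lf (nat_lit 0) (nat_lit 29216224162) (nat_lit 228) (nat_lit 40341675472) (nat_lit 76) (nat_lit 3066420472) (nat_lit 9) (nat_lit 5) (nat_lit 12) (nat_lit 5) (nat_lit 10) (nat_lit 4) (nat_lit 287) (nat_lit 260) (nat_lit 173)) (XT.lf (nat_lit 0) (nat_lit 39884871565) (nat_lit 228) (nat_lit 18160160097) (nat_lit 76) (nat_lit 19055364599) (nat_lit 9) (nat_lit 5) (nat_lit 12) (nat_lit 5) (nat_lit 10) (nat_lit 4) (nat_lit 288) (nat_lit 260) (nat_lit 172))) (XT.nd (nat_lit 78) (nat_lit 0) (nat_lit 0) (XT.lf (nat_lit 0) (nat_lit 6096406881) (nat_lit 76) (nat_lit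 45454402877) (nat_lit 152) (nat_lit 30372256696) (nat_lit 8) (nat_lit 5) (nat_lit 9) (nat_lit 5) (nat_lit 10) (nat_lit 4) (nat_lit 289) (nat_lit 260) (nat_lit 171)) (XT.nd (nat_lit 78) (nat_lit 0) (nat_lit 0) (XT.lf (nat_lit 0) (nat_lit 33321959344) (nat_lit 76) (nat_lit 31321879761) (nat_lit 152) (nat_lit 22448216857) (nat_lit 8) (nat_lit 5) (nat_lit 9) (nat_lit 5) (nat_lit 10) (nat_lit 4) (nat_lit 290) (nat_lit 260) (nat_lit 170)) (XT.lf (nat_lit 0) (nat_lit 62721552051) (nat_lit 76) (nat_lit 16060244988) (nat_lit 152) (nat_lit 13892978868) (nat_lit 8) (nat_lit 5) (nat_lit 9) (nat_lit 5) (nat_lit 10) (nat_lit 4) (nat_lit 291) (nat_lit 260) (nat_lit 169))))) (XT.nd (nat_lit 234) (nat_lit 76) (nat_lit 0) (XT.nd (nat_lit 78) (nat_lit 152) (nat_lit 0) (XT.lf (nat_lit 0) (nat_lit 94058587686) (nat_lit 152) (nat_lit 4245027898) (nat_lit 0) (nat_lit 399883597) (nat_lit 8) (nat_lit 5) (nat_lit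 10) (nat_lit 4) (nat_lit 8) (nat_lit 4) (nat_lit 292) (nat_lit 260) (nat_lit 168)) (XT.nd (nat_lit 78) (nat_lit 0) (nat_lit 0) (XT.lf (nat_lit 0) (nat_lit 6101432435) (nat_lit 152) (nat_lit 80973567066) (nat_lit 76) (nat_lit 18047192169) (nat_lit 6) (nat_lit 5) (nat_lit 8) (nat_lit 5) (nat_lit 7) (nat_lit 4) (nat_lit 293) (nat_lit 260) (nat_lit 167)) (XT.lf (nat_lit 0) (nat_lit 17573448942) (nat_lit 152) (nat_lit 57117182400) (nat_lit 76) (nat_lit 37344751054) (nat_lit 6) (nat_lit 5) (nat_lit 8) (nat_lit 5) (nat_lit 7) (nat_lit 4) (nat_lit 294) (nat_lit 260) (nat_lit 166)))) (XT.nd (nat_lit 78) (nat_lit 76) (nat_lit 0) (XT.lf (nat_lit 0) (nat_lit 29961217165) (nat_lit 152) (nat_lit 31355633448) (nat_lit 76) (nat_lit 58184945461) (nat_lit 6) (nat_lit 5) (nat_lit 8) (nat_lit 5) (nat_lit 7) (nat_lit 4) (nat_lit 295) (nat_lit 260) (nat_lit 165)) (XT.nd (nat_lit 78) (nat_lit 76) (nat_lit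 0) (XT.lf (nat_lit 0) (nat_lit 43338146102) (nat_lit 152) (nat_lit 3536259179) (nat_lit 76) (nat_lit 80691272836) (nat_lit 6) (nat_lit 5) (nat_lit 8) (nat_lit 5) (nat_lit 7) (nat_lit 4) (nat_lit 296) (nat_lit 260) (nat_lit 164)) (XT.lf (nat_lit 0) (nat_lit 27901544200) (nat_lit 76) (nat_lit 30552995050) (nat_lit 152) (nat_lit 77766592618) (nat_lit 5) (nat_lit 5) (nat_lit 6) (nat_lit 5) (nat_lit 7) (nat_lit 4) (nat_lit 297) (nat_lit 260) (nat_lit 163)))))) (XT.nd (nat_lit 468) (nat_lit 152) (nat_lit 0) (XT.nd (nat_lit 234) (nat_lit 76) (nat_lit 0) (XT.nd (nat_lit 78) (nat_lit 0) (nat_lit 0) (XT.lf (nat_lit 0) (nat_lit 62052685605) (nat_lit 76) (nat_lit 12822583296) (nat_lit 152) (nat_lit 70686156511) (nat_lit 5) (nat_lit 5) (nat_lit 6) (nat_lit 5) (nat_lit 7) (nat_lit 4) (nat_lit 298) (nat_lit 260) (nat_lit 162)) (XT.nd (nat_lit 78) (nat_lit 0) (nat_lit 0) (XT.lf (nat_lit 0) (nat_lit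 92760239021) (nat_lit 152) (nat_lit 56867863141) (nat_lit 0) (nat_lit 6008798798) (nat_lit 5) (nat_lit 5) (nat_lit 7) (nat_lit 4) (nat_lit 5) (nat_lit 4) (nat_lit 299) (nat_lit 260) (nat_lit 161)) (XT.lf (nat_lit 0) (nat_lit 112407612119) (nat_lit 152) (nat_lit 28431263310) (nat_lit 0) (nat_lit 25653015406) (nat_lit 5) (nat_lit 5) (nat_lit 7) (nat_lit 4) (nat_lit 5) (nat_lit 4) (nat_lit 300) (nat_lit 260) (nat_lit 160)))) (XT.nd (nat_lit 78) (nat_lit 0) (nat_lit 0) (XT.lf (nat_lit 0) (nat_lit 2397909447) (nat_lit 76) (nat_lit 131285193969) (nat_lit 76) (nat_lit 44527674580) (nat_lit 4) (nat_lit 4) (nat_lit 5) (nat_lit 5) (nat_lit 5) (nat_lit 4) (nat_lit 301) (nat_lit 260) (nat_lit 159)) (XT.nd (nat_lit 78) (nat_lit 0) (nat_lit 0) (XT.lf (nat_lit 0) (nat_lit 37308077398) (nat_lit 76) (nat_lit 120128621573) (nat_lit 76) (nat_lit 33368396003) (nat_lit 4) (nat_lit 4) (nat_lit 5) (nat_lit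 5) (nat_lit 5) (nat_lit 4) (nat_lit 302) (nat_lit 260) (nat_lit 158)) (XT.lf (nat_lit 0) (nat_lit 75008975669) (nat_lit 76) (nat_lit 108080406344) (nat_lit 76) (nat_lit 21317675050) (nat_lit 4) (nat_lit 4) (nat_lit 5) (nat_lit 5) (nat_lit 5) (nat_lit 4) (nat_lit 303) (nat_lit 260) (nat_lit 157))))) (XT.nd (nat_lit 234) (nat_lit 76) (nat_lit 0) (XT.nd (nat_lit 78) (nat_lit 76) (nat_lit 0) (XT.lf (nat_lit 0) (nat_lit 115724016990) (nat_lit 76) (nat_lit 95069151451) (nat_lit 76) (nat_lit 8304100043) (nat_lit 4) (nat_lit 4) (nat_lit 5) (nat_lit 5) (nat_lit 5) (nat_lit 4) (nat_lit 304) (nat_lit 260) (nat_lit 156)) (XT.nd (nat_lit 78) (nat_lit 0) (nat_lit 0) (XT.lf (nat_lit 0) (nat_lit 5461835900) (nat_lit 152) (nat_lit 75406580987) (nat_lit 76) (nat_lit 154083303507) (nat_lit 3) (nat_lit 5) (nat_lit 5) (nat_lit 5) (nat_lit 4) (nat_lit 4) (nat_lit 305) (nat_lit 260) (nat_lit 155)) (XT.lf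 (nat_lit 0) (nat_lit 19879429336) (nat_lit 152) (nat_lit 45419975764) (nat_lit 76) (nat_lit 186757949257) (nat_lit 3) (nat_lit 5) (nat_lit 5) (nat_lit 5) (nat_lit 4) (nat_lit 4) (nat_lit 306) (nat_lit 260) (nat_lit 154)))) (XT.nd (nat_lit 78) (nat_lit 76) (nat_lit 0) (XT.lf (nat_lit 0) (nat_lit 35449522571) (nat_lit 152) (nat_lit 13036023619) (nat_lit 76) (nat_lit 222045968009) (nat_lit 3) (nat_lit 5) (nat_lit 5) (nat_lit 5) (nat_lit 4) (nat_lit 4) (nat_lit 307) (nat_lit 260) (nat_lit 153)) (XT.nd (nat_lit 78) (nat_lit 0) (nat_lit 0) (XT.lf (nat_lit 0) (nat_lit 23092353391) (nat_lit 76) (nat_lit 29727401085) (nat_lit 152) (nat_lit 237619492211) (nat_lit 2) (nat_lit 5) (nat_lit 3) (nat_lit 5) (nat_lit 4) (nat_lit 4) (nat_lit 308) (nat_lit 260) (nat_lit 152)) (XT.lf (nat_lit 0) (nat_lit 62850943502) (nat_lit 76) (nat_lit 9084276908) (nat_lit 152) (nat_lit 239975930310) (nat_lit 2) (nat_lit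 5) (nat_lit 3) (nat_lit 5) (nat_lit 4) (nat_lit 4) (nat_lit 309) (nat_lit 260) (nat_lit 151))))))) (XT.nd (nat_lit 936) (nat_lit 0) (nat_lit 0) (XT.nd (nat_lit 468) (nat_lit 76) (nat_lit 0) (XT.nd (nat_lit 234) (nat_lit 0) (nat_lit 0) (XT.nd (nat_lit 78) (nat_lit 0) (nat_lit 0) (XT.lf (nat_lit 0) (nat_lit 92896865567) (nat_lit 152) (nat_lit 229629664288) (nat_lit 0) (nat_lit 12548923885) (nat_lit 2) (nat_lit 5) (nat_lit 4) (nat_lit 4) (nat_lit 2) (nat_lit 4) (nat_lit 310) (nat_lit 260) (nat_lit 150)) (XT.nd (nat_lit 78) (nat_lit 0) (nat_lit 0) (XT.lf (nat_lit 0) (nat_lit 115770688307) (nat_lit 152) (nat_lit 208881901749) (nat_lit 0) (nat_lit 35421493139) (nat_lit 2) (nat_lit 5) (nat_lit 4) (nat_lit 4) (nat_lit 2) (nat_lit 4) (nat_lit 311) (nat_lit 260) (nat_lit 149)) (XT.lf (nat_lit 0) (nat_lit 140473760130) (nat_lit 152) (nat_lit 186475492820) (nat_lit 0) (nat_lit 60123404328) (nat_lit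 2) (nat_lit 5) (nat_lit 4) (nat_lit 4) (nat_lit 2) (nat_lit 4) (nat_lit 312) (nat_lit 260) (nat_lit 148)))) (XT.nd (nat_lit 78) (nat_lit 0) (nat_lit 0) (XT.lf (nat_lit 0) (nat_lit 167152469612) (nat_lit 152) (nat_lit 162277658782) (nat_lit 0) (nat_lit 86801039147) (nat_lit 2) (nat_lit 5) (nat_lit 4) (nat_lit 4) (nat_lit 2) (nat_lit 4) (nat_lit 313) (nat_lit 260) (nat_lit 147)) (XT.nd (nat_lit 78) (nat_lit 0) (nat_lit 0) (XT.lf (nat_lit 0) (nat_lit 195964912806) (nat_lit 152) (nat_lit 136145005061) (nat_lit 0) (nat_lit 115612487285) (nat_lit 2) (nat_lit 5) (nat_lit 4) (nat_lit 4) (nat_lit 2) (nat_lit 4) (nat_lit 314) (nat_lit 260) (nat_lit 146)) (XT.lf (nat_lit 0) (nat_lit 227081830119) (nat_lit 152) (nat_lit 107922671488) (nat_lit 0) (nat_lit 146728483248) (nat_lit 2) (nat_lit 5) (nat_lit 4) (nat_lit 4) (nat_lit 2) (nat_lit 4) (nat_lit 315) (nat_lit 260) (nat_lit 145))))) (XT.nd (nat_lit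 234) (nat_lit 76) (nat_lit 0) (XT.nd (nat_lit 78) (nat_lit 0) (nat_lit 0) (XT.lf (nat_lit 0) (nat_lit 260687618096) (nat_lit 152) (nat_lit 77443414606) (nat_lit 0) (nat_lit 180333418124) (nat_lit 2) (nat_lit 5) (nat_lit 4) (nat_lit 4) (nat_lit 2) (nat_lit 4) (nat_lit 316) (nat_lit 260) (nat_lit 144)) (XT.nd (nat_lit 78) (nat_lit 0) (nat_lit 0) (XT.lf (nat_lit 0) (nat_lit 296981422149) (nat_lit 152) (nat_lit 44526616594) (nat_lit 0) (nat_lit 216626432268) (nat_lit 2) (nat_lit 5) (nat_lit 4) (nat_lit 4) (nat_lit 2) (nat_lit 4) (nat_lit 317) (nat_lit 260) (nat_lit 143)) (XT.lf (nat_lit 0) (nat_lit 336178316670) (nat_lit 152) (nat_lit 8977214947) (nat_lit 0) (nat_lit 255822595393) (nat_lit 2) (nat_lit 5) (nat_lit 4) (nat_lit 4) (nat_lit 2) (nat_lit 4) (nat_lit 318) (nat_lit 260) (nat_lit 142)))) (XT.nd (nat_lit 78) (nat_lit 0) (nat_lit 0) (XT.lf (nat_lit 0) (nat_lit 30964419106) (nat_lit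 76) (nat_lit 348290855472) (nat_lit 76) (nat_lit 267934456976) (nat_lit 1) (nat_lit 4) (nat_lit 2) (nat_lit 5) (nat_lit 2) (nat_lit 4) (nat_lit 319) (nat_lit 260) (nat_lit 141)) (XT.nd (nat_lit 78) (nat_lit 0) (nat_lit 0) (XT.lf (nat_lit 0) (nat_lit 74611258029) (nat_lit 76) (nat_lit 351412213177) (nat_lit 76) (nat_lit 271055187625) (nat_lit 1) (nat_lit 4) (nat_lit 2) (nat_lit 5) (nat_lit 2) (nat_lit 4) (nat_lit 320) (nat_lit 260) (nat_lit 140)) (XT.lf (nat_lit 0) (nat_lit 121749225525) (nat_lit 76) (nat_lit 354783554632) (nat_lit 76) (nat_lit 274425948474) (nat_lit 1) (nat_lit 4) (nat_lit 2) (nat_lit 5) (nat_lit 2) (nat_lit 4) (nat_lit 321) (nat_lit 260) (nat_lit 139)))))) (XT.nd (nat_lit 468) (nat_lit 0) (nat_lit 0) (XT.nd (nat_lit 234) (nat_lit 0) (nat_lit 0) (XT.nd (nat_lit 78) (nat_lit 0) (nat_lit 0) (XT.lf (nat_lit 0) (nat_lit 172657657698) (nat_lit 76) (nat_lit 358424858157)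 (nat_lit 76) (nat_lit 278066714400) (nat_lit 1) (nat_lit 4) (nat_lit 2) (nat_lit 5) (nat_lit 2) (nat_lit 4) (nat_lit 322) (nat_lit 260) (nat_lit 138)) (XT.nd (nat_lit 78) (nat_lit 0) (nat_lit 0) (XT.lf (nat_lit 0) (nat_lit 227638234145) (nat_lit 76) (nat_lit 362357701846) (nat_lit 76) (nat_lit 281999060313) (nat_lit 1) (nat_lit 4) (nat_lit 2) (nat_lit 5) (nat_lit 2) (nat_lit 4) (nat_lit 323) (nat_lit 260) (nat_lit 137)) (XT.lf (nat_lit 0) (nat_lit 287016765690) (nat_lit 76) (nat_lit 366605391440) (nat_lit 76) (nat_lit 286246289003) (nat_lit 1) (nat_lit 4) (nat_lit 2) (nat_lit 5) (nat_lit 2) (nat_lit 4) (nat_lit 324) (nat_lit 260) (nat_lit 136)))) (XT.nd (nat_lit 78) (nat_lit 0) (nat_lit 0) (XT.lf (nat_lit 0) (nat_lit 351145125113) (nat_lit 76) (nat_lit 371193098434) (nat_lit 76) (nat_lit 290833569234) (nat_lit 1) (nat_lit 4) (nat_lit 2) (nat_lit 5) (nat_lit 2) (nat_lit 4) (nat_lit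 325) (nat_lit 260) (nat_lit 135)) (XT.nd (nat_lit 78) (nat_lit 0) (nat_lit 0) (XT.lf (nat_lit 0) (nat_lit 420403332322) (nat_lit 76) (nat_lit 376148009238) (nat_lit 76) (nat_lit 295788084887) (nat_lit 1) (nat_lit 4) (nat_lit 2) (nat_lit 5) (nat_lit 2) (nat_lit 4) (nat_lit 326) (nat_lit 260) (nat_lit 134)) (XT.lf (nat_lit 0) (nat_lit 495201806321) (nat_lit 76) (nat_lit 381499486287) (nat_lit 76) (nat_lit 301139196056) (nat_lit 1) (nat_lit 4) (nat_lit 2) (nat_lit 5) (nat_lit 2) (nat_lit 4) (nat_lit 327) (nat_lit 260) (nat_lit 133))))) (XT.nd (nat_lit 234) (nat_lit 0) (nat_lit 0) (XT.nd (nat_lit 78) (nat_lit 0) (nat_lit 0) (XT.lf (nat_lit 0) (nat_lit 575983797328) (nat_lit 76) (nat_lit 387279242039) (nat_lit 76) (nat_lit 306918613029) (nat_lit 1) (nat_lit 4) (nat_lit 2) (nat_lit 5) (nat_lit 2) (nat_lit 4) (nat_lit 328) (nat_lit 260) (nat_lit 132)) (XT.nd (nat_lit 78) (nat_lit 0) (nat_lit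 0) (XT.lf (nat_lit 0) (nat_lit 663228013437) (nat_lit 76) (nat_lit 393521526896) (nat_lit 76) (nat_lit 313160584203) (nat_lit 1) (nat_lit 4) (nat_lit 2) (nat_lit 5) (nat_lit 2) (nat_lit 4) (nat_lit 329) (nat_lit 260) (nat_lit 131)) (XT.lf (nat_lit 0) (nat_lit 757451457410) (nat_lit 76) (nat_lit 400263332177) (nat_lit 76) (nat_lit 319902099036) (nat_lit 1) (nat_lit 4) (nat_lit 2) (nat_lit 5) (nat_lit 2) (nat_lit 4) (nat_lit 330) (nat_lit 260) (nat_lit 130)))) (XT.nd (nat_lit 78) (nat_lit 0) (nat_lit 0) (XT.lf (nat_lit 0) (nat_lit 859212490397) (nat_lit 76) (nat_lit 407544609321) (nat_lit 76) (nat_lit 327183107247) (nat_lit 1) (nat_lit 4) (nat_lit 2) (nat_lit 5) (nat_lit 2) (nat_lit 4) (nat_lit 331) (nat_lit 260) (nat_lit 129)) (XT.nd (nat_lit 31980) (nat_lit 0) (nat_lit 2128) (XT.lf (nat_lit 0) (nat_lit 969114140742) (nat_lit 76) (nat_lit 415408506637) (nat_lit 76) (nat_lit 335046755551)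 (nat_lit 1) (nat_lit 4) (nat_lit 2) (nat_lit 5) (nat_lit 2) (nat_lit 4) (nat_lit 332) (nat_lit 260) (nat_lit 128)) (XT.lf (nat_lit 0) (nat_lit 1225105923) (nat_lit 532) (nat_lit 4593528469) (nat_lit 532) (nat_lit 4593528469) (nat_lit 29) (nat_lit 3) (nat_lit 36) (nat_lit 3) (nat_lit 36) (nat_lit 5) (nat_lit 261) (nat_lit 261) (nat_lit 198))))))))
noncomputable def xc87 : XT := (XT.nd (nat_lit 1872) (nat_lit 684) (nat_lit 0) (XT.nd (nat_lit 936) (nat_lit 912) (nat_lit 0) (XT.nd (nat_lit 468) (nat_lit 456) (nat_lit 0) (XT.nd (nat_lit 234) (nat_lit 0) (nat_lit 152) (XT.nd (nat_lit 78) (nat_lit 0) (nat_lit 76) (XT.lf (nat_lit 0) (nat_lit 2681381012) (nat_lit 532) (nat_lit 739671104) (nat_lit 532) (nat_lit 18224646318) (nat_lit 29) (nat_lit 3) (nat_lit 36) (nat_lit 3) (nat_lit 36) (nat_lit 5) (nat_lit 262) (nat_lit 261) (nat_lit 197)) (XT.nd (nat_lit 78) (nat_lit 0) (nat_lit 0) (XT.lf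 (nat_lit 0) (nat_lit 3266564623) (nat_lit 456) (nat_lit 13836419747) (nat_lit 532) (nat_lit 5403049709) (nat_lit 30) (nat_lit 5) (nat_lit 36) (nat_lit 5) (nat_lit 37) (nat_lit 5) (nat_lit 263) (nat_lit 261) (nat_lit 196)) (XT.lf (nat_lit 0) (nat_lit 3995796266) (nat_lit 456) (nat_lit 4657531507) (nat_lit 532) (nat_lit 14774177906) (nat_lit 30) (nat_lit 5) (nat_lit 36) (nat_lit 5) (nat_lit 37) (nat_lit 5) (nat_lit 264) (nat_lit 261) (nat_lit 195)))) (XT.nd (nat_lit 78) (nat_lit 0) (nat_lit 0) (XT.lf (nat_lit 0) (nat_lit 4919670562) (nat_lit 456) (nat_lit 18903610960) (nat_lit 532) (nat_lit 588590423) (nat_lit 31) (nat_lit 5) (nat_lit 37) (nat_lit 5) (nat_lit 38) (nat_lit 5) (nat_lit 265) (nat_lit 261) (nat_lit 194)) (XT.nd (nat_lit 78) (nat_lit 0) (nat_lit 0) (XT.lf (nat_lit 0) (nat_lit 6262160517) (nat_lit 456) (nat_lit 8949162892) (nat_lit 532) (nat_lit 10236162896) (nat_lit 31)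 (nat_lit 5) (nat_lit 37) (nat_lit 5) (nat_lit 38) (nat_lit 5) (nat_lit 266) (nat_lit 261) (nat_lit 193)) (XT.lf (nat_lit 76) (nat_lit 1888238753) (nat_lit 0) (nat_lit 5859307474) (nat_lit 532) (nat_lit 18815633537) (nat_lit 32) (nat_lit 5) (nat_lit 31) (nat_lit 5) (nat_lit 38) (nat_lit 5) (nat_lit 267) (nat_lit 261) (nat_lit 192))))) (XT.nd (nat_lit 234) (nat_lit 228) (nat_lit 0) (XT.nd (nat_lit 78) (nat_lit 456) (nat_lit 0) (XT.lf (nat_lit 0) (nat_lit 9695472891) (nat_lit 456) (nat_lit 13763838349) (nat_lit 76) (nat_lit 4281385166) (nat_lit 32) (nat_lit 5) (nat_lit 38) (nat_lit 5) (nat_lit 33) (nat_lit 5) (nat_lit 268) (nat_lit 261) (nat_lit 191)) (XT.nd (nat_lit 78) (nat_lit 456) (nat_lit 0) (XT.lf (nat_lit 0) (nat_lit 11942789810) (nat_lit 456) (nat_lit 2139921892) (nat_lit 76) (nat_lit 14918277923) (nat_lit 32) (nat_lit 5) (nat_lit 38) (nat_lit 5) (nat_lit 33) (nat_lit 5) (nat_lit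 269) (nat_lit 261) (nat_lit 190)) (XT.lf (nat_lit 0) (nat_lit 10954600813) (nat_lit 456) (nat_lit 3670755533) (nat_lit 532) (nat_lit 15716368124) (nat_lit 26) (nat_lit 5) (nat_lit 32) (nat_lit 5) (nat_lit 33) (nat_lit 5) (nat_lit 270) (nat_lit 261) (nat_lit 189)))) (XT.nd (nat_lit 78) (nat_lit 228) (nat_lit 0) (XT.lf (nat_lit 0) (nat_lit 17757153719) (nat_lit 532) (nat_lit 6758114962) (nat_lit 76) (nat_lit 7255730593) (nat_lit 26) (nat_lit 5) (nat_lit 33) (nat_lit 5) (nat_lit 27) (nat_lit 5) (nat_lit 271) (nat_lit 261) (nat_lit 188)) (XT.nd (nat_lit 78) (nat_lit 0) (nat_lit 0) (XT.lf (nat_lit 0) (nat_lit 7135615275) (nat_lit 228) (nat_lit 14263833657) (nat_lit 304) (nat_lit 11894418226) (nat_lit 23) (nat_lit 5) (nat_lit 26) (nat_lit 5) (nat_lit 27) (nat_lit 5) (nat_lit 272) (nat_lit 261) (nat_lit 187)) (XT.lf (nat_lit 0) (nat_lit 22518159152) (nat_lit 228) (nat_lit 2993095203) (nat_lit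 304) (nat_lit 9413103898) (nat_lit 23) (nat_lit 5) (nat_lit 26) (nat_lit 5) (nat_lit 27) (nat_lit 5) (nat_lit 273) (nat_lit 261) (nat_lit 186)))))) (XT.nd (nat_lit 468) (nat_lit 304) (nat_lit 0) (XT.nd (nat_lit 234) (nat_lit 380) (nat_lit 0) (XT.nd (nat_lit 78) (nat_lit 76) (nat_lit 0) (XT.lf (nat_lit 0) (nat_lit 2335033774) (nat_lit 152) (nat_lit 27887722713) (nat_lit 228) (nat_lit 6440912622) (nat_lit 21) (nat_lit 5) (nat_lit 23) (nat_lit 5) (nat_lit 24) (nat_lit 5) (nat_lit 274) (nat_lit 261) (nat_lit 185)) (XT.nd (nat_lit 78) (nat_lit 76) (nat_lit 0) (XT.lf (nat_lit 0) (nat_lit 18872428721) (nat_lit 152) (nat_lit 16847856407) (nat_lit 228) (nat_lit 2789148841) (nat_lit 21) (nat_lit 5) (nat_lit 23) (nat_lit 5) (nat_lit 24) (nat_lit 5) (nat_lit 275) (nat_lit 261) (nat_lit 184)) (XT.lf (nat_lit 0) (nat_lit 1091375591) (nat_lit 228) (nat_lit 3804488653) (nat_lit 76) (nat_lit 35605255485)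 (nat_lit 20) (nat_lit 5) (nat_lit 23) (nat_lit 5) (nat_lit 21) (nat_lit 5) (nat_lit 276) (nat_lit 261) (nat_lit 183)))) (XT.nd (nat_lit 78) (nat_lit 152) (nat_lit 0) (XT.lf (nat_lit 0) (nat_lit 5664283280) (nat_lit 304) (nat_lit 28911330695) (nat_lit 76) (nat_lit 8028150398) (nat_lit 17) (nat_lit 5) (nat_lit 21) (nat_lit 5) (nat_lit 18) (nat_lit 5) (nat_lit 277) (nat_lit 261) (nat_lit 182)) (XT.nd (nat_lit 78) (nat_lit 152) (nat_lit 0) (XT.lf (nat_lit 0) (nat_lit 10831927983) (nat_lit 304) (nat_lit 12197111768) (nat_lit 76) (nat_lit 21827296156) (nat_lit 17) (nat_lit 5) (nat_lit 21) (nat_lit 5) (nat_lit 18) (nat_lit 5) (nat_lit 278) (nat_lit 261) (nat_lit 181)) (XT.lf (nat_lit 0) (nat_lit 6156261186) (nat_lit 152) (nat_lit 10400166283) (nat_lit 228) (nat_lit 30721235857) (nat_lit 15) (nat_lit 5) (nat_lit 17) (nat_lit 5) (nat_lit 18) (nat_lit 5) (nat_lit 279) (nat_lit 261) (nat_lit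 180))))) (XT.nd (nat_lit 234) (nat_lit 152) (nat_lit 0) (XT.nd (nat_lit 78) (nat_lit 152) (nat_lit 0) (XT.lf (nat_lit 0) (nat_lit 23154492354) (nat_lit 228) (nat_lit 23287151292) (nat_lit 76) (nat_lit 3417828580) (nat_lit 15) (nat_lit 5) (nat_lit 18) (nat_lit 5) (nat_lit 16) (nat_lit 5) (nat_lit 280) (nat_lit 261) (nat_lit 179)) (XT.nd (nat_lit 78) (nat_lit 152) (nat_lit 0) (XT.lf (nat_lit 0) (nat_lit 30546420188) (nat_lit 228) (nat_lit 4301977530) (nat_lit 76) (nat_lit 17778168663) (nat_lit 15) (nat_lit 5) (nat_lit 18) (nat_lit 5) (nat_lit 16) (nat_lit 5) (nat_lit 281) (nat_lit 261) (nat_lit 178)) (XT.lf (nat_lit 0) (nat_lit 17049640179) (nat_lit 152) (nat_lit 21886294815) (nat_lit 228) (nat_lit 16646614791) (nat_lit 13) (nat_lit 5) (nat_lit 15) (nat_lit 5) (nat_lit 16) (nat_lit 5) (nat_lit 282) (nat_lit 261) (nat_lit 177)))) (XT.nd (nat_lit 78) (nat_lit 152) (nat_lit 0) (XT.lf (nat_lit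 0) (nat_lit 40348915791) (nat_lit 152) (nat_lit 7761666362) (nat_lit 228) (nat_lit 10655330849) (nat_lit 13) (nat_lit 5) (nat_lit 15) (nat_lit 5) (nat_lit 16) (nat_lit 5) (nat_lit 283) (nat_lit 261) (nat_lit 176)) (XT.nd (nat_lit 78) (nat_lit 76) (nat_lit 0) (XT.lf (nat_lit 0) (nat_lit 3287429512) (nat_lit 76) (nat_lit 54987624693) (nat_lit 152) (nat_lit 3908440254) (nat_lit 12) (nat_lit 5) (nat_lit 13) (nat_lit 5) (nat_lit 14) (nat_lit 4) (nat_lit 284) (nat_lit 261) (nat_lit 175)) (XT.lf (nat_lit 0) (nat_lit 3924064935) (nat_lit 152) (nat_lit 38359593938) (nat_lit 76) (nat_lit 23527150472) (nat_lit 11) (nat_lit 5) (nat_lit 13) (nat_lit 5) (nat_lit 12) (nat_lit 5) (nat_lit 285) (nat_lit 261) (nat_lit 174))))))) (XT.nd (nat_lit 936) (nat_lit 304) (nat_lit 0) (XT.nd (nat_lit 468) (nat_lit 152) (nat_lit 0) (XT.nd (nat_lit 234) (nat_lit 76) (nat_lit 0) (XT.nd (nat_lit 78) (nat_lit 152)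 (nat_lit 0) (XT.lf (nat_lit 0) (nat_lit 12168883897) (nat_lit 152) (nat_lit 16286417835) (nat_lit 76) (nat_lit 41265150442) (nat_lit 11) (nat_lit 5) (nat_lit 13) (nat_lit 5) (nat_lit 12) (nat_lit 5) (nat_lit 286) (nat_lit 261) (nat_lit 173)) (XT.nd (nat_lit 78) (nat_lit 0) (nat_lit 0) (XT.lf (nat_lit 0) (nat_lit 7945743730) (nat_lit 152) (nat_lit 13315742426) (nat_lit 228) (nat_lit 52666337267) (nat_lit 9) (nat_lit 5) (nat_lit 11) (nat_lit 5) (nat_lit 12) (nat_lit 5) (nat_lit 287) (nat_lit 261) (nat_lit 172)) (XT.lf (nat_lit 0) (nat_lit 31608533993) (nat_lit 228) (nat_lit 43482453368) (nat_lit 76) (nat_lit 3338645886) (nat_lit 9) (nat_lit 5) (nat_lit 12) (nat_lit 5) (nat_lit 10) (nat_lit 4) (nat_lit 288) (nat_lit 261) (nat_lit 171)))) (XT.nd (nat_lit 78) (nat_lit 76) (nat_lit 0) (XT.lf (nat_lit 0) (nat_lit 43126598233) (nat_lit 228) (nat_lit 19532828329) (nat_lit 76) (nat_lit 20604712079)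 (nat_lit 9) (nat_lit 5) (nat_lit 12) (nat_lit 5) (nat_lit 10) (nat_lit 4) (nat_lit 289) (nat_lit 261) (nat_lit 170)) (XT.nd (nat_lit 78) (nat_lit 0) (nat_lit 0) (XT.lf (nat_lit 0) (nat_lit 6662235030) (nat_lit 76) (nat_lit 49061682026) (nat_lit 152) (nat_lit 32748872825) (nat_lit 8) (nat_lit 5) (nat_lit 9) (nat_lit 5) (nat_lit 10) (nat_lit 4) (nat_lit 290) (nat_lit 261) (nat_lit 169)) (XT.lf (nat_lit 0) (nat_lit 36060045350) (nat_lit 76) (nat_lit 33800710623) (nat_lit 152) (nat_lit 24194847904) (nat_lit 8) (nat_lit 5) (nat_lit 9) (nat_lit 5) (nat_lit 10) (nat_lit 4) (nat_lit 291) (nat_lit 261) (nat_lit 168))))) (XT.nd (nat_lit 234) (nat_lit 0) (nat_lit 0) (XT.nd (nat_lit 78) (nat_lit 152) (nat_lit 0) (XT.lf (nat_lit 0) (nat_lit 67806247750) (nat_lit 76) (nat_lit 17320139106) (nat_lit 152) (nat_lit 14958837269) (nat_lit 8) (nat_lit 5) (nat_lit 9) (nat_lit 5) (nat_lit 10) (nat_lit 4)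 (nat_lit 292) (nat_lit 261) (nat_lit 167)) (XT.nd (nat_lit 78) (nat_lit 152) (nat_lit 0) (XT.lf (nat_lit 0) (nat_lit 101622761287) (nat_lit 152) (nat_lit 4519902415) (nat_lit 0) (nat_lit 453798921) (nat_lit 8) (nat_lit 5) (nat_lit 10) (nat_lit 4) (nat_lit 8) (nat_lit 4) (nat_lit 293) (nat_lit 261) (nat_lit 166)) (XT.lf (nat_lit 0) (nat_lit 6628753635) (nat_lit 152) (nat_lit 87386163756) (nat_lit 76) (nat_lit 19513777997) (nat_lit 6) (nat_lit 5) (nat_lit 8) (nat_lit 5) (nat_lit 7) (nat_lit 4) (nat_lit 294) (nat_lit 261) (nat_lit 165)))) (XT.nd (nat_lit 78) (nat_lit 0) (nat_lit 0) (XT.lf (nat_lit 0) (nat_lit 19015627270) (nat_lit 152) (nat_lit 61626104515) (nat_lit 76) (nat_lit 40353451930) (nat_lit 6) (nat_lit 5) (nat_lit 8) (nat_lit 5) (nat_lit 7) (nat_lit 4) (nat_lit 295) (nat_lit 261) (nat_lit 164)) (XT.nd (nat_lit 78) (nat_lit 0) (nat_lit 0) (XT.lf (nat_lit 0) (nat_lit 32391727884)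 (nat_lit 152) (nat_lit 33808109608) (nat_lit 76) (nat_lit 62859297386) (nat_lit 6) (nat_lit 5) (nat_lit 8) (nat_lit 5) (nat_lit 7) (nat_lit 4) (nat_lit 296) (nat_lit 261) (nat_lit 163)) (XT.lf (nat_lit 0) (nat_lit 46836321258) (nat_lit 152) (nat_lit 3767331658) (nat_lit 76) (nat_lit 87164682337) (nat_lit 6) (nat_lit 5) (nat_lit 8) (nat_lit 5) (nat_lit 7) (nat_lit 4) (nat_lit 297) (nat_lit 261) (nat_lit 162)))))) (XT.nd (nat_lit 468) (nat_lit 152) (nat_lit 0) (XT.nd (nat_lit 234) (nat_lit 76) (nat_lit 0) (XT.nd (nat_lit 78) (nat_lit 0) (nat_lit 0) (XT.lf (nat_lit 0) (nat_lit 30184183884) (nat_lit 76) (nat_lit 32976751447) (nat_lit 152) (nat_lit 83955385159) (nat_lit 5) (nat_lit 5) (nat_lit 6) (nat_lit 5) (nat_lit 7) (nat_lit 4) (nat_lit 298) (nat_lit 261) (nat_lit 161)) (XT.nd (nat_lit 78) (nat_lit 0) (nat_lit 0) (XT.lf (nat_lit 0) (nat_lit 67063674664) (nat_lit 76) (nat_lit 13829424027)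 (nat_lit 152) (nat_lit 76310924154) (nat_lit 5) (nat_lit 5) (nat_lit 6) (nat_lit 5) (nat_lit 7) (nat_lit 4) (nat_lit 299) (nat_lit 261) (nat_lit 160)) (XT.lf (nat_lit 0) (nat_lit 100207228892) (nat_lit 152) (nat_lit 61372260082) (nat_lit 0) (nat_lit 6506185276) (nat_lit 5) (nat_lit 5) (nat_lit 7) (nat_lit 4) (nat_lit 5) (nat_lit 4) (nat_lit 300) (nat_lit 261) (nat_lit 159)))) (XT.nd (nat_lit 78) (nat_lit 76) (nat_lit 0) (XT.lf (nat_lit 0) (nat_lit 121424453264) (nat_lit 152) (nat_lit 30664067976) (nat_lit 0) (nat_lit 27720703467) (nat_lit 5) (nat_lit 5) (nat_lit 7) (nat_lit 4) (nat_lit 5) (nat_lit 4) (nat_lit 301) (nat_lit 261) (nat_lit 158)) (XT.nd (nat_lit 78) (nat_lit 0) (nat_lit 0) (XT.lf (nat_lit 0) (nat_lit 2630382997) (nat_lit 76) (nat_lit 141770783304) (nat_lit 76) (nat_lit 48064527783) (nat_lit 4) (nat_lit 4) (nat_lit 5) (nat_lit 5) (nat_lit 5) (nat_lit 4) (nat_lit 302) (nat_lit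 261) (nat_lit 157)) (XT.lf (nat_lit 0) (nat_lit 40330353955) (nat_lit 76) (nat_lit 129722961130) (nat_lit 76) (nat_lit 36014385495) (nat_lit 4) (nat_lit 4) (nat_lit 5) (nat_lit 5) (nat_lit 5) (nat_lit 4) (nat_lit 303) (nat_lit 261) (nat_lit 156))))) (XT.nd (nat_lit 234) (nat_lit 76) (nat_lit 0) (XT.nd (nat_lit 78) (nat_lit 76) (nat_lit 0) (XT.lf (nat_lit 0) (nat_lit 81044536653) (nat_lit 76) (nat_lit 116712070176) (nat_lit 76) (nat_lit 23001346288) (nat_lit 4) (nat_lit 4) (nat_lit 5) (nat_lit 5) (nat_lit 5) (nat_lit 4) (nat_lit 304) (nat_lit 261) (nat_lit 155)) (XT.nd (nat_lit 78) (nat_lit 76) (nat_lit 0) (XT.lf (nat_lit 0) (nat_lit 125014200322) (nat_lit 76) (nat_lit 102661008868) (nat_lit 76) (nat_lit 8948295855) (nat_lit 4) (nat_lit 4) (nat_lit 5) (nat_lit 5) (nat_lit 5) (nat_lit 4) (nat_lit 305) (nat_lit 261) (nat_lit 154)) (XT.lf (nat_lit 0) (nat_lit 5916491196) (nat_lit 152)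 (nat_lit 81408253104) (nat_lit 76) (nat_lit 166421647381) (nat_lit 3) (nat_lit 5) (nat_lit 5) (nat_lit 5) (nat_lit 4) (nat_lit 4) (nat_lit 306) (nat_lit 261) (nat_lit 153)))) (XT.nd (nat_lit 78) (nat_lit 76) (nat_lit 0) (XT.lf (nat_lit 0) (nat_lit 21486180372) (nat_lit 152) (nat_lit 49025004972) (nat_lit 76) (nat_lit 201709399636) (nat_lit 3) (nat_lit 5) (nat_lit 5) (nat_lit 5) (nat_lit 4) (nat_lit 4) (nat_lit 307) (nat_lit 261) (nat_lit 152)) (XT.nd (nat_lit 78) (nat_lit 76) (nat_lit 0) (XT.lf (nat_lit 0) (nat_lit 38300666495) (nat_lit 152) (nat_lit 14052452866) (nat_lit 76) (nat_lit 239819658819) (nat_lit 3) (nat_lit 5) (nat_lit 5) (nat_lit 5) (nat_lit 4) (nat_lit 4) (nat_lit 308) (nat_lit 261) (nat_lit 151)) (XT.lf (nat_lit 0) (nat_lit 24965524617) (nat_lit 76) (nat_lit 32094487815) (nat_lit 152) (nat_lit 256613160351) (nat_lit 2) (nat_lit 5) (nat_lit 3) (nat_lit 5) (nat_lit 4)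 (nat_lit 4) (nat_lit 309) (nat_lit 261) (nat_lit 150))))))))
noncomputable def xc88 : XT := (XT.nd (nat_lit 33774) (nat_lit 0) (nat_lit 836) (XT.nd (nat_lit 858) (nat_lit 0) (nat_lit 0) (XT.nd (nat_lit 390) (nat_lit 76) (nat_lit 0) (XT.nd (nat_lit 156) (nat_lit 0) (nat_lit 0) (XT.nd (nat_lit 78) (nat_lit 0) (nat_lit 0) (XT.lf (nat_lit 0) (nat_lit 67902892088) (nat_lit 76) (nat_lit 9800736323) (nat_lit 152) (nat_lit 259159290627) (nat_lit 2) (nat_lit 5) (nat_lit 3) (nat_lit 5) (nat_lit 4) (nat_lit 4) (nat_lit 310) (nat_lit 261) (nat_lit 149)) (XT.lf (nat_lit 0) (nat_lit 100341427469) (nat_lit 152) (nat_lit 247977121185) (nat_lit 0) (nat_lit 13561882567) (nat_lit 2) (nat_lit 5) (nat_lit 4) (nat_lit 4) (nat_lit 2) (nat_lit 4) (nat_lit 311) (nat_lit 261) (nat_lit 148))) (XT.nd (nat_lit 78) (nat_lit 0) (nat_lit 0) (XT.lf (nat_lit 0) (nat_lit 125044206942) (nat_lit 152) (nat_lit 225571235143)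 (nat_lit 0) (nat_lit 38263587379) (nat_lit 2) (nat_lit 5) (nat_lit 4) (nat_lit 4) (nat_lit 2) (nat_lit 4) (nat_lit 312) (nat_lit 261) (nat_lit 147)) (XT.nd (nat_lit 78) (nat_lit 0) (nat_lit 0) (XT.lf (nat_lit 0) (nat_lit 151722645729) (nat_lit 152) (nat_lit 201373885258) (nat_lit 0) (nat_lit 64941031108) (nat_lit 2) (nat_lit 5) (nat_lit 4) (nat_lit 4) (nat_lit 2) (nat_lit 4) (nat_lit 313) (nat_lit 261) (nat_lit 146)) (XT.lf (nat_lit 0) (nat_lit 180534838280) (nat_lit 152) (nat_lit 175241679829) (nat_lit 0) (nat_lit 93752302310) (nat_lit 2) (nat_lit 5) (nat_lit 4) (nat_lit 4) (nat_lit 2) (nat_lit 4) (nat_lit 314) (nat_lit 261) (nat_lit 145))))) (XT.nd (nat_lit 234) (nat_lit 76) (nat_lit 0) (XT.nd (nat_lit 78) (nat_lit 0) (nat_lit 0) (XT.lf (nat_lit 0) (nat_lit 211651523516) (nat_lit 152) (nat_lit 147019761341) (nat_lit 0) (nat_lit 124868134445) (nat_lit 2) (nat_lit 5) (nat_lit 4) (nat_lit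 4) (nat_lit 2) (nat_lit 4) (nat_lit 315) (nat_lit 261) (nat_lit 144)) (XT.nd (nat_lit 78) (nat_lit 0) (nat_lit 0) (XT.lf (nat_lit 0) (nat_lit 245257096607) (nat_lit 152) (nat_lit 116540888795) (nat_lit 0) (nat_lit 158472917627) (nat_lit 2) (nat_lit 5) (nat_lit 4) (nat_lit 4) (nat_lit 2) (nat_lit 4) (nat_lit 316) (nat_lit 261) (nat_lit 143)) (XT.lf (nat_lit 0) (nat_lit 281550701691) (nat_lit 152) (nat_lit 83624446652) (nat_lit 0) (nat_lit 194765791314) (nat_lit 2) (nat_lit 5) (nat_lit 4) (nat_lit 4) (nat_lit 2) (nat_lit 4) (nat_lit 317) (nat_lit 261) (nat_lit 142)))) (XT.nd (nat_lit 78) (nat_lit 76) (nat_lit 0) (XT.lf (nat_lit 0) (nat_lit 320747411983) (nat_lit 152) (nat_lit 48075374512) (nat_lit 0) (nat_lit 233961824387) (nat_lit 2) (nat_lit 5) (nat_lit 4) (nat_lit 4) (nat_lit 2) (nat_lit 4) (nat_lit 318) (nat_lit 261) (nat_lit 141)) (XT.nd (nat_lit 78) (nat_lit 76) (nat_lit 0) (XT.lf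 (nat_lit 0) (nat_lit 363079504284) (nat_lit 152) (nat_lit 9683011208) (nat_lit 0) (nat_lit 276293289633) (nat_lit 2) (nat_lit 5) (nat_lit 4) (nat_lit 4) (nat_lit 2) (nat_lit 4) (nat_lit 319) (nat_lit 261) (nat_lit 140)) (XT.lf (nat_lit 0) (nat_lit 33453640128) (nat_lit 76) (nat_lit 376148756159) (nat_lit 76) (nat_lit 289361960902) (nat_lit 1) (nat_lit 4) (nat_lit 2) (nat_lit 5) (nat_lit 2) (nat_lit 4) (nat_lit 320) (nat_lit 261) (nat_lit 139)))))) (XT.nd (nat_lit 468) (nat_lit 0) (nat_lit 0) (XT.nd (nat_lit 234) (nat_lit 0) (nat_lit 0) (XT.nd (nat_lit 78) (nat_lit 0) (nat_lit 0) (XT.lf (nat_lit 0) (nat_lit 80591332277) (nat_lit 76) (nat_lit 379520220091) (nat_lit 76) (nat_lit 292732887235) (nat_lit 1) (nat_lit 4) (nat_lit 2) (nat_lit 5) (nat_lit 2) (nat_lit 4) (nat_lit 321) (nat_lit 261) (nat_lit 138)) (XT.nd (nat_lit 78) (nat_lit 0) (nat_lit 0) (XT.lf (nat_lit 0) (nat_lit 131499509498)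 (nat_lit 76) (nat_lit 383161637021) (nat_lit 76) (nat_lit 296373806389) (nat_lit 1) (nat_lit 4) (nat_lit 2) (nat_lit 5) (nat_lit 2) (nat_lit 4) (nat_lit 322) (nat_lit 261) (nat_lit 137)) (XT.lf (nat_lit 0) (nat_lit 186479849879) (nat_lit 76) (nat_lit 387094585715) (nat_lit 76) (nat_lit 300306294179) (nat_lit 1) (nat_lit 4) (nat_lit 2) (nat_lit 5) (nat_lit 2) (nat_lit 4) (nat_lit 323) (nat_lit 261) (nat_lit 136)))) (XT.nd (nat_lit 78) (nat_lit 0) (nat_lit 0) (XT.lf (nat_lit 0) (nat_lit 245858162844) (nat_lit 76) (nat_lit 391342372536) (nat_lit 76) (nat_lit 304553654237) (nat_lit 1) (nat_lit 4) (nat_lit 2) (nat_lit 5) (nat_lit 2) (nat_lit 4) (nat_lit 324) (nat_lit 261) (nat_lit 135)) (XT.nd (nat_lit 78) (nat_lit 0) (nat_lit 0) (XT.lf (nat_lit 0) (nat_lit 309986319879) (nat_lit 76) (nat_lit 395930169554) (nat_lit 76) (nat_lit 309141056104) (nat_lit 1) (nat_lit 4) (nat_lit 2) (nat_lit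 5) (nat_lit 2) (nat_lit 4) (nat_lit 325) (nat_lit 261) (nat_lit 134)) (XT.lf (nat_lit 0) (nat_lit 379244339690) (nat_lit 76) (nat_lit 400885163714) (nat_lit 76) (nat_lit 314095684384) (nat_lit 1) (nat_lit 4) (nat_lit 2) (nat_lit 5) (nat_lit 2) (nat_lit 4) (nat_lit 326) (nat_lit 261) (nat_lit 133))))) (XT.nd (nat_lit 234) (nat_lit 0) (nat_lit 0) (XT.nd (nat_lit 78) (nat_lit 0) (nat_lit 0) (XT.lf (nat_lit 0) (nat_lit 454042640174) (nat_lit 76) (nat_lit 406236717946) (nat_lit 76) (nat_lit 319446899837) (nat_lit 1) (nat_lit 4) (nat_lit 2) (nat_lit 5) (nat_lit 2) (nat_lit 4) (nat_lit 327) (nat_lit 261) (nat_lit 132)) (XT.nd (nat_lit 78) (nat_lit 0) (nat_lit 0) (XT.lf (nat_lit 0) (nat_lit 534824470518) (nat_lit 76) (nat_lit 412016545161) (nat_lit 76) (nat_lit 325226413369) (nat_lit 1) (nat_lit 4) (nat_lit 2) (nat_lit 5) (nat_lit 2) (nat_lit 4) (nat_lit 328) (nat_lit 261) (nat_lit 131))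 (XT.lf (nat_lit 0) (nat_lit 622068537865) (nat_lit 76) (nat_lit 418258896190) (nat_lit 76) (nat_lit 331468473950) (nat_lit 1) (nat_lit 4) (nat_lit 2) (nat_lit 5) (nat_lit 2) (nat_lit 4) (nat_lit 329) (nat_lit 261) (nat_lit 130)))) (XT.nd (nat_lit 78) (nat_lit 0) (nat_lit 0) (XT.lf (nat_lit 0) (nat_lit 716291844096) (nat_lit 76) (nat_lit 425000762740) (nat_lit 76) (nat_lit 338210071567) (nat_lit 1) (nat_lit 4) (nat_lit 2) (nat_lit 5) (nat_lit 2) (nat_lit 4) (nat_lit 330) (nat_lit 261) (nat_lit 129)) (XT.nd (nat_lit 78) (nat_lit 0) (nat_lit 0) (XT.lf (nat_lit 0) (nat_lit 818052749544) (nat_lit 76) (nat_lit 432282096615) (nat_lit 76) (nat_lit 345491156430) (nat_lit 1) (nat_lit 4) (nat_lit 2) (nat_lit 5) (nat_lit 2) (nat_lit 4) (nat_lit 331) (nat_lit 261) (nat_lit 128)) (XT.lf (nat_lit 0) (nat_lit 927954281797) (nat_lit 76) (nat_lit 440146046459) (nat_lit 76) (nat_lit 353354875707) (nat_lit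 1) (nat_lit 4) (nat_lit 2) (nat_lit 5) (nat_lit 2) (nat_lit 4) (nat_lit 332) (nat_lit 261) (nat_lit 127))))))) (XT.nd (nat_lit 936) (nat_lit 836) (nat_lit 0) (XT.nd (nat_lit 468) (nat_lit 456) (nat_lit 0) (XT.nd (nat_lit 234) (nat_lit 0) (nat_lit 76) (XT.nd (nat_lit 78) (nat_lit 0) (nat_lit 0) (XT.lf (nat_lit 0) (nat_lit 1453072571) (nat_lit 532) (nat_lit 4890370994) (nat_lit 532) (nat_lit 4890370994) (nat_lit 29) (nat_lit 3) (nat_lit 36) (nat_lit 3) (nat_lit 36) (nat_lit 5) (nat_lit 262) (nat_lit 262) (nat_lit 196)) (XT.nd (nat_lit 78) (nat_lit 0) (nat_lit 76) (XT.lf (nat_lit 0) (nat_lit 3136554778) (nat_lit 532) (nat_lit 668030435) (nat_lit 532) (nat_lit 19551803666) (nat_lit 29) (nat_lit 3) (nat_lit 36) (nat_lit 3) (nat_lit 36) (nat_lit 5) (nat_lit 263) (nat_lit 262) (nat_lit 195)) (XT.lf (nat_lit 0) (nat_lit 3751426081) (nat_lit 456) (nat_lit 14793806448) (nat_lit 532) (nat_lit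 5741815848) (nat_lit 30) (nat_lit 5) (nat_lit 36) (nat_lit 5) (nat_lit 37) (nat_lit 5) (nat_lit 264) (nat_lit 262) (nat_lit 194)))) (XT.nd (nat_lit 78) (nat_lit 0) (nat_lit 76) (XT.lf (nat_lit 0) (nat_lit 4522438012) (nat_lit 456) (nat_lit 4891683215) (nat_lit 532) (nat_lit 15869558585) (nat_lit 30) (nat_lit 5) (nat_lit 36) (nat_lit 5) (nat_lit 37) (nat_lit 5) (nat_lit 265) (nat_lit 262) (nat_lit 193)) (XT.nd (nat_lit 78) (nat_lit 0) (nat_lit 0) (XT.lf (nat_lit 0) (nat_lit 5506694289) (nat_lit 456) (nat_lit 20262561730) (nat_lit 532) (nat_lit 578730344) (nat_lit 31) (nat_lit 5) (nat_lit 37) (nat_lit 5) (nat_lit 38) (nat_lit 5) (nat_lit 266) (nat_lit 262) (nat_lit 192)) (XT.lf (nat_lit 0) (nat_lit 6942253804) (nat_lit 456) (nat_lit 9523116194) (nat_lit 532) (nat_lit 11002326935) (nat_lit 31) (nat_lit 5) (nat_lit 37) (nat_lit 5) (nat_lit 38) (nat_lit 5) (nat_lit 267) (nat_lit 262) (nat_lit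 191))))) (XT.nd (nat_lit 234) (nat_lit 608) (nat_lit 0) (XT.nd (nat_lit 78) (nat_lit 0) (nat_lit 76) (XT.lf (nat_lit 76) (nat_lit 2177683159) (nat_lit 0) (nat_lit 6358847201) (nat_lit 532) (nat_lit 20137003943) (nat_lit 32) (nat_lit 5) (nat_lit 31) (nat_lit 5) (nat_lit 38) (nat_lit 5) (nat_lit 268) (nat_lit 262) (nat_lit 190)) (XT.nd (nat_lit 78) (nat_lit 0) (nat_lit 0) (XT.lf (nat_lit 0) (nat_lit 10627073510) (nat_lit 456) (nat_lit 14722514147) (nat_lit 76) (nat_lit 4596808357) (nat_lit 32) (nat_lit 5) (nat_lit 38) (nat_lit 5) (nat_lit 33) (nat_lit 5) (nat_lit 269) (nat_lit 262) (nat_lit 189)) (XT.lf (nat_lit 0) (nat_lit 13042622984) (nat_lit 456) (nat_lit 2179234838) (nat_lit 76) (nat_lit 16086659025) (nat_lit 32) (nat_lit 5) (nat_lit 38) (nat_lit 5) (nat_lit 33) (nat_lit 5) (nat_lit 270) (nat_lit 262) (nat_lit 188)))) (XT.nd (nat_lit 78) (nat_lit 228) (nat_lit 0) (XT.lf (nat_lit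 0) (nat_lit 11959510928) (nat_lit 456) (nat_lit 3972678317) (nat_lit 532) (nat_lit 16825003693) (nat_lit 26) (nat_lit 5) (nat_lit 32) (nat_lit 5) (nat_lit 33) (nat_lit 5) (nat_lit 271) (nat_lit 262) (nat_lit 187)) (XT.nd (nat_lit 78) (nat_lit 228) (nat_lit 0) (XT.lf (nat_lit 0) (nat_lit 19304212759) (nat_lit 532) (nat_lit 7168569484) (nat_lit 76) (nat_lit 7828921425) (nat_lit 26) (nat_lit 5) (nat_lit 33) (nat_lit 5) (nat_lit 27) (nat_lit 5) (nat_lit 272) (nat_lit 262) (nat_lit 186)) (XT.lf (nat_lit 0) (nat_lit 7833363105) (nat_lit 228) (nat_lit 15398211011) (nat_lit 304) (nat_lit 12715395716) (nat_lit 23) (nat_lit 5) (nat_lit 26) (nat_lit 5) (nat_lit 27) (nat_lit 5) (nat_lit 273) (nat_lit 262) (nat_lit 185)))))) (XT.nd (nat_lit 468) (nat_lit 380) (nat_lit 0) (XT.nd (nat_lit 234) (nat_lit 304) (nat_lit 0) (XT.nd (nat_lit 78) (nat_lit 152) (nat_lit 0) (XT.lf (nat_lit 0) (nat_lit 24437110596)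 (nat_lit 228) (nat_lit 3226311950) (nat_lit 304) (nat_lit 10045248537) (nat_lit 23) (nat_lit 5) (nat_lit 26) (nat_lit 5) (nat_lit 27) (nat_lit 5) (nat_lit 274) (nat_lit 262) (nat_lit 184)) (XT.nd (nat_lit 78) (nat_lit 0) (nat_lit 0) (XT.lf (nat_lit 0) (nat_lit 2645606364) (nat_lit 152) (nat_lit 30101111842) (nat_lit 228) (nat_lit 6840873131) (nat_lit 21) (nat_lit 5) (nat_lit 23) (nat_lit 5) (nat_lit 24) (nat_lit 5) (nat_lit 275) (nat_lit 262) (nat_lit 183)) (XT.lf (nat_lit 0) (nat_lit 20496824767) (nat_lit 152) (nat_lit 18179362061) (nat_lit 228) (nat_lit 2905509914) (nat_lit 21) (nat_lit 5) (nat_lit 23) (nat_lit 5) (nat_lit 24) (nat_lit 5) (nat_lit 276) (nat_lit 262) (nat_lit 182)))) (XT.nd (nat_lit 78) (nat_lit 228) (nat_lit 0) (XT.lf (nat_lit 0) (nat_lit 1272602050) (nat_lit 228) (nat_lit 3997249734) (nat_lit 76) (nat_lit 38463304400) (nat_lit 20) (nat_lit 5) (nat_lit 23) (nat_lit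 5) (nat_lit 21) (nat_lit 5) (nat_lit 277) (nat_lit 262) (nat_lit 181)) (XT.nd (nat_lit 78) (nat_lit 0) (nat_lit 0) (XT.lf (nat_lit 0) (nat_lit 6207463261) (nat_lit 304) (nat_lit 31108260223) (nat_lit 76) (nat_lit 8688639230) (nat_lit 17) (nat_lit 5) (nat_lit 21) (nat_lit 5) (nat_lit 18) (nat_lit 5) (nat_lit 278) (nat_lit 262) (nat_lit 180)) (XT.lf (nat_lit 0) (nat_lit 11781850110) (nat_lit 304) (nat_lit 13065494666) (nat_lit 76) (nat_lit 23590365774) (nat_lit 17) (nat_lit 5) (nat_lit 21) (nat_lit 5) (nat_lit 18) (nat_lit 5) (nat_lit 279) (nat_lit 262) (nat_lit 179))))) (XT.nd (nat_lit 234) (nat_lit 228) (nat_lit 0) (XT.nd (nat_lit 78) (nat_lit 0) (nat_lit 0) (XT.lf (nat_lit 0) (nat_lit 6753429491) (nat_lit 152) (nat_lit 11207221918) (nat_lit 228) (nat_lit 33092419686) (nat_lit 15) (nat_lit 5) (nat_lit 17) (nat_lit 5) (nat_lit 18) (nat_lit 5) (nat_lit 280) (nat_lit 262) (nat_lit 178))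 (XT.nd (nat_lit 78) (nat_lit 0) (nat_lit 0) (XT.lf (nat_lit 0) (nat_lit 25081212830) (nat_lit 228) (nat_lit 25047463697) (nat_lit 76) (nat_lit 3713207814) (nat_lit 15) (nat_lit 5) (nat_lit 18) (nat_lit 5) (nat_lit 16) (nat_lit 5) (nat_lit 281) (nat_lit 262) (nat_lit 177)) (XT.lf (nat_lit 0) (nat_lit 33058986662) (nat_lit 228) (nat_lit 4551080456) (nat_lit 76) (nat_lit 19220748959) (nat_lit 15) (nat_lit 5) (nat_lit 18) (nat_lit 5) (nat_lit 16) (nat_lit 5) (nat_lit 282) (nat_lit 262) (nat_lit 176)))) (XT.nd (nat_lit 78) (nat_lit 76) (nat_lit 0) (XT.lf (nat_lit 0) (nat_lit 18506260207) (nat_lit 152) (nat_lit 23610530440) (nat_lit 228) (nat_lit 17906744482) (nat_lit 13) (nat_lit 5) (nat_lit 15) (nat_lit 5) (nat_lit 16) (nat_lit 5) (nat_lit 283) (nat_lit 262) (nat_lit 175)) (XT.nd (nat_lit 78) (nat_lit 76) (nat_lit 0) (XT.lf (nat_lit 0) (nat_lit 43662614993) (nat_lit 152) (nat_lit 8357907115)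 (nat_lit 228) (nat_lit 11441461489) (nat_lit 13) (nat_lit 5) (nat_lit 15) (nat_lit 5) (nat_lit 16) (nat_lit 5) (nat_lit 284) (nat_lit 262) (nat_lit 174)) (XT.lf (nat_lit 0) (nat_lit 3638529930) (nat_lit 76) (nat_lit 59357765379) (nat_lit 152) (nat_lit 4156848124) (nat_lit 12) (nat_lit 5) (nat_lit 13) (nat_lit 5) (nat_lit 14) (nat_lit 4) (nat_lit 285) (nat_lit 262) (nat_lit 173))))))))
noncomputable def xc89 : XT := (XT.nd (nat_lit 1872) (nat_lit 152) (nat_lit 0) (XT.nd (nat_lit 936) (nat_lit 228) (nat_lit 0) (XT.nd (nat_lit 468) (nat_lit 152) (nat_lit 0) (XT.nd (nat_lit 234) (nat_lit 76) (nat_lit 0) (XT.nd (nat_lit 78) (nat_lit 152) (nat_lit 0) (XT.lf (nat_lit 0) (nat_lit 4294520164) (nat_lit 152) (nat_lit 41343554962) (nat_lit 76) (nat_lit 25432826526) (nat_lit 11) (nat_lit 5) (nat_lit 13) (nat_lit 5) (nat_lit 12) (nat_lit 5) (nat_lit 286) (nat_lit 262) (nat_lit 172)) (XT.nd (nat_lit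 78) (nat_lit 152) (nat_lit 0) (XT.lf (nat_lit 0) (nat_lit 13194737234) (nat_lit 152) (nat_lit 17510806733) (nat_lit 76) (nat_lit 44588125456) (nat_lit 11) (nat_lit 5) (nat_lit 13) (nat_lit 5) (nat_lit 12) (nat_lit 5) (nat_lit 287) (nat_lit 262) (nat_lit 171)) (XT.lf (nat_lit 0) (nat_lit 8657939794) (nat_lit 152) (nat_lit 14354771355) (nat_lit 228) (nat_lit 56825099295) (nat_lit 9) (nat_lit 5) (nat_lit 11) (nat_lit 5) (nat_lit 12) (nat_lit 5) (nat_lit 288) (nat_lit 262) (nat_lit 170)))) (XT.nd (nat_lit 78) (nat_lit 76) (nat_lit 0) (XT.lf (nat_lit 0) (nat_lit 34184380549) (nat_lit 228) (nat_lit 46886841698) (nat_lit 76) (nat_lit 3628810068) (nat_lit 9) (nat_lit 5) (nat_lit 12) (nat_lit 5) (nat_lit 10) (nat_lit 4) (nat_lit 289) (nat_lit 262) (nat_lit 169)) (XT.nd (nat_lit 78) (nat_lit 76) (nat_lit 0) (XT.lf (nat_lit 0) (nat_lit 46620396310) (nat_lit 228) (nat_lit 21026743540) (nat_lit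 76) (nat_lit 22274452481) (nat_lit 9) (nat_lit 5) (nat_lit 12) (nat_lit 5) (nat_lit 10) (nat_lit 4) (nat_lit 290) (nat_lit 262) (nat_lit 168)) (XT.lf (nat_lit 0) (nat_lit 7262185368) (nat_lit 76) (nat_lit 52961691108) (nat_lit 152) (nat_lit 35323202742) (nat_lit 8) (nat_lit 5) (nat_lit 9) (nat_lit 5) (nat_lit 10) (nat_lit 4) (nat_lit 291) (nat_lit 262) (nat_lit 167))))) (XT.nd (nat_lit 234) (nat_lit 152) (nat_lit 0) (XT.nd (nat_lit 78) (nat_lit 0) (nat_lit 0) (XT.lf (nat_lit 0) (nat_lit 39006859659) (nat_lit 76) (nat_lit 36481688323) (nat_lit 152) (nat_lit 26088232117) (nat_lit 8) (nat_lit 5) (nat_lit 9) (nat_lit 5) (nat_lit 10) (nat_lit 4) (nat_lit 292) (nat_lit 262) (nat_lit 166)) (XT.nd (nat_lit 78) (nat_lit 0) (nat_lit 0) (XT.lf (nat_lit 0) (nat_lit 73288164868) (nat_lit 76) (nat_lit 18684380652) (nat_lit 152) (nat_lit 16116466824) (nat_lit 8) (nat_lit 5) (nat_lit 9) (nat_lit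 5) (nat_lit 10) (nat_lit 4) (nat_lit 293) (nat_lit 262) (nat_lit 165)) (XT.lf (nat_lit 0) (nat_lit 109786435573) (nat_lit 152) (nat_lit 4826001026) (nat_lit 0) (nat_lit 508899677) (nat_lit 8) (nat_lit 5) (nat_lit 10) (nat_lit 4) (nat_lit 8) (nat_lit 4) (nat_lit 294) (nat_lit 262) (nat_lit 164)))) (XT.nd (nat_lit 78) (nat_lit 0) (nat_lit 0) (XT.lf (nat_lit 0) (nat_lit 7192667271) (nat_lit 152) (nat_lit 94321082341) (nat_lit 76) (nat_lit 21094436525) (nat_lit 6) (nat_lit 5) (nat_lit 8) (nat_lit 5) (nat_lit 7) (nat_lit 4) (nat_lit 295) (nat_lit 262) (nat_lit 163)) (XT.nd (nat_lit 78) (nat_lit 0) (nat_lit 0) (XT.lf (nat_lit 0) (nat_lit 20568000919) (nat_lit 152) (nat_lit 66504364621) (nat_lit 76) (nat_lit 43599835759) (nat_lit 6) (nat_lit 5) (nat_lit 8) (nat_lit 5) (nat_lit 7) (nat_lit 4) (nat_lit 296) (nat_lit 262) (nat_lit 162)) (XT.lf (nat_lit 0) (nat_lit 35011884140) (nat_lit 152)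 (nat_lit 36464769252) (nat_lit 76) (nat_lit 67904807542) (nat_lit 6) (nat_lit 5) (nat_lit 8) (nat_lit 5) (nat_lit 7) (nat_lit 4) (nat_lit 297) (nat_lit 262) (nat_lit 161)))))) (XT.nd (nat_lit 468) (nat_lit 76) (nat_lit 0) (XT.nd (nat_lit 234) (nat_lit 76) (nat_lit 0) (XT.nd (nat_lit 78) (nat_lit 76) (nat_lit 0) (XT.lf (nat_lit 0) (nat_lit 50609910315) (nat_lit 152) (nat_lit 4024283815) (nat_lit 76) (nat_lit 94153381336) (nat_lit 6) (nat_lit 5) (nat_lit 8) (nat_lit 5) (nat_lit 7) (nat_lit 4) (nat_lit 298) (nat_lit 262) (nat_lit 160)) (XT.nd (nat_lit 78) (nat_lit 0) (nat_lit 0) (XT.lf (nat_lit 0) (nat_lit 32642228049) (nat_lit 76) (nat_lit 35597330514) (nat_lit 152) (nat_lit 90643922566) (nat_lit 5) (nat_lit 5) (nat_lit 6) (nat_lit 5) (nat_lit 7) (nat_lit 4) (nat_lit 299) (nat_lit 262) (nat_lit 159)) (XT.lf (nat_lit 0) (nat_lit 72468869984) (nat_lit 76) (nat_lit 14919517718) (nat_lit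 152) (nat_lit 82389970859) (nat_lit 5) (nat_lit 5) (nat_lit 6) (nat_lit 5) (nat_lit 7) (nat_lit 4) (nat_lit 300) (nat_lit 262) (nat_lit 158)))) (XT.nd (nat_lit 78) (nat_lit 76) (nat_lit 0) (XT.lf (nat_lit 0) (nat_lit 108246244402) (nat_lit 152) (nat_lit 66243433111) (nat_lit 0) (nat_lit 7040982717) (nat_lit 5) (nat_lit 5) (nat_lit 7) (nat_lit 4) (nat_lit 5) (nat_lit 4) (nat_lit 301) (nat_lit 262) (nat_lit 157)) (XT.nd (nat_lit 78) (nat_lit 76) (nat_lit 0) (XT.lf (nat_lit 0) (nat_lit 131159184709) (nat_lit 152) (nat_lit 33081445473) (nat_lit 0) (nat_lit 29951602910) (nat_lit 5) (nat_lit 5) (nat_lit 7) (nat_lit 4) (nat_lit 5) (nat_lit 4) (nat_lit 302) (nat_lit 262) (nat_lit 156)) (XT.lf (nat_lit 0) (nat_lit 2875656567) (nat_lit 76) (nat_lit 153097677293) (nat_lit 76) (nat_lit 51887947239) (nat_lit 4) (nat_lit 4) (nat_lit 5) (nat_lit 5) (nat_lit 5) (nat_lit 4) (nat_lit 303) (nat_lit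 262) (nat_lit 155))))) (XT.nd (nat_lit 234) (nat_lit 76) (nat_lit 0) (XT.nd (nat_lit 78) (nat_lit 0) (nat_lit 0) (XT.lf (nat_lit 0) (nat_lit 43589044244) (nat_lit 76) (nat_lit 140087123321) (nat_lit 76) (nat_lit 38875404143) (nat_lit 4) (nat_lit 4) (nat_lit 5) (nat_lit 5) (nat_lit 5) (nat_lit 4) (nat_lit 304) (nat_lit 262) (nat_lit 154)) (XT.nd (nat_lit 78) (nat_lit 0) (nat_lit 0) (XT.lf (nat_lit 0) (nat_lit 87557971782) (nat_lit 76) (nat_lit 126036374032) (nat_lit 76) (nat_lit 24822813073) (nat_lit 4) (nat_lit 4) (nat_lit 5) (nat_lit 5) (nat_lit 5) (nat_lit 4) (nat_lit 305) (nat_lit 262) (nat_lit 153)) (XT.lf (nat_lit 0) (nat_lit 135042995789) (nat_lit 76) (nat_lit 110862165727) (nat_lit 76) (nat_lit 9646899414) (nat_lit 4) (nat_lit 4) (nat_lit 5) (nat_lit 5) (nat_lit 5) (nat_lit 4) (nat_lit 306) (nat_lit 262) (nat_lit 152)))) (XT.nd (nat_lit 78) (nat_lit 0) (nat_lit 0) (XT.lf (nat_lit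 0) (nat_lit 6404992611) (nat_lit 152) (nat_lit 87894460710) (nat_lit 76) (nat_lit 179745392540) (nat_lit 3) (nat_lit 5) (nat_lit 5) (nat_lit 5) (nat_lit 4) (nat_lit 4) (nat_lit 307) (nat_lit 262) (nat_lit 151)) (XT.nd (nat_lit 78) (nat_lit 0) (nat_lit 0) (XT.lf (nat_lit 0) (nat_lit 23219132320) (nat_lit 152) (nat_lit 52922512182) (nat_lit 76) (nat_lit 217855423244) (nat_lit 3) (nat_lit 5) (nat_lit 5) (nat_lit 5) (nat_lit 4) (nat_lit 4) (nat_lit 308) (nat_lit 262) (nat_lit 150)) (XT.lf (nat_lit 0) (nat_lit 41377736035) (nat_lit 152) (nat_lit 15153970218) (nat_lit 76) (nat_lit 259013816374) (nat_lit 3) (nat_lit 5) (nat_lit 5) (nat_lit 5) (nat_lit 4) (nat_lit 4) (nat_lit 309) (nat_lit 262) (nat_lit 149))))))) (XT.nd (nat_lit 936) (nat_lit 0) (nat_lit 0) (XT.nd (nat_lit 468) (nat_lit 76) (nat_lit 0) (XT.nd (nat_lit 234) (nat_lit 0) (nat_lit 0) (XT.nd (nat_lit 78) (nat_lit 0) (nat_lit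 0) (XT.lf (nat_lit 0) (nat_lit 26984871315) (nat_lit 76) (nat_lit 34652525787) (nat_lit 152) (nat_lit 277128589005) (nat_lit 2) (nat_lit 5) (nat_lit 3) (nat_lit 5) (nat_lit 4) (nat_lit 4) (nat_lit 310) (nat_lit 262) (nat_lit 148)) (XT.nd (nat_lit 78) (nat_lit 0) (nat_lit 0) (XT.lf (nat_lit 0) (nat_lit 73355590797) (nat_lit 76) (nat_lit 10575979438) (nat_lit 152) (nat_lit 279879418901) (nat_lit 2) (nat_lit 5) (nat_lit 3) (nat_lit 5) (nat_lit 4) (nat_lit 4) (nat_lit 311) (nat_lit 262) (nat_lit 147)) (XT.lf (nat_lit 0) (nat_lit 108379726454) (nat_lit 152) (nat_lit 267795643892) (nat_lit 0) (nat_lit 14654587607) (nat_lit 2) (nat_lit 5) (nat_lit 4) (nat_lit 4) (nat_lit 2) (nat_lit 4) (nat_lit 312) (nat_lit 262) (nat_lit 146)))) (XT.nd (nat_lit 78) (nat_lit 0) (nat_lit 0) (XT.lf (nat_lit 0) (nat_lit 135057914598) (nat_lit 152) (nat_lit 243598742299) (nat_lit 0) (nat_lit 41331854401) (nat_lit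 2) (nat_lit 5) (nat_lit 4) (nat_lit 4) (nat_lit 2) (nat_lit 4) (nat_lit 313) (nat_lit 262) (nat_lit 145)) (XT.nd (nat_lit 78) (nat_lit 0) (nat_lit 0) (XT.lf (nat_lit 0) (nat_lit 163869875072) (nat_lit 152) (nat_lit 217466951954) (nat_lit 0) (nat_lit 70142961774) (nat_lit 2) (nat_lit 5) (nat_lit 4) (nat_lit 4) (nat_lit 2) (nat_lit 4) (nat_lit 314) (nat_lit 262) (nat_lit 144)) (XT.lf (nat_lit 0) (nat_lit 194986345422) (nat_lit 152) (nat_lit 189245417803) (nat_lit 0) (nat_lit 101258642215) (nat_lit 2) (nat_lit 5) (nat_lit 4) (nat_lit 4) (nat_lit 2) (nat_lit 4) (nat_lit 315) (nat_lit 262) (nat_lit 143))))) (XT.nd (nat_lit 234) (nat_lit 76) (nat_lit 0) (XT.nd (nat_lit 78) (nat_lit 0) (nat_lit 0) (XT.lf (nat_lit 0) (nat_lit 228591719544) (nat_lit 152) (nat_lit 158766901126) (nat_lit 0) (nat_lit 134863284941) (nat_lit 2) (nat_lit 5) (nat_lit 4) (nat_lit 4) (nat_lit 2) (nat_lit 4) (nat_lit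 316) (nat_lit 262) (nat_lit 142)) (XT.nd (nat_lit 78) (nat_lit 0) (nat_lit 0) (XT.lf (nat_lit 0) (nat_lit 264885140398) (nat_lit 152) (nat_lit 125850788490) (nat_lit 0) (nat_lit 171156028575) (nat_lit 2) (nat_lit 5) (nat_lit 4) (nat_lit 4) (nat_lit 2) (nat_lit 4) (nat_lit 317) (nat_lit 262) (nat_lit 141)) (XT.lf (nat_lit 0) (nat_lit 304081680106) (nat_lit 152) (nat_lit 90302021449) (nat_lit 0) (nat_lit 210351941228) (nat_lit 2) (nat_lit 5) (nat_lit 4) (nat_lit 4) (nat_lit 2) (nat_lit 4) (nat_lit 318) (nat_lit 262) (nat_lit 140)))) (XT.nd (nat_lit 78) (nat_lit 76) (nat_lit 0) (XT.lf (nat_lit 0) (nat_lit 346413614459) (nat_lit 152) (nat_lit 51909940644) (nat_lit 0) (nat_lit 252683294975) (nat_lit 2) (nat_lit 5) (nat_lit 4) (nat_lit 4) (nat_lit 2) (nat_lit 4) (nat_lit 319) (nat_lit 262) (nat_lit 139)) (XT.nd (nat_lit 78) (nat_lit 76) (nat_lit 0) (XT.lf (nat_lit 0) (nat_lit 392131799366)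 (nat_lit 152) (nat_lit 10447037448) (nat_lit 0) (nat_lit 298400942283) (nat_lit 2) (nat_lit 5) (nat_lit 4) (nat_lit 4) (nat_lit 2) (nat_lit 4) (nat_lit 320) (nat_lit 262) (nat_lit 138)) (XT.lf (nat_lit 0) (nat_lit 36140277269) (nat_lit 76) (nat_lit 406236054670) (nat_lit 76) (nat_lit 312504699811) (nat_lit 1) (nat_lit 4) (nat_lit 2) (nat_lit 5) (nat_lit 2) (nat_lit 4) (nat_lit 321) (nat_lit 262) (nat_lit 137)))))) (XT.nd (nat_lit 468) (nat_lit 0) (nat_lit 0) (XT.nd (nat_lit 234) (nat_lit 0) (nat_lit 0) (XT.nd (nat_lit 78) (nat_lit 0) (nat_lit 0) (XT.lf (nat_lit 0) (nat_lit 87048218424) (nat_lit 76) (nat_lit 409877576604) (nat_lit 76) (nat_lit 316145760841) (nat_lit 1) (nat_lit 4) (nat_lit 2) (nat_lit 5) (nat_lit 2) (nat_lit 4) (nat_lit 322) (nat_lit 262) (nat_lit 136)) (XT.nd (nat_lit 78) (nat_lit 0) (nat_lit 0) (XT.lf (nat_lit 0) (nat_lit 142028340225) (nat_lit 76) (nat_lit 413810622525)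 (nat_lit 76) (nat_lit 320078379999) (nat_lit 1) (nat_lit 4) (nat_lit 2) (nat_lit 5) (nat_lit 2) (nat_lit 4) (nat_lit 323) (nat_lit 262) (nat_lit 135)) (XT.lf (nat_lit 0) (nat_lit 201406450802) (nat_lit 76) (nat_lit 418058499371) (nat_lit 76) (nat_lit 324325861694) (nat_lit 1) (nat_lit 4) (nat_lit 2) (nat_lit 5) (nat_lit 2) (nat_lit 4) (nat_lit 324) (nat_lit 262) (nat_lit 134)))) (XT.nd (nat_lit 78) (nat_lit 0) (nat_lit 0) (XT.lf (nat_lit 0) (nat_lit 265534420440) (nat_lit 76) (nat_lit 422646379745) (nat_lit 76) (nat_lit 328913376187) (nat_lit 1) (nat_lit 4) (nat_lit 2) (nat_lit 5) (nat_lit 2) (nat_lit 4) (nat_lit 325) (nat_lit 262) (nat_lit 133)) (XT.nd (nat_lit 78) (nat_lit 0) (nat_lit 0) (XT.lf (nat_lit 0) (nat_lit 334792266735) (nat_lit 76) (nat_lit 427601451087) (nat_lit 76) (nat_lit 333868108751) (nat_lit 1) (nat_lit 4) (nat_lit 2) (nat_lit 5) (nat_lit 2) (nat_lit 4) (nat_lit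 326) (nat_lit 262) (nat_lit 132)) (XT.lf (nat_lit 0) (nat_lit 409590406557) (nat_lit 76) (nat_lit 432953076782) (nat_lit 76) (nat_lit 339219420763) (nat_lit 1) (nat_lit 4) (nat_lit 2) (nat_lit 5) (nat_lit 2) (nat_lit 4) (nat_lit 327) (nat_lit 262) (nat_lit 131))))) (XT.nd (nat_lit 234) (nat_lit 0) (nat_lit 0) (XT.nd (nat_lit 78) (nat_lit 0) (nat_lit 0) (XT.lf (nat_lit 0) (nat_lit 490372088139) (nat_lit 76) (nat_lit 438732970169) (nat_lit 76) (nat_lit 344999023702) (nat_lit 1) (nat_lit 4) (nat_lit 2) (nat_lit 5) (nat_lit 2) (nat_lit 4) (nat_lit 328) (nat_lit 262) (nat_lit 130)) (XT.nd (nat_lit 78) (nat_lit 0) (nat_lit 0) (XT.lf (nat_lit 0) (nat_lit 577616017744) (nat_lit 76) (nat_lit 444975382467) (nat_lit 76) (nat_lit 351241167067) (nat_lit 1) (nat_lit 4) (nat_lit 2) (nat_lit 5) (nat_lit 2) (nat_lit 4) (nat_lit 329) (nat_lit 262) (nat_lit 129)) (XT.lf (nat_lit 0) (nat_lit 671839196436)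 (nat_lit 76) (nat_lit 451717305748) (nat_lit 76) (nat_lit 357982841336) (nat_lit 1) (nat_lit 4) (nat_lit 2) (nat_lit 5) (nat_lit 2) (nat_lit 4) (nat_lit 330) (nat_lit 262) (nat_lit 128)))) (XT.nd (nat_lit 78) (nat_lit 0) (nat_lit 0) (XT.lf (nat_lit 0) (nat_lit 773599983792) (nat_lit 76) (nat_lit 458998692151) (nat_lit 76) (nat_lit 365263997173) (nat_lit 1) (nat_lit 4) (nat_lit 2) (nat_lit 5) (nat_lit 2) (nat_lit 4) (nat_lit 331) (nat_lit 262) (nat_lit 127)) (XT.nd (nat_lit 32136) (nat_lit 0) (nat_lit 2128) (XT.lf (nat_lit 0) (nat_lit 883501406700) (nat_lit 76) (nat_lit 466862690633) (nat_lit 76) (nat_lit 373127782166) (nat_lit 1) (nat_lit 4) (nat_lit 2) (nat_lit 5) (nat_lit 2) (nat_lit 4) (nat_lit 332) (nat_lit 262) (nat_lit 126)) (XT.lf (nat_lit 0) (nat_lit 1680736564) (nat_lit 532) (nat_lit 5221038471) (nat_lit 532) (nat_lit 5221038471) (nat_lit 29) (nat_lit 3) (nat_lit 36) (nat_lit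 3) (nat_lit 36) (nat_lit 5) (nat_lit 263) (nat_lit 263) (nat_lit 194))))))))
noncomputable def xc90 : XT := (XT.nd (nat_lit 1794) (nat_lit 684) (nat_lit 0) (XT.nd (nat_lit 858) (nat_lit 836) (nat_lit 0) (XT.nd (nat_lit 390) (nat_lit 456) (nat_lit 0) (XT.nd (nat_lit 156) (nat_lit 0) (nat_lit 76) (XT.nd (nat_lit 78) (nat_lit 0) (nat_lit 76) (XT.lf (nat_lit 0) (nat_lit 3593809137) (nat_lit 532) (nat_lit 609320644) (nat_lit 532) (nat_lit 21003795733) (nat_lit 29) (nat_lit 3) (nat_lit 36) (nat_lit 3) (nat_lit 36) (nat_lit 5) (nat_lit 264) (nat_lit 263) (nat_lit 193)) (XT.lf (nat_lit 0) (nat_lit 4243186505) (nat_lit 456) (nat_lit 15849115767) (nat_lit 532) (nat_lit 6121018937) (nat_lit 30) (nat_lit 5) (nat_lit 36) (nat_lit 5) (nat_lit 37) (nat_lit 5) (nat_lit 265) (nat_lit 263) (nat_lit 192))) (XT.nd (nat_lit 78) (nat_lit 0) (nat_lit 76) (XT.lf (nat_lit 0) (nat_lit 5061683365) (nat_lit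 456) (nat_lit 5164318615) (nat_lit 532) (nat_lit 17064917551) (nat_lit 30) (nat_lit 5) (nat_lit 36) (nat_lit 5) (nat_lit 37) (nat_lit 5) (nat_lit 266) (nat_lit 263) (nat_lit 191)) (XT.nd (nat_lit 78) (nat_lit 0) (nat_lit 0) (XT.lf (nat_lit 0) (nat_lit 6113082097) (nat_lit 456) (nat_lit 21752103956) (nat_lit 532) (nat_lit 576205631) (nat_lit 31) (nat_lit 5) (nat_lit 37) (nat_lit 5) (nat_lit 38) (nat_lit 5) (nat_lit 267) (nat_lit 263) (nat_lit 190)) (XT.lf (nat_lit 0) (nat_lit 7651201021) (nat_lit 456) (nat_lit 10163240757) (nat_lit 532) (nat_lit 11837306478) (nat_lit 31) (nat_lit 5) (nat_lit 37) (nat_lit 5) (nat_lit 38) (nat_lit 5) (nat_lit 268) (nat_lit 263) (nat_lit 189))))) (XT.nd (nat_lit 234) (nat_lit 608) (nat_lit 0) (XT.nd (nat_lit 78) (nat_lit 0) (nat_lit 76) (XT.lf (nat_lit 76) (nat_lit 2470540906) (nat_lit 0) (nat_lit 6893956837) (nat_lit 532) (nat_lit 21590316558) (nat_lit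 32) (nat_lit 5) (nat_lit 31) (nat_lit 5) (nat_lit 38) (nat_lit 5) (nat_lit 269) (nat_lit 263) (nat_lit 188)) (XT.nd (nat_lit 78) (nat_lit 0) (nat_lit 0) (XT.lf (nat_lit 0) (nat_lit 11610952344) (nat_lit 456) (nat_lit 15778203422) (nat_lit 76) (nat_lit 4941329755) (nat_lit 32) (nat_lit 5) (nat_lit 38) (nat_lit 5) (nat_lit 33) (nat_lit 5) (nat_lit 270) (nat_lit 263) (nat_lit 187)) (XT.lf (nat_lit 0) (nat_lit 14209841112) (nat_lit 456) (nat_lit 2240507091) (nat_lit 76) (nat_lit 17352088719) (nat_lit 32) (nat_lit 5) (nat_lit 38) (nat_lit 5) (nat_lit 33) (nat_lit 5) (nat_lit 271) (nat_lit 263) (nat_lit 186)))) (XT.nd (nat_lit 78) (nat_lit 228) (nat_lit 0) (XT.lf (nat_lit 0) (nat_lit 13026475893) (nat_lit 456) (nat_lit 4297576208) (nat_lit 532) (nat_lit 18043540098) (nat_lit 26) (nat_lit 5) (nat_lit 32) (nat_lit 5) (nat_lit 33) (nat_lit 5) (nat_lit 272) (nat_lit 263) (nat_lit 185)) (XT.nd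 (nat_lit 78) (nat_lit 228) (nat_lit 0) (XT.lf (nat_lit 0) (nat_lit 20956991775) (nat_lit 532) (nat_lit 7630434092) (nat_lit 76) (nat_lit 8449004329) (nat_lit 26) (nat_lit 5) (nat_lit 33) (nat_lit 5) (nat_lit 27) (nat_lit 5) (nat_lit 273) (nat_lit 263) (nat_lit 184)) (XT.lf (nat_lit 0) (nat_lit 8568827257) (nat_lit 228) (nat_lit 16624298569) (nat_lit 304) (nat_lit 13620679528) (nat_lit 23) (nat_lit 5) (nat_lit 26) (nat_lit 5) (nat_lit 27) (nat_lit 5) (nat_lit 274) (nat_lit 263) (nat_lit 183)))))) (XT.nd (nat_lit 468) (nat_lit 380) (nat_lit 0) (XT.nd (nat_lit 234) (nat_lit 304) (nat_lit 0) (XT.nd (nat_lit 78) (nat_lit 152) (nat_lit 0) (XT.lf (nat_lit 0) (nat_lit 26492815650) (nat_lit 228) (nat_lit 3479074940) (nat_lit 304) (nat_lit 10745213006) (nat_lit 23) (nat_lit 5) (nat_lit 26) (nat_lit 5) (nat_lit 27) (nat_lit 5) (nat_lit 275) (nat_lit 263) (nat_lit 182)) (XT.nd (nat_lit 78) (nat_lit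 0) (nat_lit 0) (XT.lf (nat_lit 0) (nat_lit 2963367603) (nat_lit 152) (nat_lit 32494087032) (nat_lit 228) (nat_lit 7289281098) (nat_lit 21) (nat_lit 5) (nat_lit 23) (nat_lit 5) (nat_lit 24) (nat_lit 5) (nat_lit 276) (nat_lit 263) (nat_lit 181)) (XT.lf (nat_lit 0) (nat_lit 22234823276) (nat_lit 152) (nat_lit 19619716806) (nat_lit 228) (nat_lit 3046411926) (nat_lit 21) (nat_lit 5) (nat_lit 23) (nat_lit 5) (nat_lit 24) (nat_lit 5) (nat_lit 277) (nat_lit 263) (nat_lit 180)))) (XT.nd (nat_lit 78) (nat_lit 228) (nat_lit 0) (XT.lf (nat_lit 0) (nat_lit 1454928399) (nat_lit 228) (nat_lit 4221352406) (nat_lit 76) (nat_lit 41548623620) (nat_lit 20) (nat_lit 5) (nat_lit 23) (nat_lit 5) (nat_lit 21) (nat_lit 5) (nat_lit 278) (nat_lit 263) (nat_lit 179)) (XT.nd (nat_lit 78) (nat_lit 0) (nat_lit 0) (XT.lf (nat_lit 0) (nat_lit 6781252811) (nat_lit 304) (nat_lit 33497489519) (nat_lit 76) (nat_lit 9399365484)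 (nat_lit 17) (nat_lit 5) (nat_lit 21) (nat_lit 5) (nat_lit 18) (nat_lit 5) (nat_lit 279) (nat_lit 263) (nat_lit 178)) (XT.lf (nat_lit 0) (nat_lit 12795872645) (nat_lit 304) (nat_lit 14018668015) (nat_lit 76) (nat_lit 25492071995) (nat_lit 17) (nat_lit 5) (nat_lit 21) (nat_lit 5) (nat_lit 18) (nat_lit 5) (nat_lit 280) (nat_lit 263) (nat_lit 177))))) (XT.nd (nat_lit 234) (nat_lit 228) (nat_lit 0) (XT.nd (nat_lit 78) (nat_lit 0) (nat_lit 0) (XT.lf (nat_lit 0) (nat_lit 7383439284) (nat_lit 152) (nat_lit 12082402495) (nat_lit 228) (nat_lit 35665640559) (nat_lit 15) (nat_lit 5) (nat_lit 17) (nat_lit 5) (nat_lit 18) (nat_lit 5) (nat_lit 281) (nat_lit 263) (nat_lit 176)) (XT.nd (nat_lit 78) (nat_lit 0) (nat_lit 0) (XT.lf (nat_lit 0) (nat_lit 27151462504) (nat_lit 228) (nat_lit 26963246648) (nat_lit 76) (nat_lit 4029085554) (nat_lit 15) (nat_lit 5) (nat_lit 18) (nat_lit 5) (nat_lit 16) (nat_lit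 5) (nat_lit 282) (nat_lit 263) (nat_lit 175)) (XT.lf (nat_lit 0) (nat_lit 35762735824) (nat_lit 228) (nat_lit 4833672314) (nat_lit 76) (nat_lit 20775835834) (nat_lit 15) (nat_lit 5) (nat_lit 18) (nat_lit 5) (nat_lit 16) (nat_lit 5) (nat_lit 283) (nat_lit 263) (nat_lit 174)))) (XT.nd (nat_lit 78) (nat_lit 76) (nat_lit 0) (XT.lf (nat_lit 0) (nat_lit 20066192449) (nat_lit 152) (nat_lit 25476509398) (nat_lit 228) (nat_lit 19277899015) (nat_lit 13) (nat_lit 5) (nat_lit 15) (nat_lit 5) (nat_lit 16) (nat_lit 5) (nat_lit 284) (nat_lit 263) (nat_lit 173)) (XT.nd (nat_lit 78) (nat_lit 76) (nat_lit 0) (XT.lf (nat_lit 0) (nat_lit 47229171808) (nat_lit 152) (nat_lit 9005369798) (nat_lit 228) (nat_lit 12299940423) (nat_lit 13) (nat_lit 5) (nat_lit 15) (nat_lit 5) (nat_lit 16) (nat_lit 5) (nat_lit 285) (nat_lit 263) (nat_lit 172)) (XT.lf (nat_lit 0) (nat_lit 4005149068) (nat_lit 76) (nat_lit 64081635846)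 (nat_lit 152) (nat_lit 4434297080) (nat_lit 12) (nat_lit 5) (nat_lit 13) (nat_lit 5) (nat_lit 14) (nat_lit 4) (nat_lit 286) (nat_lit 263) (nat_lit 171))))))) (XT.nd (nat_lit 936) (nat_lit 228) (nat_lit 0) (XT.nd (nat_lit 468) (nat_lit 152) (nat_lit 0) (XT.nd (nat_lit 234) (nat_lit 76) (nat_lit 0) (XT.nd (nat_lit 78) (nat_lit 152) (nat_lit 0) (XT.lf (nat_lit 0) (nat_lit 4686547171) (nat_lit 152) (nat_lit 44578331463) (nat_lit 76) (nat_lit 27487603554) (nat_lit 11) (nat_lit 5) (nat_lit 13) (nat_lit 5) (nat_lit 12) (nat_lit 5) (nat_lit 287) (nat_lit 263) (nat_lit 170)) (XT.nd (nat_lit 78) (nat_lit 152) (nat_lit 0) (XT.lf (nat_lit 0) (nat_lit 14295191576) (nat_lit 152) (nat_lit 18844349146) (nat_lit 76) (nat_lit 48173833738) (nat_lit 11) (nat_lit 5) (nat_lit 13) (nat_lit 5) (nat_lit 12) (nat_lit 5) (nat_lit 288) (nat_lit 263) (nat_lit 169)) (XT.lf (nat_lit 0) (nat_lit 9416192746) (nat_lit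 152) (nat_lit 15480664667) (nat_lit 228) (nat_lit 61324343733) (nat_lit 9) (nat_lit 5) (nat_lit 11) (nat_lit 5) (nat_lit 12) (nat_lit 5) (nat_lit 289) (nat_lit 263) (nat_lit 168)))) (XT.nd (nat_lit 78) (nat_lit 76) (nat_lit 0) (XT.lf (nat_lit 0) (nat_lit 36959566380) (nat_lit 228) (nat_lit 50574167686) (nat_lit 76) (nat_lit 3938895833) (nat_lit 9) (nat_lit 5) (nat_lit 12) (nat_lit 5) (nat_lit 10) (nat_lit 4) (nat_lit 290) (nat_lit 263) (nat_lit 167)) (XT.nd (nat_lit 78) (nat_lit 76) (nat_lit 0) (XT.lf (nat_lit 0) (nat_lit 50387468188) (nat_lit 228) (nat_lit 22649974368) (nat_lit 76) (nat_lit 24074724382) (nat_lit 9) (nat_lit 5) (nat_lit 12) (nat_lit 5) (nat_lit 10) (nat_lit 4) (nat_lit 291) (nat_lit 263) (nat_lit 166)) (XT.lf (nat_lit 0) (nat_lit 7900577495) (nat_lit 76) (nat_lit 57177256814) (nat_lit 152) (nat_lit 38109981536) (nat_lit 8) (nat_lit 5) (nat_lit 9) (nat_lit 5) (nat_lit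 10) (nat_lit 4) (nat_lit 292) (nat_lit 263) (nat_lit 165))))) (XT.nd (nat_lit 234) (nat_lit 152) (nat_lit 0) (XT.nd (nat_lit 78) (nat_lit 0) (nat_lit 0) (XT.lf (nat_lit 0) (nat_lit 42180572596) (nat_lit 76) (nat_lit 39380436739) (nat_lit 152) (nat_lit 28139107885) (nat_lit 8) (nat_lit 5) (nat_lit 9) (nat_lit 5) (nat_lit 10) (nat_lit 4) (nat_lit 293) (nat_lit 263) (nat_lit 164)) (XT.nd (nat_lit 78) (nat_lit 0) (nat_lit 0) (XT.lf (nat_lit 0) (nat_lit 79200444135) (nat_lit 76) (nat_lit 20160810132) (nat_lit 152) (nat_lit 17372281577) (nat_lit 8) (nat_lit 5) (nat_lit 9) (nat_lit 5) (nat_lit 10) (nat_lit 4) (nat_lit 294) (nat_lit 263) (nat_lit 163)) (XT.lf (nat_lit 0) (nat_lit 118598374238) (nat_lit 152) (nat_lit 5164504306) (nat_lit 0) (nat_lit 565726913) (nat_lit 8) (nat_lit 5) (nat_lit 10) (nat_lit 4) (nat_lit 8) (nat_lit 4) (nat_lit 295) (nat_lit 263) (nat_lit 162)))) (XT.nd (nat_lit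 78) (nat_lit 0) (nat_lit 0) (XT.lf (nat_lit 0) (nat_lit 7796898678) (nat_lit 152) (nat_lit 101818779802) (nat_lit 76) (nat_lit 22798757812) (nat_lit 6) (nat_lit 5) (nat_lit 8) (nat_lit 5) (nat_lit 7) (nat_lit 4) (nat_lit 296) (nat_lit 263) (nat_lit 161)) (XT.nd (nat_lit 78) (nat_lit 0) (nat_lit 0) (XT.lf (nat_lit 0) (nat_lit 22240124350) (nat_lit 152) (nat_lit 71780279415) (nat_lit 76) (nat_lit 47103347032) (nat_lit 6) (nat_lit 5) (nat_lit 8) (nat_lit 5) (nat_lit 7) (nat_lit 4) (nat_lit 297) (nat_lit 263) (nat_lit 160)) (XT.lf (nat_lit 0) (nat_lit 37837541683) (nat_lit 152) (nat_lit 39340807852) (nat_lit 76) (nat_lit 73351566601) (nat_lit 6) (nat_lit 5) (nat_lit 8) (nat_lit 5) (nat_lit 7) (nat_lit 4) (nat_lit 298) (nat_lit 263) (nat_lit 159)))))) (XT.nd (nat_lit 468) (nat_lit 76) (nat_lit 0) (XT.nd (nat_lit 234) (nat_lit 76) (nat_lit 0) (XT.nd (nat_lit 78) (nat_lit 76) (nat_lit 0)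 (XT.lf (nat_lit 0) (nat_lit 54681579818) (nat_lit 152) (nat_lit 4308131206) (nat_lit 76) (nat_lit 101698961524) (nat_lit 6) (nat_lit 5) (nat_lit 8) (nat_lit 5) (nat_lit 7) (nat_lit 4) (nat_lit 299) (nat_lit 263) (nat_lit 158)) (XT.nd (nat_lit 78) (nat_lit 0) (nat_lit 0) (XT.lf (nat_lit 0) (nat_lit 35290737169) (nat_lit 76) (nat_lit 38430061186) (nat_lit 152) (nat_lit 97871522272) (nat_lit 5) (nat_lit 5) (nat_lit 6) (nat_lit 5) (nat_lit 7) (nat_lit 4) (nat_lit 300) (nat_lit 263) (nat_lit 157)) (XT.lf (nat_lit 0) (nat_lit 78300760024) (nat_lit 76) (nat_lit 16099138609) (nat_lit 152) (nat_lit 88959025843) (nat_lit 5) (nat_lit 5) (nat_lit 6) (nat_lit 5) (nat_lit 7) (nat_lit 4) (nat_lit 301) (nat_lit 263) (nat_lit 156)))) (XT.nd (nat_lit 78) (nat_lit 76) (nat_lit 0) (XT.lf (nat_lit 0) (nat_lit 116925180236) (nat_lit 152) (nat_lit 71509807815) (nat_lit 0) (nat_lit 7616523524) (nat_lit 5)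 (nat_lit 5) (nat_lit 7) (nat_lit 4) (nat_lit 5) (nat_lit 4) (nat_lit 302) (nat_lit 263) (nat_lit 155)) (XT.nd (nat_lit 78) (nat_lit 76) (nat_lit 0) (XT.lf (nat_lit 0) (nat_lit 141669730858) (nat_lit 152) (nat_lit 35697313013) (nat_lit 0) (nat_lit 32359085022) (nat_lit 5) (nat_lit 5) (nat_lit 7) (nat_lit 4) (nat_lit 5) (nat_lit 4) (nat_lit 303) (nat_lit 263) (nat_lit 154)) (XT.lf (nat_lit 0) (nat_lit 3135581289) (nat_lit 76) (nat_lit 165332829718) (nat_lit 76) (nat_lit 56020342100) (nat_lit 4) (nat_lit 4) (nat_lit 5) (nat_lit 5) (nat_lit 5) (nat_lit 4) (nat_lit 304) (nat_lit 263) (nat_lit 153))))) (XT.nd (nat_lit 234) (nat_lit 76) (nat_lit 0) (XT.nd (nat_lit 78) (nat_lit 0) (nat_lit 0) (XT.lf (nat_lit 0) (nat_lit 47103827225) (nat_lit 76) (nat_lit 151282369336) (nat_lit 76) (nat_lit 41968176365) (nat_lit 4) (nat_lit 4) (nat_lit 5) (nat_lit 5) (nat_lit 5) (nat_lit 4) (nat_lit 305) (nat_lit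 263) (nat_lit 152)) (XT.nd (nat_lit 78) (nat_lit 0) (nat_lit 0) (XT.lf (nat_lit 0) (nat_lit 94588220118) (nat_lit 76) (nat_lit 136108428537) (nat_lit 76) (nat_lit 26792656536) (nat_lit 4) (nat_lit 4) (nat_lit 5) (nat_lit 5) (nat_lit 5) (nat_lit 4) (nat_lit 306) (nat_lit 263) (nat_lit 151)) (XT.lf (nat_lit 0) (nat_lit 145870148965) (nat_lit 76) (nat_lit 119721087673) (nat_lit 76) (nat_lit 10403853605) (nat_lit 4) (nat_lit 4) (nat_lit 5) (nat_lit 5) (nat_lit 5) (nat_lit 4) (nat_lit 307) (nat_lit 263) (nat_lit 150)))) (XT.nd (nat_lit 78) (nat_lit 0) (nat_lit 0) (XT.lf (nat_lit 0) (nat_lit 6930408241) (nat_lit 152) (nat_lit 94903338690) (nat_lit 76) (nat_lit 194133608793) (nat_lit 3) (nat_lit 5) (nat_lit 5) (nat_lit 5) (nat_lit 4) (nat_lit 4) (nat_lit 308) (nat_lit 263) (nat_lit 149)) (XT.nd (nat_lit 78) (nat_lit 0) (nat_lit 0) (XT.lf (nat_lit 0) (nat_lit 25088714961) (nat_lit 152) (nat_lit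 57135314196) (nat_lit 76) (nat_lit 235291806039) (nat_lit 3) (nat_lit 5) (nat_lit 5) (nat_lit 5) (nat_lit 4) (nat_lit 4) (nat_lit 309) (nat_lit 263) (nat_lit 148)) (XT.lf (nat_lit 0) (nat_lit 44699114229) (nat_lit 152) (nat_lit 16346844354) (nat_lit 76) (nat_lit 279742281809) (nat_lit 3) (nat_lit 5) (nat_lit 5) (nat_lit 5) (nat_lit 4) (nat_lit 4) (nat_lit 310) (nat_lit 263) (nat_lit 147))))))))
noncomputable def xc91 : XT := (XT.nd (nat_lit 34008) (nat_lit 0) (nat_lit 760) (XT.nd (nat_lit 936) (nat_lit 0) (nat_lit 0) (XT.nd (nat_lit 468) (nat_lit 76) (nat_lit 0) (XT.nd (nat_lit 234) (nat_lit 0) (nat_lit 0) (XT.nd (nat_lit 78) (nat_lit 0) (nat_lit 0) (XT.lf (nat_lit 0) (nat_lit 29162612262) (nat_lit 76) (nat_lit 37416565081) (nat_lit 152) (nat_lit 299287195592) (nat_lit 2) (nat_lit 5) (nat_lit 3) (nat_lit 5) (nat_lit 4) (nat_lit 4) (nat_lit 311) (nat_lit 263) (nat_lit 146)) (XT.nd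 (nat_lit 78) (nat_lit 0) (nat_lit 0) (XT.lf (nat_lit 0) (nat_lit 79241585506) (nat_lit 76) (nat_lit 11414499674) (nat_lit 152) (nat_lit 302258957104) (nat_lit 2) (nat_lit 5) (nat_lit 3) (nat_lit 5) (nat_lit 4) (nat_lit 4) (nat_lit 312) (nat_lit 263) (nat_lit 145)) (XT.lf (nat_lit 0) (nat_lit 117059522256) (nat_lit 152) (nat_lit 289202451279) (nat_lit 0) (nat_lit 15833602792) (nat_lit 2) (nat_lit 5) (nat_lit 4) (nat_lit 4) (nat_lit 2) (nat_lit 4) (nat_lit 313) (nat_lit 263) (nat_lit 144)))) (XT.nd (nat_lit 78) (nat_lit 0) (nat_lit 0) (XT.lf (nat_lit 0) (nat_lit 145871267844) (nat_lit 152) (nat_lit 263071045271) (nat_lit 0) (nat_lit 44644558472) (nat_lit 2) (nat_lit 5) (nat_lit 4) (nat_lit 4) (nat_lit 2) (nat_lit 4) (nat_lit 314) (nat_lit 263) (nat_lit 143)) (XT.nd (nat_lit 78) (nat_lit 0) (nat_lit 0) (XT.lf (nat_lit 0) (nat_lit 176987539225) (nat_lit 152) (nat_lit 234849866988) (nat_lit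 0) (nat_lit 75760098456) (nat_lit 2) (nat_lit 5) (nat_lit 4) (nat_lit 4) (nat_lit 2) (nat_lit 4) (nat_lit 315) (nat_lit 263) (nat_lit 142)) (XT.lf (nat_lit 0) (nat_lit 210592729117) (nat_lit 152) (nat_lit 204371679818) (nat_lit 0) (nat_lit 109364611129) (nat_lit 2) (nat_lit 5) (nat_lit 4) (nat_lit 4) (nat_lit 2) (nat_lit 4) (nat_lit 316) (nat_lit 263) (nat_lit 141))))) (XT.nd (nat_lit 234) (nat_lit 76) (nat_lit 0) (XT.nd (nat_lit 78) (nat_lit 0) (nat_lit 0) (XT.lf (nat_lit 0) (nat_lit 246885979387) (nat_lit 152) (nat_lit 171455872281) (nat_lit 0) (nat_lit 145657234345) (nat_lit 2) (nat_lit 5) (nat_lit 4) (nat_lit 4) (nat_lit 2) (nat_lit 4) (nat_lit 317) (nat_lit 263) (nat_lit 140)) (XT.nd (nat_lit 78) (nat_lit 0) (nat_lit 0) (XT.lf (nat_lit 0) (nat_lit 286082361148) (nat_lit 152) (nat_lit 135907387740) (nat_lit 0) (nat_lit 184853035499) (nat_lit 2) (nat_lit 5) (nat_lit 4) (nat_lit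 4) (nat_lit 2) (nat_lit 4) (nat_lit 318) (nat_lit 263) (nat_lit 139)) (XT.lf (nat_lit 0) (nat_lit 328414149253) (nat_lit 152) (nat_lit 97515568509) (nat_lit 0) (nat_lit 227184286006) (nat_lit 2) (nat_lit 5) (nat_lit 4) (nat_lit 4) (nat_lit 2) (nat_lit 4) (nat_lit 319) (nat_lit 263) (nat_lit 138)))) (XT.nd (nat_lit 78) (nat_lit 76) (nat_lit 0) (XT.lf (nat_lit 0) (nat_lit 374132198745) (nat_lit 152) (nat_lit 56052907511) (nat_lit 0) (nat_lit 272901837721) (nat_lit 2) (nat_lit 5) (nat_lit 4) (nat_lit 4) (nat_lit 2) (nat_lit 4) (nat_lit 320) (nat_lit 263) (nat_lit 137)) (XT.nd (nat_lit 78) (nat_lit 76) (nat_lit 0) (XT.lf (nat_lit 0) (nat_lit 423507431397) (nat_lit 152) (nat_lit 11273700088) (nat_lit 0) (nat_lit 322276609469) (nat_lit 2) (nat_lit 5) (nat_lit 4) (nat_lit 4) (nat_lit 2) (nat_lit 4) (nat_lit 321) (nat_lit 263) (nat_lit 136)) (XT.lf (nat_lit 0) (nat_lit 39040369419) (nat_lit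 76) (nat_lit 438730993585) (nat_lit 76) (nat_lit 337499744894) (nat_lit 1) (nat_lit 4) (nat_lit 2) (nat_lit 5) (nat_lit 2) (nat_lit 4) (nat_lit 322) (nat_lit 263) (nat_lit 135)))))) (XT.nd (nat_lit 468) (nat_lit 0) (nat_lit 0) (XT.nd (nat_lit 234) (nat_lit 0) (nat_lit 0) (XT.nd (nat_lit 78) (nat_lit 0) (nat_lit 0) (XT.lf (nat_lit 0) (nat_lit 94020288831) (nat_lit 76) (nat_lit 442664129531) (nat_lit 76) (nat_lit 341432485689) (nat_lit 1) (nat_lit 4) (nat_lit 2) (nat_lit 5) (nat_lit 2) (nat_lit 4) (nat_lit 323) (nat_lit 263) (nat_lit 134)) (XT.nd (nat_lit 78) (nat_lit 0) (nat_lit 0) (XT.lf (nat_lit 0) (nat_lit 153398212011) (nat_lit 76) (nat_lit 446912089733) (nat_lit 76) (nat_lit 345680080010) (nat_lit 1) (nat_lit 4) (nat_lit 2) (nat_lit 5) (nat_lit 2) (nat_lit 4) (nat_lit 324) (nat_lit 263) (nat_lit 133)) (XT.lf (nat_lit 0) (nat_lit 217526008133) (nat_lit 76) (nat_lit 451500047289)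 (nat_lit 76) (nat_lit 350267698788) (nat_lit 1) (nat_lit 4) (nat_lit 2) (nat_lit 5) (nat_lit 2) (nat_lit 4) (nat_lit 325) (nat_lit 263) (nat_lit 132)))) (XT.nd (nat_lit 78) (nat_lit 0) (nat_lit 0) (XT.lf (nat_lit 0) (nat_lit 286783693766) (nat_lit 76) (nat_lit 456455190095) (nat_lit 76) (nat_lit 355222527911) (nat_lit 1) (nat_lit 4) (nat_lit 2) (nat_lit 5) (nat_lit 2) (nat_lit 4) (nat_lit 326) (nat_lit 263) (nat_lit 131)) (XT.nd (nat_lit 78) (nat_lit 0) (nat_lit 0) (XT.lf (nat_lit 0) (nat_lit 361581684825) (nat_lit 76) (nat_lit 461806881962) (nat_lit 76) (nat_lit 360573929330) (nat_lit 1) (nat_lit 4) (nat_lit 2) (nat_lit 5) (nat_lit 2) (nat_lit 4) (nat_lit 327) (nat_lit 263) (nat_lit 130)) (XT.lf (nat_lit 0) (nat_lit 442363228665) (nat_lit 76) (nat_lit 467586836617) (nat_lit 76) (nat_lit 366353615052) (nat_lit 1) (nat_lit 4) (nat_lit 2) (nat_lit 5) (nat_lit 2) (nat_lit 4) (nat_lit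 328) (nat_lit 263) (nat_lit 129))))) (XT.nd (nat_lit 234) (nat_lit 0) (nat_lit 0) (XT.nd (nat_lit 78) (nat_lit 0) (nat_lit 0) (XT.lf (nat_lit 0) (nat_lit 529607030731) (nat_lit 76) (nat_lit 473829305646) (nat_lit 76) (nat_lit 372595835069) (nat_lit 1) (nat_lit 4) (nat_lit 2) (nat_lit 5) (nat_lit 2) (nat_lit 4) (nat_lit 329) (nat_lit 263) (nat_lit 128)) (XT.nd (nat_lit 78) (nat_lit 0) (nat_lit 0) (XT.lf (nat_lit 0) (nat_lit 623830091331) (nat_lit 76) (nat_lit 480571281456) (nat_lit 76) (nat_lit 379337580312) (nat_lit 1) (nat_lit 4) (nat_lit 2) (nat_lit 5) (nat_lit 2) (nat_lit 4) (nat_lit 330) (nat_lit 263) (nat_lit 127)) (XT.lf (nat_lit 0) (nat_lit 725590769343) (nat_lit 76) (nat_lit 487852716497) (nat_lit 76) (nat_lit 386618801865) (nat_lit 1) (nat_lit 4) (nat_lit 2) (nat_lit 5) (nat_lit 2) (nat_lit 4) (nat_lit 331) (nat_lit 263) (nat_lit 126)))) (XT.nd (nat_lit 32214) (nat_lit 0)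 (nat_lit 2128) (XT.lf (nat_lit 0) (nat_lit 835492091006) (nat_lit 76) (nat_lit 495716760013) (nat_lit 76) (nat_lit 394482647708) (nat_lit 1) (nat_lit 4) (nat_lit 2) (nat_lit 5) (nat_lit 2) (nat_lit 4) (nat_lit 332) (nat_lit 263) (nat_lit 125)) (XT.nd (nat_lit 78) (nat_lit 0) (nat_lit 0) (XT.lf (nat_lit 0) (nat_lit 1910718626) (nat_lit 532) (nat_lit 5586799222) (nat_lit 532) (nat_lit 5586799222) (nat_lit 29) (nat_lit 3) (nat_lit 36) (nat_lit 3) (nat_lit 36) (nat_lit 5) (nat_lit 264) (nat_lit 264) (nat_lit 192)) (XT.lf (nat_lit 0) (nat_lit 4058208567) (nat_lit 532) (nat_lit 561913838) (nat_lit 532) (nat_lit 22587946934) (nat_lit 29) (nat_lit 3) (nat_lit 36) (nat_lit 3) (nat_lit 36) (nat_lit 5) (nat_lit 265) (nat_lit 264) (nat_lit 191))))))) (XT.nd (nat_lit 936) (nat_lit 760) (nat_lit 0) (XT.nd (nat_lit 468) (nat_lit 684) (nat_lit 0) (XT.nd (nat_lit 234) (nat_lit 0) (nat_lit 76) (XT.nd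 (nat_lit 78) (nat_lit 0) (nat_lit 0) (XT.lf (nat_lit 0) (nat_lit 4746947271) (nat_lit 456) (nat_lit 17007138309) (nat_lit 532) (nat_lit 6541991451) (nat_lit 30) (nat_lit 5) (nat_lit 36) (nat_lit 5) (nat_lit 37) (nat_lit 5) (nat_lit 266) (nat_lit 264) (nat_lit 190)) (XT.nd (nat_lit 78) (nat_lit 0) (nat_lit 76) (XT.lf (nat_lit 0) (nat_lit 5618753076) (nat_lit 456) (nat_lit 5475698624) (nat_lit 532) (nat_lit 18366491509) (nat_lit 30) (nat_lit 5) (nat_lit 36) (nat_lit 5) (nat_lit 37) (nat_lit 5) (nat_lit 267) (nat_lit 264) (nat_lit 189)) (XT.lf (nat_lit 0) (nat_lit 6744320250) (nat_lit 456) (nat_lit 23379564186) (nat_lit 532) (nat_lit 580444107) (nat_lit 31) (nat_lit 5) (nat_lit 37) (nat_lit 5) (nat_lit 38) (nat_lit 5) (nat_lit 268) (nat_lit 264) (nat_lit 188)))) (XT.nd (nat_lit 78) (nat_lit 0) (nat_lit 0) (XT.lf (nat_lit 0) (nat_lit 8394955977) (nat_lit 456) (nat_lit 10871940678) (nat_lit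 532) (nat_lit 12745533612) (nat_lit 31) (nat_lit 5) (nat_lit 37) (nat_lit 5) (nat_lit 38) (nat_lit 5) (nat_lit 269) (nat_lit 264) (nat_lit 187)) (XT.nd (nat_lit 78) (nat_lit 0) (nat_lit 76) (XT.lf (nat_lit 76) (nat_lit 2769901510) (nat_lit 0) (nat_lit 7468108723) (nat_lit 532) (nat_lit 23182384390) (nat_lit 32) (nat_lit 5) (nat_lit 31) (nat_lit 5) (nat_lit 38) (nat_lit 5) (nat_lit 270) (nat_lit 264) (nat_lit 186)) (XT.lf (nat_lit 0) (nat_lit 12654465837) (nat_lit 456) (nat_lit 16935768461) (nat_lit 76) (nat_lit 5316725925) (nat_lit 32) (nat_lit 5) (nat_lit 38) (nat_lit 5) (nat_lit 33) (nat_lit 5) (nat_lit 271) (nat_lit 264) (nat_lit 185))))) (XT.nd (nat_lit 234) (nat_lit 380) (nat_lit 0) (XT.nd (nat_lit 78) (nat_lit 456) (nat_lit 0) (XT.lf (nat_lit 0) (nat_lit 15452774054) (nat_lit 456) (nat_lit 2322811329) (nat_lit 76) (nat_lit 18721820436) (nat_lit 32) (nat_lit 5) (nat_lit 38) (nat_lit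 5) (nat_lit 33) (nat_lit 5) (nat_lit 272) (nat_lit 264) (nat_lit 184)) (XT.nd (nat_lit 78) (nat_lit 0) (nat_lit 0) (XT.lf (nat_lit 0) (nat_lit 14163076209) (nat_lit 456) (nat_lit 4647455372) (nat_lit 532) (nat_lit 19377743565) (nat_lit 26) (nat_lit 5) (nat_lit 32) (nat_lit 5) (nat_lit 33) (nat_lit 5) (nat_lit 273) (nat_lit 264) (nat_lit 183)) (XT.lf (nat_lit 0) (nat_lit 22726522650) (nat_lit 532) (nat_lit 8145171847) (nat_lit 76) (nat_lit 9119582761) (nat_lit 26) (nat_lit 5) (nat_lit 33) (nat_lit 5) (nat_lit 27) (nat_lit 5) (nat_lit 274) (nat_lit 264) (nat_lit 182)))) (XT.nd (nat_lit 78) (nat_lit 152) (nat_lit 0) (XT.lf (nat_lit 0) (nat_lit 9347607703) (nat_lit 228) (nat_lit 17949296190) (nat_lit 304) (nat_lit 14614356656) (nat_lit 23) (nat_lit 5) (nat_lit 26) (nat_lit 5) (nat_lit 27) (nat_lit 5) (nat_lit 275) (nat_lit 264) (nat_lit 181)) (XT.nd (nat_lit 78) (nat_lit 152) (nat_lit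 0) (XT.lf (nat_lit 0) (nat_lit 28698605962) (nat_lit 228) (nat_lit 3752821061) (nat_lit 304) (nat_lit 11515962237) (nat_lit 23) (nat_lit 5) (nat_lit 26) (nat_lit 5) (nat_lit 27) (nat_lit 5) (nat_lit 276) (nat_lit 264) (nat_lit 180)) (XT.lf (nat_lit 0) (nat_lit 3291411574) (nat_lit 152) (nat_lit 35080656383) (nat_lit 228) (nat_lit 7787665455) (nat_lit 21) (nat_lit 5) (nat_lit 23) (nat_lit 5) (nat_lit 24) (nat_lit 5) (nat_lit 277) (nat_lit 264) (nat_lit 179)))))) (XT.nd (nat_lit 468) (nat_lit 304) (nat_lit 0) (XT.nd (nat_lit 234) (nat_lit 152) (nat_lit 0) (XT.nd (nat_lit 78) (nat_lit 304) (nat_lit 0) (XT.lf (nat_lit 0) (nat_lit 24097844845) (nat_lit 152) (nat_lit 21177296362) (nat_lit 228) (nat_lit 3211645129) (nat_lit 21) (nat_lit 5) (nat_lit 23) (nat_lit 5) (nat_lit 24) (nat_lit 5) (nat_lit 278) (nat_lit 264) (nat_lit 178)) (XT.nd (nat_lit 78) (nat_lit 228) (nat_lit 0) (XT.lf (nat_lit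 0) (nat_lit 1640354038) (nat_lit 228) (nat_lit 4477032729) (nat_lit 76) (nat_lit 44879590727) (nat_lit 20) (nat_lit 5) (nat_lit 23) (nat_lit 5) (nat_lit 21) (nat_lit 5) (nat_lit 279) (nat_lit 264) (nat_lit 177)) (XT.lf (nat_lit 0) (nat_lit 7389933153) (nat_lit 304) (nat_lit 36092042177) (nat_lit 76) (nat_lit 10164719315) (nat_lit 17) (nat_lit 5) (nat_lit 21) (nat_lit 5) (nat_lit 18) (nat_lit 5) (nat_lit 280) (nat_lit 264) (nat_lit 176)))) (XT.nd (nat_lit 78) (nat_lit 152) (nat_lit 0) (XT.lf (nat_lit 0) (nat_lit 13880820343) (nat_lit 304) (nat_lit 15061229508) (nat_lit 76) (nat_lit 27543849414) (nat_lit 17) (nat_lit 5) (nat_lit 21) (nat_lit 5) (nat_lit 18) (nat_lit 5) (nat_lit 281) (nat_lit 264) (nat_lit 175)) (XT.nd (nat_lit 78) (nat_lit 0) (nat_lit 0) (XT.lf (nat_lit 0) (nat_lit 8051048097) (nat_lit 152) (nat_lit 13030650064) (nat_lit 228) (nat_lit 38455300667) (nat_lit 15) (nat_lit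 5) (nat_lit 17) (nat_lit 5) (nat_lit 18) (nat_lit 5) (nat_lit 282) (nat_lit 264) (nat_lit 174)) (XT.lf (nat_lit 0) (nat_lit 29378237124) (nat_lit 228) (nat_lit 29044848436) (nat_lit 76) (nat_lit 4367548470) (nat_lit 15) (nat_lit 5) (nat_lit 18) (nat_lit 5) (nat_lit 16) (nat_lit 5) (nat_lit 283) (nat_lit 264) (nat_lit 173))))) (XT.nd (nat_lit 234) (nat_lit 152) (nat_lit 0) (XT.nd (nat_lit 78) (nat_lit 152) (nat_lit 0) (XT.lf (nat_lit 0) (nat_lit 38674363597) (nat_lit 228) (nat_lit 5150497634) (nat_lit 76) (nat_lit 22452843508) (nat_lit 15) (nat_lit 5) (nat_lit 18) (nat_lit 5) (nat_lit 16) (nat_lit 5) (nat_lit 284) (nat_lit 264) (nat_lit 172)) (XT.nd (nat_lit 78) (nat_lit 0) (nat_lit 0) (XT.lf (nat_lit 0) (nat_lit 21739587489) (nat_lit 152) (nat_lit 27495028403) (nat_lit 228) (nat_lit 20767503171) (nat_lit 13) (nat_lit 5) (nat_lit 15) (nat_lit 5) (nat_lit 16) (nat_lit 5) (nat_lit 285)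 (nat_lit 264) (nat_lit 171)) (XT.lf (nat_lit 0) (nat_lit 51070560778) (nat_lit 152) (nat_lit 9707649616) (nat_lit 228) (nat_lit 13235206244) (nat_lit 13) (nat_lit 5) (nat_lit 15) (nat_lit 5) (nat_lit 16) (nat_lit 5) (nat_lit 286) (nat_lit 264) (nat_lit 170)))) (XT.nd (nat_lit 78) (nat_lit 76) (nat_lit 0) (XT.lf (nat_lit 0) (nat_lit 4390321576) (nat_lit 76) (nat_lit 69186946924) (nat_lit 152) (nat_lit 4741802425) (nat_lit 12) (nat_lit 5) (nat_lit 13) (nat_lit 5) (nat_lit 14) (nat_lit 4) (nat_lit 287) (nat_lit 264) (nat_lit 169)) (XT.nd (nat_lit 78) (nat_lit 0) (nat_lit 0) (XT.lf (nat_lit 0) (nat_lit 5103022207) (nat_lit 152) (nat_lit 48082262678) (nat_lit 76) (nat_lit 29703887992) (nat_lit 11) (nat_lit 5) (nat_lit 13) (nat_lit 5) (nat_lit 12) (nat_lit 5) (nat_lit 288) (nat_lit 264) (nat_lit 168)) (XT.lf (nat_lit 0) (nat_lit 15477280294) (nat_lit 152) (nat_lit 20294179206) (nat_lit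 76) (nat_lit 52043736876) (nat_lit 11) (nat_lit 5) (nat_lit 13) (nat_lit 5) (nat_lit 12) (nat_lit 5) (nat_lit 289) (nat_lit 264) (nat_lit 167))))))))
noncomputable def xc92 : XT := (XT.nd (nat_lit 1794) (nat_lit 76) (nat_lit 0) (XT.nd (nat_lit 858) (nat_lit 304) (nat_lit 0) (XT.nd (nat_lit 390) (nat_lit 152) (nat_lit 0) (XT.nd (nat_lit 156) (nat_lit 76) (nat_lit 0) (XT.nd (nat_lit 78) (nat_lit 0) (nat_lit 0) (XT.lf (nat_lit 0) (nat_lit 10225744826) (nat_lit 152) (nat_lit 16699837665) (nat_lit 228) (nat_lit 66190199063) (nat_lit 9) (nat_lit 5) (nat_lit 11) (nat_lit 5) (nat_lit 12) (nat_lit 5) (nat_lit 290) (nat_lit 264) (nat_lit 166)) (XT.lf (nat_lit 0) (nat_lit 39950998518) (nat_lit 228) (nat_lit 54565556049) (nat_lit 76) (nat_lit 4270966484) (nat_lit 9) (nat_lit 5) (nat_lit 12) (nat_lit 5) (nat_lit 10) (nat_lit 4) (nat_lit 291) (nat_lit 264) (nat_lit 165))) (XT.nd (nat_lit 78) (nat_lit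 76) (nat_lit 0) (XT.lf (nat_lit 0) (nat_lit 54450564557) (nat_lit 228) (nat_lit 24411467640) (nat_lit 76) (nat_lit 26016405096) (nat_lit 9) (nat_lit 5) (nat_lit 12) (nat_lit 5) (nat_lit 10) (nat_lit 4) (nat_lit 292) (nat_lit 264) (nat_lit 164)) (XT.nd (nat_lit 78) (nat_lit 0) (nat_lit 0) (XT.lf (nat_lit 0) (nat_lit 8581849772) (nat_lit 76) (nat_lit 61733116387) (nat_lit 152) (nat_lit 41125277465) (nat_lit 8) (nat_lit 5) (nat_lit 9) (nat_lit 5) (nat_lit 10) (nat_lit 4) (nat_lit 293) (nat_lit 264) (nat_lit 163)) (XT.lf (nat_lit 0) (nat_lit 45600598105) (nat_lit 76) (nat_lit 42513907815) (nat_lit 152) (nat_lit 30359215595) (nat_lit 8) (nat_lit 5) (nat_lit 9) (nat_lit 5) (nat_lit 10) (nat_lit 4) (nat_lit 294) (nat_lit 264) (nat_lit 162))))) (XT.nd (nat_lit 234) (nat_lit 0) (nat_lit 0) (XT.nd (nat_lit 78) (nat_lit 152) (nat_lit 0) (XT.lf (nat_lit 0) (nat_lit 85578683093) (nat_lit 76) (nat_lit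 21757967661) (nat_lit 152) (nat_lit 18733341028) (nat_lit 8) (nat_lit 5) (nat_lit 9) (nat_lit 5) (nat_lit 10) (nat_lit 4) (nat_lit 295) (nat_lit 264) (nat_lit 161)) (XT.nd (nat_lit 78) (nat_lit 152) (nat_lit 0) (XT.lf (nat_lit 0) (nat_lit 128111127424) (nat_lit 152) (nat_lit 5536875211) (nat_lit 0) (nat_lit 624801306) (nat_lit 8) (nat_lit 5) (nat_lit 10) (nat_lit 4) (nat_lit 8) (nat_lit 4) (nat_lit 296) (nat_lit 264) (nat_lit 160)) (XT.lf (nat_lit 0) (nat_lit 8445357385) (nat_lit 152) (nat_lit 109923139247) (nat_lit 76) (nat_lit 24637032892) (nat_lit 6) (nat_lit 5) (nat_lit 8) (nat_lit 5) (nat_lit 7) (nat_lit 4) (nat_lit 297) (nat_lit 264) (nat_lit 159)))) (XT.nd (nat_lit 78) (nat_lit 0) (nat_lit 0) (XT.lf (nat_lit 0) (nat_lit 24042210975) (nat_lit 152) (nat_lit 77484606454) (nat_lit 76) (nat_lit 50884924475) (nat_lit 6) (nat_lit 5) (nat_lit 8) (nat_lit 5) (nat_lit 7) (nat_lit 4)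 (nat_lit 298) (nat_lit 264) (nat_lit 158)) (XT.nd (nat_lit 78) (nat_lit 0) (nat_lit 0) (XT.lf (nat_lit 0) (nat_lit 40885727127) (nat_lit 152) (nat_lit 42452799040) (nat_lit 76) (nat_lit 79232015708) (nat_lit 6) (nat_lit 5) (nat_lit 8) (nat_lit 5) (nat_lit 7) (nat_lit 4) (nat_lit 299) (nat_lit 264) (nat_lit 157)) (XT.lf (nat_lit 0) (nat_lit 59075719268) (nat_lit 152) (nat_lit 4620121110) (nat_lit 76) (nat_lit 109846289353) (nat_lit 6) (nat_lit 5) (nat_lit 8) (nat_lit 5) (nat_lit 7) (nat_lit 4) (nat_lit 300) (nat_lit 264) (nat_lit 156)))))) (XT.nd (nat_lit 468) (nat_lit 152) (nat_lit 0) (XT.nd (nat_lit 234) (nat_lit 76) (nat_lit 0) (XT.nd (nat_lit 78) (nat_lit 0) (nat_lit 0) (XT.lf (nat_lit 0) (nat_lit 38145829885) (nat_lit 76) (nat_lit 41491558185) (nat_lit 152) (nat_lit 105680741569) (nat_lit 5) (nat_lit 5) (nat_lit 6) (nat_lit 5) (nat_lit 7) (nat_lit 4) (nat_lit 301) (nat_lit 264)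 (nat_lit 155)) (XT.nd (nat_lit 78) (nat_lit 0) (nat_lit 0) (XT.lf (nat_lit 0) (nat_lit 84594296513) (nat_lit 76) (nat_lit 17375117943) (nat_lit 152) (nat_lit 96056764127) (nat_lit 5) (nat_lit 5) (nat_lit 6) (nat_lit 5) (nat_lit 7) (nat_lit 4) (nat_lit 302) (nat_lit 264) (nat_lit 154)) (XT.lf (nat_lit 0) (nat_lit 126295686666) (nat_lit 152) (nat_lit 77202214571) (nat_lit 0) (nat_lit 8236358258) (nat_lit 5) (nat_lit 5) (nat_lit 7) (nat_lit 4) (nat_lit 5) (nat_lit 4) (nat_lit 303) (nat_lit 264) (nat_lit 153)))) (XT.nd (nat_lit 78) (nat_lit 76) (nat_lit 0) (XT.lf (nat_lit 0) (nat_lit 153018579708) (nat_lit 152) (nat_lit 38526822250) (nat_lit 0) (nat_lit 34957545946) (nat_lit 5) (nat_lit 5) (nat_lit 7) (nat_lit 4) (nat_lit 5) (nat_lit 4) (nat_lit 304) (nat_lit 264) (nat_lit 152)) (XT.nd (nat_lit 78) (nat_lit 0) (nat_lit 0) (XT.lf (nat_lit 0) (nat_lit 3412038386) (nat_lit 76) (nat_lit 178548600678)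 (nat_lit 76) (nat_lit 60485987886) (nat_lit 4) (nat_lit 4) (nat_lit 5) (nat_lit 5) (nat_lit 5) (nat_lit 4) (nat_lit 305) (nat_lit 264) (nat_lit 151)) (XT.lf (nat_lit 0) (nat_lit 50895846915) (nat_lit 76) (nat_lit 163374907571) (nat_lit 76) (nat_lit 45310832713) (nat_lit 4) (nat_lit 4) (nat_lit 5) (nat_lit 5) (nat_lit 5) (nat_lit 4) (nat_lit 306) (nat_lit 264) (nat_lit 150))))) (XT.nd (nat_lit 234) (nat_lit 76) (nat_lit 0) (XT.nd (nat_lit 78) (nat_lit 76) (nat_lit 0) (XT.lf (nat_lit 0) (nat_lit 102177234684) (nat_lit 76) (nat_lit 146987796050) (nat_lit 76) (nat_lit 28922367427) (nat_lit 4) (nat_lit 4) (nat_lit 5) (nat_lit 5) (nat_lit 5) (nat_lit 4) (nat_lit 307) (nat_lit 264) (nat_lit 149)) (XT.nd (nat_lit 78) (nat_lit 76) (nat_lit 0) (XT.lf (nat_lit 0) (nat_lit 157560091397) (nat_lit 76) (nat_lit 129290157306) (nat_lit 76) (nat_lit 11223475198) (nat_lit 4) (nat_lit 4) (nat_lit 5)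 (nat_lit 5) (nat_lit 5) (nat_lit 4) (nat_lit 308) (nat_lit 264) (nat_lit 148)) (XT.lf (nat_lit 0) (nat_lit 7496000211) (nat_lit 152) (nat_lit 102476162303) (nat_lit 76) (nat_lit 209671657621) (nat_lit 3) (nat_lit 5) (nat_lit 5) (nat_lit 5) (nat_lit 4) (nat_lit 4) (nat_lit 309) (nat_lit 264) (nat_lit 147)))) (XT.nd (nat_lit 78) (nat_lit 76) (nat_lit 0) (XT.lf (nat_lit 0) (nat_lit 27106144853) (nat_lit 152) (nat_lit 61688136108) (nat_lit 76) (nat_lit 254121965453) (nat_lit 3) (nat_lit 5) (nat_lit 5) (nat_lit 5) (nat_lit 4) (nat_lit 4) (nat_lit 310) (nat_lit 264) (nat_lit 146)) (XT.nd (nat_lit 78) (nat_lit 76) (nat_lit 0) (XT.lf (nat_lit 0) (nat_lit 48284610678) (nat_lit 152) (nat_lit 17637922251) (nat_lit 76) (nat_lit 302127974474) (nat_lit 3) (nat_lit 5) (nat_lit 5) (nat_lit 5) (nat_lit 4) (nat_lit 4) (nat_lit 311) (nat_lit 264) (nat_lit 145)) (XT.lf (nat_lit 0) (nat_lit 31511868879)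 (nat_lit 76) (nat_lit 40402892029) (nat_lit 152) (nat_lit 323220157065) (nat_lit 2) (nat_lit 5) (nat_lit 3) (nat_lit 5) (nat_lit 4) (nat_lit 4) (nat_lit 312) (nat_lit 264) (nat_lit 144))))))) (XT.nd (nat_lit 936) (nat_lit 0) (nat_lit 0) (XT.nd (nat_lit 468) (nat_lit 76) (nat_lit 0) (XT.nd (nat_lit 234) (nat_lit 0) (nat_lit 0) (XT.nd (nat_lit 78) (nat_lit 0) (nat_lit 0) (XT.lf (nat_lit 0) (nat_lit 85595956454) (nat_lit 76) (nat_lit 12321179779) (nat_lit 152) (nat_lit 326430401289) (nat_lit 2) (nat_lit 5) (nat_lit 3) (nat_lit 5) (nat_lit 4) (nat_lit 4) (nat_lit 313) (nat_lit 264) (nat_lit 143)) (XT.nd (nat_lit 78) (nat_lit 0) (nat_lit 0) (XT.lf (nat_lit 0) (nat_lit 126432358183) (nat_lit 152) (nat_lit 312324206259) (nat_lit 0) (nat_lit 17105990756) (nat_lit 2) (nat_lit 5) (nat_lit 4) (nat_lit 4) (nat_lit 2) (nat_lit 4) (nat_lit 314) (nat_lit 264) (nat_lit 142)) (XT.lf (nat_lit 0) (nat_lit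 157548445334) (nat_lit 152) (nat_lit 284103357483) (nat_lit 0) (nat_lit 48221400688) (nat_lit 2) (nat_lit 5) (nat_lit 4) (nat_lit 4) (nat_lit 2) (nat_lit 4) (nat_lit 315) (nat_lit 264) (nat_lit 141)))) (XT.nd (nat_lit 78) (nat_lit 0) (nat_lit 0) (XT.lf (nat_lit 0) (nat_lit 191153464643) (nat_lit 152) (nat_lit 253625475413) (nat_lit 0) (nat_lit 81825792942) (nat_lit 2) (nat_lit 5) (nat_lit 4) (nat_lit 4) (nat_lit 2) (nat_lit 4) (nat_lit 316) (nat_lit 264) (nat_lit 140)) (XT.nd (nat_lit 78) (nat_lit 0) (nat_lit 0) (XT.lf (nat_lit 0) (nat_lit 227446556965) (nat_lit 152) (nat_lit 220709950375) (nat_lit 0) (nat_lit 118118304658) (nat_lit 2) (nat_lit 5) (nat_lit 4) (nat_lit 4) (nat_lit 2) (nat_lit 4) (nat_lit 317) (nat_lit 264) (nat_lit 139)) (XT.lf (nat_lit 0) (nat_lit 266642792478) (nat_lit 152) (nat_lit 185161727408) (nat_lit 0) (nat_lit 157314002572) (nat_lit 2) (nat_lit 5) (nat_lit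 4) (nat_lit 4) (nat_lit 2) (nat_lit 4) (nat_lit 318) (nat_lit 264) (nat_lit 138))))) (XT.nd (nat_lit 234) (nat_lit 76) (nat_lit 0) (XT.nd (nat_lit 78) (nat_lit 0) (nat_lit 0) (XT.lf (nat_lit 0) (nat_lit 308974445168) (nat_lit 152) (nat_lit 146770150374) (nat_lit 0) (nat_lit 199645157486) (nat_lit 2) (nat_lit 5) (nat_lit 4) (nat_lit 4) (nat_lit 2) (nat_lit 4) (nat_lit 319) (nat_lit 264) (nat_lit 137)) (XT.nd (nat_lit 78) (nat_lit 0) (nat_lit 0) (XT.lf (nat_lit 0) (nat_lit 354692369276) (nat_lit 152) (nat_lit 105307713633) (nat_lit 0) (nat_lit 245362620690) (nat_lit 2) (nat_lit 5) (nat_lit 4) (nat_lit 4) (nat_lit 2) (nat_lit 4) (nat_lit 320) (nat_lit 264) (nat_lit 136)) (XT.lf (nat_lit 0) (nat_lit 404067485832) (nat_lit 152) (nat_lit 60528713856) (nat_lit 0) (nat_lit 294737310482) (nat_lit 2) (nat_lit 5) (nat_lit 4) (nat_lit 4) (nat_lit 2) (nat_lit 4) (nat_lit 321) (nat_lit 264) (nat_lit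 135)))) (XT.nd (nat_lit 78) (nat_lit 76) (nat_lit 0) (XT.lf (nat_lit 0) (nat_lit 457392388119) (nat_lit 152) (nat_lit 12167794006) (nat_lit 0) (nat_lit 348061817619) (nat_lit 2) (nat_lit 5) (nat_lit 4) (nat_lit 4) (nat_lit 2) (nat_lit 4) (nat_lit 322) (nat_lit 264) (nat_lit 134)) (XT.nd (nat_lit 78) (nat_lit 0) (nat_lit 0) (XT.lf (nat_lit 0) (nat_lit 42171203540) (nat_lit 76) (nat_lit 473826090478) (nat_lit 76) (nat_lit 364495154097) (nat_lit 1) (nat_lit 4) (nat_lit 2) (nat_lit 5) (nat_lit 2) (nat_lit 4) (nat_lit 323) (nat_lit 264) (nat_lit 133)) (XT.lf (nat_lit 0) (nat_lit 101548953204) (nat_lit 76) (nat_lit 478074127862) (nat_lit 76) (nat_lit 368742852703) (nat_lit 1) (nat_lit 4) (nat_lit 2) (nat_lit 5) (nat_lit 2) (nat_lit 4) (nat_lit 324) (nat_lit 264) (nat_lit 132)))))) (XT.nd (nat_lit 468) (nat_lit 0) (nat_lit 0) (XT.nd (nat_lit 234) (nat_lit 0) (nat_lit 0) (XT.nd (nat_lit 78)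 (nat_lit 0) (nat_lit 0) (XT.lf (nat_lit 0) (nat_lit 165676588663) (nat_lit 76) (nat_lit 482662156882) (nat_lit 76) (nat_lit 373330568040) (nat_lit 1) (nat_lit 4) (nat_lit 2) (nat_lit 5) (nat_lit 2) (nat_lit 4) (nat_lit 325) (nat_lit 264) (nat_lit 131)) (XT.nd (nat_lit 78) (nat_lit 0) (nat_lit 0) (XT.lf (nat_lit 0) (nat_lit 234934125535) (nat_lit 76) (nat_lit 487617365860) (nat_lit 76) (nat_lit 378285486569) (nat_lit 1) (nat_lit 4) (nat_lit 2) (nat_lit 5) (nat_lit 2) (nat_lit 4) (nat_lit 326) (nat_lit 264) (nat_lit 130)) (XT.lf (nat_lit 0) (nat_lit 309731978852) (nat_lit 76) (nat_lit 492969118995) (nat_lit 76) (nat_lit 383636970772) (nat_lit 1) (nat_lit 4) (nat_lit 2) (nat_lit 5) (nat_lit 2) (nat_lit 4) (nat_lit 327) (nat_lit 264) (nat_lit 129)))) (XT.nd (nat_lit 78) (nat_lit 0) (nat_lit 0) (XT.lf (nat_lit 0) (nat_lit 390513395153) (nat_lit 76) (nat_lit 498749130382) (nat_lit 76) (nat_lit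 389416733146) (nat_lit 1) (nat_lit 4) (nat_lit 2) (nat_lit 5) (nat_lit 2) (nat_lit 4) (nat_lit 328) (nat_lit 264) (nat_lit 128)) (XT.nd (nat_lit 78) (nat_lit 0) (nat_lit 0) (XT.lf (nat_lit 0) (nat_lit 477757079126) (nat_lit 76) (nat_lit 504991651939) (nat_lit 76) (nat_lit 395659024137) (nat_lit 1) (nat_lit 4) (nat_lit 2) (nat_lit 5) (nat_lit 2) (nat_lit 4) (nat_lit 329) (nat_lit 264) (nat_lit 127)) (XT.lf (nat_lit 0) (nat_lit 571980030382) (nat_lit 76) (nat_lit 511733676386) (nat_lit 76) (nat_lit 402400835096) (nat_lit 1) (nat_lit 4) (nat_lit 2) (nat_lit 5) (nat_lit 2) (nat_lit 4) (nat_lit 330) (nat_lit 264) (nat_lit 126))))) (XT.nd (nat_lit 32448) (nat_lit 0) (nat_lit 2128) (XT.nd (nat_lit 78) (nat_lit 0) (nat_lit 0) (XT.lf (nat_lit 0) (nat_lit 673740607149) (nat_lit 76) (nat_lit 519015156462) (nat_lit 76) (nat_lit 409682117498) (nat_lit 1) (nat_lit 4) (nat_lit 2) (nat_lit 5) (nat_lit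 2) (nat_lit 4) (nat_lit 331) (nat_lit 264) (nat_lit 125)) (XT.nd (nat_lit 32292) (nat_lit 0) (nat_lit 2128) (XT.lf (nat_lit 0) (nat_lit 783641835067) (nat_lit 76) (nat_lit 526879241677) (nat_lit 76) (nat_lit 417546019682) (nat_lit 1) (nat_lit 4) (nat_lit 2) (nat_lit 5) (nat_lit 2) (nat_lit 4) (nat_lit 332) (nat_lit 264) (nat_lit 124)) (XT.lf (nat_lit 0) (nat_lit 2145471811) (nat_lit 532) (nat_lit 5989228133) (nat_lit 532) (nat_lit 5989228133) (nat_lit 29) (nat_lit 3) (nat_lit 36) (nat_lit 3) (nat_lit 36) (nat_lit 5) (nat_lit 265) (nat_lit 265) (nat_lit 190)))) (XT.nd (nat_lit 78) (nat_lit 0) (nat_lit 76) (XT.lf (nat_lit 0) (nat_lit 4534523945) (nat_lit 532) (nat_lit 524431710) (nat_lit 532) (nat_lit 24312547454) (nat_lit 29) (nat_lit 3) (nat_lit 36) (nat_lit 3) (nat_lit 36) (nat_lit 5) (nat_lit 266) (nat_lit 265) (nat_lit 189)) (XT.nd (nat_lit 78) (nat_lit 0) (nat_lit 0) (XT.lf (nat_lit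 0) (nat_lit 5267568832) (nat_lit 456) (nat_lit 18273482077) (nat_lit 532) (nat_lit 7006443873) (nat_lit 30) (nat_lit 5) (nat_lit 36) (nat_lit 5) (nat_lit 37) (nat_lit 5) (nat_lit 267) (nat_lit 265) (nat_lit 188)) (XT.lf (nat_lit 0) (nat_lit 6198684600) (nat_lit 456) (nat_lit 5826507016) (nat_lit 532) (nat_lit 19781267410) (nat_lit 30) (nat_lit 5) (nat_lit 36) (nat_lit 5) (nat_lit 37) (nat_lit 5) (nat_lit 268) (nat_lit 265) (nat_lit 187))))))))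
noncomputable def xc93 : XT := (XT.nd (nat_lit 1872) (nat_lit 532) (nat_lit 0) (XT.nd (nat_lit 936) (nat_lit 836) (nat_lit 0) (XT.nd (nat_lit 468) (nat_lit 456) (nat_lit 0) (XT.nd (nat_lit 234) (nat_lit 380) (nat_lit 0) (XT.nd (nat_lit 78) (nat_lit 0) (nat_lit 0) (XT.lf (nat_lit 0) (nat_lit 7405772235) (nat_lit 456) (nat_lit 25153300303) (nat_lit 532) (nat_lit 590993169) (nat_lit 31) (nat_lit 5) (nat_lit 37) (nat_lit 5) (nat_lit 38) (nat_lit 5) (nat_lit 269) (nat_lit 265) (nat_lit 186)) (XT.nd (nat_lit 78) (nat_lit 0) (nat_lit 0) (XT.lf (nat_lit 0) (nat_lit 9179428720) (nat_lit 456) (nat_lit 11652224619) (nat_lit 532) (nat_lit 13731948091) (nat_lit 31) (nat_lit 5) (nat_lit 37) (nat_lit 5) (nat_lit 38) (nat_lit 5) (nat_lit 270) (nat_lit 265) (nat_lit 185)) (XT.lf (nat_lit 76) (nat_lit 3078699847) (nat_lit 0) (nat_lit 8084963576) (nat_lit 532) (nat_lit 24921099376) (nat_lit 32) (nat_lit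 5) (nat_lit 31) (nat_lit 5) (nat_lit 38) (nat_lit 5) (nat_lit 271) (nat_lit 265) (nat_lit 184)))) (XT.nd (nat_lit 78) (nat_lit 456) (nat_lit 0) (XT.lf (nat_lit 0) (nat_lit 13765106116) (nat_lit 456) (nat_lit 18200874077) (nat_lit 76) (nat_lit 5724994202) (nat_lit 32) (nat_lit 5) (nat_lit 38) (nat_lit 5) (nat_lit 33) (nat_lit 5) (nat_lit 272) (nat_lit 265) (nat_lit 183)) (XT.nd (nat_lit 78) (nat_lit 456) (nat_lit 0) (XT.lf (nat_lit 0) (nat_lit 16779998767) (nat_lit 456) (nat_lit 2425528957) (nat_lit 76) (nat_lit 20203760703) (nat_lit 32) (nat_lit 5) (nat_lit 38) (nat_lit 5) (nat_lit 33) (nat_lit 5) (nat_lit 273) (nat_lit 265) (nat_lit 182)) (XT.lf (nat_lit 0) (nat_lit 15377125602) (nat_lit 456) (nat_lit 5024458478) (nat_lit 532) (nat_lit 20834273285) (nat_lit 26) (nat_lit 5) (nat_lit 32) (nat_lit 5) (nat_lit 33) (nat_lit 5) (nat_lit 274) (nat_lit 265) (nat_lit 181))))) (XT.nd (nat_lit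 234) (nat_lit 228) (nat_lit 0) (XT.nd (nat_lit 78) (nat_lit 228) (nat_lit 0) (XT.lf (nat_lit 0) (nat_lit 24624352565) (nat_lit 532) (nat_lit 8714740864) (nat_lit 76) (nat_lit 9844569550) (nat_lit 26) (nat_lit 5) (nat_lit 33) (nat_lit 5) (nat_lit 27) (nat_lit 5) (nat_lit 275) (nat_lit 265) (nat_lit 180)) (XT.nd (nat_lit 78) (nat_lit 0) (nat_lit 0) (XT.lf (nat_lit 0) (nat_lit 10175383967) (nat_lit 228) (nat_lit 19380999260) (nat_lit 304) (nat_lit 15701220179) (nat_lit 23) (nat_lit 5) (nat_lit 26) (nat_lit 5) (nat_lit 27) (nat_lit 5) (nat_lit 276) (nat_lit 265) (nat_lit 179)) (XT.lf (nat_lit 0) (nat_lit 31068538558) (nat_lit 228) (nat_lit 4049120241) (nat_lit 304) (nat_lit 12361049394) (nat_lit 23) (nat_lit 5) (nat_lit 26) (nat_lit 5) (nat_lit 27) (nat_lit 5) (nat_lit 277) (nat_lit 265) (nat_lit 178)))) (XT.nd (nat_lit 78) (nat_lit 76) (nat_lit 0) (XT.lf (nat_lit 0) (nat_lit 3632720525)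 (nat_lit 152) (nat_lit 37875999830) (nat_lit 228) (nat_lit 8338012256) (nat_lit 21) (nat_lit 5) (nat_lit 23) (nat_lit 5) (nat_lit 24) (nat_lit 5) (nat_lit 278) (nat_lit 265) (nat_lit 177)) (XT.nd (nat_lit 78) (nat_lit 76) (nat_lit 0) (XT.lf (nat_lit 0) (nat_lit 26097890973) (nat_lit 152) (nat_lit 22861193901) (nat_lit 228) (nat_lit 3401293003) (nat_lit 21) (nat_lit 5) (nat_lit 23) (nat_lit 5) (nat_lit 24) (nat_lit 5) (nat_lit 279) (nat_lit 265) (nat_lit 176)) (XT.lf (nat_lit 0) (nat_lit 1830765631) (nat_lit 228) (nat_lit 4764869670) (nat_lit 76) (nat_lit 48476025559) (nat_lit 20) (nat_lit 5) (nat_lit 23) (nat_lit 5) (nat_lit 21) (nat_lit 5) (nat_lit 280) (nat_lit 265) (nat_lit 175)))))) (XT.nd (nat_lit 468) (nat_lit 304) (nat_lit 0) (XT.nd (nat_lit 234) (nat_lit 152) (nat_lit 0) (XT.nd (nat_lit 78) (nat_lit 152) (nat_lit 0) (XT.lf (nat_lit 0) (nat_lit 8037866589) (nat_lit 304) (nat_lit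 38906320414) (nat_lit 76) (nat_lit 10989389138) (nat_lit 17) (nat_lit 5) (nat_lit 21) (nat_lit 5) (nat_lit 18) (nat_lit 5) (nat_lit 281) (nat_lit 265) (nat_lit 174)) (XT.nd (nat_lit 78) (nat_lit 152) (nat_lit 0) (XT.lf (nat_lit 0) (nat_lit 15043821881) (nat_lit 304) (nat_lit 16198456446) (nat_lit 76) (nat_lit 29757998365) (nat_lit 17) (nat_lit 5) (nat_lit 21) (nat_lit 5) (nat_lit 18) (nat_lit 5) (nat_lit 282) (nat_lit 265) (nat_lit 173)) (XT.lf (nat_lit 0) (nat_lit 8761090167) (nat_lit 152) (nat_lit 14057374505) (nat_lit 228) (nat_lit 41477205570) (nat_lit 15) (nat_lit 5) (nat_lit 17) (nat_lit 5) (nat_lit 18) (nat_lit 5) (nat_lit 283) (nat_lit 265) (nat_lit 172)))) (XT.nd (nat_lit 78) (nat_lit 152) (nat_lit 0) (XT.lf (nat_lit 0) (nat_lit 31775356193) (nat_lit 228) (nat_lit 31303743287) (nat_lit 76) (nat_lit 4730786429) (nat_lit 15) (nat_lit 5) (nat_lit 18) (nat_lit 5) (nat_lit 16)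 (nat_lit 5) (nat_lit 284) (nat_lit 265) (nat_lit 171)) (XT.nd (nat_lit 78) (nat_lit 152) (nat_lit 0) (XT.lf (nat_lit 0) (nat_lit 41811701665) (nat_lit 228) (nat_lit 5502636496) (nat_lit 76) (nat_lit 24261880323) (nat_lit 15) (nat_lit 5) (nat_lit 18) (nat_lit 5) (nat_lit 16) (nat_lit 5) (nat_lit 285) (nat_lit 265) (nat_lit 170)) (XT.lf (nat_lit 0) (nat_lit 23537138956) (nat_lit 152) (nat_lit 29677825337) (nat_lit 228) (nat_lit 22383783599) (nat_lit 13) (nat_lit 5) (nat_lit 15) (nat_lit 5) (nat_lit 16) (nat_lit 5) (nat_lit 286) (nat_lit 265) (nat_lit 169))))) (XT.nd (nat_lit 234) (nat_lit 152) (nat_lit 0) (XT.nd (nat_lit 78) (nat_lit 152) (nat_lit 0) (XT.lf (nat_lit 0) (nat_lit 55210265333) (nat_lit 152) (nat_lit 10468701086) (nat_lit 228) (nat_lit 14252245128) (nat_lit 13) (nat_lit 5) (nat_lit 15) (nat_lit 5) (nat_lit 16) (nat_lit 5) (nat_lit 287) (nat_lit 265) (nat_lit 168)) (XT.nd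 (nat_lit 78) (nat_lit 76) (nat_lit 0) (XT.lf (nat_lit 0) (nat_lit 4797069063) (nat_lit 76) (nat_lit 74703710128) (nat_lit 152) (nat_lit 5080647286) (nat_lit 12) (nat_lit 5) (nat_lit 13) (nat_lit 5) (nat_lit 14) (nat_lit 4) (nat_lit 288) (nat_lit 265) (nat_lit 167)) (XT.lf (nat_lit 0) (nat_lit 5546887495) (nat_lit 152) (nat_lit 51875401218) (nat_lit 76) (nat_lit 32095010549) (nat_lit 11) (nat_lit 5) (nat_lit 13) (nat_lit 5) (nat_lit 12) (nat_lit 5) (nat_lit 289) (nat_lit 265) (nat_lit 166)))) (XT.nd (nat_lit 78) (nat_lit 152) (nat_lit 0) (XT.lf (nat_lit 0) (nat_lit 16748447450) (nat_lit 152) (nat_lit 21868229770) (nat_lit 76) (nat_lit 56220950194) (nat_lit 11) (nat_lit 5) (nat_lit 13) (nat_lit 5) (nat_lit 12) (nat_lit 5) (nat_lit 290) (nat_lit 265) (nat_lit 165)) (XT.nd (nat_lit 78) (nat_lit 0) (nat_lit 0) (XT.lf (nat_lit 0) (nat_lit 11092035430) (nat_lit 152) (nat_lit 18019295035)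 (nat_lit 228) (nat_lit 71451042415) (nat_lit 9) (nat_lit 5) (nat_lit 11) (nat_lit 5) (nat_lit 12) (nat_lit 5) (nat_lit 291) (nat_lit 265) (nat_lit 164)) (XT.lf (nat_lit 0) (nat_lit 43176799616) (nat_lit 228) (nat_lit 58884036943) (nat_lit 76) (nat_lit 4627183398) (nat_lit 9) (nat_lit 5) (nat_lit 12) (nat_lit 5) (nat_lit 10) (nat_lit 4) (nat_lit 292) (nat_lit 265) (nat_lit 163))))))) (XT.nd (nat_lit 936) (nat_lit 228) (nat_lit 0) (XT.nd (nat_lit 468) (nat_lit 76) (nat_lit 0) (XT.nd (nat_lit 234) (nat_lit 152) (nat_lit 0) (XT.nd (nat_lit 78) (nat_lit 76) (nat_lit 0) (XT.lf (nat_lit 0) (nat_lit 58834129367) (nat_lit 228) (nat_lit 26321085431) (nat_lit 76) (nat_lit 28111180092) (nat_lit 9) (nat_lit 5) (nat_lit 12) (nat_lit 5) (nat_lit 10) (nat_lit 4) (nat_lit 293) (nat_lit 265) (nat_lit 162)) (XT.nd (nat_lit 78) (nat_lit 0) (nat_lit 0) (XT.lf (nat_lit 0) (nat_lit 9310601182) (nat_lit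 76) (nat_lit 66656058417) (nat_lit 152) (nat_lit 44386576588) (nat_lit 8) (nat_lit 5) (nat_lit 9) (nat_lit 5) (nat_lit 10) (nat_lit 4) (nat_lit 294) (nat_lit 265) (nat_lit 161)) (XT.lf (nat_lit 0) (nat_lit 49287723201) (nat_lit 76) (nat_lit 45900476661) (nat_lit 152) (nat_lit 32761357404) (nat_lit 8) (nat_lit 5) (nat_lit 9) (nat_lit 5) (nat_lit 10) (nat_lit 4) (nat_lit 295) (nat_lit 265) (nat_lit 160)))) (XT.nd (nat_lit 78) (nat_lit 152) (nat_lit 0) (XT.lf (nat_lit 0) (nat_lit 92461160377) (nat_lit 76) (nat_lit 23485138613) (nat_lit 152) (nat_lit 20207382904) (nat_lit 8) (nat_lit 5) (nat_lit 9) (nat_lit 5) (nat_lit 10) (nat_lit 4) (nat_lit 296) (nat_lit 265) (nat_lit 159)) (XT.nd (nat_lit 78) (nat_lit 152) (nat_lit 0) (XT.lf (nat_lit 0) (nat_lit 138381350992) (nat_lit 152) (nat_lit 5944854857) (nat_lit 0) (nat_lit 686630610) (nat_lit 8) (nat_lit 5) (nat_lit 10) (nat_lit 4) (nat_lit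 8) (nat_lit 4) (nat_lit 297) (nat_lit 265) (nat_lit 158)) (XT.lf (nat_lit 0) (nat_lit 9142168084) (nat_lit 152) (nat_lit 118681716947) (nat_lit 76) (nat_lit 26620319302) (nat_lit 6) (nat_lit 5) (nat_lit 8) (nat_lit 5) (nat_lit 7) (nat_lit 4) (nat_lit 298) (nat_lit 265) (nat_lit 157))))) (XT.nd (nat_lit 234) (nat_lit 76) (nat_lit 0) (XT.nd (nat_lit 78) (nat_lit 0) (nat_lit 0) (XT.lf (nat_lit 0) (nat_lit 25985200917) (nat_lit 152) (nat_lit 83650714377) (nat_lit 76) (nat_lit 54967129340) (nat_lit 6) (nat_lit 5) (nat_lit 8) (nat_lit 5) (nat_lit 7) (nat_lit 4) (nat_lit 299) (nat_lit 265) (nat_lit 156)) (XT.nd (nat_lit 78) (nat_lit 0) (nat_lit 0) (XT.lf (nat_lit 0) (nat_lit 44174745541) (nat_lit 152) (nat_lit 45818781674) (nat_lit 76) (nat_lit 85581142618) (nat_lit 6) (nat_lit 5) (nat_lit 8) (nat_lit 5) (nat_lit 7) (nat_lit 4) (nat_lit 300) (nat_lit 265) (nat_lit 155)) (XT.lf (nat_lit 0)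 (nat_lit 63818591851) (nat_lit 152) (nat_lit 4961729605) (nat_lit 76) (nat_lit 118643775514) (nat_lit 6) (nat_lit 5) (nat_lit 8) (nat_lit 5) (nat_lit 7) (nat_lit 4) (nat_lit 301) (nat_lit 265) (nat_lit 154)))) (XT.nd (nat_lit 78) (nat_lit 0) (nat_lit 0) (XT.lf (nat_lit 0) (nat_lit 41224788579) (nat_lit 76) (nat_lit 44799816401) (nat_lit 152) (nat_lit 114117623317) (nat_lit 5) (nat_lit 5) (nat_lit 6) (nat_lit 5) (nat_lit 7) (nat_lit 4) (nat_lit 302) (nat_lit 265) (nat_lit 153)) (XT.nd (nat_lit 78) (nat_lit 0) (nat_lit 0) (XT.lf (nat_lit 0) (nat_lit 91387110885) (nat_lit 76) (nat_lit 18754880675) (nat_lit 152) (nat_lit 103725029723) (nat_lit 5) (nat_lit 5) (nat_lit 6) (nat_lit 5) (nat_lit 7) (nat_lit 4) (nat_lit 303) (nat_lit 265) (nat_lit 152)) (XT.lf (nat_lit 0) (nat_lit 136413480841) (nat_lit 152) (nat_lit 83354062289) (nat_lit 0) (nat_lit 8904279994) (nat_lit 5) (nat_lit 5) (nat_lit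 7) (nat_lit 4) (nat_lit 5) (nat_lit 4) (nat_lit 304) (nat_lit 265) (nat_lit 151)))))) (XT.nd (nat_lit 468) (nat_lit 76) (nat_lit 0) (XT.nd (nat_lit 234) (nat_lit 76) (nat_lit 0) (XT.nd (nat_lit 78) (nat_lit 76) (nat_lit 0) (XT.lf (nat_lit 0) (nat_lit 165273157974) (nat_lit 152) (nat_lit 41586440763) (nat_lit 0) (nat_lit 37762495062) (nat_lit 5) (nat_lit 5) (nat_lit 7) (nat_lit 4) (nat_lit 5) (nat_lit 4) (nat_lit 305) (nat_lit 265) (nat_lit 150)) (XT.nd (nat_lit 78) (nat_lit 0) (nat_lit 0) (XT.lf (nat_lit 0) (nat_lit 3706958414) (nat_lit 76) (nat_lit 192823181962) (nat_lit 76) (nat_lit 65311165285) (nat_lit 4) (nat_lit 4) (nat_lit 5) (nat_lit 5) (nat_lit 5) (nat_lit 4) (nat_lit 306) (nat_lit 265) (nat_lit 149)) (XT.lf (nat_lit 0) (nat_lit 54987845184) (nat_lit 76) (nat_lit 176436282796) (nat_lit 76) (nat_lit 48923012634) (nat_lit 4) (nat_lit 4) (nat_lit 5) (nat_lit 5) (nat_lit 5) (nat_lit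 4) (nat_lit 307) (nat_lit 265) (nat_lit 148)))) (XT.nd (nat_lit 78) (nat_lit 76) (nat_lit 0) (XT.lf (nat_lit 0) (nat_lit 110370238010) (nat_lit 76) (nat_lit 158738840678) (nat_lit 76) (nat_lit 31224409881) (nat_lit 4) (nat_lit 4) (nat_lit 5) (nat_lit 5) (nat_lit 5) (nat_lit 4) (nat_lit 308) (nat_lit 265) (nat_lit 147)) (XT.nd (nat_lit 78) (nat_lit 76) (nat_lit 0) (XT.lf (nat_lit 0) (nat_lit 170182328849) (nat_lit 76) (nat_lit 139625981876) (nat_lit 76) (nat_lit 12110476417) (nat_lit 4) (nat_lit 4) (nat_lit 5) (nat_lit 5) (nat_lit 5) (nat_lit 4) (nat_lit 309) (nat_lit 265) (nat_lit 146)) (XT.lf (nat_lit 0) (nat_lit 8105247538) (nat_lit 152) (nat_lit 110657585636) (nat_lit 76) (nat_lit 226451700351) (nat_lit 3) (nat_lit 5) (nat_lit 5) (nat_lit 5) (nat_lit 4) (nat_lit 4) (nat_lit 310) (nat_lit 265) (nat_lit 145))))) (XT.nd (nat_lit 234) (nat_lit 0) (nat_lit 0) (XT.nd (nat_lit 78) (nat_lit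 76) (nat_lit 0) (XT.lf (nat_lit 0) (nat_lit 29283495062) (nat_lit 152) (nat_lit 66607752134) (nat_lit 76) (nat_lit 274457565393) (nat_lit 3) (nat_lit 5) (nat_lit 5) (nat_lit 5) (nat_lit 4) (nat_lit 4) (nat_lit 311) (nat_lit 265) (nat_lit 144)) (XT.nd (nat_lit 78) (nat_lit 76) (nat_lit 0) (XT.lf (nat_lit 0) (nat_lit 52155581959) (nat_lit 152) (nat_lit 19034664491) (nat_lit 76) (nat_lit 326303622344) (nat_lit 3) (nat_lit 5) (nat_lit 5) (nat_lit 5) (nat_lit 4) (nat_lit 4) (nat_lit 312) (nat_lit 265) (nat_lit 143)) (XT.lf (nat_lit 0) (nat_lit 34046748117) (nat_lit 76) (nat_lit 43629123513) (nat_lit 152) (nat_lit 349069184089) (nat_lit 2) (nat_lit 5) (nat_lit 3) (nat_lit 5) (nat_lit 4) (nat_lit 4) (nat_lit 313) (nat_lit 265) (nat_lit 142)))) (XT.nd (nat_lit 78) (nat_lit 0) (nat_lit 0) (XT.lf (nat_lit 0) (nat_lit 92456530867) (nat_lit 76) (nat_lit 13301318718) (nat_lit 152) (nat_lit 352536883817)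 (nat_lit 2) (nat_lit 5) (nat_lit 3) (nat_lit 5) (nat_lit 4) (nat_lit 4) (nat_lit 314) (nat_lit 265) (nat_lit 141)) (XT.nd (nat_lit 78) (nat_lit 0) (nat_lit 0) (XT.lf (nat_lit 0) (nat_lit 136553869118) (nat_lit 152) (nat_lit 337297761825) (nat_lit 0) (nat_lit 18479356626) (nat_lit 2) (nat_lit 5) (nat_lit 4) (nat_lit 4) (nat_lit 2) (nat_lit 4) (nat_lit 315) (nat_lit 265) (nat_lit 140)) (XT.lf (nat_lit 0) (nat_lit 170158730479) (nat_lit 152) (nat_lit 306820162253) (nat_lit 0) (nat_lit 52083637380) (nat_lit 2) (nat_lit 5) (nat_lit 4) (nat_lit 4) (nat_lit 2) (nat_lit 4) (nat_lit 316) (nat_lit 265) (nat_lit 139))))))))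
noncomputable def xc94 : XT := (XT.nd (nat_lit 34164) (nat_lit 0) (nat_lit 532) (XT.nd (nat_lit 858) (nat_lit 0) (nat_lit 0) (XT.nd (nat_lit 390) (nat_lit 76) (nat_lit 0) (XT.nd (nat_lit 156) (nat_lit 0) (nat_lit 0) (XT.nd (nat_lit 78) (nat_lit 0) (nat_lit 0) (XT.lf (nat_lit 0) (nat_lit 206451676553) (nat_lit 152) (nat_lit 273904898790) (nat_lit 0) (nat_lit 88376045856) (nat_lit 2) (nat_lit 5) (nat_lit 4) (nat_lit 4) (nat_lit 2) (nat_lit 4) (nat_lit 317) (nat_lit 265) (nat_lit 138)) (XT.lf (nat_lit 0) (nat_lit 245647776651) (nat_lit 152) (nat_lit 238356918020) (nat_lit 0) (nat_lit 127571648178) (nat_lit 2) (nat_lit 5) (nat_lit 4) (nat_lit 4) (nat_lit 2) (nat_lit 4) (nat_lit 318) (nat_lit 265) (nat_lit 137))) (XT.nd (nat_lit 78) (nat_lit 0) (nat_lit 0) (XT.lf (nat_lit 0) (nat_lit 287979303958) (nat_lit 152) (nat_lit 199965565244) (nat_lit 0) (nat_lit 169902714581) (nat_lit 2) (nat_lit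 5) (nat_lit 4) (nat_lit 4) (nat_lit 2) (nat_lit 4) (nat_lit 319) (nat_lit 265) (nat_lit 136)) (XT.nd (nat_lit 78) (nat_lit 0) (nat_lit 0) (XT.lf (nat_lit 0) (nat_lit 333697111969) (nat_lit 152) (nat_lit 158503336148) (nat_lit 0) (nat_lit 215620095829) (nat_lit 2) (nat_lit 5) (nat_lit 4) (nat_lit 4) (nat_lit 2) (nat_lit 4) (nat_lit 320) (nat_lit 265) (nat_lit 135)) (XT.lf (nat_lit 0) (nat_lit 383072121028) (nat_lit 152) (nat_lit 113724528635) (nat_lit 0) (nat_lit 264994709737) (nat_lit 2) (nat_lit 5) (nat_lit 4) (nat_lit 4) (nat_lit 2) (nat_lit 4) (nat_lit 321) (nat_lit 265) (nat_lit 134))))) (XT.nd (nat_lit 234) (nat_lit 0) (nat_lit 0) (XT.nd (nat_lit 78) (nat_lit 76) (nat_lit 0) (XT.lf (nat_lit 0) (nat_lit 436396923782) (nat_lit 152) (nat_lit 65363786808) (nat_lit 0) (nat_lit 318319146610) (nat_lit 2) (nat_lit 5) (nat_lit 4) (nat_lit 4) (nat_lit 2) (nat_lit 4) (nat_lit 322) (nat_lit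 265) (nat_lit 133)) (XT.nd (nat_lit 78) (nat_lit 76) (nat_lit 0) (XT.lf (nat_lit 0) (nat_lit 493987519061) (nat_lit 152) (nat_lit 13134528492) (nat_lit 0) (nat_lit 375909403111) (nat_lit 2) (nat_lit 5) (nat_lit 4) (nat_lit 4) (nat_lit 2) (nat_lit 4) (nat_lit 323) (nat_lit 265) (nat_lit 132)) (XT.lf (nat_lit 0) (nat_lit 45551419514) (nat_lit 76) (nat_lit 511729277687) (nat_lit 76) (nat_lit 393650848054) (nat_lit 1) (nat_lit 4) (nat_lit 2) (nat_lit 5) (nat_lit 2) (nat_lit 4) (nat_lit 324) (nat_lit 265) (nat_lit 131)))) (XT.nd (nat_lit 78) (nat_lit 0) (nat_lit 0) (XT.lf (nat_lit 0) (nat_lit 109678906212) (nat_lit 76) (nat_lit 516317372879) (nat_lit 76) (nat_lit 398238652797) (nat_lit 1) (nat_lit 4) (nat_lit 2) (nat_lit 5) (nat_lit 2) (nat_lit 4) (nat_lit 325) (nat_lit 265) (nat_lit 130)) (XT.nd (nat_lit 78) (nat_lit 0) (nat_lit 0) (XT.lf (nat_lit 0) (nat_lit 178936305341) (nat_lit 76)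 (nat_lit 521272643125) (nat_lit 76) (nat_lit 403193654111) (nat_lit 1) (nat_lit 4) (nat_lit 2) (nat_lit 5) (nat_lit 2) (nat_lit 4) (nat_lit 326) (nat_lit 265) (nat_lit 129)) (XT.lf (nat_lit 0) (nat_lit 253734031119) (nat_lit 76) (nat_lit 526624452992) (nat_lit 76) (nat_lit 408545214965) (nat_lit 1) (nat_lit 4) (nat_lit 2) (nat_lit 5) (nat_lit 2) (nat_lit 4) (nat_lit 327) (nat_lit 265) (nat_lit 128)))))) (XT.nd (nat_lit 32838) (nat_lit 0) (nat_lit 2204) (XT.nd (nat_lit 234) (nat_lit 0) (nat_lit 0) (XT.nd (nat_lit 78) (nat_lit 0) (nat_lit 0) (XT.lf (nat_lit 0) (nat_lit 334515329328) (nat_lit 76) (nat_lit 532404516907) (nat_lit 76) (nat_lit 414325048314) (nat_lit 1) (nat_lit 4) (nat_lit 2) (nat_lit 5) (nat_lit 2) (nat_lit 4) (nat_lit 328) (nat_lit 265) (nat_lit 127)) (XT.nd (nat_lit 78) (nat_lit 0) (nat_lit 0) (XT.lf (nat_lit 0) (nat_lit 421758903957) (nat_lit 76) (nat_lit 538647087101)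 (nat_lit 76) (nat_lit 420567405020) (nat_lit 1) (nat_lit 4) (nat_lit 2) (nat_lit 5) (nat_lit 2) (nat_lit 4) (nat_lit 329) (nat_lit 265) (nat_lit 126)) (XT.lf (nat_lit 0) (nat_lit 515981753968) (nat_lit 76) (nat_lit 545389156584) (nat_lit 76) (nat_lit 427309276829) (nat_lit 1) (nat_lit 4) (nat_lit 2) (nat_lit 5) (nat_lit 2) (nat_lit 4) (nat_lit 330) (nat_lit 265) (nat_lit 125)))) (XT.nd (nat_lit 32448) (nat_lit 0) (nat_lit 2128) (XT.lf (nat_lit 0) (nat_lit 617742236990) (nat_lit 76) (nat_lit 552670678358) (nat_lit 76) (nat_lit 434590615572) (nat_lit 1) (nat_lit 4) (nat_lit 2) (nat_lit 5) (nat_lit 2) (nat_lit 4) (nat_lit 331) (nat_lit 265) (nat_lit 124)) (XT.nd (nat_lit 78) (nat_lit 0) (nat_lit 0) (XT.lf (nat_lit 0) (nat_lit 2387321913) (nat_lit 532) (nat_lit 6430201923) (nat_lit 532) (nat_lit 6430201923) (nat_lit 29) (nat_lit 3) (nat_lit 36) (nat_lit 3) (nat_lit 36) (nat_lit 5) (nat_lit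 266) (nat_lit 266) (nat_lit 188)) (XT.lf (nat_lit 0) (nat_lit 5027308745) (nat_lit 532) (nat_lit 495711320) (nat_lit 532) (nat_lit 26186876324) (nat_lit 29) (nat_lit 3) (nat_lit 36) (nat_lit 3) (nat_lit 36) (nat_lit 5) (nat_lit 267) (nat_lit 266) (nat_lit 187))))) (XT.nd (nat_lit 234) (nat_lit 0) (nat_lit 76) (XT.nd (nat_lit 78) (nat_lit 0) (nat_lit 0) (XT.lf (nat_lit 0) (nat_lit 5809744040) (nat_lit 456) (nat_lit 19654575924) (nat_lit 532) (nat_lit 7516456216) (nat_lit 30) (nat_lit 5) (nat_lit 36) (nat_lit 5) (nat_lit 37) (nat_lit 5) (nat_lit 268) (nat_lit 266) (nat_lit 186)) (XT.nd (nat_lit 78) (nat_lit 0) (nat_lit 76) (XT.lf (nat_lit 0) (nat_lit 6806403165) (nat_lit 456) (nat_lit 6217826911) (nat_lit 532) (nat_lit 21317006611) (nat_lit 30) (nat_lit 5) (nat_lit 36) (nat_lit 5) (nat_lit 37) (nat_lit 5) (nat_lit 269) (nat_lit 266) (nat_lit 185)) (XT.lf (nat_lit 0) (nat_lit 8102749074)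 (nat_lit 456) (nat_lit 27082720519) (nat_lit 532) (nat_lit 607505762) (nat_lit 31) (nat_lit 5) (nat_lit 37) (nat_lit 5) (nat_lit 38) (nat_lit 5) (nat_lit 270) (nat_lit 266) (nat_lit 184)))) (XT.nd (nat_lit 78) (nat_lit 0) (nat_lit 0) (XT.lf (nat_lit 0) (nat_lit 10010556221) (nat_lit 456) (nat_lit 12507695359) (nat_lit 532) (nat_lit 14802016105) (nat_lit 31) (nat_lit 5) (nat_lit 37) (nat_lit 5) (nat_lit 38) (nat_lit 5) (nat_lit 271) (nat_lit 266) (nat_lit 183)) (XT.nd (nat_lit 78) (nat_lit 0) (nat_lit 76) (XT.lf (nat_lit 76) (nat_lit 3399761109) (nat_lit 0) (nat_lit 8748398313) (nat_lit 532) (nat_lit 26815442534) (nat_lit 32) (nat_lit 5) (nat_lit 31) (nat_lit 5) (nat_lit 38) (nat_lit 5) (nat_lit 272) (nat_lit 266) (nat_lit 182)) (XT.lf (nat_lit 0) (nat_lit 14950576446) (nat_lit 456) (nat_lit 19579992820) (nat_lit 76) (nat_lit 6168359139) (nat_lit 32) (nat_lit 5) (nat_lit 38) (nat_lit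 5) (nat_lit 33) (nat_lit 5) (nat_lit 273) (nat_lit 266) (nat_lit 181))))))) (XT.nd (nat_lit 936) (nat_lit 532) (nat_lit 0) (XT.nd (nat_lit 468) (nat_lit 456) (nat_lit 0) (XT.nd (nat_lit 234) (nat_lit 380) (nat_lit 0) (XT.nd (nat_lit 78) (nat_lit 456) (nat_lit 0) (XT.lf (nat_lit 0) (nat_lit 18200418892) (nat_lit 456) (nat_lit 2548320178) (nat_lit 76) (nat_lit 21806511005) (nat_lit 32) (nat_lit 5) (nat_lit 38) (nat_lit 5) (nat_lit 33) (nat_lit 5) (nat_lit 274) (nat_lit 266) (nat_lit 180)) (XT.nd (nat_lit 78) (nat_lit 0) (nat_lit 0) (XT.lf (nat_lit 0) (nat_lit 16676742921) (nat_lit 456) (nat_lit 5430879042) (nat_lit 532) (nat_lit 22420691276) (nat_lit 26) (nat_lit 5) (nat_lit 32) (nat_lit 5) (nat_lit 33) (nat_lit 5) (nat_lit 275) (nat_lit 266) (nat_lit 179)) (XT.lf (nat_lit 0) (nat_lit 26662637622) (nat_lit 532) (nat_lit 9341580001) (nat_lit 76) (nat_lit 10628208648) (nat_lit 26) (nat_lit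 5) (nat_lit 33) (nat_lit 5) (nat_lit 27) (nat_lit 5) (nat_lit 276) (nat_lit 266) (nat_lit 178)))) (XT.nd (nat_lit 78) (nat_lit 152) (nat_lit 0) (XT.lf (nat_lit 0) (nat_lit 11057974054) (nat_lit 228) (nat_lit 20927843549) (nat_lit 304) (nat_lit 16886771661) (nat_lit 23) (nat_lit 5) (nat_lit 26) (nat_lit 5) (nat_lit 27) (nat_lit 5) (nat_lit 277) (nat_lit 266) (nat_lit 177)) (XT.nd (nat_lit 78) (nat_lit 152) (nat_lit 0) (XT.lf (nat_lit 0) (nat_lit 33617502541) (nat_lit 228) (nat_lit 4369683516) (nat_lit 304) (nat_lit 13284612852) (nat_lit 23) (nat_lit 5) (nat_lit 26) (nat_lit 5) (nat_lit 27) (nat_lit 5) (nat_lit 278) (nat_lit 266) (nat_lit 176)) (XT.lf (nat_lit 0) (nat_lit 3990207186) (nat_lit 152) (nat_lit 40896555586) (nat_lit 228) (nat_lit 8942753480) (nat_lit 21) (nat_lit 5) (nat_lit 23) (nat_lit 5) (nat_lit 24) (nat_lit 5) (nat_lit 279) (nat_lit 266) (nat_lit 175))))) (XT.nd (nat_lit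 234) (nat_lit 152) (nat_lit 0) (XT.nd (nat_lit 78) (nat_lit 304) (nat_lit 0) (XT.lf (nat_lit 0) (nat_lit 28247638010) (nat_lit 152) (nat_lit 24681270680) (nat_lit 228) (nat_lit 3615711484) (nat_lit 21) (nat_lit 5) (nat_lit 23) (nat_lit 5) (nat_lit 24) (nat_lit 5) (nat_lit 280) (nat_lit 266) (nat_lit 174)) (XT.nd (nat_lit 78) (nat_lit 228) (nat_lit 0) (XT.lf (nat_lit 0) (nat_lit 2027966996) (nat_lit 228) (nat_lit 5085766311) (nat_lit 76) (nat_lit 52359309570) (nat_lit 20) (nat_lit 5) (nat_lit 23) (nat_lit 5) (nat_lit 21) (nat_lit 5) (nat_lit 281) (nat_lit 266) (nat_lit 173)) (XT.lf (nat_lit 0) (nat_lit 8729540278) (nat_lit 304) (nat_lit 41956167323) (nat_lit 76) (nat_lit 11878393044) (nat_lit 17) (nat_lit 5) (nat_lit 21) (nat_lit 5) (nat_lit 18) (nat_lit 5) (nat_lit 282) (nat_lit 266) (nat_lit 172)))) (XT.nd (nat_lit 78) (nat_lit 152) (nat_lit 0) (XT.lf (nat_lit 0) (nat_lit 16292368708)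 (nat_lit 304) (nat_lit 17436315624) (nat_lit 76) (nat_lit 32147761174) (nat_lit 17) (nat_lit 5) (nat_lit 21) (nat_lit 5) (nat_lit 18) (nat_lit 5) (nat_lit 283) (nat_lit 266) (nat_lit 171)) (XT.nd (nat_lit 78) (nat_lit 0) (nat_lit 0) (XT.lf (nat_lit 0) (nat_lit 9518525926) (nat_lit 152) (nat_lit 15168480615) (nat_lit 228) (nat_lit 44748640631) (nat_lit 15) (nat_lit 5) (nat_lit 17) (nat_lit 5) (nat_lit 18) (nat_lit 5) (nat_lit 284) (nat_lit 266) (nat_lit 170)) (XT.lf (nat_lit 0) (nat_lit 34357559670) (nat_lit 228) (nat_lit 33752578909) (nat_lit 76) (nat_lit 5121109837) (nat_lit 15) (nat_lit 5) (nat_lit 18) (nat_lit 5) (nat_lit 16) (nat_lit 5) (nat_lit 285) (nat_lit 266) (nat_lit 169)))))) (XT.nd (nat_lit 468) (nat_lit 228) (nat_lit 0) (XT.nd (nat_lit 234) (nat_lit 152) (nat_lit 0) (XT.nd (nat_lit 78) (nat_lit 152) (nat_lit 0) (XT.lf (nat_lit 0) (nat_lit 45193836856) (nat_lit 228) (nat_lit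 5891492008) (nat_lit 76) (nat_lit 26213812688) (nat_lit 15) (nat_lit 5) (nat_lit 18) (nat_lit 5) (nat_lit 16) (nat_lit 5) (nat_lit 286) (nat_lit 266) (nat_lit 168)) (XT.nd (nat_lit 78) (nat_lit 0) (nat_lit 0) (XT.lf (nat_lit 0) (nat_lit 25470165344) (nat_lit 152) (nat_lit 32037643494) (nat_lit 228) (nat_lit 24135803309) (nat_lit 13) (nat_lit 5) (nat_lit 15) (nat_lit 5) (nat_lit 16) (nat_lit 5) (nat_lit 287) (nat_lit 266) (nat_lit 167)) (XT.lf (nat_lit 0) (nat_lit 59673434034) (nat_lit 152) (nat_lit 11292856554) (nat_lit 228) (nat_lit 15356607165) (nat_lit 13) (nat_lit 5) (nat_lit 15) (nat_lit 5) (nat_lit 16) (nat_lit 5) (nat_lit 288) (nat_lit 266) (nat_lit 166)))) (XT.nd (nat_lit 78) (nat_lit 76) (nat_lit 0) (XT.lf (nat_lit 0) (nat_lit 5228435549) (nat_lit 76) (nat_lit 80664409759) (nat_lit 152) (nat_lit 5452377420) (nat_lit 12) (nat_lit 5) (nat_lit 13) (nat_lit 5) (nat_lit 14) (nat_lit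 4) (nat_lit 289) (nat_lit 266) (nat_lit 165)) (XT.nd (nat_lit 78) (nat_lit 0) (nat_lit 0) (XT.lf (nat_lit 0) (nat_lit 6021179913) (nat_lit 152) (nat_lit 55979615008) (nat_lit 76) (nat_lit 34675309882) (nat_lit 11) (nat_lit 5) (nat_lit 13) (nat_lit 5) (nat_lit 12) (nat_lit 5) (nat_lit 290) (nat_lit 266) (nat_lit 164)) (XT.lf (nat_lit 0) (nat_lit 18116602338) (nat_lit 152) (nat_lit 23575263792) (nat_lit 76) (nat_lit 60730384070) (nat_lit 11) (nat_lit 5) (nat_lit 13) (nat_lit 5) (nat_lit 12) (nat_lit 5) (nat_lit 291) (nat_lit 266) (nat_lit 163))))) (XT.nd (nat_lit 234) (nat_lit 76) (nat_lit 0) (XT.nd (nat_lit 78) (nat_lit 0) (nat_lit 0) (XT.lf (nat_lit 0) (nat_lit 12020748590) (nat_lit 152) (nat_lit 19446667134) (nat_lit 228) (nat_lit 77137656868) (nat_lit 9) (nat_lit 5) (nat_lit 11) (nat_lit 5) (nat_lit 12) (nat_lit 5) (nat_lit 292) (nat_lit 266) (nat_lit 162)) (XT.nd (nat_lit 78) (nat_lit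 0) (nat_lit 0) (XT.lf (nat_lit 0) (nat_lit 46656424739) (nat_lit 228) (nat_lit 63554667658) (nat_lit 76) (nat_lit 5009823429) (nat_lit 9) (nat_lit 5) (nat_lit 12) (nat_lit 5) (nat_lit 10) (nat_lit 4) (nat_lit 293) (nat_lit 266) (nat_lit 161)) (XT.lf (nat_lit 0) (nat_lit 63564453377) (nat_lit 228) (nat_lit 28389649820) (nat_lit 76) (nat_lit 30371616499) (nat_lit 9) (nat_lit 5) (nat_lit 12) (nat_lit 5) (nat_lit 10) (nat_lit 4) (nat_lit 294) (nat_lit 266) (nat_lit 160)))) (XT.nd (nat_lit 78) (nat_lit 0) (nat_lit 0) (XT.lf (nat_lit 0) (nat_lit 10091631913) (nat_lit 76) (nat_lit 71975076628) (nat_lit 152) (nat_lit 47912877308) (nat_lit 8) (nat_lit 5) (nat_lit 9) (nat_lit 5) (nat_lit 10) (nat_lit 4) (nat_lit 295) (nat_lit 266) (nat_lit 159)) (XT.nd (nat_lit 78) (nat_lit 0) (nat_lit 0) (XT.lf (nat_lit 0) (nat_lit 53264243499) (nat_lit 76) (nat_lit 49560045848) (nat_lit 152) (nat_lit 35359464694)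 (nat_lit 8) (nat_lit 5) (nat_lit 9) (nat_lit 5) (nat_lit 10) (nat_lit 4) (nat_lit 296) (nat_lit 266) (nat_lit 158)) (XT.lf (nat_lit 0) (nat_lit 99889073987) (nat_lit 76) (nat_lit 25352404381) (nat_lit 152) (nat_lit 21802861219) (nat_lit 8) (nat_lit 5) (nat_lit 9) (nat_lit 5) (nat_lit 10) (nat_lit 4) (nat_lit 297) (nat_lit 266) (nat_lit 157))))))))
noncomputable def xc95 : XT := (XT.nd (nat_lit 1872) (nat_lit 76) (nat_lit 0) (XT.nd (nat_lit 936) (nat_lit 152) (nat_lit 0) (XT.nd (nat_lit 468) (nat_lit 76) (nat_lit 0) (XT.nd (nat_lit 234) (nat_lit 76) (nat_lit 0) (XT.nd (nat_lit 78) (nat_lit 152) (nat_lit 0) (XT.lf (nat_lit 0) (nat_lit 149470149001) (nat_lit 152) (nat_lit 6390461790) (nat_lit 0) (nat_lit 751716407) (nat_lit 8) (nat_lit 5) (nat_lit 10) (nat_lit 4) (nat_lit 8) (nat_lit 4) (nat_lit 298) (nat_lit 266) (nat_lit 156)) (XT.nd (nat_lit 78) (nat_lit 0) (nat_lit 0) (XT.lf (nat_lit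 0) (nat_lit 9891701776) (nat_lit 152) (nat_lit 128146013013) (nat_lit 76) (nat_lit 28760510501) (nat_lit 6) (nat_lit 5) (nat_lit 8) (nat_lit 5) (nat_lit 7) (nat_lit 4) (nat_lit 299) (nat_lit 266) (nat_lit 155)) (XT.lf (nat_lit 0) (nat_lit 28080832032) (nat_lit 152) (nat_lit 90314770334) (nat_lit 76) (nat_lit 59374282700) (nat_lit 6) (nat_lit 5) (nat_lit 8) (nat_lit 5) (nat_lit 7) (nat_lit 4) (nat_lit 300) (nat_lit 266) (nat_lit 154)))) (XT.nd (nat_lit 78) (nat_lit 76) (nat_lit 0) (XT.lf (nat_lit 0) (nat_lit 47724294667) (nat_lit 152) (nat_lit 49458357177) (nat_lit 76) (nat_lit 92436692373) (nat_lit 6) (nat_lit 5) (nat_lit 8) (nat_lit 5) (nat_lit 7) (nat_lit 4) (nat_lit 301) (nat_lit 266) (nat_lit 153)) (XT.nd (nat_lit 78) (nat_lit 76) (nat_lit 0) (XT.lf (nat_lit 0) (nat_lit 68938495386) (nat_lit 152) (nat_lit 5334661463) (nat_lit 76) (nat_lit 128143664912) (nat_lit 6) (nat_lit 5)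 (nat_lit 8) (nat_lit 5) (nat_lit 7) (nat_lit 4) (nat_lit 302) (nat_lit 266) (nat_lit 152)) (XT.lf (nat_lit 0) (nat_lit 44546170415) (nat_lit 76) (nat_lit 48374314024) (nat_lit 152) (nat_lit 123231963244) (nat_lit 5) (nat_lit 5) (nat_lit 6) (nat_lit 5) (nat_lit 7) (nat_lit 4) (nat_lit 303) (nat_lit 266) (nat_lit 151))))) (XT.nd (nat_lit 234) (nat_lit 76) (nat_lit 0) (XT.nd (nat_lit 78) (nat_lit 0) (nat_lit 0) (XT.lf (nat_lit 0) (nat_lit 98719745265) (nat_lit 76) (nat_lit 20246486232) (nat_lit 152) (nat_lit 112009078454) (nat_lit 5) (nat_lit 5) (nat_lit 6) (nat_lit 5) (nat_lit 7) (nat_lit 4) (nat_lit 304) (nat_lit 266) (nat_lit 150)) (XT.nd (nat_lit 78) (nat_lit 0) (nat_lit 0) (XT.lf (nat_lit 0) (nat_lit 147338681429) (nat_lit 152) (nat_lit 90001528692) (nat_lit 0) (nat_lit 9624349654) (nat_lit 5) (nat_lit 5) (nat_lit 7) (nat_lit 4) (nat_lit 5) (nat_lit 4) (nat_lit 305) (nat_lit 266)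 (nat_lit 149)) (XT.lf (nat_lit 0) (nat_lit 178506234798) (nat_lit 152) (nat_lit 44894042523) (nat_lit 0) (nat_lit 40790649537) (nat_lit 5) (nat_lit 5) (nat_lit 7) (nat_lit 4) (nat_lit 5) (nat_lit 4) (nat_lit 306) (nat_lit 266) (nat_lit 148)))) (XT.nd (nat_lit 78) (nat_lit 0) (nat_lit 0) (XT.lf (nat_lit 0) (nat_lit 4022339638) (nat_lit 76) (nat_lit 208241057463) (nat_lit 76) (nat_lit 70524311568) (nat_lit 4) (nat_lit 4) (nat_lit 5) (nat_lit 5) (nat_lit 5) (nat_lit 4) (nat_lit 307) (nat_lit 266) (nat_lit 147)) (XT.nd (nat_lit 78) (nat_lit 0) (nat_lit 0) (XT.lf (nat_lit 0) (nat_lit 59404302939) (nat_lit 76) (nat_lit 190543797406) (nat_lit 76) (nat_lit 52825976848) (nat_lit 4) (nat_lit 4) (nat_lit 5) (nat_lit 5) (nat_lit 5) (nat_lit 4) (nat_lit 308) (nat_lit 266) (nat_lit 146)) (XT.lf (nat_lit 0) (nat_lit 119215996069) (nat_lit 76) (nat_lit 171431107178) (nat_lit 76) (nat_lit 33712291564)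 (nat_lit 4) (nat_lit 4) (nat_lit 5) (nat_lit 5) (nat_lit 5) (nat_lit 4) (nat_lit 309) (nat_lit 266) (nat_lit 145)))))) (XT.nd (nat_lit 468) (nat_lit 0) (nat_lit 0) (XT.nd (nat_lit 234) (nat_lit 76) (nat_lit 0) (XT.nd (nat_lit 78) (nat_lit 76) (nat_lit 0) (XT.lf (nat_lit 0) (nat_lit 183811858693) (nat_lit 76) (nat_lit 150789726395) (nat_lit 76) (nat_lit 13069989431) (nat_lit 4) (nat_lit 4) (nat_lit 5) (nat_lit 5) (nat_lit 5) (nat_lit 4) (nat_lit 310) (nat_lit 266) (nat_lit 144)) (XT.nd (nat_lit 78) (nat_lit 0) (nat_lit 0) (XT.lf (nat_lit 0) (nat_lit 8761869768) (nat_lit 152) (nat_lit 119495900947) (nat_lit 76) (nat_lit 244573246291) (nat_lit 3) (nat_lit 5) (nat_lit 5) (nat_lit 5) (nat_lit 4) (nat_lit 4) (nat_lit 311) (nat_lit 266) (nat_lit 143)) (XT.lf (nat_lit 0) (nat_lit 31633769507) (nat_lit 152) (nat_lit 71923139398) (nat_lit 76) (nat_lit 296419179802) (nat_lit 3) (nat_lit 5) (nat_lit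 5) (nat_lit 5) (nat_lit 4) (nat_lit 4) (nat_lit 312) (nat_lit 266) (nat_lit 142)))) (XT.nd (nat_lit 78) (nat_lit 76) (nat_lit 0) (XT.lf (nat_lit 0) (nat_lit 56335060774) (nat_lit 152) (nat_lit 20545184959) (nat_lit 76) (nat_lit 352412550258) (nat_lit 3) (nat_lit 5) (nat_lit 5) (nat_lit 5) (nat_lit 4) (nat_lit 4) (nat_lit 313) (nat_lit 266) (nat_lit 141)) (XT.nd (nat_lit 78) (nat_lit 0) (nat_lit 0) (XT.lf (nat_lit 0) (nat_lit 36782430464) (nat_lit 76) (nat_lit 47114309465) (nat_lit 152) (nat_lit 376987358099) (nat_lit 2) (nat_lit 5) (nat_lit 3) (nat_lit 5) (nat_lit 4) (nat_lit 4) (nat_lit 314) (nat_lit 266) (nat_lit 140)) (XT.lf (nat_lit 0) (nat_lit 99864111204) (nat_lit 76) (nat_lit 14360661319) (nat_lit 152) (nat_lit 380733019043) (nat_lit 2) (nat_lit 5) (nat_lit 3) (nat_lit 5) (nat_lit 4) (nat_lit 4) (nat_lit 315) (nat_lit 266) (nat_lit 139))))) (XT.nd (nat_lit 234) (nat_lit 0)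 (nat_lit 0) (XT.nd (nat_lit 78) (nat_lit 0) (nat_lit 0) (XT.lf (nat_lit 0) (nat_lit 147484113386) (nat_lit 152) (nat_lit 364270968115) (nat_lit 0) (nat_lit 19961894635) (nat_lit 2) (nat_lit 5) (nat_lit 4) (nat_lit 4) (nat_lit 2) (nat_lit 4) (nat_lit 316) (nat_lit 266) (nat_lit 138)) (XT.nd (nat_lit 78) (nat_lit 0) (nat_lit 0) (XT.lf (nat_lit 0) (nat_lit 183776924046) (nat_lit 152) (nat_lit 331355946849) (nat_lit 0) (nat_lit 56254207519) (nat_lit 2) (nat_lit 5) (nat_lit 4) (nat_lit 4) (nat_lit 2) (nat_lit 4) (nat_lit 317) (nat_lit 266) (nat_lit 137)) (XT.lf (nat_lit 0) (nat_lit 222972898760) (nat_lit 152) (nat_lit 295808190336) (nat_lit 0) (nat_lit 95449721328) (nat_lit 2) (nat_lit 5) (nat_lit 4) (nat_lit 4) (nat_lit 2) (nat_lit 4) (nat_lit 318) (nat_lit 266) (nat_lit 136)))) (XT.nd (nat_lit 78) (nat_lit 0) (nat_lit 0) (XT.lf (nat_lit 0) (nat_lit 265304309970) (nat_lit 152) (nat_lit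 257417045206) (nat_lit 0) (nat_lit 137780705776) (nat_lit 2) (nat_lit 5) (nat_lit 4) (nat_lit 4) (nat_lit 2) (nat_lit 4) (nat_lit 319) (nat_lit 266) (nat_lit 135)) (XT.nd (nat_lit 78) (nat_lit 0) (nat_lit 0) (XT.lf (nat_lit 0) (nat_lit 311022010485) (nat_lit 152) (nat_lit 215955008374) (nat_lit 0) (nat_lit 183498011140) (nat_lit 2) (nat_lit 5) (nat_lit 4) (nat_lit 4) (nat_lit 2) (nat_lit 4) (nat_lit 320) (nat_lit 266) (nat_lit 134)) (XT.lf (nat_lit 0) (nat_lit 360396920010) (nat_lit 152) (nat_lit 171176378884) (nat_lit 0) (nat_lit 232872554785) (nat_lit 2) (nat_lit 5) (nat_lit 4) (nat_lit 4) (nat_lit 2) (nat_lit 4) (nat_lit 321) (nat_lit 266) (nat_lit 133))))))) (XT.nd (nat_lit 33384) (nat_lit 0) (nat_lit 1520) (XT.nd (nat_lit 468) (nat_lit 0) (nat_lit 0) (XT.nd (nat_lit 234) (nat_lit 76) (nat_lit 0) (XT.nd (nat_lit 78) (nat_lit 0) (nat_lit 0) (XT.lf (nat_lit 0) (nat_lit 413721630603)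 (nat_lit 152) (nat_lit 122815801892) (nat_lit 0) (nat_lit 286196926599) (nat_lit 2) (nat_lit 5) (nat_lit 4) (nat_lit 4) (nat_lit 2) (nat_lit 4) (nat_lit 322) (nat_lit 266) (nat_lit 132)) (XT.nd (nat_lit 78) (nat_lit 0) (nat_lit 0) (XT.lf (nat_lit 0) (nat_lit 471312140548) (nat_lit 152) (nat_lit 70586696202) (nat_lit 0) (nat_lit 343787122860) (nat_lit 2) (nat_lit 5) (nat_lit 4) (nat_lit 4) (nat_lit 2) (nat_lit 4) (nat_lit 323) (nat_lit 266) (nat_lit 131)) (XT.lf (nat_lit 0) (nat_lit 533509726941) (nat_lit 152) (nat_lit 14179556003) (nat_lit 0) (nat_lit 405984418805) (nat_lit 2) (nat_lit 5) (nat_lit 4) (nat_lit 4) (nat_lit 2) (nat_lit 4) (nat_lit 324) (nat_lit 266) (nat_lit 130)))) (XT.nd (nat_lit 78) (nat_lit 0) (nat_lit 0) (XT.lf (nat_lit 0) (nat_lit 49201122660) (nat_lit 76) (nat_lit 552665133595) (nat_lit 76) (nat_lit 425139556526) (nat_lit 1) (nat_lit 4) (nat_lit 2) (nat_lit 5)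 (nat_lit 2) (nat_lit 4) (nat_lit 325) (nat_lit 266) (nat_lit 129)) (XT.nd (nat_lit 78) (nat_lit 0) (nat_lit 0) (XT.lf (nat_lit 0) (nat_lit 118458394250) (nat_lit 76) (nat_lit 557620460572) (nat_lit 76) (nat_lit 430094634492) (nat_lit 1) (nat_lit 4) (nat_lit 2) (nat_lit 5) (nat_lit 2) (nat_lit 4) (nat_lit 326) (nat_lit 266) (nat_lit 128)) (XT.lf (nat_lit 0) (nat_lit 193256001936) (nat_lit 76) (nat_lit 562972322967) (nat_lit 76) (nat_lit 435446266320) (nat_lit 1) (nat_lit 4) (nat_lit 2) (nat_lit 5) (nat_lit 2) (nat_lit 4) (nat_lit 327) (nat_lit 266) (nat_lit 127))))) (XT.nd (nat_lit 234) (nat_lit 0) (nat_lit 0) (XT.nd (nat_lit 78) (nat_lit 0) (nat_lit 0) (XT.lf (nat_lit 0) (nat_lit 274037190800) (nat_lit 76) (nat_lit 568752435520) (nat_lit 76) (nat_lit 441226165385) (nat_lit 1) (nat_lit 4) (nat_lit 2) (nat_lit 5) (nat_lit 2) (nat_lit 4) (nat_lit 328) (nat_lit 266) (nat_lit 126)) (XT.nd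 (nat_lit 78) (nat_lit 0) (nat_lit 0) (XT.lf (nat_lit 0) (nat_lit 361280664185) (nat_lit 76) (nat_lit 574995050749) (nat_lit 76) (nat_lit 447468582940) (nat_lit 1) (nat_lit 4) (nat_lit 2) (nat_lit 5) (nat_lit 2) (nat_lit 4) (nat_lit 329) (nat_lit 266) (nat_lit 125)) (XT.lf (nat_lit 0) (nat_lit 455503420451) (nat_lit 76) (nat_lit 581737161930) (nat_lit 76) (nat_lit 454210511090) (nat_lit 1) (nat_lit 4) (nat_lit 2) (nat_lit 5) (nat_lit 2) (nat_lit 4) (nat_lit 330) (nat_lit 266) (nat_lit 124)))) (XT.nd (nat_lit 32526) (nat_lit 0) (nat_lit 2128) (XT.lf (nat_lit 0) (nat_lit 557263816672) (nat_lit 76) (nat_lit 589018722315) (nat_lit 76) (nat_lit 461491902001) (nat_lit 1) (nat_lit 4) (nat_lit 2) (nat_lit 5) (nat_lit 2) (nat_lit 4) (nat_lit 331) (nat_lit 266) (nat_lit 123)) (XT.nd (nat_lit 78) (nat_lit 0) (nat_lit 0) (XT.lf (nat_lit 0) (nat_lit 2638503446) (nat_lit 532) (nat_lit 6911898204)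 (nat_lit 532) (nat_lit 6911898204) (nat_lit 29) (nat_lit 3) (nat_lit 36) (nat_lit 3) (nat_lit 36) (nat_lit 5) (nat_lit 267) (nat_lit 267) (nat_lit 186)) (XT.lf (nat_lit 0) (nat_lit 5540967112) (nat_lit 532) (nat_lit 474775868) (nat_lit 532) (nat_lit 28221234071) (nat_lit 29) (nat_lit 3) (nat_lit 36) (nat_lit 3) (nat_lit 36) (nat_lit 5) (nat_lit 268) (nat_lit 267) (nat_lit 185)))))) (XT.nd (nat_lit 468) (nat_lit 684) (nat_lit 0) (XT.nd (nat_lit 234) (nat_lit 0) (nat_lit 76) (XT.nd (nat_lit 78) (nat_lit 0) (nat_lit 0) (XT.lf (nat_lit 0) (nat_lit 6378064116) (nat_lit 456) (nat_lit 21157682122) (nat_lit 532) (nat_lit 8074474388) (nat_lit 30) (nat_lit 5) (nat_lit 36) (nat_lit 5) (nat_lit 37) (nat_lit 5) (nat_lit 269) (nat_lit 267) (nat_lit 184)) (XT.nd (nat_lit 78) (nat_lit 0) (nat_lit 76) (XT.lf (nat_lit 0) (nat_lit 7446786301) (nat_lit 456) (nat_lit 6651123549) (nat_lit 532) (nat_lit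 22982276098) (nat_lit 30) (nat_lit 5) (nat_lit 36) (nat_lit 5) (nat_lit 37) (nat_lit 5) (nat_lit 270) (nat_lit 267) (nat_lit 183)) (XT.lf (nat_lit 0) (nat_lit 8840573818) (nat_lit 456) (nat_lit 29178312948) (nat_lit 532) (nat_lit 629728599) (nat_lit 31) (nat_lit 5) (nat_lit 37) (nat_lit 5) (nat_lit 38) (nat_lit 5) (nat_lit 271) (nat_lit 267) (nat_lit 182)))) (XT.nd (nat_lit 78) (nat_lit 0) (nat_lit 0) (XT.lf (nat_lit 0) (nat_lit 10894368143) (nat_lit 456) (nat_lit 13442546902) (nat_lit 532) (nat_lit 15961753667) (nat_lit 31) (nat_lit 5) (nat_lit 37) (nat_lit 5) (nat_lit 38) (nat_lit 5) (nat_lit 272) (nat_lit 267) (nat_lit 181)) (XT.nd (nat_lit 78) (nat_lit 0) (nat_lit 76) (XT.lf (nat_lit 76) (nat_lit 3735841171) (nat_lit 0) (nat_lit 9462534281) (nat_lit 532) (nat_lit 28875505790) (nat_lit 32) (nat_lit 5) (nat_lit 31) (nat_lit 5) (nat_lit 38) (nat_lit 5) (nat_lit 273) (nat_lit 267)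 (nat_lit 180)) (XT.lf (nat_lit 0) (nat_lit 16218863510) (nat_lit 456) (nat_lit 21080419009) (nat_lit 76) (nat_lit 6649281060) (nat_lit 32) (nat_lit 5) (nat_lit 38) (nat_lit 5) (nat_lit 33) (nat_lit 5) (nat_lit 274) (nat_lit 267) (nat_lit 179))))) (XT.nd (nat_lit 234) (nat_lit 380) (nat_lit 0) (XT.nd (nat_lit 78) (nat_lit 456) (nat_lit 0) (XT.lf (nat_lit 0) (nat_lit 19723342170) (nat_lit 456) (nat_lit 2691099462) (nat_lit 76) (nat_lit 23539414468) (nat_lit 32) (nat_lit 5) (nat_lit 38) (nat_lit 5) (nat_lit 33) (nat_lit 5) (nat_lit 275) (nat_lit 267) (nat_lit 178)) (XT.nd (nat_lit 78) (nat_lit 0) (nat_lit 0) (XT.lf (nat_lit 0) (nat_lit 18070422196) (nat_lit 456) (nat_lit 5869176428) (nat_lit 532) (nat_lit 24145481804) (nat_lit 26) (nat_lit 5) (nat_lit 32) (nat_lit 5) (nat_lit 33) (nat_lit 5) (nat_lit 276) (nat_lit 267) (nat_lit 177)) (XT.lf (nat_lit 0) (nat_lit 28854236468) (nat_lit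 532) (nat_lit 10028601075) (nat_lit 76) (nat_lit 11475099027) (nat_lit 26) (nat_lit 5) (nat_lit 33) (nat_lit 5) (nat_lit 27) (nat_lit 5) (nat_lit 277) (nat_lit 267) (nat_lit 176)))) (XT.nd (nat_lit 78) (nat_lit 152) (nat_lit 0) (XT.lf (nat_lit 0) (nat_lit 12001390587) (nat_lit 228) (nat_lit 22598954047) (nat_lit 304) (nat_lit 18177231456) (nat_lit 23) (nat_lit 5) (nat_lit 26) (nat_lit 5) (nat_lit 27) (nat_lit 5) (nat_lit 278) (nat_lit 267) (nat_lit 175)) (XT.nd (nat_lit 78) (nat_lit 152) (nat_lit 0) (XT.lf (nat_lit 0) (nat_lit 36361327382) (nat_lit 228) (nat_lit 4716372099) (nat_lit 304) (nat_lit 14291380086) (nat_lit 23) (nat_lit 5) (nat_lit 26) (nat_lit 5) (nat_lit 27) (nat_lit 5) (nat_lit 279) (nat_lit 267) (nat_lit 174)) (XT.lf (nat_lit 0) (nat_lit 4366753167) (nat_lit 152) (nat_lit 44160114539) (nat_lit 228) (nat_lit 9604761759) (nat_lit 21) (nat_lit 5) (nat_lit 23) (nat_lit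 5) (nat_lit 24) (nat_lit 5) (nat_lit 280) (nat_lit 267) (nat_lit 173))))))))
noncomputable def xc96 : XT := (XT.nd (nat_lit 1794) (nat_lit 380) (nat_lit 0) (XT.nd (nat_lit 858) (nat_lit 380) (nat_lit 0) (XT.nd (nat_lit 390) (nat_lit 304) (nat_lit 0) (XT.nd (nat_lit 156) (nat_lit 380) (nat_lit 0) (XT.nd (nat_lit 78) (nat_lit 76) (nat_lit 0) (XT.lf (nat_lit 0) (nat_lit 30560531834) (nat_lit 152) (nat_lit 26648211693) (nat_lit 228) (nat_lit 3855512847) (nat_lit 21) (nat_lit 5) (nat_lit 23) (nat_lit 5) (nat_lit 24) (nat_lit 5) (nat_lit 281) (nat_lit 267) (nat_lit 172)) (XT.lf (nat_lit 0) (nat_lit 2233705826) (nat_lit 228) (nat_lit 5440936144) (nat_lit 76) (nat_lit 56552514184) (nat_lit 20) (nat_lit 5) (nat_lit 23) (nat_lit 5) (nat_lit 21) (nat_lit 5) (nat_lit 282) (nat_lit 267) (nat_lit 171))) (XT.nd (nat_lit 78) (nat_lit 152) (nat_lit 0) (XT.lf (nat_lit 0) (nat_lit 9469608200) (nat_lit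 304) (nat_lit 45258940951) (nat_lit 76) (nat_lit 12837111654) (nat_lit 17) (nat_lit 5) (nat_lit 21) (nat_lit 5) (nat_lit 18) (nat_lit 5) (nat_lit 283) (nat_lit 267) (nat_lit 170)) (XT.nd (nat_lit 78) (nat_lit 152) (nat_lit 0) (XT.lf (nat_lit 0) (nat_lit 17634373667) (nat_lit 304) (nat_lit 18781480358) (nat_lit 76) (nat_lit 34727403519) (nat_lit 17) (nat_lit 5) (nat_lit 21) (nat_lit 5) (nat_lit 18) (nat_lit 5) (nat_lit 284) (nat_lit 267) (nat_lit 169)) (XT.lf (nat_lit 0) (nat_lit 10328489262) (nat_lit 152) (nat_lit 16370398835) (nat_lit 228) (nat_lit 48288458679) (nat_lit 15) (nat_lit 5) (nat_lit 17) (nat_lit 5) (nat_lit 18) (nat_lit 5) (nat_lit 285) (nat_lit 267) (nat_lit 168))))) (XT.nd (nat_lit 234) (nat_lit 152) (nat_lit 0) (XT.nd (nat_lit 78) (nat_lit 152) (nat_lit 0) (XT.lf (nat_lit 0) (nat_lit 37140608015) (nat_lit 228) (nat_lit 36405233918) (nat_lit 76) (nat_lit 5540967087)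 (nat_lit 15) (nat_lit 5) (nat_lit 18) (nat_lit 5) (nat_lit 16) (nat_lit 5) (nat_lit 286) (nat_lit 267) (nat_lit 167)) (XT.nd (nat_lit 78) (nat_lit 152) (nat_lit 0) (XT.lf (nat_lit 0) (nat_lit 48841236000) (nat_lit 228) (nat_lit 6318782383) (nat_lit 76) (nat_lit 28320332946) (nat_lit 15) (nat_lit 5) (nat_lit 18) (nat_lit 5) (nat_lit 16) (nat_lit 5) (nat_lit 287) (nat_lit 267) (nat_lit 166)) (XT.lf (nat_lit 0) (nat_lit 27550692899) (nat_lit 152) (nat_lit 34588302549) (nat_lit 228) (nat_lit 26033503155) (nat_lit 13) (nat_lit 5) (nat_lit 15) (nat_lit 5) (nat_lit 16) (nat_lit 5) (nat_lit 288) (nat_lit 267) (nat_lit 165)))) (XT.nd (nat_lit 78) (nat_lit 152) (nat_lit 0) (XT.lf (nat_lit 0) (nat_lit 64487044244) (nat_lit 152) (nat_lit 12184847647) (nat_lit 228) (nat_lit 16554427943) (nat_lit 13) (nat_lit 5) (nat_lit 15) (nat_lit 5) (nat_lit 16) (nat_lit 5) (nat_lit 289) (nat_lit 267) (nat_lit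 164)) (XT.nd (nat_lit 78) (nat_lit 76) (nat_lit 0) (XT.lf (nat_lit 0) (nat_lit 5687520545) (nat_lit 76) (nat_lit 87104190473) (nat_lit 152) (nat_lit 5858799395) (nat_lit 12) (nat_lit 5) (nat_lit 13) (nat_lit 5) (nat_lit 14) (nat_lit 4) (nat_lit 290) (nat_lit 267) (nat_lit 163)) (XT.lf (nat_lit 0) (nat_lit 6529058650) (nat_lit 152) (nat_lit 60418702395) (nat_lit 76) (nat_lit 37460221580) (nat_lit 11) (nat_lit 5) (nat_lit 13) (nat_lit 5) (nat_lit 12) (nat_lit 5) (nat_lit 291) (nat_lit 267) (nat_lit 162)))))) (XT.nd (nat_lit 468) (nat_lit 152) (nat_lit 0) (XT.nd (nat_lit 234) (nat_lit 76) (nat_lit 0) (XT.nd (nat_lit 78) (nat_lit 152) (nat_lit 0) (XT.lf (nat_lit 0) (nat_lit 19590175288) (nat_lit 152) (nat_lit 25424912846) (nat_lit 76) (nat_lit 65598895265) (nat_lit 11) (nat_lit 5) (nat_lit 13) (nat_lit 5) (nat_lit 12) (nat_lit 5) (nat_lit 292) (nat_lit 267) (nat_lit 161)) (XT.nd (nat_lit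 78) (nat_lit 0) (nat_lit 0) (XT.lf (nat_lit 0) (nat_lit 13017859715) (nat_lit 152) (nat_lit 20990250723) (nat_lit 228) (nat_lit 83283404550) (nat_lit 9) (nat_lit 5) (nat_lit 11) (nat_lit 5) (nat_lit 12) (nat_lit 5) (nat_lit 293) (nat_lit 267) (nat_lit 160)) (XT.lf (nat_lit 0) (nat_lit 50410784699) (nat_lit 228) (nat_lit 68604668435) (nat_lit 76) (nat_lit 5421296340) (nat_lit 9) (nat_lit 5) (nat_lit 12) (nat_lit 5) (nat_lit 10) (nat_lit 4) (nat_lit 294) (nat_lit 267) (nat_lit 159)))) (XT.nd (nat_lit 78) (nat_lit 76) (nat_lit 0) (XT.lf (nat_lit 0) (nat_lit 68669837408) (nat_lit 228) (nat_lit 30628995292) (nat_lit 76) (nat_lit 32811241223) (nat_lit 9) (nat_lit 5) (nat_lit 12) (nat_lit 5) (nat_lit 10) (nat_lit 4) (nat_lit 295) (nat_lit 267) (nat_lit 158)) (XT.nd (nat_lit 78) (nat_lit 0) (nat_lit 0) (XT.lf (nat_lit 0) (nat_lit 10929983245) (nat_lit 76) (nat_lit 77721537438) (nat_lit 152)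 (nat_lit 51724795176) (nat_lit 8) (nat_lit 5) (nat_lit 9) (nat_lit 5) (nat_lit 10) (nat_lit 4) (nat_lit 296) (nat_lit 267) (nat_lit 157)) (XT.lf (nat_lit 0) (nat_lit 57554105922) (nat_lit 76) (nat_lit 53514159404) (nat_lit 152) (nat_lit 38168673427) (nat_lit 8) (nat_lit 5) (nat_lit 9) (nat_lit 5) (nat_lit 10) (nat_lit 4) (nat_lit 297) (nat_lit 267) (nat_lit 156))))) (XT.nd (nat_lit 234) (nat_lit 0) (nat_lit 0) (XT.nd (nat_lit 78) (nat_lit 152) (nat_lit 0) (XT.lf (nat_lit 0) (nat_lit 107906795224) (nat_lit 76) (nat_lit 27370698480) (nat_lit 152) (nat_lit 23528989708) (nat_lit 8) (nat_lit 5) (nat_lit 9) (nat_lit 5) (nat_lit 10) (nat_lit 4) (nat_lit 298) (nat_lit 267) (nat_lit 155)) (XT.nd (nat_lit 78) (nat_lit 152) (nat_lit 0) (XT.lf (nat_lit 0) (nat_lit 161443441588) (nat_lit 152) (nat_lit 6875994467) (nat_lit 0) (nat_lit 820560295) (nat_lit 8) (nat_lit 5) (nat_lit 10) (nat_lit 4)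 (nat_lit 8) (nat_lit 4) (nat_lit 299) (nat_lit 267) (nat_lit 154)) (XT.lf (nat_lit 0) (nat_lit 10698607400) (nat_lit 152) (nat_lit 138371767023) (nat_lit 76) (nat_lit 31070409686) (nat_lit 6) (nat_lit 5) (nat_lit 8) (nat_lit 5) (nat_lit 7) (nat_lit 4) (nat_lit 300) (nat_lit 267) (nat_lit 153)))) (XT.nd (nat_lit 78) (nat_lit 0) (nat_lit 0) (XT.lf (nat_lit 0) (nat_lit 30341714782) (nat_lit 152) (nat_lit 97515945450) (nat_lit 76) (nat_lit 64132612673) (nat_lit 6) (nat_lit 5) (nat_lit 8) (nat_lit 5) (nat_lit 7) (nat_lit 4) (nat_lit 301) (nat_lit 267) (nat_lit 152)) (XT.nd (nat_lit 78) (nat_lit 0) (nat_lit 0) (XT.lf (nat_lit 0) (nat_lit 51555586562) (nat_lit 152) (nat_lit 53392797500) (nat_lit 76) (nat_lit 99839393834) (nat_lit 6) (nat_lit 5) (nat_lit 8) (nat_lit 5) (nat_lit 7) (nat_lit 4) (nat_lit 302) (nat_lit 267) (nat_lit 151)) (XT.lf (nat_lit 0) (nat_lit 74465934574) (nat_lit 152)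 (nat_lit 5740852667) (nat_lit 76) (nat_lit 138402348911) (nat_lit 6) (nat_lit 5) (nat_lit 8) (nat_lit 5) (nat_lit 7) (nat_lit 4) (nat_lit 303) (nat_lit 267) (nat_lit 150))))))) (XT.nd (nat_lit 936) (nat_lit 76) (nat_lit 0) (XT.nd (nat_lit 468) (nat_lit 152) (nat_lit 0) (XT.nd (nat_lit 234) (nat_lit 76) (nat_lit 0) (XT.nd (nat_lit 78) (nat_lit 0) (nat_lit 0) (XT.lf (nat_lit 0) (nat_lit 48129924706) (nat_lit 76) (nat_lit 52236124983) (nat_lit 152) (nat_lit 133077600259) (nat_lit 5) (nat_lit 5) (nat_lit 6) (nat_lit 5) (nat_lit 7) (nat_lit 4) (nat_lit 304) (nat_lit 267) (nat_lit 149)) (XT.nd (nat_lit 78) (nat_lit 0) (nat_lit 0) (XT.lf (nat_lit 0) (nat_lit 106635899569) (nat_lit 76) (nat_lit 21858673498) (nat_lit 152) (nat_lit 120957841727) (nat_lit 5) (nat_lit 5) (nat_lit 6) (nat_lit 5) (nat_lit 7) (nat_lit 4) (nat_lit 305) (nat_lit 267) (nat_lit 148)) (XT.lf (nat_lit 0) (nat_lit 159136168708)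 (nat_lit 152) (nat_lit 97183768116) (nat_lit 0) (nat_lit 10400922506) (nat_lit 5) (nat_lit 5) (nat_lit 7) (nat_lit 4) (nat_lit 5) (nat_lit 4) (nat_lit 306) (nat_lit 267) (nat_lit 147)))) (XT.nd (nat_lit 78) (nat_lit 76) (nat_lit 0) (XT.lf (nat_lit 0) (nat_lit 192796356512) (nat_lit 152) (nat_lit 48469007712) (nat_lit 0) (nat_lit 44060035648) (nat_lit 5) (nat_lit 5) (nat_lit 7) (nat_lit 4) (nat_lit 5) (nat_lit 4) (nat_lit 307) (nat_lit 267) (nat_lit 146)) (XT.nd (nat_lit 78) (nat_lit 0) (nat_lit 0) (XT.lf (nat_lit 0) (nat_lit 4360265827) (nat_lit 76) (nat_lit 224893501306) (nat_lit 76) (nat_lit 76156185385) (nat_lit 4) (nat_lit 4) (nat_lit 5) (nat_lit 5) (nat_lit 5) (nat_lit 4) (nat_lit 308) (nat_lit 267) (nat_lit 145)) (XT.lf (nat_lit 0) (nat_lit 64171590709) (nat_lit 76) (nat_lit 205780967167) (nat_lit 76) (nat_lit 57042729896) (nat_lit 4) (nat_lit 4) (nat_lit 5) (nat_lit 5) (nat_lit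 5) (nat_lit 4) (nat_lit 309) (nat_lit 267) (nat_lit 144))))) (XT.nd (nat_lit 234) (nat_lit 76) (nat_lit 0) (XT.nd (nat_lit 78) (nat_lit 76) (nat_lit 0) (XT.lf (nat_lit 0) (nat_lit 128767112362) (nat_lit 76) (nat_lit 185139730909) (nat_lit 76) (nat_lit 36400640537) (nat_lit 4) (nat_lit 4) (nat_lit 5) (nat_lit 5) (nat_lit 5) (nat_lit 4) (nat_lit 310) (nat_lit 267) (nat_lit 143)) (XT.nd (nat_lit 78) (nat_lit 76) (nat_lit 0) (XT.lf (nat_lit 0) (nat_lit 198529619061) (nat_lit 76) (nat_lit 162847474096) (nat_lit 76) (nat_lit 14107593815) (nat_lit 4) (nat_lit 4) (nat_lit 5) (nat_lit 5) (nat_lit 5) (nat_lit 4) (nat_lit 311) (nat_lit 267) (nat_lit 142)) (XT.lf (nat_lit 0) (nat_lit 9469851608) (nat_lit 152) (nat_lit 129043320331) (nat_lit 76) (nat_lit 264143744121) (nat_lit 3) (nat_lit 5) (nat_lit 5) (nat_lit 5) (nat_lit 4) (nat_lit 4) (nat_lit 312) (nat_lit 267) (nat_lit 141)))) (XT.nd (nat_lit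 78) (nat_lit 76) (nat_lit 0) (XT.lf (nat_lit 0) (nat_lit 34170982418) (nat_lit 152) (nat_lit 77665645465) (nat_lit 76) (nat_lit 320137008748) (nat_lit 3) (nat_lit 5) (nat_lit 5) (nat_lit 5) (nat_lit 4) (nat_lit 4) (nat_lit 313) (nat_lit 267) (nat_lit 140)) (XT.nd (nat_lit 78) (nat_lit 76) (nat_lit 0) (XT.lf (nat_lit 0) (nat_lit 60847894665) (nat_lit 152) (nat_lit 22178295047) (nat_lit 76) (nat_lit 380609530726) (nat_lit 3) (nat_lit 5) (nat_lit 5) (nat_lit 5) (nat_lit 4) (nat_lit 4) (nat_lit 314) (nat_lit 267) (nat_lit 139)) (XT.lf (nat_lit 0) (nat_lit 39735263667) (nat_lit 76) (nat_lit 50879044132) (nat_lit 152) (nat_lit 407140036118) (nat_lit 2) (nat_lit 5) (nat_lit 3) (nat_lit 5) (nat_lit 4) (nat_lit 4) (nat_lit 315) (nat_lit 267) (nat_lit 138)))))) (XT.nd (nat_lit 468) (nat_lit 76) (nat_lit 0) (XT.nd (nat_lit 234) (nat_lit 0) (nat_lit 0) (XT.nd (nat_lit 78) (nat_lit 0) (nat_lit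 0) (XT.lf (nat_lit 0) (nat_lit 107862720439) (nat_lit 76) (nat_lit 15505430808) (nat_lit 152) (nat_lit 411185817392) (nat_lit 2) (nat_lit 5) (nat_lit 3) (nat_lit 5) (nat_lit 4) (nat_lit 4) (nat_lit 316) (nat_lit 267) (nat_lit 137)) (XT.nd (nat_lit 78) (nat_lit 0) (nat_lit 0) (XT.lf (nat_lit 0) (nat_lit 159287930539) (nat_lit 152) (nat_lit 393403545207) (nat_lit 0) (nat_lit 21562438009) (nat_lit 2) (nat_lit 5) (nat_lit 4) (nat_lit 4) (nat_lit 2) (nat_lit 4) (nat_lit 317) (nat_lit 267) (nat_lit 136)) (XT.lf (nat_lit 0) (nat_lit 198483789157) (nat_lit 152) (nat_lit 357855996340) (nat_lit 0) (nat_lit 60757869864) (nat_lit 2) (nat_lit 5) (nat_lit 4) (nat_lit 4) (nat_lit 2) (nat_lit 4) (nat_lit 318) (nat_lit 267) (nat_lit 135)))) (XT.nd (nat_lit 78) (nat_lit 0) (nat_lit 0) (XT.lf (nat_lit 0) (nat_lit 240815092871) (nat_lit 152) (nat_lit 319465043474) (nat_lit 0) (nat_lit 103088778427) (nat_lit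 2) (nat_lit 5) (nat_lit 4) (nat_lit 4) (nat_lit 2) (nat_lit 4) (nat_lit 319) (nat_lit 267) (nat_lit 134)) (XT.nd (nat_lit 78) (nat_lit 0) (nat_lit 0) (XT.lf (nat_lit 0) (nat_lit 286532693852) (nat_lit 152) (nat_lit 278003184665) (nat_lit 0) (nat_lit 148806013527) (nat_lit 2) (nat_lit 5) (nat_lit 4) (nat_lit 4) (nat_lit 2) (nat_lit 4) (nat_lit 320) (nat_lit 267) (nat_lit 133)) (XT.lf (nat_lit 0) (nat_lit 335907511216) (nat_lit 152) (nat_lit 233224720010) (nat_lit 0) (nat_lit 198180492114) (nat_lit 2) (nat_lit 5) (nat_lit 4) (nat_lit 4) (nat_lit 2) (nat_lit 4) (nat_lit 321) (nat_lit 267) (nat_lit 132))))) (XT.nd (nat_lit 234) (nat_lit 76) (nat_lit 0) (XT.nd (nat_lit 78) (nat_lit 0) (nat_lit 0) (XT.lf (nat_lit 0) (nat_lit 389232136475) (nat_lit 152) (nat_lit 184864295644) (nat_lit 0) (nat_lit 251504803688) (nat_lit 2) (nat_lit 5) (nat_lit 4) (nat_lit 4) (nat_lit 2) (nat_lit 4) (nat_lit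 322) (nat_lit 267) (nat_lit 131)) (XT.nd (nat_lit 78) (nat_lit 0) (nat_lit 0) (XT.lf (nat_lit 0) (nat_lit 446822567406) (nat_lit 152) (nat_lit 132635331275) (nat_lit 0) (nat_lit 309094944172) (nat_lit 2) (nat_lit 5) (nat_lit 4) (nat_lit 4) (nat_lit 2) (nat_lit 4) (nat_lit 323) (nat_lit 267) (nat_lit 130)) (XT.lf (nat_lit 0) (nat_lit 509020080639) (nat_lit 152) (nat_lit 76228321928) (nat_lit 0) (nat_lit 371292188472) (nat_lit 2) (nat_lit 5) (nat_lit 4) (nat_lit 4) (nat_lit 2) (nat_lit 4) (nat_lit 324) (nat_lit 267) (nat_lit 129)))) (XT.nd (nat_lit 78) (nat_lit 76) (nat_lit 0) (XT.lf (nat_lit 0) (nat_lit 576193254029) (nat_lit 152) (nat_lit 15309003844) (nat_lit 0) (nat_lit 438465112850) (nat_lit 2) (nat_lit 5) (nat_lit 4) (nat_lit 4) (nat_lit 2) (nat_lit 4) (nat_lit 325) (nat_lit 267) (nat_lit 128)) (XT.nd (nat_lit 78) (nat_lit 0) (nat_lit 0) (XT.lf (nat_lit 0) (nat_lit 53142004640)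 (nat_lit 76) (nat_lit 596876212674) (nat_lit 76) (nat_lit 459147840928) (nat_lit 1) (nat_lit 4) (nat_lit 2) (nat_lit 5) (nat_lit 2) (nat_lit 4) (nat_lit 326) (nat_lit 267) (nat_lit 127)) (XT.lf (nat_lit 0) (nat_lit 127939502982) (nat_lit 76) (nat_lit 602228123707) (nat_lit 76) (nat_lit 464499538473) (nat_lit 1) (nat_lit 4) (nat_lit 2) (nat_lit 5) (nat_lit 2) (nat_lit 4) (nat_lit 327) (nat_lit 267) (nat_lit 126))))))))
noncomputable def xc97 : XT := (XT.nd (nat_lit 34398) (nat_lit 0) (nat_lit 228) (XT.nd (nat_lit 33462) (nat_lit 0) (nat_lit 1064) (XT.nd (nat_lit 32994) (nat_lit 0) (nat_lit 2204) (XT.nd (nat_lit 234) (nat_lit 0) (nat_lit 0) (XT.nd (nat_lit 78) (nat_lit 0) (nat_lit 0) (XT.lf (nat_lit 0) (nat_lit 208720590602) (nat_lit 76) (nat_lit 608008281294) (nat_lit 76) (nat_lit 470279498387) (nat_lit 1) (nat_lit 4) (nat_lit 2) (nat_lit 5) (nat_lit 2) (nat_lit 4) (nat_lit 328) (nat_lit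 267) (nat_lit 125)) (XT.nd (nat_lit 78) (nat_lit 0) (nat_lit 0) (XT.lf (nat_lit 0) (nat_lit 295963970242) (nat_lit 76) (nat_lit 614250938222) (nat_lit 76) (nat_lit 476521972284) (nat_lit 1) (nat_lit 4) (nat_lit 2) (nat_lit 5) (nat_lit 2) (nat_lit 4) (nat_lit 329) (nat_lit 267) (nat_lit 124)) (XT.lf (nat_lit 0) (nat_lit 390186639706) (nat_lit 76) (nat_lit 620993088014) (nat_lit 76) (nat_lit 483263952601) (nat_lit 1) (nat_lit 4) (nat_lit 2) (nat_lit 5) (nat_lit 2) (nat_lit 4) (nat_lit 330) (nat_lit 267) (nat_lit 123)))) (XT.nd (nat_lit 32604) (nat_lit 0) (nat_lit 2128) (XT.lf (nat_lit 0) (nat_lit 491946955556) (nat_lit 76) (nat_lit 628274684148) (nat_lit 76) (nat_lit 490545391816) (nat_lit 1) (nat_lit 4) (nat_lit 2) (nat_lit 5) (nat_lit 2) (nat_lit 4) (nat_lit 331) (nat_lit 267) (nat_lit 122)) (XT.nd (nat_lit 78) (nat_lit 0) (nat_lit 0) (XT.lf (nat_lit 0) (nat_lit 2901191901) (nat_lit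 532) (nat_lit 7436798042) (nat_lit 532) (nat_lit 7436798042) (nat_lit 29) (nat_lit 3) (nat_lit 36) (nat_lit 3) (nat_lit 36) (nat_lit 5) (nat_lit 268) (nat_lit 268) (nat_lit 184)) (XT.lf (nat_lit 0) (nat_lit 6079815182) (nat_lit 532) (nat_lit 460809756) (nat_lit 532) (nat_lit 30426984616) (nat_lit 29) (nat_lit 3) (nat_lit 36) (nat_lit 3) (nat_lit 36) (nat_lit 5) (nat_lit 269) (nat_lit 268) (nat_lit 183))))) (XT.nd (nat_lit 234) (nat_lit 0) (nat_lit 76) (XT.nd (nat_lit 78) (nat_lit 0) (nat_lit 0) (XT.lf (nat_lit 0) (nat_lit 6977078581) (nat_lit 456) (nat_lit 22790917511) (nat_lit 532) (nat_lit 8683311004) (nat_lit 30) (nat_lit 5) (nat_lit 36) (nat_lit 5) (nat_lit 37) (nat_lit 5) (nat_lit 270) (nat_lit 268) (nat_lit 182)) (XT.nd (nat_lit 78) (nat_lit 0) (nat_lit 76) (XT.lf (nat_lit 0) (nat_lit 8124723034) (nat_lit 456) (nat_lit 7128232711) (nat_lit 532) (nat_lit 24786486579) (nat_lit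 30) (nat_lit 5) (nat_lit 36) (nat_lit 5) (nat_lit 37) (nat_lit 5) (nat_lit 271) (nat_lit 268) (nat_lit 181)) (XT.lf (nat_lit 0) (nat_lit 9624641413) (nat_lit 456) (nat_lit 31451685311) (nat_lit 532) (nat_lit 657492325) (nat_lit 31) (nat_lit 5) (nat_lit 37) (nat_lit 5) (nat_lit 38) (nat_lit 5) (nat_lit 272) (nat_lit 268) (nat_lit 180)))) (XT.nd (nat_lit 78) (nat_lit 0) (nat_lit 0) (XT.lf (nat_lit 0) (nat_lit 11837048788) (nat_lit 456) (nat_lit 14461568550) (nat_lit 532) (nat_lit 17217754552) (nat_lit 31) (nat_lit 5) (nat_lit 37) (nat_lit 5) (nat_lit 38) (nat_lit 5) (nat_lit 273) (nat_lit 268) (nat_lit 179)) (XT.nd (nat_lit 78) (nat_lit 0) (nat_lit 76) (XT.lf (nat_lit 76) (nat_lit 4089663173) (nat_lit 0) (nat_lit 10231766193) (nat_lit 532) (nat_lit 31112524865) (nat_lit 32) (nat_lit 5) (nat_lit 31) (nat_lit 5) (nat_lit 38) (nat_lit 5) (nat_lit 274) (nat_lit 268) (nat_lit 178)) (XT.lf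 (nat_lit 0) (nat_lit 17578307560) (nat_lit 456) (nat_lit 22710291113) (nat_lit 76) (nat_lit 7170466677) (nat_lit 32) (nat_lit 5) (nat_lit 38) (nat_lit 5) (nat_lit 33) (nat_lit 5) (nat_lit 275) (nat_lit 268) (nat_lit 177)))))) (XT.nd (nat_lit 468) (nat_lit 456) (nat_lit 0) (XT.nd (nat_lit 234) (nat_lit 380) (nat_lit 0) (XT.nd (nat_lit 78) (nat_lit 456) (nat_lit 0) (XT.lf (nat_lit 0) (nat_lit 21358556737) (nat_lit 456) (nat_lit 2854015737) (nat_lit 76) (nat_lit 25412607563) (nat_lit 32) (nat_lit 5) (nat_lit 38) (nat_lit 5) (nat_lit 33) (nat_lit 5) (nat_lit 276) (nat_lit 268) (nat_lit 176)) (XT.nd (nat_lit 78) (nat_lit 0) (nat_lit 0) (XT.lf (nat_lit 0) (nat_lit 19567101788) (nat_lit 456) (nat_lit 6341991632) (nat_lit 532) (nat_lit 26018079905) (nat_lit 26) (nat_lit 5) (nat_lit 32) (nat_lit 5) (nat_lit 33) (nat_lit 5) (nat_lit 277) (nat_lit 268) (nat_lit 175)) (XT.lf (nat_lit 0) (nat_lit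 31212805011) (nat_lit 532) (nat_lit 10779187064) (nat_lit 76) (nat_lit 12390220879) (nat_lit 26) (nat_lit 5) (nat_lit 33) (nat_lit 5) (nat_lit 27) (nat_lit 5) (nat_lit 278) (nat_lit 268) (nat_lit 174)))) (XT.nd (nat_lit 78) (nat_lit 152) (nat_lit 0) (XT.lf (nat_lit 0) (nat_lit 13011895018) (nat_lit 228) (nat_lit 24404198058) (nat_lit 304) (nat_lit 19579556459) (nat_lit 23) (nat_lit 5) (nat_lit 26) (nat_lit 5) (nat_lit 27) (nat_lit 5) (nat_lit 279) (nat_lit 268) (nat_lit 173)) (XT.nd (nat_lit 78) (nat_lit 152) (nat_lit 0) (XT.lf (nat_lit 0) (nat_lit 39316893927) (nat_lit 228) (nat_lit 5091207503) (nat_lit 304) (nat_lit 15386677980) (nat_lit 23) (nat_lit 5) (nat_lit 26) (nat_lit 5) (nat_lit 27) (nat_lit 5) (nat_lit 280) (nat_lit 268) (nat_lit 172)) (XT.lf (nat_lit 0) (nat_lit 4765244146) (nat_lit 152) (nat_lit 47685923108) (nat_lit 228) (nat_lit 10327350519) (nat_lit 21) (nat_lit 5)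 (nat_lit 23) (nat_lit 5) (nat_lit 24) (nat_lit 5) (nat_lit 281) (nat_lit 268) (nat_lit 171))))) (XT.nd (nat_lit 234) (nat_lit 152) (nat_lit 0) (XT.nd (nat_lit 78) (nat_lit 304) (nat_lit 0) (XT.lf (nat_lit 0) (nat_lit 33050884312) (nat_lit 152) (nat_lit 28773586597) (nat_lit 228) (nat_lit 4121553708) (nat_lit 21) (nat_lit 5) (nat_lit 23) (nat_lit 5) (nat_lit 24) (nat_lit 5) (nat_lit 282) (nat_lit 268) (nat_lit 170)) (XT.nd (nat_lit 78) (nat_lit 228) (nat_lit 0) (XT.lf (nat_lit 0) (nat_lit 2449697792) (nat_lit 228) (nat_lit 5831893930) (nat_lit 76) (nat_lit 61080538919) (nat_lit 20) (nat_lit 5) (nat_lit 23) (nat_lit 5) (nat_lit 21) (nat_lit 5) (nat_lit 283) (nat_lit 268) (nat_lit 169)) (XT.lf (nat_lit 0) (nat_lit 10262931914) (nat_lit 304) (nat_lit 48833600194) (nat_lit 76) (nat_lit 13871322671) (nat_lit 17) (nat_lit 5) (nat_lit 21) (nat_lit 5) (nat_lit 18) (nat_lit 5) (nat_lit 284)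 (nat_lit 268) (nat_lit 168)))) (XT.nd (nat_lit 78) (nat_lit 152) (nat_lit 0) (XT.lf (nat_lit 0) (nat_lit 19078230095) (nat_lit 304) (nat_lit 20241354311) (nat_lit 76) (nat_lit 37512301434) (nat_lit 17) (nat_lit 5) (nat_lit 21) (nat_lit 5) (nat_lit 18) (nat_lit 5) (nat_lit 285) (nat_lit 268) (nat_lit 167)) (XT.nd (nat_lit 78) (nat_lit 0) (nat_lit 0) (XT.lf (nat_lit 0) (nat_lit 11196333272) (nat_lit 152) (nat_lit 17670119709) (nat_lit 228) (nat_lit 52117179061) (nat_lit 15) (nat_lit 5) (nat_lit 17) (nat_lit 5) (nat_lit 18) (nat_lit 5) (nat_lit 286) (nat_lit 268) (nat_lit 166)) (XT.lf (nat_lit 0) (nat_lit 40141386468) (nat_lit 228) (nat_lit 39276885053) (nat_lit 76) (nat_lit 5992962272) (nat_lit 15) (nat_lit 5) (nat_lit 18) (nat_lit 5) (nat_lit 16) (nat_lit 5) (nat_lit 287) (nat_lit 268) (nat_lit 165))))))) (XT.nd (nat_lit 936) (nat_lit 304) (nat_lit 0) (XT.nd (nat_lit 468) (nat_lit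 228) (nat_lit 0) (XT.nd (nat_lit 234) (nat_lit 152) (nat_lit 0) (XT.nd (nat_lit 78) (nat_lit 152) (nat_lit 0) (XT.lf (nat_lit 0) (nat_lit 52775877298) (nat_lit 228) (nat_lit 6786537216) (nat_lit 76) (nat_lit 30594031635) (nat_lit 15) (nat_lit 5) (nat_lit 18) (nat_lit 5) (nat_lit 16) (nat_lit 5) (nat_lit 288) (nat_lit 268) (nat_lit 164)) (XT.nd (nat_lit 78) (nat_lit 0) (nat_lit 0) (XT.lf (nat_lit 0) (nat_lit 29791540449) (nat_lit 152) (nat_lit 37344776539) (nat_lit 228) (nat_lit 28087750263) (nat_lit 13) (nat_lit 5) (nat_lit 15) (nat_lit 5) (nat_lit 16) (nat_lit 5) (nat_lit 289) (nat_lit 268) (nat_lit 163)) (XT.lf (nat_lit 0) (nat_lit 69680074561) (nat_lit 152) (nat_lit 13149829705) (nat_lit 228) (nat_lit 17852455194) (nat_lit 13) (nat_lit 5) (nat_lit 15) (nat_lit 5) (nat_lit 16) (nat_lit 5) (nat_lit 290) (nat_lit 268) (nat_lit 162)))) (XT.nd (nat_lit 78) (nat_lit 76) (nat_lit 0) (XT.lf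 (nat_lit 0) (nat_lit 6177510317) (nat_lit 76) (nat_lit 94061061318) (nat_lit 152) (nat_lit 6301981897) (nat_lit 12) (nat_lit 5) (nat_lit 13) (nat_lit 5) (nat_lit 14) (nat_lit 4) (nat_lit 291) (nat_lit 268) (nat_lit 161)) (XT.nd (nat_lit 78) (nat_lit 0) (nat_lit 0) (XT.lf (nat_lit 0) (nat_lit 7073832197) (nat_lit 152) (nat_lit 65218520763) (nat_lit 76) (nat_lit 40466373075) (nat_lit 11) (nat_lit 5) (nat_lit 13) (nat_lit 5) (nat_lit 12) (nat_lit 5) (nat_lit 292) (nat_lit 268) (nat_lit 160)) (XT.lf (nat_lit 0) (nat_lit 21178175287) (nat_lit 152) (nat_lit 27427722703) (nat_lit 76) (nat_lit 70855449265) (nat_lit 11) (nat_lit 5) (nat_lit 13) (nat_lit 5) (nat_lit 12) (nat_lit 5) (nat_lit 293) (nat_lit 268) (nat_lit 159))))) (XT.nd (nat_lit 234) (nat_lit 76) (nat_lit 0) (XT.nd (nat_lit 78) (nat_lit 0) (nat_lit 0) (XT.lf (nat_lit 0) (nat_lit 14089682216) (nat_lit 152) (nat_lit 22659054303)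 (nat_lit 228) (nat_lit 89924416363) (nat_lit 9) (nat_lit 5) (nat_lit 11) (nat_lit 5) (nat_lit 12) (nat_lit 5) (nat_lit 294) (nat_lit 268) (nat_lit 158)) (XT.nd (nat_lit 78) (nat_lit 0) (nat_lit 0) (XT.lf (nat_lit 0) (nat_lit 54462376883) (nat_lit 228) (nat_lit 74063572916) (nat_lit 76) (nat_lit 5864162459) (nat_lit 9) (nat_lit 5) (nat_lit 12) (nat_lit 5) (nat_lit 10) (nat_lit 4) (nat_lit 295) (nat_lit 268) (nat_lit 157)) (XT.lf (nat_lit 0) (nat_lit 74180766445) (nat_lit 228) (nat_lit 33052028810) (nat_lit 76) (nat_lit 35444624236) (nat_lit 9) (nat_lit 5) (nat_lit 12) (nat_lit 5) (nat_lit 10) (nat_lit 4) (nat_lit 296) (nat_lit 268) (nat_lit 156)))) (XT.nd (nat_lit 78) (nat_lit 0) (nat_lit 0) (XT.lf (nat_lit 0) (nat_lit 11830977223) (nat_lit 76) (nat_lit 83929362182) (nat_lit 152) (nat_lit 55844678381) (nat_lit 8) (nat_lit 5) (nat_lit 9) (nat_lit 5) (nat_lit 10) (nat_lit 4) (nat_lit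 297) (nat_lit 268) (nat_lit 155)) (XT.nd (nat_lit 78) (nat_lit 0) (nat_lit 0) (XT.lf (nat_lit 0) (nat_lit 62183059691) (nat_lit 76) (nat_lit 57786127109) (nat_lit 152) (nat_lit 41205407664) (nat_lit 8) (nat_lit 5) (nat_lit 9) (nat_lit 5) (nat_lit 10) (nat_lit 4) (nat_lit 298) (nat_lit 268) (nat_lit 154)) (XT.lf (nat_lit 0) (nat_lit 116562140040) (nat_lit 76) (nat_lit 29551868204) (nat_lit 152) (nat_lit 25395790701) (nat_lit 8) (nat_lit 5) (nat_lit 9) (nat_lit 5) (nat_lit 10) (nat_lit 4) (nat_lit 299) (nat_lit 268) (nat_lit 153)))))) (XT.nd (nat_lit 468) (nat_lit 76) (nat_lit 0) (XT.nd (nat_lit 234) (nat_lit 76) (nat_lit 0) (XT.nd (nat_lit 78) (nat_lit 152) (nat_lit 0) (XT.lf (nat_lit 0) (nat_lit 174372360559) (nat_lit 152) (nat_lit 7404036760) (nat_lit 0) (nat_lit 893669603) (nat_lit 8) (nat_lit 5) (nat_lit 10) (nat_lit 4) (nat_lit 8) (nat_lit 4) (nat_lit 300) (nat_lit 268) (nat_lit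 152)) (XT.nd (nat_lit 78) (nat_lit 0) (nat_lit 0) (XT.lf (nat_lit 0) (nat_lit 11567844314) (nat_lit 152) (nat_lit 149419280134) (nat_lit 76) (nat_lit 33563808532) (nat_lit 6) (nat_lit 5) (nat_lit 8) (nat_lit 5) (nat_lit 7) (nat_lit 4) (nat_lit 301) (nat_lit 268) (nat_lit 151)) (XT.lf (nat_lit 0) (nat_lit 32781411522) (nat_lit 152) (nat_lit 105296639373) (nat_lit 76) (nat_lit 69270412493) (nat_lit 6) (nat_lit 5) (nat_lit 8) (nat_lit 5) (nat_lit 7) (nat_lit 4) (nat_lit 302) (nat_lit 268) (nat_lit 150)))) (XT.nd (nat_lit 78) (nat_lit 76) (nat_lit 0) (XT.lf (nat_lit 0) (nat_lit 55691477522) (nat_lit 152) (nat_lit 57645164159) (nat_lit 76) (nat_lit 107833203495) (nat_lit 6) (nat_lit 5) (nat_lit 8) (nat_lit 5) (nat_lit 7) (nat_lit 4) (nat_lit 303) (nat_lit 268) (nat_lit 149)) (XT.nd (nat_lit 78) (nat_lit 76) (nat_lit 0) (XT.lf (nat_lit 0) (nat_lit 80433805668) (nat_lit 152) (nat_lit 6182475378)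 (nat_lit 76) (nat_lit 149480701782) (nat_lit 6) (nat_lit 5) (nat_lit 8) (nat_lit 5) (nat_lit 7) (nat_lit 4) (nat_lit 304) (nat_lit 268) (nat_lit 148)) (XT.lf (nat_lit 0) (nat_lit 51997517463) (nat_lit 76) (nat_lit 56408041247) (nat_lit 152) (nat_lit 143712731425) (nat_lit 5) (nat_lit 5) (nat_lit 6) (nat_lit 5) (nat_lit 7) (nat_lit 4) (nat_lit 305) (nat_lit 268) (nat_lit 147))))) (XT.nd (nat_lit 234) (nat_lit 76) (nat_lit 0) (XT.nd (nat_lit 78) (nat_lit 0) (nat_lit 0) (XT.lf (nat_lit 0) (nat_lit 115182696332) (nat_lit 76) (nat_lit 23600910217) (nat_lit 152) (nat_lit 130624212718) (nat_lit 5) (nat_lit 5) (nat_lit 6) (nat_lit 5) (nat_lit 7) (nat_lit 4) (nat_lit 306) (nat_lit 268) (nat_lit 146)) (XT.nd (nat_lit 78) (nat_lit 0) (nat_lit 0) (XT.lf (nat_lit 0) (nat_lit 171875972325) (nat_lit 152) (nat_lit 104943137886) (nat_lit 0) (nat_lit 11238676073) (nat_lit 5) (nat_lit 5) (nat_lit 7)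 (nat_lit 4) (nat_lit 5) (nat_lit 4) (nat_lit 307) (nat_lit 268) (nat_lit 145)) (XT.lf (nat_lit 0) (nat_lit 208228315145) (nat_lit 152) (nat_lit 52332332329) (nat_lit 0) (nat_lit 47590097543) (nat_lit 5) (nat_lit 5) (nat_lit 7) (nat_lit 4) (nat_lit 5) (nat_lit 4) (nat_lit 308) (nat_lit 268) (nat_lit 144)))) (XT.nd (nat_lit 78) (nat_lit 0) (nat_lit 0) (XT.lf (nat_lit 0) (nat_lit 4722923701) (nat_lit 76) (nat_lit 242879116567) (nat_lit 76) (nat_lit 82240045864) (nat_lit 4) (nat_lit 4) (nat_lit 5) (nat_lit 5) (nat_lit 5) (nat_lit 4) (nat_lit 309) (nat_lit 268) (nat_lit 143)) (XT.nd (nat_lit 78) (nat_lit 0) (nat_lit 0) (XT.lf (nat_lit 0) (nat_lit 69318129639) (nat_lit 76) (nat_lit 222238014129) (nat_lit 76) (nat_lit 61598153518) (nat_lit 4) (nat_lit 4) (nat_lit 5) (nat_lit 5) (nat_lit 5) (nat_lit 4) (nat_lit 310) (nat_lit 268) (nat_lit 142)) (XT.lf (nat_lit 0) (nat_lit 139080344011) (nat_lit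 76) (nat_lit 199945881223) (nat_lit 76) (nat_lit 39305289215) (nat_lit 4) (nat_lit 4) (nat_lit 5) (nat_lit 5) (nat_lit 5) (nat_lit 4) (nat_lit 311) (nat_lit 268) (nat_lit 141))))))))
noncomputable def xc98 : XT := (XT.nd (nat_lit 34398) (nat_lit 0) (nat_lit 608) (XT.nd (nat_lit 858) (nat_lit 76) (nat_lit 0) (XT.nd (nat_lit 390) (nat_lit 0) (nat_lit 0) (XT.nd (nat_lit 156) (nat_lit 76) (nat_lit 0) (XT.nd (nat_lit 78) (nat_lit 76) (nat_lit 0) (XT.lf (nat_lit 0) (nat_lit 214422972531) (nat_lit 76) (nat_lit 175870616321) (nat_lit 76) (nat_lit 15229347094) (nat_lit 4) (nat_lit 4) (nat_lit 5) (nat_lit 5) (nat_lit 5) (nat_lit 4) (nat_lit 312) (nat_lit 268) (nat_lit 140)) (XT.lf (nat_lit 0) (nat_lit 10233468765) (nat_lit 152) (nat_lit 139356281249) (nat_lit 76) (nat_lit 285279220098) (nat_lit 3) (nat_lit 5) (nat_lit 5) (nat_lit 5) (nat_lit 4) (nat_lit 4) (nat_lit 313) (nat_lit 268) (nat_lit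 139))) (XT.nd (nat_lit 78) (nat_lit 76) (nat_lit 0) (XT.lf (nat_lit 0) (nat_lit 36910243445) (nat_lit 152) (nat_lit 83869170521) (nat_lit 76) (nat_lit 345751651343) (nat_lit 3) (nat_lit 5) (nat_lit 5) (nat_lit 5) (nat_lit 4) (nat_lit 4) (nat_lit 314) (nat_lit 268) (nat_lit 138)) (XT.nd (nat_lit 78) (nat_lit 76) (nat_lit 0) (XT.lf (nat_lit 0) (nat_lit 65720895158) (nat_lit 152) (nat_lit 23943552557) (nat_lit 76) (nat_lit 411061702346) (nat_lit 3) (nat_lit 5) (nat_lit 5) (nat_lit 5) (nat_lit 4) (nat_lit 4) (nat_lit 315) (nat_lit 268) (nat_lit 137)) (XT.lf (nat_lit 0) (nat_lit 42922862852) (nat_lit 76) (nat_lit 54945586722) (nat_lit 152) (nat_lit 439705828661) (nat_lit 2) (nat_lit 5) (nat_lit 3) (nat_lit 5) (nat_lit 4) (nat_lit 4) (nat_lit 316) (nat_lit 268) (nat_lit 136))))) (XT.nd (nat_lit 234) (nat_lit 0) (nat_lit 0) (XT.nd (nat_lit 78) (nat_lit 0) (nat_lit 0) (XT.lf (nat_lit 0) (nat_lit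 116499865937) (nat_lit 76) (nat_lit 16742364401) (nat_lit 152) (nat_lit 444075673202) (nat_lit 2) (nat_lit 5) (nat_lit 3) (nat_lit 5) (nat_lit 4) (nat_lit 4) (nat_lit 317) (nat_lit 268) (nat_lit 135)) (XT.nd (nat_lit 78) (nat_lit 0) (nat_lit 0) (XT.lf (nat_lit 0) (nat_lit 172035327193) (nat_lit 152) (nat_lit 424868026735) (nat_lit 0) (nat_lit 23290512443) (nat_lit 2) (nat_lit 5) (nat_lit 4) (nat_lit 4) (nat_lit 2) (nat_lit 4) (nat_lit 318) (nat_lit 268) (nat_lit 134)) (XT.lf (nat_lit 0) (nat_lit 214366531373) (nat_lit 152) (nat_lit 386477251891) (nat_lit 0) (nat_lit 65621350742) (nat_lit 2) (nat_lit 5) (nat_lit 4) (nat_lit 4) (nat_lit 2) (nat_lit 4) (nat_lit 319) (nat_lit 268) (nat_lit 133)))) (XT.nd (nat_lit 78) (nat_lit 0) (nat_lit 0) (XT.lf (nat_lit 0) (nat_lit 260084040193) (nat_lit 152) (nat_lit 345015557918) (nat_lit 0) (nat_lit 111338520784) (nat_lit 2) (nat_lit 5) (nat_lit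 4) (nat_lit 4) (nat_lit 2) (nat_lit 4) (nat_lit 320) (nat_lit 268) (nat_lit 132)) (XT.nd (nat_lit 78) (nat_lit 0) (nat_lit 0) (XT.lf (nat_lit 0) (nat_lit 309458772223) (nat_lit 152) (nat_lit 300237245889) (nat_lit 0) (nat_lit 160712939131) (nat_lit 2) (nat_lit 5) (nat_lit 4) (nat_lit 4) (nat_lit 2) (nat_lit 4) (nat_lit 321) (nat_lit 268) (nat_lit 131)) (XT.lf (nat_lit 0) (nat_lit 362783318468) (nat_lit 152) (nat_lit 251876962843) (nat_lit 0) (nat_lit 214037194928) (nat_lit 2) (nat_lit 5) (nat_lit 4) (nat_lit 4) (nat_lit 2) (nat_lit 4) (nat_lit 322) (nat_lit 268) (nat_lit 130)))))) (XT.nd (nat_lit 468) (nat_lit 0) (nat_lit 0) (XT.nd (nat_lit 234) (nat_lit 76) (nat_lit 0) (XT.nd (nat_lit 78) (nat_lit 0) (nat_lit 0) (XT.lf (nat_lit 0) (nat_lit 420373676240) (nat_lit 152) (nat_lit 199648129325) (nat_lit 0) (nat_lit 271627283766) (nat_lit 2) (nat_lit 5) (nat_lit 4) (nat_lit 4) (nat_lit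 2) (nat_lit 4) (nat_lit 323) (nat_lit 268) (nat_lit 129)) (XT.nd (nat_lit 78) (nat_lit 0) (nat_lit 0) (XT.lf (nat_lit 0) (nat_lit 482571121731) (nat_lit 152) (nat_lit 143241241137) (nat_lit 0) (nat_lit 333824480246) (nat_lit 2) (nat_lit 5) (nat_lit 4) (nat_lit 4) (nat_lit 2) (nat_lit 4) (nat_lit 324) (nat_lit 268) (nat_lit 128)) (XT.lf (nat_lit 0) (nat_lit 549744232398) (nat_lit 152) (nat_lit 82322035238) (nat_lit 0) (nat_lit 400997360346) (nat_lit 2) (nat_lit 5) (nat_lit 4) (nat_lit 4) (nat_lit 2) (nat_lit 4) (nat_lit 325) (nat_lit 268) (nat_lit 127)))) (XT.nd (nat_lit 78) (nat_lit 76) (nat_lit 0) (XT.lf (nat_lit 0) (nat_lit 622291071118) (nat_lit 152) (nat_lit 16529508926) (nat_lit 0) (nat_lit 473543985577) (nat_lit 2) (nat_lit 5) (nat_lit 4) (nat_lit 4) (nat_lit 2) (nat_lit 4) (nat_lit 326) (nat_lit 268) (nat_lit 126)) (XT.nd (nat_lit 78) (nat_lit 0) (nat_lit 0) (XT.lf (nat_lit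 0) (nat_lit 57397473523) (nat_lit 76) (nat_lit 644624482178) (nat_lit 76) (nat_lit 495877198964) (nat_lit 1) (nat_lit 4) (nat_lit 2) (nat_lit 5) (nat_lit 2) (nat_lit 4) (nat_lit 327) (nat_lit 268) (nat_lit 125)) (XT.lf (nat_lit 0) (nat_lit 138178467398) (nat_lit 76) (nat_lit 650404681464) (nat_lit 76) (nat_lit 501657215219) (nat_lit 1) (nat_lit 4) (nat_lit 2) (nat_lit 5) (nat_lit 2) (nat_lit 4) (nat_lit 328) (nat_lit 268) (nat_lit 124))))) (XT.nd (nat_lit 32838) (nat_lit 0) (nat_lit 2128) (XT.nd (nat_lit 78) (nat_lit 0) (nat_lit 0) (XT.lf (nat_lit 0) (nat_lit 225421760236) (nat_lit 76) (nat_lit 656647377002) (nat_lit 76) (nat_lit 507899741284) (nat_lit 1) (nat_lit 4) (nat_lit 2) (nat_lit 5) (nat_lit 2) (nat_lit 4) (nat_lit 329) (nat_lit 268) (nat_lit 123)) (XT.nd (nat_lit 78) (nat_lit 0) (nat_lit 0) (XT.lf (nat_lit 0) (nat_lit 319644349330) (nat_lit 76) (nat_lit 663389562544) (nat_lit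 76) (nat_lit 514641769905) (nat_lit 1) (nat_lit 4) (nat_lit 2) (nat_lit 5) (nat_lit 2) (nat_lit 4) (nat_lit 330) (nat_lit 268) (nat_lit 122)) (XT.lf (nat_lit 0) (nat_lit 421404590761) (nat_lit 76) (nat_lit 670671191780) (nat_lit 76) (nat_lit 521923253845) (nat_lit 1) (nat_lit 4) (nat_lit 2) (nat_lit 5) (nat_lit 2) (nat_lit 4) (nat_lit 331) (nat_lit 268) (nat_lit 121)))) (XT.nd (nat_lit 78) (nat_lit 0) (nat_lit 0) (XT.lf (nat_lit 0) (nat_lit 3177532948) (nat_lit 532) (nat_lit 8007691802) (nat_lit 532) (nat_lit 8007691802) (nat_lit 29) (nat_lit 3) (nat_lit 36) (nat_lit 3) (nat_lit 36) (nat_lit 5) (nat_lit 269) (nat_lit 269) (nat_lit 182)) (XT.nd (nat_lit 78) (nat_lit 0) (nat_lit 76) (XT.lf (nat_lit 0) (nat_lit 6648136870) (nat_lit 532) (nat_lit 453137344) (nat_lit 532) (nat_lit 32816606193) (nat_lit 29) (nat_lit 3) (nat_lit 36) (nat_lit 3) (nat_lit 36) (nat_lit 5) (nat_lit 270) (nat_lit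 269) (nat_lit 181)) (XT.lf (nat_lit 0) (nat_lit 7611350265) (nat_lit 456) (nat_lit 24563282835) (nat_lit 532) (nat_lit 9346150322) (nat_lit 30) (nat_lit 5) (nat_lit 36) (nat_lit 5) (nat_lit 37) (nat_lit 5) (nat_lit 271) (nat_lit 269) (nat_lit 180))))))) (XT.nd (nat_lit 936) (nat_lit 912) (nat_lit 0) (XT.nd (nat_lit 468) (nat_lit 684) (nat_lit 0) (XT.nd (nat_lit 234) (nat_lit 0) (nat_lit 76) (XT.nd (nat_lit 78) (nat_lit 0) (nat_lit 76) (XT.lf (nat_lit 0) (nat_lit 8845168838) (nat_lit 456) (nat_lit 7651354220) (nat_lit 532) (nat_lit 26739937392) (nat_lit 30) (nat_lit 5) (nat_lit 36) (nat_lit 5) (nat_lit 37) (nat_lit 5) (nat_lit 272) (nat_lit 269) (nat_lit 179)) (XT.nd (nat_lit 78) (nat_lit 0) (nat_lit 0) (XT.lf (nat_lit 0) (nat_lit 10460474942) (nat_lit 456) (nat_lit 33915614485) (nat_lit 532) (nat_lit 690703370) (nat_lit 31) (nat_lit 5) (nat_lit 37) (nat_lit 5) (nat_lit 38) (nat_lit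 5) (nat_lit 273) (nat_lit 269) (nat_lit 178)) (XT.lf (nat_lit 0) (nat_lit 12844996225) (nat_lit 456) (nat_lit 15570155468) (nat_lit 532) (nat_lit 18577222749) (nat_lit 31) (nat_lit 5) (nat_lit 37) (nat_lit 5) (nat_lit 38) (nat_lit 5) (nat_lit 274) (nat_lit 269) (nat_lit 177)))) (XT.nd (nat_lit 78) (nat_lit 0) (nat_lit 76) (XT.lf (nat_lit 76) (nat_lit 4463951032) (nat_lit 0) (nat_lit 11060792030) (nat_lit 532) (nat_lit 33538922784) (nat_lit 32) (nat_lit 5) (nat_lit 31) (nat_lit 5) (nat_lit 38) (nat_lit 5) (nat_lit 275) (nat_lit 269) (nat_lit 176)) (XT.nd (nat_lit 78) (nat_lit 0) (nat_lit 0) (XT.lf (nat_lit 0) (nat_lit 19037671418) (nat_lit 456) (nat_lit 24478622104) (nat_lit 76) (nat_lit 7734881731) (nat_lit 32) (nat_lit 5) (nat_lit 38) (nat_lit 5) (nat_lit 33) (nat_lit 5) (nat_lit 276) (nat_lit 269) (nat_lit 175)) (XT.lf (nat_lit 0) (nat_lit 23116407252) (nat_lit 456) (nat_lit 3037436719)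 (nat_lit 76) (nat_lit 27437077020) (nat_lit 32) (nat_lit 5) (nat_lit 38) (nat_lit 5) (nat_lit 33) (nat_lit 5) (nat_lit 277) (nat_lit 269) (nat_lit 174))))) (XT.nd (nat_lit 234) (nat_lit 152) (nat_lit 0) (XT.nd (nat_lit 78) (nat_lit 228) (nat_lit 0) (XT.lf (nat_lit 0) (nat_lit 21176233492) (nat_lit 456) (nat_lit 6852163968) (nat_lit 532) (nat_lit 28048908633) (nat_lit 26) (nat_lit 5) (nat_lit 32) (nat_lit 5) (nat_lit 33) (nat_lit 5) (nat_lit 278) (nat_lit 269) (nat_lit 173)) (XT.nd (nat_lit 78) (nat_lit 228) (nat_lit 0) (XT.lf (nat_lit 0) (nat_lit 33752893221) (nat_lit 532) (nat_lit 11597195814) (nat_lit 76) (nat_lit 13378964209) (nat_lit 26) (nat_lit 5) (nat_lit 33) (nat_lit 5) (nat_lit 27) (nat_lit 5) (nat_lit 279) (nat_lit 269) (nat_lit 172)) (XT.lf (nat_lit 0) (nat_lit 14096050651) (nat_lit 228) (nat_lit 26354242825) (nat_lit 304) (nat_lit 21101464946) (nat_lit 23) (nat_lit 5)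 (nat_lit 26) (nat_lit 5) (nat_lit 27) (nat_lit 5) (nat_lit 280) (nat_lit 269) (nat_lit 171)))) (XT.nd (nat_lit 78) (nat_lit 152) (nat_lit 0) (XT.lf (nat_lit 0) (nat_lit 42502249175) (nat_lit 228) (nat_lit 5496382735) (nat_lit 304) (nat_lit 16576449228) (nat_lit 23) (nat_lit 5) (nat_lit 26) (nat_lit 5) (nat_lit 27) (nat_lit 5) (nat_lit 281) (nat_lit 269) (nat_lit 170)) (XT.nd (nat_lit 78) (nat_lit 0) (nat_lit 0) (XT.lf (nat_lit 0) (nat_lit 5188602503) (nat_lit 152) (nat_lit 51494795076) (nat_lit 228) (nat_lit 11114279147) (nat_lit 21) (nat_lit 5) (nat_lit 23) (nat_lit 5) (nat_lit 24) (nat_lit 5) (nat_lit 282) (nat_lit 269) (nat_lit 169)) (XT.lf (nat_lit 0) (nat_lit 35733972487) (nat_lit 152) (nat_lit 31069916227) (nat_lit 228) (nat_lit 4414926695) (nat_lit 21) (nat_lit 5) (nat_lit 23) (nat_lit 5) (nat_lit 24) (nat_lit 5) (nat_lit 283) (nat_lit 269) (nat_lit 168)))))) (XT.nd (nat_lit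 468) (nat_lit 456) (nat_lit 0) (XT.nd (nat_lit 234) (nat_lit 152) (nat_lit 0) (XT.nd (nat_lit 78) (nat_lit 228) (nat_lit 0) (XT.lf (nat_lit 0) (nat_lit 2677648494) (nat_lit 228) (nat_lit 6260450670) (nat_lit 76) (nat_lit 65970260154) (nat_lit 20) (nat_lit 5) (nat_lit 23) (nat_lit 5) (nat_lit 21) (nat_lit 5) (nat_lit 284) (nat_lit 269) (nat_lit 167)) (XT.nd (nat_lit 78) (nat_lit 0) (nat_lit 0) (XT.lf (nat_lit 0) (nat_lit 11114620666) (nat_lit 304) (nat_lit 52700802584) (nat_lit 76) (nat_lit 14987237404) (nat_lit 17) (nat_lit 5) (nat_lit 21) (nat_lit 5) (nat_lit 18) (nat_lit 5) (nat_lit 285) (nat_lit 269) (nat_lit 166)) (XT.lf (nat_lit 0) (nat_lit 20632872021) (nat_lit 304) (nat_lit 21824101891) (nat_lit 76) (nat_lit 40519034548) (nat_lit 17) (nat_lit 5) (nat_lit 21) (nat_lit 5) (nat_lit 18) (nat_lit 5) (nat_lit 286) (nat_lit 269) (nat_lit 165)))) (XT.nd (nat_lit 78) (nat_lit 0) (nat_lit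 0) (XT.lf (nat_lit 0) (nat_lit 12127675109) (nat_lit 152) (nat_lit 19075232172) (nat_lit 228) (nat_lit 56257098385) (nat_lit 15) (nat_lit 5) (nat_lit 17) (nat_lit 5) (nat_lit 18) (nat_lit 5) (nat_lit 287) (nat_lit 269) (nat_lit 164)) (XT.nd (nat_lit 78) (nat_lit 0) (nat_lit 0) (XT.lf (nat_lit 0) (nat_lit 43378014439) (nat_lit 228) (nat_lit 42384084230) (nat_lit 76) (nat_lit 6479873377) (nat_lit 15) (nat_lit 5) (nat_lit 18) (nat_lit 5) (nat_lit 16) (nat_lit 5) (nat_lit 288) (nat_lit 269) (nat_lit 163)) (XT.lf (nat_lit 0) (nat_lit 57021389198) (nat_lit 228) (nat_lit 7297097575) (nat_lit 76) (nat_lit 33048474651) (nat_lit 15) (nat_lit 5) (nat_lit 18) (nat_lit 5) (nat_lit 16) (nat_lit 5) (nat_lit 289) (nat_lit 269) (nat_lit 162))))) (XT.nd (nat_lit 234) (nat_lit 228) (nat_lit 0) (XT.nd (nat_lit 78) (nat_lit 76) (nat_lit 0) (XT.lf (nat_lit 0) (nat_lit 32206406997) (nat_lit 152) (nat_lit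 40323279260) (nat_lit 228) (nat_lit 30310393447) (nat_lit 13) (nat_lit 5) (nat_lit 15) (nat_lit 5) (nat_lit 16) (nat_lit 5) (nat_lit 290) (nat_lit 269) (nat_lit 161)) (XT.nd (nat_lit 78) (nat_lit 76) (nat_lit 0) (XT.lf (nat_lit 0) (nat_lit 75283687296) (nat_lit 152) (nat_lit 14193409229) (nat_lit 228) (nat_lit 19258080463) (nat_lit 13) (nat_lit 5) (nat_lit 15) (nat_lit 5) (nat_lit 16) (nat_lit 5) (nat_lit 291) (nat_lit 269) (nat_lit 160)) (XT.lf (nat_lit 0) (nat_lit 6701707822) (nat_lit 76) (nat_lit 101576117355) (nat_lit 152) (nat_lit 6784259920) (nat_lit 12) (nat_lit 5) (nat_lit 13) (nat_lit 5) (nat_lit 14) (nat_lit 4) (nat_lit 292) (nat_lit 269) (nat_lit 159)))) (XT.nd (nat_lit 78) (nat_lit 152) (nat_lit 0) (XT.lf (nat_lit 0) (nat_lit 7658985047) (nat_lit 152) (nat_lit 70407129118) (nat_lit 76) (nat_lit 43711685123) (nat_lit 11) (nat_lit 5) (nat_lit 13) (nat_lit 5) (nat_lit 12)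 (nat_lit 5) (nat_lit 293) (nat_lit 269) (nat_lit 158)) (XT.nd (nat_lit 78) (nat_lit 152) (nat_lit 0) (XT.lf (nat_lit 0) (nat_lit 22890249935) (nat_lit 152) (nat_lit 29595205977) (nat_lit 76) (nat_lit 76531294652) (nat_lit 11) (nat_lit 5) (nat_lit 13) (nat_lit 5) (nat_lit 12) (nat_lit 5) (nat_lit 294) (nat_lit 269) (nat_lit 157)) (XT.lf (nat_lit 0) (nat_lit 15242914512) (nat_lit 152) (nat_lit 24462848195) (nat_lit 228) (nat_lit 97099799240) (nat_lit 9) (nat_lit 5) (nat_lit 11) (nat_lit 5) (nat_lit 12) (nat_lit 5) (nat_lit 295) (nat_lit 269) (nat_lit 156))))))))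
noncomputable def xc99 : XT := (XT.nd (nat_lit 1872) (nat_lit 76) (nat_lit 0) (XT.nd (nat_lit 936) (nat_lit 228) (nat_lit 0) (XT.nd (nat_lit 468) (nat_lit 228) (nat_lit 0) (XT.nd (nat_lit 234) (nat_lit 0) (nat_lit 0) (XT.nd (nat_lit 78) (nat_lit 76) (nat_lit 0) (XT.lf (nat_lit 0) (nat_lit 58835424483) (nat_lit 228) (nat_lit 79963393837) (nat_lit 76) (nat_lit 6341150747) (nat_lit 9) (nat_lit 5) (nat_lit 12) (nat_lit 5) (nat_lit 10) (nat_lit 4) (nat_lit 296) (nat_lit 269) (nat_lit 155)) (XT.nd (nat_lit 78) (nat_lit 76) (nat_lit 0) (XT.lf (nat_lit 0) (nat_lit 80130095769) (nat_lit 228) (nat_lit 35672797677) (nat_lit 76) (nat_lit 38287467592) (nat_lit 9) (nat_lit 5) (nat_lit 12) (nat_lit 5) (nat_lit 10) (nat_lit 4) (nat_lit 297) (nat_lit 269) (nat_lit 154)) (XT.lf (nat_lit 0) (nat_lit 12800256599) (nat_lit 76) (nat_lit 90635225001) (nat_lit 152) (nat_lit 60296734468) (nat_lit 8) (nat_lit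 5) (nat_lit 9) (nat_lit 5) (nat_lit 10) (nat_lit 4) (nat_lit 298) (nat_lit 269) (nat_lit 153)))) (XT.nd (nat_lit 78) (nat_lit 0) (nat_lit 0) (XT.lf (nat_lit 0) (nat_lit 67178816687) (nat_lit 76) (nat_lit 62401159727) (nat_lit 152) (nat_lit 44487471588) (nat_lit 8) (nat_lit 5) (nat_lit 9) (nat_lit 5) (nat_lit 10) (nat_lit 4) (nat_lit 299) (nat_lit 269) (nat_lit 152)) (XT.nd (nat_lit 78) (nat_lit 0) (nat_lit 0) (XT.lf (nat_lit 0) (nat_lit 125906659596) (nat_lit 76) (nat_lit 31908742150) (nat_lit 152) (nat_lit 27414149616) (nat_lit 8) (nat_lit 5) (nat_lit 9) (nat_lit 5) (nat_lit 10) (nat_lit 4) (nat_lit 300) (nat_lit 269) (nat_lit 151)) (XT.lf (nat_lit 0) (nat_lit 188333675162) (nat_lit 152) (nat_lit 7977466298) (nat_lit 0) (nat_lit 971562764) (nat_lit 8) (nat_lit 5) (nat_lit 10) (nat_lit 4) (nat_lit 8) (nat_lit 4) (nat_lit 301) (nat_lit 269) (nat_lit 150))))) (XT.nd (nat_lit 234) (nat_lit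 76) (nat_lit 0) (XT.nd (nat_lit 78) (nat_lit 0) (nat_lit 0) (XT.lf (nat_lit 0) (nat_lit 12504715894) (nat_lit 152) (nat_lit 161353765403) (nat_lit 76) (nat_lit 36255571369) (nat_lit 6) (nat_lit 5) (nat_lit 8) (nat_lit 5) (nat_lit 7) (nat_lit 4) (nat_lit 302) (nat_lit 269) (nat_lit 149)) (XT.nd (nat_lit 78) (nat_lit 0) (nat_lit 0) (XT.lf (nat_lit 0) (nat_lit 35414520772) (nat_lit 152) (nat_lit 113702725021) (nat_lit 76) (nat_lit 74818210450) (nat_lit 6) (nat_lit 5) (nat_lit 8) (nat_lit 5) (nat_lit 7) (nat_lit 4) (nat_lit 303) (nat_lit 269) (nat_lit 148)) (XT.lf (nat_lit 0) (nat_lit 60156607139) (nat_lit 152) (nat_lit 62240438864) (nat_lit 76) (nat_lit 116465568069) (nat_lit 6) (nat_lit 5) (nat_lit 8) (nat_lit 5) (nat_lit 7) (nat_lit 4) (nat_lit 304) (nat_lit 269) (nat_lit 147)))) (XT.nd (nat_lit 78) (nat_lit 76) (nat_lit 0) (XT.lf (nat_lit 0) (nat_lit 86877594765) (nat_lit 152) (nat_lit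 6661945235) (nat_lit 76) (nat_lit 161444443382) (nat_lit 6) (nat_lit 5) (nat_lit 8) (nat_lit 5) (nat_lit 7) (nat_lit 4) (nat_lit 305) (nat_lit 269) (nat_lit 146)) (XT.nd (nat_lit 78) (nat_lit 0) (nat_lit 0) (XT.lf (nat_lit 0) (nat_lit 56172064042) (nat_lit 76) (nat_lit 60914705694) (nat_lit 152) (nat_lit 155200253321) (nat_lit 5) (nat_lit 5) (nat_lit 6) (nat_lit 5) (nat_lit 7) (nat_lit 4) (nat_lit 306) (nat_lit 269) (nat_lit 145)) (XT.lf (nat_lit 0) (nat_lit 124410964984) (nat_lit 76) (nat_lit 25483447059) (nat_lit 152) (nat_lit 141065356571) (nat_lit 5) (nat_lit 5) (nat_lit 6) (nat_lit 5) (nat_lit 7) (nat_lit 4) (nat_lit 307) (nat_lit 269) (nat_lit 144)))))) (XT.nd (nat_lit 468) (nat_lit 152) (nat_lit 0) (XT.nd (nat_lit 234) (nat_lit 0) (nat_lit 0) (XT.nd (nat_lit 78) (nat_lit 76) (nat_lit 0) (XT.lf (nat_lit 0) (nat_lit 185633689104) (nat_lit 152) (nat_lit 113325444473) (nat_lit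 0) (nat_lit 12142639643) (nat_lit 5) (nat_lit 5) (nat_lit 7) (nat_lit 4) (nat_lit 5) (nat_lit 4) (nat_lit 308) (nat_lit 269) (nat_lit 143)) (XT.nd (nat_lit 78) (nat_lit 76) (nat_lit 0) (XT.lf (nat_lit 0) (nat_lit 224893653497) (nat_lit 152) (nat_lit 56506748134) (nat_lit 0) (nat_lit 51401814128) (nat_lit 5) (nat_lit 5) (nat_lit 7) (nat_lit 4) (nat_lit 5) (nat_lit 4) (nat_lit 309) (nat_lit 269) (nat_lit 142)) (XT.lf (nat_lit 0) (nat_lit 5112620257) (nat_lit 76) (nat_lit 262304417734) (nat_lit 76) (nat_lit 88811846968) (nat_lit 4) (nat_lit 4) (nat_lit 5) (nat_lit 5) (nat_lit 5) (nat_lit 4) (nat_lit 310) (nat_lit 269) (nat_lit 141)))) (XT.nd (nat_lit 78) (nat_lit 0) (nat_lit 0) (XT.lf (nat_lit 0) (nat_lit 74874563955) (nat_lit 76) (nat_lit 240012399557) (nat_lit 76) (nat_lit 66519151572) (nat_lit 4) (nat_lit 4) (nat_lit 5) (nat_lit 5) (nat_lit 5) (nat_lit 4) (nat_lit 311) (nat_lit 269)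 (nat_lit 140)) (XT.nd (nat_lit 78) (nat_lit 0) (nat_lit 0) (XT.lf (nat_lit 0) (nat_lit 150216941851) (nat_lit 76) (nat_lit 215937240885) (nat_lit 76) (nat_lit 42443365846) (nat_lit 4) (nat_lit 4) (nat_lit 5) (nat_lit 5) (nat_lit 5) (nat_lit 4) (nat_lit 312) (nat_lit 269) (nat_lit 139)) (XT.lf (nat_lit 0) (nat_lit 231586227296) (nat_lit 76) (nat_lit 189936274112) (nat_lit 76) (nat_lit 16441818466) (nat_lit 4) (nat_lit 4) (nat_lit 5) (nat_lit 5) (nat_lit 5) (nat_lit 4) (nat_lit 313) (nat_lit 269) (nat_lit 138))))) (XT.nd (nat_lit 234) (nat_lit 76) (nat_lit 0) (XT.nd (nat_lit 78) (nat_lit 0) (nat_lit 0) (XT.lf (nat_lit 0) (nat_lit 11057315187) (nat_lit 152) (nat_lit 150495777655) (nat_lit 76) (nat_lit 308104966867) (nat_lit 3) (nat_lit 5) (nat_lit 5) (nat_lit 5) (nat_lit 4) (nat_lit 4) (nat_lit 314) (nat_lit 269) (nat_lit 137)) (XT.nd (nat_lit 78) (nat_lit 0) (nat_lit 0) (XT.lf (nat_lit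 0) (nat_lit 39867848958) (nat_lit 152) (nat_lit 90570365186) (nat_lit 76) (nat_lit 373414940082) (nat_lit 3) (nat_lit 5) (nat_lit 5) (nat_lit 5) (nat_lit 4) (nat_lit 4) (nat_lit 315) (nat_lit 269) (nat_lit 136)) (XT.lf (nat_lit 0) (nat_lit 70982998287) (nat_lit 152) (nat_lit 25851315487) (nat_lit 76) (nat_lit 443949561340) (nat_lit 3) (nat_lit 5) (nat_lit 5) (nat_lit 5) (nat_lit 4) (nat_lit 4) (nat_lit 316) (nat_lit 269) (nat_lit 135)))) (XT.nd (nat_lit 78) (nat_lit 0) (nat_lit 0) (XT.lf (nat_lit 0) (nat_lit 46364217679) (nat_lit 76) (nat_lit 59337992112) (nat_lit 152) (nat_lit 474877656453) (nat_lit 2) (nat_lit 5) (nat_lit 3) (nat_lit 5) (nat_lit 4) (nat_lit 4) (nat_lit 317) (nat_lit 269) (nat_lit 134)) (XT.nd (nat_lit 78) (nat_lit 0) (nat_lit 0) (XT.lf (nat_lit 0) (nat_lit 125826823544) (nat_lit 76) (nat_lit 18078752120) (nat_lit 152) (nat_lit 479597432151) (nat_lit 2) (nat_lit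 5) (nat_lit 3) (nat_lit 5) (nat_lit 4) (nat_lit 4) (nat_lit 318) (nat_lit 269) (nat_lit 133)) (XT.lf (nat_lit 0) (nat_lit 185801893261) (nat_lit 152) (nat_lit 458850779840) (nat_lit 0) (nat_lit 25156393521) (nat_lit 2) (nat_lit 5) (nat_lit 4) (nat_lit 4) (nat_lit 2) (nat_lit 4) (nat_lit 319) (nat_lit 269) (nat_lit 132))))))) (XT.nd (nat_lit 33618) (nat_lit 0) (nat_lit 1672) (XT.nd (nat_lit 468) (nat_lit 76) (nat_lit 0) (XT.nd (nat_lit 234) (nat_lit 0) (nat_lit 0) (XT.nd (nat_lit 78) (nat_lit 0) (nat_lit 0) (XT.lf (nat_lit 0) (nat_lit 231519316746) (nat_lit 152) (nat_lit 417389238493) (nat_lit 0) (nat_lit 70873503323) (nat_lit 2) (nat_lit 5) (nat_lit 4) (nat_lit 4) (nat_lit 2) (nat_lit 4) (nat_lit 320) (nat_lit 269) (nat_lit 131)) (XT.nd (nat_lit 78) (nat_lit 0) (nat_lit 0) (XT.lf (nat_lit 0) (nat_lit 280893969763) (nat_lit 152) (nat_lit 372611067783) (nat_lit 0) (nat_lit 120247865892)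 (nat_lit 2) (nat_lit 5) (nat_lit 4) (nat_lit 4) (nat_lit 2) (nat_lit 4) (nat_lit 321) (nat_lit 269) (nat_lit 130)) (XT.lf (nat_lit 0) (nat_lit 334218442848) (nat_lit 152) (nat_lit 324250915589) (nat_lit 0) (nat_lit 173572070044) (nat_lit 2) (nat_lit 5) (nat_lit 4) (nat_lit 4) (nat_lit 2) (nat_lit 4) (nat_lit 322) (nat_lit 269) (nat_lit 129)))) (XT.nd (nat_lit 78) (nat_lit 0) (nat_lit 0) (XT.lf (nat_lit 0) (nat_lit 391808732878) (nat_lit 152) (nat_lit 272022203231) (nat_lit 0) (nat_lit 231162111062) (nat_lit 2) (nat_lit 5) (nat_lit 4) (nat_lit 4) (nat_lit 2) (nat_lit 4) (nat_lit 323) (nat_lit 269) (nat_lit 128)) (XT.nd (nat_lit 78) (nat_lit 0) (nat_lit 0) (XT.lf (nat_lit 0) (nat_lit 454006115647) (nat_lit 152) (nat_lit 215615427227) (nat_lit 0) (nat_lit 293359263263) (nat_lit 2) (nat_lit 5) (nat_lit 4) (nat_lit 4) (nat_lit 2) (nat_lit 4) (nat_lit 324) (nat_lit 269) (nat_lit 127)) (XT.lf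 (nat_lit 0) (nat_lit 521179168236) (nat_lit 152) (nat_lit 154696325203) (nat_lit 0) (nat_lit 360532102365) (nat_lit 2) (nat_lit 5) (nat_lit 4) (nat_lit 4) (nat_lit 2) (nat_lit 4) (nat_lit 325) (nat_lit 269) (nat_lit 126))))) (XT.nd (nat_lit 234) (nat_lit 0) (nat_lit 0) (XT.nd (nat_lit 78) (nat_lit 76) (nat_lit 0) (XT.lf (nat_lit 0) (nat_lit 593725953181) (nat_lit 152) (nat_lit 88903895070) (nat_lit 0) (nat_lit 433078689636) (nat_lit 2) (nat_lit 5) (nat_lit 4) (nat_lit 4) (nat_lit 2) (nat_lit 4) (nat_lit 326) (nat_lit 269) (nat_lit 125)) (XT.nd (nat_lit 78) (nat_lit 76) (nat_lit 0) (XT.lf (nat_lit 0) (nat_lit 672076377355) (nat_lit 152) (nat_lit 17848255763) (nat_lit 0) (nat_lit 511428930778) (nat_lit 2) (nat_lit 5) (nat_lit 4) (nat_lit 4) (nat_lit 2) (nat_lit 4) (nat_lit 327) (nat_lit 269) (nat_lit 124)) (XT.lf (nat_lit 0) (nat_lit 61992793791) (nat_lit 76) (nat_lit 696192873957)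 (nat_lit 76) (nat_lit 535545257907) (nat_lit 1) (nat_lit 4) (nat_lit 2) (nat_lit 5) (nat_lit 2) (nat_lit 4) (nat_lit 328) (nat_lit 269) (nat_lit 123)))) (XT.nd (nat_lit 78) (nat_lit 0) (nat_lit 0) (XT.lf (nat_lit 0) (nat_lit 149236006258) (nat_lit 76) (nat_lit 702435605245) (nat_lit 76) (nat_lit 541787832275) (nat_lit 1) (nat_lit 4) (nat_lit 2) (nat_lit 5) (nat_lit 2) (nat_lit 4) (nat_lit 329) (nat_lit 269) (nat_lit 122)) (XT.nd (nat_lit 78) (nat_lit 0) (nat_lit 0) (XT.lf (nat_lit 0) (nat_lit 243458520934) (nat_lit 76) (nat_lit 709177823888) (nat_lit 76) (nat_lit 548529905622) (nat_lit 1) (nat_lit 4) (nat_lit 2) (nat_lit 5) (nat_lit 2) (nat_lit 4) (nat_lit 330) (nat_lit 269) (nat_lit 121)) (XT.lf (nat_lit 0) (nat_lit 345218693460) (nat_lit 76) (nat_lit 716459483774) (nat_lit 76) (nat_lit 555811430975) (nat_lit 1) (nat_lit 4) (nat_lit 2) (nat_lit 5) (nat_lit 2) (nat_lit 4) (nat_lit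 331) (nat_lit 269) (nat_lit 120)))))) (XT.nd (nat_lit 468) (nat_lit 456) (nat_lit 0) (XT.nd (nat_lit 234) (nat_lit 0) (nat_lit 76) (XT.nd (nat_lit 78) (nat_lit 0) (nat_lit 0) (XT.lf (nat_lit 0) (nat_lit 3469669136) (nat_lit 532) (nat_lit 8627688076) (nat_lit 532) (nat_lit 8627688076) (nat_lit 29) (nat_lit 3) (nat_lit 36) (nat_lit 3) (nat_lit 36) (nat_lit 5) (nat_lit 270) (nat_lit 270) (nat_lit 180)) (XT.nd (nat_lit 78) (nat_lit 0) (nat_lit 76) (XT.lf (nat_lit 0) (nat_lit 7250235138) (nat_lit 532) (nat_lit 451204868) (nat_lit 532) (nat_lit 35403751225) (nat_lit 29) (nat_lit 3) (nat_lit 36) (nat_lit 3) (nat_lit 36) (nat_lit 5) (nat_lit 271) (nat_lit 270) (nat_lit 179)) (XT.lf (nat_lit 0) (nat_lit 8285506398) (nat_lit 456) (nat_lit 26484699992) (nat_lit 532) (nat_lit 10066557058) (nat_lit 30) (nat_lit 5) (nat_lit 36) (nat_lit 5) (nat_lit 37) (nat_lit 5) (nat_lit 272) (nat_lit 270) (nat_lit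 178)))) (XT.nd (nat_lit 78) (nat_lit 0) (nat_lit 76) (XT.lf (nat_lit 0) (nat_lit 9613197263) (nat_lit 456) (nat_lit 8223050085) (nat_lit 532) (nat_lit 28853868227) (nat_lit 30) (nat_lit 5) (nat_lit 36) (nat_lit 5) (nat_lit 37) (nat_lit 5) (nat_lit 273) (nat_lit 270) (nat_lit 177)) (XT.nd (nat_lit 78) (nat_lit 0) (nat_lit 0) (XT.lf (nat_lit 0) (nat_lit 11353779172) (nat_lit 456) (nat_lit 36584105711) (nat_lit 532) (nat_lit 729337262) (nat_lit 31) (nat_lit 5) (nat_lit 37) (nat_lit 5) (nat_lit 38) (nat_lit 5) (nat_lit 274) (nat_lit 270) (nat_lit 176)) (XT.lf (nat_lit 0) (nat_lit 13924879473) (nat_lit 456) (nat_lit 16774325375) (nat_lit 532) (nat_lit 20048009478) (nat_lit 31) (nat_lit 5) (nat_lit 37) (nat_lit 5) (nat_lit 38) (nat_lit 5) (nat_lit 275) (nat_lit 270) (nat_lit 175))))) (XT.nd (nat_lit 234) (nat_lit 608) (nat_lit 0) (XT.nd (nat_lit 78) (nat_lit 0) (nat_lit 76) (XT.lf (nat_lit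 76) (nat_lit 4861460466) (nat_lit 0) (nat_lit 11954644197) (nat_lit 532) (nat_lit 36168363706) (nat_lit 32) (nat_lit 5) (nat_lit 31) (nat_lit 5) (nat_lit 38) (nat_lit 5) (nat_lit 276) (nat_lit 270) (nat_lit 174)) (XT.nd (nat_lit 78) (nat_lit 0) (nat_lit 0) (XT.lf (nat_lit 0) (nat_lit 20606209182) (nat_lit 456) (nat_lit 26395337542) (nat_lit 76) (nat_lit 8345765651) (nat_lit 32) (nat_lit 5) (nat_lit 38) (nat_lit 5) (nat_lit 33) (nat_lit 5) (nat_lit 277) (nat_lit 270) (nat_lit 173)) (XT.lf (nat_lit 0) (nat_lit 25007871731) (nat_lit 456) (nat_lit 3241936907) (nat_lit 76) (nat_lit 29624722239) (nat_lit 32) (nat_lit 5) (nat_lit 38) (nat_lit 5) (nat_lit 33) (nat_lit 5) (nat_lit 278) (nat_lit 270) (nat_lit 172)))) (XT.nd (nat_lit 78) (nat_lit 228) (nat_lit 0) (XT.lf (nat_lit 0) (nat_lit 22907852371) (nat_lit 456) (nat_lit 7402748784) (nat_lit 532) (nat_lit 30249424835) (nat_lit 26) (nat_lit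 5) (nat_lit 32) (nat_lit 5) (nat_lit 33) (nat_lit 5) (nat_lit 279) (nat_lit 270) (nat_lit 171)) (XT.nd (nat_lit 78) (nat_lit 228) (nat_lit 0) (XT.lf (nat_lit 0) (nat_lit 36490044953) (nat_lit 532) (nat_lit 12486968895) (nat_lit 76) (nat_lit 14447159998) (nat_lit 26) (nat_lit 5) (nat_lit 33) (nat_lit 5) (nat_lit 27) (nat_lit 5) (nat_lit 280) (nat_lit 270) (nat_lit 170)) (XT.lf (nat_lit 0) (nat_lit 15260775197) (nat_lit 228) (nat_lit 28460618021) (nat_lit 304) (nat_lit 22751468262) (nat_lit 23) (nat_lit 5) (nat_lit 26) (nat_lit 5) (nat_lit 27) (nat_lit 5) (nat_lit 281) (nat_lit 270) (nat_lit 169))))))))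
noncomputable def xc100 : XT := (XT.nd (nat_lit 1794) (nat_lit 304) (nat_lit 0) (XT.nd (nat_lit 858) (nat_lit 532) (nat_lit 0) (XT.nd (nat_lit 390) (nat_lit 304) (nat_lit 0) (XT.nd (nat_lit 156) (nat_lit 304) (nat_lit 0) (XT.nd (nat_lit 78) (nat_lit 152) (nat_lit 0) (XT.lf (nat_lit 0) (nat_lit 45936725863) (nat_lit 228) (nat_lit 5934274622) (nat_lit 304) (nat_lit 17867274537) (nat_lit 23) (nat_lit 5) (nat_lit 26) (nat_lit 5) (nat_lit 27) (nat_lit 5) (nat_lit 282) (nat_lit 270) (nat_lit 168)) (XT.lf (nat_lit 0) (nat_lit 5639817953) (nat_lit 152) (nat_lit 55609233036) (nat_lit 228) (nat_lit 11969762858) (nat_lit 21) (nat_lit 5) (nat_lit 23) (nat_lit 5) (nat_lit 24) (nat_lit 5) (nat_lit 283) (nat_lit 270) (nat_lit 167))) (XT.nd (nat_lit 78) (nat_lit 304) (nat_lit 0) (XT.lf (nat_lit 0) (nat_lit 38626141444) (nat_lit 152) (nat_lit 33550745038) (nat_lit 228) (nat_lit 4736955442) (nat_lit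 21) (nat_lit 5) (nat_lit 23) (nat_lit 5) (nat_lit 24) (nat_lit 5) (nat_lit 284) (nat_lit 270) (nat_lit 166)) (XT.nd (nat_lit 78) (nat_lit 228) (nat_lit 0) (XT.lf (nat_lit 0) (nat_lit 2919273679) (nat_lit 228) (nat_lit 6728712328) (nat_lit 76) (nat_lit 71250691427) (nat_lit 20) (nat_lit 5) (nat_lit 23) (nat_lit 5) (nat_lit 21) (nat_lit 5) (nat_lit 285) (nat_lit 270) (nat_lit 165)) (XT.lf (nat_lit 0) (nat_lit 12030071355) (nat_lit 304) (nat_lit 56883014231) (nat_lit 76) (nat_lit 16191539545) (nat_lit 17) (nat_lit 5) (nat_lit 21) (nat_lit 5) (nat_lit 18) (nat_lit 5) (nat_lit 286) (nat_lit 270) (nat_lit 164))))) (XT.nd (nat_lit 234) (nat_lit 152) (nat_lit 0) (XT.nd (nat_lit 78) (nat_lit 152) (nat_lit 0) (XT.lf (nat_lit 0) (nat_lit 22307836074) (nat_lit 304) (nat_lit 23538685080) (nat_lit 76) (nat_lit 43765486153) (nat_lit 17) (nat_lit 5) (nat_lit 21) (nat_lit 5) (nat_lit 18) (nat_lit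 5) (nat_lit 287) (nat_lit 270) (nat_lit 163)) (XT.nd (nat_lit 78) (nat_lit 0) (nat_lit 0) (XT.lf (nat_lit 0) (nat_lit 13128440537) (nat_lit 152) (nat_lit 20593965841) (nat_lit 228) (nat_lit 60732413341) (nat_lit 15) (nat_lit 5) (nat_lit 17) (nat_lit 5) (nat_lit 18) (nat_lit 5) (nat_lit 288) (nat_lit 270) (nat_lit 162)) (XT.lf (nat_lit 0) (nat_lit 46869960887) (nat_lit 228) (nat_lit 45744845581) (nat_lit 76) (nat_lit 7004671103) (nat_lit 15) (nat_lit 5) (nat_lit 18) (nat_lit 5) (nat_lit 16) (nat_lit 5) (nat_lit 289) (nat_lit 270) (nat_lit 161)))) (XT.nd (nat_lit 78) (nat_lit 152) (nat_lit 0) (XT.lf (nat_lit 0) (nat_lit 61603197827) (nat_lit 228) (nat_lit 7853119652) (nat_lit 76) (nat_lit 35698285823) (nat_lit 15) (nat_lit 5) (nat_lit 18) (nat_lit 5) (nat_lit 16) (nat_lit 5) (nat_lit 290) (nat_lit 270) (nat_lit 160)) (XT.nd (nat_lit 78) (nat_lit 0) (nat_lit 0) (XT.lf (nat_lit 0) (nat_lit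 34809962862) (nat_lit 152) (nat_lit 43541357478) (nat_lit 228) (nat_lit 32714325713) (nat_lit 13) (nat_lit 5) (nat_lit 15) (nat_lit 5) (nat_lit 16) (nat_lit 5) (nat_lit 291) (nat_lit 270) (nat_lit 159)) (XT.lf (nat_lit 0) (nat_lit 81331422377) (nat_lit 152) (nat_lit 15321674445) (nat_lit 228) (nat_lit 20779375780) (nat_lit 13) (nat_lit 5) (nat_lit 15) (nat_lit 5) (nat_lit 16) (nat_lit 5) (nat_lit 292) (nat_lit 270) (nat_lit 158)))))) (XT.nd (nat_lit 468) (nat_lit 228) (nat_lit 0) (XT.nd (nat_lit 234) (nat_lit 152) (nat_lit 0) (XT.nd (nat_lit 78) (nat_lit 76) (nat_lit 0) (XT.lf (nat_lit 0) (nat_lit 7263561766) (nat_lit 76) (nat_lit 109693780073) (nat_lit 152) (nat_lit 7308241687) (nat_lit 12) (nat_lit 5) (nat_lit 13) (nat_lit 5) (nat_lit 14) (nat_lit 4) (nat_lit 293) (nat_lit 270) (nat_lit 157)) (XT.nd (nat_lit 78) (nat_lit 0) (nat_lit 0) (XT.lf (nat_lit 0) (nat_lit 8288204429) (nat_lit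 152) (nat_lit 76014945241) (nat_lit 76) (nat_lit 47215480531) (nat_lit 11) (nat_lit 5) (nat_lit 13) (nat_lit 5) (nat_lit 12) (nat_lit 5) (nat_lit 294) (nat_lit 270) (nat_lit 156)) (XT.lf (nat_lit 0) (nat_lit 24736748243) (nat_lit 152) (nat_lit 31939901894) (nat_lit 76) (nat_lit 82660150630) (nat_lit 11) (nat_lit 5) (nat_lit 13) (nat_lit 5) (nat_lit 12) (nat_lit 5) (nat_lit 295) (nat_lit 270) (nat_lit 155)))) (XT.nd (nat_lit 78) (nat_lit 0) (nat_lit 0) (XT.lf (nat_lit 0) (nat_lit 16484687967) (nat_lit 152) (nat_lit 26412219628) (nat_lit 228) (nat_lit 104851862028) (nat_lit 9) (nat_lit 5) (nat_lit 11) (nat_lit 5) (nat_lit 12) (nat_lit 5) (nat_lit 296) (nat_lit 270) (nat_lit 154)) (XT.nd (nat_lit 78) (nat_lit 0) (nat_lit 0) (XT.lf (nat_lit 0) (nat_lit 63556025116) (nat_lit 228) (nat_lit 86338804754) (nat_lit 76) (nat_lit 6855177453) (nat_lit 9) (nat_lit 5) (nat_lit 12) (nat_lit 5) (nat_lit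 10) (nat_lit 4) (nat_lit 297) (nat_lit 270) (nat_lit 153)) (XT.lf (nat_lit 0) (nat_lit 86553250351) (nat_lit 228) (nat_lit 38506565389) (nat_lit 76) (nat_lit 41356700783) (nat_lit 9) (nat_lit 5) (nat_lit 12) (nat_lit 5) (nat_lit 10) (nat_lit 4) (nat_lit 298) (nat_lit 270) (nat_lit 152))))) (XT.nd (nat_lit 234) (nat_lit 152) (nat_lit 0) (XT.nd (nat_lit 78) (nat_lit 0) (nat_lit 0) (XT.lf (nat_lit 0) (nat_lit 13843825480) (nat_lit 76) (nat_lit 97878767491) (nat_lit 152) (nat_lit 65107168885) (nat_lit 8) (nat_lit 5) (nat_lit 9) (nat_lit 5) (nat_lit 10) (nat_lit 4) (nat_lit 299) (nat_lit 270) (nat_lit 151)) (XT.nd (nat_lit 78) (nat_lit 0) (nat_lit 0) (XT.lf (nat_lit 0) (nat_lit 72571222349) (nat_lit 76) (nat_lit 67386515921) (nat_lit 152) (nat_lit 48034150481) (nat_lit 8) (nat_lit 5) (nat_lit 9) (nat_lit 5) (nat_lit 10) (nat_lit 4) (nat_lit 300) (nat_lit 270) (nat_lit 150)) (XT.lf (nat_lit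 0) (nat_lit 135995951926) (nat_lit 76) (nat_lit 34455203944) (nat_lit 152) (nat_lit 29595875257) (nat_lit 8) (nat_lit 5) (nat_lit 9) (nat_lit 5) (nat_lit 10) (nat_lit 4) (nat_lit 301) (nat_lit 270) (nat_lit 149)))) (XT.nd (nat_lit 78) (nat_lit 152) (nat_lit 0) (XT.lf (nat_lit 0) (nat_lit 203410250655) (nat_lit 152) (nat_lit 8599465554) (nat_lit 0) (nat_lit 1054774404) (nat_lit 8) (nat_lit 5) (nat_lit 10) (nat_lit 4) (nat_lit 8) (nat_lit 4) (nat_lit 302) (nat_lit 270) (nat_lit 148)) (XT.nd (nat_lit 78) (nat_lit 0) (nat_lit 0) (XT.lf (nat_lit 0) (nat_lit 13514904580) (nat_lit 152) (nat_lit 174245728208) (nat_lit 76) (nat_lit 39161725373) (nat_lit 6) (nat_lit 5) (nat_lit 8) (nat_lit 5) (nat_lit 7) (nat_lit 4) (nat_lit 303) (nat_lit 270) (nat_lit 147)) (XT.lf (nat_lit 0) (nat_lit 38256767077) (nat_lit 152) (nat_lit 122783814849) (nat_lit 76) (nat_lit 80808952744) (nat_lit 6) (nat_lit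 5) (nat_lit 8) (nat_lit 5) (nat_lit 7) (nat_lit 4) (nat_lit 304) (nat_lit 270) (nat_lit 146))))))) (XT.nd (nat_lit 936) (nat_lit 76) (nat_lit 0) (XT.nd (nat_lit 468) (nat_lit 152) (nat_lit 0) (XT.nd (nat_lit 234) (nat_lit 0) (nat_lit 0) (XT.nd (nat_lit 78) (nat_lit 76) (nat_lit 0) (XT.lf (nat_lit 0) (nat_lit 64977547417) (nat_lit 152) (nat_lit 67205666405) (nat_lit 76) (nat_lit 125787707457) (nat_lit 6) (nat_lit 5) (nat_lit 8) (nat_lit 5) (nat_lit 7) (nat_lit 4) (nat_lit 305) (nat_lit 270) (nat_lit 145)) (XT.nd (nat_lit 78) (nat_lit 76) (nat_lit 0) (XT.lf (nat_lit 0) (nat_lit 93835590964) (nat_lit 152) (nat_lit 7181930883) (nat_lit 76) (nat_lit 174364530281) (nat_lit 6) (nat_lit 5) (nat_lit 8) (nat_lit 5) (nat_lit 7) (nat_lit 4) (nat_lit 306) (nat_lit 270) (nat_lit 144)) (XT.lf (nat_lit 0) (nat_lit 60678470782) (nat_lit 76) (nat_lit 65782756247) (nat_lit 152) (nat_lit 167608131768)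 (nat_lit 5) (nat_lit 5) (nat_lit 6) (nat_lit 5) (nat_lit 7) (nat_lit 4) (nat_lit 307) (nat_lit 270) (nat_lit 143)))) (XT.nd (nat_lit 78) (nat_lit 0) (nat_lit 0) (XT.lf (nat_lit 0) (nat_lit 134375547384) (nat_lit 76) (nat_lit 27517376618) (nat_lit 152) (nat_lit 152343046375) (nat_lit 5) (nat_lit 5) (nat_lit 6) (nat_lit 5) (nat_lit 7) (nat_lit 4) (nat_lit 308) (nat_lit 270) (nat_lit 142)) (XT.nd (nat_lit 78) (nat_lit 0) (nat_lit 0) (XT.lf (nat_lit 0) (nat_lit 200490933436) (nat_lit 152) (nat_lit 122380210789) (nat_lit 0) (nat_lit 13118225613) (nat_lit 5) (nat_lit 5) (nat_lit 7) (nat_lit 4) (nat_lit 5) (nat_lit 4) (nat_lit 309) (nat_lit 270) (nat_lit 141)) (XT.lf (nat_lit 0) (nat_lit 242891209855) (nat_lit 152) (nat_lit 61016853502) (nat_lit 0) (nat_lit 55517824812) (nat_lit 5) (nat_lit 5) (nat_lit 7) (nat_lit 4) (nat_lit 5) (nat_lit 4) (nat_lit 310) (nat_lit 270) (nat_lit 140))))) (XT.nd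 (nat_lit 234) (nat_lit 76) (nat_lit 0) (XT.nd (nat_lit 78) (nat_lit 0) (nat_lit 0) (XT.lf (nat_lit 0) (nat_lit 5531800197) (nat_lit 76) (nat_lit 283284460317) (nat_lit 76) (nat_lit 95910448219) (nat_lit 4) (nat_lit 4) (nat_lit 5) (nat_lit 5) (nat_lit 5) (nat_lit 4) (nat_lit 311) (nat_lit 270) (nat_lit 139)) (XT.nd (nat_lit 78) (nat_lit 0) (nat_lit 0) (XT.lf (nat_lit 0) (nat_lit 80873946034) (nat_lit 76) (nat_lit 259209400007) (nat_lit 76) (nat_lit 71834807303) (nat_lit 4) (nat_lit 4) (nat_lit 5) (nat_lit 5) (nat_lit 5) (nat_lit 4) (nat_lit 312) (nat_lit 270) (nat_lit 138)) (XT.lf (nat_lit 0) (nat_lit 162243016609) (nat_lit 76) (nat_lit 233208524310) (nat_lit 76) (nat_lit 45833394007) (nat_lit 4) (nat_lit 4) (nat_lit 5) (nat_lit 5) (nat_lit 5) (nat_lit 4) (nat_lit 313) (nat_lit 270) (nat_lit 137)))) (XT.nd (nat_lit 78) (nat_lit 76) (nat_lit 0) (XT.lf (nat_lit 0) (nat_lit 250121199006)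 (nat_lit 76) (nat_lit 205127753961) (nat_lit 76) (nat_lit 17752125882) (nat_lit 4) (nat_lit 4) (nat_lit 5) (nat_lit 5) (nat_lit 5) (nat_lit 4) (nat_lit 314) (nat_lit 270) (nat_lit 136)) (XT.nd (nat_lit 78) (nat_lit 0) (nat_lit 0) (XT.lf (nat_lit 0) (nat_lit 11946331917) (nat_lit 152) (nat_lit 162527718593) (nat_lit 76) (nat_lit 332756287024) (nat_lit 3) (nat_lit 5) (nat_lit 5) (nat_lit 5) (nat_lit 4) (nat_lit 4) (nat_lit 315) (nat_lit 270) (nat_lit 135)) (XT.lf (nat_lit 0) (nat_lit 43061380130) (nat_lit 152) (nat_lit 97808845073) (nat_lit 76) (nat_lit 403290841591) (nat_lit 3) (nat_lit 5) (nat_lit 5) (nat_lit 5) (nat_lit 4) (nat_lit 4) (nat_lit 316) (nat_lit 270) (nat_lit 134)))))) (XT.nd (nat_lit 468) (nat_lit 0) (nat_lit 0) (XT.nd (nat_lit 234) (nat_lit 0) (nat_lit 0) (XT.nd (nat_lit 78) (nat_lit 76) (nat_lit 0) (XT.lf (nat_lit 0) (nat_lit 76665437460) (nat_lit 152) (nat_lit 27912800978)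 (nat_lit 76) (nat_lit 479468032083) (nat_lit 3) (nat_lit 5) (nat_lit 5) (nat_lit 5) (nat_lit 4) (nat_lit 4) (nat_lit 317) (nat_lit 270) (nat_lit 133)) (XT.nd (nat_lit 78) (nat_lit 0) (nat_lit 0) (XT.lf (nat_lit 0) (nat_lit 50079807253) (nat_lit 76) (nat_lit 64082252376) (nat_lit 152) (nat_lit 512863892202) (nat_lit 2) (nat_lit 5) (nat_lit 3) (nat_lit 5) (nat_lit 4) (nat_lit 4) (nat_lit 318) (nat_lit 270) (nat_lit 132)) (XT.lf (nat_lit 0) (nat_lit 135898943650) (nat_lit 76) (nat_lit 19522479044) (nat_lit 152) (nat_lit 517961544532) (nat_lit 2) (nat_lit 5) (nat_lit 3) (nat_lit 5) (nat_lit 4) (nat_lit 4) (nat_lit 319) (nat_lit 270) (nat_lit 131)))) (XT.nd (nat_lit 78) (nat_lit 0) (nat_lit 0) (XT.lf (nat_lit 0) (nat_lit 200669251077) (nat_lit 152) (nat_lit 495553107459) (nat_lit 0) (nat_lit 27171168448) (nat_lit 2) (nat_lit 5) (nat_lit 4) (nat_lit 4) (nat_lit 2) (nat_lit 4) (nat_lit 320)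 (nat_lit 270) (nat_lit 130)) (XT.nd (nat_lit 78) (nat_lit 0) (nat_lit 0) (XT.lf (nat_lit 0) (nat_lit 250043830933) (nat_lit 152) (nat_lit 450775067601) (nat_lit 0) (nat_lit 76545479371) (nat_lit 2) (nat_lit 5) (nat_lit 4) (nat_lit 4) (nat_lit 2) (nat_lit 4) (nat_lit 321) (nat_lit 270) (nat_lit 129)) (XT.lf (nat_lit 0) (nat_lit 303368236277) (nat_lit 152) (nat_lit 402415036567) (nat_lit 0) (nat_lit 129869635703) (nat_lit 2) (nat_lit 5) (nat_lit 4) (nat_lit 4) (nat_lit 2) (nat_lit 4) (nat_lit 322) (nat_lit 270) (nat_lit 128))))) (XT.nd (nat_lit 234) (nat_lit 0) (nat_lit 0) (XT.nd (nat_lit 78) (nat_lit 0) (nat_lit 0) (XT.lf (nat_lit 0) (nat_lit 360958463584) (nat_lit 152) (nat_lit 350186436393) (nat_lit 0) (nat_lit 187459632443) (nat_lit 2) (nat_lit 5) (nat_lit 4) (nat_lit 4) (nat_lit 2) (nat_lit 4) (nat_lit 323) (nat_lit 270) (nat_lit 127)) (XT.nd (nat_lit 78) (nat_lit 0) (nat_lit 0)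 (XT.lf (nat_lit 0) (nat_lit 423155788275) (nat_lit 152) (nat_lit 293779764264) (nat_lit 0) (nat_lit 249656743647) (nat_lit 2) (nat_lit 5) (nat_lit 4) (nat_lit 4) (nat_lit 2) (nat_lit 4) (nat_lit 324) (nat_lit 270) (nat_lit 126)) (XT.lf (nat_lit 0) (nat_lit 490328787090) (nat_lit 152) (nat_lit 232860758419) (nat_lit 0) (nat_lit 316829544787) (nat_lit 2) (nat_lit 5) (nat_lit 4) (nat_lit 4) (nat_lit 2) (nat_lit 4) (nat_lit 325) (nat_lit 270) (nat_lit 125)))) (XT.nd (nat_lit 78) (nat_lit 0) (nat_lit 0) (XT.lf (nat_lit 0) (nat_lit 562875522243) (nat_lit 152) (nat_lit 167068417342) (nat_lit 0) (nat_lit 389376096909) (nat_lit 2) (nat_lit 5) (nat_lit 4) (nat_lit 4) (nat_lit 2) (nat_lit 4) (nat_lit 326) (nat_lit 270) (nat_lit 124)) (XT.nd (nat_lit 78) (nat_lit 0) (nat_lit 0) (XT.lf (nat_lit 0) (nat_lit 641225900313) (nat_lit 152) (nat_lit 96012860494) (nat_lit 0) (nat_lit 467726305506) (nat_lit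 2) (nat_lit 5) (nat_lit 4) (nat_lit 4) (nat_lit 2) (nat_lit 4) (nat_lit 327) (nat_lit 270) (nat_lit 123)) (XT.lf (nat_lit 0) (nat_lit 725844219837) (nat_lit 152) (nat_lit 19273017907) (nat_lit 0) (nat_lit 552344468110) (nat_lit 2) (nat_lit 5) (nat_lit 4) (nat_lit 4) (nat_lit 2) (nat_lit 4) (nat_lit 328) (nat_lit 270) (nat_lit 122))))))))
noncomputable def xc101 : XT := (XT.nd (nat_lit 34710) (nat_lit 0) (nat_lit 152) (XT.nd (nat_lit 33774) (nat_lit 0) (nat_lit 912) (XT.nd (nat_lit 33306) (nat_lit 0) (nat_lit 1900) (XT.nd (nat_lit 33072) (nat_lit 0) (nat_lit 2128) (XT.nd (nat_lit 78) (nat_lit 0) (nat_lit 0) (XT.lf (nat_lit 0) (nat_lit 66955237173) (nat_lit 76) (nat_lit 751886960599) (nat_lit 76) (nat_lit 578387063575) (nat_lit 1) (nat_lit 4) (nat_lit 2) (nat_lit 5) (nat_lit 2) (nat_lit 4) (nat_lit 329) (nat_lit 270) (nat_lit 121)) (XT.nd (nat_lit 32916) (nat_lit 0) (nat_lit 2128) (XT.lf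 (nat_lit 0) (nat_lit 161177682943) (nat_lit 76) (nat_lit 758629209892) (nat_lit 76) (nat_lit 585129178335) (nat_lit 1) (nat_lit 4) (nat_lit 2) (nat_lit 5) (nat_lit 2) (nat_lit 4) (nat_lit 330) (nat_lit 270) (nat_lit 120)) (XT.lf (nat_lit 0) (nat_lit 3779764574) (nat_lit 532) (nat_lit 9300225592) (nat_lit 532) (nat_lit 9300225592) (nat_lit 29) (nat_lit 3) (nat_lit 36) (nat_lit 3) (nat_lit 36) (nat_lit 5) (nat_lit 271) (nat_lit 271) (nat_lit 178)))) (XT.nd (nat_lit 78) (nat_lit 0) (nat_lit 76) (XT.lf (nat_lit 0) (nat_lit 7890479703) (nat_lit 532) (nat_lit 454565092) (nat_lit 532) (nat_lit 38203315157) (nat_lit 29) (nat_lit 3) (nat_lit 36) (nat_lit 3) (nat_lit 36) (nat_lit 5) (nat_lit 272) (nat_lit 271) (nat_lit 177)) (XT.nd (nat_lit 78) (nat_lit 0) (nat_lit 0) (XT.lf (nat_lit 0) (nat_lit 9004286649) (nat_lit 456) (nat_lit 28566057035) (nat_lit 532) (nat_lit 10848488885) (nat_lit 30)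 (nat_lit 5) (nat_lit 36) (nat_lit 5) (nat_lit 37) (nat_lit 5) (nat_lit 273) (nat_lit 271) (nat_lit 176)) (XT.lf (nat_lit 0) (nat_lit 10434049099) (nat_lit 456) (nat_lit 8846246910) (nat_lit 532) (nat_lit 31140517742) (nat_lit 30) (nat_lit 5) (nat_lit 36) (nat_lit 5) (nat_lit 37) (nat_lit 5) (nat_lit 274) (nat_lit 271) (nat_lit 175))))) (XT.nd (nat_lit 234) (nat_lit 380) (nat_lit 0) (XT.nd (nat_lit 78) (nat_lit 0) (nat_lit 0) (XT.lf (nat_lit 0) (nat_lit 12310492201) (nat_lit 456) (nat_lit 39472461456) (nat_lit 532) (nat_lit 773433234) (nat_lit 31) (nat_lit 5) (nat_lit 37) (nat_lit 5) (nat_lit 38) (nat_lit 5) (nat_lit 275) (nat_lit 271) (nat_lit 174)) (XT.nd (nat_lit 78) (nat_lit 0) (nat_lit 0) (XT.lf (nat_lit 0) (nat_lit 15083694549) (nat_lit 456) (nat_lit 18080741116) (nat_lit 532) (nat_lit 21638654857) (nat_lit 31) (nat_lit 5) (nat_lit 37) (nat_lit 5) (nat_lit 38) (nat_lit 5) (nat_lit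 276) (nat_lit 271) (nat_lit 173)) (XT.lf (nat_lit 76) (nat_lit 5285008092) (nat_lit 0) (nat_lit 12918722184) (nat_lit 532) (nat_lit 39015816942) (nat_lit 32) (nat_lit 5) (nat_lit 31) (nat_lit 5) (nat_lit 38) (nat_lit 5) (nat_lit 277) (nat_lit 271) (nat_lit 172)))) (XT.nd (nat_lit 78) (nat_lit 456) (nat_lit 0) (XT.lf (nat_lit 0) (nat_lit 22293735453) (nat_lit 456) (nat_lit 28471321259) (nat_lit 76) (nat_lit 9006648252) (nat_lit 32) (nat_lit 5) (nat_lit 38) (nat_lit 5) (nat_lit 33) (nat_lit 5) (nat_lit 278) (nat_lit 271) (nat_lit 171)) (XT.nd (nat_lit 78) (nat_lit 456) (nat_lit 0) (XT.lf (nat_lit 0) (nat_lit 27044639929) (nat_lit 456) (nat_lit 3468288816) (nat_lit 76) (nat_lit 31988423489) (nat_lit 32) (nat_lit 5) (nat_lit 38) (nat_lit 5) (nat_lit 33) (nat_lit 5) (nat_lit 279) (nat_lit 271) (nat_lit 170)) (XT.lf (nat_lit 0) (nat_lit 24772648084) (nat_lit 456) (nat_lit 7997036330) (nat_lit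 532) (nat_lit 32632173327) (nat_lit 26) (nat_lit 5) (nat_lit 32) (nat_lit 5) (nat_lit 33) (nat_lit 5) (nat_lit 280) (nat_lit 271) (nat_lit 169)))))) (XT.nd (nat_lit 468) (nat_lit 532) (nat_lit 0) (XT.nd (nat_lit 234) (nat_lit 228) (nat_lit 0) (XT.nd (nat_lit 78) (nat_lit 228) (nat_lit 0) (XT.lf (nat_lit 0) (nat_lit 39440901734) (nat_lit 532) (nat_lit 13453345315) (nat_lit 76) (nat_lit 15601114084) (nat_lit 26) (nat_lit 5) (nat_lit 33) (nat_lit 5) (nat_lit 27) (nat_lit 5) (nat_lit 281) (nat_lit 271) (nat_lit 168)) (XT.nd (nat_lit 78) (nat_lit 0) (nat_lit 0) (XT.lf (nat_lit 0) (nat_lit 16513393467) (nat_lit 228) (nat_lit 30735783452) (nat_lit 304) (nat_lit 24538909214) (nat_lit 23) (nat_lit 5) (nat_lit 26) (nat_lit 5) (nat_lit 27) (nat_lit 5) (nat_lit 282) (nat_lit 271) (nat_lit 167)) (XT.lf (nat_lit 0) (nat_lit 49641067870) (nat_lit 228) (nat_lit 6407457323) (nat_lit 304) (nat_lit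 19266400473) (nat_lit 23) (nat_lit 5) (nat_lit 26) (nat_lit 5) (nat_lit 27) (nat_lit 5) (nat_lit 283) (nat_lit 271) (nat_lit 166)))) (XT.nd (nat_lit 78) (nat_lit 76) (nat_lit 0) (XT.lf (nat_lit 0) (nat_lit 6121976684) (nat_lit 152) (nat_lit 60053560117) (nat_lit 228) (nat_lit 12898487046) (nat_lit 21) (nat_lit 5) (nat_lit 23) (nat_lit 5) (nat_lit 24) (nat_lit 5) (nat_lit 284) (nat_lit 271) (nat_lit 165)) (XT.nd (nat_lit 78) (nat_lit 76) (nat_lit 0) (XT.lf (nat_lit 0) (nat_lit 41744911736) (nat_lit 152) (nat_lit 36230719862) (nat_lit 228) (nat_lit 5089192580) (nat_lit 21) (nat_lit 5) (nat_lit 23) (nat_lit 5) (nat_lit 24) (nat_lit 5) (nat_lit 285) (nat_lit 271) (nat_lit 164)) (XT.lf (nat_lit 0) (nat_lit 3176318065) (nat_lit 228) (nat_lit 7239082020) (nat_lit 76) (nat_lit 76953156259) (nat_lit 20) (nat_lit 5) (nat_lit 23) (nat_lit 5) (nat_lit 21) (nat_lit 5) (nat_lit 286) (nat_lit 271)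 (nat_lit 163))))) (XT.nd (nat_lit 234) (nat_lit 152) (nat_lit 0) (XT.nd (nat_lit 78) (nat_lit 152) (nat_lit 0) (XT.lf (nat_lit 0) (nat_lit 13015008815) (nat_lit 304) (nat_lit 61404632256) (nat_lit 76) (nat_lit 17491426450) (nat_lit 17) (nat_lit 5) (nat_lit 21) (nat_lit 5) (nat_lit 18) (nat_lit 5) (nat_lit 287) (nat_lit 271) (nat_lit 162)) (XT.nd (nat_lit 78) (nat_lit 152) (nat_lit 0) (XT.lf (nat_lit 0) (nat_lit 24113325693) (nat_lit 304) (nat_lit 25394906634) (nat_lit 76) (nat_lit 47270950732) (nat_lit 17) (nat_lit 5) (nat_lit 21) (nat_lit 5) (nat_lit 18) (nat_lit 5) (nat_lit 288) (nat_lit 271) (nat_lit 161)) (XT.lf (nat_lit 0) (nat_lit 14204908697) (nat_lit 152) (nat_lit 22235237476) (nat_lit 228) (nat_lit 65569356103) (nat_lit 15) (nat_lit 5) (nat_lit 17) (nat_lit 5) (nat_lit 18) (nat_lit 5) (nat_lit 289) (nat_lit 271) (nat_lit 160)))) (XT.nd (nat_lit 78) (nat_lit 152) (nat_lit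 0) (XT.lf (nat_lit 0) (nat_lit 50638166547) (nat_lit 228) (nat_lit 49378742737) (nat_lit 76) (nat_lit 7570538495) (nat_lit 15) (nat_lit 5) (nat_lit 18) (nat_lit 5) (nat_lit 16) (nat_lit 5) (nat_lit 290) (nat_lit 271) (nat_lit 159)) (XT.nd (nat_lit 78) (nat_lit 152) (nat_lit 0) (XT.lf (nat_lit 0) (nat_lit 66548684014) (nat_lit 228) (nat_lit 8457581733) (nat_lit 76) (nat_lit 38559235452) (nat_lit 15) (nat_lit 5) (nat_lit 18) (nat_lit 5) (nat_lit 16) (nat_lit 5) (nat_lit 291) (nat_lit 271) (nat_lit 158)) (XT.lf (nat_lit 0) (nat_lit 37617945167) (nat_lit 152) (nat_lit 47017992445) (nat_lit 228) (nat_lit 35313554066) (nat_lit 13) (nat_lit 5) (nat_lit 15) (nat_lit 5) (nat_lit 16) (nat_lit 5) (nat_lit 292) (nat_lit 271) (nat_lit 157))))))) (XT.nd (nat_lit 936) (nat_lit 228) (nat_lit 0) (XT.nd (nat_lit 468) (nat_lit 228) (nat_lit 0) (XT.nd (nat_lit 234) (nat_lit 152) (nat_lit 0) (XT.nd (nat_lit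 78) (nat_lit 152) (nat_lit 0) (XT.lf (nat_lit 0) (nat_lit 87859404015) (nat_lit 152) (nat_lit 16541229113) (nat_lit 228) (nat_lit 22425135376) (nat_lit 13) (nat_lit 5) (nat_lit 15) (nat_lit 5) (nat_lit 16) (nat_lit 5) (nat_lit 293) (nat_lit 271) (nat_lit 156)) (XT.nd (nat_lit 78) (nat_lit 76) (nat_lit 0) (XT.lf (nat_lit 0) (nat_lit 7866695162) (nat_lit 76) (nat_lit 118462057967) (nat_lit 152) (nat_lit 7876818180) (nat_lit 12) (nat_lit 5) (nat_lit 13) (nat_lit 5) (nat_lit 14) (nat_lit 4) (nat_lit 294) (nat_lit 271) (nat_lit 155)) (XT.lf (nat_lit 0) (nat_lit 8965407370) (nat_lit 152) (nat_lit 82074918119) (nat_lit 76) (nat_lit 50998600831) (nat_lit 11) (nat_lit 5) (nat_lit 13) (nat_lit 5) (nat_lit 12) (nat_lit 5) (nat_lit 295) (nat_lit 271) (nat_lit 154)))) (XT.nd (nat_lit 78) (nat_lit 152) (nat_lit 0) (XT.lf (nat_lit 0) (nat_lit 26728786793) (nat_lit 152) (nat_lit 34475443358) (nat_lit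 76) (nat_lit 89278408845) (nat_lit 11) (nat_lit 5) (nat_lit 13) (nat_lit 5) (nat_lit 12) (nat_lit 5) (nat_lit 296) (nat_lit 271) (nat_lit 153)) (XT.nd (nat_lit 78) (nat_lit 0) (nat_lit 0) (XT.lf (nat_lit 0) (nat_lit 17822616205) (nat_lit 152) (nat_lit 28518633050) (nat_lit 228) (nat_lit 113226361168) (nat_lit 9) (nat_lit 5) (nat_lit 11) (nat_lit 5) (nat_lit 12) (nat_lit 5) (nat_lit 297) (nat_lit 271) (nat_lit 152)) (XT.lf (nat_lit 0) (nat_lit 68652309829) (nat_lit 228) (nat_lit 93227338669) (nat_lit 76) (nat_lit 7409365522) (nat_lit 9) (nat_lit 5) (nat_lit 12) (nat_lit 5) (nat_lit 10) (nat_lit 4) (nat_lit 298) (nat_lit 271) (nat_lit 151))))) (XT.nd (nat_lit 234) (nat_lit 152) (nat_lit 0) (XT.nd (nat_lit 78) (nat_lit 76) (nat_lit 0) (XT.lf (nat_lit 0) (nat_lit 93488438808) (nat_lit 228) (nat_lit 41569895745) (nat_lit 76) (nat_lit 44670583025) (nat_lit 9) (nat_lit 5) (nat_lit 12) (nat_lit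 5) (nat_lit 10) (nat_lit 4) (nat_lit 299) (nat_lit 271) (nat_lit 150)) (XT.nd (nat_lit 78) (nat_lit 0) (nat_lit 0) (XT.lf (nat_lit 0) (nat_lit 14968091080) (nat_lit 76) (nat_lit 105702831313) (nat_lit 152) (nat_lit 70304336067) (nat_lit 8) (nat_lit 5) (nat_lit 9) (nat_lit 5) (nat_lit 10) (nat_lit 4) (nat_lit 300) (nat_lit 271) (nat_lit 149)) (XT.lf (nat_lit 0) (nat_lit 78392438249) (nat_lit 76) (nat_lit 72771661660) (nat_lit 152) (nat_lit 51866321105) (nat_lit 8) (nat_lit 5) (nat_lit 9) (nat_lit 5) (nat_lit 10) (nat_lit 4) (nat_lit 301) (nat_lit 271) (nat_lit 148)))) (XT.nd (nat_lit 78) (nat_lit 152) (nat_lit 0) (XT.lf (nat_lit 0) (nat_lit 146889996703) (nat_lit 76) (nat_lit 37206272543) (nat_lit 152) (nat_lit 31953766190) (nat_lit 8) (nat_lit 5) (nat_lit 9) (nat_lit 5) (nat_lit 10) (nat_lit 4) (nat_lit 302) (nat_lit 271) (nat_lit 147)) (XT.nd (nat_lit 78) (nat_lit 152) (nat_lit 0)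 (XT.lf (nat_lit 0) (nat_lit 219691542483) (nat_lit 152) (nat_lit 9273535583) (nat_lit 0) (nat_lit 1143860248) (nat_lit 8) (nat_lit 5) (nat_lit 10) (nat_lit 4) (nat_lit 8) (nat_lit 4) (nat_lit 303) (nat_lit 271) (nat_lit 146)) (XT.lf (nat_lit 0) (nat_lit 14604508654) (nat_lit 152) (nat_lit 188171378896) (nat_lit 76) (nat_lit 42299557344) (nat_lit 6) (nat_lit 5) (nat_lit 8) (nat_lit 5) (nat_lit 7) (nat_lit 4) (nat_lit 304) (nat_lit 271) (nat_lit 145)))))) (XT.nd (nat_lit 468) (nat_lit 152) (nat_lit 0) (XT.nd (nat_lit 234) (nat_lit 76) (nat_lit 0) (XT.nd (nat_lit 78) (nat_lit 0) (nat_lit 0) (XT.lf (nat_lit 0) (nat_lit 41325097061) (nat_lit 152) (nat_lit 132593550067) (nat_lit 76) (nat_lit 87278200391) (nat_lit 6) (nat_lit 5) (nat_lit 8) (nat_lit 5) (nat_lit 7) (nat_lit 4) (nat_lit 305) (nat_lit 271) (nat_lit 144)) (XT.nd (nat_lit 78) (nat_lit 0) (nat_lit 0) (XT.lf (nat_lit 0) (nat_lit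 70182962893) (nat_lit 152) (nat_lit 72570110485) (nat_lit 76) (nat_lit 135854919820) (nat_lit 6) (nat_lit 5) (nat_lit 8) (nat_lit 5) (nat_lit 7) (nat_lit 4) (nat_lit 306) (nat_lit 271) (nat_lit 143)) (XT.lf (nat_lit 0) (nat_lit 101349115726) (nat_lit 152) (nat_lit 7745365695) (nat_lit 76) (nat_lit 188317577672) (nat_lit 6) (nat_lit 5) (nat_lit 8) (nat_lit 5) (nat_lit 7) (nat_lit 4) (nat_lit 307) (nat_lit 271) (nat_lit 142)))) (XT.nd (nat_lit 78) (nat_lit 0) (nat_lit 0) (XT.lf (nat_lit 0) (nat_lit 65543586594) (nat_lit 76) (nat_lit 71040982111) (nat_lit 152) (nat_lit 181009802012) (nat_lit 5) (nat_lit 5) (nat_lit 6) (nat_lit 5) (nat_lit 7) (nat_lit 4) (nat_lit 308) (nat_lit 271) (nat_lit 141)) (XT.nd (nat_lit 78) (nat_lit 0) (nat_lit 0) (XT.lf (nat_lit 0) (nat_lit 145135626498) (nat_lit 76) (nat_lit 29714697640) (nat_lit 152) (nat_lit 164524026846) (nat_lit 5) (nat_lit 5) (nat_lit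 6) (nat_lit 5) (nat_lit 7) (nat_lit 4) (nat_lit 309) (nat_lit 271) (nat_lit 140)) (XT.lf (nat_lit 0) (nat_lit 216535822999) (nat_lit 152) (nat_lit 132160966094) (nat_lit 0) (nat_lit 14171262878) (nat_lit 5) (nat_lit 5) (nat_lit 7) (nat_lit 4) (nat_lit 5) (nat_lit 4) (nat_lit 310) (nat_lit 271) (nat_lit 139))))) (XT.nd (nat_lit 234) (nat_lit 76) (nat_lit 0) (XT.nd (nat_lit 78) (nat_lit 76) (nat_lit 0) (XT.lf (nat_lit 0) (nat_lit 262327705614) (nat_lit 152) (nat_lit 65889255894) (nat_lit 0) (nat_lit 59962564887) (nat_lit 5) (nat_lit 5) (nat_lit 7) (nat_lit 4) (nat_lit 5) (nat_lit 4) (nat_lit 311) (nat_lit 271) (nat_lit 138)) (XT.nd (nat_lit 78) (nat_lit 0) (nat_lit 0) (XT.lf (nat_lit 0) (nat_lit 5983063622) (nat_lit 76) (nat_lit 305943521296) (nat_lit 76) (nat_lit 103577842971) (nat_lit 4) (nat_lit 4) (nat_lit 5) (nat_lit 5) (nat_lit 5) (nat_lit 4) (nat_lit 312) (nat_lit 271) (nat_lit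 137)) (XT.lf (nat_lit 0) (nat_lit 87351935244) (nat_lit 76) (nat_lit 279942729928) (nat_lit 76) (nat_lit 77576553826) (nat_lit 4) (nat_lit 4) (nat_lit 5) (nat_lit 5) (nat_lit 5) (nat_lit 4) (nat_lit 313) (nat_lit 271) (nat_lit 136)))) (XT.nd (nat_lit 78) (nat_lit 76) (nat_lit 0) (XT.lf (nat_lit 0) (nat_lit 175229933426) (nat_lit 76) (nat_lit 251862037662) (nat_lit 76) (nat_lit 49495400656) (nat_lit 4) (nat_lit 4) (nat_lit 5) (nat_lit 5) (nat_lit 5) (nat_lit 4) (nat_lit 314) (nat_lit 271) (nat_lit 135)) (XT.nd (nat_lit 78) (nat_lit 76) (nat_lit 0) (XT.lf (nat_lit 0) (nat_lit 270137816675) (nat_lit 76) (nat_lit 221535040396) (nat_lit 76) (nat_lit 19167976627) (nat_lit 4) (nat_lit 4) (nat_lit 5) (nat_lit 5) (nat_lit 5) (nat_lit 4) (nat_lit 315) (nat_lit 271) (nat_lit 134)) (XT.lf (nat_lit 0) (nat_lit 12905837781) (nat_lit 152) (nat_lit 175523316333) (nat_lit 76) (nat_lit 359379295821)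 (nat_lit 3) (nat_lit 5) (nat_lit 5) (nat_lit 5) (nat_lit 4) (nat_lit 4) (nat_lit 316) (nat_lit 271) (nat_lit 133))))))))
noncomputable def xc102 : XT := (XT.nd (nat_lit 34710) (nat_lit 0) (nat_lit 532) (XT.nd (nat_lit 858) (nat_lit 76) (nat_lit 0) (XT.nd (nat_lit 390) (nat_lit 0) (nat_lit 0) (XT.nd (nat_lit 156) (nat_lit 76) (nat_lit 0) (XT.nd (nat_lit 78) (nat_lit 0) (nat_lit 0) (XT.lf (nat_lit 0) (nat_lit 46509808421) (nat_lit 152) (nat_lit 105627423283) (nat_lit 76) (nat_lit 435556429137) (nat_lit 3) (nat_lit 5) (nat_lit 5) (nat_lit 5) (nat_lit 4) (nat_lit 4) (nat_lit 317) (nat_lit 271) (nat_lit 132)) (XT.lf (nat_lit 0) (nat_lit 82801929753) (nat_lit 152) (nat_lit 30140149690) (nat_lit 76) (nat_lit 517827623000) (nat_lit 3) (nat_lit 5) (nat_lit 5) (nat_lit 5) (nat_lit 4) (nat_lit 4) (nat_lit 318) (nat_lit 271) (nat_lit 131))) (XT.nd (nat_lit 78) (nat_lit 0) (nat_lit 0) (XT.lf (nat_lit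 0) (nat_lit 54091723521) (nat_lit 76) (nat_lit 69206449932) (nat_lit 152) (nat_lit 553889594142) (nat_lit 2) (nat_lit 5) (nat_lit 3) (nat_lit 5) (nat_lit 4) (nat_lit 4) (nat_lit 319) (nat_lit 271) (nat_lit 130)) (XT.nd (nat_lit 78) (nat_lit 0) (nat_lit 0) (XT.lf (nat_lit 0) (nat_lit 146775981074) (nat_lit 76) (nat_lit 21082071225) (nat_lit 152) (nat_lit 559395311209) (nat_lit 2) (nat_lit 5) (nat_lit 3) (nat_lit 5) (nat_lit 4) (nat_lit 4) (nat_lit 320) (nat_lit 271) (nat_lit 129)) (XT.lf (nat_lit 0) (nat_lit 216725540095) (nat_lit 152) (nat_lit 535192439416) (nat_lit 0) (nat_lit 29346802463) (nat_lit 2) (nat_lit 5) (nat_lit 4) (nat_lit 4) (nat_lit 2) (nat_lit 4) (nat_lit 321) (nat_lit 271) (nat_lit 128))))) (XT.nd (nat_lit 234) (nat_lit 0) (nat_lit 0) (XT.nd (nat_lit 78) (nat_lit 0) (nat_lit 0) (XT.lf (nat_lit 0) (nat_lit 270049882716) (nat_lit 152) (nat_lit 486832520566) (nat_lit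 0) (nat_lit 82670914517) (nat_lit 2) (nat_lit 5) (nat_lit 4) (nat_lit 4) (nat_lit 2) (nat_lit 4) (nat_lit 322) (nat_lit 271) (nat_lit 127)) (XT.nd (nat_lit 78) (nat_lit 0) (nat_lit 0) (XT.lf (nat_lit 0) (nat_lit 327640051946) (nat_lit 152) (nat_lit 434604024266) (nat_lit 0) (nat_lit 140260870259) (nat_lit 2) (nat_lit 5) (nat_lit 4) (nat_lit 4) (nat_lit 2) (nat_lit 4) (nat_lit 323) (nat_lit 271) (nat_lit 126)) (XT.lf (nat_lit 0) (nat_lit 389837322862) (nat_lit 152) (nat_lit 378197448317) (nat_lit 0) (nat_lit 202457943502) (nat_lit 2) (nat_lit 5) (nat_lit 4) (nat_lit 4) (nat_lit 2) (nat_lit 4) (nat_lit 324) (nat_lit 271) (nat_lit 125)))) (XT.nd (nat_lit 78) (nat_lit 0) (nat_lit 0) (XT.lf (nat_lit 0) (nat_lit 457010271885) (nat_lit 152) (nat_lit 317278531528) (nat_lit 0) (nat_lit 269630709493) (nat_lit 2) (nat_lit 5) (nat_lit 4) (nat_lit 4) (nat_lit 2) (nat_lit 4) (nat_lit 325) (nat_lit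 271) (nat_lit 124)) (XT.nd (nat_lit 78) (nat_lit 0) (nat_lit 0) (XT.lf (nat_lit 0) (nat_lit 529556960934) (nat_lit 152) (nat_lit 251486272910) (nat_lit 0) (nat_lit 342177229069) (nat_lit 2) (nat_lit 5) (nat_lit 4) (nat_lit 4) (nat_lit 2) (nat_lit 4) (nat_lit 326) (nat_lit 271) (nat_lit 123)) (XT.lf (nat_lit 0) (nat_lit 607907296316) (nat_lit 152) (nat_lit 180430792412) (nat_lit 0) (nat_lit 420527407531) (nat_lit 2) (nat_lit 5) (nat_lit 4) (nat_lit 4) (nat_lit 2) (nat_lit 4) (nat_lit 327) (nat_lit 271) (nat_lit 122)))))) (XT.nd (nat_lit 33384) (nat_lit 0) (nat_lit 2204) (XT.nd (nat_lit 33150) (nat_lit 0) (nat_lit 2128) (XT.nd (nat_lit 78) (nat_lit 76) (nat_lit 0) (XT.lf (nat_lit 0) (nat_lit 692525576314) (nat_lit 152) (nat_lit 103691020521) (nat_lit 0) (nat_lit 505145542232) (nat_lit 2) (nat_lit 5) (nat_lit 4) (nat_lit 4) (nat_lit 2) (nat_lit 4) (nat_lit 328) (nat_lit 271) (nat_lit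 121)) (XT.nd (nat_lit 78) (nat_lit 76) (nat_lit 0) (XT.lf (nat_lit 0) (nat_lit 783913242586) (nat_lit 152) (nat_lit 20812203032) (nat_lit 0) (nat_lit 596533073972) (nat_lit 2) (nat_lit 5) (nat_lit 4) (nat_lit 4) (nat_lit 2) (nat_lit 4) (nat_lit 329) (nat_lit 271) (nat_lit 120)) (XT.lf (nat_lit 0) (nat_lit 72314245206) (nat_lit 76) (nat_lit 812036765805) (nat_lit 76) (nat_lit 624656472622) (nat_lit 1) (nat_lit 4) (nat_lit 2) (nat_lit 5) (nat_lit 2) (nat_lit 4) (nat_lit 330) (nat_lit 271) (nat_lit 119)))) (XT.nd (nat_lit 78) (nat_lit 0) (nat_lit 0) (XT.lf (nat_lit 0) (nat_lit 4110028033) (nat_lit 532) (nat_lit 10029088007) (nat_lit 532) (nat_lit 10029088007) (nat_lit 29) (nat_lit 3) (nat_lit 36) (nat_lit 3) (nat_lit 36) (nat_lit 5) (nat_lit 272) (nat_lit 272) (nat_lit 176)) (XT.nd (nat_lit 78) (nat_lit 0) (nat_lit 76) (XT.lf (nat_lit 0) (nat_lit 8573351955) (nat_lit 532) (nat_lit 462864313)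 (nat_lit 532) (nat_lit 41231514384) (nat_lit 29) (nat_lit 3) (nat_lit 36) (nat_lit 3) (nat_lit 36) (nat_lit 5) (nat_lit 273) (nat_lit 272) (nat_lit 175)) (XT.lf (nat_lit 0) (nat_lit 9772588891) (nat_lit 456) (nat_lit 30819260874) (nat_lit 532) (nat_lit 11696312493) (nat_lit 30) (nat_lit 5) (nat_lit 36) (nat_lit 5) (nat_lit 37) (nat_lit 5) (nat_lit 274) (nat_lit 272) (nat_lit 174))))) (XT.nd (nat_lit 234) (nat_lit 0) (nat_lit 76) (XT.nd (nat_lit 78) (nat_lit 0) (nat_lit 76) (XT.lf (nat_lit 0) (nat_lit 11313179795) (nat_lit 456) (nat_lit 9524242289) (nat_lit 532) (nat_lit 33613189252) (nat_lit 30) (nat_lit 5) (nat_lit 36) (nat_lit 5) (nat_lit 37) (nat_lit 5) (nat_lit 275) (nat_lit 272) (nat_lit 173)) (XT.nd (nat_lit 78) (nat_lit 0) (nat_lit 0) (XT.lf (nat_lit 0) (nat_lit 13336835945) (nat_lit 456) (nat_lit 42597359956) (nat_lit 532) (nat_lit 823089949) (nat_lit 31) (nat_lit 5) (nat_lit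 37) (nat_lit 5) (nat_lit 38) (nat_lit 5) (nat_lit 276) (nat_lit 272) (nat_lit 172)) (XT.lf (nat_lit 0) (nat_lit 16328820084) (nat_lit 456) (nat_lit 19496738909) (nat_lit 532) (nat_lit 23358434335) (nat_lit 31) (nat_lit 5) (nat_lit 37) (nat_lit 5) (nat_lit 38) (nat_lit 5) (nat_lit 277) (nat_lit 272) (nat_lit 171)))) (XT.nd (nat_lit 78) (nat_lit 0) (nat_lit 76) (XT.lf (nat_lit 76) (nat_lit 5737499059) (nat_lit 0) (nat_lit 13958826999) (nat_lit 532) (nat_lit 42097631114) (nat_lit 32) (nat_lit 5) (nat_lit 31) (nat_lit 5) (nat_lit 38) (nat_lit 5) (nat_lit 278) (nat_lit 272) (nat_lit 170)) (XT.nd (nat_lit 78) (nat_lit 0) (nat_lit 0) (XT.lf (nat_lit 0) (nat_lit 24110695826) (nat_lit 456) (nat_lit 30718468586) (nat_lit 76) (nat_lit 9721368511) (nat_lit 32) (nat_lit 5) (nat_lit 38) (nat_lit 5) (nat_lit 33) (nat_lit 5) (nat_lit 279) (nat_lit 272) (nat_lit 169)) (XT.lf (nat_lit 0) (nat_lit 29239194027)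 (nat_lit 456) (nat_lit 3717457131) (nat_lit 76) (nat_lit 34542116256) (nat_lit 32) (nat_lit 5) (nat_lit 38) (nat_lit 5) (nat_lit 33) (nat_lit 5) (nat_lit 280) (nat_lit 272) (nat_lit 168))))))) (XT.nd (nat_lit 936) (nat_lit 532) (nat_lit 0) (XT.nd (nat_lit 468) (nat_lit 456) (nat_lit 0) (XT.nd (nat_lit 234) (nat_lit 152) (nat_lit 0) (XT.nd (nat_lit 78) (nat_lit 228) (nat_lit 0) (XT.lf (nat_lit 0) (nat_lit 26782038397) (nat_lit 456) (nat_lit 8638571907) (nat_lit 532) (nat_lit 35210849478) (nat_lit 26) (nat_lit 5) (nat_lit 32) (nat_lit 5) (nat_lit 33) (nat_lit 5) (nat_lit 281) (nat_lit 272) (nat_lit 167)) (XT.nd (nat_lit 78) (nat_lit 228) (nat_lit 0) (XT.lf (nat_lit 0) (nat_lit 42623311377) (nat_lit 532) (nat_lit 14501679906) (nat_lit 76) (nat_lit 16847643957) (nat_lit 26) (nat_lit 5) (nat_lit 33) (nat_lit 5) (nat_lit 27) (nat_lit 5) (nat_lit 282) (nat_lit 272) (nat_lit 166)) (XT.lf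 (nat_lit 0) (nat_lit 17861690813) (nat_lit 228) (nat_lit 33193202361) (nat_lit 304) (nat_lit 26474007111) (nat_lit 23) (nat_lit 5) (nat_lit 26) (nat_lit 5) (nat_lit 27) (nat_lit 5) (nat_lit 283) (nat_lit 272) (nat_lit 165)))) (XT.nd (nat_lit 78) (nat_lit 152) (nat_lit 0) (XT.lf (nat_lit 0) (nat_lit 53637562438) (nat_lit 228) (nat_lit 6918717087) (nat_lit 304) (nat_lit 20781772844) (nat_lit 23) (nat_lit 5) (nat_lit 26) (nat_lit 5) (nat_lit 27) (nat_lit 5) (nat_lit 284) (nat_lit 272) (nat_lit 164)) (XT.nd (nat_lit 78) (nat_lit 0) (nat_lit 0) (XT.lf (nat_lit 0) (nat_lit 6638289427) (nat_lit 152) (nat_lit 64854062723) (nat_lit 228) (nat_lit 13905625919) (nat_lit 21) (nat_lit 5) (nat_lit 23) (nat_lit 5) (nat_lit 24) (nat_lit 5) (nat_lit 285) (nat_lit 272) (nat_lit 163)) (XT.lf (nat_lit 0) (nat_lit 45109092275) (nat_lit 152) (nat_lit 39125675411) (nat_lit 228) (nat_lit 5473420495) (nat_lit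 21) (nat_lit 5) (nat_lit 23) (nat_lit 5) (nat_lit 24) (nat_lit 5) (nat_lit 286) (nat_lit 272) (nat_lit 162))))) (XT.nd (nat_lit 234) (nat_lit 152) (nat_lit 0) (XT.nd (nat_lit 78) (nat_lit 228) (nat_lit 0) (XT.lf (nat_lit 0) (nat_lit 3450573108) (nat_lit 228) (nat_lit 7794265429) (nat_lit 76) (nat_lit 83111474532) (nat_lit 20) (nat_lit 5) (nat_lit 23) (nat_lit 5) (nat_lit 21) (nat_lit 5) (nat_lit 287) (nat_lit 272) (nat_lit 161)) (XT.nd (nat_lit 78) (nat_lit 0) (nat_lit 0) (XT.lf (nat_lit 0) (nat_lit 14075526865) (nat_lit 304) (nat_lit 66292120195) (nat_lit 76) (nat_lit 18894653238) (nat_lit 17) (nat_lit 5) (nat_lit 21) (nat_lit 5) (nat_lit 18) (nat_lit 5) (nat_lit 288) (nat_lit 272) (nat_lit 160)) (XT.lf (nat_lit 0) (nat_lit 26060278180) (nat_lit 304) (nat_lit 27403459681) (nat_lit 76) (nat_lit 51056249635) (nat_lit 17) (nat_lit 5) (nat_lit 21) (nat_lit 5) (nat_lit 18) (nat_lit 5)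 (nat_lit 289) (nat_lit 272) (nat_lit 159)))) (XT.nd (nat_lit 78) (nat_lit 0) (nat_lit 0) (XT.lf (nat_lit 0) (nat_lit 15363757598) (nat_lit 152) (nat_lit 24008701851) (nat_lit 228) (nat_lit 70796342945) (nat_lit 15) (nat_lit 5) (nat_lit 17) (nat_lit 5) (nat_lit 18) (nat_lit 5) (nat_lit 290) (nat_lit 272) (nat_lit 158)) (XT.nd (nat_lit 78) (nat_lit 0) (nat_lit 0) (XT.lf (nat_lit 0) (nat_lit 54705173909) (nat_lit 228) (nat_lit 53307016702) (nat_lit 76) (nat_lit 8180891541) (nat_lit 15) (nat_lit 5) (nat_lit 18) (nat_lit 5) (nat_lit 16) (nat_lit 5) (nat_lit 291) (nat_lit 272) (nat_lit 157)) (XT.lf (nat_lit 0) (nat_lit 71887350993) (nat_lit 228) (nat_lit 9113794333) (nat_lit 76) (nat_lit 41648335368) (nat_lit 15) (nat_lit 5) (nat_lit 18) (nat_lit 5) (nat_lit 16) (nat_lit 5) (nat_lit 292) (nat_lit 272) (nat_lit 156)))))) (XT.nd (nat_lit 468) (nat_lit 76) (nat_lit 0) (XT.nd (nat_lit 234)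 (nat_lit 228) (nat_lit 0) (XT.nd (nat_lit 78) (nat_lit 76) (nat_lit 0) (XT.lf (nat_lit 0) (nat_lit 40647258417) (nat_lit 152) (nat_lit 50773710277) (nat_lit 228) (nat_lit 38123276849) (nat_lit 13) (nat_lit 5) (nat_lit 15) (nat_lit 5) (nat_lit 16) (nat_lit 5) (nat_lit 293) (nat_lit 272) (nat_lit 155)) (XT.nd (nat_lit 78) (nat_lit 76) (nat_lit 0) (XT.lf (nat_lit 0) (nat_lit 94906561556) (nat_lit 152) (nat_lit 17859229698) (nat_lit 228) (nat_lit 24204922555) (nat_lit 13) (nat_lit 5) (nat_lit 15) (nat_lit 5) (nat_lit 16) (nat_lit 5) (nat_lit 294) (nat_lit 272) (nat_lit 154)) (XT.lf (nat_lit 0) (nat_lit 8514933772) (nat_lit 76) (nat_lit 127932828750) (nat_lit 152) (nat_lit 8493175189) (nat_lit 12) (nat_lit 5) (nat_lit 13) (nat_lit 5) (nat_lit 14) (nat_lit 4) (nat_lit 295) (nat_lit 272) (nat_lit 153)))) (XT.nd (nat_lit 78) (nat_lit 152) (nat_lit 0) (XT.lf (nat_lit 0) (nat_lit 9694768377)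 (nat_lit 152) (nat_lit 88622716488) (nat_lit 76) (nat_lit 55083531642) (nat_lit 11) (nat_lit 5) (nat_lit 13) (nat_lit 5) (nat_lit 12) (nat_lit 5) (nat_lit 296) (nat_lit 272) (nat_lit 152)) (XT.nd (nat_lit 78) (nat_lit 152) (nat_lit 0) (XT.lf (nat_lit 0) (nat_lit 28878319753) (nat_lit 152) (nat_lit 37216631530) (nat_lit 76) (nat_lit 96425350761) (nat_lit 11) (nat_lit 5) (nat_lit 13) (nat_lit 5) (nat_lit 12) (nat_lit 5) (nat_lit 297) (nat_lit 272) (nat_lit 151)) (XT.lf (nat_lit 0) (nat_lit 19264846284) (nat_lit 152) (nat_lit 30794495994) (nat_lit 228) (nat_lit 122272767540) (nat_lit 9) (nat_lit 5) (nat_lit 11) (nat_lit 5) (nat_lit 12) (nat_lit 5) (nat_lit 298) (nat_lit 272) (nat_lit 150))))) (XT.nd (nat_lit 234) (nat_lit 0) (nat_lit 0) (XT.nd (nat_lit 78) (nat_lit 76) (nat_lit 0) (XT.lf (nat_lit 0) (nat_lit 74154613532) (nat_lit 228) (nat_lit 100669604582) (nat_lit 76) (nat_lit 8007064930)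 (nat_lit 9) (nat_lit 5) (nat_lit 12) (nat_lit 5) (nat_lit 10) (nat_lit 4) (nat_lit 299) (nat_lit 272) (nat_lit 149)) (XT.nd (nat_lit 78) (nat_lit 76) (nat_lit 0) (XT.lf (nat_lit 0) (nat_lit 100976883280) (nat_lit 228) (nat_lit 44880745571) (nat_lit 76) (nat_lit 48248813153) (nat_lit 9) (nat_lit 5) (nat_lit 12) (nat_lit 5) (nat_lit 10) (nat_lit 4) (nat_lit 300) (nat_lit 272) (nat_lit 148)) (XT.lf (nat_lit 0) (nat_lit 16179906989) (nat_lit 76) (nat_lit 114153710101) (nat_lit 152) (nat_lit 75918903865) (nat_lit 8) (nat_lit 5) (nat_lit 9) (nat_lit 5) (nat_lit 10) (nat_lit 4) (nat_lit 301) (nat_lit 272) (nat_lit 147)))) (XT.nd (nat_lit 78) (nat_lit 0) (nat_lit 0) (XT.lf (nat_lit 0) (nat_lit 84677137590) (nat_lit 76) (nat_lit 78588443003) (nat_lit 152) (nat_lit 56006572083) (nat_lit 8) (nat_lit 5) (nat_lit 9) (nat_lit 5) (nat_lit 10) (nat_lit 4) (nat_lit 302) (nat_lit 272) (nat_lit 146))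 (XT.nd (nat_lit 78) (nat_lit 0) (nat_lit 0) (XT.lf (nat_lit 0) (nat_lit 158653515217) (nat_lit 76) (nat_lit 40178189540) (nat_lit 152) (nat_lit 34501683494) (nat_lit 8) (nat_lit 5) (nat_lit 9) (nat_lit 5) (nat_lit 10) (nat_lit 4) (nat_lit 303) (nat_lit 272) (nat_lit 145)) (XT.lf (nat_lit 0) (nat_lit 237274129065) (nat_lit 152) (nat_lit 10003512381) (nat_lit 0) (nat_lit 1239401896) (nat_lit 8) (nat_lit 5) (nat_lit 10) (nat_lit 4) (nat_lit 8) (nat_lit 4) (nat_lit 304) (nat_lit 272) (nat_lit 144))))))))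
noncomputable def xc103 : XT := (XT.nd (nat_lit 1872) (nat_lit 0) (nat_lit 0) (XT.nd (nat_lit 936) (nat_lit 152) (nat_lit 0) (XT.nd (nat_lit 468) (nat_lit 76) (nat_lit 0) (XT.nd (nat_lit 234) (nat_lit 76) (nat_lit 0) (XT.nd (nat_lit 78) (nat_lit 0) (nat_lit 0) (XT.lf (nat_lit 0) (nat_lit 15780081029) (nat_lit 152) (nat_lit 203213079976) (nat_lit 76) (nat_lit 45687717699) (nat_lit 6) (nat_lit 5) (nat_lit 8) (nat_lit 5) (nat_lit 7) (nat_lit 4) (nat_lit 305) (nat_lit 272) (nat_lit 143)) (XT.nd (nat_lit 78) (nat_lit 0) (nat_lit 0) (XT.lf (nat_lit 0) (nat_lit 44637782310) (nat_lit 152) (nat_lit 143189914413) (nat_lit 76) (nat_lit 94264341391) (nat_lit 6) (nat_lit 5) (nat_lit 8) (nat_lit 5) (nat_lit 7) (nat_lit 4) (nat_lit 306) (nat_lit 272) (nat_lit 142)) (XT.lf (nat_lit 0) (nat_lit 75803782780) (nat_lit 152) (nat_lit 78365423343) (nat_lit 76) (nat_lit 146726910599) (nat_lit 6) (nat_lit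 5) (nat_lit 8) (nat_lit 5) (nat_lit 7) (nat_lit 4) (nat_lit 307) (nat_lit 272) (nat_lit 141)))) (XT.nd (nat_lit 78) (nat_lit 76) (nat_lit 0) (XT.lf (nat_lit 0) (nat_lit 109462769850) (nat_lit 152) (nat_lit 8355461635) (nat_lit 76) (nat_lit 203386314621) (nat_lit 6) (nat_lit 5) (nat_lit 8) (nat_lit 5) (nat_lit 7) (nat_lit 4) (nat_lit 308) (nat_lit 272) (nat_lit 140)) (XT.nd (nat_lit 78) (nat_lit 0) (nat_lit 0) (XT.lf (nat_lit 0) (nat_lit 70796365487) (nat_lit 76) (nat_lit 76720492989) (nat_lit 152) (nat_lit 195484601692) (nat_lit 5) (nat_lit 5) (nat_lit 6) (nat_lit 5) (nat_lit 7) (nat_lit 4) (nat_lit 309) (nat_lit 272) (nat_lit 139)) (XT.lf (nat_lit 0) (nat_lit 156755080290) (nat_lit 76) (nat_lit 32088384848) (nat_lit 152) (nat_lit 177680407809) (nat_lit 5) (nat_lit 5) (nat_lit 6) (nat_lit 5) (nat_lit 7) (nat_lit 4) (nat_lit 310) (nat_lit 272) (nat_lit 138))))) (XT.nd (nat_lit 234)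 (nat_lit 0) (nat_lit 0) (XT.nd (nat_lit 78) (nat_lit 76) (nat_lit 0) (XT.lf (nat_lit 0) (nat_lit 233863502699) (nat_lit 152) (nat_lit 142725560152) (nat_lit 0) (nat_lit 15308032510) (nat_lit 5) (nat_lit 5) (nat_lit 7) (nat_lit 4) (nat_lit 5) (nat_lit 4) (nat_lit 311) (nat_lit 272) (nat_lit 137)) (XT.nd (nat_lit 78) (nat_lit 76) (nat_lit 0) (XT.lf (nat_lit 0) (nat_lit 283318379341) (nat_lit 152) (nat_lit 71152726709) (nat_lit 0) (nat_lit 64762411375) (nat_lit 5) (nat_lit 5) (nat_lit 7) (nat_lit 4) (nat_lit 5) (nat_lit 4) (nat_lit 312) (nat_lit 272) (nat_lit 136)) (XT.lf (nat_lit 0) (nat_lit 6469184200) (nat_lit 76) (nat_lit 330415834407) (nat_lit 76) (nat_lit 111859405537) (nat_lit 4) (nat_lit 4) (nat_lit 5) (nat_lit 5) (nat_lit 5) (nat_lit 4) (nat_lit 313) (nat_lit 272) (nat_lit 135)))) (XT.nd (nat_lit 78) (nat_lit 0) (nat_lit 0) (XT.lf (nat_lit 0) (nat_lit 94347011812) (nat_lit 76)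 (nat_lit 302335214440) (nat_lit 76) (nat_lit 83778358807) (nat_lit 4) (nat_lit 4) (nat_lit 5) (nat_lit 5) (nat_lit 5) (nat_lit 4) (nat_lit 314) (nat_lit 272) (nat_lit 134)) (XT.nd (nat_lit 78) (nat_lit 0) (nat_lit 0) (XT.lf (nat_lit 0) (nat_lit 189254737126) (nat_lit 76) (nat_lit 272008284117) (nat_lit 76) (nat_lit 53451033333) (nat_lit 4) (nat_lit 4) (nat_lit 5) (nat_lit 5) (nat_lit 5) (nat_lit 4) (nat_lit 315) (nat_lit 272) (nat_lit 133)) (XT.lf (nat_lit 0) (nat_lit 291754776293) (nat_lit 76) (nat_lit 239255328296) (nat_lit 76) (nat_lit 20697711632) (nat_lit 4) (nat_lit 4) (nat_lit 5) (nat_lit 5) (nat_lit 5) (nat_lit 4) (nat_lit 316) (nat_lit 272) (nat_lit 132)))))) (XT.nd (nat_lit 468) (nat_lit 0) (nat_lit 0) (XT.nd (nat_lit 234) (nat_lit 76) (nat_lit 0) (XT.nd (nat_lit 78) (nat_lit 0) (nat_lit 0) (XT.lf (nat_lit 0) (nat_lit 13941562100) (nat_lit 152) (nat_lit 189559506272) (nat_lit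 76) (nat_lit 388131787837) (nat_lit 3) (nat_lit 5) (nat_lit 5) (nat_lit 5) (nat_lit 4) (nat_lit 4) (nat_lit 317) (nat_lit 272) (nat_lit 131)) (XT.nd (nat_lit 78) (nat_lit 0) (nat_lit 0) (XT.lf (nat_lit 0) (nat_lit 50233609110) (nat_lit 152) (nat_lit 114072362176) (nat_lit 76) (nat_lit 470402932681) (nat_lit 3) (nat_lit 5) (nat_lit 5) (nat_lit 5) (nat_lit 4) (nat_lit 4) (nat_lit 318) (nat_lit 272) (nat_lit 130)) (XT.lf (nat_lit 0) (nat_lit 89428876740) (nat_lit 152) (nat_lit 32546495952) (nat_lit 76) (nat_lit 559255674704) (nat_lit 3) (nat_lit 5) (nat_lit 5) (nat_lit 5) (nat_lit 4) (nat_lit 4) (nat_lit 319) (nat_lit 272) (nat_lit 129)))) (XT.nd (nat_lit 78) (nat_lit 0) (nat_lit 0) (XT.lf (nat_lit 0) (nat_lit 58423803932) (nat_lit 76) (nat_lit 74740923201) (nat_lit 152) (nat_lit 598197838632) (nat_lit 2) (nat_lit 5) (nat_lit 3) (nat_lit 5) (nat_lit 4) (nat_lit 4) (nat_lit 320) (nat_lit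 272) (nat_lit 128)) (XT.nd (nat_lit 78) (nat_lit 0) (nat_lit 0) (XT.lf (nat_lit 0) (nat_lit 158522450791) (nat_lit 76) (nat_lit 22766745511) (nat_lit 152) (nat_lit 604144229585) (nat_lit 2) (nat_lit 5) (nat_lit 3) (nat_lit 5) (nat_lit 4) (nat_lit 4) (nat_lit 321) (nat_lit 272) (nat_lit 127)) (XT.lf (nat_lit 0) (nat_lit 234065940069) (nat_lit 152) (nat_lit 578003619343) (nat_lit 0) (nat_lit 31696210360) (nat_lit 2) (nat_lit 5) (nat_lit 4) (nat_lit 4) (nat_lit 2) (nat_lit 4) (nat_lit 322) (nat_lit 272) (nat_lit 126))))) (XT.nd (nat_lit 234) (nat_lit 0) (nat_lit 0) (XT.nd (nat_lit 78) (nat_lit 0) (nat_lit 0) (XT.lf (nat_lit 0) (nat_lit 291656055524) (nat_lit 152) (nat_lit 525775219224) (nat_lit 0) (nat_lit 89286128141) (nat_lit 2) (nat_lit 5) (nat_lit 4) (nat_lit 4) (nat_lit 2) (nat_lit 4) (nat_lit 323) (nat_lit 272) (nat_lit 125)) (XT.nd (nat_lit 78) (nat_lit 0) (nat_lit 0) (XT.lf (nat_lit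 0) (nat_lit 353853276649) (nat_lit 152) (nat_lit 469368732330) (nat_lit 0) (nat_lit 151483166234) (nat_lit 2) (nat_lit 5) (nat_lit 4) (nat_lit 4) (nat_lit 2) (nat_lit 4) (nat_lit 324) (nat_lit 272) (nat_lit 124)) (XT.lf (nat_lit 0) (nat_lit 421026179568) (nat_lit 152) (nat_lit 408449898000) (nat_lit 0) (nat_lit 218655899680) (nat_lit 2) (nat_lit 5) (nat_lit 4) (nat_lit 4) (nat_lit 2) (nat_lit 4) (nat_lit 325) (nat_lit 272) (nat_lit 123)))) (XT.nd (nat_lit 78) (nat_lit 0) (nat_lit 0) (XT.lf (nat_lit 0) (nat_lit 493572825929) (nat_lit 152) (nat_lit 342657715733) (nat_lit 0) (nat_lit 291202389122) (nat_lit 2) (nat_lit 5) (nat_lit 4) (nat_lit 4) (nat_lit 2) (nat_lit 4) (nat_lit 326) (nat_lit 272) (nat_lit 122)) (XT.nd (nat_lit 78) (nat_lit 0) (nat_lit 0) (XT.lf (nat_lit 0) (nat_lit 571923121785) (nat_lit 152) (nat_lit 271602305931) (nat_lit 0) (nat_lit 369552539681) (nat_lit 2) (nat_lit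 5) (nat_lit 4) (nat_lit 4) (nat_lit 2) (nat_lit 4) (nat_lit 327) (nat_lit 272) (nat_lit 121)) (XT.lf (nat_lit 0) (nat_lit 656541365184) (nat_lit 152) (nat_lit 194862599498) (nat_lit 0) (nat_lit 454170648547) (nat_lit 2) (nat_lit 5) (nat_lit 4) (nat_lit 4) (nat_lit 2) (nat_lit 4) (nat_lit 328) (nat_lit 272) (nat_lit 120))))))) (XT.nd (nat_lit 33930) (nat_lit 0) (nat_lit 836) (XT.nd (nat_lit 33462) (nat_lit 0) (nat_lit 1824) (XT.nd (nat_lit 33228) (nat_lit 0) (nat_lit 2052) (XT.nd (nat_lit 78) (nat_lit 0) (nat_lit 0) (XT.lf (nat_lit 0) (nat_lit 747928997569) (nat_lit 152) (nat_lit 111983842619) (nat_lit 0) (nat_lit 545558156364) (nat_lit 2) (nat_lit 5) (nat_lit 4) (nat_lit 4) (nat_lit 2) (nat_lit 4) (nat_lit 329) (nat_lit 272) (nat_lit 119)) (XT.nd (nat_lit 33072) (nat_lit 0) (nat_lit 2052) (XT.lf (nat_lit 0) (nat_lit 846627575281) (nat_lit 152) (nat_lit 22474901920) (nat_lit 0) (nat_lit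 644256618735) (nat_lit 2) (nat_lit 5) (nat_lit 4) (nat_lit 4) (nat_lit 2) (nat_lit 4) (nat_lit 330) (nat_lit 272) (nat_lit 118)) (XT.lf (nat_lit 0) (nat_lit 4462734849) (nat_lit 532) (nat_lit 10818421536) (nat_lit 532) (nat_lit 10818421536) (nat_lit 29) (nat_lit 3) (nat_lit 36) (nat_lit 3) (nat_lit 36) (nat_lit 5) (nat_lit 273) (nat_lit 273) (nat_lit 174)))) (XT.nd (nat_lit 78) (nat_lit 0) (nat_lit 76) (XT.lf (nat_lit 0) (nat_lit 9303487839) (nat_lit 532) (nat_lit 475831399) (nat_lit 532) (nat_lit 44505973476) (nat_lit 29) (nat_lit 3) (nat_lit 36) (nat_lit 3) (nat_lit 36) (nat_lit 5) (nat_lit 274) (nat_lit 273) (nat_lit 173)) (XT.nd (nat_lit 78) (nat_lit 0) (nat_lit 0) (XT.lf (nat_lit 0) (nat_lit 10595513380) (nat_lit 456) (nat_lit 33257297695) (nat_lit 532) (nat_lit 12614823132) (nat_lit 30) (nat_lit 5) (nat_lit 36) (nat_lit 5) (nat_lit 37) (nat_lit 5) (nat_lit 275) (nat_lit 273)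 (nat_lit 172)) (XT.lf (nat_lit 0) (nat_lit 12256305825) (nat_lit 456) (nat_lit 10260714959) (nat_lit 532) (nat_lit 36286323688) (nat_lit 30) (nat_lit 5) (nat_lit 36) (nat_lit 5) (nat_lit 37) (nat_lit 5) (nat_lit 276) (nat_lit 273) (nat_lit 171))))) (XT.nd (nat_lit 234) (nat_lit 380) (nat_lit 0) (XT.nd (nat_lit 78) (nat_lit 0) (nat_lit 0) (XT.lf (nat_lit 0) (nat_lit 14439366127) (nat_lit 456) (nat_lit 45976943664) (nat_lit 532) (nat_lit 878462227) (nat_lit 31) (nat_lit 5) (nat_lit 37) (nat_lit 5) (nat_lit 38) (nat_lit 5) (nat_lit 277) (nat_lit 273) (nat_lit 170)) (XT.nd (nat_lit 78) (nat_lit 0) (nat_lit 0) (XT.lf (nat_lit 0) (nat_lit 17668073196) (nat_lit 456) (nat_lit 21030362199) (nat_lit 532) (nat_lit 25217410084) (nat_lit 31) (nat_lit 5) (nat_lit 37) (nat_lit 5) (nat_lit 38) (nat_lit 5) (nat_lit 278) (nat_lit 273) (nat_lit 169)) (XT.lf (nat_lit 76) (nat_lit 6221953647) (nat_lit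 0) (nat_lit 15081197630) (nat_lit 532) (nat_lit 45431618571) (nat_lit 32) (nat_lit 5) (nat_lit 31) (nat_lit 5) (nat_lit 38) (nat_lit 5) (nat_lit 279) (nat_lit 273) (nat_lit 168)))) (XT.nd (nat_lit 78) (nat_lit 456) (nat_lit 0) (XT.lf (nat_lit 0) (nat_lit 26068239367) (nat_lit 456) (nat_lit 33149747192) (nat_lit 76) (nat_lit 10494095481) (nat_lit 32) (nat_lit 5) (nat_lit 38) (nat_lit 5) (nat_lit 33) (nat_lit 5) (nat_lit 280) (nat_lit 273) (nat_lit 167)) (XT.nd (nat_lit 78) (nat_lit 456) (nat_lit 0) (XT.lf (nat_lit 0) (nat_lit 31604892396) (nat_lit 456) (nat_lit 3990595479) (nat_lit 76) (nat_lit 37300872121) (nat_lit 32) (nat_lit 5) (nat_lit 38) (nat_lit 5) (nat_lit 33) (nat_lit 5) (nat_lit 281) (nat_lit 273) (nat_lit 166)) (XT.lf (nat_lit 0) (nat_lit 28948245559) (nat_lit 456) (nat_lit 9331177439) (nat_lit 532) (nat_lit 38000370287) (nat_lit 26) (nat_lit 5) (nat_lit 32) (nat_lit 5)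 (nat_lit 33) (nat_lit 5) (nat_lit 282) (nat_lit 273) (nat_lit 165)))))) (XT.nd (nat_lit 468) (nat_lit 532) (nat_lit 0) (XT.nd (nat_lit 234) (nat_lit 228) (nat_lit 0) (XT.nd (nat_lit 78) (nat_lit 228) (nat_lit 0) (XT.lf (nat_lit 0) (nat_lit 46056442323) (nat_lit 532) (nat_lit 15637866224) (nat_lit 76) (nat_lit 18194118664) (nat_lit 26) (nat_lit 5) (nat_lit 33) (nat_lit 5) (nat_lit 27) (nat_lit 5) (nat_lit 283) (nat_lit 273) (nat_lit 164)) (XT.nd (nat_lit 78) (nat_lit 0) (nat_lit 0) (XT.lf (nat_lit 0) (nat_lit 19313967872) (nat_lit 228) (nat_lit 35847420752) (nat_lit 304) (nat_lit 28567909470) (nat_lit 23) (nat_lit 5) (nat_lit 26) (nat_lit 5) (nat_lit 27) (nat_lit 5) (nat_lit 284) (nat_lit 273) (nat_lit 163)) (XT.lf (nat_lit 0) (nat_lit 57950180205) (nat_lit 228) (nat_lit 7471068345) (nat_lit 304) (nat_lit 22422075589) (nat_lit 23) (nat_lit 5) (nat_lit 26) (nat_lit 5) (nat_lit 27) (nat_lit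 5) (nat_lit 285) (nat_lit 273) (nat_lit 162)))) (XT.nd (nat_lit 78) (nat_lit 76) (nat_lit 0) (XT.lf (nat_lit 0) (nat_lit 7192118877) (nat_lit 152) (nat_lit 70039145112) (nat_lit 228) (nat_lit 14996865353) (nat_lit 21) (nat_lit 5) (nat_lit 23) (nat_lit 5) (nat_lit 24) (nat_lit 5) (nat_lit 286) (nat_lit 273) (nat_lit 161)) (XT.nd (nat_lit 78) (nat_lit 76) (nat_lit 0) (XT.lf (nat_lit 0) (nat_lit 48738899560) (nat_lit 152) (nat_lit 42252727009) (nat_lit 228) (nat_lit 5891654653) (nat_lit 21) (nat_lit 5) (nat_lit 23) (nat_lit 5) (nat_lit 24) (nat_lit 5) (nat_lit 287) (nat_lit 273) (nat_lit 160)) (XT.lf (nat_lit 0) (nat_lit 3743893989) (nat_lit 228) (nat_lit 8397279268) (nat_lit 76) (nat_lit 89762163561) (nat_lit 20) (nat_lit 5) (nat_lit 23) (nat_lit 5) (nat_lit 21) (nat_lit 5) (nat_lit 288) (nat_lit 273) (nat_lit 159))))) (XT.nd (nat_lit 234) (nat_lit 152) (nat_lit 0) (XT.nd (nat_lit 78)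 (nat_lit 152) (nat_lit 0) (XT.lf (nat_lit 0) (nat_lit 15218130525) (nat_lit 304) (nat_lit 71574156956) (nat_lit 76) (nat_lit 20409579984) (nat_lit 17) (nat_lit 5) (nat_lit 21) (nat_lit 5) (nat_lit 18) (nat_lit 5) (nat_lit 289) (nat_lit 273) (nat_lit 158)) (XT.nd (nat_lit 78) (nat_lit 152) (nat_lit 0) (XT.lf (nat_lit 0) (nat_lit 28160435166) (nat_lit 304) (nat_lit 29575983812) (nat_lit 76) (nat_lit 55143855612) (nat_lit 17) (nat_lit 5) (nat_lit 21) (nat_lit 5) (nat_lit 18) (nat_lit 5) (nat_lit 290) (nat_lit 273) (nat_lit 157)) (XT.lf (nat_lit 0) (nat_lit 16612110782) (nat_lit 152) (nat_lit 25924807273) (nat_lit 228) (nat_lit 76444136760) (nat_lit 15) (nat_lit 5) (nat_lit 17) (nat_lit 5) (nat_lit 18) (nat_lit 5) (nat_lit 291) (nat_lit 273) (nat_lit 156)))) (XT.nd (nat_lit 78) (nat_lit 152) (nat_lit 0) (XT.lf (nat_lit 0) (nat_lit 59095265838) (nat_lit 228) (nat_lit 57552694761) (nat_lit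 76) (nat_lit 8839400900) (nat_lit 15) (nat_lit 5) (nat_lit 18) (nat_lit 5) (nat_lit 16) (nat_lit 5) (nat_lit 292) (nat_lit 273) (nat_lit 155)) (XT.nd (nat_lit 78) (nat_lit 152) (nat_lit 0) (XT.lf (nat_lit 0) (nat_lit 77651003902) (nat_lit 228) (nat_lit 9825413364) (nat_lit 76) (nat_lit 44983941120) (nat_lit 15) (nat_lit 5) (nat_lit 18) (nat_lit 5) (nat_lit 16) (nat_lit 5) (nat_lit 293) (nat_lit 273) (nat_lit 154)) (XT.lf (nat_lit 0) (nat_lit 43916080961) (nat_lit 152) (nat_lit 54830701781) (nat_lit 228) (nat_lit 41159968949) (nat_lit 13) (nat_lit 5) (nat_lit 15) (nat_lit 5) (nat_lit 16) (nat_lit 5) (nat_lit 294) (nat_lit 273) (nat_lit 153))))))))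
noncomputable def xc104 : XT := (XT.nd (nat_lit 1794) (nat_lit 152) (nat_lit 0) (XT.nd (nat_lit 858) (nat_lit 304) (nat_lit 0) (XT.nd (nat_lit 390) (nat_lit 76) (nat_lit 0) (XT.nd (nat_lit 156) (nat_lit 228) (nat_lit 0) (XT.nd (nat_lit 78) (nat_lit 76) (nat_lit 0) (XT.lf (nat_lit 0) (nat_lit 102514865989) (nat_lit 152) (nat_lit 19283426113) (nat_lit 228) (nat_lit 26129121872) (nat_lit 13) (nat_lit 5) (nat_lit 15) (nat_lit 5) (nat_lit 16) (nat_lit 5) (nat_lit 295) (nat_lit 273) (nat_lit 152)) (XT.lf (nat_lit 0) (nat_lit 9212334747) (nat_lit 76) (nat_lit 138162144818) (nat_lit 152) (nat_lit 9160807835) (nat_lit 12) (nat_lit 5) (nat_lit 13) (nat_lit 5) (nat_lit 14) (nat_lit 4) (nat_lit 296) (nat_lit 273) (nat_lit 151))) (XT.nd (nat_lit 78) (nat_lit 152) (nat_lit 0) (XT.lf (nat_lit 0) (nat_lit 10480748010) (nat_lit 152) (nat_lit 95696934458) (nat_lit 76) (nat_lit 59494537514) (nat_lit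 11) (nat_lit 5) (nat_lit 13) (nat_lit 5) (nat_lit 12) (nat_lit 5) (nat_lit 297) (nat_lit 273) (nat_lit 150)) (XT.nd (nat_lit 78) (nat_lit 152) (nat_lit 0) (XT.lf (nat_lit 0) (nat_lit 31198213262) (nat_lit 152) (nat_lit 40179518211) (nat_lit 76) (nat_lit 104143381915) (nat_lit 11) (nat_lit 5) (nat_lit 13) (nat_lit 5) (nat_lit 12) (nat_lit 5) (nat_lit 298) (nat_lit 273) (nat_lit 149)) (XT.lf (nat_lit 0) (nat_lit 20820112162) (nat_lit 152) (nat_lit 33253230829) (nat_lit 228) (nat_lit 132044555917) (nat_lit 9) (nat_lit 5) (nat_lit 11) (nat_lit 5) (nat_lit 12) (nat_lit 5) (nat_lit 299) (nat_lit 273) (nat_lit 148))))) (XT.nd (nat_lit 234) (nat_lit 0) (nat_lit 0) (XT.nd (nat_lit 78) (nat_lit 76) (nat_lit 0) (XT.lf (nat_lit 0) (nat_lit 80095657954) (nat_lit 228) (nat_lit 108709523102) (nat_lit 76) (nat_lit 8651874094) (nat_lit 9) (nat_lit 5) (nat_lit 12) (nat_lit 5) (nat_lit 10) (nat_lit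 4) (nat_lit 300) (nat_lit 273) (nat_lit 147)) (XT.nd (nat_lit 78) (nat_lit 76) (nat_lit 0) (XT.lf (nat_lit 0) (nat_lit 109063066665) (nat_lit 228) (nat_lit 48458566470) (nat_lit 76) (nat_lit 52112647807) (nat_lit 9) (nat_lit 5) (nat_lit 12) (nat_lit 5) (nat_lit 10) (nat_lit 4) (nat_lit 301) (nat_lit 273) (nat_lit 146)) (XT.lf (nat_lit 0) (nat_lit 17486618327) (nat_lit 76) (nat_lit 123281422103) (nat_lit 152) (nat_lit 81984032183) (nat_lit 8) (nat_lit 5) (nat_lit 9) (nat_lit 5) (nat_lit 10) (nat_lit 4) (nat_lit 302) (nat_lit 273) (nat_lit 145)))) (XT.nd (nat_lit 78) (nat_lit 0) (nat_lit 0) (XT.lf (nat_lit 0) (nat_lit 91462714873) (nat_lit 76) (nat_lit 84871273253) (nat_lit 152) (nat_lit 60479334894) (nat_lit 8) (nat_lit 5) (nat_lit 9) (nat_lit 5) (nat_lit 10) (nat_lit 4) (nat_lit 303) (nat_lit 273) (nat_lit 144)) (XT.nd (nat_lit 78) (nat_lit 0) (nat_lit 0) (XT.lf (nat_lit 0) (nat_lit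 171356357801) (nat_lit 76) (nat_lit 43388513972) (nat_lit 152) (nat_lit 37254630252) (nat_lit 8) (nat_lit 5) (nat_lit 9) (nat_lit 5) (nat_lit 10) (nat_lit 4) (nat_lit 304) (nat_lit 273) (nat_lit 143)) (XT.lf (nat_lit 0) (nat_lit 256262286398) (nat_lit 152) (nat_lit 10793585854) (nat_lit 0) (nat_lit 1342011549) (nat_lit 8) (nat_lit 5) (nat_lit 10) (nat_lit 4) (nat_lit 8) (nat_lit 4) (nat_lit 305) (nat_lit 273) (nat_lit 142)))))) (XT.nd (nat_lit 468) (nat_lit 76) (nat_lit 0) (XT.nd (nat_lit 234) (nat_lit 76) (nat_lit 0) (XT.nd (nat_lit 78) (nat_lit 0) (nat_lit 0) (XT.lf (nat_lit 0) (nat_lit 17048670367) (nat_lit 152) (nat_lit 219459830393) (nat_lit 76) (nat_lit 49346332308) (nat_lit 6) (nat_lit 5) (nat_lit 8) (nat_lit 5) (nat_lit 7) (nat_lit 4) (nat_lit 306) (nat_lit 273) (nat_lit 141)) (XT.nd (nat_lit 78) (nat_lit 0) (nat_lit 0) (XT.lf (nat_lit 0) (nat_lit 48214529761) (nat_lit 152)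 (nat_lit 154635574250) (nat_lit 76) (nat_lit 101808819438) (nat_lit 6) (nat_lit 5) (nat_lit 8) (nat_lit 5) (nat_lit 7) (nat_lit 4) (nat_lit 307) (nat_lit 273) (nat_lit 140)) (XT.lf (nat_lit 0) (nat_lit 81873386205) (nat_lit 152) (nat_lit 84625830066) (nat_lit 76) (nat_lit 158468147461) (nat_lit 6) (nat_lit 5) (nat_lit 8) (nat_lit 5) (nat_lit 7) (nat_lit 4) (nat_lit 308) (nat_lit 273) (nat_lit 139)))) (XT.nd (nat_lit 78) (nat_lit 76) (nat_lit 0) (XT.lf (nat_lit 0) (nat_lit 118224699588) (nat_lit 152) (nat_lit 9015725284) (nat_lit 76) (nat_lit 219660075359) (nat_lit 6) (nat_lit 5) (nat_lit 8) (nat_lit 5) (nat_lit 7) (nat_lit 4) (nat_lit 309) (nat_lit 273) (nat_lit 138)) (XT.nd (nat_lit 78) (nat_lit 0) (nat_lit 0) (XT.lf (nat_lit 0) (nat_lit 76468041089) (nat_lit 76) (nat_lit 82854902239) (nat_lit 152) (nat_lit 211118239101) (nat_lit 5) (nat_lit 5) (nat_lit 6) (nat_lit 5) (nat_lit 7)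 (nat_lit 4) (nat_lit 310) (nat_lit 273) (nat_lit 137)) (XT.lf (nat_lit 0) (nat_lit 169302862975) (nat_lit 76) (nat_lit 34652464721) (nat_lit 152) (nat_lit 191890089760) (nat_lit 5) (nat_lit 5) (nat_lit 6) (nat_lit 5) (nat_lit 7) (nat_lit 4) (nat_lit 311) (nat_lit 273) (nat_lit 136))))) (XT.nd (nat_lit 234) (nat_lit 0) (nat_lit 0) (XT.nd (nat_lit 78) (nat_lit 76) (nat_lit 0) (XT.lf (nat_lit 0) (nat_lit 252576710025) (nat_lit 152) (nat_lit 154136503430) (nat_lit 0) (nat_lit 16535305941) (nat_lit 5) (nat_lit 5) (nat_lit 7) (nat_lit 4) (nat_lit 5) (nat_lit 4) (nat_lit 312) (nat_lit 273) (nat_lit 135)) (XT.nd (nat_lit 78) (nat_lit 76) (nat_lit 0) (XT.lf (nat_lit 0) (nat_lit 305987671086) (nat_lit 152) (nat_lit 76838369351) (nat_lit 0) (nat_lit 69945840240) (nat_lit 5) (nat_lit 5) (nat_lit 7) (nat_lit 4) (nat_lit 5) (nat_lit 4) (nat_lit 313) (nat_lit 273) (nat_lit 134)) (XT.lf (nat_lit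 0) (nat_lit 6993127963) (nat_lit 76) (nat_lit 356846384602) (nat_lit 76) (nat_lit 120804158604) (nat_lit 4) (nat_lit 4) (nat_lit 5) (nat_lit 5) (nat_lit 5) (nat_lit 4) (nat_lit 314) (nat_lit 273) (nat_lit 133)))) (XT.nd (nat_lit 78) (nat_lit 0) (nat_lit 0) (XT.lf (nat_lit 0) (nat_lit 101900707040) (nat_lit 76) (nat_lit 326519516264) (nat_lit 76) (nat_lit 90476924386) (nat_lit 4) (nat_lit 4) (nat_lit 5) (nat_lit 5) (nat_lit 5) (nat_lit 4) (nat_lit 315) (nat_lit 273) (nat_lit 132)) (XT.nd (nat_lit 78) (nat_lit 0) (nat_lit 0) (XT.lf (nat_lit 0) (nat_lit 204400610803) (nat_lit 76) (nat_lit 293766617836) (nat_lit 76) (nat_lit 57723687180) (nat_lit 4) (nat_lit 4) (nat_lit 5) (nat_lit 5) (nat_lit 5) (nat_lit 4) (nat_lit 316) (nat_lit 273) (nat_lit 131)) (XT.lf (nat_lit 0) (nat_lit 315100246088) (nat_lit 76) (nat_lit 258393598069) (nat_lit 76) (nat_lit 22350353729) (nat_lit 4) (nat_lit 4)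 (nat_lit 5) (nat_lit 5) (nat_lit 5) (nat_lit 4) (nat_lit 317) (nat_lit 273) (nat_lit 130))))))) (XT.nd (nat_lit 936) (nat_lit 0) (nat_lit 0) (XT.nd (nat_lit 468) (nat_lit 0) (nat_lit 0) (XT.nd (nat_lit 234) (nat_lit 76) (nat_lit 0) (XT.nd (nat_lit 78) (nat_lit 0) (nat_lit 0) (XT.lf (nat_lit 0) (nat_lit 15059679675) (nat_lit 152) (nat_lit 204719401062) (nat_lit 76) (nat_lit 419184172728) (nat_lit 3) (nat_lit 5) (nat_lit 5) (nat_lit 5) (nat_lit 4) (nat_lit 4) (nat_lit 318) (nat_lit 273) (nat_lit 129)) (XT.nd (nat_lit 78) (nat_lit 0) (nat_lit 0) (XT.lf (nat_lit 0) (nat_lit 54254883586) (nat_lit 152) (nat_lit 123193645861) (nat_lit 76) (nat_lit 508036872725) (nat_lit 3) (nat_lit 5) (nat_lit 5) (nat_lit 5) (nat_lit 4) (nat_lit 4) (nat_lit 319) (nat_lit 273) (nat_lit 128)) (XT.lf (nat_lit 0) (nat_lit 96585581090) (nat_lit 152) (nat_lit 35146044064) (nat_lit 76) (nat_lit 603997707782) (nat_lit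 3) (nat_lit 5) (nat_lit 5) (nat_lit 5) (nat_lit 4) (nat_lit 4) (nat_lit 320) (nat_lit 273) (nat_lit 127)))) (XT.nd (nat_lit 78) (nat_lit 0) (nat_lit 0) (XT.lf (nat_lit 0) (nat_lit 63101774202) (nat_lit 76) (nat_lit 80718445750) (nat_lit 152) (nat_lit 646051159685) (nat_lit 2) (nat_lit 5) (nat_lit 3) (nat_lit 5) (nat_lit 4) (nat_lit 4) (nat_lit 321) (nat_lit 273) (nat_lit 126)) (XT.nd (nat_lit 78) (nat_lit 0) (nat_lit 0) (XT.lf (nat_lit 0) (nat_lit 171208011628) (nat_lit 76) (nat_lit 24586463571) (nat_lit 152) (nat_lit 652473447546) (nat_lit 2) (nat_lit 5) (nat_lit 3) (nat_lit 5) (nat_lit 4) (nat_lit 4) (nat_lit 322) (nat_lit 273) (nat_lit 125)) (XT.lf (nat_lit 0) (nat_lit 252793235822) (nat_lit 152) (nat_lit 624240295014) (nat_lit 0) (nat_lit 34233333543) (nat_lit 2) (nat_lit 5) (nat_lit 4) (nat_lit 4) (nat_lit 2) (nat_lit 4) (nat_lit 323) (nat_lit 273) (nat_lit 124))))) (XT.nd (nat_lit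 234) (nat_lit 0) (nat_lit 0) (XT.nd (nat_lit 78) (nat_lit 0) (nat_lit 0) (XT.lf (nat_lit 0) (nat_lit 314990410844) (nat_lit 152) (nat_lit 567833890580) (nat_lit 0) (nat_lit 96430339091) (nat_lit 2) (nat_lit 5) (nat_lit 4) (nat_lit 4) (nat_lit 2) (nat_lit 4) (nat_lit 324) (nat_lit 273) (nat_lit 123)) (XT.nd (nat_lit 78) (nat_lit 0) (nat_lit 0) (XT.lf (nat_lit 0) (nat_lit 382163271075) (nat_lit 152) (nat_lit 506915132600) (nat_lit 0) (nat_lit 163603042402) (nat_lit 2) (nat_lit 5) (nat_lit 4) (nat_lit 4) (nat_lit 2) (nat_lit 4) (nat_lit 325) (nat_lit 273) (nat_lit 122)) (XT.lf (nat_lit 0) (nat_lit 454709877909) (nat_lit 152) (nat_lit 441123021028) (nat_lit 0) (nat_lit 236149503941) (nat_lit 2) (nat_lit 5) (nat_lit 4) (nat_lit 4) (nat_lit 2) (nat_lit 4) (nat_lit 326) (nat_lit 273) (nat_lit 121)))) (XT.nd (nat_lit 78) (nat_lit 0) (nat_lit 0) (XT.lf (nat_lit 0) (nat_lit 533060137166) (nat_lit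 152) (nat_lit 370067676685) (nat_lit 0) (nat_lit 314499628665) (nat_lit 2) (nat_lit 5) (nat_lit 4) (nat_lit 4) (nat_lit 2) (nat_lit 4) (nat_lit 327) (nat_lit 273) (nat_lit 120)) (XT.nd (nat_lit 78) (nat_lit 0) (nat_lit 0) (XT.lf (nat_lit 0) (nat_lit 617678346678) (nat_lit 152) (nat_lit 293328030862) (nat_lit 0) (nat_lit 399117713608) (nat_lit 2) (nat_lit 5) (nat_lit 4) (nat_lit 4) (nat_lit 2) (nat_lit 4) (nat_lit 328) (nat_lit 273) (nat_lit 119)) (XT.lf (nat_lit 0) (nat_lit 709065947686) (nat_lit 152) (nat_lit 210449330103) (nat_lit 0) (nat_lit 490505199276) (nat_lit 2) (nat_lit 5) (nat_lit 4) (nat_lit 4) (nat_lit 2) (nat_lit 4) (nat_lit 329) (nat_lit 273) (nat_lit 118)))))) (XT.nd (nat_lit 33540) (nat_lit 0) (nat_lit 1824) (XT.nd (nat_lit 33306) (nat_lit 0) (nat_lit 2128) (XT.nd (nat_lit 33150) (nat_lit 0) (nat_lit 2052) (XT.lf (nat_lit 0) (nat_lit 807764496345) (nat_lit 152) (nat_lit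 120940441366) (nat_lit 0) (nat_lit 589203641137) (nat_lit 2) (nat_lit 5) (nat_lit 4) (nat_lit 4) (nat_lit 2) (nat_lit 4) (nat_lit 330) (nat_lit 273) (nat_lit 117)) (XT.nd (nat_lit 78) (nat_lit 0) (nat_lit 0) (XT.lf (nat_lit 0) (nat_lit 4840247954) (nat_lit 532) (nat_lit 11672755417) (nat_lit 532) (nat_lit 11672755417) (nat_lit 29) (nat_lit 3) (nat_lit 36) (nat_lit 3) (nat_lit 36) (nat_lit 5) (nat_lit 274) (nat_lit 274) (nat_lit 172)) (XT.lf (nat_lit 0) (nat_lit 10085719306) (nat_lit 532) (nat_lit 493268574) (nat_lit 532) (nat_lit 48045822016) (nat_lit 29) (nat_lit 3) (nat_lit 36) (nat_lit 3) (nat_lit 36) (nat_lit 5) (nat_lit 275) (nat_lit 274) (nat_lit 171)))) (XT.nd (nat_lit 78) (nat_lit 0) (nat_lit 0) (XT.lf (nat_lit 0) (nat_lit 11478405975) (nat_lit 456) (nat_lit 35894301221) (nat_lit 532) (nat_lit 13609267590) (nat_lit 30) (nat_lit 5) (nat_lit 36) (nat_lit 5) (nat_lit 37) (nat_lit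 5) (nat_lit 276) (nat_lit 274) (nat_lit 170)) (XT.nd (nat_lit 78) (nat_lit 0) (nat_lit 76) (XT.lf (nat_lit 0) (nat_lit 13269450592) (nat_lit 456) (nat_lit 11059738555) (nat_lit 532) (nat_lit 39175580145) (nat_lit 30) (nat_lit 5) (nat_lit 36) (nat_lit 5) (nat_lit 37) (nat_lit 5) (nat_lit 277) (nat_lit 274) (nat_lit 169)) (XT.lf (nat_lit 0) (nat_lit 15625022367) (nat_lit 456) (nat_lit 49630917839) (nat_lit 532) (nat_lit 939758652) (nat_lit 31) (nat_lit 5) (nat_lit 37) (nat_lit 5) (nat_lit 38) (nat_lit 5) (nat_lit 278) (nat_lit 274) (nat_lit 168))))) (XT.nd (nat_lit 234) (nat_lit 380) (nat_lit 0) (XT.nd (nat_lit 78) (nat_lit 0) (nat_lit 0) (XT.lf (nat_lit 0) (nat_lit 19109766227) (nat_lit 456) (nat_lit 22690401065) (nat_lit 532) (nat_lit 27226487564) (nat_lit 31) (nat_lit 5) (nat_lit 37) (nat_lit 5) (nat_lit 38) (nat_lit 5) (nat_lit 279) (nat_lit 274) (nat_lit 167)) (XT.nd (nat_lit 78)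 (nat_lit 0) (nat_lit 76) (XT.lf (nat_lit 76) (nat_lit 6741533210) (nat_lit 0) (nat_lit 16292549812) (nat_lit 532) (nat_lit 49037150259) (nat_lit 32) (nat_lit 5) (nat_lit 31) (nat_lit 5) (nat_lit 38) (nat_lit 5) (nat_lit 280) (nat_lit 274) (nat_lit 166)) (XT.lf (nat_lit 0) (nat_lit 28178293744) (nat_lit 456) (nat_lit 35779265651) (nat_lit 76) (nat_lit 11329351419) (nat_lit 32) (nat_lit 5) (nat_lit 38) (nat_lit 5) (nat_lit 33) (nat_lit 5) (nat_lit 281) (nat_lit 274) (nat_lit 165)))) (XT.nd (nat_lit 78) (nat_lit 456) (nat_lit 0) (XT.lf (nat_lit 0) (nat_lit 34156057148) (nat_lit 456) (nat_lit 4289045602) (nat_lit 76) (nat_lit 40280986612) (nat_lit 32) (nat_lit 5) (nat_lit 38) (nat_lit 5) (nat_lit 33) (nat_lit 5) (nat_lit 282) (nat_lit 274) (nat_lit 164)) (XT.nd (nat_lit 78) (nat_lit 0) (nat_lit 0) (XT.lf (nat_lit 0) (nat_lit 31284376200) (nat_lit 456) (nat_lit 10078974599) (nat_lit 532)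 (nat_lit 41016954138) (nat_lit 26) (nat_lit 5) (nat_lit 32) (nat_lit 5) (nat_lit 33) (nat_lit 5) (nat_lit 283) (nat_lit 274) (nat_lit 163)) (XT.lf (nat_lit 0) (nat_lit 49760904584) (nat_lit 532) (nat_lit 16868363908) (nat_lit 76) (nat_lit 19648502059) (nat_lit 26) (nat_lit 5) (nat_lit 33) (nat_lit 5) (nat_lit 27) (nat_lit 5) (nat_lit 284) (nat_lit 274) (nat_lit 162))))))))
noncomputable def xc105 : XT := (XT.nd (nat_lit 1872) (nat_lit 304) (nat_lit 0) (XT.nd (nat_lit 936) (nat_lit 532) (nat_lit 0) (XT.nd (nat_lit 468) (nat_lit 304) (nat_lit 0) (XT.nd (nat_lit 234) (nat_lit 304) (nat_lit 0) (XT.nd (nat_lit 78) (nat_lit 152) (nat_lit 0) (XT.lf (nat_lit 0) (nat_lit 20879097129) (nat_lit 228) (nat_lit 38714153200) (nat_lit 304) (nat_lit 30832750484) (nat_lit 23) (nat_lit 5) (nat_lit 26) (nat_lit 5) (nat_lit 27) (nat_lit 5) (nat_lit 285) (nat_lit 274) (nat_lit 161)) (XT.nd (nat_lit 78)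 (nat_lit 152) (nat_lit 0) (XT.lf (nat_lit 0) (nat_lit 62604724090) (nat_lit 228) (nat_lit 8067771209) (nat_lit 304) (nat_lit 24196775206) (nat_lit 23) (nat_lit 5) (nat_lit 26) (nat_lit 5) (nat_lit 27) (nat_lit 5) (nat_lit 286) (nat_lit 274) (nat_lit 160)) (XT.lf (nat_lit 0) (nat_lit 7787006816) (nat_lit 152) (nat_lit 75639496688) (nat_lit 228) (nat_lit 16178429876) (nat_lit 21) (nat_lit 5) (nat_lit 23) (nat_lit 5) (nat_lit 24) (nat_lit 5) (nat_lit 287) (nat_lit 274) (nat_lit 159)))) (XT.nd (nat_lit 78) (nat_lit 304) (nat_lit 0) (XT.lf (nat_lit 0) (nat_lit 52656084145) (nat_lit 152) (nat_lit 45630371066) (nat_lit 228) (nat_lit 6346149336) (nat_lit 21) (nat_lit 5) (nat_lit 23) (nat_lit 5) (nat_lit 24) (nat_lit 5) (nat_lit 288) (nat_lit 274) (nat_lit 158)) (XT.nd (nat_lit 78) (nat_lit 228) (nat_lit 0) (XT.lf (nat_lit 0) (nat_lit 4058216064) (nat_lit 228) (nat_lit 9051462677) (nat_lit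 76) (nat_lit 96944655051) (nat_lit 20) (nat_lit 5) (nat_lit 23) (nat_lit 5) (nat_lit 21) (nat_lit 5) (nat_lit 289) (nat_lit 274) (nat_lit 157)) (XT.lf (nat_lit 0) (nat_lit 16449779792) (nat_lit 304) (nat_lit 77281800028) (nat_lit 76) (nat_lit 22045222313) (nat_lit 17) (nat_lit 5) (nat_lit 21) (nat_lit 5) (nat_lit 18) (nat_lit 5) (nat_lit 290) (nat_lit 274) (nat_lit 156))))) (XT.nd (nat_lit 234) (nat_lit 152) (nat_lit 0) (XT.nd (nat_lit 78) (nat_lit 152) (nat_lit 0) (XT.lf (nat_lit 0) (nat_lit 30426417040) (nat_lit 304) (nat_lit 31925127809) (nat_lit 76) (nat_lit 59558026960) (nat_lit 17) (nat_lit 5) (nat_lit 21) (nat_lit 5) (nat_lit 18) (nat_lit 5) (nat_lit 291) (nat_lit 274) (nat_lit 155)) (XT.nd (nat_lit 78) (nat_lit 0) (nat_lit 0) (XT.lf (nat_lit 0) (nat_lit 17957585626) (nat_lit 152) (nat_lit 27994856048) (nat_lit 228) (nat_lit 82546024337) (nat_lit 15) (nat_lit 5) (nat_lit 17)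 (nat_lit 5) (nat_lit 18) (nat_lit 5) (nat_lit 292) (nat_lit 274) (nat_lit 154)) (XT.lf (nat_lit 0) (nat_lit 63834613800) (nat_lit 228) (nat_lit 62140720976) (nat_lit 76) (nat_lit 9550014938) (nat_lit 15) (nat_lit 5) (nat_lit 18) (nat_lit 5) (nat_lit 16) (nat_lit 5) (nat_lit 293) (nat_lit 274) (nat_lit 153)))) (XT.nd (nat_lit 78) (nat_lit 152) (nat_lit 0) (XT.lf (nat_lit 0) (nat_lit 83873942265) (nat_lit 228) (nat_lit 10596456279) (nat_lit 76) (nat_lit 48585861933) (nat_lit 15) (nat_lit 5) (nat_lit 18) (nat_lit 5) (nat_lit 16) (nat_lit 5) (nat_lit 294) (nat_lit 274) (nat_lit 152)) (XT.nd (nat_lit 78) (nat_lit 0) (nat_lit 0) (XT.lf (nat_lit 0) (nat_lit 47443978094) (nat_lit 152) (nat_lit 59212952404) (nat_lit 228) (nat_lit 44441475273) (nat_lit 13) (nat_lit 5) (nat_lit 15) (nat_lit 5) (nat_lit 16) (nat_lit 5) (nat_lit 295) (nat_lit 274) (nat_lit 151)) (XT.lf (nat_lit 0) (nat_lit 110729583654)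 (nat_lit 152) (nat_lit 20822206202) (nat_lit 228) (nat_lit 28208996814) (nat_lit 13) (nat_lit 5) (nat_lit 15) (nat_lit 5) (nat_lit 16) (nat_lit 5) (nat_lit 296) (nat_lit 274) (nat_lit 150)))))) (XT.nd (nat_lit 468) (nat_lit 228) (nat_lit 0) (XT.nd (nat_lit 234) (nat_lit 152) (nat_lit 0) (XT.nd (nat_lit 78) (nat_lit 76) (nat_lit 0) (XT.lf (nat_lit 0) (nat_lit 9963215793) (nat_lit 76) (nat_lit 149210563736) (nat_lit 152) (nat_lit 9883537544) (nat_lit 12) (nat_lit 5) (nat_lit 13) (nat_lit 5) (nat_lit 14) (nat_lit 4) (nat_lit 297) (nat_lit 274) (nat_lit 149)) (XT.nd (nat_lit 78) (nat_lit 0) (nat_lit 0) (XT.lf (nat_lit 0) (nat_lit 11328122600) (nat_lit 152) (nat_lit 103339315287) (nat_lit 76) (nat_lit 64257807083) (nat_lit 11) (nat_lit 5) (nat_lit 13) (nat_lit 5) (nat_lit 12) (nat_lit 5) (nat_lit 298) (nat_lit 274) (nat_lit 148)) (XT.lf (nat_lit 0) (nat_lit 33702324720) (nat_lit 152) (nat_lit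 43381496402) (nat_lit 76) (nat_lit 112478284475) (nat_lit 11) (nat_lit 5) (nat_lit 13) (nat_lit 5) (nat_lit 12) (nat_lit 5) (nat_lit 299) (nat_lit 274) (nat_lit 147)))) (XT.nd (nat_lit 78) (nat_lit 0) (nat_lit 0) (XT.lf (nat_lit 0) (nat_lit 22497790900) (nat_lit 152) (nat_lit 35909352768) (nat_lit 228) (nat_lit 142599518687) (nat_lit 9) (nat_lit 5) (nat_lit 11) (nat_lit 5) (nat_lit 12) (nat_lit 5) (nat_lit 300) (nat_lit 274) (nat_lit 146)) (XT.nd (nat_lit 78) (nat_lit 0) (nat_lit 0) (XT.lf (nat_lit 0) (nat_lit 86510748296) (nat_lit 228) (nat_lit 117394582408) (nat_lit 76) (nat_lit 9347662541) (nat_lit 9) (nat_lit 5) (nat_lit 12) (nat_lit 5) (nat_lit 10) (nat_lit 4) (nat_lit 301) (nat_lit 274) (nat_lit 145)) (XT.lf (nat_lit 0) (nat_lit 117794998763) (nat_lit 228) (nat_lit 52324416100) (nat_lit 76) (nat_lit 56285028631) (nat_lit 9) (nat_lit 5) (nat_lit 12) (nat_lit 5) (nat_lit 10) (nat_lit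 4) (nat_lit 302) (nat_lit 274) (nat_lit 144))))) (XT.nd (nat_lit 234) (nat_lit 152) (nat_lit 0) (XT.nd (nat_lit 78) (nat_lit 0) (nat_lit 0) (XT.lf (nat_lit 0) (nat_lit 18896109160) (nat_lit 76) (nat_lit 133140005140) (nat_lit 152) (nat_lit 88535566836) (nat_lit 8) (nat_lit 5) (nat_lit 9) (nat_lit 5) (nat_lit 10) (nat_lit 4) (nat_lit 303) (nat_lit 274) (nat_lit 143)) (XT.nd (nat_lit 78) (nat_lit 0) (nat_lit 0) (XT.lf (nat_lit 0) (nat_lit 98789511106) (nat_lit 76) (nat_lit 91657335547) (nat_lit 152) (nat_lit 65311026203) (nat_lit 8) (nat_lit 5) (nat_lit 9) (nat_lit 5) (nat_lit 10) (nat_lit 4) (nat_lit 304) (nat_lit 274) (nat_lit 142)) (XT.lf (nat_lit 0) (nat_lit 185073921095) (nat_lit 76) (nat_lit 46856225121) (nat_lit 152) (nat_lit 40228838188) (nat_lit 8) (nat_lit 5) (nat_lit 9) (nat_lit 5) (nat_lit 10) (nat_lit 4) (nat_lit 305) (nat_lit 274) (nat_lit 141)))) (XT.nd (nat_lit 78) (nat_lit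 152) (nat_lit 0) (XT.lf (nat_lit 0) (nat_lit 276768607966) (nat_lit 152) (nat_lit 11648321421) (nat_lit 0) (nat_lit 1452336722) (nat_lit 8) (nat_lit 5) (nat_lit 10) (nat_lit 4) (nat_lit 8) (nat_lit 4) (nat_lit 306) (nat_lit 274) (nat_lit 140)) (XT.nd (nat_lit 78) (nat_lit 0) (nat_lit 0) (XT.lf (nat_lit 0) (nat_lit 18417864799) (nat_lit 152) (nat_lit 237007789681) (nat_lit 76) (nat_lit 53297122907) (nat_lit 6) (nat_lit 5) (nat_lit 8) (nat_lit 5) (nat_lit 7) (nat_lit 4) (nat_lit 307) (nat_lit 274) (nat_lit 139)) (XT.lf (nat_lit 0) (nat_lit 52076600292) (nat_lit 152) (nat_lit 166998246909) (nat_lit 76) (nat_lit 109956380561) (nat_lit 6) (nat_lit 5) (nat_lit 8) (nat_lit 5) (nat_lit 7) (nat_lit 4) (nat_lit 308) (nat_lit 274) (nat_lit 138))))))) (XT.nd (nat_lit 936) (nat_lit 76) (nat_lit 0) (XT.nd (nat_lit 468) (nat_lit 152) (nat_lit 0) (XT.nd (nat_lit 234) (nat_lit 0) (nat_lit 0) (XT.nd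 (nat_lit 78) (nat_lit 76) (nat_lit 0) (XT.lf (nat_lit 0) (nat_lit 88427801685) (nat_lit 152) (nat_lit 91388328618) (nat_lit 76) (nat_lit 171148243302) (nat_lit 6) (nat_lit 5) (nat_lit 8) (nat_lit 5) (nat_lit 7) (nat_lit 4) (nat_lit 309) (nat_lit 274) (nat_lit 137)) (XT.nd (nat_lit 78) (nat_lit 76) (nat_lit 0) (XT.lf (nat_lit 0) (nat_lit 127686883503) (nat_lit 152) (nat_lit 9729976035) (nat_lit 76) (nat_lit 237235329577) (nat_lit 6) (nat_lit 5) (nat_lit 8) (nat_lit 5) (nat_lit 7) (nat_lit 4) (nat_lit 310) (nat_lit 274) (nat_lit 136)) (XT.lf (nat_lit 0) (nat_lit 82592314248) (nat_lit 76) (nat_lit 89480525053) (nat_lit 152) (nat_lit 228003299457) (nat_lit 5) (nat_lit 5) (nat_lit 6) (nat_lit 5) (nat_lit 7) (nat_lit 4) (nat_lit 311) (nat_lit 274) (nat_lit 135)))) (XT.nd (nat_lit 78) (nat_lit 0) (nat_lit 0) (XT.lf (nat_lit 0) (nat_lit 182853415969) (nat_lit 76) (nat_lit 37422097671) (nat_lit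 152) (nat_lit 207237224004) (nat_lit 5) (nat_lit 5) (nat_lit 6) (nat_lit 5) (nat_lit 7) (nat_lit 4) (nat_lit 312) (nat_lit 274) (nat_lit 134)) (XT.nd (nat_lit 78) (nat_lit 0) (nat_lit 0) (XT.lf (nat_lit 0) (nat_lit 272786385159) (nat_lit 152) (nat_lit 166461335284) (nat_lit 0) (nat_lit 17860385930) (nat_lit 5) (nat_lit 5) (nat_lit 7) (nat_lit 4) (nat_lit 5) (nat_lit 4) (nat_lit 313) (nat_lit 274) (nat_lit 133)) (XT.lf (nat_lit 0) (nat_lit 330469961006) (nat_lit 152) (nat_lit 82979801473) (nat_lit 0) (nat_lit 75543595897) (nat_lit 5) (nat_lit 5) (nat_lit 7) (nat_lit 4) (nat_lit 5) (nat_lit 4) (nat_lit 314) (nat_lit 274) (nat_lit 132))))) (XT.nd (nat_lit 234) (nat_lit 76) (nat_lit 0) (XT.nd (nat_lit 78) (nat_lit 0) (nat_lit 0) (XT.lf (nat_lit 0) (nat_lit 7558072907) (nat_lit 76) (nat_lit 385391766360) (nat_lit 76) (nat_lit 130465062473) (nat_lit 4) (nat_lit 4) (nat_lit 5) (nat_lit 5)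 (nat_lit 5) (nat_lit 4) (nat_lit 315) (nat_lit 274) (nat_lit 131)) (XT.nd (nat_lit 78) (nat_lit 0) (nat_lit 0) (XT.lf (nat_lit 0) (nat_lit 110057851295) (nat_lit 76) (nat_lit 352638921074) (nat_lit 76) (nat_lit 97711903503) (nat_lit 4) (nat_lit 4) (nat_lit 5) (nat_lit 5) (nat_lit 5) (nat_lit 4) (nat_lit 316) (nat_lit 274) (nat_lit 130)) (XT.lf (nat_lit 0) (nat_lit 220757370493) (nat_lit 76) (nat_lit 317265950512) (nat_lit 76) (nat_lit 62338642494) (nat_lit 4) (nat_lit 4) (nat_lit 5) (nat_lit 5) (nat_lit 5) (nat_lit 4) (nat_lit 317) (nat_lit 274) (nat_lit 129)))) (XT.nd (nat_lit 78) (nat_lit 76) (nat_lit 0) (XT.lf (nat_lit 0) (nat_lit 340312627651) (nat_lit 76) (nat_lit 279063237071) (nat_lit 76) (nat_lit 24135660120) (nat_lit 4) (nat_lit 4) (nat_lit 5) (nat_lit 5) (nat_lit 5) (nat_lit 4) (nat_lit 318) (nat_lit 274) (nat_lit 128)) (XT.nd (nat_lit 78) (nat_lit 0) (nat_lit 0) (XT.lf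 (nat_lit 0) (nat_lit 16266848259) (nat_lit 152) (nat_lit 221092781583) (nat_lit 76) (nat_lit 452720485648) (nat_lit 3) (nat_lit 5) (nat_lit 5) (nat_lit 5) (nat_lit 4) (nat_lit 4) (nat_lit 319) (nat_lit 274) (nat_lit 127)) (XT.lf (nat_lit 0) (nat_lit 58597491134) (nat_lit 152) (nat_lit 133045274970) (nat_lit 76) (nat_lit 548681284674) (nat_lit 3) (nat_lit 5) (nat_lit 5) (nat_lit 5) (nat_lit 4) (nat_lit 4) (nat_lit 320) (nat_lit 274) (nat_lit 126)))))) (XT.nd (nat_lit 468) (nat_lit 0) (nat_lit 0) (XT.nd (nat_lit 234) (nat_lit 0) (nat_lit 0) (XT.nd (nat_lit 78) (nat_lit 76) (nat_lit 0) (XT.lf (nat_lit 0) (nat_lit 104314480226) (nat_lit 152) (nat_lit 37954151146) (nat_lit 76) (nat_lit 652318878230) (nat_lit 3) (nat_lit 5) (nat_lit 5) (nat_lit 5) (nat_lit 4) (nat_lit 4) (nat_lit 321) (nat_lit 274) (nat_lit 125)) (XT.nd (nat_lit 78) (nat_lit 0) (nat_lit 0) (XT.lf (nat_lit 0) (nat_lit 68153402039)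 (nat_lit 76) (nat_lit 87174419946) (nat_lit 152) (nat_lit 697733103936) (nat_lit 2) (nat_lit 5) (nat_lit 3) (nat_lit 5) (nat_lit 4) (nat_lit 4) (nat_lit 322) (nat_lit 274) (nat_lit 124)) (XT.lf (nat_lit 0) (nat_lit 184907880244) (nat_lit 76) (nat_lit 26551990413) (nat_lit 152) (nat_lit 704669333977) (nat_lit 2) (nat_lit 5) (nat_lit 3) (nat_lit 5) (nat_lit 4) (nat_lit 4) (nat_lit 323) (nat_lit 274) (nat_lit 123)))) (XT.nd (nat_lit 78) (nat_lit 0) (nat_lit 0) (XT.lf (nat_lit 0) (nat_lit 273018426982) (nat_lit 152) (nat_lit 674176420298) (nat_lit 0) (nat_lit 36973223096) (nat_lit 2) (nat_lit 5) (nat_lit 4) (nat_lit 4) (nat_lit 2) (nat_lit 4) (nat_lit 324) (nat_lit 274) (nat_lit 122)) (XT.nd (nat_lit 78) (nat_lit 0) (nat_lit 0) (XT.lf (nat_lit 0) (nat_lit 340191247687) (nat_lit 152) (nat_lit 613257733014) (nat_lit 0) (nat_lit 104145898505) (nat_lit 2) (nat_lit 5) (nat_lit 4) (nat_lit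 4) (nat_lit 2) (nat_lit 4) (nat_lit 325) (nat_lit 274) (nat_lit 121)) (XT.lf (nat_lit 0) (nat_lit 412737817923) (nat_lit 152) (nat_lit 547465686901) (nat_lit 0) (nat_lit 176692334208) (nat_lit 2) (nat_lit 5) (nat_lit 4) (nat_lit 4) (nat_lit 2) (nat_lit 4) (nat_lit 326) (nat_lit 274) (nat_lit 120))))) (XT.nd (nat_lit 33462) (nat_lit 0) (nat_lit 2052) (XT.nd (nat_lit 78) (nat_lit 0) (nat_lit 0) (XT.lf (nat_lit 0) (nat_lit 491088043293) (nat_lit 152) (nat_lit 476410403167) (nat_lit 0) (nat_lit 255042435009) (nat_lit 2) (nat_lit 5) (nat_lit 4) (nat_lit 4) (nat_lit 2) (nat_lit 4) (nat_lit 327) (nat_lit 274) (nat_lit 119)) (XT.nd (nat_lit 78) (nat_lit 0) (nat_lit 0) (XT.lf (nat_lit 0) (nat_lit 575706221427) (nat_lit 152) (nat_lit 399670813464) (nat_lit 0) (nat_lit 339660497803) (nat_lit 2) (nat_lit 5) (nat_lit 4) (nat_lit 4) (nat_lit 2) (nat_lit 4) (nat_lit 328) (nat_lit 274) (nat_lit 118))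 (XT.lf (nat_lit 0) (nat_lit 667093793383) (nat_lit 152) (nat_lit 316792164668) (nat_lit 0) (nat_lit 431047962961) (nat_lit 2) (nat_lit 5) (nat_lit 4) (nat_lit 4) (nat_lit 2) (nat_lit 4) (nat_lit 329) (nat_lit 274) (nat_lit 117)))) (XT.nd (nat_lit 78) (nat_lit 0) (nat_lit 0) (XT.lf (nat_lit 0) (nat_lit 5245038365) (nat_lit 532) (nat_lit 12597025231) (nat_lit 532) (nat_lit 12597025231) (nat_lit 29) (nat_lit 3) (nat_lit 36) (nat_lit 3) (nat_lit 36) (nat_lit 5) (nat_lit 275) (nat_lit 275) (nat_lit 170)) (XT.nd (nat_lit 78) (nat_lit 0) (nat_lit 76) (XT.lf (nat_lit 0) (nat_lit 10925114951) (nat_lit 532) (nat_lit 515043728) (nat_lit 532) (nat_lit 51871801446) (nat_lit 29) (nat_lit 3) (nat_lit 36) (nat_lit 3) (nat_lit 36) (nat_lit 5) (nat_lit 276) (nat_lit 275) (nat_lit 169)) (XT.lf (nat_lit 0) (nat_lit 12426900954) (nat_lit 456) (nat_lit 38745629021) (nat_lit 532) (nat_lit 14685370628) (nat_lit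 30) (nat_lit 5) (nat_lit 36) (nat_lit 5) (nat_lit 37) (nat_lit 5) (nat_lit 277) (nat_lit 275) (nat_lit 168))))))))
noncomputable def xc106 : XT := (XT.nd (nat_lit 1794) (nat_lit 684) (nat_lit 0) (XT.nd (nat_lit 858) (nat_lit 760) (nat_lit 0) (XT.nd (nat_lit 390) (nat_lit 684) (nat_lit 0) (XT.nd (nat_lit 156) (nat_lit 0) (nat_lit 76) (XT.nd (nat_lit 78) (nat_lit 0) (nat_lit 76) (XT.lf (nat_lit 0) (nat_lit 14358990436) (nat_lit 456) (nat_lit 11925798845) (nat_lit 532) (nat_lit 42297924363) (nat_lit 30) (nat_lit 5) (nat_lit 36) (nat_lit 5) (nat_lit 37) (nat_lit 5) (nat_lit 278) (nat_lit 275) (nat_lit 167)) (XT.lf (nat_lit 0) (nat_lit 16901178949) (nat_lit 456) (nat_lit 53580659683) (nat_lit 532) (nat_lit 1007239967) (nat_lit 31) (nat_lit 5) (nat_lit 37) (nat_lit 5) (nat_lit 38) (nat_lit 5) (nat_lit 279) (nat_lit 275) (nat_lit 166))) (XT.nd (nat_lit 78) (nat_lit 0) (nat_lit 0) (XT.lf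 (nat_lit 0) (nat_lit 20662764926) (nat_lit 456) (nat_lit 24486437241) (nat_lit 532) (nat_lit 29397477516) (nat_lit 31) (nat_lit 5) (nat_lit 37) (nat_lit 5) (nat_lit 38) (nat_lit 5) (nat_lit 280) (nat_lit 275) (nat_lit 165)) (XT.nd (nat_lit 78) (nat_lit 0) (nat_lit 76) (XT.lf (nat_lit 76) (nat_lit 7299565804) (nat_lit 0) (nat_lit 17600117353) (nat_lit 532) (nat_lit 52935261342) (nat_lit 32) (nat_lit 5) (nat_lit 31) (nat_lit 5) (nat_lit 38) (nat_lit 5) (nat_lit 281) (nat_lit 275) (nat_lit 164)) (XT.lf (nat_lit 0) (nat_lit 30453643688) (nat_lit 456) (nat_lit 38622349944) (nat_lit 76) (nat_lit 12232037239) (nat_lit 32) (nat_lit 5) (nat_lit 38) (nat_lit 5) (nat_lit 33) (nat_lit 5) (nat_lit 282) (nat_lit 275) (nat_lit 163))))) (XT.nd (nat_lit 234) (nat_lit 380) (nat_lit 0) (XT.nd (nat_lit 78) (nat_lit 456) (nat_lit 0) (XT.lf (nat_lit 0) (nat_lit 36908066205) (nat_lit 456) (nat_lit 4614338733)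 (nat_lit 76) (nat_lit 43500074528) (nat_lit 32) (nat_lit 5) (nat_lit 38) (nat_lit 5) (nat_lit 33) (nat_lit 5) (nat_lit 283) (nat_lit 275) (nat_lit 162)) (XT.nd (nat_lit 78) (nat_lit 0) (nat_lit 0) (XT.lf (nat_lit 0) (nat_lit 33804505408) (nat_lit 456) (nat_lit 10886409651) (nat_lit 532) (nat_lit 44278209498) (nat_lit 26) (nat_lit 5) (nat_lit 32) (nat_lit 5) (nat_lit 33) (nat_lit 5) (nat_lit 284) (nat_lit 275) (nat_lit 161)) (XT.lf (nat_lit 0) (nat_lit 53758878182) (nat_lit 532) (nat_lit 18200230471) (nat_lit 76) (nat_lit 21219399629) (nat_lit 26) (nat_lit 5) (nat_lit 33) (nat_lit 5) (nat_lit 27) (nat_lit 5) (nat_lit 285) (nat_lit 275) (nat_lit 160)))) (XT.nd (nat_lit 78) (nat_lit 152) (nat_lit 0) (XT.lf (nat_lit 0) (nat_lit 22566581815) (nat_lit 228) (nat_lit 41810375637) (nat_lit 304) (nat_lit 33281716422) (nat_lit 23) (nat_lit 5) (nat_lit 26) (nat_lit 5) (nat_lit 27) (nat_lit 5)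 (nat_lit 286) (nat_lit 275) (nat_lit 159)) (XT.nd (nat_lit 78) (nat_lit 152) (nat_lit 0) (XT.lf (nat_lit 0) (nat_lit 67628988051) (nat_lit 228) (nat_lit 8712350481) (nat_lit 304) (nat_lit 26116170833) (nat_lit 23) (nat_lit 5) (nat_lit 26) (nat_lit 5) (nat_lit 27) (nat_lit 5) (nat_lit 287) (nat_lit 275) (nat_lit 158)) (XT.lf (nat_lit 0) (nat_lit 8426701269) (nat_lit 152) (nat_lit 81688272994) (nat_lit 228) (nat_lit 17457113813) (nat_lit 21) (nat_lit 5) (nat_lit 23) (nat_lit 5) (nat_lit 24) (nat_lit 5) (nat_lit 288) (nat_lit 275) (nat_lit 157)))))) (XT.nd (nat_lit 468) (nat_lit 304) (nat_lit 0) (XT.nd (nat_lit 234) (nat_lit 152) (nat_lit 0) (XT.nd (nat_lit 78) (nat_lit 304) (nat_lit 0) (XT.lf (nat_lit 0) (nat_lit 56884065235) (nat_lit 152) (nat_lit 49278593872) (nat_lit 228) (nat_lit 6839405678) (nat_lit 21) (nat_lit 5) (nat_lit 23) (nat_lit 5) (nat_lit 24) (nat_lit 5) (nat_lit 289)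 (nat_lit 275) (nat_lit 156)) (XT.nd (nat_lit 78) (nat_lit 228) (nat_lit 0) (XT.lf (nat_lit 0) (nat_lit 4395571013) (nat_lit 228) (nat_lit 9760491444) (nat_lit 76) (nat_lit 104701529242) (nat_lit 20) (nat_lit 5) (nat_lit 23) (nat_lit 5) (nat_lit 21) (nat_lit 5) (nat_lit 290) (nat_lit 275) (nat_lit 155)) (XT.lf (nat_lit 0) (nat_lit 17777935380) (nat_lit 304) (nat_lit 83448663745) (nat_lit 76) (nat_lit 23811305746) (nat_lit 17) (nat_lit 5) (nat_lit 21) (nat_lit 5) (nat_lit 18) (nat_lit 5) (nat_lit 291) (nat_lit 275) (nat_lit 154)))) (XT.nd (nat_lit 78) (nat_lit 152) (nat_lit 0) (XT.lf (nat_lit 0) (nat_lit 32871801888) (nat_lit 304) (nat_lit 34464619252) (nat_lit 76) (nat_lit 64324952124) (nat_lit 17) (nat_lit 5) (nat_lit 21) (nat_lit 5) (nat_lit 18) (nat_lit 5) (nat_lit 292) (nat_lit 275) (nat_lit 153)) (XT.nd (nat_lit 78) (nat_lit 0) (nat_lit 0) (XT.lf (nat_lit 0) (nat_lit 19408343695)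 (nat_lit 152) (nat_lit 30231070211) (nat_lit 228) (nat_lit 89138009298) (nat_lit 15) (nat_lit 5) (nat_lit 17) (nat_lit 5) (nat_lit 18) (nat_lit 5) (nat_lit 293) (nat_lit 275) (nat_lit 152)) (XT.lf (nat_lit 0) (nat_lit 68951436654) (nat_lit 228) (nat_lit 67098098881) (nat_lit 76) (nat_lit 10316984210) (nat_lit 15) (nat_lit 5) (nat_lit 18) (nat_lit 5) (nat_lit 16) (nat_lit 5) (nat_lit 294) (nat_lit 275) (nat_lit 151))))) (XT.nd (nat_lit 234) (nat_lit 152) (nat_lit 0) (XT.nd (nat_lit 78) (nat_lit 152) (nat_lit 0) (XT.lf (nat_lit 0) (nat_lit 90593166674) (nat_lit 228) (nat_lit 11431321140) (nat_lit 76) (nat_lit 52475479107) (nat_lit 15) (nat_lit 5) (nat_lit 18) (nat_lit 5) (nat_lit 16) (nat_lit 5) (nat_lit 295) (nat_lit 275) (nat_lit 150)) (XT.nd (nat_lit 78) (nat_lit 0) (nat_lit 0) (XT.lf (nat_lit 0) (nat_lit 51252022625) (nat_lit 152) (nat_lit 63946383041) (nat_lit 228) (nat_lit 47987112917)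 (nat_lit 13) (nat_lit 5) (nat_lit 15) (nat_lit 5) (nat_lit 16) (nat_lit 5) (nat_lit 296) (nat_lit 275) (nat_lit 149)) (XT.lf (nat_lit 0) (nat_lit 119599548757) (nat_lit 152) (nat_lit 22484644221) (nat_lit 228) (nat_lit 30456753246) (nat_lit 13) (nat_lit 5) (nat_lit 15) (nat_lit 5) (nat_lit 16) (nat_lit 5) (nat_lit 297) (nat_lit 275) (nat_lit 148)))) (XT.nd (nat_lit 78) (nat_lit 76) (nat_lit 0) (XT.lf (nat_lit 0) (nat_lit 10772185151) (nat_lit 76) (nat_lit 161143505656) (nat_lit 152) (nat_lit 10665531488) (nat_lit 12) (nat_lit 5) (nat_lit 13) (nat_lit 5) (nat_lit 14) (nat_lit 4) (nat_lit 298) (nat_lit 275) (nat_lit 147)) (XT.nd (nat_lit 78) (nat_lit 0) (nat_lit 0) (XT.lf (nat_lit 0) (nat_lit 12242015369) (nat_lit 152) (nat_lit 111594994523) (nat_lit 76) (nat_lit 69401609434) (nat_lit 11) (nat_lit 5) (nat_lit 13) (nat_lit 5) (nat_lit 12) (nat_lit 5) (nat_lit 299) (nat_lit 275) (nat_lit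 146)) (XT.lf (nat_lit 0) (nat_lit 36405587513) (nat_lit 152) (nat_lit 46841399460) (nat_lit 76) (nat_lit 121479489626) (nat_lit 11) (nat_lit 5) (nat_lit 13) (nat_lit 5) (nat_lit 12) (nat_lit 5) (nat_lit 300) (nat_lit 275) (nat_lit 145))))))) (XT.nd (nat_lit 936) (nat_lit 228) (nat_lit 0) (XT.nd (nat_lit 468) (nat_lit 228) (nat_lit 0) (XT.nd (nat_lit 234) (nat_lit 76) (nat_lit 0) (XT.nd (nat_lit 78) (nat_lit 0) (nat_lit 0) (XT.lf (nat_lit 0) (nat_lit 24307962051) (nat_lit 152) (nat_lit 38778554584) (nat_lit 228) (nat_lit 154000105608) (nat_lit 9) (nat_lit 5) (nat_lit 11) (nat_lit 5) (nat_lit 12) (nat_lit 5) (nat_lit 301) (nat_lit 275) (nat_lit 144)) (XT.nd (nat_lit 78) (nat_lit 0) (nat_lit 0) (XT.lf (nat_lit 0) (nat_lit 93437984794) (nat_lit 228) (nat_lit 126776115956) (nat_lit 76) (nat_lit 10098594988) (nat_lit 9) (nat_lit 5) (nat_lit 12) (nat_lit 5) (nat_lit 10) (nat_lit 4) (nat_lit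 302) (nat_lit 275) (nat_lit 143)) (XT.lf (nat_lit 0) (nat_lit 127224502954) (nat_lit 228) (nat_lit 56501079532) (nat_lit 76) (nat_lit 60790719296) (nat_lit 9) (nat_lit 5) (nat_lit 12) (nat_lit 5) (nat_lit 10) (nat_lit 4) (nat_lit 303) (nat_lit 275) (nat_lit 142)))) (XT.nd (nat_lit 78) (nat_lit 0) (nat_lit 0) (XT.lf (nat_lit 0) (nat_lit 20416852562) (nat_lit 76) (nat_lit 143787835582) (nat_lit 152) (nat_lit 95612249699) (nat_lit 8) (nat_lit 5) (nat_lit 9) (nat_lit 5) (nat_lit 10) (nat_lit 4) (nat_lit 304) (nat_lit 275) (nat_lit 141)) (XT.nd (nat_lit 78) (nat_lit 0) (nat_lit 0) (XT.lf (nat_lit 0) (nat_lit 106701055948) (nat_lit 76) (nat_lit 98986802049) (nat_lit 152) (nat_lit 70530202295) (nat_lit 8) (nat_lit 5) (nat_lit 9) (nat_lit 5) (nat_lit 10) (nat_lit 4) (nat_lit 305) (nat_lit 275) (nat_lit 140)) (XT.lf (nat_lit 0) (nat_lit 199887597703) (nat_lit 76) (nat_lit 50601833925) (nat_lit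 152) (nat_lit 43441861906) (nat_lit 8) (nat_lit 5) (nat_lit 9) (nat_lit 5) (nat_lit 10) (nat_lit 4) (nat_lit 306) (nat_lit 275) (nat_lit 139))))) (XT.nd (nat_lit 234) (nat_lit 76) (nat_lit 0) (XT.nd (nat_lit 78) (nat_lit 152) (nat_lit 0) (XT.lf (nat_lit 0) (nat_lit 298914673641) (nat_lit 152) (nat_lit 12572684305) (nat_lit 0) (nat_lit 1571065026) (nat_lit 8) (nat_lit 5) (nat_lit 10) (nat_lit 4) (nat_lit 8) (nat_lit 4) (nat_lit 307) (nat_lit 275) (nat_lit 138)) (XT.nd (nat_lit 78) (nat_lit 0) (nat_lit 0) (XT.lf (nat_lit 0) (nat_lit 19895838566) (nat_lit 152) (nat_lit 255960845002) (nat_lit 76) (nat_lit 57563536784) (nat_lit 6) (nat_lit 5) (nat_lit 8) (nat_lit 5) (nat_lit 7) (nat_lit 4) (nat_lit 308) (nat_lit 275) (nat_lit 137)) (XT.lf (nat_lit 0) (nat_lit 56246936264) (nat_lit 152) (nat_lit 180351099390) (nat_lit 76) (nat_lit 118755339195) (nat_lit 6) (nat_lit 5) (nat_lit 8) (nat_lit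 5) (nat_lit 7) (nat_lit 4) (nat_lit 309) (nat_lit 275) (nat_lit 136)))) (XT.nd (nat_lit 78) (nat_lit 76) (nat_lit 0) (XT.lf (nat_lit 0) (nat_lit 95505922068) (nat_lit 152) (nat_lit 98692906694) (nat_lit 76) (nat_lit 184842369609) (nat_lit 6) (nat_lit 5) (nat_lit 8) (nat_lit 5) (nat_lit 7) (nat_lit 4) (nat_lit 310) (nat_lit 275) (nat_lit 135)) (XT.nd (nat_lit 78) (nat_lit 76) (nat_lit 0) (XT.lf (nat_lit 0) (nat_lit 137905441820) (nat_lit 152) (nat_lit 10502366512) (nat_lit 76) (nat_lit 256216254871) (nat_lit 6) (nat_lit 5) (nat_lit 8) (nat_lit 5) (nat_lit 7) (nat_lit 4) (nat_lit 311) (nat_lit 275) (nat_lit 134)) (XT.lf (nat_lit 0) (nat_lit 89205554903) (nat_lit 76) (nat_lit 96636592772) (nat_lit 152) (nat_lit 246239792176) (nat_lit 5) (nat_lit 5) (nat_lit 6) (nat_lit 5) (nat_lit 7) (nat_lit 4) (nat_lit 312) (nat_lit 275) (nat_lit 133)))))) (XT.nd (nat_lit 468) (nat_lit 152) (nat_lit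 0) (XT.nd (nat_lit 234) (nat_lit 76) (nat_lit 0) (XT.nd (nat_lit 78) (nat_lit 0) (nat_lit 0) (XT.lf (nat_lit 0) (nat_lit 197487111019) (nat_lit 76) (nat_lit 40413667073) (nat_lit 152) (nat_lit 223812710038) (nat_lit 5) (nat_lit 5) (nat_lit 6) (nat_lit 5) (nat_lit 7) (nat_lit 4) (nat_lit 313) (nat_lit 275) (nat_lit 132)) (XT.nd (nat_lit 78) (nat_lit 0) (nat_lit 0) (XT.lf (nat_lit 0) (nat_lit 294612329520) (nat_lit 152) (nat_lit 179773022267) (nat_lit 0) (nat_lit 19291150544) (nat_lit 5) (nat_lit 5) (nat_lit 7) (nat_lit 4) (nat_lit 5) (nat_lit 4) (nat_lit 314) (nat_lit 275) (nat_lit 131)) (XT.lf (nat_lit 0) (nat_lit 356910366728) (nat_lit 152) (nat_lit 89613352406) (nat_lit 0) (nat_lit 81588874068) (nat_lit 5) (nat_lit 5) (nat_lit 7) (nat_lit 4) (nat_lit 5) (nat_lit 4) (nat_lit 315) (nat_lit 275) (nat_lit 130)))) (XT.nd (nat_lit 78) (nat_lit 0) (nat_lit 0) (XT.lf (nat_lit 0) (nat_lit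 8167429565) (nat_lit 76) (nat_lit 416221110918) (nat_lit 76) (nat_lit 140899327810) (nat_lit 4) (nat_lit 4) (nat_lit 5) (nat_lit 5) (nat_lit 5) (nat_lit 4) (nat_lit 316) (nat_lit 275) (nat_lit 129)) (XT.nd (nat_lit 78) (nat_lit 0) (nat_lit 0) (XT.lf (nat_lit 0) (nat_lit 118866841274) (nat_lit 76) (nat_lit 380848185916) (nat_lit 76) (nat_lit 105526133876) (nat_lit 4) (nat_lit 4) (nat_lit 5) (nat_lit 5) (nat_lit 5) (nat_lit 4) (nat_lit 317) (nat_lit 275) (nat_lit 128)) (XT.lf (nat_lit 0) (nat_lit 238421998906) (nat_lit 76) (nat_lit 342645514661) (nat_lit 76) (nat_lit 67323213608) (nat_lit 4) (nat_lit 4) (nat_lit 5) (nat_lit 5) (nat_lit 5) (nat_lit 4) (nat_lit 318) (nat_lit 275) (nat_lit 127))))) (XT.nd (nat_lit 234) (nat_lit 76) (nat_lit 0) (XT.nd (nat_lit 78) (nat_lit 76) (nat_lit 0) (XT.lf (nat_lit 0) (nat_lit 367541377468) (nat_lit 76) (nat_lit 301386710952) (nat_lit 76) (nat_lit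 26064179332) (nat_lit 4) (nat_lit 4) (nat_lit 5) (nat_lit 5) (nat_lit 5) (nat_lit 4) (nat_lit 319) (nat_lit 275) (nat_lit 126)) (XT.nd (nat_lit 78) (nat_lit 0) (nat_lit 0) (XT.lf (nat_lit 0) (nat_lit 17570248769) (nat_lit 152) (nat_lit 238776627665) (nat_lit 76) (nat_lit 488939478325) (nat_lit 3) (nat_lit 5) (nat_lit 5) (nat_lit 5) (nat_lit 4) (nat_lit 4) (nat_lit 320) (nat_lit 275) (nat_lit 125)) (XT.lf (nat_lit 0) (nat_lit 63287191026) (nat_lit 152) (nat_lit 143685585446) (nat_lit 76) (nat_lit 592577040990) (nat_lit 3) (nat_lit 5) (nat_lit 5) (nat_lit 5) (nat_lit 4) (nat_lit 4) (nat_lit 321) (nat_lit 275) (nat_lit 124)))) (XT.nd (nat_lit 78) (nat_lit 76) (nat_lit 0) (XT.lf (nat_lit 0) (nat_lit 112661398461) (nat_lit 152) (nat_lit 40987417013) (nat_lit 76) (nat_lit 704505549175) (nat_lit 3) (nat_lit 5) (nat_lit 5) (nat_lit 5) (nat_lit 4) (nat_lit 4) (nat_lit 322) (nat_lit 275) (nat_lit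 123)) (XT.nd (nat_lit 78) (nat_lit 0) (nat_lit 0) (XT.lf (nat_lit 0) (nat_lit 73608662800) (nat_lit 76) (nat_lit 94147086279) (nat_lit 152) (nat_lit 753549910239) (nat_lit 2) (nat_lit 5) (nat_lit 3) (nat_lit 5) (nat_lit 4) (nat_lit 4) (nat_lit 323) (nat_lit 275) (nat_lit 122)) (XT.lf (nat_lit 0) (nat_lit 199703277884) (nat_lit 76) (nat_lit 28674957735) (nat_lit 152) (nat_lit 761041175128) (nat_lit 2) (nat_lit 5) (nat_lit 3) (nat_lit 5) (nat_lit 4) (nat_lit 4) (nat_lit 324) (nat_lit 275) (nat_lit 121))))))))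
noncomputable def xc107 : XT := (XT.nd (nat_lit 35178) (nat_lit 0) (nat_lit 152) (XT.nd (nat_lit 34242) (nat_lit 0) (nat_lit 988) (XT.nd (nat_lit 33774) (nat_lit 0) (nat_lit 2052) (XT.nd (nat_lit 234) (nat_lit 0) (nat_lit 0) (XT.nd (nat_lit 78) (nat_lit 0) (nat_lit 0) (XT.lf (nat_lit 0) (nat_lit 294861386303) (nat_lit 152) (nat_lit 728107877615) (nat_lit 0) (nat_lit 39932129357) (nat_lit 2) (nat_lit 5) (nat_lit 4) (nat_lit 4) (nat_lit 2) (nat_lit 4) (nat_lit 325) (nat_lit 275) (nat_lit 120)) (XT.nd (nat_lit 78) (nat_lit 0) (nat_lit 0) (XT.lf (nat_lit 0) (nat_lit 367407922652) (nat_lit 152) (nat_lit 662315892111) (nat_lit 0) (nat_lit 112478541138) (nat_lit 2) (nat_lit 5) (nat_lit 4) (nat_lit 4) (nat_lit 2) (nat_lit 4) (nat_lit 326) (nat_lit 275) (nat_lit 119)) (XT.lf (nat_lit 0) (nat_lit 445758116645) (nat_lit 152) (nat_lit 591260664497) (nat_lit 0) (nat_lit 190828619790) (nat_lit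 2) (nat_lit 5) (nat_lit 4) (nat_lit 4) (nat_lit 2) (nat_lit 4) (nat_lit 327) (nat_lit 275) (nat_lit 118)))) (XT.nd (nat_lit 78) (nat_lit 0) (nat_lit 0) (XT.lf (nat_lit 0) (nat_lit 530376265726) (nat_lit 152) (nat_lit 514521126758) (nat_lit 0) (nat_lit 275446662074) (nat_lit 2) (nat_lit 5) (nat_lit 4) (nat_lit 4) (nat_lit 2) (nat_lit 4) (nat_lit 328) (nat_lit 275) (nat_lit 117)) (XT.nd (nat_lit 33384) (nat_lit 0) (nat_lit 2052) (XT.lf (nat_lit 0) (nat_lit 621763810781) (nat_lit 152) (nat_lit 431642526076) (nat_lit 0) (nat_lit 366834108242) (nat_lit 2) (nat_lit 5) (nat_lit 4) (nat_lit 4) (nat_lit 2) (nat_lit 4) (nat_lit 329) (nat_lit 275) (nat_lit 116)) (XT.lf (nat_lit 0) (nat_lit 5679705370) (nat_lit 532) (nat_lit 13596599133) (nat_lit 532) (nat_lit 13596599133) (nat_lit 29) (nat_lit 3) (nat_lit 36) (nat_lit 3) (nat_lit 36) (nat_lit 5) (nat_lit 276) (nat_lit 276) (nat_lit 168)))))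 (XT.nd (nat_lit 234) (nat_lit 0) (nat_lit 152) (XT.nd (nat_lit 78) (nat_lit 0) (nat_lit 76) (XT.lf (nat_lit 0) (nat_lit 11827020324) (nat_lit 532) (nat_lit 541084048) (nat_lit 532) (nat_lit 56006382383) (nat_lit 29) (nat_lit 3) (nat_lit 36) (nat_lit 3) (nat_lit 36) (nat_lit 5) (nat_lit 277) (nat_lit 276) (nat_lit 167)) (XT.nd (nat_lit 78) (nat_lit 0) (nat_lit 0) (XT.lf (nat_lit 0) (nat_lit 13446963953) (nat_lit 456) (nat_lit 41827947126) (nat_lit 532) (nat_lit 15849364915) (nat_lit 30) (nat_lit 5) (nat_lit 36) (nat_lit 5) (nat_lit 37) (nat_lit 5) (nat_lit 278) (nat_lit 276) (nat_lit 166)) (XT.lf (nat_lit 0) (nat_lit 15531701266) (nat_lit 456) (nat_lit 12863814404) (nat_lit 532) (nat_lit 45671725568) (nat_lit 30) (nat_lit 5) (nat_lit 36) (nat_lit 5) (nat_lit 37) (nat_lit 5) (nat_lit 279) (nat_lit 276) (nat_lit 165)))) (XT.nd (nat_lit 78) (nat_lit 0) (nat_lit 0) (XT.lf (nat_lit 0) (nat_lit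 18275696783) (nat_lit 456) (nat_lit 57849338468) (nat_lit 532) (nat_lit 1081218190) (nat_lit 31) (nat_lit 5) (nat_lit 37) (nat_lit 5) (nat_lit 38) (nat_lit 5) (nat_lit 280) (nat_lit 276) (nat_lit 164)) (XT.nd (nat_lit 78) (nat_lit 0) (nat_lit 0) (XT.lf (nat_lit 0) (nat_lit 22336548637) (nat_lit 456) (nat_lit 26428894821) (nat_lit 532) (nat_lit 31743163704) (nat_lit 31) (nat_lit 5) (nat_lit 37) (nat_lit 5) (nat_lit 38) (nat_lit 5) (nat_lit 281) (nat_lit 276) (nat_lit 163)) (XT.lf (nat_lit 76) (nat_lit 7899571824) (nat_lit 0) (nat_lit 19011696319) (nat_lit 532) (nat_lit 57148768003) (nat_lit 32) (nat_lit 5) (nat_lit 31) (nat_lit 5) (nat_lit 38) (nat_lit 5) (nat_lit 282) (nat_lit 276) (nat_lit 162)))))) (XT.nd (nat_lit 468) (nat_lit 608) (nat_lit 0) (XT.nd (nat_lit 234) (nat_lit 228) (nat_lit 0) (XT.nd (nat_lit 78) (nat_lit 456) (nat_lit 0) (XT.lf (nat_lit 0) (nat_lit 32908013410) (nat_lit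 456) (nat_lit 41695628201) (nat_lit 76) (nat_lit 13207460391) (nat_lit 32) (nat_lit 5) (nat_lit 38) (nat_lit 5) (nat_lit 33) (nat_lit 5) (nat_lit 283) (nat_lit 276) (nat_lit 161)) (XT.nd (nat_lit 78) (nat_lit 456) (nat_lit 0) (XT.lf (nat_lit 0) (nat_lit 39877450600) (nat_lit 456) (nat_lit 4968199037) (nat_lit 76) (nat_lit 46977173243) (nat_lit 32) (nat_lit 5) (nat_lit 38) (nat_lit 5) (nat_lit 33) (nat_lit 5) (nat_lit 284) (nat_lit 276) (nat_lit 160)) (XT.lf (nat_lit 0) (nat_lit 36523765628) (nat_lit 456) (nat_lit 11758280141) (nat_lit 532) (nat_lit 47803232915) (nat_lit 26) (nat_lit 5) (nat_lit 32) (nat_lit 5) (nat_lit 33) (nat_lit 5) (nat_lit 285) (nat_lit 276) (nat_lit 159)))) (XT.nd (nat_lit 78) (nat_lit 228) (nat_lit 0) (XT.lf (nat_lit 0) (nat_lit 58074249985) (nat_lit 532) (nat_lit 19641157559) (nat_lit 76) (nat_lit 22916109183) (nat_lit 26) (nat_lit 5) (nat_lit 33) (nat_lit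 5) (nat_lit 27) (nat_lit 5) (nat_lit 286) (nat_lit 276) (nat_lit 158)) (XT.nd (nat_lit 78) (nat_lit 0) (nat_lit 0) (XT.lf (nat_lit 0) (nat_lit 24386617650) (nat_lit 228) (nat_lit 45154425666) (nat_lit 304) (nat_lit 35929118189) (nat_lit 23) (nat_lit 5) (nat_lit 26) (nat_lit 5) (nat_lit 27) (nat_lit 5) (nat_lit 287) (nat_lit 276) (nat_lit 157)) (XT.lf (nat_lit 0) (nat_lit 73052926808) (nat_lit 228) (nat_lit 9408616277) (nat_lit 304) (nat_lit 28191450105) (nat_lit 23) (nat_lit 5) (nat_lit 26) (nat_lit 5) (nat_lit 27) (nat_lit 5) (nat_lit 288) (nat_lit 276) (nat_lit 156))))) (XT.nd (nat_lit 234) (nat_lit 380) (nat_lit 0) (XT.nd (nat_lit 78) (nat_lit 76) (nat_lit 0) (XT.lf (nat_lit 0) (nat_lit 9115183998) (nat_lit 152) (nat_lit 88221291426) (nat_lit 228) (nat_lit 18840316617) (nat_lit 21) (nat_lit 5) (nat_lit 23) (nat_lit 5) (nat_lit 24) (nat_lit 5) (nat_lit 289) (nat_lit 276) (nat_lit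 155)) (XT.nd (nat_lit 78) (nat_lit 76) (nat_lit 0) (XT.lf (nat_lit 0) (nat_lit 61448074369) (nat_lit 152) (nat_lit 53218989338) (nat_lit 228) (nat_lit 7374181927) (nat_lit 21) (nat_lit 5) (nat_lit 23) (nat_lit 5) (nat_lit 24) (nat_lit 5) (nat_lit 290) (nat_lit 276) (nat_lit 154)) (XT.lf (nat_lit 0) (nat_lit 4758102895) (nat_lit 228) (nat_lit 10528395019) (nat_lit 76) (nat_lit 113078767654) (nat_lit 20) (nat_lit 5) (nat_lit 23) (nat_lit 5) (nat_lit 21) (nat_lit 5) (nat_lit 291) (nat_lit 276) (nat_lit 153)))) (XT.nd (nat_lit 78) (nat_lit 152) (nat_lit 0) (XT.lf (nat_lit 0) (nat_lit 19210606771) (nat_lit 304) (nat_lit 90111113527) (nat_lit 76) (nat_lit 25718324101) (nat_lit 17) (nat_lit 5) (nat_lit 21) (nat_lit 5) (nat_lit 18) (nat_lit 5) (nat_lit 292) (nat_lit 276) (nat_lit 152)) (XT.nd (nat_lit 78) (nat_lit 152) (nat_lit 0) (XT.lf (nat_lit 0) (nat_lit 35511209522) (nat_lit 304) (nat_lit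 37209341276) (nat_lit 76) (nat_lit 69472905604) (nat_lit 17) (nat_lit 5) (nat_lit 21) (nat_lit 5) (nat_lit 18) (nat_lit 5) (nat_lit 293) (nat_lit 276) (nat_lit 151)) (XT.lf (nat_lit 0) (nat_lit 20973143579) (nat_lit 152) (nat_lit 32646662892) (nat_lit 228) (nat_lit 96259021761) (nat_lit 15) (nat_lit 5) (nat_lit 17) (nat_lit 5) (nat_lit 18) (nat_lit 5) (nat_lit 294) (nat_lit 276) (nat_lit 150))))))) (XT.nd (nat_lit 936) (nat_lit 304) (nat_lit 0) (XT.nd (nat_lit 468) (nat_lit 228) (nat_lit 0) (XT.nd (nat_lit 234) (nat_lit 152) (nat_lit 0) (XT.nd (nat_lit 78) (nat_lit 152) (nat_lit 0) (XT.lf (nat_lit 0) (nat_lit 74476171057) (nat_lit 228) (nat_lit 72454047124) (nat_lit 76) (nat_lit 11144887595) (nat_lit 15) (nat_lit 5) (nat_lit 18) (nat_lit 5) (nat_lit 16) (nat_lit 5) (nat_lit 295) (nat_lit 276) (nat_lit 149)) (XT.nd (nat_lit 78) (nat_lit 152) (nat_lit 0) (XT.lf (nat_lit 0) (nat_lit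 97848600999) (nat_lit 228) (nat_lit 12334808621) (nat_lit 76) (nat_lit 56675873591) (nat_lit 15) (nat_lit 5) (nat_lit 18) (nat_lit 5) (nat_lit 16) (nat_lit 5) (nat_lit 296) (nat_lit 276) (nat_lit 148)) (XT.lf (nat_lit 0) (nat_lit 55362923703) (nat_lit 152) (nat_lit 69059002502) (nat_lit 228) (nat_lit 51817782587) (nat_lit 13) (nat_lit 5) (nat_lit 15) (nat_lit 5) (nat_lit 16) (nat_lit 5) (nat_lit 297) (nat_lit 276) (nat_lit 147)))) (XT.nd (nat_lit 78) (nat_lit 152) (nat_lit 0) (XT.lf (nat_lit 0) (nat_lit 129177456424) (nat_lit 152) (nat_lit 24280553553) (nat_lit 228) (nat_lit 32885608910) (nat_lit 13) (nat_lit 5) (nat_lit 15) (nat_lit 5) (nat_lit 16) (nat_lit 5) (nat_lit 298) (nat_lit 276) (nat_lit 146)) (XT.nd (nat_lit 78) (nat_lit 76) (nat_lit 0) (XT.lf (nat_lit 0) (nat_lit 11644172664) (nat_lit 76) (nat_lit 174031639761) (nat_lit 152) (nat_lit 11511324539) (nat_lit 12) (nat_lit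 5) (nat_lit 13) (nat_lit 5) (nat_lit 14) (nat_lit 4) (nat_lit 299) (nat_lit 276) (nat_lit 145)) (XT.lf (nat_lit 0) (nat_lit 13227929205) (nat_lit 152) (nat_lit 120512763849) (nat_lit 76) (nat_lit 74956462627) (nat_lit 11) (nat_lit 5) (nat_lit 13) (nat_lit 5) (nat_lit 12) (nat_lit 5) (nat_lit 300) (nat_lit 276) (nat_lit 144))))) (XT.nd (nat_lit 234) (nat_lit 76) (nat_lit 0) (XT.nd (nat_lit 78) (nat_lit 152) (nat_lit 0) (XT.lf (nat_lit 0) (nat_lit 39324101743) (nat_lit 152) (nat_lit 50579609347) (nat_lit 76) (nat_lit 131200371424) (nat_lit 11) (nat_lit 5) (nat_lit 13) (nat_lit 5) (nat_lit 12) (nat_lit 5) (nat_lit 301) (nat_lit 276) (nat_lit 143)) (XT.nd (nat_lit 78) (nat_lit 0) (nat_lit 0) (XT.lf (nat_lit 0) (nat_lit 26261470653) (nat_lit 152) (nat_lit 41877798480) (nat_lit 228) (nat_lit 166313791549) (nat_lit 9) (nat_lit 5) (nat_lit 11) (nat_lit 5) (nat_lit 12) (nat_lit 5) (nat_lit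 302) (nat_lit 276) (nat_lit 142)) (XT.lf (nat_lit 0) (nat_lit 100918490513) (nat_lit 228) (nat_lit 136909603514) (nat_lit 76) (nat_lit 10909157008) (nat_lit 9) (nat_lit 5) (nat_lit 12) (nat_lit 5) (nat_lit 10) (nat_lit 4) (nat_lit 303) (nat_lit 276) (nat_lit 141)))) (XT.nd (nat_lit 78) (nat_lit 76) (nat_lit 0) (XT.lf (nat_lit 0) (nat_lit 137407525168) (nat_lit 228) (nat_lit 61013201341) (nat_lit 76) (nat_lit 65656453155) (nat_lit 9) (nat_lit 5) (nat_lit 12) (nat_lit 5) (nat_lit 10) (nat_lit 4) (nat_lit 304) (nat_lit 276) (nat_lit 140)) (XT.nd (nat_lit 78) (nat_lit 0) (nat_lit 0) (XT.lf (nat_lit 0) (nat_lit 22057963687) (nat_lit 76) (nat_lit 155287973223) (nat_lit 152) (nat_lit 103255946338) (nat_lit 8) (nat_lit 5) (nat_lit 9) (nat_lit 5) (nat_lit 10) (nat_lit 4) (nat_lit 305) (nat_lit 276) (nat_lit 139)) (XT.lf (nat_lit 0) (nat_lit 115244328313) (nat_lit 76) (nat_lit 106903071023)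 (nat_lit 152) (nat_lit 76167726500) (nat_lit 8) (nat_lit 5) (nat_lit 9) (nat_lit 5) (nat_lit 10) (nat_lit 4) (nat_lit 306) (nat_lit 276) (nat_lit 138)))))) (XT.nd (nat_lit 468) (nat_lit 152) (nat_lit 0) (XT.nd (nat_lit 234) (nat_lit 0) (nat_lit 0) (XT.nd (nat_lit 78) (nat_lit 152) (nat_lit 0) (XT.lf (nat_lit 0) (nat_lit 215885260971) (nat_lit 76) (nat_lit 54647503611) (nat_lit 152) (nat_lit 46912681249) (nat_lit 8) (nat_lit 5) (nat_lit 9) (nat_lit 5) (nat_lit 10) (nat_lit 4) (nat_lit 307) (nat_lit 276) (nat_lit 137)) (XT.nd (nat_lit 78) (nat_lit 152) (nat_lit 0) (XT.lf (nat_lit 0) (nat_lit 322831771604) (nat_lit 152) (nat_lit 13572066582) (nat_lit 0) (nat_lit 1698929040) (nat_lit 8) (nat_lit 5) (nat_lit 10) (nat_lit 4) (nat_lit 8) (nat_lit 4) (nat_lit 308) (nat_lit 276) (nat_lit 136)) (XT.lf (nat_lit 0) (nat_lit 21491401899) (nat_lit 152) (nat_lit 276431224388) (nat_lit 76) (nat_lit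 62170886569) (nat_lit 6) (nat_lit 5) (nat_lit 8) (nat_lit 5) (nat_lit 7) (nat_lit 4) (nat_lit 309) (nat_lit 276) (nat_lit 135)))) (XT.nd (nat_lit 78) (nat_lit 0) (nat_lit 0) (XT.lf (nat_lit 0) (nat_lit 60750298802) (nat_lit 152) (nat_lit 194773179735) (nat_lit 76) (nat_lit 128257865259) (nat_lit 6) (nat_lit 5) (nat_lit 8) (nat_lit 5) (nat_lit 7) (nat_lit 4) (nat_lit 310) (nat_lit 276) (nat_lit 134)) (XT.nd (nat_lit 78) (nat_lit 0) (nat_lit 0) (XT.lf (nat_lit 0) (nat_lit 103149736238) (nat_lit 152) (nat_lit 106582776631) (nat_lit 76) (nat_lit 199631702629) (nat_lit 6) (nat_lit 5) (nat_lit 8) (nat_lit 5) (nat_lit 7) (nat_lit 4) (nat_lit 311) (nat_lit 276) (nat_lit 133)) (XT.lf (nat_lit 0) (nat_lit 148940970133) (nat_lit 152) (nat_lit 11337405279) (nat_lit 76) (nat_lit 276715354753) (nat_lit 6) (nat_lit 5) (nat_lit 8) (nat_lit 5) (nat_lit 7) (nat_lit 4) (nat_lit 312) (nat_lit 276) (nat_lit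 132))))) (XT.nd (nat_lit 234) (nat_lit 76) (nat_lit 0) (XT.nd (nat_lit 78) (nat_lit 0) (nat_lit 0) (XT.lf (nat_lit 0) (nat_lit 96347019455) (nat_lit 76) (nat_lit 104365484628) (nat_lit 152) (nat_lit 265935742322) (nat_lit 5) (nat_lit 5) (nat_lit 6) (nat_lit 5) (nat_lit 7) (nat_lit 4) (nat_lit 313) (nat_lit 276) (nat_lit 131)) (XT.nd (nat_lit 78) (nat_lit 0) (nat_lit 0) (XT.lf (nat_lit 0) (nat_lit 213290728197) (nat_lit 76) (nat_lit 43644875655) (nat_lit 152) (nat_lit 241714733111) (nat_lit 5) (nat_lit 5) (nat_lit 6) (nat_lit 5) (nat_lit 7) (nat_lit 4) (nat_lit 314) (nat_lit 276) (nat_lit 130)) (XT.lf (nat_lit 0) (nat_lit 318183916661) (nat_lit 152) (nat_lit 194150388877) (nat_lit 0) (nat_lit 20836100457) (nat_lit 5) (nat_lit 5) (nat_lit 7) (nat_lit 4) (nat_lit 5) (nat_lit 4) (nat_lit 315) (nat_lit 276) (nat_lit 129)))) (XT.nd (nat_lit 78) (nat_lit 76) (nat_lit 0) (XT.lf (nat_lit 0)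 (nat_lit 385465604196) (nat_lit 152) (nat_lit 96778276922) (nat_lit 0) (nat_lit 88117519059) (nat_lit 5) (nat_lit 5) (nat_lit 7) (nat_lit 4) (nat_lit 5) (nat_lit 4) (nat_lit 316) (nat_lit 276) (nat_lit 128)) (XT.nd (nat_lit 78) (nat_lit 0) (nat_lit 0) (XT.lf (nat_lit 0) (nat_lit 8824862704) (nat_lit 76) (nat_lit 449517087899) (nat_lit 76) (nat_lit 152168753750) (nat_lit 4) (nat_lit 4) (nat_lit 5) (nat_lit 5) (nat_lit 5) (nat_lit 4) (nat_lit 317) (nat_lit 276) (nat_lit 127)) (XT.lf (nat_lit 0) (nat_lit 128379928182) (nat_lit 76) (nat_lit 411314455705) (nat_lit 76) (nat_lit 113965890989) (nat_lit 4) (nat_lit 4) (nat_lit 5) (nat_lit 5) (nat_lit 5) (nat_lit 4) (nat_lit 318) (nat_lit 276) (nat_lit 126))))))))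
noncomputable def xc108 : XT := (XT.nd (nat_lit 35178) (nat_lit 0) (nat_lit 304) (XT.nd (nat_lit 34242) (nat_lit 0) (nat_lit 1596) (XT.nd (nat_lit 390) (nat_lit 76) (nat_lit 0) (XT.nd (nat_lit 156) (nat_lit 76) (nat_lit 0) (XT.nd (nat_lit 78) (nat_lit 0) (nat_lit 0) (XT.lf (nat_lit 0) (nat_lit 257499221416) (nat_lit 76) (nat_lit 370055688163) (nat_lit 76) (nat_lit 72706909959) (nat_lit 4) (nat_lit 4) (nat_lit 5) (nat_lit 5) (nat_lit 5) (nat_lit 4) (nat_lit 319) (nat_lit 276) (nat_lit 125)) (XT.lf (nat_lit 0) (nat_lit 396947893775) (nat_lit 76) (nat_lit 325496288873) (nat_lit 76) (nat_lit 28147312995) (nat_lit 4) (nat_lit 4) (nat_lit 5) (nat_lit 5) (nat_lit 5) (nat_lit 4) (nat_lit 320) (nat_lit 276) (nat_lit 124))) (XT.nd (nat_lit 78) (nat_lit 0) (nat_lit 0) (XT.lf (nat_lit 0) (nat_lit 18977628487) (nat_lit 152) (nat_lit 257875691654) (nat_lit 76) (nat_lit 528055797278) (nat_lit 3)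 (nat_lit 5) (nat_lit 5) (nat_lit 5) (nat_lit 4) (nat_lit 4) (nat_lit 321) (nat_lit 276) (nat_lit 123)) (XT.nd (nat_lit 78) (nat_lit 0) (nat_lit 0) (XT.lf (nat_lit 0) (nat_lit 68351795767) (nat_lit 152) (nat_lit 155177593185) (nat_lit 76) (nat_lit 639984278979) (nat_lit 3) (nat_lit 5) (nat_lit 5) (nat_lit 5) (nat_lit 4) (nat_lit 4) (nat_lit 322) (nat_lit 276) (nat_lit 122)) (XT.lf (nat_lit 0) (nat_lit 121675819096) (nat_lit 152) (nat_lit 44263781581) (nat_lit 76) (nat_lit 760866988211) (nat_lit 3) (nat_lit 5) (nat_lit 5) (nat_lit 5) (nat_lit 4) (nat_lit 4) (nat_lit 323) (nat_lit 276) (nat_lit 121))))) (XT.nd (nat_lit 234) (nat_lit 0) (nat_lit 0) (XT.nd (nat_lit 78) (nat_lit 0) (nat_lit 0) (XT.lf (nat_lit 0) (nat_lit 79499918066) (nat_lit 76) (nat_lit 101677749561) (nat_lit 152) (nat_lit 813832323829) (nat_lit 2) (nat_lit 5) (nat_lit 3) (nat_lit 5) (nat_lit 4) (nat_lit 4) (nat_lit 324)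 (nat_lit 276) (nat_lit 120)) (XT.nd (nat_lit 78) (nat_lit 0) (nat_lit 0) (XT.lf (nat_lit 0) (nat_lit 215681912561) (nat_lit 76) (nat_lit 30967932483) (nat_lit 152) (nat_lit 821923006889) (nat_lit 2) (nat_lit 5) (nat_lit 3) (nat_lit 5) (nat_lit 4) (nat_lit 4) (nat_lit 325) (nat_lit 276) (nat_lit 119)) (XT.lf (nat_lit 0) (nat_lit 318451570495) (nat_lit 152) (nat_lit 786354230469) (nat_lit 0) (nat_lit 43127598551) (nat_lit 2) (nat_lit 5) (nat_lit 4) (nat_lit 4) (nat_lit 2) (nat_lit 4) (nat_lit 326) (nat_lit 276) (nat_lit 118)))) (XT.nd (nat_lit 78) (nat_lit 0) (nat_lit 0) (XT.lf (nat_lit 0) (nat_lit 396801735435) (nat_lit 152) (nat_lit 715299054818) (nat_lit 0) (nat_lit 121477656693) (nat_lit 2) (nat_lit 5) (nat_lit 4) (nat_lit 4) (nat_lit 2) (nat_lit 4) (nat_lit 327) (nat_lit 276) (nat_lit 117)) (XT.nd (nat_lit 78) (nat_lit 0) (nat_lit 0) (XT.lf (nat_lit 0) (nat_lit 481419857615) (nat_lit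 152) (nat_lit 638559565192) (nat_lit 0) (nat_lit 206095679988) (nat_lit 2) (nat_lit 5) (nat_lit 4) (nat_lit 4) (nat_lit 2) (nat_lit 4) (nat_lit 328) (nat_lit 276) (nat_lit 116)) (XT.lf (nat_lit 0) (nat_lit 572807377761) (nat_lit 152) (nat_lit 555681009060) (nat_lit 0) (nat_lit 297483108572) (nat_lit 2) (nat_lit 5) (nat_lit 4) (nat_lit 4) (nat_lit 2) (nat_lit 4) (nat_lit 329) (nat_lit 276) (nat_lit 115)))))) (XT.nd (nat_lit 468) (nat_lit 456) (nat_lit 0) (XT.nd (nat_lit 234) (nat_lit 0) (nat_lit 76) (XT.nd (nat_lit 78) (nat_lit 0) (nat_lit 0) (XT.lf (nat_lit 0) (nat_lit 6146996696) (nat_lit 532) (nat_lit 14677307073) (nat_lit 532) (nat_lit 14677307073) (nat_lit 29) (nat_lit 3) (nat_lit 36) (nat_lit 3) (nat_lit 36) (nat_lit 5) (nat_lit 277) (nat_lit 277) (nat_lit 166)) (XT.nd (nat_lit 78) (nat_lit 0) (nat_lit 76) (XT.lf (nat_lit 0) (nat_lit 12797098426) (nat_lit 532) (nat_lit 571370789)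 (nat_lit 532) (nat_lit 60473892992) (nat_lit 29) (nat_lit 3) (nat_lit 36) (nat_lit 3) (nat_lit 36) (nat_lit 5) (nat_lit 278) (nat_lit 277) (nat_lit 165)) (XT.lf (nat_lit 0) (nat_lit 14544935509) (nat_lit 456) (nat_lit 45159323313) (nat_lit 532) (nat_lit 17108024530) (nat_lit 30) (nat_lit 5) (nat_lit 36) (nat_lit 5) (nat_lit 37) (nat_lit 5) (nat_lit 279) (nat_lit 277) (nat_lit 164)))) (XT.nd (nat_lit 78) (nat_lit 0) (nat_lit 76) (XT.lf (nat_lit 0) (nat_lit 16794806293) (nat_lit 456) (nat_lit 13879160684) (nat_lit 532) (nat_lit 49316862152) (nat_lit 30) (nat_lit 5) (nat_lit 36) (nat_lit 5) (nat_lit 37) (nat_lit 5) (nat_lit 280) (nat_lit 277) (nat_lit 163)) (XT.nd (nat_lit 78) (nat_lit 0) (nat_lit 0) (XT.lf (nat_lit 0) (nat_lit 19756977079) (nat_lit 456) (nat_lit 62462047213) (nat_lit 532) (nat_lit 1162056373) (nat_lit 31) (nat_lit 5) (nat_lit 37) (nat_lit 5) (nat_lit 38) (nat_lit 5)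 (nat_lit 281) (nat_lit 277) (nat_lit 162)) (XT.lf (nat_lit 0) (nat_lit 24141273040) (nat_lit 456) (nat_lit 28529096840) (nat_lit 532) (nat_lit 34277376733) (nat_lit 31) (nat_lit 5) (nat_lit 37) (nat_lit 5) (nat_lit 38) (nat_lit 5) (nat_lit 282) (nat_lit 277) (nat_lit 161))))) (XT.nd (nat_lit 234) (nat_lit 608) (nat_lit 0) (XT.nd (nat_lit 78) (nat_lit 0) (nat_lit 76) (XT.lf (nat_lit 76) (nat_lit 8545289932) (nat_lit 0) (nat_lit 20535692362) (nat_lit 532) (nat_lit 61702395911) (nat_lit 32) (nat_lit 5) (nat_lit 31) (nat_lit 5) (nat_lit 38) (nat_lit 5) (nat_lit 283) (nat_lit 277) (nat_lit 160)) (XT.nd (nat_lit 78) (nat_lit 0) (nat_lit 0) (XT.lf (nat_lit 0) (nat_lit 35556153649) (nat_lit 456) (nat_lit 45017124018) (nat_lit 76) (nat_lit 14261365326) (nat_lit 32) (nat_lit 5) (nat_lit 38) (nat_lit 5) (nat_lit 33) (nat_lit 5) (nat_lit 284) (nat_lit 277) (nat_lit 159)) (XT.lf (nat_lit 0) (nat_lit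 43081997728) (nat_lit 456) (nat_lit 5352548997) (nat_lit 76) (nat_lit 50732854607) (nat_lit 32) (nat_lit 5) (nat_lit 38) (nat_lit 5) (nat_lit 33) (nat_lit 5) (nat_lit 285) (nat_lit 277) (nat_lit 158)))) (XT.nd (nat_lit 78) (nat_lit 228) (nat_lit 0) (XT.lf (nat_lit 0) (nat_lit 39458441044) (nat_lit 456) (nat_lit 12699763642) (nat_lit 532) (nat_lit 51612716734) (nat_lit 26) (nat_lit 5) (nat_lit 32) (nat_lit 5) (nat_lit 33) (nat_lit 5) (nat_lit 286) (nat_lit 277) (nat_lit 157)) (XT.nd (nat_lit 78) (nat_lit 228) (nat_lit 0) (XT.lf (nat_lit 0) (nat_lit 62732759899) (nat_lit 532) (nat_lit 21199511764) (nat_lit 76) (nat_lit 24748675682) (nat_lit 26) (nat_lit 5) (nat_lit 33) (nat_lit 5) (nat_lit 27) (nat_lit 5) (nat_lit 287) (nat_lit 277) (nat_lit 156)) (XT.lf (nat_lit 0) (nat_lit 26350157907) (nat_lit 228) (nat_lit 48766110975) (nat_lit 304) (nat_lit 38790471353) (nat_lit 23) (nat_lit 5)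 (nat_lit 26) (nat_lit 5) (nat_lit 27) (nat_lit 5) (nat_lit 288) (nat_lit 277) (nat_lit 155))))))) (XT.nd (nat_lit 936) (nat_lit 456) (nat_lit 0) (XT.nd (nat_lit 468) (nat_lit 380) (nat_lit 0) (XT.nd (nat_lit 234) (nat_lit 304) (nat_lit 0) (XT.nd (nat_lit 78) (nat_lit 152) (nat_lit 0) (XT.lf (nat_lit 0) (nat_lit 78908837661) (nat_lit 228) (nat_lit 10160686372) (nat_lit 304) (nat_lit 30434751029) (nat_lit 23) (nat_lit 5) (nat_lit 26) (nat_lit 5) (nat_lit 27) (nat_lit 5) (nat_lit 289) (nat_lit 277) (nat_lit 154)) (XT.nd (nat_lit 78) (nat_lit 0) (nat_lit 0) (XT.lf (nat_lit 0) (nat_lit 9856698640) (nat_lit 152) (nat_lit 95277242849) (nat_lit 228) (nat_lit 20336082497) (nat_lit 21) (nat_lit 5) (nat_lit 23) (nat_lit 5) (nat_lit 24) (nat_lit 5) (nat_lit 290) (nat_lit 277) (nat_lit 153)) (XT.lf (nat_lit 0) (nat_lit 66375309135) (nat_lit 152) (nat_lit 57474886363) (nat_lit 228) (nat_lit 7953505881)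 (nat_lit 21) (nat_lit 5) (nat_lit 23) (nat_lit 5) (nat_lit 24) (nat_lit 5) (nat_lit 291) (nat_lit 277) (nat_lit 152)))) (XT.nd (nat_lit 78) (nat_lit 228) (nat_lit 0) (XT.lf (nat_lit 0) (nat_lit 5148084289) (nat_lit 228) (nat_lit 11359576307) (nat_lit 76) (nat_lit 122126025919) (nat_lit 20) (nat_lit 5) (nat_lit 23) (nat_lit 5) (nat_lit 21) (nat_lit 5) (nat_lit 292) (nat_lit 277) (nat_lit 151)) (XT.nd (nat_lit 78) (nat_lit 0) (nat_lit 0) (XT.lf (nat_lit 0) (nat_lit 20756402981) (nat_lit 304) (nat_lit 97308477132) (nat_lit 76) (nat_lit 27777602354) (nat_lit 17) (nat_lit 5) (nat_lit 21) (nat_lit 5) (nat_lit 18) (nat_lit 5) (nat_lit 293) (nat_lit 277) (nat_lit 150)) (XT.lf (nat_lit 0) (nat_lit 38360391162) (nat_lit 304) (nat_lit 40175416840) (nat_lit 76) (nat_lit 75032416131) (nat_lit 17) (nat_lit 5) (nat_lit 21) (nat_lit 5) (nat_lit 18) (nat_lit 5) (nat_lit 294) (nat_lit 277) (nat_lit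 149))))) (XT.nd (nat_lit 234) (nat_lit 228) (nat_lit 0) (XT.nd (nat_lit 78) (nat_lit 0) (nat_lit 0) (XT.lf (nat_lit 0) (nat_lit 22661396633) (nat_lit 152) (nat_lit 35255915697) (nat_lit 228) (nat_lit 103951145868) (nat_lit 15) (nat_lit 5) (nat_lit 17) (nat_lit 5) (nat_lit 18) (nat_lit 5) (nat_lit 295) (nat_lit 277) (nat_lit 148)) (XT.nd (nat_lit 78) (nat_lit 0) (nat_lit 0) (XT.lf (nat_lit 0) (nat_lit 80441654548) (nat_lit 228) (nat_lit 78240168847) (nat_lit 76) (nat_lit 12038660228) (nat_lit 15) (nat_lit 5) (nat_lit 18) (nat_lit 5) (nat_lit 16) (nat_lit 5) (nat_lit 296) (nat_lit 277) (nat_lit 147)) (XT.lf (nat_lit 0) (nat_lit 105683331493) (nat_lit 228) (nat_lit 13312146970) (nat_lit 76) (nat_lit 61211963502) (nat_lit 15) (nat_lit 5) (nat_lit 18) (nat_lit 5) (nat_lit 16) (nat_lit 5) (nat_lit 297) (nat_lit 277) (nat_lit 146)))) (XT.nd (nat_lit 78) (nat_lit 76) (nat_lit 0) (XT.lf (nat_lit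 0) (nat_lit 59801164792) (nat_lit 152) (nat_lit 74581072512) (nat_lit 228) (nat_lit 55956089827) (nat_lit 13) (nat_lit 5) (nat_lit 15) (nat_lit 5) (nat_lit 16) (nat_lit 5) (nat_lit 298) (nat_lit 277) (nat_lit 145)) (XT.nd (nat_lit 78) (nat_lit 76) (nat_lit 0) (XT.lf (nat_lit 0) (nat_lit 139520178116) (nat_lit 152) (nat_lit 26220543957) (nat_lit 228) (nat_lit 35509869320) (nat_lit 13) (nat_lit 5) (nat_lit 15) (nat_lit 5) (nat_lit 16) (nat_lit 5) (nat_lit 299) (nat_lit 277) (nat_lit 144)) (XT.lf (nat_lit 0) (nat_lit 12584462222) (nat_lit 76) (nat_lit 187951301989) (nat_lit 152) (nat_lit 12425843785) (nat_lit 12) (nat_lit 5) (nat_lit 13) (nat_lit 5) (nat_lit 14) (nat_lit 4) (nat_lit 300) (nat_lit 277) (nat_lit 143)))))) (XT.nd (nat_lit 468) (nat_lit 152) (nat_lit 0) (XT.nd (nat_lit 234) (nat_lit 76) (nat_lit 0) (XT.nd (nat_lit 78) (nat_lit 152) (nat_lit 0) (XT.lf (nat_lit 0) (nat_lit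 14291781345) (nat_lit 152) (nat_lit 130145357114) (nat_lit 76) (nat_lit 80955315404) (nat_lit 11) (nat_lit 5) (nat_lit 13) (nat_lit 5) (nat_lit 12) (nat_lit 5) (nat_lit 301) (nat_lit 277) (nat_lit 142)) (XT.nd (nat_lit 78) (nat_lit 152) (nat_lit 0) (XT.lf (nat_lit 0) (nat_lit 42475231552) (nat_lit 152) (nat_lit 54618174536) (nat_lit 76) (nat_lit 141698563885) (nat_lit 11) (nat_lit 5) (nat_lit 13) (nat_lit 5) (nat_lit 12) (nat_lit 5) (nat_lit 302) (nat_lit 277) (nat_lit 141)) (XT.lf (nat_lit 0) (nat_lit 28369994305) (nat_lit 152) (nat_lit 45225415645) (nat_lit 228) (nat_lit 179613474341) (nat_lit 9) (nat_lit 5) (nat_lit 11) (nat_lit 5) (nat_lit 12) (nat_lit 5) (nat_lit 303) (nat_lit 277) (nat_lit 140)))) (XT.nd (nat_lit 78) (nat_lit 76) (nat_lit 0) (XT.lf (nat_lit 0) (nat_lit 108996656770) (nat_lit 228) (nat_lit 147854997208) (nat_lit 76) (nat_lit 11784182453) (nat_lit 9) (nat_lit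 5) (nat_lit 12) (nat_lit 5) (nat_lit 10) (nat_lit 4) (nat_lit 304) (nat_lit 277) (nat_lit 139)) (XT.nd (nat_lit 78) (nat_lit 76) (nat_lit 0) (XT.lf (nat_lit 0) (nat_lit 148404467011) (nat_lit 228) (nat_lit 65887429126) (nat_lit 76) (nat_lit 70911092449) (nat_lit 9) (nat_lit 5) (nat_lit 12) (nat_lit 5) (nat_lit 10) (nat_lit 4) (nat_lit 305) (nat_lit 277) (nat_lit 138)) (XT.lf (nat_lit 0) (nat_lit 23829256235) (nat_lit 76) (nat_lit 167708534053) (nat_lit 152) (nat_lit 111511892435) (nat_lit 8) (nat_lit 5) (nat_lit 9) (nat_lit 5) (nat_lit 10) (nat_lit 4) (nat_lit 306) (nat_lit 277) (nat_lit 137))))) (XT.nd (nat_lit 234) (nat_lit 152) (nat_lit 0) (XT.nd (nat_lit 78) (nat_lit 0) (nat_lit 0) (XT.lf (nat_lit 0) (nat_lit 124470037034) (nat_lit 76) (nat_lit 115453023161) (nat_lit 152) (nat_lit 82256950537) (nat_lit 8) (nat_lit 5) (nat_lit 9) (nat_lit 5) (nat_lit 10) (nat_lit 4) (nat_lit 307)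 (nat_lit 277) (nat_lit 136)) (XT.nd (nat_lit 78) (nat_lit 0) (nat_lit 0) (XT.lf (nat_lit 0) (nat_lit 233161787827) (nat_lit 76) (nat_lit 59017180248) (nat_lit 152) (nat_lit 50661812339) (nat_lit 8) (nat_lit 5) (nat_lit 9) (nat_lit 5) (nat_lit 10) (nat_lit 4) (nat_lit 308) (nat_lit 277) (nat_lit 135)) (XT.lf (nat_lit 0) (nat_lit 348661677591) (nat_lit 152) (nat_lit 14652317104) (nat_lit 0) (nat_lit 1836711343) (nat_lit 8) (nat_lit 5) (nat_lit 10) (nat_lit 4) (nat_lit 8) (nat_lit 4) (nat_lit 309) (nat_lit 277) (nat_lit 134)))) (XT.nd (nat_lit 78) (nat_lit 0) (nat_lit 0) (XT.lf (nat_lit 0) (nat_lit 23214054456) (nat_lit 152) (nat_lit 298540159741) (nat_lit 76) (nat_lit 67146500946) (nat_lit 6) (nat_lit 5) (nat_lit 8) (nat_lit 5) (nat_lit 7) (nat_lit 4) (nat_lit 310) (nat_lit 277) (nat_lit 133)) (XT.nd (nat_lit 78) (nat_lit 0) (nat_lit 0) (XT.lf (nat_lit 0) (nat_lit 65613415673) (nat_lit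 152) (nat_lit 210349883560) (nat_lit 76) (nat_lit 138520293972) (nat_lit 6) (nat_lit 5) (nat_lit 8) (nat_lit 5) (nat_lit 7) (nat_lit 4) (nat_lit 311) (nat_lit 277) (nat_lit 132)) (XT.lf (nat_lit 0) (nat_lit 111404578995) (nat_lit 152) (nat_lit 115104629730) (nat_lit 76) (nat_lit 215603905036) (nat_lit 6) (nat_lit 5) (nat_lit 8) (nat_lit 5) (nat_lit 7) (nat_lit 4) (nat_lit 312) (nat_lit 277) (nat_lit 131))))))))
noncomputable def xc109 : XT := (XT.nd (nat_lit 35334) (nat_lit 0) (nat_lit 456) (XT.nd (nat_lit 936) (nat_lit 76) (nat_lit 0) (XT.nd (nat_lit 468) (nat_lit 76) (nat_lit 0) (XT.nd (nat_lit 234) (nat_lit 76) (nat_lit 0) (XT.nd (nat_lit 78) (nat_lit 76) (nat_lit 0) (XT.lf (nat_lit 0) (nat_lit 160858899465) (nat_lit 152) (nat_lit 12239981932) (nat_lit 76) (nat_lit 298854125908) (nat_lit 6) (nat_lit 5) (nat_lit 8) (nat_lit 5) (nat_lit 7) (nat_lit 4) (nat_lit 313) (nat_lit 277)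 (nat_lit 130)) (XT.nd (nat_lit 78) (nat_lit 0) (nat_lit 0) (XT.lf (nat_lit 0) (nat_lit 104059084990) (nat_lit 76) (nat_lit 112712978228) (nat_lit 152) (nat_lit 287207829736) (nat_lit 5) (nat_lit 5) (nat_lit 6) (nat_lit 5) (nat_lit 7) (nat_lit 4) (nat_lit 314) (nat_lit 277) (nat_lit 129)) (XT.lf (nat_lit 0) (nat_lit 230357971618) (nat_lit 76) (nat_lit 47134849809) (nat_lit 152) (nat_lit 261049345119) (nat_lit 5) (nat_lit 5) (nat_lit 6) (nat_lit 5) (nat_lit 7) (nat_lit 4) (nat_lit 315) (nat_lit 277) (nat_lit 128)))) (XT.nd (nat_lit 78) (nat_lit 76) (nat_lit 0) (XT.lf (nat_lit 0) (nat_lit 343640859743) (nat_lit 152) (nat_lit 209678583249) (nat_lit 0) (nat_lit 22504409850) (nat_lit 5) (nat_lit 5) (nat_lit 7) (nat_lit 4) (nat_lit 5) (nat_lit 4) (nat_lit 316) (nat_lit 277) (nat_lit 127)) (XT.nd (nat_lit 78) (nat_lit 76) (nat_lit 0) (XT.lf (nat_lit 0) (nat_lit 416304917114) (nat_lit 152)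 (nat_lit 104516986540) (nat_lit 0) (nat_lit 95168236654) (nat_lit 5) (nat_lit 5) (nat_lit 7) (nat_lit 4) (nat_lit 5) (nat_lit 4) (nat_lit 317) (nat_lit 277) (nat_lit 126)) (XT.lf (nat_lit 0) (nat_lit 9534314317) (nat_lit 76) (nat_lit 485476987259) (nat_lit 76) (nat_lit 164340093312) (nat_lit 4) (nat_lit 4) (nat_lit 5) (nat_lit 5) (nat_lit 5) (nat_lit 4) (nat_lit 318) (nat_lit 277) (nat_lit 125))))) (XT.nd (nat_lit 234) (nat_lit 76) (nat_lit 0) (XT.nd (nat_lit 78) (nat_lit 0) (nat_lit 0) (XT.lf (nat_lit 0) (nat_lit 138653528545) (nat_lit 76) (nat_lit 444218253206) (nat_lit 76) (nat_lit 123081161584) (nat_lit 4) (nat_lit 4) (nat_lit 5) (nat_lit 5) (nat_lit 5) (nat_lit 4) (nat_lit 319) (nat_lit 277) (nat_lit 124)) (XT.nd (nat_lit 78) (nat_lit 0) (nat_lit 0) (XT.lf (nat_lit 0) (nat_lit 278102127749) (nat_lit 76) (nat_lit 399658884924) (nat_lit 76) (nat_lit 78521610271) (nat_lit 4) (nat_lit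 4) (nat_lit 5) (nat_lit 5) (nat_lit 5) (nat_lit 4) (nat_lit 320) (nat_lit 277) (nat_lit 123)) (XT.lf (nat_lit 0) (nat_lit 428706473998) (nat_lit 76) (nat_lit 351534826898) (nat_lit 76) (nat_lit 30397382771) (nat_lit 4) (nat_lit 4) (nat_lit 5) (nat_lit 5) (nat_lit 5) (nat_lit 4) (nat_lit 321) (nat_lit 277) (nat_lit 122)))) (XT.nd (nat_lit 78) (nat_lit 0) (nat_lit 0) (XT.lf (nat_lit 0) (nat_lit 20497347524) (nat_lit 152) (nat_lit 278503118194) (nat_lit 76) (nat_lit 570301256162) (nat_lit 3) (nat_lit 5) (nat_lit 5) (nat_lit 5) (nat_lit 4) (nat_lit 4) (nat_lit 322) (nat_lit 277) (nat_lit 121)) (XT.nd (nat_lit 78) (nat_lit 0) (nat_lit 0) (XT.lf (nat_lit 0) (nat_lit 73821336427) (nat_lit 152) (nat_lit 167589366572) (nat_lit 76) (nat_lit 691183942688) (nat_lit 3) (nat_lit 5) (nat_lit 5) (nat_lit 5) (nat_lit 4) (nat_lit 4) (nat_lit 323) (nat_lit 277) (nat_lit 120)) (XT.lf (nat_lit 0) (nat_lit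 131411178141) (nat_lit 152) (nat_lit 47802630341) (nat_lit 76) (nat_lit 821737200407) (nat_lit 3) (nat_lit 5) (nat_lit 5) (nat_lit 5) (nat_lit 4) (nat_lit 4) (nat_lit 324) (nat_lit 277) (nat_lit 119)))))) (XT.nd (nat_lit 33930) (nat_lit 0) (nat_lit 2052) (XT.nd (nat_lit 234) (nat_lit 0) (nat_lit 0) (XT.nd (nat_lit 78) (nat_lit 0) (nat_lit 0) (XT.lf (nat_lit 0) (nat_lit 85862108220) (nat_lit 76) (nat_lit 109811023349) (nat_lit 152) (nat_lit 878937555801) (nat_lit 2) (nat_lit 5) (nat_lit 3) (nat_lit 5) (nat_lit 4) (nat_lit 4) (nat_lit 325) (nat_lit 277) (nat_lit 118)) (XT.nd (nat_lit 78) (nat_lit 0) (nat_lit 0) (XT.lf (nat_lit 0) (nat_lit 232938499556) (nat_lit 76) (nat_lit 33444490992) (nat_lit 152) (nat_lit 887675593798) (nat_lit 2) (nat_lit 5) (nat_lit 3) (nat_lit 5) (nat_lit 4) (nat_lit 4) (nat_lit 326) (nat_lit 277) (nat_lit 117)) (XT.lf (nat_lit 0) (nat_lit 343928787774) (nat_lit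 152) (nat_lit 849260616441) (nat_lit 0) (nat_lit 46578577050) (nat_lit 2) (nat_lit 5) (nat_lit 4) (nat_lit 4) (nat_lit 2) (nat_lit 4) (nat_lit 327) (nat_lit 277) (nat_lit 116)))) (XT.nd (nat_lit 78) (nat_lit 0) (nat_lit 0) (XT.lf (nat_lit 0) (nat_lit 428546885046) (nat_lit 152) (nat_lit 772521171365) (nat_lit 0) (nat_lit 131196582761) (nat_lit 2) (nat_lit 5) (nat_lit 4) (nat_lit 4) (nat_lit 2) (nat_lit 4) (nat_lit 328) (nat_lit 277) (nat_lit 115)) (XT.nd (nat_lit 33540) (nat_lit 0) (nat_lit 2052) (XT.lf (nat_lit 0) (nat_lit 519934382129) (nat_lit 152) (nat_lit 689642656483) (nat_lit 0) (nat_lit 222583995065) (nat_lit 2) (nat_lit 5) (nat_lit 4) (nat_lit 4) (nat_lit 2) (nat_lit 4) (nat_lit 329) (nat_lit 277) (nat_lit 114)) (XT.lf (nat_lit 0) (nat_lit 6649828874) (nat_lit 532) (nat_lit 15845473129) (nat_lit 532) (nat_lit 15845473129) (nat_lit 29) (nat_lit 3) (nat_lit 36) (nat_lit 3)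 (nat_lit 36) (nat_lit 5) (nat_lit 278) (nat_lit 278) (nat_lit 164))))) (XT.nd (nat_lit 234) (nat_lit 0) (nat_lit 152) (XT.nd (nat_lit 78) (nat_lit 0) (nat_lit 76) (XT.lf (nat_lit 0) (nat_lit 13841370823) (nat_lit 532) (nat_lit 605935064) (nat_lit 532) (nat_lit 65300659042) (nat_lit 29) (nat_lit 3) (nat_lit 36) (nat_lit 3) (nat_lit 36) (nat_lit 5) (nat_lit 279) (nat_lit 278) (nat_lit 163)) (XT.nd (nat_lit 78) (nat_lit 0) (nat_lit 0) (XT.lf (nat_lit 0) (nat_lit 15727575652) (nat_lit 456) (nat_lit 48759329482) (nat_lit 532) (nat_lit 18468702176) (nat_lit 30) (nat_lit 5) (nat_lit 36) (nat_lit 5) (nat_lit 37) (nat_lit 5) (nat_lit 280) (nat_lit 278) (nat_lit 162)) (XT.lf (nat_lit 0) (nat_lit 18156025335) (nat_lit 456) (nat_lit 14977697523) (nat_lit 532) (nat_lit 53254836758) (nat_lit 30) (nat_lit 5) (nat_lit 36) (nat_lit 5) (nat_lit 37) (nat_lit 5) (nat_lit 281) (nat_lit 278) (nat_lit 161))))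 (XT.nd (nat_lit 78) (nat_lit 0) (nat_lit 0) (XT.lf (nat_lit 0) (nat_lit 21354017201) (nat_lit 456) (nat_lit 67445946576) (nat_lit 532) (nat_lit 1250168970) (nat_lit 31) (nat_lit 5) (nat_lit 37) (nat_lit 5) (nat_lit 38) (nat_lit 5) (nat_lit 282) (nat_lit 278) (nat_lit 160)) (XT.nd (nat_lit 78) (nat_lit 0) (nat_lit 0) (XT.lf (nat_lit 0) (nat_lit 26087835954) (nat_lit 456) (nat_lit 30799327908) (nat_lit 532) (nat_lit 37015074360) (nat_lit 31) (nat_lit 5) (nat_lit 37) (nat_lit 5) (nat_lit 38) (nat_lit 5) (nat_lit 283) (nat_lit 278) (nat_lit 159)) (XT.lf (nat_lit 76) (nat_lit 9240703561) (nat_lit 0) (nat_lit 22181171498) (nat_lit 532) (nat_lit 66622920977) (nat_lit 32) (nat_lit 5) (nat_lit 31) (nat_lit 5) (nat_lit 38) (nat_lit 5) (nat_lit 284) (nat_lit 278) (nat_lit 158))))))) (XT.nd (nat_lit 936) (nat_lit 532) (nat_lit 0) (XT.nd (nat_lit 468) (nat_lit 608) (nat_lit 0) (XT.nd (nat_lit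 234) (nat_lit 228) (nat_lit 0) (XT.nd (nat_lit 78) (nat_lit 456) (nat_lit 0) (XT.lf (nat_lit 0) (nat_lit 38413933977) (nat_lit 456) (nat_lit 48606358789) (nat_lit 76) (nat_lit 15399966686) (nat_lit 32) (nat_lit 5) (nat_lit 38) (nat_lit 5) (nat_lit 33) (nat_lit 5) (nat_lit 285) (nat_lit 278) (nat_lit 157)) (XT.nd (nat_lit 78) (nat_lit 456) (nat_lit 0) (XT.lf (nat_lit 0) (nat_lit 46540861284) (nat_lit 456) (nat_lit 5769516666) (nat_lit 76) (nat_lit 54789346062) (nat_lit 32) (nat_lit 5) (nat_lit 38) (nat_lit 5) (nat_lit 33) (nat_lit 5) (nat_lit 286) (nat_lit 278) (nat_lit 156)) (XT.lf (nat_lit 0) (nat_lit 42626068116) (nat_lit 456) (nat_lit 13716448685) (nat_lit 532) (nat_lit 55729067052) (nat_lit 26) (nat_lit 5) (nat_lit 32) (nat_lit 5) (nat_lit 33) (nat_lit 5) (nat_lit 287) (nat_lit 278) (nat_lit 155)))) (XT.nd (nat_lit 78) (nat_lit 228) (nat_lit 0) (XT.lf (nat_lit 0) (nat_lit 67762157367)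 (nat_lit 532) (nat_lit 22884380113) (nat_lit 76) (nat_lit 26727950535) (nat_lit 26) (nat_lit 5) (nat_lit 33) (nat_lit 5) (nat_lit 27) (nat_lit 5) (nat_lit 288) (nat_lit 278) (nat_lit 154)) (XT.nd (nat_lit 78) (nat_lit 0) (nat_lit 0) (XT.lf (nat_lit 0) (nat_lit 28468982307) (nat_lit 228) (nat_lit 52666826513) (nat_lit 304) (nat_lit 41882583983) (nat_lit 23) (nat_lit 5) (nat_lit 26) (nat_lit 5) (nat_lit 27) (nat_lit 5) (nat_lit 289) (nat_lit 278) (nat_lit 153)) (XT.lf (nat_lit 0) (nat_lit 85231555569) (nat_lit 228) (nat_lit 10973010411) (nat_lit 304) (nat_lit 32859230113) (nat_lit 23) (nat_lit 5) (nat_lit 26) (nat_lit 5) (nat_lit 27) (nat_lit 5) (nat_lit 290) (nat_lit 278) (nat_lit 152))))) (XT.nd (nat_lit 234) (nat_lit 380) (nat_lit 0) (XT.nd (nat_lit 78) (nat_lit 76) (nat_lit 0) (XT.lf (nat_lit 0) (nat_lit 10655779731) (nat_lit 152) (nat_lit 102897920312) (nat_lit 228) (nat_lit 21953144467)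 (nat_lit 21) (nat_lit 5) (nat_lit 23) (nat_lit 5) (nat_lit 24) (nat_lit 5) (nat_lit 291) (nat_lit 278) (nat_lit 151)) (XT.nd (nat_lit 78) (nat_lit 76) (nat_lit 0) (XT.lf (nat_lit 0) (nat_lit 71695097940) (nat_lit 152) (nat_lit 62071486564) (nat_lit 228) (nat_lit 8580689472) (nat_lit 21) (nat_lit 5) (nat_lit 23) (nat_lit 5) (nat_lit 24) (nat_lit 5) (nat_lit 292) (nat_lit 278) (nat_lit 150)) (XT.lf (nat_lit 0) (nat_lit 5567932715) (nat_lit 228) (nat_lit 12258834256) (nat_lit 76) (nat_lit 131896928339) (nat_lit 20) (nat_lit 5) (nat_lit 23) (nat_lit 5) (nat_lit 21) (nat_lit 5) (nat_lit 293) (nat_lit 278) (nat_lit 149)))) (XT.nd (nat_lit 78) (nat_lit 152) (nat_lit 0) (XT.lf (nat_lit 0) (nat_lit 22424586403) (nat_lit 304) (nat_lit 105083274063) (nat_lit 76) (nat_lit 30001364318) (nat_lit 17) (nat_lit 5) (nat_lit 21) (nat_lit 5) (nat_lit 18) (nat_lit 5) (nat_lit 294) (nat_lit 278) (nat_lit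 148)) (XT.nd (nat_lit 78) (nat_lit 152) (nat_lit 0) (XT.lf (nat_lit 0) (nat_lit 41436325402) (nat_lit 304) (nat_lit 43380300891) (nat_lit 76) (nat_lit 81036448103) (nat_lit 17) (nat_lit 5) (nat_lit 21) (nat_lit 5) (nat_lit 18) (nat_lit 5) (nat_lit 295) (nat_lit 278) (nat_lit 147)) (XT.lf (nat_lit 0) (nat_lit 24483226032) (nat_lit 152) (nat_lit 38074262558) (nat_lit 228) (nat_lit 112259866453) (nat_lit 15) (nat_lit 5) (nat_lit 17) (nat_lit 5) (nat_lit 18) (nat_lit 5) (nat_lit 296) (nat_lit 278) (nat_lit 146)))))) (XT.nd (nat_lit 468) (nat_lit 228) (nat_lit 0) (XT.nd (nat_lit 234) (nat_lit 152) (nat_lit 0) (XT.nd (nat_lit 78) (nat_lit 152) (nat_lit 0) (XT.lf (nat_lit 0) (nat_lit 86883322480) (nat_lit 228) (nat_lit 84490635744) (nat_lit 76) (nat_lit 13003623438) (nat_lit 15) (nat_lit 5) (nat_lit 18) (nat_lit 5) (nat_lit 16) (nat_lit 5) (nat_lit 297) (nat_lit 278) (nat_lit 145)) (XT.nd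 (nat_lit 78) (nat_lit 152) (nat_lit 0) (XT.lf (nat_lit 0) (nat_lit 114143864279) (nat_lit 228) (nat_lit 14369020014) (nat_lit 76) (nat_lit 66110652427) (nat_lit 15) (nat_lit 5) (nat_lit 18) (nat_lit 5) (nat_lit 16) (nat_lit 5) (nat_lit 298) (nat_lit 278) (nat_lit 144)) (XT.lf (nat_lit 0) (nat_lit 64593151658) (nat_lit 152) (nat_lit 80545286201) (nat_lit 228) (nat_lit 60426476733) (nat_lit 13) (nat_lit 5) (nat_lit 15) (nat_lit 5) (nat_lit 16) (nat_lit 5) (nat_lit 299) (nat_lit 278) (nat_lit 143)))) (XT.nd (nat_lit 78) (nat_lit 152) (nat_lit 0) (XT.lf (nat_lit 0) (nat_lit 150689101331) (nat_lit 152) (nat_lit 28316083667) (nat_lit 228) (nat_lit 38345010458) (nat_lit 13) (nat_lit 5) (nat_lit 15) (nat_lit 5) (nat_lit 16) (nat_lit 5) (nat_lit 300) (nat_lit 278) (nat_lit 142)) (XT.nd (nat_lit 78) (nat_lit 76) (nat_lit 0) (XT.lf (nat_lit 0) (nat_lit 13598725840) (nat_lit 76) (nat_lit 202984946484)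 (nat_lit 152) (nat_lit 13414435706) (nat_lit 12) (nat_lit 5) (nat_lit 13) (nat_lit 5) (nat_lit 14) (nat_lit 4) (nat_lit 301) (nat_lit 278) (nat_lit 141)) (XT.lf (nat_lit 0) (nat_lit 15439940214) (nat_lit 152) (nat_lit 140549760167) (nat_lit 76) (nat_lit 87433743179) (nat_lit 11) (nat_lit 5) (nat_lit 13) (nat_lit 5) (nat_lit 12) (nat_lit 5) (nat_lit 302) (nat_lit 278) (nat_lit 140))))) (XT.nd (nat_lit 234) (nat_lit 76) (nat_lit 0) (XT.nd (nat_lit 78) (nat_lit 152) (nat_lit 0) (XT.lf (nat_lit 0) (nat_lit 45877709671) (nat_lit 152) (nat_lit 58980938206) (nat_lit 76) (nat_lit 153036303203) (nat_lit 11) (nat_lit 5) (nat_lit 13) (nat_lit 5) (nat_lit 12) (nat_lit 5) (nat_lit 303) (nat_lit 278) (nat_lit 139)) (XT.nd (nat_lit 78) (nat_lit 0) (nat_lit 0) (XT.lf (nat_lit 0) (nat_lit 30646114768) (nat_lit 152) (nat_lit 48841214059) (nat_lit 228) (nat_lit 193977905056) (nat_lit 9) (nat_lit 5)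 (nat_lit 11) (nat_lit 5) (nat_lit 12) (nat_lit 5) (nat_lit 304) (nat_lit 278) (nat_lit 138)) (XT.lf (nat_lit 0) (nat_lit 117720407673) (nat_lit 228) (nat_lit 159677074465) (nat_lit 76) (nat_lit 12728882828) (nat_lit 9) (nat_lit 5) (nat_lit 12) (nat_lit 5) (nat_lit 10) (nat_lit 4) (nat_lit 305) (nat_lit 278) (nat_lit 137)))) (XT.nd (nat_lit 78) (nat_lit 76) (nat_lit 0) (XT.lf (nat_lit 0) (nat_lit 160280545077) (nat_lit 228) (nat_lit 71152569272) (nat_lit 76) (nat_lit 76585800010) (nat_lit 9) (nat_lit 5) (nat_lit 12) (nat_lit 5) (nat_lit 10) (nat_lit 4) (nat_lit 306) (nat_lit 278) (nat_lit 136)) (XT.nd (nat_lit 78) (nat_lit 0) (nat_lit 0) (XT.lf (nat_lit 0) (nat_lit 25741302711) (nat_lit 76) (nat_lit 181123093126) (nat_lit 152) (nat_lit 120428960419) (nat_lit 8) (nat_lit 5) (nat_lit 9) (nat_lit 5) (nat_lit 10) (nat_lit 4) (nat_lit 307) (nat_lit 278) (nat_lit 135)) (XT.lf (nat_lit 0)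 (nat_lit 134432923309) (nat_lit 76) (nat_lit 124687298669) (nat_lit 152) (nat_lit 88833910830) (nat_lit 8) (nat_lit 5) (nat_lit 9) (nat_lit 5) (nat_lit 10) (nat_lit 4) (nat_lit 308) (nat_lit 278) (nat_lit 134))))))))
noncomputable def xc110 : XT := (XT.nd (nat_lit 35412) (nat_lit 0) (nat_lit 532) (XT.nd (nat_lit 858) (nat_lit 152) (nat_lit 0) (XT.nd (nat_lit 390) (nat_lit 152) (nat_lit 0) (XT.nd (nat_lit 156) (nat_lit 152) (nat_lit 0) (XT.nd (nat_lit 78) (nat_lit 0) (nat_lit 0) (XT.lf (nat_lit 0) (nat_lit 251819622809) (nat_lit 76) (nat_lit 63736733979) (nat_lit 152) (nat_lit 54711427927) (nat_lit 8) (nat_lit 5) (nat_lit 9) (nat_lit 5) (nat_lit 10) (nat_lit 4) (nat_lit 309) (nat_lit 278) (nat_lit 133)) (XT.lf (nat_lit 0) (nat_lit 376557496108) (nat_lit 152) (nat_lit 15819774417) (nat_lit 0) (nat_lit 1985249743) (nat_lit 8) (nat_lit 5) (nat_lit 10) (nat_lit 4) (nat_lit 8) (nat_lit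 4) (nat_lit 310) (nat_lit 278) (nat_lit 132))) (XT.nd (nat_lit 78) (nat_lit 0) (nat_lit 0) (XT.lf (nat_lit 0) (nat_lit 25074042671) (nat_lit 152) (nat_lit 322418603489) (nat_lit 76) (nat_lit 72519887218) (nat_lit 6) (nat_lit 5) (nat_lit 8) (nat_lit 5) (nat_lit 7) (nat_lit 4) (nat_lit 311) (nat_lit 278) (nat_lit 131)) (XT.nd (nat_lit 78) (nat_lit 0) (nat_lit 0) (XT.lf (nat_lit 0) (nat_lit 70865140648) (nat_lit 152) (nat_lit 227173458475) (nat_lit 76) (nat_lit 149603460264) (nat_lit 6) (nat_lit 5) (nat_lit 8) (nat_lit 5) (nat_lit 7) (nat_lit 4) (nat_lit 312) (nat_lit 278) (nat_lit 130)) (XT.lf (nat_lit 0) (nat_lit 120319400612) (nat_lit 152) (nat_lit 124308911433) (nat_lit 76) (nat_lit 232853645934) (nat_lit 6) (nat_lit 5) (nat_lit 8) (nat_lit 5) (nat_lit 7) (nat_lit 4) (nat_lit 313) (nat_lit 278) (nat_lit 129))))) (XT.nd (nat_lit 234) (nat_lit 76) (nat_lit 0) (XT.nd (nat_lit 78) (nat_lit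 76) (nat_lit 0) (XT.lf (nat_lit 0) (nat_lit 173729884845) (nat_lit 152) (nat_lit 13215394676) (nat_lit 76) (nat_lit 322763778661) (nat_lit 6) (nat_lit 5) (nat_lit 8) (nat_lit 5) (nat_lit 7) (nat_lit 4) (nat_lit 314) (nat_lit 278) (nat_lit 128)) (XT.nd (nat_lit 78) (nat_lit 0) (nat_lit 0) (XT.lf (nat_lit 0) (nat_lit 112387501757) (nat_lit 76) (nat_lit 121728520284) (nat_lit 152) (nat_lit 310182079595) (nat_lit 5) (nat_lit 5) (nat_lit 6) (nat_lit 5) (nat_lit 7) (nat_lit 4) (nat_lit 315) (nat_lit 278) (nat_lit 127)) (XT.lf (nat_lit 0) (nat_lit 248790025984) (nat_lit 76) (nat_lit 50904252421) (nat_lit 152) (nat_lit 281931092248) (nat_lit 5) (nat_lit 5) (nat_lit 6) (nat_lit 5) (nat_lit 7) (nat_lit 4) (nat_lit 316) (nat_lit 278) (nat_lit 126)))) (XT.nd (nat_lit 78) (nat_lit 76) (nat_lit 0) (XT.lf (nat_lit 0) (nat_lit 371134040173) (nat_lit 152) (nat_lit 226449580525) (nat_lit 0) (nat_lit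 24305981222) (nat_lit 5) (nat_lit 5) (nat_lit 7) (nat_lit 4) (nat_lit 5) (nat_lit 4) (nat_lit 317) (nat_lit 278) (nat_lit 125)) (XT.nd (nat_lit 78) (nat_lit 76) (nat_lit 0) (XT.lf (nat_lit 0) (nat_lit 449611080530) (nat_lit 152) (nat_lit 112875299737) (nat_lit 0) (nat_lit 102782823904) (nat_lit 5) (nat_lit 5) (nat_lit 7) (nat_lit 4) (nat_lit 5) (nat_lit 4) (nat_lit 318) (nat_lit 278) (nat_lit 124)) (XT.lf (nat_lit 0) (nat_lit 10300028082) (nat_lit 76) (nat_lit 524313887948) (nat_lit 76) (nat_lit 177485448292) (nat_lit 4) (nat_lit 4) (nat_lit 5) (nat_lit 5) (nat_lit 5) (nat_lit 4) (nat_lit 319) (nat_lit 278) (nat_lit 123)))))) (XT.nd (nat_lit 468) (nat_lit 76) (nat_lit 0) (XT.nd (nat_lit 234) (nat_lit 76) (nat_lit 0) (XT.nd (nat_lit 78) (nat_lit 0) (nat_lit 0) (XT.lf (nat_lit 0) (nat_lit 149748559550) (nat_lit 76) (nat_lit 479754548377) (nat_lit 76) (nat_lit 132925939247) (nat_lit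 4) (nat_lit 4) (nat_lit 5) (nat_lit 5) (nat_lit 5) (nat_lit 4) (nat_lit 320) (nat_lit 278) (nat_lit 122)) (XT.nd (nat_lit 78) (nat_lit 0) (nat_lit 0) (XT.lf (nat_lit 0) (nat_lit 300352843081) (nat_lit 76) (nat_lit 431630516935) (nat_lit 76) (nat_lit 84801750885) (nat_lit 4) (nat_lit 4) (nat_lit 5) (nat_lit 5) (nat_lit 5) (nat_lit 4) (nat_lit 321) (nat_lit 278) (nat_lit 121)) (XT.lf (nat_lit 0) (nat_lit 463005348504) (nat_lit 76) (nat_lit 379656614177) (nat_lit 76) (nat_lit 32827702831) (nat_lit 4) (nat_lit 4) (nat_lit 5) (nat_lit 5) (nat_lit 5) (nat_lit 4) (nat_lit 322) (nat_lit 278) (nat_lit 120)))) (XT.nd (nat_lit 78) (nat_lit 0) (nat_lit 0) (XT.lf (nat_lit 0) (nat_lit 22138428844) (nat_lit 152) (nat_lit 300781113883) (nat_lit 76) (nat_lit 615926209795) (nat_lit 3) (nat_lit 5) (nat_lit 5) (nat_lit 5) (nat_lit 4) (nat_lit 4) (nat_lit 323) (nat_lit 278) (nat_lit 119)) (XT.nd (nat_lit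 78) (nat_lit 0) (nat_lit 0) (XT.lf (nat_lit 0) (nat_lit 79728241043) (nat_lit 152) (nat_lit 180994429077) (nat_lit 76) (nat_lit 746479448048) (nat_lit 3) (nat_lit 5) (nat_lit 5) (nat_lit 5) (nat_lit 4) (nat_lit 4) (nat_lit 324) (nat_lit 278) (nat_lit 118)) (XT.lf (nat_lit 0) (nat_lit 141925181375) (nat_lit 152) (nat_lit 51624908527) (nat_lit 76) (nat_lit 887476907870) (nat_lit 3) (nat_lit 5) (nat_lit 5) (nat_lit 5) (nat_lit 4) (nat_lit 4) (nat_lit 325) (nat_lit 278) (nat_lit 117))))) (XT.nd (nat_lit 33852) (nat_lit 0) (nat_lit 2052) (XT.nd (nat_lit 78) (nat_lit 0) (nat_lit 0) (XT.lf (nat_lit 0) (nat_lit 92732960201) (nat_lit 76) (nat_lit 118595094022) (nat_lit 152) (nat_lit 949251399485) (nat_lit 2) (nat_lit 5) (nat_lit 3) (nat_lit 5) (nat_lit 4) (nat_lit 4) (nat_lit 326) (nat_lit 278) (nat_lit 116)) (XT.nd (nat_lit 78) (nat_lit 0) (nat_lit 0) (XT.lf (nat_lit 0) (nat_lit 251575323338)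 (nat_lit 76) (nat_lit 36119299166) (nat_lit 152) (nat_lit 958688566505) (nat_lit 2) (nat_lit 5) (nat_lit 3) (nat_lit 5) (nat_lit 4) (nat_lit 4) (nat_lit 327) (nat_lit 278) (nat_lit 115)) (XT.lf (nat_lit 0) (nat_lit 371444026700) (nat_lit 152) (nat_lit 917199791832) (nat_lit 0) (nat_lit 50305523892) (nat_lit 2) (nat_lit 5) (nat_lit 4) (nat_lit 4) (nat_lit 2) (nat_lit 4) (nat_lit 328) (nat_lit 278) (nat_lit 114)))) (XT.nd (nat_lit 78) (nat_lit 0) (nat_lit 0) (XT.lf (nat_lit 0) (nat_lit 7191308019) (nat_lit 532) (nat_lit 17107951077) (nat_lit 532) (nat_lit 17107951077) (nat_lit 29) (nat_lit 3) (nat_lit 36) (nat_lit 3) (nat_lit 36) (nat_lit 5) (nat_lit 279) (nat_lit 279) (nat_lit 162)) (XT.nd (nat_lit 78) (nat_lit 0) (nat_lit 76) (XT.lf (nat_lit 0) (nat_lit 14966259812) (nat_lit 532) (nat_lit 644854494) (nat_lit 532) (nat_lit 70515156390) (nat_lit 29) (nat_lit 3) (nat_lit 36) (nat_lit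 3) (nat_lit 36) (nat_lit 5) (nat_lit 280) (nat_lit 279) (nat_lit 161)) (XT.lf (nat_lit 0) (nat_lit 17002109981) (nat_lit 456) (nat_lit 52649153604) (nat_lit 532) (nat_lit 19939370233) (nat_lit 30) (nat_lit 5) (nat_lit 36) (nat_lit 5) (nat_lit 37) (nat_lit 5) (nat_lit 281) (nat_lit 279) (nat_lit 160))))))) (XT.nd (nat_lit 936) (nat_lit 912) (nat_lit 0) (XT.nd (nat_lit 468) (nat_lit 684) (nat_lit 0) (XT.nd (nat_lit 234) (nat_lit 0) (nat_lit 76) (XT.nd (nat_lit 78) (nat_lit 0) (nat_lit 76) (XT.lf (nat_lit 0) (nat_lit 19623626137) (nat_lit 456) (nat_lit 16165800143) (nat_lit 532) (nat_lit 57508901368) (nat_lit 30) (nat_lit 5) (nat_lit 36) (nat_lit 5) (nat_lit 37) (nat_lit 5) (nat_lit 282) (nat_lit 279) (nat_lit 159)) (XT.nd (nat_lit 78) (nat_lit 0) (nat_lit 0) (XT.lf (nat_lit 0) (nat_lit 23076469198) (nat_lit 456) (nat_lit 72830421673) (nat_lit 532) (nat_lit 1346022753) (nat_lit 31) (nat_lit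 5) (nat_lit 37) (nat_lit 5) (nat_lit 38) (nat_lit 5) (nat_lit 283) (nat_lit 279) (nat_lit 158)) (XT.lf (nat_lit 0) (nat_lit 28187946738) (nat_lit 456) (nat_lit 33252903188) (nat_lit 532) (nat_lit 39972428703) (nat_lit 31) (nat_lit 5) (nat_lit 37) (nat_lit 5) (nat_lit 38) (nat_lit 5) (nat_lit 284) (nat_lit 279) (nat_lit 157)))) (XT.nd (nat_lit 78) (nat_lit 0) (nat_lit 76) (XT.lf (nat_lit 76) (nat_lit 9990068243) (nat_lit 0) (nat_lit 23957914657) (nat_lit 532) (nat_lit 71939323064) (nat_lit 32) (nat_lit 5) (nat_lit 31) (nat_lit 5) (nat_lit 38) (nat_lit 5) (nat_lit 285) (nat_lit 279) (nat_lit 156)) (XT.nd (nat_lit 78) (nat_lit 0) (nat_lit 0) (XT.lf (nat_lit 0) (nat_lit 41498441045) (nat_lit 456) (nat_lit 52484463556) (nat_lit 76) (nat_lit 16629985397) (nat_lit 32) (nat_lit 5) (nat_lit 38) (nat_lit 5) (nat_lit 33) (nat_lit 5) (nat_lit 286) (nat_lit 279) (nat_lit 155)) (XT.lf (nat_lit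 0) (nat_lit 50274678658) (nat_lit 456) (nat_lit 6221444726) (nat_lit 76) (nat_lit 59170661688) (nat_lit 32) (nat_lit 5) (nat_lit 38) (nat_lit 5) (nat_lit 33) (nat_lit 5) (nat_lit 287) (nat_lit 279) (nat_lit 154))))) (XT.nd (nat_lit 234) (nat_lit 152) (nat_lit 0) (XT.nd (nat_lit 78) (nat_lit 228) (nat_lit 0) (XT.lf (nat_lit 0) (nat_lit 46045542959) (nat_lit 456) (nat_lit 14814368106) (nat_lit 532) (nat_lit 60176532487) (nat_lit 26) (nat_lit 5) (nat_lit 32) (nat_lit 5) (nat_lit 33) (nat_lit 5) (nat_lit 288) (nat_lit 279) (nat_lit 153)) (XT.nd (nat_lit 78) (nat_lit 228) (nat_lit 0) (XT.lf (nat_lit 0) (nat_lit 73192369220) (nat_lit 532) (nat_lit 24705620412) (nat_lit 76) (nat_lit 28865655713) (nat_lit 26) (nat_lit 5) (nat_lit 33) (nat_lit 5) (nat_lit 27) (nat_lit 5) (nat_lit 289) (nat_lit 279) (nat_lit 152)) (XT.lf (nat_lit 0) (nat_lit 30755770239) (nat_lit 228) (nat_lit 56879681088)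 (nat_lit 304) (nat_lit 45223652740) (nat_lit 23) (nat_lit 5) (nat_lit 26) (nat_lit 5) (nat_lit 27) (nat_lit 5) (nat_lit 290) (nat_lit 279) (nat_lit 151)))) (XT.nd (nat_lit 78) (nat_lit 152) (nat_lit 0) (XT.lf (nat_lit 0) (nat_lit 92058662744) (nat_lit 228) (nat_lit 11850396108) (nat_lit 304) (nat_lit 35479137076) (nat_lit 23) (nat_lit 5) (nat_lit 26) (nat_lit 5) (nat_lit 27) (nat_lit 5) (nat_lit 291) (nat_lit 279) (nat_lit 150)) (XT.nd (nat_lit 78) (nat_lit 0) (nat_lit 0) (XT.lf (nat_lit 0) (nat_lit 11517282919) (nat_lit 152) (nat_lit 111128466244) (nat_lit 228) (nat_lit 23700972987) (nat_lit 21) (nat_lit 5) (nat_lit 23) (nat_lit 5) (nat_lit 24) (nat_lit 5) (nat_lit 292) (nat_lit 279) (nat_lit 149)) (XT.lf (nat_lit 0) (nat_lit 77439076895) (nat_lit 152) (nat_lit 67036013181) (nat_lit 228) (nat_lit 9259345521) (nat_lit 21) (nat_lit 5) (nat_lit 23) (nat_lit 5) (nat_lit 24) (nat_lit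 5) (nat_lit 293) (nat_lit 279) (nat_lit 148)))))) (XT.nd (nat_lit 468) (nat_lit 456) (nat_lit 0) (XT.nd (nat_lit 234) (nat_lit 152) (nat_lit 0) (XT.nd (nat_lit 78) (nat_lit 228) (nat_lit 0) (XT.lf (nat_lit 0) (nat_lit 6020227485) (nat_lit 228) (nat_lit 13231389286) (nat_lit 76) (nat_lit 142449385921) (nat_lit 20) (nat_lit 5) (nat_lit 23) (nat_lit 5) (nat_lit 21) (nat_lit 5) (nat_lit 294) (nat_lit 279) (nat_lit 147)) (XT.nd (nat_lit 78) (nat_lit 0) (nat_lit 0) (XT.lf (nat_lit 0) (nat_lit 24225130119) (nat_lit 304) (nat_lit 113481464418) (nat_lit 76) (nat_lit 32402805576) (nat_lit 17) (nat_lit 5) (nat_lit 21) (nat_lit 5) (nat_lit 18) (nat_lit 5) (nat_lit 295) (nat_lit 279) (nat_lit 146)) (XT.lf (nat_lit 0) (nat_lit 44757321068) (nat_lit 304) (nat_lit 46842880916) (nat_lit 76) (nat_lit 87520597389) (nat_lit 17) (nat_lit 5) (nat_lit 21) (nat_lit 5) (nat_lit 18) (nat_lit 5) (nat_lit 296)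 (nat_lit 279) (nat_lit 145)))) (XT.nd (nat_lit 78) (nat_lit 0) (nat_lit 0) (XT.lf (nat_lit 0) (nat_lit 26449529578) (nat_lit 152) (nat_lit 41118380522) (nat_lit 228) (nat_lit 121234336251) (nat_lit 15) (nat_lit 5) (nat_lit 17) (nat_lit 5) (nat_lit 18) (nat_lit 5) (nat_lit 297) (nat_lit 279) (nat_lit 144)) (XT.nd (nat_lit 78) (nat_lit 0) (nat_lit 0) (XT.lf (nat_lit 0) (nat_lit 93839420007) (nat_lit 228) (nat_lit 91242387795) (nat_lit 76) (nat_lit 14045516873) (nat_lit 15) (nat_lit 5) (nat_lit 18) (nat_lit 5) (nat_lit 16) (nat_lit 5) (nat_lit 298) (nat_lit 279) (nat_lit 143)) (XT.lf (nat_lit 0) (nat_lit 123280402799) (nat_lit 228) (nat_lit 15511598274) (nat_lit 76) (nat_lit 71400989398) (nat_lit 15) (nat_lit 5) (nat_lit 18) (nat_lit 5) (nat_lit 16) (nat_lit 5) (nat_lit 299) (nat_lit 279) (nat_lit 142))))) (XT.nd (nat_lit 234) (nat_lit 228) (nat_lit 0) (XT.nd (nat_lit 78) (nat_lit 76)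 (nat_lit 0) (XT.lf (nat_lit 0) (nat_lit 69767371352) (nat_lit 152) (nat_lit 86986961128) (nat_lit 228) (nat_lit 65255364865) (nat_lit 13) (nat_lit 5) (nat_lit 15) (nat_lit 5) (nat_lit 16) (nat_lit 5) (nat_lit 300) (nat_lit 279) (nat_lit 141)) (XT.nd (nat_lit 78) (nat_lit 76) (nat_lit 0) (XT.lf (nat_lit 0) (nat_lit 162750495698) (nat_lit 152) (nat_lit 30579566685) (nat_lit 228) (nat_lit 41407768696) (nat_lit 13) (nat_lit 5) (nat_lit 15) (nat_lit 5) (nat_lit 16) (nat_lit 5) (nat_lit 301) (nat_lit 279) (nat_lit 140)) (XT.lf (nat_lit 0) (nat_lit 14693059641) (nat_lit 76) (nat_lit 219221633436) (nat_lit 152) (nat_lit 14482896135) (nat_lit 12) (nat_lit 5) (nat_lit 13) (nat_lit 5) (nat_lit 14) (nat_lit 4) (nat_lit 302) (nat_lit 279) (nat_lit 139)))) (XT.nd (nat_lit 78) (nat_lit 152) (nat_lit 0) (XT.lf (nat_lit 0) (nat_lit 16679264685) (nat_lit 152) (nat_lit 151787546264) (nat_lit 76) (nat_lit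 94430159492) (nat_lit 11) (nat_lit 5) (nat_lit 13) (nat_lit 5) (nat_lit 12) (nat_lit 5) (nat_lit 303) (nat_lit 279) (nat_lit 138)) (XT.nd (nat_lit 78) (nat_lit 152) (nat_lit 0) (XT.lf (nat_lit 0) (nat_lit 49551749827) (nat_lit 152) (nat_lit 63693677414) (nat_lit 76) (nat_lit 165280797142) (nat_lit 11) (nat_lit 5) (nat_lit 13) (nat_lit 5) (nat_lit 12) (nat_lit 5) (nat_lit 304) (nat_lit 279) (nat_lit 137)) (XT.lf (nat_lit 0) (nat_lit 33103394587) (nat_lit 152) (nat_lit 52746595172) (nat_lit 228) (nat_lit 209492153207) (nat_lit 9) (nat_lit 5) (nat_lit 11) (nat_lit 5) (nat_lit 12) (nat_lit 5) (nat_lit 305) (nat_lit 279) (nat_lit 136))))))))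
noncomputable def xc111 : XT := (XT.nd (nat_lit 35568) (nat_lit 0) (nat_lit 684) (XT.nd (nat_lit 936) (nat_lit 228) (nat_lit 0) (XT.nd (nat_lit 468) (nat_lit 228) (nat_lit 0) (XT.nd (nat_lit 234) (nat_lit 0) (nat_lit 0) (XT.nd (nat_lit 78) (nat_lit 76) (nat_lit 0) (XT.lf (nat_lit 0) (nat_lit 127141485384) (nat_lit 228) (nat_lit 172445819880) (nat_lit 76) (nat_lit 13748878793) (nat_lit 9) (nat_lit 5) (nat_lit 12) (nat_lit 5) (nat_lit 10) (nat_lit 4) (nat_lit 306) (nat_lit 279) (nat_lit 135)) (XT.nd (nat_lit 78) (nat_lit 76) (nat_lit 0) (XT.lf (nat_lit 0) (nat_lit 173106178587) (nat_lit 228) (nat_lit 76839755793) (nat_lit 76) (nat_lit 82714224510) (nat_lit 9) (nat_lit 5) (nat_lit 12) (nat_lit 5) (nat_lit 10) (nat_lit 4) (nat_lit 307) (nat_lit 279) (nat_lit 134)) (XT.lf (nat_lit 0) (nat_lit 27805498885) (nat_lit 76) (nat_lit 195611119886) (nat_lit 152) (nat_lit 130059947855) (nat_lit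 8) (nat_lit 5) (nat_lit 9) (nat_lit 5) (nat_lit 10) (nat_lit 4) (nat_lit 308) (nat_lit 279) (nat_lit 133)))) (XT.nd (nat_lit 78) (nat_lit 0) (nat_lit 0) (XT.lf (nat_lit 0) (nat_lit 145192086763) (nat_lit 76) (nat_lit 134660596739) (nat_lit 152) (nat_lit 95937540920) (nat_lit 8) (nat_lit 5) (nat_lit 9) (nat_lit 5) (nat_lit 10) (nat_lit 4) (nat_lit 309) (nat_lit 279) (nat_lit 132)) (XT.nd (nat_lit 78) (nat_lit 0) (nat_lit 0) (XT.lf (nat_lit 0) (nat_lit 271969386698) (nat_lit 76) (nat_lit 68834111749) (nat_lit 152) (nat_lit 59085487739) (nat_lit 8) (nat_lit 5) (nat_lit 9) (nat_lit 5) (nat_lit 10) (nat_lit 4) (nat_lit 310) (nat_lit 279) (nat_lit 131)) (XT.lf (nat_lit 0) (nat_lit 406684568628) (nat_lit 152) (nat_lit 17081302824) (nat_lit 0) (nat_lit 2145442743) (nat_lit 8) (nat_lit 5) (nat_lit 10) (nat_lit 4) (nat_lit 8) (nat_lit 4) (nat_lit 311) (nat_lit 279) (nat_lit 130))))) (XT.nd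 (nat_lit 234) (nat_lit 76) (nat_lit 0) (XT.nd (nat_lit 78) (nat_lit 0) (nat_lit 0) (XT.lf (nat_lit 0) (nat_lit 27082421382) (nat_lit 152) (nat_lit 348208003092) (nat_lit 76) (nat_lit 78322906691) (nat_lit 6) (nat_lit 5) (nat_lit 8) (nat_lit 5) (nat_lit 7) (nat_lit 4) (nat_lit 312) (nat_lit 279) (nat_lit 129)) (XT.nd (nat_lit 78) (nat_lit 0) (nat_lit 0) (XT.lf (nat_lit 0) (nat_lit 76536625323) (nat_lit 152) (nat_lit 245343549343) (nat_lit 76) (nat_lit 161573059766) (nat_lit 6) (nat_lit 5) (nat_lit 8) (nat_lit 5) (nat_lit 7) (nat_lit 4) (nat_lit 313) (nat_lit 279) (nat_lit 128)) (XT.lf (nat_lit 0) (nat_lit 129947057683) (nat_lit 152) (nat_lit 134250118967) (nat_lit 76) (nat_lit 251483162313) (nat_lit 6) (nat_lit 5) (nat_lit 8) (nat_lit 5) (nat_lit 7) (nat_lit 4) (nat_lit 314) (nat_lit 279) (nat_lit 127)))) (XT.nd (nat_lit 78) (nat_lit 76) (nat_lit 0) (XT.lf (nat_lit 0) (nat_lit 187630224727)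 (nat_lit 152) (nat_lit 14269380527) (nat_lit 76) (nat_lit 348586014940) (nat_lit 6) (nat_lit 5) (nat_lit 8) (nat_lit 5) (nat_lit 7) (nat_lit 4) (nat_lit 315) (nat_lit 279) (nat_lit 126)) (XT.nd (nat_lit 78) (nat_lit 0) (nat_lit 0) (XT.lf (nat_lit 0) (nat_lit 121381665449) (nat_lit 76) (nat_lit 131465519154) (nat_lit 152) (nat_lit 334994608480) (nat_lit 5) (nat_lit 5) (nat_lit 6) (nat_lit 5) (nat_lit 7) (nat_lit 4) (nat_lit 316) (nat_lit 279) (nat_lit 125)) (XT.lf (nat_lit 0) (nat_lit 268696157278) (nat_lit 76) (nat_lit 54975404882) (nat_lit 152) (nat_lit 304483693070) (nat_lit 5) (nat_lit 5) (nat_lit 6) (nat_lit 5) (nat_lit 7) (nat_lit 4) (nat_lit 317) (nat_lit 279) (nat_lit 124)))))) (XT.nd (nat_lit 468) (nat_lit 152) (nat_lit 0) (XT.nd (nat_lit 234) (nat_lit 0) (nat_lit 0) (XT.nd (nat_lit 78) (nat_lit 76) (nat_lit 0) (XT.lf (nat_lit 0) (nat_lit 400826402319) (nat_lit 152) (nat_lit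 244562726850) (nat_lit 0) (nat_lit 26251504459) (nat_lit 5) (nat_lit 5) (nat_lit 7) (nat_lit 4) (nat_lit 5) (nat_lit 4) (nat_lit 318) (nat_lit 279) (nat_lit 123)) (XT.nd (nat_lit 78) (nat_lit 76) (nat_lit 0) (XT.lf (nat_lit 0) (nat_lit 485581484502) (nat_lit 152) (nat_lit 121902712497) (nat_lit 0) (nat_lit 111006417168) (nat_lit 5) (nat_lit 5) (nat_lit 7) (nat_lit 4) (nat_lit 5) (nat_lit 4) (nat_lit 319) (nat_lit 279) (nat_lit 122)) (XT.lf (nat_lit 0) (nat_lit 11126575441) (nat_lit 76) (nat_lit 566257920202) (nat_lit 76) (nat_lit 191682695948) (nat_lit 4) (nat_lit 4) (nat_lit 5) (nat_lit 5) (nat_lit 5) (nat_lit 4) (nat_lit 320) (nat_lit 279) (nat_lit 121)))) (XT.nd (nat_lit 78) (nat_lit 0) (nat_lit 0) (XT.lf (nat_lit 0) (nat_lit 161730800900) (nat_lit 76) (nat_lit 518133913375) (nat_lit 76) (nat_lit 143558543825) (nat_lit 4) (nat_lit 4) (nat_lit 5) (nat_lit 5) (nat_lit 5) (nat_lit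 4) (nat_lit 321) (nat_lit 279) (nat_lit 120)) (XT.nd (nat_lit 78) (nat_lit 0) (nat_lit 0) (XT.lf (nat_lit 0) (nat_lit 324383252551) (nat_lit 76) (nat_lit 466160033408) (nat_lit 76) (nat_lit 91584529325) (nat_lit 4) (nat_lit 4) (nat_lit 5) (nat_lit 5) (nat_lit 5) (nat_lit 4) (nat_lit 322) (nat_lit 279) (nat_lit 119)) (XT.lf (nat_lit 0) (nat_lit 500047796776) (nat_lit 76) (nat_lit 410028286939) (nat_lit 76) (nat_lit 35452658288) (nat_lit 4) (nat_lit 4) (nat_lit 5) (nat_lit 5) (nat_lit 5) (nat_lit 4) (nat_lit 323) (nat_lit 279) (nat_lit 118))))) (XT.nd (nat_lit 234) (nat_lit 76) (nat_lit 0) (XT.nd (nat_lit 78) (nat_lit 0) (nat_lit 0) (XT.lf (nat_lit 0) (nat_lit 23910612134) (nat_lit 152) (nat_lit 324841670752) (nat_lit 76) (nat_lit 665201038008) (nat_lit 3) (nat_lit 5) (nat_lit 5) (nat_lit 5) (nat_lit 4) (nat_lit 4) (nat_lit 324) (nat_lit 279) (nat_lit 117)) (XT.nd (nat_lit 78) (nat_lit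 0) (nat_lit 0) (XT.lf (nat_lit 0) (nat_lit 86107527162) (nat_lit 152) (nat_lit 195472194291) (nat_lit 76) (nat_lit 806198481141) (nat_lit 3) (nat_lit 5) (nat_lit 5) (nat_lit 5) (nat_lit 4) (nat_lit 4) (nat_lit 325) (nat_lit 279) (nat_lit 116)) (XT.lf (nat_lit 0) (nat_lit 153280146659) (nat_lit 152) (nat_lit 55753244624) (nat_lit 76) (nat_lit 958475687582) (nat_lit 3) (nat_lit 5) (nat_lit 5) (nat_lit 5) (nat_lit 4) (nat_lit 4) (nat_lit 326) (nat_lit 279) (nat_lit 115)))) (XT.nd (nat_lit 78) (nat_lit 0) (nat_lit 0) (XT.lf (nat_lit 0) (nat_lit 100153211664) (nat_lit 76) (nat_lit 128082006076) (nat_lit 152) (nat_lit 1025190516262) (nat_lit 2) (nat_lit 5) (nat_lit 3) (nat_lit 5) (nat_lit 4) (nat_lit 4) (nat_lit 327) (nat_lit 279) (nat_lit 114)) (XT.nd (nat_lit 33774) (nat_lit 0) (nat_lit 2052) (XT.lf (nat_lit 0) (nat_lit 271702844249) (nat_lit 76) (nat_lit 39008199147) (nat_lit 152) (nat_lit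 1035382730361) (nat_lit 2) (nat_lit 5) (nat_lit 3) (nat_lit 5) (nat_lit 4) (nat_lit 4) (nat_lit 328) (nat_lit 279) (nat_lit 113)) (XT.lf (nat_lit 0) (nat_lit 7774751236) (nat_lit 532) (nat_lit 18472163379) (nat_lit 532) (nat_lit 18472163379) (nat_lit 29) (nat_lit 3) (nat_lit 36) (nat_lit 3) (nat_lit 36) (nat_lit 5) (nat_lit 280) (nat_lit 280) (nat_lit 160))))))) (XT.nd (nat_lit 936) (nat_lit 912) (nat_lit 0) (XT.nd (nat_lit 468) (nat_lit 456) (nat_lit 0) (XT.nd (nat_lit 234) (nat_lit 0) (nat_lit 152) (XT.nd (nat_lit 78) (nat_lit 0) (nat_lit 76) (XT.lf (nat_lit 0) (nat_lit 16178632033) (nat_lit 532) (nat_lit 688250660) (nat_lit 532) (nat_lit 76148176708) (nat_lit 29) (nat_lit 3) (nat_lit 36) (nat_lit 3) (nat_lit 36) (nat_lit 5) (nat_lit 281) (nat_lit 280) (nat_lit 159)) (XT.nd (nat_lit 78) (nat_lit 0) (nat_lit 0) (XT.lf (nat_lit 0) (nat_lit 18376277645) (nat_lit 456) (nat_lit 56851721835)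 (nat_lit 532) (nat_lit 21528665842) (nat_lit 30) (nat_lit 5) (nat_lit 36) (nat_lit 5) (nat_lit 37) (nat_lit 5) (nat_lit 282) (nat_lit 280) (nat_lit 158)) (XT.lf (nat_lit 0) (nat_lit 21206478140) (nat_lit 456) (nat_lit 17450393731) (nat_lit 532) (nat_lit 62104193098) (nat_lit 30) (nat_lit 5) (nat_lit 36) (nat_lit 5) (nat_lit 37) (nat_lit 5) (nat_lit 283) (nat_lit 280) (nat_lit 157)))) (XT.nd (nat_lit 78) (nat_lit 0) (nat_lit 0) (XT.lf (nat_lit 0) (nat_lit 24934701463) (nat_lit 456) (nat_lit 78647252673) (nat_lit 532) (nat_lit 1450138272) (nat_lit 31) (nat_lit 5) (nat_lit 37) (nat_lit 5) (nat_lit 38) (nat_lit 5) (nat_lit 284) (nat_lit 280) (nat_lit 156)) (XT.nd (nat_lit 78) (nat_lit 0) (nat_lit 0) (XT.lf (nat_lit 0) (nat_lit 30454199819) (nat_lit 456) (nat_lit 35904244023) (nat_lit 532) (nat_lit 43166920868) (nat_lit 31) (nat_lit 5) (nat_lit 37) (nat_lit 5) (nat_lit 38) (nat_lit 5)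 (nat_lit 285) (nat_lit 280) (nat_lit 155)) (XT.lf (nat_lit 76) (nat_lit 10797940024) (nat_lit 0) (nat_lit 25876476362) (nat_lit 532) (nat_lit 77682953484) (nat_lit 32) (nat_lit 5) (nat_lit 31) (nat_lit 5) (nat_lit 38) (nat_lit 5) (nat_lit 286) (nat_lit 280) (nat_lit 154))))) (XT.nd (nat_lit 234) (nat_lit 228) (nat_lit 0) (XT.nd (nat_lit 78) (nat_lit 456) (nat_lit 0) (XT.lf (nat_lit 0) (nat_lit 44828083433) (nat_lit 456) (nat_lit 56674300943) (nat_lit 76) (nat_lit 17958687878) (nat_lit 32) (nat_lit 5) (nat_lit 38) (nat_lit 5) (nat_lit 33) (nat_lit 5) (nat_lit 287) (nat_lit 280) (nat_lit 153)) (XT.nd (nat_lit 78) (nat_lit 456) (nat_lit 0) (XT.lf (nat_lit 0) (nat_lit 54305696565) (nat_lit 456) (nat_lit 6710901324) (nat_lit 76) (nat_lit 63902743928) (nat_lit 32) (nat_lit 5) (nat_lit 38) (nat_lit 5) (nat_lit 33) (nat_lit 5) (nat_lit 288) (nat_lit 280) (nat_lit 152)) (XT.lf (nat_lit 0)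 (nat_lit 49737236288) (nat_lit 456) (nat_lit 16000034980) (nat_lit 532) (nat_lit 64981344447) (nat_lit 26) (nat_lit 5) (nat_lit 32) (nat_lit 5) (nat_lit 33) (nat_lit 5) (nat_lit 289) (nat_lit 280) (nat_lit 151)))) (XT.nd (nat_lit 78) (nat_lit 228) (nat_lit 0) (XT.lf (nat_lit 0) (nat_lit 79055679936) (nat_lit 532) (nat_lit 26673916659) (nat_lit 76) (nat_lit 31174453038) (nat_lit 26) (nat_lit 5) (nat_lit 33) (nat_lit 5) (nat_lit 27) (nat_lit 5) (nat_lit 290) (nat_lit 280) (nat_lit 150)) (XT.nd (nat_lit 78) (nat_lit 0) (nat_lit 0) (XT.lf (nat_lit 0) (nat_lit 33224178830) (nat_lit 228) (nat_lit 61429634153) (nat_lit 304) (nat_lit 48833367695) (nat_lit 23) (nat_lit 5) (nat_lit 26) (nat_lit 5) (nat_lit 27) (nat_lit 5) (nat_lit 291) (nat_lit 280) (nat_lit 149)) (XT.lf (nat_lit 0) (nat_lit 99430714071) (nat_lit 228) (nat_lit 12798037591) (nat_lit 304) (nat_lit 38309896501) (nat_lit 23) (nat_lit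 5) (nat_lit 26) (nat_lit 5) (nat_lit 27) (nat_lit 5) (nat_lit 292) (nat_lit 280) (nat_lit 148)))))) (XT.nd (nat_lit 468) (nat_lit 304) (nat_lit 0) (XT.nd (nat_lit 234) (nat_lit 380) (nat_lit 0) (XT.nd (nat_lit 78) (nat_lit 76) (nat_lit 0) (XT.lf (nat_lit 0) (nat_lit 12446416589) (nat_lit 152) (nat_lit 120017639554) (nat_lit 228) (nat_lit 25589829430) (nat_lit 21) (nat_lit 5) (nat_lit 23) (nat_lit 5) (nat_lit 24) (nat_lit 5) (nat_lit 293) (nat_lit 280) (nat_lit 147)) (XT.nd (nat_lit 78) (nat_lit 76) (nat_lit 0) (XT.lf (nat_lit 0) (nat_lit 83641379932) (nat_lit 152) (nat_lit 72397872023) (nat_lit 228) (nat_lit 9993406685) (nat_lit 21) (nat_lit 5) (nat_lit 23) (nat_lit 5) (nat_lit 24) (nat_lit 5) (nat_lit 294) (nat_lit 280) (nat_lit 146)) (XT.lf (nat_lit 0) (nat_lit 6507727160) (nat_lit 228) (nat_lit 14282911651) (nat_lit 76) (nat_lit 153845939774) (nat_lit 20) (nat_lit 5) (nat_lit 23)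 (nat_lit 5) (nat_lit 21) (nat_lit 5) (nat_lit 295) (nat_lit 280) (nat_lit 145)))) (XT.nd (nat_lit 78) (nat_lit 152) (nat_lit 0) (XT.lf (nat_lit 0) (nat_lit 26168779078) (nat_lit 304) (nat_lit 122552718566) (nat_lit 76) (nat_lit 34996172094) (nat_lit 17) (nat_lit 5) (nat_lit 21) (nat_lit 5) (nat_lit 18) (nat_lit 5) (nat_lit 296) (nat_lit 280) (nat_lit 144)) (XT.nd (nat_lit 78) (nat_lit 152) (nat_lit 0) (XT.lf (nat_lit 0) (nat_lit 48343127632) (nat_lit 304) (nat_lit 50583586384) (nat_lit 76) (nat_lit 94523302654) (nat_lit 17) (nat_lit 5) (nat_lit 21) (nat_lit 5) (nat_lit 18) (nat_lit 5) (nat_lit 297) (nat_lit 280) (nat_lit 143)) (XT.lf (nat_lit 0) (nat_lit 28572046696) (nat_lit 152) (nat_lit 44406288001) (nat_lit 228) (nat_lit 130927665184) (nat_lit 15) (nat_lit 5) (nat_lit 17) (nat_lit 5) (nat_lit 18) (nat_lit 5) (nat_lit 298) (nat_lit 280) (nat_lit 142))))) (XT.nd (nat_lit 234) (nat_lit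 152) (nat_lit 0) (XT.nd (nat_lit 78) (nat_lit 152) (nat_lit 0) (XT.lf (nat_lit 0) (nat_lit 101351230439) (nat_lit 228) (nat_lit 98535349798) (nat_lit 76) (nat_lit 15170533017) (nat_lit 15) (nat_lit 5) (nat_lit 18) (nat_lit 5) (nat_lit 16) (nat_lit 5) (nat_lit 299) (nat_lit 280) (nat_lit 141)) (XT.nd (nat_lit 78) (nat_lit 152) (nat_lit 0) (XT.lf (nat_lit 0) (nat_lit 133147146904) (nat_lit 228) (nat_lit 16746573339) (nat_lit 76) (nat_lit 77114341508) (nat_lit 15) (nat_lit 5) (nat_lit 18) (nat_lit 5) (nat_lit 16) (nat_lit 5) (nat_lit 300) (nat_lit 280) (nat_lit 140)) (XT.lf (nat_lit 0) (nat_lit 75354563153) (nat_lit 152) (nat_lit 93944247949) (nat_lit 228) (nat_lit 70471310166) (nat_lit 13) (nat_lit 5) (nat_lit 15) (nat_lit 5) (nat_lit 16) (nat_lit 5) (nat_lit 301) (nat_lit 280) (nat_lit 139)))) (XT.nd (nat_lit 78) (nat_lit 152) (nat_lit 0) (XT.lf (nat_lit 0) (nat_lit 175775907662) (nat_lit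 152) (nat_lit 33024385659) (nat_lit 228) (nat_lit 44716238444) (nat_lit 13) (nat_lit 5) (nat_lit 15) (nat_lit 5) (nat_lit 16) (nat_lit 5) (nat_lit 302) (nat_lit 280) (nat_lit 138)) (XT.nd (nat_lit 78) (nat_lit 76) (nat_lit 0) (XT.lf (nat_lit 0) (nat_lit 15874022017) (nat_lit 76) (nat_lit 236757556184) (nat_lit 152) (nat_lit 15637503110) (nat_lit 12) (nat_lit 5) (nat_lit 13) (nat_lit 5) (nat_lit 14) (nat_lit 4) (nat_lit 303) (nat_lit 280) (nat_lit 137)) (XT.lf (nat_lit 0) (nat_lit 18017146030) (nat_lit 152) (nat_lit 163925238995) (nat_lit 76) (nat_lit 101986044180) (nat_lit 11) (nat_lit 5) (nat_lit 13) (nat_lit 5) (nat_lit 12) (nat_lit 5) (nat_lit 304) (nat_lit 280) (nat_lit 136))))))))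
noncomputable def xc112 : XT := (XT.nd (nat_lit 1794) (nat_lit 76) (nat_lit 0) (XT.nd (nat_lit 858) (nat_lit 228) (nat_lit 0) (XT.nd (nat_lit 390) (nat_lit 152) (nat_lit 0) (XT.nd (nat_lit 156) (nat_lit 76) (nat_lit 0) (XT.nd (nat_lit 78) (nat_lit 152) (nat_lit 0) (XT.lf (nat_lit 0) (nat_lit 53519167748) (nat_lit 152) (nat_lit 68784254042) (nat_lit 76) (nat_lit 178504623811) (nat_lit 11) (nat_lit 5) (nat_lit 13) (nat_lit 5) (nat_lit 12) (nat_lit 5) (nat_lit 305) (nat_lit 280) (nat_lit 135)) (XT.lf (nat_lit 0) (nat_lit 35756459224) (nat_lit 152) (nat_lit 56964680114) (nat_lit 228) (nat_lit 226248109609) (nat_lit 9) (nat_lit 5) (nat_lit 11) (nat_lit 5) (nat_lit 12) (nat_lit 5) (nat_lit 306) (nat_lit 280) (nat_lit 134))) (XT.nd (nat_lit 78) (nat_lit 76) (nat_lit 0) (XT.lf (nat_lit 0) (nat_lit 137315757830) (nat_lit 228) (nat_lit 186236838230) (nat_lit 76) (nat_lit 14850234003) (nat_lit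 9) (nat_lit 5) (nat_lit 12) (nat_lit 5) (nat_lit 10) (nat_lit 4) (nat_lit 307) (nat_lit 280) (nat_lit 133)) (XT.nd (nat_lit 78) (nat_lit 76) (nat_lit 0) (XT.lf (nat_lit 0) (nat_lit 186957407703) (nat_lit 228) (nat_lit 82982633256) (nat_lit 76) (nat_lit 89332700347) (nat_lit 9) (nat_lit 5) (nat_lit 12) (nat_lit 5) (nat_lit 10) (nat_lit 4) (nat_lit 308) (nat_lit 280) (nat_lit 132)) (XT.lf (nat_lit 0) (nat_lit 30034132859) (nat_lit 76) (nat_lit 211258448530) (nat_lit 152) (nat_lit 140461889261) (nat_lit 8) (nat_lit 5) (nat_lit 9) (nat_lit 5) (nat_lit 10) (nat_lit 4) (nat_lit 309) (nat_lit 280) (nat_lit 131))))) (XT.nd (nat_lit 234) (nat_lit 152) (nat_lit 0) (XT.nd (nat_lit 78) (nat_lit 0) (nat_lit 0) (XT.lf (nat_lit 0) (nat_lit 156811337097) (nat_lit 76) (nat_lit 145431999157) (nat_lit 152) (nat_lit 103609901210) (nat_lit 8) (nat_lit 5) (nat_lit 9) (nat_lit 5) (nat_lit 10) (nat_lit 4)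 (nat_lit 310) (nat_lit 280) (nat_lit 130)) (XT.nd (nat_lit 78) (nat_lit 0) (nat_lit 0) (XT.lf (nat_lit 0) (nat_lit 293730533368) (nat_lit 76) (nat_lit 74339502428) (nat_lit 152) (nat_lit 63809879551) (nat_lit 8) (nat_lit 5) (nat_lit 9) (nat_lit 5) (nat_lit 10) (nat_lit 4) (nat_lit 311) (nat_lit 280) (nat_lit 129)) (XT.lf (nat_lit 0) (nat_lit 439221454172) (nat_lit 152) (nat_lit 18444331788) (nat_lit 0) (nat_lit 2318255307) (nat_lit 8) (nat_lit 5) (nat_lit 10) (nat_lit 4) (nat_lit 8) (nat_lit 4) (nat_lit 312) (nat_lit 280) (nat_lit 128)))) (XT.nd (nat_lit 78) (nat_lit 0) (nat_lit 0) (XT.lf (nat_lit 0) (nat_lit 29251120114) (nat_lit 152) (nat_lit 376061137960) (nat_lit 76) (nat_lit 84589963930) (nat_lit 6) (nat_lit 5) (nat_lit 8) (nat_lit 5) (nat_lit 7) (nat_lit 4) (nat_lit 313) (nat_lit 280) (nat_lit 127)) (XT.nd (nat_lit 78) (nat_lit 0) (nat_lit 0) (XT.lf (nat_lit 0) (nat_lit 82661504443)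 (nat_lit 152) (nat_lit 264967787568) (nat_lit 76) (nat_lit 174500038533) (nat_lit 6) (nat_lit 5) (nat_lit 8) (nat_lit 5) (nat_lit 7) (nat_lit 4) (nat_lit 314) (nat_lit 280) (nat_lit 126)) (XT.lf (nat_lit 0) (nat_lit 140344627014) (nat_lit 152) (nat_lit 144987123186) (nat_lit 76) (nat_lit 271602865285) (nat_lit 6) (nat_lit 5) (nat_lit 8) (nat_lit 5) (nat_lit 7) (nat_lit 4) (nat_lit 315) (nat_lit 280) (nat_lit 125)))))) (XT.nd (nat_lit 468) (nat_lit 76) (nat_lit 0) (XT.nd (nat_lit 234) (nat_lit 76) (nat_lit 0) (XT.nd (nat_lit 78) (nat_lit 76) (nat_lit 0) (XT.lf (nat_lit 0) (nat_lit 202642313739) (nat_lit 152) (nat_lit 15408148286) (nat_lit 76) (nat_lit 376473868344) (nat_lit 6) (nat_lit 5) (nat_lit 8) (nat_lit 5) (nat_lit 7) (nat_lit 4) (nat_lit 316) (nat_lit 280) (nat_lit 124)) (XT.nd (nat_lit 78) (nat_lit 0) (nat_lit 0) (XT.lf (nat_lit 0) (nat_lit 131094910922) (nat_lit 76) (nat_lit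 141981660933) (nat_lit 152) (nat_lit 361792430346) (nat_lit 5) (nat_lit 5) (nat_lit 6) (nat_lit 5) (nat_lit 7) (nat_lit 4) (nat_lit 317) (nat_lit 280) (nat_lit 123)) (XT.lf (nat_lit 0) (nat_lit 290194361190) (nat_lit 76) (nat_lit 59372418982) (nat_lit 152) (nat_lit 328840771097) (nat_lit 5) (nat_lit 5) (nat_lit 6) (nat_lit 5) (nat_lit 7) (nat_lit 4) (nat_lit 318) (nat_lit 280) (nat_lit 122)))) (XT.nd (nat_lit 78) (nat_lit 76) (nat_lit 0) (XT.lf (nat_lit 0) (nat_lit 432893919625) (nat_lit 152) (nat_lit 264125327203) (nat_lit 0) (nat_lit 28352520511) (nat_lit 5) (nat_lit 5) (nat_lit 7) (nat_lit 4) (nat_lit 5) (nat_lit 4) (nat_lit 319) (nat_lit 280) (nat_lit 121)) (XT.nd (nat_lit 78) (nat_lit 76) (nat_lit 0) (XT.lf (nat_lit 0) (nat_lit 524429304299) (nat_lit 152) (nat_lit 131652690797) (nat_lit 0) (nat_lit 119887759889) (nat_lit 5) (nat_lit 5) (nat_lit 7) (nat_lit 4) (nat_lit 5) (nat_lit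 4) (nat_lit 320) (nat_lit 280) (nat_lit 120)) (XT.lf (nat_lit 0) (nat_lit 12018883500) (nat_lit 76) (nat_lit 611557628936) (nat_lit 76) (nat_lit 207015949993) (nat_lit 4) (nat_lit 4) (nat_lit 5) (nat_lit 5) (nat_lit 5) (nat_lit 4) (nat_lit 321) (nat_lit 280) (nat_lit 119))))) (XT.nd (nat_lit 234) (nat_lit 76) (nat_lit 0) (XT.nd (nat_lit 78) (nat_lit 0) (nat_lit 0) (XT.lf (nat_lit 0) (nat_lit 174671285364) (nat_lit 76) (nat_lit 559583770073) (nat_lit 76) (nat_lit 155041966561) (nat_lit 4) (nat_lit 4) (nat_lit 5) (nat_lit 5) (nat_lit 5) (nat_lit 4) (nat_lit 322) (nat_lit 280) (nat_lit 118)) (XT.nd (nat_lit 78) (nat_lit 0) (nat_lit 0) (XT.lf (nat_lit 0) (nat_lit 350335783489) (nat_lit 76) (nat_lit 503452043144) (nat_lit 76) (nat_lit 98910124291) (nat_lit 4) (nat_lit 4) (nat_lit 5) (nat_lit 5) (nat_lit 5) (nat_lit 4) (nat_lit 323) (nat_lit 280) (nat_lit 117)) (XT.lf (nat_lit 0) (nat_lit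 540053352679) (nat_lit 76) (nat_lit 442829815693) (nat_lit 76) (nat_lit 38287790044) (nat_lit 4) (nat_lit 4) (nat_lit 5) (nat_lit 5) (nat_lit 5) (nat_lit 4) (nat_lit 324) (nat_lit 280) (nat_lit 116)))) (XT.nd (nat_lit 78) (nat_lit 0) (nat_lit 0) (XT.lf (nat_lit 0) (nat_lit 25824411878) (nat_lit 152) (nat_lit 350827347827) (nat_lit 76) (nat_lit 718417748132) (nat_lit 3) (nat_lit 5) (nat_lit 5) (nat_lit 5) (nat_lit 4) (nat_lit 4) (nat_lit 325) (nat_lit 280) (nat_lit 115)) (XT.nd (nat_lit 78) (nat_lit 0) (nat_lit 0) (XT.lf (nat_lit 0) (nat_lit 92997009681) (nat_lit 152) (nat_lit 211108435959) (nat_lit 76) (nat_lit 870694940265) (nat_lit 3) (nat_lit 5) (nat_lit 5) (nat_lit 5) (nat_lit 4) (nat_lit 4) (nat_lit 326) (nat_lit 280) (nat_lit 114)) (XT.lf (nat_lit 0) (nat_lit 165543373527) (nat_lit 152) (nat_lit 60212083939) (nat_lit 76) (nat_lit 1035154280211) (nat_lit 3) (nat_lit 5) (nat_lit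 5) (nat_lit 5) (nat_lit 4) (nat_lit 4) (nat_lit 327) (nat_lit 280) (nat_lit 113))))))) (XT.nd (nat_lit 34710) (nat_lit 0) (nat_lit 836) (XT.nd (nat_lit 34242) (nat_lit 0) (nat_lit 1824) (XT.nd (nat_lit 34008) (nat_lit 0) (nat_lit 2128) (XT.nd (nat_lit 33852) (nat_lit 0) (nat_lit 2052) (XT.lf (nat_lit 0) (nat_lit 108166852897) (nat_lit 76) (nat_lit 138327970310) (nat_lit 152) (nat_lit 1107204904355) (nat_lit 2) (nat_lit 5) (nat_lit 3) (nat_lit 5) (nat_lit 4) (nat_lit 4) (nat_lit 328) (nat_lit 280) (nat_lit 112)) (XT.nd (nat_lit 78) (nat_lit 0) (nat_lit 0) (XT.lf (nat_lit 0) (nat_lit 8403708852) (nat_lit 532) (nat_lit 19946143767) (nat_lit 532) (nat_lit 19946143767) (nat_lit 29) (nat_lit 3) (nat_lit 36) (nat_lit 3) (nat_lit 36) (nat_lit 5) (nat_lit 281) (nat_lit 281) (nat_lit 158)) (XT.lf (nat_lit 0) (nat_lit 17485843923) (nat_lit 532) (nat_lit 736287227) (nat_lit 532) (nat_lit 82233007359)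 (nat_lit 29) (nat_lit 3) (nat_lit 36) (nat_lit 3) (nat_lit 36) (nat_lit 5) (nat_lit 282) (nat_lit 281) (nat_lit 157)))) (XT.nd (nat_lit 78) (nat_lit 0) (nat_lit 0) (XT.lf (nat_lit 0) (nat_lit 19858381627) (nat_lit 456) (nat_lit 61391831411) (nat_lit 532) (nat_lit 23245940239) (nat_lit 30) (nat_lit 5) (nat_lit 36) (nat_lit 5) (nat_lit 37) (nat_lit 5) (nat_lit 283) (nat_lit 281) (nat_lit 156)) (XT.nd (nat_lit 78) (nat_lit 0) (nat_lit 76) (XT.lf (nat_lit 0) (nat_lit 22914109142) (nat_lit 456) (nat_lit 18838991739) (nat_lit 532) (nat_lit 67067881444) (nat_lit 30) (nat_lit 5) (nat_lit 36) (nat_lit 5) (nat_lit 37) (nat_lit 5) (nat_lit 284) (nat_lit 281) (nat_lit 155)) (XT.lf (nat_lit 0) (nat_lit 26939864008) (nat_lit 456) (nat_lit 84930800091) (nat_lit 532) (nat_lit 1563091806) (nat_lit 31) (nat_lit 5) (nat_lit 37) (nat_lit 5) (nat_lit 38) (nat_lit 5) (nat_lit 285) (nat_lit 281) (nat_lit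 154))))) (XT.nd (nat_lit 234) (nat_lit 380) (nat_lit 0) (XT.nd (nat_lit 78) (nat_lit 0) (nat_lit 0) (XT.lf (nat_lit 0) (nat_lit 32900152867) (nat_lit 456) (nat_lit 38768960585) (nat_lit 532) (nat_lit 46617443493) (nat_lit 31) (nat_lit 5) (nat_lit 37) (nat_lit 5) (nat_lit 38) (nat_lit 5) (nat_lit 286) (nat_lit 281) (nat_lit 153)) (XT.nd (nat_lit 78) (nat_lit 0) (nat_lit 76) (XT.lf (nat_lit 76) (nat_lit 11669205199) (nat_lit 0) (nat_lit 27948247876) (nat_lit 532) (nat_lit 83887717143) (nat_lit 32) (nat_lit 5) (nat_lit 31) (nat_lit 5) (nat_lit 38) (nat_lit 5) (nat_lit 287) (nat_lit 281) (nat_lit 152)) (XT.lf (nat_lit 0) (nat_lit 48422703824) (nat_lit 456) (nat_lit 61200597815) (nat_lit 76) (nat_lit 19393928561) (nat_lit 32) (nat_lit 5) (nat_lit 38) (nat_lit 5) (nat_lit 33) (nat_lit 5) (nat_lit 288) (nat_lit 281) (nat_lit 151)))) (XT.nd (nat_lit 78) (nat_lit 456) (nat_lit 0) (XT.lf (nat_lit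 0) (nat_lit 58657905732) (nat_lit 456) (nat_lit 7240692687) (nat_lit 76) (nat_lit 69013616824) (nat_lit 32) (nat_lit 5) (nat_lit 38) (nat_lit 5) (nat_lit 33) (nat_lit 5) (nat_lit 289) (nat_lit 281) (nat_lit 150)) (XT.nd (nat_lit 78) (nat_lit 0) (nat_lit 0) (XT.lf (nat_lit 0) (nat_lit 53723116675) (nat_lit 456) (nat_lit 17280481387) (nat_lit 532) (nat_lit 70171869630) (nat_lit 26) (nat_lit 5) (nat_lit 32) (nat_lit 5) (nat_lit 33) (nat_lit 5) (nat_lit 290) (nat_lit 281) (nat_lit 149)) (XT.lf (nat_lit 0) (nat_lit 85386925465) (nat_lit 532) (nat_lit 28800839777) (nat_lit 76) (nat_lit 33668019080) (nat_lit 26) (nat_lit 5) (nat_lit 33) (nat_lit 5) (nat_lit 27) (nat_lit 5) (nat_lit 291) (nat_lit 281) (nat_lit 148)))))) (XT.nd (nat_lit 468) (nat_lit 304) (nat_lit 0) (XT.nd (nat_lit 234) (nat_lit 304) (nat_lit 0) (XT.nd (nat_lit 78) (nat_lit 152) (nat_lit 0) (XT.lf (nat_lit 0) (nat_lit 35888926383)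 (nat_lit 228) (nat_lit 66343643584) (nat_lit 304) (nat_lit 52733026424) (nat_lit 23) (nat_lit 5) (nat_lit 26) (nat_lit 5) (nat_lit 27) (nat_lit 5) (nat_lit 292) (nat_lit 281) (nat_lit 147)) (XT.nd (nat_lit 78) (nat_lit 152) (nat_lit 0) (XT.lf (nat_lit 0) (nat_lit 107391479759) (nat_lit 228) (nat_lit 13821546060) (nat_lit 304) (nat_lit 41368196844) (nat_lit 23) (nat_lit 5) (nat_lit 26) (nat_lit 5) (nat_lit 27) (nat_lit 5) (nat_lit 293) (nat_lit 281) (nat_lit 146)) (XT.lf (nat_lit 0) (nat_lit 13448775181) (nat_lit 152) (nat_lit 129618104226) (nat_lit 228) (nat_lit 27630824601) (nat_lit 21) (nat_lit 5) (nat_lit 23) (nat_lit 5) (nat_lit 24) (nat_lit 5) (nat_lit 294) (nat_lit 281) (nat_lit 145)))) (XT.nd (nat_lit 78) (nat_lit 304) (nat_lit 0) (XT.lf (nat_lit 0) (nat_lit 90338843350) (nat_lit 152) (nat_lit 78188825403) (nat_lit 228) (nat_lit 10787146642) (nat_lit 21) (nat_lit 5) (nat_lit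 23) (nat_lit 5) (nat_lit 24) (nat_lit 5) (nat_lit 295) (nat_lit 281) (nat_lit 144)) (XT.nd (nat_lit 78) (nat_lit 228) (nat_lit 0) (XT.lf (nat_lit 0) (nat_lit 7033387750) (nat_lit 228) (nat_lit 15419552832) (nat_lit 76) (nat_lit 166154131914) (nat_lit 20) (nat_lit 5) (nat_lit 23) (nat_lit 5) (nat_lit 21) (nat_lit 5) (nat_lit 296) (nat_lit 281) (nat_lit 143)) (XT.lf (nat_lit 0) (nat_lit 28267115551) (nat_lit 304) (nat_lit 132350709194) (nat_lit 76) (nat_lit 37796845004) (nat_lit 17) (nat_lit 5) (nat_lit 21) (nat_lit 5) (nat_lit 18) (nat_lit 5) (nat_lit 297) (nat_lit 281) (nat_lit 142))))) (XT.nd (nat_lit 234) (nat_lit 152) (nat_lit 0) (XT.nd (nat_lit 78) (nat_lit 152) (nat_lit 0) (XT.lf (nat_lit 0) (nat_lit 52215053904) (nat_lit 304) (nat_lit 54624507686) (nat_lit 76) (nat_lit 102086073480) (nat_lit 17) (nat_lit 5) (nat_lit 21) (nat_lit 5) (nat_lit 18) (nat_lit 5) (nat_lit 298) (nat_lit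 281) (nat_lit 141)) (XT.nd (nat_lit 78) (nat_lit 0) (nat_lit 0) (XT.lf (nat_lit 0) (nat_lit 30863430075) (nat_lit 152) (nat_lit 47957451052) (nat_lit 228) (nat_lit 141397233365) (nat_lit 15) (nat_lit 5) (nat_lit 17) (nat_lit 5) (nat_lit 18) (nat_lit 5) (nat_lit 299) (nat_lit 281) (nat_lit 140)) (XT.lf (nat_lit 0) (nat_lit 109463321357) (nat_lit 228) (nat_lit 106412665933) (nat_lit 76) (nat_lit 16385354323) (nat_lit 15) (nat_lit 5) (nat_lit 18) (nat_lit 5) (nat_lit 16) (nat_lit 5) (nat_lit 300) (nat_lit 281) (nat_lit 139)))) (XT.nd (nat_lit 78) (nat_lit 152) (nat_lit 0) (XT.lf (nat_lit 0) (nat_lit 143802615400) (nat_lit 228) (nat_lit 18081195643) (nat_lit 76) (nat_lit 83284580184) (nat_lit 15) (nat_lit 5) (nat_lit 18) (nat_lit 5) (nat_lit 16) (nat_lit 5) (nat_lit 301) (nat_lit 281) (nat_lit 138)) (XT.nd (nat_lit 78) (nat_lit 0) (nat_lit 0) (XT.lf (nat_lit 0) (nat_lit 81387902564) (nat_lit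 152) (nat_lit 101458355969) (nat_lit 228) (nat_lit 76105170768) (nat_lit 13) (nat_lit 5) (nat_lit 15) (nat_lit 5) (nat_lit 16) (nat_lit 5) (nat_lit 302) (nat_lit 281) (nat_lit 137)) (XT.lf (nat_lit 0) (nat_lit 189842586163) (nat_lit 152) (nat_lit 35665010756) (nat_lit 228) (nat_lit 48289978064) (nat_lit 13) (nat_lit 5) (nat_lit 15) (nat_lit 5) (nat_lit 16) (nat_lit 5) (nat_lit 303) (nat_lit 281) (nat_lit 136))))))))
noncomputable def xc113 : XT := (XT.nd (nat_lit 1872) (nat_lit 0) (nat_lit 0) (XT.nd (nat_lit 936) (nat_lit 228) (nat_lit 0) (XT.nd (nat_lit 468) (nat_lit 228) (nat_lit 0) (XT.nd (nat_lit 234) (nat_lit 152) (nat_lit 0) (XT.nd (nat_lit 78) (nat_lit 76) (nat_lit 0) (XT.lf (nat_lit 0) (nat_lit 17148674235) (nat_lit 76) (nat_lit 255696610673) (nat_lit 152) (nat_lit 16885052814) (nat_lit 12) (nat_lit 5) (nat_lit 13) (nat_lit 5) (nat_lit 14) (nat_lit 4) (nat_lit 304) (nat_lit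 281) (nat_lit 135)) (XT.nd (nat_lit 78) (nat_lit 0) (nat_lit 0) (XT.lf (nat_lit 0) (nat_lit 19461552837) (nat_lit 152) (nat_lit 177034704813) (nat_lit 76) (nat_lit 110146189657) (nat_lit 11) (nat_lit 5) (nat_lit 13) (nat_lit 5) (nat_lit 12) (nat_lit 5) (nat_lit 305) (nat_lit 281) (nat_lit 134)) (XT.lf (nat_lit 0) (nat_lit 57803511469) (nat_lit 152) (nat_lit 74282778346) (nat_lit 76) (nat_lit 192786162181) (nat_lit 11) (nat_lit 5) (nat_lit 13) (nat_lit 5) (nat_lit 12) (nat_lit 5) (nat_lit 306) (nat_lit 281) (nat_lit 133)))) (XT.nd (nat_lit 78) (nat_lit 0) (nat_lit 0) (XT.lf (nat_lit 0) (nat_lit 38621085247) (nat_lit 152) (nat_lit 61520446197) (nat_lit 228) (nat_lit 244345029833) (nat_lit 9) (nat_lit 5) (nat_lit 11) (nat_lit 5) (nat_lit 12) (nat_lit 5) (nat_lit 307) (nat_lit 281) (nat_lit 132)) (XT.nd (nat_lit 78) (nat_lit 0) (nat_lit 0) (XT.lf (nat_lit 0) (nat_lit 148303550705) (nat_lit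 228) (nat_lit 201131801029) (nat_lit 76) (nat_lit 16039491498) (nat_lit 9) (nat_lit 5) (nat_lit 12) (nat_lit 5) (nat_lit 10) (nat_lit 4) (nat_lit 308) (nat_lit 281) (nat_lit 131)) (XT.lf (nat_lit 0) (nat_lit 201916344995) (nat_lit 228) (nat_lit 89617554787) (nat_lit 76) (nat_lit 96480463388) (nat_lit 9) (nat_lit 5) (nat_lit 12) (nat_lit 5) (nat_lit 10) (nat_lit 4) (nat_lit 309) (nat_lit 281) (nat_lit 130))))) (XT.nd (nat_lit 234) (nat_lit 152) (nat_lit 0) (XT.nd (nat_lit 78) (nat_lit 0) (nat_lit 0) (XT.lf (nat_lit 0) (nat_lit 32440459222) (nat_lit 76) (nat_lit 228157786151) (nat_lit 152) (nat_lit 151696393194) (nat_lit 8) (nat_lit 5) (nat_lit 9) (nat_lit 5) (nat_lit 10) (nat_lit 4) (nat_lit 310) (nat_lit 281) (nat_lit 129)) (XT.nd (nat_lit 78) (nat_lit 0) (nat_lit 0) (XT.lf (nat_lit 0) (nat_lit 169359573448) (nat_lit 76) (nat_lit 157065319958) (nat_lit 152) (nat_lit 111896427374)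 (nat_lit 8) (nat_lit 5) (nat_lit 9) (nat_lit 5) (nat_lit 10) (nat_lit 4) (nat_lit 311) (nat_lit 281) (nat_lit 128)) (XT.lf (nat_lit 0) (nat_lit 317232058800) (nat_lit 76) (nat_lit 80285515280) (nat_lit 152) (nat_lit 68912571829) (nat_lit 8) (nat_lit 5) (nat_lit 9) (nat_lit 5) (nat_lit 10) (nat_lit 4) (nat_lit 312) (nat_lit 281) (nat_lit 127)))) (XT.nd (nat_lit 78) (nat_lit 152) (nat_lit 0) (XT.lf (nat_lit 0) (nat_lit 474360988110) (nat_lit 152) (nat_lit 19916898854) (nat_lit 0) (nat_lit 2504724943) (nat_lit 8) (nat_lit 5) (nat_lit 10) (nat_lit 4) (nat_lit 8) (nat_lit 4) (nat_lit 313) (nat_lit 281) (nat_lit 126)) (XT.nd (nat_lit 78) (nat_lit 0) (nat_lit 0) (XT.lf (nat_lit 0) (nat_lit 31593014440) (nat_lit 152) (nat_lit 406143023698) (nat_lit 76) (nat_lit 91358211031) (nat_lit 6) (nat_lit 5) (nat_lit 8) (nat_lit 5) (nat_lit 7) (nat_lit 4) (nat_lit 314) (nat_lit 281) (nat_lit 125)) (XT.lf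 (nat_lit 0) (nat_lit 89276095832) (nat_lit 152) (nat_lit 286162427889) (nat_lit 76) (nat_lit 188461013825) (nat_lit 6) (nat_lit 5) (nat_lit 8) (nat_lit 5) (nat_lit 7) (nat_lit 4) (nat_lit 315) (nat_lit 281) (nat_lit 124)))))) (XT.nd (nat_lit 468) (nat_lit 152) (nat_lit 0) (XT.nd (nat_lit 234) (nat_lit 0) (nat_lit 0) (XT.nd (nat_lit 78) (nat_lit 76) (nat_lit 0) (XT.lf (nat_lit 0) (nat_lit 151573744429) (nat_lit 152) (nat_lit 156583516482) (nat_lit 76) (nat_lit 293331994702) (nat_lit 6) (nat_lit 5) (nat_lit 8) (nat_lit 5) (nat_lit 7) (nat_lit 4) (nat_lit 316) (nat_lit 281) (nat_lit 123)) (XT.nd (nat_lit 78) (nat_lit 76) (nat_lit 0) (XT.lf (nat_lit 0) (nat_lit 218855131480) (nat_lit 152) (nat_lit 16638414446) (nat_lit 76) (nat_lit 406592611325) (nat_lit 6) (nat_lit 5) (nat_lit 8) (nat_lit 5) (nat_lit 7) (nat_lit 4) (nat_lit 317) (nat_lit 281) (nat_lit 122)) (XT.lf (nat_lit 0) (nat_lit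 141584829101) (nat_lit 76) (nat_lit 153339250947) (nat_lit 152) (nat_lit 390734327164) (nat_lit 5) (nat_lit 5) (nat_lit 6) (nat_lit 5) (nat_lit 7) (nat_lit 4) (nat_lit 318) (nat_lit 281) (nat_lit 121)))) (XT.nd (nat_lit 78) (nat_lit 0) (nat_lit 0) (XT.lf (nat_lit 0) (nat_lit 313412063146) (nat_lit 76) (nat_lit 64121339481) (nat_lit 152) (nat_lit 355146646108) (nat_lit 5) (nat_lit 5) (nat_lit 6) (nat_lit 5) (nat_lit 7) (nat_lit 4) (nat_lit 319) (nat_lit 281) (nat_lit 120)) (XT.nd (nat_lit 78) (nat_lit 0) (nat_lit 0) (XT.lf (nat_lit 0) (nat_lit 467526637859) (nat_lit 152) (nat_lit 285253280509) (nat_lit 0) (nat_lit 30621490066) (nat_lit 5) (nat_lit 5) (nat_lit 7) (nat_lit 4) (nat_lit 5) (nat_lit 4) (nat_lit 320) (nat_lit 281) (nat_lit 119)) (XT.lf (nat_lit 0) (nat_lit 566384764072) (nat_lit 152) (nat_lit 142182986737) (nat_lit 0) (nat_lit 129479491712) (nat_lit 5) (nat_lit 5) (nat_lit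 7) (nat_lit 4) (nat_lit 5) (nat_lit 4) (nat_lit 321) (nat_lit 281) (nat_lit 118))))) (XT.nd (nat_lit 234) (nat_lit 76) (nat_lit 0) (XT.nd (nat_lit 78) (nat_lit 0) (nat_lit 0) (XT.lf (nat_lit 0) (nat_lit 12982264914) (nat_lit 76) (nat_lit 660481446314) (nat_lit 76) (nat_lit 223576058612) (nat_lit 4) (nat_lit 4) (nat_lit 5) (nat_lit 5) (nat_lit 5) (nat_lit 4) (nat_lit 322) (nat_lit 281) (nat_lit 117)) (XT.nd (nat_lit 78) (nat_lit 0) (nat_lit 0) (XT.lf (nat_lit 0) (nat_lit 188646720354) (nat_lit 76) (nat_lit 604349737477) (nat_lit 76) (nat_lit 167444242979) (nat_lit 4) (nat_lit 4) (nat_lit 5) (nat_lit 5) (nat_lit 5) (nat_lit 4) (nat_lit 323) (nat_lit 281) (nat_lit 116)) (XT.lf (nat_lit 0) (nat_lit 378364250021) (nat_lit 76) (nat_lit 543727526779) (nat_lit 76) (nat_lit 106821933395) (nat_lit 4) (nat_lit 4) (nat_lit 5) (nat_lit 5) (nat_lit 5) (nat_lit 4) (nat_lit 324) (nat_lit 281) (nat_lit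 115)))) (XT.nd (nat_lit 78) (nat_lit 76) (nat_lit 0) (XT.lf (nat_lit 0) (nat_lit 583259105942) (nat_lit 76) (nat_lit 478255571489) (nat_lit 76) (nat_lit 41349886544) (nat_lit 4) (nat_lit 4) (nat_lit 5) (nat_lit 5) (nat_lit 5) (nat_lit 4) (nat_lit 325) (nat_lit 281) (nat_lit 114)) (XT.nd (nat_lit 78) (nat_lit 0) (nat_lit 0) (XT.lf (nat_lit 0) (nat_lit 27891179964) (nat_lit 152) (nat_lit 378892115398) (nat_lit 76) (nat_lit 775891705605) (nat_lit 3) (nat_lit 5) (nat_lit 5) (nat_lit 5) (nat_lit 4) (nat_lit 4) (nat_lit 326) (nat_lit 281) (nat_lit 113)) (XT.lf (nat_lit 0) (nat_lit 100437525210) (nat_lit 152) (nat_lit 227995795785) (nat_lit 76) (nat_lit 940351033285) (nat_lit 3) (nat_lit 5) (nat_lit 5) (nat_lit 5) (nat_lit 4) (nat_lit 4) (nat_lit 327) (nat_lit 281) (nat_lit 112))))))) (XT.nd (nat_lit 34788) (nat_lit 0) (nat_lit 760) (XT.nd (nat_lit 34320) (nat_lit 0) (nat_lit 1748) (XT.nd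 (nat_lit 34086) (nat_lit 0) (nat_lit 2052) (XT.nd (nat_lit 33930) (nat_lit 0) (nat_lit 1976) (XT.lf (nat_lit 0) (nat_lit 178787542256) (nat_lit 152) (nat_lit 65027833014) (nat_lit 76) (nat_lit 1117967083553) (nat_lit 3) (nat_lit 5) (nat_lit 5) (nat_lit 5) (nat_lit 4) (nat_lit 4) (nat_lit 328) (nat_lit 281) (nat_lit 111)) (XT.nd (nat_lit 78) (nat_lit 0) (nat_lit 0) (XT.lf (nat_lit 0) (nat_lit 9081987656) (nat_lit 532) (nat_lit 21538583654) (nat_lit 532) (nat_lit 21538583654) (nat_lit 29) (nat_lit 3) (nat_lit 36) (nat_lit 3) (nat_lit 36) (nat_lit 5) (nat_lit 282) (nat_lit 282) (nat_lit 156)) (XT.lf (nat_lit 0) (nat_lit 18895789393) (nat_lit 532) (nat_lit 789168698) (nat_lit 532) (nat_lit 88805626441) (nat_lit 29) (nat_lit 3) (nat_lit 36) (nat_lit 3) (nat_lit 36) (nat_lit 5) (nat_lit 283) (nat_lit 282) (nat_lit 155)))) (XT.nd (nat_lit 78) (nat_lit 0) (nat_lit 0) (XT.lf (nat_lit 0) (nat_lit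 21457341741) (nat_lit 456) (nat_lit 66296295063) (nat_lit 532) (nat_lit 25101312586) (nat_lit 30) (nat_lit 5) (nat_lit 36) (nat_lit 5) (nat_lit 37) (nat_lit 5) (nat_lit 284) (nat_lit 282) (nat_lit 154)) (XT.nd (nat_lit 78) (nat_lit 0) (nat_lit 76) (XT.lf (nat_lit 0) (nat_lit 24756765266) (nat_lit 456) (nat_lit 20339738058) (nat_lit 532) (nat_lit 72429327818) (nat_lit 30) (nat_lit 5) (nat_lit 36) (nat_lit 5) (nat_lit 37) (nat_lit 5) (nat_lit 285) (nat_lit 282) (nat_lit 153)) (XT.lf (nat_lit 0) (nat_lit 29103957816) (nat_lit 456) (nat_lit 91718205802) (nat_lit 532) (nat_lit 1685517812) (nat_lit 31) (nat_lit 5) (nat_lit 37) (nat_lit 5) (nat_lit 38) (nat_lit 5) (nat_lit 286) (nat_lit 282) (nat_lit 152))))) (XT.nd (nat_lit 234) (nat_lit 380) (nat_lit 0) (XT.nd (nat_lit 78) (nat_lit 0) (nat_lit 0) (XT.lf (nat_lit 0) (nat_lit 35540410178) (nat_lit 456) (nat_lit 41863941972) (nat_lit 532)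 (nat_lit 50344411808) (nat_lit 31) (nat_lit 5) (nat_lit 37) (nat_lit 5) (nat_lit 38) (nat_lit 5) (nat_lit 287) (nat_lit 282) (nat_lit 151)) (XT.nd (nat_lit 78) (nat_lit 0) (nat_lit 76) (XT.lf (nat_lit 76) (nat_lit 12609111620) (nat_lit 0) (nat_lit 30185525235) (nat_lit 532) (nat_lit 90590270333) (nat_lit 32) (nat_lit 5) (nat_lit 31) (nat_lit 5) (nat_lit 38) (nat_lit 5) (nat_lit 288) (nat_lit 282) (nat_lit 150)) (XT.lf (nat_lit 0) (nat_lit 52303699243) (nat_lit 456) (nat_lit 66090089396) (nat_lit 76) (nat_lit 20944195977) (nat_lit 32) (nat_lit 5) (nat_lit 38) (nat_lit 5) (nat_lit 33) (nat_lit 5) (nat_lit 289) (nat_lit 282) (nat_lit 149)))) (XT.nd (nat_lit 78) (nat_lit 456) (nat_lit 0) (XT.lf (nat_lit 0) (nat_lit 63357185517) (nat_lit 456) (nat_lit 7813877505) (nat_lit 76) (nat_lit 74533551662) (nat_lit 32) (nat_lit 5) (nat_lit 38) (nat_lit 5) (nat_lit 33) (nat_lit 5) (nat_lit 290)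 (nat_lit 282) (nat_lit 148)) (XT.nd (nat_lit 78) (nat_lit 0) (nat_lit 0) (XT.lf (nat_lit 0) (nat_lit 58026882920) (nat_lit 456) (nat_lit 18663300221) (nat_lit 532) (nat_lit 75778775603) (nat_lit 26) (nat_lit 5) (nat_lit 32) (nat_lit 5) (nat_lit 33) (nat_lit 5) (nat_lit 291) (nat_lit 282) (nat_lit 147)) (XT.lf (nat_lit 0) (nat_lit 92223701805) (nat_lit 532) (nat_lit 31098913977) (nat_lit 76) (nat_lit 36361126071) (nat_lit 26) (nat_lit 5) (nat_lit 33) (nat_lit 5) (nat_lit 27) (nat_lit 5) (nat_lit 292) (nat_lit 282) (nat_lit 146)))))) (XT.nd (nat_lit 468) (nat_lit 304) (nat_lit 0) (XT.nd (nat_lit 234) (nat_lit 304) (nat_lit 0) (XT.nd (nat_lit 78) (nat_lit 152) (nat_lit 0) (XT.lf (nat_lit 0) (nat_lit 38765881755) (nat_lit 228) (nat_lit 71650825313) (nat_lit 304) (nat_lit 56945658004) (nat_lit 23) (nat_lit 5) (nat_lit 26) (nat_lit 5) (nat_lit 27) (nat_lit 5) (nat_lit 293) (nat_lit 282)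 (nat_lit 145)) (XT.nd (nat_lit 78) (nat_lit 152) (nat_lit 0) (XT.lf (nat_lit 0) (nat_lit 115988206715) (nat_lit 228) (nat_lit 14926982932) (nat_lit 304) (nat_lit 44672087283) (nat_lit 23) (nat_lit 5) (nat_lit 26) (nat_lit 5) (nat_lit 27) (nat_lit 5) (nat_lit 294) (nat_lit 282) (nat_lit 144)) (XT.lf (nat_lit 0) (nat_lit 14530374439) (nat_lit 152) (nat_lit 139986741099) (nat_lit 228) (nat_lit 29835982627) (nat_lit 21) (nat_lit 5) (nat_lit 23) (nat_lit 5) (nat_lit 24) (nat_lit 5) (nat_lit 295) (nat_lit 282) (nat_lit 143)))) (XT.nd (nat_lit 78) (nat_lit 304) (nat_lit 0) (XT.lf (nat_lit 0) (nat_lit 97571226043) (nat_lit 152) (nat_lit 84443180079) (nat_lit 228) (nat_lit 11645203612) (nat_lit 21) (nat_lit 5) (nat_lit 23) (nat_lit 5) (nat_lit 24) (nat_lit 5) (nat_lit 296) (nat_lit 282) (nat_lit 142)) (XT.nd (nat_lit 78) (nat_lit 228) (nat_lit 0) (XT.lf (nat_lit 0) (nat_lit 7600381830) (nat_lit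 228) (nat_lit 16647980098) (nat_lit 76) (nat_lit 179446905675) (nat_lit 20) (nat_lit 5) (nat_lit 23) (nat_lit 5) (nat_lit 21) (nat_lit 5) (nat_lit 297) (nat_lit 282) (nat_lit 141)) (XT.lf (nat_lit 0) (nat_lit 30532629297) (nat_lit 304) (nat_lit 142933427403) (nat_lit 76) (nat_lit 40821432062) (nat_lit 17) (nat_lit 5) (nat_lit 21) (nat_lit 5) (nat_lit 18) (nat_lit 5) (nat_lit 298) (nat_lit 282) (nat_lit 140))))) (XT.nd (nat_lit 234) (nat_lit 152) (nat_lit 0) (XT.nd (nat_lit 78) (nat_lit 152) (nat_lit 0) (XT.lf (nat_lit 0) (nat_lit 56396095718) (nat_lit 304) (nat_lit 58989525221) (nat_lit 76) (nat_lit 110253736633) (nat_lit 17) (nat_lit 5) (nat_lit 21) (nat_lit 5) (nat_lit 18) (nat_lit 5) (nat_lit 299) (nat_lit 282) (nat_lit 139)) (XT.nd (nat_lit 78) (nat_lit 0) (nat_lit 0) (XT.lf (nat_lit 0) (nat_lit 33337322420) (nat_lit 152) (nat_lit 51792898311) (nat_lit 228) (nat_lit 152705029666)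 (nat_lit 15) (nat_lit 5) (nat_lit 17) (nat_lit 5) (nat_lit 18) (nat_lit 5) (nat_lit 300) (nat_lit 282) (nat_lit 138)) (XT.lf (nat_lit 0) (nat_lit 118223809975) (nat_lit 228) (nat_lit 114920953686) (nat_lit 76) (nat_lit 17697193184) (nat_lit 15) (nat_lit 5) (nat_lit 18) (nat_lit 5) (nat_lit 16) (nat_lit 5) (nat_lit 301) (nat_lit 282) (nat_lit 137)))) (XT.nd (nat_lit 78) (nat_lit 152) (nat_lit 0) (XT.lf (nat_lit 0) (nat_lit 155309993993) (nat_lit 228) (nat_lit 19523315811) (nat_lit 76) (nat_lit 89948282261) (nat_lit 15) (nat_lit 5) (nat_lit 18) (nat_lit 5) (nat_lit 16) (nat_lit 5) (nat_lit 302) (nat_lit 282) (nat_lit 136)) (XT.nd (nat_lit 78) (nat_lit 0) (nat_lit 0) (XT.lf (nat_lit 0) (nat_lit 87903199481) (nat_lit 152) (nat_lit 109573796895) (nat_lit 228) (nat_lit 82190288638) (nat_lit 13) (nat_lit 5) (nat_lit 15) (nat_lit 5) (nat_lit 16) (nat_lit 5) (nat_lit 303) (nat_lit 282) (nat_lit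 135)) (XT.lf (nat_lit 0) (nat_lit 205033941863) (nat_lit 152) (nat_lit 38517074996) (nat_lit 228) (nat_lit 52150124651) (nat_lit 13) (nat_lit 5) (nat_lit 15) (nat_lit 5) (nat_lit 16) (nat_lit 5) (nat_lit 304) (nat_lit 282) (nat_lit 134))))))))
noncomputable def xc114 : XT := (XT.nd (nat_lit 35802) (nat_lit 0) (nat_lit 684) (XT.nd (nat_lit 858) (nat_lit 228) (nat_lit 0) (XT.nd (nat_lit 390) (nat_lit 228) (nat_lit 0) (XT.nd (nat_lit 156) (nat_lit 152) (nat_lit 0) (XT.nd (nat_lit 78) (nat_lit 76) (nat_lit 0) (XT.lf (nat_lit 0) (nat_lit 18524623778) (nat_lit 76) (nat_lit 276151010646) (nat_lit 152) (nat_lit 18232898753) (nat_lit 12) (nat_lit 5) (nat_lit 13) (nat_lit 5) (nat_lit 14) (nat_lit 4) (nat_lit 305) (nat_lit 282) (nat_lit 133)) (XT.lf (nat_lit 0) (nat_lit 21021079194) (nat_lit 152) (nat_lit 191193577477) (nat_lit 76) (nat_lit 118958966741) (nat_lit 11) (nat_lit 5) (nat_lit 13)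 (nat_lit 5) (nat_lit 12) (nat_lit 5) (nat_lit 306) (nat_lit 282) (nat_lit 132))) (XT.nd (nat_lit 78) (nat_lit 152) (nat_lit 0) (XT.lf (nat_lit 0) (nat_lit 62430201766) (nat_lit 152) (nat_lit 80221786056) (nat_lit 76) (nat_lit 208210056925) (nat_lit 11) (nat_lit 5) (nat_lit 13) (nat_lit 5) (nat_lit 12) (nat_lit 5) (nat_lit 307) (nat_lit 282) (nat_lit 131)) (XT.nd (nat_lit 78) (nat_lit 0) (nat_lit 0) (XT.lf (nat_lit 0) (nat_lit 41714295116) (nat_lit 152) (nat_lit 66440874480) (nat_lit 228) (nat_lit 263890121465) (nat_lit 9) (nat_lit 5) (nat_lit 11) (nat_lit 5) (nat_lit 12) (nat_lit 5) (nat_lit 308) (nat_lit 282) (nat_lit 130)) (XT.lf (nat_lit 0) (nat_lit 160170005757) (nat_lit 228) (nat_lit 217218929250) (nat_lit 76) (nat_lit 17323712867) (nat_lit 9) (nat_lit 5) (nat_lit 12) (nat_lit 5) (nat_lit 10) (nat_lit 4) (nat_lit 309) (nat_lit 282) (nat_lit 129))))) (XT.nd (nat_lit 234) (nat_lit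 152) (nat_lit 0) (XT.nd (nat_lit 78) (nat_lit 76) (nat_lit 0) (XT.lf (nat_lit 0) (nat_lit 218071662775) (nat_lit 228) (nat_lit 96783796336) (nat_lit 76) (nat_lit 104199883838) (nat_lit 9) (nat_lit 5) (nat_lit 12) (nat_lit 5) (nat_lit 10) (nat_lit 4) (nat_lit 310) (nat_lit 282) (nat_lit 128)) (XT.nd (nat_lit 78) (nat_lit 0) (nat_lit 0) (XT.lf (nat_lit 0) (nat_lit 35038778722) (nat_lit 76) (nat_lit 246409261700) (nat_lit 152) (nat_lit 163830006564) (nat_lit 8) (nat_lit 5) (nat_lit 9) (nat_lit 5) (nat_lit 10) (nat_lit 4) (nat_lit 311) (nat_lit 282) (nat_lit 127)) (XT.lf (nat_lit 0) (nat_lit 182911193734) (nat_lit 76) (nat_lit 169629483200) (nat_lit 152) (nat_lit 120846198892) (nat_lit 8) (nat_lit 5) (nat_lit 9) (nat_lit 5) (nat_lit 10) (nat_lit 4) (nat_lit 312) (nat_lit 282) (nat_lit 126)))) (XT.nd (nat_lit 78) (nat_lit 152) (nat_lit 0) (XT.lf (nat_lit 0) (nat_lit 342613266476) (nat_lit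 76) (nat_lit 86707372840) (nat_lit 152) (nat_lit 74423778805) (nat_lit 8) (nat_lit 5) (nat_lit 9) (nat_lit 5) (nat_lit 10) (nat_lit 4) (nat_lit 313) (nat_lit 282) (nat_lit 125)) (XT.nd (nat_lit 78) (nat_lit 152) (nat_lit 0) (XT.lf (nat_lit 0) (nat_lit 512311425461) (nat_lit 152) (nat_lit 21507696341) (nat_lit 0) (nat_lit 2705968175) (nat_lit 8) (nat_lit 5) (nat_lit 10) (nat_lit 4) (nat_lit 8) (nat_lit 4) (nat_lit 314) (nat_lit 282) (nat_lit 124)) (XT.lf (nat_lit 0) (nat_lit 34122002848) (nat_lit 152) (nat_lit 438631889034) (nat_lit 76) (nat_lit 98667768108) (nat_lit 6) (nat_lit 5) (nat_lit 8) (nat_lit 5) (nat_lit 7) (nat_lit 4) (nat_lit 315) (nat_lit 282) (nat_lit 123)))))) (XT.nd (nat_lit 468) (nat_lit 152) (nat_lit 0) (XT.nd (nat_lit 234) (nat_lit 76) (nat_lit 0) (XT.nd (nat_lit 78) (nat_lit 0) (nat_lit 0) (XT.lf (nat_lit 0) (nat_lit 96419616141) (nat_lit 152) (nat_lit 309053036417)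 (nat_lit 76) (nat_lit 203538728445) (nat_lit 6) (nat_lit 5) (nat_lit 8) (nat_lit 5) (nat_lit 7) (nat_lit 4) (nat_lit 316) (nat_lit 282) (nat_lit 122)) (XT.nd (nat_lit 78) (nat_lit 0) (nat_lit 0) (XT.lf (nat_lit 0) (nat_lit 163700970504) (nat_lit 152) (nat_lit 169107988816) (nat_lit 76) (nat_lit 316799326049) (nat_lit 6) (nat_lit 5) (nat_lit 8) (nat_lit 5) (nat_lit 7) (nat_lit 4) (nat_lit 317) (nat_lit 282) (nat_lit 121)) (XT.lf (nat_lit 0) (nat_lit 236364770259) (nat_lit 152) (nat_lit 17967442245) (nat_lit 76) (nat_lit 439120734834) (nat_lit 6) (nat_lit 5) (nat_lit 8) (nat_lit 5) (nat_lit 7) (nat_lit 4) (nat_lit 318) (nat_lit 282) (nat_lit 120)))) (XT.nd (nat_lit 78) (nat_lit 0) (nat_lit 0) (XT.lf (nat_lit 0) (nat_lit 152913609004) (nat_lit 76) (nat_lit 165605582671) (nat_lit 152) (nat_lit 421991789377) (nat_lit 5) (nat_lit 5) (nat_lit 6) (nat_lit 5) (nat_lit 7) (nat_lit 4) (nat_lit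 319) (nat_lit 282) (nat_lit 119)) (XT.nd (nat_lit 78) (nat_lit 0) (nat_lit 0) (XT.lf (nat_lit 0) (nat_lit 338486874100) (nat_lit 76) (nat_lit 69250298166) (nat_lit 152) (nat_lit 383557188945) (nat_lit 5) (nat_lit 5) (nat_lit 6) (nat_lit 5) (nat_lit 7) (nat_lit 4) (nat_lit 320) (nat_lit 282) (nat_lit 118)) (XT.lf (nat_lit 0) (nat_lit 504929801693) (nat_lit 152) (nat_lit 308071765798) (nat_lit 0) (nat_lit 33071867634) (nat_lit 5) (nat_lit 5) (nat_lit 7) (nat_lit 4) (nat_lit 5) (nat_lit 4) (nat_lit 321) (nat_lit 282) (nat_lit 117))))) (XT.nd (nat_lit 234) (nat_lit 76) (nat_lit 0) (XT.nd (nat_lit 78) (nat_lit 76) (nat_lit 0) (XT.lf (nat_lit 0) (nat_lit 611696501499) (nat_lit 152) (nat_lit 153555980165) (nat_lit 0) (nat_lit 139838460644) (nat_lit 5) (nat_lit 5) (nat_lit 7) (nat_lit 4) (nat_lit 5) (nat_lit 4) (nat_lit 322) (nat_lit 282) (nat_lit 116)) (XT.nd (nat_lit 78) (nat_lit 0) (nat_lit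 0) (XT.lf (nat_lit 0) (nat_lit 14022449960) (nat_lit 76) (nat_lit 713319282203) (nat_lit 76) (nat_lit 241461142462) (nat_lit 4) (nat_lit 4) (nat_lit 5) (nat_lit 5) (nat_lit 5) (nat_lit 4) (nat_lit 323) (nat_lit 282) (nat_lit 115)) (XT.lf (nat_lit 0) (nat_lit 203739943031) (nat_lit 76) (nat_lit 652697087017) (nat_lit 76) (nat_lit 180838855714) (nat_lit 4) (nat_lit 4) (nat_lit 5) (nat_lit 5) (nat_lit 5) (nat_lit 4) (nat_lit 324) (nat_lit 282) (nat_lit 114)))) (XT.nd (nat_lit 78) (nat_lit 76) (nat_lit 0) (XT.lf (nat_lit 0) (nat_lit 408634765068) (nat_lit 76) (nat_lit 587225146089) (nat_lit 76) (nat_lit 115366830007) (nat_lit 4) (nat_lit 4) (nat_lit 5) (nat_lit 5) (nat_lit 5) (nat_lit 4) (nat_lit 325) (nat_lit 282) (nat_lit 113)) (XT.nd (nat_lit 78) (nat_lit 76) (nat_lit 0) (XT.lf (nat_lit 0) (nat_lit 629921107608) (nat_lit 76) (nat_lit 516515477549) (nat_lit 76) (nat_lit 44657082968)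 (nat_lit 4) (nat_lit 4) (nat_lit 5) (nat_lit 5) (nat_lit 5) (nat_lit 4) (nat_lit 326) (nat_lit 282) (nat_lit 112)) (XT.lf (nat_lit 0) (nat_lit 30123173208) (nat_lit 152) (nat_lit 409202266990) (nat_lit 76) (nat_lit 837963502978) (nat_lit 3) (nat_lit 5) (nat_lit 5) (nat_lit 5) (nat_lit 4) (nat_lit 4) (nat_lit 327) (nat_lit 282) (nat_lit 111))))))) (XT.nd (nat_lit 936) (nat_lit 836) (nat_lit 0) (XT.nd (nat_lit 468) (nat_lit 456) (nat_lit 0) (XT.nd (nat_lit 234) (nat_lit 0) (nat_lit 76) (XT.nd (nat_lit 78) (nat_lit 0) (nat_lit 0) (XT.lf (nat_lit 0) (nat_lit 9813675352) (nat_lit 532) (nat_lit 23258882612) (nat_lit 532) (nat_lit 23258882612) (nat_lit 29) (nat_lit 3) (nat_lit 36) (nat_lit 3) (nat_lit 36) (nat_lit 5) (nat_lit 283) (nat_lit 283) (nat_lit 154)) (XT.nd (nat_lit 78) (nat_lit 0) (nat_lit 76) (XT.lf (nat_lit 0) (nat_lit 20416950106) (nat_lit 532) (nat_lit 847139722) (nat_lit 532)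 (nat_lit 95904914085) (nat_lit 29) (nat_lit 3) (nat_lit 36) (nat_lit 3) (nat_lit 36) (nat_lit 5) (nat_lit 284) (nat_lit 283) (nat_lit 153)) (XT.lf (nat_lit 0) (nat_lit 23182750740) (nat_lit 456) (nat_lit 71594097723) (nat_lit 532) (nat_lit 27105728574) (nat_lit 30) (nat_lit 5) (nat_lit 36) (nat_lit 5) (nat_lit 37) (nat_lit 5) (nat_lit 285) (nat_lit 283) (nat_lit 152)))) (XT.nd (nat_lit 78) (nat_lit 0) (nat_lit 76) (XT.lf (nat_lit 0) (nat_lit 26745474691) (nat_lit 456) (nat_lit 21961453265) (nat_lit 532) (nat_lit 78220258285) (nat_lit 30) (nat_lit 5) (nat_lit 36) (nat_lit 5) (nat_lit 37) (nat_lit 5) (nat_lit 286) (nat_lit 283) (nat_lit 151)) (XT.nd (nat_lit 78) (nat_lit 0) (nat_lit 0) (XT.lf (nat_lit 0) (nat_lit 31439908776) (nat_lit 456) (nat_lit 99049610915) (nat_lit 532) (nat_lit 1818111863) (nat_lit 31) (nat_lit 5) (nat_lit 37) (nat_lit 5) (nat_lit 38) (nat_lit 5) (nat_lit 287)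 (nat_lit 283) (nat_lit 150)) (XT.lf (nat_lit 0) (nat_lit 38390711821) (nat_lit 456) (nat_lit 45207454227) (nat_lit 532) (nat_lit 54369883850) (nat_lit 31) (nat_lit 5) (nat_lit 37) (nat_lit 5) (nat_lit 38) (nat_lit 5) (nat_lit 288) (nat_lit 283) (nat_lit 149))))) (XT.nd (nat_lit 234) (nat_lit 608) (nat_lit 0) (XT.nd (nat_lit 78) (nat_lit 0) (nat_lit 76) (XT.lf (nat_lit 76) (nat_lit 13623301802) (nat_lit 0) (nat_lit 32601582556) (nat_lit 532) (nat_lit 97830235289) (nat_lit 32) (nat_lit 5) (nat_lit 31) (nat_lit 5) (nat_lit 38) (nat_lit 5) (nat_lit 289) (nat_lit 283) (nat_lit 148)) (XT.nd (nat_lit 78) (nat_lit 0) (nat_lit 0) (XT.lf (nat_lit 0) (nat_lit 56494150114) (nat_lit 456) (nat_lit 71371675625) (nat_lit 76) (nat_lit 22618662667) (nat_lit 32) (nat_lit 5) (nat_lit 38) (nat_lit 5) (nat_lit 33) (nat_lit 5) (nat_lit 290) (nat_lit 283) (nat_lit 147)) (XT.lf (nat_lit 0) (nat_lit 68431459370)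 (nat_lit 456) (nat_lit 8433783147) (nat_lit 76) (nat_lit 80495245990) (nat_lit 32) (nat_lit 5) (nat_lit 38) (nat_lit 5) (nat_lit 33) (nat_lit 5) (nat_lit 291) (nat_lit 283) (nat_lit 146)))) (XT.nd (nat_lit 78) (nat_lit 228) (nat_lit 0) (XT.lf (nat_lit 0) (nat_lit 62674106351) (nat_lit 456) (nat_lit 20156690305) (nat_lit 532) (nat_lit 81835210370) (nat_lit 26) (nat_lit 5) (nat_lit 32) (nat_lit 5) (nat_lit 33) (nat_lit 5) (nat_lit 292) (nat_lit 283) (nat_lit 145)) (XT.nd (nat_lit 78) (nat_lit 228) (nat_lit 0) (XT.lf (nat_lit 0) (nat_lit 99606589636) (nat_lit 532) (nat_lit 33581689079) (nat_lit 76) (nat_lit 39269729347) (nat_lit 26) (nat_lit 5) (nat_lit 33) (nat_lit 5) (nat_lit 27) (nat_lit 5) (nat_lit 293) (nat_lit 283) (nat_lit 144)) (XT.lf (nat_lit 0) (nat_lit 41872160236) (nat_lit 228) (nat_lit 77382625770) (nat_lit 304) (nat_lit 61496157581) (nat_lit 23) (nat_lit 5) (nat_lit 26)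 (nat_lit 5) (nat_lit 27) (nat_lit 5) (nat_lit 294) (nat_lit 283) (nat_lit 143)))))) (XT.nd (nat_lit 468) (nat_lit 380) (nat_lit 0) (XT.nd (nat_lit 234) (nat_lit 304) (nat_lit 0) (XT.nd (nat_lit 78) (nat_lit 152) (nat_lit 0) (XT.lf (nat_lit 0) (nat_lit 125271900233) (nat_lit 228) (nat_lit 16120895671) (nat_lit 304) (nat_lit 48241082910) (nat_lit 23) (nat_lit 5) (nat_lit 26) (nat_lit 5) (nat_lit 27) (nat_lit 5) (nat_lit 295) (nat_lit 283) (nat_lit 142)) (XT.nd (nat_lit 78) (nat_lit 0) (nat_lit 0) (XT.lf (nat_lit 0) (nat_lit 15697688862) (nat_lit 152) (nat_lit 151184984687) (nat_lit 228) (nat_lit 32218310532) (nat_lit 21) (nat_lit 5) (nat_lit 23) (nat_lit 5) (nat_lit 24) (nat_lit 5) (nat_lit 296) (nat_lit 283) (nat_lit 141)) (XT.lf (nat_lit 0) (nat_lit 105381446782) (nat_lit 152) (nat_lit 91197990318) (nat_lit 228) (nat_lit 12572606286) (nat_lit 21) (nat_lit 5) (nat_lit 23) (nat_lit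 5) (nat_lit 24) (nat_lit 5) (nat_lit 297) (nat_lit 283) (nat_lit 140)))) (XT.nd (nat_lit 78) (nat_lit 228) (nat_lit 0) (XT.lf (nat_lit 0) (nat_lit 8212118704) (nat_lit 228) (nat_lit 17975414390) (nat_lit 76) (nat_lit 193803038108) (nat_lit 20) (nat_lit 5) (nat_lit 23) (nat_lit 5) (nat_lit 21) (nat_lit 5) (nat_lit 298) (nat_lit 283) (nat_lit 139)) (XT.nd (nat_lit 78) (nat_lit 0) (nat_lit 0) (XT.lf (nat_lit 0) (nat_lit 32978792883) (nat_lit 304) (nat_lit 154363524670) (nat_lit 76) (nat_lit 44087866326) (nat_lit 17) (nat_lit 5) (nat_lit 21) (nat_lit 5) (nat_lit 18) (nat_lit 5) (nat_lit 299) (nat_lit 283) (nat_lit 138)) (XT.lf (nat_lit 0) (nat_lit 60911073415) (nat_lit 304) (nat_lit 63704449345) (nat_lit 76) (nat_lit 119074701952) (nat_lit 17) (nat_lit 5) (nat_lit 21) (nat_lit 5) (nat_lit 18) (nat_lit 5) (nat_lit 300) (nat_lit 283) (nat_lit 137))))) (XT.nd (nat_lit 234) (nat_lit 228)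 (nat_lit 0) (XT.nd (nat_lit 78) (nat_lit 0) (nat_lit 0) (XT.lf (nat_lit 0) (nat_lit 36008438820) (nat_lit 152) (nat_lit 55935345244) (nat_lit 228) (nat_lit 164918017800) (nat_lit 15) (nat_lit 5) (nat_lit 17) (nat_lit 5) (nat_lit 18) (nat_lit 5) (nat_lit 301) (nat_lit 283) (nat_lit 136)) (XT.nd (nat_lit 78) (nat_lit 0) (nat_lit 0) (XT.lf (nat_lit 0) (nat_lit 127684649367) (nat_lit 228) (nat_lit 124110578608) (nat_lit 76) (nat_lit 19113834992) (nat_lit 15) (nat_lit 5) (nat_lit 18) (nat_lit 5) (nat_lit 16) (nat_lit 5) (nat_lit 302) (nat_lit 283) (nat_lit 135)) (XT.lf (nat_lit 0) (nat_lit 167737510729) (nat_lit 228) (nat_lit 21081429805) (nat_lit 76) (nat_lit 97144947021) (nat_lit 15) (nat_lit 5) (nat_lit 18) (nat_lit 5) (nat_lit 16) (nat_lit 5) (nat_lit 303) (nat_lit 283) (nat_lit 134)))) (XT.nd (nat_lit 78) (nat_lit 76) (nat_lit 0) (XT.lf (nat_lit 0) (nat_lit 94939111742) (nat_lit 152)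 (nat_lit 118338648220) (nat_lit 228) (nat_lit 88762686120) (nat_lit 13) (nat_lit 5) (nat_lit 15) (nat_lit 5) (nat_lit 16) (nat_lit 5) (nat_lit 304) (nat_lit 283) (nat_lit 133)) (XT.nd (nat_lit 78) (nat_lit 76) (nat_lit 0) (XT.lf (nat_lit 0) (nat_lit 221440042678) (nat_lit 152) (nat_lit 41597466526) (nat_lit 228) (nat_lit 56319518317) (nat_lit 13) (nat_lit 5) (nat_lit 15) (nat_lit 5) (nat_lit 16) (nat_lit 5) (nat_lit 305) (nat_lit 283) (nat_lit 132)) (XT.lf (nat_lit 0) (nat_lit 20010070707) (nat_lit 76) (nat_lit 298241952197) (nat_lit 152) (nat_lit 19688994400) (nat_lit 12) (nat_lit 5) (nat_lit 13) (nat_lit 5) (nat_lit 14) (nat_lit 4) (nat_lit 306) (nat_lit 283) (nat_lit 131))))))))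
noncomputable def xc115 : XT := (XT.nd (nat_lit 35958) (nat_lit 0) (nat_lit 380) (XT.nd (nat_lit 936) (nat_lit 152) (nat_lit 0) (XT.nd (nat_lit 468) (nat_lit 152) (nat_lit 0) (XT.nd (nat_lit 234) (nat_lit 76) (nat_lit 0) (XT.nd (nat_lit 78) (nat_lit 152) (nat_lit 0) (XT.lf (nat_lit 0) (nat_lit 22704996437) (nat_lit 152) (nat_lit 206485716862) (nat_lit 76) (nat_lit 128476611645) (nat_lit 11) (nat_lit 5) (nat_lit 13) (nat_lit 5) (nat_lit 12) (nat_lit 5) (nat_lit 307) (nat_lit 283) (nat_lit 130)) (XT.nd (nat_lit 78) (nat_lit 152) (nat_lit 0) (XT.lf (nat_lit 0) (nat_lit 67426683562) (nat_lit 152) (nat_lit 86636430040) (nat_lit 76) (nat_lit 224867720336) (nat_lit 11) (nat_lit 5) (nat_lit 13) (nat_lit 5) (nat_lit 12) (nat_lit 5) (nat_lit 308) (nat_lit 283) (nat_lit 129)) (XT.lf (nat_lit 0) (nat_lit 45054459172) (nat_lit 152) (nat_lit 71755109276) (nat_lit 228) (nat_lit 284999178614) (nat_lit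 9) (nat_lit 5) (nat_lit 11) (nat_lit 5) (nat_lit 12) (nat_lit 5) (nat_lit 309) (nat_lit 283) (nat_lit 128)))) (XT.nd (nat_lit 78) (nat_lit 76) (nat_lit 0) (XT.lf (nat_lit 0) (nat_lit 172985467496) (nat_lit 228) (nat_lit 234593515040) (nat_lit 76) (nat_lit 18710520432) (nat_lit 9) (nat_lit 5) (nat_lit 12) (nat_lit 5) (nat_lit 10) (nat_lit 4) (nat_lit 310) (nat_lit 283) (nat_lit 127)) (XT.nd (nat_lit 78) (nat_lit 76) (nat_lit 0) (XT.lf (nat_lit 0) (nat_lit 235519119204) (nat_lit 228) (nat_lit 104523788422) (nat_lit 76) (nat_lit 112536717634) (nat_lit 9) (nat_lit 5) (nat_lit 12) (nat_lit 5) (nat_lit 10) (nat_lit 4) (nat_lit 311) (nat_lit 283) (nat_lit 126)) (XT.lf (nat_lit 0) (nat_lit 37844523992) (nat_lit 76) (nat_lit 266121018974) (nat_lit 152) (nat_lit 176934608319) (nat_lit 8) (nat_lit 5) (nat_lit 9) (nat_lit 5) (nat_lit 10) (nat_lit 4) (nat_lit 312) (nat_lit 283) (nat_lit 125)))))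 (XT.nd (nat_lit 234) (nat_lit 152) (nat_lit 0) (XT.nd (nat_lit 78) (nat_lit 0) (nat_lit 0) (XT.lf (nat_lit 0) (nat_lit 197546536428) (nat_lit 76) (nat_lit 183198931059) (nat_lit 152) (nat_lit 130512229275) (nat_lit 8) (nat_lit 5) (nat_lit 9) (nat_lit 5) (nat_lit 10) (nat_lit 4) (nat_lit 313) (nat_lit 283) (nat_lit 124)) (XT.nd (nat_lit 78) (nat_lit 0) (nat_lit 0) (XT.lf (nat_lit 0) (nat_lit 370024593716) (nat_lit 76) (nat_lit 93643119336) (nat_lit 152) (nat_lit 80376138954) (nat_lit 8) (nat_lit 5) (nat_lit 9) (nat_lit 5) (nat_lit 10) (nat_lit 4) (nat_lit 314) (nat_lit 283) (nat_lit 123)) (XT.lf (nat_lit 0) (nat_lit 553297675492) (nat_lit 152) (nat_lit 23226122044) (nat_lit 0) (nat_lit 2923187429) (nat_lit 8) (nat_lit 5) (nat_lit 10) (nat_lit 4) (nat_lit 8) (nat_lit 4) (nat_lit 315) (nat_lit 283) (nat_lit 122)))) (XT.nd (nat_lit 78) (nat_lit 0) (nat_lit 0) (XT.lf (nat_lit 0) (nat_lit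 36853089597) (nat_lit 152) (nat_lit 473720231173) (nat_lit 76) (nat_lit 106561961328) (nat_lit 6) (nat_lit 5) (nat_lit 8) (nat_lit 5) (nat_lit 7) (nat_lit 4) (nat_lit 316) (nat_lit 283) (nat_lit 121)) (XT.nd (nat_lit 78) (nat_lit 0) (nat_lit 0) (XT.lf (nat_lit 0) (nat_lit 104134413692) (nat_lit 152) (nat_lit 333775233975) (nat_lit 76) (nat_lit 219822541323) (nat_lit 6) (nat_lit 5) (nat_lit 8) (nat_lit 5) (nat_lit 7) (nat_lit 4) (nat_lit 317) (nat_lit 283) (nat_lit 120)) (XT.lf (nat_lit 0) (nat_lit 176798185422) (nat_lit 152) (nat_lit 182634734074) (nat_lit 76) (nat_lit 342143933803) (nat_lit 6) (nat_lit 5) (nat_lit 8) (nat_lit 5) (nat_lit 7) (nat_lit 4) (nat_lit 318) (nat_lit 283) (nat_lit 119)))))) (XT.nd (nat_lit 468) (nat_lit 0) (nat_lit 0) (XT.nd (nat_lit 234) (nat_lit 76) (nat_lit 0) (XT.nd (nat_lit 78) (nat_lit 76) (nat_lit 0) (XT.lf (nat_lit 0) (nat_lit 255275004914) (nat_lit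 152) (nat_lit 19403084062) (nat_lit 76) (nat_lit 474251006278) (nat_lit 6) (nat_lit 5) (nat_lit 8) (nat_lit 5) (nat_lit 7) (nat_lit 4) (nat_lit 319) (nat_lit 283) (nat_lit 118)) (XT.nd (nat_lit 78) (nat_lit 0) (nat_lit 0) (XT.lf (nat_lit 0) (nat_lit 165148406893) (nat_lit 76) (nat_lit 178853336254) (nat_lit 152) (nat_lit 455750031739) (nat_lit 5) (nat_lit 5) (nat_lit 6) (nat_lit 5) (nat_lit 7) (nat_lit 4) (nat_lit 320) (nat_lit 283) (nat_lit 117)) (XT.lf (nat_lit 0) (nat_lit 365567406592) (nat_lit 76) (nat_lit 74789680324) (nat_lit 152) (nat_lit 414240744813) (nat_lit 5) (nat_lit 5) (nat_lit 6) (nat_lit 5) (nat_lit 7) (nat_lit 4) (nat_lit 321) (nat_lit 283) (nat_lit 116)))) (XT.nd (nat_lit 78) (nat_lit 76) (nat_lit 0) (XT.lf (nat_lit 0) (nat_lit 545325071292) (nat_lit 152) (nat_lit 332715983440) (nat_lit 0) (nat_lit 35718181485) (nat_lit 5) (nat_lit 5) (nat_lit 7) (nat_lit 4) (nat_lit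 5) (nat_lit 4) (nat_lit 322) (nat_lit 283) (nat_lit 115)) (XT.nd (nat_lit 78) (nat_lit 76) (nat_lit 0) (XT.lf (nat_lit 0) (nat_lit 660633041494) (nat_lit 152) (nat_lit 165839047818) (nat_lit 0) (nat_lit 151026060125) (nat_lit 5) (nat_lit 5) (nat_lit 7) (nat_lit 4) (nat_lit 5) (nat_lit 4) (nat_lit 323) (nat_lit 283) (nat_lit 114)) (XT.lf (nat_lit 0) (nat_lit 15145621002) (nat_lit 76) (nat_lit 770384241947) (nat_lit 76) (nat_lit 260777175800) (nat_lit 4) (nat_lit 4) (nat_lit 5) (nat_lit 5) (nat_lit 5) (nat_lit 4) (nat_lit 324) (nat_lit 283) (nat_lit 113))))) (XT.nd (nat_lit 34320) (nat_lit 0) (nat_lit 1900) (XT.nd (nat_lit 78) (nat_lit 0) (nat_lit 0) (XT.lf (nat_lit 0) (nat_lit 220040411664) (nat_lit 76) (nat_lit 704912314318) (nat_lit 76) (nat_lit 195305169672) (nat_lit 4) (nat_lit 4) (nat_lit 5) (nat_lit 5) (nat_lit 5) (nat_lit 4) (nat_lit 325) (nat_lit 283) (nat_lit 112)) (XT.nd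 (nat_lit 78) (nat_lit 0) (nat_lit 0) (XT.lf (nat_lit 0) (nat_lit 441326725153) (nat_lit 76) (nat_lit 634202658091) (nat_lit 76) (nat_lit 124595440761) (nat_lit 4) (nat_lit 4) (nat_lit 5) (nat_lit 5) (nat_lit 5) (nat_lit 4) (nat_lit 326) (nat_lit 283) (nat_lit 111)) (XT.lf (nat_lit 0) (nat_lit 680315887771) (nat_lit 76) (nat_lit 557836253081) (nat_lit 76) (nat_lit 48228968451) (nat_lit 4) (nat_lit 4) (nat_lit 5) (nat_lit 5) (nat_lit 5) (nat_lit 4) (nat_lit 327) (nat_lit 283) (nat_lit 110)))) (XT.nd (nat_lit 78) (nat_lit 0) (nat_lit 0) (XT.lf (nat_lit 0) (nat_lit 10603166399) (nat_lit 532) (nat_lit 25117203188) (nat_lit 532) (nat_lit 25117203188) (nat_lit 29) (nat_lit 3) (nat_lit 36) (nat_lit 3) (nat_lit 36) (nat_lit 5) (nat_lit 284) (nat_lit 284) (nat_lit 152)) (XT.nd (nat_lit 78) (nat_lit 0) (nat_lit 76) (XT.lf (nat_lit 0) (nat_lit 22058448742) (nat_lit 532) (nat_lit 910484913) (nat_lit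 532) (nat_lit 103572881224) (nat_lit 29) (nat_lit 3) (nat_lit 36) (nat_lit 3) (nat_lit 36) (nat_lit 5) (nat_lit 285) (nat_lit 284) (nat_lit 151)) (XT.lf (nat_lit 0) (nat_lit 25044933951) (nat_lit 456) (nat_lit 77316566432) (nat_lit 532) (nat_lit 29271024121) (nat_lit 30) (nat_lit 5) (nat_lit 36) (nat_lit 5) (nat_lit 37) (nat_lit 5) (nat_lit 286) (nat_lit 284) (nat_lit 150))))))) (XT.nd (nat_lit 936) (nat_lit 912) (nat_lit 0) (XT.nd (nat_lit 468) (nat_lit 684) (nat_lit 0) (XT.nd (nat_lit 234) (nat_lit 0) (nat_lit 76) (XT.nd (nat_lit 78) (nat_lit 0) (nat_lit 76) (XT.lf (nat_lit 0) (nat_lit 28892115584) (nat_lit 456) (nat_lit 23713685166) (nat_lit 532) (nat_lit 84474950486) (nat_lit 30) (nat_lit 5) (nat_lit 36) (nat_lit 5) (nat_lit 37) (nat_lit 5) (nat_lit 287) (nat_lit 284) (nat_lit 149)) (XT.nd (nat_lit 78) (nat_lit 0) (nat_lit 0) (XT.lf (nat_lit 0) (nat_lit 33961646690) (nat_lit 456)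 (nat_lit 106968391729) (nat_lit 532) (nat_lit 1961634050) (nat_lit 31) (nat_lit 5) (nat_lit 37) (nat_lit 5) (nat_lit 38) (nat_lit 5) (nat_lit 288) (nat_lit 284) (nat_lit 148)) (XT.lf (nat_lit 0) (nat_lit 41468029147) (nat_lit 456) (nat_lit 48819246808) (nat_lit 532) (nat_lit 58717690519) (nat_lit 31) (nat_lit 5) (nat_lit 37) (nat_lit 5) (nat_lit 38) (nat_lit 5) (nat_lit 289) (nat_lit 284) (nat_lit 147)))) (XT.nd (nat_lit 78) (nat_lit 0) (nat_lit 76) (XT.lf (nat_lit 76) (nat_lit 14717848090) (nat_lit 0) (nat_lit 35210751086) (nat_lit 532) (nat_lit 105650432687) (nat_lit 32) (nat_lit 5) (nat_lit 31) (nat_lit 5) (nat_lit 38) (nat_lit 5) (nat_lit 290) (nat_lit 284) (nat_lit 146)) (XT.nd (nat_lit 78) (nat_lit 0) (nat_lit 0) (XT.lf (nat_lit 0) (nat_lit 61018958986) (nat_lit 456) (nat_lit 77076590640) (nat_lit 76) (nat_lit 24427239195) (nat_lit 32) (nat_lit 5) (nat_lit 38) (nat_lit 5) (nat_lit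 33) (nat_lit 5) (nat_lit 291) (nat_lit 284) (nat_lit 145)) (XT.lf (nat_lit 0) (nat_lit 73910862103) (nat_lit 456) (nat_lit 9104023729) (nat_lit 76) (nat_lit 86934017072) (nat_lit 32) (nat_lit 5) (nat_lit 38) (nat_lit 5) (nat_lit 33) (nat_lit 5) (nat_lit 292) (nat_lit 284) (nat_lit 144))))) (XT.nd (nat_lit 234) (nat_lit 152) (nat_lit 0) (XT.nd (nat_lit 78) (nat_lit 228) (nat_lit 0) (XT.lf (nat_lit 0) (nat_lit 67692383964) (nat_lit 456) (nat_lit 21769505079) (nat_lit 532) (nat_lit 88376996951) (nat_lit 26) (nat_lit 5) (nat_lit 32) (nat_lit 5) (nat_lit 33) (nat_lit 5) (nat_lit 293) (nat_lit 284) (nat_lit 143)) (XT.nd (nat_lit 78) (nat_lit 228) (nat_lit 0) (XT.lf (nat_lit 0) (nat_lit 107579396373) (nat_lit 532) (nat_lit 36263819184) (nat_lit 76) (nat_lit 42411061801) (nat_lit 26) (nat_lit 5) (nat_lit 33) (nat_lit 5) (nat_lit 27) (nat_lit 5) (nat_lit 294) (nat_lit 284) (nat_lit 142)) (XT.lf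 (nat_lit 0) (nat_lit 45226226556) (nat_lit 228) (nat_lit 83573008151) (nat_lit 304) (nat_lit 66411432266) (nat_lit 23) (nat_lit 5) (nat_lit 26) (nat_lit 5) (nat_lit 27) (nat_lit 5) (nat_lit 295) (nat_lit 284) (nat_lit 141)))) (XT.nd (nat_lit 78) (nat_lit 152) (nat_lit 0) (XT.lf (nat_lit 0) (nat_lit 135297627716) (nat_lit 228) (nat_lit 17410356509) (nat_lit 304) (nat_lit 52096278875) (nat_lit 23) (nat_lit 5) (nat_lit 26) (nat_lit 5) (nat_lit 27) (nat_lit 5) (nat_lit 296) (nat_lit 284) (nat_lit 140)) (XT.nd (nat_lit 78) (nat_lit 0) (nat_lit 0) (XT.lf (nat_lit 0) (nat_lit 16957691615) (nat_lit 152) (nat_lit 163279187011) (nat_lit 228) (nat_lit 34791873879) (nat_lit 21) (nat_lit 5) (nat_lit 23) (nat_lit 5) (nat_lit 24) (nat_lit 5) (nat_lit 297) (nat_lit 284) (nat_lit 139)) (XT.lf (nat_lit 0) (nat_lit 113815839973) (nat_lit 152) (nat_lit 98493277275) (nat_lit 228) (nat_lit 13574802292)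 (nat_lit 21) (nat_lit 5) (nat_lit 23) (nat_lit 5) (nat_lit 24) (nat_lit 5) (nat_lit 298) (nat_lit 284) (nat_lit 138)))))) (XT.nd (nat_lit 468) (nat_lit 456) (nat_lit 0) (XT.nd (nat_lit 234) (nat_lit 152) (nat_lit 0) (XT.nd (nat_lit 78) (nat_lit 228) (nat_lit 0) (XT.lf (nat_lit 0) (nat_lit 8872265778) (nat_lit 228) (nat_lit 19409671722) (nat_lit 76) (nat_lit 209307606927) (nat_lit 20) (nat_lit 5) (nat_lit 23) (nat_lit 5) (nat_lit 21) (nat_lit 5) (nat_lit 299) (nat_lit 284) (nat_lit 137)) (XT.nd (nat_lit 78) (nat_lit 0) (nat_lit 0) (XT.lf (nat_lit 0) (nat_lit 35620142646) (nat_lit 304) (nat_lit 166708682667) (nat_lit 76) (nat_lit 47615512658) (nat_lit 17) (nat_lit 5) (nat_lit 21) (nat_lit 5) (nat_lit 18) (nat_lit 5) (nat_lit 300) (nat_lit 284) (nat_lit 136)) (XT.lf (nat_lit 0) (nat_lit 65786779966) (nat_lit 304) (nat_lit 68797171981) (nat_lit 76) (nat_lit 128601249428) (nat_lit 17)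 (nat_lit 5) (nat_lit 21) (nat_lit 5) (nat_lit 18) (nat_lit 5) (nat_lit 301) (nat_lit 284) (nat_lit 135)))) (XT.nd (nat_lit 78) (nat_lit 0) (nat_lit 0) (XT.lf (nat_lit 0) (nat_lit 38892655254) (nat_lit 152) (nat_lit 60409328443) (nat_lit 228) (nat_lit 178108532065) (nat_lit 15) (nat_lit 5) (nat_lit 17) (nat_lit 5) (nat_lit 18) (nat_lit 5) (nat_lit 302) (nat_lit 284) (nat_lit 134)) (XT.nd (nat_lit 78) (nat_lit 0) (nat_lit 0) (XT.lf (nat_lit 0) (nat_lit 137901937258) (nat_lit 228) (nat_lit 134035951497) (nat_lit 76) (nat_lit 20643684550) (nat_lit 15) (nat_lit 5) (nat_lit 18) (nat_lit 5) (nat_lit 16) (nat_lit 5) (nat_lit 303) (nat_lit 284) (nat_lit 133)) (XT.lf (nat_lit 0) (nat_lit 181158841163) (nat_lit 228) (nat_lit 22764728078) (nat_lit 76) (nat_lit 104917230522) (nat_lit 15) (nat_lit 5) (nat_lit 18) (nat_lit 5) (nat_lit 16) (nat_lit 5) (nat_lit 304) (nat_lit 284) (nat_lit 132)))))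 (XT.nd (nat_lit 234) (nat_lit 228) (nat_lit 0) (XT.nd (nat_lit 78) (nat_lit 76) (nat_lit 0) (XT.lf (nat_lit 0) (nat_lit 102537375371) (nat_lit 152) (nat_lit 127804837791) (nat_lit 228) (nat_lit 95861278504) (nat_lit 13) (nat_lit 5) (nat_lit 15) (nat_lit 5) (nat_lit 16) (nat_lit 5) (nat_lit 305) (nat_lit 284) (nat_lit 131)) (XT.nd (nat_lit 78) (nat_lit 76) (nat_lit 0) (XT.lf (nat_lit 0) (nat_lit 239158148583) (nat_lit 152) (nat_lit 44924428397) (nat_lit 228) (nat_lit 60822836723) (nat_lit 13) (nat_lit 5) (nat_lit 15) (nat_lit 5) (nat_lit 16) (nat_lit 5) (nat_lit 306) (nat_lit 284) (nat_lit 130)) (XT.lf (nat_lit 0) (nat_lit 21613857354) (nat_lit 76) (nat_lit 322100331606) (nat_lit 152) (nat_lit 21261939523) (nat_lit 12) (nat_lit 5) (nat_lit 13) (nat_lit 5) (nat_lit 14) (nat_lit 4) (nat_lit 307) (nat_lit 284) (nat_lit 129)))) (XT.nd (nat_lit 78) (nat_lit 152) (nat_lit 0) (XT.lf (nat_lit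 0) (nat_lit 24523308795) (nat_lit 152) (nat_lit 223001704859) (nat_lit 76) (nat_lit 138755535814) (nat_lit 11) (nat_lit 5) (nat_lit 13) (nat_lit 5) (nat_lit 12) (nat_lit 5) (nat_lit 308) (nat_lit 284) (nat_lit 128)) (XT.nd (nat_lit 78) (nat_lit 152) (nat_lit 0) (XT.lf (nat_lit 0) (nat_lit 72822589214) (nat_lit 152) (nat_lit 93564687636) (nat_lit 76) (nat_lit 242857874294) (nat_lit 11) (nat_lit 5) (nat_lit 13) (nat_lit 5) (nat_lit 12) (nat_lit 5) (nat_lit 309) (nat_lit 284) (nat_lit 127)) (XT.lf (nat_lit 0) (nat_lit 48661405453) (nat_lit 152) (nat_lit 77494630534) (nat_lit 228) (nat_lit 307797267424) (nat_lit 9) (nat_lit 5) (nat_lit 11) (nat_lit 5) (nat_lit 12) (nat_lit 5) (nat_lit 310) (nat_lit 284) (nat_lit 126))))))))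
noncomputable def xc116 : XT := (XT.nd (nat_lit 35958) (nat_lit 0) (nat_lit 304) (XT.nd (nat_lit 858) (nat_lit 76) (nat_lit 0) (XT.nd (nat_lit 390) (nat_lit 228) (nat_lit 0) (XT.nd (nat_lit 156) (nat_lit 76) (nat_lit 0) (XT.nd (nat_lit 78) (nat_lit 0) (nat_lit 0) (XT.lf (nat_lit 0) (nat_lit 186825900643) (nat_lit 228) (nat_lit 253358485484) (nat_lit 76) (nat_lit 20208142705) (nat_lit 9) (nat_lit 5) (nat_lit 12) (nat_lit 5) (nat_lit 10) (nat_lit 4) (nat_lit 311) (nat_lit 284) (nat_lit 125)) (XT.lf (nat_lit 0) (nat_lit 254362126283) (nat_lit 228) (nat_lit 112883366719) (nat_lit 76) (nat_lit 121540377858) (nat_lit 9) (nat_lit 5) (nat_lit 12) (nat_lit 5) (nat_lit 10) (nat_lit 4) (nat_lit 312) (nat_lit 284) (nat_lit 124))) (XT.nd (nat_lit 78) (nat_lit 0) (nat_lit 0) (XT.lf (nat_lit 0) (nat_lit 40874351834) (nat_lit 76) (nat_lit 287409857161) (nat_lit 152) (nat_lit 191087834829) (nat_lit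 8) (nat_lit 5) (nat_lit 9) (nat_lit 5) (nat_lit 10) (nat_lit 4) (nat_lit 313) (nat_lit 284) (nat_lit 123)) (XT.nd (nat_lit 78) (nat_lit 0) (nat_lit 0) (XT.lf (nat_lit 0) (nat_lit 213352357419) (nat_lit 76) (nat_lit 197854064681) (nat_lit 152) (nat_lit 140951779695) (nat_lit 8) (nat_lit 5) (nat_lit 9) (nat_lit 5) (nat_lit 10) (nat_lit 4) (nat_lit 314) (nat_lit 284) (nat_lit 122)) (XT.lf (nat_lit 0) (nat_lit 399628503877) (nat_lit 76) (nat_lit 101133845862) (nat_lit 152) (nat_lit 86804907921) (nat_lit 8) (nat_lit 5) (nat_lit 9) (nat_lit 5) (nat_lit 10) (nat_lit 4) (nat_lit 315) (nat_lit 284) (nat_lit 121))))) (XT.nd (nat_lit 234) (nat_lit 76) (nat_lit 0) (XT.nd (nat_lit 78) (nat_lit 152) (nat_lit 0) (XT.lf (nat_lit 0) (nat_lit 597562634930) (nat_lit 152) (nat_lit 25082334231) (nat_lit 0) (nat_lit 3157678398) (nat_lit 8) (nat_lit 5) (nat_lit 10) (nat_lit 4) (nat_lit 8) (nat_lit 4) (nat_lit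 316) (nat_lit 284) (nat_lit 120)) (XT.nd (nat_lit 78) (nat_lit 0) (nat_lit 0) (XT.lf (nat_lit 0) (nat_lit 39802474042) (nat_lit 152) (nat_lit 511615955819) (nat_lit 76) (nat_lit 115087579904) (nat_lit 6) (nat_lit 5) (nat_lit 8) (nat_lit 5) (nat_lit 7) (nat_lit 4) (nat_lit 317) (nat_lit 284) (nat_lit 119)) (XT.lf (nat_lit 0) (nat_lit 112466219822) (nat_lit 152) (nat_lit 360475499130) (nat_lit 76) (nat_lit 237408957286) (nat_lit 6) (nat_lit 5) (nat_lit 8) (nat_lit 5) (nat_lit 7) (nat_lit 4) (nat_lit 318) (nat_lit 284) (nat_lit 118)))) (XT.nd (nat_lit 78) (nat_lit 76) (nat_lit 0) (XT.lf (nat_lit 0) (nat_lit 190943015288) (nat_lit 152) (nat_lit 197243889130) (nat_lit 76) (nat_lit 369516015782) (nat_lit 6) (nat_lit 5) (nat_lit 8) (nat_lit 5) (nat_lit 7) (nat_lit 4) (nat_lit 319) (nat_lit 284) (nat_lit 117)) (XT.nd (nat_lit 78) (nat_lit 76) (nat_lit 0) (XT.lf (nat_lit 0) (nat_lit 275697908115)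 (nat_lit 152) (nat_lit 20953827390) (nat_lit 76) (nat_lit 512191612035) (nat_lit 6) (nat_lit 5) (nat_lit 8) (nat_lit 5) (nat_lit 7) (nat_lit 4) (nat_lit 320) (nat_lit 284) (nat_lit 116)) (XT.lf (nat_lit 0) (nat_lit 178361744781) (nat_lit 76) (nat_lit 193161008992) (nat_lit 152) (nat_lit 492209090530) (nat_lit 5) (nat_lit 5) (nat_lit 6) (nat_lit 5) (nat_lit 7) (nat_lit 4) (nat_lit 321) (nat_lit 284) (nat_lit 115)))))) (XT.nd (nat_lit 34632) (nat_lit 0) (nat_lit 1900) (XT.nd (nat_lit 234) (nat_lit 76) (nat_lit 0) (XT.nd (nat_lit 78) (nat_lit 0) (nat_lit 0) (XT.lf (nat_lit 0) (nat_lit 394814155912) (nat_lit 76) (nat_lit 80772304600) (nat_lit 152) (nat_lit 447379130556) (nat_lit 5) (nat_lit 5) (nat_lit 6) (nat_lit 5) (nat_lit 7) (nat_lit 4) (nat_lit 322) (nat_lit 284) (nat_lit 114)) (XT.nd (nat_lit 78) (nat_lit 0) (nat_lit 0) (XT.lf (nat_lit 0) (nat_lit 588951836138) (nat_lit 152) (nat_lit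 359331955856) (nat_lit 0) (nat_lit 38576119920) (nat_lit 5) (nat_lit 5) (nat_lit 7) (nat_lit 4) (nat_lit 5) (nat_lit 4) (nat_lit 323) (nat_lit 284) (nat_lit 113)) (XT.lf (nat_lit 0) (nat_lit 713484387723) (nat_lit 152) (nat_lit 179104962143) (nat_lit 0) (nat_lit 163108593006) (nat_lit 5) (nat_lit 5) (nat_lit 7) (nat_lit 4) (nat_lit 5) (nat_lit 4) (nat_lit 324) (nat_lit 284) (nat_lit 112)))) (XT.nd (nat_lit 78) (nat_lit 0) (nat_lit 0) (XT.lf (nat_lit 0) (nat_lit 16358449562) (nat_lit 76) (nat_lit 832014481618) (nat_lit 76) (nat_lit 281638614217) (nat_lit 4) (nat_lit 4) (nat_lit 5) (nat_lit 5) (nat_lit 5) (nat_lit 4) (nat_lit 325) (nat_lit 284) (nat_lit 111)) (XT.nd (nat_lit 78) (nat_lit 0) (nat_lit 0) (XT.lf (nat_lit 0) (nat_lit 237644736152) (nat_lit 76) (nat_lit 761304836792) (nat_lit 76) (nat_lit 210928902091) (nat_lit 4) (nat_lit 4) (nat_lit 5) (nat_lit 5) (nat_lit 5) (nat_lit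 4) (nat_lit 326) (nat_lit 284) (nat_lit 110)) (XT.lf (nat_lit 0) (nat_lit 476633873864) (nat_lit 76) (nat_lit 684938442339) (nat_lit 76) (nat_lit 134562445323) (nat_lit 4) (nat_lit 4) (nat_lit 5) (nat_lit 5) (nat_lit 5) (nat_lit 4) (nat_lit 327) (nat_lit 284) (nat_lit 109))))) (XT.nd (nat_lit 234) (nat_lit 0) (nat_lit 76) (XT.nd (nat_lit 78) (nat_lit 0) (nat_lit 0) (XT.lf (nat_lit 0) (nat_lit 11455189446) (nat_lit 532) (nat_lit 27124530375) (nat_lit 532) (nat_lit 27124530375) (nat_lit 29) (nat_lit 3) (nat_lit 36) (nat_lit 3) (nat_lit 36) (nat_lit 5) (nat_lit 285) (nat_lit 285) (nat_lit 150)) (XT.nd (nat_lit 78) (nat_lit 0) (nat_lit 76) (XT.lf (nat_lit 0) (nat_lit 23830105633) (nat_lit 532) (nat_lit 979529135) (nat_lit 532) (nat_lit 111854917151) (nat_lit 29) (nat_lit 3) (nat_lit 36) (nat_lit 3) (nat_lit 36) (nat_lit 5) (nat_lit 286) (nat_lit 285) (nat_lit 149)) (XT.lf (nat_lit 0)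 (nat_lit 27055012850) (nat_lit 456) (nat_lit 83497554376) (nat_lit 532) (nat_lit 31609994511) (nat_lit 30) (nat_lit 5) (nat_lit 36) (nat_lit 5) (nat_lit 37) (nat_lit 5) (nat_lit 287) (nat_lit 285) (nat_lit 148)))) (XT.nd (nat_lit 78) (nat_lit 0) (nat_lit 76) (XT.lf (nat_lit 0) (nat_lit 31209488705) (nat_lit 456) (nat_lit 25606763895) (nat_lit 532) (nat_lit 91230435840) (nat_lit 30) (nat_lit 5) (nat_lit 36) (nat_lit 5) (nat_lit 37) (nat_lit 5) (nat_lit 288) (nat_lit 285) (nat_lit 147)) (XT.nd (nat_lit 78) (nat_lit 0) (nat_lit 0) (XT.lf (nat_lit 0) (nat_lit 36684189889) (nat_lit 456) (nat_lit 115521415144) (nat_lit 532) (nat_lit 2116912886) (nat_lit 31) (nat_lit 5) (nat_lit 37) (nat_lit 5) (nat_lit 38) (nat_lit 5) (nat_lit 289) (nat_lit 285) (nat_lit 146)) (XT.lf (nat_lit 0) (nat_lit 44790667279) (nat_lit 456) (nat_lit 52720668104) (nat_lit 532) (nat_lit 63413576235) (nat_lit 31) (nat_lit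 5) (nat_lit 37) (nat_lit 5) (nat_lit 38) (nat_lit 5) (nat_lit 290) (nat_lit 285) (nat_lit 145))))))) (XT.nd (nat_lit 936) (nat_lit 684) (nat_lit 0) (XT.nd (nat_lit 468) (nat_lit 456) (nat_lit 0) (XT.nd (nat_lit 234) (nat_lit 608) (nat_lit 0) (XT.nd (nat_lit 78) (nat_lit 0) (nat_lit 76) (XT.lf (nat_lit 76) (nat_lit 15899290121) (nat_lit 0) (nat_lit 38028504457) (nat_lit 532) (nat_lit 114097133432) (nat_lit 32) (nat_lit 5) (nat_lit 31) (nat_lit 5) (nat_lit 38) (nat_lit 5) (nat_lit 291) (nat_lit 285) (nat_lit 144)) (XT.nd (nat_lit 78) (nat_lit 0) (nat_lit 0) (XT.lf (nat_lit 0) (nat_lit 65904999763) (nat_lit 456) (nat_lit 83238586345) (nat_lit 76) (nat_lit 26380632592) (nat_lit 32) (nat_lit 5) (nat_lit 38) (nat_lit 5) (nat_lit 33) (nat_lit 5) (nat_lit 292) (nat_lit 285) (nat_lit 143)) (XT.lf (nat_lit 0) (nat_lit 79827920015) (nat_lit 456) (nat_lit 9828520122) (nat_lit 76) (nat_lit 93888010902)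 (nat_lit 32) (nat_lit 5) (nat_lit 38) (nat_lit 5) (nat_lit 33) (nat_lit 5) (nat_lit 293) (nat_lit 285) (nat_lit 142)))) (XT.nd (nat_lit 78) (nat_lit 228) (nat_lit 0) (XT.lf (nat_lit 0) (nat_lit 73111503339) (nat_lit 456) (nat_lit 23511305153) (nat_lit 532) (nat_lit 95442844080) (nat_lit 26) (nat_lit 5) (nat_lit 32) (nat_lit 5) (nat_lit 33) (nat_lit 5) (nat_lit 294) (nat_lit 285) (nat_lit 141)) (XT.nd (nat_lit 78) (nat_lit 228) (nat_lit 0) (XT.lf (nat_lit 0) (nat_lit 116189417121) (nat_lit 532) (nat_lit 39161148123) (nat_lit 76) (nat_lit 45803735931) (nat_lit 26) (nat_lit 5) (nat_lit 33) (nat_lit 5) (nat_lit 27) (nat_lit 5) (nat_lit 295) (nat_lit 285) (nat_lit 140)) (XT.lf (nat_lit 0) (nat_lit 48848005666) (nat_lit 228) (nat_lit 90258653603) (nat_lit 304) (nat_lit 71720559191) (nat_lit 23) (nat_lit 5) (nat_lit 26) (nat_lit 5) (nat_lit 27) (nat_lit 5) (nat_lit 296) (nat_lit 285) (nat_lit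 139))))) (XT.nd (nat_lit 234) (nat_lit 304) (nat_lit 0) (XT.nd (nat_lit 78) (nat_lit 152) (nat_lit 0) (XT.lf (nat_lit 0) (nat_lit 146124846254) (nat_lit 228) (nat_lit 18803004289) (nat_lit 304) (nat_lit 56260474096) (nat_lit 23) (nat_lit 5) (nat_lit 26) (nat_lit 5) (nat_lit 27) (nat_lit 5) (nat_lit 297) (nat_lit 285) (nat_lit 138)) (XT.nd (nat_lit 78) (nat_lit 0) (nat_lit 0) (XT.lf (nat_lit 0) (nat_lit 18317897174) (nat_lit 152) (nat_lit 176341010611) (nat_lit 228) (nat_lit 37571878885) (nat_lit 21) (nat_lit 5) (nat_lit 23) (nat_lit 5) (nat_lit 24) (nat_lit 5) (nat_lit 298) (nat_lit 285) (nat_lit 137)) (XT.lf (nat_lit 0) (nat_lit 122924431458) (nat_lit 152) (nat_lit 106372265975) (nat_lit 228) (nat_lit 14657689343) (nat_lit 21) (nat_lit 5) (nat_lit 23) (nat_lit 5) (nat_lit 24) (nat_lit 5) (nat_lit 299) (nat_lit 285) (nat_lit 136)))) (XT.nd (nat_lit 78) (nat_lit 228) (nat_lit 0) (XT.lf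 (nat_lit 0) (nat_lit 9584771302) (nat_lit 228) (nat_lit 20959208304) (nat_lit 76) (nat_lit 226052494778) (nat_lit 20) (nat_lit 5) (nat_lit 23) (nat_lit 5) (nat_lit 21) (nat_lit 5) (nat_lit 300) (nat_lit 285) (nat_lit 135)) (XT.nd (nat_lit 78) (nat_lit 0) (nat_lit 0) (XT.lf (nat_lit 0) (nat_lit 38472365797) (nat_lit 304) (nat_lit 180042013104) (nat_lit 76) (nat_lit 51425282671) (nat_lit 17) (nat_lit 5) (nat_lit 21) (nat_lit 5) (nat_lit 18) (nat_lit 5) (nat_lit 301) (nat_lit 285) (nat_lit 134)) (XT.lf (nat_lit 0) (nat_lit 71052140641) (nat_lit 304) (nat_lit 74297830761) (nat_lit 76) (nat_lit 138889839197) (nat_lit 17) (nat_lit 5) (nat_lit 21) (nat_lit 5) (nat_lit 18) (nat_lit 5) (nat_lit 302) (nat_lit 285) (nat_lit 133)))))) (XT.nd (nat_lit 468) (nat_lit 304) (nat_lit 0) (XT.nd (nat_lit 234) (nat_lit 228) (nat_lit 0) (XT.nd (nat_lit 78) (nat_lit 0) (nat_lit 0) (XT.lf (nat_lit 0) (nat_lit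 42007103793) (nat_lit 152) (nat_lit 65241350764) (nat_lit 228) (nat_lit 192354705063) (nat_lit 15) (nat_lit 5) (nat_lit 17) (nat_lit 5) (nat_lit 18) (nat_lit 5) (nat_lit 303) (nat_lit 285) (nat_lit 132)) (XT.nd (nat_lit 78) (nat_lit 0) (nat_lit 0) (XT.lf (nat_lit 0) (nat_lit 148936249253) (nat_lit 228) (nat_lit 144755849737) (nat_lit 76) (nat_lit 22295816109) (nat_lit 15) (nat_lit 5) (nat_lit 18) (nat_lit 5) (nat_lit 16) (nat_lit 5) (nat_lit 304) (nat_lit 285) (nat_lit 131)) (XT.lf (nat_lit 0) (nat_lit 195653545691) (nat_lit 228) (nat_lit 24583149028) (nat_lit 76) (nat_lit 113311198589) (nat_lit 15) (nat_lit 5) (nat_lit 18) (nat_lit 5) (nat_lit 16) (nat_lit 5) (nat_lit 305) (nat_lit 285) (nat_lit 130)))) (XT.nd (nat_lit 78) (nat_lit 76) (nat_lit 0) (XT.lf (nat_lit 0) (nat_lit 110743052893) (nat_lit 152) (nat_lit 138028451249) (nat_lit 228) (nat_lit 103528103877) (nat_lit 13) (nat_lit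 5) (nat_lit 15) (nat_lit 5) (nat_lit 16) (nat_lit 5) (nat_lit 306) (nat_lit 285) (nat_lit 129)) (XT.nd (nat_lit 78) (nat_lit 76) (nat_lit 0) (XT.lf (nat_lit 0) (nat_lit 258293288888) (nat_lit 152) (nat_lit 48517666405) (nat_lit 228) (nat_lit 65686740598) (nat_lit 13) (nat_lit 5) (nat_lit 15) (nat_lit 5) (nat_lit 16) (nat_lit 5) (nat_lit 307) (nat_lit 285) (nat_lit 128)) (XT.lf (nat_lit 0) (nat_lit 23345521661) (nat_lit 76) (nat_lit 347867520715) (nat_lit 152) (nat_lit 22961030463) (nat_lit 12) (nat_lit 5) (nat_lit 13) (nat_lit 5) (nat_lit 14) (nat_lit 4) (nat_lit 308) (nat_lit 285) (nat_lit 127))))) (XT.nd (nat_lit 234) (nat_lit 76) (nat_lit 0) (XT.nd (nat_lit 78) (nat_lit 152) (nat_lit 0) (XT.lf (nat_lit 0) (nat_lit 26486813282) (nat_lit 152) (nat_lit 240839381241) (nat_lit 76) (nat_lit 149856660468) (nat_lit 11) (nat_lit 5) (nat_lit 13) (nat_lit 5) (nat_lit 12) (nat_lit 5) (nat_lit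 309) (nat_lit 285) (nat_lit 126)) (XT.nd (nat_lit 78) (nat_lit 152) (nat_lit 0) (XT.lf (nat_lit 0) (nat_lit 78649914669) (nat_lit 152) (nat_lit 101047584863) (nat_lit 76) (nat_lit 262287135523) (nat_lit 11) (nat_lit 5) (nat_lit 13) (nat_lit 5) (nat_lit 12) (nat_lit 5) (nat_lit 310) (nat_lit 285) (nat_lit 125)) (XT.lf (nat_lit 0) (nat_lit 52556538008) (nat_lit 152) (nat_lit 83693440102) (nat_lit 228) (nat_lit 332419466616) (nat_lit 9) (nat_lit 5) (nat_lit 11) (nat_lit 5) (nat_lit 12) (nat_lit 5) (nat_lit 311) (nat_lit 285) (nat_lit 124)))) (XT.nd (nat_lit 78) (nat_lit 76) (nat_lit 0) (XT.lf (nat_lit 0) (nat_lit 201773340789) (nat_lit 228) (nat_lit 273625011751) (nat_lit 76) (nat_lit 21825463392) (nat_lit 9) (nat_lit 5) (nat_lit 12) (nat_lit 5) (nat_lit 10) (nat_lit 4) (nat_lit 312) (nat_lit 285) (nat_lit 123)) (XT.nd (nat_lit 78) (nat_lit 76) (nat_lit 0) (XT.lf (nat_lit 0) (nat_lit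 274712363140) (nat_lit 228) (nat_lit 121912042934) (nat_lit 76) (nat_lit 131264227782) (nat_lit 9) (nat_lit 5) (nat_lit 12) (nat_lit 5) (nat_lit 10) (nat_lit 4) (nat_lit 313) (nat_lit 285) (nat_lit 122)) (XT.lf (nat_lit 0) (nat_lit 44146242643) (nat_lit 76) (nat_lit 310401922713) (nat_lit 152) (nat_lit 206373539465) (nat_lit 8) (nat_lit 5) (nat_lit 9) (nat_lit 5) (nat_lit 10) (nat_lit 4) (nat_lit 314) (nat_lit 285) (nat_lit 121))))))))
noncomputable def xc117 : XT := (XT.nd (nat_lit 36192) (nat_lit 0) (nat_lit 152) (XT.nd (nat_lit 35256) (nat_lit 0) (nat_lit 1444) (XT.nd (nat_lit 468) (nat_lit 152) (nat_lit 0) (XT.nd (nat_lit 234) (nat_lit 152) (nat_lit 0) (XT.nd (nat_lit 78) (nat_lit 0) (nat_lit 0) (XT.lf (nat_lit 0) (nat_lit 230422344775) (nat_lit 76) (nat_lit 213681720392) (nat_lit 152) (nat_lit 152226697858) (nat_lit 8) (nat_lit 5) (nat_lit 9) (nat_lit 5) (nat_lit 10) (nat_lit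 4) (nat_lit 315) (nat_lit 285) (nat_lit 120)) (XT.nd (nat_lit 78) (nat_lit 0) (nat_lit 0) (XT.lf (nat_lit 0) (nat_lit 431600449707) (nat_lit 76) (nat_lit 109223933657) (nat_lit 152) (nat_lit 93748167024) (nat_lit 8) (nat_lit 5) (nat_lit 9) (nat_lit 5) (nat_lit 10) (nat_lit 4) (nat_lit 316) (nat_lit 285) (nat_lit 119)) (XT.lf (nat_lit 0) (nat_lit 645368627720) (nat_lit 152) (nat_lit 27087311251) (nat_lit 0) (nat_lit 3410837915) (nat_lit 8) (nat_lit 5) (nat_lit 10) (nat_lit 4) (nat_lit 8) (nat_lit 4) (nat_lit 317) (nat_lit 285) (nat_lit 118)))) (XT.nd (nat_lit 78) (nat_lit 0) (nat_lit 0) (XT.lf (nat_lit 0) (nat_lit 42987646998) (nat_lit 152) (nat_lit 552543608615) (nat_lit 76) (nat_lit 124295153571) (nat_lit 6) (nat_lit 5) (nat_lit 8) (nat_lit 5) (nat_lit 7) (nat_lit 4) (nat_lit 318) (nat_lit 285) (nat_lit 117)) (XT.nd (nat_lit 78) (nat_lit 0) (nat_lit 0) (XT.lf (nat_lit 0) (nat_lit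 121464420216) (nat_lit 152) (nat_lit 389312035663) (nat_lit 76) (nat_lit 256402199124) (nat_lit 6) (nat_lit 5) (nat_lit 8) (nat_lit 5) (nat_lit 7) (nat_lit 4) (nat_lit 319) (nat_lit 285) (nat_lit 116)) (XT.lf (nat_lit 0) (nat_lit 206219292444) (nat_lit 152) (nat_lit 213022008226) (nat_lit 76) (nat_lit 399077783392) (nat_lit 6) (nat_lit 5) (nat_lit 8) (nat_lit 5) (nat_lit 7) (nat_lit 4) (nat_lit 320) (nat_lit 285) (nat_lit 115))))) (XT.nd (nat_lit 234) (nat_lit 76) (nat_lit 0) (XT.nd (nat_lit 78) (nat_lit 76) (nat_lit 0) (XT.lf (nat_lit 0) (nat_lit 297754514776) (nat_lit 152) (nat_lit 22628844660) (nat_lit 76) (nat_lit 553167391319) (nat_lit 6) (nat_lit 5) (nat_lit 8) (nat_lit 5) (nat_lit 7) (nat_lit 4) (nat_lit 321) (nat_lit 285) (nat_lit 114)) (XT.nd (nat_lit 78) (nat_lit 0) (nat_lit 0) (XT.lf (nat_lit 0) (nat_lit 192631940654) (nat_lit 76) (nat_lit 208613380312) (nat_lit 152) (nat_lit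 531585008660) (nat_lit 5) (nat_lit 5) (nat_lit 6) (nat_lit 5) (nat_lit 7) (nat_lit 4) (nat_lit 322) (nat_lit 285) (nat_lit 113)) (XT.lf (nat_lit 0) (nat_lit 426400451617) (nat_lit 76) (nat_lit 87233617302) (nat_lit 152) (nat_lit 483168711823) (nat_lit 5) (nat_lit 5) (nat_lit 6) (nat_lit 5) (nat_lit 7) (nat_lit 4) (nat_lit 323) (nat_lit 285) (nat_lit 112)))) (XT.nd (nat_lit 78) (nat_lit 76) (nat_lit 0) (XT.lf (nat_lit 0) (nat_lit 636068633872) (nat_lit 152) (nat_lit 388077392417) (nat_lit 0) (nat_lit 41662624394) (nat_lit 5) (nat_lit 5) (nat_lit 7) (nat_lit 4) (nat_lit 5) (nat_lit 4) (nat_lit 324) (nat_lit 285) (nat_lit 111)) (XT.nd (nat_lit 78) (nat_lit 76) (nat_lit 0) (XT.lf (nat_lit 0) (nat_lit 770563741373) (nat_lit 152) (nat_lit 193432322164) (nat_lit 0) (nat_lit 176157664595) (nat_lit 5) (nat_lit 5) (nat_lit 7) (nat_lit 4) (nat_lit 5) (nat_lit 4) (nat_lit 325) (nat_lit 285) (nat_lit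 110)) (XT.lf (nat_lit 0) (nat_lit 17668136226) (nat_lit 76) (nat_lit 898575211748) (nat_lit 76) (nat_lit 304169072655) (nat_lit 4) (nat_lit 4) (nat_lit 5) (nat_lit 5) (nat_lit 5) (nat_lit 4) (nat_lit 326) (nat_lit 285) (nat_lit 109)))))) (XT.nd (nat_lit 468) (nat_lit 456) (nat_lit 0) (XT.nd (nat_lit 234) (nat_lit 0) (nat_lit 76) (XT.nd (nat_lit 78) (nat_lit 0) (nat_lit 0) (XT.lf (nat_lit 0) (nat_lit 12374836542) (nat_lit 532) (nat_lit 29292736059) (nat_lit 532) (nat_lit 29292736059) (nat_lit 29) (nat_lit 3) (nat_lit 36) (nat_lit 3) (nat_lit 36) (nat_lit 5) (nat_lit 286) (nat_lit 286) (nat_lit 148)) (XT.nd (nat_lit 78) (nat_lit 0) (nat_lit 76) (XT.lf (nat_lit 0) (nat_lit 25742499158) (nat_lit 532) (nat_lit 1054638233) (nat_lit 532) (nat_lit 120800057290) (nat_lit 29) (nat_lit 3) (nat_lit 36) (nat_lit 3) (nat_lit 36) (nat_lit 5) (nat_lit 287) (nat_lit 286) (nat_lit 147)) (XT.lf (nat_lit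 0) (nat_lit 29224973020) (nat_lit 456) (nat_lit 90173640131) (nat_lit 532) (nat_lit 34136469364) (nat_lit 30) (nat_lit 5) (nat_lit 36) (nat_lit 5) (nat_lit 37) (nat_lit 5) (nat_lit 288) (nat_lit 286) (nat_lit 146)))) (XT.nd (nat_lit 78) (nat_lit 0) (nat_lit 76) (XT.lf (nat_lit 0) (nat_lit 33711395155) (nat_lit 456) (nat_lit 27651861863) (nat_lit 532) (nat_lit 98526718200) (nat_lit 30) (nat_lit 5) (nat_lit 36) (nat_lit 5) (nat_lit 37) (nat_lit 5) (nat_lit 289) (nat_lit 286) (nat_lit 145)) (XT.nd (nat_lit 78) (nat_lit 0) (nat_lit 0) (XT.lf (nat_lit 0) (nat_lit 39623736006) (nat_lit 456) (nat_lit 124759314978) (nat_lit 532) (nat_lit 2284849690) (nat_lit 31) (nat_lit 5) (nat_lit 37) (nat_lit 5) (nat_lit 38) (nat_lit 5) (nat_lit 290) (nat_lit 286) (nat_lit 144)) (XT.lf (nat_lit 0) (nat_lit 48378375222) (nat_lit 456) (nat_lit 56934790647) (nat_lit 532) (nat_lit 68485351013) (nat_lit 31)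 (nat_lit 5) (nat_lit 37) (nat_lit 5) (nat_lit 38) (nat_lit 5) (nat_lit 291) (nat_lit 286) (nat_lit 143))))) (XT.nd (nat_lit 234) (nat_lit 608) (nat_lit 0) (XT.nd (nat_lit 78) (nat_lit 0) (nat_lit 76) (XT.lf (nat_lit 76) (nat_lit 17174674846) (nat_lit 0) (nat_lit 41071550660) (nat_lit 532) (nat_lit 123220331173) (nat_lit 32) (nat_lit 5) (nat_lit 31) (nat_lit 5) (nat_lit 38) (nat_lit 5) (nat_lit 292) (nat_lit 286) (nat_lit 142)) (XT.nd (nat_lit 78) (nat_lit 0) (nat_lit 0) (XT.lf (nat_lit 0) (nat_lit 71181278396) (nat_lit 456) (nat_lit 89894131118) (nat_lit 76) (nat_lit 28490409555) (nat_lit 32) (nat_lit 5) (nat_lit 38) (nat_lit 5) (nat_lit 33) (nat_lit 5) (nat_lit 293) (nat_lit 286) (nat_lit 141)) (XT.lf (nat_lit 0) (nat_lit 86217744960) (nat_lit 456) (nat_lit 10611521978) (nat_lit 76) (nat_lit 101398428029) (nat_lit 32) (nat_lit 5) (nat_lit 38) (nat_lit 5) (nat_lit 33) (nat_lit 5)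 (nat_lit 294) (nat_lit 286) (nat_lit 140)))) (XT.nd (nat_lit 78) (nat_lit 228) (nat_lit 0) (XT.lf (nat_lit 0) (nat_lit 78963620329) (nat_lit 456) (nat_lit 25392415042) (nat_lit 532) (nat_lit 103074574223) (nat_lit 26) (nat_lit 5) (nat_lit 32) (nat_lit 5) (nat_lit 33) (nat_lit 5) (nat_lit 295) (nat_lit 286) (nat_lit 139)) (XT.nd (nat_lit 78) (nat_lit 228) (nat_lit 0) (XT.lf (nat_lit 0) (nat_lit 125487716100) (nat_lit 532) (nat_lit 42290802151) (nat_lit 76) (nat_lit 49467854067) (nat_lit 26) (nat_lit 5) (nat_lit 33) (nat_lit 5) (nat_lit 27) (nat_lit 5) (nat_lit 296) (nat_lit 286) (nat_lit 138)) (XT.lf (nat_lit 0) (nat_lit 52759001971) (nat_lit 228) (nat_lit 97479178539) (nat_lit 304) (nat_lit 77454956622) (nat_lit 23) (nat_lit 5) (nat_lit 26) (nat_lit 5) (nat_lit 27) (nat_lit 5) (nat_lit 297) (nat_lit 286) (nat_lit 137))))))) (XT.nd (nat_lit 936) (nat_lit 456) (nat_lit 0) (XT.nd (nat_lit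 468) (nat_lit 380) (nat_lit 0) (XT.nd (nat_lit 234) (nat_lit 304) (nat_lit 0) (XT.nd (nat_lit 78) (nat_lit 152) (nat_lit 0) (XT.lf (nat_lit 0) (nat_lit 157817756039) (nat_lit 228) (nat_lit 20307089677) (nat_lit 304) (nat_lit 60758305261) (nat_lit 23) (nat_lit 5) (nat_lit 26) (nat_lit 5) (nat_lit 27) (nat_lit 5) (nat_lit 298) (nat_lit 286) (nat_lit 136)) (XT.nd (nat_lit 78) (nat_lit 0) (nat_lit 0) (XT.lf (nat_lit 0) (nat_lit 19786406992) (nat_lit 152) (nat_lit 190447853051) (nat_lit 228) (nat_lit 40574761480) (nat_lit 21) (nat_lit 5) (nat_lit 23) (nat_lit 5) (nat_lit 24) (nat_lit 5) (nat_lit 299) (nat_lit 286) (nat_lit 135)) (XT.lf (nat_lit 0) (nat_lit 132761236014) (nat_lit 152) (nat_lit 114881641318) (nat_lit 228) (nat_lit 15827649198) (nat_lit 21) (nat_lit 5) (nat_lit 23) (nat_lit 5) (nat_lit 24) (nat_lit 5) (nat_lit 300) (nat_lit 286) (nat_lit 134)))) (XT.nd (nat_lit 78) (nat_lit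 228) (nat_lit 0) (XT.lf (nat_lit 0) (nat_lit 10353888621) (nat_lit 228) (nat_lit 22633169628) (nat_lit 76) (nat_lit 244136933811) (nat_lit 20) (nat_lit 5) (nat_lit 23) (nat_lit 5) (nat_lit 21) (nat_lit 5) (nat_lit 301) (nat_lit 286) (nat_lit 133)) (XT.nd (nat_lit 78) (nat_lit 0) (nat_lit 0) (XT.lf (nat_lit 0) (nat_lit 41552394206) (nat_lit 304) (nat_lit 194442489912) (nat_lit 76) (nat_lit 55539758817) (nat_lit 17) (nat_lit 5) (nat_lit 21) (nat_lit 5) (nat_lit 18) (nat_lit 5) (nat_lit 302) (nat_lit 286) (nat_lit 132)) (XT.lf (nat_lit 0) (nat_lit 76738385175) (nat_lit 304) (nat_lit 80238986630) (nat_lit 76) (nat_lit 150001446271) (nat_lit 17) (nat_lit 5) (nat_lit 21) (nat_lit 5) (nat_lit 18) (nat_lit 5) (nat_lit 303) (nat_lit 286) (nat_lit 131))))) (XT.nd (nat_lit 234) (nat_lit 228) (nat_lit 0) (XT.nd (nat_lit 78) (nat_lit 0) (nat_lit 0) (XT.lf (nat_lit 0) (nat_lit 45370275078) (nat_lit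 152) (nat_lit 70460038151) (nat_lit 228) (nat_lit 207740929918) (nat_lit 15) (nat_lit 5) (nat_lit 17) (nat_lit 5) (nat_lit 18) (nat_lit 5) (nat_lit 304) (nat_lit 286) (nat_lit 130)) (XT.nd (nat_lit 78) (nat_lit 0) (nat_lit 0) (XT.lf (nat_lit 0) (nat_lit 160852998485) (nat_lit 228) (nat_lit 156333764663) (nat_lit 76) (nat_lit 24080027348) (nat_lit 15) (nat_lit 5) (nat_lit 18) (nat_lit 5) (nat_lit 16) (nat_lit 5) (nat_lit 305) (nat_lit 286) (nat_lit 129)) (XT.lf (nat_lit 0) (nat_lit 211307541654) (nat_lit 228) (nat_lit 26547437013) (nat_lit 76) (nat_lit 122376599986) (nat_lit 15) (nat_lit 5) (nat_lit 18) (nat_lit 5) (nat_lit 16) (nat_lit 5) (nat_lit 306) (nat_lit 286) (nat_lit 128)))) (XT.nd (nat_lit 78) (nat_lit 76) (nat_lit 0) (XT.lf (nat_lit 0) (nat_lit 119604801215) (nat_lit 152) (nat_lit 149070064141) (nat_lit 228) (nat_lit 111808571573) (nat_lit 13) (nat_lit 5) (nat_lit 15) (nat_lit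 5) (nat_lit 16) (nat_lit 5) (nat_lit 307) (nat_lit 286) (nat_lit 127)) (XT.nd (nat_lit 78) (nat_lit 76) (nat_lit 0) (XT.lf (nat_lit 0) (nat_lit 278958885416) (nat_lit 152) (nat_lit 52398465636) (nat_lit 228) (nat_lit 70940031129) (nat_lit 13) (nat_lit 5) (nat_lit 15) (nat_lit 5) (nat_lit 16) (nat_lit 5) (nat_lit 308) (nat_lit 286) (nat_lit 126)) (XT.lf (nat_lit 0) (nat_lit 25215354510) (nat_lit 76) (nat_lit 375696204419) (nat_lit 152) (nat_lit 24796314630) (nat_lit 12) (nat_lit 5) (nat_lit 13) (nat_lit 5) (nat_lit 14) (nat_lit 4) (nat_lit 309) (nat_lit 286) (nat_lit 125)))))) (XT.nd (nat_lit 468) (nat_lit 152) (nat_lit 0) (XT.nd (nat_lit 234) (nat_lit 76) (nat_lit 0) (XT.nd (nat_lit 78) (nat_lit 152) (nat_lit 0) (XT.lf (nat_lit 0) (nat_lit 28607164195) (nat_lit 152) (nat_lit 260104422681) (nat_lit 76) (nat_lit 161845777828) (nat_lit 11) (nat_lit 5) (nat_lit 13) (nat_lit 5) (nat_lit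 12) (nat_lit 5) (nat_lit 310) (nat_lit 286) (nat_lit 124)) (XT.nd (nat_lit 78) (nat_lit 152) (nat_lit 0) (XT.lf (nat_lit 0) (nat_lit 84943209555) (nat_lit 152) (nat_lit 109129438819) (nat_lit 76) (nat_lit 283270647590) (nat_lit 11) (nat_lit 5) (nat_lit 13) (nat_lit 5) (nat_lit 12) (nat_lit 5) (nat_lit 311) (nat_lit 286) (nat_lit 123)) (XT.lf (nat_lit 0) (nat_lit 56762964442) (nat_lit 152) (nat_lit 90388262982) (nat_lit 228) (nat_lit 359011667462) (nat_lit 9) (nat_lit 5) (nat_lit 11) (nat_lit 5) (nat_lit 12) (nat_lit 5) (nat_lit 312) (nat_lit 286) (nat_lit 122)))) (XT.nd (nat_lit 78) (nat_lit 76) (nat_lit 0) (XT.lf (nat_lit 0) (nat_lit 217916380974) (nat_lit 228) (nat_lit 295513167208) (nat_lit 76) (nat_lit 23572074256) (nat_lit 9) (nat_lit 5) (nat_lit 12) (nat_lit 5) (nat_lit 10) (nat_lit 4) (nat_lit 313) (nat_lit 286) (nat_lit 121)) (XT.nd (nat_lit 78) (nat_lit 76) (nat_lit 0) (XT.lf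 (nat_lit 0) (nat_lit 296690438230) (nat_lit 228) (nat_lit 131663297588) (nat_lit 76) (nat_lit 141765897293) (nat_lit 9) (nat_lit 5) (nat_lit 12) (nat_lit 5) (nat_lit 10) (nat_lit 4) (nat_lit 314) (nat_lit 286) (nat_lit 120)) (XT.lf (nat_lit 0) (nat_lit 47679607575) (nat_lit 76) (nat_lit 335233456656) (nat_lit 152) (nat_lit 222882289092) (nat_lit 8) (nat_lit 5) (nat_lit 9) (nat_lit 5) (nat_lit 10) (nat_lit 4) (nat_lit 315) (nat_lit 286) (nat_lit 119))))) (XT.nd (nat_lit 234) (nat_lit 152) (nat_lit 0) (XT.nd (nat_lit 78) (nat_lit 0) (nat_lit 0) (XT.lf (nat_lit 0) (nat_lit 248857674505) (nat_lit 76) (nat_lit 230775684066) (nat_lit 152) (nat_lit 164403784122) (nat_lit 8) (nat_lit 5) (nat_lit 9) (nat_lit 5) (nat_lit 10) (nat_lit 4) (nat_lit 316) (nat_lit 286) (nat_lit 118)) (XT.nd (nat_lit 78) (nat_lit 0) (nat_lit 0) (XT.lf (nat_lit 0) (nat_lit 466129913599) (nat_lit 76) (nat_lit 117961316908)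 (nat_lit 152) (nat_lit 101247048566) (nat_lit 8) (nat_lit 5) (nat_lit 9) (nat_lit 5) (nat_lit 10) (nat_lit 4) (nat_lit 317) (nat_lit 286) (nat_lit 117)) (XT.lf (nat_lit 0) (nat_lit 696998959840) (nat_lit 152) (nat_lit 29252916077) (nat_lit 0) (nat_lit 3684172409) (nat_lit 8) (nat_lit 5) (nat_lit 10) (nat_lit 4) (nat_lit 8) (nat_lit 4) (nat_lit 318) (nat_lit 286) (nat_lit 116)))) (XT.nd (nat_lit 78) (nat_lit 0) (nat_lit 0) (XT.lf (nat_lit 0) (nat_lit 46427494691) (nat_lit 152) (nat_lit 596745705270) (nat_lit 76) (nat_lit 134239252204) (nat_lit 6) (nat_lit 5) (nat_lit 8) (nat_lit 5) (nat_lit 7) (nat_lit 4) (nat_lit 319) (nat_lit 286) (nat_lit 115)) (XT.nd (nat_lit 78) (nat_lit 0) (nat_lit 0) (XT.lf (nat_lit 0) (nat_lit 131182347845) (nat_lit 152) (nat_lit 420455709595) (nat_lit 76) (nat_lit 276914825375) (nat_lit 6) (nat_lit 5) (nat_lit 8) (nat_lit 5) (nat_lit 7) (nat_lit 4) (nat_lit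 320) (nat_lit 286) (nat_lit 114)) (XT.lf (nat_lit 0) (nat_lit 222717552517) (nat_lit 152) (nat_lit 230062575439) (nat_lit 76) (nat_lit 431004423027) (nat_lit 6) (nat_lit 5) (nat_lit 8) (nat_lit 5) (nat_lit 7) (nat_lit 4) (nat_lit 321) (nat_lit 286) (nat_lit 113))))))))
noncomputable def xc118 : XT := (XT.nd (nat_lit 36192) (nat_lit 0) (nat_lit 0) (XT.nd (nat_lit 35256) (nat_lit 0) (nat_lit 912) (XT.nd (nat_lit 34788) (nat_lit 0) (nat_lit 1824) (XT.nd (nat_lit 156) (nat_lit 0) (nat_lit 0) (XT.nd (nat_lit 78) (nat_lit 76) (nat_lit 0) (XT.lf (nat_lit 0) (nat_lit 321575539549) (nat_lit 152) (nat_lit 24438047191) (nat_lit 76) (nat_lit 597421168703) (nat_lit 6) (nat_lit 5) (nat_lit 8) (nat_lit 5) (nat_lit 7) (nat_lit 4) (nat_lit 322) (nat_lit 286) (nat_lit 112)) (XT.lf (nat_lit 0) (nat_lit 208043572973) (nat_lit 76) (nat_lit 225302014010) (nat_lit 152) (nat_lit 574111115669) (nat_lit 5)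 (nat_lit 5) (nat_lit 6) (nat_lit 5) (nat_lit 7) (nat_lit 4) (nat_lit 323) (nat_lit 286) (nat_lit 111))) (XT.nd (nat_lit 78) (nat_lit 0) (nat_lit 0) (XT.lf (nat_lit 0) (nat_lit 460513485030) (nat_lit 76) (nat_lit 94211902309) (nat_lit 152) (nat_lit 521821566469) (nat_lit 5) (nat_lit 5) (nat_lit 6) (nat_lit 5) (nat_lit 7) (nat_lit 4) (nat_lit 324) (nat_lit 286) (nat_lit 110)) (XT.nd (nat_lit 78) (nat_lit 0) (nat_lit 0) (XT.lf (nat_lit 0) (nat_lit 686954682574) (nat_lit 152) (nat_lit 419122623670) (nat_lit 0) (nat_lit 44995990039) (nat_lit 5) (nat_lit 5) (nat_lit 7) (nat_lit 4) (nat_lit 5) (nat_lit 4) (nat_lit 325) (nat_lit 286) (nat_lit 109)) (XT.lf (nat_lit 0) (nat_lit 832209357342) (nat_lit 152) (nat_lit 208906018918) (nat_lit 0) (nat_lit 190250607108) (nat_lit 5) (nat_lit 5) (nat_lit 7) (nat_lit 4) (nat_lit 5) (nat_lit 4) (nat_lit 326) (nat_lit 286) (nat_lit 108))))) (XT.nd (nat_lit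 234) (nat_lit 0) (nat_lit 76) (XT.nd (nat_lit 78) (nat_lit 0) (nat_lit 0) (XT.lf (nat_lit 0) (nat_lit 13367594334) (nat_lit 532) (nat_lit 31634648817) (nat_lit 532) (nat_lit 31634648817) (nat_lit 29) (nat_lit 3) (nat_lit 36) (nat_lit 3) (nat_lit 36) (nat_lit 5) (nat_lit 287) (nat_lit 287) (nat_lit 146)) (XT.nd (nat_lit 78) (nat_lit 0) (nat_lit 76) (XT.lf (nat_lit 0) (nat_lit 27807030328) (nat_lit 532) (nat_lit 1136220169) (nat_lit 532) (nat_lit 130461272751) (nat_lit 29) (nat_lit 3) (nat_lit 36) (nat_lit 3) (nat_lit 36) (nat_lit 5) (nat_lit 288) (nat_lit 287) (nat_lit 145)) (XT.lf (nat_lit 0) (nat_lit 31567736930) (nat_lit 456) (nat_lit 97384343244) (nat_lit 532) (nat_lit 36865393851) (nat_lit 30) (nat_lit 5) (nat_lit 36) (nat_lit 5) (nat_lit 37) (nat_lit 5) (nat_lit 289) (nat_lit 287) (nat_lit 144)))) (XT.nd (nat_lit 78) (nat_lit 0) (nat_lit 76) (XT.lf (nat_lit 0) (nat_lit 36412719793)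 (nat_lit 456) (nat_lit 29861058870) (nat_lit 532) (nat_lit 106407010228) (nat_lit 30) (nat_lit 5) (nat_lit 36) (nat_lit 5) (nat_lit 37) (nat_lit 5) (nat_lit 290) (nat_lit 287) (nat_lit 143)) (XT.nd (nat_lit 78) (nat_lit 0) (nat_lit 0) (XT.lf (nat_lit 0) (nat_lit 42797759479) (nat_lit 456) (nat_lit 134736790819) (nat_lit 532) (nat_lit 2466423479) (nat_lit 31) (nat_lit 5) (nat_lit 37) (nat_lit 5) (nat_lit 38) (nat_lit 5) (nat_lit 291) (nat_lit 287) (nat_lit 142)) (XT.lf (nat_lit 0) (nat_lit 52252464308) (nat_lit 456) (nat_lit 61486546717) (nat_lit 532) (nat_lit 73963054847) (nat_lit 31) (nat_lit 5) (nat_lit 37) (nat_lit 5) (nat_lit 38) (nat_lit 5) (nat_lit 292) (nat_lit 287) (nat_lit 141)))))) (XT.nd (nat_lit 468) (nat_lit 456) (nat_lit 0) (XT.nd (nat_lit 234) (nat_lit 608) (nat_lit 0) (XT.nd (nat_lit 78) (nat_lit 0) (nat_lit 76) (XT.lf (nat_lit 76) (nat_lit 18551599378) (nat_lit 0)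 (nat_lit 44357931303) (nat_lit 532) (nat_lit 133074037114) (nat_lit 32) (nat_lit 5) (nat_lit 31) (nat_lit 5) (nat_lit 38) (nat_lit 5) (nat_lit 293) (nat_lit 287) (nat_lit 140)) (XT.nd (nat_lit 78) (nat_lit 0) (nat_lit 0) (XT.lf (nat_lit 0) (nat_lit 76879105986) (nat_lit 456) (nat_lit 97082624797) (nat_lit 76) (nat_lit 30769064778) (nat_lit 32) (nat_lit 5) (nat_lit 38) (nat_lit 5) (nat_lit 33) (nat_lit 5) (nat_lit 294) (nat_lit 287) (nat_lit 139)) (XT.lf (nat_lit 0) (nat_lit 93118243555) (nat_lit 456) (nat_lit 11457631875) (nat_lit 76) (nat_lit 109509767511) (nat_lit 32) (nat_lit 5) (nat_lit 38) (nat_lit 5) (nat_lit 33) (nat_lit 5) (nat_lit 295) (nat_lit 287) (nat_lit 138)))) (XT.nd (nat_lit 78) (nat_lit 228) (nat_lit 0) (XT.lf (nat_lit 0) (nat_lit 85283450630) (nat_lit 456) (nat_lit 27423984409) (nat_lit 532) (nat_lit 111317370252) (nat_lit 26) (nat_lit 5) (nat_lit 32) (nat_lit 5)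 (nat_lit 33) (nat_lit 5) (nat_lit 296) (nat_lit 287) (nat_lit 137)) (XT.nd (nat_lit 78) (nat_lit 228) (nat_lit 0) (XT.lf (nat_lit 0) (nat_lit 135529430241) (nat_lit 532) (nat_lit 45671290413) (nat_lit 76) (nat_lit 53425127438) (nat_lit 26) (nat_lit 5) (nat_lit 33) (nat_lit 5) (nat_lit 27) (nat_lit 5) (nat_lit 297) (nat_lit 287) (nat_lit 136)) (XT.lf (nat_lit 0) (nat_lit 56982427763) (nat_lit 228) (nat_lit 105277369344) (nat_lit 304) (nat_lit 83648569112) (nat_lit 23) (nat_lit 5) (nat_lit 26) (nat_lit 5) (nat_lit 27) (nat_lit 5) (nat_lit 298) (nat_lit 287) (nat_lit 135))))) (XT.nd (nat_lit 234) (nat_lit 304) (nat_lit 0) (XT.nd (nat_lit 78) (nat_lit 152) (nat_lit 0) (XT.lf (nat_lit 0) (nat_lit 170445681739) (nat_lit 228) (nat_lit 21931524001) (nat_lit 304) (nat_lit 65616391867) (nat_lit 23) (nat_lit 5) (nat_lit 26) (nat_lit 5) (nat_lit 27) (nat_lit 5) (nat_lit 299) (nat_lit 287) (nat_lit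 134)) (XT.nd (nat_lit 78) (nat_lit 0) (nat_lit 0) (XT.lf (nat_lit 0) (nat_lit 21371958477) (nat_lit 152) (nat_lit 205683305430) (nat_lit 228) (nat_lit 43818283795) (nat_lit 21) (nat_lit 5) (nat_lit 23) (nat_lit 5) (nat_lit 24) (nat_lit 5) (nat_lit 300) (nat_lit 287) (nat_lit 133)) (XT.lf (nat_lit 0) (nat_lit 143384578346) (nat_lit 152) (nat_lit 124071824600) (nat_lit 228) (nat_lit 17091584648) (nat_lit 21) (nat_lit 5) (nat_lit 23) (nat_lit 5) (nat_lit 24) (nat_lit 5) (nat_lit 301) (nat_lit 287) (nat_lit 132)))) (XT.nd (nat_lit 78) (nat_lit 228) (nat_lit 0) (XT.lf (nat_lit 0) (nat_lit 11184202124) (nat_lit 228) (nat_lit 24441443792) (nat_lit 76) (nat_lit 263668093807) (nat_lit 20) (nat_lit 5) (nat_lit 23) (nat_lit 5) (nat_lit 21) (nat_lit 5) (nat_lit 302) (nat_lit 287) (nat_lit 131)) (XT.nd (nat_lit 78) (nat_lit 0) (nat_lit 0) (XT.lf (nat_lit 0) (nat_lit 44878505449) (nat_lit 304)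 (nat_lit 209995416335) (nat_lit 76) (nat_lit 59983328353) (nat_lit 17) (nat_lit 5) (nat_lit 21) (nat_lit 5) (nat_lit 18) (nat_lit 5) (nat_lit 303) (nat_lit 287) (nat_lit 130)) (XT.lf (nat_lit 0) (nat_lit 82879233495) (nat_lit 304) (nat_lit 86655815958) (nat_lit 76) (nat_lit 162001922001) (nat_lit 17) (nat_lit 5) (nat_lit 21) (nat_lit 5) (nat_lit 18) (nat_lit 5) (nat_lit 304) (nat_lit 287) (nat_lit 129))))))) (XT.nd (nat_lit 936) (nat_lit 228) (nat_lit 0) (XT.nd (nat_lit 468) (nat_lit 304) (nat_lit 0) (XT.nd (nat_lit 234) (nat_lit 228) (nat_lit 0) (XT.nd (nat_lit 78) (nat_lit 0) (nat_lit 0) (XT.lf (nat_lit 0) (nat_lit 49002128722) (nat_lit 152) (nat_lit 76096309075) (nat_lit 228) (nat_lit 224358359705) (nat_lit 15) (nat_lit 5) (nat_lit 17) (nat_lit 5) (nat_lit 18) (nat_lit 5) (nat_lit 305) (nat_lit 287) (nat_lit 128)) (XT.nd (nat_lit 78) (nat_lit 0) (nat_lit 0) (XT.lf (nat_lit 0) (nat_lit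 173722823834) (nat_lit 228) (nat_lit 168838277006) (nat_lit 76) (nat_lit 26006897599) (nat_lit 15) (nat_lit 5) (nat_lit 18) (nat_lit 5) (nat_lit 16) (nat_lit 5) (nat_lit 306) (nat_lit 287) (nat_lit 127)) (XT.lf (nat_lit 0) (nat_lit 228213613014) (nat_lit 228) (nat_lit 28669205279) (nat_lit 76) (nat_lit 132167161377) (nat_lit 15) (nat_lit 5) (nat_lit 18) (nat_lit 5) (nat_lit 16) (nat_lit 5) (nat_lit 307) (nat_lit 287) (nat_lit 126)))) (XT.nd (nat_lit 78) (nat_lit 76) (nat_lit 0) (XT.lf (nat_lit 0) (nat_lit 129175160699) (nat_lit 152) (nat_lit 160995100679) (nat_lit 228) (nat_lit 120751730710) (nat_lit 13) (nat_lit 5) (nat_lit 15) (nat_lit 5) (nat_lit 16) (nat_lit 5) (nat_lit 308) (nat_lit 287) (nat_lit 125)) (XT.nd (nat_lit 78) (nat_lit 76) (nat_lit 0) (XT.lf (nat_lit 0) (nat_lit 301277425311) (nat_lit 152) (nat_lit 56589816411) (nat_lit 228) (nat_lit 76613820111) (nat_lit 13) (nat_lit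 5) (nat_lit 15) (nat_lit 5) (nat_lit 16) (nat_lit 5) (nat_lit 309) (nat_lit 287) (nat_lit 124)) (XT.lf (nat_lit 0) (nat_lit 27234461401) (nat_lit 76) (nat_lit 405751285244) (nat_lit 152) (nat_lit 26778649541) (nat_lit 12) (nat_lit 5) (nat_lit 13) (nat_lit 5) (nat_lit 14) (nat_lit 4) (nat_lit 310) (nat_lit 287) (nat_lit 123))))) (XT.nd (nat_lit 234) (nat_lit 76) (nat_lit 0) (XT.nd (nat_lit 78) (nat_lit 152) (nat_lit 0) (XT.lf (nat_lit 0) (nat_lit 30896942620) (nat_lit 152) (nat_lit 280910968317) (nat_lit 76) (nat_lit 174793941189) (nat_lit 11) (nat_lit 5) (nat_lit 13) (nat_lit 5) (nat_lit 12) (nat_lit 5) (nat_lit 311) (nat_lit 287) (nat_lit 122)) (XT.nd (nat_lit 78) (nat_lit 152) (nat_lit 0) (XT.lf (nat_lit 0) (nat_lit 91739782329) (nat_lit 152) (nat_lit 117858119685) (nat_lit 76) (nat_lit 305932763410) (nat_lit 11) (nat_lit 5) (nat_lit 13) (nat_lit 5) (nat_lit 12) (nat_lit 5) (nat_lit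 312) (nat_lit 287) (nat_lit 121)) (XT.lf (nat_lit 0) (nat_lit 61305633451) (nat_lit 152) (nat_lit 97618764755) (nat_lit 228) (nat_lit 387731437894) (nat_lit 9) (nat_lit 5) (nat_lit 11) (nat_lit 5) (nat_lit 12) (nat_lit 5) (nat_lit 313) (nat_lit 287) (nat_lit 120)))) (XT.nd (nat_lit 78) (nat_lit 76) (nat_lit 0) (XT.lf (nat_lit 0) (nat_lit 235350697043) (nat_lit 228) (nat_lit 319152638380) (nat_lit 76) (nat_lit 25458332130) (nat_lit 9) (nat_lit 5) (nat_lit 12) (nat_lit 5) (nat_lit 10) (nat_lit 4) (nat_lit 314) (nat_lit 287) (nat_lit 119)) (XT.nd (nat_lit 78) (nat_lit 76) (nat_lit 0) (XT.lf (nat_lit 0) (nat_lit 320426604391) (nat_lit 228) (nat_lit 142194896391) (nat_lit 76) (nat_lit 153107624571) (nat_lit 9) (nat_lit 5) (nat_lit 12) (nat_lit 5) (nat_lit 10) (nat_lit 4) (nat_lit 315) (nat_lit 287) (nat_lit 118)) (XT.lf (nat_lit 0) (nat_lit 51495404097) (nat_lit 76) (nat_lit 362051601747)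 (nat_lit 152) (nat_lit 240711900400) (nat_lit 8) (nat_lit 5) (nat_lit 9) (nat_lit 5) (nat_lit 10) (nat_lit 4) (nat_lit 316) (nat_lit 287) (nat_lit 117)))))) (XT.nd (nat_lit 468) (nat_lit 76) (nat_lit 0) (XT.nd (nat_lit 234) (nat_lit 152) (nat_lit 0) (XT.nd (nat_lit 78) (nat_lit 0) (nat_lit 0) (XT.lf (nat_lit 0) (nat_lit 268767610610) (nat_lit 76) (nat_lit 249237246715) (nat_lit 152) (nat_lit 177555187018) (nat_lit 8) (nat_lit 5) (nat_lit 9) (nat_lit 5) (nat_lit 10) (nat_lit 4) (nat_lit 317) (nat_lit 287) (nat_lit 116)) (XT.nd (nat_lit 78) (nat_lit 0) (nat_lit 0) (XT.lf (nat_lit 0) (nat_lit 503421530895) (nat_lit 76) (nat_lit 127397766635) (nat_lit 152) (nat_lit 109345979273) (nat_lit 8) (nat_lit 5) (nat_lit 9) (nat_lit 5) (nat_lit 10) (nat_lit 4) (nat_lit 318) (nat_lit 287) (nat_lit 115)) (XT.lf (nat_lit 0) (nat_lit 752759598423) (nat_lit 152) (nat_lit 31591966172) (nat_lit 0) (nat_lit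 3979306973) (nat_lit 8) (nat_lit 5) (nat_lit 10) (nat_lit 4) (nat_lit 8) (nat_lit 4) (nat_lit 319) (nat_lit 287) (nat_lit 114)))) (XT.nd (nat_lit 78) (nat_lit 0) (nat_lit 0) (XT.lf (nat_lit 0) (nat_lit 50142410944) (nat_lit 152) (nat_lit 644484168246) (nat_lit 76) (nat_lit 144978809345) (nat_lit 6) (nat_lit 5) (nat_lit 8) (nat_lit 5) (nat_lit 7) (nat_lit 4) (nat_lit 320) (nat_lit 287) (nat_lit 113)) (XT.nd (nat_lit 78) (nat_lit 0) (nat_lit 0) (XT.lf (nat_lit 0) (nat_lit 141677599263) (nat_lit 152) (nat_lit 454091061321) (nat_lit 76) (nat_lit 299068397483) (nat_lit 6) (nat_lit 5) (nat_lit 8) (nat_lit 5) (nat_lit 7) (nat_lit 4) (nat_lit 321) (nat_lit 287) (nat_lit 112)) (XT.lf (nat_lit 0) (nat_lit 240535571154) (nat_lit 152) (nat_lit 248466558287) (nat_lit 76) (nat_lit 465485134349) (nat_lit 6) (nat_lit 5) (nat_lit 8) (nat_lit 5) (nat_lit 7) (nat_lit 4) (nat_lit 322) (nat_lit 287) (nat_lit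 111))))) (XT.nd (nat_lit 34788) (nat_lit 0) (nat_lit 1824) (XT.nd (nat_lit 78) (nat_lit 76) (nat_lit 0) (XT.lf (nat_lit 0) (nat_lit 347302151635) (nat_lit 152) (nat_lit 26392143570) (nat_lit 76) (nat_lit 645215193199) (nat_lit 6) (nat_lit 5) (nat_lit 8) (nat_lit 5) (nat_lit 7) (nat_lit 4) (nat_lit 323) (nat_lit 287) (nat_lit 110)) (XT.nd (nat_lit 78) (nat_lit 0) (nat_lit 0) (XT.lf (nat_lit 0) (nat_lit 224687982221) (nat_lit 76) (nat_lit 243325800708) (nat_lit 152) (nat_lit 620039410201) (nat_lit 5) (nat_lit 5) (nat_lit 6) (nat_lit 5) (nat_lit 7) (nat_lit 4) (nat_lit 324) (nat_lit 287) (nat_lit 109)) (XT.lf (nat_lit 0) (nat_lit 497355418842) (nat_lit 76) (nat_lit 101748507806) (nat_lit 152) (nat_lit 563566741119) (nat_lit 5) (nat_lit 5) (nat_lit 6) (nat_lit 5) (nat_lit 7) (nat_lit 4) (nat_lit 325) (nat_lit 287) (nat_lit 108)))) (XT.nd (nat_lit 78) (nat_lit 0) (nat_lit 0) (XT.lf (nat_lit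 0) (nat_lit 14439377453) (nat_lit 532) (nat_lit 34164129462) (nat_lit 532) (nat_lit 34164129462) (nat_lit 29) (nat_lit 3) (nat_lit 36) (nat_lit 3) (nat_lit 36) (nat_lit 5) (nat_lit 288) (nat_lit 288) (nat_lit 144)) (XT.nd (nat_lit 78) (nat_lit 0) (nat_lit 76) (XT.lf (nat_lit 0) (nat_lit 30035991962) (nat_lit 532) (nat_lit 1224726559) (nat_lit 532) (nat_lit 140895783348) (nat_lit 29) (nat_lit 3) (nat_lit 36) (nat_lit 3) (nat_lit 36) (nat_lit 5) (nat_lit 289) (nat_lit 288) (nat_lit 143)) (XT.lf (nat_lit 0) (nat_lit 34097242020) (nat_lit 456) (nat_lit 105172357425) (nat_lit 532) (nat_lit 39812916629) (nat_lit 30) (nat_lit 5) (nat_lit 36) (nat_lit 5) (nat_lit 37) (nat_lit 5) (nat_lit 290) (nat_lit 288) (nat_lit 142))))))))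
noncomputable def xc119 : XT := (XT.nd (nat_lit 1872) (nat_lit 304) (nat_lit 0) (XT.nd (nat_lit 936) (nat_lit 912) (nat_lit 0) (XT.nd (nat_lit 468) (nat_lit 684) (nat_lit 0) (XT.nd (nat_lit 234) (nat_lit 0) (nat_lit 76) (XT.nd (nat_lit 78) (nat_lit 0) (nat_lit 76) (XT.lf (nat_lit 0) (nat_lit 39329520836) (nat_lit 456) (nat_lit 32247412766) (nat_lit 532) (nat_lit 114917988889) (nat_lit 30) (nat_lit 5) (nat_lit 36) (nat_lit 5) (nat_lit 37) (nat_lit 5) (nat_lit 291) (nat_lit 288) (nat_lit 141)) (XT.nd (nat_lit 78) (nat_lit 0) (nat_lit 0) (XT.lf (nat_lit 0) (nat_lit 46225116412) (nat_lit 456) (nat_lit 145512931138) (nat_lit 532) (nat_lit 2662696388) (nat_lit 31) (nat_lit 5) (nat_lit 37) (nat_lit 5) (nat_lit 38) (nat_lit 5) (nat_lit 292) (nat_lit 288) (nat_lit 140)) (XT.lf (nat_lit 0) (nat_lit 56435935688) (nat_lit 456) (nat_lit 66402875133) (nat_lit 532) (nat_lit 79879135374) (nat_lit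 31) (nat_lit 5) (nat_lit 37) (nat_lit 5) (nat_lit 38) (nat_lit 5) (nat_lit 293) (nat_lit 288) (nat_lit 139)))) (XT.nd (nat_lit 78) (nat_lit 0) (nat_lit 76) (XT.lf (nat_lit 76) (nat_lit 20038256945) (nat_lit 0) (nat_lit 47907128727) (nat_lit 532) (nat_lit 143716598840) (nat_lit 32) (nat_lit 5) (nat_lit 31) (nat_lit 5) (nat_lit 38) (nat_lit 5) (nat_lit 294) (nat_lit 288) (nat_lit 138)) (XT.nd (nat_lit 78) (nat_lit 0) (nat_lit 0) (XT.lf (nat_lit 0) (nat_lit 83032285389) (nat_lit 456) (nat_lit 104846631206) (nat_lit 76) (nat_lit 33230094811) (nat_lit 32) (nat_lit 5) (nat_lit 38) (nat_lit 5) (nat_lit 33) (nat_lit 5) (nat_lit 295) (nat_lit 288) (nat_lit 137)) (XT.lf (nat_lit 0) (nat_lit 100570342784) (nat_lit 456) (nat_lit 12371831708) (nat_lit 76) (nat_lit 118270090441) (nat_lit 32) (nat_lit 5) (nat_lit 38) (nat_lit 5) (nat_lit 33) (nat_lit 5) (nat_lit 296) (nat_lit 288) (nat_lit 136)))))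 (XT.nd (nat_lit 234) (nat_lit 152) (nat_lit 0) (XT.nd (nat_lit 78) (nat_lit 228) (nat_lit 0) (XT.lf (nat_lit 0) (nat_lit 92108476367) (nat_lit 456) (nat_lit 29618054193) (nat_lit 532) (nat_lit 120220042185) (nat_lit 26) (nat_lit 5) (nat_lit 32) (nat_lit 5) (nat_lit 33) (nat_lit 5) (nat_lit 297) (nat_lit 288) (nat_lit 135)) (XT.nd (nat_lit 78) (nat_lit 228) (nat_lit 0) (XT.lf (nat_lit 0) (nat_lit 146374096777) (nat_lit 532) (nat_lit 49322613750) (nat_lit 76) (nat_lit 57699004784) (nat_lit 26) (nat_lit 5) (nat_lit 33) (nat_lit 5) (nat_lit 27) (nat_lit 5) (nat_lit 298) (nat_lit 288) (nat_lit 134)) (XT.lf (nat_lit 0) (nat_lit 61543341630) (nat_lit 228) (nat_lit 113699435883) (nat_lit 304) (nat_lit 90338067775) (nat_lit 23) (nat_lit 5) (nat_lit 26) (nat_lit 5) (nat_lit 27) (nat_lit 5) (nat_lit 299) (nat_lit 288) (nat_lit 133)))) (XT.nd (nat_lit 78) (nat_lit 152) (nat_lit 0) (XT.lf (nat_lit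 0) (nat_lit 184083484098) (nat_lit 228) (nat_lit 23685932024) (nat_lit 304) (nat_lit 70863493156) (nat_lit 23) (nat_lit 5) (nat_lit 26) (nat_lit 5) (nat_lit 27) (nat_lit 5) (nat_lit 300) (nat_lit 288) (nat_lit 132)) (XT.nd (nat_lit 78) (nat_lit 0) (nat_lit 0) (XT.lf (nat_lit 0) (nat_lit 23083977609) (nat_lit 152) (nat_lit 222137647620) (nat_lit 228) (nat_lit 47321638641) (nat_lit 21) (nat_lit 5) (nat_lit 23) (nat_lit 5) (nat_lit 24) (nat_lit 5) (nat_lit 301) (nat_lit 288) (nat_lit 131)) (XT.lf (nat_lit 0) (nat_lit 154857439478) (nat_lit 152) (nat_lit 133997272194) (nat_lit 228) (nat_lit 18456959701) (nat_lit 21) (nat_lit 5) (nat_lit 23) (nat_lit 5) (nat_lit 24) (nat_lit 5) (nat_lit 302) (nat_lit 288) (nat_lit 130)))))) (XT.nd (nat_lit 468) (nat_lit 456) (nat_lit 0) (XT.nd (nat_lit 234) (nat_lit 152) (nat_lit 0) (XT.nd (nat_lit 78) (nat_lit 228) (nat_lit 0) (XT.lf (nat_lit 0) (nat_lit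 12080655040) (nat_lit 228) (nat_lit 26394719337) (nat_lit 76) (nat_lit 284761717316) (nat_lit 20) (nat_lit 5) (nat_lit 23) (nat_lit 5) (nat_lit 21) (nat_lit 5) (nat_lit 303) (nat_lit 288) (nat_lit 129)) (XT.nd (nat_lit 78) (nat_lit 0) (nat_lit 0) (XT.lf (nat_lit 0) (nat_lit 48470431723) (nat_lit 304) (nat_lit 226792929639) (nat_lit 76) (nat_lit 64782327981) (nat_lit 17) (nat_lit 5) (nat_lit 21) (nat_lit 5) (nat_lit 18) (nat_lit 5) (nat_lit 304) (nat_lit 288) (nat_lit 128)) (XT.lf (nat_lit 0) (nat_lit 89511096099) (nat_lit 304) (nat_lit 93586318269) (nat_lit 76) (nat_lit 174962384428) (nat_lit 17) (nat_lit 5) (nat_lit 21) (nat_lit 5) (nat_lit 18) (nat_lit 5) (nat_lit 305) (nat_lit 288) (nat_lit 127)))) (XT.nd (nat_lit 78) (nat_lit 0) (nat_lit 0) (XT.lf (nat_lit 0) (nat_lit 52924212290) (nat_lit 152) (nat_lit 82183557587) (nat_lit 228) (nat_lit 242305447028) (nat_lit 15) (nat_lit 5)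 (nat_lit 17) (nat_lit 5) (nat_lit 18) (nat_lit 5) (nat_lit 306) (nat_lit 288) (nat_lit 126)) (XT.nd (nat_lit 78) (nat_lit 0) (nat_lit 0) (XT.lf (nat_lit 0) (nat_lit 187622009025) (nat_lit 228) (nat_lit 182343462596) (nat_lit 76) (nat_lit 28087850697) (nat_lit 15) (nat_lit 5) (nat_lit 18) (nat_lit 5) (nat_lit 16) (nat_lit 5) (nat_lit 307) (nat_lit 288) (nat_lit 125)) (XT.lf (nat_lit 0) (nat_lit 246471960652) (nat_lit 228) (nat_lit 30961004137) (nat_lit 76) (nat_lit 142740905851) (nat_lit 15) (nat_lit 5) (nat_lit 18) (nat_lit 5) (nat_lit 16) (nat_lit 5) (nat_lit 308) (nat_lit 288) (nat_lit 124))))) (XT.nd (nat_lit 234) (nat_lit 228) (nat_lit 0) (XT.nd (nat_lit 78) (nat_lit 76) (nat_lit 0) (XT.lf (nat_lit 0) (nat_lit 139510867130) (nat_lit 152) (nat_lit 173874221255) (nat_lit 228) (nat_lit 130410560363) (nat_lit 13) (nat_lit 5) (nat_lit 15) (nat_lit 5) (nat_lit 16) (nat_lit 5) (nat_lit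 309) (nat_lit 288) (nat_lit 123)) (XT.nd (nat_lit 78) (nat_lit 76) (nat_lit 0) (XT.lf (nat_lit 0) (nat_lit 325381187462) (nat_lit 152) (nat_lit 61116550356) (nat_lit 228) (nat_lit 82741713864) (nat_lit 13) (nat_lit 5) (nat_lit 15) (nat_lit 5) (nat_lit 16) (nat_lit 5) (nat_lit 310) (nat_lit 288) (nat_lit 122)) (XT.lf (nat_lit 0) (nat_lit 29414828849) (nat_lit 76) (nat_lit 438210860347) (nat_lit 152) (nat_lit 28919766729) (nat_lit 12) (nat_lit 5) (nat_lit 13) (nat_lit 5) (nat_lit 14) (nat_lit 4) (nat_lit 311) (nat_lit 288) (nat_lit 121)))) (XT.nd (nat_lit 78) (nat_lit 152) (nat_lit 0) (XT.lf (nat_lit 0) (nat_lit 33369731372) (nat_lit 152) (nat_lit 303382295561) (nat_lit 76) (nat_lit 188777886126) (nat_lit 11) (nat_lit 5) (nat_lit 13) (nat_lit 5) (nat_lit 12) (nat_lit 5) (nat_lit 312) (nat_lit 288) (nat_lit 120)) (XT.nd (nat_lit 78) (nat_lit 152) (nat_lit 0) (XT.lf (nat_lit 0) (nat_lit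 99079921713) (nat_lit 152) (nat_lit 127285333870) (nat_lit 76) (nat_lit 330407782300) (nat_lit 11) (nat_lit 5) (nat_lit 13) (nat_lit 5) (nat_lit 12) (nat_lit 5) (nat_lit 313) (nat_lit 288) (nat_lit 119)) (XT.lf (nat_lit 0) (nat_lit 66211483179) (nat_lit 152) (nat_lit 105427786455) (nat_lit 228) (nat_lit 418748955870) (nat_lit 9) (nat_lit 5) (nat_lit 11) (nat_lit 5) (nat_lit 12) (nat_lit 5) (nat_lit 314) (nat_lit 288) (nat_lit 118))))))) (XT.nd (nat_lit 35568) (nat_lit 0) (nat_lit 1368) (XT.nd (nat_lit 468) (nat_lit 228) (nat_lit 0) (XT.nd (nat_lit 234) (nat_lit 0) (nat_lit 0) (XT.nd (nat_lit 78) (nat_lit 76) (nat_lit 0) (XT.lf (nat_lit 0) (nat_lit 254179614938) (nat_lit 228) (nat_lit 344683492965) (nat_lit 76) (nat_lit 27495420455) (nat_lit 9) (nat_lit 5) (nat_lit 12) (nat_lit 5) (nat_lit 10) (nat_lit 4) (nat_lit 315) (nat_lit 288) (nat_lit 117)) (XT.nd (nat_lit 78) (nat_lit 76) (nat_lit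 0) (XT.lf (nat_lit 0) (nat_lit 346061531013) (nat_lit 228) (nat_lit 153569232098) (nat_lit 76) (nat_lit 165356625051) (nat_lit 9) (nat_lit 5) (nat_lit 12) (nat_lit 5) (nat_lit 10) (nat_lit 4) (nat_lit 316) (nat_lit 288) (nat_lit 116)) (XT.lf (nat_lit 0) (nat_lit 55616260632) (nat_lit 76) (nat_lit 391015274261) (nat_lit 152) (nat_lit 259968019253) (nat_lit 8) (nat_lit 5) (nat_lit 9) (nat_lit 5) (nat_lit 10) (nat_lit 4) (nat_lit 317) (nat_lit 288) (nat_lit 115)))) (XT.nd (nat_lit 78) (nat_lit 0) (nat_lit 0) (XT.lf (nat_lit 0) (nat_lit 290270152984) (nat_lit 76) (nat_lit 269175804577) (nat_lit 152) (nat_lit 191758830518) (nat_lit 8) (nat_lit 5) (nat_lit 9) (nat_lit 5) (nat_lit 10) (nat_lit 4) (nat_lit 318) (nat_lit 288) (nat_lit 114)) (XT.nd (nat_lit 78) (nat_lit 0) (nat_lit 0) (XT.lf (nat_lit 0) (nat_lit 543696302927) (nat_lit 76) (nat_lit 137589197340) (nat_lit 152) (nat_lit 118092943298)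 (nat_lit 8) (nat_lit 5) (nat_lit 9) (nat_lit 5) (nat_lit 10) (nat_lit 4) (nat_lit 319) (nat_lit 288) (nat_lit 113)) (XT.lf (nat_lit 0) (nat_lit 812980985120) (nat_lit 152) (nat_lit 34118309070) (nat_lit 0) (nat_lit 4297995129) (nat_lit 8) (nat_lit 5) (nat_lit 10) (nat_lit 4) (nat_lit 8) (nat_lit 4) (nat_lit 320) (nat_lit 288) (nat_lit 112))))) (XT.nd (nat_lit 234) (nat_lit 76) (nat_lit 0) (XT.nd (nat_lit 78) (nat_lit 0) (nat_lit 0) (XT.lf (nat_lit 0) (nat_lit 54154418255) (nat_lit 152) (nat_lit 696041878518) (nat_lit 76) (nat_lit 156577471572) (nat_lit 6) (nat_lit 5) (nat_lit 8) (nat_lit 5) (nat_lit 7) (nat_lit 4) (nat_lit 321) (nat_lit 288) (nat_lit 111)) (XT.nd (nat_lit 78) (nat_lit 0) (nat_lit 0) (XT.lf (nat_lit 0) (nat_lit 153012376126) (nat_lit 152) (nat_lit 490417398831) (nat_lit 76) (nat_lit 322994200281) (nat_lit 6) (nat_lit 5) (nat_lit 8) (nat_lit 5) (nat_lit 7) (nat_lit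 4) (nat_lit 322) (nat_lit 288) (nat_lit 110)) (XT.lf (nat_lit 0) (nat_lit 259778943626) (nat_lit 152) (nat_lit 268343005732) (nat_lit 76) (nat_lit 502724251578) (nat_lit 6) (nat_lit 5) (nat_lit 8) (nat_lit 5) (nat_lit 7) (nat_lit 4) (nat_lit 323) (nat_lit 288) (nat_lit 109)))) (XT.nd (nat_lit 78) (nat_lit 76) (nat_lit 0) (XT.lf (nat_lit 0) (nat_lit 375086811525) (nat_lit 152) (nat_lit 28502702817) (nat_lit 76) (nat_lit 696832692433) (nat_lit 6) (nat_lit 5) (nat_lit 8) (nat_lit 5) (nat_lit 7) (nat_lit 4) (nat_lit 324) (nat_lit 288) (nat_lit 108)) (XT.nd (nat_lit 34710) (nat_lit 0) (nat_lit 1824) (XT.lf (nat_lit 0) (nat_lit 242663812475) (nat_lit 76) (nat_lit 262791543757) (nat_lit 152) (nat_lit 669642053139) (nat_lit 5) (nat_lit 5) (nat_lit 6) (nat_lit 5) (nat_lit 7) (nat_lit 4) (nat_lit 325) (nat_lit 288) (nat_lit 107)) (XT.lf (nat_lit 0) (nat_lit 15596564320) (nat_lit 532) (nat_lit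 36896152771) (nat_lit 532) (nat_lit 36896152771) (nat_lit 29) (nat_lit 3) (nat_lit 36) (nat_lit 3) (nat_lit 36) (nat_lit 5) (nat_lit 289) (nat_lit 289) (nat_lit 142)))))) (XT.nd (nat_lit 468) (nat_lit 456) (nat_lit 0) (XT.nd (nat_lit 234) (nat_lit 0) (nat_lit 152) (XT.nd (nat_lit 78) (nat_lit 0) (nat_lit 76) (XT.lf (nat_lit 0) (nat_lit 32442642932) (nat_lit 532) (nat_lit 1320654596) (nat_lit 532) (nat_lit 152165395927) (nat_lit 29) (nat_lit 3) (nat_lit 36) (nat_lit 3) (nat_lit 36) (nat_lit 5) (nat_lit 290) (nat_lit 289) (nat_lit 141)) (XT.nd (nat_lit 78) (nat_lit 0) (nat_lit 0) (XT.lf (nat_lit 0) (nat_lit 36828524584) (nat_lit 456) (nat_lit 113583802673) (nat_lit 532) (nat_lit 42996484999) (nat_lit 30) (nat_lit 5) (nat_lit 36) (nat_lit 5) (nat_lit 37) (nat_lit 5) (nat_lit 291) (nat_lit 289) (nat_lit 140)) (XT.lf (nat_lit 0) (nat_lit 42479126208) (nat_lit 456) (nat_lit 34825036022)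 (nat_lit 532) (nat_lit 124110071556) (nat_lit 30) (nat_lit 5) (nat_lit 36) (nat_lit 5) (nat_lit 37) (nat_lit 5) (nat_lit 292) (nat_lit 289) (nat_lit 139)))) (XT.nd (nat_lit 78) (nat_lit 0) (nat_lit 0) (XT.lf (nat_lit 0) (nat_lit 49926157424) (nat_lit 456) (nat_lit 157151562554) (nat_lit 532) (nat_lit 2874819635) (nat_lit 31) (nat_lit 5) (nat_lit 37) (nat_lit 5) (nat_lit 38) (nat_lit 5) (nat_lit 293) (nat_lit 289) (nat_lit 138)) (XT.nd (nat_lit 78) (nat_lit 0) (nat_lit 0) (XT.lf (nat_lit 0) (nat_lit 60953617672) (nat_lit 456) (nat_lit 71712880075) (nat_lit 532) (nat_lit 86268639849) (nat_lit 31) (nat_lit 5) (nat_lit 37) (nat_lit 5) (nat_lit 38) (nat_lit 5) (nat_lit 294) (nat_lit 289) (nat_lit 137)) (XT.lf (nat_lit 76) (nat_lit 21643486239) (nat_lit 0) (nat_lit 51740181638) (nat_lit 532) (nat_lit 155211045024) (nat_lit 32) (nat_lit 5) (nat_lit 31) (nat_lit 5) (nat_lit 38) (nat_lit 5)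 (nat_lit 295) (nat_lit 289) (nat_lit 136))))) (XT.nd (nat_lit 234) (nat_lit 228) (nat_lit 0) (XT.nd (nat_lit 78) (nat_lit 456) (nat_lit 0) (XT.lf (nat_lit 0) (nat_lit 89677312428) (nat_lit 456) (nat_lit 113232129557) (nat_lit 76) (nat_lit 35888077886) (nat_lit 32) (nat_lit 5) (nat_lit 38) (nat_lit 5) (nat_lit 33) (nat_lit 5) (nat_lit 296) (nat_lit 289) (nat_lit 135)) (XT.nd (nat_lit 78) (nat_lit 456) (nat_lit 0) (XT.lf (nat_lit 0) (nat_lit 108618233363) (nat_lit 456) (nat_lit 13359511443) (nat_lit 76) (nat_lit 127731304611) (nat_lit 32) (nat_lit 5) (nat_lit 38) (nat_lit 5) (nat_lit 33) (nat_lit 5) (nat_lit 297) (nat_lit 289) (nat_lit 134)) (XT.lf (nat_lit 0) (nat_lit 99479168954) (nat_lit 456) (nat_lit 31987628014) (nat_lit 532) (nat_lit 129835315581) (nat_lit 26) (nat_lit 5) (nat_lit 32) (nat_lit 5) (nat_lit 33) (nat_lit 5) (nat_lit 298) (nat_lit 289) (nat_lit 133)))) (XT.nd (nat_lit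 78) (nat_lit 228) (nat_lit 0) (XT.lf (nat_lit 0) (nat_lit 158086006786) (nat_lit 532) (nat_lit 53266382473) (nat_lit 76) (nat_lit 62314811271) (nat_lit 26) (nat_lit 5) (nat_lit 33) (nat_lit 5) (nat_lit 27) (nat_lit 5) (nat_lit 299) (nat_lit 289) (nat_lit 132)) (XT.nd (nat_lit 78) (nat_lit 0) (nat_lit 0) (XT.lf (nat_lit 0) (nat_lit 66468797682) (nat_lit 228) (nat_lit 122795285293) (nat_lit 304) (nat_lit 97563066845) (nat_lit 23) (nat_lit 5) (nat_lit 26) (nat_lit 5) (nat_lit 27) (nat_lit 5) (nat_lit 300) (nat_lit 289) (nat_lit 131)) (XT.lf (nat_lit 0) (nat_lit 198812004235) (nat_lit 228) (nat_lit 25580708937) (nat_lit 304) (nat_lit 76530677837) (nat_lit 23) (nat_lit 5) (nat_lit 26) (nat_lit 5) (nat_lit 27) (nat_lit 5) (nat_lit 301) (nat_lit 289) (nat_lit 130))))))))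
noncomputable def xc120 : XT := (XT.nd (nat_lit 36582) (nat_lit 0) (nat_lit 456) (XT.nd (nat_lit 858) (nat_lit 456) (nat_lit 0) (XT.nd (nat_lit 390) (nat_lit 380) (nat_lit 0) (XT.nd (nat_lit 156) (nat_lit 304) (nat_lit 0) (XT.nd (nat_lit 78) (nat_lit 0) (nat_lit 0) (XT.lf (nat_lit 0) (nat_lit 24932635507) (nat_lit 152) (nat_lit 239908383158) (nat_lit 228) (nat_lit 51105562585) (nat_lit 21) (nat_lit 5) (nat_lit 23) (nat_lit 5) (nat_lit 24) (nat_lit 5) (nat_lit 302) (nat_lit 289) (nat_lit 129)) (XT.lf (nat_lit 0) (nat_lit 167247830645) (nat_lit 152) (nat_lit 144716798162) (nat_lit 228) (nat_lit 19931843192) (nat_lit 21) (nat_lit 5) (nat_lit 23) (nat_lit 5) (nat_lit 24) (nat_lit 5) (nat_lit 303) (nat_lit 289) (nat_lit 128))) (XT.nd (nat_lit 78) (nat_lit 228) (nat_lit 0) (XT.lf (nat_lit 0) (nat_lit 13048579277) (nat_lit 228) (nat_lit 28504547949) (nat_lit 76) (nat_lit 307542805596) (nat_lit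 20) (nat_lit 5) (nat_lit 23) (nat_lit 5) (nat_lit 21) (nat_lit 5) (nat_lit 304) (nat_lit 289) (nat_lit 127)) (XT.nd (nat_lit 78) (nat_lit 0) (nat_lit 0) (XT.lf (nat_lit 0) (nat_lit 52349477303) (nat_lit 304) (nat_lit 244934546450) (nat_lit 76) (nat_lit 69965200022) (nat_lit 17) (nat_lit 5) (nat_lit 21) (nat_lit 5) (nat_lit 18) (nat_lit 5) (nat_lit 305) (nat_lit 289) (nat_lit 126)) (XT.lf (nat_lit 0) (nat_lit 96673290307) (nat_lit 304) (nat_lit 101071540805) (nat_lit 76) (nat_lit 188959639814) (nat_lit 17) (nat_lit 5) (nat_lit 21) (nat_lit 5) (nat_lit 18) (nat_lit 5) (nat_lit 306) (nat_lit 289) (nat_lit 125))))) (XT.nd (nat_lit 234) (nat_lit 228) (nat_lit 0) (XT.nd (nat_lit 78) (nat_lit 0) (nat_lit 0) (XT.lf (nat_lit 0) (nat_lit 57159789594) (nat_lit 152) (nat_lit 88757851064) (nat_lit 228) (nat_lit 261688526949) (nat_lit 15) (nat_lit 5) (nat_lit 17) (nat_lit 5) (nat_lit 18) (nat_lit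 5) (nat_lit 307) (nat_lit 289) (nat_lit 124)) (XT.nd (nat_lit 78) (nat_lit 0) (nat_lit 0) (XT.lf (nat_lit 0) (nat_lit 202632935115) (nat_lit 228) (nat_lit 196929330748) (nat_lit 76) (nat_lit 30335222793) (nat_lit 15) (nat_lit 5) (nat_lit 18) (nat_lit 5) (nat_lit 16) (nat_lit 5) (nat_lit 308) (nat_lit 289) (nat_lit 123)) (XT.lf (nat_lit 0) (nat_lit 266190796548) (nat_lit 228) (nat_lit 33436394786) (nat_lit 76) (nat_lit 154160496876) (nat_lit 15) (nat_lit 5) (nat_lit 18) (nat_lit 5) (nat_lit 16) (nat_lit 5) (nat_lit 309) (nat_lit 289) (nat_lit 122)))) (XT.nd (nat_lit 78) (nat_lit 76) (nat_lit 0) (XT.lf (nat_lit 0) (nat_lit 150673188469) (nat_lit 152) (nat_lit 187783741023) (nat_lit 228) (nat_lit 140842283103) (nat_lit 13) (nat_lit 5) (nat_lit 15) (nat_lit 5) (nat_lit 16) (nat_lit 5) (nat_lit 310) (nat_lit 289) (nat_lit 121)) (XT.nd (nat_lit 78) (nat_lit 76) (nat_lit 0) (XT.lf (nat_lit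 0) (nat_lit 351413026873) (nat_lit 152) (nat_lit 66005487409) (nat_lit 228) (nat_lit 89360012003) (nat_lit 13) (nat_lit 5) (nat_lit 15) (nat_lit 5) (nat_lit 16) (nat_lit 5) (nat_lit 311) (nat_lit 289) (nat_lit 120)) (XT.lf (nat_lit 0) (nat_lit 31769395932) (nat_lit 76) (nat_lit 473267276743) (nat_lit 152) (nat_lit 31232340886) (nat_lit 12) (nat_lit 5) (nat_lit 13) (nat_lit 5) (nat_lit 14) (nat_lit 4) (nat_lit 312) (nat_lit 289) (nat_lit 119)))))) (XT.nd (nat_lit 468) (nat_lit 152) (nat_lit 0) (XT.nd (nat_lit 234) (nat_lit 76) (nat_lit 0) (XT.nd (nat_lit 78) (nat_lit 152) (nat_lit 0) (XT.lf (nat_lit 0) (nat_lit 36040195806) (nat_lit 152) (nat_lit 327651550140) (nat_lit 76) (nat_lit 203880485365) (nat_lit 11) (nat_lit 5) (nat_lit 13) (nat_lit 5) (nat_lit 12) (nat_lit 5) (nat_lit 313) (nat_lit 289) (nat_lit 118)) (XT.nd (nat_lit 78) (nat_lit 152) (nat_lit 0) (XT.lf (nat_lit 0) (nat_lit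 107007135750) (nat_lit 152) (nat_lit 137466929963) (nat_lit 76) (nat_lit 356840745948) (nat_lit 11) (nat_lit 5) (nat_lit 13) (nat_lit 5) (nat_lit 12) (nat_lit 5) (nat_lit 314) (nat_lit 289) (nat_lit 117)) (XT.lf (nat_lit 0) (nat_lit 71509601294) (nat_lit 152) (nat_lit 113861598295) (nat_lit 228) (nat_lit 452248017526) (nat_lit 9) (nat_lit 5) (nat_lit 11) (nat_lit 5) (nat_lit 12) (nat_lit 5) (nat_lit 315) (nat_lit 289) (nat_lit 116)))) (XT.nd (nat_lit 78) (nat_lit 76) (nat_lit 0) (XT.lf (nat_lit 0) (nat_lit 274514723273) (nat_lit 228) (nat_lit 372257009435) (nat_lit 76) (nat_lit 29695415678) (nat_lit 9) (nat_lit 5) (nat_lit 12) (nat_lit 5) (nat_lit 10) (nat_lit 4) (nat_lit 316) (nat_lit 289) (nat_lit 115)) (XT.nd (nat_lit 78) (nat_lit 76) (nat_lit 0) (XT.lf (nat_lit 0) (nat_lit 373747137882) (nat_lit 228) (nat_lit 165853693844) (nat_lit 76) (nat_lit 178585489857) (nat_lit 9) (nat_lit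 5) (nat_lit 12) (nat_lit 5) (nat_lit 10) (nat_lit 4) (nat_lit 317) (nat_lit 289) (nat_lit 114)) (XT.lf (nat_lit 0) (nat_lit 60066611043) (nat_lit 76) (nat_lit 422296105576) (nat_lit 152) (nat_lit 280764746477) (nat_lit 8) (nat_lit 5) (nat_lit 9) (nat_lit 5) (nat_lit 10) (nat_lit 4) (nat_lit 318) (nat_lit 289) (nat_lit 113))))) (XT.nd (nat_lit 234) (nat_lit 152) (nat_lit 0) (XT.nd (nat_lit 78) (nat_lit 0) (nat_lit 0) (XT.lf (nat_lit 0) (nat_lit 313492737038) (nat_lit 76) (nat_lit 290709507253) (nat_lit 152) (nat_lit 207098875556) (nat_lit 8) (nat_lit 5) (nat_lit 9) (nat_lit 5) (nat_lit 10) (nat_lit 4) (nat_lit 319) (nat_lit 289) (nat_lit 112)) (XT.nd (nat_lit 78) (nat_lit 0) (nat_lit 0) (XT.lf (nat_lit 0) (nat_lit 587192906990) (nat_lit 76) (nat_lit 148595998229) (nat_lit 152) (nat_lit 127539766351) (nat_lit 8) (nat_lit 5) (nat_lit 9) (nat_lit 5) (nat_lit 10) (nat_lit 4) (nat_lit 320)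 (nat_lit 289) (nat_lit 111)) (XT.lf (nat_lit 0) (nat_lit 878019994471) (nat_lit 152) (nat_lit 36846904114) (nat_lit 0) (nat_lit 4642129318) (nat_lit 8) (nat_lit 5) (nat_lit 10) (nat_lit 4) (nat_lit 8) (nat_lit 4) (nat_lit 321) (nat_lit 289) (nat_lit 110)))) (XT.nd (nat_lit 78) (nat_lit 0) (nat_lit 0) (XT.lf (nat_lit 0) (nat_lit 58487298495) (nat_lit 152) (nat_lit 751724351582) (nat_lit 76) (nat_lit 169103975779) (nat_lit 6) (nat_lit 5) (nat_lit 8) (nat_lit 5) (nat_lit 7) (nat_lit 4) (nat_lit 322) (nat_lit 289) (nat_lit 109)) (XT.nd (nat_lit 78) (nat_lit 0) (nat_lit 0) (XT.lf (nat_lit 0) (nat_lit 165253853975) (nat_lit 152) (nat_lit 529649978498) (nat_lit 76) (nat_lit 348834020082) (nat_lit 6) (nat_lit 5) (nat_lit 8) (nat_lit 5) (nat_lit 7) (nat_lit 4) (nat_lit 323) (nat_lit 289) (nat_lit 108)) (XT.lf (nat_lit 0) (nat_lit 280561710745) (nat_lit 152) (nat_lit 289809694117) (nat_lit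 76) (nat_lit 542942454463) (nat_lit 6) (nat_lit 5) (nat_lit 8) (nat_lit 5) (nat_lit 7) (nat_lit 4) (nat_lit 324) (nat_lit 289) (nat_lit 107))))))) (XT.nd (nat_lit 936) (nat_lit 836) (nat_lit 0) (XT.nd (nat_lit 468) (nat_lit 456) (nat_lit 0) (XT.nd (nat_lit 234) (nat_lit 0) (nat_lit 76) (XT.nd (nat_lit 78) (nat_lit 0) (nat_lit 0) (XT.lf (nat_lit 0) (nat_lit 16846035582) (nat_lit 532) (nat_lit 39846895878) (nat_lit 532) (nat_lit 39846895878) (nat_lit 29) (nat_lit 3) (nat_lit 36) (nat_lit 3) (nat_lit 36) (nat_lit 5) (nat_lit 290) (nat_lit 290) (nat_lit 140)) (XT.nd (nat_lit 78) (nat_lit 0) (nat_lit 76) (XT.lf (nat_lit 0) (nat_lit 35041287916) (nat_lit 532) (nat_lit 1424549343) (nat_lit 532) (nat_lit 164336869981) (nat_lit 29) (nat_lit 3) (nat_lit 36) (nat_lit 3) (nat_lit 36) (nat_lit 5) (nat_lit 291) (nat_lit 290) (nat_lit 139)) (XT.lf (nat_lit 0) (nat_lit 39777809983) (nat_lit 456)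 (nat_lit 122668497845) (nat_lit 532) (nat_lit 46434947832) (nat_lit 30) (nat_lit 5) (nat_lit 36) (nat_lit 5) (nat_lit 37) (nat_lit 5) (nat_lit 292) (nat_lit 290) (nat_lit 138)))) (XT.nd (nat_lit 78) (nat_lit 0) (nat_lit 76) (XT.lf (nat_lit 0) (nat_lit 45880237260) (nat_lit 456) (nat_lit 37609178680) (nat_lit 532) (nat_lit 134037714347) (nat_lit 30) (nat_lit 5) (nat_lit 36) (nat_lit 5) (nat_lit 37) (nat_lit 5) (nat_lit 293) (nat_lit 290) (nat_lit 137)) (XT.nd (nat_lit 78) (nat_lit 0) (nat_lit 0) (XT.lf (nat_lit 0) (nat_lit 53922849212) (nat_lit 456) (nat_lit 169721627309) (nat_lit 532) (nat_lit 3104040063) (nat_lit 31) (nat_lit 5) (nat_lit 37) (nat_lit 5) (nat_lit 38) (nat_lit 5) (nat_lit 294) (nat_lit 290) (nat_lit 136)) (XT.lf (nat_lit 0) (nat_lit 65832313746) (nat_lit 456) (nat_lit 77448002842) (nat_lit 532) (nat_lit 93169422571) (nat_lit 31) (nat_lit 5) (nat_lit 37) (nat_lit 5)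 (nat_lit 38) (nat_lit 5) (nat_lit 295) (nat_lit 290) (nat_lit 135))))) (XT.nd (nat_lit 234) (nat_lit 608) (nat_lit 0) (XT.nd (nat_lit 78) (nat_lit 0) (nat_lit 76) (XT.lf (nat_lit 76) (nat_lit 23376824482) (nat_lit 0) (nat_lit 55879809932) (nat_lit 532) (nat_lit 167625458012) (nat_lit 32) (nat_lit 5) (nat_lit 31) (nat_lit 5) (nat_lit 38) (nat_lit 5) (nat_lit 296) (nat_lit 290) (nat_lit 134)) (XT.nd (nat_lit 78) (nat_lit 0) (nat_lit 0) (XT.lf (nat_lit 0) (nat_lit 96853592937) (nat_lit 456) (nat_lit 122288786217) (nat_lit 76) (nat_lit 38758760168) (nat_lit 32) (nat_lit 5) (nat_lit 38) (nat_lit 5) (nat_lit 33) (nat_lit 5) (nat_lit 297) (nat_lit 290) (nat_lit 133)) (XT.lf (nat_lit 0) (nat_lit 117309632323) (nat_lit 456) (nat_lit 14426500409) (nat_lit 76) (nat_lit 137949471991) (nat_lit 32) (nat_lit 5) (nat_lit 38) (nat_lit 5) (nat_lit 33) (nat_lit 5) (nat_lit 298) (nat_lit 290) (nat_lit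 132)))) (XT.nd (nat_lit 78) (nat_lit 228) (nat_lit 0) (XT.lf (nat_lit 0) (nat_lit 107439229560) (nat_lit 456) (nat_lit 34546749268) (nat_lit 532) (nat_lit 140220143247) (nat_lit 26) (nat_lit 5) (nat_lit 32) (nat_lit 5) (nat_lit 33) (nat_lit 5) (nat_lit 299) (nat_lit 290) (nat_lit 131)) (XT.nd (nat_lit 78) (nat_lit 228) (nat_lit 0) (XT.lf (nat_lit 0) (nat_lit 170734586804) (nat_lit 532) (nat_lit 57525943776) (nat_lit 76) (nat_lit 67299898525) (nat_lit 26) (nat_lit 5) (nat_lit 33) (nat_lit 5) (nat_lit 27) (nat_lit 5) (nat_lit 300) (nat_lit 290) (nat_lit 130)) (XT.lf (nat_lit 0) (nat_lit 71788006505) (nat_lit 228) (nat_lit 132618817701) (nat_lit 304) (nat_lit 105366357775) (nat_lit 23) (nat_lit 5) (nat_lit 26) (nat_lit 5) (nat_lit 27) (nat_lit 5) (nat_lit 301) (nat_lit 290) (nat_lit 129)))))) (XT.nd (nat_lit 468) (nat_lit 380) (nat_lit 0) (XT.nd (nat_lit 234) (nat_lit 304) (nat_lit 0)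 (XT.nd (nat_lit 78) (nat_lit 152) (nat_lit 0) (XT.lf (nat_lit 0) (nat_lit 214718543285) (nat_lit 228) (nat_lit 27627081934) (nat_lit 304) (nat_lit 82651507604) (nat_lit 23) (nat_lit 5) (nat_lit 26) (nat_lit 5) (nat_lit 27) (nat_lit 5) (nat_lit 302) (nat_lit 290) (nat_lit 128)) (XT.nd (nat_lit 78) (nat_lit 0) (nat_lit 0) (XT.lf (nat_lit 0) (nat_lit 26928909319) (nat_lit 152) (nat_lit 259100816951) (nat_lit 228) (nat_lit 55192458254) (nat_lit 21) (nat_lit 5) (nat_lit 23) (nat_lit 5) (nat_lit 24) (nat_lit 5) (nat_lit 303) (nat_lit 290) (nat_lit 127)) (XT.lf (nat_lit 0) (nat_lit 180629196885) (nat_lit 152) (nat_lit 156293922702) (nat_lit 228) (nat_lit 21524956076) (nat_lit 21) (nat_lit 5) (nat_lit 23) (nat_lit 5) (nat_lit 24) (nat_lit 5) (nat_lit 304) (nat_lit 290) (nat_lit 126)))) (XT.nd (nat_lit 78) (nat_lit 228) (nat_lit 0) (XT.lf (nat_lit 0) (nat_lit 14093727479) (nat_lit 228) (nat_lit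 30783412355) (nat_lit 76) (nat_lit 332146359412) (nat_lit 20) (nat_lit 5) (nat_lit 23) (nat_lit 5) (nat_lit 21) (nat_lit 5) (nat_lit 305) (nat_lit 290) (nat_lit 125)) (XT.nd (nat_lit 78) (nat_lit 0) (nat_lit 0) (XT.lf (nat_lit 0) (nat_lit 56538645227) (nat_lit 304) (nat_lit 264527751902) (nat_lit 76) (nat_lit 75562661053) (nat_lit 17) (nat_lit 5) (nat_lit 21) (nat_lit 5) (nat_lit 18) (nat_lit 5) (nat_lit 306) (nat_lit 290) (nat_lit 124)) (XT.lf (nat_lit 0) (nat_lit 104408273661) (nat_lit 304) (nat_lit 109155821231) (nat_lit 76) (nat_lit 204076637878) (nat_lit 17) (nat_lit 5) (nat_lit 21) (nat_lit 5) (nat_lit 18) (nat_lit 5) (nat_lit 307) (nat_lit 290) (nat_lit 123))))) (XT.nd (nat_lit 234) (nat_lit 228) (nat_lit 0) (XT.nd (nat_lit 78) (nat_lit 0) (nat_lit 0) (XT.lf (nat_lit 0) (nat_lit 61733979071) (nat_lit 152) (nat_lit 95858143818) (nat_lit 228) (nat_lit 282622446690) (nat_lit 15)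 (nat_lit 5) (nat_lit 17) (nat_lit 5) (nat_lit 18) (nat_lit 5) (nat_lit 308) (nat_lit 290) (nat_lit 122)) (XT.nd (nat_lit 78) (nat_lit 0) (nat_lit 0) (XT.lf (nat_lit 0) (nat_lit 218844569039) (nat_lit 228) (nat_lit 212682297873) (nat_lit 76) (nat_lit 32762335576) (nat_lit 15) (nat_lit 5) (nat_lit 18) (nat_lit 5) (nat_lit 16) (nat_lit 5) (nat_lit 309) (nat_lit 290) (nat_lit 121)) (XT.lf (nat_lit 0) (nat_lit 287486985379) (nat_lit 228) (nat_lit 36110029207) (nat_lit 76) (nat_lit 166493609736) (nat_lit 15) (nat_lit 5) (nat_lit 18) (nat_lit 5) (nat_lit 16) (nat_lit 5) (nat_lit 310) (nat_lit 290) (nat_lit 120)))) (XT.nd (nat_lit 78) (nat_lit 76) (nat_lit 0) (XT.lf (nat_lit 0) (nat_lit 162728288375) (nat_lit 152) (nat_lit 202806081994) (nat_lit 228) (nat_lit 152108703741) (nat_lit 13) (nat_lit 5) (nat_lit 15) (nat_lit 5) (nat_lit 16) (nat_lit 5) (nat_lit 311) (nat_lit 290) (nat_lit 119))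 (XT.nd (nat_lit 78) (nat_lit 76) (nat_lit 0) (XT.lf (nat_lit 0) (nat_lit 379527221642) (nat_lit 152) (nat_lit 71285594633) (nat_lit 228) (nat_lit 96507922213) (nat_lit 13) (nat_lit 5) (nat_lit 15) (nat_lit 5) (nat_lit 16) (nat_lit 5) (nat_lit 312) (nat_lit 290) (nat_lit 118)) (XT.lf (nat_lit 0) (nat_lit 34312131399) (nat_lit 76) (nat_lit 511128270995) (nat_lit 152) (nat_lit 33730064661) (nat_lit 12) (nat_lit 5) (nat_lit 13) (nat_lit 5) (nat_lit 14) (nat_lit 4) (nat_lit 313) (nat_lit 290) (nat_lit 117))))))))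
noncomputable def xc121 : XT := (XT.nd (nat_lit 36816) (nat_lit 0) (nat_lit 152) (XT.nd (nat_lit 35880) (nat_lit 0) (nat_lit 1140) (XT.nd (nat_lit 468) (nat_lit 152) (nat_lit 0) (XT.nd (nat_lit 234) (nat_lit 76) (nat_lit 0) (XT.nd (nat_lit 78) (nat_lit 152) (nat_lit 0) (XT.lf (nat_lit 0) (nat_lit 38924171007) (nat_lit 152) (nat_lit 353862534692) (nat_lit 76) (nat_lit 220191239994) (nat_lit 11) (nat_lit 5) (nat_lit 13) (nat_lit 5) (nat_lit 12) (nat_lit 5) (nat_lit 314) (nat_lit 290) (nat_lit 116)) (XT.nd (nat_lit 78) (nat_lit 152) (nat_lit 0) (XT.lf (nat_lit 0) (nat_lit 115568409885) (nat_lit 152) (nat_lit 148463229305) (nat_lit 76) (nat_lit 385388298031) (nat_lit 11) (nat_lit 5) (nat_lit 13) (nat_lit 5) (nat_lit 12) (nat_lit 5) (nat_lit 315) (nat_lit 290) (nat_lit 115)) (XT.lf (nat_lit 0) (nat_lit 77231397743) (nat_lit 152) (nat_lit 122970173726) (nat_lit 228) (nat_lit 488427126062)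 (nat_lit 9) (nat_lit 5) (nat_lit 11) (nat_lit 5) (nat_lit 12) (nat_lit 5) (nat_lit 316) (nat_lit 290) (nat_lit 114)))) (XT.nd (nat_lit 78) (nat_lit 76) (nat_lit 0) (XT.lf (nat_lit 0) (nat_lit 296476534827) (nat_lit 228) (nat_lit 402036573132) (nat_lit 76) (nat_lit 32071358934) (nat_lit 9) (nat_lit 5) (nat_lit 12) (nat_lit 5) (nat_lit 10) (nat_lit 4) (nat_lit 317) (nat_lit 290) (nat_lit 113)) (XT.nd (nat_lit 78) (nat_lit 76) (nat_lit 0) (XT.lf (nat_lit 0) (nat_lit 403647495666) (nat_lit 228) (nat_lit 179121066150) (nat_lit 76) (nat_lit 192872616084) (nat_lit 9) (nat_lit 5) (nat_lit 12) (nat_lit 5) (nat_lit 10) (nat_lit 4) (nat_lit 318) (nat_lit 290) (nat_lit 112)) (XT.lf (nat_lit 0) (nat_lit 64872839756) (nat_lit 76) (nat_lit 456079459124) (nat_lit 152) (nat_lit 303225313784) (nat_lit 8) (nat_lit 5) (nat_lit 9) (nat_lit 5) (nat_lit 10) (nat_lit 4) (nat_lit 319) (nat_lit 290) (nat_lit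 111))))) (XT.nd (nat_lit 312) (nat_lit 152) (nat_lit 0) (XT.nd (nat_lit 78) (nat_lit 0) (nat_lit 0) (XT.lf (nat_lit 0) (nat_lit 338572989176) (nat_lit 76) (nat_lit 313965957742) (nat_lit 152) (nat_lit 223666218553) (nat_lit 8) (nat_lit 5) (nat_lit 9) (nat_lit 5) (nat_lit 10) (nat_lit 4) (nat_lit 320) (nat_lit 290) (nat_lit 110)) (XT.nd (nat_lit 78) (nat_lit 0) (nat_lit 0) (XT.lf (nat_lit 0) (nat_lit 634169111007) (nat_lit 76) (nat_lit 160483390966) (nat_lit 152) (nat_lit 137742422615) (nat_lit 8) (nat_lit 5) (nat_lit 9) (nat_lit 5) (nat_lit 10) (nat_lit 4) (nat_lit 321) (nat_lit 290) (nat_lit 109)) (XT.lf (nat_lit 0) (nat_lit 948262048883) (nat_lit 152) (nat_lit 39793910832) (nat_lit 0) (nat_lit 5013752218) (nat_lit 8) (nat_lit 5) (nat_lit 10) (nat_lit 4) (nat_lit 8) (nat_lit 4) (nat_lit 322) (nat_lit 290) (nat_lit 108)))) (XT.nd (nat_lit 34944) (nat_lit 0) (nat_lit 1748) (XT.lf (nat_lit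 0) (nat_lit 178474580468) (nat_lit 152) (nat_lit 572021280414) (nat_lit 76) (nat_lit 376740984984) (nat_lit 6) (nat_lit 5) (nat_lit 8) (nat_lit 5) (nat_lit 7) (nat_lit 4) (nat_lit 324) (nat_lit 290) (nat_lit 106)) (XT.nd (nat_lit 78) (nat_lit 0) (nat_lit 0) (XT.lf (nat_lit 0) (nat_lit 18195215443) (nat_lit 532) (nat_lit 43033833835) (nat_lit 532) (nat_lit 43033833835) (nat_lit 29) (nat_lit 3) (nat_lit 36) (nat_lit 3) (nat_lit 36) (nat_lit 5) (nat_lit 291) (nat_lit 291) (nat_lit 138)) (XT.lf (nat_lit 0) (nat_lit 37847363197) (nat_lit 532) (nat_lit 1537006414) (nat_lit 532) (nat_lit 177482312703) (nat_lit 29) (nat_lit 3) (nat_lit 36) (nat_lit 3) (nat_lit 36) (nat_lit 5) (nat_lit 292) (nat_lit 291) (nat_lit 137)))))) (XT.nd (nat_lit 468) (nat_lit 684) (nat_lit 0) (XT.nd (nat_lit 234) (nat_lit 0) (nat_lit 76) (XT.nd (nat_lit 78) (nat_lit 0) (nat_lit 0) (XT.lf (nat_lit 0) (nat_lit 42962609740)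 (nat_lit 456) (nat_lit 132480255243) (nat_lit 532) (nat_lit 50148666869) (nat_lit 30) (nat_lit 5) (nat_lit 36) (nat_lit 5) (nat_lit 37) (nat_lit 5) (nat_lit 293) (nat_lit 291) (nat_lit 136)) (XT.nd (nat_lit 78) (nat_lit 0) (nat_lit 76) (XT.lf (nat_lit 0) (nat_lit 49553040462) (nat_lit 456) (nat_lit 40616318133) (nat_lit 532) (nat_lit 144759734468) (nat_lit 30) (nat_lit 5) (nat_lit 36) (nat_lit 5) (nat_lit 37) (nat_lit 5) (nat_lit 294) (nat_lit 291) (nat_lit 135)) (XT.lf (nat_lit 0) (nat_lit 58238905538) (nat_lit 456) (nat_lit 183297591162) (nat_lit 532) (nat_lit 3351707280) (nat_lit 31) (nat_lit 5) (nat_lit 37) (nat_lit 5) (nat_lit 38) (nat_lit 5) (nat_lit 295) (nat_lit 291) (nat_lit 134)))) (XT.nd (nat_lit 78) (nat_lit 0) (nat_lit 0) (XT.lf (nat_lit 0) (nat_lit 71100962170) (nat_lit 456) (nat_lit 83642207577) (nat_lit 532) (nat_lit 100622368981) (nat_lit 31) (nat_lit 5) (nat_lit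 37) (nat_lit 5) (nat_lit 38) (nat_lit 5) (nat_lit 296) (nat_lit 291) (nat_lit 133)) (XT.nd (nat_lit 78) (nat_lit 0) (nat_lit 76) (XT.lf (nat_lit 76) (nat_lit 25248564528) (nat_lit 0) (nat_lit 60350549462) (nat_lit 532) (nat_lit 181033376500) (nat_lit 32) (nat_lit 5) (nat_lit 31) (nat_lit 5) (nat_lit 38) (nat_lit 5) (nat_lit 297) (nat_lit 291) (nat_lit 132)) (XT.lf (nat_lit 0) (nat_lit 104603676938) (nat_lit 456) (nat_lit 132070248420) (nat_lit 76) (nat_lit 41859148954) (nat_lit 32) (nat_lit 5) (nat_lit 38) (nat_lit 5) (nat_lit 33) (nat_lit 5) (nat_lit 298) (nat_lit 291) (nat_lit 131))))) (XT.nd (nat_lit 234) (nat_lit 380) (nat_lit 0) (XT.nd (nat_lit 78) (nat_lit 456) (nat_lit 0) (XT.lf (nat_lit 0) (nat_lit 126696066396) (nat_lit 456) (nat_lit 15579101281) (nat_lit 76) (nat_lit 148985140835) (nat_lit 32) (nat_lit 5) (nat_lit 38) (nat_lit 5) (nat_lit 33) (nat_lit 5) (nat_lit 299) (nat_lit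 291) (nat_lit 130)) (XT.nd (nat_lit 78) (nat_lit 0) (nat_lit 0) (XT.lf (nat_lit 0) (nat_lit 116035848626) (nat_lit 456) (nat_lit 37310584385) (nat_lit 532) (nat_lit 151436042103) (nat_lit 26) (nat_lit 5) (nat_lit 32) (nat_lit 5) (nat_lit 33) (nat_lit 5) (nat_lit 300) (nat_lit 291) (nat_lit 129)) (XT.lf (nat_lit 0) (nat_lit 184394810774) (nat_lit 532) (nat_lit 62126519541) (nat_lit 76) (nat_lit 72683806690) (nat_lit 26) (nat_lit 5) (nat_lit 33) (nat_lit 5) (nat_lit 27) (nat_lit 5) (nat_lit 301) (nat_lit 291) (nat_lit 128)))) (XT.nd (nat_lit 78) (nat_lit 152) (nat_lit 0) (XT.lf (nat_lit 0) (nat_lit 77532508796) (nat_lit 228) (nat_lit 143228245600) (nat_lit 304) (nat_lit 113794162267) (nat_lit 23) (nat_lit 5) (nat_lit 26) (nat_lit 5) (nat_lit 27) (nat_lit 5) (nat_lit 302) (nat_lit 291) (nat_lit 127)) (XT.nd (nat_lit 78) (nat_lit 152) (nat_lit 0) (XT.lf (nat_lit 0) (nat_lit 231897380239)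 (nat_lit 228) (nat_lit 29837176715) (nat_lit 304) (nat_lit 89262235499) (nat_lit 23) (nat_lit 5) (nat_lit 26) (nat_lit 5) (nat_lit 27) (nat_lit 5) (nat_lit 303) (nat_lit 291) (nat_lit 126)) (XT.lf (nat_lit 0) (nat_lit 29084647794) (nat_lit 152) (nat_lit 279828679239) (nat_lit 228) (nat_lit 59606526607) (nat_lit 21) (nat_lit 5) (nat_lit 23) (nat_lit 5) (nat_lit 24) (nat_lit 5) (nat_lit 304) (nat_lit 291) (nat_lit 125))))))) (XT.nd (nat_lit 936) (nat_lit 228) (nat_lit 0) (XT.nd (nat_lit 468) (nat_lit 304) (nat_lit 0) (XT.nd (nat_lit 234) (nat_lit 152) (nat_lit 0) (XT.nd (nat_lit 78) (nat_lit 304) (nat_lit 0) (XT.lf (nat_lit 0) (nat_lit 195080852755) (nat_lit 152) (nat_lit 168797248492) (nat_lit 228) (nat_lit 23245722647) (nat_lit 21) (nat_lit 5) (nat_lit 23) (nat_lit 5) (nat_lit 24) (nat_lit 5) (nat_lit 305) (nat_lit 291) (nat_lit 124)) (XT.nd (nat_lit 78) (nat_lit 228) (nat_lit 0)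 (XT.lf (nat_lit 0) (nat_lit 15222307519) (nat_lit 228) (nat_lit 33244799824) (nat_lit 76) (nat_lit 358718179077) (nat_lit 20) (nat_lit 5) (nat_lit 23) (nat_lit 5) (nat_lit 21) (nat_lit 5) (nat_lit 306) (nat_lit 291) (nat_lit 123)) (XT.lf (nat_lit 0) (nat_lit 61062774003) (nat_lit 304) (nat_lit 285688636093) (nat_lit 76) (nat_lit 81607884011) (nat_lit 17) (nat_lit 5) (nat_lit 21) (nat_lit 5) (nat_lit 18) (nat_lit 5) (nat_lit 307) (nat_lit 291) (nat_lit 122)))) (XT.nd (nat_lit 78) (nat_lit 152) (nat_lit 0) (XT.lf (nat_lit 0) (nat_lit 112761895885) (nat_lit 304) (nat_lit 117887049929) (nat_lit 76) (nat_lit 220402963421) (nat_lit 17) (nat_lit 5) (nat_lit 21) (nat_lit 5) (nat_lit 18) (nat_lit 5) (nat_lit 308) (nat_lit 291) (nat_lit 121)) (XT.nd (nat_lit 78) (nat_lit 0) (nat_lit 0) (XT.lf (nat_lit 0) (nat_lit 66673903082) (nat_lit 152) (nat_lit 103526507831) (nat_lit 228) (nat_lit 305231245842)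 (nat_lit 15) (nat_lit 5) (nat_lit 17) (nat_lit 5) (nat_lit 18) (nat_lit 5) (nat_lit 309) (nat_lit 291) (nat_lit 120)) (XT.lf (nat_lit 0) (nat_lit 236352991142) (nat_lit 228) (nat_lit 229695699146) (nat_lit 76) (nat_lit 35383575303) (nat_lit 15) (nat_lit 5) (nat_lit 18) (nat_lit 5) (nat_lit 16) (nat_lit 5) (nat_lit 310) (nat_lit 291) (nat_lit 119))))) (XT.nd (nat_lit 234) (nat_lit 152) (nat_lit 0) (XT.nd (nat_lit 78) (nat_lit 152) (nat_lit 0) (XT.lf (nat_lit 0) (nat_lit 310486737339) (nat_lit 228) (nat_lit 38997736584) (nat_lit 76) (nat_lit 179813332664) (nat_lit 15) (nat_lit 5) (nat_lit 18) (nat_lit 5) (nat_lit 16) (nat_lit 5) (nat_lit 311) (nat_lit 291) (nat_lit 118)) (XT.nd (nat_lit 78) (nat_lit 0) (nat_lit 0) (XT.lf (nat_lit 0) (nat_lit 175747618685) (nat_lit 152) (nat_lit 219030261360) (nat_lit 228) (nat_lit 164276575272) (nat_lit 13) (nat_lit 5) (nat_lit 15) (nat_lit 5) (nat_lit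 16) (nat_lit 5) (nat_lit 312) (nat_lit 291) (nat_lit 117)) (XT.lf (nat_lit 0) (nat_lit 409890387559) (nat_lit 152) (nat_lit 76988157766) (nat_lit 228) (nat_lit 104227792315) (nat_lit 13) (nat_lit 5) (nat_lit 15) (nat_lit 5) (nat_lit 16) (nat_lit 5) (nat_lit 313) (nat_lit 291) (nat_lit 116)))) (XT.nd (nat_lit 78) (nat_lit 76) (nat_lit 0) (XT.lf (nat_lit 0) (nat_lit 37058116822) (nat_lit 76) (nat_lit 552018200123) (nat_lit 152) (nat_lit 36427729526) (nat_lit 12) (nat_lit 5) (nat_lit 13) (nat_lit 5) (nat_lit 14) (nat_lit 4) (nat_lit 314) (nat_lit 291) (nat_lit 115)) (XT.nd (nat_lit 78) (nat_lit 0) (nat_lit 0) (XT.lf (nat_lit 0) (nat_lit 42038755868) (nat_lit 152) (nat_lit 382170560565) (nat_lit 76) (nat_lit 237806809941) (nat_lit 11) (nat_lit 5) (nat_lit 13) (nat_lit 5) (nat_lit 12) (nat_lit 5) (nat_lit 315) (nat_lit 291) (nat_lit 114)) (XT.lf (nat_lit 0) (nat_lit 124814485621) (nat_lit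 152) (nat_lit 160339383110) (nat_lit 76) (nat_lit 416219612565) (nat_lit 11) (nat_lit 5) (nat_lit 13) (nat_lit 5) (nat_lit 12) (nat_lit 5) (nat_lit 316) (nat_lit 291) (nat_lit 113)))))) (XT.nd (nat_lit 35568) (nat_lit 0) (nat_lit 1596) (XT.nd (nat_lit 234) (nat_lit 76) (nat_lit 0) (XT.nd (nat_lit 78) (nat_lit 0) (nat_lit 0) (XT.lf (nat_lit 0) (nat_lit 83410791202) (nat_lit 152) (nat_lit 132807485470) (nat_lit 228) (nat_lit 527500667833) (nat_lit 9) (nat_lit 5) (nat_lit 11) (nat_lit 5) (nat_lit 12) (nat_lit 5) (nat_lit 317) (nat_lit 291) (nat_lit 112)) (XT.nd (nat_lit 78) (nat_lit 0) (nat_lit 0) (XT.lf (nat_lit 0) (nat_lit 320195200903) (nat_lit 228) (nat_lit 434198644167) (nat_lit 76) (nat_lit 34637333426) (nat_lit 9) (nat_lit 5) (nat_lit 12) (nat_lit 5) (nat_lit 10) (nat_lit 4) (nat_lit 318) (nat_lit 291) (nat_lit 111)) (XT.lf (nat_lit 0) (nat_lit 435939798365) (nat_lit 228) (nat_lit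 193449959946) (nat_lit 76) (nat_lit 208302671461) (nat_lit 9) (nat_lit 5) (nat_lit 12) (nat_lit 5) (nat_lit 10) (nat_lit 4) (nat_lit 319) (nat_lit 291) (nat_lit 110)))) (XT.nd (nat_lit 78) (nat_lit 0) (nat_lit 0) (XT.lf (nat_lit 0) (nat_lit 70063438394) (nat_lit 76) (nat_lit 492565528732) (nat_lit 152) (nat_lit 327482813842) (nat_lit 8) (nat_lit 5) (nat_lit 9) (nat_lit 5) (nat_lit 10) (nat_lit 4) (nat_lit 320) (nat_lit 291) (nat_lit 109)) (XT.nd (nat_lit 78) (nat_lit 0) (nat_lit 0) (XT.lf (nat_lit 0) (nat_lit 365659542623) (nat_lit 76) (nat_lit 339082968508) (nat_lit 152) (nat_lit 241559029885) (nat_lit 8) (nat_lit 5) (nat_lit 9) (nat_lit 5) (nat_lit 10) (nat_lit 4) (nat_lit 321) (nat_lit 291) (nat_lit 108)) (XT.lf (nat_lit 0) (nat_lit 684903301289) (nat_lit 76) (nat_lit 173321816083) (nat_lit 152) (nat_lit 148761366284) (nat_lit 8) (nat_lit 5) (nat_lit 9) (nat_lit 5) (nat_lit 10)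 (nat_lit 4) (nat_lit 322) (nat_lit 291) (nat_lit 107))))) (XT.nd (nat_lit 234) (nat_lit 0) (nat_lit 76) (XT.nd (nat_lit 78) (nat_lit 0) (nat_lit 0) (XT.lf (nat_lit 0) (nat_lit 19652116126) (nat_lit 532) (nat_lit 46475842914) (nat_lit 532) (nat_lit 46475842914) (nat_lit 29) (nat_lit 3) (nat_lit 36) (nat_lit 3) (nat_lit 36) (nat_lit 5) (nat_lit 292) (nat_lit 292) (nat_lit 136)) (XT.nd (nat_lit 78) (nat_lit 0) (nat_lit 76) (XT.lf (nat_lit 0) (nat_lit 40877529008) (nat_lit 532) (nat_lit 1658675024) (nat_lit 532) (nat_lit 191679605816) (nat_lit 29) (nat_lit 3) (nat_lit 36) (nat_lit 3) (nat_lit 36) (nat_lit 5) (nat_lit 293) (nat_lit 292) (nat_lit 135)) (XT.lf (nat_lit 0) (nat_lit 46401826131) (nat_lit 456) (nat_lit 143077198957) (nat_lit 532) (nat_lit 54159637045) (nat_lit 30) (nat_lit 5) (nat_lit 36) (nat_lit 5) (nat_lit 37) (nat_lit 5) (nat_lit 294) (nat_lit 292) (nat_lit 134)))) (XT.nd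 (nat_lit 78) (nat_lit 0) (nat_lit 76) (XT.lf (nat_lit 0) (nat_lit 53519327784) (nat_lit 456) (nat_lit 43864256263) (nat_lit 532) (nat_lit 156339658435) (nat_lit 30) (nat_lit 5) (nat_lit 36) (nat_lit 5) (nat_lit 37) (nat_lit 5) (nat_lit 295) (nat_lit 292) (nat_lit 133)) (XT.nd (nat_lit 78) (nat_lit 0) (nat_lit 0) (XT.lf (nat_lit 0) (nat_lit 62899928466) (nat_lit 456) (nat_lit 197959884110) (nat_lit 532) (nat_lit 3619281460) (nat_lit 31) (nat_lit 5) (nat_lit 37) (nat_lit 5) (nat_lit 38) (nat_lit 5) (nat_lit 296) (nat_lit 292) (nat_lit 132)) (XT.lf (nat_lit 0) (nat_lit 76790808111) (nat_lit 456) (nat_lit 90332182012) (nat_lit 532) (nat_lit 108671637756) (nat_lit 31) (nat_lit 5) (nat_lit 37) (nat_lit 5) (nat_lit 38) (nat_lit 5) (nat_lit 297) (nat_lit 292) (nat_lit 131))))))))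
noncomputable def xc122 : XT := (XT.nd (nat_lit 1794) (nat_lit 76) (nat_lit 0) (XT.nd (nat_lit 858) (nat_lit 608) (nat_lit 0) (XT.nd (nat_lit 390) (nat_lit 684) (nat_lit 0) (XT.nd (nat_lit 156) (nat_lit 380) (nat_lit 0) (XT.nd (nat_lit 78) (nat_lit 0) (nat_lit 76) (XT.lf (nat_lit 76) (nat_lit 27269816363) (nat_lit 0) (nat_lit 65178897547) (nat_lit 532) (nat_lit 195514230645) (nat_lit 32) (nat_lit 5) (nat_lit 31) (nat_lit 5) (nat_lit 38) (nat_lit 5) (nat_lit 298) (nat_lit 292) (nat_lit 130)) (XT.lf (nat_lit 0) (nat_lit 112973511359) (nat_lit 456) (nat_lit 142634461663) (nat_lit 76) (nat_lit 45207613357) (nat_lit 32) (nat_lit 5) (nat_lit 38) (nat_lit 5) (nat_lit 33) (nat_lit 5) (nat_lit 299) (nat_lit 292) (nat_lit 129))) (XT.nd (nat_lit 78) (nat_lit 456) (nat_lit 0) (XT.lf (nat_lit 0) (nat_lit 136833177879) (nat_lit 456) (nat_lit 16824126948) (nat_lit 76) (nat_lit 160903704405) (nat_lit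 32) (nat_lit 5) (nat_lit 38) (nat_lit 5) (nat_lit 33) (nat_lit 5) (nat_lit 300) (nat_lit 292) (nat_lit 128)) (XT.nd (nat_lit 78) (nat_lit 0) (nat_lit 0) (XT.lf (nat_lit 0) (nat_lit 125319985978) (nat_lit 456) (nat_lit 40295512733) (nat_lit 532) (nat_lit 163549457190) (nat_lit 26) (nat_lit 5) (nat_lit 32) (nat_lit 5) (nat_lit 33) (nat_lit 5) (nat_lit 301) (nat_lit 292) (nat_lit 127)) (XT.lf (nat_lit 0) (nat_lit 199147644800) (nat_lit 532) (nat_lit 67095355320) (nat_lit 76) (nat_lit 78498439451) (nat_lit 26) (nat_lit 5) (nat_lit 33) (nat_lit 5) (nat_lit 27) (nat_lit 5) (nat_lit 302) (nat_lit 292) (nat_lit 126))))) (XT.nd (nat_lit 234) (nat_lit 304) (nat_lit 0) (XT.nd (nat_lit 78) (nat_lit 152) (nat_lit 0) (XT.lf (nat_lit 0) (nat_lit 83736362731) (nat_lit 228) (nat_lit 154686438791) (nat_lit 304) (nat_lit 122896405699) (nat_lit 23) (nat_lit 5) (nat_lit 26) (nat_lit 5) (nat_lit 27) (nat_lit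 5) (nat_lit 303) (nat_lit 292) (nat_lit 125)) (XT.nd (nat_lit 78) (nat_lit 152) (nat_lit 0) (XT.lf (nat_lit 0) (nat_lit 250450331058) (nat_lit 228) (nat_lit 32224089317) (nat_lit 304) (nat_lit 96402020312) (nat_lit 23) (nat_lit 5) (nat_lit 26) (nat_lit 5) (nat_lit 27) (nat_lit 5) (nat_lit 304) (nat_lit 292) (nat_lit 124)) (XT.lf (nat_lit 0) (nat_lit 31412641951) (nat_lit 152) (nat_lit 302214799480) (nat_lit 228) (nat_lit 64373909927) (nat_lit 21) (nat_lit 5) (nat_lit 23) (nat_lit 5) (nat_lit 24) (nat_lit 5) (nat_lit 305) (nat_lit 292) (nat_lit 123)))) (XT.nd (nat_lit 78) (nat_lit 304) (nat_lit 0) (XT.lf (nat_lit 0) (nat_lit 210688452766) (nat_lit 152) (nat_lit 182300867169) (nat_lit 228) (nat_lit 25104326006) (nat_lit 21) (nat_lit 5) (nat_lit 23) (nat_lit 5) (nat_lit 24) (nat_lit 5) (nat_lit 306) (nat_lit 292) (nat_lit 122)) (XT.nd (nat_lit 78) (nat_lit 228) (nat_lit 0) (XT.lf (nat_lit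 0) (nat_lit 16441019625) (nat_lit 228) (nat_lit 35903281685) (nat_lit 76) (nat_lit 387415728493) (nat_lit 20) (nat_lit 5) (nat_lit 23) (nat_lit 5) (nat_lit 21) (nat_lit 5) (nat_lit 307) (nat_lit 292) (nat_lit 121)) (XT.lf (nat_lit 0) (nat_lit 65948685119) (nat_lit 304) (nat_lit 308542581609) (nat_lit 76) (nat_lit 88136694836) (nat_lit 17) (nat_lit 5) (nat_lit 21) (nat_lit 5) (nat_lit 18) (nat_lit 5) (nat_lit 308) (nat_lit 292) (nat_lit 120)))))) (XT.nd (nat_lit 468) (nat_lit 304) (nat_lit 0) (XT.nd (nat_lit 234) (nat_lit 152) (nat_lit 0) (XT.nd (nat_lit 78) (nat_lit 152) (nat_lit 0) (XT.lf (nat_lit 0) (nat_lit 121783670885) (nat_lit 304) (nat_lit 127316953395) (nat_lit 76) (nat_lit 238035367257) (nat_lit 17) (nat_lit 5) (nat_lit 21) (nat_lit 5) (nat_lit 18) (nat_lit 5) (nat_lit 309) (nat_lit 292) (nat_lit 119)) (XT.nd (nat_lit 78) (nat_lit 0) (nat_lit 0) (XT.lf (nat_lit 0) (nat_lit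 72008849008) (nat_lit 152) (nat_lit 111808381980) (nat_lit 228) (nat_lit 329648891099) (nat_lit 15) (nat_lit 5) (nat_lit 17) (nat_lit 5) (nat_lit 18) (nat_lit 5) (nat_lit 310) (nat_lit 292) (nat_lit 118)) (XT.lf (nat_lit 0) (nat_lit 255261964813) (nat_lit 228) (nat_lit 248070341225) (nat_lit 76) (nat_lit 38214478131) (nat_lit 15) (nat_lit 5) (nat_lit 18) (nat_lit 5) (nat_lit 16) (nat_lit 5) (nat_lit 311) (nat_lit 292) (nat_lit 117)))) (XT.nd (nat_lit 78) (nat_lit 152) (nat_lit 0) (XT.lf (nat_lit 0) (nat_lit 335326356307) (nat_lit 228) (nat_lit 42116616758) (nat_lit 76) (nat_lit 194198600022) (nat_lit 15) (nat_lit 5) (nat_lit 18) (nat_lit 5) (nat_lit 16) (nat_lit 5) (nat_lit 312) (nat_lit 292) (nat_lit 116)) (XT.nd (nat_lit 78) (nat_lit 0) (nat_lit 0) (XT.lf (nat_lit 0) (nat_lit 189808343166) (nat_lit 152) (nat_lit 236552418900) (nat_lit 228) (nat_lit 177417994188) (nat_lit 13) (nat_lit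 5) (nat_lit 15) (nat_lit 5) (nat_lit 16) (nat_lit 5) (nat_lit 313) (nat_lit 292) (nat_lit 115)) (XT.lf (nat_lit 0) (nat_lit 442682465773) (nat_lit 152) (nat_lit 83146966527) (nat_lit 228) (nat_lit 112565360973) (nat_lit 13) (nat_lit 5) (nat_lit 15) (nat_lit 5) (nat_lit 16) (nat_lit 5) (nat_lit 314) (nat_lit 292) (nat_lit 114))))) (XT.nd (nat_lit 234) (nat_lit 152) (nat_lit 0) (XT.nd (nat_lit 78) (nat_lit 76) (nat_lit 0) (XT.lf (nat_lit 0) (nat_lit 40023636290) (nat_lit 76) (nat_lit 596179371024) (nat_lit 152) (nat_lit 39341313193) (nat_lit 12) (nat_lit 5) (nat_lit 13) (nat_lit 5) (nat_lit 14) (nat_lit 4) (nat_lit 315) (nat_lit 292) (nat_lit 113)) (XT.nd (nat_lit 78) (nat_lit 0) (nat_lit 0) (XT.lf (nat_lit 0) (nat_lit 45402414620) (nat_lit 152) (nat_lit 412743367874) (nat_lit 76) (nat_lit 256831586859) (nat_lit 11) (nat_lit 5) (nat_lit 13) (nat_lit 5) (nat_lit 12) (nat_lit 5) (nat_lit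 316) (nat_lit 292) (nat_lit 112)) (XT.lf (nat_lit 0) (nat_lit 134800161399) (nat_lit 152) (nat_lit 173165758263) (nat_lit 76) (nat_lit 449517396498) (nat_lit 11) (nat_lit 5) (nat_lit 13) (nat_lit 5) (nat_lit 12) (nat_lit 5) (nat_lit 317) (nat_lit 292) (nat_lit 111)))) (XT.nd (nat_lit 78) (nat_lit 0) (nat_lit 0) (XT.lf (nat_lit 0) (nat_lit 90084410362) (nat_lit 152) (nat_lit 143431825260) (nat_lit 228) (nat_lit 569700182582) (nat_lit 9) (nat_lit 5) (nat_lit 11) (nat_lit 5) (nat_lit 12) (nat_lit 5) (nat_lit 318) (nat_lit 292) (nat_lit 110)) (XT.nd (nat_lit 78) (nat_lit 0) (nat_lit 0) (XT.lf (nat_lit 0) (nat_lit 345811282759) (nat_lit 228) (nat_lit 468933802834) (nat_lit 76) (nat_lit 37408547961) (nat_lit 9) (nat_lit 5) (nat_lit 12) (nat_lit 5) (nat_lit 10) (nat_lit 4) (nat_lit 319) (nat_lit 292) (nat_lit 109)) (XT.lf (nat_lit 0) (nat_lit 470815413515) (nat_lit 228) (nat_lit 208925278161)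 (nat_lit 76) (nat_lit 224967096160) (nat_lit 9) (nat_lit 5) (nat_lit 12) (nat_lit 5) (nat_lit 10) (nat_lit 4) (nat_lit 320) (nat_lit 292) (nat_lit 108))))))) (XT.nd (nat_lit 36192) (nat_lit 0) (nat_lit 380) (XT.nd (nat_lit 35724) (nat_lit 0) (nat_lit 1368) (XT.nd (nat_lit 35490) (nat_lit 0) (nat_lit 1672) (XT.nd (nat_lit 35334) (nat_lit 0) (nat_lit 1596) (XT.lf (nat_lit 0) (nat_lit 75669174867) (nat_lit 76) (nat_lit 531970524870) (nat_lit 152) (nat_lit 353680988809) (nat_lit 8) (nat_lit 5) (nat_lit 9) (nat_lit 5) (nat_lit 10) (nat_lit 4) (nat_lit 321) (nat_lit 292) (nat_lit 107)) (XT.nd (nat_lit 78) (nat_lit 0) (nat_lit 0) (XT.lf (nat_lit 0) (nat_lit 21225385766) (nat_lit 532) (nat_lit 50193312244) (nat_lit 532) (nat_lit 50193312244) (nat_lit 29) (nat_lit 3) (nat_lit 36) (nat_lit 3) (nat_lit 36) (nat_lit 5) (nat_lit 293) (nat_lit 293) (nat_lit 134)) (XT.lf (nat_lit 0) (nat_lit 44149769014)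 (nat_lit 532) (nat_lit 1790261427) (nat_lit 532) (nat_lit 207012866682) (nat_lit 29) (nat_lit 3) (nat_lit 36) (nat_lit 3) (nat_lit 36) (nat_lit 5) (nat_lit 294) (nat_lit 293) (nat_lit 133)))) (XT.nd (nat_lit 78) (nat_lit 0) (nat_lit 0) (XT.lf (nat_lit 0) (nat_lit 50115864893) (nat_lit 456) (nat_lit 154522108836) (nat_lit 532) (nat_lit 58491616536) (nat_lit 30) (nat_lit 5) (nat_lit 36) (nat_lit 5) (nat_lit 37) (nat_lit 5) (nat_lit 295) (nat_lit 293) (nat_lit 132)) (XT.nd (nat_lit 78) (nat_lit 0) (nat_lit 76) (XT.lf (nat_lit 0) (nat_lit 57802626480) (nat_lit 456) (nat_lit 47372224508) (nat_lit 532) (nat_lit 168846098265) (nat_lit 30) (nat_lit 5) (nat_lit 36) (nat_lit 5) (nat_lit 37) (nat_lit 5) (nat_lit 296) (nat_lit 293) (nat_lit 131)) (XT.lf (nat_lit 0) (nat_lit 67933560676) (nat_lit 456) (nat_lit 213795376533) (nat_lit 532) (nat_lit 3908341806) (nat_lit 31) (nat_lit 5) (nat_lit 37)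 (nat_lit 5) (nat_lit 38) (nat_lit 5) (nat_lit 297) (nat_lit 293) (nat_lit 130))))) (XT.nd (nat_lit 234) (nat_lit 380) (nat_lit 0) (XT.nd (nat_lit 78) (nat_lit 0) (nat_lit 0) (XT.lf (nat_lit 0) (nat_lit 82935589364) (nat_lit 456) (nat_lit 97557554438) (nat_lit 532) (nat_lit 117364922322) (nat_lit 31) (nat_lit 5) (nat_lit 37) (nat_lit 5) (nat_lit 38) (nat_lit 5) (nat_lit 298) (nat_lit 293) (nat_lit 129)) (XT.nd (nat_lit 78) (nat_lit 0) (nat_lit 76) (XT.lf (nat_lit 76) (nat_lit 29452573374) (nat_lit 0) (nat_lit 70393470092) (nat_lit 532) (nat_lit 211153812191) (nat_lit 32) (nat_lit 5) (nat_lit 31) (nat_lit 5) (nat_lit 38) (nat_lit 5) (nat_lit 299) (nat_lit 293) (nat_lit 128)) (XT.lf (nat_lit 0) (nat_lit 122012712797) (nat_lit 456) (nat_lit 154044012638) (nat_lit 76) (nat_lit 48823993076) (nat_lit 32) (nat_lit 5) (nat_lit 38) (nat_lit 5) (nat_lit 33) (nat_lit 5) (nat_lit 300) (nat_lit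 293) (nat_lit 127)))) (XT.nd (nat_lit 78) (nat_lit 456) (nat_lit 0) (XT.lf (nat_lit 0) (nat_lit 147781054822) (nat_lit 456) (nat_lit 18168940475) (nat_lit 76) (nat_lit 173775788396) (nat_lit 32) (nat_lit 5) (nat_lit 38) (nat_lit 5) (nat_lit 33) (nat_lit 5) (nat_lit 301) (nat_lit 293) (nat_lit 126)) (XT.nd (nat_lit 78) (nat_lit 0) (nat_lit 0) (XT.lf (nat_lit 0) (nat_lit 135346673216) (nat_lit 456) (nat_lit 43519223709) (nat_lit 532) (nat_lit 176632154951) (nat_lit 26) (nat_lit 5) (nat_lit 32) (nat_lit 5) (nat_lit 33) (nat_lit 5) (nat_lit 302) (nat_lit 293) (nat_lit 125)) (XT.lf (nat_lit 0) (nat_lit 215080527342) (nat_lit 532) (nat_lit 72461881394) (nat_lit 76) (nat_lit 84778253073) (nat_lit 26) (nat_lit 5) (nat_lit 33) (nat_lit 5) (nat_lit 27) (nat_lit 5) (nat_lit 303) (nat_lit 293) (nat_lit 124)))))) (XT.nd (nat_lit 468) (nat_lit 304) (nat_lit 0) (XT.nd (nat_lit 234) (nat_lit 304)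 (nat_lit 0) (XT.nd (nat_lit 78) (nat_lit 152) (nat_lit 0) (XT.lf (nat_lit 0) (nat_lit 90436346194) (nat_lit 228) (nat_lit 167061296917) (nat_lit 304) (nat_lit 132727012574) (nat_lit 23) (nat_lit 5) (nat_lit 26) (nat_lit 5) (nat_lit 27) (nat_lit 5) (nat_lit 304) (nat_lit 293) (nat_lit 123)) (XT.nd (nat_lit 78) (nat_lit 152) (nat_lit 0) (XT.lf (nat_lit 0) (nat_lit 270487352399) (nat_lit 228) (nat_lit 34801963705) (nat_lit 304) (nat_lit 104113158251) (nat_lit 23) (nat_lit 5) (nat_lit 26) (nat_lit 5) (nat_lit 27) (nat_lit 5) (nat_lit 305) (nat_lit 293) (nat_lit 122)) (XT.lf (nat_lit 0) (nat_lit 33926701261) (nat_lit 152) (nat_lit 326391834177) (nat_lit 228) (nat_lit 69522846375) (nat_lit 21) (nat_lit 5) (nat_lit 23) (nat_lit 5) (nat_lit 24) (nat_lit 5) (nat_lit 306) (nat_lit 293) (nat_lit 121)))) (XT.nd (nat_lit 78) (nat_lit 304) (nat_lit 0) (XT.lf (nat_lit 0) (nat_lit 227544499315) (nat_lit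 152) (nat_lit 196884798337) (nat_lit 228) (nat_lit 27111768063) (nat_lit 21) (nat_lit 5) (nat_lit 23) (nat_lit 5) (nat_lit 24) (nat_lit 5) (nat_lit 307) (nat_lit 293) (nat_lit 120)) (XT.nd (nat_lit 78) (nat_lit 228) (nat_lit 0) (XT.lf (nat_lit 0) (nat_lit 17757096381) (nat_lit 228) (nat_lit 38774599324) (nat_lit 76) (nat_lit 418409068296) (nat_lit 20) (nat_lit 5) (nat_lit 23) (nat_lit 5) (nat_lit 21) (nat_lit 5) (nat_lit 308) (nat_lit 293) (nat_lit 119)) (XT.lf (nat_lit 0) (nat_lit 71225342270) (nat_lit 304) (nat_lit 333225006166) (nat_lit 76) (nat_lit 95187784833) (nat_lit 17) (nat_lit 5) (nat_lit 21) (nat_lit 5) (nat_lit 18) (nat_lit 5) (nat_lit 309) (nat_lit 293) (nat_lit 118))))) (XT.nd (nat_lit 234) (nat_lit 152) (nat_lit 0) (XT.nd (nat_lit 78) (nat_lit 152) (nat_lit 0) (XT.lf (nat_lit 0) (nat_lit 131527070428) (nat_lit 304) (nat_lit 137501400434) (nat_lit 76) (nat_lit 257078339610)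 (nat_lit 17) (nat_lit 5) (nat_lit 21) (nat_lit 5) (nat_lit 18) (nat_lit 5) (nat_lit 310) (nat_lit 293) (nat_lit 117)) (XT.nd (nat_lit 78) (nat_lit 0) (nat_lit 0) (XT.lf (nat_lit 0) (nat_lit 77770443143) (nat_lit 152) (nat_lit 120752841223) (nat_lit 228) (nat_lit 356020069868) (nat_lit 15) (nat_lit 5) (nat_lit 17) (nat_lit 5) (nat_lit 18) (nat_lit 5) (nat_lit 311) (nat_lit 293) (nat_lit 116)) (XT.lf (nat_lit 0) (nat_lit 275683551609) (nat_lit 228) (nat_lit 267915099309) (nat_lit 76) (nat_lit 41271822256) (nat_lit 15) (nat_lit 5) (nat_lit 18) (nat_lit 5) (nat_lit 16) (nat_lit 5) (nat_lit 312) (nat_lit 293) (nat_lit 115)))) (XT.nd (nat_lit 78) (nat_lit 152) (nat_lit 0) (XT.lf (nat_lit 0) (nat_lit 362153047785) (nat_lit 228) (nat_lit 45485141270) (nat_lit 76) (nat_lit 209734660129) (nat_lit 15) (nat_lit 5) (nat_lit 18) (nat_lit 5) (nat_lit 16) (nat_lit 5) (nat_lit 313) (nat_lit 293) (nat_lit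 114)) (XT.nd (nat_lit 78) (nat_lit 0) (nat_lit 0) (XT.lf (nat_lit 0) (nat_lit 204993795072) (nat_lit 152) (nat_lit 255476386616) (nat_lit 228) (nat_lit 191610827493) (nat_lit 13) (nat_lit 5) (nat_lit 15) (nat_lit 5) (nat_lit 16) (nat_lit 5) (nat_lit 314) (nat_lit 293) (nat_lit 113)) (XT.lf (nat_lit 0) (nat_lit 478097789381) (nat_lit 152) (nat_lit 89798514778) (nat_lit 228) (nat_lit 121570028527) (nat_lit 13) (nat_lit 5) (nat_lit 15) (nat_lit 5) (nat_lit 16) (nat_lit 5) (nat_lit 315) (nat_lit 293) (nat_lit 112))))))))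
noncomputable def xc123 : XT := (XT.nd (nat_lit 37206) (nat_lit 0) (nat_lit 0) (XT.nd (nat_lit 36270) (nat_lit 0) (nat_lit 608) (XT.nd (nat_lit 35802) (nat_lit 0) (nat_lit 1520) (XT.nd (nat_lit 234) (nat_lit 152) (nat_lit 0) (XT.nd (nat_lit 78) (nat_lit 76) (nat_lit 0) (XT.lf (nat_lit 0) (nat_lit 43226273183) (nat_lit 76) (nat_lit 643873476271) (nat_lit 152) (nat_lit 42488074100) (nat_lit 12) (nat_lit 5) (nat_lit 13) (nat_lit 5) (nat_lit 14) (nat_lit 4) (nat_lit 316) (nat_lit 293) (nat_lit 111)) (XT.nd (nat_lit 78) (nat_lit 0) (nat_lit 0) (XT.lf (nat_lit 0) (nat_lit 49035086427) (nat_lit 152) (nat_lit 445762119251) (nat_lit 76) (nat_lit 277378312815) (nat_lit 11) (nat_lit 5) (nat_lit 13) (nat_lit 5) (nat_lit 12) (nat_lit 5) (nat_lit 317) (nat_lit 293) (nat_lit 110)) (XT.lf (nat_lit 0) (nat_lit 145584617493) (nat_lit 152) (nat_lit 187018354060) (nat_lit 76) (nat_lit 485478972484) (nat_lit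 11) (nat_lit 5) (nat_lit 13) (nat_lit 5) (nat_lit 12) (nat_lit 5) (nat_lit 318) (nat_lit 293) (nat_lit 109)))) (XT.nd (nat_lit 78) (nat_lit 0) (nat_lit 0) (XT.lf (nat_lit 0) (nat_lit 97291811223) (nat_lit 152) (nat_lit 154906149188) (nat_lit 228) (nat_lit 615275735359) (nat_lit 9) (nat_lit 5) (nat_lit 11) (nat_lit 5) (nat_lit 12) (nat_lit 5) (nat_lit 319) (nat_lit 293) (nat_lit 108)) (XT.nd (nat_lit 78) (nat_lit 0) (nat_lit 0) (XT.lf (nat_lit 0) (nat_lit 373476584713) (nat_lit 228) (nat_lit 506447878745) (nat_lit 76) (nat_lit 40401427152) (nat_lit 9) (nat_lit 5) (nat_lit 12) (nat_lit 5) (nat_lit 10) (nat_lit 4) (nat_lit 320) (nat_lit 293) (nat_lit 107)) (XT.lf (nat_lit 0) (nat_lit 508481016349) (nat_lit 228) (nat_lit 225638718641) (nat_lit 76) (nat_lit 242964644736) (nat_lit 9) (nat_lit 5) (nat_lit 12) (nat_lit 5) (nat_lit 10) (nat_lit 4) (nat_lit 321) (nat_lit 293) (nat_lit 106)))))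 (XT.nd (nat_lit 234) (nat_lit 0) (nat_lit 76) (XT.nd (nat_lit 78) (nat_lit 0) (nat_lit 0) (XT.lf (nat_lit 0) (nat_lit 22924360000) (nat_lit 532) (nat_lit 54208264446) (nat_lit 532) (nat_lit 54208264446) (nat_lit 29) (nat_lit 3) (nat_lit 36) (nat_lit 3) (nat_lit 36) (nat_lit 5) (nat_lit 294) (nat_lit 294) (nat_lit 132)) (XT.nd (nat_lit 78) (nat_lit 0) (nat_lit 76) (XT.lf (nat_lit 0) (nat_lit 47683497521) (nat_lit 532) (nat_lit 1932532753) (nat_lit 532) (nat_lit 223572946429) (nat_lit 29) (nat_lit 3) (nat_lit 36) (nat_lit 3) (nat_lit 36) (nat_lit 5) (nat_lit 295) (nat_lit 294) (nat_lit 131)) (XT.lf (nat_lit 0) (nat_lit 54126756745) (nat_lit 456) (nat_lit 166882792120) (nat_lit 532) (nat_lit 63170267299) (nat_lit 30) (nat_lit 5) (nat_lit 36) (nat_lit 5) (nat_lit 37) (nat_lit 5) (nat_lit 296) (nat_lit 294) (nat_lit 130)))) (XT.nd (nat_lit 78) (nat_lit 0) (nat_lit 76) (XT.lf (nat_lit 0)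 (nat_lit 62428339062) (nat_lit 456) (nat_lit 51160997447) (nat_lit 532) (nat_lit 182353157830) (nat_lit 30) (nat_lit 5) (nat_lit 36) (nat_lit 5) (nat_lit 37) (nat_lit 5) (nat_lit 297) (nat_lit 294) (nat_lit 129)) (XT.nd (nat_lit 78) (nat_lit 0) (nat_lit 0) (XT.lf (nat_lit 0) (nat_lit 73369649794) (nat_lit 456) (nat_lit 230897893567) (nat_lit 532) (nat_lit 4220595767) (nat_lit 31) (nat_lit 5) (nat_lit 37) (nat_lit 5) (nat_lit 38) (nat_lit 5) (nat_lit 298) (nat_lit 294) (nat_lit 128)) (XT.lf (nat_lit 0) (nat_lit 89571736757) (nat_lit 456) (nat_lit 105361128155) (nat_lit 532) (nat_lit 126753733346) (nat_lit 31) (nat_lit 5) (nat_lit 37) (nat_lit 5) (nat_lit 38) (nat_lit 5) (nat_lit 299) (nat_lit 294) (nat_lit 127)))))) (XT.nd (nat_lit 468) (nat_lit 456) (nat_lit 0) (XT.nd (nat_lit 234) (nat_lit 608) (nat_lit 0) (XT.nd (nat_lit 78) (nat_lit 0) (nat_lit 76) (XT.lf (nat_lit 76) (nat_lit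 31809783790) (nat_lit 0) (nat_lit 76025171243) (nat_lit 532) (nat_lit 228044782371) (nat_lit 32) (nat_lit 5) (nat_lit 31) (nat_lit 5) (nat_lit 38) (nat_lit 5) (nat_lit 300) (nat_lit 294) (nat_lit 126)) (XT.nd (nat_lit 78) (nat_lit 0) (nat_lit 0) (XT.lf (nat_lit 0) (nat_lit 131774861963) (nat_lit 456) (nat_lit 166366499733) (nat_lit 76) (nat_lit 52729715892) (nat_lit 32) (nat_lit 5) (nat_lit 38) (nat_lit 5) (nat_lit 33) (nat_lit 5) (nat_lit 301) (nat_lit 294) (nat_lit 125)) (XT.lf (nat_lit 0) (nat_lit 159604587487) (nat_lit 456) (nat_lit 19621498384) (nat_lit 76) (nat_lit 187677669403) (nat_lit 32) (nat_lit 5) (nat_lit 38) (nat_lit 5) (nat_lit 33) (nat_lit 5) (nat_lit 302) (nat_lit 294) (nat_lit 124)))) (XT.nd (nat_lit 78) (nat_lit 228) (nat_lit 0) (XT.lf (nat_lit 0) (nat_lit 146175340166) (nat_lit 456) (nat_lit 47000821582) (nat_lit 532) (nat_lit 190761648116) (nat_lit 26) (nat_lit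 5) (nat_lit 32) (nat_lit 5) (nat_lit 33) (nat_lit 5) (nat_lit 303) (nat_lit 294) (nat_lit 123)) (XT.nd (nat_lit 78) (nat_lit 228) (nat_lit 0) (XT.lf (nat_lit 0) (nat_lit 232287887702) (nat_lit 532) (nat_lit 78257886816) (nat_lit 76) (nat_lit 91560460563) (nat_lit 26) (nat_lit 5) (nat_lit 33) (nat_lit 5) (nat_lit 27) (nat_lit 5) (nat_lit 304) (nat_lit 294) (nat_lit 122)) (XT.lf (nat_lit 0) (nat_lit 97672175053) (nat_lit 228) (nat_lit 180426151822) (nat_lit 304) (nat_lit 143344225723) (nat_lit 23) (nat_lit 5) (nat_lit 26) (nat_lit 5) (nat_lit 27) (nat_lit 5) (nat_lit 305) (nat_lit 294) (nat_lit 121))))) (XT.nd (nat_lit 234) (nat_lit 304) (nat_lit 0) (XT.nd (nat_lit 78) (nat_lit 152) (nat_lit 0) (XT.lf (nat_lit 0) (nat_lit 292127193520) (nat_lit 228) (nat_lit 37586075572) (nat_lit 304) (nat_lit 112441333265) (nat_lit 23) (nat_lit 5) (nat_lit 26) (nat_lit 5) (nat_lit 27) (nat_lit 5) (nat_lit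 306) (nat_lit 294) (nat_lit 120)) (XT.nd (nat_lit 78) (nat_lit 0) (nat_lit 0) (XT.lf (nat_lit 0) (nat_lit 36641735814) (nat_lit 152) (nat_lit 352503052944) (nat_lit 228) (nat_lit 75083837026) (nat_lit 21) (nat_lit 5) (nat_lit 23) (nat_lit 5) (nat_lit 24) (nat_lit 5) (nat_lit 307) (nat_lit 294) (nat_lit 119)) (XT.lf (nat_lit 0) (nat_lit 245748891160) (nat_lit 152) (nat_lit 212635463716) (nat_lit 228) (nat_lit 29279934453) (nat_lit 21) (nat_lit 5) (nat_lit 23) (nat_lit 5) (nat_lit 24) (nat_lit 5) (nat_lit 308) (nat_lit 294) (nat_lit 118)))) (XT.nd (nat_lit 78) (nat_lit 228) (nat_lit 0) (XT.lf (nat_lit 0) (nat_lit 19178345836) (nat_lit 228) (nat_lit 41875757175) (nat_lit 76) (nat_lit 451881863653) (nat_lit 20) (nat_lit 5) (nat_lit 23) (nat_lit 5) (nat_lit 21) (nat_lit 5) (nat_lit 309) (nat_lit 294) (nat_lit 117)) (XT.nd (nat_lit 78) (nat_lit 0) (nat_lit 0) (XT.lf (nat_lit 0) (nat_lit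 76924023237) (nat_lit 304) (nat_lit 359882164778) (nat_lit 76) (nat_lit 102802940001) (nat_lit 17) (nat_lit 5) (nat_lit 21) (nat_lit 5) (nat_lit 18) (nat_lit 5) (nat_lit 310) (nat_lit 294) (nat_lit 116)) (XT.lf (nat_lit 0) (nat_lit 142049841234) (nat_lit 304) (nat_lit 148500732948) (nat_lit 76) (nat_lit 277644729355) (nat_lit 17) (nat_lit 5) (nat_lit 21) (nat_lit 5) (nat_lit 18) (nat_lit 5) (nat_lit 311) (nat_lit 294) (nat_lit 115))))))) (XT.nd (nat_lit 36426) (nat_lit 0) (nat_lit 912) (XT.nd (nat_lit 468) (nat_lit 228) (nat_lit 0) (XT.nd (nat_lit 234) (nat_lit 228) (nat_lit 0) (XT.nd (nat_lit 78) (nat_lit 0) (nat_lit 0) (XT.lf (nat_lit 0) (nat_lit 83992838380) (nat_lit 152) (nat_lit 130412887352) (nat_lit 228) (nat_lit 384501047441) (nat_lit 15) (nat_lit 5) (nat_lit 17) (nat_lit 5) (nat_lit 18) (nat_lit 5) (nat_lit 312) (nat_lit 294) (nat_lit 114)) (XT.nd (nat_lit 78) (nat_lit 0)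 (nat_lit 0) (XT.lf (nat_lit 0) (nat_lit 297738775529) (nat_lit 228) (nat_lit 289347562042) (nat_lit 76) (nat_lit 44573727394) (nat_lit 15) (nat_lit 5) (nat_lit 18) (nat_lit 5) (nat_lit 16) (nat_lit 5) (nat_lit 313) (nat_lit 294) (nat_lit 113)) (XT.lf (nat_lit 0) (nat_lit 391125791414) (nat_lit 228) (nat_lit 49123262561) (nat_lit 76) (nat_lit 226513580493) (nat_lit 15) (nat_lit 5) (nat_lit 18) (nat_lit 5) (nat_lit 16) (nat_lit 5) (nat_lit 314) (nat_lit 294) (nat_lit 112)))) (XT.nd (nat_lit 78) (nat_lit 76) (nat_lit 0) (XT.lf (nat_lit 0) (nat_lit 221393971220) (nat_lit 152) (nat_lit 275914303961) (nat_lit 228) (nat_lit 206939173949) (nat_lit 13) (nat_lit 5) (nat_lit 15) (nat_lit 5) (nat_lit 16) (nat_lit 5) (nat_lit 315) (nat_lit 294) (nat_lit 111)) (XT.nd (nat_lit 78) (nat_lit 76) (nat_lit 0) (XT.lf (nat_lit 0) (nat_lit 516346235255) (nat_lit 152) (nat_lit 96982216716) (nat_lit 228)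 (nat_lit 131295149564) (nat_lit 13) (nat_lit 5) (nat_lit 15) (nat_lit 5) (nat_lit 16) (nat_lit 5) (nat_lit 316) (nat_lit 294) (nat_lit 110)) (XT.lf (nat_lit 0) (nat_lit 46685014604) (nat_lit 76) (nat_lit 695383144810) (nat_lit 152) (nat_lit 45886653508) (nat_lit 12) (nat_lit 5) (nat_lit 13) (nat_lit 5) (nat_lit 14) (nat_lit 4) (nat_lit 317) (nat_lit 294) (nat_lit 109))))) (XT.nd (nat_lit 35724) (nat_lit 0) (nat_lit 1520) (XT.nd (nat_lit 78) (nat_lit 152) (nat_lit 0) (XT.lf (nat_lit 0) (nat_lit 52958303695) (nat_lit 152) (nat_lit 481422473177) (nat_lit 76) (nat_lit 299568748457) (nat_lit 11) (nat_lit 5) (nat_lit 13) (nat_lit 5) (nat_lit 12) (nat_lit 5) (nat_lit 318) (nat_lit 294) (nat_lit 108)) (XT.nd (nat_lit 78) (nat_lit 152) (nat_lit 0) (XT.lf (nat_lit 0) (nat_lit 157231766850) (nat_lit 152) (nat_lit 201979252372) (nat_lit 76) (nat_lit 524317448262) (nat_lit 11) (nat_lit 5) (nat_lit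 13) (nat_lit 5) (nat_lit 12) (nat_lit 5) (nat_lit 319) (nat_lit 294) (nat_lit 107)) (XT.lf (nat_lit 0) (nat_lit 105075711703) (nat_lit 152) (nat_lit 167298450715) (nat_lit 228) (nat_lit 664497398243) (nat_lit 9) (nat_lit 5) (nat_lit 11) (nat_lit 5) (nat_lit 12) (nat_lit 5) (nat_lit 320) (nat_lit 294) (nat_lit 106)))) (XT.nd (nat_lit 78) (nat_lit 0) (nat_lit 0) (XT.lf (nat_lit 0) (nat_lit 24759117590) (nat_lit 532) (nat_lit 58544485978) (nat_lit 532) (nat_lit 58544485978) (nat_lit 29) (nat_lit 3) (nat_lit 36) (nat_lit 3) (nat_lit 36) (nat_lit 5) (nat_lit 295) (nat_lit 295) (nat_lit 130)) (XT.nd (nat_lit 78) (nat_lit 0) (nat_lit 76) (XT.lf (nat_lit 0) (nat_lit 51499675082) (nat_lit 532) (nat_lit 2086321255) (nat_lit 532) (nat_lit 241457968025) (nat_lit 29) (nat_lit 3) (nat_lit 36) (nat_lit 3) (nat_lit 36) (nat_lit 5) (nat_lit 296) (nat_lit 295) (nat_lit 129)) (XT.lf (nat_lit 0) (nat_lit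 58458288454) (nat_lit 456) (nat_lit 180232484915) (nat_lit 532) (nat_lit 68223306927) (nat_lit 30) (nat_lit 5) (nat_lit 36) (nat_lit 5) (nat_lit 37) (nat_lit 5) (nat_lit 297) (nat_lit 295) (nat_lit 128)))))) (XT.nd (nat_lit 468) (nat_lit 684) (nat_lit 0) (XT.nd (nat_lit 234) (nat_lit 0) (nat_lit 76) (XT.nd (nat_lit 78) (nat_lit 0) (nat_lit 76) (XT.lf (nat_lit 0) (nat_lit 67423894307) (nat_lit 456) (nat_lit 55253015600) (nat_lit 532) (nat_lit 196940871793) (nat_lit 30) (nat_lit 5) (nat_lit 36) (nat_lit 5) (nat_lit 37) (nat_lit 5) (nat_lit 298) (nat_lit 295) (nat_lit 127)) (XT.nd (nat_lit 78) (nat_lit 0) (nat_lit 0) (XT.lf (nat_lit 0) (nat_lit 79240425707) (nat_lit 456) (nat_lit 249368770758) (nat_lit 532) (nat_lit 4557889019) (nat_lit 31) (nat_lit 5) (nat_lit 37) (nat_lit 5) (nat_lit 38) (nat_lit 5) (nat_lit 299) (nat_lit 295) (nat_lit 126)) (XT.lf (nat_lit 0) (nat_lit 96738590447)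 (nat_lit 456) (nat_lit 113789134802) (nat_lit 532) (nat_lit 136893703856) (nat_lit 31) (nat_lit 5) (nat_lit 37) (nat_lit 5) (nat_lit 38) (nat_lit 5) (nat_lit 300) (nat_lit 295) (nat_lit 125)))) (XT.nd (nat_lit 78) (nat_lit 0) (nat_lit 76) (XT.lf (nat_lit 76) (nat_lit 34355427729) (nat_lit 0) (nat_lit 82107376595) (nat_lit 532) (nat_lit 246287220588) (nat_lit 32) (nat_lit 5) (nat_lit 31) (nat_lit 5) (nat_lit 38) (nat_lit 5) (nat_lit 301) (nat_lit 295) (nat_lit 124)) (XT.nd (nat_lit 78) (nat_lit 0) (nat_lit 0) (XT.lf (nat_lit 0) (nat_lit 142317821548) (nat_lit 456) (nat_lit 179674933296) (nat_lit 76) (nat_lit 56947924584) (nat_lit 32) (nat_lit 5) (nat_lit 38) (nat_lit 5) (nat_lit 33) (nat_lit 5) (nat_lit 302) (nat_lit 295) (nat_lit 123)) (XT.lf (nat_lit 0) (nat_lit 172373853217) (nat_lit 456) (nat_lit 21190397499) (nat_lit 76) (nat_lit 202691726864) (nat_lit 32) (nat_lit 5) (nat_lit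 38) (nat_lit 5) (nat_lit 33) (nat_lit 5) (nat_lit 303) (nat_lit 295) (nat_lit 122))))) (XT.nd (nat_lit 234) (nat_lit 152) (nat_lit 0) (XT.nd (nat_lit 78) (nat_lit 228) (nat_lit 0) (XT.lf (nat_lit 0) (nat_lit 157870167356) (nat_lit 456) (nat_lit 50760938729) (nat_lit 532) (nat_lit 206021654699) (nat_lit 26) (nat_lit 5) (nat_lit 32) (nat_lit 5) (nat_lit 33) (nat_lit 5) (nat_lit 304) (nat_lit 295) (nat_lit 121)) (XT.nd (nat_lit 78) (nat_lit 228) (nat_lit 0) (XT.lf (nat_lit 0) (nat_lit 250871705904) (nat_lit 532) (nat_lit 84517707499) (nat_lit 76) (nat_lit 98885252178) (nat_lit 26) (nat_lit 5) (nat_lit 33) (nat_lit 5) (nat_lit 27) (nat_lit 5) (nat_lit 305) (nat_lit 295) (nat_lit 120)) (XT.lf (nat_lit 0) (nat_lit 105486738806) (nat_lit 228) (nat_lit 194860202088) (nat_lit 304) (nat_lit 154810951146) (nat_lit 23) (nat_lit 5) (nat_lit 26) (nat_lit 5) (nat_lit 27) (nat_lit 5) (nat_lit 306)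 (nat_lit 295) (nat_lit 119)))) (XT.nd (nat_lit 78) (nat_lit 152) (nat_lit 0) (XT.lf (nat_lit 0) (nat_lit 315498100250) (nat_lit 228) (nat_lit 40592922840) (nat_lit 304) (nat_lit 121435887487) (nat_lit 23) (nat_lit 5) (nat_lit 26) (nat_lit 5) (nat_lit 27) (nat_lit 5) (nat_lit 307) (nat_lit 295) (nat_lit 118)) (XT.nd (nat_lit 78) (nat_lit 0) (nat_lit 0) (XT.lf (nat_lit 0) (nat_lit 39573844956) (nat_lit 152) (nat_lit 380703187468) (nat_lit 228) (nat_lit 81089826345) (nat_lit 21) (nat_lit 5) (nat_lit 23) (nat_lit 5) (nat_lit 24) (nat_lit 5) (nat_lit 308) (nat_lit 295) (nat_lit 117)) (XT.lf (nat_lit 0) (nat_lit 265409515672) (nat_lit 152) (nat_lit 229646199229) (nat_lit 228) (nat_lit 31621664725) (nat_lit 21) (nat_lit 5) (nat_lit 23) (nat_lit 5) (nat_lit 24) (nat_lit 5) (nat_lit 309) (nat_lit 295) (nat_lit 116))))))))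
noncomputable def xc124 : XT := (XT.nd (nat_lit 37362) (nat_lit 0) (nat_lit 76) (XT.nd (nat_lit 36426) (nat_lit 0) (nat_lit 912) (XT.nd (nat_lit 390) (nat_lit 304) (nat_lit 0) (XT.nd (nat_lit 156) (nat_lit 152) (nat_lit 0) (XT.nd (nat_lit 78) (nat_lit 228) (nat_lit 0) (XT.lf (nat_lit 0) (nat_lit 20713197988) (nat_lit 228) (nat_lit 45225123223) (nat_lit 76) (nat_lit 488032472668) (nat_lit 20) (nat_lit 5) (nat_lit 23) (nat_lit 5) (nat_lit 21) (nat_lit 5) (nat_lit 310) (nat_lit 295) (nat_lit 115)) (XT.lf (nat_lit 0) (nat_lit 83078505440) (nat_lit 304) (nat_lit 388672016182) (nat_lit 76) (nat_lit 111027288698) (nat_lit 17) (nat_lit 5) (nat_lit 21) (nat_lit 5) (nat_lit 18) (nat_lit 5) (nat_lit 311) (nat_lit 295) (nat_lit 114))) (XT.nd (nat_lit 78) (nat_lit 152) (nat_lit 0) (XT.lf (nat_lit 0) (nat_lit 153414347370) (nat_lit 304) (nat_lit 160380123271) (nat_lit 76) (nat_lit 299856412792)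 (nat_lit 17) (nat_lit 5) (nat_lit 21) (nat_lit 5) (nat_lit 18) (nat_lit 5) (nat_lit 312) (nat_lit 295) (nat_lit 113)) (XT.nd (nat_lit 78) (nat_lit 0) (nat_lit 0) (XT.lf (nat_lit 0) (nat_lit 90712916845) (nat_lit 152) (nat_lit 140845763017) (nat_lit 228) (nat_lit 415260592813) (nat_lit 15) (nat_lit 5) (nat_lit 17) (nat_lit 5) (nat_lit 18) (nat_lit 5) (nat_lit 313) (nat_lit 295) (nat_lit 112)) (XT.lf (nat_lit 0) (nat_lit 321558340355) (nat_lit 228) (nat_lit 312494728106) (nat_lit 76) (nat_lit 48139762209) (nat_lit 15) (nat_lit 5) (nat_lit 18) (nat_lit 5) (nat_lit 16) (nat_lit 5) (nat_lit 314) (nat_lit 295) (nat_lit 111))))) (XT.nd (nat_lit 234) (nat_lit 152) (nat_lit 0) (XT.nd (nat_lit 78) (nat_lit 152) (nat_lit 0) (XT.lf (nat_lit 0) (nat_lit 422416283231) (nat_lit 228) (nat_lit 53052531993) (nat_lit 76) (nat_lit 244634793436) (nat_lit 15) (nat_lit 5) (nat_lit 18) (nat_lit 5) (nat_lit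 16) (nat_lit 5) (nat_lit 315) (nat_lit 295) (nat_lit 110)) (XT.nd (nat_lit 78) (nat_lit 0) (nat_lit 0) (XT.lf (nat_lit 0) (nat_lit 239106065514) (nat_lit 152) (nat_lit 297987282311) (nat_lit 228) (nat_lit 223493862268) (nat_lit 13) (nat_lit 5) (nat_lit 15) (nat_lit 5) (nat_lit 16) (nat_lit 5) (nat_lit 316) (nat_lit 295) (nat_lit 109)) (XT.lf (nat_lit 0) (nat_lit 557654467961) (nat_lit 152) (nat_lit 104740640380) (nat_lit 228) (nat_lit 141798348940) (nat_lit 13) (nat_lit 5) (nat_lit 15) (nat_lit 5) (nat_lit 16) (nat_lit 5) (nat_lit 317) (nat_lit 295) (nat_lit 108)))) (XT.nd (nat_lit 78) (nat_lit 76) (nat_lit 0) (XT.lf (nat_lit 0) (nat_lit 50420364097) (nat_lit 76) (nat_lit 751013616727) (nat_lit 152) (nat_lit 49557185823) (nat_lit 12) (nat_lit 5) (nat_lit 13) (nat_lit 5) (nat_lit 14) (nat_lit 4) (nat_lit 318) (nat_lit 295) (nat_lit 107)) (XT.nd (nat_lit 78) (nat_lit 0) (nat_lit 0)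 (XT.lf (nat_lit 0) (nat_lit 57195319804) (nat_lit 152) (nat_lit 519935743241) (nat_lit 76) (nat_lit 323534394610) (nat_lit 11) (nat_lit 5) (nat_lit 13) (nat_lit 5) (nat_lit 12) (nat_lit 5) (nat_lit 319) (nat_lit 295) (nat_lit 106)) (XT.lf (nat_lit 0) (nat_lit 169810633951) (nat_lit 152) (nat_lit 218137103867) (nat_lit 76) (nat_lit 566262979564) (nat_lit 11) (nat_lit 5) (nat_lit 13) (nat_lit 5) (nat_lit 12) (nat_lit 5) (nat_lit 320) (nat_lit 295) (nat_lit 105)))))) (XT.nd (nat_lit 468) (nat_lit 456) (nat_lit 0) (XT.nd (nat_lit 234) (nat_lit 0) (nat_lit 76) (XT.nd (nat_lit 78) (nat_lit 0) (nat_lit 0) (XT.lf (nat_lit 0) (nat_lit 26740540404) (nat_lit 532) (nat_lit 63227667950) (nat_lit 532) (nat_lit 63227667950) (nat_lit 29) (nat_lit 3) (nat_lit 36) (nat_lit 3) (nat_lit 36) (nat_lit 5) (nat_lit 296) (nat_lit 296) (nat_lit 128)) (XT.nd (nat_lit 78) (nat_lit 0) (nat_lit 76) (XT.lf (nat_lit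 0) (nat_lit 55620933176) (nat_lit 532) (nat_lit 2252528980) (nat_lit 532) (nat_lit 260773907492) (nat_lit 29) (nat_lit 3) (nat_lit 36) (nat_lit 3) (nat_lit 36) (nat_lit 5) (nat_lit 297) (nat_lit 296) (nat_lit 127)) (XT.lf (nat_lit 0) (nat_lit 63136144234) (nat_lit 456) (nat_lit 194650285890) (nat_lit 532) (nat_lit 73680672719) (nat_lit 30) (nat_lit 5) (nat_lit 36) (nat_lit 5) (nat_lit 37) (nat_lit 5) (nat_lit 298) (nat_lit 296) (nat_lit 126)))) (XT.nd (nat_lit 78) (nat_lit 0) (nat_lit 76) (XT.lf (nat_lit 0) (nat_lit 72818910207) (nat_lit 456) (nat_lit 59672518127) (nat_lit 532) (nat_lit 212695679720) (nat_lit 30) (nat_lit 5) (nat_lit 36) (nat_lit 5) (nat_lit 37) (nat_lit 5) (nat_lit 299) (nat_lit 296) (nat_lit 125)) (XT.nd (nat_lit 78) (nat_lit 0) (nat_lit 0) (XT.lf (nat_lit 0) (nat_lit 85580691939) (nat_lit 456) (nat_lit 269317454265) (nat_lit 532) (nat_lit 4922216292) (nat_lit 31)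 (nat_lit 5) (nat_lit 37) (nat_lit 5) (nat_lit 38) (nat_lit 5) (nat_lit 300) (nat_lit 296) (nat_lit 124)) (XT.lf (nat_lit 0) (nat_lit 104478633401) (nat_lit 456) (nat_lit 122891508037) (nat_lit 532) (nat_lit 147844918823) (nat_lit 31) (nat_lit 5) (nat_lit 37) (nat_lit 5) (nat_lit 38) (nat_lit 5) (nat_lit 301) (nat_lit 296) (nat_lit 123))))) (XT.nd (nat_lit 234) (nat_lit 608) (nat_lit 0) (XT.nd (nat_lit 78) (nat_lit 0) (nat_lit 76) (XT.lf (nat_lit 76) (nat_lit 37104600318) (nat_lit 0) (nat_lit 88676131033) (nat_lit 532) (nat_lit 265989217121) (nat_lit 32) (nat_lit 5) (nat_lit 31) (nat_lit 5) (nat_lit 38) (nat_lit 5) (nat_lit 302) (nat_lit 296) (nat_lit 122)) (XT.nd (nat_lit 78) (nat_lit 0) (nat_lit 0) (XT.lf (nat_lit 0) (nat_lit 153704079430) (nat_lit 456) (nat_lit 194048168001) (nat_lit 76) (nat_lit 61503614022) (nat_lit 32) (nat_lit 5) (nat_lit 38) (nat_lit 5) (nat_lit 33) (nat_lit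 5) (nat_lit 303) (nat_lit 296) (nat_lit 121)) (XT.lf (nat_lit 0) (nat_lit 186164531990) (nat_lit 456) (nat_lit 22884925634) (nat_lit 76) (nat_lit 218906931190) (nat_lit 32) (nat_lit 5) (nat_lit 38) (nat_lit 5) (nat_lit 33) (nat_lit 5) (nat_lit 304) (nat_lit 296) (nat_lit 120)))) (XT.nd (nat_lit 78) (nat_lit 228) (nat_lit 0) (XT.lf (nat_lit 0) (nat_lit 170500466596) (nat_lit 456) (nat_lit 54821857912) (nat_lit 532) (nat_lit 222502593808) (nat_lit 26) (nat_lit 5) (nat_lit 32) (nat_lit 5) (nat_lit 33) (nat_lit 5) (nat_lit 305) (nat_lit 296) (nat_lit 119)) (XT.nd (nat_lit 78) (nat_lit 228) (nat_lit 0) (XT.lf (nat_lit 0) (nat_lit 270942117261) (nat_lit 532) (nat_lit 91278429430) (nat_lit 76) (nat_lit 106796033575) (nat_lit 26) (nat_lit 5) (nat_lit 33) (nat_lit 5) (nat_lit 27) (nat_lit 5) (nat_lit 306) (nat_lit 296) (nat_lit 118)) (XT.lf (nat_lit 0) (nat_lit 113926354993) (nat_lit 228)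 (nat_lit 210448982349) (nat_lit 304) (nat_lit 167195130535) (nat_lit 23) (nat_lit 5) (nat_lit 26) (nat_lit 5) (nat_lit 27) (nat_lit 5) (nat_lit 307) (nat_lit 296) (nat_lit 117))))))) (XT.nd (nat_lit 36660) (nat_lit 0) (nat_lit 836) (XT.nd (nat_lit 468) (nat_lit 380) (nat_lit 0) (XT.nd (nat_lit 234) (nat_lit 304) (nat_lit 0) (XT.nd (nat_lit 78) (nat_lit 152) (nat_lit 0) (XT.lf (nat_lit 0) (nat_lit 340738575199) (nat_lit 228) (nat_lit 43840323422) (nat_lit 304) (nat_lit 131150113390) (nat_lit 23) (nat_lit 5) (nat_lit 26) (nat_lit 5) (nat_lit 27) (nat_lit 5) (nat_lit 308) (nat_lit 296) (nat_lit 116)) (XT.nd (nat_lit 78) (nat_lit 0) (nat_lit 0) (XT.lf (nat_lit 0) (nat_lit 42740412941) (nat_lit 152) (nat_lit 411159348406) (nat_lit 228) (nat_lit 87576397190) (nat_lit 21) (nat_lit 5) (nat_lit 23) (nat_lit 5) (nat_lit 24) (nat_lit 5) (nat_lit 309) (nat_lit 296) (nat_lit 115)) (XT.lf (nat_lit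 0) (nat_lit 286642888397) (nat_lit 152) (nat_lit 248017808074) (nat_lit 228) (nat_lit 34150828215) (nat_lit 21) (nat_lit 5) (nat_lit 23) (nat_lit 5) (nat_lit 24) (nat_lit 5) (nat_lit 310) (nat_lit 296) (nat_lit 114)))) (XT.nd (nat_lit 78) (nat_lit 228) (nat_lit 0) (XT.lf (nat_lit 0) (nat_lit 22370754929) (nat_lit 228) (nat_lit 48842537637) (nat_lit 76) (nat_lit 527075121856) (nat_lit 20) (nat_lit 5) (nat_lit 23) (nat_lit 5) (nat_lit 21) (nat_lit 5) (nat_lit 311) (nat_lit 296) (nat_lit 113)) (XT.nd (nat_lit 78) (nat_lit 0) (nat_lit 0) (XT.lf (nat_lit 0) (nat_lit 89725266280) (nat_lit 304) (nat_lit 419765158668) (nat_lit 76) (nat_lit 119909569098) (nat_lit 17) (nat_lit 5) (nat_lit 21) (nat_lit 5) (nat_lit 18) (nat_lit 5) (nat_lit 312) (nat_lit 296) (nat_lit 112)) (XT.lf (nat_lit 0) (nat_lit 165687939979) (nat_lit 304) (nat_lit 173209960162) (nat_lit 76) (nat_lit 323845015912) (nat_lit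 17) (nat_lit 5) (nat_lit 21) (nat_lit 5) (nat_lit 18) (nat_lit 5) (nat_lit 313) (nat_lit 296) (nat_lit 111))))) (XT.nd (nat_lit 234) (nat_lit 228) (nat_lit 0) (XT.nd (nat_lit 78) (nat_lit 0) (nat_lit 0) (XT.lf (nat_lit 0) (nat_lit 97970508657) (nat_lit 152) (nat_lit 152113290893) (nat_lit 228) (nat_lit 448480978627) (nat_lit 15) (nat_lit 5) (nat_lit 17) (nat_lit 5) (nat_lit 18) (nat_lit 5) (nat_lit 314) (nat_lit 296) (nat_lit 110)) (XT.nd (nat_lit 78) (nat_lit 0) (nat_lit 0) (XT.lf (nat_lit 0) (nat_lit 347283404345) (nat_lit 228) (nat_lit 337493758602) (nat_lit 76) (nat_lit 51991060319) (nat_lit 15) (nat_lit 5) (nat_lit 18) (nat_lit 5) (nat_lit 16) (nat_lit 5) (nat_lit 315) (nat_lit 296) (nat_lit 109)) (XT.lf (nat_lit 0) (nat_lit 456209953261) (nat_lit 228) (nat_lit 57296227374) (nat_lit 76) (nat_lit 264205685367) (nat_lit 15) (nat_lit 5) (nat_lit 18) (nat_lit 5) (nat_lit 16) (nat_lit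 5) (nat_lit 316) (nat_lit 296) (nat_lit 108)))) (XT.nd (nat_lit 78) (nat_lit 76) (nat_lit 0) (XT.lf (nat_lit 0) (nat_lit 258235045094) (nat_lit 152) (nat_lit 321826122606) (nat_lit 228) (nat_lit 241372989222) (nat_lit 13) (nat_lit 5) (nat_lit 15) (nat_lit 5) (nat_lit 16) (nat_lit 5) (nat_lit 317) (nat_lit 296) (nat_lit 107)) (XT.nd (nat_lit 78) (nat_lit 76) (nat_lit 0) (XT.lf (nat_lit 0) (nat_lit 602267283119) (nat_lit 152) (nat_lit 113119759861) (nat_lit 228) (nat_lit 153141863126) (nat_lit 13) (nat_lit 5) (nat_lit 15) (nat_lit 5) (nat_lit 16) (nat_lit 5) (nat_lit 318) (nat_lit 296) (nat_lit 106)) (XT.lf (nat_lit 0) (nat_lit 54454463325) (nat_lit 76) (nat_lit 811094552030) (nat_lit 152) (nat_lit 53521417783) (nat_lit 12) (nat_lit 5) (nat_lit 13) (nat_lit 5) (nat_lit 14) (nat_lit 4) (nat_lit 319) (nat_lit 296) (nat_lit 105)))))) (XT.nd (nat_lit 468) (nat_lit 456) (nat_lit 0) (XT.nd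 (nat_lit 234) (nat_lit 0) (nat_lit 76) (XT.nd (nat_lit 78) (nat_lit 0) (nat_lit 0) (XT.lf (nat_lit 0) (nat_lit 28880378121) (nat_lit 532) (nat_lit 68285558249) (nat_lit 532) (nat_lit 68285558249) (nat_lit 29) (nat_lit 3) (nat_lit 36) (nat_lit 3) (nat_lit 36) (nat_lit 5) (nat_lit 297) (nat_lit 297) (nat_lit 126)) (XT.nd (nat_lit 78) (nat_lit 0) (nat_lit 76) (XT.lf (nat_lit 0) (nat_lit 60071708728) (nat_lit 532) (nat_lit 2432132897) (nat_lit 532) (nat_lit 281635221690) (nat_lit 29) (nat_lit 3) (nat_lit 36) (nat_lit 3) (nat_lit 36) (nat_lit 5) (nat_lit 298) (nat_lit 297) (nat_lit 125)) (XT.lf (nat_lit 0) (nat_lit 68188058325) (nat_lit 456) (nat_lit 210221624761) (nat_lit 532) (nat_lit 79574698929) (nat_lit 30) (nat_lit 5) (nat_lit 36) (nat_lit 5) (nat_lit 37) (nat_lit 5) (nat_lit 299) (nat_lit 297) (nat_lit 124)))) (XT.nd (nat_lit 78) (nat_lit 0) (nat_lit 76) (XT.lf (nat_lit 0) (nat_lit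 78645369831) (nat_lit 456) (nat_lit 64445686244) (nat_lit 532) (nat_lit 229710938165) (nat_lit 30) (nat_lit 5) (nat_lit 36) (nat_lit 5) (nat_lit 37) (nat_lit 5) (nat_lit 300) (nat_lit 297) (nat_lit 123)) (XT.nd (nat_lit 78) (nat_lit 0) (nat_lit 0) (XT.lf (nat_lit 0) (nat_lit 92428032218) (nat_lit 456) (nat_lit 290862149172) (nat_lit 532) (nat_lit 5315733094) (nat_lit 31) (nat_lit 5) (nat_lit 37) (nat_lit 5) (nat_lit 38) (nat_lit 5) (nat_lit 301) (nat_lit 297) (nat_lit 122)) (XT.lf (nat_lit 0) (nat_lit 112837743447) (nat_lit 456) (nat_lit 132722179203) (nat_lit 532) (nat_lit 159672271124) (nat_lit 31) (nat_lit 5) (nat_lit 37) (nat_lit 5) (nat_lit 38) (nat_lit 5) (nat_lit 302) (nat_lit 297) (nat_lit 121))))) (XT.nd (nat_lit 234) (nat_lit 608) (nat_lit 0) (XT.nd (nat_lit 78) (nat_lit 0) (nat_lit 76) (XT.lf (nat_lit 76) (nat_lit 40073601378) (nat_lit 0) (nat_lit 95770362386) (nat_lit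 532) (nat_lit 287267513343) (nat_lit 32) (nat_lit 5) (nat_lit 31) (nat_lit 5) (nat_lit 38) (nat_lit 5) (nat_lit 303) (nat_lit 297) (nat_lit 120)) (XT.nd (nat_lit 78) (nat_lit 0) (nat_lit 0) (XT.lf (nat_lit 0) (nat_lit 166001119225) (nat_lit 456) (nat_lit 209571369899) (nat_lit 76) (nat_lit 66423779233) (nat_lit 32) (nat_lit 5) (nat_lit 38) (nat_lit 5) (nat_lit 33) (nat_lit 5) (nat_lit 304) (nat_lit 297) (nat_lit 119)) (XT.lf (nat_lit 0) (nat_lit 201058355143) (nat_lit 456) (nat_lit 24715116405) (nat_lit 76) (nat_lit 236419370953) (nat_lit 32) (nat_lit 5) (nat_lit 38) (nat_lit 5) (nat_lit 33) (nat_lit 5) (nat_lit 305) (nat_lit 297) (nat_lit 118)))) (XT.nd (nat_lit 78) (nat_lit 228) (nat_lit 0) (XT.lf (nat_lit 0) (nat_lit 184141091931) (nat_lit 456) (nat_lit 59207644341) (nat_lit 532) (nat_lit 240302121214) (nat_lit 26) (nat_lit 5) (nat_lit 32) (nat_lit 5) (nat_lit 33) (nat_lit 5) (nat_lit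 306) (nat_lit 297) (nat_lit 117)) (XT.nd (nat_lit 78) (nat_lit 228) (nat_lit 0) (XT.lf (nat_lit 0) (nat_lit 292618065247) (nat_lit 532) (nat_lit 98580108218) (nat_lit 76) (nat_lit 115339683016) (nat_lit 26) (nat_lit 5) (nat_lit 33) (nat_lit 5) (nat_lit 27) (nat_lit 5) (nat_lit 307) (nat_lit 297) (nat_lit 116)) (XT.lf (nat_lit 0) (nat_lit 123041043882) (nat_lit 228) (nat_lit 227284870155) (nat_lit 304) (nat_lit 180570143667) (nat_lit 23) (nat_lit 5) (nat_lit 26) (nat_lit 5) (nat_lit 27) (nat_lit 5) (nat_lit 308) (nat_lit 297) (nat_lit 115))))))))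
noncomputable def xc125 : XT := (XT.nd (nat_lit 37752) (nat_lit 0) (nat_lit 152) (XT.nd (nat_lit 36816) (nat_lit 0) (nat_lit 608) (XT.nd (nat_lit 468) (nat_lit 304) (nat_lit 0) (XT.nd (nat_lit 234) (nat_lit 304) (nat_lit 0) (XT.nd (nat_lit 78) (nat_lit 152) (nat_lit 0) (XT.lf (nat_lit 0) (nat_lit 367998198704) (nat_lit 228) (nat_lit 47347520793) (nat_lit 304) (nat_lit 141641569396) (nat_lit 23) (nat_lit 5) (nat_lit 26) (nat_lit 5) (nat_lit 27) (nat_lit 5) (nat_lit 309) (nat_lit 297) (nat_lit 114)) (XT.nd (nat_lit 78) (nat_lit 0) (nat_lit 0) (XT.lf (nat_lit 0) (nat_lit 46160212154) (nat_lit 152) (nat_lit 444052015637) (nat_lit 228) (nat_lit 94581981476) (nat_lit 21) (nat_lit 5) (nat_lit 23) (nat_lit 5) (nat_lit 24) (nat_lit 5) (nat_lit 310) (nat_lit 297) (nat_lit 113)) (XT.lf (nat_lit 0) (nat_lit 309574843707) (nat_lit 152) (nat_lit 267859158053) (nat_lit 228) (nat_lit 36882406057)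 (nat_lit 21) (nat_lit 5) (nat_lit 23) (nat_lit 5) (nat_lit 24) (nat_lit 5) (nat_lit 311) (nat_lit 297) (nat_lit 112)))) (XT.nd (nat_lit 78) (nat_lit 228) (nat_lit 0) (XT.lf (nat_lit 0) (nat_lit 24160844937) (nat_lit 228) (nat_lit 52749430150) (nat_lit 76) (nat_lit 569241175649) (nat_lit 20) (nat_lit 5) (nat_lit 23) (nat_lit 5) (nat_lit 21) (nat_lit 5) (nat_lit 312) (nat_lit 297) (nat_lit 111)) (XT.nd (nat_lit 78) (nat_lit 0) (nat_lit 0) (XT.lf (nat_lit 0) (nat_lit 96903699452) (nat_lit 304) (nat_lit 453345840833) (nat_lit 76) (nat_lit 129502418049) (nat_lit 17) (nat_lit 5) (nat_lit 21) (nat_lit 5) (nat_lit 18) (nat_lit 5) (nat_lit 313) (nat_lit 297) (nat_lit 110)) (XT.lf (nat_lit 0) (nat_lit 178943356538) (nat_lit 304) (nat_lit 187066265744) (nat_lit 76) (nat_lit 349752694429) (nat_lit 17) (nat_lit 5) (nat_lit 21) (nat_lit 5) (nat_lit 18) (nat_lit 5) (nat_lit 314) (nat_lit 297) (nat_lit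 109))))) (XT.nd (nat_lit 234) (nat_lit 152) (nat_lit 0) (XT.nd (nat_lit 78) (nat_lit 0) (nat_lit 0) (XT.lf (nat_lit 0) (nat_lit 105808628144) (nat_lit 152) (nat_lit 164282239998) (nat_lit 228) (nat_lit 484359061160) (nat_lit 15) (nat_lit 5) (nat_lit 17) (nat_lit 5) (nat_lit 18) (nat_lit 5) (nat_lit 315) (nat_lit 297) (nat_lit 108)) (XT.nd (nat_lit 78) (nat_lit 0) (nat_lit 0) (XT.lf (nat_lit 0) (nat_lit 375066416853) (nat_lit 228) (nat_lit 364492789680) (nat_lit 76) (nat_lit 56150445566) (nat_lit 15) (nat_lit 5) (nat_lit 18) (nat_lit 5) (nat_lit 16) (nat_lit 5) (nat_lit 316) (nat_lit 297) (nat_lit 107)) (XT.lf (nat_lit 0) (nat_lit 492707064485) (nat_lit 228) (nat_lit 61879490740) (nat_lit 76) (nat_lit 285342233180) (nat_lit 15) (nat_lit 5) (nat_lit 18) (nat_lit 5) (nat_lit 16) (nat_lit 5) (nat_lit 317) (nat_lit 297) (nat_lit 106)))) (XT.nd (nat_lit 35958) (nat_lit 0) (nat_lit 1216)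 (XT.lf (nat_lit 0) (nat_lit 278894272517) (nat_lit 152) (nat_lit 347572090424) (nat_lit 228) (nat_lit 260682500832) (nat_lit 13) (nat_lit 5) (nat_lit 15) (nat_lit 5) (nat_lit 16) (nat_lit 5) (nat_lit 318) (nat_lit 297) (nat_lit 105)) (XT.nd (nat_lit 78) (nat_lit 0) (nat_lit 0) (XT.lf (nat_lit 0) (nat_lit 31191318046) (nat_lit 532) (nat_lit 73748125871) (nat_lit 532) (nat_lit 73748125871) (nat_lit 29) (nat_lit 3) (nat_lit 36) (nat_lit 3) (nat_lit 36) (nat_lit 5) (nat_lit 298) (nat_lit 298) (nat_lit 124)) (XT.lf (nat_lit 0) (nat_lit 64878389268) (nat_lit 532) (nat_lit 2626190497) (nat_lit 532) (nat_lit 304165526392) (nat_lit 29) (nat_lit 3) (nat_lit 36) (nat_lit 3) (nat_lit 36) (nat_lit 5) (nat_lit 299) (nat_lit 298) (nat_lit 123)))))) (XT.nd (nat_lit 468) (nat_lit 684) (nat_lit 0) (XT.nd (nat_lit 234) (nat_lit 0) (nat_lit 76) (XT.nd (nat_lit 78) (nat_lit 0) (nat_lit 0) (XT.lf (nat_lit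 0) (nat_lit 73643979664) (nat_lit 456) (nat_lit 227038768322) (nat_lit 532) (nat_lit 85940308239) (nat_lit 30) (nat_lit 5) (nat_lit 36) (nat_lit 5) (nat_lit 37) (nat_lit 5) (nat_lit 300) (nat_lit 298) (nat_lit 122)) (XT.nd (nat_lit 78) (nat_lit 0) (nat_lit 76) (XT.lf (nat_lit 0) (nat_lit 84937811152) (nat_lit 456) (nat_lit 69600798161) (nat_lit 532) (nat_lit 248087473769) (nat_lit 30) (nat_lit 5) (nat_lit 36) (nat_lit 5) (nat_lit 37) (nat_lit 5) (nat_lit 301) (nat_lit 298) (nat_lit 121)) (XT.lf (nat_lit 0) (nat_lit 99823033475) (nat_lit 456) (nat_lit 314130519739) (nat_lit 532) (nat_lit 5740768403) (nat_lit 31) (nat_lit 5) (nat_lit 37) (nat_lit 5) (nat_lit 38) (nat_lit 5) (nat_lit 302) (nat_lit 298) (nat_lit 120)))) (XT.nd (nat_lit 78) (nat_lit 0) (nat_lit 0) (XT.lf (nat_lit 0) (nat_lit 121865465405) (nat_lit 456) (nat_lit 143339396718) (nat_lit 532) (nat_lit 172445846019) (nat_lit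 31) (nat_lit 5) (nat_lit 37) (nat_lit 5) (nat_lit 38) (nat_lit 5) (nat_lit 303) (nat_lit 298) (nat_lit 119)) (XT.nd (nat_lit 78) (nat_lit 0) (nat_lit 76) (XT.lf (nat_lit 76) (nat_lit 43280032213) (nat_lit 0) (nat_lit 103432112151) (nat_lit 532) (nat_lit 310248193262) (nat_lit 32) (nat_lit 5) (nat_lit 31) (nat_lit 5) (nat_lit 38) (nat_lit 5) (nat_lit 304) (nat_lit 298) (nat_lit 118)) (XT.lf (nat_lit 0) (nat_lit 179281820424) (nat_lit 456) (nat_lit 226336520899) (nat_lit 76) (nat_lit 71737575338) (nat_lit 32) (nat_lit 5) (nat_lit 38) (nat_lit 5) (nat_lit 33) (nat_lit 5) (nat_lit 305) (nat_lit 298) (nat_lit 117))))) (XT.nd (nat_lit 234) (nat_lit 380) (nat_lit 0) (XT.nd (nat_lit 78) (nat_lit 456) (nat_lit 0) (XT.lf (nat_lit 0) (nat_lit 217143589907) (nat_lit 456) (nat_lit 26691808502) (nat_lit 76) (nat_lit 255332822265) (nat_lit 32) (nat_lit 5) (nat_lit 38) (nat_lit 5) (nat_lit 33) (nat_lit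 5) (nat_lit 306) (nat_lit 298) (nat_lit 116)) (XT.nd (nat_lit 78) (nat_lit 0) (nat_lit 0) (XT.lf (nat_lit 0) (nat_lit 198872883406) (nat_lit 456) (nat_lit 63944288292) (nat_lit 532) (nat_lit 259525707836) (nat_lit 26) (nat_lit 5) (nat_lit 32) (nat_lit 5) (nat_lit 33) (nat_lit 5) (nat_lit 307) (nat_lit 298) (nat_lit 115)) (XT.lf (nat_lit 0) (nat_lit 316028006528) (nat_lit 532) (nat_lit 106466006273) (nat_lit 76) (nat_lit 124566829155) (nat_lit 26) (nat_lit 5) (nat_lit 33) (nat_lit 5) (nat_lit 27) (nat_lit 5) (nat_lit 308) (nat_lit 298) (nat_lit 114)))) (XT.nd (nat_lit 78) (nat_lit 152) (nat_lit 0) (XT.lf (nat_lit 0) (nat_lit 132884825068) (nat_lit 228) (nat_lit 245467633376) (nat_lit 304) (nat_lit 195015243063) (nat_lit 23) (nat_lit 5) (nat_lit 26) (nat_lit 5) (nat_lit 27) (nat_lit 5) (nat_lit 309) (nat_lit 298) (nat_lit 113)) (XT.nd (nat_lit 78) (nat_lit 152) (nat_lit 0) (XT.lf (nat_lit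 0) (nat_lit 397438515412) (nat_lit 228) (nat_lit 51135298020) (nat_lit 304) (nat_lit 152972420783) (nat_lit 23) (nat_lit 5) (nat_lit 26) (nat_lit 5) (nat_lit 27) (nat_lit 5) (nat_lit 310) (nat_lit 298) (nat_lit 112)) (XT.lf (nat_lit 0) (nat_lit 49853514531) (nat_lit 152) (nat_lit 479576107751) (nat_lit 228) (nat_lit 102148087757) (nat_lit 21) (nat_lit 5) (nat_lit 23) (nat_lit 5) (nat_lit 24) (nat_lit 5) (nat_lit 311) (nat_lit 298) (nat_lit 111))))))) (XT.nd (nat_lit 36894) (nat_lit 0) (nat_lit 152) (XT.nd (nat_lit 468) (nat_lit 0) (nat_lit 0) (XT.nd (nat_lit 234) (nat_lit 152) (nat_lit 0) (XT.nd (nat_lit 78) (nat_lit 304) (nat_lit 0) (XT.lf (nat_lit 0) (nat_lit 334341280653) (nat_lit 152) (nat_lit 289287826681) (nat_lit 228) (nat_lit 39832579803) (nat_lit 21) (nat_lit 5) (nat_lit 23) (nat_lit 5) (nat_lit 24) (nat_lit 5) (nat_lit 312) (nat_lit 298) (nat_lit 110)) (XT.nd (nat_lit 78)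 (nat_lit 228) (nat_lit 0) (XT.lf (nat_lit 0) (nat_lit 26094080857) (nat_lit 228) (nat_lit 56968946893) (nat_lit 76) (nat_lit 614780507462) (nat_lit 20) (nat_lit 5) (nat_lit 23) (nat_lit 5) (nat_lit 21) (nat_lit 5) (nat_lit 313) (nat_lit 298) (nat_lit 109)) (XT.lf (nat_lit 0) (nat_lit 104656348520) (nat_lit 304) (nat_lit 489613053257) (nat_lit 76) (nat_lit 139862683015) (nat_lit 17) (nat_lit 5) (nat_lit 21) (nat_lit 5) (nat_lit 18) (nat_lit 5) (nat_lit 314) (nat_lit 298) (nat_lit 108)))) (XT.nd (nat_lit 78) (nat_lit 152) (nat_lit 0) (XT.lf (nat_lit 0) (nat_lit 193259152016) (nat_lit 304) (nat_lit 202031145853) (nat_lit 76) (nat_lit 377732976207) (nat_lit 17) (nat_lit 5) (nat_lit 21) (nat_lit 5) (nat_lit 18) (nat_lit 5) (nat_lit 315) (nat_lit 298) (nat_lit 107)) (XT.nd (nat_lit 78) (nat_lit 0) (nat_lit 0) (XT.lf (nat_lit 0) (nat_lit 114273728884) (nat_lit 152) (nat_lit 177424721318)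 (nat_lit 228) (nat_lit 523107446755) (nat_lit 15) (nat_lit 5) (nat_lit 17) (nat_lit 5) (nat_lit 18) (nat_lit 5) (nat_lit 316) (nat_lit 298) (nat_lit 106)) (XT.lf (nat_lit 0) (nat_lit 405072021833) (nat_lit 228) (nat_lit 393651810240) (nat_lit 76) (nat_lit 60642567308) (nat_lit 15) (nat_lit 5) (nat_lit 18) (nat_lit 5) (nat_lit 16) (nat_lit 5) (nat_lit 317) (nat_lit 298) (nat_lit 105))))) (XT.nd (nat_lit 36192) (nat_lit 0) (nat_lit 1140) (XT.nd (nat_lit 36036) (nat_lit 0) (nat_lit 1064) (XT.lf (nat_lit 0) (nat_lit 532123899674) (nat_lit 228) (nat_lit 66829477208) (nat_lit 76) (nat_lit 308169691552) (nat_lit 15) (nat_lit 5) (nat_lit 18) (nat_lit 5) (nat_lit 16) (nat_lit 5) (nat_lit 318) (nat_lit 298) (nat_lit 104)) (XT.nd (nat_lit 78) (nat_lit 0) (nat_lit 0) (XT.lf (nat_lit 0) (nat_lit 33687060454) (nat_lit 532) (nat_lit 79647738426) (nat_lit 532) (nat_lit 79647738426) (nat_lit 29) (nat_lit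 3) (nat_lit 36) (nat_lit 3) (nat_lit 36) (nat_lit 5) (nat_lit 299) (nat_lit 299) (nat_lit 122)) (XT.lf (nat_lit 0) (nat_lit 70069469602) (nat_lit 532) (nat_lit 2835845893) (nat_lit 532) (nat_lit 328498328661) (nat_lit 29) (nat_lit 3) (nat_lit 36) (nat_lit 3) (nat_lit 36) (nat_lit 5) (nat_lit 300) (nat_lit 299) (nat_lit 121)))) (XT.nd (nat_lit 78) (nat_lit 0) (nat_lit 0) (XT.lf (nat_lit 0) (nat_lit 79536249643) (nat_lit 456) (nat_lit 245201367027) (nat_lit 532) (nat_lit 92815218593) (nat_lit 30) (nat_lit 5) (nat_lit 36) (nat_lit 5) (nat_lit 37) (nat_lit 5) (nat_lit 301) (nat_lit 299) (nat_lit 120)) (XT.nd (nat_lit 78) (nat_lit 0) (nat_lit 76) (XT.lf (nat_lit 0) (nat_lit 91733531975) (nat_lit 456) (nat_lit 75168396495) (nat_lit 532) (nat_lit 267934180648) (nat_lit 30) (nat_lit 5) (nat_lit 36) (nat_lit 5) (nat_lit 37) (nat_lit 5) (nat_lit 302) (nat_lit 299) (nat_lit 119)) (XT.lf (nat_lit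 0) (nat_lit 107809526599) (nat_lit 456) (nat_lit 339260445742) (nat_lit 532) (nat_lit 6199838399) (nat_lit 31) (nat_lit 5) (nat_lit 37) (nat_lit 5) (nat_lit 38) (nat_lit 5) (nat_lit 303) (nat_lit 299) (nat_lit 118)))))) (XT.nd (nat_lit 468) (nat_lit 684) (nat_lit 0) (XT.nd (nat_lit 234) (nat_lit 380) (nat_lit 0) (XT.nd (nat_lit 78) (nat_lit 0) (nat_lit 0) (XT.lf (nat_lit 0) (nat_lit 131615304901) (nat_lit 456) (nat_lit 154806071071) (nat_lit 532) (nat_lit 186241336408) (nat_lit 31) (nat_lit 5) (nat_lit 37) (nat_lit 5) (nat_lit 38) (nat_lit 5) (nat_lit 304) (nat_lit 299) (nat_lit 117)) (XT.nd (nat_lit 78) (nat_lit 0) (nat_lit 76) (XT.lf (nat_lit 76) (nat_lit 46742900089) (nat_lit 0) (nat_lit 111706784667) (nat_lit 532) (nat_lit 335067430454) (nat_lit 32) (nat_lit 5) (nat_lit 31) (nat_lit 5) (nat_lit 38) (nat_lit 5) (nat_lit 305) (nat_lit 299) (nat_lit 116)) (XT.lf (nat_lit 0) (nat_lit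 193624890459) (nat_lit 456) (nat_lit 244442963668) (nat_lit 76) (nat_lit 77476490288) (nat_lit 32) (nat_lit 5) (nat_lit 38) (nat_lit 5) (nat_lit 33) (nat_lit 5) (nat_lit 306) (nat_lit 299) (nat_lit 115)))) (XT.nd (nat_lit 78) (nat_lit 456) (nat_lit 0) (XT.lf (nat_lit 0) (nat_lit 234515562656) (nat_lit 456) (nat_lit 28826709754) (nat_lit 76) (nat_lit 275759363715) (nat_lit 32) (nat_lit 5) (nat_lit 38) (nat_lit 5) (nat_lit 33) (nat_lit 5) (nat_lit 307) (nat_lit 299) (nat_lit 114)) (XT.nd (nat_lit 78) (nat_lit 0) (nat_lit 0) (XT.lf (nat_lit 0) (nat_lit 214783146281) (nat_lit 456) (nat_lit 69059859136) (nat_lit 532) (nat_lit 280287264571) (nat_lit 26) (nat_lit 5) (nat_lit 32) (nat_lit 5) (nat_lit 33) (nat_lit 5) (nat_lit 308) (nat_lit 299) (nat_lit 113)) (XT.lf (nat_lit 0) (nat_lit 341310672342) (nat_lit 532) (nat_lit 114982849016) (nat_lit 76) (nat_lit 134532151051) (nat_lit 26) (nat_lit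 5) (nat_lit 33) (nat_lit 5) (nat_lit 27) (nat_lit 5) (nat_lit 309) (nat_lit 299) (nat_lit 112))))) (XT.nd (nat_lit 234) (nat_lit 304) (nat_lit 0) (XT.nd (nat_lit 78) (nat_lit 152) (nat_lit 0) (XT.lf (nat_lit 0) (nat_lit 143516037750) (nat_lit 228) (nat_lit 265105021419) (nat_lit 304) (nat_lit 210616023466) (nat_lit 23) (nat_lit 5) (nat_lit 26) (nat_lit 5) (nat_lit 27) (nat_lit 5) (nat_lit 310) (nat_lit 299) (nat_lit 111)) (XT.nd (nat_lit 78) (nat_lit 152) (nat_lit 0) (XT.lf (nat_lit 0) (nat_lit 429233991716) (nat_lit 228) (nat_lit 55226100911) (nat_lit 304) (nat_lit 165209807926) (nat_lit 23) (nat_lit 5) (nat_lit 26) (nat_lit 5) (nat_lit 27) (nat_lit 5) (nat_lit 311) (nat_lit 299) (nat_lit 110)) (XT.lf (nat_lit 0) (nat_lit 53842211851) (nat_lit 152) (nat_lit 517942137097) (nat_lit 228) (nat_lit 110319547057) (nat_lit 21) (nat_lit 5) (nat_lit 23) (nat_lit 5) (nat_lit 24) (nat_lit 5)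 (nat_lit 312) (nat_lit 299) (nat_lit 109)))) (XT.nd (nat_lit 78) (nat_lit 304) (nat_lit 0) (XT.lf (nat_lit 0) (nat_lit 361088968436) (nat_lit 152) (nat_lit 312430797933) (nat_lit 228) (nat_lit 43018827187) (nat_lit 21) (nat_lit 5) (nat_lit 23) (nat_lit 5) (nat_lit 24) (nat_lit 5) (nat_lit 313) (nat_lit 299) (nat_lit 108)) (XT.nd (nat_lit 78) (nat_lit 228) (nat_lit 0) (XT.lf (nat_lit 0) (nat_lit 28181923105) (nat_lit 228) (nat_lit 61526087414) (nat_lit 76) (nat_lit 663962980433) (nat_lit 20) (nat_lit 5) (nat_lit 23) (nat_lit 5) (nat_lit 21) (nat_lit 5) (nat_lit 314) (nat_lit 299) (nat_lit 107)) (XT.lf (nat_lit 0) (nat_lit 113029159138) (nat_lit 304) (nat_lit 528781707563) (nat_lit 76) (nat_lit 151051758974) (nat_lit 17) (nat_lit 5) (nat_lit 21) (nat_lit 5) (nat_lit 18) (nat_lit 5) (nat_lit 315) (nat_lit 299) (nat_lit 106))))))))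
noncomputable def xc126 : XT := (XT.nd (nat_lit 74178) (nat_lit 0) (nat_lit 380) (XT.nd (nat_lit 36972) (nat_lit 0) (nat_lit 152) (XT.nd (nat_lit 36504) (nat_lit 0) (nat_lit 1140) (XT.nd (nat_lit 36270) (nat_lit 0) (nat_lit 1064) (XT.nd (nat_lit 78) (nat_lit 152) (nat_lit 0) (XT.lf (nat_lit 0) (nat_lit 208720164489) (nat_lit 304) (nat_lit 218193276453) (nat_lit 76) (nat_lit 407951671080) (nat_lit 17) (nat_lit 5) (nat_lit 21) (nat_lit 5) (nat_lit 18) (nat_lit 5) (nat_lit 316) (nat_lit 299) (nat_lit 105)) (XT.lf (nat_lit 0) (nat_lit 123415979123) (nat_lit 152) (nat_lit 191618615107) (nat_lit 228) (nat_lit 564955751602) (nat_lit 15) (nat_lit 5) (nat_lit 17) (nat_lit 5) (nat_lit 18) (nat_lit 5) (nat_lit 317) (nat_lit 299) (nat_lit 104))) (XT.nd (nat_lit 78) (nat_lit 0) (nat_lit 0) (XT.lf (nat_lit 0) (nat_lit 36382399916) (nat_lit 532) (nat_lit 86019353869) (nat_lit 532) (nat_lit 86019353869)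 (nat_lit 29) (nat_lit 3) (nat_lit 36) (nat_lit 3) (nat_lit 36) (nat_lit 5) (nat_lit 300) (nat_lit 300) (nat_lit 120)) (XT.nd (nat_lit 78) (nat_lit 0) (nat_lit 76) (XT.lf (nat_lit 0) (nat_lit 75675720923) (nat_lit 532) (nat_lit 3062336471) (nat_lit 532) (nat_lit 354777817860) (nat_lit 29) (nat_lit 3) (nat_lit 36) (nat_lit 3) (nat_lit 36) (nat_lit 5) (nat_lit 301) (nat_lit 300) (nat_lit 119)) (XT.lf (nat_lit 0) (nat_lit 85899793995) (nat_lit 456) (nat_lit 264817045352) (nat_lit 532) (nat_lit 100240166615) (nat_lit 30) (nat_lit 5) (nat_lit 36) (nat_lit 5) (nat_lit 37) (nat_lit 5) (nat_lit 302) (nat_lit 300) (nat_lit 118))))) (XT.nd (nat_lit 234) (nat_lit 0) (nat_lit 76) (XT.nd (nat_lit 78) (nat_lit 0) (nat_lit 76) (XT.lf (nat_lit 0) (nat_lit 99072811182) (nat_lit 456) (nat_lit 81181469107) (nat_lit 532) (nat_lit 289368665595) (nat_lit 30) (nat_lit 5) (nat_lit 36) (nat_lit 5) (nat_lit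 37) (nat_lit 5) (nat_lit 303) (nat_lit 300) (nat_lit 117)) (XT.nd (nat_lit 78) (nat_lit 0) (nat_lit 0) (XT.lf (nat_lit 0) (nat_lit 116434846379) (nat_lit 456) (nat_lit 366400839379) (nat_lit 532) (nat_lit 6695661311) (nat_lit 31) (nat_lit 5) (nat_lit 37) (nat_lit 5) (nat_lit 38) (nat_lit 5) (nat_lit 304) (nat_lit 300) (nat_lit 116)) (XT.lf (nat_lit 0) (nat_lit 142145045638) (nat_lit 456) (nat_lit 167190147476) (nat_lit 532) (nat_lit 201140491321) (nat_lit 31) (nat_lit 5) (nat_lit 37) (nat_lit 5) (nat_lit 38) (nat_lit 5) (nat_lit 305) (nat_lit 300) (nat_lit 115)))) (XT.nd (nat_lit 78) (nat_lit 0) (nat_lit 76) (XT.lf (nat_lit 76) (nat_lit 50482731015) (nat_lit 0) (nat_lit 120643416212) (nat_lit 532) (nat_lit 361872294825) (nat_lit 32) (nat_lit 5) (nat_lit 31) (nat_lit 5) (nat_lit 38) (nat_lit 5) (nat_lit 306) (nat_lit 300) (nat_lit 114)) (XT.nd (nat_lit 78) (nat_lit 0) (nat_lit 0) (XT.lf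 (nat_lit 0) (nat_lit 209115331284) (nat_lit 456) (nat_lit 263997990180) (nat_lit 76) (nat_lit 83674531426) (nat_lit 32) (nat_lit 5) (nat_lit 38) (nat_lit 5) (nat_lit 33) (nat_lit 5) (nat_lit 307) (nat_lit 300) (nat_lit 113)) (XT.lf (nat_lit 0) (nat_lit 253277223954) (nat_lit 456) (nat_lit 31132466366) (nat_lit 76) (nat_lit 297820040511) (nat_lit 32) (nat_lit 5) (nat_lit 38) (nat_lit 5) (nat_lit 33) (nat_lit 5) (nat_lit 308) (nat_lit 300) (nat_lit 112)))))) (XT.nd (nat_lit 468) (nat_lit 304) (nat_lit 0) (XT.nd (nat_lit 234) (nat_lit 152) (nat_lit 0) (XT.nd (nat_lit 78) (nat_lit 228) (nat_lit 0) (XT.lf (nat_lit 0) (nat_lit 231966168528) (nat_lit 456) (nat_lit 74584671685) (nat_lit 532) (nat_lit 302709817159) (nat_lit 26) (nat_lit 5) (nat_lit 32) (nat_lit 5) (nat_lit 33) (nat_lit 5) (nat_lit 309) (nat_lit 300) (nat_lit 111)) (XT.nd (nat_lit 78) (nat_lit 228) (nat_lit 0) (XT.lf (nat_lit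 0) (nat_lit 368615890748) (nat_lit 532) (nat_lit 124181101629) (nat_lit 76) (nat_lit 145294702185) (nat_lit 26) (nat_lit 5) (nat_lit 33) (nat_lit 5) (nat_lit 27) (nat_lit 5) (nat_lit 310) (nat_lit 300) (nat_lit 110)) (XT.lf (nat_lit 0) (nat_lit 154997686577) (nat_lit 228) (nat_lit 286313403734) (nat_lit 304) (nat_lit 227464928937) (nat_lit 23) (nat_lit 5) (nat_lit 26) (nat_lit 5) (nat_lit 27) (nat_lit 5) (nat_lit 311) (nat_lit 300) (nat_lit 109)))) (XT.nd (nat_lit 78) (nat_lit 152) (nat_lit 0) (XT.lf (nat_lit 0) (nat_lit 463573049763) (nat_lit 228) (nat_lit 59644171022) (nat_lit 304) (nat_lit 178426244035) (nat_lit 23) (nat_lit 5) (nat_lit 26) (nat_lit 5) (nat_lit 27) (nat_lit 5) (nat_lit 312) (nat_lit 300) (nat_lit 108)) (XT.nd (nat_lit 78) (nat_lit 0) (nat_lit 0) (XT.lf (nat_lit 0) (nat_lit 58149945586) (nat_lit 152) (nat_lit 559377457248) (nat_lit 228) (nat_lit 119144778415) (nat_lit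 21) (nat_lit 5) (nat_lit 23) (nat_lit 5) (nat_lit 24) (nat_lit 5) (nat_lit 313) (nat_lit 300) (nat_lit 107)) (XT.lf (nat_lit 0) (nat_lit 389976416269) (nat_lit 152) (nat_lit 337425214714) (nat_lit 228) (nat_lit 46460025577) (nat_lit 21) (nat_lit 5) (nat_lit 23) (nat_lit 5) (nat_lit 24) (nat_lit 5) (nat_lit 314) (nat_lit 300) (nat_lit 106))))) (XT.nd (nat_lit 36504) (nat_lit 0) (nat_lit 912) (XT.nd (nat_lit 78) (nat_lit 228) (nat_lit 0) (XT.lf (nat_lit 0) (nat_lit 30436747684) (nat_lit 228) (nat_lit 66447852707) (nat_lit 76) (nat_lit 717080046624) (nat_lit 20) (nat_lit 5) (nat_lit 23) (nat_lit 5) (nat_lit 21) (nat_lit 5) (nat_lit 315) (nat_lit 300) (nat_lit 105)) (XT.nd (nat_lit 36348) (nat_lit 0) (nat_lit 912) (XT.lf (nat_lit 0) (nat_lit 122071751417) (nat_lit 304) (nat_lit 571083909846) (nat_lit 76) (nat_lit 163135952263) (nat_lit 17) (nat_lit 5) (nat_lit 21) (nat_lit 5) (nat_lit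 18) (nat_lit 5) (nat_lit 316) (nat_lit 300) (nat_lit 104)) (XT.lf (nat_lit 0) (nat_lit 39293313091) (nat_lit 532) (nat_lit 92900727598) (nat_lit 532) (nat_lit 92900727598) (nat_lit 29) (nat_lit 3) (nat_lit 36) (nat_lit 3) (nat_lit 36) (nat_lit 5) (nat_lit 301) (nat_lit 301) (nat_lit 118)))) (XT.nd (nat_lit 78) (nat_lit 0) (nat_lit 76) (XT.lf (nat_lit 0) (nat_lit 81730373377) (nat_lit 532) (nat_lit 3307000091) (nat_lit 532) (nat_lit 383159719991) (nat_lit 29) (nat_lit 3) (nat_lit 36) (nat_lit 3) (nat_lit 36) (nat_lit 5) (nat_lit 302) (nat_lit 301) (nat_lit 117)) (XT.nd (nat_lit 78) (nat_lit 0) (nat_lit 0) (XT.lf (nat_lit 0) (nat_lit 92772329967) (nat_lit 456) (nat_lit 286002039436) (nat_lit 532) (nat_lit 108259148921) (nat_lit 30) (nat_lit 5) (nat_lit 36) (nat_lit 5) (nat_lit 37) (nat_lit 5) (nat_lit 303) (nat_lit 301) (nat_lit 116)) (XT.lf (nat_lit 0) (nat_lit 106999147607) (nat_lit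 456) (nat_lit 87675644465) (nat_lit 532) (nat_lit 312517944932) (nat_lit 30) (nat_lit 5) (nat_lit 36) (nat_lit 5) (nat_lit 37) (nat_lit 5) (nat_lit 304) (nat_lit 301) (nat_lit 115))))))) (XT.nd (nat_lit 37284) (nat_lit 0) (nat_lit 228) (XT.nd (nat_lit 468) (nat_lit 456) (nat_lit 0) (XT.nd (nat_lit 234) (nat_lit 380) (nat_lit 0) (XT.nd (nat_lit 78) (nat_lit 0) (nat_lit 0) (XT.lf (nat_lit 0) (nat_lit 125750112186) (nat_lit 456) (nat_lit 395712527566) (nat_lit 532) (nat_lit 7231173475) (nat_lit 31) (nat_lit 5) (nat_lit 37) (nat_lit 5) (nat_lit 38) (nat_lit 5) (nat_lit 305) (nat_lit 301) (nat_lit 114)) (XT.nd (nat_lit 78) (nat_lit 0) (nat_lit 0) (XT.lf (nat_lit 0) (nat_lit 153517091972) (nat_lit 456) (nat_lit 180565008382) (nat_lit 532) (nat_lit 217231600311) (nat_lit 31) (nat_lit 5) (nat_lit 37) (nat_lit 5) (nat_lit 38) (nat_lit 5) (nat_lit 306) (nat_lit 301) (nat_lit 113)) (XT.lf (nat_lit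 76) (nat_lit 54521691505) (nat_lit 0) (nat_lit 130294965617) (nat_lit 532) (nat_lit 390821623965) (nat_lit 32) (nat_lit 5) (nat_lit 31) (nat_lit 5) (nat_lit 38) (nat_lit 5) (nat_lit 307) (nat_lit 301) (nat_lit 112)))) (XT.nd (nat_lit 78) (nat_lit 456) (nat_lit 0) (XT.lf (nat_lit 0) (nat_lit 225844943237) (nat_lit 456) (nat_lit 285117477386) (nat_lit 76) (nat_lit 90368426995) (nat_lit 32) (nat_lit 5) (nat_lit 38) (nat_lit 5) (nat_lit 33) (nat_lit 5) (nat_lit 308) (nat_lit 301) (nat_lit 111)) (XT.nd (nat_lit 78) (nat_lit 456) (nat_lit 0) (XT.lf (nat_lit 0) (nat_lit 273539758769) (nat_lit 456) (nat_lit 33622737742) (nat_lit 76) (nat_lit 321645581766) (nat_lit 32) (nat_lit 5) (nat_lit 38) (nat_lit 5) (nat_lit 33) (nat_lit 5) (nat_lit 309) (nat_lit 301) (nat_lit 110)) (XT.lf (nat_lit 0) (nat_lit 250523779692) (nat_lit 456) (nat_lit 80551465839) (nat_lit 532) (nat_lit 326926235096) (nat_lit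 26) (nat_lit 5) (nat_lit 32) (nat_lit 5) (nat_lit 33) (nat_lit 5) (nat_lit 310) (nat_lit 301) (nat_lit 109))))) (XT.nd (nat_lit 234) (nat_lit 228) (nat_lit 0) (XT.nd (nat_lit 78) (nat_lit 228) (nat_lit 0) (XT.lf (nat_lit 0) (nat_lit 398105474611) (nat_lit 532) (nat_lit 134115267994) (nat_lit 76) (nat_lit 156918260398) (nat_lit 26) (nat_lit 5) (nat_lit 33) (nat_lit 5) (nat_lit 27) (nat_lit 5) (nat_lit 311) (nat_lit 301) (nat_lit 108)) (XT.nd (nat_lit 78) (nat_lit 0) (nat_lit 0) (XT.lf (nat_lit 0) (nat_lit 167397815123) (nat_lit 228) (nat_lit 309218459402) (nat_lit 304) (nat_lit 245661800543) (nat_lit 23) (nat_lit 5) (nat_lit 26) (nat_lit 5) (nat_lit 27) (nat_lit 5) (nat_lit 312) (nat_lit 301) (nat_lit 107)) (XT.lf (nat_lit 0) (nat_lit 500659184133) (nat_lit 228) (nat_lit 64415689305) (nat_lit 304) (nat_lit 192700044754) (nat_lit 23) (nat_lit 5) (nat_lit 26) (nat_lit 5) (nat_lit 27)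 (nat_lit 5) (nat_lit 313) (nat_lit 301) (nat_lit 106)))) (XT.nd (nat_lit 78) (nat_lit 76) (nat_lit 0) (XT.lf (nat_lit 0) (nat_lit 62802247121) (nat_lit 152) (nat_lit 604127610259) (nat_lit 228) (nat_lit 128676075702) (nat_lit 21) (nat_lit 5) (nat_lit 23) (nat_lit 5) (nat_lit 24) (nat_lit 5) (nat_lit 314) (nat_lit 301) (nat_lit 105)) (XT.nd (nat_lit 78) (nat_lit 76) (nat_lit 0) (XT.lf (nat_lit 0) (nat_lit 421174812800) (nat_lit 152) (nat_lit 364419191551) (nat_lit 228) (nat_lit 50176563748) (nat_lit 21) (nat_lit 5) (nat_lit 23) (nat_lit 5) (nat_lit 24) (nat_lit 5) (nat_lit 315) (nat_lit 301) (nat_lit 104)) (XT.lf (nat_lit 0) (nat_lit 32871919605) (nat_lit 228) (nat_lit 71763405118) (nat_lit 76) (nat_lit 774446474150) (nat_lit 20) (nat_lit 5) (nat_lit 23) (nat_lit 5) (nat_lit 21) (nat_lit 5) (nat_lit 316) (nat_lit 301) (nat_lit 103)))))) (XT.nd (nat_lit 468) (nat_lit 456) (nat_lit 0)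 (XT.nd (nat_lit 234) (nat_lit 0) (nat_lit 76) (XT.nd (nat_lit 78) (nat_lit 0) (nat_lit 0) (XT.lf (nat_lit 0) (nat_lit 42437053500) (nat_lit 532) (nat_lit 100332636131) (nat_lit 532) (nat_lit 100332636131) (nat_lit 29) (nat_lit 3) (nat_lit 36) (nat_lit 3) (nat_lit 36) (nat_lit 5) (nat_lit 302) (nat_lit 302) (nat_lit 116)) (XT.nd (nat_lit 78) (nat_lit 0) (nat_lit 76) (XT.lf (nat_lit 0) (nat_lit 88269313176) (nat_lit 532) (nat_lit 3571282922) (nat_lit 532) (nat_lit 413812220415) (nat_lit 29) (nat_lit 3) (nat_lit 36) (nat_lit 3) (nat_lit 36) (nat_lit 5) (nat_lit 303) (nat_lit 302) (nat_lit 115)) (XT.lf (nat_lit 0) (nat_lit 100194590004) (nat_lit 456) (nat_lit 308881885767) (nat_lit 532) (nat_lit 116919682769) (nat_lit 30) (nat_lit 5) (nat_lit 36) (nat_lit 5) (nat_lit 37) (nat_lit 5) (nat_lit 304) (nat_lit 302) (nat_lit 114)))) (XT.nd (nat_lit 78) (nat_lit 0) (nat_lit 76) (XT.lf (nat_lit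 0) (nat_lit 115559517970) (nat_lit 456) (nat_lit 94689402666) (nat_lit 532) (nat_lit 337519197133) (nat_lit 30) (nat_lit 5) (nat_lit 36) (nat_lit 5) (nat_lit 37) (nat_lit 5) (nat_lit 305) (nat_lit 302) (nat_lit 113)) (XT.nd (nat_lit 78) (nat_lit 0) (nat_lit 0) (XT.lf (nat_lit 0) (nat_lit 135810531053) (nat_lit 456) (nat_lit 427369204871) (nat_lit 532) (nat_lit 7809546690) (nat_lit 31) (nat_lit 5) (nat_lit 37) (nat_lit 5) (nat_lit 38) (nat_lit 5) (nat_lit 306) (nat_lit 302) (nat_lit 112)) (XT.lf (nat_lit 0) (nat_lit 165798838858) (nat_lit 456) (nat_lit 195009908220) (nat_lit 532) (nat_lit 234610016611) (nat_lit 31) (nat_lit 5) (nat_lit 37) (nat_lit 5) (nat_lit 38) (nat_lit 5) (nat_lit 307) (nat_lit 302) (nat_lit 111))))) (XT.nd (nat_lit 234) (nat_lit 608) (nat_lit 0) (XT.nd (nat_lit 78) (nat_lit 0) (nat_lit 76) (XT.lf (nat_lit 76) (nat_lit 58883720042) (nat_lit 0) (nat_lit 140718628116)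 (nat_lit 532) (nat_lit 422086964268) (nat_lit 32) (nat_lit 5) (nat_lit 31) (nat_lit 5) (nat_lit 38) (nat_lit 5) (nat_lit 308) (nat_lit 302) (nat_lit 110)) (XT.nd (nat_lit 78) (nat_lit 0) (nat_lit 0) (XT.lf (nat_lit 0) (nat_lit 243912869157) (nat_lit 456) (nat_lit 307926573787) (nat_lit 76) (nat_lit 97597843760) (nat_lit 32) (nat_lit 5) (nat_lit 38) (nat_lit 5) (nat_lit 33) (nat_lit 5) (nat_lit 309) (nat_lit 302) (nat_lit 109)) (XT.lf (nat_lit 0) (nat_lit 295423245453) (nat_lit 456) (nat_lit 36312277326) (nat_lit 76) (nat_lit 347377175165) (nat_lit 32) (nat_lit 5) (nat_lit 38) (nat_lit 5) (nat_lit 33) (nat_lit 5) (nat_lit 310) (nat_lit 302) (nat_lit 108)))) (XT.nd (nat_lit 78) (nat_lit 228) (nat_lit 0) (XT.lf (nat_lit 0) (nat_lit 270565954428) (nat_lit 456) (nat_lit 86995600613) (nat_lit 532) (nat_lit 353080018886) (nat_lit 26) (nat_lit 5) (nat_lit 32) (nat_lit 5) (nat_lit 33) (nat_lit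 5) (nat_lit 311) (nat_lit 302) (nat_lit 107)) (XT.nd (nat_lit 78) (nat_lit 228) (nat_lit 0) (XT.lf (nat_lit 0) (nat_lit 429954180586) (nat_lit 532) (nat_lit 144844213571) (nat_lit 76) (nat_lit 169471705831) (nat_lit 26) (nat_lit 5) (nat_lit 33) (nat_lit 5) (nat_lit 27) (nat_lit 5) (nat_lit 312) (nat_lit 302) (nat_lit 106)) (XT.lf (nat_lit 0) (nat_lit 180789909212) (nat_lit 228) (nat_lit 333955921896) (nat_lit 304) (nat_lit 265314467916) (nat_lit 23) (nat_lit 5) (nat_lit 26) (nat_lit 5) (nat_lit 27) (nat_lit 5) (nat_lit 313) (nat_lit 302) (nat_lit 105))))))))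
noncomputable def xc127 : XT := (XT.nd (nat_lit 111852) (nat_lit 0) (nat_lit 608) (XT.nd (nat_lit 37440) (nat_lit 0) (nat_lit 152) (XT.nd (nat_lit 36972) (nat_lit 0) (nat_lit 380) (XT.nd (nat_lit 36738) (nat_lit 0) (nat_lit 608) (XT.nd (nat_lit 78) (nat_lit 152) (nat_lit 0) (XT.lf (nat_lit 0) (nat_lit 540712167825) (nat_lit 228) (nat_lit 69568931247) (nat_lit 304) (nat_lit 208115792158) (nat_lit 23) (nat_lit 5) (nat_lit 26) (nat_lit 5) (nat_lit 27) (nat_lit 5) (nat_lit 314) (nat_lit 302) (nat_lit 104)) (XT.nd (nat_lit 36582) (nat_lit 0) (nat_lit 608) (XT.lf (nat_lit 0) (nat_lit 67826689140) (nat_lit 152) (nat_lit 652457781728) (nat_lit 228) (nat_lit 138969917428) (nat_lit 21) (nat_lit 5) (nat_lit 23) (nat_lit 5) (nat_lit 24) (nat_lit 5) (nat_lit 315) (nat_lit 302) (nat_lit 103)) (XT.lf (nat_lit 0) (nat_lit 45832253858) (nat_lit 532) (nat_lit 108359118699) (nat_lit 532) (nat_lit 108359118699)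 (nat_lit 29) (nat_lit 3) (nat_lit 36) (nat_lit 3) (nat_lit 36) (nat_lit 5) (nat_lit 303) (nat_lit 303) (nat_lit 114)))) (XT.nd (nat_lit 78) (nat_lit 0) (nat_lit 76) (XT.lf (nat_lit 0) (nat_lit 95331295412) (nat_lit 532) (nat_lit 3856747923) (nat_lit 532) (nat_lit 446916960414) (nat_lit 29) (nat_lit 3) (nat_lit 36) (nat_lit 3) (nat_lit 36) (nat_lit 5) (nat_lit 304) (nat_lit 303) (nat_lit 113)) (XT.nd (nat_lit 78) (nat_lit 0) (nat_lit 0) (XT.lf (nat_lit 0) (nat_lit 108210563273) (nat_lit 456) (nat_lit 333592165002) (nat_lit 532) (nat_lit 126273087582) (nat_lit 30) (nat_lit 5) (nat_lit 36) (nat_lit 5) (nat_lit 37) (nat_lit 5) (nat_lit 305) (nat_lit 303) (nat_lit 112)) (XT.lf (nat_lit 0) (nat_lit 124804655398) (nat_lit 456) (nat_lit 102264303374) (nat_lit 532) (nat_lit 364520575673) (nat_lit 30) (nat_lit 5) (nat_lit 36) (nat_lit 5) (nat_lit 37) (nat_lit 5) (nat_lit 306) (nat_lit 303)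 (nat_lit 111))))) (XT.nd (nat_lit 234) (nat_lit 380) (nat_lit 0) (XT.nd (nat_lit 78) (nat_lit 0) (nat_lit 0) (XT.lf (nat_lit 0) (nat_lit 146675724952) (nat_lit 456) (nat_lit 461558462712) (nat_lit 532) (nat_lit 8434206977) (nat_lit 31) (nat_lit 5) (nat_lit 37) (nat_lit 5) (nat_lit 38) (nat_lit 5) (nat_lit 307) (nat_lit 303) (nat_lit 110)) (XT.nd (nat_lit 78) (nat_lit 0) (nat_lit 0) (XT.lf (nat_lit 0) (nat_lit 179063071352) (nat_lit 456) (nat_lit 210610442961) (nat_lit 532) (nat_lit 253378722154) (nat_lit 31) (nat_lit 5) (nat_lit 37) (nat_lit 5) (nat_lit 38) (nat_lit 5) (nat_lit 308) (nat_lit 303) (nat_lit 109)) (XT.lf (nat_lit 76) (nat_lit 63594669032) (nat_lit 0) (nat_lit 151976174307) (nat_lit 532) (nat_lit 455853587378) (nat_lit 32) (nat_lit 5) (nat_lit 31) (nat_lit 5) (nat_lit 38) (nat_lit 5) (nat_lit 309) (nat_lit 303) (nat_lit 108)))) (XT.nd (nat_lit 78) (nat_lit 456) (nat_lit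 0) (XT.lf (nat_lit 0) (nat_lit 263426182007) (nat_lit 456) (nat_lit 332560440954) (nat_lit 76) (nat_lit 105405622055) (nat_lit 32) (nat_lit 5) (nat_lit 38) (nat_lit 5) (nat_lit 33) (nat_lit 5) (nat_lit 310) (nat_lit 303) (nat_lit 107)) (XT.nd (nat_lit 78) (nat_lit 456) (nat_lit 0) (XT.lf (nat_lit 0) (nat_lit 319057367420) (nat_lit 456) (nat_lit 39217019941) (nat_lit 76) (nat_lit 375167303616) (nat_lit 32) (nat_lit 5) (nat_lit 38) (nat_lit 5) (nat_lit 33) (nat_lit 5) (nat_lit 311) (nat_lit 303) (nat_lit 106)) (XT.lf (nat_lit 0) (nat_lit 292211464288) (nat_lit 456) (nat_lit 93955263671) (nat_lit 532) (nat_lit 381326150320) (nat_lit 26) (nat_lit 5) (nat_lit 32) (nat_lit 5) (nat_lit 33) (nat_lit 5) (nat_lit 312) (nat_lit 303) (nat_lit 105)))))) (XT.nd (nat_lit 37128) (nat_lit 0) (nat_lit 228) (XT.nd (nat_lit 36894) (nat_lit 0) (nat_lit 456) (XT.nd (nat_lit 78) (nat_lit 228) (nat_lit 0)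 (XT.lf (nat_lit 0) (nat_lit 464350744804) (nat_lit 532) (nat_lit 156431514149) (nat_lit 76) (nat_lit 183029429096) (nat_lit 26) (nat_lit 5) (nat_lit 33) (nat_lit 5) (nat_lit 27) (nat_lit 5) (nat_lit 313) (nat_lit 303) (nat_lit 104)) (XT.nd (nat_lit 36738) (nat_lit 0) (nat_lit 456) (XT.lf (nat_lit 0) (nat_lit 195253332469) (nat_lit 228) (nat_lit 360672383423) (nat_lit 304) (nat_lit 286539388149) (nat_lit 23) (nat_lit 5) (nat_lit 26) (nat_lit 5) (nat_lit 27) (nat_lit 5) (nat_lit 314) (nat_lit 303) (nat_lit 103)) (XT.lf (nat_lit 0) (nat_lit 49499036566) (nat_lit 532) (nat_lit 117027738180) (nat_lit 532) (nat_lit 117027738180) (nat_lit 29) (nat_lit 3) (nat_lit 36) (nat_lit 3) (nat_lit 36) (nat_lit 5) (nat_lit 304) (nat_lit 304) (nat_lit 112)))) (XT.nd (nat_lit 78) (nat_lit 0) (nat_lit 76) (XT.lf (nat_lit 0) (nat_lit 102958173858) (nat_lit 532) (nat_lit 4165084024) (nat_lit 532) (nat_lit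 482670113515) (nat_lit 29) (nat_lit 3) (nat_lit 36) (nat_lit 3) (nat_lit 36) (nat_lit 5) (nat_lit 305) (nat_lit 304) (nat_lit 111)) (XT.nd (nat_lit 78) (nat_lit 0) (nat_lit 0) (XT.lf (nat_lit 0) (nat_lit 116867756474) (nat_lit 456) (nat_lit 360279305327) (nat_lit 532) (nat_lit 136374789005) (nat_lit 30) (nat_lit 5) (nat_lit 36) (nat_lit 5) (nat_lit 37) (nat_lit 5) (nat_lit 306) (nat_lit 304) (nat_lit 110)) (XT.lf (nat_lit 0) (nat_lit 134789350181) (nat_lit 456) (nat_lit 110445232019) (nat_lit 532) (nat_lit 393682086927) (nat_lit 30) (nat_lit 5) (nat_lit 36) (nat_lit 5) (nat_lit 37) (nat_lit 5) (nat_lit 307) (nat_lit 304) (nat_lit 109))))) (XT.nd (nat_lit 234) (nat_lit 380) (nat_lit 0) (XT.nd (nat_lit 78) (nat_lit 0) (nat_lit 0) (XT.lf (nat_lit 0) (nat_lit 158410084231) (nat_lit 456) (nat_lit 498482900917) (nat_lit 532) (nat_lit 9108854844) (nat_lit 31) (nat_lit 5) (nat_lit 37) (nat_lit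 5) (nat_lit 38) (nat_lit 5) (nat_lit 308) (nat_lit 304) (nat_lit 108)) (XT.nd (nat_lit 78) (nat_lit 0) (nat_lit 0) (XT.lf (nat_lit 0) (nat_lit 193388396025) (nat_lit 456) (nat_lit 227459057277) (nat_lit 532) (nat_lit 273648937805) (nat_lit 31) (nat_lit 5) (nat_lit 37) (nat_lit 5) (nat_lit 38) (nat_lit 5) (nat_lit 309) (nat_lit 304) (nat_lit 107)) (XT.lf (nat_lit 76) (nat_lit 68682458079) (nat_lit 0) (nat_lit 164134316213) (nat_lit 532) (nat_lit 492321587990) (nat_lit 32) (nat_lit 5) (nat_lit 31) (nat_lit 5) (nat_lit 38) (nat_lit 5) (nat_lit 310) (nat_lit 304) (nat_lit 106)))) (XT.nd (nat_lit 78) (nat_lit 456) (nat_lit 0) (XT.lf (nat_lit 0) (nat_lit 284500519467) (nat_lit 456) (nat_lit 359165054405) (nat_lit 76) (nat_lit 113838029632) (nat_lit 32) (nat_lit 5) (nat_lit 38) (nat_lit 5) (nat_lit 33) (nat_lit 5) (nat_lit 311) (nat_lit 304) (nat_lit 105)) (XT.nd (nat_lit 78) (nat_lit 456)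 (nat_lit 0) (XT.lf (nat_lit 0) (nat_lit 344582181720) (nat_lit 456) (nat_lit 42354176143) (nat_lit 76) (nat_lit 405180648844) (nat_lit 32) (nat_lit 5) (nat_lit 38) (nat_lit 5) (nat_lit 33) (nat_lit 5) (nat_lit 312) (nat_lit 304) (nat_lit 104)) (XT.lf (nat_lit 0) (nat_lit 315588581624) (nat_lit 456) (nat_lit 101471697633) (nat_lit 532) (nat_lit 411832010799) (nat_lit 26) (nat_lit 5) (nat_lit 32) (nat_lit 5) (nat_lit 33) (nat_lit 5) (nat_lit 313) (nat_lit 304) (nat_lit 103))))))) (XT.nd (nat_lit 37830) (nat_lit 0) (nat_lit 0) (XT.nd (nat_lit 468) (nat_lit 0) (nat_lit 0) (XT.nd (nat_lit 234) (nat_lit 0) (nat_lit 76) (XT.nd (nat_lit 78) (nat_lit 0) (nat_lit 0) (XT.lf (nat_lit 0) (nat_lit 53459133015) (nat_lit 532) (nat_lit 126389862914) (nat_lit 532) (nat_lit 126389862914) (nat_lit 29) (nat_lit 3) (nat_lit 36) (nat_lit 3) (nat_lit 36) (nat_lit 5) (nat_lit 305) (nat_lit 305) (nat_lit 110))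 (XT.nd (nat_lit 78) (nat_lit 0) (nat_lit 76) (XT.lf (nat_lit 0) (nat_lit 111195149108) (nat_lit 532) (nat_lit 4498116079) (nat_lit 532) (nat_lit 521283547929) (nat_lit 29) (nat_lit 3) (nat_lit 36) (nat_lit 3) (nat_lit 36) (nat_lit 5) (nat_lit 306) (nat_lit 305) (nat_lit 109)) (XT.lf (nat_lit 0) (nat_lit 126217475465) (nat_lit 456) (nat_lit 389101450100) (nat_lit 532) (nat_lit 147284647311) (nat_lit 30) (nat_lit 5) (nat_lit 36) (nat_lit 5) (nat_lit 37) (nat_lit 5) (nat_lit 307) (nat_lit 305) (nat_lit 108)))) (XT.nd (nat_lit 78) (nat_lit 0) (nat_lit 76) (XT.lf (nat_lit 0) (nat_lit 145572774559) (nat_lit 456) (nat_lit 119280665716) (nat_lit 532) (nat_lit 425176538312) (nat_lit 30) (nat_lit 5) (nat_lit 36) (nat_lit 5) (nat_lit 37) (nat_lit 5) (nat_lit 308) (nat_lit 305) (nat_lit 107)) (XT.nd (nat_lit 78) (nat_lit 0) (nat_lit 0) (XT.lf (nat_lit 0) (nat_lit 171083149270) (nat_lit 456) (nat_lit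 538361328249) (nat_lit 532) (nat_lit 9837487194) (nat_lit 31) (nat_lit 5) (nat_lit 37) (nat_lit 5) (nat_lit 38) (nat_lit 5) (nat_lit 309) (nat_lit 305) (nat_lit 106)) (XT.lf (nat_lit 0) (nat_lit 208859706875) (nat_lit 456) (nat_lit 245655592283) (nat_lit 532) (nat_lit 295540782424) (nat_lit 31) (nat_lit 5) (nat_lit 37) (nat_lit 5) (nat_lit 38) (nat_lit 5) (nat_lit 310) (nat_lit 305) (nat_lit 105))))) (XT.nd (nat_lit 37128) (nat_lit 152) (nat_lit 0) (XT.nd (nat_lit 78) (nat_lit 0) (nat_lit 76) (XT.lf (nat_lit 76) (nat_lit 74177239501) (nat_lit 0) (nat_lit 177265102629) (nat_lit 532) (nat_lit 531707069506) (nat_lit 32) (nat_lit 5) (nat_lit 31) (nat_lit 5) (nat_lit 38) (nat_lit 5) (nat_lit 311) (nat_lit 305) (nat_lit 104)) (XT.nd (nat_lit 78) (nat_lit 0) (nat_lit 0) (XT.lf (nat_lit 0) (nat_lit 307260769271) (nat_lit 456) (nat_lit 387898068579) (nat_lit 76) (nat_lit 122945035835) (nat_lit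 32) (nat_lit 5) (nat_lit 38) (nat_lit 5) (nat_lit 33) (nat_lit 5) (nat_lit 312) (nat_lit 305) (nat_lit 103)) (XT.lf (nat_lit 0) (nat_lit 372148949079) (nat_lit 456) (nat_lit 45742334143) (nat_lit 76) (nat_lit 437595067262) (nat_lit 32) (nat_lit 5) (nat_lit 38) (nat_lit 5) (nat_lit 33) (nat_lit 5) (nat_lit 313) (nat_lit 305) (nat_lit 102)))) (XT.nd (nat_lit 78) (nat_lit 0) (nat_lit 0) (XT.lf (nat_lit 0) (nat_lit 57736012426) (nat_lit 532) (nat_lit 136500971082) (nat_lit 532) (nat_lit 136500971082) (nat_lit 29) (nat_lit 3) (nat_lit 36) (nat_lit 3) (nat_lit 36) (nat_lit 5) (nat_lit 306) (nat_lit 306) (nat_lit 108)) (XT.nd (nat_lit 78) (nat_lit 0) (nat_lit 76) (XT.lf (nat_lit 0) (nat_lit 120091036535) (nat_lit 532) (nat_lit 4857815616) (nat_lit 532) (nat_lit 562986082014) (nat_lit 29) (nat_lit 3) (nat_lit 36) (nat_lit 3) (nat_lit 36) (nat_lit 5) (nat_lit 307) (nat_lit 306) (nat_lit 107))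 (XT.lf (nat_lit 0) (nat_lit 136315129395) (nat_lit 456) (nat_lit 420229394938) (nat_lit 532) (nat_lit 159067312087) (nat_lit 30) (nat_lit 5) (nat_lit 36) (nat_lit 5) (nat_lit 37) (nat_lit 5) (nat_lit 308) (nat_lit 306) (nat_lit 106)))))) (XT.nd (nat_lit 37518) (nat_lit 0) (nat_lit 0) (XT.nd (nat_lit 234) (nat_lit 76) (nat_lit 0) (XT.nd (nat_lit 78) (nat_lit 0) (nat_lit 76) (XT.lf (nat_lit 0) (nat_lit 157218833461) (nat_lit 456) (nat_lit 128822960482) (nat_lit 532) (nat_lit 459190562295) (nat_lit 30) (nat_lit 5) (nat_lit 36) (nat_lit 5) (nat_lit 37) (nat_lit 5) (nat_lit 309) (nat_lit 306) (nat_lit 105)) (XT.nd (nat_lit 78) (nat_lit 0) (nat_lit 0) (XT.lf (nat_lit 0) (nat_lit 184770022663) (nat_lit 456) (nat_lit 581430058975) (nat_lit 532) (nat_lit 10624420979) (nat_lit 31) (nat_lit 5) (nat_lit 37) (nat_lit 5) (nat_lit 38) (nat_lit 5) (nat_lit 310) (nat_lit 306) (nat_lit 104)) (XT.lf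 (nat_lit 0) (nat_lit 225568688472) (nat_lit 456) (nat_lit 265307877135) (nat_lit 532) (nat_lit 319183984657) (nat_lit 31) (nat_lit 5) (nat_lit 37) (nat_lit 5) (nat_lit 38) (nat_lit 5) (nat_lit 311) (nat_lit 306) (nat_lit 103)))) (XT.nd (nat_lit 37128) (nat_lit 152) (nat_lit 0) (XT.lf (nat_lit 76) (nat_lit 80111577078) (nat_lit 0) (nat_lit 191446346091) (nat_lit 532) (nat_lit 574243424571) (nat_lit 32) (nat_lit 5) (nat_lit 31) (nat_lit 5) (nat_lit 38) (nat_lit 5) (nat_lit 312) (nat_lit 306) (nat_lit 102)) (XT.nd (nat_lit 78) (nat_lit 0) (nat_lit 0) (XT.lf (nat_lit 0) (nat_lit 62355020966) (nat_lit 532) (nat_lit 147420979441) (nat_lit 532) (nat_lit 147420979441) (nat_lit 29) (nat_lit 3) (nat_lit 36) (nat_lit 3) (nat_lit 36) (nat_lit 5) (nat_lit 307) (nat_lit 307) (nat_lit 106)) (XT.lf (nat_lit 0) (nat_lit 129698555654) (nat_lit 532) (nat_lit 5246312479) (nat_lit 532) (nat_lit 608024840189)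 (nat_lit 29) (nat_lit 3) (nat_lit 36) (nat_lit 3) (nat_lit 36) (nat_lit 5) (nat_lit 308) (nat_lit 307) (nat_lit 105))))) (XT.nd (nat_lit 37440) (nat_lit 76) (nat_lit 0) (XT.nd (nat_lit 78) (nat_lit 0) (nat_lit 0) (XT.lf (nat_lit 0) (nat_lit 147220559133) (nat_lit 456) (nat_lit 453847599782) (nat_lit 532) (nat_lit 171792605311) (nat_lit 30) (nat_lit 5) (nat_lit 36) (nat_lit 5) (nat_lit 37) (nat_lit 5) (nat_lit 309) (nat_lit 307) (nat_lit 104)) (XT.nd (nat_lit 78) (nat_lit 0) (nat_lit 76) (XT.lf (nat_lit 0) (nat_lit 169796543274) (nat_lit 456) (nat_lit 139128661440) (nat_lit 532) (nat_lit 495925722332) (nat_lit 30) (nat_lit 5) (nat_lit 36) (nat_lit 5) (nat_lit 37) (nat_lit 5) (nat_lit 310) (nat_lit 307) (nat_lit 103)) (XT.lf (nat_lit 0) (nat_lit 199551814335) (nat_lit 456) (nat_lit 627944313202) (nat_lit 532) (nat_lit 11474318767) (nat_lit 31) (nat_lit 5) (nat_lit 37) (nat_lit 5) (nat_lit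 38) (nat_lit 5) (nat_lit 311) (nat_lit 307) (nat_lit 102)))) (XT.nd (nat_lit 78) (nat_lit 0) (nat_lit 0) (XT.lf (nat_lit 0) (nat_lit 67343531993) (nat_lit 532) (nat_lit 159214598358) (nat_lit 532) (nat_lit 159214598358) (nat_lit 29) (nat_lit 3) (nat_lit 36) (nat_lit 3) (nat_lit 36) (nat_lit 5) (nat_lit 308) (nat_lit 308) (nat_lit 104)) (XT.nd (nat_lit 78) (nat_lit 0) (nat_lit 76) (XT.lf (nat_lit 0) (nat_lit 140074642606) (nat_lit 532) (nat_lit 5665907407) (nat_lit 532) (nat_lit 656666717334) (nat_lit 29) (nat_lit 3) (nat_lit 36) (nat_lit 3) (nat_lit 36) (nat_lit 5) (nat_lit 309) (nat_lit 308) (nat_lit 103)) (XT.lf (nat_lit 0) (nat_lit 158998391952) (nat_lit 456) (nat_lit 490155281949) (nat_lit 532) (nat_lit 185535935082) (nat_lit 30) (nat_lit 5) (nat_lit 36) (nat_lit 5) (nat_lit 37) (nat_lit 5) (nat_lit 310) (nat_lit 308) (nat_lit 102))))))))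

set_option maxRecDepth 10000000 in
noncomputable def Tp : PT := (PT.nd (nat_lit 4586166) (PT.nd (nat_lit 4361604) (PT.nd (nat_lit 4174170) pc0 pc1) (PT.nd (nat_lit 112632) pc2 pc3)) (PT.nd (nat_lit 113334) (PT.nd (nat_lit 74802) pc4 pc5) (PT.nd (nat_lit 73944) pc6 pc7)))

set_option maxRecDepth 10000000 in
noncomputable def Tx : XT := (XT.nd (nat_lit 7192302) (nat_lit 0) (nat_lit 76) XT.nil (XT.nd (nat_lit 4387500) (nat_lit 0) (nat_lit 0) (XT.nd (nat_lit 2097108) (nat_lit 0) (nat_lit 0) (XT.nd (nat_lit 1459302) (nat_lit 0) (nat_lit 0) (XT.nd (nat_lit 1012128) (nat_lit 0) (nat_lit 0) (XT.nd (nat_lit 711672) (nat_lit 0) (nat_lit 0) (XT.nd (nat_lit 487344) (nat_lit 0) (nat_lit 0) (XT.nd (nat_lit 337350) (nat_lit 0) (nat_lit 0) (XT.nd (nat_lit 225030) (nat_lit 0) (nat_lit 0) xc0 xc1) (XT.nd (nat_lit 75270) (nat_lit 0) (nat_lit 0) xc2 xc3)) (XT.nd (nat_lit 112788) (nat_lit 0) (nat_lit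 0) (XT.nd (nat_lit 74022) (nat_lit 0) (nat_lit 0) xc4 xc5) (XT.nd (nat_lit 73242) (nat_lit 0) (nat_lit 0) xc6 xc7))) (XT.nd (nat_lit 185250) (nat_lit 0) (nat_lit 0) (XT.nd (nat_lit 76050) (nat_lit 0) (nat_lit 0) (XT.nd (nat_lit 38064) (nat_lit 0) (nat_lit 0) xc8 xc9) (XT.nd (nat_lit 71682) (nat_lit 0) (nat_lit 0) xc10 xc11)) (XT.nd (nat_lit 74490) (nat_lit 0) (nat_lit 0) (XT.nd (nat_lit 37284) (nat_lit 0) (nat_lit 0) xc12 xc13) (XT.nd (nat_lit 3666) (nat_lit 0) (nat_lit 0) xc14 xc15)))) (XT.nd (nat_lit 258414) (nat_lit 0) (nat_lit 0) (XT.nd (nat_lit 146484) (nat_lit 0) (nat_lit 0) (XT.nd (nat_lit 73554) (nat_lit 0) (nat_lit 0) (XT.nd (nat_lit 36816) (nat_lit 0) (nat_lit 0) xc16 xc17) (XT.nd (nat_lit 36504) (nat_lit 0) (nat_lit 0) xc18 xc19)) (XT.nd (nat_lit 39936) (nat_lit 0) (nat_lit 0) (XT.nd (nat_lit 3666) (nat_lit 0) (nat_lit 0) xc20 xc21) (XT.nd (nat_lit 36036) (nat_lit 0) (nat_lit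 0) xc22 xc23))) (XT.nd (nat_lit 78936) (nat_lit 0) (nat_lit 0) (XT.nd (nat_lit 39546) (nat_lit 0) (nat_lit 0) (XT.nd (nat_lit 3666) (nat_lit 0) (nat_lit 0) xc24 xc25) (XT.nd (nat_lit 35646) (nat_lit 0) (nat_lit 0) xc26 xc27)) (XT.nd (nat_lit 70902) (nat_lit 0) (nat_lit 0) (XT.nd (nat_lit 35490) (nat_lit 0) (nat_lit 0) xc28 xc29) (XT.nd (nat_lit 3666) (nat_lit 0) (nat_lit 0) xc30 xc31))))) (XT.nd (nat_lit 336024) (nat_lit 0) (nat_lit 0) (XT.nd (nat_lit 184860) (nat_lit 0) (nat_lit 0) (XT.nd (nat_lit 77376) (nat_lit 0) (nat_lit 0) (XT.nd (nat_lit 38766) (nat_lit 0) (nat_lit 0) (XT.nd (nat_lit 3666) (nat_lit 0) (nat_lit 0) xc32 xc33) (XT.nd (nat_lit 34866) (nat_lit 0) (nat_lit 0) xc34 xc35)) (XT.nd (nat_lit 38454) (nat_lit 0) (nat_lit 0) (XT.nd (nat_lit 34710) (nat_lit 0) (nat_lit 0) xc36 xc37) (XT.nd (nat_lit 34554) (nat_lit 0) (nat_lit 0) xc38 xc39))) (XT.nd (nat_lit 75816) (nat_lit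 0) (nat_lit 0) (XT.nd (nat_lit 37986) (nat_lit 0) (nat_lit 0) (XT.nd (nat_lit 3666) (nat_lit 0) (nat_lit 0) xc40 xc41) (XT.nd (nat_lit 3666) (nat_lit 0) (nat_lit 0) xc42 xc43)) (XT.nd (nat_lit 37752) (nat_lit 0) (nat_lit 0) (XT.nd (nat_lit 3666) (nat_lit 0) (nat_lit 0) xc44 xc45) (XT.nd (nat_lit 3666) (nat_lit 0) (nat_lit 0) xc46 xc47)))) (XT.nd (nat_lit 150228) (nat_lit 0) (nat_lit 0) (XT.nd (nat_lit 74958) (nat_lit 0) (nat_lit 0) (XT.nd (nat_lit 37440) (nat_lit 0) (nat_lit 0) (XT.nd (nat_lit 3666) (nat_lit 0) (nat_lit 0) xc48 xc49) (XT.nd (nat_lit 3666) (nat_lit 0) (nat_lit 0) xc50 xc51)) (XT.nd (nat_lit 37596) (nat_lit 0) (nat_lit 0) (XT.nd (nat_lit 3666) (nat_lit 0) (nat_lit 0) xc52 xc53) (XT.nd (nat_lit 3666) (nat_lit 0) (nat_lit 0) xc54 xc55))) (XT.nd (nat_lit 75582) (nat_lit 0) (nat_lit 0) (XT.nd (nat_lit 37752) (nat_lit 0) (nat_lit 0) (XT.nd (nat_lit 3666) (nat_lit 0) (nat_lit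 0) xc56 xc57) (XT.nd (nat_lit 3666) (nat_lit 0) (nat_lit 0) xc58 xc59)) (XT.nd (nat_lit 37908) (nat_lit 0) (nat_lit 0) (XT.nd (nat_lit 3666) (nat_lit 0) (nat_lit 0) xc60 xc61) (XT.nd (nat_lit 3666) (nat_lit 0) (nat_lit 0) xc62 xc63)))))) (XT.nd (nat_lit 749814) (nat_lit 0) (nat_lit 0) (XT.nd (nat_lit 338832) (nat_lit 0) (nat_lit 0) (XT.nd (nat_lit 153036) (nat_lit 0) (nat_lit 0) (XT.nd (nat_lit 76362) (nat_lit 0) (nat_lit 0) (XT.nd (nat_lit 38142) (nat_lit 0) (nat_lit 0) (XT.nd (nat_lit 34398) (nat_lit 0) (nat_lit 152) xc64 xc65) (XT.nd (nat_lit 34476) (nat_lit 0) (nat_lit 76) xc66 xc67)) (XT.nd (nat_lit 38298) (nat_lit 0) (nat_lit 0) (XT.nd (nat_lit 34554) (nat_lit 0) (nat_lit 0) xc68 xc69) (XT.nd (nat_lit 34632) (nat_lit 0) (nat_lit 0) xc70 xc71))) (XT.nd (nat_lit 108186) (nat_lit 0) (nat_lit 0) (XT.nd (nat_lit 69576) (nat_lit 0) (nat_lit 0) (XT.nd (nat_lit 34710) (nat_lit 0) (nat_lit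 0) xc72 xc73) (XT.nd (nat_lit 3666) (nat_lit 76) (nat_lit 0) xc74 xc75)) (XT.nd (nat_lit 38766) (nat_lit 0) (nat_lit 0) (XT.nd (nat_lit 3666) (nat_lit 0) (nat_lit 0) xc76 xc77) (XT.nd (nat_lit 3666) (nat_lit 0) (nat_lit 0) xc78 xc79)))) (XT.nd (nat_lit 188136) (nat_lit 0) (nat_lit 0) (XT.nd (nat_lit 109590) (nat_lit 0) (nat_lit 0) (XT.nd (nat_lit 38922) (nat_lit 0) (nat_lit 0) (XT.nd (nat_lit 35178) (nat_lit 0) (nat_lit 0) xc80 xc81) (XT.nd (nat_lit 35256) (nat_lit 0) (nat_lit 0) xc82 xc83)) (XT.nd (nat_lit 39234) (nat_lit 0) (nat_lit 0) (XT.nd (nat_lit 3666) (nat_lit 76) (nat_lit 0) xc84 xc85) (XT.nd (nat_lit 35568) (nat_lit 0) (nat_lit 76) xc86 xc87))) (XT.nd (nat_lit 110994) (nat_lit 0) (nat_lit 0) (XT.nd (nat_lit 71448) (nat_lit 0) (nat_lit 0) (XT.nd (nat_lit 35646) (nat_lit 0) (nat_lit 0) xc88 xc89) (XT.nd (nat_lit 3666) (nat_lit 152) (nat_lit 0) xc90 xc91)) (XT.nd (nat_lit 39624)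 (nat_lit 0) (nat_lit 0) (XT.nd (nat_lit 35880) (nat_lit 0) (nat_lit 76) xc92 xc93) (XT.nd (nat_lit 36036) (nat_lit 0) (nat_lit 0) xc94 xc95))))) (XT.nd (nat_lit 489606) (nat_lit 0) (nat_lit 76) (XT.nd (nat_lit 226200) (nat_lit 0) (nat_lit 76) (XT.nd (nat_lit 112632) (nat_lit 0) (nat_lit 0) (XT.nd (nat_lit 39936) (nat_lit 0) (nat_lit 0) (XT.nd (nat_lit 3666) (nat_lit 0) (nat_lit 0) xc96 xc97) (XT.nd (nat_lit 36270) (nat_lit 0) (nat_lit 0) xc98 xc99)) (XT.nd (nat_lit 40248) (nat_lit 0) (nat_lit 0) (XT.nd (nat_lit 3666) (nat_lit 76) (nat_lit 0) xc100 xc101) (XT.nd (nat_lit 36582) (nat_lit 0) (nat_lit 76) xc102 xc103))) (XT.nd (nat_lit 114426) (nat_lit 0) (nat_lit 0) (XT.nd (nat_lit 73710) (nat_lit 0) (nat_lit 0) (XT.nd (nat_lit 36738) (nat_lit 0) (nat_lit 0) xc104 xc105) (XT.nd (nat_lit 3666) (nat_lit 0) (nat_lit 0) xc106 xc107)) (XT.nd (nat_lit 74256) (nat_lit 0) (nat_lit 0) (XT.nd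 (nat_lit 37050) (nat_lit 0) (nat_lit 0) xc108 xc109) (XT.nd (nat_lit 37284) (nat_lit 0) (nat_lit 0) xc110 xc111)))) (XT.nd (nat_lit 337428) (nat_lit 0) (nat_lit 304) (XT.nd (nat_lit 150540) (nat_lit 0) (nat_lit 152) (XT.nd (nat_lit 75036) (nat_lit 0) (nat_lit 76) (XT.nd (nat_lit 37440) (nat_lit 0) (nat_lit 76) xc112 xc113) (XT.nd (nat_lit 37674) (nat_lit 0) (nat_lit 76) xc114 xc115)) (XT.nd (nat_lit 75894) (nat_lit 0) (nat_lit 76) (XT.nd (nat_lit 37830) (nat_lit 0) (nat_lit 0) xc116 xc117) (XT.nd (nat_lit 72618) (nat_lit 0) (nat_lit 0) xc118 xc119))) (XT.nd (nat_lit 225732) (nat_lit 0) (nat_lit 380) (XT.nd (nat_lit 112242) (nat_lit 0) (nat_lit 152) (XT.nd (nat_lit 38454) (nat_lit 0) (nat_lit 0) xc120 xc121) (XT.nd (nat_lit 38922) (nat_lit 0) (nat_lit 76) xc122 xc123)) (XT.nd (nat_lit 150540) (nat_lit 0) (nat_lit 304) (XT.nd (nat_lit 74958) (nat_lit 0) (nat_lit 152) xc124 xc125) (XT.nd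 (nat_lit 112398) (nat_lit 0) (nat_lit 456) xc126 xc127))))))) XT.nil))

set_option maxRecDepth 10000000 in
noncomputable def Te : XT := XT.nil

set_option maxRecDepth 10000000 in
noncomputable def Tz : ZL := (ZL.cons (nat_lit 76) (nat_lit 3) (nat_lit 83607989671506167304) (ZL.cons (nat_lit 152) (nat_lit 6) (nat_lit 161949193601428196370) (ZL.cons (nat_lit 228) (nat_lit 6) (nat_lit 157170105162382593364) (ZL.cons (nat_lit 304) (nat_lit 3) (nat_lit 78366533311512146131) (ZL.cons (nat_lit 380) (nat_lit 6) (nat_lit 152008689648213342118) (ZL.cons (nat_lit 456) (nat_lit 6) (nat_lit 147748066368996466234) (ZL.cons (nat_lit 532) (nat_lit 3) (nat_lit 73671700527387908532) (ZL.cons (nat_lit 608) (nat_lit 6) (nat_lit 143146593227442240276) (ZL.cons (nat_lit 684) (nat_lit 6) (nat_lit 139393396193902486856) (ZL.cons (nat_lit 760) (nat_lit 3) (nat_lit 69509353044071313258) (ZL.cons (nat_lit 836)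 (nat_lit 6) (nat_lit 136061568786550395298) (ZL.cons (nat_lit 912) (nat_lit 6) (nat_lit 135339943397679553162) (ZL.cons (nat_lit 988) (nat_lit 6) (nat_lit 132088505080850276076) (ZL.cons (nat_lit 1064) (nat_lit 3) (nat_lit 65870784898869647140) (ZL.cons (nat_lit 1140) (nat_lit 6) (nat_lit 129245123355036547696) (ZL.cons (nat_lit 1216) (nat_lit 6) (nat_lit 128576951698674656826) (ZL.cons (nat_lit 1292) (nat_lit 6) (nat_lit 126792948550752064442) (ZL.cons (nat_lit 1368) (nat_lit 6) (nat_lit 125827335808046739248) (ZL.cons (nat_lit 1444) (nat_lit 3) (nat_lit 62753049717397915087) (ZL.cons (nat_lit 1520) (nat_lit 6) (nat_lit 124717449261749214560) (ZL.cons (nat_lit 1596) (nat_lit 6) (nat_lit 123476428105762931658) (ZL.cons (nat_lit 1672) (nat_lit 6) (nat_lit 122857750646168588260) (ZL.cons (nat_lit 1748) (nat_lit 6) (nat_lit 121510297286920811494) (ZL.cons (nat_lit 1824) (nat_lit 6) (nat_lit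 120616211414045510388) (ZL.cons (nat_lit 1900) (nat_lit 3) (nat_lit 60159385163851038032) (ZL.cons (nat_lit 1976) (nat_lit 6) (nat_lit 119917292205927240270) (ZL.cons (nat_lit 2052) (nat_lit 6) (nat_lit 118768198542976978320) (ZL.cons (nat_lit 2128) (nat_lit 6) (nat_lit 118195349043352586288) (ZL.cons (nat_lit 2204) (nat_lit 3) (nat_lit 58559904887605864442) (ZL.cons (nat_lit 2280) (nat_lit 6) (nat_lit 117293363792249457920) (ZL.cons (nat_lit 2356) (nat_lit 6) (nat_lit 117815054311611757506) (ZL.cons (nat_lit 2432) (nat_lit 6) (nat_lit 118687972832672626450) (ZL.cons (nat_lit 2508) (nat_lit 6) (nat_lit 117302760845578882240) (ZL.cons (nat_lit 2584) (nat_lit 6) (nat_lit 116474903555879529364) (ZL.cons (nat_lit 2660) (nat_lit 3) (nat_lit 58099747571299285828) (ZL.cons (nat_lit 2736) (nat_lit 6) (nat_lit 115126097966333798438) (ZL.cons (nat_lit 2812) (nat_lit 6) (nat_lit 115487090321772274838)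 (ZL.cons (nat_lit 2888) (nat_lit 6) (nat_lit 116211214246607381574) (ZL.cons (nat_lit 2964) (nat_lit 6) (nat_lit 115147238632764546438) (ZL.cons (nat_lit 3040) (nat_lit 6) (nat_lit 114616822429408627886) (ZL.cons (nat_lit 3116) (nat_lit 3) (nat_lit 56726811265353388533) (ZL.cons (nat_lit 3192) (nat_lit 6) (nat_lit 113641060869107524430) (ZL.cons (nat_lit 3268) (nat_lit 6) (nat_lit 114204486630018807980) (ZL.cons (nat_lit 3344) (nat_lit 6) (nat_lit 113437952102519407168) (ZL.cons (nat_lit 3420) (nat_lit 3) (nat_lit 56591472156222223162) (ZL.cons (nat_lit 3496) (nat_lit 6) (nat_lit 112266026519823937382) (ZL.cons (nat_lit 3572) (nat_lit 6) (nat_lit 112655898263697491896) (ZL.cons (nat_lit 3648) (nat_lit 6) (nat_lit 112164772149479048792) (ZL.cons (nat_lit 3724) (nat_lit 3) (nat_lit 55676919461111027703) (ZL.cons (nat_lit 3800) (nat_lit 6) (nat_lit 111556272327694862556) (ZL.cons (nat_lit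 3876) (nat_lit 3) (nat_lit 55660077001775690148) (ZL.cons (nat_lit 3952) (nat_lit 6) (nat_lit 110899092520167941424) (ZL.cons (nat_lit 4028) (nat_lit 1) (nat_lit 18446744073709551617) ZL.nil)))))))))))))))))))))))))))))))))))))))))))))))))))))

noncomputable def vl : XL := ⟨(nat_lit 0), (nat_lit 76), (nat_lit 624189102), (nat_lit 152), (nat_lit 44667872), (nat_lit 152), (nat_lit 44667872), (nat_lit 1), (nat_lit 4), (nat_lit 2), (nat_lit 5), (nat_lit 2), (nat_lit 4), (nat_lit 0), (nat_lit 0), (nat_lit 0)⟩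

noncomputable def cp0 : Nat := (nat_lit 6027065433837379466539372887327942669693537008100958958298111700641913022968266236348618074021529201773997116446005737980180056382707224998408960448136960719723316741324904884346731406326121438427618036001631539746870077176483548060436301114867199066298136320561071997371741174895090929860919808044214073732281246404479782061065355965024405611276217862869632611660780868678581178503185772533227566064877166190202110433371833751104730117973555994443160237733105652512995019647363671061581272433658065060533256793159467708239169802050061134571264234179318984996897443805192819582335528446178428444337753244611639327096998330960649494490373720645354443289449101502847134076561976957871902377299848408552045481130946987665399395826273648616791751555595357393248348976263360029217204157946306660295236750133757046325772111958197790512993427717103729210958279916356483574131314521414125177559638870831376490738544400812405659466380648771970478841933959440483759979486503774899617462448809048886633646443882269982940709540570067212786899299132471090900626127511264275166526064946196592488285090747982899783831125670013625454047747220706689245021540895125930122853978220242515902841878090719942072274521124467963231292140756966248147845120)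

noncomputable def cp1 : Nat := (nat_lit 7596813344735384227432652230488841632504251295717212342338750665187889240248761800808897502809230816050887157067147495529221825254636067342815322723441714198376392782772291885298279887512479236546946289733959189190027565349777689766266476948843014033513911888967068639055243279761568169097682160405304798174489394062605444692504557228175674233637570145812030160473969631141484158469283326352998580760742375413150214395286560097325475202678573441295747948636000701925195045728458263638168868630912962635480606437157023624793775350129318374180693546818521340586166862350376604077181398664175749460870253983417781121557673950945899619605882963430135999221624902965112035858278102061814015509971616096681612648736580781552506605103804642954956017458296103370832689372943173951272310789155478299950172394762231077384599203844972980192616459492155562650510298215136950595203775163719616053338350319511972291069871697770473725526960691787912251894425057356246135831535982497315827928949750825487142182908285234131960989263110827541605160539203525532167311288158936184444396630272060170922070664493771221888810793834197970024258188772669520893930877746939864168021911131418245562989054384580877256824479224422110769240765701272717800505344)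

noncomputable def rc0 : Nat := (nat_lit 7596813344735384227432652230488841632504251295717212342338750665187889240248761800808897502809230816050887157067147495529221825254636067342815322723441714198376392782772291885298279887512479236546946289733959189190027565349777689766266476948843014033513911888967068639055243279761568169097682160405304798174489394062605444692504557228175674233637570145812030160473969631141484158469283326352998580760742375413150214395286560097325475202678573441295747948636000701925195045728458263638168868630912962635480606437157023624793775350129318374180693546818521340586166862350376604077181398664175749460870253983417781121557673950945899619605882963430135999221624902965112035858278102061814015509971616096681612648736580781552506605103804642954956017458296103370832689372943173951272310789155478299950172394762231077384599203844972980192616459492155562650510298215136950595203775163719616053338350319511972291069871697770473725526960691787912251894425057356246135831535982497315827928949750825487142182908285234131960989263110827541605160539203525532167311288158936184444396630272060170922070664493771221888810793834197970024258188772669520893930877746939864168021911131418245562989054384580877256824479224422110769240765701272717800505344)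

end Vale.Agent.Lib.P154.PChain.BV.S2
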