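import Vale.Agent.Lib.P154.PChain.BV.R2_0

set_option linter.all false

namespace Vale.Agent.Lib.P154.PChain.BV.S3

open Vale.Agent.Lib.P154.Chain

noncomputable def pc0 : PT := (PT.nd (nat_lit 4024254) (PT.nd (nat_lit 3911778) (PT.nd (nat_lit 3836898) (PT.nd (nat_lit 3799458) (PT.nd (nat_lit 3799380) (PT.nd (nat_lit 3761940) PT.nil (PT.lf (nat_lit 76) (nat_lit 3) (nat_lit 1) (nat_lit 1) (nat_lit 130) (nat_lit 100) (nat_lit 130))) (PT.lf (nat_lit 152) (nat_lit 6) (nat_lit 2) (nat_lit 3) (nat_lit 129) (nat_lit 101) (nat_lit 130))) (PT.nd (nat_lit 37362) (PT.lf (nat_lit 152) (nat_lit 6) (nat_lit 2) (nat_lit 1) (nat_lit 130) (nat_lit 101) (nat_lit 129)) (PT.lf (nat_lit 228) (nat_lit 6) (nat_lit 3) (nat_lit 3) (nat_lit 128) (nat_lit 102) (nat_lit 130)))) (PT.nd (nat_lit 37440) (PT.nd (nat_lit 78) (PT.lf (nat_lit 304) (nat_lit 3) (nat_lit 4) (nat_lit 1) (nat_lit 129) (nat_lit 102) (nat_lit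 129)) (PT.lf (nat_lit 228) (nat_lit 6) (nat_lit 3) (nat_lit 1) (nat_lit 130) (nat_lit 102) (nat_lit 128))) (PT.nd (nat_lit 78) (PT.lf (nat_lit 380) (nat_lit 6) (nat_lit 5) (nat_lit 3) (nat_lit 128) (nat_lit 103) (nat_lit 129)) (PT.lf (nat_lit 380) (nat_lit 6) (nat_lit 5) (nat_lit 1) (nat_lit 129) (nat_lit 103) (nat_lit 128))))) (PT.nd (nat_lit 37596) (PT.nd (nat_lit 156) (PT.nd (nat_lit 78) (PT.lf (nat_lit 456) (nat_lit 6) (nat_lit 6) (nat_lit 3) (nat_lit 127) (nat_lit 104) (nat_lit 129)) (PT.lf (nat_lit 532) (nat_lit 3) (nat_lit 7) (nat_lit 1) (nat_lit 128) (nat_lit 104) (nat_lit 128))) (PT.nd (nat_lit 37362) (PT.lf (nat_lit 456) (nat_lit 6) (nat_lit 6) (nat_lit 1) (nat_lit 129) (nat_lit 104) (nat_lit 127)) (PT.lf (nat_lit 608) (nat_lit 6) (nat_lit 8) (nat_lit 3) (nat_lit 127) (nat_lit 105) (nat_lit 128)))) (PT.nd (nat_lit 37440) (PT.nd (nat_lit 37362) (PT.lf (nat_lit 608) (nat_lit 6)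 (nat_lit 8) (nat_lit 1) (nat_lit 128) (nat_lit 105) (nat_lit 127)) (PT.lf (nat_lit 684) (nat_lit 6) (nat_lit 9) (nat_lit 3) (nat_lit 126) (nat_lit 106) (nat_lit 128))) (PT.nd (nat_lit 78) (PT.lf (nat_lit 760) (nat_lit 3) (nat_lit 10) (nat_lit 1) (nat_lit 127) (nat_lit 106) (nat_lit 127)) (PT.nd (nat_lit 37284) (PT.lf (nat_lit 684) (nat_lit 6) (nat_lit 9) (nat_lit 1) (nat_lit 128) (nat_lit 106) (nat_lit 126)) (PT.lf (nat_lit 836) (nat_lit 6) (nat_lit 11) (nat_lit 3) (nat_lit 125) (nat_lit 107) (nat_lit 128))))))) (PT.nd (nat_lit 75036) (PT.nd (nat_lit 37518) (PT.nd (nat_lit 156) (PT.nd (nat_lit 78) (PT.lf (nat_lit 912) (nat_lit 6) (nat_lit 12) (nat_lit 3) (nat_lit 126) (nat_lit 107) (nat_lit 127)) (PT.lf (nat_lit 912) (nat_lit 6) (nat_lit 12) (nat_lit 1) (nat_lit 127) (nat_lit 107) (nat_lit 126))) (PT.nd (nat_lit 37284) (PT.lf (nat_lit 836) (nat_lit 6) (nat_lit 11) (nat_lit 1) (nat_lit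 128) (nat_lit 107) (nat_lit 125)) (PT.lf (nat_lit 988) (nat_lit 6) (nat_lit 13) (nat_lit 3) (nat_lit 125) (nat_lit 108) (nat_lit 127)))) (PT.nd (nat_lit 37362) (PT.nd (nat_lit 78) (PT.lf (nat_lit 1064) (nat_lit 3) (nat_lit 14) (nat_lit 1) (nat_lit 126) (nat_lit 108) (nat_lit 126)) (PT.lf (nat_lit 988) (nat_lit 6) (nat_lit 13) (nat_lit 1) (nat_lit 127) (nat_lit 108) (nat_lit 125))) (PT.nd (nat_lit 78) (PT.lf (nat_lit 1140) (nat_lit 6) (nat_lit 15) (nat_lit 3) (nat_lit 124) (nat_lit 109) (nat_lit 127)) (PT.lf (nat_lit 1216) (nat_lit 6) (nat_lit 16) (nat_lit 3) (nat_lit 125) (nat_lit 109) (nat_lit 126))))) (PT.nd (nat_lit 37440) (PT.nd (nat_lit 37284) (PT.nd (nat_lit 78) (PT.lf (nat_lit 1216) (nat_lit 6) (nat_lit 16) (nat_lit 1) (nat_lit 126) (nat_lit 109) (nat_lit 125)) (PT.lf (nat_lit 1140) (nat_lit 6) (nat_lit 15) (nat_lit 1) (nat_lit 127) (nat_lit 109) (nat_lit 124))) (PT.nd (nat_lit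 78) (PT.lf (nat_lit 1292) (nat_lit 6) (nat_lit 17) (nat_lit 3) (nat_lit 123) (nat_lit 110) (nat_lit 127)) (PT.lf (nat_lit 1368) (nat_lit 6) (nat_lit 18) (nat_lit 3) (nat_lit 124) (nat_lit 110) (nat_lit 126)))) (PT.nd (nat_lit 156) (PT.nd (nat_lit 78) (PT.lf (nat_lit 1444) (nat_lit 3) (nat_lit 19) (nat_lit 1) (nat_lit 125) (nat_lit 110) (nat_lit 125)) (PT.lf (nat_lit 1368) (nat_lit 6) (nat_lit 18) (nat_lit 1) (nat_lit 126) (nat_lit 110) (nat_lit 124))) (PT.nd (nat_lit 37128) (PT.lf (nat_lit 1292) (nat_lit 6) (nat_lit 17) (nat_lit 1) (nat_lit 127) (nat_lit 110) (nat_lit 123)) (PT.nd (nat_lit 78) (PT.lf (nat_lit 1520) (nat_lit 6) (nat_lit 20) (nat_lit 3) (nat_lit 122) (nat_lit 111) (nat_lit 127)) (PT.lf (nat_lit 1596) (nat_lit 6) (nat_lit 21) (nat_lit 3) (nat_lit 123) (nat_lit 111) (nat_lit 126))))))))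
noncomputable def pc1 : PT := (PT.nd (nat_lit 112398) (PT.nd (nat_lit 37674) (PT.nd (nat_lit 37362) (PT.nd (nat_lit 156) (PT.nd (nat_lit 78) (PT.lf (nat_lit 1672) (nat_lit 6) (nat_lit 22) (nat_lit 3) (nat_lit 124) (nat_lit 111) (nat_lit 125)) (PT.lf (nat_lit 1672) (nat_lit 6) (nat_lit 22) (nat_lit 1) (nat_lit 125) (nat_lit 111) (nat_lit 124))) (PT.nd (nat_lit 78) (PT.lf (nat_lit 1596) (nat_lit 6) (nat_lit 21) (nat_lit 1) (nat_lit 126) (nat_lit 111) (nat_lit 123)) (PT.lf (nat_lit 1520) (nat_lit 6) (nat_lit 20) (nat_lit 1) (nat_lit 127) (nat_lit 111) (nat_lit 122)))) (PT.nd (nat_lit 156) (PT.nd (nat_lit 78) (PT.lf (nat_lit 1748) (nat_lit 6) (nat_lit 23) (nat_lit 3) (nat_lit 122) (nat_lit 112) (nat_lit 126)) (PT.lf (nat_lit 1824) (nat_lit 6) (nat_lit 24) (nat_lit 3) (nat_lit 123) (nat_lit 112) (nat_lit 125))) (PT.nd (nat_lit 78) (PT.lf (nat_lit 1900) (nat_lit 3) (nat_lit 25) (nat_lit 1)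 (nat_lit 124) (nat_lit 112) (nat_lit 124)) (PT.lf (nat_lit 1824) (nat_lit 6) (nat_lit 24) (nat_lit 1) (nat_lit 125) (nat_lit 112) (nat_lit 123))))) (PT.nd (nat_lit 37362) (PT.nd (nat_lit 37206) (PT.nd (nat_lit 37128) (PT.lf (nat_lit 1748) (nat_lit 6) (nat_lit 23) (nat_lit 1) (nat_lit 126) (nat_lit 112) (nat_lit 122)) (PT.lf (nat_lit 1976) (nat_lit 6) (nat_lit 26) (nat_lit 3) (nat_lit 121) (nat_lit 113) (nat_lit 126))) (PT.nd (nat_lit 78) (PT.lf (nat_lit 2052) (nat_lit 6) (nat_lit 27) (nat_lit 3) (nat_lit 122) (nat_lit 113) (nat_lit 125)) (PT.lf (nat_lit 2128) (nat_lit 6) (nat_lit 28) (nat_lit 3) (nat_lit 123) (nat_lit 113) (nat_lit 124)))) (PT.nd (nat_lit 156) (PT.nd (nat_lit 78) (PT.lf (nat_lit 2128) (nat_lit 6) (nat_lit 28) (nat_lit 1) (nat_lit 124) (nat_lit 113) (nat_lit 123)) (PT.lf (nat_lit 2052) (nat_lit 6) (nat_lit 27) (nat_lit 1) (nat_lit 125) (nat_lit 113) (nat_lit 122))) (PT.nd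 (nat_lit 37050) (PT.lf (nat_lit 1976) (nat_lit 6) (nat_lit 26) (nat_lit 1) (nat_lit 126) (nat_lit 113) (nat_lit 121)) (PT.nd (nat_lit 78) (PT.lf (nat_lit 2432) (nat_lit 6) (nat_lit 32) (nat_lit 3) (nat_lit 120) (nat_lit 114) (nat_lit 126)) (PT.lf (nat_lit 2508) (nat_lit 6) (nat_lit 33) (nat_lit 3) (nat_lit 121) (nat_lit 114) (nat_lit 125))))))) (PT.nd (nat_lit 37518) (PT.nd (nat_lit 312) (PT.nd (nat_lit 156) (PT.nd (nat_lit 78) (PT.lf (nat_lit 2584) (nat_lit 6) (nat_lit 34) (nat_lit 3) (nat_lit 122) (nat_lit 114) (nat_lit 124)) (PT.lf (nat_lit 2660) (nat_lit 3) (nat_lit 35) (nat_lit 1) (nat_lit 123) (nat_lit 114) (nat_lit 123))) (PT.nd (nat_lit 78) (PT.lf (nat_lit 2584) (nat_lit 6) (nat_lit 34) (nat_lit 1) (nat_lit 124) (nat_lit 114) (nat_lit 122)) (PT.lf (nat_lit 2508) (nat_lit 6) (nat_lit 33) (nat_lit 1) (nat_lit 125) (nat_lit 114) (nat_lit 121)))) (PT.nd (nat_lit 37050) (PT.nd (nat_lit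 36972) (PT.lf (nat_lit 2432) (nat_lit 6) (nat_lit 32) (nat_lit 1) (nat_lit 126) (nat_lit 114) (nat_lit 120)) (PT.lf (nat_lit 2356) (nat_lit 6) (nat_lit 31) (nat_lit 3) (nat_lit 119) (nat_lit 115) (nat_lit 126))) (PT.nd (nat_lit 78) (PT.lf (nat_lit 2888) (nat_lit 6) (nat_lit 38) (nat_lit 3) (nat_lit 120) (nat_lit 115) (nat_lit 125)) (PT.lf (nat_lit 2964) (nat_lit 6) (nat_lit 39) (nat_lit 3) (nat_lit 121) (nat_lit 115) (nat_lit 124))))) (PT.nd (nat_lit 312) (PT.nd (nat_lit 156) (PT.nd (nat_lit 78) (PT.lf (nat_lit 3040) (nat_lit 6) (nat_lit 40) (nat_lit 3) (nat_lit 122) (nat_lit 115) (nat_lit 123)) (PT.lf (nat_lit 3040) (nat_lit 6) (nat_lit 40) (nat_lit 1) (nat_lit 123) (nat_lit 115) (nat_lit 122))) (PT.nd (nat_lit 78) (PT.lf (nat_lit 2964) (nat_lit 6) (nat_lit 39) (nat_lit 1) (nat_lit 124) (nat_lit 115) (nat_lit 121)) (PT.lf (nat_lit 2888) (nat_lit 6) (nat_lit 38) (nat_lit 1) (nat_lit 125)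 (nat_lit 115) (nat_lit 120)))) (PT.nd (nat_lit 36972) (PT.nd (nat_lit 36894) (PT.lf (nat_lit 2356) (nat_lit 6) (nat_lit 31) (nat_lit 1) (nat_lit 126) (nat_lit 115) (nat_lit 119)) (PT.lf (nat_lit 2280) (nat_lit 6) (nat_lit 30) (nat_lit 3) (nat_lit 118) (nat_lit 116) (nat_lit 126))) (PT.nd (nat_lit 78) (PT.lf (nat_lit 2812) (nat_lit 6) (nat_lit 37) (nat_lit 3) (nat_lit 119) (nat_lit 116) (nat_lit 125)) (PT.nd (nat_lit 78) (PT.lf (nat_lit 3268) (nat_lit 6) (nat_lit 43) (nat_lit 3) (nat_lit 120) (nat_lit 116) (nat_lit 124)) (PT.lf (nat_lit 3344) (nat_lit 6) (nat_lit 44) (nat_lit 3) (nat_lit 121) (nat_lit 116) (nat_lit 123))))))))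
noncomputable def pc2 : PT := (PT.nd (nat_lit 74724) (PT.nd (nat_lit 37362) (PT.nd (nat_lit 312) (PT.nd (nat_lit 156) (PT.nd (nat_lit 78) (PT.lf (nat_lit 3420) (nat_lit 3) (nat_lit 45) (nat_lit 1) (nat_lit 122) (nat_lit 116) (nat_lit 122)) (PT.lf (nat_lit 3344) (nat_lit 6) (nat_lit 44) (nat_lit 1) (nat_lit 123) (nat_lit 116) (nat_lit 121))) (PT.nd (nat_lit 78) (PT.lf (nat_lit 3268) (nat_lit 6) (nat_lit 43) (nat_lit 1) (nat_lit 124) (nat_lit 116) (nat_lit 120)) (PT.lf (nat_lit 2812) (nat_lit 6) (nat_lit 37) (nat_lit 1) (nat_lit 125) (nat_lit 116) (nat_lit 119)))) (PT.nd (nat_lit 36894) (PT.nd (nat_lit 36816) (PT.lf (nat_lit 2280) (nat_lit 6) (nat_lit 30) (nat_lit 1) (nat_lit 126) (nat_lit 116) (nat_lit 118)) (PT.lf (nat_lit 2204) (nat_lit 3) (nat_lit 29) (nat_lit 3) (nat_lit 117) (nat_lit 117) (nat_lit 126))) (PT.nd (nat_lit 78) (PT.lf (nat_lit 2736) (nat_lit 6) (nat_lit 36) (nat_lit 3)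 (nat_lit 118) (nat_lit 117) (nat_lit 125)) (PT.lf (nat_lit 3192) (nat_lit 6) (nat_lit 42) (nat_lit 3) (nat_lit 119) (nat_lit 117) (nat_lit 124))))) (PT.nd (nat_lit 312) (PT.nd (nat_lit 156) (PT.nd (nat_lit 78) (PT.lf (nat_lit 3572) (nat_lit 6) (nat_lit 47) (nat_lit 3) (nat_lit 120) (nat_lit 117) (nat_lit 123)) (PT.lf (nat_lit 3648) (nat_lit 6) (nat_lit 48) (nat_lit 3) (nat_lit 121) (nat_lit 117) (nat_lit 122))) (PT.nd (nat_lit 78) (PT.lf (nat_lit 3648) (nat_lit 6) (nat_lit 48) (nat_lit 1) (nat_lit 122) (nat_lit 117) (nat_lit 121)) (PT.lf (nat_lit 3572) (nat_lit 6) (nat_lit 47) (nat_lit 1) (nat_lit 123) (nat_lit 117) (nat_lit 120)))) (PT.nd (nat_lit 156) (PT.nd (nat_lit 78) (PT.lf (nat_lit 3192) (nat_lit 6) (nat_lit 42) (nat_lit 1) (nat_lit 124) (nat_lit 117) (nat_lit 119)) (PT.lf (nat_lit 2736) (nat_lit 6) (nat_lit 36) (nat_lit 1) (nat_lit 125) (nat_lit 117) (nat_lit 118))) (PT.nd (nat_lit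 36738) (PT.lf (nat_lit 2204) (nat_lit 3) (nat_lit 29) (nat_lit 0) (nat_lit 126) (nat_lit 117) (nat_lit 117)) (PT.nd (nat_lit 78) (PT.lf (nat_lit 2280) (nat_lit 6) (nat_lit 30) (nat_lit 5) (nat_lit 116) (nat_lit 118) (nat_lit 126)) (PT.lf (nat_lit 2736) (nat_lit 6) (nat_lit 36) (nat_lit 5) (nat_lit 117) (nat_lit 118) (nat_lit 125))))))) (PT.nd (nat_lit 624) (PT.nd (nat_lit 312) (PT.nd (nat_lit 156) (PT.nd (nat_lit 78) (PT.lf (nat_lit 3116) (nat_lit 3) (nat_lit 41) (nat_lit 3) (nat_lit 118) (nat_lit 118) (nat_lit 124)) (PT.lf (nat_lit 3496) (nat_lit 6) (nat_lit 46) (nat_lit 3) (nat_lit 119) (nat_lit 118) (nat_lit 123))) (PT.nd (nat_lit 78) (PT.lf (nat_lit 3800) (nat_lit 6) (nat_lit 50) (nat_lit 3) (nat_lit 120) (nat_lit 118) (nat_lit 122)) (PT.lf (nat_lit 3876) (nat_lit 3) (nat_lit 51) (nat_lit 1) (nat_lit 121) (nat_lit 118) (nat_lit 121)))) (PT.nd (nat_lit 156) (PT.nd (nat_lit 78) (PT.lf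 (nat_lit 3800) (nat_lit 6) (nat_lit 50) (nat_lit 1) (nat_lit 122) (nat_lit 118) (nat_lit 120)) (PT.lf (nat_lit 3496) (nat_lit 6) (nat_lit 46) (nat_lit 1) (nat_lit 123) (nat_lit 118) (nat_lit 119))) (PT.nd (nat_lit 78) (PT.lf (nat_lit 3116) (nat_lit 3) (nat_lit 41) (nat_lit 0) (nat_lit 124) (nat_lit 118) (nat_lit 118)) (PT.lf (nat_lit 2736) (nat_lit 6) (nat_lit 36) (nat_lit 0) (nat_lit 125) (nat_lit 118) (nat_lit 117))))) (PT.nd (nat_lit 36894) (PT.nd (nat_lit 36738) (PT.nd (nat_lit 36660) (PT.lf (nat_lit 2280) (nat_lit 6) (nat_lit 30) (nat_lit 0) (nat_lit 126) (nat_lit 118) (nat_lit 116)) (PT.lf (nat_lit 2356) (nat_lit 6) (nat_lit 31) (nat_lit 5) (nat_lit 115) (nat_lit 119) (nat_lit 126))) (PT.nd (nat_lit 78) (PT.lf (nat_lit 2812) (nat_lit 6) (nat_lit 37) (nat_lit 5) (nat_lit 116) (nat_lit 119) (nat_lit 125)) (PT.lf (nat_lit 3192) (nat_lit 6) (nat_lit 42) (nat_lit 5) (nat_lit 117) (nat_lit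 119) (nat_lit 124)))) (PT.nd (nat_lit 156) (PT.nd (nat_lit 78) (PT.lf (nat_lit 3496) (nat_lit 6) (nat_lit 46) (nat_lit 5) (nat_lit 118) (nat_lit 119) (nat_lit 123)) (PT.lf (nat_lit 3724) (nat_lit 3) (nat_lit 49) (nat_lit 3) (nat_lit 119) (nat_lit 119) (nat_lit 122))) (PT.nd (nat_lit 78) (PT.lf (nat_lit 3952) (nat_lit 6) (nat_lit 52) (nat_lit 3) (nat_lit 120) (nat_lit 119) (nat_lit 121)) (PT.nd (nat_lit 78) (PT.lf (nat_lit 3952) (nat_lit 6) (nat_lit 52) (nat_lit 1) (nat_lit 121) (nat_lit 119) (nat_lit 120)) (PT.lf (nat_lit 3724) (nat_lit 3) (nat_lit 49) (nat_lit 0) (nat_lit 122) (nat_lit 119) (nat_lit 119))))))))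
noncomputable def pc3 : PT := (PT.nd (nat_lit 74256) (PT.nd (nat_lit 37128) (PT.nd (nat_lit 36816) (PT.nd (nat_lit 156) (PT.nd (nat_lit 78) (PT.lf (nat_lit 3496) (nat_lit 6) (nat_lit 46) (nat_lit 0) (nat_lit 123) (nat_lit 119) (nat_lit 118)) (PT.lf (nat_lit 3192) (nat_lit 6) (nat_lit 42) (nat_lit 0) (nat_lit 124) (nat_lit 119) (nat_lit 117))) (PT.nd (nat_lit 78) (PT.lf (nat_lit 2812) (nat_lit 6) (nat_lit 37) (nat_lit 0) (nat_lit 125) (nat_lit 119) (nat_lit 116)) (PT.lf (nat_lit 2356) (nat_lit 6) (nat_lit 31) (nat_lit 0) (nat_lit 126) (nat_lit 119) (nat_lit 115)))) (PT.nd (nat_lit 156) (PT.nd (nat_lit 78) (PT.lf (nat_lit 2432) (nat_lit 6) (nat_lit 32) (nat_lit 5) (nat_lit 114) (nat_lit 120) (nat_lit 126)) (PT.lf (nat_lit 2888) (nat_lit 6) (nat_lit 38) (nat_lit 5) (nat_lit 115) (nat_lit 120) (nat_lit 125))) (PT.nd (nat_lit 78) (PT.lf (nat_lit 3268) (nat_lit 6) (nat_lit 43) (nat_lit 5) (nat_lit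 116) (nat_lit 120) (nat_lit 124)) (PT.lf (nat_lit 3572) (nat_lit 6) (nat_lit 47) (nat_lit 5) (nat_lit 117) (nat_lit 120) (nat_lit 123))))) (PT.nd (nat_lit 312) (PT.nd (nat_lit 156) (PT.nd (nat_lit 78) (PT.lf (nat_lit 3800) (nat_lit 6) (nat_lit 50) (nat_lit 5) (nat_lit 118) (nat_lit 120) (nat_lit 122)) (PT.lf (nat_lit 3952) (nat_lit 6) (nat_lit 52) (nat_lit 5) (nat_lit 119) (nat_lit 120) (nat_lit 121))) (PT.nd (nat_lit 78) (PT.lf (nat_lit 4028) (nat_lit 1) (nat_lit 53) (nat_lit 0) (nat_lit 120) (nat_lit 120) (nat_lit 120)) (PT.lf (nat_lit 3952) (nat_lit 6) (nat_lit 52) (nat_lit 0) (nat_lit 121) (nat_lit 120) (nat_lit 119)))) (PT.nd (nat_lit 156) (PT.nd (nat_lit 78) (PT.lf (nat_lit 3800) (nat_lit 6) (nat_lit 50) (nat_lit 0) (nat_lit 122) (nat_lit 120) (nat_lit 118)) (PT.lf (nat_lit 3572) (nat_lit 6) (nat_lit 47) (nat_lit 0) (nat_lit 123) (nat_lit 120) (nat_lit 117))) (PT.nd (nat_lit 78)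 (PT.lf (nat_lit 3268) (nat_lit 6) (nat_lit 43) (nat_lit 0) (nat_lit 124) (nat_lit 120) (nat_lit 116)) (PT.nd (nat_lit 78) (PT.lf (nat_lit 2888) (nat_lit 6) (nat_lit 38) (nat_lit 0) (nat_lit 125) (nat_lit 120) (nat_lit 115)) (PT.lf (nat_lit 2432) (nat_lit 6) (nat_lit 32) (nat_lit 0) (nat_lit 126) (nat_lit 120) (nat_lit 114))))))) (PT.nd (nat_lit 702) (PT.nd (nat_lit 312) (PT.nd (nat_lit 156) (PT.nd (nat_lit 78) (PT.lf (nat_lit 1976) (nat_lit 6) (nat_lit 26) (nat_lit 5) (nat_lit 113) (nat_lit 121) (nat_lit 126)) (PT.lf (nat_lit 2508) (nat_lit 6) (nat_lit 33) (nat_lit 5) (nat_lit 114) (nat_lit 121) (nat_lit 125))) (PT.nd (nat_lit 78) (PT.lf (nat_lit 2964) (nat_lit 6) (nat_lit 39) (nat_lit 5) (nat_lit 115) (nat_lit 121) (nat_lit 124)) (PT.lf (nat_lit 3344) (nat_lit 6) (nat_lit 44) (nat_lit 5) (nat_lit 116) (nat_lit 121) (nat_lit 123)))) (PT.nd (nat_lit 156) (PT.nd (nat_lit 78) (PT.lf (nat_lit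 3648) (nat_lit 6) (nat_lit 48) (nat_lit 5) (nat_lit 117) (nat_lit 121) (nat_lit 122)) (PT.lf (nat_lit 3876) (nat_lit 3) (nat_lit 51) (nat_lit 4) (nat_lit 118) (nat_lit 121) (nat_lit 121))) (PT.nd (nat_lit 78) (PT.lf (nat_lit 3952) (nat_lit 6) (nat_lit 52) (nat_lit 4) (nat_lit 119) (nat_lit 121) (nat_lit 120)) (PT.nd (nat_lit 78) (PT.lf (nat_lit 3952) (nat_lit 6) (nat_lit 52) (nat_lit 2) (nat_lit 120) (nat_lit 121) (nat_lit 119)) (PT.lf (nat_lit 3876) (nat_lit 3) (nat_lit 51) (nat_lit 0) (nat_lit 121) (nat_lit 121) (nat_lit 118)))))) (PT.nd (nat_lit 312) (PT.nd (nat_lit 156) (PT.nd (nat_lit 78) (PT.lf (nat_lit 3648) (nat_lit 6) (nat_lit 48) (nat_lit 0) (nat_lit 122) (nat_lit 121) (nat_lit 117)) (PT.lf (nat_lit 3344) (nat_lit 6) (nat_lit 44) (nat_lit 0) (nat_lit 123) (nat_lit 121) (nat_lit 116))) (PT.nd (nat_lit 78) (PT.lf (nat_lit 2964) (nat_lit 6) (nat_lit 39) (nat_lit 0) (nat_lit 124)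 (nat_lit 121) (nat_lit 115)) (PT.lf (nat_lit 2508) (nat_lit 6) (nat_lit 33) (nat_lit 0) (nat_lit 125) (nat_lit 121) (nat_lit 114)))) (PT.nd (nat_lit 36426) (PT.nd (nat_lit 36348) (PT.lf (nat_lit 1976) (nat_lit 6) (nat_lit 26) (nat_lit 0) (nat_lit 126) (nat_lit 121) (nat_lit 113)) (PT.lf (nat_lit 1520) (nat_lit 6) (nat_lit 20) (nat_lit 5) (nat_lit 111) (nat_lit 122) (nat_lit 127))) (PT.nd (nat_lit 78) (PT.lf (nat_lit 1748) (nat_lit 6) (nat_lit 23) (nat_lit 5) (nat_lit 112) (nat_lit 122) (nat_lit 126)) (PT.nd (nat_lit 78) (PT.lf (nat_lit 2052) (nat_lit 6) (nat_lit 27) (nat_lit 5) (nat_lit 113) (nat_lit 122) (nat_lit 125)) (PT.lf (nat_lit 2584) (nat_lit 6) (nat_lit 34) (nat_lit 5) (nat_lit 114) (nat_lit 122) (nat_lit 124))))))))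
noncomputable def pc4 : PT := (PT.nd (nat_lit 37440) (PT.nd (nat_lit 624) (PT.nd (nat_lit 312) (PT.nd (nat_lit 156) (PT.nd (nat_lit 78) (PT.lf (nat_lit 3040) (nat_lit 6) (nat_lit 40) (nat_lit 5) (nat_lit 115) (nat_lit 122) (nat_lit 123)) (PT.lf (nat_lit 3420) (nat_lit 3) (nat_lit 45) (nat_lit 4) (nat_lit 116) (nat_lit 122) (nat_lit 122))) (PT.nd (nat_lit 78) (PT.lf (nat_lit 3648) (nat_lit 6) (nat_lit 48) (nat_lit 4) (nat_lit 117) (nat_lit 122) (nat_lit 121)) (PT.lf (nat_lit 3800) (nat_lit 6) (nat_lit 50) (nat_lit 4) (nat_lit 118) (nat_lit 122) (nat_lit 120)))) (PT.nd (nat_lit 156) (PT.nd (nat_lit 78) (PT.lf (nat_lit 3724) (nat_lit 3) (nat_lit 49) (nat_lit 2) (nat_lit 119) (nat_lit 122) (nat_lit 119)) (PT.lf (nat_lit 3800) (nat_lit 6) (nat_lit 50) (nat_lit 2) (nat_lit 120) (nat_lit 122) (nat_lit 118))) (PT.nd (nat_lit 78) (PT.lf (nat_lit 3648) (nat_lit 6) (nat_lit 48) (nat_lit 2) (nat_lit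 121) (nat_lit 122) (nat_lit 117)) (PT.lf (nat_lit 3420) (nat_lit 3) (nat_lit 45) (nat_lit 0) (nat_lit 122) (nat_lit 122) (nat_lit 116))))) (PT.nd (nat_lit 312) (PT.nd (nat_lit 156) (PT.nd (nat_lit 78) (PT.lf (nat_lit 3040) (nat_lit 6) (nat_lit 40) (nat_lit 0) (nat_lit 123) (nat_lit 122) (nat_lit 115)) (PT.lf (nat_lit 2584) (nat_lit 6) (nat_lit 34) (nat_lit 0) (nat_lit 124) (nat_lit 122) (nat_lit 114))) (PT.nd (nat_lit 78) (PT.lf (nat_lit 2052) (nat_lit 6) (nat_lit 27) (nat_lit 0) (nat_lit 125) (nat_lit 122) (nat_lit 113)) (PT.lf (nat_lit 1748) (nat_lit 6) (nat_lit 23) (nat_lit 0) (nat_lit 126) (nat_lit 122) (nat_lit 112)))) (PT.nd (nat_lit 36270) (PT.nd (nat_lit 36192) (PT.lf (nat_lit 1520) (nat_lit 6) (nat_lit 20) (nat_lit 0) (nat_lit 127) (nat_lit 122) (nat_lit 111)) (PT.lf (nat_lit 1292) (nat_lit 6) (nat_lit 17) (nat_lit 5) (nat_lit 110) (nat_lit 123) (nat_lit 127))) (PT.nd (nat_lit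 78) (PT.lf (nat_lit 1596) (nat_lit 6) (nat_lit 21) (nat_lit 5) (nat_lit 111) (nat_lit 123) (nat_lit 126)) (PT.nd (nat_lit 78) (PT.lf (nat_lit 1824) (nat_lit 6) (nat_lit 24) (nat_lit 5) (nat_lit 112) (nat_lit 123) (nat_lit 125)) (PT.lf (nat_lit 2128) (nat_lit 6) (nat_lit 28) (nat_lit 5) (nat_lit 113) (nat_lit 123) (nat_lit 124))))))) (PT.nd (nat_lit 624) (PT.nd (nat_lit 312) (PT.nd (nat_lit 156) (PT.nd (nat_lit 78) (PT.lf (nat_lit 2660) (nat_lit 3) (nat_lit 35) (nat_lit 4) (nat_lit 114) (nat_lit 123) (nat_lit 123)) (PT.lf (nat_lit 3040) (nat_lit 6) (nat_lit 40) (nat_lit 4) (nat_lit 115) (nat_lit 123) (nat_lit 122))) (PT.nd (nat_lit 78) (PT.lf (nat_lit 3344) (nat_lit 6) (nat_lit 44) (nat_lit 4) (nat_lit 116) (nat_lit 123) (nat_lit 121)) (PT.lf (nat_lit 3572) (nat_lit 6) (nat_lit 47) (nat_lit 4) (nat_lit 117) (nat_lit 123) (nat_lit 120)))) (PT.nd (nat_lit 156) (PT.nd (nat_lit 78) (PT.lf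 (nat_lit 3496) (nat_lit 6) (nat_lit 46) (nat_lit 4) (nat_lit 118) (nat_lit 123) (nat_lit 119)) (PT.lf (nat_lit 3496) (nat_lit 6) (nat_lit 46) (nat_lit 2) (nat_lit 119) (nat_lit 123) (nat_lit 118))) (PT.nd (nat_lit 78) (PT.lf (nat_lit 3572) (nat_lit 6) (nat_lit 47) (nat_lit 2) (nat_lit 120) (nat_lit 123) (nat_lit 117)) (PT.lf (nat_lit 3344) (nat_lit 6) (nat_lit 44) (nat_lit 2) (nat_lit 121) (nat_lit 123) (nat_lit 116))))) (PT.nd (nat_lit 312) (PT.nd (nat_lit 156) (PT.nd (nat_lit 78) (PT.lf (nat_lit 3040) (nat_lit 6) (nat_lit 40) (nat_lit 2) (nat_lit 122) (nat_lit 123) (nat_lit 115)) (PT.lf (nat_lit 2660) (nat_lit 3) (nat_lit 35) (nat_lit 0) (nat_lit 123) (nat_lit 123) (nat_lit 114))) (PT.nd (nat_lit 78) (PT.lf (nat_lit 2128) (nat_lit 6) (nat_lit 28) (nat_lit 0) (nat_lit 124) (nat_lit 123) (nat_lit 113)) (PT.lf (nat_lit 1824) (nat_lit 6) (nat_lit 24) (nat_lit 0) (nat_lit 125) (nat_lit 123)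 (nat_lit 112)))) (PT.nd (nat_lit 36192) (PT.nd (nat_lit 78) (PT.lf (nat_lit 1596) (nat_lit 6) (nat_lit 21) (nat_lit 0) (nat_lit 126) (nat_lit 123) (nat_lit 111)) (PT.lf (nat_lit 1292) (nat_lit 6) (nat_lit 17) (nat_lit 0) (nat_lit 127) (nat_lit 123) (nat_lit 110))) (PT.nd (nat_lit 78) (PT.lf (nat_lit 1140) (nat_lit 6) (nat_lit 15) (nat_lit 5) (nat_lit 109) (nat_lit 124) (nat_lit 127)) (PT.nd (nat_lit 78) (PT.lf (nat_lit 1368) (nat_lit 6) (nat_lit 18) (nat_lit 5) (nat_lit 110) (nat_lit 124) (nat_lit 126)) (PT.lf (nat_lit 1672) (nat_lit 6) (nat_lit 22) (nat_lit 5) (nat_lit 111) (nat_lit 124) (nat_lit 125))))))))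
noncomputable def pc5 : PT := (PT.nd (nat_lit 37206) (PT.nd (nat_lit 624) (PT.nd (nat_lit 312) (PT.nd (nat_lit 156) (PT.nd (nat_lit 78) (PT.lf (nat_lit 1900) (nat_lit 3) (nat_lit 25) (nat_lit 4) (nat_lit 112) (nat_lit 124) (nat_lit 124)) (PT.lf (nat_lit 2128) (nat_lit 6) (nat_lit 28) (nat_lit 4) (nat_lit 113) (nat_lit 124) (nat_lit 123))) (PT.nd (nat_lit 78) (PT.lf (nat_lit 2584) (nat_lit 6) (nat_lit 34) (nat_lit 4) (nat_lit 114) (nat_lit 124) (nat_lit 122)) (PT.lf (nat_lit 2964) (nat_lit 6) (nat_lit 39) (nat_lit 4) (nat_lit 115) (nat_lit 124) (nat_lit 121)))) (PT.nd (nat_lit 156) (PT.nd (nat_lit 78) (PT.lf (nat_lit 3268) (nat_lit 6) (nat_lit 43) (nat_lit 4) (nat_lit 116) (nat_lit 124) (nat_lit 120)) (PT.lf (nat_lit 3192) (nat_lit 6) (nat_lit 42) (nat_lit 4) (nat_lit 117) (nat_lit 124) (nat_lit 119))) (PT.nd (nat_lit 78) (PT.lf (nat_lit 3116) (nat_lit 3) (nat_lit 41) (nat_lit 2) (nat_lit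 118) (nat_lit 124) (nat_lit 118)) (PT.lf (nat_lit 3192) (nat_lit 6) (nat_lit 42) (nat_lit 2) (nat_lit 119) (nat_lit 124) (nat_lit 117))))) (PT.nd (nat_lit 312) (PT.nd (nat_lit 156) (PT.nd (nat_lit 78) (PT.lf (nat_lit 3268) (nat_lit 6) (nat_lit 43) (nat_lit 2) (nat_lit 120) (nat_lit 124) (nat_lit 116)) (PT.lf (nat_lit 2964) (nat_lit 6) (nat_lit 39) (nat_lit 2) (nat_lit 121) (nat_lit 124) (nat_lit 115))) (PT.nd (nat_lit 78) (PT.lf (nat_lit 2584) (nat_lit 6) (nat_lit 34) (nat_lit 2) (nat_lit 122) (nat_lit 124) (nat_lit 114)) (PT.lf (nat_lit 2128) (nat_lit 6) (nat_lit 28) (nat_lit 2) (nat_lit 123) (nat_lit 124) (nat_lit 113)))) (PT.nd (nat_lit 156) (PT.nd (nat_lit 78) (PT.lf (nat_lit 1900) (nat_lit 3) (nat_lit 25) (nat_lit 0) (nat_lit 124) (nat_lit 124) (nat_lit 112)) (PT.lf (nat_lit 1672) (nat_lit 6) (nat_lit 22) (nat_lit 0) (nat_lit 125) (nat_lit 124) (nat_lit 111))) (PT.nd (nat_lit 78)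 (PT.lf (nat_lit 1368) (nat_lit 6) (nat_lit 18) (nat_lit 0) (nat_lit 126) (nat_lit 124) (nat_lit 110)) (PT.nd (nat_lit 35958) (PT.lf (nat_lit 1140) (nat_lit 6) (nat_lit 15) (nat_lit 0) (nat_lit 127) (nat_lit 124) (nat_lit 109)) (PT.lf (nat_lit 836) (nat_lit 6) (nat_lit 11) (nat_lit 5) (nat_lit 107) (nat_lit 125) (nat_lit 128))))))) (PT.nd (nat_lit 624) (PT.nd (nat_lit 312) (PT.nd (nat_lit 156) (PT.nd (nat_lit 78) (PT.lf (nat_lit 988) (nat_lit 6) (nat_lit 13) (nat_lit 5) (nat_lit 108) (nat_lit 125) (nat_lit 127)) (PT.lf (nat_lit 1216) (nat_lit 6) (nat_lit 16) (nat_lit 5) (nat_lit 109) (nat_lit 125) (nat_lit 126))) (PT.nd (nat_lit 78) (PT.lf (nat_lit 1444) (nat_lit 3) (nat_lit 19) (nat_lit 4) (nat_lit 110) (nat_lit 125) (nat_lit 125)) (PT.lf (nat_lit 1672) (nat_lit 6) (nat_lit 22) (nat_lit 4) (nat_lit 111) (nat_lit 125) (nat_lit 124)))) (PT.nd (nat_lit 156) (PT.nd (nat_lit 78) (PT.lf (nat_lit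 1824) (nat_lit 6) (nat_lit 24) (nat_lit 4) (nat_lit 112) (nat_lit 125) (nat_lit 123)) (PT.lf (nat_lit 2052) (nat_lit 6) (nat_lit 27) (nat_lit 4) (nat_lit 113) (nat_lit 125) (nat_lit 122))) (PT.nd (nat_lit 78) (PT.lf (nat_lit 2508) (nat_lit 6) (nat_lit 33) (nat_lit 4) (nat_lit 114) (nat_lit 125) (nat_lit 121)) (PT.lf (nat_lit 2888) (nat_lit 6) (nat_lit 38) (nat_lit 4) (nat_lit 115) (nat_lit 125) (nat_lit 120))))) (PT.nd (nat_lit 312) (PT.nd (nat_lit 156) (PT.nd (nat_lit 78) (PT.lf (nat_lit 2812) (nat_lit 6) (nat_lit 37) (nat_lit 4) (nat_lit 116) (nat_lit 125) (nat_lit 119)) (PT.lf (nat_lit 2736) (nat_lit 6) (nat_lit 36) (nat_lit 4) (nat_lit 117) (nat_lit 125) (nat_lit 118))) (PT.nd (nat_lit 78) (PT.lf (nat_lit 2736) (nat_lit 6) (nat_lit 36) (nat_lit 2) (nat_lit 118) (nat_lit 125) (nat_lit 117)) (PT.lf (nat_lit 2812) (nat_lit 6) (nat_lit 37) (nat_lit 2) (nat_lit 119) (nat_lit 125) (nat_lit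 116)))) (PT.nd (nat_lit 156) (PT.nd (nat_lit 78) (PT.lf (nat_lit 2888) (nat_lit 6) (nat_lit 38) (nat_lit 2) (nat_lit 120) (nat_lit 125) (nat_lit 115)) (PT.lf (nat_lit 2508) (nat_lit 6) (nat_lit 33) (nat_lit 2) (nat_lit 121) (nat_lit 125) (nat_lit 114))) (PT.nd (nat_lit 78) (PT.lf (nat_lit 2052) (nat_lit 6) (nat_lit 27) (nat_lit 2) (nat_lit 122) (nat_lit 125) (nat_lit 113)) (PT.nd (nat_lit 78) (PT.lf (nat_lit 1824) (nat_lit 6) (nat_lit 24) (nat_lit 2) (nat_lit 123) (nat_lit 125) (nat_lit 112)) (PT.lf (nat_lit 1672) (nat_lit 6) (nat_lit 22) (nat_lit 2) (nat_lit 124) (nat_lit 125) (nat_lit 111))))))))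
noncomputable def pc6 : PT := (PT.nd (nat_lit 37050) (PT.nd (nat_lit 36348) (PT.nd (nat_lit 36036) (PT.nd (nat_lit 156) (PT.nd (nat_lit 78) (PT.lf (nat_lit 1444) (nat_lit 3) (nat_lit 19) (nat_lit 0) (nat_lit 125) (nat_lit 125) (nat_lit 110)) (PT.lf (nat_lit 1216) (nat_lit 6) (nat_lit 16) (nat_lit 0) (nat_lit 126) (nat_lit 125) (nat_lit 109))) (PT.nd (nat_lit 78) (PT.lf (nat_lit 988) (nat_lit 6) (nat_lit 13) (nat_lit 0) (nat_lit 127) (nat_lit 125) (nat_lit 108)) (PT.lf (nat_lit 836) (nat_lit 6) (nat_lit 11) (nat_lit 0) (nat_lit 128) (nat_lit 125) (nat_lit 107)))) (PT.nd (nat_lit 156) (PT.nd (nat_lit 78) (PT.lf (nat_lit 684) (nat_lit 6) (nat_lit 9) (nat_lit 5) (nat_lit 106) (nat_lit 126) (nat_lit 128)) (PT.lf (nat_lit 912) (nat_lit 6) (nat_lit 12) (nat_lit 5) (nat_lit 107) (nat_lit 126) (nat_lit 127))) (PT.nd (nat_lit 78) (PT.lf (nat_lit 1064) (nat_lit 3) (nat_lit 14) (nat_lit 4) (nat_lit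 108) (nat_lit 126) (nat_lit 126)) (PT.lf (nat_lit 1216) (nat_lit 6) (nat_lit 16) (nat_lit 4) (nat_lit 109) (nat_lit 126) (nat_lit 125))))) (PT.nd (nat_lit 312) (PT.nd (nat_lit 156) (PT.nd (nat_lit 78) (PT.lf (nat_lit 1368) (nat_lit 6) (nat_lit 18) (nat_lit 4) (nat_lit 110) (nat_lit 126) (nat_lit 124)) (PT.lf (nat_lit 1596) (nat_lit 6) (nat_lit 21) (nat_lit 4) (nat_lit 111) (nat_lit 126) (nat_lit 123))) (PT.nd (nat_lit 78) (PT.lf (nat_lit 1748) (nat_lit 6) (nat_lit 23) (nat_lit 4) (nat_lit 112) (nat_lit 126) (nat_lit 122)) (PT.lf (nat_lit 1976) (nat_lit 6) (nat_lit 26) (nat_lit 4) (nat_lit 113) (nat_lit 126) (nat_lit 121)))) (PT.nd (nat_lit 156) (PT.nd (nat_lit 78) (PT.lf (nat_lit 2432) (nat_lit 6) (nat_lit 32) (nat_lit 4) (nat_lit 114) (nat_lit 126) (nat_lit 120)) (PT.lf (nat_lit 2356) (nat_lit 6) (nat_lit 31) (nat_lit 4) (nat_lit 115) (nat_lit 126) (nat_lit 119))) (PT.nd (nat_lit 78)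 (PT.lf (nat_lit 2280) (nat_lit 6) (nat_lit 30) (nat_lit 4) (nat_lit 116) (nat_lit 126) (nat_lit 118)) (PT.nd (nat_lit 78) (PT.lf (nat_lit 2204) (nat_lit 3) (nat_lit 29) (nat_lit 2) (nat_lit 117) (nat_lit 126) (nat_lit 117)) (PT.lf (nat_lit 2280) (nat_lit 6) (nat_lit 30) (nat_lit 2) (nat_lit 118) (nat_lit 126) (nat_lit 116))))))) (PT.nd (nat_lit 624) (PT.nd (nat_lit 312) (PT.nd (nat_lit 156) (PT.nd (nat_lit 78) (PT.lf (nat_lit 2356) (nat_lit 6) (nat_lit 31) (nat_lit 2) (nat_lit 119) (nat_lit 126) (nat_lit 115)) (PT.lf (nat_lit 2432) (nat_lit 6) (nat_lit 32) (nat_lit 2) (nat_lit 120) (nat_lit 126) (nat_lit 114))) (PT.nd (nat_lit 78) (PT.lf (nat_lit 1976) (nat_lit 6) (nat_lit 26) (nat_lit 2) (nat_lit 121) (nat_lit 126) (nat_lit 113)) (PT.lf (nat_lit 1748) (nat_lit 6) (nat_lit 23) (nat_lit 2) (nat_lit 122) (nat_lit 126) (nat_lit 112)))) (PT.nd (nat_lit 156) (PT.nd (nat_lit 78) (PT.lf (nat_lit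 1596) (nat_lit 6) (nat_lit 21) (nat_lit 2) (nat_lit 123) (nat_lit 126) (nat_lit 111)) (PT.lf (nat_lit 1368) (nat_lit 6) (nat_lit 18) (nat_lit 2) (nat_lit 124) (nat_lit 126) (nat_lit 110))) (PT.nd (nat_lit 78) (PT.lf (nat_lit 1216) (nat_lit 6) (nat_lit 16) (nat_lit 2) (nat_lit 125) (nat_lit 126) (nat_lit 109)) (PT.lf (nat_lit 1064) (nat_lit 3) (nat_lit 14) (nat_lit 0) (nat_lit 126) (nat_lit 126) (nat_lit 108))))) (PT.nd (nat_lit 35880) (PT.nd (nat_lit 35724) (PT.nd (nat_lit 78) (PT.lf (nat_lit 912) (nat_lit 6) (nat_lit 12) (nat_lit 0) (nat_lit 127) (nat_lit 126) (nat_lit 107)) (PT.lf (nat_lit 684) (nat_lit 6) (nat_lit 9) (nat_lit 0) (nat_lit 128) (nat_lit 126) (nat_lit 106))) (PT.nd (nat_lit 78) (PT.lf (nat_lit 456) (nat_lit 6) (nat_lit 6) (nat_lit 5) (nat_lit 104) (nat_lit 127) (nat_lit 129)) (PT.lf (nat_lit 608) (nat_lit 6) (nat_lit 8) (nat_lit 5) (nat_lit 105) (nat_lit 127) (nat_lit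 128)))) (PT.nd (nat_lit 156) (PT.nd (nat_lit 78) (PT.lf (nat_lit 760) (nat_lit 3) (nat_lit 10) (nat_lit 4) (nat_lit 106) (nat_lit 127) (nat_lit 127)) (PT.lf (nat_lit 912) (nat_lit 6) (nat_lit 12) (nat_lit 4) (nat_lit 107) (nat_lit 127) (nat_lit 126))) (PT.nd (nat_lit 78) (PT.lf (nat_lit 988) (nat_lit 6) (nat_lit 13) (nat_lit 4) (nat_lit 108) (nat_lit 127) (nat_lit 125)) (PT.nd (nat_lit 78) (PT.lf (nat_lit 1140) (nat_lit 6) (nat_lit 15) (nat_lit 4) (nat_lit 109) (nat_lit 127) (nat_lit 124)) (PT.lf (nat_lit 1292) (nat_lit 6) (nat_lit 17) (nat_lit 4) (nat_lit 110) (nat_lit 127) (nat_lit 123))))))))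
noncomputable def pc7 : PT := (PT.nd (nat_lit 38766) (PT.nd (nat_lit 1404) (PT.nd (nat_lit 1092) (PT.nd (nat_lit 936) (PT.nd (nat_lit 858) (PT.lf (nat_lit 1520) (nat_lit 6) (nat_lit 20) (nat_lit 4) (nat_lit 111) (nat_lit 127) (nat_lit 122)) (PT.lf (nat_lit 1520) (nat_lit 6) (nat_lit 20) (nat_lit 2) (nat_lit 122) (nat_lit 127) (nat_lit 111))) (PT.nd (nat_lit 78) (PT.lf (nat_lit 1292) (nat_lit 6) (nat_lit 17) (nat_lit 2) (nat_lit 123) (nat_lit 127) (nat_lit 110)) (PT.lf (nat_lit 1140) (nat_lit 6) (nat_lit 15) (nat_lit 2) (nat_lit 124) (nat_lit 127) (nat_lit 109)))) (PT.nd (nat_lit 156) (PT.nd (nat_lit 78) (PT.lf (nat_lit 988) (nat_lit 6) (nat_lit 13) (nat_lit 2) (nat_lit 125) (nat_lit 127) (nat_lit 108)) (PT.lf (nat_lit 912) (nat_lit 6) (nat_lit 12) (nat_lit 2) (nat_lit 126) (nat_lit 127) (nat_lit 107))) (PT.nd (nat_lit 78) (PT.lf (nat_lit 760) (nat_lit 3) (nat_lit 10) (nat_lit 0) (nat_lit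 127) (nat_lit 127) (nat_lit 106)) (PT.lf (nat_lit 608) (nat_lit 6) (nat_lit 8) (nat_lit 0) (nat_lit 128) (nat_lit 127) (nat_lit 105))))) (PT.nd (nat_lit 35646) (PT.nd (nat_lit 35490) (PT.nd (nat_lit 35412) (PT.lf (nat_lit 456) (nat_lit 6) (nat_lit 6) (nat_lit 0) (nat_lit 129) (nat_lit 127) (nat_lit 104)) (PT.lf (nat_lit 228) (nat_lit 6) (nat_lit 3) (nat_lit 5) (nat_lit 102) (nat_lit 128) (nat_lit 130))) (PT.nd (nat_lit 78) (PT.lf (nat_lit 380) (nat_lit 6) (nat_lit 5) (nat_lit 5) (nat_lit 103) (nat_lit 128) (nat_lit 129)) (PT.lf (nat_lit 532) (nat_lit 3) (nat_lit 7) (nat_lit 4) (nat_lit 104) (nat_lit 128) (nat_lit 128)))) (PT.nd (nat_lit 156) (PT.nd (nat_lit 78) (PT.lf (nat_lit 608) (nat_lit 6) (nat_lit 8) (nat_lit 4) (nat_lit 105) (nat_lit 128) (nat_lit 127)) (PT.lf (nat_lit 684) (nat_lit 6) (nat_lit 9) (nat_lit 4) (nat_lit 106) (nat_lit 128) (nat_lit 126))) (PT.nd (nat_lit 1404) (PT.lf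 (nat_lit 836) (nat_lit 6) (nat_lit 11) (nat_lit 4) (nat_lit 107) (nat_lit 128) (nat_lit 125)) (PT.nd (nat_lit 78) (PT.lf (nat_lit 836) (nat_lit 6) (nat_lit 11) (nat_lit 2) (nat_lit 125) (nat_lit 128) (nat_lit 107)) (PT.lf (nat_lit 684) (nat_lit 6) (nat_lit 9) (nat_lit 2) (nat_lit 126) (nat_lit 128) (nat_lit 106))))))) (PT.nd (nat_lit 37596) (PT.nd (nat_lit 35490) (PT.nd (nat_lit 156) (PT.nd (nat_lit 78) (PT.lf (nat_lit 608) (nat_lit 6) (nat_lit 8) (nat_lit 2) (nat_lit 127) (nat_lit 128) (nat_lit 105)) (PT.lf (nat_lit 532) (nat_lit 3) (nat_lit 7) (nat_lit 0) (nat_lit 128) (nat_lit 128) (nat_lit 104))) (PT.nd (nat_lit 78) (PT.lf (nat_lit 380) (nat_lit 6) (nat_lit 5) (nat_lit 0) (nat_lit 129) (nat_lit 128) (nat_lit 103)) (PT.lf (nat_lit 228) (nat_lit 6) (nat_lit 3) (nat_lit 0) (nat_lit 130) (nat_lit 128) (nat_lit 102)))) (PT.nd (nat_lit 156) (PT.nd (nat_lit 78) (PT.lf (nat_lit 152) (nat_lit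 6) (nat_lit 2) (nat_lit 5) (nat_lit 101) (nat_lit 129) (nat_lit 130)) (PT.lf (nat_lit 304) (nat_lit 3) (nat_lit 4) (nat_lit 4) (nat_lit 102) (nat_lit 129) (nat_lit 129))) (PT.nd (nat_lit 78) (PT.lf (nat_lit 380) (nat_lit 6) (nat_lit 5) (nat_lit 4) (nat_lit 103) (nat_lit 129) (nat_lit 128)) (PT.nd (nat_lit 1794) (PT.lf (nat_lit 456) (nat_lit 6) (nat_lit 6) (nat_lit 4) (nat_lit 104) (nat_lit 129) (nat_lit 127)) (PT.lf (nat_lit 456) (nat_lit 6) (nat_lit 6) (nat_lit 2) (nat_lit 127) (nat_lit 129) (nat_lit 104)))))) (PT.nd (nat_lit 35412) (PT.nd (nat_lit 156) (PT.nd (nat_lit 78) (PT.lf (nat_lit 380) (nat_lit 6) (nat_lit 5) (nat_lit 2) (nat_lit 128) (nat_lit 129) (nat_lit 103)) (PT.lf (nat_lit 304) (nat_lit 3) (nat_lit 4) (nat_lit 0) (nat_lit 129) (nat_lit 129) (nat_lit 102))) (PT.nd (nat_lit 35178) (PT.lf (nat_lit 152) (nat_lit 6) (nat_lit 2) (nat_lit 0) (nat_lit 130) (nat_lit 129) (nat_lit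 101)) (PT.lf (nat_lit 76) (nat_lit 3) (nat_lit 1) (nat_lit 4) (nat_lit 100) (nat_lit 130) (nat_lit 130)))) (PT.nd (nat_lit 2106) (PT.nd (nat_lit 78) (PT.lf (nat_lit 152) (nat_lit 6) (nat_lit 2) (nat_lit 4) (nat_lit 101) (nat_lit 130) (nat_lit 129)) (PT.lf (nat_lit 228) (nat_lit 6) (nat_lit 3) (nat_lit 4) (nat_lit 102) (nat_lit 130) (nat_lit 128))) (PT.nd (nat_lit 78) (PT.lf (nat_lit 228) (nat_lit 6) (nat_lit 3) (nat_lit 2) (nat_lit 128) (nat_lit 130) (nat_lit 102)) (PT.nd (nat_lit 78) (PT.lf (nat_lit 152) (nat_lit 6) (nat_lit 2) (nat_lit 2) (nat_lit 129) (nat_lit 130) (nat_lit 101)) (PT.lf (nat_lit 76) (nat_lit 3) (nat_lit 1) (nat_lit 0) (nat_lit 130) (nat_lit 130) (nat_lit 100))))))))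
noncomputable def xc0 : XT := (XT.nd (nat_lit 112554) (nat_lit 0) (nat_lit 0) (XT.nd (nat_lit 74958) (nat_lit 0) (nat_lit 0) (XT.nd (nat_lit 37518) (nat_lit 0) (nat_lit 0) (XT.nd (nat_lit 37362) (nat_lit 0) (nat_lit 0) (XT.nd (nat_lit 37284) (nat_lit 0) (nat_lit 0) (XT.lf (nat_lit 0) (nat_lit 330710197546) (nat_lit 76) (nat_lit 329661648250) (nat_lit 76) (nat_lit 329584103232) (nat_lit 1) (nat_lit 4) (nat_lit 2) (nat_lit 5) (nat_lit 2) (nat_lit 4) (nat_lit 325) (nat_lit 198) (nat_lit 197)) (XT.lf (nat_lit 0) (nat_lit 128994432564) (nat_lit 76) (nat_lit 132000133665) (nat_lit 76) (nat_lit 132000133665) (nat_lit 1) (nat_lit 4) (nat_lit 2) (nat_lit 5) (nat_lit 2) (nat_lit 4) (nat_lit 322) (nat_lit 199) (nat_lit 199))) (XT.nd (nat_lit 78) (nat_lit 0) (nat_lit 0) (XT.lf (nat_lit 0) (nat_lit 280446275481) (nat_lit 76) (nat_lit 284226886766) (nat_lit 76) (nat_lit 284143138147) (nat_lit 1) (nat_lit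 4) (nat_lit 2) (nat_lit 5) (nat_lit 2) (nat_lit 4) (nat_lit 323) (nat_lit 199) (nat_lit 198)) (XT.lf (nat_lit 0) (nat_lit 304611622628) (nat_lit 76) (nat_lit 306110785854) (nat_lit 76) (nat_lit 305949492217) (nat_lit 1) (nat_lit 4) (nat_lit 2) (nat_lit 5) (nat_lit 2) (nat_lit 4) (nat_lit 324) (nat_lit 199) (nat_lit 197)))) (XT.nd (nat_lit 37206) (nat_lit 0) (nat_lit 0) (XT.nd (nat_lit 37128) (nat_lit 0) (nat_lit 0) (XT.lf (nat_lit 0) (nat_lit 330628108627) (nat_lit 76) (nat_lit 329781646959) (nat_lit 76) (nat_lit 329548552380) (nat_lit 1) (nat_lit 4) (nat_lit 2) (nat_lit 5) (nat_lit 2) (nat_lit 4) (nat_lit 325) (nat_lit 199) (nat_lit 196)) (XT.lf (nat_lit 0) (nat_lit 108862289531) (nat_lit 76) (nat_lit 114058513293) (nat_lit 76) (nat_lit 114058513293) (nat_lit 1) (nat_lit 4) (nat_lit 2) (nat_lit 5) (nat_lit 2) (nat_lit 4) (nat_lit 320) (nat_lit 200) (nat_lit 200))) (XT.nd (nat_lit 78)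 (nat_lit 0) (nat_lit 0) (XT.lf (nat_lit 0) (nat_lit 237106310621) (nat_lit 76) (nat_lit 245401514607) (nat_lit 76) (nat_lit 245311066098) (nat_lit 1) (nat_lit 4) (nat_lit 2) (nat_lit 5) (nat_lit 2) (nat_lit 4) (nat_lit 321) (nat_lit 200) (nat_lit 199)) (XT.nd (nat_lit 78) (nat_lit 0) (nat_lit 0) (XT.lf (nat_lit 0) (nat_lit 257942832188) (nat_lit 76) (nat_lit 264111043774) (nat_lit 76) (nat_lit 263936846646) (nat_lit 1) (nat_lit 4) (nat_lit 2) (nat_lit 5) (nat_lit 2) (nat_lit 4) (nat_lit 322) (nat_lit 200) (nat_lit 198)) (XT.lf (nat_lit 0) (nat_lit 280357619447) (nat_lit 76) (nat_lit 284356485372) (nat_lit 76) (nat_lit 284104743226) (nat_lit 1) (nat_lit 4) (nat_lit 2) (nat_lit 5) (nat_lit 2) (nat_lit 4) (nat_lit 323) (nat_lit 200) (nat_lit 197)))))) (XT.nd (nat_lit 37206) (nat_lit 0) (nat_lit 0) (XT.nd (nat_lit 37050) (nat_lit 0) (nat_lit 0) (XT.nd (nat_lit 78) (nat_lit 0) (nat_lit 0)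 (XT.lf (nat_lit 0) (nat_lit 304483500768) (nat_lit 76) (nat_lit 306257812388) (nat_lit 76) (nat_lit 305934269300) (nat_lit 1) (nat_lit 4) (nat_lit 2) (nat_lit 5) (nat_lit 2) (nat_lit 4) (nat_lit 324) (nat_lit 200) (nat_lit 196)) (XT.lf (nat_lit 0) (nat_lit 330463444335) (nat_lit 76) (nat_lit 329944810464) (nat_lit 76) (nat_lit 329554785021) (nat_lit 1) (nat_lit 4) (nat_lit 2) (nat_lit 5) (nat_lit 2) (nat_lit 4) (nat_lit 325) (nat_lit 200) (nat_lit 195))) (XT.nd (nat_lit 78) (nat_lit 0) (nat_lit 0) (XT.lf (nat_lit 0) (nat_lit 91463850165) (nat_lit 76) (nat_lit 98747639603) (nat_lit 76) (nat_lit 98747639603) (nat_lit 1) (nat_lit 4) (nat_lit 2) (nat_lit 5) (nat_lit 2) (nat_lit 4) (nat_lit 318) (nat_lit 201) (nat_lit 201)) (XT.lf (nat_lit 0) (nat_lit 199682782808) (nat_lit 76) (nat_lit 212252837508) (nat_lit 76) (nat_lit 212155153118) (nat_lit 1) (nat_lit 4) (nat_lit 2) (nat_lit 5) (nat_lit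 2) (nat_lit 4) (nat_lit 319) (nat_lit 201) (nat_lit 200)))) (XT.nd (nat_lit 156) (nat_lit 0) (nat_lit 0) (XT.nd (nat_lit 78) (nat_lit 0) (nat_lit 0) (XT.lf (nat_lit 0) (nat_lit 217674863488) (nat_lit 76) (nat_lit 228236665147) (nat_lit 76) (nat_lit 228048532248) (nat_lit 1) (nat_lit 4) (nat_lit 2) (nat_lit 5) (nat_lit 2) (nat_lit 4) (nat_lit 320) (nat_lit 201) (nat_lit 199)) (XT.lf (nat_lit 0) (nat_lit 237010562106) (nat_lit 76) (nat_lit 245541481102) (nat_lit 76) (nat_lit 245269599584) (nat_lit 1) (nat_lit 4) (nat_lit 2) (nat_lit 5) (nat_lit 2) (nat_lit 4) (nat_lit 321) (nat_lit 201) (nat_lit 198))) (XT.nd (nat_lit 78) (nat_lit 0) (nat_lit 0) (XT.lf (nat_lit 0) (nat_lit 257804460580) (nat_lit 76) (nat_lit 264269832431) (nat_lit 76) (nat_lit 263920405896) (nat_lit 1) (nat_lit 4) (nat_lit 2) (nat_lit 5) (nat_lit 2) (nat_lit 4) (nat_lit 322) (nat_lit 201) (nat_lit 197)) (XT.nd (nat_lit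 78) (nat_lit 0) (nat_lit 0) (XT.lf (nat_lit 0) (nat_lit 280179782012) (nat_lit 76) (nat_lit 284532701957) (nat_lit 76) (nat_lit 284111474479) (nat_lit 1) (nat_lit 4) (nat_lit 2) (nat_lit 5) (nat_lit 2) (nat_lit 4) (nat_lit 323) (nat_lit 201) (nat_lit 196)) (XT.lf (nat_lit 0) (nat_lit 304269120900) (nat_lit 76) (nat_lit 306450165943) (nat_lit 76) (nat_lit 305962456112) (nat_lit 1) (nat_lit 4) (nat_lit 2) (nat_lit 5) (nat_lit 2) (nat_lit 4) (nat_lit 324) (nat_lit 201) (nat_lit 195))))))) (XT.nd (nat_lit 37440) (nat_lit 0) (nat_lit 0) (XT.nd (nat_lit 37050) (nat_lit 0) (nat_lit 0) (XT.nd (nat_lit 36894) (nat_lit 0) (nat_lit 0) (XT.nd (nat_lit 36816) (nat_lit 0) (nat_lit 0) (XT.lf (nat_lit 0) (nat_lit 330215228882) (nat_lit 76) (nat_lit 330152105658) (nat_lit 76) (nat_lit 329602838091) (nat_lit 1) (nat_lit 4) (nat_lit 2) (nat_lit 5) (nat_lit 2) (nat_lit 4) (nat_lit 325) (nat_lit 201) (nat_lit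 194)) (XT.lf (nat_lit 0) (nat_lit 76398051346) (nat_lit 76) (nat_lit 85697901085) (nat_lit 76) (nat_lit 85697901085) (nat_lit 1) (nat_lit 4) (nat_lit 2) (nat_lit 5) (nat_lit 2) (nat_lit 4) (nat_lit 316) (nat_lit 202) (nat_lit 202))) (XT.nd (nat_lit 78) (nat_lit 0) (nat_lit 0) (XT.lf (nat_lit 0) (nat_lit 167310326676) (nat_lit 76) (nat_lit 183982037187) (nat_lit 76) (nat_lit 183876538046) (nat_lit 1) (nat_lit 4) (nat_lit 2) (nat_lit 5) (nat_lit 2) (nat_lit 4) (nat_lit 317) (nat_lit 202) (nat_lit 201)) (XT.lf (nat_lit 0) (nat_lit 182874007509) (nat_lit 76) (nat_lit 197624488851) (nat_lit 76) (nat_lit 197421305321) (nat_lit 1) (nat_lit 4) (nat_lit 2) (nat_lit 5) (nat_lit 2) (nat_lit 4) (nat_lit 318) (nat_lit 202) (nat_lit 200)))) (XT.nd (nat_lit 156) (nat_lit 0) (nat_lit 0) (XT.nd (nat_lit 78) (nat_lit 0) (nat_lit 0) (XT.lf (nat_lit 0) (nat_lit 199579374411) (nat_lit 76) (nat_lit 212404001322)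 (nat_lit 76) (nat_lit 212110369283) (nat_lit 1) (nat_lit 4) (nat_lit 2) (nat_lit 5) (nat_lit 2) (nat_lit 4) (nat_lit 319) (nat_lit 202) (nat_lit 199)) (XT.lf (nat_lit 0) (nat_lit 217525422150) (nat_lit 76) (nat_lit 228408156896) (nat_lit 76) (nat_lit 228030776238) (nat_lit 1) (nat_lit 4) (nat_lit 2) (nat_lit 5) (nat_lit 2) (nat_lit 4) (nat_lit 320) (nat_lit 202) (nat_lit 198))) (XT.nd (nat_lit 78) (nat_lit 0) (nat_lit 0) (XT.lf (nat_lit 0) (nat_lit 236818497675) (nat_lit 76) (nat_lit 245731795014) (nat_lit 76) (nat_lit 245276869338) (nat_lit 1) (nat_lit 4) (nat_lit 2) (nat_lit 5) (nat_lit 2) (nat_lit 4) (nat_lit 321) (nat_lit 202) (nat_lit 197)) (XT.nd (nat_lit 78) (nat_lit 0) (nat_lit 0) (XT.lf (nat_lit 0) (nat_lit 257572930323) (nat_lit 76) (nat_lit 264477574271) (nat_lit 76) (nat_lit 263950847653) (nat_lit 1) (nat_lit 4) (nat_lit 2) (nat_lit 5) (nat_lit 2) (nat_lit 4) (nat_lit 322)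 (nat_lit 202) (nat_lit 196)) (XT.lf (nat_lit 0) (nat_lit 279911709323) (nat_lit 76) (nat_lit 284756580767) (nat_lit 76) (nat_lit 284163371795) (nat_lit 1) (nat_lit 4) (nat_lit 2) (nat_lit 5) (nat_lit 2) (nat_lit 4) (nat_lit 323) (nat_lit 202) (nat_lit 195)))))) (XT.nd (nat_lit 36894) (nat_lit 0) (nat_lit 0) (XT.nd (nat_lit 36738) (nat_lit 0) (nat_lit 0) (XT.nd (nat_lit 78) (nat_lit 0) (nat_lit 0) (XT.lf (nat_lit 0) (nat_lit 303967212626) (nat_lit 76) (nat_lit 306688986393) (nat_lit 76) (nat_lit 306034219685) (nat_lit 1) (nat_lit 4) (nat_lit 2) (nat_lit 5) (nat_lit 2) (nat_lit 4) (nat_lit 324) (nat_lit 202) (nat_lit 194)) (XT.lf (nat_lit 0) (nat_lit 329881991362) (nat_lit 76) (nat_lit 330404760959) (nat_lit 76) (nat_lit 329692996348) (nat_lit 1) (nat_lit 4) (nat_lit 2) (nat_lit 5) (nat_lit 2) (nat_lit 4) (nat_lit 325) (nat_lit 202) (nat_lit 193))) (XT.nd (nat_lit 78) (nat_lit 0) (nat_lit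 0) (XT.lf (nat_lit 0) (nat_lit 63320160515) (nat_lit 76) (nat_lit 74592870959) (nat_lit 76) (nat_lit 74592870959) (nat_lit 1) (nat_lit 4) (nat_lit 2) (nat_lit 5) (nat_lit 2) (nat_lit 4) (nat_lit 314) (nat_lit 203) (nat_lit 203)) (XT.lf (nat_lit 0) (nat_lit 139245325343) (nat_lit 76) (nat_lit 159905137780) (nat_lit 76) (nat_lit 159791198708) (nat_lit 1) (nat_lit 4) (nat_lit 2) (nat_lit 5) (nat_lit 2) (nat_lit 4) (nat_lit 315) (nat_lit 203) (nat_lit 202)))) (XT.nd (nat_lit 156) (nat_lit 0) (nat_lit 0) (XT.nd (nat_lit 78) (nat_lit 0) (nat_lit 0) (XT.lf (nat_lit 0) (nat_lit 152738114445) (nat_lit 76) (nat_lit 171535348587) (nat_lit 76) (nat_lit 171315910374) (nat_lit 1) (nat_lit 4) (nat_lit 2) (nat_lit 5) (nat_lit 2) (nat_lit 4) (nat_lit 316) (nat_lit 203) (nat_lit 201)) (XT.lf (nat_lit 0) (nat_lit 167198645607) (nat_lit 76) (nat_lit 184145294106) (nat_lit 76) (nat_lit 183828171504) (nat_lit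 1) (nat_lit 4) (nat_lit 2) (nat_lit 5) (nat_lit 2) (nat_lit 4) (nat_lit 317) (nat_lit 203) (nat_lit 200))) (XT.nd (nat_lit 78) (nat_lit 0) (nat_lit 0) (XT.lf (nat_lit 0) (nat_lit 182712610864) (nat_lit 76) (nat_lit 197809699940) (nat_lit 76) (nat_lit 197402128830) (nat_lit 1) (nat_lit 4) (nat_lit 2) (nat_lit 5) (nat_lit 2) (nat_lit 4) (nat_lit 318) (nat_lit 203) (nat_lit 199)) (XT.nd (nat_lit 78) (nat_lit 0) (nat_lit 0) (XT.lf (nat_lit 0) (nat_lit 199371944827) (nat_lit 76) (nat_lit 212609540347) (nat_lit 76) (nat_lit 212118220617) (nat_lit 1) (nat_lit 4) (nat_lit 2) (nat_lit 5) (nat_lit 2) (nat_lit 4) (nat_lit 319) (nat_lit 203) (nat_lit 198)) (XT.lf (nat_lit 0) (nat_lit 217275369473) (nat_lit 76) (nat_lit 228632518083) (nat_lit 76) (nat_lit 228063653336) (nat_lit 1) (nat_lit 4) (nat_lit 2) (nat_lit 5) (nat_lit 2) (nat_lit 4) (nat_lit 320) (nat_lit 203) (nat_lit 197))))))))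
noncomputable def xc1 : XT := (XT.nd (nat_lit 37830) (nat_lit 0) (nat_lit 0) (XT.nd (nat_lit 37128) (nat_lit 0) (nat_lit 0) (XT.nd (nat_lit 312) (nat_lit 0) (nat_lit 0) (XT.nd (nat_lit 156) (nat_lit 0) (nat_lit 0) (XT.nd (nat_lit 78) (nat_lit 0) (nat_lit 0) (XT.lf (nat_lit 0) (nat_lit 236528979171) (nat_lit 76) (nat_lit 245973584129) (nat_lit 76) (nat_lit 245332918439) (nat_lit 1) (nat_lit 4) (nat_lit 2) (nat_lit 5) (nat_lit 2) (nat_lit 4) (nat_lit 321) (nat_lit 203) (nat_lit 196)) (XT.lf (nat_lit 0) (nat_lit 257246869386) (nat_lit 76) (nat_lit 264735500357) (nat_lit 76) (nat_lit 264028352312) (nat_lit 1) (nat_lit 4) (nat_lit 2) (nat_lit 5) (nat_lit 2) (nat_lit 4) (nat_lit 322) (nat_lit 203) (nat_lit 195))) (XT.nd (nat_lit 78) (nat_lit 0) (nat_lit 0) (XT.lf (nat_lit 0) (nat_lit 279551812801) (nat_lit 76) (nat_lit 285029448492) (nat_lit 76) (nat_lit 284260742713) (nat_lit 1) (nat_lit 4)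 (nat_lit 2) (nat_lit 5) (nat_lit 2) (nat_lit 4) (nat_lit 323) (nat_lit 203) (nat_lit 194)) (XT.lf (nat_lit 0) (nat_lit 303575986858) (nat_lit 76) (nat_lit 306975688969) (nat_lit 76) (nat_lit 306149985286) (nat_lit 1) (nat_lit 4) (nat_lit 2) (nat_lit 5) (nat_lit 2) (nat_lit 4) (nat_lit 324) (nat_lit 203) (nat_lit 193)))) (XT.nd (nat_lit 36582) (nat_lit 0) (nat_lit 0) (XT.nd (nat_lit 36504) (nat_lit 0) (nat_lit 0) (XT.lf (nat_lit 0) (nat_lit 329461757034) (nat_lit 76) (nat_lit 330704273582) (nat_lit 76) (nat_lit 329825794064) (nat_lit 1) (nat_lit 4) (nat_lit 2) (nat_lit 5) (nat_lit 2) (nat_lit 4) (nat_lit 325) (nat_lit 203) (nat_lit 192)) (XT.lf (nat_lit 0) (nat_lit 51933668643) (nat_lit 76) (nat_lit 65161756213) (nat_lit 76) (nat_lit 65161756213) (nat_lit 1) (nat_lit 4) (nat_lit 2) (nat_lit 5) (nat_lit 2) (nat_lit 4) (nat_lit 312) (nat_lit 204) (nat_lit 204))) (XT.nd (nat_lit 78) (nat_lit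 0) (nat_lit 0) (XT.lf (nat_lit 0) (nat_lit 114848405188) (nat_lit 76) (nat_lit 139436692851) (nat_lit 76) (nat_lit 139313638654) (nat_lit 1) (nat_lit 4) (nat_lit 2) (nat_lit 5) (nat_lit 2) (nat_lit 4) (nat_lit 313) (nat_lit 204) (nat_lit 203)) (XT.nd (nat_lit 78) (nat_lit 0) (nat_lit 0) (XT.lf (nat_lit 0) (nat_lit 126577693724) (nat_lit 76) (nat_lit 149336452047) (nat_lit 76) (nat_lit 149099458777) (nat_lit 1) (nat_lit 4) (nat_lit 2) (nat_lit 5) (nat_lit 2) (nat_lit 4) (nat_lit 314) (nat_lit 204) (nat_lit 202)) (XT.lf (nat_lit 0) (nat_lit 139124709788) (nat_lit 76) (nat_lit 160081455253) (nat_lit 76) (nat_lit 159738962843) (nat_lit 1) (nat_lit 4) (nat_lit 2) (nat_lit 5) (nat_lit 2) (nat_lit 4) (nat_lit 315) (nat_lit 204) (nat_lit 201)))))) (XT.nd (nat_lit 312) (nat_lit 0) (nat_lit 0) (XT.nd (nat_lit 156) (nat_lit 0) (nat_lit 0) (XT.nd (nat_lit 78) (nat_lit 0) (nat_lit 0) (XT.lf (nat_lit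 0) (nat_lit 152563806069) (nat_lit 76) (nat_lit 171735376564) (nat_lit 76) (nat_lit 171295199764) (nat_lit 1) (nat_lit 4) (nat_lit 2) (nat_lit 5) (nat_lit 2) (nat_lit 4) (nat_lit 316) (nat_lit 204) (nat_lit 200)) (XT.lf (nat_lit 0) (nat_lit 166974621655) (nat_lit 76) (nat_lit 184367276253) (nat_lit 76) (nat_lit 183836650945) (nat_lit 1) (nat_lit 4) (nat_lit 2) (nat_lit 5) (nat_lit 2) (nat_lit 4) (nat_lit 317) (nat_lit 204) (nat_lit 199))) (XT.nd (nat_lit 78) (nat_lit 0) (nat_lit 0) (XT.lf (nat_lit 0) (nat_lit 182442553973) (nat_lit 76) (nat_lit 198052010022) (nat_lit 76) (nat_lit 197437636095) (nat_lit 1) (nat_lit 4) (nat_lit 2) (nat_lit 5) (nat_lit 2) (nat_lit 4) (nat_lit 318) (nat_lit 204) (nat_lit 198)) (XT.lf (nat_lit 0) (nat_lit 199059264842) (nat_lit 76) (nat_lit 212870672591) (nat_lit 76) (nat_lit 212178753646) (nat_lit 1) (nat_lit 4) (nat_lit 2) (nat_lit 5) (nat_lit 2) (nat_lit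 4) (nat_lit 319) (nat_lit 204) (nat_lit 197)))) (XT.nd (nat_lit 156) (nat_lit 0) (nat_lit 0) (XT.nd (nat_lit 78) (nat_lit 0) (nat_lit 0) (XT.lf (nat_lit 0) (nat_lit 216923223661) (nat_lit 76) (nat_lit 228911078256) (nat_lit 76) (nat_lit 228147358368) (nat_lit 1) (nat_lit 4) (nat_lit 2) (nat_lit 5) (nat_lit 2) (nat_lit 4) (nat_lit 320) (nat_lit 204) (nat_lit 196)) (XT.lf (nat_lit 0) (nat_lit 236140290928) (nat_lit 76) (nat_lit 246268281272) (nat_lit 76) (nat_lit 245438079030) (nat_lit 1) (nat_lit 4) (nat_lit 2) (nat_lit 5) (nat_lit 2) (nat_lit 4) (nat_lit 321) (nat_lit 204) (nat_lit 195))) (XT.nd (nat_lit 78) (nat_lit 0) (nat_lit 0) (XT.lf (nat_lit 0) (nat_lit 256824345557) (nat_lit 76) (nat_lit 265045139138) (nat_lit 76) (nat_lit 264153379161) (nat_lit 1) (nat_lit 4) (nat_lit 2) (nat_lit 5) (nat_lit 2) (nat_lit 4) (nat_lit 322) (nat_lit 204) (nat_lit 194)) (XT.nd (nat_lit 78) (nat_lit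 0) (nat_lit 0) (XT.lf (nat_lit 0) (nat_lit 279097959727) (nat_lit 76) (nat_lit 285352922125) (nat_lit 76) (nat_lit 284404164245) (nat_lit 1) (nat_lit 4) (nat_lit 2) (nat_lit 5) (nat_lit 2) (nat_lit 4) (nat_lit 323) (nat_lit 204) (nat_lit 193)) (XT.lf (nat_lit 0) (nat_lit 303093125223) (nat_lit 76) (nat_lit 307311972649) (nat_lit 76) (nat_lit 306310438933) (nat_lit 1) (nat_lit 4) (nat_lit 2) (nat_lit 5) (nat_lit 2) (nat_lit 4) (nat_lit 324) (nat_lit 204) (nat_lit 192))))))) (XT.nd (nat_lit 36972) (nat_lit 0) (nat_lit 0) (XT.nd (nat_lit 36582) (nat_lit 0) (nat_lit 0) (XT.nd (nat_lit 36426) (nat_lit 0) (nat_lit 0) (XT.nd (nat_lit 36348) (nat_lit 0) (nat_lit 0) (XT.lf (nat_lit 0) (nat_lit 328952035620) (nat_lit 76) (nat_lit 331052418418) (nat_lit 76) (nat_lit 330002018187) (nat_lit 1) (nat_lit 4) (nat_lit 2) (nat_lit 5) (nat_lit 2) (nat_lit 4) (nat_lit 325) (nat_lit 204) (nat_lit 191)) (XT.lf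 (nat_lit 0) (nat_lit 41983334087) (nat_lit 76) (nat_lit 57172926802) (nat_lit 76) (nat_lit 57172926802) (nat_lit 1) (nat_lit 4) (nat_lit 2) (nat_lit 5) (nat_lit 2) (nat_lit 4) (nat_lit 310) (nat_lit 205) (nat_lit 205))) (XT.nd (nat_lit 78) (nat_lit 0) (nat_lit 0) (XT.lf (nat_lit 0) (nat_lit 93569417022) (nat_lit 76) (nat_lit 122075805276) (nat_lit 76) (nat_lit 121942906743) (nat_lit 1) (nat_lit 4) (nat_lit 2) (nat_lit 5) (nat_lit 2) (nat_lit 4) (nat_lit 311) (nat_lit 205) (nat_lit 204)) (XT.lf (nat_lit 0) (nat_lit 103799699794) (nat_lit 76) (nat_lit 130486279367) (nat_lit 76) (nat_lit 130230326636) (nat_lit 1) (nat_lit 4) (nat_lit 2) (nat_lit 5) (nat_lit 2) (nat_lit 4) (nat_lit 312) (nat_lit 205) (nat_lit 203)))) (XT.nd (nat_lit 156) (nat_lit 0) (nat_lit 0) (XT.nd (nat_lit 78) (nat_lit 0) (nat_lit 0) (XT.lf (nat_lit 0) (nat_lit 114718140389) (nat_lit 76) (nat_lit 139627115722) (nat_lit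 76) (nat_lit 139257223919) (nat_lit 1) (nat_lit 4) (nat_lit 2) (nat_lit 5) (nat_lit 2) (nat_lit 4) (nat_lit 313) (nat_lit 205) (nat_lit 202)) (XT.lf (nat_lit 0) (nat_lit 126389440678) (nat_lit 76) (nat_lit 149552482261) (nat_lit 76) (nat_lit 149077091318) (nat_lit 1) (nat_lit 4) (nat_lit 2) (nat_lit 5) (nat_lit 2) (nat_lit 4) (nat_lit 314) (nat_lit 205) (nat_lit 201))) (XT.nd (nat_lit 78) (nat_lit 0) (nat_lit 0) (XT.lf (nat_lit 0) (nat_lit 138882763921) (nat_lit 76) (nat_lit 160321195972) (nat_lit 76) (nat_lit 159748120639) (nat_lit 1) (nat_lit 4) (nat_lit 2) (nat_lit 5) (nat_lit 2) (nat_lit 4) (nat_lit 315) (nat_lit 205) (nat_lit 200)) (XT.nd (nat_lit 78) (nat_lit 0) (nat_lit 0) (XT.lf (nat_lit 0) (nat_lit 152272144626) (nat_lit 76) (nat_lit 171997071452) (nat_lit 76) (nat_lit 171333547611) (nat_lit 1) (nat_lit 4) (nat_lit 2) (nat_lit 5) (nat_lit 2) (nat_lit 4) (nat_lit 316) (nat_lit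 205) (nat_lit 199)) (XT.lf (nat_lit 0) (nat_lit 166636927272) (nat_lit 76) (nat_lit 184649299077) (nat_lit 76) (nat_lit 183902026616) (nat_lit 1) (nat_lit 4) (nat_lit 2) (nat_lit 5) (nat_lit 2) (nat_lit 4) (nat_lit 317) (nat_lit 205) (nat_lit 198)))))) (XT.nd (nat_lit 312) (nat_lit 0) (nat_lit 0) (XT.nd (nat_lit 156) (nat_lit 0) (nat_lit 0) (XT.nd (nat_lit 78) (nat_lit 0) (nat_lit 0) (XT.lf (nat_lit 0) (nat_lit 182062236496) (nat_lit 76) (nat_lit 198352855008) (nat_lit 76) (nat_lit 197528037530) (nat_lit 1) (nat_lit 4) (nat_lit 2) (nat_lit 5) (nat_lit 2) (nat_lit 4) (nat_lit 318) (nat_lit 205) (nat_lit 197)) (XT.lf (nat_lit 0) (nat_lit 198639481539) (nat_lit 76) (nat_lit 213188945505) (nat_lit 76) (nat_lit 212292327084) (nat_lit 1) (nat_lit 4) (nat_lit 2) (nat_lit 5) (nat_lit 2) (nat_lit 4) (nat_lit 319) (nat_lit 205) (nat_lit 196))) (XT.nd (nat_lit 78) (nat_lit 0) (nat_lit 0) (XT.lf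 (nat_lit 0) (nat_lit 216466897926) (nat_lit 76) (nat_lit 229245488140) (nat_lit 76) (nat_lit 228282387365) (nat_lit 1) (nat_lit 4) (nat_lit 2) (nat_lit 5) (nat_lit 2) (nat_lit 4) (nat_lit 320) (nat_lit 205) (nat_lit 195)) (XT.lf (nat_lit 0) (nat_lit 235650129607) (nat_lit 76) (nat_lit 246617632795) (nat_lit 76) (nat_lit 245592974285) (nat_lit 1) (nat_lit 4) (nat_lit 2) (nat_lit 5) (nat_lit 2) (nat_lit 4) (nat_lit 321) (nat_lit 205) (nat_lit 194)))) (XT.nd (nat_lit 156) (nat_lit 0) (nat_lit 0) (XT.nd (nat_lit 78) (nat_lit 0) (nat_lit 0) (XT.lf (nat_lit 0) (nat_lit 256302854991) (nat_lit 76) (nat_lit 265408325513) (nat_lit 76) (nat_lit 264326669100) (nat_lit 1) (nat_lit 4) (nat_lit 2) (nat_lit 5) (nat_lit 2) (nat_lit 4) (nat_lit 322) (nat_lit 205) (nat_lit 193)) (XT.lf (nat_lit 0) (nat_lit 278547460600) (nat_lit 76) (nat_lit 285728918547) (nat_lit 76) (nat_lit 284594486298) (nat_lit 1)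 (nat_lit 4) (nat_lit 2) (nat_lit 5) (nat_lit 2) (nat_lit 4) (nat_lit 323) (nat_lit 205) (nat_lit 192))) (XT.nd (nat_lit 78) (nat_lit 0) (nat_lit 0) (XT.lf (nat_lit 0) (nat_lit 302515766318) (nat_lit 76) (nat_lit 307699830227) (nat_lit 76) (nat_lit 306516531462) (nat_lit 1) (nat_lit 4) (nat_lit 2) (nat_lit 5) (nat_lit 2) (nat_lit 4) (nat_lit 324) (nat_lit 205) (nat_lit 191)) (XT.nd (nat_lit 36192) (nat_lit 0) (nat_lit 0) (XT.lf (nat_lit 0) (nat_lit 328349806549) (nat_lit 76) (nat_lit 331451258546) (nat_lit 76) (nat_lit 330222713008) (nat_lit 1) (nat_lit 4) (nat_lit 2) (nat_lit 5) (nat_lit 2) (nat_lit 4) (nat_lit 325) (nat_lit 205) (nat_lit 190)) (XT.lf (nat_lit 0) (nat_lit 33249212708) (nat_lit 76) (nat_lit 50428371106) (nat_lit 76) (nat_lit 50428371106) (nat_lit 1) (nat_lit 4) (nat_lit 2) (nat_lit 5) (nat_lit 2) (nat_lit 4) (nat_lit 308) (nat_lit 206) (nat_lit 206))))))))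
noncomputable def xc2 : XT := (XT.nd (nat_lit 37362) (nat_lit 0) (nat_lit 0) (XT.nd (nat_lit 702) (nat_lit 0) (nat_lit 0) (XT.nd (nat_lit 312) (nat_lit 0) (nat_lit 0) (XT.nd (nat_lit 156) (nat_lit 0) (nat_lit 0) (XT.nd (nat_lit 78) (nat_lit 0) (nat_lit 0) (XT.lf (nat_lit 0) (nat_lit 74934548074) (nat_lit 76) (nat_lit 107394147644) (nat_lit 76) (nat_lit 107250617228) (nat_lit 1) (nat_lit 4) (nat_lit 2) (nat_lit 5) (nat_lit 2) (nat_lit 4) (nat_lit 309) (nat_lit 206) (nat_lit 205)) (XT.lf (nat_lit 0) (nat_lit 83893619683) (nat_lit 76) (nat_lit 114521641898) (nat_lit 76) (nat_lit 114245212949) (nat_lit 1) (nat_lit 4) (nat_lit 2) (nat_lit 5) (nat_lit 2) (nat_lit 4) (nat_lit 310) (nat_lit 206) (nat_lit 204))) (XT.nd (nat_lit 78) (nat_lit 0) (nat_lit 0) (XT.lf (nat_lit 0) (nat_lit 93428731039) (nat_lit 76) (nat_lit 122281461977) (nat_lit 76) (nat_lit 121881978829) (nat_lit 1) (nat_lit 4) (nat_lit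 2) (nat_lit 5) (nat_lit 2) (nat_lit 4) (nat_lit 311) (nat_lit 206) (nat_lit 203)) (XT.lf (nat_lit 0) (nat_lit 103596386504) (nat_lit 76) (nat_lit 130719591999) (nat_lit 76) (nat_lit 130206169780) (nat_lit 1) (nat_lit 4) (nat_lit 2) (nat_lit 5) (nat_lit 2) (nat_lit 4) (nat_lit 312) (nat_lit 206) (nat_lit 202)))) (XT.nd (nat_lit 156) (nat_lit 0) (nat_lit 0) (XT.nd (nat_lit 78) (nat_lit 0) (nat_lit 0) (XT.lf (nat_lit 0) (nat_lit 114456838852) (nat_lit 76) (nat_lit 139886035698) (nat_lit 76) (nat_lit 139267114339) (nat_lit 1) (nat_lit 4) (nat_lit 2) (nat_lit 5) (nat_lit 2) (nat_lit 4) (nat_lit 313) (nat_lit 206) (nat_lit 201)) (XT.lf (nat_lit 0) (nat_lit 126074446319) (nat_lit 76) (nat_lit 149835112741) (nat_lit 76) (nat_lit 149118506992) (nat_lit 1) (nat_lit 4) (nat_lit 2) (nat_lit 5) (nat_lit 2) (nat_lit 4) (nat_lit 314) (nat_lit 206) (nat_lit 200))) (XT.nd (nat_lit 78) (nat_lit 0) (nat_lit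 0) (XT.lf (nat_lit 0) (nat_lit 138518053987) (nat_lit 76) (nat_lit 160625780621) (nat_lit 76) (nat_lit 159818726364) (nat_lit 1) (nat_lit 4) (nat_lit 2) (nat_lit 5) (nat_lit 2) (nat_lit 4) (nat_lit 315) (nat_lit 206) (nat_lit 199)) (XT.nd (nat_lit 78) (nat_lit 0) (nat_lit 0) (XT.lf (nat_lit 0) (nat_lit 151861401752) (nat_lit 76) (nat_lit 172321984037) (nat_lit 76) (nat_lit 171431181160) (nat_lit 1) (nat_lit 4) (nat_lit 2) (nat_lit 5) (nat_lit 2) (nat_lit 4) (nat_lit 316) (nat_lit 206) (nat_lit 198)) (XT.lf (nat_lit 0) (nat_lit 166183561305) (nat_lit 76) (nat_lit 184993033824) (nat_lit 76) (nat_lit 184024685929) (nat_lit 1) (nat_lit 4) (nat_lit 2) (nat_lit 5) (nat_lit 2) (nat_lit 4) (nat_lit 317) (nat_lit 206) (nat_lit 197)))))) (XT.nd (nat_lit 312) (nat_lit 0) (nat_lit 0) (XT.nd (nat_lit 156) (nat_lit 0) (nat_lit 0) (XT.nd (nat_lit 78) (nat_lit 0) (nat_lit 0) (XT.lf (nat_lit 0) (nat_lit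 181569404702) (nat_lit 76) (nat_lit 198714017684) (nat_lit 76) (nat_lit 197673868847) (nat_lit 1) (nat_lit 4) (nat_lit 2) (nat_lit 5) (nat_lit 2) (nat_lit 4) (nat_lit 318) (nat_lit 206) (nat_lit 196)) (XT.lf (nat_lit 0) (nat_lit 198110107313) (nat_lit 76) (nat_lit 213566245151) (nat_lit 76) (nat_lit 212459613960) (nat_lit 1) (nat_lit 4) (nat_lit 2) (nat_lit 5) (nat_lit 2) (nat_lit 4) (nat_lit 319) (nat_lit 206) (nat_lit 195))) (XT.nd (nat_lit 78) (nat_lit 0) (nat_lit 0) (XT.lf (nat_lit 0) (nat_lit 215903688115) (nat_lit 76) (nat_lit 229637729425) (nat_lit 76) (nat_lit 228469540498) (nat_lit 1) (nat_lit 4) (nat_lit 2) (nat_lit 5) (nat_lit 2) (nat_lit 4) (nat_lit 320) (nat_lit 206) (nat_lit 194)) (XT.lf (nat_lit 0) (nat_lit 235055590550) (nat_lit 76) (nat_lit 247023708931) (nat_lit 76) (nat_lit 245798522102) (nat_lit 1) (nat_lit 4) (nat_lit 2) (nat_lit 5) (nat_lit 2) (nat_lit 4) (nat_lit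 321) (nat_lit 206) (nat_lit 193)))) (XT.nd (nat_lit 156) (nat_lit 0) (nat_lit 0) (XT.nd (nat_lit 78) (nat_lit 0) (nat_lit 0) (XT.lf (nat_lit 0) (nat_lit 255679307373) (nat_lit 76) (nat_lit 265827211697) (nat_lit 76) (nat_lit 264549249031) (nat_lit 1) (nat_lit 4) (nat_lit 2) (nat_lit 5) (nat_lit 2) (nat_lit 4) (nat_lit 322) (nat_lit 206) (nat_lit 192)) (XT.lf (nat_lit 0) (nat_lit 277897053203) (nat_lit 76) (nat_lit 286159665886) (nat_lit 76) (nat_lit 284832836705) (nat_lit 1) (nat_lit 4) (nat_lit 2) (nat_lit 5) (nat_lit 2) (nat_lit 4) (nat_lit 323) (nat_lit 206) (nat_lit 191))) (XT.nd (nat_lit 78) (nat_lit 0) (nat_lit 0) (XT.lf (nat_lit 0) (nat_lit 301840488756) (nat_lit 76) (nat_lit 308141560116) (nat_lit 76) (nat_lit 306769484162) (nat_lit 1) (nat_lit 4) (nat_lit 2) (nat_lit 5) (nat_lit 2) (nat_lit 4) (nat_lit 324) (nat_lit 206) (nat_lit 190)) (XT.nd (nat_lit 36036) (nat_lit 0) (nat_lit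 0) (XT.lf (nat_lit 0) (nat_lit 327651501056) (nat_lit 76) (nat_lit 331903157464) (nat_lit 76) (nat_lit 330489186350) (nat_lit 1) (nat_lit 4) (nat_lit 2) (nat_lit 5) (nat_lit 2) (nat_lit 4) (nat_lit 325) (nat_lit 206) (nat_lit 189)) (XT.lf (nat_lit 0) (nat_lit 25541533035) (nat_lit 76) (nat_lit 44758945802) (nat_lit 76) (nat_lit 44758945802) (nat_lit 1) (nat_lit 4) (nat_lit 2) (nat_lit 5) (nat_lit 2) (nat_lit 4) (nat_lit 306) (nat_lit 207) (nat_lit 207))))))) (XT.nd (nat_lit 702) (nat_lit 0) (nat_lit 0) (XT.nd (nat_lit 312) (nat_lit 0) (nat_lit 0) (XT.nd (nat_lit 156) (nat_lit 0) (nat_lit 0) (XT.nd (nat_lit 78) (nat_lit 0) (nat_lit 0) (XT.lf (nat_lit 0) (nat_lit 58535259872) (nat_lit 76) (nat_lit 95025698271) (nat_lit 76) (nat_lit 94870685422) (nat_lit 1) (nat_lit 4) (nat_lit 2) (nat_lit 5) (nat_lit 2) (nat_lit 4) (nat_lit 307) (nat_lit 207) (nat_lit 206)) (XT.lf (nat_lit 0) (nat_lit 66419533046)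 (nat_lit 76) (nat_lit 101046593571) (nat_lit 76) (nat_lit 100748050305) (nat_lit 1) (nat_lit 4) (nat_lit 2) (nat_lit 5) (nat_lit 2) (nat_lit 4) (nat_lit 308) (nat_lit 207) (nat_lit 205))) (XT.nd (nat_lit 78) (nat_lit 0) (nat_lit 0) (XT.lf (nat_lit 0) (nat_lit 74782607213) (nat_lit 76) (nat_lit 107616256881) (nat_lit 76) (nat_lit 107184815082) (nat_lit 1) (nat_lit 4) (nat_lit 2) (nat_lit 5) (nat_lit 2) (nat_lit 4) (nat_lit 309) (nat_lit 207) (nat_lit 204)) (XT.lf (nat_lit 0) (nat_lit 83674041331) (nat_lit 76) (nat_lit 114773619541) (nat_lit 76) (nat_lit 114219123544) (nat_lit 1) (nat_lit 4) (nat_lit 2) (nat_lit 5) (nat_lit 2) (nat_lit 4) (nat_lit 310) (nat_lit 207) (nat_lit 203)))) (XT.nd (nat_lit 156) (nat_lit 0) (nat_lit 0) (XT.nd (nat_lit 78) (nat_lit 0) (nat_lit 0) (XT.lf (nat_lit 0) (nat_lit 93146525379) (nat_lit 76) (nat_lit 122561095551) (nat_lit 76) (nat_lit 121892660482) (nat_lit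 1) (nat_lit 4) (nat_lit 2) (nat_lit 5) (nat_lit 2) (nat_lit 4) (nat_lit 311) (nat_lit 207) (nat_lit 202)) (XT.lf (nat_lit 0) (nat_lit 103256192597) (nat_lit 76) (nat_lit 131024832917) (nat_lit 76) (nat_lit 130250898708) (nat_lit 1) (nat_lit 4) (nat_lit 2) (nat_lit 5) (nat_lit 2) (nat_lit 4) (nat_lit 312) (nat_lit 207) (nat_lit 201))) (XT.nd (nat_lit 78) (nat_lit 0) (nat_lit 0) (XT.lf (nat_lit 0) (nat_lit 114062952124) (nat_lit 76) (nat_lit 140214987120) (nat_lit 76) (nat_lit 139343368521) (nat_lit 1) (nat_lit 4) (nat_lit 2) (nat_lit 5) (nat_lit 2) (nat_lit 4) (nat_lit 313) (nat_lit 207) (nat_lit 200)) (XT.nd (nat_lit 78) (nat_lit 0) (nat_lit 0) (XT.lf (nat_lit 0) (nat_lit 125630844015) (nat_lit 76) (nat_lit 150186018333) (nat_lit 76) (nat_lit 149223951226) (nat_lit 1) (nat_lit 4) (nat_lit 2) (nat_lit 5) (nat_lit 2) (nat_lit 4) (nat_lit 314) (nat_lit 207) (nat_lit 199)) (XT.lf (nat_lit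 0) (nat_lit 138028418742) (nat_lit 76) (nat_lit 160997014148) (nat_lit 76) (nat_lit 159951198422) (nat_lit 1) (nat_lit 4) (nat_lit 2) (nat_lit 5) (nat_lit 2) (nat_lit 4) (nat_lit 315) (nat_lit 207) (nat_lit 198)))))) (XT.nd (nat_lit 312) (nat_lit 0) (nat_lit 0) (XT.nd (nat_lit 156) (nat_lit 0) (nat_lit 0) (XT.nd (nat_lit 78) (nat_lit 0) (nat_lit 0) (XT.lf (nat_lit 0) (nat_lit 151329143414) (nat_lit 76) (nat_lit 172712039726) (nat_lit 76) (nat_lit 171588678982) (nat_lit 1) (nat_lit 4) (nat_lit 2) (nat_lit 5) (nat_lit 2) (nat_lit 4) (nat_lit 316) (nat_lit 207) (nat_lit 197)) (XT.lf (nat_lit 0) (nat_lit 165611837141) (nat_lit 76) (nat_lit 185400517441) (nat_lit 76) (nat_lit 184205355755) (nat_lit 1) (nat_lit 4) (nat_lit 2) (nat_lit 5) (nat_lit 2) (nat_lit 4) (nat_lit 317) (nat_lit 207) (nat_lit 196))) (XT.nd (nat_lit 78) (nat_lit 0) (nat_lit 0) (XT.lf (nat_lit 0) (nat_lit 180961138106) (nat_lit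 76) (nat_lit 199137638271) (nat_lit 76) (nat_lit 197875994231) (nat_lit 1) (nat_lit 4) (nat_lit 2) (nat_lit 5) (nat_lit 2) (nat_lit 4) (nat_lit 318) (nat_lit 207) (nat_lit 195)) (XT.lf (nat_lit 0) (nat_lit 197468005131) (nat_lit 76) (nat_lit 214004807378) (nat_lit 76) (nat_lit 212681605602) (nat_lit 1) (nat_lit 4) (nat_lit 2) (nat_lit 5) (nat_lit 2) (nat_lit 4) (nat_lit 319) (nat_lit 207) (nat_lit 194)))) (XT.nd (nat_lit 156) (nat_lit 0) (nat_lit 0) (XT.nd (nat_lit 78) (nat_lit 0) (nat_lit 0) (XT.lf (nat_lit 0) (nat_lit 215230256688) (nat_lit 76) (nat_lit 230090126503) (nat_lit 76) (nat_lit 228709926824) (nat_lit 1) (nat_lit 4) (nat_lit 2) (nat_lit 5) (nat_lit 2) (nat_lit 4) (nat_lit 320) (nat_lit 207) (nat_lit 193)) (XT.lf (nat_lit 0) (nat_lit 234353150562) (nat_lit 76) (nat_lit 247488916057) (nat_lit 76) (nat_lit 246055940542) (nat_lit 1) (nat_lit 4) (nat_lit 2) (nat_lit 5) (nat_lit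 2) (nat_lit 4) (nat_lit 321) (nat_lit 207) (nat_lit 192))) (XT.nd (nat_lit 78) (nat_lit 0) (nat_lit 0) (XT.lf (nat_lit 0) (nat_lit 254950007607) (nat_lit 76) (nat_lit 266304279977) (nat_lit 76) (nat_lit 264822437947) (nat_lit 1) (nat_lit 4) (nat_lit 2) (nat_lit 5) (nat_lit 2) (nat_lit 4) (nat_lit 322) (nat_lit 207) (nat_lit 191)) (XT.nd (nat_lit 78) (nat_lit 0) (nat_lit 0) (XT.lf (nat_lit 0) (nat_lit 277142883271) (nat_lit 76) (nat_lit 286647716717) (nat_lit 76) (nat_lit 285120627914) (nat_lit 1) (nat_lit 4) (nat_lit 2) (nat_lit 5) (nat_lit 2) (nat_lit 4) (nat_lit 323) (nat_lit 207) (nat_lit 190)) (XT.lf (nat_lit 0) (nat_lit 301063290893) (nat_lit 76) (nat_lit 308639779976) (nat_lit 76) (nat_lit 307070796012) (nat_lit 1) (nat_lit 4) (nat_lit 2) (nat_lit 5) (nat_lit 2) (nat_lit 4) (nat_lit 324) (nat_lit 207) (nat_lit 189))))))))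
noncomputable def xc3 : XT := (XT.nd (nat_lit 37206) (nat_lit 0) (nat_lit 0) (XT.nd (nat_lit 36504) (nat_lit 0) (nat_lit 0) (XT.nd (nat_lit 36114) (nat_lit 0) (nat_lit 0) (XT.nd (nat_lit 35958) (nat_lit 0) (nat_lit 0) (XT.nd (nat_lit 35880) (nat_lit 0) (nat_lit 0) (XT.lf (nat_lit 0) (nat_lit 326852981035) (nat_lit 76) (nat_lit 332410793091) (nat_lit 76) (nat_lit 330803017312) (nat_lit 1) (nat_lit 4) (nat_lit 2) (nat_lit 5) (nat_lit 2) (nat_lit 4) (nat_lit 325) (nat_lit 207) (nat_lit 188)) (XT.lf (nat_lit 0) (nat_lit 18696295417) (nat_lit 76) (nat_lit 40020307048) (nat_lit 76) (nat_lit 40020307048) (nat_lit 1) (nat_lit 4) (nat_lit 2) (nat_lit 5) (nat_lit 2) (nat_lit 4) (nat_lit 304) (nat_lit 208) (nat_lit 208))) (XT.nd (nat_lit 78) (nat_lit 0) (nat_lit 0) (XT.lf (nat_lit 0) (nat_lit 44018790497) (nat_lit 76) (nat_lit 84657948591) (nat_lit 76) (nat_lit 84490534713) (nat_lit 1) (nat_lit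 4) (nat_lit 2) (nat_lit 5) (nat_lit 2) (nat_lit 4) (nat_lit 305) (nat_lit 208) (nat_lit 207)) (XT.lf (nat_lit 0) (nat_lit 50997862312) (nat_lit 76) (nat_lit 89722931071) (nat_lit 76) (nat_lit 89400504344) (nat_lit 1) (nat_lit 4) (nat_lit 2) (nat_lit 5) (nat_lit 2) (nat_lit 4) (nat_lit 306) (nat_lit 208) (nat_lit 206)))) (XT.nd (nat_lit 156) (nat_lit 0) (nat_lit 0) (XT.nd (nat_lit 78) (nat_lit 0) (nat_lit 0) (XT.lf (nat_lit 0) (nat_lit 58371163742) (nat_lit 76) (nat_lit 95265576247) (nat_lit 76) (nat_lit 94799619104) (nat_lit 1) (nat_lit 4) (nat_lit 2) (nat_lit 5) (nat_lit 2) (nat_lit 4) (nat_lit 307) (nat_lit 208) (nat_lit 205)) (XT.lf (nat_lit 0) (nat_lit 66182388425) (nat_lit 76) (nat_lit 101318729425) (nat_lit 76) (nat_lit 100719873748) (nat_lit 1) (nat_lit 4) (nat_lit 2) (nat_lit 5) (nat_lit 2) (nat_lit 4) (nat_lit 308) (nat_lit 208) (nat_lit 204))) (XT.nd (nat_lit 78) (nat_lit 0)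 (nat_lit 0) (XT.lf (nat_lit 0) (nat_lit 74477825100) (nat_lit 76) (nat_lit 107918261141) (nat_lit 76) (nat_lit 107196351267) (nat_lit 1) (nat_lit 4) (nat_lit 2) (nat_lit 5) (nat_lit 2) (nat_lit 4) (nat_lit 309) (nat_lit 208) (nat_lit 203)) (XT.nd (nat_lit 78) (nat_lit 0) (nat_lit 0) (XT.lf (nat_lit 0) (nat_lit 83306631911) (nat_lit 76) (nat_lit 115103279732) (nat_lit 76) (nat_lit 114267430786) (nat_lit 1) (nat_lit 4) (nat_lit 2) (nat_lit 5) (nat_lit 2) (nat_lit 4) (nat_lit 310) (nat_lit 208) (nat_lit 202)) (XT.lf (nat_lit 0) (nat_lit 92721127712) (nat_lit 76) (nat_lit 122916363086) (nat_lit 76) (nat_lit 121975015000) (nat_lit 1) (nat_lit 4) (nat_lit 2) (nat_lit 5) (nat_lit 2) (nat_lit 4) (nat_lit 311) (nat_lit 208) (nat_lit 201)))))) (XT.nd (nat_lit 312) (nat_lit 0) (nat_lit 0) (XT.nd (nat_lit 156) (nat_lit 0) (nat_lit 0) (XT.nd (nat_lit 78) (nat_lit 0) (nat_lit 0) (XT.lf (nat_lit 0)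 (nat_lit 102777102108) (nat_lit 76) (nat_lit 131403810956) (nat_lit 76) (nat_lit 130364778480) (nat_lit 1) (nat_lit 4) (nat_lit 2) (nat_lit 5) (nat_lit 2) (nat_lit 4) (nat_lit 312) (nat_lit 208) (nat_lit 200)) (XT.lf (nat_lit 0) (nat_lit 113534146059) (nat_lit 76) (nat_lit 140615919329) (nat_lit 76) (nat_lit 139486438345) (nat_lit 1) (nat_lit 4) (nat_lit 2) (nat_lit 5) (nat_lit 2) (nat_lit 4) (nat_lit 313) (nat_lit 208) (nat_lit 199))) (XT.nd (nat_lit 78) (nat_lit 0) (nat_lit 0) (XT.lf (nat_lit 0) (nat_lit 125056005011) (nat_lit 76) (nat_lit 150607278477) (nat_lit 76) (nat_lit 149394048874) (nat_lit 1) (nat_lit 4) (nat_lit 2) (nat_lit 5) (nat_lit 2) (nat_lit 4) (nat_lit 314) (nat_lit 208) (nat_lit 198)) (XT.lf (nat_lit 0) (nat_lit 137410956645) (nat_lit 76) (nat_lit 161437096455) (nat_lit 76) (nat_lit 160146321833) (nat_lit 1) (nat_lit 4) (nat_lit 2) (nat_lit 5) (nat_lit 2) (nat_lit 4)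 (nat_lit 315) (nat_lit 208) (nat_lit 197)))) (XT.nd (nat_lit 156) (nat_lit 0) (nat_lit 0) (XT.nd (nat_lit 78) (nat_lit 0) (nat_lit 0) (XT.lf (nat_lit 0) (nat_lit 150672215490) (nat_lit 76) (nat_lit 173169549961) (nat_lit 76) (nat_lit 171806974397) (nat_lit 1) (nat_lit 4) (nat_lit 2) (nat_lit 5) (nat_lit 2) (nat_lit 4) (nat_lit 316) (nat_lit 208) (nat_lit 196)) (XT.lf (nat_lit 0) (nat_lit 164918366784) (nat_lit 76) (nat_lit 185874164646) (nat_lit 76) (nat_lit 184445106728) (nat_lit 1) (nat_lit 4) (nat_lit 2) (nat_lit 5) (nat_lit 2) (nat_lit 4) (nat_lit 317) (nat_lit 208) (nat_lit 195))) (XT.nd (nat_lit 78) (nat_lit 0) (nat_lit 0) (XT.lf (nat_lit 0) (nat_lit 180233832165) (nat_lit 76) (nat_lit 199626227116) (nat_lit 76) (nat_lit 198135611462) (nat_lit 1) (nat_lit 4) (nat_lit 2) (nat_lit 5) (nat_lit 2) (nat_lit 4) (nat_lit 318) (nat_lit 208) (nat_lit 194)) (XT.nd (nat_lit 78) (nat_lit 0)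 (nat_lit 0) (XT.lf (nat_lit 0) (nat_lit 196709369944) (nat_lit 76) (nat_lit 214507231073) (nat_lit 76) (nat_lit 212959617517) (nat_lit 1) (nat_lit 4) (nat_lit 2) (nat_lit 5) (nat_lit 2) (nat_lit 4) (nat_lit 319) (nat_lit 208) (nat_lit 193)) (XT.lf (nat_lit 0) (nat_lit 214442612940) (nat_lit 76) (nat_lit 230605360246) (nat_lit 76) (nat_lit 229004970853) (nat_lit 1) (nat_lit 4) (nat_lit 2) (nat_lit 5) (nat_lit 2) (nat_lit 4) (nat_lit 320) (nat_lit 208) (nat_lit 192))))))) (XT.nd (nat_lit 36348) (nat_lit 0) (nat_lit 0) (XT.nd (nat_lit 312) (nat_lit 0) (nat_lit 0) (XT.nd (nat_lit 156) (nat_lit 0) (nat_lit 0) (XT.nd (nat_lit 78) (nat_lit 0) (nat_lit 0) (XT.lf (nat_lit 0) (nat_lit 233538647035) (nat_lit 76) (nat_lit 248016010955) (nat_lit 76) (nat_lit 246366755047) (nat_lit 1) (nat_lit 4) (nat_lit 2) (nat_lit 5) (nat_lit 2) (nat_lit 4) (nat_lit 321) (nat_lit 208) (nat_lit 191)) (XT.lf (nat_lit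 0) (nat_lit 254110633915) (nat_lit 76) (nat_lit 266842357426) (nat_lit 76) (nat_lit 265147854745) (nat_lit 1) (nat_lit 4) (nat_lit 2) (nat_lit 5) (nat_lit 2) (nat_lit 4) (nat_lit 322) (nat_lit 208) (nat_lit 190))) (XT.nd (nat_lit 78) (nat_lit 0) (nat_lit 0) (XT.lf (nat_lit 0) (nat_lit 276280481649) (nat_lit 76) (nat_lit 287195963194) (nat_lit 76) (nat_lit 285459565354) (nat_lit 1) (nat_lit 4) (nat_lit 2) (nat_lit 5) (nat_lit 2) (nat_lit 4) (nat_lit 323) (nat_lit 208) (nat_lit 189)) (XT.lf (nat_lit 0) (nat_lit 300179567112) (nat_lit 76) (nat_lit 309197442220) (nat_lit 76) (nat_lit 307422252565) (nat_lit 1) (nat_lit 4) (nat_lit 2) (nat_lit 5) (nat_lit 2) (nat_lit 4) (nat_lit 324) (nat_lit 208) (nat_lit 188)))) (XT.nd (nat_lit 35802) (nat_lit 0) (nat_lit 0) (XT.nd (nat_lit 35724) (nat_lit 0) (nat_lit 0) (XT.lf (nat_lit 0) (nat_lit 325949514515) (nat_lit 76) (nat_lit 332977173638) (nat_lit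 76) (nat_lit 331166065635) (nat_lit 1) (nat_lit 4) (nat_lit 2) (nat_lit 5) (nat_lit 2) (nat_lit 4) (nat_lit 325) (nat_lit 208) (nat_lit 187)) (XT.lf (nat_lit 0) (nat_lit 12571491281) (nat_lit 76) (nat_lit 36089426110) (nat_lit 76) (nat_lit 36089426110) (nat_lit 1) (nat_lit 4) (nat_lit 2) (nat_lit 5) (nat_lit 2) (nat_lit 4) (nat_lit 302) (nat_lit 209) (nat_lit 209))) (XT.nd (nat_lit 78) (nat_lit 0) (nat_lit 0) (XT.lf (nat_lit 0) (nat_lit 31079996956) (nat_lit 76) (nat_lit 76024372593) (nat_lit 76) (nat_lit 75843565606) (nat_lit 1) (nat_lit 4) (nat_lit 2) (nat_lit 5) (nat_lit 2) (nat_lit 4) (nat_lit 303) (nat_lit 209) (nat_lit 208)) (XT.nd (nat_lit 78) (nat_lit 0) (nat_lit 0) (XT.lf (nat_lit 0) (nat_lit 37300570773) (nat_lit 76) (nat_lit 80262056721) (nat_lit 76) (nat_lit 79913835856) (nat_lit 1) (nat_lit 4) (nat_lit 2) (nat_lit 5) (nat_lit 2) (nat_lit 4) (nat_lit 304) (nat_lit 209) (nat_lit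 207)) (XT.lf (nat_lit 0) (nat_lit 43841566676) (nat_lit 76) (nat_lit 84917016804) (nat_lit 76) (nat_lit 84413783090) (nat_lit 1) (nat_lit 4) (nat_lit 2) (nat_lit 5) (nat_lit 2) (nat_lit 4) (nat_lit 305) (nat_lit 209) (nat_lit 206)))))) (XT.nd (nat_lit 390) (nat_lit 0) (nat_lit 0) (XT.nd (nat_lit 156) (nat_lit 0) (nat_lit 0) (XT.nd (nat_lit 78) (nat_lit 0) (nat_lit 0) (XT.lf (nat_lit 0) (nat_lit 50741746121) (nat_lit 76) (nat_lit 90016837793) (nat_lit 76) (nat_lit 89370073663) (nat_lit 1) (nat_lit 4) (nat_lit 2) (nat_lit 5) (nat_lit 2) (nat_lit 4) (nat_lit 306) (nat_lit 209) (nat_lit 205)) (XT.lf (nat_lit 0) (nat_lit 58041999060) (nat_lit 76) (nat_lit 95591740848) (nat_lit 76) (nat_lit 94812078184) (nat_lit 1) (nat_lit 4) (nat_lit 2) (nat_lit 5) (nat_lit 2) (nat_lit 4) (nat_lit 307) (nat_lit 209) (nat_lit 204))) (XT.nd (nat_lit 78) (nat_lit 0) (nat_lit 0) (XT.lf (nat_lit 0) (nat_lit 65785586252)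 (nat_lit 76) (nat_lit 101674762431) (nat_lit 76) (nat_lit 100772045570) (nat_lit 1) (nat_lit 4) (nat_lit 2) (nat_lit 5) (nat_lit 2) (nat_lit 4) (nat_lit 308) (nat_lit 209) (nat_lit 203)) (XT.nd (nat_lit 78) (nat_lit 0) (nat_lit 0) (XT.lf (nat_lit 0) (nat_lit 74018395620) (nat_lit 76) (nat_lit 108301950079) (nat_lit 76) (nat_lit 107285294146) (nat_lit 1) (nat_lit 4) (nat_lit 2) (nat_lit 5) (nat_lit 2) (nat_lit 4) (nat_lit 309) (nat_lit 209) (nat_lit 202)) (XT.lf (nat_lit 0) (nat_lit 82789214183) (nat_lit 76) (nat_lit 115512576014) (nat_lit 76) (nat_lit 114390420941) (nat_lit 1) (nat_lit 4) (nat_lit 2) (nat_lit 5) (nat_lit 2) (nat_lit 4) (nat_lit 310) (nat_lit 209) (nat_lit 201))))) (XT.nd (nat_lit 156) (nat_lit 0) (nat_lit 0) (XT.nd (nat_lit 78) (nat_lit 0) (nat_lit 0) (XT.lf (nat_lit 0) (nat_lit 92150017163) (nat_lit 76) (nat_lit 123349369872) (nat_lit 76) (nat_lit 122129530409) (nat_lit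 1) (nat_lit 4) (nat_lit 2) (nat_lit 5) (nat_lit 2) (nat_lit 4) (nat_lit 311) (nat_lit 209) (nat_lit 200)) (XT.lf (nat_lit 0) (nat_lit 102156275984) (nat_lit 76) (nat_lit 131858771912) (nat_lit 76) (nat_lit 130548483940) (nat_lit 1) (nat_lit 4) (nat_lit 2) (nat_lit 5) (nat_lit 2) (nat_lit 4) (nat_lit 312) (nat_lit 209) (nat_lit 199))) (XT.nd (nat_lit 78) (nat_lit 0) (nat_lit 0) (XT.lf (nat_lit 0) (nat_lit 112867286994) (nat_lit 76) (nat_lit 141091208220) (nat_lit 76) (nat_lit 139697171629) (nat_lit 1) (nat_lit 4) (nat_lit 2) (nat_lit 5) (nat_lit 2) (nat_lit 4) (nat_lit 313) (nat_lit 209) (nat_lit 198)) (XT.nd (nat_lit 78) (nat_lit 0) (nat_lit 0) (XT.lf (nat_lit 0) (nat_lit 124346522853) (nat_lit 76) (nat_lit 151101389531) (nat_lit 76) (nat_lit 149629807922) (nat_lit 1) (nat_lit 4) (nat_lit 2) (nat_lit 5) (nat_lit 2) (nat_lit 4) (nat_lit 314) (nat_lit 209) (nat_lit 197)) (XT.lf (nat_lit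 0) (nat_lit 136662008660) (nat_lit 76) (nat_lit 161948635437) (nat_lit 76) (nat_lit 160405252885) (nat_lit 1) (nat_lit 4) (nat_lit 2) (nat_lit 5) (nat_lit 2) (nat_lit 4) (nat_lit 315) (nat_lit 209) (nat_lit 196))))))))
noncomputable def xc4 : XT := (XT.nd (nat_lit 36894) (nat_lit 0) (nat_lit 0) (XT.nd (nat_lit 702) (nat_lit 0) (nat_lit 0) (XT.nd (nat_lit 312) (nat_lit 0) (nat_lit 0) (XT.nd (nat_lit 156) (nat_lit 0) (nat_lit 0) (XT.nd (nat_lit 78) (nat_lit 0) (nat_lit 0) (XT.lf (nat_lit 0) (nat_lit 149886725073) (nat_lit 76) (nat_lit 173697225913) (nat_lit 76) (nat_lit 172087361008) (nat_lit 1) (nat_lit 4) (nat_lit 2) (nat_lit 5) (nat_lit 2) (nat_lit 4) (nat_lit 316) (nat_lit 209) (nat_lit 195)) (XT.lf (nat_lit 0) (nat_lit 164099040782) (nat_lit 76) (nat_lit 186416782237) (nat_lit 76) (nat_lit 184745359597) (nat_lit 1) (nat_lit 4) (nat_lit 2) (nat_lit 5) (nat_lit 2) (nat_lit 4) (nat_lit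 317) (nat_lit 209) (nat_lit 194))) (XT.nd (nat_lit 78) (nat_lit 0) (nat_lit 0) (XT.lf (nat_lit 0) (nat_lit 179383176917) (nat_lit 76) (nat_lit 200182679558) (nat_lit 76) (nat_lit 198454259014) (nat_lit 1) (nat_lit 4) (nat_lit 2) (nat_lit 5) (nat_lit 2) (nat_lit 4) (nat_lit 318) (nat_lit 209) (nat_lit 193)) (XT.lf (nat_lit 0) (nat_lit 195829706135) (nat_lit 76) (nat_lit 215076493563) (nat_lit 76) (nat_lit 213295297183) (nat_lit 1) (nat_lit 4) (nat_lit 2) (nat_lit 5) (nat_lit 2) (nat_lit 4) (nat_lit 319) (nat_lit 209) (nat_lit 192)))) (XT.nd (nat_lit 156) (nat_lit 0) (nat_lit 0) (XT.nd (nat_lit 78) (nat_lit 0) (nat_lit 0) (XT.lf (nat_lit 0) (nat_lit 213536089352) (nat_lit 76) (nat_lit 231186483890) (nat_lit 76) (nat_lit 229356420996) (nat_lit 1) (nat_lit 4) (nat_lit 2) (nat_lit 5) (nat_lit 2) (nat_lit 4) (nat_lit 320) (nat_lit 209) (nat_lit 191)) (XT.lf (nat_lit 0) (nat_lit 232607253283)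 (nat_lit 76) (nat_lit 248608117150) (nat_lit 76) (nat_lit 246732807482) (nat_lit 1) (nat_lit 4) (nat_lit 2) (nat_lit 5) (nat_lit 2) (nat_lit 4) (nat_lit 321) (nat_lit 209) (nat_lit 190))) (XT.nd (nat_lit 78) (nat_lit 0) (nat_lit 0) (XT.lf (nat_lit 0) (nat_lit 253156212232) (nat_lit 76) (nat_lit 267444632650) (nat_lit 76) (nat_lit 265527427822) (nat_lit 1) (nat_lit 4) (nat_lit 2) (nat_lit 5) (nat_lit 2) (nat_lit 4) (nat_lit 322) (nat_lit 209) (nat_lit 189)) (XT.nd (nat_lit 78) (nat_lit 0) (nat_lit 0) (XT.lf (nat_lit 0) (nat_lit 275304737807) (nat_lit 76) (nat_lit 287807654186) (nat_lit 76) (nat_lit 285851657543) (nat_lit 1) (nat_lit 4) (nat_lit 2) (nat_lit 5) (nat_lit 2) (nat_lit 4) (nat_lit 323) (nat_lit 209) (nat_lit 188)) (XT.lf (nat_lit 0) (nat_lit 299184080532) (nat_lit 76) (nat_lit 309817851515) (nat_lit 76) (nat_lit 307825936524) (nat_lit 1) (nat_lit 4) (nat_lit 2) (nat_lit 5) (nat_lit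 2) (nat_lit 4) (nat_lit 324) (nat_lit 209) (nat_lit 187)))))) (XT.nd (nat_lit 35802) (nat_lit 0) (nat_lit 0) (XT.nd (nat_lit 35646) (nat_lit 0) (nat_lit 0) (XT.nd (nat_lit 35568) (nat_lit 0) (nat_lit 0) (XT.lf (nat_lit 0) (nat_lit 324935747621) (nat_lit 76) (nat_lit 333605655436) (nat_lit 76) (nat_lit 331580482716) (nat_lit 1) (nat_lit 4) (nat_lit 2) (nat_lit 5) (nat_lit 2) (nat_lit 4) (nat_lit 325) (nat_lit 209) (nat_lit 186)) (XT.lf (nat_lit 0) (nat_lit 7043853443) (nat_lit 76) (nat_lit 32861606346) (nat_lit 76) (nat_lit 32861606346) (nat_lit 1) (nat_lit 4) (nat_lit 2) (nat_lit 5) (nat_lit 2) (nat_lit 4) (nat_lit 300) (nat_lit 210) (nat_lit 210))) (XT.nd (nat_lit 78) (nat_lit 0) (nat_lit 0) (XT.lf (nat_lit 0) (nat_lit 19454345288) (nat_lit 76) (nat_lit 68897978878) (nat_lit 76) (nat_lit 68702707332) (nat_lit 1) (nat_lit 4) (nat_lit 2) (nat_lit 5) (nat_lit 2) (nat_lit 4) (nat_lit 301)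 (nat_lit 210) (nat_lit 209)) (XT.lf (nat_lit 0) (nat_lit 25043600898) (nat_lit 76) (nat_lit 72418010254) (nat_lit 76) (nat_lit 72041931720) (nat_lit 1) (nat_lit 4) (nat_lit 2) (nat_lit 5) (nat_lit 2) (nat_lit 4) (nat_lit 302) (nat_lit 210) (nat_lit 208)))) (XT.nd (nat_lit 156) (nat_lit 0) (nat_lit 0) (XT.nd (nat_lit 78) (nat_lit 0) (nat_lit 0) (XT.lf (nat_lit 0) (nat_lit 30888595230) (nat_lit 76) (nat_lit 76304166264) (nat_lit 76) (nat_lit 75760673853) (nat_lit 1) (nat_lit 4) (nat_lit 2) (nat_lit 5) (nat_lit 2) (nat_lit 4) (nat_lit 303) (nat_lit 210) (nat_lit 207)) (XT.lf (nat_lit 0) (nat_lit 37023965287) (nat_lit 76) (nat_lit 80579475981) (nat_lit 76) (nat_lit 79880970720) (nat_lit 1) (nat_lit 4) (nat_lit 2) (nat_lit 5) (nat_lit 2) (nat_lit 4) (nat_lit 304) (nat_lit 210) (nat_lit 206))) (XT.nd (nat_lit 78) (nat_lit 0) (nat_lit 0) (XT.lf (nat_lit 0) (nat_lit 43486068820) (nat_lit 76)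 (nat_lit 85269274573) (nat_lit 76) (nat_lit 84427238896) (nat_lit 1) (nat_lit 4) (nat_lit 2) (nat_lit 5) (nat_lit 2) (nat_lit 4) (nat_lit 305) (nat_lit 210) (nat_lit 205)) (XT.nd (nat_lit 78) (nat_lit 0) (nat_lit 0) (XT.lf (nat_lit 0) (nat_lit 50313199774) (nat_lit 76) (nat_lit 90401353440) (nat_lit 76) (nat_lit 89426419230) (nat_lit 1) (nat_lit 4) (nat_lit 2) (nat_lit 5) (nat_lit 2) (nat_lit 4) (nat_lit 306) (nat_lit 210) (nat_lit 204)) (XT.lf (nat_lit 0) (nat_lit 57545815221) (nat_lit 76) (nat_lit 96006124901) (nat_lit 76) (nat_lit 94908136493) (nat_lit 1) (nat_lit 4) (nat_lit 2) (nat_lit 5) (nat_lit 2) (nat_lit 4) (nat_lit 307) (nat_lit 210) (nat_lit 203))))))) (XT.nd (nat_lit 702) (nat_lit 0) (nat_lit 0) (XT.nd (nat_lit 312) (nat_lit 0) (nat_lit 0) (XT.nd (nat_lit 156) (nat_lit 0) (nat_lit 0) (XT.nd (nat_lit 78) (nat_lit 0) (nat_lit 0) (XT.lf (nat_lit 0) (nat_lit 65226775106) (nat_lit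 76) (nat_lit 102116802416) (nat_lit 76) (nat_lit 100904874937) (nat_lit 1) (nat_lit 4) (nat_lit 2) (nat_lit 5) (nat_lit 2) (nat_lit 4) (nat_lit 308) (nat_lit 210) (nat_lit 202)) (XT.lf (nat_lit 0) (nat_lit 73401596227) (nat_lit 76) (nat_lit 108769597408) (nat_lit 76) (nat_lit 107452170788) (nat_lit 1) (nat_lit 4) (nat_lit 2) (nat_lit 5) (nat_lit 2) (nat_lit 4) (nat_lit 309) (nat_lit 210) (nat_lit 201))) (XT.nd (nat_lit 78) (nat_lit 0) (nat_lit 0) (XT.lf (nat_lit 0) (nat_lit 82118721968) (nat_lit 76) (nat_lit 116003933847) (nat_lit 76) (nat_lit 114588822837) (nat_lit 1) (nat_lit 4) (nat_lit 2) (nat_lit 5) (nat_lit 2) (nat_lit 4) (nat_lit 310) (nat_lit 210) (nat_lit 200)) (XT.lf (nat_lit 0) (nat_lit 91429809372) (nat_lit 76) (nat_lit 123862681874) (nat_lit 76) (nat_lit 122357122356) (nat_lit 1) (nat_lit 4) (nat_lit 2) (nat_lit 5) (nat_lit 2) (nat_lit 4) (nat_lit 311) (nat_lit 210) (nat_lit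 199)))) (XT.nd (nat_lit 156) (nat_lit 0) (nat_lit 0) (XT.nd (nat_lit 78) (nat_lit 0) (nat_lit 0) (XT.lf (nat_lit 0) (nat_lit 101390035253) (nat_lit 76) (nat_lit 132392411850) (nat_lit 76) (nat_lit 130803103712) (nat_lit 1) (nat_lit 4) (nat_lit 2) (nat_lit 5) (nat_lit 2) (nat_lit 4) (nat_lit 312) (nat_lit 210) (nat_lit 198)) (XT.lf (nat_lit 0) (nat_lit 112058423171) (nat_lit 76) (nat_lit 141643670320) (nat_lit 76) (nat_lit 139976817165) (nat_lit 1) (nat_lit 4) (nat_lit 2) (nat_lit 5) (nat_lit 2) (nat_lit 4) (nat_lit 313) (nat_lit 210) (nat_lit 197))) (XT.nd (nat_lit 78) (nat_lit 0) (nat_lit 0) (XT.lf (nat_lit 0) (nat_lit 123498193203) (nat_lit 76) (nat_lit 151671279559) (nat_lit 76) (nat_lit 149932625461) (nat_lit 1) (nat_lit 4) (nat_lit 2) (nat_lit 5) (nat_lit 2) (nat_lit 4) (nat_lit 314) (nat_lit 210) (nat_lit 196)) (XT.nd (nat_lit 78) (nat_lit 0) (nat_lit 0) (XT.lf (nat_lit 0) (nat_lit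 135777136578) (nat_lit 76) (nat_lit 162534662435) (nat_lit 76) (nat_lit 160729525983) (nat_lit 1) (nat_lit 4) (nat_lit 2) (nat_lit 5) (nat_lit 2) (nat_lit 4) (nat_lit 315) (nat_lit 210) (nat_lit 195)) (XT.lf (nat_lit 0) (nat_lit 148968017406) (nat_lit 76) (nat_lit 174298194551) (nat_lit 76) (nat_lit 172431500363) (nat_lit 1) (nat_lit 4) (nat_lit 2) (nat_lit 5) (nat_lit 2) (nat_lit 4) (nat_lit 316) (nat_lit 210) (nat_lit 194)))))) (XT.nd (nat_lit 312) (nat_lit 0) (nat_lit 0) (XT.nd (nat_lit 156) (nat_lit 0) (nat_lit 0) (XT.nd (nat_lit 78) (nat_lit 0) (nat_lit 0) (XT.lf (nat_lit 0) (nat_lit 163149003869) (nat_lit 76) (nat_lit 187031585726) (nat_lit 76) (nat_lit 185107893636) (nat_lit 1) (nat_lit 4) (nat_lit 2) (nat_lit 5) (nat_lit 2) (nat_lit 4) (nat_lit 317) (nat_lit 210) (nat_lit 193)) (XT.lf (nat_lit 0) (nat_lit 178404131443) (nat_lit 76) (nat_lit 200810293094) (nat_lit 76) (nat_lit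 198833825168) (nat_lit 1) (nat_lit 4) (nat_lit 2) (nat_lit 5) (nat_lit 2) (nat_lit 4) (nat_lit 318) (nat_lit 210) (nat_lit 192))) (XT.nd (nat_lit 78) (nat_lit 0) (nat_lit 0) (XT.lf (nat_lit 0) (nat_lit 194823800883) (nat_lit 76) (nat_lit 215715968254) (nat_lit 76) (nat_lit 213690633813) (nat_lit 1) (nat_lit 4) (nat_lit 2) (nat_lit 5) (nat_lit 2) (nat_lit 4) (nat_lit 319) (nat_lit 210) (nat_lit 191)) (XT.lf (nat_lit 0) (nat_lit 212505313934) (nat_lit 76) (nat_lit 231836941133) (nat_lit 76) (nat_lit 229766359918) (nat_lit 1) (nat_lit 4) (nat_lit 2) (nat_lit 5) (nat_lit 2) (nat_lit 4) (nat_lit 320) (nat_lit 210) (nat_lit 190)))) (XT.nd (nat_lit 156) (nat_lit 0) (nat_lit 0) (XT.nd (nat_lit 78) (nat_lit 0) (nat_lit 0) (XT.lf (nat_lit 0) (nat_lit 231553449934) (nat_lit 76) (nat_lit 249268743421) (nat_lit 76) (nat_lit 247156267046) (nat_lit 1) (nat_lit 4) (nat_lit 2) (nat_lit 5) (nat_lit 2)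 (nat_lit 4) (nat_lit 321) (nat_lit 210) (nat_lit 189)) (XT.lf (nat_lit 0) (nat_lit 252081086725) (nat_lit 76) (nat_lit 268114674688) (nat_lit 76) (nat_lit 265963406498) (nat_lit 1) (nat_lit 4) (nat_lit 2) (nat_lit 5) (nat_lit 2) (nat_lit 4) (nat_lit 322) (nat_lit 210) (nat_lit 188))) (XT.nd (nat_lit 78) (nat_lit 0) (nat_lit 0) (XT.lf (nat_lit 0) (nat_lit 274209869561) (nat_lit 76) (nat_lit 288486414527) (nat_lit 76) (nat_lit 286299227990) (nat_lit 1) (nat_lit 4) (nat_lit 2) (nat_lit 5) (nat_lit 2) (nat_lit 4) (nat_lit 323) (nat_lit 210) (nat_lit 187)) (XT.nd (nat_lit 78) (nat_lit 0) (nat_lit 0) (XT.lf (nat_lit 0) (nat_lit 298070931972) (nat_lit 76) (nat_lit 310504684358) (nat_lit 76) (nat_lit 308284240092) (nat_lit 1) (nat_lit 4) (nat_lit 2) (nat_lit 5) (nat_lit 2) (nat_lit 4) (nat_lit 324) (nat_lit 210) (nat_lit 186)) (XT.lf (nat_lit 0) (nat_lit 323805672844) (nat_lit 76) (nat_lit 334299962819)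 (nat_lit 76) (nat_lit 332048724359) (nat_lit 1) (nat_lit 4) (nat_lit 2) (nat_lit 5) (nat_lit 2) (nat_lit 4) (nat_lit 325) (nat_lit 210) (nat_lit 185))))))))
noncomputable def xc5 : XT := (XT.nd (nat_lit 1404) (nat_lit 0) (nat_lit 0) (XT.nd (nat_lit 702) (nat_lit 0) (nat_lit 0) (XT.nd (nat_lit 312) (nat_lit 0) (nat_lit 0) (XT.nd (nat_lit 156) (nat_lit 0) (nat_lit 0) (XT.nd (nat_lit 78) (nat_lit 0) (nat_lit 0) (XT.lf (nat_lit 0) (nat_lit 2006061015) (nat_lit 76) (nat_lit 30247930384) (nat_lit 76) (nat_lit 30247930384) (nat_lit 1) (nat_lit 4) (nat_lit 2) (nat_lit 5) (nat_lit 2) (nat_lit 4) (nat_lit 298) (nat_lit 211) (nat_lit 211)) (XT.lf (nat_lit 0) (nat_lit 8911883392) (nat_lit 76) (nat_lit 63085791535) (nat_lit 76) (nat_lit 62874898265) (nat_lit 1) (nat_lit 4) (nat_lit 2) (nat_lit 5) (nat_lit 2) (nat_lit 4) (nat_lit 299) (nat_lit 211) (nat_lit 210))) (XT.nd (nat_lit 78) (nat_lit 0) (nat_lit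 0) (XT.lf (nat_lit 0) (nat_lit 13980374688) (nat_lit 76) (nat_lit 65981503368) (nat_lit 76) (nat_lit 65575338552) (nat_lit 1) (nat_lit 4) (nat_lit 2) (nat_lit 5) (nat_lit 2) (nat_lit 4) (nat_lit 300) (nat_lit 211) (nat_lit 209)) (XT.lf (nat_lit 0) (nat_lit 19247631424) (nat_lit 76) (nat_lit 69200156043) (nat_lit 76) (nat_lit 68613184238) (nat_lit 1) (nat_lit 4) (nat_lit 2) (nat_lit 5) (nat_lit 2) (nat_lit 4) (nat_lit 301) (nat_lit 211) (nat_lit 208)))) (XT.nd (nat_lit 156) (nat_lit 0) (nat_lit 0) (XT.nd (nat_lit 78) (nat_lit 0) (nat_lit 0) (XT.lf (nat_lit 0) (nat_lit 24744866973) (nat_lit 76) (nat_lit 72760823055) (nat_lit 76) (nat_lit 72006437373) (nat_lit 1) (nat_lit 4) (nat_lit 2) (nat_lit 5) (nat_lit 2) (nat_lit 4) (nat_lit 302) (nat_lit 211) (nat_lit 207)) (XT.lf (nat_lit 0) (nat_lit 30504657545) (nat_lit 76) (nat_lit 76684604654) (nat_lit 76) (nat_lit 75775206123) (nat_lit 1) (nat_lit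 4) (nat_lit 2) (nat_lit 5) (nat_lit 2) (nat_lit 4) (nat_lit 303) (nat_lit 211) (nat_lit 206))) (XT.nd (nat_lit 78) (nat_lit 0) (nat_lit 0) (XT.lf (nat_lit 0) (nat_lit 36561135232) (nat_lit 76) (nat_lit 80994752880) (nat_lit 76) (nat_lit 79941823933) (nat_lit 1) (nat_lit 4) (nat_lit 2) (nat_lit 5) (nat_lit 2) (nat_lit 4) (nat_lit 304) (nat_lit 211) (nat_lit 205)) (XT.nd (nat_lit 78) (nat_lit 0) (nat_lit 0) (XT.lf (nat_lit 0) (nat_lit 42950190274) (nat_lit 76) (nat_lit 85716809351) (nat_lit 76) (nat_lit 84530981870) (nat_lit 1) (nat_lit 4) (nat_lit 2) (nat_lit 5) (nat_lit 2) (nat_lit 4) (nat_lit 305) (nat_lit 211) (nat_lit 204)) (XT.lf (nat_lit 0) (nat_lit 49709683736) (nat_lit 76) (nat_lit 90878756624) (nat_lit 76) (nat_lit 89569874946) (nat_lit 1) (nat_lit 4) (nat_lit 2) (nat_lit 5) (nat_lit 2) (nat_lit 4) (nat_lit 306) (nat_lit 211) (nat_lit 203)))))) (XT.nd (nat_lit 312) (nat_lit 0)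 (nat_lit 0) (XT.nd (nat_lit 156) (nat_lit 0) (nat_lit 0) (XT.nd (nat_lit 78) (nat_lit 0) (nat_lit 0) (XT.lf (nat_lit 0) (nat_lit 56879671876) (nat_lit 76) (nat_lit 96511184016) (nat_lit 76) (nat_lit 95088363266) (nat_lit 1) (nat_lit 4) (nat_lit 2) (nat_lit 5) (nat_lit 2) (nat_lit 4) (nat_lit 307) (nat_lit 211) (nat_lit 202)) (XT.lf (nat_lit 0) (nat_lit 64502643514) (nat_lit 76) (nat_lit 102647468875) (nat_lit 76) (nat_lit 101119148985) (nat_lit 1) (nat_lit 4) (nat_lit 2) (nat_lit 5) (nat_lit 2) (nat_lit 4) (nat_lit 308) (nat_lit 211) (nat_lit 201))) (XT.nd (nat_lit 78) (nat_lit 0) (nat_lit 0) (XT.lf (nat_lit 0) (nat_lit 72623771813) (nat_lit 76) (nat_lit 109323974371) (nat_lit 76) (nat_lit 107697970091) (nat_lit 1) (nat_lit 4) (nat_lit 2) (nat_lit 5) (nat_lit 2) (nat_lit 4) (nat_lit 309) (nat_lit 211) (nat_lit 200)) (XT.lf (nat_lit 0) (nat_lit 81291181979) (nat_lit 76) (nat_lit 116580264980)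 (nat_lit 76) (nat_lit 114863812191) (nat_lit 1) (nat_lit 4) (nat_lit 2) (nat_lit 5) (nat_lit 2) (nat_lit 4) (nat_lit 310) (nat_lit 211) (nat_lit 199)))) (XT.nd (nat_lit 156) (nat_lit 0) (nat_lit 0) (XT.nd (nat_lit 78) (nat_lit 0) (nat_lit 0) (XT.lf (nat_lit 0) (nat_lit 90556236443) (nat_lit 76) (nat_lit 124459340943) (nat_lit 76) (nat_lit 122659139534) (nat_lit 1) (nat_lit 4) (nat_lit 2) (nat_lit 5) (nat_lit 2) (nat_lit 4) (nat_lit 311) (nat_lit 211) (nat_lit 198)) (XT.lf (nat_lit 0) (nat_lit 100473839231) (nat_lit 76) (nat_lit 133007893080) (nat_lit 76) (nat_lit 131130146654) (nat_lit 1) (nat_lit 4) (nat_lit 2) (nat_lit 5) (nat_lit 2) (nat_lit 4) (nat_lit 312) (nat_lit 211) (nat_lit 197))) (XT.nd (nat_lit 78) (nat_lit 0) (nat_lit 0) (XT.lf (nat_lit 0) (nat_lit 111102761322) (nat_lit 76) (nat_lit 142276579479) (nat_lit 76) (nat_lit 140327032110) (nat_lit 1) (nat_lit 4) (nat_lit 2) (nat_lit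 5) (nat_lit 2) (nat_lit 4) (nat_lit 313) (nat_lit 211) (nat_lit 196)) (XT.nd (nat_lit 78) (nat_lit 0) (nat_lit 0) (XT.lf (nat_lit 0) (nat_lit 122505988921) (nat_lit 76) (nat_lit 152320325688) (nat_lit 76) (nat_lit 150304295965) (nat_lit 1) (nat_lit 4) (nat_lit 2) (nat_lit 5) (nat_lit 2) (nat_lit 4) (nat_lit 314) (nat_lit 211) (nat_lit 195)) (XT.lf (nat_lit 0) (nat_lit 134751096711) (nat_lit 76) (nat_lit 163198650203) (nat_lit 76) (nat_lit 161121062745) (nat_lit 1) (nat_lit 4) (nat_lit 2) (nat_lit 5) (nat_lit 2) (nat_lit 4) (nat_lit 315) (nat_lit 211) (nat_lit 194))))))) (XT.nd (nat_lit 702) (nat_lit 0) (nat_lit 0) (XT.nd (nat_lit 312) (nat_lit 0) (nat_lit 0) (XT.nd (nat_lit 156) (nat_lit 0) (nat_lit 0) (XT.nd (nat_lit 78) (nat_lit 0) (nat_lit 0) (XT.lf (nat_lit 0) (nat_lit 147910648294) (nat_lit 76) (nat_lit 174976017170) (nat_lit 76) (nat_lit 172841431809) (nat_lit 1) (nat_lit 4) (nat_lit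 2) (nat_lit 5) (nat_lit 2) (nat_lit 4) (nat_lit 316) (nat_lit 211) (nat_lit 193)) (XT.lf (nat_lit 0) (nat_lit 162062626196) (nat_lit 76) (nat_lit 187722218393) (nat_lit 76) (nat_lit 185534857196) (nat_lit 1) (nat_lit 4) (nat_lit 2) (nat_lit 5) (nat_lit 2) (nat_lit 4) (nat_lit 317) (nat_lit 211) (nat_lit 192))) (XT.nd (nat_lit 78) (nat_lit 0) (nat_lit 0) (XT.lf (nat_lit 0) (nat_lit 177290893991) (nat_lit 76) (nat_lit 201512786916) (nat_lit 76) (nat_lit 199276559204) (nat_lit 1) (nat_lit 4) (nat_lit 2) (nat_lit 5) (nat_lit 2) (nat_lit 4) (nat_lit 318) (nat_lit 211) (nat_lit 191)) (XT.lf (nat_lit 0) (nat_lit 193685693266) (nat_lit 76) (nat_lit 216429444626) (nat_lit 76) (nat_lit 214147970142) (nat_lit 1) (nat_lit 4) (nat_lit 2) (nat_lit 5) (nat_lit 2) (nat_lit 4) (nat_lit 319) (nat_lit 211) (nat_lit 190)))) (XT.nd (nat_lit 156) (nat_lit 0) (nat_lit 0) (XT.nd (nat_lit 78) (nat_lit 0) (nat_lit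 0) (XT.lf (nat_lit 0) (nat_lit 211344178387) (nat_lit 76) (nat_lit 232560586533) (nat_lit 76) (nat_lit 230237216889) (nat_lit 1) (nat_lit 4) (nat_lit 2) (nat_lit 5) (nat_lit 2) (nat_lit 4) (nat_lit 320) (nat_lit 211) (nat_lit 189)) (XT.lf (nat_lit 0) (nat_lit 230370992228) (nat_lit 76) (nat_lit 250001804589) (nat_lit 76) (nat_lit 247639643129) (nat_lit 1) (nat_lit 4) (nat_lit 2) (nat_lit 5) (nat_lit 2) (nat_lit 4) (nat_lit 321) (nat_lit 211) (nat_lit 188))) (XT.nd (nat_lit 78) (nat_lit 0) (nat_lit 0) (XT.lf (nat_lit 0) (nat_lit 250878886280) (nat_lit 76) (nat_lit 268856454159) (nat_lit 76) (nat_lit 266458374352) (nat_lit 1) (nat_lit 4) (nat_lit 2) (nat_lit 5) (nat_lit 2) (nat_lit 4) (nat_lit 322) (nat_lit 211) (nat_lit 187)) (XT.nd (nat_lit 78) (nat_lit 0) (nat_lit 0) (XT.lf (nat_lit 0) (nat_lit 272989388802) (nat_lit 76) (nat_lit 289236266501) (nat_lit 76) (nat_lit 286804928964) (nat_lit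 1) (nat_lit 4) (nat_lit 2) (nat_lit 5) (nat_lit 2) (nat_lit 4) (nat_lit 323) (nat_lit 211) (nat_lit 186)) (XT.lf (nat_lit 0) (nat_lit 296833524996) (nat_lit 76) (nat_lit 311262010872) (nat_lit 76) (nat_lit 308799879142) (nat_lit 1) (nat_lit 4) (nat_lit 2) (nat_lit 5) (nat_lit 2) (nat_lit 4) (nat_lit 324) (nat_lit 211) (nat_lit 185)))))) (XT.nd (nat_lit 35568) (nat_lit 0) (nat_lit 0) (XT.nd (nat_lit 35334) (nat_lit 0) (nat_lit 0) (XT.nd (nat_lit 35256) (nat_lit 0) (nat_lit 76) (XT.lf (nat_lit 0) (nat_lit 322552593446) (nat_lit 76) (nat_lit 335064210202) (nat_lit 76) (nat_lit 332573565330) (nat_lit 1) (nat_lit 4) (nat_lit 2) (nat_lit 5) (nat_lit 2) (nat_lit 4) (nat_lit 325) (nat_lit 211) (nat_lit 184)) (XT.lf (nat_lit 0) (nat_lit 25578559986) (nat_lit 152) (nat_lit 2551308847) (nat_lit 0) (nat_lit 25578559986) (nat_lit 2) (nat_lit 5) (nat_lit 4) (nat_lit 4) (nat_lit 2) (nat_lit 4) (nat_lit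 296) (nat_lit 212) (nat_lit 212))) (XT.nd (nat_lit 78) (nat_lit 76) (nat_lit 0) (XT.lf (nat_lit 0) (nat_lit 57687860564) (nat_lit 152) (nat_lit 724006105) (nat_lit 0) (nat_lit 57460095832) (nat_lit 2) (nat_lit 5) (nat_lit 4) (nat_lit 4) (nat_lit 2) (nat_lit 4) (nat_lit 297) (nat_lit 212) (nat_lit 211)) (XT.nd (nat_lit 78) (nat_lit 0) (nat_lit 0) (XT.lf (nat_lit 0) (nat_lit 3896203256) (nat_lit 76) (nat_lit 60774814699) (nat_lit 76) (nat_lit 60336156697) (nat_lit 1) (nat_lit 4) (nat_lit 2) (nat_lit 5) (nat_lit 2) (nat_lit 4) (nat_lit 298) (nat_lit 212) (nat_lit 210)) (XT.lf (nat_lit 0) (nat_lit 8688632419) (nat_lit 76) (nat_lit 63412142872) (nat_lit 76) (nat_lit 62778213324) (nat_lit 1) (nat_lit 4) (nat_lit 2) (nat_lit 5) (nat_lit 2) (nat_lit 4) (nat_lit 299) (nat_lit 212) (nat_lit 209))))) (XT.nd (nat_lit 156) (nat_lit 0) (nat_lit 0) (XT.nd (nat_lit 78) (nat_lit 0) (nat_lit 0) (XT.lf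 (nat_lit 0) (nat_lit 13657742049) (nat_lit 76) (nat_lit 66351741193) (nat_lit 76) (nat_lit 65537004657) (nat_lit 1) (nat_lit 4) (nat_lit 2) (nat_lit 5) (nat_lit 2) (nat_lit 4) (nat_lit 300) (nat_lit 212) (nat_lit 208)) (XT.lf (nat_lit 0) (nat_lit 18832978725) (nat_lit 76) (nat_lit 69611029504) (nat_lit 76) (nat_lit 68628879091) (nat_lit 1) (nat_lit 4) (nat_lit 2) (nat_lit 5) (nat_lit 2) (nat_lit 4) (nat_lit 301) (nat_lit 212) (nat_lit 207))) (XT.nd (nat_lit 78) (nat_lit 0) (nat_lit 0) (XT.lf (nat_lit 0) (nat_lit 24245010513) (nat_lit 76) (nat_lit 73209322106) (nat_lit 76) (nat_lit 72072158843) (nat_lit 1) (nat_lit 4) (nat_lit 2) (nat_lit 5) (nat_lit 2) (nat_lit 4) (nat_lit 302) (nat_lit 212) (nat_lit 206)) (XT.nd (nat_lit 78) (nat_lit 0) (nat_lit 0) (XT.lf (nat_lit 0) (nat_lit 29925908715) (nat_lit 76) (nat_lit 77167942214) (nat_lit 76) (nat_lit 75887248535) (nat_lit 1) (nat_lit 4) (nat_lit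 2) (nat_lit 5) (nat_lit 2) (nat_lit 4) (nat_lit 303) (nat_lit 212) (nat_lit 205)) (XT.lf (nat_lit 0) (nat_lit 35909337912) (nat_lit 76) (nat_lit 81510348318) (nat_lit 76) (nat_lit 80096756106) (nat_lit 1) (nat_lit 4) (nat_lit 2) (nat_lit 5) (nat_lit 2) (nat_lit 4) (nat_lit 304) (nat_lit 212) (nat_lit 204))))))))
noncomputable def xc6 : XT := (XT.nd (nat_lit 1404) (nat_lit 0) (nat_lit 0) (XT.nd (nat_lit 702) (nat_lit 0) (nat_lit 0) (XT.nd (nat_lit 312) (nat_lit 0) (nat_lit 0) (XT.nd (nat_lit 156) (nat_lit 0) (nat_lit 0) (XT.nd (nat_lit 78) (nat_lit 0) (nat_lit 0) (XT.lf (nat_lit 0) (nat_lit 42230755462) (nat_lit 76) (nat_lit 86262273195) (nat_lit 76) (nat_lit 84725626785) (nat_lit 1) (nat_lit 4) (nat_lit 2) (nat_lit 5) (nat_lit 2) (nat_lit 4) (nat_lit 305) (nat_lit 212) (nat_lit 203)) (XT.lf (nat_lit 0) (nat_lit 48927621617) (nat_lit 76) (nat_lit 91451876400) (nat_lit 76) (nat_lit 89801290918)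 (nat_lit 1) (nat_lit 4) (nat_lit 2) (nat_lit 5) (nat_lit 2) (nat_lit 4) (nat_lit 306) (nat_lit 212) (nat_lit 202))) (XT.nd (nat_lit 78) (nat_lit 0) (nat_lit 0) (XT.lf (nat_lit 0) (nat_lit 56039621510) (nat_lit 76) (nat_lit 97109911136) (nat_lit 76) (nat_lit 95353826513) (nat_lit 1) (nat_lit 4) (nat_lit 2) (nat_lit 5) (nat_lit 2) (nat_lit 4) (nat_lit 307) (nat_lit 212) (nat_lit 201)) (XT.lf (nat_lit 0) (nat_lit 63608900325) (nat_lit 76) (nat_lit 103269906499) (nat_lit 76) (nat_lit 101416137487) (nat_lit 1) (nat_lit 4) (nat_lit 2) (nat_lit 5) (nat_lit 2) (nat_lit 4) (nat_lit 308) (nat_lit 212) (nat_lit 200)))) (XT.nd (nat_lit 156) (nat_lit 0) (nat_lit 0) (XT.nd (nat_lit 78) (nat_lit 0) (nat_lit 0) (XT.lf (nat_lit 0) (nat_lit 71680313049) (nat_lit 76) (nat_lit 109968366164) (nat_lit 76) (nat_lit 108024148644) (nat_lit 1) (nat_lit 4) (nat_lit 2) (nat_lit 5) (nat_lit 2) (nat_lit 4) (nat_lit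 309) (nat_lit 212) (nat_lit 199)) (XT.lf (nat_lit 0) (nat_lit 80301690275) (nat_lit 76) (nat_lit 117244984708) (nat_lit 76) (nat_lit 115217018568) (nat_lit 1) (nat_lit 4) (nat_lit 2) (nat_lit 5) (nat_lit 2) (nat_lit 4) (nat_lit 310) (nat_lit 212) (nat_lit 198))) (XT.nd (nat_lit 78) (nat_lit 0) (nat_lit 0) (XT.lf (nat_lit 0) (nat_lit 89524121646) (nat_lit 76) (nat_lit 125142882833) (nat_lit 76) (nat_lit 123037371676) (nat_lit 1) (nat_lit 4) (nat_lit 2) (nat_lit 5) (nat_lit 2) (nat_lit 4) (nat_lit 311) (nat_lit 212) (nat_lit 197)) (XT.nd (nat_lit 78) (nat_lit 0) (nat_lit 0) (XT.lf (nat_lit 0) (nat_lit 99402258607) (nat_lit 76) (nat_lit 133708862899) (nat_lit 76) (nat_lit 131531550799) (nat_lit 1) (nat_lit 4) (nat_lit 2) (nat_lit 5) (nat_lit 2) (nat_lit 4) (nat_lit 312) (nat_lit 212) (nat_lit 196)) (XT.lf (nat_lit 0) (nat_lit 109994638266) (nat_lit 76) (nat_lit 142993686268) (nat_lit 76)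 (nat_lit 140749891814) (nat_lit 1) (nat_lit 4) (nat_lit 2) (nat_lit 5) (nat_lit 2) (nat_lit 4) (nat_lit 313) (nat_lit 212) (nat_lit 195)))))) (XT.nd (nat_lit 312) (nat_lit 0) (nat_lit 0) (XT.nd (nat_lit 156) (nat_lit 0) (nat_lit 0) (XT.nd (nat_lit 78) (nat_lit 0) (nat_lit 0) (XT.lf (nat_lit 0) (nat_lit 121364030280) (nat_lit 76) (nat_lit 153052374116) (nat_lit 76) (nat_lit 150747021927) (nat_lit 1) (nat_lit 4) (nat_lit 2) (nat_lit 5) (nat_lit 2) (nat_lit 4) (nat_lit 314) (nat_lit 212) (nat_lit 194)) (XT.lf (nat_lit 0) (nat_lit 133577808825) (nat_lit 76) (nat_lit 163944533483) (nat_lit 76) (nat_lit 161582183390) (nat_lit 1) (nat_lit 4) (nat_lit 2) (nat_lit 5) (nat_lit 2) (nat_lit 4) (nat_lit 315) (nat_lit 212) (nat_lit 193))) (XT.nd (nat_lit 78) (nat_lit 0) (nat_lit 0) (XT.lf (nat_lit 0) (nat_lit 146708351846) (nat_lit 76) (nat_lit 175734710497) (nat_lit 76) (nat_lit 173319584568) (nat_lit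 1) (nat_lit 4) (nat_lit 2) (nat_lit 5) (nat_lit 2) (nat_lit 4) (nat_lit 316) (nat_lit 212) (nat_lit 192)) (XT.lf (nat_lit 0) (nat_lit 160833469970) (nat_lit 76) (nat_lit 188492772875) (nat_lit 76) (nat_lit 186028780431) (nat_lit 1) (nat_lit 4) (nat_lit 2) (nat_lit 5) (nat_lit 2) (nat_lit 4) (nat_lit 317) (nat_lit 212) (nat_lit 191)))) (XT.nd (nat_lit 156) (nat_lit 0) (nat_lit 0) (XT.nd (nat_lit 78) (nat_lit 0) (nat_lit 0) (XT.lf (nat_lit 0) (nat_lit 176036867600) (nat_lit 76) (nat_lit 202294323949) (nat_lit 76) (nat_lit 199785084732) (nat_lit 1) (nat_lit 4) (nat_lit 2) (nat_lit 5) (nat_lit 2) (nat_lit 4) (nat_lit 318) (nat_lit 212) (nat_lit 190)) (XT.lf (nat_lit 0) (nat_lit 192408638944) (nat_lit 76) (nat_lit 217221150688) (nat_lit 76) (nat_lit 214670016311) (nat_lit 1) (nat_lit 4) (nat_lit 2) (nat_lit 5) (nat_lit 2) (nat_lit 4) (nat_lit 319) (nat_lit 212) (nat_lit 189))) (XT.nd (nat_lit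 78) (nat_lit 0) (nat_lit 0) (XT.lf (nat_lit 0) (nat_lit 210045801906) (nat_lit 76) (nat_lit 233361708362) (nat_lit 76) (nat_lit 230771782170) (nat_lit 1) (nat_lit 4) (nat_lit 2) (nat_lit 5) (nat_lit 2) (nat_lit 4) (nat_lit 320) (nat_lit 212) (nat_lit 188)) (XT.nd (nat_lit 78) (nat_lit 0) (nat_lit 0) (XT.lf (nat_lit 0) (nat_lit 229052873009) (nat_lit 76) (nat_lit 250811644721) (nat_lit 76) (nat_lit 248185800182) (nat_lit 1) (nat_lit 4) (nat_lit 2) (nat_lit 5) (nat_lit 2) (nat_lit 4) (nat_lit 321) (nat_lit 212) (nat_lit 187)) (XT.lf (nat_lit 0) (nat_lit 249542486746) (nat_lit 76) (nat_lit 269674366794) (nat_lit 76) (nat_lit 267015264526) (nat_lit 1) (nat_lit 4) (nat_lit 2) (nat_lit 5) (nat_lit 2) (nat_lit 4) (nat_lit 322) (nat_lit 212) (nat_lit 186))))))) (XT.nd (nat_lit 35802) (nat_lit 0) (nat_lit 0) (XT.nd (nat_lit 35412) (nat_lit 0) (nat_lit 0) (XT.nd (nat_lit 35256) (nat_lit 0) (nat_lit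 76) (XT.nd (nat_lit 78) (nat_lit 0) (nat_lit 0) (XT.lf (nat_lit 0) (nat_lit 271636063052) (nat_lit 76) (nat_lit 290061653675) (nat_lit 76) (nat_lit 287371757213) (nat_lit 1) (nat_lit 4) (nat_lit 2) (nat_lit 5) (nat_lit 2) (nat_lit 4) (nat_lit 323) (nat_lit 212) (nat_lit 185)) (XT.lf (nat_lit 0) (nat_lit 295464526823) (nat_lit 76) (nat_lit 312094318916) (nat_lit 76) (nat_lit 309375909312) (nat_lit 1) (nat_lit 4) (nat_lit 2) (nat_lit 5) (nat_lit 2) (nat_lit 4) (nat_lit 324) (nat_lit 212) (nat_lit 184))) (XT.nd (nat_lit 78) (nat_lit 0) (nat_lit 0) (XT.lf (nat_lit 0) (nat_lit 19718530594) (nat_lit 152) (nat_lit 6740763131) (nat_lit 0) (nat_lit 19718530594) (nat_lit 2) (nat_lit 5) (nat_lit 4) (nat_lit 4) (nat_lit 2) (nat_lit 4) (nat_lit 294) (nat_lit 213) (nat_lit 213)) (XT.lf (nat_lit 0) (nat_lit 45225250756) (nat_lit 152) (nat_lit 9390281678) (nat_lit 0) (nat_lit 44979264846) (nat_lit 2)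 (nat_lit 5) (nat_lit 4) (nat_lit 4) (nat_lit 2) (nat_lit 4) (nat_lit 295) (nat_lit 213) (nat_lit 212)))) (XT.nd (nat_lit 156) (nat_lit 76) (nat_lit 0) (XT.nd (nat_lit 78) (nat_lit 0) (nat_lit 0) (XT.lf (nat_lit 0) (nat_lit 51335152544) (nat_lit 152) (nat_lit 5223803037) (nat_lit 0) (nat_lit 50861401901) (nat_lit 2) (nat_lit 5) (nat_lit 4) (nat_lit 4) (nat_lit 2) (nat_lit 4) (nat_lit 296) (nat_lit 213) (nat_lit 211)) (XT.lf (nat_lit 0) (nat_lit 57802973376) (nat_lit 152) (nat_lit 957400097) (nat_lit 0) (nat_lit 57118329464) (nat_lit 2) (nat_lit 5) (nat_lit 4) (nat_lit 4) (nat_lit 2) (nat_lit 4) (nat_lit 297) (nat_lit 213) (nat_lit 210))) (XT.nd (nat_lit 78) (nat_lit 0) (nat_lit 0) (XT.lf (nat_lit 0) (nat_lit 3547760006) (nat_lit 76) (nat_lit 61174671550) (nat_lit 76) (nat_lit 60294756091) (nat_lit 1) (nat_lit 4) (nat_lit 2) (nat_lit 5) (nat_lit 2) (nat_lit 4) (nat_lit 298) (nat_lit 213)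 (nat_lit 209)) (XT.nd (nat_lit 78) (nat_lit 0) (nat_lit 0) (XT.lf (nat_lit 0) (nat_lit 8240807503) (nat_lit 76) (nat_lit 63855886211) (nat_lit 76) (nat_lit 62795163764) (nat_lit 1) (nat_lit 4) (nat_lit 2) (nat_lit 5) (nat_lit 2) (nat_lit 4) (nat_lit 299) (nat_lit 213) (nat_lit 208)) (XT.lf (nat_lit 0) (nat_lit 13117897073) (nat_lit 76) (nat_lit 66836120169) (nat_lit 76) (nat_lit 65607983845) (nat_lit 1) (nat_lit 4) (nat_lit 2) (nat_lit 5) (nat_lit 2) (nat_lit 4) (nat_lit 300) (nat_lit 213) (nat_lit 207)))))) (XT.nd (nat_lit 312) (nat_lit 0) (nat_lit 0) (XT.nd (nat_lit 156) (nat_lit 0) (nat_lit 0) (XT.nd (nat_lit 78) (nat_lit 0) (nat_lit 0) (XT.lf (nat_lit 0) (nat_lit 18207929989) (nat_lit 76) (nat_lit 70133034069) (nat_lit 76) (nat_lit 68749884896) (nat_lit 1) (nat_lit 4) (nat_lit 2) (nat_lit 5) (nat_lit 2) (nat_lit 4) (nat_lit 301) (nat_lit 213) (nat_lit 206)) (XT.lf (nat_lit 0) (nat_lit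 23541069407) (nat_lit 76) (nat_lit 73766165179) (nat_lit 76) (nat_lit 72239485590) (nat_lit 1) (nat_lit 4) (nat_lit 2) (nat_lit 5) (nat_lit 2) (nat_lit 4) (nat_lit 302) (nat_lit 213) (nat_lit 205))) (XT.nd (nat_lit 78) (nat_lit 0) (nat_lit 0) (XT.lf (nat_lit 0) (nat_lit 29148919118) (nat_lit 76) (nat_lit 77757043166) (nat_lit 76) (nat_lit 76097465043) (nat_lit 1) (nat_lit 4) (nat_lit 2) (nat_lit 5) (nat_lit 2) (nat_lit 4) (nat_lit 303) (nat_lit 213) (nat_lit 204)) (XT.lf (nat_lit 0) (nat_lit 35064710823) (nat_lit 76) (nat_lit 82129317676) (nat_lit 76) (nat_lit 80346685356) (nat_lit 1) (nat_lit 4) (nat_lit 2) (nat_lit 5) (nat_lit 2) (nat_lit 4) (nat_lit 304) (nat_lit 213) (nat_lit 203)))) (XT.nd (nat_lit 156) (nat_lit 0) (nat_lit 0) (XT.nd (nat_lit 78) (nat_lit 0) (nat_lit 0) (XT.lf (nat_lit 0) (nat_lit 41323501066) (nat_lit 76) (nat_lit 86908898484) (nat_lit 76) (nat_lit 85012327092)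 (nat_lit 1) (nat_lit 4) (nat_lit 2) (nat_lit 5) (nat_lit 2) (nat_lit 4) (nat_lit 305) (nat_lit 213) (nat_lit 202)) (XT.lf (nat_lit 0) (nat_lit 47962378973) (nat_lit 76) (nat_lit 92124109033) (nat_lit 76) (nat_lit 90122038500) (nat_lit 1) (nat_lit 4) (nat_lit 2) (nat_lit 5) (nat_lit 2) (nat_lit 4) (nat_lit 306) (nat_lit 213) (nat_lit 201))) (XT.nd (nat_lit 78) (nat_lit 0) (nat_lit 0) (XT.lf (nat_lit 0) (nat_lit 55020686045) (nat_lit 76) (nat_lit 97805854273) (nat_lit 76) (nat_lit 95706099351) (nat_lit 1) (nat_lit 4) (nat_lit 2) (nat_lit 5) (nat_lit 2) (nat_lit 4) (nat_lit 307) (nat_lit 213) (nat_lit 200)) (XT.nd (nat_lit 78) (nat_lit 0) (nat_lit 0) (XT.lf (nat_lit 0) (nat_lit 62540249285) (nat_lit 76) (nat_lit 103987803806) (nat_lit 76) (nat_lit 101797600375) (nat_lit 1) (nat_lit 4) (nat_lit 2) (nat_lit 5) (nat_lit 2) (nat_lit 4) (nat_lit 308) (nat_lit 213) (nat_lit 199)) (XT.lf (nat_lit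 0) (nat_lit 70565629069) (nat_lit 76) (nat_lit 110706591406) (nat_lit 76) (nat_lit 108432639356) (nat_lit 1) (nat_lit 4) (nat_lit 2) (nat_lit 5) (nat_lit 2) (nat_lit 4) (nat_lit 309) (nat_lit 213) (nat_lit 198))))))))
noncomputable def xc7 : XT := (XT.nd (nat_lit 36348) (nat_lit 0) (nat_lit 0) (XT.nd (nat_lit 702) (nat_lit 0) (nat_lit 0) (XT.nd (nat_lit 312) (nat_lit 0) (nat_lit 0) (XT.nd (nat_lit 156) (nat_lit 0) (nat_lit 0) (XT.nd (nat_lit 78) (nat_lit 0) (nat_lit 0) (XT.lf (nat_lit 0) (nat_lit 79144383202) (nat_lit 76) (nat_lit 118002032113) (nat_lit 76) (nat_lit 115650535045) (nat_lit 1) (nat_lit 4) (nat_lit 2) (nat_lit 5) (nat_lit 2) (nat_lit 4) (nat_lit 310) (nat_lit 213) (nat_lit 197)) (XT.lf (nat_lit 0) (nat_lit 88327348746) (nat_lit 76) (nat_lit 125917358166) (nat_lit 76) (nat_lit 123494060155) (nat_lit 1) (nat_lit 4) (nat_lit 2) (nat_lit 5) (nat_lit 2) (nat_lit 4) (nat_lit 311)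 (nat_lit 213) (nat_lit 196))) (XT.nd (nat_lit 78) (nat_lit 0) (nat_lit 0) (XT.lf (nat_lit 0) (nat_lit 98168943275) (nat_lit 76) (nat_lit 134499475202) (nat_lit 76) (nat_lit 132009694837) (nat_lit 1) (nat_lit 4) (nat_lit 2) (nat_lit 5) (nat_lit 2) (nat_lit 4) (nat_lit 312) (nat_lit 213) (nat_lit 195)) (XT.lf (nat_lit 0) (nat_lit 108727487349) (nat_lit 76) (nat_lit 143799240210) (nat_lit 76) (nat_lit 141247902110) (nat_lit 1) (nat_lit 4) (nat_lit 2) (nat_lit 5) (nat_lit 2) (nat_lit 4) (nat_lit 313) (nat_lit 213) (nat_lit 194)))) (XT.nd (nat_lit 156) (nat_lit 0) (nat_lit 0) (XT.nd (nat_lit 78) (nat_lit 0) (nat_lit 0) (XT.lf (nat_lit 0) (nat_lit 120065550117) (nat_lit 76) (nat_lit 153871762909) (nat_lit 76) (nat_lit 151263426907) (nat_lit 1) (nat_lit 4) (nat_lit 2) (nat_lit 5) (nat_lit 2) (nat_lit 4) (nat_lit 314) (nat_lit 213) (nat_lit 193)) (XT.lf (nat_lit 0) (nat_lit 132250320101) (nat_lit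 76) (nat_lit 164776732323) (nat_lit 76) (nat_lit 162115620484) (nat_lit 1) (nat_lit 4) (nat_lit 2) (nat_lit 5) (nat_lit 2) (nat_lit 4) (nat_lit 315) (nat_lit 213) (nat_lit 192))) (XT.nd (nat_lit 78) (nat_lit 0) (nat_lit 0) (XT.lf (nat_lit 0) (nat_lit 145354003343) (nat_lit 76) (nat_lit 176578770493) (nat_lit 76) (nat_lit 173868792139) (nat_lit 1) (nat_lit 4) (nat_lit 2) (nat_lit 5) (nat_lit 2) (nat_lit 4) (nat_lit 316) (nat_lit 213) (nat_lit 191)) (XT.nd (nat_lit 78) (nat_lit 0) (nat_lit 0) (XT.lf (nat_lit 0) (nat_lit 159454251302) (nat_lit 76) (nat_lit 189347815421) (nat_lit 76) (nat_lit 186592590294) (nat_lit 1) (nat_lit 4) (nat_lit 2) (nat_lit 5) (nat_lit 2) (nat_lit 4) (nat_lit 317) (nat_lit 213) (nat_lit 190)) (XT.lf (nat_lit 0) (nat_lit 174634621001) (nat_lit 76) (nat_lit 203159535524) (nat_lit 76) (nat_lit 200362415237) (nat_lit 1) (nat_lit 4) (nat_lit 2) (nat_lit 5) (nat_lit 2)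 (nat_lit 4) (nat_lit 318) (nat_lit 213) (nat_lit 189)))))) (XT.nd (nat_lit 312) (nat_lit 0) (nat_lit 0) (XT.nd (nat_lit 156) (nat_lit 0) (nat_lit 0) (XT.nd (nat_lit 78) (nat_lit 0) (nat_lit 0) (XT.lf (nat_lit 0) (nat_lit 190985070187) (nat_lit 76) (nat_lit 218095778030) (nat_lit 76) (nat_lit 215259865928) (nat_lit 1) (nat_lit 4) (nat_lit 2) (nat_lit 5) (nat_lit 2) (nat_lit 4) (nat_lit 319) (nat_lit 213) (nat_lit 188)) (XT.lf (nat_lit 0) (nat_lit 208602490410) (nat_lit 76) (nat_lit 234245054008) (nat_lit 76) (nat_lit 231373223558) (nat_lit 1) (nat_lit 4) (nat_lit 2) (nat_lit 5) (nat_lit 2) (nat_lit 4) (nat_lit 320) (nat_lit 213) (nat_lit 187))) (XT.nd (nat_lit 78) (nat_lit 0) (nat_lit 0) (XT.lf (nat_lit 0) (nat_lit 227591281199) (nat_lit 76) (nat_lit 251703062869) (nat_lit 76) (nat_lit 248797974690) (nat_lit 1) (nat_lit 4) (nat_lit 2) (nat_lit 5) (nat_lit 2) (nat_lit 4) (nat_lit 321) (nat_lit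 213) (nat_lit 186)) (XT.lf (nat_lit 0) (nat_lit 248063968720) (nat_lit 76) (nat_lit 270573259482) (nat_lit 76) (nat_lit 267637377109) (nat_lit 1) (nat_lit 4) (nat_lit 2) (nat_lit 5) (nat_lit 2) (nat_lit 4) (nat_lit 322) (nat_lit 213) (nat_lit 185)))) (XT.nd (nat_lit 35100) (nat_lit 0) (nat_lit 76) (XT.nd (nat_lit 78) (nat_lit 0) (nat_lit 0) (XT.lf (nat_lit 0) (nat_lit 270141872603) (nat_lit 76) (nat_lit 290967467233) (nat_lit 76) (nat_lit 288003071718) (nat_lit 1) (nat_lit 4) (nat_lit 2) (nat_lit 5) (nat_lit 2) (nat_lit 4) (nat_lit 323) (nat_lit 213) (nat_lit 184)) (XT.lf (nat_lit 0) (nat_lit 293955824871) (nat_lit 76) (nat_lit 313006540687) (nat_lit 76) (nat_lit 310015744115) (nat_lit 1) (nat_lit 4) (nat_lit 2) (nat_lit 5) (nat_lit 2) (nat_lit 4) (nat_lit 324) (nat_lit 213) (nat_lit 183))) (XT.nd (nat_lit 78) (nat_lit 0) (nat_lit 0) (XT.lf (nat_lit 0) (nat_lit 14517622960) (nat_lit 152)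 (nat_lit 10696819086) (nat_lit 0) (nat_lit 14517622960) (nat_lit 2) (nat_lit 5) (nat_lit 4) (nat_lit 4) (nat_lit 2) (nat_lit 4) (nat_lit 292) (nat_lit 214) (nat_lit 214)) (XT.nd (nat_lit 78) (nat_lit 0) (nat_lit 0) (XT.lf (nat_lit 0) (nat_lit 34201948240) (nat_lit 152) (nat_lit 17521781205) (nat_lit 0) (nat_lit 33936283457) (nat_lit 2) (nat_lit 5) (nat_lit 4) (nat_lit 4) (nat_lit 2) (nat_lit 4) (nat_lit 293) (nat_lit 214) (nat_lit 213)) (XT.lf (nat_lit 0) (nat_lit 39629336365) (nat_lit 152) (nat_lit 13612406432) (nat_lit 0) (nat_lit 39117685671) (nat_lit 2) (nat_lit 5) (nat_lit 4) (nat_lit 4) (nat_lit 2) (nat_lit 4) (nat_lit 294) (nat_lit 214) (nat_lit 212))))))) (XT.nd (nat_lit 702) (nat_lit 0) (nat_lit 0) (XT.nd (nat_lit 312) (nat_lit 0) (nat_lit 0) (XT.nd (nat_lit 156) (nat_lit 76) (nat_lit 0) (XT.nd (nat_lit 78) (nat_lit 0) (nat_lit 0) (XT.lf (nat_lit 0) (nat_lit 45349572593) (nat_lit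 152) (nat_lit 9642347189) (nat_lit 0) (nat_lit 44610157168) (nat_lit 2) (nat_lit 5) (nat_lit 4) (nat_lit 4) (nat_lit 2) (nat_lit 4) (nat_lit 295) (nat_lit 214) (nat_lit 211)) (XT.lf (nat_lit 0) (nat_lit 51396554622) (nat_lit 152) (nat_lit 5588077198) (nat_lit 0) (nat_lit 50446245927) (nat_lit 2) (nat_lit 5) (nat_lit 4) (nat_lit 4) (nat_lit 2) (nat_lit 4) (nat_lit 296) (nat_lit 214) (nat_lit 210))) (XT.nd (nat_lit 78) (nat_lit 76) (nat_lit 0) (XT.lf (nat_lit 0) (nat_lit 57806116419) (nat_lit 152) (nat_lit 1425571156) (nat_lit 0) (nat_lit 56660536177) (nat_lit 2) (nat_lit 5) (nat_lit 4) (nat_lit 4) (nat_lit 2) (nat_lit 4) (nat_lit 297) (nat_lit 214) (nat_lit 209)) (XT.lf (nat_lit 0) (nat_lit 2964727432) (nat_lit 76) (nat_lit 61697800843) (nat_lit 76) (nat_lit 60371413614) (nat_lit 1) (nat_lit 4) (nat_lit 2) (nat_lit 5) (nat_lit 2) (nat_lit 4) (nat_lit 298) (nat_lit 214) (nat_lit 208))))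 (XT.nd (nat_lit 156) (nat_lit 0) (nat_lit 0) (XT.nd (nat_lit 78) (nat_lit 0) (nat_lit 0) (XT.lf (nat_lit 0) (nat_lit 7565754868) (nat_lit 76) (nat_lit 64419651141) (nat_lit 76) (nat_lit 62925850034) (nat_lit 1) (nat_lit 4) (nat_lit 2) (nat_lit 5) (nat_lit 2) (nat_lit 4) (nat_lit 299) (nat_lit 214) (nat_lit 207)) (XT.lf (nat_lit 0) (nat_lit 12357640679) (nat_lit 76) (nat_lit 67437510688) (nat_lit 76) (nat_lit 65788696731) (nat_lit 1) (nat_lit 4) (nat_lit 2) (nat_lit 5) (nat_lit 2) (nat_lit 4) (nat_lit 300) (nat_lit 214) (nat_lit 206))) (XT.nd (nat_lit 78) (nat_lit 0) (nat_lit 0) (XT.lf (nat_lit 0) (nat_lit 17368781224) (nat_lit 76) (nat_lit 70769263097) (nat_lit 76) (nat_lit 68976918724) (nat_lit 1) (nat_lit 4) (nat_lit 2) (nat_lit 5) (nat_lit 2) (nat_lit 4) (nat_lit 301) (nat_lit 214) (nat_lit 205)) (XT.nd (nat_lit 78) (nat_lit 0) (nat_lit 0) (XT.lf (nat_lit 0) (nat_lit 22628872151) (nat_lit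 76) (nat_lit 74434652086) (nat_lit 76) (nat_lit 72509409180) (nat_lit 1) (nat_lit 4) (nat_lit 2) (nat_lit 5) (nat_lit 2) (nat_lit 4) (nat_lit 302) (nat_lit 214) (nat_lit 204)) (XT.lf (nat_lit 0) (nat_lit 28169084370) (nat_lit 76) (nat_lit 78455398479) (nat_lit 76) (nat_lit 76407101375) (nat_lit 1) (nat_lit 4) (nat_lit 2) (nat_lit 5) (nat_lit 2) (nat_lit 4) (nat_lit 303) (nat_lit 214) (nat_lit 203)))))) (XT.nd (nat_lit 390) (nat_lit 0) (nat_lit 0) (XT.nd (nat_lit 156) (nat_lit 0) (nat_lit 0) (XT.nd (nat_lit 78) (nat_lit 0) (nat_lit 0) (XT.lf (nat_lit 0) (nat_lit 34022248768) (nat_lit 76) (nat_lit 82855328920) (nat_lit 76) (nat_lit 80693092745) (nat_lit 1) (nat_lit 4) (nat_lit 2) (nat_lit 5) (nat_lit 2) (nat_lit 4) (nat_lit 304) (nat_lit 214) (nat_lit 202)) (XT.lf (nat_lit 0) (nat_lit 40223050764) (nat_lit 76) (nat_lit 87660517072) (nat_lit 76) (nat_lit 85392781756) (nat_lit 1) (nat_lit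 4) (nat_lit 2) (nat_lit 5) (nat_lit 2) (nat_lit 4) (nat_lit 305) (nat_lit 214) (nat_lit 201))) (XT.nd (nat_lit 78) (nat_lit 0) (nat_lit 0) (XT.lf (nat_lit 0) (nat_lit 46808235850) (nat_lit 76) (nat_lit 92899438124) (nat_lit 76) (nat_lit 90534018419) (nat_lit 1) (nat_lit 4) (nat_lit 2) (nat_lit 5) (nat_lit 2) (nat_lit 4) (nat_lit 306) (nat_lit 214) (nat_lit 200)) (XT.nd (nat_lit 78) (nat_lit 0) (nat_lit 0) (XT.lf (nat_lit 0) (nat_lit 53816827346) (nat_lit 76) (nat_lit 98603137534) (nat_lit 76) (nat_lit 96147269320) (nat_lit 1) (nat_lit 4) (nat_lit 2) (nat_lit 5) (nat_lit 2) (nat_lit 4) (nat_lit 307) (nat_lit 214) (nat_lit 199)) (XT.lf (nat_lit 0) (nat_lit 61290357646) (nat_lit 76) (nat_lit 104805415003) (nat_lit 76) (nat_lit 102265798169) (nat_lit 1) (nat_lit 4) (nat_lit 2) (nat_lit 5) (nat_lit 2) (nat_lit 4) (nat_lit 308) (nat_lit 214) (nat_lit 198))))) (XT.nd (nat_lit 156) (nat_lit 0)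 (nat_lit 0) (XT.nd (nat_lit 78) (nat_lit 0) (nat_lit 0) (XT.lf (nat_lit 0) (nat_lit 69273114337) (nat_lit 76) (nat_lit 111543024766) (nat_lit 76) (nat_lit 108925862914) (nat_lit 1) (nat_lit 4) (nat_lit 2) (nat_lit 5) (nat_lit 2) (nat_lit 4) (nat_lit 309) (nat_lit 214) (nat_lit 197)) (XT.lf (nat_lit 0) (nat_lit 77812402643) (nat_lit 76) (nat_lit 118855893400) (nat_lit 76) (nat_lit 116166930606) (nat_lit 1) (nat_lit 4) (nat_lit 2) (nat_lit 5) (nat_lit 2) (nat_lit 4) (nat_lit 310) (nat_lit 214) (nat_lit 196))) (XT.nd (nat_lit 78) (nat_lit 0) (nat_lit 0) (XT.lf (nat_lit 0) (nat_lit 86958825755) (nat_lit 76) (nat_lit 126787356424) (nat_lit 76) (nat_lit 124031911276) (nat_lit 1) (nat_lit 4) (nat_lit 2) (nat_lit 5) (nat_lit 2) (nat_lit 4) (nat_lit 311) (nat_lit 214) (nat_lit 195)) (XT.nd (nat_lit 78) (nat_lit 0) (nat_lit 0) (XT.lf (nat_lit 0) (nat_lit 96766584698) (nat_lit 76) (nat_lit 135384415099)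 (nat_lit 76) (nat_lit 132567412215) (nat_lit 1) (nat_lit 4) (nat_lit 2) (nat_lit 5) (nat_lit 2) (nat_lit 4) (nat_lit 312) (nat_lit 214) (nat_lit 194)) (XT.lf (nat_lit 0) (nat_lit 107293799526) (nat_lit 76) (nat_lit 144698014958) (nat_lit 76) (nat_lit 141824014172) (nat_lit 1) (nat_lit 4) (nat_lit 2) (nat_lit 5) (nat_lit 2) (nat_lit 4) (nat_lit 313) (nat_lit 214) (nat_lit 193))))))))
noncomputable def xc8 : XT := (XT.nd (nat_lit 36192) (nat_lit 0) (nat_lit 0) (XT.nd (nat_lit 702) (nat_lit 0) (nat_lit 0) (XT.nd (nat_lit 312) (nat_lit 0) (nat_lit 0) (XT.nd (nat_lit 156) (nat_lit 0) (nat_lit 0) (XT.nd (nat_lit 78) (nat_lit 0) (nat_lit 0) (XT.lf (nat_lit 0) (nat_lit 118602853734) (nat_lit 76) (nat_lit 154783347705) (nat_lit 76) (nat_lit 151856571083) (nat_lit 1) (nat_lit 4) (nat_lit 2) (nat_lit 5) (nat_lit 2) (nat_lit 4) (nat_lit 314) (nat_lit 214) (nat_lit 192)) (XT.lf (nat_lit 0) (nat_lit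 130760763939) (nat_lit 76) (nat_lit 165700178274) (nat_lit 76) (nat_lit 162724535136) (nat_lit 1) (nat_lit 4) (nat_lit 2) (nat_lit 5) (nat_lit 2) (nat_lit 4) (nat_lit 315) (nat_lit 214) (nat_lit 191))) (XT.nd (nat_lit 78) (nat_lit 0) (nat_lit 0) (XT.lf (nat_lit 0) (nat_lit 143839577017) (nat_lit 76) (nat_lit 177513198994) (nat_lit 76) (nat_lit 174492309084) (nat_lit 1) (nat_lit 4) (nat_lit 2) (nat_lit 5) (nat_lit 2) (nat_lit 4) (nat_lit 316) (nat_lit 214) (nat_lit 190)) (XT.lf (nat_lit 0) (nat_lit 157916797044) (nat_lit 76) (nat_lit 190292412951) (nat_lit 76) (nat_lit 187229627881) (nat_lit 1) (nat_lit 4) (nat_lit 2) (nat_lit 5) (nat_lit 2) (nat_lit 4) (nat_lit 317) (nat_lit 214) (nat_lit 189)))) (XT.nd (nat_lit 156) (nat_lit 0) (nat_lit 0) (XT.nd (nat_lit 78) (nat_lit 0) (nat_lit 0) (XT.lf (nat_lit 0) (nat_lit 173075844585) (nat_lit 76) (nat_lit 204113548821) (nat_lit 76) (nat_lit 201011971935)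 (nat_lit 1) (nat_lit 4) (nat_lit 2) (nat_lit 5) (nat_lit 2) (nat_lit 4) (nat_lit 318) (nat_lit 214) (nat_lit 188)) (XT.lf (nat_lit 0) (nat_lit 189406551032) (nat_lit 76) (nat_lit 219058509630) (nat_lit 76) (nat_lit 215921014398) (nat_lit 1) (nat_lit 4) (nat_lit 2) (nat_lit 5) (nat_lit 2) (nat_lit 4) (nat_lit 319) (nat_lit 214) (nat_lit 187))) (XT.nd (nat_lit 78) (nat_lit 0) (nat_lit 0) (XT.lf (nat_lit 0) (nat_lit 207005690942) (nat_lit 76) (nat_lit 235215858111) (nat_lit 76) (nat_lit 232045105149) (nat_lit 1) (nat_lit 4) (nat_lit 2) (nat_lit 5) (nat_lit 2) (nat_lit 4) (nat_lit 320) (nat_lit 214) (nat_lit 186)) (XT.nd (nat_lit 78) (nat_lit 0) (nat_lit 0) (XT.lf (nat_lit 0) (nat_lit 225977555513) (nat_lit 76) (nat_lit 252681341511) (nat_lit 76) (nat_lit 249479794356) (nat_lit 1) (nat_lit 4) (nat_lit 2) (nat_lit 5) (nat_lit 2) (nat_lit 4) (nat_lit 321) (nat_lit 214) (nat_lit 185)) (XT.lf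 (nat_lit 0) (nat_lit 246434570612) (nat_lit 76) (nat_lit 271558458994) (nat_lit 76) (nat_lit 268328398696) (nat_lit 1) (nat_lit 4) (nat_lit 2) (nat_lit 5) (nat_lit 2) (nat_lit 4) (nat_lit 322) (nat_lit 214) (nat_lit 184)))))) (XT.nd (nat_lit 35100) (nat_lit 0) (nat_lit 76) (XT.nd (nat_lit 34944) (nat_lit 0) (nat_lit 76) (XT.nd (nat_lit 78) (nat_lit 0) (nat_lit 0) (XT.lf (nat_lit 0) (nat_lit 268497962992) (nat_lit 76) (nat_lit 291959074958) (nat_lit 76) (nat_lit 288702613603) (nat_lit 1) (nat_lit 4) (nat_lit 2) (nat_lit 5) (nat_lit 2) (nat_lit 4) (nat_lit 323) (nat_lit 214) (nat_lit 183)) (XT.lf (nat_lit 0) (nat_lit 292298478684) (nat_lit 76) (nat_lit 314004081943) (nat_lit 76) (nat_lit 310723175164) (nat_lit 1) (nat_lit 4) (nat_lit 2) (nat_lit 5) (nat_lit 2) (nat_lit 4) (nat_lit 324) (nat_lit 214) (nat_lit 182))) (XT.nd (nat_lit 78) (nat_lit 0) (nat_lit 0) (XT.lf (nat_lit 0) (nat_lit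 9867655841) (nat_lit 152) (nat_lit 14481915525) (nat_lit 0) (nat_lit 9867655841) (nat_lit 2) (nat_lit 5) (nat_lit 4) (nat_lit 4) (nat_lit 2) (nat_lit 4) (nat_lit 290) (nat_lit 215) (nat_lit 215)) (XT.lf (nat_lit 0) (nat_lit 24385529875) (nat_lit 152) (nat_lit 25250921672) (nat_lit 0) (nat_lit 24098611909) (nat_lit 2) (nat_lit 5) (nat_lit 4) (nat_lit 4) (nat_lit 2) (nat_lit 4) (nat_lit 291) (nat_lit 215) (nat_lit 214)))) (XT.nd (nat_lit 156) (nat_lit 0) (nat_lit 0) (XT.nd (nat_lit 78) (nat_lit 0) (nat_lit 0) (XT.lf (nat_lit 0) (nat_lit 29242903111) (nat_lit 152) (nat_lit 21534988755) (nat_lit 0) (nat_lit 28690320362) (nat_lit 2) (nat_lit 5) (nat_lit 4) (nat_lit 4) (nat_lit 2) (nat_lit 4) (nat_lit 292) (nat_lit 215) (nat_lit 213)) (XT.lf (nat_lit 0) (nat_lit 34336215825) (nat_lit 152) (nat_lit 17794011957) (nat_lit 0) (nat_lit 33537647165) (nat_lit 2) (nat_lit 5) (nat_lit 4) (nat_lit 4)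 (nat_lit 2) (nat_lit 4) (nat_lit 293) (nat_lit 215) (nat_lit 212))) (XT.nd (nat_lit 78) (nat_lit 0) (nat_lit 0) (XT.lf (nat_lit 0) (nat_lit 39695650610) (nat_lit 152) (nat_lit 14005822526) (nat_lit 0) (nat_lit 38669317219) (nat_lit 2) (nat_lit 5) (nat_lit 4) (nat_lit 4) (nat_lit 2) (nat_lit 4) (nat_lit 294) (nat_lit 215) (nat_lit 211)) (XT.nd (nat_lit 78) (nat_lit 0) (nat_lit 0) (XT.lf (nat_lit 0) (nat_lit 45352967080) (nat_lit 152) (nat_lit 10147971933) (nat_lit 0) (nat_lit 44115740418) (nat_lit 2) (nat_lit 5) (nat_lit 4) (nat_lit 4) (nat_lit 2) (nat_lit 4) (nat_lit 295) (nat_lit 215) (nat_lit 210)) (XT.lf (nat_lit 0) (nat_lit 51341690073) (nat_lit 152) (nat_lit 6197598840) (nat_lit 0) (nat_lit 49909191865) (nat_lit 2) (nat_lit 5) (nat_lit 4) (nat_lit 4) (nat_lit 2) (nat_lit 4) (nat_lit 296) (nat_lit 215) (nat_lit 209))))))) (XT.nd (nat_lit 702) (nat_lit 0) (nat_lit 0) (XT.nd (nat_lit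 312) (nat_lit 0) (nat_lit 0) (XT.nd (nat_lit 156) (nat_lit 0) (nat_lit 0) (XT.nd (nat_lit 78) (nat_lit 76) (nat_lit 0) (XT.lf (nat_lit 0) (nat_lit 57697308318) (nat_lit 152) (nat_lit 2131293629) (nat_lit 0) (nat_lit 56084003122) (nat_lit 2) (nat_lit 5) (nat_lit 4) (nat_lit 4) (nat_lit 2) (nat_lit 4) (nat_lit 297) (nat_lit 215) (nat_lit 208)) (XT.lf (nat_lit 0) (nat_lit 2143650526) (nat_lit 76) (nat_lit 62347302604) (nat_lit 76) (nat_lit 60566583531) (nat_lit 1) (nat_lit 4) (nat_lit 2) (nat_lit 5) (nat_lit 2) (nat_lit 4) (nat_lit 298) (nat_lit 215) (nat_lit 207))) (XT.nd (nat_lit 78) (nat_lit 0) (nat_lit 0) (XT.lf (nat_lit 0) (nat_lit 6659474202) (nat_lit 76) (nat_lit 65106778491) (nat_lit 76) (nat_lit 63171046568) (nat_lit 1) (nat_lit 4) (nat_lit 2) (nat_lit 5) (nat_lit 2) (nat_lit 4) (nat_lit 299) (nat_lit 215) (nat_lit 206)) (XT.lf (nat_lit 0) (nat_lit 11372467642) (nat_lit 76) (nat_lit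 68159476547) (nat_lit 76) (nat_lit 66080214208) (nat_lit 1) (nat_lit 4) (nat_lit 2) (nat_lit 5) (nat_lit 2) (nat_lit 4) (nat_lit 300) (nat_lit 215) (nat_lit 205)))) (XT.nd (nat_lit 156) (nat_lit 0) (nat_lit 0) (XT.nd (nat_lit 78) (nat_lit 0) (nat_lit 0) (XT.lf (nat_lit 0) (nat_lit 16310559696) (nat_lit 76) (nat_lit 71523486834) (nat_lit 76) (nat_lit 69311325962) (nat_lit 1) (nat_lit 4) (nat_lit 2) (nat_lit 5) (nat_lit 2) (nat_lit 4) (nat_lit 301) (nat_lit 215) (nat_lit 204)) (XT.lf (nat_lit 0) (nat_lit 21503013132) (nat_lit 76) (nat_lit 75218744229) (nat_lit 76) (nat_lit 72883529160) (nat_lit 1) (nat_lit 4) (nat_lit 2) (nat_lit 5) (nat_lit 2) (nat_lit 4) (nat_lit 302) (nat_lit 215) (nat_lit 203))) (XT.nd (nat_lit 78) (nat_lit 0) (nat_lit 0) (XT.lf (nat_lit 0) (nat_lit 26980598044) (nat_lit 76) (nat_lit 79267146553) (nat_lit 76) (nat_lit 76817992412) (nat_lit 1) (nat_lit 4) (nat_lit 2)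 (nat_lit 5) (nat_lit 2) (nat_lit 4) (nat_lit 303) (nat_lit 215) (nat_lit 202)) (XT.nd (nat_lit 78) (nat_lit 0) (nat_lit 0) (XT.lf (nat_lit 0) (nat_lit 32775774195) (nat_lit 76) (nat_lit 83692684339) (nat_lit 76) (nat_lit 81138031057) (nat_lit 1) (nat_lit 4) (nat_lit 2) (nat_lit 5) (nat_lit 2) (nat_lit 4) (nat_lit 304) (nat_lit 215) (nat_lit 201)) (XT.lf (nat_lit 0) (nat_lit 38922883369) (nat_lit 76) (nat_lit 88521582995) (nat_lit 76) (nat_lit 85869245323) (nat_lit 1) (nat_lit 4) (nat_lit 2) (nat_lit 5) (nat_lit 2) (nat_lit 4) (nat_lit 305) (nat_lit 215) (nat_lit 200)))))) (XT.nd (nat_lit 312) (nat_lit 0) (nat_lit 0) (XT.nd (nat_lit 156) (nat_lit 0) (nat_lit 0) (XT.nd (nat_lit 78) (nat_lit 0) (nat_lit 0) (XT.lf (nat_lit 0) (nat_lit 45458352879) (nat_lit 76) (nat_lit 93782458217) (nat_lit 76) (nat_lit 91039672037) (nat_lit 1) (nat_lit 4) (nat_lit 2) (nat_lit 5) (nat_lit 2) (nat_lit 4) (nat_lit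 306) (nat_lit 215) (nat_lit 199)) (XT.lf (nat_lit 0) (nat_lit 52420911435) (nat_lit 76) (nat_lit 99506485562) (nat_lit 76) (nat_lit 96679950763) (nat_lit 1) (nat_lit 4) (nat_lit 2) (nat_lit 5) (nat_lit 2) (nat_lit 4) (nat_lit 307) (nat_lit 215) (nat_lit 198))) (XT.nd (nat_lit 78) (nat_lit 0) (nat_lit 0) (XT.lf (nat_lit 0) (nat_lit 59851818642) (nat_lit 76) (nat_lit 105727585193) (nat_lit 76) (nat_lit 102823505375) (nat_lit 1) (nat_lit 4) (nat_lit 2) (nat_lit 5) (nat_lit 2) (nat_lit 4) (nat_lit 308) (nat_lit 215) (nat_lit 197)) (XT.lf (nat_lit 0) (nat_lit 67795109506) (nat_lit 76) (nat_lit 112482622884) (nat_lit 76) (nat_lit 109506742124) (nat_lit 1) (nat_lit 4) (nat_lit 2) (nat_lit 5) (nat_lit 2) (nat_lit 4) (nat_lit 309) (nat_lit 215) (nat_lit 196)))) (XT.nd (nat_lit 156) (nat_lit 0) (nat_lit 0) (XT.nd (nat_lit 78) (nat_lit 0) (nat_lit 0) (XT.lf (nat_lit 0) (nat_lit 76297855380) (nat_lit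 76) (nat_lit 119811628489) (nat_lit 76) (nat_lit 116769265375) (nat_lit 1) (nat_lit 4) (nat_lit 2) (nat_lit 5) (nat_lit 2) (nat_lit 4) (nat_lit 310) (nat_lit 215) (nat_lit 195)) (XT.lf (nat_lit 0) (nat_lit 85410442907) (nat_lit 76) (nat_lit 127758033151) (nat_lit 76) (nat_lit 124654112302) (nat_lit 1) (nat_lit 4) (nat_lit 2) (nat_lit 5) (nat_lit 2) (nat_lit 4) (nat_lit 311) (nat_lit 215) (nat_lit 194))) (XT.nd (nat_lit 78) (nat_lit 0) (nat_lit 0) (XT.lf (nat_lit 0) (nat_lit 95186872605) (nat_lit 76) (nat_lit 136368926678) (nat_lit 76) (nat_lit 133208007926) (nat_lit 1) (nat_lit 4) (nat_lit 2) (nat_lit 5) (nat_lit 2) (nat_lit 4) (nat_lit 312) (nat_lit 215) (nat_lit 193)) (XT.nd (nat_lit 78) (nat_lit 0) (nat_lit 0) (XT.lf (nat_lit 0) (nat_lit 105685078872) (nat_lit 76) (nat_lit 145695336584) (nat_lit 76) (nat_lit 142481641996) (nat_lit 1) (nat_lit 4) (nat_lit 2) (nat_lit 5) (nat_lit 2)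 (nat_lit 4) (nat_lit 313) (nat_lit 215) (nat_lit 192)) (XT.lf (nat_lit 0) (nat_lit 116967273301) (nat_lit 76) (nat_lit 155792530486) (nat_lit 76) (nat_lit 152529969383) (nat_lit 1) (nat_lit 4) (nat_lit 2) (nat_lit 5) (nat_lit 2) (nat_lit 4) (nat_lit 314) (nat_lit 215) (nat_lit 191))))))))
noncomputable def xc9 : XT := (XT.nd (nat_lit 36036) (nat_lit 0) (nat_lit 0) (XT.nd (nat_lit 702) (nat_lit 0) (nat_lit 0) (XT.nd (nat_lit 312) (nat_lit 0) (nat_lit 0) (XT.nd (nat_lit 156) (nat_lit 0) (nat_lit 0) (XT.nd (nat_lit 78) (nat_lit 0) (nat_lit 0) (XT.lf (nat_lit 0) (nat_lit 129100313341) (nat_lit 76) (nat_lit 166720343606) (nat_lit 76) (nat_lit 163412535730) (nat_lit 1) (nat_lit 4) (nat_lit 2) (nat_lit 5) (nat_lit 2) (nat_lit 4) (nat_lit 315) (nat_lit 215) (nat_lit 190)) (XT.lf (nat_lit 0) (nat_lit 142156098488) (nat_lit 76) (nat_lit 178543533355) (nat_lit 76) (nat_lit 175193830318) (nat_lit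 1) (nat_lit 4) (nat_lit 2) (nat_lit 5) (nat_lit 2) (nat_lit 4) (nat_lit 316) (nat_lit 215) (nat_lit 189))) (XT.nd (nat_lit 78) (nat_lit 0) (nat_lit 0) (XT.lf (nat_lit 0) (nat_lit 156211996357) (nat_lit 76) (nat_lit 191332163079) (nat_lit 76) (nat_lit 187943668228) (nat_lit 1) (nat_lit 4) (nat_lit 2) (nat_lit 5) (nat_lit 2) (nat_lit 4) (nat_lit 317) (nat_lit 215) (nat_lit 188)) (XT.lf (nat_lit 0) (nat_lit 171351301159) (nat_lit 76) (nat_lit 205162017252) (nat_lit 76) (nat_lit 201737604053) (nat_lit 1) (nat_lit 4) (nat_lit 2) (nat_lit 5) (nat_lit 2) (nat_lit 4) (nat_lit 318) (nat_lit 215) (nat_lit 187)))) (XT.nd (nat_lit 156) (nat_lit 0) (nat_lit 0) (XT.nd (nat_lit 78) (nat_lit 0) (nat_lit 0) (XT.lf (nat_lit 0) (nat_lit 187663727292) (nat_lit 76) (nat_lit 220115050564) (nat_lit 76) (nat_lit 216657379636) (nat_lit 1) (nat_lit 4) (nat_lit 2) (nat_lit 5) (nat_lit 2) (nat_lit 4) (nat_lit 319)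 (nat_lit 215) (nat_lit 186)) (XT.lf (nat_lit 0) (nat_lit 205245940985) (nat_lit 76) (nat_lit 236279873584) (nat_lit 76) (nat_lit 232791408463) (nat_lit 1) (nat_lit 4) (nat_lit 2) (nat_lit 5) (nat_lit 2) (nat_lit 4) (nat_lit 320) (nat_lit 215) (nat_lit 185))) (XT.nd (nat_lit 78) (nat_lit 0) (nat_lit 0) (XT.lf (nat_lit 0) (nat_lit 224202133134) (nat_lit 76) (nat_lit 253752277855) (nat_lit 76) (nat_lit 250235299591) (nat_lit 1) (nat_lit 4) (nat_lit 2) (nat_lit 5) (nat_lit 2) (nat_lit 4) (nat_lit 321) (nat_lit 215) (nat_lit 184)) (XT.nd (nat_lit 78) (nat_lit 0) (nat_lit 0) (XT.lf (nat_lit 0) (nat_lit 244644636729) (nat_lit 76) (nat_lit 272635803550) (nat_lit 76) (nat_lit 269092424229) (nat_lit 1) (nat_lit 4) (nat_lit 2) (nat_lit 5) (nat_lit 2) (nat_lit 4) (nat_lit 322) (nat_lit 215) (nat_lit 183)) (XT.lf (nat_lit 0) (nat_lit 266694592534) (nat_lit 76) (nat_lit 293042353045) (nat_lit 76) (nat_lit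 289474528300) (nat_lit 1) (nat_lit 4) (nat_lit 2) (nat_lit 5) (nat_lit 2) (nat_lit 4) (nat_lit 323) (nat_lit 215) (nat_lit 182)))))) (XT.nd (nat_lit 34944) (nat_lit 0) (nat_lit 76) (XT.nd (nat_lit 34788) (nat_lit 0) (nat_lit 76) (XT.nd (nat_lit 34710) (nat_lit 0) (nat_lit 76) (XT.lf (nat_lit 0) (nat_lit 290482666951) (nat_lit 76) (nat_lit 315092854039) (nat_lit 76) (nat_lit 311502394643) (nat_lit 1) (nat_lit 4) (nat_lit 2) (nat_lit 5) (nat_lit 2) (nat_lit 4) (nat_lit 324) (nat_lit 215) (nat_lit 181)) (XT.lf (nat_lit 0) (nat_lit 5674749244) (nat_lit 152) (nat_lit 18151915023) (nat_lit 0) (nat_lit 5674749244) (nat_lit 2) (nat_lit 5) (nat_lit 4) (nat_lit 4) (nat_lit 2) (nat_lit 4) (nat_lit 288) (nat_lit 216) (nat_lit 216))) (XT.nd (nat_lit 78) (nat_lit 0) (nat_lit 0) (XT.lf (nat_lit 0) (nat_lit 15574563087) (nat_lit 152) (nat_lit 32695719318) (nat_lit 0) (nat_lit 15264691684) (nat_lit 2)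 (nat_lit 5) (nat_lit 4) (nat_lit 4) (nat_lit 2) (nat_lit 4) (nat_lit 289) (nat_lit 216) (nat_lit 215)) (XT.lf (nat_lit 0) (nat_lit 19959581448) (nat_lit 152) (nat_lit 29116489681) (nat_lit 0) (nat_lit 19362792079) (nat_lit 2) (nat_lit 5) (nat_lit 4) (nat_lit 4) (nat_lit 2) (nat_lit 4) (nat_lit 290) (nat_lit 216) (nat_lit 214)))) (XT.nd (nat_lit 156) (nat_lit 0) (nat_lit 0) (XT.nd (nat_lit 78) (nat_lit 0) (nat_lit 0) (XT.lf (nat_lit 0) (nat_lit 24530538866) (nat_lit 152) (nat_lit 25544930885) (nat_lit 0) (nat_lit 23668084714) (nat_lit 2) (nat_lit 5) (nat_lit 4) (nat_lit 4) (nat_lit 2) (nat_lit 4) (nat_lit 291) (nat_lit 216) (nat_lit 213)) (XT.lf (nat_lit 0) (nat_lit 29314522496) (nat_lit 152) (nat_lit 21959878137) (nat_lit 0) (nat_lit 28206082433) (nat_lit 2) (nat_lit 5) (nat_lit 4) (nat_lit 4) (nat_lit 2) (nat_lit 4) (nat_lit 292) (nat_lit 216) (nat_lit 212))) (XT.nd (nat_lit 78) (nat_lit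 0) (nat_lit 0) (XT.lf (nat_lit 0) (nat_lit 34339881870) (nat_lit 152) (nat_lit 18340086681) (nat_lit 0) (nat_lit 33003677076) (nat_lit 2) (nat_lit 5) (nat_lit 4) (nat_lit 4) (nat_lit 2) (nat_lit 4) (nat_lit 293) (nat_lit 216) (nat_lit 211)) (XT.nd (nat_lit 78) (nat_lit 0) (nat_lit 0) (XT.lf (nat_lit 0) (nat_lit 39636396897) (nat_lit 152) (nat_lit 14664105900) (nat_lit 0) (nat_lit 38089298832) (nat_lit 2) (nat_lit 5) (nat_lit 4) (nat_lit 4) (nat_lit 2) (nat_lit 4) (nat_lit 294) (nat_lit 216) (nat_lit 210)) (XT.lf (nat_lit 0) (nat_lit 45235454331) (nat_lit 152) (nat_lit 10910152204) (nat_lit 0) (nat_lit 43493084719) (nat_lit 2) (nat_lit 5) (nat_lit 4) (nat_lit 4) (nat_lit 2) (nat_lit 4) (nat_lit 295) (nat_lit 216) (nat_lit 209))))))) (XT.nd (nat_lit 702) (nat_lit 0) (nat_lit 0) (XT.nd (nat_lit 312) (nat_lit 0) (nat_lit 0) (XT.nd (nat_lit 156) (nat_lit 76) (nat_lit 0) (XT.nd (nat_lit 78)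 (nat_lit 0) (nat_lit 0) (XT.lf (nat_lit 0) (nat_lit 51170233772) (nat_lit 152) (nat_lit 7055979943) (nat_lit 0) (nat_lit 49247057173) (nat_lit 2) (nat_lit 5) (nat_lit 4) (nat_lit 4) (nat_lit 2) (nat_lit 4) (nat_lit 296) (nat_lit 216) (nat_lit 208)) (XT.lf (nat_lit 0) (nat_lit 57475904284) (nat_lit 152) (nat_lit 3078749576) (nat_lit 0) (nat_lit 55385313808) (nat_lit 2) (nat_lit 5) (nat_lit 4) (nat_lit 4) (nat_lit 2) (nat_lit 4) (nat_lit 297) (nat_lit 216) (nat_lit 207))) (XT.nd (nat_lit 78) (nat_lit 0) (nat_lit 0) (XT.lf (nat_lit 0) (nat_lit 1079663646) (nat_lit 76) (nat_lit 63127025732) (nat_lit 76) (nat_lit 60881422406) (nat_lit 1) (nat_lit 4) (nat_lit 2) (nat_lit 5) (nat_lit 2) (nat_lit 4) (nat_lit 298) (nat_lit 216) (nat_lit 206)) (XT.lf (nat_lit 0) (nat_lit 5516594952) (nat_lit 76) (nat_lit 65921340127) (nat_lit 76) (nat_lit 63532206386) (nat_lit 1) (nat_lit 4) (nat_lit 2) (nat_lit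 5) (nat_lit 2) (nat_lit 4) (nat_lit 299) (nat_lit 216) (nat_lit 205)))) (XT.nd (nat_lit 156) (nat_lit 0) (nat_lit 0) (XT.nd (nat_lit 78) (nat_lit 0) (nat_lit 0) (XT.lf (nat_lit 0) (nat_lit 10156539902) (nat_lit 76) (nat_lit 69006296062) (nat_lit 76) (nat_lit 66484263787) (nat_lit 1) (nat_lit 4) (nat_lit 2) (nat_lit 5) (nat_lit 2) (nat_lit 4) (nat_lit 300) (nat_lit 216) (nat_lit 204)) (XT.lf (nat_lit 0) (nat_lit 15026994464) (nat_lit 76) (nat_lit 72400174755) (nat_lit 76) (nat_lit 69755088283) (nat_lit 1) (nat_lit 4) (nat_lit 2) (nat_lit 5) (nat_lit 2) (nat_lit 4) (nat_lit 301) (nat_lit 216) (nat_lit 203))) (XT.nd (nat_lit 78) (nat_lit 0) (nat_lit 0) (XT.lf (nat_lit 0) (nat_lit 20156820593) (nat_lit 76) (nat_lit 76123088082) (nat_lit 76) (nat_lit 73364062537) (nat_lit 1) (nat_lit 4) (nat_lit 2) (nat_lit 5) (nat_lit 2) (nat_lit 4) (nat_lit 302) (nat_lit 216) (nat_lit 202)) (XT.nd (nat_lit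 78) (nat_lit 0) (nat_lit 0) (XT.lf (nat_lit 0) (nat_lit 25576417258) (nat_lit 76) (nat_lit 80197097750) (nat_lit 76) (nat_lit 77332573065) (nat_lit 1) (nat_lit 4) (nat_lit 2) (nat_lit 5) (nat_lit 2) (nat_lit 4) (nat_lit 303) (nat_lit 216) (nat_lit 201)) (XT.lf (nat_lit 0) (nat_lit 31317900587) (nat_lit 76) (nat_lit 84646346039) (nat_lit 76) (nat_lit 81684136964) (nat_lit 1) (nat_lit 4) (nat_lit 2) (nat_lit 5) (nat_lit 2) (nat_lit 4) (nat_lit 304) (nat_lit 216) (nat_lit 200)))))) (XT.nd (nat_lit 312) (nat_lit 0) (nat_lit 0) (XT.nd (nat_lit 156) (nat_lit 0) (nat_lit 0) (XT.nd (nat_lit 78) (nat_lit 0) (nat_lit 0) (XT.lf (nat_lit 0) (nat_lit 37415294185) (nat_lit 76) (nat_lit 89497198865) (nat_lit 76) (nat_lit 86444541282) (nat_lit 1) (nat_lit 4) (nat_lit 2) (nat_lit 5) (nat_lit 2) (nat_lit 4) (nat_lit 305) (nat_lit 216) (nat_lit 199)) (XT.lf (nat_lit 0) (nat_lit 43904730755) (nat_lit 76)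 (nat_lit 94778402022) (nat_lit 76) (nat_lit 91641995820) (nat_lit 1) (nat_lit 4) (nat_lit 2) (nat_lit 5) (nat_lit 2) (nat_lit 4) (nat_lit 306) (nat_lit 216) (nat_lit 198))) (XT.nd (nat_lit 78) (nat_lit 0) (nat_lit 0) (XT.lf (nat_lit 0) (nat_lit 50824666218) (nat_lit 76) (nat_lit 100521251530) (nat_lit 76) (nat_lit 97307300309) (nat_lit 1) (nat_lit 4) (nat_lit 2) (nat_lit 5) (nat_lit 2) (nat_lit 4) (nat_lit 307) (nat_lit 216) (nat_lit 197)) (XT.lf (nat_lit 0) (nat_lit 58216107599) (nat_lit 76) (nat_lit 106759779088) (nat_lit 76) (nat_lit 103474026925) (nat_lit 1) (nat_lit 4) (nat_lit 2) (nat_lit 5) (nat_lit 2) (nat_lit 4) (nat_lit 308) (nat_lit 216) (nat_lit 196)))) (XT.nd (nat_lit 156) (nat_lit 0) (nat_lit 0) (XT.nd (nat_lit 78) (nat_lit 0) (nat_lit 0) (XT.lf (nat_lit 0) (nat_lit 66122856030) (nat_lit 76) (nat_lit 113530953750) (nat_lit 76) (nat_lit 110178719233) (nat_lit 1) (nat_lit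 4) (nat_lit 2) (nat_lit 5) (nat_lit 2) (nat_lit 4) (nat_lit 309) (nat_lit 216) (nat_lit 195)) (XT.lf (nat_lit 0) (nat_lit 74591766319) (nat_lit 76) (nat_lit 120874900994) (nat_lit 76) (nat_lit 117461108742) (nat_lit 1) (nat_lit 4) (nat_lit 2) (nat_lit 5) (nat_lit 2) (nat_lit 4) (nat_lit 310) (nat_lit 216) (nat_lit 194))) (XT.nd (nat_lit 78) (nat_lit 0) (nat_lit 0) (XT.lf (nat_lit 0) (nat_lit 83673024600) (nat_lit 76) (nat_lit 128835140508) (nat_lit 76) (nat_lit 125364350353) (nat_lit 1) (nat_lit 4) (nat_lit 2) (nat_lit 5) (nat_lit 2) (nat_lit 4) (nat_lit 311) (nat_lit 216) (nat_lit 193)) (XT.nd (nat_lit 78) (nat_lit 0) (nat_lit 0) (XT.lf (nat_lit 0) (nat_lit 93420445737) (nat_lit 76) (nat_lit 137458844081) (nat_lit 76) (nat_lit 133935278090) (nat_lit 1) (nat_lit 4) (nat_lit 2) (nat_lit 5) (nat_lit 2) (nat_lit 4) (nat_lit 312) (nat_lit 216) (nat_lit 192)) (XT.lf (nat_lit 0) (nat_lit 103891792226)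 (nat_lit 76) (nat_lit 146797115143) (nat_lit 76) (nat_lit 143224682637) (nat_lit 1) (nat_lit 4) (nat_lit 2) (nat_lit 5) (nat_lit 2) (nat_lit 4) (nat_lit 313) (nat_lit 216) (nat_lit 191))))))))
noncomputable def xc10 : XT := (XT.nd (nat_lit 35880) (nat_lit 0) (nat_lit 0) (XT.nd (nat_lit 702) (nat_lit 0) (nat_lit 0) (XT.nd (nat_lit 312) (nat_lit 0) (nat_lit 0) (XT.nd (nat_lit 156) (nat_lit 0) (nat_lit 0) (XT.nd (nat_lit 78) (nat_lit 0) (nat_lit 0) (XT.lf (nat_lit 0) (nat_lit 115149116490) (nat_lit 76) (nat_lit 156905291596) (nat_lit 76) (nat_lit 153287612316) (nat_lit 1) (nat_lit 4) (nat_lit 2) (nat_lit 5) (nat_lit 2) (nat_lit 4) (nat_lit 314) (nat_lit 216) (nat_lit 190)) (XT.lf (nat_lit 0) (nat_lit 127259128599) (nat_lit 76) (nat_lit 167843273744) (nat_lit 76) (nat_lit 164183699304) (nat_lit 1) (nat_lit 4) (nat_lit 2) (nat_lit 5) (nat_lit 2) (nat_lit 4) (nat_lit 315) (nat_lit 216) (nat_lit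 189))) (XT.nd (nat_lit 78) (nat_lit 0) (nat_lit 0) (XT.lf (nat_lit 0) (nat_lit 140293591587) (nat_lit 76) (nat_lit 179675879260) (nat_lit 76) (nat_lit 175977513005) (nat_lit 1) (nat_lit 4) (nat_lit 2) (nat_lit 5) (nat_lit 2) (nat_lit 4) (nat_lit 316) (nat_lit 216) (nat_lit 188)) (XT.lf (nat_lit 0) (nat_lit 154329746718) (nat_lit 76) (nat_lit 192473227288) (nat_lit 76) (nat_lit 188738942686) (nat_lit 1) (nat_lit 4) (nat_lit 2) (nat_lit 5) (nat_lit 2) (nat_lit 4) (nat_lit 317) (nat_lit 216) (nat_lit 187)))) (XT.nd (nat_lit 156) (nat_lit 0) (nat_lit 0) (XT.nd (nat_lit 78) (nat_lit 0) (nat_lit 0) (XT.lf (nat_lit 0) (nat_lit 169450771206) (nat_lit 76) (nat_lit 206311153963) (nat_lit 76) (nat_lit 202543611632) (nat_lit 1) (nat_lit 4) (nat_lit 2) (nat_lit 5) (nat_lit 2) (nat_lit 4) (nat_lit 318) (nat_lit 216) (nat_lit 186)) (XT.lf (nat_lit 0) (nat_lit 185746271122) (nat_lit 76) (nat_lit 221271661815)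 (nat_lit 76) (nat_lit 217473325291) (nat_lit 1) (nat_lit 4) (nat_lit 2) (nat_lit 5) (nat_lit 2) (nat_lit 4) (nat_lit 319) (nat_lit 216) (nat_lit 185))) (XT.nd (nat_lit 78) (nat_lit 0) (nat_lit 0) (XT.lf (nat_lit 0) (nat_lit 203312812392) (nat_lit 76) (nat_lit 237443405705) (nat_lit 76) (nat_lit 233616556038) (nat_lit 1) (nat_lit 4) (nat_lit 2) (nat_lit 5) (nat_lit 2) (nat_lit 4) (nat_lit 320) (nat_lit 216) (nat_lit 184)) (XT.nd (nat_lit 78) (nat_lit 0) (nat_lit 0) (XT.lf (nat_lit 0) (nat_lit 222254493038) (nat_lit 76) (nat_lit 254922218189) (nat_lit 76) (nat_lit 251068967465) (nat_lit 1) (nat_lit 4) (nat_lit 2) (nat_lit 5) (nat_lit 2) (nat_lit 4) (nat_lit 321) (nat_lit 216) (nat_lit 183)) (XT.lf (nat_lit 0) (nat_lit 242683560058) (nat_lit 76) (nat_lit 273811677415) (nat_lit 76) (nat_lit 269933981267) (nat_lit 1) (nat_lit 4) (nat_lit 2) (nat_lit 5) (nat_lit 2) (nat_lit 4) (nat_lit 322)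 (nat_lit 216) (nat_lit 182)))))) (XT.nd (nat_lit 34788) (nat_lit 0) (nat_lit 76) (XT.nd (nat_lit 34632) (nat_lit 0) (nat_lit 76) (XT.nd (nat_lit 78) (nat_lit 0) (nat_lit 0) (XT.lf (nat_lit 0) (nat_lit 264721074587) (nat_lit 76) (nat_lit 294223720919) (nat_lit 76) (nat_lit 290323390120) (nat_lit 1) (nat_lit 4) (nat_lit 2) (nat_lit 5) (nat_lit 2) (nat_lit 4) (nat_lit 323) (nat_lit 216) (nat_lit 181)) (XT.lf (nat_lit 0) (nat_lit 288497629306) (nat_lit 76) (nat_lit 316279308959) (nat_lit 76) (nat_lit 312358020150) (nat_lit 1) (nat_lit 4) (nat_lit 2) (nat_lit 5) (nat_lit 2) (nat_lit 4) (nat_lit 324) (nat_lit 216) (nat_lit 180))) (XT.nd (nat_lit 78) (nat_lit 0) (nat_lit 0) (XT.lf (nat_lit 0) (nat_lit 1857193635) (nat_lit 152) (nat_lit 21757228595) (nat_lit 0) (nat_lit 1857193635) (nat_lit 2) (nat_lit 5) (nat_lit 4) (nat_lit 4) (nat_lit 2) (nat_lit 4) (nat_lit 286) (nat_lit 217) (nat_lit 217))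 (XT.lf (nat_lit 0) (nat_lit 7594011349) (nat_lit 152) (nat_lit 39962203263) (nat_lit 0) (nat_lit 7259350234) (nat_lit 2) (nat_lit 5) (nat_lit 4) (nat_lit 4) (nat_lit 2) (nat_lit 4) (nat_lit 287) (nat_lit 217) (nat_lit 216)))) (XT.nd (nat_lit 156) (nat_lit 0) (nat_lit 0) (XT.nd (nat_lit 78) (nat_lit 0) (nat_lit 0) (XT.lf (nat_lit 0) (nat_lit 11591709836) (nat_lit 152) (nat_lit 36468701366) (nat_lit 0) (nat_lit 10947177318) (nat_lit 2) (nat_lit 5) (nat_lit 4) (nat_lit 4) (nat_lit 2) (nat_lit 4) (nat_lit 288) (nat_lit 217) (nat_lit 215)) (XT.lf (nat_lit 0) (nat_lit 15731172797) (nat_lit 152) (nat_lit 33013249267) (nat_lit 0) (nat_lit 14799722313) (nat_lit 2) (nat_lit 5) (nat_lit 4) (nat_lit 4) (nat_lit 2) (nat_lit 4) (nat_lit 289) (nat_lit 217) (nat_lit 214))) (XT.nd (nat_lit 78) (nat_lit 0) (nat_lit 0) (XT.lf (nat_lit 0) (nat_lit 20036930383) (nat_lit 152) (nat_lit 29575370213) (nat_lit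 0) (nat_lit 18839815116) (nat_lit 2) (nat_lit 5) (nat_lit 4) (nat_lit 4) (nat_lit 2) (nat_lit 4) (nat_lit 290) (nat_lit 217) (nat_lit 213)) (XT.nd (nat_lit 78) (nat_lit 0) (nat_lit 0) (XT.lf (nat_lit 0) (nat_lit 24534498195) (nat_lit 152) (nat_lit 26134691586) (nat_lit 0) (nat_lit 23091397017) (nat_lit 2) (nat_lit 5) (nat_lit 4) (nat_lit 4) (nat_lit 2) (nat_lit 4) (nat_lit 291) (nat_lit 217) (nat_lit 212)) (XT.lf (nat_lit 0) (nat_lit 29250528485) (nat_lit 152) (nat_lit 22670824180) (nat_lit 0) (nat_lit 27579662575) (nat_lit 2) (nat_lit 5) (nat_lit 4) (nat_lit 4) (nat_lit 2) (nat_lit 4) (nat_lit 292) (nat_lit 217) (nat_lit 211))))))) (XT.nd (nat_lit 702) (nat_lit 0) (nat_lit 0) (XT.nd (nat_lit 312) (nat_lit 76) (nat_lit 0) (XT.nd (nat_lit 156) (nat_lit 0) (nat_lit 0) (XT.nd (nat_lit 78) (nat_lit 0) (nat_lit 0) (XT.lf (nat_lit 0) (nat_lit 34212968101) (nat_lit 152) (nat_lit 19163241374)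 (nat_lit 0) (nat_lit 32331208921) (nat_lit 2) (nat_lit 5) (nat_lit 4) (nat_lit 4) (nat_lit 2) (nat_lit 4) (nat_lit 293) (nat_lit 217) (nat_lit 210)) (XT.lf (nat_lit 0) (nat_lit 39451224092) (nat_lit 152) (nat_lit 15591157491) (nat_lit 0) (nat_lit 37374193365) (nat_lit 2) (nat_lit 5) (nat_lit 4) (nat_lit 4) (nat_lit 2) (nat_lit 4) (nat_lit 294) (nat_lit 217) (nat_lit 209))) (XT.nd (nat_lit 78) (nat_lit 0) (nat_lit 0) (XT.lf (nat_lit 0) (nat_lit 44996337974) (nat_lit 152) (nat_lit 11933404627) (nat_lit 0) (nat_lit 42738500260) (nat_lit 2) (nat_lit 5) (nat_lit 4) (nat_lit 4) (nat_lit 2) (nat_lit 4) (nat_lit 295) (nat_lit 217) (nat_lit 208)) (XT.lf (nat_lit 0) (nat_lit 50881169683) (nat_lit 152) (nat_lit 8168307210) (nat_lit 0) (nat_lit 48455918091) (nat_lit 2) (nat_lit 5) (nat_lit 4) (nat_lit 4) (nat_lit 2) (nat_lit 4) (nat_lit 296) (nat_lit 217) (nat_lit 207)))) (XT.nd (nat_lit 156) (nat_lit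 76) (nat_lit 0) (XT.nd (nat_lit 78) (nat_lit 0) (nat_lit 0) (XT.lf (nat_lit 0) (nat_lit 57140592294) (nat_lit 152) (nat_lit 4273553551) (nat_lit 0) (nat_lit 54560327853) (nat_lit 2) (nat_lit 5) (nat_lit 4) (nat_lit 4) (nat_lit 2) (nat_lit 4) (nat_lit 297) (nat_lit 217) (nat_lit 206)) (XT.lf (nat_lit 0) (nat_lit 63811698683) (nat_lit 152) (nat_lit 226063628) (nat_lit 0) (nat_lit 61087903825) (nat_lit 2) (nat_lit 5) (nat_lit 4) (nat_lit 4) (nat_lit 2) (nat_lit 4) (nat_lit 298) (nat_lit 217) (nat_lit 205))) (XT.nd (nat_lit 78) (nat_lit 0) (nat_lit 0) (XT.lf (nat_lit 0) (nat_lit 4130344502) (nat_lit 76) (nat_lit 66868163082) (nat_lit 76) (nat_lit 64011469691) (nat_lit 1) (nat_lit 4) (nat_lit 2) (nat_lit 5) (nat_lit 2) (nat_lit 4) (nat_lit 299) (nat_lit 217) (nat_lit 204)) (XT.nd (nat_lit 78) (nat_lit 0) (nat_lit 0) (XT.lf (nat_lit 0) (nat_lit 8702651959) (nat_lit 76) (nat_lit 69982987422)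 (nat_lit 76) (nat_lit 67003239834) (nat_lit 1) (nat_lit 4) (nat_lit 2) (nat_lit 5) (nat_lit 2) (nat_lit 4) (nat_lit 300) (nat_lit 217) (nat_lit 203)) (XT.lf (nat_lit 0) (nat_lit 13510479215) (nat_lit 76) (nat_lit 73404522047) (nat_lit 76) (nat_lit 70310835387) (nat_lit 1) (nat_lit 4) (nat_lit 2) (nat_lit 5) (nat_lit 2) (nat_lit 4) (nat_lit 301) (nat_lit 217) (nat_lit 202)))))) (XT.nd (nat_lit 312) (nat_lit 0) (nat_lit 0) (XT.nd (nat_lit 156) (nat_lit 0) (nat_lit 0) (XT.nd (nat_lit 78) (nat_lit 0) (nat_lit 0) (XT.lf (nat_lit 0) (nat_lit 18582317096) (nat_lit 76) (nat_lit 77153042718) (nat_lit 76) (nat_lit 73953856917) (nat_lit 1) (nat_lit 4) (nat_lit 2) (nat_lit 5) (nat_lit 2) (nat_lit 4) (nat_lit 302) (nat_lit 217) (nat_lit 201)) (XT.lf (nat_lit 0) (nat_lit 23948220939) (nat_lit 76) (nat_lit 81250762890) (nat_lit 76) (nat_lit 77953892699) (nat_lit 1) (nat_lit 4) (nat_lit 2) (nat_lit 5)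 (nat_lit 2) (nat_lit 4) (nat_lit 303) (nat_lit 217) (nat_lit 200))) (XT.nd (nat_lit 78) (nat_lit 0) (nat_lit 0) (XT.lf (nat_lit 0) (nat_lit 29639988693) (nat_lit 76) (nat_lit 85721965349) (nat_lit 76) (nat_lit 82334646650) (nat_lit 1) (nat_lit 4) (nat_lit 2) (nat_lit 5) (nat_lit 2) (nat_lit 4) (nat_lit 304) (nat_lit 217) (nat_lit 199)) (XT.lf (nat_lit 0) (nat_lit 35691349351) (nat_lit 76) (nat_lit 90593146110) (nat_lit 76) (nat_lit 87122078792) (nat_lit 1) (nat_lit 4) (nat_lit 2) (nat_lit 5) (nat_lit 2) (nat_lit 4) (nat_lit 305) (nat_lit 217) (nat_lit 198)))) (XT.nd (nat_lit 156) (nat_lit 0) (nat_lit 0) (XT.nd (nat_lit 78) (nat_lit 0) (nat_lit 0) (XT.lf (nat_lit 0) (nat_lit 42138162828) (nat_lit 76) (nat_lit 95893171430) (nat_lit 76) (nat_lit 92344559094) (nat_lit 1) (nat_lit 4) (nat_lit 2) (nat_lit 5) (nat_lit 2) (nat_lit 4) (nat_lit 306) (nat_lit 217) (nat_lit 197)) (XT.lf (nat_lit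 0) (nat_lit 49018632465) (nat_lit 76) (nat_lit 101653448865) (nat_lit 76) (nat_lit 98033035587) (nat_lit 1) (nat_lit 4) (nat_lit 2) (nat_lit 5) (nat_lit 2) (nat_lit 4) (nat_lit 307) (nat_lit 217) (nat_lit 196))) (XT.nd (nat_lit 78) (nat_lit 0) (nat_lit 0) (XT.lf (nat_lit 0) (nat_lit 56373531413) (nat_lit 76) (nat_lit 107908113394) (nat_lit 76) (nat_lit 104221217762) (nat_lit 1) (nat_lit 4) (nat_lit 2) (nat_lit 5) (nat_lit 2) (nat_lit 4) (nat_lit 308) (nat_lit 217) (nat_lit 195)) (XT.nd (nat_lit 78) (nat_lit 0) (nat_lit 0) (XT.lf (nat_lit 0) (nat_lit 64246444259) (nat_lit 76) (nat_lit 114694229695) (nat_lit 76) (nat_lit 110945776327) (nat_lit 1) (nat_lit 4) (nat_lit 2) (nat_lit 5) (nat_lit 2) (nat_lit 4) (nat_lit 309) (nat_lit 217) (nat_lit 194)) (XT.lf (nat_lit 0) (nat_lit 72684025302) (nat_lit 76) (nat_lit 122052011790) (nat_lit 76) (nat_lit 118246560519) (nat_lit 1) (nat_lit 4) (nat_lit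 2) (nat_lit 5) (nat_lit 2) (nat_lit 4) (nat_lit 310) (nat_lit 217) (nat_lit 193))))))))
noncomputable def xc11 : XT := (XT.nd (nat_lit 35724) (nat_lit 0) (nat_lit 0) (XT.nd (nat_lit 702) (nat_lit 0) (nat_lit 0) (XT.nd (nat_lit 312) (nat_lit 0) (nat_lit 0) (XT.nd (nat_lit 156) (nat_lit 0) (nat_lit 0) (XT.nd (nat_lit 78) (nat_lit 0) (nat_lit 0) (XT.lf (nat_lit 0) (nat_lit 81736275023) (nat_lit 76) (nat_lit 130025061351) (nat_lit 76) (nat_lit 126166834244) (nat_lit 1) (nat_lit 4) (nat_lit 2) (nat_lit 5) (nat_lit 2) (nat_lit 4) (nat_lit 311) (nat_lit 217) (nat_lit 192)) (XT.lf (nat_lit 0) (nat_lit 91456836381) (nat_lit 76) (nat_lit 138660626080) (nat_lit 76) (nat_lit 134753532458) (nat_lit 1) (nat_lit 4) (nat_lit 2) (nat_lit 5) (nat_lit 2) (nat_lit 4) (nat_lit 312) (nat_lit 217) (nat_lit 191))) (XT.nd (nat_lit 78) (nat_lit 0) (nat_lit 0) (XT.lf (nat_lit 0) (nat_lit 101903312705) (nat_lit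 76) (nat_lit 148009879692) (nat_lit 76) (nat_lit 144057539298) (nat_lit 1) (nat_lit 4) (nat_lit 2) (nat_lit 5) (nat_lit 2) (nat_lit 4) (nat_lit 313) (nat_lit 217) (nat_lit 190)) (XT.lf (nat_lit 0) (nat_lit 113137609038) (nat_lit 76) (nat_lit 158128225174) (nat_lit 76) (nat_lit 154133989619) (nat_lit 1) (nat_lit 4) (nat_lit 2) (nat_lit 5) (nat_lit 2) (nat_lit 4) (nat_lit 314) (nat_lit 217) (nat_lit 189)))) (XT.nd (nat_lit 156) (nat_lit 0) (nat_lit 0) (XT.nd (nat_lit 78) (nat_lit 0) (nat_lit 0) (XT.lf (nat_lit 0) (nat_lit 125226298988) (nat_lit 76) (nat_lit 169075623089) (nat_lit 76) (nat_lit 165042595719) (nat_lit 1) (nat_lit 4) (nat_lit 2) (nat_lit 5) (nat_lit 2) (nat_lit 4) (nat_lit 315) (nat_lit 217) (nat_lit 188)) (XT.lf (nat_lit 0) (nat_lit 138241019238) (nat_lit 76) (nat_lit 180916946908) (nat_lit 76) (nat_lit 176848001191) (nat_lit 1) (nat_lit 4) (nat_lit 2) (nat_lit 5) (nat_lit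 2) (nat_lit 4) (nat_lit 316) (nat_lit 217) (nat_lit 187))) (XT.nd (nat_lit 78) (nat_lit 0) (nat_lit 0) (XT.lf (nat_lit 0) (nat_lit 152258894054) (nat_lit 76) (nat_lit 193722367439) (nat_lit 76) (nat_lit 189620163992) (nat_lit 1) (nat_lit 4) (nat_lit 2) (nat_lit 5) (nat_lit 2) (nat_lit 4) (nat_lit 317) (nat_lit 217) (nat_lit 186)) (XT.nd (nat_lit 78) (nat_lit 0) (nat_lit 0) (XT.lf (nat_lit 0) (nat_lit 167362992325) (nat_lit 76) (nat_lit 207567768654) (nat_lit 76) (nat_lit 203434771014) (nat_lit 1) (nat_lit 4) (nat_lit 2) (nat_lit 5) (nat_lit 2) (nat_lit 4) (nat_lit 318) (nat_lit 217) (nat_lit 185)) (XT.lf (nat_lit 0) (nat_lit 183642819819) (nat_lit 76) (nat_lit 222535197376) (nat_lit 76) (nat_lit 218373686594) (nat_lit 1) (nat_lit 4) (nat_lit 2) (nat_lit 5) (nat_lit 2) (nat_lit 4) (nat_lit 319) (nat_lit 217) (nat_lit 184)))))) (XT.nd (nat_lit 312) (nat_lit 0) (nat_lit 0) (XT.nd (nat_lit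 156) (nat_lit 0) (nat_lit 0) (XT.nd (nat_lit 78) (nat_lit 0) (nat_lit 0) (XT.lf (nat_lit 0) (nat_lit 201194849586) (nat_lit 76) (nat_lit 238713349478) (nat_lit 76) (nat_lit 234525437639) (nat_lit 1) (nat_lit 4) (nat_lit 2) (nat_lit 5) (nat_lit 2) (nat_lit 4) (nat_lit 320) (nat_lit 217) (nat_lit 183)) (XT.lf (nat_lit 0) (nat_lit 220123093656) (nat_lit 76) (nat_lit 256198095493) (nat_lit 76) (nat_lit 251985738229) (nat_lit 1) (nat_lit 4) (nat_lit 2) (nat_lit 5) (nat_lit 2) (nat_lit 4) (nat_lit 321) (nat_lit 217) (nat_lit 182))) (XT.nd (nat_lit 78) (nat_lit 0) (nat_lit 0) (XT.lf (nat_lit 0) (nat_lit 240539719401) (nat_lit 76) (nat_lit 275093048728) (nat_lit 76) (nat_lit 270858056814) (nat_lit 1) (nat_lit 4) (nat_lit 2) (nat_lit 5) (nat_lit 2) (nat_lit 4) (nat_lit 322) (nat_lit 217) (nat_lit 181)) (XT.lf (nat_lit 0) (nat_lit 262565714232) (nat_lit 76) (nat_lit 295510179279) (nat_lit 76) (nat_lit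 291254229354) (nat_lit 1) (nat_lit 4) (nat_lit 2) (nat_lit 5) (nat_lit 2) (nat_lit 4) (nat_lit 323) (nat_lit 217) (nat_lit 180)))) (XT.nd (nat_lit 34476) (nat_lit 0) (nat_lit 76) (XT.nd (nat_lit 34398) (nat_lit 0) (nat_lit 228) (XT.lf (nat_lit 0) (nat_lit 286331602563) (nat_lit 76) (nat_lit 317570477547) (nat_lit 76) (nat_lit 313295122056) (nat_lit 1) (nat_lit 4) (nat_lit 2) (nat_lit 5) (nat_lit 2) (nat_lit 4) (nat_lit 324) (nat_lit 217) (nat_lit 179)) (XT.lf (nat_lit 0) (nat_lit 18766474157) (nat_lit 76) (nat_lit 1629668248) (nat_lit 76) (nat_lit 1629668248) (nat_lit 4) (nat_lit 4) (nat_lit 5) (nat_lit 5) (nat_lit 5) (nat_lit 4) (nat_lit 284) (nat_lit 218) (nat_lit 218))) (XT.nd (nat_lit 78) (nat_lit 0) (nat_lit 0) (XT.lf (nat_lit 0) (nat_lit 219940407) (nat_lit 76) (nat_lit 72472330) (nat_lit 152) (nat_lit 47075172708) (nat_lit 2) (nat_lit 5) (nat_lit 3) (nat_lit 5) (nat_lit 4) (nat_lit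 4) (nat_lit 285) (nat_lit 218) (nat_lit 217)) (XT.nd (nat_lit 78) (nat_lit 0) (nat_lit 0) (XT.lf (nat_lit 0) (nat_lit 3975975526) (nat_lit 152) (nat_lit 43692518215) (nat_lit 0) (nat_lit 3279880406) (nat_lit 2) (nat_lit 5) (nat_lit 4) (nat_lit 4) (nat_lit 2) (nat_lit 4) (nat_lit 286) (nat_lit 218) (nat_lit 216)) (XT.lf (nat_lit 0) (nat_lit 7763149836) (nat_lit 152) (nat_lit 40305135608) (nat_lit 0) (nat_lit 6757183313) (nat_lit 2) (nat_lit 5) (nat_lit 4) (nat_lit 4) (nat_lit 2) (nat_lit 4) (nat_lit 287) (nat_lit 218) (nat_lit 215))))))) (XT.nd (nat_lit 702) (nat_lit 76) (nat_lit 0) (XT.nd (nat_lit 312) (nat_lit 0) (nat_lit 0) (XT.nd (nat_lit 156) (nat_lit 0) (nat_lit 0) (XT.nd (nat_lit 78) (nat_lit 0) (nat_lit 0) (XT.lf (nat_lit 0) (nat_lit 11675246686) (nat_lit 152) (nat_lit 36964292341) (nat_lit 0) (nat_lit 10382362197) (nat_lit 2) (nat_lit 5) (nat_lit 4) (nat_lit 4) (nat_lit 2) (nat_lit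 4) (nat_lit 288) (nat_lit 218) (nat_lit 214)) (XT.lf (nat_lit 0) (nat_lit 15735448873) (nat_lit 152) (nat_lit 33650190825) (nat_lit 0) (nat_lit 14176899600) (nat_lit 2) (nat_lit 5) (nat_lit 4) (nat_lit 4) (nat_lit 2) (nat_lit 4) (nat_lit 289) (nat_lit 218) (nat_lit 213))) (XT.nd (nat_lit 78) (nat_lit 0) (nat_lit 0) (XT.lf (nat_lit 0) (nat_lit 19967816852) (nat_lit 152) (nat_lit 30343191939) (nat_lit 0) (nat_lit 18163281669) (nat_lit 2) (nat_lit 5) (nat_lit 4) (nat_lit 4) (nat_lit 2) (nat_lit 4) (nat_lit 290) (nat_lit 218) (nat_lit 212)) (XT.lf (nat_lit 0) (nat_lit 24397431324) (nat_lit 152) (nat_lit 27023698655) (nat_lit 0) (nat_lit 22365131410) (nat_lit 2) (nat_lit 5) (nat_lit 4) (nat_lit 4) (nat_lit 2) (nat_lit 4) (nat_lit 291) (nat_lit 218) (nat_lit 211)))) (XT.nd (nat_lit 156) (nat_lit 0) (nat_lit 0) (XT.nd (nat_lit 78) (nat_lit 0) (nat_lit 0) (XT.lf (nat_lit 0) (nat_lit 29050541856)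 (nat_lit 152) (nat_lit 23672039899) (nat_lit 0) (nat_lit 26807348671) (nat_lit 2) (nat_lit 5) (nat_lit 4) (nat_lit 4) (nat_lit 2) (nat_lit 4) (nat_lit 292) (nat_lit 218) (nat_lit 210)) (XT.lf (nat_lit 0) (nat_lit 33954722436) (nat_lit 152) (nat_lit 20268353991) (nat_lit 0) (nat_lit 31516257705) (nat_lit 2) (nat_lit 5) (nat_lit 4) (nat_lit 4) (nat_lit 2) (nat_lit 4) (nat_lit 293) (nat_lit 218) (nat_lit 209))) (XT.nd (nat_lit 78) (nat_lit 0) (nat_lit 0) (XT.lf (nat_lit 0) (nat_lit 39139034875) (nat_lit 152) (nat_lit 16792470939) (nat_lit 0) (nat_lit 36519763156) (nat_lit 2) (nat_lit 5) (nat_lit 4) (nat_lit 4) (nat_lit 2) (nat_lit 4) (nat_lit 294) (nat_lit 218) (nat_lit 208)) (XT.nd (nat_lit 78) (nat_lit 0) (nat_lit 0) (XT.lf (nat_lit 0) (nat_lit 44634201025) (nat_lit 152) (nat_lit 13223792920) (nat_lit 0) (nat_lit 41847515428) (nat_lit 2) (nat_lit 5) (nat_lit 4) (nat_lit 4) (nat_lit 2)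 (nat_lit 4) (nat_lit 295) (nat_lit 218) (nat_lit 207)) (XT.lf (nat_lit 0) (nat_lit 50472784832) (nat_lit 152) (nat_lit 9541172210) (nat_lit 0) (nat_lit 47531086387) (nat_lit 2) (nat_lit 5) (nat_lit 4) (nat_lit 4) (nat_lit 2) (nat_lit 4) (nat_lit 296) (nat_lit 218) (nat_lit 206)))))) (XT.nd (nat_lit 390) (nat_lit 0) (nat_lit 0) (XT.nd (nat_lit 156) (nat_lit 76) (nat_lit 0) (XT.nd (nat_lit 78) (nat_lit 0) (nat_lit 0) (XT.lf (nat_lit 0) (nat_lit 56689385313) (nat_lit 152) (nat_lit 5722785872) (nat_lit 0) (nat_lit 53604156451) (nat_lit 2) (nat_lit 5) (nat_lit 4) (nat_lit 4) (nat_lit 2) (nat_lit 4) (nat_lit 297) (nat_lit 218) (nat_lit 205)) (XT.lf (nat_lit 0) (nat_lit 63320841581) (nat_lit 152) (nat_lit 1746006432) (nat_lit 0) (nat_lit 60102714186) (nat_lit 2) (nat_lit 5) (nat_lit 4) (nat_lit 4) (nat_lit 2) (nat_lit 4) (nat_lit 298) (nat_lit 218) (nat_lit 204))) (XT.nd (nat_lit 78) (nat_lit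 0) (nat_lit 0) (XT.lf (nat_lit 0) (nat_lit 2492508032) (nat_lit 76) (nat_lit 67952858157) (nat_lit 76) (nat_lit 64611676565) (nat_lit 1) (nat_lit 4) (nat_lit 2) (nat_lit 5) (nat_lit 2) (nat_lit 4) (nat_lit 299) (nat_lit 218) (nat_lit 203)) (XT.nd (nat_lit 78) (nat_lit 0) (nat_lit 0) (XT.lf (nat_lit 0) (nat_lit 7002188183) (nat_lit 76) (nat_lit 71095338429) (nat_lit 76) (nat_lit 67640217764) (nat_lit 1) (nat_lit 4) (nat_lit 2) (nat_lit 5) (nat_lit 2) (nat_lit 4) (nat_lit 300) (nat_lit 218) (nat_lit 202)) (XT.lf (nat_lit 0) (nat_lit 11752027191) (nat_lit 76) (nat_lit 74542480398) (nat_lit 76) (nat_lit 70981860593) (nat_lit 1) (nat_lit 4) (nat_lit 2) (nat_lit 5) (nat_lit 2) (nat_lit 4) (nat_lit 301) (nat_lit 218) (nat_lit 201))))) (XT.nd (nat_lit 156) (nat_lit 0) (nat_lit 0) (XT.nd (nat_lit 78) (nat_lit 0) (nat_lit 0) (XT.lf (nat_lit 0) (nat_lit 16770172251) (nat_lit 76) (nat_lit 78314711572)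 (nat_lit 76) (nat_lit 74656407378) (nat_lit 1) (nat_lit 4) (nat_lit 2) (nat_lit 5) (nat_lit 2) (nat_lit 4) (nat_lit 302) (nat_lit 218) (nat_lit 200)) (XT.lf (nat_lit 0) (nat_lit 22086360518) (nat_lit 76) (nat_lit 82434385914) (nat_lit 76) (nat_lit 78685633211) (nat_lit 1) (nat_lit 4) (nat_lit 2) (nat_lit 5) (nat_lit 2) (nat_lit 4) (nat_lit 303) (nat_lit 218) (nat_lit 199))) (XT.nd (nat_lit 78) (nat_lit 0) (nat_lit 0) (XT.lf (nat_lit 0) (nat_lit 27732095332) (nat_lit 76) (nat_lit 86925916309) (nat_lit 76) (nat_lit 83093414986) (nat_lit 1) (nat_lit 4) (nat_lit 2) (nat_lit 5) (nat_lit 2) (nat_lit 4) (nat_lit 304) (nat_lit 218) (nat_lit 198)) (XT.nd (nat_lit 78) (nat_lit 0) (nat_lit 0) (XT.lf (nat_lit 0) (nat_lit 33740832897) (nat_lit 76) (nat_lit 91815919232) (nat_lit 76) (nat_lit 87905872892) (nat_lit 1) (nat_lit 4) (nat_lit 2) (nat_lit 5) (nat_lit 2) (nat_lit 4) (nat_lit 305) (nat_lit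 218) (nat_lit 197)) (XT.lf (nat_lit 0) (nat_lit 40148180548) (nat_lit 76) (nat_lit 97133372480) (nat_lit 76) (nat_lit 93151525197) (nat_lit 1) (nat_lit 4) (nat_lit 2) (nat_lit 5) (nat_lit 2) (nat_lit 4) (nat_lit 306) (nat_lit 218) (nat_lit 196))))))))
noncomputable def xc12 : XT := (XT.nd (nat_lit 35568) (nat_lit 0) (nat_lit 0) (XT.nd (nat_lit 702) (nat_lit 0) (nat_lit 0) (XT.nd (nat_lit 312) (nat_lit 0) (nat_lit 0) (XT.nd (nat_lit 156) (nat_lit 0) (nat_lit 0) (XT.nd (nat_lit 78) (nat_lit 0) (nat_lit 0) (XT.lf (nat_lit 0) (nat_lit 46992107752) (nat_lit 76) (nat_lit 102909786886) (nat_lit 76) (nat_lit 98861457249) (nat_lit 1) (nat_lit 4) (nat_lit 2) (nat_lit 5) (nat_lit 2) (nat_lit 4) (nat_lit 307) (nat_lit 218) (nat_lit 195)) (XT.lf (nat_lit 0) (nat_lit 54313171114) (nat_lit 76) (nat_lit 109179393054) (nat_lit 76) (nat_lit 105069505681) (nat_lit 1) (nat_lit 4) (nat_lit 2) (nat_lit 5)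 (nat_lit 2) (nat_lit 4) (nat_lit 308) (nat_lit 218) (nat_lit 194))) (XT.nd (nat_lit 78) (nat_lit 0) (nat_lit 0) (XT.lf (nat_lit 0) (nat_lit 62154754715) (nat_lit 76) (nat_lit 115979344206) (nat_lit 76) (nat_lit 111812458930) (nat_lit 1) (nat_lit 4) (nat_lit 2) (nat_lit 5) (nat_lit 2) (nat_lit 4) (nat_lit 309) (nat_lit 218) (nat_lit 193)) (XT.lf (nat_lit 0) (nat_lit 70563327198) (nat_lit 76) (nat_lit 123349936348) (nat_lit 76) (nat_lit 119130275237) (nat_lit 1) (nat_lit 4) (nat_lit 2) (nat_lit 5) (nat_lit 2) (nat_lit 4) (nat_lit 310) (nat_lit 218) (nat_lit 192)))) (XT.nd (nat_lit 156) (nat_lit 0) (nat_lit 0) (XT.nd (nat_lit 78) (nat_lit 0) (nat_lit 0) (XT.lf (nat_lit 0) (nat_lit 79588717139) (nat_lit 76) (nat_lit 131334847064) (nat_lit 76) (nat_lit 127066319438) (nat_lit 1) (nat_lit 4) (nat_lit 2) (nat_lit 5) (nat_lit 2) (nat_lit 4) (nat_lit 311) (nat_lit 218) (nat_lit 191)) (XT.lf (nat_lit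 0) (nat_lit 89284408333) (nat_lit 76) (nat_lit 139981394344) (nat_lit 76) (nat_lit 135667619944) (nat_lit 1) (nat_lit 4) (nat_lit 2) (nat_lit 5) (nat_lit 2) (nat_lit 4) (nat_lit 312) (nat_lit 218) (nat_lit 190))) (XT.nd (nat_lit 78) (nat_lit 0) (nat_lit 0) (XT.lf (nat_lit 0) (nat_lit 99707856725) (nat_lit 76) (nat_lit 149340816985) (nat_lit 76) (nat_lit 144985147425) (nat_lit 1) (nat_lit 4) (nat_lit 2) (nat_lit 5) (nat_lit 2) (nat_lit 4) (nat_lit 313) (nat_lit 218) (nat_lit 189)) (XT.nd (nat_lit 78) (nat_lit 0) (nat_lit 0) (XT.lf (nat_lit 0) (nat_lit 110920830900) (nat_lit 76) (nat_lit 159468578234) (nat_lit 76) (nat_lit 155074116859) (nat_lit 1) (nat_lit 4) (nat_lit 2) (nat_lit 5) (nat_lit 2) (nat_lit 4) (nat_lit 314) (nat_lit 218) (nat_lit 188)) (XT.lf (nat_lit 0) (nat_lit 122989778112) (nat_lit 76) (nat_lit 170424694452) (nat_lit 76) (nat_lit 165994314730) (nat_lit 1) (nat_lit 4) (nat_lit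 2) (nat_lit 5) (nat_lit 2) (nat_lit 4) (nat_lit 315) (nat_lit 218) (nat_lit 187)))))) (XT.nd (nat_lit 312) (nat_lit 0) (nat_lit 0) (XT.nd (nat_lit 156) (nat_lit 0) (nat_lit 0) (XT.nd (nat_lit 78) (nat_lit 0) (nat_lit 0) (XT.lf (nat_lit 0) (nat_lit 135986218047) (nat_lit 76) (nat_lit 182274090774) (nat_lit 76) (nat_lit 177810453323) (nat_lit 1) (nat_lit 4) (nat_lit 2) (nat_lit 5) (nat_lit 2) (nat_lit 4) (nat_lit 316) (nat_lit 218) (nat_lit 186)) (XT.lf (nat_lit 0) (nat_lit 149987166647) (nat_lit 76) (nat_lit 195086985844) (nat_lit 76) (nat_lit 190592554199) (nat_lit 1) (nat_lit 4) (nat_lit 2) (nat_lit 5) (nat_lit 2) (nat_lit 4) (nat_lit 317) (nat_lit 218) (nat_lit 185))) (XT.nd (nat_lit 78) (nat_lit 0) (nat_lit 0) (XT.lf (nat_lit 0) (nat_lit 165075592495) (nat_lit 76) (nat_lit 208939307929) (nat_lit 76) (nat_lit 204416363142) (nat_lit 1) (nat_lit 4) (nat_lit 2) (nat_lit 5) (nat_lit 2)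 (nat_lit 4) (nat_lit 318) (nat_lit 218) (nat_lit 184)) (XT.lf (nat_lit 0) (nat_lit 181340908486) (nat_lit 76) (nat_lit 223913144864) (nat_lit 76) (nat_lit 219363799020) (nat_lit 1) (nat_lit 4) (nat_lit 2) (nat_lit 5) (nat_lit 2) (nat_lit 4) (nat_lit 319) (nat_lit 218) (nat_lit 183)))) (XT.nd (nat_lit 156) (nat_lit 0) (nat_lit 0) (XT.nd (nat_lit 78) (nat_lit 0) (nat_lit 0) (XT.lf (nat_lit 0) (nat_lit 198879501677) (nat_lit 76) (nat_lit 240097230497) (nat_lit 76) (nat_lit 235523439229) (nat_lit 1) (nat_lit 4) (nat_lit 2) (nat_lit 5) (nat_lit 2) (nat_lit 4) (nat_lit 320) (nat_lit 218) (nat_lit 182)) (XT.lf (nat_lit 0) (nat_lit 217795304473) (nat_lit 76) (nat_lit 257587470521) (nat_lit 76) (nat_lit 252991044602) (nat_lit 1) (nat_lit 4) (nat_lit 2) (nat_lit 5) (nat_lit 2) (nat_lit 4) (nat_lit 321) (nat_lit 218) (nat_lit 181))) (XT.nd (nat_lit 78) (nat_lit 0) (nat_lit 0) (XT.lf (nat_lit 0)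 (nat_lit 238200410519) (nat_lit 76) (nat_lit 276487510803) (nat_lit 76) (nat_lit 271870126873) (nat_lit 1) (nat_lit 4) (nat_lit 2) (nat_lit 5) (nat_lit 2) (nat_lit 4) (nat_lit 322) (nat_lit 218) (nat_lit 180)) (XT.nd (nat_lit 78) (nat_lit 0) (nat_lit 0) (XT.lf (nat_lit 0) (nat_lit 260215738962) (nat_lit 76) (nat_lit 296909351581) (nat_lit 76) (nat_lit 292272562086) (nat_lit 1) (nat_lit 4) (nat_lit 2) (nat_lit 5) (nat_lit 2) (nat_lit 4) (nat_lit 323) (nat_lit 218) (nat_lit 179)) (XT.lf (nat_lit 0) (nat_lit 283971751009) (nat_lit 76) (nat_lit 318974011172) (nat_lit 76) (nat_lit 314319253560) (nat_lit 1) (nat_lit 4) (nat_lit 2) (nat_lit 5) (nat_lit 2) (nat_lit 4) (nat_lit 324) (nat_lit 218) (nat_lit 178))))))) (XT.nd (nat_lit 702) (nat_lit 76) (nat_lit 0) (XT.nd (nat_lit 312) (nat_lit 76) (nat_lit 0) (XT.nd (nat_lit 156) (nat_lit 76) (nat_lit 0) (XT.nd (nat_lit 78) (nat_lit 0) (nat_lit 0)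 (XT.lf (nat_lit 0) (nat_lit 9382998561) (nat_lit 76) (nat_lit 4849107432) (nat_lit 76) (nat_lit 4849107432) (nat_lit 4) (nat_lit 4) (nat_lit 5) (nat_lit 5) (nat_lit 5) (nat_lit 4) (nat_lit 282) (nat_lit 219) (nat_lit 219)) (XT.lf (nat_lit 0) (nat_lit 27881242223) (nat_lit 76) (nat_lit 6759831623) (nat_lit 76) (nat_lit 6349965461) (nat_lit 4) (nat_lit 4) (nat_lit 5) (nat_lit 5) (nat_lit 5) (nat_lit 4) (nat_lit 283) (nat_lit 219) (nat_lit 218))) (XT.nd (nat_lit 78) (nat_lit 76) (nat_lit 0) (XT.lf (nat_lit 0) (nat_lit 37354468115) (nat_lit 76) (nat_lit 3745892414) (nat_lit 76) (nat_lit 2956520548) (nat_lit 4) (nat_lit 4) (nat_lit 5) (nat_lit 5) (nat_lit 5) (nat_lit 4) (nat_lit 284) (nat_lit 219) (nat_lit 217)) (XT.lf (nat_lit 0) (nat_lit 486154709) (nat_lit 152) (nat_lit 144148882) (nat_lit 76) (nat_lit 46747424458) (nat_lit 3) (nat_lit 5) (nat_lit 5) (nat_lit 5) (nat_lit 4) (nat_lit 4)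 (nat_lit 285) (nat_lit 219) (nat_lit 216)))) (XT.nd (nat_lit 156) (nat_lit 0) (nat_lit 0) (XT.nd (nat_lit 78) (nat_lit 0) (nat_lit 0) (XT.lf (nat_lit 0) (nat_lit 4066195324) (nat_lit 152) (nat_lit 44227756468) (nat_lit 0) (nat_lit 2669880076) (nat_lit 2) (nat_lit 5) (nat_lit 4) (nat_lit 4) (nat_lit 2) (nat_lit 4) (nat_lit 286) (nat_lit 219) (nat_lit 215)) (XT.lf (nat_lit 0) (nat_lit 7767767998) (nat_lit 152) (nat_lit 40993032490) (nat_lit 0) (nat_lit 6084534783) (nat_lit 2) (nat_lit 5) (nat_lit 4) (nat_lit 4) (nat_lit 2) (nat_lit 4) (nat_lit 287) (nat_lit 219) (nat_lit 214))) (XT.nd (nat_lit 78) (nat_lit 0) (nat_lit 0) (XT.lf (nat_lit 0) (nat_lit 11600604073) (nat_lit 152) (nat_lit 37793539806) (nat_lit 0) (nat_lit 9651706075) (nat_lit 2) (nat_lit 5) (nat_lit 4) (nat_lit 4) (nat_lit 2) (nat_lit 4) (nat_lit 288) (nat_lit 219) (nat_lit 213)) (XT.nd (nat_lit 78) (nat_lit 0) (nat_lit 0) (XT.lf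 (nat_lit 0) (nat_lit 15587416652) (nat_lit 152) (nat_lit 34610318459) (nat_lit 0) (nat_lit 13392532745) (nat_lit 2) (nat_lit 5) (nat_lit 4) (nat_lit 4) (nat_lit 2) (nat_lit 4) (nat_lit 289) (nat_lit 219) (nat_lit 212)) (XT.lf (nat_lit 0) (nat_lit 19751831293) (nat_lit 152) (nat_lit 31424504916) (nat_lit 0) (nat_lit 17329182653) (nat_lit 2) (nat_lit 5) (nat_lit 4) (nat_lit 4) (nat_lit 2) (nat_lit 4) (nat_lit 290) (nat_lit 219) (nat_lit 211)))))) (XT.nd (nat_lit 312) (nat_lit 76) (nat_lit 0) (XT.nd (nat_lit 156) (nat_lit 0) (nat_lit 0) (XT.nd (nat_lit 78) (nat_lit 0) (nat_lit 0) (XT.lf (nat_lit 0) (nat_lit 24118526006) (nat_lit 152) (nat_lit 28217220281) (nat_lit 0) (nat_lit 21484984096) (nat_lit 2) (nat_lit 5) (nat_lit 4) (nat_lit 4) (nat_lit 2) (nat_lit 4) (nat_lit 291) (nat_lit 219) (nat_lit 210)) (XT.lf (nat_lit 0) (nat_lit 28713377502) (nat_lit 152) (nat_lit 24969458423) (nat_lit 0)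 (nat_lit 25884564046) (nat_lit 2) (nat_lit 5) (nat_lit 4) (nat_lit 4) (nat_lit 2) (nat_lit 4) (nat_lit 292) (nat_lit 219) (nat_lit 209))) (XT.nd (nat_lit 78) (nat_lit 0) (nat_lit 0) (XT.lf (nat_lit 0) (nat_lit 33563614531) (nat_lit 152) (nat_lit 21661973346) (nat_lit 0) (nat_lit 30553994087) (nat_lit 2) (nat_lit 5) (nat_lit 4) (nat_lit 4) (nat_lit 2) (nat_lit 4) (nat_lit 293) (nat_lit 219) (nat_lit 208)) (XT.lf (nat_lit 0) (nat_lit 38697979237) (nat_lit 152) (nat_lit 18275165139) (nat_lit 0) (nat_lit 35520944915) (nat_lit 2) (nat_lit 5) (nat_lit 4) (nat_lit 4) (nat_lit 2) (nat_lit 4) (nat_lit 294) (nat_lit 219) (nat_lit 207)))) (XT.nd (nat_lit 156) (nat_lit 76) (nat_lit 0) (XT.nd (nat_lit 78) (nat_lit 0) (nat_lit 0) (XT.lf (nat_lit 0) (nat_lit 44146897485) (nat_lit 152) (nat_lit 14788963827) (nat_lit 0) (nat_lit 40814850315) (nat_lit 2) (nat_lit 5) (nat_lit 4) (nat_lit 4) (nat_lit 2)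 (nat_lit 4) (nat_lit 295) (nat_lit 219) (nat_lit 206)) (XT.lf (nat_lit 0) (nat_lit 49942659162) (nat_lit 152) (nat_lit 11182710438) (nat_lit 0) (nat_lit 46467081575) (nat_lit 2) (nat_lit 5) (nat_lit 4) (nat_lit 4) (nat_lit 2) (nat_lit 4) (nat_lit 296) (nat_lit 219) (nat_lit 205))) (XT.nd (nat_lit 78) (nat_lit 76) (nat_lit 0) (XT.lf (nat_lit 0) (nat_lit 56119609522) (nat_lit 152) (nat_lit 7435034584) (nat_lit 0) (nat_lit 52511133402) (nat_lit 2) (nat_lit 5) (nat_lit 4) (nat_lit 4) (nat_lit 2) (nat_lit 4) (nat_lit 297) (nat_lit 219) (nat_lit 204)) (XT.nd (nat_lit 78) (nat_lit 76) (nat_lit 0) (XT.lf (nat_lit 0) (nat_lit 62714352715) (nat_lit 152) (nat_lit 3523727814) (nat_lit 0) (nat_lit 58982822397) (nat_lit 2) (nat_lit 5) (nat_lit 4) (nat_lit 4) (nat_lit 2) (nat_lit 4) (nat_lit 298) (nat_lit 219) (nat_lit 203)) (XT.lf (nat_lit 0) (nat_lit 593379846) (nat_lit 76) (nat_lit 69181853176) (nat_lit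 76) (nat_lit 65336383787) (nat_lit 1) (nat_lit 4) (nat_lit 2) (nat_lit 5) (nat_lit 2) (nat_lit 4) (nat_lit 299) (nat_lit 219) (nat_lit 202))))))))
noncomputable def xc13 : XT := (XT.nd (nat_lit 1404) (nat_lit 0) (nat_lit 0) (XT.nd (nat_lit 702) (nat_lit 0) (nat_lit 0) (XT.nd (nat_lit 312) (nat_lit 0) (nat_lit 0) (XT.nd (nat_lit 156) (nat_lit 0) (nat_lit 0) (XT.nd (nat_lit 78) (nat_lit 0) (nat_lit 0) (XT.lf (nat_lit 0) (nat_lit 5045071750) (nat_lit 76) (nat_lit 72349940792) (nat_lit 76) (nat_lit 68398972262) (nat_lit 1) (nat_lit 4) (nat_lit 2) (nat_lit 5) (nat_lit 2) (nat_lit 4) (nat_lit 300) (nat_lit 219) (nat_lit 201)) (XT.lf (nat_lit 0) (nat_lit 9741217936) (nat_lit 76) (nat_lit 75820793265) (nat_lit 76) (nat_lit 71772140345) (nat_lit 1) (nat_lit 4) (nat_lit 2) (nat_lit 5) (nat_lit 2) (nat_lit 4) (nat_lit 301) (nat_lit 219) (nat_lit 200))) (XT.nd (nat_lit 78) (nat_lit 0) (nat_lit 0)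 (XT.lf (nat_lit 0) (nat_lit 14709647421) (nat_lit 76) (nat_lit 79614978609) (nat_lit 76) (nat_lit 75475877180) (nat_lit 1) (nat_lit 4) (nat_lit 2) (nat_lit 5) (nat_lit 2) (nat_lit 4) (nat_lit 302) (nat_lit 219) (nat_lit 199)) (XT.lf (nat_lit 0) (nat_lit 19979802748) (nat_lit 76) (nat_lit 83754980886) (nat_lit 76) (nat_lit 79532130838) (nat_lit 1) (nat_lit 4) (nat_lit 2) (nat_lit 5) (nat_lit 2) (nat_lit 4) (nat_lit 303) (nat_lit 219) (nat_lit 198)))) (XT.nd (nat_lit 156) (nat_lit 0) (nat_lit 0) (XT.nd (nat_lit 78) (nat_lit 0) (nat_lit 0) (XT.lf (nat_lit 0) (nat_lit 25582914468) (nat_lit 76) (nat_lit 88265333443) (nat_lit 76) (nat_lit 83964938377) (nat_lit 1) (nat_lit 4) (nat_lit 2) (nat_lit 5) (nat_lit 2) (nat_lit 4) (nat_lit 304) (nat_lit 219) (nat_lit 197)) (XT.lf (nat_lit 0) (nat_lit 31552186207) (nat_lit 76) (nat_lit 93172764294) (nat_lit 76) (nat_lit 88800568286) (nat_lit 1) (nat_lit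 4) (nat_lit 2) (nat_lit 5) (nat_lit 2) (nat_lit 4) (nat_lit 305) (nat_lit 219) (nat_lit 196))) (XT.nd (nat_lit 78) (nat_lit 0) (nat_lit 0) (XT.lf (nat_lit 0) (nat_lit 37922991426) (nat_lit 76) (nat_lit 98506354512) (nat_lit 76) (nat_lit 94067676150) (nat_lit 1) (nat_lit 4) (nat_lit 2) (nat_lit 5) (nat_lit 2) (nat_lit 4) (nat_lit 306) (nat_lit 219) (nat_lit 195)) (XT.nd (nat_lit 78) (nat_lit 0) (nat_lit 0) (XT.lf (nat_lit 0) (nat_lit 44733083044) (nat_lit 76) (nat_lit 104297710557) (nat_lit 76) (nat_lit 99797474460) (nat_lit 1) (nat_lit 4) (nat_lit 2) (nat_lit 5) (nat_lit 2) (nat_lit 4) (nat_lit 307) (nat_lit 219) (nat_lit 194)) (XT.lf (nat_lit 0) (nat_lit 52022817161) (nat_lit 76) (nat_lit 110581151577) (nat_lit 76) (nat_lit 106023917576) (nat_lit 1) (nat_lit 4) (nat_lit 2) (nat_lit 5) (nat_lit 2) (nat_lit 4) (nat_lit 308) (nat_lit 219) (nat_lit 193)))))) (XT.nd (nat_lit 312) (nat_lit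 0) (nat_lit 0) (XT.nd (nat_lit 156) (nat_lit 0) (nat_lit 0) (XT.nd (nat_lit 78) (nat_lit 0) (nat_lit 0) (XT.lf (nat_lit 0) (nat_lit 59835392201) (nat_lit 76) (nat_lit 117393912776) (nat_lit 76) (nat_lit 112783902939) (nat_lit 1) (nat_lit 4) (nat_lit 2) (nat_lit 5) (nat_lit 2) (nat_lit 4) (nat_lit 309) (nat_lit 219) (nat_lit 192)) (XT.lf (nat_lit 0) (nat_lit 68217104905) (nat_lit 76) (nat_lit 124776366073) (nat_lit 76) (nat_lit 120117489722) (nat_lit 1) (nat_lit 4) (nat_lit 2) (nat_lit 5) (nat_lit 2) (nat_lit 4) (nat_lit 310) (nat_lit 219) (nat_lit 191))) (XT.nd (nat_lit 78) (nat_lit 0) (nat_lit 0) (XT.lf (nat_lit 0) (nat_lit 77217624682) (nat_lit 76) (nat_lit 132772259341) (nat_lit 76) (nat_lit 128068136216) (nat_lit 1) (nat_lit 4) (nat_lit 2) (nat_lit 5) (nat_lit 2) (nat_lit 4) (nat_lit 311) (nat_lit 219) (nat_lit 190)) (XT.lf (nat_lit 0) (nat_lit 86890287944) (nat_lit 76) (nat_lit 141428975649)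 (nat_lit 76) (nat_lit 136682957364) (nat_lit 1) (nat_lit 4) (nat_lit 2) (nat_lit 5) (nat_lit 2) (nat_lit 4) (nat_lit 312) (nat_lit 219) (nat_lit 189)))) (XT.nd (nat_lit 156) (nat_lit 0) (nat_lit 0) (XT.nd (nat_lit 78) (nat_lit 0) (nat_lit 0) (XT.lf (nat_lit 0) (nat_lit 97292414178) (nat_lit 76) (nat_lit 150797814057) (nat_lit 76) (nat_lit 146013003957) (nat_lit 1) (nat_lit 4) (nat_lit 2) (nat_lit 5) (nat_lit 2) (nat_lit 4) (nat_lit 313) (nat_lit 219) (nat_lit 188)) (XT.lf (nat_lit 0) (nat_lit 108485645614) (nat_lit 76) (nat_lit 160934293609) (nat_lit 76) (nat_lit 156113565162) (nat_lit 1) (nat_lit 4) (nat_lit 2) (nat_lit 5) (nat_lit 2) (nat_lit 4) (nat_lit 314) (nat_lit 219) (nat_lit 187))) (XT.nd (nat_lit 78) (nat_lit 0) (nat_lit 0) (XT.lf (nat_lit 0) (nat_lit 120536312512) (nat_lit 76) (nat_lit 171898482330) (nat_lit 76) (nat_lit 167044496154) (nat_lit 1) (nat_lit 4) (nat_lit 2) (nat_lit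 5) (nat_lit 2) (nat_lit 4) (nat_lit 315) (nat_lit 219) (nat_lit 186)) (XT.nd (nat_lit 78) (nat_lit 0) (nat_lit 0) (XT.lf (nat_lit 0) (nat_lit 133515826231) (nat_lit 76) (nat_lit 183755353191) (nat_lit 76) (nat_lit 178870572822) (nat_lit 1) (nat_lit 4) (nat_lit 2) (nat_lit 5) (nat_lit 2) (nat_lit 4) (nat_lit 316) (nat_lit 219) (nat_lit 185)) (XT.lf (nat_lit 0) (nat_lit 147501102408) (nat_lit 76) (nat_lit 196575169131) (nat_lit 76) (nat_lit 191661875620) (nat_lit 1) (nat_lit 4) (nat_lit 2) (nat_lit 5) (nat_lit 2) (nat_lit 4) (nat_lit 317) (nat_lit 219) (nat_lit 184))))))) (XT.nd (nat_lit 34710) (nat_lit 0) (nat_lit 76) (XT.nd (nat_lit 312) (nat_lit 0) (nat_lit 0) (XT.nd (nat_lit 156) (nat_lit 0) (nat_lit 0) (XT.nd (nat_lit 78) (nat_lit 0) (nat_lit 0) (XT.lf (nat_lit 0) (nat_lit 162575016754) (nat_lit 76) (nat_lit 210433899429) (nat_lit 76) (nat_lit 205494204860) (nat_lit 1) (nat_lit 4)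 (nat_lit 2) (nat_lit 5) (nat_lit 2) (nat_lit 4) (nat_lit 318) (nat_lit 219) (nat_lit 183)) (XT.lf (nat_lit 0) (nat_lit 178826896168) (nat_lit 76) (nat_lit 225413669895) (nat_lit 76) (nat_lit 220449529902) (nat_lit 1) (nat_lit 4) (nat_lit 2) (nat_lit 5) (nat_lit 2) (nat_lit 4) (nat_lit 319) (nat_lit 219) (nat_lit 182))) (XT.nd (nat_lit 78) (nat_lit 0) (nat_lit 0) (XT.lf (nat_lit 0) (nat_lit 196353048085) (nat_lit 76) (nat_lit 241603249538) (nat_lit 76) (nat_lit 236616474893) (nat_lit 1) (nat_lit 4) (nat_lit 2) (nat_lit 5) (nat_lit 2) (nat_lit 4) (nat_lit 320) (nat_lit 219) (nat_lit 181)) (XT.lf (nat_lit 0) (nat_lit 215257331181) (nat_lit 76) (nat_lit 259098576608) (nat_lit 76) (nat_lit 254090843953) (nat_lit 1) (nat_lit 4) (nat_lit 2) (nat_lit 5) (nat_lit 2) (nat_lit 4) (nat_lit 321) (nat_lit 219) (nat_lit 180)))) (XT.nd (nat_lit 156) (nat_lit 0) (nat_lit 0) (XT.nd (nat_lit 78) (nat_lit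 0) (nat_lit 0) (XT.lf (nat_lit 0) (nat_lit 235651770840) (nat_lit 76) (nat_lit 278003327117) (nat_lit 76) (nat_lit 272976188897) (nat_lit 1) (nat_lit 4) (nat_lit 2) (nat_lit 5) (nat_lit 2) (nat_lit 4) (nat_lit 322) (nat_lit 219) (nat_lit 179)) (XT.lf (nat_lit 0) (nat_lit 257657222998) (nat_lit 76) (nat_lit 298429529218) (nat_lit 76) (nat_lit 293384422881) (nat_lit 1) (nat_lit 4) (nat_lit 2) (nat_lit 5) (nat_lit 2) (nat_lit 4) (nat_lit 323) (nat_lit 219) (nat_lit 178))) (XT.nd (nat_lit 34086) (nat_lit 0) (nat_lit 228) (XT.lf (nat_lit 0) (nat_lit 281404090337) (nat_lit 76) (nat_lit 320498227069) (nat_lit 76) (nat_lit 315436483588) (nat_lit 1) (nat_lit 4) (nat_lit 2) (nat_lit 5) (nat_lit 2) (nat_lit 4) (nat_lit 324) (nat_lit 219) (nat_lit 177)) (XT.nd (nat_lit 78) (nat_lit 0) (nat_lit 0) (XT.lf (nat_lit 0) (nat_lit 801682404) (nat_lit 76) (nat_lit 7885411990) (nat_lit 76) (nat_lit 7885411990)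 (nat_lit 4) (nat_lit 4) (nat_lit 5) (nat_lit 5) (nat_lit 5) (nat_lit 4) (nat_lit 280) (nat_lit 220) (nat_lit 220)) (XT.lf (nat_lit 0) (nat_lit 9954716549) (nat_lit 76) (nat_lit 13021110234) (nat_lit 76) (nat_lit 12578454779) (nat_lit 4) (nat_lit 4) (nat_lit 5) (nat_lit 5) (nat_lit 5) (nat_lit 4) (nat_lit 281) (nat_lit 220) (nat_lit 219)))))) (XT.nd (nat_lit 390) (nat_lit 0) (nat_lit 0) (XT.nd (nat_lit 156) (nat_lit 152) (nat_lit 0) (XT.nd (nat_lit 78) (nat_lit 0) (nat_lit 0) (XT.lf (nat_lit 0) (nat_lit 18573238508) (nat_lit 76) (nat_lit 10223695254) (nat_lit 76) (nat_lit 9371173639) (nat_lit 4) (nat_lit 4) (nat_lit 5) (nat_lit 5) (nat_lit 5) (nat_lit 4) (nat_lit 282) (nat_lit 220) (nat_lit 218)) (XT.lf (nat_lit 0) (nat_lit 27510003407) (nat_lit 76) (nat_lit 7362001769) (nat_lit 76) (nat_lit 6129974448) (nat_lit 4) (nat_lit 4) (nat_lit 5) (nat_lit 5) (nat_lit 5) (nat_lit 4) (nat_lit 283)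 (nat_lit 220) (nat_lit 217))) (XT.nd (nat_lit 78) (nat_lit 152) (nat_lit 0) (XT.lf (nat_lit 0) (nat_lit 36817969854) (nat_lit 76) (nat_lit 4419071593) (nat_lit 76) (nat_lit 2835650101) (nat_lit 4) (nat_lit 4) (nat_lit 5) (nat_lit 5) (nat_lit 5) (nat_lit 4) (nat_lit 284) (nat_lit 220) (nat_lit 216)) (XT.nd (nat_lit 78) (nat_lit 76) (nat_lit 0) (XT.lf (nat_lit 0) (nat_lit 514315723) (nat_lit 152) (nat_lit 854439231) (nat_lit 76) (nat_lit 46029270260) (nat_lit 3) (nat_lit 5) (nat_lit 5) (nat_lit 5) (nat_lit 4) (nat_lit 4) (nat_lit 285) (nat_lit 220) (nat_lit 215)) (XT.lf (nat_lit 0) (nat_lit 3985581302) (nat_lit 152) (nat_lit 45123343730) (nat_lit 0) (nat_lit 1880771464) (nat_lit 2) (nat_lit 5) (nat_lit 4) (nat_lit 4) (nat_lit 2) (nat_lit 4) (nat_lit 286) (nat_lit 220) (nat_lit 214))))) (XT.nd (nat_lit 156) (nat_lit 0) (nat_lit 0) (XT.nd (nat_lit 78) (nat_lit 0) (nat_lit 0) (XT.lf (nat_lit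 0) (nat_lit 7607893200) (nat_lit 152) (nat_lit 42029970335) (nat_lit 0) (nat_lit 5237418579) (nat_lit 2) (nat_lit 5) (nat_lit 4) (nat_lit 4) (nat_lit 2) (nat_lit 4) (nat_lit 287) (nat_lit 220) (nat_lit 213)) (XT.lf (nat_lit 0) (nat_lit 11367339669) (nat_lit 152) (nat_lit 38961357820) (nat_lit 0) (nat_lit 8750879138) (nat_lit 2) (nat_lit 5) (nat_lit 4) (nat_lit 4) (nat_lit 2) (nat_lit 4) (nat_lit 288) (nat_lit 220) (nat_lit 212))) (XT.nd (nat_lit 78) (nat_lit 0) (nat_lit 0) (XT.lf (nat_lit 0) (nat_lit 15286198909) (nat_lit 152) (nat_lit 35899321815) (nat_lit 0) (nat_lit 12441973646) (nat_lit 2) (nat_lit 5) (nat_lit 4) (nat_lit 4) (nat_lit 2) (nat_lit 4) (nat_lit 289) (nat_lit 220) (nat_lit 211)) (XT.nd (nat_lit 78) (nat_lit 0) (nat_lit 0) (XT.lf (nat_lit 0) (nat_lit 19387693790) (nat_lit 152) (nat_lit 32825716922) (nat_lit 0) (nat_lit 16332575257) (nat_lit 2) (nat_lit 5) (nat_lit 4) (nat_lit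 4) (nat_lit 2) (nat_lit 4) (nat_lit 290) (nat_lit 220) (nat_lit 210)) (XT.lf (nat_lit 0) (nat_lit 23696129468) (nat_lit 152) (nat_lit 29722329185) (nat_lit 0) (nat_lit 20445739389) (nat_lit 2) (nat_lit 5) (nat_lit 4) (nat_lit 4) (nat_lit 2) (nat_lit 4) (nat_lit 291) (nat_lit 220) (nat_lit 209))))))))
noncomputable def xc14 : XT := (XT.nd (nat_lit 1404) (nat_lit 0) (nat_lit 0) (XT.nd (nat_lit 702) (nat_lit 0) (nat_lit 0) (XT.nd (nat_lit 312) (nat_lit 76) (nat_lit 0) (XT.nd (nat_lit 156) (nat_lit 0) (nat_lit 0) (XT.nd (nat_lit 78) (nat_lit 0) (nat_lit 0) (XT.lf (nat_lit 0) (nat_lit 28237037413) (nat_lit 152) (nat_lit 26570768159) (nat_lit 0) (nat_lit 24805840346) (nat_lit 2) (nat_lit 5) (nat_lit 4) (nat_lit 4) (nat_lit 2) (nat_lit 4) (nat_lit 292) (nat_lit 220) (nat_lit 208)) (XT.lf (nat_lit 0) (nat_lit 33037326708) (nat_lit 152) (nat_lit 23352357926) (nat_lit 0) (nat_lit 29438715764) (nat_lit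 2) (nat_lit 5) (nat_lit 4) (nat_lit 4) (nat_lit 2) (nat_lit 4) (nat_lit 293) (nat_lit 220) (nat_lit 207))) (XT.nd (nat_lit 78) (nat_lit 0) (nat_lit 0) (XT.lf (nat_lit 0) (nat_lit 38125443513) (nat_lit 152) (nat_lit 20048026426) (nat_lit 0) (nat_lit 34371819719) (nat_lit 2) (nat_lit 5) (nat_lit 4) (nat_lit 4) (nat_lit 2) (nat_lit 4) (nat_lit 294) (nat_lit 220) (nat_lit 206)) (XT.lf (nat_lit 0) (nat_lit 43531539631) (nat_lit 152) (nat_lit 16638192435) (nat_lit 0) (nat_lit 39634385421) (nat_lit 2) (nat_lit 5) (nat_lit 4) (nat_lit 4) (nat_lit 2) (nat_lit 4) (nat_lit 295) (nat_lit 220) (nat_lit 205)))) (XT.nd (nat_lit 156) (nat_lit 76) (nat_lit 0) (XT.nd (nat_lit 78) (nat_lit 0) (nat_lit 0) (XT.lf (nat_lit 0) (nat_lit 49287651187) (nat_lit 152) (nat_lit 13102649530) (nat_lit 0) (nat_lit 45257598444) (nat_lit 2) (nat_lit 5) (nat_lit 4) (nat_lit 4) (nat_lit 2) (nat_lit 4) (nat_lit 296) (nat_lit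 220) (nat_lit 204)) (XT.lf (nat_lit 0) (nat_lit 55427888472) (nat_lit 152) (nat_lit 9420446345) (nat_lit 0) (nat_lit 51274781531) (nat_lit 2) (nat_lit 5) (nat_lit 4) (nat_lit 4) (nat_lit 2) (nat_lit 4) (nat_lit 297) (nat_lit 220) (nat_lit 203))) (XT.nd (nat_lit 78) (nat_lit 76) (nat_lit 0) (XT.lf (nat_lit 0) (nat_lit 61988638077) (nat_lit 152) (nat_lit 5569762417) (nat_lit 0) (nat_lit 57721592065) (nat_lit 2) (nat_lit 5) (nat_lit 4) (nat_lit 4) (nat_lit 2) (nat_lit 4) (nat_lit 298) (nat_lit 220) (nat_lit 202)) (XT.nd (nat_lit 78) (nat_lit 76) (nat_lit 0) (XT.lf (nat_lit 0) (nat_lit 69008778519) (nat_lit 152) (nat_lit 1527778878) (nat_lit 0) (nat_lit 64636233366) (nat_lit 2) (nat_lit 5) (nat_lit 4) (nat_lit 4) (nat_lit 2) (nat_lit 4) (nat_lit 299) (nat_lit 220) (nat_lit 201)) (XT.lf (nat_lit 0) (nat_lit 2819704933) (nat_lit 76) (nat_lit 73754229192) (nat_lit 76) (nat_lit 69283999649) (nat_lit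 1) (nat_lit 4) (nat_lit 2) (nat_lit 5) (nat_lit 2) (nat_lit 4) (nat_lit 300) (nat_lit 220) (nat_lit 200)))))) (XT.nd (nat_lit 312) (nat_lit 0) (nat_lit 0) (XT.nd (nat_lit 156) (nat_lit 0) (nat_lit 0) (XT.nd (nat_lit 78) (nat_lit 0) (nat_lit 0) (XT.lf (nat_lit 0) (nat_lit 7466135544) (nat_lit 76) (nat_lit 77247035834) (nat_lit 76) (nat_lit 72686357783) (nat_lit 1) (nat_lit 4) (nat_lit 2) (nat_lit 5) (nat_lit 2) (nat_lit 4) (nat_lit 301) (nat_lit 220) (nat_lit 199)) (XT.lf (nat_lit 0) (nat_lit 12388532088) (nat_lit 76) (nat_lit 81061549114) (nat_lit 76) (nat_lit 76417122443) (nat_lit 1) (nat_lit 4) (nat_lit 2) (nat_lit 5) (nat_lit 2) (nat_lit 4) (nat_lit 302) (nat_lit 220) (nat_lit 198))) (XT.nd (nat_lit 78) (nat_lit 0) (nat_lit 0) (XT.lf (nat_lit 0) (nat_lit 17616064323) (nat_lit 76) (nat_lit 85220373553) (nat_lit 76) (nat_lit 80498401864) (nat_lit 1) (nat_lit 4) (nat_lit 2) (nat_lit 5)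 (nat_lit 2) (nat_lit 4) (nat_lit 303) (nat_lit 220) (nat_lit 197)) (XT.lf (nat_lit 0) (nat_lit 23179710217) (nat_lit 76) (nat_lit 89748154038) (nat_lit 76) (nat_lit 84954381407) (nat_lit 1) (nat_lit 4) (nat_lit 2) (nat_lit 5) (nat_lit 2) (nat_lit 4) (nat_lit 304) (nat_lit 220) (nat_lit 196)))) (XT.nd (nat_lit 156) (nat_lit 0) (nat_lit 0) (XT.nd (nat_lit 78) (nat_lit 0) (nat_lit 0) (XT.lf (nat_lit 0) (nat_lit 29112439523) (nat_lit 76) (nat_lit 94671721860) (nat_lit 76) (nat_lit 89811466875) (nat_lit 1) (nat_lit 4) (nat_lit 2) (nat_lit 5) (nat_lit 2) (nat_lit 4) (nat_lit 305) (nat_lit 220) (nat_lit 195)) (XT.lf (nat_lit 0) (nat_lit 35449409156) (nat_lit 76) (nat_lit 100020253717) (nat_lit 76) (nat_lit 95098440997) (nat_lit 1) (nat_lit 4) (nat_lit 2) (nat_lit 5) (nat_lit 2) (nat_lit 4) (nat_lit 306) (nat_lit 220) (nat_lit 194))) (XT.nd (nat_lit 78) (nat_lit 0) (nat_lit 0) (XT.lf (nat_lit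 0) (nat_lit 42228171529) (nat_lit 76) (nat_lit 105825444613) (nat_lit 76) (nat_lit 100846633990) (nat_lit 1) (nat_lit 4) (nat_lit 2) (nat_lit 5) (nat_lit 2) (nat_lit 4) (nat_lit 307) (nat_lit 220) (nat_lit 193)) (XT.nd (nat_lit 78) (nat_lit 0) (nat_lit 0) (XT.lf (nat_lit 0) (nat_lit 49488897085) (nat_lit 76) (nat_lit 112121695680) (nat_lit 76) (nat_lit 107090109220) (nat_lit 1) (nat_lit 4) (nat_lit 2) (nat_lit 5) (nat_lit 2) (nat_lit 4) (nat_lit 308) (nat_lit 220) (nat_lit 192)) (XT.lf (nat_lit 0) (nat_lit 57274612347) (nat_lit 76) (nat_lit 118946318034) (nat_lit 76) (nat_lit 113865865060) (nat_lit 1) (nat_lit 4) (nat_lit 2) (nat_lit 5) (nat_lit 2) (nat_lit 4) (nat_lit 309) (nat_lit 220) (nat_lit 191))))))) (XT.nd (nat_lit 702) (nat_lit 0) (nat_lit 0) (XT.nd (nat_lit 312) (nat_lit 0) (nat_lit 0) (XT.nd (nat_lit 156) (nat_lit 0) (nat_lit 0) (XT.nd (nat_lit 78) (nat_lit 0) (nat_lit 0) (XT.lf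 (nat_lit 0) (nat_lit 65631454886) (nat_lit 76) (nat_lit 126339753883) (nat_lit 76) (nat_lit 121214054135) (nat_lit 1) (nat_lit 4) (nat_lit 2) (nat_lit 5) (nat_lit 2) (nat_lit 4) (nat_lit 310) (nat_lit 220) (nat_lit 190)) (XT.lf (nat_lit 0) (nat_lit 74608946731) (nat_lit 76) (nat_lit 134345816178) (nat_lit 76) (nat_lit 129178221271) (nat_lit 1) (nat_lit 4) (nat_lit 2) (nat_lit 5) (nat_lit 2) (nat_lit 4) (nat_lit 311) (nat_lit 220) (nat_lit 189))) (XT.nd (nat_lit 78) (nat_lit 0) (nat_lit 0) (XT.lf (nat_lit 0) (nat_lit 84260287835) (nat_lit 76) (nat_lit 143011948254) (nat_lit 76) (nat_lit 137805561531) (nat_lit 1) (nat_lit 4) (nat_lit 2) (nat_lit 5) (nat_lit 2) (nat_lit 4) (nat_lit 312) (nat_lit 220) (nat_lit 188)) (XT.lf (nat_lit 0) (nat_lit 94642671331) (nat_lit 76) (nat_lit 152389504965) (nat_lit 76) (nat_lit 147147199895) (nat_lit 1) (nat_lit 4) (nat_lit 2) (nat_lit 5) (nat_lit 2) (nat_lit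 4) (nat_lit 313) (nat_lit 220) (nat_lit 187)))) (XT.nd (nat_lit 156) (nat_lit 0) (nat_lit 0) (XT.nd (nat_lit 78) (nat_lit 0) (nat_lit 0) (XT.lf (nat_lit 0) (nat_lit 105817622452) (nat_lit 76) (nat_lit 162534057019) (nat_lit 76) (nat_lit 157258494220) (nat_lit 1) (nat_lit 4) (nat_lit 2) (nat_lit 5) (nat_lit 2) (nat_lit 4) (nat_lit 314) (nat_lit 220) (nat_lit 186)) (XT.lf (nat_lit 0) (nat_lit 117851363133) (nat_lit 76) (nat_lit 173505720280) (nat_lit 76) (nat_lit 168199363288) (nat_lit 1) (nat_lit 4) (nat_lit 2) (nat_lit 5) (nat_lit 2) (nat_lit 4) (nat_lit 315) (nat_lit 220) (nat_lit 185))) (XT.nd (nat_lit 78) (nat_lit 0) (nat_lit 0) (XT.lf (nat_lit 0) (nat_lit 130815204430) (nat_lit 76) (nat_lit 185369512012) (nat_lit 76) (nat_lit 180034641877) (nat_lit 1) (nat_lit 4) (nat_lit 2) (nat_lit 5) (nat_lit 2) (nat_lit 4) (nat_lit 316) (nat_lit 220) (nat_lit 184)) (XT.nd (nat_lit 78) (nat_lit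 0) (nat_lit 0) (XT.lf (nat_lit 0) (nat_lit 144785969104) (nat_lit 76) (nat_lit 198195736165) (nat_lit 76) (nat_lit 192834464972) (nat_lit 1) (nat_lit 4) (nat_lit 2) (nat_lit 5) (nat_lit 2) (nat_lit 4) (nat_lit 317) (nat_lit 220) (nat_lit 183)) (XT.lf (nat_lit 0) (nat_lit 159846446873) (nat_lit 76) (nat_lit 212060399993) (nat_lit 76) (nat_lit 206674683377) (nat_lit 1) (nat_lit 4) (nat_lit 2) (nat_lit 5) (nat_lit 2) (nat_lit 4) (nat_lit 318) (nat_lit 220) (nat_lit 182)))))) (XT.nd (nat_lit 312) (nat_lit 0) (nat_lit 0) (XT.nd (nat_lit 156) (nat_lit 0) (nat_lit 0) (XT.nd (nat_lit 78) (nat_lit 0) (nat_lit 0) (XT.lf (nat_lit 0) (nat_lit 176085885013) (nat_lit 76) (nat_lit 227045664468) (nat_lit 76) (nat_lit 221637313201) (nat_lit 1) (nat_lit 4) (nat_lit 2) (nat_lit 5) (nat_lit 2) (nat_lit 4) (nat_lit 319) (nat_lit 220) (nat_lit 181)) (XT.lf (nat_lit 0) (nat_lit 193600517231) (nat_lit 76) (nat_lit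 243240331157) (nat_lit 76) (nat_lit 237811021879) (nat_lit 1) (nat_lit 4) (nat_lit 2) (nat_lit 5) (nat_lit 2) (nat_lit 4) (nat_lit 320) (nat_lit 220) (nat_lit 180))) (XT.nd (nat_lit 78) (nat_lit 0) (nat_lit 0) (XT.lf (nat_lit 0) (nat_lit 212494133941) (nat_lit 76) (nat_lit 260740368455) (nat_lit 76) (nat_lit 255291653612) (nat_lit 1) (nat_lit 4) (nat_lit 2) (nat_lit 5) (nat_lit 2) (nat_lit 4) (nat_lit 321) (nat_lit 220) (nat_lit 179)) (XT.lf (nat_lit 0) (nat_lit 232878697314) (nat_lit 76) (nat_lit 279649480287) (nat_lit 76) (nat_lit 274182797328) (nat_lit 1) (nat_lit 4) (nat_lit 2) (nat_lit 5) (nat_lit 2) (nat_lit 4) (nat_lit 322) (nat_lit 220) (nat_lit 178)))) (XT.nd (nat_lit 34008) (nat_lit 0) (nat_lit 228) (XT.nd (nat_lit 78) (nat_lit 0) (nat_lit 0) (XT.lf (nat_lit 0) (nat_lit 254875004765) (nat_lit 76) (nat_lit 300079720648) (nat_lit 76) (nat_lit 294596400544) (nat_lit 1) (nat_lit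 4) (nat_lit 2) (nat_lit 5) (nat_lit 2) (nat_lit 4) (nat_lit 323) (nat_lit 220) (nat_lit 177)) (XT.lf (nat_lit 0) (nat_lit 278613404780) (nat_lit 76) (nat_lit 322152157631) (nat_lit 76) (nat_lit 316653432763) (nat_lit 1) (nat_lit 4) (nat_lit 2) (nat_lit 5) (nat_lit 2) (nat_lit 4) (nat_lit 324) (nat_lit 220) (nat_lit 176))) (XT.nd (nat_lit 78) (nat_lit 76) (nat_lit 0) (XT.lf (nat_lit 0) (nat_lit 3763363995) (nat_lit 152) (nat_lit 6906472032) (nat_lit 0) (nat_lit 3763363995) (nat_lit 5) (nat_lit 5) (nat_lit 7) (nat_lit 4) (nat_lit 5) (nat_lit 4) (nat_lit 278) (nat_lit 221) (nat_lit 221)) (XT.nd (nat_lit 78) (nat_lit 76) (nat_lit 0) (XT.lf (nat_lit 0) (nat_lit 12538849160) (nat_lit 152) (nat_lit 6321295624) (nat_lit 0) (nat_lit 12060781269) (nat_lit 5) (nat_lit 5) (nat_lit 7) (nat_lit 4) (nat_lit 5) (nat_lit 4) (nat_lit 279) (nat_lit 221) (nat_lit 220)) (XT.lf (nat_lit 0) (nat_lit 1395185503)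 (nat_lit 76) (nat_lit 16338342802) (nat_lit 76) (nat_lit 15417619457) (nat_lit 4) (nat_lit 4) (nat_lit 5) (nat_lit 5) (nat_lit 5) (nat_lit 4) (nat_lit 280) (nat_lit 221) (nat_lit 219))))))))
noncomputable def xc15 : XT := (XT.nd (nat_lit 1404) (nat_lit 76) (nat_lit 0) (XT.nd (nat_lit 702) (nat_lit 0) (nat_lit 0) (XT.nd (nat_lit 312) (nat_lit 152) (nat_lit 0) (XT.nd (nat_lit 156) (nat_lit 0) (nat_lit 0) (XT.nd (nat_lit 78) (nat_lit 0) (nat_lit 0) (XT.lf (nat_lit 0) (nat_lit 9553778628) (nat_lit 76) (nat_lit 13671453991) (nat_lit 76) (nat_lit 12340864485) (nat_lit 4) (nat_lit 4) (nat_lit 5) (nat_lit 5) (nat_lit 5) (nat_lit 4) (nat_lit 281) (nat_lit 221) (nat_lit 218)) (XT.lf (nat_lit 0) (nat_lit 17993820386) (nat_lit 76) (nat_lit 10950728768) (nat_lit 76) (nat_lit 9240633557) (nat_lit 4) (nat_lit 4) (nat_lit 5) (nat_lit 5) (nat_lit 5) (nat_lit 4) (nat_lit 282) (nat_lit 221) (nat_lit 217)))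 (XT.nd (nat_lit 78) (nat_lit 0) (nat_lit 0) (XT.lf (nat_lit 0) (nat_lit 26765325842) (nat_lit 76) (nat_lit 8160044315) (nat_lit 76) (nat_lit 6098554933) (nat_lit 4) (nat_lit 4) (nat_lit 5) (nat_lit 5) (nat_lit 5) (nat_lit 4) (nat_lit 283) (nat_lit 221) (nat_lit 216)) (XT.lf (nat_lit 0) (nat_lit 35920274285) (nat_lit 76) (nat_lit 5282863244) (nat_lit 76) (nat_lit 2896008888) (nat_lit 4) (nat_lit 4) (nat_lit 5) (nat_lit 5) (nat_lit 5) (nat_lit 4) (nat_lit 284) (nat_lit 221) (nat_lit 215)))) (XT.nd (nat_lit 156) (nat_lit 0) (nat_lit 0) (XT.nd (nat_lit 78) (nat_lit 76) (nat_lit 0) (XT.lf (nat_lit 0) (nat_lit 373628772) (nat_lit 152) (nat_lit 1922179235) (nat_lit 76) (nat_lit 45132960906) (nat_lit 3) (nat_lit 5) (nat_lit 5) (nat_lit 5) (nat_lit 4) (nat_lit 4) (nat_lit 285) (nat_lit 221) (nat_lit 214)) (XT.lf (nat_lit 0) (nat_lit 3733655745) (nat_lit 152) (nat_lit 46384587185) (nat_lit 0) (nat_lit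 907878372) (nat_lit 2) (nat_lit 5) (nat_lit 4) (nat_lit 4) (nat_lit 2) (nat_lit 4) (nat_lit 286) (nat_lit 221) (nat_lit 213))) (XT.nd (nat_lit 78) (nat_lit 0) (nat_lit 0) (XT.lf (nat_lit 0) (nat_lit 7282578037) (nat_lit 152) (nat_lit 43422093959) (nat_lit 0) (nat_lit 4210814753) (nat_lit 2) (nat_lit 5) (nat_lit 4) (nat_lit 4) (nat_lit 2) (nat_lit 4) (nat_lit 287) (nat_lit 221) (nat_lit 212)) (XT.nd (nat_lit 78) (nat_lit 0) (nat_lit 0) (XT.lf (nat_lit 0) (nat_lit 10974071166) (nat_lit 152) (nat_lit 40474666786) (nat_lit 0) (nat_lit 7674543150) (nat_lit 2) (nat_lit 5) (nat_lit 4) (nat_lit 4) (nat_lit 2) (nat_lit 4) (nat_lit 288) (nat_lit 221) (nat_lit 211)) (XT.lf (nat_lit 0) (nat_lit 14830010648) (nat_lit 152) (nat_lit 37524839431) (nat_lit 0) (nat_lit 11319589362) (nat_lit 2) (nat_lit 5) (nat_lit 4) (nat_lit 4) (nat_lit 2) (nat_lit 4) (nat_lit 289) (nat_lit 221) (nat_lit 210)))))) (XT.nd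 (nat_lit 312) (nat_lit 0) (nat_lit 0) (XT.nd (nat_lit 156) (nat_lit 0) (nat_lit 0) (XT.nd (nat_lit 78) (nat_lit 0) (nat_lit 0) (XT.lf (nat_lit 0) (nat_lit 18873246494) (nat_lit 152) (nat_lit 34555131436) (nat_lit 0) (nat_lit 15167553661) (nat_lit 2) (nat_lit 5) (nat_lit 4) (nat_lit 4) (nat_lit 2) (nat_lit 4) (nat_lit 290) (nat_lit 221) (nat_lit 209)) (XT.lf (nat_lit 0) (nat_lit 23127738620) (nat_lit 152) (nat_lit 31547944531) (nat_lit 0) (nat_lit 19241238800) (nat_lit 2) (nat_lit 5) (nat_lit 4) (nat_lit 4) (nat_lit 2) (nat_lit 4) (nat_lit 291) (nat_lit 221) (nat_lit 208))) (XT.nd (nat_lit 78) (nat_lit 0) (nat_lit 0) (XT.lf (nat_lit 0) (nat_lit 27618698831) (nat_lit 152) (nat_lit 28485458349) (nat_lit 0) (nat_lit 23564785134) (nat_lit 2) (nat_lit 5) (nat_lit 4) (nat_lit 4) (nat_lit 2) (nat_lit 4) (nat_lit 292) (nat_lit 221) (nat_lit 207)) (XT.lf (nat_lit 0) (nat_lit 32372740226) (nat_lit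 152) (nat_lit 25349524823) (nat_lit 0) (nat_lit 28163813679) (nat_lit 2) (nat_lit 5) (nat_lit 4) (nat_lit 4) (nat_lit 2) (nat_lit 4) (nat_lit 293) (nat_lit 221) (nat_lit 206)))) (XT.nd (nat_lit 156) (nat_lit 0) (nat_lit 0) (XT.nd (nat_lit 78) (nat_lit 0) (nat_lit 0) (XT.lf (nat_lit 0) (nat_lit 37418034900) (nat_lit 152) (nat_lit 22121560645) (nat_lit 0) (nat_lit 33065577937) (nat_lit 2) (nat_lit 5) (nat_lit 4) (nat_lit 4) (nat_lit 2) (nat_lit 4) (nat_lit 294) (nat_lit 221) (nat_lit 205)) (XT.lf (nat_lit 0) (nat_lit 42784480897) (nat_lit 152) (nat_lit 18782437138) (nat_lit 0) (nat_lit 38299125401) (nat_lit 2) (nat_lit 5) (nat_lit 4) (nat_lit 4) (nat_lit 2) (nat_lit 4) (nat_lit 295) (nat_lit 221) (nat_lit 204))) (XT.nd (nat_lit 78) (nat_lit 0) (nat_lit 0) (XT.lf (nat_lit 0) (nat_lit 48503879379) (nat_lit 152) (nat_lit 15312366902) (nat_lit 0) (nat_lit 43895469685) (nat_lit 2) (nat_lit 5)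 (nat_lit 4) (nat_lit 4) (nat_lit 2) (nat_lit 4) (nat_lit 296) (nat_lit 221) (nat_lit 203)) (XT.nd (nat_lit 78) (nat_lit 0) (nat_lit 0) (XT.lf (nat_lit 0) (nat_lit 54610123076) (nat_lit 152) (nat_lit 11690786559) (nat_lit 0) (nat_lit 49887774310) (nat_lit 2) (nat_lit 5) (nat_lit 4) (nat_lit 4) (nat_lit 2) (nat_lit 4) (nat_lit 297) (nat_lit 221) (nat_lit 202)) (XT.lf (nat_lit 0) (nat_lit 61139397137) (nat_lit 152) (nat_lit 7896234892) (nat_lit 0) (nat_lit 56311549231) (nat_lit 2) (nat_lit 5) (nat_lit 4) (nat_lit 4) (nat_lit 2) (nat_lit 4) (nat_lit 298) (nat_lit 221) (nat_lit 201))))))) (XT.nd (nat_lit 702) (nat_lit 0) (nat_lit 0) (XT.nd (nat_lit 312) (nat_lit 0) (nat_lit 0) (XT.nd (nat_lit 156) (nat_lit 0) (nat_lit 0) (XT.nd (nat_lit 78) (nat_lit 76) (nat_lit 0) (XT.lf (nat_lit 0) (nat_lit 68130393556) (nat_lit 152) (nat_lit 3906225669) (nat_lit 0) (nat_lit 63204861260) (nat_lit 2) (nat_lit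 5) (nat_lit 4) (nat_lit 4) (nat_lit 2) (nat_lit 4) (nat_lit 299) (nat_lit 221) (nat_lit 200)) (XT.lf (nat_lit 0) (nat_lit 312900374) (nat_lit 76) (nat_lit 75316525337) (nat_lit 76) (nat_lit 70300544532) (nat_lit 1) (nat_lit 4) (nat_lit 2) (nat_lit 5) (nat_lit 2) (nat_lit 4) (nat_lit 300) (nat_lit 221) (nat_lit 199))) (XT.nd (nat_lit 78) (nat_lit 0) (nat_lit 0) (XT.lf (nat_lit 0) (nat_lit 4913298045) (nat_lit 76) (nat_lit 78829659915) (nat_lit 76) (nat_lit 73729930491) (nat_lit 1) (nat_lit 4) (nat_lit 2) (nat_lit 5) (nat_lit 2) (nat_lit 4) (nat_lit 301) (nat_lit 221) (nat_lit 198)) (XT.lf (nat_lit 0) (nat_lit 9793071496) (nat_lit 76) (nat_lit 82662995357) (nat_lit 76) (nat_lit 77485720915) (nat_lit 1) (nat_lit 4) (nat_lit 2) (nat_lit 5) (nat_lit 2) (nat_lit 4) (nat_lit 302) (nat_lit 221) (nat_lit 197)))) (XT.nd (nat_lit 156) (nat_lit 0) (nat_lit 0) (XT.nd (nat_lit 78) (nat_lit 0) (nat_lit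 0) (XT.lf (nat_lit 0) (nat_lit 14981137904) (nat_lit 76) (nat_lit 86839247724) (nat_lit 76) (nat_lit 81590172340) (nat_lit 1) (nat_lit 4) (nat_lit 2) (nat_lit 5) (nat_lit 2) (nat_lit 4) (nat_lit 303) (nat_lit 221) (nat_lit 196)) (XT.lf (nat_lit 0) (nat_lit 20508241366) (nat_lit 76) (nat_lit 91383165179) (nat_lit 76) (nat_lit 86067607441) (nat_lit 1) (nat_lit 4) (nat_lit 2) (nat_lit 5) (nat_lit 2) (nat_lit 4) (nat_lit 304) (nat_lit 221) (nat_lit 195))) (XT.nd (nat_lit 78) (nat_lit 0) (nat_lit 0) (XT.lf (nat_lit 0) (nat_lit 26407135087) (nat_lit 76) (nat_lit 96321674640) (nat_lit 76) (nat_lit 90944559167) (nat_lit 1) (nat_lit 4) (nat_lit 2) (nat_lit 5) (nat_lit 2) (nat_lit 4) (nat_lit 305) (nat_lit 221) (nat_lit 194)) (XT.nd (nat_lit 78) (nat_lit 0) (nat_lit 0) (XT.lf (nat_lit 0) (nat_lit 32712775474) (nat_lit 76) (nat_lit 101684041349) (nat_lit 76) (nat_lit 96249927972) (nat_lit 1) (nat_lit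 4) (nat_lit 2) (nat_lit 5) (nat_lit 2) (nat_lit 4) (nat_lit 306) (nat_lit 221) (nat_lit 193)) (XT.lf (nat_lit 0) (nat_lit 39462529286) (nat_lit 76) (nat_lit 107502042292) (nat_lit 76) (nat_lit 102015153080) (nat_lit 1) (nat_lit 4) (nat_lit 2) (nat_lit 5) (nat_lit 2) (nat_lit 4) (nat_lit 307) (nat_lit 221) (nat_lit 192)))))) (XT.nd (nat_lit 390) (nat_lit 0) (nat_lit 0) (XT.nd (nat_lit 156) (nat_lit 0) (nat_lit 0) (XT.nd (nat_lit 78) (nat_lit 0) (nat_lit 0) (XT.lf (nat_lit 0) (nat_lit 46696395064) (nat_lit 76) (nat_lit 113810154514) (nat_lit 76) (nat_lit 108274398787) (nat_lit 1) (nat_lit 4) (nat_lit 2) (nat_lit 5) (nat_lit 2) (nat_lit 4) (nat_lit 308) (nat_lit 221) (nat_lit 191)) (XT.lf (nat_lit 0) (nat_lit 54457240160) (nat_lit 76) (nat_lit 120645759419) (nat_lit 76) (nat_lit 115064756919) (nat_lit 1) (nat_lit 4) (nat_lit 2) (nat_lit 5) (nat_lit 2) (nat_lit 4) (nat_lit 309) (nat_lit 221)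 (nat_lit 190))) (XT.nd (nat_lit 78) (nat_lit 0) (nat_lit 0) (XT.lf (nat_lit 0) (nat_lit 62791054768) (nat_lit 76) (nat_lit 128049364296) (nat_lit 76) (nat_lit 122426466635) (nat_lit 1) (nat_lit 4) (nat_lit 2) (nat_lit 5) (nat_lit 2) (nat_lit 4) (nat_lit 310) (nat_lit 221) (nat_lit 189)) (XT.nd (nat_lit 78) (nat_lit 0) (nat_lit 0) (XT.lf (nat_lit 0) (nat_lit 71747224456) (nat_lit 76) (nat_lit 136064842359) (nat_lit 76) (nat_lit 130403152883) (nat_lit 1) (nat_lit 4) (nat_lit 2) (nat_lit 5) (nat_lit 2) (nat_lit 4) (nat_lit 311) (nat_lit 221) (nat_lit 188)) (XT.lf (nat_lit 0) (nat_lit 81378822821) (nat_lit 76) (nat_lit 144739692737) (nat_lit 76) (nat_lit 139042084914) (nat_lit 1) (nat_lit 4) (nat_lit 2) (nat_lit 5) (nat_lit 2) (nat_lit 4) (nat_lit 312) (nat_lit 221) (nat_lit 187))))) (XT.nd (nat_lit 156) (nat_lit 0) (nat_lit 0) (XT.nd (nat_lit 78) (nat_lit 0) (nat_lit 0) (XT.lf (nat_lit 0)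 (nat_lit 91742926002) (nat_lit 76) (nat_lit 154125321952) (nat_lit 76) (nat_lit 148394456400) (nat_lit 1) (nat_lit 4) (nat_lit 2) (nat_lit 5) (nat_lit 2) (nat_lit 4) (nat_lit 313) (nat_lit 221) (nat_lit 186)) (XT.lf (nat_lit 0) (nat_lit 102900950907) (nat_lit 76) (nat_lit 164277348545) (nat_lit 76) (nat_lit 158515688800) (nat_lit 1) (nat_lit 4) (nat_lit 2) (nat_lit 5) (nat_lit 2) (nat_lit 4) (nat_lit 314) (nat_lit 221) (nat_lit 185))) (XT.nd (nat_lit 78) (nat_lit 0) (nat_lit 0) (XT.lf (nat_lit 0) (nat_lit 114919019165) (nat_lit 76) (nat_lit 175255932676) (nat_lit 76) (nat_lit 169465759789) (nat_lit 1) (nat_lit 4) (nat_lit 2) (nat_lit 5) (nat_lit 2) (nat_lit 4) (nat_lit 315) (nat_lit 221) (nat_lit 184)) (XT.nd (nat_lit 78) (nat_lit 0) (nat_lit 0) (XT.lf (nat_lit 0) (nat_lit 127868348959) (nat_lit 76) (nat_lit 187126132621) (nat_lit 76) (nat_lit 181309558676) (nat_lit 1) (nat_lit 4) (nat_lit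 2) (nat_lit 5) (nat_lit 2) (nat_lit 4) (nat_lit 316) (nat_lit 221) (nat_lit 183)) (XT.lf (nat_lit 0) (nat_lit 141825677057) (nat_lit 76) (nat_lit 199958290304) (nat_lit 76) (nat_lit 194117270935) (nat_lit 1) (nat_lit 4) (nat_lit 2) (nat_lit 5) (nat_lit 2) (nat_lit 4) (nat_lit 317) (nat_lit 221) (nat_lit 182))))))))
noncomputable def xc16 : XT := (XT.nd (nat_lit 35100) (nat_lit 0) (nat_lit 0) (XT.nd (nat_lit 34398) (nat_lit 0) (nat_lit 76) (XT.nd (nat_lit 312) (nat_lit 0) (nat_lit 0) (XT.nd (nat_lit 156) (nat_lit 0) (nat_lit 0) (XT.nd (nat_lit 78) (nat_lit 0) (nat_lit 0) (XT.lf (nat_lit 0) (nat_lit 156873713552) (nat_lit 76) (nat_lit 213828448142) (nat_lit 76) (nat_lit 207964794122) (nat_lit 1) (nat_lit 4) (nat_lit 2) (nat_lit 5) (nat_lit 2) (nat_lit 4) (nat_lit 318) (nat_lit 221) (nat_lit 181)) (XT.lf (nat_lit 0) (nat_lit 173101631993) (nat_lit 76) (nat_lit 228818799664) (nat_lit 76)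 (nat_lit 222934187633) (nat_lit 1) (nat_lit 4) (nat_lit 2) (nat_lit 5) (nat_lit 2) (nat_lit 4) (nat_lit 319) (nat_lit 221) (nat_lit 180))) (XT.nd (nat_lit 78) (nat_lit 0) (nat_lit 0) (XT.lf (nat_lit 0) (nat_lit 190605597824) (nat_lit 76) (nat_lit 245018176580) (nat_lit 76) (nat_lit 239114158984) (nat_lit 1) (nat_lit 4) (nat_lit 2) (nat_lit 5) (nat_lit 2) (nat_lit 4) (nat_lit 320) (nat_lit 221) (nat_lit 179)) (XT.lf (nat_lit 0) (nat_lit 209489338248) (nat_lit 76) (nat_lit 262522575200) (nat_lit 76) (nat_lit 256600589488) (nat_lit 1) (nat_lit 4) (nat_lit 2) (nat_lit 5) (nat_lit 2) (nat_lit 4) (nat_lit 321) (nat_lit 221) (nat_lit 178)))) (XT.nd (nat_lit 156) (nat_lit 0) (nat_lit 0) (XT.nd (nat_lit 78) (nat_lit 0) (nat_lit 0) (XT.lf (nat_lit 0) (nat_lit 229864756913) (nat_lit 76) (nat_lit 281435725293) (nat_lit 76) (nat_lit 275497102436) (nat_lit 1) (nat_lit 4) (nat_lit 2) (nat_lit 5) (nat_lit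 2) (nat_lit 4) (nat_lit 322) (nat_lit 221) (nat_lit 177)) (XT.lf (nat_lit 0) (nat_lit 251852597041) (nat_lit 76) (nat_lit 301869704786) (nat_lit 76) (nat_lit 295915677165) (nat_lit 1) (nat_lit 4) (nat_lit 2) (nat_lit 5) (nat_lit 2) (nat_lit 4) (nat_lit 323) (nat_lit 221) (nat_lit 176))) (XT.nd (nat_lit 33774) (nat_lit 0) (nat_lit 304) (XT.lf (nat_lit 0) (nat_lit 275583156944) (nat_lit 76) (nat_lit 323945603926) (nat_lit 76) (nat_lit 317977312636) (nat_lit 1) (nat_lit 4) (nat_lit 2) (nat_lit 5) (nat_lit 2) (nat_lit 4) (nat_lit 324) (nat_lit 221) (nat_lit 175)) (XT.nd (nat_lit 78) (nat_lit 152) (nat_lit 0) (XT.lf (nat_lit 0) (nat_lit 11155868010) (nat_lit 76) (nat_lit 729152083) (nat_lit 76) (nat_lit 729152083) (nat_lit 7) (nat_lit 4) (nat_lit 8) (nat_lit 5) (nat_lit 8) (nat_lit 4) (nat_lit 276) (nat_lit 222) (nat_lit 222)) (XT.lf (nat_lit 0) (nat_lit 3161993907) (nat_lit 152) (nat_lit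 21168809418) (nat_lit 0) (nat_lit 2645680585) (nat_lit 5) (nat_lit 5) (nat_lit 7) (nat_lit 4) (nat_lit 5) (nat_lit 4) (nat_lit 277) (nat_lit 222) (nat_lit 221)))))) (XT.nd (nat_lit 312) (nat_lit 152) (nat_lit 0) (XT.nd (nat_lit 156) (nat_lit 76) (nat_lit 0) (XT.nd (nat_lit 78) (nat_lit 0) (nat_lit 0) (XT.lf (nat_lit 0) (nat_lit 7918324952) (nat_lit 152) (nat_lit 14030581633) (nat_lit 0) (nat_lit 6923943740) (nat_lit 5) (nat_lit 5) (nat_lit 7) (nat_lit 4) (nat_lit 5) (nat_lit 4) (nat_lit 278) (nat_lit 222) (nat_lit 220)) (XT.lf (nat_lit 0) (nat_lit 12814968009) (nat_lit 152) (nat_lit 6740449460) (nat_lit 0) (nat_lit 11377931343) (nat_lit 5) (nat_lit 5) (nat_lit 7) (nat_lit 4) (nat_lit 5) (nat_lit 4) (nat_lit 279) (nat_lit 222) (nat_lit 219))) (XT.nd (nat_lit 78) (nat_lit 0) (nat_lit 0) (XT.lf (nat_lit 0) (nat_lit 769413932) (nat_lit 76) (nat_lit 17123538996) (nat_lit 76) (nat_lit 15276636168)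 (nat_lit 4) (nat_lit 4) (nat_lit 5) (nat_lit 5) (nat_lit 5) (nat_lit 4) (nat_lit 280) (nat_lit 222) (nat_lit 218)) (XT.lf (nat_lit 0) (nat_lit 8749526857) (nat_lit 76) (nat_lit 14533339941) (nat_lit 76) (nat_lit 12306931409) (nat_lit 4) (nat_lit 4) (nat_lit 5) (nat_lit 5) (nat_lit 5) (nat_lit 4) (nat_lit 281) (nat_lit 222) (nat_lit 217)))) (XT.nd (nat_lit 156) (nat_lit 152) (nat_lit 0) (XT.nd (nat_lit 78) (nat_lit 0) (nat_lit 0) (XT.lf (nat_lit 0) (nat_lit 17024309171) (nat_lit 76) (nat_lit 11883623751) (nat_lit 76) (nat_lit 9305821047) (nat_lit 4) (nat_lit 4) (nat_lit 5) (nat_lit 5) (nat_lit 5) (nat_lit 4) (nat_lit 282) (nat_lit 222) (nat_lit 216)) (XT.lf (nat_lit 0) (nat_lit 25642796622) (nat_lit 76) (nat_lit 9158688403) (nat_lit 76) (nat_lit 6255520725) (nat_lit 4) (nat_lit 4) (nat_lit 5) (nat_lit 5) (nat_lit 5) (nat_lit 4) (nat_lit 283) (nat_lit 222) (nat_lit 215))) (XT.nd (nat_lit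 78) (nat_lit 152) (nat_lit 0) (XT.lf (nat_lit 0) (nat_lit 34656061729) (nat_lit 76) (nat_lit 6342386132) (nat_lit 76) (nat_lit 3137954591) (nat_lit 4) (nat_lit 4) (nat_lit 5) (nat_lit 5) (nat_lit 5) (nat_lit 4) (nat_lit 284) (nat_lit 222) (nat_lit 214)) (XT.nd (nat_lit 78) (nat_lit 76) (nat_lit 0) (XT.lf (nat_lit 0) (nat_lit 63260156) (nat_lit 152) (nat_lit 3353696242) (nat_lit 76) (nat_lit 44053184933) (nat_lit 3) (nat_lit 5) (nat_lit 5) (nat_lit 5) (nat_lit 4) (nat_lit 4) (nat_lit 285) (nat_lit 222) (nat_lit 213)) (XT.lf (nat_lit 0) (nat_lit 3050050095) (nat_lit 76) (nat_lit 262981545) (nat_lit 152) (nat_lit 47760085202) (nat_lit 2) (nat_lit 5) (nat_lit 3) (nat_lit 5) (nat_lit 4) (nat_lit 4) (nat_lit 286) (nat_lit 222) (nat_lit 212))))))) (XT.nd (nat_lit 702) (nat_lit 76) (nat_lit 0) (XT.nd (nat_lit 312) (nat_lit 0) (nat_lit 0) (XT.nd (nat_lit 156) (nat_lit 0) (nat_lit 0) (XT.nd (nat_lit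 78) (nat_lit 0) (nat_lit 0) (XT.lf (nat_lit 0) (nat_lit 6789894715) (nat_lit 152) (nat_lit 45177652985) (nat_lit 0) (nat_lit 2998639726) (nat_lit 2) (nat_lit 5) (nat_lit 4) (nat_lit 4) (nat_lit 2) (nat_lit 4) (nat_lit 287) (nat_lit 222) (nat_lit 211)) (XT.lf (nat_lit 0) (nat_lit 10418468086) (nat_lit 152) (nat_lit 42342434462) (nat_lit 0) (nat_lit 6416319827) (nat_lit 2) (nat_lit 5) (nat_lit 4) (nat_lit 4) (nat_lit 2) (nat_lit 4) (nat_lit 288) (nat_lit 222) (nat_lit 210))) (XT.nd (nat_lit 78) (nat_lit 0) (nat_lit 0) (XT.lf (nat_lit 0) (nat_lit 14216148531) (nat_lit 152) (nat_lit 39496504005) (nat_lit 0) (nat_lit 10018728726) (nat_lit 2) (nat_lit 5) (nat_lit 4) (nat_lit 4) (nat_lit 2) (nat_lit 4) (nat_lit 289) (nat_lit 222) (nat_lit 209)) (XT.lf (nat_lit 0) (nat_lit 18205440826) (nat_lit 152) (nat_lit 36622996841) (nat_lit 0) (nat_lit 13827214033) (nat_lit 2) (nat_lit 5) (nat_lit 4) (nat_lit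 4) (nat_lit 2) (nat_lit 4) (nat_lit 290) (nat_lit 222) (nat_lit 208)))) (XT.nd (nat_lit 156) (nat_lit 0) (nat_lit 0) (XT.nd (nat_lit 78) (nat_lit 0) (nat_lit 0) (XT.lf (nat_lit 0) (nat_lit 22409985219) (nat_lit 152) (nat_lit 33704884780) (nat_lit 0) (nat_lit 17864344548) (nat_lit 2) (nat_lit 5) (nat_lit 4) (nat_lit 4) (nat_lit 2) (nat_lit 4) (nat_lit 291) (nat_lit 222) (nat_lit 207)) (XT.lf (nat_lit 0) (nat_lit 26854697529) (nat_lit 152) (nat_lit 30724875305) (nat_lit 0) (nat_lit 22154044009) (nat_lit 2) (nat_lit 5) (nat_lit 4) (nat_lit 4) (nat_lit 2) (nat_lit 4) (nat_lit 292) (nat_lit 222) (nat_lit 206))) (XT.nd (nat_lit 78) (nat_lit 0) (nat_lit 0) (XT.lf (nat_lit 0) (nat_lit 31565916793) (nat_lit 152) (nat_lit 27665309102) (nat_lit 0) (nat_lit 26721732857) (nat_lit 2) (nat_lit 5) (nat_lit 4) (nat_lit 4) (nat_lit 2) (nat_lit 4) (nat_lit 293) (nat_lit 222) (nat_lit 205)) (XT.nd (nat_lit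 78) (nat_lit 0) (nat_lit 0) (XT.lf (nat_lit 0) (nat_lit 36571561347) (nat_lit 152) (nat_lit 24508055407) (nat_lit 0) (nat_lit 31594478878) (nat_lit 2) (nat_lit 5) (nat_lit 4) (nat_lit 4) (nat_lit 2) (nat_lit 4) (nat_lit 294) (nat_lit 222) (nat_lit 204)) (XT.lf (nat_lit 0) (nat_lit 41901294269) (nat_lit 152) (nat_lit 21234404569) (nat_lit 0) (nat_lit 36801157602) (nat_lit 2) (nat_lit 5) (nat_lit 4) (nat_lit 4) (nat_lit 2) (nat_lit 4) (nat_lit 295) (nat_lit 222) (nat_lit 203)))))) (XT.nd (nat_lit 312) (nat_lit 76) (nat_lit 0) (XT.nd (nat_lit 156) (nat_lit 0) (nat_lit 0) (XT.nd (nat_lit 78) (nat_lit 0) (nat_lit 0) (XT.lf (nat_lit 0) (nat_lit 47586699163) (nat_lit 152) (nat_lit 17824957175) (nat_lit 0) (nat_lit 42372623424) (nat_lit 2) (nat_lit 5) (nat_lit 4) (nat_lit 4) (nat_lit 2) (nat_lit 4) (nat_lit 296) (nat_lit 222) (nat_lit 202)) (XT.lf (nat_lit 0) (nat_lit 53661467316) (nat_lit 152)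 (nat_lit 14259509094) (nat_lit 0) (nat_lit 48341892436) (nat_lit 2) (nat_lit 5) (nat_lit 4) (nat_lit 4) (nat_lit 2) (nat_lit 4) (nat_lit 297) (nat_lit 222) (nat_lit 201))) (XT.nd (nat_lit 78) (nat_lit 0) (nat_lit 0) (XT.lf (nat_lit 0) (nat_lit 60161597354) (nat_lit 152) (nat_lit 10516931743) (nat_lit 0) (nat_lit 54744338085) (nat_lit 2) (nat_lit 5) (nat_lit 4) (nat_lit 4) (nat_lit 2) (nat_lit 4) (nat_lit 298) (nat_lit 222) (nat_lit 200)) (XT.lf (nat_lit 0) (nat_lit 67125608567) (nat_lit 152) (nat_lit 6575046886) (nat_lit 0) (nat_lit 61617900790) (nat_lit 2) (nat_lit 5) (nat_lit 4) (nat_lit 4) (nat_lit 2) (nat_lit 4) (nat_lit 299) (nat_lit 222) (nat_lit 199)))) (XT.nd (nat_lit 156) (nat_lit 0) (nat_lit 0) (XT.nd (nat_lit 78) (nat_lit 76) (nat_lit 0) (XT.lf (nat_lit 0) (nat_lit 74594769169) (nat_lit 152) (nat_lit 2410495207) (nat_lit 0) (nat_lit 69003312772) (nat_lit 2) (nat_lit 5) (nat_lit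 4) (nat_lit 4) (nat_lit 2) (nat_lit 4) (nat_lit 300) (nat_lit 222) (nat_lit 198)) (XT.lf (nat_lit 0) (nat_lit 2067577513) (nat_lit 76) (nat_lit 80578044019) (nat_lit 76) (nat_lit 74909042605) (nat_lit 1) (nat_lit 4) (nat_lit 2) (nat_lit 5) (nat_lit 2) (nat_lit 4) (nat_lit 301) (nat_lit 222) (nat_lit 197))) (XT.nd (nat_lit 78) (nat_lit 0) (nat_lit 0) (XT.lf (nat_lit 0) (nat_lit 6907885137) (nat_lit 76) (nat_lit 84428807389) (nat_lit 76) (nat_lit 78688005032) (nat_lit 1) (nat_lit 4) (nat_lit 2) (nat_lit 5) (nat_lit 2) (nat_lit 4) (nat_lit 302) (nat_lit 222) (nat_lit 196)) (XT.nd (nat_lit 78) (nat_lit 0) (nat_lit 0) (XT.lf (nat_lit 0) (nat_lit 12059409113) (nat_lit 76) (nat_lit 88621196727) (nat_lit 76) (nat_lit 82813912016) (nat_lit 1) (nat_lit 4) (nat_lit 2) (nat_lit 5) (nat_lit 2) (nat_lit 4) (nat_lit 303) (nat_lit 222) (nat_lit 195)) (XT.lf (nat_lit 0) (nat_lit 17552676989) (nat_lit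 76) (nat_lit 93180055821) (nat_lit 76) (nat_lit 87311213375) (nat_lit 1) (nat_lit 4) (nat_lit 2) (nat_lit 5) (nat_lit 2) (nat_lit 4) (nat_lit 304) (nat_lit 222) (nat_lit 194))))))))
noncomputable def xc17 : XT := (XT.nd (nat_lit 1404) (nat_lit 0) (nat_lit 0) (XT.nd (nat_lit 702) (nat_lit 0) (nat_lit 0) (XT.nd (nat_lit 312) (nat_lit 0) (nat_lit 0) (XT.nd (nat_lit 156) (nat_lit 0) (nat_lit 0) (XT.nd (nat_lit 78) (nat_lit 0) (nat_lit 0) (XT.lf (nat_lit 0) (nat_lit 23420241464) (nat_lit 76) (nat_lit 98132400133) (nat_lit 76) (nat_lit 92206559784) (nat_lit 1) (nat_lit 4) (nat_lit 2) (nat_lit 5) (nat_lit 2) (nat_lit 4) (nat_lit 305) (nat_lit 222) (nat_lit 193)) (XT.lf (nat_lit 0) (nat_lit 29696873291) (nat_lit 76) (nat_lit 103507576889) (nat_lit 76) (nat_lit 97528960704) (nat_lit 1) (nat_lit 4) (nat_lit 2) (nat_lit 5) (nat_lit 2) (nat_lit 4) (nat_lit 306) (nat_lit 222) (nat_lit 192))) (XT.nd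 (nat_lit 78) (nat_lit 0) (nat_lit 0) (XT.lf (nat_lit 0) (nat_lit 36419767325) (nat_lit 76) (nat_lit 109337438988) (nat_lit 76) (nat_lit 103309956288) (nat_lit 1) (nat_lit 4) (nat_lit 2) (nat_lit 5) (nat_lit 2) (nat_lit 4) (nat_lit 307) (nat_lit 222) (nat_lit 191)) (XT.lf (nat_lit 0) (nat_lit 43628762937) (nat_lit 76) (nat_lit 115656533760) (nat_lit 76) (nat_lit 109583804287) (nat_lit 1) (nat_lit 4) (nat_lit 2) (nat_lit 5) (nat_lit 2) (nat_lit 4) (nat_lit 308) (nat_lit 222) (nat_lit 190)))) (XT.nd (nat_lit 156) (nat_lit 0) (nat_lit 0) (XT.nd (nat_lit 78) (nat_lit 0) (nat_lit 0) (XT.lf (nat_lit 0) (nat_lit 51366580103) (nat_lit 76) (nat_lit 122502307694) (nat_lit 76) (nat_lit 116387683060) (nat_lit 1) (nat_lit 4) (nat_lit 2) (nat_lit 5) (nat_lit 2) (nat_lit 4) (nat_lit 309) (nat_lit 222) (nat_lit 189)) (XT.lf (nat_lit 0) (nat_lit 59679072552) (nat_lit 76) (nat_lit 129915328338) (nat_lit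 76) (nat_lit 123761911889) (nat_lit 1) (nat_lit 4) (nat_lit 2) (nat_lit 5) (nat_lit 2) (nat_lit 4) (nat_lit 310) (nat_lit 222) (nat_lit 188))) (XT.nd (nat_lit 78) (nat_lit 0) (nat_lit 0) (XT.lf (nat_lit 0) (nat_lit 68615499501) (nat_lit 76) (nat_lit 137939524704) (nat_lit 76) (nat_lit 131750189908) (nat_lit 1) (nat_lit 4) (nat_lit 2) (nat_lit 5) (nat_lit 2) (nat_lit 4) (nat_lit 311) (nat_lit 222) (nat_lit 187)) (XT.nd (nat_lit 78) (nat_lit 0) (nat_lit 0) (XT.lf (nat_lit 0) (nat_lit 78228817552) (nat_lit 76) (nat_lit 146622447585) (nat_lit 76) (nat_lit 140399855060) (nat_lit 1) (nat_lit 4) (nat_lit 2) (nat_lit 5) (nat_lit 2) (nat_lit 4) (nat_lit 312) (nat_lit 222) (nat_lit 186)) (XT.lf (nat_lit 0) (nat_lit 88575994516) (nat_lit 76) (nat_lit 156015551339) (nat_lit 76) (nat_lit 149762164621) (nat_lit 1) (nat_lit 4) (nat_lit 2) (nat_lit 5) (nat_lit 2) (nat_lit 4) (nat_lit 313) (nat_lit 222)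 (nat_lit 185)))))) (XT.nd (nat_lit 312) (nat_lit 0) (nat_lit 0) (XT.nd (nat_lit 156) (nat_lit 0) (nat_lit 0) (XT.nd (nat_lit 78) (nat_lit 0) (nat_lit 0) (XT.lf (nat_lit 0) (nat_lit 99718346999) (nat_lit 76) (nat_lit 166174498803) (nat_lit 76) (nat_lit 159892598942) (nat_lit 1) (nat_lit 4) (nat_lit 2) (nat_lit 5) (nat_lit 2) (nat_lit 4) (nat_lit 314) (nat_lit 222) (nat_lit 184)) (XT.lf (nat_lit 0) (nat_lit 111721903755) (nat_lit 76) (nat_lit 177159491147) (nat_lit 76) (nat_lit 170851190229) (nat_lit 1) (nat_lit 4) (nat_lit 2) (nat_lit 5) (nat_lit 2) (nat_lit 4) (nat_lit 315) (nat_lit 222) (nat_lit 183))) (XT.nd (nat_lit 78) (nat_lit 0) (nat_lit 0) (XT.lf (nat_lit 0) (nat_lit 124657796972) (nat_lit 76) (nat_lit 189035624622) (nat_lit 76) (nat_lit 182702878280) (nat_lit 1) (nat_lit 4) (nat_lit 2) (nat_lit 5) (nat_lit 2) (nat_lit 4) (nat_lit 316) (nat_lit 222) (nat_lit 182)) (XT.lf (nat_lit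 0) (nat_lit 138602683795) (nat_lit 76) (nat_lit 201873276315) (nat_lit 76) (nat_lit 195517895322) (nat_lit 1) (nat_lit 4) (nat_lit 2) (nat_lit 5) (nat_lit 2) (nat_lit 4) (nat_lit 317) (nat_lit 222) (nat_lit 181)))) (XT.nd (nat_lit 156) (nat_lit 0) (nat_lit 0) (XT.nd (nat_lit 78) (nat_lit 0) (nat_lit 0) (XT.lf (nat_lit 0) (nat_lit 153639200591) (nat_lit 76) (nat_lit 215748521199) (nat_lit 76) (nat_lit 209372182195) (nat_lit 1) (nat_lit 4) (nat_lit 2) (nat_lit 5) (nat_lit 2) (nat_lit 4) (nat_lit 318) (nat_lit 222) (nat_lit 180)) (XT.lf (nat_lit 0) (nat_lit 169856452645) (nat_lit 76) (nat_lit 230743582948) (nat_lit 76) (nat_lit 224347838379) (nat_lit 1) (nat_lit 4) (nat_lit 2) (nat_lit 5) (nat_lit 2) (nat_lit 4) (nat_lit 319) (nat_lit 222) (nat_lit 179))) (XT.nd (nat_lit 78) (nat_lit 0) (nat_lit 0) (XT.lf (nat_lit 0) (nat_lit 187350542191) (nat_lit 76) (nat_lit 246947321187) (nat_lit 76)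 (nat_lit 240533608502) (nat_lit 1) (nat_lit 4) (nat_lit 2) (nat_lit 5) (nat_lit 2) (nat_lit 4) (nat_lit 320) (nat_lit 222) (nat_lit 178)) (XT.nd (nat_lit 78) (nat_lit 0) (nat_lit 0) (XT.lf (nat_lit 0) (nat_lit 206225137907) (nat_lit 76) (nat_lit 264455758069) (nat_lit 76) (nat_lit 258025408238) (nat_lit 1) (nat_lit 4) (nat_lit 2) (nat_lit 5) (nat_lit 2) (nat_lit 4) (nat_lit 321) (nat_lit 222) (nat_lit 177)) (XT.lf (nat_lit 0) (nat_lit 226592089250) (nat_lit 76) (nat_lit 283372647292) (nat_lit 76) (nat_lit 276926892699) (nat_lit 1) (nat_lit 4) (nat_lit 2) (nat_lit 5) (nat_lit 2) (nat_lit 4) (nat_lit 322) (nat_lit 222) (nat_lit 176))))))) (XT.nd (nat_lit 34242) (nat_lit 0) (nat_lit 76) (XT.nd (nat_lit 33852) (nat_lit 0) (nat_lit 304) (XT.nd (nat_lit 33696) (nat_lit 0) (nat_lit 456) (XT.nd (nat_lit 78) (nat_lit 0) (nat_lit 0) (XT.lf (nat_lit 0) (nat_lit 248572089265) (nat_lit 76) (nat_lit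 303810088942) (nat_lit 76) (nat_lit 297350070679) (nat_lit 1) (nat_lit 4) (nat_lit 2) (nat_lit 5) (nat_lit 2) (nat_lit 4) (nat_lit 323) (nat_lit 222) (nat_lit 175)) (XT.lf (nat_lit 0) (nat_lit 272295389803) (nat_lit 76) (nat_lit 325889193785) (nat_lit 76) (nat_lit 319415968419) (nat_lit 1) (nat_lit 4) (nat_lit 2) (nat_lit 5) (nat_lit 2) (nat_lit 4) (nat_lit 324) (nat_lit 222) (nat_lit 174))) (XT.nd (nat_lit 78) (nat_lit 0) (nat_lit 0) (XT.lf (nat_lit 0) (nat_lit 1380862823) (nat_lit 76) (nat_lit 4841007764) (nat_lit 76) (nat_lit 4841007764) (nat_lit 7) (nat_lit 4) (nat_lit 8) (nat_lit 5) (nat_lit 8) (nat_lit 4) (nat_lit 274) (nat_lit 223) (nat_lit 223)) (XT.lf (nat_lit 0) (nat_lit 12273855658) (nat_lit 76) (nat_lit 5962799188) (nat_lit 76) (nat_lit 5377299881) (nat_lit 7) (nat_lit 4) (nat_lit 8) (nat_lit 5) (nat_lit 8) (nat_lit 4) (nat_lit 275) (nat_lit 223) (nat_lit 222)))) (XT.nd (nat_lit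 156) (nat_lit 0) (nat_lit 0) (XT.nd (nat_lit 78) (nat_lit 152) (nat_lit 0) (XT.lf (nat_lit 0) (nat_lit 22093939679) (nat_lit 76) (nat_lit 2134320078) (nat_lit 76) (nat_lit 1006691783) (nat_lit 7) (nat_lit 4) (nat_lit 8) (nat_lit 5) (nat_lit 8) (nat_lit 4) (nat_lit 276) (nat_lit 223) (nat_lit 221)) (XT.lf (nat_lit 0) (nat_lit 3460202264) (nat_lit 152) (nat_lit 21621495561) (nat_lit 0) (nat_lit 1908202664) (nat_lit 5) (nat_lit 5) (nat_lit 7) (nat_lit 4) (nat_lit 5) (nat_lit 4) (nat_lit 277) (nat_lit 223) (nat_lit 220))) (XT.nd (nat_lit 78) (nat_lit 0) (nat_lit 0) (XT.lf (nat_lit 0) (nat_lit 8101055198) (nat_lit 152) (nat_lit 14684784043) (nat_lit 0) (nat_lit 6106400144) (nat_lit 5) (nat_lit 5) (nat_lit 7) (nat_lit 4) (nat_lit 5) (nat_lit 4) (nat_lit 278) (nat_lit 223) (nat_lit 219)) (XT.nd (nat_lit 78) (nat_lit 0) (nat_lit 0) (XT.lf (nat_lit 0) (nat_lit 12890774077) (nat_lit 152) (nat_lit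 7581241007) (nat_lit 0) (nat_lit 10486252861) (nat_lit 5) (nat_lit 5) (nat_lit 7) (nat_lit 4) (nat_lit 5) (nat_lit 4) (nat_lit 279) (nat_lit 223) (nat_lit 218)) (XT.lf (nat_lit 0) (nat_lit 17857742420) (nat_lit 152) (nat_lit 268771383) (nat_lit 0) (nat_lit 15073715500) (nat_lit 5) (nat_lit 5) (nat_lit 7) (nat_lit 4) (nat_lit 5) (nat_lit 4) (nat_lit 280) (nat_lit 223) (nat_lit 217)))))) (XT.nd (nat_lit 312) (nat_lit 152) (nat_lit 0) (XT.nd (nat_lit 156) (nat_lit 0) (nat_lit 0) (XT.nd (nat_lit 78) (nat_lit 0) (nat_lit 0) (XT.lf (nat_lit 0) (nat_lit 7537195300) (nat_lit 76) (nat_lit 15611875556) (nat_lit 76) (nat_lit 12476454465) (nat_lit 4) (nat_lit 4) (nat_lit 5) (nat_lit 5) (nat_lit 5) (nat_lit 4) (nat_lit 281) (nat_lit 223) (nat_lit 216)) (XT.lf (nat_lit 0) (nat_lit 15658959611) (nat_lit 76) (nat_lit 13027908470) (nat_lit 76) (nat_lit 9567122405) (nat_lit 4) (nat_lit 4) (nat_lit 5) (nat_lit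 5) (nat_lit 5) (nat_lit 4) (nat_lit 282) (nat_lit 223) (nat_lit 215))) (XT.nd (nat_lit 78) (nat_lit 0) (nat_lit 0) (XT.lf (nat_lit 0) (nat_lit 24135763725) (nat_lit 76) (nat_lit 10363851923) (nat_lit 76) (nat_lit 6601801994) (nat_lit 4) (nat_lit 4) (nat_lit 5) (nat_lit 5) (nat_lit 5) (nat_lit 4) (nat_lit 283) (nat_lit 223) (nat_lit 214)) (XT.lf (nat_lit 0) (nat_lit 33017840556) (nat_lit 76) (nat_lit 7603918912) (nat_lit 76) (nat_lit 3562920960) (nat_lit 4) (nat_lit 4) (nat_lit 5) (nat_lit 5) (nat_lit 5) (nat_lit 4) (nat_lit 284) (nat_lit 223) (nat_lit 213)))) (XT.nd (nat_lit 156) (nat_lit 0) (nat_lit 0) (XT.nd (nat_lit 78) (nat_lit 152) (nat_lit 0) (XT.lf (nat_lit 0) (nat_lit 42357824633) (nat_lit 76) (nat_lit 4731754279) (nat_lit 76) (nat_lit 432471122) (nat_lit 4) (nat_lit 4) (nat_lit 5) (nat_lit 5) (nat_lit 5) (nat_lit 4) (nat_lit 285) (nat_lit 223) (nat_lit 212)) (XT.lf (nat_lit 0)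 (nat_lit 1068104268) (nat_lit 76) (nat_lit 1666793484) (nat_lit 152) (nat_lit 48395379791) (nat_lit 2) (nat_lit 5) (nat_lit 3) (nat_lit 5) (nat_lit 4) (nat_lit 4) (nat_lit 286) (nat_lit 223) (nat_lit 211))) (XT.nd (nat_lit 78) (nat_lit 0) (nat_lit 0) (XT.lf (nat_lit 0) (nat_lit 6126923629) (nat_lit 152) (nat_lit 47307050724) (nat_lit 0) (nat_lit 1593710239) (nat_lit 2) (nat_lit 5) (nat_lit 4) (nat_lit 4) (nat_lit 2) (nat_lit 4) (nat_lit 287) (nat_lit 223) (nat_lit 210)) (XT.nd (nat_lit 78) (nat_lit 0) (nat_lit 0) (XT.lf (nat_lit 0) (nat_lit 9697237964) (nat_lit 152) (nat_lit 44575729100) (nat_lit 0) (nat_lit 4968753028) (nat_lit 2) (nat_lit 5) (nat_lit 4) (nat_lit 4) (nat_lit 2) (nat_lit 4) (nat_lit 288) (nat_lit 223) (nat_lit 209)) (XT.lf (nat_lit 0) (nat_lit 13440974858) (nat_lit 152) (nat_lit 41825999474) (nat_lit 0) (nat_lit 8531682934) (nat_lit 2) (nat_lit 5) (nat_lit 4) (nat_lit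 4) (nat_lit 2) (nat_lit 4) (nat_lit 289) (nat_lit 223) (nat_lit 208))))))))
noncomputable def xc18 : XT := (XT.nd (nat_lit 1404) (nat_lit 0) (nat_lit 0) (XT.nd (nat_lit 702) (nat_lit 76) (nat_lit 0) (XT.nd (nat_lit 312) (nat_lit 0) (nat_lit 0) (XT.nd (nat_lit 156) (nat_lit 0) (nat_lit 0) (XT.nd (nat_lit 78) (nat_lit 0) (nat_lit 0) (XT.lf (nat_lit 0) (nat_lit 17380319420) (nat_lit 152) (nat_lit 39041567155) (nat_lit 0) (nat_lit 12303613618) (nat_lit 2) (nat_lit 5) (nat_lit 4) (nat_lit 4) (nat_lit 2) (nat_lit 4) (nat_lit 290) (nat_lit 223) (nat_lit 207)) (XT.lf (nat_lit 0) (nat_lit 21538615912) (nat_lit 152) (nat_lit 36205931801) (nat_lit 0) (nat_lit 16306897261) (nat_lit 2) (nat_lit 5) (nat_lit 4) (nat_lit 4) (nat_lit 2) (nat_lit 4) (nat_lit 291) (nat_lit 223) (nat_lit 206))) (XT.nd (nat_lit 78) (nat_lit 0) (nat_lit 0) (XT.lf (nat_lit 0) (nat_lit 25940506092) (nat_lit 152) (nat_lit 33302289648)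 (nat_lit 0) (nat_lit 20565257025) (nat_lit 2) (nat_lit 5) (nat_lit 4) (nat_lit 4) (nat_lit 2) (nat_lit 4) (nat_lit 292) (nat_lit 223) (nat_lit 205)) (XT.lf (nat_lit 0) (nat_lit 30612075235) (nat_lit 152) (nat_lit 30313433927) (nat_lit 0) (nat_lit 25103927635) (nat_lit 2) (nat_lit 5) (nat_lit 4) (nat_lit 4) (nat_lit 2) (nat_lit 4) (nat_lit 293) (nat_lit 223) (nat_lit 204)))) (XT.nd (nat_lit 156) (nat_lit 0) (nat_lit 0) (XT.nd (nat_lit 78) (nat_lit 0) (nat_lit 0) (XT.lf (nat_lit 0) (nat_lit 35581006714) (nat_lit 152) (nat_lit 27221652902) (nat_lit 0) (nat_lit 29949804916) (nat_lit 2) (nat_lit 5) (nat_lit 4) (nat_lit 4) (nat_lit 2) (nat_lit 4) (nat_lit 294) (nat_lit 223) (nat_lit 203)) (XT.lf (nat_lit 0) (nat_lit 40876746048) (nat_lit 152) (nat_lit 24008624906) (nat_lit 0) (nat_lit 35131605179) (nat_lit 2) (nat_lit 5) (nat_lit 4) (nat_lit 4) (nat_lit 2) (nat_lit 4) (nat_lit 295) (nat_lit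 223) (nat_lit 202))) (XT.nd (nat_lit 78) (nat_lit 0) (nat_lit 0) (XT.lf (nat_lit 0) (nat_lit 46530675398) (nat_lit 152) (nat_lit 20655309774) (nat_lit 0) (nat_lit 40680035387) (nat_lit 2) (nat_lit 5) (nat_lit 4) (nat_lit 4) (nat_lit 2) (nat_lit 4) (nat_lit 296) (nat_lit 223) (nat_lit 201)) (XT.nd (nat_lit 78) (nat_lit 0) (nat_lit 0) (XT.lf (nat_lit 0) (nat_lit 52576299528) (nat_lit 152) (nat_lit 17141836008) (nat_lit 0) (nat_lit 46627975128) (nat_lit 2) (nat_lit 5) (nat_lit 4) (nat_lit 4) (nat_lit 2) (nat_lit 4) (nat_lit 297) (nat_lit 223) (nat_lit 200)) (XT.lf (nat_lit 0) (nat_lit 59049444360) (nat_lit 152) (nat_lit 13447383024) (nat_lit 0) (nat_lit 53010671452) (nat_lit 2) (nat_lit 5) (nat_lit 4) (nat_lit 4) (nat_lit 2) (nat_lit 4) (nat_lit 298) (nat_lit 223) (nat_lit 199)))))) (XT.nd (nat_lit 312) (nat_lit 0) (nat_lit 0) (XT.nd (nat_lit 156) (nat_lit 76) (nat_lit 0) (XT.nd (nat_lit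 78) (nat_lit 0) (nat_lit 0) (XT.lf (nat_lit 0) (nat_lit 65988469272) (nat_lit 152) (nat_lit 9550057766) (nat_lit 0) (nat_lit 59865947744) (nat_lit 2) (nat_lit 5) (nat_lit 4) (nat_lit 4) (nat_lit 2) (nat_lit 4) (nat_lit 299) (nat_lit 223) (nat_lit 198)) (XT.lf (nat_lit 0) (nat_lit 73434494409) (nat_lit 152) (nat_lit 5426764974) (nat_lit 0) (nat_lit 67234427863) (nat_lit 2) (nat_lit 5) (nat_lit 4) (nat_lit 4) (nat_lit 2) (nat_lit 4) (nat_lit 300) (nat_lit 223) (nat_lit 197))) (XT.nd (nat_lit 78) (nat_lit 76) (nat_lit 0) (XT.lf (nat_lit 0) (nat_lit 81431644366) (nat_lit 152) (nat_lit 1053070320) (nat_lit 0) (nat_lit 75159776878) (nat_lit 2) (nat_lit 5) (nat_lit 4) (nat_lit 4) (nat_lit 2) (nat_lit 4) (nat_lit 301) (nat_lit 223) (nat_lit 196)) (XT.lf (nat_lit 0) (nat_lit 3715875611) (nat_lit 76) (nat_lit 86369449282) (nat_lit 76) (nat_lit 80031099440) (nat_lit 1) (nat_lit 4) (nat_lit 2) (nat_lit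 5) (nat_lit 2) (nat_lit 4) (nat_lit 302) (nat_lit 223) (nat_lit 195)))) (XT.nd (nat_lit 156) (nat_lit 0) (nat_lit 0) (XT.nd (nat_lit 78) (nat_lit 0) (nat_lit 0) (XT.lf (nat_lit 0) (nat_lit 8833564001) (nat_lit 76) (nat_lit 90576780259) (nat_lit 76) (nat_lit 84176872682) (nat_lit 1) (nat_lit 4) (nat_lit 2) (nat_lit 5) (nat_lit 2) (nat_lit 4) (nat_lit 303) (nat_lit 223) (nat_lit 194)) (XT.lf (nat_lit 0) (nat_lit 14295502632) (nat_lit 76) (nat_lit 95149474205) (nat_lit 76) (nat_lit 88692568725) (nat_lit 1) (nat_lit 4) (nat_lit 2) (nat_lit 5) (nat_lit 2) (nat_lit 4) (nat_lit 304) (nat_lit 223) (nat_lit 193))) (XT.nd (nat_lit 78) (nat_lit 0) (nat_lit 0) (XT.lf (nat_lit 0) (nat_lit 20134058546) (nat_lit 76) (nat_lit 100114628565) (nat_lit 76) (nat_lit 93604947248) (nat_lit 1) (nat_lit 4) (nat_lit 2) (nat_lit 5) (nat_lit 2) (nat_lit 4) (nat_lit 305) (nat_lit 223) (nat_lit 192)) (XT.nd (nat_lit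 78) (nat_lit 0) (nat_lit 0) (XT.lf (nat_lit 0) (nat_lit 26383830594) (nat_lit 76) (nat_lit 105501666476) (nat_lit 76) (nat_lit 98943118644) (nat_lit 1) (nat_lit 4) (nat_lit 2) (nat_lit 5) (nat_lit 2) (nat_lit 4) (nat_lit 306) (nat_lit 223) (nat_lit 191)) (XT.lf (nat_lit 0) (nat_lit 33081854463) (nat_lit 76) (nat_lit 111342511125) (nat_lit 76) (nat_lit 104738716521) (nat_lit 1) (nat_lit 4) (nat_lit 2) (nat_lit 5) (nat_lit 2) (nat_lit 4) (nat_lit 307) (nat_lit 223) (nat_lit 190))))))) (XT.nd (nat_lit 702) (nat_lit 0) (nat_lit 0) (XT.nd (nat_lit 312) (nat_lit 0) (nat_lit 0) (XT.nd (nat_lit 156) (nat_lit 0) (nat_lit 0) (XT.nd (nat_lit 78) (nat_lit 0) (nat_lit 0) (XT.lf (nat_lit 0) (nat_lit 40267822144) (nat_lit 76) (nat_lit 117671774926) (nat_lit 76) (nat_lit 111026085161) (nat_lit 1) (nat_lit 4) (nat_lit 2) (nat_lit 5) (nat_lit 2) (nat_lit 4) (nat_lit 308) (nat_lit 223) (nat_lit 189)) (XT.lf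 (nat_lit 0) (nat_lit 47984317151) (nat_lit 76) (nat_lit 124526964627) (nat_lit 76) (nat_lit 117842483047) (nat_lit 1) (nat_lit 4) (nat_lit 2) (nat_lit 5) (nat_lit 2) (nat_lit 4) (nat_lit 309) (nat_lit 223) (nat_lit 188))) (XT.nd (nat_lit 78) (nat_lit 0) (nat_lit 0) (XT.lf (nat_lit 0) (nat_lit 56277066862) (nat_lit 76) (nat_lit 131948703574) (nat_lit 76) (nat_lit 125228303647) (nat_lit 1) (nat_lit 4) (nat_lit 2) (nat_lit 5) (nat_lit 2) (nat_lit 4) (nat_lit 310) (nat_lit 223) (nat_lit 187)) (XT.lf (nat_lit 0) (nat_lit 65195213496) (nat_lit 76) (nat_lit 139980972443) (nat_lit 76) (nat_lit 133227314787) (nat_lit 1) (nat_lit 4) (nat_lit 2) (nat_lit 5) (nat_lit 2) (nat_lit 4) (nat_lit 311) (nat_lit 223) (nat_lit 186)))) (XT.nd (nat_lit 156) (nat_lit 0) (nat_lit 0) (XT.nd (nat_lit 78) (nat_lit 0) (nat_lit 0) (XT.lf (nat_lit 0) (nat_lit 74791605331) (nat_lit 76) (nat_lit 148671369864) (nat_lit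 76) (nat_lit 141886918014) (nat_lit 1) (nat_lit 4) (nat_lit 2) (nat_lit 5) (nat_lit 2) (nat_lit 4) (nat_lit 312) (nat_lit 223) (nat_lit 185)) (XT.lf (nat_lit 0) (nat_lit 85123109873) (nat_lit 76) (nat_lit 158071394488) (nat_lit 76) (nat_lit 151258429496) (nat_lit 1) (nat_lit 4) (nat_lit 2) (nat_lit 5) (nat_lit 2) (nat_lit 4) (nat_lit 313) (nat_lit 223) (nat_lit 184))) (XT.nd (nat_lit 78) (nat_lit 0) (nat_lit 0) (XT.lf (nat_lit 0) (nat_lit 96250950853) (nat_lit 76) (nat_lit 168236750164) (nat_lit 76) (nat_lit 161397384115) (nat_lit 1) (nat_lit 4) (nat_lit 2) (nat_lit 5) (nat_lit 2) (nat_lit 4) (nat_lit 314) (nat_lit 223) (nat_lit 183)) (XT.nd (nat_lit 78) (nat_lit 0) (nat_lit 0) (XT.lf (nat_lit 0) (nat_lit 108241071032) (nat_lit 76) (nat_lit 179227676039) (nat_lit 76) (nat_lit 172363864566) (nat_lit 1) (nat_lit 4) (nat_lit 2) (nat_lit 5) (nat_lit 2) (nat_lit 4) (nat_lit 315) (nat_lit 223)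 (nat_lit 182)) (XT.lf (nat_lit 0) (nat_lit 121164522974) (nat_lit 76) (nat_lit 191109303523) (nat_lit 76) (nat_lit 184222857399) (nat_lit 1) (nat_lit 4) (nat_lit 2) (nat_lit 5) (nat_lit 2) (nat_lit 4) (nat_lit 316) (nat_lit 223) (nat_lit 181)))))) (XT.nd (nat_lit 312) (nat_lit 0) (nat_lit 0) (XT.nd (nat_lit 156) (nat_lit 0) (nat_lit 0) (XT.nd (nat_lit 78) (nat_lit 0) (nat_lit 0) (XT.lf (nat_lit 0) (nat_lit 135097890099) (nat_lit 76) (nat_lit 203952042263) (nat_lit 76) (nat_lit 197044638128) (nat_lit 1) (nat_lit 4) (nat_lit 2) (nat_lit 5) (nat_lit 2) (nat_lit 4) (nat_lit 317) (nat_lit 223) (nat_lit 180)) (XT.lf (nat_lit 0) (nat_lit 150123740508) (nat_lit 76) (nat_lit 217831997375) (nat_lit 76) (nat_lit 210905187675) (nat_lit 1) (nat_lit 4) (nat_lit 2) (nat_lit 5) (nat_lit 2) (nat_lit 4) (nat_lit 318) (nat_lit 223) (nat_lit 179))) (XT.nd (nat_lit 78) (nat_lit 0) (nat_lit 0) (XT.lf (nat_lit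 0) (nat_lit 166331116277) (nat_lit 76) (nat_lit 232831420446) (nat_lit 76) (nat_lit 225886642629) (nat_lit 1) (nat_lit 4) (nat_lit 2) (nat_lit 5) (nat_lit 2) (nat_lit 4) (nat_lit 319) (nat_lit 223) (nat_lit 178)) (XT.lf (nat_lit 0) (nat_lit 183816061114) (nat_lit 76) (nat_lit 249039196946) (nat_lit 76) (nat_lit 242077781985) (nat_lit 1) (nat_lit 4) (nat_lit 2) (nat_lit 5) (nat_lit 2) (nat_lit 4) (nat_lit 320) (nat_lit 223) (nat_lit 177)))) (XT.nd (nat_lit 156) (nat_lit 0) (nat_lit 0) (XT.nd (nat_lit 78) (nat_lit 0) (nat_lit 0) (XT.lf (nat_lit 0) (nat_lit 202682189508) (nat_lit 76) (nat_lit 266551372958) (nat_lit 76) (nat_lit 259574553233) (nat_lit 1) (nat_lit 4) (nat_lit 2) (nat_lit 5) (nat_lit 2) (nat_lit 4) (nat_lit 321) (nat_lit 223) (nat_lit 176)) (XT.lf (nat_lit 0) (nat_lit 223041300738) (nat_lit 76) (nat_lit 285471724340) (nat_lit 76) (nat_lit 278480640945) (nat_lit 1) (nat_lit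 4) (nat_lit 2) (nat_lit 5) (nat_lit 2) (nat_lit 4) (nat_lit 322) (nat_lit 223) (nat_lit 175))) (XT.nd (nat_lit 78) (nat_lit 0) (nat_lit 0) (XT.lf (nat_lit 0) (nat_lit 245014041388) (nat_lit 76) (nat_lit 305912371692) (nat_lit 76) (nat_lit 298908081196) (nat_lit 1) (nat_lit 4) (nat_lit 2) (nat_lit 5) (nat_lit 2) (nat_lit 4) (nat_lit 323) (nat_lit 223) (nat_lit 174)) (XT.nd (nat_lit 33462) (nat_lit 0) (nat_lit 532) (XT.lf (nat_lit 0) (nat_lit 268730620293) (nat_lit 76) (nat_lit 327994444777) (nat_lit 76) (nat_lit 320977925482) (nat_lit 1) (nat_lit 4) (nat_lit 2) (nat_lit 5) (nat_lit 2) (nat_lit 4) (nat_lit 324) (nat_lit 223) (nat_lit 173)) (XT.lf (nat_lit 0) (nat_lit 1168728391) (nat_lit 152) (nat_lit 7409322598) (nat_lit 0) (nat_lit 1168728391) (nat_lit 8) (nat_lit 5) (nat_lit 10) (nat_lit 4) (nat_lit 8) (nat_lit 4) (nat_lit 272) (nat_lit 224) (nat_lit 224))))))))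
noncomputable def xc19 : XT := (XT.nd (nat_lit 1404) (nat_lit 76) (nat_lit 0) (XT.nd (nat_lit 702) (nat_lit 152) (nat_lit 0) (XT.nd (nat_lit 312) (nat_lit 228) (nat_lit 0) (XT.nd (nat_lit 156) (nat_lit 0) (nat_lit 0) (XT.nd (nat_lit 78) (nat_lit 76) (nat_lit 0) (XT.lf (nat_lit 0) (nat_lit 7548994384) (nat_lit 152) (nat_lit 6290815755) (nat_lit 0) (nat_lit 6916655133) (nat_lit 8) (nat_lit 5) (nat_lit 10) (nat_lit 4) (nat_lit 8) (nat_lit 4) (nat_lit 273) (nat_lit 224) (nat_lit 223)) (XT.lf (nat_lit 0) (nat_lit 2526505596) (nat_lit 76) (nat_lit 10412112712) (nat_lit 76) (nat_lit 9194274153) (nat_lit 7) (nat_lit 4) (nat_lit 8) (nat_lit 5) (nat_lit 8) (nat_lit 4) (nat_lit 274) (nat_lit 224) (nat_lit 222))) (XT.nd (nat_lit 78) (nat_lit 0) (nat_lit 0) (XT.lf (nat_lit 0) (nat_lit 11820839266) (nat_lit 76) (nat_lit 6783412976) (nat_lit 76) (nat_lit 5023445430) (nat_lit 7) (nat_lit 4) (nat_lit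 8) (nat_lit 5) (nat_lit 8) (nat_lit 4) (nat_lit 275) (nat_lit 224) (nat_lit 221)) (XT.lf (nat_lit 0) (nat_lit 21439260007) (nat_lit 76) (nat_lit 3038745536) (nat_lit 76) (nat_lit 776806705) (nat_lit 7) (nat_lit 4) (nat_lit 8) (nat_lit 5) (nat_lit 8) (nat_lit 4) (nat_lit 276) (nat_lit 224) (nat_lit 220)))) (XT.nd (nat_lit 156) (nat_lit 76) (nat_lit 0) (XT.nd (nat_lit 78) (nat_lit 0) (nat_lit 0) (XT.lf (nat_lit 0) (nat_lit 3542072817) (nat_lit 152) (nat_lit 22529550432) (nat_lit 0) (nat_lit 945189904) (nat_lit 5) (nat_lit 5) (nat_lit 7) (nat_lit 4) (nat_lit 5) (nat_lit 4) (nat_lit 277) (nat_lit 224) (nat_lit 219)) (XT.lf (nat_lit 0) (nat_lit 8076001573) (nat_lit 152) (nat_lit 15779428050) (nat_lit 0) (nat_lit 5069252499) (nat_lit 5) (nat_lit 5) (nat_lit 7) (nat_lit 4) (nat_lit 5) (nat_lit 4) (nat_lit 278) (nat_lit 224) (nat_lit 218))) (XT.nd (nat_lit 78) (nat_lit 76) (nat_lit 0) (XT.lf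 (nat_lit 0) (nat_lit 12766716584) (nat_lit 152) (nat_lit 8848652733) (nat_lit 0) (nat_lit 9380461805) (nat_lit 5) (nat_lit 5) (nat_lit 7) (nat_lit 4) (nat_lit 5) (nat_lit 4) (nat_lit 279) (nat_lit 224) (nat_lit 217)) (XT.nd (nat_lit 78) (nat_lit 76) (nat_lit 0) (XT.lf (nat_lit 0) (nat_lit 17642014679) (nat_lit 152) (nat_lit 1696153219) (nat_lit 0) (nat_lit 13904365729) (nat_lit 5) (nat_lit 5) (nat_lit 7) (nat_lit 4) (nat_lit 5) (nat_lit 4) (nat_lit 280) (nat_lit 224) (nat_lit 216)) (XT.lf (nat_lit 0) (nat_lit 5909599770) (nat_lit 76) (nat_lit 16913452158) (nat_lit 76) (nat_lit 12850438234) (nat_lit 4) (nat_lit 4) (nat_lit 5) (nat_lit 5) (nat_lit 5) (nat_lit 4) (nat_lit 281) (nat_lit 224) (nat_lit 215)))))) (XT.nd (nat_lit 312) (nat_lit 152) (nat_lit 0) (XT.nd (nat_lit 156) (nat_lit 0) (nat_lit 0) (XT.nd (nat_lit 78) (nat_lit 0) (nat_lit 0) (XT.lf (nat_lit 0) (nat_lit 13889680744) (nat_lit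 76) (nat_lit 14390363872) (nat_lit 76) (nat_lit 10026086085) (nat_lit 4) (nat_lit 4) (nat_lit 5) (nat_lit 5) (nat_lit 5) (nat_lit 4) (nat_lit 282) (nat_lit 224) (nat_lit 214)) (XT.lf (nat_lit 0) (nat_lit 22235296583) (nat_lit 76) (nat_lit 11782676585) (nat_lit 76) (nat_lit 7139450775) (nat_lit 4) (nat_lit 4) (nat_lit 5) (nat_lit 5) (nat_lit 5) (nat_lit 4) (nat_lit 283) (nat_lit 224) (nat_lit 213))) (XT.nd (nat_lit 78) (nat_lit 0) (nat_lit 0) (XT.lf (nat_lit 0) (nat_lit 30995902789) (nat_lit 76) (nat_lit 9074937333) (nat_lit 76) (nat_lit 4173426317) (nat_lit 4) (nat_lit 4) (nat_lit 5) (nat_lit 5) (nat_lit 5) (nat_lit 4) (nat_lit 284) (nat_lit 224) (nat_lit 212)) (XT.lf (nat_lit 0) (nat_lit 40223414065) (nat_lit 76) (nat_lit 6251100255) (nat_lit 76) (nat_lit 1110436270) (nat_lit 4) (nat_lit 4) (nat_lit 5) (nat_lit 5) (nat_lit 5) (nat_lit 4) (nat_lit 285) (nat_lit 224) (nat_lit 211)))) (XT.nd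 (nat_lit 156) (nat_lit 0) (nat_lit 0) (XT.nd (nat_lit 78) (nat_lit 76) (nat_lit 0) (XT.lf (nat_lit 0) (nat_lit 2001492050) (nat_lit 152) (nat_lit 1259043214) (nat_lit 76) (nat_lit 47937123673) (nat_lit 3) (nat_lit 5) (nat_lit 5) (nat_lit 5) (nat_lit 4) (nat_lit 4) (nat_lit 286) (nat_lit 224) (nat_lit 210)) (XT.lf (nat_lit 0) (nat_lit 5277228554) (nat_lit 76) (nat_lit 12705882) (nat_lit 152) (nat_lit 49810398323) (nat_lit 2) (nat_lit 5) (nat_lit 3) (nat_lit 5) (nat_lit 4) (nat_lit 4) (nat_lit 287) (nat_lit 224) (nat_lit 209))) (XT.nd (nat_lit 78) (nat_lit 0) (nat_lit 0) (XT.lf (nat_lit 0) (nat_lit 8806106845) (nat_lit 152) (nat_lit 47187785038) (nat_lit 0) (nat_lit 3323264580) (nat_lit 2) (nat_lit 5) (nat_lit 4) (nat_lit 4) (nat_lit 2) (nat_lit 4) (nat_lit 288) (nat_lit 224) (nat_lit 208)) (XT.nd (nat_lit 78) (nat_lit 0) (nat_lit 0) (XT.lf (nat_lit 0) (nat_lit 12499896007) (nat_lit 152)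 (nat_lit 44527130257) (nat_lit 0) (nat_lit 6849639864) (nat_lit 2) (nat_lit 5) (nat_lit 4) (nat_lit 4) (nat_lit 2) (nat_lit 4) (nat_lit 289) (nat_lit 224) (nat_lit 207)) (XT.lf (nat_lit 0) (nat_lit 16392992667) (nat_lit 152) (nat_lit 41825174644) (nat_lit 0) (nat_lit 10587723675) (nat_lit 2) (nat_lit 5) (nat_lit 4) (nat_lit 4) (nat_lit 2) (nat_lit 4) (nat_lit 290) (nat_lit 224) (nat_lit 206))))))) (XT.nd (nat_lit 702) (nat_lit 76) (nat_lit 0) (XT.nd (nat_lit 312) (nat_lit 0) (nat_lit 0) (XT.nd (nat_lit 156) (nat_lit 0) (nat_lit 0) (XT.nd (nat_lit 78) (nat_lit 0) (nat_lit 0) (XT.lf (nat_lit 0) (nat_lit 20508467029) (nat_lit 152) (nat_lit 39065906612) (nat_lit 0) (nat_lit 14559667620) (nat_lit 2) (nat_lit 5) (nat_lit 4) (nat_lit 4) (nat_lit 2) (nat_lit 4) (nat_lit 291) (nat_lit 224) (nat_lit 205)) (XT.lf (nat_lit 0) (nat_lit 24870707088) (nat_lit 152) (nat_lit 36232974942) (nat_lit 0) (nat_lit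 18789009146) (nat_lit 2) (nat_lit 5) (nat_lit 4) (nat_lit 4) (nat_lit 2) (nat_lit 4) (nat_lit 292) (nat_lit 224) (nat_lit 204))) (XT.nd (nat_lit 78) (nat_lit 0) (nat_lit 0) (XT.lf (nat_lit 0) (nat_lit 29505563156) (nat_lit 152) (nat_lit 33309591891) (nat_lit 0) (nat_lit 23300811017) (nat_lit 2) (nat_lit 5) (nat_lit 4) (nat_lit 4) (nat_lit 2) (nat_lit 4) (nat_lit 293) (nat_lit 224) (nat_lit 203)) (XT.lf (nat_lit 0) (nat_lit 34440501047) (nat_lit 152) (nat_lit 30278433708) (nat_lit 0) (nat_lit 28121809836) (nat_lit 2) (nat_lit 5) (nat_lit 4) (nat_lit 4) (nat_lit 2) (nat_lit 4) (nat_lit 294) (nat_lit 224) (nat_lit 202)))) (XT.nd (nat_lit 156) (nat_lit 0) (nat_lit 0) (XT.nd (nat_lit 78) (nat_lit 0) (nat_lit 0) (XT.lf (nat_lit 0) (nat_lit 39704764837) (nat_lit 152) (nat_lit 27121537973) (nat_lit 0) (nat_lit 33280574486) (nat_lit 2) (nat_lit 5) (nat_lit 4) (nat_lit 4) (nat_lit 2) (nat_lit 4)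 (nat_lit 295) (nat_lit 224) (nat_lit 201)) (XT.lf (nat_lit 0) (nat_lit 45329550164) (nat_lit 152) (nat_lit 23820197157) (nat_lit 0) (nat_lit 38807675423) (nat_lit 2) (nat_lit 5) (nat_lit 4) (nat_lit 4) (nat_lit 2) (nat_lit 4) (nat_lit 296) (nat_lit 224) (nat_lit 200))) (XT.nd (nat_lit 78) (nat_lit 0) (nat_lit 0) (XT.lf (nat_lit 0) (nat_lit 51348189089) (nat_lit 152) (nat_lit 20354847758) (nat_lit 0) (nat_lit 44735865839) (nat_lit 2) (nat_lit 5) (nat_lit 4) (nat_lit 4) (nat_lit 2) (nat_lit 4) (nat_lit 297) (nat_lit 224) (nat_lit 199)) (XT.nd (nat_lit 78) (nat_lit 0) (nat_lit 0) (XT.lf (nat_lit 0) (nat_lit 57796347619) (nat_lit 152) (nat_lit 16704954372) (nat_lit 0) (nat_lit 51100275750) (nat_lit 2) (nat_lit 5) (nat_lit 4) (nat_lit 4) (nat_lit 2) (nat_lit 4) (nat_lit 298) (nat_lit 224) (nat_lit 198)) (XT.lf (nat_lit 0) (nat_lit 64712237066) (nat_lit 152) (nat_lit 12848888002) (nat_lit 0)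 (nat_lit 57938620179) (nat_lit 2) (nat_lit 5) (nat_lit 4) (nat_lit 4) (nat_lit 2) (nat_lit 4) (nat_lit 299) (nat_lit 224) (nat_lit 197)))))) (XT.nd (nat_lit 390) (nat_lit 0) (nat_lit 0) (XT.nd (nat_lit 156) (nat_lit 76) (nat_lit 0) (XT.nd (nat_lit 78) (nat_lit 0) (nat_lit 0) (XT.lf (nat_lit 0) (nat_lit 72136840477) (nat_lit 152) (nat_lit 8763797884) (nat_lit 0) (nat_lit 65291422647) (nat_lit 2) (nat_lit 5) (nat_lit 4) (nat_lit 4) (nat_lit 2) (nat_lit 4) (nat_lit 300) (nat_lit 224) (nat_lit 196)) (XT.lf (nat_lit 0) (nat_lit 80114155502) (nat_lit 152) (nat_lit 4425476076) (nat_lit 0) (nat_lit 73202255318) (nat_lit 2) (nat_lit 5) (nat_lit 4) (nat_lit 4) (nat_lit 2) (nat_lit 4) (nat_lit 301) (nat_lit 224) (nat_lit 195))) (XT.nd (nat_lit 78) (nat_lit 0) (nat_lit 0) (XT.lf (nat_lit 0) (nat_lit 198127304) (nat_lit 76) (nat_lit 88496421137) (nat_lit 76) (nat_lit 81522963218) (nat_lit 1) (nat_lit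 4) (nat_lit 2) (nat_lit 5) (nat_lit 2) (nat_lit 4) (nat_lit 302) (nat_lit 224) (nat_lit 194)) (XT.nd (nat_lit 78) (nat_lit 0) (nat_lit 0) (XT.lf (nat_lit 0) (nat_lit 5284486449) (nat_lit 76) (nat_lit 92717586965) (nat_lit 76) (nat_lit 85687131143) (nat_lit 1) (nat_lit 4) (nat_lit 2) (nat_lit 5) (nat_lit 2) (nat_lit 4) (nat_lit 303) (nat_lit 224) (nat_lit 193)) (XT.lf (nat_lit 0) (nat_lit 10717416519) (nat_lit 76) (nat_lit 97303090958) (nat_lit 76) (nat_lit 90219859300) (nat_lit 1) (nat_lit 4) (nat_lit 2) (nat_lit 5) (nat_lit 2) (nat_lit 4) (nat_lit 304) (nat_lit 224) (nat_lit 192))))) (XT.nd (nat_lit 156) (nat_lit 0) (nat_lit 0) (XT.nd (nat_lit 78) (nat_lit 0) (nat_lit 0) (XT.lf (nat_lit 0) (nat_lit 16529112655) (nat_lit 76) (nat_lit 102280106473) (nat_lit 76) (nat_lit 95148008300) (nat_lit 1) (nat_lit 4) (nat_lit 2) (nat_lit 5) (nat_lit 2) (nat_lit 4) (nat_lit 305) (nat_lit 224) (nat_lit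 191)) (XT.lf (nat_lit 0) (nat_lit 22754014538) (nat_lit 76) (nat_lit 107678126934) (nat_lit 76) (nat_lit 100500781989) (nat_lit 1) (nat_lit 4) (nat_lit 2) (nat_lit 5) (nat_lit 2) (nat_lit 4) (nat_lit 306) (nat_lit 224) (nat_lit 190))) (XT.nd (nat_lit 78) (nat_lit 0) (nat_lit 0) (XT.lf (nat_lit 0) (nat_lit 29429010475) (nat_lit 76) (nat_lit 113529140613) (nat_lit 76) (nat_lit 106309900506) (nat_lit 1) (nat_lit 4) (nat_lit 2) (nat_lit 5) (nat_lit 2) (nat_lit 4) (nat_lit 307) (nat_lit 224) (nat_lit 189)) (XT.nd (nat_lit 78) (nat_lit 0) (nat_lit 0) (XT.lf (nat_lit 0) (nat_lit 36593655999) (nat_lit 76) (nat_lit 119867820181) (nat_lit 76) (nat_lit 112609788260) (nat_lit 1) (nat_lit 4) (nat_lit 2) (nat_lit 5) (nat_lit 2) (nat_lit 4) (nat_lit 308) (nat_lit 224) (nat_lit 188)) (XT.lf (nat_lit 0) (nat_lit 44290408267) (nat_lit 76) (nat_lit 126731728185) (nat_lit 76) (nat_lit 119437777916) (nat_lit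 1) (nat_lit 4) (nat_lit 2) (nat_lit 5) (nat_lit 2) (nat_lit 4) (nat_lit 309) (nat_lit 224) (nat_lit 187))))))))
noncomputable def xc20 : XT := (XT.nd (nat_lit 34632) (nat_lit 0) (nat_lit 76) (XT.nd (nat_lit 702) (nat_lit 0) (nat_lit 0) (XT.nd (nat_lit 312) (nat_lit 0) (nat_lit 0) (XT.nd (nat_lit 156) (nat_lit 0) (nat_lit 0) (XT.nd (nat_lit 78) (nat_lit 0) (nat_lit 0) (XT.lf (nat_lit 0) (nat_lit 52564877663) (nat_lit 76) (nat_lit 134161539635) (nat_lit 76) (nat_lit 126834331637) (nat_lit 1) (nat_lit 4) (nat_lit 2) (nat_lit 5) (nat_lit 2) (nat_lit 4) (nat_lit 310) (nat_lit 224) (nat_lit 186)) (XT.lf (nat_lit 0) (nat_lit 61466098081) (nat_lit 76) (nat_lit 142201283043) (nat_lit 76) (nat_lit 134843280852) (nat_lit 1) (nat_lit 4) (nat_lit 2) (nat_lit 5) (nat_lit 2) (nat_lit 4) (nat_lit 311) (nat_lit 224) (nat_lit 185))) (XT.nd (nat_lit 78) (nat_lit 0) (nat_lit 0) (XT.lf (nat_lit 0) (nat_lit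 71046817493) (nat_lit 76) (nat_lit 150898601334) (nat_lit 76) (nat_lit 143512086001) (nat_lit 1) (nat_lit 4) (nat_lit 2) (nat_lit 5) (nat_lit 2) (nat_lit 4) (nat_lit 312) (nat_lit 224) (nat_lit 184)) (XT.lf (nat_lit 0) (nat_lit 81363810532) (nat_lit 76) (nat_lit 160305034171) (nat_lit 76) (nat_lit 152892117780) (nat_lit 1) (nat_lit 4) (nat_lit 2) (nat_lit 5) (nat_lit 2) (nat_lit 4) (nat_lit 313) (nat_lit 224) (nat_lit 183)))) (XT.nd (nat_lit 156) (nat_lit 0) (nat_lit 0) (XT.nd (nat_lit 78) (nat_lit 0) (nat_lit 0) (XT.lf (nat_lit 0) (nat_lit 92478214936) (nat_lit 76) (nat_lit 170476323378) (nat_lit 76) (nat_lit 163038961564) (nat_lit 1) (nat_lit 4) (nat_lit 2) (nat_lit 5) (nat_lit 2) (nat_lit 4) (nat_lit 314) (nat_lit 224) (nat_lit 182)) (XT.lf (nat_lit 0) (nat_lit 104455893840) (nat_lit 76) (nat_lit 181472743262) (nat_lit 76) (nat_lit 174012746796) (nat_lit 1) (nat_lit 4) (nat_lit 2)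 (nat_lit 5) (nat_lit 2) (nat_lit 4) (nat_lit 315) (nat_lit 224) (nat_lit 181))) (XT.nd (nat_lit 78) (nat_lit 0) (nat_lit 0) (XT.lf (nat_lit 0) (nat_lit 117367826084) (nat_lit 76) (nat_lit 193359457793) (nat_lit 76) (nat_lit 185878503317) (nat_lit 1) (nat_lit 4) (nat_lit 2) (nat_lit 5) (nat_lit 2) (nat_lit 4) (nat_lit 316) (nat_lit 224) (nat_lit 180)) (XT.nd (nat_lit 78) (nat_lit 0) (nat_lit 0) (XT.lf (nat_lit 0) (nat_lit 131290526822) (nat_lit 76) (nat_lit 206206906760) (nat_lit 76) (nat_lit 198706546718) (nat_lit 1) (nat_lit 4) (nat_lit 2) (nat_lit 5) (nat_lit 2) (nat_lit 4) (nat_lit 317) (nat_lit 224) (nat_lit 179)) (XT.lf (nat_lit 0) (nat_lit 146306500945) (nat_lit 76) (nat_lit 220091223194) (nat_lit 76) (nat_lit 212572895036) (nat_lit 1) (nat_lit 4) (nat_lit 2) (nat_lit 5) (nat_lit 2) (nat_lit 4) (nat_lit 318) (nat_lit 224) (nat_lit 178)))))) (XT.nd (nat_lit 312) (nat_lit 0) (nat_lit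 0) (XT.nd (nat_lit 156) (nat_lit 0) (nat_lit 0) (XT.nd (nat_lit 78) (nat_lit 0) (nat_lit 0) (XT.lf (nat_lit 0) (nat_lit 162504732006) (nat_lit 76) (nat_lit 235094684526) (nat_lit 76) (nat_lit 227559719224) (nat_lit 1) (nat_lit 4) (nat_lit 2) (nat_lit 5) (nat_lit 2) (nat_lit 4) (nat_lit 319) (nat_lit 224) (nat_lit 177)) (XT.lf (nat_lit 0) (nat_lit 179981209521) (nat_lit 76) (nat_lit 251306200157) (nat_lit 76) (nat_lit 243755830091) (nat_lit 1) (nat_lit 4) (nat_lit 2) (nat_lit 5) (nat_lit 2) (nat_lit 4) (nat_lit 320) (nat_lit 224) (nat_lit 176))) (XT.nd (nat_lit 78) (nat_lit 0) (nat_lit 0) (XT.lf (nat_lit 0) (nat_lit 198839497802) (nat_lit 76) (nat_lit 268821838327) (nat_lit 76) (nat_lit 261257204591) (nat_lit 1) (nat_lit 4) (nat_lit 2) (nat_lit 5) (nat_lit 2) (nat_lit 4) (nat_lit 321) (nat_lit 224) (nat_lit 175)) (XT.lf (nat_lit 0) (nat_lit 219191349667) (nat_lit 76) (nat_lit 287745395411)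 (nat_lit 76) (nat_lit 280167554573) (nat_lit 1) (nat_lit 4) (nat_lit 2) (nat_lit 5) (nat_lit 2) (nat_lit 4) (nat_lit 322) (nat_lit 224) (nat_lit 174)))) (XT.nd (nat_lit 33384) (nat_lit 0) (nat_lit 532) (XT.nd (nat_lit 78) (nat_lit 0) (nat_lit 0) (XT.lf (nat_lit 0) (nat_lit 241157368684) (nat_lit 76) (nat_lit 308189011006) (nat_lit 76) (nat_lit 300598941370) (nat_lit 1) (nat_lit 4) (nat_lit 2) (nat_lit 5) (nat_lit 2) (nat_lit 4) (nat_lit 323) (nat_lit 224) (nat_lit 173)) (XT.lf (nat_lit 0) (nat_lit 264867723855) (nat_lit 76) (nat_lit 330273832463) (nat_lit 76) (nat_lit 322672439866) (nat_lit 1) (nat_lit 4) (nat_lit 2) (nat_lit 5) (nat_lit 2) (nat_lit 4) (nat_lit 324) (nat_lit 224) (nat_lit 172))) (XT.nd (nat_lit 78) (nat_lit 152) (nat_lit 0) (XT.lf (nat_lit 0) (nat_lit 1786004175) (nat_lit 152) (nat_lit 3420728716) (nat_lit 152) (nat_lit 3420728716) (nat_lit 10) (nat_lit 4) (nat_lit 12)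 (nat_lit 5) (nat_lit 12) (nat_lit 4) (nat_lit 270) (nat_lit 225) (nat_lit 225)) (XT.nd (nat_lit 78) (nat_lit 152) (nat_lit 0) (XT.lf (nat_lit 0) (nat_lit 13559526091) (nat_lit 152) (nat_lit 2744286027) (nat_lit 152) (nat_lit 2027213316) (nat_lit 10) (nat_lit 4) (nat_lit 12) (nat_lit 5) (nat_lit 12) (nat_lit 4) (nat_lit 271) (nat_lit 225) (nat_lit 224)) (XT.lf (nat_lit 0) (nat_lit 2875890326) (nat_lit 152) (nat_lit 15064552058) (nat_lit 0) (nat_lit 1560624683) (nat_lit 8) (nat_lit 5) (nat_lit 10) (nat_lit 4) (nat_lit 8) (nat_lit 4) (nat_lit 272) (nat_lit 225) (nat_lit 223))))))) (XT.nd (nat_lit 702) (nat_lit 152) (nat_lit 0) (XT.nd (nat_lit 312) (nat_lit 228) (nat_lit 0) (XT.nd (nat_lit 156) (nat_lit 0) (nat_lit 0) (XT.nd (nat_lit 78) (nat_lit 76) (nat_lit 0) (XT.lf (nat_lit 0) (nat_lit 7953638256) (nat_lit 152) (nat_lit 6764414156) (nat_lit 0) (nat_lit 6052873306) (nat_lit 8) (nat_lit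 5) (nat_lit 10) (nat_lit 4) (nat_lit 8) (nat_lit 4) (nat_lit 273) (nat_lit 225) (nat_lit 222)) (XT.lf (nat_lit 0) (nat_lit 1819451550) (nat_lit 76) (nat_lit 11388892207) (nat_lit 76) (nat_lit 8945998269) (nat_lit 7) (nat_lit 4) (nat_lit 8) (nat_lit 5) (nat_lit 8) (nat_lit 4) (nat_lit 274) (nat_lit 225) (nat_lit 221))) (XT.nd (nat_lit 78) (nat_lit 0) (nat_lit 0) (XT.lf (nat_lit 0) (nat_lit 10912121940) (nat_lit 76) (nat_lit 7844004142) (nat_lit 76) (nat_lit 4899138919) (nat_lit 7) (nat_lit 4) (nat_lit 8) (nat_lit 5) (nat_lit 8) (nat_lit 4) (nat_lit 275) (nat_lit 225) (nat_lit 220)) (XT.lf (nat_lit 0) (nat_lit 20343817423) (nat_lit 76) (nat_lit 4176940100) (nat_lit 76) (nat_lit 767286651) (nat_lit 7) (nat_lit 4) (nat_lit 8) (nat_lit 5) (nat_lit 8) (nat_lit 4) (nat_lit 276) (nat_lit 225) (nat_lit 219)))) (XT.nd (nat_lit 156) (nat_lit 76) (nat_lit 0) (XT.nd (nat_lit 78) (nat_lit 0) (nat_lit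 0) (XT.lf (nat_lit 0) (nat_lit 3154808262) (nat_lit 76) (nat_lit 257299631) (nat_lit 152) (nat_lit 23645072633) (nat_lit 5) (nat_lit 5) (nat_lit 6) (nat_lit 5) (nat_lit 7) (nat_lit 4) (nat_lit 277) (nat_lit 225) (nat_lit 218)) (XT.lf (nat_lit 0) (nat_lit 7843015613) (nat_lit 152) (nat_lit 17321000433) (nat_lit 0) (nat_lit 3806354747) (nat_lit 5) (nat_lit 5) (nat_lit 7) (nat_lit 4) (nat_lit 5) (nat_lit 4) (nat_lit 278) (nat_lit 225) (nat_lit 217))) (XT.nd (nat_lit 78) (nat_lit 76) (nat_lit 0) (XT.lf (nat_lit 0) (nat_lit 12442060375) (nat_lit 152) (nat_lit 10550195226) (nat_lit 0) (nat_lit 8054005338) (nat_lit 5) (nat_lit 5) (nat_lit 7) (nat_lit 4) (nat_lit 5) (nat_lit 4) (nat_lit 279) (nat_lit 225) (nat_lit 216)) (XT.nd (nat_lit 78) (nat_lit 76) (nat_lit 0) (XT.lf (nat_lit 0) (nat_lit 17232478611) (nat_lit 152) (nat_lit 3545816185) (nat_lit 0) (nat_lit 12519058601) (nat_lit 5) (nat_lit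 5) (nat_lit 7) (nat_lit 4) (nat_lit 5) (nat_lit 4) (nat_lit 280) (nat_lit 225) (nat_lit 215)) (XT.lf (nat_lit 0) (nat_lit 3857095257) (nat_lit 76) (nat_lit 18445782792) (nat_lit 76) (nat_lit 13431098918) (nat_lit 4) (nat_lit 4) (nat_lit 5) (nat_lit 5) (nat_lit 5) (nat_lit 4) (nat_lit 281) (nat_lit 225) (nat_lit 214)))))) (XT.nd (nat_lit 312) (nat_lit 152) (nat_lit 0) (XT.nd (nat_lit 156) (nat_lit 0) (nat_lit 0) (XT.nd (nat_lit 78) (nat_lit 0) (nat_lit 0) (XT.lf (nat_lit 0) (nat_lit 11705987955) (nat_lit 76) (nat_lit 15979063767) (nat_lit 76) (nat_lit 10685431870) (nat_lit 4) (nat_lit 4) (nat_lit 5) (nat_lit 5) (nat_lit 5) (nat_lit 4) (nat_lit 282) (nat_lit 225) (nat_lit 213)) (XT.lf (nat_lit 0) (nat_lit 19930133169) (nat_lit 76) (nat_lit 13423570238) (nat_lit 76) (nat_lit 7871653135) (nat_lit 4) (nat_lit 4) (nat_lit 5) (nat_lit 5) (nat_lit 5) (nat_lit 4) (nat_lit 283) (nat_lit 225) (nat_lit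 212))) (XT.nd (nat_lit 78) (nat_lit 0) (nat_lit 0) (XT.lf (nat_lit 0) (nat_lit 28578266574) (nat_lit 76) (nat_lit 10764158541) (nat_lit 76) (nat_lit 4973088470) (nat_lit 4) (nat_lit 4) (nat_lit 5) (nat_lit 5) (nat_lit 5) (nat_lit 4) (nat_lit 284) (nat_lit 225) (nat_lit 211)) (XT.lf (nat_lit 0) (nat_lit 37701636368) (nat_lit 76) (nat_lit 7985069199) (nat_lit 76) (nat_lit 1972561194) (nat_lit 4) (nat_lit 4) (nat_lit 5) (nat_lit 5) (nat_lit 5) (nat_lit 4) (nat_lit 285) (nat_lit 225) (nat_lit 210)))) (XT.nd (nat_lit 156) (nat_lit 0) (nat_lit 0) (XT.nd (nat_lit 78) (nat_lit 76) (nat_lit 0) (XT.lf (nat_lit 0) (nat_lit 1110975720) (nat_lit 152) (nat_lit 3940042903) (nat_lit 76) (nat_lit 46224516333) (nat_lit 3) (nat_lit 5) (nat_lit 5) (nat_lit 5) (nat_lit 4) (nat_lit 4) (nat_lit 286) (nat_lit 225) (nat_lit 209)) (XT.lf (nat_lit 0) (nat_lit 2413491768) (nat_lit 76) (nat_lit 1889377614) (nat_lit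 152) (nat_lit 50880247941) (nat_lit 2) (nat_lit 5) (nat_lit 3) (nat_lit 5) (nat_lit 4) (nat_lit 4) (nat_lit 287) (nat_lit 225) (nat_lit 208))) (XT.nd (nat_lit 78) (nat_lit 0) (nat_lit 0) (XT.lf (nat_lit 0) (nat_lit 7739793953) (nat_lit 152) (nat_lit 50194081127) (nat_lit 0) (nat_lit 1470103441) (nat_lit 2) (nat_lit 5) (nat_lit 4) (nat_lit 4) (nat_lit 2) (nat_lit 4) (nat_lit 288) (nat_lit 225) (nat_lit 207)) (XT.nd (nat_lit 78) (nat_lit 0) (nat_lit 0) (XT.lf (nat_lit 0) (nat_lit 11387335213) (nat_lit 152) (nat_lit 47615903053) (nat_lit 0) (nat_lit 4962631852) (nat_lit 2) (nat_lit 5) (nat_lit 4) (nat_lit 4) (nat_lit 2) (nat_lit 4) (nat_lit 289) (nat_lit 225) (nat_lit 206)) (XT.lf (nat_lit 0) (nat_lit 15237609743) (nat_lit 152) (nat_lit 44990314763) (nat_lit 0) (nat_lit 8669375966) (nat_lit 2) (nat_lit 5) (nat_lit 4) (nat_lit 4) (nat_lit 2) (nat_lit 4) (nat_lit 290) (nat_lit 225) (nat_lit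 205))))))))
noncomputable def xc21 : XT := (XT.nd (nat_lit 1404) (nat_lit 0) (nat_lit 0) (XT.nd (nat_lit 702) (nat_lit 76) (nat_lit 0) (XT.nd (nat_lit 312) (nat_lit 0) (nat_lit 0) (XT.nd (nat_lit 156) (nat_lit 0) (nat_lit 0) (XT.nd (nat_lit 78) (nat_lit 0) (nat_lit 0) (XT.lf (nat_lit 0) (nat_lit 19313433984) (nat_lit 152) (nat_lit 42301757213) (nat_lit 0) (nat_lit 12612301673) (nat_lit 2) (nat_lit 5) (nat_lit 4) (nat_lit 4) (nat_lit 2) (nat_lit 4) (nat_lit 291) (nat_lit 225) (nat_lit 204)) (XT.lf (nat_lit 0) (nat_lit 23638960968) (nat_lit 152) (nat_lit 39534298213) (nat_lit 0) (nat_lit 16814774460) (nat_lit 2) (nat_lit 5) (nat_lit 4) (nat_lit 4) (nat_lit 2) (nat_lit 4) (nat_lit 292) (nat_lit 225) (nat_lit 203))) (XT.nd (nat_lit 78) (nat_lit 0) (nat_lit 0) (XT.lf (nat_lit 0) (nat_lit 28239823448) (nat_lit 152) (nat_lit 36671538004) (nat_lit 0) (nat_lit 21301697868) (nat_lit 2) (nat_lit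 5) (nat_lit 4) (nat_lit 4) (nat_lit 2) (nat_lit 4) (nat_lit 293) (nat_lit 225) (nat_lit 202)) (XT.lf (nat_lit 0) (nat_lit 33143285795) (nat_lit 152) (nat_lit 33696512082) (nat_lit 0) (nat_lit 26099661075) (nat_lit 2) (nat_lit 5) (nat_lit 4) (nat_lit 4) (nat_lit 2) (nat_lit 4) (nat_lit 294) (nat_lit 225) (nat_lit 201)))) (XT.nd (nat_lit 156) (nat_lit 0) (nat_lit 0) (XT.nd (nat_lit 78) (nat_lit 0) (nat_lit 0) (XT.lf (nat_lit 0) (nat_lit 38378405563) (nat_lit 152) (nat_lit 30591590663) (nat_lit 0) (nat_lit 31237096453) (nat_lit 2) (nat_lit 5) (nat_lit 4) (nat_lit 4) (nat_lit 2) (nat_lit 4) (nat_lit 295) (nat_lit 225) (nat_lit 200)) (XT.lf (nat_lit 0) (nat_lit 43976205684) (nat_lit 152) (nat_lit 27338374214) (nat_lit 0) (nat_lit 36744448065) (nat_lit 2) (nat_lit 5) (nat_lit 4) (nat_lit 4) (nat_lit 2) (nat_lit 4) (nat_lit 296) (nat_lit 225) (nat_lit 199))) (XT.nd (nat_lit 78) (nat_lit 0) (nat_lit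 0) (XT.lf (nat_lit 0) (nat_lit 49969858306) (nat_lit 152) (nat_lit 23917584413) (nat_lit 0) (nat_lit 42654352068) (nat_lit 2) (nat_lit 5) (nat_lit 4) (nat_lit 4) (nat_lit 2) (nat_lit 4) (nat_lit 297) (nat_lit 225) (nat_lit 198)) (XT.nd (nat_lit 78) (nat_lit 0) (nat_lit 0) (XT.lf (nat_lit 0) (nat_lit 56394881372) (nat_lit 152) (nat_lit 20308949915) (nat_lit 0) (nat_lit 49001830117) (nat_lit 2) (nat_lit 5) (nat_lit 4) (nat_lit 4) (nat_lit 2) (nat_lit 4) (nat_lit 298) (nat_lit 225) (nat_lit 197)) (XT.lf (nat_lit 0) (nat_lit 63289349092) (nat_lit 152) (nat_lit 16491086219) (nat_lit 0) (nat_lit 55824496894) (nat_lit 2) (nat_lit 5) (nat_lit 4) (nat_lit 4) (nat_lit 2) (nat_lit 4) (nat_lit 299) (nat_lit 225) (nat_lit 196)))))) (XT.nd (nat_lit 312) (nat_lit 0) (nat_lit 0) (XT.nd (nat_lit 156) (nat_lit 76) (nat_lit 0) (XT.nd (nat_lit 78) (nat_lit 0) (nat_lit 0) (XT.lf (nat_lit 0) (nat_lit 70694117571)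 (nat_lit 152) (nat_lit 12441368947) (nat_lit 0) (nat_lit 63162783019) (nat_lit 2) (nat_lit 5) (nat_lit 4) (nat_lit 4) (nat_lit 2) (nat_lit 4) (nat_lit 300) (nat_lit 225) (nat_lit 195)) (XT.lf (nat_lit 0) (nat_lit 78653066919) (nat_lit 152) (nat_lit 8135799775) (nat_lit 0) (nat_lit 71060174631) (nat_lit 2) (nat_lit 5) (nat_lit 4) (nat_lit 4) (nat_lit 2) (nat_lit 4) (nat_lit 301) (nat_lit 225) (nat_lit 194))) (XT.nd (nat_lit 78) (nat_lit 76) (nat_lit 0) (XT.lf (nat_lit 0) (nat_lit 87213361279) (nat_lit 152) (nat_lit 3548864218) (nat_lit 0) (nat_lit 79563471089) (nat_lit 2) (nat_lit 5) (nat_lit 4) (nat_lit 4) (nat_lit 2) (nat_lit 4) (nat_lit 302) (nat_lit 225) (nat_lit 193)) (XT.lf (nat_lit 0) (nat_lit 1391144887) (nat_lit 76) (nat_lit 95056303106) (nat_lit 76) (nat_lit 87353637079) (nat_lit 1) (nat_lit 4) (nat_lit 2) (nat_lit 5) (nat_lit 2) (nat_lit 4) (nat_lit 303) (nat_lit 225) (nat_lit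 192)))) (XT.nd (nat_lit 156) (nat_lit 0) (nat_lit 0) (XT.nd (nat_lit 78) (nat_lit 0) (nat_lit 0) (XT.lf (nat_lit 0) (nat_lit 6797215178) (nat_lit 76) (nat_lit 99653668254) (nat_lit 76) (nat_lit 91902135712) (nat_lit 1) (nat_lit 4) (nat_lit 2) (nat_lit 5) (nat_lit 2) (nat_lit 4) (nat_lit 304) (nat_lit 225) (nat_lit 191)) (XT.lf (nat_lit 0) (nat_lit 12584041148) (nat_lit 76) (nat_lit 104641666319) (nat_lit 76) (nat_lit 96844887005) (nat_lit 1) (nat_lit 4) (nat_lit 2) (nat_lit 5) (nat_lit 2) (nat_lit 4) (nat_lit 305) (nat_lit 225) (nat_lit 190))) (XT.nd (nat_lit 78) (nat_lit 0) (nat_lit 0) (XT.lf (nat_lit 0) (nat_lit 18785915101) (nat_lit 76) (nat_lit 110049855810) (nat_lit 76) (nat_lit 102211181335) (nat_lit 1) (nat_lit 4) (nat_lit 2) (nat_lit 5) (nat_lit 2) (nat_lit 4) (nat_lit 306) (nat_lit 225) (nat_lit 189)) (XT.nd (nat_lit 78) (nat_lit 0) (nat_lit 0) (XT.lf (nat_lit 0) (nat_lit 25439588880)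 (nat_lit 76) (nat_lit 115910285255) (nat_lit 76) (nat_lit 108032818965) (nat_lit 1) (nat_lit 4) (nat_lit 2) (nat_lit 5) (nat_lit 2) (nat_lit 4) (nat_lit 307) (nat_lit 225) (nat_lit 188)) (XT.lf (nat_lit 0) (nat_lit 32584491664) (nat_lit 76) (nat_lit 122257683126) (nat_lit 76) (nat_lit 114344298489) (nat_lit 1) (nat_lit 4) (nat_lit 2) (nat_lit 5) (nat_lit 2) (nat_lit 4) (nat_lit 308) (nat_lit 225) (nat_lit 187))))))) (XT.nd (nat_lit 702) (nat_lit 0) (nat_lit 0) (XT.nd (nat_lit 312) (nat_lit 0) (nat_lit 0) (XT.nd (nat_lit 156) (nat_lit 0) (nat_lit 0) (XT.nd (nat_lit 78) (nat_lit 0) (nat_lit 0) (XT.lf (nat_lit 0) (nat_lit 40262963618) (nat_lit 76) (nat_lit 129129663633) (nat_lit 76) (nat_lit 121183021267) (nat_lit 1) (nat_lit 4) (nat_lit 2) (nat_lit 5) (nat_lit 2) (nat_lit 4) (nat_lit 309) (nat_lit 225) (nat_lit 186)) (XT.lf (nat_lit 0) (nat_lit 48520506798) (nat_lit 76) (nat_lit 136566949623)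 (nat_lit 76) (nat_lit 128589513063) (nat_lit 1) (nat_lit 4) (nat_lit 2) (nat_lit 5) (nat_lit 2) (nat_lit 4) (nat_lit 310) (nat_lit 225) (nat_lit 185))) (XT.nd (nat_lit 78) (nat_lit 0) (nat_lit 0) (XT.lf (nat_lit 0) (nat_lit 57406054793) (nat_lit 76) (nat_lit 144613613901) (nat_lit 76) (nat_lit 136607664199) (nat_lit 1) (nat_lit 4) (nat_lit 2) (nat_lit 5) (nat_lit 2) (nat_lit 4) (nat_lit 311) (nat_lit 225) (nat_lit 184)) (XT.lf (nat_lit 0) (nat_lit 66972262703) (nat_lit 76) (nat_lit 153317340405) (nat_lit 76) (nat_lit 145284989645) (nat_lit 1) (nat_lit 4) (nat_lit 2) (nat_lit 5) (nat_lit 2) (nat_lit 4) (nat_lit 312) (nat_lit 225) (nat_lit 183)))) (XT.nd (nat_lit 156) (nat_lit 0) (nat_lit 0) (XT.nd (nat_lit 78) (nat_lit 0) (nat_lit 0) (XT.lf (nat_lit 0) (nat_lit 77275819165) (nat_lit 76) (nat_lit 162729706772) (nat_lit 76) (nat_lit 154672910589) (nat_lit 1) (nat_lit 4) (nat_lit 2) (nat_lit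 5) (nat_lit 2) (nat_lit 4) (nat_lit 313) (nat_lit 225) (nat_lit 182)) (XT.lf (nat_lit 0) (nat_lit 88377782294) (nat_lit 76) (nat_lit 172906489989) (nat_lit 76) (nat_lit 164827059155) (nat_lit 1) (nat_lit 4) (nat_lit 2) (nat_lit 5) (nat_lit 2) (nat_lit 4) (nat_lit 314) (nat_lit 225) (nat_lit 181))) (XT.nd (nat_lit 78) (nat_lit 0) (nat_lit 0) (XT.lf (nat_lit 0) (nat_lit 100343941500) (nat_lit 76) (nat_lit 183907996919) (nat_lit 76) (nat_lit 175807608074) (nat_lit 1) (nat_lit 4) (nat_lit 2) (nat_lit 5) (nat_lit 2) (nat_lit 4) (nat_lit 315) (nat_lit 225) (nat_lit 180)) (XT.nd (nat_lit 78) (nat_lit 0) (nat_lit 0) (XT.lf (nat_lit 0) (nat_lit 113245207357) (nat_lit 76) (nat_lit 195799421678) (nat_lit 76) (nat_lit 187679627267) (nat_lit 1) (nat_lit 4) (nat_lit 2) (nat_lit 5) (nat_lit 2) (nat_lit 4) (nat_lit 316) (nat_lit 225) (nat_lit 179)) (XT.lf (nat_lit 0) (nat_lit 127158031809) (nat_lit 76)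 (nat_lit 208651231967) (nat_lit 76) (nat_lit 200513469440) (nat_lit 1) (nat_lit 4) (nat_lit 2) (nat_lit 5) (nat_lit 2) (nat_lit 4) (nat_lit 317) (nat_lit 225) (nat_lit 178)))))) (XT.nd (nat_lit 390) (nat_lit 0) (nat_lit 0) (XT.nd (nat_lit 156) (nat_lit 0) (nat_lit 0) (XT.nd (nat_lit 78) (nat_lit 0) (nat_lit 0) (XT.lf (nat_lit 0) (nat_lit 142164861225) (nat_lit 76) (nat_lit 222539586662) (nat_lit 76) (nat_lit 214385186991) (nat_lit 1) (nat_lit 4) (nat_lit 2) (nat_lit 5) (nat_lit 2) (nat_lit 4) (nat_lit 318) (nat_lit 225) (nat_lit 177)) (XT.lf (nat_lit 0) (nat_lit 158354624963) (nat_lit 76) (nat_lit 237546787125) (nat_lit 76) (nat_lit 229376982691) (nat_lit 1) (nat_lit 4) (nat_lit 2) (nat_lit 5) (nat_lit 2) (nat_lit 4) (nat_lit 319) (nat_lit 225) (nat_lit 176))) (XT.nd (nat_lit 78) (nat_lit 0) (nat_lit 0) (XT.lf (nat_lit 0) (nat_lit 175823262365) (nat_lit 76) (nat_lit 253761764914) (nat_lit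 76) (nat_lit 245577696810) (nat_lit 1) (nat_lit 4) (nat_lit 2) (nat_lit 5) (nat_lit 2) (nat_lit 4) (nat_lit 320) (nat_lit 225) (nat_lit 175)) (XT.nd (nat_lit 78) (nat_lit 0) (nat_lit 0) (XT.lf (nat_lit 0) (nat_lit 194674291281) (nat_lit 76) (nat_lit 271280608786) (nat_lit 76) (nat_lit 263083333580) (nat_lit 1) (nat_lit 4) (nat_lit 2) (nat_lit 5) (nat_lit 2) (nat_lit 4) (nat_lit 321) (nat_lit 225) (nat_lit 174)) (XT.lf (nat_lit 0) (nat_lit 215019421513) (nat_lit 76) (nat_lit 290207134112) (nat_lit 76) (nat_lit 281997630108) (nat_lit 1) (nat_lit 4) (nat_lit 2) (nat_lit 5) (nat_lit 2) (nat_lit 4) (nat_lit 322) (nat_lit 225) (nat_lit 173))))) (XT.nd (nat_lit 33228) (nat_lit 0) (nat_lit 684) (XT.nd (nat_lit 78) (nat_lit 0) (nat_lit 0) (XT.lf (nat_lit 0) (nat_lit 236979216796) (nat_lit 76) (nat_lit 310653498080) (nat_lit 76) (nat_lit 302432671114) (nat_lit 1) (nat_lit 4) (nat_lit 2) (nat_lit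 5) (nat_lit 2) (nat_lit 4) (nat_lit 323) (nat_lit 225) (nat_lit 172)) (XT.lf (nat_lit 0) (nat_lit 260683809249) (nat_lit 76) (nat_lit 332740864327) (nat_lit 76) (nat_lit 324509553138) (nat_lit 1) (nat_lit 4) (nat_lit 2) (nat_lit 5) (nat_lit 2) (nat_lit 4) (nat_lit 324) (nat_lit 225) (nat_lit 171))) (XT.nd (nat_lit 78) (nat_lit 152) (nat_lit 0) (XT.lf (nat_lit 0) (nat_lit 114480267) (nat_lit 152) (nat_lit 7451143341) (nat_lit 0) (nat_lit 114480267) (nat_lit 12) (nat_lit 5) (nat_lit 14) (nat_lit 4) (nat_lit 12) (nat_lit 4) (nat_lit 268) (nat_lit 226) (nat_lit 226)) (XT.nd (nat_lit 78) (nat_lit 152) (nat_lit 0) (XT.lf (nat_lit 0) (nat_lit 5545538628) (nat_lit 152) (nat_lit 5951930139) (nat_lit 0) (nat_lit 4771100100) (nat_lit 12) (nat_lit 5) (nat_lit 14) (nat_lit 4) (nat_lit 12) (nat_lit 4) (nat_lit 269) (nat_lit 226) (nat_lit 225)) (XT.lf (nat_lit 0) (nat_lit 3326394248) (nat_lit 152) (nat_lit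 7713871897) (nat_lit 152) (nat_lit 6222360658) (nat_lit 10) (nat_lit 4) (nat_lit 12) (nat_lit 5) (nat_lit 12) (nat_lit 4) (nat_lit 270) (nat_lit 226) (nat_lit 224))))))))
noncomputable def xc22 : XT := (XT.nd (nat_lit 1404) (nat_lit 76) (nat_lit 0) (XT.nd (nat_lit 702) (nat_lit 228) (nat_lit 0) (XT.nd (nat_lit 312) (nat_lit 152) (nat_lit 0) (XT.nd (nat_lit 156) (nat_lit 76) (nat_lit 0) (XT.nd (nat_lit 78) (nat_lit 152) (nat_lit 0) (XT.lf (nat_lit 0) (nat_lit 13086491522) (nat_lit 152) (nat_lit 3707418950) (nat_lit 152) (nat_lit 1551951497) (nat_lit 10) (nat_lit 4) (nat_lit 12) (nat_lit 5) (nat_lit 12) (nat_lit 4) (nat_lit 271) (nat_lit 226) (nat_lit 223)) (XT.lf (nat_lit 0) (nat_lit 3179116035) (nat_lit 152) (nat_lit 15803729871) (nat_lit 0) (nat_lit 540790582) (nat_lit 8) (nat_lit 5) (nat_lit 10) (nat_lit 4) (nat_lit 8) (nat_lit 4) (nat_lit 272) (nat_lit 226) (nat_lit 222))) (XT.nd (nat_lit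 78) (nat_lit 76) (nat_lit 0) (XT.lf (nat_lit 0) (nat_lit 8132984637) (nat_lit 152) (nat_lit 7714417468) (nat_lit 0) (nat_lit 4952530197) (nat_lit 8) (nat_lit 5) (nat_lit 10) (nat_lit 4) (nat_lit 8) (nat_lit 4) (nat_lit 273) (nat_lit 226) (nat_lit 221)) (XT.lf (nat_lit 0) (nat_lit 636373559) (nat_lit 76) (nat_lit 12618142336) (nat_lit 76) (nat_lit 8935716610) (nat_lit 7) (nat_lit 4) (nat_lit 8) (nat_lit 5) (nat_lit 8) (nat_lit 4) (nat_lit 274) (nat_lit 226) (nat_lit 220)))) (XT.nd (nat_lit 156) (nat_lit 152) (nat_lit 0) (XT.nd (nat_lit 78) (nat_lit 0) (nat_lit 0) (XT.lf (nat_lit 0) (nat_lit 9542318690) (nat_lit 76) (nat_lit 9150857669) (nat_lit 76) (nat_lit 5003643717) (nat_lit 7) (nat_lit 4) (nat_lit 8) (nat_lit 5) (nat_lit 8) (nat_lit 4) (nat_lit 275) (nat_lit 226) (nat_lit 219)) (XT.lf (nat_lit 0) (nat_lit 18801120414) (nat_lit 76) (nat_lit 5555648627) (nat_lit 76) (nat_lit 978075205)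 (nat_lit 7) (nat_lit 4) (nat_lit 8) (nat_lit 5) (nat_lit 8) (nat_lit 4) (nat_lit 276) (nat_lit 226) (nat_lit 218))) (XT.nd (nat_lit 78) (nat_lit 0) (nat_lit 0) (XT.lf (nat_lit 0) (nat_lit 1347345255) (nat_lit 76) (nat_lit 1737239948) (nat_lit 152) (nat_lit 24025904224) (nat_lit 5) (nat_lit 5) (nat_lit 6) (nat_lit 5) (nat_lit 7) (nat_lit 4) (nat_lit 277) (nat_lit 226) (nat_lit 217)) (XT.nd (nat_lit 78) (nat_lit 0) (nat_lit 0) (XT.lf (nat_lit 0) (nat_lit 7400716659) (nat_lit 152) (nat_lit 19318636435) (nat_lit 0) (nat_lit 2310223048) (nat_lit 5) (nat_lit 5) (nat_lit 7) (nat_lit 4) (nat_lit 5) (nat_lit 4) (nat_lit 278) (nat_lit 226) (nat_lit 216)) (XT.lf (nat_lit 0) (nat_lit 11914881562) (nat_lit 152) (nat_lit 12695951700) (nat_lit 0) (nat_lit 6499022977) (nat_lit 5) (nat_lit 5) (nat_lit 7) (nat_lit 4) (nat_lit 5) (nat_lit 4) (nat_lit 279) (nat_lit 226) (nat_lit 215)))))) (XT.nd (nat_lit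 312) (nat_lit 152) (nat_lit 0) (XT.nd (nat_lit 156) (nat_lit 0) (nat_lit 0) (XT.nd (nat_lit 78) (nat_lit 76) (nat_lit 0) (XT.lf (nat_lit 0) (nat_lit 16626707335) (nat_lit 152) (nat_lit 5828721245) (nat_lit 0) (nat_lit 10909584886) (nat_lit 5) (nat_lit 5) (nat_lit 7) (nat_lit 4) (nat_lit 5) (nat_lit 4) (nat_lit 280) (nat_lit 226) (nat_lit 214)) (XT.lf (nat_lit 0) (nat_lit 1367518771) (nat_lit 76) (nat_lit 20217947939) (nat_lit 76) (nat_lit 14221877467) (nat_lit 4) (nat_lit 4) (nat_lit 5) (nat_lit 5) (nat_lit 5) (nat_lit 4) (nat_lit 281) (nat_lit 226) (nat_lit 213))) (XT.nd (nat_lit 78) (nat_lit 0) (nat_lit 0) (XT.lf (nat_lit 0) (nat_lit 9094940844) (nat_lit 76) (nat_lit 17803422672) (nat_lit 76) (nat_lit 11549066995) (nat_lit 4) (nat_lit 4) (nat_lit 5) (nat_lit 5) (nat_lit 5) (nat_lit 4) (nat_lit 282) (nat_lit 226) (nat_lit 212)) (XT.lf (nat_lit 0) (nat_lit 17206613257) (nat_lit 76) (nat_lit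 15296256698) (nat_lit 76) (nat_lit 8802748053) (nat_lit 4) (nat_lit 4) (nat_lit 5) (nat_lit 5) (nat_lit 5) (nat_lit 4) (nat_lit 283) (nat_lit 226) (nat_lit 211)))) (XT.nd (nat_lit 156) (nat_lit 152) (nat_lit 0) (XT.nd (nat_lit 78) (nat_lit 0) (nat_lit 0) (XT.lf (nat_lit 0) (nat_lit 25750605179) (nat_lit 76) (nat_lit 12681592737) (nat_lit 76) (nat_lit 5966646158) (nat_lit 4) (nat_lit 4) (nat_lit 5) (nat_lit 5) (nat_lit 5) (nat_lit 4) (nat_lit 284) (nat_lit 226) (nat_lit 210)) (XT.lf (nat_lit 0) (nat_lit 34777547674) (nat_lit 76) (nat_lit 9943936484) (nat_lit 76) (nat_lit 3023954780) (nat_lit 4) (nat_lit 4) (nat_lit 5) (nat_lit 5) (nat_lit 5) (nat_lit 4) (nat_lit 285) (nat_lit 226) (nat_lit 209))) (XT.nd (nat_lit 78) (nat_lit 76) (nat_lit 0) (XT.lf (nat_lit 0) (nat_lit 41395527) (nat_lit 152) (nat_lit 7024968209) (nat_lit 76) (nat_lit 44298837155) (nat_lit 3) (nat_lit 5) (nat_lit 5) (nat_lit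 5) (nat_lit 4) (nat_lit 4) (nat_lit 286) (nat_lit 226) (nat_lit 208)) (XT.nd (nat_lit 78) (nat_lit 76) (nat_lit 0) (XT.lf (nat_lit 0) (nat_lit 3147609886) (nat_lit 152) (nat_lit 833013343) (nat_lit 76) (nat_lit 51296519096) (nat_lit 3) (nat_lit 5) (nat_lit 5) (nat_lit 5) (nat_lit 4) (nat_lit 4) (nat_lit 287) (nat_lit 226) (nat_lit 207)) (XT.lf (nat_lit 0) (nat_lit 5880078025) (nat_lit 76) (nat_lit 621607403) (nat_lit 152) (nat_lit 53000530085) (nat_lit 2) (nat_lit 5) (nat_lit 3) (nat_lit 5) (nat_lit 4) (nat_lit 4) (nat_lit 288) (nat_lit 226) (nat_lit 206))))))) (XT.nd (nat_lit 702) (nat_lit 76) (nat_lit 0) (XT.nd (nat_lit 312) (nat_lit 0) (nat_lit 0) (XT.nd (nat_lit 156) (nat_lit 0) (nat_lit 0) (XT.nd (nat_lit 78) (nat_lit 0) (nat_lit 0) (XT.lf (nat_lit 0) (nat_lit 10096699524) (nat_lit 152) (nat_lit 51110621702) (nat_lit 0) (nat_lit 2859476629) (nat_lit 2) (nat_lit 5) (nat_lit 4) (nat_lit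 4) (nat_lit 2) (nat_lit 4) (nat_lit 289) (nat_lit 226) (nat_lit 205)) (XT.lf (nat_lit 0) (nat_lit 13907323933) (nat_lit 152) (nat_lit 48555743895) (nat_lit 0) (nat_lit 6537202505) (nat_lit 2) (nat_lit 5) (nat_lit 4) (nat_lit 4) (nat_lit 2) (nat_lit 4) (nat_lit 290) (nat_lit 226) (nat_lit 204))) (XT.nd (nat_lit 78) (nat_lit 0) (nat_lit 0) (XT.lf (nat_lit 0) (nat_lit 17946435099) (nat_lit 152) (nat_lit 45932659015) (nat_lit 0) (nat_lit 10453259473) (nat_lit 2) (nat_lit 5) (nat_lit 4) (nat_lit 4) (nat_lit 2) (nat_lit 4) (nat_lit 291) (nat_lit 226) (nat_lit 203)) (XT.lf (nat_lit 0) (nat_lit 22237968496) (nat_lit 152) (nat_lit 43225822857) (nat_lit 0) (nat_lit 14630853798) (nat_lit 2) (nat_lit 5) (nat_lit 4) (nat_lit 4) (nat_lit 2) (nat_lit 4) (nat_lit 292) (nat_lit 226) (nat_lit 202)))) (XT.nd (nat_lit 156) (nat_lit 0) (nat_lit 0) (XT.nd (nat_lit 78) (nat_lit 0) (nat_lit 0) (XT.lf (nat_lit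 0) (nat_lit 26807355432) (nat_lit 152) (nat_lit 40419194909) (nat_lit 0) (nat_lit 19094741593) (nat_lit 2) (nat_lit 5) (nat_lit 4) (nat_lit 4) (nat_lit 2) (nat_lit 4) (nat_lit 293) (nat_lit 226) (nat_lit 201)) (XT.lf (nat_lit 0) (nat_lit 31681673756) (nat_lit 152) (nat_lit 37496143303) (nat_lit 0) (nat_lit 23871375528) (nat_lit 2) (nat_lit 5) (nat_lit 4) (nat_lit 4) (nat_lit 2) (nat_lit 4) (nat_lit 294) (nat_lit 226) (nat_lit 200))) (XT.nd (nat_lit 78) (nat_lit 0) (nat_lit 0) (XT.lf (nat_lit 0) (nat_lit 36889808318) (nat_lit 152) (nat_lit 34439346251) (nat_lit 0) (nat_lit 28989061581) (nat_lit 2) (nat_lit 5) (nat_lit 4) (nat_lit 4) (nat_lit 2) (nat_lit 4) (nat_lit 295) (nat_lit 226) (nat_lit 199)) (XT.nd (nat_lit 78) (nat_lit 0) (nat_lit 0) (XT.lf (nat_lit 0) (nat_lit 42462622137) (nat_lit 152) (nat_lit 31230689400) (nat_lit 0) (nat_lit 34478126781) (nat_lit 2) (nat_lit 5) (nat_lit 4)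 (nat_lit 4) (nat_lit 2) (nat_lit 4) (nat_lit 296) (nat_lit 226) (nat_lit 198)) (XT.lf (nat_lit 0) (nat_lit 48433139295) (nat_lit 152) (nat_lit 27851158487) (nat_lit 0) (nat_lit 40371098921) (nat_lit 2) (nat_lit 5) (nat_lit 4) (nat_lit 4) (nat_lit 2) (nat_lit 4) (nat_lit 297) (nat_lit 226) (nat_lit 197)))))) (XT.nd (nat_lit 312) (nat_lit 76) (nat_lit 0) (XT.nd (nat_lit 156) (nat_lit 0) (nat_lit 0) (XT.nd (nat_lit 78) (nat_lit 0) (nat_lit 0) (XT.lf (nat_lit 0) (nat_lit 54836740634) (nat_lit 152) (nat_lit 24280726663) (nat_lit 0) (nat_lit 46702899318) (nat_lit 2) (nat_lit 5) (nat_lit 4) (nat_lit 4) (nat_lit 2) (nat_lit 4) (nat_lit 298) (nat_lit 226) (nat_lit 196)) (XT.lf (nat_lit 0) (nat_lit 61711373422) (nat_lit 152) (nat_lit 20498235813) (nat_lit 0) (nat_lit 53511049752) (nat_lit 2) (nat_lit 5) (nat_lit 4) (nat_lit 4) (nat_lit 2) (nat_lit 4) (nat_lit 299) (nat_lit 226) (nat_lit 195)))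 (XT.nd (nat_lit 78) (nat_lit 0) (nat_lit 0) (XT.lf (nat_lit 0) (nat_lit 69097776224) (nat_lit 152) (nat_lit 16481271177) (nat_lit 0) (nat_lit 60835894818) (nat_lit 2) (nat_lit 5) (nat_lit 4) (nat_lit 4) (nat_lit 2) (nat_lit 4) (nat_lit 300) (nat_lit 226) (nat_lit 194)) (XT.lf (nat_lit 0) (nat_lit 77039720314) (nat_lit 152) (nat_lit 12206028518) (nat_lit 0) (nat_lit 68720841005) (nat_lit 2) (nat_lit 5) (nat_lit 4) (nat_lit 4) (nat_lit 2) (nat_lit 4) (nat_lit 301) (nat_lit 226) (nat_lit 193)))) (XT.nd (nat_lit 156) (nat_lit 76) (nat_lit 0) (XT.nd (nat_lit 78) (nat_lit 0) (nat_lit 0) (XT.lf (nat_lit 0) (nat_lit 85584269066) (nat_lit 152) (nat_lit 7647173067) (nat_lit 0) (nat_lit 77212613921) (nat_lit 2) (nat_lit 5) (nat_lit 4) (nat_lit 4) (nat_lit 2) (nat_lit 4) (nat_lit 302) (nat_lit 226) (nat_lit 192)) (XT.lf (nat_lit 0) (nat_lit 94782056842) (nat_lit 152) (nat_lit 2777689384) (nat_lit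 0) (nat_lit 86361535182) (nat_lit 2) (nat_lit 5) (nat_lit 4) (nat_lit 4) (nat_lit 2) (nat_lit 4) (nat_lit 303) (nat_lit 226) (nat_lit 191))) (XT.nd (nat_lit 78) (nat_lit 0) (nat_lit 0) (XT.lf (nat_lit 0) (nat_lit 2511667786) (nat_lit 76) (nat_lit 102215135439) (nat_lit 76) (nat_lit 93749367006) (nat_lit 1) (nat_lit 4) (nat_lit 2) (nat_lit 5) (nat_lit 2) (nat_lit 4) (nat_lit 304) (nat_lit 226) (nat_lit 190)) (XT.nd (nat_lit 78) (nat_lit 0) (nat_lit 0) (XT.lf (nat_lit 0) (nat_lit 8275465825) (nat_lit 76) (nat_lit 107213302533) (nat_lit 76) (nat_lit 98705638940) (nat_lit 1) (nat_lit 4) (nat_lit 2) (nat_lit 5) (nat_lit 2) (nat_lit 4) (nat_lit 305) (nat_lit 226) (nat_lit 189)) (XT.lf (nat_lit 0) (nat_lit 14456017619) (nat_lit 76) (nat_lit 112630907791) (nat_lit 76) (nat_lit 104084452382) (nat_lit 1) (nat_lit 4) (nat_lit 2) (nat_lit 5) (nat_lit 2) (nat_lit 4) (nat_lit 306) (nat_lit 226) (nat_lit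 188))))))))
noncomputable def xc23 : XT := (XT.nd (nat_lit 34320) (nat_lit 0) (nat_lit 228) (XT.nd (nat_lit 702) (nat_lit 0) (nat_lit 0) (XT.nd (nat_lit 312) (nat_lit 0) (nat_lit 0) (XT.nd (nat_lit 156) (nat_lit 0) (nat_lit 0) (XT.nd (nat_lit 78) (nat_lit 0) (nat_lit 0) (XT.lf (nat_lit 0) (nat_lit 21089948660) (nat_lit 76) (nat_lit 118500055539) (nat_lit 76) (nat_lit 109917681784) (nat_lit 1) (nat_lit 4) (nat_lit 2) (nat_lit 5) (nat_lit 2) (nat_lit 4) (nat_lit 307) (nat_lit 226) (nat_lit 187)) (XT.lf (nat_lit 0) (nat_lit 28216571130) (nat_lit 76) (nat_lit 124855525913) (nat_lit 76) (nat_lit 116239894429) (nat_lit 1) (nat_lit 4) (nat_lit 2) (nat_lit 5) (nat_lit 2) (nat_lit 4) (nat_lit 308) (nat_lit 226) (nat_lit 186))) (XT.nd (nat_lit 78) (nat_lit 0) (nat_lit 0) (XT.lf (nat_lit 0) (nat_lit 35878116868) (nat_lit 76) (nat_lit 131734980959) (nat_lit 76) (nat_lit 123088555281) (nat_lit 1)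 (nat_lit 4) (nat_lit 2) (nat_lit 5) (nat_lit 2) (nat_lit 4) (nat_lit 309) (nat_lit 226) (nat_lit 185)) (XT.lf (nat_lit 0) (nat_lit 44119987625) (nat_lit 76) (nat_lit 139179187819) (nat_lit 76) (nat_lit 130504248999) (nat_lit 1) (nat_lit 4) (nat_lit 2) (nat_lit 5) (nat_lit 2) (nat_lit 4) (nat_lit 310) (nat_lit 226) (nat_lit 184)))) (XT.nd (nat_lit 156) (nat_lit 0) (nat_lit 0) (XT.nd (nat_lit 78) (nat_lit 0) (nat_lit 0) (XT.lf (nat_lit 0) (nat_lit 52991024117) (nat_lit 76) (nat_lit 147232260310) (nat_lit 76) (nat_lit 138530920433) (nat_lit 1) (nat_lit 4) (nat_lit 2) (nat_lit 5) (nat_lit 2) (nat_lit 4) (nat_lit 311) (nat_lit 226) (nat_lit 183)) (XT.lf (nat_lit 0) (nat_lit 62543795450) (nat_lit 76) (nat_lit 155941920344) (nat_lit 76) (nat_lit 147216135043) (nat_lit 1) (nat_lit 4) (nat_lit 2) (nat_lit 5) (nat_lit 2) (nat_lit 4) (nat_lit 312) (nat_lit 226) (nat_lit 182))) (XT.nd (nat_lit 78)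 (nat_lit 0) (nat_lit 0) (XT.lf (nat_lit 0) (nat_lit 72834910638) (nat_lit 76) (nat_lit 165359780722) (nat_lit 76) (nat_lit 156611360769) (nat_lit 1) (nat_lit 4) (nat_lit 2) (nat_lit 5) (nat_lit 2) (nat_lit 4) (nat_lit 313) (nat_lit 226) (nat_lit 181)) (XT.nd (nat_lit 78) (nat_lit 0) (nat_lit 0) (XT.lf (nat_lit 0) (nat_lit 83925354069) (nat_lit 76) (nat_lit 175541650985) (nat_lit 76) (nat_lit 166772273021) (nat_lit 1) (nat_lit 4) (nat_lit 2) (nat_lit 5) (nat_lit 2) (nat_lit 4) (nat_lit 314) (nat_lit 226) (nat_lit 180)) (XT.lf (nat_lit 0) (nat_lit 95880846887) (nat_lit 76) (nat_lit 186547868143) (nat_lit 76) (nat_lit 177759084614) (nat_lit 1) (nat_lit 4) (nat_lit 2) (nat_lit 5) (nat_lit 2) (nat_lit 4) (nat_lit 315) (nat_lit 226) (nat_lit 179)))))) (XT.nd (nat_lit 312) (nat_lit 0) (nat_lit 0) (XT.nd (nat_lit 156) (nat_lit 0) (nat_lit 0) (XT.nd (nat_lit 78) (nat_lit 0) (nat_lit 0) (XT.lf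 (nat_lit 0) (nat_lit 108772236459) (nat_lit 76) (nat_lit 198443654223) (nat_lit 76) (nat_lit 189636902578) (nat_lit 1) (nat_lit 4) (nat_lit 2) (nat_lit 5) (nat_lit 2) (nat_lit 4) (nat_lit 316) (nat_lit 226) (nat_lit 178)) (XT.lf (nat_lit 0) (nat_lit 122675916203) (nat_lit 76) (nat_lit 211299502774) (nat_lit 76) (nat_lit 202476113984) (nat_lit 1) (nat_lit 4) (nat_lit 2) (nat_lit 5) (nat_lit 2) (nat_lit 4) (nat_lit 317) (nat_lit 226) (nat_lit 177))) (XT.nd (nat_lit 78) (nat_lit 0) (nat_lit 0) (XT.lf (nat_lit 0) (nat_lit 137674278296) (nat_lit 76) (nat_lit 225191596600) (nat_lit 76) (nat_lit 216352803047) (nat_lit 1) (nat_lit 4) (nat_lit 2) (nat_lit 5) (nat_lit 2) (nat_lit 4) (nat_lit 318) (nat_lit 226) (nat_lit 176)) (XT.lf (nat_lit 0) (nat_lit 153856201921) (nat_lit 76) (nat_lit 240202259221) (nat_lit 76) (nat_lit 231349201998) (nat_lit 1) (nat_lit 4) (nat_lit 2) (nat_lit 5) (nat_lit 2)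 (nat_lit 4) (nat_lit 319) (nat_lit 226) (nat_lit 175)))) (XT.nd (nat_lit 156) (nat_lit 0) (nat_lit 0) (XT.nd (nat_lit 78) (nat_lit 0) (nat_lit 0) (XT.lf (nat_lit 0) (nat_lit 171317579959) (nat_lit 76) (nat_lit 256420442712) (nat_lit 76) (nat_lit 247554178387) (nat_lit 1) (nat_lit 4) (nat_lit 2) (nat_lit 5) (nat_lit 2) (nat_lit 4) (nat_lit 320) (nat_lit 226) (nat_lit 174)) (XT.lf (nat_lit 0) (nat_lit 190161887242) (nat_lit 76) (nat_lit 273942254826) (nat_lit 76) (nat_lit 265063761704) (nat_lit 1) (nat_lit 4) (nat_lit 2) (nat_lit 5) (nat_lit 2) (nat_lit 4) (nat_lit 321) (nat_lit 226) (nat_lit 173))) (XT.nd (nat_lit 78) (nat_lit 0) (nat_lit 0) (XT.lf (nat_lit 0) (nat_lit 210500793739) (nat_lit 76) (nat_lit 292871528525) (nat_lit 76) (nat_lit 283981712441) (nat_lit 1) (nat_lit 4) (nat_lit 2) (nat_lit 5) (nat_lit 2) (nat_lit 4) (nat_lit 322) (nat_lit 226) (nat_lit 172)) (XT.nd (nat_lit 78)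 (nat_lit 0) (nat_lit 0) (XT.lf (nat_lit 0) (nat_lit 232454826304) (nat_lit 76) (nat_lit 313320437282) (nat_lit 76) (nat_lit 304420136975) (nat_lit 1) (nat_lit 4) (nat_lit 2) (nat_lit 5) (nat_lit 2) (nat_lit 4) (nat_lit 323) (nat_lit 226) (nat_lit 171)) (XT.lf (nat_lit 0) (nat_lit 256154082907) (nat_lit 76) (nat_lit 335410159815) (nat_lit 76) (nat_lit 326500151895) (nat_lit 1) (nat_lit 4) (nat_lit 2) (nat_lit 5) (nat_lit 2) (nat_lit 4) (nat_lit 324) (nat_lit 226) (nat_lit 170))))))) (XT.nd (nat_lit 702) (nat_lit 304) (nat_lit 0) (XT.nd (nat_lit 312) (nat_lit 304) (nat_lit 0) (XT.nd (nat_lit 156) (nat_lit 152) (nat_lit 0) (XT.nd (nat_lit 78) (nat_lit 152) (nat_lit 0) (XT.lf (nat_lit 0) (nat_lit 2408371595) (nat_lit 152) (nat_lit 2056478634) (nat_lit 0) (nat_lit 2408371595) (nat_lit 16) (nat_lit 5) (nat_lit 18) (nat_lit 4) (nat_lit 16) (nat_lit 4) (nat_lit 266) (nat_lit 227) (nat_lit 227))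 (XT.lf (nat_lit 0) (nat_lit 5518500222) (nat_lit 152) (nat_lit 4940032293) (nat_lit 152) (nat_lit 4061819002) (nat_lit 14) (nat_lit 4) (nat_lit 16) (nat_lit 5) (nat_lit 16) (nat_lit 4) (nat_lit 267) (nat_lit 227) (nat_lit 226))) (XT.nd (nat_lit 78) (nat_lit 0) (nat_lit 0) (XT.lf (nat_lit 0) (nat_lit 197392571) (nat_lit 76) (nat_lit 723956851) (nat_lit 152) (nat_lit 14446405977) (nat_lit 12) (nat_lit 5) (nat_lit 13) (nat_lit 5) (nat_lit 14) (nat_lit 4) (nat_lit 268) (nat_lit 227) (nat_lit 225)) (XT.lf (nat_lit 0) (nat_lit 6082821078) (nat_lit 152) (nat_lit 6446456208) (nat_lit 0) (nat_lit 3754916228) (nat_lit 12) (nat_lit 5) (nat_lit 14) (nat_lit 4) (nat_lit 12) (nat_lit 4) (nat_lit 269) (nat_lit 227) (nat_lit 224)))) (XT.nd (nat_lit 156) (nat_lit 152) (nat_lit 0) (XT.nd (nat_lit 78) (nat_lit 0) (nat_lit 0) (XT.lf (nat_lit 0) (nat_lit 2588096447) (nat_lit 152) (nat_lit 8844773914) (nat_lit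 152) (nat_lit 5852912850) (nat_lit 10) (nat_lit 4) (nat_lit 12) (nat_lit 5) (nat_lit 12) (nat_lit 4) (nat_lit 270) (nat_lit 227) (nat_lit 223)) (XT.lf (nat_lit 0) (nat_lit 12137619217) (nat_lit 152) (nat_lit 4922319540) (nat_lit 152) (nat_lit 1315684204) (nat_lit 10) (nat_lit 4) (nat_lit 12) (nat_lit 5) (nat_lit 12) (nat_lit 4) (nat_lit 271) (nat_lit 227) (nat_lit 222))) (XT.nd (nat_lit 78) (nat_lit 0) (nat_lit 0) (XT.lf (nat_lit 0) (nat_lit 2508511277) (nat_lit 76) (nat_lit 752162893) (nat_lit 152) (nat_lit 16300139423) (nat_lit 8) (nat_lit 5) (nat_lit 9) (nat_lit 5) (nat_lit 10) (nat_lit 4) (nat_lit 272) (nat_lit 227) (nat_lit 221)) (XT.nd (nat_lit 78) (nat_lit 0) (nat_lit 0) (XT.lf (nat_lit 0) (nat_lit 8088096322) (nat_lit 152) (nat_lit 9146455339) (nat_lit 0) (nat_lit 3609105253) (nat_lit 8) (nat_lit 5) (nat_lit 10) (nat_lit 4) (nat_lit 8) (nat_lit 4) (nat_lit 273) (nat_lit 227) (nat_lit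 220)) (XT.lf (nat_lit 0) (nat_lit 13093485450) (nat_lit 152) (nat_lit 996781124) (nat_lit 0) (nat_lit 8149706154) (nat_lit 8) (nat_lit 5) (nat_lit 10) (nat_lit 4) (nat_lit 8) (nat_lit 4) (nat_lit 274) (nat_lit 227) (nat_lit 219)))))) (XT.nd (nat_lit 390) (nat_lit 76) (nat_lit 0) (XT.nd (nat_lit 156) (nat_lit 152) (nat_lit 0) (XT.nd (nat_lit 78) (nat_lit 0) (nat_lit 0) (XT.lf (nat_lit 0) (nat_lit 7703312162) (nat_lit 76) (nat_lit 10711717877) (nat_lit 76) (nat_lit 5337579112) (nat_lit 7) (nat_lit 4) (nat_lit 8) (nat_lit 5) (nat_lit 8) (nat_lit 4) (nat_lit 275) (nat_lit 227) (nat_lit 218)) (XT.lf (nat_lit 0) (nat_lit 16802027072) (nat_lit 76) (nat_lit 7183041240) (nat_lit 76) (nat_lit 1410421485) (nat_lit 7) (nat_lit 4) (nat_lit 8) (nat_lit 5) (nat_lit 8) (nat_lit 4) (nat_lit 276) (nat_lit 227) (nat_lit 217))) (XT.nd (nat_lit 78) (nat_lit 76) (nat_lit 0) (XT.lf (nat_lit 0) (nat_lit 2556836126)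 (nat_lit 152) (nat_lit 900069576) (nat_lit 76) (nat_lit 23720186448) (nat_lit 6) (nat_lit 5) (nat_lit 8) (nat_lit 5) (nat_lit 7) (nat_lit 4) (nat_lit 277) (nat_lit 227) (nat_lit 216)) (XT.nd (nat_lit 78) (nat_lit 0) (nat_lit 0) (XT.lf (nat_lit 0) (nat_lit 6746483681) (nat_lit 152) (nat_lit 21784173900) (nat_lit 0) (nat_lit 571991436) (nat_lit 5) (nat_lit 5) (nat_lit 7) (nat_lit 4) (nat_lit 5) (nat_lit 4) (nat_lit 278) (nat_lit 227) (nat_lit 215)) (XT.lf (nat_lit 0) (nat_lit 11182056122) (nat_lit 152) (nat_lit 15298637751) (nat_lit 0) (nat_lit 4706300013) (nat_lit 5) (nat_lit 5) (nat_lit 7) (nat_lit 4) (nat_lit 5) (nat_lit 4) (nat_lit 279) (nat_lit 227) (nat_lit 214))))) (XT.nd (nat_lit 156) (nat_lit 76) (nat_lit 0) (XT.nd (nat_lit 78) (nat_lit 0) (nat_lit 0) (XT.lf (nat_lit 0) (nat_lit 15821111096) (nat_lit 152) (nat_lit 8558396726) (nat_lit 0) (nat_lit 9066406965) (nat_lit 5) (nat_lit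 5) (nat_lit 7) (nat_lit 4) (nat_lit 5) (nat_lit 4) (nat_lit 280) (nat_lit 227) (nat_lit 213)) (XT.lf (nat_lit 0) (nat_lit 20691139301) (nat_lit 152) (nat_lit 1523508657) (nat_lit 0) (nat_lit 13678149964) (nat_lit 5) (nat_lit 5) (nat_lit 7) (nat_lit 4) (nat_lit 5) (nat_lit 4) (nat_lit 281) (nat_lit 227) (nat_lit 212))) (XT.nd (nat_lit 78) (nat_lit 0) (nat_lit 0) (XT.lf (nat_lit 0) (nat_lit 6041066537) (nat_lit 76) (nat_lit 19874251604) (nat_lit 76) (nat_lit 12622109298) (nat_lit 4) (nat_lit 4) (nat_lit 5) (nat_lit 5) (nat_lit 5) (nat_lit 4) (nat_lit 282) (nat_lit 227) (nat_lit 211)) (XT.nd (nat_lit 78) (nat_lit 0) (nat_lit 0) (XT.lf (nat_lit 0) (nat_lit 14048597468) (nat_lit 76) (nat_lit 17411833366) (nat_lit 76) (nat_lit 9938253126) (nat_lit 4) (nat_lit 4) (nat_lit 5) (nat_lit 5) (nat_lit 5) (nat_lit 4) (nat_lit 283) (nat_lit 227) (nat_lit 210)) (XT.lf (nat_lit 0) (nat_lit 22496162092)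 (nat_lit 76) (nat_lit 14838602493) (nat_lit 76) (nat_lit 7159987130) (nat_lit 4) (nat_lit 4) (nat_lit 5) (nat_lit 5) (nat_lit 5) (nat_lit 4) (nat_lit 284) (nat_lit 227) (nat_lit 209))))))))
noncomputable def xc24 : XT := (XT.nd (nat_lit 1404) (nat_lit 76) (nat_lit 0) (XT.nd (nat_lit 702) (nat_lit 0) (nat_lit 0) (XT.nd (nat_lit 312) (nat_lit 0) (nat_lit 0) (XT.nd (nat_lit 156) (nat_lit 152) (nat_lit 0) (XT.nd (nat_lit 78) (nat_lit 0) (nat_lit 0) (XT.lf (nat_lit 0) (nat_lit 31433820051) (nat_lit 76) (nat_lit 12139310211) (nat_lit 76) (nat_lit 4270847510) (nat_lit 4) (nat_lit 4) (nat_lit 5) (nat_lit 5) (nat_lit 5) (nat_lit 4) (nat_lit 285) (nat_lit 227) (nat_lit 208)) (XT.lf (nat_lit 0) (nat_lit 40914535246) (nat_lit 76) (nat_lit 9297960712) (nat_lit 76) (nat_lit 1253713441) (nat_lit 4) (nat_lit 4) (nat_lit 5) (nat_lit 5) (nat_lit 5) (nat_lit 4) (nat_lit 286) (nat_lit 227) (nat_lit 207)))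 (XT.nd (nat_lit 78) (nat_lit 76) (nat_lit 0) (XT.lf (nat_lit 0) (nat_lit 1848185047) (nat_lit 152) (nat_lit 4418231415) (nat_lit 76) (nat_lit 49115004735) (nat_lit 3) (nat_lit 5) (nat_lit 5) (nat_lit 5) (nat_lit 4) (nat_lit 4) (nat_lit 287) (nat_lit 227) (nat_lit 206)) (XT.lf (nat_lit 0) (nat_lit 2101623873) (nat_lit 76) (nat_lit 3000493967) (nat_lit 152) (nat_lit 54509448070) (nat_lit 2) (nat_lit 5) (nat_lit 3) (nat_lit 5) (nat_lit 4) (nat_lit 4) (nat_lit 288) (nat_lit 227) (nat_lit 205)))) (XT.nd (nat_lit 156) (nat_lit 0) (nat_lit 0) (XT.nd (nat_lit 78) (nat_lit 0) (nat_lit 0) (XT.lf (nat_lit 0) (nat_lit 8620340729) (nat_lit 152) (nat_lit 55031995648) (nat_lit 0) (nat_lit 527711053) (nat_lit 2) (nat_lit 5) (nat_lit 4) (nat_lit 4) (nat_lit 2) (nat_lit 4) (nat_lit 289) (nat_lit 227) (nat_lit 204)) (XT.lf (nat_lit 0) (nat_lit 12394252064) (nat_lit 152) (nat_lit 52542590510) (nat_lit 0)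 (nat_lit 4178568189) (nat_lit 2) (nat_lit 5) (nat_lit 4) (nat_lit 4) (nat_lit 2) (nat_lit 4) (nat_lit 290) (nat_lit 227) (nat_lit 203))) (XT.nd (nat_lit 78) (nat_lit 0) (nat_lit 0) (XT.lf (nat_lit 0) (nat_lit 16399369642) (nat_lit 152) (nat_lit 49980128473) (nat_lit 0) (nat_lit 8069746696) (nat_lit 2) (nat_lit 5) (nat_lit 4) (nat_lit 4) (nat_lit 2) (nat_lit 4) (nat_lit 291) (nat_lit 227) (nat_lit 202)) (XT.nd (nat_lit 78) (nat_lit 0) (nat_lit 0) (XT.lf (nat_lit 0) (nat_lit 20659427494) (nat_lit 152) (nat_lit 47329424576) (nat_lit 0) (nat_lit 12224305407) (nat_lit 2) (nat_lit 5) (nat_lit 4) (nat_lit 4) (nat_lit 2) (nat_lit 4) (nat_lit 292) (nat_lit 227) (nat_lit 201)) (XT.lf (nat_lit 0) (nat_lit 25199670408) (nat_lit 152) (nat_lit 44574770944) (nat_lit 0) (nat_lit 16666863932) (nat_lit 2) (nat_lit 5) (nat_lit 4) (nat_lit 4) (nat_lit 2) (nat_lit 4) (nat_lit 293) (nat_lit 227) (nat_lit 200))))))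 (XT.nd (nat_lit 312) (nat_lit 0) (nat_lit 0) (XT.nd (nat_lit 156) (nat_lit 0) (nat_lit 0) (XT.nd (nat_lit 78) (nat_lit 0) (nat_lit 0) (XT.lf (nat_lit 0) (nat_lit 30047003526) (nat_lit 152) (nat_lit 41699843705) (nat_lit 0) (nat_lit 21423748541) (nat_lit 2) (nat_lit 5) (nat_lit 4) (nat_lit 4) (nat_lit 2) (nat_lit 4) (nat_lit 294) (nat_lit 227) (nat_lit 199)) (XT.lf (nat_lit 0) (nat_lit 35230151786) (nat_lit 152) (nat_lit 38687606251) (nat_lit 0) (nat_lit 26523148182) (nat_lit 2) (nat_lit 5) (nat_lit 4) (nat_lit 4) (nat_lit 2) (nat_lit 4) (nat_lit 295) (nat_lit 227) (nat_lit 198))) (XT.nd (nat_lit 78) (nat_lit 0) (nat_lit 0) (XT.lf (nat_lit 0) (nat_lit 40779830140) (nat_lit 152) (nat_lit 35520208288) (nat_lit 0) (nat_lit 31995281518) (nat_lit 2) (nat_lit 5) (nat_lit 4) (nat_lit 4) (nat_lit 2) (nat_lit 4) (nat_lit 296) (nat_lit 227) (nat_lit 197)) (XT.lf (nat_lit 0) (nat_lit 46728925572)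 (nat_lit 152) (nat_lit 32178880049) (nat_lit 0) (nat_lit 37872576007) (nat_lit 2) (nat_lit 5) (nat_lit 4) (nat_lit 4) (nat_lit 2) (nat_lit 4) (nat_lit 297) (nat_lit 227) (nat_lit 196)))) (XT.nd (nat_lit 156) (nat_lit 0) (nat_lit 0) (XT.nd (nat_lit 78) (nat_lit 0) (nat_lit 0) (XT.lf (nat_lit 0) (nat_lit 53112691979) (nat_lit 152) (nat_lit 28643821071) (nat_lit 0) (nat_lit 44189860061) (nat_lit 2) (nat_lit 5) (nat_lit 4) (nat_lit 4) (nat_lit 2) (nat_lit 4) (nat_lit 298) (nat_lit 227) (nat_lit 195)) (XT.lf (nat_lit 0) (nat_lit 59968959089) (nat_lit 152) (nat_lit 24894082856) (nat_lit 0) (nat_lit 50984569436) (nat_lit 2) (nat_lit 5) (nat_lit 4) (nat_lit 4) (nat_lit 2) (nat_lit 4) (nat_lit 299) (nat_lit 227) (nat_lit 194))) (XT.nd (nat_lit 78) (nat_lit 0) (nat_lit 0) (XT.lf (nat_lit 0) (nat_lit 67338356633) (nat_lit 152) (nat_lit 20907444734) (nat_lit 0) (nat_lit 58296969077) (nat_lit 2) (nat_lit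 5) (nat_lit 4) (nat_lit 4) (nat_lit 2) (nat_lit 4) (nat_lit 300) (nat_lit 227) (nat_lit 193)) (XT.nd (nat_lit 78) (nat_lit 0) (nat_lit 0) (XT.lf (nat_lit 0) (nat_lit 75264555115) (nat_lit 152) (nat_lit 16660282181) (nat_lit 0) (nat_lit 66170391722) (nat_lit 2) (nat_lit 5) (nat_lit 4) (nat_lit 4) (nat_lit 2) (nat_lit 4) (nat_lit 301) (nat_lit 227) (nat_lit 192)) (XT.lf (nat_lit 0) (nat_lit 83794524600) (nat_lit 152) (nat_lit 12127426828) (nat_lit 0) (nat_lit 74651494692) (nat_lit 2) (nat_lit 5) (nat_lit 4) (nat_lit 4) (nat_lit 2) (nat_lit 4) (nat_lit 302) (nat_lit 227) (nat_lit 191))))))) (XT.nd (nat_lit 702) (nat_lit 0) (nat_lit 0) (XT.nd (nat_lit 312) (nat_lit 0) (nat_lit 0) (XT.nd (nat_lit 156) (nat_lit 76) (nat_lit 0) (XT.nd (nat_lit 78) (nat_lit 0) (nat_lit 0) (XT.lf (nat_lit 0) (nat_lit 92978813055) (nat_lit 152) (nat_lit 7282017309) (nat_lit 0) (nat_lit 83790536374) (nat_lit 2)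 (nat_lit 5) (nat_lit 4) (nat_lit 4) (nat_lit 2) (nat_lit 4) (nat_lit 303) (nat_lit 227) (nat_lit 190)) (XT.lf (nat_lit 0) (nat_lit 102871845893) (nat_lit 152) (nat_lit 2095340087) (nat_lit 0) (nat_lit 93641674052) (nat_lit 2) (nat_lit 5) (nat_lit 4) (nat_lit 4) (nat_lit 2) (nat_lit 4) (nat_lit 304) (nat_lit 227) (nat_lit 189))) (XT.nd (nat_lit 78) (nat_lit 0) (nat_lit 0) (XT.lf (nat_lit 0) (nat_lit 3577854388) (nat_lit 76) (nat_lit 110010254440) (nat_lit 76) (nat_lit 100741290784) (nat_lit 1) (nat_lit 4) (nat_lit 2) (nat_lit 5) (nat_lit 2) (nat_lit 4) (nat_lit 305) (nat_lit 227) (nat_lit 188)) (XT.lf (nat_lit 0) (nat_lit 9738663442) (nat_lit 76) (nat_lit 115436578000) (nat_lit 76) (nat_lit 106131695997) (nat_lit 1) (nat_lit 4) (nat_lit 2) (nat_lit 5) (nat_lit 2) (nat_lit 4) (nat_lit 306) (nat_lit 227) (nat_lit 187)))) (XT.nd (nat_lit 156) (nat_lit 0) (nat_lit 0) (XT.nd (nat_lit 78) (nat_lit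 0) (nat_lit 0) (XT.lf (nat_lit 0) (nat_lit 16354314169) (nat_lit 76) (nat_lit 121313798252) (nat_lit 76) (nat_lit 111975658519) (nat_lit 1) (nat_lit 4) (nat_lit 2) (nat_lit 5) (nat_lit 2) (nat_lit 4) (nat_lit 307) (nat_lit 227) (nat_lit 186)) (XT.lf (nat_lit 0) (nat_lit 23464010423) (nat_lit 76) (nat_lit 127676743165) (nat_lit 76) (nat_lit 118307809240) (nat_lit 1) (nat_lit 4) (nat_lit 2) (nat_lit 5) (nat_lit 2) (nat_lit 4) (nat_lit 308) (nat_lit 227) (nat_lit 185))) (XT.nd (nat_lit 78) (nat_lit 0) (nat_lit 0) (XT.lf (nat_lit 0) (nat_lit 31109883737) (nat_lit 76) (nat_lit 134563119082) (nat_lit 76) (nat_lit 125165672014) (nat_lit 1) (nat_lit 4) (nat_lit 2) (nat_lit 5) (nat_lit 2) (nat_lit 4) (nat_lit 309) (nat_lit 227) (nat_lit 184)) (XT.nd (nat_lit 78) (nat_lit 0) (nat_lit 0) (XT.lf (nat_lit 0) (nat_lit 39337242992) (nat_lit 76) (nat_lit 142013734154) (nat_lit 76) (nat_lit 132589886029)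 (nat_lit 1) (nat_lit 4) (nat_lit 2) (nat_lit 5) (nat_lit 2) (nat_lit 4) (nat_lit 310) (nat_lit 227) (nat_lit 183)) (XT.lf (nat_lit 0) (nat_lit 48194842908) (nat_lit 76) (nat_lit 150072740176) (nat_lit 76) (nat_lit 140624446627) (nat_lit 1) (nat_lit 4) (nat_lit 2) (nat_lit 5) (nat_lit 2) (nat_lit 4) (nat_lit 311) (nat_lit 227) (nat_lit 182)))))) (XT.nd (nat_lit 312) (nat_lit 0) (nat_lit 0) (XT.nd (nat_lit 156) (nat_lit 0) (nat_lit 0) (XT.nd (nat_lit 78) (nat_lit 0) (nat_lit 0) (XT.lf (nat_lit 0) (nat_lit 57735172966) (nat_lit 76) (nat_lit 158787894220) (nat_lit 76) (nat_lit 149316966019) (nat_lit 1) (nat_lit 4) (nat_lit 2) (nat_lit 5) (nat_lit 2) (nat_lit 4) (nat_lit 312) (nat_lit 227) (nat_lit 181)) (XT.lf (nat_lit 0) (nat_lit 68014768456) (nat_lit 76) (nat_lit 168210841643) (nat_lit 76) (nat_lit 158718955432) (nat_lit 1) (nat_lit 4) (nat_lit 2) (nat_lit 5) (nat_lit 2) (nat_lit 4) (nat_lit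 313) (nat_lit 227) (nat_lit 180))) (XT.nd (nat_lit 78) (nat_lit 0) (nat_lit 0) (XT.lf (nat_lit 0) (nat_lit 79094545498) (nat_lit 76) (nat_lit 178397422134) (nat_lit 76) (nat_lit 168886130357) (nat_lit 1) (nat_lit 4) (nat_lit 2) (nat_lit 5) (nat_lit 2) (nat_lit 4) (nat_lit 314) (nat_lit 227) (nat_lit 179)) (XT.lf (nat_lit 0) (nat_lit 91040162032) (nat_lit 76) (nat_lit 189408000614) (nat_lit 76) (nat_lit 179878740721) (nat_lit 1) (nat_lit 4) (nat_lit 2) (nat_lit 5) (nat_lit 2) (nat_lit 4) (nat_lit 315) (nat_lit 227) (nat_lit 178)))) (XT.nd (nat_lit 156) (nat_lit 0) (nat_lit 0) (XT.nd (nat_lit 78) (nat_lit 0) (nat_lit 0) (XT.lf (nat_lit 0) (nat_lit 103922406896) (nat_lit 76) (nat_lit 201307824956) (nat_lit 76) (nat_lit 191761927919) (nat_lit 1) (nat_lit 4) (nat_lit 2) (nat_lit 5) (nat_lit 2) (nat_lit 4) (nat_lit 316) (nat_lit 227) (nat_lit 177)) (XT.lf (nat_lit 0) (nat_lit 117817619317)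 (nat_lit 76) (nat_lit 214167412637) (nat_lit 76) (nat_lit 204606110836) (nat_lit 1) (nat_lit 4) (nat_lit 2) (nat_lit 5) (nat_lit 2) (nat_lit 4) (nat_lit 317) (nat_lit 227) (nat_lit 176))) (XT.nd (nat_lit 78) (nat_lit 0) (nat_lit 0) (XT.lf (nat_lit 0) (nat_lit 132808141297) (nat_lit 76) (nat_lit 228062968621) (nat_lit 76) (nat_lit 218487403151) (nat_lit 1) (nat_lit 4) (nat_lit 2) (nat_lit 5) (nat_lit 2) (nat_lit 4) (nat_lit 318) (nat_lit 227) (nat_lit 175)) (XT.nd (nat_lit 78) (nat_lit 0) (nat_lit 0) (XT.lf (nat_lit 0) (nat_lit 148982805558) (nat_lit 76) (nat_lit 243076836944) (nat_lit 76) (nat_lit 233488064372) (nat_lit 1) (nat_lit 4) (nat_lit 2) (nat_lit 5) (nat_lit 2) (nat_lit 4) (nat_lit 319) (nat_lit 227) (nat_lit 174)) (XT.lf (nat_lit 0) (nat_lit 166437461962) (nat_lit 76) (nat_lit 259297988677) (nat_lit 76) (nat_lit 249696987307) (nat_lit 1) (nat_lit 4) (nat_lit 2) (nat_lit 5) (nat_lit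 2) (nat_lit 4) (nat_lit 320) (nat_lit 227) (nat_lit 173))))))))
noncomputable def xc25 : XT := (XT.nd (nat_lit 34164) (nat_lit 0) (nat_lit 76) (XT.nd (nat_lit 33462) (nat_lit 0) (nat_lit 380) (XT.nd (nat_lit 33072) (nat_lit 0) (nat_lit 912) (XT.nd (nat_lit 156) (nat_lit 0) (nat_lit 0) (XT.nd (nat_lit 78) (nat_lit 0) (nat_lit 0) (XT.lf (nat_lit 0) (nat_lit 185275545510) (nat_lit 76) (nat_lit 276822549164) (nat_lit 76) (nat_lit 267210224833) (nat_lit 1) (nat_lit 4) (nat_lit 2) (nat_lit 5) (nat_lit 2) (nat_lit 4) (nat_lit 321) (nat_lit 227) (nat_lit 172)) (XT.lf (nat_lit 0) (nat_lit 205608689290) (nat_lit 76) (nat_lit 295754367653) (nat_lit 76) (nat_lit 286131559098) (nat_lit 1) (nat_lit 4) (nat_lit 2) (nat_lit 5) (nat_lit 2) (nat_lit 4) (nat_lit 322) (nat_lit 227) (nat_lit 171))) (XT.nd (nat_lit 78) (nat_lit 0) (nat_lit 0) (XT.lf (nat_lit 0) (nat_lit 227557386006) (nat_lit 76) (nat_lit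 316205632696) (nat_lit 76) (nat_lit 306573116528) (nat_lit 1) (nat_lit 4) (nat_lit 2) (nat_lit 5) (nat_lit 2) (nat_lit 4) (nat_lit 323) (nat_lit 227) (nat_lit 170)) (XT.lf (nat_lit 0) (nat_lit 251251702008) (nat_lit 76) (nat_lit 338297536977) (nat_lit 76) (nat_lit 328656032277) (nat_lit 1) (nat_lit 4) (nat_lit 2) (nat_lit 5) (nat_lit 2) (nat_lit 4) (nat_lit 324) (nat_lit 227) (nat_lit 169)))) (XT.nd (nat_lit 156) (nat_lit 304) (nat_lit 0) (XT.nd (nat_lit 78) (nat_lit 76) (nat_lit 0) (XT.lf (nat_lit 0) (nat_lit 1397980801) (nat_lit 152) (nat_lit 2396426564) (nat_lit 152) (nat_lit 2396426564) (nat_lit 18) (nat_lit 4) (nat_lit 20) (nat_lit 5) (nat_lit 20) (nat_lit 4) (nat_lit 264) (nat_lit 228) (nat_lit 228)) (XT.lf (nat_lit 0) (nat_lit 337762130) (nat_lit 228) (nat_lit 303481503) (nat_lit 76) (nat_lit 12399556022) (nat_lit 17) (nat_lit 5) (nat_lit 20) (nat_lit 5) (nat_lit 18) (nat_lit 4)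 (nat_lit 265) (nat_lit 228) (nat_lit 227))) (XT.nd (nat_lit 78) (nat_lit 228) (nat_lit 0) (XT.lf (nat_lit 0) (nat_lit 5610308203) (nat_lit 152) (nat_lit 4360650119) (nat_lit 0) (nat_lit 3783624558) (nat_lit 16) (nat_lit 5) (nat_lit 18) (nat_lit 4) (nat_lit 16) (nat_lit 4) (nat_lit 266) (nat_lit 228) (nat_lit 226)) (XT.nd (nat_lit 78) (nat_lit 76) (nat_lit 0) (XT.lf (nat_lit 0) (nat_lit 5025689106) (nat_lit 152) (nat_lit 6075283388) (nat_lit 152) (nat_lit 3435439289) (nat_lit 14) (nat_lit 4) (nat_lit 16) (nat_lit 5) (nat_lit 16) (nat_lit 4) (nat_lit 267) (nat_lit 228) (nat_lit 225)) (XT.lf (nat_lit 0) (nat_lit 1385807497) (nat_lit 228) (nat_lit 551865075) (nat_lit 76) (nat_lit 13453069472) (nat_lit 13) (nat_lit 5) (nat_lit 16) (nat_lit 5) (nat_lit 14) (nat_lit 4) (nat_lit 268) (nat_lit 228) (nat_lit 224)))))) (XT.nd (nat_lit 312) (nat_lit 152) (nat_lit 0) (XT.nd (nat_lit 156) (nat_lit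 152) (nat_lit 0) (XT.nd (nat_lit 78) (nat_lit 152) (nat_lit 0) (XT.lf (nat_lit 0) (nat_lit 6386131345) (nat_lit 152) (nat_lit 7438438871) (nat_lit 0) (nat_lit 2490965183) (nat_lit 12) (nat_lit 5) (nat_lit 14) (nat_lit 4) (nat_lit 12) (nat_lit 4) (nat_lit 269) (nat_lit 228) (nat_lit 223)) (XT.lf (nat_lit 0) (nat_lit 1352739852) (nat_lit 152) (nat_lit 10240865124) (nat_lit 152) (nat_lit 5730924689) (nat_lit 10) (nat_lit 4) (nat_lit 12) (nat_lit 5) (nat_lit 12) (nat_lit 4) (nat_lit 270) (nat_lit 228) (nat_lit 222))) (XT.nd (nat_lit 78) (nat_lit 152) (nat_lit 0) (XT.lf (nat_lit 0) (nat_lit 10707286227) (nat_lit 152) (nat_lit 6396187207) (nat_lit 152) (nat_lit 1317011335) (nat_lit 10) (nat_lit 4) (nat_lit 12) (nat_lit 5) (nat_lit 12) (nat_lit 4) (nat_lit 271) (nat_lit 228) (nat_lit 221)) (XT.lf (nat_lit 0) (nat_lit 794050362) (nat_lit 76) (nat_lit 2328045288) (nat_lit 152) (nat_lit 16490670665)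 (nat_lit 8) (nat_lit 5) (nat_lit 9) (nat_lit 5) (nat_lit 10) (nat_lit 4) (nat_lit 272) (nat_lit 228) (nat_lit 220)))) (XT.nd (nat_lit 156) (nat_lit 152) (nat_lit 0) (XT.nd (nat_lit 78) (nat_lit 0) (nat_lit 0) (XT.lf (nat_lit 0) (nat_lit 7818707305) (nat_lit 152) (nat_lit 11069013920) (nat_lit 0) (nat_lit 2014637439) (nat_lit 8) (nat_lit 5) (nat_lit 10) (nat_lit 4) (nat_lit 8) (nat_lit 4) (nat_lit 273) (nat_lit 228) (nat_lit 219)) (XT.lf (nat_lit 0) (nat_lit 12725757029) (nat_lit 152) (nat_lit 3086699783) (nat_lit 0) (nat_lit 6491327693) (nat_lit 8) (nat_lit 5) (nat_lit 10) (nat_lit 4) (nat_lit 8) (nat_lit 4) (nat_lit 274) (nat_lit 228) (nat_lit 218))) (XT.nd (nat_lit 78) (nat_lit 76) (nat_lit 0) (XT.lf (nat_lit 0) (nat_lit 5384204540) (nat_lit 76) (nat_lit 12535834305) (nat_lit 76) (nat_lit 5902923980) (nat_lit 7) (nat_lit 4) (nat_lit 8) (nat_lit 5) (nat_lit 8) (nat_lit 4) (nat_lit 275)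 (nat_lit 228) (nat_lit 217)) (XT.nd (nat_lit 78) (nat_lit 76) (nat_lit 0) (XT.lf (nat_lit 0) (nat_lit 14334690919) (nat_lit 76) (nat_lit 9068761749) (nat_lit 76) (nat_lit 2066887543) (nat_lit 7) (nat_lit 4) (nat_lit 8) (nat_lit 5) (nat_lit 8) (nat_lit 4) (nat_lit 276) (nat_lit 228) (nat_lit 216)) (XT.lf (nat_lit 0) (nat_lit 1839710023) (nat_lit 152) (nat_lit 3572101879) (nat_lit 76) (nat_lit 21844872636) (nat_lit 6) (nat_lit 5) (nat_lit 8) (nat_lit 5) (nat_lit 7) (nat_lit 4) (nat_lit 277) (nat_lit 228) (nat_lit 215))))))) (XT.nd (nat_lit 702) (nat_lit 152) (nat_lit 0) (XT.nd (nat_lit 312) (nat_lit 76) (nat_lit 0) (XT.nd (nat_lit 156) (nat_lit 0) (nat_lit 0) (XT.nd (nat_lit 78) (nat_lit 0) (nat_lit 0) (XT.lf (nat_lit 0) (nat_lit 4433773657) (nat_lit 76) (nat_lit 1465547387) (nat_lit 152) (nat_lit 23289557335) (nat_lit 5) (nat_lit 5) (nat_lit 6) (nat_lit 5) (nat_lit 7) (nat_lit 4) (nat_lit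 278) (nat_lit 228) (nat_lit 214)) (XT.lf (nat_lit 0) (nat_lit 10239241385) (nat_lit 152) (nat_lit 18373676702) (nat_lit 0) (nat_lit 2665212901) (nat_lit 5) (nat_lit 5) (nat_lit 7) (nat_lit 4) (nat_lit 5) (nat_lit 4) (nat_lit 279) (nat_lit 228) (nat_lit 213))) (XT.nd (nat_lit 78) (nat_lit 0) (nat_lit 0) (XT.lf (nat_lit 0) (nat_lit 14810915990) (nat_lit 152) (nat_lit 11751018484) (nat_lit 0) (nat_lit 6978602300) (nat_lit 5) (nat_lit 5) (nat_lit 7) (nat_lit 4) (nat_lit 5) (nat_lit 4) (nat_lit 280) (nat_lit 228) (nat_lit 212)) (XT.lf (nat_lit 0) (nat_lit 19618554964) (nat_lit 152) (nat_lit 4825003384) (nat_lit 0) (nat_lit 11547088306) (nat_lit 5) (nat_lit 5) (nat_lit 7) (nat_lit 4) (nat_lit 5) (nat_lit 4) (nat_lit 281) (nat_lit 228) (nat_lit 211)))) (XT.nd (nat_lit 156) (nat_lit 0) (nat_lit 0) (XT.nd (nat_lit 78) (nat_lit 0) (nat_lit 0) (XT.lf (nat_lit 0) (nat_lit 2526268003) (nat_lit 76)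 (nat_lit 22203822140) (nat_lit 76) (nat_lit 13910917548) (nat_lit 4) (nat_lit 4) (nat_lit 5) (nat_lit 5) (nat_lit 5) (nat_lit 4) (nat_lit 282) (nat_lit 228) (nat_lit 210)) (XT.lf (nat_lit 0) (nat_lit 10437371634) (nat_lit 76) (nat_lit 19782836991) (nat_lit 76) (nat_lit 11284897275) (nat_lit 4) (nat_lit 4) (nat_lit 5) (nat_lit 5) (nat_lit 5) (nat_lit 4) (nat_lit 283) (nat_lit 228) (nat_lit 209))) (XT.nd (nat_lit 78) (nat_lit 0) (nat_lit 0) (XT.lf (nat_lit 0) (nat_lit 18795651723) (nat_lit 76) (nat_lit 17247970089) (nat_lit 76) (nat_lit 8560183036) (nat_lit 4) (nat_lit 4) (nat_lit 5) (nat_lit 5) (nat_lit 5) (nat_lit 4) (nat_lit 284) (nat_lit 228) (nat_lit 208)) (XT.nd (nat_lit 78) (nat_lit 0) (nat_lit 0) (XT.lf (nat_lit 0) (nat_lit 27650638816) (nat_lit 76) (nat_lit 14584200002) (nat_lit 76) (nat_lit 5720628378) (nat_lit 4) (nat_lit 4) (nat_lit 5) (nat_lit 5) (nat_lit 5) (nat_lit 4) (nat_lit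 285) (nat_lit 228) (nat_lit 207)) (XT.lf (nat_lit 0) (nat_lit 37054806912) (nat_lit 76) (nat_lit 11775741425) (nat_lit 76) (nat_lit 2749406309) (nat_lit 4) (nat_lit 4) (nat_lit 5) (nat_lit 5) (nat_lit 5) (nat_lit 4) (nat_lit 286) (nat_lit 228) (nat_lit 206)))))) (XT.nd (nat_lit 390) (nat_lit 0) (nat_lit 0) (XT.nd (nat_lit 156) (nat_lit 76) (nat_lit 0) (XT.nd (nat_lit 78) (nat_lit 0) (nat_lit 0) (XT.lf (nat_lit 0) (nat_lit 359213200) (nat_lit 152) (nat_lit 8440654991) (nat_lit 76) (nat_lit 46698587764) (nat_lit 3) (nat_lit 5) (nat_lit 5) (nat_lit 5) (nat_lit 4) (nat_lit 4) (nat_lit 287) (nat_lit 228) (nat_lit 205)) (XT.lf (nat_lit 0) (nat_lit 3542231448) (nat_lit 152) (nat_lit 2055011043) (nat_lit 76) (nat_lit 54134963522) (nat_lit 3) (nat_lit 5) (nat_lit 5) (nat_lit 5) (nat_lit 4) (nat_lit 4) (nat_lit 288) (nat_lit 228) (nat_lit 204))) (XT.nd (nat_lit 78) (nat_lit 0) (nat_lit 0) (XT.lf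 (nat_lit 0) (nat_lit 4868369114) (nat_lit 76) (nat_lit 2114148707) (nat_lit 152) (nat_lit 57322121741) (nat_lit 2) (nat_lit 5) (nat_lit 3) (nat_lit 5) (nat_lit 4) (nat_lit 4) (nat_lit 289) (nat_lit 228) (nat_lit 203)) (XT.nd (nat_lit 78) (nat_lit 0) (nat_lit 0) (XT.lf (nat_lit 0) (nat_lit 10689427781) (nat_lit 152) (nat_lit 56974480367) (nat_lit 0) (nat_lit 1579495928) (nat_lit 2) (nat_lit 5) (nat_lit 4) (nat_lit 4) (nat_lit 2) (nat_lit 4) (nat_lit 290) (nat_lit 228) (nat_lit 202)) (XT.lf (nat_lit 0) (nat_lit 14663069815) (nat_lit 152) (nat_lit 54468150591) (nat_lit 0) (nat_lit 5447638821) (nat_lit 2) (nat_lit 5) (nat_lit 4) (nat_lit 4) (nat_lit 2) (nat_lit 4) (nat_lit 291) (nat_lit 228) (nat_lit 201))))) (XT.nd (nat_lit 156) (nat_lit 0) (nat_lit 0) (XT.nd (nat_lit 78) (nat_lit 0) (nat_lit 0) (XT.lf (nat_lit 0) (nat_lit 18893983645) (nat_lit 152) (nat_lit 51869421009) (nat_lit 0) (nat_lit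 9580868262) (nat_lit 2) (nat_lit 5) (nat_lit 4) (nat_lit 4) (nat_lit 2) (nat_lit 4) (nat_lit 292) (nat_lit 228) (nat_lit 200)) (XT.lf (nat_lit 0) (nat_lit 23407241353) (nat_lit 152) (nat_lit 49162891744) (nat_lit 0) (nat_lit 14003677461) (nat_lit 2) (nat_lit 5) (nat_lit 4) (nat_lit 4) (nat_lit 2) (nat_lit 4) (nat_lit 293) (nat_lit 228) (nat_lit 199))) (XT.nd (nat_lit 78) (nat_lit 0) (nat_lit 0) (XT.lf (nat_lit 0) (nat_lit 28229588169) (nat_lit 152) (nat_lit 46332524104) (nat_lit 0) (nat_lit 18742275658) (nat_lit 2) (nat_lit 5) (nat_lit 4) (nat_lit 4) (nat_lit 2) (nat_lit 4) (nat_lit 294) (nat_lit 228) (nat_lit 198)) (XT.nd (nat_lit 78) (nat_lit 0) (nat_lit 0) (XT.lf (nat_lit 0) (nat_lit 33389600965) (nat_lit 152) (nat_lit 43361545538) (nat_lit 0) (nat_lit 23824743435) (nat_lit 2) (nat_lit 5) (nat_lit 4) (nat_lit 4) (nat_lit 2) (nat_lit 4) (nat_lit 295) (nat_lit 228) (nat_lit 197)) (XT.lf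 (nat_lit 0) (nat_lit 38917857592) (nat_lit 152) (nat_lit 40232350248) (nat_lit 0) (nat_lit 29281199121) (nat_lit 2) (nat_lit 5) (nat_lit 4) (nat_lit 4) (nat_lit 2) (nat_lit 4) (nat_lit 296) (nat_lit 228) (nat_lit 196))))))))
noncomputable def xc26 : XT := (XT.nd (nat_lit 1404) (nat_lit 0) (nat_lit 0) (XT.nd (nat_lit 702) (nat_lit 76) (nat_lit 0) (XT.nd (nat_lit 312) (nat_lit 0) (nat_lit 0) (XT.nd (nat_lit 156) (nat_lit 0) (nat_lit 0) (XT.nd (nat_lit 78) (nat_lit 0) (nat_lit 0) (XT.lf (nat_lit 0) (nat_lit 44847118092) (nat_lit 152) (nat_lit 36926394856) (nat_lit 0) (nat_lit 35143977266) (nat_lit 2) (nat_lit 5) (nat_lit 4) (nat_lit 4) (nat_lit 2) (nat_lit 4) (nat_lit 297) (nat_lit 228) (nat_lit 195)) (XT.lf (nat_lit 0) (nat_lit 51212518821) (nat_lit 152) (nat_lit 33424088513) (nat_lit 0) (nat_lit 41447820260) (nat_lit 2) (nat_lit 5) (nat_lit 4) (nat_lit 4) (nat_lit 2) (nat_lit 4) (nat_lit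 298) (nat_lit 228) (nat_lit 194))) (XT.nd (nat_lit 78) (nat_lit 0) (nat_lit 0) (XT.lf (nat_lit 0) (nat_lit 58051780674) (nat_lit 152) (nat_lit 29704676812) (nat_lit 0) (nat_lit 48230084210) (nat_lit 2) (nat_lit 5) (nat_lit 4) (nat_lit 4) (nat_lit 2) (nat_lit 4) (nat_lit 299) (nat_lit 228) (nat_lit 193)) (XT.lf (nat_lit 0) (nat_lit 65405432610) (nat_lit 152) (nat_lit 25746118795) (nat_lit 0) (nat_lit 55530960310) (nat_lit 2) (nat_lit 5) (nat_lit 4) (nat_lit 4) (nat_lit 2) (nat_lit 4) (nat_lit 300) (nat_lit 228) (nat_lit 192)))) (XT.nd (nat_lit 156) (nat_lit 0) (nat_lit 0) (XT.nd (nat_lit 78) (nat_lit 0) (nat_lit 0) (XT.lf (nat_lit 0) (nat_lit 73317051824) (nat_lit 152) (nat_lit 21524956341) (nat_lit 0) (nat_lit 63393713009) (nat_lit 2) (nat_lit 5) (nat_lit 4) (nat_lit 4) (nat_lit 2) (nat_lit 4) (nat_lit 301) (nat_lit 228) (nat_lit 191)) (XT.lf (nat_lit 0) (nat_lit 81833521988) (nat_lit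 152) (nat_lit 17016175152) (nat_lit 0) (nat_lit 71864936399) (nat_lit 2) (nat_lit 5) (nat_lit 4) (nat_lit 4) (nat_lit 2) (nat_lit 4) (nat_lit 302) (nat_lit 228) (nat_lit 190))) (XT.nd (nat_lit 78) (nat_lit 0) (nat_lit 0) (XT.lf (nat_lit 0) (nat_lit 91005311071) (nat_lit 152) (nat_lit 12193056527) (nat_lit 0) (nat_lit 80994830322) (nat_lit 2) (nat_lit 5) (nat_lit 4) (nat_lit 4) (nat_lit 2) (nat_lit 4) (nat_lit 303) (nat_lit 228) (nat_lit 189)) (XT.nd (nat_lit 78) (nat_lit 0) (nat_lit 0) (XT.lf (nat_lit 0) (nat_lit 100886770417) (nat_lit 152) (nat_lit 7027019020) (nat_lit 0) (nat_lit 90837497853) (nat_lit 2) (nat_lit 5) (nat_lit 4) (nat_lit 4) (nat_lit 2) (nat_lit 4) (nat_lit 304) (nat_lit 228) (nat_lit 188)) (XT.lf (nat_lit 0) (nat_lit 111536456821) (nat_lit 152) (nat_lit 1487449078) (nat_lit 0) (nat_lit 101451265911) (nat_lit 2) (nat_lit 5) (nat_lit 4) (nat_lit 4) (nat_lit 2) (nat_lit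 4) (nat_lit 305) (nat_lit 228) (nat_lit 187)))))) (XT.nd (nat_lit 312) (nat_lit 0) (nat_lit 0) (XT.nd (nat_lit 156) (nat_lit 0) (nat_lit 0) (XT.nd (nat_lit 78) (nat_lit 0) (nat_lit 0) (XT.lf (nat_lit 0) (nat_lit 4605897878) (nat_lit 76) (nat_lit 118483492633) (nat_lit 76) (nat_lit 108365043993) (nat_lit 1) (nat_lit 4) (nat_lit 2) (nat_lit 5) (nat_lit 2) (nat_lit 4) (nat_lit 306) (nat_lit 228) (nat_lit 186)) (XT.lf (nat_lit 0) (nat_lit 11204622388) (nat_lit 76) (nat_lit 124368187424) (nat_lit 76) (nat_lit 114218944590) (nat_lit 1) (nat_lit 4) (nat_lit 2) (nat_lit 5) (nat_lit 2) (nat_lit 4) (nat_lit 307) (nat_lit 228) (nat_lit 185))) (XT.nd (nat_lit 78) (nat_lit 0) (nat_lit 0) (XT.lf (nat_lit 0) (nat_lit 18298646219) (nat_lit 76) (nat_lit 130738053207) (nat_lit 76) (nat_lit 120560297232) (nat_lit 1) (nat_lit 4) (nat_lit 2) (nat_lit 5) (nat_lit 2) (nat_lit 4) (nat_lit 308) (nat_lit 228)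 (nat_lit 184)) (XT.lf (nat_lit 0) (nat_lit 25930008031) (nat_lit 76) (nat_lit 137630837336) (nat_lit 76) (nat_lit 127426680304) (nat_lit 1) (nat_lit 4) (nat_lit 2) (nat_lit 5) (nat_lit 2) (nat_lit 4) (nat_lit 309) (nat_lit 228) (nat_lit 183)))) (XT.nd (nat_lit 156) (nat_lit 0) (nat_lit 0) (XT.nd (nat_lit 78) (nat_lit 0) (nat_lit 0) (XT.lf (nat_lit 0) (nat_lit 34143930709) (nat_lit 76) (nat_lit 145087385939) (nat_lit 76) (nat_lit 134858783483) (nat_lit 1) (nat_lit 4) (nat_lit 2) (nat_lit 5) (nat_lit 2) (nat_lit 4) (nat_lit 310) (nat_lit 228) (nat_lit 182)) (XT.lf (nat_lit 0) (nat_lit 42989089351) (nat_lit 76) (nat_lit 153151885971) (nat_lit 76) (nat_lit 142900648863) (nat_lit 1) (nat_lit 4) (nat_lit 2) (nat_lit 5) (nat_lit 2) (nat_lit 4) (nat_lit 311) (nat_lit 228) (nat_lit 181))) (XT.nd (nat_lit 78) (nat_lit 0) (nat_lit 0) (XT.lf (nat_lit 0) (nat_lit 52517899710) (nat_lit 76) (nat_lit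 161872127061) (nat_lit 76) (nat_lit 151599931942) (nat_lit 1) (nat_lit 4) (nat_lit 2) (nat_lit 5) (nat_lit 2) (nat_lit 4) (nat_lit 312) (nat_lit 228) (nat_lit 180)) (XT.nd (nat_lit 78) (nat_lit 0) (nat_lit 0) (XT.lf (nat_lit 0) (nat_lit 62786828813) (nat_lit 76) (nat_lit 171299784712) (nat_lit 76) (nat_lit 161008184028) (nat_lit 1) (nat_lit 4) (nat_lit 2) (nat_lit 5) (nat_lit 2) (nat_lit 4) (nat_lit 313) (nat_lit 228) (nat_lit 179)) (XT.lf (nat_lit 0) (nat_lit 73856729570) (nat_lit 76) (nat_lit 181490726525) (nat_lit 76) (nat_lit 171181157725) (nat_lit 1) (nat_lit 4) (nat_lit 2) (nat_lit 5) (nat_lit 2) (nat_lit 4) (nat_lit 314) (nat_lit 228) (nat_lit 178))))))) (XT.nd (nat_lit 702) (nat_lit 0) (nat_lit 0) (XT.nd (nat_lit 312) (nat_lit 0) (nat_lit 0) (XT.nd (nat_lit 156) (nat_lit 0) (nat_lit 0) (XT.nd (nat_lit 78) (nat_lit 0) (nat_lit 0) (XT.lf (nat_lit 0) (nat_lit 85793201396) (nat_lit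 76) (nat_lit 192505343266) (nat_lit 76) (nat_lit 182179137322) (nat_lit 1) (nat_lit 4) (nat_lit 2) (nat_lit 5) (nat_lit 2) (nat_lit 4) (nat_lit 315) (nat_lit 228) (nat_lit 177)) (XT.lf (nat_lit 0) (nat_lit 98666978937) (nat_lit 76) (nat_lit 204408906739) (nat_lit 76) (nat_lit 194067296031) (nat_lit 1) (nat_lit 4) (nat_lit 2) (nat_lit 5) (nat_lit 2) (nat_lit 4) (nat_lit 316) (nat_lit 228) (nat_lit 176))) (XT.nd (nat_lit 78) (nat_lit 0) (nat_lit 0) (XT.lf (nat_lit 0) (nat_lit 112554351245) (nat_lit 76) (nat_lit 217271956578) (nat_lit 76) (nat_lit 206916082200) (nat_lit 1) (nat_lit 4) (nat_lit 2) (nat_lit 5) (nat_lit 2) (nat_lit 4) (nat_lit 317) (nat_lit 228) (nat_lit 175)) (XT.lf (nat_lit 0) (nat_lit 127537613861) (nat_lit 76) (nat_lit 231170718264) (nat_lit 76) (nat_lit 220801636784) (nat_lit 1) (nat_lit 4) (nat_lit 2) (nat_lit 5) (nat_lit 2) (nat_lit 4) (nat_lit 318) (nat_lit 228) (nat_lit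 174)))) (XT.nd (nat_lit 156) (nat_lit 0) (nat_lit 0) (XT.nd (nat_lit 78) (nat_lit 0) (nat_lit 0) (XT.lf (nat_lit 0) (nat_lit 143705556489) (nat_lit 76) (nat_lit 246187554830) (nat_lit 76) (nat_lit 235806244552) (nat_lit 1) (nat_lit 4) (nat_lit 2) (nat_lit 5) (nat_lit 2) (nat_lit 4) (nat_lit 319) (nat_lit 228) (nat_lit 173)) (XT.lf (nat_lit 0) (nat_lit 161153989158) (nat_lit 76) (nat_lit 262411454936) (nat_lit 76) (nat_lit 252018821697) (nat_lit 1) (nat_lit 4) (nat_lit 2) (nat_lit 5) (nat_lit 2) (nat_lit 4) (nat_lit 320) (nat_lit 228) (nat_lit 172))) (XT.nd (nat_lit 78) (nat_lit 0) (nat_lit 0) (XT.lf (nat_lit 0) (nat_lit 179986309989) (nat_lit 76) (nat_lit 279938560212) (nat_lit 76) (nat_lit 269535442750) (nat_lit 1) (nat_lit 4) (nat_lit 2) (nat_lit 5) (nat_lit 2) (nat_lit 4) (nat_lit 321) (nat_lit 228) (nat_lit 171)) (XT.nd (nat_lit 78) (nat_lit 0) (nat_lit 0) (XT.lf (nat_lit 0) (nat_lit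 200314117919) (nat_lit 76) (nat_lit 298872734987) (nat_lit 76) (nat_lit 288459909911) (nat_lit 1) (nat_lit 4) (nat_lit 2) (nat_lit 5) (nat_lit 2) (nat_lit 4) (nat_lit 322) (nat_lit 228) (nat_lit 170)) (XT.lf (nat_lit 0) (nat_lit 222257874034) (nat_lit 76) (nat_lit 319326181778) (nat_lit 76) (nat_lit 308904368170) (nat_lit 1) (nat_lit 4) (nat_lit 2) (nat_lit 5) (nat_lit 2) (nat_lit 4) (nat_lit 323) (nat_lit 228) (nat_lit 169)))))) (XT.nd (nat_lit 32916) (nat_lit 0) (nat_lit 836) (XT.nd (nat_lit 32760) (nat_lit 0) (nat_lit 1292) (XT.nd (nat_lit 32682) (nat_lit 0) (nat_lit 1672) (XT.lf (nat_lit 0) (nat_lit 245947615405) (nat_lit 76) (nat_lit 341420106194) (nat_lit 76) (nat_lit 330989969872) (nat_lit 1) (nat_lit 4) (nat_lit 2) (nat_lit 5) (nat_lit 2) (nat_lit 4) (nat_lit 324) (nat_lit 228) (nat_lit 168)) (XT.lf (nat_lit 0) (nat_lit 3471272997) (nat_lit 152) (nat_lit 1070820694) (nat_lit 152)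 (nat_lit 1070820694) (nat_lit 23) (nat_lit 4) (nat_lit 25) (nat_lit 5) (nat_lit 25) (nat_lit 4) (nat_lit 262) (nat_lit 229) (nat_lit 229))) (XT.nd (nat_lit 78) (nat_lit 152) (nat_lit 0) (XT.lf (nat_lit 0) (nat_lit 3094764215) (nat_lit 228) (nat_lit 6667913108) (nat_lit 0) (nat_lit 2019198834) (nat_lit 20) (nat_lit 5) (nat_lit 23) (nat_lit 4) (nat_lit 20) (nat_lit 4) (nat_lit 263) (nat_lit 229) (nat_lit 228)) (XT.lf (nat_lit 0) (nat_lit 2549799583) (nat_lit 152) (nat_lit 5955855275) (nat_lit 152) (nat_lit 3884396022) (nat_lit 18) (nat_lit 4) (nat_lit 20) (nat_lit 5) (nat_lit 20) (nat_lit 4) (nat_lit 264) (nat_lit 229) (nat_lit 227)))) (XT.nd (nat_lit 156) (nat_lit 304) (nat_lit 0) (XT.nd (nat_lit 78) (nat_lit 76) (nat_lit 0) (XT.lf (nat_lit 0) (nat_lit 1067365376) (nat_lit 228) (nat_lit 805484187) (nat_lit 76) (nat_lit 11183506777) (nat_lit 17) (nat_lit 5) (nat_lit 20) (nat_lit 5) (nat_lit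 18) (nat_lit 4) (nat_lit 265) (nat_lit 229) (nat_lit 226)) (XT.lf (nat_lit 0) (nat_lit 6169022205) (nat_lit 152) (nat_lit 5105196480) (nat_lit 0) (nat_lit 2504830123) (nat_lit 16) (nat_lit 5) (nat_lit 18) (nat_lit 4) (nat_lit 16) (nat_lit 4) (nat_lit 266) (nat_lit 229) (nat_lit 225))) (XT.nd (nat_lit 78) (nat_lit 152) (nat_lit 0) (XT.lf (nat_lit 0) (nat_lit 4037146512) (nat_lit 152) (nat_lit 7474299702) (nat_lit 152) (nat_lit 3057181274) (nat_lit 14) (nat_lit 4) (nat_lit 16) (nat_lit 5) (nat_lit 16) (nat_lit 4) (nat_lit 267) (nat_lit 229) (nat_lit 224)) (XT.nd (nat_lit 78) (nat_lit 76) (nat_lit 0) (XT.lf (nat_lit 0) (nat_lit 1623448039) (nat_lit 228) (nat_lit 1786203972) (nat_lit 76) (nat_lit 12019733845) (nat_lit 13) (nat_lit 5) (nat_lit 16) (nat_lit 5) (nat_lit 14) (nat_lit 4) (nat_lit 268) (nat_lit 229) (nat_lit 223)) (XT.lf (nat_lit 0) (nat_lit 6457266824) (nat_lit 152) (nat_lit 8933756545)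 (nat_lit 0) (nat_lit 971756883) (nat_lit 12) (nat_lit 5) (nat_lit 14) (nat_lit 4) (nat_lit 12) (nat_lit 4) (nat_lit 269) (nat_lit 229) (nat_lit 222))))))))
noncomputable def xc27 : XT := (XT.nd (nat_lit 1404) (nat_lit 152) (nat_lit 0) (XT.nd (nat_lit 702) (nat_lit 76) (nat_lit 0) (XT.nd (nat_lit 312) (nat_lit 228) (nat_lit 0) (XT.nd (nat_lit 156) (nat_lit 152) (nat_lit 0) (XT.nd (nat_lit 78) (nat_lit 152) (nat_lit 0) (XT.lf (nat_lit 0) (nat_lit 11529464586) (nat_lit 152) (nat_lit 374609875) (nat_lit 0) (nat_lit 5474719207) (nat_lit 12) (nat_lit 5) (nat_lit 14) (nat_lit 4) (nat_lit 12) (nat_lit 4) (nat_lit 270) (nat_lit 229) (nat_lit 221)) (XT.lf (nat_lit 0) (nat_lit 8787016507) (nat_lit 152) (nat_lit 8137755983) (nat_lit 152) (nat_lit 1555940755) (nat_lit 10) (nat_lit 4) (nat_lit 12) (nat_lit 5) (nat_lit 12) (nat_lit 4) (nat_lit 271) (nat_lit 229) (nat_lit 220))) (XT.nd (nat_lit 78) (nat_lit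 76) (nat_lit 0) (XT.lf (nat_lit 0) (nat_lit 2776076922) (nat_lit 228) (nat_lit 1378885175) (nat_lit 76) (nat_lit 15524164540) (nat_lit 9) (nat_lit 5) (nat_lit 12) (nat_lit 5) (nat_lit 10) (nat_lit 4) (nat_lit 272) (nat_lit 229) (nat_lit 219)) (XT.lf (nat_lit 0) (nat_lit 7323221207) (nat_lit 152) (nat_lit 13493486151) (nat_lit 0) (nat_lit 159678055) (nat_lit 8) (nat_lit 5) (nat_lit 10) (nat_lit 4) (nat_lit 8) (nat_lit 4) (nat_lit 273) (nat_lit 229) (nat_lit 218)))) (XT.nd (nat_lit 156) (nat_lit 152) (nat_lit 0) (XT.nd (nat_lit 78) (nat_lit 76) (nat_lit 0) (XT.lf (nat_lit 0) (nat_lit 12139215928) (nat_lit 152) (nat_lit 5666135049) (nat_lit 0) (nat_lit 4577191786) (nat_lit 8) (nat_lit 5) (nat_lit 10) (nat_lit 4) (nat_lit 8) (nat_lit 4) (nat_lit 274) (nat_lit 229) (nat_lit 217)) (XT.lf (nat_lit 0) (nat_lit 2571252964) (nat_lit 76) (nat_lit 14634016534) (nat_lit 76) (nat_lit 6703028513) (nat_lit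 7) (nat_lit 4) (nat_lit 8) (nat_lit 5) (nat_lit 8) (nat_lit 4) (nat_lit 275) (nat_lit 229) (nat_lit 216))) (XT.nd (nat_lit 78) (nat_lit 152) (nat_lit 0) (XT.lf (nat_lit 0) (nat_lit 11384490704) (nat_lit 76) (nat_lit 11223984792) (nat_lit 76) (nat_lit 2951363549) (nat_lit 7) (nat_lit 4) (nat_lit 8) (nat_lit 5) (nat_lit 8) (nat_lit 4) (nat_lit 276) (nat_lit 229) (nat_lit 215)) (XT.nd (nat_lit 78) (nat_lit 76) (nat_lit 0) (XT.lf (nat_lit 0) (nat_lit 907921423) (nat_lit 152) (nat_lit 6727709383) (nat_lit 76) (nat_lit 19715159237) (nat_lit 6) (nat_lit 5) (nat_lit 8) (nat_lit 5) (nat_lit 7) (nat_lit 4) (nat_lit 277) (nat_lit 229) (nat_lit 214)) (XT.lf (nat_lit 0) (nat_lit 1049747284) (nat_lit 76) (nat_lit 3794931256) (nat_lit 152) (nat_lit 24444573174) (nat_lit 5) (nat_lit 5) (nat_lit 6) (nat_lit 5) (nat_lit 7) (nat_lit 4) (nat_lit 278) (nat_lit 229) (nat_lit 213)))))) (XT.nd (nat_lit 312)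 (nat_lit 76) (nat_lit 0) (XT.nd (nat_lit 156) (nat_lit 0) (nat_lit 0) (XT.nd (nat_lit 78) (nat_lit 0) (nat_lit 0) (XT.lf (nat_lit 0) (nat_lit 9080850301) (nat_lit 152) (nat_lit 21939291007) (nat_lit 0) (nat_lit 363666310) (nat_lit 5) (nat_lit 5) (nat_lit 7) (nat_lit 4) (nat_lit 5) (nat_lit 4) (nat_lit 279) (nat_lit 229) (nat_lit 212)) (XT.lf (nat_lit 0) (nat_lit 13590135676) (nat_lit 152) (nat_lit 15425505758) (nat_lit 0) (nat_lit 4633798716) (nat_lit 5) (nat_lit 5) (nat_lit 7) (nat_lit 4) (nat_lit 5) (nat_lit 4) (nat_lit 280) (nat_lit 229) (nat_lit 211))) (XT.nd (nat_lit 78) (nat_lit 0) (nat_lit 0) (XT.lf (nat_lit 0) (nat_lit 18340006844) (nat_lit 152) (nat_lit 8600298962) (nat_lit 0) (nat_lit 9162231951) (nat_lit 5) (nat_lit 5) (nat_lit 7) (nat_lit 4) (nat_lit 5) (nat_lit 4) (nat_lit 281) (nat_lit 229) (nat_lit 210)) (XT.lf (nat_lit 0) (nat_lit 23358611190) (nat_lit 152) (nat_lit 1423224950)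 (nat_lit 0) (nat_lit 13975801173) (nat_lit 5) (nat_lit 5) (nat_lit 7) (nat_lit 4) (nat_lit 5) (nat_lit 4) (nat_lit 282) (nat_lit 229) (nat_lit 209)))) (XT.nd (nat_lit 156) (nat_lit 0) (nat_lit 0) (XT.nd (nat_lit 78) (nat_lit 0) (nat_lit 0) (XT.lf (nat_lit 0) (nat_lit 6351535900) (nat_lit 76) (nat_lit 22423317966) (nat_lit 76) (nat_lit 12850660611) (nat_lit 4) (nat_lit 4) (nat_lit 5) (nat_lit 5) (nat_lit 5) (nat_lit 4) (nat_lit 283) (nat_lit 229) (nat_lit 208)) (XT.lf (nat_lit 0) (nat_lit 14627145122) (nat_lit 76) (nat_lit 19923973260) (nat_lit 76) (nat_lit 10175531334) (nat_lit 4) (nat_lit 4) (nat_lit 5) (nat_lit 5) (nat_lit 5) (nat_lit 4) (nat_lit 284) (nat_lit 229) (nat_lit 207))) (XT.nd (nat_lit 78) (nat_lit 0) (nat_lit 0) (XT.lf (nat_lit 0) (nat_lit 23405585117) (nat_lit 76) (nat_lit 17293094094) (nat_lit 76) (nat_lit 7381888677) (nat_lit 4) (nat_lit 4) (nat_lit 5) (nat_lit 5) (nat_lit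 5) (nat_lit 4) (nat_lit 285) (nat_lit 229) (nat_lit 206)) (XT.nd (nat_lit 78) (nat_lit 0) (nat_lit 0) (XT.lf (nat_lit 0) (nat_lit 32738876270) (nat_lit 76) (nat_lit 14515090075) (nat_lit 76) (nat_lit 4453177720) (nat_lit 4) (nat_lit 4) (nat_lit 5) (nat_lit 5) (nat_lit 5) (nat_lit 4) (nat_lit 286) (nat_lit 229) (nat_lit 205)) (XT.lf (nat_lit 0) (nat_lit 42682326973) (nat_lit 76) (nat_lit 11573498954) (nat_lit 76) (nat_lit 1372043140) (nat_lit 4) (nat_lit 4) (nat_lit 5) (nat_lit 5) (nat_lit 5) (nat_lit 4) (nat_lit 287) (nat_lit 229) (nat_lit 204))))))) (XT.nd (nat_lit 702) (nat_lit 0) (nat_lit 0) (XT.nd (nat_lit 312) (nat_lit 0) (nat_lit 0) (XT.nd (nat_lit 156) (nat_lit 0) (nat_lit 0) (XT.nd (nat_lit 78) (nat_lit 76) (nat_lit 0) (XT.lf (nat_lit 0) (nat_lit 1819609143) (nat_lit 152) (nat_lit 6600463978) (nat_lit 76) (nat_lit 51444436274) (nat_lit 3) (nat_lit 5) (nat_lit 5) (nat_lit 5) (nat_lit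 4) (nat_lit 4) (nat_lit 288) (nat_lit 229) (nat_lit 203)) (XT.lf (nat_lit 0) (nat_lit 113329598) (nat_lit 76) (nat_lit 5039659838) (nat_lit 152) (nat_lit 59289349925) (nat_lit 2) (nat_lit 5) (nat_lit 3) (nat_lit 5) (nat_lit 4) (nat_lit 4) (nat_lit 289) (nat_lit 229) (nat_lit 202))) (XT.nd (nat_lit 78) (nat_lit 0) (nat_lit 0) (XT.lf (nat_lit 0) (nat_lit 7485732445) (nat_lit 76) (nat_lit 1317587208) (nat_lit 152) (nat_lit 60580660536) (nat_lit 2) (nat_lit 5) (nat_lit 3) (nat_lit 5) (nat_lit 4) (nat_lit 4) (nat_lit 290) (nat_lit 229) (nat_lit 201)) (XT.lf (nat_lit 0) (nat_lit 12727246436) (nat_lit 152) (nat_lit 59423321055) (nat_lit 0) (nat_lit 2571397432) (nat_lit 2) (nat_lit 5) (nat_lit 4) (nat_lit 4) (nat_lit 2) (nat_lit 4) (nat_lit 291) (nat_lit 229) (nat_lit 200)))) (XT.nd (nat_lit 156) (nat_lit 0) (nat_lit 0) (XT.nd (nat_lit 78) (nat_lit 0) (nat_lit 0) (XT.lf (nat_lit 0) (nat_lit 16931175060)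 (nat_lit 152) (nat_lit 56872715840) (nat_lit 0) (nat_lit 6684877547) (nat_lit 2) (nat_lit 5) (nat_lit 4) (nat_lit 4) (nat_lit 2) (nat_lit 4) (nat_lit 292) (nat_lit 229) (nat_lit 199)) (XT.lf (nat_lit 0) (nat_lit 21419446466) (nat_lit 152) (nat_lit 54210746174) (nat_lit 0) (nat_lit 11089400334) (nat_lit 2) (nat_lit 5) (nat_lit 4) (nat_lit 4) (nat_lit 2) (nat_lit 4) (nat_lit 293) (nat_lit 229) (nat_lit 198))) (XT.nd (nat_lit 78) (nat_lit 0) (nat_lit 0) (XT.lf (nat_lit 0) (nat_lit 26218657818) (nat_lit 152) (nat_lit 51421637421) (nat_lit 0) (nat_lit 15811066668) (nat_lit 2) (nat_lit 5) (nat_lit 4) (nat_lit 4) (nat_lit 2) (nat_lit 4) (nat_lit 294) (nat_lit 229) (nat_lit 197)) (XT.nd (nat_lit 78) (nat_lit 0) (nat_lit 0) (XT.lf (nat_lit 0) (nat_lit 31357248886) (nat_lit 152) (nat_lit 48488861529) (nat_lit 0) (nat_lit 20877856794) (nat_lit 2) (nat_lit 5) (nat_lit 4) (nat_lit 4) (nat_lit 2) (nat_lit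 4) (nat_lit 295) (nat_lit 229) (nat_lit 196)) (XT.lf (nat_lit 0) (nat_lit 36865670582) (nat_lit 152) (nat_lit 45395039086) (nat_lit 0) (nat_lit 26319796136) (nat_lit 2) (nat_lit 5) (nat_lit 4) (nat_lit 4) (nat_lit 2) (nat_lit 4) (nat_lit 296) (nat_lit 229) (nat_lit 195)))))) (XT.nd (nat_lit 390) (nat_lit 0) (nat_lit 0) (XT.nd (nat_lit 156) (nat_lit 0) (nat_lit 0) (XT.nd (nat_lit 78) (nat_lit 0) (nat_lit 0) (XT.lf (nat_lit 0) (nat_lit 42776565404) (nat_lit 152) (nat_lit 42121836328) (nat_lit 0) (nat_lit 32169133222) (nat_lit 2) (nat_lit 5) (nat_lit 4) (nat_lit 4) (nat_lit 2) (nat_lit 4) (nat_lit 297) (nat_lit 229) (nat_lit 194)) (XT.lf (nat_lit 0) (nat_lit 49124960876) (nat_lit 152) (nat_lit 38649856500) (nat_lit 0) (nat_lit 38460530792) (nat_lit 2) (nat_lit 5) (nat_lit 4) (nat_lit 4) (nat_lit 2) (nat_lit 4) (nat_lit 298) (nat_lit 229) (nat_lit 193))) (XT.nd (nat_lit 78) (nat_lit 0) (nat_lit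 0) (XT.lf (nat_lit 0) (nat_lit 55948477120) (nat_lit 152) (nat_lit 34958524905) (nat_lit 0) (nat_lit 45231271200) (nat_lit 2) (nat_lit 5) (nat_lit 4) (nat_lit 4) (nat_lit 2) (nat_lit 4) (nat_lit 299) (nat_lit 229) (nat_lit 192)) (XT.nd (nat_lit 78) (nat_lit 0) (nat_lit 0) (XT.lf (nat_lit 0) (nat_lit 63287549789) (nat_lit 152) (nat_lit 31025966986) (nat_lit 0) (nat_lit 52521477354) (nat_lit 2) (nat_lit 5) (nat_lit 4) (nat_lit 4) (nat_lit 2) (nat_lit 4) (nat_lit 300) (nat_lit 229) (nat_lit 191)) (XT.lf (nat_lit 0) (nat_lit 71185669682) (nat_lit 152) (nat_lit 26828878696) (nat_lit 0) (nat_lit 60374350474) (nat_lit 2) (nat_lit 5) (nat_lit 4) (nat_lit 4) (nat_lit 2) (nat_lit 4) (nat_lit 301) (nat_lit 229) (nat_lit 190))))) (XT.nd (nat_lit 156) (nat_lit 0) (nat_lit 0) (XT.nd (nat_lit 78) (nat_lit 0) (nat_lit 0) (XT.lf (nat_lit 0) (nat_lit 79689640474) (nat_lit 152) (nat_lit 22342388401) (nat_lit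 0) (nat_lit 68836426105) (nat_lit 2) (nat_lit 5) (nat_lit 4) (nat_lit 4) (nat_lit 2) (nat_lit 4) (nat_lit 302) (nat_lit 229) (nat_lit 189)) (XT.lf (nat_lit 0) (nat_lit 88849856065) (nat_lit 152) (nat_lit 17539909491) (nat_lit 0) (nat_lit 77957849881) (nat_lit 2) (nat_lit 5) (nat_lit 4) (nat_lit 4) (nat_lit 2) (nat_lit 4) (nat_lit 303) (nat_lit 229) (nat_lit 188))) (XT.nd (nat_lit 78) (nat_lit 0) (nat_lit 0) (XT.lf (nat_lit 0) (nat_lit 98720599214) (nat_lit 152) (nat_lit 12392982833) (nat_lit 0) (nat_lit 87792674683) (nat_lit 2) (nat_lit 5) (nat_lit 4) (nat_lit 4) (nat_lit 2) (nat_lit 4) (nat_lit 304) (nat_lit 229) (nat_lit 187)) (XT.nd (nat_lit 78) (nat_lit 0) (nat_lit 0) (XT.lf (nat_lit 0) (nat_lit 109360363214) (nat_lit 152) (nat_lit 6871108120) (nat_lit 0) (nat_lit 98399180954) (nat_lit 2) (nat_lit 5) (nat_lit 4) (nat_lit 4) (nat_lit 2) (nat_lit 4) (nat_lit 305) (nat_lit 229) (nat_lit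 186)) (XT.lf (nat_lit 0) (nat_lit 120832198519) (nat_lit 152) (nat_lit 941563131) (nat_lit 0) (nat_lit 109840222066) (nat_lit 2) (nat_lit 5) (nat_lit 4) (nat_lit 4) (nat_lit 2) (nat_lit 4) (nat_lit 306) (nat_lit 229) (nat_lit 185))))))))
noncomputable def xc28 : XT := (XT.nd (nat_lit 33852) (nat_lit 0) (nat_lit 456) (XT.nd (nat_lit 702) (nat_lit 0) (nat_lit 0) (XT.nd (nat_lit 312) (nat_lit 0) (nat_lit 0) (XT.nd (nat_lit 156) (nat_lit 0) (nat_lit 0) (XT.nd (nat_lit 78) (nat_lit 0) (nat_lit 0) (XT.lf (nat_lit 0) (nat_lit 5610356625) (nat_lit 76) (nat_lit 127681323139) (nat_lit 76) (nat_lit 116660833543) (nat_lit 1) (nat_lit 4) (nat_lit 2) (nat_lit 5) (nat_lit 2) (nat_lit 4) (nat_lit 307) (nat_lit 229) (nat_lit 184)) (XT.lf (nat_lit 0) (nat_lit 12689868954) (nat_lit 76) (nat_lit 134057597135) (nat_lit 76) (nat_lit 123010706482) (nat_lit 1) (nat_lit 4) (nat_lit 2) (nat_lit 5) (nat_lit 2)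 (nat_lit 4) (nat_lit 308) (nat_lit 229) (nat_lit 183))) (XT.nd (nat_lit 78) (nat_lit 0) (nat_lit 0) (XT.lf (nat_lit 0) (nat_lit 20307794190) (nat_lit 76) (nat_lit 140956314795) (nat_lit 76) (nat_lit 129884978718) (nat_lit 1) (nat_lit 4) (nat_lit 2) (nat_lit 5) (nat_lit 2) (nat_lit 4) (nat_lit 309) (nat_lit 229) (nat_lit 182)) (XT.lf (nat_lit 0) (nat_lit 28509275593) (nat_lit 76) (nat_lit 148418357408) (nat_lit 76) (nat_lit 137324386680) (nat_lit 1) (nat_lit 4) (nat_lit 2) (nat_lit 5) (nat_lit 2) (nat_lit 4) (nat_lit 310) (nat_lit 229) (nat_lit 181)))) (XT.nd (nat_lit 156) (nat_lit 0) (nat_lit 0) (XT.nd (nat_lit 78) (nat_lit 0) (nat_lit 0) (XT.lf (nat_lit 0) (nat_lit 37342914536) (nat_lit 76) (nat_lit 156487944486) (nat_lit 76) (nat_lit 145373015747) (nat_lit 1) (nat_lit 4) (nat_lit 2) (nat_lit 5) (nat_lit 2) (nat_lit 4) (nat_lit 311) (nat_lit 229) (nat_lit 180)) (XT.lf (nat_lit 0) (nat_lit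 46861058508) (nat_lit 76) (nat_lit 165212895803) (nat_lit 76) (nat_lit 154078561499) (nat_lit 1) (nat_lit 4) (nat_lit 2) (nat_lit 5) (nat_lit 2) (nat_lit 4) (nat_lit 312) (nat_lit 229) (nat_lit 179))) (XT.nd (nat_lit 78) (nat_lit 0) (nat_lit 0) (XT.lf (nat_lit 0) (nat_lit 57120111325) (nat_lit 76) (nat_lit 174644914776) (nat_lit 76) (nat_lit 163492612356) (nat_lit 1) (nat_lit 4) (nat_lit 2) (nat_lit 5) (nat_lit 2) (nat_lit 4) (nat_lit 313) (nat_lit 229) (nat_lit 178)) (XT.nd (nat_lit 78) (nat_lit 0) (nat_lit 0) (XT.lf (nat_lit 0) (nat_lit 68180867375) (nat_lit 76) (nat_lit 184839894851) (nat_lit 76) (nat_lit 173670955286) (nat_lit 1) (nat_lit 4) (nat_lit 2) (nat_lit 5) (nat_lit 2) (nat_lit 4) (nat_lit 314) (nat_lit 229) (nat_lit 177)) (XT.lf (nat_lit 0) (nat_lit 80108871878) (nat_lit 76) (nat_lit 195858250723) (nat_lit 76) (nat_lit 184673906394) (nat_lit 1) (nat_lit 4) (nat_lit 2) (nat_lit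 5) (nat_lit 2) (nat_lit 4) (nat_lit 315) (nat_lit 229) (nat_lit 176)))))) (XT.nd (nat_lit 312) (nat_lit 0) (nat_lit 0) (XT.nd (nat_lit 156) (nat_lit 0) (nat_lit 0) (XT.nd (nat_lit 78) (nat_lit 0) (nat_lit 0) (XT.lf (nat_lit 0) (nat_lit 92974809306) (nat_lit 76) (nat_lit 207765276353) (nat_lit 76) (nat_lit 196566668355) (nat_lit 1) (nat_lit 4) (nat_lit 2) (nat_lit 5) (nat_lit 2) (nat_lit 4) (nat_lit 316) (nat_lit 229) (nat_lit 175)) (XT.lf (nat_lit 0) (nat_lit 106854922250) (nat_lit 76) (nat_lit 220631531894) (nat_lit 76) (nat_lit 209419716794) (nat_lit 1) (nat_lit 4) (nat_lit 2) (nat_lit 5) (nat_lit 2) (nat_lit 4) (nat_lit 317) (nat_lit 229) (nat_lit 174))) (XT.nd (nat_lit 78) (nat_lit 0) (nat_lit 0) (XT.lf (nat_lit 0) (nat_lit 121831463233) (nat_lit 76) (nat_lit 234533261823) (nat_lit 76) (nat_lit 223309217925) (nat_lit 1) (nat_lit 4) (nat_lit 2) (nat_lit 5) (nat_lit 2) (nat_lit 4) (nat_lit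 318) (nat_lit 229) (nat_lit 173)) (XT.lf (nat_lit 0) (nat_lit 137993182125) (nat_lit 76) (nat_lit 249552846761) (nat_lit 76) (nat_lit 238317479902) (nat_lit 1) (nat_lit 4) (nat_lit 2) (nat_lit 5) (nat_lit 2) (nat_lit 4) (nat_lit 319) (nat_lit 229) (nat_lit 172)))) (XT.nd (nat_lit 156) (nat_lit 0) (nat_lit 0) (XT.nd (nat_lit 78) (nat_lit 0) (nat_lit 0) (XT.lf (nat_lit 0) (nat_lit 155435852077) (nat_lit 76) (nat_lit 265779291657) (nat_lit 76) (nat_lit 254533440574) (nat_lit 1) (nat_lit 4) (nat_lit 2) (nat_lit 5) (nat_lit 2) (nat_lit 4) (nat_lit 320) (nat_lit 229) (nat_lit 171)) (XT.lf (nat_lit 0) (nat_lit 174262837059) (nat_lit 76) (nat_lit 283308753220) (nat_lit 76) (nat_lit 272053194524) (nat_lit 1) (nat_lit 4) (nat_lit 2) (nat_lit 5) (nat_lit 2) (nat_lit 4) (nat_lit 321) (nat_lit 229) (nat_lit 170))) (XT.nd (nat_lit 78) (nat_lit 0) (nat_lit 0) (XT.lf (nat_lit 0) (nat_lit 194585704388)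 (nat_lit 76) (nat_lit 302245109742) (nat_lit 76) (nat_lit 290980562514) (nat_lit 1) (nat_lit 4) (nat_lit 2) (nat_lit 5) (nat_lit 2) (nat_lit 4) (nat_lit 322) (nat_lit 229) (nat_lit 169)) (XT.nd (nat_lit 78) (nat_lit 0) (nat_lit 0) (XT.lf (nat_lit 0) (nat_lit 216524885871) (nat_lit 76) (nat_lit 322700576668) (nat_lit 76) (nat_lit 311427706726) (nat_lit 1) (nat_lit 4) (nat_lit 2) (nat_lit 5) (nat_lit 2) (nat_lit 4) (nat_lit 323) (nat_lit 229) (nat_lit 168)) (XT.lf (nat_lit 0) (nat_lit 240210391473) (nat_lit 76) (nat_lit 344796371581) (nat_lit 76) (nat_lit 333515795422) (nat_lit 1) (nat_lit 4) (nat_lit 2) (nat_lit 5) (nat_lit 2) (nat_lit 4) (nat_lit 324) (nat_lit 229) (nat_lit 167))))))) (XT.nd (nat_lit 702) (nat_lit 456) (nat_lit 0) (XT.nd (nat_lit 312) (nat_lit 532) (nat_lit 0) (XT.nd (nat_lit 156) (nat_lit 380) (nat_lit 0) (XT.nd (nat_lit 78) (nat_lit 228) (nat_lit 0) (XT.lf (nat_lit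 0) (nat_lit 4554727209) (nat_lit 228) (nat_lit 284807002) (nat_lit 228) (nat_lit 284807002) (nat_lit 28) (nat_lit 4) (nat_lit 31) (nat_lit 5) (nat_lit 31) (nat_lit 4) (nat_lit 260) (nat_lit 230) (nat_lit 230)) (XT.lf (nat_lit 0) (nat_lit 4681692199) (nat_lit 228) (nat_lit 2574028930) (nat_lit 0) (nat_lit 3462001056) (nat_lit 25) (nat_lit 5) (nat_lit 28) (nat_lit 4) (nat_lit 25) (nat_lit 4) (nat_lit 261) (nat_lit 230) (nat_lit 229))) (XT.nd (nat_lit 78) (nat_lit 228) (nat_lit 0) (XT.lf (nat_lit 0) (nat_lit 6706509079) (nat_lit 152) (nat_lit 3438404673) (nat_lit 152) (nat_lit 1089369879) (nat_lit 23) (nat_lit 4) (nat_lit 25) (nat_lit 5) (nat_lit 25) (nat_lit 4) (nat_lit 262) (nat_lit 230) (nat_lit 228)) (XT.lf (nat_lit 0) (nat_lit 3934220316) (nat_lit 228) (nat_lit 7163542368) (nat_lit 0) (nat_lit 701150451) (nat_lit 20) (nat_lit 5) (nat_lit 23) (nat_lit 4) (nat_lit 20) (nat_lit 4) (nat_lit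 263) (nat_lit 230) (nat_lit 227)))) (XT.nd (nat_lit 156) (nat_lit 304) (nat_lit 0) (XT.nd (nat_lit 78) (nat_lit 76) (nat_lit 0) (XT.lf (nat_lit 0) (nat_lit 1809854786) (nat_lit 152) (nat_lit 7380294324) (nat_lit 152) (nat_lit 3225100504) (nat_lit 18) (nat_lit 4) (nat_lit 20) (nat_lit 5) (nat_lit 20) (nat_lit 4) (nat_lit 264) (nat_lit 230) (nat_lit 226)) (XT.lf (nat_lit 0) (nat_lit 1566876393) (nat_lit 228) (nat_lit 1796915691) (nat_lit 76) (nat_lit 9724547245) (nat_lit 17) (nat_lit 5) (nat_lit 20) (nat_lit 5) (nat_lit 18) (nat_lit 4) (nat_lit 265) (nat_lit 230) (nat_lit 225))) (XT.nd (nat_lit 78) (nat_lit 228) (nat_lit 0) (XT.lf (nat_lit 0) (nat_lit 6496196093) (nat_lit 152) (nat_lit 6351008479) (nat_lit 0) (nat_lit 972781844) (nat_lit 16) (nat_lit 5) (nat_lit 18) (nat_lit 4) (nat_lit 16) (nat_lit 4) (nat_lit 266) (nat_lit 230) (nat_lit 224)) (XT.nd (nat_lit 78) (nat_lit 76) (nat_lit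 0) (XT.lf (nat_lit 0) (nat_lit 2547014409) (nat_lit 152) (nat_lit 9145371701) (nat_lit 152) (nat_lit 2924803427) (nat_lit 14) (nat_lit 4) (nat_lit 16) (nat_lit 5) (nat_lit 16) (nat_lit 4) (nat_lit 267) (nat_lit 230) (nat_lit 223)) (XT.lf (nat_lit 0) (nat_lit 1632597434) (nat_lit 228) (nat_lit 3519256518) (nat_lit 76) (nat_lit 10332215977) (nat_lit 13) (nat_lit 5) (nat_lit 16) (nat_lit 5) (nat_lit 14) (nat_lit 4) (nat_lit 268) (nat_lit 230) (nat_lit 222)))))) (XT.nd (nat_lit 312) (nat_lit 152) (nat_lit 0) (XT.nd (nat_lit 156) (nat_lit 228) (nat_lit 0) (XT.nd (nat_lit 78) (nat_lit 0) (nat_lit 0) (XT.lf (nat_lit 0) (nat_lit 5471190946) (nat_lit 76) (nat_lit 838550231) (nat_lit 152) (nat_lit 10115812257) (nat_lit 12) (nat_lit 5) (nat_lit 13) (nat_lit 5) (nat_lit 14) (nat_lit 4) (nat_lit 269) (nat_lit 230) (nat_lit 221)) (XT.lf (nat_lit 0) (nat_lit 11263146997) (nat_lit 152) (nat_lit 2556879193)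 (nat_lit 0) (nat_lit 3627716702) (nat_lit 12) (nat_lit 5) (nat_lit 14) (nat_lit 4) (nat_lit 12) (nat_lit 4) (nat_lit 270) (nat_lit 230) (nat_lit 220))) (XT.nd (nat_lit 78) (nat_lit 76) (nat_lit 0) (XT.lf (nat_lit 0) (nat_lit 6365430679) (nat_lit 152) (nat_lit 10157346274) (nat_lit 152) (nat_lit 2033888340) (nat_lit 10) (nat_lit 4) (nat_lit 12) (nat_lit 5) (nat_lit 12) (nat_lit 4) (nat_lit 271) (nat_lit 230) (nat_lit 219)) (XT.lf (nat_lit 0) (nat_lit 2218668134) (nat_lit 228) (nat_lit 4027065700) (nat_lit 76) (nat_lit 13514648940) (nat_lit 9) (nat_lit 5) (nat_lit 12) (nat_lit 5) (nat_lit 10) (nat_lit 4) (nat_lit 272) (nat_lit 230) (nat_lit 218)))) (XT.nd (nat_lit 156) (nat_lit 76) (nat_lit 0) (XT.nd (nat_lit 78) (nat_lit 0) (nat_lit 0) (XT.lf (nat_lit 0) (nat_lit 4598628444) (nat_lit 76) (nat_lit 2031795390) (nat_lit 152) (nat_lit 14434165904) (nat_lit 8) (nat_lit 5) (nat_lit 9) (nat_lit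 5) (nat_lit 10) (nat_lit 4) (nat_lit 273) (nat_lit 230) (nat_lit 217)) (XT.lf (nat_lit 0) (nat_lit 11330386346) (nat_lit 152) (nat_lit 8750372465) (nat_lit 0) (nat_lit 2395955403) (nat_lit 8) (nat_lit 5) (nat_lit 10) (nat_lit 4) (nat_lit 8) (nat_lit 4) (nat_lit 274) (nat_lit 230) (nat_lit 216))) (XT.nd (nat_lit 78) (nat_lit 76) (nat_lit 0) (XT.lf (nat_lit 0) (nat_lit 16278230464) (nat_lit 152) (nat_lit 728136429) (nat_lit 0) (nat_lit 7002166298) (nat_lit 8) (nat_lit 5) (nat_lit 10) (nat_lit 4) (nat_lit 8) (nat_lit 4) (nat_lit 275) (nat_lit 230) (nat_lit 215)) (XT.nd (nat_lit 78) (nat_lit 0) (nat_lit 0) (XT.lf (nat_lit 0) (nat_lit 7933943757) (nat_lit 76) (nat_lit 13661482063) (nat_lit 76) (nat_lit 4069090841) (nat_lit 7) (nat_lit 4) (nat_lit 8) (nat_lit 5) (nat_lit 8) (nat_lit 4) (nat_lit 276) (nat_lit 230) (nat_lit 214)) (XT.lf (nat_lit 0) (nat_lit 17070241215) (nat_lit 76) (nat_lit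 10137407470) (nat_lit 76) (nat_lit 252120824) (nat_lit 7) (nat_lit 4) (nat_lit 8) (nat_lit 5) (nat_lit 8) (nat_lit 4) (nat_lit 277) (nat_lit 230) (nat_lit 213))))))))
noncomputable def xc29 : XT := (XT.nd (nat_lit 1404) (nat_lit 76) (nat_lit 0) (XT.nd (nat_lit 702) (nat_lit 152) (nat_lit 0) (XT.nd (nat_lit 312) (nat_lit 76) (nat_lit 0) (XT.nd (nat_lit 156) (nat_lit 0) (nat_lit 0) (XT.nd (nat_lit 78) (nat_lit 76) (nat_lit 0) (XT.lf (nat_lit 0) (nat_lit 3611483117) (nat_lit 152) (nat_lit 2752945720) (nat_lit 76) (nat_lit 23038176156) (nat_lit 6) (nat_lit 5) (nat_lit 8) (nat_lit 5) (nat_lit 7) (nat_lit 4) (nat_lit 278) (nat_lit 230) (nat_lit 212)) (XT.lf (nat_lit 0) (nat_lit 5450578851) (nat_lit 76) (nat_lit 2285116553) (nat_lit 152) (nat_lit 23767170751) (nat_lit 5) (nat_lit 5) (nat_lit 6) (nat_lit 5) (nat_lit 7) (nat_lit 4) (nat_lit 279) (nat_lit 230) (nat_lit 211))) (XT.nd (nat_lit 78)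 (nat_lit 0) (nat_lit 0) (XT.lf (nat_lit 0) (nat_lit 12151535900) (nat_lit 152) (nat_lit 19603633287) (nat_lit 0) (nat_lit 2018101081) (nat_lit 5) (nat_lit 5) (nat_lit 7) (nat_lit 4) (nat_lit 5) (nat_lit 4) (nat_lit 280) (nat_lit 230) (nat_lit 210)) (XT.lf (nat_lit 0) (nat_lit 16847918358) (nat_lit 152) (nat_lit 12871767514) (nat_lit 0) (nat_lit 6509448416) (nat_lit 5) (nat_lit 5) (nat_lit 7) (nat_lit 4) (nat_lit 5) (nat_lit 4) (nat_lit 281) (nat_lit 230) (nat_lit 209)))) (XT.nd (nat_lit 156) (nat_lit 0) (nat_lit 0) (XT.nd (nat_lit 78) (nat_lit 76) (nat_lit 0) (XT.lf (nat_lit 0) (nat_lit 21816996122) (nat_lit 152) (nat_lit 5781120375) (nat_lit 0) (nat_lit 11288678842) (nat_lit 5) (nat_lit 5) (nat_lit 7) (nat_lit 4) (nat_lit 5) (nat_lit 4) (nat_lit 282) (nat_lit 230) (nat_lit 208)) (XT.lf (nat_lit 0) (nat_lit 1766877906) (nat_lit 76) (nat_lit 25348923585) (nat_lit 76) (nat_lit 14644821735)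 (nat_lit 4) (nat_lit 4) (nat_lit 5) (nat_lit 5) (nat_lit 5) (nat_lit 4) (nat_lit 283) (nat_lit 230) (nat_lit 207))) (XT.nd (nat_lit 78) (nat_lit 0) (nat_lit 0) (XT.lf (nat_lit 0) (nat_lit 9965940029) (nat_lit 76) (nat_lit 22882469801) (nat_lit 76) (nat_lit 12015604458) (nat_lit 4) (nat_lit 4) (nat_lit 5) (nat_lit 5) (nat_lit 5) (nat_lit 4) (nat_lit 284) (nat_lit 230) (nat_lit 206)) (XT.nd (nat_lit 78) (nat_lit 0) (nat_lit 0) (XT.lf (nat_lit 0) (nat_lit 18673503081) (nat_lit 76) (nat_lit 20282045193) (nat_lit 76) (nat_lit 9264472913) (nat_lit 4) (nat_lit 4) (nat_lit 5) (nat_lit 5) (nat_lit 5) (nat_lit 4) (nat_lit 285) (nat_lit 230) (nat_lit 205)) (XT.lf (nat_lit 0) (nat_lit 27941167435) (nat_lit 76) (nat_lit 17532239837) (nat_lit 76) (nat_lit 6375124097) (nat_lit 4) (nat_lit 4) (nat_lit 5) (nat_lit 5) (nat_lit 5) (nat_lit 4) (nat_lit 286) (nat_lit 230) (nat_lit 204)))))) (XT.nd (nat_lit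 312) (nat_lit 0) (nat_lit 0) (XT.nd (nat_lit 156) (nat_lit 152) (nat_lit 0) (XT.nd (nat_lit 78) (nat_lit 0) (nat_lit 0) (XT.lf (nat_lit 0) (nat_lit 37823852583) (nat_lit 76) (nat_lit 14616758591) (nat_lit 76) (nat_lit 3330435944) (nat_lit 4) (nat_lit 4) (nat_lit 5) (nat_lit 5) (nat_lit 5) (nat_lit 4) (nat_lit 287) (nat_lit 230) (nat_lit 203)) (XT.lf (nat_lit 0) (nat_lit 48380122586) (nat_lit 76) (nat_lit 11518324528) (nat_lit 76) (nat_lit 112365856) (nat_lit 4) (nat_lit 4) (nat_lit 5) (nat_lit 5) (nat_lit 5) (nat_lit 4) (nat_lit 288) (nat_lit 230) (nat_lit 202))) (XT.nd (nat_lit 78) (nat_lit 76) (nat_lit 0) (XT.lf (nat_lit 0) (nat_lit 3192594614) (nat_lit 152) (nat_lit 4971913809) (nat_lit 76) (nat_lit 56425870368) (nat_lit 3) (nat_lit 5) (nat_lit 5) (nat_lit 5) (nat_lit 4) (nat_lit 4) (nat_lit 289) (nat_lit 230) (nat_lit 201)) (XT.lf (nat_lit 0) (nat_lit 2185260598) (nat_lit 76) (nat_lit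 4548672073) (nat_lit 152) (nat_lit 62803580377) (nat_lit 2) (nat_lit 5) (nat_lit 3) (nat_lit 5) (nat_lit 4) (nat_lit 4) (nat_lit 290) (nat_lit 230) (nat_lit 200)))) (XT.nd (nat_lit 156) (nat_lit 0) (nat_lit 0) (XT.nd (nat_lit 78) (nat_lit 0) (nat_lit 0) (XT.lf (nat_lit 0) (nat_lit 9994650885) (nat_lit 76) (nat_lit 595067747) (nat_lit 152) (nat_lit 64289226766) (nat_lit 2) (nat_lit 5) (nat_lit 3) (nat_lit 5) (nat_lit 4) (nat_lit 4) (nat_lit 291) (nat_lit 230) (nat_lit 199)) (XT.lf (nat_lit 0) (nat_lit 14759370280) (nat_lit 152) (nat_lit 62368958223) (nat_lit 0) (nat_lit 3519171839) (nat_lit 2) (nat_lit 5) (nat_lit 4) (nat_lit 4) (nat_lit 2) (nat_lit 4) (nat_lit 292) (nat_lit 230) (nat_lit 198))) (XT.nd (nat_lit 78) (nat_lit 0) (nat_lit 0) (XT.lf (nat_lit 0) (nat_lit 19224506221) (nat_lit 152) (nat_lit 59748247444) (nat_lit 0) (nat_lit 7906762762) (nat_lit 2) (nat_lit 5) (nat_lit 4) (nat_lit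 4) (nat_lit 2) (nat_lit 4) (nat_lit 293) (nat_lit 230) (nat_lit 197)) (XT.nd (nat_lit 78) (nat_lit 0) (nat_lit 0) (XT.lf (nat_lit 0) (nat_lit 24002295846) (nat_lit 152) (nat_lit 56997341365) (nat_lit 0) (nat_lit 12612751445) (nat_lit 2) (nat_lit 5) (nat_lit 4) (nat_lit 4) (nat_lit 2) (nat_lit 4) (nat_lit 294) (nat_lit 230) (nat_lit 196)) (XT.lf (nat_lit 0) (nat_lit 29121051983) (nat_lit 152) (nat_lit 54099938319) (nat_lit 0) (nat_lit 17665025228) (nat_lit 2) (nat_lit 5) (nat_lit 4) (nat_lit 4) (nat_lit 2) (nat_lit 4) (nat_lit 295) (nat_lit 230) (nat_lit 195))))))) (XT.nd (nat_lit 702) (nat_lit 76) (nat_lit 0) (XT.nd (nat_lit 312) (nat_lit 0) (nat_lit 0) (XT.nd (nat_lit 156) (nat_lit 0) (nat_lit 0) (XT.nd (nat_lit 78) (nat_lit 0) (nat_lit 0) (XT.lf (nat_lit 0) (nat_lit 34611108001) (nat_lit 152) (nat_lit 51038868511) (nat_lit 0) (nat_lit 23093523510) (nat_lit 2) (nat_lit 5) (nat_lit 4)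 (nat_lit 4) (nat_lit 2) (nat_lit 4) (nat_lit 296) (nat_lit 230) (nat_lit 194)) (XT.lf (nat_lit 0) (nat_lit 40504997566) (nat_lit 152) (nat_lit 47795992268) (nat_lit 0) (nat_lit 28930415172) (nat_lit 2) (nat_lit 5) (nat_lit 4) (nat_lit 4) (nat_lit 2) (nat_lit 4) (nat_lit 297) (nat_lit 230) (nat_lit 193))) (XT.nd (nat_lit 78) (nat_lit 0) (nat_lit 0) (XT.lf (nat_lit 0) (nat_lit 46837647429) (nat_lit 152) (nat_lit 44352092545) (nat_lit 0) (nat_lit 35210289199) (nat_lit 2) (nat_lit 5) (nat_lit 4) (nat_lit 4) (nat_lit 2) (nat_lit 4) (nat_lit 298) (nat_lit 230) (nat_lit 192)) (XT.lf (nat_lit 0) (nat_lit 53646584407) (nat_lit 152) (nat_lit 40686761048) (nat_lit 0) (nat_lit 41970359662) (nat_lit 2) (nat_lit 5) (nat_lit 4) (nat_lit 4) (nat_lit 2) (nat_lit 4) (nat_lit 299) (nat_lit 230) (nat_lit 191)))) (XT.nd (nat_lit 156) (nat_lit 0) (nat_lit 0) (XT.nd (nat_lit 78) (nat_lit 0) (nat_lit 0) (XT.lf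 (nat_lit 0) (nat_lit 60972157754) (nat_lit 152) (nat_lit 36778277294) (nat_lit 0) (nat_lit 49250686236) (nat_lit 2) (nat_lit 5) (nat_lit 4) (nat_lit 4) (nat_lit 2) (nat_lit 4) (nat_lit 300) (nat_lit 230) (nat_lit 190)) (XT.lf (nat_lit 0) (nat_lit 68857778275) (nat_lit 152) (nat_lit 32603479897) (nat_lit 0) (nat_lit 57094411597) (nat_lit 2) (nat_lit 5) (nat_lit 4) (nat_lit 4) (nat_lit 2) (nat_lit 4) (nat_lit 301) (nat_lit 230) (nat_lit 189))) (XT.nd (nat_lit 78) (nat_lit 0) (nat_lit 0) (XT.lf (nat_lit 0) (nat_lit 77350175574) (nat_lit 152) (nat_lit 28137629318) (nat_lit 0) (nat_lit 65548017081) (nat_lit 2) (nat_lit 5) (nat_lit 4) (nat_lit 4) (nat_lit 2) (nat_lit 4) (nat_lit 302) (nat_lit 230) (nat_lit 188)) (XT.nd (nat_lit 78) (nat_lit 0) (nat_lit 0) (XT.lf (nat_lit 0) (nat_lit 86499674969) (nat_lit 152) (nat_lit 23354261256) (nat_lit 0) (nat_lit 74661598128) (nat_lit 2) (nat_lit 5) (nat_lit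 4) (nat_lit 4) (nat_lit 2) (nat_lit 4) (nat_lit 303) (nat_lit 230) (nat_lit 187)) (XT.lf (nat_lit 0) (nat_lit 96360495714) (nat_lit 152) (nat_lit 18225029828) (nat_lit 0) (nat_lit 84489161144) (nat_lit 2) (nat_lit 5) (nat_lit 4) (nat_lit 4) (nat_lit 2) (nat_lit 4) (nat_lit 304) (nat_lit 230) (nat_lit 186)))))) (XT.nd (nat_lit 390) (nat_lit 0) (nat_lit 0) (XT.nd (nat_lit 156) (nat_lit 76) (nat_lit 0) (XT.nd (nat_lit 78) (nat_lit 0) (nat_lit 0) (XT.lf (nat_lit 0) (nat_lit 106991072303) (nat_lit 152) (nat_lit 12719539587) (nat_lit 0) (nat_lit 95088943540) (nat_lit 2) (nat_lit 5) (nat_lit 4) (nat_lit 4) (nat_lit 2) (nat_lit 4) (nat_lit 305) (nat_lit 230) (nat_lit 185)) (XT.lf (nat_lit 0) (nat_lit 118454400746) (nat_lit 152) (nat_lit 6805165405) (nat_lit 0) (nat_lit 106523758840) (nat_lit 2) (nat_lit 5) (nat_lit 4) (nat_lit 4) (nat_lit 2) (nat_lit 4) (nat_lit 306) (nat_lit 230) (nat_lit 184)))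 (XT.nd (nat_lit 78) (nat_lit 76) (nat_lit 0) (XT.lf (nat_lit 0) (nat_lit 130818411877) (nat_lit 152) (nat_lit 446859141) (nat_lit 0) (nat_lit 118861368914) (nat_lit 2) (nat_lit 5) (nat_lit 4) (nat_lit 4) (nat_lit 2) (nat_lit 4) (nat_lit 307) (nat_lit 230) (nat_lit 183)) (XT.nd (nat_lit 78) (nat_lit 0) (nat_lit 0) (XT.lf (nat_lit 0) (nat_lit 6604441429) (nat_lit 76) (nat_lit 137655046321) (nat_lit 76) (nat_lit 125673557935) (nat_lit 1) (nat_lit 4) (nat_lit 2) (nat_lit 5) (nat_lit 2) (nat_lit 4) (nat_lit 308) (nat_lit 230) (nat_lit 182)) (XT.lf (nat_lit 0) (nat_lit 14209925390) (nat_lit 76) (nat_lit 144559257991) (nat_lit 76) (nat_lit 132555134953) (nat_lit 1) (nat_lit 4) (nat_lit 2) (nat_lit 5) (nat_lit 2) (nat_lit 4) (nat_lit 309) (nat_lit 230) (nat_lit 181))))) (XT.nd (nat_lit 156) (nat_lit 0) (nat_lit 0) (XT.nd (nat_lit 78) (nat_lit 0) (nat_lit 0) (XT.lf (nat_lit 0) (nat_lit 22399887095)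 (nat_lit 76) (nat_lit 152026387650) (nat_lit 76) (nat_lit 140001306601) (nat_lit 1) (nat_lit 4) (nat_lit 2) (nat_lit 5) (nat_lit 2) (nat_lit 4) (nat_lit 310) (nat_lit 230) (nat_lit 180)) (XT.lf (nat_lit 0) (nat_lit 31222859650) (nat_lit 76) (nat_lit 160100684955) (nat_lit 76) (nat_lit 148056198341) (nat_lit 1) (nat_lit 4) (nat_lit 2) (nat_lit 5) (nat_lit 2) (nat_lit 4) (nat_lit 311) (nat_lit 230) (nat_lit 179))) (XT.nd (nat_lit 78) (nat_lit 0) (nat_lit 0) (XT.lf (nat_lit 0) (nat_lit 40731127337) (nat_lit 76) (nat_lit 168829997595) (nat_lit 76) (nat_lit 156767542865) (nat_lit 1) (nat_lit 4) (nat_lit 2) (nat_lit 5) (nat_lit 2) (nat_lit 4) (nat_lit 312) (nat_lit 230) (nat_lit 178)) (XT.nd (nat_lit 78) (nat_lit 0) (nat_lit 0) (XT.lf (nat_lit 0) (nat_lit 50981035446) (nat_lit 76) (nat_lit 178266054829) (nat_lit 76) (nat_lit 166186962955) (nat_lit 1) (nat_lit 4) (nat_lit 2) (nat_lit 5) (nat_lit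 2) (nat_lit 4) (nat_lit 313) (nat_lit 230) (nat_lit 177)) (XT.lf (nat_lit 0) (nat_lit 62033324174) (nat_lit 76) (nat_lit 188464774034) (nat_lit 76) (nat_lit 176370277396) (nat_lit 1) (nat_lit 4) (nat_lit 2) (nat_lit 5) (nat_lit 2) (nat_lit 4) (nat_lit 314) (nat_lit 230) (nat_lit 176))))))))
noncomputable def xc30 : XT := (XT.nd (nat_lit 33774) (nat_lit 0) (nat_lit 228) (XT.nd (nat_lit 33072) (nat_lit 0) (nat_lit 1140) (XT.nd (nat_lit 312) (nat_lit 0) (nat_lit 0) (XT.nd (nat_lit 156) (nat_lit 0) (nat_lit 0) (XT.nd (nat_lit 78) (nat_lit 0) (nat_lit 0) (XT.lf (nat_lit 0) (nat_lit 73953488563) (nat_lit 76) (nat_lit 199486592064) (nat_lit 76) (nat_lit 187377831756) (nat_lit 1) (nat_lit 4) (nat_lit 2) (nat_lit 5) (nat_lit 2) (nat_lit 4) (nat_lit 315) (nat_lit 230) (nat_lit 175)) (XT.lf (nat_lit 0) (nat_lit 86812166627) (nat_lit 76) (nat_lit 211396823397) (nat_lit 76) (nat_lit 199274855987)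 (nat_lit 1) (nat_lit 4) (nat_lit 2) (nat_lit 5) (nat_lit 2) (nat_lit 4) (nat_lit 316) (nat_lit 230) (nat_lit 174))) (XT.nd (nat_lit 78) (nat_lit 0) (nat_lit 0) (XT.lf (nat_lit 0) (nat_lit 100685557938) (nat_lit 76) (nat_lit 224266047180) (nat_lit 76) (nat_lit 212131850973) (nat_lit 1) (nat_lit 4) (nat_lit 2) (nat_lit 5) (nat_lit 2) (nat_lit 4) (nat_lit 317) (nat_lit 230) (nat_lit 173)) (XT.lf (nat_lit 0) (nat_lit 115655875185) (nat_lit 76) (nat_lit 238170525482) (nat_lit 76) (nat_lit 226025006313) (nat_lit 1) (nat_lit 4) (nat_lit 2) (nat_lit 5) (nat_lit 2) (nat_lit 4) (nat_lit 318) (nat_lit 230) (nat_lit 172)))) (XT.nd (nat_lit 156) (nat_lit 0) (nat_lit 0) (XT.nd (nat_lit 78) (nat_lit 0) (nat_lit 0) (XT.lf (nat_lit 0) (nat_lit 131811831361) (nat_lit 76) (nat_lit 253192655209) (nat_lit 76) (nat_lit 241036651817) (nat_lit 1) (nat_lit 4) (nat_lit 2) (nat_lit 5) (nat_lit 2) (nat_lit 4) (nat_lit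 319) (nat_lit 230) (nat_lit 171)) (XT.lf (nat_lit 0) (nat_lit 149249165463) (nat_lit 76) (nat_lit 269421456391) (nat_lit 76) (nat_lit 257255745386) (nat_lit 1) (nat_lit 4) (nat_lit 2) (nat_lit 5) (nat_lit 2) (nat_lit 4) (nat_lit 320) (nat_lit 230) (nat_lit 170))) (XT.nd (nat_lit 78) (nat_lit 0) (nat_lit 0) (XT.lf (nat_lit 0) (nat_lit 168071209843) (nat_lit 76) (nat_lit 286953099702) (nat_lit 76) (nat_lit 274778400164) (nat_lit 1) (nat_lit 4) (nat_lit 2) (nat_lit 5) (nat_lit 2) (nat_lit 4) (nat_lit 321) (nat_lit 230) (nat_lit 169)) (XT.nd (nat_lit 78) (nat_lit 0) (nat_lit 0) (XT.lf (nat_lit 0) (nat_lit 188389502542) (nat_lit 76) (nat_lit 305891476359) (nat_lit 76) (nat_lit 293708454108) (nat_lit 1) (nat_lit 4) (nat_lit 2) (nat_lit 5) (nat_lit 2) (nat_lit 4) (nat_lit 322) (nat_lit 230) (nat_lit 168)) (XT.lf (nat_lit 0) (nat_lit 210324448256) (nat_lit 76) (nat_lit 326348813782) (nat_lit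 76) (nat_lit 314158085313) (nat_lit 1) (nat_lit 4) (nat_lit 2) (nat_lit 5) (nat_lit 2) (nat_lit 4) (nat_lit 323) (nat_lit 230) (nat_lit 167)))))) (XT.nd (nat_lit 312) (nat_lit 684) (nat_lit 0) (XT.nd (nat_lit 156) (nat_lit 456) (nat_lit 0) (XT.nd (nat_lit 78) (nat_lit 0) (nat_lit 0) (XT.lf (nat_lit 0) (nat_lit 145924133) (nat_lit 304) (nat_lit 4419435245) (nat_lit 0) (nat_lit 145924133) (nat_lit 31) (nat_lit 5) (nat_lit 35) (nat_lit 4) (nat_lit 31) (nat_lit 4) (nat_lit 258) (nat_lit 231) (nat_lit 231)) (XT.lf (nat_lit 0) (nat_lit 5482599886) (nat_lit 304) (nat_lit 236734635) (nat_lit 0) (nat_lit 4099470130) (nat_lit 31) (nat_lit 5) (nat_lit 35) (nat_lit 4) (nat_lit 31) (nat_lit 4) (nat_lit 259) (nat_lit 231) (nat_lit 230))) (XT.nd (nat_lit 78) (nat_lit 152) (nat_lit 0) (XT.lf (nat_lit 0) (nat_lit 624639011) (nat_lit 304) (nat_lit 1383295481) (nat_lit 76) (nat_lit 8248801981) (nat_lit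 27) (nat_lit 5) (nat_lit 31) (nat_lit 5) (nat_lit 28) (nat_lit 4) (nat_lit 260) (nat_lit 231) (nat_lit 229)) (XT.lf (nat_lit 0) (nat_lit 5675977114) (nat_lit 228) (nat_lit 3049272033) (nat_lit 0) (nat_lit 2009675887) (nat_lit 25) (nat_lit 5) (nat_lit 28) (nat_lit 4) (nat_lit 25) (nat_lit 4) (nat_lit 261) (nat_lit 231) (nat_lit 228)))) (XT.nd (nat_lit 156) (nat_lit 304) (nat_lit 0) (XT.nd (nat_lit 78) (nat_lit 228) (nat_lit 0) (XT.lf (nat_lit 0) (nat_lit 5996999592) (nat_lit 152) (nat_lit 4987344257) (nat_lit 152) (nat_lit 275354465) (nat_lit 23) (nat_lit 4) (nat_lit 25) (nat_lit 5) (nat_lit 25) (nat_lit 4) (nat_lit 262) (nat_lit 231) (nat_lit 227)) (XT.lf (nat_lit 0) (nat_lit 3660663793) (nat_lit 152) (nat_lit 895864859) (nat_lit 228) (nat_lit 7275860052) (nat_lit 20) (nat_lit 5) (nat_lit 22) (nat_lit 5) (nat_lit 23) (nat_lit 4) (nat_lit 263) (nat_lit 231) (nat_lit 226))) (XT.nd (nat_lit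 78) (nat_lit 152) (nat_lit 0) (XT.lf (nat_lit 0) (nat_lit 571742352) (nat_lit 152) (nat_lit 9074611398) (nat_lit 152) (nat_lit 2811059639) (nat_lit 18) (nat_lit 4) (nat_lit 20) (nat_lit 5) (nat_lit 20) (nat_lit 4) (nat_lit 264) (nat_lit 231) (nat_lit 225)) (XT.nd (nat_lit 78) (nat_lit 76) (nat_lit 0) (XT.lf (nat_lit 0) (nat_lit 1839255247) (nat_lit 228) (nat_lit 3283651165) (nat_lit 76) (nat_lit 8014031742) (nat_lit 17) (nat_lit 5) (nat_lit 20) (nat_lit 5) (nat_lit 18) (nat_lit 4) (nat_lit 265) (nat_lit 231) (nat_lit 224)) (XT.lf (nat_lit 0) (nat_lit 5758255414) (nat_lit 76) (nat_lit 848764860) (nat_lit 152) (nat_lit 7269955443) (nat_lit 16) (nat_lit 5) (nat_lit 17) (nat_lit 5) (nat_lit 18) (nat_lit 4) (nat_lit 266) (nat_lit 231) (nat_lit 223))))))) (XT.nd (nat_lit 702) (nat_lit 304) (nat_lit 0) (XT.nd (nat_lit 312) (nat_lit 304) (nat_lit 0) (XT.nd (nat_lit 156) (nat_lit 76) (nat_lit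 0) (XT.nd (nat_lit 78) (nat_lit 76) (nat_lit 0) (XT.lf (nat_lit 0) (nat_lit 546462385) (nat_lit 152) (nat_lit 11098402034) (nat_lit 152) (nat_lit 3037521288) (nat_lit 14) (nat_lit 4) (nat_lit 16) (nat_lit 5) (nat_lit 16) (nat_lit 4) (nat_lit 267) (nat_lit 231) (nat_lit 222)) (XT.lf (nat_lit 0) (nat_lit 1413309904) (nat_lit 228) (nat_lit 5761292651) (nat_lit 76) (nat_lit 8380515762) (nat_lit 13) (nat_lit 5) (nat_lit 16) (nat_lit 5) (nat_lit 14) (nat_lit 4) (nat_lit 268) (nat_lit 231) (nat_lit 221))) (XT.nd (nat_lit 78) (nat_lit 0) (nat_lit 0) (XT.lf (nat_lit 0) (nat_lit 2984712931) (nat_lit 76) (nat_lit 2964903765) (nat_lit 152) (nat_lit 10554263416) (nat_lit 12) (nat_lit 5) (nat_lit 13) (nat_lit 5) (nat_lit 14) (nat_lit 4) (nat_lit 269) (nat_lit 231) (nat_lit 220)) (XT.lf (nat_lit 0) (nat_lit 10771953972) (nat_lit 152) (nat_lit 5250296188) (nat_lit 0) (nat_lit 1510591765) (nat_lit 12)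 (nat_lit 5) (nat_lit 14) (nat_lit 4) (nat_lit 12) (nat_lit 4) (nat_lit 270) (nat_lit 231) (nat_lit 219)))) (XT.nd (nat_lit 156) (nat_lit 76) (nat_lit 0) (XT.nd (nat_lit 78) (nat_lit 76) (nat_lit 0) (XT.lf (nat_lit 0) (nat_lit 3428178606) (nat_lit 152) (nat_lit 12466926023) (nat_lit 152) (nat_lit 2753686373) (nat_lit 10) (nat_lit 4) (nat_lit 12) (nat_lit 5) (nat_lit 12) (nat_lit 4) (nat_lit 271) (nat_lit 231) (nat_lit 218)) (XT.lf (nat_lit 0) (nat_lit 1434168772) (nat_lit 228) (nat_lit 7191598706) (nat_lit 76) (nat_lit 11231868635) (nat_lit 9) (nat_lit 5) (nat_lit 12) (nat_lit 5) (nat_lit 10) (nat_lit 4) (nat_lit 272) (nat_lit 231) (nat_lit 217))) (XT.nd (nat_lit 78) (nat_lit 0) (nat_lit 0) (XT.lf (nat_lit 0) (nat_lit 1189430473) (nat_lit 76) (nat_lit 4522026715) (nat_lit 152) (nat_lit 15457274769) (nat_lit 8) (nat_lit 5) (nat_lit 9) (nat_lit 5) (nat_lit 10) (nat_lit 4) (nat_lit 273) (nat_lit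 231) (nat_lit 216)) (XT.nd (nat_lit 78) (nat_lit 0) (nat_lit 0) (XT.lf (nat_lit 0) (nat_lit 10228061911) (nat_lit 76) (nat_lit 67466653) (nat_lit 152) (nat_lit 12291275682) (nat_lit 8) (nat_lit 5) (nat_lit 9) (nat_lit 5) (nat_lit 10) (nat_lit 4) (nat_lit 274) (nat_lit 231) (nat_lit 215)) (XT.lf (nat_lit 0) (nat_lit 15170036941) (nat_lit 152) (nat_lit 4458467610) (nat_lit 0) (nat_lit 4493927363) (nat_lit 8) (nat_lit 5) (nat_lit 10) (nat_lit 4) (nat_lit 8) (nat_lit 4) (nat_lit 275) (nat_lit 231) (nat_lit 214)))))) (XT.nd (nat_lit 312) (nat_lit 76) (nat_lit 0) (XT.nd (nat_lit 156) (nat_lit 152) (nat_lit 0) (XT.nd (nat_lit 78) (nat_lit 0) (nat_lit 0) (XT.lf (nat_lit 0) (nat_lit 3962602394) (nat_lit 76) (nat_lit 16395697989) (nat_lit 76) (nat_lit 5426692988) (nat_lit 7) (nat_lit 4) (nat_lit 8) (nat_lit 5) (nat_lit 8) (nat_lit 4) (nat_lit 276) (nat_lit 231) (nat_lit 213)) (XT.lf (nat_lit 0)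 (nat_lit 12989947457) (nat_lit 76) (nat_lit 12916904234) (nat_lit 76) (nat_lit 1676699767) (nat_lit 7) (nat_lit 4) (nat_lit 8) (nat_lit 5) (nat_lit 8) (nat_lit 4) (nat_lit 277) (nat_lit 231) (nat_lit 212))) (XT.nd (nat_lit 78) (nat_lit 76) (nat_lit 0) (XT.lf (nat_lit 0) (nat_lit 2172468932) (nat_lit 152) (nat_lit 7037753773) (nat_lit 76) (nat_lit 20320385138) (nat_lit 6) (nat_lit 5) (nat_lit 8) (nat_lit 5) (nat_lit 7) (nat_lit 4) (nat_lit 278) (nat_lit 231) (nat_lit 211)) (XT.lf (nat_lit 0) (nat_lit 925596802) (nat_lit 76) (nat_lit 5244852815) (nat_lit 152) (nat_lit 25466830303) (nat_lit 5) (nat_lit 5) (nat_lit 6) (nat_lit 5) (nat_lit 7) (nat_lit 4) (nat_lit 279) (nat_lit 231) (nat_lit 210)))) (XT.nd (nat_lit 156) (nat_lit 76) (nat_lit 0) (XT.nd (nat_lit 78) (nat_lit 0) (nat_lit 0) (XT.lf (nat_lit 0) (nat_lit 9587629775) (nat_lit 76) (nat_lit 913219771) (nat_lit 152) (nat_lit 23411198494)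 (nat_lit 5) (nat_lit 5) (nat_lit 6) (nat_lit 5) (nat_lit 7) (nat_lit 4) (nat_lit 280) (nat_lit 231) (nat_lit 209)) (XT.lf (nat_lit 0) (nat_lit 15133447502) (nat_lit 152) (nat_lit 17664721446) (nat_lit 0) (nat_lit 3573017503) (nat_lit 5) (nat_lit 5) (nat_lit 7) (nat_lit 4) (nat_lit 5) (nat_lit 4) (nat_lit 281) (nat_lit 231) (nat_lit 208))) (XT.nd (nat_lit 78) (nat_lit 76) (nat_lit 0) (XT.lf (nat_lit 0) (nat_lit 20056667318) (nat_lit 152) (nat_lit 10654099189) (nat_lit 0) (nat_lit 8320452748) (nat_lit 5) (nat_lit 5) (nat_lit 7) (nat_lit 4) (nat_lit 5) (nat_lit 4) (nat_lit 282) (nat_lit 231) (nat_lit 207)) (XT.nd (nat_lit 78) (nat_lit 76) (nat_lit 0) (XT.lf (nat_lit 0) (nat_lit 25285425710) (nat_lit 152) (nat_lit 3236749148) (nat_lit 0) (nat_lit 13386447648) (nat_lit 5) (nat_lit 5) (nat_lit 7) (nat_lit 4) (nat_lit 5) (nat_lit 4) (nat_lit 283) (nat_lit 231) (nat_lit 206)) (XT.lf (nat_lit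 0) (nat_lit 4784414487) (nat_lit 76) (nat_lit 26140991544) (nat_lit 76) (nat_lit 14091306546) (nat_lit 4) (nat_lit 4) (nat_lit 5) (nat_lit 5) (nat_lit 5) (nat_lit 4) (nat_lit 284) (nat_lit 231) (nat_lit 205))))))))
noncomputable def xc31 : XT := (XT.nd (nat_lit 1404) (nat_lit 76) (nat_lit 0) (XT.nd (nat_lit 702) (nat_lit 0) (nat_lit 0) (XT.nd (nat_lit 312) (nat_lit 152) (nat_lit 0) (XT.nd (nat_lit 156) (nat_lit 0) (nat_lit 0) (XT.nd (nat_lit 78) (nat_lit 0) (nat_lit 0) (XT.lf (nat_lit 0) (nat_lit 13426350740) (nat_lit 76) (nat_lit 23568765600) (nat_lit 76) (nat_lit 11379537141) (nat_lit 4) (nat_lit 4) (nat_lit 5) (nat_lit 5) (nat_lit 5) (nat_lit 4) (nat_lit 285) (nat_lit 231) (nat_lit 204)) (XT.lf (nat_lit 0) (nat_lit 22633249539) (nat_lit 76) (nat_lit 20845070118) (nat_lit 76) (nat_lit 8526634752) (nat_lit 4) (nat_lit 4) (nat_lit 5) (nat_lit 5) (nat_lit 5) (nat_lit 4) (nat_lit 286) (nat_lit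 231) (nat_lit 203))) (XT.nd (nat_lit 78) (nat_lit 0) (nat_lit 0) (XT.lf (nat_lit 0) (nat_lit 32459670284) (nat_lit 76) (nat_lit 17953764681) (nat_lit 76) (nat_lit 5515693290) (nat_lit 4) (nat_lit 4) (nat_lit 5) (nat_lit 5) (nat_lit 5) (nat_lit 4) (nat_lit 287) (nat_lit 231) (nat_lit 202)) (XT.lf (nat_lit 0) (nat_lit 42963843618) (nat_lit 76) (nat_lit 14877715628) (nat_lit 76) (nat_lit 2328870138) (nat_lit 4) (nat_lit 4) (nat_lit 5) (nat_lit 5) (nat_lit 5) (nat_lit 4) (nat_lit 288) (nat_lit 231) (nat_lit 201)))) (XT.nd (nat_lit 156) (nat_lit 76) (nat_lit 0) (XT.nd (nat_lit 78) (nat_lit 0) (nat_lit 0) (XT.lf (nat_lit 0) (nat_lit 1019025979) (nat_lit 152) (nat_lit 10562410841) (nat_lit 76) (nat_lit 53171732816) (nat_lit 3) (nat_lit 5) (nat_lit 5) (nat_lit 5) (nat_lit 4) (nat_lit 4) (nat_lit 289) (nat_lit 231) (nat_lit 200)) (XT.lf (nat_lit 0) (nat_lit 4500314204) (nat_lit 152) (nat_lit 3520740913)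 (nat_lit 76) (nat_lit 61682291842) (nat_lit 3) (nat_lit 5) (nat_lit 5) (nat_lit 5) (nat_lit 4) (nat_lit 4) (nat_lit 290) (nat_lit 231) (nat_lit 199))) (XT.nd (nat_lit 78) (nat_lit 0) (nat_lit 0) (XT.lf (nat_lit 0) (nat_lit 4128655375) (nat_lit 76) (nat_lit 4145967286) (nat_lit 152) (nat_lit 66774268092) (nat_lit 2) (nat_lit 5) (nat_lit 3) (nat_lit 5) (nat_lit 4) (nat_lit 4) (nat_lit 291) (nat_lit 231) (nat_lit 198)) (XT.nd (nat_lit 78) (nat_lit 0) (nat_lit 0) (XT.lf (nat_lit 0) (nat_lit 12365699351) (nat_lit 152) (nat_lit 68390718483) (nat_lit 0) (nat_lit 64991397) (nat_lit 2) (nat_lit 5) (nat_lit 4) (nat_lit 4) (nat_lit 2) (nat_lit 4) (nat_lit 292) (nat_lit 231) (nat_lit 197)) (XT.lf (nat_lit 0) (nat_lit 16809413566) (nat_lit 152) (nat_lit 65808210378) (nat_lit 0) (nat_lit 4436904670) (nat_lit 2) (nat_lit 5) (nat_lit 4) (nat_lit 4) (nat_lit 2) (nat_lit 4) (nat_lit 293) (nat_lit 231)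 (nat_lit 196)))))) (XT.nd (nat_lit 312) (nat_lit 0) (nat_lit 0) (XT.nd (nat_lit 156) (nat_lit 0) (nat_lit 0) (XT.nd (nat_lit 78) (nat_lit 0) (nat_lit 0) (XT.lf (nat_lit 0) (nat_lit 21567368259) (nat_lit 152) (nat_lit 63092677145) (nat_lit 0) (nat_lit 9128377009) (nat_lit 2) (nat_lit 5) (nat_lit 4) (nat_lit 4) (nat_lit 2) (nat_lit 4) (nat_lit 294) (nat_lit 231) (nat_lit 195)) (XT.lf (nat_lit 0) (nat_lit 26667758718) (nat_lit 152) (nat_lit 60228026734) (nat_lit 0) (nat_lit 14167209733) (nat_lit 2) (nat_lit 5) (nat_lit 4) (nat_lit 4) (nat_lit 2) (nat_lit 4) (nat_lit 295) (nat_lit 231) (nat_lit 194))) (XT.nd (nat_lit 78) (nat_lit 0) (nat_lit 0) (XT.lf (nat_lit 0) (nat_lit 32140809479) (nat_lit 152) (nat_lit 57197283440) (nat_lit 0) (nat_lit 19583262590) (nat_lit 2) (nat_lit 5) (nat_lit 4) (nat_lit 4) (nat_lit 2) (nat_lit 4) (nat_lit 296) (nat_lit 231) (nat_lit 193)) (XT.lf (nat_lit 0) (nat_lit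 38018953435) (nat_lit 152) (nat_lit 53982487303) (nat_lit 0) (nat_lit 25408630710) (nat_lit 2) (nat_lit 5) (nat_lit 4) (nat_lit 4) (nat_lit 2) (nat_lit 4) (nat_lit 297) (nat_lit 231) (nat_lit 192)))) (XT.nd (nat_lit 156) (nat_lit 0) (nat_lit 0) (XT.nd (nat_lit 78) (nat_lit 0) (nat_lit 0) (XT.lf (nat_lit 0) (nat_lit 44337024031) (nat_lit 152) (nat_lit 50564587678) (nat_lit 0) (nat_lit 31677834792) (nat_lit 2) (nat_lit 5) (nat_lit 4) (nat_lit 4) (nat_lit 2) (nat_lit 4) (nat_lit 298) (nat_lit 231) (nat_lit 191)) (XT.lf (nat_lit 0) (nat_lit 51132461687) (nat_lit 152) (nat_lit 46923330345) (nat_lit 0) (nat_lit 38428025675) (nat_lit 2) (nat_lit 5) (nat_lit 4) (nat_lit 4) (nat_lit 2) (nat_lit 4) (nat_lit 299) (nat_lit 231) (nat_lit 190))) (XT.nd (nat_lit 78) (nat_lit 0) (nat_lit 0) (XT.lf (nat_lit 0) (nat_lit 58445535663) (nat_lit 152) (nat_lit 43037137484) (nat_lit 0) (nat_lit 45699204490)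 (nat_lit 2) (nat_lit 5) (nat_lit 4) (nat_lit 4) (nat_lit 2) (nat_lit 4) (nat_lit 300) (nat_lit 231) (nat_lit 189)) (XT.nd (nat_lit 78) (nat_lit 0) (nat_lit 0) (XT.lf (nat_lit 0) (nat_lit 66319582692) (nat_lit 152) (nat_lit 38882979803) (nat_lit 0) (nat_lit 53534459704) (nat_lit 2) (nat_lit 5) (nat_lit 4) (nat_lit 4) (nat_lit 2) (nat_lit 4) (nat_lit 301) (nat_lit 231) (nat_lit 188)) (XT.lf (nat_lit 0) (nat_lit 74801263795) (nat_lit 152) (nat_lit 34436240072) (nat_lit 0) (nat_lit 61980222459) (nat_lit 2) (nat_lit 5) (nat_lit 4) (nat_lit 4) (nat_lit 2) (nat_lit 4) (nat_lit 302) (nat_lit 231) (nat_lit 187))))))) (XT.nd (nat_lit 702) (nat_lit 0) (nat_lit 0) (XT.nd (nat_lit 312) (nat_lit 76) (nat_lit 0) (XT.nd (nat_lit 156) (nat_lit 0) (nat_lit 0) (XT.nd (nat_lit 78) (nat_lit 0) (nat_lit 0) (XT.lf (nat_lit 0) (nat_lit 83940840785) (nat_lit 152) (nat_lit 29670567241) (nat_lit 0) (nat_lit 71086541720)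 (nat_lit 2) (nat_lit 5) (nat_lit 4) (nat_lit 4) (nat_lit 2) (nat_lit 4) (nat_lit 303) (nat_lit 231) (nat_lit 186)) (XT.lf (nat_lit 0) (nat_lit 93792474118) (nat_lit 152) (nat_lit 24557720284) (nat_lit 0) (nat_lit 80907380861) (nat_lit 2) (nat_lit 5) (nat_lit 4) (nat_lit 4) (nat_lit 2) (nat_lit 4) (nat_lit 304) (nat_lit 231) (nat_lit 185))) (XT.nd (nat_lit 78) (nat_lit 0) (nat_lit 0) (XT.lf (nat_lit 0) (nat_lit 104414543845) (nat_lit 152) (nat_lit 19067400850) (nat_lit 0) (nat_lit 91500937445) (nat_lit 2) (nat_lit 5) (nat_lit 4) (nat_lit 4) (nat_lit 2) (nat_lit 4) (nat_lit 305) (nat_lit 231) (nat_lit 184)) (XT.lf (nat_lit 0) (nat_lit 115869995563) (nat_lit 152) (nat_lit 13167073713) (nat_lit 0) (nat_lit 102929988106) (nat_lit 2) (nat_lit 5) (nat_lit 4) (nat_lit 4) (nat_lit 2) (nat_lit 4) (nat_lit 306) (nat_lit 231) (nat_lit 183)))) (XT.nd (nat_lit 156) (nat_lit 0) (nat_lit 0) (XT.nd (nat_lit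 78) (nat_lit 76) (nat_lit 0) (XT.lf (nat_lit 0) (nat_lit 128226713431) (nat_lit 152) (nat_lit 6821773971) (nat_lit 0) (nat_lit 115262260550) (nat_lit 2) (nat_lit 5) (nat_lit 4) (nat_lit 4) (nat_lit 2) (nat_lit 4) (nat_lit 307) (nat_lit 231) (nat_lit 182)) (XT.lf (nat_lit 0) (nat_lit 6301850) (nat_lit 76) (nat_lit 141551718982) (nat_lit 76) (nat_lit 128564631450) (nat_lit 1) (nat_lit 4) (nat_lit 2) (nat_lit 5) (nat_lit 2) (nat_lit 4) (nat_lit 308) (nat_lit 231) (nat_lit 181))) (XT.nd (nat_lit 78) (nat_lit 0) (nat_lit 0) (XT.lf (nat_lit 0) (nat_lit 7600266113) (nat_lit 76) (nat_lit 148461017698) (nat_lit 76) (nat_lit 135452972155) (nat_lit 1) (nat_lit 4) (nat_lit 2) (nat_lit 5) (nat_lit 2) (nat_lit 4) (nat_lit 309) (nat_lit 231) (nat_lit 180)) (XT.nd (nat_lit 78) (nat_lit 0) (nat_lit 0) (XT.lf (nat_lit 0) (nat_lit 15779561430) (nat_lit 76) (nat_lit 155932857585) (nat_lit 76) (nat_lit 142905406476)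 (nat_lit 1) (nat_lit 4) (nat_lit 2) (nat_lit 5) (nat_lit 2) (nat_lit 4) (nat_lit 310) (nat_lit 231) (nat_lit 179)) (XT.lf (nat_lit 0) (nat_lit 24592657700) (nat_lit 76) (nat_lit 164011516212) (nat_lit 76) (nat_lit 150966096988) (nat_lit 1) (nat_lit 4) (nat_lit 2) (nat_lit 5) (nat_lit 2) (nat_lit 4) (nat_lit 311) (nat_lit 231) (nat_lit 178)))))) (XT.nd (nat_lit 390) (nat_lit 0) (nat_lit 0) (XT.nd (nat_lit 156) (nat_lit 0) (nat_lit 0) (XT.nd (nat_lit 78) (nat_lit 0) (nat_lit 0) (XT.lf (nat_lit 0) (nat_lit 34091780679) (nat_lit 76) (nat_lit 172744867113) (nat_lit 76) (nat_lit 159682810744) (nat_lit 1) (nat_lit 4) (nat_lit 2) (nat_lit 5) (nat_lit 2) (nat_lit 4) (nat_lit 312) (nat_lit 231) (nat_lit 177)) (XT.lf (nat_lit 0) (nat_lit 44333221466) (nat_lit 76) (nat_lit 182184663478) (nat_lit 76) (nat_lit 169107202346) (nat_lit 1) (nat_lit 4) (nat_lit 2) (nat_lit 5) (nat_lit 2) (nat_lit 4) (nat_lit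 313) (nat_lit 231) (nat_lit 176))) (XT.nd (nat_lit 78) (nat_lit 0) (nat_lit 0) (XT.lf (nat_lit 0) (nat_lit 55377670080) (nat_lit 76) (nat_lit 192386844841) (nat_lit 76) (nat_lit 179295120039) (nat_lit 1) (nat_lit 4) (nat_lit 2) (nat_lit 5) (nat_lit 2) (nat_lit 4) (nat_lit 314) (nat_lit 231) (nat_lit 175)) (XT.nd (nat_lit 78) (nat_lit 0) (nat_lit 0) (XT.lf (nat_lit 0) (nat_lit 67290575106) (nat_lit 76) (nat_lit 203411868573) (nat_lit 76) (nat_lit 190306936669) (nat_lit 1) (nat_lit 4) (nat_lit 2) (nat_lit 5) (nat_lit 2) (nat_lit 4) (nat_lit 315) (nat_lit 231) (nat_lit 174)) (XT.lf (nat_lit 0) (nat_lit 80142531536) (nat_lit 76) (nat_lit 215325068148) (nat_lit 76) (nat_lit 202207907446) (nat_lit 1) (nat_lit 4) (nat_lit 2) (nat_lit 5) (nat_lit 2) (nat_lit 4) (nat_lit 316) (nat_lit 231) (nat_lit 173))))) (XT.nd (nat_lit 156) (nat_lit 0) (nat_lit 0) (XT.nd (nat_lit 78) (nat_lit 0) (nat_lit 0)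 (XT.lf (nat_lit 0) (nat_lit 94009699112) (nat_lit 76) (nat_lit 228197040304) (nat_lit 76) (nat_lit 215068556641) (nat_lit 1) (nat_lit 4) (nat_lit 2) (nat_lit 5) (nat_lit 2) (nat_lit 4) (nat_lit 317) (nat_lit 231) (nat_lit 172)) (XT.lf (nat_lit 0) (nat_lit 108974253642) (nat_lit 76) (nat_lit 242104063395) (nat_lit 76) (nat_lit 228965095509) (nat_lit 1) (nat_lit 4) (nat_lit 2) (nat_lit 5) (nat_lit 2) (nat_lit 4) (nat_lit 318) (nat_lit 231) (nat_lit 171))) (XT.nd (nat_lit 78) (nat_lit 0) (nat_lit 0) (XT.lf (nat_lit 0) (nat_lit 125124873968) (nat_lit 76) (nat_lit 257128549410) (nat_lit 76) (nat_lit 243979873909) (nat_lit 1) (nat_lit 4) (nat_lit 2) (nat_lit 5) (nat_lit 2) (nat_lit 4) (nat_lit 319) (nat_lit 231) (nat_lit 170)) (XT.nd (nat_lit 78) (nat_lit 0) (nat_lit 0) (XT.lf (nat_lit 0) (nat_lit 142557267469) (nat_lit 76) (nat_lit 273359532339) (nat_lit 76) (nat_lit 260201868307) (nat_lit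 1) (nat_lit 4) (nat_lit 2) (nat_lit 5) (nat_lit 2) (nat_lit 4) (nat_lit 320) (nat_lit 231) (nat_lit 169)) (XT.lf (nat_lit 0) (nat_lit 161374737219) (nat_lit 76) (nat_lit 290893195785) (nat_lit 76) (nat_lit 277727209038) (nat_lit 1) (nat_lit 4) (nat_lit 2) (nat_lit 5) (nat_lit 2) (nat_lit 4) (nat_lit 321) (nat_lit 231) (nat_lit 168))))))))
noncomputable def xc32 : XT := (XT.nd (nat_lit 33618) (nat_lit 0) (nat_lit 228) (XT.nd (nat_lit 32916) (nat_lit 0) (nat_lit 836) (XT.nd (nat_lit 32526) (nat_lit 0) (nat_lit 1596) (XT.nd (nat_lit 32370) (nat_lit 0) (nat_lit 2584) (XT.nd (nat_lit 78) (nat_lit 0) (nat_lit 0) (XT.lf (nat_lit 0) (nat_lit 181688794148) (nat_lit 76) (nat_lit 309833442939) (nat_lit 76) (nat_lit 296659749975) (nat_lit 1) (nat_lit 4) (nat_lit 2) (nat_lit 5) (nat_lit 2) (nat_lit 4) (nat_lit 322) (nat_lit 231) (nat_lit 167)) (XT.lf (nat_lit 0) (nat_lit 203619817854) (nat_lit 76)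 (nat_lit 330292512302) (nat_lit 76) (nat_lit 317111683953) (nat_lit 1) (nat_lit 4) (nat_lit 2) (nat_lit 5) (nat_lit 2) (nat_lit 4) (nat_lit 323) (nat_lit 231) (nat_lit 166))) (XT.nd (nat_lit 78) (nat_lit 228) (nat_lit 0) (XT.lf (nat_lit 0) (nat_lit 359227210) (nat_lit 304) (nat_lit 3644892732) (nat_lit 0) (nat_lit 359227210) (nat_lit 38) (nat_lit 5) (nat_lit 42) (nat_lit 4) (nat_lit 38) (nat_lit 4) (nat_lit 256) (nat_lit 232) (nat_lit 232)) (XT.lf (nat_lit 0) (nat_lit 1007644159) (nat_lit 228) (nat_lit 4810526411) (nat_lit 228) (nat_lit 3242057268) (nat_lit 35) (nat_lit 4) (nat_lit 38) (nat_lit 5) (nat_lit 38) (nat_lit 4) (nat_lit 257) (nat_lit 232) (nat_lit 231)))) (XT.nd (nat_lit 156) (nat_lit 684) (nat_lit 0) (XT.nd (nat_lit 78) (nat_lit 0) (nat_lit 0) (XT.lf (nat_lit 0) (nat_lit 335734443) (nat_lit 228) (nat_lit 1301577668) (nat_lit 304) (nat_lit 7793291198) (nat_lit 31) (nat_lit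 5) (nat_lit 34) (nat_lit 5) (nat_lit 35) (nat_lit 4) (nat_lit 258) (nat_lit 232) (nat_lit 230)) (XT.lf (nat_lit 0) (nat_lit 6651596560) (nat_lit 304) (nat_lit 690631274) (nat_lit 0) (nat_lit 2494010968) (nat_lit 31) (nat_lit 5) (nat_lit 35) (nat_lit 4) (nat_lit 31) (nat_lit 4) (nat_lit 259) (nat_lit 232) (nat_lit 229))) (XT.nd (nat_lit 78) (nat_lit 380) (nat_lit 0) (XT.lf (nat_lit 0) (nat_lit 1581126418) (nat_lit 304) (nat_lit 2102087266) (nat_lit 76) (nat_lit 6598475502) (nat_lit 27) (nat_lit 5) (nat_lit 31) (nat_lit 5) (nat_lit 28) (nat_lit 4) (nat_lit 260) (nat_lit 232) (nat_lit 228)) (XT.nd (nat_lit 78) (nat_lit 228) (nat_lit 0) (XT.lf (nat_lit 0) (nat_lit 6450747860) (nat_lit 228) (nat_lit 4002574494) (nat_lit 0) (nat_lit 316110319) (nat_lit 25) (nat_lit 5) (nat_lit 28) (nat_lit 4) (nat_lit 25) (nat_lit 4) (nat_lit 261) (nat_lit 232) (nat_lit 227)) (XT.lf (nat_lit 0) (nat_lit 295459428)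 (nat_lit 228) (nat_lit 6497175866) (nat_lit 76) (nat_lit 4509349859) (nat_lit 22) (nat_lit 5) (nat_lit 25) (nat_lit 5) (nat_lit 23) (nat_lit 4) (nat_lit 262) (nat_lit 232) (nat_lit 226)))))) (XT.nd (nat_lit 312) (nat_lit 304) (nat_lit 0) (XT.nd (nat_lit 156) (nat_lit 304) (nat_lit 0) (XT.nd (nat_lit 78) (nat_lit 0) (nat_lit 0) (XT.lf (nat_lit 0) (nat_lit 2182568861) (nat_lit 152) (nat_lit 2784234044) (nat_lit 228) (nat_lit 6915627035) (nat_lit 20) (nat_lit 5) (nat_lit 22) (nat_lit 5) (nat_lit 23) (nat_lit 4) (nat_lit 263) (nat_lit 232) (nat_lit 225)) (XT.lf (nat_lit 0) (nat_lit 9895268461) (nat_lit 228) (nat_lit 1134367370) (nat_lit 0) (nat_lit 1486241420) (nat_lit 20) (nat_lit 5) (nat_lit 23) (nat_lit 4) (nat_lit 20) (nat_lit 4) (nat_lit 264) (nat_lit 232) (nat_lit 224))) (XT.nd (nat_lit 78) (nat_lit 76) (nat_lit 0) (XT.lf (nat_lit 0) (nat_lit 1886116035) (nat_lit 228) (nat_lit 5274500893)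 (nat_lit 76) (nat_lit 6041823879) (nat_lit 17) (nat_lit 5) (nat_lit 20) (nat_lit 5) (nat_lit 18) (nat_lit 4) (nat_lit 265) (nat_lit 232) (nat_lit 223)) (XT.lf (nat_lit 0) (nat_lit 3524446433) (nat_lit 76) (nat_lit 2984467632) (nat_lit 152) (nat_lit 7441102231) (nat_lit 16) (nat_lit 5) (nat_lit 17) (nat_lit 5) (nat_lit 18) (nat_lit 4) (nat_lit 266) (nat_lit 232) (nat_lit 222)))) (XT.nd (nat_lit 156) (nat_lit 76) (nat_lit 0) (XT.nd (nat_lit 78) (nat_lit 228) (nat_lit 0) (XT.lf (nat_lit 0) (nat_lit 11399456123) (nat_lit 152) (nat_lit 1913108670) (nat_lit 0) (nat_lit 1450494722) (nat_lit 16) (nat_lit 5) (nat_lit 18) (nat_lit 4) (nat_lit 16) (nat_lit 4) (nat_lit 267) (nat_lit 232) (nat_lit 221)) (XT.lf (nat_lit 0) (nat_lit 964285965) (nat_lit 228) (nat_lit 8525598513) (nat_lit 76) (nat_lit 6153067568) (nat_lit 13) (nat_lit 5) (nat_lit 16) (nat_lit 5) (nat_lit 14) (nat_lit 4) (nat_lit 268)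 (nat_lit 232) (nat_lit 220))) (XT.nd (nat_lit 78) (nat_lit 76) (nat_lit 0) (XT.lf (nat_lit 0) (nat_lit 5359533709) (nat_lit 228) (nat_lit 27769658) (nat_lit 76) (nat_lit 11211682355) (nat_lit 13) (nat_lit 5) (nat_lit 16) (nat_lit 5) (nat_lit 14) (nat_lit 4) (nat_lit 269) (nat_lit 232) (nat_lit 219)) (XT.nd (nat_lit 78) (nat_lit 0) (nat_lit 0) (XT.lf (nat_lit 0) (nat_lit 9148714148) (nat_lit 76) (nat_lit 918602547) (nat_lit 152) (nat_lit 7566561265) (nat_lit 12) (nat_lit 5) (nat_lit 13) (nat_lit 5) (nat_lit 14) (nat_lit 4) (nat_lit 270) (nat_lit 232) (nat_lit 218)) (XT.lf (nat_lit 0) (nat_lit 15038693990) (nat_lit 152) (nat_lit 40796726) (nat_lit 0) (nat_lit 3678112685) (nat_lit 12) (nat_lit 5) (nat_lit 14) (nat_lit 4) (nat_lit 12) (nat_lit 4) (nat_lit 271) (nat_lit 232) (nat_lit 217))))))) (XT.nd (nat_lit 702) (nat_lit 76) (nat_lit 0) (XT.nd (nat_lit 312) (nat_lit 228) (nat_lit 0) (XT.nd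 (nat_lit 156) (nat_lit 76) (nat_lit 0) (XT.nd (nat_lit 78) (nat_lit 0) (nat_lit 0) (XT.lf (nat_lit 0) (nat_lit 417929950) (nat_lit 228) (nat_lit 10891236979) (nat_lit 76) (nat_lit 8662296039) (nat_lit 9) (nat_lit 5) (nat_lit 12) (nat_lit 5) (nat_lit 10) (nat_lit 4) (nat_lit 272) (nat_lit 232) (nat_lit 216)) (XT.lf (nat_lit 0) (nat_lit 4601425663) (nat_lit 228) (nat_lit 2673785652) (nat_lit 76) (nat_lit 14012190389) (nat_lit 9) (nat_lit 5) (nat_lit 12) (nat_lit 5) (nat_lit 10) (nat_lit 4) (nat_lit 273) (nat_lit 232) (nat_lit 215))) (XT.nd (nat_lit 78) (nat_lit 0) (nat_lit 0) (XT.lf (nat_lit 0) (nat_lit 6156384162) (nat_lit 76) (nat_lit 2914462585) (nat_lit 152) (nat_lit 13640501664) (nat_lit 8) (nat_lit 5) (nat_lit 9) (nat_lit 5) (nat_lit 10) (nat_lit 4) (nat_lit 274) (nat_lit 232) (nat_lit 214)) (XT.lf (nat_lit 0) (nat_lit 13833977393) (nat_lit 152) (nat_lit 8724142396) (nat_lit 0) (nat_lit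 1694556568) (nat_lit 8) (nat_lit 5) (nat_lit 10) (nat_lit 4) (nat_lit 8) (nat_lit 4) (nat_lit 275) (nat_lit 232) (nat_lit 213)))) (XT.nd (nat_lit 156) (nat_lit 152) (nat_lit 0) (XT.nd (nat_lit 78) (nat_lit 76) (nat_lit 0) (XT.lf (nat_lit 0) (nat_lit 18898403002) (nat_lit 152) (nat_lit 535365653) (nat_lit 0) (nat_lit 6487782711) (nat_lit 8) (nat_lit 5) (nat_lit 10) (nat_lit 4) (nat_lit 8) (nat_lit 4) (nat_lit 276) (nat_lit 232) (nat_lit 212)) (XT.lf (nat_lit 0) (nat_lit 8373395955) (nat_lit 76) (nat_lit 16005968279) (nat_lit 76) (nat_lit 3344237370) (nat_lit 7) (nat_lit 4) (nat_lit 8) (nat_lit 5) (nat_lit 8) (nat_lit 4) (nat_lit 277) (nat_lit 232) (nat_lit 211))) (XT.nd (nat_lit 78) (nat_lit 76) (nat_lit 0) (XT.lf (nat_lit 0) (nat_lit 502718995) (nat_lit 152) (nat_lit 11863666797) (nat_lit 76) (nat_lit 17308452478) (nat_lit 6) (nat_lit 5) (nat_lit 8) (nat_lit 5) (nat_lit 7) (nat_lit 4)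 (nat_lit 278) (nat_lit 232) (nat_lit 210)) (XT.nd (nat_lit 78) (nat_lit 76) (nat_lit 0) (XT.lf (nat_lit 0) (nat_lit 4434781901) (nat_lit 152) (nat_lit 4018224720) (nat_lit 76) (nat_lit 23331891594) (nat_lit 6) (nat_lit 5) (nat_lit 8) (nat_lit 5) (nat_lit 7) (nat_lit 4) (nat_lit 279) (nat_lit 232) (nat_lit 209)) (XT.lf (nat_lit 0) (nat_lit 4426500672) (nat_lit 76) (nat_lit 4224898349) (nat_lit 152) (nat_lit 25414041619) (nat_lit 5) (nat_lit 5) (nat_lit 6) (nat_lit 5) (nat_lit 7) (nat_lit 4) (nat_lit 280) (nat_lit 232) (nat_lit 208)))))) (XT.nd (nat_lit 312) (nat_lit 76) (nat_lit 0) (XT.nd (nat_lit 156) (nat_lit 0) (nat_lit 0) (XT.nd (nat_lit 78) (nat_lit 0) (nat_lit 0) (XT.lf (nat_lit 0) (nat_lit 13186434447) (nat_lit 152) (nat_lit 23007563447) (nat_lit 0) (nat_lit 335538140) (nat_lit 5) (nat_lit 5) (nat_lit 7) (nat_lit 4) (nat_lit 5) (nat_lit 4) (nat_lit 281) (nat_lit 232) (nat_lit 207))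 (XT.lf (nat_lit 0) (nat_lit 18067193201) (nat_lit 152) (nat_lit 16071038304) (nat_lit 0) (nat_lit 5053533402) (nat_lit 5) (nat_lit 5) (nat_lit 7) (nat_lit 4) (nat_lit 5) (nat_lit 4) (nat_lit 282) (nat_lit 232) (nat_lit 206))) (XT.nd (nat_lit 78) (nat_lit 0) (nat_lit 0) (XT.lf (nat_lit 0) (nat_lit 23256635795) (nat_lit 152) (nat_lit 8722296701) (nat_lit 0) (nat_lit 10092269059) (nat_lit 5) (nat_lit 5) (nat_lit 7) (nat_lit 4) (nat_lit 5) (nat_lit 4) (nat_lit 283) (nat_lit 232) (nat_lit 205)) (XT.lf (nat_lit 0) (nat_lit 28785514481) (nat_lit 152) (nat_lit 917790540) (nat_lit 0) (nat_lit 15481604285) (nat_lit 5) (nat_lit 5) (nat_lit 7) (nat_lit 4) (nat_lit 5) (nat_lit 4) (nat_lit 284) (nat_lit 232) (nat_lit 204)))) (XT.nd (nat_lit 156) (nat_lit 0) (nat_lit 0) (XT.nd (nat_lit 78) (nat_lit 0) (nat_lit 0) (XT.lf (nat_lit 0) (nat_lit 7633033857) (nat_lit 76) (nat_lit 27172732178) (nat_lit 76)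 (nat_lit 13739615075) (nat_lit 4) (nat_lit 4) (nat_lit 5) (nat_lit 5) (nat_lit 5) (nat_lit 4) (nat_lit 285) (nat_lit 232) (nat_lit 203)) (XT.lf (nat_lit 0) (nat_lit 16783668254) (nat_lit 76) (nat_lit 24473212506) (nat_lit 76) (nat_lit 10920459377) (nat_lit 4) (nat_lit 4) (nat_lit 5) (nat_lit 5) (nat_lit 5) (nat_lit 4) (nat_lit 286) (nat_lit 232) (nat_lit 202))) (XT.nd (nat_lit 78) (nat_lit 0) (nat_lit 0) (XT.lf (nat_lit 0) (nat_lit 26557992330) (nat_lit 76) (nat_lit 21604292077) (nat_lit 76) (nat_lit 7940764851) (nat_lit 4) (nat_lit 4) (nat_lit 5) (nat_lit 5) (nat_lit 5) (nat_lit 4) (nat_lit 287) (nat_lit 232) (nat_lit 201)) (XT.nd (nat_lit 78) (nat_lit 0) (nat_lit 0) (XT.lf (nat_lit 0) (nat_lit 37013928008) (nat_lit 76) (nat_lit 18548969883) (nat_lit 76) (nat_lit 4782874048) (nat_lit 4) (nat_lit 4) (nat_lit 5) (nat_lit 5) (nat_lit 5) (nat_lit 4) (nat_lit 288) (nat_lit 232) (nat_lit 200))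 (XT.lf (nat_lit 0) (nat_lit 48213436386) (nat_lit 76) (nat_lit 15289140310) (nat_lit 76) (nat_lit 1428073541) (nat_lit 4) (nat_lit 4) (nat_lit 5) (nat_lit 5) (nat_lit 5) (nat_lit 4) (nat_lit 289) (nat_lit 232) (nat_lit 199))))))))
noncomputable def xc33 : XT := (XT.nd (nat_lit 1404) (nat_lit 76) (nat_lit 0) (XT.nd (nat_lit 702) (nat_lit 0) (nat_lit 0) (XT.nd (nat_lit 312) (nat_lit 0) (nat_lit 0) (XT.nd (nat_lit 156) (nat_lit 76) (nat_lit 0) (XT.nd (nat_lit 78) (nat_lit 0) (nat_lit 0) (XT.lf (nat_lit 0) (nat_lit 2074911039) (nat_lit 152) (nat_lit 9695435189) (nat_lit 76) (nat_lit 58112834260) (nat_lit 3) (nat_lit 5) (nat_lit 5) (nat_lit 5) (nat_lit 4) (nat_lit 4) (nat_lit 290) (nat_lit 232) (nat_lit 198)) (XT.lf (nat_lit 0) (nat_lit 5762527286) (nat_lit 152) (nat_lit 2217244150) (nat_lit 76) (nat_lit 67253322244) (nat_lit 3) (nat_lit 5) (nat_lit 5) (nat_lit 5) (nat_lit 4) (nat_lit 4) (nat_lit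 291) (nat_lit 232) (nat_lit 197))) (XT.nd (nat_lit 78) (nat_lit 0) (nat_lit 0) (XT.lf (nat_lit 0) (nat_lit 5975214892) (nat_lit 76) (nat_lit 3820409970) (nat_lit 152) (nat_lit 71212918460) (nat_lit 2) (nat_lit 5) (nat_lit 3) (nat_lit 5) (nat_lit 4) (nat_lit 4) (nat_lit 292) (nat_lit 232) (nat_lit 196)) (XT.lf (nat_lit 0) (nat_lit 14159856839) (nat_lit 152) (nat_lit 72426545866) (nat_lit 0) (nat_lit 659263935) (nat_lit 2) (nat_lit 5) (nat_lit 4) (nat_lit 4) (nat_lit 2) (nat_lit 4) (nat_lit 293) (nat_lit 232) (nat_lit 195)))) (XT.nd (nat_lit 156) (nat_lit 0) (nat_lit 0) (XT.nd (nat_lit 78) (nat_lit 0) (nat_lit 0) (XT.lf (nat_lit 0) (nat_lit 18899445855) (nat_lit 152) (nat_lit 69743765268) (nat_lit 0) (nat_lit 5337295215) (nat_lit 2) (nat_lit 5) (nat_lit 4) (nat_lit 4) (nat_lit 2) (nat_lit 4) (nat_lit 294) (nat_lit 232) (nat_lit 194)) (XT.lf (nat_lit 0) (nat_lit 23982831057) (nat_lit 152)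 (nat_lit 66909441372) (nat_lit 0) (nat_lit 10363682514) (nat_lit 2) (nat_lit 5) (nat_lit 4) (nat_lit 4) (nat_lit 2) (nat_lit 4) (nat_lit 295) (nat_lit 232) (nat_lit 193))) (XT.nd (nat_lit 78) (nat_lit 0) (nat_lit 0) (XT.lf (nat_lit 0) (nat_lit 29440136209) (nat_lit 152) (nat_lit 63906778183) (nat_lit 0) (nat_lit 15768211830) (nat_lit 2) (nat_lit 5) (nat_lit 4) (nat_lit 4) (nat_lit 2) (nat_lit 4) (nat_lit 296) (nat_lit 232) (nat_lit 192)) (XT.nd (nat_lit 78) (nat_lit 0) (nat_lit 0) (XT.lf (nat_lit 0) (nat_lit 35303700898) (nat_lit 152) (nat_lit 60717982144) (nat_lit 0) (nat_lit 21582910004) (nat_lit 2) (nat_lit 5) (nat_lit 4) (nat_lit 4) (nat_lit 2) (nat_lit 4) (nat_lit 297) (nat_lit 232) (nat_lit 191)) (XT.lf (nat_lit 0) (nat_lit 41608272173) (nat_lit 152) (nat_lit 57324156683) (nat_lit 0) (nat_lit 27842234506) (nat_lit 2) (nat_lit 5) (nat_lit 4) (nat_lit 4) (nat_lit 2) (nat_lit 4) (nat_lit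 298) (nat_lit 232) (nat_lit 190)))))) (XT.nd (nat_lit 312) (nat_lit 0) (nat_lit 0) (XT.nd (nat_lit 156) (nat_lit 0) (nat_lit 0) (XT.nd (nat_lit 78) (nat_lit 0) (nat_lit 0) (XT.lf (nat_lit 0) (nat_lit 48391210457) (nat_lit 152) (nat_lit 53705190244) (nat_lit 0) (nat_lit 34583277630) (nat_lit 2) (nat_lit 5) (nat_lit 4) (nat_lit 4) (nat_lit 2) (nat_lit 4) (nat_lit 299) (nat_lit 232) (nat_lit 189)) (XT.lf (nat_lit 0) (nat_lit 55692710940) (nat_lit 152) (nat_lit 49839637099) (nat_lit 0) (nat_lit 41845986298) (nat_lit 2) (nat_lit 5) (nat_lit 4) (nat_lit 4) (nat_lit 2) (nat_lit 4) (nat_lit 300) (nat_lit 232) (nat_lit 188))) (XT.nd (nat_lit 78) (nat_lit 0) (nat_lit 0) (XT.lf (nat_lit 0) (nat_lit 63556041773) (nat_lit 152) (nat_lit 45704590267) (nat_lit 0) (nat_lit 49673398784) (nat_lit 2) (nat_lit 5) (nat_lit 4) (nat_lit 4) (nat_lit 2) (nat_lit 4) (nat_lit 301) (nat_lit 232) (nat_lit 187)) (XT.lf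 (nat_lit 0) (nat_lit 72027800471) (nat_lit 152) (nat_lit 41275545765) (nat_lit 0) (nat_lit 58111899753) (nat_lit 2) (nat_lit 5) (nat_lit 4) (nat_lit 4) (nat_lit 2) (nat_lit 4) (nat_lit 302) (nat_lit 232) (nat_lit 186)))) (XT.nd (nat_lit 156) (nat_lit 0) (nat_lit 0) (XT.nd (nat_lit 78) (nat_lit 0) (nat_lit 0) (XT.lf (nat_lit 0) (nat_lit 81158190050) (nat_lit 152) (nat_lit 36526257405) (nat_lit 0) (nat_lit 67211495138) (nat_lit 2) (nat_lit 5) (nat_lit 4) (nat_lit 4) (nat_lit 2) (nat_lit 4) (nat_lit 303) (nat_lit 232) (nat_lit 185)) (XT.lf (nat_lit 0) (nat_lit 91001316521) (nat_lit 152) (nat_lit 31428581256) (nat_lit 0) (nat_lit 77026108468) (nat_lit 2) (nat_lit 5) (nat_lit 4) (nat_lit 4) (nat_lit 2) (nat_lit 4) (nat_lit 304) (nat_lit 232) (nat_lit 184))) (XT.nd (nat_lit 78) (nat_lit 0) (nat_lit 0) (XT.lf (nat_lit 0) (nat_lit 101615509524) (nat_lit 152) (nat_lit 25952308866) (nat_lit 0)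 (nat_lit 87613900412) (nat_lit 2) (nat_lit 5) (nat_lit 4) (nat_lit 4) (nat_lit 2) (nat_lit 4) (nat_lit 305) (nat_lit 232) (nat_lit 183)) (XT.nd (nat_lit 78) (nat_lit 0) (nat_lit 0) (XT.lf (nat_lit 0) (nat_lit 113063667979) (nat_lit 152) (nat_lit 20064988251) (nat_lit 0) (nat_lit 99037613444) (nat_lit 2) (nat_lit 5) (nat_lit 4) (nat_lit 4) (nat_lit 2) (nat_lit 4) (nat_lit 306) (nat_lit 232) (nat_lit 182)) (XT.lf (nat_lit 0) (nat_lit 125413632825) (nat_lit 152) (nat_lit 13731731585) (nat_lit 0) (nat_lit 111364943638) (nat_lit 2) (nat_lit 5) (nat_lit 4) (nat_lit 4) (nat_lit 2) (nat_lit 4) (nat_lit 307) (nat_lit 232) (nat_lit 181))))))) (XT.nd (nat_lit 702) (nat_lit 0) (nat_lit 0) (XT.nd (nat_lit 312) (nat_lit 0) (nat_lit 0) (XT.nd (nat_lit 156) (nat_lit 0) (nat_lit 0) (XT.nd (nat_lit 78) (nat_lit 76) (nat_lit 0) (XT.lf (nat_lit 0) (nat_lit 138738589039) (nat_lit 152) (nat_lit 6915008458)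 (nat_lit 0) (nat_lit 124668941842) (nat_lit 2) (nat_lit 5) (nat_lit 4) (nat_lit 4) (nat_lit 2) (nat_lit 4) (nat_lit 308) (nat_lit 232) (nat_lit 180)) (XT.lf (nat_lit 0) (nat_lit 439648007) (nat_lit 76) (nat_lit 152684715456) (nat_lit 76) (nat_lit 138595662693) (nat_lit 1) (nat_lit 4) (nat_lit 2) (nat_lit 5) (nat_lit 2) (nat_lit 4) (nat_lit 309) (nat_lit 232) (nat_lit 179))) (XT.nd (nat_lit 78) (nat_lit 0) (nat_lit 0) (XT.lf (nat_lit 0) (nat_lit 8609067040) (nat_lit 76) (nat_lit 160160916664) (nat_lit 76) (nat_lit 146053895786) (nat_lit 1) (nat_lit 4) (nat_lit 2) (nat_lit 5) (nat_lit 2) (nat_lit 4) (nat_lit 310) (nat_lit 232) (nat_lit 178)) (XT.lf (nat_lit 0) (nat_lit 17413018602) (nat_lit 76) (nat_lit 168243613553) (nat_lit 76) (nat_lit 154119955530) (nat_lit 1) (nat_lit 4) (nat_lit 2) (nat_lit 5) (nat_lit 2) (nat_lit 4) (nat_lit 311) (nat_lit 232) (nat_lit 177)))) (XT.nd (nat_lit 156)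 (nat_lit 0) (nat_lit 0) (XT.nd (nat_lit 78) (nat_lit 0) (nat_lit 0) (XT.lf (nat_lit 0) (nat_lit 26903674259) (nat_lit 76) (nat_lit 176980703585) (nat_lit 76) (nat_lit 162841640798) (nat_lit 1) (nat_lit 4) (nat_lit 2) (nat_lit 5) (nat_lit 2) (nat_lit 4) (nat_lit 312) (nat_lit 232) (nat_lit 176)) (XT.lf (nat_lit 0) (nat_lit 37137274932) (nat_lit 76) (nat_lit 186423962108) (nat_lit 76) (nat_lit 172270635651) (nat_lit 1) (nat_lit 4) (nat_lit 2) (nat_lit 5) (nat_lit 2) (nat_lit 4) (nat_lit 313) (nat_lit 232) (nat_lit 175))) (XT.nd (nat_lit 78) (nat_lit 0) (nat_lit 0) (XT.lf (nat_lit 0) (nat_lit 48174464182) (nat_lit 76) (nat_lit 196629349173) (nat_lit 76) (nat_lit 182462815614) (nat_lit 1) (nat_lit 4) (nat_lit 2) (nat_lit 5) (nat_lit 2) (nat_lit 4) (nat_lit 314) (nat_lit 232) (nat_lit 174)) (XT.nd (nat_lit 78) (nat_lit 0) (nat_lit 0) (XT.lf (nat_lit 0) (nat_lit 60080647574) (nat_lit 76) (nat_lit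 207657341147) (nat_lit 76) (nat_lit 193478578791) (nat_lit 1) (nat_lit 4) (nat_lit 2) (nat_lit 5) (nat_lit 2) (nat_lit 4) (nat_lit 315) (nat_lit 232) (nat_lit 173)) (XT.lf (nat_lit 0) (nat_lit 72926380269) (nat_lit 76) (nat_lit 219573289095) (nat_lit 76) (nat_lit 205383203778) (nat_lit 1) (nat_lit 4) (nat_lit 2) (nat_lit 5) (nat_lit 2) (nat_lit 4) (nat_lit 316) (nat_lit 232) (nat_lit 172)))))) (XT.nd (nat_lit 312) (nat_lit 0) (nat_lit 0) (XT.nd (nat_lit 156) (nat_lit 0) (nat_lit 0) (XT.nd (nat_lit 78) (nat_lit 0) (nat_lit 0) (XT.lf (nat_lit 0) (nat_lit 86787785128) (nat_lit 76) (nat_lit 232447806041) (nat_lit 76) (nat_lit 218247236500) (nat_lit 1) (nat_lit 4) (nat_lit 2) (nat_lit 5) (nat_lit 2) (nat_lit 4) (nat_lit 317) (nat_lit 232) (nat_lit 171)) (XT.lf (nat_lit 0) (nat_lit 101747003809) (nat_lit 76) (nat_lit 246357185418) (nat_lit 76) (nat_lit 232146908264) (nat_lit 1) (nat_lit 4)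 (nat_lit 2) (nat_lit 5) (nat_lit 2) (nat_lit 4) (nat_lit 318) (nat_lit 232) (nat_lit 170))) (XT.nd (nat_lit 78) (nat_lit 0) (nat_lit 0) (XT.lf (nat_lit 0) (nat_lit 117892683534) (nat_lit 76) (nat_lit 261383853179) (nat_lit 76) (nat_lit 247164587493) (nat_lit 1) (nat_lit 4) (nat_lit 2) (nat_lit 5) (nat_lit 2) (nat_lit 4) (nat_lit 319) (nat_lit 232) (nat_lit 169)) (XT.lf (nat_lit 0) (nat_lit 135320502404) (nat_lit 76) (nat_lit 277616856244) (nat_lit 76) (nat_lit 263389267844) (nat_lit 1) (nat_lit 4) (nat_lit 2) (nat_lit 5) (nat_lit 2) (nat_lit 4) (nat_lit 320) (nat_lit 232) (nat_lit 168)))) (XT.nd (nat_lit 156) (nat_lit 0) (nat_lit 0) (XT.nd (nat_lit 78) (nat_lit 0) (nat_lit 0) (XT.lf (nat_lit 0) (nat_lit 154133736384) (nat_lit 76) (nat_lit 295152390187) (nat_lit 76) (nat_lit 280917095569) (nat_lit 1) (nat_lit 4) (nat_lit 2) (nat_lit 5) (nat_lit 2) (nat_lit 4) (nat_lit 321) (nat_lit 232)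 (nat_lit 167)) (XT.lf (nat_lit 0) (nat_lit 174443871305) (nat_lit 76) (nat_lit 314094369282) (nat_lit 76) (nat_lit 299851939278) (nat_lit 1) (nat_lit 4) (nat_lit 2) (nat_lit 5) (nat_lit 2) (nat_lit 4) (nat_lit 322) (nat_lit 232) (nat_lit 166))) (XT.nd (nat_lit 32136) (nat_lit 0) (nat_lit 3116) (XT.lf (nat_lit 0) (nat_lit 196371263521) (nat_lit 76) (nat_lit 334555042295) (nat_lit 76) (nat_lit 320306005452) (nat_lit 1) (nat_lit 4) (nat_lit 2) (nat_lit 5) (nat_lit 2) (nat_lit 4) (nat_lit 323) (nat_lit 232) (nat_lit 165)) (XT.nd (nat_lit 78) (nat_lit 304) (nat_lit 0) (XT.lf (nat_lit 0) (nat_lit 458764666) (nat_lit 304) (nat_lit 3155131988) (nat_lit 0) (nat_lit 458764666) (nat_lit 46) (nat_lit 5) (nat_lit 50) (nat_lit 4) (nat_lit 46) (nat_lit 4) (nat_lit 254) (nat_lit 233) (nat_lit 233)) (XT.lf (nat_lit 0) (nat_lit 1596598940) (nat_lit 304) (nat_lit 4302998281) (nat_lit 304) (nat_lit 2524354273)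 (nat_lit 42) (nat_lit 4) (nat_lit 46) (nat_lit 5) (nat_lit 46) (nat_lit 4) (nat_lit 255) (nat_lit 233) (nat_lit 232))))))))
noncomputable def xc34 : XT := (XT.nd (nat_lit 1404) (nat_lit 456) (nat_lit 0) (XT.nd (nat_lit 702) (nat_lit 836) (nat_lit 0) (XT.nd (nat_lit 312) (nat_lit 836) (nat_lit 0) (XT.nd (nat_lit 156) (nat_lit 304) (nat_lit 0) (XT.nd (nat_lit 78) (nat_lit 228) (nat_lit 0) (XT.lf (nat_lit 0) (nat_lit 1204833422) (nat_lit 228) (nat_lit 1053883665) (nat_lit 304) (nat_lit 6476365030) (nat_lit 38) (nat_lit 5) (nat_lit 41) (nat_lit 5) (nat_lit 42) (nat_lit 4) (nat_lit 256) (nat_lit 233) (nat_lit 231)) (XT.lf (nat_lit 0) (nat_lit 561954262) (nat_lit 228) (nat_lit 6615531166) (nat_lit 228) (nat_lit 1900829105) (nat_lit 35) (nat_lit 4) (nat_lit 38) (nat_lit 5) (nat_lit 38) (nat_lit 4) (nat_lit 257) (nat_lit 233) (nat_lit 230))) (XT.nd (nat_lit 78) (nat_lit 228) (nat_lit 0) (XT.lf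 (nat_lit 0) (nat_lit 2778381296) (nat_lit 304) (nat_lit 363729888) (nat_lit 76) (nat_lit 6313967879) (nat_lit 34) (nat_lit 5) (nat_lit 38) (nat_lit 5) (nat_lit 35) (nat_lit 4) (nat_lit 258) (nat_lit 233) (nat_lit 229)) (XT.lf (nat_lit 0) (nat_lit 7613387540) (nat_lit 304) (nat_lit 1601114310) (nat_lit 0) (nat_lit 656708568) (nat_lit 31) (nat_lit 5) (nat_lit 35) (nat_lit 4) (nat_lit 31) (nat_lit 4) (nat_lit 259) (nat_lit 233) (nat_lit 228)))) (XT.nd (nat_lit 156) (nat_lit 380) (nat_lit 0) (XT.nd (nat_lit 78) (nat_lit 152) (nat_lit 0) (XT.lf (nat_lit 0) (nat_lit 2323747494) (nat_lit 304) (nat_lit 3290969601) (nat_lit 76) (nat_lit 4709416003) (nat_lit 27) (nat_lit 5) (nat_lit 31) (nat_lit 5) (nat_lit 28) (nat_lit 4) (nat_lit 260) (nat_lit 233) (nat_lit 227)) (XT.lf (nat_lit 0) (nat_lit 5354280724) (nat_lit 152) (nat_lit 1682584812) (nat_lit 228) (nat_lit 3783270565) (nat_lit 25) (nat_lit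 5) (nat_lit 27) (nat_lit 5) (nat_lit 28) (nat_lit 4) (nat_lit 261) (nat_lit 233) (nat_lit 226))) (XT.nd (nat_lit 78) (nat_lit 152) (nat_lit 0) (XT.lf (nat_lit 0) (nat_lit 634829627) (nat_lit 228) (nat_lit 8234435928) (nat_lit 76) (nat_lit 2492333454) (nat_lit 22) (nat_lit 5) (nat_lit 25) (nat_lit 5) (nat_lit 23) (nat_lit 4) (nat_lit 262) (nat_lit 233) (nat_lit 225)) (XT.nd (nat_lit 78) (nat_lit 0) (nat_lit 0) (XT.lf (nat_lit 0) (nat_lit 204201212) (nat_lit 152) (nat_lit 4951964238) (nat_lit 228) (nat_lit 6793733378) (nat_lit 20) (nat_lit 5) (nat_lit 22) (nat_lit 5) (nat_lit 23) (nat_lit 4) (nat_lit 263) (nat_lit 233) (nat_lit 224)) (XT.lf (nat_lit 0) (nat_lit 9258251409) (nat_lit 152) (nat_lit 689456728) (nat_lit 228) (nat_lit 2642812525) (nat_lit 20) (nat_lit 5) (nat_lit 22) (nat_lit 5) (nat_lit 23) (nat_lit 4) (nat_lit 264) (nat_lit 233) (nat_lit 223)))))) (XT.nd (nat_lit 312) (nat_lit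 304) (nat_lit 0) (XT.nd (nat_lit 156) (nat_lit 228) (nat_lit 0) (XT.nd (nat_lit 78) (nat_lit 76) (nat_lit 0) (XT.lf (nat_lit 0) (nat_lit 1707736451) (nat_lit 228) (nat_lit 7781262503) (nat_lit 76) (nat_lit 3796236498) (nat_lit 17) (nat_lit 5) (nat_lit 20) (nat_lit 5) (nat_lit 18) (nat_lit 4) (nat_lit 265) (nat_lit 233) (nat_lit 222)) (XT.lf (nat_lit 0) (nat_lit 770788138) (nat_lit 76) (nat_lit 5414817928) (nat_lit 152) (nat_lit 7854719421) (nat_lit 16) (nat_lit 5) (nat_lit 17) (nat_lit 5) (nat_lit 18) (nat_lit 4) (nat_lit 266) (nat_lit 233) (nat_lit 221))) (XT.nd (nat_lit 78) (nat_lit 228) (nat_lit 0) (XT.lf (nat_lit 0) (nat_lit 9968994582) (nat_lit 76) (nat_lit 987002193) (nat_lit 152) (nat_lit 3903627765) (nat_lit 16) (nat_lit 5) (nat_lit 17) (nat_lit 5) (nat_lit 18) (nat_lit 4) (nat_lit 267) (nat_lit 233) (nat_lit 220)) (XT.lf (nat_lit 0) (nat_lit 282864735) (nat_lit 228) (nat_lit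 11828555176) (nat_lit 76) (nat_lit 3636671702) (nat_lit 13) (nat_lit 5) (nat_lit 16) (nat_lit 5) (nat_lit 14) (nat_lit 4) (nat_lit 268) (nat_lit 233) (nat_lit 219)))) (XT.nd (nat_lit 156) (nat_lit 228) (nat_lit 0) (XT.nd (nat_lit 78) (nat_lit 76) (nat_lit 0) (XT.lf (nat_lit 0) (nat_lit 4590650150) (nat_lit 228) (nat_lit 3472066390) (nat_lit 76) (nat_lit 8645984577) (nat_lit 13) (nat_lit 5) (nat_lit 16) (nat_lit 5) (nat_lit 14) (nat_lit 4) (nat_lit 269) (nat_lit 233) (nat_lit 218)) (XT.lf (nat_lit 0) (nat_lit 5455335810) (nat_lit 76) (nat_lit 3704449702) (nat_lit 152) (nat_lit 8590927920) (nat_lit 12) (nat_lit 5) (nat_lit 13) (nat_lit 5) (nat_lit 14) (nat_lit 4) (nat_lit 270) (nat_lit 233) (nat_lit 217))) (XT.nd (nat_lit 78) (nat_lit 228) (nat_lit 0) (XT.lf (nat_lit 0) (nat_lit 14009975400) (nat_lit 152) (nat_lit 3935966158) (nat_lit 0) (nat_lit 934730478) (nat_lit 12) (nat_lit 5) (nat_lit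 14) (nat_lit 4) (nat_lit 12) (nat_lit 4) (nat_lit 271) (nat_lit 233) (nat_lit 216)) (XT.nd (nat_lit 78) (nat_lit 76) (nat_lit 0) (XT.lf (nat_lit 0) (nat_lit 4940474309) (nat_lit 152) (nat_lit 14297674558) (nat_lit 152) (nat_lit 863714753) (nat_lit 10) (nat_lit 4) (nat_lit 12) (nat_lit 5) (nat_lit 12) (nat_lit 4) (nat_lit 272) (nat_lit 233) (nat_lit 215)) (XT.lf (nat_lit 0) (nat_lit 3277774891) (nat_lit 228) (nat_lit 7046664687) (nat_lit 76) (nat_lit 11097661447) (nat_lit 9) (nat_lit 5) (nat_lit 12) (nat_lit 5) (nat_lit 10) (nat_lit 4) (nat_lit 273) (nat_lit 233) (nat_lit 214))))))) (XT.nd (nat_lit 702) (nat_lit 152) (nat_lit 0) (XT.nd (nat_lit 312) (nat_lit 152) (nat_lit 0) (XT.nd (nat_lit 156) (nat_lit 76) (nat_lit 0) (XT.nd (nat_lit 78) (nat_lit 0) (nat_lit 0) (XT.lf (nat_lit 0) (nat_lit 1527756705) (nat_lit 76) (nat_lit 6082682375) (nat_lit 152) (nat_lit 15242577890) (nat_lit 8) (nat_lit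 5) (nat_lit 9) (nat_lit 5) (nat_lit 10) (nat_lit 4) (nat_lit 274) (nat_lit 233) (nat_lit 213)) (XT.lf (nat_lit 0) (nat_lit 10825677518) (nat_lit 76) (nat_lit 1459239734) (nat_lit 152) (nat_lit 12113981948) (nat_lit 8) (nat_lit 5) (nat_lit 9) (nat_lit 5) (nat_lit 10) (nat_lit 4) (nat_lit 275) (nat_lit 233) (nat_lit 212))) (XT.nd (nat_lit 78) (nat_lit 76) (nat_lit 0) (XT.lf (nat_lit 0) (nat_lit 17269179942) (nat_lit 152) (nat_lit 5459315116) (nat_lit 0) (nat_lit 3343399944) (nat_lit 8) (nat_lit 5) (nat_lit 10) (nat_lit 4) (nat_lit 8) (nat_lit 4) (nat_lit 276) (nat_lit 233) (nat_lit 211)) (XT.lf (nat_lit 0) (nat_lit 3193229368) (nat_lit 76) (nat_lit 19422905168) (nat_lit 76) (nat_lit 5264615340) (nat_lit 7) (nat_lit 4) (nat_lit 8) (nat_lit 5) (nat_lit 8) (nat_lit 4) (nat_lit 277) (nat_lit 233) (nat_lit 210)))) (XT.nd (nat_lit 156) (nat_lit 76) (nat_lit 0) (XT.nd (nat_lit 78) (nat_lit 76)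 (nat_lit 0) (XT.lf (nat_lit 0) (nat_lit 12553028751) (nat_lit 76) (nat_lit 15827781861) (nat_lit 76) (nat_lit 1454205152) (nat_lit 7) (nat_lit 4) (nat_lit 8) (nat_lit 5) (nat_lit 8) (nat_lit 4) (nat_lit 278) (nat_lit 233) (nat_lit 209)) (XT.lf (nat_lit 0) (nat_lit 2476747121) (nat_lit 152) (nat_lit 9495584812) (nat_lit 76) (nat_lit 19976346866) (nat_lit 6) (nat_lit 5) (nat_lit 8) (nat_lit 5) (nat_lit 7) (nat_lit 4) (nat_lit 279) (nat_lit 233) (nat_lit 208))) (XT.nd (nat_lit 78) (nat_lit 76) (nat_lit 0) (XT.lf (nat_lit 0) (nat_lit 6580129829) (nat_lit 152) (nat_lit 1268224060) (nat_lit 76) (nat_lit 26386607912) (nat_lit 6) (nat_lit 5) (nat_lit 8) (nat_lit 5) (nat_lit 7) (nat_lit 4) (nat_lit 280) (nat_lit 233) (nat_lit 207)) (XT.nd (nat_lit 78) (nat_lit 0) (nat_lit 0) (XT.lf (nat_lit 0) (nat_lit 7718597514) (nat_lit 76) (nat_lit 3328714384) (nat_lit 152) (nat_lit 25655210981) (nat_lit 5)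 (nat_lit 5) (nat_lit 6) (nat_lit 5) (nat_lit 7) (nat_lit 4) (nat_lit 281) (nat_lit 233) (nat_lit 206)) (XT.lf (nat_lit 0) (nat_lit 15836784294) (nat_lit 152) (nat_lit 22064038100) (nat_lit 0) (nat_lit 1468561283) (nat_lit 5) (nat_lit 5) (nat_lit 7) (nat_lit 4) (nat_lit 5) (nat_lit 4) (nat_lit 282) (nat_lit 233) (nat_lit 205)))))) (XT.nd (nat_lit 312) (nat_lit 76) (nat_lit 0) (XT.nd (nat_lit 156) (nat_lit 76) (nat_lit 0) (XT.nd (nat_lit 78) (nat_lit 0) (nat_lit 0) (XT.lf (nat_lit 0) (nat_lit 20989823371) (nat_lit 152) (nat_lit 14778822828) (nat_lit 0) (nat_lit 6482056900) (nat_lit 5) (nat_lit 5) (nat_lit 7) (nat_lit 4) (nat_lit 5) (nat_lit 4) (nat_lit 283) (nat_lit 233) (nat_lit 204)) (XT.lf (nat_lit 0) (nat_lit 26484995097) (nat_lit 152) (nat_lit 7033137344) (nat_lit 0) (nat_lit 11848021719) (nat_lit 5) (nat_lit 5) (nat_lit 7) (nat_lit 4) (nat_lit 5) (nat_lit 4) (nat_lit 284) (nat_lit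 233) (nat_lit 203))) (XT.nd (nat_lit 78) (nat_lit 0) (nat_lit 0) (XT.lf (nat_lit 0) (nat_lit 1259221667) (nat_lit 76) (nat_lit 31115301766) (nat_lit 76) (nat_lit 16358692361) (nat_lit 4) (nat_lit 4) (nat_lit 5) (nat_lit 5) (nat_lit 5) (nat_lit 4) (nat_lit 285) (nat_lit 233) (nat_lit 202)) (XT.lf (nat_lit 0) (nat_lit 10357759394) (nat_lit 76) (nat_lit 28438167102) (nat_lit 76) (nat_lit 13570783600) (nat_lit 4) (nat_lit 4) (nat_lit 5) (nat_lit 5) (nat_lit 5) (nat_lit 4) (nat_lit 286) (nat_lit 233) (nat_lit 201)))) (XT.nd (nat_lit 156) (nat_lit 76) (nat_lit 0) (XT.nd (nat_lit 78) (nat_lit 0) (nat_lit 0) (XT.lf (nat_lit 0) (nat_lit 20083845814) (nat_lit 76) (nat_lit 25589973533) (nat_lit 76) (nat_lit 10620021422) (nat_lit 4) (nat_lit 4) (nat_lit 5) (nat_lit 5) (nat_lit 5) (nat_lit 4) (nat_lit 287) (nat_lit 233) (nat_lit 200)) (XT.lf (nat_lit 0) (nat_lit 30495116995) (nat_lit 76) (nat_lit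 22553842876) (nat_lit 76) (nat_lit 7488919831) (nat_lit 4) (nat_lit 4) (nat_lit 5) (nat_lit 5) (nat_lit 5) (nat_lit 4) (nat_lit 288) (nat_lit 233) (nat_lit 199))) (XT.nd (nat_lit 78) (nat_lit 76) (nat_lit 0) (XT.lf (nat_lit 0) (nat_lit 41653269358) (nat_lit 76) (nat_lit 19311783245) (nat_lit 76) (nat_lit 4158924150) (nat_lit 4) (nat_lit 4) (nat_lit 5) (nat_lit 5) (nat_lit 5) (nat_lit 4) (nat_lit 289) (nat_lit 233) (nat_lit 198)) (XT.nd (nat_lit 78) (nat_lit 76) (nat_lit 0) (XT.lf (nat_lit 0) (nat_lit 53624425287) (nat_lit 76) (nat_lit 15844582434) (nat_lit 76) (nat_lit 610301071) (nat_lit 4) (nat_lit 4) (nat_lit 5) (nat_lit 5) (nat_lit 5) (nat_lit 4) (nat_lit 290) (nat_lit 233) (nat_lit 197)) (XT.lf (nat_lit 0) (nat_lit 3076263131) (nat_lit 152) (nat_lit 9003332933) (nat_lit 76) (nat_lit 63351163830) (nat_lit 3) (nat_lit 5) (nat_lit 5) (nat_lit 5) (nat_lit 4) (nat_lit 4) (nat_lit 291)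 (nat_lit 233) (nat_lit 196))))))))
noncomputable def xc35 : XT := (XT.nd (nat_lit 1404) (nat_lit 76) (nat_lit 0) (XT.nd (nat_lit 702) (nat_lit 0) (nat_lit 0) (XT.nd (nat_lit 312) (nat_lit 0) (nat_lit 0) (XT.nd (nat_lit 156) (nat_lit 0) (nat_lit 0) (XT.nd (nat_lit 78) (nat_lit 76) (nat_lit 0) (XT.lf (nat_lit 0) (nat_lit 6997010219) (nat_lit 152) (nat_lit 1035607876) (nat_lit 76) (nat_lit 73179238791) (nat_lit 3) (nat_lit 5) (nat_lit 5) (nat_lit 5) (nat_lit 4) (nat_lit 4) (nat_lit 292) (nat_lit 233) (nat_lit 195)) (XT.lf (nat_lit 0) (nat_lit 7753186719) (nat_lit 76) (nat_lit 3562569947) (nat_lit 152) (nat_lit 76135525428) (nat_lit 2) (nat_lit 5) (nat_lit 3) (nat_lit 5) (nat_lit 4) (nat_lit 4) (nat_lit 293) (nat_lit 233) (nat_lit 194))) (XT.nd (nat_lit 78) (nat_lit 0) (nat_lit 0) (XT.lf (nat_lit 0) (nat_lit 15982718724) (nat_lit 152) (nat_lit 76990019591) (nat_lit 0) (nat_lit 1217040395)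 (nat_lit 2) (nat_lit 5) (nat_lit 4) (nat_lit 4) (nat_lit 2) (nat_lit 4) (nat_lit 294) (nat_lit 233) (nat_lit 193)) (XT.lf (nat_lit 0) (nat_lit 21050358317) (nat_lit 152) (nat_lit 74183775800) (nat_lit 0) (nat_lit 6231904152) (nat_lit 2) (nat_lit 5) (nat_lit 4) (nat_lit 4) (nat_lit 2) (nat_lit 4) (nat_lit 295) (nat_lit 233) (nat_lit 192)))) (XT.nd (nat_lit 156) (nat_lit 0) (nat_lit 0) (XT.nd (nat_lit 78) (nat_lit 0) (nat_lit 0) (XT.lf (nat_lit 0) (nat_lit 26493084202) (nat_lit 152) (nat_lit 71207112710) (nat_lit 0) (nat_lit 11625763522) (nat_lit 2) (nat_lit 5) (nat_lit 4) (nat_lit 4) (nat_lit 2) (nat_lit 4) (nat_lit 296) (nat_lit 233) (nat_lit 191)) (XT.lf (nat_lit 0) (nat_lit 32343149569) (nat_lit 152) (nat_lit 68042390835) (nat_lit 0) (nat_lit 17430582116) (nat_lit 2) (nat_lit 5) (nat_lit 4) (nat_lit 4) (nat_lit 2) (nat_lit 4) (nat_lit 297) (nat_lit 233) (nat_lit 190))) (XT.nd (nat_lit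 78) (nat_lit 0) (nat_lit 0) (XT.lf (nat_lit 0) (nat_lit 38635221473) (nat_lit 152) (nat_lit 64670856268) (nat_lit 0) (nat_lit 23680758859) (nat_lit 2) (nat_lit 5) (nat_lit 4) (nat_lit 4) (nat_lit 2) (nat_lit 4) (nat_lit 298) (nat_lit 233) (nat_lit 189)) (XT.nd (nat_lit 78) (nat_lit 0) (nat_lit 0) (XT.lf (nat_lit 0) (nat_lit 45406586265) (nat_lit 152) (nat_lit 61072529544) (nat_lit 0) (nat_lit 30413331836) (nat_lit 2) (nat_lit 5) (nat_lit 4) (nat_lit 4) (nat_lit 2) (nat_lit 4) (nat_lit 299) (nat_lit 233) (nat_lit 188)) (XT.lf (nat_lit 0) (nat_lit 52697370551) (nat_lit 152) (nat_lit 57226087247) (nat_lit 0) (nat_lit 37668197775) (nat_lit 2) (nat_lit 5) (nat_lit 4) (nat_lit 4) (nat_lit 2) (nat_lit 4) (nat_lit 300) (nat_lit 233) (nat_lit 187)))))) (XT.nd (nat_lit 312) (nat_lit 0) (nat_lit 0) (XT.nd (nat_lit 156) (nat_lit 0) (nat_lit 0) (XT.nd (nat_lit 78) (nat_lit 0) (nat_lit 0) (XT.lf (nat_lit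 0) (nat_lit 60550778980) (nat_lit 152) (nat_lit 53108735645) (nat_lit 0) (nat_lit 45488348475) (nat_lit 2) (nat_lit 5) (nat_lit 4) (nat_lit 4) (nat_lit 2) (nat_lit 4) (nat_lit 301) (nat_lit 233) (nat_lit 186)) (XT.lf (nat_lit 0) (nat_lit 69013350267) (nat_lit 152) (nat_lit 48696075615) (nat_lit 0) (nat_lit 53920125569) (nat_lit 2) (nat_lit 5) (nat_lit 4) (nat_lit 4) (nat_lit 2) (nat_lit 4) (nat_lit 302) (nat_lit 233) (nat_lit 185))) (XT.nd (nat_lit 78) (nat_lit 0) (nat_lit 0) (XT.lf (nat_lit 0) (nat_lit 78135232983) (nat_lit 152) (nat_lit 43961958063) (nat_lit 0) (nat_lit 63013495143) (nat_lit 2) (nat_lit 5) (nat_lit 4) (nat_lit 4) (nat_lit 2) (nat_lit 4) (nat_lit 303) (nat_lit 233) (nat_lit 184)) (XT.lf (nat_lit 0) (nat_lit 87970482730) (nat_lit 152) (nat_lit 38878328957) (nat_lit 0) (nat_lit 72822343832) (nat_lit 2) (nat_lit 5) (nat_lit 4) (nat_lit 4) (nat_lit 2) (nat_lit 4) (nat_lit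 304) (nat_lit 233) (nat_lit 183)))) (XT.nd (nat_lit 156) (nat_lit 0) (nat_lit 0) (XT.nd (nat_lit 78) (nat_lit 0) (nat_lit 0) (XT.lf (nat_lit 0) (nat_lit 98577382469) (nat_lit 152) (nat_lit 33415063090) (nat_lit 0) (nat_lit 83404798148) (nat_lit 2) (nat_lit 5) (nat_lit 4) (nat_lit 4) (nat_lit 2) (nat_lit 4) (nat_lit 305) (nat_lit 233) (nat_lit 182)) (XT.lf (nat_lit 0) (nat_lit 110018787902) (nat_lit 152) (nat_lit 27539785551) (nat_lit 0) (nat_lit 94823568929) (nat_lit 2) (nat_lit 5) (nat_lit 4) (nat_lit 4) (nat_lit 2) (nat_lit 4) (nat_lit 306) (nat_lit 233) (nat_lit 181))) (XT.nd (nat_lit 78) (nat_lit 0) (nat_lit 0) (XT.lf (nat_lit 0) (nat_lit 122362499951) (nat_lit 152) (nat_lit 21217679881) (nat_lit 0) (nat_lit 107146322967) (nat_lit 2) (nat_lit 5) (nat_lit 4) (nat_lit 4) (nat_lit 2) (nat_lit 4) (nat_lit 307) (nat_lit 233) (nat_lit 180)) (XT.nd (nat_lit 78) (nat_lit 0) (nat_lit 0) (XT.lf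 (nat_lit 0) (nat_lit 135681666538) (nat_lit 152) (nat_lit 14411281750) (nat_lit 0) (nat_lit 120446083989) (nat_lit 2) (nat_lit 5) (nat_lit 4) (nat_lit 4) (nat_lit 2) (nat_lit 4) (nat_lit 308) (nat_lit 233) (nat_lit 179)) (XT.lf (nat_lit 0) (nat_lit 150055216058) (nat_lit 152) (nat_lit 7080256948) (nat_lit 0) (nat_lit 134801665393) (nat_lit 2) (nat_lit 5) (nat_lit 4) (nat_lit 4) (nat_lit 2) (nat_lit 4) (nat_lit 309) (nat_lit 233) (nat_lit 178))))))) (XT.nd (nat_lit 702) (nat_lit 0) (nat_lit 0) (XT.nd (nat_lit 312) (nat_lit 0) (nat_lit 0) (XT.nd (nat_lit 156) (nat_lit 0) (nat_lit 0) (XT.nd (nat_lit 78) (nat_lit 0) (nat_lit 0) (XT.lf (nat_lit 0) (nat_lit 845912105) (nat_lit 76) (nat_lit 164735620054) (nat_lit 76) (nat_lit 149465432244) (nat_lit 1) (nat_lit 4) (nat_lit 2) (nat_lit 5) (nat_lit 2) (nat_lit 4) (nat_lit 310) (nat_lit 233) (nat_lit 177)) (XT.lf (nat_lit 0) (nat_lit 9641396345)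 (nat_lit 76) (nat_lit 172822056073) (nat_lit 76) (nat_lit 157536463500) (nat_lit 1) (nat_lit 4) (nat_lit 2) (nat_lit 5) (nat_lit 2) (nat_lit 4) (nat_lit 311) (nat_lit 233) (nat_lit 176))) (XT.nd (nat_lit 78) (nat_lit 0) (nat_lit 0) (XT.lf (nat_lit 0) (nat_lit 19124211889) (nat_lit 76) (nat_lit 181562608263) (nat_lit 76) (nat_lit 166262752020) (nat_lit 1) (nat_lit 4) (nat_lit 2) (nat_lit 5) (nat_lit 2) (nat_lit 4) (nat_lit 312) (nat_lit 233) (nat_lit 175)) (XT.lf (nat_lit 0) (nat_lit 29350553198) (nat_lit 76) (nat_lit 191009072488) (nat_lit 76) (nat_lit 175696009143) (nat_lit 1) (nat_lit 4) (nat_lit 2) (nat_lit 5) (nat_lit 2) (nat_lit 4) (nat_lit 313) (nat_lit 233) (nat_lit 174)))) (XT.nd (nat_lit 156) (nat_lit 0) (nat_lit 0) (XT.nd (nat_lit 78) (nat_lit 0) (nat_lit 0) (XT.lf (nat_lit 0) (nat_lit 40381020814) (nat_lit 76) (nat_lit 201217427795) (nat_lit 76) (nat_lit 185892135653) (nat_lit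 1) (nat_lit 4) (nat_lit 2) (nat_lit 5) (nat_lit 2) (nat_lit 4) (nat_lit 314) (nat_lit 233) (nat_lit 173)) (XT.lf (nat_lit 0) (nat_lit 52280980471) (nat_lit 76) (nat_lit 212248168143) (nat_lit 76) (nat_lit 196911553039) (nat_lit 1) (nat_lit 4) (nat_lit 2) (nat_lit 5) (nat_lit 2) (nat_lit 4) (nat_lit 315) (nat_lit 233) (nat_lit 172))) (XT.nd (nat_lit 78) (nat_lit 0) (nat_lit 0) (XT.lf (nat_lit 0) (nat_lit 65120950449) (nat_lit 76) (nat_lit 224166660880) (nat_lit 76) (nat_lit 208819561553) (nat_lit 1) (nat_lit 4) (nat_lit 2) (nat_lit 5) (nat_lit 2) (nat_lit 4) (nat_lit 316) (nat_lit 233) (nat_lit 171)) (XT.nd (nat_lit 78) (nat_lit 0) (nat_lit 0) (XT.lf (nat_lit 0) (nat_lit 78977019459) (nat_lit 76) (nat_lit 237043534112) (nat_lit 76) (nat_lit 221686727171) (nat_lit 1) (nat_lit 4) (nat_lit 2) (nat_lit 5) (nat_lit 2) (nat_lit 4) (nat_lit 317) (nat_lit 233) (nat_lit 170)) (XT.lf (nat_lit 0)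 (nat_lit 93931297538) (nat_lit 76) (nat_lit 250955095236) (nat_lit 76) (nat_lit 235589299764) (nat_lit 1) (nat_lit 4) (nat_lit 2) (nat_lit 5) (nat_lit 2) (nat_lit 4) (nat_lit 318) (nat_lit 233) (nat_lit 169)))))) (XT.nd (nat_lit 32292) (nat_lit 0) (nat_lit 2812) (XT.nd (nat_lit 156) (nat_lit 0) (nat_lit 0) (XT.nd (nat_lit 78) (nat_lit 0) (nat_lit 0) (XT.lf (nat_lit 0) (nat_lit 110072402632) (nat_lit 76) (nat_lit 265983783134) (nat_lit 76) (nat_lit 250609664947) (nat_lit 1) (nat_lit 4) (nat_lit 2) (nat_lit 5) (nat_lit 2) (nat_lit 4) (nat_lit 319) (nat_lit 233) (nat_lit 168)) (XT.lf (nat_lit 0) (nat_lit 127495985734) (nat_lit 76) (nat_lit 282218656695) (nat_lit 76) (nat_lit 266836832291) (nat_lit 1) (nat_lit 4) (nat_lit 2) (nat_lit 5) (nat_lit 2) (nat_lit 4) (nat_lit 320) (nat_lit 233) (nat_lit 167))) (XT.nd (nat_lit 78) (nat_lit 0) (nat_lit 0) (XT.lf (nat_lit 0) (nat_lit 146305297705)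 (nat_lit 76) (nat_lit 299755922578) (nat_lit 76) (nat_lit 284366962788) (nat_lit 1) (nat_lit 4) (nat_lit 2) (nat_lit 5) (nat_lit 2) (nat_lit 4) (nat_lit 321) (nat_lit 233) (nat_lit 166)) (XT.nd (nat_lit 78) (nat_lit 0) (nat_lit 0) (XT.lf (nat_lit 0) (nat_lit 166611801136) (nat_lit 76) (nat_lit 318699505322) (nat_lit 76) (nat_lit 303303938693) (nat_lit 1) (nat_lit 4) (nat_lit 2) (nat_lit 5) (nat_lit 2) (nat_lit 4) (nat_lit 322) (nat_lit 233) (nat_lit 165)) (XT.lf (nat_lit 0) (nat_lit 188535830862) (nat_lit 76) (nat_lit 339161663195) (nat_lit 76) (nat_lit 323759979123) (nat_lit 1) (nat_lit 4) (nat_lit 2) (nat_lit 5) (nat_lit 2) (nat_lit 4) (nat_lit 323) (nat_lit 233) (nat_lit 164))))) (XT.nd (nat_lit 156) (nat_lit 912) (nat_lit 0) (XT.nd (nat_lit 78) (nat_lit 304) (nat_lit 0) (XT.lf (nat_lit 0) (nat_lit 527930249) (nat_lit 380) (nat_lit 2776449427) (nat_lit 0) (nat_lit 527930249) (nat_lit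 54) (nat_lit 5) (nat_lit 59) (nat_lit 4) (nat_lit 54) (nat_lit 4) (nat_lit 252) (nat_lit 234) (nat_lit 234)) (XT.lf (nat_lit 0) (nat_lit 1905449656) (nat_lit 304) (nat_lit 4003126270) (nat_lit 304) (nat_lit 1986143965) (nat_lit 50) (nat_lit 4) (nat_lit 54) (nat_lit 5) (nat_lit 54) (nat_lit 4) (nat_lit 253) (nat_lit 234) (nat_lit 233))) (XT.nd (nat_lit 78) (nat_lit 608) (nat_lit 0) (XT.lf (nat_lit 0) (nat_lit 1615308874) (nat_lit 228) (nat_lit 1067553266) (nat_lit 304) (nat_lit 5471038536) (nat_lit 46) (nat_lit 5) (nat_lit 49) (nat_lit 5) (nat_lit 50) (nat_lit 4) (nat_lit 254) (nat_lit 234) (nat_lit 232)) (XT.nd (nat_lit 78) (nat_lit 304) (nat_lit 0) (XT.lf (nat_lit 0) (nat_lit 1175478341) (nat_lit 304) (nat_lit 6306699854) (nat_lit 304) (nat_lit 960227717) (nat_lit 42) (nat_lit 4) (nat_lit 46) (nat_lit 5) (nat_lit 46) (nat_lit 4) (nat_lit 255) (nat_lit 234) (nat_lit 231)) (XT.lf (nat_lit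 0) (nat_lit 525908273) (nat_lit 228) (nat_lit 3082521466) (nat_lit 304) (nat_lit 5152754872) (nat_lit 38) (nat_lit 5) (nat_lit 41) (nat_lit 5) (nat_lit 42) (nat_lit 4) (nat_lit 256) (nat_lit 234) (nat_lit 230))))))))
noncomputable def xc36 : XT := (XT.nd (nat_lit 1404) (nat_lit 456) (nat_lit 0) (XT.nd (nat_lit 702) (nat_lit 608) (nat_lit 0) (XT.nd (nat_lit 312) (nat_lit 760) (nat_lit 0) (XT.nd (nat_lit 156) (nat_lit 532) (nat_lit 0) (XT.nd (nat_lit 78) (nat_lit 304) (nat_lit 0) (XT.lf (nat_lit 0) (nat_lit 8340885694) (nat_lit 304) (nat_lit 321438447) (nat_lit 0) (nat_lit 452011740) (nat_lit 38) (nat_lit 5) (nat_lit 42) (nat_lit 4) (nat_lit 38) (nat_lit 4) (nat_lit 257) (nat_lit 234) (nat_lit 229)) (XT.lf (nat_lit 0) (nat_lit 3723676503) (nat_lit 304) (nat_lit 1500438496) (nat_lit 76) (nat_lit 4274937314) (nat_lit 34) (nat_lit 5) (nat_lit 38) (nat_lit 5) (nat_lit 35) (nat_lit 4) (nat_lit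 258) (nat_lit 234) (nat_lit 228))) (XT.nd (nat_lit 78) (nat_lit 304) (nat_lit 0) (XT.lf (nat_lit 0) (nat_lit 6926242846) (nat_lit 228) (nat_lit 1470386333) (nat_lit 304) (nat_lit 1526149717) (nat_lit 31) (nat_lit 5) (nat_lit 34) (nat_lit 5) (nat_lit 35) (nat_lit 4) (nat_lit 259) (nat_lit 234) (nat_lit 227)) (XT.lf (nat_lit 0) (nat_lit 2856902957) (nat_lit 304) (nat_lit 4956987713) (nat_lit 76) (nat_lit 2570429057) (nat_lit 27) (nat_lit 5) (nat_lit 31) (nat_lit 5) (nat_lit 28) (nat_lit 4) (nat_lit 260) (nat_lit 234) (nat_lit 226)))) (XT.nd (nat_lit 156) (nat_lit 380) (nat_lit 0) (XT.nd (nat_lit 78) (nat_lit 228) (nat_lit 0) (XT.lf (nat_lit 0) (nat_lit 3457492470) (nat_lit 152) (nat_lit 3963222709) (nat_lit 228) (nat_lit 3467475015) (nat_lit 25) (nat_lit 5) (nat_lit 27) (nat_lit 5) (nat_lit 28) (nat_lit 4) (nat_lit 261) (nat_lit 234) (nat_lit 225)) (XT.lf (nat_lit 0) (nat_lit 753580276)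 (nat_lit 228) (nat_lit 10480474727) (nat_lit 76) (nat_lit 205053098) (nat_lit 22) (nat_lit 5) (nat_lit 25) (nat_lit 5) (nat_lit 23) (nat_lit 4) (nat_lit 262) (nat_lit 234) (nat_lit 224))) (XT.nd (nat_lit 78) (nat_lit 380) (nat_lit 0) (XT.lf (nat_lit 0) (nat_lit 5161431844) (nat_lit 228) (nat_lit 2212991326) (nat_lit 76) (nat_lit 4658987343) (nat_lit 22) (nat_lit 5) (nat_lit 25) (nat_lit 5) (nat_lit 23) (nat_lit 4) (nat_lit 263) (nat_lit 234) (nat_lit 223)) (XT.nd (nat_lit 78) (nat_lit 228) (nat_lit 0) (XT.lf (nat_lit 0) (nat_lit 6610423456) (nat_lit 152) (nat_lit 3202273192) (nat_lit 228) (nat_lit 2868653647) (nat_lit 20) (nat_lit 5) (nat_lit 22) (nat_lit 5) (nat_lit 23) (nat_lit 4) (nat_lit 264) (nat_lit 234) (nat_lit 222)) (XT.lf (nat_lit 0) (nat_lit 1303059430) (nat_lit 228) (nat_lit 10818790879) (nat_lit 76) (nat_lit 1263962415) (nat_lit 17) (nat_lit 5) (nat_lit 20) (nat_lit 5) (nat_lit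 18) (nat_lit 4) (nat_lit 265) (nat_lit 234) (nat_lit 221)))))) (XT.nd (nat_lit 312) (nat_lit 304) (nat_lit 0) (XT.nd (nat_lit 156) (nat_lit 228) (nat_lit 0) (XT.nd (nat_lit 78) (nat_lit 76) (nat_lit 0) (XT.lf (nat_lit 0) (nat_lit 5674509613) (nat_lit 228) (nat_lit 2438412513) (nat_lit 76) (nat_lit 6033549869) (nat_lit 17) (nat_lit 5) (nat_lit 20) (nat_lit 5) (nat_lit 18) (nat_lit 4) (nat_lit 266) (nat_lit 234) (nat_lit 220)) (XT.lf (nat_lit 0) (nat_lit 6538555295) (nat_lit 76) (nat_lit 3777426649) (nat_lit 152) (nat_lit 4656464897) (nat_lit 16) (nat_lit 5) (nat_lit 17) (nat_lit 5) (nat_lit 18) (nat_lit 4) (nat_lit 267) (nat_lit 234) (nat_lit 219))) (XT.nd (nat_lit 78) (nat_lit 76) (nat_lit 0) (XT.lf (nat_lit 0) (nat_lit 170670459) (nat_lit 152) (nat_lit 15043989984) (nat_lit 152) (nat_lit 655987534) (nat_lit 14) (nat_lit 4) (nat_lit 16) (nat_lit 5) (nat_lit 16) (nat_lit 4) (nat_lit 268)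 (nat_lit 234) (nat_lit 218)) (XT.lf (nat_lit 0) (nat_lit 3591809940) (nat_lit 228) (nat_lit 7464117363) (nat_lit 76) (nat_lit 5780079146) (nat_lit 13) (nat_lit 5) (nat_lit 16) (nat_lit 5) (nat_lit 14) (nat_lit 4) (nat_lit 269) (nat_lit 234) (nat_lit 217)))) (XT.nd (nat_lit 156) (nat_lit 228) (nat_lit 0) (XT.nd (nat_lit 78) (nat_lit 0) (nat_lit 0) (XT.lf (nat_lit 0) (nat_lit 1206106638) (nat_lit 76) (nat_lit 6813511438) (nat_lit 152) (nat_lit 9865640842) (nat_lit 12) (nat_lit 5) (nat_lit 13) (nat_lit 5) (nat_lit 14) (nat_lit 4) (nat_lit 270) (nat_lit 234) (nat_lit 216)) (XT.lf (nat_lit 0) (nat_lit 10595396666) (nat_lit 76) (nat_lit 2188094900) (nat_lit 152) (nat_lit 6236202694) (nat_lit 12) (nat_lit 5) (nat_lit 13) (nat_lit 5) (nat_lit 14) (nat_lit 4) (nat_lit 271) (nat_lit 234) (nat_lit 215))) (XT.nd (nat_lit 78) (nat_lit 76) (nat_lit 0) (XT.lf (nat_lit 0) (nat_lit 225263366) (nat_lit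 152) (nat_lit 17612012899) (nat_lit 152) (nat_lit 2412478016) (nat_lit 10) (nat_lit 4) (nat_lit 12) (nat_lit 5) (nat_lit 12) (nat_lit 4) (nat_lit 272) (nat_lit 234) (nat_lit 214)) (XT.nd (nat_lit 78) (nat_lit 0) (nat_lit 0) (XT.lf (nat_lit 0) (nat_lit 1714090675) (nat_lit 228) (nat_lit 11993189193) (nat_lit 76) (nat_lit 7867276791) (nat_lit 9) (nat_lit 5) (nat_lit 12) (nat_lit 5) (nat_lit 10) (nat_lit 4) (nat_lit 273) (nat_lit 234) (nat_lit 213)) (XT.lf (nat_lit 0) (nat_lit 5963188365) (nat_lit 228) (nat_lit 3567298367) (nat_lit 76) (nat_lit 13479285856) (nat_lit 9) (nat_lit 5) (nat_lit 12) (nat_lit 5) (nat_lit 10) (nat_lit 4) (nat_lit 274) (nat_lit 234) (nat_lit 212))))))) (XT.nd (nat_lit 702) (nat_lit 152) (nat_lit 0) (XT.nd (nat_lit 312) (nat_lit 152) (nat_lit 0) (XT.nd (nat_lit 156) (nat_lit 76) (nat_lit 0) (XT.nd (nat_lit 78) (nat_lit 0) (nat_lit 0) (XT.lf (nat_lit 0) (nat_lit 5517368559)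 (nat_lit 76) (nat_lit 5005982281) (nat_lit 152) (nat_lit 14038132410) (nat_lit 8) (nat_lit 5) (nat_lit 9) (nat_lit 5) (nat_lit 10) (nat_lit 4) (nat_lit 275) (nat_lit 234) (nat_lit 211)) (XT.lf (nat_lit 0) (nat_lit 15272649606) (nat_lit 76) (nat_lit 128465316) (nat_lit 152) (nat_lit 10838793364) (nat_lit 8) (nat_lit 5) (nat_lit 9) (nat_lit 5) (nat_lit 10) (nat_lit 4) (nat_lit 276) (nat_lit 234) (nat_lit 210))) (XT.nd (nat_lit 78) (nat_lit 76) (nat_lit 0) (XT.lf (nat_lit 0) (nat_lit 20647014370) (nat_lit 152) (nat_lit 2498633480) (nat_lit 0) (nat_lit 4908264645) (nat_lit 8) (nat_lit 5) (nat_lit 10) (nat_lit 4) (nat_lit 8) (nat_lit 4) (nat_lit 277) (nat_lit 234) (nat_lit 209)) (XT.lf (nat_lit 0) (nat_lit 6698466532) (nat_lit 76) (nat_lit 19626122878) (nat_lit 76) (nat_lit 3688033449) (nat_lit 7) (nat_lit 4) (nat_lit 8) (nat_lit 5) (nat_lit 8) (nat_lit 4) (nat_lit 278) (nat_lit 234) (nat_lit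 208)))) (XT.nd (nat_lit 156) (nat_lit 76) (nat_lit 0) (XT.nd (nat_lit 78) (nat_lit 0) (nat_lit 0) (XT.lf (nat_lit 0) (nat_lit 270290949) (nat_lit 152) (nat_lit 15568566782) (nat_lit 76) (nat_lit 16291457052) (nat_lit 6) (nat_lit 5) (nat_lit 8) (nat_lit 5) (nat_lit 7) (nat_lit 4) (nat_lit 279) (nat_lit 234) (nat_lit 207)) (XT.lf (nat_lit 0) (nat_lit 4332817794) (nat_lit 152) (nat_lit 7411288415) (nat_lit 76) (nat_lit 22674607384) (nat_lit 6) (nat_lit 5) (nat_lit 8) (nat_lit 5) (nat_lit 7) (nat_lit 4) (nat_lit 280) (nat_lit 234) (nat_lit 206))) (XT.nd (nat_lit 78) (nat_lit 0) (nat_lit 0) (XT.lf (nat_lit 0) (nat_lit 1305379020) (nat_lit 76) (nat_lit 7356663027) (nat_lit 152) (nat_lit 28231198121) (nat_lit 5) (nat_lit 5) (nat_lit 6) (nat_lit 5) (nat_lit 7) (nat_lit 4) (nat_lit 281) (nat_lit 234) (nat_lit 205)) (XT.nd (nat_lit 78) (nat_lit 0) (nat_lit 0) (XT.lf (nat_lit 0) (nat_lit 10854926869)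 (nat_lit 76) (nat_lit 2536904682) (nat_lit 152) (nat_lit 26171316158) (nat_lit 5) (nat_lit 5) (nat_lit 6) (nat_lit 5) (nat_lit 7) (nat_lit 4) (nat_lit 282) (nat_lit 234) (nat_lit 204)) (XT.lf (nat_lit 0) (nat_lit 18471555477) (nat_lit 152) (nat_lit 21442218055) (nat_lit 0) (nat_lit 2534417320) (nat_lit 5) (nat_lit 5) (nat_lit 7) (nat_lit 4) (nat_lit 5) (nat_lit 4) (nat_lit 283) (nat_lit 234) (nat_lit 203)))))) (XT.nd (nat_lit 312) (nat_lit 76) (nat_lit 0) (XT.nd (nat_lit 156) (nat_lit 76) (nat_lit 0) (XT.nd (nat_lit 78) (nat_lit 0) (nat_lit 0) (XT.lf (nat_lit 0) (nat_lit 23935517055) (nat_lit 152) (nat_lit 13750996161) (nat_lit 0) (nat_lit 7878742873) (nat_lit 5) (nat_lit 5) (nat_lit 7) (nat_lit 4) (nat_lit 5) (nat_lit 4) (nat_lit 284) (nat_lit 234) (nat_lit 202)) (XT.lf (nat_lit 0) (nat_lit 29776487126) (nat_lit 152) (nat_lit 5549369357) (nat_lit 0) (nat_lit 13608938846) (nat_lit 5)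 (nat_lit 5) (nat_lit 7) (nat_lit 4) (nat_lit 5) (nat_lit 4) (nat_lit 285) (nat_lit 234) (nat_lit 201))) (XT.nd (nat_lit 78) (nat_lit 0) (nat_lit 0) (XT.lf (nat_lit 0) (nat_lit 3317443501) (nat_lit 76) (nat_lit 32763429934) (nat_lit 76) (nat_lit 16493313045) (nat_lit 4) (nat_lit 4) (nat_lit 5) (nat_lit 5) (nat_lit 5) (nat_lit 4) (nat_lit 286) (nat_lit 234) (nat_lit 200)) (XT.lf (nat_lit 0) (nat_lit 12998865424) (nat_lit 76) (nat_lit 29934427903) (nat_lit 76) (nat_lit 13569340080) (nat_lit 4) (nat_lit 4) (nat_lit 5) (nat_lit 5) (nat_lit 5) (nat_lit 4) (nat_lit 287) (nat_lit 234) (nat_lit 199)))) (XT.nd (nat_lit 156) (nat_lit 76) (nat_lit 0) (XT.nd (nat_lit 78) (nat_lit 0) (nat_lit 0) (XT.lf (nat_lit 0) (nat_lit 23368780589) (nat_lit 76) (nat_lit 26916067187) (nat_lit 76) (nat_lit 10463043314) (nat_lit 4) (nat_lit 4) (nat_lit 5) (nat_lit 5) (nat_lit 5) (nat_lit 4) (nat_lit 288) (nat_lit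 234) (nat_lit 198)) (XT.lf (nat_lit 0) (nat_lit 34488640345) (nat_lit 76) (nat_lit 23690461206) (nat_lit 76) (nat_lit 7156015064) (nat_lit 4) (nat_lit 4) (nat_lit 5) (nat_lit 5) (nat_lit 5) (nat_lit 4) (nat_lit 289) (nat_lit 234) (nat_lit 197))) (XT.nd (nat_lit 78) (nat_lit 76) (nat_lit 0) (XT.lf (nat_lit 0) (nat_lit 46424340157) (nat_lit 76) (nat_lit 20238495256) (nat_lit 76) (nat_lit 3628658124) (nat_lit 4) (nat_lit 4) (nat_lit 5) (nat_lit 5) (nat_lit 5) (nat_lit 4) (nat_lit 290) (nat_lit 234) (nat_lit 196)) (XT.nd (nat_lit 78) (nat_lit 0) (nat_lit 0) (XT.lf (nat_lit 0) (nat_lit 135451713) (nat_lit 152) (nat_lit 16401967589) (nat_lit 76) (nat_lit 59108864443) (nat_lit 3) (nat_lit 5) (nat_lit 5) (nat_lit 5) (nat_lit 4) (nat_lit 4) (nat_lit 291) (nat_lit 234) (nat_lit 195)) (XT.lf (nat_lit 0) (nat_lit 4038550061) (nat_lit 152) (nat_lit 8465251599) (nat_lit 76) (nat_lit 68924489128) (nat_lit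 3) (nat_lit 5) (nat_lit 5) (nat_lit 5) (nat_lit 4) (nat_lit 4) (nat_lit 292) (nat_lit 234) (nat_lit 194))))))))
noncomputable def xc37 : XT := (XT.nd (nat_lit 1404) (nat_lit 76) (nat_lit 0) (XT.nd (nat_lit 702) (nat_lit 0) (nat_lit 0) (XT.nd (nat_lit 312) (nat_lit 0) (nat_lit 0) (XT.nd (nat_lit 156) (nat_lit 0) (nat_lit 0) (XT.nd (nat_lit 78) (nat_lit 0) (nat_lit 0) (XT.lf (nat_lit 0) (nat_lit 48223969) (nat_lit 76) (nat_lit 8172435051) (nat_lit 152) (nat_lit 79453914420) (nat_lit 2) (nat_lit 5) (nat_lit 3) (nat_lit 5) (nat_lit 4) (nat_lit 4) (nat_lit 293) (nat_lit 234) (nat_lit 193)) (XT.lf (nat_lit 0) (nat_lit 9487943230) (nat_lit 76) (nat_lit 3364488419) (nat_lit 152) (nat_lit 81562421553) (nat_lit 2) (nat_lit 5) (nat_lit 3) (nat_lit 5) (nat_lit 4) (nat_lit 4) (nat_lit 294) (nat_lit 234) (nat_lit 192))) (XT.nd (nat_lit 78) (nat_lit 0) (nat_lit 0) (XT.lf (nat_lit 0) (nat_lit 17852962882)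 (nat_lit 152) (nat_lit 82094137186) (nat_lit 0) (nat_lit 1747390033) (nat_lit 2) (nat_lit 5) (nat_lit 4) (nat_lit 4) (nat_lit 2) (nat_lit 4) (nat_lit 295) (nat_lit 234) (nat_lit 191)) (XT.lf (nat_lit 0) (nat_lit 23282189446) (nat_lit 152) (nat_lit 79141548261) (nat_lit 0) (nat_lit 7131369823) (nat_lit 2) (nat_lit 5) (nat_lit 4) (nat_lit 4) (nat_lit 2) (nat_lit 4) (nat_lit 296) (nat_lit 234) (nat_lit 190)))) (XT.nd (nat_lit 156) (nat_lit 0) (nat_lit 0) (XT.nd (nat_lit 78) (nat_lit 0) (nat_lit 0) (XT.lf (nat_lit 0) (nat_lit 29119755441) (nat_lit 152) (nat_lit 75999117279) (nat_lit 0) (nat_lit 12927040659) (nat_lit 2) (nat_lit 5) (nat_lit 4) (nat_lit 4) (nat_lit 2) (nat_lit 4) (nat_lit 297) (nat_lit 234) (nat_lit 189)) (XT.lf (nat_lit 0) (nat_lit 35400253853) (nat_lit 152) (nat_lit 72648222428) (nat_lit 0) (nat_lit 19168747255) (nat_lit 2) (nat_lit 5) (nat_lit 4) (nat_lit 4) (nat_lit 2)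 (nat_lit 4) (nat_lit 298) (nat_lit 234) (nat_lit 188))) (XT.nd (nat_lit 78) (nat_lit 0) (nat_lit 0) (XT.lf (nat_lit 0) (nat_lit 42160902448) (nat_lit 152) (nat_lit 69069006553) (nat_lit 0) (nat_lit 25893477503) (nat_lit 2) (nat_lit 5) (nat_lit 4) (nat_lit 4) (nat_lit 2) (nat_lit 4) (nat_lit 299) (nat_lit 234) (nat_lit 187)) (XT.nd (nat_lit 78) (nat_lit 0) (nat_lit 0) (XT.lf (nat_lit 0) (nat_lit 49441764330) (nat_lit 152) (nat_lit 65240259485) (nat_lit 0) (nat_lit 33141081656) (nat_lit 2) (nat_lit 5) (nat_lit 4) (nat_lit 4) (nat_lit 2) (nat_lit 4) (nat_lit 300) (nat_lit 234) (nat_lit 186)) (XT.lf (nat_lit 0) (nat_lit 57285985347) (nat_lit 152) (nat_lit 61139292355) (nat_lit 0) (nat_lit 40954508480) (nat_lit 2) (nat_lit 5) (nat_lit 4) (nat_lit 4) (nat_lit 2) (nat_lit 4) (nat_lit 301) (nat_lit 234) (nat_lit 185)))))) (XT.nd (nat_lit 312) (nat_lit 0) (nat_lit 0) (XT.nd (nat_lit 156) (nat_lit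 0) (nat_lit 0) (XT.nd (nat_lit 78) (nat_lit 0) (nat_lit 0) (XT.lf (nat_lit 0) (nat_lit 65740049772) (nat_lit 152) (nat_lit 56741803133) (nat_lit 0) (nat_lit 49380059762) (nat_lit 2) (nat_lit 5) (nat_lit 4) (nat_lit 4) (nat_lit 2) (nat_lit 4) (nat_lit 302) (nat_lit 234) (nat_lit 184)) (XT.lf (nat_lit 0) (nat_lit 74854055764) (nat_lit 152) (nat_lit 52021732624) (nat_lit 0) (nat_lit 58467664697) (nat_lit 2) (nat_lit 5) (nat_lit 4) (nat_lit 4) (nat_lit 2) (nat_lit 4) (nat_lit 303) (nat_lit 234) (nat_lit 183))) (XT.nd (nat_lit 78) (nat_lit 0) (nat_lit 0) (XT.lf (nat_lit 0) (nat_lit 84682012248) (nat_lit 152) (nat_lit 46951110041) (nat_lit 0) (nat_lit 68271175757) (nat_lit 2) (nat_lit 5) (nat_lit 4) (nat_lit 4) (nat_lit 2) (nat_lit 4) (nat_lit 304) (nat_lit 234) (nat_lit 182)) (XT.lf (nat_lit 0) (nat_lit 95282158965) (nat_lit 152) (nat_lit 41499887249) (nat_lit 0) (nat_lit 78848687823) (nat_lit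 2) (nat_lit 5) (nat_lit 4) (nat_lit 4) (nat_lit 2) (nat_lit 4) (nat_lit 305) (nat_lit 234) (nat_lit 181)))) (XT.nd (nat_lit 156) (nat_lit 0) (nat_lit 0) (XT.nd (nat_lit 78) (nat_lit 0) (nat_lit 0) (XT.lf (nat_lit 0) (nat_lit 106717311601) (nat_lit 152) (nat_lit 35635760706) (nat_lit 0) (nat_lit 90262882448) (nat_lit 2) (nat_lit 5) (nat_lit 4) (nat_lit 4) (nat_lit 2) (nat_lit 4) (nat_lit 306) (nat_lit 234) (nat_lit 180)) (XT.lf (nat_lit 0) (nat_lit 119055234021) (nat_lit 152) (nat_lit 29323980033) (nat_lit 0) (nat_lit 102581399303) (nat_lit 2) (nat_lit 5) (nat_lit 4) (nat_lit 4) (nat_lit 2) (nat_lit 4) (nat_lit 307) (nat_lit 234) (nat_lit 179))) (XT.nd (nat_lit 78) (nat_lit 0) (nat_lit 0) (XT.lf (nat_lit 0) (nat_lit 132369039842) (nat_lit 152) (nat_lit 22527142085) (nat_lit 0) (nat_lit 115877237008) (nat_lit 2) (nat_lit 5) (nat_lit 4) (nat_lit 4) (nat_lit 2) (nat_lit 4) (nat_lit 308) (nat_lit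 234) (nat_lit 178)) (XT.nd (nat_lit 78) (nat_lit 0) (nat_lit 0) (XT.lf (nat_lit 0) (nat_lit 146737625690) (nat_lit 152) (nat_lit 15204969303) (nat_lit 0) (nat_lit 130229185711) (nat_lit 2) (nat_lit 5) (nat_lit 4) (nat_lit 4) (nat_lit 2) (nat_lit 4) (nat_lit 309) (nat_lit 234) (nat_lit 177)) (XT.lf (nat_lit 0) (nat_lit 162246138740) (nat_lit 152) (nat_lit 7314071034) (nat_lit 0) (nat_lit 145722293997) (nat_lit 2) (nat_lit 5) (nat_lit 4) (nat_lit 4) (nat_lit 2) (nat_lit 4) (nat_lit 310) (nat_lit 234) (nat_lit 176))))))) (XT.nd (nat_lit 702) (nat_lit 0) (nat_lit 0) (XT.nd (nat_lit 312) (nat_lit 0) (nat_lit 0) (XT.nd (nat_lit 156) (nat_lit 0) (nat_lit 0) (XT.nd (nat_lit 78) (nat_lit 0) (nat_lit 0) (XT.lf (nat_lit 0) (nat_lit 1231736872) (nat_lit 76) (nat_lit 177773975284) (nat_lit 76) (nat_lit 161235866871) (nat_lit 1) (nat_lit 4) (nat_lit 2) (nat_lit 5) (nat_lit 2) (nat_lit 4) (nat_lit 311)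 (nat_lit 234) (nat_lit 175)) (XT.lf (nat_lit 0) (nat_lit 10707293051) (nat_lit 76) (nat_lit 186517733175) (nat_lit 76) (nat_lit 169966417661) (nat_lit 1) (nat_lit 4) (nat_lit 2) (nat_lit 5) (nat_lit 2) (nat_lit 4) (nat_lit 312) (nat_lit 234) (nat_lit 174))) (XT.nd (nat_lit 78) (nat_lit 0) (nat_lit 0) (XT.lf (nat_lit 0) (nat_lit 20926912727) (nat_lit 76) (nat_lit 195967165643) (nat_lit 76) (nat_lit 179403621331) (nat_lit 1) (nat_lit 4) (nat_lit 2) (nat_lit 5) (nat_lit 2) (nat_lit 4) (nat_lit 313) (nat_lit 234) (nat_lit 173)) (XT.lf (nat_lit 0) (nat_lit 31951156609) (nat_lit 76) (nat_lit 206178269323) (nat_lit 76) (nat_lit 189603402050) (nat_lit 1) (nat_lit 4) (nat_lit 2) (nat_lit 5) (nat_lit 2) (nat_lit 4) (nat_lit 314) (nat_lit 234) (nat_lit 172)))) (XT.nd (nat_lit 156) (nat_lit 0) (nat_lit 0) (XT.nd (nat_lit 78) (nat_lit 0) (nat_lit 0) (XT.lf (nat_lit 0) (nat_lit 43845353549) (nat_lit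 76) (nat_lit 217211554460) (nat_lit 76) (nat_lit 200626202963) (nat_lit 1) (nat_lit 4) (nat_lit 2) (nat_lit 5) (nat_lit 2) (nat_lit 4) (nat_lit 315) (nat_lit 234) (nat_lit 171)) (XT.lf (nat_lit 0) (nat_lit 56679987677) (nat_lit 76) (nat_lit 229132403483) (nat_lit 76) (nat_lit 212537344373) (nat_lit 1) (nat_lit 4) (nat_lit 2) (nat_lit 5) (nat_lit 2) (nat_lit 4) (nat_lit 316) (nat_lit 234) (nat_lit 170))) (XT.nd (nat_lit 78) (nat_lit 0) (nat_lit 0) (XT.lf (nat_lit 0) (nat_lit 70531116085) (nat_lit 76) (nat_lit 242011458463) (nat_lit 76) (nat_lit 225407410821) (nat_lit 1) (nat_lit 4) (nat_lit 2) (nat_lit 5) (nat_lit 2) (nat_lit 4) (nat_lit 317) (nat_lit 234) (nat_lit 169)) (XT.nd (nat_lit 78) (nat_lit 0) (nat_lit 0) (XT.lf (nat_lit 0) (nat_lit 85480819534) (nat_lit 76) (nat_lit 255925039723) (nat_lit 76) (nat_lit 239312669367) (nat_lit 1) (nat_lit 4) (nat_lit 2) (nat_lit 5) (nat_lit 2) (nat_lit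 4) (nat_lit 318) (nat_lit 234) (nat_lit 168)) (XT.lf (nat_lit 0) (nat_lit 101617688859) (nat_lit 76) (nat_lit 270955598116) (nat_lit 76) (nat_lit 254335521543) (nat_lit 1) (nat_lit 4) (nat_lit 2) (nat_lit 5) (nat_lit 2) (nat_lit 4) (nat_lit 319) (nat_lit 234) (nat_lit 167)))))) (XT.nd (nat_lit 32136) (nat_lit 0) (nat_lit 3040) (XT.nd (nat_lit 156) (nat_lit 0) (nat_lit 0) (XT.nd (nat_lit 78) (nat_lit 0) (nat_lit 0) (XT.lf (nat_lit 0) (nat_lit 119037349951) (nat_lit 76) (nat_lit 287192203619) (nat_lit 76) (nat_lit 270564991659) (nat_lit 1) (nat_lit 4) (nat_lit 2) (nat_lit 5) (nat_lit 2) (nat_lit 4) (nat_lit 320) (nat_lit 234) (nat_lit 166)) (XT.lf (nat_lit 0) (nat_lit 137843030433) (nat_lit 76) (nat_lit 304731073151) (nat_lit 76) (nat_lit 288097254353) (nat_lit 1) (nat_lit 4) (nat_lit 2) (nat_lit 5) (nat_lit 2) (nat_lit 4) (nat_lit 321) (nat_lit 234) (nat_lit 165))) (XT.nd (nat_lit 78)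 (nat_lit 0) (nat_lit 0) (XT.lf (nat_lit 0) (nat_lit 158146171374) (nat_lit 76) (nat_lit 323676140755) (nat_lit 76) (nat_lit 307036204514) (nat_lit 1) (nat_lit 4) (nat_lit 2) (nat_lit 5) (nat_lit 2) (nat_lit 4) (nat_lit 322) (nat_lit 234) (nat_lit 164)) (XT.nd (nat_lit 31824) (nat_lit 0) (nat_lit 5092) (XT.lf (nat_lit 0) (nat_lit 180067087684) (nat_lit 76) (nat_lit 344139673499) (nat_lit 76) (nat_lit 327494072958) (nat_lit 1) (nat_lit 4) (nat_lit 2) (nat_lit 5) (nat_lit 2) (nat_lit 4) (nat_lit 323) (nat_lit 234) (nat_lit 163)) (XT.lf (nat_lit 0) (nat_lit 631508869) (nat_lit 684) (nat_lit 2373885138) (nat_lit 0) (nat_lit 631508869) (nat_lit 68) (nat_lit 5) (nat_lit 77) (nat_lit 4) (nat_lit 68) (nat_lit 4) (nat_lit 250) (nat_lit 235) (nat_lit 235))))) (XT.nd (nat_lit 156) (nat_lit 988) (nat_lit 0) (XT.nd (nat_lit 78) (nat_lit 380) (nat_lit 0) (XT.lf (nat_lit 0) (nat_lit 2230307993) (nat_lit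 684) (nat_lit 3758686063) (nat_lit 684) (nat_lit 1471428129) (nat_lit 59) (nat_lit 4) (nat_lit 68) (nat_lit 5) (nat_lit 68) (nat_lit 4) (nat_lit 251) (nat_lit 235) (nat_lit 234)) (XT.lf (nat_lit 0) (nat_lit 1903617299) (nat_lit 304) (nat_lit 1173800580) (nat_lit 380) (nat_lit 4595945960) (nat_lit 54) (nat_lit 5) (nat_lit 58) (nat_lit 5) (nat_lit 59) (nat_lit 4) (nat_lit 252) (nat_lit 235) (nat_lit 233))) (XT.nd (nat_lit 78) (nat_lit 684) (nat_lit 0) (XT.lf (nat_lit 0) (nat_lit 1510470399) (nat_lit 304) (nat_lit 6233031133) (nat_lit 304) (nat_lit 170131729) (nat_lit 50) (nat_lit 4) (nat_lit 54) (nat_lit 5) (nat_lit 54) (nat_lit 4) (nat_lit 253) (nat_lit 235) (nat_lit 232)) (XT.nd (nat_lit 78) (nat_lit 380) (nat_lit 0) (XT.lf (nat_lit 0) (nat_lit 970702954) (nat_lit 228) (nat_lit 3303852942) (nat_lit 304) (nat_lit 3905889028) (nat_lit 46) (nat_lit 5) (nat_lit 49) (nat_lit 5) (nat_lit 50)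 (nat_lit 4) (nat_lit 254) (nat_lit 235) (nat_lit 231)) (XT.lf (nat_lit 0) (nat_lit 323161702) (nat_lit 304) (nat_lit 63724196) (nat_lit 380) (nat_lit 8092177258) (nat_lit 41) (nat_lit 5) (nat_lit 45) (nat_lit 5) (nat_lit 46) (nat_lit 5) (nat_lit 255) (nat_lit 235) (nat_lit 230))))))))
noncomputable def xc38 : XT := (XT.nd (nat_lit 1404) (nat_lit 456) (nat_lit 0) (XT.nd (nat_lit 702) (nat_lit 760) (nat_lit 0) (XT.nd (nat_lit 312) (nat_lit 836) (nat_lit 0) (XT.nd (nat_lit 156) (nat_lit 456) (nat_lit 0) (XT.nd (nat_lit 78) (nat_lit 304) (nat_lit 0) (XT.lf (nat_lit 0) (nat_lit 4773241144) (nat_lit 380) (nat_lit 572783677) (nat_lit 76) (nat_lit 3459249125) (nat_lit 41) (nat_lit 5) (nat_lit 46) (nat_lit 5) (nat_lit 42) (nat_lit 4) (nat_lit 256) (nat_lit 235) (nat_lit 229)) (XT.lf (nat_lit 0) (nat_lit 182122398) (nat_lit 304) (nat_lit 1657664926) (nat_lit 76) (nat_lit 7326600480) (nat_lit 37)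 (nat_lit 5) (nat_lit 41) (nat_lit 5) (nat_lit 38) (nat_lit 5) (nat_lit 257) (nat_lit 235) (nat_lit 228))) (XT.nd (nat_lit 78) (nat_lit 228) (nat_lit 0) (XT.lf (nat_lit 0) (nat_lit 4473557728) (nat_lit 304) (nat_lit 3091873030) (nat_lit 76) (nat_lit 1994609047) (nat_lit 34) (nat_lit 5) (nat_lit 38) (nat_lit 5) (nat_lit 35) (nat_lit 4) (nat_lit 258) (nat_lit 235) (nat_lit 227)) (XT.lf (nat_lit 0) (nat_lit 5114890510) (nat_lit 228) (nat_lit 3882685405) (nat_lit 304) (nat_lit 994093260) (nat_lit 31) (nat_lit 5) (nat_lit 34) (nat_lit 5) (nat_lit 35) (nat_lit 4) (nat_lit 259) (nat_lit 235) (nat_lit 226)))) (XT.nd (nat_lit 156) (nat_lit 380) (nat_lit 0) (XT.nd (nat_lit 78) (nat_lit 152) (nat_lit 0) (XT.lf (nat_lit 0) (nat_lit 3183752247) (nat_lit 304) (nat_lit 7110014304) (nat_lit 76) (nat_lit 168839187) (nat_lit 27) (nat_lit 5) (nat_lit 31) (nat_lit 5) (nat_lit 28) (nat_lit 4) (nat_lit 260)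 (nat_lit 235) (nat_lit 225)) (XT.lf (nat_lit 0) (nat_lit 1070606672) (nat_lit 152) (nat_lit 6528866227) (nat_lit 228) (nat_lit 3374780264) (nat_lit 25) (nat_lit 5) (nat_lit 27) (nat_lit 5) (nat_lit 28) (nat_lit 4) (nat_lit 261) (nat_lit 235) (nat_lit 224))) (XT.nd (nat_lit 78) (nat_lit 304) (nat_lit 0) (XT.lf (nat_lit 0) (nat_lit 717957288) (nat_lit 228) (nat_lit 1697571133) (nat_lit 76) (nat_lit 9116166215) (nat_lit 24) (nat_lit 5) (nat_lit 27) (nat_lit 5) (nat_lit 25) (nat_lit 5) (nat_lit 262) (nat_lit 235) (nat_lit 223)) (XT.nd (nat_lit 78) (nat_lit 152) (nat_lit 0) (XT.lf (nat_lit 0) (nat_lit 4958140631) (nat_lit 228) (nat_lit 5133542820) (nat_lit 76) (nat_lit 2043001062) (nat_lit 22) (nat_lit 5) (nat_lit 25) (nat_lit 5) (nat_lit 23) (nat_lit 4) (nat_lit 263) (nat_lit 235) (nat_lit 222)) (XT.lf (nat_lit 0) (nat_lit 3447505408) (nat_lit 152) (nat_lit 6017956882) (nat_lit 228) (nat_lit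 3324640695) (nat_lit 20) (nat_lit 5) (nat_lit 22) (nat_lit 5) (nat_lit 23) (nat_lit 4) (nat_lit 264) (nat_lit 235) (nat_lit 221)))))) (XT.nd (nat_lit 312) (nat_lit 456) (nat_lit 0) (XT.nd (nat_lit 156) (nat_lit 76) (nat_lit 0) (XT.nd (nat_lit 78) (nat_lit 152) (nat_lit 0) (XT.lf (nat_lit 0) (nat_lit 709481144) (nat_lit 228) (nat_lit 897239545) (nat_lit 76) (nat_lit 11896058233) (nat_lit 19) (nat_lit 5) (nat_lit 22) (nat_lit 5) (nat_lit 20) (nat_lit 5) (nat_lit 265) (nat_lit 235) (nat_lit 220)) (XT.lf (nat_lit 0) (nat_lit 4953743301) (nat_lit 228) (nat_lit 6160821010) (nat_lit 76) (nat_lit 3155463159) (nat_lit 17) (nat_lit 5) (nat_lit 20) (nat_lit 5) (nat_lit 18) (nat_lit 4) (nat_lit 266) (nat_lit 235) (nat_lit 219))) (XT.nd (nat_lit 78) (nat_lit 0) (nat_lit 0) (XT.lf (nat_lit 0) (nat_lit 2562869288) (nat_lit 76) (nat_lit 6889354588) (nat_lit 152) (nat_lit 5651140875) (nat_lit 16) (nat_lit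 5) (nat_lit 17) (nat_lit 5) (nat_lit 18) (nat_lit 4) (nat_lit 267) (nat_lit 235) (nat_lit 218)) (XT.lf (nat_lit 0) (nat_lit 11953704282) (nat_lit 76) (nat_lit 2304434984) (nat_lit 152) (nat_lit 1748261857) (nat_lit 16) (nat_lit 5) (nat_lit 17) (nat_lit 5) (nat_lit 18) (nat_lit 4) (nat_lit 268) (nat_lit 235) (nat_lit 217)))) (XT.nd (nat_lit 156) (nat_lit 228) (nat_lit 0) (XT.nd (nat_lit 78) (nat_lit 0) (nat_lit 0) (XT.lf (nat_lit 0) (nat_lit 2357094025) (nat_lit 228) (nat_lit 12027579177) (nat_lit 76) (nat_lit 2596982918) (nat_lit 13) (nat_lit 5) (nat_lit 16) (nat_lit 5) (nat_lit 14) (nat_lit 4) (nat_lit 269) (nat_lit 235) (nat_lit 216)) (XT.lf (nat_lit 0) (nat_lit 6696641040) (nat_lit 228) (nat_lit 3508158423) (nat_lit 76) (nat_lit 7830683100) (nat_lit 13) (nat_lit 5) (nat_lit 16) (nat_lit 5) (nat_lit 14) (nat_lit 4) (nat_lit 270) (nat_lit 235) (nat_lit 215))) (XT.nd (nat_lit 78) (nat_lit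 152) (nat_lit 0) (XT.lf (nat_lit 0) (nat_lit 5657811828) (nat_lit 76) (nat_lit 5680156448) (nat_lit 152) (nat_lit 7838225942) (nat_lit 12) (nat_lit 5) (nat_lit 13) (nat_lit 5) (nat_lit 14) (nat_lit 4) (nat_lit 271) (nat_lit 235) (nat_lit 214)) (XT.nd (nat_lit 78) (nat_lit 152) (nat_lit 0) (XT.lf (nat_lit 0) (nat_lit 15475636417) (nat_lit 76) (nat_lit 809035172) (nat_lit 152) (nat_lit 4127074681) (nat_lit 12) (nat_lit 5) (nat_lit 13) (nat_lit 5) (nat_lit 14) (nat_lit 4) (nat_lit 272) (nat_lit 235) (nat_lit 213)) (XT.lf (nat_lit 0) (nat_lit 4201325331) (nat_lit 152) (nat_lit 17442103839) (nat_lit 152) (nat_lit 102163121) (nat_lit 10) (nat_lit 4) (nat_lit 12) (nat_lit 5) (nat_lit 12) (nat_lit 4) (nat_lit 273) (nat_lit 235) (nat_lit 212))))))) (XT.nd (nat_lit 702) (nat_lit 76) (nat_lit 0) (XT.nd (nat_lit 312) (nat_lit 228) (nat_lit 0) (XT.nd (nat_lit 156) (nat_lit 76) (nat_lit 0) (XT.nd (nat_lit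 78) (nat_lit 0) (nat_lit 0) (XT.lf (nat_lit 0) (nat_lit 4094913746) (nat_lit 228) (nat_lit 9209033685) (nat_lit 76) (nat_lit 9879817723) (nat_lit 9) (nat_lit 5) (nat_lit 12) (nat_lit 5) (nat_lit 10) (nat_lit 4) (nat_lit 274) (nat_lit 235) (nat_lit 211)) (XT.lf (nat_lit 0) (nat_lit 8517739561) (nat_lit 228) (nat_lit 386376086) (nat_lit 76) (nat_lit 15838331307) (nat_lit 9) (nat_lit 5) (nat_lit 12) (nat_lit 5) (nat_lit 10) (nat_lit 4) (nat_lit 275) (nat_lit 235) (nat_lit 210))) (XT.nd (nat_lit 78) (nat_lit 0) (nat_lit 0) (XT.lf (nat_lit 0) (nat_lit 9274422754) (nat_lit 76) (nat_lit 4066170497) (nat_lit 152) (nat_lit 13083120836) (nat_lit 8) (nat_lit 5) (nat_lit 9) (nat_lit 5) (nat_lit 10) (nat_lit 4) (nat_lit 276) (nat_lit 235) (nat_lit 209)) (XT.lf (nat_lit 0) (nat_lit 18479463913) (nat_lit 152) (nat_lit 8696707618) (nat_lit 0) (nat_lit 1066987626) (nat_lit 8) (nat_lit 5) (nat_lit 10)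 (nat_lit 4) (nat_lit 8) (nat_lit 4) (nat_lit 277) (nat_lit 235) (nat_lit 208)))) (XT.nd (nat_lit 156) (nat_lit 152) (nat_lit 0) (XT.nd (nat_lit 78) (nat_lit 0) (nat_lit 0) (XT.lf (nat_lit 0) (nat_lit 221304902) (nat_lit 76) (nat_lit 23792431321) (nat_lit 76) (nat_lit 6195381234) (nat_lit 7) (nat_lit 4) (nat_lit 8) (nat_lit 5) (nat_lit 8) (nat_lit 4) (nat_lit 278) (nat_lit 235) (nat_lit 207)) (XT.lf (nat_lit 0) (nat_lit 10020505389) (nat_lit 76) (nat_lit 20038278291) (nat_lit 76) (nat_lit 2270326538) (nat_lit 7) (nat_lit 4) (nat_lit 8) (nat_lit 5) (nat_lit 8) (nat_lit 4) (nat_lit 279) (nat_lit 235) (nat_lit 206))) (XT.nd (nat_lit 78) (nat_lit 76) (nat_lit 0) (XT.lf (nat_lit 0) (nat_lit 1827035432) (nat_lit 152) (nat_lit 14180771399) (nat_lit 76) (nat_lit 18613433587) (nat_lit 6) (nat_lit 5) (nat_lit 8) (nat_lit 5) (nat_lit 7) (nat_lit 4) (nat_lit 280) (nat_lit 235) (nat_lit 205)) (XT.nd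 (nat_lit 78) (nat_lit 76) (nat_lit 0) (XT.lf (nat_lit 0) (nat_lit 6100851743) (nat_lit 152) (nat_lit 5565968594) (nat_lit 76) (nat_lit 25431779652) (nat_lit 6) (nat_lit 5) (nat_lit 8) (nat_lit 5) (nat_lit 7) (nat_lit 4) (nat_lit 281) (nat_lit 235) (nat_lit 204)) (XT.lf (nat_lit 0) (nat_lit 3742070039) (nat_lit 76) (nat_lit 6965467502) (nat_lit 152) (nat_lit 29067183137) (nat_lit 5) (nat_lit 5) (nat_lit 6) (nat_lit 5) (nat_lit 7) (nat_lit 4) (nat_lit 282) (nat_lit 235) (nat_lit 203)))))) (XT.nd (nat_lit 312) (nat_lit 76) (nat_lit 0) (XT.nd (nat_lit 156) (nat_lit 0) (nat_lit 0) (XT.nd (nat_lit 78) (nat_lit 0) (nat_lit 0) (XT.lf (nat_lit 0) (nat_lit 13882821665) (nat_lit 76) (nat_lit 1832700975) (nat_lit 152) (nat_lit 26947881790) (nat_lit 5) (nat_lit 5) (nat_lit 6) (nat_lit 5) (nat_lit 7) (nat_lit 4) (nat_lit 283) (nat_lit 235) (nat_lit 202)) (XT.lf (nat_lit 0) (nat_lit 21121972335) (nat_lit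 152) (nat_lit 21111176524) (nat_lit 0) (nat_lit 3550246095) (nat_lit 5) (nat_lit 5) (nat_lit 7) (nat_lit 4) (nat_lit 5) (nat_lit 4) (nat_lit 284) (nat_lit 235) (nat_lit 201))) (XT.nd (nat_lit 78) (nat_lit 0) (nat_lit 0) (XT.lf (nat_lit 0) (nat_lit 26936184734) (nat_lit 152) (nat_lit 12956243470) (nat_lit 0) (nat_lit 9261889886) (nat_lit 5) (nat_lit 5) (nat_lit 7) (nat_lit 4) (nat_lit 5) (nat_lit 4) (nat_lit 285) (nat_lit 235) (nat_lit 200)) (XT.lf (nat_lit 0) (nat_lit 33164000832) (nat_lit 152) (nat_lit 4238844475) (nat_lit 0) (nat_lit 15394735049) (nat_lit 5) (nat_lit 5) (nat_lit 7) (nat_lit 4) (nat_lit 5) (nat_lit 4) (nat_lit 286) (nat_lit 235) (nat_lit 199)))) (XT.nd (nat_lit 156) (nat_lit 0) (nat_lit 0) (XT.nd (nat_lit 78) (nat_lit 0) (nat_lit 0) (XT.lf (nat_lit 0) (nat_lit 5261066090) (nat_lit 76) (nat_lit 34663400100) (nat_lit 76) (nat_lit 16806198267) (nat_lit 4) (nat_lit 4) (nat_lit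 5) (nat_lit 5) (nat_lit 5) (nat_lit 4) (nat_lit 287) (nat_lit 235) (nat_lit 198)) (XT.lf (nat_lit 0) (nat_lit 15592688648) (nat_lit 76) (nat_lit 31661493034) (nat_lit 76) (nat_lit 13722868932) (nat_lit 4) (nat_lit 4) (nat_lit 5) (nat_lit 5) (nat_lit 5) (nat_lit 4) (nat_lit 288) (nat_lit 235) (nat_lit 197))) (XT.nd (nat_lit 78) (nat_lit 0) (nat_lit 0) (XT.lf (nat_lit 0) (nat_lit 26677092286) (nat_lit 76) (nat_lit 28451121913) (nat_lit 76) (nat_lit 10437106822) (nat_lit 4) (nat_lit 4) (nat_lit 5) (nat_lit 5) (nat_lit 5) (nat_lit 4) (nat_lit 289) (nat_lit 235) (nat_lit 196)) (XT.nd (nat_lit 78) (nat_lit 0) (nat_lit 0) (XT.lf (nat_lit 0) (nat_lit 38579962360) (nat_lit 76) (nat_lit 25013262316) (nat_lit 76) (nat_lit 6929440753) (nat_lit 4) (nat_lit 4) (nat_lit 5) (nat_lit 5) (nat_lit 5) (nat_lit 4) (nat_lit 290) (nat_lit 235) (nat_lit 195)) (XT.lf (nat_lit 0) (nat_lit 51371834394) (nat_lit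 76) (nat_lit 21327541741) (nat_lit 76) (nat_lit 3179084556) (nat_lit 4) (nat_lit 4) (nat_lit 5) (nat_lit 5) (nat_lit 5) (nat_lit 4) (nat_lit 291) (nat_lit 235) (nat_lit 194))))))))
noncomputable def xc39 : XT := (XT.nd (nat_lit 1404) (nat_lit 76) (nat_lit 0) (XT.nd (nat_lit 702) (nat_lit 0) (nat_lit 0) (XT.nd (nat_lit 312) (nat_lit 0) (nat_lit 0) (XT.nd (nat_lit 156) (nat_lit 76) (nat_lit 0) (XT.nd (nat_lit 78) (nat_lit 0) (nat_lit 0) (XT.lf (nat_lit 0) (nat_lit 809422924) (nat_lit 152) (nat_lit 16548987988) (nat_lit 76) (nat_lit 64305381183) (nat_lit 3) (nat_lit 5) (nat_lit 5) (nat_lit 5) (nat_lit 4) (nat_lit 4) (nat_lit 292) (nat_lit 235) (nat_lit 193)) (XT.lf (nat_lit 0) (nat_lit 4975648022) (nat_lit 152) (nat_lit 8063641164) (nat_lit 76) (nat_lit 74871603429) (nat_lit 3) (nat_lit 5) (nat_lit 5) (nat_lit 5) (nat_lit 4) (nat_lit 4) (nat_lit 293) (nat_lit 235) (nat_lit 192))) (XT.nd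 (nat_lit 78) (nat_lit 0) (nat_lit 0) (XT.lf (nat_lit 0) (nat_lit 1084027788) (nat_lit 76) (nat_lit 8378926962) (nat_lit 152) (nat_lit 85195462843) (nat_lit 2) (nat_lit 5) (nat_lit 3) (nat_lit 5) (nat_lit 4) (nat_lit 4) (nat_lit 294) (nat_lit 235) (nat_lit 191)) (XT.lf (nat_lit 0) (nat_lit 11202484153) (nat_lit 76) (nat_lit 3219478147) (nat_lit 152) (nat_lit 87518188675) (nat_lit 2) (nat_lit 5) (nat_lit 3) (nat_lit 5) (nat_lit 4) (nat_lit 4) (nat_lit 295) (nat_lit 235) (nat_lit 190)))) (XT.nd (nat_lit 156) (nat_lit 0) (nat_lit 0) (XT.nd (nat_lit 78) (nat_lit 0) (nat_lit 0) (XT.lf (nat_lit 0) (nat_lit 19788424416) (nat_lit 152) (nat_lit 87757103714) (nat_lit 0) (nat_lit 2258397290) (nat_lit 2) (nat_lit 5) (nat_lit 4) (nat_lit 4) (nat_lit 2) (nat_lit 4) (nat_lit 296) (nat_lit 235) (nat_lit 189)) (XT.lf (nat_lit 0) (nat_lit 25614416919) (nat_lit 152) (nat_lit 84635312448) (nat_lit 0) (nat_lit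 8045597979) (nat_lit 2) (nat_lit 5) (nat_lit 4) (nat_lit 4) (nat_lit 2) (nat_lit 4) (nat_lit 297) (nat_lit 235) (nat_lit 188))) (XT.nd (nat_lit 78) (nat_lit 0) (nat_lit 0) (XT.lf (nat_lit 0) (nat_lit 31884199134) (nat_lit 152) (nat_lit 81303528445) (nat_lit 0) (nat_lit 14279461846) (nat_lit 2) (nat_lit 5) (nat_lit 4) (nat_lit 4) (nat_lit 2) (nat_lit 4) (nat_lit 298) (nat_lit 235) (nat_lit 187)) (XT.nd (nat_lit 78) (nat_lit 0) (nat_lit 0) (XT.lf (nat_lit 0) (nat_lit 38634925325) (nat_lit 152) (nat_lit 77742007799) (nat_lit 0) (nat_lit 20996930308) (nat_lit 2) (nat_lit 5) (nat_lit 4) (nat_lit 4) (nat_lit 2) (nat_lit 4) (nat_lit 299) (nat_lit 235) (nat_lit 186)) (XT.lf (nat_lit 0) (nat_lit 45906599796) (nat_lit 152) (nat_lit 73929645204) (nat_lit 0) (nat_lit 28237810585) (nat_lit 2) (nat_lit 5) (nat_lit 4) (nat_lit 4) (nat_lit 2) (nat_lit 4) (nat_lit 300) (nat_lit 235) (nat_lit 185))))))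 (XT.nd (nat_lit 312) (nat_lit 0) (nat_lit 0) (XT.nd (nat_lit 156) (nat_lit 0) (nat_lit 0) (XT.nd (nat_lit 78) (nat_lit 0) (nat_lit 0) (XT.lf (nat_lit 0) (nat_lit 53742313951) (nat_lit 152) (nat_lit 69843848881) (nat_lit 0) (nat_lit 36045011598) (nat_lit 2) (nat_lit 5) (nat_lit 4) (nat_lit 4) (nat_lit 2) (nat_lit 4) (nat_lit 301) (nat_lit 235) (nat_lit 184)) (XT.lf (nat_lit 0) (nat_lit 62188501651) (nat_lit 152) (nat_lit 65460406703) (nat_lit 0) (nat_lit 44464798241) (nat_lit 2) (nat_lit 5) (nat_lit 4) (nat_lit 4) (nat_lit 2) (nat_lit 4) (nat_lit 302) (nat_lit 235) (nat_lit 183))) (XT.nd (nat_lit 78) (nat_lit 0) (nat_lit 0) (XT.lf (nat_lit 0) (nat_lit 71295214380) (nat_lit 152) (nat_lit 60753342716) (nat_lit 0) (nat_lit 53547065546) (nat_lit 2) (nat_lit 5) (nat_lit 4) (nat_lit 4) (nat_lit 2) (nat_lit 4) (nat_lit 303) (nat_lit 235) (nat_lit 182)) (XT.lf (nat_lit 0) (nat_lit 81116417842)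 (nat_lit 152) (nat_lit 55694763209) (nat_lit 0) (nat_lit 63345634357) (nat_lit 2) (nat_lit 5) (nat_lit 4) (nat_lit 4) (nat_lit 2) (nat_lit 4) (nat_lit 304) (nat_lit 235) (nat_lit 181)))) (XT.nd (nat_lit 156) (nat_lit 0) (nat_lit 0) (XT.nd (nat_lit 78) (nat_lit 0) (nat_lit 0) (XT.lf (nat_lit 0) (nat_lit 91710311761) (nat_lit 152) (nat_lit 50254691413) (nat_lit 0) (nat_lit 73918570266) (nat_lit 2) (nat_lit 5) (nat_lit 4) (nat_lit 4) (nat_lit 2) (nat_lit 4) (nat_lit 305) (nat_lit 235) (nat_lit 180)) (XT.lf (nat_lit 0) (nat_lit 103139674769) (nat_lit 152) (nat_lit 44400889867) (nat_lit 0) (nat_lit 85328527708) (nat_lit 2) (nat_lit 5) (nat_lit 4) (nat_lit 4) (nat_lit 2) (nat_lit 4) (nat_lit 306) (nat_lit 235) (nat_lit 179))) (XT.nd (nat_lit 78) (nat_lit 0) (nat_lit 0) (XT.lf (nat_lit 0) (nat_lit 115472236424) (nat_lit 152) (nat_lit 38098669376) (nat_lit 0) (nat_lit 97643121247) (nat_lit 2)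 (nat_lit 5) (nat_lit 4) (nat_lit 4) (nat_lit 2) (nat_lit 4) (nat_lit 307) (nat_lit 235) (nat_lit 178)) (XT.nd (nat_lit 78) (nat_lit 0) (nat_lit 0) (XT.lf (nat_lit 0) (nat_lit 128781078572) (nat_lit 152) (nat_lit 31310683448) (nat_lit 0) (nat_lit 110935326250) (nat_lit 2) (nat_lit 5) (nat_lit 4) (nat_lit 4) (nat_lit 2) (nat_lit 4) (nat_lit 308) (nat_lit 235) (nat_lit 177)) (XT.lf (nat_lit 0) (nat_lit 143145068427) (nat_lit 152) (nat_lit 23996706981) (nat_lit 0) (nat_lit 125283911341) (nat_lit 2) (nat_lit 5) (nat_lit 4) (nat_lit 4) (nat_lit 2) (nat_lit 4) (nat_lit 309) (nat_lit 235) (nat_lit 176))))))) (XT.nd (nat_lit 702) (nat_lit 0) (nat_lit 0) (XT.nd (nat_lit 312) (nat_lit 0) (nat_lit 0) (XT.nd (nat_lit 156) (nat_lit 76) (nat_lit 0) (XT.nd (nat_lit 78) (nat_lit 0) (nat_lit 0) (XT.lf (nat_lit 0) (nat_lit 158649325928) (nat_lit 152) (nat_lit 16113397893) (nat_lit 0) (nat_lit 140773905172)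 (nat_lit 2) (nat_lit 5) (nat_lit 4) (nat_lit 4) (nat_lit 2) (nat_lit 4) (nat_lit 310) (nat_lit 235) (nat_lit 175)) (XT.lf (nat_lit 0) (nat_lit 175385728156) (nat_lit 152) (nat_lit 7614040278) (nat_lit 0) (nat_lit 157497100299) (nat_lit 2) (nat_lit 5) (nat_lit 4) (nat_lit 4) (nat_lit 2) (nat_lit 4) (nat_lit 311) (nat_lit 235) (nat_lit 174))) (XT.nd (nat_lit 78) (nat_lit 0) (nat_lit 0) (XT.lf (nat_lit 0) (nat_lit 1603039709) (nat_lit 76) (nat_lit 191875442025) (nat_lit 76) (nat_lit 173974585370) (nat_lit 1) (nat_lit 4) (nat_lit 2) (nat_lit 5) (nat_lit 2) (nat_lit 4) (nat_lit 312) (nat_lit 235) (nat_lit 173)) (XT.lf (nat_lit 0) (nat_lit 11816435650) (nat_lit 76) (nat_lit 201327622865) (nat_lit 76) (nat_lit 183415443249) (nat_lit 1) (nat_lit 4) (nat_lit 2) (nat_lit 5) (nat_lit 2) (nat_lit 4) (nat_lit 313) (nat_lit 235) (nat_lit 172)))) (XT.nd (nat_lit 156) (nat_lit 0) (nat_lit 0) (XT.nd (nat_lit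 78) (nat_lit 0) (nat_lit 0) (XT.lf (nat_lit 0) (nat_lit 22834916815) (nat_lit 76) (nat_lit 211541271335) (nat_lit 76) (nat_lit 193618607496) (nat_lit 1) (nat_lit 4) (nat_lit 2) (nat_lit 5) (nat_lit 2) (nat_lit 4) (nat_lit 314) (nat_lit 235) (nat_lit 171)) (XT.lf (nat_lit 0) (nat_lit 34723777905) (nat_lit 76) (nat_lit 222576912758) (nat_lit 76) (nat_lit 204644541305) (nat_lit 1) (nat_lit 4) (nat_lit 2) (nat_lit 5) (nat_lit 2) (nat_lit 4) (nat_lit 315) (nat_lit 235) (nat_lit 170))) (XT.nd (nat_lit 78) (nat_lit 0) (nat_lit 0) (XT.lf (nat_lit 0) (nat_lit 47553471433) (nat_lit 76) (nat_lit 234499943529) (nat_lit 76) (nat_lit 216558583544) (nat_lit 1) (nat_lit 4) (nat_lit 2) (nat_lit 5) (nat_lit 2) (nat_lit 4) (nat_lit 316) (nat_lit 235) (nat_lit 169)) (XT.nd (nat_lit 78) (nat_lit 0) (nat_lit 0) (XT.lf (nat_lit 0) (nat_lit 61400025210) (nat_lit 76) (nat_lit 247381018644) (nat_lit 76) (nat_lit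 229431335945) (nat_lit 1) (nat_lit 4) (nat_lit 2) (nat_lit 5) (nat_lit 2) (nat_lit 4) (nat_lit 317) (nat_lit 235) (nat_lit 168)) (XT.lf (nat_lit 0) (nat_lit 76345492889) (nat_lit 76) (nat_lit 261296470401) (nat_lit 76) (nat_lit 243339081485) (nat_lit 1) (nat_lit 4) (nat_lit 2) (nat_lit 5) (nat_lit 2) (nat_lit 4) (nat_lit 318) (nat_lit 235) (nat_lit 167)))))) (XT.nd (nat_lit 31980) (nat_lit 0) (nat_lit 4028) (XT.nd (nat_lit 156) (nat_lit 0) (nat_lit 0) (XT.nd (nat_lit 78) (nat_lit 0) (nat_lit 0) (XT.lf (nat_lit 0) (nat_lit 92478440205) (nat_lit 76) (nat_lit 276328760735) (nat_lit 76) (nat_lit 258364236433) (nat_lit 1) (nat_lit 4) (nat_lit 2) (nat_lit 5) (nat_lit 2) (nat_lit 4) (nat_lit 319) (nat_lit 235) (nat_lit 166)) (XT.lf (nat_lit 0) (nat_lit 109894469809) (nat_lit 76) (nat_lit 292566969886) (nat_lit 76) (nat_lit 274595838745) (nat_lit 1) (nat_lit 4) (nat_lit 2) (nat_lit 5) (nat_lit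 2) (nat_lit 4) (nat_lit 320) (nat_lit 235) (nat_lit 165))) (XT.nd (nat_lit 78) (nat_lit 0) (nat_lit 0) (XT.lf (nat_lit 0) (nat_lit 128696787800) (nat_lit 76) (nat_lit 310107324279) (nat_lit 76) (nat_lit 292130075694) (nat_lit 1) (nat_lit 4) (nat_lit 2) (nat_lit 5) (nat_lit 2) (nat_lit 4) (nat_lit 321) (nat_lit 235) (nat_lit 164)) (XT.nd (nat_lit 78) (nat_lit 0) (nat_lit 0) (XT.lf (nat_lit 0) (nat_lit 148996815325) (nat_lit 76) (nat_lit 329053766754) (nat_lit 76) (nat_lit 311070853870) (nat_lit 1) (nat_lit 4) (nat_lit 2) (nat_lit 5) (nat_lit 2) (nat_lit 4) (nat_lit 322) (nat_lit 235) (nat_lit 163)) (XT.lf (nat_lit 0) (nat_lit 170914848840) (nat_lit 76) (nat_lit 349518572526) (nat_lit 76) (nat_lit 331530414920) (nat_lit 1) (nat_lit 4) (nat_lit 2) (nat_lit 5) (nat_lit 2) (nat_lit 4) (nat_lit 323) (nat_lit 235) (nat_lit 162))))) (XT.nd (nat_lit 156) (nat_lit 1748) (nat_lit 0) (XT.nd (nat_lit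 78) (nat_lit 532) (nat_lit 0) (XT.lf (nat_lit 0) (nat_lit 820613064) (nat_lit 532) (nat_lit 1841086798) (nat_lit 0) (nat_lit 820613064) (nat_lit 84) (nat_lit 5) (nat_lit 91) (nat_lit 4) (nat_lit 84) (nat_lit 4) (nat_lit 248) (nat_lit 236) (nat_lit 236)) (XT.lf (nat_lit 0) (nat_lit 2802789394) (nat_lit 532) (nat_lit 3451327293) (nat_lit 532) (nat_lit 857576796) (nat_lit 77) (nat_lit 4) (nat_lit 84) (nat_lit 5) (nat_lit 84) (nat_lit 4) (nat_lit 249) (nat_lit 236) (nat_lit 235))) (XT.nd (nat_lit 78) (nat_lit 1064) (nat_lit 0) (XT.lf (nat_lit 0) (nat_lit 2331156825) (nat_lit 608) (nat_lit 1242759347) (nat_lit 684) (nat_lit 3708882649) (nat_lit 68) (nat_lit 5) (nat_lit 76) (nat_lit 5) (nat_lit 77) (nat_lit 4) (nat_lit 250) (nat_lit 236) (nat_lit 234)) (XT.nd (nat_lit 78) (nat_lit 304) (nat_lit 0) (XT.lf (nat_lit 0) (nat_lit 609215919) (nat_lit 760) (nat_lit 5626435287) (nat_lit 76) (nat_lit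 1243754599) (nat_lit 58) (nat_lit 5) (nat_lit 68) (nat_lit 5) (nat_lit 59) (nat_lit 4) (nat_lit 251) (nat_lit 236) (nat_lit 233)) (XT.lf (nat_lit 0) (nat_lit 1295372339) (nat_lit 304) (nat_lit 3646898529) (nat_lit 380) (nat_lit 2758200535) (nat_lit 54) (nat_lit 5) (nat_lit 58) (nat_lit 5) (nat_lit 59) (nat_lit 4) (nat_lit 252) (nat_lit 236) (nat_lit 232))))))))
noncomputable def xc40 : XT := (XT.nd (nat_lit 1404) (nat_lit 684) (nat_lit 0) (XT.nd (nat_lit 702) (nat_lit 1064) (nat_lit 0) (XT.nd (nat_lit 312) (nat_lit 1064) (nat_lit 0) (XT.nd (nat_lit 156) (nat_lit 608) (nat_lit 0) (XT.nd (nat_lit 78) (nat_lit 0) (nat_lit 0) (XT.lf (nat_lit 0) (nat_lit 682202755) (nat_lit 304) (nat_lit 738407246) (nat_lit 380) (nat_lit 6529249293) (nat_lit 49) (nat_lit 5) (nat_lit 53) (nat_lit 5) (nat_lit 54) (nat_lit 5) (nat_lit 253) (nat_lit 236) (nat_lit 231)) (XT.lf (nat_lit 0) (nat_lit 5688602941) (nat_lit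 380) (nat_lit 84254348) (nat_lit 76) (nat_lit 2452927394) (nat_lit 49) (nat_lit 5) (nat_lit 54) (nat_lit 5) (nat_lit 50) (nat_lit 4) (nat_lit 254) (nat_lit 236) (nat_lit 230))) (XT.nd (nat_lit 78) (nat_lit 304) (nat_lit 0) (XT.lf (nat_lit 0) (nat_lit 1566140816) (nat_lit 304) (nat_lit 977840577) (nat_lit 76) (nat_lit 5987238548) (nat_lit 45) (nat_lit 5) (nat_lit 49) (nat_lit 5) (nat_lit 46) (nat_lit 5) (nat_lit 255) (nat_lit 236) (nat_lit 229)) (XT.lf (nat_lit 0) (nat_lit 5765924424) (nat_lit 380) (nat_lit 2085718596) (nat_lit 76) (nat_lit 1015674842) (nat_lit 41) (nat_lit 5) (nat_lit 46) (nat_lit 5) (nat_lit 42) (nat_lit 4) (nat_lit 256) (nat_lit 236) (nat_lit 228)))) (XT.nd (nat_lit 156) (nat_lit 532) (nat_lit 0) (XT.nd (nat_lit 78) (nat_lit 228) (nat_lit 0) (XT.lf (nat_lit 0) (nat_lit 931104122) (nat_lit 304) (nat_lit 3461151562) (nat_lit 76) (nat_lit 4843535660) (nat_lit 37) (nat_lit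 5) (nat_lit 41) (nat_lit 5) (nat_lit 38) (nat_lit 5) (nat_lit 257) (nat_lit 236) (nat_lit 227)) (XT.lf (nat_lit 0) (nat_lit 4482784596) (nat_lit 228) (nat_lit 558402340) (nat_lit 304) (nat_lit 4597780098) (nat_lit 34) (nat_lit 5) (nat_lit 37) (nat_lit 5) (nat_lit 38) (nat_lit 5) (nat_lit 258) (nat_lit 236) (nat_lit 226))) (XT.nd (nat_lit 78) (nat_lit 304) (nat_lit 0) (XT.lf (nat_lit 0) (nat_lit 2836426840) (nat_lit 228) (nat_lit 6572770001) (nat_lit 304) (nat_lit 669622258) (nat_lit 31) (nat_lit 5) (nat_lit 34) (nat_lit 5) (nat_lit 35) (nat_lit 4) (nat_lit 259) (nat_lit 236) (nat_lit 225)) (XT.nd (nat_lit 78) (nat_lit 0) (nat_lit 0) (XT.lf (nat_lit 0) (nat_lit 754145954) (nat_lit 228) (nat_lit 2592563474) (nat_lit 304) (nat_lit 7210721756) (nat_lit 27) (nat_lit 5) (nat_lit 30) (nat_lit 5) (nat_lit 31) (nat_lit 5) (nat_lit 260) (nat_lit 236) (nat_lit 224)) (XT.lf (nat_lit 0) (nat_lit 7602621441)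 (nat_lit 304) (nat_lit 1762253129) (nat_lit 76) (nat_lit 1712539270) (nat_lit 27) (nat_lit 5) (nat_lit 31) (nat_lit 5) (nat_lit 28) (nat_lit 4) (nat_lit 261) (nat_lit 236) (nat_lit 223)))))) (XT.nd (nat_lit 312) (nat_lit 532) (nat_lit 0) (XT.nd (nat_lit 156) (nat_lit 152) (nat_lit 0) (XT.nd (nat_lit 78) (nat_lit 152) (nat_lit 0) (XT.lf (nat_lit 0) (nat_lit 493161909) (nat_lit 228) (nat_lit 4834297653) (nat_lit 76) (nat_lit 6314177092) (nat_lit 24) (nat_lit 5) (nat_lit 27) (nat_lit 5) (nat_lit 25) (nat_lit 5) (nat_lit 262) (nat_lit 236) (nat_lit 222)) (XT.lf (nat_lit 0) (nat_lit 3658472321) (nat_lit 152) (nat_lit 897438173) (nat_lit 228) (nat_lit 7697869307) (nat_lit 22) (nat_lit 5) (nat_lit 24) (nat_lit 5) (nat_lit 25) (nat_lit 5) (nat_lit 263) (nat_lit 236) (nat_lit 221))) (XT.nd (nat_lit 78) (nat_lit 152) (nat_lit 0) (XT.lf (nat_lit 0) (nat_lit 8907838806) (nat_lit 228) (nat_lit 241268525)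 (nat_lit 76) (nat_lit 3768121287) (nat_lit 22) (nat_lit 5) (nat_lit 25) (nat_lit 5) (nat_lit 23) (nat_lit 4) (nat_lit 264) (nat_lit 236) (nat_lit 220)) (XT.lf (nat_lit 0) (nat_lit 8795803481) (nat_lit 152) (nat_lit 4795949959) (nat_lit 228) (nat_lit 43310344) (nat_lit 20) (nat_lit 5) (nat_lit 22) (nat_lit 5) (nat_lit 23) (nat_lit 4) (nat_lit 265) (nat_lit 236) (nat_lit 219)))) (XT.nd (nat_lit 156) (nat_lit 304) (nat_lit 0) (XT.nd (nat_lit 78) (nat_lit 0) (nat_lit 0) (XT.lf (nat_lit 0) (nat_lit 3968518825) (nat_lit 152) (nat_lit 39093290) (nat_lit 228) (nat_lit 10404683169) (nat_lit 17) (nat_lit 5) (nat_lit 19) (nat_lit 5) (nat_lit 20) (nat_lit 5) (nat_lit 266) (nat_lit 236) (nat_lit 218)) (XT.lf (nat_lit 0) (nat_lit 8390542693) (nat_lit 228) (nat_lit 1918198746) (nat_lit 76) (nat_lit 4942865705) (nat_lit 17) (nat_lit 5) (nat_lit 20) (nat_lit 5) (nat_lit 18) (nat_lit 4) (nat_lit 267) (nat_lit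 236) (nat_lit 217))) (XT.nd (nat_lit 78) (nat_lit 228) (nat_lit 0) (XT.lf (nat_lit 0) (nat_lit 7297588241) (nat_lit 76) (nat_lit 5796812403) (nat_lit 152) (nat_lit 3065528227) (nat_lit 16) (nat_lit 5) (nat_lit 17) (nat_lit 5) (nat_lit 18) (nat_lit 4) (nat_lit 268) (nat_lit 236) (nat_lit 216)) (XT.nd (nat_lit 78) (nat_lit 152) (nat_lit 0) (XT.lf (nat_lit 0) (nat_lit 894974120) (nat_lit 152) (nat_lit 56723146) (nat_lit 76) (nat_lit 16194026545) (nat_lit 15) (nat_lit 5) (nat_lit 17) (nat_lit 5) (nat_lit 16) (nat_lit 5) (nat_lit 269) (nat_lit 236) (nat_lit 215)) (XT.lf (nat_lit 0) (nat_lit 5154445163) (nat_lit 228) (nat_lit 8773962984) (nat_lit 76) (nat_lit 4275294905) (nat_lit 13) (nat_lit 5) (nat_lit 16) (nat_lit 5) (nat_lit 14) (nat_lit 4) (nat_lit 270) (nat_lit 236) (nat_lit 214))))))) (XT.nd (nat_lit 702) (nat_lit 228) (nat_lit 0) (XT.nd (nat_lit 312) (nat_lit 152) (nat_lit 0) (XT.nd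 (nat_lit 156) (nat_lit 228) (nat_lit 0) (XT.nd (nat_lit 78) (nat_lit 0) (nat_lit 0) (XT.lf (nat_lit 0) (nat_lit 118521713) (nat_lit 76) (nat_lit 9531241451) (nat_lit 152) (nat_lit 9702089967) (nat_lit 12) (nat_lit 5) (nat_lit 13) (nat_lit 5) (nat_lit 14) (nat_lit 4) (nat_lit 271) (nat_lit 236) (nat_lit 213)) (XT.lf (nat_lit 0) (nat_lit 9844333086) (nat_lit 76) (nat_lit 4695580704) (nat_lit 152) (nat_lit 6050446769) (nat_lit 12) (nat_lit 5) (nat_lit 13) (nat_lit 5) (nat_lit 14) (nat_lit 4) (nat_lit 272) (nat_lit 236) (nat_lit 212))) (XT.nd (nat_lit 78) (nat_lit 228) (nat_lit 0) (XT.lf (nat_lit 0) (nat_lit 19719520814) (nat_lit 152) (nat_lit 1769802324) (nat_lit 0) (nat_lit 443959251) (nat_lit 12) (nat_lit 5) (nat_lit 14) (nat_lit 4) (nat_lit 12) (nat_lit 4) (nat_lit 273) (nat_lit 236) (nat_lit 211)) (XT.lf (nat_lit 0) (nat_lit 1970691402) (nat_lit 228) (nat_lit 15479779510) (nat_lit 76)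 (nat_lit 5926747454) (nat_lit 9) (nat_lit 5) (nat_lit 12) (nat_lit 5) (nat_lit 10) (nat_lit 4) (nat_lit 274) (nat_lit 236) (nat_lit 210)))) (XT.nd (nat_lit 156) (nat_lit 76) (nat_lit 0) (XT.nd (nat_lit 78) (nat_lit 76) (nat_lit 0) (XT.lf (nat_lit 0) (nat_lit 6346114371) (nat_lit 228) (nat_lit 6736213648) (nat_lit 76) (nat_lit 11856038866) (nat_lit 9) (nat_lit 5) (nat_lit 12) (nat_lit 5) (nat_lit 10) (nat_lit 4) (nat_lit 275) (nat_lit 236) (nat_lit 209)) (XT.lf (nat_lit 0) (nat_lit 2638976378) (nat_lit 76) (nat_lit 8382502244) (nat_lit 152) (nat_lit 15605619291) (nat_lit 8) (nat_lit 5) (nat_lit 9) (nat_lit 5) (nat_lit 10) (nat_lit 4) (nat_lit 276) (nat_lit 236) (nat_lit 208))) (XT.nd (nat_lit 78) (nat_lit 76) (nat_lit 0) (XT.lf (nat_lit 0) (nat_lit 12859024645) (nat_lit 76) (nat_lit 3242381175) (nat_lit 152) (nat_lit 12348167136) (nat_lit 8) (nat_lit 5) (nat_lit 9) (nat_lit 5) (nat_lit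 10) (nat_lit 4) (nat_lit 277) (nat_lit 236) (nat_lit 207)) (XT.nd (nat_lit 78) (nat_lit 76) (nat_lit 0) (XT.lf (nat_lit 0) (nat_lit 21542548354) (nat_lit 152) (nat_lit 6695457262) (nat_lit 0) (nat_lit 2182258795) (nat_lit 8) (nat_lit 5) (nat_lit 10) (nat_lit 4) (nat_lit 8) (nat_lit 4) (nat_lit 278) (nat_lit 236) (nat_lit 206)) (XT.lf (nat_lit 0) (nat_lit 2818788494) (nat_lit 76) (nat_lit 24623664329) (nat_lit 76) (nat_lit 5105132486) (nat_lit 7) (nat_lit 4) (nat_lit 8) (nat_lit 5) (nat_lit 8) (nat_lit 4) (nat_lit 279) (nat_lit 236) (nat_lit 205)))))) (XT.nd (nat_lit 312) (nat_lit 76) (nat_lit 0) (XT.nd (nat_lit 156) (nat_lit 76) (nat_lit 0) (XT.nd (nat_lit 78) (nat_lit 76) (nat_lit 0) (XT.lf (nat_lit 0) (nat_lit 13210830264) (nat_lit 76) (nat_lit 20648598427) (nat_lit 76) (nat_lit 983545951) (nat_lit 7) (nat_lit 4) (nat_lit 8) (nat_lit 5) (nat_lit 8) (nat_lit 4) (nat_lit 280) (nat_lit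 236) (nat_lit 204)) (XT.lf (nat_lit 0) (nat_lit 3289317271) (nat_lit 152) (nat_lit 13057619321) (nat_lit 76) (nat_lit 20975845013) (nat_lit 6) (nat_lit 5) (nat_lit 8) (nat_lit 5) (nat_lit 7) (nat_lit 4) (nat_lit 281) (nat_lit 236) (nat_lit 203))) (XT.nd (nat_lit 78) (nat_lit 76) (nat_lit 0) (XT.lf (nat_lit 0) (nat_lit 7807548591) (nat_lit 152) (nat_lit 3920862943) (nat_lit 76) (nat_lit 28274967152) (nat_lit 6) (nat_lit 5) (nat_lit 8) (nat_lit 5) (nat_lit 7) (nat_lit 4) (nat_lit 282) (nat_lit 236) (nat_lit 202)) (XT.lf (nat_lit 0) (nat_lit 6040973278) (nat_lit 76) (nat_lit 6682745568) (nat_lit 152) (nat_lit 30172984027) (nat_lit 5) (nat_lit 5) (nat_lit 6) (nat_lit 5) (nat_lit 7) (nat_lit 4) (nat_lit 283) (nat_lit 236) (nat_lit 201)))) (XT.nd (nat_lit 156) (nat_lit 76) (nat_lit 0) (XT.nd (nat_lit 78) (nat_lit 0) (nat_lit 0) (XT.lf (nat_lit 0) (nat_lit 16844871135) (nat_lit 76) (nat_lit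 1201576929) (nat_lit 152) (nat_lit 27974477370) (nat_lit 5) (nat_lit 5) (nat_lit 6) (nat_lit 5) (nat_lit 7) (nat_lit 4) (nat_lit 284) (nat_lit 236) (nat_lit 200)) (XT.lf (nat_lit 0) (nat_lit 23817124858) (nat_lit 152) (nat_lit 21045596216) (nat_lit 0) (nat_lit 4531346879) (nat_lit 5) (nat_lit 5) (nat_lit 7) (nat_lit 4) (nat_lit 5) (nat_lit 4) (nat_lit 285) (nat_lit 236) (nat_lit 199))) (XT.nd (nat_lit 78) (nat_lit 76) (nat_lit 0) (XT.lf (nat_lit 0) (nat_lit 30022000565) (nat_lit 152) (nat_lit 12368229586) (nat_lit 0) (nat_lit 10648286535) (nat_lit 5) (nat_lit 5) (nat_lit 7) (nat_lit 4) (nat_lit 5) (nat_lit 4) (nat_lit 286) (nat_lit 236) (nat_lit 198)) (XT.nd (nat_lit 78) (nat_lit 76) (nat_lit 0) (XT.lf (nat_lit 0) (nat_lit 36679084836) (nat_lit 152) (nat_lit 3073772995) (nat_lit 0) (nat_lit 17223948537) (nat_lit 5) (nat_lit 5) (nat_lit 7) (nat_lit 4) (nat_lit 5) (nat_lit 4) (nat_lit 287)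 (nat_lit 236) (nat_lit 197)) (XT.lf (nat_lit 0) (nat_lit 7120760628) (nat_lit 76) (nat_lit 36818241459) (nat_lit 76) (nat_lit 17287714171) (nat_lit 4) (nat_lit 4) (nat_lit 5) (nat_lit 5) (nat_lit 5) (nat_lit 4) (nat_lit 288) (nat_lit 236) (nat_lit 196))))))))
noncomputable def xc41 : XT := (XT.nd (nat_lit 1404) (nat_lit 76) (nat_lit 0) (XT.nd (nat_lit 702) (nat_lit 0) (nat_lit 0) (XT.nd (nat_lit 312) (nat_lit 152) (nat_lit 0) (XT.nd (nat_lit 156) (nat_lit 0) (nat_lit 0) (XT.nd (nat_lit 78) (nat_lit 0) (nat_lit 0) (XT.lf (nat_lit 0) (nat_lit 18172334527) (nat_lit 76) (nat_lit 33621976691) (nat_lit 76) (nat_lit 14021642931) (nat_lit 4) (nat_lit 4) (nat_lit 5) (nat_lit 5) (nat_lit 5) (nat_lit 4) (nat_lit 289) (nat_lit 236) (nat_lit 195)) (XT.lf (nat_lit 0) (nat_lit 30044806695) (nat_lit 76) (nat_lit 30197178531) (nat_lit 76) (nat_lit 10532209149) (nat_lit 4) (nat_lit 4) (nat_lit 5) (nat_lit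 5) (nat_lit 5) (nat_lit 4) (nat_lit 290) (nat_lit 236) (nat_lit 194))) (XT.nd (nat_lit 78) (nat_lit 0) (nat_lit 0) (XT.lf (nat_lit 0) (nat_lit 42808532520) (nat_lit 76) (nat_lit 26523551880) (nat_lit 76) (nat_lit 6798734700) (nat_lit 4) (nat_lit 4) (nat_lit 5) (nat_lit 5) (nat_lit 5) (nat_lit 4) (nat_lit 291) (nat_lit 236) (nat_lit 193)) (XT.lf (nat_lit 0) (nat_lit 56539148897) (nat_lit 76) (nat_lit 22579327097) (nat_lit 76) (nat_lit 2799095289) (nat_lit 4) (nat_lit 4) (nat_lit 5) (nat_lit 5) (nat_lit 5) (nat_lit 4) (nat_lit 292) (nat_lit 236) (nat_lit 192)))) (XT.nd (nat_lit 156) (nat_lit 76) (nat_lit 0) (XT.nd (nat_lit 78) (nat_lit 0) (nat_lit 0) (XT.lf (nat_lit 0) (nat_lit 1442708199) (nat_lit 152) (nat_lit 16873989839) (nat_lit 76) (nat_lit 69850881281) (nat_lit 3) (nat_lit 5) (nat_lit 5) (nat_lit 5) (nat_lit 4) (nat_lit 4) (nat_lit 293) (nat_lit 236) (nat_lit 191)) (XT.lf (nat_lit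 0) (nat_lit 5900117865) (nat_lit 152) (nat_lit 7783809135) (nat_lit 76) (nat_lit 81232692447) (nat_lit 3) (nat_lit 5) (nat_lit 5) (nat_lit 5) (nat_lit 4) (nat_lit 4) (nat_lit 294) (nat_lit 236) (nat_lit 190))) (XT.nd (nat_lit 78) (nat_lit 0) (nat_lit 0) (XT.lf (nat_lit 0) (nat_lit 2055477293) (nat_lit 76) (nat_lit 8665750985) (nat_lit 152) (nat_lit 91484038201) (nat_lit 2) (nat_lit 5) (nat_lit 3) (nat_lit 5) (nat_lit 4) (nat_lit 4) (nat_lit 295) (nat_lit 236) (nat_lit 189)) (XT.nd (nat_lit 78) (nat_lit 0) (nat_lit 0) (XT.lf (nat_lit 0) (nat_lit 12917874813) (nat_lit 76) (nat_lit 3121952941) (nat_lit 152) (nat_lit 94031623705) (nat_lit 2) (nat_lit 5) (nat_lit 3) (nat_lit 5) (nat_lit 4) (nat_lit 4) (nat_lit 296) (nat_lit 236) (nat_lit 188)) (XT.lf (nat_lit 0) (nat_lit 21806361627) (nat_lit 152) (nat_lit 94002153794) (nat_lit 0) (nat_lit 2757327008) (nat_lit 2) (nat_lit 5) (nat_lit 4) (nat_lit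 4) (nat_lit 2) (nat_lit 4) (nat_lit 297) (nat_lit 236) (nat_lit 187)))))) (XT.nd (nat_lit 312) (nat_lit 0) (nat_lit 0) (XT.nd (nat_lit 156) (nat_lit 0) (nat_lit 0) (XT.nd (nat_lit 78) (nat_lit 0) (nat_lit 0) (XT.lf (nat_lit 0) (nat_lit 28066221437) (nat_lit 152) (nat_lit 90688065021) (nat_lit 0) (nat_lit 8983929090) (nat_lit 2) (nat_lit 5) (nat_lit 4) (nat_lit 4) (nat_lit 2) (nat_lit 4) (nat_lit 298) (nat_lit 236) (nat_lit 186)) (XT.lf (nat_lit 0) (nat_lit 34807760217) (nat_lit 152) (nat_lit 87142928848) (nat_lit 0) (nat_lit 15694673676) (nat_lit 2) (nat_lit 5) (nat_lit 4) (nat_lit 4) (nat_lit 2) (nat_lit 4) (nat_lit 299) (nat_lit 236) (nat_lit 185))) (XT.nd (nat_lit 78) (nat_lit 0) (nat_lit 0) (XT.lf (nat_lit 0) (nat_lit 42070927825) (nat_lit 152) (nat_lit 83345737060) (nat_lit 0) (nat_lit 22929328142) (nat_lit 2) (nat_lit 5) (nat_lit 4) (nat_lit 4) (nat_lit 2) (nat_lit 4) (nat_lit 300)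 (nat_lit 236) (nat_lit 184)) (XT.lf (nat_lit 0) (nat_lit 49898765256) (nat_lit 152) (nat_lit 79273987780) (nat_lit 0) (nat_lit 30730764515) (nat_lit 2) (nat_lit 5) (nat_lit 4) (nat_lit 4) (nat_lit 2) (nat_lit 4) (nat_lit 301) (nat_lit 236) (nat_lit 183)))) (XT.nd (nat_lit 156) (nat_lit 0) (nat_lit 0) (XT.nd (nat_lit 78) (nat_lit 0) (nat_lit 0) (XT.lf (nat_lit 0) (nat_lit 58337659693) (nat_lit 152) (nat_lit 74903552124) (nat_lit 0) (nat_lit 39145213529) (nat_lit 2) (nat_lit 5) (nat_lit 4) (nat_lit 4) (nat_lit 2) (nat_lit 4) (nat_lit 302) (nat_lit 236) (nat_lit 182)) (XT.lf (nat_lit 0) (nat_lit 67437619400) (nat_lit 152) (nat_lit 70208531214) (nat_lit 0) (nat_lit 48222538584) (nat_lit 2) (nat_lit 5) (nat_lit 4) (nat_lit 4) (nat_lit 2) (nat_lit 4) (nat_lit 303) (nat_lit 236) (nat_lit 181))) (XT.nd (nat_lit 78) (nat_lit 0) (nat_lit 0) (XT.lf (nat_lit 0) (nat_lit 77252570064) (nat_lit 152)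 (nat_lit 65161102703) (nat_lit 0) (nat_lit 58016531238) (nat_lit 2) (nat_lit 5) (nat_lit 4) (nat_lit 4) (nat_lit 2) (nat_lit 4) (nat_lit 304) (nat_lit 236) (nat_lit 180)) (XT.nd (nat_lit 78) (nat_lit 0) (nat_lit 0) (XT.lf (nat_lit 0) (nat_lit 87840674356) (nat_lit 152) (nat_lit 59731355904) (nat_lit 0) (nat_lit 68585229965) (nat_lit 2) (nat_lit 5) (nat_lit 4) (nat_lit 4) (nat_lit 2) (nat_lit 4) (nat_lit 305) (nat_lit 236) (nat_lit 179)) (XT.lf (nat_lit 0) (nat_lit 99264676598) (nat_lit 152) (nat_lit 53887114540) (nat_lit 0) (nat_lit 79991264090) (nat_lit 2) (nat_lit 5) (nat_lit 4) (nat_lit 4) (nat_lit 2) (nat_lit 4) (nat_lit 306) (nat_lit 236) (nat_lit 178))))))) (XT.nd (nat_lit 702) (nat_lit 0) (nat_lit 0) (XT.nd (nat_lit 312) (nat_lit 76) (nat_lit 0) (XT.nd (nat_lit 156) (nat_lit 0) (nat_lit 0) (XT.nd (nat_lit 78) (nat_lit 0) (nat_lit 0) (XT.lf (nat_lit 0) (nat_lit 111592274580) (nat_lit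 152) (nat_lit 47593746069) (nat_lit 0) (nat_lit 92302224928) (nat_lit 2) (nat_lit 5) (nat_lit 4) (nat_lit 4) (nat_lit 2) (nat_lit 4) (nat_lit 307) (nat_lit 236) (nat_lit 177)) (XT.lf (nat_lit 0) (nat_lit 124896520735) (nat_lit 152) (nat_lit 40813956456) (nat_lit 0) (nat_lit 105591066319) (nat_lit 2) (nat_lit 5) (nat_lit 4) (nat_lit 4) (nat_lit 2) (nat_lit 4) (nat_lit 308) (nat_lit 236) (nat_lit 176))) (XT.nd (nat_lit 78) (nat_lit 0) (nat_lit 0) (XT.lf (nat_lit 0) (nat_lit 139256255041) (nat_lit 152) (nat_lit 33507569170) (nat_lit 0) (nat_lit 119936536955) (nat_lit 2) (nat_lit 5) (nat_lit 4) (nat_lit 4) (nat_lit 2) (nat_lit 4) (nat_lit 309) (nat_lit 236) (nat_lit 175)) (XT.lf (nat_lit 0) (nat_lit 154756572218) (nat_lit 152) (nat_lit 25631287101) (nat_lit 0) (nat_lit 135423647031) (nat_lit 2) (nat_lit 5) (nat_lit 4) (nat_lit 4) (nat_lit 2) (nat_lit 4) (nat_lit 310) (nat_lit 236) (nat_lit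 174)))) (XT.nd (nat_lit 156) (nat_lit 76) (nat_lit 0) (XT.nd (nat_lit 78) (nat_lit 0) (nat_lit 0) (XT.lf (nat_lit 0) (nat_lit 171489325999) (nat_lit 152) (nat_lit 17138435985) (nat_lit 0) (nat_lit 152144172014) (nat_lit 2) (nat_lit 5) (nat_lit 4) (nat_lit 4) (nat_lit 2) (nat_lit 4) (nat_lit 311) (nat_lit 236) (nat_lit 173)) (XT.lf (nat_lit 0) (nat_lit 189553673443) (nat_lit 152) (nat_lit 7978687815) (nat_lit 0) (nat_lit 170197196497) (nat_lit 2) (nat_lit 5) (nat_lit 4) (nat_lit 4) (nat_lit 2) (nat_lit 4) (nat_lit 312) (nat_lit 236) (nat_lit 172))) (XT.nd (nat_lit 78) (nat_lit 0) (nat_lit 0) (XT.lf (nat_lit 0) (nat_lit 1965133956) (nat_lit 76) (nat_lit 207122209828) (nat_lit 76) (nat_lit 187755248658) (nat_lit 1) (nat_lit 4) (nat_lit 2) (nat_lit 5) (nat_lit 2) (nat_lit 4) (nat_lit 313) (nat_lit 236) (nat_lit 171)) (XT.nd (nat_lit 78) (nat_lit 0) (nat_lit 0) (XT.lf (nat_lit 0) (nat_lit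 12978279270) (nat_lit 76) (nat_lit 217338214584) (nat_lit 76) (nat_lit 197961545800) (nat_lit 1) (nat_lit 4) (nat_lit 2) (nat_lit 5) (nat_lit 2) (nat_lit 4) (nat_lit 314) (nat_lit 236) (nat_lit 170)) (XT.lf (nat_lit 0) (nat_lit 24862199760) (nat_lit 76) (nat_lit 228376037754) (nat_lit 76) (nat_lit 208990380439) (nat_lit 1) (nat_lit 4) (nat_lit 2) (nat_lit 5) (nat_lit 2) (nat_lit 4) (nat_lit 315) (nat_lit 236) (nat_lit 169)))))) (XT.nd (nat_lit 390) (nat_lit 0) (nat_lit 0) (XT.nd (nat_lit 156) (nat_lit 0) (nat_lit 0) (XT.nd (nat_lit 78) (nat_lit 0) (nat_lit 0) (XT.lf (nat_lit 0) (nat_lit 37687318656) (nat_lit 76) (nat_lit 240301088661) (nat_lit 76) (nat_lit 220907108631) (nat_lit 1) (nat_lit 4) (nat_lit 2) (nat_lit 5) (nat_lit 2) (nat_lit 4) (nat_lit 316) (nat_lit 236) (nat_lit 168)) (XT.lf (nat_lit 0) (nat_lit 51529636664) (nat_lit 76) (nat_lit 253184034272) (nat_lit 76) (nat_lit 233782348026)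 (nat_lit 1) (nat_lit 4) (nat_lit 2) (nat_lit 5) (nat_lit 2) (nat_lit 4) (nat_lit 317) (nat_lit 236) (nat_lit 167))) (XT.nd (nat_lit 78) (nat_lit 0) (nat_lit 0) (XT.lf (nat_lit 0) (nat_lit 66471182335) (nat_lit 76) (nat_lit 267101217970) (nat_lit 76) (nat_lit 247692396337) (nat_lit 1) (nat_lit 4) (nat_lit 2) (nat_lit 5) (nat_lit 2) (nat_lit 4) (nat_lit 318) (nat_lit 236) (nat_lit 166)) (XT.nd (nat_lit 78) (nat_lit 0) (nat_lit 0) (XT.lf (nat_lit 0) (nat_lit 82600498162) (nat_lit 76) (nat_lit 282135111953) (nat_lit 76) (nat_lit 262719683482) (nat_lit 1) (nat_lit 4) (nat_lit 2) (nat_lit 5) (nat_lit 2) (nat_lit 4) (nat_lit 319) (nat_lit 236) (nat_lit 165)) (XT.lf (nat_lit 0) (nat_lit 100013165275) (nat_lit 76) (nat_lit 298374805965) (nat_lit 76) (nat_lit 278953260050) (nat_lit 1) (nat_lit 4) (nat_lit 2) (nat_lit 5) (nat_lit 2) (nat_lit 4) (nat_lit 320) (nat_lit 236) (nat_lit 164))))) (XT.nd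 (nat_lit 156) (nat_lit 0) (nat_lit 0) (XT.nd (nat_lit 78) (nat_lit 0) (nat_lit 0) (XT.lf (nat_lit 0) (nat_lit 118812369850) (nat_lit 76) (nat_lit 315916535228) (nat_lit 76) (nat_lit 296489325014) (nat_lit 1) (nat_lit 4) (nat_lit 2) (nat_lit 5) (nat_lit 2) (nat_lit 4) (nat_lit 321) (nat_lit 236) (nat_lit 163)) (XT.lf (nat_lit 0) (nat_lit 139109514580) (nat_lit 76) (nat_lit 334864250732) (nat_lit 76) (nat_lit 315431795795) (nat_lit 1) (nat_lit 4) (nat_lit 2) (nat_lit 5) (nat_lit 2) (nat_lit 4) (nat_lit 322) (nat_lit 236) (nat_lit 162))) (XT.nd (nat_lit 31512) (nat_lit 0) (nat_lit 6840) (XT.lf (nat_lit 0) (nat_lit 161024878843) (nat_lit 76) (nat_lit 355330235233) (nat_lit 76) (nat_lit 335892924073) (nat_lit 1) (nat_lit 4) (nat_lit 2) (nat_lit 5) (nat_lit 2) (nat_lit 4) (nat_lit 323) (nat_lit 236) (nat_lit 161)) (XT.nd (nat_lit 78) (nat_lit 380) (nat_lit 0) (XT.lf (nat_lit 0) (nat_lit 1136547705)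 (nat_lit 380) (nat_lit 1092378061) (nat_lit 0) (nat_lit 1136547705) (nat_lit 96) (nat_lit 5) (nat_lit 101) (nat_lit 4) (nat_lit 96) (nat_lit 4) (nat_lit 246) (nat_lit 237) (nat_lit 237)) (XT.lf (nat_lit 0) (nat_lit 3807622953) (nat_lit 380) (nat_lit 2987575094) (nat_lit 380) (nat_lit 46262030) (nat_lit 91) (nat_lit 4) (nat_lit 96) (nat_lit 5) (nat_lit 96) (nat_lit 4) (nat_lit 247) (nat_lit 237) (nat_lit 236))))))))
noncomputable def xc42 : XT := (XT.nd (nat_lit 1404) (nat_lit 1064) (nat_lit 0) (XT.nd (nat_lit 702) (nat_lit 1596) (nat_lit 0) (XT.nd (nat_lit 312) (nat_lit 1292) (nat_lit 0) (XT.nd (nat_lit 156) (nat_lit 1368) (nat_lit 0) (XT.nd (nat_lit 78) (nat_lit 608) (nat_lit 0) (XT.lf (nat_lit 0) (nat_lit 3104181226) (nat_lit 456) (nat_lit 1173346730) (nat_lit 532) (nat_lit 2696508884) (nat_lit 84) (nat_lit 5) (nat_lit 90) (nat_lit 5) (nat_lit 91) (nat_lit 4) (nat_lit 248) (nat_lit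 237) (nat_lit 235)) (XT.lf (nat_lit 0) (nat_lit 1515200922) (nat_lit 608) (nat_lit 4690459974) (nat_lit 76) (nat_lit 924962637) (nat_lit 76) (nat_lit 5) (nat_lit 84) (nat_lit 5) (nat_lit 77) (nat_lit 4) (nat_lit 249) (nat_lit 237) (nat_lit 234))) (XT.nd (nat_lit 78) (nat_lit 760) (nat_lit 0) (XT.lf (nat_lit 0) (nat_lit 1761640333) (nat_lit 608) (nat_lit 3985669515) (nat_lit 684) (nat_lit 1563296430) (nat_lit 68) (nat_lit 5) (nat_lit 76) (nat_lit 5) (nat_lit 77) (nat_lit 4) (nat_lit 250) (nat_lit 237) (nat_lit 233)) (XT.lf (nat_lit 0) (nat_lit 1061643207) (nat_lit 684) (nat_lit 1435075855) (nat_lit 760) (nat_lit 5019127608) (nat_lit 58) (nat_lit 5) (nat_lit 67) (nat_lit 5) (nat_lit 68) (nat_lit 5) (nat_lit 251) (nat_lit 237) (nat_lit 232)))) (XT.nd (nat_lit 156) (nat_lit 912) (nat_lit 0) (XT.nd (nat_lit 78) (nat_lit 76) (nat_lit 0) (XT.lf (nat_lit 0) (nat_lit 301263210) (nat_lit 304) (nat_lit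 6343177228) (nat_lit 380) (nat_lit 1102514242) (nat_lit 54) (nat_lit 5) (nat_lit 58) (nat_lit 5) (nat_lit 59) (nat_lit 4) (nat_lit 252) (nat_lit 237) (nat_lit 231)) (XT.lf (nat_lit 0) (nat_lit 2870849928) (nat_lit 380) (nat_lit 561555887) (nat_lit 76) (nat_lit 4570951030) (nat_lit 53) (nat_lit 5) (nat_lit 58) (nat_lit 5) (nat_lit 54) (nat_lit 5) (nat_lit 253) (nat_lit 237) (nat_lit 230))) (XT.nd (nat_lit 78) (nat_lit 608) (nat_lit 0) (XT.lf (nat_lit 0) (nat_lit 6772021084) (nat_lit 304) (nat_lit 184580032) (nat_lit 380) (nat_lit 1332426602) (nat_lit 49) (nat_lit 5) (nat_lit 53) (nat_lit 5) (nat_lit 54) (nat_lit 5) (nat_lit 254) (nat_lit 237) (nat_lit 229)) (XT.nd (nat_lit 78) (nat_lit 304) (nat_lit 0) (XT.lf (nat_lit 0) (nat_lit 2577060687) (nat_lit 304) (nat_lit 2691766499) (nat_lit 76) (nat_lit 3333017639) (nat_lit 45) (nat_lit 5) (nat_lit 49) (nat_lit 5) (nat_lit 46) (nat_lit 5) (nat_lit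 255) (nat_lit 237) (nat_lit 228)) (XT.lf (nat_lit 0) (nat_lit 4881037483) (nat_lit 304) (nat_lit 1730125877) (nat_lit 380) (nat_lit 2335580609) (nat_lit 41) (nat_lit 5) (nat_lit 45) (nat_lit 5) (nat_lit 46) (nat_lit 5) (nat_lit 256) (nat_lit 237) (nat_lit 227)))))) (XT.nd (nat_lit 312) (nat_lit 760) (nat_lit 0) (XT.nd (nat_lit 156) (nat_lit 304) (nat_lit 0) (XT.nd (nat_lit 78) (nat_lit 228) (nat_lit 0) (XT.lf (nat_lit 0) (nat_lit 1495278599) (nat_lit 304) (nat_lit 5723099930) (nat_lit 76) (nat_lit 2105553538) (nat_lit 37) (nat_lit 5) (nat_lit 41) (nat_lit 5) (nat_lit 38) (nat_lit 5) (nat_lit 257) (nat_lit 237) (nat_lit 226)) (XT.lf (nat_lit 0) (nat_lit 2001560999) (nat_lit 228) (nat_lit 3456120239) (nat_lit 304) (nat_lit 4277232809) (nat_lit 34) (nat_lit 5) (nat_lit 37) (nat_lit 5) (nat_lit 38) (nat_lit 5) (nat_lit 258) (nat_lit 237) (nat_lit 225))) (XT.nd (nat_lit 78) (nat_lit 76) (nat_lit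 0) (XT.lf (nat_lit 0) (nat_lit 77349827) (nat_lit 228) (nat_lit 9556581363) (nat_lit 304) (nat_lit 550813921) (nat_lit 31) (nat_lit 5) (nat_lit 34) (nat_lit 5) (nat_lit 35) (nat_lit 4) (nat_lit 259) (nat_lit 237) (nat_lit 224)) (XT.lf (nat_lit 0) (nat_lit 3350133557) (nat_lit 304) (nat_lit 2273300637) (nat_lit 76) (nat_lit 5045754133) (nat_lit 30) (nat_lit 5) (nat_lit 34) (nat_lit 5) (nat_lit 31) (nat_lit 5) (nat_lit 260) (nat_lit 237) (nat_lit 223)))) (XT.nd (nat_lit 156) (nat_lit 304) (nat_lit 0) (XT.nd (nat_lit 78) (nat_lit 228) (nat_lit 0) (XT.lf (nat_lit 0) (nat_lit 6111029965) (nat_lit 228) (nat_lit 1336275924) (nat_lit 304) (nat_lit 3750121337) (nat_lit 27) (nat_lit 5) (nat_lit 30) (nat_lit 5) (nat_lit 31) (nat_lit 5) (nat_lit 261) (nat_lit 237) (nat_lit 222)) (XT.lf (nat_lit 0) (nat_lit 59533539) (nat_lit 228) (nat_lit 8497454920) (nat_lit 76) (nat_lit 3213513628) (nat_lit 24)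 (nat_lit 5) (nat_lit 27) (nat_lit 5) (nat_lit 25) (nat_lit 5) (nat_lit 262) (nat_lit 237) (nat_lit 221))) (XT.nd (nat_lit 78) (nat_lit 304) (nat_lit 0) (XT.lf (nat_lit 0) (nat_lit 3980205249) (nat_lit 228) (nat_lit 244416295) (nat_lit 76) (nat_lit 8165388214) (nat_lit 24) (nat_lit 5) (nat_lit 27) (nat_lit 5) (nat_lit 25) (nat_lit 5) (nat_lit 263) (nat_lit 237) (nat_lit 220)) (XT.nd (nat_lit 78) (nat_lit 152) (nat_lit 0) (XT.lf (nat_lit 0) (nat_lit 8195109150) (nat_lit 228) (nat_lit 4357653594) (nat_lit 76) (nat_lit 507788418) (nat_lit 22) (nat_lit 5) (nat_lit 25) (nat_lit 5) (nat_lit 23) (nat_lit 4) (nat_lit 264) (nat_lit 237) (nat_lit 219)) (XT.lf (nat_lit 0) (nat_lit 4427571445) (nat_lit 152) (nat_lit 8308186322) (nat_lit 228) (nat_lit 1050015353) (nat_lit 20) (nat_lit 5) (nat_lit 22) (nat_lit 5) (nat_lit 23) (nat_lit 4) (nat_lit 265) (nat_lit 237) (nat_lit 218))))))) (XT.nd (nat_lit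 702) (nat_lit 304) (nat_lit 0) (XT.nd (nat_lit 312) (nat_lit 456) (nat_lit 0) (XT.nd (nat_lit 156) (nat_lit 76) (nat_lit 0) (XT.nd (nat_lit 78) (nat_lit 152) (nat_lit 0) (XT.lf (nat_lit 0) (nat_lit 2898622647) (nat_lit 228) (nat_lit 771485514) (nat_lit 76) (nat_lit 10900604678) (nat_lit 19) (nat_lit 5) (nat_lit 22) (nat_lit 5) (nat_lit 20) (nat_lit 5) (nat_lit 266) (nat_lit 237) (nat_lit 217)) (XT.lf (nat_lit 0) (nat_lit 7142839612) (nat_lit 228) (nat_lit 6893908332) (nat_lit 76) (nat_lit 1380394919) (nat_lit 17) (nat_lit 5) (nat_lit 20) (nat_lit 5) (nat_lit 18) (nat_lit 4) (nat_lit 267) (nat_lit 237) (nat_lit 216))) (XT.nd (nat_lit 78) (nat_lit 0) (nat_lit 0) (XT.lf (nat_lit 0) (nat_lit 2054003956) (nat_lit 76) (nat_lit 9646589532) (nat_lit 152) (nat_lit 4632345269) (nat_lit 16) (nat_lit 5) (nat_lit 17) (nat_lit 5) (nat_lit 18) (nat_lit 4) (nat_lit 268) (nat_lit 237) (nat_lit 215)) (XT.lf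 (nat_lit 0) (nat_lit 11764873876) (nat_lit 76) (nat_lit 4851357676) (nat_lit 152) (nat_lit 706428992) (nat_lit 16) (nat_lit 5) (nat_lit 17) (nat_lit 5) (nat_lit 18) (nat_lit 4) (nat_lit 269) (nat_lit 237) (nat_lit 214)))) (XT.nd (nat_lit 156) (nat_lit 228) (nat_lit 0) (XT.nd (nat_lit 78) (nat_lit 0) (nat_lit 0) (XT.lf (nat_lit 0) (nat_lit 3365060801) (nat_lit 228) (nat_lit 14661114757) (nat_lit 76) (nat_lit 365683225) (nat_lit 13) (nat_lit 5) (nat_lit 16) (nat_lit 5) (nat_lit 14) (nat_lit 4) (nat_lit 270) (nat_lit 237) (nat_lit 213)) (XT.lf (nat_lit 0) (nat_lit 7803412244) (nat_lit 228) (nat_lit 5861491711) (nat_lit 76) (nat_lit 5878080976) (nat_lit 13) (nat_lit 5) (nat_lit 16) (nat_lit 5) (nat_lit 14) (nat_lit 4) (nat_lit 271) (nat_lit 237) (nat_lit 212))) (XT.nd (nat_lit 78) (nat_lit 152) (nat_lit 0) (XT.lf (nat_lit 0) (nat_lit 3585314851) (nat_lit 76) (nat_lit 8961344231) (nat_lit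 152) (nat_lit 8242296748) (nat_lit 12) (nat_lit 5) (nat_lit 13) (nat_lit 5) (nat_lit 14) (nat_lit 4) (nat_lit 272) (nat_lit 237) (nat_lit 211)) (XT.nd (nat_lit 78) (nat_lit 152) (nat_lit 0) (XT.lf (nat_lit 0) (nat_lit 13833093993) (nat_lit 76) (nat_lit 3837526664) (nat_lit 152) (nat_lit 4464148793) (nat_lit 12) (nat_lit 5) (nat_lit 13) (nat_lit 5) (nat_lit 14) (nat_lit 4) (nat_lit 273) (nat_lit 237) (nat_lit 210)) (XT.lf (nat_lit 0) (nat_lit 1167434893) (nat_lit 152) (nat_lit 21987481261) (nat_lit 152) (nat_lit 436022080) (nat_lit 10) (nat_lit 4) (nat_lit 12) (nat_lit 5) (nat_lit 12) (nat_lit 4) (nat_lit 274) (nat_lit 237) (nat_lit 209)))))) (XT.nd (nat_lit 312) (nat_lit 152) (nat_lit 0) (XT.nd (nat_lit 156) (nat_lit 76) (nat_lit 0) (XT.nd (nat_lit 78) (nat_lit 0) (nat_lit 0) (XT.lf (nat_lit 0) (nat_lit 3909464793) (nat_lit 228) (nat_lit 13746363044) (nat_lit 76) (nat_lit 7498883292)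 (nat_lit 9) (nat_lit 5) (nat_lit 12) (nat_lit 5) (nat_lit 10) (nat_lit 4) (nat_lit 275) (nat_lit 237) (nat_lit 208)) (XT.lf (nat_lit 0) (nat_lit 8502986926) (nat_lit 228) (nat_lit 4523445160) (nat_lit 76) (nat_lit 13821184977) (nat_lit 9) (nat_lit 5) (nat_lit 12) (nat_lit 5) (nat_lit 10) (nat_lit 4) (nat_lit 276) (nat_lit 237) (nat_lit 207))) (XT.nd (nat_lit 78) (nat_lit 0) (nat_lit 0) (XT.lf (nat_lit 0) (nat_lit 5482176035) (nat_lit 76) (nat_lit 7989136718) (nat_lit 152) (nat_lit 15204436088) (nat_lit 8) (nat_lit 5) (nat_lit 9) (nat_lit 5) (nat_lit 10) (nat_lit 4) (nat_lit 277) (nat_lit 237) (nat_lit 206)) (XT.lf (nat_lit 0) (nat_lit 16324859161) (nat_lit 76) (nat_lit 2516618238) (nat_lit 152) (nat_lit 11808582778) (nat_lit 8) (nat_lit 5) (nat_lit 9) (nat_lit 5) (nat_lit 10) (nat_lit 4) (nat_lit 278) (nat_lit 237) (nat_lit 205)))) (XT.nd (nat_lit 156) (nat_lit 76) (nat_lit 0) (XT.nd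 (nat_lit 78) (nat_lit 76) (nat_lit 0) (XT.lf (nat_lit 0) (nat_lit 24624600481) (nat_lit 152) (nat_lit 4918862219) (nat_lit 0) (nat_lit 3239823173) (nat_lit 8) (nat_lit 5) (nat_lit 10) (nat_lit 4) (nat_lit 8) (nat_lit 4) (nat_lit 279) (nat_lit 237) (nat_lit 204)) (XT.lf (nat_lit 0) (nat_lit 5256036428) (nat_lit 76) (nat_lit 25674351802) (nat_lit 76) (nat_lit 4153907242) (nat_lit 7) (nat_lit 4) (nat_lit 8) (nat_lit 5) (nat_lit 8) (nat_lit 4) (nat_lit 280) (nat_lit 237) (nat_lit 203))) (XT.nd (nat_lit 78) (nat_lit 0) (nat_lit 0) (XT.lf (nat_lit 0) (nat_lit 190397062) (nat_lit 152) (nat_lit 21255748408) (nat_lit 76) (nat_lit 16121987059) (nat_lit 6) (nat_lit 5) (nat_lit 8) (nat_lit 5) (nat_lit 7) (nat_lit 4) (nat_lit 281) (nat_lit 237) (nat_lit 202)) (XT.nd (nat_lit 78) (nat_lit 0) (nat_lit 0) (XT.lf (nat_lit 0) (nat_lit 4680822568) (nat_lit 152) (nat_lit 12166688923) (nat_lit 76) (nat_lit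 23402658102) (nat_lit 6) (nat_lit 5) (nat_lit 8) (nat_lit 5) (nat_lit 7) (nat_lit 4) (nat_lit 282) (nat_lit 237) (nat_lit 201)) (XT.lf (nat_lit 0) (nat_lit 9476930177) (nat_lit 152) (nat_lit 2442365364) (nat_lit 76) (nat_lit 31230247385) (nat_lit 6) (nat_lit 5) (nat_lit 8) (nat_lit 5) (nat_lit 7) (nat_lit 4) (nat_lit 283) (nat_lit 237) (nat_lit 200))))))))
noncomputable def xc43 : XT := (XT.nd (nat_lit 1404) (nat_lit 76) (nat_lit 0) (XT.nd (nat_lit 702) (nat_lit 152) (nat_lit 0) (XT.nd (nat_lit 312) (nat_lit 76) (nat_lit 0) (XT.nd (nat_lit 156) (nat_lit 0) (nat_lit 0) (XT.nd (nat_lit 78) (nat_lit 0) (nat_lit 0) (XT.lf (nat_lit 0) (nat_lit 8238532377) (nat_lit 76) (nat_lit 6497235469) (nat_lit 152) (nat_lit 31541234820) (nat_lit 5) (nat_lit 5) (nat_lit 6) (nat_lit 5) (nat_lit 7) (nat_lit 4) (nat_lit 284) (nat_lit 237) (nat_lit 199)) (XT.lf (nat_lit 0) (nat_lit 19779758268) (nat_lit 76)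 (nat_lit 630916283) (nat_lit 152) (nat_lit 29244298588) (nat_lit 5) (nat_lit 5) (nat_lit 6) (nat_lit 5) (nat_lit 7) (nat_lit 4) (nat_lit 285) (nat_lit 237) (nat_lit 198))) (XT.nd (nat_lit 78) (nat_lit 0) (nat_lit 0) (XT.lf (nat_lit 0) (nat_lit 26584458784) (nat_lit 152) (nat_lit 21225064875) (nat_lit 0) (nat_lit 5491489313) (nat_lit 5) (nat_lit 5) (nat_lit 7) (nat_lit 4) (nat_lit 5) (nat_lit 4) (nat_lit 286) (nat_lit 237) (nat_lit 197)) (XT.lf (nat_lit 0) (nat_lit 33221875367) (nat_lit 152) (nat_lit 11964929584) (nat_lit 0) (nat_lit 12053514907) (nat_lit 5) (nat_lit 5) (nat_lit 7) (nat_lit 4) (nat_lit 5) (nat_lit 4) (nat_lit 287) (nat_lit 237) (nat_lit 196)))) (XT.nd (nat_lit 156) (nat_lit 0) (nat_lit 0) (XT.nd (nat_lit 78) (nat_lit 76) (nat_lit 0) (XT.lf (nat_lit 0) (nat_lit 40352406768) (nat_lit 152) (nat_lit 2030083753) (nat_lit 0) (nat_lit 19114239835) (nat_lit 5) (nat_lit 5) (nat_lit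 7) (nat_lit 4) (nat_lit 5) (nat_lit 4) (nat_lit 288) (nat_lit 237) (nat_lit 195)) (XT.lf (nat_lit 0) (nat_lit 8923968503) (nat_lit 76) (nat_lit 39233667641) (nat_lit 76) (nat_lit 17930865086) (nat_lit 4) (nat_lit 4) (nat_lit 5) (nat_lit 5) (nat_lit 5) (nat_lit 4) (nat_lit 289) (nat_lit 237) (nat_lit 194))) (XT.nd (nat_lit 78) (nat_lit 0) (nat_lit 0) (XT.lf (nat_lit 0) (nat_lit 20768294461) (nat_lit 76) (nat_lit 35820963404) (nat_lit 76) (nat_lit 14458313052) (nat_lit 4) (nat_lit 4) (nat_lit 5) (nat_lit 5) (nat_lit 5) (nat_lit 4) (nat_lit 290) (nat_lit 237) (nat_lit 193)) (XT.nd (nat_lit 78) (nat_lit 0) (nat_lit 0) (XT.lf (nat_lit 0) (nat_lit 33505958982) (nat_lit 76) (nat_lit 32158534831) (nat_lit 76) (nat_lit 10740469850) (nat_lit 4) (nat_lit 4) (nat_lit 5) (nat_lit 5) (nat_lit 5) (nat_lit 4) (nat_lit 291) (nat_lit 237) (nat_lit 192)) (XT.lf (nat_lit 0) (nat_lit 47212444521) (nat_lit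 76) (nat_lit 28224678639) (nat_lit 76) (nat_lit 6755303817) (nat_lit 4) (nat_lit 4) (nat_lit 5) (nat_lit 5) (nat_lit 5) (nat_lit 4) (nat_lit 292) (nat_lit 237) (nat_lit 191)))))) (XT.nd (nat_lit 312) (nat_lit 0) (nat_lit 0) (XT.nd (nat_lit 156) (nat_lit 76) (nat_lit 0) (XT.nd (nat_lit 78) (nat_lit 76) (nat_lit 0) (XT.lf (nat_lit 0) (nat_lit 61968974697) (nat_lit 76) (nat_lit 23996083088) (nat_lit 76) (nat_lit 2479199155) (nat_lit 4) (nat_lit 4) (nat_lit 5) (nat_lit 5) (nat_lit 5) (nat_lit 4) (nat_lit 293) (nat_lit 237) (nat_lit 190)) (XT.lf (nat_lit 0) (nat_lit 2045548930) (nat_lit 152) (nat_lit 17367498543) (nat_lit 76) (nat_lit 75782804324) (nat_lit 3) (nat_lit 5) (nat_lit 5) (nat_lit 5) (nat_lit 4) (nat_lit 4) (nat_lit 294) (nat_lit 237) (nat_lit 189))) (XT.nd (nat_lit 78) (nat_lit 76) (nat_lit 0) (XT.lf (nat_lit 0) (nat_lit 6823445883) (nat_lit 152) (nat_lit 7613541196) (nat_lit 76)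 (nat_lit 88049689825) (nat_lit 3) (nat_lit 5) (nat_lit 5) (nat_lit 5) (nat_lit 4) (nat_lit 4) (nat_lit 295) (nat_lit 237) (nat_lit 188)) (XT.lf (nat_lit 0) (nat_lit 2978426521) (nat_lit 76) (nat_lit 9030230085) (nat_lit 152) (nat_lit 98350890828) (nat_lit 2) (nat_lit 5) (nat_lit 3) (nat_lit 5) (nat_lit 4) (nat_lit 4) (nat_lit 296) (nat_lit 237) (nat_lit 187)))) (XT.nd (nat_lit 156) (nat_lit 0) (nat_lit 0) (XT.nd (nat_lit 78) (nat_lit 0) (nat_lit 0) (XT.lf (nat_lit 0) (nat_lit 14653629839) (nat_lit 76) (nat_lit 3067282344) (nat_lit 152) (nat_lit 101135755055) (nat_lit 2) (nat_lit 5) (nat_lit 3) (nat_lit 5) (nat_lit 4) (nat_lit 4) (nat_lit 297) (nat_lit 237) (nat_lit 186)) (XT.lf (nat_lit 0) (nat_lit 23923695709) (nat_lit 152) (nat_lit 100857444225) (nat_lit 0) (nat_lit 3250768051) (nat_lit 2) (nat_lit 5) (nat_lit 4) (nat_lit 4) (nat_lit 2) (nat_lit 4) (nat_lit 298) (nat_lit 237) (nat_lit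 185))) (XT.nd (nat_lit 78) (nat_lit 0) (nat_lit 0) (XT.lf (nat_lit 0) (nat_lit 30656727626) (nat_lit 152) (nat_lit 97327478859) (nat_lit 0) (nat_lit 9955286827) (nat_lit 2) (nat_lit 5) (nat_lit 4) (nat_lit 4) (nat_lit 2) (nat_lit 4) (nat_lit 299) (nat_lit 237) (nat_lit 184)) (XT.nd (nat_lit 78) (nat_lit 0) (nat_lit 0) (XT.lf (nat_lit 0) (nat_lit 37912018510) (nat_lit 152) (nat_lit 93544334115) (nat_lit 0) (nat_lit 17184176653) (nat_lit 2) (nat_lit 5) (nat_lit 4) (nat_lit 4) (nat_lit 2) (nat_lit 4) (nat_lit 300) (nat_lit 237) (nat_lit 183)) (XT.lf (nat_lit 0) (nat_lit 45732562677) (nat_lit 152) (nat_lit 89485591358) (nat_lit 0) (nat_lit 24980275396) (nat_lit 2) (nat_lit 5) (nat_lit 4) (nat_lit 4) (nat_lit 2) (nat_lit 4) (nat_lit 301) (nat_lit 237) (nat_lit 182))))))) (XT.nd (nat_lit 702) (nat_lit 76) (nat_lit 0) (XT.nd (nat_lit 312) (nat_lit 0) (nat_lit 0) (XT.nd (nat_lit 156) (nat_lit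 0) (nat_lit 0) (XT.nd (nat_lit 78) (nat_lit 0) (nat_lit 0) (XT.lf (nat_lit 0) (nat_lit 54164704093) (nat_lit 152) (nat_lit 85127198778) (nat_lit 0) (nat_lit 33389782160) (nat_lit 2) (nat_lit 5) (nat_lit 4) (nat_lit 4) (nat_lit 2) (nat_lit 4) (nat_lit 302) (nat_lit 237) (nat_lit 181)) (XT.lf (nat_lit 0) (nat_lit 63258411002) (nat_lit 152) (nat_lit 80443328863) (nat_lit 0) (nat_lit 42462531059) (nat_lit 2) (nat_lit 5) (nat_lit 4) (nat_lit 4) (nat_lit 2) (nat_lit 4) (nat_lit 303) (nat_lit 237) (nat_lit 180))) (XT.nd (nat_lit 78) (nat_lit 0) (nat_lit 0) (XT.lf (nat_lit 0) (nat_lit 73067572039) (nat_lit 152) (nat_lit 75406225349) (nat_lit 0) (nat_lit 52252286530) (nat_lit 2) (nat_lit 5) (nat_lit 4) (nat_lit 4) (nat_lit 2) (nat_lit 4) (nat_lit 304) (nat_lit 237) (nat_lit 179)) (XT.lf (nat_lit 0) (nat_lit 83650315564) (nat_lit 152) (nat_lit 69986038732) (nat_lit 0) (nat_lit 62817061940) (nat_lit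 2) (nat_lit 5) (nat_lit 4) (nat_lit 4) (nat_lit 2) (nat_lit 4) (nat_lit 305) (nat_lit 237) (nat_lit 178)))) (XT.nd (nat_lit 156) (nat_lit 0) (nat_lit 0) (XT.nd (nat_lit 78) (nat_lit 0) (nat_lit 0) (XT.lf (nat_lit 0) (nat_lit 95069354134) (nat_lit 152) (nat_lit 64150649389) (nat_lit 0) (nat_lit 74219463365) (nat_lit 2) (nat_lit 5) (nat_lit 4) (nat_lit 4) (nat_lit 2) (nat_lit 4) (nat_lit 306) (nat_lit 237) (nat_lit 177)) (XT.lf (nat_lit 0) (nat_lit 107392356123) (nat_lit 152) (nat_lit 57865477233) (nat_lit 0) (nat_lit 86527060590) (nat_lit 2) (nat_lit 5) (nat_lit 4) (nat_lit 4) (nat_lit 2) (nat_lit 4) (nat_lit 307) (nat_lit 237) (nat_lit 176))) (XT.nd (nat_lit 78) (nat_lit 0) (nat_lit 0) (XT.lf (nat_lit 0) (nat_lit 120692346729) (nat_lit 152) (nat_lit 51093276801) (nat_lit 0) (nat_lit 99812787527) (nat_lit 2) (nat_lit 5) (nat_lit 4) (nat_lit 4) (nat_lit 2) (nat_lit 4) (nat_lit 308) (nat_lit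 237) (nat_lit 175)) (XT.nd (nat_lit 78) (nat_lit 0) (nat_lit 0) (XT.lf (nat_lit 0) (nat_lit 135048140711) (nat_lit 152) (nat_lit 43793916534) (nat_lit 0) (nat_lit 114155374407) (nat_lit 2) (nat_lit 5) (nat_lit 4) (nat_lit 4) (nat_lit 2) (nat_lit 4) (nat_lit 309) (nat_lit 237) (nat_lit 174)) (XT.lf (nat_lit 0) (nat_lit 150544809441) (nat_lit 152) (nat_lit 35924140964) (nat_lit 0) (nat_lit 129639814339) (nat_lit 2) (nat_lit 5) (nat_lit 4) (nat_lit 4) (nat_lit 2) (nat_lit 4) (nat_lit 310) (nat_lit 237) (nat_lit 173)))))) (XT.nd (nat_lit 390) (nat_lit 0) (nat_lit 0) (XT.nd (nat_lit 156) (nat_lit 76) (nat_lit 0) (XT.nd (nat_lit 78) (nat_lit 0) (nat_lit 0) (XT.lf (nat_lit 0) (nat_lit 167274185030) (nat_lit 152) (nat_lit 27437314384) (nat_lit 0) (nat_lit 146357866967) (nat_lit 2) (nat_lit 5) (nat_lit 4) (nat_lit 4) (nat_lit 2) (nat_lit 4) (nat_lit 311) (nat_lit 237) (nat_lit 172)) (XT.lf (nat_lit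 0) (nat_lit 185335404519) (nat_lit 152) (nat_lit 18283144489) (nat_lit 0) (nat_lit 164408602233) (nat_lit 2) (nat_lit 5) (nat_lit 4) (nat_lit 4) (nat_lit 2) (nat_lit 4) (nat_lit 312) (nat_lit 237) (nat_lit 171))) (XT.nd (nat_lit 78) (nat_lit 76) (nat_lit 0) (XT.lf (nat_lit 0) (nat_lit 204835497356) (nat_lit 152) (nat_lit 8407384345) (nat_lit 0) (nat_lit 183898987455) (nat_lit 2) (nat_lit 5) (nat_lit 4) (nat_lit 4) (nat_lit 2) (nat_lit 4) (nat_lit 313) (nat_lit 237) (nat_lit 170)) (XT.nd (nat_lit 78) (nat_lit 0) (nat_lit 0) (XT.lf (nat_lit 0) (nat_lit 2322834272) (nat_lit 76) (nat_lit 223603451326) (nat_lit 76) (nat_lit 202657952895) (nat_lit 1) (nat_lit 4) (nat_lit 2) (nat_lit 5) (nat_lit 2) (nat_lit 4) (nat_lit 314) (nat_lit 237) (nat_lit 169)) (XT.lf (nat_lit 0) (nat_lit 14202180131) (nat_lit 76) (nat_lit 234643294633) (nat_lit 76) (nat_lit 213689473486) (nat_lit 1) (nat_lit 4) (nat_lit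 2) (nat_lit 5) (nat_lit 2) (nat_lit 4) (nat_lit 315) (nat_lit 237) (nat_lit 168))))) (XT.nd (nat_lit 156) (nat_lit 0) (nat_lit 0) (XT.nd (nat_lit 78) (nat_lit 0) (nat_lit 0) (XT.lf (nat_lit 0) (nat_lit 27023063258) (nat_lit 76) (nat_lit 246570216036) (nat_lit 76) (nat_lit 225608688672) (nat_lit 1) (nat_lit 4) (nat_lit 2) (nat_lit 5) (nat_lit 2) (nat_lit 4) (nat_lit 316) (nat_lit 237) (nat_lit 167)) (XT.lf (nat_lit 0) (nat_lit 40861459257) (nat_lit 76) (nat_lit 259454893588) (nat_lit 76) (nat_lit 238486230839) (nat_lit 1) (nat_lit 4) (nat_lit 2) (nat_lit 5) (nat_lit 2) (nat_lit 4) (nat_lit 317) (nat_lit 237) (nat_lit 166))) (XT.nd (nat_lit 78) (nat_lit 0) (nat_lit 0) (XT.lf (nat_lit 0) (nat_lit 55799373439) (nat_lit 76) (nat_lit 273373680935) (nat_lit 76) (nat_lit 252398411346) (nat_lit 1) (nat_lit 4) (nat_lit 2) (nat_lit 5) (nat_lit 2) (nat_lit 4) (nat_lit 318) (nat_lit 237) (nat_lit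 165)) (XT.nd (nat_lit 78) (nat_lit 0) (nat_lit 0) (XT.lf (nat_lit 0) (nat_lit 71925326775) (nat_lit 76) (nat_lit 288409059778) (nat_lit 76) (nat_lit 267427672747) (nat_lit 1) (nat_lit 4) (nat_lit 2) (nat_lit 5) (nat_lit 2) (nat_lit 4) (nat_lit 319) (nat_lit 237) (nat_lit 164)) (XT.lf (nat_lit 0) (nat_lit 89334880471) (nat_lit 76) (nat_lit 304650128661) (nat_lit 76) (nat_lit 283663077329) (nat_lit 1) (nat_lit 4) (nat_lit 2) (nat_lit 5) (nat_lit 2) (nat_lit 4) (nat_lit 320) (nat_lit 237) (nat_lit 163))))))))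
noncomputable def xc44 : XT := (XT.nd (nat_lit 32682) (nat_lit 0) (nat_lit 608) (XT.nd (nat_lit 31980) (nat_lit 0) (nat_lit 2736) (XT.nd (nat_lit 31590) (nat_lit 0) (nat_lit 5700) (XT.nd (nat_lit 156) (nat_lit 0) (nat_lit 0) (XT.nd (nat_lit 78) (nat_lit 0) (nat_lit 0) (XT.lf (nat_lit 0) (nat_lit 108131202253) (nat_lit 76) (nat_lit 322193130952) (nat_lit 76) (nat_lit 301200834899) (nat_lit 1) (nat_lit 4) (nat_lit 2) (nat_lit 5) (nat_lit 2) (nat_lit 4) (nat_lit 321) (nat_lit 237) (nat_lit 162)) (XT.lf (nat_lit 0) (nat_lit 128425677730) (nat_lit 76) (nat_lit 341142025186) (nat_lit 76) (nat_lit 320144872908) (nat_lit 1) (nat_lit 4) (nat_lit 2) (nat_lit 5) (nat_lit 2) (nat_lit 4) (nat_lit 322) (nat_lit 237) (nat_lit 161))) (XT.nd (nat_lit 31356) (nat_lit 0) (nat_lit 7828) (XT.lf (nat_lit 0) (nat_lit 150338570462) (nat_lit 76) (nat_lit 361609101104) (nat_lit 76) (nat_lit 340607452323) (nat_lit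 1) (nat_lit 4) (nat_lit 2) (nat_lit 5) (nat_lit 2) (nat_lit 4) (nat_lit 323) (nat_lit 237) (nat_lit 160)) (XT.lf (nat_lit 0) (nat_lit 1613852851) (nat_lit 228) (nat_lit 56519205) (nat_lit 0) (nat_lit 1613852851) (nat_lit 104) (nat_lit 5) (nat_lit 107) (nat_lit 4) (nat_lit 104) (nat_lit 4) (nat_lit 244) (nat_lit 238) (nat_lit 238)))) (XT.nd (nat_lit 156) (nat_lit 1520) (nat_lit 0) (XT.nd (nat_lit 78) (nat_lit 304) (nat_lit 0) (XT.lf (nat_lit 0) (nat_lit 1010261407) (nat_lit 304) (nat_lit 1264413128) (nat_lit 76) (nat_lit 4369102634) (nat_lit 100) (nat_lit 5) (nat_lit 104) (nat_lit 5) (nat_lit 101) (nat_lit 4) (nat_lit 245) (nat_lit 238) (nat_lit 237)) (XT.lf (nat_lit 0) (nat_lit 4389390771) (nat_lit 304) (nat_lit 885349961) (nat_lit 380) (nat_lit 1466274319) (nat_lit 96) (nat_lit 5) (nat_lit 100) (nat_lit 5) (nat_lit 101) (nat_lit 4) (nat_lit 246) (nat_lit 238) (nat_lit 236))) (XT.nd (nat_lit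 78) (nat_lit 1064) (nat_lit 0) (XT.lf (nat_lit 0) (nat_lit 2653306175) (nat_lit 456) (nat_lit 3402091534) (nat_lit 76) (nat_lit 804881820) (nat_lit 90) (nat_lit 5) (nat_lit 96) (nat_lit 5) (nat_lit 91) (nat_lit 4) (nat_lit 247) (nat_lit 238) (nat_lit 235)) (XT.nd (nat_lit 78) (nat_lit 608) (nat_lit 0) (XT.lf (nat_lit 0) (nat_lit 2576129077) (nat_lit 456) (nat_lit 4223480749) (nat_lit 532) (nat_lit 203088000) (nat_lit 84) (nat_lit 5) (nat_lit 90) (nat_lit 5) (nat_lit 91) (nat_lit 4) (nat_lit 248) (nat_lit 238) (nat_lit 234)) (XT.lf (nat_lit 0) (nat_lit 1693517771) (nat_lit 532) (nat_lit 2047473732) (nat_lit 608) (nat_lit 3426687869) (nat_lit 76) (nat_lit 5) (nat_lit 83) (nat_lit 5) (nat_lit 84) (nat_lit 5) (nat_lit 249) (nat_lit 238) (nat_lit 233)))))) (XT.nd (nat_lit 312) (nat_lit 1216) (nat_lit 0) (XT.nd (nat_lit 156) (nat_lit 1064) (nat_lit 0) (XT.nd (nat_lit 78) (nat_lit 0) (nat_lit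 0) (XT.lf (nat_lit 0) (nat_lit 403939348) (nat_lit 684) (nat_lit 6529425721) (nat_lit 76) (nat_lit 424720650) (nat_lit 67) (nat_lit 5) (nat_lit 76) (nat_lit 5) (nat_lit 68) (nat_lit 5) (nat_lit 250) (nat_lit 238) (nat_lit 232)) (XT.lf (nat_lit 0) (nat_lit 4252282643) (nat_lit 684) (nat_lit 121246508) (nat_lit 76) (nat_lit 3197434166) (nat_lit 67) (nat_lit 5) (nat_lit 76) (nat_lit 5) (nat_lit 68) (nat_lit 5) (nat_lit 251) (nat_lit 238) (nat_lit 231))) (XT.nd (nat_lit 78) (nat_lit 304) (nat_lit 0) (XT.lf (nat_lit 0) (nat_lit 409691105) (nat_lit 760) (nat_lit 1079859401) (nat_lit 76) (nat_lit 6321193319) (nat_lit 57) (nat_lit 5) (nat_lit 67) (nat_lit 5) (nat_lit 58) (nat_lit 5) (nat_lit 252) (nat_lit 238) (nat_lit 230)) (XT.lf (nat_lit 0) (nat_lit 4175510217) (nat_lit 380) (nat_lit 2180679714) (nat_lit 76) (nat_lit 1719341675) (nat_lit 53) (nat_lit 5) (nat_lit 58) (nat_lit 5) (nat_lit 54)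 (nat_lit 5) (nat_lit 253) (nat_lit 238) (nat_lit 229)))) (XT.nd (nat_lit 156) (nat_lit 608) (nat_lit 0) (XT.nd (nat_lit 78) (nat_lit 304) (nat_lit 0) (XT.lf (nat_lit 0) (nat_lit 4961653798) (nat_lit 304) (nat_lit 3149769510) (nat_lit 380) (nat_lit 257857553) (nat_lit 49) (nat_lit 5) (nat_lit 53) (nat_lit 5) (nat_lit 54) (nat_lit 5) (nat_lit 254) (nat_lit 238) (nat_lit 228)) (XT.lf (nat_lit 0) (nat_lit 3420590689) (nat_lit 304) (nat_lit 4839115854) (nat_lit 76) (nat_lit 431902056) (nat_lit 45) (nat_lit 5) (nat_lit 49) (nat_lit 5) (nat_lit 46) (nat_lit 5) (nat_lit 255) (nat_lit 238) (nat_lit 227))) (XT.nd (nat_lit 78) (nat_lit 304) (nat_lit 0) (XT.lf (nat_lit 0) (nat_lit 2526421621) (nat_lit 304) (nat_lit 4780993447) (nat_lit 380) (nat_lit 1736935456) (nat_lit 41) (nat_lit 5) (nat_lit 45) (nat_lit 5) (nat_lit 46) (nat_lit 5) (nat_lit 256) (nat_lit 238) (nat_lit 226)) (XT.nd (nat_lit 78)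 (nat_lit 0) (nat_lit 0) (XT.lf (nat_lit 0) (nat_lit 959115711) (nat_lit 228) (nat_lit 933447101) (nat_lit 304) (nat_lit 7538040793) (nat_lit 37) (nat_lit 5) (nat_lit 40) (nat_lit 5) (nat_lit 41) (nat_lit 5) (nat_lit 257) (nat_lit 238) (nat_lit 225)) (XT.lf (nat_lit 0) (nat_lit 5708270156) (nat_lit 304) (nat_lit 925816226) (nat_lit 76) (nat_lit 3215224968) (nat_lit 37) (nat_lit 5) (nat_lit 41) (nat_lit 5) (nat_lit 38) (nat_lit 5) (nat_lit 258) (nat_lit 238) (nat_lit 224))))))) (XT.nd (nat_lit 702) (nat_lit 608) (nat_lit 0) (XT.nd (nat_lit 312) (nat_lit 760) (nat_lit 0) (XT.nd (nat_lit 156) (nat_lit 228) (nat_lit 0) (XT.nd (nat_lit 78) (nat_lit 304) (nat_lit 0) (XT.lf (nat_lit 0) (nat_lit 7188435959) (nat_lit 228) (nat_lit 2574498165) (nat_lit 304) (nat_lit 542649628) (nat_lit 34) (nat_lit 5) (nat_lit 37) (nat_lit 5) (nat_lit 38) (nat_lit 5) (nat_lit 259) (nat_lit 238) (nat_lit 223)) (XT.lf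 (nat_lit 0) (nat_lit 3174326490) (nat_lit 304) (nat_lit 5779669596) (nat_lit 76) (nat_lit 1845529269) (nat_lit 30) (nat_lit 5) (nat_lit 34) (nat_lit 5) (nat_lit 31) (nat_lit 5) (nat_lit 260) (nat_lit 238) (nat_lit 222))) (XT.nd (nat_lit 78) (nat_lit 0) (nat_lit 0) (XT.lf (nat_lit 0) (nat_lit 2367871603) (nat_lit 228) (nat_lit 4759617380) (nat_lit 304) (nat_lit 4207771370) (nat_lit 27) (nat_lit 5) (nat_lit 30) (nat_lit 5) (nat_lit 31) (nat_lit 5) (nat_lit 261) (nat_lit 238) (nat_lit 221)) (XT.lf (nat_lit 0) (nat_lit 11140852292) (nat_lit 228) (nat_lit 188297487) (nat_lit 304) (nat_lit 588661429) (nat_lit 27) (nat_lit 5) (nat_lit 30) (nat_lit 5) (nat_lit 31) (nat_lit 5) (nat_lit 262) (nat_lit 238) (nat_lit 220)))) (XT.nd (nat_lit 156) (nat_lit 380) (nat_lit 0) (XT.nd (nat_lit 78) (nat_lit 152) (nat_lit 0) (XT.lf (nat_lit 0) (nat_lit 3256509544) (nat_lit 228) (nat_lit 4569265045) (nat_lit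 76) (nat_lit 4716962269) (nat_lit 24) (nat_lit 5) (nat_lit 27) (nat_lit 5) (nat_lit 25) (nat_lit 5) (nat_lit 263) (nat_lit 238) (nat_lit 219)) (XT.lf (nat_lit 0) (nat_lit 4135031175) (nat_lit 152) (nat_lit 3183902994) (nat_lit 228) (nat_lit 5902191548) (nat_lit 22) (nat_lit 5) (nat_lit 24) (nat_lit 5) (nat_lit 25) (nat_lit 5) (nat_lit 264) (nat_lit 238) (nat_lit 218))) (XT.nd (nat_lit 78) (nat_lit 380) (nat_lit 0) (XT.lf (nat_lit 0) (nat_lit 11671241085) (nat_lit 228) (nat_lit 496607071) (nat_lit 76) (nat_lit 1788123537) (nat_lit 22) (nat_lit 5) (nat_lit 25) (nat_lit 5) (nat_lit 23) (nat_lit 4) (nat_lit 265) (nat_lit 238) (nat_lit 217)) (XT.nd (nat_lit 78) (nat_lit 152) (nat_lit 0) (XT.lf (nat_lit 0) (nat_lit 1628113032) (nat_lit 228) (nat_lit 5964906963) (nat_lit 76) (nat_lit 7152803415) (nat_lit 19) (nat_lit 5) (nat_lit 22) (nat_lit 5) (nat_lit 20) (nat_lit 5) (nat_lit 266) (nat_lit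 238) (nat_lit 216)) (XT.lf (nat_lit 0) (nat_lit 3084257123) (nat_lit 152) (nat_lit 2618329604) (nat_lit 228) (nat_lit 9898322835) (nat_lit 17) (nat_lit 5) (nat_lit 19) (nat_lit 5) (nat_lit 20) (nat_lit 5) (nat_lit 267) (nat_lit 238) (nat_lit 215)))))) (XT.nd (nat_lit 312) (nat_lit 304) (nat_lit 0) (XT.nd (nat_lit 156) (nat_lit 228) (nat_lit 0) (XT.nd (nat_lit 78) (nat_lit 76) (nat_lit 0) (XT.lf (nat_lit 0) (nat_lit 10127913653) (nat_lit 228) (nat_lit 3686237990) (nat_lit 76) (nat_lit 2709331610) (nat_lit 17) (nat_lit 5) (nat_lit 20) (nat_lit 5) (nat_lit 18) (nat_lit 4) (nat_lit 268) (nat_lit 238) (nat_lit 214)) (XT.lf (nat_lit 0) (nat_lit 5814137768) (nat_lit 76) (nat_lit 9113502140) (nat_lit 152) (nat_lit 2591505582) (nat_lit 16) (nat_lit 5) (nat_lit 17) (nat_lit 5) (nat_lit 18) (nat_lit 4) (nat_lit 269) (nat_lit 238) (nat_lit 213))) (XT.nd (nat_lit 78) (nat_lit 152) (nat_lit 0) (XT.lf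 (nat_lit 0) (nat_lit 1422815060) (nat_lit 152) (nat_lit 2584393543) (nat_lit 76) (nat_lit 14588609604) (nat_lit 15) (nat_lit 5) (nat_lit 17) (nat_lit 5) (nat_lit 16) (nat_lit 5) (nat_lit 270) (nat_lit 238) (nat_lit 212)) (XT.lf (nat_lit 0) (nat_lit 5705202210) (nat_lit 228) (nat_lit 12487348093) (nat_lit 76) (nat_lit 1562310548) (nat_lit 13) (nat_lit 5) (nat_lit 16) (nat_lit 5) (nat_lit 14) (nat_lit 4) (nat_lit 271) (nat_lit 238) (nat_lit 211)))) (XT.nd (nat_lit 156) (nat_lit 228) (nat_lit 0) (XT.nd (nat_lit 78) (nat_lit 76) (nat_lit 0) (XT.lf (nat_lit 0) (nat_lit 10345219060) (nat_lit 228) (nat_lit 3231655637) (nat_lit 76) (nat_lit 7429228070) (nat_lit 13) (nat_lit 5) (nat_lit 16) (nat_lit 5) (nat_lit 14) (nat_lit 4) (nat_lit 272) (nat_lit 238) (nat_lit 210)) (XT.lf (nat_lit 0) (nat_lit 6836227316) (nat_lit 76) (nat_lit 8535936495) (nat_lit 152) (nat_lit 6984704824) (nat_lit 12) (nat_lit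 5) (nat_lit 13) (nat_lit 5) (nat_lit 14) (nat_lit 4) (nat_lit 273) (nat_lit 238) (nat_lit 209))) (XT.nd (nat_lit 78) (nat_lit 228) (nat_lit 0) (XT.lf (nat_lit 0) (nat_lit 17684266769) (nat_lit 76) (nat_lit 3086829469) (nat_lit 152) (nat_lit 3046303229) (nat_lit 12) (nat_lit 5) (nat_lit 13) (nat_lit 5) (nat_lit 14) (nat_lit 4) (nat_lit 274) (nat_lit 238) (nat_lit 208)) (XT.nd (nat_lit 78) (nat_lit 0) (nat_lit 0) (XT.lf (nat_lit 0) (nat_lit 1193351423) (nat_lit 228) (nat_lit 21458365900) (nat_lit 76) (nat_lit 2741044404) (nat_lit 9) (nat_lit 5) (nat_lit 12) (nat_lit 5) (nat_lit 10) (nat_lit 4) (nat_lit 275) (nat_lit 238) (nat_lit 207)) (XT.lf (nat_lit 0) (nat_lit 5749243649) (nat_lit 228) (nat_lit 12298233587) (nat_lit 76) (nat_lit 9040148587) (nat_lit 9) (nat_lit 5) (nat_lit 12) (nat_lit 5) (nat_lit 10) (nat_lit 4) (nat_lit 276) (nat_lit 238) (nat_lit 206))))))))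
noncomputable def xc45 : XT := (XT.nd (nat_lit 1404) (nat_lit 152) (nat_lit 0) (XT.nd (nat_lit 702) (nat_lit 76) (nat_lit 0) (XT.nd (nat_lit 312) (nat_lit 228) (nat_lit 0) (XT.nd (nat_lit 156) (nat_lit 0) (nat_lit 0) (XT.nd (nat_lit 78) (nat_lit 76) (nat_lit 0) (XT.lf (nat_lit 0) (nat_lit 10597134837) (nat_lit 228) (nat_lit 2526211050) (nat_lit 76) (nat_lit 15798504433) (nat_lit 9) (nat_lit 5) (nat_lit 12) (nat_lit 5) (nat_lit 10) (nat_lit 4) (nat_lit 277) (nat_lit 238) (nat_lit 205)) (XT.lf (nat_lit 0) (nat_lit 8177335807) (nat_lit 76) (nat_lit 7716088553) (nat_lit 152) (nat_lit 15006496782) (nat_lit 8) (nat_lit 5) (nat_lit 9) (nat_lit 5) (nat_lit 10) (nat_lit 4) (nat_lit 278) (nat_lit 238) (nat_lit 204))) (XT.nd (nat_lit 78) (nat_lit 0) (nat_lit 0) (XT.lf (nat_lit 0) (nat_lit 19720279087) (nat_lit 76) (nat_lit 1873337417) (nat_lit 152) (nat_lit 11443737740) (nat_lit 8) (nat_lit 5) (nat_lit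 9) (nat_lit 5) (nat_lit 10) (nat_lit 4) (nat_lit 279) (nat_lit 238) (nat_lit 203)) (XT.lf (nat_lit 0) (nat_lit 27759390414) (nat_lit 152) (nat_lit 3330005264) (nat_lit 0) (nat_lit 4256025209) (nat_lit 8) (nat_lit 5) (nat_lit 10) (nat_lit 4) (nat_lit 8) (nat_lit 4) (nat_lit 280) (nat_lit 238) (nat_lit 202)))) (XT.nd (nat_lit 156) (nat_lit 76) (nat_lit 0) (XT.nd (nat_lit 78) (nat_lit 76) (nat_lit 0) (XT.lf (nat_lit 0) (nat_lit 7572734067) (nat_lit 76) (nat_lit 26940229239) (nat_lit 76) (nat_lit 3320551232) (nat_lit 7) (nat_lit 4) (nat_lit 8) (nat_lit 5) (nat_lit 8) (nat_lit 4) (nat_lit 281) (nat_lit 238) (nat_lit 201)) (XT.lf (nat_lit 0) (nat_lit 1250406526) (nat_lit 152) (nat_lit 21164041666) (nat_lit 76) (nat_lit 18105028884) (nat_lit 6) (nat_lit 5) (nat_lit 8) (nat_lit 5) (nat_lit 7) (nat_lit 4) (nat_lit 282) (nat_lit 238) (nat_lit 200))) (XT.nd (nat_lit 78) (nat_lit 76) (nat_lit 0)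 (XT.lf (nat_lit 0) (nat_lit 6022675132) (nat_lit 152) (nat_lit 11480610505) (nat_lit 76) (nat_lit 25916799325) (nat_lit 6) (nat_lit 5) (nat_lit 8) (nat_lit 5) (nat_lit 7) (nat_lit 4) (nat_lit 283) (nat_lit 238) (nat_lit 199)) (XT.nd (nat_lit 78) (nat_lit 76) (nat_lit 0) (XT.lf (nat_lit 0) (nat_lit 11130813072) (nat_lit 152) (nat_lit 1101260582) (nat_lit 76) (nat_lit 34323045485) (nat_lit 6) (nat_lit 5) (nat_lit 8) (nat_lit 5) (nat_lit 7) (nat_lit 4) (nat_lit 284) (nat_lit 238) (nat_lit 198)) (XT.lf (nat_lit 0) (nat_lit 10367334821) (nat_lit 76) (nat_lit 6399619121) (nat_lit 152) (nat_lit 33168110485) (nat_lit 5) (nat_lit 5) (nat_lit 6) (nat_lit 5) (nat_lit 7) (nat_lit 4) (nat_lit 285) (nat_lit 238) (nat_lit 197)))))) (XT.nd (nat_lit 312) (nat_lit 76) (nat_lit 0) (XT.nd (nat_lit 156) (nat_lit 0) (nat_lit 0) (XT.nd (nat_lit 78) (nat_lit 0) (nat_lit 0) (XT.lf (nat_lit 0) (nat_lit 22722990645)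 (nat_lit 76) (nat_lit 109727377) (nat_lit 152) (nat_lit 30753821067) (nat_lit 5) (nat_lit 5) (nat_lit 6) (nat_lit 5) (nat_lit 7) (nat_lit 4) (nat_lit 286) (nat_lit 238) (nat_lit 196)) (XT.lf (nat_lit 0) (nat_lit 29450210632) (nat_lit 152) (nat_lit 21633478983) (nat_lit 0) (nat_lit 6443183873) (nat_lit 5) (nat_lit 5) (nat_lit 7) (nat_lit 4) (nat_lit 5) (nat_lit 4) (nat_lit 287) (nat_lit 238) (nat_lit 195))) (XT.nd (nat_lit 78) (nat_lit 0) (nat_lit 0) (XT.lf (nat_lit 0) (nat_lit 36563880161) (nat_lit 152) (nat_lit 11728058134) (nat_lit 0) (nat_lit 13492217780) (nat_lit 5) (nat_lit 5) (nat_lit 7) (nat_lit 4) (nat_lit 5) (nat_lit 4) (nat_lit 288) (nat_lit 238) (nat_lit 194)) (XT.lf (nat_lit 0) (nat_lit 44214168535) (nat_lit 152) (nat_lit 1086873956) (nat_lit 0) (nat_lit 21082658356) (nat_lit 5) (nat_lit 5) (nat_lit 7) (nat_lit 4) (nat_lit 5) (nat_lit 4) (nat_lit 289) (nat_lit 238) (nat_lit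 193)))) (XT.nd (nat_lit 156) (nat_lit 0) (nat_lit 0) (XT.nd (nat_lit 78) (nat_lit 0) (nat_lit 0) (XT.lf (nat_lit 0) (nat_lit 10695453735) (nat_lit 76) (nat_lit 41917943069) (nat_lit 76) (nat_lit 18731018262) (nat_lit 4) (nat_lit 4) (nat_lit 5) (nat_lit 5) (nat_lit 5) (nat_lit 4) (nat_lit 290) (nat_lit 238) (nat_lit 192)) (XT.lf (nat_lit 0) (nat_lit 23408987418) (nat_lit 76) (nat_lit 38265883085) (nat_lit 76) (nat_lit 15027648438) (nat_lit 4) (nat_lit 4) (nat_lit 5) (nat_lit 5) (nat_lit 5) (nat_lit 4) (nat_lit 291) (nat_lit 238) (nat_lit 191))) (XT.nd (nat_lit 78) (nat_lit 0) (nat_lit 0) (XT.lf (nat_lit 0) (nat_lit 37093129589) (nat_lit 76) (nat_lit 34341627440) (nat_lit 76) (nat_lit 11055883680) (nat_lit 4) (nat_lit 4) (nat_lit 5) (nat_lit 5) (nat_lit 5) (nat_lit 4) (nat_lit 292) (nat_lit 238) (nat_lit 190)) (XT.nd (nat_lit 78) (nat_lit 0) (nat_lit 0) (XT.lf (nat_lit 0) (nat_lit 51828971461)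 (nat_lit 76) (nat_lit 30121921284) (nat_lit 76) (nat_lit 6792187606) (nat_lit 4) (nat_lit 4) (nat_lit 5) (nat_lit 5) (nat_lit 5) (nat_lit 4) (nat_lit 293) (nat_lit 238) (nat_lit 189)) (XT.lf (nat_lit 0) (nat_lit 67703836542) (nat_lit 76) (nat_lit 25581758952) (nat_lit 76) (nat_lit 2211293868) (nat_lit 4) (nat_lit 4) (nat_lit 5) (nat_lit 5) (nat_lit 5) (nat_lit 4) (nat_lit 294) (nat_lit 238) (nat_lit 188))))))) (XT.nd (nat_lit 702) (nat_lit 0) (nat_lit 0) (XT.nd (nat_lit 312) (nat_lit 0) (nat_lit 0) (XT.nd (nat_lit 156) (nat_lit 76) (nat_lit 0) (XT.nd (nat_lit 78) (nat_lit 0) (nat_lit 0) (XT.lf (nat_lit 0) (nat_lit 2627080426) (nat_lit 152) (nat_lit 18022664473) (nat_lit 76) (nat_lit 82140226801) (nat_lit 3) (nat_lit 5) (nat_lit 5) (nat_lit 5) (nat_lit 4) (nat_lit 4) (nat_lit 295) (nat_lit 238) (nat_lit 187)) (XT.lf (nat_lit 0) (nat_lit 7756254499) (nat_lit 152) (nat_lit 7542778238) (nat_lit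 76) (nat_lit 95366626244) (nat_lit 3) (nat_lit 5) (nat_lit 5) (nat_lit 5) (nat_lit 4) (nat_lit 4) (nat_lit 296) (nat_lit 238) (nat_lit 186))) (XT.nd (nat_lit 78) (nat_lit 0) (nat_lit 0) (XT.lf (nat_lit 0) (nat_lit 3867001606) (nat_lit 76) (nat_lit 9470771794) (nat_lit 152) (nat_lit 105831556033) (nat_lit 2) (nat_lit 5) (nat_lit 3) (nat_lit 5) (nat_lit 4) (nat_lit 4) (nat_lit 297) (nat_lit 238) (nat_lit 185)) (XT.lf (nat_lit 0) (nat_lit 16428050748) (nat_lit 76) (nat_lit 3051667990) (nat_lit 152) (nat_lit 108867906144) (nat_lit 2) (nat_lit 5) (nat_lit 3) (nat_lit 5) (nat_lit 4) (nat_lit 4) (nat_lit 298) (nat_lit 238) (nat_lit 184)))) (XT.nd (nat_lit 156) (nat_lit 0) (nat_lit 0) (XT.nd (nat_lit 78) (nat_lit 0) (nat_lit 0) (XT.lf (nat_lit 0) (nat_lit 26157228841) (nat_lit 152) (nat_lit 108356010723) (nat_lit 0) (nat_lit 3744758578) (nat_lit 2) (nat_lit 5) (nat_lit 4) (nat_lit 4) (nat_lit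 2) (nat_lit 4) (nat_lit 299) (nat_lit 238) (nat_lit 183)) (XT.lf (nat_lit 0) (nat_lit 33405226462) (nat_lit 152) (nat_lit 104585872501) (nat_lit 0) (nat_lit 10968310775) (nat_lit 2) (nat_lit 5) (nat_lit 4) (nat_lit 4) (nat_lit 2) (nat_lit 4) (nat_lit 300) (nat_lit 238) (nat_lit 182))) (XT.nd (nat_lit 78) (nat_lit 0) (nat_lit 0) (XT.lf (nat_lit 0) (nat_lit 41219017608) (nat_lit 152) (nat_lit 100539172819) (nat_lit 0) (nat_lit 18759467269) (nat_lit 2) (nat_lit 5) (nat_lit 4) (nat_lit 4) (nat_lit 2) (nat_lit 4) (nat_lit 301) (nat_lit 238) (nat_lit 181)) (XT.nd (nat_lit 78) (nat_lit 0) (nat_lit 0) (XT.lf (nat_lit 0) (nat_lit 49644906225) (nat_lit 152) (nat_lit 96191931236) (nat_lit 0) (nat_lit 27164397876) (nat_lit 2) (nat_lit 5) (nat_lit 4) (nat_lit 4) (nat_lit 2) (nat_lit 4) (nat_lit 302) (nat_lit 238) (nat_lit 180)) (XT.lf (nat_lit 0) (nat_lit 58732823507) (nat_lit 152) (nat_lit 91518386318)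 (nat_lit 0) (nat_lit 36232909593) (nat_lit 2) (nat_lit 5) (nat_lit 4) (nat_lit 4) (nat_lit 2) (nat_lit 4) (nat_lit 303) (nat_lit 238) (nat_lit 179)))))) (XT.nd (nat_lit 390) (nat_lit 0) (nat_lit 0) (XT.nd (nat_lit 156) (nat_lit 0) (nat_lit 0) (XT.nd (nat_lit 78) (nat_lit 0) (nat_lit 0) (XT.lf (nat_lit 0) (nat_lit 68536623777) (nat_lit 152) (nat_lit 86490842986) (nat_lit 0) (nat_lit 46018741747) (nat_lit 2) (nat_lit 5) (nat_lit 4) (nat_lit 4) (nat_lit 2) (nat_lit 4) (nat_lit 304) (nat_lit 238) (nat_lit 178)) (XT.lf (nat_lit 0) (nat_lit 79114403631) (nat_lit 152) (nat_lit 81079508389) (nat_lit 0) (nat_lit 56579884456) (nat_lit 2) (nat_lit 5) (nat_lit 4) (nat_lit 4) (nat_lit 2) (nat_lit 4) (nat_lit 305) (nat_lit 238) (nat_lit 177))) (XT.nd (nat_lit 78) (nat_lit 0) (nat_lit 0) (XT.lf (nat_lit 0) (nat_lit 90528846207) (nat_lit 152) (nat_lit 75252315361) (nat_lit 0) (nat_lit 67978922268) (nat_lit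 2) (nat_lit 5) (nat_lit 4) (nat_lit 4) (nat_lit 2) (nat_lit 4) (nat_lit 306) (nat_lit 238) (nat_lit 176)) (XT.nd (nat_lit 78) (nat_lit 0) (nat_lit 0) (XT.lf (nat_lit 0) (nat_lit 102847592647) (nat_lit 152) (nat_lit 68974732386) (nat_lit 0) (nat_lit 80283405038) (nat_lit 2) (nat_lit 5) (nat_lit 4) (nat_lit 4) (nat_lit 2) (nat_lit 4) (nat_lit 307) (nat_lit 238) (nat_lit 175)) (XT.lf (nat_lit 0) (nat_lit 116143642930) (nat_lit 152) (nat_lit 62209558973) (nat_lit 0) (nat_lit 93566248220) (nat_lit 2) (nat_lit 5) (nat_lit 4) (nat_lit 4) (nat_lit 2) (nat_lit 4) (nat_lit 308) (nat_lit 238) (nat_lit 174))))) (XT.nd (nat_lit 156) (nat_lit 0) (nat_lit 0) (XT.nd (nat_lit 78) (nat_lit 0) (nat_lit 0) (XT.lf (nat_lit 0) (nat_lit 130495788465) (nat_lit 152) (nat_lit 54916705205) (nat_lit 0) (nat_lit 107906164957) (nat_lit 2) (nat_lit 5) (nat_lit 4) (nat_lit 4) (nat_lit 2) (nat_lit 4) (nat_lit 309) (nat_lit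 238) (nat_lit 173)) (XT.lf (nat_lit 0) (nat_lit 145989079003) (nat_lit 152) (nat_lit 47052954172) (nat_lit 0) (nat_lit 123388132534) (nat_lit 2) (nat_lit 5) (nat_lit 4) (nat_lit 4) (nat_lit 2) (nat_lit 4) (nat_lit 310) (nat_lit 238) (nat_lit 172))) (XT.nd (nat_lit 78) (nat_lit 0) (nat_lit 0) (XT.lf (nat_lit 0) (nat_lit 162715326636) (nat_lit 152) (nat_lit 38571705867) (nat_lit 0) (nat_lit 140103895944) (nat_lit 2) (nat_lit 5) (nat_lit 4) (nat_lit 4) (nat_lit 2) (nat_lit 4) (nat_lit 311) (nat_lit 238) (nat_lit 171)) (XT.nd (nat_lit 78) (nat_lit 0) (nat_lit 0) (XT.lf (nat_lit 0) (nat_lit 180773649869) (nat_lit 152) (nat_lit 29422701040) (nat_lit 0) (nat_lit 158152511563) (nat_lit 2) (nat_lit 5) (nat_lit 4) (nat_lit 4) (nat_lit 2) (nat_lit 4) (nat_lit 312) (nat_lit 238) (nat_lit 170)) (XT.lf (nat_lit 0) (nat_lit 200271060988) (nat_lit 152) (nat_lit 19551723367) (nat_lit 0) (nat_lit 177640934150)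 (nat_lit 2) (nat_lit 5) (nat_lit 4) (nat_lit 4) (nat_lit 2) (nat_lit 4) (nat_lit 313) (nat_lit 238) (nat_lit 169))))))))
noncomputable def xc46 : XT := (XT.nd (nat_lit 32526) (nat_lit 0) (nat_lit 1368) (XT.nd (nat_lit 702) (nat_lit 0) (nat_lit 0) (XT.nd (nat_lit 312) (nat_lit 0) (nat_lit 0) (XT.nd (nat_lit 156) (nat_lit 0) (nat_lit 0) (XT.nd (nat_lit 78) (nat_lit 76) (nat_lit 0) (XT.lf (nat_lit 0) (nat_lit 221323100207) (nat_lit 152) (nat_lit 8900278166) (nat_lit 0) (nat_lit 198684650655) (nat_lit 2) (nat_lit 5) (nat_lit 4) (nat_lit 4) (nat_lit 2) (nat_lit 4) (nat_lit 314) (nat_lit 238) (nat_lit 168)) (XT.lf (nat_lit 0) (nat_lit 2680548531) (nat_lit 76) (nat_lit 241415822694) (nat_lit 76) (nat_lit 218769666924) (nat_lit 1) (nat_lit 4) (nat_lit 2) (nat_lit 5) (nat_lit 2) (nat_lit 4) (nat_lit 315) (nat_lit 238) (nat_lit 167))) (XT.nd (nat_lit 78) (nat_lit 0) (nat_lit 0) (XT.lf (nat_lit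 0) (nat_lit 15497509650) (nat_lit 76) (nat_lit 253344476037) (nat_lit 76) (nat_lit 230691184882) (nat_lit 1) (nat_lit 4) (nat_lit 2) (nat_lit 5) (nat_lit 2) (nat_lit 4) (nat_lit 316) (nat_lit 238) (nat_lit 166)) (XT.lf (nat_lit 0) (nat_lit 29332274160) (nat_lit 76) (nat_lit 266230757239) (nat_lit 76) (nat_lit 243570859245) (nat_lit 1) (nat_lit 4) (nat_lit 2) (nat_lit 5) (nat_lit 2) (nat_lit 4) (nat_lit 317) (nat_lit 238) (nat_lit 165)))) (XT.nd (nat_lit 156) (nat_lit 0) (nat_lit 0) (XT.nd (nat_lit 78) (nat_lit 0) (nat_lit 0) (XT.lf (nat_lit 0) (nat_lit 44266825851) (nat_lit 76) (nat_lit 280151029446) (nat_lit 76) (nat_lit 257485014008) (nat_lit 1) (nat_lit 4) (nat_lit 2) (nat_lit 5) (nat_lit 2) (nat_lit 4) (nat_lit 318) (nat_lit 238) (nat_lit 164)) (XT.lf (nat_lit 0) (nat_lit 60389665770) (nat_lit 76) (nat_lit 295187783160) (nat_lit 76) (nat_lit 272516103423) (nat_lit 1) (nat_lit 4) (nat_lit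 2) (nat_lit 5) (nat_lit 2) (nat_lit 4) (nat_lit 319) (nat_lit 238) (nat_lit 163))) (XT.nd (nat_lit 78) (nat_lit 0) (nat_lit 0) (XT.lf (nat_lit 0) (nat_lit 77796336673) (nat_lit 76) (nat_lit 311430125071) (nat_lit 76) (nat_lit 288753200612) (nat_lit 1) (nat_lit 4) (nat_lit 2) (nat_lit 5) (nat_lit 2) (nat_lit 4) (nat_lit 320) (nat_lit 238) (nat_lit 162)) (XT.nd (nat_lit 78) (nat_lit 0) (nat_lit 0) (XT.lf (nat_lit 0) (nat_lit 96589989202) (nat_lit 76) (nat_lit 328974306092) (nat_lit 76) (nat_lit 306292525409) (nat_lit 1) (nat_lit 4) (nat_lit 2) (nat_lit 5) (nat_lit 2) (nat_lit 4) (nat_lit 321) (nat_lit 238) (nat_lit 161)) (XT.lf (nat_lit 0) (nat_lit 116881993148) (nat_lit 76) (nat_lit 347924291742) (nat_lit 76) (nat_lit 325238014555) (nat_lit 1) (nat_lit 4) (nat_lit 2) (nat_lit 5) (nat_lit 2) (nat_lit 4) (nat_lit 322) (nat_lit 238) (nat_lit 160)))))) (XT.nd (nat_lit 31434) (nat_lit 0) (nat_lit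 5700) (XT.nd (nat_lit 31278) (nat_lit 0) (nat_lit 7752) (XT.nd (nat_lit 31200) (nat_lit 0) (nat_lit 8056) (XT.lf (nat_lit 0) (nat_lit 138792597426) (nat_lit 76) (nat_lit 368392378232) (nat_lit 76) (nat_lit 345701937616) (nat_lit 1) (nat_lit 4) (nat_lit 2) (nat_lit 5) (nat_lit 2) (nat_lit 4) (nat_lit 323) (nat_lit 238) (nat_lit 159)) (XT.lf (nat_lit 0) (nat_lit 1372157367) (nat_lit 76) (nat_lit 931985677) (nat_lit 76) (nat_lit 931985677) (nat_lit 107) (nat_lit 4) (nat_lit 108) (nat_lit 5) (nat_lit 108) (nat_lit 4) (nat_lit 242) (nat_lit 239) (nat_lit 239))) (XT.nd (nat_lit 78) (nat_lit 76) (nat_lit 0) (XT.lf (nat_lit 0) (nat_lit 1180251771) (nat_lit 152) (nat_lit 1240553571) (nat_lit 228) (nat_lit 4093976517) (nat_lit 104) (nat_lit 5) (nat_lit 106) (nat_lit 5) (nat_lit 107) (nat_lit 4) (nat_lit 243) (nat_lit 239) (nat_lit 238)) (XT.lf (nat_lit 0) (nat_lit 58035481) (nat_lit 228) (nat_lit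 254202287) (nat_lit 76) (nat_lit 6267189623) (nat_lit 103) (nat_lit 5) (nat_lit 106) (nat_lit 5) (nat_lit 104) (nat_lit 5) (nat_lit 244) (nat_lit 239) (nat_lit 237)))) (XT.nd (nat_lit 156) (nat_lit 1444) (nat_lit 0) (XT.nd (nat_lit 78) (nat_lit 380) (nat_lit 0) (XT.lf (nat_lit 0) (nat_lit 4107590713) (nat_lit 304) (nat_lit 1605551705) (nat_lit 76) (nat_lit 950050156) (nat_lit 100) (nat_lit 5) (nat_lit 104) (nat_lit 5) (nat_lit 101) (nat_lit 4) (nat_lit 245) (nat_lit 239) (nat_lit 236)) (XT.lf (nat_lit 0) (nat_lit 1374899542) (nat_lit 380) (nat_lit 2886922840) (nat_lit 76) (nat_lit 2507771391) (nat_lit 95) (nat_lit 5) (nat_lit 100) (nat_lit 5) (nat_lit 96) (nat_lit 5) (nat_lit 246) (nat_lit 239) (nat_lit 235))) (XT.nd (nat_lit 78) (nat_lit 1064) (nat_lit 0) (XT.lf (nat_lit 0) (nat_lit 2763056087) (nat_lit 380) (nat_lit 2494182317) (nat_lit 456) (nat_lit 1641068162) (nat_lit 90) (nat_lit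 5) (nat_lit 95) (nat_lit 5) (nat_lit 96) (nat_lit 5) (nat_lit 247) (nat_lit 239) (nat_lit 234)) (XT.nd (nat_lit 78) (nat_lit 532) (nat_lit 0) (XT.lf (nat_lit 0) (nat_lit 1681255602) (nat_lit 456) (nat_lit 400220364) (nat_lit 532) (nat_lit 4968640258) (nat_lit 83) (nat_lit 5) (nat_lit 89) (nat_lit 5) (nat_lit 90) (nat_lit 5) (nat_lit 248) (nat_lit 239) (nat_lit 233)) (XT.lf (nat_lit 0) (nat_lit 587162520) (nat_lit 532) (nat_lit 5259292566) (nat_lit 608) (nat_lit 1377993841) (nat_lit 76) (nat_lit 5) (nat_lit 83) (nat_lit 5) (nat_lit 84) (nat_lit 5) (nat_lit 249) (nat_lit 239) (nat_lit 232))))))) (XT.nd (nat_lit 702) (nat_lit 1368) (nat_lit 0) (XT.nd (nat_lit 312) (nat_lit 1216) (nat_lit 0) (XT.nd (nat_lit 156) (nat_lit 1064) (nat_lit 0) (XT.nd (nat_lit 78) (nat_lit 608) (nat_lit 0) (XT.lf (nat_lit 0) (nat_lit 2224075562) (nat_lit 608) (nat_lit 517523166) (nat_lit 76) (nat_lit 4680582326)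 (nat_lit 75) (nat_lit 5) (nat_lit 83) (nat_lit 5) (nat_lit 76) (nat_lit 5) (nat_lit 250) (nat_lit 239) (nat_lit 231)) (XT.lf (nat_lit 0) (nat_lit 5886814422) (nat_lit 684) (nat_lit 1639486557) (nat_lit 76) (nat_lit 118756167) (nat_lit 67) (nat_lit 5) (nat_lit 76) (nat_lit 5) (nat_lit 68) (nat_lit 5) (nat_lit 251) (nat_lit 239) (nat_lit 230))) (XT.nd (nat_lit 78) (nat_lit 304) (nat_lit 0) (XT.lf (nat_lit 0) (nat_lit 1766221995) (nat_lit 760) (nat_lit 2880057247) (nat_lit 76) (nat_lit 3245671831) (nat_lit 57) (nat_lit 5) (nat_lit 67) (nat_lit 5) (nat_lit 58) (nat_lit 5) (nat_lit 252) (nat_lit 239) (nat_lit 229)) (XT.lf (nat_lit 0) (nat_lit 3937528267) (nat_lit 304) (nat_lit 1416254529) (nat_lit 380) (nat_lit 2812455451) (nat_lit 53) (nat_lit 5) (nat_lit 57) (nat_lit 5) (nat_lit 58) (nat_lit 5) (nat_lit 253) (nat_lit 239) (nat_lit 228)))) (XT.nd (nat_lit 156) (nat_lit 608) (nat_lit 0) (XT.nd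 (nat_lit 78) (nat_lit 228) (nat_lit 0) (XT.lf (nat_lit 0) (nat_lit 630504387) (nat_lit 380) (nat_lit 5737925391) (nat_lit 76) (nat_lit 2100059604) (nat_lit 48) (nat_lit 5) (nat_lit 53) (nat_lit 5) (nat_lit 49) (nat_lit 5) (nat_lit 254) (nat_lit 239) (nat_lit 227)) (XT.lf (nat_lit 0) (nat_lit 1322139764) (nat_lit 228) (nat_lit 2823675236) (nat_lit 304) (nat_lit 4653023922) (nat_lit 45) (nat_lit 5) (nat_lit 48) (nat_lit 5) (nat_lit 49) (nat_lit 5) (nat_lit 255) (nat_lit 239) (nat_lit 226))) (XT.nd (nat_lit 78) (nat_lit 608) (nat_lit 0) (XT.lf (nat_lit 0) (nat_lit 7846779614) (nat_lit 304) (nat_lit 270070890) (nat_lit 76) (nat_lit 1044466726) (nat_lit 45) (nat_lit 5) (nat_lit 49) (nat_lit 5) (nat_lit 46) (nat_lit 5) (nat_lit 256) (nat_lit 239) (nat_lit 225)) (XT.nd (nat_lit 78) (nat_lit 228) (nat_lit 0) (XT.lf (nat_lit 0) (nat_lit 2183485067) (nat_lit 380) (nat_lit 2121187469) (nat_lit 76)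 (nat_lit 5248856847) (nat_lit 40) (nat_lit 5) (nat_lit 45) (nat_lit 5) (nat_lit 41) (nat_lit 5) (nat_lit 257) (nat_lit 239) (nat_lit 224)) (XT.lf (nat_lit 0) (nat_lit 5712267703) (nat_lit 228) (nat_lit 107800307) (nat_lit 304) (nat_lit 4161487376) (nat_lit 37) (nat_lit 5) (nat_lit 40) (nat_lit 5) (nat_lit 41) (nat_lit 5) (nat_lit 258) (nat_lit 239) (nat_lit 223)))))) (XT.nd (nat_lit 312) (nat_lit 608) (nat_lit 0) (XT.nd (nat_lit 156) (nat_lit 228) (nat_lit 0) (XT.nd (nat_lit 78) (nat_lit 304) (nat_lit 0) (XT.lf (nat_lit 0) (nat_lit 3621456098) (nat_lit 228) (nat_lit 6109421128) (nat_lit 304) (nat_lit 714478518) (nat_lit 34) (nat_lit 5) (nat_lit 37) (nat_lit 5) (nat_lit 38) (nat_lit 5) (nat_lit 259) (nat_lit 239) (nat_lit 222)) (XT.lf (nat_lit 0) (nat_lit 1111702810) (nat_lit 228) (nat_lit 1721649030) (nat_lit 304) (nat_lit 8115107521) (nat_lit 30) (nat_lit 5) (nat_lit 33) (nat_lit 5)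 (nat_lit 34) (nat_lit 5) (nat_lit 260) (nat_lit 239) (nat_lit 221))) (XT.nd (nat_lit 78) (nat_lit 228) (nat_lit 0) (XT.lf (nat_lit 0) (nat_lit 6643435230) (nat_lit 304) (nat_lit 1846441670) (nat_lit 76) (nat_lit 3001745127) (nat_lit 30) (nat_lit 5) (nat_lit 34) (nat_lit 5) (nat_lit 31) (nat_lit 5) (nat_lit 261) (nat_lit 239) (nat_lit 220)) (XT.lf (nat_lit 0) (nat_lit 6761875341) (nat_lit 228) (nat_lit 3978460372) (nat_lit 304) (nat_lit 1339328621) (nat_lit 27) (nat_lit 5) (nat_lit 30) (nat_lit 5) (nat_lit 31) (nat_lit 5) (nat_lit 262) (nat_lit 239) (nat_lit 219)))) (XT.nd (nat_lit 156) (nat_lit 380) (nat_lit 0) (XT.nd (nat_lit 78) (nat_lit 0) (nat_lit 0) (XT.lf (nat_lit 0) (nat_lit 2323415807) (nat_lit 228) (nat_lit 9458796624) (nat_lit 76) (nat_lit 933509671) (nat_lit 24) (nat_lit 5) (nat_lit 27) (nat_lit 5) (nat_lit 25) (nat_lit 5) (nat_lit 263) (nat_lit 239) (nat_lit 218)) (XT.lf (nat_lit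 0) (nat_lit 6253838710) (nat_lit 228) (nat_lit 984200737) (nat_lit 76) (nat_lit 6162878536) (nat_lit 24) (nat_lit 5) (nat_lit 27) (nat_lit 5) (nat_lit 25) (nat_lit 5) (nat_lit 264) (nat_lit 239) (nat_lit 217))) (XT.nd (nat_lit 78) (nat_lit 228) (nat_lit 0) (XT.lf (nat_lit 0) (nat_lit 8244750679) (nat_lit 152) (nat_lit 2252779562) (nat_lit 228) (nat_lit 3643856092) (nat_lit 22) (nat_lit 5) (nat_lit 24) (nat_lit 5) (nat_lit 25) (nat_lit 5) (nat_lit 265) (nat_lit 239) (nat_lit 216)) (XT.nd (nat_lit 78) (nat_lit 0) (nat_lit 0) (XT.lf (nat_lit 0) (nat_lit 126594626) (nat_lit 228) (nat_lit 11769538739) (nat_lit 76) (nat_lit 3045629311) (nat_lit 19) (nat_lit 5) (nat_lit 22) (nat_lit 5) (nat_lit 20) (nat_lit 5) (nat_lit 266) (nat_lit 239) (nat_lit 215)) (XT.lf (nat_lit 0) (nat_lit 4095325382) (nat_lit 228) (nat_lit 2906223604) (nat_lit 76) (nat_lit 8800743437) (nat_lit 19) (nat_lit 5) (nat_lit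 22) (nat_lit 5) (nat_lit 20) (nat_lit 5) (nat_lit 267) (nat_lit 239) (nat_lit 214))))))))
noncomputable def xc47 : XT := (XT.nd (nat_lit 1404) (nat_lit 228) (nat_lit 0) (XT.nd (nat_lit 702) (nat_lit 304) (nat_lit 0) (XT.nd (nat_lit 312) (nat_lit 304) (nat_lit 0) (XT.nd (nat_lit 156) (nat_lit 304) (nat_lit 0) (XT.nd (nat_lit 78) (nat_lit 0) (nat_lit 0) (XT.lf (nat_lit 0) (nat_lit 6713208751) (nat_lit 152) (nat_lit 1662245621) (nat_lit 228) (nat_lit 8356816498) (nat_lit 17) (nat_lit 5) (nat_lit 19) (nat_lit 5) (nat_lit 20) (nat_lit 5) (nat_lit 268) (nat_lit 239) (nat_lit 213)) (XT.lf (nat_lit 0) (nat_lit 13007459907) (nat_lit 228) (nat_lit 758243505) (nat_lit 76) (nat_lit 3970749862) (nat_lit 17) (nat_lit 5) (nat_lit 20) (nat_lit 5) (nat_lit 18) (nat_lit 4) (nat_lit 269) (nat_lit 239) (nat_lit 212))) (XT.nd (nat_lit 78) (nat_lit 228) (nat_lit 0) (XT.lf (nat_lit 0) (nat_lit 9362099289) (nat_lit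 76) (nat_lit 8723914141) (nat_lit 152) (nat_lit 731415784) (nat_lit 16) (nat_lit 5) (nat_lit 17) (nat_lit 5) (nat_lit 18) (nat_lit 4) (nat_lit 270) (nat_lit 239) (nat_lit 211)) (XT.lf (nat_lit 0) (nat_lit 133307140) (nat_lit 152) (nat_lit 3258414612) (nat_lit 228) (nat_lit 16594563570) (nat_lit 13) (nat_lit 5) (nat_lit 15) (nat_lit 5) (nat_lit 16) (nat_lit 5) (nat_lit 271) (nat_lit 239) (nat_lit 210)))) (XT.nd (nat_lit 156) (nat_lit 304) (nat_lit 0) (XT.nd (nat_lit 78) (nat_lit 0) (nat_lit 0) (XT.lf (nat_lit 0) (nat_lit 7937112680) (nat_lit 228) (nat_lit 10617117967) (nat_lit 76) (nat_lit 2688129295) (nat_lit 13) (nat_lit 5) (nat_lit 16) (nat_lit 5) (nat_lit 14) (nat_lit 4) (nat_lit 272) (nat_lit 239) (nat_lit 209)) (XT.lf (nat_lit 0) (nat_lit 12816812783) (nat_lit 228) (nat_lit 833504780) (nat_lit 76) (nat_lit 8950264374) (nat_lit 13) (nat_lit 5) (nat_lit 16) (nat_lit 5) (nat_lit 14)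 (nat_lit 4) (nat_lit 273) (nat_lit 239) (nat_lit 208))) (XT.nd (nat_lit 78) (nat_lit 228) (nat_lit 0) (XT.lf (nat_lit 0) (nat_lit 9924352591) (nat_lit 76) (nat_lit 8239460184) (nat_lit 152) (nat_lit 5899983555) (nat_lit 12) (nat_lit 5) (nat_lit 13) (nat_lit 5) (nat_lit 14) (nat_lit 4) (nat_lit 274) (nat_lit 239) (nat_lit 207)) (XT.nd (nat_lit 78) (nat_lit 228) (nat_lit 0) (XT.lf (nat_lit 0) (nat_lit 21451996157) (nat_lit 76) (nat_lit 2426969132) (nat_lit 152) (nat_lit 1768250399) (nat_lit 12) (nat_lit 5) (nat_lit 13) (nat_lit 5) (nat_lit 14) (nat_lit 4) (nat_lit 275) (nat_lit 239) (nat_lit 206)) (XT.lf (nat_lit 0) (nat_lit 2702728493) (nat_lit 228) (nat_lit 20815925450) (nat_lit 76) (nat_lit 3831952615) (nat_lit 9) (nat_lit 5) (nat_lit 12) (nat_lit 5) (nat_lit 10) (nat_lit 4) (nat_lit 276) (nat_lit 239) (nat_lit 205)))))) (XT.nd (nat_lit 312) (nat_lit 228) (nat_lit 0) (XT.nd (nat_lit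 156) (nat_lit 76) (nat_lit 0) (XT.nd (nat_lit 78) (nat_lit 0) (nat_lit 0) (XT.lf (nat_lit 0) (nat_lit 7518358100) (nat_lit 228) (nat_lit 11097731421) (nat_lit 76) (nat_lit 10570420342) (nat_lit 9) (nat_lit 5) (nat_lit 12) (nat_lit 5) (nat_lit 10) (nat_lit 4) (nat_lit 277) (nat_lit 239) (nat_lit 204)) (XT.lf (nat_lit 0) (nat_lit 12657104660) (nat_lit 228) (nat_lit 705751588) (nat_lit 76) (nat_lit 17809662444) (nat_lit 9) (nat_lit 5) (nat_lit 12) (nat_lit 5) (nat_lit 10) (nat_lit 4) (nat_lit 278) (nat_lit 239) (nat_lit 203))) (XT.nd (nat_lit 78) (nat_lit 0) (nat_lit 0) (XT.lf (nat_lit 0) (nat_lit 10766181183) (nat_lit 76) (nat_lit 7551329081) (nat_lit 152) (nat_lit 14994487209) (nat_lit 8) (nat_lit 5) (nat_lit 9) (nat_lit 5) (nat_lit 10) (nat_lit 4) (nat_lit 279) (nat_lit 239) (nat_lit 202)) (XT.lf (nat_lit 0) (nat_lit 23089251888) (nat_lit 76) (nat_lit 1299087229) (nat_lit 152) (nat_lit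 11236524431) (nat_lit 8) (nat_lit 5) (nat_lit 9) (nat_lit 5) (nat_lit 10) (nat_lit 4) (nat_lit 280) (nat_lit 239) (nat_lit 201)))) (XT.nd (nat_lit 156) (nat_lit 152) (nat_lit 0) (XT.nd (nat_lit 78) (nat_lit 76) (nat_lit 0) (XT.lf (nat_lit 0) (nat_lit 30978788676) (nat_lit 152) (nat_lit 1896846415) (nat_lit 0) (nat_lit 5245526586) (nat_lit 8) (nat_lit 5) (nat_lit 10) (nat_lit 4) (nat_lit 8) (nat_lit 4) (nat_lit 281) (nat_lit 239) (nat_lit 200)) (XT.lf (nat_lit 0) (nat_lit 9804251288) (nat_lit 76) (nat_lit 28419803967) (nat_lit 76) (nat_lit 2586822397) (nat_lit 7) (nat_lit 4) (nat_lit 8) (nat_lit 5) (nat_lit 8) (nat_lit 4) (nat_lit 282) (nat_lit 239) (nat_lit 199))) (XT.nd (nat_lit 78) (nat_lit 76) (nat_lit 0) (XT.lf (nat_lit 0) (nat_lit 2246167529) (nat_lit 152) (nat_lit 21320670988) (nat_lit 76) (nat_lit 20147809504) (nat_lit 6) (nat_lit 5) (nat_lit 8) (nat_lit 5) (nat_lit 7) (nat_lit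 4) (nat_lit 283) (nat_lit 239) (nat_lit 198)) (XT.nd (nat_lit 78) (nat_lit 76) (nat_lit 0) (XT.lf (nat_lit 0) (nat_lit 7333867365) (nat_lit 152) (nat_lit 10976379706) (nat_lit 76) (nat_lit 28540493557) (nat_lit 6) (nat_lit 5) (nat_lit 8) (nat_lit 5) (nat_lit 7) (nat_lit 4) (nat_lit 284) (nat_lit 239) (nat_lit 197)) (XT.lf (nat_lit 0) (nat_lit 132164627) (nat_lit 76) (nat_lit 12659119749) (nat_lit 152) (nat_lit 37448371555) (nat_lit 5) (nat_lit 5) (nat_lit 6) (nat_lit 5) (nat_lit 7) (nat_lit 4) (nat_lit 285) (nat_lit 239) (nat_lit 196))))))) (XT.nd (nat_lit 702) (nat_lit 152) (nat_lit 0) (XT.nd (nat_lit 312) (nat_lit 76) (nat_lit 0) (XT.nd (nat_lit 156) (nat_lit 0) (nat_lit 0) (XT.nd (nat_lit 78) (nat_lit 0) (nat_lit 0) (XT.lf (nat_lit 0) (nat_lit 12456769493) (nat_lit 76) (nat_lit 6382271791) (nat_lit 152) (nat_lit 35053020982) (nat_lit 5) (nat_lit 5) (nat_lit 6) (nat_lit 5) (nat_lit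 7) (nat_lit 4) (nat_lit 286) (nat_lit 239) (nat_lit 195)) (XT.lf (nat_lit 0) (nat_lit 25341740024) (nat_lit 152) (nat_lit 32136716298) (nat_lit 0) (nat_lit 359709031) (nat_lit 5) (nat_lit 5) (nat_lit 7) (nat_lit 4) (nat_lit 5) (nat_lit 4) (nat_lit 287) (nat_lit 239) (nat_lit 194))) (XT.nd (nat_lit 78) (nat_lit 0) (nat_lit 0) (XT.lf (nat_lit 0) (nat_lit 32439796708) (nat_lit 152) (nat_lit 22258540805) (nat_lit 0) (nat_lit 7397917917) (nat_lit 5) (nat_lit 5) (nat_lit 7) (nat_lit 4) (nat_lit 5) (nat_lit 4) (nat_lit 288) (nat_lit 239) (nat_lit 193)) (XT.lf (nat_lit 0) (nat_lit 40075628745) (nat_lit 152) (nat_lit 11642583806) (nat_lit 0) (nat_lit 14978335326) (nat_lit 5) (nat_lit 5) (nat_lit 7) (nat_lit 4) (nat_lit 5) (nat_lit 4) (nat_lit 289) (nat_lit 239) (nat_lit 192)))) (XT.nd (nat_lit 156) (nat_lit 0) (nat_lit 0) (XT.nd (nat_lit 78) (nat_lit 76) (nat_lit 0) (XT.lf (nat_lit 0) (nat_lit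 48294485510) (nat_lit 152) (nat_lit 225935929) (nat_lit 0) (nat_lit 23145882250) (nat_lit 5) (nat_lit 5) (nat_lit 7) (nat_lit 4) (nat_lit 5) (nat_lit 4) (nat_lit 290) (nat_lit 239) (nat_lit 191)) (XT.lf (nat_lit 0) (nat_lit 12457783922) (nat_lit 76) (nat_lit 44881788337) (nat_lit 76) (nat_lit 19685675965) (nat_lit 4) (nat_lit 4) (nat_lit 5) (nat_lit 5) (nat_lit 5) (nat_lit 4) (nat_lit 291) (nat_lit 239) (nat_lit 190))) (XT.nd (nat_lit 78) (nat_lit 0) (nat_lit 0) (XT.lf (nat_lit 0) (nat_lit 26121237789) (nat_lit 76) (nat_lit 40966422086) (nat_lit 76) (nat_lit 15726319796) (nat_lit 4) (nat_lit 4) (nat_lit 5) (nat_lit 5) (nat_lit 5) (nat_lit 4) (nat_lit 292) (nat_lit 239) (nat_lit 189)) (XT.nd (nat_lit 78) (nat_lit 0) (nat_lit 0) (XT.lf (nat_lit 0) (nat_lit 40837923824) (nat_lit 76) (nat_lit 36754946852) (nat_lit 76) (nat_lit 11474113156) (nat_lit 4) (nat_lit 4) (nat_lit 5) (nat_lit 5) (nat_lit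 5) (nat_lit 4) (nat_lit 293) (nat_lit 239) (nat_lit 188)) (XT.lf (nat_lit 0) (nat_lit 56695052019) (nat_lit 76) (nat_lit 32222405743) (nat_lit 76) (nat_lit 6903857782) (nat_lit 4) (nat_lit 4) (nat_lit 5) (nat_lit 5) (nat_lit 5) (nat_lit 4) (nat_lit 294) (nat_lit 239) (nat_lit 187)))))) (XT.nd (nat_lit 390) (nat_lit 0) (nat_lit 0) (XT.nd (nat_lit 156) (nat_lit 76) (nat_lit 0) (XT.nd (nat_lit 78) (nat_lit 76) (nat_lit 0) (XT.lf (nat_lit 0) (nat_lit 73786590541) (nat_lit 76) (nat_lit 27341939257) (nat_lit 76) (nat_lit 1988470681) (nat_lit 4) (nat_lit 4) (nat_lit 5) (nat_lit 5) (nat_lit 5) (nat_lit 4) (nat_lit 295) (nat_lit 239) (nat_lit 186)) (XT.lf (nat_lit 0) (nat_lit 3195518107) (nat_lit 152) (nat_lit 18834990359) (nat_lit 76) (nat_lit 88964186827) (nat_lit 3) (nat_lit 5) (nat_lit 5) (nat_lit 5) (nat_lit 4) (nat_lit 4) (nat_lit 296) (nat_lit 239) (nat_lit 185))) (XT.nd (nat_lit 78) (nat_lit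 76) (nat_lit 0) (XT.lf (nat_lit 0) (nat_lit 8708487495) (nat_lit 152) (nat_lit 7563341913) (nat_lit 76) (nat_lit 103229976605) (nat_lit 3) (nat_lit 5) (nat_lit 5) (nat_lit 5) (nat_lit 4) (nat_lit 4) (nat_lit 297) (nat_lit 239) (nat_lit 184)) (XT.nd (nat_lit 78) (nat_lit 0) (nat_lit 0) (XT.lf (nat_lit 0) (nat_lit 4733889996) (nat_lit 76) (nat_lit 9986769703) (nat_lit 152) (nat_lit 113965942261) (nat_lit 2) (nat_lit 5) (nat_lit 3) (nat_lit 5) (nat_lit 4) (nat_lit 4) (nat_lit 298) (nat_lit 239) (nat_lit 183)) (XT.lf (nat_lit 0) (nat_lit 18258524679) (nat_lit 76) (nat_lit 3072038619) (nat_lit 152) (nat_lit 117269803214) (nat_lit 2) (nat_lit 5) (nat_lit 3) (nat_lit 5) (nat_lit 4) (nat_lit 4) (nat_lit 299) (nat_lit 239) (nat_lit 182))))) (XT.nd (nat_lit 156) (nat_lit 0) (nat_lit 0) (XT.nd (nat_lit 78) (nat_lit 0) (nat_lit 0) (XT.lf (nat_lit 0) (nat_lit 28523844765) (nat_lit 152) (nat_lit 116535783555)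 (nat_lit 0) (nat_lit 4244895749) (nat_lit 2) (nat_lit 5) (nat_lit 4) (nat_lit 4) (nat_lit 2) (nat_lit 4) (nat_lit 300) (nat_lit 239) (nat_lit 181)) (XT.lf (nat_lit 0) (nat_lit 36331383113) (nat_lit 152) (nat_lit 112500234870) (nat_lit 0) (nat_lit 12031476085) (nat_lit 2) (nat_lit 5) (nat_lit 4) (nat_lit 4) (nat_lit 2) (nat_lit 4) (nat_lit 301) (nat_lit 239) (nat_lit 180))) (XT.nd (nat_lit 78) (nat_lit 0) (nat_lit 0) (XT.lf (nat_lit 0) (nat_lit 44751482103) (nat_lit 152) (nat_lit 108163318283) (nat_lit 0) (nat_lit 20432169510) (nat_lit 2) (nat_lit 5) (nat_lit 4) (nat_lit 4) (nat_lit 2) (nat_lit 4) (nat_lit 302) (nat_lit 239) (nat_lit 179)) (XT.nd (nat_lit 78) (nat_lit 0) (nat_lit 0) (XT.lf (nat_lit 0) (nat_lit 53834038619) (nat_lit 152) (nat_lit 103499333548) (nat_lit 0) (nat_lit 29496757910) (nat_lit 2) (nat_lit 5) (nat_lit 4) (nat_lit 4) (nat_lit 2) (nat_lit 4) (nat_lit 303) (nat_lit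 239) (nat_lit 178)) (XT.lf (nat_lit 0) (nat_lit 63632875217) (nat_lit 152) (nat_lit 98480642236) (nat_lit 0) (nat_lit 39278957363) (nat_lit 2) (nat_lit 5) (nat_lit 4) (nat_lit 4) (nat_lit 2) (nat_lit 4) (nat_lit 304) (nat_lit 239) (nat_lit 177))))))))
noncomputable def xc48 : XT := (XT.nd (nat_lit 1404) (nat_lit 0) (nat_lit 0) (XT.nd (nat_lit 702) (nat_lit 76) (nat_lit 0) (XT.nd (nat_lit 312) (nat_lit 0) (nat_lit 0) (XT.nd (nat_lit 156) (nat_lit 0) (nat_lit 0) (XT.nd (nat_lit 78) (nat_lit 0) (nat_lit 0) (XT.lf (nat_lit 0) (nat_lit 74206059077) (nat_lit 152) (nat_lit 93077503955) (nat_lit 0) (nat_lit 49836736460) (nat_lit 2) (nat_lit 5) (nat_lit 4) (nat_lit 4) (nat_lit 2) (nat_lit 4) (nat_lit 305) (nat_lit 239) (nat_lit 176)) (XT.lf (nat_lit 0) (nat_lit 85616246104) (nat_lit 152) (nat_lit 87257900107) (nat_lit 0) (nat_lit 61232659817) (nat_lit 2) (nat_lit 5) (nat_lit 4) (nat_lit 4) (nat_lit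 2) (nat_lit 4) (nat_lit 306) (nat_lit 239) (nat_lit 175))) (XT.nd (nat_lit 78) (nat_lit 0) (nat_lit 0) (XT.lf (nat_lit 0) (nat_lit 97931052221) (nat_lit 152) (nat_lit 80987344151) (nat_lit 0) (nat_lit 73534258832) (nat_lit 2) (nat_lit 5) (nat_lit 4) (nat_lit 4) (nat_lit 2) (nat_lit 4) (nat_lit 307) (nat_lit 239) (nat_lit 174)) (XT.lf (nat_lit 0) (nat_lit 111223454056) (nat_lit 152) (nat_lit 74228677237) (nat_lit 0) (nat_lit 86814431869) (nat_lit 2) (nat_lit 5) (nat_lit 4) (nat_lit 4) (nat_lit 2) (nat_lit 4) (nat_lit 308) (nat_lit 239) (nat_lit 173)))) (XT.nd (nat_lit 156) (nat_lit 0) (nat_lit 0) (XT.nd (nat_lit 78) (nat_lit 0) (nat_lit 0) (XT.lf (nat_lit 0) (nat_lit 125572221399) (nat_lit 152) (nat_lit 66941848006) (nat_lit 0) (nat_lit 101151876251) (nat_lit 2) (nat_lit 5) (nat_lit 4) (nat_lit 4) (nat_lit 2) (nat_lit 4) (nat_lit 309) (nat_lit 239) (nat_lit 172)) (XT.lf (nat_lit 0) (nat_lit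 141062383981) (nat_lit 152) (nat_lit 59083675247) (nat_lit 0) (nat_lit 116631554610) (nat_lit 2) (nat_lit 5) (nat_lit 4) (nat_lit 4) (nat_lit 2) (nat_lit 4) (nat_lit 310) (nat_lit 239) (nat_lit 171))) (XT.nd (nat_lit 78) (nat_lit 0) (nat_lit 0) (XT.lf (nat_lit 0) (nat_lit 157785735359) (nat_lit 152) (nat_lit 50607592011) (nat_lit 0) (nat_lit 133345198375) (nat_lit 2) (nat_lit 5) (nat_lit 4) (nat_lit 4) (nat_lit 2) (nat_lit 4) (nat_lit 311) (nat_lit 239) (nat_lit 170)) (XT.nd (nat_lit 78) (nat_lit 0) (nat_lit 0) (XT.lf (nat_lit 0) (nat_lit 175841376875) (nat_lit 152) (nat_lit 41463369655) (nat_lit 0) (nat_lit 151391851359) (nat_lit 2) (nat_lit 5) (nat_lit 4) (nat_lit 4) (nat_lit 2) (nat_lit 4) (nat_lit 312) (nat_lit 239) (nat_lit 169)) (XT.lf (nat_lit 0) (nat_lit 195336304922) (nat_lit 152) (nat_lit 31596820197) (nat_lit 0) (nat_lit 170878456691) (nat_lit 2) (nat_lit 5) (nat_lit 4) (nat_lit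 4) (nat_lit 2) (nat_lit 4) (nat_lit 313) (nat_lit 239) (nat_lit 168)))))) (XT.nd (nat_lit 312) (nat_lit 0) (nat_lit 0) (XT.nd (nat_lit 156) (nat_lit 76) (nat_lit 0) (XT.nd (nat_lit 78) (nat_lit 0) (nat_lit 0) (XT.lf (nat_lit 0) (nat_lit 216386045000) (nat_lit 152) (nat_lit 20949475194) (nat_lit 0) (nat_lit 191920490552) (nat_lit 2) (nat_lit 5) (nat_lit 4) (nat_lit 4) (nat_lit 2) (nat_lit 4) (nat_lit 314) (nat_lit 239) (nat_lit 167)) (XT.lf (nat_lit 0) (nat_lit 239115336309) (nat_lit 152) (nat_lit 9458239269) (nat_lit 0) (nat_lit 214642646475) (nat_lit 2) (nat_lit 5) (nat_lit 4) (nat_lit 4) (nat_lit 2) (nat_lit 4) (nat_lit 315) (nat_lit 239) (nat_lit 166))) (XT.nd (nat_lit 78) (nat_lit 0) (nat_lit 0) (XT.lf (nat_lit 0) (nat_lit 3042358255) (nat_lit 76) (nat_lit 260664012430) (nat_lit 76) (nat_lit 236184715757) (nat_lit 1) (nat_lit 4) (nat_lit 2) (nat_lit 5) (nat_lit 2) (nat_lit 4) (nat_lit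 316) (nat_lit 239) (nat_lit 165)) (XT.lf (nat_lit 0) (nat_lit 16873760275) (nat_lit 76) (nat_lit 273551778491) (nat_lit 76) (nat_lit 249066364375) (nat_lit 1) (nat_lit 4) (nat_lit 2) (nat_lit 5) (nat_lit 2) (nat_lit 4) (nat_lit 317) (nat_lit 239) (nat_lit 164)))) (XT.nd (nat_lit 156) (nat_lit 0) (nat_lit 0) (XT.nd (nat_lit 78) (nat_lit 0) (nat_lit 0) (XT.lf (nat_lit 0) (nat_lit 31805198549) (nat_lit 76) (nat_lit 287473425569) (nat_lit 76) (nat_lit 262982347153) (nat_lit 1) (nat_lit 4) (nat_lit 2) (nat_lit 5) (nat_lit 2) (nat_lit 4) (nat_lit 318) (nat_lit 239) (nat_lit 163)) (XT.lf (nat_lit 0) (nat_lit 47925155675) (nat_lit 76) (nat_lit 302511452312) (nat_lit 76) (nat_lit 278015129174) (nat_lit 1) (nat_lit 4) (nat_lit 2) (nat_lit 5) (nat_lit 2) (nat_lit 4) (nat_lit 319) (nat_lit 239) (nat_lit 162))) (XT.nd (nat_lit 78) (nat_lit 0) (nat_lit 0) (XT.lf (nat_lit 0) (nat_lit 65329157325) (nat_lit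 76) (nat_lit 318754972952) (nat_lit 76) (nat_lit 294253793590) (nat_lit 1) (nat_lit 4) (nat_lit 2) (nat_lit 5) (nat_lit 2) (nat_lit 4) (nat_lit 320) (nat_lit 239) (nat_lit 161)) (XT.nd (nat_lit 78) (nat_lit 0) (nat_lit 0) (XT.lf (nat_lit 0) (nat_lit 84120338322) (nat_lit 76) (nat_lit 336300245390) (nat_lit 76) (nat_lit 311794569525) (nat_lit 1) (nat_lit 4) (nat_lit 2) (nat_lit 5) (nat_lit 2) (nat_lit 4) (nat_lit 321) (nat_lit 239) (nat_lit 160)) (XT.lf (nat_lit 0) (nat_lit 104410053815) (nat_lit 76) (nat_lit 355251241611) (nat_lit 76) (nat_lit 330741402317) (nat_lit 1) (nat_lit 4) (nat_lit 2) (nat_lit 5) (nat_lit 2) (nat_lit 4) (nat_lit 322) (nat_lit 239) (nat_lit 159))))))) (XT.nd (nat_lit 31668) (nat_lit 0) (nat_lit 3344) (XT.nd (nat_lit 31278) (nat_lit 0) (nat_lit 6688) (XT.nd (nat_lit 31122) (nat_lit 0) (nat_lit 7980) (XT.nd (nat_lit 31044) (nat_lit 0) (nat_lit 8208) (XT.lf (nat_lit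 0) (nat_lit 126318539153) (nat_lit 76) (nat_lit 375720263814) (nat_lit 76) (nat_lit 351206569493) (nat_lit 1) (nat_lit 4) (nat_lit 2) (nat_lit 5) (nat_lit 2) (nat_lit 4) (nat_lit 323) (nat_lit 239) (nat_lit 158)) (XT.lf (nat_lit 0) (nat_lit 1073741823) (nat_lit 0) (nat_lit 0) (nat_lit 0) (nat_lit 0) (nat_lit 109) (nat_lit 0) (nat_lit 1) (nat_lit 0) (nat_lit 1) (nat_lit 0) (nat_lit 240) (nat_lit 240) (nat_lit 240))) (XT.nd (nat_lit 78) (nat_lit 152) (nat_lit 0) (XT.lf (nat_lit 0) (nat_lit 4264462857) (nat_lit 76) (nat_lit 2007715241) (nat_lit 0) (nat_lit 179471740) (nat_lit 108) (nat_lit 5) (nat_lit 109) (nat_lit 0) (nat_lit 108) (nat_lit 4) (nat_lit 241) (nat_lit 240) (nat_lit 239)) (XT.lf (nat_lit 0) (nat_lit 1939672958) (nat_lit 152) (nat_lit 3891060733) (nat_lit 76) (nat_lit 651918929) (nat_lit 106) (nat_lit 5) (nat_lit 108) (nat_lit 5) (nat_lit 107) (nat_lit 4) (nat_lit 242) (nat_lit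 240) (nat_lit 238)))) (XT.nd (nat_lit 156) (nat_lit 1064) (nat_lit 0) (XT.nd (nat_lit 78) (nat_lit 76) (nat_lit 0) (XT.lf (nat_lit 0) (nat_lit 858816515) (nat_lit 152) (nat_lit 5106270450) (nat_lit 228) (nat_lit 570116455) (nat_lit 104) (nat_lit 5) (nat_lit 106) (nat_lit 5) (nat_lit 107) (nat_lit 4) (nat_lit 243) (nat_lit 240) (nat_lit 237)) (XT.lf (nat_lit 0) (nat_lit 3282744232) (nat_lit 228) (nat_lit 772317034) (nat_lit 76) (nat_lit 2552674574) (nat_lit 103) (nat_lit 5) (nat_lit 106) (nat_lit 5) (nat_lit 104) (nat_lit 5) (nat_lit 244) (nat_lit 240) (nat_lit 236))) (XT.nd (nat_lit 78) (nat_lit 760) (nat_lit 0) (XT.lf (nat_lit 0) (nat_lit 417807882) (nat_lit 304) (nat_lit 2286851335) (nat_lit 76) (nat_lit 3997629176) (nat_lit 99) (nat_lit 5) (nat_lit 103) (nat_lit 5) (nat_lit 100) (nat_lit 5) (nat_lit 245) (nat_lit 240) (nat_lit 235)) (XT.nd (nat_lit 78) (nat_lit 456) (nat_lit 0) (XT.lf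 (nat_lit 0) (nat_lit 3046318447) (nat_lit 304) (nat_lit 1016404430) (nat_lit 380) (nat_lit 2755238632) (nat_lit 95) (nat_lit 5) (nat_lit 99) (nat_lit 5) (nat_lit 100) (nat_lit 5) (nat_lit 246) (nat_lit 240) (nat_lit 234)) (XT.lf (nat_lit 0) (nat_lit 776681587) (nat_lit 456) (nat_lit 5226338487) (nat_lit 76) (nat_lit 953312464) (nat_lit 89) (nat_lit 5) (nat_lit 95) (nat_lit 5) (nat_lit 90) (nat_lit 5) (nat_lit 247) (nat_lit 240) (nat_lit 233)))))) (XT.nd (nat_lit 312) (nat_lit 1672) (nat_lit 0) (XT.nd (nat_lit 156) (nat_lit 1140) (nat_lit 0) (XT.nd (nat_lit 78) (nat_lit 76) (nat_lit 0) (XT.lf (nat_lit 0) (nat_lit 404660093) (nat_lit 456) (nat_lit 3874537101) (nat_lit 532) (nat_lit 2836918802) (nat_lit 83) (nat_lit 5) (nat_lit 89) (nat_lit 5) (nat_lit 90) (nat_lit 5) (nat_lit 248) (nat_lit 240) (nat_lit 232)) (XT.lf (nat_lit 0) (nat_lit 546743963) (nat_lit 532) (nat_lit 873085383) (nat_lit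 76) (nat_lit 5879949679) (nat_lit 82) (nat_lit 5) (nat_lit 89) (nat_lit 5) (nat_lit 83) (nat_lit 5) (nat_lit 249) (nat_lit 240) (nat_lit 231))) (XT.nd (nat_lit 78) (nat_lit 608) (nat_lit 0) (XT.lf (nat_lit 0) (nat_lit 3935741094) (nat_lit 608) (nat_lit 2203560542) (nat_lit 76) (nat_lit 1366300462) (nat_lit 75) (nat_lit 5) (nat_lit 83) (nat_lit 5) (nat_lit 76) (nat_lit 5) (nat_lit 250) (nat_lit 240) (nat_lit 230)) (XT.lf (nat_lit 0) (nat_lit 4149317272) (nat_lit 608) (nat_lit 3295560956) (nat_lit 684) (nat_lit 291945115) (nat_lit 67) (nat_lit 5) (nat_lit 75) (nat_lit 5) (nat_lit 76) (nat_lit 5) (nat_lit 251) (nat_lit 240) (nat_lit 229)))) (XT.nd (nat_lit 156) (nat_lit 608) (nat_lit 0) (XT.nd (nat_lit 78) (nat_lit 304) (nat_lit 0) (XT.lf (nat_lit 0) (nat_lit 2912724612) (nat_lit 684) (nat_lit 71073201) (nat_lit 760) (nat_lit 5009450840) (nat_lit 57) (nat_lit 5) (nat_lit 66) (nat_lit 5)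 (nat_lit 67) (nat_lit 5) (nat_lit 252) (nat_lit 240) (nat_lit 228)) (XT.lf (nat_lit 0) (nat_lit 1548116194) (nat_lit 304) (nat_lit 4874167096) (nat_lit 380) (nat_lit 1853249338) (nat_lit 53) (nat_lit 5) (nat_lit 57) (nat_lit 5) (nat_lit 58) (nat_lit 5) (nat_lit 253) (nat_lit 240) (nat_lit 227))) (XT.nd (nat_lit 78) (nat_lit 228) (nat_lit 0) (XT.lf (nat_lit 0) (nat_lit 52970924) (nat_lit 304) (nat_lit 1323453386) (nat_lit 380) (nat_lit 7210218804) (nat_lit 48) (nat_lit 5) (nat_lit 52) (nat_lit 5) (nat_lit 53) (nat_lit 5) (nat_lit 254) (nat_lit 240) (nat_lit 226)) (XT.nd (nat_lit 78) (nat_lit 228) (nat_lit 0) (XT.lf (nat_lit 0) (nat_lit 4750153585) (nat_lit 380) (nat_lit 1608336909) (nat_lit 76) (nat_lit 2566024622) (nat_lit 48) (nat_lit 5) (nat_lit 53) (nat_lit 5) (nat_lit 49) (nat_lit 5) (nat_lit 255) (nat_lit 240) (nat_lit 225)) (XT.lf (nat_lit 0) (nat_lit 5817117516) (nat_lit 228) (nat_lit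 2496676469) (nat_lit 304) (nat_lit 980476200) (nat_lit 45) (nat_lit 5) (nat_lit 48) (nat_lit 5) (nat_lit 49) (nat_lit 5) (nat_lit 256) (nat_lit 240) (nat_lit 224))))))))
noncomputable def xc49 : XT := (XT.nd (nat_lit 1404) (nat_lit 608) (nat_lit 0) (XT.nd (nat_lit 702) (nat_lit 760) (nat_lit 0) (XT.nd (nat_lit 312) (nat_lit 836) (nat_lit 0) (XT.nd (nat_lit 156) (nat_lit 304) (nat_lit 0) (XT.nd (nat_lit 78) (nat_lit 228) (nat_lit 0) (XT.lf (nat_lit 0) (nat_lit 2324045184) (nat_lit 380) (nat_lit 5646787909) (nat_lit 76) (nat_lit 1724890965) (nat_lit 40) (nat_lit 5) (nat_lit 45) (nat_lit 5) (nat_lit 41) (nat_lit 5) (nat_lit 257) (nat_lit 240) (nat_lit 223)) (XT.lf (nat_lit 0) (nat_lit 1963391662) (nat_lit 228) (nat_lit 3854211540) (nat_lit 304) (nat_lit 4313633324) (nat_lit 37) (nat_lit 5) (nat_lit 40) (nat_lit 5) (nat_lit 41) (nat_lit 5) (nat_lit 258) (nat_lit 240) (nat_lit 222))) (XT.nd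 (nat_lit 78) (nat_lit 304) (nat_lit 0) (XT.lf (nat_lit 0) (nat_lit 9533304240) (nat_lit 304) (nat_lit 437320015) (nat_lit 76) (nat_lit 634478429) (nat_lit 37) (nat_lit 5) (nat_lit 41) (nat_lit 5) (nat_lit 38) (nat_lit 5) (nat_lit 259) (nat_lit 240) (nat_lit 221)) (XT.lf (nat_lit 0) (nat_lit 2385744667) (nat_lit 304) (nat_lit 3252680010) (nat_lit 76) (nat_lit 5475420459) (nat_lit 33) (nat_lit 5) (nat_lit 37) (nat_lit 5) (nat_lit 34) (nat_lit 5) (nat_lit 260) (nat_lit 240) (nat_lit 220)))) (XT.nd (nat_lit 156) (nat_lit 380) (nat_lit 0) (XT.nd (nat_lit 78) (nat_lit 228) (nat_lit 0) (XT.lf (nat_lit 0) (nat_lit 5127321274) (nat_lit 228) (nat_lit 894638812) (nat_lit 304) (nat_lit 5643994552) (nat_lit 30) (nat_lit 5) (nat_lit 33) (nat_lit 5) (nat_lit 34) (nat_lit 5) (nat_lit 261) (nat_lit 240) (nat_lit 219)) (XT.lf (nat_lit 0) (nat_lit 1833031241) (nat_lit 228) (nat_lit 8126981290) (nat_lit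 304) (nat_lit 2302161479) (nat_lit 27) (nat_lit 5) (nat_lit 30) (nat_lit 5) (nat_lit 31) (nat_lit 5) (nat_lit 262) (nat_lit 240) (nat_lit 218))) (XT.nd (nat_lit 78) (nat_lit 304) (nat_lit 0) (XT.lf (nat_lit 0) (nat_lit 1259699902) (nat_lit 304) (nat_lit 2019539063) (nat_lit 76) (nat_lit 9626536359) (nat_lit 26) (nat_lit 5) (nat_lit 30) (nat_lit 5) (nat_lit 27) (nat_lit 5) (nat_lit 263) (nat_lit 240) (nat_lit 217)) (XT.nd (nat_lit 78) (nat_lit 152) (nat_lit 0) (XT.lf (nat_lit 0) (nat_lit 5043370926) (nat_lit 228) (nat_lit 6557532288) (nat_lit 76) (nat_lit 1997597191) (nat_lit 24) (nat_lit 5) (nat_lit 27) (nat_lit 5) (nat_lit 25) (nat_lit 5) (nat_lit 264) (nat_lit 240) (nat_lit 216)) (XT.lf (nat_lit 0) (nat_lit 2400914944) (nat_lit 152) (nat_lit 6737087961) (nat_lit 228) (nat_lit 5208596242) (nat_lit 22) (nat_lit 5) (nat_lit 24) (nat_lit 5) (nat_lit 25) (nat_lit 5) (nat_lit 265) (nat_lit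 240) (nat_lit 215)))))) (XT.nd (nat_lit 312) (nat_lit 380) (nat_lit 0) (XT.nd (nat_lit 156) (nat_lit 152) (nat_lit 0) (XT.nd (nat_lit 78) (nat_lit 228) (nat_lit 0) (XT.lf (nat_lit 0) (nat_lit 12144142985) (nat_lit 152) (nat_lit 1416338972) (nat_lit 228) (nat_lit 1594391689) (nat_lit 22) (nat_lit 5) (nat_lit 24) (nat_lit 5) (nat_lit 25) (nat_lit 5) (nat_lit 266) (nat_lit 240) (nat_lit 214)) (XT.lf (nat_lit 0) (nat_lit 2300577110) (nat_lit 228) (nat_lit 9437142656) (nat_lit 76) (nat_lit 4285312757) (nat_lit 19) (nat_lit 5) (nat_lit 22) (nat_lit 5) (nat_lit 20) (nat_lit 5) (nat_lit 267) (nat_lit 240) (nat_lit 213))) (XT.nd (nat_lit 78) (nat_lit 152) (nat_lit 0) (XT.lf (nat_lit 0) (nat_lit 6426520778) (nat_lit 228) (nat_lit 107277805) (nat_lit 76) (nat_lit 10427055784) (nat_lit 19) (nat_lit 5) (nat_lit 22) (nat_lit 5) (nat_lit 20) (nat_lit 5) (nat_lit 268) (nat_lit 240) (nat_lit 212)) (XT.lf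 (nat_lit 0) (nat_lit 10149966290) (nat_lit 152) (nat_lit 795953708) (nat_lit 228) (nat_lit 7024871280) (nat_lit 17) (nat_lit 5) (nat_lit 19) (nat_lit 5) (nat_lit 20) (nat_lit 5) (nat_lit 269) (nat_lit 240) (nat_lit 211)))) (XT.nd (nat_lit 156) (nat_lit 228) (nat_lit 0) (XT.nd (nat_lit 78) (nat_lit 76) (nat_lit 0) (XT.lf (nat_lit 0) (nat_lit 2008493068) (nat_lit 76) (nat_lit 13845024341) (nat_lit 152) (nat_lit 3206912610) (nat_lit 16) (nat_lit 5) (nat_lit 17) (nat_lit 5) (nat_lit 18) (nat_lit 4) (nat_lit 270) (nat_lit 240) (nat_lit 210)) (XT.lf (nat_lit 0) (nat_lit 951094531) (nat_lit 152) (nat_lit 7495547844) (nat_lit 76) (nat_lit 11786895719) (nat_lit 15) (nat_lit 5) (nat_lit 17) (nat_lit 5) (nat_lit 16) (nat_lit 5) (nat_lit 271) (nat_lit 240) (nat_lit 209))) (XT.nd (nat_lit 78) (nat_lit 76) (nat_lit 0) (XT.lf (nat_lit 0) (nat_lit 2730340048) (nat_lit 152) (nat_lit 2561748900) (nat_lit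 228) (nat_lit 16207837486) (nat_lit 13) (nat_lit 5) (nat_lit 15) (nat_lit 5) (nat_lit 16) (nat_lit 5) (nat_lit 272) (nat_lit 240) (nat_lit 208)) (XT.nd (nat_lit 78) (nat_lit 76) (nat_lit 0) (XT.lf (nat_lit 0) (nat_lit 10094281877) (nat_lit 228) (nat_lit 9006595452) (nat_lit 76) (nat_lit 3761233396) (nat_lit 13) (nat_lit 5) (nat_lit 16) (nat_lit 5) (nat_lit 14) (nat_lit 4) (nat_lit 273) (nat_lit 240) (nat_lit 207)) (XT.lf (nat_lit 0) (nat_lit 1423038696) (nat_lit 76) (nat_lit 13850781345) (nat_lit 152) (nat_lit 9059958670) (nat_lit 12) (nat_lit 5) (nat_lit 13) (nat_lit 5) (nat_lit 14) (nat_lit 4) (nat_lit 274) (nat_lit 240) (nat_lit 206))))))) (XT.nd (nat_lit 702) (nat_lit 228) (nat_lit 0) (XT.nd (nat_lit 312) (nat_lit 152) (nat_lit 0) (XT.nd (nat_lit 156) (nat_lit 228) (nat_lit 0) (XT.nd (nat_lit 78) (nat_lit 0) (nat_lit 0) (XT.lf (nat_lit 0) (nat_lit 12896993434) (nat_lit 76) (nat_lit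 8058981171) (nat_lit 152) (nat_lit 4962947898) (nat_lit 12) (nat_lit 5) (nat_lit 13) (nat_lit 5) (nat_lit 14) (nat_lit 4) (nat_lit 275) (nat_lit 240) (nat_lit 205)) (XT.lf (nat_lit 0) (nat_lit 25185463845) (nat_lit 76) (nat_lit 1843686081) (nat_lit 152) (nat_lit 605049005) (nat_lit 12) (nat_lit 5) (nat_lit 13) (nat_lit 5) (nat_lit 14) (nat_lit 4) (nat_lit 276) (nat_lit 240) (nat_lit 204))) (XT.nd (nat_lit 78) (nat_lit 0) (nat_lit 0) (XT.lf (nat_lit 0) (nat_lit 4131145809) (nat_lit 228) (nat_lit 20458643140) (nat_lit 76) (nat_lit 4885786480) (nat_lit 9) (nat_lit 5) (nat_lit 12) (nat_lit 5) (nat_lit 10) (nat_lit 4) (nat_lit 277) (nat_lit 240) (nat_lit 203)) (XT.lf (nat_lit 0) (nat_lit 9242233263) (nat_lit 228) (nat_lit 10112812577) (nat_lit 76) (nat_lit 12107977725) (nat_lit 9) (nat_lit 5) (nat_lit 12) (nat_lit 5) (nat_lit 10) (nat_lit 4) (nat_lit 278) (nat_lit 240) (nat_lit 202)))) (XT.nd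 (nat_lit 156) (nat_lit 76) (nat_lit 0) (XT.nd (nat_lit 78) (nat_lit 0) (nat_lit 0) (XT.lf (nat_lit 0) (nat_lit 1003936597) (nat_lit 76) (nat_lit 13720675991) (nat_lit 152) (nat_lit 18886843251) (nat_lit 8) (nat_lit 5) (nat_lit 9) (nat_lit 5) (nat_lit 10) (nat_lit 4) (nat_lit 279) (nat_lit 240) (nat_lit 201)) (XT.lf (nat_lit 0) (nat_lit 13286133525) (nat_lit 76) (nat_lit 7484956536) (nat_lit 152) (nat_lit 15154497733) (nat_lit 8) (nat_lit 5) (nat_lit 9) (nat_lit 5) (nat_lit 10) (nat_lit 4) (nat_lit 280) (nat_lit 240) (nat_lit 200))) (XT.nd (nat_lit 78) (nat_lit 76) (nat_lit 0) (XT.lf (nat_lit 0) (nat_lit 26472186341) (nat_lit 76) (nat_lit 782200437) (nat_lit 152) (nat_lit 11172901522) (nat_lit 8) (nat_lit 5) (nat_lit 9) (nat_lit 5) (nat_lit 10) (nat_lit 4) (nat_lit 281) (nat_lit 240) (nat_lit 199)) (XT.nd (nat_lit 78) (nat_lit 76) (nat_lit 0) (XT.lf (nat_lit 0) (nat_lit 34313270636) (nat_lit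 152) (nat_lit 591495989) (nat_lit 0) (nat_lit 6221598206) (nat_lit 8) (nat_lit 5) (nat_lit 10) (nat_lit 4) (nat_lit 8) (nat_lit 4) (nat_lit 282) (nat_lit 240) (nat_lit 198)) (XT.lf (nat_lit 0) (nat_lit 11982365821) (nat_lit 76) (nat_lit 30114132789) (nat_lit 76) (nat_lit 1936966977) (nat_lit 7) (nat_lit 4) (nat_lit 8) (nat_lit 5) (nat_lit 8) (nat_lit 4) (nat_lit 283) (nat_lit 240) (nat_lit 197)))))) (XT.nd (nat_lit 312) (nat_lit 76) (nat_lit 0) (XT.nd (nat_lit 156) (nat_lit 76) (nat_lit 0) (XT.nd (nat_lit 78) (nat_lit 0) (nat_lit 0) (XT.lf (nat_lit 0) (nat_lit 3193803729) (nat_lit 152) (nat_lit 21709028705) (nat_lit 76) (nat_lit 22269217863) (nat_lit 6) (nat_lit 5) (nat_lit 8) (nat_lit 5) (nat_lit 7) (nat_lit 4) (nat_lit 284) (nat_lit 240) (nat_lit 196)) (XT.lf (nat_lit 0) (nat_lit 8631634901) (nat_lit 152) (nat_lit 10634771598) (nat_lit 76) (nat_lit 31295569707) (nat_lit 6) (nat_lit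 5) (nat_lit 8) (nat_lit 5) (nat_lit 7) (nat_lit 4) (nat_lit 285) (nat_lit 240) (nat_lit 195))) (XT.nd (nat_lit 78) (nat_lit 0) (nat_lit 0) (XT.lf (nat_lit 0) (nat_lit 1309448802) (nat_lit 76) (nat_lit 13181741125) (nat_lit 152) (nat_lit 39732631704) (nat_lit 5) (nat_lit 5) (nat_lit 6) (nat_lit 5) (nat_lit 7) (nat_lit 4) (nat_lit 286) (nat_lit 240) (nat_lit 194)) (XT.lf (nat_lit 0) (nat_lit 14533599020) (nat_lit 76) (nat_lit 6439049642) (nat_lit 152) (nat_lit 37198364905) (nat_lit 5) (nat_lit 5) (nat_lit 6) (nat_lit 5) (nat_lit 7) (nat_lit 4) (nat_lit 287) (nat_lit 240) (nat_lit 193)))) (XT.nd (nat_lit 156) (nat_lit 76) (nat_lit 0) (XT.nd (nat_lit 78) (nat_lit 0) (nat_lit 0) (XT.lf (nat_lit 0) (nat_lit 27955717398) (nat_lit 152) (nat_lit 33683934624) (nat_lit 0) (nat_lit 795225877) (nat_lit 5) (nat_lit 5) (nat_lit 7) (nat_lit 4) (nat_lit 5) (nat_lit 4) (nat_lit 288) (nat_lit 240) (nat_lit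 192)) (XT.lf (nat_lit 0) (nat_lit 35578163938) (nat_lit 152) (nat_lit 23091336126) (nat_lit 0) (nat_lit 8366362576) (nat_lit 5) (nat_lit 5) (nat_lit 7) (nat_lit 4) (nat_lit 5) (nat_lit 4) (nat_lit 289) (nat_lit 240) (nat_lit 191))) (XT.nd (nat_lit 78) (nat_lit 76) (nat_lit 0) (XT.lf (nat_lit 0) (nat_lit 43784626724) (nat_lit 152) (nat_lit 11696316489) (nat_lit 0) (nat_lit 16525316250) (nat_lit 5) (nat_lit 5) (nat_lit 7) (nat_lit 4) (nat_lit 5) (nat_lit 4) (nat_lit 290) (nat_lit 240) (nat_lit 190)) (XT.nd (nat_lit 78) (nat_lit 0) (nat_lit 0) (XT.lf (nat_lit 0) (nat_lit 587452475) (nat_lit 76) (nat_lit 52045455950) (nat_lit 76) (nat_lit 24742155559) (nat_lit 4) (nat_lit 4) (nat_lit 5) (nat_lit 5) (nat_lit 5) (nat_lit 4) (nat_lit 291) (nat_lit 240) (nat_lit 189)) (XT.lf (nat_lit 0) (nat_lit 14231750505) (nat_lit 76) (nat_lit 48138320621) (nat_lit 76) (nat_lit 20794288824) (nat_lit 4) (nat_lit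 4) (nat_lit 5) (nat_lit 5) (nat_lit 5) (nat_lit 4) (nat_lit 292) (nat_lit 240) (nat_lit 188))))))))
noncomputable def xc50 : XT := (XT.nd (nat_lit 1404) (nat_lit 76) (nat_lit 0) (XT.nd (nat_lit 702) (nat_lit 0) (nat_lit 0) (XT.nd (nat_lit 312) (nat_lit 152) (nat_lit 0) (XT.nd (nat_lit 156) (nat_lit 0) (nat_lit 0) (XT.nd (nat_lit 78) (nat_lit 0) (nat_lit 0) (XT.lf (nat_lit 0) (nat_lit 28930699654) (nat_lit 76) (nat_lit 43934466610) (nat_lit 76) (nat_lit 16552720548) (nat_lit 4) (nat_lit 4) (nat_lit 5) (nat_lit 5) (nat_lit 5) (nat_lit 4) (nat_lit 293) (nat_lit 240) (nat_lit 187)) (XT.lf (nat_lit 0) (nat_lit 44771404806) (nat_lit 76) (nat_lit 39408982189) (nat_lit 76) (nat_lit 11992315512) (nat_lit 4) (nat_lit 4) (nat_lit 5) (nat_lit 5) (nat_lit 5) (nat_lit 4) (nat_lit 294) (nat_lit 240) (nat_lit 186))) (XT.nd (nat_lit 78) (nat_lit 0) (nat_lit 0) (XT.lf (nat_lit 0) (nat_lit 61847736806)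 (nat_lit 76) (nat_lit 34535049674) (nat_lit 76) (nat_lit 7086049093) (nat_lit 4) (nat_lit 4) (nat_lit 5) (nat_lit 5) (nat_lit 5) (nat_lit 4) (nat_lit 295) (nat_lit 240) (nat_lit 185)) (XT.lf (nat_lit 0) (nat_lit 80260888733) (nat_lit 76) (nat_lit 29283786501) (nat_lit 76) (nat_lit 1804847121) (nat_lit 4) (nat_lit 4) (nat_lit 5) (nat_lit 5) (nat_lit 5) (nat_lit 4) (nat_lit 296) (nat_lit 240) (nat_lit 184)))) (XT.nd (nat_lit 156) (nat_lit 76) (nat_lit 0) (XT.nd (nat_lit 78) (nat_lit 0) (nat_lit 0) (XT.lf (nat_lit 0) (nat_lit 3758319403) (nat_lit 152) (nat_lit 19802105713) (nat_lit 76) (nat_lit 96298007201) (nat_lit 3) (nat_lit 5) (nat_lit 5) (nat_lit 5) (nat_lit 4) (nat_lit 4) (nat_lit 297) (nat_lit 240) (nat_lit 183)) (XT.lf (nat_lit 0) (nat_lit 9689573761) (nat_lit 152) (nat_lit 7668701974) (nat_lit 76) (nat_lit 111689009388) (nat_lit 3) (nat_lit 5) (nat_lit 5) (nat_lit 5) (nat_lit 4)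 (nat_lit 4) (nat_lit 298) (nat_lit 240) (nat_lit 182))) (XT.nd (nat_lit 78) (nat_lit 0) (nat_lit 0) (XT.lf (nat_lit 0) (nat_lit 5590591817) (nat_lit 76) (nat_lit 10578523492) (nat_lit 152) (nat_lit 122798462621) (nat_lit 2) (nat_lit 5) (nat_lit 3) (nat_lit 5) (nat_lit 4) (nat_lit 4) (nat_lit 299) (nat_lit 240) (nat_lit 181)) (XT.nd (nat_lit 78) (nat_lit 0) (nat_lit 0) (XT.lf (nat_lit 0) (nat_lit 20161790562) (nat_lit 76) (nat_lit 3125961165) (nat_lit 152) (nat_lit 126387725415) (nat_lit 2) (nat_lit 5) (nat_lit 3) (nat_lit 5) (nat_lit 4) (nat_lit 4) (nat_lit 300) (nat_lit 240) (nat_lit 180)) (XT.lf (nat_lit 0) (nat_lit 31040695434) (nat_lit 152) (nat_lit 125439657878) (nat_lit 0) (nat_lit 4756432268) (nat_lit 2) (nat_lit 5) (nat_lit 4) (nat_lit 4) (nat_lit 2) (nat_lit 4) (nat_lit 301) (nat_lit 240) (nat_lit 179)))))) (XT.nd (nat_lit 312) (nat_lit 0) (nat_lit 0) (XT.nd (nat_lit 156) (nat_lit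 0) (nat_lit 0) (XT.nd (nat_lit 78) (nat_lit 0) (nat_lit 0) (XT.lf (nat_lit 0) (nat_lit 39455433657) (nat_lit 152) (nat_lit 121112301473) (nat_lit 0) (nat_lit 13153202375) (nat_lit 2) (nat_lit 5) (nat_lit 4) (nat_lit 4) (nat_lit 2) (nat_lit 4) (nat_lit 302) (nat_lit 240) (nat_lit 178)) (XT.lf (nat_lit 0) (nat_lit 48533026500) (nat_lit 152) (nat_lit 116457168758) (nat_lit 0) (nat_lit 22214158074) (nat_lit 2) (nat_lit 5) (nat_lit 4) (nat_lit 4) (nat_lit 2) (nat_lit 4) (nat_lit 303) (nat_lit 240) (nat_lit 177))) (XT.nd (nat_lit 78) (nat_lit 0) (nat_lit 0) (XT.lf (nat_lit 0) (nat_lit 58327267105) (nat_lit 152) (nat_lit 111446673761) (nat_lit 0) (nat_lit 31992993915) (nat_lit 2) (nat_lit 5) (nat_lit 4) (nat_lit 4) (nat_lit 2) (nat_lit 4) (nat_lit 304) (nat_lit 240) (nat_lit 176)) (XT.lf (nat_lit 0) (nat_lit 68896195416) (nat_lit 152) (nat_lit 106051124661) (nat_lit 0) (nat_lit 42547658557)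 (nat_lit 2) (nat_lit 5) (nat_lit 4) (nat_lit 4) (nat_lit 2) (nat_lit 4) (nat_lit 305) (nat_lit 240) (nat_lit 175)))) (XT.nd (nat_lit 156) (nat_lit 0) (nat_lit 0) (XT.nd (nat_lit 78) (nat_lit 0) (nat_lit 0) (XT.lf (nat_lit 0) (nat_lit 80302442120) (nat_lit 152) (nat_lit 100238547832) (nat_lit 0) (nat_lit 53940698159) (nat_lit 2) (nat_lit 5) (nat_lit 4) (nat_lit 4) (nat_lit 2) (nat_lit 4) (nat_lit 306) (nat_lit 240) (nat_lit 174)) (XT.lf (nat_lit 0) (nat_lit 92613599790) (nat_lit 152) (nat_lit 93974498376) (nat_lit 0) (nat_lit 66239627030) (nat_lit 2) (nat_lit 5) (nat_lit 4) (nat_lit 4) (nat_lit 2) (nat_lit 4) (nat_lit 307) (nat_lit 240) (nat_lit 173))) (XT.nd (nat_lit 78) (nat_lit 0) (nat_lit 0) (XT.lf (nat_lit 0) (nat_lit 105902623433) (nat_lit 152) (nat_lit 87221855998) (nat_lit 0) (nat_lit 79517327712) (nat_lit 2) (nat_lit 5) (nat_lit 4) (nat_lit 4) (nat_lit 2) (nat_lit 4) (nat_lit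 308) (nat_lit 240) (nat_lit 172)) (XT.nd (nat_lit 78) (nat_lit 0) (nat_lit 0) (XT.lf (nat_lit 0) (nat_lit 120248262820) (nat_lit 152) (nat_lit 79940605042) (nat_lit 0) (nat_lit 93852482876) (nat_lit 2) (nat_lit 5) (nat_lit 4) (nat_lit 4) (nat_lit 2) (nat_lit 4) (nat_lit 309) (nat_lit 240) (nat_lit 171)) (XT.lf (nat_lit 0) (nat_lit 135735529147) (nat_lit 152) (nat_lit 72087597351) (nat_lit 0) (nat_lit 109330041590) (nat_lit 2) (nat_lit 5) (nat_lit 4) (nat_lit 4) (nat_lit 2) (nat_lit 4) (nat_lit 310) (nat_lit 240) (nat_lit 170))))))) (XT.nd (nat_lit 702) (nat_lit 0) (nat_lit 0) (XT.nd (nat_lit 312) (nat_lit 76) (nat_lit 0) (XT.nd (nat_lit 156) (nat_lit 0) (nat_lit 0) (XT.nd (nat_lit 78) (nat_lit 0) (nat_lit 0) (XT.lf (nat_lit 0) (nat_lit 152456198808) (nat_lit 152) (nat_lit 63616296586) (nat_lit 0) (nat_lit 126041722718) (nat_lit 2) (nat_lit 5) (nat_lit 4) (nat_lit 4) (nat_lit 2) (nat_lit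 4) (nat_lit 311) (nat_lit 240) (nat_lit 169)) (XT.lf (nat_lit 0) (nat_lit 170509357251) (nat_lit 152) (nat_lit 54476502445) (nat_lit 0) (nat_lit 144086558448) (nat_lit 2) (nat_lit 5) (nat_lit 4) (nat_lit 4) (nat_lit 2) (nat_lit 4) (nat_lit 312) (nat_lit 240) (nat_lit 168))) (XT.nd (nat_lit 78) (nat_lit 0) (nat_lit 0) (XT.lf (nat_lit 0) (nat_lit 190001986157) (nat_lit 152) (nat_lit 44614053185) (nat_lit 0) (nat_lit 163571481137) (nat_lit 2) (nat_lit 5) (nat_lit 4) (nat_lit 4) (nat_lit 2) (nat_lit 4) (nat_lit 313) (nat_lit 240) (nat_lit 167)) (XT.lf (nat_lit 0) (nat_lit 211049597401) (nat_lit 152) (nat_lit 33970504661) (nat_lit 0) (nat_lit 184611956994) (nat_lit 2) (nat_lit 5) (nat_lit 4) (nat_lit 4) (nat_lit 2) (nat_lit 4) (nat_lit 314) (nat_lit 240) (nat_lit 166)))) (XT.nd (nat_lit 156) (nat_lit 76) (nat_lit 0) (XT.nd (nat_lit 78) (nat_lit 0) (nat_lit 0) (XT.lf (nat_lit 0) (nat_lit 233776917568)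 (nat_lit 152) (nat_lit 22482783995) (nat_lit 0) (nat_lit 207332670322) (nat_lit 2) (nat_lit 5) (nat_lit 4) (nat_lit 4) (nat_lit 2) (nat_lit 4) (nat_lit 315) (nat_lit 240) (nat_lit 165)) (XT.lf (nat_lit 0) (nat_lit 258318627073) (nat_lit 152) (nat_lit 10082815805) (nat_lit 0) (nat_lit 231868262384) (nat_lit 2) (nat_lit 5) (nat_lit 4) (nat_lit 4) (nat_lit 2) (nat_lit 4) (nat_lit 316) (nat_lit 240) (nat_lit 164))) (XT.nd (nat_lit 78) (nat_lit 0) (nat_lit 0) (XT.lf (nat_lit 0) (nat_lit 3412089372) (nat_lit 76) (nat_lit 281461341175) (nat_lit 76) (nat_lit 255005312186) (nat_lit 1) (nat_lit 4) (nat_lit 2) (nat_lit 5) (nat_lit 2) (nat_lit 4) (nat_lit 317) (nat_lit 240) (nat_lit 163)) (XT.nd (nat_lit 78) (nat_lit 0) (nat_lit 0) (XT.lf (nat_lit 0) (nat_lit 18340644853) (nat_lit 76) (nat_lit 295384261281) (nat_lit 76) (nat_lit 268922987570) (nat_lit 1) (nat_lit 4) (nat_lit 2) (nat_lit 5) (nat_lit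 2) (nat_lit 4) (nat_lit 318) (nat_lit 240) (nat_lit 162)) (XT.lf (nat_lit 0) (nat_lit 34457932725) (nat_lit 76) (nat_lit 310423466754) (nat_lit 76) (nat_lit 283957336819) (nat_lit 1) (nat_lit 4) (nat_lit 2) (nat_lit 5) (nat_lit 2) (nat_lit 4) (nat_lit 319) (nat_lit 240) (nat_lit 161)))))) (XT.nd (nat_lit 31356) (nat_lit 0) (nat_lit 7448) (XT.nd (nat_lit 156) (nat_lit 0) (nat_lit 0) (XT.nd (nat_lit 78) (nat_lit 0) (nat_lit 0) (XT.lf (nat_lit 0) (nat_lit 51859462844) (nat_lit 76) (nat_lit 326668078811) (nat_lit 76) (nat_lit 300197452372) (nat_lit 1) (nat_lit 4) (nat_lit 2) (nat_lit 5) (nat_lit 2) (nat_lit 4) (nat_lit 320) (nat_lit 240) (nat_lit 160)) (XT.lf (nat_lit 0) (nat_lit 70648355388) (nat_lit 76) (nat_lit 344214361820) (nat_lit 76) (nat_lit 317739571952) (nat_lit 1) (nat_lit 4) (nat_lit 2) (nat_lit 5) (nat_lit 2) (nat_lit 4) (nat_lit 321) (nat_lit 240) (nat_lit 159))) (XT.nd (nat_lit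 78) (nat_lit 0) (nat_lit 0) (XT.lf (nat_lit 0) (nat_lit 90935951941) (nat_lit 76) (nat_lit 363166293754) (nat_lit 76) (nat_lit 336687648860) (nat_lit 1) (nat_lit 4) (nat_lit 2) (nat_lit 5) (nat_lit 2) (nat_lit 4) (nat_lit 322) (nat_lit 240) (nat_lit 158)) (XT.lf (nat_lit 0) (nat_lit 112842475299) (nat_lit 76) (nat_lit 383636182359) (nat_lit 76) (nat_lit 357153967995) (nat_lit 1) (nat_lit 4) (nat_lit 2) (nat_lit 5) (nat_lit 2) (nat_lit 4) (nat_lit 323) (nat_lit 240) (nat_lit 157)))) (XT.nd (nat_lit 156) (nat_lit 456) (nat_lit 0) (XT.nd (nat_lit 78) (nat_lit 0) (nat_lit 0) (XT.lf (nat_lit 0) (nat_lit 893008411) (nat_lit 228) (nat_lit 1171406727) (nat_lit 228) (nat_lit 1171406727) (nat_lit 105) (nat_lit 3) (nat_lit 108) (nat_lit 3) (nat_lit 108) (nat_lit 5) (nat_lit 241) (nat_lit 241) (nat_lit 238)) (XT.lf (nat_lit 76) (nat_lit 2111913988) (nat_lit 0) (nat_lit 3521294927) (nat_lit 228) (nat_lit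 879709675) (nat_lit 106) (nat_lit 5) (nat_lit 105) (nat_lit 3) (nat_lit 108) (nat_lit 5) (nat_lit 242) (nat_lit 241) (nat_lit 237))) (XT.nd (nat_lit 78) (nat_lit 228) (nat_lit 0) (XT.lf (nat_lit 76) (nat_lit 185961373) (nat_lit 0) (nat_lit 2599067862) (nat_lit 304) (nat_lit 3789801187) (nat_lit 103) (nat_lit 5) (nat_lit 102) (nat_lit 5) (nat_lit 106) (nat_lit 5) (nat_lit 243) (nat_lit 241) (nat_lit 236)) (XT.nd (nat_lit 78) (nat_lit 228) (nat_lit 0) (XT.lf (nat_lit 76) (nat_lit 5071177345) (nat_lit 0) (nat_lit 1356504485) (nat_lit 304) (nat_lit 230055726) (nat_lit 103) (nat_lit 5) (nat_lit 102) (nat_lit 5) (nat_lit 106) (nat_lit 5) (nat_lit 244) (nat_lit 241) (nat_lit 235)) (XT.lf (nat_lit 0) (nat_lit 3213962432) (nat_lit 304) (nat_lit 3319522585) (nat_lit 76) (nat_lit 227452625) (nat_lit 99) (nat_lit 5) (nat_lit 103) (nat_lit 5) (nat_lit 100) (nat_lit 5) (nat_lit 245) (nat_lit 241) (nat_lit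 234))))))))
noncomputable def xc51 : XT := (XT.nd (nat_lit 1404) (nat_lit 1368) (nat_lit 0) (XT.nd (nat_lit 702) (nat_lit 1976) (nat_lit 0) (XT.nd (nat_lit 312) (nat_lit 2280) (nat_lit 0) (XT.nd (nat_lit 156) (nat_lit 532) (nat_lit 0) (XT.nd (nat_lit 78) (nat_lit 456) (nat_lit 0) (XT.lf (nat_lit 0) (nat_lit 1870532614) (nat_lit 304) (nat_lit 4817027343) (nat_lit 380) (nat_lit 198614232) (nat_lit 95) (nat_lit 5) (nat_lit 99) (nat_lit 5) (nat_lit 100) (nat_lit 5) (nat_lit 246) (nat_lit 241) (nat_lit 233)) (XT.lf (nat_lit 0) (nat_lit 309627082) (nat_lit 380) (nat_lit 2757600173) (nat_lit 456) (nat_lit 3965414379) (nat_lit 89) (nat_lit 5) (nat_lit 94) (nat_lit 5) (nat_lit 95) (nat_lit 5) (nat_lit 247) (nat_lit 241) (nat_lit 232))) (XT.nd (nat_lit 78) (nat_lit 532) (nat_lit 0) (XT.lf (nat_lit 0) (nat_lit 6024432993) (nat_lit 380) (nat_lit 364995188) (nat_lit 456) (nat_lit 812827166) (nat_lit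 89) (nat_lit 5) (nat_lit 94) (nat_lit 5) (nat_lit 95) (nat_lit 5) (nat_lit 248) (nat_lit 241) (nat_lit 231)) (XT.lf (nat_lit 0) (nat_lit 2350047892) (nat_lit 532) (nat_lit 2717662911) (nat_lit 76) (nat_lit 2325145963) (nat_lit 82) (nat_lit 5) (nat_lit 89) (nat_lit 5) (nat_lit 83) (nat_lit 5) (nat_lit 249) (nat_lit 241) (nat_lit 230)))) (XT.nd (nat_lit 156) (nat_lit 1064) (nat_lit 0) (XT.nd (nat_lit 78) (nat_lit 684) (nat_lit 0) (XT.lf (nat_lit 0) (nat_lit 3313943787) (nat_lit 532) (nat_lit 2250369597) (nat_lit 608) (nat_lit 2043768103) (nat_lit 75) (nat_lit 5) (nat_lit 82) (nat_lit 5) (nat_lit 83) (nat_lit 5) (nat_lit 250) (nat_lit 241) (nat_lit 229)) (XT.lf (nat_lit 0) (nat_lit 1007484733) (nat_lit 684) (nat_lit 5947284723) (nat_lit 76) (nat_lit 893514459) (nat_lit 66) (nat_lit 5) (nat_lit 75) (nat_lit 5) (nat_lit 67) (nat_lit 5) (nat_lit 251) (nat_lit 241) (nat_lit 228))) (XT.nd (nat_lit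 78) (nat_lit 380) (nat_lit 0) (XT.lf (nat_lit 0) (nat_lit 362762926) (nat_lit 684) (nat_lit 3762275023) (nat_lit 760) (nat_lit 3987428688) (nat_lit 57) (nat_lit 5) (nat_lit 66) (nat_lit 5) (nat_lit 67) (nat_lit 5) (nat_lit 252) (nat_lit 241) (nat_lit 227)) (XT.nd (nat_lit 78) (nat_lit 380) (nat_lit 0) (XT.lf (nat_lit 0) (nat_lit 7183050611) (nat_lit 684) (nat_lit 199321141) (nat_lit 760) (nat_lit 1021939253) (nat_lit 57) (nat_lit 5) (nat_lit 66) (nat_lit 5) (nat_lit 67) (nat_lit 5) (nat_lit 253) (nat_lit 241) (nat_lit 226)) (XT.lf (nat_lit 0) (nat_lit 2058692016) (nat_lit 380) (nat_lit 3002083573) (nat_lit 76) (nat_lit 3660562108) (nat_lit 52) (nat_lit 5) (nat_lit 57) (nat_lit 5) (nat_lit 53) (nat_lit 5) (nat_lit 254) (nat_lit 241) (nat_lit 225)))))) (XT.nd (nat_lit 312) (nat_lit 1064) (nat_lit 0) (XT.nd (nat_lit 156) (nat_lit 380) (nat_lit 0) (XT.nd (nat_lit 78) (nat_lit 228) (nat_lit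 0) (XT.lf (nat_lit 0) (nat_lit 4105556004) (nat_lit 304) (nat_lit 1144318397) (nat_lit 380) (nat_lit 3818873194) (nat_lit 48) (nat_lit 5) (nat_lit 52) (nat_lit 5) (nat_lit 53) (nat_lit 5) (nat_lit 255) (nat_lit 241) (nat_lit 224)) (XT.lf (nat_lit 0) (nat_lit 2269643104) (nat_lit 228) (nat_lit 6384648971) (nat_lit 304) (nat_lit 792551866) (nat_lit 45) (nat_lit 5) (nat_lit 48) (nat_lit 5) (nat_lit 49) (nat_lit 5) (nat_lit 256) (nat_lit 241) (nat_lit 223))) (XT.nd (nat_lit 78) (nat_lit 0) (nat_lit 0) (XT.lf (nat_lit 0) (nat_lit 153759238) (nat_lit 304) (nat_lit 2180384300) (nat_lit 380) (nat_lit 7522933355) (nat_lit 40) (nat_lit 5) (nat_lit 44) (nat_lit 5) (nat_lit 45) (nat_lit 5) (nat_lit 257) (nat_lit 241) (nat_lit 222)) (XT.lf (nat_lit 0) (nat_lit 5684769988) (nat_lit 380) (nat_lit 2217574150) (nat_lit 76) (nat_lit 2397702191) (nat_lit 40) (nat_lit 5) (nat_lit 45) (nat_lit 5) (nat_lit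 41) (nat_lit 5) (nat_lit 258) (nat_lit 241) (nat_lit 221)))) (XT.nd (nat_lit 156) (nat_lit 532) (nat_lit 0) (XT.nd (nat_lit 78) (nat_lit 304) (nat_lit 0) (XT.lf (nat_lit 0) (nat_lit 5832758134) (nat_lit 228) (nat_lit 3447843386) (nat_lit 304) (nat_lit 1499591839) (nat_lit 37) (nat_lit 5) (nat_lit 40) (nat_lit 5) (nat_lit 41) (nat_lit 5) (nat_lit 259) (nat_lit 241) (nat_lit 220)) (XT.lf (nat_lit 0) (nat_lit 1772397131) (nat_lit 304) (nat_lit 8122612717) (nat_lit 76) (nat_lit 1404475663) (nat_lit 33) (nat_lit 5) (nat_lit 37) (nat_lit 5) (nat_lit 34) (nat_lit 5) (nat_lit 260) (nat_lit 241) (nat_lit 219))) (XT.nd (nat_lit 78) (nat_lit 304) (nat_lit 0) (XT.lf (nat_lit 0) (nat_lit 6770322) (nat_lit 228) (nat_lit 5255711459) (nat_lit 304) (nat_lit 6596654435) (nat_lit 30) (nat_lit 5) (nat_lit 33) (nat_lit 5) (nat_lit 34) (nat_lit 5) (nat_lit 261) (nat_lit 241) (nat_lit 218)) (XT.nd (nat_lit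 78) (nat_lit 304) (nat_lit 0) (XT.lf (nat_lit 0) (nat_lit 8904004094) (nat_lit 228) (nat_lit 139099028) (nat_lit 304) (nat_lit 3420341302) (nat_lit 30) (nat_lit 5) (nat_lit 33) (nat_lit 5) (nat_lit 34) (nat_lit 5) (nat_lit 262) (nat_lit 241) (nat_lit 217)) (XT.lf (nat_lit 0) (nat_lit 56094370) (nat_lit 304) (nat_lit 7797720800) (nat_lit 76) (nat_lit 5260355793) (nat_lit 26) (nat_lit 5) (nat_lit 30) (nat_lit 5) (nat_lit 27) (nat_lit 5) (nat_lit 263) (nat_lit 241) (nat_lit 216))))))) (XT.nd (nat_lit 702) (nat_lit 532) (nat_lit 0) (XT.nd (nat_lit 312) (nat_lit 456) (nat_lit 0) (XT.nd (nat_lit 156) (nat_lit 228) (nat_lit 0) (XT.nd (nat_lit 78) (nat_lit 0) (nat_lit 0) (XT.lf (nat_lit 0) (nat_lit 1024785057) (nat_lit 152) (nat_lit 2632107770) (nat_lit 228) (nat_lit 10159324257) (nat_lit 24) (nat_lit 5) (nat_lit 26) (nat_lit 5) (nat_lit 27) (nat_lit 5) (nat_lit 264) (nat_lit 241) (nat_lit 215))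 (XT.lf (nat_lit 0) (nat_lit 7619407348) (nat_lit 228) (nat_lit 3946016844) (nat_lit 76) (nat_lit 3005661778) (nat_lit 24) (nat_lit 5) (nat_lit 27) (nat_lit 5) (nat_lit 25) (nat_lit 5) (nat_lit 265) (nat_lit 241) (nat_lit 214))) (XT.nd (nat_lit 78) (nat_lit 76) (nat_lit 0) (XT.lf (nat_lit 0) (nat_lit 5592814299) (nat_lit 152) (nat_lit 6334700410) (nat_lit 228) (nat_lit 3457716449) (nat_lit 22) (nat_lit 5) (nat_lit 24) (nat_lit 5) (nat_lit 25) (nat_lit 5) (nat_lit 266) (nat_lit 241) (nat_lit 213)) (XT.lf (nat_lit 0) (nat_lit 275940086) (nat_lit 228) (nat_lit 377408206) (nat_lit 76) (nat_lit 15612677973) (nat_lit 21) (nat_lit 5) (nat_lit 24) (nat_lit 5) (nat_lit 22) (nat_lit 5) (nat_lit 267) (nat_lit 241) (nat_lit 212)))) (XT.nd (nat_lit 156) (nat_lit 152) (nat_lit 0) (XT.nd (nat_lit 78) (nat_lit 152) (nat_lit 0) (XT.lf (nat_lit 0) (nat_lit 4339780098) (nat_lit 228) (nat_lit 7385221766)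 (nat_lit 76) (nat_lit 5482075621) (nat_lit 19) (nat_lit 5) (nat_lit 22) (nat_lit 5) (nat_lit 20) (nat_lit 5) (nat_lit 268) (nat_lit 241) (nat_lit 211)) (XT.lf (nat_lit 0) (nat_lit 2565217298) (nat_lit 152) (nat_lit 6133213168) (nat_lit 228) (nat_lit 9526736368) (nat_lit 17) (nat_lit 5) (nat_lit 19) (nat_lit 5) (nat_lit 20) (nat_lit 5) (nat_lit 269) (nat_lit 241) (nat_lit 210))) (XT.nd (nat_lit 78) (nat_lit 152) (nat_lit 0) (XT.lf (nat_lit 0) (nat_lit 13447989690) (nat_lit 152) (nat_lit 2915702) (nat_lit 228) (nat_lit 5871762784) (nat_lit 17) (nat_lit 5) (nat_lit 19) (nat_lit 5) (nat_lit 20) (nat_lit 5) (nat_lit 270) (nat_lit 241) (nat_lit 209)) (XT.nd (nat_lit 78) (nat_lit 76) (nat_lit 0) (XT.lf (nat_lit 0) (nat_lit 4616422759) (nat_lit 76) (nat_lit 14064591428) (nat_lit 152) (nat_lit 1822288711) (nat_lit 16) (nat_lit 5) (nat_lit 17) (nat_lit 5) (nat_lit 18) (nat_lit 4) (nat_lit 271)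 (nat_lit 241) (nat_lit 208)) (XT.lf (nat_lit 0) (nat_lit 2498153387) (nat_lit 152) (nat_lit 5777054267) (nat_lit 76) (nat_lit 13499936921) (nat_lit 15) (nat_lit 5) (nat_lit 17) (nat_lit 5) (nat_lit 16) (nat_lit 5) (nat_lit 272) (nat_lit 241) (nat_lit 207)))))) (XT.nd (nat_lit 390) (nat_lit 228) (nat_lit 0) (XT.nd (nat_lit 156) (nat_lit 152) (nat_lit 0) (XT.nd (nat_lit 78) (nat_lit 0) (nat_lit 0) (XT.lf (nat_lit 0) (nat_lit 5166161230) (nat_lit 152) (nat_lit 1945925024) (nat_lit 228) (nat_lit 16034736116) (nat_lit 13) (nat_lit 5) (nat_lit 15) (nat_lit 5) (nat_lit 16) (nat_lit 5) (nat_lit 273) (nat_lit 241) (nat_lit 206)) (XT.lf (nat_lit 0) (nat_lit 12206865737) (nat_lit 228) (nat_lit 7618162224) (nat_lit 76) (nat_lit 4797774865) (nat_lit 13) (nat_lit 5) (nat_lit 16) (nat_lit 5) (nat_lit 14) (nat_lit 4) (nat_lit 274) (nat_lit 241) (nat_lit 205))) (XT.nd (nat_lit 78) (nat_lit 76) (nat_lit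 0) (XT.lf (nat_lit 0) (nat_lit 3554189787) (nat_lit 76) (nat_lit 14181403271) (nat_lit 152) (nat_lit 8480093937) (nat_lit 12) (nat_lit 5) (nat_lit 13) (nat_lit 5) (nat_lit 14) (nat_lit 4) (nat_lit 275) (nat_lit 241) (nat_lit 204)) (XT.nd (nat_lit 78) (nat_lit 76) (nat_lit 0) (XT.lf (nat_lit 0) (nat_lit 15796630682) (nat_lit 76) (nat_lit 7983847274) (nat_lit 152) (nat_lit 4151963891) (nat_lit 12) (nat_lit 5) (nat_lit 13) (nat_lit 5) (nat_lit 14) (nat_lit 4) (nat_lit 276) (nat_lit 241) (nat_lit 203)) (XT.lf (nat_lit 0) (nat_lit 450198371) (nat_lit 152) (nat_lit 866828278) (nat_lit 76) (nat_lit 28471994711) (nat_lit 11) (nat_lit 5) (nat_lit 13) (nat_lit 5) (nat_lit 12) (nat_lit 5) (nat_lit 277) (nat_lit 241) (nat_lit 202))))) (XT.nd (nat_lit 156) (nat_lit 76) (nat_lit 0) (XT.nd (nat_lit 78) (nat_lit 0) (nat_lit 0) (XT.lf (nat_lit 0) (nat_lit 5500902765) (nat_lit 228) (nat_lit 20361318519)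 (nat_lit 76) (nat_lit 5917319543) (nat_lit 9) (nat_lit 5) (nat_lit 12) (nat_lit 5) (nat_lit 10) (nat_lit 4) (nat_lit 278) (nat_lit 241) (nat_lit 201)) (XT.lf (nat_lit 0) (nat_lit 10943894602) (nat_lit 228) (nat_lit 9316267146) (nat_lit 76) (nat_lit 13669829040) (nat_lit 9) (nat_lit 5) (nat_lit 12) (nat_lit 5) (nat_lit 10) (nat_lit 4) (nat_lit 279) (nat_lit 241) (nat_lit 200))) (XT.nd (nat_lit 78) (nat_lit 0) (nat_lit 0) (XT.lf (nat_lit 0) (nat_lit 2620045827) (nat_lit 76) (nat_lit 14197516301) (nat_lit 152) (nat_lit 19435245847) (nat_lit 8) (nat_lit 5) (nat_lit 9) (nat_lit 5) (nat_lit 10) (nat_lit 4) (nat_lit 280) (nat_lit 241) (nat_lit 199)) (XT.nd (nat_lit 78) (nat_lit 0) (nat_lit 0) (XT.lf (nat_lit 0) (nat_lit 15771055968) (nat_lit 76) (nat_lit 7508925494) (nat_lit 152) (nat_lit 15475612308) (nat_lit 8) (nat_lit 5) (nat_lit 9) (nat_lit 5) (nat_lit 10) (nat_lit 4) (nat_lit 281) (nat_lit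 241) (nat_lit 198)) (XT.lf (nat_lit 0) (nat_lit 29906657324) (nat_lit 76) (nat_lit 312528727) (nat_lit 152) (nat_lit 11241506566) (nat_lit 8) (nat_lit 5) (nat_lit 9) (nat_lit 5) (nat_lit 10) (nat_lit 4) (nat_lit 282) (nat_lit 241) (nat_lit 197))))))))
noncomputable def xc52 : XT := (XT.nd (nat_lit 1404) (nat_lit 76) (nat_lit 0) (XT.nd (nat_lit 702) (nat_lit 228) (nat_lit 0) (XT.nd (nat_lit 312) (nat_lit 76) (nat_lit 0) (XT.nd (nat_lit 156) (nat_lit 76) (nat_lit 0) (XT.nd (nat_lit 78) (nat_lit 0) (nat_lit 0) (XT.lf (nat_lit 0) (nat_lit 630594080) (nat_lit 76) (nat_lit 37171618926) (nat_lit 76) (nat_lit 6575625928) (nat_lit 7) (nat_lit 4) (nat_lit 8) (nat_lit 5) (nat_lit 8) (nat_lit 4) (nat_lit 283) (nat_lit 241) (nat_lit 196)) (XT.lf (nat_lit 0) (nat_lit 14135892013) (nat_lit 76) (nat_lit 32026645188) (nat_lit 76) (nat_lit 1357355395) (nat_lit 7) (nat_lit 4) (nat_lit 8) (nat_lit 5) (nat_lit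 8) (nat_lit 4) (nat_lit 284) (nat_lit 241) (nat_lit 195))) (XT.nd (nat_lit 78) (nat_lit 0) (nat_lit 0) (XT.lf (nat_lit 0) (nat_lit 4107695200) (nat_lit 152) (nat_lit 22316382034) (nat_lit 76) (nat_lit 24487641093) (nat_lit 6) (nat_lit 5) (nat_lit 8) (nat_lit 5) (nat_lit 7) (nat_lit 4) (nat_lit 285) (nat_lit 241) (nat_lit 194)) (XT.lf (nat_lit 0) (nat_lit 9931783446) (nat_lit 152) (nat_lit 10439841320) (nat_lit 76) (nat_lit 34203739174) (nat_lit 6) (nat_lit 5) (nat_lit 8) (nat_lit 5) (nat_lit 7) (nat_lit 4) (nat_lit 286) (nat_lit 241) (nat_lit 193)))) (XT.nd (nat_lit 156) (nat_lit 0) (nat_lit 0) (XT.nd (nat_lit 78) (nat_lit 0) (nat_lit 0) (XT.lf (nat_lit 0) (nat_lit 2414471343) (nat_lit 76) (nat_lit 13816091625) (nat_lit 152) (nat_lit 42301151726) (nat_lit 5) (nat_lit 5) (nat_lit 6) (nat_lit 5) (nat_lit 7) (nat_lit 4) (nat_lit 287) (nat_lit 241) (nat_lit 192)) (XT.lf (nat_lit 0) (nat_lit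 16622459753) (nat_lit 76) (nat_lit 6565109919) (nat_lit 152) (nat_lit 39609335474) (nat_lit 5) (nat_lit 5) (nat_lit 6) (nat_lit 5) (nat_lit 7) (nat_lit 4) (nat_lit 288) (nat_lit 241) (nat_lit 191))) (XT.nd (nat_lit 78) (nat_lit 0) (nat_lit 0) (XT.lf (nat_lit 0) (nat_lit 30695122469) (nat_lit 152) (nat_lit 35500975372) (nat_lit 0) (nat_lit 1207558046) (nat_lit 5) (nat_lit 5) (nat_lit 7) (nat_lit 4) (nat_lit 5) (nat_lit 4) (nat_lit 289) (nat_lit 241) (nat_lit 190)) (XT.nd (nat_lit 78) (nat_lit 0) (nat_lit 0) (XT.lf (nat_lit 0) (nat_lit 38890109348) (nat_lit 152) (nat_lit 24125981885) (nat_lit 0) (nat_lit 9358555006) (nat_lit 5) (nat_lit 5) (nat_lit 7) (nat_lit 4) (nat_lit 5) (nat_lit 4) (nat_lit 290) (nat_lit 241) (nat_lit 189)) (XT.lf (nat_lit 0) (nat_lit 47718593431) (nat_lit 152) (nat_lit 11879557798) (nat_lit 0) (nat_lit 18146307684) (nat_lit 5) (nat_lit 5) (nat_lit 7) (nat_lit 4) (nat_lit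 5) (nat_lit 4) (nat_lit 291) (nat_lit 241) (nat_lit 188)))))) (XT.nd (nat_lit 312) (nat_lit 152) (nat_lit 0) (XT.nd (nat_lit 156) (nat_lit 0) (nat_lit 0) (XT.nd (nat_lit 78) (nat_lit 0) (nat_lit 0) (XT.lf (nat_lit 0) (nat_lit 1354211514) (nat_lit 76) (nat_lit 55899823183) (nat_lit 76) (nat_lit 26289823171) (nat_lit 4) (nat_lit 4) (nat_lit 5) (nat_lit 5) (nat_lit 5) (nat_lit 4) (nat_lit 292) (nat_lit 241) (nat_lit 187)) (XT.lf (nat_lit 0) (nat_lit 16036737620) (nat_lit 76) (nat_lit 51703025860) (nat_lit 76) (nat_lit 22058105233) (nat_lit 4) (nat_lit 4) (nat_lit 5) (nat_lit 5) (nat_lit 5) (nat_lit 4) (nat_lit 293) (nat_lit 241) (nat_lit 186))) (XT.nd (nat_lit 78) (nat_lit 0) (nat_lit 0) (XT.lf (nat_lit 0) (nat_lit 31862236251) (nat_lit 76) (nat_lit 47184075410) (nat_lit 76) (nat_lit 17506820880) (nat_lit 4) (nat_lit 4) (nat_lit 5) (nat_lit 5) (nat_lit 5) (nat_lit 4) (nat_lit 294) (nat_lit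 241) (nat_lit 185)) (XT.lf (nat_lit 0) (nat_lit 48924488140) (nat_lit 76) (nat_lit 42316192868) (nat_lit 76) (nat_lit 12608999538) (nat_lit 4) (nat_lit 4) (nat_lit 5) (nat_lit 5) (nat_lit 5) (nat_lit 4) (nat_lit 295) (nat_lit 241) (nat_lit 184)))) (XT.nd (nat_lit 156) (nat_lit 152) (nat_lit 0) (XT.nd (nat_lit 78) (nat_lit 0) (nat_lit 0) (XT.lf (nat_lit 0) (nat_lit 67324602926) (nat_lit 76) (nat_lit 37070531521) (nat_lit 76) (nat_lit 7335617082) (nat_lit 4) (nat_lit 4) (nat_lit 5) (nat_lit 5) (nat_lit 5) (nat_lit 4) (nat_lit 296) (nat_lit 241) (nat_lit 183)) (XT.lf (nat_lit 0) (nat_lit 87171618328) (nat_lit 76) (nat_lit 31416005971) (nat_lit 76) (nat_lit 1655423836) (nat_lit 4) (nat_lit 4) (nat_lit 5) (nat_lit 5) (nat_lit 5) (nat_lit 4) (nat_lit 297) (nat_lit 241) (nat_lit 182))) (XT.nd (nat_lit 78) (nat_lit 76) (nat_lit 0) (XT.lf (nat_lit 0) (nat_lit 4322325017) (nat_lit 152) (nat_lit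 20923582233) (nat_lit 76) (nat_lit 104187620605) (nat_lit 3) (nat_lit 5) (nat_lit 5) (nat_lit 5) (nat_lit 4) (nat_lit 4) (nat_lit 298) (nat_lit 241) (nat_lit 181)) (XT.nd (nat_lit 78) (nat_lit 76) (nat_lit 0) (XT.lf (nat_lit 0) (nat_lit 10708573052) (nat_lit 152) (nat_lit 7853779672) (nat_lit 76) (nat_lit 120796142017) (nat_lit 3) (nat_lit 5) (nat_lit 5) (nat_lit 5) (nat_lit 4) (nat_lit 4) (nat_lit 299) (nat_lit 241) (nat_lit 180)) (XT.lf (nat_lit 0) (nat_lit 6447639078) (nat_lit 76) (nat_lit 11247175239) (nat_lit 152) (nat_lit 132378208098) (nat_lit 2) (nat_lit 5) (nat_lit 3) (nat_lit 5) (nat_lit 4) (nat_lit 4) (nat_lit 300) (nat_lit 241) (nat_lit 179))))))) (XT.nd (nat_lit 702) (nat_lit 76) (nat_lit 0) (XT.nd (nat_lit 312) (nat_lit 0) (nat_lit 0) (XT.nd (nat_lit 156) (nat_lit 0) (nat_lit 0) (XT.nd (nat_lit 78) (nat_lit 0) (nat_lit 0) (XT.lf (nat_lit 0) (nat_lit 22154178173) (nat_lit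 76) (nat_lit 3211565713) (nat_lit 152) (nat_lit 136272695733) (nat_lit 2) (nat_lit 5) (nat_lit 3) (nat_lit 5) (nat_lit 4) (nat_lit 4) (nat_lit 301) (nat_lit 241) (nat_lit 178)) (XT.lf (nat_lit 0) (nat_lit 33725376897) (nat_lit 152) (nat_lit 135115615521) (nat_lit 0) (nat_lit 5284361852) (nat_lit 2) (nat_lit 5) (nat_lit 4) (nat_lit 4) (nat_lit 2) (nat_lit 4) (nat_lit 302) (nat_lit 241) (nat_lit 177))) (XT.nd (nat_lit 78) (nat_lit 0) (nat_lit 0) (XT.lf (nat_lit 0) (nat_lit 42798373747) (nat_lit 152) (nat_lit 130468679121) (nat_lit 0) (nat_lit 14341953939) (nat_lit 2) (nat_lit 5) (nat_lit 4) (nat_lit 4) (nat_lit 2) (nat_lit 4) (nat_lit 303) (nat_lit 241) (nat_lit 176)) (XT.lf (nat_lit 0) (nat_lit 52588358803) (nat_lit 152) (nat_lit 125465773305) (nat_lit 0) (nat_lit 24117675325) (nat_lit 2) (nat_lit 5) (nat_lit 4) (nat_lit 4) (nat_lit 2) (nat_lit 4) (nat_lit 304) (nat_lit 241) (nat_lit 175))))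 (XT.nd (nat_lit 156) (nat_lit 0) (nat_lit 0) (XT.nd (nat_lit 78) (nat_lit 0) (nat_lit 0) (XT.lf (nat_lit 0) (nat_lit 63153346791) (nat_lit 152) (nat_lit 120077251224) (nat_lit 0) (nat_lit 34669456211) (nat_lit 2) (nat_lit 5) (nat_lit 4) (nat_lit 4) (nat_lit 2) (nat_lit 4) (nat_lit 305) (nat_lit 241) (nat_lit 174)) (XT.lf (nat_lit 0) (nat_lit 74555945047) (nat_lit 152) (nat_lit 114271180894) (nat_lit 0) (nat_lit 46059825669) (nat_lit 2) (nat_lit 5) (nat_lit 4) (nat_lit 4) (nat_lit 2) (nat_lit 4) (nat_lit 306) (nat_lit 241) (nat_lit 173))) (XT.nd (nat_lit 78) (nat_lit 0) (nat_lit 0) (XT.lf (nat_lit 0) (nat_lit 86863724525) (nat_lit 152) (nat_lit 108013155974) (nat_lit 0) (nat_lit 58356282185) (nat_lit 2) (nat_lit 5) (nat_lit 4) (nat_lit 4) (nat_lit 2) (nat_lit 4) (nat_lit 307) (nat_lit 241) (nat_lit 172)) (XT.nd (nat_lit 78) (nat_lit 0) (nat_lit 0) (XT.lf (nat_lit 0) (nat_lit 100149620212)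 (nat_lit 152) (nat_lit 101266091871) (nat_lit 0) (nat_lit 71631693650) (nat_lit 2) (nat_lit 5) (nat_lit 4) (nat_lit 4) (nat_lit 2) (nat_lit 4) (nat_lit 308) (nat_lit 241) (nat_lit 171)) (XT.lf (nat_lit 0) (nat_lit 114492363344) (nat_lit 152) (nat_lit 93990005983) (nat_lit 0) (nat_lit 85964729168) (nat_lit 2) (nat_lit 5) (nat_lit 4) (nat_lit 4) (nat_lit 2) (nat_lit 4) (nat_lit 309) (nat_lit 241) (nat_lit 170)))))) (XT.nd (nat_lit 312) (nat_lit 76) (nat_lit 0) (XT.nd (nat_lit 156) (nat_lit 0) (nat_lit 0) (XT.nd (nat_lit 78) (nat_lit 0) (nat_lit 0) (XT.lf (nat_lit 0) (nat_lit 129976947954) (nat_lit 152) (nat_lit 86141780764) (nat_lit 0) (nat_lit 101440325246) (nat_lit 2) (nat_lit 5) (nat_lit 4) (nat_lit 4) (nat_lit 2) (nat_lit 4) (nat_lit 310) (nat_lit 241) (nat_lit 169)) (XT.lf (nat_lit 0) (nat_lit 146695134542) (nat_lit 152) (nat_lit 77674908213) (nat_lit 0) (nat_lit 118150189120) (nat_lit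 2) (nat_lit 5) (nat_lit 4) (nat_lit 4) (nat_lit 2) (nat_lit 4) (nat_lit 311) (nat_lit 241) (nat_lit 168))) (XT.nd (nat_lit 78) (nat_lit 0) (nat_lit 0) (XT.lf (nat_lit 0) (nat_lit 164745993845) (nat_lit 152) (nat_lit 68539214270) (nat_lit 0) (nat_lit 136193342205) (nat_lit 2) (nat_lit 5) (nat_lit 4) (nat_lit 4) (nat_lit 2) (nat_lit 4) (nat_lit 312) (nat_lit 241) (nat_lit 167)) (XT.lf (nat_lit 0) (nat_lit 184236493917) (nat_lit 152) (nat_lit 58680561489) (nat_lit 0) (nat_lit 155676706891) (nat_lit 2) (nat_lit 5) (nat_lit 4) (nat_lit 4) (nat_lit 2) (nat_lit 4) (nat_lit 313) (nat_lit 241) (nat_lit 166)))) (XT.nd (nat_lit 156) (nat_lit 76) (nat_lit 0) (XT.nd (nat_lit 78) (nat_lit 0) (nat_lit 0) (XT.lf (nat_lit 0) (nat_lit 205282134018) (nat_lit 152) (nat_lit 48040528225) (nat_lit 0) (nat_lit 176715740153) (nat_lit 2) (nat_lit 5) (nat_lit 4) (nat_lit 4) (nat_lit 2) (nat_lit 4) (nat_lit 314)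 (nat_lit 241) (nat_lit 165)) (XT.lf (nat_lit 0) (nat_lit 228007629053) (nat_lit 152) (nat_lit 36556062429) (nat_lit 0) (nat_lit 199435117745) (nat_lit 2) (nat_lit 5) (nat_lit 4) (nat_lit 4) (nat_lit 2) (nat_lit 4) (nat_lit 315) (nat_lit 241) (nat_lit 164))) (XT.nd (nat_lit 78) (nat_lit 76) (nat_lit 0) (XT.lf (nat_lit 0) (nat_lit 252547648621) (nat_lit 152) (nat_lit 24159108006) (nat_lit 0) (nat_lit 223969473013) (nat_lit 2) (nat_lit 5) (nat_lit 4) (nat_lit 4) (nat_lit 2) (nat_lit 4) (nat_lit 316) (nat_lit 241) (nat_lit 163)) (XT.nd (nat_lit 78) (nat_lit 76) (nat_lit 0) (XT.lf (nat_lit 0) (nat_lit 279047615061) (nat_lit 152) (nat_lit 10776201524) (nat_lit 0) (nat_lit 250464194731) (nat_lit 2) (nat_lit 5) (nat_lit 4) (nat_lit 4) (nat_lit 2) (nat_lit 4) (nat_lit 317) (nat_lit 241) (nat_lit 162)) (XT.lf (nat_lit 0) (nat_lit 3793374814) (nat_lit 76) (nat_lit 303930415608) (nat_lit 76) (nat_lit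 275342139055) (nat_lit 1) (nat_lit 4) (nat_lit 2) (nat_lit 5) (nat_lit 2) (nat_lit 4) (nat_lit 318) (nat_lit 241) (nat_lit 161))))))))
noncomputable def xc53 : XT := (XT.nd (nat_lit 32604) (nat_lit 0) (nat_lit 912) (XT.nd (nat_lit 31902) (nat_lit 0) (nat_lit 3572) (XT.nd (nat_lit 31512) (nat_lit 0) (nat_lit 6992) (XT.nd (nat_lit 156) (nat_lit 0) (nat_lit 0) (XT.nd (nat_lit 78) (nat_lit 0) (nat_lit 0) (XT.lf (nat_lit 0) (nat_lit 19908191156) (nat_lit 76) (nat_lit 318970712497) (nat_lit 76) (nat_lit 290377939440) (nat_lit 1) (nat_lit 4) (nat_lit 2) (nat_lit 5) (nat_lit 2) (nat_lit 4) (nat_lit 319) (nat_lit 241) (nat_lit 160)) (XT.lf (nat_lit 0) (nat_lit 37307432821) (nat_lit 76) (nat_lit 335216335125) (nat_lit 76) (nat_lit 306619398639) (nat_lit 1) (nat_lit 4) (nat_lit 2) (nat_lit 5) (nat_lit 2) (nat_lit 4) (nat_lit 320) (nat_lit 241) (nat_lit 159))) (XT.nd (nat_lit 78) (nat_lit 0) (nat_lit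 0) (XT.lf (nat_lit 0) (nat_lit 56094206425) (nat_lit 76) (nat_lit 352763553848) (nat_lit 76) (nat_lit 324162762335) (nat_lit 1) (nat_lit 4) (nat_lit 2) (nat_lit 5) (nat_lit 2) (nat_lit 4) (nat_lit 321) (nat_lit 241) (nat_lit 158)) (XT.lf (nat_lit 0) (nat_lit 76379840997) (nat_lit 76) (nat_lit 371716352185) (nat_lit 76) (nat_lit 343111991202) (nat_lit 1) (nat_lit 4) (nat_lit 2) (nat_lit 5) (nat_lit 2) (nat_lit 4) (nat_lit 322) (nat_lit 241) (nat_lit 157)))) (XT.nd (nat_lit 156) (nat_lit 684) (nat_lit 0) (XT.nd (nat_lit 78) (nat_lit 0) (nat_lit 0) (XT.lf (nat_lit 0) (nat_lit 655885236) (nat_lit 0) (nat_lit 655885236) (nat_lit 228) (nat_lit 1970069071) (nat_lit 102) (nat_lit 5) (nat_lit 102) (nat_lit 3) (nat_lit 105) (nat_lit 3) (nat_lit 242) (nat_lit 242) (nat_lit 236)) (XT.lf (nat_lit 0) (nat_lit 5870537275) (nat_lit 0) (nat_lit 197168931) (nat_lit 228) (nat_lit 568040578) (nat_lit 102)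 (nat_lit 5) (nat_lit 102) (nat_lit 3) (nat_lit 105) (nat_lit 3) (nat_lit 243) (nat_lit 242) (nat_lit 235))) (XT.nd (nat_lit 78) (nat_lit 380) (nat_lit 0) (XT.lf (nat_lit 0) (nat_lit 2715771070) (nat_lit 304) (nat_lit 2768236515) (nat_lit 380) (nat_lit 1242397280) (nat_lit 98) (nat_lit 5) (nat_lit 102) (nat_lit 5) (nat_lit 103) (nat_lit 5) (nat_lit 244) (nat_lit 242) (nat_lit 234)) (XT.nd (nat_lit 78) (nat_lit 380) (nat_lit 0) (XT.lf (nat_lit 76) (nat_lit 2124922597) (nat_lit 0) (nat_lit 3850852217) (nat_lit 380) (nat_lit 863480666) (nat_lit 99) (nat_lit 5) (nat_lit 98) (nat_lit 5) (nat_lit 103) (nat_lit 5) (nat_lit 245) (nat_lit 242) (nat_lit 233)) (XT.lf (nat_lit 76) (nat_lit 323110428) (nat_lit 0) (nat_lit 1882189305) (nat_lit 456) (nat_lit 4768134621) (nat_lit 94) (nat_lit 5) (nat_lit 93) (nat_lit 5) (nat_lit 99) (nat_lit 5) (nat_lit 246) (nat_lit 242) (nat_lit 232)))))) (XT.nd (nat_lit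 312) (nat_lit 2052) (nat_lit 0) (XT.nd (nat_lit 156) (nat_lit 988) (nat_lit 0) (XT.nd (nat_lit 78) (nat_lit 456) (nat_lit 0) (XT.lf (nat_lit 0) (nat_lit 5294965040) (nat_lit 380) (nat_lit 1407402020) (nat_lit 76) (nat_lit 426685177) (nat_lit 94) (nat_lit 5) (nat_lit 99) (nat_lit 5) (nat_lit 95) (nat_lit 5) (nat_lit 247) (nat_lit 242) (nat_lit 231)) (XT.lf (nat_lit 0) (nat_lit 1123386259) (nat_lit 456) (nat_lit 3158588624) (nat_lit 76) (nat_lit 3024025739) (nat_lit 88) (nat_lit 5) (nat_lit 94) (nat_lit 5) (nat_lit 89) (nat_lit 5) (nat_lit 248) (nat_lit 242) (nat_lit 230))) (XT.nd (nat_lit 78) (nat_lit 532) (nat_lit 0) (XT.lf (nat_lit 0) (nat_lit 2560080393) (nat_lit 456) (nat_lit 1508801903) (nat_lit 532) (nat_lit 3437318459) (nat_lit 82) (nat_lit 5) (nat_lit 88) (nat_lit 5) (nat_lit 89) (nat_lit 5) (nat_lit 249) (nat_lit 242) (nat_lit 229)) (XT.lf (nat_lit 0) (nat_lit 938297188) (nat_lit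 532) (nat_lit 6171894683) (nat_lit 608) (nat_lit 620497203) (nat_lit 75) (nat_lit 5) (nat_lit 82) (nat_lit 5) (nat_lit 83) (nat_lit 5) (nat_lit 250) (nat_lit 242) (nat_lit 228)))) (XT.nd (nat_lit 156) (nat_lit 1368) (nat_lit 0) (XT.nd (nat_lit 78) (nat_lit 608) (nat_lit 0) (XT.lf (nat_lit 0) (nat_lit 2233190450) (nat_lit 608) (nat_lit 760370113) (nat_lit 76) (nat_lit 4984363492) (nat_lit 74) (nat_lit 5) (nat_lit 82) (nat_lit 5) (nat_lit 75) (nat_lit 5) (nat_lit 251) (nat_lit 242) (nat_lit 227)) (XT.lf (nat_lit 0) (nat_lit 5184919934) (nat_lit 684) (nat_lit 2514978540) (nat_lit 76) (nat_lit 551002300) (nat_lit 66) (nat_lit 5) (nat_lit 75) (nat_lit 5) (nat_lit 67) (nat_lit 5) (nat_lit 252) (nat_lit 242) (nat_lit 226))) (XT.nd (nat_lit 78) (nat_lit 684) (nat_lit 0) (XT.lf (nat_lit 0) (nat_lit 4130032137) (nat_lit 684) (nat_lit 4176740436) (nat_lit 760) (nat_lit 243212193) (nat_lit 57) (nat_lit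 5) (nat_lit 66) (nat_lit 5) (nat_lit 67) (nat_lit 5) (nat_lit 253) (nat_lit 242) (nat_lit 225)) (XT.nd (nat_lit 78) (nat_lit 304) (nat_lit 0) (XT.lf (nat_lit 0) (nat_lit 2372625355) (nat_lit 304) (nat_lit 237865981) (nat_lit 380) (nat_lit 6266422947) (nat_lit 52) (nat_lit 5) (nat_lit 56) (nat_lit 5) (nat_lit 57) (nat_lit 5) (nat_lit 254) (nat_lit 242) (nat_lit 224)) (XT.lf (nat_lit 0) (nat_lit 399016124) (nat_lit 304) (nat_lit 5256647399) (nat_lit 380) (nat_lit 3576341308) (nat_lit 48) (nat_lit 5) (nat_lit 52) (nat_lit 5) (nat_lit 53) (nat_lit 5) (nat_lit 255) (nat_lit 242) (nat_lit 223))))))) (XT.nd (nat_lit 702) (nat_lit 988) (nat_lit 0) (XT.nd (nat_lit 312) (nat_lit 836) (nat_lit 0) (XT.nd (nat_lit 156) (nat_lit 532) (nat_lit 0) (XT.nd (nat_lit 78) (nat_lit 304) (nat_lit 0) (XT.lf (nat_lit 0) (nat_lit 7904805873) (nat_lit 304) (nat_lit 991512651) (nat_lit 380) (nat_lit 722322767) (nat_lit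 48) (nat_lit 5) (nat_lit 52) (nat_lit 5) (nat_lit 53) (nat_lit 5) (nat_lit 256) (nat_lit 242) (nat_lit 222)) (XT.lf (nat_lit 0) (nat_lit 2279555988) (nat_lit 304) (nat_lit 4138355397) (nat_lit 76) (nat_lit 3617346868) (nat_lit 44) (nat_lit 5) (nat_lit 48) (nat_lit 5) (nat_lit 45) (nat_lit 5) (nat_lit 257) (nat_lit 242) (nat_lit 221))) (XT.nd (nat_lit 78) (nat_lit 228) (nat_lit 0) (XT.lf (nat_lit 0) (nat_lit 3609280878) (nat_lit 304) (nat_lit 1843237718) (nat_lit 380) (nat_lit 5034879683) (nat_lit 40) (nat_lit 5) (nat_lit 44) (nat_lit 5) (nat_lit 45) (nat_lit 5) (nat_lit 258) (nat_lit 242) (nat_lit 220)) (XT.lf (nat_lit 0) (nat_lit 963141374) (nat_lit 228) (nat_lit 7913327856) (nat_lit 304) (nat_lit 2099936233) (nat_lit 37) (nat_lit 5) (nat_lit 40) (nat_lit 5) (nat_lit 41) (nat_lit 5) (nat_lit 259) (nat_lit 242) (nat_lit 219)))) (XT.nd (nat_lit 156) (nat_lit 532) (nat_lit 0) (XT.nd (nat_lit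 78) (nat_lit 228) (nat_lit 0) (XT.lf (nat_lit 0) (nat_lit 1054036246) (nat_lit 304) (nat_lit 2039039589) (nat_lit 76) (nat_lit 8410186659) (nat_lit 36) (nat_lit 5) (nat_lit 40) (nat_lit 5) (nat_lit 37) (nat_lit 5) (nat_lit 260) (nat_lit 242) (nat_lit 218)) (XT.lf (nat_lit 0) (nat_lit 4401014677) (nat_lit 304) (nat_lit 5513673548) (nat_lit 76) (nat_lit 2155597565) (nat_lit 33) (nat_lit 5) (nat_lit 37) (nat_lit 5) (nat_lit 34) (nat_lit 5) (nat_lit 261) (nat_lit 242) (nat_lit 217))) (XT.nd (nat_lit 78) (nat_lit 304) (nat_lit 0) (XT.lf (nat_lit 0) (nat_lit 3124438909) (nat_lit 228) (nat_lit 4910324960) (nat_lit 304) (nat_lit 4647374924) (nat_lit 30) (nat_lit 5) (nat_lit 33) (nat_lit 5) (nat_lit 34) (nat_lit 5) (nat_lit 262) (nat_lit 242) (nat_lit 216)) (XT.nd (nat_lit 78) (nat_lit 304) (nat_lit 0) (XT.lf (nat_lit 0) (nat_lit 11952391564) (nat_lit 304) (nat_lit 850277576) (nat_lit 76) (nat_lit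 540999438) (nat_lit 30) (nat_lit 5) (nat_lit 34) (nat_lit 5) (nat_lit 31) (nat_lit 5) (nat_lit 263) (nat_lit 242) (nat_lit 215)) (XT.lf (nat_lit 0) (nat_lit 2172079296) (nat_lit 304) (nat_lit 5483494274) (nat_lit 76) (nat_lit 6395490072) (nat_lit 26) (nat_lit 5) (nat_lit 30) (nat_lit 5) (nat_lit 27) (nat_lit 5) (nat_lit 264) (nat_lit 242) (nat_lit 214)))))) (XT.nd (nat_lit 390) (nat_lit 456) (nat_lit 0) (XT.nd (nat_lit 156) (nat_lit 380) (nat_lit 0) (XT.nd (nat_lit 78) (nat_lit 0) (nat_lit 0) (XT.lf (nat_lit 0) (nat_lit 3917128232) (nat_lit 152) (nat_lit 2031283787) (nat_lit 228) (nat_lit 8866981702) (nat_lit 24) (nat_lit 5) (nat_lit 26) (nat_lit 5) (nat_lit 27) (nat_lit 5) (nat_lit 265) (nat_lit 242) (nat_lit 213)) (XT.lf (nat_lit 0) (nat_lit 10091585749) (nat_lit 228) (nat_lit 1572982463) (nat_lit 76) (nat_lit 3973358215) (nat_lit 24) (nat_lit 5) (nat_lit 27) (nat_lit 5) (nat_lit 25)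 (nat_lit 5) (nat_lit 266) (nat_lit 242) (nat_lit 212))) (XT.nd (nat_lit 78) (nat_lit 228) (nat_lit 0) (XT.lf (nat_lit 0) (nat_lit 8612106863) (nat_lit 152) (nat_lit 6034416611) (nat_lit 228) (nat_lit 1875994009) (nat_lit 22) (nat_lit 5) (nat_lit 24) (nat_lit 5) (nat_lit 25) (nat_lit 5) (nat_lit 267) (nat_lit 242) (nat_lit 211)) (XT.nd (nat_lit 78) (nat_lit 0) (nat_lit 0) (XT.lf (nat_lit 0) (nat_lit 1998054462) (nat_lit 228) (nat_lit 15378616292) (nat_lit 76) (nat_lit 100969174) (nat_lit 19) (nat_lit 5) (nat_lit 22) (nat_lit 5) (nat_lit 20) (nat_lit 5) (nat_lit 268) (nat_lit 242) (nat_lit 210)) (XT.lf (nat_lit 0) (nat_lit 6277460465) (nat_lit 228) (nat_lit 5569581771) (nat_lit 76) (nat_lit 6652755735) (nat_lit 19) (nat_lit 5) (nat_lit 22) (nat_lit 5) (nat_lit 20) (nat_lit 5) (nat_lit 269) (nat_lit 242) (nat_lit 209))))) (XT.nd (nat_lit 156) (nat_lit 304) (nat_lit 0) (XT.nd (nat_lit 78)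 (nat_lit 0) (nat_lit 0) (XT.lf (nat_lit 0) (nat_lit 5072310697) (nat_lit 152) (nat_lit 5830616238) (nat_lit 228) (nat_lit 8700821391) (nat_lit 17) (nat_lit 5) (nat_lit 19) (nat_lit 5) (nat_lit 20) (nat_lit 5) (nat_lit 270) (nat_lit 242) (nat_lit 208)) (XT.lf (nat_lit 0) (nat_lit 15935268427) (nat_lit 228) (nat_lit 4151156423) (nat_lit 76) (nat_lit 707937848) (nat_lit 17) (nat_lit 5) (nat_lit 20) (nat_lit 5) (nat_lit 18) (nat_lit 4) (nat_lit 271) (nat_lit 242) (nat_lit 207))) (XT.nd (nat_lit 78) (nat_lit 228) (nat_lit 0) (XT.lf (nat_lit 0) (nat_lit 7083859217) (nat_lit 76) (nat_lit 14428411982) (nat_lit 152) (nat_lit 561027135) (nat_lit 16) (nat_lit 5) (nat_lit 17) (nat_lit 5) (nat_lit 18) (nat_lit 4) (nat_lit 272) (nat_lit 242) (nat_lit 206)) (XT.nd (nat_lit 78) (nat_lit 152) (nat_lit 0) (XT.lf (nat_lit 0) (nat_lit 3959126451) (nat_lit 152) (nat_lit 4251789420) (nat_lit 76) (nat_lit 15240159537)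 (nat_lit 15) (nat_lit 5) (nat_lit 17) (nat_lit 5) (nat_lit 16) (nat_lit 5) (nat_lit 273) (nat_lit 242) (nat_lit 205)) (XT.lf (nat_lit 0) (nat_lit 7480512066) (nat_lit 152) (nat_lit 1397926369) (nat_lit 228) (nat_lit 16057459819) (nat_lit 13) (nat_lit 5) (nat_lit 15) (nat_lit 5) (nat_lit 16) (nat_lit 5) (nat_lit 274) (nat_lit 242) (nat_lit 204))))))))
noncomputable def xc54 : XT := (XT.nd (nat_lit 1404) (nat_lit 228) (nat_lit 0) (XT.nd (nat_lit 702) (nat_lit 228) (nat_lit 0) (XT.nd (nat_lit 312) (nat_lit 76) (nat_lit 0) (XT.nd (nat_lit 156) (nat_lit 228) (nat_lit 0) (XT.nd (nat_lit 78) (nat_lit 76) (nat_lit 0) (XT.lf (nat_lit 0) (nat_lit 14302277572) (nat_lit 228) (nat_lit 6419521182) (nat_lit 76) (nat_lit 5812291981) (nat_lit 13) (nat_lit 5) (nat_lit 16) (nat_lit 5) (nat_lit 14) (nat_lit 4) (nat_lit 275) (nat_lit 242) (nat_lit 203)) (XT.lf (nat_lit 0) (nat_lit 5568041427) (nat_lit 76)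 (nat_lit 14649385542) (nat_lit 152) (nat_lit 8039964563) (nat_lit 12) (nat_lit 5) (nat_lit 13) (nat_lit 5) (nat_lit 14) (nat_lit 4) (nat_lit 276) (nat_lit 242) (nat_lit 202))) (XT.nd (nat_lit 78) (nat_lit 228) (nat_lit 0) (XT.lf (nat_lit 0) (nat_lit 18661765263) (nat_lit 76) (nat_lit 8005397657) (nat_lit 152) (nat_lit 3448438698) (nat_lit 12) (nat_lit 5) (nat_lit 13) (nat_lit 5) (nat_lit 14) (nat_lit 4) (nat_lit 277) (nat_lit 242) (nat_lit 201)) (XT.lf (nat_lit 0) (nat_lit 598413425) (nat_lit 152) (nat_lit 825415950) (nat_lit 228) (nat_lit 30699472408) (nat_lit 9) (nat_lit 5) (nat_lit 11) (nat_lit 5) (nat_lit 12) (nat_lit 5) (nat_lit 278) (nat_lit 242) (nat_lit 200)))) (XT.nd (nat_lit 156) (nat_lit 76) (nat_lit 0) (XT.nd (nat_lit 78) (nat_lit 0) (nat_lit 0) (XT.lf (nat_lit 0) (nat_lit 6831977466) (nat_lit 228) (nat_lit 20503584707) (nat_lit 76) (nat_lit 6939976492) (nat_lit 9) (nat_lit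 5) (nat_lit 12) (nat_lit 5) (nat_lit 10) (nat_lit 4) (nat_lit 279) (nat_lit 242) (nat_lit 199)) (XT.lf (nat_lit 0) (nat_lit 12644408465) (nat_lit 228) (nat_lit 8685050653) (nat_lit 76) (nat_lit 15271999980) (nat_lit 9) (nat_lit 5) (nat_lit 12) (nat_lit 5) (nat_lit 10) (nat_lit 4) (nat_lit 280) (nat_lit 242) (nat_lit 198))) (XT.nd (nat_lit 78) (nat_lit 0) (nat_lit 0) (XT.lf (nat_lit 0) (nat_lit 4146345568) (nat_lit 76) (nat_lit 14801069859) (nat_lit 152) (nat_lit 20164838437) (nat_lit 8) (nat_lit 5) (nat_lit 9) (nat_lit 5) (nat_lit 10) (nat_lit 4) (nat_lit 281) (nat_lit 242) (nat_lit 197)) (XT.nd (nat_lit 78) (nat_lit 0) (nat_lit 0) (XT.lf (nat_lit 0) (nat_lit 18251903478) (nat_lit 76) (nat_lit 7616817547) (nat_lit 152) (nat_lit 15949562146) (nat_lit 8) (nat_lit 5) (nat_lit 9) (nat_lit 5) (nat_lit 10) (nat_lit 4) (nat_lit 282) (nat_lit 242) (nat_lit 196)) (XT.lf (nat_lit 0) (nat_lit 33311113518)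 (nat_lit 152) (nat_lit 11316396830) (nat_lit 0) (nat_lit 114983746) (nat_lit 8) (nat_lit 5) (nat_lit 10) (nat_lit 4) (nat_lit 8) (nat_lit 4) (nat_lit 283) (nat_lit 242) (nat_lit 195)))))) (XT.nd (nat_lit 312) (nat_lit 76) (nat_lit 0) (XT.nd (nat_lit 156) (nat_lit 76) (nat_lit 0) (XT.nd (nat_lit 78) (nat_lit 0) (nat_lit 0) (XT.lf (nat_lit 0) (nat_lit 1787464686) (nat_lit 76) (nat_lit 39685516752) (nat_lit 76) (nat_lit 6421519576) (nat_lit 7) (nat_lit 4) (nat_lit 8) (nat_lit 5) (nat_lit 8) (nat_lit 4) (nat_lit 284) (nat_lit 242) (nat_lit 194)) (XT.lf (nat_lit 0) (nat_lit 16291229188) (nat_lit 76) (nat_lit 34163006721) (nat_lit 76) (nat_lit 836169358) (nat_lit 7) (nat_lit 4) (nat_lit 8) (nat_lit 5) (nat_lit 8) (nat_lit 4) (nat_lit 285) (nat_lit 242) (nat_lit 193))) (XT.nd (nat_lit 78) (nat_lit 0) (nat_lit 0) (XT.lf (nat_lit 0) (nat_lit 5000771699) (nat_lit 152) (nat_lit 23133440739) (nat_lit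 76) (nat_lit 26821211538) (nat_lit 6) (nat_lit 5) (nat_lit 8) (nat_lit 5) (nat_lit 7) (nat_lit 4) (nat_lit 286) (nat_lit 242) (nat_lit 192)) (XT.lf (nat_lit 0) (nat_lit 11248975086) (nat_lit 152) (nat_lit 10378499128) (nat_lit 76) (nat_lit 37286852342) (nat_lit 6) (nat_lit 5) (nat_lit 8) (nat_lit 5) (nat_lit 7) (nat_lit 4) (nat_lit 287) (nat_lit 242) (nat_lit 191)))) (XT.nd (nat_lit 156) (nat_lit 0) (nat_lit 0) (XT.nd (nat_lit 78) (nat_lit 0) (nat_lit 0) (XT.lf (nat_lit 0) (nat_lit 3465196469) (nat_lit 76) (nat_lit 14561134794) (nat_lit 152) (nat_lit 45162189583) (nat_lit 5) (nat_lit 5) (nat_lit 6) (nat_lit 5) (nat_lit 7) (nat_lit 4) (nat_lit 288) (nat_lit 242) (nat_lit 190)) (XT.lf (nat_lit 0) (nat_lit 18746300440) (nat_lit 76) (nat_lit 6756759304) (nat_lit 152) (nat_lit 42293772792) (nat_lit 5) (nat_lit 5) (nat_lit 6) (nat_lit 5) (nat_lit 7) (nat_lit 4) (nat_lit 289) (nat_lit 242) (nat_lit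 189))) (XT.nd (nat_lit 78) (nat_lit 0) (nat_lit 0) (XT.lf (nat_lit 0) (nat_lit 33581928835) (nat_lit 152) (nat_lit 37588589392) (nat_lit 0) (nat_lit 1603128823) (nat_lit 5) (nat_lit 5) (nat_lit 7) (nat_lit 4) (nat_lit 5) (nat_lit 4) (nat_lit 290) (nat_lit 242) (nat_lit 188)) (XT.nd (nat_lit 78) (nat_lit 0) (nat_lit 0) (XT.lf (nat_lit 0) (nat_lit 42400574178) (nat_lit 152) (nat_lit 25359334500) (nat_lit 0) (nat_lit 10384059901) (nat_lit 5) (nat_lit 5) (nat_lit 7) (nat_lit 4) (nat_lit 5) (nat_lit 4) (nat_lit 291) (nat_lit 242) (nat_lit 187)) (XT.lf (nat_lit 0) (nat_lit 51905762463) (nat_lit 152) (nat_lit 12184805815) (nat_lit 0) (nat_lit 19854327571) (nat_lit 5) (nat_lit 5) (nat_lit 7) (nat_lit 4) (nat_lit 5) (nat_lit 4) (nat_lit 292) (nat_lit 242) (nat_lit 186))))))) (XT.nd (nat_lit 702) (nat_lit 0) (nat_lit 0) (XT.nd (nat_lit 312) (nat_lit 152) (nat_lit 0) (XT.nd (nat_lit 156) (nat_lit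 0) (nat_lit 0) (XT.nd (nat_lit 78) (nat_lit 0) (nat_lit 0) (XT.lf (nat_lit 0) (nat_lit 2079629060) (nat_lit 76) (nat_lit 60106660509) (nat_lit 76) (nat_lit 28022891713) (nat_lit 4) (nat_lit 4) (nat_lit 5) (nat_lit 5) (nat_lit 5) (nat_lit 4) (nat_lit 293) (nat_lit 242) (nat_lit 185)) (XT.lf (nat_lit 0) (nat_lit 17891047579) (nat_lit 76) (nat_lit 55593760032) (nat_lit 76) (nat_lit 23480052437) (nat_lit 4) (nat_lit 4) (nat_lit 5) (nat_lit 5) (nat_lit 5) (nat_lit 4) (nat_lit 294) (nat_lit 242) (nat_lit 184))) (XT.nd (nat_lit 78) (nat_lit 0) (nat_lit 0) (XT.lf (nat_lit 0) (nat_lit 34940262327) (nat_lit 76) (nat_lit 50731479316) (nat_lit 76) (nat_lit 18590050611) (nat_lit 4) (nat_lit 4) (nat_lit 5) (nat_lit 5) (nat_lit 5) (nat_lit 4) (nat_lit 295) (nat_lit 242) (nat_lit 183)) (XT.lf (nat_lit 0) (nat_lit 53328305686) (nat_lit 76) (nat_lit 45491004847) (nat_lit 76) (nat_lit 13323908446) (nat_lit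 4) (nat_lit 4) (nat_lit 5) (nat_lit 5) (nat_lit 5) (nat_lit 4) (nat_lit 296) (nat_lit 242) (nat_lit 182)))) (XT.nd (nat_lit 156) (nat_lit 152) (nat_lit 0) (XT.nd (nat_lit 78) (nat_lit 0) (nat_lit 0) (XT.lf (nat_lit 0) (nat_lit 73164143841) (nat_lit 76) (nat_lit 39841281959) (nat_lit 76) (nat_lit 7650419175) (nat_lit 4) (nat_lit 4) (nat_lit 5) (nat_lit 5) (nat_lit 5) (nat_lit 4) (nat_lit 297) (nat_lit 242) (nat_lit 181)) (XT.lf (nat_lit 0) (nat_lit 94565322499) (nat_lit 76) (nat_lit 33748830815) (nat_lit 76) (nat_lit 1535962120) (nat_lit 4) (nat_lit 4) (nat_lit 5) (nat_lit 5) (nat_lit 5) (nat_lit 4) (nat_lit 298) (nat_lit 242) (nat_lit 180))) (XT.nd (nat_lit 78) (nat_lit 76) (nat_lit 0) (XT.lf (nat_lit 0) (nat_lit 4893882676) (nat_lit 152) (nat_lit 22200785053) (nat_lit 76) (nat_lit 112681900511) (nat_lit 3) (nat_lit 5) (nat_lit 5) (nat_lit 5) (nat_lit 4) (nat_lit 4) (nat_lit 299) (nat_lit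 242) (nat_lit 179)) (XT.nd (nat_lit 78) (nat_lit 76) (nat_lit 0) (XT.lf (nat_lit 0) (nat_lit 11774306727) (nat_lit 152) (nat_lit 8114782269) (nat_lit 76) (nat_lit 130607305839) (nat_lit 3) (nat_lit 5) (nat_lit 5) (nat_lit 5) (nat_lit 4) (nat_lit 4) (nat_lit 300) (nat_lit 242) (nat_lit 178)) (XT.lf (nat_lit 0) (nat_lit 7314787581) (nat_lit 76) (nat_lit 11994660050) (nat_lit 152) (nat_lit 142759161306) (nat_lit 2) (nat_lit 5) (nat_lit 3) (nat_lit 5) (nat_lit 4) (nat_lit 4) (nat_lit 301) (nat_lit 242) (nat_lit 177)))))) (XT.nd (nat_lit 312) (nat_lit 0) (nat_lit 0) (XT.nd (nat_lit 156) (nat_lit 0) (nat_lit 0) (XT.nd (nat_lit 78) (nat_lit 0) (nat_lit 0) (XT.lf (nat_lit 0) (nat_lit 24251824813) (nat_lit 76) (nat_lit 3327482444) (nat_lit 152) (nat_lit 146980711910) (nat_lit 2) (nat_lit 5) (nat_lit 3) (nat_lit 5) (nat_lit 4) (nat_lit 4) (nat_lit 302) (nat_lit 242) (nat_lit 176)) (XT.lf (nat_lit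 0) (nat_lit 36596097232) (nat_lit 152) (nat_lit 145616895809) (nat_lit 0) (nat_lit 5833495405) (nat_lit 2) (nat_lit 5) (nat_lit 4) (nat_lit 4) (nat_lit 2) (nat_lit 4) (nat_lit 303) (nat_lit 242) (nat_lit 175))) (XT.nd (nat_lit 78) (nat_lit 0) (nat_lit 0) (XT.lf (nat_lit 0) (nat_lit 46382141964) (nat_lit 152) (nat_lit 140621017012) (nat_lit 0) (nat_lit 15606333036) (nat_lit 2) (nat_lit 5) (nat_lit 4) (nat_lit 4) (nat_lit 2) (nat_lit 4) (nat_lit 304) (nat_lit 242) (nat_lit 174)) (XT.lf (nat_lit 0) (nat_lit 56943481505) (nat_lit 152) (nat_lit 135239001430) (nat_lit 0) (nat_lit 26155443778) (nat_lit 2) (nat_lit 5) (nat_lit 4) (nat_lit 4) (nat_lit 2) (nat_lit 4) (nat_lit 305) (nat_lit 242) (nat_lit 173)))) (XT.nd (nat_lit 156) (nat_lit 0) (nat_lit 0) (XT.nd (nat_lit 78) (nat_lit 0) (nat_lit 0) (XT.lf (nat_lit 0) (nat_lit 68342701569) (nat_lit 152) (nat_lit 129438955637) (nat_lit 0) (nat_lit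 37543340882) (nat_lit 2) (nat_lit 5) (nat_lit 4) (nat_lit 4) (nat_lit 2) (nat_lit 4) (nat_lit 306) (nat_lit 242) (nat_lit 172)) (XT.lf (nat_lit 0) (nat_lit 80647353091) (nat_lit 152) (nat_lit 123186508991) (nat_lit 0) (nat_lit 49837508180) (nat_lit 2) (nat_lit 5) (nat_lit 4) (nat_lit 4) (nat_lit 2) (nat_lit 4) (nat_lit 307) (nat_lit 242) (nat_lit 171))) (XT.nd (nat_lit 78) (nat_lit 0) (nat_lit 0) (XT.lf (nat_lit 0) (nat_lit 93930352523) (nat_lit 152) (nat_lit 116444609957) (nat_lit 0) (nat_lit 63110799998) (nat_lit 2) (nat_lit 5) (nat_lit 4) (nat_lit 4) (nat_lit 2) (nat_lit 4) (nat_lit 308) (nat_lit 242) (nat_lit 170)) (XT.nd (nat_lit 78) (nat_lit 0) (nat_lit 0) (XT.lf (nat_lit 0) (nat_lit 108270413937) (nat_lit 152) (nat_lit 109173306540) (nat_lit 0) (nat_lit 77441872881) (nat_lit 2) (nat_lit 5) (nat_lit 4) (nat_lit 4) (nat_lit 2) (nat_lit 4) (nat_lit 309) (nat_lit 242) (nat_lit 169))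 (XT.lf (nat_lit 0) (nat_lit 123752515475) (nat_lit 152) (nat_lit 101329509535) (nat_lit 0) (nat_lit 92915651704) (nat_lit 2) (nat_lit 5) (nat_lit 4) (nat_lit 4) (nat_lit 2) (nat_lit 4) (nat_lit 310) (nat_lit 242) (nat_lit 168))))))))
noncomputable def xc55 : XT := (XT.nd (nat_lit 32682) (nat_lit 0) (nat_lit 1596) (XT.nd (nat_lit 702) (nat_lit 0) (nat_lit 0) (XT.nd (nat_lit 312) (nat_lit 76) (nat_lit 0) (XT.nd (nat_lit 156) (nat_lit 0) (nat_lit 0) (XT.nd (nat_lit 78) (nat_lit 0) (nat_lit 0) (XT.lf (nat_lit 0) (nat_lit 140468402922) (nat_lit 152) (nat_lit 92866737182) (nat_lit 0) (nat_lit 109623832935) (nat_lit 2) (nat_lit 5) (nat_lit 4) (nat_lit 4) (nat_lit 2) (nat_lit 4) (nat_lit 311) (nat_lit 242) (nat_lit 167)) (XT.lf (nat_lit 0) (nat_lit 158517133391) (nat_lit 152) (nat_lit 83734839719) (nat_lit 0) (nat_lit 127665428017) (nat_lit 2) (nat_lit 5) (nat_lit 4) (nat_lit 4) (nat_lit 2) (nat_lit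 4) (nat_lit 312) (nat_lit 242) (nat_lit 166))) (XT.nd (nat_lit 78) (nat_lit 0) (nat_lit 0) (XT.lf (nat_lit 0) (nat_lit 178005662320) (nat_lit 152) (nat_lit 73879702198) (nat_lit 0) (nat_lit 147147350108) (nat_lit 2) (nat_lit 5) (nat_lit 4) (nat_lit 4) (nat_lit 2) (nat_lit 4) (nat_lit 313) (nat_lit 242) (nat_lit 165)) (XT.lf (nat_lit 0) (nat_lit 199049477289) (nat_lit 152) (nat_lit 63242923803) (nat_lit 0) (nat_lit 168185047633) (nat_lit 2) (nat_lit 5) (nat_lit 4) (nat_lit 4) (nat_lit 2) (nat_lit 4) (nat_lit 314) (nat_lit 242) (nat_lit 164)))) (XT.nd (nat_lit 156) (nat_lit 76) (nat_lit 0) (XT.nd (nat_lit 78) (nat_lit 0) (nat_lit 0) (XT.lf (nat_lit 0) (nat_lit 221773282387) (nat_lit 152) (nat_lit 51761471775) (nat_lit 0) (nat_lit 190903188431) (nat_lit 2) (nat_lit 5) (nat_lit 4) (nat_lit 4) (nat_lit 2) (nat_lit 4) (nat_lit 315) (nat_lit 242) (nat_lit 163)) (XT.lf (nat_lit 0) (nat_lit 246311737199)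 (nat_lit 152) (nat_lit 39367307878) (nat_lit 0) (nat_lit 215436398521) (nat_lit 2) (nat_lit 5) (nat_lit 4) (nat_lit 4) (nat_lit 2) (nat_lit 4) (nat_lit 316) (nat_lit 242) (nat_lit 162))) (XT.nd (nat_lit 78) (nat_lit 76) (nat_lit 0) (XT.lf (nat_lit 0) (nat_lit 272810254790) (nat_lit 152) (nat_lit 25986985216) (nat_lit 0) (nat_lit 241930059888) (nat_lit 2) (nat_lit 5) (nat_lit 4) (nat_lit 4) (nat_lit 2) (nat_lit 4) (nat_lit 317) (nat_lit 242) (nat_lit 161)) (XT.nd (nat_lit 78) (nat_lit 76) (nat_lit 0) (XT.lf (nat_lit 0) (nat_lit 301425863413) (nat_lit 152) (nat_lit 11541212988) (nat_lit 0) (nat_lit 270541172008) (nat_lit 2) (nat_lit 5) (nat_lit 4) (nat_lit 4) (nat_lit 2) (nat_lit 4) (nat_lit 318) (nat_lit 242) (nat_lit 160)) (XT.lf (nat_lit 0) (nat_lit 4189710276) (nat_lit 76) (nat_lit 328203839888) (nat_lit 76) (nat_lit 297314985054) (nat_lit 1) (nat_lit 4) (nat_lit 2) (nat_lit 5) (nat_lit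 2) (nat_lit 4) (nat_lit 319) (nat_lit 242) (nat_lit 159)))))) (XT.nd (nat_lit 31590) (nat_lit 0) (nat_lit 6536) (XT.nd (nat_lit 156) (nat_lit 0) (nat_lit 0) (XT.nd (nat_lit 78) (nat_lit 0) (nat_lit 0) (XT.lf (nat_lit 0) (nat_lit 21586833002) (nat_lit 76) (nat_lit 344450398230) (nat_lit 76) (nat_lit 313557688368) (nat_lit 1) (nat_lit 4) (nat_lit 2) (nat_lit 5) (nat_lit 2) (nat_lit 4) (nat_lit 320) (nat_lit 242) (nat_lit 158)) (XT.lf (nat_lit 0) (nat_lit 40371644625) (nat_lit 76) (nat_lit 361998483355) (nat_lit 76) (nat_lit 331102204023) (nat_lit 1) (nat_lit 4) (nat_lit 2) (nat_lit 5) (nat_lit 2) (nat_lit 4) (nat_lit 321) (nat_lit 242) (nat_lit 157))) (XT.nd (nat_lit 31356) (nat_lit 0) (nat_lit 7296) (XT.lf (nat_lit 0) (nat_lit 60655462549) (nat_lit 76) (nat_lit 380952083915) (nat_lit 76) (nat_lit 350052499519) (nat_lit 1) (nat_lit 4) (nat_lit 2) (nat_lit 5) (nat_lit 2) (nat_lit 4) (nat_lit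 322) (nat_lit 242) (nat_lit 156)) (XT.lf (nat_lit 0) (nat_lit 1274982373) (nat_lit 380) (nat_lit 1041238845) (nat_lit 380) (nat_lit 1041238845) (nat_lit 97) (nat_lit 3) (nat_lit 102) (nat_lit 3) (nat_lit 102) (nat_lit 5) (nat_lit 243) (nat_lit 243) (nat_lit 234)))) (XT.nd (nat_lit 156) (nat_lit 380) (nat_lit 0) (XT.nd (nat_lit 78) (nat_lit 380) (nat_lit 0) (XT.lf (nat_lit 76) (nat_lit 2526177314) (nat_lit 0) (nat_lit 3094522466) (nat_lit 380) (nat_lit 1195177340) (nat_lit 98) (nat_lit 5) (nat_lit 97) (nat_lit 3) (nat_lit 102) (nat_lit 5) (nat_lit 244) (nat_lit 243) (nat_lit 233)) (XT.lf (nat_lit 76) (nat_lit 465928574) (nat_lit 0) (nat_lit 1223723784) (nat_lit 456) (nat_lit 5248423667) (nat_lit 93) (nat_lit 5) (nat_lit 92) (nat_lit 5) (nat_lit 98) (nat_lit 5) (nat_lit 245) (nat_lit 243) (nat_lit 232))) (XT.nd (nat_lit 78) (nat_lit 456) (nat_lit 0) (XT.lf (nat_lit 0) (nat_lit 4571740398)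 (nat_lit 380) (nat_lit 1526903210) (nat_lit 456) (nat_lit 981704523) (nat_lit 93) (nat_lit 5) (nat_lit 98) (nat_lit 5) (nat_lit 99) (nat_lit 5) (nat_lit 246) (nat_lit 243) (nat_lit 231)) (XT.nd (nat_lit 78) (nat_lit 0) (nat_lit 0) (XT.lf (nat_lit 0) (nat_lit 250779044) (nat_lit 456) (nat_lit 3503955113) (nat_lit 532) (nat_lit 3489670208) (nat_lit 87) (nat_lit 5) (nat_lit 93) (nat_lit 5) (nat_lit 94) (nat_lit 5) (nat_lit 247) (nat_lit 243) (nat_lit 230)) (XT.lf (nat_lit 76) (nat_lit 1911131549) (nat_lit 0) (nat_lit 1041463749) (nat_lit 532) (nat_lit 4477838504) (nat_lit 88) (nat_lit 5) (nat_lit 87) (nat_lit 5) (nat_lit 94) (nat_lit 5) (nat_lit 248) (nat_lit 243) (nat_lit 229))))))) (XT.nd (nat_lit 702) (nat_lit 1672) (nat_lit 0) (XT.nd (nat_lit 312) (nat_lit 1672) (nat_lit 0) (XT.nd (nat_lit 156) (nat_lit 1140) (nat_lit 0) (XT.nd (nat_lit 78) (nat_lit 76) (nat_lit 0) (XT.lf (nat_lit 0)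 (nat_lit 50033277) (nat_lit 456) (nat_lit 5681290984) (nat_lit 532) (nat_lit 1908263829) (nat_lit 82) (nat_lit 5) (nat_lit 88) (nat_lit 5) (nat_lit 89) (nat_lit 5) (nat_lit 249) (nat_lit 243) (nat_lit 228)) (XT.lf (nat_lit 0) (nat_lit 732666439) (nat_lit 532) (nat_lit 1809419059) (nat_lit 76) (nat_lit 5329165262) (nat_lit 81) (nat_lit 5) (nat_lit 88) (nat_lit 5) (nat_lit 82) (nat_lit 5) (nat_lit 250) (nat_lit 243) (nat_lit 227))) (XT.nd (nat_lit 78) (nat_lit 608) (nat_lit 0) (XT.lf (nat_lit 0) (nat_lit 3397435284) (nat_lit 608) (nat_lit 3767138169) (nat_lit 76) (nat_lit 962383665) (nat_lit 74) (nat_lit 5) (nat_lit 82) (nat_lit 5) (nat_lit 75) (nat_lit 5) (nat_lit 251) (nat_lit 243) (nat_lit 226)) (XT.lf (nat_lit 0) (nat_lit 2555195789) (nat_lit 608) (nat_lit 3642954493) (nat_lit 684) (nat_lit 2209799845) (nat_lit 66) (nat_lit 5) (nat_lit 74) (nat_lit 5) (nat_lit 75) (nat_lit 5) (nat_lit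 252) (nat_lit 243) (nat_lit 225)))) (XT.nd (nat_lit 156) (nat_lit 912) (nat_lit 0) (XT.nd (nat_lit 78) (nat_lit 0) (nat_lit 0) (XT.lf (nat_lit 0) (nat_lit 392011465) (nat_lit 760) (nat_lit 8068316984) (nat_lit 76) (nat_lit 256704638) (nat_lit 56) (nat_lit 5) (nat_lit 66) (nat_lit 5) (nat_lit 57) (nat_lit 5) (nat_lit 253) (nat_lit 243) (nat_lit 224)) (XT.lf (nat_lit 0) (nat_lit 3117790928) (nat_lit 760) (nat_lit 1437581179) (nat_lit 76) (nat_lit 4494787764) (nat_lit 56) (nat_lit 5) (nat_lit 66) (nat_lit 5) (nat_lit 57) (nat_lit 5) (nat_lit 254) (nat_lit 243) (nat_lit 223))) (XT.nd (nat_lit 78) (nat_lit 608) (nat_lit 0) (XT.lf (nat_lit 0) (nat_lit 5749503178) (nat_lit 304) (nat_lit 241857861) (nat_lit 380) (nat_lit 3422821464) (nat_lit 52) (nat_lit 5) (nat_lit 56) (nat_lit 5) (nat_lit 57) (nat_lit 5) (nat_lit 255) (nat_lit 243) (nat_lit 222)) (XT.nd (nat_lit 78) (nat_lit 304) (nat_lit 0)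 (XT.lf (nat_lit 0) (nat_lit 3644646108) (nat_lit 304) (nat_lit 5450928063) (nat_lit 380) (nat_lit 712392795) (nat_lit 48) (nat_lit 5) (nat_lit 52) (nat_lit 5) (nat_lit 53) (nat_lit 5) (nat_lit 256) (nat_lit 243) (nat_lit 221)) (XT.lf (nat_lit 0) (nat_lit 1282972549) (nat_lit 228) (nat_lit 805283152) (nat_lit 304) (nat_lit 8146653495) (nat_lit 44) (nat_lit 5) (nat_lit 47) (nat_lit 5) (nat_lit 48) (nat_lit 5) (nat_lit 257) (nat_lit 243) (nat_lit 220)))))) (XT.nd (nat_lit 390) (nat_lit 836) (nat_lit 0) (XT.nd (nat_lit 156) (nat_lit 532) (nat_lit 0) (XT.nd (nat_lit 78) (nat_lit 304) (nat_lit 0) (XT.lf (nat_lit 0) (nat_lit 5126629030) (nat_lit 304) (nat_lit 1383297598) (nat_lit 76) (nat_lit 4184118167) (nat_lit 44) (nat_lit 5) (nat_lit 48) (nat_lit 5) (nat_lit 45) (nat_lit 5) (nat_lit 258) (nat_lit 243) (nat_lit 219)) (XT.lf (nat_lit 0) (nat_lit 6850030294) (nat_lit 304) (nat_lit 1552101634)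 (nat_lit 380) (nat_lit 2788588833) (nat_lit 40) (nat_lit 5) (nat_lit 44) (nat_lit 5) (nat_lit 45) (nat_lit 5) (nat_lit 259) (nat_lit 243) (nat_lit 218))) (XT.nd (nat_lit 78) (nat_lit 228) (nat_lit 0) (XT.lf (nat_lit 0) (nat_lit 232211850) (nat_lit 304) (nat_lit 7742893681) (nat_lit 76) (nat_lit 3750987783) (nat_lit 36) (nat_lit 5) (nat_lit 40) (nat_lit 5) (nat_lit 37) (nat_lit 5) (nat_lit 260) (nat_lit 243) (nat_lit 217)) (XT.nd (nat_lit 78) (nat_lit 0) (nat_lit 0) (XT.lf (nat_lit 0) (nat_lit 629104722) (nat_lit 228) (nat_lit 2766812644) (nat_lit 304) (nat_lit 8906564075) (nat_lit 33) (nat_lit 5) (nat_lit 36) (nat_lit 5) (nat_lit 37) (nat_lit 5) (nat_lit 261) (nat_lit 243) (nat_lit 216)) (XT.lf (nat_lit 0) (nat_lit 6885148127) (nat_lit 304) (nat_lit 3160916107) (nat_lit 76) (nat_lit 2875682415) (nat_lit 33) (nat_lit 5) (nat_lit 37) (nat_lit 5) (nat_lit 34) (nat_lit 5) (nat_lit 262) (nat_lit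 243) (nat_lit 215))))) (XT.nd (nat_lit 156) (nat_lit 304) (nat_lit 0) (XT.nd (nat_lit 78) (nat_lit 304) (nat_lit 0) (XT.lf (nat_lit 0) (nat_lit 6046827974) (nat_lit 228) (nat_lit 4646563666) (nat_lit 304) (nat_lit 2895526488) (nat_lit 30) (nat_lit 5) (nat_lit 33) (nat_lit 5) (nat_lit 34) (nat_lit 5) (nat_lit 263) (nat_lit 243) (nat_lit 214)) (XT.lf (nat_lit 0) (nat_lit 485548810) (nat_lit 304) (nat_lit 12616451983) (nat_lit 76) (nat_lit 1207160099) (nat_lit 26) (nat_lit 5) (nat_lit 30) (nat_lit 5) (nat_lit 27) (nat_lit 5) (nat_lit 264) (nat_lit 243) (nat_lit 213))) (XT.nd (nat_lit 78) (nat_lit 304) (nat_lit 0) (XT.lf (nat_lit 0) (nat_lit 4156114310) (nat_lit 304) (nat_lit 3403274476) (nat_lit 76) (nat_lit 7519531382) (nat_lit 26) (nat_lit 5) (nat_lit 30) (nat_lit 5) (nat_lit 27) (nat_lit 5) (nat_lit 265) (nat_lit 243) (nat_lit 212)) (XT.nd (nat_lit 78) (nat_lit 152) (nat_lit 0) (XT.lf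 (nat_lit 0) (nat_lit 6639929535) (nat_lit 152) (nat_lit 1498148112) (nat_lit 228) (nat_lit 7771566151) (nat_lit 24) (nat_lit 5) (nat_lit 26) (nat_lit 5) (nat_lit 27) (nat_lit 5) (nat_lit 266) (nat_lit 243) (nat_lit 211)) (XT.lf (nat_lit 0) (nat_lit 626366965) (nat_lit 152) (nat_lit 11879226403) (nat_lit 228) (nat_lit 4298133329) (nat_lit 22) (nat_lit 5) (nat_lit 24) (nat_lit 5) (nat_lit 25) (nat_lit 5) (nat_lit 267) (nat_lit 243) (nat_lit 210))))))))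
noncomputable def xc56 : XT := (XT.nd (nat_lit 1404) (nat_lit 380) (nat_lit 0) (XT.nd (nat_lit 702) (nat_lit 456) (nat_lit 0) (XT.nd (nat_lit 312) (nat_lit 304) (nat_lit 0) (XT.nd (nat_lit 156) (nat_lit 152) (nat_lit 0) (XT.nd (nat_lit 78) (nat_lit 228) (nat_lit 0) (XT.lf (nat_lit 0) (nat_lit 11506037192) (nat_lit 152) (nat_lit 5825246215) (nat_lit 228) (nat_lit 432846716) (nat_lit 22) (nat_lit 5) (nat_lit 24) (nat_lit 5) (nat_lit 25) (nat_lit 5) (nat_lit 268) (nat_lit 243) (nat_lit 209)) (XT.lf (nat_lit 0) (nat_lit 3630582114) (nat_lit 228) (nat_lit 14380703988) (nat_lit 76) (nat_lit 786930101) (nat_lit 19) (nat_lit 5) (nat_lit 22) (nat_lit 5) (nat_lit 20) (nat_lit 5) (nat_lit 269) (nat_lit 243) (nat_lit 208))) (XT.nd (nat_lit 78) (nat_lit 152) (nat_lit 0) (XT.lf (nat_lit 0) (nat_lit 8143252946) (nat_lit 228) (nat_lit 3951998677) (nat_lit 76) (nat_lit 7812646002) (nat_lit 19) (nat_lit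 5) (nat_lit 22) (nat_lit 5) (nat_lit 20) (nat_lit 5) (nat_lit 270) (nat_lit 243) (nat_lit 207)) (XT.lf (nat_lit 0) (nat_lit 7451583220) (nat_lit 152) (nat_lit 5616978102) (nat_lit 228) (nat_lit 8035386856) (nat_lit 17) (nat_lit 5) (nat_lit 19) (nat_lit 5) (nat_lit 20) (nat_lit 5) (nat_lit 271) (nat_lit 243) (nat_lit 206)))) (XT.nd (nat_lit 156) (nat_lit 152) (nat_lit 0) (XT.nd (nat_lit 78) (nat_lit 152) (nat_lit 0) (XT.lf (nat_lit 0) (nat_lit 18417514256) (nat_lit 228) (nat_lit 2602721520) (nat_lit 76) (nat_lit 1374128792) (nat_lit 17) (nat_lit 5) (nat_lit 20) (nat_lit 5) (nat_lit 18) (nat_lit 4) (nat_lit 272) (nat_lit 243) (nat_lit 205)) (XT.lf (nat_lit 0) (nat_lit 581188013) (nat_lit 152) (nat_lit 14338922093) (nat_lit 76) (nat_lit 8858339227) (nat_lit 15) (nat_lit 5) (nat_lit 17) (nat_lit 5) (nat_lit 16) (nat_lit 5) (nat_lit 273) (nat_lit 243) (nat_lit 204))) (XT.nd (nat_lit 78) (nat_lit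 152) (nat_lit 0) (XT.lf (nat_lit 0) (nat_lit 5357064381) (nat_lit 152) (nat_lit 2888032378) (nat_lit 76) (nat_lit 17025411104) (nat_lit 15) (nat_lit 5) (nat_lit 17) (nat_lit 5) (nat_lit 16) (nat_lit 5) (nat_lit 274) (nat_lit 243) (nat_lit 203)) (XT.nd (nat_lit 78) (nat_lit 0) (nat_lit 0) (XT.lf (nat_lit 0) (nat_lit 9708803801) (nat_lit 152) (nat_lit 906474593) (nat_lit 228) (nat_lit 16261762377) (nat_lit 13) (nat_lit 5) (nat_lit 15) (nat_lit 5) (nat_lit 16) (nat_lit 5) (nat_lit 275) (nat_lit 243) (nat_lit 202)) (XT.lf (nat_lit 0) (nat_lit 16405704100) (nat_lit 228) (nat_lit 5382933683) (nat_lit 76) (nat_lit 6817994756) (nat_lit 13) (nat_lit 5) (nat_lit 16) (nat_lit 5) (nat_lit 14) (nat_lit 4) (nat_lit 276) (nat_lit 243) (nat_lit 201)))))) (XT.nd (nat_lit 312) (nat_lit 152) (nat_lit 0) (XT.nd (nat_lit 156) (nat_lit 228) (nat_lit 0) (XT.nd (nat_lit 78) (nat_lit 0) (nat_lit 0) (XT.lf (nat_lit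 0) (nat_lit 7496266341) (nat_lit 76) (nat_lit 15249894349) (nat_lit 152) (nat_lit 7724196632) (nat_lit 12) (nat_lit 5) (nat_lit 13) (nat_lit 5) (nat_lit 14) (nat_lit 4) (nat_lit 277) (nat_lit 243) (nat_lit 200)) (XT.lf (nat_lit 0) (nat_lit 21527652410) (nat_lit 76) (nat_lit 8116716473) (nat_lit 152) (nat_lit 2836383149) (nat_lit 12) (nat_lit 5) (nat_lit 13) (nat_lit 5) (nat_lit 14) (nat_lit 4) (nat_lit 278) (nat_lit 243) (nat_lit 199))) (XT.nd (nat_lit 78) (nat_lit 0) (nat_lit 0) (XT.lf (nat_lit 0) (nat_lit 1988486538) (nat_lit 152) (nat_lit 366048505) (nat_lit 228) (nat_lit 32296110079) (nat_lit 9) (nat_lit 5) (nat_lit 11) (nat_lit 5) (nat_lit 12) (nat_lit 5) (nat_lit 279) (nat_lit 243) (nat_lit 198)) (XT.lf (nat_lit 0) (nat_lit 8142426677) (nat_lit 228) (nat_lit 20869317906) (nat_lit 76) (nat_lit 7966086293) (nat_lit 9) (nat_lit 5) (nat_lit 12) (nat_lit 5) (nat_lit 10) (nat_lit 4) (nat_lit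 280) (nat_lit 243) (nat_lit 197)))) (XT.nd (nat_lit 156) (nat_lit 76) (nat_lit 0) (XT.nd (nat_lit 78) (nat_lit 76) (nat_lit 0) (XT.lf (nat_lit 0) (nat_lit 14363267637) (nat_lit 228) (nat_lit 8199712504) (nat_lit 76) (nat_lit 16929789313) (nat_lit 9) (nat_lit 5) (nat_lit 12) (nat_lit 5) (nat_lit 10) (nat_lit 4) (nat_lit 281) (nat_lit 243) (nat_lit 196)) (XT.lf (nat_lit 0) (nat_lit 5606907874) (nat_lit 76) (nat_lit 15528838794) (nat_lit 152) (nat_lit 21070526303) (nat_lit 8) (nat_lit 5) (nat_lit 9) (nat_lit 5) (nat_lit 10) (nat_lit 4) (nat_lit 282) (nat_lit 243) (nat_lit 195))) (XT.nd (nat_lit 78) (nat_lit 76) (nat_lit 0) (XT.lf (nat_lit 0) (nat_lit 20757291553) (nat_lit 76) (nat_lit 7803647531) (nat_lit 152) (nat_lit 16570435258) (nat_lit 8) (nat_lit 5) (nat_lit 9) (nat_lit 5) (nat_lit 10) (nat_lit 4) (nat_lit 283) (nat_lit 243) (nat_lit 194)) (XT.nd (nat_lit 78) (nat_lit 76) (nat_lit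 0) (XT.lf (nat_lit 0) (nat_lit 36558703550) (nat_lit 152) (nat_lit 11230032066) (nat_lit 0) (nat_lit 502879009) (nat_lit 8) (nat_lit 5) (nat_lit 10) (nat_lit 4) (nat_lit 8) (nat_lit 4) (nat_lit 284) (nat_lit 243) (nat_lit 193)) (XT.lf (nat_lit 0) (nat_lit 2879041318) (nat_lit 76) (nat_lit 42466126535) (nat_lit 76) (nat_lit 6352116635) (nat_lit 7) (nat_lit 4) (nat_lit 8) (nat_lit 5) (nat_lit 8) (nat_lit 4) (nat_lit 285) (nat_lit 243) (nat_lit 192))))))) (XT.nd (nat_lit 702) (nat_lit 152) (nat_lit 0) (XT.nd (nat_lit 312) (nat_lit 76) (nat_lit 0) (XT.nd (nat_lit 156) (nat_lit 76) (nat_lit 0) (XT.nd (nat_lit 78) (nat_lit 76) (nat_lit 0) (XT.lf (nat_lit 0) (nat_lit 18472841836) (nat_lit 76) (nat_lit 36531018039) (nat_lit 76) (nat_lit 363132806) (nat_lit 7) (nat_lit 4) (nat_lit 8) (nat_lit 5) (nat_lit 8) (nat_lit 4) (nat_lit 286) (nat_lit 243) (nat_lit 191)) (XT.lf (nat_lit 0) (nat_lit 5884767661)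 (nat_lit 152) (nat_lit 24153996093) (nat_lit 76) (nat_lit 29288032567) (nat_lit 6) (nat_lit 5) (nat_lit 8) (nat_lit 5) (nat_lit 7) (nat_lit 4) (nat_lit 287) (nat_lit 243) (nat_lit 190))) (XT.nd (nat_lit 78) (nat_lit 76) (nat_lit 0) (XT.lf (nat_lit 0) (nat_lit 12596980340) (nat_lit 152) (nat_lit 10440149516) (nat_lit 76) (nat_lit 40567137665) (nat_lit 6) (nat_lit 5) (nat_lit 8) (nat_lit 5) (nat_lit 7) (nat_lit 4) (nat_lit 288) (nat_lit 243) (nat_lit 189)) (XT.lf (nat_lit 0) (nat_lit 4477638026) (nat_lit 76) (nat_lit 15417174274) (nat_lit 152) (nat_lit 48326730009) (nat_lit 5) (nat_lit 5) (nat_lit 6) (nat_lit 5) (nat_lit 7) (nat_lit 4) (nat_lit 289) (nat_lit 243) (nat_lit 188)))) (XT.nd (nat_lit 156) (nat_lit 76) (nat_lit 0) (XT.nd (nat_lit 78) (nat_lit 0) (nat_lit 0) (XT.lf (nat_lit 0) (nat_lit 20926769141) (nat_lit 76) (nat_lit 7011326619) (nat_lit 152) (nat_lit 45262057263) (nat_lit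 5) (nat_lit 5) (nat_lit 6) (nat_lit 5) (nat_lit 7) (nat_lit 4) (nat_lit 290) (nat_lit 243) (nat_lit 187)) (XT.lf (nat_lit 0) (nat_lit 36638164700) (nat_lit 152) (nat_lit 39950559936) (nat_lit 0) (nat_lit 1987694401) (nat_lit 5) (nat_lit 5) (nat_lit 7) (nat_lit 4) (nat_lit 5) (nat_lit 4) (nat_lit 291) (nat_lit 243) (nat_lit 186))) (XT.nd (nat_lit 78) (nat_lit 76) (nat_lit 0) (XT.lf (nat_lit 0) (nat_lit 46134917851) (nat_lit 152) (nat_lit 26790751069) (nat_lit 0) (nat_lit 11452113649) (nat_lit 5) (nat_lit 5) (nat_lit 7) (nat_lit 4) (nat_lit 5) (nat_lit 4) (nat_lit 292) (nat_lit 243) (nat_lit 185)) (XT.nd (nat_lit 78) (nat_lit 76) (nat_lit 0) (XT.lf (nat_lit 0) (nat_lit 56375165811) (nat_lit 152) (nat_lit 12606506770) (nat_lit 0) (nat_lit 21662422809) (nat_lit 5) (nat_lit 5) (nat_lit 7) (nat_lit 4) (nat_lit 5) (nat_lit 4) (nat_lit 293) (nat_lit 243) (nat_lit 184)) (XT.lf (nat_lit 0) (nat_lit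 2775046561) (nat_lit 76) (nat_lit 64687871223) (nat_lit 76) (nat_lit 29947407111) (nat_lit 4) (nat_lit 4) (nat_lit 5) (nat_lit 5) (nat_lit 5) (nat_lit 4) (nat_lit 294) (nat_lit 243) (nat_lit 183)))))) (XT.nd (nat_lit 312) (nat_lit 152) (nat_lit 0) (XT.nd (nat_lit 156) (nat_lit 0) (nat_lit 0) (XT.nd (nat_lit 78) (nat_lit 0) (nat_lit 0) (XT.lf (nat_lit 0) (nat_lit 19812189881) (nat_lit 76) (nat_lit 59830777384) (nat_lit 76) (nat_lit 25064645577) (nat_lit 4) (nat_lit 4) (nat_lit 5) (nat_lit 5) (nat_lit 5) (nat_lit 4) (nat_lit 295) (nat_lit 243) (nat_lit 182)) (XT.lf (nat_lit 0) (nat_lit 38189055994) (nat_lit 76) (nat_lit 54595105578) (nat_lit 76) (nat_lit 19805207387) (nat_lit 4) (nat_lit 4) (nat_lit 5) (nat_lit 5) (nat_lit 5) (nat_lit 4) (nat_lit 296) (nat_lit 243) (nat_lit 181))) (XT.nd (nat_lit 78) (nat_lit 0) (nat_lit 0) (XT.lf (nat_lit 0) (nat_lit 58014544846) (nat_lit 76) (nat_lit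 48949829601) (nat_lit 76) (nat_lit 14137925499) (nat_lit 4) (nat_lit 4) (nat_lit 5) (nat_lit 5) (nat_lit 5) (nat_lit 4) (nat_lit 297) (nat_lit 243) (nat_lit 180)) (XT.lf (nat_lit 0) (nat_lit 79406140816) (nat_lit 76) (nat_lit 42861495967) (nat_lit 76) (nat_lit 8029216021) (nat_lit 4) (nat_lit 4) (nat_lit 5) (nat_lit 5) (nat_lit 5) (nat_lit 4) (nat_lit 298) (nat_lit 243) (nat_lit 179)))) (XT.nd (nat_lit 156) (nat_lit 76) (nat_lit 0) (XT.nd (nat_lit 78) (nat_lit 76) (nat_lit 0) (XT.lf (nat_lit 0) (nat_lit 102490608917) (nat_lit 76) (nat_lit 36294025661) (nat_lit 76) (nat_lit 1442879193) (nat_lit 4) (nat_lit 4) (nat_lit 5) (nat_lit 5) (nat_lit 5) (nat_lit 4) (nat_lit 299) (nat_lit 243) (nat_lit 178)) (XT.lf (nat_lit 0) (nat_lit 5478956096) (nat_lit 152) (nat_lit 23636755471) (nat_lit 76) (nat_lit 121833001127) (nat_lit 3) (nat_lit 5) (nat_lit 5) (nat_lit 5) (nat_lit 4) (nat_lit 4) (nat_lit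 300) (nat_lit 243) (nat_lit 177))) (XT.nd (nat_lit 78) (nat_lit 76) (nat_lit 0) (XT.lf (nat_lit 0) (nat_lit 12895476086) (nat_lit 152) (nat_lit 8449064493) (nat_lit 76) (nat_lit 141182324172) (nat_lit 3) (nat_lit 5) (nat_lit 5) (nat_lit 5) (nat_lit 4) (nat_lit 4) (nat_lit 301) (nat_lit 243) (nat_lit 176)) (XT.nd (nat_lit 78) (nat_lit 0) (nat_lit 0) (XT.lf (nat_lit 0) (nat_lit 8201185759) (nat_lit 76) (nat_lit 12823669403) (nat_lit 152) (nat_lit 154000450245) (nat_lit 2) (nat_lit 5) (nat_lit 3) (nat_lit 5) (nat_lit 4) (nat_lit 4) (nat_lit 302) (nat_lit 243) (nat_lit 175)) (XT.lf (nat_lit 0) (nat_lit 26470873734) (nat_lit 76) (nat_lit 3472788956) (nat_lit 152) (nat_lit 158573017043) (nat_lit 2) (nat_lit 5) (nat_lit 3) (nat_lit 5) (nat_lit 4) (nat_lit 4) (nat_lit 303) (nat_lit 243) (nat_lit 174))))))))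
noncomputable def xc57 : XT := (XT.nd (nat_lit 1404) (nat_lit 0) (nat_lit 0) (XT.nd (nat_lit 702) (nat_lit 76) (nat_lit 0) (XT.nd (nat_lit 312) (nat_lit 0) (nat_lit 0) (XT.nd (nat_lit 156) (nat_lit 0) (nat_lit 0) (XT.nd (nat_lit 78) (nat_lit 0) (nat_lit 0) (XT.lf (nat_lit 0) (nat_lit 39671839008) (nat_lit 152) (nat_lit 157002213734) (nat_lit 0) (nat_lit 6408529465) (nat_lit 2) (nat_lit 5) (nat_lit 4) (nat_lit 4) (nat_lit 2) (nat_lit 4) (nat_lit 304) (nat_lit 243) (nat_lit 173)) (XT.lf (nat_lit 0) (nat_lit 50229800356) (nat_lit 152) (nat_lit 151626222688) (nat_lit 0) (nat_lit 16955167853) (nat_lit 2) (nat_lit 5) (nat_lit 4) (nat_lit 4) (nat_lit 2) (nat_lit 4) (nat_lit 305) (nat_lit 243) (nat_lit 172))) (XT.nd (nat_lit 78) (nat_lit 0) (nat_lit 0) (XT.lf (nat_lit 0) (nat_lit 61625892465) (nat_lit 152) (nat_lit 145831755170) (nat_lit 0) (nat_lit 28340775738) (nat_lit 2) (nat_lit 5) (nat_lit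 4) (nat_lit 4) (nat_lit 2) (nat_lit 4) (nat_lit 306) (nat_lit 243) (nat_lit 171)) (XT.lf (nat_lit 0) (nat_lit 73927647731) (nat_lit 152) (nat_lit 139584473593) (nat_lit 0) (nat_lit 40632823390) (nat_lit 2) (nat_lit 5) (nat_lit 4) (nat_lit 4) (nat_lit 2) (nat_lit 4) (nat_lit 307) (nat_lit 243) (nat_lit 170)))) (XT.nd (nat_lit 156) (nat_lit 0) (nat_lit 0) (XT.nd (nat_lit 78) (nat_lit 0) (nat_lit 0) (XT.lf (nat_lit 0) (nat_lit 87207965446) (nat_lit 152) (nat_lit 132847357030) (nat_lit 0) (nat_lit 53904152574) (nat_lit 2) (nat_lit 5) (nat_lit 4) (nat_lit 4) (nat_lit 2) (nat_lit 4) (nat_lit 308) (nat_lit 243) (nat_lit 169)) (XT.lf (nat_lit 0) (nat_lit 101545543788) (nat_lit 152) (nat_lit 125580481827) (nat_lit 0) (nat_lit 68233408201) (nat_lit 2) (nat_lit 5) (nat_lit 4) (nat_lit 4) (nat_lit 2) (nat_lit 4) (nat_lit 309) (nat_lit 243) (nat_lit 168))) (XT.nd (nat_lit 78) (nat_lit 0) (nat_lit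 0) (XT.lf (nat_lit 0) (nat_lit 117025346185) (nat_lit 152) (nat_lit 117740785020) (nat_lit 0) (nat_lit 83705504381) (nat_lit 2) (nat_lit 5) (nat_lit 4) (nat_lit 4) (nat_lit 2) (nat_lit 4) (nat_lit 310) (nat_lit 243) (nat_lit 167)) (XT.nd (nat_lit 78) (nat_lit 0) (nat_lit 0) (XT.lf (nat_lit 0) (nat_lit 133739104798) (nat_lit 152) (nat_lit 109281809147) (nat_lit 0) (nat_lit 100412127608) (nat_lit 2) (nat_lit 5) (nat_lit 4) (nat_lit 4) (nat_lit 2) (nat_lit 4) (nat_lit 311) (nat_lit 243) (nat_lit 166)) (XT.lf (nat_lit 0) (nat_lit 151785864124) (nat_lit 152) (nat_lit 100153426943) (nat_lit 0) (nat_lit 118452280095) (nat_lit 2) (nat_lit 5) (nat_lit 4) (nat_lit 4) (nat_lit 2) (nat_lit 4) (nat_lit 312) (nat_lit 243) (nat_lit 165)))))) (XT.nd (nat_lit 312) (nat_lit 76) (nat_lit 0) (XT.nd (nat_lit 156) (nat_lit 0) (nat_lit 0) (XT.nd (nat_lit 78) (nat_lit 0) (nat_lit 0) (XT.lf (nat_lit 0) (nat_lit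 171272567922) (nat_lit 152) (nat_lit 90301544291) (nat_lit 0) (nat_lit 137932866449) (nat_lit 2) (nat_lit 5) (nat_lit 4) (nat_lit 4) (nat_lit 2) (nat_lit 4) (nat_lit 313) (nat_lit 243) (nat_lit 164)) (XT.lf (nat_lit 0) (nat_lit 192314692954) (nat_lit 152) (nat_lit 79667779665) (nat_lit 0) (nat_lit 158969327182) (nat_lit 2) (nat_lit 5) (nat_lit 4) (nat_lit 4) (nat_lit 2) (nat_lit 4) (nat_lit 314) (nat_lit 243) (nat_lit 163))) (XT.nd (nat_lit 78) (nat_lit 0) (nat_lit 0) (XT.lf (nat_lit 0) (nat_lit 215036933294) (nat_lit 152) (nat_lit 68189118162) (nat_lit 0) (nat_lit 181686322801) (nat_lit 2) (nat_lit 5) (nat_lit 4) (nat_lit 4) (nat_lit 2) (nat_lit 4) (nat_lit 315) (nat_lit 243) (nat_lit 162)) (XT.lf (nat_lit 0) (nat_lit 239573939257) (nat_lit 152) (nat_lit 55797538086) (nat_lit 0) (nat_lit 206218472540) (nat_lit 2) (nat_lit 5) (nat_lit 4) (nat_lit 4) (nat_lit 2) (nat_lit 4) (nat_lit 316)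 (nat_lit 243) (nat_lit 161)))) (XT.nd (nat_lit 156) (nat_lit 76) (nat_lit 0) (XT.nd (nat_lit 78) (nat_lit 0) (nat_lit 0) (XT.lf (nat_lit 0) (nat_lit 266071115322) (nat_lit 152) (nat_lit 42419607850) (nat_lit 0) (nat_lit 232711152101) (nat_lit 2) (nat_lit 5) (nat_lit 4) (nat_lit 4) (nat_lit 2) (nat_lit 4) (nat_lit 317) (nat_lit 243) (nat_lit 160)) (XT.lf (nat_lit 0) (nat_lit 294685481791) (nat_lit 152) (nat_lit 27976050831) (nat_lit 0) (nat_lit 261321355141) (nat_lit 2) (nat_lit 5) (nat_lit 4) (nat_lit 4) (nat_lit 2) (nat_lit 4) (nat_lit 318) (nat_lit 243) (nat_lit 159))) (XT.nd (nat_lit 78) (nat_lit 76) (nat_lit 0) (XT.lf (nat_lit 0) (nat_lit 325586605281) (nat_lit 152) (nat_lit 12381275581) (nat_lit 0) (nat_lit 292218623603) (nat_lit 2) (nat_lit 5) (nat_lit 4) (nat_lit 4) (nat_lit 2) (nat_lit 4) (nat_lit 319) (nat_lit 243) (nat_lit 158)) (XT.nd (nat_lit 78) (nat_lit 0) (nat_lit 0) (XT.lf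 (nat_lit 0) (nat_lit 4604504277) (nat_lit 76) (nat_lit 354424988498) (nat_lit 76) (nat_lit 321053437351) (nat_lit 1) (nat_lit 4) (nat_lit 2) (nat_lit 5) (nat_lit 2) (nat_lit 4) (nat_lit 320) (nat_lit 243) (nat_lit 157)) (XT.lf (nat_lit 0) (nat_lit 23387499252) (nat_lit 76) (nat_lit 371973875847) (nat_lit 76) (nat_lit 338599019635) (nat_lit 1) (nat_lit 4) (nat_lit 2) (nat_lit 5) (nat_lit 2) (nat_lit 4) (nat_lit 321) (nat_lit 243) (nat_lit 156))))))) (XT.nd (nat_lit 32058) (nat_lit 0) (nat_lit 2660) (XT.nd (nat_lit 31668) (nat_lit 0) (nat_lit 5548) (XT.nd (nat_lit 31512) (nat_lit 0) (nat_lit 6916) (XT.nd (nat_lit 31434) (nat_lit 0) (nat_lit 6916) (XT.lf (nat_lit 0) (nat_lit 43669635093) (nat_lit 76) (nat_lit 390928219207) (nat_lit 76) (nat_lit 357550302750) (nat_lit 1) (nat_lit 4) (nat_lit 2) (nat_lit 5) (nat_lit 2) (nat_lit 4) (nat_lit 322) (nat_lit 243) (nat_lit 155)) (XT.lf (nat_lit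 0) (nat_lit 379505430) (nat_lit 0) (nat_lit 379505430) (nat_lit 380) (nat_lit 2704147891) (nat_lit 92) (nat_lit 5) (nat_lit 92) (nat_lit 3) (nat_lit 97) (nat_lit 3) (nat_lit 244) (nat_lit 244) (nat_lit 232))) (XT.nd (nat_lit 78) (nat_lit 0) (nat_lit 0) (XT.lf (nat_lit 0) (nat_lit 4210914820) (nat_lit 380) (nat_lit 1509863443) (nat_lit 456) (nat_lit 1335303832) (nat_lit 92) (nat_lit 5) (nat_lit 97) (nat_lit 3) (nat_lit 98) (nat_lit 5) (nat_lit 245) (nat_lit 244) (nat_lit 231)) (XT.lf (nat_lit 76) (nat_lit 3471215843) (nat_lit 0) (nat_lit 3455867110) (nat_lit 456) (nat_lit 280321429) (nat_lit 93) (nat_lit 5) (nat_lit 92) (nat_lit 5) (nat_lit 98) (nat_lit 5) (nat_lit 246) (nat_lit 244) (nat_lit 230)))) (XT.nd (nat_lit 156) (nat_lit 912) (nat_lit 0) (XT.nd (nat_lit 78) (nat_lit 0) (nat_lit 76) (XT.lf (nat_lit 76) (nat_lit 1389935277) (nat_lit 0) (nat_lit 820994456) (nat_lit 532) (nat_lit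 5169297286) (nat_lit 87) (nat_lit 5) (nat_lit 86) (nat_lit 5) (nat_lit 93) (nat_lit 5) (nat_lit 247) (nat_lit 244) (nat_lit 229)) (XT.lf (nat_lit 0) (nat_lit 4759477807) (nat_lit 456) (nat_lit 699570503) (nat_lit 532) (nat_lit 2115487355) (nat_lit 87) (nat_lit 5) (nat_lit 93) (nat_lit 5) (nat_lit 94) (nat_lit 5) (nat_lit 248) (nat_lit 244) (nat_lit 228))) (XT.nd (nat_lit 78) (nat_lit 988) (nat_lit 0) (XT.lf (nat_lit 76) (nat_lit 5014665744) (nat_lit 0) (nat_lit 2376349846) (nat_lit 532) (nat_lit 400604110) (nat_lit 88) (nat_lit 5) (nat_lit 87) (nat_lit 5) (nat_lit 94) (nat_lit 5) (nat_lit 249) (nat_lit 244) (nat_lit 227)) (XT.nd (nat_lit 78) (nat_lit 532) (nat_lit 0) (XT.lf (nat_lit 0) (nat_lit 2010735186) (nat_lit 532) (nat_lit 4947476214) (nat_lit 76) (nat_lit 1073463663) (nat_lit 81) (nat_lit 5) (nat_lit 88) (nat_lit 5) (nat_lit 82) (nat_lit 5) (nat_lit 250) (nat_lit 244) (nat_lit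 226)) (XT.lf (nat_lit 0) (nat_lit 1058470039) (nat_lit 532) (nat_lit 3458314707) (nat_lit 608) (nat_lit 3778998203) (nat_lit 74) (nat_lit 5) (nat_lit 81) (nat_lit 5) (nat_lit 82) (nat_lit 5) (nat_lit 251) (nat_lit 244) (nat_lit 225)))))) (XT.nd (nat_lit 390) (nat_lit 1216) (nat_lit 0) (XT.nd (nat_lit 156) (nat_lit 988) (nat_lit 0) (XT.nd (nat_lit 78) (nat_lit 684) (nat_lit 0) (XT.lf (nat_lit 0) (nat_lit 7138129024) (nat_lit 608) (nat_lit 1017941362) (nat_lit 76) (nat_lit 430105187) (nat_lit 74) (nat_lit 5) (nat_lit 82) (nat_lit 5) (nat_lit 75) (nat_lit 5) (nat_lit 252) (nat_lit 244) (nat_lit 224)) (XT.lf (nat_lit 0) (nat_lit 1016383883) (nat_lit 684) (nat_lit 3240301622) (nat_lit 76) (nat_lit 4644008514) (nat_lit 65) (nat_lit 5) (nat_lit 74) (nat_lit 5) (nat_lit 66) (nat_lit 5) (nat_lit 253) (nat_lit 244) (nat_lit 223))) (XT.nd (nat_lit 78) (nat_lit 304) (nat_lit 0) (XT.lf (nat_lit 0)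 (nat_lit 3545643719) (nat_lit 760) (nat_lit 5628720621) (nat_lit 76) (nat_lit 69634424) (nat_lit 56) (nat_lit 5) (nat_lit 66) (nat_lit 5) (nat_lit 57) (nat_lit 5) (nat_lit 254) (nat_lit 244) (nat_lit 222)) (XT.nd (nat_lit 78) (nat_lit 0) (nat_lit 0) (XT.lf (nat_lit 0) (nat_lit 1347065464) (nat_lit 304) (nat_lit 4932172182) (nat_lit 380) (nat_lit 3336108469) (nat_lit 52) (nat_lit 5) (nat_lit 56) (nat_lit 5) (nat_lit 57) (nat_lit 5) (nat_lit 255) (nat_lit 244) (nat_lit 221)) (XT.lf (nat_lit 0) (nat_lit 8941860375) (nat_lit 304) (nat_lit 248314345) (nat_lit 380) (nat_lit 828921428) (nat_lit 52) (nat_lit 5) (nat_lit 56) (nat_lit 5) (nat_lit 57) (nat_lit 5) (nat_lit 256) (nat_lit 244) (nat_lit 220))))) (XT.nd (nat_lit 156) (nat_lit 608) (nat_lit 0) (XT.nd (nat_lit 78) (nat_lit 228) (nat_lit 0) (XT.lf (nat_lit 0) (nat_lit 1869467868) (nat_lit 380) (nat_lit 3791900222) (nat_lit 76) (nat_lit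 4790326806) (nat_lit 47) (nat_lit 5) (nat_lit 52) (nat_lit 5) (nat_lit 48) (nat_lit 5) (nat_lit 257) (nat_lit 244) (nat_lit 219)) (XT.lf (nat_lit 0) (nat_lit 4114119368) (nat_lit 228) (nat_lit 604377006) (nat_lit 304) (nat_lit 6202047759) (nat_lit 44) (nat_lit 5) (nat_lit 47) (nat_lit 5) (nat_lit 48) (nat_lit 5) (nat_lit 258) (nat_lit 244) (nat_lit 218))) (XT.nd (nat_lit 78) (nat_lit 304) (nat_lit 0) (XT.lf (nat_lit 0) (nat_lit 1189981247) (nat_lit 304) (nat_lit 6649915142) (nat_lit 380) (nat_lit 3585257000) (nat_lit 40) (nat_lit 5) (nat_lit 44) (nat_lit 5) (nat_lit 45) (nat_lit 5) (nat_lit 259) (nat_lit 244) (nat_lit 217)) (XT.nd (nat_lit 78) (nat_lit 304) (nat_lit 0) (XT.lf (nat_lit 0) (nat_lit 9928902870) (nat_lit 304) (nat_lit 1300245158) (nat_lit 380) (nat_lit 740515768) (nat_lit 40) (nat_lit 5) (nat_lit 44) (nat_lit 5) (nat_lit 45) (nat_lit 5) (nat_lit 260) (nat_lit 244) (nat_lit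 216)) (XT.lf (nat_lit 0) (nat_lit 2332025957) (nat_lit 304) (nat_lit 5759424991) (nat_lit 76) (nat_lit 4461108582) (nat_lit 36) (nat_lit 5) (nat_lit 40) (nat_lit 5) (nat_lit 37) (nat_lit 5) (nat_lit 261) (nat_lit 244) (nat_lit 215))))))))
noncomputable def xc58 : XT := (XT.nd (nat_lit 1404) (nat_lit 608) (nat_lit 0) (XT.nd (nat_lit 702) (nat_lit 532) (nat_lit 0) (XT.nd (nat_lit 312) (nat_lit 532) (nat_lit 0) (XT.nd (nat_lit 156) (nat_lit 532) (nat_lit 0) (XT.nd (nat_lit 78) (nat_lit 0) (nat_lit 0) (XT.lf (nat_lit 0) (nat_lit 3169214415) (nat_lit 228) (nat_lit 2464320249) (nat_lit 304) (nat_lit 7547848662) (nat_lit 33) (nat_lit 5) (nat_lit 36) (nat_lit 5) (nat_lit 37) (nat_lit 5) (nat_lit 262) (nat_lit 244) (nat_lit 214)) (XT.lf (nat_lit 0) (nat_lit 9263851161) (nat_lit 304) (nat_lit 1018512195) (nat_lit 76) (nat_lit 3575247506) (nat_lit 33) (nat_lit 5) (nat_lit 37) (nat_lit 5) (nat_lit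 34) (nat_lit 5) (nat_lit 263) (nat_lit 244) (nat_lit 213))) (XT.nd (nat_lit 78) (nat_lit 304) (nat_lit 0) (XT.lf (nat_lit 0) (nat_lit 8821755583) (nat_lit 228) (nat_lit 4455370987) (nat_lit 304) (nat_lit 1306490940) (nat_lit 30) (nat_lit 5) (nat_lit 33) (nat_lit 5) (nat_lit 34) (nat_lit 5) (nat_lit 264) (nat_lit 244) (nat_lit 212)) (XT.lf (nat_lit 0) (nat_lit 2200567410) (nat_lit 304) (nat_lit 11293453938) (nat_lit 76) (nat_lit 1870771893) (nat_lit 26) (nat_lit 5) (nat_lit 30) (nat_lit 5) (nat_lit 27) (nat_lit 5) (nat_lit 265) (nat_lit 244) (nat_lit 211)))) (XT.nd (nat_lit 156) (nat_lit 380) (nat_lit 0) (XT.nd (nat_lit 78) (nat_lit 152) (nat_lit 0) (XT.lf (nat_lit 0) (nat_lit 6040617061) (nat_lit 304) (nat_lit 1515986246) (nat_lit 76) (nat_lit 8646129991) (nat_lit 26) (nat_lit 5) (nat_lit 30) (nat_lit 5) (nat_lit 27) (nat_lit 5) (nat_lit 266) (nat_lit 244) (nat_lit 210)) (XT.lf (nat_lit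 0) (nat_lit 9236822666) (nat_lit 152) (nat_lit 1021602174) (nat_lit 228) (nat_lit 6845988556) (nat_lit 24) (nat_lit 5) (nat_lit 26) (nat_lit 5) (nat_lit 27) (nat_lit 5) (nat_lit 267) (nat_lit 244) (nat_lit 209))) (XT.nd (nat_lit 78) (nat_lit 228) (nat_lit 0) (XT.lf (nat_lit 0) (nat_lit 2718107601) (nat_lit 152) (nat_lit 12188894401) (nat_lit 228) (nat_lit 3166773983) (nat_lit 22) (nat_lit 5) (nat_lit 24) (nat_lit 5) (nat_lit 25) (nat_lit 5) (nat_lit 268) (nat_lit 244) (nat_lit 208)) (XT.nd (nat_lit 78) (nat_lit 152) (nat_lit 0) (XT.lf (nat_lit 0) (nat_lit 869704389) (nat_lit 228) (nat_lit 4813619589) (nat_lit 76) (nat_lit 13432486245) (nat_lit 21) (nat_lit 5) (nat_lit 24) (nat_lit 5) (nat_lit 22) (nat_lit 5) (nat_lit 269) (nat_lit 244) (nat_lit 207)) (XT.lf (nat_lit 0) (nat_lit 5183617242) (nat_lit 228) (nat_lit 13620836570) (nat_lit 76) (nat_lit 1431060257) (nat_lit 19) (nat_lit 5) (nat_lit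 22) (nat_lit 5) (nat_lit 20) (nat_lit 5) (nat_lit 270) (nat_lit 244) (nat_lit 206)))))) (XT.nd (nat_lit 312) (nat_lit 228) (nat_lit 0) (XT.nd (nat_lit 156) (nat_lit 152) (nat_lit 0) (XT.nd (nat_lit 78) (nat_lit 152) (nat_lit 0) (XT.lf (nat_lit 0) (nat_lit 9963776663) (nat_lit 228) (nat_lit 2499340296) (nat_lit 76) (nat_lit 8975783374) (nat_lit 19) (nat_lit 5) (nat_lit 22) (nat_lit 5) (nat_lit 20) (nat_lit 5) (nat_lit 271) (nat_lit 244) (nat_lit 205)) (XT.lf (nat_lit 0) (nat_lit 9739657466) (nat_lit 152) (nat_lit 5483270991) (nat_lit 228) (nat_lit 7510950790) (nat_lit 17) (nat_lit 5) (nat_lit 19) (nat_lit 5) (nat_lit 20) (nat_lit 5) (nat_lit 272) (nat_lit 244) (nat_lit 204))) (XT.nd (nat_lit 78) (nat_lit 152) (nat_lit 0) (XT.lf (nat_lit 0) (nat_lit 20926087169) (nat_lit 228) (nat_lit 1198690084) (nat_lit 76) (nat_lit 2006655046) (nat_lit 17) (nat_lit 5) (nat_lit 20) (nat_lit 5) (nat_lit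 18) (nat_lit 4) (nat_lit 273) (nat_lit 244) (nat_lit 203)) (XT.lf (nat_lit 0) (nat_lit 1628801400) (nat_lit 152) (nat_lit 13908350494) (nat_lit 76) (nat_lit 10091116370) (nat_lit 15) (nat_lit 5) (nat_lit 17) (nat_lit 5) (nat_lit 16) (nat_lit 5) (nat_lit 274) (nat_lit 244) (nat_lit 202)))) (XT.nd (nat_lit 156) (nat_lit 76) (nat_lit 0) (XT.nd (nat_lit 78) (nat_lit 152) (nat_lit 0) (XT.lf (nat_lit 0) (nat_lit 6712590962) (nat_lit 152) (nat_lit 1658255185) (nat_lit 76) (nat_lit 18872731034) (nat_lit 15) (nat_lit 5) (nat_lit 17) (nat_lit 5) (nat_lit 16) (nat_lit 5) (nat_lit 275) (nat_lit 244) (nat_lit 201)) (XT.lf (nat_lit 0) (nat_lit 11882842441) (nat_lit 152) (nat_lit 461772151) (nat_lit 228) (nat_lit 16636525189) (nat_lit 13) (nat_lit 5) (nat_lit 15) (nat_lit 5) (nat_lit 16) (nat_lit 5) (nat_lit 276) (nat_lit 244) (nat_lit 200))) (XT.nd (nat_lit 78) (nat_lit 76) (nat_lit 0) (XT.lf (nat_lit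 0) (nat_lit 18540557822) (nat_lit 228) (nat_lit 4484565296) (nat_lit 76) (nat_lit 7827014084) (nat_lit 13) (nat_lit 5) (nat_lit 16) (nat_lit 5) (nat_lit 14) (nat_lit 4) (nat_lit 277) (nat_lit 244) (nat_lit 199)) (XT.nd (nat_lit 78) (nat_lit 0) (nat_lit 0) (XT.lf (nat_lit 0) (nat_lit 9367213875) (nat_lit 76) (nat_lit 15979966456) (nat_lit 152) (nat_lit 7519974358) (nat_lit 12) (nat_lit 5) (nat_lit 13) (nat_lit 5) (nat_lit 14) (nat_lit 4) (nat_lit 278) (nat_lit 244) (nat_lit 198)) (XT.lf (nat_lit 0) (nat_lit 24426944442) (nat_lit 76) (nat_lit 8312424679) (nat_lit 152) (nat_lit 2302036390) (nat_lit 12) (nat_lit 5) (nat_lit 13) (nat_lit 5) (nat_lit 14) (nat_lit 4) (nat_lit 279) (nat_lit 244) (nat_lit 197))))))) (XT.nd (nat_lit 702) (nat_lit 152) (nat_lit 0) (XT.nd (nat_lit 312) (nat_lit 152) (nat_lit 0) (XT.nd (nat_lit 156) (nat_lit 76) (nat_lit 0) (XT.nd (nat_lit 78) (nat_lit 0) (nat_lit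 0) (XT.lf (nat_lit 0) (nat_lit 3244032095) (nat_lit 228) (nat_lit 34088816824) (nat_lit 76) (nat_lit 53350053) (nat_lit 9) (nat_lit 5) (nat_lit 12) (nat_lit 5) (nat_lit 10) (nat_lit 4) (nat_lit 280) (nat_lit 244) (nat_lit 196)) (XT.lf (nat_lit 0) (nat_lit 9448734233) (nat_lit 228) (nat_lit 21446139077) (nat_lit 76) (nat_lit 9007104062) (nat_lit 9) (nat_lit 5) (nat_lit 12) (nat_lit 5) (nat_lit 10) (nat_lit 4) (nat_lit 281) (nat_lit 244) (nat_lit 195))) (XT.nd (nat_lit 78) (nat_lit 76) (nat_lit 0) (XT.lf (nat_lit 0) (nat_lit 16118730364) (nat_lit 228) (nat_lit 7843907781) (nat_lit 76) (nat_lit 18657997334) (nat_lit 9) (nat_lit 5) (nat_lit 12) (nat_lit 5) (nat_lit 10) (nat_lit 4) (nat_lit 282) (nat_lit 244) (nat_lit 194)) (XT.lf (nat_lit 0) (nat_lit 7023271426) (nat_lit 76) (nat_lit 16379927916) (nat_lit 152) (nat_lit 22149601870) (nat_lit 8) (nat_lit 5) (nat_lit 9) (nat_lit 5) (nat_lit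 10) (nat_lit 4) (nat_lit 283) (nat_lit 244) (nat_lit 193)))) (XT.nd (nat_lit 156) (nat_lit 152) (nat_lit 0) (XT.nd (nat_lit 78) (nat_lit 0) (nat_lit 0) (XT.lf (nat_lit 0) (nat_lit 23313996102) (nat_lit 76) (nat_lit 8065700461) (nat_lit 152) (nat_lit 17334434395) (nat_lit 8) (nat_lit 5) (nat_lit 9) (nat_lit 5) (nat_lit 10) (nat_lit 4) (nat_lit 284) (nat_lit 244) (nat_lit 192)) (XT.lf (nat_lit 0) (nat_lit 39982971978) (nat_lit 152) (nat_lit 11278231862) (nat_lit 0) (nat_lit 867780594) (nat_lit 8) (nat_lit 5) (nat_lit 10) (nat_lit 4) (nat_lit 8) (nat_lit 4) (nat_lit 285) (nat_lit 244) (nat_lit 191))) (XT.nd (nat_lit 78) (nat_lit 76) (nat_lit 0) (XT.lf (nat_lit 0) (nat_lit 3922618617) (nat_lit 76) (nat_lit 45525426639) (nat_lit 76) (nat_lit 6360350688) (nat_lit 7) (nat_lit 4) (nat_lit 8) (nat_lit 5) (nat_lit 8) (nat_lit 4) (nat_lit 286) (nat_lit 244) (nat_lit 190)) (XT.nd (nat_lit 78) (nat_lit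 0) (nat_lit 0) (XT.lf (nat_lit 0) (nat_lit 68456134) (nat_lit 152) (nat_lit 39070930289) (nat_lit 76) (nat_lit 20634066667) (nat_lit 6) (nat_lit 5) (nat_lit 8) (nat_lit 5) (nat_lit 7) (nat_lit 4) (nat_lit 287) (nat_lit 244) (nat_lit 189)) (XT.lf (nat_lit 0) (nat_lit 6770444673) (nat_lit 152) (nat_lit 25374621760) (nat_lit 76) (nat_lit 31906387335) (nat_lit 6) (nat_lit 5) (nat_lit 8) (nat_lit 5) (nat_lit 7) (nat_lit 4) (nat_lit 288) (nat_lit 244) (nat_lit 188)))))) (XT.nd (nat_lit 312) (nat_lit 76) (nat_lit 0) (XT.nd (nat_lit 156) (nat_lit 0) (nat_lit 0) (XT.nd (nat_lit 78) (nat_lit 76) (nat_lit 0) (XT.lf (nat_lit 0) (nat_lit 13988901359) (nat_lit 152) (nat_lit 10616385532) (nat_lit 76) (nat_lit 44067427347) (nat_lit 6) (nat_lit 5) (nat_lit 8) (nat_lit 5) (nat_lit 7) (nat_lit 4) (nat_lit 289) (nat_lit 244) (nat_lit 187)) (XT.lf (nat_lit 0) (nat_lit 5466186721) (nat_lit 76) (nat_lit 16385758003)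 (nat_lit 152) (nat_lit 51808407898) (nat_lit 5) (nat_lit 5) (nat_lit 6) (nat_lit 5) (nat_lit 7) (nat_lit 4) (nat_lit 290) (nat_lit 244) (nat_lit 186))) (XT.nd (nat_lit 78) (nat_lit 0) (nat_lit 0) (XT.lf (nat_lit 0) (nat_lit 23184556647) (nat_lit 76) (nat_lit 7327056626) (nat_lit 152) (nat_lit 48527039889) (nat_lit 5) (nat_lit 5) (nat_lit 6) (nat_lit 5) (nat_lit 7) (nat_lit 4) (nat_lit 291) (nat_lit 244) (nat_lit 185)) (XT.lf (nat_lit 0) (nat_lit 39886160227) (nat_lit 152) (nat_lit 42593521220) (nat_lit 0) (nat_lit 2366458986) (nat_lit 5) (nat_lit 5) (nat_lit 7) (nat_lit 4) (nat_lit 5) (nat_lit 4) (nat_lit 292) (nat_lit 244) (nat_lit 184)))) (XT.nd (nat_lit 156) (nat_lit 76) (nat_lit 0) (XT.nd (nat_lit 78) (nat_lit 0) (nat_lit 0) (XT.lf (nat_lit 0) (nat_lit 50119176419) (nat_lit 152) (nat_lit 28421896793) (nat_lit 0) (nat_lit 12571754068) (nat_lit 5) (nat_lit 5) (nat_lit 7) (nat_lit 4)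 (nat_lit 5) (nat_lit 4) (nat_lit 293) (nat_lit 244) (nat_lit 183)) (XT.lf (nat_lit 0) (nat_lit 61156906057) (nat_lit 152) (nat_lit 13140847347) (nat_lit 0) (nat_lit 23583816011) (nat_lit 5) (nat_lit 5) (nat_lit 7) (nat_lit 4) (nat_lit 5) (nat_lit 4) (nat_lit 294) (nat_lit 244) (nat_lit 182))) (XT.nd (nat_lit 78) (nat_lit 0) (nat_lit 0) (XT.lf (nat_lit 0) (nat_lit 3450622967) (nat_lit 76) (nat_lit 69668008837) (nat_lit 76) (nat_lit 32071152407) (nat_lit 4) (nat_lit 4) (nat_lit 5) (nat_lit 5) (nat_lit 5) (nat_lit 4) (nat_lit 295) (nat_lit 244) (nat_lit 181)) (XT.nd (nat_lit 78) (nat_lit 0) (nat_lit 0) (XT.lf (nat_lit 0) (nat_lit 21817139777) (nat_lit 76) (nat_lit 64436783942) (nat_lit 76) (nat_lit 26817921600) (nat_lit 4) (nat_lit 4) (nat_lit 5) (nat_lit 5) (nat_lit 5) (nat_lit 4) (nat_lit 296) (nat_lit 244) (nat_lit 180)) (XT.lf (nat_lit 0) (nat_lit 41633045941) (nat_lit 76) (nat_lit 58795625475)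 (nat_lit 76) (nat_lit 21156387290) (nat_lit 4) (nat_lit 4) (nat_lit 5) (nat_lit 5) (nat_lit 5) (nat_lit 4) (nat_lit 297) (nat_lit 244) (nat_lit 179))))))))
noncomputable def xc59 : XT := (XT.nd (nat_lit 1404) (nat_lit 76) (nat_lit 0) (XT.nd (nat_lit 702) (nat_lit 0) (nat_lit 0) (XT.nd (nat_lit 312) (nat_lit 76) (nat_lit 0) (XT.nd (nat_lit 156) (nat_lit 76) (nat_lit 0) (XT.nd (nat_lit 78) (nat_lit 0) (nat_lit 0) (XT.lf (nat_lit 0) (nat_lit 63015769052) (nat_lit 76) (nat_lit 52711104350) (nat_lit 76) (nat_lit 15052999642) (nat_lit 4) (nat_lit 4) (nat_lit 5) (nat_lit 5) (nat_lit 5) (nat_lit 4) (nat_lit 298) (nat_lit 244) (nat_lit 178)) (XT.lf (nat_lit 0) (nat_lit 86092021542) (nat_lit 76) (nat_lit 46147164145) (nat_lit 76) (nat_lit 8471590436) (nat_lit 4) (nat_lit 4) (nat_lit 5) (nat_lit 5) (nat_lit 5) (nat_lit 4) (nat_lit 299) (nat_lit 244) (nat_lit 177))) (XT.nd (nat_lit 78) (nat_lit 76)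 (nat_lit 0) (XT.lf (nat_lit 0) (nat_lit 110998551575) (nat_lit 76) (nat_lit 39064907436) (nat_lit 76) (nat_lit 1373158725) (nat_lit 4) (nat_lit 4) (nat_lit 5) (nat_lit 5) (nat_lit 5) (nat_lit 4) (nat_lit 300) (nat_lit 244) (nat_lit 176)) (XT.lf (nat_lit 0) (nat_lit 6083221492) (nat_lit 152) (nat_lit 25236121504) (nat_lit 76) (nat_lit 131696709611) (nat_lit 3) (nat_lit 5) (nat_lit 5) (nat_lit 5) (nat_lit 4) (nat_lit 4) (nat_lit 301) (nat_lit 244) (nat_lit 175)))) (XT.nd (nat_lit 156) (nat_lit 0) (nat_lit 0) (XT.nd (nat_lit 78) (nat_lit 76) (nat_lit 0) (XT.lf (nat_lit 0) (nat_lit 14080770570) (nat_lit 152) (nat_lit 8855013352) (nat_lit 76) (nat_lit 152585306766) (nat_lit 3) (nat_lit 5) (nat_lit 5) (nat_lit 5) (nat_lit 4) (nat_lit 4) (nat_lit 302) (nat_lit 244) (nat_lit 174)) (XT.lf (nat_lit 0) (nat_lit 9115524080) (nat_lit 76) (nat_lit 13737625841) (nat_lit 152) (nat_lit 166166641988) (nat_lit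 2) (nat_lit 5) (nat_lit 3) (nat_lit 5) (nat_lit 4) (nat_lit 4) (nat_lit 303) (nat_lit 244) (nat_lit 173))) (XT.nd (nat_lit 78) (nat_lit 0) (nat_lit 0) (XT.lf (nat_lit 0) (nat_lit 28827657948) (nat_lit 76) (nat_lit 3646966596) (nat_lit 152) (nat_lit 171116410002) (nat_lit 2) (nat_lit 5) (nat_lit 3) (nat_lit 5) (nat_lit 4) (nat_lit 4) (nat_lit 304) (nat_lit 244) (nat_lit 172)) (XT.nd (nat_lit 78) (nat_lit 0) (nat_lit 0) (XT.lf (nat_lit 0) (nat_lit 42972518568) (nat_lit 152) (nat_lit 169336024458) (nat_lit 0) (nat_lit 7014108280) (nat_lit 2) (nat_lit 5) (nat_lit 4) (nat_lit 4) (nat_lit 2) (nat_lit 4) (nat_lit 305) (nat_lit 244) (nat_lit 171)) (XT.lf (nat_lit 0) (nat_lit 54365714421) (nat_lit 152) (nat_lit 163546722008) (nat_lit 0) (nat_lit 18397596519) (nat_lit 2) (nat_lit 5) (nat_lit 4) (nat_lit 4) (nat_lit 2) (nat_lit 4) (nat_lit 306) (nat_lit 244) (nat_lit 170)))))) (XT.nd (nat_lit 312)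 (nat_lit 0) (nat_lit 0) (XT.nd (nat_lit 156) (nat_lit 0) (nat_lit 0) (XT.nd (nat_lit 78) (nat_lit 0) (nat_lit 0) (XT.lf (nat_lit 0) (nat_lit 66664787970) (nat_lit 152) (nat_lit 157304222902) (nat_lit 0) (nat_lit 30687681536) (nat_lit 2) (nat_lit 5) (nat_lit 4) (nat_lit 4) (nat_lit 2) (nat_lit 4) (nat_lit 307) (nat_lit 244) (nat_lit 169)) (XT.lf (nat_lit 0) (nat_lit 79942622612) (nat_lit 152) (nat_lit 150571534554) (nat_lit 0) (nat_lit 43957193465) (nat_lit 2) (nat_lit 5) (nat_lit 4) (nat_lit 4) (nat_lit 2) (nat_lit 4) (nat_lit 308) (nat_lit 244) (nat_lit 168))) (XT.nd (nat_lit 78) (nat_lit 0) (nat_lit 0) (XT.lf (nat_lit 0) (nat_lit 94277901814) (nat_lit 152) (nat_lit 143308759549) (nat_lit 0) (nat_lit 58284766449) (nat_lit 2) (nat_lit 5) (nat_lit 4) (nat_lit 4) (nat_lit 2) (nat_lit 4) (nat_lit 309) (nat_lit 244) (nat_lit 167)) (XT.lf (nat_lit 0) (nat_lit 109755575376) (nat_lit 152) (nat_lit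 135472859222) (nat_lit 0) (nat_lit 73755304625) (nat_lit 2) (nat_lit 5) (nat_lit 4) (nat_lit 4) (nat_lit 2) (nat_lit 4) (nat_lit 310) (nat_lit 244) (nat_lit 166)))) (XT.nd (nat_lit 156) (nat_lit 0) (nat_lit 0) (XT.nd (nat_lit 78) (nat_lit 0) (nat_lit 0) (XT.lf (nat_lit 0) (nat_lit 126467362847) (nat_lit 152) (nat_lit 127017398608) (nat_lit 0) (nat_lit 90460485257) (nat_lit 2) (nat_lit 5) (nat_lit 4) (nat_lit 4) (nat_lit 2) (nat_lit 4) (nat_lit 311) (nat_lit 244) (nat_lit 165)) (XT.lf (nat_lit 0) (nat_lit 144512297041) (nat_lit 152) (nat_lit 117892271273) (nat_lit 0) (nat_lit 108499302008) (nat_lit 2) (nat_lit 5) (nat_lit 4) (nat_lit 4) (nat_lit 2) (nat_lit 4) (nat_lit 312) (nat_lit 244) (nat_lit 164))) (XT.nd (nat_lit 78) (nat_lit 0) (nat_lit 0) (XT.lf (nat_lit 0) (nat_lit 163997310902) (nat_lit 152) (nat_lit 108043402390) (nat_lit 0) (nat_lit 127978651568) (nat_lit 2) (nat_lit 5) (nat_lit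 4) (nat_lit 4) (nat_lit 2) (nat_lit 4) (nat_lit 313) (nat_lit 244) (nat_lit 163)) (XT.nd (nat_lit 78) (nat_lit 0) (nat_lit 0) (XT.lf (nat_lit 0) (nat_lit 185037871177) (nat_lit 152) (nat_lit 97412428289) (nat_lit 0) (nat_lit 149013967122) (nat_lit 2) (nat_lit 5) (nat_lit 4) (nat_lit 4) (nat_lit 2) (nat_lit 4) (nat_lit 314) (nat_lit 244) (nat_lit 162)) (XT.lf (nat_lit 0) (nat_lit 207758662669) (nat_lit 152) (nat_lit 85936350607) (nat_lit 0) (nat_lit 171729902390) (nat_lit 2) (nat_lit 5) (nat_lit 4) (nat_lit 4) (nat_lit 2) (nat_lit 4) (nat_lit 315) (nat_lit 244) (nat_lit 161))))))) (XT.nd (nat_lit 32136) (nat_lit 0) (nat_lit 3876) (XT.nd (nat_lit 312) (nat_lit 76) (nat_lit 0) (XT.nd (nat_lit 156) (nat_lit 0) (nat_lit 0) (XT.nd (nat_lit 78) (nat_lit 0) (nat_lit 0) (XT.lf (nat_lit 0) (nat_lit 232294327106) (nat_lit 152) (nat_lit 73547162957) (nat_lit 0) (nat_lit 196261070323) (nat_lit 2)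 (nat_lit 5) (nat_lit 4) (nat_lit 4) (nat_lit 2) (nat_lit 4) (nat_lit 316) (nat_lit 244) (nat_lit 160)) (XT.lf (nat_lit 0) (nat_lit 258790261016) (nat_lit 152) (nat_lit 60171447931) (nat_lit 0) (nat_lit 222752840804) (nat_lit 2) (nat_lit 5) (nat_lit 4) (nat_lit 4) (nat_lit 2) (nat_lit 4) (nat_lit 317) (nat_lit 244) (nat_lit 159))) (XT.nd (nat_lit 78) (nat_lit 0) (nat_lit 0) (XT.lf (nat_lit 0) (nat_lit 287403477342) (nat_lit 152) (nat_lit 45729942032) (nat_lit 0) (nat_lit 251362202104) (nat_lit 2) (nat_lit 5) (nat_lit 4) (nat_lit 4) (nat_lit 2) (nat_lit 4) (nat_lit 318) (nat_lit 244) (nat_lit 158)) (XT.lf (nat_lit 0) (nat_lit 318303535885) (nat_lit 152) (nat_lit 30137065966) (nat_lit 0) (nat_lit 282258691177) (nat_lit 2) (nat_lit 5) (nat_lit 4) (nat_lit 4) (nat_lit 2) (nat_lit 4) (nat_lit 319) (nat_lit 244) (nat_lit 157)))) (XT.nd (nat_lit 156) (nat_lit 0) (nat_lit 0) (XT.nd (nat_lit 78)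 (nat_lit 76) (nat_lit 0) (XT.lf (nat_lit 0) (nat_lit 351673548102) (nat_lit 152) (nat_lit 13300417505) (nat_lit 0) (nat_lit 315625398329) (nat_lit 2) (nat_lit 5) (nat_lit 4) (nat_lit 4) (nat_lit 2) (nat_lit 4) (nat_lit 320) (nat_lit 244) (nat_lit 156)) (XT.lf (nat_lit 0) (nat_lit 5041123517) (nat_lit 76) (nat_lit 382748844762) (nat_lit 76) (nat_lit 346697634744) (nat_lit 1) (nat_lit 4) (nat_lit 2) (nat_lit 5) (nat_lit 2) (nat_lit 4) (nat_lit 321) (nat_lit 244) (nat_lit 155))) (XT.nd (nat_lit 31512) (nat_lit 0) (nat_lit 6384) (XT.lf (nat_lit 0) (nat_lit 25321701875) (nat_lit 76) (nat_lit 401703875900) (nat_lit 76) (nat_lit 365649832322) (nat_lit 1) (nat_lit 4) (nat_lit 2) (nat_lit 5) (nat_lit 2) (nat_lit 4) (nat_lit 322) (nat_lit 244) (nat_lit 154)) (XT.nd (nat_lit 78) (nat_lit 532) (nat_lit 0) (XT.lf (nat_lit 0) (nat_lit 1683790482) (nat_lit 0) (nat_lit 1683790482) (nat_lit 380) (nat_lit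 229935621) (nat_lit 92) (nat_lit 5) (nat_lit 92) (nat_lit 3) (nat_lit 97) (nat_lit 3) (nat_lit 245) (nat_lit 245) (nat_lit 230)) (XT.lf (nat_lit 76) (nat_lit 1019161986) (nat_lit 0) (nat_lit 821694365) (nat_lit 532) (nat_lit 5514358242) (nat_lit 86) (nat_lit 5) (nat_lit 85) (nat_lit 3) (nat_lit 92) (nat_lit 5) (nat_lit 246) (nat_lit 245) (nat_lit 229)))))) (XT.nd (nat_lit 390) (nat_lit 2128) (nat_lit 0) (XT.nd (nat_lit 156) (nat_lit 456) (nat_lit 0) (XT.nd (nat_lit 78) (nat_lit 0) (nat_lit 0) (XT.lf (nat_lit 0) (nat_lit 4178416633) (nat_lit 456) (nat_lit 1312927791) (nat_lit 532) (nat_lit 2044325720) (nat_lit 86) (nat_lit 5) (nat_lit 92) (nat_lit 5) (nat_lit 93) (nat_lit 5) (nat_lit 247) (nat_lit 245) (nat_lit 228)) (XT.lf (nat_lit 76) (nat_lit 4100463042) (nat_lit 0) (nat_lit 2468177625) (nat_lit 532) (nat_lit 1169824513) (nat_lit 87) (nat_lit 5) (nat_lit 86) (nat_lit 5) (nat_lit 93)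 (nat_lit 5) (nat_lit 248) (nat_lit 245) (nat_lit 227))) (XT.nd (nat_lit 78) (nat_lit 0) (nat_lit 0) (XT.lf (nat_lit 0) (nat_lit 1020121103) (nat_lit 532) (nat_lit 6030030380) (nat_lit 608) (nat_lit 914162544) (nat_lit 80) (nat_lit 5) (nat_lit 87) (nat_lit 5) (nat_lit 88) (nat_lit 5) (nat_lit 249) (nat_lit 245) (nat_lit 226)) (XT.nd (nat_lit 78) (nat_lit 0) (nat_lit 76) (XT.lf (nat_lit 0) (nat_lit 3262178514) (nat_lit 532) (nat_lit 322051434) (nat_lit 608) (nat_lit 4628115282) (nat_lit 80) (nat_lit 5) (nat_lit 87) (nat_lit 5) (nat_lit 88) (nat_lit 5) (nat_lit 250) (nat_lit 245) (nat_lit 225)) (XT.lf (nat_lit 0) (nat_lit 5605834102) (nat_lit 532) (nat_lit 2585158595) (nat_lit 76) (nat_lit 294011197) (nat_lit 81) (nat_lit 5) (nat_lit 88) (nat_lit 5) (nat_lit 82) (nat_lit 5) (nat_lit 251) (nat_lit 245) (nat_lit 224))))) (XT.nd (nat_lit 156) (nat_lit 988) (nat_lit 0) (XT.nd (nat_lit 78) (nat_lit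 684) (nat_lit 0) (XT.lf (nat_lit 0) (nat_lit 3781399010) (nat_lit 532) (nat_lit 4317770959) (nat_lit 608) (nat_lit 683026115) (nat_lit 74) (nat_lit 5) (nat_lit 81) (nat_lit 5) (nat_lit 82) (nat_lit 5) (nat_lit 252) (nat_lit 245) (nat_lit 223)) (XT.lf (nat_lit 0) (nat_lit 1539755327) (nat_lit 608) (nat_lit 8690404) (nat_lit 684) (nat_lit 7558447233) (nat_lit 65) (nat_lit 5) (nat_lit 73) (nat_lit 5) (nat_lit 74) (nat_lit 5) (nat_lit 253) (nat_lit 245) (nat_lit 222))) (XT.nd (nat_lit 78) (nat_lit 988) (nat_lit 0) (XT.lf (nat_lit 0) (nat_lit 3949702591) (nat_lit 684) (nat_lit 890290668) (nat_lit 76) (nat_lit 4616930509) (nat_lit 65) (nat_lit 5) (nat_lit 74) (nat_lit 5) (nat_lit 66) (nat_lit 5) (nat_lit 254) (nat_lit 245) (nat_lit 221)) (XT.nd (nat_lit 78) (nat_lit 304) (nat_lit 0) (XT.lf (nat_lit 0) (nat_lit 6401614939) (nat_lit 684) (nat_lit 106182508) (nat_lit 760) (nat_lit 3329550392)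 (nat_lit 56) (nat_lit 5) (nat_lit 65) (nat_lit 5) (nat_lit 66) (nat_lit 5) (nat_lit 255) (nat_lit 245) (nat_lit 220)) (XT.lf (nat_lit 0) (nat_lit 3984827871) (nat_lit 304) (nat_lit 5314808786) (nat_lit 380) (nat_lit 947695523) (nat_lit 52) (nat_lit 5) (nat_lit 56) (nat_lit 5) (nat_lit 57) (nat_lit 5) (nat_lit 256) (nat_lit 245) (nat_lit 219))))))))
noncomputable def xc60 : XT := (XT.nd (nat_lit 1404) (nat_lit 836) (nat_lit 0) (XT.nd (nat_lit 702) (nat_lit 988) (nat_lit 0) (XT.nd (nat_lit 312) (nat_lit 836) (nat_lit 0) (XT.nd (nat_lit 156) (nat_lit 532) (nat_lit 0) (XT.nd (nat_lit 78) (nat_lit 0) (nat_lit 0) (XT.lf (nat_lit 0) (nat_lit 1324225704) (nat_lit 304) (nat_lit 209788799) (nat_lit 380) (nat_lit 9157279580) (nat_lit 47) (nat_lit 5) (nat_lit 51) (nat_lit 5) (nat_lit 52) (nat_lit 5) (nat_lit 257) (nat_lit 245) (nat_lit 218)) (XT.lf (nat_lit 0) (nat_lit 4260303579) (nat_lit 380) (nat_lit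 1649715493) (nat_lit 76) (nat_lit 5256489364) (nat_lit 47) (nat_lit 5) (nat_lit 52) (nat_lit 5) (nat_lit 48) (nat_lit 5) (nat_lit 258) (nat_lit 245) (nat_lit 217))) (XT.nd (nat_lit 78) (nat_lit 304) (nat_lit 0) (XT.lf (nat_lit 0) (nat_lit 6782505617) (nat_lit 228) (nat_lit 425250487) (nat_lit 304) (nat_lit 4472270208) (nat_lit 44) (nat_lit 5) (nat_lit 47) (nat_lit 5) (nat_lit 48) (nat_lit 5) (nat_lit 259) (nat_lit 245) (nat_lit 216)) (XT.lf (nat_lit 0) (nat_lit 3628578036) (nat_lit 304) (nat_lit 6833737421) (nat_lit 380) (nat_lit 1769151475) (nat_lit 40) (nat_lit 5) (nat_lit 44) (nat_lit 5) (nat_lit 45) (nat_lit 5) (nat_lit 260) (nat_lit 245) (nat_lit 215)))) (XT.nd (nat_lit 156) (nat_lit 532) (nat_lit 0) (XT.nd (nat_lit 78) (nat_lit 0) (nat_lit 0) (XT.lf (nat_lit 0) (nat_lit 49172213) (nat_lit 228) (nat_lit 1062268393) (nat_lit 304) (nat_lit 11715141160) (nat_lit 36) (nat_lit 5) (nat_lit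 39) (nat_lit 5) (nat_lit 40) (nat_lit 5) (nat_lit 261) (nat_lit 245) (nat_lit 214)) (XT.lf (nat_lit 0) (nat_lit 4302913445) (nat_lit 304) (nat_lit 3988611617) (nat_lit 76) (nat_lit 5169542001) (nat_lit 36) (nat_lit 5) (nat_lit 40) (nat_lit 5) (nat_lit 37) (nat_lit 5) (nat_lit 262) (nat_lit 245) (nat_lit 213))) (XT.nd (nat_lit 78) (nat_lit 304) (nat_lit 0) (XT.lf (nat_lit 0) (nat_lit 5557337743) (nat_lit 228) (nat_lit 2212359725) (nat_lit 304) (nat_lit 6375921635) (nat_lit 33) (nat_lit 5) (nat_lit 36) (nat_lit 5) (nat_lit 37) (nat_lit 5) (nat_lit 263) (nat_lit 245) (nat_lit 212)) (XT.nd (nat_lit 78) (nat_lit 76) (nat_lit 0) (XT.lf (nat_lit 0) (nat_lit 985100319) (nat_lit 228) (nat_lit 10602361182) (nat_lit 304) (nat_lit 3294076741) (nat_lit 30) (nat_lit 5) (nat_lit 33) (nat_lit 5) (nat_lit 34) (nat_lit 5) (nat_lit 264) (nat_lit 245) (nat_lit 211)) (XT.lf (nat_lit 0) (nat_lit 145128813)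 (nat_lit 304) (nat_lit 4181602767) (nat_lit 76) (nat_lit 11344228124) (nat_lit 29) (nat_lit 5) (nat_lit 33) (nat_lit 5) (nat_lit 30) (nat_lit 5) (nat_lit 265) (nat_lit 245) (nat_lit 210)))))) (XT.nd (nat_lit 312) (nat_lit 456) (nat_lit 0) (XT.nd (nat_lit 156) (nat_lit 152) (nat_lit 0) (XT.nd (nat_lit 78) (nat_lit 152) (nat_lit 0) (XT.lf (nat_lit 0) (nat_lit 3813662438) (nat_lit 304) (nat_lit 10197346745) (nat_lit 76) (nat_lit 2506578179) (nat_lit 26) (nat_lit 5) (nat_lit 30) (nat_lit 5) (nat_lit 27) (nat_lit 5) (nat_lit 266) (nat_lit 245) (nat_lit 209)) (XT.lf (nat_lit 0) (nat_lit 221283519) (nat_lit 152) (nat_lit 7636639276) (nat_lit 228) (nat_lit 9570125555) (nat_lit 24) (nat_lit 5) (nat_lit 26) (nat_lit 5) (nat_lit 27) (nat_lit 5) (nat_lit 267) (nat_lit 245) (nat_lit 208))) (XT.nd (nat_lit 78) (nat_lit 152) (nat_lit 0) (XT.lf (nat_lit 0) (nat_lit 11746772225) (nat_lit 152) (nat_lit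 592015373) (nat_lit 228) (nat_lit 6067104809) (nat_lit 24) (nat_lit 5) (nat_lit 26) (nat_lit 5) (nat_lit 27) (nat_lit 5) (nat_lit 268) (nat_lit 245) (nat_lit 207)) (XT.lf (nat_lit 0) (nat_lit 4685925960) (nat_lit 152) (nat_lit 12614734592) (nat_lit 228) (nat_lit 2155361089) (nat_lit 22) (nat_lit 5) (nat_lit 24) (nat_lit 5) (nat_lit 25) (nat_lit 5) (nat_lit 269) (nat_lit 245) (nat_lit 206)))) (XT.nd (nat_lit 156) (nat_lit 228) (nat_lit 0) (XT.nd (nat_lit 78) (nat_lit 152) (nat_lit 0) (XT.lf (nat_lit 0) (nat_lit 2072868480) (nat_lit 228) (nat_lit 3537338966) (nat_lit 76) (nat_lit 14975012280) (nat_lit 21) (nat_lit 5) (nat_lit 24) (nat_lit 5) (nat_lit 22) (nat_lit 5) (nat_lit 270) (nat_lit 245) (nat_lit 205)) (XT.lf (nat_lit 0) (nat_lit 6680772807) (nat_lit 228) (nat_lit 13072708796) (nat_lit 76) (nat_lit 2043809608) (nat_lit 19) (nat_lit 5) (nat_lit 22) (nat_lit 5) (nat_lit 20) (nat_lit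 5) (nat_lit 271) (nat_lit 245) (nat_lit 204))) (XT.nd (nat_lit 78) (nat_lit 228) (nat_lit 0) (XT.lf (nat_lit 0) (nat_lit 11763162301) (nat_lit 228) (nat_lit 1182810946) (nat_lit 76) (nat_lit 10155202091) (nat_lit 19) (nat_lit 5) (nat_lit 22) (nat_lit 5) (nat_lit 20) (nat_lit 5) (nat_lit 272) (nat_lit 245) (nat_lit 203)) (XT.nd (nat_lit 78) (nat_lit 76) (nat_lit 0) (XT.lf (nat_lit 0) (nat_lit 11969402413) (nat_lit 152) (nat_lit 5422048103) (nat_lit 228) (nat_lit 7111083527) (nat_lit 17) (nat_lit 5) (nat_lit 19) (nat_lit 5) (nat_lit 20) (nat_lit 5) (nat_lit 273) (nat_lit 245) (nat_lit 202)) (XT.lf (nat_lit 0) (nat_lit 90556884) (nat_lit 76) (nat_lit 23398524050) (nat_lit 152) (nat_lit 2526086207) (nat_lit 16) (nat_lit 5) (nat_lit 17) (nat_lit 5) (nat_lit 18) (nat_lit 4) (nat_lit 274) (nat_lit 245) (nat_lit 201))))))) (XT.nd (nat_lit 702) (nat_lit 304) (nat_lit 0) (XT.nd (nat_lit 312) (nat_lit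 304) (nat_lit 0) (XT.nd (nat_lit 156) (nat_lit 152) (nat_lit 0) (XT.nd (nat_lit 78) (nat_lit 0) (nat_lit 0) (XT.lf (nat_lit 0) (nat_lit 2617403134) (nat_lit 152) (nat_lit 13668407623) (nat_lit 76) (nat_lit 11347745532) (nat_lit 15) (nat_lit 5) (nat_lit 17) (nat_lit 5) (nat_lit 16) (nat_lit 5) (nat_lit 275) (nat_lit 245) (nat_lit 200)) (XT.lf (nat_lit 0) (nat_lit 8044318259) (nat_lit 152) (nat_lit 538498090) (nat_lit 76) (nat_lit 20798604936) (nat_lit 15) (nat_lit 5) (nat_lit 17) (nat_lit 5) (nat_lit 16) (nat_lit 5) (nat_lit 276) (nat_lit 245) (nat_lit 199))) (XT.nd (nat_lit 78) (nat_lit 0) (nat_lit 0) (XT.lf (nat_lit 0) (nat_lit 14031458807) (nat_lit 152) (nat_lit 55280787) (nat_lit 228) (nat_lit 17173398698) (nat_lit 13) (nat_lit 5) (nat_lit 15) (nat_lit 5) (nat_lit 16) (nat_lit 5) (nat_lit 277) (nat_lit 245) (nat_lit 198)) (XT.lf (nat_lit 0) (nat_lit 20728875661) (nat_lit 228) (nat_lit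 3703924586) (nat_lit 76) (nat_lit 8850620124) (nat_lit 13) (nat_lit 5) (nat_lit 16) (nat_lit 5) (nat_lit 14) (nat_lit 4) (nat_lit 278) (nat_lit 245) (nat_lit 197)))) (XT.nd (nat_lit 156) (nat_lit 228) (nat_lit 0) (XT.nd (nat_lit 78) (nat_lit 0) (nat_lit 0) (XT.lf (nat_lit 0) (nat_lit 11206479725) (nat_lit 76) (nat_lit 16838336816) (nat_lit 152) (nat_lit 7416704333) (nat_lit 12) (nat_lit 5) (nat_lit 13) (nat_lit 5) (nat_lit 14) (nat_lit 4) (nat_lit 279) (nat_lit 245) (nat_lit 196)) (XT.lf (nat_lit 0) (nat_lit 27390256239) (nat_lit 76) (nat_lit 8588504805) (nat_lit 152) (nat_lit 1833543770) (nat_lit 12) (nat_lit 5) (nat_lit 13) (nat_lit 5) (nat_lit 14) (nat_lit 4) (nat_lit 280) (nat_lit 245) (nat_lit 195))) (XT.nd (nat_lit 78) (nat_lit 0) (nat_lit 0) (XT.lf (nat_lit 0) (nat_lit 4109955979) (nat_lit 228) (nat_lit 35804140446) (nat_lit 76) (nat_lit 431442933) (nat_lit 9) (nat_lit 5) (nat_lit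 12) (nat_lit 5) (nat_lit 10) (nat_lit 4) (nat_lit 281) (nat_lit 245) (nat_lit 194)) (XT.nd (nat_lit 78) (nat_lit 0) (nat_lit 0) (XT.lf (nat_lit 0) (nat_lit 10766115671) (nat_lit 228) (nat_lit 22224995275) (nat_lit 76) (nat_lit 10073806531) (nat_lit 9) (nat_lit 5) (nat_lit 12) (nat_lit 5) (nat_lit 10) (nat_lit 4) (nat_lit 282) (nat_lit 245) (nat_lit 193)) (XT.lf (nat_lit 0) (nat_lit 17928120182) (nat_lit 228) (nat_lit 7603980655) (nat_lit 76) (nat_lit 20471131698) (nat_lit 9) (nat_lit 5) (nat_lit 12) (nat_lit 5) (nat_lit 10) (nat_lit 4) (nat_lit 283) (nat_lit 245) (nat_lit 192)))))) (XT.nd (nat_lit 312) (nat_lit 152) (nat_lit 0) (XT.nd (nat_lit 156) (nat_lit 76) (nat_lit 0) (XT.nd (nat_lit 78) (nat_lit 0) (nat_lit 0) (XT.lf (nat_lit 0) (nat_lit 8414875015) (nat_lit 76) (nat_lit 17354915786) (nat_lit 152) (nat_lit 23401536979) (nat_lit 8) (nat_lit 5) (nat_lit 9) (nat_lit 5) (nat_lit 10)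 (nat_lit 4) (nat_lit 284) (nat_lit 245) (nat_lit 191)) (XT.lf (nat_lit 0) (nat_lit 25947395303) (nat_lit 76) (nat_lit 8400395051) (nat_lit 152) (nat_lit 18239677073) (nat_lit 8) (nat_lit 5) (nat_lit 9) (nat_lit 5) (nat_lit 10) (nat_lit 4) (nat_lit 285) (nat_lit 245) (nat_lit 190))) (XT.nd (nat_lit 78) (nat_lit 76) (nat_lit 0) (XT.lf (nat_lit 0) (nat_lit 43609912330) (nat_lit 152) (nat_lit 11451578571) (nat_lit 0) (nat_lit 1215556321) (nat_lit 8) (nat_lit 5) (nat_lit 10) (nat_lit 4) (nat_lit 8) (nat_lit 4) (nat_lit 286) (nat_lit 245) (nat_lit 189)) (XT.lf (nat_lit 0) (nat_lit 4933662325) (nat_lit 76) (nat_lit 48877688807) (nat_lit 76) (nat_lit 6440564821) (nat_lit 7) (nat_lit 4) (nat_lit 8) (nat_lit 5) (nat_lit 8) (nat_lit 4) (nat_lit 287) (nat_lit 245) (nat_lit 188)))) (XT.nd (nat_lit 156) (nat_lit 76) (nat_lit 0) (XT.nd (nat_lit 78) (nat_lit 0) (nat_lit 0) (XT.lf (nat_lit 0) (nat_lit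 458095217) (nat_lit 152) (nat_lit 41537628767) (nat_lit 76) (nat_lit 22539710669) (nat_lit 6) (nat_lit 5) (nat_lit 8) (nat_lit 5) (nat_lit 7) (nat_lit 4) (nat_lit 288) (nat_lit 245) (nat_lit 187)) (XT.lf (nat_lit 0) (nat_lit 7667786350) (nat_lit 152) (nat_lit 26794428589) (nat_lit 76) (nat_lit 34694934126) (nat_lit 6) (nat_lit 5) (nat_lit 8) (nat_lit 5) (nat_lit 7) (nat_lit 4) (nat_lit 289) (nat_lit 245) (nat_lit 186))) (XT.nd (nat_lit 78) (nat_lit 76) (nat_lit 0) (XT.lf (nat_lit 0) (nat_lit 15437370971) (nat_lit 152) (nat_lit 10900730716) (nat_lit 76) (nat_lit 47811373206) (nat_lit 6) (nat_lit 5) (nat_lit 8) (nat_lit 5) (nat_lit 7) (nat_lit 4) (nat_lit 290) (nat_lit 245) (nat_lit 185)) (XT.nd (nat_lit 78) (nat_lit 0) (nat_lit 0) (XT.lf (nat_lit 0) (nat_lit 6443894599) (nat_lit 76) (nat_lit 17469603715) (nat_lit 152) (nat_lit 55623467608) (nat_lit 5) (nat_lit 5) (nat_lit 6) (nat_lit 5)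 (nat_lit 7) (nat_lit 4) (nat_lit 291) (nat_lit 245) (nat_lit 184)) (XT.lf (nat_lit 0) (nat_lit 25539703531) (nat_lit 76) (nat_lit 7703022148) (nat_lit 152) (nat_lit 52104005930) (nat_lit 5) (nat_lit 5) (nat_lit 6) (nat_lit 5) (nat_lit 7) (nat_lit 4) (nat_lit 292) (nat_lit 245) (nat_lit 183))))))))
noncomputable def xc61 : XT := (XT.nd (nat_lit 1404) (nat_lit 76) (nat_lit 0) (XT.nd (nat_lit 702) (nat_lit 152) (nat_lit 0) (XT.nd (nat_lit 312) (nat_lit 0) (nat_lit 0) (XT.nd (nat_lit 156) (nat_lit 76) (nat_lit 0) (XT.nd (nat_lit 78) (nat_lit 0) (nat_lit 0) (XT.lf (nat_lit 0) (nat_lit 43348780027) (nat_lit 152) (nat_lit 45526822954) (nat_lit 0) (nat_lit 2744175082) (nat_lit 5) (nat_lit 5) (nat_lit 7) (nat_lit 4) (nat_lit 5) (nat_lit 4) (nat_lit 293) (nat_lit 245) (nat_lit 182)) (XT.lf (nat_lit 0) (nat_lit 54380309589) (nat_lit 152) (nat_lit 30256593013) (nat_lit 0) (nat_lit 13751938260) (nat_lit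 5) (nat_lit 5) (nat_lit 7) (nat_lit 4) (nat_lit 5) (nat_lit 4) (nat_lit 294) (nat_lit 245) (nat_lit 181))) (XT.nd (nat_lit 78) (nat_lit 76) (nat_lit 0) (XT.lf (nat_lit 0) (nat_lit 66282420631) (nat_lit 152) (nat_lit 13785582243) (nat_lit 0) (nat_lit 25632043391) (nat_lit 5) (nat_lit 5) (nat_lit 7) (nat_lit 4) (nat_lit 5) (nat_lit 4) (nat_lit 295) (nat_lit 245) (nat_lit 180)) (XT.lf (nat_lit 0) (nat_lit 4115538271) (nat_lit 76) (nat_lit 75074360995) (nat_lit 76) (nat_lit 34403607911) (nat_lit 4) (nat_lit 4) (nat_lit 5) (nat_lit 5) (nat_lit 5) (nat_lit 4) (nat_lit 296) (nat_lit 245) (nat_lit 179)))) (XT.nd (nat_lit 156) (nat_lit 0) (nat_lit 0) (XT.nd (nat_lit 78) (nat_lit 0) (nat_lit 0) (XT.lf (nat_lit 0) (nat_lit 23922571577) (nat_lit 76) (nat_lit 69437015038) (nat_lit 76) (nat_lit 28747395432) (nat_lit 4) (nat_lit 4) (nat_lit 5) (nat_lit 5) (nat_lit 5) (nat_lit 4) (nat_lit 297) (nat_lit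 245) (nat_lit 178)) (XT.lf (nat_lit 0) (nat_lit 45297079077) (nat_lit 76) (nat_lit 63356024013) (nat_lit 76) (nat_lit 22648935406) (nat_lit 4) (nat_lit 4) (nat_lit 5) (nat_lit 5) (nat_lit 5) (nat_lit 4) (nat_lit 298) (nat_lit 245) (nat_lit 177))) (XT.nd (nat_lit 78) (nat_lit 0) (nat_lit 0) (XT.lf (nat_lit 0) (nat_lit 68365724521) (nat_lit 76) (nat_lit 56795352420) (nat_lit 76) (nat_lit 16072088811) (nat_lit 4) (nat_lit 4) (nat_lit 5) (nat_lit 5) (nat_lit 5) (nat_lit 4) (nat_lit 299) (nat_lit 245) (nat_lit 176)) (XT.nd (nat_lit 78) (nat_lit 0) (nat_lit 0) (XT.lf (nat_lit 0) (nat_lit 93265210993) (nat_lit 76) (nat_lit 49716122205) (nat_lit 76) (nat_lit 8977881742) (nat_lit 4) (nat_lit 4) (nat_lit 5) (nat_lit 5) (nat_lit 5) (nat_lit 4) (nat_lit 300) (nat_lit 245) (nat_lit 175)) (XT.lf (nat_lit 0) (nat_lit 120143091004) (nat_lit 76) (nat_lit 42076382372) (nat_lit 76) (nat_lit 1324274453)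 (nat_lit 4) (nat_lit 4) (nat_lit 5) (nat_lit 5) (nat_lit 5) (nat_lit 4) (nat_lit 301) (nat_lit 245) (nat_lit 174)))))) (XT.nd (nat_lit 312) (nat_lit 0) (nat_lit 0) (XT.nd (nat_lit 156) (nat_lit 76) (nat_lit 0) (XT.nd (nat_lit 78) (nat_lit 0) (nat_lit 0) (XT.lf (nat_lit 0) (nat_lit 6712153653) (nat_lit 152) (nat_lit 27005033168) (nat_lit 76) (nat_lit 142332813659) (nat_lit 3) (nat_lit 5) (nat_lit 5) (nat_lit 5) (nat_lit 4) (nat_lit 4) (nat_lit 302) (nat_lit 245) (nat_lit 173)) (XT.lf (nat_lit 0) (nat_lit 15338967809) (nat_lit 152) (nat_lit 9331953257) (nat_lit 76) (nat_lit 164885063973) (nat_lit 3) (nat_lit 5) (nat_lit 5) (nat_lit 5) (nat_lit 4) (nat_lit 4) (nat_lit 303) (nat_lit 245) (nat_lit 172))) (XT.nd (nat_lit 78) (nat_lit 0) (nat_lit 0) (XT.lf (nat_lit 0) (nat_lit 10066168149) (nat_lit 76) (nat_lit 14740667874) (nat_lit 152) (nat_lit 179328076676) (nat_lit 2) (nat_lit 5) (nat_lit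 3) (nat_lit 5) (nat_lit 4) (nat_lit 4) (nat_lit 304) (nat_lit 245) (nat_lit 171)) (XT.lf (nat_lit 0) (nat_lit 31338872568) (nat_lit 76) (nat_lit 3849864633) (nat_lit 152) (nat_lit 184683596255) (nat_lit 2) (nat_lit 5) (nat_lit 3) (nat_lit 5) (nat_lit 4) (nat_lit 4) (nat_lit 305) (nat_lit 245) (nat_lit 170)))) (XT.nd (nat_lit 156) (nat_lit 0) (nat_lit 0) (XT.nd (nat_lit 78) (nat_lit 0) (nat_lit 0) (XT.lf (nat_lit 0) (nat_lit 46519144161) (nat_lit 152) (nat_lit 182688833734) (nat_lit 0) (nat_lit 7654880681) (nat_lit 2) (nat_lit 5) (nat_lit 4) (nat_lit 4) (nat_lit 2) (nat_lit 4) (nat_lit 306) (nat_lit 245) (nat_lit 169)) (XT.lf (nat_lit 0) (nat_lit 58815734638) (nat_lit 152) (nat_lit 176450762842) (nat_lit 0) (nat_lit 19943148444) (nat_lit 2) (nat_lit 5) (nat_lit 4) (nat_lit 4) (nat_lit 2) (nat_lit 4) (nat_lit 307) (nat_lit 245) (nat_lit 168))) (XT.nd (nat_lit 78) (nat_lit 0) (nat_lit 0)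 (XT.lf (nat_lit 0) (nat_lit 72091270140) (nat_lit 152) (nat_lit 169722174692) (nat_lit 0) (nat_lit 33210977729) (nat_lit 2) (nat_lit 5) (nat_lit 4) (nat_lit 4) (nat_lit 2) (nat_lit 4) (nat_lit 308) (nat_lit 245) (nat_lit 167)) (XT.nd (nat_lit 78) (nat_lit 0) (nat_lit 0) (XT.lf (nat_lit 0) (nat_lit 86424420507) (nat_lit 152) (nat_lit 162463196167) (nat_lit 0) (nat_lit 47536992710) (nat_lit 2) (nat_lit 5) (nat_lit 4) (nat_lit 4) (nat_lit 2) (nat_lit 4) (nat_lit 309) (nat_lit 245) (nat_lit 166)) (XT.lf (nat_lit 0) (nat_lit 101900122927) (nat_lit 152) (nat_lit 154630811099) (nat_lit 0) (nat_lit 63006088291) (nat_lit 2) (nat_lit 5) (nat_lit 4) (nat_lit 4) (nat_lit 2) (nat_lit 4) (nat_lit 310) (nat_lit 245) (nat_lit 165))))))) (XT.nd (nat_lit 702) (nat_lit 76) (nat_lit 0) (XT.nd (nat_lit 312) (nat_lit 0) (nat_lit 0) (XT.nd (nat_lit 156) (nat_lit 0) (nat_lit 0) (XT.nd (nat_lit 78) (nat_lit 0)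 (nat_lit 0) (XT.lf (nat_lit 0) (nat_lit 118610085266) (nat_lit 152) (nat_lit 146178605354) (nat_lit 0) (nat_lit 79709933186) (nat_lit 2) (nat_lit 5) (nat_lit 4) (nat_lit 4) (nat_lit 2) (nat_lit 4) (nat_lit 311) (nat_lit 245) (nat_lit 164)) (XT.lf (nat_lit 0) (nat_lit 136653329523) (nat_lit 152) (nat_lit 137056491788) (nat_lit 0) (nat_lit 97747513143) (nat_lit 2) (nat_lit 5) (nat_lit 4) (nat_lit 4) (nat_lit 2) (nat_lit 4) (nat_lit 312) (nat_lit 245) (nat_lit 163))) (XT.nd (nat_lit 78) (nat_lit 0) (nat_lit 0) (XT.lf (nat_lit 0) (nat_lit 156136778626) (nat_lit 152) (nat_lit 127210413430) (nat_lit 0) (nat_lit 117225717525) (nat_lit 2) (nat_lit 5) (nat_lit 4) (nat_lit 4) (nat_lit 2) (nat_lit 4) (nat_lit 313) (nat_lit 245) (nat_lit 162)) (XT.lf (nat_lit 0) (nat_lit 177175890053) (nat_lit 152) (nat_lit 116582023150) (nat_lit 0) (nat_lit 138259972728) (nat_lit 2) (nat_lit 5) (nat_lit 4) (nat_lit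 4) (nat_lit 2) (nat_lit 4) (nat_lit 314) (nat_lit 245) (nat_lit 161)))) (XT.nd (nat_lit 156) (nat_lit 0) (nat_lit 0) (XT.nd (nat_lit 78) (nat_lit 0) (nat_lit 0) (XT.lf (nat_lit 0) (nat_lit 199895340019) (nat_lit 152) (nat_lit 105108337894) (nat_lit 0) (nat_lit 160974926190) (nat_lit 2) (nat_lit 5) (nat_lit 4) (nat_lit 4) (nat_lit 2) (nat_lit 4) (nat_lit 315) (nat_lit 245) (nat_lit 160)) (XT.lf (nat_lit 0) (nat_lit 224429762301) (nat_lit 152) (nat_lit 92721365454) (nat_lit 0) (nat_lit 185505185043) (nat_lit 2) (nat_lit 5) (nat_lit 4) (nat_lit 4) (nat_lit 2) (nat_lit 4) (nat_lit 316) (nat_lit 245) (nat_lit 159))) (XT.nd (nat_lit 78) (nat_lit 0) (nat_lit 0) (XT.lf (nat_lit 0) (nat_lit 250924546069) (nat_lit 152) (nat_lit 79347701548) (nat_lit 0) (nat_lit 211996113784) (nat_lit 2) (nat_lit 5) (nat_lit 4) (nat_lit 4) (nat_lit 2) (nat_lit 4) (nat_lit 317) (nat_lit 245) (nat_lit 158)) (XT.nd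 (nat_lit 78) (nat_lit 0) (nat_lit 0) (XT.lf (nat_lit 0) (nat_lit 279536697448) (nat_lit 152) (nat_lit 64908094834) (nat_lit 0) (nat_lit 240604695693) (nat_lit 2) (nat_lit 5) (nat_lit 4) (nat_lit 4) (nat_lit 2) (nat_lit 4) (nat_lit 318) (nat_lit 245) (nat_lit 157)) (XT.lf (nat_lit 0) (nat_lit 310435769929) (nat_lit 152) (nat_lit 49316977273) (nat_lit 0) (nat_lit 271500463110) (nat_lit 2) (nat_lit 5) (nat_lit 4) (nat_lit 4) (nat_lit 2) (nat_lit 4) (nat_lit 319) (nat_lit 245) (nat_lit 156)))))) (XT.nd (nat_lit 31902) (nat_lit 0) (nat_lit 5396) (XT.nd (nat_lit 156) (nat_lit 76) (nat_lit 0) (XT.nd (nat_lit 78) (nat_lit 0) (nat_lit 0) (XT.lf (nat_lit 0) (nat_lit 343804869125) (nat_lit 152) (nat_lit 32481957057) (nat_lit 0) (nat_lit 304866502061) (nat_lit 2) (nat_lit 5) (nat_lit 4) (nat_lit 4) (nat_lit 2) (nat_lit 4) (nat_lit 320) (nat_lit 245) (nat_lit 155)) (XT.lf (nat_lit 0) (nat_lit 379841737847)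 (nat_lit 152) (nat_lit 14303271103) (nat_lit 0) (nat_lit 340900537224) (nat_lit 2) (nat_lit 5) (nat_lit 4) (nat_lit 4) (nat_lit 2) (nat_lit 4) (nat_lit 321) (nat_lit 245) (nat_lit 154))) (XT.nd (nat_lit 31590) (nat_lit 0) (nat_lit 6384) (XT.lf (nat_lit 0) (nat_lit 5502934402) (nat_lit 76) (nat_lit 413342909737) (nat_lit 76) (nat_lit 374399085446) (nat_lit 1) (nat_lit 4) (nat_lit 2) (nat_lit 5) (nat_lit 2) (nat_lit 4) (nat_lit 322) (nat_lit 245) (nat_lit 153)) (XT.nd (nat_lit 78) (nat_lit 0) (nat_lit 0) (XT.lf (nat_lit 0) (nat_lit 1992496501) (nat_lit 532) (nat_lit 884438357) (nat_lit 532) (nat_lit 884438357) (nat_lit 85) (nat_lit 3) (nat_lit 92) (nat_lit 3) (nat_lit 92) (nat_lit 5) (nat_lit 246) (nat_lit 246) (nat_lit 228)) (XT.lf (nat_lit 76) (nat_lit 3355279243) (nat_lit 0) (nat_lit 2803006822) (nat_lit 532) (nat_lit 1553699462) (nat_lit 86) (nat_lit 5) (nat_lit 85) (nat_lit 3) (nat_lit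 92) (nat_lit 5) (nat_lit 247) (nat_lit 246) (nat_lit 227))))) (XT.nd (nat_lit 156) (nat_lit 532) (nat_lit 0) (XT.nd (nat_lit 78) (nat_lit 0) (nat_lit 0) (XT.lf (nat_lit 0) (nat_lit 422315129) (nat_lit 532) (nat_lit 6989553807) (nat_lit 608) (nat_lit 512476278) (nat_lit 79) (nat_lit 5) (nat_lit 86) (nat_lit 5) (nat_lit 87) (nat_lit 5) (nat_lit 248) (nat_lit 246) (nat_lit 226)) (XT.lf (nat_lit 0) (nat_lit 2439382916) (nat_lit 532) (nat_lit 1540821229) (nat_lit 608) (nat_lit 4176314077) (nat_lit 79) (nat_lit 5) (nat_lit 86) (nat_lit 5) (nat_lit 87) (nat_lit 5) (nat_lit 249) (nat_lit 246) (nat_lit 225))) (XT.nd (nat_lit 78) (nat_lit 532) (nat_lit 0) (XT.lf (nat_lit 76) (nat_lit 4371310433) (nat_lit 0) (nat_lit 140938746) (nat_lit 608) (nat_lit 3901190883) (nat_lit 80) (nat_lit 5) (nat_lit 79) (nat_lit 5) (nat_lit 87) (nat_lit 5) (nat_lit 250) (nat_lit 246) (nat_lit 224)) (XT.nd (nat_lit 78)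 (nat_lit 608) (nat_lit 0) (XT.lf (nat_lit 76) (nat_lit 2005735733) (nat_lit 0) (nat_lit 4704582161) (nat_lit 608) (nat_lit 1983459321) (nat_lit 81) (nat_lit 5) (nat_lit 80) (nat_lit 5) (nat_lit 88) (nat_lit 5) (nat_lit 251) (nat_lit 246) (nat_lit 223)) (XT.lf (nat_lit 0) (nat_lit 4068931) (nat_lit 608) (nat_lit 434241568) (nat_lit 684) (nat_lit 8562935268) (nat_lit 72) (nat_lit 5) (nat_lit 80) (nat_lit 5) (nat_lit 81) (nat_lit 5) (nat_lit 252) (nat_lit 246) (nat_lit 222))))))))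
noncomputable def xc62 : XT := (XT.nd (nat_lit 1404) (nat_lit 1140) (nat_lit 0) (XT.nd (nat_lit 702) (nat_lit 1368) (nat_lit 0) (XT.nd (nat_lit 312) (nat_lit 1216) (nat_lit 0) (XT.nd (nat_lit 156) (nat_lit 684) (nat_lit 0) (XT.nd (nat_lit 78) (nat_lit 608) (nat_lit 0) (XT.lf (nat_lit 0) (nat_lit 2106179591) (nat_lit 608) (nat_lit 3020993286) (nat_lit 76) (nat_lit 4203937484) (nat_lit 73) (nat_lit 5) (nat_lit 81) (nat_lit 5) (nat_lit 74) (nat_lit 5) (nat_lit 253) (nat_lit 246) (nat_lit 221)) (XT.lf (nat_lit 0) (nat_lit 3928360614) (nat_lit 608) (nat_lit 390661710) (nat_lit 684) (nat_lit 5371841315) (nat_lit 65) (nat_lit 5) (nat_lit 73) (nat_lit 5) (nat_lit 74) (nat_lit 5) (nat_lit 254) (nat_lit 246) (nat_lit 220))) (XT.nd (nat_lit 78) (nat_lit 0) (nat_lit 0) (XT.lf (nat_lit 0) (nat_lit 1317657888) (nat_lit 684) (nat_lit 5413730415) (nat_lit 760) (nat_lit 3347465265) (nat_lit 56) (nat_lit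 5) (nat_lit 65) (nat_lit 5) (nat_lit 66) (nat_lit 5) (nat_lit 255) (nat_lit 246) (nat_lit 219)) (XT.lf (nat_lit 0) (nat_lit 9053525433) (nat_lit 684) (nat_lit 272319694) (nat_lit 760) (nat_lit 1173120619) (nat_lit 56) (nat_lit 5) (nat_lit 65) (nat_lit 5) (nat_lit 66) (nat_lit 5) (nat_lit 256) (nat_lit 246) (nat_lit 218)))) (XT.nd (nat_lit 156) (nat_lit 532) (nat_lit 0) (XT.nd (nat_lit 78) (nat_lit 304) (nat_lit 0) (XT.lf (nat_lit 0) (nat_lit 1212878747) (nat_lit 380) (nat_lit 4496339852) (nat_lit 76) (nat_lit 5239259453) (nat_lit 51) (nat_lit 5) (nat_lit 56) (nat_lit 5) (nat_lit 52) (nat_lit 5) (nat_lit 257) (nat_lit 246) (nat_lit 217)) (XT.lf (nat_lit 0) (nat_lit 3583514930) (nat_lit 304) (nat_lit 147239805) (nat_lit 380) (nat_lit 7703569571) (nat_lit 47) (nat_lit 5) (nat_lit 51) (nat_lit 5) (nat_lit 52) (nat_lit 5) (nat_lit 258) (nat_lit 246) (nat_lit 216))) (XT.nd (nat_lit 78) (nat_lit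 304) (nat_lit 0) (XT.lf (nat_lit 0) (nat_lit 325374885) (nat_lit 228) (nat_lit 6202367872) (nat_lit 304) (nat_lit 5427818249) (nat_lit 44) (nat_lit 5) (nat_lit 47) (nat_lit 5) (nat_lit 48) (nat_lit 5) (nat_lit 259) (nat_lit 246) (nat_lit 215)) (XT.nd (nat_lit 78) (nat_lit 304) (nat_lit 0) (XT.lf (nat_lit 0) (nat_lit 9330641646) (nat_lit 228) (nat_lit 264245939) (nat_lit 304) (nat_lit 2921665876) (nat_lit 44) (nat_lit 5) (nat_lit 47) (nat_lit 5) (nat_lit 48) (nat_lit 5) (nat_lit 260) (nat_lit 246) (nat_lit 214)) (XT.lf (nat_lit 0) (nat_lit 5927950604) (nat_lit 304) (nat_lit 7081935959) (nat_lit 380) (nat_lit 107763424) (nat_lit 40) (nat_lit 5) (nat_lit 44) (nat_lit 5) (nat_lit 45) (nat_lit 5) (nat_lit 261) (nat_lit 246) (nat_lit 213)))))) (XT.nd (nat_lit 312) (nat_lit 608) (nat_lit 0) (XT.nd (nat_lit 156) (nat_lit 456) (nat_lit 0) (XT.nd (nat_lit 78) (nat_lit 0) (nat_lit 0) (XT.lf (nat_lit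 0) (nat_lit 2036276105) (nat_lit 228) (nat_lit 810982838) (nat_lit 304) (nat_lit 10917103322) (nat_lit 36) (nat_lit 5) (nat_lit 39) (nat_lit 5) (nat_lit 40) (nat_lit 5) (nat_lit 262) (nat_lit 246) (nat_lit 212)) (XT.lf (nat_lit 0) (nat_lit 6176917964) (nat_lit 304) (nat_lit 2394491207) (nat_lit 76) (nat_lit 5884498307) (nat_lit 36) (nat_lit 5) (nat_lit 40) (nat_lit 5) (nat_lit 37) (nat_lit 5) (nat_lit 263) (nat_lit 246) (nat_lit 211))) (XT.nd (nat_lit 78) (nat_lit 228) (nat_lit 0) (XT.lf (nat_lit 0) (nat_lit 7831988355) (nat_lit 228) (nat_lit 2004312371) (nat_lit 304) (nat_lit 5363571737) (nat_lit 33) (nat_lit 5) (nat_lit 36) (nat_lit 5) (nat_lit 37) (nat_lit 5) (nat_lit 264) (nat_lit 246) (nat_lit 210)) (XT.lf (nat_lit 0) (nat_lit 2882721987) (nat_lit 228) (nat_lit 11003687799) (nat_lit 304) (nat_lit 2112290248) (nat_lit 30) (nat_lit 5) (nat_lit 33) (nat_lit 5) (nat_lit 34) (nat_lit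 5) (nat_lit 265) (nat_lit 246) (nat_lit 209)))) (XT.nd (nat_lit 156) (nat_lit 304) (nat_lit 0) (XT.nd (nat_lit 78) (nat_lit 228) (nat_lit 0) (XT.lf (nat_lit 0) (nat_lit 1452159120) (nat_lit 304) (nat_lit 2785011054) (nat_lit 76) (nat_lit 12618494514) (nat_lit 29) (nat_lit 5) (nat_lit 33) (nat_lit 5) (nat_lit 30) (nat_lit 5) (nat_lit 266) (nat_lit 246) (nat_lit 208)) (XT.lf (nat_lit 0) (nat_lit 5350793872) (nat_lit 304) (nat_lit 9298813919) (nat_lit 76) (nat_lit 3123895016) (nat_lit 26) (nat_lit 5) (nat_lit 30) (nat_lit 5) (nat_lit 27) (nat_lit 5) (nat_lit 267) (nat_lit 246) (nat_lit 207))) (XT.nd (nat_lit 78) (nat_lit 152) (nat_lit 0) (XT.lf (nat_lit 0) (nat_lit 1878804484) (nat_lit 152) (nat_lit 7774130627) (nat_lit 228) (nat_lit 9107436681) (nat_lit 24) (nat_lit 5) (nat_lit 26) (nat_lit 5) (nat_lit 27) (nat_lit 5) (nat_lit 268) (nat_lit 246) (nat_lit 206)) (XT.nd (nat_lit 78) (nat_lit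 152) (nat_lit 0) (XT.lf (nat_lit 0) (nat_lit 14204864265) (nat_lit 152) (nat_lit 201006425) (nat_lit 228) (nat_lit 5415159380) (nat_lit 24) (nat_lit 5) (nat_lit 26) (nat_lit 5) (nat_lit 27) (nat_lit 5) (nat_lit 269) (nat_lit 246) (nat_lit 205)) (XT.lf (nat_lit 0) (nat_lit 6561459974) (nat_lit 152) (nat_lit 13153001699) (nat_lit 228) (nat_lit 1243466577) (nat_lit 22) (nat_lit 5) (nat_lit 24) (nat_lit 5) (nat_lit 25) (nat_lit 5) (nat_lit 270) (nat_lit 246) (nat_lit 204))))))) (XT.nd (nat_lit 702) (nat_lit 456) (nat_lit 0) (XT.nd (nat_lit 312) (nat_lit 304) (nat_lit 0) (XT.nd (nat_lit 156) (nat_lit 152) (nat_lit 0) (XT.nd (nat_lit 78) (nat_lit 152) (nat_lit 0) (XT.lf (nat_lit 0) (nat_lit 3210566735) (nat_lit 228) (nat_lit 2395968924) (nat_lit 76) (nat_lit 16574185361) (nat_lit 21) (nat_lit 5) (nat_lit 24) (nat_lit 5) (nat_lit 22) (nat_lit 5) (nat_lit 271) (nat_lit 246) (nat_lit 203)) (XT.lf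 (nat_lit 0) (nat_lit 8143274915) (nat_lit 228) (nat_lit 12714380524) (nat_lit 76) (nat_lit 2634495901) (nat_lit 19) (nat_lit 5) (nat_lit 22) (nat_lit 5) (nat_lit 20) (nat_lit 5) (nat_lit 272) (nat_lit 246) (nat_lit 202))) (XT.nd (nat_lit 78) (nat_lit 0) (nat_lit 0) (XT.lf (nat_lit 0) (nat_lit 23448926) (nat_lit 152) (nat_lit 13540429021) (nat_lit 228) (nat_lit 11340073884) (nat_lit 17) (nat_lit 5) (nat_lit 19) (nat_lit 5) (nat_lit 20) (nat_lit 5) (nat_lit 273) (nat_lit 246) (nat_lit 201)) (XT.lf (nat_lit 0) (nat_lit 14170586593) (nat_lit 152) (nat_lit 5427241506) (nat_lit 228) (nat_lit 6821994107) (nat_lit 17) (nat_lit 5) (nat_lit 19) (nat_lit 5) (nat_lit 20) (nat_lit 5) (nat_lit 274) (nat_lit 246) (nat_lit 200)))) (XT.nd (nat_lit 156) (nat_lit 152) (nat_lit 0) (XT.nd (nat_lit 78) (nat_lit 76) (nat_lit 0) (XT.lf (nat_lit 0) (nat_lit 1322035842) (nat_lit 76) (nat_lit 24826167452) (nat_lit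 152) (nat_lit 1907176051) (nat_lit 16) (nat_lit 5) (nat_lit 17) (nat_lit 5) (nat_lit 18) (nat_lit 4) (nat_lit 275) (nat_lit 246) (nat_lit 199)) (XT.lf (nat_lit 0) (nat_lit 3562647254) (nat_lit 152) (nat_lit 13602234390) (nat_lit 76) (nat_lit 12640801674) (nat_lit 15) (nat_lit 5) (nat_lit 17) (nat_lit 5) (nat_lit 16) (nat_lit 5) (nat_lit 276) (nat_lit 246) (nat_lit 198))) (XT.nd (nat_lit 78) (nat_lit 0) (nat_lit 0) (XT.lf (nat_lit 0) (nat_lit 508441516) (nat_lit 152) (nat_lit 8868704724) (nat_lit 228) (nat_lit 22318690473) (nat_lit 13) (nat_lit 5) (nat_lit 15) (nat_lit 5) (nat_lit 16) (nat_lit 5) (nat_lit 277) (nat_lit 246) (nat_lit 197)) (XT.nd (nat_lit 78) (nat_lit 0) (nat_lit 0) (XT.lf (nat_lit 0) (nat_lit 15865592195) (nat_lit 228) (nat_lit 17551036215) (nat_lit 76) (nat_lit 310212175) (nat_lit 13) (nat_lit 5) (nat_lit 16) (nat_lit 5) (nat_lit 14) (nat_lit 4) (nat_lit 278) (nat_lit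 246) (nat_lit 196)) (XT.lf (nat_lit 0) (nat_lit 22991672350) (nat_lit 228) (nat_lit 3023381614) (nat_lit 76) (nat_lit 9899414686) (nat_lit 13) (nat_lit 5) (nat_lit 16) (nat_lit 5) (nat_lit 14) (nat_lit 4) (nat_lit 279) (nat_lit 246) (nat_lit 195)))))) (XT.nd (nat_lit 312) (nat_lit 152) (nat_lit 0) (XT.nd (nat_lit 156) (nat_lit 228) (nat_lit 0) (XT.nd (nat_lit 78) (nat_lit 0) (nat_lit 0) (XT.lf (nat_lit 0) (nat_lit 13037402030) (nat_lit 76) (nat_lit 17825298347) (nat_lit 152) (nat_lit 7405730003) (nat_lit 12) (nat_lit 5) (nat_lit 13) (nat_lit 5) (nat_lit 14) (nat_lit 4) (nat_lit 280) (nat_lit 246) (nat_lit 194)) (XT.lf (nat_lit 0) (nat_lit 30446665559) (nat_lit 76) (nat_lit 8942154250) (nat_lit 152) (nat_lit 1420680348) (nat_lit 12) (nat_lit 5) (nat_lit 13) (nat_lit 5) (nat_lit 14) (nat_lit 4) (nat_lit 281) (nat_lit 246) (nat_lit 193))) (XT.nd (nat_lit 78) (nat_lit 0) (nat_lit 0) (XT.lf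 (nat_lit 0) (nat_lit 4958643846) (nat_lit 228) (nat_lit 37801031933) (nat_lit 76) (nat_lit 786452946) (nat_lit 9) (nat_lit 5) (nat_lit 12) (nat_lit 5) (nat_lit 10) (nat_lit 4) (nat_lit 282) (nat_lit 246) (nat_lit 192)) (XT.lf (nat_lit 0) (nat_lit 12108785841) (nat_lit 228) (nat_lit 23199809944) (nat_lit 76) (nat_lit 11176465293) (nat_lit 9) (nat_lit 5) (nat_lit 12) (nat_lit 5) (nat_lit 10) (nat_lit 4) (nat_lit 283) (nat_lit 246) (nat_lit 191)))) (XT.nd (nat_lit 156) (nat_lit 76) (nat_lit 0) (XT.nd (nat_lit 78) (nat_lit 76) (nat_lit 0) (XT.lf (nat_lit 0) (nat_lit 19808092867) (nat_lit 228) (nat_lit 7468609336) (nat_lit 76) (nat_lit 22383594678) (nat_lit 9) (nat_lit 5) (nat_lit 12) (nat_lit 5) (nat_lit 10) (nat_lit 4) (nat_lit 284) (nat_lit 246) (nat_lit 190)) (XT.lf (nat_lit 0) (nat_lit 9799434936) (nat_lit 76) (nat_lit 18455752154) (nat_lit 152) (nat_lit 24827815425) (nat_lit 8) (nat_lit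 5) (nat_lit 9) (nat_lit 5) (nat_lit 10) (nat_lit 4) (nat_lit 285) (nat_lit 246) (nat_lit 189))) (XT.nd (nat_lit 78) (nat_lit 76) (nat_lit 0) (XT.lf (nat_lit 0) (nat_lit 28681862780) (nat_lit 76) (nat_lit 8806170270) (nat_lit 152) (nat_lit 19286032246) (nat_lit 8) (nat_lit 5) (nat_lit 9) (nat_lit 5) (nat_lit 10) (nat_lit 4) (nat_lit 286) (nat_lit 246) (nat_lit 188)) (XT.nd (nat_lit 78) (nat_lit 76) (nat_lit 0) (XT.lf (nat_lit 0) (nat_lit 47465905757) (nat_lit 152) (nat_lit 11742780441) (nat_lit 0) (nat_lit 1551443899) (nat_lit 8) (nat_lit 5) (nat_lit 10) (nat_lit 4) (nat_lit 8) (nat_lit 4) (nat_lit 287) (nat_lit 246) (nat_lit 187)) (XT.lf (nat_lit 0) (nat_lit 5926121274) (nat_lit 76) (nat_lit 52539471158) (nat_lit 76) (nat_lit 6588342654) (nat_lit 7) (nat_lit 4) (nat_lit 8) (nat_lit 5) (nat_lit 8) (nat_lit 4) (nat_lit 288) (nat_lit 246) (nat_lit 186))))))))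
noncomputable def xc63 : XT := (XT.nd (nat_lit 1404) (nat_lit 0) (nat_lit 0) (XT.nd (nat_lit 702) (nat_lit 152) (nat_lit 0) (XT.nd (nat_lit 312) (nat_lit 76) (nat_lit 0) (XT.nd (nat_lit 156) (nat_lit 76) (nat_lit 0) (XT.nd (nat_lit 78) (nat_lit 0) (nat_lit 0) (XT.lf (nat_lit 0) (nat_lit 824100337) (nat_lit 152) (nat_lit 44295673410) (nat_lit 76) (nat_lit 24561439194) (nat_lit 6) (nat_lit 5) (nat_lit 8) (nat_lit 5) (nat_lit 7) (nat_lit 4) (nat_lit 289) (nat_lit 246) (nat_lit 185)) (XT.lf (nat_lit 0) (nat_lit 8586169910) (nat_lit 152) (nat_lit 28414866526) (nat_lit 76) (nat_lit 37672891515) (nat_lit 6) (nat_lit 5) (nat_lit 8) (nat_lit 5) (nat_lit 7) (nat_lit 4) (nat_lit 290) (nat_lit 246) (nat_lit 184))) (XT.nd (nat_lit 78) (nat_lit 76) (nat_lit 0) (XT.lf (nat_lit 0) (nat_lit 16954731622) (nat_lit 152) (nat_lit 11288422181) (nat_lit 76) (nat_lit 51823655894) (nat_lit 6) (nat_lit 5) (nat_lit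 8) (nat_lit 5) (nat_lit 7) (nat_lit 4) (nat_lit 291) (nat_lit 246) (nat_lit 183)) (XT.lf (nat_lit 0) (nat_lit 7422723159) (nat_lit 76) (nat_lit 18672543302) (nat_lit 152) (nat_lit 59790755064) (nat_lit 5) (nat_lit 5) (nat_lit 6) (nat_lit 5) (nat_lit 7) (nat_lit 4) (nat_lit 292) (nat_lit 246) (nat_lit 182)))) (XT.nd (nat_lit 156) (nat_lit 76) (nat_lit 0) (XT.nd (nat_lit 78) (nat_lit 0) (nat_lit 0) (XT.lf (nat_lit 0) (nat_lit 28011877029) (nat_lit 76) (nat_lit 8139052151) (nat_lit 152) (nat_lit 56010669041) (nat_lit 5) (nat_lit 5) (nat_lit 6) (nat_lit 5) (nat_lit 7) (nat_lit 4) (nat_lit 293) (nat_lit 246) (nat_lit 181)) (XT.lf (nat_lit 0) (nat_lit 47049644518) (nat_lit 152) (nat_lit 48762435898) (nat_lit 0) (nat_lit 3125231188) (nat_lit 5) (nat_lit 5) (nat_lit 7) (nat_lit 4) (nat_lit 5) (nat_lit 4) (nat_lit 294) (nat_lit 246) (nat_lit 180))) (XT.nd (nat_lit 78) (nat_lit 76) (nat_lit 0)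 (XT.lf (nat_lit 0) (nat_lit 58946439995) (nat_lit 152) (nat_lit 32300701110) (nat_lit 0) (nat_lit 15001650821) (nat_lit 5) (nat_lit 5) (nat_lit 7) (nat_lit 4) (nat_lit 5) (nat_lit 4) (nat_lit 295) (nat_lit 246) (nat_lit 179)) (XT.nd (nat_lit 78) (nat_lit 76) (nat_lit 0) (XT.lf (nat_lit 0) (nat_lit 71784741725) (nat_lit 152) (nat_lit 14539892393) (nat_lit 0) (nat_lit 27821086029) (nat_lit 5) (nat_lit 5) (nat_lit 7) (nat_lit 4) (nat_lit 5) (nat_lit 4) (nat_lit 296) (nat_lit 246) (nat_lit 178)) (XT.lf (nat_lit 0) (nat_lit 4778170794) (nat_lit 76) (nat_lit 80937058375) (nat_lit 76) (nat_lit 36955933677) (nat_lit 4) (nat_lit 4) (nat_lit 5) (nat_lit 5) (nat_lit 5) (nat_lit 4) (nat_lit 297) (nat_lit 246) (nat_lit 177)))))) (XT.nd (nat_lit 312) (nat_lit 152) (nat_lit 0) (XT.nd (nat_lit 156) (nat_lit 0) (nat_lit 0) (XT.nd (nat_lit 78) (nat_lit 0) (nat_lit 0) (XT.lf (nat_lit 0) (nat_lit 26145071248)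 (nat_lit 76) (nat_lit 74859335963) (nat_lit 76) (nat_lit 30862036263) (nat_lit 4) (nat_lit 4) (nat_lit 5) (nat_lit 5) (nat_lit 5) (nat_lit 4) (nat_lit 298) (nat_lit 246) (nat_lit 176)) (XT.lf (nat_lit 0) (nat_lit 49206673131) (nat_lit 76) (nat_lit 68301690863) (nat_lit 76) (nat_lit 24289414310) (nat_lit 4) (nat_lit 4) (nat_lit 5) (nat_lit 5) (nat_lit 5) (nat_lit 4) (nat_lit 299) (nat_lit 246) (nat_lit 175))) (XT.nd (nat_lit 78) (nat_lit 0) (nat_lit 0) (XT.lf (nat_lit 0) (nat_lit 74099637786) (nat_lit 76) (nat_lit 61225262955) (nat_lit 76) (nat_lit 17199118945) (nat_lit 4) (nat_lit 4) (nat_lit 5) (nat_lit 5) (nat_lit 5) (nat_lit 4) (nat_lit 300) (nat_lit 246) (nat_lit 174)) (XT.lf (nat_lit 0) (nat_lit 100971479079) (nat_lit 76) (nat_lit 53588117852) (nat_lit 76) (nat_lit 9549133604) (nat_lit 4) (nat_lit 4) (nat_lit 5) (nat_lit 5) (nat_lit 5) (nat_lit 4) (nat_lit 301) (nat_lit 246) (nat_lit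 173)))) (XT.nd (nat_lit 156) (nat_lit 76) (nat_lit 0) (XT.nd (nat_lit 78) (nat_lit 76) (nat_lit 0) (XT.lf (nat_lit 0) (nat_lit 129981437550) (nat_lit 76) (nat_lit 45344998398) (nat_lit 76) (nat_lit 1294125041) (nat_lit 4) (nat_lit 4) (nat_lit 5) (nat_lit 5) (nat_lit 5) (nat_lit 4) (nat_lit 302) (nat_lit 246) (nat_lit 172)) (XT.lf (nat_lit 0) (nat_lit 7371103347) (nat_lit 152) (nat_lit 28951119929) (nat_lit 76) (nat_lit 153805487516) (nat_lit 3) (nat_lit 5) (nat_lit 5) (nat_lit 5) (nat_lit 4) (nat_lit 4) (nat_lit 303) (nat_lit 246) (nat_lit 171))) (XT.nd (nat_lit 78) (nat_lit 76) (nat_lit 0) (XT.lf (nat_lit 0) (nat_lit 16679027272) (nat_lit 152) (nat_lit 9880068877) (nat_lit 76) (nat_lit 178155543873) (nat_lit 3) (nat_lit 5) (nat_lit 5) (nat_lit 5) (nat_lit 4) (nat_lit 4) (nat_lit 304) (nat_lit 246) (nat_lit 170)) (XT.nd (nat_lit 78) (nat_lit 0) (nat_lit 0) (XT.lf (nat_lit 0) (nat_lit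 11061278254) (nat_lit 76) (nat_lit 15837644184) (nat_lit 152) (nat_lit 193561242674) (nat_lit 2) (nat_lit 5) (nat_lit 3) (nat_lit 5) (nat_lit 4) (nat_lit 4) (nat_lit 305) (nat_lit 246) (nat_lit 169)) (XT.lf (nat_lit 0) (nat_lit 34021738534) (nat_lit 76) (nat_lit 4081671284) (nat_lit 152) (nat_lit 199353580126) (nat_lit 2) (nat_lit 5) (nat_lit 3) (nat_lit 5) (nat_lit 4) (nat_lit 4) (nat_lit 306) (nat_lit 246) (nat_lit 168))))))) (XT.nd (nat_lit 702) (nat_lit 0) (nat_lit 0) (XT.nd (nat_lit 312) (nat_lit 0) (nat_lit 0) (XT.nd (nat_lit 156) (nat_lit 0) (nat_lit 0) (XT.nd (nat_lit 78) (nat_lit 0) (nat_lit 0) (XT.lf (nat_lit 0) (nat_lit 50333974826) (nat_lit 152) (nat_lit 197137554389) (nat_lit 0) (nat_lit 8335552805) (nat_lit 2) (nat_lit 5) (nat_lit 4) (nat_lit 4) (nat_lit 2) (nat_lit 4) (nat_lit 307) (nat_lit 246) (nat_lit 167)) (XT.lf (nat_lit 0) (nat_lit 63607381494) (nat_lit 152) (nat_lit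 190412762719) (nat_lit 0) (nat_lit 21601824087) (nat_lit 2) (nat_lit 5) (nat_lit 4) (nat_lit 4) (nat_lit 2) (nat_lit 4) (nat_lit 308) (nat_lit 246) (nat_lit 166))) (XT.nd (nat_lit 78) (nat_lit 0) (nat_lit 0) (XT.lf (nat_lit 0) (nat_lit 77938560719) (nat_lit 152) (nat_lit 183157299453) (nat_lit 0) (nat_lit 35926396473) (nat_lit 2) (nat_lit 5) (nat_lit 4) (nat_lit 4) (nat_lit 2) (nat_lit 4) (nat_lit 309) (nat_lit 246) (nat_lit 165)) (XT.lf (nat_lit 0) (nat_lit 93412438007) (nat_lit 152) (nat_lit 175328169255) (nat_lit 0) (nat_lit 51394156317) (nat_lit 2) (nat_lit 5) (nat_lit 4) (nat_lit 4) (nat_lit 2) (nat_lit 4) (nat_lit 310) (nat_lit 246) (nat_lit 164)))) (XT.nd (nat_lit 156) (nat_lit 0) (nat_lit 0) (XT.nd (nat_lit 78) (nat_lit 0) (nat_lit 0) (XT.lf (nat_lit 0) (nat_lit 110120710409) (nat_lit 152) (nat_lit 166878977278) (nat_lit 0) (nat_lit 68096764419) (nat_lit 2) (nat_lit 5) (nat_lit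 4) (nat_lit 4) (nat_lit 2) (nat_lit 4) (nat_lit 311) (nat_lit 246) (nat_lit 163)) (XT.lf (nat_lit 0) (nat_lit 128162389909) (nat_lit 152) (nat_lit 157759654238) (nat_lit 0) (nat_lit 86133199198) (nat_lit 2) (nat_lit 5) (nat_lit 4) (nat_lit 4) (nat_lit 2) (nat_lit 4) (nat_lit 312) (nat_lit 246) (nat_lit 162))) (XT.nd (nat_lit 78) (nat_lit 0) (nat_lit 0) (XT.lf (nat_lit 0) (nat_lit 147644390164) (nat_lit 152) (nat_lit 147916159700) (nat_lit 0) (nat_lit 105610343229) (nat_lit 2) (nat_lit 5) (nat_lit 4) (nat_lit 4) (nat_lit 2) (nat_lit 4) (nat_lit 313) (nat_lit 246) (nat_lit 161)) (XT.nd (nat_lit 78) (nat_lit 0) (nat_lit 0) (XT.lf (nat_lit 0) (nat_lit 168682160064) (nat_lit 152) (nat_lit 137290161846) (nat_lit 0) (nat_lit 126643616626) (nat_lit 2) (nat_lit 5) (nat_lit 4) (nat_lit 4) (nat_lit 2) (nat_lit 4) (nat_lit 314) (nat_lit 246) (nat_lit 160)) (XT.lf (nat_lit 0) (nat_lit 191400367876)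 (nat_lit 152) (nat_lit 125818691800) (nat_lit 0) (nat_lit 149357661008) (nat_lit 2) (nat_lit 5) (nat_lit 4) (nat_lit 4) (nat_lit 2) (nat_lit 4) (nat_lit 315) (nat_lit 246) (nat_lit 159)))))) (XT.nd (nat_lit 390) (nat_lit 0) (nat_lit 0) (XT.nd (nat_lit 156) (nat_lit 0) (nat_lit 0) (XT.nd (nat_lit 78) (nat_lit 0) (nat_lit 0) (XT.lf (nat_lit 0) (nat_lit 215933640015) (nat_lit 152) (nat_lit 113433770480) (nat_lit 0) (nat_lit 173887078120) (nat_lit 2) (nat_lit 5) (nat_lit 4) (nat_lit 4) (nat_lit 2) (nat_lit 4) (nat_lit 316) (nat_lit 246) (nat_lit 158)) (XT.lf (nat_lit 0) (nat_lit 242427358836) (nat_lit 152) (nat_lit 100062005758) (nat_lit 0) (nat_lit 200377227471) (nat_lit 2) (nat_lit 5) (nat_lit 4) (nat_lit 4) (nat_lit 2) (nat_lit 4) (nat_lit 317) (nat_lit 246) (nat_lit 157))) (XT.nd (nat_lit 78) (nat_lit 0) (nat_lit 0) (XT.lf (nat_lit 0) (nat_lit 271038524153) (nat_lit 152) (nat_lit 85624157549)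 (nat_lit 0) (nat_lit 228985087724) (nat_lit 2) (nat_lit 5) (nat_lit 4) (nat_lit 4) (nat_lit 2) (nat_lit 4) (nat_lit 318) (nat_lit 246) (nat_lit 156)) (XT.nd (nat_lit 78) (nat_lit 0) (nat_lit 0) (XT.lf (nat_lit 0) (nat_lit 301936683613) (nat_lit 152) (nat_lit 70034668234) (nat_lit 0) (nat_lit 259880186939) (nat_lit 2) (nat_lit 5) (nat_lit 4) (nat_lit 4) (nat_lit 2) (nat_lit 4) (nat_lit 319) (nat_lit 246) (nat_lit 155)) (XT.lf (nat_lit 0) (nat_lit 335304937420) (nat_lit 152) (nat_lit 53201155652) (nat_lit 0) (nat_lit 293245607186) (nat_lit 2) (nat_lit 5) (nat_lit 4) (nat_lit 4) (nat_lit 2) (nat_lit 4) (nat_lit 320) (nat_lit 246) (nat_lit 154))))) (XT.nd (nat_lit 31746) (nat_lit 0) (nat_lit 5776) (XT.nd (nat_lit 78) (nat_lit 0) (nat_lit 0) (XT.lf (nat_lit 0) (nat_lit 371341023375) (nat_lit 152) (nat_lit 35023865656) (nat_lit 0) (nat_lit 329279069474) (nat_lit 2) (nat_lit 5) (nat_lit 4) (nat_lit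 4) (nat_lit 2) (nat_lit 4) (nat_lit 321) (nat_lit 246) (nat_lit 153)) (XT.lf (nat_lit 0) (nat_lit 410258488653) (nat_lit 152) (nat_lit 15395080971) (nat_lit 0) (nat_lit 368194105432) (nat_lit 2) (nat_lit 5) (nat_lit 4) (nat_lit 4) (nat_lit 2) (nat_lit 4) (nat_lit 322) (nat_lit 246) (nat_lit 152))) (XT.nd (nat_lit 78) (nat_lit 0) (nat_lit 0) (XT.lf (nat_lit 0) (nat_lit 54297707) (nat_lit 0) (nat_lit 54297707) (nat_lit 532) (nat_lit 3847085068) (nat_lit 78) (nat_lit 5) (nat_lit 78) (nat_lit 3) (nat_lit 85) (nat_lit 3) (nat_lit 247) (nat_lit 247) (nat_lit 226)) (XT.nd (nat_lit 78) (nat_lit 0) (nat_lit 0) (XT.lf (nat_lit 0) (nat_lit 2028764850) (nat_lit 532) (nat_lit 2606422850) (nat_lit 608) (nat_lit 3493521261) (nat_lit 78) (nat_lit 5) (nat_lit 85) (nat_lit 3) (nat_lit 86) (nat_lit 5) (nat_lit 248) (nat_lit 247) (nat_lit 225)) (XT.lf (nat_lit 76) (nat_lit 3001496189) (nat_lit 0) (nat_lit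 859087625) (nat_lit 608) (nat_lit 4509991674) (nat_lit 79) (nat_lit 5) (nat_lit 78) (nat_lit 5) (nat_lit 86) (nat_lit 5) (nat_lit 249) (nat_lit 247) (nat_lit 224))))))))
noncomputable def xc64 : XT := (XT.nd (nat_lit 1404) (nat_lit 1520) (nat_lit 0) (XT.nd (nat_lit 702) (nat_lit 1672) (nat_lit 0) (XT.nd (nat_lit 312) (nat_lit 1596) (nat_lit 0) (XT.nd (nat_lit 156) (nat_lit 532) (nat_lit 0) (XT.nd (nat_lit 78) (nat_lit 0) (nat_lit 0) (XT.lf (nat_lit 76) (nat_lit 378635070) (nat_lit 0) (nat_lit 5401690320) (nat_lit 608) (nat_lit 2855227318) (nat_lit 80) (nat_lit 5) (nat_lit 79) (nat_lit 5) (nat_lit 87) (nat_lit 5) (nat_lit 250) (nat_lit 247) (nat_lit 223)) (XT.lf (nat_lit 76) (nat_lit 6663371033) (nat_lit 0) (nat_lit 1147480258) (nat_lit 608) (nat_lit 1113785293) (nat_lit 80) (nat_lit 5) (nat_lit 79) (nat_lit 5) (nat_lit 87) (nat_lit 5) (nat_lit 251) (nat_lit 247) (nat_lit 222))) (XT.nd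 (nat_lit 78) (nat_lit 0) (nat_lit 0) (XT.lf (nat_lit 0) (nat_lit 722031428) (nat_lit 608) (nat_lit 5056328750) (nat_lit 684) (nat_lit 3459585791) (nat_lit 72) (nat_lit 5) (nat_lit 80) (nat_lit 5) (nat_lit 81) (nat_lit 5) (nat_lit 252) (nat_lit 247) (nat_lit 221)) (XT.lf (nat_lit 76) (nat_lit 1556112674) (nat_lit 0) (nat_lit 1061100907) (nat_lit 684) (nat_lit 6961245176) (nat_lit 73) (nat_lit 5) (nat_lit 72) (nat_lit 5) (nat_lit 81) (nat_lit 5) (nat_lit 253) (nat_lit 247) (nat_lit 220)))) (XT.nd (nat_lit 156) (nat_lit 1064) (nat_lit 0) (XT.nd (nat_lit 78) (nat_lit 608) (nat_lit 0) (XT.lf (nat_lit 0) (nat_lit 4692573314) (nat_lit 608) (nat_lit 1232193937) (nat_lit 76) (nat_lit 4020598347) (nat_lit 73) (nat_lit 5) (nat_lit 81) (nat_lit 5) (nat_lit 74) (nat_lit 5) (nat_lit 254) (nat_lit 247) (nat_lit 219)) (XT.lf (nat_lit 0) (nat_lit 6184866141) (nat_lit 608) (nat_lit 748797426) (nat_lit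 684) (nat_lit 3408514463) (nat_lit 65) (nat_lit 5) (nat_lit 73) (nat_lit 5) (nat_lit 74) (nat_lit 5) (nat_lit 255) (nat_lit 247) (nat_lit 218))) (XT.nd (nat_lit 78) (nat_lit 380) (nat_lit 0) (XT.lf (nat_lit 0) (nat_lit 3404349500) (nat_lit 684) (nat_lit 5992794204) (nat_lit 760) (nat_lit 1371934889) (nat_lit 56) (nat_lit 5) (nat_lit 65) (nat_lit 5) (nat_lit 66) (nat_lit 5) (nat_lit 256) (nat_lit 247) (nat_lit 217)) (XT.nd (nat_lit 78) (nat_lit 0) (nat_lit 0) (XT.lf (nat_lit 0) (nat_lit 380454189) (nat_lit 304) (nat_lit 409739703) (nat_lit 380) (nat_lit 10440275151) (nat_lit 51) (nat_lit 5) (nat_lit 55) (nat_lit 5) (nat_lit 56) (nat_lit 5) (nat_lit 257) (nat_lit 247) (nat_lit 216)) (XT.lf (nat_lit 0) (nat_lit 3199167589) (nat_lit 380) (nat_lit 2926018813) (nat_lit 76) (nat_lit 5596769607) (nat_lit 51) (nat_lit 5) (nat_lit 56) (nat_lit 5) (nat_lit 52) (nat_lit 5) (nat_lit 258) (nat_lit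 247) (nat_lit 215)))))) (XT.nd (nat_lit 312) (nat_lit 760) (nat_lit 0) (XT.nd (nat_lit 156) (nat_lit 380) (nat_lit 0) (XT.nd (nat_lit 78) (nat_lit 228) (nat_lit 0) (XT.lf (nat_lit 0) (nat_lit 5716347677) (nat_lit 304) (nat_lit 91004501) (nat_lit 380) (nat_lit 6445461812) (nat_lit 47) (nat_lit 5) (nat_lit 51) (nat_lit 5) (nat_lit 52) (nat_lit 5) (nat_lit 259) (nat_lit 247) (nat_lit 214)) (XT.lf (nat_lit 0) (nat_lit 2208382264) (nat_lit 228) (nat_lit 6517978980) (nat_lit 304) (nat_lit 4095019682) (nat_lit 44) (nat_lit 5) (nat_lit 47) (nat_lit 5) (nat_lit 48) (nat_lit 5) (nat_lit 260) (nat_lit 247) (nat_lit 213))) (XT.nd (nat_lit 78) (nat_lit 380) (nat_lit 0) (XT.lf (nat_lit 0) (nat_lit 11796516486) (nat_lit 228) (nat_lit 118183464) (nat_lit 304) (nat_lit 1519265787) (nat_lit 44) (nat_lit 5) (nat_lit 47) (nat_lit 5) (nat_lit 48) (nat_lit 5) (nat_lit 261) (nat_lit 247) (nat_lit 212)) (XT.lf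 (nat_lit 0) (nat_lit 1383581499) (nat_lit 380) (nat_lit 5985561684) (nat_lit 76) (nat_lit 6717641230) (nat_lit 39) (nat_lit 5) (nat_lit 44) (nat_lit 5) (nat_lit 40) (nat_lit 5) (nat_lit 262) (nat_lit 247) (nat_lit 211)))) (XT.nd (nat_lit 156) (nat_lit 532) (nat_lit 0) (XT.nd (nat_lit 78) (nat_lit 0) (nat_lit 0) (XT.lf (nat_lit 0) (nat_lit 3899426920) (nat_lit 228) (nat_lit 587566689) (nat_lit 304) (nat_lit 10302775146) (nat_lit 36) (nat_lit 5) (nat_lit 39) (nat_lit 5) (nat_lit 40) (nat_lit 5) (nat_lit 263) (nat_lit 247) (nat_lit 210)) (XT.lf (nat_lit 0) (nat_lit 7982603845) (nat_lit 304) (nat_lit 945781865) (nat_lit 76) (nat_lit 6613654045) (nat_lit 36) (nat_lit 5) (nat_lit 40) (nat_lit 5) (nat_lit 37) (nat_lit 5) (nat_lit 264) (nat_lit 247) (nat_lit 209))) (XT.nd (nat_lit 78) (nat_lit 304) (nat_lit 0) (XT.lf (nat_lit 0) (nat_lit 10027531985) (nat_lit 228) (nat_lit 1834550938) (nat_lit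 304) (nat_lit 4487424598) (nat_lit 33) (nat_lit 5) (nat_lit 36) (nat_lit 5) (nat_lit 37) (nat_lit 5) (nat_lit 265) (nat_lit 247) (nat_lit 208)) (XT.nd (nat_lit 78) (nat_lit 76) (nat_lit 0) (XT.lf (nat_lit 0) (nat_lit 4672679289) (nat_lit 228) (nat_lit 11500870446) (nat_lit 304) (nat_lit 1042150841) (nat_lit 30) (nat_lit 5) (nat_lit 33) (nat_lit 5) (nat_lit 34) (nat_lit 5) (nat_lit 266) (nat_lit 247) (nat_lit 207)) (XT.lf (nat_lit 0) (nat_lit 2678945705) (nat_lit 304) (nat_lit 1523655616) (nat_lit 76) (nat_lit 13942384346) (nat_lit 29) (nat_lit 5) (nat_lit 33) (nat_lit 5) (nat_lit 30) (nat_lit 5) (nat_lit 267) (nat_lit 247) (nat_lit 206))))))) (XT.nd (nat_lit 702) (nat_lit 532) (nat_lit 0) (XT.nd (nat_lit 312) (nat_lit 456) (nat_lit 0) (XT.nd (nat_lit 156) (nat_lit 152) (nat_lit 0) (XT.nd (nat_lit 78) (nat_lit 152) (nat_lit 0) (XT.lf (nat_lit 0) (nat_lit 6835131763) (nat_lit 304) (nat_lit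 8572965462) (nat_lit 76) (nat_lit 3731137363) (nat_lit 26) (nat_lit 5) (nat_lit 30) (nat_lit 5) (nat_lit 27) (nat_lit 5) (nat_lit 268) (nat_lit 247) (nat_lit 205)) (XT.lf (nat_lit 0) (nat_lit 3434988715) (nat_lit 152) (nat_lit 7990162765) (nat_lit 228) (nat_lit 8782963270) (nat_lit 24) (nat_lit 5) (nat_lit 26) (nat_lit 5) (nat_lit 27) (nat_lit 5) (nat_lit 269) (nat_lit 247) (nat_lit 204))) (XT.nd (nat_lit 78) (nat_lit 152) (nat_lit 0) (XT.lf (nat_lit 0) (nat_lit 16486727650) (nat_lit 228) (nat_lit 4717042469) (nat_lit 76) (nat_lit 153664004) (nat_lit 24) (nat_lit 5) (nat_lit 27) (nat_lit 5) (nat_lit 25) (nat_lit 5) (nat_lit 270) (nat_lit 247) (nat_lit 203)) (XT.lf (nat_lit 0) (nat_lit 8372950793) (nat_lit 152) (nat_lit 13801510988) (nat_lit 228) (nat_lit 413311360) (nat_lit 22) (nat_lit 5) (nat_lit 24) (nat_lit 5) (nat_lit 25) (nat_lit 5) (nat_lit 271) (nat_lit 247) (nat_lit 202)))) (XT.nd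 (nat_lit 156) (nat_lit 228) (nat_lit 0) (XT.nd (nat_lit 78) (nat_lit 152) (nat_lit 0) (XT.lf (nat_lit 0) (nat_lit 4300632904) (nat_lit 228) (nat_lit 1366489751) (nat_lit 76) (nat_lit 18244060603) (nat_lit 21) (nat_lit 5) (nat_lit 24) (nat_lit 5) (nat_lit 22) (nat_lit 5) (nat_lit 272) (nat_lit 247) (nat_lit 201)) (XT.lf (nat_lit 0) (nat_lit 9590381869) (nat_lit 228) (nat_lit 12527702970) (nat_lit 76) (nat_lit 3211494877) (nat_lit 19) (nat_lit 5) (nat_lit 22) (nat_lit 5) (nat_lit 20) (nat_lit 5) (nat_lit 273) (nat_lit 247) (nat_lit 200))) (XT.nd (nat_lit 78) (nat_lit 76) (nat_lit 0) (XT.lf (nat_lit 0) (nat_lit 1176835939) (nat_lit 152) (nat_lit 14226838856) (nat_lit 228) (nat_lit 11452857478) (nat_lit 17) (nat_lit 5) (nat_lit 19) (nat_lit 5) (nat_lit 20) (nat_lit 5) (nat_lit 274) (nat_lit 247) (nat_lit 199)) (XT.nd (nat_lit 78) (nat_lit 76) (nat_lit 0) (XT.lf (nat_lit 0) (nat_lit 16370447501)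 (nat_lit 152) (nat_lit 5493990747) (nat_lit 228) (nat_lit 6632177417) (nat_lit 17) (nat_lit 5) (nat_lit 19) (nat_lit 5) (nat_lit 20) (nat_lit 5) (nat_lit 275) (nat_lit 247) (nat_lit 198)) (XT.lf (nat_lit 0) (nat_lit 2477382392) (nat_lit 76) (nat_lit 26431397918) (nat_lit 152) (nat_lit 1355877491) (nat_lit 16) (nat_lit 5) (nat_lit 17) (nat_lit 5) (nat_lit 18) (nat_lit 4) (nat_lit 276) (nat_lit 247) (nat_lit 197)))))) (XT.nd (nat_lit 312) (nat_lit 304) (nat_lit 0) (XT.nd (nat_lit 156) (nat_lit 0) (nat_lit 0) (XT.nd (nat_lit 78) (nat_lit 152) (nat_lit 0) (XT.lf (nat_lit 0) (nat_lit 4478533409) (nat_lit 152) (nat_lit 13696203743) (nat_lit 76) (nat_lit 13982344014) (nat_lit 15) (nat_lit 5) (nat_lit 17) (nat_lit 5) (nat_lit 16) (nat_lit 5) (nat_lit 277) (nat_lit 247) (nat_lit 196)) (XT.lf (nat_lit 0) (nat_lit 1500119107) (nat_lit 152) (nat_lit 9226189582) (nat_lit 228) (nat_lit 23473844405)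 (nat_lit 13) (nat_lit 5) (nat_lit 15) (nat_lit 5) (nat_lit 16) (nat_lit 5) (nat_lit 278) (nat_lit 247) (nat_lit 195))) (XT.nd (nat_lit 78) (nat_lit 0) (nat_lit 0) (XT.lf (nat_lit 0) (nat_lit 17694549418) (nat_lit 228) (nat_lit 18050621947) (nat_lit 76) (nat_lit 650533735) (nat_lit 13) (nat_lit 5) (nat_lit 16) (nat_lit 5) (nat_lit 14) (nat_lit 4) (nat_lit 279) (nat_lit 247) (nat_lit 194)) (XT.lf (nat_lit 0) (nat_lit 25349255997) (nat_lit 228) (nat_lit 2427754767) (nat_lit 76) (nat_lit 10983501737) (nat_lit 13) (nat_lit 5) (nat_lit 16) (nat_lit 5) (nat_lit 14) (nat_lit 4) (nat_lit 280) (nat_lit 247) (nat_lit 193)))) (XT.nd (nat_lit 156) (nat_lit 228) (nat_lit 0) (XT.nd (nat_lit 78) (nat_lit 0) (nat_lit 0) (XT.lf (nat_lit 0) (nat_lit 14881494953) (nat_lit 76) (nat_lit 18942589863) (nat_lit 152) (nat_lit 7480089401) (nat_lit 12) (nat_lit 5) (nat_lit 13) (nat_lit 5) (nat_lit 14) (nat_lit 4)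 (nat_lit 281) (nat_lit 247) (nat_lit 192)) (XT.lf (nat_lit 0) (nat_lit 33624158767) (nat_lit 76) (nat_lit 9371663302) (nat_lit 152) (nat_lit 1054613477) (nat_lit 12) (nat_lit 5) (nat_lit 13) (nat_lit 5) (nat_lit 14) (nat_lit 4) (nat_lit 282) (nat_lit 247) (nat_lit 191))) (XT.nd (nat_lit 78) (nat_lit 0) (nat_lit 0) (XT.lf (nat_lit 0) (nat_lit 5801058424) (nat_lit 228) (nat_lit 40081424717) (nat_lit 76) (nat_lit 1124141625) (nat_lit 9) (nat_lit 5) (nat_lit 12) (nat_lit 5) (nat_lit 10) (nat_lit 4) (nat_lit 283) (nat_lit 247) (nat_lit 190)) (XT.nd (nat_lit 78) (nat_lit 0) (nat_lit 0) (XT.lf (nat_lit 0) (nat_lit 13490195254) (nat_lit 228) (nat_lit 24367193100) (nat_lit 76) (nat_lit 12325001445) (nat_lit 9) (nat_lit 5) (nat_lit 12) (nat_lit 5) (nat_lit 10) (nat_lit 4) (nat_lit 284) (nat_lit 247) (nat_lit 189)) (XT.lf (nat_lit 0) (nat_lit 21774875987) (nat_lit 228) (nat_lit 7428503972) (nat_lit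 76) (nat_lit 24409855334) (nat_lit 9) (nat_lit 5) (nat_lit 12) (nat_lit 5) (nat_lit 10) (nat_lit 4) (nat_lit 285) (nat_lit 247) (nat_lit 188))))))))
noncomputable def xc65 : XT := (XT.nd (nat_lit 1404) (nat_lit 152) (nat_lit 0) (XT.nd (nat_lit 702) (nat_lit 76) (nat_lit 0) (XT.nd (nat_lit 312) (nat_lit 152) (nat_lit 0) (XT.nd (nat_lit 156) (nat_lit 76) (nat_lit 0) (XT.nd (nat_lit 78) (nat_lit 0) (nat_lit 0) (XT.lf (nat_lit 0) (nat_lit 11193274779) (nat_lit 76) (nat_lit 19685678636) (nat_lit 152) (nat_lit 26431800850) (nat_lit 8) (nat_lit 5) (nat_lit 9) (nat_lit 5) (nat_lit 10) (nat_lit 4) (nat_lit 286) (nat_lit 247) (nat_lit 187)) (XT.lf (nat_lit 0) (nat_lit 31541120180) (nat_lit 76) (nat_lit 9282391957) (nat_lit 152) (nat_lit 20474989077) (nat_lit 8) (nat_lit 5) (nat_lit 9) (nat_lit 5) (nat_lit 10) (nat_lit 4) (nat_lit 287) (nat_lit 247) (nat_lit 186))) (XT.nd (nat_lit 78) (nat_lit 76)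 (nat_lit 0) (XT.lf (nat_lit 0) (nat_lit 51577993409) (nat_lit 152) (nat_lit 12146430914) (nat_lit 0) (nat_lit 1880157380) (nat_lit 8) (nat_lit 5) (nat_lit 10) (nat_lit 4) (nat_lit 8) (nat_lit 4) (nat_lit 288) (nat_lit 247) (nat_lit 185)) (XT.lf (nat_lit 0) (nat_lit 6912698942) (nat_lit 76) (nat_lit 56529637807) (nat_lit 76) (nat_lit 6800366038) (nat_lit 7) (nat_lit 4) (nat_lit 8) (nat_lit 5) (nat_lit 8) (nat_lit 4) (nat_lit 289) (nat_lit 247) (nat_lit 184)))) (XT.nd (nat_lit 156) (nat_lit 76) (nat_lit 0) (XT.nd (nat_lit 78) (nat_lit 0) (nat_lit 0) (XT.lf (nat_lit 0) (nat_lit 1172399337) (nat_lit 152) (nat_lit 47354960291) (nat_lit 76) (nat_lit 26713727161) (nat_lit 6) (nat_lit 5) (nat_lit 8) (nat_lit 5) (nat_lit 7) (nat_lit 4) (nat_lit 290) (nat_lit 247) (nat_lit 183)) (XT.lf (nat_lit 0) (nat_lit 9534518107) (nat_lit 152) (nat_lit 30239567892) (nat_lit 76) (nat_lit 40860216198) (nat_lit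 6) (nat_lit 5) (nat_lit 8) (nat_lit 5) (nat_lit 7) (nat_lit 4) (nat_lit 291) (nat_lit 247) (nat_lit 182))) (XT.nd (nat_lit 78) (nat_lit 76) (nat_lit 0) (XT.lf (nat_lit 0) (nat_lit 18553197749) (nat_lit 152) (nat_lit 11776229331) (nat_lit 76) (nat_lit 56130190368) (nat_lit 6) (nat_lit 5) (nat_lit 8) (nat_lit 5) (nat_lit 7) (nat_lit 4) (nat_lit 292) (nat_lit 247) (nat_lit 181)) (XT.nd (nat_lit 78) (nat_lit 0) (nat_lit 0) (XT.lf (nat_lit 0) (nat_lit 8413760656) (nat_lit 76) (nat_lit 19999484016) (nat_lit 152) (nat_lit 64331740132) (nat_lit 5) (nat_lit 5) (nat_lit 6) (nat_lit 5) (nat_lit 7) (nat_lit 4) (nat_lit 293) (nat_lit 247) (nat_lit 180)) (XT.lf (nat_lit 0) (nat_lit 30620623157) (nat_lit 76) (nat_lit 8635673777) (nat_lit 152) (nat_lit 60267193548) (nat_lit 5) (nat_lit 5) (nat_lit 6) (nat_lit 5) (nat_lit 7) (nat_lit 4) (nat_lit 294) (nat_lit 247) (nat_lit 179)))))) (XT.nd (nat_lit 312)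 (nat_lit 0) (nat_lit 0) (XT.nd (nat_lit 156) (nat_lit 76) (nat_lit 0) (XT.nd (nat_lit 78) (nat_lit 0) (nat_lit 0) (XT.lf (nat_lit 0) (nat_lit 51013343523) (nat_lit 152) (nat_lit 52314894341) (nat_lit 0) (nat_lit 3513728849) (nat_lit 5) (nat_lit 5) (nat_lit 7) (nat_lit 4) (nat_lit 5) (nat_lit 4) (nat_lit 295) (nat_lit 247) (nat_lit 178)) (XT.lf (nat_lit 0) (nat_lit 63847088012) (nat_lit 152) (nat_lit 34562038283) (nat_lit 0) (nat_lit 16330004336) (nat_lit 5) (nat_lit 5) (nat_lit 7) (nat_lit 4) (nat_lit 5) (nat_lit 4) (nat_lit 296) (nat_lit 247) (nat_lit 177))) (XT.nd (nat_lit 78) (nat_lit 76) (nat_lit 0) (XT.lf (nat_lit 0) (nat_lit 77698755153) (nat_lit 152) (nat_lit 15404269974) (nat_lit 0) (nat_lit 30165496476) (nat_lit 5) (nat_lit 5) (nat_lit 7) (nat_lit 4) (nat_lit 5) (nat_lit 4) (nat_lit 297) (nat_lit 247) (nat_lit 176)) (XT.lf (nat_lit 0) (nat_lit 5446252185) (nat_lit 76) (nat_lit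 87289207974) (nat_lit 76) (nat_lit 39740972443) (nat_lit 4) (nat_lit 4) (nat_lit 5) (nat_lit 5) (nat_lit 5) (nat_lit 4) (nat_lit 298) (nat_lit 247) (nat_lit 175)))) (XT.nd (nat_lit 156) (nat_lit 0) (nat_lit 0) (XT.nd (nat_lit 78) (nat_lit 0) (nat_lit 0) (XT.lf (nat_lit 0) (nat_lit 28501332251) (nat_lit 76) (nat_lit 80734365181) (nat_lit 76) (nat_lit 33172262194) (nat_lit 4) (nat_lit 4) (nat_lit 5) (nat_lit 5) (nat_lit 5) (nat_lit 4) (nat_lit 299) (nat_lit 247) (nat_lit 174)) (XT.lf (nat_lit 0) (nat_lit 53388258188) (nat_lit 76) (nat_lit 73660532003) (nat_lit 76) (nat_lit 26085588778) (nat_lit 4) (nat_lit 4) (nat_lit 5) (nat_lit 5) (nat_lit 5) (nat_lit 4) (nat_lit 300) (nat_lit 247) (nat_lit 173))) (XT.nd (nat_lit 78) (nat_lit 0) (nat_lit 0) (XT.lf (nat_lit 0) (nat_lit 80254508074) (nat_lit 76) (nat_lit 66025789428) (nat_lit 76) (nat_lit 18438957093) (nat_lit 4) (nat_lit 4) (nat_lit 5)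 (nat_lit 5) (nat_lit 5) (nat_lit 4) (nat_lit 301) (nat_lit 247) (nat_lit 172)) (XT.nd (nat_lit 78) (nat_lit 0) (nat_lit 0) (XT.lf (nat_lit 0) (nat_lit 109259289318) (nat_lit 76) (nat_lit 57784894536) (nat_lit 76) (nat_lit 10187053767) (nat_lit 4) (nat_lit 4) (nat_lit 5) (nat_lit 5) (nat_lit 5) (nat_lit 4) (nat_lit 302) (nat_lit 247) (nat_lit 171)) (XT.lf (nat_lit 0) (nat_lit 140574482103) (nat_lit 76) (nat_lit 48889012396) (nat_lit 76) (nat_lit 1280978632) (nat_lit 4) (nat_lit 4) (nat_lit 5) (nat_lit 5) (nat_lit 5) (nat_lit 4) (nat_lit 303) (nat_lit 247) (nat_lit 170))))))) (XT.nd (nat_lit 702) (nat_lit 0) (nat_lit 0) (XT.nd (nat_lit 312) (nat_lit 0) (nat_lit 0) (XT.nd (nat_lit 156) (nat_lit 76) (nat_lit 0) (XT.nd (nat_lit 78) (nat_lit 0) (nat_lit 0) (XT.lf (nat_lit 0) (nat_lit 8065367576) (nat_lit 152) (nat_lit 31083468189) (nat_lit 76) (nat_lit 166183699463) (nat_lit 3) (nat_lit 5)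 (nat_lit 5) (nat_lit 5) (nat_lit 4) (nat_lit 4) (nat_lit 304) (nat_lit 247) (nat_lit 169)) (XT.lf (nat_lit 0) (nat_lit 18110179048) (nat_lit 152) (nat_lit 10500343522) (nat_lit 76) (nat_lit 192476295666) (nat_lit 3) (nat_lit 5) (nat_lit 5) (nat_lit 5) (nat_lit 4) (nat_lit 4) (nat_lit 305) (nat_lit 247) (nat_lit 168))) (XT.nd (nat_lit 78) (nat_lit 0) (nat_lit 0) (XT.lf (nat_lit 0) (nat_lit 12108917699) (nat_lit 76) (nat_lit 17034116349) (nat_lit 152) (nat_lit 208949194097) (nat_lit 2) (nat_lit 5) (nat_lit 3) (nat_lit 5) (nat_lit 4) (nat_lit 4) (nat_lit 306) (nat_lit 247) (nat_lit 167)) (XT.lf (nat_lit 0) (nat_lit 36894160195) (nat_lit 76) (nat_lit 4342890756) (nat_lit 152) (nat_lit 215212099878) (nat_lit 2) (nat_lit 5) (nat_lit 3) (nat_lit 5) (nat_lit 4) (nat_lit 4) (nat_lit 307) (nat_lit 247) (nat_lit 166)))) (XT.nd (nat_lit 156) (nat_lit 0) (nat_lit 0) (XT.nd (nat_lit 78) (nat_lit 0)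 (nat_lit 0) (XT.lf (nat_lit 0) (nat_lit 54440681781) (nat_lit 152) (nat_lit 212765909527) (nat_lit 0) (nat_lit 9060937556) (nat_lit 2) (nat_lit 5) (nat_lit 4) (nat_lit 4) (nat_lit 2) (nat_lit 4) (nat_lit 308) (nat_lit 247) (nat_lit 165)) (XT.lf (nat_lit 0) (nat_lit 68770035873) (nat_lit 152) (nat_lit 205513701131) (nat_lit 0) (nat_lit 23384174205) (nat_lit 2) (nat_lit 5) (nat_lit 4) (nat_lit 4) (nat_lit 2) (nat_lit 4) (nat_lit 309) (nat_lit 247) (nat_lit 164))) (XT.nd (nat_lit 78) (nat_lit 0) (nat_lit 0) (XT.lf (nat_lit 0) (nat_lit 84242223224) (nat_lit 152) (nat_lit 197687584700) (nat_lit 0) (nat_lit 38850697256) (nat_lit 2) (nat_lit 5) (nat_lit 4) (nat_lit 4) (nat_lit 2) (nat_lit 4) (nat_lit 310) (nat_lit 247) (nat_lit 163)) (XT.nd (nat_lit 78) (nat_lit 0) (nat_lit 0) (XT.lf (nat_lit 0) (nat_lit 100948930869) (nat_lit 152) (nat_lit 189241183250) (nat_lit 0) (nat_lit 55552160179) (nat_lit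 2) (nat_lit 5) (nat_lit 4) (nat_lit 4) (nat_lit 2) (nat_lit 4) (nat_lit 311) (nat_lit 247) (nat_lit 162)) (XT.lf (nat_lit 0) (nat_lit 118989161521) (nat_lit 152) (nat_lit 180124444030) (nat_lit 0) (nat_lit 73587534607) (nat_lit 2) (nat_lit 5) (nat_lit 4) (nat_lit 4) (nat_lit 2) (nat_lit 4) (nat_lit 312) (nat_lit 247) (nat_lit 161)))))) (XT.nd (nat_lit 312) (nat_lit 0) (nat_lit 0) (XT.nd (nat_lit 156) (nat_lit 0) (nat_lit 0) (XT.nd (nat_lit 78) (nat_lit 0) (nat_lit 0) (XT.lf (nat_lit 0) (nat_lit 138469820249) (nat_lit 152) (nat_lit 170283341919) (nat_lit 0) (nat_lit 93063696832) (nat_lit 2) (nat_lit 5) (nat_lit 4) (nat_lit 4) (nat_lit 2) (nat_lit 4) (nat_lit 313) (nat_lit 247) (nat_lit 160)) (XT.lf (nat_lit 0) (nat_lit 159506347995) (nat_lit 152) (nat_lit 159659559274) (nat_lit 0) (nat_lit 114096061149) (nat_lit 2) (nat_lit 5) (nat_lit 4) (nat_lit 4) (nat_lit 2) (nat_lit 4) (nat_lit 314)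 (nat_lit 247) (nat_lit 159))) (XT.nd (nat_lit 78) (nat_lit 0) (nat_lit 0) (XT.lf (nat_lit 0) (nat_lit 182223405664) (nat_lit 152) (nat_lit 148190140348) (nat_lit 0) (nat_lit 136809263790) (nat_lit 2) (nat_lit 5) (nat_lit 4) (nat_lit 4) (nat_lit 2) (nat_lit 4) (nat_lit 315) (nat_lit 247) (nat_lit 158)) (XT.lf (nat_lit 0) (nat_lit 206755612856) (nat_lit 152) (nat_lit 135807118213) (nat_lit 0) (nat_lit 161337901513) (nat_lit 2) (nat_lit 5) (nat_lit 4) (nat_lit 4) (nat_lit 2) (nat_lit 4) (nat_lit 316) (nat_lit 247) (nat_lit 157)))) (XT.nd (nat_lit 156) (nat_lit 0) (nat_lit 0) (XT.nd (nat_lit 78) (nat_lit 0) (nat_lit 0) (XT.lf (nat_lit 0) (nat_lit 233248345615) (nat_lit 152) (nat_lit 122437111996) (nat_lit 0) (nat_lit 187827329207) (nat_lit 2) (nat_lit 5) (nat_lit 4) (nat_lit 4) (nat_lit 2) (nat_lit 4) (nat_lit 317) (nat_lit 247) (nat_lit 156)) (XT.lf (nat_lit 0) (nat_lit 261858597912) (nat_lit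 152) (nat_lit 108000892032) (nat_lit 0) (nat_lit 216434521259) (nat_lit 2) (nat_lit 5) (nat_lit 4) (nat_lit 4) (nat_lit 2) (nat_lit 4) (nat_lit 318) (nat_lit 247) (nat_lit 155))) (XT.nd (nat_lit 78) (nat_lit 0) (nat_lit 0) (XT.lf (nat_lit 0) (nat_lit 292755911982) (nat_lit 152) (nat_lit 92412910351) (nat_lit 0) (nat_lit 247329001770) (nat_lit 2) (nat_lit 5) (nat_lit 4) (nat_lit 4) (nat_lit 2) (nat_lit 4) (nat_lit 319) (nat_lit 247) (nat_lit 154)) (XT.nd (nat_lit 78) (nat_lit 0) (nat_lit 0) (XT.lf (nat_lit 0) (nat_lit 326123383022) (nat_lit 152) (nat_lit 75580793727) (nat_lit 0) (nat_lit 280693849143) (nat_lit 2) (nat_lit 5) (nat_lit 4) (nat_lit 4) (nat_lit 2) (nat_lit 4) (nat_lit 320) (nat_lit 247) (nat_lit 153)) (XT.lf (nat_lit 0) (nat_lit 362158744191) (nat_lit 152) (nat_lit 57404796284) (nat_lit 0) (nat_lit 316726780991) (nat_lit 2) (nat_lit 5) (nat_lit 4) (nat_lit 4) (nat_lit 2) (nat_lit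 4) (nat_lit 321) (nat_lit 247) (nat_lit 152))))))))
noncomputable def xc66 : XT := (XT.nd (nat_lit 33072) (nat_lit 0) (nat_lit 760) (XT.nd (nat_lit 32370) (nat_lit 0) (nat_lit 2584) (XT.nd (nat_lit 31980) (nat_lit 0) (nat_lit 4788) (XT.nd (nat_lit 31824) (nat_lit 0) (nat_lit 5776) (XT.nd (nat_lit 31746) (nat_lit 0) (nat_lit 5776) (XT.lf (nat_lit 0) (nat_lit 401075538372) (nat_lit 152) (nat_lit 37777208408) (nat_lit 0) (nat_lit 355641325801) (nat_lit 2) (nat_lit 5) (nat_lit 4) (nat_lit 4) (nat_lit 2) (nat_lit 4) (nat_lit 322) (nat_lit 247) (nat_lit 151)) (XT.lf (nat_lit 0) (nat_lit 910909003) (nat_lit 0) (nat_lit 910909003) (nat_lit 532) (nat_lit 2356343583) (nat_lit 78) (nat_lit 5) (nat_lit 78) (nat_lit 3) (nat_lit 85) (nat_lit 3) (nat_lit 248) (nat_lit 248) (nat_lit 224))) (XT.nd (nat_lit 78) (nat_lit 0) (nat_lit 0) (XT.lf (nat_lit 0) (nat_lit 5322970991) (nat_lit 532) (nat_lit 1037997613)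 (nat_lit 608) (nat_lit 2245244448) (nat_lit 78) (nat_lit 5) (nat_lit 85) (nat_lit 3) (nat_lit 86) (nat_lit 5) (nat_lit 249) (nat_lit 248) (nat_lit 223)) (XT.lf (nat_lit 76) (nat_lit 4941331343) (nat_lit 0) (nat_lit 2154548491) (nat_lit 608) (nat_lit 1783021655) (nat_lit 79) (nat_lit 5) (nat_lit 78) (nat_lit 5) (nat_lit 86) (nat_lit 5) (nat_lit 250) (nat_lit 248) (nat_lit 222)))) (XT.nd (nat_lit 156) (nat_lit 456) (nat_lit 0) (XT.nd (nat_lit 78) (nat_lit 608) (nat_lit 0) (XT.lf (nat_lit 76) (nat_lit 2207403437) (nat_lit 0) (nat_lit 6755368521) (nat_lit 608) (nat_lit 213737300) (nat_lit 80) (nat_lit 5) (nat_lit 79) (nat_lit 5) (nat_lit 87) (nat_lit 5) (nat_lit 251) (nat_lit 248) (nat_lit 221)) (XT.lf (nat_lit 0) (nat_lit 1407883313) (nat_lit 608) (nat_lit 660832712) (nat_lit 684) (nat_lit 7429971218) (nat_lit 71) (nat_lit 5) (nat_lit 79) (nat_lit 5) (nat_lit 80) (nat_lit 5) (nat_lit 252)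 (nat_lit 248) (nat_lit 220))) (XT.nd (nat_lit 78) (nat_lit 532) (nat_lit 0) (XT.lf (nat_lit 0) (nat_lit 3176575290) (nat_lit 608) (nat_lit 3631864453) (nat_lit 684) (nat_lit 3037364211) (nat_lit 72) (nat_lit 5) (nat_lit 80) (nat_lit 5) (nat_lit 81) (nat_lit 5) (nat_lit 253) (nat_lit 248) (nat_lit 219)) (XT.nd (nat_lit 78) (nat_lit 532) (nat_lit 0) (XT.lf (nat_lit 76) (nat_lit 3430087451) (nat_lit 0) (nat_lit 1643059580) (nat_lit 684) (nat_lit 5148761880) (nat_lit 73) (nat_lit 5) (nat_lit 72) (nat_lit 5) (nat_lit 81) (nat_lit 5) (nat_lit 254) (nat_lit 248) (nat_lit 218)) (XT.lf (nat_lit 0) (nat_lit 423596593) (nat_lit 608) (nat_lit 6723955096) (nat_lit 684) (nat_lit 3479743487) (nat_lit 65) (nat_lit 5) (nat_lit 73) (nat_lit 5) (nat_lit 74) (nat_lit 5) (nat_lit 255) (nat_lit 248) (nat_lit 217)))))) (XT.nd (nat_lit 312) (nat_lit 1140) (nat_lit 0) (XT.nd (nat_lit 156) (nat_lit 304) (nat_lit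 0) (XT.nd (nat_lit 78) (nat_lit 760) (nat_lit 0) (XT.lf (nat_lit 0) (nat_lit 8344810334) (nat_lit 608) (nat_lit 1088950516) (nat_lit 684) (nat_lit 1629520245) (nat_lit 65) (nat_lit 5) (nat_lit 73) (nat_lit 5) (nat_lit 74) (nat_lit 5) (nat_lit 256) (nat_lit 248) (nat_lit 216)) (XT.lf (nat_lit 0) (nat_lit 427468127) (nat_lit 760) (nat_lit 6162651999) (nat_lit 76) (nat_lit 4940617336) (nat_lit 55) (nat_lit 5) (nat_lit 65) (nat_lit 5) (nat_lit 56) (nat_lit 5) (nat_lit 257) (nat_lit 248) (nat_lit 215))) (XT.nd (nat_lit 78) (nat_lit 0) (nat_lit 0) (XT.lf (nat_lit 0) (nat_lit 2102172187) (nat_lit 304) (nat_lit 501471090) (nat_lit 380) (nat_lit 9430402188) (nat_lit 51) (nat_lit 5) (nat_lit 55) (nat_lit 5) (nat_lit 56) (nat_lit 5) (nat_lit 258) (nat_lit 248) (nat_lit 214)) (XT.lf (nat_lit 0) (nat_lit 5074835686) (nat_lit 380) (nat_lit 1505412195) (nat_lit 76) (nat_lit 5991672868) (nat_lit 51)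 (nat_lit 5) (nat_lit 56) (nat_lit 5) (nat_lit 52) (nat_lit 5) (nat_lit 259) (nat_lit 248) (nat_lit 213)))) (XT.nd (nat_lit 156) (nat_lit 608) (nat_lit 0) (XT.nd (nat_lit 78) (nat_lit 228) (nat_lit 0) (XT.lf (nat_lit 0) (nat_lit 7756432885) (nat_lit 304) (nat_lit 39973401) (nat_lit 380) (nat_lit 5354108594) (nat_lit 47) (nat_lit 5) (nat_lit 51) (nat_lit 5) (nat_lit 52) (nat_lit 5) (nat_lit 260) (nat_lit 248) (nat_lit 212)) (XT.lf (nat_lit 0) (nat_lit 3977111649) (nat_lit 228) (nat_lit 6884600493) (nat_lit 304) (nat_lit 2907682962) (nat_lit 44) (nat_lit 5) (nat_lit 47) (nat_lit 5) (nat_lit 48) (nat_lit 5) (nat_lit 261) (nat_lit 248) (nat_lit 211))) (XT.nd (nat_lit 78) (nat_lit 608) (nat_lit 0) (XT.lf (nat_lit 0) (nat_lit 14198900864) (nat_lit 304) (nat_lit 222620943) (nat_lit 76) (nat_lit 15207910) (nat_lit 44) (nat_lit 5) (nat_lit 48) (nat_lit 5) (nat_lit 45) (nat_lit 5) (nat_lit 262)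 (nat_lit 248) (nat_lit 210)) (XT.nd (nat_lit 78) (nat_lit 228) (nat_lit 0) (XT.lf (nat_lit 0) (nat_lit 2777053485) (nat_lit 380) (nat_lit 4940489814) (nat_lit 76) (nat_lit 7427280896) (nat_lit 39) (nat_lit 5) (nat_lit 44) (nat_lit 5) (nat_lit 40) (nat_lit 5) (nat_lit 263) (nat_lit 248) (nat_lit 209)) (XT.lf (nat_lit 0) (nat_lit 5669070311) (nat_lit 228) (nat_lit 387405720) (nat_lit 304) (nat_lit 9851537244) (nat_lit 36) (nat_lit 5) (nat_lit 39) (nat_lit 5) (nat_lit 40) (nat_lit 5) (nat_lit 264) (nat_lit 248) (nat_lit 208))))))) (XT.nd (nat_lit 702) (nat_lit 684) (nat_lit 0) (XT.nd (nat_lit 312) (nat_lit 608) (nat_lit 0) (XT.nd (nat_lit 156) (nat_lit 304) (nat_lit 0) (XT.nd (nat_lit 78) (nat_lit 0) (nat_lit 0) (XT.lf (nat_lit 0) (nat_lit 397545502) (nat_lit 228) (nat_lit 9354301128) (nat_lit 304) (nat_lit 6972940478) (nat_lit 33) (nat_lit 5) (nat_lit 36) (nat_lit 5) (nat_lit 37) (nat_lit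 5) (nat_lit 265) (nat_lit 248) (nat_lit 207)) (XT.lf (nat_lit 0) (nat_lit 12174885918) (nat_lit 228) (nat_lit 1698301962) (nat_lit 304) (nat_lit 3727391750) (nat_lit 33) (nat_lit 5) (nat_lit 36) (nat_lit 5) (nat_lit 37) (nat_lit 5) (nat_lit 266) (nat_lit 248) (nat_lit 206))) (XT.nd (nat_lit 78) (nat_lit 76) (nat_lit 0) (XT.lf (nat_lit 0) (nat_lit 6383375957) (nat_lit 228) (nat_lit 12092482968) (nat_lit 304) (nat_lit 63174976) (nat_lit 30) (nat_lit 5) (nat_lit 33) (nat_lit 5) (nat_lit 34) (nat_lit 5) (nat_lit 267) (nat_lit 248) (nat_lit 205)) (XT.lf (nat_lit 0) (nat_lit 3845433735) (nat_lit 304) (nat_lit 373123235) (nat_lit 76) (nat_lit 15327331225) (nat_lit 29) (nat_lit 5) (nat_lit 33) (nat_lit 5) (nat_lit 30) (nat_lit 5) (nat_lit 268) (nat_lit 248) (nat_lit 204)))) (XT.nd (nat_lit 156) (nat_lit 228) (nat_lit 0) (XT.nd (nat_lit 78) (nat_lit 152) (nat_lit 0) (XT.lf (nat_lit 0) (nat_lit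 8287527337) (nat_lit 304) (nat_lit 7998725906) (nat_lit 76) (nat_lit 4335981873) (nat_lit 26) (nat_lit 5) (nat_lit 30) (nat_lit 5) (nat_lit 27) (nat_lit 5) (nat_lit 269) (nat_lit 248) (nat_lit 203)) (XT.lf (nat_lit 0) (nat_lit 4915103203) (nat_lit 152) (nat_lit 8281383406) (nat_lit 228) (nat_lit 8582763959) (nat_lit 24) (nat_lit 5) (nat_lit 26) (nat_lit 5) (nat_lit 27) (nat_lit 5) (nat_lit 270) (nat_lit 248) (nat_lit 202))) (XT.nd (nat_lit 78) (nat_lit 228) (nat_lit 0) (XT.lf (nat_lit 0) (nat_lit 18604514146) (nat_lit 228) (nat_lit 3941261776) (nat_lit 76) (nat_lit 477859394) (nat_lit 24) (nat_lit 5) (nat_lit 27) (nat_lit 5) (nat_lit 25) (nat_lit 5) (nat_lit 271) (nat_lit 248) (nat_lit 201)) (XT.nd (nat_lit 78) (nat_lit 0) (nat_lit 0) (XT.lf (nat_lit 0) (nat_lit 339411327) (nat_lit 228) (nat_lit 14214338315) (nat_lit 76) (nat_lit 9800657287) (nat_lit 21) (nat_lit 5) (nat_lit 24) (nat_lit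 5) (nat_lit 22) (nat_lit 5) (nat_lit 272) (nat_lit 248) (nat_lit 200)) (XT.lf (nat_lit 0) (nat_lit 5359036100) (nat_lit 228) (nat_lit 428863898) (nat_lit 76) (nat_lit 19998458919) (nat_lit 21) (nat_lit 5) (nat_lit 24) (nat_lit 5) (nat_lit 22) (nat_lit 5) (nat_lit 273) (nat_lit 248) (nat_lit 199)))))) (XT.nd (nat_lit 312) (nat_lit 304) (nat_lit 0) (XT.nd (nat_lit 156) (nat_lit 76) (nat_lit 0) (XT.nd (nat_lit 78) (nat_lit 152) (nat_lit 0) (XT.lf (nat_lit 0) (nat_lit 11039749731) (nat_lit 228) (nat_lit 12497830733) (nat_lit 76) (nat_lit 3782405640) (nat_lit 19) (nat_lit 5) (nat_lit 22) (nat_lit 5) (nat_lit 20) (nat_lit 5) (nat_lit 274) (nat_lit 248) (nat_lit 198)) (XT.lf (nat_lit 0) (nat_lit 2258217981) (nat_lit 152) (nat_lit 15024772928) (nat_lit 228) (nat_lit 11687996984) (nat_lit 17) (nat_lit 5) (nat_lit 19) (nat_lit 5) (nat_lit 20) (nat_lit 5) (nat_lit 275) (nat_lit 248) (nat_lit 197)))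 (XT.nd (nat_lit 78) (nat_lit 76) (nat_lit 0) (XT.lf (nat_lit 0) (nat_lit 18594189937) (nat_lit 152) (nat_lit 5618497936) (nat_lit 228) (nat_lit 6532113562) (nat_lit 17) (nat_lit 5) (nat_lit 19) (nat_lit 5) (nat_lit 20) (nat_lit 5) (nat_lit 276) (nat_lit 248) (nat_lit 196)) (XT.lf (nat_lit 0) (nat_lit 3575421819) (nat_lit 76) (nat_lit 28219381176) (nat_lit 152) (nat_lit 860890347) (nat_lit 16) (nat_lit 5) (nat_lit 17) (nat_lit 5) (nat_lit 18) (nat_lit 4) (nat_lit 277) (nat_lit 248) (nat_lit 195)))) (XT.nd (nat_lit 156) (nat_lit 76) (nat_lit 0) (XT.nd (nat_lit 78) (nat_lit 152) (nat_lit 0) (XT.lf (nat_lit 0) (nat_lit 5377689174) (nat_lit 152) (nat_lit 13939525729) (nat_lit 76) (nat_lit 15384091863) (nat_lit 15) (nat_lit 5) (nat_lit 17) (nat_lit 5) (nat_lit 16) (nat_lit 5) (nat_lit 278) (nat_lit 248) (nat_lit 194)) (XT.lf (nat_lit 0) (nat_lit 2435459800) (nat_lit 152) (nat_lit 9662491608)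 (nat_lit 228) (nat_lit 24811335887) (nat_lit 13) (nat_lit 5) (nat_lit 15) (nat_lit 5) (nat_lit 16) (nat_lit 5) (nat_lit 279) (nat_lit 248) (nat_lit 193))) (XT.nd (nat_lit 78) (nat_lit 76) (nat_lit 0) (XT.lf (nat_lit 0) (nat_lit 19589974353) (nat_lit 228) (nat_lit 18719211169) (nat_lit 76) (nat_lit 973070763) (nat_lit 13) (nat_lit 5) (nat_lit 16) (nat_lit 5) (nat_lit 14) (nat_lit 4) (nat_lit 280) (nat_lit 248) (nat_lit 192)) (XT.nd (nat_lit 78) (nat_lit 76) (nat_lit 0) (XT.lf (nat_lit 0) (nat_lit 27821512200) (nat_lit 228) (nat_lit 1903956137) (nat_lit 76) (nat_lit 12112639589) (nat_lit 13) (nat_lit 5) (nat_lit 16) (nat_lit 5) (nat_lit 14) (nat_lit 4) (nat_lit 281) (nat_lit 248) (nat_lit 191)) (XT.lf (nat_lit 0) (nat_lit 16758829330) (nat_lit 76) (nat_lit 20193308822) (nat_lit 152) (nat_lit 7634310165) (nat_lit 12) (nat_lit 5) (nat_lit 13) (nat_lit 5) (nat_lit 14) (nat_lit 4) (nat_lit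 282) (nat_lit 248) (nat_lit 190))))))))
noncomputable def xc67 : XT := (XT.nd (nat_lit 1404) (nat_lit 152) (nat_lit 0) (XT.nd (nat_lit 702) (nat_lit 152) (nat_lit 0) (XT.nd (nat_lit 312) (nat_lit 228) (nat_lit 0) (XT.nd (nat_lit 156) (nat_lit 0) (nat_lit 0) (XT.nd (nat_lit 78) (nat_lit 228) (nat_lit 0) (XT.lf (nat_lit 0) (nat_lit 36950031080) (nat_lit 76) (nat_lit 9876314672) (nat_lit 152) (nat_lit 727698863) (nat_lit 12) (nat_lit 5) (nat_lit 13) (nat_lit 5) (nat_lit 14) (nat_lit 4) (nat_lit 283) (nat_lit 248) (nat_lit 189)) (XT.lf (nat_lit 0) (nat_lit 6647278789) (nat_lit 228) (nat_lit 42650344583) (nat_lit 76) (nat_lit 1449646037) (nat_lit 9) (nat_lit 5) (nat_lit 12) (nat_lit 5) (nat_lit 10) (nat_lit 4) (nat_lit 284) (nat_lit 248) (nat_lit 188))) (XT.nd (nat_lit 78) (nat_lit 0) (nat_lit 0) (XT.lf (nat_lit 0) (nat_lit 14923240218) (nat_lit 228) (nat_lit 25726203630) (nat_lit 76) (nat_lit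 13529124785) (nat_lit 9) (nat_lit 5) (nat_lit 12) (nat_lit 5) (nat_lit 10) (nat_lit 4) (nat_lit 285) (nat_lit 248) (nat_lit 187)) (XT.lf (nat_lit 0) (nat_lit 23844485829) (nat_lit 228) (nat_lit 7476150107) (nat_lit 76) (nat_lit 26564609710) (nat_lit 9) (nat_lit 5) (nat_lit 12) (nat_lit 5) (nat_lit 10) (nat_lit 4) (nat_lit 286) (nat_lit 248) (nat_lit 186)))) (XT.nd (nat_lit 156) (nat_lit 152) (nat_lit 0) (XT.nd (nat_lit 78) (nat_lit 0) (nat_lit 0) (XT.lf (nat_lit 0) (nat_lit 12611614889) (nat_lit 76) (nat_lit 21049170025) (nat_lit 152) (nat_lit 28218635892) (nat_lit 8) (nat_lit 5) (nat_lit 9) (nat_lit 5) (nat_lit 10) (nat_lit 4) (nat_lit 287) (nat_lit 248) (nat_lit 185)) (XT.lf (nat_lit 0) (nat_lit 34548556208) (nat_lit 76) (nat_lit 9829276922) (nat_lit 152) (nat_lit 21809553919) (nat_lit 8) (nat_lit 5) (nat_lit 9) (nat_lit 5) (nat_lit 10) (nat_lit 4) (nat_lit 288) (nat_lit 248) (nat_lit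 184))) (XT.nd (nat_lit 78) (nat_lit 152) (nat_lit 0) (XT.lf (nat_lit 0) (nat_lit 55974136168) (nat_lit 152) (nat_lit 12658807285) (nat_lit 0) (nat_lit 2205979753) (nat_lit 8) (nat_lit 5) (nat_lit 10) (nat_lit 4) (nat_lit 8) (nat_lit 4) (nat_lit 289) (nat_lit 248) (nat_lit 183)) (XT.nd (nat_lit 78) (nat_lit 76) (nat_lit 0) (XT.lf (nat_lit 0) (nat_lit 7905090685) (nat_lit 76) (nat_lit 60869403341) (nat_lit 76) (nat_lit 7074295847) (nat_lit 7) (nat_lit 4) (nat_lit 8) (nat_lit 5) (nat_lit 8) (nat_lit 4) (nat_lit 290) (nat_lit 248) (nat_lit 182)) (XT.lf (nat_lit 0) (nat_lit 1508278882) (nat_lit 152) (nat_lit 50728090489) (nat_lit 76) (nat_lit 29011467336) (nat_lit 6) (nat_lit 5) (nat_lit 8) (nat_lit 5) (nat_lit 7) (nat_lit 4) (nat_lit 291) (nat_lit 248) (nat_lit 181)))))) (XT.nd (nat_lit 312) (nat_lit 76) (nat_lit 0) (XT.nd (nat_lit 156) (nat_lit 76) (nat_lit 0) (XT.nd (nat_lit 78) (nat_lit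 0) (nat_lit 0) (XT.lf (nat_lit 0) (nat_lit 10521434738) (nat_lit 152) (nat_lit 32274227189) (nat_lit 76) (nat_lit 44277776089) (nat_lit 6) (nat_lit 5) (nat_lit 8) (nat_lit 5) (nat_lit 7) (nat_lit 4) (nat_lit 292) (nat_lit 248) (nat_lit 180)) (XT.lf (nat_lit 0) (nat_lit 20245004664) (nat_lit 152) (nat_lit 12362303478) (nat_lit 76) (nat_lit 60758330222) (nat_lit 6) (nat_lit 5) (nat_lit 8) (nat_lit 5) (nat_lit 7) (nat_lit 4) (nat_lit 293) (nat_lit 248) (nat_lit 179))) (XT.nd (nat_lit 78) (nat_lit 0) (nat_lit 0) (XT.lf (nat_lit 0) (nat_lit 9427413329) (nat_lit 76) (nat_lit 21456384825) (nat_lit 152) (nat_lit 69270567291) (nat_lit 5) (nat_lit 5) (nat_lit 6) (nat_lit 5) (nat_lit 7) (nat_lit 4) (nat_lit 294) (nat_lit 248) (nat_lit 178)) (XT.lf (nat_lit 0) (nat_lit 33385598770) (nat_lit 76) (nat_lit 9194066649) (nat_lit 152) (nat_lit 64896243058) (nat_lit 5) (nat_lit 5) (nat_lit 6) (nat_lit 5)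 (nat_lit 7) (nat_lit 4) (nat_lit 295) (nat_lit 248) (nat_lit 177)))) (XT.nd (nat_lit 156) (nat_lit 76) (nat_lit 0) (XT.nd (nat_lit 78) (nat_lit 0) (nat_lit 0) (XT.lf (nat_lit 0) (nat_lit 55265645095) (nat_lit 152) (nat_lit 56201272077) (nat_lit 0) (nat_lit 3913550722) (nat_lit 5) (nat_lit 5) (nat_lit 7) (nat_lit 4) (nat_lit 5) (nat_lit 4) (nat_lit 296) (nat_lit 248) (nat_lit 176)) (XT.lf (nat_lit 0) (nat_lit 69113405137) (nat_lit 152) (nat_lit 37050321891) (nat_lit 0) (nat_lit 17746333910) (nat_lit 5) (nat_lit 5) (nat_lit 7) (nat_lit 4) (nat_lit 5) (nat_lit 4) (nat_lit 297) (nat_lit 248) (nat_lit 175))) (XT.nd (nat_lit 78) (nat_lit 76) (nat_lit 0) (XT.lf (nat_lit 0) (nat_lit 84061461198) (nat_lit 152) (nat_lit 16380426891) (nat_lit 0) (nat_lit 32680522515) (nat_lit 5) (nat_lit 5) (nat_lit 7) (nat_lit 4) (nat_lit 5) (nat_lit 4) (nat_lit 298) (nat_lit 248) (nat_lit 174)) (XT.nd (nat_lit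 78) (nat_lit 0) (nat_lit 0) (XT.lf (nat_lit 0) (nat_lit 6127003566) (nat_lit 76) (nat_lit 94167050483) (nat_lit 76) (nat_lit 42773271561) (nat_lit 4) (nat_lit 4) (nat_lit 5) (nat_lit 5) (nat_lit 5) (nat_lit 4) (nat_lit 299) (nat_lit 248) (nat_lit 173)) (XT.lf (nat_lit 0) (nat_lit 31008338097) (nat_lit 76) (nat_lit 87095619832) (nat_lit 76) (nat_lit 35689951802) (nat_lit 4) (nat_lit 4) (nat_lit 5) (nat_lit 5) (nat_lit 5) (nat_lit 4) (nat_lit 300) (nat_lit 248) (nat_lit 172))))))) (XT.nd (nat_lit 702) (nat_lit 0) (nat_lit 0) (XT.nd (nat_lit 312) (nat_lit 152) (nat_lit 0) (XT.nd (nat_lit 156) (nat_lit 0) (nat_lit 0) (XT.nd (nat_lit 78) (nat_lit 0) (nat_lit 0) (XT.lf (nat_lit 0) (nat_lit 57869410755) (nat_lit 76) (nat_lit 79463101819) (nat_lit 76) (nat_lit 28046425355) (nat_lit 4) (nat_lit 4) (nat_lit 5) (nat_lit 5) (nat_lit 5) (nat_lit 4) (nat_lit 301) (nat_lit 248) (nat_lit 171)) (XT.lf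 (nat_lit 0) (nat_lit 86869398269) (nat_lit 76) (nat_lit 71224266708) (nat_lit 76) (nat_lit 19797397248) (nat_lit 4) (nat_lit 4) (nat_lit 5) (nat_lit 5) (nat_lit 5) (nat_lit 4) (nat_lit 302) (nat_lit 248) (nat_lit 170))) (XT.nd (nat_lit 78) (nat_lit 0) (nat_lit 0) (XT.lf (nat_lit 0) (nat_lit 118180152415) (nat_lit 76) (nat_lit 62330291771) (nat_lit 76) (nat_lit 10893984354) (nat_lit 4) (nat_lit 4) (nat_lit 5) (nat_lit 5) (nat_lit 5) (nat_lit 4) (nat_lit 303) (nat_lit 248) (nat_lit 169)) (XT.lf (nat_lit 0) (nat_lit 151987218404) (nat_lit 76) (nat_lit 52728471973) (nat_lit 76) (nat_lit 1283425705) (nat_lit 4) (nat_lit 4) (nat_lit 5) (nat_lit 5) (nat_lit 5) (nat_lit 4) (nat_lit 304) (nat_lit 248) (nat_lit 168)))) (XT.nd (nat_lit 156) (nat_lit 76) (nat_lit 0) (XT.nd (nat_lit 78) (nat_lit 0) (nat_lit 0) (XT.lf (nat_lit 0) (nat_lit 8800254014) (nat_lit 152) (nat_lit 33412617066) (nat_lit 76)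 (nat_lit 179541643831) (nat_lit 3) (nat_lit 5) (nat_lit 5) (nat_lit 5) (nat_lit 4) (nat_lit 4) (nat_lit 305) (nat_lit 248) (nat_lit 167)) (XT.lf (nat_lit 0) (nat_lit 19642009142) (nat_lit 152) (nat_lit 11194511209) (nat_lit 76) (nat_lit 207932962663) (nat_lit 3) (nat_lit 5) (nat_lit 5) (nat_lit 5) (nat_lit 4) (nat_lit 4) (nat_lit 306) (nat_lit 248) (nat_lit 166))) (XT.nd (nat_lit 78) (nat_lit 0) (nat_lit 0) (XT.lf (nat_lit 0) (nat_lit 13217152021) (nat_lit 76) (nat_lit 18336369516) (nat_lit 152) (nat_lit 225582012349) (nat_lit 2) (nat_lit 5) (nat_lit 3) (nat_lit 5) (nat_lit 4) (nat_lit 4) (nat_lit 307) (nat_lit 248) (nat_lit 165)) (XT.nd (nat_lit 78) (nat_lit 0) (nat_lit 0) (XT.lf (nat_lit 0) (nat_lit 39974879034) (nat_lit 76) (nat_lit 4634325590) (nat_lit 152) (nat_lit 232352107428) (nat_lit 2) (nat_lit 5) (nat_lit 3) (nat_lit 5) (nat_lit 4) (nat_lit 4) (nat_lit 308) (nat_lit 248) (nat_lit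 164)) (XT.lf (nat_lit 0) (nat_lit 58864513970) (nat_lit 152) (nat_lit 229664883580) (nat_lit 0) (nat_lit 9836001626) (nat_lit 2) (nat_lit 5) (nat_lit 4) (nat_lit 4) (nat_lit 2) (nat_lit 4) (nat_lit 309) (nat_lit 248) (nat_lit 163)))))) (XT.nd (nat_lit 390) (nat_lit 0) (nat_lit 0) (XT.nd (nat_lit 156) (nat_lit 0) (nat_lit 0) (XT.nd (nat_lit 78) (nat_lit 0) (nat_lit 0) (XT.lf (nat_lit 0) (nat_lit 74335136565) (nat_lit 152) (nat_lit 221841557676) (nat_lit 0) (nat_lit 25301379498) (nat_lit 2) (nat_lit 5) (nat_lit 4) (nat_lit 4) (nat_lit 2) (nat_lit 4) (nat_lit 310) (nat_lit 248) (nat_lit 162)) (XT.lf (nat_lit 0) (nat_lit 91040395361) (nat_lit 152) (nat_lit 213397740046) (nat_lit 0) (nat_lit 42001782071) (nat_lit 2) (nat_lit 5) (nat_lit 4) (nat_lit 4) (nat_lit 2) (nat_lit 4) (nat_lit 311) (nat_lit 248) (nat_lit 161))) (XT.nd (nat_lit 78) (nat_lit 0) (nat_lit 0) (XT.lf (nat_lit 0) (nat_lit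 109079284486) (nat_lit 152) (nat_lit 204283393252) (nat_lit 0) (nat_lit 60036174692) (nat_lit 2) (nat_lit 5) (nat_lit 4) (nat_lit 4) (nat_lit 2) (nat_lit 4) (nat_lit 312) (nat_lit 248) (nat_lit 160)) (XT.nd (nat_lit 78) (nat_lit 0) (nat_lit 0) (XT.lf (nat_lit 0) (nat_lit 128558701061) (nat_lit 152) (nat_lit 194444506350) (nat_lit 0) (nat_lit 79511427837) (nat_lit 2) (nat_lit 5) (nat_lit 4) (nat_lit 4) (nat_lit 2) (nat_lit 4) (nat_lit 313) (nat_lit 248) (nat_lit 159)) (XT.lf (nat_lit 0) (nat_lit 149594078664) (nat_lit 152) (nat_lit 183822774826) (nat_lit 0) (nat_lit 100542950413) (nat_lit 2) (nat_lit 5) (nat_lit 4) (nat_lit 4) (nat_lit 2) (nat_lit 4) (nat_lit 314) (nat_lit 248) (nat_lit 158))))) (XT.nd (nat_lit 156) (nat_lit 0) (nat_lit 0) (XT.nd (nat_lit 78) (nat_lit 0) (nat_lit 0) (XT.lf (nat_lit 0) (nat_lit 172310071385) (nat_lit 152) (nat_lit 172355255085) (nat_lit 0) (nat_lit 123255373665)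 (nat_lit 2) (nat_lit 5) (nat_lit 4) (nat_lit 4) (nat_lit 2) (nat_lit 4) (nat_lit 315) (nat_lit 248) (nat_lit 157)) (XT.lf (nat_lit 0) (nat_lit 196841292516) (nat_lit 152) (nat_lit 159973991454) (nat_lit 0) (nat_lit 147783289731) (nat_lit 2) (nat_lit 5) (nat_lit 4) (nat_lit 4) (nat_lit 2) (nat_lit 4) (nat_lit 316) (nat_lit 248) (nat_lit 156))) (XT.nd (nat_lit 78) (nat_lit 0) (nat_lit 0) (XT.lf (nat_lit 0) (nat_lit 223333112254) (nat_lit 152) (nat_lit 146605613483) (nat_lit 0) (nat_lit 174272049224) (nat_lit 2) (nat_lit 5) (nat_lit 4) (nat_lit 4) (nat_lit 2) (nat_lit 4) (nat_lit 317) (nat_lit 248) (nat_lit 155)) (XT.nd (nat_lit 78) (nat_lit 0) (nat_lit 0) (XT.lf (nat_lit 0) (nat_lit 251942519161) (nat_lit 152) (nat_lit 132170901153) (nat_lit 0) (nat_lit 202878622572) (nat_lit 2) (nat_lit 5) (nat_lit 4) (nat_lit 4) (nat_lit 2) (nat_lit 4) (nat_lit 318) (nat_lit 248) (nat_lit 154)) (XT.lf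 (nat_lit 0) (nat_lit 282839050464) (nat_lit 152) (nat_lit 116584315429) (nat_lit 0) (nat_lit 233772530208) (nat_lit 2) (nat_lit 5) (nat_lit 4) (nat_lit 4) (nat_lit 2) (nat_lit 4) (nat_lit 319) (nat_lit 248) (nat_lit 153))))))))
noncomputable def xc68 : XT := (XT.nd (nat_lit 33150) (nat_lit 0) (nat_lit 836) (XT.nd (nat_lit 32448) (nat_lit 0) (nat_lit 2812) (XT.nd (nat_lit 32058) (nat_lit 0) (nat_lit 5168) (XT.nd (nat_lit 156) (nat_lit 0) (nat_lit 0) (XT.nd (nat_lit 78) (nat_lit 0) (nat_lit 0) (XT.lf (nat_lit 0) (nat_lit 316205796719) (nat_lit 152) (nat_lit 99753491359) (nat_lit 0) (nat_lit 267136847142) (nat_lit 2) (nat_lit 5) (nat_lit 4) (nat_lit 4) (nat_lit 2) (nat_lit 4) (nat_lit 320) (nat_lit 248) (nat_lit 152)) (XT.lf (nat_lit 0) (nat_lit 352240486791) (nat_lit 152) (nat_lit 81578690725) (nat_lit 0) (nat_lit 303169287843) (nat_lit 2) (nat_lit 5) (nat_lit 4) (nat_lit 4) (nat_lit 2)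 (nat_lit 4) (nat_lit 321) (nat_lit 248) (nat_lit 151))) (XT.nd (nat_lit 31824) (nat_lit 0) (nat_lit 5776) (XT.lf (nat_lit 0) (nat_lit 391156659585) (nat_lit 152) (nat_lit 61952211005) (nat_lit 0) (nat_lit 342083377886) (nat_lit 2) (nat_lit 5) (nat_lit 4) (nat_lit 4) (nat_lit 2) (nat_lit 4) (nat_lit 322) (nat_lit 248) (nat_lit 150)) (XT.lf (nat_lit 0) (nat_lit 1714463718) (nat_lit 0) (nat_lit 1714463718) (nat_lit 532) (nat_lit 1002920093) (nat_lit 78) (nat_lit 5) (nat_lit 78) (nat_lit 3) (nat_lit 85) (nat_lit 3) (nat_lit 249) (nat_lit 249) (nat_lit 222)))) (XT.nd (nat_lit 156) (nat_lit 0) (nat_lit 76) (XT.nd (nat_lit 78) (nat_lit 608) (nat_lit 0) (XT.lf (nat_lit 76) (nat_lit 415706627) (nat_lit 0) (nat_lit 8024696085) (nat_lit 608) (nat_lit 705841040) (nat_lit 79) (nat_lit 5) (nat_lit 78) (nat_lit 5) (nat_lit 86) (nat_lit 5) (nat_lit 250) (nat_lit 249) (nat_lit 221)) (XT.lf (nat_lit 0)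 (nat_lit 698505404) (nat_lit 608) (nat_lit 2668303996) (nat_lit 684) (nat_lit 6083534966) (nat_lit 70) (nat_lit 5) (nat_lit 78) (nat_lit 5) (nat_lit 79) (nat_lit 5) (nat_lit 251) (nat_lit 249) (nat_lit 220))) (XT.nd (nat_lit 78) (nat_lit 0) (nat_lit 0) (XT.lf (nat_lit 0) (nat_lit 2158284787) (nat_lit 608) (nat_lit 5891036184) (nat_lit 684) (nat_lit 1731063958) (nat_lit 71) (nat_lit 5) (nat_lit 79) (nat_lit 5) (nat_lit 80) (nat_lit 5) (nat_lit 252) (nat_lit 249) (nat_lit 219)) (XT.nd (nat_lit 78) (nat_lit 0) (nat_lit 76) (XT.lf (nat_lit 76) (nat_lit 823772173) (nat_lit 0) (nat_lit 2914911409) (nat_lit 684) (nat_lit 6398491433) (nat_lit 72) (nat_lit 5) (nat_lit 71) (nat_lit 5) (nat_lit 80) (nat_lit 5) (nat_lit 253) (nat_lit 249) (nat_lit 218)) (XT.lf (nat_lit 0) (nat_lit 5485555006) (nat_lit 608) (nat_lit 2354366115) (nat_lit 684) (nat_lit 2681083420) (nat_lit 72) (nat_lit 5) (nat_lit 80)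 (nat_lit 5) (nat_lit 81) (nat_lit 5) (nat_lit 254) (nat_lit 249) (nat_lit 217)))))) (XT.nd (nat_lit 312) (nat_lit 1216) (nat_lit 0) (XT.nd (nat_lit 156) (nat_lit 760) (nat_lit 0) (XT.nd (nat_lit 78) (nat_lit 532) (nat_lit 0) (XT.lf (nat_lit 76) (nat_lit 5204396508) (nat_lit 0) (nat_lit 2200662268) (nat_lit 684) (nat_lit 3529298882) (nat_lit 73) (nat_lit 5) (nat_lit 72) (nat_lit 5) (nat_lit 81) (nat_lit 5) (nat_lit 255) (nat_lit 249) (nat_lit 216)) (XT.lf (nat_lit 0) (nat_lit 1999294415) (nat_lit 608) (nat_lit 7521361593) (nat_lit 684) (nat_lit 1858423545) (nat_lit 65) (nat_lit 5) (nat_lit 73) (nat_lit 5) (nat_lit 74) (nat_lit 5) (nat_lit 256) (nat_lit 249) (nat_lit 215))) (XT.nd (nat_lit 78) (nat_lit 760) (nat_lit 0) (XT.lf (nat_lit 0) (nat_lit 10439997100) (nat_lit 608) (nat_lit 1416335159) (nat_lit 684) (nat_lit 900920) (nat_lit 65) (nat_lit 5) (nat_lit 73) (nat_lit 5) (nat_lit 74)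 (nat_lit 5) (nat_lit 257) (nat_lit 249) (nat_lit 214)) (XT.lf (nat_lit 0) (nat_lit 2057802825) (nat_lit 760) (nat_lit 5139784449) (nat_lit 76) (nat_lit 5168997316) (nat_lit 55) (nat_lit 5) (nat_lit 65) (nat_lit 5) (nat_lit 56) (nat_lit 5) (nat_lit 258) (nat_lit 249) (nat_lit 213)))) (XT.nd (nat_lit 156) (nat_lit 912) (nat_lit 0) (XT.nd (nat_lit 78) (nat_lit 0) (nat_lit 0) (XT.lf (nat_lit 0) (nat_lit 3720347387) (nat_lit 304) (nat_lit 592130797) (nat_lit 380) (nat_lit 8602962813) (nat_lit 51) (nat_lit 5) (nat_lit 55) (nat_lit 5) (nat_lit 56) (nat_lit 5) (nat_lit 259) (nat_lit 249) (nat_lit 212)) (XT.lf (nat_lit 0) (nat_lit 6869483969) (nat_lit 380) (nat_lit 207216807) (nat_lit 76) (nat_lit 6425706364) (nat_lit 51) (nat_lit 5) (nat_lit 56) (nat_lit 5) (nat_lit 52) (nat_lit 5) (nat_lit 260) (nat_lit 249) (nat_lit 211))) (XT.nd (nat_lit 78) (nat_lit 608) (nat_lit 0) (XT.lf (nat_lit 0) (nat_lit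 9727209115) (nat_lit 380) (nat_lit 4397987327) (nat_lit 76) (nat_lit 6603078) (nat_lit 47) (nat_lit 5) (nat_lit 52) (nat_lit 5) (nat_lit 48) (nat_lit 5) (nat_lit 261) (nat_lit 249) (nat_lit 210)) (XT.nd (nat_lit 78) (nat_lit 380) (nat_lit 0) (XT.lf (nat_lit 0) (nat_lit 5660214398) (nat_lit 228) (nat_lit 7302638075) (nat_lit 304) (nat_lit 1841482188) (nat_lit 44) (nat_lit 5) (nat_lit 47) (nat_lit 5) (nat_lit 48) (nat_lit 5) (nat_lit 262) (nat_lit 249) (nat_lit 209)) (XT.lf (nat_lit 0) (nat_lit 935188641) (nat_lit 380) (nat_lit 14425134452) (nat_lit 76) (nat_lit 167943538) (nat_lit 39) (nat_lit 5) (nat_lit 44) (nat_lit 5) (nat_lit 40) (nat_lit 5) (nat_lit 263) (nat_lit 249) (nat_lit 208))))))) (XT.nd (nat_lit 702) (nat_lit 836) (nat_lit 0) (XT.nd (nat_lit 312) (nat_lit 684) (nat_lit 0) (XT.nd (nat_lit 156) (nat_lit 228) (nat_lit 0) (XT.nd (nat_lit 78) (nat_lit 228) (nat_lit 0) (XT.lf (nat_lit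 0) (nat_lit 4098999541) (nat_lit 380) (nat_lit 4029215964) (nat_lit 76) (nat_lit 8169121433) (nat_lit 39) (nat_lit 5) (nat_lit 44) (nat_lit 5) (nat_lit 40) (nat_lit 5) (nat_lit 264) (nat_lit 249) (nat_lit 207)) (XT.lf (nat_lit 0) (nat_lit 7372329507) (nat_lit 228) (nat_lit 206492911) (nat_lit 304) (nat_lit 9546158927) (nat_lit 36) (nat_lit 5) (nat_lit 39) (nat_lit 5) (nat_lit 40) (nat_lit 5) (nat_lit 265) (nat_lit 249) (nat_lit 206))) (XT.nd (nat_lit 78) (nat_lit 0) (nat_lit 0) (XT.lf (nat_lit 0) (nat_lit 1674859674) (nat_lit 228) (nat_lit 9840596097) (nat_lit 304) (nat_lit 6494639776) (nat_lit 33) (nat_lit 5) (nat_lit 36) (nat_lit 5) (nat_lit 37) (nat_lit 5) (nat_lit 266) (nat_lit 249) (nat_lit 205)) (XT.lf (nat_lit 0) (nat_lit 14302127283) (nat_lit 228) (nat_lit 1591528043) (nat_lit 304) (nat_lit 3066197960) (nat_lit 33) (nat_lit 5) (nat_lit 36) (nat_lit 5) (nat_lit 37) (nat_lit 5)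 (nat_lit 267) (nat_lit 249) (nat_lit 204)))) (XT.nd (nat_lit 156) (nat_lit 152) (nat_lit 0) (XT.nd (nat_lit 78) (nat_lit 228) (nat_lit 0) (XT.lf (nat_lit 0) (nat_lit 815595864) (nat_lit 304) (nat_lit 11948874195) (nat_lit 76) (nat_lit 7210798773) (nat_lit 29) (nat_lit 5) (nat_lit 33) (nat_lit 5) (nat_lit 30) (nat_lit 5) (nat_lit 268) (nat_lit 249) (nat_lit 203)) (XT.lf (nat_lit 0) (nat_lit 710672052) (nat_lit 228) (nat_lit 4269826303) (nat_lit 304) (nat_lit 16085042188) (nat_lit 26) (nat_lit 5) (nat_lit 29) (nat_lit 5) (nat_lit 30) (nat_lit 5) (nat_lit 269) (nat_lit 249) (nat_lit 202))) (XT.nd (nat_lit 78) (nat_lit 152) (nat_lit 0) (XT.lf (nat_lit 0) (nat_lit 9726922727) (nat_lit 304) (nat_lit 7558311227) (nat_lit 76) (nat_lit 4945509188) (nat_lit 26) (nat_lit 5) (nat_lit 30) (nat_lit 5) (nat_lit 27) (nat_lit 5) (nat_lit 270) (nat_lit 249) (nat_lit 201)) (XT.nd (nat_lit 78) (nat_lit 0)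 (nat_lit 0) (XT.lf (nat_lit 0) (nat_lit 6341675135) (nat_lit 152) (nat_lit 8645546701) (nat_lit 228) (nat_lit 8495348405) (nat_lit 24) (nat_lit 5) (nat_lit 26) (nat_lit 5) (nat_lit 27) (nat_lit 5) (nat_lit 271) (nat_lit 249) (nat_lit 200)) (XT.lf (nat_lit 0) (nat_lit 20777758924) (nat_lit 228) (nat_lit 3267927525) (nat_lit 76) (nat_lit 783494070) (nat_lit 24) (nat_lit 5) (nat_lit 27) (nat_lit 5) (nat_lit 25) (nat_lit 5) (nat_lit 272) (nat_lit 249) (nat_lit 199)))))) (XT.nd (nat_lit 312) (nat_lit 304) (nat_lit 0) (XT.nd (nat_lit 156) (nat_lit 152) (nat_lit 0) (XT.nd (nat_lit 78) (nat_lit 152) (nat_lit 0) (XT.lf (nat_lit 0) (nat_lit 1028001792) (nat_lit 228) (nat_lit 14382091831) (nat_lit 76) (nat_lit 10857740859) (nat_lit 21) (nat_lit 5) (nat_lit 24) (nat_lit 5) (nat_lit 22) (nat_lit 5) (nat_lit 273) (nat_lit 249) (nat_lit 198)) (XT.lf (nat_lit 0) (nat_lit 448777285) (nat_lit 152) (nat_lit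 5958430558) (nat_lit 228) (nat_lit 21409371490) (nat_lit 19) (nat_lit 5) (nat_lit 21) (nat_lit 5) (nat_lit 22) (nat_lit 5) (nat_lit 274) (nat_lit 249) (nat_lit 197))) (XT.nd (nat_lit 78) (nat_lit 152) (nat_lit 0) (XT.lf (nat_lit 0) (nat_lit 12507752508) (nat_lit 228) (nat_lit 12612807676) (nat_lit 76) (nat_lit 4354194913) (nat_lit 19) (nat_lit 5) (nat_lit 22) (nat_lit 5) (nat_lit 20) (nat_lit 5) (nat_lit 275) (nat_lit 249) (nat_lit 196)) (XT.lf (nat_lit 0) (nat_lit 3285270453) (nat_lit 152) (nat_lit 15935076918) (nat_lit 228) (nat_lit 12039112625) (nat_lit 17) (nat_lit 5) (nat_lit 19) (nat_lit 5) (nat_lit 20) (nat_lit 5) (nat_lit 276) (nat_lit 249) (nat_lit 195)))) (XT.nd (nat_lit 156) (nat_lit 228) (nat_lit 0) (XT.nd (nat_lit 78) (nat_lit 76) (nat_lit 0) (XT.lf (nat_lit 0) (nat_lit 20865424237) (nat_lit 152) (nat_lit 5797905693) (nat_lit 228) (nat_lit 6514012167) (nat_lit 17) (nat_lit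 5) (nat_lit 19) (nat_lit 5) (nat_lit 20) (nat_lit 5) (nat_lit 277) (nat_lit 249) (nat_lit 194)) (XT.lf (nat_lit 0) (nat_lit 4632930905) (nat_lit 76) (nat_lit 30196986046) (nat_lit 152) (nat_lit 412394169) (nat_lit 16) (nat_lit 5) (nat_lit 17) (nat_lit 5) (nat_lit 18) (nat_lit 4) (nat_lit 278) (nat_lit 249) (nat_lit 193))) (XT.nd (nat_lit 78) (nat_lit 152) (nat_lit 0) (XT.lf (nat_lit 0) (nat_lit 6271615806) (nat_lit 152) (nat_lit 14323914200) (nat_lit 76) (nat_lit 16857583553) (nat_lit 15) (nat_lit 5) (nat_lit 17) (nat_lit 5) (nat_lit 16) (nat_lit 5) (nat_lit 279) (nat_lit 249) (nat_lit 192)) (XT.nd (nat_lit 78) (nat_lit 0) (nat_lit 0) (XT.lf (nat_lit 0) (nat_lit 3329311642) (nat_lit 152) (nat_lit 10176751961) (nat_lit 228) (nat_lit 26332923081) (nat_lit 13) (nat_lit 5) (nat_lit 15) (nat_lit 5) (nat_lit 16) (nat_lit 5) (nat_lit 280) (nat_lit 249) (nat_lit 191)) (XT.lf (nat_lit 0) (nat_lit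 21568575749) (nat_lit 228) (nat_lit 19551915644) (nat_lit 76) (nat_lit 1282821714) (nat_lit 13) (nat_lit 5) (nat_lit 16) (nat_lit 5) (nat_lit 14) (nat_lit 4) (nat_lit 281) (nat_lit 249) (nat_lit 190))))))))
noncomputable def xc69 : XT := (XT.nd (nat_lit 1404) (nat_lit 228) (nat_lit 0) (XT.nd (nat_lit 702) (nat_lit 228) (nat_lit 0) (XT.nd (nat_lit 312) (nat_lit 76) (nat_lit 0) (XT.nd (nat_lit 156) (nat_lit 228) (nat_lit 0) (XT.nd (nat_lit 78) (nat_lit 76) (nat_lit 0) (XT.lf (nat_lit 0) (nat_lit 30428162294) (nat_lit 228) (nat_lit 1440687055) (nat_lit 76) (nat_lit 13296377876) (nat_lit 13) (nat_lit 5) (nat_lit 16) (nat_lit 5) (nat_lit 14) (nat_lit 4) (nat_lit 282) (nat_lit 249) (nat_lit 189)) (XT.lf (nat_lit 0) (nat_lit 18688368651) (nat_lit 76) (nat_lit 21581846033) (nat_lit 152) (nat_lit 7864236744) (nat_lit 12) (nat_lit 5) (nat_lit 13) (nat_lit 5) (nat_lit 14) (nat_lit 4) (nat_lit 283)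 (nat_lit 249) (nat_lit 188))) (XT.nd (nat_lit 78) (nat_lit 228) (nat_lit 0) (XT.lf (nat_lit 0) (nat_lit 40451249284) (nat_lit 76) (nat_lit 10456301795) (nat_lit 152) (nat_lit 433305296) (nat_lit 12) (nat_lit 5) (nat_lit 13) (nat_lit 5) (nat_lit 14) (nat_lit 4) (nat_lit 284) (nat_lit 249) (nat_lit 187)) (XT.lf (nat_lit 0) (nat_lit 7506680854) (nat_lit 228) (nat_lit 45515737967) (nat_lit 76) (nat_lit 1767583669) (nat_lit 9) (nat_lit 5) (nat_lit 12) (nat_lit 5) (nat_lit 10) (nat_lit 4) (nat_lit 285) (nat_lit 249) (nat_lit 186)))) (XT.nd (nat_lit 156) (nat_lit 76) (nat_lit 0) (XT.nd (nat_lit 78) (nat_lit 0) (nat_lit 0) (XT.lf (nat_lit 0) (nat_lit 16420451067) (nat_lit 228) (nat_lit 27278157158) (nat_lit 76) (nat_lit 14798460276) (nat_lit 9) (nat_lit 5) (nat_lit 12) (nat_lit 5) (nat_lit 10) (nat_lit 4) (nat_lit 286) (nat_lit 249) (nat_lit 185)) (XT.lf (nat_lit 0) (nat_lit 26032925836) (nat_lit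 228) (nat_lit 7605591410) (nat_lit 76) (nat_lit 28862931735) (nat_lit 9) (nat_lit 5) (nat_lit 12) (nat_lit 5) (nat_lit 10) (nat_lit 4) (nat_lit 287) (nat_lit 249) (nat_lit 184))) (XT.nd (nat_lit 78) (nat_lit 0) (nat_lit 0) (XT.lf (nat_lit 0) (nat_lit 14068827797) (nat_lit 76) (nat_lit 22551894005) (nat_lit 152) (nat_lit 30195169093) (nat_lit 8) (nat_lit 5) (nat_lit 9) (nat_lit 5) (nat_lit 10) (nat_lit 4) (nat_lit 288) (nat_lit 249) (nat_lit 183)) (XT.nd (nat_lit 78) (nat_lit 0) (nat_lit 0) (XT.lf (nat_lit 0) (nat_lit 37727518221) (nat_lit 76) (nat_lit 10447832390) (nat_lit 152) (nat_lit 23294172242) (nat_lit 8) (nat_lit 5) (nat_lit 9) (nat_lit 5) (nat_lit 10) (nat_lit 4) (nat_lit 289) (nat_lit 249) (nat_lit 182)) (XT.lf (nat_lit 0) (nat_lit 60683465625) (nat_lit 152) (nat_lit 13277703482) (nat_lit 0) (nat_lit 2532843749) (nat_lit 8) (nat_lit 5) (nat_lit 10) (nat_lit 4) (nat_lit 8) (nat_lit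 4) (nat_lit 290) (nat_lit 249) (nat_lit 181)))))) (XT.nd (nat_lit 312) (nat_lit 76) (nat_lit 0) (XT.nd (nat_lit 156) (nat_lit 0) (nat_lit 0) (XT.nd (nat_lit 78) (nat_lit 76) (nat_lit 0) (XT.lf (nat_lit 0) (nat_lit 8914191893) (nat_lit 76) (nat_lit 65582400833) (nat_lit 76) (nat_lit 7408672749) (nat_lit 7) (nat_lit 4) (nat_lit 8) (nat_lit 5) (nat_lit 8) (nat_lit 4) (nat_lit 291) (nat_lit 249) (nat_lit 180)) (XT.lf (nat_lit 0) (nat_lit 1836492287) (nat_lit 152) (nat_lit 54430313529) (nat_lit 76) (nat_lit 31470109348) (nat_lit 6) (nat_lit 5) (nat_lit 8) (nat_lit 5) (nat_lit 7) (nat_lit 4) (nat_lit 292) (nat_lit 249) (nat_lit 179))) (XT.nd (nat_lit 78) (nat_lit 0) (nat_lit 0) (XT.lf (nat_lit 0) (nat_lit 11555326457) (nat_lit 152) (nat_lit 34526513329) (nat_lit 76) (nat_lit 47947520977) (nat_lit 6) (nat_lit 5) (nat_lit 8) (nat_lit 5) (nat_lit 7) (nat_lit 4) (nat_lit 293) (nat_lit 249) (nat_lit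 178)) (XT.lf (nat_lit 0) (nat_lit 22042546647) (nat_lit 152) (nat_lit 13046054390) (nat_lit 76) (nat_lit 65737073307) (nat_lit 6) (nat_lit 5) (nat_lit 8) (nat_lit 5) (nat_lit 7) (nat_lit 4) (nat_lit 294) (nat_lit 249) (nat_lit 177)))) (XT.nd (nat_lit 156) (nat_lit 0) (nat_lit 0) (XT.nd (nat_lit 78) (nat_lit 0) (nat_lit 0) (XT.lf (nat_lit 0) (nat_lit 10473574692) (nat_lit 76) (nat_lit 23050246509) (nat_lit 152) (nat_lit 74634133069) (nat_lit 5) (nat_lit 5) (nat_lit 6) (nat_lit 5) (nat_lit 7) (nat_lit 4) (nat_lit 295) (nat_lit 249) (nat_lit 176)) (XT.lf (nat_lit 0) (nat_lit 36326787687) (nat_lit 76) (nat_lit 9816027997) (nat_lit 152) (nat_lit 69923053980) (nat_lit 5) (nat_lit 5) (nat_lit 6) (nat_lit 5) (nat_lit 7) (nat_lit 4) (nat_lit 296) (nat_lit 249) (nat_lit 175))) (XT.nd (nat_lit 78) (nat_lit 0) (nat_lit 0) (XT.lf (nat_lit 0) (nat_lit 59833702336) (nat_lit 152) (nat_lit 60441189162)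 (nat_lit 0) (nat_lit 4328421101) (nat_lit 5) (nat_lit 5) (nat_lit 7) (nat_lit 4) (nat_lit 5) (nat_lit 4) (nat_lit 297) (nat_lit 249) (nat_lit 174)) (XT.nd (nat_lit 78) (nat_lit 0) (nat_lit 0) (XT.lf (nat_lit 0) (nat_lit 74778408689) (nat_lit 152) (nat_lit 39777139605) (nat_lit 0) (nat_lit 19260287217) (nat_lit 5) (nat_lit 5) (nat_lit 7) (nat_lit 4) (nat_lit 5) (nat_lit 4) (nat_lit 298) (nat_lit 249) (nat_lit 173)) (XT.lf (nat_lit 0) (nat_lit 90912240263) (nat_lit 152) (nat_lit 17471223971) (nat_lit 0) (nat_lit 35382229681) (nat_lit 5) (nat_lit 5) (nat_lit 7) (nat_lit 4) (nat_lit 5) (nat_lit 4) (nat_lit 299) (nat_lit 249) (nat_lit 172))))))) (XT.nd (nat_lit 702) (nat_lit 0) (nat_lit 0) (XT.nd (nat_lit 312) (nat_lit 152) (nat_lit 0) (XT.nd (nat_lit 156) (nat_lit 0) (nat_lit 0) (XT.nd (nat_lit 78) (nat_lit 0) (nat_lit 0) (XT.lf (nat_lit 0) (nat_lit 6827255764) (nat_lit 76) (nat_lit 101610141777)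 (nat_lit 76) (nat_lit 46069122761) (nat_lit 4) (nat_lit 4) (nat_lit 5) (nat_lit 5) (nat_lit 5) (nat_lit 4) (nat_lit 300) (nat_lit 249) (nat_lit 171)) (XT.lf (nat_lit 0) (nat_lit 33683534693) (nat_lit 76) (nat_lit 93979683544) (nat_lit 76) (nat_lit 38428471534) (nat_lit 4) (nat_lit 4) (nat_lit 5) (nat_lit 5) (nat_lit 5) (nat_lit 4) (nat_lit 301) (nat_lit 249) (nat_lit 170))) (XT.nd (nat_lit 78) (nat_lit 0) (nat_lit 0) (XT.lf (nat_lit 0) (nat_lit 62679083568) (nat_lit 76) (nat_lit 85742755637) (nat_lit 76) (nat_lit 30182105668) (nat_lit 4) (nat_lit 4) (nat_lit 5) (nat_lit 5) (nat_lit 5) (nat_lit 4) (nat_lit 302) (nat_lit 249) (nat_lit 169)) (XT.lf (nat_lit 0) (nat_lit 93985727864) (nat_lit 76) (nat_lit 76850546630) (nat_lit 76) (nat_lit 21281157811) (nat_lit 4) (nat_lit 4) (nat_lit 5) (nat_lit 5) (nat_lit 5) (nat_lit 4) (nat_lit 303) (nat_lit 249) (nat_lit 168)))) (XT.nd (nat_lit 156) (nat_lit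 152) (nat_lit 0) (XT.nd (nat_lit 78) (nat_lit 0) (nat_lit 0) (XT.lf (nat_lit 0) (nat_lit 127788988436) (nat_lit 76) (nat_lit 67250361951) (nat_lit 76) (nat_lit 11672881604) (nat_lit 4) (nat_lit 4) (nat_lit 5) (nat_lit 5) (nat_lit 5) (nat_lit 4) (nat_lit 304) (nat_lit 249) (nat_lit 167)) (XT.lf (nat_lit 0) (nat_lit 164289180902) (nat_lit 76) (nat_lit 56885311618) (nat_lit 76) (nat_lit 1300339116) (nat_lit 4) (nat_lit 4) (nat_lit 5) (nat_lit 5) (nat_lit 5) (nat_lit 4) (nat_lit 305) (nat_lit 249) (nat_lit 166))) (XT.nd (nat_lit 78) (nat_lit 76) (nat_lit 0) (XT.lf (nat_lit 0) (nat_lit 9581140788) (nat_lit 152) (nat_lit 35950571066) (nat_lit 76) (nat_lit 193959200655) (nat_lit 3) (nat_lit 5) (nat_lit 5) (nat_lit 5) (nat_lit 4) (nat_lit 4) (nat_lit 306) (nat_lit 249) (nat_lit 165)) (XT.nd (nat_lit 78) (nat_lit 76) (nat_lit 0) (XT.lf (nat_lit 0) (nat_lit 21284542515) (nat_lit 152) (nat_lit 11965020841)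 (nat_lit 76) (nat_lit 224617808303) (nat_lit 3) (nat_lit 5) (nat_lit 5) (nat_lit 5) (nat_lit 4) (nat_lit 4) (nat_lit 307) (nat_lit 249) (nat_lit 164)) (XT.lf (nat_lit 0) (nat_lit 14394140871) (nat_lit 76) (nat_lit 19751430535) (nat_lit 152) (nat_lit 243557313670) (nat_lit 2) (nat_lit 5) (nat_lit 3) (nat_lit 5) (nat_lit 4) (nat_lit 4) (nat_lit 308) (nat_lit 249) (nat_lit 163)))))) (XT.nd (nat_lit 390) (nat_lit 0) (nat_lit 0) (XT.nd (nat_lit 156) (nat_lit 0) (nat_lit 0) (XT.nd (nat_lit 78) (nat_lit 0) (nat_lit 0) (XT.lf (nat_lit 0) (nat_lit 43283625551) (nat_lit 76) (nat_lit 4957063728) (nat_lit 152) (nat_lit 250874294848) (nat_lit 2) (nat_lit 5) (nat_lit 3) (nat_lit 5) (nat_lit 4) (nat_lit 4) (nat_lit 309) (nat_lit 249) (nat_lit 162)) (XT.lf (nat_lit 0) (nat_lit 63632469368) (nat_lit 152) (nat_lit 247933222836) (nat_lit 0) (nat_lit 10665910790) (nat_lit 2) (nat_lit 5) (nat_lit 4) (nat_lit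 4) (nat_lit 2) (nat_lit 4) (nat_lit 310) (nat_lit 249) (nat_lit 161))) (XT.nd (nat_lit 78) (nat_lit 0) (nat_lit 0) (XT.lf (nat_lit 0) (nat_lit 80336386638) (nat_lit 152) (nat_lit 239491797632) (nat_lit 0) (nat_lit 27365331556) (nat_lit 2) (nat_lit 5) (nat_lit 4) (nat_lit 4) (nat_lit 2) (nat_lit 4) (nat_lit 311) (nat_lit 249) (nat_lit 160)) (XT.nd (nat_lit 78) (nat_lit 0) (nat_lit 0) (XT.lf (nat_lit 0) (nat_lit 98374033608) (nat_lit 152) (nat_lit 230379666048) (nat_lit 0) (nat_lit 45398815098) (nat_lit 2) (nat_lit 5) (nat_lit 4) (nat_lit 4) (nat_lit 2) (nat_lit 4) (nat_lit 312) (nat_lit 249) (nat_lit 159)) (XT.lf (nat_lit 0) (nat_lit 117852300040) (nat_lit 152) (nat_lit 220542830266) (nat_lit 0) (nat_lit 64873226502) (nat_lit 2) (nat_lit 5) (nat_lit 4) (nat_lit 4) (nat_lit 2) (nat_lit 4) (nat_lit 313) (nat_lit 249) (nat_lit 158))))) (XT.nd (nat_lit 156) (nat_lit 0) (nat_lit 0) (XT.nd (nat_lit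 78) (nat_lit 0) (nat_lit 0) (XT.lf (nat_lit 0) (nat_lit 138886612696) (nat_lit 152) (nat_lit 209922997927) (nat_lit 0) (nat_lit 85903969689) (nat_lit 2) (nat_lit 5) (nat_lit 4) (nat_lit 4) (nat_lit 2) (nat_lit 4) (nat_lit 314) (nat_lit 249) (nat_lit 157)) (XT.lf (nat_lit 0) (nat_lit 161601619356) (nat_lit 152) (nat_lit 198457236690) (nat_lit 0) (nat_lit 108615671284) (nat_lit 2) (nat_lit 5) (nat_lit 4) (nat_lit 4) (nat_lit 2) (nat_lit 4) (nat_lit 315) (nat_lit 249) (nat_lit 156))) (XT.nd (nat_lit 78) (nat_lit 0) (nat_lit 0) (XT.lf (nat_lit 0) (nat_lit 186131927465) (nat_lit 152) (nat_lit 186077601305) (nat_lit 0) (nat_lit 133142919149) (nat_lit 2) (nat_lit 5) (nat_lit 4) (nat_lit 4) (nat_lit 2) (nat_lit 4) (nat_lit 316) (nat_lit 249) (nat_lit 155)) (XT.nd (nat_lit 78) (nat_lit 0) (nat_lit 0) (XT.lf (nat_lit 0) (nat_lit 212622901814) (nat_lit 152) (nat_lit 172710730968) (nat_lit 0) (nat_lit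 159631059938) (nat_lit 2) (nat_lit 5) (nat_lit 4) (nat_lit 4) (nat_lit 2) (nat_lit 4) (nat_lit 317) (nat_lit 249) (nat_lit 154)) (XT.lf (nat_lit 0) (nat_lit 241231525954) (nat_lit 152) (nat_lit 158277414596) (nat_lit 0) (nat_lit 188237060411) (nat_lit 2) (nat_lit 5) (nat_lit 4) (nat_lit 4) (nat_lit 2) (nat_lit 4) (nat_lit 318) (nat_lit 249) (nat_lit 153))))))))
noncomputable def xc70 : XT := (XT.nd (nat_lit 33306) (nat_lit 0) (nat_lit 836) (XT.nd (nat_lit 32604) (nat_lit 0) (nat_lit 2812) (XT.nd (nat_lit 32214) (nat_lit 0) (nat_lit 5168) (XT.nd (nat_lit 156) (nat_lit 0) (nat_lit 0) (XT.nd (nat_lit 78) (nat_lit 0) (nat_lit 0) (XT.lf (nat_lit 0) (nat_lit 272127332472) (nat_lit 152) (nat_lit 142692121425) (nat_lit 0) (nat_lit 219130437608) (nat_lit 2) (nat_lit 5) (nat_lit 4) (nat_lit 4) (nat_lit 2) (nat_lit 4) (nat_lit 319) (nat_lit 249) (nat_lit 152)) (XT.lf (nat_lit 0) (nat_lit 305493407629)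 (nat_lit 152) (nat_lit 125862494164) (nat_lit 0) (nat_lit 252494263393) (nat_lit 2) (nat_lit 5) (nat_lit 4) (nat_lit 4) (nat_lit 2) (nat_lit 4) (nat_lit 320) (nat_lit 249) (nat_lit 151))) (XT.nd (nat_lit 31980) (nat_lit 0) (nat_lit 5092) (XT.lf (nat_lit 0) (nat_lit 341527476315) (nat_lit 152) (nat_lit 107688801686) (nat_lit 0) (nat_lit 288526249328) (nat_lit 2) (nat_lit 5) (nat_lit 4) (nat_lit 4) (nat_lit 2) (nat_lit 4) (nat_lit 321) (nat_lit 249) (nat_lit 150)) (XT.lf (nat_lit 0) (nat_lit 231160377) (nat_lit 684) (nat_lit 2242987665) (nat_lit 684) (nat_lit 2242987665) (nat_lit 69) (nat_lit 3) (nat_lit 78) (nat_lit 3) (nat_lit 78) (nat_lit 5) (nat_lit 250) (nat_lit 250) (nat_lit 220)))) (XT.nd (nat_lit 156) (nat_lit 0) (nat_lit 76) (XT.nd (nat_lit 78) (nat_lit 0) (nat_lit 0) (XT.lf (nat_lit 0) (nat_lit 1634808393) (nat_lit 608) (nat_lit 7977997993) (nat_lit 684) (nat_lit 135757425) (nat_lit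 70) (nat_lit 5) (nat_lit 78) (nat_lit 5) (nat_lit 79) (nat_lit 5) (nat_lit 251) (nat_lit 250) (nat_lit 219)) (XT.lf (nat_lit 0) (nat_lit 2951347031) (nat_lit 608) (nat_lit 1549286526) (nat_lit 684) (nat_lit 5585391572) (nat_lit 70) (nat_lit 5) (nat_lit 78) (nat_lit 5) (nat_lit 79) (nat_lit 5) (nat_lit 252) (nat_lit 250) (nat_lit 218))) (XT.nd (nat_lit 78) (nat_lit 0) (nat_lit 0) (XT.lf (nat_lit 0) (nat_lit 4372899619) (nat_lit 608) (nat_lit 4963147181) (nat_lit 684) (nat_lit 1114950277) (nat_lit 71) (nat_lit 5) (nat_lit 79) (nat_lit 5) (nat_lit 80) (nat_lit 5) (nat_lit 253) (nat_lit 250) (nat_lit 217)) (XT.nd (nat_lit 78) (nat_lit 0) (nat_lit 76) (XT.lf (nat_lit 76) (nat_lit 2228039539) (nat_lit 0) (nat_lit 3721330709) (nat_lit 684) (nat_lit 4894198203) (nat_lit 72) (nat_lit 5) (nat_lit 71) (nat_lit 5) (nat_lit 80) (nat_lit 5) (nat_lit 254) (nat_lit 250) (nat_lit 216)) (XT.lf (nat_lit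 0) (nat_lit 7686105248) (nat_lit 608) (nat_lit 1198367416) (nat_lit 684) (nat_lit 2381792721) (nat_lit 72) (nat_lit 5) (nat_lit 80) (nat_lit 5) (nat_lit 81) (nat_lit 5) (nat_lit 255) (nat_lit 250) (nat_lit 215)))))) (XT.nd (nat_lit 312) (nat_lit 1216) (nat_lit 0) (XT.nd (nat_lit 156) (nat_lit 760) (nat_lit 0) (XT.nd (nat_lit 78) (nat_lit 532) (nat_lit 0) (XT.lf (nat_lit 76) (nat_lit 6906672492) (nat_lit 0) (nat_lit 2742076980) (nat_lit 684) (nat_lit 2070075621) (nat_lit 73) (nat_lit 5) (nat_lit 72) (nat_lit 5) (nat_lit 81) (nat_lit 5) (nat_lit 256) (nat_lit 250) (nat_lit 214)) (XT.lf (nat_lit 0) (nat_lit 3481091615) (nat_lit 608) (nat_lit 8345541447) (nat_lit 684) (nat_lit 378411368) (nat_lit 65) (nat_lit 5) (nat_lit 73) (nat_lit 5) (nat_lit 74) (nat_lit 5) (nat_lit 257) (nat_lit 250) (nat_lit 213))) (XT.nd (nat_lit 78) (nat_lit 684) (nat_lit 0) (XT.lf (nat_lit 0) (nat_lit 1458834014)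 (nat_lit 684) (nat_lit 252093497) (nat_lit 76) (nat_lit 11015595357) (nat_lit 64) (nat_lit 5) (nat_lit 73) (nat_lit 5) (nat_lit 65) (nat_lit 5) (nat_lit 258) (nat_lit 250) (nat_lit 212)) (XT.lf (nat_lit 0) (nat_lit 3590857476) (nat_lit 760) (nat_lit 4251344682) (nat_lit 76) (nat_lit 5439453481) (nat_lit 55) (nat_lit 5) (nat_lit 65) (nat_lit 5) (nat_lit 56) (nat_lit 5) (nat_lit 259) (nat_lit 250) (nat_lit 211)))) (XT.nd (nat_lit 156) (nat_lit 608) (nat_lit 0) (XT.nd (nat_lit 78) (nat_lit 304) (nat_lit 0) (XT.lf (nat_lit 0) (nat_lit 5261117690) (nat_lit 304) (nat_lit 682832897) (nat_lit 380) (nat_lit 7934999950) (nat_lit 51) (nat_lit 5) (nat_lit 55) (nat_lit 5) (nat_lit 56) (nat_lit 5) (nat_lit 260) (nat_lit 250) (nat_lit 210)) (XT.lf (nat_lit 0) (nat_lit 1025265928) (nat_lit 304) (nat_lit 7600337383) (nat_lit 380) (nat_lit 5891666486) (nat_lit 47) (nat_lit 5) (nat_lit 51) (nat_lit 5) (nat_lit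 52) (nat_lit 5) (nat_lit 261) (nat_lit 250) (nat_lit 209))) (XT.nd (nat_lit 78) (nat_lit 608) (nat_lit 0) (XT.lf (nat_lit 0) (nat_lit 11626582990) (nat_lit 380) (nat_lit 3526449082) (nat_lit 76) (nat_lit 48620179) (nat_lit 47) (nat_lit 5) (nat_lit 52) (nat_lit 5) (nat_lit 48) (nat_lit 5) (nat_lit 262) (nat_lit 250) (nat_lit 208)) (XT.nd (nat_lit 78) (nat_lit 380) (nat_lit 0) (XT.lf (nat_lit 0) (nat_lit 7283242298) (nat_lit 228) (nat_lit 7773054147) (nat_lit 304) (nat_lit 875275891) (nat_lit 44) (nat_lit 5) (nat_lit 47) (nat_lit 5) (nat_lit 48) (nat_lit 5) (nat_lit 263) (nat_lit 250) (nat_lit 207)) (XT.lf (nat_lit 0) (nat_lit 2028320193) (nat_lit 380) (nat_lit 14369410916) (nat_lit 76) (nat_lit 318099452) (nat_lit 39) (nat_lit 5) (nat_lit 44) (nat_lit 5) (nat_lit 40) (nat_lit 5) (nat_lit 264) (nat_lit 250) (nat_lit 206))))))) (XT.nd (nat_lit 702) (nat_lit 836) (nat_lit 0) (XT.nd (nat_lit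 312) (nat_lit 684) (nat_lit 0) (XT.nd (nat_lit 156) (nat_lit 228) (nat_lit 0) (XT.nd (nat_lit 78) (nat_lit 228) (nat_lit 0) (XT.lf (nat_lit 0) (nat_lit 5369805117) (nat_lit 380) (nat_lit 3231428896) (nat_lit 76) (nat_lit 8949244139) (nat_lit 39) (nat_lit 5) (nat_lit 44) (nat_lit 5) (nat_lit 40) (nat_lit 5) (nat_lit 265) (nat_lit 250) (nat_lit 205)) (XT.lf (nat_lit 0) (nat_lit 9033560973) (nat_lit 228) (nat_lit 41337733) (nat_lit 304) (nat_lit 9372350529) (nat_lit 36) (nat_lit 5) (nat_lit 39) (nat_lit 5) (nat_lit 40) (nat_lit 5) (nat_lit 266) (nat_lit 250) (nat_lit 204))) (XT.nd (nat_lit 78) (nat_lit 0) (nat_lit 0) (XT.lf (nat_lit 0) (nat_lit 2876672977) (nat_lit 228) (nat_lit 10403178900) (nat_lit 304) (nat_lit 6125891393) (nat_lit 33) (nat_lit 5) (nat_lit 36) (nat_lit 5) (nat_lit 37) (nat_lit 5) (nat_lit 267) (nat_lit 250) (nat_lit 203)) (XT.lf (nat_lit 0) (nat_lit 16435023881) (nat_lit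 228) (nat_lit 1510827245) (nat_lit 304) (nat_lit 2488975681) (nat_lit 33) (nat_lit 5) (nat_lit 36) (nat_lit 5) (nat_lit 37) (nat_lit 5) (nat_lit 268) (nat_lit 250) (nat_lit 202)))) (XT.nd (nat_lit 156) (nat_lit 152) (nat_lit 0) (XT.nd (nat_lit 78) (nat_lit 228) (nat_lit 0) (XT.lf (nat_lit 0) (nat_lit 1636708662) (nat_lit 304) (nat_lit 11894692276) (nat_lit 76) (nat_lit 8001645022) (nat_lit 29) (nat_lit 5) (nat_lit 33) (nat_lit 5) (nat_lit 30) (nat_lit 5) (nat_lit 269) (nat_lit 250) (nat_lit 201)) (XT.lf (nat_lit 0) (nat_lit 1733720310) (nat_lit 228) (nat_lit 4360178036) (nat_lit 304) (nat_lit 16618867876) (nat_lit 26) (nat_lit 5) (nat_lit 29) (nat_lit 5) (nat_lit 30) (nat_lit 5) (nat_lit 270) (nat_lit 250) (nat_lit 200))) (XT.nd (nat_lit 78) (nat_lit 152) (nat_lit 0) (XT.lf (nat_lit 0) (nat_lit 11170708579) (nat_lit 304) (nat_lit 7236782065) (nat_lit 76) (nat_lit 5566328906) (nat_lit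 26) (nat_lit 5) (nat_lit 30) (nat_lit 5) (nat_lit 27) (nat_lit 5) (nat_lit 271) (nat_lit 250) (nat_lit 199)) (XT.nd (nat_lit 78) (nat_lit 0) (nat_lit 0) (XT.lf (nat_lit 0) (nat_lit 7734951941) (nat_lit 152) (nat_lit 9081405649) (nat_lit 228) (nat_lit 8511364591) (nat_lit 24) (nat_lit 5) (nat_lit 26) (nat_lit 5) (nat_lit 27) (nat_lit 5) (nat_lit 272) (nat_lit 250) (nat_lit 198)) (XT.lf (nat_lit 0) (nat_lit 23027156975) (nat_lit 228) (nat_lit 2681766396) (nat_lit 76) (nat_lit 1075431074) (nat_lit 24) (nat_lit 5) (nat_lit 27) (nat_lit 5) (nat_lit 25) (nat_lit 5) (nat_lit 273) (nat_lit 250) (nat_lit 197)))))) (XT.nd (nat_lit 312) (nat_lit 304) (nat_lit 0) (XT.nd (nat_lit 156) (nat_lit 152) (nat_lit 0) (XT.nd (nat_lit 78) (nat_lit 152) (nat_lit 0) (XT.lf (nat_lit 0) (nat_lit 1677318032) (nat_lit 228) (nat_lit 14701560456) (nat_lit 76) (nat_lit 11960440194) (nat_lit 21) (nat_lit 5) (nat_lit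 24) (nat_lit 5) (nat_lit 22) (nat_lit 5) (nat_lit 274) (nat_lit 250) (nat_lit 196)) (XT.lf (nat_lit 0) (nat_lit 1279659652) (nat_lit 152) (nat_lit 6177607146) (nat_lit 228) (nat_lit 22556293695) (nat_lit 19) (nat_lit 5) (nat_lit 21) (nat_lit 5) (nat_lit 22) (nat_lit 5) (nat_lit 275) (nat_lit 250) (nat_lit 195))) (XT.nd (nat_lit 78) (nat_lit 152) (nat_lit 0) (XT.lf (nat_lit 0) (nat_lit 14009763998) (nat_lit 228) (nat_lit 12863216451) (nat_lit 76) (nat_lit 4933323392) (nat_lit 19) (nat_lit 5) (nat_lit 22) (nat_lit 5) (nat_lit 20) (nat_lit 5) (nat_lit 276) (nat_lit 250) (nat_lit 194)) (XT.lf (nat_lit 0) (nat_lit 4273739409) (nat_lit 152) (nat_lit 16959816333) (nat_lit 228) (nat_lit 12501620820) (nat_lit 17) (nat_lit 5) (nat_lit 19) (nat_lit 5) (nat_lit 20) (nat_lit 5) (nat_lit 277) (nat_lit 250) (nat_lit 193)))) (XT.nd (nat_lit 156) (nat_lit 228) (nat_lit 0) (XT.nd (nat_lit 78) (nat_lit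 76) (nat_lit 0) (XT.lf (nat_lit 0) (nat_lit 23206553843) (nat_lit 152) (nat_lit 6030194872) (nat_lit 228) (nat_lit 6571595349) (nat_lit 17) (nat_lit 5) (nat_lit 19) (nat_lit 5) (nat_lit 20) (nat_lit 5) (nat_lit 278) (nat_lit 250) (nat_lit 192)) (XT.lf (nat_lit 0) (nat_lit 5664981135) (nat_lit 76) (nat_lit 32372736679) (nat_lit 152) (nat_lit 1826541) (nat_lit 16) (nat_lit 5) (nat_lit 17) (nat_lit 5) (nat_lit 18) (nat_lit 4) (nat_lit 279) (nat_lit 250) (nat_lit 191))) (XT.nd (nat_lit 78) (nat_lit 152) (nat_lit 0) (XT.lf (nat_lit 0) (nat_lit 7170902940) (nat_lit 152) (nat_lit 14843306770) (nat_lit 76) (nat_lit 18414321531) (nat_lit 15) (nat_lit 5) (nat_lit 17) (nat_lit 5) (nat_lit 16) (nat_lit 5) (nat_lit 280) (nat_lit 250) (nat_lit 190)) (XT.nd (nat_lit 78) (nat_lit 0) (nat_lit 0) (XT.lf (nat_lit 0) (nat_lit 4194949319) (nat_lit 152) (nat_lit 10769065149) (nat_lit 228) (nat_lit 28042334982)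 (nat_lit 13) (nat_lit 5) (nat_lit 15) (nat_lit 5) (nat_lit 16) (nat_lit 5) (nat_lit 281) (nat_lit 250) (nat_lit 189)) (XT.lf (nat_lit 0) (nat_lit 23646773955) (nat_lit 228) (nat_lit 20546082254) (nat_lit 76) (nat_lit 1584268858) (nat_lit 13) (nat_lit 5) (nat_lit 16) (nat_lit 5) (nat_lit 14) (nat_lit 4) (nat_lit 282) (nat_lit 250) (nat_lit 188))))))))
noncomputable def xc71 : XT := (XT.nd (nat_lit 1404) (nat_lit 228) (nat_lit 0) (XT.nd (nat_lit 702) (nat_lit 228) (nat_lit 0) (XT.nd (nat_lit 312) (nat_lit 76) (nat_lit 0) (XT.nd (nat_lit 156) (nat_lit 228) (nat_lit 0) (XT.nd (nat_lit 78) (nat_lit 76) (nat_lit 0) (XT.lf (nat_lit 0) (nat_lit 33189000598) (nat_lit 228) (nat_lit 1028176610) (nat_lit 76) (nat_lit 14544182002) (nat_lit 13) (nat_lit 5) (nat_lit 16) (nat_lit 5) (nat_lit 14) (nat_lit 4) (nat_lit 283) (nat_lit 250) (nat_lit 187)) (XT.lf (nat_lit 0) (nat_lit 20688267510) (nat_lit 76)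 (nat_lit 23113839965) (nat_lit 152) (nat_lit 8166885428) (nat_lit 12) (nat_lit 5) (nat_lit 13) (nat_lit 5) (nat_lit 14) (nat_lit 4) (nat_lit 284) (nat_lit 250) (nat_lit 186))) (XT.nd (nat_lit 78) (nat_lit 228) (nat_lit 0) (XT.lf (nat_lit 0) (nat_lit 44154783826) (nat_lit 76) (nat_lit 11112663577) (nat_lit 152) (nat_lit 165663928) (nat_lit 12) (nat_lit 5) (nat_lit 13) (nat_lit 5) (nat_lit 14) (nat_lit 4) (nat_lit 285) (nat_lit 250) (nat_lit 185)) (XT.lf (nat_lit 0) (nat_lit 8388096463) (nat_lit 228) (nat_lit 48688346299) (nat_lit 76) (nat_lit 2082143611) (nat_lit 9) (nat_lit 5) (nat_lit 12) (nat_lit 5) (nat_lit 10) (nat_lit 4) (nat_lit 286) (nat_lit 250) (nat_lit 184)))) (XT.nd (nat_lit 156) (nat_lit 76) (nat_lit 0) (XT.nd (nat_lit 78) (nat_lit 0) (nat_lit 0) (XT.lf (nat_lit 0) (nat_lit 17994162283) (nat_lit 228) (nat_lit 29026473893) (nat_lit 76) (nat_lit 16142664180) (nat_lit 9) (nat_lit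 5) (nat_lit 12) (nat_lit 5) (nat_lit 10) (nat_lit 4) (nat_lit 287) (nat_lit 250) (nat_lit 183)) (XT.lf (nat_lit 0) (nat_lit 28356370208) (nat_lit 228) (nat_lit 7812246280) (nat_lit 76) (nat_lit 31320417275) (nat_lit 9) (nat_lit 5) (nat_lit 12) (nat_lit 5) (nat_lit 10) (nat_lit 4) (nat_lit 288) (nat_lit 250) (nat_lit 182))) (XT.nd (nat_lit 78) (nat_lit 0) (nat_lit 0) (XT.lf (nat_lit 0) (nat_lit 15578665053) (nat_lit 76) (nat_lit 24200687482) (nat_lit 152) (nat_lit 32369906703) (nat_lit 8) (nat_lit 5) (nat_lit 9) (nat_lit 5) (nat_lit 10) (nat_lit 4) (nat_lit 289) (nat_lit 250) (nat_lit 181)) (XT.nd (nat_lit 78) (nat_lit 0) (nat_lit 0) (XT.lf (nat_lit 0) (nat_lit 41101581746) (nat_lit 76) (nat_lit 11139808941) (nat_lit 152) (nat_lit 24934672764) (nat_lit 8) (nat_lit 5) (nat_lit 9) (nat_lit 5) (nat_lit 10) (nat_lit 4) (nat_lit 290) (nat_lit 250) (nat_lit 180)) (XT.lf (nat_lit 0) (nat_lit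 65736529848) (nat_lit 152) (nat_lit 14002292543) (nat_lit 0) (nat_lit 2864402675) (nat_lit 8) (nat_lit 5) (nat_lit 10) (nat_lit 4) (nat_lit 8) (nat_lit 4) (nat_lit 291) (nat_lit 250) (nat_lit 179)))))) (XT.nd (nat_lit 312) (nat_lit 76) (nat_lit 0) (XT.nd (nat_lit 156) (nat_lit 0) (nat_lit 0) (XT.nd (nat_lit 78) (nat_lit 76) (nat_lit 0) (XT.lf (nat_lit 0) (nat_lit 9950281595) (nat_lit 76) (nat_lit 70694772413) (nat_lit 76) (nat_lit 7802835392) (nat_lit 7) (nat_lit 4) (nat_lit 8) (nat_lit 5) (nat_lit 8) (nat_lit 4) (nat_lit 292) (nat_lit 250) (nat_lit 178)) (XT.lf (nat_lit 0) (nat_lit 2161353281) (nat_lit 152) (nat_lit 58479505245) (nat_lit 76) (nat_lit 34105794763) (nat_lit 6) (nat_lit 5) (nat_lit 8) (nat_lit 5) (nat_lit 7) (nat_lit 4) (nat_lit 293) (nat_lit 250) (nat_lit 177))) (XT.nd (nat_lit 78) (nat_lit 0) (nat_lit 0) (XT.lf (nat_lit 0) (nat_lit 12644513325) (nat_lit 152) (nat_lit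 37006010908) (nat_lit 76) (nat_lit 51892652903) (nat_lit 6) (nat_lit 5) (nat_lit 8) (nat_lit 5) (nat_lit 7) (nat_lit 4) (nat_lit 294) (nat_lit 250) (nat_lit 176)) (XT.lf (nat_lit 0) (nat_lit 23958506630) (nat_lit 152) (nat_lit 13828050327) (nat_lit 76) (nat_lit 71097270883) (nat_lit 6) (nat_lit 5) (nat_lit 8) (nat_lit 5) (nat_lit 7) (nat_lit 4) (nat_lit 295) (nat_lit 250) (nat_lit 175)))) (XT.nd (nat_lit 156) (nat_lit 0) (nat_lit 0) (XT.nd (nat_lit 78) (nat_lit 0) (nat_lit 0) (XT.lf (nat_lit 0) (nat_lit 11561776422) (nat_lit 76) (nat_lit 24789114393) (nat_lit 152) (nat_lit 80452189155) (nat_lit 5) (nat_lit 5) (nat_lit 6) (nat_lit 5) (nat_lit 7) (nat_lit 4) (nat_lit 296) (nat_lit 250) (nat_lit 174)) (XT.lf (nat_lit 0) (nat_lit 39464704549) (nat_lit 76) (nat_lit 10503947425) (nat_lit 152) (nat_lit 75375532966) (nat_lit 5) (nat_lit 5) (nat_lit 6) (nat_lit 5) (nat_lit 7) (nat_lit 4) (nat_lit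 297) (nat_lit 250) (nat_lit 173))) (XT.nd (nat_lit 78) (nat_lit 0) (nat_lit 0) (XT.lf (nat_lit 0) (nat_lit 64746260691) (nat_lit 152) (nat_lit 65056847224) (nat_lit 0) (nat_lit 4761960153) (nat_lit 5) (nat_lit 5) (nat_lit 7) (nat_lit 4) (nat_lit 5) (nat_lit 4) (nat_lit 298) (nat_lit 250) (nat_lit 172)) (XT.nd (nat_lit 78) (nat_lit 0) (nat_lit 0) (XT.lf (nat_lit 0) (nat_lit 80877220429) (nat_lit 152) (nat_lit 42755943114) (nat_lit 0) (nat_lit 20881911458) (nat_lit 5) (nat_lit 5) (nat_lit 7) (nat_lit 4) (nat_lit 5) (nat_lit 4) (nat_lit 299) (nat_lit 250) (nat_lit 171)) (XT.lf (nat_lit 0) (nat_lit 98293126006) (nat_lit 152) (nat_lit 18680618500) (nat_lit 0) (nat_lit 38287624040) (nat_lit 5) (nat_lit 5) (nat_lit 7) (nat_lit 4) (nat_lit 5) (nat_lit 4) (nat_lit 300) (nat_lit 250) (nat_lit 170))))))) (XT.nd (nat_lit 702) (nat_lit 0) (nat_lit 0) (XT.nd (nat_lit 312) (nat_lit 152) (nat_lit 0)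 (XT.nd (nat_lit 156) (nat_lit 0) (nat_lit 0) (XT.nd (nat_lit 78) (nat_lit 0) (nat_lit 0) (XT.lf (nat_lit 0) (nat_lit 7553556177) (nat_lit 76) (nat_lit 109661558792) (nat_lit 76) (nat_lit 49646618867) (nat_lit 4) (nat_lit 4) (nat_lit 5) (nat_lit 5) (nat_lit 5) (nat_lit 4) (nat_lit 301) (nat_lit 250) (nat_lit 169)) (XT.lf (nat_lit 0) (nat_lit 36544995202) (nat_lit 76) (nat_lit 101426396813) (nat_lit 76) (nat_lit 41402718039) (nat_lit 4) (nat_lit 4) (nat_lit 5) (nat_lit 5) (nat_lit 5) (nat_lit 4) (nat_lit 302) (nat_lit 250) (nat_lit 168))) (XT.nd (nat_lit 78) (nat_lit 0) (nat_lit 0) (XT.lf (nat_lit 0) (nat_lit 67847834081) (nat_lit 76) (nat_lit 92535822926) (nat_lit 76) (nat_lit 32504052623) (nat_lit 4) (nat_lit 4) (nat_lit 5) (nat_lit 5) (nat_lit 5) (nat_lit 4) (nat_lit 303) (nat_lit 250) (nat_lit 167)) (XT.lf (nat_lit 0) (nat_lit 101647571118) (nat_lit 76) (nat_lit 82937152247) (nat_lit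 76) (nat_lit 22897889789) (nat_lit 4) (nat_lit 4) (nat_lit 5) (nat_lit 5) (nat_lit 5) (nat_lit 4) (nat_lit 304) (nat_lit 250) (nat_lit 166)))) (XT.nd (nat_lit 156) (nat_lit 152) (nat_lit 0) (XT.nd (nat_lit 78) (nat_lit 0) (nat_lit 0) (XT.lf (nat_lit 0) (nat_lit 138144501053) (nat_lit 76) (nat_lit 72573503766) (nat_lit 76) (nat_lit 12527304127) (nat_lit 4) (nat_lit 4) (nat_lit 5) (nat_lit 5) (nat_lit 5) (nat_lit 4) (nat_lit 305) (nat_lit 250) (nat_lit 165)) (XT.lf (nat_lit 0) (nat_lit 177554901987) (nat_lit 76) (nat_lit 61383463268) (nat_lit 76) (nat_lit 1330840314) (nat_lit 4) (nat_lit 4) (nat_lit 5) (nat_lit 5) (nat_lit 5) (nat_lit 4) (nat_lit 306) (nat_lit 250) (nat_lit 164))) (XT.nd (nat_lit 78) (nat_lit 76) (nat_lit 0) (XT.lf (nat_lit 0) (nat_lit 10413532646) (nat_lit 152) (nat_lit 38710828543) (nat_lit 76) (nat_lit 209522426178) (nat_lit 3) (nat_lit 5) (nat_lit 5) (nat_lit 5) (nat_lit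 4) (nat_lit 4) (nat_lit 307) (nat_lit 250) (nat_lit 163)) (XT.nd (nat_lit 78) (nat_lit 76) (nat_lit 0) (XT.lf (nat_lit 0) (nat_lit 23048324986) (nat_lit 152) (nat_lit 12815011205) (nat_lit 76) (nat_lit 242630278773) (nat_lit 3) (nat_lit 5) (nat_lit 5) (nat_lit 5) (nat_lit 4) (nat_lit 4) (nat_lit 308) (nat_lit 250) (nat_lit 162)) (XT.lf (nat_lit 0) (nat_lit 15648224172) (nat_lit 76) (nat_lit 21287093210) (nat_lit 152) (nat_lit 262980805084) (nat_lit 2) (nat_lit 5) (nat_lit 3) (nat_lit 5) (nat_lit 4) (nat_lit 4) (nat_lit 309) (nat_lit 250) (nat_lit 161)))))) (XT.nd (nat_lit 390) (nat_lit 0) (nat_lit 0) (XT.nd (nat_lit 156) (nat_lit 0) (nat_lit 0) (XT.nd (nat_lit 78) (nat_lit 0) (nat_lit 0) (XT.lf (nat_lit 0) (nat_lit 46841271179) (nat_lit 76) (nat_lit 5312469781) (nat_lit 152) (nat_lit 270887670215) (nat_lit 2) (nat_lit 5) (nat_lit 3) (nat_lit 5) (nat_lit 4) (nat_lit 4) (nat_lit 310) (nat_lit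 250) (nat_lit 160)) (XT.lf (nat_lit 0) (nat_lit 68773473535) (nat_lit 152) (nat_lit 267677987461) (nat_lit 0) (nat_lit 11556074114) (nat_lit 2) (nat_lit 5) (nat_lit 4) (nat_lit 4) (nat_lit 2) (nat_lit 4) (nat_lit 311) (nat_lit 250) (nat_lit 159))) (XT.nd (nat_lit 78) (nat_lit 0) (nat_lit 0) (XT.lf (nat_lit 0) (nat_lit 86809970363) (nat_lit 152) (nat_lit 258567906996) (nat_lit 0) (nat_lit 29588715915) (nat_lit 2) (nat_lit 5) (nat_lit 4) (nat_lit 4) (nat_lit 2) (nat_lit 4) (nat_lit 312) (nat_lit 250) (nat_lit 158)) (XT.nd (nat_lit 78) (nat_lit 0) (nat_lit 0) (XT.lf (nat_lit 0) (nat_lit 106287171848) (nat_lit 152) (nat_lit 248732970400) (nat_lit 0) (nat_lit 49062347930) (nat_lit 2) (nat_lit 5) (nat_lit 4) (nat_lit 4) (nat_lit 2) (nat_lit 4) (nat_lit 313) (nat_lit 250) (nat_lit 157)) (XT.lf (nat_lit 0) (nat_lit 127320498442) (nat_lit 152) (nat_lit 238114896565) (nat_lit 0) (nat_lit 70092369460)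 (nat_lit 2) (nat_lit 5) (nat_lit 4) (nat_lit 4) (nat_lit 2) (nat_lit 4) (nat_lit 314) (nat_lit 250) (nat_lit 156))))) (XT.nd (nat_lit 156) (nat_lit 0) (nat_lit 0) (XT.nd (nat_lit 78) (nat_lit 0) (nat_lit 0) (XT.lf (nat_lit 0) (nat_lit 150034592081) (nat_lit 152) (nat_lit 226650763574) (nat_lit 0) (nat_lit 92803402854) (nat_lit 2) (nat_lit 5) (nat_lit 4) (nat_lit 4) (nat_lit 2) (nat_lit 4) (nat_lit 315) (nat_lit 250) (nat_lit 155)) (XT.lf (nat_lit 0) (nat_lit 174564054801) (nat_lit 152) (nat_lit 214272635823) (nat_lit 0) (nat_lit 117330032015) (nat_lit 2) (nat_lit 5) (nat_lit 4) (nat_lit 4) (nat_lit 2) (nat_lit 4) (nat_lit 316) (nat_lit 250) (nat_lit 154))) (XT.nd (nat_lit 78) (nat_lit 0) (nat_lit 0) (XT.lf (nat_lit 0) (nat_lit 201054246382) (nat_lit 152) (nat_lit 200907161443) (nat_lit 0) (nat_lit 143817599929) (nat_lit 2) (nat_lit 5) (nat_lit 4) (nat_lit 4) (nat_lit 2) (nat_lit 4) (nat_lit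 317) (nat_lit 250) (nat_lit 153)) (XT.nd (nat_lit 78) (nat_lit 0) (nat_lit 0) (XT.lf (nat_lit 0) (nat_lit 229662145737) (nat_lit 152) (nat_lit 186475137625) (nat_lit 0) (nat_lit 172423069963) (nat_lit 2) (nat_lit 5) (nat_lit 4) (nat_lit 4) (nat_lit 2) (nat_lit 4) (nat_lit 318) (nat_lit 250) (nat_lit 152)) (XT.lf (nat_lit 0) (nat_lit 260557281158) (nat_lit 152) (nat_lit 170891041264) (nat_lit 0) (nat_lit 203315956012) (nat_lit 2) (nat_lit 5) (nat_lit 4) (nat_lit 4) (nat_lit 2) (nat_lit 4) (nat_lit 319) (nat_lit 250) (nat_lit 151))))))))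
noncomputable def xc72 : XT := (XT.nd (nat_lit 33384) (nat_lit 0) (nat_lit 836) (XT.nd (nat_lit 32682) (nat_lit 0) (nat_lit 2812) (XT.nd (nat_lit 32292) (nat_lit 0) (nat_lit 5168) (XT.nd (nat_lit 32136) (nat_lit 0) (nat_lit 5092) (XT.nd (nat_lit 78) (nat_lit 0) (nat_lit 0) (XT.lf (nat_lit 0) (nat_lit 293922734928) (nat_lit 152) (nat_lit 154062522158) (nat_lit 0) (nat_lit 236679327031) (nat_lit 2) (nat_lit 5) (nat_lit 4) (nat_lit 4) (nat_lit 2) (nat_lit 4) (nat_lit 320) (nat_lit 250) (nat_lit 150)) (XT.lf (nat_lit 0) (nat_lit 329956228256) (nat_lit 152) (nat_lit 135889855751) (nat_lit 0) (nat_lit 272710891886) (nat_lit 2) (nat_lit 5) (nat_lit 4) (nat_lit 4) (nat_lit 2) (nat_lit 4) (nat_lit 321) (nat_lit 250) (nat_lit 149))) (XT.nd (nat_lit 78) (nat_lit 0) (nat_lit 0) (XT.lf (nat_lit 0) (nat_lit 1346743738) (nat_lit 684) (nat_lit 1843829468) (nat_lit 684) (nat_lit 1843829468) (nat_lit 69)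 (nat_lit 3) (nat_lit 78) (nat_lit 3) (nat_lit 78) (nat_lit 5) (nat_lit 251) (nat_lit 251) (nat_lit 218)) (XT.lf (nat_lit 76) (nat_lit 3021598293) (nat_lit 0) (nat_lit 790560972) (nat_lit 684) (nat_lit 6604240297) (nat_lit 70) (nat_lit 5) (nat_lit 69) (nat_lit 3) (nat_lit 78) (nat_lit 5) (nat_lit 252) (nat_lit 251) (nat_lit 217)))) (XT.nd (nat_lit 156) (nat_lit 0) (nat_lit 76) (XT.nd (nat_lit 78) (nat_lit 0) (nat_lit 76) (XT.lf (nat_lit 0) (nat_lit 5070994912) (nat_lit 608) (nat_lit 530841082) (nat_lit 684) (nat_lit 5187893172) (nat_lit 70) (nat_lit 5) (nat_lit 78) (nat_lit 5) (nat_lit 79) (nat_lit 5) (nat_lit 253) (nat_lit 251) (nat_lit 216)) (XT.lf (nat_lit 0) (nat_lit 6473376348) (nat_lit 608) (nat_lit 4160634572) (nat_lit 684) (nat_lit 557199457) (nat_lit 71) (nat_lit 5) (nat_lit 79) (nat_lit 5) (nat_lit 80) (nat_lit 5) (nat_lit 254) (nat_lit 251) (nat_lit 215))) (XT.nd (nat_lit 78)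 (nat_lit 0) (nat_lit 76) (XT.lf (nat_lit 76) (nat_lit 3553715480) (nat_lit 0) (nat_lit 4510486400) (nat_lit 684) (nat_lit 3557191069) (nat_lit 72) (nat_lit 5) (nat_lit 71) (nat_lit 5) (nat_lit 80) (nat_lit 5) (nat_lit 255) (nat_lit 251) (nat_lit 214)) (XT.nd (nat_lit 78) (nat_lit 0) (nat_lit 0) (XT.lf (nat_lit 0) (nat_lit 9811372475) (nat_lit 608) (nat_lit 141675090) (nat_lit 684) (nat_lit 2131854852) (nat_lit 72) (nat_lit 5) (nat_lit 80) (nat_lit 5) (nat_lit 81) (nat_lit 5) (nat_lit 256) (nat_lit 251) (nat_lit 213)) (XT.lf (nat_lit 76) (nat_lit 8561679082) (nat_lit 0) (nat_lit 3274681934) (nat_lit 684) (nat_lit 742568527) (nat_lit 73) (nat_lit 5) (nat_lit 72) (nat_lit 5) (nat_lit 81) (nat_lit 5) (nat_lit 257) (nat_lit 251) (nat_lit 212)))))) (XT.nd (nat_lit 312) (nat_lit 912) (nat_lit 0) (XT.nd (nat_lit 156) (nat_lit 304) (nat_lit 0) (XT.nd (nat_lit 78) (nat_lit 684) (nat_lit 0) (XT.lf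 (nat_lit 0) (nat_lit 956040491) (nat_lit 684) (nat_lit 8231686225) (nat_lit 76) (nat_lit 3920623891) (nat_lit 64) (nat_lit 5) (nat_lit 73) (nat_lit 5) (nat_lit 65) (nat_lit 5) (nat_lit 258) (nat_lit 251) (nat_lit 211)) (XT.lf (nat_lit 0) (nat_lit 851092357) (nat_lit 684) (nat_lit 1989258833) (nat_lit 760) (nat_lit 10835650950) (nat_lit 55) (nat_lit 5) (nat_lit 64) (nat_lit 5) (nat_lit 65) (nat_lit 5) (nat_lit 259) (nat_lit 251) (nat_lit 210))) (XT.nd (nat_lit 78) (nat_lit 304) (nat_lit 0) (XT.lf (nat_lit 0) (nat_lit 5051334601) (nat_lit 760) (nat_lit 3477235417) (nat_lit 76) (nat_lit 5751955763) (nat_lit 55) (nat_lit 5) (nat_lit 65) (nat_lit 5) (nat_lit 56) (nat_lit 5) (nat_lit 260) (nat_lit 251) (nat_lit 209)) (XT.lf (nat_lit 0) (nat_lit 6747801439) (nat_lit 304) (nat_lit 774609421) (nat_lit 380) (nat_lit 7407077134) (nat_lit 51) (nat_lit 5) (nat_lit 55) (nat_lit 5) (nat_lit 56) (nat_lit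 5) (nat_lit 261) (nat_lit 251) (nat_lit 208)))) (XT.nd (nat_lit 156) (nat_lit 608) (nat_lit 0) (XT.nd (nat_lit 78) (nat_lit 0) (nat_lit 0) (XT.lf (nat_lit 0) (nat_lit 2184498901) (nat_lit 304) (nat_lit 8168678574) (nat_lit 380) (nat_lit 5269309303) (nat_lit 47) (nat_lit 5) (nat_lit 51) (nat_lit 5) (nat_lit 52) (nat_lit 5) (nat_lit 262) (nat_lit 251) (nat_lit 207)) (XT.lf (nat_lit 0) (nat_lit 13517955467) (nat_lit 380) (nat_lit 2759716216) (nat_lit 76) (nat_lit 88079800) (nat_lit 47) (nat_lit 5) (nat_lit 52) (nat_lit 5) (nat_lit 48) (nat_lit 5) (nat_lit 263) (nat_lit 251) (nat_lit 206))) (XT.nd (nat_lit 78) (nat_lit 304) (nat_lit 0) (XT.lf (nat_lit 0) (nat_lit 9070234) (nat_lit 304) (nat_lit 8288113788) (nat_lit 76) (nat_lit 8859944941) (nat_lit 43) (nat_lit 5) (nat_lit 47) (nat_lit 5) (nat_lit 44) (nat_lit 5) (nat_lit 264) (nat_lit 251) (nat_lit 205)) (XT.nd (nat_lit 78) (nat_lit 0) (nat_lit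 0) (XT.lf (nat_lit 0) (nat_lit 3063628042) (nat_lit 380) (nat_lit 14481811618) (nat_lit 76) (nat_lit 460763141) (nat_lit 39) (nat_lit 5) (nat_lit 44) (nat_lit 5) (nat_lit 40) (nat_lit 5) (nat_lit 265) (nat_lit 251) (nat_lit 204)) (XT.lf (nat_lit 0) (nat_lit 6607761964) (nat_lit 380) (nat_lit 2529617124) (nat_lit 76) (nat_lit 9773716756) (nat_lit 39) (nat_lit 5) (nat_lit 44) (nat_lit 5) (nat_lit 40) (nat_lit 5) (nat_lit 266) (nat_lit 251) (nat_lit 203))))))) (XT.nd (nat_lit 702) (nat_lit 608) (nat_lit 0) (XT.nd (nat_lit 312) (nat_lit 608) (nat_lit 0) (XT.nd (nat_lit 156) (nat_lit 304) (nat_lit 0) (XT.nd (nat_lit 78) (nat_lit 228) (nat_lit 0) (XT.lf (nat_lit 0) (nat_lit 10565460158) (nat_lit 304) (nat_lit 9209005298) (nat_lit 76) (nat_lit 107555669) (nat_lit 36) (nat_lit 5) (nat_lit 40) (nat_lit 5) (nat_lit 37) (nat_lit 5) (nat_lit 267) (nat_lit 251) (nat_lit 202)) (XT.lf (nat_lit 0) (nat_lit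 4022294237) (nat_lit 228) (nat_lit 11042819285) (nat_lit 304) (nat_lit 5854371856) (nat_lit 33) (nat_lit 5) (nat_lit 36) (nat_lit 5) (nat_lit 37) (nat_lit 5) (nat_lit 268) (nat_lit 251) (nat_lit 201))) (XT.nd (nat_lit 78) (nat_lit 304) (nat_lit 0) (XT.lf (nat_lit 0) (nat_lit 18597499331) (nat_lit 228) (nat_lit 1453347196) (nat_lit 304) (nat_lit 1982917025) (nat_lit 33) (nat_lit 5) (nat_lit 36) (nat_lit 5) (nat_lit 37) (nat_lit 5) (nat_lit 269) (nat_lit 251) (nat_lit 200)) (XT.lf (nat_lit 0) (nat_lit 2415677873) (nat_lit 304) (nat_lit 11980276700) (nat_lit 76) (nat_lit 8825231997) (nat_lit 29) (nat_lit 5) (nat_lit 33) (nat_lit 5) (nat_lit 30) (nat_lit 5) (nat_lit 270) (nat_lit 251) (nat_lit 199)))) (XT.nd (nat_lit 156) (nat_lit 380) (nat_lit 0) (XT.nd (nat_lit 78) (nat_lit 0) (nat_lit 0) (XT.lf (nat_lit 0) (nat_lit 2700773982) (nat_lit 228) (nat_lit 4493599301) (nat_lit 304) (nat_lit 17302820305)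 (nat_lit 26) (nat_lit 5) (nat_lit 29) (nat_lit 5) (nat_lit 30) (nat_lit 5) (nat_lit 271) (nat_lit 251) (nat_lit 198)) (XT.lf (nat_lit 0) (nat_lit 12635037447) (nat_lit 304) (nat_lit 7021662508) (nat_lit 76) (nat_lit 6204689902) (nat_lit 26) (nat_lit 5) (nat_lit 30) (nat_lit 5) (nat_lit 27) (nat_lit 5) (nat_lit 272) (nat_lit 251) (nat_lit 197))) (XT.nd (nat_lit 78) (nat_lit 228) (nat_lit 0) (XT.lf (nat_lit 0) (nat_lit 9113301246) (nat_lit 152) (nat_lit 9588623873) (nat_lit 228) (nat_lit 8623333697) (nat_lit 24) (nat_lit 5) (nat_lit 26) (nat_lit 5) (nat_lit 27) (nat_lit 5) (nat_lit 273) (nat_lit 251) (nat_lit 196)) (XT.nd (nat_lit 78) (nat_lit 228) (nat_lit 0) (XT.lf (nat_lit 0) (nat_lit 25372739458) (nat_lit 228) (nat_lit 2169631327) (nat_lit 76) (nat_lit 1358016897) (nat_lit 24) (nat_lit 5) (nat_lit 27) (nat_lit 5) (nat_lit 25) (nat_lit 5) (nat_lit 274) (nat_lit 251) (nat_lit 195)) (XT.lf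 (nat_lit 0) (nat_lit 2297679826) (nat_lit 228) (nat_lit 15165152095) (nat_lit 76) (nat_lit 13117961337) (nat_lit 21) (nat_lit 5) (nat_lit 24) (nat_lit 5) (nat_lit 22) (nat_lit 5) (nat_lit 275) (nat_lit 251) (nat_lit 194)))))) (XT.nd (nat_lit 312) (nat_lit 304) (nat_lit 0) (XT.nd (nat_lit 156) (nat_lit 152) (nat_lit 0) (XT.nd (nat_lit 78) (nat_lit 0) (nat_lit 0) (XT.lf (nat_lit 0) (nat_lit 2063599798) (nat_lit 152) (nat_lit 6451052810) (nat_lit 228) (nat_lit 23875691298) (nat_lit 19) (nat_lit 5) (nat_lit 21) (nat_lit 5) (nat_lit 22) (nat_lit 5) (nat_lit 276) (nat_lit 251) (nat_lit 193)) (XT.lf (nat_lit 0) (nat_lit 15560407333) (nat_lit 228) (nat_lit 13241882958) (nat_lit 76) (nat_lit 5525856964) (nat_lit 19) (nat_lit 5) (nat_lit 22) (nat_lit 5) (nat_lit 20) (nat_lit 5) (nat_lit 277) (nat_lit 251) (nat_lit 192))) (XT.nd (nat_lit 78) (nat_lit 0) (nat_lit 0) (XT.lf (nat_lit 0) (nat_lit 5237764179)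 (nat_lit 152) (nat_lit 18102209717) (nat_lit 228) (nat_lit 13072548826) (nat_lit 17) (nat_lit 5) (nat_lit 19) (nat_lit 5) (nat_lit 20) (nat_lit 5) (nat_lit 278) (nat_lit 251) (nat_lit 191)) (XT.lf (nat_lit 0) (nat_lit 25639120388) (nat_lit 152) (nat_lit 6314099423) (nat_lit 228) (nat_lit 6699914033) (nat_lit 17) (nat_lit 5) (nat_lit 19) (nat_lit 5) (nat_lit 20) (nat_lit 5) (nat_lit 279) (nat_lit 251) (nat_lit 190)))) (XT.nd (nat_lit 156) (nat_lit 152) (nat_lit 0) (XT.nd (nat_lit 78) (nat_lit 0) (nat_lit 0) (XT.lf (nat_lit 0) (nat_lit 366199611) (nat_lit 152) (nat_lit 34384385844) (nat_lit 76) (nat_lit 6312835652) (nat_lit 15) (nat_lit 5) (nat_lit 17) (nat_lit 5) (nat_lit 16) (nat_lit 5) (nat_lit 280) (nat_lit 251) (nat_lit 189)) (XT.lf (nat_lit 0) (nat_lit 8085416969) (nat_lit 152) (nat_lit 15493630909) (nat_lit 76) (nat_lit 20065906291) (nat_lit 15) (nat_lit 5) (nat_lit 17) (nat_lit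 5) (nat_lit 16) (nat_lit 5) (nat_lit 281) (nat_lit 251) (nat_lit 188))) (XT.nd (nat_lit 78) (nat_lit 0) (nat_lit 0) (XT.lf (nat_lit 0) (nat_lit 5044342200) (nat_lit 152) (nat_lit 11440409490) (nat_lit 228) (nat_lit 29945167986) (nat_lit 13) (nat_lit 5) (nat_lit 15) (nat_lit 5) (nat_lit 16) (nat_lit 5) (nat_lit 282) (nat_lit 251) (nat_lit 187)) (XT.nd (nat_lit 78) (nat_lit 0) (nat_lit 0) (XT.lf (nat_lit 0) (nat_lit 25840909686) (nat_lit 228) (nat_lit 21701097160) (nat_lit 76) (nat_lit 1881467678) (nat_lit 13) (nat_lit 5) (nat_lit 16) (nat_lit 5) (nat_lit 14) (nat_lit 4) (nat_lit 283) (nat_lit 251) (nat_lit 186)) (XT.lf (nat_lit 0) (nat_lit 36124114920) (nat_lit 228) (nat_lit 657956966) (nat_lit 76) (nat_lit 15865547405) (nat_lit 13) (nat_lit 5) (nat_lit 16) (nat_lit 5) (nat_lit 14) (nat_lit 4) (nat_lit 284) (nat_lit 251) (nat_lit 185))))))))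
noncomputable def xc73 : XT := (XT.nd (nat_lit 1404) (nat_lit 152) (nat_lit 0) (XT.nd (nat_lit 702) (nat_lit 228) (nat_lit 0) (XT.nd (nat_lit 312) (nat_lit 152) (nat_lit 0) (XT.nd (nat_lit 156) (nat_lit 152) (nat_lit 0) (XT.nd (nat_lit 78) (nat_lit 76) (nat_lit 0) (XT.lf (nat_lit 0) (nat_lit 22776138725) (nat_lit 76) (nat_lit 24796148679) (nat_lit 152) (nat_lit 8540323492) (nat_lit 12) (nat_lit 5) (nat_lit 13) (nat_lit 5) (nat_lit 14) (nat_lit 4) (nat_lit 285) (nat_lit 251) (nat_lit 184)) (XT.lf (nat_lit 0) (nat_lit 77692580) (nat_lit 152) (nat_lit 11768225281) (nat_lit 76) (nat_lit 48008908018) (nat_lit 11) (nat_lit 5) (nat_lit 13) (nat_lit 5) (nat_lit 12) (nat_lit 5) (nat_lit 286) (nat_lit 251) (nat_lit 183))) (XT.nd (nat_lit 78) (nat_lit 0) (nat_lit 0) (XT.lf (nat_lit 0) (nat_lit 9299954486) (nat_lit 228) (nat_lit 52181621560) (nat_lit 76) (nat_lit 2397166101) (nat_lit 9) (nat_lit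 5) (nat_lit 12) (nat_lit 5) (nat_lit 10) (nat_lit 4) (nat_lit 287) (nat_lit 251) (nat_lit 182)) (XT.lf (nat_lit 0) (nat_lit 19656667771) (nat_lit 228) (nat_lit 30976561764) (nat_lit 76) (nat_lit 17571531945) (nat_lit 9) (nat_lit 5) (nat_lit 12) (nat_lit 5) (nat_lit 10) (nat_lit 4) (nat_lit 288) (nat_lit 251) (nat_lit 181)))) (XT.nd (nat_lit 156) (nat_lit 76) (nat_lit 0) (XT.nd (nat_lit 78) (nat_lit 76) (nat_lit 0) (XT.lf (nat_lit 0) (nat_lit 30831335849) (nat_lit 228) (nat_lit 8092753723) (nat_lit 76) (nat_lit 33953323464) (nat_lit 9) (nat_lit 5) (nat_lit 12) (nat_lit 5) (nat_lit 10) (nat_lit 4) (nat_lit 289) (nat_lit 251) (nat_lit 180)) (XT.lf (nat_lit 0) (nat_lit 17154460172) (nat_lit 76) (nat_lit 26003548000) (nat_lit 152) (nat_lit 34752986964) (nat_lit 8) (nat_lit 5) (nat_lit 9) (nat_lit 5) (nat_lit 10) (nat_lit 4) (nat_lit 290) (nat_lit 251) (nat_lit 179))) (XT.nd (nat_lit 78) (nat_lit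 76) (nat_lit 0) (XT.lf (nat_lit 0) (nat_lit 44694802651) (nat_lit 76) (nat_lit 11907665433) (nat_lit 152) (nat_lit 26738231516) (nat_lit 8) (nat_lit 5) (nat_lit 9) (nat_lit 5) (nat_lit 10) (nat_lit 4) (nat_lit 291) (nat_lit 251) (nat_lit 178)) (XT.nd (nat_lit 78) (nat_lit 76) (nat_lit 0) (XT.lf (nat_lit 0) (nat_lit 71165537088) (nat_lit 152) (nat_lit 14833015026) (nat_lit 0) (nat_lit 3204092806) (nat_lit 8) (nat_lit 5) (nat_lit 10) (nat_lit 4) (nat_lit 8) (nat_lit 4) (nat_lit 292) (nat_lit 251) (nat_lit 177)) (XT.lf (nat_lit 0) (nat_lit 11023185424) (nat_lit 76) (nat_lit 76235281772) (nat_lit 76) (nat_lit 8256853738) (nat_lit 7) (nat_lit 4) (nat_lit 8) (nat_lit 5) (nat_lit 8) (nat_lit 4) (nat_lit 293) (nat_lit 251) (nat_lit 176)))))) (XT.nd (nat_lit 312) (nat_lit 76) (nat_lit 0) (XT.nd (nat_lit 156) (nat_lit 76) (nat_lit 0) (XT.nd (nat_lit 78) (nat_lit 0) (nat_lit 0) (XT.lf (nat_lit 0)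 (nat_lit 2486817794) (nat_lit 152) (nat_lit 62896177251) (nat_lit 76) (nat_lit 36935490055) (nat_lit 6) (nat_lit 5) (nat_lit 8) (nat_lit 5) (nat_lit 7) (nat_lit 4) (nat_lit 294) (nat_lit 251) (nat_lit 175)) (XT.lf (nat_lit 0) (nat_lit 13797330178) (nat_lit 152) (nat_lit 39724187693) (nat_lit 76) (nat_lit 56137798201) (nat_lit 6) (nat_lit 5) (nat_lit 8) (nat_lit 5) (nat_lit 7) (nat_lit 4) (nat_lit 295) (nat_lit 251) (nat_lit 174))) (XT.nd (nat_lit 78) (nat_lit 76) (nat_lit 0) (XT.lf (nat_lit 0) (nat_lit 26005979557) (nat_lit 152) (nat_lit 14709938717) (nat_lit 76) (nat_lit 76871842429) (nat_lit 6) (nat_lit 5) (nat_lit 8) (nat_lit 5) (nat_lit 7) (nat_lit 4) (nat_lit 296) (nat_lit 251) (nat_lit 173)) (XT.lf (nat_lit 0) (nat_lit 12701323950) (nat_lit 76) (nat_lit 26682092793) (nat_lit 152) (nat_lit 86757470462) (nat_lit 5) (nat_lit 5) (nat_lit 6) (nat_lit 5) (nat_lit 7) (nat_lit 4) (nat_lit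 297) (nat_lit 251) (nat_lit 172)))) (XT.nd (nat_lit 156) (nat_lit 76) (nat_lit 0) (XT.nd (nat_lit 78) (nat_lit 0) (nat_lit 0) (XT.lf (nat_lit 0) (nat_lit 42820589629) (nat_lit 76) (nat_lit 11260790301) (nat_lit 152) (nat_lit 81284377616) (nat_lit 5) (nat_lit 5) (nat_lit 6) (nat_lit 5) (nat_lit 7) (nat_lit 4) (nat_lit 298) (nat_lit 251) (nat_lit 171)) (XT.lf (nat_lit 0) (nat_lit 70033868069) (nat_lit 152) (nat_lit 70073091614) (nat_lit 0) (nat_lit 5217732950) (nat_lit 5) (nat_lit 5) (nat_lit 7) (nat_lit 4) (nat_lit 5) (nat_lit 4) (nat_lit 299) (nat_lit 251) (nat_lit 170))) (XT.nd (nat_lit 78) (nat_lit 76) (nat_lit 0) (XT.lf (nat_lit 0) (nat_lit 87447311511) (nat_lit 152) (nat_lit 46002063574) (nat_lit 0) (nat_lit 22621738434) (nat_lit 5) (nat_lit 5) (nat_lit 7) (nat_lit 4) (nat_lit 5) (nat_lit 4) (nat_lit 300) (nat_lit 251) (nat_lit 169)) (XT.nd (nat_lit 78) (nat_lit 76) (nat_lit 0) (XT.lf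 (nat_lit 0) (nat_lit 106249088538) (nat_lit 152) (nat_lit 20013628176) (nat_lit 0) (nat_lit 41414776611) (nat_lit 5) (nat_lit 5) (nat_lit 7) (nat_lit 4) (nat_lit 5) (nat_lit 4) (nat_lit 301) (nat_lit 251) (nat_lit 168)) (XT.lf (nat_lit 0) (nat_lit 8312264499) (nat_lit 76) (nat_lit 118368130333) (nat_lit 76) (nat_lit 53525726878) (nat_lit 4) (nat_lit 4) (nat_lit 5) (nat_lit 5) (nat_lit 5) (nat_lit 4) (nat_lit 302) (nat_lit 251) (nat_lit 167))))))) (XT.nd (nat_lit 702) (nat_lit 0) (nat_lit 0) (XT.nd (nat_lit 312) (nat_lit 152) (nat_lit 0) (XT.nd (nat_lit 156) (nat_lit 0) (nat_lit 0) (XT.nd (nat_lit 78) (nat_lit 0) (nat_lit 0) (XT.lf (nat_lit 0) (nat_lit 39611579843) (nat_lit 76) (nat_lit 109479070446) (nat_lit 76) (nat_lit 44629174835) (nat_lit 4) (nat_lit 4) (nat_lit 5) (nat_lit 5) (nat_lit 5) (nat_lit 4) (nat_lit 303) (nat_lit 251) (nat_lit 166)) (XT.lf (nat_lit 0) (nat_lit 73408054349)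 (nat_lit 76) (nat_lit 99881801619) (nat_lit 76) (nat_lit 35024968827) (nat_lit 4) (nat_lit 4) (nat_lit 5) (nat_lit 5) (nat_lit 5) (nat_lit 4) (nat_lit 304) (nat_lit 251) (nat_lit 165))) (XT.nd (nat_lit 78) (nat_lit 0) (nat_lit 0) (XT.lf (nat_lit 0) (nat_lit 109901963421) (nat_lit 76) (nat_lit 89519451148) (nat_lit 76) (nat_lit 24656195041) (nat_lit 4) (nat_lit 4) (nat_lit 5) (nat_lit 5) (nat_lit 5) (nat_lit 4) (nat_lit 305) (nat_lit 251) (nat_lit 164)) (XT.lf (nat_lit 0) (nat_lit 149309567260) (nat_lit 76) (nat_lit 78330612512) (nat_lit 76) (nat_lit 13461408891) (nat_lit 4) (nat_lit 4) (nat_lit 5) (nat_lit 5) (nat_lit 5) (nat_lit 4) (nat_lit 306) (nat_lit 251) (nat_lit 163)))) (XT.nd (nat_lit 156) (nat_lit 76) (nat_lit 0) (XT.nd (nat_lit 78) (nat_lit 76) (nat_lit 0) (XT.lf (nat_lit 0) (nat_lit 191864392408) (nat_lit 76) (nat_lit 66248981483) (nat_lit 76) (nat_lit 1374270904) (nat_lit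 4) (nat_lit 4) (nat_lit 5) (nat_lit 5) (nat_lit 5) (nat_lit 4) (nat_lit 307) (nat_lit 251) (nat_lit 162)) (XT.lf (nat_lit 0) (nat_lit 11303114396) (nat_lit 152) (nat_lit 41708425101) (nat_lit 76) (nat_lit 226324077499) (nat_lit 3) (nat_lit 5) (nat_lit 5) (nat_lit 5) (nat_lit 4) (nat_lit 4) (nat_lit 308) (nat_lit 251) (nat_lit 161))) (XT.nd (nat_lit 78) (nat_lit 76) (nat_lit 0) (XT.lf (nat_lit 0) (nat_lit 24944505002) (nat_lit 152) (nat_lit 13748295688) (nat_lit 76) (nat_lit 262077605915) (nat_lit 3) (nat_lit 5) (nat_lit 5) (nat_lit 5) (nat_lit 4) (nat_lit 4) (nat_lit 309) (nat_lit 251) (nat_lit 160)) (XT.nd (nat_lit 78) (nat_lit 0) (nat_lit 0) (XT.lf (nat_lit 0) (nat_lit 16988003943) (nat_lit 76) (nat_lit 22951950440) (nat_lit 152) (nat_lit 283966891509) (nat_lit 2) (nat_lit 5) (nat_lit 3) (nat_lit 5) (nat_lit 4) (nat_lit 4) (nat_lit 310) (nat_lit 251) (nat_lit 159)) (XT.lf (nat_lit 0)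 (nat_lit 50669981982) (nat_lit 76) (nat_lit 5702180117) (nat_lit 152) (nat_lit 292510185700) (nat_lit 2) (nat_lit 5) (nat_lit 3) (nat_lit 5) (nat_lit 4) (nat_lit 4) (nat_lit 311) (nat_lit 251) (nat_lit 158)))))) (XT.nd (nat_lit 312) (nat_lit 0) (nat_lit 0) (XT.nd (nat_lit 156) (nat_lit 0) (nat_lit 0) (XT.nd (nat_lit 78) (nat_lit 0) (nat_lit 0) (XT.lf (nat_lit 0) (nat_lit 74318566969) (nat_lit 152) (nat_lit 289015157526) (nat_lit 0) (nat_lit 12512187668) (nat_lit 2) (nat_lit 5) (nat_lit 4) (nat_lit 4) (nat_lit 2) (nat_lit 4) (nat_lit 312) (nat_lit 251) (nat_lit 157)) (XT.lf (nat_lit 0) (nat_lit 93794782391) (nat_lit 152) (nat_lit 279181979434) (nat_lit 0) (nat_lit 31985098026) (nat_lit 2) (nat_lit 5) (nat_lit 4) (nat_lit 4) (nat_lit 2) (nat_lit 4) (nat_lit 313) (nat_lit 251) (nat_lit 156))) (XT.nd (nat_lit 78) (nat_lit 0) (nat_lit 0) (XT.lf (nat_lit 0) (nat_lit 114827195965) (nat_lit 152)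 (nat_lit 268565533845) (nat_lit 0) (nat_lit 53014451355) (nat_lit 2) (nat_lit 5) (nat_lit 4) (nat_lit 4) (nat_lit 2) (nat_lit 4) (nat_lit 314) (nat_lit 251) (nat_lit 155)) (XT.lf (nat_lit 0) (nat_lit 137540444214) (nat_lit 152) (nat_lit 257102908488) (nat_lit 0) (nat_lit 75724866045) (nat_lit 2) (nat_lit 5) (nat_lit 4) (nat_lit 4) (nat_lit 2) (nat_lit 4) (nat_lit 315) (nat_lit 251) (nat_lit 154)))) (XT.nd (nat_lit 156) (nat_lit 0) (nat_lit 0) (XT.nd (nat_lit 78) (nat_lit 0) (nat_lit 0) (XT.lf (nat_lit 0) (nat_lit 162069124167) (nat_lit 152) (nat_lit 244726176694) (nat_lit 0) (nat_lit 100250922331) (nat_lit 2) (nat_lit 5) (nat_lit 4) (nat_lit 4) (nat_lit 2) (nat_lit 4) (nat_lit 316) (nat_lit 251) (nat_lit 153)) (XT.lf (nat_lit 0) (nat_lit 188558590963) (nat_lit 152) (nat_lit 231361994869) (nat_lit 0) (nat_lit 126737959806) (nat_lit 2) (nat_lit 5) (nat_lit 4) (nat_lit 4) (nat_lit 2) (nat_lit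 4) (nat_lit 317) (nat_lit 251) (nat_lit 152))) (XT.nd (nat_lit 78) (nat_lit 0) (nat_lit 0) (XT.lf (nat_lit 0) (nat_lit 217165819220) (nat_lit 152) (nat_lit 216931167859) (nat_lit 0) (nat_lit 155342938692) (nat_lit 2) (nat_lit 5) (nat_lit 4) (nat_lit 4) (nat_lit 2) (nat_lit 4) (nat_lit 318) (nat_lit 251) (nat_lit 151)) (XT.nd (nat_lit 78) (nat_lit 0) (nat_lit 0) (XT.lf (nat_lit 0) (nat_lit 248060333255) (nat_lit 152) (nat_lit 201348179654) (nat_lit 0) (nat_lit 186235369975) (nat_lit 2) (nat_lit 5) (nat_lit 4) (nat_lit 4) (nat_lit 2) (nat_lit 4) (nat_lit 319) (nat_lit 251) (nat_lit 150)) (XT.lf (nat_lit 0) (nat_lit 281425211668) (nat_lit 152) (nat_lit 184520686619) (nat_lit 0) (nat_lit 219598319914) (nat_lit 2) (nat_lit 5) (nat_lit 4) (nat_lit 4) (nat_lit 2) (nat_lit 4) (nat_lit 320) (nat_lit 251) (nat_lit 149))))))))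
noncomputable def xc74 : XT := (XT.nd (nat_lit 33462) (nat_lit 0) (nat_lit 760) (XT.nd (nat_lit 32760) (nat_lit 0) (nat_lit 2584) (XT.nd (nat_lit 32370) (nat_lit 0) (nat_lit 4636) (XT.nd (nat_lit 32214) (nat_lit 0) (nat_lit 5092) (XT.nd (nat_lit 32136) (nat_lit 0) (nat_lit 5092) (XT.lf (nat_lit 0) (nat_lit 317458172257) (nat_lit 152) (nat_lit 166348970277) (nat_lit 0) (nat_lit 255629494881) (nat_lit 2) (nat_lit 5) (nat_lit 4) (nat_lit 4) (nat_lit 2) (nat_lit 4) (nat_lit 321) (nat_lit 251) (nat_lit 148)) (XT.lf (nat_lit 0) (nat_lit 2395061539) (nat_lit 684) (nat_lit 1495281976) (nat_lit 684) (nat_lit 1495281976) (nat_lit 69) (nat_lit 3) (nat_lit 78) (nat_lit 3) (nat_lit 78) (nat_lit 5) (nat_lit 252) (nat_lit 252) (nat_lit 216))) (XT.nd (nat_lit 78) (nat_lit 0) (nat_lit 76) (XT.lf (nat_lit 76) (nat_lit 4212318065) (nat_lit 0) (nat_lit 1661442034) (nat_lit 684) (nat_lit 5279785795) (nat_lit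 70) (nat_lit 5) (nat_lit 69) (nat_lit 3) (nat_lit 78) (nat_lit 5) (nat_lit 253) (nat_lit 252) (nat_lit 215)) (XT.lf (nat_lit 76) (nat_lit 419533207) (nat_lit 0) (nat_lit 6678523450) (nat_lit 684) (nat_lit 4466064856) (nat_lit 71) (nat_lit 5) (nat_lit 70) (nat_lit 5) (nat_lit 79) (nat_lit 5) (nat_lit 254) (nat_lit 252) (nat_lit 214)))) (XT.nd (nat_lit 156) (nat_lit 608) (nat_lit 0) (XT.nd (nat_lit 78) (nat_lit 0) (nat_lit 0) (XT.lf (nat_lit 0) (nat_lit 8492142170) (nat_lit 608) (nat_lit 3465052224) (nat_lit 684) (nat_lit 47122770) (nat_lit 71) (nat_lit 5) (nat_lit 79) (nat_lit 5) (nat_lit 80) (nat_lit 5) (nat_lit 255) (nat_lit 252) (nat_lit 213)) (XT.lf (nat_lit 76) (nat_lit 4821751382) (nat_lit 0) (nat_lit 5292663818) (nat_lit 684) (nat_lit 2359819346) (nat_lit 72) (nat_lit 5) (nat_lit 71) (nat_lit 5) (nat_lit 80) (nat_lit 5) (nat_lit 256) (nat_lit 252) (nat_lit 212))) (XT.nd (nat_lit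 78) (nat_lit 684) (nat_lit 0) (XT.lf (nat_lit 76) (nat_lit 862739869) (nat_lit 0) (nat_lit 11041918576) (nat_lit 684) (nat_lit 1075491451) (nat_lit 73) (nat_lit 5) (nat_lit 72) (nat_lit 5) (nat_lit 81) (nat_lit 5) (nat_lit 257) (nat_lit 252) (nat_lit 211)) (XT.nd (nat_lit 78) (nat_lit 0) (nat_lit 76) (XT.lf (nat_lit 0) (nat_lit 462826711) (nat_lit 684) (nat_lit 3334543362) (nat_lit 760) (nat_lit 9721141225) (nat_lit 63) (nat_lit 5) (nat_lit 72) (nat_lit 5) (nat_lit 73) (nat_lit 5) (nat_lit 258) (nat_lit 252) (nat_lit 210)) (XT.lf (nat_lit 0) (nat_lit 2191340877) (nat_lit 684) (nat_lit 7875301620) (nat_lit 76) (nat_lit 4027433418) (nat_lit 64) (nat_lit 5) (nat_lit 73) (nat_lit 5) (nat_lit 65) (nat_lit 5) (nat_lit 259) (nat_lit 252) (nat_lit 209)))))) (XT.nd (nat_lit 312) (nat_lit 836) (nat_lit 0) (XT.nd (nat_lit 156) (nat_lit 608) (nat_lit 0) (XT.nd (nat_lit 78) (nat_lit 0) (nat_lit 0)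 (XT.lf (nat_lit 0) (nat_lit 1889992084) (nat_lit 684) (nat_lit 2265723142) (nat_lit 760) (nat_lit 10555328914) (nat_lit 55) (nat_lit 5) (nat_lit 64) (nat_lit 5) (nat_lit 65) (nat_lit 5) (nat_lit 260) (nat_lit 252) (nat_lit 208)) (XT.lf (nat_lit 0) (nat_lit 6461278583) (nat_lit 760) (nat_lit 2800152899) (nat_lit 76) (nat_lit 6106956193) (nat_lit 55) (nat_lit 5) (nat_lit 65) (nat_lit 5) (nat_lit 56) (nat_lit 5) (nat_lit 261) (nat_lit 252) (nat_lit 207))) (XT.nd (nat_lit 78) (nat_lit 304) (nat_lit 0) (XT.lf (nat_lit 0) (nat_lit 8201372412) (nat_lit 304) (nat_lit 868428221) (nat_lit 380) (nat_lit 7002795900) (nat_lit 51) (nat_lit 5) (nat_lit 55) (nat_lit 5) (nat_lit 56) (nat_lit 5) (nat_lit 262) (nat_lit 252) (nat_lit 206)) (XT.lf (nat_lit 0) (nat_lit 3282794220) (nat_lit 304) (nat_lit 8788148682) (nat_lit 380) (nat_lit 4753190722) (nat_lit 47) (nat_lit 5) (nat_lit 51) (nat_lit 5) (nat_lit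 52) (nat_lit 5) (nat_lit 263) (nat_lit 252) (nat_lit 205)))) (XT.nd (nat_lit 156) (nat_lit 532) (nat_lit 0) (XT.nd (nat_lit 78) (nat_lit 304) (nat_lit 0) (XT.lf (nat_lit 0) (nat_lit 15423505277) (nat_lit 380) (nat_lit 2081274727) (nat_lit 76) (nat_lit 125621732) (nat_lit 47) (nat_lit 5) (nat_lit 52) (nat_lit 5) (nat_lit 48) (nat_lit 5) (nat_lit 264) (nat_lit 252) (nat_lit 204)) (XT.lf (nat_lit 0) (nat_lit 802073595) (nat_lit 304) (nat_lit 8061824839) (nat_lit 76) (nat_lit 9623185021) (nat_lit 43) (nat_lit 5) (nat_lit 47) (nat_lit 5) (nat_lit 44) (nat_lit 5) (nat_lit 265) (nat_lit 252) (nat_lit 203))) (XT.nd (nat_lit 78) (nat_lit 228) (nat_lit 0) (XT.lf (nat_lit 0) (nat_lit 4057211284) (nat_lit 380) (nat_lit 14751165729) (nat_lit 76) (nat_lit 598117791) (nat_lit 39) (nat_lit 5) (nat_lit 44) (nat_lit 5) (nat_lit 40) (nat_lit 5) (nat_lit 266) (nat_lit 252) (nat_lit 202)) (XT.nd (nat_lit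 78) (nat_lit 228) (nat_lit 0) (XT.lf (nat_lit 0) (nat_lit 7829431994) (nat_lit 380) (nat_lit 1908661662) (nat_lit 76) (nat_lit 10648663724) (nat_lit 39) (nat_lit 5) (nat_lit 44) (nat_lit 5) (nat_lit 40) (nat_lit 5) (nat_lit 267) (nat_lit 252) (nat_lit 201)) (XT.lf (nat_lit 0) (nat_lit 12066789721) (nat_lit 304) (nat_lit 9125183030) (nat_lit 76) (nat_lit 245422391) (nat_lit 36) (nat_lit 5) (nat_lit 40) (nat_lit 5) (nat_lit 37) (nat_lit 5) (nat_lit 268) (nat_lit 252) (nat_lit 200))))))) (XT.nd (nat_lit 702) (nat_lit 532) (nat_lit 0) (XT.nd (nat_lit 312) (nat_lit 532) (nat_lit 0) (XT.nd (nat_lit 156) (nat_lit 532) (nat_lit 0) (XT.nd (nat_lit 78) (nat_lit 0) (nat_lit 0) (XT.lf (nat_lit 0) (nat_lit 5128960683) (nat_lit 228) (nat_lit 11761109431) (nat_lit 304) (nat_lit 5669780206) (nat_lit 33) (nat_lit 5) (nat_lit 36) (nat_lit 5) (nat_lit 37) (nat_lit 5) (nat_lit 269) (nat_lit 252) (nat_lit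 199)) (XT.lf (nat_lit 0) (nat_lit 20812042710) (nat_lit 228) (nat_lit 1416711826) (nat_lit 304) (nat_lit 1536975017) (nat_lit 33) (nat_lit 5) (nat_lit 36) (nat_lit 5) (nat_lit 37) (nat_lit 5) (nat_lit 270) (nat_lit 252) (nat_lit 198))) (XT.nd (nat_lit 78) (nat_lit 228) (nat_lit 0) (XT.lf (nat_lit 0) (nat_lit 3164515537) (nat_lit 304) (nat_lit 12196251168) (nat_lit 76) (nat_lit 9688533970) (nat_lit 29) (nat_lit 5) (nat_lit 33) (nat_lit 5) (nat_lit 30) (nat_lit 5) (nat_lit 271) (nat_lit 252) (nat_lit 197)) (XT.lf (nat_lit 0) (nat_lit 3627017697) (nat_lit 228) (nat_lit 4668422482) (nat_lit 304) (nat_lit 18133584851) (nat_lit 26) (nat_lit 5) (nat_lit 29) (nat_lit 5) (nat_lit 30) (nat_lit 5) (nat_lit 272) (nat_lit 252) (nat_lit 196)))) (XT.nd (nat_lit 156) (nat_lit 380) (nat_lit 0) (XT.nd (nat_lit 78) (nat_lit 152) (nat_lit 0) (XT.lf (nat_lit 0) (nat_lit 14135099858) (nat_lit 304) (nat_lit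 6902615225) (nat_lit 76) (nat_lit 6866578369) (nat_lit 26) (nat_lit 5) (nat_lit 30) (nat_lit 5) (nat_lit 27) (nat_lit 5) (nat_lit 273) (nat_lit 252) (nat_lit 195)) (XT.lf (nat_lit 0) (nat_lit 10493559748) (nat_lit 152) (nat_lit 10167704327) (nat_lit 228) (nat_lit 8825425993) (nat_lit 24) (nat_lit 5) (nat_lit 26) (nat_lit 5) (nat_lit 27) (nat_lit 5) (nat_lit 274) (nat_lit 252) (nat_lit 194))) (XT.nd (nat_lit 78) (nat_lit 380) (nat_lit 0) (XT.lf (nat_lit 0) (nat_lit 27834151486) (nat_lit 228) (nat_lit 1720193962) (nat_lit 76) (nat_lit 1635169340) (nat_lit 24) (nat_lit 5) (nat_lit 27) (nat_lit 5) (nat_lit 25) (nat_lit 5) (nat_lit 275) (nat_lit 252) (nat_lit 193)) (XT.nd (nat_lit 78) (nat_lit 152) (nat_lit 0) (XT.lf (nat_lit 0) (nat_lit 2898312072) (nat_lit 228) (nat_lit 15767481891) (nat_lit 76) (nat_lit 14339454080) (nat_lit 21) (nat_lit 5) (nat_lit 24) (nat_lit 5) (nat_lit 22) (nat_lit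 5) (nat_lit 276) (nat_lit 252) (nat_lit 192)) (XT.lf (nat_lit 0) (nat_lit 2813021949) (nat_lit 152) (nat_lit 6777868423) (nat_lit 228) (nat_lit 25369846487) (nat_lit 19) (nat_lit 5) (nat_lit 21) (nat_lit 5) (nat_lit 22) (nat_lit 5) (nat_lit 277) (nat_lit 252) (nat_lit 191)))))) (XT.nd (nat_lit 312) (nat_lit 228) (nat_lit 0) (XT.nd (nat_lit 156) (nat_lit 152) (nat_lit 0) (XT.nd (nat_lit 78) (nat_lit 152) (nat_lit 0) (XT.lf (nat_lit 0) (nat_lit 17173777485) (nat_lit 228) (nat_lit 13743628306) (nat_lit 76) (nat_lit 6137565182) (nat_lit 19) (nat_lit 5) (nat_lit 22) (nat_lit 5) (nat_lit 20) (nat_lit 5) (nat_lit 278) (nat_lit 252) (nat_lit 190)) (XT.lf (nat_lit 0) (nat_lit 6190157756) (nat_lit 152) (nat_lit 19366579977) (nat_lit 228) (nat_lit 13750381489) (nat_lit 17) (nat_lit 5) (nat_lit 19) (nat_lit 5) (nat_lit 20) (nat_lit 5) (nat_lit 279) (nat_lit 252) (nat_lit 189))) (XT.nd (nat_lit 78)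 (nat_lit 152) (nat_lit 0) (XT.lf (nat_lit 0) (nat_lit 28184113392) (nat_lit 152) (nat_lit 6649036156) (nat_lit 228) (nat_lit 6895193041) (nat_lit 17) (nat_lit 5) (nat_lit 19) (nat_lit 5) (nat_lit 20) (nat_lit 5) (nat_lit 280) (nat_lit 252) (nat_lit 188)) (XT.lf (nat_lit 0) (nat_lit 711089834) (nat_lit 152) (nat_lit 36637784487) (nat_lit 76) (nat_lit 6983083835) (nat_lit 15) (nat_lit 5) (nat_lit 17) (nat_lit 5) (nat_lit 16) (nat_lit 5) (nat_lit 281) (nat_lit 252) (nat_lit 187)))) (XT.nd (nat_lit 156) (nat_lit 76) (nat_lit 0) (XT.nd (nat_lit 78) (nat_lit 152) (nat_lit 0) (XT.lf (nat_lit 0) (nat_lit 9024467229) (nat_lit 152) (nat_lit 16272610063) (nat_lit 76) (nat_lit 21824161509) (nat_lit 15) (nat_lit 5) (nat_lit 17) (nat_lit 5) (nat_lit 16) (nat_lit 5) (nat_lit 282) (nat_lit 252) (nat_lit 186)) (XT.lf (nat_lit 0) (nat_lit 5888387635) (nat_lit 152) (nat_lit 12192592806) (nat_lit 228) (nat_lit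 32048811437) (nat_lit 13) (nat_lit 5) (nat_lit 15) (nat_lit 5) (nat_lit 16) (nat_lit 5) (nat_lit 283) (nat_lit 252) (nat_lit 185))) (XT.nd (nat_lit 78) (nat_lit 76) (nat_lit 0) (XT.lf (nat_lit 0) (nat_lit 28167436418) (nat_lit 228) (nat_lit 23018227735) (nat_lit 76) (nat_lit 2178124762) (nat_lit 13) (nat_lit 5) (nat_lit 16) (nat_lit 5) (nat_lit 14) (nat_lit 4) (nat_lit 284) (nat_lit 252) (nat_lit 184)) (XT.nd (nat_lit 78) (nat_lit 76) (nat_lit 0) (XT.lf (nat_lit 0) (nat_lit 39254094073) (nat_lit 228) (nat_lit 322670193) (nat_lit 76) (nat_lit 17270105707) (nat_lit 13) (nat_lit 5) (nat_lit 16) (nat_lit 5) (nat_lit 14) (nat_lit 4) (nat_lit 285) (nat_lit 252) (nat_lit 183)) (XT.lf (nat_lit 0) (nat_lit 24969294479) (nat_lit 76) (nat_lit 26636837759) (nat_lit 152) (nat_lit 8983569288) (nat_lit 12) (nat_lit 5) (nat_lit 13) (nat_lit 5) (nat_lit 14) (nat_lit 4) (nat_lit 286) (nat_lit 252) (nat_lit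 182))))))))
noncomputable def xc75 : XT := (XT.nd (nat_lit 1404) (nat_lit 152) (nat_lit 0) (XT.nd (nat_lit 702) (nat_lit 152) (nat_lit 0) (XT.nd (nat_lit 312) (nat_lit 228) (nat_lit 0) (XT.nd (nat_lit 156) (nat_lit 0) (nat_lit 0) (XT.nd (nat_lit 78) (nat_lit 152) (nat_lit 0) (XT.lf (nat_lit 0) (nat_lit 298999860) (nat_lit 152) (nat_lit 12358538732) (nat_lit 76) (nat_lit 51974464486) (nat_lit 11) (nat_lit 5) (nat_lit 13) (nat_lit 5) (nat_lit 12) (nat_lit 5) (nat_lit 287) (nat_lit 252) (nat_lit 181)) (XT.lf (nat_lit 0) (nat_lit 10250406869) (nat_lit 228) (nat_lit 56011679026) (nat_lit 76) (nat_lit 2716212196) (nat_lit 9) (nat_lit 5) (nat_lit 12) (nat_lit 5) (nat_lit 10) (nat_lit 4) (nat_lit 288) (nat_lit 252) (nat_lit 180))) (XT.nd (nat_lit 78) (nat_lit 0) (nat_lit 0) (XT.lf (nat_lit 0) (nat_lit 21420364178) (nat_lit 228) (nat_lit 33135730910) (nat_lit 76) (nat_lit 19095099692) (nat_lit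 9) (nat_lit 5) (nat_lit 12) (nat_lit 5) (nat_lit 10) (nat_lit 4) (nat_lit 289) (nat_lit 252) (nat_lit 179)) (XT.lf (nat_lit 0) (nat_lit 33474845480) (nat_lit 228) (nat_lit 8444844580) (nat_lit 76) (nat_lit 36778705258) (nat_lit 9) (nat_lit 5) (nat_lit 12) (nat_lit 5) (nat_lit 10) (nat_lit 4) (nat_lit 290) (nat_lit 252) (nat_lit 178)))) (XT.nd (nat_lit 156) (nat_lit 152) (nat_lit 0) (XT.nd (nat_lit 78) (nat_lit 0) (nat_lit 0) (XT.lf (nat_lit 0) (nat_lit 18809311769) (nat_lit 76) (nat_lit 27969639040) (nat_lit 152) (nat_lit 37356174931) (nat_lit 8) (nat_lit 5) (nat_lit 9) (nat_lit 5) (nat_lit 10) (nat_lit 4) (nat_lit 291) (nat_lit 252) (nat_lit 177)) (XT.lf (nat_lit 0) (nat_lit 48531956107) (nat_lit 76) (nat_lit 12754544593) (nat_lit 152) (nat_lit 28713353935) (nat_lit 8) (nat_lit 5) (nat_lit 9) (nat_lit 5) (nat_lit 10) (nat_lit 4) (nat_lit 292) (nat_lit 252) (nat_lit 176))) (XT.nd (nat_lit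 78) (nat_lit 152) (nat_lit 0) (XT.lf (nat_lit 0) (nat_lit 77004600402) (nat_lit 152) (nat_lit 15771490145) (nat_lit 0) (nat_lit 3555188678) (nat_lit 8) (nat_lit 5) (nat_lit 10) (nat_lit 4) (nat_lit 8) (nat_lit 4) (nat_lit 293) (nat_lit 252) (nat_lit 175)) (XT.nd (nat_lit 78) (nat_lit 76) (nat_lit 0) (XT.lf (nat_lit 0) (nat_lit 12142421346) (nat_lit 76) (nat_lit 82235448250) (nat_lit 76) (nat_lit 8771475695) (nat_lit 7) (nat_lit 4) (nat_lit 8) (nat_lit 5) (nat_lit 8) (nat_lit 4) (nat_lit 294) (nat_lit 252) (nat_lit 174)) (XT.lf (nat_lit 0) (nat_lit 2816555614) (nat_lit 152) (nat_lit 67703515794) (nat_lit 76) (nat_lit 39977119135) (nat_lit 6) (nat_lit 5) (nat_lit 8) (nat_lit 5) (nat_lit 7) (nat_lit 4) (nat_lit 295) (nat_lit 252) (nat_lit 173)))))) (XT.nd (nat_lit 312) (nat_lit 76) (nat_lit 0) (XT.nd (nat_lit 156) (nat_lit 76) (nat_lit 0) (XT.nd (nat_lit 78) (nat_lit 0) (nat_lit 0) (XT.lf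 (nat_lit 0) (nat_lit 15022220663) (nat_lit 152) (nat_lit 42694386008) (nat_lit 76) (nat_lit 60709183053) (nat_lit 6) (nat_lit 5) (nat_lit 8) (nat_lit 5) (nat_lit 7) (nat_lit 4) (nat_lit 296) (nat_lit 252) (nat_lit 172)) (XT.lf (nat_lit 0) (nat_lit 28198591320) (nat_lit 152) (nat_lit 15694385018) (nat_lit 76) (nat_lit 83095998153) (nat_lit 6) (nat_lit 5) (nat_lit 8) (nat_lit 5) (nat_lit 7) (nat_lit 4) (nat_lit 297) (nat_lit 252) (nat_lit 171))) (XT.nd (nat_lit 78) (nat_lit 0) (nat_lit 0) (XT.lf (nat_lit 0) (nat_lit 13901419418) (nat_lit 76) (nat_lit 28739370477) (nat_lit 152) (nat_lit 93585847740) (nat_lit 5) (nat_lit 5) (nat_lit 6) (nat_lit 5) (nat_lit 7) (nat_lit 4) (nat_lit 298) (nat_lit 252) (nat_lit 170)) (XT.lf (nat_lit 0) (nat_lit 46416597496) (nat_lit 76) (nat_lit 12090088952) (nat_lit 152) (nat_lit 87683220086) (nat_lit 5) (nat_lit 5) (nat_lit 6) (nat_lit 5) (nat_lit 7) (nat_lit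 4) (nat_lit 299) (nat_lit 252) (nat_lit 169)))) (XT.nd (nat_lit 156) (nat_lit 76) (nat_lit 0) (XT.nd (nat_lit 78) (nat_lit 0) (nat_lit 0) (XT.lf (nat_lit 0) (nat_lit 75729089965) (nat_lit 152) (nat_lit 75517499138) (nat_lit 0) (nat_lit 5699294234) (nat_lit 5) (nat_lit 5) (nat_lit 7) (nat_lit 4) (nat_lit 5) (nat_lit 4) (nat_lit 300) (nat_lit 252) (nat_lit 168)) (XT.lf (nat_lit 0) (nat_lit 94528756108) (nat_lit 152) (nat_lit 49532747360) (nat_lit 0) (nat_lit 24490868849) (nat_lit 5) (nat_lit 5) (nat_lit 7) (nat_lit 4) (nat_lit 5) (nat_lit 4) (nat_lit 301) (nat_lit 252) (nat_lit 167))) (XT.nd (nat_lit 78) (nat_lit 76) (nat_lit 0) (XT.lf (nat_lit 0) (nat_lit 114828330137) (nat_lit 152) (nat_lit 21476309818) (nat_lit 0) (nat_lit 44782950722) (nat_lit 5) (nat_lit 5) (nat_lit 7) (nat_lit 4) (nat_lit 5) (nat_lit 4) (nat_lit 302) (nat_lit 252) (nat_lit 166)) (XT.nd (nat_lit 78) (nat_lit 0) (nat_lit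 0) (XT.lf (nat_lit 0) (nat_lit 9109639201) (nat_lit 76) (nat_lit 127780693618) (nat_lit 76) (nat_lit 57728377023) (nat_lit 4) (nat_lit 4) (nat_lit 5) (nat_lit 5) (nat_lit 5) (nat_lit 4) (nat_lit 303) (nat_lit 252) (nat_lit 165)) (XT.lf (nat_lit 0) (nat_lit 42903092844) (nat_lit 76) (nat_lit 118184722802) (nat_lit 76) (nat_lit 48125982891) (nat_lit 4) (nat_lit 4) (nat_lit 5) (nat_lit 5) (nat_lit 5) (nat_lit 4) (nat_lit 304) (nat_lit 252) (nat_lit 164))))))) (XT.nd (nat_lit 702) (nat_lit 0) (nat_lit 0) (XT.nd (nat_lit 312) (nat_lit 152) (nat_lit 0) (XT.nd (nat_lit 156) (nat_lit 0) (nat_lit 0) (XT.nd (nat_lit 78) (nat_lit 0) (nat_lit 0) (XT.lf (nat_lit 0) (nat_lit 79394204820) (nat_lit 76) (nat_lit 107823574193) (nat_lit 76) (nat_lit 37758886768) (nat_lit 4) (nat_lit 4) (nat_lit 5) (nat_lit 5) (nat_lit 5) (nat_lit 4) (nat_lit 305) (nat_lit 252) (nat_lit 163)) (XT.lf (nat_lit 0) (nat_lit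 118799218757) (nat_lit 76) (nat_lit 96635848393) (nat_lit 76) (nat_lit 26565654009) (nat_lit 4) (nat_lit 4) (nat_lit 5) (nat_lit 5) (nat_lit 5) (nat_lit 4) (nat_lit 306) (nat_lit 252) (nat_lit 162))) (XT.nd (nat_lit 78) (nat_lit 0) (nat_lit 0) (XT.lf (nat_lit 0) (nat_lit 161351645847) (nat_lit 76) (nat_lit 84555247766) (nat_lit 76) (nat_lit 14479954348) (nat_lit 4) (nat_lit 4) (nat_lit 5) (nat_lit 5) (nat_lit 5) (nat_lit 4) (nat_lit 307) (nat_lit 252) (nat_lit 161)) (XT.lf (nat_lit 0) (nat_lit 207303648621) (nat_lit 76) (nat_lit 71510183569) (nat_lit 76) (nat_lit 1430168822) (nat_lit 4) (nat_lit 4) (nat_lit 5) (nat_lit 5) (nat_lit 5) (nat_lit 4) (nat_lit 308) (nat_lit 252) (nat_lit 160)))) (XT.nd (nat_lit 156) (nat_lit 76) (nat_lit 0) (XT.nd (nat_lit 78) (nat_lit 0) (nat_lit 0) (XT.lf (nat_lit 0) (nat_lit 12255802452) (nat_lit 152) (nat_lit 44959991319) (nat_lit 76) (nat_lit 244464174847)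 (nat_lit 3) (nat_lit 5) (nat_lit 5) (nat_lit 5) (nat_lit 4) (nat_lit 4) (nat_lit 309) (nat_lit 252) (nat_lit 159)) (XT.lf (nat_lit 0) (nat_lit 26984916239) (nat_lit 152) (nat_lit 14769355835) (nat_lit 76) (nat_lit 283075454341) (nat_lit 3) (nat_lit 5) (nat_lit 5) (nat_lit 5) (nat_lit 4) (nat_lit 4) (nat_lit 310) (nat_lit 252) (nat_lit 158))) (XT.nd (nat_lit 78) (nat_lit 0) (nat_lit 0) (XT.lf (nat_lit 0) (nat_lit 18422423063) (nat_lit 76) (nat_lit 24755433099) (nat_lit 152) (nat_lit 306639337151) (nat_lit 2) (nat_lit 5) (nat_lit 3) (nat_lit 5) (nat_lit 4) (nat_lit 4) (nat_lit 311) (nat_lit 252) (nat_lit 157)) (XT.nd (nat_lit 78) (nat_lit 0) (nat_lit 0) (XT.lf (nat_lit 0) (nat_lit 54793375730) (nat_lit 76) (nat_lit 6128101400) (nat_lit 152) (nat_lit 315869421225) (nat_lit 2) (nat_lit 5) (nat_lit 3) (nat_lit 5) (nat_lit 4) (nat_lit 4) (nat_lit 312) (nat_lit 252) (nat_lit 156)) (XT.lf (nat_lit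 0) (nat_lit 80301102695) (nat_lit 152) (nat_lit 312070295941) (nat_lit 0) (nat_lit 13540278272) (nat_lit 2) (nat_lit 5) (nat_lit 4) (nat_lit 4) (nat_lit 2) (nat_lit 4) (nat_lit 313) (nat_lit 252) (nat_lit 155)))))) (XT.nd (nat_lit 390) (nat_lit 0) (nat_lit 0) (XT.nd (nat_lit 156) (nat_lit 0) (nat_lit 0) (XT.nd (nat_lit 78) (nat_lit 0) (nat_lit 0) (XT.lf (nat_lit 0) (nat_lit 101332670880) (nat_lit 152) (nat_lit 301455357986) (nat_lit 0) (nat_lit 34569012896) (nat_lit 2) (nat_lit 5) (nat_lit 4) (nat_lit 4) (nat_lit 2) (nat_lit 4) (nat_lit 314) (nat_lit 252) (nat_lit 154)) (XT.lf (nat_lit 0) (nat_lit 124045136361) (nat_lit 152) (nat_lit 289994128587) (nat_lit 0) (nat_lit 57278854712) (nat_lit 2) (nat_lit 5) (nat_lit 4) (nat_lit 4) (nat_lit 2) (nat_lit 4) (nat_lit 315) (nat_lit 252) (nat_lit 153))) (XT.nd (nat_lit 78) (nat_lit 0) (nat_lit 0) (XT.lf (nat_lit 0) (nat_lit 148573091529) (nat_lit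 152) (nat_lit 277618689347) (nat_lit 0) (nat_lit 81804380558) (nat_lit 2) (nat_lit 5) (nat_lit 4) (nat_lit 4) (nat_lit 2) (nat_lit 4) (nat_lit 316) (nat_lit 252) (nat_lit 152)) (XT.nd (nat_lit 78) (nat_lit 0) (nat_lit 0) (XT.lf (nat_lit 0) (nat_lit 175061887228) (nat_lit 152) (nat_lit 264255704330) (nat_lit 0) (nat_lit 108290926886) (nat_lit 2) (nat_lit 5) (nat_lit 4) (nat_lit 4) (nat_lit 2) (nat_lit 4) (nat_lit 317) (nat_lit 252) (nat_lit 151)) (XT.lf (nat_lit 0) (nat_lit 203668494099) (nat_lit 152) (nat_lit 249825985477) (nat_lit 0) (nat_lit 136895451005) (nat_lit 2) (nat_lit 5) (nat_lit 4) (nat_lit 4) (nat_lit 2) (nat_lit 4) (nat_lit 318) (nat_lit 252) (nat_lit 150))))) (XT.nd (nat_lit 156) (nat_lit 0) (nat_lit 0) (XT.nd (nat_lit 78) (nat_lit 0) (nat_lit 0) (XT.lf (nat_lit 0) (nat_lit 234562432775) (nat_lit 152) (nat_lit 234244023342) (nat_lit 0) (nat_lit 167787461209) (nat_lit 2)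 (nat_lit 5) (nat_lit 4) (nat_lit 4) (nat_lit 2) (nat_lit 4) (nat_lit 319) (nat_lit 252) (nat_lit 149)) (XT.lf (nat_lit 0) (nat_lit 267926778450) (nat_lit 152) (nat_lit 217417480373) (nat_lit 0) (nat_lit 201150021259) (nat_lit 2) (nat_lit 5) (nat_lit 4) (nat_lit 4) (nat_lit 2) (nat_lit 4) (nat_lit 320) (nat_lit 252) (nat_lit 148))) (XT.nd (nat_lit 32214) (nat_lit 0) (nat_lit 5092) (XT.lf (nat_lit 0) (nat_lit 303959245763) (nat_lit 152) (nat_lit 199246643721) (nat_lit 0) (nat_lit 237180835217) (nat_lit 2) (nat_lit 5) (nat_lit 4) (nat_lit 4) (nat_lit 2) (nat_lit 4) (nat_lit 321) (nat_lit 252) (nat_lit 147)) (XT.nd (nat_lit 78) (nat_lit 0) (nat_lit 0) (XT.lf (nat_lit 0) (nat_lit 3393060753) (nat_lit 684) (nat_lit 1189618311) (nat_lit 684) (nat_lit 1189618311) (nat_lit 69) (nat_lit 3) (nat_lit 78) (nat_lit 3) (nat_lit 78) (nat_lit 5) (nat_lit 253) (nat_lit 253) (nat_lit 214)) (XT.lf (nat_lit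 76) (nat_lit 5362911113) (nat_lit 0) (nat_lit 2486775251) (nat_lit 684) (nat_lit 4113696671) (nat_lit 70) (nat_lit 5) (nat_lit 69) (nat_lit 3) (nat_lit 78) (nat_lit 5) (nat_lit 254) (nat_lit 253) (nat_lit 213))))))))
noncomputable def xc76 : XT := (XT.nd (nat_lit 1404) (nat_lit 1520) (nat_lit 0) (XT.nd (nat_lit 702) (nat_lit 1672) (nat_lit 0) (XT.nd (nat_lit 312) (nat_lit 912) (nat_lit 0) (XT.nd (nat_lit 156) (nat_lit 532) (nat_lit 0) (XT.nd (nat_lit 78) (nat_lit 0) (nat_lit 0) (XT.lf (nat_lit 76) (nat_lit 1320549345) (nat_lit 0) (nat_lit 7743353441) (nat_lit 684) (nat_lit 3348832389) (nat_lit 71) (nat_lit 5) (nat_lit 70) (nat_lit 5) (nat_lit 79) (nat_lit 5) (nat_lit 255) (nat_lit 253) (nat_lit 212)) (XT.lf (nat_lit 76) (nat_lit 10026465695) (nat_lit 0) (nat_lit 438672923) (nat_lit 684) (nat_lit 2428716760) (nat_lit 71) (nat_lit 5) (nat_lit 70) (nat_lit 5) (nat_lit 79) (nat_lit 5) (nat_lit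 256) (nat_lit 253) (nat_lit 211))) (XT.nd (nat_lit 78) (nat_lit 608) (nat_lit 0) (XT.lf (nat_lit 76) (nat_lit 6050888839) (nat_lit 0) (nat_lit 6077306782) (nat_lit 684) (nat_lit 1278074194) (nat_lit 72) (nat_lit 5) (nat_lit 71) (nat_lit 5) (nat_lit 80) (nat_lit 5) (nat_lit 257) (nat_lit 253) (nat_lit 210)) (XT.lf (nat_lit 0) (nat_lit 22990418) (nat_lit 684) (nat_lit 12150551344) (nat_lit 760) (nat_lit 1783557732) (nat_lit 63) (nat_lit 5) (nat_lit 72) (nat_lit 5) (nat_lit 73) (nat_lit 5) (nat_lit 258) (nat_lit 253) (nat_lit 209)))) (XT.nd (nat_lit 156) (nat_lit 912) (nat_lit 0) (XT.nd (nat_lit 78) (nat_lit 0) (nat_lit 76) (XT.lf (nat_lit 0) (nat_lit 1562209281) (nat_lit 684) (nat_lit 2751198743) (nat_lit 760) (nat_lit 10228834983) (nat_lit 63) (nat_lit 5) (nat_lit 72) (nat_lit 5) (nat_lit 73) (nat_lit 5) (nat_lit 259) (nat_lit 253) (nat_lit 208)) (XT.lf (nat_lit 0) (nat_lit 3360147074)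 (nat_lit 684) (nat_lit 7635195860) (nat_lit 76) (nat_lit 4172295801) (nat_lit 64) (nat_lit 5) (nat_lit 73) (nat_lit 5) (nat_lit 65) (nat_lit 5) (nat_lit 260) (nat_lit 253) (nat_lit 207))) (XT.nd (nat_lit 78) (nat_lit 304) (nat_lit 0) (XT.lf (nat_lit 0) (nat_lit 2873506556) (nat_lit 684) (nat_lit 2547567072) (nat_lit 760) (nat_lit 10416238327) (nat_lit 55) (nat_lit 5) (nat_lit 64) (nat_lit 5) (nat_lit 65) (nat_lit 5) (nat_lit 261) (nat_lit 253) (nat_lit 206)) (XT.nd (nat_lit 78) (nat_lit 304) (nat_lit 0) (XT.lf (nat_lit 0) (nat_lit 7840524160) (nat_lit 760) (nat_lit 2205182491) (nat_lit 76) (nat_lit 6505358340) (nat_lit 55) (nat_lit 5) (nat_lit 65) (nat_lit 5) (nat_lit 56) (nat_lit 5) (nat_lit 262) (nat_lit 253) (nat_lit 205)) (XT.lf (nat_lit 0) (nat_lit 9640872857) (nat_lit 304) (nat_lit 965208759) (nat_lit 380) (nat_lit 6708383595) (nat_lit 51) (nat_lit 5) (nat_lit 55) (nat_lit 5) (nat_lit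 56) (nat_lit 5) (nat_lit 263) (nat_lit 253) (nat_lit 204)))))) (XT.nd (nat_lit 312) (nat_lit 760) (nat_lit 0) (XT.nd (nat_lit 156) (nat_lit 608) (nat_lit 0) (XT.nd (nat_lit 78) (nat_lit 0) (nat_lit 0) (XT.lf (nat_lit 0) (nat_lit 4337200514) (nat_lit 304) (nat_lit 9462030329) (nat_lit 380) (nat_lit 4329550811) (nat_lit 47) (nat_lit 5) (nat_lit 51) (nat_lit 5) (nat_lit 52) (nat_lit 5) (nat_lit 264) (nat_lit 253) (nat_lit 203)) (XT.lf (nat_lit 0) (nat_lit 17363930086) (nat_lit 380) (nat_lit 1476841531) (nat_lit 76) (nat_lit 161816487) (nat_lit 47) (nat_lit 5) (nat_lit 52) (nat_lit 5) (nat_lit 48) (nat_lit 5) (nat_lit 265) (nat_lit 253) (nat_lit 202))) (XT.nd (nat_lit 78) (nat_lit 304) (nat_lit 0) (XT.lf (nat_lit 0) (nat_lit 1545489948) (nat_lit 304) (nat_lit 7944306789) (nat_lit 76) (nat_lit 10439717193) (nat_lit 43) (nat_lit 5) (nat_lit 47) (nat_lit 5) (nat_lit 44) (nat_lit 5) (nat_lit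 266) (nat_lit 253) (nat_lit 201)) (XT.lf (nat_lit 0) (nat_lit 5023500291) (nat_lit 380) (nat_lit 15168921180) (nat_lit 76) (nat_lit 732124277) (nat_lit 39) (nat_lit 5) (nat_lit 44) (nat_lit 5) (nat_lit 40) (nat_lit 5) (nat_lit 267) (nat_lit 253) (nat_lit 200)))) (XT.nd (nat_lit 156) (nat_lit 532) (nat_lit 0) (XT.nd (nat_lit 78) (nat_lit 228) (nat_lit 0) (XT.lf (nat_lit 0) (nat_lit 9049964428) (nat_lit 380) (nat_lit 1355486254) (nat_lit 76) (nat_lit 11580331881) (nat_lit 39) (nat_lit 5) (nat_lit 44) (nat_lit 5) (nat_lit 40) (nat_lit 5) (nat_lit 268) (nat_lit 253) (nat_lit 199)) (XT.lf (nat_lit 0) (nat_lit 13594626683) (nat_lit 304) (nat_lit 9151714568) (nat_lit 76) (nat_lit 375877743) (nat_lit 36) (nat_lit 5) (nat_lit 40) (nat_lit 5) (nat_lit 37) (nat_lit 5) (nat_lit 269) (nat_lit 253) (nat_lit 198))) (XT.nd (nat_lit 78) (nat_lit 304) (nat_lit 0) (XT.lf (nat_lit 0) (nat_lit 6212188122)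 (nat_lit 228) (nat_lit 12560421199) (nat_lit 304) (nat_lit 5563570614) (nat_lit 33) (nat_lit 5) (nat_lit 36) (nat_lit 5) (nat_lit 37) (nat_lit 5) (nat_lit 270) (nat_lit 253) (nat_lit 197)) (XT.nd (nat_lit 78) (nat_lit 304) (nat_lit 0) (XT.lf (nat_lit 0) (nat_lit 23100071483) (nat_lit 228) (nat_lit 1398958970) (nat_lit 304) (nat_lit 1141607085) (nat_lit 33) (nat_lit 5) (nat_lit 36) (nat_lit 5) (nat_lit 37) (nat_lit 5) (nat_lit 271) (nat_lit 253) (nat_lit 196)) (XT.lf (nat_lit 0) (nat_lit 3894000027) (nat_lit 304) (nat_lit 12535422055) (nat_lit 76) (nat_lit 10598461864) (nat_lit 29) (nat_lit 5) (nat_lit 33) (nat_lit 5) (nat_lit 30) (nat_lit 5) (nat_lit 272) (nat_lit 253) (nat_lit 195))))))) (XT.nd (nat_lit 702) (nat_lit 608) (nat_lit 0) (XT.nd (nat_lit 312) (nat_lit 532) (nat_lit 0) (XT.nd (nat_lit 156) (nat_lit 152) (nat_lit 0) (XT.nd (nat_lit 78) (nat_lit 0) (nat_lit 0) (XT.lf (nat_lit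 0) (nat_lit 4526045536) (nat_lit 228) (nat_lit 4883576012) (nat_lit 304) (nat_lit 19109767971) (nat_lit 26) (nat_lit 5) (nat_lit 29) (nat_lit 5) (nat_lit 30) (nat_lit 5) (nat_lit 273) (nat_lit 253) (nat_lit 194)) (XT.lf (nat_lit 0) (nat_lit 15685368937) (nat_lit 304) (nat_lit 6871165078) (nat_lit 76) (nat_lit 7557805595) (nat_lit 26) (nat_lit 5) (nat_lit 30) (nat_lit 5) (nat_lit 27) (nat_lit 5) (nat_lit 274) (nat_lit 253) (nat_lit 193))) (XT.nd (nat_lit 78) (nat_lit 0) (nat_lit 0) (XT.lf (nat_lit 0) (nat_lit 11891338768) (nat_lit 152) (nat_lit 10819932869) (nat_lit 228) (nat_lit 9113272144) (nat_lit 24) (nat_lit 5) (nat_lit 26) (nat_lit 5) (nat_lit 27) (nat_lit 5) (nat_lit 275) (nat_lit 253) (nat_lit 192)) (XT.lf (nat_lit 0) (nat_lit 30430904928) (nat_lit 228) (nat_lit 1323680646) (nat_lit 76) (nat_lit 1910453987) (nat_lit 24) (nat_lit 5) (nat_lit 27) (nat_lit 5) (nat_lit 25) (nat_lit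 5) (nat_lit 276) (nat_lit 253) (nat_lit 191)))) (XT.nd (nat_lit 156) (nat_lit 152) (nat_lit 0) (XT.nd (nat_lit 78) (nat_lit 152) (nat_lit 0) (XT.lf (nat_lit 0) (nat_lit 3487531170) (nat_lit 228) (nat_lit 16505147271) (nat_lit 76) (nat_lit 15634120555) (nat_lit 21) (nat_lit 5) (nat_lit 24) (nat_lit 5) (nat_lit 22) (nat_lit 5) (nat_lit 277) (nat_lit 253) (nat_lit 190)) (XT.lf (nat_lit 0) (nat_lit 3539036072) (nat_lit 152) (nat_lit 7157830569) (nat_lit 228) (nat_lit 27042866893) (nat_lit 19) (nat_lit 5) (nat_lit 21) (nat_lit 5) (nat_lit 22) (nat_lit 5) (nat_lit 278) (nat_lit 253) (nat_lit 189))) (XT.nd (nat_lit 78) (nat_lit 152) (nat_lit 0) (XT.lf (nat_lit 0) (nat_lit 18863641244) (nat_lit 228) (nat_lit 14365061910) (nat_lit 76) (nat_lit 6774009063) (nat_lit 19) (nat_lit 5) (nat_lit 22) (nat_lit 5) (nat_lit 20) (nat_lit 5) (nat_lit 279) (nat_lit 253) (nat_lit 188)) (XT.nd (nat_lit 78) (nat_lit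 0) (nat_lit 0) (XT.lf (nat_lit 0) (nat_lit 7142651277) (nat_lit 152) (nat_lit 20758321912) (nat_lit 228) (nat_lit 14534935976) (nat_lit 17) (nat_lit 5) (nat_lit 19) (nat_lit 5) (nat_lit 20) (nat_lit 5) (nat_lit 280) (nat_lit 253) (nat_lit 187)) (XT.lf (nat_lit 0) (nat_lit 30862250705) (nat_lit 152) (nat_lit 7035047509) (nat_lit 228) (nat_lit 7154701048) (nat_lit 17) (nat_lit 5) (nat_lit 19) (nat_lit 5) (nat_lit 20) (nat_lit 5) (nat_lit 281) (nat_lit 253) (nat_lit 186)))))) (XT.nd (nat_lit 312) (nat_lit 304) (nat_lit 0) (XT.nd (nat_lit 156) (nat_lit 152) (nat_lit 0) (XT.nd (nat_lit 78) (nat_lit 0) (nat_lit 0) (XT.lf (nat_lit 0) (nat_lit 1038548226) (nat_lit 152) (nat_lit 39142407876) (nat_lit 76) (nat_lit 7683381204) (nat_lit 15) (nat_lit 5) (nat_lit 17) (nat_lit 5) (nat_lit 16) (nat_lit 5) (nat_lit 282) (nat_lit 253) (nat_lit 185)) (XT.lf (nat_lit 0) (nat_lit 9996953501) (nat_lit 152)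 (nat_lit 17179604637) (nat_lit 76) (nat_lit 23701252449) (nat_lit 15) (nat_lit 5) (nat_lit 17) (nat_lit 5) (nat_lit 16) (nat_lit 5) (nat_lit 283) (nat_lit 253) (nat_lit 184))) (XT.nd (nat_lit 78) (nat_lit 0) (nat_lit 0) (XT.lf (nat_lit 0) (nat_lit 6737114732) (nat_lit 152) (nat_lit 13028211612) (nat_lit 228) (nat_lit 34362399147) (nat_lit 13) (nat_lit 5) (nat_lit 15) (nat_lit 5) (nat_lit 16) (nat_lit 5) (nat_lit 284) (nat_lit 253) (nat_lit 183)) (XT.lf (nat_lit 0) (nat_lit 30643099813) (nat_lit 228) (nat_lit 24500497685) (nat_lit 76) (nat_lit 2477665955) (nat_lit 13) (nat_lit 5) (nat_lit 16) (nat_lit 5) (nat_lit 14) (nat_lit 4) (nat_lit 285) (nat_lit 253) (nat_lit 182)))) (XT.nd (nat_lit 156) (nat_lit 228) (nat_lit 0) (XT.nd (nat_lit 78) (nat_lit 76) (nat_lit 0) (XT.lf (nat_lit 0) (nat_lit 42600225749) (nat_lit 228) (nat_lit 15902077) (nat_lit 76) (nat_lit 18767724545) (nat_lit 13) (nat_lit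 5) (nat_lit 16) (nat_lit 5) (nat_lit 14) (nat_lit 4) (nat_lit 286) (nat_lit 253) (nat_lit 181)) (XT.lf (nat_lit 0) (nat_lit 27284966171) (nat_lit 76) (nat_lit 28645182915) (nat_lit 152) (nat_lit 9496510588) (nat_lit 12) (nat_lit 5) (nat_lit 13) (nat_lit 5) (nat_lit 14) (nat_lit 4) (nat_lit 287) (nat_lit 253) (nat_lit 180))) (XT.nd (nat_lit 78) (nat_lit 152) (nat_lit 0) (XT.lf (nat_lit 0) (nat_lit 507326461) (nat_lit 152) (nat_lit 13046171957) (nat_lit 76) (nat_lit 56239455104) (nat_lit 11) (nat_lit 5) (nat_lit 13) (nat_lit 5) (nat_lit 12) (nat_lit 5) (nat_lit 288) (nat_lit 253) (nat_lit 179)) (XT.nd (nat_lit 78) (nat_lit 0) (nat_lit 0) (XT.lf (nat_lit 0) (nat_lit 11247442182) (nat_lit 228) (nat_lit 60197283908) (nat_lit 76) (nat_lit 3042625089) (nat_lit 9) (nat_lit 5) (nat_lit 12) (nat_lit 5) (nat_lit 10) (nat_lit 4) (nat_lit 289) (nat_lit 253) (nat_lit 178)) (XT.lf (nat_lit 0) (nat_lit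 23297884760) (nat_lit 228) (nat_lit 35513136198) (nat_lit 76) (nat_lit 20723740925) (nat_lit 9) (nat_lit 5) (nat_lit 12) (nat_lit 5) (nat_lit 10) (nat_lit 4) (nat_lit 290) (nat_lit 253) (nat_lit 177))))))))
noncomputable def xc77 : XT := (XT.nd (nat_lit 1404) (nat_lit 152) (nat_lit 0) (XT.nd (nat_lit 702) (nat_lit 76) (nat_lit 0) (XT.nd (nat_lit 312) (nat_lit 228) (nat_lit 0) (XT.nd (nat_lit 156) (nat_lit 0) (nat_lit 0) (XT.nd (nat_lit 78) (nat_lit 76) (nat_lit 0) (XT.lf (nat_lit 0) (nat_lit 36304584459) (nat_lit 228) (nat_lit 8867234753) (nat_lit 76) (nat_lit 39814550991) (nat_lit 9) (nat_lit 5) (nat_lit 12) (nat_lit 5) (nat_lit 10) (nat_lit 4) (nat_lit 291) (nat_lit 253) (nat_lit 176)) (XT.lf (nat_lit 0) (nat_lit 20556250454) (nat_lit 76) (nat_lit 30109308243) (nat_lit 152) (nat_lit 40192876239) (nat_lit 8) (nat_lit 5) (nat_lit 9) (nat_lit 5) (nat_lit 10) (nat_lit 4) (nat_lit 292) (nat_lit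 253) (nat_lit 175))) (XT.nd (nat_lit 78) (nat_lit 0) (nat_lit 0) (XT.lf (nat_lit 0) (nat_lit 52638766062) (nat_lit 76) (nat_lit 13684258235) (nat_lit 152) (nat_lit 30869873466) (nat_lit 8) (nat_lit 5) (nat_lit 9) (nat_lit 5) (nat_lit 10) (nat_lit 4) (nat_lit 293) (nat_lit 253) (nat_lit 174)) (XT.lf (nat_lit 0) (nat_lit 83289985879) (nat_lit 152) (nat_lit 16820446939) (nat_lit 0) (nat_lit 3920852441) (nat_lit 8) (nat_lit 5) (nat_lit 10) (nat_lit 4) (nat_lit 8) (nat_lit 4) (nat_lit 294) (nat_lit 253) (nat_lit 173)))) (XT.nd (nat_lit 156) (nat_lit 76) (nat_lit 0) (XT.nd (nat_lit 78) (nat_lit 76) (nat_lit 0) (XT.lf (nat_lit 0) (nat_lit 13317331076) (nat_lit 76) (nat_lit 88729702436) (nat_lit 76) (nat_lit 9348085433) (nat_lit 7) (nat_lit 4) (nat_lit 8) (nat_lit 5) (nat_lit 8) (nat_lit 4) (nat_lit 295) (nat_lit 253) (nat_lit 172)) (XT.lf (nat_lit 0) (nat_lit 3154013461) (nat_lit 152) (nat_lit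 72927448261) (nat_lit 76) (nat_lit 43249696995) (nat_lit 6) (nat_lit 5) (nat_lit 8) (nat_lit 5) (nat_lit 7) (nat_lit 4) (nat_lit 296) (nat_lit 253) (nat_lit 171))) (XT.nd (nat_lit 78) (nat_lit 76) (nat_lit 0) (XT.lf (nat_lit 0) (nat_lit 16327825537) (nat_lit 152) (nat_lit 45931836151) (nat_lit 76) (nat_lit 65634814298) (nat_lit 6) (nat_lit 5) (nat_lit 8) (nat_lit 5) (nat_lit 7) (nat_lit 4) (nat_lit 297) (nat_lit 253) (nat_lit 170)) (XT.nd (nat_lit 78) (nat_lit 76) (nat_lit 0) (XT.lf (nat_lit 0) (nat_lit 30550614941) (nat_lit 152) (nat_lit 16785027729) (nat_lit 76) (nat_lit 89807471154) (nat_lit 6) (nat_lit 5) (nat_lit 8) (nat_lit 5) (nat_lit 7) (nat_lit 4) (nat_lit 298) (nat_lit 253) (nat_lit 169)) (XT.lf (nat_lit 0) (nat_lit 15171274357) (nat_lit 76) (nat_lit 30972256622) (nat_lit 152) (nat_lit 100976504690) (nat_lit 5) (nat_lit 5) (nat_lit 6) (nat_lit 5) (nat_lit 7) (nat_lit 4) (nat_lit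 299) (nat_lit 253) (nat_lit 168)))))) (XT.nd (nat_lit 312) (nat_lit 76) (nat_lit 0) (XT.nd (nat_lit 156) (nat_lit 0) (nat_lit 0) (XT.nd (nat_lit 78) (nat_lit 0) (nat_lit 0) (XT.lf (nat_lit 0) (nat_lit 50275982135) (nat_lit 76) (nat_lit 12995940982) (nat_lit 152) (nat_lit 94608793554) (nat_lit 5) (nat_lit 5) (nat_lit 6) (nat_lit 5) (nat_lit 7) (nat_lit 4) (nat_lit 300) (nat_lit 253) (nat_lit 167)) (XT.lf (nat_lit 0) (nat_lit 81866731678) (nat_lit 152) (nat_lit 81420490458) (nat_lit 0) (nat_lit 6210229755) (nat_lit 5) (nat_lit 5) (nat_lit 7) (nat_lit 4) (nat_lit 5) (nat_lit 4) (nat_lit 301) (nat_lit 253) (nat_lit 166))) (XT.nd (nat_lit 78) (nat_lit 0) (nat_lit 0) (XT.lf (nat_lit 0) (nat_lit 102164495963) (nat_lit 152) (nat_lit 53367211027) (nat_lit 0) (nat_lit 26501056859) (nat_lit 5) (nat_lit 5) (nat_lit 7) (nat_lit 4) (nat_lit 5) (nat_lit 4) (nat_lit 302) (nat_lit 253) (nat_lit 165))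 (XT.lf (nat_lit 0) (nat_lit 124082595961) (nat_lit 152) (nat_lit 23075751528) (nat_lit 0) (nat_lit 48412733541) (nat_lit 5) (nat_lit 5) (nat_lit 7) (nat_lit 4) (nat_lit 5) (nat_lit 4) (nat_lit 303) (nat_lit 253) (nat_lit 164)))) (XT.nd (nat_lit 156) (nat_lit 0) (nat_lit 0) (XT.nd (nat_lit 78) (nat_lit 0) (nat_lit 0) (XT.lf (nat_lit 0) (nat_lit 9951916460) (nat_lit 76) (nat_lit 137954377553) (nat_lit 76) (nat_lit 62278567619) (nat_lit 4) (nat_lit 4) (nat_lit 5) (nat_lit 5) (nat_lit 5) (nat_lit 4) (nat_lit 304) (nat_lit 253) (nat_lit 163)) (XT.lf (nat_lit 0) (nat_lit 46440438534) (nat_lit 76) (nat_lit 127594341779) (nat_lit 76) (nat_lit 51913024887) (nat_lit 4) (nat_lit 4) (nat_lit 5) (nat_lit 5) (nat_lit 5) (nat_lit 4) (nat_lit 305) (nat_lit 253) (nat_lit 162))) (XT.nd (nat_lit 78) (nat_lit 0) (nat_lit 0) (XT.lf (nat_lit 0) (nat_lit 85843054412) (nat_lit 76) (nat_lit 116407646382) (nat_lit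 76) (nat_lit 40721230454) (nat_lit 4) (nat_lit 4) (nat_lit 5) (nat_lit 5) (nat_lit 5) (nat_lit 4) (nat_lit 306) (nat_lit 253) (nat_lit 161)) (XT.nd (nat_lit 78) (nat_lit 0) (nat_lit 0) (XT.lf (nat_lit 0) (nat_lit 128393261077) (nat_lit 76) (nat_lit 104327999832) (nat_lit 76) (nat_lit 28636862576) (nat_lit 4) (nat_lit 4) (nat_lit 5) (nat_lit 5) (nat_lit 5) (nat_lit 4) (nat_lit 307) (nat_lit 253) (nat_lit 160)) (XT.lf (nat_lit 0) (nat_lit 174343207903) (nat_lit 76) (nat_lit 91283819039) (nat_lit 76) (nat_lit 15588310182) (nat_lit 4) (nat_lit 4) (nat_lit 5) (nat_lit 5) (nat_lit 5) (nat_lit 4) (nat_lit 308) (nat_lit 253) (nat_lit 159))))))) (XT.nd (nat_lit 702) (nat_lit 0) (nat_lit 0) (XT.nd (nat_lit 312) (nat_lit 0) (nat_lit 0) (XT.nd (nat_lit 156) (nat_lit 76) (nat_lit 0) (XT.nd (nat_lit 78) (nat_lit 76) (nat_lit 0) (XT.lf (nat_lit 0) (nat_lit 223965190871) (nat_lit 76) (nat_lit 77197805154)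 (nat_lit 76) (nat_lit 1498248519) (nat_lit 4) (nat_lit 4) (nat_lit 5) (nat_lit 5) (nat_lit 5) (nat_lit 4) (nat_lit 309) (nat_lit 253) (nat_lit 158)) (XT.lf (nat_lit 0) (nat_lit 13277795202) (nat_lit 152) (nat_lit 48483824413) (nat_lit 76) (nat_lit 264050605087) (nat_lit 3) (nat_lit 5) (nat_lit 5) (nat_lit 5) (nat_lit 4) (nat_lit 4) (nat_lit 310) (nat_lit 253) (nat_lit 157))) (XT.nd (nat_lit 78) (nat_lit 76) (nat_lit 0) (XT.lf (nat_lit 0) (nat_lit 29182161902) (nat_lit 152) (nat_lit 15883342994) (nat_lit 76) (nat_lit 305748616847) (nat_lit 3) (nat_lit 5) (nat_lit 5) (nat_lit 5) (nat_lit 4) (nat_lit 4) (nat_lit 311) (nat_lit 253) (nat_lit 156)) (XT.lf (nat_lit 0) (nat_lit 19960842083) (nat_lit 76) (nat_lit 26707855592) (nat_lit 152) (nat_lit 331131984742) (nat_lit 2) (nat_lit 5) (nat_lit 3) (nat_lit 5) (nat_lit 4) (nat_lit 4) (nat_lit 312) (nat_lit 253) (nat_lit 155)))) (XT.nd (nat_lit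 156) (nat_lit 0) (nat_lit 0) (XT.nd (nat_lit 78) (nat_lit 0) (nat_lit 0) (XT.lf (nat_lit 0) (nat_lit 59236683913) (nat_lit 76) (nat_lit 6592412332) (nat_lit 152) (nat_lit 341103327348) (nat_lit 2) (nat_lit 5) (nat_lit 3) (nat_lit 5) (nat_lit 4) (nat_lit 4) (nat_lit 313) (nat_lit 253) (nat_lit 154)) (XT.lf (nat_lit 0) (nat_lit 86756955631) (nat_lit 152) (nat_lit 336979271651) (nat_lit 0) (nat_lit 14646747782) (nat_lit 2) (nat_lit 5) (nat_lit 4) (nat_lit 4) (nat_lit 2) (nat_lit 4) (nat_lit 314) (nat_lit 253) (nat_lit 153))) (XT.nd (nat_lit 78) (nat_lit 0) (nat_lit 0) (XT.lf (nat_lit 0) (nat_lit 109468696327) (nat_lit 152) (nat_lit 325519334805) (nat_lit 0) (nat_lit 37356059158) (nat_lit 2) (nat_lit 5) (nat_lit 4) (nat_lit 4) (nat_lit 2) (nat_lit 4) (nat_lit 315) (nat_lit 253) (nat_lit 152)) (XT.nd (nat_lit 78) (nat_lit 0) (nat_lit 0) (XT.lf (nat_lit 0) (nat_lit 133995980398) (nat_lit 152)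 (nat_lit 313145092374) (nat_lit 0) (nat_lit 61881093857) (nat_lit 2) (nat_lit 5) (nat_lit 4) (nat_lit 4) (nat_lit 2) (nat_lit 4) (nat_lit 316) (nat_lit 253) (nat_lit 151)) (XT.lf (nat_lit 0) (nat_lit 160484154710) (nat_lit 152) (nat_lit 299783215513) (nat_lit 0) (nat_lit 88367185418) (nat_lit 2) (nat_lit 5) (nat_lit 4) (nat_lit 4) (nat_lit 2) (nat_lit 4) (nat_lit 317) (nat_lit 253) (nat_lit 150)))))) (XT.nd (nat_lit 32604) (nat_lit 0) (nat_lit 4636) (XT.nd (nat_lit 156) (nat_lit 0) (nat_lit 0) (XT.nd (nat_lit 78) (nat_lit 0) (nat_lit 0) (XT.lf (nat_lit 0) (nat_lit 189090186223) (nat_lit 152) (nat_lit 285354522731) (nat_lit 0) (nat_lit 116971288458) (nat_lit 2) (nat_lit 5) (nat_lit 4) (nat_lit 4) (nat_lit 2) (nat_lit 4) (nat_lit 318) (nat_lit 253) (nat_lit 149)) (XT.lf (nat_lit 0) (nat_lit 219983592161) (nat_lit 152) (nat_lit 269773510661) (nat_lit 0) (nat_lit 147862908773) (nat_lit 2)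 (nat_lit 5) (nat_lit 4) (nat_lit 4) (nat_lit 2) (nat_lit 4) (nat_lit 319) (nat_lit 253) (nat_lit 148))) (XT.nd (nat_lit 78) (nat_lit 0) (nat_lit 0) (XT.lf (nat_lit 0) (nat_lit 253347444559) (nat_lit 152) (nat_lit 252947847382) (nat_lit 0) (nat_lit 181225107815) (nat_lit 2) (nat_lit 5) (nat_lit 4) (nat_lit 4) (nat_lit 2) (nat_lit 4) (nat_lit 320) (nat_lit 253) (nat_lit 147)) (XT.nd (nat_lit 32292) (nat_lit 0) (nat_lit 5092) (XT.lf (nat_lit 0) (nat_lit 289379455134) (nat_lit 152) (nat_lit 234777825259) (nat_lit 0) (nat_lit 217255587506) (nat_lit 2) (nat_lit 5) (nat_lit 4) (nat_lit 4) (nat_lit 2) (nat_lit 4) (nat_lit 321) (nat_lit 253) (nat_lit 146)) (XT.lf (nat_lit 0) (nat_lit 4355858744) (nat_lit 684) (nat_lit 920173388) (nat_lit 684) (nat_lit 920173388) (nat_lit 69) (nat_lit 3) (nat_lit 78) (nat_lit 3) (nat_lit 78) (nat_lit 5) (nat_lit 254) (nat_lit 254) (nat_lit 212))))) (XT.nd (nat_lit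 156) (nat_lit 456) (nat_lit 0) (XT.nd (nat_lit 78) (nat_lit 0) (nat_lit 76) (XT.lf (nat_lit 76) (nat_lit 6489481385) (nat_lit 0) (nat_lit 3279353977) (nat_lit 684) (nat_lit 3080933705) (nat_lit 70) (nat_lit 5) (nat_lit 69) (nat_lit 3) (nat_lit 78) (nat_lit 5) (nat_lit 255) (nat_lit 254) (nat_lit 211)) (XT.lf (nat_lit 76) (nat_lit 2169894837) (nat_lit 0) (nat_lit 8817681212) (nat_lit 684) (nat_lit 2352577754) (nat_lit 71) (nat_lit 5) (nat_lit 70) (nat_lit 5) (nat_lit 79) (nat_lit 5) (nat_lit 256) (nat_lit 254) (nat_lit 210))) (XT.nd (nat_lit 78) (nat_lit 532) (nat_lit 0) (XT.lf (nat_lit 76) (nat_lit 11517195491) (nat_lit 0) (nat_lit 894932956) (nat_lit 684) (nat_lit 1452494446) (nat_lit 71) (nat_lit 5) (nat_lit 70) (nat_lit 5) (nat_lit 79) (nat_lit 5) (nat_lit 257) (nat_lit 254) (nat_lit 209)) (XT.nd (nat_lit 78) (nat_lit 608) (nat_lit 0) (XT.lf (nat_lit 76) (nat_lit 7258037231) (nat_lit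 0) (nat_lit 6873187706) (nat_lit 684) (nat_lit 291044838) (nat_lit 72) (nat_lit 5) (nat_lit 71) (nat_lit 5) (nat_lit 80) (nat_lit 5) (nat_lit 258) (nat_lit 254) (nat_lit 208)) (XT.lf (nat_lit 0) (nat_lit 1008493016) (nat_lit 684) (nat_lit 12335458332) (nat_lit 760) (nat_lit 1676244628) (nat_lit 63) (nat_lit 5) (nat_lit 72) (nat_lit 5) (nat_lit 73) (nat_lit 5) (nat_lit 259) (nat_lit 254) (nat_lit 207))))))))
noncomputable def xc78 : XT := (XT.nd (nat_lit 1404) (nat_lit 1216) (nat_lit 0) (XT.nd (nat_lit 702) (nat_lit 1140) (nat_lit 0) (XT.nd (nat_lit 312) (nat_lit 1216) (nat_lit 0) (XT.nd (nat_lit 156) (nat_lit 608) (nat_lit 0) (XT.nd (nat_lit 78) (nat_lit 0) (nat_lit 76) (XT.lf (nat_lit 0) (nat_lit 2597985435) (nat_lit 684) (nat_lit 2242463977) (nat_lit 760) (nat_lit 10815662409) (nat_lit 63) (nat_lit 5) (nat_lit 72) (nat_lit 5) (nat_lit 73) (nat_lit 5) (nat_lit 260) (nat_lit 254) (nat_lit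 206)) (XT.lf (nat_lit 0) (nat_lit 4480724036) (nat_lit 684) (nat_lit 7500015395) (nat_lit 76) (nat_lit 4354045608) (nat_lit 64) (nat_lit 5) (nat_lit 73) (nat_lit 5) (nat_lit 65) (nat_lit 5) (nat_lit 261) (nat_lit 254) (nat_lit 205))) (XT.nd (nat_lit 78) (nat_lit 0) (nat_lit 0) (XT.lf (nat_lit 0) (nat_lit 3816963131) (nat_lit 684) (nat_lit 2837608788) (nat_lit 760) (nat_lit 10406330175) (nat_lit 55) (nat_lit 5) (nat_lit 64) (nat_lit 5) (nat_lit 65) (nat_lit 5) (nat_lit 262) (nat_lit 254) (nat_lit 204)) (XT.lf (nat_lit 0) (nat_lit 9207086472) (nat_lit 760) (nat_lit 1679451480) (nat_lit 76) (nat_lit 6948494184) (nat_lit 55) (nat_lit 5) (nat_lit 65) (nat_lit 5) (nat_lit 56) (nat_lit 5) (nat_lit 263) (nat_lit 254) (nat_lit 203)))) (XT.nd (nat_lit 156) (nat_lit 608) (nat_lit 0) (XT.nd (nat_lit 78) (nat_lit 304) (nat_lit 0) (XT.lf (nat_lit 0) (nat_lit 11083773904) (nat_lit 304) (nat_lit 1065836194)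 (nat_lit 380) (nat_lit 6512341681) (nat_lit 51) (nat_lit 5) (nat_lit 55) (nat_lit 5) (nat_lit 56) (nat_lit 5) (nat_lit 264) (nat_lit 254) (nat_lit 202)) (XT.lf (nat_lit 0) (nat_lit 5363002650) (nat_lit 304) (nat_lit 10193983969) (nat_lit 380) (nat_lit 3986704340) (nat_lit 47) (nat_lit 5) (nat_lit 51) (nat_lit 5) (nat_lit 52) (nat_lit 5) (nat_lit 265) (nat_lit 254) (nat_lit 201))) (XT.nd (nat_lit 78) (nat_lit 608) (nat_lit 0) (XT.lf (nat_lit 0) (nat_lit 19358792425) (nat_lit 380) (nat_lit 934036201) (nat_lit 76) (nat_lit 197176943) (nat_lit 47) (nat_lit 5) (nat_lit 52) (nat_lit 5) (nat_lit 48) (nat_lit 5) (nat_lit 266) (nat_lit 254) (nat_lit 200)) (XT.nd (nat_lit 78) (nat_lit 304) (nat_lit 0) (XT.lf (nat_lit 0) (nat_lit 2251476936) (nat_lit 304) (nat_lit 7926161315) (nat_lit 76) (nat_lit 11314912889) (nat_lit 43) (nat_lit 5) (nat_lit 47) (nat_lit 5) (nat_lit 44) (nat_lit 5) (nat_lit 267)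 (nat_lit 254) (nat_lit 199)) (XT.lf (nat_lit 0) (nat_lit 5975545013) (nat_lit 380) (nat_lit 15728853078) (nat_lit 76) (nat_lit 864560014) (nat_lit 39) (nat_lit 5) (nat_lit 44) (nat_lit 5) (nat_lit 40) (nat_lit 5) (nat_lit 268) (nat_lit 254) (nat_lit 198)))))) (XT.nd (nat_lit 312) (nat_lit 684) (nat_lit 0) (XT.nd (nat_lit 156) (nat_lit 228) (nat_lit 0) (XT.nd (nat_lit 78) (nat_lit 228) (nat_lit 0) (XT.lf (nat_lit 0) (nat_lit 10283373340) (nat_lit 380) (nat_lit 858756825) (nat_lit 76) (nat_lit 12575152685) (nat_lit 39) (nat_lit 5) (nat_lit 44) (nat_lit 5) (nat_lit 40) (nat_lit 5) (nat_lit 269) (nat_lit 254) (nat_lit 197)) (XT.lf (nat_lit 0) (nat_lit 15164444576) (nat_lit 304) (nat_lit 9280728360) (nat_lit 76) (nat_lit 500959589) (nat_lit 36) (nat_lit 5) (nat_lit 40) (nat_lit 5) (nat_lit 37) (nat_lit 5) (nat_lit 270) (nat_lit 254) (nat_lit 196))) (XT.nd (nat_lit 78) (nat_lit 0) (nat_lit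 0) (XT.lf (nat_lit 0) (nat_lit 7286075540) (nat_lit 228) (nat_lit 13443875448) (nat_lit 304) (nat_lit 5528724842) (nat_lit 33) (nat_lit 5) (nat_lit 36) (nat_lit 5) (nat_lit 37) (nat_lit 5) (nat_lit 271) (nat_lit 254) (nat_lit 195)) (XT.lf (nat_lit 0) (nat_lit 25482255320) (nat_lit 228) (nat_lit 1398487311) (nat_lit 304) (nat_lit 788554707) (nat_lit 33) (nat_lit 5) (nat_lit 36) (nat_lit 5) (nat_lit 37) (nat_lit 5) (nat_lit 272) (nat_lit 254) (nat_lit 194)))) (XT.nd (nat_lit 156) (nat_lit 152) (nat_lit 0) (XT.nd (nat_lit 78) (nat_lit 228) (nat_lit 0) (XT.lf (nat_lit 0) (nat_lit 4613890439) (nat_lit 304) (nat_lit 12992534620) (nat_lit 76) (nat_lit 11561946817) (nat_lit 29) (nat_lit 5) (nat_lit 33) (nat_lit 5) (nat_lit 30) (nat_lit 5) (nat_lit 273) (nat_lit 254) (nat_lit 193)) (XT.lf (nat_lit 0) (nat_lit 5410134001) (nat_lit 228) (nat_lit 5138527980) (nat_lit 304) (nat_lit 20231738994) (nat_lit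 26) (nat_lit 5) (nat_lit 29) (nat_lit 5) (nat_lit 30) (nat_lit 5) (nat_lit 274) (nat_lit 254) (nat_lit 192))) (XT.nd (nat_lit 78) (nat_lit 152) (nat_lit 0) (XT.lf (nat_lit 0) (nat_lit 17299818728) (nat_lit 304) (nat_lit 6920464453) (nat_lit 76) (nat_lit 8284087240) (nat_lit 26) (nat_lit 5) (nat_lit 30) (nat_lit 5) (nat_lit 27) (nat_lit 5) (nat_lit 275) (nat_lit 254) (nat_lit 191)) (XT.nd (nat_lit 78) (nat_lit 0) (nat_lit 0) (XT.lf (nat_lit 0) (nat_lit 13321293195) (nat_lit 152) (nat_lit 11547334937) (nat_lit 228) (nat_lit 9483805170) (nat_lit 24) (nat_lit 5) (nat_lit 26) (nat_lit 5) (nat_lit 27) (nat_lit 5) (nat_lit 276) (nat_lit 254) (nat_lit 190)) (XT.lf (nat_lit 0) (nat_lit 33182610967) (nat_lit 228) (nat_lit 971645713) (nat_lit 76) (nat_lit 2187150989) (nat_lit 24) (nat_lit 5) (nat_lit 27) (nat_lit 5) (nat_lit 25) (nat_lit 5) (nat_lit 277) (nat_lit 254) (nat_lit 189))))))) (XT.nd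 (nat_lit 702) (nat_lit 380) (nat_lit 0) (XT.nd (nat_lit 312) (nat_lit 304) (nat_lit 0) (XT.nd (nat_lit 156) (nat_lit 152) (nat_lit 0) (XT.nd (nat_lit 78) (nat_lit 152) (nat_lit 0) (XT.lf (nat_lit 0) (nat_lit 4072907234) (nat_lit 228) (nat_lit 17376542273) (nat_lit 76) (nat_lit 17011316375) (nat_lit 21) (nat_lit 5) (nat_lit 24) (nat_lit 5) (nat_lit 22) (nat_lit 5) (nat_lit 278) (nat_lit 254) (nat_lit 188)) (XT.lf (nat_lit 0) (nat_lit 4251662015) (nat_lit 152) (nat_lit 7591338935) (nat_lit 228) (nat_lit 28900597245) (nat_lit 19) (nat_lit 5) (nat_lit 21) (nat_lit 5) (nat_lit 22) (nat_lit 5) (nat_lit 279) (nat_lit 254) (nat_lit 187))) (XT.nd (nat_lit 78) (nat_lit 152) (nat_lit 0) (XT.lf (nat_lit 0) (nat_lit 20643618656) (nat_lit 228) (nat_lit 15104410329) (nat_lit 76) (nat_lit 7440620003) (nat_lit 19) (nat_lit 5) (nat_lit 22) (nat_lit 5) (nat_lit 20) (nat_lit 5) (nat_lit 280) (nat_lit 254)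 (nat_lit 186)) (XT.lf (nat_lit 0) (nat_lit 8106108047) (nat_lit 152) (nat_lit 22283884387) (nat_lit 228) (nat_lit 15427261005) (nat_lit 17) (nat_lit 5) (nat_lit 19) (nat_lit 5) (nat_lit 20) (nat_lit 5) (nat_lit 281) (nat_lit 254) (nat_lit 185)))) (XT.nd (nat_lit 156) (nat_lit 152) (nat_lit 0) (XT.nd (nat_lit 78) (nat_lit 152) (nat_lit 0) (XT.lf (nat_lit 0) (nat_lit 33694235083) (nat_lit 152) (nat_lit 7472755682) (nat_lit 228) (nat_lit 7476642086) (nat_lit 17) (nat_lit 5) (nat_lit 19) (nat_lit 5) (nat_lit 20) (nat_lit 5) (nat_lit 282) (nat_lit 254) (nat_lit 184)) (XT.lf (nat_lit 0) (nat_lit 1353603282) (nat_lit 152) (nat_lit 41908231774) (nat_lit 76) (nat_lit 8419494311) (nat_lit 15) (nat_lit 5) (nat_lit 17) (nat_lit 5) (nat_lit 16) (nat_lit 5) (nat_lit 283) (nat_lit 254) (nat_lit 183))) (XT.nd (nat_lit 78) (nat_lit 152) (nat_lit 0) (XT.lf (nat_lit 0) (nat_lit 11011497928) (nat_lit 152)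 (nat_lit 18215483440) (nat_lit 76) (nat_lit 25709799507) (nat_lit 15) (nat_lit 5) (nat_lit 17) (nat_lit 5) (nat_lit 16) (nat_lit 5) (nat_lit 284) (nat_lit 254) (nat_lit 182)) (XT.nd (nat_lit 78) (nat_lit 0) (nat_lit 0) (XT.lf (nat_lit 0) (nat_lit 7599863133) (nat_lit 152) (nat_lit 13950622333) (nat_lit 228) (nat_lit 36896784422) (nat_lit 13) (nat_lit 5) (nat_lit 15) (nat_lit 5) (nat_lit 16) (nat_lit 5) (nat_lit 285) (nat_lit 254) (nat_lit 181)) (XT.lf (nat_lit 0) (nat_lit 33285107196) (nat_lit 228) (nat_lit 26152591453) (nat_lit 76) (nat_lit 2783296251) (nat_lit 13) (nat_lit 5) (nat_lit 16) (nat_lit 5) (nat_lit 14) (nat_lit 4) (nat_lit 286) (nat_lit 254) (nat_lit 180)))))) (XT.nd (nat_lit 312) (nat_lit 76) (nat_lit 0) (XT.nd (nat_lit 156) (nat_lit 228) (nat_lit 0) (XT.nd (nat_lit 78) (nat_lit 0) (nat_lit 0) (XT.lf (nat_lit 0) (nat_lit 276820984) (nat_lit 76) (nat_lit 45912188662) (nat_lit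 152) (nat_lit 20096103679) (nat_lit 12) (nat_lit 5) (nat_lit 13) (nat_lit 5) (nat_lit 14) (nat_lit 4) (nat_lit 287) (nat_lit 254) (nat_lit 179)) (XT.lf (nat_lit 0) (nat_lit 29740507064) (nat_lit 76) (nat_lit 30831686211) (nat_lit 152) (nat_lit 10079838909) (nat_lit 12) (nat_lit 5) (nat_lit 13) (nat_lit 5) (nat_lit 14) (nat_lit 4) (nat_lit 288) (nat_lit 254) (nat_lit 178))) (XT.nd (nat_lit 78) (nat_lit 152) (nat_lit 0) (XT.lf (nat_lit 0) (nat_lit 706011526) (nat_lit 152) (nat_lit 13831763971) (nat_lit 76) (nat_lit 60830375452) (nat_lit 11) (nat_lit 5) (nat_lit 13) (nat_lit 5) (nat_lit 12) (nat_lit 5) (nat_lit 289) (nat_lit 254) (nat_lit 177)) (XT.lf (nat_lit 0) (nat_lit 12298988897) (nat_lit 228) (nat_lit 64759869226) (nat_lit 76) (nat_lit 3379584408) (nat_lit 9) (nat_lit 5) (nat_lit 12) (nat_lit 5) (nat_lit 10) (nat_lit 4) (nat_lit 290) (nat_lit 254) (nat_lit 176)))) (XT.nd (nat_lit 156)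 (nat_lit 76) (nat_lit 0) (XT.nd (nat_lit 78) (nat_lit 0) (nat_lit 0) (XT.lf (nat_lit 0) (nat_lit 25302226041) (nat_lit 228) (nat_lit 38119745062) (nat_lit 76) (nat_lit 22468259932) (nat_lit 9) (nat_lit 5) (nat_lit 12) (nat_lit 5) (nat_lit 10) (nat_lit 4) (nat_lit 291) (nat_lit 254) (nat_lit 175)) (XT.lf (nat_lit 0) (nat_lit 39339053531) (nat_lit 228) (nat_lit 9359537578) (nat_lit 76) (nat_lit 43079918528) (nat_lit 9) (nat_lit 5) (nat_lit 12) (nat_lit 5) (nat_lit 10) (nat_lit 4) (nat_lit 292) (nat_lit 254) (nat_lit 174))) (XT.nd (nat_lit 78) (nat_lit 0) (nat_lit 0) (XT.lf (nat_lit 0) (nat_lit 22408392589) (nat_lit 76) (nat_lit 32434117786) (nat_lit 152) (nat_lit 43278168574) (nat_lit 8) (nat_lit 5) (nat_lit 9) (nat_lit 5) (nat_lit 10) (nat_lit 4) (nat_lit 293) (nat_lit 254) (nat_lit 173)) (XT.nd (nat_lit 78) (nat_lit 0) (nat_lit 0) (XT.lf (nat_lit 0) (nat_lit 57042128549) (nat_lit 76)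 (nat_lit 14701281193) (nat_lit 152) (nat_lit 33218965414) (nat_lit 8) (nat_lit 5) (nat_lit 9) (nat_lit 5) (nat_lit 10) (nat_lit 4) (nat_lit 294) (nat_lit 254) (nat_lit 172)) (XT.lf (nat_lit 0) (nat_lit 90060367057) (nat_lit 152) (nat_lit 17983673214) (nat_lit 0) (nat_lit 4304178274) (nat_lit 8) (nat_lit 5) (nat_lit 10) (nat_lit 4) (nat_lit 8) (nat_lit 4) (nat_lit 295) (nat_lit 254) (nat_lit 171))))))))
noncomputable def xc79 : XT := (XT.nd (nat_lit 1404) (nat_lit 0) (nat_lit 0) (XT.nd (nat_lit 702) (nat_lit 228) (nat_lit 0) (XT.nd (nat_lit 312) (nat_lit 76) (nat_lit 0) (XT.nd (nat_lit 156) (nat_lit 0) (nat_lit 0) (XT.nd (nat_lit 78) (nat_lit 76) (nat_lit 0) (XT.lf (nat_lit 0) (nat_lit 14557199749) (nat_lit 76) (nat_lit 95755563478) (nat_lit 76) (nat_lit 9988672050) (nat_lit 7) (nat_lit 4) (nat_lit 8) (nat_lit 5) (nat_lit 8) (nat_lit 4) (nat_lit 296) (nat_lit 254) (nat_lit 170)) (XT.lf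 (nat_lit 0) (nat_lit 3502470854) (nat_lit 152) (nat_lit 78596736032) (nat_lit 76) (nat_lit 46773465904) (nat_lit 6) (nat_lit 5) (nat_lit 8) (nat_lit 5) (nat_lit 7) (nat_lit 4) (nat_lit 297) (nat_lit 254) (nat_lit 169))) (XT.nd (nat_lit 78) (nat_lit 0) (nat_lit 0) (XT.lf (nat_lit 0) (nat_lit 17723066687) (nat_lit 152) (nat_lit 49453690367) (nat_lit 76) (nat_lit 70944667173) (nat_lit 6) (nat_lit 5) (nat_lit 8) (nat_lit 5) (nat_lit 7) (nat_lit 4) (nat_lit 298) (nat_lit 254) (nat_lit 168)) (XT.lf (nat_lit 0) (nat_lit 33077085531) (nat_lit 152) (nat_lit 17986447840) (nat_lit 76) (nat_lit 97046761190) (nat_lit 6) (nat_lit 5) (nat_lit 8) (nat_lit 5) (nat_lit 7) (nat_lit 4) (nat_lit 299) (nat_lit 254) (nat_lit 167)))) (XT.nd (nat_lit 156) (nat_lit 0) (nat_lit 0) (XT.nd (nat_lit 78) (nat_lit 0) (nat_lit 0) (XT.lf (nat_lit 0) (nat_lit 16520214120) (nat_lit 76) (nat_lit 33393226886) (nat_lit 152)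 (nat_lit 108972139751) (nat_lit 5) (nat_lit 5) (nat_lit 6) (nat_lit 5) (nat_lit 7) (nat_lit 4) (nat_lit 300) (nat_lit 254) (nat_lit 166)) (XT.lf (nat_lit 0) (nat_lit 54423280903) (nat_lit 76) (nat_lit 13983014163) (nat_lit 152) (nat_lit 102101121748) (nat_lit 5) (nat_lit 5) (nat_lit 6) (nat_lit 5) (nat_lit 7) (nat_lit 4) (nat_lit 301) (nat_lit 254) (nat_lit 165))) (XT.nd (nat_lit 78) (nat_lit 0) (nat_lit 0) (XT.lf (nat_lit 0) (nat_lit 88484069626) (nat_lit 152) (nat_lit 87815466619) (nat_lit 0) (nat_lit 6754194897) (nat_lit 5) (nat_lit 5) (nat_lit 7) (nat_lit 4) (nat_lit 5) (nat_lit 4) (nat_lit 302) (nat_lit 254) (nat_lit 164)) (XT.nd (nat_lit 78) (nat_lit 0) (nat_lit 0) (XT.lf (nat_lit 0) (nat_lit 110400618060) (nat_lit 152) (nat_lit 57526714691) (nat_lit 0) (nat_lit 28664795817) (nat_lit 5) (nat_lit 5) (nat_lit 7) (nat_lit 4) (nat_lit 5) (nat_lit 4) (nat_lit 303) (nat_lit 254) (nat_lit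 163)) (XT.lf (nat_lit 0) (nat_lit 134067502174) (nat_lit 152) (nat_lit 24820077189) (nat_lit 0) (nat_lit 52326172973) (nat_lit 5) (nat_lit 5) (nat_lit 7) (nat_lit 4) (nat_lit 5) (nat_lit 4) (nat_lit 304) (nat_lit 254) (nat_lit 162)))))) (XT.nd (nat_lit 312) (nat_lit 152) (nat_lit 0) (XT.nd (nat_lit 156) (nat_lit 0) (nat_lit 0) (XT.nd (nat_lit 78) (nat_lit 0) (nat_lit 0) (XT.lf (nat_lit 0) (nat_lit 10845382983) (nat_lit 76) (nat_lit 148948914010) (nat_lit 76) (nat_lit 67202485774) (nat_lit 4) (nat_lit 4) (nat_lit 5) (nat_lit 5) (nat_lit 5) (nat_lit 4) (nat_lit 305) (nat_lit 254) (nat_lit 161)) (XT.lf (nat_lit 0) (nat_lit 50245778436) (nat_lit 76) (nat_lit 137763172689) (nat_lit 76) (nat_lit 56012023124) (nat_lit 4) (nat_lit 4) (nat_lit 5) (nat_lit 5) (nat_lit 5) (nat_lit 4) (nat_lit 306) (nat_lit 254) (nat_lit 160))) (XT.nd (nat_lit 78) (nat_lit 0) (nat_lit 0) (XT.lf (nat_lit 0) (nat_lit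 92793929153) (nat_lit 76) (nat_lit 125684409544) (nat_lit 76) (nat_lit 43928888377) (nat_lit 4) (nat_lit 4) (nat_lit 5) (nat_lit 5) (nat_lit 5) (nat_lit 4) (nat_lit 307) (nat_lit 254) (nat_lit 159)) (XT.lf (nat_lit 0) (nat_lit 138741972324) (nat_lit 76) (nat_lit 112641046718) (nat_lit 76) (nat_lit 30881477773) (nat_lit 4) (nat_lit 4) (nat_lit 5) (nat_lit 5) (nat_lit 5) (nat_lit 4) (nat_lit 308) (nat_lit 254) (nat_lit 158)))) (XT.nd (nat_lit 156) (nat_lit 152) (nat_lit 0) (XT.nd (nat_lit 78) (nat_lit 0) (nat_lit 0) (XT.lf (nat_lit 0) (nat_lit 188362192647) (nat_lit 76) (nat_lit 98555790209) (nat_lit 76) (nat_lit 16792473322) (nat_lit 4) (nat_lit 4) (nat_lit 5) (nat_lit 5) (nat_lit 5) (nat_lit 4) (nat_lit 309) (nat_lit 254) (nat_lit 157)) (XT.lf (nat_lit 0) (nat_lit 241948635873) (nat_lit 76) (nat_lit 83345171832) (nat_lit 76) (nat_lit 1578384627) (nat_lit 4) (nat_lit 4) (nat_lit 5) (nat_lit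 5) (nat_lit 5) (nat_lit 4) (nat_lit 310) (nat_lit 254) (nat_lit 156))) (XT.nd (nat_lit 78) (nat_lit 76) (nat_lit 0) (XT.lf (nat_lit 0) (nat_lit 14375622859) (nat_lit 152) (nat_lit 52299973600) (nat_lit 76) (nat_lit 285199770308) (nat_lit 3) (nat_lit 5) (nat_lit 5) (nat_lit 5) (nat_lit 4) (nat_lit 4) (nat_lit 311) (nat_lit 254) (nat_lit 155)) (XT.nd (nat_lit 78) (nat_lit 76) (nat_lit 0) (XT.lf (nat_lit 0) (nat_lit 31549701559) (nat_lit 152) (nat_lit 17096087503) (nat_lit 76) (nat_lit 330231762504) (nat_lit 3) (nat_lit 5) (nat_lit 5) (nat_lit 5) (nat_lit 4) (nat_lit 4) (nat_lit 312) (nat_lit 254) (nat_lit 154)) (XT.lf (nat_lit 0) (nat_lit 21613115121) (nat_lit 76) (nat_lit 28820468132) (nat_lit 152) (nat_lit 357589536508) (nat_lit 2) (nat_lit 5) (nat_lit 3) (nat_lit 5) (nat_lit 4) (nat_lit 4) (nat_lit 313) (nat_lit 254) (nat_lit 153))))))) (XT.nd (nat_lit 32994) (nat_lit 0) (nat_lit 3724)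 (XT.nd (nat_lit 312) (nat_lit 0) (nat_lit 0) (XT.nd (nat_lit 156) (nat_lit 0) (nat_lit 0) (XT.nd (nat_lit 78) (nat_lit 0) (nat_lit 0) (XT.lf (nat_lit 0) (nat_lit 64026920174) (nat_lit 76) (nat_lit 7097568367) (nat_lit 152) (nat_lit 368361031486) (nat_lit 2) (nat_lit 5) (nat_lit 3) (nat_lit 5) (nat_lit 4) (nat_lit 4) (nat_lit 314) (nat_lit 254) (nat_lit 152)) (XT.lf (nat_lit 0) (nat_lit 93724745208) (nat_lit 152) (nat_lit 363889046883) (nat_lit 0) (nat_lit 15838418373) (nat_lit 2) (nat_lit 5) (nat_lit 4) (nat_lit 4) (nat_lit 2) (nat_lit 4) (nat_lit 315) (nat_lit 254) (nat_lit 151))) (XT.nd (nat_lit 78) (nat_lit 0) (nat_lit 0) (XT.lf (nat_lit 0) (nat_lit 118251407892) (nat_lit 152) (nat_lit 351515912608) (nat_lit 0) (nat_lit 40362998306) (nat_lit 2) (nat_lit 5) (nat_lit 4) (nat_lit 4) (nat_lit 2) (nat_lit 4) (nat_lit 316) (nat_lit 254) (nat_lit 150)) (XT.lf (nat_lit 0) (nat_lit 144739006847)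 (nat_lit 152) (nat_lit 338155061818) (nat_lit 0) (nat_lit 66848668787) (nat_lit 2) (nat_lit 5) (nat_lit 4) (nat_lit 4) (nat_lit 2) (nat_lit 4) (nat_lit 317) (nat_lit 254) (nat_lit 149)))) (XT.nd (nat_lit 156) (nat_lit 0) (nat_lit 0) (XT.nd (nat_lit 78) (nat_lit 0) (nat_lit 0) (XT.lf (nat_lit 0) (nat_lit 173344505622) (nat_lit 152) (nat_lit 323727319101) (nat_lit 0) (nat_lit 95452381938) (nat_lit 2) (nat_lit 5) (nat_lit 4) (nat_lit 4) (nat_lit 2) (nat_lit 4) (nat_lit 318) (nat_lit 254) (nat_lit 148)) (XT.lf (nat_lit 0) (nat_lit 204237418283) (nat_lit 152) (nat_lit 308147186722) (nat_lit 0) (nat_lit 126343641245) (nat_lit 2) (nat_lit 5) (nat_lit 4) (nat_lit 4) (nat_lit 2) (nat_lit 4) (nat_lit 319) (nat_lit 254) (nat_lit 147))) (XT.nd (nat_lit 78) (nat_lit 0) (nat_lit 0) (XT.lf (nat_lit 0) (nat_lit 237600813943) (nat_lit 152) (nat_lit 291322337970) (nat_lit 0) (nat_lit 159705506020) (nat_lit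 2) (nat_lit 5) (nat_lit 4) (nat_lit 4) (nat_lit 2) (nat_lit 4) (nat_lit 320) (nat_lit 254) (nat_lit 146)) (XT.nd (nat_lit 32370) (nat_lit 0) (nat_lit 5092) (XT.lf (nat_lit 0) (nat_lit 273632401613) (nat_lit 152) (nat_lit 273153070040) (nat_lit 0) (nat_lit 195735676205) (nat_lit 2) (nat_lit 5) (nat_lit 4) (nat_lit 4) (nat_lit 2) (nat_lit 4) (nat_lit 321) (nat_lit 254) (nat_lit 145)) (XT.lf (nat_lit 0) (nat_lit 5297051321) (nat_lit 684) (nat_lit 681189189) (nat_lit 684) (nat_lit 681189189) (nat_lit 69) (nat_lit 3) (nat_lit 78) (nat_lit 3) (nat_lit 78) (nat_lit 5) (nat_lit 255) (nat_lit 255) (nat_lit 210)))))) (XT.nd (nat_lit 390) (nat_lit 836) (nat_lit 0) (XT.nd (nat_lit 156) (nat_lit 532) (nat_lit 0) (XT.nd (nat_lit 78) (nat_lit 0) (nat_lit 76) (XT.lf (nat_lit 76) (nat_lit 7606665773) (nat_lit 0) (nat_lit 4050650088) (nat_lit 684) (nat_lit 2159834071) (nat_lit 70) (nat_lit 5) (nat_lit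 69) (nat_lit 3) (nat_lit 78) (nat_lit 5) (nat_lit 256) (nat_lit 255) (nat_lit 209)) (XT.lf (nat_lit 76) (nat_lit 2981090629) (nat_lit 0) (nat_lit 9913064411) (nat_lit 684) (nat_lit 1456969479) (nat_lit 71) (nat_lit 5) (nat_lit 70) (nat_lit 5) (nat_lit 79) (nat_lit 5) (nat_lit 257) (nat_lit 255) (nat_lit 208))) (XT.nd (nat_lit 78) (nat_lit 608) (nat_lit 0) (XT.lf (nat_lit 76) (nat_lit 13028945394) (nat_lit 0) (nat_lit 1327609724) (nat_lit 684) (nat_lit 565162062) (nat_lit 71) (nat_lit 5) (nat_lit 70) (nat_lit 5) (nat_lit 79) (nat_lit 5) (nat_lit 258) (nat_lit 255) (nat_lit 207)) (XT.nd (nat_lit 78) (nat_lit 0) (nat_lit 76) (XT.lf (nat_lit 0) (nat_lit 599720112) (nat_lit 684) (nat_lit 7078680789) (nat_lit 760) (nat_lit 7848725774) (nat_lit 62) (nat_lit 5) (nat_lit 71) (nat_lit 5) (nat_lit 72) (nat_lit 5) (nat_lit 259) (nat_lit 255) (nat_lit 206)) (XT.lf (nat_lit 0) (nat_lit 1932505246)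 (nat_lit 684) (nat_lit 12647451790) (nat_lit 760) (nat_lit 1596011446) (nat_lit 63) (nat_lit 5) (nat_lit 72) (nat_lit 5) (nat_lit 73) (nat_lit 5) (nat_lit 260) (nat_lit 255) (nat_lit 205))))) (XT.nd (nat_lit 156) (nat_lit 912) (nat_lit 0) (XT.nd (nat_lit 78) (nat_lit 0) (nat_lit 76) (XT.lf (nat_lit 0) (nat_lit 3586687962) (nat_lit 684) (nat_lit 1797006272) (nat_lit 760) (nat_lit 11482459150) (nat_lit 63) (nat_lit 5) (nat_lit 72) (nat_lit 5) (nat_lit 73) (nat_lit 5) (nat_lit 261) (nat_lit 255) (nat_lit 204)) (XT.lf (nat_lit 0) (nat_lit 5569433329) (nat_lit 684) (nat_lit 7460445182) (nat_lit 76) (nat_lit 4572024729) (nat_lit 64) (nat_lit 5) (nat_lit 73) (nat_lit 5) (nat_lit 65) (nat_lit 5) (nat_lit 262) (nat_lit 255) (nat_lit 203))) (XT.nd (nat_lit 78) (nat_lit 304) (nat_lit 0) (XT.lf (nat_lit 0) (nat_lit 4734096631) (nat_lit 684) (nat_lit 3138551262) (nat_lit 760) (nat_lit 10515922307)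 (nat_lit 55) (nat_lit 5) (nat_lit 64) (nat_lit 5) (nat_lit 65) (nat_lit 5) (nat_lit 263) (nat_lit 255) (nat_lit 202)) (XT.nd (nat_lit 78) (nat_lit 304) (nat_lit 0) (XT.lf (nat_lit 0) (nat_lit 10577501451) (nat_lit 760) (nat_lit 1211830909) (nat_lit 76) (nat_lit 7438107582) (nat_lit 55) (nat_lit 5) (nat_lit 65) (nat_lit 5) (nat_lit 56) (nat_lit 5) (nat_lit 264) (nat_lit 255) (nat_lit 201)) (XT.lf (nat_lit 0) (nat_lit 12546291332) (nat_lit 304) (nat_lit 1171174021) (nat_lit 380) (nat_lit 6405146059) (nat_lit 51) (nat_lit 5) (nat_lit 55) (nat_lit 5) (nat_lit 56) (nat_lit 5) (nat_lit 265) (nat_lit 255) (nat_lit 200))))))))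
noncomputable def xc80 : XT := (XT.nd (nat_lit 1404) (nat_lit 912) (nat_lit 0) (XT.nd (nat_lit 702) (nat_lit 912) (nat_lit 0) (XT.nd (nat_lit 312) (nat_lit 760) (nat_lit 0) (XT.nd (nat_lit 156) (nat_lit 608) (nat_lit 0) (XT.nd (nat_lit 78) (nat_lit 0) (nat_lit 0) (XT.lf (nat_lit 0) (nat_lit 6374026825) (nat_lit 304) (nat_lit 10988061684) (nat_lit 380) (nat_lit 3714753740) (nat_lit 47) (nat_lit 5) (nat_lit 51) (nat_lit 5) (nat_lit 52) (nat_lit 5) (nat_lit 266) (nat_lit 255) (nat_lit 199)) (XT.lf (nat_lit 0) (nat_lit 21426827035) (nat_lit 380) (nat_lit 442098730) (nat_lit 76) (nat_lit 232168467) (nat_lit 47) (nat_lit 5) (nat_lit 52) (nat_lit 5) (nat_lit 48) (nat_lit 5) (nat_lit 267) (nat_lit 255) (nat_lit 198))) (XT.nd (nat_lit 78) (nat_lit 304) (nat_lit 0) (XT.lf (nat_lit 0) (nat_lit 2930864460) (nat_lit 304) (nat_lit 7999820391) (nat_lit 76) (nat_lit 12254415181) (nat_lit 43) (nat_lit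 5) (nat_lit 47) (nat_lit 5) (nat_lit 44) (nat_lit 5) (nat_lit 268) (nat_lit 255) (nat_lit 197)) (XT.lf (nat_lit 0) (nat_lit 6925266168) (nat_lit 380) (nat_lit 16426820278) (nat_lit 76) (nat_lit 997052828) (nat_lit 39) (nat_lit 5) (nat_lit 44) (nat_lit 5) (nat_lit 40) (nat_lit 5) (nat_lit 269) (nat_lit 255) (nat_lit 196)))) (XT.nd (nat_lit 156) (nat_lit 532) (nat_lit 0) (XT.nd (nat_lit 78) (nat_lit 228) (nat_lit 0) (XT.lf (nat_lit 0) (nat_lit 11542781683) (nat_lit 380) (nat_lit 408623068) (nat_lit 76) (nat_lit 13639801949) (nat_lit 39) (nat_lit 5) (nat_lit 44) (nat_lit 5) (nat_lit 40) (nat_lit 5) (nat_lit 270) (nat_lit 255) (nat_lit 195)) (XT.lf (nat_lit 0) (nat_lit 16791049866) (nat_lit 304) (nat_lit 9506105547) (nat_lit 76) (nat_lit 622493511) (nat_lit 36) (nat_lit 5) (nat_lit 40) (nat_lit 5) (nat_lit 37) (nat_lit 5) (nat_lit 271) (nat_lit 255) (nat_lit 194))) (XT.nd (nat_lit 78) (nat_lit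 304) (nat_lit 0) (XT.lf (nat_lit 0) (nat_lit 8363570951) (nat_lit 228) (nat_lit 14415322172) (nat_lit 304) (nat_lit 5559558992) (nat_lit 33) (nat_lit 5) (nat_lit 36) (nat_lit 5) (nat_lit 37) (nat_lit 5) (nat_lit 272) (nat_lit 255) (nat_lit 193)) (XT.nd (nat_lit 78) (nat_lit 304) (nat_lit 0) (XT.lf (nat_lit 0) (nat_lit 27978807382) (nat_lit 228) (nat_lit 1414011378) (nat_lit 304) (nat_lit 470654048) (nat_lit 33) (nat_lit 5) (nat_lit 36) (nat_lit 5) (nat_lit 37) (nat_lit 5) (nat_lit 273) (nat_lit 255) (nat_lit 192)) (XT.lf (nat_lit 0) (nat_lit 5333113479) (nat_lit 304) (nat_lit 13564069420) (nat_lit 76) (nat_lit 12586017792) (nat_lit 29) (nat_lit 5) (nat_lit 33) (nat_lit 5) (nat_lit 30) (nat_lit 5) (nat_lit 274) (nat_lit 255) (nat_lit 191)))))) (XT.nd (nat_lit 312) (nat_lit 532) (nat_lit 0) (XT.nd (nat_lit 156) (nat_lit 152) (nat_lit 0) (XT.nd (nat_lit 78) (nat_lit 0) (nat_lit 0) (XT.lf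 (nat_lit 0) (nat_lit 6290479718) (nat_lit 228) (nat_lit 5433240094) (nat_lit 304) (nat_lit 21501503752) (nat_lit 26) (nat_lit 5) (nat_lit 29) (nat_lit 5) (nat_lit 30) (nat_lit 5) (nat_lit 275) (nat_lit 255) (nat_lit 190)) (XT.lf (nat_lit 0) (nat_lit 18992120649) (nat_lit 304) (nat_lit 7045094552) (nat_lit 76) (nat_lit 9051115658) (nat_lit 26) (nat_lit 5) (nat_lit 30) (nat_lit 5) (nat_lit 27) (nat_lit 5) (nat_lit 276) (nat_lit 255) (nat_lit 189))) (XT.nd (nat_lit 78) (nat_lit 0) (nat_lit 0) (XT.lf (nat_lit 0) (nat_lit 14797359584) (nat_lit 152) (nat_lit 12352643883) (nat_lit 228) (nat_lit 9935128972) (nat_lit 24) (nat_lit 5) (nat_lit 26) (nat_lit 5) (nat_lit 27) (nat_lit 5) (nat_lit 277) (nat_lit 255) (nat_lit 188)) (XT.lf (nat_lit 0) (nat_lit 36109196564) (nat_lit 228) (nat_lit 656776733) (nat_lit 76) (nat_lit 2468313639) (nat_lit 24) (nat_lit 5) (nat_lit 27) (nat_lit 5) (nat_lit 25)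 (nat_lit 5) (nat_lit 278) (nat_lit 255) (nat_lit 187)))) (XT.nd (nat_lit 156) (nat_lit 152) (nat_lit 0) (XT.nd (nat_lit 78) (nat_lit 152) (nat_lit 0) (XT.lf (nat_lit 0) (nat_lit 4661405767) (nat_lit 228) (nat_lit 18381706139) (nat_lit 76) (nat_lit 18480646047) (nat_lit 21) (nat_lit 5) (nat_lit 24) (nat_lit 5) (nat_lit 22) (nat_lit 5) (nat_lit 279) (nat_lit 255) (nat_lit 186)) (XT.lf (nat_lit 0) (nat_lit 4960024620) (nat_lit 152) (nat_lit 8079374720) (nat_lit 228) (nat_lit 30950557405) (nat_lit 19) (nat_lit 5) (nat_lit 21) (nat_lit 5) (nat_lit 22) (nat_lit 5) (nat_lit 280) (nat_lit 255) (nat_lit 185))) (XT.nd (nat_lit 78) (nat_lit 152) (nat_lit 0) (XT.lf (nat_lit 0) (nat_lit 22527349328) (nat_lit 228) (nat_lit 15961377239) (nat_lit 76) (nat_lit 8142771365) (nat_lit 19) (nat_lit 5) (nat_lit 22) (nat_lit 5) (nat_lit 20) (nat_lit 5) (nat_lit 281) (nat_lit 255) (nat_lit 184)) (XT.nd (nat_lit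 78) (nat_lit 0) (nat_lit 0) (XT.lf (nat_lit 0) (nat_lit 9090711804) (nat_lit 152) (nat_lit 23950765853) (nat_lit 228) (nat_lit 16429557583) (nat_lit 17) (nat_lit 5) (nat_lit 19) (nat_lit 5) (nat_lit 20) (nat_lit 5) (nat_lit 282) (nat_lit 255) (nat_lit 183)) (XT.lf (nat_lit 0) (nat_lit 36700991587) (nat_lit 152) (nat_lit 7963326798) (nat_lit 228) (nat_lit 7860065766) (nat_lit 17) (nat_lit 5) (nat_lit 19) (nat_lit 5) (nat_lit 20) (nat_lit 5) (nat_lit 283) (nat_lit 255) (nat_lit 182))))))) (XT.nd (nat_lit 702) (nat_lit 304) (nat_lit 0) (XT.nd (nat_lit 312) (nat_lit 304) (nat_lit 0) (XT.nd (nat_lit 156) (nat_lit 152) (nat_lit 0) (XT.nd (nat_lit 78) (nat_lit 0) (nat_lit 0) (XT.lf (nat_lit 0) (nat_lit 1660769458) (nat_lit 152) (nat_lit 44947474050) (nat_lit 76) (nat_lit 9197171320) (nat_lit 15) (nat_lit 5) (nat_lit 17) (nat_lit 5) (nat_lit 16) (nat_lit 5) (nat_lit 284) (nat_lit 255) (nat_lit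 181)) (XT.lf (nat_lit 0) (nat_lit 12076563978) (nat_lit 152) (nat_lit 19382521869) (nat_lit 76) (nat_lit 27862988528) (nat_lit 15) (nat_lit 5) (nat_lit 17) (nat_lit 5) (nat_lit 16) (nat_lit 5) (nat_lit 285) (nat_lit 255) (nat_lit 180))) (XT.nd (nat_lit 78) (nat_lit 0) (nat_lit 0) (XT.lf (nat_lit 0) (nat_lit 8485440681) (nat_lit 152) (nat_lit 14963923312) (nat_lit 228) (nat_lit 39664536557) (nat_lit 13) (nat_lit 5) (nat_lit 15) (nat_lit 5) (nat_lit 16) (nat_lit 5) (nat_lit 286) (nat_lit 255) (nat_lit 179)) (XT.lf (nat_lit 0) (nat_lit 36111289741) (nat_lit 228) (nat_lit 27980784668) (nat_lit 76) (nat_lit 3098052732) (nat_lit 13) (nat_lit 5) (nat_lit 16) (nat_lit 5) (nat_lit 14) (nat_lit 4) (nat_lit 287) (nat_lit 255) (nat_lit 178)))) (XT.nd (nat_lit 156) (nat_lit 228) (nat_lit 0) (XT.nd (nat_lit 78) (nat_lit 0) (nat_lit 0) (XT.lf (nat_lit 0) (nat_lit 551507033) (nat_lit 76) (nat_lit 49487838443)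 (nat_lit 152) (nat_lit 21540465560) (nat_lit 12) (nat_lit 5) (nat_lit 13) (nat_lit 5) (nat_lit 14) (nat_lit 4) (nat_lit 288) (nat_lit 255) (nat_lit 177)) (XT.lf (nat_lit 0) (nat_lit 32353581305) (nat_lit 76) (nat_lit 33208105077) (nat_lit 152) (nat_lit 10734997862) (nat_lit 12) (nat_lit 5) (nat_lit 13) (nat_lit 5) (nat_lit 14) (nat_lit 4) (nat_lit 289) (nat_lit 255) (nat_lit 176))) (XT.nd (nat_lit 78) (nat_lit 152) (nat_lit 0) (XT.lf (nat_lit 0) (nat_lit 898036813) (nat_lit 152) (nat_lit 14717024445) (nat_lit 76) (nat_lit 65775478276) (nat_lit 11) (nat_lit 5) (nat_lit 13) (nat_lit 5) (nat_lit 12) (nat_lit 5) (nat_lit 290) (nat_lit 255) (nat_lit 175)) (XT.nd (nat_lit 78) (nat_lit 0) (nat_lit 0) (XT.lf (nat_lit 0) (nat_lit 13413010324) (nat_lit 228) (nat_lit 69723582809) (nat_lit 76) (nat_lit 3730154618) (nat_lit 9) (nat_lit 5) (nat_lit 12) (nat_lit 5) (nat_lit 10) (nat_lit 4) (nat_lit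 291) (nat_lit 255) (nat_lit 174)) (XT.lf (nat_lit 0) (nat_lit 27446869231) (nat_lit 228) (nat_lit 40968328412) (nat_lit 76) (nat_lit 24339983187) (nat_lit 9) (nat_lit 5) (nat_lit 12) (nat_lit 5) (nat_lit 10) (nat_lit 4) (nat_lit 292) (nat_lit 255) (nat_lit 173)))))) (XT.nd (nat_lit 312) (nat_lit 228) (nat_lit 0) (XT.nd (nat_lit 156) (nat_lit 0) (nat_lit 0) (XT.nd (nat_lit 78) (nat_lit 76) (nat_lit 0) (XT.lf (nat_lit 0) (nat_lit 42597719579) (nat_lit 228) (nat_lit 9922192941) (nat_lit 76) (nat_lit 46595073547) (nat_lit 9) (nat_lit 5) (nat_lit 12) (nat_lit 5) (nat_lit 10) (nat_lit 4) (nat_lit 293) (nat_lit 255) (nat_lit 172)) (XT.lf (nat_lit 0) (nat_lit 24379083628) (nat_lit 76) (nat_lit 34956886375) (nat_lit 152) (nat_lit 46628849904) (nat_lit 8) (nat_lit 5) (nat_lit 9) (nat_lit 5) (nat_lit 10) (nat_lit 4) (nat_lit 294) (nat_lit 255) (nat_lit 171))) (XT.nd (nat_lit 78) (nat_lit 0) (nat_lit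 0) (XT.lf (nat_lit 0) (nat_lit 61770331825) (nat_lit 76) (nat_lit 15810753287) (nat_lit 152) (nat_lit 35773175095) (nat_lit 8) (nat_lit 5) (nat_lit 9) (nat_lit 5) (nat_lit 10) (nat_lit 4) (nat_lit 295) (nat_lit 255) (nat_lit 170)) (XT.lf (nat_lit 0) (nat_lit 97357087975) (nat_lit 152) (nat_lit 19265980342) (nat_lit 0) (nat_lit 4708232733) (nat_lit 8) (nat_lit 5) (nat_lit 10) (nat_lit 4) (nat_lit 8) (nat_lit 4) (nat_lit 296) (nat_lit 255) (nat_lit 169)))) (XT.nd (nat_lit 156) (nat_lit 76) (nat_lit 0) (XT.nd (nat_lit 78) (nat_lit 76) (nat_lit 0) (XT.lf (nat_lit 0) (nat_lit 15871366080) (nat_lit 76) (nat_lit 103353838501) (nat_lit 76) (nat_lit 10695807466) (nat_lit 7) (nat_lit 4) (nat_lit 8) (nat_lit 5) (nat_lit 8) (nat_lit 4) (nat_lit 297) (nat_lit 255) (nat_lit 168)) (XT.lf (nat_lit 0) (nat_lit 3865089918) (nat_lit 152) (nat_lit 84743092807) (nat_lit 76) (nat_lit 50570035520) (nat_lit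 6) (nat_lit 5) (nat_lit 8) (nat_lit 5) (nat_lit 7) (nat_lit 4) (nat_lit 298) (nat_lit 255) (nat_lit 167))) (XT.nd (nat_lit 78) (nat_lit 76) (nat_lit 0) (XT.lf (nat_lit 0) (nat_lit 19217228129) (nat_lit 152) (nat_lit 53279076237) (nat_lit 76) (nat_lit 76670881606) (nat_lit 6) (nat_lit 5) (nat_lit 8) (nat_lit 5) (nat_lit 7) (nat_lit 4) (nat_lit 299) (nat_lit 255) (nat_lit 166)) (XT.nd (nat_lit 78) (nat_lit 76) (nat_lit 0) (XT.lf (nat_lit 0) (nat_lit 35793915436) (nat_lit 152) (nat_lit 19304151297) (nat_lit 76) (nat_lit 104857391955) (nat_lit 6) (nat_lit 5) (nat_lit 8) (nat_lit 5) (nat_lit 7) (nat_lit 4) (nat_lit 300) (nat_lit 255) (nat_lit 165)) (XT.lf (nat_lit 0) (nat_lit 17957775877) (nat_lit 76) (nat_lit 36015979391) (nat_lit 152) (nat_lit 117619193070) (nat_lit 5) (nat_lit 5) (nat_lit 6) (nat_lit 5) (nat_lit 7) (nat_lit 4) (nat_lit 301) (nat_lit 255) (nat_lit 164))))))))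
noncomputable def xc81 : XT := (XT.nd (nat_lit 1404) (nat_lit 0) (nat_lit 0) (XT.nd (nat_lit 702) (nat_lit 152) (nat_lit 0) (XT.nd (nat_lit 312) (nat_lit 76) (nat_lit 0) (XT.nd (nat_lit 156) (nat_lit 0) (nat_lit 0) (XT.nd (nat_lit 78) (nat_lit 0) (nat_lit 0) (XT.lf (nat_lit 0) (nat_lit 58884499512) (nat_lit 76) (nat_lit 15056557476) (nat_lit 152) (nat_lit 110203731987) (nat_lit 5) (nat_lit 5) (nat_lit 6) (nat_lit 5) (nat_lit 7) (nat_lit 4) (nat_lit 302) (nat_lit 255) (nat_lit 163)) (XT.lf (nat_lit 0) (nat_lit 95621093732) (nat_lit 152) (nat_lit 94738969487) (nat_lit 0) (nat_lit 7334951237) (nat_lit 5) (nat_lit 5) (nat_lit 7) (nat_lit 4) (nat_lit 5) (nat_lit 4) (nat_lit 303) (nat_lit 255) (nat_lit 162))) (XT.nd (nat_lit 78) (nat_lit 0) (nat_lit 0) (XT.lf (nat_lit 0) (nat_lit 119286647632) (nat_lit 152) (nat_lit 62034653291) (nat_lit 0) (nat_lit 30995406101) (nat_lit 5) (nat_lit 5) (nat_lit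 7) (nat_lit 4) (nat_lit 5) (nat_lit 4) (nat_lit 304) (nat_lit 255) (nat_lit 161)) (XT.lf (nat_lit 0) (nat_lit 144842883947) (nat_lit 152) (nat_lit 26718462461) (nat_lit 0) (nat_lit 56546921088) (nat_lit 5) (nat_lit 5) (nat_lit 7) (nat_lit 4) (nat_lit 5) (nat_lit 4) (nat_lit 305) (nat_lit 255) (nat_lit 160)))) (XT.nd (nat_lit 156) (nat_lit 0) (nat_lit 0) (XT.nd (nat_lit 78) (nat_lit 0) (nat_lit 0) (XT.lf (nat_lit 0) (nat_lit 11796444010) (nat_lit 76) (nat_lit 160828978582) (nat_lit 76) (nat_lit 72528644122) (nat_lit 4) (nat_lit 4) (nat_lit 5) (nat_lit 5) (nat_lit 5) (nat_lit 4) (nat_lit 306) (nat_lit 255) (nat_lit 159)) (XT.lf (nat_lit 0) (nat_lit 54342691071) (nat_lit 76) (nat_lit 148751033404) (nat_lit 76) (nat_lit 60446651165) (nat_lit 4) (nat_lit 4) (nat_lit 5) (nat_lit 5) (nat_lit 5) (nat_lit 4) (nat_lit 307) (nat_lit 255) (nat_lit 158))) (XT.nd (nat_lit 78) (nat_lit 0) (nat_lit 0)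 (XT.lf (nat_lit 0) (nat_lit 100288971597) (nat_lit 76) (nat_lit 135708427955) (nat_lit 76) (nat_lit 47400297773) (nat_lit 4) (nat_lit 4) (nat_lit 5) (nat_lit 5) (nat_lit 5) (nat_lit 4) (nat_lit 308) (nat_lit 255) (nat_lit 157)) (XT.nd (nat_lit 78) (nat_lit 0) (nat_lit 0) (XT.lf (nat_lit 0) (nat_lit 149907559842) (nat_lit 76) (nat_lit 121623872721) (nat_lit 76) (nat_lit 33312272222) (nat_lit 4) (nat_lit 4) (nat_lit 5) (nat_lit 5) (nat_lit 5) (nat_lit 4) (nat_lit 309) (nat_lit 255) (nat_lit 156)) (XT.lf (nat_lit 0) (nat_lit 203492491885) (nat_lit 76) (nat_lit 106413903673) (nat_lit 76) (nat_lit 18099089917) (nat_lit 4) (nat_lit 4) (nat_lit 5) (nat_lit 5) (nat_lit 5) (nat_lit 4) (nat_lit 310) (nat_lit 255) (nat_lit 155)))))) (XT.nd (nat_lit 312) (nat_lit 0) (nat_lit 0) (XT.nd (nat_lit 156) (nat_lit 76) (nat_lit 0) (XT.nd (nat_lit 78) (nat_lit 76) (nat_lit 0) (XT.lf (nat_lit 0) (nat_lit 261361308064)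 (nat_lit 76) (nat_lit 89988387659) (nat_lit 76) (nat_lit 1670598665) (nat_lit 4) (nat_lit 4) (nat_lit 5) (nat_lit 5) (nat_lit 5) (nat_lit 4) (nat_lit 311) (nat_lit 255) (nat_lit 154)) (XT.lf (nat_lit 0) (nat_lit 15556197414) (nat_lit 152) (nat_lit 56430339145) (nat_lit 76) (nat_lit 308037285553) (nat_lit 3) (nat_lit 5) (nat_lit 5) (nat_lit 5) (nat_lit 4) (nat_lit 4) (nat_lit 312) (nat_lit 255) (nat_lit 153))) (XT.nd (nat_lit 78) (nat_lit 76) (nat_lit 0) (XT.lf (nat_lit 0) (nat_lit 34101941319) (nat_lit 152) (nat_lit 18414114925) (nat_lit 76) (nat_lit 356670242041) (nat_lit 3) (nat_lit 5) (nat_lit 5) (nat_lit 5) (nat_lit 4) (nat_lit 4) (nat_lit 313) (nat_lit 255) (nat_lit 152)) (XT.lf (nat_lit 0) (nat_lit 23389665764) (nat_lit 76) (nat_lit 31105515813) (nat_lit 152) (nat_lit 386168401234) (nat_lit 2) (nat_lit 5) (nat_lit 3) (nat_lit 5) (nat_lit 4) (nat_lit 4) (nat_lit 314) (nat_lit 255)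 (nat_lit 151)))) (XT.nd (nat_lit 156) (nat_lit 0) (nat_lit 0) (XT.nd (nat_lit 78) (nat_lit 0) (nat_lit 0) (XT.lf (nat_lit 0) (nat_lit 69193056596) (nat_lit 76) (nat_lit 7646309235) (nat_lit 152) (nat_lit 397803711973) (nat_lit 2) (nat_lit 5) (nat_lit 3) (nat_lit 5) (nat_lit 4) (nat_lit 4) (nat_lit 315) (nat_lit 255) (nat_lit 150)) (XT.lf (nat_lit 0) (nat_lit 101246072842) (nat_lit 152) (nat_lit 392958532688) (nat_lit 0) (nat_lit 17122579264) (nat_lit 2) (nat_lit 5) (nat_lit 4) (nat_lit 4) (nat_lit 2) (nat_lit 4) (nat_lit 316) (nat_lit 255) (nat_lit 149))) (XT.nd (nat_lit 78) (nat_lit 0) (nat_lit 0) (XT.lf (nat_lit 0) (nat_lit 127733139058) (nat_lit 152) (nat_lit 379598631963) (nat_lit 0) (nat_lit 43607859857) (nat_lit 2) (nat_lit 5) (nat_lit 4) (nat_lit 4) (nat_lit 2) (nat_lit 4) (nat_lit 317) (nat_lit 255) (nat_lit 148)) (XT.nd (nat_lit 78) (nat_lit 0) (nat_lit 0) (XT.lf (nat_lit 0)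 (nat_lit 156338144556) (nat_lit 152) (nat_lit 365171768936) (nat_lit 0) (nat_lit 72211212000) (nat_lit 2) (nat_lit 5) (nat_lit 4) (nat_lit 4) (nat_lit 2) (nat_lit 4) (nat_lit 318) (nat_lit 255) (nat_lit 147)) (XT.lf (nat_lit 0) (nat_lit 187230600480) (nat_lit 152) (nat_lit 349592451085) (nat_lit 0) (nat_lit 103102137039) (nat_lit 2) (nat_lit 5) (nat_lit 4) (nat_lit 4) (nat_lit 2) (nat_lit 4) (nat_lit 319) (nat_lit 255) (nat_lit 146))))))) (XT.nd (nat_lit 33072) (nat_lit 0) (nat_lit 2584) (XT.nd (nat_lit 32682) (nat_lit 0) (nat_lit 4484) (XT.nd (nat_lit 32526) (nat_lit 0) (nat_lit 5092) (XT.nd (nat_lit 78) (nat_lit 0) (nat_lit 0) (XT.lf (nat_lit 0) (nat_lit 220593573235) (nat_lit 152) (nat_lit 332768356526) (nat_lit 0) (nat_lit 136463692309) (nat_lit 2) (nat_lit 5) (nat_lit 4) (nat_lit 4) (nat_lit 2) (nat_lit 4) (nat_lit 320) (nat_lit 255) (nat_lit 145)) (XT.lf (nat_lit 0) (nat_lit 256624769327)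 (nat_lit 152) (nat_lit 314599786922) (nat_lit 0) (nat_lit 172493575914) (nat_lit 2) (nat_lit 5) (nat_lit 4) (nat_lit 4) (nat_lit 2) (nat_lit 4) (nat_lit 321) (nat_lit 255) (nat_lit 144))) (XT.nd (nat_lit 78) (nat_lit 0) (nat_lit 0) (XT.lf (nat_lit 0) (nat_lit 6228980617) (nat_lit 684) (nat_lit 467681864) (nat_lit 684) (nat_lit 467681864) (nat_lit 69) (nat_lit 3) (nat_lit 78) (nat_lit 3) (nat_lit 78) (nat_lit 5) (nat_lit 256) (nat_lit 256) (nat_lit 208)) (XT.lf (nat_lit 76) (nat_lit 8727909835) (nat_lit 0) (nat_lit 4811042795) (nat_lit 684) (nat_lit 1331613997) (nat_lit 70) (nat_lit 5) (nat_lit 69) (nat_lit 3) (nat_lit 78) (nat_lit 5) (nat_lit 257) (nat_lit 256) (nat_lit 207)))) (XT.nd (nat_lit 156) (nat_lit 0) (nat_lit 76) (XT.nd (nat_lit 78) (nat_lit 684) (nat_lit 0) (XT.lf (nat_lit 76) (nat_lit 3766220716) (nat_lit 0) (nat_lit 11040444872) (nat_lit 684) (nat_lit 644330797) (nat_lit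 71) (nat_lit 5) (nat_lit 70) (nat_lit 5) (nat_lit 79) (nat_lit 5) (nat_lit 258) (nat_lit 256) (nat_lit 206)) (XT.lf (nat_lit 0) (nat_lit 241990560) (nat_lit 684) (nat_lit 1497299444) (nat_lit 760) (nat_lit 14331323012) (nat_lit 61) (nat_lit 5) (nat_lit 70) (nat_lit 5) (nat_lit 71) (nat_lit 5) (nat_lit 259) (nat_lit 256) (nat_lit 205))) (XT.nd (nat_lit 78) (nat_lit 0) (nat_lit 76) (XT.lf (nat_lit 0) (nat_lit 1422721783) (nat_lit 684) (nat_lit 7084461868) (nat_lit 760) (nat_lit 8219957757) (nat_lit 62) (nat_lit 5) (nat_lit 71) (nat_lit 5) (nat_lit 72) (nat_lit 5) (nat_lit 260) (nat_lit 256) (nat_lit 204)) (XT.nd (nat_lit 78) (nat_lit 0) (nat_lit 0) (XT.lf (nat_lit 0) (nat_lit 2810127603) (nat_lit 684) (nat_lit 13080678653) (nat_lit 760) (nat_lit 1539936573) (nat_lit 63) (nat_lit 5) (nat_lit 72) (nat_lit 5) (nat_lit 73) (nat_lit 5) (nat_lit 261) (nat_lit 256) (nat_lit 203)) (XT.lf (nat_lit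 0) (nat_lit 4543087756) (nat_lit 684) (nat_lit 1405054477) (nat_lit 760) (nat_lit 12230911633) (nat_lit 63) (nat_lit 5) (nat_lit 72) (nat_lit 5) (nat_lit 73) (nat_lit 5) (nat_lit 262) (nat_lit 256) (nat_lit 202)))))) (XT.nd (nat_lit 312) (nat_lit 1140) (nat_lit 0) (XT.nd (nat_lit 156) (nat_lit 304) (nat_lit 0) (XT.nd (nat_lit 78) (nat_lit 684) (nat_lit 0) (XT.lf (nat_lit 0) (nat_lit 6641060842) (nat_lit 684) (nat_lit 7508951369) (nat_lit 76) (nat_lit 4826037283) (nat_lit 64) (nat_lit 5) (nat_lit 73) (nat_lit 5) (nat_lit 65) (nat_lit 5) (nat_lit 263) (nat_lit 256) (nat_lit 201)) (XT.lf (nat_lit 0) (nat_lit 5637324061) (nat_lit 684) (nat_lit 3453021655) (nat_lit 760) (nat_lit 10737413614) (nat_lit 55) (nat_lit 5) (nat_lit 64) (nat_lit 5) (nat_lit 65) (nat_lit 5) (nat_lit 264) (nat_lit 256) (nat_lit 200))) (XT.nd (nat_lit 78) (nat_lit 304) (nat_lit 0) (XT.lf (nat_lit 0) (nat_lit 11967124117)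 (nat_lit 760) (nat_lit 792679397) (nat_lit 76) (nat_lit 7976343656) (nat_lit 55) (nat_lit 5) (nat_lit 65) (nat_lit 5) (nat_lit 56) (nat_lit 5) (nat_lit 265) (nat_lit 256) (nat_lit 199)) (XT.lf (nat_lit 0) (nat_lit 14043663634) (nat_lit 304) (nat_lit 1282075531) (nat_lit 380) (nat_lit 6378992109) (nat_lit 51) (nat_lit 5) (nat_lit 55) (nat_lit 5) (nat_lit 56) (nat_lit 5) (nat_lit 266) (nat_lit 256) (nat_lit 198)))) (XT.nd (nat_lit 156) (nat_lit 608) (nat_lit 0) (XT.nd (nat_lit 78) (nat_lit 228) (nat_lit 0) (XT.lf (nat_lit 0) (nat_lit 7382906415) (nat_lit 304) (nat_lit 11848724414) (nat_lit 380) (nat_lit 3505343720) (nat_lit 47) (nat_lit 5) (nat_lit 51) (nat_lit 5) (nat_lit 52) (nat_lit 5) (nat_lit 267) (nat_lit 256) (nat_lit 197)) (XT.lf (nat_lit 0) (nat_lit 8629499) (nat_lit 228) (nat_lit 23577721242) (nat_lit 304) (nat_lit 258722970) (nat_lit 44) (nat_lit 5) (nat_lit 47) (nat_lit 5) (nat_lit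 48) (nat_lit 5) (nat_lit 268) (nat_lit 256) (nat_lit 196))) (XT.nd (nat_lit 78) (nat_lit 532) (nat_lit 0) (XT.lf (nat_lit 0) (nat_lit 3593376629) (nat_lit 304) (nat_lit 8159324345) (nat_lit 76) (nat_lit 13264183057) (nat_lit 43) (nat_lit 5) (nat_lit 47) (nat_lit 5) (nat_lit 44) (nat_lit 5) (nat_lit 269) (nat_lit 256) (nat_lit 195)) (XT.nd (nat_lit 78) (nat_lit 228) (nat_lit 0) (XT.lf (nat_lit 0) (nat_lit 7883674938) (nat_lit 380) (nat_lit 17260563768) (nat_lit 76) (nat_lit 1131110619) (nat_lit 39) (nat_lit 5) (nat_lit 44) (nat_lit 5) (nat_lit 40) (nat_lit 5) (nat_lit 270) (nat_lit 256) (nat_lit 194)) (XT.lf (nat_lit 0) (nat_lit 3619728) (nat_lit 228) (nat_lit 12837073853) (nat_lit 304) (nat_lit 14777694710) (nat_lit 36) (nat_lit 5) (nat_lit 39) (nat_lit 5) (nat_lit 40) (nat_lit 5) (nat_lit 271) (nat_lit 256) (nat_lit 193))))))))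
noncomputable def xc82 : XT := (XT.nd (nat_lit 1404) (nat_lit 608) (nat_lit 0) (XT.nd (nat_lit 702) (nat_lit 684) (nat_lit 0) (XT.nd (nat_lit 312) (nat_lit 608) (nat_lit 0) (XT.nd (nat_lit 156) (nat_lit 304) (nat_lit 0) (XT.nd (nat_lit 78) (nat_lit 228) (nat_lit 0) (XT.lf (nat_lit 0) (nat_lit 18488800354) (nat_lit 304) (nat_lit 9823280306) (nat_lit 76) (nat_lit 742129374) (nat_lit 36) (nat_lit 5) (nat_lit 40) (nat_lit 5) (nat_lit 37) (nat_lit 5) (nat_lit 272) (nat_lit 256) (nat_lit 192)) (XT.lf (nat_lit 0) (nat_lit 9456704440) (nat_lit 228) (nat_lit 15479330430) (nat_lit 304) (nat_lit 5651559790) (nat_lit 33) (nat_lit 5) (nat_lit 36) (nat_lit 5) (nat_lit 37) (nat_lit 5) (nat_lit 273) (nat_lit 256) (nat_lit 191))) (XT.nd (nat_lit 78) (nat_lit 304) (nat_lit 0) (XT.lf (nat_lit 0) (nat_lit 30609748836) (nat_lit 228) (nat_lit 1444523476) (nat_lit 304) (nat_lit 181673112) (nat_lit 33) (nat_lit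 5) (nat_lit 36) (nat_lit 5) (nat_lit 37) (nat_lit 5) (nat_lit 274) (nat_lit 256) (nat_lit 190)) (XT.lf (nat_lit 0) (nat_lit 6059927000) (nat_lit 304) (nat_lit 14248073600) (nat_lit 76) (nat_lit 13677874550) (nat_lit 29) (nat_lit 5) (nat_lit 33) (nat_lit 5) (nat_lit 30) (nat_lit 5) (nat_lit 275) (nat_lit 256) (nat_lit 189)))) (XT.nd (nat_lit 156) (nat_lit 380) (nat_lit 0) (XT.nd (nat_lit 78) (nat_lit 0) (nat_lit 0) (XT.lf (nat_lit 0) (nat_lit 7177407223) (nat_lit 228) (nat_lit 5768130676) (nat_lit 304) (nat_lit 22922606253) (nat_lit 26) (nat_lit 5) (nat_lit 29) (nat_lit 5) (nat_lit 30) (nat_lit 5) (nat_lit 276) (nat_lit 256) (nat_lit 188)) (XT.lf (nat_lit 0) (nat_lit 20775821940) (nat_lit 304) (nat_lit 7240897712) (nat_lit 76) (nat_lit 9864626583) (nat_lit 26) (nat_lit 5) (nat_lit 30) (nat_lit 5) (nat_lit 27) (nat_lit 5) (nat_lit 277) (nat_lit 256) (nat_lit 187))) (XT.nd (nat_lit 78) (nat_lit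 228) (nat_lit 0) (XT.lf (nat_lit 0) (nat_lit 16332968423) (nat_lit 152) (nat_lit 13239279735) (nat_lit 228) (nat_lit 10466409958) (nat_lit 24) (nat_lit 5) (nat_lit 26) (nat_lit 5) (nat_lit 27) (nat_lit 5) (nat_lit 278) (nat_lit 256) (nat_lit 186)) (XT.nd (nat_lit 78) (nat_lit 228) (nat_lit 0) (XT.lf (nat_lit 0) (nat_lit 39231108488) (nat_lit 228) (nat_lit 372727104) (nat_lit 76) (nat_lit 2756820030) (nat_lit 24) (nat_lit 5) (nat_lit 27) (nat_lit 5) (nat_lit 25) (nat_lit 5) (nat_lit 279) (nat_lit 256) (nat_lit 185)) (XT.lf (nat_lit 0) (nat_lit 5259511949) (nat_lit 228) (nat_lit 19522201893) (nat_lit 76) (nat_lit 20052054146) (nat_lit 21) (nat_lit 5) (nat_lit 24) (nat_lit 5) (nat_lit 22) (nat_lit 5) (nat_lit 280) (nat_lit 256) (nat_lit 184)))))) (XT.nd (nat_lit 312) (nat_lit 380) (nat_lit 0) (XT.nd (nat_lit 156) (nat_lit 152) (nat_lit 0) (XT.nd (nat_lit 78) (nat_lit 0) (nat_lit 0) (XT.lf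 (nat_lit 0) (nat_lit 5672524159) (nat_lit 152) (nat_lit 8623468756) (nat_lit 228) (nat_lit 33201904106) (nat_lit 19) (nat_lit 5) (nat_lit 21) (nat_lit 5) (nat_lit 22) (nat_lit 5) (nat_lit 281) (nat_lit 256) (nat_lit 183)) (XT.lf (nat_lit 0) (nat_lit 24528646654) (nat_lit 228) (nat_lit 16937030630) (nat_lit 76) (nat_lit 8885844105) (nat_lit 19) (nat_lit 5) (nat_lit 22) (nat_lit 5) (nat_lit 20) (nat_lit 5) (nat_lit 282) (nat_lit 256) (nat_lit 182))) (XT.nd (nat_lit 78) (nat_lit 0) (nat_lit 0) (XT.lf (nat_lit 0) (nat_lit 10106133283) (nat_lit 152) (nat_lit 25767522179) (nat_lit 228) (nat_lit 17545118777) (nat_lit 17) (nat_lit 5) (nat_lit 19) (nat_lit 5) (nat_lit 20) (nat_lit 5) (nat_lit 283) (nat_lit 256) (nat_lit 181)) (XT.lf (nat_lit 0) (nat_lit 39903889928) (nat_lit 152) (nat_lit 8508443922) (nat_lit 228) (nat_lit 8304793793) (nat_lit 17) (nat_lit 5) (nat_lit 19) (nat_lit 5) (nat_lit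 20) (nat_lit 5) (nat_lit 284) (nat_lit 256) (nat_lit 180)))) (XT.nd (nat_lit 156) (nat_lit 228) (nat_lit 0) (XT.nd (nat_lit 78) (nat_lit 0) (nat_lit 0) (XT.lf (nat_lit 0) (nat_lit 1964136771) (nat_lit 152) (nat_lit 48274568042) (nat_lit 76) (nat_lit 10022208971) (nat_lit 15) (nat_lit 5) (nat_lit 17) (nat_lit 5) (nat_lit 16) (nat_lit 5) (nat_lit 285) (nat_lit 256) (nat_lit 179)) (XT.lf (nat_lit 0) (nat_lit 13200564796) (nat_lit 152) (nat_lit 20684323682) (nat_lit 76) (nat_lit 30174679410) (nat_lit 15) (nat_lit 5) (nat_lit 17) (nat_lit 5) (nat_lit 16) (nat_lit 5) (nat_lit 286) (nat_lit 256) (nat_lit 178))) (XT.nd (nat_lit 78) (nat_lit 76) (nat_lit 0) (XT.lf (nat_lit 0) (nat_lit 9402263330) (nat_lit 152) (nat_lit 16072946636) (nat_lit 228) (nat_lit 42679957182) (nat_lit 13) (nat_lit 5) (nat_lit 15) (nat_lit 5) (nat_lit 16) (nat_lit 5) (nat_lit 287) (nat_lit 256) (nat_lit 177)) (XT.nd (nat_lit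 78) (nat_lit 76) (nat_lit 0) (XT.lf (nat_lit 0) (nat_lit 39140259767) (nat_lit 228) (nat_lit 29992897904) (nat_lit 76) (nat_lit 3424851667) (nat_lit 13) (nat_lit 5) (nat_lit 16) (nat_lit 5) (nat_lit 14) (nat_lit 4) (nat_lit 288) (nat_lit 256) (nat_lit 176)) (XT.lf (nat_lit 0) (nat_lit 812140258) (nat_lit 76) (nat_lit 53363424749) (nat_lit 152) (nat_lit 23123676731) (nat_lit 12) (nat_lit 5) (nat_lit 13) (nat_lit 5) (nat_lit 14) (nat_lit 4) (nat_lit 289) (nat_lit 256) (nat_lit 175))))))) (XT.nd (nat_lit 702) (nat_lit 228) (nat_lit 0) (XT.nd (nat_lit 312) (nat_lit 152) (nat_lit 0) (XT.nd (nat_lit 156) (nat_lit 152) (nat_lit 0) (XT.nd (nat_lit 78) (nat_lit 76) (nat_lit 0) (XT.lf (nat_lit 0) (nat_lit 35142342497) (nat_lit 76) (nat_lit 35787493512) (nat_lit 152) (nat_lit 11464143918) (nat_lit 12) (nat_lit 5) (nat_lit 13) (nat_lit 5) (nat_lit 14) (nat_lit 4) (nat_lit 290) (nat_lit 256) (nat_lit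 174)) (XT.lf (nat_lit 0) (nat_lit 1086087205) (nat_lit 152) (nat_lit 15704673915) (nat_lit 76) (nat_lit 71104965773) (nat_lit 11) (nat_lit 5) (nat_lit 13) (nat_lit 5) (nat_lit 12) (nat_lit 5) (nat_lit 291) (nat_lit 256) (nat_lit 173))) (XT.nd (nat_lit 78) (nat_lit 0) (nat_lit 0) (XT.lf (nat_lit 0) (nat_lit 14597592916) (nat_lit 228) (nat_lit 75115361791) (nat_lit 76) (nat_lit 4097328525) (nat_lit 9) (nat_lit 5) (nat_lit 12) (nat_lit 5) (nat_lit 10) (nat_lit 4) (nat_lit 292) (nat_lit 256) (nat_lit 172)) (XT.lf (nat_lit 0) (nat_lit 29745898182) (nat_lit 228) (nat_lit 44073472794) (nat_lit 76) (nat_lit 26350849932) (nat_lit 9) (nat_lit 5) (nat_lit 12) (nat_lit 5) (nat_lit 10) (nat_lit 4) (nat_lit 293) (nat_lit 256) (nat_lit 171)))) (XT.nd (nat_lit 156) (nat_lit 76) (nat_lit 0) (XT.nd (nat_lit 78) (nat_lit 76) (nat_lit 0) (XT.lf (nat_lit 0) (nat_lit 46101166231) (nat_lit 228) (nat_lit 10556411070)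 (nat_lit 76) (nat_lit 50381631366) (nat_lit 9) (nat_lit 5) (nat_lit 12) (nat_lit 5) (nat_lit 10) (nat_lit 4) (nat_lit 294) (nat_lit 256) (nat_lit 170)) (XT.lf (nat_lit 0) (nat_lit 26482033459) (nat_lit 76) (nat_lit 37691742468) (nat_lit 152) (nat_lit 50263502755) (nat_lit 8) (nat_lit 5) (nat_lit 9) (nat_lit 5) (nat_lit 10) (nat_lit 4) (nat_lit 295) (nat_lit 256) (nat_lit 169))) (XT.nd (nat_lit 78) (nat_lit 76) (nat_lit 0) (XT.lf (nat_lit 0) (nat_lit 66853276094) (nat_lit 76) (nat_lit 17018488720) (nat_lit 152) (nat_lit 38546459527) (nat_lit 8) (nat_lit 5) (nat_lit 9) (nat_lit 5) (nat_lit 10) (nat_lit 4) (nat_lit 296) (nat_lit 256) (nat_lit 168)) (XT.nd (nat_lit 78) (nat_lit 76) (nat_lit 0) (XT.lf (nat_lit 0) (nat_lit 105224437209) (nat_lit 152) (nat_lit 20673182356) (nat_lit 0) (nat_lit 5136091795) (nat_lit 8) (nat_lit 5) (nat_lit 10) (nat_lit 4) (nat_lit 8) (nat_lit 4) (nat_lit 297)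 (nat_lit 256) (nat_lit 167)) (XT.lf (nat_lit 0) (nat_lit 17269324983) (nat_lit 76) (nat_lit 111568844779) (nat_lit 76) (nat_lit 11472632601) (nat_lit 7) (nat_lit 4) (nat_lit 8) (nat_lit 5) (nat_lit 8) (nat_lit 4) (nat_lit 298) (nat_lit 256) (nat_lit 166)))))) (XT.nd (nat_lit 312) (nat_lit 76) (nat_lit 0) (XT.nd (nat_lit 156) (nat_lit 76) (nat_lit 0) (XT.nd (nat_lit 78) (nat_lit 0) (nat_lit 0) (XT.lf (nat_lit 0) (nat_lit 4244960173) (nat_lit 152) (nat_lit 91401327862) (nat_lit 76) (nat_lit 54662528231) (nat_lit 6) (nat_lit 5) (nat_lit 8) (nat_lit 5) (nat_lit 7) (nat_lit 4) (nat_lit 299) (nat_lit 256) (nat_lit 165)) (XT.lf (nat_lit 0) (nat_lit 20820035140) (nat_lit 152) (nat_lit 57429168661) (nat_lit 76) (nat_lit 82847968680) (nat_lit 6) (nat_lit 5) (nat_lit 8) (nat_lit 5) (nat_lit 7) (nat_lit 4) (nat_lit 300) (nat_lit 256) (nat_lit 164))) (XT.nd (nat_lit 78) (nat_lit 76) (nat_lit 0) (XT.lf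 (nat_lit 0) (nat_lit 38718010857) (nat_lit 152) (nat_lit 20744563331) (nat_lit 76) (nat_lit 113286183816) (nat_lit 6) (nat_lit 5) (nat_lit 8) (nat_lit 5) (nat_lit 7) (nat_lit 4) (nat_lit 301) (nat_lit 256) (nat_lit 163)) (XT.lf (nat_lit 0) (nat_lit 19493801777) (nat_lit 76) (nat_lit 38855500501) (nat_lit 152) (nat_lit 126968099348) (nat_lit 5) (nat_lit 5) (nat_lit 6) (nat_lit 5) (nat_lit 7) (nat_lit 4) (nat_lit 302) (nat_lit 256) (nat_lit 162)))) (XT.nd (nat_lit 156) (nat_lit 76) (nat_lit 0) (XT.nd (nat_lit 78) (nat_lit 0) (nat_lit 0) (XT.lf (nat_lit 0) (nat_lit 63687300057) (nat_lit 76) (nat_lit 16222417962) (nat_lit 152) (nat_lit 118963892427) (nat_lit 5) (nat_lit 5) (nat_lit 6) (nat_lit 5) (nat_lit 7) (nat_lit 4) (nat_lit 303) (nat_lit 256) (nat_lit 161)) (XT.lf (nat_lit 0) (nat_lit 103320762830) (nat_lit 152) (nat_lit 102230866143) (nat_lit 0) (nat_lit 7956401613) (nat_lit 5) (nat_lit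 5) (nat_lit 7) (nat_lit 4) (nat_lit 5) (nat_lit 4) (nat_lit 304) (nat_lit 256) (nat_lit 160))) (XT.nd (nat_lit 78) (nat_lit 76) (nat_lit 0) (XT.lf (nat_lit 0) (nat_lit 128875858700) (nat_lit 152) (nat_lit 66916665458) (nat_lit 0) (nat_lit 33507125883) (nat_lit 5) (nat_lit 5) (nat_lit 7) (nat_lit 4) (nat_lit 5) (nat_lit 4) (nat_lit 305) (nat_lit 256) (nat_lit 159)) (XT.nd (nat_lit 78) (nat_lit 76) (nat_lit 0) (XT.lf (nat_lit 0) (nat_lit 156473165828) (nat_lit 152) (nat_lit 28781161592) (nat_lit 0) (nat_lit 61100385232) (nat_lit 5) (nat_lit 5) (nat_lit 7) (nat_lit 4) (nat_lit 5) (nat_lit 4) (nat_lit 306) (nat_lit 256) (nat_lit 158)) (XT.lf (nat_lit 0) (nat_lit 12811687642) (nat_lit 76) (nat_lit 173664562516) (nat_lit 76) (nat_lit 78288033977) (nat_lit 4) (nat_lit 4) (nat_lit 5) (nat_lit 5) (nat_lit 5) (nat_lit 4) (nat_lit 307) (nat_lit 256) (nat_lit 157))))))))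
noncomputable def xc83 : XT := (XT.nd (nat_lit 33930) (nat_lit 0) (nat_lit 1672) (XT.nd (nat_lit 702) (nat_lit 0) (nat_lit 0) (XT.nd (nat_lit 312) (nat_lit 152) (nat_lit 0) (XT.nd (nat_lit 156) (nat_lit 0) (nat_lit 0) (XT.nd (nat_lit 78) (nat_lit 0) (nat_lit 0) (XT.lf (nat_lit 0) (nat_lit 58756336090) (nat_lit 76) (nat_lit 160622658342) (nat_lit 76) (nat_lit 65242659485) (nat_lit 4) (nat_lit 4) (nat_lit 5) (nat_lit 5) (nat_lit 5) (nat_lit 4) (nat_lit 308) (nat_lit 256) (nat_lit 156)) (XT.lf (nat_lit 0) (nat_lit 108373413151) (nat_lit 76) (nat_lit 146538752437) (nat_lit 76) (nat_lit 51155540324) (nat_lit 4) (nat_lit 4) (nat_lit 5) (nat_lit 5) (nat_lit 5) (nat_lit 4) (nat_lit 309) (nat_lit 256) (nat_lit 155))) (XT.nd (nat_lit 78) (nat_lit 0) (nat_lit 0) (XT.lf (nat_lit 0) (nat_lit 161956945950) (nat_lit 76) (nat_lit 131329384619) (nat_lit 76) (nat_lit 35943197267) (nat_lit 4) (nat_lit 4)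 (nat_lit 5) (nat_lit 5) (nat_lit 5) (nat_lit 4) (nat_lit 310) (nat_lit 256) (nat_lit 154)) (XT.lf (nat_lit 0) (nat_lit 219824466533) (nat_lit 76) (nat_lit 114904425300) (nat_lit 76) (nat_lit 19515483098) (nat_lit 4) (nat_lit 4) (nat_lit 5) (nat_lit 5) (nat_lit 5) (nat_lit 4) (nat_lit 311) (nat_lit 256) (nat_lit 153)))) (XT.nd (nat_lit 156) (nat_lit 76) (nat_lit 0) (XT.nd (nat_lit 78) (nat_lit 76) (nat_lit 0) (XT.lf (nat_lit 0) (nat_lit 282318893540) (nat_lit 76) (nat_lit 97166541388) (nat_lit 76) (nat_lit 1775048399) (nat_lit 4) (nat_lit 4) (nat_lit 5) (nat_lit 5) (nat_lit 5) (nat_lit 4) (nat_lit 312) (nat_lit 256) (nat_lit 152)) (XT.lf (nat_lit 0) (nat_lit 16826863240) (nat_lit 152) (nat_lit 60898785186) (nat_lit 76) (nat_lit 332698730005) (nat_lit 3) (nat_lit 5) (nat_lit 5) (nat_lit 5) (nat_lit 4) (nat_lit 4) (nat_lit 313) (nat_lit 256) (nat_lit 151))) (XT.nd (nat_lit 78) (nat_lit 76)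 (nat_lit 0) (XT.lf (nat_lit 0) (nat_lit 36854328137) (nat_lit 152) (nat_lit 19844669036) (nat_lit 76) (nat_lit 385220955486) (nat_lit 3) (nat_lit 5) (nat_lit 5) (nat_lit 5) (nat_lit 4) (nat_lit 4) (nat_lit 314) (nat_lit 256) (nat_lit 150)) (XT.nd (nat_lit 78) (nat_lit 0) (nat_lit 0) (XT.lf (nat_lit 0) (nat_lit 25301563848) (nat_lit 76) (nat_lit 33576304670) (nat_lit 152) (nat_lit 417037612193) (nat_lit 2) (nat_lit 5) (nat_lit 3) (nat_lit 5) (nat_lit 4) (nat_lit 4) (nat_lit 315) (nat_lit 256) (nat_lit 149)) (XT.lf (nat_lit 0) (nat_lit 74766209293) (nat_lit 76) (nat_lit 8241669151) (nat_lit 152) (nat_lit 429605544912) (nat_lit 2) (nat_lit 5) (nat_lit 3) (nat_lit 5) (nat_lit 4) (nat_lit 4) (nat_lit 316) (nat_lit 256) (nat_lit 148)))))) (XT.nd (nat_lit 32838) (nat_lit 0) (nat_lit 4484) (XT.nd (nat_lit 156) (nat_lit 0) (nat_lit 0) (XT.nd (nat_lit 78) (nat_lit 0) (nat_lit 0) (XT.lf (nat_lit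 0) (nat_lit 109365775831) (nat_lit 152) (nat_lit 424359517476) (nat_lit 0) (nat_lit 18507035315) (nat_lit 2) (nat_lit 5) (nat_lit 4) (nat_lit 4) (nat_lit 2) (nat_lit 4) (nat_lit 317) (nat_lit 256) (nat_lit 147)) (XT.lf (nat_lit 0) (nat_lit 137970324592) (nat_lit 152) (nat_lit 409933468977) (nat_lit 0) (nat_lit 47110053192) (nat_lit 2) (nat_lit 5) (nat_lit 4) (nat_lit 4) (nat_lit 2) (nat_lit 4) (nat_lit 318) (nat_lit 256) (nat_lit 146))) (XT.nd (nat_lit 78) (nat_lit 0) (nat_lit 0) (XT.lf (nat_lit 0) (nat_lit 168862357611) (nat_lit 152) (nat_lit 394354905318) (nat_lit 0) (nat_lit 78000668725) (nat_lit 2) (nat_lit 5) (nat_lit 4) (nat_lit 4) (nat_lit 2) (nat_lit 4) (nat_lit 319) (nat_lit 256) (nat_lit 145)) (XT.lf (nat_lit 0) (nat_lit 202224938787) (nat_lit 152) (nat_lit 377531509086) (nat_lit 0) (nat_lit 111361937415) (nat_lit 2) (nat_lit 5) (nat_lit 4) (nat_lit 4) (nat_lit 2) (nat_lit 4)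 (nat_lit 320) (nat_lit 256) (nat_lit 144)))) (XT.nd (nat_lit 156) (nat_lit 608) (nat_lit 0) (XT.nd (nat_lit 78) (nat_lit 0) (nat_lit 0) (XT.lf (nat_lit 0) (nat_lit 7162968810) (nat_lit 684) (nat_lit 275327500) (nat_lit 684) (nat_lit 275327500) (nat_lit 69) (nat_lit 3) (nat_lit 78) (nat_lit 3) (nat_lit 78) (nat_lit 5) (nat_lit 257) (nat_lit 257) (nat_lit 206)) (XT.lf (nat_lit 76) (nat_lit 9865709494) (nat_lit 0) (nat_lit 5570018041) (nat_lit 684) (nat_lit 579941128) (nat_lit 70) (nat_lit 5) (nat_lit 69) (nat_lit 3) (nat_lit 78) (nat_lit 5) (nat_lit 258) (nat_lit 257) (nat_lit 205))) (XT.nd (nat_lit 78) (nat_lit 0) (nat_lit 0) (XT.lf (nat_lit 0) (nat_lit 97533838) (nat_lit 684) (nat_lit 12111133479) (nat_lit 760) (nat_lit 4436990876) (nat_lit 61) (nat_lit 5) (nat_lit 70) (nat_lit 5) (nat_lit 71) (nat_lit 5) (nat_lit 259) (nat_lit 257) (nat_lit 204)) (XT.nd (nat_lit 78) (nat_lit 0) (nat_lit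 76) (XT.lf (nat_lit 0) (nat_lit 975367103) (nat_lit 684) (nat_lit 1156380020) (nat_lit 760) (nat_lit 15185662035) (nat_lit 61) (nat_lit 5) (nat_lit 70) (nat_lit 5) (nat_lit 71) (nat_lit 5) (nat_lit 260) (nat_lit 257) (nat_lit 203)) (XT.lf (nat_lit 0) (nat_lit 2200997740) (nat_lit 684) (nat_lit 7170668934) (nat_lit 760) (nat_lit 8657504585) (nat_lit 62) (nat_lit 5) (nat_lit 71) (nat_lit 5) (nat_lit 72) (nat_lit 5) (nat_lit 261) (nat_lit 257) (nat_lit 202))))))) (XT.nd (nat_lit 702) (nat_lit 1444) (nat_lit 0) (XT.nd (nat_lit 312) (nat_lit 912) (nat_lit 0) (XT.nd (nat_lit 156) (nat_lit 608) (nat_lit 0) (XT.nd (nat_lit 78) (nat_lit 0) (nat_lit 0) (XT.lf (nat_lit 0) (nat_lit 3654812586) (nat_lit 684) (nat_lit 13631103041) (nat_lit 760) (nat_lit 1505590527) (nat_lit 63) (nat_lit 5) (nat_lit 72) (nat_lit 5) (nat_lit 73) (nat_lit 5) (nat_lit 262) (nat_lit 257) (nat_lit 201)) (XT.lf (nat_lit 0)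 (nat_lit 5480492902) (nat_lit 684) (nat_lit 1058171887) (nat_lit 760) (nat_lit 13063513294) (nat_lit 63) (nat_lit 5) (nat_lit 72) (nat_lit 5) (nat_lit 73) (nat_lit 5) (nat_lit 263) (nat_lit 257) (nat_lit 200))) (XT.nd (nat_lit 78) (nat_lit 684) (nat_lit 0) (XT.lf (nat_lit 0) (nat_lit 7709102266) (nat_lit 684) (nat_lit 7639563373) (nat_lit 76) (nat_lit 5116313147) (nat_lit 64) (nat_lit 5) (nat_lit 73) (nat_lit 5) (nat_lit 65) (nat_lit 5) (nat_lit 264) (nat_lit 257) (nat_lit 199)) (XT.lf (nat_lit 0) (nat_lit 6537983939) (nat_lit 684) (nat_lit 3783606916) (nat_lit 760) (nat_lit 11065043125) (nat_lit 55) (nat_lit 5) (nat_lit 64) (nat_lit 5) (nat_lit 65) (nat_lit 5) (nat_lit 265) (nat_lit 257) (nat_lit 198)))) (XT.nd (nat_lit 156) (nat_lit 608) (nat_lit 0) (XT.nd (nat_lit 78) (nat_lit 304) (nat_lit 0) (XT.lf (nat_lit 0) (nat_lit 13390391294) (nat_lit 760) (nat_lit 413622911) (nat_lit 76) (nat_lit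 8565743559) (nat_lit 55) (nat_lit 5) (nat_lit 65) (nat_lit 5) (nat_lit 56) (nat_lit 5) (nat_lit 266) (nat_lit 257) (nat_lit 197)) (XT.lf (nat_lit 0) (nat_lit 15590398319) (nat_lit 304) (nat_lit 1399394308) (nat_lit 380) (nat_lit 6427578251) (nat_lit 51) (nat_lit 5) (nat_lit 55) (nat_lit 5) (nat_lit 56) (nat_lit 5) (nat_lit 267) (nat_lit 257) (nat_lit 196))) (XT.nd (nat_lit 78) (nat_lit 304) (nat_lit 0) (XT.lf (nat_lit 0) (nat_lit 8401314515) (nat_lit 304) (nat_lit 12780862590) (nat_lit 380) (nat_lit 3351451672) (nat_lit 47) (nat_lit 5) (nat_lit 51) (nat_lit 5) (nat_lit 52) (nat_lit 5) (nat_lit 268) (nat_lit 257) (nat_lit 195)) (XT.nd (nat_lit 78) (nat_lit 0) (nat_lit 0) (XT.lf (nat_lit 0) (nat_lit 125858524) (nat_lit 304) (nat_lit 25294106766) (nat_lit 76) (nat_lit 311613923) (nat_lit 43) (nat_lit 5) (nat_lit 47) (nat_lit 5) (nat_lit 44) (nat_lit 5) (nat_lit 269) (nat_lit 257) (nat_lit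 194)) (XT.lf (nat_lit 0) (nat_lit 4247824651) (nat_lit 304) (nat_lit 8400134699) (nat_lit 76) (nat_lit 14350536032) (nat_lit 43) (nat_lit 5) (nat_lit 47) (nat_lit 5) (nat_lit 44) (nat_lit 5) (nat_lit 270) (nat_lit 257) (nat_lit 193)))))) (XT.nd (nat_lit 390) (nat_lit 608) (nat_lit 0) (XT.nd (nat_lit 156) (nat_lit 304) (nat_lit 0) (XT.nd (nat_lit 78) (nat_lit 228) (nat_lit 0) (XT.lf (nat_lit 0) (nat_lit 8861066016) (nat_lit 380) (nat_lit 18229541473) (nat_lit 76) (nat_lit 1268147449) (nat_lit 39) (nat_lit 5) (nat_lit 44) (nat_lit 5) (nat_lit 40) (nat_lit 5) (nat_lit 271) (nat_lit 257) (nat_lit 192)) (XT.lf (nat_lit 0) (nat_lit 397877448) (nat_lit 228) (nat_lit 13797238383) (nat_lit 304) (nat_lit 15615193074) (nat_lit 36) (nat_lit 5) (nat_lit 39) (nat_lit 5) (nat_lit 40) (nat_lit 5) (nat_lit 272) (nat_lit 257) (nat_lit 191))) (XT.nd (nat_lit 78) (nat_lit 304) (nat_lit 0) (XT.lf (nat_lit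 0) (nat_lit 20271802272) (nat_lit 304) (nat_lit 10229072698) (nat_lit 76) (nat_lit 861373165) (nat_lit 36) (nat_lit 5) (nat_lit 40) (nat_lit 5) (nat_lit 37) (nat_lit 5) (nat_lit 273) (nat_lit 257) (nat_lit 190)) (XT.nd (nat_lit 78) (nat_lit 76) (nat_lit 0) (XT.lf (nat_lit 0) (nat_lit 10576793446) (nat_lit 228) (nat_lit 16641187223) (nat_lit 304) (nat_lit 5801246369) (nat_lit 33) (nat_lit 5) (nat_lit 36) (nat_lit 5) (nat_lit 37) (nat_lit 5) (nat_lit 274) (nat_lit 257) (nat_lit 189)) (XT.lf (nat_lit 0) (nat_lit 81145380) (nat_lit 304) (nat_lit 1406741997) (nat_lit 76) (nat_lit 33312631952) (nat_lit 32) (nat_lit 5) (nat_lit 36) (nat_lit 5) (nat_lit 33) (nat_lit 5) (nat_lit 275) (nat_lit 257) (nat_lit 188))))) (XT.nd (nat_lit 156) (nat_lit 152) (nat_lit 0) (XT.nd (nat_lit 78) (nat_lit 228) (nat_lit 0) (XT.lf (nat_lit 0) (nat_lit 6802063789) (nat_lit 304) (nat_lit 15044022564) (nat_lit 76)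 (nat_lit 14844957167) (nat_lit 29) (nat_lit 5) (nat_lit 33) (nat_lit 5) (nat_lit 30) (nat_lit 5) (nat_lit 276) (nat_lit 257) (nat_lit 187)) (XT.lf (nat_lit 0) (nat_lit 8080551384) (nat_lit 228) (nat_lit 6144045615) (nat_lit 304) (nat_lit 24500055186) (nat_lit 26) (nat_lit 5) (nat_lit 29) (nat_lit 5) (nat_lit 30) (nat_lit 5) (nat_lit 277) (nat_lit 257) (nat_lit 186))) (XT.nd (nat_lit 78) (nat_lit 152) (nat_lit 0) (XT.lf (nat_lit 0) (nat_lit 22664509470) (nat_lit 304) (nat_lit 7504836535) (nat_lit 76) (nat_lit 10730461380) (nat_lit 26) (nat_lit 5) (nat_lit 30) (nat_lit 5) (nat_lit 27) (nat_lit 5) (nat_lit 278) (nat_lit 257) (nat_lit 185)) (XT.nd (nat_lit 78) (nat_lit 0) (nat_lit 0) (XT.lf (nat_lit 0) (nat_lit 17941234904) (nat_lit 152) (nat_lit 14211337359) (nat_lit 228) (nat_lit 11077788829) (nat_lit 24) (nat_lit 5) (nat_lit 26) (nat_lit 5) (nat_lit 27) (nat_lit 5) (nat_lit 279) (nat_lit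 257) (nat_lit 184)) (XT.lf (nat_lit 0) (nat_lit 42569508175) (nat_lit 228) (nat_lit 113972083) (nat_lit 76) (nat_lit 3055418872) (nat_lit 24) (nat_lit 5) (nat_lit 27) (nat_lit 5) (nat_lit 25) (nat_lit 5) (nat_lit 280) (nat_lit 257) (nat_lit 183))))))))
noncomputable def xc84 : XT := (XT.nd (nat_lit 1404) (nat_lit 456) (nat_lit 0) (XT.nd (nat_lit 702) (nat_lit 380) (nat_lit 0) (XT.nd (nat_lit 312) (nat_lit 304) (nat_lit 0) (XT.nd (nat_lit 156) (nat_lit 152) (nat_lit 0) (XT.nd (nat_lit 78) (nat_lit 152) (nat_lit 0) (XT.lf (nat_lit 0) (nat_lit 5873340223) (nat_lit 228) (nat_lit 20801021308) (nat_lit 76) (nat_lit 21735913621) (nat_lit 21) (nat_lit 5) (nat_lit 24) (nat_lit 5) (nat_lit 22) (nat_lit 5) (nat_lit 281) (nat_lit 257) (nat_lit 182)) (XT.lf (nat_lit 0) (nat_lit 6396985873) (nat_lit 152) (nat_lit 9225678269) (nat_lit 228) (nat_lit 35665414210) (nat_lit 19) (nat_lit 5) (nat_lit 21)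 (nat_lit 5) (nat_lit 22) (nat_lit 5) (nat_lit 282) (nat_lit 257) (nat_lit 181))) (XT.nd (nat_lit 78) (nat_lit 152) (nat_lit 0) (XT.lf (nat_lit 0) (nat_lit 26661642586) (nat_lit 228) (nat_lit 18033713942) (nat_lit 76) (nat_lit 9675287620) (nat_lit 19) (nat_lit 5) (nat_lit 22) (nat_lit 5) (nat_lit 20) (nat_lit 5) (nat_lit 283) (nat_lit 257) (nat_lit 180)) (XT.lf (nat_lit 0) (nat_lit 11161678588) (nat_lit 152) (nat_lit 27743785971) (nat_lit 228) (nat_lit 18778286395) (nat_lit 17) (nat_lit 5) (nat_lit 19) (nat_lit 5) (nat_lit 20) (nat_lit 5) (nat_lit 284) (nat_lit 257) (nat_lit 179)))) (XT.nd (nat_lit 156) (nat_lit 152) (nat_lit 0) (XT.nd (nat_lit 78) (nat_lit 152) (nat_lit 0) (XT.lf (nat_lit 0) (nat_lit 43324955420) (nat_lit 152) (nat_lit 9110287970) (nat_lit 228) (nat_lit 8811360737) (nat_lit 17) (nat_lit 5) (nat_lit 19) (nat_lit 5) (nat_lit 20) (nat_lit 5) (nat_lit 285) (nat_lit 257) (nat_lit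 178)) (XT.lf (nat_lit 0) (nat_lit 2267448916) (nat_lit 152) (nat_lit 51906163174) (nat_lit 76) (nat_lit 10900515133) (nat_lit 15) (nat_lit 5) (nat_lit 17) (nat_lit 5) (nat_lit 16) (nat_lit 5) (nat_lit 286) (nat_lit 257) (nat_lit 177))) (XT.nd (nat_lit 78) (nat_lit 152) (nat_lit 0) (XT.lf (nat_lit 0) (nat_lit 14391962946) (nat_lit 152) (nat_lit 22125763733) (nat_lit 76) (nat_lit 32659514360) (nat_lit 15) (nat_lit 5) (nat_lit 17) (nat_lit 5) (nat_lit 16) (nat_lit 5) (nat_lit 287) (nat_lit 257) (nat_lit 176)) (XT.nd (nat_lit 78) (nat_lit 0) (nat_lit 0) (XT.lf (nat_lit 0) (nat_lit 10358480229) (nat_lit 152) (nat_lit 17283258927) (nat_lit 228) (nat_lit 45959115160) (nat_lit 13) (nat_lit 5) (nat_lit 15) (nat_lit 5) (nat_lit 16) (nat_lit 5) (nat_lit 288) (nat_lit 257) (nat_lit 175)) (XT.lf (nat_lit 0) (nat_lit 42391565293) (nat_lit 228) (nat_lit 32198271491) (nat_lit 76) (nat_lit 3766530744)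 (nat_lit 13) (nat_lit 5) (nat_lit 16) (nat_lit 5) (nat_lit 14) (nat_lit 4) (nat_lit 289) (nat_lit 257) (nat_lit 174)))))) (XT.nd (nat_lit 312) (nat_lit 76) (nat_lit 0) (XT.nd (nat_lit 156) (nat_lit 228) (nat_lit 0) (XT.nd (nat_lit 78) (nat_lit 0) (nat_lit 0) (XT.lf (nat_lit 0) (nat_lit 1062736189) (nat_lit 76) (nat_lit 57560961719) (nat_lit 152) (nat_lit 24853521080) (nat_lit 12) (nat_lit 5) (nat_lit 13) (nat_lit 5) (nat_lit 14) (nat_lit 4) (nat_lit 290) (nat_lit 257) (nat_lit 173)) (XT.lf (nat_lit 0) (nat_lit 38125604629) (nat_lit 76) (nat_lit 38584255020) (nat_lit 152) (nat_lit 12270118220) (nat_lit 12) (nat_lit 5) (nat_lit 13) (nat_lit 5) (nat_lit 14) (nat_lit 4) (nat_lit 291) (nat_lit 257) (nat_lit 172))) (XT.nd (nat_lit 78) (nat_lit 152) (nat_lit 0) (XT.lf (nat_lit 0) (nat_lit 1272603336) (nat_lit 152) (nat_lit 16798399949) (nat_lit 76) (nat_lit 76851189882) (nat_lit 11) (nat_lit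 5) (nat_lit 13) (nat_lit 5) (nat_lit 12) (nat_lit 5) (nat_lit 292) (nat_lit 257) (nat_lit 171)) (XT.lf (nat_lit 0) (nat_lit 15861029434) (nat_lit 228) (nat_lit 80965033427) (nat_lit 76) (nat_lit 4484066742) (nat_lit 9) (nat_lit 5) (nat_lit 12) (nat_lit 5) (nat_lit 10) (nat_lit 4) (nat_lit 293) (nat_lit 257) (nat_lit 170)))) (XT.nd (nat_lit 156) (nat_lit 76) (nat_lit 0) (XT.nd (nat_lit 78) (nat_lit 0) (nat_lit 0) (XT.lf (nat_lit 0) (nat_lit 32214115486) (nat_lit 228) (nat_lit 47451612370) (nat_lit 76) (nat_lit 28513503052) (nat_lit 9) (nat_lit 5) (nat_lit 12) (nat_lit 5) (nat_lit 10) (nat_lit 4) (nat_lit 294) (nat_lit 257) (nat_lit 169)) (XT.lf (nat_lit 0) (nat_lit 49871246057) (nat_lit 228) (nat_lit 11264129282) (nat_lit 76) (nat_lit 54462703658) (nat_lit 9) (nat_lit 5) (nat_lit 12) (nat_lit 5) (nat_lit 10) (nat_lit 4) (nat_lit 295) (nat_lit 257) (nat_lit 168))) (XT.nd (nat_lit 78) (nat_lit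 0) (nat_lit 0) (XT.lf (nat_lit 0) (nat_lit 28731445880) (nat_lit 76) (nat_lit 40654188505) (nat_lit 152) (nat_lit 54202574110) (nat_lit 8) (nat_lit 5) (nat_lit 9) (nat_lit 5) (nat_lit 10) (nat_lit 4) (nat_lit 296) (nat_lit 257) (nat_lit 167)) (XT.nd (nat_lit 78) (nat_lit 0) (nat_lit 0) (XT.lf (nat_lit 0) (nat_lit 72322695352) (nat_lit 76) (nat_lit 18330992483) (nat_lit 152) (nat_lit 41554242155) (nat_lit 8) (nat_lit 5) (nat_lit 9) (nat_lit 5) (nat_lit 10) (nat_lit 4) (nat_lit 297) (nat_lit 257) (nat_lit 166)) (XT.lf (nat_lit 0) (nat_lit 113709935221) (nat_lit 152) (nat_lit 22212088031) (nat_lit 0) (nat_lit 5590875266) (nat_lit 8) (nat_lit 5) (nat_lit 10) (nat_lit 4) (nat_lit 8) (nat_lit 4) (nat_lit 298) (nat_lit 257) (nat_lit 165))))))) (XT.nd (nat_lit 702) (nat_lit 228) (nat_lit 0) (XT.nd (nat_lit 312) (nat_lit 76) (nat_lit 0) (XT.nd (nat_lit 156) (nat_lit 0) (nat_lit 0) (XT.nd (nat_lit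 78) (nat_lit 76) (nat_lit 0) (XT.lf (nat_lit 0) (nat_lit 18760824355) (nat_lit 76) (nat_lit 120448655515) (nat_lit 76) (nat_lit 12322851078) (nat_lit 7) (nat_lit 4) (nat_lit 8) (nat_lit 5) (nat_lit 8) (nat_lit 4) (nat_lit 299) (nat_lit 257) (nat_lit 164)) (XT.lf (nat_lit 0) (nat_lit 4645139173) (nat_lit 152) (nat_lit 98609514021) (nat_lit 76) (nat_lit 59075730994) (nat_lit 6) (nat_lit 5) (nat_lit 8) (nat_lit 5) (nat_lit 7) (nat_lit 4) (nat_lit 300) (nat_lit 257) (nat_lit 163))) (XT.nd (nat_lit 78) (nat_lit 0) (nat_lit 0) (XT.lf (nat_lit 0) (nat_lit 22541732568) (nat_lit 152) (nat_lit 61927279867) (nat_lit 76) (nat_lit 89513028864) (nat_lit 6) (nat_lit 5) (nat_lit 8) (nat_lit 5) (nat_lit 7) (nat_lit 4) (nat_lit 301) (nat_lit 257) (nat_lit 162)) (XT.lf (nat_lit 0) (nat_lit 41867391186) (nat_lit 152) (nat_lit 22315033688) (nat_lit 76) (nat_lit 122383543975) (nat_lit 6) (nat_lit 5) (nat_lit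 8) (nat_lit 5) (nat_lit 7) (nat_lit 4) (nat_lit 302) (nat_lit 257) (nat_lit 161)))) (XT.nd (nat_lit 156) (nat_lit 0) (nat_lit 0) (XT.nd (nat_lit 78) (nat_lit 0) (nat_lit 0) (XT.lf (nat_lit 0) (nat_lit 21138528682) (nat_lit 76) (nat_lit 41928140438) (nat_lit 152) (nat_lit 137073567556) (nat_lit 5) (nat_lit 5) (nat_lit 6) (nat_lit 5) (nat_lit 7) (nat_lit 4) (nat_lit 303) (nat_lit 257) (nat_lit 160)) (XT.lf (nat_lit 0) (nat_lit 68861194026) (nat_lit 76) (nat_lit 17487063154) (nat_lit 152) (nat_lit 128432874433) (nat_lit 5) (nat_lit 5) (nat_lit 6) (nat_lit 5) (nat_lit 7) (nat_lit 4) (nat_lit 304) (nat_lit 257) (nat_lit 159))) (XT.nd (nat_lit 78) (nat_lit 0) (nat_lit 0) (XT.lf (nat_lit 0) (nat_lit 111629275021) (nat_lit 152) (nat_lit 110334557568) (nat_lit 0) (nat_lit 8622624199) (nat_lit 5) (nat_lit 5) (nat_lit 7) (nat_lit 4) (nat_lit 5) (nat_lit 4) (nat_lit 305) (nat_lit 257) (nat_lit 158))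 (XT.nd (nat_lit 78) (nat_lit 0) (nat_lit 0) (XT.lf (nat_lit 0) (nat_lit 139225604401) (nat_lit 152) (nat_lit 72200759930) (nat_lit 0) (nat_lit 36215205636) (nat_lit 5) (nat_lit 5) (nat_lit 7) (nat_lit 4) (nat_lit 5) (nat_lit 4) (nat_lit 306) (nat_lit 257) (nat_lit 157)) (XT.lf (nat_lit 0) (nat_lit 169027757061) (nat_lit 152) (nat_lit 31019544552) (nat_lit 0) (nat_lit 66013887978) (nat_lit 5) (nat_lit 5) (nat_lit 7) (nat_lit 4) (nat_lit 5) (nat_lit 4) (nat_lit 307) (nat_lit 257) (nat_lit 156)))))) (XT.nd (nat_lit 312) (nat_lit 152) (nat_lit 0) (XT.nd (nat_lit 156) (nat_lit 0) (nat_lit 0) (XT.nd (nat_lit 78) (nat_lit 0) (nat_lit 0) (XT.lf (nat_lit 0) (nat_lit 13897946480) (nat_lit 76) (nat_lit 187531377764) (nat_lit 76) (nat_lit 84514295424) (nat_lit 4) (nat_lit 4) (nat_lit 5) (nat_lit 5) (nat_lit 5) (nat_lit 4) (nat_lit 308) (nat_lit 257) (nat_lit 155)) (XT.lf (nat_lit 0) (nat_lit 63513624298)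 (nat_lit 76) (nat_lit 173448073090) (nat_lit 76) (nat_lit 70428015512) (nat_lit 4) (nat_lit 4) (nat_lit 5) (nat_lit 5) (nat_lit 5) (nat_lit 4) (nat_lit 309) (nat_lit 257) (nat_lit 154))) (XT.nd (nat_lit 78) (nat_lit 0) (nat_lit 0) (XT.lf (nat_lit 0) (nat_lit 117095861501) (nat_lit 76) (nat_lit 158239261966) (nat_lit 76) (nat_lit 55216449538) (nat_lit 4) (nat_lit 4) (nat_lit 5) (nat_lit 5) (nat_lit 5) (nat_lit 4) (nat_lit 310) (nat_lit 257) (nat_lit 153)) (XT.lf (nat_lit 0) (nat_lit 174962182457) (nat_lit 76) (nat_lit 141814818105) (nat_lit 76) (nat_lit 38789454890) (nat_lit 4) (nat_lit 4) (nat_lit 5) (nat_lit 5) (nat_lit 5) (nat_lit 4) (nat_lit 311) (nat_lit 257) (nat_lit 152)))) (XT.nd (nat_lit 156) (nat_lit 152) (nat_lit 0) (XT.nd (nat_lit 78) (nat_lit 0) (nat_lit 0) (XT.lf (nat_lit 0) (nat_lit 237455498699) (nat_lit 76) (nat_lit 124077411469) (nat_lit 76) (nat_lit 21049686414) (nat_lit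 4) (nat_lit 4) (nat_lit 5) (nat_lit 5) (nat_lit 5) (nat_lit 4) (nat_lit 312) (nat_lit 257) (nat_lit 151)) (XT.lf (nat_lit 0) (nat_lit 304946140989) (nat_lit 76) (nat_lit 104921931500) (nat_lit 76) (nat_lit 1892019556) (nat_lit 4) (nat_lit 4) (nat_lit 5) (nat_lit 5) (nat_lit 5) (nat_lit 4) (nat_lit 313) (nat_lit 257) (nat_lit 150))) (XT.nd (nat_lit 78) (nat_lit 76) (nat_lit 0) (XT.lf (nat_lit 0) (nat_lit 18195448884) (nat_lit 152) (nat_lit 65731266627) (nat_lit 76) (nat_lit 359330456259) (nat_lit 3) (nat_lit 5) (nat_lit 5) (nat_lit 5) (nat_lit 4) (nat_lit 4) (nat_lit 314) (nat_lit 257) (nat_lit 149)) (XT.nd (nat_lit 78) (nat_lit 76) (nat_lit 0) (XT.lf (nat_lit 0) (nat_lit 39823449004) (nat_lit 152) (nat_lit 21395741286) (nat_lit 76) (nat_lit 416053287345) (nat_lit 3) (nat_lit 5) (nat_lit 5) (nat_lit 5) (nat_lit 4) (nat_lit 4) (nat_lit 315) (nat_lit 257) (nat_lit 148)) (XT.lf (nat_lit 0)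 (nat_lit 27360603927) (nat_lit 76) (nat_lit 36247274948) (nat_lit 152) (nat_lit 450379821150) (nat_lit 2) (nat_lit 5) (nat_lit 3) (nat_lit 5) (nat_lit 4) (nat_lit 4) (nat_lit 316) (nat_lit 257) (nat_lit 147))))))))
noncomputable def xc85 : XT := (XT.nd (nat_lit 34008) (nat_lit 0) (nat_lit 836) (XT.nd (nat_lit 33306) (nat_lit 0) (nat_lit 3116) (XT.nd (nat_lit 32916) (nat_lit 0) (nat_lit 4408) (XT.nd (nat_lit 156) (nat_lit 0) (nat_lit 0) (XT.nd (nat_lit 78) (nat_lit 0) (nat_lit 0) (XT.lf (nat_lit 0) (nat_lit 80779834714) (nat_lit 76) (nat_lit 8886989632) (nat_lit 152) (nat_lit 463954729229) (nat_lit 2) (nat_lit 5) (nat_lit 3) (nat_lit 5) (nat_lit 4) (nat_lit 4) (nat_lit 317) (nat_lit 257) (nat_lit 146)) (XT.lf (nat_lit 0) (nat_lit 118132199388) (nat_lit 152) (nat_lit 458277673741) (nat_lit 0) (nat_lit 20000157906) (nat_lit 2) (nat_lit 5) (nat_lit 4) (nat_lit 4) (nat_lit 2) (nat_lit 4) (nat_lit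 318) (nat_lit 257) (nat_lit 145))) (XT.nd (nat_lit 78) (nat_lit 0) (nat_lit 0) (XT.lf (nat_lit 0) (nat_lit 149023840828) (nat_lit 152) (nat_lit 442699808409) (nat_lit 0) (nat_lit 50890486859) (nat_lit 2) (nat_lit 5) (nat_lit 4) (nat_lit 4) (nat_lit 2) (nat_lit 4) (nat_lit 319) (nat_lit 257) (nat_lit 144)) (XT.lf (nat_lit 0) (nat_lit 182386059431) (nat_lit 152) (nat_lit 425877058775) (nat_lit 0) (nat_lit 84251490197) (nat_lit 2) (nat_lit 5) (nat_lit 4) (nat_lit 4) (nat_lit 2) (nat_lit 4) (nat_lit 320) (nat_lit 257) (nat_lit 143)))) (XT.nd (nat_lit 156) (nat_lit 0) (nat_lit 76) (XT.nd (nat_lit 78) (nat_lit 684) (nat_lit 0) (XT.lf (nat_lit 0) (nat_lit 8109522900) (nat_lit 684) (nat_lit 100363891) (nat_lit 684) (nat_lit 100363891) (nat_lit 69) (nat_lit 3) (nat_lit 78) (nat_lit 3) (nat_lit 78) (nat_lit 5) (nat_lit 258) (nat_lit 258) (nat_lit 204)) (XT.lf (nat_lit 0) (nat_lit 105930907) (nat_lit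 684) (nat_lit 6228618026) (nat_lit 760) (nat_lit 10924099098) (nat_lit 60) (nat_lit 5) (nat_lit 69) (nat_lit 3) (nat_lit 70) (nat_lit 5) (nat_lit 259) (nat_lit 258) (nat_lit 203))) (XT.nd (nat_lit 78) (nat_lit 0) (nat_lit 0) (XT.lf (nat_lit 0) (nat_lit 766463673) (nat_lit 684) (nat_lit 12653446954) (nat_lit 760) (nat_lit 4521425315) (nat_lit 61) (nat_lit 5) (nat_lit 70) (nat_lit 5) (nat_lit 71) (nat_lit 5) (nat_lit 260) (nat_lit 258) (nat_lit 202)) (XT.nd (nat_lit 78) (nat_lit 0) (nat_lit 76) (XT.lf (nat_lit 0) (nat_lit 1665551219) (nat_lit 684) (nat_lit 853911529) (nat_lit 760) (nat_lit 16150029043) (nat_lit 61) (nat_lit 5) (nat_lit 70) (nat_lit 5) (nat_lit 71) (nat_lit 5) (nat_lit 261) (nat_lit 258) (nat_lit 201)) (XT.lf (nat_lit 0) (nat_lit 2946743381) (nat_lit 684) (nat_lit 7332328379) (nat_lit 760) (nat_lit 9161447722) (nat_lit 62) (nat_lit 5) (nat_lit 71) (nat_lit 5) (nat_lit 72)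 (nat_lit 5) (nat_lit 262) (nat_lit 258) (nat_lit 200)))))) (XT.nd (nat_lit 312) (nat_lit 912) (nat_lit 0) (XT.nd (nat_lit 156) (nat_lit 608) (nat_lit 0) (XT.nd (nat_lit 78) (nat_lit 0) (nat_lit 0) (XT.lf (nat_lit 0) (nat_lit 4478640302) (nat_lit 684) (nat_lit 14296325591) (nat_lit 760) (nat_lit 1490971779) (nat_lit 63) (nat_lit 5) (nat_lit 72) (nat_lit 5) (nat_lit 73) (nat_lit 5) (nat_lit 263) (nat_lit 258) (nat_lit 199)) (XT.lf (nat_lit 0) (nat_lit 6411008916) (nat_lit 684) (nat_lit 749061107) (nat_lit 760) (nat_lit 13983533255) (nat_lit 63) (nat_lit 5) (nat_lit 72) (nat_lit 5) (nat_lit 73) (nat_lit 5) (nat_lit 264) (nat_lit 258) (nat_lit 198))) (XT.nd (nat_lit 78) (nat_lit 684) (nat_lit 0) (XT.lf (nat_lit 0) (nat_lit 8786012680) (nat_lit 684) (nat_lit 7847689945) (nat_lit 76) (nat_lit 5443479036) (nat_lit 64) (nat_lit 5) (nat_lit 73) (nat_lit 5) (nat_lit 65) (nat_lit 5) (nat_lit 265)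 (nat_lit 258) (nat_lit 197)) (XT.lf (nat_lit 0) (nat_lit 7446545591) (nat_lit 684) (nat_lit 4132886286) (nat_lit 760) (nat_lit 11494687952) (nat_lit 55) (nat_lit 5) (nat_lit 64) (nat_lit 5) (nat_lit 65) (nat_lit 5) (nat_lit 266) (nat_lit 258) (nat_lit 196)))) (XT.nd (nat_lit 156) (nat_lit 608) (nat_lit 0) (XT.nd (nat_lit 78) (nat_lit 304) (nat_lit 0) (XT.lf (nat_lit 0) (nat_lit 14861054394) (nat_lit 760) (nat_lit 67365318) (nat_lit 76) (nat_lit 9209244137) (nat_lit 55) (nat_lit 5) (nat_lit 65) (nat_lit 5) (nat_lit 56) (nat_lit 5) (nat_lit 267) (nat_lit 258) (nat_lit 195)) (XT.lf (nat_lit 0) (nat_lit 17200491633) (nat_lit 304) (nat_lit 1523993944) (nat_lit 380) (nat_lit 6545922692) (nat_lit 51) (nat_lit 5) (nat_lit 55) (nat_lit 5) (nat_lit 56) (nat_lit 5) (nat_lit 268) (nat_lit 258) (nat_lit 194))) (XT.nd (nat_lit 78) (nat_lit 304) (nat_lit 0) (XT.lf (nat_lit 0) (nat_lit 9440168293) (nat_lit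 304) (nat_lit 13789820128) (nat_lit 380) (nat_lit 3247208798) (nat_lit 47) (nat_lit 5) (nat_lit 51) (nat_lit 5) (nat_lit 52) (nat_lit 5) (nat_lit 269) (nat_lit 258) (nat_lit 193)) (XT.nd (nat_lit 78) (nat_lit 0) (nat_lit 0) (XT.lf (nat_lit 0) (nat_lit 475721550) (nat_lit 304) (nat_lit 26936213460) (nat_lit 76) (nat_lit 359893343) (nat_lit 43) (nat_lit 5) (nat_lit 47) (nat_lit 5) (nat_lit 44) (nat_lit 5) (nat_lit 270) (nat_lit 258) (nat_lit 192)) (XT.lf (nat_lit 0) (nat_lit 4902275015) (nat_lit 304) (nat_lit 8718977098) (nat_lit 76) (nat_lit 15520199568) (nat_lit 43) (nat_lit 5) (nat_lit 47) (nat_lit 5) (nat_lit 44) (nat_lit 5) (nat_lit 271) (nat_lit 258) (nat_lit 191))))))) (XT.nd (nat_lit 702) (nat_lit 836) (nat_lit 0) (XT.nd (nat_lit 312) (nat_lit 684) (nat_lit 0) (XT.nd (nat_lit 156) (nat_lit 228) (nat_lit 0) (XT.nd (nat_lit 78) (nat_lit 228) (nat_lit 0) (XT.lf (nat_lit 0) (nat_lit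 9867188165) (nat_lit 380) (nat_lit 19334794882) (nat_lit 76) (nat_lit 1409506635) (nat_lit 39) (nat_lit 5) (nat_lit 44) (nat_lit 5) (nat_lit 40) (nat_lit 5) (nat_lit 272) (nat_lit 258) (nat_lit 190)) (XT.lf (nat_lit 0) (nat_lit 767471825) (nat_lit 228) (nat_lit 14843746040) (nat_lit 304) (nat_lit 16568869071) (nat_lit 36) (nat_lit 5) (nat_lit 39) (nat_lit 5) (nat_lit 40) (nat_lit 5) (nat_lit 273) (nat_lit 258) (nat_lit 189))) (XT.nd (nat_lit 78) (nat_lit 228) (nat_lit 0) (XT.lf (nat_lit 0) (nat_lit 22154089912) (nat_lit 304) (nat_lit 10721549722) (nat_lit 76) (nat_lit 981614843) (nat_lit 36) (nat_lit 5) (nat_lit 40) (nat_lit 5) (nat_lit 37) (nat_lit 5) (nat_lit 274) (nat_lit 258) (nat_lit 188)) (XT.lf (nat_lit 0) (nat_lit 11734624723) (nat_lit 228) (nat_lit 17906904663) (nat_lit 304) (nat_lit 6006054066) (nat_lit 33) (nat_lit 5) (nat_lit 36) (nat_lit 5) (nat_lit 37) (nat_lit 5) (nat_lit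 275) (nat_lit 258) (nat_lit 187)))) (XT.nd (nat_lit 156) (nat_lit 380) (nat_lit 0) (XT.nd (nat_lit 78) (nat_lit 228) (nat_lit 0) (XT.lf (nat_lit 0) (nat_lit 320037982) (nat_lit 304) (nat_lit 1222224619) (nat_lit 76) (nat_lit 36029905530) (nat_lit 32) (nat_lit 5) (nat_lit 36) (nat_lit 5) (nat_lit 33) (nat_lit 5) (nat_lit 276) (nat_lit 258) (nat_lit 186)) (XT.lf (nat_lit 0) (nat_lit 7566858718) (nat_lit 304) (nat_lit 15952708185) (nat_lit 76) (nat_lit 16095013147) (nat_lit 29) (nat_lit 5) (nat_lit 33) (nat_lit 5) (nat_lit 30) (nat_lit 5) (nat_lit 277) (nat_lit 258) (nat_lit 185))) (XT.nd (nat_lit 78) (nat_lit 152) (nat_lit 0) (XT.lf (nat_lit 0) (nat_lit 9009018457) (nat_lit 228) (nat_lit 6562236346) (nat_lit 304) (nat_lit 26240272592) (nat_lit 26) (nat_lit 5) (nat_lit 29) (nat_lit 5) (nat_lit 30) (nat_lit 5) (nat_lit 278) (nat_lit 258) (nat_lit 184)) (XT.nd (nat_lit 78) (nat_lit 152) (nat_lit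 0) (XT.lf (nat_lit 0) (nat_lit 24671961873) (nat_lit 304) (nat_lit 7834876241) (nat_lit 76) (nat_lit 11654625890) (nat_lit 26) (nat_lit 5) (nat_lit 30) (nat_lit 5) (nat_lit 27) (nat_lit 5) (nat_lit 279) (nat_lit 258) (nat_lit 183)) (XT.lf (nat_lit 0) (nat_lit 19635131953) (nat_lit 152) (nat_lit 15273583206) (nat_lit 228) (nat_lit 11770310010) (nat_lit 24) (nat_lit 5) (nat_lit 26) (nat_lit 5) (nat_lit 27) (nat_lit 5) (nat_lit 280) (nat_lit 258) (nat_lit 182)))))) (XT.nd (nat_lit 390) (nat_lit 304) (nat_lit 0) (XT.nd (nat_lit 156) (nat_lit 304) (nat_lit 0) (XT.nd (nat_lit 78) (nat_lit 76) (nat_lit 0) (XT.lf (nat_lit 0) (nat_lit 128425566) (nat_lit 152) (nat_lit 46020039812) (nat_lit 228) (nat_lit 3240349971) (nat_lit 22) (nat_lit 5) (nat_lit 24) (nat_lit 5) (nat_lit 25) (nat_lit 5) (nat_lit 281) (nat_lit 258) (nat_lit 181)) (XT.lf (nat_lit 0) (nat_lit 6508731548) (nat_lit 228) (nat_lit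 22222513218) (nat_lit 76) (nat_lit 23543112451) (nat_lit 21) (nat_lit 5) (nat_lit 24) (nat_lit 5) (nat_lit 22) (nat_lit 5) (nat_lit 282) (nat_lit 258) (nat_lit 180))) (XT.nd (nat_lit 78) (nat_lit 152) (nat_lit 0) (XT.lf (nat_lit 0) (nat_lit 7140791881) (nat_lit 152) (nat_lit 9888571361) (nat_lit 228) (nat_lit 38353487690) (nat_lit 19) (nat_lit 5) (nat_lit 21) (nat_lit 5) (nat_lit 22) (nat_lit 5) (nat_lit 283) (nat_lit 258) (nat_lit 179)) (XT.nd (nat_lit 78) (nat_lit 152) (nat_lit 0) (XT.lf (nat_lit 0) (nat_lit 28940925331) (nat_lit 228) (nat_lit 19254978325) (nat_lit 76) (nat_lit 10516676872) (nat_lit 19) (nat_lit 5) (nat_lit 22) (nat_lit 5) (nat_lit 20) (nat_lit 5) (nat_lit 284) (nat_lit 258) (nat_lit 178)) (XT.lf (nat_lit 0) (nat_lit 12266422410) (nat_lit 152) (nat_lit 29890296752) (nat_lit 228) (nat_lit 20134422863) (nat_lit 17) (nat_lit 5) (nat_lit 19) (nat_lit 5) (nat_lit 20) (nat_lit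 5) (nat_lit 285) (nat_lit 258) (nat_lit 177))))) (XT.nd (nat_lit 156) (nat_lit 152) (nat_lit 0) (XT.nd (nat_lit 78) (nat_lit 152) (nat_lit 0) (XT.lf (nat_lit 0) (nat_lit 46987071794) (nat_lit 152) (nat_lit 9771525733) (nat_lit 228) (nat_lit 9380967333) (nat_lit 17) (nat_lit 5) (nat_lit 19) (nat_lit 5) (nat_lit 20) (nat_lit 5) (nat_lit 286) (nat_lit 258) (nat_lit 176)) (XT.lf (nat_lit 0) (nat_lit 2574171650) (nat_lit 152) (nat_lit 55861150816) (nat_lit 76) (nat_lit 11838168008) (nat_lit 15) (nat_lit 5) (nat_lit 17) (nat_lit 5) (nat_lit 16) (nat_lit 5) (nat_lit 287) (nat_lit 258) (nat_lit 175))) (XT.nd (nat_lit 78) (nat_lit 152) (nat_lit 0) (XT.lf (nat_lit 0) (nat_lit 15659363334) (nat_lit 152) (nat_lit 23712949450) (nat_lit 76) (nat_lit 35333027050) (nat_lit 15) (nat_lit 5) (nat_lit 17) (nat_lit 5) (nat_lit 16) (nat_lit 5) (nat_lit 288) (nat_lit 258) (nat_lit 174)) (XT.nd (nat_lit 78)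 (nat_lit 0) (nat_lit 0) (XT.lf (nat_lit 0) (nat_lit 11362086487) (nat_lit 152) (nat_lit 18601170463) (nat_lit 228) (nat_lit 49519899073) (nat_lit 13) (nat_lit 5) (nat_lit 15) (nat_lit 5) (nat_lit 16) (nat_lit 5) (nat_lit 289) (nat_lit 258) (nat_lit 173)) (XT.lf (nat_lit 0) (nat_lit 45885843830) (nat_lit 228) (nat_lit 34607759543) (nat_lit 76) (nat_lit 4125887277) (nat_lit 13) (nat_lit 5) (nat_lit 16) (nat_lit 5) (nat_lit 14) (nat_lit 4) (nat_lit 290) (nat_lit 258) (nat_lit 172))))))))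
noncomputable def xc86 : XT := (XT.nd (nat_lit 1404) (nat_lit 228) (nat_lit 0) (XT.nd (nat_lit 702) (nat_lit 228) (nat_lit 0) (XT.nd (nat_lit 312) (nat_lit 76) (nat_lit 0) (XT.nd (nat_lit 156) (nat_lit 228) (nat_lit 0) (XT.nd (nat_lit 78) (nat_lit 0) (nat_lit 0) (XT.lf (nat_lit 0) (nat_lit 1306898355) (nat_lit 76) (nat_lit 62104507200) (nat_lit 152) (nat_lit 26738879421) (nat_lit 12) (nat_lit 5) (nat_lit 13) (nat_lit 5) (nat_lit 14) (nat_lit 4) (nat_lit 291) (nat_lit 258) (nat_lit 171)) (XT.lf (nat_lit 0) (nat_lit 41323007879) (nat_lit 76) (nat_lit 41614207037) (nat_lit 152) (nat_lit 13156428284) (nat_lit 12) (nat_lit 5) (nat_lit 13) (nat_lit 5) (nat_lit 14) (nat_lit 4) (nat_lit 292) (nat_lit 258) (nat_lit 170))) (XT.nd (nat_lit 78) (nat_lit 152) (nat_lit 0) (XT.lf (nat_lit 0) (nat_lit 1459827545) (nat_lit 152) (nat_lit 18002827604) (nat_lit 76) (nat_lit 83048862274) (nat_lit 11) (nat_lit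 5) (nat_lit 13) (nat_lit 5) (nat_lit 12) (nat_lit 5) (nat_lit 293) (nat_lit 258) (nat_lit 169)) (XT.lf (nat_lit 0) (nat_lit 17211898317) (nat_lit 228) (nat_lit 87305441428) (nat_lit 76) (nat_lit 4893333864) (nat_lit 9) (nat_lit 5) (nat_lit 12) (nat_lit 5) (nat_lit 10) (nat_lit 4) (nat_lit 294) (nat_lit 258) (nat_lit 168)))) (XT.nd (nat_lit 156) (nat_lit 76) (nat_lit 0) (XT.nd (nat_lit 78) (nat_lit 0) (nat_lit 0) (XT.lf (nat_lit 0) (nat_lit 34867158177) (nat_lit 228) (nat_lit 51121079624) (nat_lit 76) (nat_lit 30841381243) (nat_lit 9) (nat_lit 5) (nat_lit 12) (nat_lit 5) (nat_lit 10) (nat_lit 4) (nat_lit 295) (nat_lit 258) (nat_lit 167)) (XT.lf (nat_lit 0) (nat_lit 53931235975) (nat_lit 228) (nat_lit 12047980240) (nat_lit 76) (nat_lit 58863051383) (nat_lit 9) (nat_lit 5) (nat_lit 12) (nat_lit 5) (nat_lit 10) (nat_lit 4) (nat_lit 296) (nat_lit 258) (nat_lit 166))) (XT.nd (nat_lit 78) (nat_lit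 0) (nat_lit 0) (XT.lf (nat_lit 0) (nat_lit 31142144115) (nat_lit 76) (nat_lit 43861176053) (nat_lit 152) (nat_lit 58468470655) (nat_lit 8) (nat_lit 5) (nat_lit 9) (nat_lit 5) (nat_lit 10) (nat_lit 4) (nat_lit 297) (nat_lit 258) (nat_lit 165)) (XT.nd (nat_lit 78) (nat_lit 0) (nat_lit 0) (XT.lf (nat_lit 0) (nat_lit 78212383726) (nat_lit 76) (nat_lit 19755483426) (nat_lit 152) (nat_lit 44813480245) (nat_lit 8) (nat_lit 5) (nat_lit 9) (nat_lit 5) (nat_lit 10) (nat_lit 4) (nat_lit 298) (nat_lit 258) (nat_lit 164)) (XT.lf (nat_lit 0) (nat_lit 122864637305) (nat_lit 152) (nat_lit 23890504907) (nat_lit 0) (nat_lit 6075779142) (nat_lit 8) (nat_lit 5) (nat_lit 10) (nat_lit 4) (nat_lit 8) (nat_lit 4) (nat_lit 299) (nat_lit 258) (nat_lit 163)))))) (XT.nd (nat_lit 312) (nat_lit 76) (nat_lit 0) (XT.nd (nat_lit 156) (nat_lit 0) (nat_lit 0) (XT.nd (nat_lit 78) (nat_lit 76) (nat_lit 0) (XT.lf (nat_lit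 0) (nat_lit 20355957600) (nat_lit 76) (nat_lit 130045370276) (nat_lit 76) (nat_lit 13250729806) (nat_lit 7) (nat_lit 4) (nat_lit 8) (nat_lit 5) (nat_lit 8) (nat_lit 4) (nat_lit 300) (nat_lit 258) (nat_lit 162)) (XT.lf (nat_lit 0) (nat_lit 5068689767) (nat_lit 152) (nat_lit 106409180433) (nat_lit 76) (nat_lit 63836254928) (nat_lit 6) (nat_lit 5) (nat_lit 8) (nat_lit 5) (nat_lit 7) (nat_lit 4) (nat_lit 301) (nat_lit 258) (nat_lit 161))) (XT.nd (nat_lit 78) (nat_lit 0) (nat_lit 0) (XT.lf (nat_lit 0) (nat_lit 24393163266) (nat_lit 152) (nat_lit 66798967154) (nat_lit 76) (nat_lit 96705983630) (nat_lit 6) (nat_lit 5) (nat_lit 8) (nat_lit 5) (nat_lit 7) (nat_lit 4) (nat_lit 302) (nat_lit 258) (nat_lit 160)) (XT.lf (nat_lit 0) (nat_lit 45261312196) (nat_lit 152) (nat_lit 24023852029) (nat_lit 76) (nat_lit 132203776064) (nat_lit 6) (nat_lit 5) (nat_lit 8) (nat_lit 5) (nat_lit 7) (nat_lit 4) (nat_lit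 303) (nat_lit 258) (nat_lit 159)))) (XT.nd (nat_lit 156) (nat_lit 0) (nat_lit 0) (XT.nd (nat_lit 78) (nat_lit 0) (nat_lit 0) (XT.lf (nat_lit 0) (nat_lit 22902675759) (nat_lit 76) (nat_lit 45251698854) (nat_lit 152) (nat_lit 147994888713) (nat_lit 5) (nat_lit 5) (nat_lit 6) (nat_lit 5) (nat_lit 7) (nat_lit 4) (nat_lit 304) (nat_lit 258) (nat_lit 158)) (XT.lf (nat_lit 0) (nat_lit 74437742125) (nat_lit 76) (nat_lit 18857608930) (nat_lit 152) (nat_lit 138666241195) (nat_lit 5) (nat_lit 5) (nat_lit 6) (nat_lit 5) (nat_lit 7) (nat_lit 4) (nat_lit 305) (nat_lit 258) (nat_lit 157))) (XT.nd (nat_lit 78) (nat_lit 0) (nat_lit 0) (XT.lf (nat_lit 0) (nat_lit 120596354990) (nat_lit 152) (nat_lit 119097212206) (nat_lit 0) (nat_lit 9337906063) (nat_lit 5) (nat_lit 5) (nat_lit 7) (nat_lit 4) (nat_lit 5) (nat_lit 4) (nat_lit 306) (nat_lit 258) (nat_lit 156)) (XT.nd (nat_lit 78) (nat_lit 0) (nat_lit 0)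 (XT.lf (nat_lit 0) (nat_lit 150397669389) (nat_lit 152) (nat_lit 77917459643) (nat_lit 0) (nat_lit 39136007205) (nat_lit 5) (nat_lit 5) (nat_lit 7) (nat_lit 4) (nat_lit 5) (nat_lit 4) (nat_lit 307) (nat_lit 258) (nat_lit 155)) (XT.lf (nat_lit 0) (nat_lit 182581474512) (nat_lit 152) (nat_lit 33446144152) (nat_lit 0) (nat_lit 71316837089) (nat_lit 5) (nat_lit 5) (nat_lit 7) (nat_lit 4) (nat_lit 5) (nat_lit 4) (nat_lit 308) (nat_lit 258) (nat_lit 154))))))) (XT.nd (nat_lit 702) (nat_lit 0) (nat_lit 0) (XT.nd (nat_lit 312) (nat_lit 152) (nat_lit 0) (XT.nd (nat_lit 156) (nat_lit 0) (nat_lit 0) (XT.nd (nat_lit 78) (nat_lit 0) (nat_lit 0) (XT.lf (nat_lit 0) (nat_lit 15062357496) (nat_lit 76) (nat_lit 202511297319) (nat_lit 76) (nat_lit 91243905047) (nat_lit 4) (nat_lit 4) (nat_lit 5) (nat_lit 5) (nat_lit 5) (nat_lit 4) (nat_lit 309) (nat_lit 258) (nat_lit 153)) (XT.lf (nat_lit 0) (nat_lit 68643395072)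 (nat_lit 76) (nat_lit 187303001653) (nat_lit 76) (nat_lit 76033058594) (nat_lit 4) (nat_lit 4) (nat_lit 5) (nat_lit 5) (nat_lit 5) (nat_lit 4) (nat_lit 310) (nat_lit 258) (nat_lit 152))) (XT.nd (nat_lit 78) (nat_lit 0) (nat_lit 0) (XT.lf (nat_lit 0) (nat_lit 126508605264) (nat_lit 76) (nat_lit 170879035068) (nat_lit 76) (nat_lit 59606730169) (nat_lit 4) (nat_lit 4) (nat_lit 5) (nat_lit 5) (nat_lit 5) (nat_lit 4) (nat_lit 311) (nat_lit 258) (nat_lit 151)) (XT.lf (nat_lit 0) (nat_lit 189000893020) (nat_lit 76) (nat_lit 153142070354) (nat_lit 76) (nat_lit 41867578566) (nat_lit 4) (nat_lit 4) (nat_lit 5) (nat_lit 5) (nat_lit 5) (nat_lit 4) (nat_lit 312) (nat_lit 258) (nat_lit 150)))) (XT.nd (nat_lit 156) (nat_lit 152) (nat_lit 0) (XT.nd (nat_lit 78) (nat_lit 0) (nat_lit 0) (XT.lf (nat_lit 0) (nat_lit 256490583008) (nat_lit 76) (nat_lit 133986999572) (nat_lit 76) (nat_lit 22710482887) (nat_lit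 4) (nat_lit 4) (nat_lit 5) (nat_lit 5) (nat_lit 5) (nat_lit 4) (nat_lit 313) (nat_lit 258) (nat_lit 149)) (XT.lf (nat_lit 0) (nat_lit 329377614132) (nat_lit 76) (nat_lit 113300311192) (nat_lit 76) (nat_lit 2021919602) (nat_lit 4) (nat_lit 4) (nat_lit 5) (nat_lit 5) (nat_lit 5) (nat_lit 4) (nat_lit 314) (nat_lit 258) (nat_lit 148))) (XT.nd (nat_lit 78) (nat_lit 76) (nat_lit 0) (XT.lf (nat_lit 0) (nat_lit 19670320550) (nat_lit 152) (nat_lit 70955970483) (nat_lit 76) (nat_lit 388090462593) (nat_lit 3) (nat_lit 5) (nat_lit 5) (nat_lit 5) (nat_lit 4) (nat_lit 4) (nat_lit 315) (nat_lit 258) (nat_lit 147)) (XT.nd (nat_lit 78) (nat_lit 76) (nat_lit 0) (XT.lf (nat_lit 0) (nat_lit 43027135809) (nat_lit 152) (nat_lit 23076106632) (nat_lit 76) (nat_lit 449350114993) (nat_lit 3) (nat_lit 5) (nat_lit 5) (nat_lit 5) (nat_lit 4) (nat_lit 4) (nat_lit 316) (nat_lit 258) (nat_lit 146)) (XT.lf (nat_lit 0)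 (nat_lit 29579386201) (nat_lit 76) (nat_lit 39134081896) (nat_lit 152) (nat_lit 486392374180) (nat_lit 2) (nat_lit 5) (nat_lit 3) (nat_lit 5) (nat_lit 4) (nat_lit 4) (nat_lit 317) (nat_lit 258) (nat_lit 145)))))) (XT.nd (nat_lit 32994) (nat_lit 0) (nat_lit 4408) (XT.nd (nat_lit 156) (nat_lit 0) (nat_lit 0) (XT.nd (nat_lit 78) (nat_lit 0) (nat_lit 0) (XT.lf (nat_lit 0) (nat_lit 87269938121) (nat_lit 76) (nat_lit 9585934870) (nat_lit 152) (nat_lit 501054595843) (nat_lit 2) (nat_lit 5) (nat_lit 3) (nat_lit 5) (nat_lit 4) (nat_lit 4) (nat_lit 318) (nat_lit 258) (nat_lit 144)) (XT.lf (nat_lit 0) (nat_lit 127597488550) (nat_lit 152) (nat_lit 494913648671) (nat_lit 0) (nat_lit 21610938512) (nat_lit 2) (nat_lit 5) (nat_lit 4) (nat_lit 4) (nat_lit 2) (nat_lit 4) (nat_lit 319) (nat_lit 258) (nat_lit 143))) (XT.nd (nat_lit 32760) (nat_lit 0) (nat_lit 4408) (XT.lf (nat_lit 0) (nat_lit 160959371438)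 (nat_lit 152) (nat_lit 478091497740) (nat_lit 0) (nat_lit 54971696154) (nat_lit 2) (nat_lit 5) (nat_lit 4) (nat_lit 4) (nat_lit 2) (nat_lit 4) (nat_lit 320) (nat_lit 258) (nat_lit 142)) (XT.lf (nat_lit 0) (nat_lit 59518297) (nat_lit 0) (nat_lit 59518297) (nat_lit 684) (nat_lit 8838299896) (nat_lit 60) (nat_lit 5) (nat_lit 60) (nat_lit 3) (nat_lit 69) (nat_lit 3) (nat_lit 259) (nat_lit 259) (nat_lit 202)))) (XT.nd (nat_lit 156) (nat_lit 0) (nat_lit 76) (XT.nd (nat_lit 78) (nat_lit 0) (nat_lit 76) (XT.lf (nat_lit 0) (nat_lit 725019790) (nat_lit 684) (nat_lit 6380920663) (nat_lit 760) (nat_lit 11500166338) (nat_lit 60) (nat_lit 5) (nat_lit 69) (nat_lit 3) (nat_lit 70) (nat_lit 5) (nat_lit 260) (nat_lit 259) (nat_lit 201)) (XT.lf (nat_lit 0) (nat_lit 1394590718) (nat_lit 684) (nat_lit 13300001514) (nat_lit 760) (nat_lit 4651207900) (nat_lit 61) (nat_lit 5) (nat_lit 70) (nat_lit 5) (nat_lit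 71) (nat_lit 5) (nat_lit 261) (nat_lit 259) (nat_lit 200))) (XT.nd (nat_lit 78) (nat_lit 0) (nat_lit 76) (XT.lf (nat_lit 0) (nat_lit 2323619345) (nat_lit 684) (nat_lit 583593715) (nat_lit 760) (nat_lit 17227280033) (nat_lit 61) (nat_lit 5) (nat_lit 70) (nat_lit 5) (nat_lit 71) (nat_lit 5) (nat_lit 262) (nat_lit 259) (nat_lit 199)) (XT.nd (nat_lit 78) (nat_lit 0) (nat_lit 76) (XT.lf (nat_lit 0) (nat_lit 3670879475) (nat_lit 684) (nat_lit 7565696139) (nat_lit 760) (nat_lit 9732620373) (nat_lit 62) (nat_lit 5) (nat_lit 71) (nat_lit 5) (nat_lit 72) (nat_lit 5) (nat_lit 263) (nat_lit 259) (nat_lit 198)) (XT.lf (nat_lit 0) (nat_lit 5292557991) (nat_lit 684) (nat_lit 15075434851) (nat_lit 760) (nat_lit 1494452204) (nat_lit 63) (nat_lit 5) (nat_lit 72) (nat_lit 5) (nat_lit 73) (nat_lit 5) (nat_lit 264) (nat_lit 259) (nat_lit 197))))))))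
noncomputable def xc87 : XT := (XT.nd (nat_lit 1404) (nat_lit 1140) (nat_lit 0) (XT.nd (nat_lit 702) (nat_lit 1292) (nat_lit 0) (XT.nd (nat_lit 312) (nat_lit 912) (nat_lit 0) (XT.nd (nat_lit 156) (nat_lit 912) (nat_lit 0) (XT.nd (nat_lit 78) (nat_lit 0) (nat_lit 76) (XT.lf (nat_lit 0) (nat_lit 7345765985) (nat_lit 684) (nat_lit 471396378) (nat_lit 760) (nat_lit 14994996177) (nat_lit 63) (nat_lit 5) (nat_lit 72) (nat_lit 5) (nat_lit 73) (nat_lit 5) (nat_lit 265) (nat_lit 259) (nat_lit 196)) (XT.lf (nat_lit 0) (nat_lit 9883425787) (nat_lit 684) (nat_lit 8129964589) (nat_lit 76) (nat_lit 5808536267) (nat_lit 64) (nat_lit 5) (nat_lit 73) (nat_lit 5) (nat_lit 65) (nat_lit 5) (nat_lit 266) (nat_lit 259) (nat_lit 195))) (XT.nd (nat_lit 78) (nat_lit 304) (nat_lit 0) (XT.lf (nat_lit 0) (nat_lit 8372793018) (nat_lit 684) (nat_lit 4503461305) (nat_lit 760) (nat_lit 12023694895) (nat_lit 55) (nat_lit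 5) (nat_lit 64) (nat_lit 5) (nat_lit 65) (nat_lit 5) (nat_lit 267) (nat_lit 259) (nat_lit 194)) (XT.lf (nat_lit 0) (nat_lit 260822685) (nat_lit 304) (nat_lit 16135636619) (nat_lit 380) (nat_lit 9653431624) (nat_lit 51) (nat_lit 5) (nat_lit 55) (nat_lit 5) (nat_lit 56) (nat_lit 5) (nat_lit 268) (nat_lit 259) (nat_lit 193)))) (XT.nd (nat_lit 156) (nat_lit 608) (nat_lit 0) (XT.nd (nat_lit 78) (nat_lit 304) (nat_lit 0) (XT.lf (nat_lit 0) (nat_lit 18887626170) (nat_lit 304) (nat_lit 1656757159) (nat_lit 380) (nat_lit 6730208802) (nat_lit 51) (nat_lit 5) (nat_lit 55) (nat_lit 5) (nat_lit 56) (nat_lit 5) (nat_lit 269) (nat_lit 259) (nat_lit 192)) (XT.lf (nat_lit 0) (nat_lit 10509809583) (nat_lit 304) (nat_lit 14881421832) (nat_lit 380) (nat_lit 3187747670) (nat_lit 47) (nat_lit 5) (nat_lit 51) (nat_lit 5) (nat_lit 52) (nat_lit 5) (nat_lit 270) (nat_lit 259) (nat_lit 191))) (XT.nd (nat_lit 78)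 (nat_lit 304) (nat_lit 0) (XT.lf (nat_lit 0) (nat_lit 805098155) (nat_lit 304) (nat_lit 28764102781) (nat_lit 76) (nat_lit 408703934) (nat_lit 43) (nat_lit 5) (nat_lit 47) (nat_lit 5) (nat_lit 44) (nat_lit 5) (nat_lit 271) (nat_lit 259) (nat_lit 190)) (XT.nd (nat_lit 78) (nat_lit 304) (nat_lit 0) (XT.lf (nat_lit 0) (nat_lit 5564196721) (nat_lit 304) (nat_lit 9113710306) (nat_lit 76) (nat_lit 16780351760) (nat_lit 43) (nat_lit 5) (nat_lit 47) (nat_lit 5) (nat_lit 44) (nat_lit 5) (nat_lit 272) (nat_lit 259) (nat_lit 189)) (XT.lf (nat_lit 0) (nat_lit 10911395924) (nat_lit 380) (nat_lit 20578843641) (nat_lit 76) (nat_lit 1556481321) (nat_lit 39) (nat_lit 5) (nat_lit 44) (nat_lit 5) (nat_lit 40) (nat_lit 5) (nat_lit 273) (nat_lit 259) (nat_lit 188)))))) (XT.nd (nat_lit 312) (nat_lit 760) (nat_lit 0) (XT.nd (nat_lit 156) (nat_lit 304) (nat_lit 0) (XT.nd (nat_lit 78) (nat_lit 0) (nat_lit 0)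 (XT.lf (nat_lit 0) (nat_lit 1118447917) (nat_lit 228) (nat_lit 15982144716) (nat_lit 304) (nat_lit 17641001154) (nat_lit 36) (nat_lit 5) (nat_lit 39) (nat_lit 5) (nat_lit 40) (nat_lit 5) (nat_lit 274) (nat_lit 259) (nat_lit 187)) (XT.lf (nat_lit 0) (nat_lit 24149791126) (nat_lit 304) (nat_lit 11299910880) (nat_lit 76) (nat_lit 1104152798) (nat_lit 36) (nat_lit 5) (nat_lit 40) (nat_lit 5) (nat_lit 37) (nat_lit 5) (nat_lit 275) (nat_lit 259) (nat_lit 186))) (XT.nd (nat_lit 78) (nat_lit 76) (nat_lit 0) (XT.lf (nat_lit 0) (nat_lit 12940616753) (nat_lit 228) (nat_lit 19283234867) (nat_lit 304) (nat_lit 6264237282) (nat_lit 33) (nat_lit 5) (nat_lit 36) (nat_lit 5) (nat_lit 37) (nat_lit 5) (nat_lit 276) (nat_lit 259) (nat_lit 185)) (XT.lf (nat_lit 0) (nat_lit 544887395) (nat_lit 304) (nat_lit 1065324316) (nat_lit 76) (nat_lit 38957105089) (nat_lit 32) (nat_lit 5) (nat_lit 36) (nat_lit 5) (nat_lit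 33) (nat_lit 5) (nat_lit 277) (nat_lit 259) (nat_lit 184)))) (XT.nd (nat_lit 156) (nat_lit 304) (nat_lit 0) (XT.nd (nat_lit 78) (nat_lit 228) (nat_lit 0) (XT.lf (nat_lit 0) (nat_lit 8361361930) (nat_lit 304) (nat_lit 16976150334) (nat_lit 76) (nat_lit 17436163074) (nat_lit 29) (nat_lit 5) (nat_lit 33) (nat_lit 5) (nat_lit 30) (nat_lit 5) (nat_lit 278) (nat_lit 259) (nat_lit 183)) (XT.lf (nat_lit 0) (nat_lit 9971529168) (nat_lit 228) (nat_lit 7024344097) (nat_lit 304) (nat_lit 28151062464) (nat_lit 26) (nat_lit 5) (nat_lit 29) (nat_lit 5) (nat_lit 30) (nat_lit 5) (nat_lit 279) (nat_lit 259) (nat_lit 182))) (XT.nd (nat_lit 78) (nat_lit 304) (nat_lit 0) (XT.lf (nat_lit 0) (nat_lit 26812292593) (nat_lit 304) (nat_lit 8229887176) (nat_lit 76) (nat_lit 12643346783) (nat_lit 26) (nat_lit 5) (nat_lit 30) (nat_lit 5) (nat_lit 27) (nat_lit 5) (nat_lit 280) (nat_lit 259) (nat_lit 181)) (XT.nd (nat_lit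 78) (nat_lit 152) (nat_lit 0) (XT.lf (nat_lit 0) (nat_lit 21427648833) (nat_lit 152) (nat_lit 16431459968) (nat_lit 228) (nat_lit 12545866631) (nat_lit 24) (nat_lit 5) (nat_lit 26) (nat_lit 5) (nat_lit 27) (nat_lit 5) (nat_lit 281) (nat_lit 259) (nat_lit 180)) (XT.lf (nat_lit 0) (nat_lit 357822832) (nat_lit 152) (nat_lit 49632881463) (nat_lit 228) (nat_lit 3341247338) (nat_lit 22) (nat_lit 5) (nat_lit 24) (nat_lit 5) (nat_lit 25) (nat_lit 5) (nat_lit 282) (nat_lit 259) (nat_lit 179))))))) (XT.nd (nat_lit 702) (nat_lit 456) (nat_lit 0) (XT.nd (nat_lit 312) (nat_lit 304) (nat_lit 0) (XT.nd (nat_lit 156) (nat_lit 152) (nat_lit 0) (XT.nd (nat_lit 78) (nat_lit 152) (nat_lit 0) (XT.lf (nat_lit 0) (nat_lit 7171340314) (nat_lit 228) (nat_lit 23792332627) (nat_lit 76) (nat_lit 25485139756) (nat_lit 21) (nat_lit 5) (nat_lit 24) (nat_lit 5) (nat_lit 22) (nat_lit 5) (nat_lit 283) (nat_lit 259) (nat_lit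 178)) (XT.lf (nat_lit 0) (nat_lit 7910998251) (nat_lit 152) (nat_lit 10615218481) (nat_lit 228) (nat_lit 41280168919) (nat_lit 19) (nat_lit 5) (nat_lit 21) (nat_lit 5) (nat_lit 22) (nat_lit 5) (nat_lit 284) (nat_lit 259) (nat_lit 177))) (XT.nd (nat_lit 78) (nat_lit 152) (nat_lit 0) (XT.lf (nat_lit 0) (nat_lit 31381672040) (nat_lit 228) (nat_lit 20605533714) (nat_lit 76) (nat_lit 11415766718) (nat_lit 19) (nat_lit 5) (nat_lit 22) (nat_lit 5) (nat_lit 20) (nat_lit 5) (nat_lit 285) (nat_lit 259) (nat_lit 176)) (XT.lf (nat_lit 0) (nat_lit 13429328740) (nat_lit 152) (nat_lit 32218941533) (nat_lit 228) (nat_lit 21619896819) (nat_lit 17) (nat_lit 5) (nat_lit 19) (nat_lit 5) (nat_lit 20) (nat_lit 5) (nat_lit 286) (nat_lit 259) (nat_lit 175)))) (XT.nd (nat_lit 156) (nat_lit 152) (nat_lit 0) (XT.nd (nat_lit 78) (nat_lit 152) (nat_lit 0) (XT.lf (nat_lit 0) (nat_lit 50914178776) (nat_lit 152) (nat_lit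 10495304311) (nat_lit 228) (nat_lit 10015444838) (nat_lit 17) (nat_lit 5) (nat_lit 19) (nat_lit 5) (nat_lit 20) (nat_lit 5) (nat_lit 287) (nat_lit 259) (nat_lit 174)) (XT.lf (nat_lit 0) (nat_lit 2887552930) (nat_lit 152) (nat_lit 60160713825) (nat_lit 76) (nat_lit 12841472875) (nat_lit 15) (nat_lit 5) (nat_lit 17) (nat_lit 5) (nat_lit 16) (nat_lit 5) (nat_lit 288) (nat_lit 259) (nat_lit 173))) (XT.nd (nat_lit 78) (nat_lit 152) (nat_lit 0) (XT.lf (nat_lit 0) (nat_lit 17011600872) (nat_lit 152) (nat_lit 25453199243) (nat_lit 76) (nat_lit 38211753868) (nat_lit 15) (nat_lit 5) (nat_lit 17) (nat_lit 5) (nat_lit 16) (nat_lit 5) (nat_lit 289) (nat_lit 259) (nat_lit 172)) (XT.nd (nat_lit 78) (nat_lit 0) (nat_lit 0) (XT.lf (nat_lit 0) (nat_lit 12421025834) (nat_lit 152) (nat_lit 20033752117) (nat_lit 228) (nat_lit 53382086593) (nat_lit 13) (nat_lit 5) (nat_lit 15) (nat_lit 5) (nat_lit 16) (nat_lit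 5) (nat_lit 290) (nat_lit 259) (nat_lit 171)) (XT.lf (nat_lit 0) (nat_lit 49644977208) (nat_lit 228) (nat_lit 37233741703) (nat_lit 76) (nat_lit 4505713123) (nat_lit 13) (nat_lit 5) (nat_lit 16) (nat_lit 5) (nat_lit 14) (nat_lit 4) (nat_lit 291) (nat_lit 259) (nat_lit 170)))))) (XT.nd (nat_lit 390) (nat_lit 152) (nat_lit 0) (XT.nd (nat_lit 156) (nat_lit 228) (nat_lit 0) (XT.nd (nat_lit 78) (nat_lit 0) (nat_lit 0) (XT.lf (nat_lit 0) (nat_lit 1547889927) (nat_lit 76) (nat_lit 67020285938) (nat_lit 152) (nat_lit 28789749596) (nat_lit 12) (nat_lit 5) (nat_lit 13) (nat_lit 5) (nat_lit 14) (nat_lit 4) (nat_lit 292) (nat_lit 259) (nat_lit 169)) (XT.lf (nat_lit 0) (nat_lit 44755181568) (nat_lit 76) (nat_lit 44894656713) (nat_lit 152) (nat_lit 14127238677) (nat_lit 12) (nat_lit 5) (nat_lit 13) (nat_lit 5) (nat_lit 14) (nat_lit 4) (nat_lit 293) (nat_lit 259) (nat_lit 168))) (XT.nd (nat_lit 78)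 (nat_lit 152) (nat_lit 0) (XT.lf (nat_lit 0) (nat_lit 1649844152) (nat_lit 152) (nat_lit 19323502766) (nat_lit 76) (nat_lit 89735275716) (nat_lit 11) (nat_lit 5) (nat_lit 13) (nat_lit 5) (nat_lit 12) (nat_lit 5) (nat_lit 294) (nat_lit 259) (nat_lit 167)) (XT.nd (nat_lit 78) (nat_lit 0) (nat_lit 0) (XT.lf (nat_lit 0) (nat_lit 18659140415) (nat_lit 228) (nat_lit 94172597358) (nat_lit 76) (nat_lit 5328132005) (nat_lit 9) (nat_lit 5) (nat_lit 12) (nat_lit 5) (nat_lit 10) (nat_lit 4) (nat_lit 295) (nat_lit 259) (nat_lit 166)) (XT.lf (nat_lit 0) (nat_lit 37721614380) (nat_lit 228) (nat_lit 55102173972) (nat_lit 76) (nat_lit 33348813439) (nat_lit 9) (nat_lit 5) (nat_lit 12) (nat_lit 5) (nat_lit 10) (nat_lit 4) (nat_lit 296) (nat_lit 259) (nat_lit 165))))) (XT.nd (nat_lit 156) (nat_lit 76) (nat_lit 0) (XT.nd (nat_lit 78) (nat_lit 76) (nat_lit 0) (XT.lf (nat_lit 0) (nat_lit 58305997398) (nat_lit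 228) (nat_lit 12911270491) (nat_lit 76) (nat_lit 63609245212) (nat_lit 9) (nat_lit 5) (nat_lit 12) (nat_lit 5) (nat_lit 10) (nat_lit 4) (nat_lit 297) (nat_lit 259) (nat_lit 164)) (XT.lf (nat_lit 0) (nat_lit 33729694112) (nat_lit 76) (nat_lit 47331191938) (nat_lit 152) (nat_lit 63085669343) (nat_lit 8) (nat_lit 5) (nat_lit 9) (nat_lit 5) (nat_lit 10) (nat_lit 4) (nat_lit 298) (nat_lit 259) (nat_lit 163))) (XT.nd (nat_lit 78) (nat_lit 76) (nat_lit 0) (XT.lf (nat_lit 0) (nat_lit 84558428561) (nat_lit 76) (nat_lit 21299923767) (nat_lit 152) (nat_lit 48342744809) (nat_lit 8) (nat_lit 5) (nat_lit 9) (nat_lit 5) (nat_lit 10) (nat_lit 4) (nat_lit 299) (nat_lit 259) (nat_lit 162)) (XT.nd (nat_lit 78) (nat_lit 76) (nat_lit 0) (XT.lf (nat_lit 0) (nat_lit 132743454437) (nat_lit 152) (nat_lit 25717254416) (nat_lit 0) (nat_lit 6594106437) (nat_lit 8) (nat_lit 5) (nat_lit 10) (nat_lit 4) (nat_lit 8)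 (nat_lit 4) (nat_lit 300) (nat_lit 259) (nat_lit 161)) (XT.lf (nat_lit 0) (nat_lit 22065253221) (nat_lit 76) (nat_lit 140415411351) (nat_lit 76) (nat_lit 14261105956) (nat_lit 7) (nat_lit 4) (nat_lit 8) (nat_lit 5) (nat_lit 8) (nat_lit 4) (nat_lit 301) (nat_lit 259) (nat_lit 160))))))))
noncomputable def xc88 : XT := (XT.nd (nat_lit 1404) (nat_lit 0) (nat_lit 0) (XT.nd (nat_lit 702) (nat_lit 152) (nat_lit 0) (XT.nd (nat_lit 312) (nat_lit 76) (nat_lit 0) (XT.nd (nat_lit 156) (nat_lit 76) (nat_lit 0) (XT.nd (nat_lit 78) (nat_lit 0) (nat_lit 0) (XT.lf (nat_lit 0) (nat_lit 5518714663) (nat_lit 152) (nat_lit 114845530514) (nat_lit 76) (nat_lit 68972703893) (nat_lit 6) (nat_lit 5) (nat_lit 8) (nat_lit 5) (nat_lit 7) (nat_lit 4) (nat_lit 302) (nat_lit 259) (nat_lit 159)) (XT.lf (nat_lit 0) (nat_lit 26385847545) (nat_lit 152) (nat_lit 72072158274) (nat_lit 76) (nat_lit 104469822109) (nat_lit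 6) (nat_lit 5) (nat_lit 8) (nat_lit 5) (nat_lit 7) (nat_lit 4) (nat_lit 303) (nat_lit 259) (nat_lit 158))) (XT.nd (nat_lit 78) (nat_lit 76) (nat_lit 0) (XT.lf (nat_lit 0) (nat_lit 48920394225) (nat_lit 152) (nat_lit 25880272920) (nat_lit 76) (nat_lit 142805411287) (nat_lit 6) (nat_lit 5) (nat_lit 8) (nat_lit 5) (nat_lit 7) (nat_lit 4) (nat_lit 304) (nat_lit 259) (nat_lit 157)) (XT.lf (nat_lit 0) (nat_lit 24797531094) (nat_lit 76) (nat_lit 48845520618) (nat_lit 152) (nat_lit 159796273149) (nat_lit 5) (nat_lit 5) (nat_lit 6) (nat_lit 5) (nat_lit 7) (nat_lit 4) (nat_lit 305) (nat_lit 259) (nat_lit 156)))) (XT.nd (nat_lit 156) (nat_lit 76) (nat_lit 0) (XT.nd (nat_lit 78) (nat_lit 0) (nat_lit 0) (XT.lf (nat_lit 0) (nat_lit 80450762675) (nat_lit 76) (nat_lit 20341852696) (nat_lit 152) (nat_lit 149724163954) (nat_lit 5) (nat_lit 5) (nat_lit 6) (nat_lit 5) (nat_lit 7) (nat_lit 4) (nat_lit 306)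 (nat_lit 259) (nat_lit 155)) (XT.lf (nat_lit 0) (nat_lit 130275560275) (nat_lit 152) (nat_lit 128570025218) (nat_lit 0) (nat_lit 10106776621) (nat_lit 5) (nat_lit 5) (nat_lit 7) (nat_lit 4) (nat_lit 5) (nat_lit 4) (nat_lit 307) (nat_lit 259) (nat_lit 154))) (XT.nd (nat_lit 78) (nat_lit 76) (nat_lit 0) (XT.lf (nat_lit 0) (nat_lit 162458646723) (nat_lit 152) (nat_lit 84099963856) (nat_lit 0) (nat_lit 42287108219) (nat_lit 5) (nat_lit 5) (nat_lit 7) (nat_lit 4) (nat_lit 5) (nat_lit 4) (nat_lit 308) (nat_lit 259) (nat_lit 153)) (XT.nd (nat_lit 78) (nat_lit 76) (nat_lit 0) (XT.lf (nat_lit 0) (nat_lit 197214995975) (nat_lit 152) (nat_lit 36074712944) (nat_lit 0) (nat_lit 77040906684) (nat_lit 5) (nat_lit 5) (nat_lit 7) (nat_lit 4) (nat_lit 5) (nat_lit 4) (nat_lit 309) (nat_lit 259) (nat_lit 152)) (XT.lf (nat_lit 0) (nat_lit 16312420939) (nat_lit 76) (nat_lit 218692833249) (nat_lit 76) (nat_lit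 98516382118) (nat_lit 4) (nat_lit 4) (nat_lit 5) (nat_lit 5) (nat_lit 5) (nat_lit 4) (nat_lit 310) (nat_lit 259) (nat_lit 151)))))) (XT.nd (nat_lit 312) (nat_lit 152) (nat_lit 0) (XT.nd (nat_lit 156) (nat_lit 0) (nat_lit 0) (XT.nd (nat_lit 78) (nat_lit 0) (nat_lit 0) (XT.lf (nat_lit 0) (nat_lit 74176602644) (nat_lit 76) (nat_lit 202269308586) (nat_lit 76) (nat_lit 82090670566) (nat_lit 4) (nat_lit 4) (nat_lit 5) (nat_lit 5) (nat_lit 5) (nat_lit 4) (nat_lit 311) (nat_lit 259) (nat_lit 150)) (XT.lf (nat_lit 0) (nat_lit 136667938098) (nat_lit 76) (nat_lit 184532753059) (nat_lit 76) (nat_lit 64352090142) (nat_lit 4) (nat_lit 4) (nat_lit 5) (nat_lit 5) (nat_lit 5) (nat_lit 4) (nat_lit 312) (nat_lit 259) (nat_lit 149))) (XT.nd (nat_lit 78) (nat_lit 0) (nat_lit 0) (XT.lf (nat_lit 0) (nat_lit 204156746325) (nat_lit 76) (nat_lit 165378061154) (nat_lit 76) (nat_lit 45195523333) (nat_lit 4) (nat_lit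 4) (nat_lit 5) (nat_lit 5) (nat_lit 5) (nat_lit 4) (nat_lit 313) (nat_lit 259) (nat_lit 148)) (XT.lf (nat_lit 0) (nat_lit 277042961004) (nat_lit 76) (nat_lit 144691723586) (nat_lit 76) (nat_lit 24507449742) (nat_lit 4) (nat_lit 4) (nat_lit 5) (nat_lit 5) (nat_lit 5) (nat_lit 4) (nat_lit 314) (nat_lit 259) (nat_lit 147)))) (XT.nd (nat_lit 156) (nat_lit 76) (nat_lit 0) (XT.nd (nat_lit 78) (nat_lit 76) (nat_lit 0) (XT.lf (nat_lit 0) (nat_lit 355758500443) (nat_lit 76) (nat_lit 122351154650) (nat_lit 76) (nat_lit 2165273378) (nat_lit 4) (nat_lit 4) (nat_lit 5) (nat_lit 5) (nat_lit 5) (nat_lit 4) (nat_lit 315) (nat_lit 259) (nat_lit 146)) (XT.lf (nat_lit 0) (nat_lit 21260437754) (nat_lit 152) (nat_lit 76603472235) (nat_lit 76) (nat_lit 419149333545) (nat_lit 3) (nat_lit 5) (nat_lit 5) (nat_lit 5) (nat_lit 4) (nat_lit 4) (nat_lit 316) (nat_lit 259) (nat_lit 145))) (XT.nd (nat_lit 78) (nat_lit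 76) (nat_lit 0) (XT.lf (nat_lit 0) (nat_lit 46484576636) (nat_lit 152) (nat_lit 24895365638) (nat_lit 76) (nat_lit 485308896364) (nat_lit 3) (nat_lit 5) (nat_lit 5) (nat_lit 5) (nat_lit 4) (nat_lit 4) (nat_lit 317) (nat_lit 259) (nat_lit 144)) (XT.nd (nat_lit 78) (nat_lit 0) (nat_lit 0) (XT.lf (nat_lit 0) (nat_lit 31971400644) (nat_lit 76) (nat_lit 42253684436) (nat_lit 152) (nat_lit 525288475481) (nat_lit 2) (nat_lit 5) (nat_lit 3) (nat_lit 5) (nat_lit 4) (nat_lit 4) (nat_lit 318) (nat_lit 259) (nat_lit 143)) (XT.lf (nat_lit 0) (nat_lit 94275295713) (nat_lit 76) (nat_lit 10342509648) (nat_lit 152) (nat_lit 541124807368) (nat_lit 2) (nat_lit 5) (nat_lit 3) (nat_lit 5) (nat_lit 4) (nat_lit 4) (nat_lit 319) (nat_lit 259) (nat_lit 142))))))) (XT.nd (nat_lit 33462) (nat_lit 0) (nat_lit 2584) (XT.nd (nat_lit 33072) (nat_lit 0) (nat_lit 4484) (XT.nd (nat_lit 32916) (nat_lit 0) (nat_lit 4408)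 (XT.nd (nat_lit 32838) (nat_lit 0) (nat_lit 4408) (XT.lf (nat_lit 0) (nat_lit 137817901841) (nat_lit 152) (nat_lit 534484244879) (nat_lit 0) (nat_lit 23349045395) (nat_lit 2) (nat_lit 5) (nat_lit 4) (nat_lit 4) (nat_lit 2) (nat_lit 4) (nat_lit 320) (nat_lit 259) (nat_lit 141)) (XT.lf (nat_lit 0) (nat_lit 206737773) (nat_lit 0) (nat_lit 206737773) (nat_lit 684) (nat_lit 9244950967) (nat_lit 60) (nat_lit 5) (nat_lit 60) (nat_lit 3) (nat_lit 69) (nat_lit 3) (nat_lit 260) (nat_lit 260) (nat_lit 200))) (XT.nd (nat_lit 78) (nat_lit 0) (nat_lit 76) (XT.lf (nat_lit 0) (nat_lit 1306524813) (nat_lit 684) (nat_lit 6594766397) (nat_lit 760) (nat_lit 12164812114) (nat_lit 60) (nat_lit 5) (nat_lit 69) (nat_lit 3) (nat_lit 70) (nat_lit 5) (nat_lit 261) (nat_lit 260) (nat_lit 199)) (XT.lf (nat_lit 0) (nat_lit 1992106151) (nat_lit 684) (nat_lit 14050454656) (nat_lit 760) (nat_lit 4824460705) (nat_lit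 61) (nat_lit 5) (nat_lit 70) (nat_lit 5) (nat_lit 71) (nat_lit 5) (nat_lit 262) (nat_lit 260) (nat_lit 198)))) (XT.nd (nat_lit 156) (nat_lit 0) (nat_lit 152) (XT.nd (nat_lit 78) (nat_lit 0) (nat_lit 76) (XT.lf (nat_lit 0) (nat_lit 2959460907) (nat_lit 684) (nat_lit 339959935) (nat_lit 760) (nat_lit 18421347781) (nat_lit 61) (nat_lit 5) (nat_lit 70) (nat_lit 5) (nat_lit 71) (nat_lit 5) (nat_lit 263) (nat_lit 260) (nat_lit 197)) (XT.lf (nat_lit 0) (nat_lit 4383271219) (nat_lit 684) (nat_lit 7868123889) (nat_lit 760) (nat_lit 10372561307) (nat_lit 62) (nat_lit 5) (nat_lit 71) (nat_lit 5) (nat_lit 72) (nat_lit 5) (nat_lit 264) (nat_lit 260) (nat_lit 196))) (XT.nd (nat_lit 78) (nat_lit 0) (nat_lit 0) (XT.lf (nat_lit 0) (nat_lit 6106588886) (nat_lit 684) (nat_lit 15968886660) (nat_lit 760) (nat_lit 1514730845) (nat_lit 63) (nat_lit 5) (nat_lit 72) (nat_lit 5) (nat_lit 73) (nat_lit 5) (nat_lit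 265) (nat_lit 260) (nat_lit 195)) (XT.nd (nat_lit 78) (nat_lit 0) (nat_lit 76) (XT.lf (nat_lit 0) (nat_lit 8295118242) (nat_lit 684) (nat_lit 219679403) (nat_lit 760) (nat_lit 16102672228) (nat_lit 63) (nat_lit 5) (nat_lit 72) (nat_lit 5) (nat_lit 73) (nat_lit 5) (nat_lit 266) (nat_lit 260) (nat_lit 194)) (XT.lf (nat_lit 0) (nat_lit 11012347529) (nat_lit 684) (nat_lit 8484116428) (nat_lit 76) (nat_lit 6212844431) (nat_lit 64) (nat_lit 5) (nat_lit 73) (nat_lit 5) (nat_lit 65) (nat_lit 5) (nat_lit 267) (nat_lit 260) (nat_lit 193)))))) (XT.nd (nat_lit 312) (nat_lit 836) (nat_lit 0) (XT.nd (nat_lit 156) (nat_lit 304) (nat_lit 0) (XT.nd (nat_lit 78) (nat_lit 304) (nat_lit 0) (XT.lf (nat_lit 0) (nat_lit 9325987327) (nat_lit 684) (nat_lit 4897983851) (nat_lit 760) (nat_lit 12650741299) (nat_lit 55) (nat_lit 5) (nat_lit 64) (nat_lit 5) (nat_lit 65) (nat_lit 5) (nat_lit 268) (nat_lit 260) (nat_lit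 192)) (XT.lf (nat_lit 0) (nat_lit 569739616) (nat_lit 304) (nat_lit 17436528011) (nat_lit 380) (nat_lit 10111458279) (nat_lit 51) (nat_lit 5) (nat_lit 55) (nat_lit 5) (nat_lit 56) (nat_lit 5) (nat_lit 269) (nat_lit 260) (nat_lit 191))) (XT.nd (nat_lit 78) (nat_lit 304) (nat_lit 0) (XT.lf (nat_lit 0) (nat_lit 20665350262) (nat_lit 304) (nat_lit 1798594456) (nat_lit 380) (nat_lit 6977655252) (nat_lit 51) (nat_lit 5) (nat_lit 55) (nat_lit 5) (nat_lit 56) (nat_lit 5) (nat_lit 270) (nat_lit 260) (nat_lit 190)) (XT.lf (nat_lit 0) (nat_lit 11620165531) (nat_lit 304) (nat_lit 16062004245) (nat_lit 380) (nat_lit 3169072498) (nat_lit 47) (nat_lit 5) (nat_lit 51) (nat_lit 5) (nat_lit 52) (nat_lit 5) (nat_lit 271) (nat_lit 260) (nat_lit 189)))) (XT.nd (nat_lit 156) (nat_lit 532) (nat_lit 0) (XT.nd (nat_lit 78) (nat_lit 0) (nat_lit 0) (XT.lf (nat_lit 0) (nat_lit 1119264994) (nat_lit 304) (nat_lit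 30784874560) (nat_lit 76) (nat_lit 458563421) (nat_lit 43) (nat_lit 5) (nat_lit 47) (nat_lit 5) (nat_lit 44) (nat_lit 5) (nat_lit 272) (nat_lit 260) (nat_lit 188)) (XT.lf (nat_lit 0) (nat_lit 6240590780) (nat_lit 304) (nat_lit 9583217831) (nat_lit 76) (nat_lit 18138671727) (nat_lit 43) (nat_lit 5) (nat_lit 47) (nat_lit 5) (nat_lit 44) (nat_lit 5) (nat_lit 273) (nat_lit 260) (nat_lit 187))) (XT.nd (nat_lit 78) (nat_lit 228) (nat_lit 0) (XT.lf (nat_lit 0) (nat_lit 12002785570) (nat_lit 380) (nat_lit 21965604808) (nat_lit 76) (nat_lit 1710332950) (nat_lit 39) (nat_lit 5) (nat_lit 44) (nat_lit 5) (nat_lit 40) (nat_lit 5) (nat_lit 274) (nat_lit 260) (nat_lit 186)) (XT.nd (nat_lit 78) (nat_lit 0) (nat_lit 0) (XT.lf (nat_lit 0) (nat_lit 1456190507) (nat_lit 228) (nat_lit 17218620095) (nat_lit 304) (nat_lit 18835050928) (nat_lit 36) (nat_lit 5) (nat_lit 39) (nat_lit 5) (nat_lit 40) (nat_lit 5)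 (nat_lit 275) (nat_lit 260) (nat_lit 185)) (XT.lf (nat_lit 0) (nat_lit 26273281636) (nat_lit 304) (nat_lit 11964395161) (nat_lit 76) (nat_lit 1230215445) (nat_lit 36) (nat_lit 5) (nat_lit 40) (nat_lit 5) (nat_lit 37) (nat_lit 5) (nat_lit 276) (nat_lit 260) (nat_lit 184))))))))
noncomputable def xc89 : XT := (XT.nd (nat_lit 1404) (nat_lit 608) (nat_lit 0) (XT.nd (nat_lit 702) (nat_lit 532) (nat_lit 0) (XT.nd (nat_lit 312) (nat_lit 532) (nat_lit 0) (XT.nd (nat_lit 156) (nat_lit 456) (nat_lit 0) (XT.nd (nat_lit 78) (nat_lit 76) (nat_lit 0) (XT.lf (nat_lit 0) (nat_lit 14204965931) (nat_lit 228) (nat_lit 20777692208) (nat_lit 304) (nat_lit 6574788895) (nat_lit 33) (nat_lit 5) (nat_lit 36) (nat_lit 5) (nat_lit 37) (nat_lit 5) (nat_lit 277) (nat_lit 260) (nat_lit 183)) (XT.lf (nat_lit 0) (nat_lit 759300039) (nat_lit 304) (nat_lit 932204691) (nat_lit 76) (nat_lit 42112088377) (nat_lit 32) (nat_lit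 5) (nat_lit 36) (nat_lit 5) (nat_lit 33) (nat_lit 5) (nat_lit 278) (nat_lit 260) (nat_lit 182))) (XT.nd (nat_lit 78) (nat_lit 228) (nat_lit 0) (XT.lf (nat_lit 0) (nat_lit 9192440393) (nat_lit 304) (nat_lit 18117528964) (nat_lit 76) (nat_lit 18876965649) (nat_lit 29) (nat_lit 5) (nat_lit 33) (nat_lit 5) (nat_lit 30) (nat_lit 5) (nat_lit 279) (nat_lit 260) (nat_lit 181)) (XT.lf (nat_lit 0) (nat_lit 10976546798) (nat_lit 228) (nat_lit 7532389741) (nat_lit 304) (nat_lit 30241597449) (nat_lit 26) (nat_lit 5) (nat_lit 29) (nat_lit 5) (nat_lit 30) (nat_lit 5) (nat_lit 280) (nat_lit 260) (nat_lit 180)))) (XT.nd (nat_lit 156) (nat_lit 380) (nat_lit 0) (XT.nd (nat_lit 78) (nat_lit 152) (nat_lit 0) (XT.lf (nat_lit 0) (nat_lit 29100086160) (nat_lit 304) (nat_lit 8689564875) (nat_lit 76) (nat_lit 13703126272) (nat_lit 26) (nat_lit 5) (nat_lit 30) (nat_lit 5) (nat_lit 27) (nat_lit 5) (nat_lit 281)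 (nat_lit 260) (nat_lit 179)) (XT.lf (nat_lit 0) (nat_lit 23331938178) (nat_lit 152) (nat_lit 17691098598) (nat_lit 228) (nat_lit 13407159264) (nat_lit 24) (nat_lit 5) (nat_lit 26) (nat_lit 5) (nat_lit 27) (nat_lit 5) (nat_lit 282) (nat_lit 260) (nat_lit 178))) (XT.nd (nat_lit 78) (nat_lit 228) (nat_lit 0) (XT.lf (nat_lit 0) (nat_lit 574311501) (nat_lit 152) (nat_lit 53544560048) (nat_lit 228) (nat_lit 3472804129) (nat_lit 22) (nat_lit 5) (nat_lit 24) (nat_lit 5) (nat_lit 25) (nat_lit 5) (nat_lit 283) (nat_lit 260) (nat_lit 177)) (XT.nd (nat_lit 78) (nat_lit 152) (nat_lit 0) (XT.lf (nat_lit 0) (nat_lit 7866712699) (nat_lit 228) (nat_lit 25517408497) (nat_lit 76) (nat_lit 27574172395) (nat_lit 21) (nat_lit 5) (nat_lit 24) (nat_lit 5) (nat_lit 22) (nat_lit 5) (nat_lit 284) (nat_lit 260) (nat_lit 176)) (XT.lf (nat_lit 0) (nat_lit 8714439684) (nat_lit 152) (nat_lit 11409190256) (nat_lit 228)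 (nat_lit 44461185154) (nat_lit 19) (nat_lit 5) (nat_lit 21) (nat_lit 5) (nat_lit 22) (nat_lit 5) (nat_lit 285) (nat_lit 260) (nat_lit 175)))))) (XT.nd (nat_lit 312) (nat_lit 228) (nat_lit 0) (XT.nd (nat_lit 156) (nat_lit 152) (nat_lit 0) (XT.nd (nat_lit 78) (nat_lit 152) (nat_lit 0) (XT.lf (nat_lit 0) (nat_lit 33999778406) (nat_lit 228) (nat_lit 22091216743) (nat_lit 76) (nat_lit 12378544255) (nat_lit 19) (nat_lit 5) (nat_lit 22) (nat_lit 5) (nat_lit 20) (nat_lit 5) (nat_lit 286) (nat_lit 260) (nat_lit 174)) (XT.lf (nat_lit 0) (nat_lit 14659361371) (nat_lit 152) (nat_lit 34742805486) (nat_lit 228) (nat_lit 23242081266) (nat_lit 17) (nat_lit 5) (nat_lit 19) (nat_lit 5) (nat_lit 20) (nat_lit 5) (nat_lit 287) (nat_lit 260) (nat_lit 173))) (XT.nd (nat_lit 78) (nat_lit 152) (nat_lit 0) (XT.lf (nat_lit 0) (nat_lit 55131467089) (nat_lit 152) (nat_lit 11285251461) (nat_lit 228) (nat_lit 10717229223)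 (nat_lit 17) (nat_lit 5) (nat_lit 19) (nat_lit 5) (nat_lit 20) (nat_lit 5) (nat_lit 288) (nat_lit 260) (nat_lit 172)) (XT.lf (nat_lit 0) (nat_lit 3210676119) (nat_lit 152) (nat_lit 64828398558) (nat_lit 76) (nat_lit 13917017236) (nat_lit 15) (nat_lit 5) (nat_lit 17) (nat_lit 5) (nat_lit 16) (nat_lit 5) (nat_lit 289) (nat_lit 260) (nat_lit 171)))) (XT.nd (nat_lit 156) (nat_lit 76) (nat_lit 0) (XT.nd (nat_lit 78) (nat_lit 152) (nat_lit 0) (XT.lf (nat_lit 0) (nat_lit 18457824270) (nat_lit 152) (nat_lit 27355036318) (nat_lit 76) (nat_lit 41313348373) (nat_lit 15) (nat_lit 5) (nat_lit 17) (nat_lit 5) (nat_lit 16) (nat_lit 5) (nat_lit 290) (nat_lit 260) (nat_lit 170)) (XT.lf (nat_lit 0) (nat_lit 13543285085) (nat_lit 152) (nat_lit 21588859708) (nat_lit 228) (nat_lit 57567430264) (nat_lit 13) (nat_lit 5) (nat_lit 15) (nat_lit 5) (nat_lit 16) (nat_lit 5) (nat_lit 291) (nat_lit 260) (nat_lit 169)))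 (XT.nd (nat_lit 78) (nat_lit 76) (nat_lit 0) (XT.lf (nat_lit 0) (nat_lit 53692249144) (nat_lit 228) (nat_lit 40090151427) (nat_lit 76) (nat_lit 4908826950) (nat_lit 13) (nat_lit 5) (nat_lit 16) (nat_lit 5) (nat_lit 14) (nat_lit 4) (nat_lit 292) (nat_lit 260) (nat_lit 168)) (XT.nd (nat_lit 78) (nat_lit 0) (nat_lit 0) (XT.lf (nat_lit 0) (nat_lit 1788696176) (nat_lit 76) (nat_lit 72336828362) (nat_lit 152) (nat_lit 31017277833) (nat_lit 12) (nat_lit 5) (nat_lit 13) (nat_lit 5) (nat_lit 14) (nat_lit 4) (nat_lit 293) (nat_lit 260) (nat_lit 167)) (XT.lf (nat_lit 0) (nat_lit 48443906330) (nat_lit 76) (nat_lit 48444488091) (nat_lit 152) (nat_lit 15187369872) (nat_lit 12) (nat_lit 5) (nat_lit 13) (nat_lit 5) (nat_lit 14) (nat_lit 4) (nat_lit 294) (nat_lit 260) (nat_lit 166))))))) (XT.nd (nat_lit 702) (nat_lit 152) (nat_lit 0) (XT.nd (nat_lit 312) (nat_lit 228) (nat_lit 0) (XT.nd (nat_lit 156)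 (nat_lit 0) (nat_lit 0) (XT.nd (nat_lit 78) (nat_lit 152) (nat_lit 0) (XT.lf (nat_lit 0) (nat_lit 1844614951) (nat_lit 152) (nat_lit 20766887234) (nat_lit 76) (nat_lit 96950538496) (nat_lit 11) (nat_lit 5) (nat_lit 13) (nat_lit 5) (nat_lit 12) (nat_lit 5) (nat_lit 295) (nat_lit 260) (nat_lit 165)) (XT.lf (nat_lit 0) (nat_lit 20212134193) (nat_lit 228) (nat_lit 101605856978) (nat_lit 76) (nat_lit 5791532285) (nat_lit 9) (nat_lit 5) (nat_lit 12) (nat_lit 5) (nat_lit 10) (nat_lit 4) (nat_lit 296) (nat_lit 260) (nat_lit 164))) (XT.nd (nat_lit 78) (nat_lit 0) (nat_lit 0) (XT.lf (nat_lit 0) (nat_lit 40795142183) (nat_lit 228) (nat_lit 59417247734) (nat_lit 76) (nat_lit 36051116402) (nat_lit 9) (nat_lit 5) (nat_lit 12) (nat_lit 5) (nat_lit 10) (nat_lit 4) (nat_lit 297) (nat_lit 260) (nat_lit 163)) (XT.lf (nat_lit 0) (nat_lit 63022142609) (nat_lit 228) (nat_lit 13857968281) (nat_lit 76) (nat_lit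 68729834726) (nat_lit 9) (nat_lit 5) (nat_lit 12) (nat_lit 5) (nat_lit 10) (nat_lit 4) (nat_lit 298) (nat_lit 260) (nat_lit 162)))) (XT.nd (nat_lit 156) (nat_lit 152) (nat_lit 0) (XT.nd (nat_lit 78) (nat_lit 0) (nat_lit 0) (XT.lf (nat_lit 0) (nat_lit 36510527176) (nat_lit 76) (nat_lit 51084355503) (nat_lit 152) (nat_lit 68080843394) (nat_lit 8) (nat_lit 5) (nat_lit 9) (nat_lit 5) (nat_lit 10) (nat_lit 4) (nat_lit 299) (nat_lit 260) (nat_lit 161)) (XT.lf (nat_lit 0) (nat_lit 91399452414) (nat_lit 76) (nat_lit 22973054901) (nat_lit 152) (nat_lit 52162313008) (nat_lit 8) (nat_lit 5) (nat_lit 9) (nat_lit 5) (nat_lit 10) (nat_lit 4) (nat_lit 300) (nat_lit 260) (nat_lit 160))) (XT.nd (nat_lit 78) (nat_lit 152) (nat_lit 0) (XT.lf (nat_lit 0) (nat_lit 143405494361) (nat_lit 152) (nat_lit 27702197455) (nat_lit 0) (nat_lit 7149296959) (nat_lit 8) (nat_lit 5) (nat_lit 10) (nat_lit 4) (nat_lit 8)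 (nat_lit 4) (nat_lit 301) (nat_lit 260) (nat_lit 159)) (XT.nd (nat_lit 78) (nat_lit 76) (nat_lit 0) (XT.lf (nat_lit 0) (nat_lit 23899762755) (nat_lit 76) (nat_lit 151619847495) (nat_lit 76) (nat_lit 15359399925) (nat_lit 7) (nat_lit 4) (nat_lit 8) (nat_lit 5) (nat_lit 8) (nat_lit 4) (nat_lit 302) (nat_lit 260) (nat_lit 158)) (XT.lf (nat_lit 0) (nat_lit 5998388890) (nat_lit 152) (nat_lit 123967685684) (nat_lit 76) (nat_lit 74515853342) (nat_lit 6) (nat_lit 5) (nat_lit 8) (nat_lit 5) (nat_lit 7) (nat_lit 4) (nat_lit 303) (nat_lit 260) (nat_lit 157)))))) (XT.nd (nat_lit 390) (nat_lit 76) (nat_lit 0) (XT.nd (nat_lit 156) (nat_lit 76) (nat_lit 0) (XT.nd (nat_lit 78) (nat_lit 0) (nat_lit 0) (XT.lf (nat_lit 0) (nat_lit 28532064473) (nat_lit 152) (nat_lit 77777294573) (nat_lit 76) (nat_lit 112850864486) (nat_lit 6) (nat_lit 5) (nat_lit 8) (nat_lit 5) (nat_lit 7) (nat_lit 4) (nat_lit 304) (nat_lit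 260) (nat_lit 156)) (XT.lf (nat_lit 0) (nat_lit 52866756433) (nat_lit 152) (nat_lit 27894549974) (nat_lit 76) (nat_lit 154251563272) (nat_lit 6) (nat_lit 5) (nat_lit 8) (nat_lit 5) (nat_lit 7) (nat_lit 4) (nat_lit 305) (nat_lit 260) (nat_lit 155))) (XT.nd (nat_lit 78) (nat_lit 0) (nat_lit 0) (XT.lf (nat_lit 0) (nat_lit 26835038379) (nat_lit 76) (nat_lit 52730602129) (nat_lit 152) (nat_lit 172547218949) (nat_lit 5) (nat_lit 5) (nat_lit 6) (nat_lit 5) (nat_lit 7) (nat_lit 4) (nat_lit 306) (nat_lit 260) (nat_lit 154)) (XT.nd (nat_lit 78) (nat_lit 0) (nat_lit 0) (XT.lf (nat_lit 0) (nat_lit 86936550353) (nat_lit 76) (nat_lit 21948311895) (nat_lit 152) (nat_lit 161671767391) (nat_lit 5) (nat_lit 5) (nat_lit 6) (nat_lit 5) (nat_lit 7) (nat_lit 4) (nat_lit 307) (nat_lit 260) (nat_lit 153)) (XT.lf (nat_lit 0) (nat_lit 140724608599) (nat_lit 152) (nat_lit 138808504496) (nat_lit 0) (nat_lit 10934041378)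 (nat_lit 5) (nat_lit 5) (nat_lit 7) (nat_lit 4) (nat_lit 5) (nat_lit 4) (nat_lit 308) (nat_lit 260) (nat_lit 152))))) (XT.nd (nat_lit 156) (nat_lit 76) (nat_lit 0) (XT.nd (nat_lit 78) (nat_lit 0) (nat_lit 0) (XT.lf (nat_lit 0) (nat_lit 175480341704) (nat_lit 152) (nat_lit 90784328798) (nat_lit 0) (nat_lit 45687412643) (nat_lit 5) (nat_lit 5) (nat_lit 7) (nat_lit 4) (nat_lit 5) (nat_lit 4) (nat_lit 309) (nat_lit 260) (nat_lit 151)) (XT.lf (nat_lit 0) (nat_lit 213015346804) (nat_lit 152) (nat_lit 38920289825) (nat_lit 0) (nat_lit 83220230854) (nat_lit 5) (nat_lit 5) (nat_lit 7) (nat_lit 4) (nat_lit 5) (nat_lit 4) (nat_lit 310) (nat_lit 260) (nat_lit 150))) (XT.nd (nat_lit 78) (nat_lit 0) (nat_lit 0) (XT.lf (nat_lit 0) (nat_lit 17656059027) (nat_lit 76) (nat_lit 236171655095) (nat_lit 76) (nat_lit 106374514248) (nat_lit 4) (nat_lit 4) (nat_lit 5) (nat_lit 5) (nat_lit 5) (nat_lit 4) (nat_lit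 311) (nat_lit 260) (nat_lit 149)) (XT.nd (nat_lit 78) (nat_lit 0) (nat_lit 0) (XT.lf (nat_lit 0) (nat_lit 80146512719) (nat_lit 76) (nat_lit 218435478445) (nat_lit 76) (nat_lit 88636462693) (nat_lit 4) (nat_lit 4) (nat_lit 5) (nat_lit 5) (nat_lit 5) (nat_lit 4) (nat_lit 312) (nat_lit 260) (nat_lit 148)) (XT.lf (nat_lit 0) (nat_lit 147634504501) (nat_lit 76) (nat_lit 199281137352) (nat_lit 76) (nat_lit 69480385578) (nat_lit 4) (nat_lit 4) (nat_lit 5) (nat_lit 5) (nat_lit 5) (nat_lit 4) (nat_lit 313) (nat_lit 260) (nat_lit 147))))))))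
noncomputable def xc90 : XT := (XT.nd (nat_lit 34242) (nat_lit 0) (nat_lit 1140) (XT.nd (nat_lit 33540) (nat_lit 0) (nat_lit 3724) (XT.nd (nat_lit 312) (nat_lit 76) (nat_lit 0) (XT.nd (nat_lit 156) (nat_lit 76) (nat_lit 0) (XT.nd (nat_lit 78) (nat_lit 0) (nat_lit 0) (XT.lf (nat_lit 0) (nat_lit 220519963212) (nat_lit 76) (nat_lit 178595124609) (nat_lit 76) (nat_lit 48792765407) (nat_lit 4) (nat_lit 4) (nat_lit 5) (nat_lit 5) (nat_lit 5) (nat_lit 4) (nat_lit 314) (nat_lit 260) (nat_lit 146)) (XT.lf (nat_lit 0) (nat_lit 299234802681) (nat_lit 76) (nat_lit 156254856438) (nat_lit 76) (nat_lit 26451008876) (nat_lit 4) (nat_lit 4) (nat_lit 5) (nat_lit 5) (nat_lit 5) (nat_lit 4) (nat_lit 315) (nat_lit 260) (nat_lit 145))) (XT.nd (nat_lit 78) (nat_lit 76) (nat_lit 0) (XT.lf (nat_lit 0) (nat_lit 384245481217) (nat_lit 76) (nat_lit 132127946064) (nat_lit 76) (nat_lit 2322720391) (nat_lit 4) (nat_lit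 4) (nat_lit 5) (nat_lit 5) (nat_lit 5) (nat_lit 4) (nat_lit 316) (nat_lit 260) (nat_lit 144)) (XT.lf (nat_lit 0) (nat_lit 22975411629) (nat_lit 152) (nat_lit 82706907861) (nat_lit 76) (nat_lit 452691254461) (nat_lit 3) (nat_lit 5) (nat_lit 5) (nat_lit 5) (nat_lit 4) (nat_lit 4) (nat_lit 317) (nat_lit 260) (nat_lit 143)))) (XT.nd (nat_lit 156) (nat_lit 0) (nat_lit 0) (XT.nd (nat_lit 78) (nat_lit 76) (nat_lit 0) (XT.lf (nat_lit 0) (nat_lit 50216434299) (nat_lit 152) (nat_lit 26863992896) (nat_lit 76) (nat_lit 524142843473) (nat_lit 3) (nat_lit 5) (nat_lit 5) (nat_lit 5) (nat_lit 4) (nat_lit 4) (nat_lit 318) (nat_lit 260) (nat_lit 142)) (XT.lf (nat_lit 0) (nat_lit 34551115050) (nat_lit 76) (nat_lit 45624442144) (nat_lit 152) (nat_lit 567298445980) (nat_lit 2) (nat_lit 5) (nat_lit 3) (nat_lit 5) (nat_lit 4) (nat_lit 4) (nat_lit 319) (nat_lit 260) (nat_lit 141))) (XT.nd (nat_lit 32916) (nat_lit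 0) (nat_lit 4408) (XT.lf (nat_lit 0) (nat_lit 101837691921) (nat_lit 76) (nat_lit 11161079821) (nat_lit 152) (nat_lit 584402655347) (nat_lit 2) (nat_lit 5) (nat_lit 3) (nat_lit 5) (nat_lit 4) (nat_lit 4) (nat_lit 320) (nat_lit 260) (nat_lit 140)) (XT.nd (nat_lit 78) (nat_lit 0) (nat_lit 0) (XT.lf (nat_lit 0) (nat_lit 345411580) (nat_lit 0) (nat_lit 345411580) (nat_lit 684) (nat_lit 9726991385) (nat_lit 60) (nat_lit 5) (nat_lit 60) (nat_lit 3) (nat_lit 69) (nat_lit 3) (nat_lit 261) (nat_lit 261) (nat_lit 198)) (XT.lf (nat_lit 0) (nat_lit 1859866619) (nat_lit 684) (nat_lit 6868037078) (nat_lit 760) (nat_lit 12919060585) (nat_lit 60) (nat_lit 5) (nat_lit 69) (nat_lit 3) (nat_lit 70) (nat_lit 5) (nat_lit 262) (nat_lit 261) (nat_lit 197)))))) (XT.nd (nat_lit 312) (nat_lit 760) (nat_lit 0) (XT.nd (nat_lit 156) (nat_lit 0) (nat_lit 76) (XT.nd (nat_lit 78) (nat_lit 0) (nat_lit 0) (XT.lf (nat_lit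 0) (nat_lit 2568096878) (nat_lit 684) (nat_lit 14905675032) (nat_lit 760) (nat_lit 5039941030) (nat_lit 61) (nat_lit 5) (nat_lit 70) (nat_lit 5) (nat_lit 71) (nat_lit 5) (nat_lit 263) (nat_lit 261) (nat_lit 196)) (XT.lf (nat_lit 0) (nat_lit 3581979109) (nat_lit 684) (nat_lit 118253029) (nat_lit 760) (nat_lit 19737206963) (nat_lit 61) (nat_lit 5) (nat_lit 70) (nat_lit 5) (nat_lit 71) (nat_lit 5) (nat_lit 264) (nat_lit 261) (nat_lit 195))) (XT.nd (nat_lit 78) (nat_lit 0) (nat_lit 76) (XT.lf (nat_lit 0) (nat_lit 5092919015) (nat_lit 684) (nat_lit 8237947651) (nat_lit 760) (nat_lit 11083480155) (nat_lit 62) (nat_lit 5) (nat_lit 71) (nat_lit 5) (nat_lit 72) (nat_lit 5) (nat_lit 265) (nat_lit 261) (nat_lit 194)) (XT.lf (nat_lit 0) (nat_lit 6930015050) (nat_lit 684) (nat_lit 16978408069) (nat_lit 760) (nat_lit 1550794828) (nat_lit 63) (nat_lit 5) (nat_lit 72) (nat_lit 5) (nat_lit 73) (nat_lit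 5) (nat_lit 266) (nat_lit 261) (nat_lit 193)))) (XT.nd (nat_lit 156) (nat_lit 912) (nat_lit 0) (XT.nd (nat_lit 78) (nat_lit 0) (nat_lit 76) (XT.lf (nat_lit 76) (nat_lit 11244588) (nat_lit 0) (nat_lit 9257750388) (nat_lit 760) (nat_lit 17301007269) (nat_lit 64) (nat_lit 5) (nat_lit 63) (nat_lit 5) (nat_lit 73) (nat_lit 5) (nat_lit 267) (nat_lit 261) (nat_lit 192)) (XT.lf (nat_lit 0) (nat_lit 12183328198) (nat_lit 684) (nat_lit 8908863122) (nat_lit 76) (nat_lit 6658110381) (nat_lit 64) (nat_lit 5) (nat_lit 73) (nat_lit 5) (nat_lit 65) (nat_lit 5) (nat_lit 268) (nat_lit 261) (nat_lit 191))) (XT.nd (nat_lit 78) (nat_lit 304) (nat_lit 0) (XT.lf (nat_lit 0) (nat_lit 10315011159) (nat_lit 684) (nat_lit 5319182677) (nat_lit 760) (nat_lit 13375721395) (nat_lit 55) (nat_lit 5) (nat_lit 64) (nat_lit 5) (nat_lit 65) (nat_lit 5) (nat_lit 269) (nat_lit 261) (nat_lit 190)) (XT.nd (nat_lit 78) (nat_lit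 0) (nat_lit 0) (XT.lf (nat_lit 0) (nat_lit 862276191) (nat_lit 304) (nat_lit 18840058330) (nat_lit 380) (nat_lit 10650958038) (nat_lit 51) (nat_lit 5) (nat_lit 55) (nat_lit 5) (nat_lit 56) (nat_lit 5) (nat_lit 270) (nat_lit 261) (nat_lit 189)) (XT.lf (nat_lit 0) (nat_lit 22547242546) (nat_lit 304) (nat_lit 1950452456) (nat_lit 380) (nat_lit 7286407577) (nat_lit 51) (nat_lit 5) (nat_lit 55) (nat_lit 5) (nat_lit 56) (nat_lit 5) (nat_lit 271) (nat_lit 261) (nat_lit 188))))))) (XT.nd (nat_lit 702) (nat_lit 912) (nat_lit 0) (XT.nd (nat_lit 312) (nat_lit 760) (nat_lit 0) (XT.nd (nat_lit 156) (nat_lit 304) (nat_lit 0) (XT.nd (nat_lit 78) (nat_lit 304) (nat_lit 0) (XT.lf (nat_lit 0) (nat_lit 12780892613) (nat_lit 304) (nat_lit 17338450068) (nat_lit 380) (nat_lit 3187948961) (nat_lit 47) (nat_lit 5) (nat_lit 51) (nat_lit 5) (nat_lit 52) (nat_lit 5) (nat_lit 272) (nat_lit 261) (nat_lit 187)) (XT.lf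 (nat_lit 0) (nat_lit 1422934269) (nat_lit 304) (nat_lit 33007304062) (nat_lit 76) (nat_lit 509963149) (nat_lit 43) (nat_lit 5) (nat_lit 47) (nat_lit 5) (nat_lit 44) (nat_lit 5) (nat_lit 273) (nat_lit 261) (nat_lit 186))) (XT.nd (nat_lit 78) (nat_lit 304) (nat_lit 0) (XT.lf (nat_lit 0) (nat_lit 6938104778) (nat_lit 304) (nat_lit 10127319273) (nat_lit 76) (nat_lit 19603390144) (nat_lit 43) (nat_lit 5) (nat_lit 47) (nat_lit 5) (nat_lit 44) (nat_lit 5) (nat_lit 274) (nat_lit 261) (nat_lit 185)) (XT.lf (nat_lit 0) (nat_lit 13150318061) (nat_lit 380) (nat_lit 23500334054) (nat_lit 76) (nat_lit 1872308011) (nat_lit 39) (nat_lit 5) (nat_lit 44) (nat_lit 5) (nat_lit 40) (nat_lit 5) (nat_lit 275) (nat_lit 261) (nat_lit 184)))) (XT.nd (nat_lit 156) (nat_lit 532) (nat_lit 0) (XT.nd (nat_lit 78) (nat_lit 0) (nat_lit 0) (XT.lf (nat_lit 0) (nat_lit 1785534476) (nat_lit 228) (nat_lit 18560018996) (nat_lit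 304) (nat_lit 20155615018) (nat_lit 36) (nat_lit 5) (nat_lit 39) (nat_lit 5) (nat_lit 40) (nat_lit 5) (nat_lit 276) (nat_lit 261) (nat_lit 183)) (XT.lf (nat_lit 0) (nat_lit 28539330741) (nat_lit 304) (nat_lit 12716206761) (nat_lit 76) (nat_lit 1360980438) (nat_lit 36) (nat_lit 5) (nat_lit 40) (nat_lit 5) (nat_lit 37) (nat_lit 5) (nat_lit 277) (nat_lit 261) (nat_lit 182))) (XT.nd (nat_lit 78) (nat_lit 304) (nat_lit 0) (XT.lf (nat_lit 0) (nat_lit 15537779391) (nat_lit 228) (nat_lit 22398582612) (nat_lit 304) (nat_lit 6937374055) (nat_lit 33) (nat_lit 5) (nat_lit 36) (nat_lit 5) (nat_lit 37) (nat_lit 5) (nat_lit 278) (nat_lit 261) (nat_lit 181)) (XT.nd (nat_lit 78) (nat_lit 228) (nat_lit 0) (XT.lf (nat_lit 0) (nat_lit 966496076) (nat_lit 304) (nat_lit 819584933) (nat_lit 76) (nat_lit 45513990016) (nat_lit 32) (nat_lit 5) (nat_lit 36) (nat_lit 5) (nat_lit 33) (nat_lit 5) (nat_lit 279) (nat_lit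 261) (nat_lit 180)) (XT.lf (nat_lit 0) (nat_lit 10066869840) (nat_lit 304) (nat_lit 19381134473) (nat_lit 76) (nat_lit 20426482922) (nat_lit 29) (nat_lit 5) (nat_lit 33) (nat_lit 5) (nat_lit 30) (nat_lit 5) (nat_lit 280) (nat_lit 261) (nat_lit 179)))))) (XT.nd (nat_lit 312) (nat_lit 380) (nat_lit 0) (XT.nd (nat_lit 156) (nat_lit 304) (nat_lit 0) (XT.nd (nat_lit 78) (nat_lit 0) (nat_lit 0) (XT.lf (nat_lit 0) (nat_lit 12032392847) (nat_lit 228) (nat_lit 8088768742) (nat_lit 304) (nat_lit 32522422147) (nat_lit 26) (nat_lit 5) (nat_lit 29) (nat_lit 5) (nat_lit 30) (nat_lit 5) (nat_lit 281) (nat_lit 261) (nat_lit 178)) (XT.lf (nat_lit 0) (nat_lit 31550529746) (nat_lit 304) (nat_lit 9214365460) (nat_lit 76) (nat_lit 14840795911) (nat_lit 26) (nat_lit 5) (nat_lit 30) (nat_lit 5) (nat_lit 27) (nat_lit 5) (nat_lit 282) (nat_lit 261) (nat_lit 177))) (XT.nd (nat_lit 78) (nat_lit 152) (nat_lit 0)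 (XT.lf (nat_lit 0) (nat_lit 25361453999) (nat_lit 152) (nat_lit 19059337302) (nat_lit 228) (nat_lit 14357666935) (nat_lit 24) (nat_lit 5) (nat_lit 26) (nat_lit 5) (nat_lit 27) (nat_lit 5) (nat_lit 283) (nat_lit 261) (nat_lit 176)) (XT.lf (nat_lit 0) (nat_lit 781318530) (nat_lit 152) (nat_lit 57777583071) (nat_lit 228) (nat_lit 3634250719) (nat_lit 22) (nat_lit 5) (nat_lit 24) (nat_lit 5) (nat_lit 25) (nat_lit 5) (nat_lit 284) (nat_lit 261) (nat_lit 175)))) (XT.nd (nat_lit 156) (nat_lit 152) (nat_lit 0) (XT.nd (nat_lit 78) (nat_lit 152) (nat_lit 0) (XT.lf (nat_lit 0) (nat_lit 8600357980) (nat_lit 228) (nat_lit 27405928456) (nat_lit 76) (nat_lit 29823162993) (nat_lit 21) (nat_lit 5) (nat_lit 24) (nat_lit 5) (nat_lit 22) (nat_lit 5) (nat_lit 285) (nat_lit 261) (nat_lit 174)) (XT.lf (nat_lit 0) (nat_lit 9557823917) (nat_lit 152) (nat_lit 12274561191) (nat_lit 228) (nat_lit 47914001366) (nat_lit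 19) (nat_lit 5) (nat_lit 21) (nat_lit 5) (nat_lit 22) (nat_lit 5) (nat_lit 286) (nat_lit 261) (nat_lit 173))) (XT.nd (nat_lit 78) (nat_lit 152) (nat_lit 0) (XT.lf (nat_lit 0) (nat_lit 36811986846) (nat_lit 228) (nat_lit 23718973900) (nat_lit 76) (nat_lit 13411279956) (nat_lit 19) (nat_lit 5) (nat_lit 22) (nat_lit 5) (nat_lit 20) (nat_lit 5) (nat_lit 287) (nat_lit 261) (nat_lit 172)) (XT.nd (nat_lit 78) (nat_lit 0) (nat_lit 0) (XT.lf (nat_lit 0) (nat_lit 15965586217) (nat_lit 152) (nat_lit 37476232522) (nat_lit 228) (nat_lit 25009363321) (nat_lit 17) (nat_lit 5) (nat_lit 19) (nat_lit 5) (nat_lit 20) (nat_lit 5) (nat_lit 288) (nat_lit 261) (nat_lit 171)) (XT.lf (nat_lit 0) (nat_lit 59665573285) (nat_lit 152) (nat_lit 12145481391) (nat_lit 228) (nat_lit 11489344184) (nat_lit 17) (nat_lit 5) (nat_lit 19) (nat_lit 5) (nat_lit 20) (nat_lit 5) (nat_lit 289) (nat_lit 261) (nat_lit 170))))))))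
noncomputable def xc91 : XT := (XT.nd (nat_lit 1404) (nat_lit 228) (nat_lit 0) (XT.nd (nat_lit 702) (nat_lit 304) (nat_lit 0) (XT.nd (nat_lit 312) (nat_lit 304) (nat_lit 0) (XT.nd (nat_lit 156) (nat_lit 152) (nat_lit 0) (XT.nd (nat_lit 78) (nat_lit 0) (nat_lit 0) (XT.lf (nat_lit 0) (nat_lit 3546507364) (nat_lit 152) (nat_lit 69890208531) (nat_lit 76) (nat_lit 15071725093) (nat_lit 15) (nat_lit 5) (nat_lit 17) (nat_lit 5) (nat_lit 16) (nat_lit 5) (nat_lit 290) (nat_lit 261) (nat_lit 169)) (XT.lf (nat_lit 0) (nat_lit 20007577207) (nat_lit 152) (nat_lit 29428196713) (nat_lit 76) (nat_lit 44656700019) (nat_lit 15) (nat_lit 5) (nat_lit 17) (nat_lit 5) (nat_lit 16) (nat_lit 5) (nat_lit 291) (nat_lit 261) (nat_lit 168))) (XT.nd (nat_lit 78) (nat_lit 0) (nat_lit 0) (XT.lf (nat_lit 0) (nat_lit 14736982103) (nat_lit 152) (nat_lit 23275165520) (nat_lit 228) (nat_lit 62099759479) (nat_lit 13) (nat_lit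 5) (nat_lit 15) (nat_lit 5) (nat_lit 16) (nat_lit 5) (nat_lit 292) (nat_lit 261) (nat_lit 167)) (XT.lf (nat_lit 0) (nat_lit 58052507126) (nat_lit 228) (nat_lit 43192519910) (nat_lit 76) (nat_lit 5338104416) (nat_lit 13) (nat_lit 5) (nat_lit 16) (nat_lit 5) (nat_lit 14) (nat_lit 4) (nat_lit 293) (nat_lit 261) (nat_lit 166)))) (XT.nd (nat_lit 156) (nat_lit 228) (nat_lit 0) (XT.nd (nat_lit 78) (nat_lit 0) (nat_lit 0) (XT.lf (nat_lit 0) (nat_lit 2032079125) (nat_lit 76) (nat_lit 78085125410) (nat_lit 152) (nat_lit 33433800894) (nat_lit 12) (nat_lit 5) (nat_lit 13) (nat_lit 5) (nat_lit 14) (nat_lit 4) (nat_lit 294) (nat_lit 261) (nat_lit 165)) (XT.lf (nat_lit 0) (nat_lit 52412277406) (nat_lit 76) (nat_lit 52284260823) (nat_lit 152) (nat_lit 16342304679) (nat_lit 12) (nat_lit 5) (nat_lit 13) (nat_lit 5) (nat_lit 14) (nat_lit 4) (nat_lit 295) (nat_lit 261) (nat_lit 164))) (XT.nd (nat_lit 78)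 (nat_lit 152) (nat_lit 0) (XT.lf (nat_lit 0) (nat_lit 2046010680) (nat_lit 152) (nat_lit 22340364625) (nat_lit 76) (nat_lit 104737823622) (nat_lit 11) (nat_lit 5) (nat_lit 13) (nat_lit 5) (nat_lit 12) (nat_lit 5) (nat_lit 296) (nat_lit 261) (nat_lit 163)) (XT.nd (nat_lit 78) (nat_lit 0) (nat_lit 0) (XT.lf (nat_lit 0) (nat_lit 21880770348) (nat_lit 228) (nat_lit 109648121688) (nat_lit 76) (nat_lit 6286704764) (nat_lit 9) (nat_lit 5) (nat_lit 12) (nat_lit 5) (nat_lit 10) (nat_lit 4) (nat_lit 297) (nat_lit 261) (nat_lit 162)) (XT.lf (nat_lit 0) (nat_lit 44106591909) (nat_lit 228) (nat_lit 64090809174) (nat_lit 76) (nat_lit 38964696359) (nat_lit 9) (nat_lit 5) (nat_lit 12) (nat_lit 5) (nat_lit 10) (nat_lit 4) (nat_lit 298) (nat_lit 261) (nat_lit 161)))))) (XT.nd (nat_lit 312) (nat_lit 228) (nat_lit 0) (XT.nd (nat_lit 156) (nat_lit 0) (nat_lit 0) (XT.nd (nat_lit 78) (nat_lit 76) (nat_lit 0)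 (XT.lf (nat_lit 0) (nat_lit 68108208788) (nat_lit 228) (nat_lit 14892699838) (nat_lit 76) (nat_lit 74255527656) (nat_lit 9) (nat_lit 5) (nat_lit 12) (nat_lit 5) (nat_lit 10) (nat_lit 4) (nat_lit 299) (nat_lit 261) (nat_lit 160)) (XT.lf (nat_lit 0) (nat_lit 39502063395) (nat_lit 76) (nat_lit 55142527307) (nat_lit 152) (nat_lit 73483004027) (nat_lit 8) (nat_lit 5) (nat_lit 9) (nat_lit 5) (nat_lit 10) (nat_lit 4) (nat_lit 300) (nat_lit 261) (nat_lit 159))) (XT.nd (nat_lit 78) (nat_lit 0) (nat_lit 0) (XT.lf (nat_lit 0) (nat_lit 98776866057) (nat_lit 76) (nat_lit 24784439443) (nat_lit 152) (nat_lit 56294273199) (nat_lit 8) (nat_lit 5) (nat_lit 9) (nat_lit 5) (nat_lit 10) (nat_lit 4) (nat_lit 301) (nat_lit 261) (nat_lit 158)) (XT.lf (nat_lit 0) (nat_lit 154914425310) (nat_lit 152) (nat_lit 29856269930) (nat_lit 0) (nat_lit 7744956427) (nat_lit 8) (nat_lit 5) (nat_lit 10) (nat_lit 4) (nat_lit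 8) (nat_lit 4) (nat_lit 302) (nat_lit 261) (nat_lit 157)))) (XT.nd (nat_lit 156) (nat_lit 76) (nat_lit 0) (XT.nd (nat_lit 78) (nat_lit 76) (nat_lit 0) (XT.lf (nat_lit 0) (nat_lit 25871148163) (nat_lit 76) (nat_lit 163724746710) (nat_lit 76) (nat_lit 16551633993) (nat_lit 7) (nat_lit 4) (nat_lit 8) (nat_lit 5) (nat_lit 8) (nat_lit 4) (nat_lit 303) (nat_lit 261) (nat_lit 156)) (XT.lf (nat_lit 0) (nat_lit 6510990672) (nat_lit 152) (nat_lit 133828955758) (nat_lit 76) (nat_lit 80498840692) (nat_lit 6) (nat_lit 5) (nat_lit 8) (nat_lit 5) (nat_lit 7) (nat_lit 4) (nat_lit 304) (nat_lit 261) (nat_lit 155))) (XT.nd (nat_lit 78) (nat_lit 76) (nat_lit 0) (XT.lf (nat_lit 0) (nat_lit 30844935807) (nat_lit 152) (nat_lit 83947492231) (nat_lit 76) (nat_lit 121899043907) (nat_lit 6) (nat_lit 5) (nat_lit 8) (nat_lit 5) (nat_lit 7) (nat_lit 4) (nat_lit 305) (nat_lit 261) (nat_lit 154)) (XT.nd (nat_lit 78)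 (nat_lit 76) (nat_lit 0) (XT.lf (nat_lit 0) (nat_lit 57124158222) (nat_lit 152) (nat_lit 30077978872) (nat_lit 76) (nat_lit 166610308946) (nat_lit 6) (nat_lit 5) (nat_lit 8) (nat_lit 5) (nat_lit 7) (nat_lit 4) (nat_lit 306) (nat_lit 261) (nat_lit 153)) (XT.lf (nat_lit 0) (nat_lit 29027884656) (nat_lit 76) (nat_lit 56929708617) (nat_lit 152) (nat_lit 186322913429) (nat_lit 5) (nat_lit 5) (nat_lit 6) (nat_lit 5) (nat_lit 7) (nat_lit 4) (nat_lit 307) (nat_lit 261) (nat_lit 152))))))) (XT.nd (nat_lit 702) (nat_lit 152) (nat_lit 0) (XT.nd (nat_lit 312) (nat_lit 76) (nat_lit 0) (XT.nd (nat_lit 156) (nat_lit 0) (nat_lit 0) (XT.nd (nat_lit 78) (nat_lit 0) (nat_lit 0) (XT.lf (nat_lit 0) (nat_lit 93934106980) (nat_lit 76) (nat_lit 23686267881) (nat_lit 152) (nat_lit 174579505972) (nat_lit 5) (nat_lit 5) (nat_lit 6) (nat_lit 5) (nat_lit 7) (nat_lit 4) (nat_lit 308) (nat_lit 261) (nat_lit 151)) (XT.lf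 (nat_lit 0) (nat_lit 152005728438) (nat_lit 152) (nat_lit 149872784701) (nat_lit 0) (nat_lit 11824816323) (nat_lit 5) (nat_lit 5) (nat_lit 7) (nat_lit 4) (nat_lit 5) (nat_lit 4) (nat_lit 309) (nat_lit 261) (nat_lit 150))) (XT.nd (nat_lit 78) (nat_lit 0) (nat_lit 0) (XT.lf (nat_lit 0) (nat_lit 189540205291) (nat_lit 152) (nat_lit 98009667551) (nat_lit 0) (nat_lit 49357268280) (nat_lit 5) (nat_lit 5) (nat_lit 7) (nat_lit 4) (nat_lit 5) (nat_lit 4) (nat_lit 310) (nat_lit 261) (nat_lit 149)) (XT.lf (nat_lit 0) (nat_lit 230076422929) (nat_lit 152) (nat_lit 41999276391) (nat_lit 0) (nat_lit 89891611013) (nat_lit 5) (nat_lit 5) (nat_lit 7) (nat_lit 4) (nat_lit 5) (nat_lit 4) (nat_lit 311) (nat_lit 261) (nat_lit 148)))) (XT.nd (nat_lit 156) (nat_lit 0) (nat_lit 0) (XT.nd (nat_lit 78) (nat_lit 0) (nat_lit 0) (XT.lf (nat_lit 0) (nat_lit 19101675104) (nat_lit 76) (nat_lit 255051151550) (nat_lit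 76) (nat_lit 114864603611) (nat_lit 4) (nat_lit 4) (nat_lit 5) (nat_lit 5) (nat_lit 5) (nat_lit 4) (nat_lit 312) (nat_lit 261) (nat_lit 147)) (XT.lf (nat_lit 0) (nat_lit 86588910918) (nat_lit 76) (nat_lit 235897135283) (nat_lit 76) (nat_lit 95708979916) (nat_lit 4) (nat_lit 4) (nat_lit 5) (nat_lit 5) (nat_lit 5) (nat_lit 4) (nat_lit 313) (nat_lit 261) (nat_lit 146))) (XT.nd (nat_lit 78) (nat_lit 0) (nat_lit 0) (XT.lf (nat_lit 0) (nat_lit 159473669658) (nat_lit 76) (nat_lit 215211423306) (nat_lit 76) (nat_lit 75021779578) (nat_lit 4) (nat_lit 4) (nat_lit 5) (nat_lit 5) (nat_lit 5) (nat_lit 4) (nat_lit 314) (nat_lit 261) (nat_lit 145)) (XT.nd (nat_lit 78) (nat_lit 0) (nat_lit 0) (XT.lf (nat_lit 0) (nat_lit 238187861007) (nat_lit 76) (nat_lit 192871433621) (nat_lit 76) (nat_lit 52680411783) (nat_lit 4) (nat_lit 4) (nat_lit 5) (nat_lit 5) (nat_lit 5) (nat_lit 4) (nat_lit 315) (nat_lit 261)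 (nat_lit 144)) (XT.lf (nat_lit 0) (nat_lit 323197939431) (nat_lit 76) (nat_lit 168744781104) (nat_lit 76) (nat_lit 28552483237) (nat_lit 4) (nat_lit 4) (nat_lit 5) (nat_lit 5) (nat_lit 5) (nat_lit 4) (nat_lit 316) (nat_lit 261) (nat_lit 143)))))) (XT.nd (nat_lit 33306) (nat_lit 0) (nat_lit 4408) (XT.nd (nat_lit 156) (nat_lit 76) (nat_lit 0) (XT.nd (nat_lit 78) (nat_lit 76) (nat_lit 0) (XT.lf (nat_lit 0) (nat_lit 415007668358) (nat_lit 76) (nat_lit 142688493000) (nat_lit 76) (nat_lit 2495013625) (nat_lit 4) (nat_lit 4) (nat_lit 5) (nat_lit 5) (nat_lit 5) (nat_lit 4) (nat_lit 317) (nat_lit 261) (nat_lit 142)) (XT.lf (nat_lit 0) (nat_lit 24825566348) (nat_lit 152) (nat_lit 89302162349) (nat_lit 76) (nat_lit 488915106114) (nat_lit 3) (nat_lit 5) (nat_lit 5) (nat_lit 5) (nat_lit 4) (nat_lit 4) (nat_lit 318) (nat_lit 261) (nat_lit 141))) (XT.nd (nat_lit 78) (nat_lit 76) (nat_lit 0) (XT.lf (nat_lit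 0) (nat_lit 54244972921) (nat_lit 152) (nat_lit 28993391826) (nat_lit 76) (nat_lit 566082188818) (nat_lit 3) (nat_lit 5) (nat_lit 5) (nat_lit 5) (nat_lit 4) (nat_lit 4) (nat_lit 319) (nat_lit 261) (nat_lit 140)) (XT.nd (nat_lit 32994) (nat_lit 0) (nat_lit 4408) (XT.lf (nat_lit 0) (nat_lit 37334067726) (nat_lit 76) (nat_lit 49266221035) (nat_lit 152) (nat_lit 612671084056) (nat_lit 2) (nat_lit 5) (nat_lit 3) (nat_lit 5) (nat_lit 4) (nat_lit 4) (nat_lit 320) (nat_lit 261) (nat_lit 139)) (XT.lf (nat_lit 0) (nat_lit 477755399) (nat_lit 0) (nat_lit 477755399) (nat_lit 684) (nat_lit 10284338231) (nat_lit 60) (nat_lit 5) (nat_lit 60) (nat_lit 3) (nat_lit 69) (nat_lit 3) (nat_lit 262) (nat_lit 262) (nat_lit 196))))) (XT.nd (nat_lit 156) (nat_lit 0) (nat_lit 76) (XT.nd (nat_lit 78) (nat_lit 0) (nat_lit 76) (XT.lf (nat_lit 0) (nat_lit 2393446604) (nat_lit 684) (nat_lit 7199449668) (nat_lit 760)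 (nat_lit 13764882673) (nat_lit 60) (nat_lit 5) (nat_lit 69) (nat_lit 3) (nat_lit 70) (nat_lit 5) (nat_lit 263) (nat_lit 262) (nat_lit 195)) (XT.lf (nat_lit 0) (nat_lit 3130731044) (nat_lit 684) (nat_lit 15867662645) (nat_lit 760) (nat_lit 5296980163) (nat_lit 61) (nat_lit 5) (nat_lit 70) (nat_lit 5) (nat_lit 71) (nat_lit 5) (nat_lit 264) (nat_lit 262) (nat_lit 194))) (XT.nd (nat_lit 78) (nat_lit 0) (nat_lit 76) (XT.lf (nat_lit 76) (nat_lit 88514552) (nat_lit 0) (nat_lit 4112133008) (nat_lit 760) (nat_lit 21093721161) (nat_lit 62) (nat_lit 5) (nat_lit 61) (nat_lit 5) (nat_lit 71) (nat_lit 5) (nat_lit 265) (nat_lit 262) (nat_lit 193)) (XT.nd (nat_lit 78) (nat_lit 0) (nat_lit 76) (XT.lf (nat_lit 0) (nat_lit 5808125254) (nat_lit 684) (nat_lit 8674395887) (nat_lit 760) (nat_lit 11868232936) (nat_lit 62) (nat_lit 5) (nat_lit 71) (nat_lit 5) (nat_lit 72) (nat_lit 5) (nat_lit 266) (nat_lit 262)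 (nat_lit 192)) (XT.lf (nat_lit 0) (nat_lit 7771538213) (nat_lit 684) (nat_lit 18106922893) (nat_lit 760) (nat_lit 1601886462) (nat_lit 63) (nat_lit 5) (nat_lit 72) (nat_lit 5) (nat_lit 73) (nat_lit 5) (nat_lit 267) (nat_lit 262) (nat_lit 191))))))))
noncomputable def xc92 : XT := (XT.nd (nat_lit 1404) (nat_lit 1064) (nat_lit 0) (XT.nd (nat_lit 702) (nat_lit 1292) (nat_lit 0) (XT.nd (nat_lit 312) (nat_lit 912) (nat_lit 0) (XT.nd (nat_lit 156) (nat_lit 912) (nat_lit 0) (XT.nd (nat_lit 78) (nat_lit 0) (nat_lit 76) (XT.lf (nat_lit 76) (nat_lit 231916982) (nat_lit 0) (nat_lit 10047882528) (nat_lit 760) (nat_lit 18401179671) (nat_lit 64) (nat_lit 5) (nat_lit 63) (nat_lit 5) (nat_lit 73) (nat_lit 5) (nat_lit 268) (nat_lit 262) (nat_lit 190)) (XT.lf (nat_lit 0) (nat_lit 13406616595) (nat_lit 684) (nat_lit 9403823012) (nat_lit 76) (nat_lit 7146381977) (nat_lit 64) (nat_lit 5) (nat_lit 73) (nat_lit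 5) (nat_lit 65) (nat_lit 5) (nat_lit 269) (nat_lit 262) (nat_lit 189))) (XT.nd (nat_lit 78) (nat_lit 304) (nat_lit 0) (XT.lf (nat_lit 0) (nat_lit 11348498098) (nat_lit 684) (nat_lit 5769888859) (nat_lit 760) (nat_lit 14199654958) (nat_lit 55) (nat_lit 5) (nat_lit 64) (nat_lit 5) (nat_lit 65) (nat_lit 5) (nat_lit 270) (nat_lit 262) (nat_lit 188)) (XT.lf (nat_lit 0) (nat_lit 1142984456) (nat_lit 304) (nat_lit 20354643037) (nat_lit 380) (nat_lit 11272053112) (nat_lit 51) (nat_lit 5) (nat_lit 55) (nat_lit 5) (nat_lit 56) (nat_lit 5) (nat_lit 271) (nat_lit 262) (nat_lit 187)))) (XT.nd (nat_lit 156) (nat_lit 608) (nat_lit 0) (XT.nd (nat_lit 78) (nat_lit 304) (nat_lit 0) (XT.lf (nat_lit 0) (nat_lit 24547064700) (nat_lit 304) (nat_lit 2113322023) (nat_lit 380) (nat_lit 7655448359) (nat_lit 51) (nat_lit 5) (nat_lit 55) (nat_lit 5) (nat_lit 56) (nat_lit 5) (nat_lit 272) (nat_lit 262) (nat_lit 186))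 (XT.lf (nat_lit 0) (nat_lit 14001506888) (nat_lit 304) (nat_lit 18718226247) (nat_lit 380) (nat_lit 3241810892) (nat_lit 47) (nat_lit 5) (nat_lit 51) (nat_lit 5) (nat_lit 52) (nat_lit 5) (nat_lit 273) (nat_lit 262) (nat_lit 185))) (XT.nd (nat_lit 78) (nat_lit 304) (nat_lit 0) (XT.lf (nat_lit 0) (nat_lit 1720349321) (nat_lit 304) (nat_lit 35441818031) (nat_lit 76) (nat_lit 563375645) (nat_lit 43) (nat_lit 5) (nat_lit 47) (nat_lit 5) (nat_lit 44) (nat_lit 5) (nat_lit 274) (nat_lit 262) (nat_lit 184)) (XT.nd (nat_lit 78) (nat_lit 304) (nat_lit 0) (XT.lf (nat_lit 0) (nat_lit 7663134930) (nat_lit 304) (nat_lit 10746698930) (nat_lit 76) (nat_lit 21183342322) (nat_lit 43) (nat_lit 5) (nat_lit 47) (nat_lit 5) (nat_lit 44) (nat_lit 5) (nat_lit 275) (nat_lit 262) (nat_lit 183)) (XT.lf (nat_lit 0) (nat_lit 14362931337) (nat_lit 380) (nat_lit 25189586482) (nat_lit 76) (nat_lit 2043653374) (nat_lit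 39) (nat_lit 5) (nat_lit 44) (nat_lit 5) (nat_lit 40) (nat_lit 5) (nat_lit 276) (nat_lit 262) (nat_lit 182)))))) (XT.nd (nat_lit 312) (nat_lit 760) (nat_lit 0) (XT.nd (nat_lit 156) (nat_lit 304) (nat_lit 0) (XT.nd (nat_lit 78) (nat_lit 0) (nat_lit 0) (XT.lf (nat_lit 0) (nat_lit 2110860712) (nat_lit 228) (nat_lit 20013878553) (nat_lit 304) (nat_lit 21608393452) (nat_lit 36) (nat_lit 5) (nat_lit 39) (nat_lit 5) (nat_lit 40) (nat_lit 5) (nat_lit 277) (nat_lit 262) (nat_lit 181)) (XT.lf (nat_lit 0) (nat_lit 30963240724) (nat_lit 304) (nat_lit 13557457339) (nat_lit 76) (nat_lit 1497591861) (nat_lit 36) (nat_lit 5) (nat_lit 40) (nat_lit 5) (nat_lit 37) (nat_lit 5) (nat_lit 278) (nat_lit 262) (nat_lit 180))) (XT.nd (nat_lit 78) (nat_lit 76) (nat_lit 0) (XT.lf (nat_lit 0) (nat_lit 16949196963) (nat_lit 228) (nat_lit 24155039717) (nat_lit 304) (nat_lit 7352276573) (nat_lit 33) (nat_lit 5) (nat_lit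 36) (nat_lit 5) (nat_lit 37) (nat_lit 5) (nat_lit 279) (nat_lit 262) (nat_lit 179)) (XT.lf (nat_lit 0) (nat_lit 1169374776) (nat_lit 304) (nat_lit 724661216) (nat_lit 76) (nat_lit 49183345301) (nat_lit 32) (nat_lit 5) (nat_lit 36) (nat_lit 5) (nat_lit 33) (nat_lit 5) (nat_lit 280) (nat_lit 262) (nat_lit 178)))) (XT.nd (nat_lit 156) (nat_lit 304) (nat_lit 0) (XT.nd (nat_lit 78) (nat_lit 228) (nat_lit 0) (XT.lf (nat_lit 0) (nat_lit 10991418857) (nat_lit 304) (nat_lit 20772334415) (nat_lit 76) (nat_lit 22094346430) (nat_lit 29) (nat_lit 5) (nat_lit 33) (nat_lit 5) (nat_lit 30) (nat_lit 5) (nat_lit 281) (nat_lit 262) (nat_lit 177)) (XT.lf (nat_lit 0) (nat_lit 13147352506) (nat_lit 228) (nat_lit 8696250748) (nat_lit 304) (nat_lit 35005471837) (nat_lit 26) (nat_lit 5) (nat_lit 29) (nat_lit 5) (nat_lit 30) (nat_lit 5) (nat_lit 282) (nat_lit 262) (nat_lit 176))) (XT.nd (nat_lit 78) (nat_lit 304)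 (nat_lit 0) (XT.lf (nat_lit 0) (nat_lit 34179541857) (nat_lit 304) (nat_lit 9805454508) (nat_lit 76) (nat_lit 16063570160) (nat_lit 26) (nat_lit 5) (nat_lit 30) (nat_lit 5) (nat_lit 27) (nat_lit 5) (nat_lit 283) (nat_lit 262) (nat_lit 175)) (XT.nd (nat_lit 78) (nat_lit 152) (nat_lit 0) (XT.lf (nat_lit 0) (nat_lit 27530082911) (nat_lit 152) (nat_lit 20543747195) (nat_lit 228) (nat_lit 15401629166) (nat_lit 24) (nat_lit 5) (nat_lit 26) (nat_lit 5) (nat_lit 27) (nat_lit 5) (nat_lit 284) (nat_lit 262) (nat_lit 174)) (XT.lf (nat_lit 0) (nat_lit 981908810) (nat_lit 152) (nat_lit 62356458287) (nat_lit 228) (nat_lit 3825215622) (nat_lit 22) (nat_lit 5) (nat_lit 24) (nat_lit 5) (nat_lit 25) (nat_lit 5) (nat_lit 285) (nat_lit 262) (nat_lit 173))))))) (XT.nd (nat_lit 702) (nat_lit 380) (nat_lit 0) (XT.nd (nat_lit 312) (nat_lit 304) (nat_lit 0) (XT.nd (nat_lit 156) (nat_lit 152) (nat_lit 0) (XT.nd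 (nat_lit 78) (nat_lit 152) (nat_lit 0) (XT.lf (nat_lit 0) (nat_lit 9377814143) (nat_lit 228) (nat_lit 29467339015) (nat_lit 76) (nat_lit 32245930303) (nat_lit 21) (nat_lit 5) (nat_lit 24) (nat_lit 5) (nat_lit 22) (nat_lit 5) (nat_lit 286) (nat_lit 262) (nat_lit 172)) (XT.lf (nat_lit 0) (nat_lit 10447817679) (nat_lit 152) (nat_lit 13215918845) (nat_lit 228) (nat_lit 51657890851) (nat_lit 19) (nat_lit 5) (nat_lit 21) (nat_lit 5) (nat_lit 22) (nat_lit 5) (nat_lit 287) (nat_lit 262) (nat_lit 171))) (XT.nd (nat_lit 78) (nat_lit 152) (nat_lit 0) (XT.lf (nat_lit 0) (nat_lit 39836014868) (nat_lit 228) (nat_lit 25496858597) (nat_lit 76) (nat_lit 14520578238) (nat_lit 19) (nat_lit 5) (nat_lit 22) (nat_lit 5) (nat_lit 20) (nat_lit 5) (nat_lit 288) (nat_lit 262) (nat_lit 170)) (XT.lf (nat_lit 0) (nat_lit 17357267215) (nat_lit 152) (nat_lit 40434895765) (nat_lit 228) (nat_lit 26931164816) (nat_lit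 17) (nat_lit 5) (nat_lit 19) (nat_lit 5) (nat_lit 20) (nat_lit 5) (nat_lit 289) (nat_lit 262) (nat_lit 169)))) (XT.nd (nat_lit 156) (nat_lit 152) (nat_lit 0) (XT.nd (nat_lit 78) (nat_lit 152) (nat_lit 0) (XT.lf (nat_lit 0) (nat_lit 64544776650) (nat_lit 152) (nat_lit 13080605681) (nat_lit 228) (nat_lit 12335392116) (nat_lit 17) (nat_lit 5) (nat_lit 19) (nat_lit 5) (nat_lit 20) (nat_lit 5) (nat_lit 290) (nat_lit 262) (nat_lit 168)) (XT.lf (nat_lit 0) (nat_lit 3897938135) (nat_lit 152) (nat_lit 75374719185) (nat_lit 76) (nat_lit 16312911041) (nat_lit 15) (nat_lit 5) (nat_lit 17) (nat_lit 5) (nat_lit 16) (nat_lit 5) (nat_lit 291) (nat_lit 262) (nat_lit 167))) (XT.nd (nat_lit 78) (nat_lit 152) (nat_lit 0) (XT.lf (nat_lit 0) (nat_lit 21670877996) (nat_lit 152) (nat_lit 31683650572) (nat_lit 76) (nat_lit 48262058188) (nat_lit 15) (nat_lit 5) (nat_lit 17) (nat_lit 5) (nat_lit 16) (nat_lit 5)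 (nat_lit 292) (nat_lit 262) (nat_lit 166)) (XT.nd (nat_lit 78) (nat_lit 0) (nat_lit 0) (XT.lf (nat_lit 0) (nat_lit 16010448740) (nat_lit 152) (nat_lit 25102196795) (nat_lit 228) (nat_lit 67005098600) (nat_lit 13) (nat_lit 5) (nat_lit 15) (nat_lit 5) (nat_lit 16) (nat_lit 5) (nat_lit 293) (nat_lit 262) (nat_lit 165)) (XT.lf (nat_lit 0) (nat_lit 62752330168) (nat_lit 228) (nat_lit 46558034987) (nat_lit 76) (nat_lit 5796506774) (nat_lit 13) (nat_lit 5) (nat_lit 16) (nat_lit 5) (nat_lit 14) (nat_lit 4) (nat_lit 294) (nat_lit 262) (nat_lit 164)))))) (XT.nd (nat_lit 312) (nat_lit 76) (nat_lit 0) (XT.nd (nat_lit 156) (nat_lit 228) (nat_lit 0) (XT.nd (nat_lit 78) (nat_lit 0) (nat_lit 0) (XT.lf (nat_lit 0) (nat_lit 2280625613) (nat_lit 76) (nat_lit 84298799966) (nat_lit 152) (nat_lit 36052898685) (nat_lit 12) (nat_lit 5) (nat_lit 13) (nat_lit 5) (nat_lit 14) (nat_lit 4) (nat_lit 295) (nat_lit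 262) (nat_lit 163)) (XT.lf (nat_lit 0) (nat_lit 56684870855) (nat_lit 76) (nat_lit 56436320691) (nat_lit 152) (nat_lit 17598201757) (nat_lit 12) (nat_lit 5) (nat_lit 13) (nat_lit 5) (nat_lit 14) (nat_lit 4) (nat_lit 296) (nat_lit 262) (nat_lit 162))) (XT.nd (nat_lit 78) (nat_lit 152) (nat_lit 0) (XT.lf (nat_lit 0) (nat_lit 2255839110) (nat_lit 152) (nat_lit 24052256357) (nat_lit 76) (nat_lit 113143634531) (nat_lit 11) (nat_lit 5) (nat_lit 13) (nat_lit 5) (nat_lit 12) (nat_lit 5) (nat_lit 297) (nat_lit 262) (nat_lit 161)) (XT.lf (nat_lit 0) (nat_lit 23675526746) (nat_lit 228) (nat_lit 118346065517) (nat_lit 76) (nat_lit 6816947297) (nat_lit 9) (nat_lit 5) (nat_lit 12) (nat_lit 5) (nat_lit 10) (nat_lit 4) (nat_lit 298) (nat_lit 262) (nat_lit 160)))) (XT.nd (nat_lit 156) (nat_lit 76) (nat_lit 0) (XT.nd (nat_lit 78) (nat_lit 0) (nat_lit 0) (XT.lf (nat_lit 0) (nat_lit 47676132938) (nat_lit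 228) (nat_lit 69149642514) (nat_lit 76) (nat_lit 42107155542) (nat_lit 9) (nat_lit 5) (nat_lit 12) (nat_lit 5) (nat_lit 10) (nat_lit 4) (nat_lit 299) (nat_lit 262) (nat_lit 159)) (XT.lf (nat_lit 0) (nat_lit 73594841116) (nat_lit 228) (nat_lit 16020753423) (nat_lit 76) (nat_lit 80219380493) (nat_lit 9) (nat_lit 5) (nat_lit 12) (nat_lit 5) (nat_lit 10) (nat_lit 4) (nat_lit 300) (nat_lit 262) (nat_lit 158))) (XT.nd (nat_lit 78) (nat_lit 0) (nat_lit 0) (XT.lf (nat_lit 0) (nat_lit 42722837216) (nat_lit 76) (nat_lit 59529429631) (nat_lit 152) (nat_lit 79323658376) (nat_lit 8) (nat_lit 5) (nat_lit 9) (nat_lit 5) (nat_lit 10) (nat_lit 4) (nat_lit 301) (nat_lit 262) (nat_lit 157)) (XT.nd (nat_lit 78) (nat_lit 0) (nat_lit 0) (XT.lf (nat_lit 0) (nat_lit 106735134554) (nat_lit 76) (nat_lit 26744509543) (nat_lit 152) (nat_lit 60762642858) (nat_lit 8) (nat_lit 5) (nat_lit 9) (nat_lit 5) (nat_lit 10)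 (nat_lit 4) (nat_lit 302) (nat_lit 262) (nat_lit 156)) (XT.lf (nat_lit 0) (nat_lit 167338864829) (nat_lit 152) (nat_lit 32191527936) (nat_lit 0) (nat_lit 8384885342) (nat_lit 8) (nat_lit 5) (nat_lit 10) (nat_lit 4) (nat_lit 8) (nat_lit 4) (nat_lit 303) (nat_lit 262) (nat_lit 155))))))))
noncomputable def xc93 : XT := (XT.nd (nat_lit 34476) (nat_lit 0) (nat_lit 1748) (XT.nd (nat_lit 702) (nat_lit 152) (nat_lit 0) (XT.nd (nat_lit 312) (nat_lit 76) (nat_lit 0) (XT.nd (nat_lit 156) (nat_lit 0) (nat_lit 0) (XT.nd (nat_lit 78) (nat_lit 76) (nat_lit 0) (XT.lf (nat_lit 0) (nat_lit 27991769703) (nat_lit 76) (nat_lit 176801559965) (nat_lit 76) (nat_lit 17844456478) (nat_lit 7) (nat_lit 4) (nat_lit 8) (nat_lit 5) (nat_lit 8) (nat_lit 4) (nat_lit 304) (nat_lit 262) (nat_lit 154)) (XT.lf (nat_lit 0) (nat_lit 7059931199) (nat_lit 152) (nat_lit 144487137119) (nat_lit 76) (nat_lit 86957368559) (nat_lit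 6) (nat_lit 5) (nat_lit 8) (nat_lit 5) (nat_lit 7) (nat_lit 4) (nat_lit 305) (nat_lit 262) (nat_lit 153))) (XT.nd (nat_lit 78) (nat_lit 0) (nat_lit 0) (XT.lf (nat_lit 0) (nat_lit 33338513332) (nat_lit 152) (nat_lit 90618722073) (nat_lit 76) (nat_lit 131668208727) (nat_lit 6) (nat_lit 5) (nat_lit 8) (nat_lit 5) (nat_lit 7) (nat_lit 4) (nat_lit 306) (nat_lit 262) (nat_lit 152)) (XT.lf (nat_lit 0) (nat_lit 61718148900) (nat_lit 152) (nat_lit 32442949092) (nat_lit 76) (nat_lit 179955097835) (nat_lit 6) (nat_lit 5) (nat_lit 8) (nat_lit 5) (nat_lit 7) (nat_lit 4) (nat_lit 307) (nat_lit 262) (nat_lit 151)))) (XT.nd (nat_lit 156) (nat_lit 0) (nat_lit 0) (XT.nd (nat_lit 78) (nat_lit 0) (nat_lit 0) (XT.lf (nat_lit 0) (nat_lit 31389590057) (nat_lit 76) (nat_lit 61467502932) (nat_lit 152) (nat_lit 201204669826) (nat_lit 5) (nat_lit 5) (nat_lit 6) (nat_lit 5) (nat_lit 7) (nat_lit 4) (nat_lit 308)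 (nat_lit 262) (nat_lit 150)) (XT.lf (nat_lit 0) (nat_lit 101485386121) (nat_lit 76) (nat_lit 25565815261) (nat_lit 152) (nat_lit 188523573230) (nat_lit 5) (nat_lit 5) (nat_lit 6) (nat_lit 5) (nat_lit 7) (nat_lit 4) (nat_lit 309) (nat_lit 262) (nat_lit 149))) (XT.nd (nat_lit 78) (nat_lit 0) (nat_lit 0) (XT.lf (nat_lit 0) (nat_lit 164186035094) (nat_lit 152) (nat_lit 161827970857) (nat_lit 0) (nat_lit 12784563320) (nat_lit 5) (nat_lit 5) (nat_lit 7) (nat_lit 4) (nat_lit 5) (nat_lit 4) (nat_lit 310) (nat_lit 262) (nat_lit 148)) (XT.nd (nat_lit 78) (nat_lit 0) (nat_lit 0) (XT.lf (nat_lit 0) (nat_lit 204721799845) (nat_lit 152) (nat_lit 105818370010) (nat_lit 0) (nat_lit 53318592048) (nat_lit 5) (nat_lit 5) (nat_lit 7) (nat_lit 4) (nat_lit 5) (nat_lit 4) (nat_lit 311) (nat_lit 262) (nat_lit 147)) (XT.lf (nat_lit 0) (nat_lit 248499553551) (nat_lit 152) (nat_lit 45329523182) (nat_lit 0) (nat_lit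 97094738325) (nat_lit 5) (nat_lit 5) (nat_lit 7) (nat_lit 4) (nat_lit 5) (nat_lit 4) (nat_lit 312) (nat_lit 262) (nat_lit 146)))))) (XT.nd (nat_lit 312) (nat_lit 76) (nat_lit 0) (XT.nd (nat_lit 156) (nat_lit 0) (nat_lit 0) (XT.nd (nat_lit 78) (nat_lit 0) (nat_lit 0) (XT.lf (nat_lit 0) (nat_lit 20658213910) (nat_lit 76) (nat_lit 275443038640) (nat_lit 76) (nat_lit 124036735055) (nat_lit 4) (nat_lit 4) (nat_lit 5) (nat_lit 5) (nat_lit 5) (nat_lit 4) (nat_lit 313) (nat_lit 262) (nat_lit 145)) (XT.lf (nat_lit 0) (nat_lit 93542324529) (nat_lit 76) (nat_lit 254757605148) (nat_lit 76) (nat_lit 103349923452) (nat_lit 4) (nat_lit 4) (nat_lit 5) (nat_lit 5) (nat_lit 5) (nat_lit 4) (nat_lit 314) (nat_lit 262) (nat_lit 144))) (XT.nd (nat_lit 78) (nat_lit 0) (nat_lit 0) (XT.lf (nat_lit 0) (nat_lit 172255915766) (nat_lit 76) (nat_lit 232417873321) (nat_lit 76) (nat_lit 81008915596) (nat_lit 4) (nat_lit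 4) (nat_lit 5) (nat_lit 5) (nat_lit 5) (nat_lit 4) (nat_lit 315) (nat_lit 262) (nat_lit 143)) (XT.lf (nat_lit 0) (nat_lit 257265438531) (nat_lit 76) (nat_lit 208291459561) (nat_lit 76) (nat_lit 56881320328) (nat_lit 4) (nat_lit 4) (nat_lit 5) (nat_lit 5) (nat_lit 5) (nat_lit 4) (nat_lit 316) (nat_lit 262) (nat_lit 142)))) (XT.nd (nat_lit 156) (nat_lit 76) (nat_lit 0) (XT.nd (nat_lit 78) (nat_lit 0) (nat_lit 0) (XT.lf (nat_lit 0) (nat_lit 349074652959) (nat_lit 76) (nat_lit 182235392528) (nat_lit 76) (nat_lit 30824159306) (nat_lit 4) (nat_lit 4) (nat_lit 5) (nat_lit 5) (nat_lit 5) (nat_lit 4) (nat_lit 317) (nat_lit 262) (nat_lit 141)) (XT.lf (nat_lit 0) (nat_lit 448227613654) (nat_lit 76) (nat_lit 154095265899) (nat_lit 76) (nat_lit 2683019725) (nat_lit 4) (nat_lit 4) (nat_lit 5) (nat_lit 5) (nat_lit 5) (nat_lit 4) (nat_lit 318) (nat_lit 262) (nat_lit 140))) (XT.nd (nat_lit 33150) (nat_lit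 0) (nat_lit 4332) (XT.lf (nat_lit 0) (nat_lit 26822004136) (nat_lit 152) (nat_lit 96428075613) (nat_lit 76) (nat_lit 528035645962) (nat_lit 3) (nat_lit 5) (nat_lit 5) (nat_lit 5) (nat_lit 4) (nat_lit 4) (nat_lit 319) (nat_lit 262) (nat_lit 139)) (XT.nd (nat_lit 78) (nat_lit 0) (nat_lit 0) (XT.lf (nat_lit 0) (nat_lit 605748544) (nat_lit 0) (nat_lit 605748544) (nat_lit 684) (nat_lit 10917774191) (nat_lit 60) (nat_lit 5) (nat_lit 60) (nat_lit 3) (nat_lit 69) (nat_lit 3) (nat_lit 263) (nat_lit 263) (nat_lit 194)) (XT.lf (nat_lit 0) (nat_lit 2914818299) (nat_lit 684) (nat_lit 7588479736) (nat_lit 760) (nat_lit 14705148425) (nat_lit 60) (nat_lit 5) (nat_lit 69) (nat_lit 3) (nat_lit 70) (nat_lit 5) (nat_lit 264) (nat_lit 263) (nat_lit 193))))))) (XT.nd (nat_lit 702) (nat_lit 1900) (nat_lit 0) (XT.nd (nat_lit 312) (nat_lit 760) (nat_lit 0) (XT.nd (nat_lit 156) (nat_lit 0) (nat_lit 76) (XT.nd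 (nat_lit 78) (nat_lit 0) (nat_lit 0) (XT.lf (nat_lit 0) (nat_lit 3687419307) (nat_lit 684) (nat_lit 16939487874) (nat_lit 760) (nat_lit 5595433236) (nat_lit 61) (nat_lit 5) (nat_lit 70) (nat_lit 5) (nat_lit 71) (nat_lit 5) (nat_lit 265) (nat_lit 263) (nat_lit 192)) (XT.lf (nat_lit 76) (nat_lit 284596574) (nat_lit 0) (nat_lit 4538599716) (nat_lit 760) (nat_lit 22479145365) (nat_lit 62) (nat_lit 5) (nat_lit 61) (nat_lit 5) (nat_lit 71) (nat_lit 5) (nat_lit 266) (nat_lit 263) (nat_lit 191))) (XT.nd (nat_lit 78) (nat_lit 0) (nat_lit 76) (XT.lf (nat_lit 0) (nat_lit 6536640773) (nat_lit 684) (nat_lit 9177514587) (nat_lit 760) (nat_lit 12730306771) (nat_lit 62) (nat_lit 5) (nat_lit 71) (nat_lit 5) (nat_lit 72) (nat_lit 5) (nat_lit 267) (nat_lit 263) (nat_lit 190)) (XT.lf (nat_lit 0) (nat_lit 8639422072) (nat_lit 684) (nat_lit 19358496425) (nat_lit 760) (nat_lit 1667475692) (nat_lit 63) (nat_lit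 5) (nat_lit 72) (nat_lit 5) (nat_lit 73) (nat_lit 5) (nat_lit 268) (nat_lit 263) (nat_lit 189)))) (XT.nd (nat_lit 156) (nat_lit 912) (nat_lit 0) (XT.nd (nat_lit 78) (nat_lit 0) (nat_lit 76) (XT.lf (nat_lit 76) (nat_lit 438890116) (nat_lit 0) (nat_lit 10894161784) (nat_lit 760) (nat_lit 19629868541) (nat_lit 64) (nat_lit 5) (nat_lit 63) (nat_lit 5) (nat_lit 73) (nat_lit 5) (nat_lit 269) (nat_lit 263) (nat_lit 188)) (XT.lf (nat_lit 0) (nat_lit 14692299336) (nat_lit 684) (nat_lit 9969444044) (nat_lit 76) (nat_lit 7680046211) (nat_lit 64) (nat_lit 5) (nat_lit 73) (nat_lit 5) (nat_lit 65) (nat_lit 5) (nat_lit 270) (nat_lit 263) (nat_lit 187))) (XT.nd (nat_lit 78) (nat_lit 304) (nat_lit 0) (XT.lf (nat_lit 0) (nat_lit 12434949660) (nat_lit 684) (nat_lit 6253060531) (nat_lit 760) (nat_lit 15124615566) (nat_lit 55) (nat_lit 5) (nat_lit 64) (nat_lit 5) (nat_lit 65) (nat_lit 5) (nat_lit 271) (nat_lit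 263) (nat_lit 186)) (XT.nd (nat_lit 78) (nat_lit 0) (nat_lit 0) (XT.lf (nat_lit 0) (nat_lit 1415944278) (nat_lit 304) (nat_lit 21989341674) (nat_lit 380) (nat_lit 11975787895) (nat_lit 51) (nat_lit 5) (nat_lit 55) (nat_lit 5) (nat_lit 56) (nat_lit 5) (nat_lit 272) (nat_lit 263) (nat_lit 185)) (XT.lf (nat_lit 0) (nat_lit 26678904937) (nat_lit 304) (nat_lit 2288246298) (nat_lit 380) (nat_lit 8084523611) (nat_lit 51) (nat_lit 5) (nat_lit 55) (nat_lit 5) (nat_lit 56) (nat_lit 5) (nat_lit 273) (nat_lit 263) (nat_lit 184)))))) (XT.nd (nat_lit 390) (nat_lit 760) (nat_lit 0) (XT.nd (nat_lit 156) (nat_lit 532) (nat_lit 0) (XT.nd (nat_lit 78) (nat_lit 304) (nat_lit 0) (XT.lf (nat_lit 0) (nat_lit 15291503010) (nat_lit 304) (nat_lit 20209425922) (nat_lit 380) (nat_lit 3328681496) (nat_lit 47) (nat_lit 5) (nat_lit 51) (nat_lit 5) (nat_lit 52) (nat_lit 5) (nat_lit 274) (nat_lit 263) (nat_lit 183))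 (XT.lf (nat_lit 0) (nat_lit 2015367794) (nat_lit 304) (nat_lit 38100491358) (nat_lit 76) (nat_lit 619261406) (nat_lit 43) (nat_lit 5) (nat_lit 47) (nat_lit 5) (nat_lit 44) (nat_lit 5) (nat_lit 275) (nat_lit 263) (nat_lit 182))) (XT.nd (nat_lit 78) (nat_lit 532) (nat_lit 0) (XT.lf (nat_lit 0) (nat_lit 8421917694) (nat_lit 304) (nat_lit 11442849553) (nat_lit 76) (nat_lit 22888024254) (nat_lit 43) (nat_lit 5) (nat_lit 47) (nat_lit 5) (nat_lit 44) (nat_lit 5) (nat_lit 276) (nat_lit 263) (nat_lit 181)) (XT.nd (nat_lit 78) (nat_lit 228) (nat_lit 0) (XT.lf (nat_lit 0) (nat_lit 15649644026) (nat_lit 380) (nat_lit 27041195190) (nat_lit 76) (nat_lit 2225630487) (nat_lit 39) (nat_lit 5) (nat_lit 44) (nat_lit 5) (nat_lit 40) (nat_lit 5) (nat_lit 277) (nat_lit 263) (nat_lit 180)) (XT.lf (nat_lit 0) (nat_lit 2436179739) (nat_lit 228) (nat_lit 21588461091) (nat_lit 304) (nat_lit 23200172979) (nat_lit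 36) (nat_lit 5) (nat_lit 39) (nat_lit 5) (nat_lit 40) (nat_lit 5) (nat_lit 278) (nat_lit 263) (nat_lit 179))))) (XT.nd (nat_lit 156) (nat_lit 532) (nat_lit 0) (XT.nd (nat_lit 78) (nat_lit 228) (nat_lit 0) (XT.lf (nat_lit 0) (nat_lit 33560982015) (nat_lit 304) (nat_lit 14491122887) (nat_lit 76) (nat_lit 1641175778) (nat_lit 36) (nat_lit 5) (nat_lit 40) (nat_lit 5) (nat_lit 37) (nat_lit 5) (nat_lit 279) (nat_lit 263) (nat_lit 178)) (XT.lf (nat_lit 0) (nat_lit 18449504480) (nat_lit 228) (nat_lit 26057067806) (nat_lit 304) (nat_lit 7820356327) (nat_lit 33) (nat_lit 5) (nat_lit 36) (nat_lit 5) (nat_lit 37) (nat_lit 5) (nat_lit 280) (nat_lit 263) (nat_lit 177))) (XT.nd (nat_lit 78) (nat_lit 456) (nat_lit 0) (XT.lf (nat_lit 0) (nat_lit 1370571374) (nat_lit 304) (nat_lit 645039367) (nat_lit 76) (nat_lit 53142220817) (nat_lit 32) (nat_lit 5) (nat_lit 36) (nat_lit 5) (nat_lit 33) (nat_lit 5) (nat_lit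 281) (nat_lit 263) (nat_lit 176)) (XT.nd (nat_lit 78) (nat_lit 228) (nat_lit 0) (XT.lf (nat_lit 0) (nat_lit 11972926664) (nat_lit 304) (nat_lit 22297554968) (nat_lit 76) (nat_lit 23890824936) (nat_lit 29) (nat_lit 5) (nat_lit 33) (nat_lit 5) (nat_lit 30) (nat_lit 5) (nat_lit 282) (nat_lit 263) (nat_lit 175)) (XT.lf (nat_lit 0) (nat_lit 14329771906) (nat_lit 228) (nat_lit 9357983478) (nat_lit 304) (nat_lit 37704105673) (nat_lit 26) (nat_lit 5) (nat_lit 29) (nat_lit 5) (nat_lit 30) (nat_lit 5) (nat_lit 283) (nat_lit 263) (nat_lit 174))))))))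
noncomputable def xc94 : XT := (XT.nd (nat_lit 1404) (nat_lit 380) (nat_lit 0) (XT.nd (nat_lit 702) (nat_lit 456) (nat_lit 0) (XT.nd (nat_lit 312) (nat_lit 456) (nat_lit 0) (XT.nd (nat_lit 156) (nat_lit 228) (nat_lit 0) (XT.nd (nat_lit 78) (nat_lit 152) (nat_lit 0) (XT.lf (nat_lit 0) (nat_lit 37003899830) (nat_lit 304) (nat_lit 10464667798) (nat_lit 76) (nat_lit 17379100368) (nat_lit 26) (nat_lit 5) (nat_lit 30) (nat_lit 5) (nat_lit 27) (nat_lit 5) (nat_lit 284) (nat_lit 263) (nat_lit 173)) (XT.lf (nat_lit 0) (nat_lit 29852270572) (nat_lit 152) (nat_lit 22152664416) (nat_lit 228) (nat_lit 16544038029) (nat_lit 24) (nat_lit 5) (nat_lit 26) (nat_lit 5) (nat_lit 27) (nat_lit 5) (nat_lit 285) (nat_lit 263) (nat_lit 172))) (XT.nd (nat_lit 78) (nat_lit 76) (nat_lit 0) (XT.lf (nat_lit 0) (nat_lit 1178846973) (nat_lit 152) (nat_lit 67307825233) (nat_lit 228) (nat_lit 4045691758) (nat_lit 22)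 (nat_lit 5) (nat_lit 24) (nat_lit 5) (nat_lit 25) (nat_lit 5) (nat_lit 286) (nat_lit 263) (nat_lit 171)) (XT.lf (nat_lit 0) (nat_lit 10204708963) (nat_lit 228) (nat_lit 31712360123) (nat_lit 76) (nat_lit 34857252765) (nat_lit 21) (nat_lit 5) (nat_lit 24) (nat_lit 5) (nat_lit 22) (nat_lit 5) (nat_lit 287) (nat_lit 263) (nat_lit 170)))) (XT.nd (nat_lit 156) (nat_lit 304) (nat_lit 0) (XT.nd (nat_lit 78) (nat_lit 0) (nat_lit 0) (XT.lf (nat_lit 0) (nat_lit 11391125816) (nat_lit 152) (nat_lit 14238378188) (nat_lit 228) (nat_lit 55714021242) (nat_lit 19) (nat_lit 5) (nat_lit 21) (nat_lit 5) (nat_lit 22) (nat_lit 5) (nat_lit 288) (nat_lit 263) (nat_lit 169)) (XT.lf (nat_lit 0) (nat_lit 43090685044) (nat_lit 228) (nat_lit 27434041085) (nat_lit 76) (nat_lit 15713428102) (nat_lit 19) (nat_lit 5) (nat_lit 22) (nat_lit 5) (nat_lit 20) (nat_lit 5) (nat_lit 289) (nat_lit 263) (nat_lit 168))) (XT.nd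 (nat_lit 78) (nat_lit 152) (nat_lit 0) (XT.lf (nat_lit 0) (nat_lit 18843957390) (nat_lit 152) (nat_lit 43635877962) (nat_lit 228) (nat_lit 29017973184) (nat_lit 17) (nat_lit 5) (nat_lit 19) (nat_lit 5) (nat_lit 20) (nat_lit 5) (nat_lit 290) (nat_lit 263) (nat_lit 167)) (XT.nd (nat_lit 78) (nat_lit 152) (nat_lit 0) (XT.lf (nat_lit 0) (nat_lit 69799200261) (nat_lit 152) (nat_lit 14095749076) (nat_lit 228) (nat_lit 13259552359) (nat_lit 17) (nat_lit 5) (nat_lit 19) (nat_lit 5) (nat_lit 20) (nat_lit 5) (nat_lit 291) (nat_lit 263) (nat_lit 166)) (XT.lf (nat_lit 0) (nat_lit 4267823753) (nat_lit 152) (nat_lit 81313213500) (nat_lit 76) (nat_lit 17648334820) (nat_lit 15) (nat_lit 5) (nat_lit 17) (nat_lit 5) (nat_lit 16) (nat_lit 5) (nat_lit 292) (nat_lit 263) (nat_lit 165)))))) (XT.nd (nat_lit 312) (nat_lit 228) (nat_lit 0) (XT.nd (nat_lit 156) (nat_lit 76) (nat_lit 0) (XT.nd (nat_lit 78) (nat_lit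 152) (nat_lit 0) (XT.lf (nat_lit 0) (nat_lit 23458298761) (nat_lit 152) (nat_lit 34133635933) (nat_lit 76) (nat_lit 52151162561) (nat_lit 15) (nat_lit 5) (nat_lit 17) (nat_lit 5) (nat_lit 16) (nat_lit 5) (nat_lit 293) (nat_lit 263) (nat_lit 164)) (XT.lf (nat_lit 0) (nat_lit 17372310076) (nat_lit 152) (nat_lit 27080381142) (nat_lit 228) (nat_lit 72311801381) (nat_lit 13) (nat_lit 5) (nat_lit 15) (nat_lit 5) (nat_lit 16) (nat_lit 5) (nat_lit 294) (nat_lit 263) (nat_lit 163))) (XT.nd (nat_lit 78) (nat_lit 76) (nat_lit 0) (XT.lf (nat_lit 0) (nat_lit 67820203886) (nat_lit 228) (nat_lit 50205614586) (nat_lit 76) (nat_lit 6287108321) (nat_lit 13) (nat_lit 5) (nat_lit 16) (nat_lit 5) (nat_lit 14) (nat_lit 4) (nat_lit 295) (nat_lit 263) (nat_lit 162)) (XT.lf (nat_lit 0) (nat_lit 2536789788) (nat_lit 76) (nat_lit 91014295632) (nat_lit 152) (nat_lit 38889457157) (nat_lit 12) (nat_lit 5) (nat_lit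 13) (nat_lit 5) (nat_lit 14) (nat_lit 4) (nat_lit 296) (nat_lit 263) (nat_lit 161)))) (XT.nd (nat_lit 156) (nat_lit 152) (nat_lit 0) (XT.nd (nat_lit 78) (nat_lit 76) (nat_lit 0) (XT.lf (nat_lit 0) (nat_lit 61287914344) (nat_lit 76) (nat_lit 60924922336) (nat_lit 152) (nat_lit 18961915839) (nat_lit 12) (nat_lit 5) (nat_lit 13) (nat_lit 5) (nat_lit 14) (nat_lit 4) (nat_lit 297) (nat_lit 263) (nat_lit 160)) (XT.lf (nat_lit 0) (nat_lit 2475870347) (nat_lit 152) (nat_lit 25911847155) (nat_lit 76) (nat_lit 122218089130) (nat_lit 11) (nat_lit 5) (nat_lit 13) (nat_lit 5) (nat_lit 12) (nat_lit 5) (nat_lit 298) (nat_lit 263) (nat_lit 159))) (XT.nd (nat_lit 78) (nat_lit 0) (nat_lit 0) (XT.lf (nat_lit 0) (nat_lit 25607544511) (nat_lit 228) (nat_lit 127750388357) (nat_lit 76) (nat_lit 7385713706) (nat_lit 9) (nat_lit 5) (nat_lit 12) (nat_lit 5) (nat_lit 10) (nat_lit 4) (nat_lit 299) (nat_lit 263)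 (nat_lit 158)) (XT.nd (nat_lit 78) (nat_lit 0) (nat_lit 0) (XT.lf (nat_lit 0) (nat_lit 51525386189) (nat_lit 228) (nat_lit 74622945025) (nat_lit 76) (nat_lit 45497404490) (nat_lit 9) (nat_lit 5) (nat_lit 12) (nat_lit 5) (nat_lit 10) (nat_lit 4) (nat_lit 300) (nat_lit 263) (nat_lit 157)) (XT.lf (nat_lit 0) (nat_lit 79514986384) (nat_lit 228) (nat_lit 17248090650) (nat_lit 76) (nat_lit 86657001770) (nat_lit 9) (nat_lit 5) (nat_lit 12) (nat_lit 5) (nat_lit 10) (nat_lit 4) (nat_lit 301) (nat_lit 263) (nat_lit 156))))))) (XT.nd (nat_lit 702) (nat_lit 76) (nat_lit 0) (XT.nd (nat_lit 312) (nat_lit 152) (nat_lit 0) (XT.nd (nat_lit 156) (nat_lit 76) (nat_lit 0) (XT.nd (nat_lit 78) (nat_lit 0) (nat_lit 0) (XT.lf (nat_lit 0) (nat_lit 46192626426) (nat_lit 76) (nat_lit 64270779320) (nat_lit 152) (nat_lit 85636984198) (nat_lit 8) (nat_lit 5) (nat_lit 9) (nat_lit 5) (nat_lit 10) (nat_lit 4) (nat_lit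 302) (nat_lit 263) (nat_lit 155)) (XT.lf (nat_lit 0) (nat_lit 115322058497) (nat_lit 76) (nat_lit 28864621527) (nat_lit 152) (nat_lit 65593499797) (nat_lit 8) (nat_lit 5) (nat_lit 9) (nat_lit 5) (nat_lit 10) (nat_lit 4) (nat_lit 303) (nat_lit 263) (nat_lit 154))) (XT.nd (nat_lit 78) (nat_lit 76) (nat_lit 0) (XT.lf (nat_lit 0) (nat_lit 180752796284) (nat_lit 152) (nat_lit 34721202376) (nat_lit 0) (nat_lit 9073107925) (nat_lit 8) (nat_lit 5) (nat_lit 10) (nat_lit 4) (nat_lit 8) (nat_lit 4) (nat_lit 304) (nat_lit 263) (nat_lit 153)) (XT.lf (nat_lit 0) (nat_lit 30274775277) (nat_lit 76) (nat_lit 190927537916) (nat_lit 76) (nat_lit 19245171231) (nat_lit 7) (nat_lit 4) (nat_lit 8) (nat_lit 5) (nat_lit 8) (nat_lit 4) (nat_lit 305) (nat_lit 263) (nat_lit 152)))) (XT.nd (nat_lit 156) (nat_lit 76) (nat_lit 0) (XT.nd (nat_lit 78) (nat_lit 0) (nat_lit 0) (XT.lf (nat_lit 0) (nat_lit 7648783715) (nat_lit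 152) (nat_lit 156004839999) (nat_lit 76) (nat_lit 93929922218) (nat_lit 6) (nat_lit 5) (nat_lit 8) (nat_lit 5) (nat_lit 7) (nat_lit 4) (nat_lit 306) (nat_lit 263) (nat_lit 151)) (XT.lf (nat_lit 0) (nat_lit 36027870343) (nat_lit 152) (nat_lit 97830008645) (nat_lit 76) (nat_lit 142216447067) (nat_lit 6) (nat_lit 5) (nat_lit 8) (nat_lit 5) (nat_lit 7) (nat_lit 4) (nat_lit 307) (nat_lit 263) (nat_lit 150))) (XT.nd (nat_lit 78) (nat_lit 76) (nat_lit 0) (XT.lf (nat_lit 0) (nat_lit 66676226686) (nat_lit 152) (nat_lit 35003004285) (nat_lit 76) (nat_lit 194365192368) (nat_lit 6) (nat_lit 5) (nat_lit 8) (nat_lit 5) (nat_lit 7) (nat_lit 4) (nat_lit 308) (nat_lit 263) (nat_lit 149)) (XT.nd (nat_lit 78) (nat_lit 0) (nat_lit 0) (XT.lf (nat_lit 0) (nat_lit 33934600393) (nat_lit 76) (nat_lit 66370686452) (nat_lit 152) (nat_lit 217280401543) (nat_lit 5) (nat_lit 5) (nat_lit 6) (nat_lit 5) (nat_lit 7)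 (nat_lit 4) (nat_lit 309) (nat_lit 263) (nat_lit 148)) (XT.lf (nat_lit 0) (nat_lit 109635553243) (nat_lit 76) (nat_lit 27597916858) (nat_lit 152) (nat_lit 203586346247) (nat_lit 5) (nat_lit 5) (nat_lit 6) (nat_lit 5) (nat_lit 7) (nat_lit 4) (nat_lit 310) (nat_lit 263) (nat_lit 147)))))) (XT.nd (nat_lit 312) (nat_lit 0) (nat_lit 0) (XT.nd (nat_lit 156) (nat_lit 76) (nat_lit 0) (XT.nd (nat_lit 78) (nat_lit 0) (nat_lit 0) (XT.lf (nat_lit 0) (nat_lit 177337934688) (nat_lit 152) (nat_lit 174744513206) (nat_lit 0) (nat_lit 13819126816) (nat_lit 5) (nat_lit 5) (nat_lit 7) (nat_lit 4) (nat_lit 5) (nat_lit 4) (nat_lit 311) (nat_lit 263) (nat_lit 146)) (XT.lf (nat_lit 0) (nat_lit 221115300117) (nat_lit 152) (nat_lit 114256343945) (nat_lit 0) (nat_lit 57595003885) (nat_lit 5) (nat_lit 5) (nat_lit 7) (nat_lit 4) (nat_lit 5) (nat_lit 4) (nat_lit 312) (nat_lit 263) (nat_lit 145))) (XT.nd (nat_lit 78)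 (nat_lit 76) (nat_lit 0) (XT.lf (nat_lit 0) (nat_lit 268394106987) (nat_lit 152) (nat_lit 48930426087) (nat_lit 0) (nat_lit 104872432644) (nat_lit 5) (nat_lit 5) (nat_lit 7) (nat_lit 4) (nat_lit 5) (nat_lit 4) (nat_lit 313) (nat_lit 263) (nat_lit 144)) (XT.lf (nat_lit 0) (nat_lit 22335223558) (nat_lit 76) (nat_lit 297468017882) (nat_lit 76) (nat_lit 133945067510) (nat_lit 4) (nat_lit 4) (nat_lit 5) (nat_lit 5) (nat_lit 5) (nat_lit 4) (nat_lit 314) (nat_lit 263) (nat_lit 143)))) (XT.nd (nat_lit 156) (nat_lit 0) (nat_lit 0) (XT.nd (nat_lit 78) (nat_lit 0) (nat_lit 0) (XT.lf (nat_lit 0) (nat_lit 101048259135) (nat_lit 76) (nat_lit 275128524811) (nat_lit 76) (nat_lit 111604392931) (nat_lit 4) (nat_lit 4) (nat_lit 5) (nat_lit 5) (nat_lit 5) (nat_lit 4) (nat_lit 315) (nat_lit 263) (nat_lit 142)) (XT.lf (nat_lit 0) (nat_lit 186057267401) (nat_lit 76) (nat_lit 251002332122) (nat_lit 76) (nat_lit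 87477106254) (nat_lit 4) (nat_lit 4) (nat_lit 5) (nat_lit 5) (nat_lit 5) (nat_lit 4) (nat_lit 316) (nat_lit 263) (nat_lit 141))) (XT.nd (nat_lit 78) (nat_lit 0) (nat_lit 0) (XT.lf (nat_lit 0) (nat_lit 277866005441) (nat_lit 76) (nat_lit 224946469784) (nat_lit 76) (nat_lit 61420230964) (nat_lit 4) (nat_lit 4) (nat_lit 5) (nat_lit 5) (nat_lit 5) (nat_lit 4) (nat_lit 317) (nat_lit 263) (nat_lit 140)) (XT.nd (nat_lit 78) (nat_lit 0) (nat_lit 0) (XT.lf (nat_lit 0) (nat_lit 377018525036) (nat_lit 76) (nat_lit 196806532688) (nat_lit 76) (nat_lit 33279355948) (nat_lit 4) (nat_lit 4) (nat_lit 5) (nat_lit 5) (nat_lit 5) (nat_lit 4) (nat_lit 318) (nat_lit 263) (nat_lit 139)) (XT.lf (nat_lit 0) (nat_lit 484102396673) (nat_lit 76) (nat_lit 166415765651) (nat_lit 76) (nat_lit 2887720467) (nat_lit 4) (nat_lit 4) (nat_lit 5) (nat_lit 5) (nat_lit 5) (nat_lit 4) (nat_lit 319) (nat_lit 263) (nat_lit 138))))))))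
noncomputable def xc95 : XT := (XT.nd (nat_lit 1404) (nat_lit 1824) (nat_lit 0) (XT.nd (nat_lit 702) (nat_lit 1672) (nat_lit 0) (XT.nd (nat_lit 312) (nat_lit 380) (nat_lit 0) (XT.nd (nat_lit 156) (nat_lit 0) (nat_lit 76) (XT.nd (nat_lit 78) (nat_lit 0) (nat_lit 0) (XT.lf (nat_lit 0) (nat_lit 731174059) (nat_lit 0) (nat_lit 731174059) (nat_lit 684) (nat_lit 11628892373) (nat_lit 60) (nat_lit 5) (nat_lit 60) (nat_lit 3) (nat_lit 69) (nat_lit 3) (nat_lit 264) (nat_lit 264) (nat_lit 192)) (XT.lf (nat_lit 0) (nat_lit 3430836382) (nat_lit 684) (nat_lit 8035299280) (nat_lit 760) (nat_lit 15743593168) (nat_lit 60) (nat_lit 5) (nat_lit 69) (nat_lit 3) (nat_lit 70) (nat_lit 5) (nat_lit 265) (nat_lit 264) (nat_lit 191))) (XT.nd (nat_lit 78) (nat_lit 0) (nat_lit 0) (XT.lf (nat_lit 0) (nat_lit 4244955531) (nat_lit 684) (nat_lit 18125247227) (nat_lit 760) (nat_lit 5935638762) (nat_lit 61) (nat_lit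 5) (nat_lit 70) (nat_lit 5) (nat_lit 71) (nat_lit 5) (nat_lit 266) (nat_lit 264) (nat_lit 190)) (XT.lf (nat_lit 76) (nat_lit 469402073) (nat_lit 0) (nat_lit 4985274857) (nat_lit 760) (nat_lit 24018497666) (nat_lit 62) (nat_lit 5) (nat_lit 61) (nat_lit 5) (nat_lit 71) (nat_lit 5) (nat_lit 267) (nat_lit 264) (nat_lit 189)))) (XT.nd (nat_lit 156) (nat_lit 532) (nat_lit 0) (XT.nd (nat_lit 78) (nat_lit 0) (nat_lit 76) (XT.lf (nat_lit 0) (nat_lit 7285794171) (nat_lit 684) (nat_lit 9748107241) (nat_lit 760) (nat_lit 13673812931) (nat_lit 62) (nat_lit 5) (nat_lit 71) (nat_lit 5) (nat_lit 72) (nat_lit 5) (nat_lit 268) (nat_lit 264) (nat_lit 188)) (XT.lf (nat_lit 0) (nat_lit 9541619049) (nat_lit 684) (nat_lit 20738297281) (nat_lit 760) (nat_lit 1747237184) (nat_lit 63) (nat_lit 5) (nat_lit 72) (nat_lit 5) (nat_lit 73) (nat_lit 5) (nat_lit 269) (nat_lit 264) (nat_lit 187))) (XT.nd (nat_lit 78) (nat_lit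 608) (nat_lit 0) (XT.lf (nat_lit 76) (nat_lit 635540914) (nat_lit 0) (nat_lit 11802087605) (nat_lit 760) (nat_lit 20991577037) (nat_lit 64) (nat_lit 5) (nat_lit 63) (nat_lit 5) (nat_lit 73) (nat_lit 5) (nat_lit 270) (nat_lit 264) (nat_lit 186)) (XT.nd (nat_lit 78) (nat_lit 684) (nat_lit 0) (XT.lf (nat_lit 0) (nat_lit 16050427980) (nat_lit 684) (nat_lit 10606947435) (nat_lit 76) (nat_lit 8261831316) (nat_lit 64) (nat_lit 5) (nat_lit 73) (nat_lit 5) (nat_lit 65) (nat_lit 5) (nat_lit 271) (nat_lit 264) (nat_lit 185)) (XT.lf (nat_lit 0) (nat_lit 13582842095) (nat_lit 684) (nat_lit 6771807228) (nat_lit 760) (nat_lit 16153676215) (nat_lit 55) (nat_lit 5) (nat_lit 64) (nat_lit 5) (nat_lit 65) (nat_lit 5) (nat_lit 272) (nat_lit 264) (nat_lit 184)))))) (XT.nd (nat_lit 312) (nat_lit 760) (nat_lit 0) (XT.nd (nat_lit 156) (nat_lit 608) (nat_lit 0) (XT.nd (nat_lit 78) (nat_lit 0) (nat_lit 0) (XT.lf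 (nat_lit 0) (nat_lit 1684844876) (nat_lit 304) (nat_lit 23753913558) (nat_lit 380) (nat_lit 12764072577) (nat_lit 51) (nat_lit 5) (nat_lit 55) (nat_lit 5) (nat_lit 56) (nat_lit 5) (nat_lit 273) (nat_lit 264) (nat_lit 183)) (XT.lf (nat_lit 0) (nat_lit 28957314605) (nat_lit 304) (nat_lit 2476328733) (nat_lit 380) (nat_lit 8574083325) (nat_lit 51) (nat_lit 5) (nat_lit 55) (nat_lit 5) (nat_lit 56) (nat_lit 5) (nat_lit 274) (nat_lit 264) (nat_lit 182))) (XT.nd (nat_lit 78) (nat_lit 304) (nat_lit 0) (XT.lf (nat_lit 0) (nat_lit 16660464172) (nat_lit 304) (nat_lit 21820814406) (nat_lit 380) (nat_lit 3447107131) (nat_lit 47) (nat_lit 5) (nat_lit 51) (nat_lit 5) (nat_lit 52) (nat_lit 5) (nat_lit 275) (nat_lit 264) (nat_lit 181)) (XT.lf (nat_lit 0) (nat_lit 2311534227) (nat_lit 304) (nat_lit 40997062803) (nat_lit 76) (nat_lit 678075046) (nat_lit 43) (nat_lit 5) (nat_lit 47) (nat_lit 5) (nat_lit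 44) (nat_lit 5) (nat_lit 276) (nat_lit 264) (nat_lit 180)))) (XT.nd (nat_lit 156) (nat_lit 456) (nat_lit 0) (XT.nd (nat_lit 78) (nat_lit 304) (nat_lit 0) (XT.lf (nat_lit 0) (nat_lit 9220612784) (nat_lit 304) (nat_lit 12218029495) (nat_lit 76) (nat_lit 24727652054) (nat_lit 43) (nat_lit 5) (nat_lit 47) (nat_lit 5) (nat_lit 44) (nat_lit 5) (nat_lit 277) (nat_lit 264) (nat_lit 179)) (XT.lf (nat_lit 0) (nat_lit 17019652398) (nat_lit 380) (nat_lit 29064266003) (nat_lit 76) (nat_lit 2419528700) (nat_lit 39) (nat_lit 5) (nat_lit 44) (nat_lit 5) (nat_lit 40) (nat_lit 5) (nat_lit 278) (nat_lit 264) (nat_lit 178))) (XT.nd (nat_lit 78) (nat_lit 228) (nat_lit 0) (XT.lf (nat_lit 0) (nat_lit 2765204922) (nat_lit 228) (nat_lit 23292794712) (nat_lit 304) (nat_lit 24938824036) (nat_lit 36) (nat_lit 5) (nat_lit 39) (nat_lit 5) (nat_lit 40) (nat_lit 5) (nat_lit 279) (nat_lit 264) (nat_lit 177)) (XT.nd (nat_lit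 78) (nat_lit 228) (nat_lit 0) (XT.lf (nat_lit 0) (nat_lit 36349325968) (nat_lit 304) (nat_lit 15521013679) (nat_lit 76) (nat_lit 1792854414) (nat_lit 36) (nat_lit 5) (nat_lit 40) (nat_lit 5) (nat_lit 37) (nat_lit 5) (nat_lit 280) (nat_lit 264) (nat_lit 176)) (XT.lf (nat_lit 0) (nat_lit 20049240353) (nat_lit 228) (nat_lit 28115591488) (nat_lit 304) (nat_lit 8343016407) (nat_lit 33) (nat_lit 5) (nat_lit 36) (nat_lit 5) (nat_lit 37) (nat_lit 5) (nat_lit 281) (nat_lit 264) (nat_lit 175))))))) (XT.nd (nat_lit 702) (nat_lit 760) (nat_lit 0) (XT.nd (nat_lit 312) (nat_lit 532) (nat_lit 0) (XT.nd (nat_lit 156) (nat_lit 228) (nat_lit 0) (XT.nd (nat_lit 78) (nat_lit 228) (nat_lit 0) (XT.lf (nat_lit 0) (nat_lit 1572506708) (nat_lit 304) (nat_lit 578677199) (nat_lit 76) (nat_lit 57414352847) (nat_lit 32) (nat_lit 5) (nat_lit 36) (nat_lit 5) (nat_lit 33) (nat_lit 5) (nat_lit 282) (nat_lit 264) (nat_lit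 174)) (XT.lf (nat_lit 0) (nat_lit 13018375937) (nat_lit 304) (nat_lit 23964275861) (nat_lit 76) (nat_lit 25826894421) (nat_lit 29) (nat_lit 5) (nat_lit 33) (nat_lit 5) (nat_lit 30) (nat_lit 5) (nat_lit 283) (nat_lit 264) (nat_lit 173))) (XT.nd (nat_lit 78) (nat_lit 0) (nat_lit 0) (XT.lf (nat_lit 0) (nat_lit 15588148857) (nat_lit 228) (nat_lit 10077500646) (nat_lit 304) (nat_lit 40633153681) (nat_lit 26) (nat_lit 5) (nat_lit 29) (nat_lit 5) (nat_lit 30) (nat_lit 5) (nat_lit 284) (nat_lit 264) (nat_lit 172)) (XT.lf (nat_lit 0) (nat_lit 40041367702) (nat_lit 304) (nat_lit 11194482622) (nat_lit 76) (nat_lit 18795529732) (nat_lit 26) (nat_lit 5) (nat_lit 30) (nat_lit 5) (nat_lit 27) (nat_lit 5) (nat_lit 285) (nat_lit 264) (nat_lit 171)))) (XT.nd (nat_lit 156) (nat_lit 228) (nat_lit 0) (XT.nd (nat_lit 78) (nat_lit 152) (nat_lit 0) (XT.lf (nat_lit 0) (nat_lit 32343145144) (nat_lit 152) (nat_lit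 23895228603) (nat_lit 228) (nat_lit 17790639372) (nat_lit 24) (nat_lit 5) (nat_lit 26) (nat_lit 5) (nat_lit 27) (nat_lit 5) (nat_lit 286) (nat_lit 264) (nat_lit 170)) (XT.lf (nat_lit 0) (nat_lit 1374651179) (nat_lit 152) (nat_lit 72660601356) (nat_lit 228) (nat_lit 4296009381) (nat_lit 22) (nat_lit 5) (nat_lit 24) (nat_lit 5) (nat_lit 25) (nat_lit 5) (nat_lit 287) (nat_lit 264) (nat_lit 169))) (XT.nd (nat_lit 78) (nat_lit 152) (nat_lit 0) (XT.lf (nat_lit 0) (nat_lit 11086817581) (nat_lit 228) (nat_lit 34153013188) (nat_lit 76) (nat_lit 37672966078) (nat_lit 21) (nat_lit 5) (nat_lit 24) (nat_lit 5) (nat_lit 22) (nat_lit 5) (nat_lit 288) (nat_lit 264) (nat_lit 168)) (XT.nd (nat_lit 78) (nat_lit 0) (nat_lit 0) (XT.lf (nat_lit 0) (nat_lit 12394564993) (nat_lit 152) (nat_lit 15347600908) (nat_lit 228) (nat_lit 60105555769) (nat_lit 19) (nat_lit 5) (nat_lit 21) (nat_lit 5) (nat_lit 22) (nat_lit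 5) (nat_lit 289) (nat_lit 264) (nat_lit 167)) (XT.lf (nat_lit 0) (nat_lit 46596057977) (nat_lit 228) (nat_lit 29540830388) (nat_lit 76) (nat_lit 16997254412) (nat_lit 19) (nat_lit 5) (nat_lit 22) (nat_lit 5) (nat_lit 20) (nat_lit 5) (nat_lit 290) (nat_lit 264) (nat_lit 166)))))) (XT.nd (nat_lit 390) (nat_lit 304) (nat_lit 0) (XT.nd (nat_lit 156) (nat_lit 304) (nat_lit 0) (XT.nd (nat_lit 78) (nat_lit 0) (nat_lit 0) (XT.lf (nat_lit 0) (nat_lit 20435586462) (nat_lit 152) (nat_lit 47097762033) (nat_lit 228) (nat_lit 31281382217) (nat_lit 17) (nat_lit 5) (nat_lit 19) (nat_lit 5) (nat_lit 20) (nat_lit 5) (nat_lit 291) (nat_lit 264) (nat_lit 165)) (XT.lf (nat_lit 0) (nat_lit 75461018208) (nat_lit 152) (nat_lit 15196569959) (nat_lit 228) (nat_lit 14266586157) (nat_lit 17) (nat_lit 5) (nat_lit 19) (nat_lit 5) (nat_lit 20) (nat_lit 5) (nat_lit 292) (nat_lit 264) (nat_lit 164))) (XT.nd (nat_lit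 78) (nat_lit 152) (nat_lit 0) (XT.lf (nat_lit 0) (nat_lit 4659018658) (nat_lit 152) (nat_lit 87739838463) (nat_lit 76) (nat_lit 19086256900) (nat_lit 15) (nat_lit 5) (nat_lit 17) (nat_lit 5) (nat_lit 16) (nat_lit 5) (nat_lit 293) (nat_lit 264) (nat_lit 163)) (XT.nd (nat_lit 78) (nat_lit 152) (nat_lit 0) (XT.lf (nat_lit 0) (nat_lit 25381045074) (nat_lit 152) (nat_lit 36791704478) (nat_lit 76) (nat_lit 56347380838) (nat_lit 15) (nat_lit 5) (nat_lit 17) (nat_lit 5) (nat_lit 16) (nat_lit 5) (nat_lit 294) (nat_lit 264) (nat_lit 162)) (XT.lf (nat_lit 0) (nat_lit 18831561134) (nat_lit 152) (nat_lit 29221098844) (nat_lit 228) (nat_lit 78050702017) (nat_lit 13) (nat_lit 5) (nat_lit 15) (nat_lit 5) (nat_lit 16) (nat_lit 5) (nat_lit 295) (nat_lit 264) (nat_lit 161))))) (XT.nd (nat_lit 156) (nat_lit 228) (nat_lit 0) (XT.nd (nat_lit 78) (nat_lit 76) (nat_lit 0) (XT.lf (nat_lit 0) (nat_lit 73286704374)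 (nat_lit 228) (nat_lit 54155994481) (nat_lit 76) (nat_lit 6813123116) (nat_lit 13) (nat_lit 5) (nat_lit 16) (nat_lit 5) (nat_lit 14) (nat_lit 4) (nat_lit 296) (nat_lit 264) (nat_lit 160)) (XT.lf (nat_lit 0) (nat_lit 2802930954) (nat_lit 76) (nat_lit 98271083717) (nat_lit 152) (nat_lit 41959741453) (nat_lit 12) (nat_lit 5) (nat_lit 13) (nat_lit 5) (nat_lit 14) (nat_lit 4) (nat_lit 297) (nat_lit 264) (nat_lit 159))) (XT.nd (nat_lit 78) (nat_lit 228) (nat_lit 0) (XT.lf (nat_lit 0) (nat_lit 66249464142) (nat_lit 76) (nat_lit 65776364674) (nat_lit 152) (nat_lit 20441024406) (nat_lit 12) (nat_lit 5) (nat_lit 13) (nat_lit 5) (nat_lit 14) (nat_lit 4) (nat_lit 298) (nat_lit 264) (nat_lit 158)) (XT.nd (nat_lit 78) (nat_lit 152) (nat_lit 0) (XT.lf (nat_lit 0) (nat_lit 2707859821) (nat_lit 152) (nat_lit 27929419661) (nat_lit 76) (nat_lit 132015224050) (nat_lit 11) (nat_lit 5) (nat_lit 13) (nat_lit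 5) (nat_lit 12) (nat_lit 5) (nat_lit 299) (nat_lit 264) (nat_lit 157)) (XT.lf (nat_lit 0) (nat_lit 27688706050) (nat_lit 228) (nat_lit 137916096378) (nat_lit 76) (nat_lit 7996641640) (nat_lit 9) (nat_lit 5) (nat_lit 12) (nat_lit 5) (nat_lit 10) (nat_lit 4) (nat_lit 300) (nat_lit 264) (nat_lit 156))))))))
noncomputable def xc96 : XT := (XT.nd (nat_lit 1404) (nat_lit 0) (nat_lit 0) (XT.nd (nat_lit 702) (nat_lit 152) (nat_lit 0) (XT.nd (nat_lit 312) (nat_lit 152) (nat_lit 0) (XT.nd (nat_lit 156) (nat_lit 76) (nat_lit 0) (XT.nd (nat_lit 78) (nat_lit 0) (nat_lit 0) (XT.lf (nat_lit 0) (nat_lit 55677563360) (nat_lit 228) (nat_lit 80542481509) (nat_lit 76) (nat_lit 49155780958) (nat_lit 9) (nat_lit 5) (nat_lit 12) (nat_lit 5) (nat_lit 10) (nat_lit 4) (nat_lit 301) (nat_lit 264) (nat_lit 155)) (XT.lf (nat_lit 0) (nat_lit 85904098513) (nat_lit 228) (nat_lit 18581364645) (nat_lit 76) (nat_lit 93606769420)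 (nat_lit 9) (nat_lit 5) (nat_lit 12) (nat_lit 5) (nat_lit 10) (nat_lit 4) (nat_lit 302) (nat_lit 264) (nat_lit 154))) (XT.nd (nat_lit 78) (nat_lit 0) (nat_lit 0) (XT.lf (nat_lit 0) (nat_lit 49932585781) (nat_lit 76) (nat_lit 69394433536) (nat_lit 152) (nat_lit 92460022110) (nat_lit 8) (nat_lit 5) (nat_lit 9) (nat_lit 5) (nat_lit 10) (nat_lit 4) (nat_lit 303) (nat_lit 264) (nat_lit 153)) (XT.lf (nat_lit 0) (nat_lit 124589072473) (nat_lit 76) (nat_lit 31157117056) (nat_lit 152) (nat_lit 70815127166) (nat_lit 8) (nat_lit 5) (nat_lit 9) (nat_lit 5) (nat_lit 10) (nat_lit 4) (nat_lit 304) (nat_lit 264) (nat_lit 152)))) (XT.nd (nat_lit 156) (nat_lit 76) (nat_lit 0) (XT.nd (nat_lit 78) (nat_lit 76) (nat_lit 0) (XT.lf (nat_lit 0) (nat_lit 195236015759) (nat_lit 152) (nat_lit 37459762939) (nat_lit 0) (nat_lit 9813901481) (nat_lit 8) (nat_lit 5) (nat_lit 10) (nat_lit 4) (nat_lit 8) (nat_lit 4) (nat_lit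 305) (nat_lit 264) (nat_lit 151)) (XT.lf (nat_lit 0) (nat_lit 32734192139) (nat_lit 76) (nat_lit 206186182953) (nat_lit 76) (nat_lit 20761772442) (nat_lit 7) (nat_lit 4) (nat_lit 8) (nat_lit 5) (nat_lit 8) (nat_lit 4) (nat_lit 306) (nat_lit 264) (nat_lit 150))) (XT.nd (nat_lit 78) (nat_lit 0) (nat_lit 0) (XT.lf (nat_lit 0) (nat_lit 8281312287) (nat_lit 152) (nat_lit 168449846464) (nat_lit 76) (nat_lit 101458002701) (nat_lit 6) (nat_lit 5) (nat_lit 8) (nat_lit 5) (nat_lit 7) (nat_lit 4) (nat_lit 307) (nat_lit 264) (nat_lit 149)) (XT.nd (nat_lit 78) (nat_lit 0) (nat_lit 0) (XT.lf (nat_lit 0) (nat_lit 38929198002) (nat_lit 152) (nat_lit 105623649397) (nat_lit 76) (nat_lit 153606435708) (nat_lit 6) (nat_lit 5) (nat_lit 8) (nat_lit 5) (nat_lit 7) (nat_lit 4) (nat_lit 308) (nat_lit 264) (nat_lit 148)) (XT.lf (nat_lit 0) (nat_lit 72028008183) (nat_lit 152) (nat_lit 37772911350) (nat_lit 76)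 (nat_lit 209926141902) (nat_lit 6) (nat_lit 5) (nat_lit 8) (nat_lit 5) (nat_lit 7) (nat_lit 4) (nat_lit 309) (nat_lit 264) (nat_lit 147)))))) (XT.nd (nat_lit 312) (nat_lit 76) (nat_lit 0) (XT.nd (nat_lit 156) (nat_lit 0) (nat_lit 0) (XT.nd (nat_lit 78) (nat_lit 0) (nat_lit 0) (XT.lf (nat_lit 0) (nat_lit 36678383455) (nat_lit 76) (nat_lit 71668152828) (nat_lit 152) (nat_lit 234645136590) (nat_lit 5) (nat_lit 5) (nat_lit 6) (nat_lit 5) (nat_lit 7) (nat_lit 4) (nat_lit 310) (nat_lit 264) (nat_lit 146)) (XT.lf (nat_lit 0) (nat_lit 118433263272) (nat_lit 76) (nat_lit 29794464521) (nat_lit 152) (nat_lit 219856867765) (nat_lit 5) (nat_lit 5) (nat_lit 6) (nat_lit 5) (nat_lit 7) (nat_lit 4) (nat_lit 311) (nat_lit 264) (nat_lit 145))) (XT.nd (nat_lit 78) (nat_lit 0) (nat_lit 0) (XT.lf (nat_lit 0) (nat_lit 191539558616) (nat_lit 152) (nat_lit 188698615312) (nat_lit 0) (nat_lit 14934772215) (nat_lit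 5) (nat_lit 5) (nat_lit 7) (nat_lit 4) (nat_lit 5) (nat_lit 4) (nat_lit 312) (nat_lit 264) (nat_lit 144)) (XT.lf (nat_lit 0) (nat_lit 238818032601) (nat_lit 152) (nat_lit 123373278358) (nat_lit 0) (nat_lit 62211970171) (nat_lit 5) (nat_lit 5) (nat_lit 7) (nat_lit 4) (nat_lit 5) (nat_lit 4) (nat_lit 313) (nat_lit 264) (nat_lit 143)))) (XT.nd (nat_lit 156) (nat_lit 0) (nat_lit 0) (XT.nd (nat_lit 78) (nat_lit 76) (nat_lit 0) (XT.lf (nat_lit 0) (nat_lit 289878143392) (nat_lit 152) (nat_lit 52823033227) (nat_lit 0) (nat_lit 113270899455) (nat_lit 5) (nat_lit 5) (nat_lit 7) (nat_lit 4) (nat_lit 5) (nat_lit 4) (nat_lit 314) (nat_lit 264) (nat_lit 142)) (XT.lf (nat_lit 0) (nat_lit 24142919816) (nat_lit 76) (nat_lit 321256488248) (nat_lit 76) (nat_lit 144648150321) (nat_lit 4) (nat_lit 4) (nat_lit 5) (nat_lit 5) (nat_lit 5) (nat_lit 4) (nat_lit 315) (nat_lit 264) (nat_lit 141))) (XT.nd (nat_lit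 78) (nat_lit 0) (nat_lit 0) (XT.lf (nat_lit 0) (nat_lit 109151451694) (nat_lit 76) (nat_lit 297130500254) (nat_lit 76) (nat_lit 120521149375) (nat_lit 4) (nat_lit 4) (nat_lit 5) (nat_lit 5) (nat_lit 5) (nat_lit 4) (nat_lit 316) (nat_lit 264) (nat_lit 140)) (XT.nd (nat_lit 78) (nat_lit 0) (nat_lit 0) (XT.lf (nat_lit 0) (nat_lit 200959748634) (nat_lit 76) (nat_lit 271074827450) (nat_lit 76) (nat_lit 94464538652) (nat_lit 4) (nat_lit 4) (nat_lit 5) (nat_lit 5) (nat_lit 5) (nat_lit 4) (nat_lit 317) (nat_lit 264) (nat_lit 139)) (XT.lf (nat_lit 0) (nat_lit 300111859803) (nat_lit 76) (nat_lit 242935065847) (nat_lit 76) (nat_lit 66323908605) (nat_lit 4) (nat_lit 4) (nat_lit 5) (nat_lit 5) (nat_lit 5) (nat_lit 4) (nat_lit 318) (nat_lit 264) (nat_lit 138))))))) (XT.nd (nat_lit 33930) (nat_lit 0) (nat_lit 2432) (XT.nd (nat_lit 33540) (nat_lit 0) (nat_lit 4332) (XT.nd (nat_lit 33384) (nat_lit 0)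 (nat_lit 4256) (XT.nd (nat_lit 33306) (nat_lit 0) (nat_lit 4256) (XT.lf (nat_lit 0) (nat_lit 407195353267) (nat_lit 76) (nat_lit 212544461303) (nat_lit 76) (nat_lit 35932499947) (nat_lit 4) (nat_lit 4) (nat_lit 5) (nat_lit 5) (nat_lit 5) (nat_lit 4) (nat_lit 319) (nat_lit 264) (nat_lit 137)) (XT.lf (nat_lit 0) (nat_lit 855653608) (nat_lit 0) (nat_lit 855653608) (nat_lit 684) (nat_lit 12420054455) (nat_lit 60) (nat_lit 5) (nat_lit 60) (nat_lit 3) (nat_lit 69) (nat_lit 3) (nat_lit 265) (nat_lit 265) (nat_lit 190))) (XT.nd (nat_lit 78) (nat_lit 0) (nat_lit 76) (XT.lf (nat_lit 0) (nat_lit 3947786677) (nat_lit 684) (nat_lit 8540727102) (nat_lit 760) (nat_lit 16884796044) (nat_lit 60) (nat_lit 5) (nat_lit 69) (nat_lit 3) (nat_lit 70) (nat_lit 5) (nat_lit 266) (nat_lit 265) (nat_lit 189)) (XT.lf (nat_lit 0) (nat_lit 4809640003) (nat_lit 684) (nat_lit 19430034087) (nat_lit 760) (nat_lit 6318386698)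 (nat_lit 61) (nat_lit 5) (nat_lit 70) (nat_lit 5) (nat_lit 71) (nat_lit 5) (nat_lit 267) (nat_lit 265) (nat_lit 188)))) (XT.nd (nat_lit 156) (nat_lit 0) (nat_lit 152) (XT.nd (nat_lit 78) (nat_lit 0) (nat_lit 76) (XT.lf (nat_lit 76) (nat_lit 645875512) (nat_lit 0) (nat_lit 5455759366) (nat_lit 760) (nat_lit 25717944447) (nat_lit 62) (nat_lit 5) (nat_lit 61) (nat_lit 5) (nat_lit 71) (nat_lit 5) (nat_lit 268) (nat_lit 265) (nat_lit 187)) (XT.lf (nat_lit 0) (nat_lit 8062606724) (nat_lit 684) (nat_lit 10387687890) (nat_lit 760) (nat_lit 14703487529) (nat_lit 62) (nat_lit 5) (nat_lit 71) (nat_lit 5) (nat_lit 72) (nat_lit 5) (nat_lit 269) (nat_lit 265) (nat_lit 186))) (XT.nd (nat_lit 78) (nat_lit 0) (nat_lit 0) (XT.lf (nat_lit 0) (nat_lit 10485884111) (nat_lit 684) (nat_lit 22252574663) (nat_lit 760) (nat_lit 1841031451) (nat_lit 63) (nat_lit 5) (nat_lit 72) (nat_lit 5) (nat_lit 73) (nat_lit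 5) (nat_lit 270) (nat_lit 265) (nat_lit 185)) (XT.nd (nat_lit 78) (nat_lit 0) (nat_lit 76) (XT.lf (nat_lit 76) (nat_lit 824878347) (nat_lit 0) (nat_lit 12777455641) (nat_lit 760) (nat_lit 22491992889) (nat_lit 64) (nat_lit 5) (nat_lit 63) (nat_lit 5) (nat_lit 73) (nat_lit 5) (nat_lit 271) (nat_lit 265) (nat_lit 184)) (XT.lf (nat_lit 0) (nat_lit 17491136340) (nat_lit 684) (nat_lit 11318284323) (nat_lit 76) (nat_lit 8894812636) (nat_lit 64) (nat_lit 5) (nat_lit 73) (nat_lit 5) (nat_lit 65) (nat_lit 5) (nat_lit 272) (nat_lit 265) (nat_lit 183)))))) (XT.nd (nat_lit 312) (nat_lit 836) (nat_lit 0) (XT.nd (nat_lit 156) (nat_lit 304) (nat_lit 0) (XT.nd (nat_lit 78) (nat_lit 304) (nat_lit 0) (XT.lf (nat_lit 0) (nat_lit 14800725004) (nat_lit 684) (nat_lit 7329414164) (nat_lit 760) (nat_lit 17290870349) (nat_lit 55) (nat_lit 5) (nat_lit 64) (nat_lit 5) (nat_lit 65) (nat_lit 5) (nat_lit 273) (nat_lit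 265) (nat_lit 182)) (XT.lf (nat_lit 0) (nat_lit 1953055868) (nat_lit 304) (nat_lit 25658877319) (nat_lit 380) (nat_lit 13639640814) (nat_lit 51) (nat_lit 5) (nat_lit 55) (nat_lit 5) (nat_lit 56) (nat_lit 5) (nat_lit 274) (nat_lit 265) (nat_lit 181))) (XT.nd (nat_lit 78) (nat_lit 304) (nat_lit 0) (XT.lf (nat_lit 0) (nat_lit 31397439961) (nat_lit 304) (nat_lit 2678741214) (nat_lit 380) (nat_lit 9125234464) (nat_lit 51) (nat_lit 5) (nat_lit 55) (nat_lit 5) (nat_lit 56) (nat_lit 5) (nat_lit 275) (nat_lit 265) (nat_lit 180)) (XT.lf (nat_lit 0) (nat_lit 18118164922) (nat_lit 304) (nat_lit 23561879430) (nat_lit 380) (nat_lit 3596101966) (nat_lit 47) (nat_lit 5) (nat_lit 51) (nat_lit 5) (nat_lit 52) (nat_lit 5) (nat_lit 276) (nat_lit 265) (nat_lit 179)))) (XT.nd (nat_lit 156) (nat_lit 532) (nat_lit 0) (XT.nd (nat_lit 78) (nat_lit 0) (nat_lit 0) (XT.lf (nat_lit 0) (nat_lit 2612143701) (nat_lit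 304) (nat_lit 44146968549) (nat_lit 76) (nat_lit 740270920) (nat_lit 43) (nat_lit 5) (nat_lit 47) (nat_lit 5) (nat_lit 44) (nat_lit 5) (nat_lit 277) (nat_lit 265) (nat_lit 178)) (XT.lf (nat_lit 0) (nat_lit 10065379156) (nat_lit 304) (nat_lit 13075231782) (nat_lit 76) (nat_lit 26713225208) (nat_lit 43) (nat_lit 5) (nat_lit 47) (nat_lit 5) (nat_lit 44) (nat_lit 5) (nat_lit 278) (nat_lit 265) (nat_lit 177))) (XT.nd (nat_lit 78) (nat_lit 228) (nat_lit 0) (XT.lf (nat_lit 0) (nat_lit 18482422163) (nat_lit 380) (nat_lit 31269187116) (nat_lit 76) (nat_lit 2626677908) (nat_lit 39) (nat_lit 5) (nat_lit 44) (nat_lit 5) (nat_lit 40) (nat_lit 5) (nat_lit 279) (nat_lit 265) (nat_lit 176)) (XT.nd (nat_lit 78) (nat_lit 0) (nat_lit 0) (XT.lf (nat_lit 0) (nat_lit 3101416860) (nat_lit 228) (nat_lit 25136719604) (nat_lit 304) (nat_lit 26833310291) (nat_lit 36) (nat_lit 5) (nat_lit 39) (nat_lit 5) (nat_lit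 40) (nat_lit 5) (nat_lit 280) (nat_lit 265) (nat_lit 175)) (XT.lf (nat_lit 0) (nat_lit 39345976943) (nat_lit 304) (nat_lit 16651755954) (nat_lit 76) (nat_lit 1953759254) (nat_lit 36) (nat_lit 5) (nat_lit 40) (nat_lit 5) (nat_lit 37) (nat_lit 5) (nat_lit 281) (nat_lit 265) (nat_lit 174))))))))
noncomputable def xc97 : XT := (XT.nd (nat_lit 1404) (nat_lit 608) (nat_lit 0) (XT.nd (nat_lit 702) (nat_lit 532) (nat_lit 0) (XT.nd (nat_lit 312) (nat_lit 532) (nat_lit 0) (XT.nd (nat_lit 156) (nat_lit 456) (nat_lit 0) (XT.nd (nat_lit 78) (nat_lit 76) (nat_lit 0) (XT.lf (nat_lit 0) (nat_lit 21759297134) (nat_lit 228) (nat_lit 30342512210) (nat_lit 304) (nat_lit 8922178891) (nat_lit 33) (nat_lit 5) (nat_lit 36) (nat_lit 5) (nat_lit 37) (nat_lit 5) (nat_lit 282) (nat_lit 265) (nat_lit 173)) (XT.lf (nat_lit 0) (nat_lit 1777430721) (nat_lit 304) (nat_lit 523835128) (nat_lit 76) (nat_lit 62025294597)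 (nat_lit 32) (nat_lit 5) (nat_lit 36) (nat_lit 5) (nat_lit 33) (nat_lit 5) (nat_lit 283) (nat_lit 265) (nat_lit 172))) (XT.nd (nat_lit 78) (nat_lit 228) (nat_lit 0) (XT.lf (nat_lit 0) (nat_lit 14134961872) (nat_lit 304) (nat_lit 25781037695) (nat_lit 76) (nat_lit 27914310969) (nat_lit 29) (nat_lit 5) (nat_lit 33) (nat_lit 5) (nat_lit 30) (nat_lit 5) (nat_lit 284) (nat_lit 265) (nat_lit 171)) (XT.lf (nat_lit 0) (nat_lit 16931218598) (nat_lit 228) (nat_lit 10858733696) (nat_lit 304) (nat_lit 43808977062) (nat_lit 26) (nat_lit 5) (nat_lit 29) (nat_lit 5) (nat_lit 30) (nat_lit 5) (nat_lit 285) (nat_lit 265) (nat_lit 170)))) (XT.nd (nat_lit 156) (nat_lit 380) (nat_lit 0) (XT.nd (nat_lit 78) (nat_lit 152) (nat_lit 0) (XT.lf (nat_lit 0) (nat_lit 43310825854) (nat_lit 304) (nat_lit 11997998537) (nat_lit 76) (nat_lit 20321549797) (nat_lit 26) (nat_lit 5) (nat_lit 30) (nat_lit 5) (nat_lit 27) (nat_lit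 5) (nat_lit 286) (nat_lit 265) (nat_lit 169)) (XT.lf (nat_lit 0) (nat_lit 35018639387) (nat_lit 152) (nat_lit 25781427681) (nat_lit 228) (nat_lit 19147942562) (nat_lit 24) (nat_lit 5) (nat_lit 26) (nat_lit 5) (nat_lit 27) (nat_lit 5) (nat_lit 287) (nat_lit 265) (nat_lit 168))) (XT.nd (nat_lit 78) (nat_lit 228) (nat_lit 0) (XT.lf (nat_lit 0) (nat_lit 1571640119) (nat_lit 152) (nat_lit 78446143314) (nat_lit 228) (nat_lit 4576814860) (nat_lit 22) (nat_lit 5) (nat_lit 24) (nat_lit 5) (nat_lit 25) (nat_lit 5) (nat_lit 288) (nat_lit 265) (nat_lit 167)) (XT.nd (nat_lit 78) (nat_lit 152) (nat_lit 0) (XT.lf (nat_lit 0) (nat_lit 12030117497) (nat_lit 228) (nat_lit 36802661869) (nat_lit 76) (nat_lit 40710065617) (nat_lit 21) (nat_lit 5) (nat_lit 24) (nat_lit 5) (nat_lit 22) (nat_lit 5) (nat_lit 289) (nat_lit 265) (nat_lit 166)) (XT.lf (nat_lit 0) (nat_lit 13465133202) (nat_lit 152) (nat_lit 16549819531)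 (nat_lit 228) (nat_lit 64857769801) (nat_lit 19) (nat_lit 5) (nat_lit 21) (nat_lit 5) (nat_lit 22) (nat_lit 5) (nat_lit 290) (nat_lit 265) (nat_lit 165)))))) (XT.nd (nat_lit 312) (nat_lit 228) (nat_lit 0) (XT.nd (nat_lit 156) (nat_lit 152) (nat_lit 0) (XT.nd (nat_lit 78) (nat_lit 152) (nat_lit 0) (XT.lf (nat_lit 0) (nat_lit 50373569544) (nat_lit 228) (nat_lit 31828707600) (nat_lit 76) (nat_lit 18379970347) (nat_lit 19) (nat_lit 5) (nat_lit 22) (nat_lit 5) (nat_lit 20) (nat_lit 5) (nat_lit 291) (nat_lit 265) (nat_lit 164)) (XT.lf (nat_lit 0) (nat_lit 22142546274) (nat_lit 152) (nat_lit 50840732030) (nat_lit 228) (nat_lit 33734142434) (nat_lit 17) (nat_lit 5) (nat_lit 19) (nat_lit 5) (nat_lit 20) (nat_lit 5) (nat_lit 292) (nat_lit 265) (nat_lit 163))) (XT.nd (nat_lit 78) (nat_lit 152) (nat_lit 0) (XT.lf (nat_lit 0) (nat_lit 81564670864) (nat_lit 152) (nat_lit 16389285403) (nat_lit 228)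 (nat_lit 15361847901) (nat_lit 17) (nat_lit 5) (nat_lit 19) (nat_lit 5) (nat_lit 20) (nat_lit 5) (nat_lit 293) (nat_lit 265) (nat_lit 162)) (XT.lf (nat_lit 0) (nat_lit 5074409050) (nat_lit 152) (nat_lit 94691782643) (nat_lit 76) (nat_lit 20635495667) (nat_lit 15) (nat_lit 5) (nat_lit 17) (nat_lit 5) (nat_lit 16) (nat_lit 5) (nat_lit 294) (nat_lit 265) (nat_lit 161)))) (XT.nd (nat_lit 156) (nat_lit 76) (nat_lit 0) (XT.nd (nat_lit 78) (nat_lit 152) (nat_lit 0) (XT.lf (nat_lit 0) (nat_lit 27451036920) (nat_lit 152) (nat_lit 39672778893) (nat_lit 76) (nat_lit 60875854838) (nat_lit 15) (nat_lit 5) (nat_lit 17) (nat_lit 5) (nat_lit 16) (nat_lit 5) (nat_lit 295) (nat_lit 265) (nat_lit 160)) (XT.lf (nat_lit 0) (nat_lit 20397642139) (nat_lit 152) (nat_lit 31536742179) (nat_lit 228) (nat_lit 84255283322) (nat_lit 13) (nat_lit 5) (nat_lit 15) (nat_lit 5) (nat_lit 16) (nat_lit 5) (nat_lit 296) (nat_lit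 265) (nat_lit 159))) (XT.nd (nat_lit 78) (nat_lit 76) (nat_lit 0) (XT.lf (nat_lit 0) (nat_lit 79184692316) (nat_lit 228) (nat_lit 58431830288) (nat_lit 76) (nat_lit 7377931306) (nat_lit 13) (nat_lit 5) (nat_lit 16) (nat_lit 5) (nat_lit 14) (nat_lit 4) (nat_lit 297) (nat_lit 265) (nat_lit 158)) (XT.nd (nat_lit 78) (nat_lit 0) (nat_lit 0) (XT.lf (nat_lit 0) (nat_lit 3081347513) (nat_lit 76) (nat_lit 106111889443) (nat_lit 152) (nat_lit 45281479380) (nat_lit 12) (nat_lit 5) (nat_lit 13) (nat_lit 5) (nat_lit 14) (nat_lit 4) (nat_lit 298) (nat_lit 265) (nat_lit 157)) (XT.lf (nat_lit 0) (nat_lit 71599589870) (nat_lit 76) (nat_lit 71019139615) (nat_lit 152) (nat_lit 22043860627) (nat_lit 12) (nat_lit 5) (nat_lit 13) (nat_lit 5) (nat_lit 14) (nat_lit 4) (nat_lit 299) (nat_lit 265) (nat_lit 156))))))) (XT.nd (nat_lit 702) (nat_lit 152) (nat_lit 0) (XT.nd (nat_lit 312) (nat_lit 228) (nat_lit 0)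 (XT.nd (nat_lit 156) (nat_lit 0) (nat_lit 0) (XT.nd (nat_lit 78) (nat_lit 152) (nat_lit 0) (XT.lf (nat_lit 0) (nat_lit 2953569407) (nat_lit 152) (nat_lit 30116297868) (nat_lit 76) (nat_lit 142593321079) (nat_lit 11) (nat_lit 5) (nat_lit 13) (nat_lit 5) (nat_lit 12) (nat_lit 5) (nat_lit 300) (nat_lit 265) (nat_lit 155)) (XT.lf (nat_lit 0) (nat_lit 29931715753) (nat_lit 228) (nat_lit 148902810831) (nat_lit 76) (nat_lit 8653580479) (nat_lit 9) (nat_lit 5) (nat_lit 12) (nat_lit 5) (nat_lit 10) (nat_lit 4) (nat_lit 301) (nat_lit 265) (nat_lit 154))) (XT.nd (nat_lit 78) (nat_lit 0) (nat_lit 0) (XT.lf (nat_lit 0) (nat_lit 60157614002) (nat_lit 228) (nat_lit 86942756644) (nat_lit 76) (nat_lit 53104176312) (nat_lit 9) (nat_lit 5) (nat_lit 12) (nat_lit 5) (nat_lit 10) (nat_lit 4) (nat_lit 302) (nat_lit 265) (nat_lit 153)) (XT.lf (nat_lit 0) (nat_lit 92800357480) (nat_lit 228) (nat_lit 20027944756)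 (nat_lit 76) (nat_lit 101110063638) (nat_lit 9) (nat_lit 5) (nat_lit 12) (nat_lit 5) (nat_lit 10) (nat_lit 4) (nat_lit 303) (nat_lit 265) (nat_lit 152)))) (XT.nd (nat_lit 156) (nat_lit 152) (nat_lit 0) (XT.nd (nat_lit 78) (nat_lit 0) (nat_lit 0) (XT.lf (nat_lit 0) (nat_lit 53965386436) (nat_lit 76) (nat_lit 74930549151) (nat_lit 152) (nat_lit 99832886272) (nat_lit 8) (nat_lit 5) (nat_lit 9) (nat_lit 5) (nat_lit 10) (nat_lit 4) (nat_lit 304) (nat_lit 265) (nat_lit 151)) (XT.lf (nat_lit 0) (nat_lit 134591562894) (nat_lit 76) (nat_lit 33635390987) (nat_lit 152) (nat_lit 76458172889) (nat_lit 8) (nat_lit 5) (nat_lit 9) (nat_lit 5) (nat_lit 10) (nat_lit 4) (nat_lit 305) (nat_lit 265) (nat_lit 150))) (XT.nd (nat_lit 78) (nat_lit 152) (nat_lit 0) (XT.lf (nat_lit 0) (nat_lit 210874612188) (nat_lit 152) (nat_lit 40422991482) (nat_lit 0) (nat_lit 10611826461) (nat_lit 8) (nat_lit 5) (nat_lit 10)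 (nat_lit 4) (nat_lit 8) (nat_lit 4) (nat_lit 306) (nat_lit 265) (nat_lit 149)) (XT.nd (nat_lit 78) (nat_lit 76) (nat_lit 0) (XT.lf (nat_lit 0) (nat_lit 35385021852) (nat_lit 76) (nat_lit 222667739115) (nat_lit 76) (nat_lit 22402984738) (nat_lit 7) (nat_lit 4) (nat_lit 8) (nat_lit 5) (nat_lit 8) (nat_lit 4) (nat_lit 307) (nat_lit 265) (nat_lit 148)) (XT.lf (nat_lit 0) (nat_lit 8961500632) (nat_lit 152) (nat_lit 181895500904) (nat_lit 76) (nat_lit 109586377061) (nat_lit 6) (nat_lit 5) (nat_lit 8) (nat_lit 5) (nat_lit 7) (nat_lit 4) (nat_lit 308) (nat_lit 265) (nat_lit 147)))))) (XT.nd (nat_lit 312) (nat_lit 76) (nat_lit 0) (XT.nd (nat_lit 156) (nat_lit 76) (nat_lit 0) (XT.nd (nat_lit 78) (nat_lit 0) (nat_lit 0) (XT.lf (nat_lit 0) (nat_lit 42059907327) (nat_lit 152) (nat_lit 114045454980) (nat_lit 76) (nat_lit 165905815513) (nat_lit 6) (nat_lit 5) (nat_lit 8) (nat_lit 5) (nat_lit 7) (nat_lit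 4) (nat_lit 309) (nat_lit 265) (nat_lit 146)) (XT.lf (nat_lit 0) (nat_lit 77805409471) (nat_lit 152) (nat_lit 40768738361) (nat_lit 76) (nat_lit 226730293391) (nat_lit 6) (nat_lit 5) (nat_lit 8) (nat_lit 5) (nat_lit 7) (nat_lit 4) (nat_lit 310) (nat_lit 265) (nat_lit 145))) (XT.nd (nat_lit 78) (nat_lit 0) (nat_lit 0) (XT.lf (nat_lit 0) (nat_lit 39637529843) (nat_lit 76) (nat_lit 77391155345) (nat_lit 152) (nat_lit 253401575127) (nat_lit 5) (nat_lit 5) (nat_lit 6) (nat_lit 5) (nat_lit 7) (nat_lit 4) (nat_lit 311) (nat_lit 265) (nat_lit 144)) (XT.lf (nat_lit 0) (nat_lit 127930957400) (nat_lit 76) (nat_lit 32168346026) (nat_lit 152) (nat_lit 237431368676) (nat_lit 5) (nat_lit 5) (nat_lit 6) (nat_lit 5) (nat_lit 7) (nat_lit 4) (nat_lit 312) (nat_lit 265) (nat_lit 143)))) (XT.nd (nat_lit 156) (nat_lit 76) (nat_lit 0) (XT.nd (nat_lit 78) (nat_lit 0) (nat_lit 0) (XT.lf (nat_lit 0) (nat_lit 206875231152)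 (nat_lit 152) (nat_lit 203772677591) (nat_lit 0) (nat_lit 16138226191) (nat_lit 5) (nat_lit 5) (nat_lit 7) (nat_lit 4) (nat_lit 5) (nat_lit 4) (nat_lit 313) (nat_lit 265) (nat_lit 142)) (XT.lf (nat_lit 0) (nat_lit 257935056548) (nat_lit 152) (nat_lit 133222930492) (nat_lit 0) (nat_lit 67196957599) (nat_lit 5) (nat_lit 5) (nat_lit 7) (nat_lit 4) (nat_lit 5) (nat_lit 4) (nat_lit 314) (nat_lit 265) (nat_lit 141))) (XT.nd (nat_lit 78) (nat_lit 76) (nat_lit 0) (XT.lf (nat_lit 0) (nat_lit 313079118326) (nat_lit 152) (nat_lit 57030162797) (nat_lit 0) (nat_lit 122340006424) (nat_lit 5) (nat_lit 5) (nat_lit 7) (nat_lit 4) (nat_lit 5) (nat_lit 4) (nat_lit 315) (nat_lit 265) (nat_lit 140)) (XT.nd (nat_lit 78) (nat_lit 0) (nat_lit 0) (XT.lf (nat_lit 0) (nat_lit 26092253242) (nat_lit 76) (nat_lit 346949316066) (nat_lit 76) (nat_lit 156209266245) (nat_lit 4) (nat_lit 4) (nat_lit 5) (nat_lit 5) (nat_lit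 5) (nat_lit 4) (nat_lit 316) (nat_lit 265) (nat_lit 139)) (XT.lf (nat_lit 0) (nat_lit 117900141756) (nat_lit 76) (nat_lit 320893818754) (nat_lit 76) (nat_lit 130152900490) (nat_lit 4) (nat_lit 4) (nat_lit 5) (nat_lit 5) (nat_lit 5) (nat_lit 4) (nat_lit 317) (nat_lit 265) (nat_lit 138))))))))
noncomputable def xc98 : XT := (XT.nd (nat_lit 34710) (nat_lit 0) (nat_lit 608) (XT.nd (nat_lit 34008) (nat_lit 0) (nat_lit 2432) (XT.nd (nat_lit 33618) (nat_lit 0) (nat_lit 4332) (XT.nd (nat_lit 33462) (nat_lit 0) (nat_lit 4256) (XT.nd (nat_lit 78) (nat_lit 0) (nat_lit 0) (XT.lf (nat_lit 0) (nat_lit 217051874753) (nat_lit 76) (nat_lit 292754219645) (nat_lit 76) (nat_lit 102012497266) (nat_lit 4) (nat_lit 4) (nat_lit 5) (nat_lit 5) (nat_lit 5) (nat_lit 4) (nat_lit 318) (nat_lit 265) (nat_lit 137)) (XT.lf (nat_lit 0) (nat_lit 324135018058) (nat_lit 76) (nat_lit 262363765559) (nat_lit 76) (nat_lit 71621298629)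 (nat_lit 4) (nat_lit 4) (nat_lit 5) (nat_lit 5) (nat_lit 5) (nat_lit 4) (nat_lit 319) (nat_lit 265) (nat_lit 136))) (XT.nd (nat_lit 78) (nat_lit 0) (nat_lit 0) (XT.lf (nat_lit 0) (nat_lit 980677933) (nat_lit 0) (nat_lit 980677933) (nat_lit 684) (nat_lit 13294360707) (nat_lit 60) (nat_lit 5) (nat_lit 60) (nat_lit 3) (nat_lit 69) (nat_lit 3) (nat_lit 266) (nat_lit 266) (nat_lit 188)) (XT.lf (nat_lit 0) (nat_lit 4471500029) (nat_lit 684) (nat_lit 9106190242) (nat_lit 760) (nat_lit 18134169767) (nat_lit 60) (nat_lit 5) (nat_lit 69) (nat_lit 3) (nat_lit 70) (nat_lit 5) (nat_lit 267) (nat_lit 266) (nat_lit 187)))) (XT.nd (nat_lit 156) (nat_lit 0) (nat_lit 76) (XT.nd (nat_lit 78) (nat_lit 0) (nat_lit 0) (XT.lf (nat_lit 0) (nat_lit 5387387910) (nat_lit 684) (nat_lit 20859922994) (nat_lit 760) (nat_lit 6744894014) (nat_lit 61) (nat_lit 5) (nat_lit 70) (nat_lit 5) (nat_lit 71) (nat_lit 5) (nat_lit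 268) (nat_lit 266) (nat_lit 186)) (XT.lf (nat_lit 76) (nat_lit 816648154) (nat_lit 0) (nat_lit 5953659175) (nat_lit 760) (nat_lit 27585022465) (nat_lit 62) (nat_lit 5) (nat_lit 61) (nat_lit 5) (nat_lit 71) (nat_lit 5) (nat_lit 269) (nat_lit 266) (nat_lit 185))) (XT.nd (nat_lit 78) (nat_lit 0) (nat_lit 76) (XT.lf (nat_lit 0) (nat_lit 8873895285) (nat_lit 684) (nat_lit 11098445779) (nat_lit 760) (nat_lit 15824699284) (nat_lit 62) (nat_lit 5) (nat_lit 71) (nat_lit 5) (nat_lit 72) (nat_lit 5) (nat_lit 270) (nat_lit 266) (nat_lit 184)) (XT.nd (nat_lit 78) (nat_lit 0) (nat_lit 0) (XT.lf (nat_lit 0) (nat_lit 11479877901) (nat_lit 684) (nat_lit 23908649634) (nat_lit 760) (nat_lit 1948889492) (nat_lit 63) (nat_lit 5) (nat_lit 72) (nat_lit 5) (nat_lit 73) (nat_lit 5) (nat_lit 271) (nat_lit 266) (nat_lit 183)) (XT.lf (nat_lit 76) (nat_lit 1009605035) (nat_lit 0) (nat_lit 13826401944) (nat_lit 760)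 (nat_lit 24137965565) (nat_lit 64) (nat_lit 5) (nat_lit 63) (nat_lit 5) (nat_lit 73) (nat_lit 5) (nat_lit 272) (nat_lit 266) (nat_lit 182)))))) (XT.nd (nat_lit 312) (nat_lit 1140) (nat_lit 0) (XT.nd (nat_lit 156) (nat_lit 304) (nat_lit 0) (XT.nd (nat_lit 78) (nat_lit 684) (nat_lit 0) (XT.lf (nat_lit 0) (nat_lit 19024750055) (nat_lit 684) (nat_lit 12106103973) (nat_lit 76) (nat_lit 9582422009) (nat_lit 64) (nat_lit 5) (nat_lit 73) (nat_lit 5) (nat_lit 65) (nat_lit 5) (nat_lit 273) (nat_lit 266) (nat_lit 181)) (XT.lf (nat_lit 0) (nat_lit 16097313474) (nat_lit 684) (nat_lit 7929366713) (nat_lit 760) (nat_lit 18541166757) (nat_lit 55) (nat_lit 5) (nat_lit 64) (nat_lit 5) (nat_lit 65) (nat_lit 5) (nat_lit 274) (nat_lit 266) (nat_lit 180))) (XT.nd (nat_lit 78) (nat_lit 0) (nat_lit 0) (XT.lf (nat_lit 0) (nat_lit 2223689399) (nat_lit 304) (nat_lit 27715574711) (nat_lit 380) (nat_lit 14606019924)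 (nat_lit 51) (nat_lit 5) (nat_lit 55) (nat_lit 5) (nat_lit 56) (nat_lit 5) (nat_lit 275) (nat_lit 266) (nat_lit 179)) (XT.lf (nat_lit 0) (nat_lit 34015150956) (nat_lit 304) (nat_lit 2896732369) (nat_lit 380) (nat_lit 9739704929) (nat_lit 51) (nat_lit 5) (nat_lit 55) (nat_lit 5) (nat_lit 56) (nat_lit 5) (nat_lit 276) (nat_lit 266) (nat_lit 178)))) (XT.nd (nat_lit 156) (nat_lit 532) (nat_lit 0) (XT.nd (nat_lit 78) (nat_lit 304) (nat_lit 0) (XT.lf (nat_lit 0) (nat_lit 19674668541) (nat_lit 304) (nat_lit 25442885915) (nat_lit 380) (nat_lit 3775102078) (nat_lit 47) (nat_lit 5) (nat_lit 51) (nat_lit 5) (nat_lit 52) (nat_lit 5) (nat_lit 277) (nat_lit 266) (nat_lit 177)) (XT.lf (nat_lit 0) (nat_lit 2920297927) (nat_lit 304) (nat_lit 47567392631) (nat_lit 76) (nat_lit 806308325) (nat_lit 43) (nat_lit 5) (nat_lit 47) (nat_lit 5) (nat_lit 44) (nat_lit 5) (nat_lit 278) (nat_lit 266) (nat_lit 176)))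 (XT.nd (nat_lit 78) (nat_lit 532) (nat_lit 0) (XT.lf (nat_lit 0) (nat_lit 10962445349) (nat_lit 304) (nat_lit 14018163842) (nat_lit 76) (nat_lit 28856594088) (nat_lit 43) (nat_lit 5) (nat_lit 47) (nat_lit 5) (nat_lit 44) (nat_lit 5) (nat_lit 279) (nat_lit 266) (nat_lit 175)) (XT.nd (nat_lit 78) (nat_lit 228) (nat_lit 0) (XT.lf (nat_lit 0) (nat_lit 20047776545) (nat_lit 380) (nat_lit 33667652669) (nat_lit 76) (nat_lit 2848460727) (nat_lit 39) (nat_lit 5) (nat_lit 44) (nat_lit 5) (nat_lit 40) (nat_lit 5) (nat_lit 280) (nat_lit 266) (nat_lit 174)) (XT.lf (nat_lit 0) (nat_lit 3448120354) (nat_lit 228) (nat_lit 27130940192) (nat_lit 304) (nat_lit 28893709966) (nat_lit 36) (nat_lit 5) (nat_lit 39) (nat_lit 5) (nat_lit 40) (nat_lit 5) (nat_lit 281) (nat_lit 266) (nat_lit 173))))))) (XT.nd (nat_lit 702) (nat_lit 684) (nat_lit 0) (XT.nd (nat_lit 312) (nat_lit 608) (nat_lit 0) (XT.nd (nat_lit 156)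 (nat_lit 304) (nat_lit 0) (XT.nd (nat_lit 78) (nat_lit 228) (nat_lit 0) (XT.lf (nat_lit 0) (nat_lit 42569705250) (nat_lit 304) (nat_lit 17888784274) (nat_lit 76) (nat_lit 2125043265) (nat_lit 36) (nat_lit 5) (nat_lit 40) (nat_lit 5) (nat_lit 37) (nat_lit 5) (nat_lit 282) (nat_lit 266) (nat_lit 172)) (XT.lf (nat_lit 0) (nat_lit 23591019603) (nat_lit 228) (nat_lit 32750771729) (nat_lit 304) (nat_lit 9560268335) (nat_lit 33) (nat_lit 5) (nat_lit 36) (nat_lit 5) (nat_lit 37) (nat_lit 5) (nat_lit 283) (nat_lit 266) (nat_lit 171))) (XT.nd (nat_lit 78) (nat_lit 228) (nat_lit 0) (XT.lf (nat_lit 0) (nat_lit 1987460807) (nat_lit 304) (nat_lit 479033909) (nat_lit 76) (nat_lit 67002573243) (nat_lit 32) (nat_lit 5) (nat_lit 36) (nat_lit 5) (nat_lit 33) (nat_lit 5) (nat_lit 284) (nat_lit 266) (nat_lit 170)) (XT.lf (nat_lit 0) (nat_lit 15330158565) (nat_lit 304) (nat_lit 27757460839) (nat_lit 76) (nat_lit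 30165687152) (nat_lit 29) (nat_lit 5) (nat_lit 33) (nat_lit 5) (nat_lit 30) (nat_lit 5) (nat_lit 285) (nat_lit 266) (nat_lit 169)))) (XT.nd (nat_lit 156) (nat_lit 380) (nat_lit 0) (XT.nd (nat_lit 78) (nat_lit 0) (nat_lit 0) (XT.lf (nat_lit 0) (nat_lit 18368035900) (nat_lit 228) (nat_lit 11706027212) (nat_lit 304) (nat_lit 47249541494) (nat_lit 26) (nat_lit 5) (nat_lit 29) (nat_lit 5) (nat_lit 30) (nat_lit 5) (nat_lit 286) (nat_lit 266) (nat_lit 168)) (XT.lf (nat_lit 0) (nat_lit 46832403802) (nat_lit 304) (nat_lit 12878926644) (nat_lit 76) (nat_lit 21966459040) (nat_lit 26) (nat_lit 5) (nat_lit 30) (nat_lit 5) (nat_lit 27) (nat_lit 5) (nat_lit 287) (nat_lit 266) (nat_lit 167))) (XT.nd (nat_lit 78) (nat_lit 228) (nat_lit 0) (XT.lf (nat_lit 0) (nat_lit 37895612904) (nat_lit 152) (nat_lit 27822149020) (nat_lit 228) (nat_lit 20623238222) (nat_lit 24) (nat_lit 5) (nat_lit 26) (nat_lit 5) (nat_lit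 27) (nat_lit 5) (nat_lit 288) (nat_lit 266) (nat_lit 166)) (XT.nd (nat_lit 78) (nat_lit 76) (nat_lit 0) (XT.lf (nat_lit 0) (nat_lit 1771974248) (nat_lit 152) (nat_lit 84698424155) (nat_lit 228) (nat_lit 4889054637) (nat_lit 22) (nat_lit 5) (nat_lit 24) (nat_lit 5) (nat_lit 25) (nat_lit 5) (nat_lit 289) (nat_lit 266) (nat_lit 165)) (XT.lf (nat_lit 0) (nat_lit 13040841806) (nat_lit 228) (nat_lit 39676065170) (nat_lit 76) (nat_lit 43986814499) (nat_lit 21) (nat_lit 5) (nat_lit 24) (nat_lit 5) (nat_lit 22) (nat_lit 5) (nat_lit 290) (nat_lit 266) (nat_lit 164)))))) (XT.nd (nat_lit 312) (nat_lit 380) (nat_lit 0) (XT.nd (nat_lit 156) (nat_lit 152) (nat_lit 0) (XT.nd (nat_lit 78) (nat_lit 0) (nat_lit 0) (XT.lf (nat_lit 0) (nat_lit 14610076206) (nat_lit 152) (nat_lit 17851866265) (nat_lit 228) (nat_lit 69998182856) (nat_lit 19) (nat_lit 5) (nat_lit 21) (nat_lit 5) (nat_lit 22) (nat_lit 5) (nat_lit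 291) (nat_lit 266) (nat_lit 163)) (XT.lf (nat_lit 0) (nat_lit 54446173668) (nat_lit 228) (nat_lit 34310370105) (nat_lit 76) (nat_lit 19870031539) (nat_lit 19) (nat_lit 5) (nat_lit 22) (nat_lit 5) (nat_lit 20) (nat_lit 5) (nat_lit 292) (nat_lit 266) (nat_lit 162))) (XT.nd (nat_lit 78) (nat_lit 0) (nat_lit 0) (XT.lf (nat_lit 0) (nat_lit 23975775160) (nat_lit 152) (nat_lit 54886684895) (nat_lit 228) (nat_lit 36390220912) (nat_lit 17) (nat_lit 5) (nat_lit 19) (nat_lit 5) (nat_lit 20) (nat_lit 5) (nat_lit 293) (nat_lit 266) (nat_lit 161)) (XT.lf (nat_lit 0) (nat_lit 88147090074) (nat_lit 152) (nat_lit 17680700738) (nat_lit 228) (nat_lit 16551302292) (nat_lit 17) (nat_lit 5) (nat_lit 19) (nat_lit 5) (nat_lit 20) (nat_lit 5) (nat_lit 294) (nat_lit 266) (nat_lit 160)))) (XT.nd (nat_lit 156) (nat_lit 228) (nat_lit 0) (XT.nd (nat_lit 78) (nat_lit 0) (nat_lit 0) (XT.lf (nat_lit 0) (nat_lit 5516943478)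 (nat_lit 152) (nat_lit 102209475307) (nat_lit 76) (nat_lit 22305486740) (nat_lit 15) (nat_lit 5) (nat_lit 17) (nat_lit 5) (nat_lit 16) (nat_lit 5) (nat_lit 295) (nat_lit 266) (nat_lit 159)) (XT.lf (nat_lit 0) (nat_lit 29680991822) (nat_lit 152) (nat_lit 42793221624) (nat_lit 76) (nat_lit 65763656021) (nat_lit 15) (nat_lit 5) (nat_lit 17) (nat_lit 5) (nat_lit 16) (nat_lit 5) (nat_lit 296) (nat_lit 266) (nat_lit 158))) (XT.nd (nat_lit 78) (nat_lit 76) (nat_lit 0) (XT.lf (nat_lit 0) (nat_lit 22080513279) (nat_lit 152) (nat_lit 34040781886) (nat_lit 228) (nat_lit 90961862660) (nat_lit 13) (nat_lit 5) (nat_lit 15) (nat_lit 5) (nat_lit 16) (nat_lit 5) (nat_lit 297) (nat_lit 266) (nat_lit 157)) (XT.nd (nat_lit 78) (nat_lit 76) (nat_lit 0) (XT.lf (nat_lit 0) (nat_lit 85549518792) (nat_lit 228) (nat_lit 63057813823) (nat_lit 76) (nat_lit 7985105403) (nat_lit 13) (nat_lit 5) (nat_lit 16) (nat_lit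 5) (nat_lit 14) (nat_lit 4) (nat_lit 298) (nat_lit 266) (nat_lit 156)) (XT.lf (nat_lit 0) (nat_lit 3374307718) (nat_lit 76) (nat_lit 114582938532) (nat_lit 152) (nat_lit 48873955387) (nat_lit 12) (nat_lit 5) (nat_lit 13) (nat_lit 5) (nat_lit 14) (nat_lit 4) (nat_lit 299) (nat_lit 266) (nat_lit 155))))))))
noncomputable def xc99 : XT := (XT.nd (nat_lit 1404) (nat_lit 0) (nat_lit 0) (XT.nd (nat_lit 702) (nat_lit 228) (nat_lit 0) (XT.nd (nat_lit 312) (nat_lit 152) (nat_lit 0) (XT.nd (nat_lit 156) (nat_lit 152) (nat_lit 0) (XT.nd (nat_lit 78) (nat_lit 76) (nat_lit 0) (XT.lf (nat_lit 0) (nat_lit 77370568544) (nat_lit 76) (nat_lit 76684094796) (nat_lit 152) (nat_lit 23779552493) (nat_lit 12) (nat_lit 5) (nat_lit 13) (nat_lit 5) (nat_lit 14) (nat_lit 4) (nat_lit 300) (nat_lit 266) (nat_lit 154)) (XT.lf (nat_lit 0) (nat_lit 3214787059) (nat_lit 152) (nat_lit 32484899224) (nat_lit 76) (nat_lit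 154015257878) (nat_lit 11) (nat_lit 5) (nat_lit 13) (nat_lit 5) (nat_lit 12) (nat_lit 5) (nat_lit 301) (nat_lit 266) (nat_lit 153))) (XT.nd (nat_lit 78) (nat_lit 0) (nat_lit 0) (XT.lf (nat_lit 0) (nat_lit 32350184099) (nat_lit 228) (nat_lit 160775106637) (nat_lit 76) (nat_lit 9360619582) (nat_lit 9) (nat_lit 5) (nat_lit 12) (nat_lit 5) (nat_lit 10) (nat_lit 4) (nat_lit 302) (nat_lit 266) (nat_lit 152)) (XT.lf (nat_lit 0) (nat_lit 64992381535) (nat_lit 228) (nat_lit 93861205822) (nat_lit 76) (nat_lit 57366170292) (nat_lit 9) (nat_lit 5) (nat_lit 12) (nat_lit 5) (nat_lit 10) (nat_lit 4) (nat_lit 303) (nat_lit 266) (nat_lit 151)))) (XT.nd (nat_lit 156) (nat_lit 76) (nat_lit 0) (XT.nd (nat_lit 78) (nat_lit 76) (nat_lit 0) (XT.lf (nat_lit 0) (nat_lit 100244903127) (nat_lit 228) (nat_lit 21595947602) (nat_lit 76) (nat_lit 109211516761) (nat_lit 9) (nat_lit 5) (nat_lit 12) (nat_lit 5) (nat_lit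 10) (nat_lit 4) (nat_lit 304) (nat_lit 266) (nat_lit 150)) (XT.lf (nat_lit 0) (nat_lit 58315362372) (nat_lit 76) (nat_lit 80911756571) (nat_lit 152) (nat_lit 107798994535) (nat_lit 8) (nat_lit 5) (nat_lit 9) (nat_lit 5) (nat_lit 10) (nat_lit 4) (nat_lit 305) (nat_lit 266) (nat_lit 149))) (XT.nd (nat_lit 78) (nat_lit 76) (nat_lit 0) (XT.lf (nat_lit 0) (nat_lit 145389207390) (nat_lit 76) (nat_lit 36313966237) (nat_lit 152) (nat_lit 82555824276) (nat_lit 8) (nat_lit 5) (nat_lit 9) (nat_lit 5) (nat_lit 10) (nat_lit 4) (nat_lit 306) (nat_lit 266) (nat_lit 148)) (XT.nd (nat_lit 78) (nat_lit 76) (nat_lit 0) (XT.lf (nat_lit 0) (nat_lit 227761483742) (nat_lit 152) (nat_lit 43628064946) (nat_lit 0) (nat_lit 11471757541) (nat_lit 8) (nat_lit 5) (nat_lit 10) (nat_lit 4) (nat_lit 8) (nat_lit 4) (nat_lit 307) (nat_lit 266) (nat_lit 147)) (XT.lf (nat_lit 0) (nat_lit 38243339326) (nat_lit 76) (nat_lit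 240469722653) (nat_lit 76) (nat_lit 24178308652) (nat_lit 7) (nat_lit 4) (nat_lit 8) (nat_lit 5) (nat_lit 8) (nat_lit 4) (nat_lit 308) (nat_lit 266) (nat_lit 146)))))) (XT.nd (nat_lit 312) (nat_lit 76) (nat_lit 0) (XT.nd (nat_lit 156) (nat_lit 76) (nat_lit 0) (XT.nd (nat_lit 78) (nat_lit 0) (nat_lit 0) (XT.lf (nat_lit 0) (nat_lit 9693581316) (nat_lit 152) (nat_lit 196421135079) (nat_lit 76) (nat_lit 118363347364) (nat_lit 6) (nat_lit 5) (nat_lit 8) (nat_lit 5) (nat_lit 7) (nat_lit 4) (nat_lit 309) (nat_lit 266) (nat_lit 145)) (XT.lf (nat_lit 0) (nat_lit 45438737536) (nat_lit 152) (nat_lit 123145011845) (nat_lit 76) (nat_lit 179187595697) (nat_lit 6) (nat_lit 5) (nat_lit 8) (nat_lit 5) (nat_lit 7) (nat_lit 4) (nat_lit 310) (nat_lit 266) (nat_lit 144))) (XT.nd (nat_lit 78) (nat_lit 76) (nat_lit 0) (XT.lf (nat_lit 0) (nat_lit 84042840028) (nat_lit 152) (nat_lit 44007941565) (nat_lit 76)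 (nat_lit 244877341809) (nat_lit 6) (nat_lit 5) (nat_lit 8) (nat_lit 5) (nat_lit 7) (nat_lit 4) (nat_lit 311) (nat_lit 266) (nat_lit 143)) (XT.lf (nat_lit 0) (nat_lit 42829859144) (nat_lit 76) (nat_lit 83573488832) (nat_lit 152) (nat_lit 273660693258) (nat_lit 5) (nat_lit 5) (nat_lit 6) (nat_lit 5) (nat_lit 7) (nat_lit 4) (nat_lit 312) (nat_lit 266) (nat_lit 142)))) (XT.nd (nat_lit 156) (nat_lit 76) (nat_lit 0) (XT.nd (nat_lit 78) (nat_lit 0) (nat_lit 0) (XT.lf (nat_lit 0) (nat_lit 138185181134) (nat_lit 76) (nat_lit 34733518392) (nat_lit 152) (nat_lit 256413833838) (nat_lit 5) (nat_lit 5) (nat_lit 6) (nat_lit 5) (nat_lit 7) (nat_lit 4) (nat_lit 313) (nat_lit 266) (nat_lit 141)) (XT.lf (nat_lit 0) (nat_lit 223435973106) (nat_lit 152) (nat_lit 220055778709) (nat_lit 0) (nat_lit 17436719299) (nat_lit 5) (nat_lit 5) (nat_lit 7) (nat_lit 4) (nat_lit 5) (nat_lit 4) (nat_lit 314) (nat_lit 266)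 (nat_lit 140))) (XT.nd (nat_lit 78) (nat_lit 76) (nat_lit 0) (XT.lf (nat_lit 0) (nat_lit 278579790204) (nat_lit 152) (nat_lit 143863437997) (nat_lit 0) (nat_lit 72579598478) (nat_lit 5) (nat_lit 5) (nat_lit 7) (nat_lit 4) (nat_lit 5) (nat_lit 4) (nat_lit 315) (nat_lit 266) (nat_lit 139)) (XT.nd (nat_lit 78) (nat_lit 76) (nat_lit 0) (XT.lf (nat_lit 0) (nat_lit 338134641433) (nat_lit 152) (nat_lit 61576532364) (nat_lit 0) (nat_lit 132133581264) (nat_lit 5) (nat_lit 5) (nat_lit 7) (nat_lit 4) (nat_lit 5) (nat_lit 4) (nat_lit 316) (nat_lit 266) (nat_lit 138)) (XT.lf (nat_lit 0) (nat_lit 28194979729) (nat_lit 76) (nat_lit 374698667351) (nat_lit 76) (nat_lit 168696803067) (nat_lit 4) (nat_lit 4) (nat_lit 5) (nat_lit 5) (nat_lit 5) (nat_lit 4) (nat_lit 317) (nat_lit 266) (nat_lit 137))))))) (XT.nd (nat_lit 34086) (nat_lit 0) (nat_lit 2432) (XT.nd (nat_lit 33696) (nat_lit 0) (nat_lit 4332) (XT.nd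 (nat_lit 33540) (nat_lit 0) (nat_lit 4256) (XT.nd (nat_lit 78) (nat_lit 0) (nat_lit 0) (XT.lf (nat_lit 0) (nat_lit 127346362567) (nat_lit 76) (nat_lit 346559218699) (nat_lit 76) (nat_lit 140556609865) (nat_lit 4) (nat_lit 4) (nat_lit 5) (nat_lit 5) (nat_lit 5) (nat_lit 4) (nat_lit 318) (nat_lit 266) (nat_lit 136)) (XT.lf (nat_lit 0) (nat_lit 234429181650) (nat_lit 76) (nat_lit 316168903925) (nat_lit 76) (nat_lit 110165605692) (nat_lit 4) (nat_lit 4) (nat_lit 5) (nat_lit 5) (nat_lit 5) (nat_lit 4) (nat_lit 319) (nat_lit 266) (nat_lit 135))) (XT.nd (nat_lit 78) (nat_lit 0) (nat_lit 0) (XT.lf (nat_lit 0) (nat_lit 1107633571) (nat_lit 0) (nat_lit 1107633571) (nat_lit 684) (nat_lit 14255630668) (nat_lit 60) (nat_lit 5) (nat_lit 60) (nat_lit 3) (nat_lit 69) (nat_lit 3) (nat_lit 267) (nat_lit 267) (nat_lit 186)) (XT.lf (nat_lit 0) (nat_lit 5007452558) (nat_lit 684) (nat_lit 9733695211) (nat_lit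 760) (nat_lit 19497960653) (nat_lit 60) (nat_lit 5) (nat_lit 69) (nat_lit 3) (nat_lit 70) (nat_lit 5) (nat_lit 268) (nat_lit 267) (nat_lit 185)))) (XT.nd (nat_lit 156) (nat_lit 0) (nat_lit 76) (XT.nd (nat_lit 78) (nat_lit 0) (nat_lit 0) (XT.lf (nat_lit 0) (nat_lit 5983825365) (nat_lit 684) (nat_lit 22421966303) (nat_lit 760) (nat_lit 7216786959) (nat_lit 61) (nat_lit 5) (nat_lit 70) (nat_lit 5) (nat_lit 71) (nat_lit 5) (nat_lit 269) (nat_lit 267) (nat_lit 184)) (XT.lf (nat_lit 76) (nat_lit 984091289) (nat_lit 0) (nat_lit 6482626001) (nat_lit 760) (nat_lit 29628623356) (nat_lit 62) (nat_lit 5) (nat_lit 61) (nat_lit 5) (nat_lit 71) (nat_lit 5) (nat_lit 270) (nat_lit 267) (nat_lit 183))) (XT.nd (nat_lit 78) (nat_lit 0) (nat_lit 76) (XT.lf (nat_lit 0) (nat_lit 9726365226) (nat_lit 684) (nat_lit 11883220325) (nat_lit 760) (nat_lit 17043463938) (nat_lit 62) (nat_lit 5) (nat_lit 71) (nat_lit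 5) (nat_lit 72) (nat_lit 5) (nat_lit 271) (nat_lit 267) (nat_lit 182)) (XT.nd (nat_lit 78) (nat_lit 0) (nat_lit 0) (XT.lf (nat_lit 0) (nat_lit 12531261155) (nat_lit 684) (nat_lit 25714919278) (nat_lit 760) (nat_lit 2071000518) (nat_lit 63) (nat_lit 5) (nat_lit 72) (nat_lit 5) (nat_lit 73) (nat_lit 5) (nat_lit 272) (nat_lit 267) (nat_lit 181)) (XT.lf (nat_lit 76) (nat_lit 1192170780) (nat_lit 0) (nat_lit 14955447786) (nat_lit 760) (nat_lit 25937498390) (nat_lit 64) (nat_lit 5) (nat_lit 63) (nat_lit 5) (nat_lit 73) (nat_lit 5) (nat_lit 273) (nat_lit 267) (nat_lit 180)))))) (XT.nd (nat_lit 390) (nat_lit 836) (nat_lit 0) (XT.nd (nat_lit 156) (nat_lit 608) (nat_lit 0) (XT.nd (nat_lit 78) (nat_lit 684) (nat_lit 0) (XT.lf (nat_lit 0) (nat_lit 20661890216) (nat_lit 684) (nat_lit 12973732298) (nat_lit 76) (nat_lit 10328460524) (nat_lit 64) (nat_lit 5) (nat_lit 73) (nat_lit 5) (nat_lit 65) (nat_lit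 5) (nat_lit 274) (nat_lit 267) (nat_lit 179)) (XT.lf (nat_lit 0) (nat_lit 17481575293) (nat_lit 684) (nat_lit 8575375357) (nat_lit 760) (nat_lit 19910456994) (nat_lit 55) (nat_lit 5) (nat_lit 64) (nat_lit 5) (nat_lit 65) (nat_lit 5) (nat_lit 275) (nat_lit 267) (nat_lit 178))) (XT.nd (nat_lit 78) (nat_lit 304) (nat_lit 0) (XT.lf (nat_lit 0) (nat_lit 2499654734) (nat_lit 304) (nat_lit 29936239074) (nat_lit 380) (nat_lit 15667512359) (nat_lit 51) (nat_lit 5) (nat_lit 55) (nat_lit 5) (nat_lit 56) (nat_lit 5) (nat_lit 276) (nat_lit 267) (nat_lit 177)) (XT.nd (nat_lit 78) (nat_lit 304) (nat_lit 0) (XT.lf (nat_lit 0) (nat_lit 36827168757) (nat_lit 304) (nat_lit 3131636131) (nat_lit 380) (nat_lit 10419817288) (nat_lit 51) (nat_lit 5) (nat_lit 55) (nat_lit 5) (nat_lit 56) (nat_lit 5) (nat_lit 277) (nat_lit 267) (nat_lit 176)) (XT.lf (nat_lit 0) (nat_lit 21340420510) (nat_lit 304) (nat_lit 27474935556)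 (nat_lit 380) (nat_lit 3983927765) (nat_lit 47) (nat_lit 5) (nat_lit 51) (nat_lit 5) (nat_lit 52) (nat_lit 5) (nat_lit 278) (nat_lit 267) (nat_lit 175))))) (XT.nd (nat_lit 156) (nat_lit 532) (nat_lit 0) (XT.nd (nat_lit 78) (nat_lit 0) (nat_lit 0) (XT.lf (nat_lit 0) (nat_lit 3238954966) (nat_lit 304) (nat_lit 51277333595) (nat_lit 76) (nat_lit 876656382) (nat_lit 43) (nat_lit 5) (nat_lit 47) (nat_lit 5) (nat_lit 44) (nat_lit 5) (nat_lit 279) (nat_lit 267) (nat_lit 174)) (XT.lf (nat_lit 0) (nat_lit 11918175426) (nat_lit 304) (nat_lit 15051236906) (nat_lit 76) (nat_lit 31170532162) (nat_lit 43) (nat_lit 5) (nat_lit 47) (nat_lit 5) (nat_lit 44) (nat_lit 5) (nat_lit 280) (nat_lit 267) (nat_lit 173))) (XT.nd (nat_lit 78) (nat_lit 228) (nat_lit 0) (XT.lf (nat_lit 0) (nat_lit 21725981906) (nat_lit 380) (nat_lit 36272699471) (nat_lit 76) (nat_lit 3086324371) (nat_lit 39) (nat_lit 5) (nat_lit 44)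 (nat_lit 5) (nat_lit 40) (nat_lit 5) (nat_lit 281) (nat_lit 267) (nat_lit 172)) (XT.nd (nat_lit 78) (nat_lit 0) (nat_lit 0) (XT.lf (nat_lit 0) (nat_lit 3808495141) (nat_lit 228) (nat_lit 29287083292) (nat_lit 304) (nat_lit 31131248303) (nat_lit 36) (nat_lit 5) (nat_lit 39) (nat_lit 5) (nat_lit 40) (nat_lit 5) (nat_lit 282) (nat_lit 267) (nat_lit 171)) (XT.lf (nat_lit 0) (nat_lit 46040482417) (nat_lit 304) (nat_lit 19238343672) (nat_lit 76) (nat_lit 2307892465) (nat_lit 36) (nat_lit 5) (nat_lit 40) (nat_lit 5) (nat_lit 37) (nat_lit 5) (nat_lit 283) (nat_lit 267) (nat_lit 170))))))))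
noncomputable def xc100 : XT := (XT.nd (nat_lit 1404) (nat_lit 608) (nat_lit 0) (XT.nd (nat_lit 702) (nat_lit 532) (nat_lit 0) (XT.nd (nat_lit 312) (nat_lit 532) (nat_lit 0) (XT.nd (nat_lit 156) (nat_lit 456) (nat_lit 0) (XT.nd (nat_lit 78) (nat_lit 76) (nat_lit 0) (XT.lf (nat_lit 0) (nat_lit 25556300741) (nat_lit 228) (nat_lit 35354422752) (nat_lit 304) (nat_lit 10260202228) (nat_lit 33) (nat_lit 5) (nat_lit 36) (nat_lit 5) (nat_lit 37) (nat_lit 5) (nat_lit 284) (nat_lit 267) (nat_lit 169)) (XT.lf (nat_lit 0) (nat_lit 2204615789) (nat_lit 304) (nat_lit 443018461) (nat_lit 76) (nat_lit 72375857872) (nat_lit 32) (nat_lit 5) (nat_lit 36) (nat_lit 5) (nat_lit 33) (nat_lit 5) (nat_lit 285) (nat_lit 267) (nat_lit 168))) (XT.nd (nat_lit 78) (nat_lit 228) (nat_lit 0) (XT.lf (nat_lit 0) (nat_lit 16611783650) (nat_lit 304) (nat_lit 29904275238) (nat_lit 76) (nat_lit 32594572531) (nat_lit 29) (nat_lit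 5) (nat_lit 33) (nat_lit 5) (nat_lit 30) (nat_lit 5) (nat_lit 286) (nat_lit 267) (nat_lit 167)) (XT.lf (nat_lit 0) (nat_lit 19908054744) (nat_lit 228) (nat_lit 12624157897) (nat_lit 304) (nat_lit 50974503328) (nat_lit 26) (nat_lit 5) (nat_lit 29) (nat_lit 5) (nat_lit 30) (nat_lit 5) (nat_lit 287) (nat_lit 267) (nat_lit 166)))) (XT.nd (nat_lit 156) (nat_lit 380) (nat_lit 0) (XT.nd (nat_lit 78) (nat_lit 152) (nat_lit 0) (XT.lf (nat_lit 0) (nat_lit 50627617402) (nat_lit 304) (nat_lit 13841586647) (nat_lit 76) (nat_lit 23740224031) (nat_lit 26) (nat_lit 5) (nat_lit 30) (nat_lit 5) (nat_lit 27) (nat_lit 5) (nat_lit 288) (nat_lit 267) (nat_lit 165)) (XT.lf (nat_lit 0) (nat_lit 40991975899) (nat_lit 152) (nat_lit 30029237063) (nat_lit 228) (nat_lit 22224623561) (nat_lit 24) (nat_lit 5) (nat_lit 26) (nat_lit 5) (nat_lit 27) (nat_lit 5) (nat_lit 289) (nat_lit 267) (nat_lit 164))) (XT.nd (nat_lit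 78) (nat_lit 228) (nat_lit 0) (XT.lf (nat_lit 0) (nat_lit 1977692167) (nat_lit 152) (nat_lit 91454227251) (nat_lit 228) (nat_lit 5233963806) (nat_lit 22) (nat_lit 5) (nat_lit 24) (nat_lit 5) (nat_lit 25) (nat_lit 5) (nat_lit 290) (nat_lit 267) (nat_lit 163)) (XT.nd (nat_lit 78) (nat_lit 152) (nat_lit 0) (XT.lf (nat_lit 0) (nat_lit 14125531397) (nat_lit 228) (nat_lit 42789442523) (nat_lit 76) (nat_lit 47522858109) (nat_lit 21) (nat_lit 5) (nat_lit 24) (nat_lit 5) (nat_lit 22) (nat_lit 5) (nat_lit 291) (nat_lit 267) (nat_lit 162)) (XT.lf (nat_lit 0) (nat_lit 15836951873) (nat_lit 152) (nat_lit 19261206556) (nat_lit 228) (nat_lit 75556706440) (nat_lit 19) (nat_lit 5) (nat_lit 21) (nat_lit 5) (nat_lit 22) (nat_lit 5) (nat_lit 292) (nat_lit 267) (nat_lit 161)))))) (XT.nd (nat_lit 312) (nat_lit 228) (nat_lit 0) (XT.nd (nat_lit 156) (nat_lit 152) (nat_lit 0) (XT.nd (nat_lit 78) (nat_lit 152)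 (nat_lit 0) (XT.lf (nat_lit 0) (nat_lit 58838491841) (nat_lit 228) (nat_lit 36999786387) (nat_lit 76) (nat_lit 21476492399) (nat_lit 19) (nat_lit 5) (nat_lit 22) (nat_lit 5) (nat_lit 20) (nat_lit 5) (nat_lit 293) (nat_lit 267) (nat_lit 160)) (XT.lf (nat_lit 0) (nat_lit 25946842304) (nat_lit 152) (nat_lit 59259353485) (nat_lit 228) (nat_lit 39264870585) (nat_lit 17) (nat_lit 5) (nat_lit 19) (nat_lit 5) (nat_lit 20) (nat_lit 5) (nat_lit 294) (nat_lit 267) (nat_lit 159))) (XT.nd (nat_lit 78) (nat_lit 152) (nat_lit 0) (XT.lf (nat_lit 0) (nat_lit 95247936105) (nat_lit 152) (nat_lit 19078243647) (nat_lit 228) (nat_lit 17841547215) (nat_lit 17) (nat_lit 5) (nat_lit 19) (nat_lit 5) (nat_lit 20) (nat_lit 5) (nat_lit 295) (nat_lit 267) (nat_lit 158)) (XT.lf (nat_lit 0) (nat_lit 5989661872) (nat_lit 152) (nat_lit 110336807794) (nat_lit 76) (nat_lit 24106344935) (nat_lit 15) (nat_lit 5) (nat_lit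 17) (nat_lit 5) (nat_lit 16) (nat_lit 5) (nat_lit 296) (nat_lit 267) (nat_lit 157)))) (XT.nd (nat_lit 156) (nat_lit 76) (nat_lit 0) (XT.nd (nat_lit 78) (nat_lit 152) (nat_lit 0) (XT.lf (nat_lit 0) (nat_lit 32084510905) (nat_lit 152) (nat_lit 46170914968) (nat_lit 76) (nat_lit 71039951517) (nat_lit 15) (nat_lit 5) (nat_lit 17) (nat_lit 5) (nat_lit 16) (nat_lit 5) (nat_lit 297) (nat_lit 267) (nat_lit 156)) (XT.lf (nat_lit 0) (nat_lit 23890729863) (nat_lit 152) (nat_lit 36747841018) (nat_lit 228) (nat_lit 98209796474) (nat_lit 13) (nat_lit 5) (nat_lit 15) (nat_lit 5) (nat_lit 16) (nat_lit 5) (nat_lit 298) (nat_lit 267) (nat_lit 155))) (XT.nd (nat_lit 78) (nat_lit 76) (nat_lit 0) (XT.lf (nat_lit 0) (nat_lit 92419244262) (nat_lit 228) (nat_lit 68060804080) (nat_lit 76) (nat_lit 8638436806) (nat_lit 13) (nat_lit 5) (nat_lit 16) (nat_lit 5) (nat_lit 14) (nat_lit 4) (nat_lit 299) (nat_lit 267)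 (nat_lit 154)) (XT.nd (nat_lit 78) (nat_lit 0) (nat_lit 0) (XT.lf (nat_lit 0) (nat_lit 3684077785) (nat_lit 76) (nat_lit 123734225477) (nat_lit 152) (nat_lit 52758115351) (nat_lit 12) (nat_lit 5) (nat_lit 13) (nat_lit 5) (nat_lit 14) (nat_lit 4) (nat_lit 300) (nat_lit 267) (nat_lit 153)) (XT.lf (nat_lit 0) (nat_lit 83597089443) (nat_lit 76) (nat_lit 82804611142) (nat_lit 152) (nat_lit 25658068112) (nat_lit 12) (nat_lit 5) (nat_lit 13) (nat_lit 5) (nat_lit 14) (nat_lit 4) (nat_lit 301) (nat_lit 267) (nat_lit 152))))))) (XT.nd (nat_lit 702) (nat_lit 152) (nat_lit 0) (XT.nd (nat_lit 312) (nat_lit 228) (nat_lit 0) (XT.nd (nat_lit 156) (nat_lit 0) (nat_lit 0) (XT.nd (nat_lit 78) (nat_lit 152) (nat_lit 0) (XT.lf (nat_lit 0) (nat_lit 3493345281) (nat_lit 152) (nat_lit 35048795351) (nat_lit 76) (nat_lit 166348885155) (nat_lit 11) (nat_lit 5) (nat_lit 13) (nat_lit 5) (nat_lit 12) (nat_lit 5) (nat_lit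 302) (nat_lit 267) (nat_lit 151)) (XT.lf (nat_lit 0) (nat_lit 34958715876) (nat_lit 228) (nat_lit 173602882434) (nat_lit 76) (nat_lit 10122117180) (nat_lit 9) (nat_lit 5) (nat_lit 12) (nat_lit 5) (nat_lit 10) (nat_lit 4) (nat_lit 303) (nat_lit 267) (nat_lit 150))) (XT.nd (nat_lit 78) (nat_lit 0) (nat_lit 0) (XT.lf (nat_lit 0) (nat_lit 70210769325) (nat_lit 228) (nat_lit 101338405312) (nat_lit 76) (nat_lit 61967175056) (nat_lit 9) (nat_lit 5) (nat_lit 12) (nat_lit 5) (nat_lit 10) (nat_lit 4) (nat_lit 304) (nat_lit 267) (nat_lit 149)) (XT.lf (nat_lit 0) (nat_lit 108282085440) (nat_lit 228) (nat_lit 23294274358) (nat_lit 76) (nat_lit 117959281751) (nat_lit 9) (nat_lit 5) (nat_lit 12) (nat_lit 5) (nat_lit 10) (nat_lit 4) (nat_lit 305) (nat_lit 267) (nat_lit 148)))) (XT.nd (nat_lit 156) (nat_lit 152) (nat_lit 0) (XT.nd (nat_lit 78) (nat_lit 0) (nat_lit 0) (XT.lf (nat_lit 0) (nat_lit 63008664940)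 (nat_lit 76) (nat_lit 87373348921) (nat_lit 152) (nat_lit 116405319243) (nat_lit 8) (nat_lit 5) (nat_lit 9) (nat_lit 5) (nat_lit 10) (nat_lit 4) (nat_lit 306) (nat_lit 267) (nat_lit 147)) (XT.lf (nat_lit 0) (nat_lit 157046338035) (nat_lit 76) (nat_lit 39208575965) (nat_lit 152) (nat_lit 89143998686) (nat_lit 8) (nat_lit 5) (nat_lit 9) (nat_lit 5) (nat_lit 10) (nat_lit 4) (nat_lit 307) (nat_lit 267) (nat_lit 146))) (XT.nd (nat_lit 78) (nat_lit 152) (nat_lit 0) (XT.lf (nat_lit 0) (nat_lit 245996893678) (nat_lit 152) (nat_lit 47093648059) (nat_lit 0) (nat_lit 12398915980) (nat_lit 8) (nat_lit 5) (nat_lit 10) (nat_lit 4) (nat_lit 8) (nat_lit 4) (nat_lit 308) (nat_lit 267) (nat_lit 145)) (XT.nd (nat_lit 78) (nat_lit 76) (nat_lit 0) (XT.lf (nat_lit 0) (nat_lit 41326396771) (nat_lit 76) (nat_lit 259697496289) (nat_lit 76) (nat_lit 26098071574) (nat_lit 7) (nat_lit 4) (nat_lit 8) (nat_lit 5)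 (nat_lit 8) (nat_lit 4) (nat_lit 309) (nat_lit 267) (nat_lit 144)) (XT.lf (nat_lit 0) (nat_lit 10482065621) (nat_lit 152) (nat_lit 212112530021) (nat_lit 76) (nat_lit 127841040099) (nat_lit 6) (nat_lit 5) (nat_lit 8) (nat_lit 5) (nat_lit 7) (nat_lit 4) (nat_lit 310) (nat_lit 267) (nat_lit 143)))))) (XT.nd (nat_lit 312) (nat_lit 76) (nat_lit 0) (XT.nd (nat_lit 156) (nat_lit 76) (nat_lit 0) (XT.nd (nat_lit 78) (nat_lit 0) (nat_lit 0) (XT.lf (nat_lit 0) (nat_lit 49085871538) (nat_lit 152) (nat_lit 132975968473) (nat_lit 76) (nat_lit 193530589414) (nat_lit 6) (nat_lit 5) (nat_lit 8) (nat_lit 5) (nat_lit 7) (nat_lit 4) (nat_lit 311) (nat_lit 267) (nat_lit 142)) (XT.lf (nat_lit 0) (nat_lit 90777410749) (nat_lit 152) (nat_lit 47509461780) (nat_lit 76) (nat_lit 264474923655) (nat_lit 6) (nat_lit 5) (nat_lit 8) (nat_lit 5) (nat_lit 7) (nat_lit 4) (nat_lit 312) (nat_lit 267) (nat_lit 141))) (XT.nd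 (nat_lit 78) (nat_lit 0) (nat_lit 0) (XT.lf (nat_lit 0) (nat_lit 46274532267) (nat_lit 76) (nat_lit 90251687090) (nat_lit 152) (nat_lit 295542396559) (nat_lit 5) (nat_lit 5) (nat_lit 6) (nat_lit 5) (nat_lit 7) (nat_lit 4) (nat_lit 313) (nat_lit 267) (nat_lit 140)) (XT.lf (nat_lit 0) (nat_lit 149256925617) (nat_lit 76) (nat_lit 37505087967) (nat_lit 152) (nat_lit 276916614471) (nat_lit 5) (nat_lit 5) (nat_lit 6) (nat_lit 5) (nat_lit 7) (nat_lit 4) (nat_lit 314) (nat_lit 267) (nat_lit 139)))) (XT.nd (nat_lit 156) (nat_lit 76) (nat_lit 0) (XT.nd (nat_lit 78) (nat_lit 0) (nat_lit 0) (XT.lf (nat_lit 0) (nat_lit 241320044595) (nat_lit 152) (nat_lit 237644197549) (nat_lit 0) (nat_lit 18838031169) (nat_lit 5) (nat_lit 5) (nat_lit 7) (nat_lit 4) (nat_lit 5) (nat_lit 4) (nat_lit 315) (nat_lit 267) (nat_lit 138)) (XT.lf (nat_lit 0) (nat_lit 300874686050) (nat_lit 152) (nat_lit 155357657984) (nat_lit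 0) (nat_lit 78391868509) (nat_lit 5) (nat_lit 5) (nat_lit 7) (nat_lit 4) (nat_lit 5) (nat_lit 4) (nat_lit 316) (nat_lit 267) (nat_lit 137))) (XT.nd (nat_lit 78) (nat_lit 76) (nat_lit 0) (XT.lf (nat_lit 0) (nat_lit 365193294813) (nat_lit 152) (nat_lit 66488900275) (nat_lit 0) (nat_lit 142709732721) (nat_lit 5) (nat_lit 5) (nat_lit 7) (nat_lit 4) (nat_lit 5) (nat_lit 4) (nat_lit 317) (nat_lit 267) (nat_lit 136)) (XT.nd (nat_lit 33618) (nat_lit 0) (nat_lit 4256) (XT.lf (nat_lit 0) (nat_lit 30463735025) (nat_lit 76) (nat_lit 404668907447) (nat_lit 76) (nat_lit 182184655957) (nat_lit 4) (nat_lit 4) (nat_lit 5) (nat_lit 5) (nat_lit 5) (nat_lit 4) (nat_lit 318) (nat_lit 267) (nat_lit 135)) (XT.lf (nat_lit 0) (nat_lit 1237826393) (nat_lit 0) (nat_lit 1237826393) (nat_lit 684) (nat_lit 15308393453) (nat_lit 60) (nat_lit 5) (nat_lit 60) (nat_lit 3) (nat_lit 69) (nat_lit 3) (nat_lit 268) (nat_lit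 268) (nat_lit 184))))))))
noncomputable def xc101 : XT := (XT.nd (nat_lit 1404) (nat_lit 1748) (nat_lit 0) (XT.nd (nat_lit 702) (nat_lit 1444) (nat_lit 0) (XT.nd (nat_lit 312) (nat_lit 684) (nat_lit 0) (XT.nd (nat_lit 156) (nat_lit 0) (nat_lit 76) (XT.nd (nat_lit 78) (nat_lit 0) (nat_lit 76) (XT.lf (nat_lit 0) (nat_lit 5560854426) (nat_lit 684) (nat_lit 10425807966) (nat_lit 760) (nat_lit 20983258157) (nat_lit 60) (nat_lit 5) (nat_lit 69) (nat_lit 3) (nat_lit 70) (nat_lit 5) (nat_lit 269) (nat_lit 268) (nat_lit 183)) (XT.lf (nat_lit 0) (nat_lit 6604375034) (nat_lit 684) (nat_lit 24124202233) (nat_lit 760) (nat_lit 7736089298) (nat_lit 61) (nat_lit 5) (nat_lit 70) (nat_lit 5) (nat_lit 71) (nat_lit 5) (nat_lit 270) (nat_lit 268) (nat_lit 182))) (XT.nd (nat_lit 78) (nat_lit 0) (nat_lit 76) (XT.lf (nat_lit 76) (nat_lit 1150362559) (nat_lit 0) (nat_lit 7046395625) (nat_lit 760) (nat_lit 31858994752)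 (nat_lit 62) (nat_lit 5) (nat_lit 61) (nat_lit 5) (nat_lit 71) (nat_lit 5) (nat_lit 271) (nat_lit 268) (nat_lit 181)) (XT.lf (nat_lit 0) (nat_lit 10626695225) (nat_lit 684) (nat_lit 12745485362) (nat_lit 760) (nat_lit 18366464983) (nat_lit 62) (nat_lit 5) (nat_lit 71) (nat_lit 5) (nat_lit 72) (nat_lit 5) (nat_lit 272) (nat_lit 268) (nat_lit 180)))) (XT.nd (nat_lit 156) (nat_lit 912) (nat_lit 0) (XT.nd (nat_lit 78) (nat_lit 0) (nat_lit 0) (XT.lf (nat_lit 0) (nat_lit 13647782127) (nat_lit 684) (nat_lit 27680872829) (nat_lit 760) (nat_lit 2207702394) (nat_lit 63) (nat_lit 5) (nat_lit 72) (nat_lit 5) (nat_lit 73) (nat_lit 5) (nat_lit 273) (nat_lit 268) (nat_lit 179)) (XT.lf (nat_lit 76) (nat_lit 1374819256) (nat_lit 0) (nat_lit 16171545549) (nat_lit 760) (nat_lit 27899754417) (nat_lit 64) (nat_lit 5) (nat_lit 63) (nat_lit 5) (nat_lit 73) (nat_lit 5) (nat_lit 274) (nat_lit 268) (nat_lit 178)))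 (XT.nd (nat_lit 78) (nat_lit 988) (nat_lit 0) (XT.lf (nat_lit 0) (nat_lit 22413572706) (nat_lit 684) (nat_lit 13925159694) (nat_lit 76) (nat_lit 11137114556) (nat_lit 64) (nat_lit 5) (nat_lit 73) (nat_lit 5) (nat_lit 65) (nat_lit 5) (nat_lit 275) (nat_lit 268) (nat_lit 177)) (XT.nd (nat_lit 78) (nat_lit 304) (nat_lit 0) (XT.lf (nat_lit 0) (nat_lit 18962814571) (nat_lit 684) (nat_lit 9271401361) (nat_lit 760) (nat_lit 21405554268) (nat_lit 55) (nat_lit 5) (nat_lit 64) (nat_lit 5) (nat_lit 65) (nat_lit 5) (nat_lit 276) (nat_lit 268) (nat_lit 176)) (XT.lf (nat_lit 0) (nat_lit 2783706488) (nat_lit 304) (nat_lit 32334068915) (nat_lit 380) (nat_lit 16829187389) (nat_lit 51) (nat_lit 5) (nat_lit 55) (nat_lit 5) (nat_lit 56) (nat_lit 5) (nat_lit 277) (nat_lit 268) (nat_lit 175)))))) (XT.nd (nat_lit 312) (nat_lit 836) (nat_lit 0) (XT.nd (nat_lit 156) (nat_lit 304) (nat_lit 0) (XT.nd (nat_lit 78)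 (nat_lit 304) (nat_lit 0) (XT.lf (nat_lit 0) (nat_lit 39851193531) (nat_lit 304) (nat_lit 3384880646) (nat_lit 380) (nat_lit 11168471227) (nat_lit 51) (nat_lit 5) (nat_lit 55) (nat_lit 5) (nat_lit 56) (nat_lit 5) (nat_lit 278) (nat_lit 268) (nat_lit 174)) (XT.lf (nat_lit 0) (nat_lit 23126339409) (nat_lit 304) (nat_lit 29670031540) (nat_lit 380) (nat_lit 4222753028) (nat_lit 47) (nat_lit 5) (nat_lit 51) (nat_lit 5) (nat_lit 52) (nat_lit 5) (nat_lit 279) (nat_lit 268) (nat_lit 173))) (XT.nd (nat_lit 78) (nat_lit 0) (nat_lit 0) (XT.lf (nat_lit 0) (nat_lit 3570973630) (nat_lit 304) (nat_lit 55297686909) (nat_lit 76) (nat_lit 951798659) (nat_lit 43) (nat_lit 5) (nat_lit 47) (nat_lit 5) (nat_lit 44) (nat_lit 5) (nat_lit 280) (nat_lit 268) (nat_lit 172)) (XT.lf (nat_lit 0) (nat_lit 12939131559) (nat_lit 304) (nat_lit 16179564216) (nat_lit 76) (nat_lit 33668813408) (nat_lit 43) (nat_lit 5) (nat_lit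 47) (nat_lit 5) (nat_lit 44) (nat_lit 5) (nat_lit 281) (nat_lit 268) (nat_lit 171)))) (XT.nd (nat_lit 156) (nat_lit 304) (nat_lit 0) (XT.nd (nat_lit 78) (nat_lit 228) (nat_lit 0) (XT.lf (nat_lit 0) (nat_lit 23527832096) (nat_lit 380) (nat_lit 39098756331) (nat_lit 76) (nat_lit 3341792380) (nat_lit 39) (nat_lit 5) (nat_lit 44) (nat_lit 5) (nat_lit 40) (nat_lit 5) (nat_lit 282) (nat_lit 268) (nat_lit 170)) (XT.lf (nat_lit 0) (nat_lit 4185641452) (nat_lit 228) (nat_lit 31617762476) (nat_lit 304) (nat_lit 33558340709) (nat_lit 36) (nat_lit 5) (nat_lit 39) (nat_lit 5) (nat_lit 40) (nat_lit 5) (nat_lit 283) (nat_lit 268) (nat_lit 169))) (XT.nd (nat_lit 78) (nat_lit 304) (nat_lit 0) (XT.lf (nat_lit 0) (nat_lit 49779620143) (nat_lit 304) (nat_lit 20707500892) (nat_lit 76) (nat_lit 2503537014) (nat_lit 36) (nat_lit 5) (nat_lit 40) (nat_lit 5) (nat_lit 37) (nat_lit 5) (nat_lit 284) (nat_lit 268)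 (nat_lit 168)) (XT.nd (nat_lit 78) (nat_lit 76) (nat_lit 0) (XT.lf (nat_lit 0) (nat_lit 27667676859) (nat_lit 228) (nat_lit 38168707029) (nat_lit 304) (nat_lit 11025387769) (nat_lit 33) (nat_lit 5) (nat_lit 36) (nat_lit 5) (nat_lit 37) (nat_lit 5) (nat_lit 285) (nat_lit 268) (nat_lit 167)) (XT.lf (nat_lit 0) (nat_lit 2430846264) (nat_lit 304) (nat_lit 414726948) (nat_lit 76) (nat_lit 78177139440) (nat_lit 32) (nat_lit 5) (nat_lit 36) (nat_lit 5) (nat_lit 33) (nat_lit 5) (nat_lit 286) (nat_lit 268) (nat_lit 166))))))) (XT.nd (nat_lit 702) (nat_lit 608) (nat_lit 0) (XT.nd (nat_lit 312) (nat_lit 532) (nat_lit 0) (XT.nd (nat_lit 156) (nat_lit 152) (nat_lit 0) (XT.nd (nat_lit 78) (nat_lit 228) (nat_lit 0) (XT.lf (nat_lit 0) (nat_lit 17988062075) (nat_lit 304) (nat_lit 32233360682) (nat_lit 76) (nat_lit 35215538887) (nat_lit 29) (nat_lit 5) (nat_lit 33) (nat_lit 5) (nat_lit 30) (nat_lit 5)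 (nat_lit 287) (nat_lit 268) (nat_lit 165)) (XT.lf (nat_lit 0) (nat_lit 21561206645) (nat_lit 228) (nat_lit 13618357083) (nat_lit 304) (nat_lit 55005308685) (nat_lit 26) (nat_lit 5) (nat_lit 29) (nat_lit 5) (nat_lit 30) (nat_lit 5) (nat_lit 288) (nat_lit 268) (nat_lit 164))) (XT.nd (nat_lit 78) (nat_lit 152) (nat_lit 0) (XT.lf (nat_lit 0) (nat_lit 54719511718) (nat_lit 304) (nat_lit 14890911068) (nat_lit 76) (nat_lit 25653543692) (nat_lit 26) (nat_lit 5) (nat_lit 30) (nat_lit 5) (nat_lit 27) (nat_lit 5) (nat_lit 289) (nat_lit 268) (nat_lit 163)) (XT.lf (nat_lit 0) (nat_lit 44326815763) (nat_lit 152) (nat_lit 32415557614) (nat_lit 228) (nat_lit 23961035045) (nat_lit 24) (nat_lit 5) (nat_lit 26) (nat_lit 5) (nat_lit 27) (nat_lit 5) (nat_lit 290) (nat_lit 268) (nat_lit 162)))) (XT.nd (nat_lit 156) (nat_lit 304) (nat_lit 0) (XT.nd (nat_lit 78) (nat_lit 76) (nat_lit 0) (XT.lf (nat_lit 0) (nat_lit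 2190742914) (nat_lit 152) (nat_lit 98753357925) (nat_lit 228) (nat_lit 5613058824) (nat_lit 22) (nat_lit 5) (nat_lit 24) (nat_lit 5) (nat_lit 25) (nat_lit 5) (nat_lit 291) (nat_lit 268) (nat_lit 161)) (XT.lf (nat_lit 0) (nat_lit 15291086809) (nat_lit 228) (nat_lit 46160550719) (nat_lit 76) (nat_lit 51339345922) (nat_lit 21) (nat_lit 5) (nat_lit 24) (nat_lit 5) (nat_lit 22) (nat_lit 5) (nat_lit 292) (nat_lit 268) (nat_lit 160))) (XT.nd (nat_lit 78) (nat_lit 152) (nat_lit 0) (XT.lf (nat_lit 0) (nat_lit 17153693321) (nat_lit 152) (nat_lit 20785977386) (nat_lit 228) (nat_lit 81565808247) (nat_lit 19) (nat_lit 5) (nat_lit 21) (nat_lit 5) (nat_lit 22) (nat_lit 5) (nat_lit 293) (nat_lit 268) (nat_lit 159)) (XT.nd (nat_lit 78) (nat_lit 152) (nat_lit 0) (XT.lf (nat_lit 0) (nat_lit 63576970606) (nat_lit 228) (nat_lit 39912261302) (nat_lit 76) (nat_lit 23209065098) (nat_lit 19) (nat_lit 5) (nat_lit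 22) (nat_lit 5) (nat_lit 20) (nat_lit 5) (nat_lit 294) (nat_lit 268) (nat_lit 158)) (XT.lf (nat_lit 0) (nat_lit 28068033044) (nat_lit 152) (nat_lit 63984441441) (nat_lit 228) (nat_lit 42374709065) (nat_lit 17) (nat_lit 5) (nat_lit 19) (nat_lit 5) (nat_lit 20) (nat_lit 5) (nat_lit 295) (nat_lit 268) (nat_lit 157)))))) (XT.nd (nat_lit 390) (nat_lit 304) (nat_lit 0) (XT.nd (nat_lit 156) (nat_lit 152) (nat_lit 0) (XT.nd (nat_lit 78) (nat_lit 152) (nat_lit 0) (XT.lf (nat_lit 0) (nat_lit 102909848175) (nat_lit 152) (nat_lit 20590002840) (nat_lit 228) (nat_lit 19239842135) (nat_lit 17) (nat_lit 5) (nat_lit 19) (nat_lit 5) (nat_lit 20) (nat_lit 5) (nat_lit 296) (nat_lit 268) (nat_lit 156)) (XT.lf (nat_lit 0) (nat_lit 6495723466) (nat_lit 152) (nat_lit 119121377986) (nat_lit 76) (nat_lit 26048929394) (nat_lit 15) (nat_lit 5) (nat_lit 17) (nat_lit 5) (nat_lit 16) (nat_lit 5) (nat_lit 297) (nat_lit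 268) (nat_lit 155))) (XT.nd (nat_lit 78) (nat_lit 152) (nat_lit 0) (XT.lf (nat_lit 0) (nat_lit 34676168670) (nat_lit 152) (nat_lit 49825352580) (nat_lit 76) (nat_lit 76736181772) (nat_lit 15) (nat_lit 5) (nat_lit 17) (nat_lit 5) (nat_lit 16) (nat_lit 5) (nat_lit 298) (nat_lit 268) (nat_lit 154)) (XT.nd (nat_lit 78) (nat_lit 0) (nat_lit 0) (XT.lf (nat_lit 0) (nat_lit 25839518707) (nat_lit 152) (nat_lit 39673776479) (nat_lit 228) (nat_lit 106041704336) (nat_lit 13) (nat_lit 5) (nat_lit 15) (nat_lit 5) (nat_lit 16) (nat_lit 5) (nat_lit 299) (nat_lit 268) (nat_lit 153)) (XT.lf (nat_lit 0) (nat_lit 99834872252) (nat_lit 228) (nat_lit 73469973235) (nat_lit 76) (nat_lit 9341962857) (nat_lit 13) (nat_lit 5) (nat_lit 16) (nat_lit 5) (nat_lit 14) (nat_lit 4) (nat_lit 300) (nat_lit 268) (nat_lit 152))))) (XT.nd (nat_lit 156) (nat_lit 228) (nat_lit 0) (XT.nd (nat_lit 78) (nat_lit 0) (nat_lit 0) (XT.lf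 (nat_lit 0) (nat_lit 4012947911) (nat_lit 76) (nat_lit 133619804961) (nat_lit 152) (nat_lit 56956682560) (nat_lit 12) (nat_lit 5) (nat_lit 13) (nat_lit 5) (nat_lit 14) (nat_lit 4) (nat_lit 301) (nat_lit 268) (nat_lit 151)) (XT.lf (nat_lit 0) (nat_lit 90316471324) (nat_lit 76) (nat_lit 89416796187) (nat_lit 152) (nat_lit 27690267247) (nat_lit 12) (nat_lit 5) (nat_lit 13) (nat_lit 5) (nat_lit 14) (nat_lit 4) (nat_lit 302) (nat_lit 268) (nat_lit 150))) (XT.nd (nat_lit 78) (nat_lit 152) (nat_lit 0) (XT.lf (nat_lit 0) (nat_lit 3791138740) (nat_lit 152) (nat_lit 37822781446) (nat_lit 76) (nat_lit 179667432667) (nat_lit 11) (nat_lit 5) (nat_lit 13) (nat_lit 5) (nat_lit 12) (nat_lit 5) (nat_lit 303) (nat_lit 268) (nat_lit 149)) (XT.nd (nat_lit 78) (nat_lit 0) (nat_lit 0) (XT.lf (nat_lit 0) (nat_lit 37773003209) (nat_lit 228) (nat_lit 187461763976) (nat_lit 76) (nat_lit 10942730203) (nat_lit 9)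 (nat_lit 5) (nat_lit 12) (nat_lit 5) (nat_lit 10) (nat_lit 4) (nat_lit 304) (nat_lit 268) (nat_lit 148)) (XT.lf (nat_lit 0) (nat_lit 75843917966) (nat_lit 228) (nat_lit 109418302689) (nat_lit 76) (nat_lit 66934589476) (nat_lit 9) (nat_lit 5) (nat_lit 12) (nat_lit 5) (nat_lit 10) (nat_lit 4) (nat_lit 305) (nat_lit 268) (nat_lit 147))))))))
noncomputable def xc102 : XT := (XT.nd (nat_lit 35022) (nat_lit 0) (nat_lit 1444) (XT.nd (nat_lit 702) (nat_lit 0) (nat_lit 0) (XT.nd (nat_lit 312) (nat_lit 228) (nat_lit 0) (XT.nd (nat_lit 156) (nat_lit 0) (nat_lit 0) (XT.nd (nat_lit 78) (nat_lit 76) (nat_lit 0) (XT.lf (nat_lit 0) (nat_lit 116959732919) (nat_lit 228) (nat_lit 25132654225) (nat_lit 76) (nat_lit 127405320972) (nat_lit 9) (nat_lit 5) (nat_lit 12) (nat_lit 5) (nat_lit 10) (nat_lit 4) (nat_lit 306) (nat_lit 268) (nat_lit 146)) (XT.lf (nat_lit 0) (nat_lit 68073426703) (nat_lit 76) (nat_lit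 94353487603) (nat_lit 152) (nat_lit 125702660030) (nat_lit 8) (nat_lit 5) (nat_lit 9) (nat_lit 5) (nat_lit 10) (nat_lit 4) (nat_lit 307) (nat_lit 268) (nat_lit 145))) (XT.nd (nat_lit 78) (nat_lit 0) (nat_lit 0) (XT.lf (nat_lit 0) (nat_lit 169632330789) (nat_lit 76) (nat_lit 42336253495) (nat_lit 152) (nat_lit 96261551218) (nat_lit 8) (nat_lit 5) (nat_lit 9) (nat_lit 5) (nat_lit 10) (nat_lit 4) (nat_lit 308) (nat_lit 268) (nat_lit 144)) (XT.lf (nat_lit 0) (nat_lit 265689069073) (nat_lit 152) (nat_lit 50839996142) (nat_lit 0) (nat_lit 13398903534) (nat_lit 8) (nat_lit 5) (nat_lit 10) (nat_lit 4) (nat_lit 8) (nat_lit 4) (nat_lit 309) (nat_lit 268) (nat_lit 143)))) (XT.nd (nat_lit 156) (nat_lit 76) (nat_lit 0) (XT.nd (nat_lit 78) (nat_lit 76) (nat_lit 0) (XT.lf (nat_lit 0) (nat_lit 44652733392) (nat_lit 76) (nat_lit 280464890491) (nat_lit 76) (nat_lit 28173484369) (nat_lit 7) (nat_lit 4)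 (nat_lit 8) (nat_lit 5) (nat_lit 8) (nat_lit 4) (nat_lit 310) (nat_lit 268) (nat_lit 142)) (XT.lf (nat_lit 0) (nat_lit 11331774389) (nat_lit 152) (nat_lit 229062417312) (nat_lit 76) (nat_lit 138075717808) (nat_lit 6) (nat_lit 5) (nat_lit 8) (nat_lit 5) (nat_lit 7) (nat_lit 4) (nat_lit 311) (nat_lit 268) (nat_lit 141))) (XT.nd (nat_lit 78) (nat_lit 76) (nat_lit 0) (XT.lf (nat_lit 0) (nat_lit 53023059334) (nat_lit 152) (nat_lit 143596346775) (nat_lit 76) (nat_lit 209019883327) (nat_lit 6) (nat_lit 5) (nat_lit 8) (nat_lit 5) (nat_lit 7) (nat_lit 4) (nat_lit 312) (nat_lit 268) (nat_lit 140)) (XT.nd (nat_lit 78) (nat_lit 76) (nat_lit 0) (XT.lf (nat_lit 0) (nat_lit 98049157379) (nat_lit 152) (nat_lit 51293830596) (nat_lit 76) (nat_lit 285639257141) (nat_lit 6) (nat_lit 5) (nat_lit 8) (nat_lit 5) (nat_lit 7) (nat_lit 4) (nat_lit 313) (nat_lit 268) (nat_lit 139)) (XT.lf (nat_lit 0) (nat_lit 49992170767)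 (nat_lit 76) (nat_lit 97465236968) (nat_lit 152) (nat_lit 319176227104) (nat_lit 5) (nat_lit 5) (nat_lit 6) (nat_lit 5) (nat_lit 7) (nat_lit 4) (nat_lit 314) (nat_lit 268) (nat_lit 138)))))) (XT.nd (nat_lit 33930) (nat_lit 0) (nat_lit 4180) (XT.nd (nat_lit 156) (nat_lit 0) (nat_lit 0) (XT.nd (nat_lit 78) (nat_lit 0) (nat_lit 0) (XT.lf (nat_lit 0) (nat_lit 161211994405) (nat_lit 76) (nat_lit 40499397700) (nat_lit 152) (nat_lit 299061090685) (nat_lit 5) (nat_lit 5) (nat_lit 6) (nat_lit 5) (nat_lit 7) (nat_lit 4) (nat_lit 315) (nat_lit 268) (nat_lit 137)) (XT.lf (nat_lit 0) (nat_lit 260633530228) (nat_lit 152) (nat_lit 256641978674) (nat_lit 0) (nat_lit 20350538619) (nat_lit 5) (nat_lit 5) (nat_lit 7) (nat_lit 4) (nat_lit 5) (nat_lit 4) (nat_lit 316) (nat_lit 268) (nat_lit 136))) (XT.nd (nat_lit 78) (nat_lit 0) (nat_lit 0) (XT.lf (nat_lit 0) (nat_lit 324951959143) (nat_lit 152) (nat_lit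 167773534809) (nat_lit 0) (nat_lit 84668278135) (nat_lit 5) (nat_lit 5) (nat_lit 7) (nat_lit 4) (nat_lit 5) (nat_lit 4) (nat_lit 317) (nat_lit 268) (nat_lit 135)) (XT.lf (nat_lit 0) (nat_lit 394415515998) (nat_lit 152) (nat_lit 71796219877) (nat_lit 0) (nat_lit 154131196658) (nat_lit 5) (nat_lit 5) (nat_lit 7) (nat_lit 4) (nat_lit 5) (nat_lit 4) (nat_lit 318) (nat_lit 268) (nat_lit 134)))) (XT.nd (nat_lit 156) (nat_lit 0) (nat_lit 76) (XT.nd (nat_lit 78) (nat_lit 0) (nat_lit 0) (XT.lf (nat_lit 0) (nat_lit 1372502484) (nat_lit 0) (nat_lit 1372502484) (nat_lit 684) (nat_lit 16457886888) (nat_lit 60) (nat_lit 5) (nat_lit 60) (nat_lit 3) (nat_lit 69) (nat_lit 3) (nat_lit 269) (nat_lit 269) (nat_lit 182)) (XT.lf (nat_lit 0) (nat_lit 6136729007) (nat_lit 684) (nat_lit 11185641754) (nat_lit 760) (nat_lit 22598013333) (nat_lit 60) (nat_lit 5) (nat_lit 69) (nat_lit 3) (nat_lit 70) (nat_lit 5)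 (nat_lit 270) (nat_lit 269) (nat_lit 181))) (XT.nd (nat_lit 78) (nat_lit 0) (nat_lit 0) (XT.lf (nat_lit 0) (nat_lit 7254333096) (nat_lit 684) (nat_lit 25975673584) (nat_lit 760) (nat_lit 8305215967) (nat_lit 61) (nat_lit 5) (nat_lit 70) (nat_lit 5) (nat_lit 71) (nat_lit 5) (nat_lit 271) (nat_lit 269) (nat_lit 180)) (XT.nd (nat_lit 78) (nat_lit 0) (nat_lit 76) (XT.lf (nat_lit 76) (nat_lit 1317446405) (nat_lit 0) (nat_lit 7648824304) (nat_lit 760) (nat_lit 34287756793) (nat_lit 62) (nat_lit 5) (nat_lit 61) (nat_lit 5) (nat_lit 71) (nat_lit 5) (nat_lit 272) (nat_lit 269) (nat_lit 179)) (XT.lf (nat_lit 0) (nat_lit 11581615464) (nat_lit 684) (nat_lit 13689341793) (nat_lit 760) (nat_lit 19801080475) (nat_lit 62) (nat_lit 5) (nat_lit 71) (nat_lit 5) (nat_lit 72) (nat_lit 5) (nat_lit 273) (nat_lit 269) (nat_lit 178))))))) (XT.nd (nat_lit 702) (nat_lit 1444) (nat_lit 0) (XT.nd (nat_lit 312) (nat_lit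 912) (nat_lit 0) (XT.nd (nat_lit 156) (nat_lit 608) (nat_lit 0) (XT.nd (nat_lit 78) (nat_lit 0) (nat_lit 0) (XT.lf (nat_lit 0) (nat_lit 14837358539) (nat_lit 684) (nat_lit 29817119068) (nat_lit 760) (nat_lit 2359474479) (nat_lit 63) (nat_lit 5) (nat_lit 72) (nat_lit 5) (nat_lit 73) (nat_lit 5) (nat_lit 274) (nat_lit 269) (nat_lit 177)) (XT.lf (nat_lit 76) (nat_lit 1559628882) (nat_lit 0) (nat_lit 17482126137) (nat_lit 760) (nat_lit 30035075096) (nat_lit 64) (nat_lit 5) (nat_lit 63) (nat_lit 5) (nat_lit 73) (nat_lit 5) (nat_lit 275) (nat_lit 269) (nat_lit 176))) (XT.nd (nat_lit 78) (nat_lit 684) (nat_lit 0) (XT.lf (nat_lit 0) (nat_lit 24291304676) (nat_lit 684) (nat_lit 14965037364) (nat_lit 76) (nat_lit 12012975001) (nat_lit 64) (nat_lit 5) (nat_lit 73) (nat_lit 5) (nat_lit 65) (nat_lit 5) (nat_lit 276) (nat_lit 269) (nat_lit 175)) (XT.lf (nat_lit 0) (nat_lit 20550753021) (nat_lit 684)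 (nat_lit 10021683409) (nat_lit 760) (nat_lit 23034202925) (nat_lit 55) (nat_lit 5) (nat_lit 64) (nat_lit 5) (nat_lit 65) (nat_lit 5) (nat_lit 277) (nat_lit 269) (nat_lit 174)))) (XT.nd (nat_lit 156) (nat_lit 608) (nat_lit 0) (XT.nd (nat_lit 78) (nat_lit 0) (nat_lit 0) (XT.lf (nat_lit 0) (nat_lit 3078487520) (nat_lit 304) (nat_lit 34923307045) (nat_lit 380) (nat_lit 18096882154) (nat_lit 51) (nat_lit 5) (nat_lit 55) (nat_lit 5) (nat_lit 56) (nat_lit 5) (nat_lit 278) (nat_lit 269) (nat_lit 173)) (XT.lf (nat_lit 0) (nat_lit 43106033933) (nat_lit 304) (nat_lit 3657997595) (nat_lit 380) (nat_lit 11989133901) (nat_lit 51) (nat_lit 5) (nat_lit 55) (nat_lit 5) (nat_lit 56) (nat_lit 5) (nat_lit 279) (nat_lit 269) (nat_lit 172))) (XT.nd (nat_lit 78) (nat_lit 304) (nat_lit 0) (XT.lf (nat_lit 0) (nat_lit 25043906488) (nat_lit 304) (nat_lit 32041148756) (nat_lit 380) (nat_lit 4492081366) (nat_lit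 47) (nat_lit 5) (nat_lit 51) (nat_lit 5) (nat_lit 52) (nat_lit 5) (nat_lit 280) (nat_lit 269) (nat_lit 171)) (XT.nd (nat_lit 78) (nat_lit 0) (nat_lit 0) (XT.lf (nat_lit 0) (nat_lit 3919153464) (nat_lit 304) (nat_lit 59651342934) (nat_lit 76) (nat_lit 1032237619) (nat_lit 43) (nat_lit 5) (nat_lit 47) (nat_lit 5) (nat_lit 44) (nat_lit 5) (nat_lit 281) (nat_lit 269) (nat_lit 170)) (XT.lf (nat_lit 0) (nat_lit 14032134254) (nat_lit 304) (nat_lit 17408967383) (nat_lit 76) (nat_lit 36366295395) (nat_lit 43) (nat_lit 5) (nat_lit 47) (nat_lit 5) (nat_lit 44) (nat_lit 5) (nat_lit 282) (nat_lit 269) (nat_lit 169)))))) (XT.nd (nat_lit 312) (nat_lit 684) (nat_lit 0) (XT.nd (nat_lit 156) (nat_lit 228) (nat_lit 0) (XT.nd (nat_lit 78) (nat_lit 228) (nat_lit 0) (XT.lf (nat_lit 0) (nat_lit 25464732564) (nat_lit 380) (nat_lit 42161705622) (nat_lit 76) (nat_lit 3616476356) (nat_lit 39) (nat_lit 5) (nat_lit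 44) (nat_lit 5) (nat_lit 40) (nat_lit 5) (nat_lit 283) (nat_lit 269) (nat_lit 168)) (XT.lf (nat_lit 0) (nat_lit 4582621283) (nat_lit 228) (nat_lit 34136648941) (nat_lit 304) (nat_lit 36188646289) (nat_lit 36) (nat_lit 5) (nat_lit 39) (nat_lit 5) (nat_lit 40) (nat_lit 5) (nat_lit 284) (nat_lit 269) (nat_lit 167))) (XT.nd (nat_lit 78) (nat_lit 228) (nat_lit 0) (XT.lf (nat_lit 0) (nat_lit 53809914250) (nat_lit 304) (nat_lit 22304164171) (nat_lit 76) (nat_lit 2713261977) (nat_lit 36) (nat_lit 5) (nat_lit 40) (nat_lit 5) (nat_lit 37) (nat_lit 5) (nat_lit 285) (nat_lit 269) (nat_lit 166)) (XT.lf (nat_lit 0) (nat_lit 29938423020) (nat_lit 228) (nat_lit 41210141225) (nat_lit 304) (nat_lit 11859724486) (nat_lit 33) (nat_lit 5) (nat_lit 36) (nat_lit 5) (nat_lit 37) (nat_lit 5) (nat_lit 286) (nat_lit 269) (nat_lit 165)))) (XT.nd (nat_lit 156) (nat_lit 380) (nat_lit 0) (XT.nd (nat_lit 78) (nat_lit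 228) (nat_lit 0) (XT.lf (nat_lit 0) (nat_lit 2668061918) (nat_lit 304) (nat_lit 393264337) (nat_lit 76) (nat_lit 84440923882) (nat_lit 32) (nat_lit 5) (nat_lit 36) (nat_lit 5) (nat_lit 33) (nat_lit 5) (nat_lit 287) (nat_lit 269) (nat_lit 164)) (XT.lf (nat_lit 0) (nat_lit 19467689804) (nat_lit 304) (nat_lit 34757797220) (nat_lit 76) (nat_lit 38044270813) (nat_lit 29) (nat_lit 5) (nat_lit 33) (nat_lit 5) (nat_lit 30) (nat_lit 5) (nat_lit 288) (nat_lit 269) (nat_lit 163))) (XT.nd (nat_lit 78) (nat_lit 152) (nat_lit 0) (XT.lf (nat_lit 0) (nat_lit 23337978623) (nat_lit 228) (nat_lit 14694336755) (nat_lit 304) (nat_lit 59365305646) (nat_lit 26) (nat_lit 5) (nat_lit 29) (nat_lit 5) (nat_lit 30) (nat_lit 5) (nat_lit 289) (nat_lit 269) (nat_lit 162)) (XT.nd (nat_lit 78) (nat_lit 152) (nat_lit 0) (XT.lf (nat_lit 0) (nat_lit 59132810759) (nat_lit 304) (nat_lit 16032456149) (nat_lit 76) (nat_lit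 27717917155) (nat_lit 26) (nat_lit 5) (nat_lit 30) (nat_lit 5) (nat_lit 27) (nat_lit 5) (nat_lit 290) (nat_lit 269) (nat_lit 161)) (XT.lf (nat_lit 0) (nat_lit 47920527719) (nat_lit 152) (nat_lit 34995069015) (nat_lit 228) (nat_lit 25842288218) (nat_lit 24) (nat_lit 5) (nat_lit 26) (nat_lit 5) (nat_lit 27) (nat_lit 5) (nat_lit 291) (nat_lit 269) (nat_lit 160))))))))
noncomputable def xc103 : XT := (XT.nd (nat_lit 1404) (nat_lit 228) (nat_lit 0) (XT.nd (nat_lit 702) (nat_lit 380) (nat_lit 0) (XT.nd (nat_lit 312) (nat_lit 456) (nat_lit 0) (XT.nd (nat_lit 156) (nat_lit 152) (nat_lit 0) (XT.nd (nat_lit 78) (nat_lit 76) (nat_lit 0) (XT.lf (nat_lit 0) (nat_lit 2413014841) (nat_lit 152) (nat_lit 106638873895) (nat_lit 228) (nat_lit 6028133977) (nat_lit 22) (nat_lit 5) (nat_lit 24) (nat_lit 5) (nat_lit 25) (nat_lit 5) (nat_lit 292) (nat_lit 269) (nat_lit 159)) (XT.lf (nat_lit 0) (nat_lit 16544820342)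 (nat_lit 228) (nat_lit 49808772687) (nat_lit 76) (nat_lit 55459061467) (nat_lit 21) (nat_lit 5) (nat_lit 24) (nat_lit 5) (nat_lit 22) (nat_lit 5) (nat_lit 293) (nat_lit 269) (nat_lit 158))) (XT.nd (nat_lit 78) (nat_lit 0) (nat_lit 0) (XT.lf (nat_lit 0) (nat_lit 18568671655) (nat_lit 152) (nat_lit 22435030394) (nat_lit 228) (nat_lit 88060693356) (nat_lit 19) (nat_lit 5) (nat_lit 21) (nat_lit 5) (nat_lit 22) (nat_lit 5) (nat_lit 294) (nat_lit 269) (nat_lit 157)) (XT.lf (nat_lit 0) (nat_lit 68690048194) (nat_lit 228) (nat_lit 43064511757) (nat_lit 76) (nat_lit 25078181686) (nat_lit 19) (nat_lit 5) (nat_lit 22) (nat_lit 5) (nat_lit 20) (nat_lit 5) (nat_lit 295) (nat_lit 269) (nat_lit 156)))) (XT.nd (nat_lit 156) (nat_lit 304) (nat_lit 0) (XT.nd (nat_lit 78) (nat_lit 0) (nat_lit 0) (XT.lf (nat_lit 0) (nat_lit 30352436041) (nat_lit 152) (nat_lit 69089770552) (nat_lit 228) (nat_lit 45737807218)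 (nat_lit 17) (nat_lit 5) (nat_lit 19) (nat_lit 5) (nat_lit 20) (nat_lit 5) (nat_lit 296) (nat_lit 269) (nat_lit 155)) (XT.lf (nat_lit 0) (nat_lit 111178710430) (nat_lit 152) (nat_lit 22224771397) (nat_lit 228) (nat_lit 20754141939) (nat_lit 17) (nat_lit 5) (nat_lit 19) (nat_lit 5) (nat_lit 20) (nat_lit 5) (nat_lit 297) (nat_lit 269) (nat_lit 154))) (XT.nd (nat_lit 78) (nat_lit 152) (nat_lit 0) (XT.lf (nat_lit 0) (nat_lit 7038434022) (nat_lit 152) (nat_lit 128614758979) (nat_lit 76) (nat_lit 28144912389) (nat_lit 15) (nat_lit 5) (nat_lit 17) (nat_lit 5) (nat_lit 16) (nat_lit 5) (nat_lit 298) (nat_lit 269) (nat_lit 153)) (XT.nd (nat_lit 78) (nat_lit 152) (nat_lit 0) (XT.lf (nat_lit 0) (nat_lit 37471607237) (nat_lit 152) (nat_lit 53777742596) (nat_lit 76) (nat_lit 82886250983) (nat_lit 15) (nat_lit 5) (nat_lit 17) (nat_lit 5) (nat_lit 16) (nat_lit 5) (nat_lit 299) (nat_lit 269) (nat_lit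 152)) (XT.lf (nat_lit 0) (nat_lit 27938856519) (nat_lit 152) (nat_lit 42835768601) (nat_lit 228) (nat_lit 114503713646) (nat_lit 13) (nat_lit 5) (nat_lit 15) (nat_lit 5) (nat_lit 16) (nat_lit 5) (nat_lit 300) (nat_lit 269) (nat_lit 151)))))) (XT.nd (nat_lit 312) (nat_lit 228) (nat_lit 0) (XT.nd (nat_lit 156) (nat_lit 76) (nat_lit 0) (XT.nd (nat_lit 78) (nat_lit 76) (nat_lit 0) (XT.lf (nat_lit 0) (nat_lit 107840599317) (nat_lit 228) (nat_lit 79316968237) (nat_lit 76) (nat_lit 10099994703) (nat_lit 13) (nat_lit 5) (nat_lit 16) (nat_lit 5) (nat_lit 14) (nat_lit 4) (nat_lit 301) (nat_lit 269) (nat_lit 150)) (XT.lf (nat_lit 0) (nat_lit 4363256638) (nat_lit 76) (nat_lit 144298108019) (nat_lit 152) (nat_lit 61494285393) (nat_lit 12) (nat_lit 5) (nat_lit 13) (nat_lit 5) (nat_lit 14) (nat_lit 4) (nat_lit 302) (nat_lit 269) (nat_lit 149))) (XT.nd (nat_lit 78) (nat_lit 76) (nat_lit 0) (XT.lf (nat_lit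 0) (nat_lit 97568893562) (nat_lit 76) (nat_lit 96559694197) (nat_lit 152) (nat_lit 29887959208) (nat_lit 12) (nat_lit 5) (nat_lit 13) (nat_lit 5) (nat_lit 14) (nat_lit 4) (nat_lit 303) (nat_lit 269) (nat_lit 148)) (XT.lf (nat_lit 0) (nat_lit 4110141291) (nat_lit 152) (nat_lit 40822954499) (nat_lit 76) (nat_lit 194049946536) (nat_lit 11) (nat_lit 5) (nat_lit 13) (nat_lit 5) (nat_lit 12) (nat_lit 5) (nat_lit 304) (nat_lit 269) (nat_lit 147)))) (XT.nd (nat_lit 156) (nat_lit 76) (nat_lit 0) (XT.nd (nat_lit 78) (nat_lit 0) (nat_lit 0) (XT.lf (nat_lit 0) (nat_lit 40809924109) (nat_lit 228) (nat_lit 202433543013) (nat_lit 76) (nat_lit 11827445301) (nat_lit 9) (nat_lit 5) (nat_lit 12) (nat_lit 5) (nat_lit 10) (nat_lit 4) (nat_lit 305) (nat_lit 269) (nat_lit 146)) (XT.lf (nat_lit 0) (nat_lit 81925394962) (nat_lit 228) (nat_lit 118148468680) (nat_lit 76) (nat_lit 72297964672) (nat_lit 9) (nat_lit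 5) (nat_lit 12) (nat_lit 5) (nat_lit 10) (nat_lit 4) (nat_lit 306) (nat_lit 269) (nat_lit 145))) (XT.nd (nat_lit 78) (nat_lit 76) (nat_lit 0) (XT.lf (nat_lit 0) (nat_lit 126329440773) (nat_lit 228) (nat_lit 27121694134) (nat_lit 76) (nat_lit 137605717055) (nat_lit 9) (nat_lit 5) (nat_lit 12) (nat_lit 5) (nat_lit 10) (nat_lit 4) (nat_lit 307) (nat_lit 269) (nat_lit 144)) (XT.nd (nat_lit 78) (nat_lit 0) (nat_lit 0) (XT.lf (nat_lit 0) (nat_lit 73539935758) (nat_lit 76) (nat_lit 101893425364) (nat_lit 152) (nat_lit 135745940089) (nat_lit 8) (nat_lit 5) (nat_lit 9) (nat_lit 5) (nat_lit 10) (nat_lit 4) (nat_lit 308) (nat_lit 269) (nat_lit 143)) (XT.lf (nat_lit 0) (nat_lit 183222023658) (nat_lit 76) (nat_lit 45715430397) (nat_lit 152) (nat_lit 103950500552) (nat_lit 8) (nat_lit 5) (nat_lit 9) (nat_lit 5) (nat_lit 10) (nat_lit 4) (nat_lit 309) (nat_lit 269) (nat_lit 142))))))) (XT.nd (nat_lit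 34398) (nat_lit 0) (nat_lit 3496) (XT.nd (nat_lit 312) (nat_lit 76) (nat_lit 0) (XT.nd (nat_lit 156) (nat_lit 76) (nat_lit 0) (XT.nd (nat_lit 78) (nat_lit 76) (nat_lit 0) (XT.lf (nat_lit 0) (nat_lit 286954846090) (nat_lit 152) (nat_lit 54889068466) (nat_lit 0) (nat_lit 14477738207) (nat_lit 8) (nat_lit 5) (nat_lit 10) (nat_lit 4) (nat_lit 8) (nat_lit 4) (nat_lit 310) (nat_lit 269) (nat_lit 141)) (XT.lf (nat_lit 0) (nat_lit 48242291638) (nat_lit 76) (nat_lit 302894875368) (nat_lit 76) (nat_lit 30416703884) (nat_lit 7) (nat_lit 4) (nat_lit 8) (nat_lit 5) (nat_lit 8) (nat_lit 4) (nat_lit 311) (nat_lit 269) (nat_lit 140))) (XT.nd (nat_lit 78) (nat_lit 0) (nat_lit 0) (XT.lf (nat_lit 0) (nat_lit 12247870110) (nat_lit 152) (nat_lit 247371022571) (nat_lit 76) (nat_lit 149128114826) (nat_lit 6) (nat_lit 5) (nat_lit 8) (nat_lit 5) (nat_lit 7) (nat_lit 4) (nat_lit 312) (nat_lit 269) (nat_lit 139))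 (XT.lf (nat_lit 0) (nat_lit 57273750164) (nat_lit 152) (nat_lit 155068880326) (nat_lit 76) (nat_lit 225747343987) (nat_lit 6) (nat_lit 5) (nat_lit 8) (nat_lit 5) (nat_lit 7) (nat_lit 4) (nat_lit 313) (nat_lit 269) (nat_lit 138)))) (XT.nd (nat_lit 156) (nat_lit 0) (nat_lit 0) (XT.nd (nat_lit 78) (nat_lit 76) (nat_lit 0) (XT.lf (nat_lit 0) (nat_lit 105901280788) (nat_lit 152) (nat_lit 55383286868) (nat_lit 76) (nat_lit 308495832891) (nat_lit 6) (nat_lit 5) (nat_lit 8) (nat_lit 5) (nat_lit 7) (nat_lit 4) (nat_lit 314) (nat_lit 269) (nat_lit 137)) (XT.lf (nat_lit 0) (nat_lit 54004984001) (nat_lit 76) (nat_lit 105256810273) (nat_lit 152) (nat_lit 344702128102) (nat_lit 5) (nat_lit 5) (nat_lit 6) (nat_lit 5) (nat_lit 7) (nat_lit 4) (nat_lit 315) (nat_lit 269) (nat_lit 136))) (XT.nd (nat_lit 78) (nat_lit 0) (nat_lit 0) (XT.lf (nat_lit 0) (nat_lit 174121398007) (nat_lit 76) (nat_lit 43734122060)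 (nat_lit 152) (nat_lit 322978387967) (nat_lit 5) (nat_lit 5) (nat_lit 6) (nat_lit 5) (nat_lit 7) (nat_lit 4) (nat_lit 316) (nat_lit 269) (nat_lit 135)) (XT.nd (nat_lit 78) (nat_lit 0) (nat_lit 0) (XT.lf (nat_lit 0) (nat_lit 281490970246) (nat_lit 152) (nat_lit 277161544549) (nat_lit 0) (nat_lit 21983267028) (nat_lit 5) (nat_lit 5) (nat_lit 7) (nat_lit 4) (nat_lit 5) (nat_lit 4) (nat_lit 317) (nat_lit 269) (nat_lit 134)) (XT.lf (nat_lit 0) (nat_lit 350954372912) (nat_lit 152) (nat_lit 181184498687) (nat_lit 0) (nat_lit 91446078645) (nat_lit 5) (nat_lit 5) (nat_lit 7) (nat_lit 4) (nat_lit 5) (nat_lit 4) (nat_lit 318) (nat_lit 269) (nat_lit 133)))))) (XT.nd (nat_lit 390) (nat_lit 684) (nat_lit 0) (XT.nd (nat_lit 156) (nat_lit 0) (nat_lit 76) (XT.nd (nat_lit 78) (nat_lit 0) (nat_lit 0) (XT.lf (nat_lit 0) (nat_lit 1512866794) (nat_lit 0) (nat_lit 1512866794) (nat_lit 684) (nat_lit 17710064785)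 (nat_lit 60) (nat_lit 5) (nat_lit 60) (nat_lit 3) (nat_lit 69) (nat_lit 3) (nat_lit 270) (nat_lit 270) (nat_lit 180)) (XT.lf (nat_lit 0) (nat_lit 6739984052) (nat_lit 684) (nat_lit 12016852106) (nat_lit 760) (nat_lit 24351065753) (nat_lit 60) (nat_lit 5) (nat_lit 69) (nat_lit 3) (nat_lit 70) (nat_lit 5) (nat_lit 271) (nat_lit 270) (nat_lit 179))) (XT.nd (nat_lit 78) (nat_lit 0) (nat_lit 0) (XT.lf (nat_lit 0) (nat_lit 7938939053) (nat_lit 684) (nat_lit 27986456529) (nat_lit 760) (nat_lit 8926971658) (nat_lit 61) (nat_lit 5) (nat_lit 70) (nat_lit 5) (nat_lit 71) (nat_lit 5) (nat_lit 272) (nat_lit 270) (nat_lit 178)) (XT.nd (nat_lit 78) (nat_lit 0) (nat_lit 76) (XT.lf (nat_lit 76) (nat_lit 1487189546) (nat_lit 0) (nat_lit 8293923861) (nat_lit 760) (nat_lit 36927933082) (nat_lit 62) (nat_lit 5) (nat_lit 61) (nat_lit 5) (nat_lit 71) (nat_lit 5) (nat_lit 273) (nat_lit 270) (nat_lit 177)) (XT.lf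 (nat_lit 0) (nat_lit 12597980623) (nat_lit 684) (nat_lit 14719517945) (nat_lit 760) (nat_lit 21355415793) (nat_lit 62) (nat_lit 5) (nat_lit 71) (nat_lit 5) (nat_lit 72) (nat_lit 5) (nat_lit 274) (nat_lit 270) (nat_lit 176))))) (XT.nd (nat_lit 156) (nat_lit 912) (nat_lit 0) (XT.nd (nat_lit 78) (nat_lit 0) (nat_lit 0) (XT.lf (nat_lit 0) (nat_lit 16108155385) (nat_lit 684) (nat_lit 32135424475) (nat_lit 760) (nat_lit 2526932620) (nat_lit 63) (nat_lit 5) (nat_lit 72) (nat_lit 5) (nat_lit 73) (nat_lit 5) (nat_lit 275) (nat_lit 270) (nat_lit 175)) (XT.lf (nat_lit 76) (nat_lit 1748548785) (nat_lit 0) (nat_lit 18895148340) (nat_lit 760) (nat_lit 32355011013) (nat_lit 64) (nat_lit 5) (nat_lit 63) (nat_lit 5) (nat_lit 73) (nat_lit 5) (nat_lit 276) (nat_lit 270) (nat_lit 174))) (XT.nd (nat_lit 78) (nat_lit 988) (nat_lit 0) (XT.lf (nat_lit 0) (nat_lit 26307179483) (nat_lit 684) (nat_lit 16098681449)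 (nat_lit 76) (nat_lit 12961059710) (nat_lit 64) (nat_lit 5) (nat_lit 73) (nat_lit 5) (nat_lit 65) (nat_lit 5) (nat_lit 277) (nat_lit 270) (nat_lit 173)) (XT.nd (nat_lit 78) (nat_lit 304) (nat_lit 0) (XT.lf (nat_lit 0) (nat_lit 22255609975) (nat_lit 684) (nat_lit 10830765422) (nat_lit 760) (nat_lit 24805097866) (nat_lit 55) (nat_lit 5) (nat_lit 64) (nat_lit 5) (nat_lit 65) (nat_lit 5) (nat_lit 278) (nat_lit 270) (nat_lit 172)) (XT.lf (nat_lit 0) (nat_lit 3386567372) (nat_lit 304) (nat_lit 37719325771) (nat_lit 380) (nat_lit 19477211408) (nat_lit 51) (nat_lit 5) (nat_lit 55) (nat_lit 5) (nat_lit 56) (nat_lit 5) (nat_lit 279) (nat_lit 270) (nat_lit 171))))))))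
noncomputable def xc104 : XT := (XT.nd (nat_lit 1404) (nat_lit 836) (nat_lit 0) (XT.nd (nat_lit 702) (nat_lit 1140) (nat_lit 0) (XT.nd (nat_lit 312) (nat_lit 836) (nat_lit 0) (XT.nd (nat_lit 156) (nat_lit 304) (nat_lit 0) (XT.nd (nat_lit 78) (nat_lit 304) (nat_lit 0) (XT.lf (nat_lit 0) (nat_lit 46611739657) (nat_lit 304) (nat_lit 3952631998) (nat_lit 380) (nat_lit 12885837467) (nat_lit 51) (nat_lit 5) (nat_lit 55) (nat_lit 5) (nat_lit 56) (nat_lit 5) (nat_lit 280) (nat_lit 270) (nat_lit 170)) (XT.lf (nat_lit 0) (nat_lit 27105255021) (nat_lit 304) (nat_lit 34602309907) (nat_lit 380) (nat_lit 4792727107) (nat_lit 47) (nat_lit 5) (nat_lit 51) (nat_lit 5) (nat_lit 52) (nat_lit 5) (nat_lit 281) (nat_lit 270) (nat_lit 169))) (XT.nd (nat_lit 78) (nat_lit 0) (nat_lit 0) (XT.lf (nat_lit 0) (nat_lit 4286271084) (nat_lit 304) (nat_lit 64363300396) (nat_lit 76) (nat_lit 1118498957) (nat_lit 43) (nat_lit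 5) (nat_lit 47) (nat_lit 5) (nat_lit 44) (nat_lit 5) (nat_lit 282) (nat_lit 270) (nat_lit 168)) (XT.lf (nat_lit 0) (nat_lit 15204321053) (nat_lit 304) (nat_lit 18745990355) (nat_lit 76) (nat_lit 39279008589) (nat_lit 43) (nat_lit 5) (nat_lit 47) (nat_lit 5) (nat_lit 44) (nat_lit 5) (nat_lit 283) (nat_lit 270) (nat_lit 167)))) (XT.nd (nat_lit 156) (nat_lit 304) (nat_lit 0) (XT.nd (nat_lit 78) (nat_lit 228) (nat_lit 0) (XT.lf (nat_lit 0) (nat_lit 27548785226) (nat_lit 380) (nat_lit 45478956873) (nat_lit 76) (nat_lit 3912087833) (nat_lit 39) (nat_lit 5) (nat_lit 44) (nat_lit 5) (nat_lit 40) (nat_lit 5) (nat_lit 284) (nat_lit 270) (nat_lit 166)) (XT.lf (nat_lit 0) (nat_lit 5002496174) (nat_lit 228) (nat_lit 36858549192) (nat_lit 304) (nat_lit 39037131617) (nat_lit 36) (nat_lit 5) (nat_lit 39) (nat_lit 5) (nat_lit 40) (nat_lit 5) (nat_lit 285) (nat_lit 270) (nat_lit 165))) (XT.nd (nat_lit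 78) (nat_lit 304) (nat_lit 0) (XT.lf (nat_lit 0) (nat_lit 58155794921) (nat_lit 304) (nat_lit 24037111166) (nat_lit 76) (nat_lit 2938417930) (nat_lit 36) (nat_lit 5) (nat_lit 40) (nat_lit 5) (nat_lit 37) (nat_lit 5) (nat_lit 286) (nat_lit 270) (nat_lit 164)) (XT.nd (nat_lit 78) (nat_lit 76) (nat_lit 0) (XT.lf (nat_lit 0) (nat_lit 32382649822) (nat_lit 228) (nat_lit 44496610989) (nat_lit 304) (nat_lit 12767612267) (nat_lit 33) (nat_lit 5) (nat_lit 36) (nat_lit 5) (nat_lit 37) (nat_lit 5) (nat_lit 287) (nat_lit 270) (nat_lit 163)) (XT.lf (nat_lit 0) (nat_lit 2918156351) (nat_lit 304) (nat_lit 377879833) (nat_lit 76) (nat_lit 91204439636) (nat_lit 32) (nat_lit 5) (nat_lit 36) (nat_lit 5) (nat_lit 33) (nat_lit 5) (nat_lit 288) (nat_lit 270) (nat_lit 162)))))) (XT.nd (nat_lit 312) (nat_lit 532) (nat_lit 0) (XT.nd (nat_lit 156) (nat_lit 152) (nat_lit 0) (XT.nd (nat_lit 78) (nat_lit 228) (nat_lit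 0) (XT.lf (nat_lit 0) (nat_lit 21059898165) (nat_lit 304) (nat_lit 37491925527) (nat_lit 76) (nat_lit 41097662285) (nat_lit 29) (nat_lit 5) (nat_lit 33) (nat_lit 5) (nat_lit 30) (nat_lit 5) (nat_lit 289) (nat_lit 270) (nat_lit 161)) (XT.lf (nat_lit 0) (nat_lit 25249491748) (nat_lit 228) (nat_lit 15858319143) (nat_lit 304) (nat_lit 64079869832) (nat_lit 26) (nat_lit 5) (nat_lit 29) (nat_lit 5) (nat_lit 30) (nat_lit 5) (nat_lit 290) (nat_lit 270) (nat_lit 160))) (XT.nd (nat_lit 78) (nat_lit 152) (nat_lit 0) (XT.lf (nat_lit 0) (nat_lit 63894075284) (nat_lit 304) (nat_lit 17272419064) (nat_lit 76) (nat_lit 29945715726) (nat_lit 26) (nat_lit 5) (nat_lit 30) (nat_lit 5) (nat_lit 27) (nat_lit 5) (nat_lit 291) (nat_lit 270) (nat_lit 159)) (XT.lf (nat_lit 0) (nat_lit 51794950710) (nat_lit 152) (nat_lit 37782900524) (nat_lit 228) (nat_lit 27879124610) (nat_lit 24) (nat_lit 5) (nat_lit 26) (nat_lit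 5) (nat_lit 27) (nat_lit 5) (nat_lit 292) (nat_lit 270) (nat_lit 158)))) (XT.nd (nat_lit 156) (nat_lit 304) (nat_lit 0) (XT.nd (nat_lit 78) (nat_lit 76) (nat_lit 0) (XT.lf (nat_lit 0) (nat_lit 2646361664) (nat_lit 152) (nat_lit 115157335775) (nat_lit 228) (nat_lit 6481261279) (nat_lit 22) (nat_lit 5) (nat_lit 24) (nat_lit 5) (nat_lit 25) (nat_lit 5) (nat_lit 293) (nat_lit 270) (nat_lit 157)) (XT.lf (nat_lit 0) (nat_lit 17894509012) (nat_lit 228) (nat_lit 53755218252) (nat_lit 76) (nat_lit 59906561309) (nat_lit 21) (nat_lit 5) (nat_lit 24) (nat_lit 5) (nat_lit 22) (nat_lit 5) (nat_lit 294) (nat_lit 270) (nat_lit 156))) (XT.nd (nat_lit 78) (nat_lit 152) (nat_lit 0) (XT.lf (nat_lit 0) (nat_lit 20090759067) (nat_lit 152) (nat_lit 24217979959) (nat_lit 228) (nat_lit 95079503256) (nat_lit 19) (nat_lit 5) (nat_lit 21) (nat_lit 5) (nat_lit 22) (nat_lit 5) (nat_lit 295) (nat_lit 270) (nat_lit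 155)) (XT.nd (nat_lit 78) (nat_lit 152) (nat_lit 0) (XT.lf (nat_lit 0) (nat_lit 74208331558) (nat_lit 228) (nat_lit 46474752903) (nat_lit 76) (nat_lit 27095059833) (nat_lit 19) (nat_lit 5) (nat_lit 22) (nat_lit 5) (nat_lit 20) (nat_lit 5) (nat_lit 296) (nat_lit 270) (nat_lit 154)) (XT.lf (nat_lit 0) (nat_lit 32814033148) (nat_lit 152) (nat_lit 74605441391) (nat_lit 228) (nat_lit 49373787752) (nat_lit 17) (nat_lit 5) (nat_lit 19) (nat_lit 5) (nat_lit 20) (nat_lit 5) (nat_lit 297) (nat_lit 270) (nat_lit 153))))))) (XT.nd (nat_lit 702) (nat_lit 228) (nat_lit 0) (XT.nd (nat_lit 312) (nat_lit 304) (nat_lit 0) (XT.nd (nat_lit 156) (nat_lit 152) (nat_lit 0) (XT.nd (nat_lit 78) (nat_lit 152) (nat_lit 0) (XT.lf (nat_lit 0) (nat_lit 120103935249) (nat_lit 152) (nat_lit 23992094956) (nat_lit 228) (nat_lit 22393136217) (nat_lit 17) (nat_lit 5) (nat_lit 19) (nat_lit 5) (nat_lit 20) (nat_lit 5) (nat_lit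 298) (nat_lit 270) (nat_lit 152)) (XT.lf (nat_lit 0) (nat_lit 7621272701) (nat_lit 152) (nat_lit 138872793225) (nat_lit 76) (nat_lit 30406852296) (nat_lit 15) (nat_lit 5) (nat_lit 17) (nat_lit 5) (nat_lit 16) (nat_lit 5) (nat_lit 299) (nat_lit 270) (nat_lit 151))) (XT.nd (nat_lit 78) (nat_lit 152) (nat_lit 0) (XT.lf (nat_lit 0) (nat_lit 40487635776) (nat_lit 152) (nat_lit 58051122678) (nat_lit 76) (nat_lit 89526731540) (nat_lit 15) (nat_lit 5) (nat_lit 17) (nat_lit 5) (nat_lit 16) (nat_lit 5) (nat_lit 300) (nat_lit 270) (nat_lit 150)) (XT.lf (nat_lit 0) (nat_lit 30201551045) (nat_lit 152) (nat_lit 46252419187) (nat_lit 228) (nat_lit 123645726240) (nat_lit 13) (nat_lit 5) (nat_lit 15) (nat_lit 5) (nat_lit 16) (nat_lit 5) (nat_lit 301) (nat_lit 270) (nat_lit 149)))) (XT.nd (nat_lit 156) (nat_lit 228) (nat_lit 0) (XT.nd (nat_lit 78) (nat_lit 76) (nat_lit 0) (XT.lf (nat_lit 0) (nat_lit 116484082932)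 (nat_lit 228) (nat_lit 85636088679) (nat_lit 76) (nat_lit 10917146214) (nat_lit 13) (nat_lit 5) (nat_lit 16) (nat_lit 5) (nat_lit 14) (nat_lit 4) (nat_lit 302) (nat_lit 270) (nat_lit 148)) (XT.lf (nat_lit 0) (nat_lit 4737413957) (nat_lit 76) (nat_lit 155832284730) (nat_lit 152) (nat_lit 66397597281) (nat_lit 12) (nat_lit 5) (nat_lit 13) (nat_lit 5) (nat_lit 14) (nat_lit 4) (nat_lit 303) (nat_lit 270) (nat_lit 147))) (XT.nd (nat_lit 78) (nat_lit 228) (nat_lit 0) (XT.lf (nat_lit 0) (nat_lit 105397642813) (nat_lit 76) (nat_lit 104275514243) (nat_lit 152) (nat_lit 32263967294) (nat_lit 12) (nat_lit 5) (nat_lit 13) (nat_lit 5) (nat_lit 14) (nat_lit 4) (nat_lit 304) (nat_lit 270) (nat_lit 146)) (XT.nd (nat_lit 78) (nat_lit 152) (nat_lit 0) (XT.lf (nat_lit 0) (nat_lit 4452422632) (nat_lit 152) (nat_lit 44066800579) (nat_lit 76) (nat_lit 209581760550) (nat_lit 11) (nat_lit 5) (nat_lit 13) (nat_lit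 5) (nat_lit 12) (nat_lit 5) (nat_lit 305) (nat_lit 270) (nat_lit 145)) (XT.lf (nat_lit 0) (nat_lit 44087647258) (nat_lit 228) (nat_lit 218606654024) (nat_lit 76) (nat_lit 12781611331) (nat_lit 9) (nat_lit 5) (nat_lit 12) (nat_lit 5) (nat_lit 10) (nat_lit 4) (nat_lit 306) (nat_lit 270) (nat_lit 144)))))) (XT.nd (nat_lit 312) (nat_lit 152) (nat_lit 0) (XT.nd (nat_lit 156) (nat_lit 76) (nat_lit 0) (XT.nd (nat_lit 78) (nat_lit 0) (nat_lit 0) (XT.lf (nat_lit 0) (nat_lit 88491398060) (nat_lit 228) (nat_lit 127580371703) (nat_lit 76) (nat_lit 78089181851) (nat_lit 9) (nat_lit 5) (nat_lit 12) (nat_lit 5) (nat_lit 10) (nat_lit 4) (nat_lit 307) (nat_lit 270) (nat_lit 143)) (XT.lf (nat_lit 0) (nat_lit 136446880758) (nat_lit 228) (nat_lit 29272934784) (nat_lit 76) (nat_lit 148621007758) (nat_lit 9) (nat_lit 5) (nat_lit 12) (nat_lit 5) (nat_lit 10) (nat_lit 4) (nat_lit 308) (nat_lit 270) (nat_lit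 142))) (XT.nd (nat_lit 78) (nat_lit 0) (nat_lit 0) (XT.lf (nat_lit 0) (nat_lit 79440821734) (nat_lit 76) (nat_lit 110037748117) (nat_lit 152) (nat_lit 146594527552) (nat_lit 8) (nat_lit 5) (nat_lit 9) (nat_lit 5) (nat_lit 10) (nat_lit 4) (nat_lit 309) (nat_lit 270) (nat_lit 141)) (XT.lf (nat_lit 0) (nat_lit 197896166213) (nat_lit 76) (nat_lit 49366043277) (nat_lit 152) (nat_lit 112256274168) (nat_lit 8) (nat_lit 5) (nat_lit 9) (nat_lit 5) (nat_lit 10) (nat_lit 4) (nat_lit 310) (nat_lit 270) (nat_lit 140)))) (XT.nd (nat_lit 156) (nat_lit 76) (nat_lit 0) (XT.nd (nat_lit 78) (nat_lit 76) (nat_lit 0) (XT.lf (nat_lit 0) (nat_lit 309920365715) (nat_lit 152) (nat_lit 59264652647) (nat_lit 0) (nat_lit 15641892098) (nat_lit 8) (nat_lit 5) (nat_lit 10) (nat_lit 4) (nat_lit 8) (nat_lit 4) (nat_lit 311) (nat_lit 270) (nat_lit 139)) (XT.lf (nat_lit 0) (nat_lit 52116540859) (nat_lit 76) (nat_lit 327120287103)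 (nat_lit 76) (nat_lit 32840901619) (nat_lit 7) (nat_lit 4) (nat_lit 8) (nat_lit 5) (nat_lit 8) (nat_lit 4) (nat_lit 312) (nat_lit 270) (nat_lit 138))) (XT.nd (nat_lit 78) (nat_lit 0) (nat_lit 0) (XT.lf (nat_lit 0) (nat_lit 13235890538) (nat_lit 152) (nat_lit 267146654200) (nat_lit 76) (nat_lit 161063799191) (nat_lit 6) (nat_lit 5) (nat_lit 8) (nat_lit 5) (nat_lit 7) (nat_lit 4) (nat_lit 313) (nat_lit 270) (nat_lit 137)) (XT.nd (nat_lit 78) (nat_lit 0) (nat_lit 0) (XT.lf (nat_lit 0) (nat_lit 61863234269) (nat_lit 152) (nat_lit 167461381329) (nat_lit 76) (nat_lit 243812164079) (nat_lit 6) (nat_lit 5) (nat_lit 8) (nat_lit 5) (nat_lit 7) (nat_lit 4) (nat_lit 314) (nat_lit 270) (nat_lit 136)) (XT.lf (nat_lit 0) (nat_lit 114380405558) (nat_lit 152) (nat_lit 59801904055) (nat_lit 76) (nat_lit 333180159313) (nat_lit 6) (nat_lit 5) (nat_lit 8) (nat_lit 5) (nat_lit 7) (nat_lit 4) (nat_lit 315)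 (nat_lit 270) (nat_lit 135))))))))
noncomputable def xc105 : XT := (XT.nd (nat_lit 35178) (nat_lit 0) (nat_lit 532) (XT.nd (nat_lit 34476) (nat_lit 0) (nat_lit 2584) (XT.nd (nat_lit 34086) (nat_lit 0) (nat_lit 4180) (XT.nd (nat_lit 156) (nat_lit 0) (nat_lit 0) (XT.nd (nat_lit 78) (nat_lit 0) (nat_lit 0) (XT.lf (nat_lit 0) (nat_lit 58336904989) (nat_lit 76) (nat_lit 113672514858) (nat_lit 152) (nat_lit 372271270597) (nat_lit 5) (nat_lit 5) (nat_lit 6) (nat_lit 5) (nat_lit 7) (nat_lit 4) (nat_lit 316) (nat_lit 270) (nat_lit 134)) (XT.lf (nat_lit 0) (nat_lit 188061778614) (nat_lit 76) (nat_lit 47228370123) (nat_lit 152) (nat_lit 348810151826) (nat_lit 5) (nat_lit 5) (nat_lit 6) (nat_lit 5) (nat_lit 7) (nat_lit 4) (nat_lit 317) (nat_lit 270) (nat_lit 133))) (XT.nd (nat_lit 33852) (nat_lit 0) (nat_lit 4180) (XT.lf (nat_lit 0) (nat_lit 304016041419) (nat_lit 152) (nat_lit 299324358013) (nat_lit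 0) (nat_lit 23745945296) (nat_lit 5) (nat_lit 5) (nat_lit 7) (nat_lit 4) (nat_lit 5) (nat_lit 4) (nat_lit 318) (nat_lit 270) (nat_lit 132)) (XT.lf (nat_lit 0) (nat_lit 1660099937) (nat_lit 0) (nat_lit 1660099937) (nat_lit 684) (nat_lit 19071611863) (nat_lit 60) (nat_lit 5) (nat_lit 60) (nat_lit 3) (nat_lit 69) (nat_lit 3) (nat_lit 271) (nat_lit 271) (nat_lit 178)))) (XT.nd (nat_lit 156) (nat_lit 0) (nat_lit 76) (XT.nd (nat_lit 78) (nat_lit 0) (nat_lit 76) (XT.lf (nat_lit 0) (nat_lit 7375476265) (nat_lit 684) (nat_lit 12923638384) (nat_lit 760) (nat_lit 26252178581) (nat_lit 60) (nat_lit 5) (nat_lit 69) (nat_lit 3) (nat_lit 70) (nat_lit 5) (nat_lit 272) (nat_lit 271) (nat_lit 177)) (XT.lf (nat_lit 0) (nat_lit 8663439731) (nat_lit 684) (nat_lit 30167699061) (nat_lit 760) (nat_lit 9604553956) (nat_lit 61) (nat_lit 5) (nat_lit 70) (nat_lit 5) (nat_lit 71) (nat_lit 5) (nat_lit 273) (nat_lit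 271) (nat_lit 176))) (XT.nd (nat_lit 78) (nat_lit 0) (nat_lit 76) (XT.lf (nat_lit 76) (nat_lit 1661332259) (nat_lit 0) (nat_lit 8985895943) (nat_lit 760) (nat_lit 39793995357) (nat_lit 62) (nat_lit 5) (nat_lit 61) (nat_lit 5) (nat_lit 71) (nat_lit 5) (nat_lit 274) (nat_lit 271) (nat_lit 175)) (XT.nd (nat_lit 78) (nat_lit 0) (nat_lit 76) (XT.lf (nat_lit 0) (nat_lit 13682838897) (nat_lit 684) (nat_lit 15841377056) (nat_lit 760) (nat_lit 23038342266) (nat_lit 62) (nat_lit 5) (nat_lit 71) (nat_lit 5) (nat_lit 72) (nat_lit 5) (nat_lit 275) (nat_lit 271) (nat_lit 174)) (XT.lf (nat_lit 0) (nat_lit 17468659807) (nat_lit 684) (nat_lit 34648761761) (nat_lit 760) (nat_lit 2710826069) (nat_lit 63) (nat_lit 5) (nat_lit 72) (nat_lit 5) (nat_lit 73) (nat_lit 5) (nat_lit 276) (nat_lit 271) (nat_lit 173)))))) (XT.nd (nat_lit 312) (nat_lit 912) (nat_lit 0) (XT.nd (nat_lit 156) (nat_lit 912) (nat_lit 0)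 (XT.nd (nat_lit 78) (nat_lit 0) (nat_lit 76) (XT.lf (nat_lit 76) (nat_lit 1943430625) (nat_lit 0) (nat_lit 20419150565) (nat_lit 760) (nat_lit 34872364148) (nat_lit 64) (nat_lit 5) (nat_lit 63) (nat_lit 5) (nat_lit 73) (nat_lit 5) (nat_lit 277) (nat_lit 271) (nat_lit 172)) (XT.lf (nat_lit 0) (nat_lit 28473971292) (nat_lit 684) (nat_lit 17332084449) (nat_lit 76) (nat_lit 13986839127) (nat_lit 64) (nat_lit 5) (nat_lit 73) (nat_lit 5) (nat_lit 65) (nat_lit 5) (nat_lit 278) (nat_lit 271) (nat_lit 171))) (XT.nd (nat_lit 78) (nat_lit 304) (nat_lit 0) (XT.lf (nat_lit 0) (nat_lit 24088182154) (nat_lit 684) (nat_lit 11703525817) (nat_lit 760) (nat_lit 26727913366) (nat_lit 55) (nat_lit 5) (nat_lit 64) (nat_lit 5) (nat_lit 65) (nat_lit 5) (nat_lit 279) (nat_lit 271) (nat_lit 170)) (XT.lf (nat_lit 0) (nat_lit 3710477031) (nat_lit 304) (nat_lit 40738718681) (nat_lit 380) (nat_lit 20977585407) (nat_lit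 51) (nat_lit 5) (nat_lit 55) (nat_lit 5) (nat_lit 56) (nat_lit 5) (nat_lit 280) (nat_lit 271) (nat_lit 169)))) (XT.nd (nat_lit 156) (nat_lit 608) (nat_lit 0) (XT.nd (nat_lit 78) (nat_lit 304) (nat_lit 0) (XT.lf (nat_lit 0) (nat_lit 50389738338) (nat_lit 304) (nat_lit 4270552602) (nat_lit 380) (nat_lit 13863183248) (nat_lit 51) (nat_lit 5) (nat_lit 55) (nat_lit 5) (nat_lit 56) (nat_lit 5) (nat_lit 281) (nat_lit 271) (nat_lit 168)) (XT.lf (nat_lit 0) (nat_lit 29323260483) (nat_lit 304) (nat_lit 37368667925) (nat_lit 380) (nat_lit 5125801681) (nat_lit 47) (nat_lit 5) (nat_lit 51) (nat_lit 5) (nat_lit 52) (nat_lit 5) (nat_lit 282) (nat_lit 271) (nat_lit 167))) (XT.nd (nat_lit 78) (nat_lit 304) (nat_lit 0) (XT.lf (nat_lit 0) (nat_lit 4675113566) (nat_lit 304) (nat_lit 69460795522) (nat_lit 76) (nat_lit 1211135876) (nat_lit 43) (nat_lit 5) (nat_lit 47) (nat_lit 5) (nat_lit 44) (nat_lit 5) (nat_lit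 283) (nat_lit 271) (nat_lit 166)) (XT.nd (nat_lit 78) (nat_lit 304) (nat_lit 0) (XT.lf (nat_lit 0) (nat_lit 16463204510) (nat_lit 304) (nat_lit 20197920596) (nat_lit 76) (nat_lit 42424252427) (nat_lit 43) (nat_lit 5) (nat_lit 47) (nat_lit 5) (nat_lit 44) (nat_lit 5) (nat_lit 284) (nat_lit 271) (nat_lit 165)) (XT.lf (nat_lit 0) (nat_lit 29792874993) (nat_lit 380) (nat_lit 49069532341) (nat_lit 76) (nat_lit 4230450410) (nat_lit 39) (nat_lit 5) (nat_lit 44) (nat_lit 5) (nat_lit 40) (nat_lit 5) (nat_lit 285) (nat_lit 271) (nat_lit 164))))))) (XT.nd (nat_lit 702) (nat_lit 760) (nat_lit 0) (XT.nd (nat_lit 312) (nat_lit 760) (nat_lit 0) (XT.nd (nat_lit 156) (nat_lit 304) (nat_lit 0) (XT.nd (nat_lit 78) (nat_lit 0) (nat_lit 0) (XT.lf (nat_lit 0) (nat_lit 5448362181) (nat_lit 228) (nat_lit 39799489931) (nat_lit 304) (nat_lit 42120144692) (nat_lit 36) (nat_lit 5) (nat_lit 39) (nat_lit 5) (nat_lit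 40) (nat_lit 5) (nat_lit 286) (nat_lit 271) (nat_lit 163)) (XT.lf (nat_lit 0) (nat_lit 62843484450) (nat_lit 304) (nat_lit 25916024728) (nat_lit 76) (nat_lit 3180431517) (nat_lit 36) (nat_lit 5) (nat_lit 40) (nat_lit 5) (nat_lit 37) (nat_lit 5) (nat_lit 287) (nat_lit 271) (nat_lit 162))) (XT.nd (nat_lit 78) (nat_lit 76) (nat_lit 0) (XT.lf (nat_lit 0) (nat_lit 35015402548) (nat_lit 228) (nat_lit 48047473669) (nat_lit 304) (nat_lit 13753964511) (nat_lit 33) (nat_lit 5) (nat_lit 36) (nat_lit 5) (nat_lit 37) (nat_lit 5) (nat_lit 288) (nat_lit 271) (nat_lit 161)) (XT.lf (nat_lit 0) (nat_lit 3183029880) (nat_lit 304) (nat_lit 367947625) (nat_lit 76) (nat_lit 98507860860) (nat_lit 32) (nat_lit 5) (nat_lit 36) (nat_lit 5) (nat_lit 33) (nat_lit 5) (nat_lit 289) (nat_lit 271) (nat_lit 160)))) (XT.nd (nat_lit 156) (nat_lit 304) (nat_lit 0) (XT.nd (nat_lit 78) (nat_lit 228) (nat_lit 0) (XT.lf (nat_lit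 0) (nat_lit 22774519560) (nat_lit 304) (nat_lit 40451417197) (nat_lit 76) (nat_lit 44393919890) (nat_lit 29) (nat_lit 5) (nat_lit 33) (nat_lit 5) (nat_lit 30) (nat_lit 5) (nat_lit 290) (nat_lit 271) (nat_lit 159)) (XT.lf (nat_lit 0) (nat_lit 27307581089) (nat_lit 228) (nat_lit 17117069935) (nat_lit 304) (nat_lit 69176543828) (nat_lit 26) (nat_lit 5) (nat_lit 29) (nat_lit 5) (nat_lit 30) (nat_lit 5) (nat_lit 291) (nat_lit 271) (nat_lit 158))) (XT.nd (nat_lit 78) (nat_lit 304) (nat_lit 0) (XT.lf (nat_lit 0) (nat_lit 69031869880) (nat_lit 304) (nat_lit 18617661169) (nat_lit 76) (nat_lit 32350259472) (nat_lit 26) (nat_lit 5) (nat_lit 30) (nat_lit 5) (nat_lit 27) (nat_lit 5) (nat_lit 292) (nat_lit 271) (nat_lit 157)) (XT.nd (nat_lit 78) (nat_lit 152) (nat_lit 0) (XT.lf (nat_lit 0) (nat_lit 55973509707) (nat_lit 152) (nat_lit 40795438248) (nat_lit 228) (nat_lit 30083265737) (nat_lit 24) (nat_lit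 5) (nat_lit 26) (nat_lit 5) (nat_lit 27) (nat_lit 5) (nat_lit 293) (nat_lit 271) (nat_lit 156)) (XT.lf (nat_lit 0) (nat_lit 2892626184) (nat_lit 152) (nat_lit 124359078988) (nat_lit 228) (nat_lit 6974793546) (nat_lit 22) (nat_lit 5) (nat_lit 24) (nat_lit 5) (nat_lit 25) (nat_lit 5) (nat_lit 294) (nat_lit 271) (nat_lit 155)))))) (XT.nd (nat_lit 390) (nat_lit 380) (nat_lit 0) (XT.nd (nat_lit 156) (nat_lit 152) (nat_lit 0) (XT.nd (nat_lit 78) (nat_lit 152) (nat_lit 0) (XT.lf (nat_lit 0) (nat_lit 19348448884) (nat_lit 228) (nat_lit 58022837144) (nat_lit 76) (nat_lit 64708323974) (nat_lit 21) (nat_lit 5) (nat_lit 24) (nat_lit 5) (nat_lit 22) (nat_lit 5) (nat_lit 295) (nat_lit 271) (nat_lit 154)) (XT.lf (nat_lit 0) (nat_lit 21729392974) (nat_lit 152) (nat_lit 26145256433) (nat_lit 228) (nat_lit 102663533639) (nat_lit 19) (nat_lit 5) (nat_lit 21) (nat_lit 5) (nat_lit 22) (nat_lit 5) (nat_lit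 296) (nat_lit 271) (nat_lit 153))) (XT.nd (nat_lit 78) (nat_lit 152) (nat_lit 0) (XT.lf (nat_lit 0) (nat_lit 80164785042) (nat_lit 228) (nat_lit 50162795039) (nat_lit 76) (nat_lit 29271772655) (nat_lit 19) (nat_lit 5) (nat_lit 22) (nat_lit 5) (nat_lit 20) (nat_lit 5) (nat_lit 297) (nat_lit 271) (nat_lit 152)) (XT.nd (nat_lit 78) (nat_lit 0) (nat_lit 0) (XT.lf (nat_lit 0) (nat_lit 35467792823) (nat_lit 152) (nat_lit 80564008042) (nat_lit 228) (nat_lit 53303934220) (nat_lit 17) (nat_lit 5) (nat_lit 19) (nat_lit 5) (nat_lit 20) (nat_lit 5) (nat_lit 298) (nat_lit 271) (nat_lit 151)) (XT.lf (nat_lit 0) (nat_lit 129738765831) (nat_lit 152) (nat_lit 25902324904) (nat_lit 228) (nat_lit 24166294009) (nat_lit 17) (nat_lit 5) (nat_lit 19) (nat_lit 5) (nat_lit 20) (nat_lit 5) (nat_lit 299) (nat_lit 271) (nat_lit 150))))) (XT.nd (nat_lit 156) (nat_lit 228) (nat_lit 0) (XT.nd (nat_lit 78) (nat_lit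 0) (nat_lit 0) (XT.lf (nat_lit 0) (nat_lit 8247918924) (nat_lit 152) (nat_lit 149955913603) (nat_lit 76) (nat_lit 32848271292) (nat_lit 15) (nat_lit 5) (nat_lit 17) (nat_lit 5) (nat_lit 16) (nat_lit 5) (nat_lit 300) (nat_lit 271) (nat_lit 149)) (XT.lf (nat_lit 0) (nat_lit 43742335904) (nat_lit 152) (nat_lit 62670487418) (nat_lit 76) (nat_lit 96697083778) (nat_lit 15) (nat_lit 5) (nat_lit 17) (nat_lit 5) (nat_lit 16) (nat_lit 5) (nat_lit 301) (nat_lit 271) (nat_lit 148))) (XT.nd (nat_lit 78) (nat_lit 76) (nat_lit 0) (XT.lf (nat_lit 0) (nat_lit 32641325681) (nat_lit 152) (nat_lit 49943858519) (nat_lit 228) (nat_lit 133521708331) (nat_lit 13) (nat_lit 5) (nat_lit 15) (nat_lit 5) (nat_lit 16) (nat_lit 5) (nat_lit 302) (nat_lit 271) (nat_lit 147)) (XT.nd (nat_lit 78) (nat_lit 76) (nat_lit 0) (XT.lf (nat_lit 0) (nat_lit 125816729036) (nat_lit 228) (nat_lit 92464481760) (nat_lit 76) (nat_lit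 11798364220) (nat_lit 13) (nat_lit 5) (nat_lit 16) (nat_lit 5) (nat_lit 14) (nat_lit 4) (nat_lit 303) (nat_lit 271) (nat_lit 146)) (XT.lf (nat_lit 0) (nat_lit 5137923524) (nat_lit 76) (nat_lit 168290575388) (nat_lit 152) (nat_lit 71695489646) (nat_lit 12) (nat_lit 5) (nat_lit 13) (nat_lit 5) (nat_lit 14) (nat_lit 4) (nat_lit 304) (nat_lit 271) (nat_lit 145))))))))
noncomputable def xc106 : XT := (XT.nd (nat_lit 35256) (nat_lit 0) (nat_lit 1596) (XT.nd (nat_lit 702) (nat_lit 152) (nat_lit 0) (XT.nd (nat_lit 312) (nat_lit 152) (nat_lit 0) (XT.nd (nat_lit 156) (nat_lit 152) (nat_lit 0) (XT.nd (nat_lit 78) (nat_lit 76) (nat_lit 0) (XT.lf (nat_lit 0) (nat_lit 113849376878) (nat_lit 76) (nat_lit 112609877492) (nat_lit 152) (nat_lit 34832200031) (nat_lit 12) (nat_lit 5) (nat_lit 13) (nat_lit 5) (nat_lit 14) (nat_lit 4) (nat_lit 305) (nat_lit 271) (nat_lit 144)) (XT.lf (nat_lit 0) (nat_lit 4820164829)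 (nat_lit 152) (nat_lit 47573291504) (nat_lit 76) (nat_lit 226355004319) (nat_lit 11) (nat_lit 5) (nat_lit 13) (nat_lit 5) (nat_lit 12) (nat_lit 5) (nat_lit 306) (nat_lit 271) (nat_lit 143))) (XT.nd (nat_lit 78) (nat_lit 0) (nat_lit 0) (XT.lf (nat_lit 0) (nat_lit 47625743762) (nat_lit 228) (nat_lit 236076691465) (nat_lit 76) (nat_lit 13810973575) (nat_lit 9) (nat_lit 5) (nat_lit 12) (nat_lit 5) (nat_lit 10) (nat_lit 4) (nat_lit 307) (nat_lit 271) (nat_lit 142)) (XT.lf (nat_lit 0) (nat_lit 95580973537) (nat_lit 228) (nat_lit 137769676549) (nat_lit 76) (nat_lit 84342643564) (nat_lit 9) (nat_lit 5) (nat_lit 12) (nat_lit 5) (nat_lit 10) (nat_lit 4) (nat_lit 308) (nat_lit 271) (nat_lit 141)))) (XT.nd (nat_lit 156) (nat_lit 76) (nat_lit 0) (XT.nd (nat_lit 78) (nat_lit 76) (nat_lit 0) (XT.lf (nat_lit 0) (nat_lit 147372134582) (nat_lit 228) (nat_lit 31598913187) (nat_lit 76) (nat_lit 160516546865)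 (nat_lit 9) (nat_lit 5) (nat_lit 12) (nat_lit 5) (nat_lit 10) (nat_lit 4) (nat_lit 309) (nat_lit 271) (nat_lit 140)) (XT.lf (nat_lit 0) (nat_lit 85811254754) (nat_lit 76) (nat_lit 118834636900) (nat_lit 152) (nat_lit 158312583804) (nat_lit 8) (nat_lit 5) (nat_lit 9) (nat_lit 5) (nat_lit 10) (nat_lit 4) (nat_lit 310) (nat_lit 271) (nat_lit 139))) (XT.nd (nat_lit 78) (nat_lit 76) (nat_lit 0) (XT.lf (nat_lit 0) (nat_lit 213741903289) (nat_lit 76) (nat_lit 53309649826) (nat_lit 152) (nat_lit 121227974293) (nat_lit 8) (nat_lit 5) (nat_lit 9) (nat_lit 5) (nat_lit 10) (nat_lit 4) (nat_lit 311) (nat_lit 271) (nat_lit 138)) (XT.nd (nat_lit 78) (nat_lit 76) (nat_lit 0) (XT.lf (nat_lit 0) (nat_lit 334721824137) (nat_lit 152) (nat_lit 63992500703) (nat_lit 0) (nat_lit 16898331629) (nat_lit 8) (nat_lit 5) (nat_lit 10) (nat_lit 4) (nat_lit 8) (nat_lit 4) (nat_lit 312) (nat_lit 271) (nat_lit 137)) (XT.lf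 (nat_lit 0) (nat_lit 56298609232) (nat_lit 76) (nat_lit 353284613179) (nat_lit 76) (nat_lit 35460338893) (nat_lit 7) (nat_lit 4) (nat_lit 8) (nat_lit 5) (nat_lit 8) (nat_lit 4) (nat_lit 313) (nat_lit 271) (nat_lit 136)))))) (XT.nd (nat_lit 312) (nat_lit 0) (nat_lit 0) (XT.nd (nat_lit 156) (nat_lit 76) (nat_lit 0) (XT.nd (nat_lit 78) (nat_lit 0) (nat_lit 0) (XT.lf (nat_lit 0) (nat_lit 14301784087) (nat_lit 152) (nat_lit 288506340774) (nat_lit 76) (nat_lit 173953562917) (nat_lit 6) (nat_lit 5) (nat_lit 8) (nat_lit 5) (nat_lit 7) (nat_lit 4) (nat_lit 314) (nat_lit 271) (nat_lit 135)) (XT.lf (nat_lit 0) (nat_lit 66818795146) (nat_lit 152) (nat_lit 180847138352) (nat_lit 76) (nat_lit 263321451826) (nat_lit 6) (nat_lit 5) (nat_lit 8) (nat_lit 5) (nat_lit 7) (nat_lit 4) (nat_lit 315) (nat_lit 271) (nat_lit 134))) (XT.nd (nat_lit 78) (nat_lit 76) (nat_lit 0) (XT.lf (nat_lit 0) (nat_lit 123536858499)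 (nat_lit 152) (nat_lit 64575729080) (nat_lit 76) (nat_lit 359838567077) (nat_lit 6) (nat_lit 5) (nat_lit 8) (nat_lit 5) (nat_lit 7) (nat_lit 4) (nat_lit 316) (nat_lit 271) (nat_lit 133)) (XT.lf (nat_lit 0) (nat_lit 63013735876) (nat_lit 76) (nat_lit 122762166323) (nat_lit 152) (nat_lit 402046947080) (nat_lit 5) (nat_lit 5) (nat_lit 6) (nat_lit 5) (nat_lit 7) (nat_lit 4) (nat_lit 317) (nat_lit 271) (nat_lit 132)))) (XT.nd (nat_lit 34008) (nat_lit 0) (nat_lit 4180) (XT.nd (nat_lit 33930) (nat_lit 0) (nat_lit 4180) (XT.lf (nat_lit 0) (nat_lit 203115867651) (nat_lit 76) (nat_lit 51002797397) (nat_lit 152) (nat_lit 376709385116) (nat_lit 5) (nat_lit 5) (nat_lit 6) (nat_lit 5) (nat_lit 7) (nat_lit 4) (nat_lit 318) (nat_lit 271) (nat_lit 131)) (XT.lf (nat_lit 0) (nat_lit 1815373466) (nat_lit 0) (nat_lit 1815373466) (nat_lit 684) (nat_lit 20549965894) (nat_lit 60) (nat_lit 5) (nat_lit 60) (nat_lit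 3) (nat_lit 69) (nat_lit 3) (nat_lit 272) (nat_lit 272) (nat_lit 176))) (XT.nd (nat_lit 78) (nat_lit 0) (nat_lit 76) (XT.lf (nat_lit 0) (nat_lit 8048070511) (nat_lit 684) (nat_lit 13910751429) (nat_lit 760) (nat_lit 28312081577) (nat_lit 60) (nat_lit 5) (nat_lit 69) (nat_lit 3) (nat_lit 70) (nat_lit 5) (nat_lit 273) (nat_lit 272) (nat_lit 175)) (XT.nd (nat_lit 78) (nat_lit 0) (nat_lit 0) (XT.lf (nat_lit 0) (nat_lit 9433148615) (nat_lit 684) (nat_lit 32531668835) (nat_lit 760) (nat_lit 10341560733) (nat_lit 61) (nat_lit 5) (nat_lit 70) (nat_lit 5) (nat_lit 71) (nat_lit 5) (nat_lit 274) (nat_lit 272) (nat_lit 174)) (XT.lf (nat_lit 76) (nat_lit 1841536121) (nat_lit 0) (nat_lit 9729165915) (nat_lit 760) (nat_lit 42901921389) (nat_lit 62) (nat_lit 5) (nat_lit 61) (nat_lit 5) (nat_lit 71) (nat_lit 5) (nat_lit 275) (nat_lit 272) (nat_lit 173))))))) (XT.nd (nat_lit 702) (nat_lit 1292) (nat_lit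 0) (XT.nd (nat_lit 312) (nat_lit 1444) (nat_lit 0) (XT.nd (nat_lit 156) (nat_lit 0) (nat_lit 76) (XT.nd (nat_lit 78) (nat_lit 0) (nat_lit 76) (XT.lf (nat_lit 0) (nat_lit 14843498094) (nat_lit 684) (nat_lit 17060931454) (nat_lit 760) (nat_lit 24859541686) (nat_lit 62) (nat_lit 5) (nat_lit 71) (nat_lit 5) (nat_lit 72) (nat_lit 5) (nat_lit 276) (nat_lit 272) (nat_lit 172)) (XT.lf (nat_lit 0) (nat_lit 18927754094) (nat_lit 684) (nat_lit 37371368574) (nat_lit 760) (nat_lit 2912036153) (nat_lit 63) (nat_lit 5) (nat_lit 72) (nat_lit 5) (nat_lit 73) (nat_lit 5) (nat_lit 277) (nat_lit 272) (nat_lit 171))) (XT.nd (nat_lit 78) (nat_lit 0) (nat_lit 76) (XT.lf (nat_lit 76) (nat_lit 2146056941) (nat_lit 0) (nat_lit 22063305344) (nat_lit 760) (nat_lit 37601241289) (nat_lit 64) (nat_lit 5) (nat_lit 63) (nat_lit 5) (nat_lit 73) (nat_lit 5) (nat_lit 278) (nat_lit 272) (nat_lit 170)) (XT.lf (nat_lit 0)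 (nat_lit 30805230430) (nat_lit 684) (nat_lit 18671933513) (nat_lit 76) (nat_lit 15096265201) (nat_lit 64) (nat_lit 5) (nat_lit 73) (nat_lit 5) (nat_lit 65) (nat_lit 5) (nat_lit 279) (nat_lit 272) (nat_lit 169)))) (XT.nd (nat_lit 156) (nat_lit 608) (nat_lit 0) (XT.nd (nat_lit 78) (nat_lit 304) (nat_lit 0) (XT.lf (nat_lit 0) (nat_lit 26059924124) (nat_lit 684) (nat_lit 12645208397) (nat_lit 760) (nat_lit 28813340940) (nat_lit 55) (nat_lit 5) (nat_lit 64) (nat_lit 5) (nat_lit 65) (nat_lit 5) (nat_lit 280) (nat_lit 272) (nat_lit 168)) (XT.lf (nat_lit 0) (nat_lit 4052740664) (nat_lit 304) (nat_lit 43999399550) (nat_lit 380) (nat_lit 22606235558) (nat_lit 51) (nat_lit 5) (nat_lit 55) (nat_lit 5) (nat_lit 56) (nat_lit 5) (nat_lit 281) (nat_lit 272) (nat_lit 167))) (XT.nd (nat_lit 78) (nat_lit 608) (nat_lit 0) (XT.lf (nat_lit 0) (nat_lit 54462978026) (nat_lit 304) (nat_lit 4613662897) (nat_lit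 380) (nat_lit 14926352092) (nat_lit 51) (nat_lit 5) (nat_lit 55) (nat_lit 5) (nat_lit 56) (nat_lit 5) (nat_lit 282) (nat_lit 272) (nat_lit 166)) (XT.nd (nat_lit 78) (nat_lit 304) (nat_lit 0) (XT.lf (nat_lit 0) (nat_lit 31711632518) (nat_lit 304) (nat_lit 40356595195) (nat_lit 380) (nat_lit 5492704297) (nat_lit 47) (nat_lit 5) (nat_lit 51) (nat_lit 5) (nat_lit 52) (nat_lit 5) (nat_lit 283) (nat_lit 272) (nat_lit 165)) (XT.lf (nat_lit 0) (nat_lit 5088509478) (nat_lit 304) (nat_lit 74973447138) (nat_lit 76) (nat_lit 1310733367) (nat_lit 43) (nat_lit 5) (nat_lit 47) (nat_lit 5) (nat_lit 44) (nat_lit 5) (nat_lit 284) (nat_lit 272) (nat_lit 164)))))) (XT.nd (nat_lit 312) (nat_lit 760) (nat_lit 0) (XT.nd (nat_lit 156) (nat_lit 228) (nat_lit 0) (XT.nd (nat_lit 78) (nat_lit 304) (nat_lit 0) (XT.lf (nat_lit 0) (nat_lit 17816730154) (nat_lit 304) (nat_lit 21772817183) (nat_lit 76) (nat_lit 45820698751)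 (nat_lit 43) (nat_lit 5) (nat_lit 47) (nat_lit 5) (nat_lit 44) (nat_lit 5) (nat_lit 285) (nat_lit 272) (nat_lit 163)) (XT.lf (nat_lit 0) (nat_lit 32210758824) (nat_lit 380) (nat_lit 52954164645) (nat_lit 76) (nat_lit 4573512257) (nat_lit 39) (nat_lit 5) (nat_lit 44) (nat_lit 5) (nat_lit 40) (nat_lit 5) (nat_lit 286) (nat_lit 272) (nat_lit 162))) (XT.nd (nat_lit 78) (nat_lit 0) (nat_lit 0) (XT.lf (nat_lit 0) (nat_lit 5923382658) (nat_lit 228) (nat_lit 42976810583) (nat_lit 304) (nat_lit 45455499190) (nat_lit 36) (nat_lit 5) (nat_lit 39) (nat_lit 5) (nat_lit 40) (nat_lit 5) (nat_lit 287) (nat_lit 272) (nat_lit 161)) (XT.lf (nat_lit 0) (nat_lit 67901163767) (nat_lit 304) (nat_lit 27951536361) (nat_lit 76) (nat_lit 3440816102) (nat_lit 36) (nat_lit 5) (nat_lit 40) (nat_lit 5) (nat_lit 37) (nat_lit 5) (nat_lit 288) (nat_lit 272) (nat_lit 160)))) (XT.nd (nat_lit 156) (nat_lit 456) (nat_lit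 0) (XT.nd (nat_lit 78) (nat_lit 76) (nat_lit 0) (XT.lf (nat_lit 0) (nat_lit 37852763645) (nat_lit 228) (nat_lit 51883670226) (nat_lit 304) (nat_lit 14824226169) (nat_lit 33) (nat_lit 5) (nat_lit 36) (nat_lit 5) (nat_lit 37) (nat_lit 5) (nat_lit 289) (nat_lit 272) (nat_lit 159)) (XT.lf (nat_lit 0) (nat_lit 3464610732) (nat_lit 304) (nat_lit 362950483) (nat_lit 76) (nat_lit 106394547730) (nat_lit 32) (nat_lit 5) (nat_lit 36) (nat_lit 5) (nat_lit 33) (nat_lit 5) (nat_lit 290) (nat_lit 272) (nat_lit 158))) (XT.nd (nat_lit 78) (nat_lit 228) (nat_lit 0) (XT.lf (nat_lit 0) (nat_lit 24622055149) (nat_lit 304) (nat_lit 43653355013) (nat_lit 76) (nat_lit 47952673384) (nat_lit 29) (nat_lit 5) (nat_lit 33) (nat_lit 5) (nat_lit 30) (nat_lit 5) (nat_lit 291) (nat_lit 272) (nat_lit 157)) (XT.nd (nat_lit 78) (nat_lit 0) (nat_lit 0) (XT.lf (nat_lit 0) (nat_lit 29524877907) (nat_lit 228) (nat_lit 18477935239)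 (nat_lit 304) (nat_lit 74685191004) (nat_lit 26) (nat_lit 5) (nat_lit 29) (nat_lit 5) (nat_lit 30) (nat_lit 5) (nat_lit 292) (nat_lit 272) (nat_lit 156)) (XT.lf (nat_lit 0) (nat_lit 74576940538) (nat_lit 304) (nat_lit 20075737111) (nat_lit 76) (nat_lit 34945898960) (nat_lit 26) (nat_lit 5) (nat_lit 30) (nat_lit 5) (nat_lit 27) (nat_lit 5) (nat_lit 293) (nat_lit 272) (nat_lit 155))))))))
noncomputable def xc107 : XT := (XT.nd (nat_lit 1404) (nat_lit 152) (nat_lit 0) (XT.nd (nat_lit 702) (nat_lit 532) (nat_lit 0) (XT.nd (nat_lit 312) (nat_lit 304) (nat_lit 0) (XT.nd (nat_lit 156) (nat_lit 228) (nat_lit 0) (XT.nd (nat_lit 78) (nat_lit 152) (nat_lit 0) (XT.lf (nat_lit 0) (nat_lit 60481365570) (nat_lit 152) (nat_lit 44050419057) (nat_lit 228) (nat_lit 32467474285) (nat_lit 24) (nat_lit 5) (nat_lit 26) (nat_lit 5) (nat_lit 27) (nat_lit 5) (nat_lit 294) (nat_lit 272) (nat_lit 154)) (XT.lf (nat_lit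 0) (nat_lit 3153662125) (nat_lit 152) (nat_lit 134298508627) (nat_lit 228) (nat_lit 7511370449) (nat_lit 22) (nat_lit 5) (nat_lit 24) (nat_lit 5) (nat_lit 25) (nat_lit 5) (nat_lit 295) (nat_lit 272) (nat_lit 153))) (XT.nd (nat_lit 78) (nat_lit 152) (nat_lit 0) (XT.lf (nat_lit 0) (nat_lit 20915511310) (nat_lit 228) (nat_lit 62636544630) (nat_lit 76) (nat_lit 69892909783) (nat_lit 21) (nat_lit 5) (nat_lit 24) (nat_lit 5) (nat_lit 22) (nat_lit 5) (nat_lit 296) (nat_lit 272) (nat_lit 152)) (XT.lf (nat_lit 0) (nat_lit 23494641860) (nat_lit 152) (nat_lit 28228164737) (nat_lit 228) (nat_lit 110857472060) (nat_lit 19) (nat_lit 5) (nat_lit 21) (nat_lit 5) (nat_lit 22) (nat_lit 5) (nat_lit 297) (nat_lit 272) (nat_lit 151)))) (XT.nd (nat_lit 156) (nat_lit 152) (nat_lit 0) (XT.nd (nat_lit 78) (nat_lit 152) (nat_lit 0) (XT.lf (nat_lit 0) (nat_lit 86594931973) (nat_lit 228) (nat_lit 54150151550) (nat_lit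 76) (nat_lit 31621323139) (nat_lit 19) (nat_lit 5) (nat_lit 22) (nat_lit 5) (nat_lit 20) (nat_lit 5) (nat_lit 298) (nat_lit 272) (nat_lit 150)) (XT.lf (nat_lit 0) (nat_lit 38329767880) (nat_lit 152) (nat_lit 87000667900) (nat_lit 228) (nat_lit 57551310897) (nat_lit 17) (nat_lit 5) (nat_lit 19) (nat_lit 5) (nat_lit 20) (nat_lit 5) (nat_lit 299) (nat_lit 272) (nat_lit 149))) (XT.nd (nat_lit 78) (nat_lit 152) (nat_lit 0) (XT.lf (nat_lit 0) (nat_lit 140140600090) (nat_lit 152) (nat_lit 27966676835) (nat_lit 228) (nat_lit 26083914142) (nat_lit 17) (nat_lit 5) (nat_lit 19) (nat_lit 5) (nat_lit 20) (nat_lit 5) (nat_lit 300) (nat_lit 272) (nat_lit 148)) (XT.nd (nat_lit 78) (nat_lit 0) (nat_lit 0) (XT.lf (nat_lit 0) (nat_lit 8922279536) (nat_lit 152) (nat_lit 161929493105) (nat_lit 76) (nat_lit 35483738287) (nat_lit 15) (nat_lit 5) (nat_lit 17) (nat_lit 5) (nat_lit 16) (nat_lit 5) (nat_lit 301)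 (nat_lit 272) (nat_lit 147)) (XT.lf (nat_lit 0) (nat_lit 47255173793) (nat_lit 152) (nat_lit 67662928645) (nat_lit 76) (nat_lit 104439892418) (nat_lit 15) (nat_lit 5) (nat_lit 17) (nat_lit 5) (nat_lit 16) (nat_lit 5) (nat_lit 302) (nat_lit 272) (nat_lit 146)))))) (XT.nd (nat_lit 312) (nat_lit 304) (nat_lit 0) (XT.nd (nat_lit 156) (nat_lit 76) (nat_lit 0) (XT.nd (nat_lit 78) (nat_lit 0) (nat_lit 0) (XT.lf (nat_lit 0) (nat_lit 35272908272) (nat_lit 152) (nat_lit 53931861882) (nat_lit 228) (nat_lit 144190005346) (nat_lit 13) (nat_lit 5) (nat_lit 15) (nat_lit 5) (nat_lit 16) (nat_lit 5) (nat_lit 303) (nat_lit 272) (nat_lit 145)) (XT.lf (nat_lit 0) (nat_lit 135894001060) (nat_lit 228) (nat_lit 99842355310) (nat_lit 76) (nat_lit 12748960303) (nat_lit 13) (nat_lit 5) (nat_lit 16) (nat_lit 5) (nat_lit 14) (nat_lit 4) (nat_lit 304) (nat_lit 272) (nat_lit 144))) (XT.nd (nat_lit 78) (nat_lit 0)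 (nat_lit 0) (XT.lf (nat_lit 0) (nat_lit 5567404295) (nat_lit 76) (nat_lit 181746712262) (nat_lit 152) (nat_lit 77419198590) (nat_lit 12) (nat_lit 5) (nat_lit 13) (nat_lit 5) (nat_lit 14) (nat_lit 4) (nat_lit 305) (nat_lit 272) (nat_lit 143)) (XT.lf (nat_lit 0) (nat_lit 122974407481) (nat_lit 76) (nat_lit 121612085139) (nat_lit 152) (nat_lit 37607729526) (nat_lit 12) (nat_lit 5) (nat_lit 13) (nat_lit 5) (nat_lit 14) (nat_lit 4) (nat_lit 306) (nat_lit 272) (nat_lit 142)))) (XT.nd (nat_lit 156) (nat_lit 76) (nat_lit 0) (XT.nd (nat_lit 78) (nat_lit 152) (nat_lit 0) (XT.lf (nat_lit 0) (nat_lit 5215678895) (nat_lit 152) (nat_lit 51362991313) (nat_lit 76) (nat_lit 244469151343) (nat_lit 11) (nat_lit 5) (nat_lit 13) (nat_lit 5) (nat_lit 12) (nat_lit 5) (nat_lit 307) (nat_lit 272) (nat_lit 141)) (XT.lf (nat_lit 0) (nat_lit 51445306627) (nat_lit 228) (nat_lit 254946970403) (nat_lit 76) (nat_lit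 14921709947) (nat_lit 9) (nat_lit 5) (nat_lit 12) (nat_lit 5) (nat_lit 10) (nat_lit 4) (nat_lit 308) (nat_lit 272) (nat_lit 140))) (XT.nd (nat_lit 78) (nat_lit 76) (nat_lit 0) (XT.lf (nat_lit 0) (nat_lit 103236250831) (nat_lit 228) (nat_lit 148776568840) (nat_lit 76) (nat_lit 91095479573) (nat_lit 9) (nat_lit 5) (nat_lit 12) (nat_lit 5) (nat_lit 10) (nat_lit 4) (nat_lit 309) (nat_lit 272) (nat_lit 139)) (XT.nd (nat_lit 78) (nat_lit 76) (nat_lit 0) (XT.lf (nat_lit 0) (nat_lit 159170052951) (nat_lit 228) (nat_lit 34113231952) (nat_lit 76) (nat_lit 173362893321) (nat_lit 9) (nat_lit 5) (nat_lit 12) (nat_lit 5) (nat_lit 10) (nat_lit 4) (nat_lit 310) (nat_lit 272) (nat_lit 138)) (XT.lf (nat_lit 0) (nat_lit 92689158633) (nat_lit 76) (nat_lit 128336151451) (nat_lit 152) (nat_lit 170969440686) (nat_lit 8) (nat_lit 5) (nat_lit 9) (nat_lit 5) (nat_lit 10) (nat_lit 4) (nat_lit 311) (nat_lit 272)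 (nat_lit 137))))))) (XT.nd (nat_lit 34710) (nat_lit 0) (nat_lit 2812) (XT.nd (nat_lit 312) (nat_lit 0) (nat_lit 0) (XT.nd (nat_lit 156) (nat_lit 152) (nat_lit 0) (XT.nd (nat_lit 78) (nat_lit 0) (nat_lit 0) (XT.lf (nat_lit 0) (nat_lit 230853295828) (nat_lit 76) (nat_lit 57569554774) (nat_lit 152) (nat_lit 130918666105) (nat_lit 8) (nat_lit 5) (nat_lit 9) (nat_lit 5) (nat_lit 10) (nat_lit 4) (nat_lit 312) (nat_lit 272) (nat_lit 136)) (XT.lf (nat_lit 0) (nat_lit 361506282315) (nat_lit 152) (nat_lit 69100477442) (nat_lit 0) (nat_lit 18254560439) (nat_lit 8) (nat_lit 5) (nat_lit 10) (nat_lit 4) (nat_lit 8) (nat_lit 4) (nat_lit 313) (nat_lit 272) (nat_lit 135))) (XT.nd (nat_lit 78) (nat_lit 76) (nat_lit 0) (XT.lf (nat_lit 0) (nat_lit 60813424844) (nat_lit 76) (nat_lit 381542841003) (nat_lit 76) (nat_lit 38290448879) (nat_lit 7) (nat_lit 4) (nat_lit 8) (nat_lit 5) (nat_lit 8) (nat_lit 4) (nat_lit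 314) (nat_lit 272) (nat_lit 134)) (XT.lf (nat_lit 0) (nat_lit 15451947310) (nat_lit 152) (nat_lit 311576520737) (nat_lit 76) (nat_lit 187873842969) (nat_lit 6) (nat_lit 5) (nat_lit 8) (nat_lit 5) (nat_lit 7) (nat_lit 4) (nat_lit 315) (nat_lit 272) (nat_lit 133)))) (XT.nd (nat_lit 34164) (nat_lit 0) (nat_lit 4104) (XT.nd (nat_lit 78) (nat_lit 0) (nat_lit 0) (XT.lf (nat_lit 0) (nat_lit 72169873291) (nat_lit 152) (nat_lit 195305347106) (nat_lit 76) (nat_lit 284390867064) (nat_lit 6) (nat_lit 5) (nat_lit 8) (nat_lit 5) (nat_lit 7) (nat_lit 4) (nat_lit 316) (nat_lit 272) (nat_lit 132)) (XT.lf (nat_lit 0) (nat_lit 133424968783) (nat_lit 152) (nat_lit 69732933412) (nat_lit 76) (nat_lit 388629077528) (nat_lit 6) (nat_lit 5) (nat_lit 8) (nat_lit 5) (nat_lit 7) (nat_lit 4) (nat_lit 317) (nat_lit 272) (nat_lit 131))) (XT.nd (nat_lit 78) (nat_lit 0) (nat_lit 0) (XT.lf (nat_lit 0) (nat_lit 1979863918)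 (nat_lit 0) (nat_lit 1979863918) (nat_lit 684) (nat_lit 22153346809) (nat_lit 60) (nat_lit 5) (nat_lit 60) (nat_lit 3) (nat_lit 69) (nat_lit 3) (nat_lit 273) (nat_lit 273) (nat_lit 174)) (XT.nd (nat_lit 78) (nat_lit 0) (nat_lit 76) (XT.lf (nat_lit 0) (nat_lit 8762694740) (nat_lit 684) (nat_lit 14983506925) (nat_lit 760) (nat_lit 30542521962) (nat_lit 60) (nat_lit 5) (nat_lit 69) (nat_lit 3) (nat_lit 70) (nat_lit 5) (nat_lit 274) (nat_lit 273) (nat_lit 173)) (XT.lf (nat_lit 0) (nat_lit 10253501554) (nat_lit 684) (nat_lit 35091810237) (nat_lit 760) (nat_lit 11142001555) (nat_lit 61) (nat_lit 5) (nat_lit 70) (nat_lit 5) (nat_lit 71) (nat_lit 5) (nat_lit 275) (nat_lit 273) (nat_lit 172)))))) (XT.nd (nat_lit 390) (nat_lit 1368) (nat_lit 0) (XT.nd (nat_lit 156) (nat_lit 0) (nat_lit 152) (XT.nd (nat_lit 78) (nat_lit 0) (nat_lit 76) (XT.lf (nat_lit 76) (nat_lit 2029408806) (nat_lit 0) (nat_lit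 10528416794) (nat_lit 760) (nat_lit 46269265774) (nat_lit 62) (nat_lit 5) (nat_lit 61) (nat_lit 5) (nat_lit 71) (nat_lit 5) (nat_lit 276) (nat_lit 273) (nat_lit 171)) (XT.lf (nat_lit 0) (nat_lit 16087589811) (nat_lit 684) (nat_lit 18384863099) (nat_lit 760) (nat_lit 26829556768) (nat_lit 62) (nat_lit 5) (nat_lit 71) (nat_lit 5) (nat_lit 72) (nat_lit 5) (nat_lit 277) (nat_lit 273) (nat_lit 170))) (XT.nd (nat_lit 78) (nat_lit 0) (nat_lit 0) (XT.lf (nat_lit 0) (nat_lit 20494787780) (nat_lit 684) (nat_lit 40318816289) (nat_lit 760) (nat_lit 3131576548) (nat_lit 63) (nat_lit 5) (nat_lit 72) (nat_lit 5) (nat_lit 73) (nat_lit 5) (nat_lit 278) (nat_lit 273) (nat_lit 169)) (XT.nd (nat_lit 78) (nat_lit 0) (nat_lit 76) (XT.lf (nat_lit 76) (nat_lit 2358166621) (nat_lit 0) (nat_lit 23837477054) (nat_lit 760) (nat_lit 40557118377) (nat_lit 64) (nat_lit 5) (nat_lit 63) (nat_lit 5) (nat_lit 73) (nat_lit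 5) (nat_lit 279) (nat_lit 273) (nat_lit 168)) (XT.lf (nat_lit 0) (nat_lit 33315380547) (nat_lit 684) (nat_lit 20125635303) (nat_lit 76) (nat_lit 16295803647) (nat_lit 64) (nat_lit 5) (nat_lit 73) (nat_lit 5) (nat_lit 65) (nat_lit 5) (nat_lit 280) (nat_lit 273) (nat_lit 167))))) (XT.nd (nat_lit 156) (nat_lit 608) (nat_lit 0) (XT.nd (nat_lit 78) (nat_lit 304) (nat_lit 0) (XT.lf (nat_lit 0) (nat_lit 28183030295) (nat_lit 684) (nat_lit 13661455140) (nat_lit 760) (nat_lit 31073136015) (nat_lit 55) (nat_lit 5) (nat_lit 64) (nat_lit 5) (nat_lit 65) (nat_lit 5) (nat_lit 281) (nat_lit 273) (nat_lit 166)) (XT.lf (nat_lit 0) (nat_lit 4415904936) (nat_lit 304) (nat_lit 47520709002) (nat_lit 380) (nat_lit 24372247536) (nat_lit 51) (nat_lit 5) (nat_lit 55) (nat_lit 5) (nat_lit 56) (nat_lit 5) (nat_lit 282) (nat_lit 273) (nat_lit 165))) (XT.nd (nat_lit 78) (nat_lit 608) (nat_lit 0) (XT.lf (nat_lit 0)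 (nat_lit 58856076471) (nat_lit 304) (nat_lit 4984012863) (nat_lit 380) (nat_lit 16081120567) (nat_lit 51) (nat_lit 5) (nat_lit 55) (nat_lit 5) (nat_lit 56) (nat_lit 5) (nat_lit 283) (nat_lit 273) (nat_lit 164)) (XT.nd (nat_lit 78) (nat_lit 304) (nat_lit 0) (XT.lf (nat_lit 0) (nat_lit 34285009619) (nat_lit 304) (nat_lit 43583780077) (nat_lit 380) (nat_lit 5895116596) (nat_lit 47) (nat_lit 5) (nat_lit 51) (nat_lit 5) (nat_lit 52) (nat_lit 5) (nat_lit 284) (nat_lit 273) (nat_lit 163)) (XT.lf (nat_lit 0) (nat_lit 5529358092) (nat_lit 304) (nat_lit 80933418223) (nat_lit 76) (nat_lit 1417912527) (nat_lit 43) (nat_lit 5) (nat_lit 47) (nat_lit 5) (nat_lit 44) (nat_lit 5) (nat_lit 285) (nat_lit 273) (nat_lit 162))))))))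
noncomputable def xc108 : XT := (XT.nd (nat_lit 1404) (nat_lit 684) (nat_lit 0) (XT.nd (nat_lit 702) (nat_lit 836) (nat_lit 0) (XT.nd (nat_lit 312) (nat_lit 760) (nat_lit 0) (XT.nd (nat_lit 156) (nat_lit 228) (nat_lit 0) (XT.nd (nat_lit 78) (nat_lit 304) (nat_lit 0) (XT.lf (nat_lit 0) (nat_lit 19273335099) (nat_lit 304) (nat_lit 23479545627) (nat_lit 76) (nat_lit 49488503255) (nat_lit 43) (nat_lit 5) (nat_lit 47) (nat_lit 5) (nat_lit 44) (nat_lit 5) (nat_lit 286) (nat_lit 273) (nat_lit 161)) (XT.lf (nat_lit 0) (nat_lit 34817158137) (nat_lit 380) (nat_lit 57155406696) (nat_lit 76) (nat_lit 4943359127) (nat_lit 39) (nat_lit 5) (nat_lit 44) (nat_lit 5) (nat_lit 40) (nat_lit 5) (nat_lit 287) (nat_lit 273) (nat_lit 160))) (XT.nd (nat_lit 78) (nat_lit 0) (nat_lit 0) (XT.lf (nat_lit 0) (nat_lit 6430819375) (nat_lit 228) (nat_lit 46409263949) (nat_lit 304) (nat_lit 49062569203) (nat_lit 36) (nat_lit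 5) (nat_lit 39) (nat_lit 5) (nat_lit 40) (nat_lit 5) (nat_lit 288) (nat_lit 273) (nat_lit 159)) (XT.lf (nat_lit 0) (nat_lit 73359148983) (nat_lit 304) (nat_lit 30155277286) (nat_lit 76) (nat_lit 3721182610) (nat_lit 36) (nat_lit 5) (nat_lit 40) (nat_lit 5) (nat_lit 37) (nat_lit 5) (nat_lit 289) (nat_lit 273) (nat_lit 158)))) (XT.nd (nat_lit 156) (nat_lit 456) (nat_lit 0) (XT.nd (nat_lit 78) (nat_lit 76) (nat_lit 0) (XT.lf (nat_lit 0) (nat_lit 40911959438) (nat_lit 228) (nat_lit 56027846924) (nat_lit 304) (nat_lit 15984396514) (nat_lit 33) (nat_lit 5) (nat_lit 36) (nat_lit 5) (nat_lit 37) (nat_lit 5) (nat_lit 290) (nat_lit 273) (nat_lit 157)) (XT.lf (nat_lit 0) (nat_lit 3764874979) (nat_lit 304) (nat_lit 362465816) (nat_lit 76) (nat_lit 114911305308) (nat_lit 32) (nat_lit 5) (nat_lit 36) (nat_lit 5) (nat_lit 33) (nat_lit 5) (nat_lit 291) (nat_lit 273) (nat_lit 156))) (XT.nd (nat_lit 78)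 (nat_lit 228) (nat_lit 0) (XT.lf (nat_lit 0) (nat_lit 26613745164) (nat_lit 304) (nat_lit 47116323381) (nat_lit 76) (nat_lit 51795094304) (nat_lit 29) (nat_lit 5) (nat_lit 33) (nat_lit 5) (nat_lit 30) (nat_lit 5) (nat_lit 292) (nat_lit 273) (nat_lit 155)) (XT.nd (nat_lit 78) (nat_lit 0) (nat_lit 0) (XT.lf (nat_lit 0) (nat_lit 31914894830) (nat_lit 228) (nat_lit 19948882428) (nat_lit 304) (nat_lit 80638164438) (nat_lit 26) (nat_lit 5) (nat_lit 29) (nat_lit 5) (nat_lit 30) (nat_lit 5) (nat_lit 293) (nat_lit 273) (nat_lit 154)) (XT.lf (nat_lit 0) (nat_lit 80562403966) (nat_lit 304) (nat_lit 21654929694) (nat_lit 76) (nat_lit 37748102710) (nat_lit 26) (nat_lit 5) (nat_lit 30) (nat_lit 5) (nat_lit 27) (nat_lit 5) (nat_lit 294) (nat_lit 273) (nat_lit 153)))))) (XT.nd (nat_lit 312) (nat_lit 304) (nat_lit 0) (XT.nd (nat_lit 156) (nat_lit 228) (nat_lit 0) (XT.nd (nat_lit 78) (nat_lit 152) (nat_lit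 0) (XT.lf (nat_lit 0) (nat_lit 65345573621) (nat_lit 152) (nat_lit 47567032957) (nat_lit 228) (nat_lit 35045622648) (nat_lit 24) (nat_lit 5) (nat_lit 26) (nat_lit 5) (nat_lit 27) (nat_lit 5) (nat_lit 295) (nat_lit 273) (nat_lit 152)) (XT.lf (nat_lit 0) (nat_lit 3431354483) (nat_lit 152) (nat_lit 145034418912) (nat_lit 228) (nat_lit 8093927392) (nat_lit 22) (nat_lit 5) (nat_lit 24) (nat_lit 5) (nat_lit 25) (nat_lit 5) (nat_lit 296) (nat_lit 273) (nat_lit 151))) (XT.nd (nat_lit 78) (nat_lit 152) (nat_lit 0) (XT.lf (nat_lit 0) (nat_lit 22605201559) (nat_lit 228) (nat_lit 67623360274) (nat_lit 76) (nat_lit 75491132595) (nat_lit 21) (nat_lit 5) (nat_lit 24) (nat_lit 5) (nat_lit 22) (nat_lit 5) (nat_lit 297) (nat_lit 273) (nat_lit 150)) (XT.lf (nat_lit 0) (nat_lit 25397273434) (nat_lit 152) (nat_lit 30478948599) (nat_lit 228) (nat_lit 119709656699) (nat_lit 19) (nat_lit 5) (nat_lit 21) (nat_lit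 5) (nat_lit 22) (nat_lit 5) (nat_lit 298) (nat_lit 273) (nat_lit 149)))) (XT.nd (nat_lit 156) (nat_lit 152) (nat_lit 0) (XT.nd (nat_lit 78) (nat_lit 152) (nat_lit 0) (XT.lf (nat_lit 0) (nat_lit 93537070537) (nat_lit 228) (nat_lit 58460158280) (nat_lit 76) (nat_lit 34157723668) (nat_lit 19) (nat_lit 5) (nat_lit 22) (nat_lit 5) (nat_lit 20) (nat_lit 5) (nat_lit 299) (nat_lit 273) (nat_lit 148)) (XT.lf (nat_lit 0) (nat_lit 41417198377) (nat_lit 152) (nat_lit 93953467572) (nat_lit 228) (nat_lit 62140894113) (nat_lit 17) (nat_lit 5) (nat_lit 19) (nat_lit 5) (nat_lit 20) (nat_lit 5) (nat_lit 300) (nat_lit 273) (nat_lit 147))) (XT.nd (nat_lit 78) (nat_lit 152) (nat_lit 0) (XT.lf (nat_lit 0) (nat_lit 151371337973) (nat_lit 152) (nat_lit 30197294538) (nat_lit 228) (nat_lit 28157181295) (nat_lit 17) (nat_lit 5) (nat_lit 19) (nat_lit 5) (nat_lit 20) (nat_lit 5) (nat_lit 301) (nat_lit 273) (nat_lit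 146)) (XT.nd (nat_lit 78) (nat_lit 0) (nat_lit 0) (XT.lf (nat_lit 0) (nat_lit 9648516544) (nat_lit 152) (nat_lit 174864224992) (nat_lit 76) (nat_lit 38328957663) (nat_lit 15) (nat_lit 5) (nat_lit 17) (nat_lit 5) (nat_lit 16) (nat_lit 5) (nat_lit 302) (nat_lit 273) (nat_lit 145)) (XT.lf (nat_lit 0) (nat_lit 51047119775) (nat_lit 152) (nat_lit 73057789270) (nat_lit 76) (nat_lit 112801121137) (nat_lit 15) (nat_lit 5) (nat_lit 17) (nat_lit 5) (nat_lit 16) (nat_lit 5) (nat_lit 303) (nat_lit 273) (nat_lit 144))))))) (XT.nd (nat_lit 702) (nat_lit 152) (nat_lit 0) (XT.nd (nat_lit 312) (nat_lit 304) (nat_lit 0) (XT.nd (nat_lit 156) (nat_lit 76) (nat_lit 0) (XT.nd (nat_lit 78) (nat_lit 0) (nat_lit 0) (XT.lf (nat_lit 0) (nat_lit 38112124796) (nat_lit 152) (nat_lit 58239976233) (nat_lit 228) (nat_lit 155713683439) (nat_lit 13) (nat_lit 5) (nat_lit 15) (nat_lit 5) (nat_lit 16) (nat_lit 5) (nat_lit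 304) (nat_lit 273) (nat_lit 143)) (XT.lf (nat_lit 0) (nat_lit 146775752371) (nat_lit 228) (nat_lit 107813209963) (nat_lit 76) (nat_lit 13774644399) (nat_lit 13) (nat_lit 5) (nat_lit 16) (nat_lit 5) (nat_lit 14) (nat_lit 4) (nat_lit 305) (nat_lit 273) (nat_lit 142))) (XT.nd (nat_lit 78) (nat_lit 0) (nat_lit 0) (XT.lf (nat_lit 0) (nat_lit 6028611872) (nat_lit 76) (nat_lit 196280354286) (nat_lit 152) (nat_lit 83602506229) (nat_lit 12) (nat_lit 5) (nat_lit 13) (nat_lit 5) (nat_lit 14) (nat_lit 4) (nat_lit 306) (nat_lit 273) (nat_lit 141)) (XT.lf (nat_lit 0) (nat_lit 132827003814) (nat_lit 76) (nat_lit 131335408471) (nat_lit 152) (nat_lit 40606877289) (nat_lit 12) (nat_lit 5) (nat_lit 13) (nat_lit 5) (nat_lit 14) (nat_lit 4) (nat_lit 307) (nat_lit 273) (nat_lit 140)))) (XT.nd (nat_lit 156) (nat_lit 76) (nat_lit 0) (XT.nd (nat_lit 78) (nat_lit 152) (nat_lit 0) (XT.lf (nat_lit 0) (nat_lit 5641421615)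 (nat_lit 152) (nat_lit 55458173011) (nat_lit 76) (nat_lit 264031610300) (nat_lit 11) (nat_lit 5) (nat_lit 13) (nat_lit 5) (nat_lit 12) (nat_lit 5) (nat_lit 308) (nat_lit 273) (nat_lit 139)) (XT.lf (nat_lit 0) (nat_lit 55569078759) (nat_lit 228) (nat_lit 275329133745) (nat_lit 76) (nat_lit 16120469451) (nat_lit 9) (nat_lit 5) (nat_lit 12) (nat_lit 5) (nat_lit 10) (nat_lit 4) (nat_lit 309) (nat_lit 273) (nat_lit 138))) (XT.nd (nat_lit 78) (nat_lit 76) (nat_lit 0) (XT.lf (nat_lit 0) (nat_lit 111502694974) (nat_lit 228) (nat_lit 160666107042) (nat_lit 76) (nat_lit 98387768594) (nat_lit 9) (nat_lit 5) (nat_lit 12) (nat_lit 5) (nat_lit 10) (nat_lit 4) (nat_lit 310) (nat_lit 273) (nat_lit 137)) (XT.nd (nat_lit 78) (nat_lit 76) (nat_lit 0) (XT.lf (nat_lit 0) (nat_lit 171910642443) (nat_lit 228) (nat_lit 36830635596) (nat_lit 76) (nat_lit 187236230949) (nat_lit 9) (nat_lit 5) (nat_lit 12) (nat_lit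 5) (nat_lit 10) (nat_lit 4) (nat_lit 311) (nat_lit 273) (nat_lit 136)) (XT.lf (nat_lit 0) (nat_lit 100115439727) (nat_lit 76) (nat_lit 138598537050) (nat_lit 152) (nat_lit 184640008782) (nat_lit 8) (nat_lit 5) (nat_lit 9) (nat_lit 5) (nat_lit 10) (nat_lit 4) (nat_lit 312) (nat_lit 273) (nat_lit 135)))))) (XT.nd (nat_lit 312) (nat_lit 0) (nat_lit 0) (XT.nd (nat_lit 156) (nat_lit 152) (nat_lit 0) (XT.nd (nat_lit 78) (nat_lit 0) (nat_lit 0) (XT.lf (nat_lit 0) (nat_lit 249331882091) (nat_lit 76) (nat_lit 62170946455) (nat_lit 152) (nat_lit 141385689801) (nat_lit 8) (nat_lit 5) (nat_lit 9) (nat_lit 5) (nat_lit 10) (nat_lit 4) (nat_lit 313) (nat_lit 273) (nat_lit 134)) (XT.lf (nat_lit 0) (nat_lit 390432539569) (nat_lit 152) (nat_lit 74618721985) (nat_lit 0) (nat_lit 19718665226) (nat_lit 8) (nat_lit 5) (nat_lit 10) (nat_lit 4) (nat_lit 8) (nat_lit 4) (nat_lit 314) (nat_lit 273) (nat_lit 133)))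 (XT.nd (nat_lit 78) (nat_lit 76) (nat_lit 0) (XT.lf (nat_lit 0) (nat_lit 65687866864) (nat_lit 76) (nat_lit 412062374910) (nat_lit 76) (nat_lit 41347925937) (nat_lit 7) (nat_lit 4) (nat_lit 8) (nat_lit 5) (nat_lit 8) (nat_lit 4) (nat_lit 315) (nat_lit 273) (nat_lit 132)) (XT.lf (nat_lit 0) (nat_lit 16693264700) (nat_lit 152) (nat_lit 336493788401) (nat_lit 76) (nat_lit 202907175492) (nat_lit 6) (nat_lit 5) (nat_lit 8) (nat_lit 5) (nat_lit 7) (nat_lit 4) (nat_lit 316) (nat_lit 273) (nat_lit 131)))) (XT.nd (nat_lit 34242) (nat_lit 0) (nat_lit 4104) (XT.nd (nat_lit 34164) (nat_lit 0) (nat_lit 4104) (XT.lf (nat_lit 0) (nat_lit 77948242418) (nat_lit 152) (nat_lit 210921576731) (nat_lit 76) (nat_lit 307145307804) (nat_lit 6) (nat_lit 5) (nat_lit 8) (nat_lit 5) (nat_lit 7) (nat_lit 4) (nat_lit 317) (nat_lit 273) (nat_lit 130)) (XT.lf (nat_lit 0) (nat_lit 2154765870) (nat_lit 0) (nat_lit 2154765870)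 (nat_lit 684) (nat_lit 23890792574) (nat_lit 60) (nat_lit 5) (nat_lit 60) (nat_lit 3) (nat_lit 69) (nat_lit 3) (nat_lit 274) (nat_lit 274) (nat_lit 172))) (XT.nd (nat_lit 78) (nat_lit 0) (nat_lit 76) (XT.lf (nat_lit 0) (nat_lit 9524391551) (nat_lit 684) (nat_lit 16147804234) (nat_lit 760) (nat_lit 32956323119) (nat_lit 60) (nat_lit 5) (nat_lit 69) (nat_lit 3) (nat_lit 70) (nat_lit 5) (nat_lit 275) (nat_lit 274) (nat_lit 171)) (XT.nd (nat_lit 78) (nat_lit 0) (nat_lit 0) (XT.lf (nat_lit 0) (nat_lit 11130109740) (nat_lit 684) (nat_lit 37862810660) (nat_lit 760) (nat_lit 12010312952) (nat_lit 61) (nat_lit 5) (nat_lit 70) (nat_lit 5) (nat_lit 71) (nat_lit 5) (nat_lit 276) (nat_lit 274) (nat_lit 170)) (XT.lf (nat_lit 76) (nat_lit 2226526425) (nat_lit 0) (nat_lit 11388623614) (nat_lit 760) (nat_lit 49915243486) (nat_lit 62) (nat_lit 5) (nat_lit 61) (nat_lit 5) (nat_lit 71) (nat_lit 5) (nat_lit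 277) (nat_lit 274) (nat_lit 169))))))))
noncomputable def xc109 : XT := (XT.nd (nat_lit 1404) (nat_lit 1368) (nat_lit 0) (XT.nd (nat_lit 702) (nat_lit 1292) (nat_lit 0) (XT.nd (nat_lit 312) (nat_lit 1444) (nat_lit 0) (XT.nd (nat_lit 156) (nat_lit 0) (nat_lit 76) (XT.nd (nat_lit 78) (nat_lit 0) (nat_lit 76) (XT.lf (nat_lit 0) (nat_lit 17423132550) (nat_lit 684) (nat_lit 19820550234) (nat_lit 760) (nat_lit 28959847705) (nat_lit 62) (nat_lit 5) (nat_lit 71) (nat_lit 5) (nat_lit 72) (nat_lit 5) (nat_lit 278) (nat_lit 274) (nat_lit 168)) (XT.lf (nat_lit 0) (nat_lit 22179649745) (nat_lit 684) (nat_lit 43508088936) (nat_lit 760) (nat_lit 3370595043) (nat_lit 63) (nat_lit 5) (nat_lit 72) (nat_lit 5) (nat_lit 73) (nat_lit 5) (nat_lit 279) (nat_lit 274) (nat_lit 167))) (XT.nd (nat_lit 78) (nat_lit 0) (nat_lit 76) (XT.lf (nat_lit 76) (nat_lit 2581477980) (nat_lit 0) (nat_lit 25752283245) (nat_lit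 760) (nat_lit 43756915716) (nat_lit 64) (nat_lit 5) (nat_lit 63) (nat_lit 5) (nat_lit 73) (nat_lit 5) (nat_lit 280) (nat_lit 274) (nat_lit 166)) (XT.lf (nat_lit 0) (nat_lit 36019818538) (nat_lit 684) (nat_lit 21701347229) (nat_lit 76) (nat_lit 17592469678) (nat_lit 64) (nat_lit 5) (nat_lit 73) (nat_lit 5) (nat_lit 65) (nat_lit 5) (nat_lit 281) (nat_lit 274) (nat_lit 165)))) (XT.nd (nat_lit 156) (nat_lit 608) (nat_lit 0) (XT.nd (nat_lit 78) (nat_lit 304) (nat_lit 0) (XT.lf (nat_lit 0) (nat_lit 30470519291) (nat_lit 684) (nat_lit 14758341091) (nat_lit 760) (nat_lit 33520173281) (nat_lit 55) (nat_lit 5) (nat_lit 64) (nat_lit 5) (nat_lit 65) (nat_lit 5) (nat_lit 282) (nat_lit 274) (nat_lit 164)) (XT.lf (nat_lit 0) (nat_lit 4802566407) (nat_lit 304) (nat_lit 51323529550) (nat_lit 380) (nat_lit 26285601699) (nat_lit 51) (nat_lit 5) (nat_lit 55) (nat_lit 5) (nat_lit 56) (nat_lit 5) (nat_lit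 283) (nat_lit 274) (nat_lit 163))) (XT.nd (nat_lit 78) (nat_lit 608) (nat_lit 0) (XT.lf (nat_lit 0) (nat_lit 63595478400) (nat_lit 304) (nat_lit 5383811510) (nat_lit 380) (nat_lit 17333882768) (nat_lit 51) (nat_lit 5) (nat_lit 55) (nat_lit 5) (nat_lit 56) (nat_lit 5) (nat_lit 284) (nat_lit 274) (nat_lit 162)) (XT.nd (nat_lit 78) (nat_lit 304) (nat_lit 0) (XT.lf (nat_lit 0) (nat_lit 37059057387) (nat_lit 304) (nat_lit 47069331305) (nat_lit 380) (nat_lit 6335000920) (nat_lit 47) (nat_lit 5) (nat_lit 51) (nat_lit 5) (nat_lit 52) (nat_lit 5) (nat_lit 285) (nat_lit 274) (nat_lit 161)) (XT.lf (nat_lit 0) (nat_lit 6000657232) (nat_lit 304) (nat_lit 87375594523) (nat_lit 76) (nat_lit 1533334977) (nat_lit 43) (nat_lit 5) (nat_lit 47) (nat_lit 5) (nat_lit 44) (nat_lit 5) (nat_lit 286) (nat_lit 274) (nat_lit 160)))))) (XT.nd (nat_lit 312) (nat_lit 760) (nat_lit 0) (XT.nd (nat_lit 156) (nat_lit 228)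 (nat_lit 0) (XT.nd (nat_lit 78) (nat_lit 304) (nat_lit 0) (XT.lf (nat_lit 0) (nat_lit 20842007920) (nat_lit 304) (nat_lit 25327819315) (nat_lit 76) (nat_lit 53449425596) (nat_lit 43) (nat_lit 5) (nat_lit 47) (nat_lit 5) (nat_lit 44) (nat_lit 5) (nat_lit 287) (nat_lit 274) (nat_lit 159)) (XT.lf (nat_lit 0) (nat_lit 37627855382) (nat_lit 380) (nat_lit 61697754251) (nat_lit 76) (nat_lit 5342227969) (nat_lit 39) (nat_lit 5) (nat_lit 44) (nat_lit 5) (nat_lit 40) (nat_lit 5) (nat_lit 288) (nat_lit 274) (nat_lit 158))) (XT.nd (nat_lit 78) (nat_lit 0) (nat_lit 0) (XT.lf (nat_lit 0) (nat_lit 6974062448) (nat_lit 228) (nat_lit 50117125538) (nat_lit 304) (nat_lit 52962394765) (nat_lit 36) (nat_lit 5) (nat_lit 39) (nat_lit 5) (nat_lit 40) (nat_lit 5) (nat_lit 289) (nat_lit 274) (nat_lit 157)) (XT.lf (nat_lit 0) (nat_lit 79250079216) (nat_lit 304) (nat_lit 32539937137) (nat_lit 76) (nat_lit 4023250692)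 (nat_lit 36) (nat_lit 5) (nat_lit 40) (nat_lit 5) (nat_lit 37) (nat_lit 5) (nat_lit 290) (nat_lit 274) (nat_lit 156)))) (XT.nd (nat_lit 156) (nat_lit 456) (nat_lit 0) (XT.nd (nat_lit 78) (nat_lit 76) (nat_lit 0) (XT.lf (nat_lit 0) (nat_lit 44211472008) (nat_lit 228) (nat_lit 60504487469) (nat_lit 304) (nat_lit 17241056544) (nat_lit 33) (nat_lit 5) (nat_lit 36) (nat_lit 5) (nat_lit 37) (nat_lit 5) (nat_lit 291) (nat_lit 274) (nat_lit 155)) (XT.lf (nat_lit 0) (nat_lit 4085865551) (nat_lit 304) (nat_lit 366153834) (nat_lit 76) (nat_lit 124108662544) (nat_lit 32) (nat_lit 5) (nat_lit 36) (nat_lit 5) (nat_lit 33) (nat_lit 5) (nat_lit 292) (nat_lit 274) (nat_lit 154))) (XT.nd (nat_lit 78) (nat_lit 228) (nat_lit 0) (XT.lf (nat_lit 0) (nat_lit 28761642449) (nat_lit 304) (nat_lit 50860509195) (nat_lit 76) (nat_lit 55944023393) (nat_lit 29) (nat_lit 5) (nat_lit 33) (nat_lit 5) (nat_lit 30) (nat_lit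 5) (nat_lit 293) (nat_lit 274) (nat_lit 153)) (XT.nd (nat_lit 78) (nat_lit 0) (nat_lit 0) (XT.lf (nat_lit 0) (nat_lit 34492114785) (nat_lit 228) (nat_lit 21538545054) (nat_lit 304) (nat_lit 87070491729) (nat_lit 26) (nat_lit 5) (nat_lit 29) (nat_lit 5) (nat_lit 30) (nat_lit 5) (nat_lit 294) (nat_lit 274) (nat_lit 152)) (XT.lf (nat_lit 0) (nat_lit 87023949940) (nat_lit 304) (nat_lit 23364290475) (nat_lit 76) (nat_lit 40773550922) (nat_lit 26) (nat_lit 5) (nat_lit 30) (nat_lit 5) (nat_lit 27) (nat_lit 5) (nat_lit 295) (nat_lit 274) (nat_lit 151))))))) (XT.nd (nat_lit 702) (nat_lit 532) (nat_lit 0) (XT.nd (nat_lit 312) (nat_lit 304) (nat_lit 0) (XT.nd (nat_lit 156) (nat_lit 228) (nat_lit 0) (XT.nd (nat_lit 78) (nat_lit 152) (nat_lit 0) (XT.lf (nat_lit 0) (nat_lit 70595252093) (nat_lit 152) (nat_lit 51366034461) (nat_lit 228) (nat_lit 37832769047) (nat_lit 24) (nat_lit 5) (nat_lit 26) (nat_lit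 5) (nat_lit 27) (nat_lit 5) (nat_lit 296) (nat_lit 274) (nat_lit 150)) (XT.lf (nat_lit 0) (nat_lit 3727638722) (nat_lit 152) (nat_lit 156630339087) (nat_lit 228) (nat_lit 8725707108) (nat_lit 22) (nat_lit 5) (nat_lit 24) (nat_lit 5) (nat_lit 25) (nat_lit 5) (nat_lit 297) (nat_lit 274) (nat_lit 149))) (XT.nd (nat_lit 78) (nat_lit 152) (nat_lit 0) (XT.lf (nat_lit 0) (nat_lit 24427720345) (nat_lit 228) (nat_lit 73012560435) (nat_lit 76) (nat_lit 81536244559) (nat_lit 21) (nat_lit 5) (nat_lit 24) (nat_lit 5) (nat_lit 22) (nat_lit 5) (nat_lit 298) (nat_lit 274) (nat_lit 148)) (XT.lf (nat_lit 0) (nat_lit 27448825735) (nat_lit 152) (nat_lit 32910860752) (nat_lit 228) (nat_lit 129272357624) (nat_lit 19) (nat_lit 5) (nat_lit 21) (nat_lit 5) (nat_lit 22) (nat_lit 5) (nat_lit 299) (nat_lit 274) (nat_lit 147)))) (XT.nd (nat_lit 156) (nat_lit 152) (nat_lit 0) (XT.nd (nat_lit 78) (nat_lit 152) (nat_lit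 0) (XT.lf (nat_lit 0) (nat_lit 101032505320) (nat_lit 228) (nat_lit 63118104864) (nat_lit 76) (nat_lit 36896081168) (nat_lit 19) (nat_lit 5) (nat_lit 22) (nat_lit 5) (nat_lit 20) (nat_lit 5) (nat_lit 300) (nat_lit 274) (nat_lit 146)) (XT.lf (nat_lit 0) (nat_lit 44748620429) (nat_lit 152) (nat_lit 101463526048) (nat_lit 228) (nat_lit 67099715663) (nat_lit 17) (nat_lit 5) (nat_lit 19) (nat_lit 5) (nat_lit 20) (nat_lit 5) (nat_lit 301) (nat_lit 274) (nat_lit 145))) (XT.nd (nat_lit 78) (nat_lit 152) (nat_lit 0) (XT.lf (nat_lit 0) (nat_lit 163497754439) (nat_lit 152) (nat_lit 32607319833) (nat_lit 228) (nat_lit 30398228040) (nat_lit 17) (nat_lit 5) (nat_lit 19) (nat_lit 5) (nat_lit 20) (nat_lit 5) (nat_lit 302) (nat_lit 274) (nat_lit 144)) (XT.nd (nat_lit 78) (nat_lit 0) (nat_lit 0) (XT.lf (nat_lit 0) (nat_lit 10431075718) (nat_lit 152) (nat_lit 188836535521) (nat_lit 76) (nat_lit 41400864392)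 (nat_lit 15) (nat_lit 5) (nat_lit 17) (nat_lit 5) (nat_lit 16) (nat_lit 5) (nat_lit 303) (nat_lit 274) (nat_lit 143)) (XT.lf (nat_lit 0) (nat_lit 55140776256) (nat_lit 152) (nat_lit 78886831420) (nat_lit 76) (nat_lit 121830386862) (nat_lit 15) (nat_lit 5) (nat_lit 17) (nat_lit 5) (nat_lit 16) (nat_lit 5) (nat_lit 304) (nat_lit 274) (nat_lit 142)))))) (XT.nd (nat_lit 390) (nat_lit 228) (nat_lit 0) (XT.nd (nat_lit 156) (nat_lit 152) (nat_lit 0) (XT.nd (nat_lit 78) (nat_lit 0) (nat_lit 0) (XT.lf (nat_lit 0) (nat_lit 41175998640) (nat_lit 152) (nat_lit 62893657698) (nat_lit 228) (nat_lit 168160899570) (nat_lit 13) (nat_lit 5) (nat_lit 15) (nat_lit 5) (nat_lit 16) (nat_lit 5) (nat_lit 305) (nat_lit 274) (nat_lit 141)) (XT.lf (nat_lit 0) (nat_lit 158526584188) (nat_lit 228) (nat_lit 116424091716) (nat_lit 76) (nat_lit 14881560456) (nat_lit 13) (nat_lit 5) (nat_lit 16) (nat_lit 5) (nat_lit 14)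 (nat_lit 4) (nat_lit 306) (nat_lit 274) (nat_lit 140))) (XT.nd (nat_lit 78) (nat_lit 76) (nat_lit 0) (XT.lf (nat_lit 0) (nat_lit 6524459836) (nat_lit 76) (nat_lit 211977557186) (nat_lit 152) (nat_lit 90281937654) (nat_lit 12) (nat_lit 5) (nat_lit 13) (nat_lit 5) (nat_lit 14) (nat_lit 4) (nat_lit 307) (nat_lit 274) (nat_lit 139)) (XT.nd (nat_lit 78) (nat_lit 76) (nat_lit 0) (XT.lf (nat_lit 0) (nat_lit 143465718762) (nat_lit 76) (nat_lit 141837402776) (nat_lit 152) (nat_lit 43847307960) (nat_lit 12) (nat_lit 5) (nat_lit 13) (nat_lit 5) (nat_lit 14) (nat_lit 4) (nat_lit 308) (nat_lit 274) (nat_lit 138)) (XT.lf (nat_lit 0) (nat_lit 6100012786) (nat_lit 152) (nat_lit 59882946188) (nat_lit 76) (nat_lit 285158363104) (nat_lit 11) (nat_lit 5) (nat_lit 13) (nat_lit 5) (nat_lit 12) (nat_lit 5) (nat_lit 309) (nat_lit 274) (nat_lit 137))))) (XT.nd (nat_lit 156) (nat_lit 76) (nat_lit 0) (XT.nd (nat_lit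 78) (nat_lit 0) (nat_lit 0) (XT.lf (nat_lit 0) (nat_lit 60021590316) (nat_lit 228) (nat_lit 297343809533) (nat_lit 76) (nat_lit 17414413169) (nat_lit 9) (nat_lit 5) (nat_lit 12) (nat_lit 5) (nat_lit 10) (nat_lit 4) (nat_lit 310) (nat_lit 274) (nat_lit 136)) (XT.lf (nat_lit 0) (nat_lit 120429378401) (nat_lit 228) (nat_lit 173508604020) (nat_lit 76) (nat_lit 106262777269) (nat_lit 9) (nat_lit 5) (nat_lit 12) (nat_lit 5) (nat_lit 10) (nat_lit 4) (nat_lit 311) (nat_lit 274) (nat_lit 135))) (XT.nd (nat_lit 78) (nat_lit 76) (nat_lit 0) (XT.lf (nat_lit 0) (nat_lit 185669482570) (nat_lit 228) (nat_lit 39767094235) (nat_lit 76) (nat_lit 202218821265) (nat_lit 9) (nat_lit 5) (nat_lit 12) (nat_lit 5) (nat_lit 10) (nat_lit 4) (nat_lit 312) (nat_lit 274) (nat_lit 134)) (XT.nd (nat_lit 78) (nat_lit 0) (nat_lit 0) (XT.lf (nat_lit 0) (nat_lit 108134232865) (nat_lit 76) (nat_lit 149682556403) (nat_lit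 152) (nat_lit 199405219122) (nat_lit 8) (nat_lit 5) (nat_lit 9) (nat_lit 5) (nat_lit 10) (nat_lit 4) (nat_lit 313) (nat_lit 274) (nat_lit 133)) (XT.lf (nat_lit 0) (nat_lit 269287282621) (nat_lit 76) (nat_lit 67141044753) (nat_lit 152) (nat_lit 152690998353) (nat_lit 8) (nat_lit 5) (nat_lit 9) (nat_lit 5) (nat_lit 10) (nat_lit 4) (nat_lit 314) (nat_lit 274) (nat_lit 132))))))))
noncomputable def xc110 : XT := (XT.nd (nat_lit 35568) (nat_lit 0) (nat_lit 532) (XT.nd (nat_lit 34866) (nat_lit 0) (nat_lit 2508) (XT.nd (nat_lit 34476) (nat_lit 0) (nat_lit 4104) (XT.nd (nat_lit 156) (nat_lit 76) (nat_lit 0) (XT.nd (nat_lit 78) (nat_lit 76) (nat_lit 0) (XT.lf (nat_lit 0) (nat_lit 421672076437) (nat_lit 152) (nat_lit 80579823265) (nat_lit 0) (nat_lit 21299364851) (nat_lit 8) (nat_lit 5) (nat_lit 10) (nat_lit 4) (nat_lit 8) (nat_lit 4) (nat_lit 315) (nat_lit 274) (nat_lit 131)) (XT.lf (nat_lit 0)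 (nat_lit 70950927791) (nat_lit 76) (nat_lit 445024026963) (nat_lit 76) (nat_lit 44650822724) (nat_lit 7) (nat_lit 4) (nat_lit 8) (nat_lit 5) (nat_lit 8) (nat_lit 4) (nat_lit 316) (nat_lit 274) (nat_lit 130))) (XT.nd (nat_lit 34242) (nat_lit 0) (nat_lit 4104) (XT.lf (nat_lit 0) (nat_lit 18033151120) (nat_lit 152) (nat_lit 363405700600) (nat_lit 76) (nat_lit 219142685989) (nat_lit 6) (nat_lit 5) (nat_lit 8) (nat_lit 5) (nat_lit 7) (nat_lit 4) (nat_lit 317) (nat_lit 274) (nat_lit 129)) (XT.lf (nat_lit 0) (nat_lit 2341304237) (nat_lit 0) (nat_lit 2341304237) (nat_lit 684) (nat_lit 25772201745) (nat_lit 60) (nat_lit 5) (nat_lit 60) (nat_lit 3) (nat_lit 69) (nat_lit 3) (nat_lit 275) (nat_lit 275) (nat_lit 170)))) (XT.nd (nat_lit 156) (nat_lit 0) (nat_lit 76) (XT.nd (nat_lit 78) (nat_lit 0) (nat_lit 76) (XT.lf (nat_lit 0) (nat_lit 10338367251) (nat_lit 684) (nat_lit 17410150481) (nat_lit 760)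 (nat_lit 35567451224) (nat_lit 60) (nat_lit 5) (nat_lit 69) (nat_lit 3) (nat_lit 70) (nat_lit 5) (nat_lit 276) (nat_lit 275) (nat_lit 169)) (XT.lf (nat_lit 0) (nat_lit 12068810753) (nat_lit 684) (nat_lit 40860676050) (nat_lit 760) (nat_lit 12951377419) (nat_lit 61) (nat_lit 5) (nat_lit 70) (nat_lit 5) (nat_lit 71) (nat_lit 5) (nat_lit 277) (nat_lit 275) (nat_lit 168))) (XT.nd (nat_lit 78) (nat_lit 0) (nat_lit 76) (XT.lf (nat_lit 76) (nat_lit 2434453849) (nat_lit 0) (nat_lit 12315088568) (nat_lit 760) (nat_lit 53860826176) (nat_lit 62) (nat_lit 5) (nat_lit 61) (nat_lit 5) (nat_lit 71) (nat_lit 5) (nat_lit 278) (nat_lit 275) (nat_lit 167)) (XT.nd (nat_lit 78) (nat_lit 0) (nat_lit 76) (XT.lf (nat_lit 0) (nat_lit 18858594568) (nat_lit 684) (nat_lit 21376100019) (nat_lit 760) (nat_lit 31262854997) (nat_lit 62) (nat_lit 5) (nat_lit 71) (nat_lit 5) (nat_lit 72) (nat_lit 5) (nat_lit 279) (nat_lit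 275) (nat_lit 166)) (XT.lf (nat_lit 0) (nat_lit 23992841120) (nat_lit 684) (nat_lit 46957672389) (nat_lit 760) (nat_lit 3630376710) (nat_lit 63) (nat_lit 5) (nat_lit 72) (nat_lit 5) (nat_lit 73) (nat_lit 5) (nat_lit 280) (nat_lit 275) (nat_lit 165)))))) (XT.nd (nat_lit 312) (nat_lit 912) (nat_lit 0) (XT.nd (nat_lit 156) (nat_lit 912) (nat_lit 0) (XT.nd (nat_lit 78) (nat_lit 0) (nat_lit 76) (XT.lf (nat_lit 76) (nat_lit 2817709892) (nat_lit 0) (nat_lit 27819160030) (nat_lit 760) (nat_lit 47219084087) (nat_lit 64) (nat_lit 5) (nat_lit 63) (nat_lit 5) (nat_lit 73) (nat_lit 5) (nat_lit 281) (nat_lit 275) (nat_lit 164)) (XT.lf (nat_lit 0) (nat_lit 38935018173) (nat_lit 684) (nat_lit 23408014937) (nat_lit 76) (nat_lit 18993867372) (nat_lit 64) (nat_lit 5) (nat_lit 73) (nat_lit 5) (nat_lit 65) (nat_lit 5) (nat_lit 282) (nat_lit 275) (nat_lit 163))) (XT.nd (nat_lit 78) (nat_lit 304) (nat_lit 0)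 (XT.lf (nat_lit 0) (nat_lit 32936321475) (nat_lit 684) (nat_lit 15942411619) (nat_lit 760) (nat_lit 36168510724) (nat_lit 55) (nat_lit 5) (nat_lit 64) (nat_lit 5) (nat_lit 65) (nat_lit 5) (nat_lit 283) (nat_lit 275) (nat_lit 162)) (XT.lf (nat_lit 0) (nat_lit 5215397472) (nat_lit 304) (nat_lit 55430409708) (nat_lit 380) (nat_lit 28357220719) (nat_lit 51) (nat_lit 5) (nat_lit 55) (nat_lit 5) (nat_lit 56) (nat_lit 5) (nat_lit 284) (nat_lit 275) (nat_lit 161)))) (XT.nd (nat_lit 156) (nat_lit 608) (nat_lit 0) (XT.nd (nat_lit 78) (nat_lit 304) (nat_lit 0) (XT.lf (nat_lit 0) (nat_lit 68709621998) (nat_lit 304) (nat_lit 5815440314) (nat_lit 380) (nat_lit 18691677541) (nat_lit 51) (nat_lit 5) (nat_lit 55) (nat_lit 5) (nat_lit 56) (nat_lit 5) (nat_lit 285) (nat_lit 275) (nat_lit 160)) (XT.lf (nat_lit 0) (nat_lit 40050571243) (nat_lit 304) (nat_lit 50833890860) (nat_lit 380) (nat_lit 6814601916)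 (nat_lit 47) (nat_lit 5) (nat_lit 51) (nat_lit 5) (nat_lit 52) (nat_lit 5) (nat_lit 286) (nat_lit 275) (nat_lit 159))) (XT.nd (nat_lit 78) (nat_lit 304) (nat_lit 0) (XT.lf (nat_lit 0) (nat_lit 6505530193) (nat_lit 304) (nat_lit 94337781009) (nat_lit 76) (nat_lit 1657707405) (nat_lit 43) (nat_lit 5) (nat_lit 47) (nat_lit 5) (nat_lit 44) (nat_lit 5) (nat_lit 287) (nat_lit 275) (nat_lit 158)) (XT.nd (nat_lit 78) (nat_lit 304) (nat_lit 0) (XT.lf (nat_lit 0) (nat_lit 22532350389) (nat_lit 304) (nat_lit 27328247568) (nat_lit 76) (nat_lit 57726958931) (nat_lit 43) (nat_lit 5) (nat_lit 47) (nat_lit 5) (nat_lit 44) (nat_lit 5) (nat_lit 288) (nat_lit 275) (nat_lit 157)) (XT.lf (nat_lit 0) (nat_lit 40659795571) (nat_lit 380) (nat_lit 66607781570) (nat_lit 76) (nat_lit 5772521254) (nat_lit 39) (nat_lit 5) (nat_lit 44) (nat_lit 5) (nat_lit 40) (nat_lit 5) (nat_lit 289) (nat_lit 275) (nat_lit 156)))))))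 (XT.nd (nat_lit 702) (nat_lit 684) (nat_lit 0) (XT.nd (nat_lit 312) (nat_lit 760) (nat_lit 0) (XT.nd (nat_lit 156) (nat_lit 304) (nat_lit 0) (XT.nd (nat_lit 78) (nat_lit 0) (nat_lit 0) (XT.lf (nat_lit 0) (nat_lit 7556659532) (nat_lit 228) (nat_lit 54122312173) (nat_lit 304) (nat_lit 57177798577) (nat_lit 36) (nat_lit 5) (nat_lit 39) (nat_lit 5) (nat_lit 40) (nat_lit 5) (nat_lit 290) (nat_lit 275) (nat_lit 155)) (XT.lf (nat_lit 0) (nat_lit 85609117030) (nat_lit 304) (nat_lit 35119330383) (nat_lit 76) (nat_lit 4348860297) (nat_lit 36) (nat_lit 5) (nat_lit 40) (nat_lit 5) (nat_lit 37) (nat_lit 5) (nat_lit 291) (nat_lit 275) (nat_lit 154))) (XT.nd (nat_lit 78) (nat_lit 76) (nat_lit 0) (XT.lf (nat_lit 0) (nat_lit 47771157100) (nat_lit 228) (nat_lit 65340056335) (nat_lit 304) (nat_lit 18601401004) (nat_lit 33) (nat_lit 5) (nat_lit 36) (nat_lit 5) (nat_lit 37) (nat_lit 5) (nat_lit 292) (nat_lit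 275) (nat_lit 153)) (XT.lf (nat_lit 0) (nat_lit 4429710595) (nat_lit 304) (nat_lit 373747540) (nat_lit 76) (nat_lit 134041173116) (nat_lit 32) (nat_lit 5) (nat_lit 36) (nat_lit 5) (nat_lit 33) (nat_lit 5) (nat_lit 293) (nat_lit 275) (nat_lit 152)))) (XT.nd (nat_lit 156) (nat_lit 304) (nat_lit 0) (XT.nd (nat_lit 78) (nat_lit 228) (nat_lit 0) (XT.lf (nat_lit 0) (nat_lit 31078689818) (nat_lit 304) (nat_lit 54907813532) (nat_lit 76) (nat_lit 60424107631) (nat_lit 29) (nat_lit 5) (nat_lit 33) (nat_lit 5) (nat_lit 30) (nat_lit 5) (nat_lit 294) (nat_lit 275) (nat_lit 151)) (XT.lf (nat_lit 0) (nat_lit 37272084422) (nat_lit 228) (nat_lit 23256272033) (nat_lit 304) (nat_lit 94020076659) (nat_lit 26) (nat_lit 5) (nat_lit 29) (nat_lit 5) (nat_lit 30) (nat_lit 5) (nat_lit 295) (nat_lit 275) (nat_lit 150))) (XT.nd (nat_lit 78) (nat_lit 304) (nat_lit 0) (XT.lf (nat_lit 0) (nat_lit 94000058028) (nat_lit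 304) (nat_lit 25213686118) (nat_lit 76) (nat_lit 44040236088) (nat_lit 26) (nat_lit 5) (nat_lit 30) (nat_lit 5) (nat_lit 27) (nat_lit 5) (nat_lit 296) (nat_lit 275) (nat_lit 149)) (XT.nd (nat_lit 78) (nat_lit 152) (nat_lit 0) (XT.lf (nat_lit 0) (nat_lit 76261761650) (nat_lit 152) (nat_lit 55469863572) (nat_lit 228) (nat_lit 40845241554) (nat_lit 24) (nat_lit 5) (nat_lit 26) (nat_lit 5) (nat_lit 27) (nat_lit 5) (nat_lit 297) (nat_lit 275) (nat_lit 148)) (XT.lf (nat_lit 0) (nat_lit 4044519128) (nat_lit 152) (nat_lit 169154907728) (nat_lit 228) (nat_lit 9410273900) (nat_lit 22) (nat_lit 5) (nat_lit 24) (nat_lit 5) (nat_lit 25) (nat_lit 5) (nat_lit 298) (nat_lit 275) (nat_lit 147)))))) (XT.nd (nat_lit 312) (nat_lit 304) (nat_lit 0) (XT.nd (nat_lit 156) (nat_lit 152) (nat_lit 0) (XT.nd (nat_lit 78) (nat_lit 152) (nat_lit 0) (XT.lf (nat_lit 0) (nat_lit 26394028732) (nat_lit 228) (nat_lit 78835845224)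 (nat_lit 76) (nat_lit 88064134998) (nat_lit 21) (nat_lit 5) (nat_lit 24) (nat_lit 5) (nat_lit 22) (nat_lit 5) (nat_lit 299) (nat_lit 275) (nat_lit 146)) (XT.lf (nat_lit 0) (nat_lit 29661681748) (nat_lit 152) (nat_lit 35538239441) (nat_lit 228) (nat_lit 139602082097) (nat_lit 19) (nat_lit 5) (nat_lit 21) (nat_lit 5) (nat_lit 22) (nat_lit 5) (nat_lit 300) (nat_lit 275) (nat_lit 145))) (XT.nd (nat_lit 78) (nat_lit 152) (nat_lit 0) (XT.lf (nat_lit 0) (nat_lit 109125796024) (nat_lit 228) (nat_lit 68151378631) (nat_lit 76) (nat_lit 39852688450) (nat_lit 19) (nat_lit 5) (nat_lit 22) (nat_lit 5) (nat_lit 20) (nat_lit 5) (nat_lit 301) (nat_lit 275) (nat_lit 144)) (XT.lf (nat_lit 0) (nat_lit 48343981756) (nat_lit 152) (nat_lit 109575276402) (nat_lit 228) (nat_lit 72457019065) (nat_lit 17) (nat_lit 5) (nat_lit 19) (nat_lit 5) (nat_lit 20) (nat_lit 5) (nat_lit 302) (nat_lit 275) (nat_lit 143))))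 (XT.nd (nat_lit 156) (nat_lit 152) (nat_lit 0) (XT.nd (nat_lit 78) (nat_lit 152) (nat_lit 0) (XT.lf (nat_lit 0) (nat_lit 176591900435) (nat_lit 152) (nat_lit 35210968632) (nat_lit 228) (nat_lit 32820203088) (nat_lit 17) (nat_lit 5) (nat_lit 19) (nat_lit 5) (nat_lit 20) (nat_lit 5) (nat_lit 303) (nat_lit 275) (nat_lit 142)) (XT.lf (nat_lit 0) (nat_lit 11274716312) (nat_lit 152) (nat_lit 203929031520) (nat_lit 76) (nat_lit 44717726168) (nat_lit 15) (nat_lit 5) (nat_lit 17) (nat_lit 5) (nat_lit 16) (nat_lit 5) (nat_lit 304) (nat_lit 275) (nat_lit 141))) (XT.nd (nat_lit 78) (nat_lit 152) (nat_lit 0) (XT.lf (nat_lit 0) (nat_lit 59560514778) (nat_lit 152) (nat_lit 85184419746) (nat_lit 76) (nat_lit 131581255426) (nat_lit 15) (nat_lit 5) (nat_lit 17) (nat_lit 5) (nat_lit 16) (nat_lit 5) (nat_lit 305) (nat_lit 275) (nat_lit 140)) (XT.nd (nat_lit 78) (nat_lit 0) (nat_lit 0) (XT.lf (nat_lit 0)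 (nat_lit 44482856188) (nat_lit 152) (nat_lit 67920420691) (nat_lit 228) (nat_lit 181605302275) (nat_lit 13) (nat_lit 5) (nat_lit 15) (nat_lit 5) (nat_lit 16) (nat_lit 5) (nat_lit 306) (nat_lit 275) (nat_lit 139)) (XT.lf (nat_lit 0) (nat_lit 171216231179) (nat_lit 228) (nat_lit 125725866238) (nat_lit 76) (nat_lit 16076324410) (nat_lit 13) (nat_lit 5) (nat_lit 16) (nat_lit 5) (nat_lit 14) (nat_lit 4) (nat_lit 307) (nat_lit 275) (nat_lit 138))))))))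
noncomputable def xc111 : XT := (XT.nd (nat_lit 35646) (nat_lit 0) (nat_lit 912) (XT.nd (nat_lit 702) (nat_lit 76) (nat_lit 0) (XT.nd (nat_lit 312) (nat_lit 76) (nat_lit 0) (XT.nd (nat_lit 156) (nat_lit 228) (nat_lit 0) (XT.nd (nat_lit 78) (nat_lit 0) (nat_lit 0) (XT.lf (nat_lit 0) (nat_lit 7058041292) (nat_lit 76) (nat_lit 228931281786) (nat_lit 152) (nat_lit 97496974599) (nat_lit 12) (nat_lit 5) (nat_lit 13) (nat_lit 5) (nat_lit 14) (nat_lit 4) (nat_lit 308) (nat_lit 275) (nat_lit 137)) (XT.lf (nat_lit 0) (nat_lit 154953739845) (nat_lit 76) (nat_lit 153180246873) (nat_lit 152) (nat_lit 47348131423) (nat_lit 12) (nat_lit 5) (nat_lit 13) (nat_lit 5) (nat_lit 14) (nat_lit 4) (nat_lit 309) (nat_lit 275) (nat_lit 136))) (XT.nd (nat_lit 78) (nat_lit 152) (nat_lit 0) (XT.lf (nat_lit 0) (nat_lit 6594253043) (nat_lit 152) (nat_lit 64663396128) (nat_lit 76) (nat_lit 307974653535) (nat_lit 11)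 (nat_lit 5) (nat_lit 13) (nat_lit 5) (nat_lit 12) (nat_lit 5) (nat_lit 310) (nat_lit 275) (nat_lit 135)) (XT.lf (nat_lit 0) (nat_lit 64829306272) (nat_lit 228) (nat_lit 321121322087) (nat_lit 76) (nat_lit 18811258063) (nat_lit 9) (nat_lit 5) (nat_lit 12) (nat_lit 5) (nat_lit 10) (nat_lit 4) (nat_lit 311) (nat_lit 275) (nat_lit 134)))) (XT.nd (nat_lit 156) (nat_lit 76) (nat_lit 0) (XT.nd (nat_lit 78) (nat_lit 0) (nat_lit 0) (XT.lf (nat_lit 0) (nat_lit 130069273795) (nat_lit 228) (nat_lit 187380040297) (nat_lit 76) (nat_lit 114767217821) (nat_lit 9) (nat_lit 5) (nat_lit 12) (nat_lit 5) (nat_lit 10) (nat_lit 4) (nat_lit 312) (nat_lit 275) (nat_lit 133)) (XT.lf (nat_lit 0) (nat_lit 200528175547) (nat_lit 228) (nat_lit 42939895065) (nat_lit 76) (nat_lit 218399492124) (nat_lit 9) (nat_lit 5) (nat_lit 12) (nat_lit 5) (nat_lit 10) (nat_lit 4) (nat_lit 313) (nat_lit 275) (nat_lit 132))) (XT.nd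 (nat_lit 78) (nat_lit 0) (nat_lit 0) (XT.lf (nat_lit 0) (nat_lit 116793165904) (nat_lit 76) (nat_lit 161653848491) (nat_lit 152) (nat_lit 215352500881) (nat_lit 8) (nat_lit 5) (nat_lit 9) (nat_lit 5) (nat_lit 10) (nat_lit 4) (nat_lit 314) (nat_lit 275) (nat_lit 131)) (XT.nd (nat_lit 78) (nat_lit 0) (nat_lit 0) (XT.lf (nat_lit 0) (nat_lit 290837852647) (nat_lit 76) (nat_lit 72509261274) (nat_lit 152) (nat_lit 164901522879) (nat_lit 8) (nat_lit 5) (nat_lit 9) (nat_lit 5) (nat_lit 10) (nat_lit 4) (nat_lit 315) (nat_lit 275) (nat_lit 130)) (XT.lf (nat_lit 0) (nat_lit 455410072406) (nat_lit 152) (nat_lit 87019010500) (nat_lit 0) (nat_lit 23006063015) (nat_lit 8) (nat_lit 5) (nat_lit 10) (nat_lit 4) (nat_lit 8) (nat_lit 4) (nat_lit 316) (nat_lit 275) (nat_lit 129)))))) (XT.nd (nat_lit 34554) (nat_lit 0) (nat_lit 4104) (XT.nd (nat_lit 34398) (nat_lit 0) (nat_lit 4028) (XT.nd (nat_lit 34320)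 (nat_lit 0) (nat_lit 4028) (XT.lf (nat_lit 0) (nat_lit 76633887798) (nat_lit 76) (nat_lit 480623087374) (nat_lit 76) (nat_lit 48218655613) (nat_lit 7) (nat_lit 4) (nat_lit 8) (nat_lit 5) (nat_lit 8) (nat_lit 4) (nat_lit 317) (nat_lit 275) (nat_lit 128)) (XT.lf (nat_lit 0) (nat_lit 2540746005) (nat_lit 0) (nat_lit 2540746005) (nat_lit 684) (nat_lit 27808382690) (nat_lit 60) (nat_lit 5) (nat_lit 60) (nat_lit 3) (nat_lit 69) (nat_lit 3) (nat_lit 276) (nat_lit 276) (nat_lit 168))) (XT.nd (nat_lit 78) (nat_lit 0) (nat_lit 76) (XT.lf (nat_lit 0) (nat_lit 11210039147) (nat_lit 684) (nat_lit 18777689807) (nat_lit 760) (nat_lit 38391089997) (nat_lit 60) (nat_lit 5) (nat_lit 69) (nat_lit 3) (nat_lit 70) (nat_lit 5) (nat_lit 277) (nat_lit 276) (nat_lit 167)) (XT.lf (nat_lit 0) (nat_lit 13075718419) (nat_lit 684) (nat_lit 44102815917) (nat_lit 760) (nat_lit 13970546110) (nat_lit 61) (nat_lit 5) (nat_lit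 70) (nat_lit 5) (nat_lit 71) (nat_lit 5) (nat_lit 278) (nat_lit 276) (nat_lit 166)))) (XT.nd (nat_lit 156) (nat_lit 0) (nat_lit 152) (XT.nd (nat_lit 78) (nat_lit 0) (nat_lit 76) (XT.lf (nat_lit 76) (nat_lit 2654763406) (nat_lit 0) (nat_lit 13313477294) (nat_lit 760) (nat_lit 58128851401) (nat_lit 62) (nat_lit 5) (nat_lit 61) (nat_lit 5) (nat_lit 71) (nat_lit 5) (nat_lit 279) (nat_lit 276) (nat_lit 165)) (XT.lf (nat_lit 0) (nat_lit 20402957215) (nat_lit 684) (nat_lit 23060387067) (nat_lit 760) (nat_lit 33752068817) (nat_lit 62) (nat_lit 5) (nat_lit 71) (nat_lit 5) (nat_lit 72) (nat_lit 5) (nat_lit 280) (nat_lit 276) (nat_lit 164))) (XT.nd (nat_lit 78) (nat_lit 0) (nat_lit 0) (XT.lf (nat_lit 0) (nat_lit 25945549784) (nat_lit 684) (nat_lit 50687654096) (nat_lit 760) (nat_lit 3912348396) (nat_lit 63) (nat_lit 5) (nat_lit 72) (nat_lit 5) (nat_lit 73) (nat_lit 5) (nat_lit 281) (nat_lit 276)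 (nat_lit 163)) (XT.nd (nat_lit 78) (nat_lit 0) (nat_lit 76) (XT.lf (nat_lit 76) (nat_lit 3068601370) (nat_lit 0) (nat_lit 30050431965) (nat_lit 760) (nat_lit 50963701960) (nat_lit 64) (nat_lit 5) (nat_lit 63) (nat_lit 5) (nat_lit 73) (nat_lit 5) (nat_lit 282) (nat_lit 276) (nat_lit 162)) (XT.lf (nat_lit 0) (nat_lit 42078638344) (nat_lit 684) (nat_lit 25255416016) (nat_lit 76) (nat_lit 20508232831) (nat_lit 64) (nat_lit 5) (nat_lit 73) (nat_lit 5) (nat_lit 65) (nat_lit 5) (nat_lit 283) (nat_lit 276) (nat_lit 161))))))) (XT.nd (nat_lit 702) (nat_lit 1292) (nat_lit 0) (XT.nd (nat_lit 312) (nat_lit 836) (nat_lit 0) (XT.nd (nat_lit 156) (nat_lit 304) (nat_lit 0) (XT.nd (nat_lit 78) (nat_lit 304) (nat_lit 0) (XT.lf (nat_lit 0) (nat_lit 35595370404) (nat_lit 684) (nat_lit 17220722279) (nat_lit 760) (nat_lit 39033462416) (nat_lit 55) (nat_lit 5) (nat_lit 64) (nat_lit 5) (nat_lit 65) (nat_lit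 5) (nat_lit 284) (nat_lit 276) (nat_lit 160)) (XT.lf (nat_lit 0) (nat_lit 5657171238) (nat_lit 304) (nat_lit 59865697933) (nat_lit 380) (nat_lit 30599024443) (nat_lit 51) (nat_lit 5) (nat_lit 55) (nat_lit 5) (nat_lit 56) (nat_lit 5) (nat_lit 285) (nat_lit 276) (nat_lit 159))) (XT.nd (nat_lit 78) (nat_lit 304) (nat_lit 0) (XT.lf (nat_lit 0) (nat_lit 74229115802) (nat_lit 304) (nat_lit 6281467621) (nat_lit 380) (nat_lit 20162221066) (nat_lit 51) (nat_lit 5) (nat_lit 55) (nat_lit 5) (nat_lit 56) (nat_lit 5) (nat_lit 286) (nat_lit 276) (nat_lit 158)) (XT.lf (nat_lit 0) (nat_lit 43277584419) (nat_lit 304) (nat_lit 54899755979) (nat_lit 380) (nat_lit 7336451244) (nat_lit 47) (nat_lit 5) (nat_lit 51) (nat_lit 5) (nat_lit 52) (nat_lit 5) (nat_lit 287) (nat_lit 276) (nat_lit 157)))) (XT.nd (nat_lit 156) (nat_lit 532) (nat_lit 0) (XT.nd (nat_lit 78) (nat_lit 0) (nat_lit 0) (XT.lf (nat_lit 0) (nat_lit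 7047252085) (nat_lit 304) (nat_lit 101860917108) (nat_lit 76) (nat_lit 1791786301) (nat_lit 43) (nat_lit 5) (nat_lit 47) (nat_lit 5) (nat_lit 44) (nat_lit 5) (nat_lit 288) (nat_lit 276) (nat_lit 156)) (XT.lf (nat_lit 0) (nat_lit 24354641639) (nat_lit 304) (nat_lit 29492390354) (nat_lit 76) (nat_lit 62346469629) (nat_lit 43) (nat_lit 5) (nat_lit 47) (nat_lit 5) (nat_lit 44) (nat_lit 5) (nat_lit 289) (nat_lit 276) (nat_lit 155))) (XT.nd (nat_lit 78) (nat_lit 228) (nat_lit 0) (XT.lf (nat_lit 0) (nat_lit 43931193549) (nat_lit 380) (nat_lit 71914290737) (nat_lit 76) (nat_lit 6236822138) (nat_lit 39) (nat_lit 5) (nat_lit 44) (nat_lit 5) (nat_lit 40) (nat_lit 5) (nat_lit 290) (nat_lit 276) (nat_lit 154)) (XT.nd (nat_lit 78) (nat_lit 0) (nat_lit 0) (XT.lf (nat_lit 0) (nat_lit 8182344634) (nat_lit 228) (nat_lit 58448510549) (nat_lit 304) (nat_lit 61733514431) (nat_lit 36) (nat_lit 5) (nat_lit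 39) (nat_lit 5) (nat_lit 40) (nat_lit 5) (nat_lit 291) (nat_lit 276) (nat_lit 153)) (XT.lf (nat_lit 0) (nat_lit 92474162816) (nat_lit 304) (nat_lit 37908470671) (nat_lit 76) (nat_lit 4699983754) (nat_lit 36) (nat_lit 5) (nat_lit 40) (nat_lit 5) (nat_lit 37) (nat_lit 5) (nat_lit 292) (nat_lit 276) (nat_lit 152)))))) (XT.nd (nat_lit 390) (nat_lit 532) (nat_lit 0) (XT.nd (nat_lit 156) (nat_lit 456) (nat_lit 0) (XT.nd (nat_lit 78) (nat_lit 76) (nat_lit 0) (XT.lf (nat_lit 0) (nat_lit 51612368984) (nat_lit 228) (nat_lit 70563154076) (nat_lit 304) (nat_lit 20073275031) (nat_lit 33) (nat_lit 5) (nat_lit 36) (nat_lit 5) (nat_lit 37) (nat_lit 5) (nat_lit 293) (nat_lit 276) (nat_lit 151)) (XT.lf (nat_lit 0) (nat_lit 4798641455) (nat_lit 304) (nat_lit 385044291) (nat_lit 76) (nat_lit 144767739915) (nat_lit 32) (nat_lit 5) (nat_lit 36) (nat_lit 5) (nat_lit 33) (nat_lit 5) (nat_lit 294) (nat_lit 276)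 (nat_lit 150))) (XT.nd (nat_lit 78) (nat_lit 228) (nat_lit 0) (XT.lf (nat_lit 0) (nat_lit 33578801853) (nat_lit 304) (nat_lit 59281974623) (nat_lit 76) (nat_lit 65261947735) (nat_lit 29) (nat_lit 5) (nat_lit 33) (nat_lit 5) (nat_lit 30) (nat_lit 5) (nat_lit 295) (nat_lit 276) (nat_lit 149)) (XT.nd (nat_lit 78) (nat_lit 0) (nat_lit 0) (XT.lf (nat_lit 0) (nat_lit 40271512744) (nat_lit 228) (nat_lit 25112181353) (nat_lit 304) (nat_lit 101527918723) (nat_lit 26) (nat_lit 5) (nat_lit 29) (nat_lit 5) (nat_lit 30) (nat_lit 5) (nat_lit 296) (nat_lit 276) (nat_lit 148)) (XT.lf (nat_lit 0) (nat_lit 101532230103) (nat_lit 304) (nat_lit 27213850627) (nat_lit 76) (nat_lit 47567571138) (nat_lit 26) (nat_lit 5) (nat_lit 30) (nat_lit 5) (nat_lit 27) (nat_lit 5) (nat_lit 297) (nat_lit 276) (nat_lit 147))))) (XT.nd (nat_lit 156) (nat_lit 228) (nat_lit 0) (XT.nd (nat_lit 78) (nat_lit 152) (nat_lit 0) (XT.lf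 (nat_lit 0) (nat_lit 82378897188) (nat_lit 152) (nat_lit 59902777035) (nat_lit 228) (nat_lit 44100730377) (nat_lit 24) (nat_lit 5) (nat_lit 26) (nat_lit 5) (nat_lit 27) (nat_lit 5) (nat_lit 298) (nat_lit 276) (nat_lit 146)) (XT.lf (nat_lit 0) (nat_lit 4384086581) (nat_lit 152) (nat_lit 182682277639) (nat_lit 228) (nat_lit 10151530502) (nat_lit 22) (nat_lit 5) (nat_lit 24) (nat_lit 5) (nat_lit 25) (nat_lit 5) (nat_lit 299) (nat_lit 276) (nat_lit 145))) (XT.nd (nat_lit 78) (nat_lit 152) (nat_lit 0) (XT.lf (nat_lit 0) (nat_lit 28515916907) (nat_lit 228) (nat_lit 85127520759) (nat_lit 76) (nat_lit 95113544669) (nat_lit 21) (nat_lit 5) (nat_lit 24) (nat_lit 5) (nat_lit 22) (nat_lit 5) (nat_lit 300) (nat_lit 276) (nat_lit 144)) (XT.nd (nat_lit 78) (nat_lit 0) (nat_lit 0) (XT.lf (nat_lit 0) (nat_lit 32049148142) (nat_lit 152) (nat_lit 38376591660) (nat_lit 228) (nat_lit 150759905611) (nat_lit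 19) (nat_lit 5) (nat_lit 21) (nat_lit 5) (nat_lit 22) (nat_lit 5) (nat_lit 301) (nat_lit 276) (nat_lit 143)) (XT.lf (nat_lit 0) (nat_lit 117865024897) (nat_lit 228) (nat_lit 73589621791) (nat_lit 76) (nat_lit 43045122308) (nat_lit 19) (nat_lit 5) (nat_lit 22) (nat_lit 5) (nat_lit 20) (nat_lit 5) (nat_lit 302) (nat_lit 276) (nat_lit 142))))))))
noncomputable def xc112 : XT := (XT.nd (nat_lit 35802) (nat_lit 0) (nat_lit 1368) (XT.nd (nat_lit 702) (nat_lit 228) (nat_lit 0) (XT.nd (nat_lit 312) (nat_lit 304) (nat_lit 0) (XT.nd (nat_lit 156) (nat_lit 152) (nat_lit 0) (XT.nd (nat_lit 78) (nat_lit 0) (nat_lit 0) (XT.lf (nat_lit 0) (nat_lit 52224764779) (nat_lit 152) (nat_lit 118336727415) (nat_lit 228) (nat_lit 78244429483) (nat_lit 17) (nat_lit 5) (nat_lit 19) (nat_lit 5) (nat_lit 20) (nat_lit 5) (nat_lit 303) (nat_lit 276) (nat_lit 141)) (XT.lf (nat_lit 0) (nat_lit 190731534398) (nat_lit 152)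 (nat_lit 38023613623) (nat_lit 228) (nat_lit 35437346088) (nat_lit 17) (nat_lit 5) (nat_lit 19) (nat_lit 5) (nat_lit 20) (nat_lit 5) (nat_lit 304) (nat_lit 276) (nat_lit 140))) (XT.nd (nat_lit 78) (nat_lit 0) (nat_lit 0) (XT.lf (nat_lit 0) (nat_lit 12184542156) (nat_lit 152) (nat_lit 220230985349) (nat_lit 76) (nat_lit 48299253164) (nat_lit 15) (nat_lit 5) (nat_lit 17) (nat_lit 5) (nat_lit 16) (nat_lit 5) (nat_lit 305) (nat_lit 276) (nat_lit 139)) (XT.lf (nat_lit 0) (nat_lit 64332623127) (nat_lit 152) (nat_lit 91987720832) (nat_lit 76) (nat_lit 142111560400) (nat_lit 15) (nat_lit 5) (nat_lit 17) (nat_lit 5) (nat_lit 16) (nat_lit 5) (nat_lit 306) (nat_lit 276) (nat_lit 138)))) (XT.nd (nat_lit 156) (nat_lit 152) (nat_lit 0) (XT.nd (nat_lit 78) (nat_lit 0) (nat_lit 0) (XT.lf (nat_lit 0) (nat_lit 48052439466) (nat_lit 152) (nat_lit 73349999456) (nat_lit 228) (nat_lit 196126465432) (nat_lit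 13) (nat_lit 5) (nat_lit 15) (nat_lit 5) (nat_lit 16) (nat_lit 5) (nat_lit 307) (nat_lit 276) (nat_lit 137)) (XT.lf (nat_lit 0) (nat_lit 184919977081) (nat_lit 228) (nat_lit 135773516457) (nat_lit 76) (nat_lit 17366064722) (nat_lit 13) (nat_lit 5) (nat_lit 16) (nat_lit 5) (nat_lit 14) (nat_lit 4) (nat_lit 308) (nat_lit 276) (nat_lit 136))) (XT.nd (nat_lit 78) (nat_lit 76) (nat_lit 0) (XT.lf (nat_lit 0) (nat_lit 7632650875) (nat_lit 76) (nat_lit 247241943473) (nat_lit 152) (nat_lit 105290287036) (nat_lit 12) (nat_lit 5) (nat_lit 13) (nat_lit 5) (nat_lit 14) (nat_lit 4) (nat_lit 309) (nat_lit 276) (nat_lit 135)) (XT.nd (nat_lit 78) (nat_lit 76) (nat_lit 0) (XT.lf (nat_lit 0) (nat_lit 167359267070) (nat_lit 76) (nat_lit 165431110275) (nat_lit 152) (nat_lit 51130013853) (nat_lit 12) (nat_lit 5) (nat_lit 13) (nat_lit 5) (nat_lit 14) (nat_lit 4) (nat_lit 310) (nat_lit 276) (nat_lit 134)) (XT.lf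 (nat_lit 0) (nat_lit 7127142423) (nat_lit 152) (nat_lit 69827735176) (nat_lit 76) (nat_lit 332615730569) (nat_lit 11) (nat_lit 5) (nat_lit 13) (nat_lit 5) (nat_lit 12) (nat_lit 5) (nat_lit 311) (nat_lit 276) (nat_lit 133)))))) (XT.nd (nat_lit 312) (nat_lit 0) (nat_lit 0) (XT.nd (nat_lit 156) (nat_lit 76) (nat_lit 0) (XT.nd (nat_lit 78) (nat_lit 0) (nat_lit 0) (XT.lf (nat_lit 0) (nat_lit 70020785146) (nat_lit 228) (nat_lit 346802461145) (nat_lit 76) (nat_lit 20319323865) (nat_lit 9) (nat_lit 5) (nat_lit 12) (nat_lit 5) (nat_lit 10) (nat_lit 4) (nat_lit 312) (nat_lit 276) (nat_lit 132)) (XT.lf (nat_lit 0) (nat_lit 140479569746) (nat_lit 228) (nat_lit 202362511383) (nat_lit 76) (nat_lit 123951525948) (nat_lit 9) (nat_lit 5) (nat_lit 12) (nat_lit 5) (nat_lit 10) (nat_lit 4) (nat_lit 313) (nat_lit 276) (nat_lit 131))) (XT.nd (nat_lit 78) (nat_lit 76) (nat_lit 0) (XT.lf (nat_lit 0) (nat_lit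 216574831487) (nat_lit 228) (nat_lit 46367742099) (nat_lit 76) (nat_lit 235874165107) (nat_lit 9) (nat_lit 5) (nat_lit 12) (nat_lit 5) (nat_lit 10) (nat_lit 4) (nat_lit 314) (nat_lit 276) (nat_lit 130)) (XT.lf (nat_lit 0) (nat_lit 126143644562) (nat_lit 76) (nat_lit 174583316500) (nat_lit 152) (nat_lit 232576297856) (nat_lit 8) (nat_lit 5) (nat_lit 9) (nat_lit 5) (nat_lit 10) (nat_lit 4) (nat_lit 315) (nat_lit 276) (nat_lit 129)))) (XT.nd (nat_lit 34554) (nat_lit 0) (nat_lit 3952) (XT.nd (nat_lit 34476) (nat_lit 0) (nat_lit 3952) (XT.lf (nat_lit 0) (nat_lit 314111385845) (nat_lit 76) (nat_lit 78307372666) (nat_lit 152) (nat_lit 178089567769) (nat_lit 8) (nat_lit 5) (nat_lit 9) (nat_lit 5) (nat_lit 10) (nat_lit 4) (nat_lit 316) (nat_lit 276) (nat_lit 128)) (XT.lf (nat_lit 0) (nat_lit 2754411574) (nat_lit 0) (nat_lit 2754411574) (nat_lit 684) (nat_lit 30011109552) (nat_lit 60) (nat_lit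 5) (nat_lit 60) (nat_lit 3) (nat_lit 69) (nat_lit 3) (nat_lit 277) (nat_lit 277) (nat_lit 166))) (XT.nd (nat_lit 78) (nat_lit 0) (nat_lit 76) (XT.lf (nat_lit 0) (nat_lit 12145081748) (nat_lit 684) (nat_lit 20258237715) (nat_lit 760) (nat_lit 41443723797) (nat_lit 60) (nat_lit 5) (nat_lit 69) (nat_lit 3) (nat_lit 70) (nat_lit 5) (nat_lit 278) (nat_lit 277) (nat_lit 165)) (XT.nd (nat_lit 78) (nat_lit 0) (nat_lit 0) (XT.lf (nat_lit 0) (nat_lit 14157272126) (nat_lit 684) (nat_lit 47608138056) (nat_lit 760) (nat_lit 15073665190) (nat_lit 61) (nat_lit 5) (nat_lit 70) (nat_lit 5) (nat_lit 71) (nat_lit 5) (nat_lit 279) (nat_lit 277) (nat_lit 164)) (XT.lf (nat_lit 76) (nat_lit 2889052271) (nat_lit 0) (nat_lit 14389856610) (nat_lit 760) (nat_lit 62744145051) (nat_lit 62) (nat_lit 5) (nat_lit 61) (nat_lit 5) (nat_lit 71) (nat_lit 5) (nat_lit 280) (nat_lit 277) (nat_lit 163))))))) (XT.nd (nat_lit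 702) (nat_lit 1292) (nat_lit 0) (XT.nd (nat_lit 312) (nat_lit 1444) (nat_lit 0) (XT.nd (nat_lit 156) (nat_lit 0) (nat_lit 76) (XT.nd (nat_lit 78) (nat_lit 0) (nat_lit 76) (XT.lf (nat_lit 0) (nat_lit 22065779424) (nat_lit 684) (nat_lit 24883097873) (nat_lit 760) (nat_lit 36442105225) (nat_lit 62) (nat_lit 5) (nat_lit 71) (nat_lit 5) (nat_lit 72) (nat_lit 5) (nat_lit 281) (nat_lit 277) (nat_lit 162)) (XT.lf (nat_lit 0) (nat_lit 28049727182) (nat_lit 684) (nat_lit 54719833704) (nat_lit 760) (nat_lit 4218084510) (nat_lit 63) (nat_lit 5) (nat_lit 72) (nat_lit 5) (nat_lit 73) (nat_lit 5) (nat_lit 282) (nat_lit 277) (nat_lit 161))) (XT.nd (nat_lit 78) (nat_lit 0) (nat_lit 76) (XT.lf (nat_lit 76) (nat_lit 3335929917) (nat_lit 0) (nat_lit 32459386903) (nat_lit 760) (nat_lit 55012584079) (nat_lit 64) (nat_lit 5) (nat_lit 63) (nat_lit 5) (nat_lit 73) (nat_lit 5) (nat_lit 283) (nat_lit 277) (nat_lit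 160)) (XT.lf (nat_lit 0) (nat_lit 45469636817) (nat_lit 684) (nat_lit 27254209967) (nat_lit 76) (nat_lit 22144481367) (nat_lit 64) (nat_lit 5) (nat_lit 73) (nat_lit 5) (nat_lit 65) (nat_lit 5) (nat_lit 284) (nat_lit 277) (nat_lit 159)))) (XT.nd (nat_lit 156) (nat_lit 608) (nat_lit 0) (XT.nd (nat_lit 78) (nat_lit 304) (nat_lit 0) (XT.lf (nat_lit 0) (nat_lit 38463698948) (nat_lit 684) (nat_lit 18600881544) (nat_lit 760) (nat_lit 42131680248) (nat_lit 55) (nat_lit 5) (nat_lit 64) (nat_lit 5) (nat_lit 65) (nat_lit 5) (nat_lit 285) (nat_lit 277) (nat_lit 158)) (XT.lf (nat_lit 0) (nat_lit 6130785719) (nat_lit 304) (nat_lit 64655687176) (nat_lit 380) (nat_lit 33023992067) (nat_lit 51) (nat_lit 5) (nat_lit 55) (nat_lit 5) (nat_lit 56) (nat_lit 5) (nat_lit 286) (nat_lit 277) (nat_lit 157))) (XT.nd (nat_lit 78) (nat_lit 608) (nat_lit 0) (XT.lf (nat_lit 0) (nat_lit 80186927272) (nat_lit 304) (nat_lit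 6784664113) (nat_lit 380) (nat_lit 21753944740) (nat_lit 51) (nat_lit 5) (nat_lit 55) (nat_lit 5) (nat_lit 56) (nat_lit 5) (nat_lit 287) (nat_lit 277) (nat_lit 156)) (XT.nd (nat_lit 78) (nat_lit 304) (nat_lit 0) (XT.lf (nat_lit 0) (nat_lit 46759482082) (nat_lit 304) (nat_lit 59291011020) (nat_lit 380) (nat_lit 7903375209) (nat_lit 47) (nat_lit 5) (nat_lit 51) (nat_lit 5) (nat_lit 52) (nat_lit 5) (nat_lit 288) (nat_lit 277) (nat_lit 155)) (XT.lf (nat_lit 0) (nat_lit 7629275974) (nat_lit 304) (nat_lit 109989311755) (nat_lit 76) (nat_lit 1936382894) (nat_lit 43) (nat_lit 5) (nat_lit 47) (nat_lit 5) (nat_lit 44) (nat_lit 5) (nat_lit 289) (nat_lit 277) (nat_lit 154)))))) (XT.nd (nat_lit 312) (nat_lit 760) (nat_lit 0) (XT.nd (nat_lit 156) (nat_lit 228) (nat_lit 0) (XT.nd (nat_lit 78) (nat_lit 304) (nat_lit 0) (XT.lf (nat_lit 0) (nat_lit 26319905305) (nat_lit 304) (nat_lit 31832819802) (nat_lit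 76) (nat_lit 67335348023) (nat_lit 43) (nat_lit 5) (nat_lit 47) (nat_lit 5) (nat_lit 44) (nat_lit 5) (nat_lit 290) (nat_lit 277) (nat_lit 153)) (XT.lf (nat_lit 0) (nat_lit 47461647824) (nat_lit 380) (nat_lit 77648475356) (nat_lit 76) (nat_lit 6737910556) (nat_lit 39) (nat_lit 5) (nat_lit 44) (nat_lit 5) (nat_lit 40) (nat_lit 5) (nat_lit 291) (nat_lit 277) (nat_lit 152))) (XT.nd (nat_lit 78) (nat_lit 0) (nat_lit 0) (XT.lf (nat_lit 0) (nat_lit 8855066926) (nat_lit 228) (nat_lit 63121316463) (nat_lit 304) (nat_lit 66656327930) (nat_lit 36) (nat_lit 5) (nat_lit 39) (nat_lit 5) (nat_lit 40) (nat_lit 5) (nat_lit 292) (nat_lit 277) (nat_lit 151)) (XT.lf (nat_lit 0) (nat_lit 99886084544) (nat_lit 304) (nat_lit 40923653346) (nat_lit 76) (nat_lit 5078738485) (nat_lit 36) (nat_lit 5) (nat_lit 40) (nat_lit 5) (nat_lit 37) (nat_lit 5) (nat_lit 293) (nat_lit 277) (nat_lit 150)))) (XT.nd (nat_lit 156)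 (nat_lit 456) (nat_lit 0) (XT.nd (nat_lit 78) (nat_lit 76) (nat_lit 0) (XT.lf (nat_lit 0) (nat_lit 55758093171) (nat_lit 228) (nat_lit 76204685513) (nat_lit 304) (nat_lit 21665215521) (nat_lit 33) (nat_lit 5) (nat_lit 36) (nat_lit 5) (nat_lit 37) (nat_lit 5) (nat_lit 294) (nat_lit 277) (nat_lit 149)) (XT.lf (nat_lit 0) (nat_lit 5195010492) (nat_lit 304) (nat_lit 399898715) (nat_lit 76) (nat_lit 156351965135) (nat_lit 32) (nat_lit 5) (nat_lit 36) (nat_lit 5) (nat_lit 33) (nat_lit 5) (nat_lit 295) (nat_lit 277) (nat_lit 148))) (XT.nd (nat_lit 78) (nat_lit 228) (nat_lit 0) (XT.lf (nat_lit 0) (nat_lit 36276951722) (nat_lit 304) (nat_lit 64008702697) (nat_lit 76) (nat_lit 70486257029) (nat_lit 29) (nat_lit 5) (nat_lit 33) (nat_lit 5) (nat_lit 30) (nat_lit 5) (nat_lit 296) (nat_lit 277) (nat_lit 147)) (XT.nd (nat_lit 78) (nat_lit 0) (nat_lit 0) (XT.lf (nat_lit 0) (nat_lit 43508375712) (nat_lit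 228) (nat_lit 27117218582) (nat_lit 304) (nat_lit 109638351751) (nat_lit 26) (nat_lit 5) (nat_lit 29) (nat_lit 5) (nat_lit 30) (nat_lit 5) (nat_lit 297) (nat_lit 277) (nat_lit 146)) (XT.lf (nat_lit 0) (nat_lit 109665240123) (nat_lit 304) (nat_lit 29376443605) (nat_lit 76) (nat_lit 51376505776) (nat_lit 26) (nat_lit 5) (nat_lit 30) (nat_lit 5) (nat_lit 27) (nat_lit 5) (nat_lit 298) (nat_lit 277) (nat_lit 145))))))))
noncomputable def xc113 : XT := (XT.nd (nat_lit 35880) (nat_lit 0) (nat_lit 1900) (XT.nd (nat_lit 702) (nat_lit 532) (nat_lit 0) (XT.nd (nat_lit 312) (nat_lit 304) (nat_lit 0) (XT.nd (nat_lit 156) (nat_lit 228) (nat_lit 0) (XT.nd (nat_lit 78) (nat_lit 152) (nat_lit 0) (XT.lf (nat_lit 0) (nat_lit 88983093228) (nat_lit 152) (nat_lit 64690990606) (nat_lit 228) (nat_lit 47618388858) (nat_lit 24) (nat_lit 5) (nat_lit 26) (nat_lit 5) (nat_lit 27) (nat_lit 5) (nat_lit 299) (nat_lit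 277) (nat_lit 144)) (XT.lf (nat_lit 0) (nat_lit 4748536007) (nat_lit 152) (nat_lit 197292553688) (nat_lit 228) (nat_lit 10953737554) (nat_lit 22) (nat_lit 5) (nat_lit 24) (nat_lit 5) (nat_lit 25) (nat_lit 5) (nat_lit 300) (nat_lit 277) (nat_lit 143))) (XT.nd (nat_lit 78) (nat_lit 152) (nat_lit 0) (XT.lf (nat_lit 0) (nat_lit 30806077329) (nat_lit 228) (nat_lit 91924697657) (nat_lit 76) (nat_lit 102726296684) (nat_lit 21) (nat_lit 5) (nat_lit 24) (nat_lit 5) (nat_lit 22) (nat_lit 5) (nat_lit 301) (nat_lit 277) (nat_lit 142)) (XT.lf (nat_lit 0) (nat_lit 34625538716) (nat_lit 152) (nat_lit 41442683554) (nat_lit 228) (nat_lit 162811830558) (nat_lit 19) (nat_lit 5) (nat_lit 21) (nat_lit 5) (nat_lit 22) (nat_lit 5) (nat_lit 302) (nat_lit 277) (nat_lit 141)))) (XT.nd (nat_lit 156) (nat_lit 152) (nat_lit 0) (XT.nd (nat_lit 78) (nat_lit 152) (nat_lit 0) (XT.lf (nat_lit 0) (nat_lit 127302084562)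 (nat_lit 228) (nat_lit 79464902704) (nat_lit 76) (nat_lit 46492349019) (nat_lit 19) (nat_lit 5) (nat_lit 22) (nat_lit 5) (nat_lit 20) (nat_lit 5) (nat_lit 303) (nat_lit 277) (nat_lit 140)) (XT.lf (nat_lit 0) (nat_lit 56414118117) (nat_lit 152) (nat_lit 127799746628) (nat_lit 228) (nat_lit 84496138243) (nat_lit 17) (nat_lit 5) (nat_lit 19) (nat_lit 5) (nat_lit 20) (nat_lit 5) (nat_lit 304) (nat_lit 277) (nat_lit 139))) (XT.nd (nat_lit 78) (nat_lit 152) (nat_lit 0) (XT.lf (nat_lit 0) (nat_lit 206000586924) (nat_lit 152) (nat_lit 41061874027) (nat_lit 228) (nat_lit 38265069332) (nat_lit 17) (nat_lit 5) (nat_lit 19) (nat_lit 5) (nat_lit 20) (nat_lit 5) (nat_lit 305) (nat_lit 277) (nat_lit 138)) (XT.nd (nat_lit 78) (nat_lit 0) (nat_lit 0) (XT.lf (nat_lit 0) (nat_lit 13166034386) (nat_lit 152) (nat_lit 237838860016) (nat_lit 76) (nat_lit 52166716139) (nat_lit 15) (nat_lit 5) (nat_lit 17) (nat_lit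 5) (nat_lit 16) (nat_lit 5) (nat_lit 306) (nat_lit 277) (nat_lit 137)) (XT.lf (nat_lit 0) (nat_lit 69485463400) (nat_lit 152) (nat_lit 99336919832) (nat_lit 76) (nat_lit 153483747011) (nat_lit 15) (nat_lit 5) (nat_lit 17) (nat_lit 5) (nat_lit 16) (nat_lit 5) (nat_lit 307) (nat_lit 277) (nat_lit 136)))))) (XT.nd (nat_lit 312) (nat_lit 304) (nat_lit 0) (XT.nd (nat_lit 156) (nat_lit 76) (nat_lit 0) (XT.nd (nat_lit 78) (nat_lit 0) (nat_lit 0) (XT.lf (nat_lit 0) (nat_lit 51906026583) (nat_lit 152) (nat_lit 79214522998) (nat_lit 228) (nat_lit 211810357508) (nat_lit 13) (nat_lit 5) (nat_lit 15) (nat_lit 5) (nat_lit 16) (nat_lit 5) (nat_lit 308) (nat_lit 277) (nat_lit 135)) (XT.lf (nat_lit 0) (nat_lit 199719102860) (nat_lit 228) (nat_lit 146626465091) (nat_lit 76) (nat_lit 18758465777) (nat_lit 13) (nat_lit 5) (nat_lit 16) (nat_lit 5) (nat_lit 14) (nat_lit 4) (nat_lit 309) (nat_lit 277) (nat_lit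 134))) (XT.nd (nat_lit 78) (nat_lit 0) (nat_lit 0) (XT.lf (nat_lit 0) (nat_lit 8251807424) (nat_lit 76) (nat_lit 267018006035) (nat_lit 152) (nat_lit 113707983995) (nat_lit 12) (nat_lit 5) (nat_lit 13) (nat_lit 5) (nat_lit 14) (nat_lit 4) (nat_lit 310) (nat_lit 277) (nat_lit 133)) (XT.lf (nat_lit 0) (nat_lit 180755919990) (nat_lit 76) (nat_lit 178662550101) (nat_lit 152) (nat_lit 55215298291) (nat_lit 12) (nat_lit 5) (nat_lit 13) (nat_lit 5) (nat_lit 14) (nat_lit 4) (nat_lit 311) (nat_lit 277) (nat_lit 132)))) (XT.nd (nat_lit 156) (nat_lit 76) (nat_lit 0) (XT.nd (nat_lit 78) (nat_lit 152) (nat_lit 0) (XT.lf (nat_lit 0) (nat_lit 7701899840) (nat_lit 152) (nat_lit 75406467156) (nat_lit 76) (nat_lit 359227650838) (nat_lit 11) (nat_lit 5) (nat_lit 13) (nat_lit 5) (nat_lit 12) (nat_lit 5) (nat_lit 312) (nat_lit 277) (nat_lit 131)) (XT.lf (nat_lit 0) (nat_lit 75626849853) (nat_lit 228) (nat_lit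 374539313465) (nat_lit 76) (nat_lit 21947583387) (nat_lit 9) (nat_lit 5) (nat_lit 12) (nat_lit 5) (nat_lit 10) (nat_lit 4) (nat_lit 313) (nat_lit 277) (nat_lit 130))) (XT.nd (nat_lit 78) (nat_lit 76) (nat_lit 0) (XT.lf (nat_lit 0) (nat_lit 151722011155) (nat_lit 228) (nat_lit 218544711764) (nat_lit 76) (nat_lit 133870160628) (nat_lit 9) (nat_lit 5) (nat_lit 12) (nat_lit 5) (nat_lit 10) (nat_lit 4) (nat_lit 314) (nat_lit 277) (nat_lit 129)) (XT.nd (nat_lit 78) (nat_lit 76) (nat_lit 0) (XT.lf (nat_lit 0) (nat_lit 233904591922) (nat_lit 228) (nat_lit 50070864680) (nat_lit 76) (nat_lit 254746424801) (nat_lit 9) (nat_lit 5) (nat_lit 12) (nat_lit 5) (nat_lit 10) (nat_lit 4) (nat_lit 315) (nat_lit 277) (nat_lit 128)) (XT.lf (nat_lit 0) (nat_lit 136241159263) (nat_lit 76) (nat_lit 188547547089) (nat_lit 152) (nat_lit 251178626740) (nat_lit 8) (nat_lit 5) (nat_lit 9) (nat_lit 5) (nat_lit 10) (nat_lit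 4) (nat_lit 316) (nat_lit 277) (nat_lit 127))))))) (XT.nd (nat_lit 702) (nat_lit 1672) (nat_lit 0) (XT.nd (nat_lit 312) (nat_lit 380) (nat_lit 0) (XT.nd (nat_lit 156) (nat_lit 0) (nat_lit 76) (XT.nd (nat_lit 78) (nat_lit 0) (nat_lit 0) (XT.lf (nat_lit 0) (nat_lit 2983685873) (nat_lit 0) (nat_lit 2983685873) (nat_lit 684) (nat_lit 32393185084) (nat_lit 60) (nat_lit 5) (nat_lit 60) (nat_lit 3) (nat_lit 69) (nat_lit 3) (nat_lit 278) (nat_lit 278) (nat_lit 164)) (XT.lf (nat_lit 0) (nat_lit 13149472469) (nat_lit 684) (nat_lit 21860320534) (nat_lit 760) (nat_lit 44743229417) (nat_lit 60) (nat_lit 5) (nat_lit 69) (nat_lit 3) (nat_lit 70) (nat_lit 5) (nat_lit 279) (nat_lit 278) (nat_lit 163))) (XT.nd (nat_lit 78) (nat_lit 0) (nat_lit 0) (XT.lf (nat_lit 0) (nat_lit 15320286195) (nat_lit 684) (nat_lit 51397153353) (nat_lit 760) (nat_lit 16267105895) (nat_lit 61) (nat_lit 5) (nat_lit 70) (nat_lit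 5) (nat_lit 71) (nat_lit 5) (nat_lit 280) (nat_lit 278) (nat_lit 162)) (XT.lf (nat_lit 76) (nat_lit 3138958854) (nat_lit 0) (nat_lit 15550734038) (nat_lit 760) (nat_lit 67733657398) (nat_lit 62) (nat_lit 5) (nat_lit 61) (nat_lit 5) (nat_lit 71) (nat_lit 5) (nat_lit 281) (nat_lit 278) (nat_lit 161)))) (XT.nd (nat_lit 156) (nat_lit 532) (nat_lit 0) (XT.nd (nat_lit 78) (nat_lit 0) (nat_lit 76) (XT.lf (nat_lit 0) (nat_lit 23857264027) (nat_lit 684) (nat_lit 26854781231) (nat_lit 760) (nat_lit 39348789575) (nat_lit 62) (nat_lit 5) (nat_lit 71) (nat_lit 5) (nat_lit 72) (nat_lit 5) (nat_lit 282) (nat_lit 278) (nat_lit 160)) (XT.lf (nat_lit 0) (nat_lit 30318168160) (nat_lit 684) (nat_lit 59077845024) (nat_lit 760) (nat_lit 4549314057) (nat_lit 63) (nat_lit 5) (nat_lit 72) (nat_lit 5) (nat_lit 73) (nat_lit 5) (nat_lit 283) (nat_lit 278) (nat_lit 159))) (XT.nd (nat_lit 78) (nat_lit 608) (nat_lit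 0) (XT.lf (nat_lit 76) (nat_lit 3621528965) (nat_lit 0) (nat_lit 35060356290) (nat_lit 760) (nat_lit 59389401816) (nat_lit 64) (nat_lit 5) (nat_lit 63) (nat_lit 5) (nat_lit 73) (nat_lit 5) (nat_lit 284) (nat_lit 278) (nat_lit 158)) (XT.nd (nat_lit 78) (nat_lit 684) (nat_lit 0) (XT.lf (nat_lit 0) (nat_lit 49128390380) (nat_lit 684) (nat_lit 29415994526) (nat_lit 76) (nat_lit 23912258934) (nat_lit 64) (nat_lit 5) (nat_lit 73) (nat_lit 5) (nat_lit 65) (nat_lit 5) (nat_lit 285) (nat_lit 278) (nat_lit 157)) (XT.lf (nat_lit 0) (nat_lit 41558540844) (nat_lit 684) (nat_lit 20091096687) (nat_lit 760) (nat_lit 45481244880) (nat_lit 55) (nat_lit 5) (nat_lit 64) (nat_lit 5) (nat_lit 65) (nat_lit 5) (nat_lit 286) (nat_lit 278) (nat_lit 156)))))) (XT.nd (nat_lit 312) (nat_lit 760) (nat_lit 0) (XT.nd (nat_lit 156) (nat_lit 608) (nat_lit 0) (XT.nd (nat_lit 78) (nat_lit 0) (nat_lit 0) (XT.lf (nat_lit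 0) (nat_lit 6639287655) (nat_lit 304) (nat_lit 69828770930) (nat_lit 380) (nat_lit 35646231792) (nat_lit 51) (nat_lit 5) (nat_lit 55) (nat_lit 5) (nat_lit 56) (nat_lit 5) (nat_lit 287) (nat_lit 278) (nat_lit 155)) (XT.lf (nat_lit 0) (nat_lit 86618584305) (nat_lit 304) (nat_lit 7328019445) (nat_lit 380) (nat_lit 23476038430) (nat_lit 51) (nat_lit 5) (nat_lit 55) (nat_lit 5) (nat_lit 56) (nat_lit 5) (nat_lit 288) (nat_lit 278) (nat_lit 154))) (XT.nd (nat_lit 78) (nat_lit 304) (nat_lit 0) (XT.lf (nat_lit 0) (nat_lit 50517122430) (nat_lit 304) (nat_lit 64033669956) (nat_lit 380) (nat_lit 8518505193) (nat_lit 47) (nat_lit 5) (nat_lit 51) (nat_lit 5) (nat_lit 52) (nat_lit 5) (nat_lit 289) (nat_lit 278) (nat_lit 153)) (XT.lf (nat_lit 0) (nat_lit 8255259102) (nat_lit 304) (nat_lit 118770899491) (nat_lit 76) (nat_lit 2092368362) (nat_lit 43) (nat_lit 5) (nat_lit 47) (nat_lit 5) (nat_lit 44) (nat_lit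 5) (nat_lit 290) (nat_lit 278) (nat_lit 152)))) (XT.nd (nat_lit 156) (nat_lit 456) (nat_lit 0) (XT.nd (nat_lit 78) (nat_lit 304) (nat_lit 0) (XT.lf (nat_lit 0) (nat_lit 28439980184) (nat_lit 304) (nat_lit 34363188717) (nat_lit 76) (nat_lit 72723171084) (nat_lit 43) (nat_lit 5) (nat_lit 47) (nat_lit 5) (nat_lit 44) (nat_lit 5) (nat_lit 291) (nat_lit 278) (nat_lit 151)) (XT.lf (nat_lit 0) (nat_lit 51272261740) (nat_lit 380) (nat_lit 83844099406) (nat_lit 76) (nat_lit 7278780375) (nat_lit 39) (nat_lit 5) (nat_lit 44) (nat_lit 5) (nat_lit 40) (nat_lit 5) (nat_lit 292) (nat_lit 278) (nat_lit 150))) (XT.nd (nat_lit 78) (nat_lit 228) (nat_lit 0) (XT.lf (nat_lit 0) (nat_lit 9579019880) (nat_lit 228) (nat_lit 68168385524) (nat_lit 304) (nat_lit 71975230208) (nat_lit 36) (nat_lit 5) (nat_lit 39) (nat_lit 5) (nat_lit 40) (nat_lit 5) (nat_lit 293) (nat_lit 278) (nat_lit 149)) (XT.nd (nat_lit 78)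 (nat_lit 228) (nat_lit 0) (XT.lf (nat_lit 0) (nat_lit 107888964367) (nat_lit 304) (nat_lit 44182546490) (nat_lit 76) (nat_lit 5487400416) (nat_lit 36) (nat_lit 5) (nat_lit 40) (nat_lit 5) (nat_lit 37) (nat_lit 5) (nat_lit 294) (nat_lit 278) (nat_lit 148)) (XT.lf (nat_lit 0) (nat_lit 60233087905) (nat_lit 228) (nat_lit 82298041758) (nat_lit 304) (nat_lit 23386497309) (nat_lit 33) (nat_lit 5) (nat_lit 36) (nat_lit 5) (nat_lit 37) (nat_lit 5) (nat_lit 295) (nat_lit 278) (nat_lit 147))))))))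
noncomputable def xc114 : XT := (XT.nd (nat_lit 1404) (nat_lit 152) (nat_lit 0) (XT.nd (nat_lit 702) (nat_lit 608) (nat_lit 0) (XT.nd (nat_lit 312) (nat_lit 532) (nat_lit 0) (XT.nd (nat_lit 156) (nat_lit 228) (nat_lit 0) (XT.nd (nat_lit 78) (nat_lit 228) (nat_lit 0) (XT.lf (nat_lit 0) (nat_lit 5621308965) (nat_lit 304) (nat_lit 418216814) (nat_lit 76) (nat_lit 168862528061) (nat_lit 32) (nat_lit 5) (nat_lit 36) (nat_lit 5) (nat_lit 33) (nat_lit 5) (nat_lit 296) (nat_lit 278) (nat_lit 146)) (XT.lf (nat_lit 0) (nat_lit 39189263657) (nat_lit 304) (nat_lit 69115827328) (nat_lit 76) (nat_lit 76128032657) (nat_lit 29) (nat_lit 5) (nat_lit 33) (nat_lit 5) (nat_lit 30) (nat_lit 5) (nat_lit 297) (nat_lit 278) (nat_lit 145))) (XT.nd (nat_lit 78) (nat_lit 0) (nat_lit 0) (XT.lf (nat_lit 0) (nat_lit 47002027549) (nat_lit 228) (nat_lit 29283220486) (nat_lit 304) (nat_lit 118399302890) (nat_lit 26)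 (nat_lit 5) (nat_lit 29) (nat_lit 5) (nat_lit 30) (nat_lit 5) (nat_lit 298) (nat_lit 278) (nat_lit 144)) (XT.lf (nat_lit 0) (nat_lit 118447402758) (nat_lit 304) (nat_lit 31714114759) (nat_lit 76) (nat_lit 55489651740) (nat_lit 26) (nat_lit 5) (nat_lit 30) (nat_lit 5) (nat_lit 27) (nat_lit 5) (nat_lit 299) (nat_lit 278) (nat_lit 143)))) (XT.nd (nat_lit 156) (nat_lit 228) (nat_lit 0) (XT.nd (nat_lit 78) (nat_lit 152) (nat_lit 0) (XT.lf (nat_lit 0) (nat_lit 96113644205) (nat_lit 152) (nat_lit 69862833132) (nat_lit 228) (nat_lit 51418943686) (nat_lit 24) (nat_lit 5) (nat_lit 26) (nat_lit 5) (nat_lit 27) (nat_lit 5) (nat_lit 300) (nat_lit 278) (nat_lit 142)) (XT.lf (nat_lit 0) (nat_lit 5140183718) (nat_lit 152) (nat_lit 213072266144) (nat_lit 228) (nat_lit 11821535710) (nat_lit 22) (nat_lit 5) (nat_lit 24) (nat_lit 5) (nat_lit 25) (nat_lit 5) (nat_lit 301) (nat_lit 278) (nat_lit 141))) (XT.nd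 (nat_lit 78) (nat_lit 152) (nat_lit 0) (XT.lf (nat_lit 0) (nat_lit 33278182744) (nat_lit 228) (nat_lit 99267506834) (nat_lit 76) (nat_lit 110947545516) (nat_lit 21) (nat_lit 5) (nat_lit 24) (nat_lit 5) (nat_lit 22) (nat_lit 5) (nat_lit 302) (nat_lit 278) (nat_lit 140)) (XT.nd (nat_lit 78) (nat_lit 0) (nat_lit 0) (XT.lf (nat_lit 0) (nat_lit 37406263159) (nat_lit 152) (nat_lit 44754638499) (nat_lit 228) (nat_lit 175829174550) (nat_lit 19) (nat_lit 5) (nat_lit 21) (nat_lit 5) (nat_lit 22) (nat_lit 5) (nat_lit 303) (nat_lit 278) (nat_lit 139)) (XT.lf (nat_lit 0) (nat_lit 137492988016) (nat_lit 228) (nat_lit 85811902165) (nat_lit 76) (nat_lit 50214837871) (nat_lit 19) (nat_lit 5) (nat_lit 22) (nat_lit 5) (nat_lit 20) (nat_lit 5) (nat_lit 304) (nat_lit 278) (nat_lit 138)))))) (XT.nd (nat_lit 312) (nat_lit 304) (nat_lit 0) (XT.nd (nat_lit 156) (nat_lit 152) (nat_lit 0) (XT.nd (nat_lit 78) (nat_lit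 0) (nat_lit 0) (XT.lf (nat_lit 0) (nat_lit 60936997357) (nat_lit 152) (nat_lit 138020366463) (nat_lit 228) (nat_lit 91249102966) (nat_lit 17) (nat_lit 5) (nat_lit 19) (nat_lit 5) (nat_lit 20) (nat_lit 5) (nat_lit 305) (nat_lit 278) (nat_lit 137)) (XT.lf (nat_lit 0) (nat_lit 222489661462) (nat_lit 152) (nat_lit 44343712936) (nat_lit 228) (nat_lit 41320046789) (nat_lit 17) (nat_lit 5) (nat_lit 19) (nat_lit 5) (nat_lit 20) (nat_lit 5) (nat_lit 306) (nat_lit 278) (nat_lit 136))) (XT.nd (nat_lit 78) (nat_lit 0) (nat_lit 0) (XT.lf (nat_lit 0) (nat_lit 14225086047) (nat_lit 152) (nat_lit 256856877459) (nat_lit 76) (nat_lit 56343073596) (nat_lit 15) (nat_lit 5) (nat_lit 17) (nat_lit 5) (nat_lit 16) (nat_lit 5) (nat_lit 307) (nat_lit 278) (nat_lit 135)) (XT.lf (nat_lit 0) (nat_lit 75049642056) (nat_lit 152) (nat_lit 107275455494) (nat_lit 76) (nat_lit 165765243222) (nat_lit 15) (nat_lit 5) (nat_lit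 17) (nat_lit 5) (nat_lit 16) (nat_lit 5) (nat_lit 308) (nat_lit 278) (nat_lit 134)))) (XT.nd (nat_lit 156) (nat_lit 152) (nat_lit 0) (XT.nd (nat_lit 78) (nat_lit 0) (nat_lit 0) (XT.lf (nat_lit 0) (nat_lit 56066560801) (nat_lit 152) (nat_lit 85548704373) (nat_lit 228) (nat_lit 228749849038) (nat_lit 13) (nat_lit 5) (nat_lit 15) (nat_lit 5) (nat_lit 16) (nat_lit 5) (nat_lit 309) (nat_lit 278) (nat_lit 133)) (XT.lf (nat_lit 0) (nat_lit 215701370126) (nat_lit 228) (nat_lit 158348923964) (nat_lit 76) (nat_lit 20261814402) (nat_lit 13) (nat_lit 5) (nat_lit 16) (nat_lit 5) (nat_lit 14) (nat_lit 4) (nat_lit 310) (nat_lit 278) (nat_lit 132))) (XT.nd (nat_lit 78) (nat_lit 76) (nat_lit 0) (XT.lf (nat_lit 0) (nat_lit 8919277531) (nat_lit 76) (nat_lit 288376623374) (nat_lit 152) (nat_lit 122799885057) (nat_lit 12) (nat_lit 5) (nat_lit 13) (nat_lit 5) (nat_lit 14) (nat_lit 4) (nat_lit 311) (nat_lit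 278) (nat_lit 131)) (XT.nd (nat_lit 78) (nat_lit 76) (nat_lit 0) (XT.lf (nat_lit 0) (nat_lit 195223176472) (nat_lit 76) (nat_lit 192952940087) (nat_lit 152) (nat_lit 59628135434) (nat_lit 12) (nat_lit 5) (nat_lit 13) (nat_lit 5) (nat_lit 14) (nat_lit 4) (nat_lit 312) (nat_lit 278) (nat_lit 130)) (XT.lf (nat_lit 0) (nat_lit 8321983603) (nat_lit 152) (nat_lit 81432565776) (nat_lit 76) (nat_lit 387968144990) (nat_lit 11) (nat_lit 5) (nat_lit 13) (nat_lit 5) (nat_lit 12) (nat_lit 5) (nat_lit 313) (nat_lit 278) (nat_lit 129))))))) (XT.nd (nat_lit 35256) (nat_lit 0) (nat_lit 2280) (XT.nd (nat_lit 34866) (nat_lit 0) (nat_lit 3876) (XT.nd (nat_lit 156) (nat_lit 0) (nat_lit 0) (XT.nd (nat_lit 78) (nat_lit 0) (nat_lit 0) (XT.lf (nat_lit 0) (nat_lit 81680771758) (nat_lit 228) (nat_lit 404496161756) (nat_lit 76) (nat_lit 23705716544) (nat_lit 9) (nat_lit 5) (nat_lit 12) (nat_lit 5) (nat_lit 10) (nat_lit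 4) (nat_lit 314) (nat_lit 278) (nat_lit 128)) (XT.lf (nat_lit 0) (nat_lit 163863266415) (nat_lit 228) (nat_lit 236022458347) (nat_lit 76) (nat_lit 144581927632) (nat_lit 9) (nat_lit 5) (nat_lit 12) (nat_lit 5) (nat_lit 10) (nat_lit 4) (nat_lit 315) (nat_lit 278) (nat_lit 127))) (XT.nd (nat_lit 34632) (nat_lit 0) (nat_lit 3876) (XT.lf (nat_lit 0) (nat_lit 252620194801) (nat_lit 228) (nat_lit 54071135375) (nat_lit 76) (nat_lit 275128133371) (nat_lit 9) (nat_lit 5) (nat_lit 12) (nat_lit 5) (nat_lit 10) (nat_lit 4) (nat_lit 316) (nat_lit 278) (nat_lit 126)) (XT.lf (nat_lit 0) (nat_lit 3230029382) (nat_lit 0) (nat_lit 3230029382) (nat_lit 684) (nat_lit 34968510577) (nat_lit 60) (nat_lit 5) (nat_lit 60) (nat_lit 3) (nat_lit 69) (nat_lit 3) (nat_lit 279) (nat_lit 279) (nat_lit 162)))) (XT.nd (nat_lit 156) (nat_lit 0) (nat_lit 76) (XT.nd (nat_lit 78) (nat_lit 0) (nat_lit 76) (XT.lf (nat_lit 0)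 (nat_lit 14229537418) (nat_lit 684) (nat_lit 23593220081) (nat_lit 760) (nat_lit 48308976965) (nat_lit 60) (nat_lit 5) (nat_lit 69) (nat_lit 3) (nat_lit 70) (nat_lit 5) (nat_lit 280) (nat_lit 279) (nat_lit 161)) (XT.lf (nat_lit 0) (nat_lit 16571999881) (nat_lit 684) (nat_lit 55492091134) (nat_lit 760) (nat_lit 17557798346) (nat_lit 61) (nat_lit 5) (nat_lit 70) (nat_lit 5) (nat_lit 71) (nat_lit 5) (nat_lit 281) (nat_lit 279) (nat_lit 160))) (XT.nd (nat_lit 78) (nat_lit 0) (nat_lit 76) (XT.lf (nat_lit 76) (nat_lit 3406178444) (nat_lit 0) (nat_lit 16803099430) (nat_lit 760) (nat_lit 73126613315) (nat_lit 62) (nat_lit 5) (nat_lit 61) (nat_lit 5) (nat_lit 71) (nat_lit 5) (nat_lit 282) (nat_lit 279) (nat_lit 159)) (XT.nd (nat_lit 78) (nat_lit 0) (nat_lit 76) (XT.lf (nat_lit 0) (nat_lit 25788326502) (nat_lit 684) (nat_lit 28986904752) (nat_lit 760) (nat_lit 42489247552) (nat_lit 62) (nat_lit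 5) (nat_lit 71) (nat_lit 5) (nat_lit 72) (nat_lit 5) (nat_lit 283) (nat_lit 279) (nat_lit 158)) (XT.lf (nat_lit 0) (nat_lit 32764594524) (nat_lit 684) (nat_lit 63787289895) (nat_lit 760) (nat_lit 4907928923) (nat_lit 63) (nat_lit 5) (nat_lit 72) (nat_lit 5) (nat_lit 73) (nat_lit 5) (nat_lit 284) (nat_lit 279) (nat_lit 157)))))) (XT.nd (nat_lit 312) (nat_lit 912) (nat_lit 0) (XT.nd (nat_lit 156) (nat_lit 912) (nat_lit 0) (XT.nd (nat_lit 78) (nat_lit 0) (nat_lit 76) (XT.lf (nat_lit 76) (nat_lit 3927304656) (nat_lit 0) (nat_lit 37868801420) (nat_lit 760) (nat_lit 64119815802) (nat_lit 64) (nat_lit 5) (nat_lit 63) (nat_lit 5) (nat_lit 73) (nat_lit 5) (nat_lit 285) (nat_lit 279) (nat_lit 156)) (XT.lf (nat_lit 0) (nat_lit 53076822291) (nat_lit 684) (nat_lit 31753368534) (nat_lit 76) (nat_lit 25821998100) (nat_lit 64) (nat_lit 5) (nat_lit 73) (nat_lit 5) (nat_lit 65) (nat_lit 5) (nat_lit 286)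 (nat_lit 279) (nat_lit 155))) (XT.nd (nat_lit 78) (nat_lit 304) (nat_lit 0) (XT.lf (nat_lit 0) (nat_lit 44898438430) (nat_lit 684) (nat_lit 21700223086) (nat_lit 760) (nat_lit 49101766256) (nat_lit 55) (nat_lit 5) (nat_lit 64) (nat_lit 5) (nat_lit 65) (nat_lit 5) (nat_lit 287) (nat_lit 279) (nat_lit 154)) (XT.lf (nat_lit 0) (nat_lit 7185896271) (nat_lit 304) (nat_lit 75415611682) (nat_lit 380) (nat_lit 38481058216) (nat_lit 51) (nat_lit 5) (nat_lit 55) (nat_lit 5) (nat_lit 56) (nat_lit 5) (nat_lit 288) (nat_lit 279) (nat_lit 153)))) (XT.nd (nat_lit 156) (nat_lit 608) (nat_lit 0) (XT.nd (nat_lit 78) (nat_lit 304) (nat_lit 0) (XT.lf (nat_lit 0) (nat_lit 93562391052) (nat_lit 304) (nat_lit 7914760147) (nat_lit 380) (nat_lit 25338499172) (nat_lit 51) (nat_lit 5) (nat_lit 55) (nat_lit 5) (nat_lit 56) (nat_lit 5) (nat_lit 289) (nat_lit 279) (nat_lit 152)) (XT.lf (nat_lit 0) (nat_lit 54572965631)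 (nat_lit 304) (nat_lit 69155830335) (nat_lit 380) (nat_lit 9185290794) (nat_lit 47) (nat_lit 5) (nat_lit 51) (nat_lit 5) (nat_lit 52) (nat_lit 5) (nat_lit 290) (nat_lit 279) (nat_lit 151))) (XT.nd (nat_lit 78) (nat_lit 304) (nat_lit 0) (XT.lf (nat_lit 0) (nat_lit 8929089510) (nat_lit 304) (nat_lit 128257518979) (nat_lit 76) (nat_lit 2260679330) (nat_lit 43) (nat_lit 5) (nat_lit 47) (nat_lit 5) (nat_lit 44) (nat_lit 5) (nat_lit 291) (nat_lit 279) (nat_lit 150)) (XT.nd (nat_lit 78) (nat_lit 304) (nat_lit 0) (XT.lf (nat_lit 0) (nat_lit 30727594969) (nat_lit 304) (nat_lit 37098306340) (nat_lit 76) (nat_lit 78541878010) (nat_lit 43) (nat_lit 5) (nat_lit 47) (nat_lit 5) (nat_lit 44) (nat_lit 5) (nat_lit 292) (nat_lit 279) (nat_lit 149)) (XT.lf (nat_lit 0) (nat_lit 55385772867) (nat_lit 380) (nat_lit 90537692191) (nat_lit 76) (nat_lit 7862657714) (nat_lit 39) (nat_lit 5) (nat_lit 44) (nat_lit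 5) (nat_lit 40) (nat_lit 5) (nat_lit 293) (nat_lit 279) (nat_lit 148))))))))
noncomputable def xc115 : XT := (XT.nd (nat_lit 1404) (nat_lit 304) (nat_lit 0) (XT.nd (nat_lit 702) (nat_lit 684) (nat_lit 0) (XT.nd (nat_lit 312) (nat_lit 760) (nat_lit 0) (XT.nd (nat_lit 156) (nat_lit 304) (nat_lit 0) (XT.nd (nat_lit 78) (nat_lit 0) (nat_lit 0) (XT.lf (nat_lit 0) (nat_lit 10358671032) (nat_lit 228) (nat_lit 73619596200) (nat_lit 304) (nat_lit 77721585424) (nat_lit 36) (nat_lit 5) (nat_lit 39) (nat_lit 5) (nat_lit 40) (nat_lit 5) (nat_lit 294) (nat_lit 279) (nat_lit 147)) (XT.lf (nat_lit 0) (nat_lit 116530363631) (nat_lit 304) (nat_lit 47704290878) (nat_lit 76) (nat_lit 5928418214) (nat_lit 36) (nat_lit 5) (nat_lit 40) (nat_lit 5) (nat_lit 37) (nat_lit 5) (nat_lit 295) (nat_lit 279) (nat_lit 146))) (XT.nd (nat_lit 78) (nat_lit 76) (nat_lit 0) (XT.lf (nat_lit 0) (nat_lit 65064035418) (nat_lit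 228) (nat_lit 88879297140) (nat_lit 304) (nat_lit 25247184367) (nat_lit 33) (nat_lit 5) (nat_lit 36) (nat_lit 5) (nat_lit 37) (nat_lit 5) (nat_lit 296) (nat_lit 279) (nat_lit 145)) (XT.lf (nat_lit 0) (nat_lit 6080185178) (nat_lit 304) (nat_lit 439951080) (nat_lit 76) (nat_lit 182373592820) (nat_lit 32) (nat_lit 5) (nat_lit 36) (nat_lit 5) (nat_lit 33) (nat_lit 5) (nat_lit 297) (nat_lit 279) (nat_lit 144)))) (XT.nd (nat_lit 156) (nat_lit 304) (nat_lit 0) (XT.nd (nat_lit 78) (nat_lit 228) (nat_lit 0) (XT.lf (nat_lit 0) (nat_lit 42333111708) (nat_lit 304) (nat_lit 74633458068) (nat_lit 76) (nat_lit 82220740174) (nat_lit 29) (nat_lit 5) (nat_lit 33) (nat_lit 5) (nat_lit 30) (nat_lit 5) (nat_lit 298) (nat_lit 279) (nat_lit 143)) (XT.lf (nat_lit 0) (nat_lit 50773319537) (nat_lit 228) (nat_lit 31622984106) (nat_lit 304) (nat_lit 127862573423) (nat_lit 26) (nat_lit 5) (nat_lit 29) (nat_lit 5)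 (nat_lit 30) (nat_lit 5) (nat_lit 299) (nat_lit 279) (nat_lit 142))) (XT.nd (nat_lit 78) (nat_lit 304) (nat_lit 0) (XT.lf (nat_lit 0) (nat_lit 127930862525) (nat_lit 304) (nat_lit 34240574928) (nat_lit 76) (nat_lit 59931417761) (nat_lit 26) (nat_lit 5) (nat_lit 30) (nat_lit 5) (nat_lit 27) (nat_lit 5) (nat_lit 300) (nat_lit 279) (nat_lit 141)) (XT.nd (nat_lit 78) (nat_lit 152) (nat_lit 0) (XT.lf (nat_lit 0) (nat_lit 103812941091) (nat_lit 152) (nat_lit 75448913347) (nat_lit 228) (nat_lit 55524814908) (nat_lit 24) (nat_lit 5) (nat_lit 26) (nat_lit 5) (nat_lit 27) (nat_lit 5) (nat_lit 301) (nat_lit 279) (nat_lit 140)) (XT.lf (nat_lit 0) (nat_lit 5561484862) (nat_lit 152) (nat_lit 230114882278) (nat_lit 228) (nat_lit 12759970461) (nat_lit 22) (nat_lit 5) (nat_lit 24) (nat_lit 5) (nat_lit 25) (nat_lit 5) (nat_lit 302) (nat_lit 279) (nat_lit 139)))))) (XT.nd (nat_lit 312) (nat_lit 304) (nat_lit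 0) (XT.nd (nat_lit 156) (nat_lit 152) (nat_lit 0) (XT.nd (nat_lit 78) (nat_lit 152) (nat_lit 0) (XT.lf (nat_lit 0) (nat_lit 35946969625) (nat_lit 228) (nat_lit 107199333792) (nat_lit 76) (nat_lit 119826045572) (nat_lit 21) (nat_lit 5) (nat_lit 24) (nat_lit 5) (nat_lit 22) (nat_lit 5) (nat_lit 303) (nat_lit 279) (nat_lit 138)) (XT.lf (nat_lit 0) (nat_lit 40407921745) (nat_lit 152) (nat_lit 48332043411) (nat_lit 228) (nat_lit 189888990635) (nat_lit 19) (nat_lit 5) (nat_lit 21) (nat_lit 5) (nat_lit 22) (nat_lit 5) (nat_lit 304) (nat_lit 279) (nat_lit 137))) (XT.nd (nat_lit 78) (nat_lit 152) (nat_lit 0) (XT.lf (nat_lit 0) (nat_lit 148498202682) (nat_lit 228) (nat_lit 92668115694) (nat_lit 76) (nat_lit 54234683450) (nat_lit 19) (nat_lit 5) (nat_lit 22) (nat_lit 5) (nat_lit 20) (nat_lit 5) (nat_lit 305) (nat_lit 279) (nat_lit 136)) (XT.lf (nat_lit 0) (nat_lit 65820316019) (nat_lit 152) (nat_lit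 149059115213) (nat_lit 228) (nat_lit 98543264454) (nat_lit 17) (nat_lit 5) (nat_lit 19) (nat_lit 5) (nat_lit 20) (nat_lit 5) (nat_lit 306) (nat_lit 279) (nat_lit 135)))) (XT.nd (nat_lit 156) (nat_lit 152) (nat_lit 0) (XT.nd (nat_lit 78) (nat_lit 152) (nat_lit 0) (XT.lf (nat_lit 0) (nat_lit 240296574077) (nat_lit 152) (nat_lit 47888542779) (nat_lit 228) (nat_lit 44620310949) (nat_lit 17) (nat_lit 5) (nat_lit 19) (nat_lit 5) (nat_lit 20) (nat_lit 5) (nat_lit 307) (nat_lit 279) (nat_lit 134)) (XT.lf (nat_lit 0) (nat_lit 15368038842) (nat_lit 152) (nat_lit 277397633282) (nat_lit 76) (nat_lit 60853108790) (nat_lit 15) (nat_lit 5) (nat_lit 17) (nat_lit 5) (nat_lit 16) (nat_lit 5) (nat_lit 308) (nat_lit 279) (nat_lit 133))) (XT.nd (nat_lit 78) (nat_lit 152) (nat_lit 0) (XT.lf (nat_lit 0) (nat_lit 81058192968) (nat_lit 152) (nat_lit 115850274920) (nat_lit 76) (nat_lit 179028860185) (nat_lit 15)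 (nat_lit 5) (nat_lit 17) (nat_lit 5) (nat_lit 16) (nat_lit 5) (nat_lit 309) (nat_lit 279) (nat_lit 132)) (XT.nd (nat_lit 78) (nat_lit 0) (nat_lit 0) (XT.lf (nat_lit 0) (nat_lit 60558789036) (nat_lit 152) (nat_lit 92390045455) (nat_lit 228) (nat_lit 247045261284) (nat_lit 13) (nat_lit 5) (nat_lit 15) (nat_lit 5) (nat_lit 16) (nat_lit 5) (nat_lit 310) (nat_lit 279) (nat_lit 131)) (XT.lf (nat_lit 0) (nat_lit 232961542697) (nat_lit 228) (nat_lit 171010272093) (nat_lit 76) (nat_lit 21885049817) (nat_lit 13) (nat_lit 5) (nat_lit 16) (nat_lit 5) (nat_lit 14) (nat_lit 4) (nat_lit 311) (nat_lit 279) (nat_lit 130))))))) (XT.nd (nat_lit 35334) (nat_lit 0) (nat_lit 2584) (XT.nd (nat_lit 312) (nat_lit 0) (nat_lit 0) (XT.nd (nat_lit 156) (nat_lit 228) (nat_lit 0) (XT.nd (nat_lit 78) (nat_lit 0) (nat_lit 0) (XT.lf (nat_lit 0) (nat_lit 9639100180) (nat_lit 76) (nat_lit 311444332853) (nat_lit 152) (nat_lit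 132619814084) (nat_lit 12) (nat_lit 5) (nat_lit 13) (nat_lit 5) (nat_lit 14) (nat_lit 4) (nat_lit 312) (nat_lit 279) (nat_lit 129)) (XT.lf (nat_lit 0) (nat_lit 210846845818) (nat_lit 76) (nat_lit 208386934191) (nat_lit 152) (nat_lit 64394625364) (nat_lit 12) (nat_lit 5) (nat_lit 13) (nat_lit 5) (nat_lit 14) (nat_lit 4) (nat_lit 313) (nat_lit 279) (nat_lit 128))) (XT.nd (nat_lit 78) (nat_lit 152) (nat_lit 0) (XT.lf (nat_lit 0) (nat_lit 8991113155) (nat_lit 152) (nat_lit 87941667991) (nat_lit 76) (nat_lit 419007553109) (nat_lit 11) (nat_lit 5) (nat_lit 13) (nat_lit 5) (nat_lit 12) (nat_lit 5) (nat_lit 314) (nat_lit 279) (nat_lit 127)) (XT.lf (nat_lit 0) (nat_lit 88218469024) (nat_lit 228) (nat_lit 436850456217) (nat_lit 76) (nat_lit 25604168453) (nat_lit 9) (nat_lit 5) (nat_lit 12) (nat_lit 5) (nat_lit 10) (nat_lit 4) (nat_lit 315) (nat_lit 279) (nat_lit 126)))) (XT.nd (nat_lit 34788) (nat_lit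 0) (nat_lit 3876) (XT.nd (nat_lit 34710) (nat_lit 0) (nat_lit 3876) (XT.lf (nat_lit 0) (nat_lit 176975323584) (nat_lit 228) (nat_lit 254899256423) (nat_lit 76) (nat_lit 156150328682) (nat_lit 9) (nat_lit 5) (nat_lit 12) (nat_lit 5) (nat_lit 10) (nat_lit 4) (nat_lit 316) (nat_lit 279) (nat_lit 125)) (XT.lf (nat_lit 0) (nat_lit 3494989208) (nat_lit 0) (nat_lit 3494989208) (nat_lit 684) (nat_lit 37752163136) (nat_lit 60) (nat_lit 5) (nat_lit 60) (nat_lit 3) (nat_lit 69) (nat_lit 3) (nat_lit 280) (nat_lit 280) (nat_lit 160))) (XT.nd (nat_lit 78) (nat_lit 0) (nat_lit 76) (XT.lf (nat_lit 0) (nat_lit 15391997763) (nat_lit 684) (nat_lit 25467023628) (nat_lit 760) (nat_lit 52161940317) (nat_lit 60) (nat_lit 5) (nat_lit 69) (nat_lit 3) (nat_lit 70) (nat_lit 5) (nat_lit 281) (nat_lit 280) (nat_lit 159)) (XT.nd (nat_lit 78) (nat_lit 0) (nat_lit 0) (XT.lf (nat_lit 0) (nat_lit 17920128520) (nat_lit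 684) (nat_lit 59917025564) (nat_lit 760) (nat_lit 18953269247) (nat_lit 61) (nat_lit 5) (nat_lit 70) (nat_lit 5) (nat_lit 71) (nat_lit 5) (nat_lit 282) (nat_lit 280) (nat_lit 158)) (XT.lf (nat_lit 76) (nat_lit 3692478345) (nat_lit 0) (nat_lit 18154469015) (nat_lit 760) (nat_lit 78954677330) (nat_lit 62) (nat_lit 5) (nat_lit 61) (nat_lit 5) (nat_lit 71) (nat_lit 5) (nat_lit 283) (nat_lit 280) (nat_lit 157)))))) (XT.nd (nat_lit 390) (nat_lit 912) (nat_lit 0) (XT.nd (nat_lit 156) (nat_lit 532) (nat_lit 0) (XT.nd (nat_lit 78) (nat_lit 0) (nat_lit 76) (XT.lf (nat_lit 0) (nat_lit 27870666758) (nat_lit 684) (nat_lit 31291917679) (nat_lit 760) (nat_lit 45882004307) (nat_lit 62) (nat_lit 5) (nat_lit 71) (nat_lit 5) (nat_lit 72) (nat_lit 5) (nat_lit 284) (nat_lit 280) (nat_lit 156)) (XT.lf (nat_lit 0) (nat_lit 35403742977) (nat_lit 684) (nat_lit 68875884600) (nat_lit 760) (nat_lit 5295993399) (nat_lit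 63) (nat_lit 5) (nat_lit 72) (nat_lit 5) (nat_lit 73) (nat_lit 5) (nat_lit 285) (nat_lit 280) (nat_lit 155))) (XT.nd (nat_lit 78) (nat_lit 608) (nat_lit 0) (XT.lf (nat_lit 76) (nat_lit 4255252208) (nat_lit 0) (nat_lit 40901406208) (nat_lit 760) (nat_lit 69231621436) (nat_lit 64) (nat_lit 5) (nat_lit 63) (nat_lit 5) (nat_lit 73) (nat_lit 5) (nat_lit 286) (nat_lit 280) (nat_lit 154)) (XT.nd (nat_lit 78) (nat_lit 684) (nat_lit 0) (XT.lf (nat_lit 0) (nat_lit 57338537931) (nat_lit 684) (nat_lit 34280001568) (nat_lit 76) (nat_lit 27884978843) (nat_lit 64) (nat_lit 5) (nat_lit 73) (nat_lit 5) (nat_lit 65) (nat_lit 5) (nat_lit 287) (nat_lit 280) (nat_lit 153)) (XT.lf (nat_lit 0) (nat_lit 48503357330) (nat_lit 684) (nat_lit 23437817292) (nat_lit 760) (nat_lit 53014494136) (nat_lit 55) (nat_lit 5) (nat_lit 64) (nat_lit 5) (nat_lit 65) (nat_lit 5) (nat_lit 288) (nat_lit 280) (nat_lit 152))))) (XT.nd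 (nat_lit 156) (nat_lit 608) (nat_lit 0) (XT.nd (nat_lit 78) (nat_lit 0) (nat_lit 0) (XT.lf (nat_lit 0) (nat_lit 7774027234) (nat_lit 304) (nat_lit 81449322788) (nat_lit 380) (nat_lit 41545077750) (nat_lit 51) (nat_lit 5) (nat_lit 55) (nat_lit 5) (nat_lit 56) (nat_lit 5) (nat_lit 289) (nat_lit 280) (nat_lit 151)) (XT.lf (nat_lit 0) (nat_lit 101059659431) (nat_lit 304) (nat_lit 8548368895) (nat_lit 380) (nat_lit 27352185473) (nat_lit 51) (nat_lit 5) (nat_lit 55) (nat_lit 5) (nat_lit 56) (nat_lit 5) (nat_lit 290) (nat_lit 280) (nat_lit 150))) (XT.nd (nat_lit 78) (nat_lit 304) (nat_lit 0) (XT.lf (nat_lit 0) (nat_lit 58951211495) (nat_lit 304) (nat_lit 74687839613) (nat_lit 380) (nat_lit 9907515621) (nat_lit 47) (nat_lit 5) (nat_lit 51) (nat_lit 5) (nat_lit 52) (nat_lit 5) (nat_lit 291) (nat_lit 280) (nat_lit 149)) (XT.nd (nat_lit 78) (nat_lit 0) (nat_lit 0) (XT.lf (nat_lit 0) (nat_lit 9654913311)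 (nat_lit 304) (nat_lit 138505215428) (nat_lit 76) (nat_lit 2442323713) (nat_lit 43) (nat_lit 5) (nat_lit 47) (nat_lit 5) (nat_lit 44) (nat_lit 5) (nat_lit 292) (nat_lit 280) (nat_lit 148)) (XT.lf (nat_lit 0) (nat_lit 33196447603) (nat_lit 304) (nat_lit 40054221709) (nat_lit 76) (nat_lit 84825959767) (nat_lit 43) (nat_lit 5) (nat_lit 47) (nat_lit 5) (nat_lit 44) (nat_lit 5) (nat_lit 293) (nat_lit 280) (nat_lit 147))))))))
noncomputable def xc116 : XT := (XT.nd (nat_lit 1404) (nat_lit 152) (nat_lit 0) (XT.nd (nat_lit 702) (nat_lit 836) (nat_lit 0) (XT.nd (nat_lit 312) (nat_lit 684) (nat_lit 0) (XT.nd (nat_lit 156) (nat_lit 228) (nat_lit 0) (XT.nd (nat_lit 78) (nat_lit 228) (nat_lit 0) (XT.lf (nat_lit 0) (nat_lit 59826691441) (nat_lit 380) (nat_lit 97768760407) (nat_lit 76) (nat_lit 8493020562) (nat_lit 39) (nat_lit 5) (nat_lit 44) (nat_lit 5) (nat_lit 40) (nat_lit 5) (nat_lit 294) (nat_lit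 280) (nat_lit 146)) (XT.lf (nat_lit 0) (nat_lit 11198792665) (nat_lit 228) (nat_lit 79507226169) (nat_lit 304) (nat_lit 83929312944) (nat_lit 36) (nat_lit 5) (nat_lit 39) (nat_lit 5) (nat_lit 40) (nat_lit 5) (nat_lit 295) (nat_lit 280) (nat_lit 145))) (XT.nd (nat_lit 78) (nat_lit 228) (nat_lit 0) (XT.lf (nat_lit 0) (nat_lit 125861607977) (nat_lit 304) (nat_lit 51509609344) (nat_lit 76) (nat_lit 6404428438) (nat_lit 36) (nat_lit 5) (nat_lit 40) (nat_lit 5) (nat_lit 37) (nat_lit 5) (nat_lit 296) (nat_lit 280) (nat_lit 144)) (XT.lf (nat_lit 0) (nat_lit 70279703931) (nat_lit 228) (nat_lit 95987422154) (nat_lit 304) (nat_lit 27258186202) (nat_lit 33) (nat_lit 5) (nat_lit 36) (nat_lit 5) (nat_lit 37) (nat_lit 5) (nat_lit 297) (nat_lit 280) (nat_lit 143)))) (XT.nd (nat_lit 156) (nat_lit 380) (nat_lit 0) (XT.nd (nat_lit 78) (nat_lit 228) (nat_lit 0) (XT.lf (nat_lit 0) (nat_lit 6574463073) (nat_lit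 304) (nat_lit 465096517) (nat_lit 76) (nat_lit 196965248518) (nat_lit 32) (nat_lit 5) (nat_lit 36) (nat_lit 5) (nat_lit 33) (nat_lit 5) (nat_lit 298) (nat_lit 280) (nat_lit 142)) (XT.lf (nat_lit 0) (nat_lit 45727225459) (nat_lit 304) (nat_lit 80594159193) (nat_lit 76) (nat_lit 88800512646) (nat_lit 29) (nat_lit 5) (nat_lit 33) (nat_lit 5) (nat_lit 30) (nat_lit 5) (nat_lit 299) (nat_lit 280) (nat_lit 141))) (XT.nd (nat_lit 78) (nat_lit 152) (nat_lit 0) (XT.lf (nat_lit 0) (nat_lit 54844727097) (nat_lit 228) (nat_lit 34150341681) (nat_lit 304) (nat_lit 138084142999) (nat_lit 26) (nat_lit 5) (nat_lit 29) (nat_lit 5) (nat_lit 30) (nat_lit 5) (nat_lit 300) (nat_lit 280) (nat_lit 140)) (XT.nd (nat_lit 78) (nat_lit 152) (nat_lit 0) (XT.lf (nat_lit 0) (nat_lit 138171905212) (nat_lit 304) (nat_lit 36970673965) (nat_lit 76) (nat_lit 64728155016) (nat_lit 26) (nat_lit 5) (nat_lit 30) (nat_lit 5)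 (nat_lit 27) (nat_lit 5) (nat_lit 301) (nat_lit 280) (nat_lit 139)) (XT.lf (nat_lit 0) (nat_lit 112126725820) (nat_lit 152) (nat_lit 81482300322) (nat_lit 228) (nat_lit 59960246369) (nat_lit 24) (nat_lit 5) (nat_lit 26) (nat_lit 5) (nat_lit 27) (nat_lit 5) (nat_lit 302) (nat_lit 280) (nat_lit 138)))))) (XT.nd (nat_lit 312) (nat_lit 456) (nat_lit 0) (XT.nd (nat_lit 156) (nat_lit 152) (nat_lit 0) (XT.nd (nat_lit 78) (nat_lit 76) (nat_lit 0) (XT.lf (nat_lit 0) (nat_lit 6015051153) (nat_lit 152) (nat_lit 248521359247) (nat_lit 228) (nat_lit 13774519721) (nat_lit 22) (nat_lit 5) (nat_lit 24) (nat_lit 5) (nat_lit 25) (nat_lit 5) (nat_lit 303) (nat_lit 280) (nat_lit 137)) (XT.lf (nat_lit 0) (nat_lit 38828327555) (nat_lit 228) (nat_lit 115767072685) (nat_lit 76) (nat_lit 129414440958) (nat_lit 21) (nat_lit 5) (nat_lit 24) (nat_lit 5) (nat_lit 22) (nat_lit 5) (nat_lit 304) (nat_lit 280) (nat_lit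 136))) (XT.nd (nat_lit 78) (nat_lit 0) (nat_lit 0) (XT.lf (nat_lit 0) (nat_lit 43648406593) (nat_lit 152) (nat_lit 52196063873) (nat_lit 228) (nat_lit 205074521856) (nat_lit 19) (nat_lit 5) (nat_lit 21) (nat_lit 5) (nat_lit 22) (nat_lit 5) (nat_lit 305) (nat_lit 280) (nat_lit 135)) (XT.lf (nat_lit 0) (nat_lit 160383010564) (nat_lit 228) (nat_lit 100074072970) (nat_lit 76) (nat_lit 58575737403) (nat_lit 19) (nat_lit 5) (nat_lit 22) (nat_lit 5) (nat_lit 20) (nat_lit 5) (nat_lit 306) (nat_lit 280) (nat_lit 134)))) (XT.nd (nat_lit 156) (nat_lit 304) (nat_lit 0) (XT.nd (nat_lit 78) (nat_lit 0) (nat_lit 0) (XT.lf (nat_lit 0) (nat_lit 71093107688) (nat_lit 152) (nat_lit 160981374807) (nat_lit 228) (nat_lit 106421781552) (nat_lit 17) (nat_lit 5) (nat_lit 19) (nat_lit 5) (nat_lit 20) (nat_lit 5) (nat_lit 307) (nat_lit 280) (nat_lit 133)) (XT.lf (nat_lit 0) (nat_lit 259526935547) (nat_lit 152)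 (nat_lit 51717339514) (nat_lit 228) (nat_lit 48185357993) (nat_lit 17) (nat_lit 5) (nat_lit 19) (nat_lit 5) (nat_lit 20) (nat_lit 5) (nat_lit 308) (nat_lit 280) (nat_lit 132))) (XT.nd (nat_lit 78) (nat_lit 152) (nat_lit 0) (XT.lf (nat_lit 0) (nat_lit 16601722271) (nat_lit 152) (nat_lit 299582761524) (nat_lit 76) (nat_lit 65723577405) (nat_lit 15) (nat_lit 5) (nat_lit 17) (nat_lit 5) (nat_lit 16) (nat_lit 5) (nat_lit 309) (nat_lit 280) (nat_lit 131)) (XT.nd (nat_lit 78) (nat_lit 152) (nat_lit 0) (XT.lf (nat_lit 0) (nat_lit 87546774629) (nat_lit 152) (nat_lit 125112109488) (nat_lit 76) (nat_lit 193353224475) (nat_lit 15) (nat_lit 5) (nat_lit 17) (nat_lit 5) (nat_lit 16) (nat_lit 5) (nat_lit 310) (nat_lit 280) (nat_lit 130)) (XT.lf (nat_lit 0) (nat_lit 65409410687) (nat_lit 152) (nat_lit 99779058360) (nat_lit 228) (nat_lit 266804959281) (nat_lit 13) (nat_lit 5) (nat_lit 15) (nat_lit 5) (nat_lit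 16) (nat_lit 5) (nat_lit 311) (nat_lit 280) (nat_lit 129))))))) (XT.nd (nat_lit 35490) (nat_lit 0) (nat_lit 2432) (XT.nd (nat_lit 35100) (nat_lit 0) (nat_lit 3724) (XT.nd (nat_lit 156) (nat_lit 76) (nat_lit 0) (XT.nd (nat_lit 78) (nat_lit 76) (nat_lit 0) (XT.lf (nat_lit 0) (nat_lit 251601949446) (nat_lit 228) (nat_lit 184685464755) (nat_lit 76) (nat_lit 23637817333) (nat_lit 13) (nat_lit 5) (nat_lit 16) (nat_lit 5) (nat_lit 14) (nat_lit 4) (nat_lit 312) (nat_lit 280) (nat_lit 128)) (XT.lf (nat_lit 0) (nat_lit 10415612666) (nat_lit 76) (nat_lit 336357804386) (nat_lit 152) (nat_lit 143225916891) (nat_lit 12) (nat_lit 5) (nat_lit 13) (nat_lit 5) (nat_lit 14) (nat_lit 4) (nat_lit 313) (nat_lit 280) (nat_lit 127))) (XT.nd (nat_lit 78) (nat_lit 76) (nat_lit 0) (XT.lf (nat_lit 0) (nat_lit 227719579105) (nat_lit 76) (nat_lit 225055967542) (nat_lit 152) (nat_lit 69542971023) (nat_lit 12) (nat_lit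 5) (nat_lit 13) (nat_lit 5) (nat_lit 14) (nat_lit 4) (nat_lit 314) (nat_lit 280) (nat_lit 126)) (XT.lf (nat_lit 0) (nat_lit 9713292180) (nat_lit 152) (nat_lit 94972283456) (nat_lit 76) (nat_lit 452529834758) (nat_lit 11) (nat_lit 5) (nat_lit 13) (nat_lit 5) (nat_lit 12) (nat_lit 5) (nat_lit 315) (nat_lit 280) (nat_lit 125)))) (XT.nd (nat_lit 156) (nat_lit 0) (nat_lit 76) (XT.nd (nat_lit 78) (nat_lit 0) (nat_lit 0) (XT.lf (nat_lit 0) (nat_lit 3780210323) (nat_lit 0) (nat_lit 3780210323) (nat_lit 684) (nat_lit 40760480660) (nat_lit 60) (nat_lit 5) (nat_lit 60) (nat_lit 3) (nat_lit 69) (nat_lit 3) (nat_lit 281) (nat_lit 281) (nat_lit 158)) (XT.lf (nat_lit 0) (nat_lit 16644017180) (nat_lit 684) (nat_lit 27492679362) (nat_lit 760) (nat_lit 56324817691) (nat_lit 60) (nat_lit 5) (nat_lit 69) (nat_lit 3) (nat_lit 70) (nat_lit 5) (nat_lit 282) (nat_lit 281) (nat_lit 157))) (XT.nd (nat_lit 78)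 (nat_lit 0) (nat_lit 0) (XT.lf (nat_lit 0) (nat_lit 19372916312) (nat_lit 684) (nat_lit 64698013758) (nat_lit 760) (nat_lit 20461683593) (nat_lit 61) (nat_lit 5) (nat_lit 70) (nat_lit 5) (nat_lit 71) (nat_lit 5) (nat_lit 283) (nat_lit 281) (nat_lit 156)) (XT.nd (nat_lit 78) (nat_lit 0) (nat_lit 76) (XT.lf (nat_lit 76) (nat_lit 3999712712) (nat_lit 0) (nat_lit 19612932186) (nat_lit 760) (nat_lit 85252134292) (nat_lit 62) (nat_lit 5) (nat_lit 61) (nat_lit 5) (nat_lit 71) (nat_lit 5) (nat_lit 284) (nat_lit 281) (nat_lit 155)) (XT.lf (nat_lit 0) (nat_lit 30116844564) (nat_lit 684) (nat_lit 33783320260) (nat_lit 760) (nat_lit 49547092215) (nat_lit 62) (nat_lit 5) (nat_lit 71) (nat_lit 5) (nat_lit 72) (nat_lit 5) (nat_lit 285) (nat_lit 281) (nat_lit 154)))))) (XT.nd (nat_lit 312) (nat_lit 912) (nat_lit 0) (XT.nd (nat_lit 156) (nat_lit 608) (nat_lit 0) (XT.nd (nat_lit 78) (nat_lit 0) (nat_lit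 0) (XT.lf (nat_lit 0) (nat_lit 38251458132) (nat_lit 684) (nat_lit 74373619561) (nat_lit 760) (nat_lit 5715754972) (nat_lit 63) (nat_lit 5) (nat_lit 72) (nat_lit 5) (nat_lit 73) (nat_lit 5) (nat_lit 286) (nat_lit 281) (nat_lit 153)) (XT.lf (nat_lit 76) (nat_lit 4607472094) (nat_lit 0) (nat_lit 44176177034) (nat_lit 760) (nat_lit 74754907985) (nat_lit 64) (nat_lit 5) (nat_lit 63) (nat_lit 5) (nat_lit 73) (nat_lit 5) (nat_lit 287) (nat_lit 281) (nat_lit 152))) (XT.nd (nat_lit 78) (nat_lit 684) (nat_lit 0) (XT.lf (nat_lit 0) (nat_lit 61938969608) (nat_lit 684) (nat_lit 37010710636) (nat_lit 76) (nat_lit 30113394515) (nat_lit 64) (nat_lit 5) (nat_lit 73) (nat_lit 5) (nat_lit 65) (nat_lit 5) (nat_lit 288) (nat_lit 281) (nat_lit 151)) (XT.lf (nat_lit 0) (nat_lit 52394808894) (nat_lit 684) (nat_lit 25314194149) (nat_lit 760) (nat_lit 57242439143) (nat_lit 55) (nat_lit 5) (nat_lit 64) (nat_lit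 5) (nat_lit 65) (nat_lit 5) (nat_lit 289) (nat_lit 281) (nat_lit 150)))) (XT.nd (nat_lit 156) (nat_lit 608) (nat_lit 0) (XT.nd (nat_lit 78) (nat_lit 0) (nat_lit 0) (XT.lf (nat_lit 0) (nat_lit 8407317093) (nat_lit 304) (nat_lit 87965664849) (nat_lit 380) (nat_lit 44856282459) (nat_lit 51) (nat_lit 5) (nat_lit 55) (nat_lit 5) (nat_lit 56) (nat_lit 5) (nat_lit 290) (nat_lit 281) (nat_lit 149)) (XT.lf (nat_lit 0) (nat_lit 109154957815) (nat_lit 304) (nat_lit 9232605294) (nat_lit 380) (nat_lit 29528877430) (nat_lit 51) (nat_lit 5) (nat_lit 55) (nat_lit 5) (nat_lit 56) (nat_lit 5) (nat_lit 291) (nat_lit 281) (nat_lit 148))) (XT.nd (nat_lit 78) (nat_lit 304) (nat_lit 0) (XT.lf (nat_lit 0) (nat_lit 63677946800) (nat_lit 304) (nat_lit 80662474851) (nat_lit 380) (nat_lit 10689315743) (nat_lit 47) (nat_lit 5) (nat_lit 51) (nat_lit 5) (nat_lit 52) (nat_lit 5) (nat_lit 292) (nat_lit 281) (nat_lit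 147)) (XT.nd (nat_lit 78) (nat_lit 0) (nat_lit 0) (XT.lf (nat_lit 0) (nat_lit 10437162891) (nat_lit 304) (nat_lit 149574568646) (nat_lit 76) (nat_lit 2638386940) (nat_lit 43) (nat_lit 5) (nat_lit 47) (nat_lit 5) (nat_lit 44) (nat_lit 5) (nat_lit 293) (nat_lit 281) (nat_lit 146)) (XT.lf (nat_lit 0) (nat_lit 35861289814) (nat_lit 304) (nat_lit 43248314986) (nat_lit 76) (nat_lit 91612663705) (nat_lit 43) (nat_lit 5) (nat_lit 47) (nat_lit 5) (nat_lit 44) (nat_lit 5) (nat_lit 294) (nat_lit 281) (nat_lit 145))))))))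
noncomputable def xc117 : XT := (XT.nd (nat_lit 1404) (nat_lit 76) (nat_lit 0) (XT.nd (nat_lit 702) (nat_lit 836) (nat_lit 0) (XT.nd (nat_lit 312) (nat_lit 684) (nat_lit 0) (XT.nd (nat_lit 156) (nat_lit 228) (nat_lit 0) (XT.nd (nat_lit 78) (nat_lit 228) (nat_lit 0) (XT.lf (nat_lit 0) (nat_lit 64621448794) (nat_lit 380) (nat_lit 105580018476) (nat_lit 76) (nat_lit 9173619813) (nat_lit 39) (nat_lit 5) (nat_lit 44) (nat_lit 5) (nat_lit 40) (nat_lit 5) (nat_lit 295) (nat_lit 281) (nat_lit 144)) (XT.lf (nat_lit 0) (nat_lit 12104493704) (nat_lit 228) (nat_lit 85866142974) (nat_lit 304) (nat_lit 90635085179) (nat_lit 36) (nat_lit 5) (nat_lit 39) (nat_lit 5) (nat_lit 40) (nat_lit 5) (nat_lit 296) (nat_lit 281) (nat_lit 143))) (XT.nd (nat_lit 78) (nat_lit 228) (nat_lit 0) (XT.lf (nat_lit 0) (nat_lit 135938094277) (nat_lit 304) (nat_lit 55620926099) (nat_lit 76) (nat_lit 6918271710) (nat_lit 36)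 (nat_lit 5) (nat_lit 40) (nat_lit 5) (nat_lit 37) (nat_lit 5) (nat_lit 297) (nat_lit 281) (nat_lit 142)) (XT.lf (nat_lit 0) (nat_lit 75911121466) (nat_lit 228) (nat_lit 103664513699) (nat_lit 304) (nat_lit 29431319738) (nat_lit 33) (nat_lit 5) (nat_lit 36) (nat_lit 5) (nat_lit 37) (nat_lit 5) (nat_lit 298) (nat_lit 281) (nat_lit 141)))) (XT.nd (nat_lit 156) (nat_lit 380) (nat_lit 0) (XT.nd (nat_lit 78) (nat_lit 228) (nat_lit 0) (XT.lf (nat_lit 0) (nat_lit 7107161443) (nat_lit 304) (nat_lit 493687425) (nat_lit 76) (nat_lit 212723984409) (nat_lit 32) (nat_lit 5) (nat_lit 36) (nat_lit 5) (nat_lit 33) (nat_lit 5) (nat_lit 299) (nat_lit 281) (nat_lit 140)) (XT.lf (nat_lit 0) (nat_lit 49391803370) (nat_lit 304) (nat_lit 87033139528) (nat_lit 76) (nat_lit 95906365437) (nat_lit 29) (nat_lit 5) (nat_lit 33) (nat_lit 5) (nat_lit 30) (nat_lit 5) (nat_lit 300) (nat_lit 281) (nat_lit 139))) (XT.nd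 (nat_lit 78) (nat_lit 152) (nat_lit 0) (XT.lf (nat_lit 0) (nat_lit 59240485988) (nat_lit 228) (nat_lit 36880241826) (nat_lit 304) (nat_lit 149124499012) (nat_lit 26) (nat_lit 5) (nat_lit 29) (nat_lit 5) (nat_lit 30) (nat_lit 5) (nat_lit 301) (nat_lit 281) (nat_lit 138)) (XT.nd (nat_lit 78) (nat_lit 152) (nat_lit 0) (XT.lf (nat_lit 0) (nat_lit 149231293504) (nat_lit 304) (nat_lit 39920485841) (nat_lit 76) (nat_lit 69908313997) (nat_lit 26) (nat_lit 5) (nat_lit 30) (nat_lit 5) (nat_lit 27) (nat_lit 5) (nat_lit 302) (nat_lit 281) (nat_lit 137)) (XT.lf (nat_lit 0) (nat_lit 121104365121) (nat_lit 152) (nat_lit 87998718630) (nat_lit 228) (nat_lit 64751447309) (nat_lit 24) (nat_lit 5) (nat_lit 26) (nat_lit 5) (nat_lit 27) (nat_lit 5) (nat_lit 303) (nat_lit 281) (nat_lit 136)))))) (XT.nd (nat_lit 312) (nat_lit 456) (nat_lit 0) (XT.nd (nat_lit 156) (nat_lit 152) (nat_lit 0) (XT.nd (nat_lit 78)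 (nat_lit 76) (nat_lit 0) (XT.lf (nat_lit 0) (nat_lit 6503669085) (nat_lit 152) (nat_lit 268400741502) (nat_lit 228) (nat_lit 14871124322) (nat_lit 22) (nat_lit 5) (nat_lit 24) (nat_lit 5) (nat_lit 25) (nat_lit 5) (nat_lit 304) (nat_lit 281) (nat_lit 135)) (XT.lf (nat_lit 0) (nat_lit 41939395167) (nat_lit 228) (nat_lit 125021401626) (nat_lit 76) (nat_lit 139769578180) (nat_lit 21) (nat_lit 5) (nat_lit 24) (nat_lit 5) (nat_lit 22) (nat_lit 5) (nat_lit 305) (nat_lit 281) (nat_lit 134))) (XT.nd (nat_lit 78) (nat_lit 0) (nat_lit 0) (XT.lf (nat_lit 0) (nat_lit 47147010181) (nat_lit 152) (nat_lit 56369568760) (nat_lit 228) (nat_lit 221475692770) (nat_lit 19) (nat_lit 5) (nat_lit 21) (nat_lit 5) (nat_lit 22) (nat_lit 5) (nat_lit 306) (nat_lit 281) (nat_lit 133)) (XT.lf (nat_lit 0) (nat_lit 173217896665) (nat_lit 228) (nat_lit 108073575643) (nat_lit 76) (nat_lit 63263750508) (nat_lit 19) (nat_lit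 5) (nat_lit 22) (nat_lit 5) (nat_lit 20) (nat_lit 5) (nat_lit 307) (nat_lit 281) (nat_lit 132)))) (XT.nd (nat_lit 156) (nat_lit 304) (nat_lit 0) (XT.nd (nat_lit 78) (nat_lit 0) (nat_lit 0) (XT.lf (nat_lit 0) (nat_lit 76786700325) (nat_lit 152) (nat_lit 173857767488) (nat_lit 228) (nat_lit 114931285343) (nat_lit 17) (nat_lit 5) (nat_lit 19) (nat_lit 5) (nat_lit 20) (nat_lit 5) (nat_lit 308) (nat_lit 281) (nat_lit 131)) (XT.lf (nat_lit 0) (nat_lit 280294779300) (nat_lit 152) (nat_lit 55852766209) (nat_lit 228) (nat_lit 52036261880) (nat_lit 17) (nat_lit 5) (nat_lit 19) (nat_lit 5) (nat_lit 20) (nat_lit 5) (nat_lit 309) (nat_lit 281) (nat_lit 130))) (XT.nd (nat_lit 78) (nat_lit 152) (nat_lit 0) (XT.lf (nat_lit 0) (nat_lit 17933495445) (nat_lit 152) (nat_lit 323543653348) (nat_lit 76) (nat_lit 70983366814) (nat_lit 15) (nat_lit 5) (nat_lit 17) (nat_lit 5) (nat_lit 16) (nat_lit 5) (nat_lit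 310) (nat_lit 281) (nat_lit 129)) (XT.nd (nat_lit 78) (nat_lit 152) (nat_lit 0) (XT.lf (nat_lit 0) (nat_lit 94553882703) (nat_lit 152) (nat_lit 135115773527) (nat_lit 76) (nat_lit 208823244671) (nat_lit 15) (nat_lit 5) (nat_lit 17) (nat_lit 5) (nat_lit 16) (nat_lit 5) (nat_lit 311) (nat_lit 281) (nat_lit 128)) (XT.lf (nat_lit 0) (nat_lit 70647237725) (nat_lit 152) (nat_lit 107759504831) (nat_lit 228) (nat_lit 288145992763) (nat_lit 13) (nat_lit 5) (nat_lit 15) (nat_lit 5) (nat_lit 16) (nat_lit 5) (nat_lit 312) (nat_lit 281) (nat_lit 127))))))) (XT.nd (nat_lit 35646) (nat_lit 0) (nat_lit 1824) (XT.nd (nat_lit 35256) (nat_lit 0) (nat_lit 3724) (XT.nd (nat_lit 35100) (nat_lit 0) (nat_lit 3648) (XT.nd (nat_lit 156) (nat_lit 76) (nat_lit 0) (XT.lf (nat_lit 0) (nat_lit 271733091799) (nat_lit 228) (nat_lit 199455475885) (nat_lit 76) (nat_lit 25530526131) (nat_lit 13) (nat_lit 5) (nat_lit 16)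 (nat_lit 5) (nat_lit 14) (nat_lit 4) (nat_lit 313) (nat_lit 281) (nat_lit 126)) (XT.lf (nat_lit 0) (nat_lit 245941419800) (nat_lit 76) (nat_lit 243058797668) (nat_lit 152) (nat_lit 75103644327) (nat_lit 12) (nat_lit 5) (nat_lit 13) (nat_lit 5) (nat_lit 14) (nat_lit 4) (nat_lit 315) (nat_lit 281) (nat_lit 124))) (XT.nd (nat_lit 78) (nat_lit 0) (nat_lit 0) (XT.lf (nat_lit 0) (nat_lit 4087447089) (nat_lit 0) (nat_lit 4087447089) (nat_lit 684) (nat_lit 44011154909) (nat_lit 60) (nat_lit 5) (nat_lit 60) (nat_lit 3) (nat_lit 69) (nat_lit 3) (nat_lit 282) (nat_lit 282) (nat_lit 156)) (XT.lf (nat_lit 0) (nat_lit 17993250827) (nat_lit 684) (nat_lit 29682057570) (nat_lit 760) (nat_lit 60822162973) (nat_lit 60) (nat_lit 5) (nat_lit 69) (nat_lit 3) (nat_lit 70) (nat_lit 5) (nat_lit 283) (nat_lit 282) (nat_lit 155)))) (XT.nd (nat_lit 156) (nat_lit 0) (nat_lit 76) (XT.nd (nat_lit 78) (nat_lit 0) (nat_lit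 0) (XT.lf (nat_lit 0) (nat_lit 20939191241) (nat_lit 684) (nat_lit 69863246276) (nat_lit 760) (nat_lit 22091890576) (nat_lit 61) (nat_lit 5) (nat_lit 70) (nat_lit 5) (nat_lit 71) (nat_lit 5) (nat_lit 284) (nat_lit 282) (nat_lit 154)) (XT.lf (nat_lit 76) (nat_lit 4329837276) (nat_lit 0) (nat_lit 21187201371) (nat_lit 760) (nat_lit 92056086565) (nat_lit 62) (nat_lit 5) (nat_lit 61) (nat_lit 5) (nat_lit 71) (nat_lit 5) (nat_lit 285) (nat_lit 282) (nat_lit 153))) (XT.nd (nat_lit 78) (nat_lit 0) (nat_lit 76) (XT.lf (nat_lit 0) (nat_lit 32540359195) (nat_lit 684) (nat_lit 36475739967) (nat_lit 760) (nat_lit 53506167861) (nat_lit 62) (nat_lit 5) (nat_lit 71) (nat_lit 5) (nat_lit 72) (nat_lit 5) (nat_lit 286) (nat_lit 282) (nat_lit 152)) (XT.nd (nat_lit 78) (nat_lit 0) (nat_lit 0) (XT.lf (nat_lit 0) (nat_lit 41324791274) (nat_lit 684) (nat_lit 80312933159) (nat_lit 760) (nat_lit 6169656403) (nat_lit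 63) (nat_lit 5) (nat_lit 72) (nat_lit 5) (nat_lit 73) (nat_lit 5) (nat_lit 287) (nat_lit 282) (nat_lit 151)) (XT.lf (nat_lit 76) (nat_lit 4986186209) (nat_lit 0) (nat_lit 47712550285) (nat_lit 760) (nat_lit 80722232065) (nat_lit 64) (nat_lit 5) (nat_lit 63) (nat_lit 5) (nat_lit 73) (nat_lit 5) (nat_lit 288) (nat_lit 282) (nat_lit 150)))))) (XT.nd (nat_lit 390) (nat_lit 836) (nat_lit 0) (XT.nd (nat_lit 156) (nat_lit 608) (nat_lit 0) (XT.nd (nat_lit 78) (nat_lit 684) (nat_lit 0) (XT.lf (nat_lit 0) (nat_lit 66905531486) (nat_lit 684) (nat_lit 39961544290) (nat_lit 76) (nat_lit 32520423351) (nat_lit 64) (nat_lit 5) (nat_lit 73) (nat_lit 5) (nat_lit 65) (nat_lit 5) (nat_lit 289) (nat_lit 282) (nat_lit 149)) (XT.lf (nat_lit 0) (nat_lit 56595981207) (nat_lit 684) (nat_lit 27340488352) (nat_lit 760) (nat_lit 61810504951) (nat_lit 55) (nat_lit 5) (nat_lit 64) (nat_lit 5) (nat_lit 65) (nat_lit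 5) (nat_lit 290) (nat_lit 282) (nat_lit 148))) (XT.nd (nat_lit 78) (nat_lit 304) (nat_lit 0) (XT.lf (nat_lit 0) (nat_lit 9089648414) (nat_lit 304) (nat_lit 95003257747) (nat_lit 380) (nat_lit 48434152758) (nat_lit 51) (nat_lit 5) (nat_lit 55) (nat_lit 5) (nat_lit 56) (nat_lit 5) (nat_lit 291) (nat_lit 282) (nat_lit 147)) (XT.nd (nat_lit 78) (nat_lit 304) (nat_lit 0) (XT.lf (nat_lit 0) (nat_lit 117896378471) (nat_lit 304) (nat_lit 9971528264) (nat_lit 380) (nat_lit 31881342905) (nat_lit 51) (nat_lit 5) (nat_lit 55) (nat_lit 5) (nat_lit 56) (nat_lit 5) (nat_lit 292) (nat_lit 282) (nat_lit 146)) (XT.lf (nat_lit 0) (nat_lit 68781303245) (nat_lit 304) (nat_lit 87115136821) (nat_lit 380) (nat_lit 11535200776) (nat_lit 47) (nat_lit 5) (nat_lit 51) (nat_lit 5) (nat_lit 52) (nat_lit 5) (nat_lit 293) (nat_lit 282) (nat_lit 145))))) (XT.nd (nat_lit 156) (nat_lit 532) (nat_lit 0) (XT.nd (nat_lit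 78) (nat_lit 0) (nat_lit 0) (XT.lf (nat_lit 0) (nat_lit 11280586295) (nat_lit 304) (nat_lit 161531048527) (nat_lit 76) (nat_lit 2850038595) (nat_lit 43) (nat_lit 5) (nat_lit 47) (nat_lit 5) (nat_lit 44) (nat_lit 5) (nat_lit 294) (nat_lit 282) (nat_lit 144)) (XT.lf (nat_lit 0) (nat_lit 38738017419) (nat_lit 304) (nat_lit 46699397212) (nat_lit 76) (nat_lit 98942214487) (nat_lit 43) (nat_lit 5) (nat_lit 47) (nat_lit 5) (nat_lit 44) (nat_lit 5) (nat_lit 295) (nat_lit 282) (nat_lit 143))) (XT.nd (nat_lit 78) (nat_lit 228) (nat_lit 0) (XT.lf (nat_lit 0) (nat_lit 69798556705) (nat_lit 380) (nat_lit 114017638435) (nat_lit 76) (nat_lit 9908501858) (nat_lit 39) (nat_lit 5) (nat_lit 44) (nat_lit 5) (nat_lit 40) (nat_lit 5) (nat_lit 296) (nat_lit 282) (nat_lit 142)) (XT.nd (nat_lit 78) (nat_lit 0) (nat_lit 0) (XT.lf (nat_lit 0) (nat_lit 13081253085) (nat_lit 228) (nat_lit 92734010124) (nat_lit 304)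 (nat_lit 97878542199) (nat_lit 36) (nat_lit 5) (nat_lit 39) (nat_lit 5) (nat_lit 40) (nat_lit 5) (nat_lit 297) (nat_lit 282) (nat_lit 141)) (XT.lf (nat_lit 0) (nat_lit 146819621295) (nat_lit 304) (nat_lit 60062496627) (nat_lit 76) (nat_lit 7473010022) (nat_lit 36) (nat_lit 5) (nat_lit 40) (nat_lit 5) (nat_lit 37) (nat_lit 5) (nat_lit 298) (nat_lit 282) (nat_lit 140))))))))
noncomputable def xc118 : XT := (XT.nd (nat_lit 36426) (nat_lit 0) (nat_lit 1292) (XT.nd (nat_lit 702) (nat_lit 532) (nat_lit 0) (XT.nd (nat_lit 312) (nat_lit 532) (nat_lit 0) (XT.nd (nat_lit 156) (nat_lit 456) (nat_lit 0) (XT.nd (nat_lit 78) (nat_lit 76) (nat_lit 0) (XT.lf (nat_lit 0) (nat_lit 81991762572) (nat_lit 228) (nat_lit 111956043942) (nat_lit 304) (nat_lit 31779376963) (nat_lit 33) (nat_lit 5) (nat_lit 36) (nat_lit 5) (nat_lit 37) (nat_lit 5) (nat_lit 299) (nat_lit 282) (nat_lit 139)) (XT.lf (nat_lit 0) (nat_lit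 7681513957) (nat_lit 304) (nat_lit 525794891) (nat_lit 76) (nat_lit 229743202895) (nat_lit 32) (nat_lit 5) (nat_lit 36) (nat_lit 5) (nat_lit 33) (nat_lit 5) (nat_lit 300) (nat_lit 282) (nat_lit 138))) (XT.nd (nat_lit 78) (nat_lit 228) (nat_lit 0) (XT.lf (nat_lit 0) (nat_lit 53348634501) (nat_lit 304) (nat_lit 93988458386) (nat_lit 76) (nat_lit 103580427980) (nat_lit 29) (nat_lit 5) (nat_lit 33) (nat_lit 5) (nat_lit 30) (nat_lit 5) (nat_lit 301) (nat_lit 282) (nat_lit 137)) (XT.lf (nat_lit 0) (nat_lit 63986738519) (nat_lit 228) (nat_lit 39828837450) (nat_lit 304) (nat_lit 161048993032) (nat_lit 26) (nat_lit 5) (nat_lit 29) (nat_lit 5) (nat_lit 30) (nat_lit 5) (nat_lit 302) (nat_lit 282) (nat_lit 136)))) (XT.nd (nat_lit 156) (nat_lit 380) (nat_lit 0) (XT.nd (nat_lit 78) (nat_lit 152) (nat_lit 0) (XT.lf (nat_lit 0) (nat_lit 161174628839) (nat_lit 304) (nat_lit 43107401421) (nat_lit 76) (nat_lit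 75502613702) (nat_lit 26) (nat_lit 5) (nat_lit 30) (nat_lit 5) (nat_lit 27) (nat_lit 5) (nat_lit 303) (nat_lit 282) (nat_lit 135)) (XT.lf (nat_lit 0) (nat_lit 130799145432) (nat_lit 152) (nat_lit 95036759366) (nat_lit 228) (nat_lit 69926745905) (nat_lit 24) (nat_lit 5) (nat_lit 26) (nat_lit 5) (nat_lit 27) (nat_lit 5) (nat_lit 304) (nat_lit 282) (nat_lit 134))) (XT.nd (nat_lit 78) (nat_lit 228) (nat_lit 0) (XT.lf (nat_lit 0) (nat_lit 7030318784) (nat_lit 152) (nat_lit 289870806236) (nat_lit 228) (nat_lit 16056221525) (nat_lit 22) (nat_lit 5) (nat_lit 24) (nat_lit 5) (nat_lit 25) (nat_lit 5) (nat_lit 305) (nat_lit 282) (nat_lit 133)) (XT.nd (nat_lit 78) (nat_lit 152) (nat_lit 0) (XT.lf (nat_lit 0) (nat_lit 45298663213) (nat_lit 228) (nat_lit 135017080771) (nat_lit 76) (nat_lit 150952843633) (nat_lit 21) (nat_lit 5) (nat_lit 24) (nat_lit 5) (nat_lit 22) (nat_lit 5) (nat_lit 306) (nat_lit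 282) (nat_lit 132)) (XT.lf (nat_lit 0) (nat_lit 50924541794) (nat_lit 152) (nat_lit 60877265072) (nat_lit 228) (nat_lit 239189640822) (nat_lit 19) (nat_lit 5) (nat_lit 21) (nat_lit 5) (nat_lit 22) (nat_lit 5) (nat_lit 307) (nat_lit 282) (nat_lit 131)))))) (XT.nd (nat_lit 312) (nat_lit 228) (nat_lit 0) (XT.nd (nat_lit 156) (nat_lit 152) (nat_lit 0) (XT.nd (nat_lit 78) (nat_lit 152) (nat_lit 0) (XT.lf (nat_lit 0) (nat_lit 187078968022) (nat_lit 228) (nat_lit 116713954866) (nat_lit 76) (nat_lit 68326525885) (nat_lit 19) (nat_lit 5) (nat_lit 22) (nat_lit 5) (nat_lit 20) (nat_lit 5) (nat_lit 308) (nat_lit 282) (nat_lit 130)) (XT.lf (nat_lit 0) (nat_lit 82934903859) (nat_lit 152) (nat_lit 187764573641) (nat_lit 228) (nat_lit 124122154140) (nat_lit 17) (nat_lit 5) (nat_lit 19) (nat_lit 5) (nat_lit 20) (nat_lit 5) (nat_lit 309) (nat_lit 282) (nat_lit 129))) (XT.nd (nat_lit 78) (nat_lit 152) (nat_lit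 0) (XT.lf (nat_lit 0) (nat_lit 302723238966) (nat_lit 152) (nat_lit 60319306722) (nat_lit 228) (nat_lit 56195797987) (nat_lit 17) (nat_lit 5) (nat_lit 19) (nat_lit 5) (nat_lit 20) (nat_lit 5) (nat_lit 310) (nat_lit 282) (nat_lit 128)) (XT.lf (nat_lit 0) (nat_lit 19371291843) (nat_lit 152) (nat_lit 349422233838) (nat_lit 76) (nat_lit 76663667861) (nat_lit 15) (nat_lit 5) (nat_lit 17) (nat_lit 5) (nat_lit 16) (nat_lit 5) (nat_lit 311) (nat_lit 282) (nat_lit 127)))) (XT.nd (nat_lit 234) (nat_lit 76) (nat_lit 0) (XT.nd (nat_lit 78) (nat_lit 152) (nat_lit 0) (XT.lf (nat_lit 0) (nat_lit 102121079211) (nat_lit 152) (nat_lit 145920487466) (nat_lit 76) (nat_lit 225530615079) (nat_lit 15) (nat_lit 5) (nat_lit 17) (nat_lit 5) (nat_lit 16) (nat_lit 5) (nat_lit 312) (nat_lit 282) (nat_lit 126)) (XT.lf (nat_lit 0) (nat_lit 76303367038) (nat_lit 152) (nat_lit 116378654964) (nat_lit 228) (nat_lit 311194788731)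 (nat_lit 13) (nat_lit 5) (nat_lit 15) (nat_lit 5) (nat_lit 16) (nat_lit 5) (nat_lit 313) (nat_lit 282) (nat_lit 125))) (XT.nd (nat_lit 35022) (nat_lit 0) (nat_lit 3648) (XT.lf (nat_lit 0) (nat_lit 12157713982) (nat_lit 76) (nat_lit 392324296394) (nat_lit 152) (nat_lit 167052925483) (nat_lit 12) (nat_lit 5) (nat_lit 13) (nat_lit 5) (nat_lit 14) (nat_lit 4) (nat_lit 315) (nat_lit 282) (nat_lit 123)) (XT.nd (nat_lit 78) (nat_lit 0) (nat_lit 0) (XT.lf (nat_lit 0) (nat_lit 4418575178) (nat_lit 0) (nat_lit 4418575178) (nat_lit 684) (nat_lit 47523333135) (nat_lit 60) (nat_lit 5) (nat_lit 60) (nat_lit 3) (nat_lit 69) (nat_lit 3) (nat_lit 283) (nat_lit 283) (nat_lit 154)) (XT.lf (nat_lit 0) (nat_lit 19447896312) (nat_lit 684) (nat_lit 32048017802) (nat_lit 760) (nat_lit 65680528489) (nat_lit 60) (nat_lit 5) (nat_lit 69) (nat_lit 3) (nat_lit 70) (nat_lit 5) (nat_lit 284) (nat_lit 283) (nat_lit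 153))))))) (XT.nd (nat_lit 702) (nat_lit 1672) (nat_lit 0) (XT.nd (nat_lit 312) (nat_lit 760) (nat_lit 0) (XT.nd (nat_lit 156) (nat_lit 0) (nat_lit 76) (XT.nd (nat_lit 78) (nat_lit 0) (nat_lit 0) (XT.lf (nat_lit 0) (nat_lit 22628422583) (nat_lit 684) (nat_lit 75443210828) (nat_lit 760) (nat_lit 23853473901) (nat_lit 61) (nat_lit 5) (nat_lit 70) (nat_lit 5) (nat_lit 71) (nat_lit 5) (nat_lit 285) (nat_lit 283) (nat_lit 152)) (XT.lf (nat_lit 76) (nat_lit 4684924144) (nat_lit 0) (nat_lit 22886665316) (nat_lit 760) (nat_lit 99406668765) (nat_lit 62) (nat_lit 5) (nat_lit 61) (nat_lit 5) (nat_lit 71) (nat_lit 5) (nat_lit 286) (nat_lit 283) (nat_lit 151))) (XT.nd (nat_lit 78) (nat_lit 0) (nat_lit 76) (XT.lf (nat_lit 0) (nat_lit 35155733905) (nat_lit 684) (nat_lit 39385014944) (nat_lit 760) (nat_lit 57782638886) (nat_lit 62) (nat_lit 5) (nat_lit 71) (nat_lit 5) (nat_lit 72) (nat_lit 5) (nat_lit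 287) (nat_lit 283) (nat_lit 150)) (XT.lf (nat_lit 0) (nat_lit 44642105587) (nat_lit 684) (nat_lit 86728900624) (nat_lit 760) (nat_lit 6660349142) (nat_lit 63) (nat_lit 5) (nat_lit 72) (nat_lit 5) (nat_lit 73) (nat_lit 5) (nat_lit 288) (nat_lit 283) (nat_lit 149)))) (XT.nd (nat_lit 156) (nat_lit 912) (nat_lit 0) (XT.nd (nat_lit 78) (nat_lit 0) (nat_lit 76) (XT.lf (nat_lit 76) (nat_lit 5393754244) (nat_lit 0) (nat_lit 51531508259) (nat_lit 760) (nat_lit 87168806448) (nat_lit 64) (nat_lit 5) (nat_lit 63) (nat_lit 5) (nat_lit 73) (nat_lit 5) (nat_lit 289) (nat_lit 283) (nat_lit 148)) (XT.lf (nat_lit 0) (nat_lit 72267785655) (nat_lit 684) (nat_lit 43149874558) (nat_lit 76) (nat_lit 35120305911) (nat_lit 64) (nat_lit 5) (nat_lit 73) (nat_lit 5) (nat_lit 65) (nat_lit 5) (nat_lit 290) (nat_lit 283) (nat_lit 147))) (XT.nd (nat_lit 78) (nat_lit 304) (nat_lit 0) (XT.lf (nat_lit 0) (nat_lit 61131879526)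 (nat_lit 684) (nat_lit 29528720794) (nat_lit 760) (nat_lit 66745632277) (nat_lit 55) (nat_lit 5) (nat_lit 64) (nat_lit 5) (nat_lit 65) (nat_lit 5) (nat_lit 291) (nat_lit 283) (nat_lit 146)) (XT.nd (nat_lit 78) (nat_lit 0) (nat_lit 0) (XT.lf (nat_lit 0) (nat_lit 9825175871) (nat_lit 304) (nat_lit 102603809614) (nat_lit 380) (nat_lit 52299769498) (nat_lit 51) (nat_lit 5) (nat_lit 55) (nat_lit 5) (nat_lit 56) (nat_lit 5) (nat_lit 292) (nat_lit 283) (nat_lit 145)) (XT.lf (nat_lit 0) (nat_lit 127335825400) (nat_lit 304) (nat_lit 10769520198) (nat_lit 380) (nat_lit 34423410077) (nat_lit 51) (nat_lit 5) (nat_lit 55) (nat_lit 5) (nat_lit 56) (nat_lit 5) (nat_lit 293) (nat_lit 283) (nat_lit 144)))))) (XT.nd (nat_lit 312) (nat_lit 760) (nat_lit 0) (XT.nd (nat_lit 156) (nat_lit 304) (nat_lit 0) (XT.nd (nat_lit 78) (nat_lit 304) (nat_lit 0) (XT.lf (nat_lit 0) (nat_lit 74291627036) (nat_lit 304) (nat_lit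 94084059686) (nat_lit 380) (nat_lit 12450077687) (nat_lit 47) (nat_lit 5) (nat_lit 51) (nat_lit 5) (nat_lit 52) (nat_lit 5) (nat_lit 294) (nat_lit 283) (nat_lit 143)) (XT.lf (nat_lit 0) (nat_lit 12190278031) (nat_lit 304) (nat_lit 174445400027) (nat_lit 76) (nat_lit 3078539540) (nat_lit 43) (nat_lit 5) (nat_lit 47) (nat_lit 5) (nat_lit 44) (nat_lit 5) (nat_lit 295) (nat_lit 283) (nat_lit 142))) (XT.nd (nat_lit 78) (nat_lit 304) (nat_lit 0) (XT.lf (nat_lit 0) (nat_lit 41843766991) (nat_lit 304) (nat_lit 50427819006) (nat_lit 76) (nat_lit 106858052625) (nat_lit 43) (nat_lit 5) (nat_lit 47) (nat_lit 5) (nat_lit 44) (nat_lit 5) (nat_lit 296) (nat_lit 283) (nat_lit 141)) (XT.lf (nat_lit 0) (nat_lit 75388778697) (nat_lit 380) (nat_lit 123131520773) (nat_lit 76) (nat_lit 10702032882) (nat_lit 39) (nat_lit 5) (nat_lit 44) (nat_lit 5) (nat_lit 40) (nat_lit 5) (nat_lit 297) (nat_lit 283) (nat_lit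 140)))) (XT.nd (nat_lit 156) (nat_lit 532) (nat_lit 0) (XT.nd (nat_lit 78) (nat_lit 0) (nat_lit 0) (XT.lf (nat_lit 0) (nat_lit 14134954879) (nat_lit 228) (nat_lit 100151509838) (nat_lit 304) (nat_lit 105702524311) (nat_lit 36) (nat_lit 5) (nat_lit 39) (nat_lit 5) (nat_lit 40) (nat_lit 5) (nat_lit 298) (nat_lit 283) (nat_lit 139)) (XT.lf (nat_lit 0) (nat_lit 158570746105) (nat_lit 304) (nat_lit 64860548861) (nat_lit 76) (nat_lit 8071945282) (nat_lit 36) (nat_lit 5) (nat_lit 40) (nat_lit 5) (nat_lit 37) (nat_lit 5) (nat_lit 299) (nat_lit 283) (nat_lit 138))) (XT.nd (nat_lit 78) (nat_lit 304) (nat_lit 0) (XT.lf (nat_lit 0) (nat_lit 88557749145) (nat_lit 228) (nat_lit 120911129264) (nat_lit 304) (nat_lit 34316198695) (nat_lit 33) (nat_lit 5) (nat_lit 36) (nat_lit 5) (nat_lit 37) (nat_lit 5) (nat_lit 300) (nat_lit 283) (nat_lit 137)) (XT.nd (nat_lit 78) (nat_lit 228) (nat_lit 0) (XT.lf (nat_lit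 0) (nat_lit 8300990147) (nat_lit 304) (nat_lit 561524868) (nat_lit 76) (nat_lit 248123773438) (nat_lit 32) (nat_lit 5) (nat_lit 36) (nat_lit 5) (nat_lit 33) (nat_lit 5) (nat_lit 301) (nat_lit 283) (nat_lit 136)) (XT.lf (nat_lit 0) (nat_lit 57621229360) (nat_lit 304) (nat_lit 101501248787) (nat_lit 76) (nat_lit 111868193929) (nat_lit 29) (nat_lit 5) (nat_lit 33) (nat_lit 5) (nat_lit 30) (nat_lit 5) (nat_lit 302) (nat_lit 283) (nat_lit 135))))))))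
noncomputable def xc119 : XT := (XT.nd (nat_lit 36582) (nat_lit 0) (nat_lit 304) (XT.nd (nat_lit 702) (nat_lit 152) (nat_lit 0) (XT.nd (nat_lit 312) (nat_lit 380) (nat_lit 0) (XT.nd (nat_lit 156) (nat_lit 304) (nat_lit 0) (XT.nd (nat_lit 78) (nat_lit 0) (nat_lit 0) (XT.lf (nat_lit 0) (nat_lit 69111690676) (nat_lit 228) (nat_lit 43013580898) (nat_lit 304) (nat_lit 173928226346) (nat_lit 26) (nat_lit 5) (nat_lit 29) (nat_lit 5) (nat_lit 30) (nat_lit 5) (nat_lit 303) (nat_lit 283) (nat_lit 134)) (XT.lf (nat_lit 0) (nat_lit 174072741683) (nat_lit 304) (nat_lit 46550229400) (nat_lit 76) (nat_lit 81544224192) (nat_lit 26) (nat_lit 5) (nat_lit 30) (nat_lit 5) (nat_lit 27) (nat_lit 5) (nat_lit 304) (nat_lit 283) (nat_lit 133))) (XT.nd (nat_lit 78) (nat_lit 152) (nat_lit 0) (XT.lf (nat_lit 0) (nat_lit 141268590699) (nat_lit 152) (nat_lit 102638108249) (nat_lit 228) (nat_lit 75516755614) (nat_lit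 24) (nat_lit 5) (nat_lit 26) (nat_lit 5) (nat_lit 27) (nat_lit 5) (nat_lit 305) (nat_lit 283) (nat_lit 132)) (XT.lf (nat_lit 0) (nat_lit 7598193680) (nat_lit 152) (nat_lit 313058760699) (nat_lit 228) (nat_lit 17336781709) (nat_lit 22) (nat_lit 5) (nat_lit 24) (nat_lit 5) (nat_lit 25) (nat_lit 5) (nat_lit 306) (nat_lit 283) (nat_lit 131)))) (XT.nd (nat_lit 156) (nat_lit 152) (nat_lit 0) (XT.nd (nat_lit 78) (nat_lit 152) (nat_lit 0) (XT.lf (nat_lit 0) (nat_lit 48926085447) (nat_lit 228) (nat_lit 145813274921) (nat_lit 76) (nat_lit 163030527912) (nat_lit 21) (nat_lit 5) (nat_lit 24) (nat_lit 5) (nat_lit 22) (nat_lit 5) (nat_lit 307) (nat_lit 283) (nat_lit 130)) (XT.lf (nat_lit 0) (nat_lit 55003452668) (nat_lit 152) (nat_lit 65745843749) (nat_lit 228) (nat_lit 258321290681) (nat_lit 19) (nat_lit 5) (nat_lit 21) (nat_lit 5) (nat_lit 22) (nat_lit 5) (nat_lit 308) (nat_lit 283) (nat_lit 129)))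 (XT.nd (nat_lit 78) (nat_lit 152) (nat_lit 0) (XT.lf (nat_lit 0) (nat_lit 202048405854) (nat_lit 228) (nat_lit 126046350037) (nat_lit 76) (nat_lit 73794084287) (nat_lit 19) (nat_lit 5) (nat_lit 22) (nat_lit 5) (nat_lit 20) (nat_lit 5) (nat_lit 309) (nat_lit 283) (nat_lit 128)) (XT.nd (nat_lit 78) (nat_lit 0) (nat_lit 0) (XT.lf (nat_lit 0) (nat_lit 89574212208) (nat_lit 152) (nat_lit 202784183251) (nat_lit 228) (nat_lit 134048810876) (nat_lit 17) (nat_lit 5) (nat_lit 19) (nat_lit 5) (nat_lit 20) (nat_lit 5) (nat_lit 310) (nat_lit 283) (nat_lit 127)) (XT.lf (nat_lit 0) (nat_lit 326945279602) (nat_lit 152) (nat_lit 65143410258) (nat_lit 228) (nat_lit 60688577016) (nat_lit 17) (nat_lit 5) (nat_lit 19) (nat_lit 5) (nat_lit 20) (nat_lit 5) (nat_lit 311) (nat_lit 283) (nat_lit 126)))))) (XT.nd (nat_lit 35490) (nat_lit 0) (nat_lit 3496) (XT.nd (nat_lit 35334) (nat_lit 0) (nat_lit 3420) (XT.nd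 (nat_lit 78) (nat_lit 0) (nat_lit 0) (XT.lf (nat_lit 0) (nat_lit 20923667312) (nat_lit 152) (nat_lit 377371801487) (nat_lit 76) (nat_lit 82798160212) (nat_lit 15) (nat_lit 5) (nat_lit 17) (nat_lit 5) (nat_lit 16) (nat_lit 5) (nat_lit 312) (nat_lit 283) (nat_lit 125)) (XT.lf (nat_lit 0) (nat_lit 110293239734) (nat_lit 152) (nat_lit 157590227336) (nat_lit 76) (nat_lit 243574359583) (nat_lit 15) (nat_lit 5) (nat_lit 17) (nat_lit 5) (nat_lit 16) (nat_lit 5) (nat_lit 313) (nat_lit 283) (nat_lit 124))) (XT.nd (nat_lit 78) (nat_lit 0) (nat_lit 0) (XT.lf (nat_lit 0) (nat_lit 4775603992) (nat_lit 0) (nat_lit 4775603992) (nat_lit 684) (nat_lit 51317728792) (nat_lit 60) (nat_lit 5) (nat_lit 60) (nat_lit 3) (nat_lit 69) (nat_lit 3) (nat_lit 284) (nat_lit 284) (nat_lit 152)) (XT.lf (nat_lit 0) (nat_lit 21016747067) (nat_lit 684) (nat_lit 34604482362) (nat_lit 760) (nat_lit 70928620013) (nat_lit 60)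 (nat_lit 5) (nat_lit 69) (nat_lit 3) (nat_lit 70) (nat_lit 5) (nat_lit 285) (nat_lit 284) (nat_lit 151)))) (XT.nd (nat_lit 156) (nat_lit 0) (nat_lit 76) (XT.nd (nat_lit 78) (nat_lit 0) (nat_lit 0) (XT.lf (nat_lit 0) (nat_lit 24450781474) (nat_lit 684) (nat_lit 81470870069) (nat_lit 760) (nat_lit 25756806750) (nat_lit 61) (nat_lit 5) (nat_lit 70) (nat_lit 5) (nat_lit 71) (nat_lit 5) (nat_lit 286) (nat_lit 284) (nat_lit 150)) (XT.lf (nat_lit 76) (nat_lit 5067176825) (nat_lit 0) (nat_lit 24721446137) (nat_lit 760) (nat_lit 107347281206) (nat_lit 62) (nat_lit 5) (nat_lit 61) (nat_lit 5) (nat_lit 71) (nat_lit 5) (nat_lit 287) (nat_lit 284) (nat_lit 149))) (XT.nd (nat_lit 78) (nat_lit 0) (nat_lit 76) (XT.lf (nat_lit 0) (nat_lit 37978605834) (nat_lit 684) (nat_lit 42528285087) (nat_lit 760) (nat_lit 62401801433) (nat_lit 62) (nat_lit 5) (nat_lit 71) (nat_lit 5) (nat_lit 72) (nat_lit 5) (nat_lit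 288) (nat_lit 284) (nat_lit 148)) (XT.nd (nat_lit 78) (nat_lit 0) (nat_lit 0) (XT.lf (nat_lit 0) (nat_lit 48223188550) (nat_lit 684) (nat_lit 93659439023) (nat_lit 760) (nat_lit 7190708133) (nat_lit 63) (nat_lit 5) (nat_lit 72) (nat_lit 5) (nat_lit 73) (nat_lit 5) (nat_lit 289) (nat_lit 284) (nat_lit 147)) (XT.lf (nat_lit 76) (nat_lit 5832690402) (nat_lit 0) (nat_lit 55655704118) (nat_lit 760) (nat_lit 94132705183) (nat_lit 64) (nat_lit 5) (nat_lit 63) (nat_lit 5) (nat_lit 73) (nat_lit 5) (nat_lit 290) (nat_lit 284) (nat_lit 146))))))) (XT.nd (nat_lit 702) (nat_lit 1292) (nat_lit 0) (XT.nd (nat_lit 312) (nat_lit 1140) (nat_lit 0) (XT.nd (nat_lit 156) (nat_lit 304) (nat_lit 0) (XT.nd (nat_lit 78) (nat_lit 684) (nat_lit 0) (XT.lf (nat_lit 0) (nat_lit 78057620416) (nat_lit 684) (nat_lit 46594497173) (nat_lit 76) (nat_lit 37928428920) (nat_lit 64) (nat_lit 5) (nat_lit 73) (nat_lit 5) (nat_lit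 65) (nat_lit 5) (nat_lit 291) (nat_lit 284) (nat_lit 145)) (XT.lf (nat_lit 0) (nat_lit 66029477061) (nat_lit 684) (nat_lit 31891870115) (nat_lit 760) (nat_lit 72076955468) (nat_lit 55) (nat_lit 5) (nat_lit 64) (nat_lit 5) (nat_lit 65) (nat_lit 5) (nat_lit 292) (nat_lit 284) (nat_lit 144))) (XT.nd (nat_lit 78) (nat_lit 0) (nat_lit 0) (XT.lf (nat_lit 0) (nat_lit 10618353507) (nat_lit 304) (nat_lit 110812364080) (nat_lit 380) (nat_lit 56475936002) (nat_lit 51) (nat_lit 5) (nat_lit 55) (nat_lit 5) (nat_lit 56) (nat_lit 5) (nat_lit 293) (nat_lit 284) (nat_lit 143)) (XT.lf (nat_lit 0) (nat_lit 137529324364) (nat_lit 304) (nat_lit 11631313015) (nat_lit 380) (nat_lit 37170046720) (nat_lit 51) (nat_lit 5) (nat_lit 55) (nat_lit 5) (nat_lit 56) (nat_lit 5) (nat_lit 294) (nat_lit 284) (nat_lit 142)))) (XT.nd (nat_lit 156) (nat_lit 532) (nat_lit 0) (XT.nd (nat_lit 78) (nat_lit 304) (nat_lit 0) (XT.lf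 (nat_lit 0) (nat_lit 80241661186) (nat_lit 304) (nat_lit 101610537478) (nat_lit 380) (nat_lit 13439277359) (nat_lit 47) (nat_lit 5) (nat_lit 51) (nat_lit 5) (nat_lit 52) (nat_lit 5) (nat_lit 295) (nat_lit 284) (nat_lit 141)) (XT.lf (nat_lit 0) (nat_lit 13171711550) (nat_lit 304) (nat_lit 188394059822) (nat_lit 76) (nat_lit 3325249536) (nat_lit 43) (nat_lit 5) (nat_lit 47) (nat_lit 5) (nat_lit 44) (nat_lit 5) (nat_lit 296) (nat_lit 284) (nat_lit 140))) (XT.nd (nat_lit 78) (nat_lit 532) (nat_lit 0) (XT.lf (nat_lit 0) (nat_lit 45197019532) (nat_lit 304) (nat_lit 54455588779) (nat_lit 76) (nat_lit 115407092050) (nat_lit 43) (nat_lit 5) (nat_lit 47) (nat_lit 5) (nat_lit 44) (nat_lit 5) (nat_lit 297) (nat_lit 284) (nat_lit 139)) (XT.nd (nat_lit 78) (nat_lit 228) (nat_lit 0) (XT.lf (nat_lit 0) (nat_lit 81425314339) (nat_lit 380) (nat_lit 132975587756) (nat_lit 76) (nat_lit 11558925000) (nat_lit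 39) (nat_lit 5) (nat_lit 44) (nat_lit 5) (nat_lit 40) (nat_lit 5) (nat_lit 298) (nat_lit 284) (nat_lit 138)) (XT.lf (nat_lit 0) (nat_lit 15271925436) (nat_lit 228) (nat_lit 108162583731) (nat_lit 304) (nat_lit 114153323937) (nat_lit 36) (nat_lit 5) (nat_lit 39) (nat_lit 5) (nat_lit 40) (nat_lit 5) (nat_lit 299) (nat_lit 284) (nat_lit 137)))))) (XT.nd (nat_lit 390) (nat_lit 532) (nat_lit 0) (XT.nd (nat_lit 156) (nat_lit 532) (nat_lit 0) (XT.nd (nat_lit 78) (nat_lit 228) (nat_lit 0) (XT.lf (nat_lit 0) (nat_lit 171261168403) (nat_lit 304) (nat_lit 70043436412) (nat_lit 76) (nat_lit 8718639225) (nat_lit 36) (nat_lit 5) (nat_lit 40) (nat_lit 5) (nat_lit 37) (nat_lit 5) (nat_lit 300) (nat_lit 284) (nat_lit 136)) (XT.lf (nat_lit 0) (nat_lit 95648066579) (nat_lit 228) (nat_lit 130582820879) (nat_lit 304) (nat_lit 37056754858) (nat_lit 33) (nat_lit 5) (nat_lit 36) (nat_lit 5) (nat_lit 37) (nat_lit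 5) (nat_lit 301) (nat_lit 284) (nat_lit 135))) (XT.nd (nat_lit 78) (nat_lit 456) (nat_lit 0) (XT.lf (nat_lit 0) (nat_lit 8969317537) (nat_lit 304) (nat_lit 601016804) (nat_lit 76) (nat_lit 267974630656) (nat_lit 32) (nat_lit 5) (nat_lit 36) (nat_lit 5) (nat_lit 33) (nat_lit 5) (nat_lit 302) (nat_lit 284) (nat_lit 134)) (XT.nd (nat_lit 78) (nat_lit 228) (nat_lit 0) (XT.lf (nat_lit 0) (nat_lit 62234960716) (nat_lit 304) (nat_lit 109615959227) (nat_lit 76) (nat_lit 120818791172) (nat_lit 29) (nat_lit 5) (nat_lit 33) (nat_lit 5) (nat_lit 30) (nat_lit 5) (nat_lit 303) (nat_lit 284) (nat_lit 133)) (XT.lf (nat_lit 0) (nat_lit 74645781174) (nat_lit 228) (nat_lit 46453326879) (nat_lit 304) (nat_lit 187838466853) (nat_lit 26) (nat_lit 5) (nat_lit 29) (nat_lit 5) (nat_lit 30) (nat_lit 5) (nat_lit 304) (nat_lit 284) (nat_lit 132))))) (XT.nd (nat_lit 156) (nat_lit 380) (nat_lit 0) (XT.nd (nat_lit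 78) (nat_lit 152) (nat_lit 0) (XT.lf (nat_lit 0) (nat_lit 188002112575) (nat_lit 304) (nat_lit 50269305936) (nat_lit 76) (nat_lit 88068963596) (nat_lit 26) (nat_lit 5) (nat_lit 30) (nat_lit 5) (nat_lit 27) (nat_lit 5) (nat_lit 305) (nat_lit 284) (nat_lit 131)) (XT.lf (nat_lit 0) (nat_lit 152574805007) (nat_lit 152) (nat_lit 110847792139) (nat_lit 228) (nat_lit 81554555286) (nat_lit 24) (nat_lit 5) (nat_lit 26) (nat_lit 5) (nat_lit 27) (nat_lit 5) (nat_lit 306) (nat_lit 284) (nat_lit 130))) (XT.nd (nat_lit 78) (nat_lit 228) (nat_lit 0) (XT.lf (nat_lit 0) (nat_lit 8210721150) (nat_lit 152) (nat_lit 338101995474) (nat_lit 228) (nat_lit 18720348443) (nat_lit 22) (nat_lit 5) (nat_lit 24) (nat_lit 5) (nat_lit 25) (nat_lit 5) (nat_lit 307) (nat_lit 284) (nat_lit 129)) (XT.nd (nat_lit 78) (nat_lit 152) (nat_lit 0) (XT.lf (nat_lit 0) (nat_lit 52843197983) (nat_lit 228) (nat_lit 157473902490) (nat_lit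 76) (nat_lit 176074219107) (nat_lit 21) (nat_lit 5) (nat_lit 24) (nat_lit 5) (nat_lit 22) (nat_lit 5) (nat_lit 308) (nat_lit 284) (nat_lit 128)) (XT.lf (nat_lit 0) (nat_lit 59407970591) (nat_lit 152) (nat_lit 71004137339) (nat_lit 228) (nat_lit 278983974897) (nat_lit 19) (nat_lit 5) (nat_lit 21) (nat_lit 5) (nat_lit 22) (nat_lit 5) (nat_lit 309) (nat_lit 284) (nat_lit 127))))))))
noncomputable def xc120 : XT := (XT.nd (nat_lit 36738) (nat_lit 0) (nat_lit 0) (XT.nd (nat_lit 36036) (nat_lit 0) (nat_lit 1672) (XT.nd (nat_lit 35646) (nat_lit 0) (nat_lit 3268) (XT.nd (nat_lit 156) (nat_lit 0) (nat_lit 0) (XT.nd (nat_lit 78) (nat_lit 152) (nat_lit 0) (XT.lf (nat_lit 0) (nat_lit 218214953554) (nat_lit 228) (nat_lit 136126010357) (nat_lit 76) (nat_lit 79698842452) (nat_lit 19) (nat_lit 5) (nat_lit 22) (nat_lit 5) (nat_lit 20) (nat_lit 5) (nat_lit 310) (nat_lit 284) (nat_lit 126)) (XT.lf (nat_lit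 0) (nat_lit 96744020960) (nat_lit 152) (nat_lit 219005583651) (nat_lit 228) (nat_lit 144770044625) (nat_lit 17) (nat_lit 5) (nat_lit 19) (nat_lit 5) (nat_lit 20) (nat_lit 5) (nat_lit 311) (nat_lit 284) (nat_lit 125))) (XT.nd (nat_lit 35412) (nat_lit 0) (nat_lit 3268) (XT.lf (nat_lit 0) (nat_lit 353104486948) (nat_lit 152) (nat_lit 70353647653) (nat_lit 228) (nat_lit 65541189917) (nat_lit 17) (nat_lit 5) (nat_lit 19) (nat_lit 5) (nat_lit 20) (nat_lit 5) (nat_lit 312) (nat_lit 284) (nat_lit 124)) (XT.lf (nat_lit 0) (nat_lit 5160689691) (nat_lit 0) (nat_lit 5160689691) (nat_lit 684) (nat_lit 55416741923) (nat_lit 60) (nat_lit 5) (nat_lit 60) (nat_lit 3) (nat_lit 69) (nat_lit 3) (nat_lit 285) (nat_lit 285) (nat_lit 150)))) (XT.nd (nat_lit 156) (nat_lit 0) (nat_lit 76) (XT.nd (nat_lit 78) (nat_lit 0) (nat_lit 76) (XT.lf (nat_lit 0) (nat_lit 22709248569) (nat_lit 684) (nat_lit 37366516479)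 (nat_lit 760) (nat_lit 76597464864) (nat_lit 60) (nat_lit 5) (nat_lit 69) (nat_lit 3) (nat_lit 70) (nat_lit 5) (nat_lit 286) (nat_lit 285) (nat_lit 149)) (XT.lf (nat_lit 0) (nat_lit 26417205004) (nat_lit 684) (nat_lit 87981854468) (nat_lit 760) (nat_lit 27813111695) (nat_lit 61) (nat_lit 5) (nat_lit 70) (nat_lit 5) (nat_lit 71) (nat_lit 5) (nat_lit 287) (nat_lit 285) (nat_lit 148))) (XT.nd (nat_lit 78) (nat_lit 0) (nat_lit 76) (XT.lf (nat_lit 76) (nat_lit 5478945647) (nat_lit 0) (nat_lit 26702460520) (nat_lit 760) (nat_lit 115924843315) (nat_lit 62) (nat_lit 5) (nat_lit 61) (nat_lit 5) (nat_lit 71) (nat_lit 5) (nat_lit 288) (nat_lit 285) (nat_lit 147)) (XT.nd (nat_lit 78) (nat_lit 0) (nat_lit 76) (XT.lf (nat_lit 0) (nat_lit 41025821955) (nat_lit 684) (nat_lit 45924091230) (nat_lit 760) (nat_lit 67390988961) (nat_lit 62) (nat_lit 5) (nat_lit 71) (nat_lit 5) (nat_lit 72) (nat_lit 5) (nat_lit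 289) (nat_lit 285) (nat_lit 146)) (XT.lf (nat_lit 0) (nat_lit 52089372266) (nat_lit 684) (nat_lit 101145529492) (nat_lit 760) (nat_lit 7763848064) (nat_lit 63) (nat_lit 5) (nat_lit 72) (nat_lit 5) (nat_lit 73) (nat_lit 5) (nat_lit 290) (nat_lit 285) (nat_lit 145)))))) (XT.nd (nat_lit 312) (nat_lit 912) (nat_lit 0) (XT.nd (nat_lit 156) (nat_lit 912) (nat_lit 0) (XT.nd (nat_lit 78) (nat_lit 0) (nat_lit 76) (XT.lf (nat_lit 76) (nat_lit 6305680650) (nat_lit 0) (nat_lit 60109596660) (nat_lit 760) (nat_lit 101655086189) (nat_lit 64) (nat_lit 5) (nat_lit 63) (nat_lit 5) (nat_lit 73) (nat_lit 5) (nat_lit 291) (nat_lit 285) (nat_lit 144)) (XT.lf (nat_lit 0) (nat_lit 84309441906) (nat_lit 684) (nat_lit 50315740633) (nat_lit 76) (nat_lit 40961415970) (nat_lit 64) (nat_lit 5) (nat_lit 73) (nat_lit 5) (nat_lit 65) (nat_lit 5) (nat_lit 292) (nat_lit 285) (nat_lit 143))) (XT.nd (nat_lit 78) (nat_lit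 304) (nat_lit 0) (XT.lf (nat_lit 0) (nat_lit 71317877041) (nat_lit 684) (nat_lit 34443949883) (nat_lit 760) (nat_lit 77835972509) (nat_lit 55) (nat_lit 5) (nat_lit 64) (nat_lit 5) (nat_lit 65) (nat_lit 5) (nat_lit 293) (nat_lit 285) (nat_lit 142)) (XT.lf (nat_lit 0) (nat_lit 11473963391) (nat_lit 304) (nat_lit 119677567281) (nat_lit 380) (nat_lit 60987310731) (nat_lit 51) (nat_lit 5) (nat_lit 55) (nat_lit 5) (nat_lit 56) (nat_lit 5) (nat_lit 294) (nat_lit 285) (nat_lit 141)))) (XT.nd (nat_lit 156) (nat_lit 608) (nat_lit 0) (XT.nd (nat_lit 78) (nat_lit 304) (nat_lit 0) (XT.lf (nat_lit 0) (nat_lit 148537356983) (nat_lit 304) (nat_lit 12562016273) (nat_lit 380) (nat_lit 40137446615) (nat_lit 51) (nat_lit 5) (nat_lit 55) (nat_lit 5) (nat_lit 56) (nat_lit 5) (nat_lit 295) (nat_lit 285) (nat_lit 140)) (XT.lf (nat_lit 0) (nat_lit 86666741670) (nat_lit 304) (nat_lit 109739168728) (nat_lit 380)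 (nat_lit 14508584035) (nat_lit 47) (nat_lit 5) (nat_lit 51) (nat_lit 5) (nat_lit 52) (nat_lit 5) (nat_lit 296) (nat_lit 285) (nat_lit 139))) (XT.nd (nat_lit 78) (nat_lit 304) (nat_lit 0) (XT.lf (nat_lit 0) (nat_lit 14230773643) (nat_lit 304) (nat_lit 203459607064) (nat_lit 76) (nat_lit 3591635439) (nat_lit 43) (nat_lit 5) (nat_lit 47) (nat_lit 5) (nat_lit 44) (nat_lit 5) (nat_lit 297) (nat_lit 285) (nat_lit 138)) (XT.nd (nat_lit 78) (nat_lit 304) (nat_lit 0) (XT.lf (nat_lit 0) (nat_lit 48817711806) (nat_lit 304) (nat_lit 58806501118) (nat_lit 76) (nat_lit 124639998248) (nat_lit 43) (nat_lit 5) (nat_lit 47) (nat_lit 5) (nat_lit 44) (nat_lit 5) (nat_lit 298) (nat_lit 285) (nat_lit 137)) (XT.lf (nat_lit 0) (nat_lit 87943997705) (nat_lit 380) (nat_lit 143608100930) (nat_lit 76) (nat_lit 12484264418) (nat_lit 39) (nat_lit 5) (nat_lit 44) (nat_lit 5) (nat_lit 40) (nat_lit 5) (nat_lit 299) (nat_lit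 285) (nat_lit 136))))))) (XT.nd (nat_lit 702) (nat_lit 380) (nat_lit 0) (XT.nd (nat_lit 312) (nat_lit 760) (nat_lit 0) (XT.nd (nat_lit 156) (nat_lit 304) (nat_lit 0) (XT.nd (nat_lit 78) (nat_lit 0) (nat_lit 0) (XT.lf (nat_lit 0) (nat_lit 16498972823) (nat_lit 228) (nat_lit 116814692887) (nat_lit 304) (nat_lit 123280958235) (nat_lit 36) (nat_lit 5) (nat_lit 39) (nat_lit 5) (nat_lit 40) (nat_lit 5) (nat_lit 300) (nat_lit 285) (nat_lit 135)) (XT.lf (nat_lit 0) (nat_lit 184966145044) (nat_lit 304) (nat_lit 75641804707) (nat_lit 76) (nat_lit 9416934822) (nat_lit 36) (nat_lit 5) (nat_lit 40) (nat_lit 5) (nat_lit 37) (nat_lit 5) (nat_lit 301) (nat_lit 285) (nat_lit 134))) (XT.nd (nat_lit 78) (nat_lit 76) (nat_lit 0) (XT.lf (nat_lit 0) (nat_lit 103304796595) (nat_lit 228) (nat_lit 141028418835) (nat_lit 304) (nat_lit 40017231690) (nat_lit 33) (nat_lit 5) (nat_lit 36) (nat_lit 5) (nat_lit 37)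 (nat_lit 5) (nat_lit 302) (nat_lit 285) (nat_lit 133)) (XT.lf (nat_lit 0) (nat_lit 9690505067) (nat_lit 304) (nat_lit 644442752) (nat_lit 76) (nat_lit 289413420161) (nat_lit 32) (nat_lit 5) (nat_lit 36) (nat_lit 5) (nat_lit 33) (nat_lit 5) (nat_lit 303) (nat_lit 285) (nat_lit 132)))) (XT.nd (nat_lit 156) (nat_lit 304) (nat_lit 0) (XT.nd (nat_lit 78) (nat_lit 228) (nat_lit 0) (XT.lf (nat_lit 0) (nat_lit 67217215226) (nat_lit 304) (nat_lit 118380615369) (nat_lit 76) (nat_lit 130485273313) (nat_lit 29) (nat_lit 5) (nat_lit 33) (nat_lit 5) (nat_lit 30) (nat_lit 5) (nat_lit 304) (nat_lit 285) (nat_lit 131)) (XT.lf (nat_lit 0) (nat_lit 80621863458) (nat_lit 228) (nat_lit 50168443775) (nat_lit 304) (nat_lit 202862099756) (nat_lit 26) (nat_lit 5) (nat_lit 29) (nat_lit 5) (nat_lit 30) (nat_lit 5) (nat_lit 305) (nat_lit 285) (nat_lit 130))) (XT.nd (nat_lit 78) (nat_lit 304) (nat_lit 0) (XT.lf (nat_lit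 0) (nat_lit 203045326470) (nat_lit 304) (nat_lit 54286613599) (nat_lit 76) (nat_lit 95115510749) (nat_lit 26) (nat_lit 5) (nat_lit 30) (nat_lit 5) (nat_lit 27) (nat_lit 5) (nat_lit 306) (nat_lit 285) (nat_lit 129)) (XT.nd (nat_lit 78) (nat_lit 152) (nat_lit 0) (XT.lf (nat_lit 0) (nat_lit 164784842092) (nat_lit 152) (nat_lit 119714445440) (nat_lit 228) (nat_lit 88075884063) (nat_lit 24) (nat_lit 5) (nat_lit 26) (nat_lit 5) (nat_lit 27) (nat_lit 5) (nat_lit 307) (nat_lit 285) (nat_lit 128)) (XT.lf (nat_lit 0) (nat_lit 8871584309) (nat_lit 152) (nat_lit 365148898185) (nat_lit 228) (nat_lit 20215082111) (nat_lit 22) (nat_lit 5) (nat_lit 24) (nat_lit 5) (nat_lit 25) (nat_lit 5) (nat_lit 308) (nat_lit 285) (nat_lit 127)))))) (XT.nd (nat_lit 35724) (nat_lit 0) (nat_lit 3268) (XT.nd (nat_lit 156) (nat_lit 152) (nat_lit 0) (XT.nd (nat_lit 78) (nat_lit 152) (nat_lit 0) (XT.lf (nat_lit 0) (nat_lit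 57073247873) (nat_lit 228) (nat_lit 170068012885) (nat_lit 76) (nat_lit 190161227419) (nat_lit 21) (nat_lit 5) (nat_lit 24) (nat_lit 5) (nat_lit 22) (nat_lit 5) (nat_lit 309) (nat_lit 285) (nat_lit 126)) (XT.lf (nat_lit 0) (nat_lit 64164244820) (nat_lit 152) (nat_lit 76683290420) (nat_lit 228) (nat_lit 301300104550) (nat_lit 19) (nat_lit 5) (nat_lit 21) (nat_lit 5) (nat_lit 22) (nat_lit 5) (nat_lit 310) (nat_lit 285) (nat_lit 125))) (XT.nd (nat_lit 78) (nat_lit 152) (nat_lit 0) (XT.lf (nat_lit 0) (nat_lit 235674443419) (nat_lit 228) (nat_lit 147012620949) (nat_lit 76) (nat_lit 86075805594) (nat_lit 19) (nat_lit 5) (nat_lit 22) (nat_lit 5) (nat_lit 20) (nat_lit 5) (nat_lit 311) (nat_lit 285) (nat_lit 124)) (XT.lf (nat_lit 0) (nat_lit 104486862061) (nat_lit 152) (nat_lit 236524886430) (nat_lit 228) (nat_lit 156349358140) (nat_lit 17) (nat_lit 5) (nat_lit 19) (nat_lit 5) (nat_lit 20) (nat_lit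 5) (nat_lit 312) (nat_lit 285) (nat_lit 123)))) (XT.nd (nat_lit 156) (nat_lit 0) (nat_lit 76) (XT.nd (nat_lit 78) (nat_lit 0) (nat_lit 0) (XT.lf (nat_lit 0) (nat_lit 5576148930) (nat_lit 0) (nat_lit 5576148930) (nat_lit 684) (nat_lit 59844589874) (nat_lit 60) (nat_lit 5) (nat_lit 60) (nat_lit 3) (nat_lit 69) (nat_lit 3) (nat_lit 286) (nat_lit 286) (nat_lit 148)) (XT.lf (nat_lit 0) (nat_lit 24535557844) (nat_lit 684) (nat_lit 40350415583) (nat_lit 760) (nat_lit 82720594058) (nat_lit 60) (nat_lit 5) (nat_lit 69) (nat_lit 3) (nat_lit 70) (nat_lit 5) (nat_lit 287) (nat_lit 286) (nat_lit 147))) (XT.nd (nat_lit 78) (nat_lit 0) (nat_lit 0) (XT.lf (nat_lit 0) (nat_lit 28539464303) (nat_lit 684) (nat_lit 95014671338) (nat_lit 760) (nat_lit 30034525861) (nat_lit 61) (nat_lit 5) (nat_lit 70) (nat_lit 5) (nat_lit 71) (nat_lit 5) (nat_lit 288) (nat_lit 286) (nat_lit 146)) (XT.nd (nat_lit 78) (nat_lit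 0) (nat_lit 76) (XT.lf (nat_lit 76) (nat_lit 5922743703) (nat_lit 0) (nat_lit 28841485459) (nat_lit 760) (nat_lit 125190068445) (nat_lit 62) (nat_lit 5) (nat_lit 61) (nat_lit 5) (nat_lit 71) (nat_lit 5) (nat_lit 289) (nat_lit 286) (nat_lit 145)) (XT.lf (nat_lit 0) (nat_lit 44315541736) (nat_lit 684) (nat_lit 49592482980) (nat_lit 760) (nat_lit 72779733281) (nat_lit 62) (nat_lit 5) (nat_lit 71) (nat_lit 5) (nat_lit 72) (nat_lit 5) (nat_lit 290) (nat_lit 286) (nat_lit 144))))))))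
noncomputable def xc121 : XT := (XT.nd (nat_lit 1404) (nat_lit 380) (nat_lit 0) (XT.nd (nat_lit 702) (nat_lit 1444) (nat_lit 0) (XT.nd (nat_lit 312) (nat_lit 912) (nat_lit 0) (XT.nd (nat_lit 156) (nat_lit 608) (nat_lit 0) (XT.nd (nat_lit 78) (nat_lit 0) (nat_lit 0) (XT.lf (nat_lit 0) (nat_lit 56263662507) (nat_lit 684) (nat_lit 109231457985) (nat_lit 760) (nat_lit 8383141164) (nat_lit 63) (nat_lit 5) (nat_lit 72) (nat_lit 5) (nat_lit 73) (nat_lit 5) (nat_lit 291) (nat_lit 286) (nat_lit 143)) (XT.lf (nat_lit 76) (nat_lit 6815600650) (nat_lit 0) (nat_lit 64919595714) (nat_lit 760) (nat_lit 109780432549) (nat_lit 64) (nat_lit 5) (nat_lit 63) (nat_lit 5) (nat_lit 73) (nat_lit 5) (nat_lit 292) (nat_lit 286) (nat_lit 142))) (XT.nd (nat_lit 78) (nat_lit 684) (nat_lit 0) (XT.lf (nat_lit 0) (nat_lit 91060380262) (nat_lit 684) (nat_lit 54335584662) (nat_lit 76) (nat_lit 44237225627) (nat_lit 64)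 (nat_lit 5) (nat_lit 73) (nat_lit 5) (nat_lit 65) (nat_lit 5) (nat_lit 293) (nat_lit 286) (nat_lit 141)) (XT.lf (nat_lit 0) (nat_lit 77028487087) (nat_lit 684) (nat_lit 37200091868) (nat_lit 760) (nat_lit 84056729428) (nat_lit 55) (nat_lit 5) (nat_lit 64) (nat_lit 5) (nat_lit 65) (nat_lit 5) (nat_lit 294) (nat_lit 286) (nat_lit 140)))) (XT.nd (nat_lit 156) (nat_lit 608) (nat_lit 0) (XT.nd (nat_lit 78) (nat_lit 0) (nat_lit 0) (XT.lf (nat_lit 0) (nat_lit 12397145898) (nat_lit 304) (nat_lit 129251956199) (nat_lit 380) (nat_lit 65860551290) (nat_lit 51) (nat_lit 5) (nat_lit 55) (nat_lit 5) (nat_lit 56) (nat_lit 5) (nat_lit 295) (nat_lit 286) (nat_lit 139)) (XT.lf (nat_lit 0) (nat_lit 160425220945) (nat_lit 304) (nat_lit 13567147515) (nat_lit 380) (nat_lit 43343123548) (nat_lit 51) (nat_lit 5) (nat_lit 55) (nat_lit 5) (nat_lit 56) (nat_lit 5) (nat_lit 296) (nat_lit 286) (nat_lit 138))) (XT.nd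 (nat_lit 78) (nat_lit 304) (nat_lit 0) (XT.lf (nat_lit 0) (nat_lit 93605008635) (nat_lit 304) (nat_lit 118518120686) (nat_lit 380) (nat_lit 15664267745) (nat_lit 47) (nat_lit 5) (nat_lit 51) (nat_lit 5) (nat_lit 52) (nat_lit 5) (nat_lit 297) (nat_lit 286) (nat_lit 137)) (XT.nd (nat_lit 78) (nat_lit 0) (nat_lit 0) (XT.lf (nat_lit 0) (nat_lit 15373801008) (nat_lit 304) (nat_lit 219731250848) (nat_lit 76) (nat_lit 3879280008) (nat_lit 43) (nat_lit 5) (nat_lit 47) (nat_lit 5) (nat_lit 44) (nat_lit 5) (nat_lit 298) (nat_lit 286) (nat_lit 136)) (XT.lf (nat_lit 0) (nat_lit 52727356041) (nat_lit 304) (nat_lit 63506276041) (nat_lit 76) (nat_lit 134611488602) (nat_lit 43) (nat_lit 5) (nat_lit 47) (nat_lit 5) (nat_lit 44) (nat_lit 5) (nat_lit 299) (nat_lit 286) (nat_lit 135)))))) (XT.nd (nat_lit 312) (nat_lit 684) (nat_lit 0) (XT.nd (nat_lit 156) (nat_lit 228) (nat_lit 0) (XT.nd (nat_lit 78) (nat_lit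 228) (nat_lit 0) (XT.lf (nat_lit 0) (nat_lit 94983511193) (nat_lit 380) (nat_lit 155092004623) (nat_lit 76) (nat_lit 13483541767) (nat_lit 39) (nat_lit 5) (nat_lit 44) (nat_lit 5) (nat_lit 40) (nat_lit 5) (nat_lit 300) (nat_lit 286) (nat_lit 134)) (XT.lf (nat_lit 0) (nat_lit 17823428845) (nat_lit 228) (nat_lit 126159098819) (nat_lit 304) (nat_lit 133139464029) (nat_lit 36) (nat_lit 5) (nat_lit 39) (nat_lit 5) (nat_lit 40) (nat_lit 5) (nat_lit 301) (nat_lit 286) (nat_lit 133))) (XT.nd (nat_lit 78) (nat_lit 228) (nat_lit 0) (XT.lf (nat_lit 0) (nat_lit 199766937307) (nat_lit 304) (nat_lit 81688770982) (nat_lit 76) (nat_lit 10170979302) (nat_lit 36) (nat_lit 5) (nat_lit 40) (nat_lit 5) (nat_lit 37) (nat_lit 5) (nat_lit 302) (nat_lit 286) (nat_lit 132)) (XT.lf (nat_lit 0) (nat_lit 111573368157) (nat_lit 228) (nat_lit 152309811243) (nat_lit 304) (nat_lit 43215126380) (nat_lit 33) (nat_lit 5)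 (nat_lit 36) (nat_lit 5) (nat_lit 37) (nat_lit 5) (nat_lit 303) (nat_lit 286) (nat_lit 131)))) (XT.nd (nat_lit 156) (nat_lit 380) (nat_lit 0) (XT.nd (nat_lit 78) (nat_lit 228) (nat_lit 0) (XT.lf (nat_lit 0) (nat_lit 10468868010) (nat_lit 304) (nat_lit 692006921) (nat_lit 76) (nat_lit 312567195979) (nat_lit 32) (nat_lit 5) (nat_lit 36) (nat_lit 5) (nat_lit 33) (nat_lit 5) (nat_lit 304) (nat_lit 286) (nat_lit 130)) (XT.lf (nat_lit 0) (nat_lit 72597556825) (nat_lit 304) (nat_lit 127847103182) (nat_lit 76) (nat_lit 140924934382) (nat_lit 29) (nat_lit 5) (nat_lit 33) (nat_lit 5) (nat_lit 30) (nat_lit 5) (nat_lit 305) (nat_lit 286) (nat_lit 129))) (XT.nd (nat_lit 78) (nat_lit 152) (nat_lit 0) (XT.lf (nat_lit 0) (nat_lit 87075401793) (nat_lit 228) (nat_lit 54180933977) (nat_lit 304) (nat_lit 219088114681) (nat_lit 26) (nat_lit 5) (nat_lit 29) (nat_lit 5) (nat_lit 30) (nat_lit 5) (nat_lit 306)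 (nat_lit 286) (nat_lit 128)) (XT.nd (nat_lit 78) (nat_lit 152) (nat_lit 0) (XT.lf (nat_lit 0) (nat_lit 219291563088) (nat_lit 304) (nat_lit 58625910305) (nat_lit 76) (nat_lit 102725634725) (nat_lit 26) (nat_lit 5) (nat_lit 30) (nat_lit 5) (nat_lit 27) (nat_lit 5) (nat_lit 307) (nat_lit 286) (nat_lit 127)) (XT.lf (nat_lit 0) (nat_lit 177971103983) (nat_lit 152) (nat_lit 129290597929) (nat_lit 228) (nat_lit 95119352210) (nat_lit 24) (nat_lit 5) (nat_lit 26) (nat_lit 5) (nat_lit 27) (nat_lit 5) (nat_lit 308) (nat_lit 286) (nat_lit 126))))))) (XT.nd (nat_lit 36192) (nat_lit 0) (nat_lit 1520) (XT.nd (nat_lit 35802) (nat_lit 0) (nat_lit 3116) (XT.nd (nat_lit 156) (nat_lit 152) (nat_lit 0) (XT.nd (nat_lit 78) (nat_lit 76) (nat_lit 0) (XT.lf (nat_lit 0) (nat_lit 9584745096) (nat_lit 152) (nat_lit 394359732427) (nat_lit 228) (nat_lit 21829807363) (nat_lit 22) (nat_lit 5) (nat_lit 24) (nat_lit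 5) (nat_lit 25) (nat_lit 5) (nat_lit 309) (nat_lit 286) (nat_lit 125)) (XT.lf (nat_lit 0) (nat_lit 61641331683) (nat_lit 228) (nat_lit 183670194482) (nat_lit 76) (nat_lit 205375043636) (nat_lit 21) (nat_lit 5) (nat_lit 24) (nat_lit 5) (nat_lit 22) (nat_lit 5) (nat_lit 310) (nat_lit 286) (nat_lit 124))) (XT.nd (nat_lit 78) (nat_lit 0) (nat_lit 0) (XT.lf (nat_lit 0) (nat_lit 69300502189) (nat_lit 152) (nat_lit 82816943789) (nat_lit 228) (nat_lit 325401893830) (nat_lit 19) (nat_lit 5) (nat_lit 21) (nat_lit 5) (nat_lit 22) (nat_lit 5) (nat_lit 311) (nat_lit 286) (nat_lit 123)) (XT.lf (nat_lit 0) (nat_lit 254530365267) (nat_lit 228) (nat_lit 158770655457) (nat_lit 76) (nat_lit 92962775174) (nat_lit 19) (nat_lit 5) (nat_lit 22) (nat_lit 5) (nat_lit 20) (nat_lit 5) (nat_lit 312) (nat_lit 286) (nat_lit 122)))) (XT.nd (nat_lit 156) (nat_lit 0) (nat_lit 76) (XT.nd (nat_lit 78) (nat_lit 0) (nat_lit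 0) (XT.lf (nat_lit 0) (nat_lit 6024473410) (nat_lit 0) (nat_lit 6024473410) (nat_lit 684) (nat_lit 64627449071) (nat_lit 60) (nat_lit 5) (nat_lit 60) (nat_lit 3) (nat_lit 69) (nat_lit 3) (nat_lit 287) (nat_lit 287) (nat_lit 146)) (XT.lf (nat_lit 0) (nat_lit 26506606681) (nat_lit 684) (nat_lit 43573800154) (nat_lit 760) (nat_lit 89334239529) (nat_lit 60) (nat_lit 5) (nat_lit 69) (nat_lit 3) (nat_lit 70) (nat_lit 5) (nat_lit 288) (nat_lit 287) (nat_lit 145))) (XT.nd (nat_lit 78) (nat_lit 0) (nat_lit 0) (XT.lf (nat_lit 0) (nat_lit 30830237100) (nat_lit 684) (nat_lit 102610931219) (nat_lit 760) (nat_lit 32434171702) (nat_lit 61) (nat_lit 5) (nat_lit 70) (nat_lit 5) (nat_lit 71) (nat_lit 5) (nat_lit 289) (nat_lit 287) (nat_lit 144)) (XT.nd (nat_lit 78) (nat_lit 0) (nat_lit 76) (XT.lf (nat_lit 76) (nat_lit 6401263477) (nat_lit 0) (nat_lit 31151228934) (nat_lit 760) (nat_lit 135197761631) (nat_lit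 62) (nat_lit 5) (nat_lit 61) (nat_lit 5) (nat_lit 71) (nat_lit 5) (nat_lit 290) (nat_lit 287) (nat_lit 143)) (XT.lf (nat_lit 0) (nat_lit 47867347167) (nat_lit 684) (nat_lit 53555135778) (nat_lit 760) (nat_lit 78599938764) (nat_lit 62) (nat_lit 5) (nat_lit 71) (nat_lit 5) (nat_lit 72) (nat_lit 5) (nat_lit 291) (nat_lit 287) (nat_lit 142)))))) (XT.nd (nat_lit 390) (nat_lit 912) (nat_lit 0) (XT.nd (nat_lit 156) (nat_lit 912) (nat_lit 0) (XT.nd (nat_lit 78) (nat_lit 0) (nat_lit 0) (XT.lf (nat_lit 0) (nat_lit 60770877300) (nat_lit 684) (nat_lit 117965075905) (nat_lit 760) (nat_lit 9052236606) (nat_lit 63) (nat_lit 5) (nat_lit 72) (nat_lit 5) (nat_lit 73) (nat_lit 5) (nat_lit 292) (nat_lit 287) (nat_lit 141)) (XT.lf (nat_lit 76) (nat_lit 7365534529) (nat_lit 0) (nat_lit 70114219030) (nat_lit 760) (nat_lit 118556813882) (nat_lit 64) (nat_lit 5) (nat_lit 63) (nat_lit 5) (nat_lit 73) (nat_lit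 5) (nat_lit 293) (nat_lit 287) (nat_lit 140))) (XT.nd (nat_lit 78) (nat_lit 988) (nat_lit 0) (XT.lf (nat_lit 0) (nat_lit 98350511613) (nat_lit 684) (nat_lit 58677788755) (nat_lit 76) (nat_lit 47775257500) (nat_lit 64) (nat_lit 5) (nat_lit 73) (nat_lit 5) (nat_lit 65) (nat_lit 5) (nat_lit 294) (nat_lit 287) (nat_lit 139)) (XT.nd (nat_lit 78) (nat_lit 304) (nat_lit 0) (XT.lf (nat_lit 0) (nat_lit 83195206968) (nat_lit 684) (nat_lit 40176635906) (nat_lit 760) (nat_lit 90776020114) (nat_lit 55) (nat_lit 5) (nat_lit 64) (nat_lit 5) (nat_lit 65) (nat_lit 5) (nat_lit 295) (nat_lit 287) (nat_lit 138)) (XT.lf (nat_lit 0) (nat_lit 13393431832) (nat_lit 304) (nat_lit 139592270046) (nat_lit 380) (nat_lit 71124470583) (nat_lit 51) (nat_lit 5) (nat_lit 55) (nat_lit 5) (nat_lit 56) (nat_lit 5) (nat_lit 296) (nat_lit 287) (nat_lit 137))))) (XT.nd (nat_lit 156) (nat_lit 608) (nat_lit 0) (XT.nd (nat_lit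 78) (nat_lit 304) (nat_lit 0) (XT.lf (nat_lit 0) (nat_lit 173263418493) (nat_lit 304) (nat_lit 14652665012) (nat_lit 380) (nat_lit 46806013422) (nat_lit 51) (nat_lit 5) (nat_lit 55) (nat_lit 5) (nat_lit 56) (nat_lit 5) (nat_lit 297) (nat_lit 287) (nat_lit 136)) (XT.lf (nat_lit 0) (nat_lit 101097633975) (nat_lit 304) (nat_lit 127999414699) (nat_lit 380) (nat_lit 16913119888) (nat_lit 47) (nat_lit 5) (nat_lit 51) (nat_lit 5) (nat_lit 52) (nat_lit 5) (nat_lit 298) (nat_lit 287) (nat_lit 135))) (XT.nd (nat_lit 78) (nat_lit 304) (nat_lit 0) (XT.lf (nat_lit 0) (nat_lit 16607619246) (nat_lit 304) (nat_lit 237305357243) (nat_lit 76) (nat_lit 4189891386) (nat_lit 43) (nat_lit 5) (nat_lit 47) (nat_lit 5) (nat_lit 44) (nat_lit 5) (nat_lit 299) (nat_lit 287) (nat_lit 134)) (XT.nd (nat_lit 78) (nat_lit 304) (nat_lit 0) (XT.lf (nat_lit 0) (nat_lit 56949168745) (nat_lit 304) (nat_lit 68582709908) (nat_lit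 76) (nat_lit 145380656743) (nat_lit 43) (nat_lit 5) (nat_lit 47) (nat_lit 5) (nat_lit 44) (nat_lit 5) (nat_lit 300) (nat_lit 287) (nat_lit 133)) (XT.lf (nat_lit 0) (nat_lit 102585616019) (nat_lit 380) (nat_lit 167495297451) (nat_lit 76) (nat_lit 14562684809) (nat_lit 39) (nat_lit 5) (nat_lit 44) (nat_lit 5) (nat_lit 40) (nat_lit 5) (nat_lit 301) (nat_lit 287) (nat_lit 132))))))))
noncomputable def xc122 : XT := (XT.nd (nat_lit 37050) (nat_lit 0) (nat_lit 76) (XT.nd (nat_lit 702) (nat_lit 76) (nat_lit 0) (XT.nd (nat_lit 312) (nat_lit 760) (nat_lit 0) (XT.nd (nat_lit 156) (nat_lit 304) (nat_lit 0) (XT.nd (nat_lit 78) (nat_lit 0) (nat_lit 0) (XT.lf (nat_lit 0) (nat_lit 19253193925) (nat_lit 228) (nat_lit 136251167004) (nat_lit 304) (nat_lit 143787216774) (nat_lit 36) (nat_lit 5) (nat_lit 39) (nat_lit 5) (nat_lit 40) (nat_lit 5) (nat_lit 302) (nat_lit 287) (nat_lit 131)) (XT.lf (nat_lit 0)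 (nat_lit 215751293543) (nat_lit 304) (nat_lit 88220119145) (nat_lit 76) (nat_lit 10985248948) (nat_lit 36) (nat_lit 5) (nat_lit 40) (nat_lit 5) (nat_lit 37) (nat_lit 5) (nat_lit 303) (nat_lit 287) (nat_lit 130))) (XT.nd (nat_lit 78) (nat_lit 76) (nat_lit 0) (XT.lf (nat_lit 0) (nat_lit 120502828003) (nat_lit 228) (nat_lit 164493840742) (nat_lit 304) (nat_lit 46669349655) (nat_lit 33) (nat_lit 5) (nat_lit 36) (nat_lit 5) (nat_lit 37) (nat_lit 5) (nat_lit 304) (nat_lit 287) (nat_lit 129)) (XT.lf (nat_lit 0) (nat_lit 11309054523) (nat_lit 304) (nat_lit 743945620) (nat_lit 76) (nat_lit 337573173686) (nat_lit 32) (nat_lit 5) (nat_lit 36) (nat_lit 5) (nat_lit 33) (nat_lit 5) (nat_lit 305) (nat_lit 287) (nat_lit 128)))) (XT.nd (nat_lit 156) (nat_lit 304) (nat_lit 0) (XT.nd (nat_lit 78) (nat_lit 228) (nat_lit 0) (XT.lf (nat_lit 0) (nat_lit 78407902849) (nat_lit 304) (nat_lit 138071475161) (nat_lit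 76) (nat_lit 152199648615) (nat_lit 29) (nat_lit 5) (nat_lit 33) (nat_lit 5) (nat_lit 30) (nat_lit 5) (nat_lit 306) (nat_lit 287) (nat_lit 127)) (XT.lf (nat_lit 0) (nat_lit 94044682614) (nat_lit 228) (nat_lit 58514563959) (nat_lit 304) (nat_lit 236612632086) (nat_lit 26) (nat_lit 5) (nat_lit 29) (nat_lit 5) (nat_lit 30) (nat_lit 5) (nat_lit 307) (nat_lit 287) (nat_lit 126))) (XT.nd (nat_lit 78) (nat_lit 304) (nat_lit 0) (XT.lf (nat_lit 0) (nat_lit 236837126219) (nat_lit 304) (nat_lit 63312868946) (nat_lit 76) (nat_lit 110944442632) (nat_lit 26) (nat_lit 5) (nat_lit 30) (nat_lit 5) (nat_lit 27) (nat_lit 5) (nat_lit 308) (nat_lit 287) (nat_lit 125)) (XT.nd (nat_lit 78) (nat_lit 152) (nat_lit 0) (XT.lf (nat_lit 0) (nat_lit 192211771146) (nat_lit 152) (nat_lit 139632985727) (nat_lit 228) (nat_lit 102726669097) (nat_lit 24) (nat_lit 5) (nat_lit 26) (nat_lit 5) (nat_lit 27) (nat_lit 5) (nat_lit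 309) (nat_lit 287) (nat_lit 124)) (XT.lf (nat_lit 0) (nat_lit 10354468841) (nat_lit 152) (nat_lit 425907587142) (nat_lit 228) (nat_lit 23574064623) (nat_lit 22) (nat_lit 5) (nat_lit 24) (nat_lit 5) (nat_lit 25) (nat_lit 5) (nat_lit 310) (nat_lit 287) (nat_lit 123)))))) (XT.nd (nat_lit 35958) (nat_lit 0) (nat_lit 3040) (XT.nd (nat_lit 35802) (nat_lit 0) (nat_lit 2964) (XT.nd (nat_lit 35724) (nat_lit 0) (nat_lit 2964) (XT.lf (nat_lit 0) (nat_lit 66574544922) (nat_lit 228) (nat_lit 198361015601) (nat_lit 76) (nat_lit 221805834185) (nat_lit 21) (nat_lit 5) (nat_lit 24) (nat_lit 5) (nat_lit 22) (nat_lit 5) (nat_lit 311) (nat_lit 287) (nat_lit 122)) (XT.lf (nat_lit 0) (nat_lit 6508345347) (nat_lit 0) (nat_lit 6508345347) (nat_lit 684) (nat_lit 69793608651) (nat_lit 60) (nat_lit 5) (nat_lit 60) (nat_lit 3) (nat_lit 69) (nat_lit 3) (nat_lit 288) (nat_lit 288) (nat_lit 144))) (XT.nd (nat_lit 78)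 (nat_lit 0) (nat_lit 76) (XT.lf (nat_lit 0) (nat_lit 28634169003) (nat_lit 684) (nat_lit 47055718676) (nat_lit 760) (nat_lit 96477547576) (nat_lit 60) (nat_lit 5) (nat_lit 69) (nat_lit 3) (nat_lit 70) (nat_lit 5) (nat_lit 289) (nat_lit 288) (nat_lit 143)) (XT.lf (nat_lit 0) (nat_lit 33303185263) (nat_lit 684) (nat_lit 110815592902) (nat_lit 760) (nat_lit 35026233774) (nat_lit 61) (nat_lit 5) (nat_lit 70) (nat_lit 5) (nat_lit 71) (nat_lit 5) (nat_lit 290) (nat_lit 288) (nat_lit 142)))) (XT.nd (nat_lit 156) (nat_lit 0) (nat_lit 152) (XT.nd (nat_lit 78) (nat_lit 0) (nat_lit 76) (XT.lf (nat_lit 76) (nat_lit 6917394286) (nat_lit 0) (nat_lit 33645405984) (nat_lit 760) (nat_lit 146007141983) (nat_lit 62) (nat_lit 5) (nat_lit 61) (nat_lit 5) (nat_lit 71) (nat_lit 5) (nat_lit 291) (nat_lit 288) (nat_lit 141)) (XT.lf (nat_lit 0) (nat_lit 51702360878) (nat_lit 684) (nat_lit 57835477847) (nat_lit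 760) (nat_lit 84886070714) (nat_lit 62) (nat_lit 5) (nat_lit 71) (nat_lit 5) (nat_lit 72) (nat_lit 5) (nat_lit 292) (nat_lit 288) (nat_lit 140))) (XT.nd (nat_lit 78) (nat_lit 0) (nat_lit 0) (XT.lf (nat_lit 0) (nat_lit 65637795935) (nat_lit 684) (nat_lit 127398082115) (nat_lit 760) (nat_lit 9775081642) (nat_lit 63) (nat_lit 5) (nat_lit 72) (nat_lit 5) (nat_lit 73) (nat_lit 5) (nat_lit 293) (nat_lit 288) (nat_lit 139)) (XT.nd (nat_lit 78) (nat_lit 0) (nat_lit 76) (XT.lf (nat_lit 76) (nat_lit 7958794632) (nat_lit 0) (nat_lit 75724261610) (nat_lit 760) (nat_lit 128036169288) (nat_lit 64) (nat_lit 5) (nat_lit 63) (nat_lit 5) (nat_lit 73) (nat_lit 5) (nat_lit 294) (nat_lit 288) (nat_lit 138)) (XT.lf (nat_lit 0) (nat_lit 106223097235) (nat_lit 684) (nat_lit 63368031506) (nat_lit 76) (nat_lit 51596466905) (nat_lit 64) (nat_lit 5) (nat_lit 73) (nat_lit 5) (nat_lit 65) (nat_lit 5) (nat_lit 295)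 (nat_lit 288) (nat_lit 137))))))) (XT.nd (nat_lit 702) (nat_lit 1064) (nat_lit 0) (XT.nd (nat_lit 312) (nat_lit 836) (nat_lit 0) (XT.nd (nat_lit 156) (nat_lit 304) (nat_lit 0) (XT.nd (nat_lit 78) (nat_lit 304) (nat_lit 0) (XT.lf (nat_lit 0) (nat_lit 89854630894) (nat_lit 684) (nat_lit 43391226903) (nat_lit 760) (nat_lit 98033602692) (nat_lit 55) (nat_lit 5) (nat_lit 64) (nat_lit 5) (nat_lit 65) (nat_lit 5) (nat_lit 296) (nat_lit 288) (nat_lit 136)) (XT.lf (nat_lit 0) (nat_lit 14468776631) (nat_lit 304) (nat_lit 150759786553) (nat_lit 380) (nat_lit 76810205998) (nat_lit 51) (nat_lit 5) (nat_lit 55) (nat_lit 5) (nat_lit 56) (nat_lit 5) (nat_lit 297) (nat_lit 288) (nat_lit 135))) (XT.nd (nat_lit 78) (nat_lit 304) (nat_lit 0) (XT.lf (nat_lit 0) (nat_lit 187128075539) (nat_lit 304) (nat_lit 15825003124) (nat_lit 380) (nat_lit 50546585022) (nat_lit 51) (nat_lit 5) (nat_lit 55) (nat_lit 5) (nat_lit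 56) (nat_lit 5) (nat_lit 298) (nat_lit 288) (nat_lit 134)) (XT.lf (nat_lit 0) (nat_lit 109189066649) (nat_lit 304) (nat_lit 138239234438) (nat_lit 380) (nat_lit 18262492116) (nat_lit 47) (nat_lit 5) (nat_lit 51) (nat_lit 5) (nat_lit 52) (nat_lit 5) (nat_lit 299) (nat_lit 288) (nat_lit 133)))) (XT.nd (nat_lit 156) (nat_lit 532) (nat_lit 0) (XT.nd (nat_lit 78) (nat_lit 0) (nat_lit 0) (XT.lf (nat_lit 0) (nat_lit 17939584546) (nat_lit 304) (nat_lit 256286018956) (nat_lit 76) (nat_lit 4525313301) (nat_lit 43) (nat_lit 5) (nat_lit 47) (nat_lit 5) (nat_lit 44) (nat_lit 5) (nat_lit 300) (nat_lit 288) (nat_lit 132)) (XT.lf (nat_lit 0) (nat_lit 61508209429) (nat_lit 304) (nat_lit 74065838862) (nat_lit 76) (nat_lit 157011322805) (nat_lit 43) (nat_lit 5) (nat_lit 47) (nat_lit 5) (nat_lit 44) (nat_lit 5) (nat_lit 301) (nat_lit 288) (nat_lit 131))) (XT.nd (nat_lit 78) (nat_lit 228) (nat_lit 0) (XT.lf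 (nat_lit 0) (nat_lit 110795400768) (nat_lit 380) (nat_lit 180891433985) (nat_lit 76) (nat_lit 15728093714) (nat_lit 39) (nat_lit 5) (nat_lit 44) (nat_lit 5) (nat_lit 40) (nat_lit 5) (nat_lit 302) (nat_lit 288) (nat_lit 130)) (XT.nd (nat_lit 78) (nat_lit 0) (nat_lit 0) (XT.lf (nat_lit 0) (nat_lit 20796785149) (nat_lit 228) (nat_lit 147150694761) (nat_lit 304) (nat_lit 155287275412) (nat_lit 36) (nat_lit 5) (nat_lit 39) (nat_lit 5) (nat_lit 40) (nat_lit 5) (nat_lit 303) (nat_lit 288) (nat_lit 129)) (XT.lf (nat_lit 0) (nat_lit 233013970116) (nat_lit 304) (nat_lit 95274510641) (nat_lit 76) (nat_lit 11864575809) (nat_lit 36) (nat_lit 5) (nat_lit 40) (nat_lit 5) (nat_lit 37) (nat_lit 5) (nat_lit 304) (nat_lit 288) (nat_lit 128)))))) (XT.nd (nat_lit 312) (nat_lit 304) (nat_lit 0) (XT.nd (nat_lit 156) (nat_lit 456) (nat_lit 0) (XT.nd (nat_lit 78) (nat_lit 76) (nat_lit 0) (XT.lf (nat_lit 0) (nat_lit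 130146132426) (nat_lit 228) (nat_lit 177652700367) (nat_lit 304) (nat_lit 50400336897) (nat_lit 33) (nat_lit 5) (nat_lit 36) (nat_lit 5) (nat_lit 37) (nat_lit 5) (nat_lit 305) (nat_lit 288) (nat_lit 127)) (XT.lf (nat_lit 0) (nat_lit 12216074043) (nat_lit 304) (nat_lit 800527580) (nat_lit 76) (nat_lit 364579543723) (nat_lit 32) (nat_lit 5) (nat_lit 36) (nat_lit 5) (nat_lit 33) (nat_lit 5) (nat_lit 306) (nat_lit 288) (nat_lit 126))) (XT.nd (nat_lit 78) (nat_lit 228) (nat_lit 0) (XT.lf (nat_lit 0) (nat_lit 84682713985) (nat_lit 304) (nat_lit 149114281415) (nat_lit 76) (nat_lit 164376237344) (nat_lit 29) (nat_lit 5) (nat_lit 33) (nat_lit 5) (nat_lit 30) (nat_lit 5) (nat_lit 307) (nat_lit 288) (nat_lit 125)) (XT.lf (nat_lit 0) (nat_lit 101571042441) (nat_lit 228) (nat_lit 63195004850) (nat_lit 304) (nat_lit 255539472068) (nat_lit 26) (nat_lit 5) (nat_lit 29) (nat_lit 5) (nat_lit 30) (nat_lit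 5) (nat_lit 308) (nat_lit 288) (nat_lit 124)))) (XT.nd (nat_lit 156) (nat_lit 152) (nat_lit 0) (XT.nd (nat_lit 78) (nat_lit 152) (nat_lit 0) (XT.lf (nat_lit 0) (nat_lit 255786015112) (nat_lit 304) (nat_lit 68375228553) (nat_lit 76) (nat_lit 119820647159) (nat_lit 26) (nat_lit 5) (nat_lit 30) (nat_lit 5) (nat_lit 27) (nat_lit 5) (nat_lit 309) (nat_lit 288) (nat_lit 123)) (XT.lf (nat_lit 0) (nat_lit 207591266716) (nat_lit 152) (nat_lit 150802887243) (nat_lit 228) (nat_lit 110942889653) (nat_lit 24) (nat_lit 5) (nat_lit 26) (nat_lit 5) (nat_lit 27) (nat_lit 5) (nat_lit 310) (nat_lit 288) (nat_lit 122))) (XT.nd (nat_lit 35802) (nat_lit 0) (nat_lit 2888) (XT.lf (nat_lit 0) (nat_lit 11185350472) (nat_lit 152) (nat_lit 459979402035) (nat_lit 228) (nat_lit 25458165952) (nat_lit 22) (nat_lit 5) (nat_lit 24) (nat_lit 5) (nat_lit 25) (nat_lit 5) (nat_lit 311) (nat_lit 288) (nat_lit 121)) (XT.nd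 (nat_lit 78) (nat_lit 0) (nat_lit 0) (XT.lf (nat_lit 0) (nat_lit 7030653977) (nat_lit 0) (nat_lit 7030653977) (nat_lit 684) (nat_lit 75373636828) (nat_lit 60) (nat_lit 5) (nat_lit 60) (nat_lit 3) (nat_lit 69) (nat_lit 3) (nat_lit 289) (nat_lit 289) (nat_lit 142)) (XT.lf (nat_lit 0) (nat_lit 30930932862) (nat_lit 684) (nat_lit 50816759255) (nat_lit 760) (nat_lit 104192809753) (nat_lit 60) (nat_lit 5) (nat_lit 69) (nat_lit 3) (nat_lit 70) (nat_lit 5) (nat_lit 290) (nat_lit 289) (nat_lit 141))))))))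
noncomputable def xc123 : XT := (XT.nd (nat_lit 1404) (nat_lit 380) (nat_lit 0) (XT.nd (nat_lit 702) (nat_lit 1672) (nat_lit 0) (XT.nd (nat_lit 312) (nat_lit 760) (nat_lit 0) (XT.nd (nat_lit 156) (nat_lit 0) (nat_lit 76) (XT.nd (nat_lit 78) (nat_lit 0) (nat_lit 0) (XT.lf (nat_lit 0) (nat_lit 35973037817) (nat_lit 684) (nat_lit 119677228525) (nat_lit 760) (nat_lit 37826041955) (nat_lit 61) (nat_lit 5) (nat_lit 70) (nat_lit 5) (nat_lit 71) (nat_lit 5) (nat_lit 291) (nat_lit 289) (nat_lit 140)) (XT.lf (nat_lit 76) (nat_lit 7474240673) (nat_lit 0) (nat_lit 36338820644) (nat_lit 760) (nat_lit 157682191585) (nat_lit 62) (nat_lit 5) (nat_lit 61) (nat_lit 5) (nat_lit 71) (nat_lit 5) (nat_lit 292) (nat_lit 289) (nat_lit 139))) (XT.nd (nat_lit 78) (nat_lit 0) (nat_lit 76) (XT.lf (nat_lit 0) (nat_lit 55843373082) (nat_lit 684) (nat_lit 62458827741) (nat_lit 760) (nat_lit 91675359019) (nat_lit 62)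 (nat_lit 5) (nat_lit 71) (nat_lit 5) (nat_lit 72) (nat_lit 5) (nat_lit 293) (nat_lit 289) (nat_lit 138)) (XT.lf (nat_lit 0) (nat_lit 70893319310) (nat_lit 684) (nat_lit 137586327980) (nat_lit 760) (nat_lit 10555944576) (nat_lit 63) (nat_lit 5) (nat_lit 72) (nat_lit 5) (nat_lit 73) (nat_lit 5) (nat_lit 294) (nat_lit 289) (nat_lit 137)))) (XT.nd (nat_lit 156) (nat_lit 912) (nat_lit 0) (XT.nd (nat_lit 78) (nat_lit 0) (nat_lit 76) (XT.lf (nat_lit 76) (nat_lit 8598942425) (nat_lit 0) (nat_lit 81782978479) (nat_lit 760) (nat_lit 138274613496) (nat_lit 64) (nat_lit 5) (nat_lit 63) (nat_lit 5) (nat_lit 73) (nat_lit 5) (nat_lit 295) (nat_lit 289) (nat_lit 136)) (XT.lf (nat_lit 0) (nat_lit 114724841355) (nat_lit 684) (nat_lit 68434061519) (nat_lit 76) (nat_lit 55723488789) (nat_lit 64) (nat_lit 5) (nat_lit 73) (nat_lit 5) (nat_lit 65) (nat_lit 5) (nat_lit 296) (nat_lit 289) (nat_lit 135))) (XT.nd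 (nat_lit 78) (nat_lit 304) (nat_lit 0) (XT.lf (nat_lit 0) (nat_lit 97046265570) (nat_lit 684) (nat_lit 46862919537) (nat_lit 760) (nat_lit 105872433714) (nat_lit 55) (nat_lit 5) (nat_lit 64) (nat_lit 5) (nat_lit 65) (nat_lit 5) (nat_lit 297) (nat_lit 289) (nat_lit 134)) (XT.nd (nat_lit 78) (nat_lit 0) (nat_lit 0) (XT.lf (nat_lit 0) (nat_lit 15629596879) (nat_lit 304) (nat_lit 162820685136) (nat_lit 380) (nat_lit 82951402595) (nat_lit 51) (nat_lit 5) (nat_lit 55) (nat_lit 5) (nat_lit 56) (nat_lit 5) (nat_lit 298) (nat_lit 289) (nat_lit 133)) (XT.lf (nat_lit 0) (nat_lit 202101393914) (nat_lit 304) (nat_lit 17091110464) (nat_lit 380) (nat_lit 54586960081) (nat_lit 51) (nat_lit 5) (nat_lit 55) (nat_lit 5) (nat_lit 56) (nat_lit 5) (nat_lit 299) (nat_lit 289) (nat_lit 132)))))) (XT.nd (nat_lit 312) (nat_lit 760) (nat_lit 0) (XT.nd (nat_lit 156) (nat_lit 304) (nat_lit 0) (XT.nd (nat_lit 78)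 (nat_lit 304) (nat_lit 0) (XT.lf (nat_lit 0) (nat_lit 117927297224) (nat_lit 304) (nat_lit 149298258792) (nat_lit 380) (nat_lit 19720338739) (nat_lit 47) (nat_lit 5) (nat_lit 51) (nat_lit 5) (nat_lit 52) (nat_lit 5) (nat_lit 300) (nat_lit 289) (nat_lit 131)) (XT.lf (nat_lit 0) (nat_lit 19377628332) (nat_lit 304) (nat_lit 276785670992) (nat_lit 76) (nat_lit 4887536071) (nat_lit 43) (nat_lit 5) (nat_lit 47) (nat_lit 5) (nat_lit 44) (nat_lit 5) (nat_lit 301) (nat_lit 289) (nat_lit 130))) (XT.nd (nat_lit 78) (nat_lit 304) (nat_lit 0) (XT.lf (nat_lit 0) (nat_lit 66431530093) (nat_lit 304) (nat_lit 79988115711) (nat_lit 76) (nat_lit 169572411690) (nat_lit 43) (nat_lit 5) (nat_lit 47) (nat_lit 5) (nat_lit 44) (nat_lit 5) (nat_lit 302) (nat_lit 289) (nat_lit 129)) (XT.lf (nat_lit 0) (nat_lit 119661549520) (nat_lit 380) (nat_lit 195359758939) (nat_lit 76) (nat_lit 16986679105) (nat_lit 39) (nat_lit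 5) (nat_lit 44) (nat_lit 5) (nat_lit 40) (nat_lit 5) (nat_lit 303) (nat_lit 289) (nat_lit 128)))) (XT.nd (nat_lit 156) (nat_lit 532) (nat_lit 0) (XT.nd (nat_lit 78) (nat_lit 0) (nat_lit 0) (XT.lf (nat_lit 0) (nat_lit 22463387794) (nat_lit 228) (nat_lit 158922265427) (nat_lit 304) (nat_lit 167707755126) (nat_lit 36) (nat_lit 5) (nat_lit 39) (nat_lit 5) (nat_lit 40) (nat_lit 5) (nat_lit 304) (nat_lit 289) (nat_lit 127)) (XT.lf (nat_lit 0) (nat_lit 251657293734) (nat_lit 304) (nat_lit 102893712546) (nat_lit 76) (nat_lit 12814176498) (nat_lit 36) (nat_lit 5) (nat_lit 40) (nat_lit 5) (nat_lit 37) (nat_lit 5) (nat_lit 305) (nat_lit 289) (nat_lit 126))) (XT.nd (nat_lit 78) (nat_lit 304) (nat_lit 0) (XT.lf (nat_lit 0) (nat_lit 140560462067) (nat_lit 228) (nat_lit 191864361154) (nat_lit 304) (nat_lit 54430168436) (nat_lit 33) (nat_lit 5) (nat_lit 36) (nat_lit 5) (nat_lit 37) (nat_lit 5) (nat_lit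 306) (nat_lit 289) (nat_lit 125)) (XT.nd (nat_lit 78) (nat_lit 228) (nat_lit 0) (XT.lf (nat_lit 0) (nat_lit 13195327695) (nat_lit 304) (nat_lit 862054621) (nat_lit 76) (nat_lit 393746349729) (nat_lit 32) (nat_lit 5) (nat_lit 36) (nat_lit 5) (nat_lit 33) (nat_lit 5) (nat_lit 307) (nat_lit 289) (nat_lit 124)) (XT.lf (nat_lit 0) (nat_lit 91459199166) (nat_lit 304) (nat_lit 161040927564) (nat_lit 76) (nat_lit 177526865172) (nat_lit 29) (nat_lit 5) (nat_lit 33) (nat_lit 5) (nat_lit 30) (nat_lit 5) (nat_lit 308) (nat_lit 289) (nat_lit 123))))))) (XT.nd (nat_lit 36504) (nat_lit 0) (nat_lit 912) (XT.nd (nat_lit 36114) (nat_lit 0) (nat_lit 2736) (XT.nd (nat_lit 156) (nat_lit 152) (nat_lit 0) (XT.nd (nat_lit 78) (nat_lit 0) (nat_lit 0) (XT.lf (nat_lit 0) (nat_lit 109699113712) (nat_lit 228) (nat_lit 68249984332) (nat_lit 304) (nat_lit 275980768907) (nat_lit 26) (nat_lit 5) (nat_lit 29) (nat_lit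 5) (nat_lit 30) (nat_lit 5) (nat_lit 309) (nat_lit 289) (nat_lit 122)) (XT.lf (nat_lit 0) (nat_lit 276250541379) (nat_lit 304) (nat_lit 73842957820) (nat_lit 76) (nat_lit 129406855444) (nat_lit 26) (nat_lit 5) (nat_lit 30) (nat_lit 5) (nat_lit 27) (nat_lit 5) (nat_lit 310) (nat_lit 289) (nat_lit 121))) (XT.nd (nat_lit 35880) (nat_lit 0) (nat_lit 2736) (XT.lf (nat_lit 0) (nat_lit 224200757593) (nat_lit 152) (nat_lit 162866486070) (nat_lit 228) (nat_lit 119816680760) (nat_lit 24) (nat_lit 5) (nat_lit 26) (nat_lit 5) (nat_lit 27) (nat_lit 5) (nat_lit 311) (nat_lit 289) (nat_lit 120)) (XT.lf (nat_lit 0) (nat_lit 7594513189) (nat_lit 0) (nat_lit 7594513189) (nat_lit 684) (nat_lit 81400560940) (nat_lit 60) (nat_lit 5) (nat_lit 60) (nat_lit 3) (nat_lit 69) (nat_lit 3) (nat_lit 290) (nat_lit 290) (nat_lit 140)))) (XT.nd (nat_lit 156) (nat_lit 0) (nat_lit 76) (XT.nd (nat_lit 78) (nat_lit 0) (nat_lit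 76) (XT.lf (nat_lit 0) (nat_lit 33410577535) (nat_lit 684) (nat_lit 54879170541) (nat_lit 760) (nat_lit 112525712561) (nat_lit 60) (nat_lit 5) (nat_lit 69) (nat_lit 3) (nat_lit 70) (nat_lit 5) (nat_lit 291) (nat_lit 290) (nat_lit 139)) (XT.lf (nat_lit 0) (nat_lit 38855679995) (nat_lit 684) (nat_lit 129248310263) (nat_lit 760) (nat_lit 40850161559) (nat_lit 61) (nat_lit 5) (nat_lit 70) (nat_lit 5) (nat_lit 71) (nat_lit 5) (nat_lit 292) (nat_lit 290) (nat_lit 138))) (XT.nd (nat_lit 78) (nat_lit 0) (nat_lit 76) (XT.lf (nat_lit 76) (nat_lit 8075141899) (nat_lit 0) (nat_lit 39247454229) (nat_lit 760) (nat_lit 170292032894) (nat_lit 62) (nat_lit 5) (nat_lit 61) (nat_lit 5) (nat_lit 71) (nat_lit 5) (nat_lit 293) (nat_lit 290) (nat_lit 137)) (XT.nd (nat_lit 78) (nat_lit 0) (nat_lit 76) (XT.lf (nat_lit 0) (nat_lit 60314978160) (nat_lit 684) (nat_lit 67452543275) (nat_lit 760) (nat_lit 99008018269)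 (nat_lit 62) (nat_lit 5) (nat_lit 71) (nat_lit 5) (nat_lit 72) (nat_lit 5) (nat_lit 294) (nat_lit 290) (nat_lit 136)) (XT.lf (nat_lit 0) (nat_lit 76568642623) (nat_lit 684) (nat_lit 148590147194) (nat_lit 760) (nat_lit 11399439692) (nat_lit 63) (nat_lit 5) (nat_lit 72) (nat_lit 5) (nat_lit 73) (nat_lit 5) (nat_lit 295) (nat_lit 290) (nat_lit 135)))))) (XT.nd (nat_lit 390) (nat_lit 1140) (nat_lit 0) (XT.nd (nat_lit 156) (nat_lit 912) (nat_lit 0) (XT.nd (nat_lit 78) (nat_lit 0) (nat_lit 76) (XT.lf (nat_lit 76) (nat_lit 9289810685) (nat_lit 0) (nat_lit 88326282002) (nat_lit 760) (nat_lit 149332767988) (nat_lit 64) (nat_lit 5) (nat_lit 63) (nat_lit 5) (nat_lit 73) (nat_lit 5) (nat_lit 296) (nat_lit 290) (nat_lit 134)) (XT.lf (nat_lit 0) (nat_lit 123906169148) (nat_lit 684) (nat_lit 73905860765) (nat_lit 76) (nat_lit 60180771640) (nat_lit 64) (nat_lit 5) (nat_lit 73) (nat_lit 5) (nat_lit 65)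 (nat_lit 5) (nat_lit 297) (nat_lit 290) (nat_lit 133))) (XT.nd (nat_lit 78) (nat_lit 304) (nat_lit 0) (XT.lf (nat_lit 0) (nat_lit 104812765345) (nat_lit 684) (nat_lit 50612291305) (nat_lit 760) (nat_lit 114338921489) (nat_lit 55) (nat_lit 5) (nat_lit 64) (nat_lit 5) (nat_lit 65) (nat_lit 5) (nat_lit 298) (nat_lit 290) (nat_lit 132)) (XT.nd (nat_lit 78) (nat_lit 0) (nat_lit 0) (XT.lf (nat_lit 0) (nat_lit 16882809380) (nat_lit 304) (nat_lit 175846439105) (nat_lit 380) (nat_lit 89584411336) (nat_lit 51) (nat_lit 5) (nat_lit 55) (nat_lit 5) (nat_lit 56) (nat_lit 5) (nat_lit 299) (nat_lit 290) (nat_lit 131)) (XT.lf (nat_lit 0) (nat_lit 218272139455) (nat_lit 304) (nat_lit 18458491115) (nat_lit 380) (nat_lit 58951043307) (nat_lit 51) (nat_lit 5) (nat_lit 55) (nat_lit 5) (nat_lit 56) (nat_lit 5) (nat_lit 300) (nat_lit 290) (nat_lit 130))))) (XT.nd (nat_lit 156) (nat_lit 532) (nat_lit 0) (XT.nd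 (nat_lit 78) (nat_lit 304) (nat_lit 0) (XT.lf (nat_lit 0) (nat_lit 127364143247) (nat_lit 304) (nat_lit 161242021415) (nat_lit 380) (nat_lit 21295262867) (nat_lit 47) (nat_lit 5) (nat_lit 51) (nat_lit 5) (nat_lit 52) (nat_lit 5) (nat_lit 301) (nat_lit 290) (nat_lit 129)) (XT.lf (nat_lit 0) (nat_lit 20930305182) (nat_lit 304) (nat_lit 298925755912) (nat_lit 76) (nat_lit 5278708458) (nat_lit 43) (nat_lit 5) (nat_lit 47) (nat_lit 5) (nat_lit 44) (nat_lit 5) (nat_lit 302) (nat_lit 290) (nat_lit 128))) (XT.nd (nat_lit 78) (nat_lit 532) (nat_lit 0) (XT.lf (nat_lit 0) (nat_lit 71748336374) (nat_lit 304) (nat_lit 86384601301) (nat_lit 76) (nat_lit 183138361571) (nat_lit 43) (nat_lit 5) (nat_lit 47) (nat_lit 5) (nat_lit 44) (nat_lit 5) (nat_lit 303) (nat_lit 290) (nat_lit 127)) (XT.nd (nat_lit 78) (nat_lit 228) (nat_lit 0) (XT.lf (nat_lit 0) (nat_lit 129236631139) (nat_lit 380) (nat_lit 210985976412)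 (nat_lit 76) (nat_lit 18345903123) (nat_lit 39) (nat_lit 5) (nat_lit 44) (nat_lit 5) (nat_lit 40) (nat_lit 5) (nat_lit 304) (nat_lit 290) (nat_lit 126)) (XT.lf (nat_lit 0) (nat_lit 24262910664) (nat_lit 228) (nat_lit 171635630925) (nat_lit 304) (nat_lit 181122230201) (nat_lit 36) (nat_lit 5) (nat_lit 39) (nat_lit 5) (nat_lit 40) (nat_lit 5) (nat_lit 305) (nat_lit 290) (nat_lit 125))))))))
noncomputable def xc124 : XT := (XT.nd (nat_lit 37362) (nat_lit 0) (nat_lit 228) (XT.nd (nat_lit 36660) (nat_lit 0) (nat_lit 1292) (XT.nd (nat_lit 312) (nat_lit 228) (nat_lit 0) (XT.nd (nat_lit 156) (nat_lit 304) (nat_lit 0) (XT.nd (nat_lit 78) (nat_lit 228) (nat_lit 0) (XT.lf (nat_lit 0) (nat_lit 271791768530) (nat_lit 304) (nat_lit 111122844198) (nat_lit 76) (nat_lit 13839683238) (nat_lit 36) (nat_lit 5) (nat_lit 40) (nat_lit 5) (nat_lit 37) (nat_lit 5) (nat_lit 306) (nat_lit 290) (nat_lit 124)) (XT.lf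 (nat_lit 0) (nat_lit 151807561589) (nat_lit 228) (nat_lit 207213034016) (nat_lit 304) (nat_lit 58782699698) (nat_lit 33) (nat_lit 5) (nat_lit 36) (nat_lit 5) (nat_lit 37) (nat_lit 5) (nat_lit 307) (nat_lit 290) (nat_lit 123))) (XT.nd (nat_lit 78) (nat_lit 228) (nat_lit 0) (XT.lf (nat_lit 0) (nat_lit 14252640920) (nat_lit 304) (nat_lit 928862642) (nat_lit 76) (nat_lit 425246437087) (nat_lit 32) (nat_lit 5) (nat_lit 36) (nat_lit 5) (nat_lit 33) (nat_lit 5) (nat_lit 308) (nat_lit 290) (nat_lit 122)) (XT.lf (nat_lit 0) (nat_lit 98777536662) (nat_lit 304) (nat_lit 173922061539) (nat_lit 76) (nat_lit 191729467782) (nat_lit 29) (nat_lit 5) (nat_lit 33) (nat_lit 5) (nat_lit 30) (nat_lit 5) (nat_lit 309) (nat_lit 290) (nat_lit 121)))) (XT.nd (nat_lit 36114) (nat_lit 0) (nat_lit 2584) (XT.nd (nat_lit 36036) (nat_lit 0) (nat_lit 2584) (XT.lf (nat_lit 0) (nat_lit 118477090027) (nat_lit 228) (nat_lit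 73709450751) (nat_lit 304) (nat_lit 298057634975) (nat_lit 26) (nat_lit 5) (nat_lit 29) (nat_lit 5) (nat_lit 30) (nat_lit 5) (nat_lit 310) (nat_lit 290) (nat_lit 120)) (XT.lf (nat_lit 0) (nat_lit 8203280430) (nat_lit 0) (nat_lit 8203280430) (nat_lit 684) (nat_lit 87910062233) (nat_lit 60) (nat_lit 5) (nat_lit 60) (nat_lit 3) (nat_lit 69) (nat_lit 3) (nat_lit 291) (nat_lit 291) (nat_lit 138))) (XT.nd (nat_lit 78) (nat_lit 0) (nat_lit 76) (XT.lf (nat_lit 0) (nat_lit 36087856217) (nat_lit 684) (nat_lit 59266992650) (nat_lit 760) (nat_lit 121525607381) (nat_lit 60) (nat_lit 5) (nat_lit 69) (nat_lit 3) (nat_lit 70) (nat_lit 5) (nat_lit 292) (nat_lit 291) (nat_lit 137)) (XT.nd (nat_lit 78) (nat_lit 0) (nat_lit 0) (XT.lf (nat_lit 0) (nat_lit 41968248896) (nat_lit 684) (nat_lit 139585520296) (nat_lit 760) (nat_lit 44116490882) (nat_lit 61) (nat_lit 5) (nat_lit 70) (nat_lit 5) (nat_lit 71) (nat_lit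 5) (nat_lit 293) (nat_lit 291) (nat_lit 136)) (XT.lf (nat_lit 76) (nat_lit 8723692665) (nat_lit 0) (nat_lit 42388560523) (nat_lit 760) (nat_lit 183911336869) (nat_lit 62) (nat_lit 5) (nat_lit 61) (nat_lit 5) (nat_lit 71) (nat_lit 5) (nat_lit 294) (nat_lit 291) (nat_lit 135)))))) (XT.nd (nat_lit 312) (nat_lit 1444) (nat_lit 0) (XT.nd (nat_lit 156) (nat_lit 0) (nat_lit 76) (XT.nd (nat_lit 78) (nat_lit 0) (nat_lit 76) (XT.lf (nat_lit 0) (nat_lit 65143721707) (nat_lit 684) (nat_lit 72846182707) (nat_lit 760) (nat_lit 106927485629) (nat_lit 62) (nat_lit 5) (nat_lit 71) (nat_lit 5) (nat_lit 72) (nat_lit 5) (nat_lit 295) (nat_lit 291) (nat_lit 134)) (XT.lf (nat_lit 0) (nat_lit 82697441447) (nat_lit 684) (nat_lit 160474712344) (nat_lit 760) (nat_lit 12310554289) (nat_lit 63) (nat_lit 5) (nat_lit 72) (nat_lit 5) (nat_lit 73) (nat_lit 5) (nat_lit 296) (nat_lit 291) (nat_lit 133))) (XT.nd (nat_lit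 78) (nat_lit 0) (nat_lit 76) (XT.lf (nat_lit 76) (nat_lit 10035527146) (nat_lit 0) (nat_lit 95392954902) (nat_lit 760) (nat_lit 161276119033) (nat_lit 64) (nat_lit 5) (nat_lit 63) (nat_lit 5) (nat_lit 73) (nat_lit 5) (nat_lit 297) (nat_lit 291) (nat_lit 132)) (XT.lf (nat_lit 0) (nat_lit 133821526607) (nat_lit 684) (nat_lit 79815821330) (nat_lit 76) (nat_lit 64994722182) (nat_lit 64) (nat_lit 5) (nat_lit 73) (nat_lit 5) (nat_lit 65) (nat_lit 5) (nat_lit 298) (nat_lit 291) (nat_lit 131)))) (XT.nd (nat_lit 156) (nat_lit 608) (nat_lit 0) (XT.nd (nat_lit 78) (nat_lit 304) (nat_lit 0) (XT.lf (nat_lit 0) (nat_lit 113200185861) (nat_lit 684) (nat_lit 54661564566) (nat_lit 760) (nat_lit 123483200056) (nat_lit 55) (nat_lit 5) (nat_lit 64) (nat_lit 5) (nat_lit 65) (nat_lit 5) (nat_lit 299) (nat_lit 291) (nat_lit 130)) (XT.lf (nat_lit 0) (nat_lit 18235873046) (nat_lit 304) (nat_lit 189914239245)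 (nat_lit 380) (nat_lit 96748503521) (nat_lit 51) (nat_lit 5) (nat_lit 55) (nat_lit 5) (nat_lit 56) (nat_lit 5) (nat_lit 300) (nat_lit 291) (nat_lit 129))) (XT.nd (nat_lit 78) (nat_lit 608) (nat_lit 0) (XT.lf (nat_lit 0) (nat_lit 235736168867) (nat_lit 304) (nat_lit 19935249119) (nat_lit 380) (nat_lit 63664663140) (nat_lit 51) (nat_lit 5) (nat_lit 55) (nat_lit 5) (nat_lit 56) (nat_lit 5) (nat_lit 301) (nat_lit 291) (nat_lit 128)) (XT.nd (nat_lit 78) (nat_lit 304) (nat_lit 0) (XT.lf (nat_lit 0) (nat_lit 137555557154) (nat_lit 304) (nat_lit 174141299040) (nat_lit 380) (nat_lit 22996566534) (nat_lit 47) (nat_lit 5) (nat_lit 51) (nat_lit 5) (nat_lit 52) (nat_lit 5) (nat_lit 302) (nat_lit 291) (nat_lit 127)) (XT.lf (nat_lit 0) (nat_lit 22606844294) (nat_lit 304) (nat_lit 322837442620) (nat_lit 76) (nat_lit 5701150454) (nat_lit 43) (nat_lit 5) (nat_lit 47) (nat_lit 5) (nat_lit 44) (nat_lit 5)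 (nat_lit 303) (nat_lit 291) (nat_lit 126))))))) (XT.nd (nat_lit 36738) (nat_lit 0) (nat_lit 1672) (XT.nd (nat_lit 312) (nat_lit 532) (nat_lit 0) (XT.nd (nat_lit 156) (nat_lit 228) (nat_lit 0) (XT.nd (nat_lit 78) (nat_lit 304) (nat_lit 0) (XT.lf (nat_lit 0) (nat_lit 77490161337) (nat_lit 304) (nat_lit 93293171475) (nat_lit 76) (nat_lit 197789565052) (nat_lit 43) (nat_lit 5) (nat_lit 47) (nat_lit 5) (nat_lit 44) (nat_lit 5) (nat_lit 304) (nat_lit 291) (nat_lit 125)) (XT.lf (nat_lit 0) (nat_lit 139577411473) (nat_lit 380) (nat_lit 227862656959) (nat_lit 76) (nat_lit 19813823735) (nat_lit 39) (nat_lit 5) (nat_lit 44) (nat_lit 5) (nat_lit 40) (nat_lit 5) (nat_lit 305) (nat_lit 291) (nat_lit 124))) (XT.nd (nat_lit 78) (nat_lit 0) (nat_lit 0) (XT.lf (nat_lit 0) (nat_lit 26206045580) (nat_lit 228) (nat_lit 185366124973) (nat_lit 304) (nat_lit 195610169338) (nat_lit 36) (nat_lit 5) (nat_lit 39)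 (nat_lit 5) (nat_lit 40) (nat_lit 5) (nat_lit 306) (nat_lit 291) (nat_lit 123)) (XT.lf (nat_lit 0) (nat_lit 293536731495) (nat_lit 304) (nat_lit 120010643826) (nat_lit 76) (nat_lit 14947177359) (nat_lit 36) (nat_lit 5) (nat_lit 40) (nat_lit 5) (nat_lit 37) (nat_lit 5) (nat_lit 307) (nat_lit 291) (nat_lit 122)))) (XT.nd (nat_lit 156) (nat_lit 228) (nat_lit 0) (XT.nd (nat_lit 78) (nat_lit 76) (nat_lit 0) (XT.lf (nat_lit 0) (nat_lit 163954106293) (nat_lit 228) (nat_lit 223789668618) (nat_lit 304) (nat_lit 63483701979) (nat_lit 33) (nat_lit 5) (nat_lit 36) (nat_lit 5) (nat_lit 37) (nat_lit 5) (nat_lit 308) (nat_lit 291) (nat_lit 121)) (XT.lf (nat_lit 0) (nat_lit 15394298533) (nat_lit 304) (nat_lit 1001322932) (nat_lit 76) (nat_lit 459266477311) (nat_lit 32) (nat_lit 5) (nat_lit 36) (nat_lit 5) (nat_lit 33) (nat_lit 5) (nat_lit 309) (nat_lit 291) (nat_lit 120))) (XT.nd (nat_lit 36114) (nat_lit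 0) (nat_lit 2356) (XT.lf (nat_lit 0) (nat_lit 106681112676) (nat_lit 304) (nat_lit 187833991560) (nat_lit 76) (nat_lit 207068213918) (nat_lit 29) (nat_lit 5) (nat_lit 33) (nat_lit 5) (nat_lit 30) (nat_lit 5) (nat_lit 310) (nat_lit 291) (nat_lit 119)) (XT.nd (nat_lit 78) (nat_lit 0) (nat_lit 0) (XT.lf (nat_lit 0) (nat_lit 8860576974) (nat_lit 0) (nat_lit 8860576974) (nat_lit 684) (nat_lit 94940686500) (nat_lit 60) (nat_lit 5) (nat_lit 60) (nat_lit 3) (nat_lit 69) (nat_lit 3) (nat_lit 292) (nat_lit 292) (nat_lit 136)) (XT.lf (nat_lit 0) (nat_lit 38978684851) (nat_lit 684) (nat_lit 64006198826) (nat_lit 760) (nat_lit 131245802247) (nat_lit 60) (nat_lit 5) (nat_lit 69) (nat_lit 3) (nat_lit 70) (nat_lit 5) (nat_lit 293) (nat_lit 292) (nat_lit 135)))))) (XT.nd (nat_lit 312) (nat_lit 760) (nat_lit 0) (XT.nd (nat_lit 156) (nat_lit 0) (nat_lit 76) (XT.nd (nat_lit 78) (nat_lit 0) (nat_lit 0) (XT.lf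 (nat_lit 0) (nat_lit 45329236328) (nat_lit 684) (nat_lit 150750085867) (nat_lit 760) (nat_lit 47644366736) (nat_lit 61) (nat_lit 5) (nat_lit 70) (nat_lit 5) (nat_lit 71) (nat_lit 5) (nat_lit 294) (nat_lit 292) (nat_lit 134)) (XT.lf (nat_lit 76) (nat_lit 9423765216) (nat_lit 0) (nat_lit 45780768441) (nat_lit 760) (nat_lit 198620764175) (nat_lit 62) (nat_lit 5) (nat_lit 61) (nat_lit 5) (nat_lit 71) (nat_lit 5) (nat_lit 295) (nat_lit 292) (nat_lit 133))) (XT.nd (nat_lit 78) (nat_lit 0) (nat_lit 76) (XT.lf (nat_lit 0) (nat_lit 70358258962) (nat_lit 684) (nat_lit 78671679082) (nat_lit 760) (nat_lit 115480677877) (nat_lit 62) (nat_lit 5) (nat_lit 71) (nat_lit 5) (nat_lit 72) (nat_lit 5) (nat_lit 296) (nat_lit 292) (nat_lit 132)) (XT.lf (nat_lit 0) (nat_lit 89316072338) (nat_lit 684) (nat_lit 173310420277) (nat_lit 760) (nat_lit 13294677972) (nat_lit 63) (nat_lit 5) (nat_lit 72) (nat_lit 5)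 (nat_lit 73) (nat_lit 5) (nat_lit 297) (nat_lit 292) (nat_lit 131)))) (XT.nd (nat_lit 156) (nat_lit 912) (nat_lit 0) (XT.nd (nat_lit 78) (nat_lit 0) (nat_lit 76) (XT.lf (nat_lit 76) (nat_lit 10840539762) (nat_lit 0) (nat_lit 103024880269) (nat_lit 760) (nat_lit 174175404720) (nat_lit 64) (nat_lit 5) (nat_lit 63) (nat_lit 5) (nat_lit 73) (nat_lit 5) (nat_lit 298) (nat_lit 292) (nat_lit 130)) (XT.lf (nat_lit 0) (nat_lit 144529704092) (nat_lit 684) (nat_lit 86198936578) (nat_lit 76) (nat_lit 70193861693) (nat_lit 64) (nat_lit 5) (nat_lit 73) (nat_lit 5) (nat_lit 65) (nat_lit 5) (nat_lit 299) (nat_lit 292) (nat_lit 129))) (XT.nd (nat_lit 78) (nat_lit 304) (nat_lit 0) (XT.lf (nat_lit 0) (nat_lit 122258257732) (nat_lit 684) (nat_lit 59034738322) (nat_lit 760) (nat_lit 133359425374) (nat_lit 55) (nat_lit 5) (nat_lit 64) (nat_lit 5) (nat_lit 65) (nat_lit 5) (nat_lit 300) (nat_lit 292) (nat_lit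 128)) (XT.nd (nat_lit 78) (nat_lit 0) (nat_lit 0) (XT.lf (nat_lit 0) (nat_lit 19696833866) (nat_lit 304) (nat_lit 205107451269) (nat_lit 380) (nat_lit 104486102662) (nat_lit 51) (nat_lit 5) (nat_lit 55) (nat_lit 5) (nat_lit 56) (nat_lit 5) (nat_lit 301) (nat_lit 292) (nat_lit 127)) (XT.lf (nat_lit 0) (nat_lit 254596998466) (nat_lit 304) (nat_lit 21530136534) (nat_lit 380) (nat_lit 68755724025) (nat_lit 51) (nat_lit 5) (nat_lit 55) (nat_lit 5) (nat_lit 56) (nat_lit 5) (nat_lit 302) (nat_lit 292) (nat_lit 126))))))))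
noncomputable def xc125 : XT := (XT.nd (nat_lit 37596) (nat_lit 0) (nat_lit 228) (XT.nd (nat_lit 36894) (nat_lit 0) (nat_lit 1368) (XT.nd (nat_lit 312) (nat_lit 456) (nat_lit 0) (XT.nd (nat_lit 156) (nat_lit 304) (nat_lit 0) (XT.nd (nat_lit 78) (nat_lit 304) (nat_lit 0) (XT.lf (nat_lit 0) (nat_lit 148561958556) (nat_lit 304) (nat_lit 188072530872) (nat_lit 380) (nat_lit 24834305091) (nat_lit 47) (nat_lit 5) (nat_lit 51) (nat_lit 5) (nat_lit 52) (nat_lit 5) (nat_lit 303) (nat_lit 292) (nat_lit 125)) (XT.lf (nat_lit 0) (nat_lit 24417204850) (nat_lit 304) (nat_lit 348662402909) (nat_lit 76) (nat_lit 6157367079) (nat_lit 43) (nat_lit 5) (nat_lit 47) (nat_lit 5) (nat_lit 44) (nat_lit 5) (nat_lit 304) (nat_lit 292) (nat_lit 124))) (XT.nd (nat_lit 78) (nat_lit 304) (nat_lit 0) (XT.lf (nat_lit 0) (nat_lit 83691052960) (nat_lit 304) (nat_lit 100754740822) (nat_lit 76) (nat_lit 213612845616) (nat_lit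 43) (nat_lit 5) (nat_lit 47) (nat_lit 5) (nat_lit 44) (nat_lit 5) (nat_lit 305) (nat_lit 292) (nat_lit 123)) (XT.lf (nat_lit 0) (nat_lit 150745190332) (nat_lit 380) (nat_lit 246089785456) (nat_lit 76) (nat_lit 21399142565) (nat_lit 39) (nat_lit 5) (nat_lit 44) (nat_lit 5) (nat_lit 40) (nat_lit 5) (nat_lit 306) (nat_lit 292) (nat_lit 122)))) (XT.nd (nat_lit 156) (nat_lit 228) (nat_lit 0) (XT.nd (nat_lit 78) (nat_lit 0) (nat_lit 0) (XT.lf (nat_lit 0) (nat_lit 28304331407) (nat_lit 228) (nat_lit 200195109392) (nat_lit 304) (nat_lit 211257406000) (nat_lit 36) (nat_lit 5) (nat_lit 39) (nat_lit 5) (nat_lit 40) (nat_lit 5) (nat_lit 307) (nat_lit 292) (nat_lit 121)) (XT.lf (nat_lit 0) (nat_lit 317021060175) (nat_lit 304) (nat_lit 129609756728) (nat_lit 76) (nat_lit 16143225434) (nat_lit 36) (nat_lit 5) (nat_lit 40) (nat_lit 5) (nat_lit 37) (nat_lit 5) (nat_lit 308) (nat_lit 292) (nat_lit 120)))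 (XT.nd (nat_lit 36270) (nat_lit 0) (nat_lit 2052) (XT.lf (nat_lit 0) (nat_lit 177072097843) (nat_lit 228) (nat_lit 241692492211) (nat_lit 304) (nat_lit 68561014655) (nat_lit 33) (nat_lit 5) (nat_lit 36) (nat_lit 5) (nat_lit 37) (nat_lit 5) (nat_lit 309) (nat_lit 292) (nat_lit 119)) (XT.nd (nat_lit 78) (nat_lit 0) (nat_lit 0) (XT.lf (nat_lit 0) (nat_lit 9570309714) (nat_lit 0) (nat_lit 9570309714) (nat_lit 684) (nat_lit 102534071812) (nat_lit 60) (nat_lit 5) (nat_lit 60) (nat_lit 3) (nat_lit 69) (nat_lit 3) (nat_lit 293) (nat_lit 293) (nat_lit 134)) (XT.lf (nat_lit 0) (nat_lit 42100237644) (nat_lit 684) (nat_lit 69124848679) (nat_lit 760) (nat_lit 141743877156) (nat_lit 60) (nat_lit 5) (nat_lit 69) (nat_lit 3) (nat_lit 70) (nat_lit 5) (nat_lit 294) (nat_lit 293) (nat_lit 133)))))) (XT.nd (nat_lit 312) (nat_lit 760) (nat_lit 0) (XT.nd (nat_lit 156) (nat_lit 0) (nat_lit 76) (XT.nd (nat_lit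 78) (nat_lit 0) (nat_lit 0) (XT.lf (nat_lit 0) (nat_lit 48958599515) (nat_lit 684) (nat_lit 162808141389) (nat_lit 760) (nat_lit 51454678578) (nat_lit 61) (nat_lit 5) (nat_lit 70) (nat_lit 5) (nat_lit 71) (nat_lit 5) (nat_lit 295) (nat_lit 293) (nat_lit 132)) (XT.lf (nat_lit 76) (nat_lit 10179532978) (nat_lit 0) (nat_lit 49444192774) (nat_lit 760) (nat_lit 214507442076) (nat_lit 62) (nat_lit 5) (nat_lit 61) (nat_lit 5) (nat_lit 71) (nat_lit 5) (nat_lit 296) (nat_lit 293) (nat_lit 131))) (XT.nd (nat_lit 78) (nat_lit 0) (nat_lit 76) (XT.lf (nat_lit 0) (nat_lit 75989525576) (nat_lit 684) (nat_lit 84963528769) (nat_lit 760) (nat_lit 124718269108) (nat_lit 62) (nat_lit 5) (nat_lit 71) (nat_lit 5) (nat_lit 72) (nat_lit 5) (nat_lit 297) (nat_lit 293) (nat_lit 130)) (XT.lf (nat_lit 0) (nat_lit 96463789173) (nat_lit 684) (nat_lit 187173308551) (nat_lit 760) (nat_lit 14357634359) (nat_lit 63) (nat_lit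 5) (nat_lit 72) (nat_lit 5) (nat_lit 73) (nat_lit 5) (nat_lit 298) (nat_lit 293) (nat_lit 129)))) (XT.nd (nat_lit 156) (nat_lit 912) (nat_lit 0) (XT.nd (nat_lit 78) (nat_lit 0) (nat_lit 76) (XT.lf (nat_lit 76) (nat_lit 11709643749) (nat_lit 0) (nat_lit 111267289907) (nat_lit 760) (nat_lit 188107033260) (nat_lit 64) (nat_lit 5) (nat_lit 63) (nat_lit 5) (nat_lit 73) (nat_lit 5) (nat_lit 299) (nat_lit 293) (nat_lit 128)) (XT.lf (nat_lit 0) (nat_lit 156094185491) (nat_lit 684) (nat_lit 93093007832) (nat_lit 76) (nat_lit 75808994889) (nat_lit 64) (nat_lit 5) (nat_lit 73) (nat_lit 5) (nat_lit 65) (nat_lit 5) (nat_lit 300) (nat_lit 293) (nat_lit 127))) (XT.nd (nat_lit 78) (nat_lit 304) (nat_lit 0) (XT.lf (nat_lit 0) (nat_lit 132040681899) (nat_lit 684) (nat_lit 63757730514) (nat_lit 760) (nat_lit 144026095483) (nat_lit 55) (nat_lit 5) (nat_lit 64) (nat_lit 5) (nat_lit 65) (nat_lit 5) (nat_lit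 301) (nat_lit 293) (nat_lit 126)) (XT.nd (nat_lit 78) (nat_lit 0) (nat_lit 0) (XT.lf (nat_lit 0) (nat_lit 21274373251) (nat_lit 304) (nat_lit 221516109857) (nat_lit 380) (nat_lit 112843035165) (nat_lit 51) (nat_lit 5) (nat_lit 55) (nat_lit 5) (nat_lit 56) (nat_lit 5) (nat_lit 302) (nat_lit 293) (nat_lit 125)) (XT.lf (nat_lit 0) (nat_lit 274966418228) (nat_lit 304) (nat_lit 23252605314) (nat_lit 380) (nat_lit 74254371104) (nat_lit 51) (nat_lit 5) (nat_lit 55) (nat_lit 5) (nat_lit 56) (nat_lit 5) (nat_lit 303) (nat_lit 293) (nat_lit 124))))))) (XT.nd (nat_lit 36972) (nat_lit 0) (nat_lit 532) (XT.nd (nat_lit 312) (nat_lit 228) (nat_lit 0) (XT.nd (nat_lit 156) (nat_lit 304) (nat_lit 0) (XT.nd (nat_lit 78) (nat_lit 304) (nat_lit 0) (XT.lf (nat_lit 0) (nat_lit 160448592907) (nat_lit 304) (nat_lit 203118271534) (nat_lit 380) (nat_lit 26819346168) (nat_lit 47) (nat_lit 5) (nat_lit 51) (nat_lit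 5) (nat_lit 52) (nat_lit 5) (nat_lit 304) (nat_lit 293) (nat_lit 123)) (XT.lf (nat_lit 0) (nat_lit 26372135604) (nat_lit 304) (nat_lit 376553650353) (nat_lit 76) (nat_lit 6650063260) (nat_lit 43) (nat_lit 5) (nat_lit 47) (nat_lit 5) (nat_lit 44) (nat_lit 5) (nat_lit 305) (nat_lit 293) (nat_lit 122))) (XT.nd (nat_lit 78) (nat_lit 304) (nat_lit 0) (XT.lf (nat_lit 0) (nat_lit 90387776424) (nat_lit 304) (nat_lit 108813504543) (nat_lit 76) (nat_lit 230701972167) (nat_lit 43) (nat_lit 5) (nat_lit 47) (nat_lit 5) (nat_lit 44) (nat_lit 5) (nat_lit 306) (nat_lit 293) (nat_lit 121)) (XT.lf (nat_lit 0) (nat_lit 162806165249) (nat_lit 380) (nat_lit 265775353016) (nat_lit 76) (nat_lit 23111256523) (nat_lit 39) (nat_lit 5) (nat_lit 44) (nat_lit 5) (nat_lit 40) (nat_lit 5) (nat_lit 307) (nat_lit 293) (nat_lit 120)))) (XT.nd (nat_lit 36426) (nat_lit 0) (nat_lit 1824) (XT.nd (nat_lit 78) (nat_lit 0) (nat_lit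 0) (XT.lf (nat_lit 0) (nat_lit 30570222999) (nat_lit 228) (nat_lit 216210456160) (nat_lit 304) (nat_lit 228156646555) (nat_lit 36) (nat_lit 5) (nat_lit 39) (nat_lit 5) (nat_lit 40) (nat_lit 5) (nat_lit 308) (nat_lit 293) (nat_lit 119)) (XT.lf (nat_lit 0) (nat_lit 342383936827) (nat_lit 304) (nat_lit 139977046693) (nat_lit 76) (nat_lit 17434918283) (nat_lit 36) (nat_lit 5) (nat_lit 40) (nat_lit 5) (nat_lit 37) (nat_lit 5) (nat_lit 309) (nat_lit 293) (nat_lit 118))) (XT.nd (nat_lit 78) (nat_lit 0) (nat_lit 0) (XT.lf (nat_lit 0) (nat_lit 10336694593) (nat_lit 0) (nat_lit 10336694593) (nat_lit 684) (nat_lit 110735194668) (nat_lit 60) (nat_lit 5) (nat_lit 60) (nat_lit 3) (nat_lit 69) (nat_lit 3) (nat_lit 294) (nat_lit 294) (nat_lit 132)) (XT.nd (nat_lit 78) (nat_lit 0) (nat_lit 76) (XT.lf (nat_lit 0) (nat_lit 45471049869) (nat_lit 684) (nat_lit 74653253880) (nat_lit 760) (nat_lit 153082024785)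 (nat_lit 60) (nat_lit 5) (nat_lit 69) (nat_lit 3) (nat_lit 70) (nat_lit 5) (nat_lit 295) (nat_lit 294) (nat_lit 131)) (XT.lf (nat_lit 0) (nat_lit 52877880310) (nat_lit 684) (nat_lit 175831119733) (nat_lit 760) (nat_lit 55569991909) (nat_lit 61) (nat_lit 5) (nat_lit 70) (nat_lit 5) (nat_lit 71) (nat_lit 5) (nat_lit 296) (nat_lit 294) (nat_lit 130)))))) (XT.nd (nat_lit 390) (nat_lit 1368) (nat_lit 0) (XT.nd (nat_lit 156) (nat_lit 0) (nat_lit 152) (XT.nd (nat_lit 78) (nat_lit 0) (nat_lit 76) (XT.lf (nat_lit 76) (nat_lit 10995495878) (nat_lit 0) (nat_lit 53400553690) (nat_lit 760) (nat_lit 231665479800) (nat_lit 62) (nat_lit 5) (nat_lit 61) (nat_lit 5) (nat_lit 71) (nat_lit 5) (nat_lit 297) (nat_lit 294) (nat_lit 129)) (XT.lf (nat_lit 0) (nat_lit 82070921759) (nat_lit 684) (nat_lit 91758995297) (nat_lit 760) (nat_lit 134694990753) (nat_lit 62) (nat_lit 5) (nat_lit 71) (nat_lit 5) (nat_lit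 72) (nat_lit 5) (nat_lit 298) (nat_lit 294) (nat_lit 128))) (XT.nd (nat_lit 78) (nat_lit 0) (nat_lit 0) (XT.lf (nat_lit 0) (nat_lit 104182976539) (nat_lit 684) (nat_lit 202145505412) (nat_lit 760) (nat_lit 15505715401) (nat_lit 63) (nat_lit 5) (nat_lit 72) (nat_lit 5) (nat_lit 73) (nat_lit 5) (nat_lit 299) (nat_lit 294) (nat_lit 127)) (XT.nd (nat_lit 78) (nat_lit 0) (nat_lit 76) (XT.lf (nat_lit 76) (nat_lit 12648010591) (nat_lit 0) (nat_lit 120169032510) (nat_lit 760) (nat_lit 203153535018) (nat_lit 64) (nat_lit 5) (nat_lit 63) (nat_lit 5) (nat_lit 73) (nat_lit 5) (nat_lit 300) (nat_lit 294) (nat_lit 126)) (XT.lf (nat_lit 0) (nat_lit 168583525091) (nat_lit 684) (nat_lit 100538867807) (nat_lit 76) (nat_lit 81873392343) (nat_lit 64) (nat_lit 5) (nat_lit 73) (nat_lit 5) (nat_lit 65) (nat_lit 5) (nat_lit 301) (nat_lit 294) (nat_lit 125))))) (XT.nd (nat_lit 156) (nat_lit 608) (nat_lit 0) (XT.nd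 (nat_lit 78) (nat_lit 304) (nat_lit 0) (XT.lf (nat_lit 0) (nat_lit 142605448410) (nat_lit 684) (nat_lit 68858531677) (nat_lit 760) (nat_lit 155546396495) (nat_lit 55) (nat_lit 5) (nat_lit 64) (nat_lit 5) (nat_lit 65) (nat_lit 5) (nat_lit 302) (nat_lit 294) (nat_lit 124)) (XT.lf (nat_lit 0) (nat_lit 22977860041) (nat_lit 304) (nat_lit 239237452218) (nat_lit 380) (nat_lit 121868801272) (nat_lit 51) (nat_lit 5) (nat_lit 55) (nat_lit 5) (nat_lit 56) (nat_lit 5) (nat_lit 303) (nat_lit 294) (nat_lit 123))) (XT.nd (nat_lit 78) (nat_lit 608) (nat_lit 0) (XT.lf (nat_lit 0) (nat_lit 296965154770) (nat_lit 304) (nat_lit 25112863343) (nat_lit 380) (nat_lit 80193168287) (nat_lit 51) (nat_lit 5) (nat_lit 55) (nat_lit 5) (nat_lit 56) (nat_lit 5) (nat_lit 304) (nat_lit 294) (nat_lit 122)) (XT.nd (nat_lit 78) (nat_lit 304) (nat_lit 0) (XT.lf (nat_lit 0) (nat_lit 173285918668) (nat_lit 304) (nat_lit 219367680267)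 (nat_lit 380) (nat_lit 28963433530) (nat_lit 47) (nat_lit 5) (nat_lit 51) (nat_lit 5) (nat_lit 52) (nat_lit 5) (nat_lit 305) (nat_lit 294) (nat_lit 121)) (XT.lf (nat_lit 0) (nat_lit 28483239071) (nat_lit 304) (nat_lit 406676446507) (nat_lit 76) (nat_lit 7182159896) (nat_lit 43) (nat_lit 5) (nat_lit 47) (nat_lit 5) (nat_lit 44) (nat_lit 5) (nat_lit 306) (nat_lit 294) (nat_lit 120))))))))
noncomputable def xc126 : XT := (XT.nd (nat_lit 74256) (nat_lit 0) (nat_lit 532) (XT.nd (nat_lit 37050) (nat_lit 0) (nat_lit 532) (XT.nd (nat_lit 36660) (nat_lit 0) (nat_lit 1824) (XT.nd (nat_lit 156) (nat_lit 228) (nat_lit 0) (XT.nd (nat_lit 78) (nat_lit 304) (nat_lit 0) (XT.lf (nat_lit 0) (nat_lit 97620032444) (nat_lit 304) (nat_lit 117517199838) (nat_lit 76) (nat_lit 249158214734) (nat_lit 43) (nat_lit 5) (nat_lit 47) (nat_lit 5) (nat_lit 44) (nat_lit 5) (nat_lit 307) (nat_lit 294) (nat_lit 119)) (XT.lf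 (nat_lit 0) (nat_lit 175831824183) (nat_lit 380) (nat_lit 287035996417) (nat_lit 76) (nat_lit 24960313556) (nat_lit 39) (nat_lit 5) (nat_lit 44) (nat_lit 5) (nat_lit 40) (nat_lit 5) (nat_lit 308) (nat_lit 294) (nat_lit 118))) (XT.nd (nat_lit 36426) (nat_lit 0) (nat_lit 1824) (XT.lf (nat_lit 0) (nat_lit 33017165495) (nat_lit 228) (nat_lit 233507068043) (nat_lit 304) (nat_lit 246408019222) (nat_lit 36) (nat_lit 5) (nat_lit 39) (nat_lit 5) (nat_lit 40) (nat_lit 5) (nat_lit 309) (nat_lit 294) (nat_lit 117)) (XT.lf (nat_lit 0) (nat_lit 11164281824) (nat_lit 0) (nat_lit 11164281824) (nat_lit 684) (nat_lit 119592636024) (nat_lit 60) (nat_lit 5) (nat_lit 60) (nat_lit 3) (nat_lit 69) (nat_lit 3) (nat_lit 295) (nat_lit 295) (nat_lit 130)))) (XT.nd (nat_lit 156) (nat_lit 0) (nat_lit 76) (XT.nd (nat_lit 78) (nat_lit 0) (nat_lit 76) (XT.lf (nat_lit 0) (nat_lit 49111128589) (nat_lit 684) (nat_lit 80624157287)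 (nat_lit 760) (nat_lit 165327418607) (nat_lit 60) (nat_lit 5) (nat_lit 69) (nat_lit 3) (nat_lit 70) (nat_lit 5) (nat_lit 296) (nat_lit 295) (nat_lit 129)) (XT.lf (nat_lit 0) (nat_lit 57110333671) (nat_lit 684) (nat_lit 189896175013) (nat_lit 760) (nat_lit 60014681665) (nat_lit 61) (nat_lit 5) (nat_lit 70) (nat_lit 5) (nat_lit 71) (nat_lit 5) (nat_lit 297) (nat_lit 295) (nat_lit 128))) (XT.nd (nat_lit 78) (nat_lit 0) (nat_lit 76) (XT.lf (nat_lit 76) (nat_lit 11876507514) (nat_lit 0) (nat_lit 57673305714) (nat_lit 760) (nat_lit 250196525418) (nat_lit 62) (nat_lit 5) (nat_lit 61) (nat_lit 5) (nat_lit 71) (nat_lit 5) (nat_lit 298) (nat_lit 295) (nat_lit 127)) (XT.nd (nat_lit 78) (nat_lit 0) (nat_lit 76) (XT.lf (nat_lit 0) (nat_lit 88638510912) (nat_lit 684) (nat_lit 99098329655) (nat_lit 760) (nat_lit 145469955683) (nat_lit 62) (nat_lit 5) (nat_lit 71) (nat_lit 5) (nat_lit 72) (nat_lit 5)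 (nat_lit 299) (nat_lit 295) (nat_lit 126)) (XT.lf (nat_lit 0) (nat_lit 112519401555) (nat_lit 684) (nat_lit 218315715956) (nat_lit 760) (nat_lit 16745718495) (nat_lit 63) (nat_lit 5) (nat_lit 72) (nat_lit 5) (nat_lit 73) (nat_lit 5) (nat_lit 300) (nat_lit 295) (nat_lit 125)))))) (XT.nd (nat_lit 312) (nat_lit 608) (nat_lit 0) (XT.nd (nat_lit 156) (nat_lit 912) (nat_lit 0) (XT.nd (nat_lit 78) (nat_lit 0) (nat_lit 76) (XT.lf (nat_lit 76) (nat_lit 13661219186) (nat_lit 0) (nat_lit 129782863248) (nat_lit 760) (nat_lit 219404050927) (nat_lit 64) (nat_lit 5) (nat_lit 63) (nat_lit 5) (nat_lit 73) (nat_lit 5) (nat_lit 301) (nat_lit 295) (nat_lit 124)) (XT.lf (nat_lit 0) (nat_lit 182071754389) (nat_lit 684) (nat_lit 108580622078) (nat_lit 76) (nat_lit 88422987551) (nat_lit 64) (nat_lit 5) (nat_lit 73) (nat_lit 5) (nat_lit 65) (nat_lit 5) (nat_lit 302) (nat_lit 295) (nat_lit 123))) (XT.nd (nat_lit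 78) (nat_lit 304) (nat_lit 0) (XT.lf (nat_lit 0) (nat_lit 154015180543) (nat_lit 684) (nat_lit 74367370865) (nat_lit 760) (nat_lit 167988576470) (nat_lit 55) (nat_lit 5) (nat_lit 64) (nat_lit 5) (nat_lit 65) (nat_lit 5) (nat_lit 303) (nat_lit 295) (nat_lit 122)) (XT.lf (nat_lit 0) (nat_lit 24817406515) (nat_lit 304) (nat_lit 258376494325) (nat_lit 380) (nat_lit 131616867869) (nat_lit 51) (nat_lit 5) (nat_lit 55) (nat_lit 5) (nat_lit 56) (nat_lit 5) (nat_lit 304) (nat_lit 295) (nat_lit 121)))) (XT.nd (nat_lit 156) (nat_lit 304) (nat_lit 0) (XT.nd (nat_lit 78) (nat_lit 304) (nat_lit 0) (XT.lf (nat_lit 0) (nat_lit 320723587216) (nat_lit 304) (nat_lit 27121934938) (nat_lit 380) (nat_lit 86607290726) (nat_lit 51) (nat_lit 5) (nat_lit 55) (nat_lit 5) (nat_lit 56) (nat_lit 5) (nat_lit 305) (nat_lit 295) (nat_lit 120)) (XT.lf (nat_lit 0) (nat_lit 187150025297) (nat_lit 304) (nat_lit 236917049258)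 (nat_lit 380) (nat_lit 31279256213) (nat_lit 47) (nat_lit 5) (nat_lit 51) (nat_lit 5) (nat_lit 52) (nat_lit 5) (nat_lit 306) (nat_lit 295) (nat_lit 119))) (XT.nd (nat_lit 78) (nat_lit 0) (nat_lit 0) (XT.lf (nat_lit 0) (nat_lit 30763040702) (nat_lit 304) (nat_lit 439209279756) (nat_lit 76) (nat_lit 7756811200) (nat_lit 43) (nat_lit 5) (nat_lit 47) (nat_lit 5) (nat_lit 44) (nat_lit 5) (nat_lit 307) (nat_lit 295) (nat_lit 118)) (XT.nd (nat_lit 36582) (nat_lit 0) (nat_lit 1292) (XT.lf (nat_lit 0) (nat_lit 105430692915) (nat_lit 304) (nat_lit 126917388351) (nat_lit 76) (nat_lit 269090944608) (nat_lit 43) (nat_lit 5) (nat_lit 47) (nat_lit 5) (nat_lit 44) (nat_lit 5) (nat_lit 308) (nat_lit 295) (nat_lit 117)) (XT.lf (nat_lit 0) (nat_lit 12057983068) (nat_lit 0) (nat_lit 12057983068) (nat_lit 684) (nat_lit 129158868735) (nat_lit 60) (nat_lit 5) (nat_lit 60) (nat_lit 3) (nat_lit 69) (nat_lit 3)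 (nat_lit 296) (nat_lit 296) (nat_lit 128))))))) (XT.nd (nat_lit 702) (nat_lit 608) (nat_lit 0) (XT.nd (nat_lit 312) (nat_lit 684) (nat_lit 0) (XT.nd (nat_lit 156) (nat_lit 0) (nat_lit 76) (XT.nd (nat_lit 78) (nat_lit 0) (nat_lit 76) (XT.lf (nat_lit 0) (nat_lit 53042071971) (nat_lit 684) (nat_lit 87072926543) (nat_lit 760) (nat_lit 178552610585) (nat_lit 60) (nat_lit 5) (nat_lit 69) (nat_lit 3) (nat_lit 70) (nat_lit 5) (nat_lit 297) (nat_lit 296) (nat_lit 127)) (XT.lf (nat_lit 0) (nat_lit 61681066175) (nat_lit 684) (nat_lit 205086639334) (nat_lit 760) (nat_lit 64815076365) (nat_lit 61) (nat_lit 5) (nat_lit 70) (nat_lit 5) (nat_lit 71) (nat_lit 5) (nat_lit 298) (nat_lit 296) (nat_lit 126))) (XT.nd (nat_lit 78) (nat_lit 0) (nat_lit 76) (XT.lf (nat_lit 76) (nat_lit 12827804355) (nat_lit 0) (nat_lit 62287776935) (nat_lit 760) (nat_lit 270210367508) (nat_lit 62) (nat_lit 5) (nat_lit 61) (nat_lit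 5) (nat_lit 71) (nat_lit 5) (nat_lit 299) (nat_lit 296) (nat_lit 125)) (XT.lf (nat_lit 0) (nat_lit 95731233942) (nat_lit 684) (nat_lit 107025008386) (nat_lit 760) (nat_lit 157107008302) (nat_lit 62) (nat_lit 5) (nat_lit 71) (nat_lit 5) (nat_lit 72) (nat_lit 5) (nat_lit 300) (nat_lit 296) (nat_lit 124)))) (XT.nd (nat_lit 156) (nat_lit 912) (nat_lit 0) (XT.nd (nat_lit 78) (nat_lit 0) (nat_lit 0) (XT.lf (nat_lit 0) (nat_lit 121522485652) (nat_lit 684) (nat_lit 235779747332) (nat_lit 760) (nat_lit 18084986624) (nat_lit 63) (nat_lit 5) (nat_lit 72) (nat_lit 5) (nat_lit 73) (nat_lit 5) (nat_lit 301) (nat_lit 296) (nat_lit 123)) (XT.lf (nat_lit 76) (nat_lit 14755289345) (nat_lit 0) (nat_lit 140165756485) (nat_lit 760) (nat_lit 236954860176) (nat_lit 64) (nat_lit 5) (nat_lit 63) (nat_lit 5) (nat_lit 73) (nat_lit 5) (nat_lit 302) (nat_lit 296) (nat_lit 122))) (XT.nd (nat_lit 78) (nat_lit 988)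 (nat_lit 0) (XT.lf (nat_lit 0) (nat_lit 196638821292) (nat_lit 684) (nat_lit 117265910018) (nat_lit 76) (nat_lit 95496589775) (nat_lit 64) (nat_lit 5) (nat_lit 73) (nat_lit 5) (nat_lit 65) (nat_lit 5) (nat_lit 303) (nat_lit 296) (nat_lit 121)) (XT.nd (nat_lit 78) (nat_lit 304) (nat_lit 0) (XT.lf (nat_lit 0) (nat_lit 166337506321) (nat_lit 684) (nat_lit 80316894841) (nat_lit 760) (nat_lit 181426349363) (nat_lit 55) (nat_lit 5) (nat_lit 64) (nat_lit 5) (nat_lit 65) (nat_lit 5) (nat_lit 304) (nat_lit 296) (nat_lit 120)) (XT.lf (nat_lit 0) (nat_lit 26803928726) (nat_lit 304) (nat_lit 279046653248) (nat_lit 380) (nat_lit 142144984869) (nat_lit 51) (nat_lit 5) (nat_lit 55) (nat_lit 5) (nat_lit 56) (nat_lit 5) (nat_lit 305) (nat_lit 296) (nat_lit 119)))))) (XT.nd (nat_lit 36894) (nat_lit 0) (nat_lit 1292) (XT.nd (nat_lit 156) (nat_lit 304) (nat_lit 0) (XT.nd (nat_lit 78) (nat_lit 304) (nat_lit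 0) (XT.lf (nat_lit 0) (nat_lit 346382520202) (nat_lit 304) (nat_lit 29291726193) (nat_lit 380) (nat_lit 93534732846) (nat_lit 51) (nat_lit 5) (nat_lit 55) (nat_lit 5) (nat_lit 56) (nat_lit 5) (nat_lit 306) (nat_lit 296) (nat_lit 118)) (XT.lf (nat_lit 0) (nat_lit 202123084535) (nat_lit 304) (nat_lit 255870374250) (nat_lit 380) (nat_lit 33780523323) (nat_lit 47) (nat_lit 5) (nat_lit 51) (nat_lit 5) (nat_lit 52) (nat_lit 5) (nat_lit 307) (nat_lit 296) (nat_lit 117))) (XT.nd (nat_lit 36660) (nat_lit 0) (nat_lit 1292) (XT.lf (nat_lit 0) (nat_lit 33225063472) (nat_lit 304) (nat_lit 474344922625) (nat_lit 76) (nat_lit 8377423407) (nat_lit 43) (nat_lit 5) (nat_lit 47) (nat_lit 5) (nat_lit 44) (nat_lit 5) (nat_lit 308) (nat_lit 296) (nat_lit 116)) (XT.lf (nat_lit 0) (nat_lit 13023100706) (nat_lit 0) (nat_lit 13023100706) (nat_lit 684) (nat_lit 139490568142) (nat_lit 60) (nat_lit 5) (nat_lit 60)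 (nat_lit 3) (nat_lit 69) (nat_lit 3) (nat_lit 297) (nat_lit 297) (nat_lit 126)))) (XT.nd (nat_lit 156) (nat_lit 0) (nat_lit 76) (XT.nd (nat_lit 78) (nat_lit 0) (nat_lit 76) (XT.lf (nat_lit 0) (nat_lit 57287197928) (nat_lit 684) (nat_lit 94037763302) (nat_lit 760) (nat_lit 192835960799) (nat_lit 60) (nat_lit 5) (nat_lit 69) (nat_lit 3) (nat_lit 70) (nat_lit 5) (nat_lit 298) (nat_lit 297) (nat_lit 125)) (XT.lf (nat_lit 0) (nat_lit 66617185393) (nat_lit 684) (nat_lit 221492516228) (nat_lit 760) (nat_lit 69999613893) (nat_lit 61) (nat_lit 5) (nat_lit 70) (nat_lit 5) (nat_lit 71) (nat_lit 5) (nat_lit 299) (nat_lit 297) (nat_lit 124))) (XT.nd (nat_lit 78) (nat_lit 0) (nat_lit 76) (XT.lf (nat_lit 76) (nat_lit 13855037140) (nat_lit 0) (nat_lit 67271319291) (nat_lit 760) (nat_lit 291825585160) (nat_lit 62) (nat_lit 5) (nat_lit 61) (nat_lit 5) (nat_lit 71) (nat_lit 5) (nat_lit 300) (nat_lit 297)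 (nat_lit 123)) (XT.nd (nat_lit 78) (nat_lit 0) (nat_lit 76) (XT.lf (nat_lit 0) (nat_lit 103391140543) (nat_lit 684) (nat_lit 115585990845) (nat_lit 760) (nat_lit 169675102714) (nat_lit 62) (nat_lit 5) (nat_lit 71) (nat_lit 5) (nat_lit 72) (nat_lit 5) (nat_lit 301) (nat_lit 297) (nat_lit 122)) (XT.lf (nat_lit 0) (nat_lit 131245597924) (nat_lit 684) (nat_lit 254641076108) (nat_lit 760) (nat_lit 19531451749) (nat_lit 63) (nat_lit 5) (nat_lit 72) (nat_lit 5) (nat_lit 73) (nat_lit 5) (nat_lit 302) (nat_lit 297) (nat_lit 121))))))))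
noncomputable def xc127 : XT := (XT.nd (nat_lit 74958) (nat_lit 0) (nat_lit 684) (XT.nd (nat_lit 37440) (nat_lit 0) (nat_lit 0) (XT.nd (nat_lit 312) (nat_lit 0) (nat_lit 0) (XT.nd (nat_lit 156) (nat_lit 912) (nat_lit 0) (XT.nd (nat_lit 78) (nat_lit 0) (nat_lit 76) (XT.lf (nat_lit 76) (nat_lit 15936717828) (nat_lit 0) (nat_lit 151379243494) (nat_lit 760) (nat_lit 255909950272) (nat_lit 64) (nat_lit 5) (nat_lit 63) (nat_lit 5) (nat_lit 73) (nat_lit 5) (nat_lit 303) (nat_lit 297) (nat_lit 120)) (XT.lf (nat_lit 0) (nat_lit 212371064301) (nat_lit 684) (nat_lit 126646186741) (nat_lit 76) (nat_lit 103136113956) (nat_lit 64) (nat_lit 5) (nat_lit 73) (nat_lit 5) (nat_lit 65) (nat_lit 5) (nat_lit 304) (nat_lit 297) (nat_lit 119))) (XT.nd (nat_lit 78) (nat_lit 304) (nat_lit 0) (XT.lf (nat_lit 0) (nat_lit 179645459617) (nat_lit 684) (nat_lit 86742361573) (nat_lit 760) (nat_lit 195939331434) (nat_lit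 55) (nat_lit 5) (nat_lit 64) (nat_lit 5) (nat_lit 65) (nat_lit 5) (nat_lit 305) (nat_lit 297) (nat_lit 118)) (XT.lf (nat_lit 0) (nat_lit 28949211551) (nat_lit 304) (nat_lit 301370419267) (nat_lit 380) (nat_lit 153515527049) (nat_lit 51) (nat_lit 5) (nat_lit 55) (nat_lit 5) (nat_lit 56) (nat_lit 5) (nat_lit 306) (nat_lit 297) (nat_lit 117)))) (XT.nd (nat_lit 36894) (nat_lit 0) (nat_lit 684) (XT.nd (nat_lit 36816) (nat_lit 0) (nat_lit 684) (XT.lf (nat_lit 0) (nat_lit 374094018603) (nat_lit 304) (nat_lit 31635095548) (nat_lit 380) (nat_lit 101016533132) (nat_lit 51) (nat_lit 5) (nat_lit 55) (nat_lit 5) (nat_lit 56) (nat_lit 5) (nat_lit 307) (nat_lit 297) (nat_lit 116)) (XT.lf (nat_lit 0) (nat_lit 14065359421) (nat_lit 0) (nat_lit 14065359421) (nat_lit 684) (nat_lit 150648947603) (nat_lit 60) (nat_lit 5) (nat_lit 60) (nat_lit 3) (nat_lit 69) (nat_lit 3) (nat_lit 298) (nat_lit 298) (nat_lit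 124))) (XT.nd (nat_lit 78) (nat_lit 0) (nat_lit 76) (XT.lf (nat_lit 0) (nat_lit 61871682848) (nat_lit 684) (nat_lit 101559929286) (nat_lit 760) (nat_lit 208262101523) (nat_lit 60) (nat_lit 5) (nat_lit 69) (nat_lit 3) (nat_lit 70) (nat_lit 5) (nat_lit 299) (nat_lit 298) (nat_lit 123)) (XT.nd (nat_lit 78) (nat_lit 0) (nat_lit 0) (XT.lf (nat_lit 0) (nat_lit 71947961052) (nat_lit 684) (nat_lit 239211013674) (nat_lit 760) (nat_lit 75599009803) (nat_lit 61) (nat_lit 5) (nat_lit 70) (nat_lit 5) (nat_lit 71) (nat_lit 5) (nat_lit 300) (nat_lit 298) (nat_lit 122)) (XT.lf (nat_lit 76) (nat_lit 14964304683) (nat_lit 0) (nat_lit 72653470823) (nat_lit 760) (nat_lit 315170250159) (nat_lit 62) (nat_lit 5) (nat_lit 61) (nat_lit 5) (nat_lit 71) (nat_lit 5) (nat_lit 301) (nat_lit 298) (nat_lit 121)))))) (XT.nd (nat_lit 312) (nat_lit 836) (nat_lit 0) (XT.nd (nat_lit 156) (nat_lit 0) (nat_lit 76) (XT.nd (nat_lit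 78) (nat_lit 0) (nat_lit 76) (XT.lf (nat_lit 0) (nat_lit 111663638821) (nat_lit 684) (nat_lit 124831997161) (nat_lit 760) (nat_lit 183248711196) (nat_lit 62) (nat_lit 5) (nat_lit 71) (nat_lit 5) (nat_lit 72) (nat_lit 5) (nat_lit 302) (nat_lit 298) (nat_lit 120)) (XT.lf (nat_lit 0) (nat_lit 141746371804) (nat_lit 684) (nat_lit 275011461123) (nat_lit 760) (nat_lit 21093681705) (nat_lit 63) (nat_lit 5) (nat_lit 72) (nat_lit 5) (nat_lit 73) (nat_lit 5) (nat_lit 303) (nat_lit 298) (nat_lit 119))) (XT.nd (nat_lit 78) (nat_lit 0) (nat_lit 76) (XT.lf (nat_lit 76) (nat_lit 17212517168) (nat_lit 0) (nat_lit 163489777152) (nat_lit 760) (nat_lit 276381632852) (nat_lit 64) (nat_lit 5) (nat_lit 63) (nat_lit 5) (nat_lit 73) (nat_lit 5) (nat_lit 304) (nat_lit 298) (nat_lit 118)) (XT.lf (nat_lit 0) (nat_lit 229361724501) (nat_lit 684) (nat_lit 136777027704) (nat_lit 76) (nat_lit 111386829033) (nat_lit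 64) (nat_lit 5) (nat_lit 73) (nat_lit 5) (nat_lit 65) (nat_lit 5) (nat_lit 305) (nat_lit 298) (nat_lit 117)))) (XT.nd (nat_lit 36972) (nat_lit 0) (nat_lit 684) (XT.nd (nat_lit 78) (nat_lit 304) (nat_lit 0) (XT.lf (nat_lit 0) (nat_lit 194017913250) (nat_lit 684) (nat_lit 93681849218) (nat_lit 760) (nat_lit 211613512690) (nat_lit 55) (nat_lit 5) (nat_lit 64) (nat_lit 5) (nat_lit 65) (nat_lit 5) (nat_lit 306) (nat_lit 298) (nat_lit 116)) (XT.lf (nat_lit 0) (nat_lit 31265978830) (nat_lit 304) (nat_lit 325480081752) (nat_lit 380) (nat_lit 165795863341) (nat_lit 51) (nat_lit 5) (nat_lit 55) (nat_lit 5) (nat_lit 56) (nat_lit 5) (nat_lit 307) (nat_lit 298) (nat_lit 115))) (XT.nd (nat_lit 78) (nat_lit 0) (nat_lit 0) (XT.lf (nat_lit 0) (nat_lit 15190940249) (nat_lit 0) (nat_lit 15190940249) (nat_lit 684) (nat_lit 162700120964) (nat_lit 60) (nat_lit 5) (nat_lit 60) (nat_lit 3) (nat_lit 69) (nat_lit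 3) (nat_lit 299) (nat_lit 299) (nat_lit 122)) (XT.nd (nat_lit 78) (nat_lit 0) (nat_lit 76) (XT.lf (nat_lit 0) (nat_lit 66822711275) (nat_lit 684) (nat_lit 109683990536) (nat_lit 760) (nat_lit 224922438524) (nat_lit 60) (nat_lit 5) (nat_lit 69) (nat_lit 3) (nat_lit 70) (nat_lit 5) (nat_lit 300) (nat_lit 299) (nat_lit 121)) (XT.lf (nat_lit 0) (nat_lit 77704998920) (nat_lit 684) (nat_lit 258347119861) (nat_lit 760) (nat_lit 81646439161) (nat_lit 61) (nat_lit 5) (nat_lit 70) (nat_lit 5) (nat_lit 71) (nat_lit 5) (nat_lit 301) (nat_lit 299) (nat_lit 120))))))) (XT.nd (nat_lit 37674) (nat_lit 0) (nat_lit 0) (XT.nd (nat_lit 312) (nat_lit 76) (nat_lit 0) (XT.nd (nat_lit 156) (nat_lit 0) (nat_lit 152) (XT.nd (nat_lit 78) (nat_lit 0) (nat_lit 76) (XT.lf (nat_lit 76) (nat_lit 16162190288) (nat_lit 0) (nat_lit 78466130853) (nat_lit 760) (nat_lit 340382685488) (nat_lit 62) (nat_lit 5) (nat_lit 61)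 (nat_lit 5) (nat_lit 71) (nat_lit 5) (nat_lit 302) (nat_lit 299) (nat_lit 119)) (XT.lf (nat_lit 0) (nat_lit 120597764764) (nat_lit 684) (nat_lit 134817808518) (nat_lit 760) (nat_lit 197908265382) (nat_lit 62) (nat_lit 5) (nat_lit 71) (nat_lit 5) (nat_lit 72) (nat_lit 5) (nat_lit 303) (nat_lit 299) (nat_lit 118))) (XT.nd (nat_lit 78) (nat_lit 0) (nat_lit 0) (XT.lf (nat_lit 0) (nat_lit 153087046951) (nat_lit 684) (nat_lit 297011605489) (nat_lit 760) (nat_lit 22780930885) (nat_lit 63) (nat_lit 5) (nat_lit 72) (nat_lit 5) (nat_lit 73) (nat_lit 5) (nat_lit 304) (nat_lit 299) (nat_lit 117)) (XT.lf (nat_lit 76) (nat_lit 18590257493) (nat_lit 0) (nat_lit 176569125801) (nat_lit 760) (nat_lit 298491208883) (nat_lit 64) (nat_lit 5) (nat_lit 63) (nat_lit 5) (nat_lit 73) (nat_lit 5) (nat_lit 305) (nat_lit 299) (nat_lit 116)))) (XT.nd (nat_lit 37128) (nat_lit 0) (nat_lit 0) (XT.nd (nat_lit 37050) (nat_lit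 304) (nat_lit 0) (XT.lf (nat_lit 0) (nat_lit 247711498414) (nat_lit 684) (nat_lit 147718457773) (nat_lit 76) (nat_lit 120297626144) (nat_lit 64) (nat_lit 5) (nat_lit 73) (nat_lit 5) (nat_lit 65) (nat_lit 5) (nat_lit 306) (nat_lit 299) (nat_lit 115)) (XT.lf (nat_lit 0) (nat_lit 16406517316) (nat_lit 0) (nat_lit 16406517316) (nat_lit 684) (nat_lit 175715494112) (nat_lit 60) (nat_lit 5) (nat_lit 60) (nat_lit 3) (nat_lit 69) (nat_lit 3) (nat_lit 300) (nat_lit 300) (nat_lit 120))) (XT.nd (nat_lit 78) (nat_lit 0) (nat_lit 76) (XT.lf (nat_lit 0) (nat_lit 72169637400) (nat_lit 684) (nat_lit 118458081270) (nat_lit 760) (nat_lit 242915692521) (nat_lit 60) (nat_lit 5) (nat_lit 69) (nat_lit 3) (nat_lit 70) (nat_lit 5) (nat_lit 301) (nat_lit 300) (nat_lit 119)) (XT.nd (nat_lit 78) (nat_lit 0) (nat_lit 0) (XT.lf (nat_lit 0) (nat_lit 83922428483) (nat_lit 684) (nat_lit 279014225092) (nat_lit 760) (nat_lit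 88177732974) (nat_lit 61) (nat_lit 5) (nat_lit 70) (nat_lit 5) (nat_lit 71) (nat_lit 5) (nat_lit 302) (nat_lit 300) (nat_lit 118)) (XT.lf (nat_lit 76) (nat_lit 17455800997) (nat_lit 0) (nat_lit 84743749137) (nat_lit 760) (nat_lit 367612284652) (nat_lit 62) (nat_lit 5) (nat_lit 61) (nat_lit 5) (nat_lit 71) (nat_lit 5) (nat_lit 303) (nat_lit 300) (nat_lit 117)))))) (XT.nd (nat_lit 37518) (nat_lit 0) (nat_lit 0) (XT.nd (nat_lit 37284) (nat_lit 152) (nat_lit 0) (XT.nd (nat_lit 78) (nat_lit 0) (nat_lit 76) (XT.lf (nat_lit 0) (nat_lit 130246473152) (nat_lit 684) (nat_lit 145602591553) (nat_lit 760) (nat_lit 213740632795) (nat_lit 62) (nat_lit 5) (nat_lit 71) (nat_lit 5) (nat_lit 72) (nat_lit 5) (nat_lit 304) (nat_lit 300) (nat_lit 116)) (XT.lf (nat_lit 0) (nat_lit 165334838384) (nat_lit 684) (nat_lit 320771871612) (nat_lit 760) (nat_lit 24603195002) (nat_lit 63) (nat_lit 5) (nat_lit 72) (nat_lit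 5) (nat_lit 73) (nat_lit 5) (nat_lit 305) (nat_lit 300) (nat_lit 115))) (XT.nd (nat_lit 78) (nat_lit 0) (nat_lit 0) (XT.lf (nat_lit 0) (nat_lit 17719297486) (nat_lit 0) (nat_lit 17719297486) (nat_lit 684) (nat_lit 189772187920) (nat_lit 60) (nat_lit 5) (nat_lit 60) (nat_lit 3) (nat_lit 69) (nat_lit 3) (nat_lit 301) (nat_lit 301) (nat_lit 118)) (XT.nd (nat_lit 78) (nat_lit 0) (nat_lit 76) (XT.lf (nat_lit 0) (nat_lit 77944159373) (nat_lit 684) (nat_lit 127934188926) (nat_lit 760) (nat_lit 262348484030) (nat_lit 60) (nat_lit 5) (nat_lit 69) (nat_lit 3) (nat_lit 70) (nat_lit 5) (nat_lit 302) (nat_lit 301) (nat_lit 117)) (XT.lf (nat_lit 0) (nat_lit 90637105520) (nat_lit 684) (nat_lit 301334793519) (nat_lit 760) (nat_lit 95231590398) (nat_lit 61) (nat_lit 5) (nat_lit 70) (nat_lit 5) (nat_lit 71) (nat_lit 5) (nat_lit 303) (nat_lit 301) (nat_lit 116))))) (XT.nd (nat_lit 37362) (nat_lit 76) (nat_lit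 0) (XT.nd (nat_lit 78) (nat_lit 0) (nat_lit 76) (XT.lf (nat_lit 76) (nat_lit 18852809903) (nat_lit 0) (nat_lit 91523530116) (nat_lit 760) (nat_lit 397020396647) (nat_lit 62) (nat_lit 5) (nat_lit 61) (nat_lit 5) (nat_lit 71) (nat_lit 5) (nat_lit 304) (nat_lit 301) (nat_lit 115)) (XT.lf (nat_lit 0) (nat_lit 140666951641) (nat_lit 684) (nat_lit 157250248769) (nat_lit 760) (nat_lit 230839631518) (nat_lit 62) (nat_lit 5) (nat_lit 71) (nat_lit 5) (nat_lit 72) (nat_lit 5) (nat_lit 305) (nat_lit 301) (nat_lit 114))) (XT.nd (nat_lit 78) (nat_lit 0) (nat_lit 0) (XT.lf (nat_lit 0) (nat_lit 19137063151) (nat_lit 0) (nat_lit 19137063151) (nat_lit 684) (nat_lit 204953495086) (nat_lit 60) (nat_lit 5) (nat_lit 60) (nat_lit 3) (nat_lit 69) (nat_lit 3) (nat_lit 302) (nat_lit 302) (nat_lit 116)) (XT.nd (nat_lit 78) (nat_lit 0) (nat_lit 76) (XT.lf (nat_lit 0) (nat_lit 84180507435) (nat_lit 684) (nat_lit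 138168462068) (nat_lit 760) (nat_lit 283335965039) (nat_lit 60) (nat_lit 5) (nat_lit 69) (nat_lit 3) (nat_lit 70) (nat_lit 5) (nat_lit 303) (nat_lit 302) (nat_lit 115)) (XT.lf (nat_lit 0) (nat_lit 97888830785) (nat_lit 684) (nat_lit 325441088678) (nat_lit 760) (nat_lit 102849807947) (nat_lit 61) (nat_lit 5) (nat_lit 70) (nat_lit 5) (nat_lit 71) (nat_lit 5) (nat_lit 304) (nat_lit 302) (nat_lit 114))))))))

set_option maxRecDepth 10000000 in
noncomputable def Tp : PT := (PT.nd (nat_lit 4586166) (PT.nd (nat_lit 4361604) (PT.nd (nat_lit 4174170) pc0 pc1) (PT.nd (nat_lit 112632) pc2 pc3)) (PT.nd (nat_lit 113334) (PT.nd (nat_lit 74802) pc4 pc5) (PT.nd (nat_lit 73944) pc6 pc7)))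

set_option maxRecDepth 10000000 in
noncomputable def Tx : XT := (XT.nd (nat_lit 7453914) (nat_lit 0) (nat_lit 76) XT.nil (XT.nd (nat_lit 3900312) (nat_lit 0) (nat_lit 0) (XT.nd (nat_lit 1832532) (nat_lit 0) (nat_lit 76) (XT.nd (nat_lit 1237860) (nat_lit 0) (nat_lit 0) (XT.nd (nat_lit 862368) (nat_lit 0) (nat_lit 0) (XT.nd (nat_lit 599430) (nat_lit 0) (nat_lit 0) (XT.nd (nat_lit 411996) (nat_lit 0) (nat_lit 0) (XT.nd (nat_lit 298896) (nat_lit 0) (nat_lit 0) (XT.nd (nat_lit 187278) (nat_lit 0) (nat_lit 0) xc0 xc1) (XT.nd (nat_lit 38766) (nat_lit 0) (nat_lit 0) xc2 xc3)) (XT.nd (nat_lit 111696) (nat_lit 0) (nat_lit 0) (XT.nd (nat_lit 73632) (nat_lit 0) (nat_lit 0) xc4 xc5) (XT.nd (nat_lit 37908) (nat_lit 0) (nat_lit 0) xc6 xc7))) (XT.nd (nat_lit 149526) (nat_lit 0) (nat_lit 0) (XT.nd (nat_lit 75036) (nat_lit 0) (nat_lit 0) (XT.nd (nat_lit 37596) (nat_lit 0) (nat_lit 0) xc8 xc9) (XT.nd (nat_lit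 37284) (nat_lit 0) (nat_lit 0) xc10 xc11)) (XT.nd (nat_lit 73866) (nat_lit 0) (nat_lit 0) (XT.nd (nat_lit 36972) (nat_lit 0) (nat_lit 0) xc12 xc13) (XT.nd (nat_lit 36660) (nat_lit 0) (nat_lit 0) xc14 xc15)))) (XT.nd (nat_lit 222534) (nat_lit 0) (nat_lit 0) (XT.nd (nat_lit 111930) (nat_lit 0) (nat_lit 0) (XT.nd (nat_lit 72852) (nat_lit 0) (nat_lit 0) (XT.nd (nat_lit 36504) (nat_lit 0) (nat_lit 0) xc16 xc17) (XT.nd (nat_lit 36192) (nat_lit 0) (nat_lit 0) xc18 xc19)) (XT.nd (nat_lit 71994) (nat_lit 0) (nat_lit 0) (XT.nd (nat_lit 36036) (nat_lit 0) (nat_lit 0) xc20 xc21) (XT.nd (nat_lit 2808) (nat_lit 0) (nat_lit 0) xc22 xc23))) (XT.nd (nat_lit 76752) (nat_lit 0) (nat_lit 0) (XT.nd (nat_lit 38454) (nat_lit 0) (nat_lit 0) (XT.nd (nat_lit 2808) (nat_lit 0) (nat_lit 0) xc24 xc25) (XT.nd (nat_lit 35412) (nat_lit 0) (nat_lit 76) xc26 xc27)) (XT.nd (nat_lit 38142) (nat_lit 0) (nat_lit 0) (XT.nd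 (nat_lit 35256) (nat_lit 0) (nat_lit 0) xc28 xc29) (XT.nd (nat_lit 35178) (nat_lit 0) (nat_lit 0) xc30 xc31))))) (XT.nd (nat_lit 298818) (nat_lit 0) (nat_lit 0) (XT.nd (nat_lit 182208) (nat_lit 0) (nat_lit 0) (XT.nd (nat_lit 107484) (nat_lit 0) (nat_lit 0) (XT.nd (nat_lit 69888) (nat_lit 0) (nat_lit 0) (XT.nd (nat_lit 35022) (nat_lit 0) (nat_lit 0) xc32 xc33) (XT.nd (nat_lit 2808) (nat_lit 152) (nat_lit 0) xc34 xc35)) (XT.nd (nat_lit 37440) (nat_lit 0) (nat_lit 0) (XT.nd (nat_lit 2808) (nat_lit 152) (nat_lit 0) xc36 xc37) (XT.nd (nat_lit 2808) (nat_lit 228) (nat_lit 0) xc38 xc39))) (XT.nd (nat_lit 42822) (nat_lit 0) (nat_lit 0) (XT.nd (nat_lit 37128) (nat_lit 0) (nat_lit 0) (XT.nd (nat_lit 2808) (nat_lit 228) (nat_lit 0) xc40 xc41) (XT.nd (nat_lit 2808) (nat_lit 380) (nat_lit 0) xc42 xc43)) (XT.nd (nat_lit 36972) (nat_lit 0) (nat_lit 0) (XT.nd (nat_lit 34086) (nat_lit 0) (nat_lit 76)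 xc44 xc45) (XT.nd (nat_lit 33930) (nat_lit 0) (nat_lit 76) xc46 xc47)))) (XT.nd (nat_lit 147186) (nat_lit 0) (nat_lit 0) (XT.nd (nat_lit 73320) (nat_lit 0) (nat_lit 0) (XT.nd (nat_lit 36582) (nat_lit 0) (nat_lit 0) (XT.nd (nat_lit 33774) (nat_lit 0) (nat_lit 228) xc48 xc49) (XT.nd (nat_lit 33852) (nat_lit 0) (nat_lit 532) xc50 xc51)) (XT.nd (nat_lit 36894) (nat_lit 0) (nat_lit 0) (XT.nd (nat_lit 2808) (nat_lit 0) (nat_lit 0) xc52 xc53) (XT.nd (nat_lit 2808) (nat_lit 76) (nat_lit 0) xc54 xc55))) (XT.nd (nat_lit 74178) (nat_lit 0) (nat_lit 0) (XT.nd (nat_lit 37050) (nat_lit 0) (nat_lit 0) (XT.nd (nat_lit 2808) (nat_lit 76) (nat_lit 0) xc56 xc57) (XT.nd (nat_lit 2808) (nat_lit 228) (nat_lit 0) xc58 xc59)) (XT.nd (nat_lit 37206) (nat_lit 0) (nat_lit 76) (XT.nd (nat_lit 2808) (nat_lit 304) (nat_lit 0) xc60 xc61) (XT.nd (nat_lit 2808) (nat_lit 380) (nat_lit 0) xc62 xc63)))))) (XT.nd (nat_lit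 641784) (nat_lit 0) (nat_lit 152) (XT.nd (nat_lit 301392) (nat_lit 0) (nat_lit 0) (XT.nd (nat_lit 118014) (nat_lit 0) (nat_lit 0) (XT.nd (nat_lit 42978) (nat_lit 0) (nat_lit 0) (XT.nd (nat_lit 5616) (nat_lit 0) (nat_lit 0) (XT.nd (nat_lit 2808) (nat_lit 532) (nat_lit 0) xc64 xc65) (XT.nd (nat_lit 34476) (nat_lit 0) (nat_lit 0) xc66 xc67)) (XT.nd (nat_lit 37440) (nat_lit 0) (nat_lit 0) (XT.nd (nat_lit 34554) (nat_lit 0) (nat_lit 0) xc68 xc69) (XT.nd (nat_lit 34710) (nat_lit 0) (nat_lit 0) xc70 xc71))) (XT.nd (nat_lit 107484) (nat_lit 0) (nat_lit 0) (XT.nd (nat_lit 37596) (nat_lit 0) (nat_lit 0) (XT.nd (nat_lit 34788) (nat_lit 0) (nat_lit 0) xc72 xc73) (XT.nd (nat_lit 34866) (nat_lit 0) (nat_lit 0) xc74 xc75)) (XT.nd (nat_lit 37908) (nat_lit 0) (nat_lit 0) (XT.nd (nat_lit 2808) (nat_lit 532) (nat_lit 0) xc76 xc77) (XT.nd (nat_lit 2808) (nat_lit 456) (nat_lit 0) xc78 xc79)))) (XT.nd (nat_lit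 152880) (nat_lit 0) (nat_lit 0) (XT.nd (nat_lit 76206) (nat_lit 0) (nat_lit 0) (XT.nd (nat_lit 37986) (nat_lit 0) (nat_lit 0) (XT.nd (nat_lit 2808) (nat_lit 228) (nat_lit 0) xc80 xc81) (XT.nd (nat_lit 2808) (nat_lit 152) (nat_lit 0) xc82 xc83)) (XT.nd (nat_lit 38298) (nat_lit 0) (nat_lit 0) (XT.nd (nat_lit 2808) (nat_lit 0) (nat_lit 0) xc84 xc85) (XT.nd (nat_lit 35490) (nat_lit 0) (nat_lit 380) xc86 xc87))) (XT.nd (nat_lit 109902) (nat_lit 0) (nat_lit 76) (XT.nd (nat_lit 38454) (nat_lit 0) (nat_lit 0) (XT.nd (nat_lit 35568) (nat_lit 0) (nat_lit 152) xc88 xc89) (XT.nd (nat_lit 35646) (nat_lit 0) (nat_lit 0) xc90 xc91)) (XT.nd (nat_lit 38766) (nat_lit 0) (nat_lit 76) (XT.nd (nat_lit 2808) (nat_lit 380) (nat_lit 0) xc92 xc93) (XT.nd (nat_lit 35958) (nat_lit 0) (nat_lit 380) xc94 xc95))))) (XT.nd (nat_lit 450372) (nat_lit 0) (nat_lit 304) (XT.nd (nat_lit 223470) (nat_lit 0) (nat_lit 76) (XT.nd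 (nat_lit 111228) (nat_lit 0) (nat_lit 0) (XT.nd (nat_lit 38844) (nat_lit 0) (nat_lit 0) (XT.nd (nat_lit 36036) (nat_lit 0) (nat_lit 0) xc96 xc97) (XT.nd (nat_lit 36114) (nat_lit 0) (nat_lit 0) xc98 xc99)) (XT.nd (nat_lit 39234) (nat_lit 0) (nat_lit 76) (XT.nd (nat_lit 36348) (nat_lit 0) (nat_lit 380) xc100 xc101) (XT.nd (nat_lit 36426) (nat_lit 0) (nat_lit 0) xc102 xc103))) (XT.nd (nat_lit 113022) (nat_lit 0) (nat_lit 76) (XT.nd (nat_lit 39468) (nat_lit 0) (nat_lit 0) (XT.nd (nat_lit 2808) (nat_lit 76) (nat_lit 0) xc104 xc105) (XT.nd (nat_lit 36660) (nat_lit 0) (nat_lit 76) xc106 xc107)) (XT.nd (nat_lit 39780) (nat_lit 0) (nat_lit 0) (XT.nd (nat_lit 36894) (nat_lit 0) (nat_lit 152) xc108 xc109) (XT.nd (nat_lit 36972) (nat_lit 0) (nat_lit 76) xc110 xc111)))) (XT.nd (nat_lit 300690) (nat_lit 0) (nat_lit 684) (XT.nd (nat_lit 149370) (nat_lit 0) (nat_lit 228) (XT.nd (nat_lit 74490) (nat_lit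 0) (nat_lit 76) (XT.nd (nat_lit 37206) (nat_lit 0) (nat_lit 0) xc112 xc113) (XT.nd (nat_lit 37362) (nat_lit 0) (nat_lit 0) xc114 xc115)) (XT.nd (nat_lit 75426) (nat_lit 0) (nat_lit 76) (XT.nd (nat_lit 37596) (nat_lit 0) (nat_lit 76) xc116 xc117) (XT.nd (nat_lit 37830) (nat_lit 0) (nat_lit 228) xc118 xc119))) (XT.nd (nat_lit 224796) (nat_lit 0) (nat_lit 684) (XT.nd (nat_lit 111930) (nat_lit 0) (nat_lit 304) (XT.nd (nat_lit 73554) (nat_lit 0) (nat_lit 152) xc120 xc121) (XT.nd (nat_lit 74178) (nat_lit 0) (nat_lit 228) xc122 xc123)) (XT.nd (nat_lit 150150) (nat_lit 0) (nat_lit 760) (XT.nd (nat_lit 74802) (nat_lit 0) (nat_lit 532) xc124 xc125) (XT.nd (nat_lit 112242) (nat_lit 0) (nat_lit 1140) xc126 xc127))))))) XT.nil))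

set_option maxRecDepth 10000000 in
noncomputable def Te : XT := XT.nil

set_option maxRecDepth 10000000 in
noncomputable def Tz : ZL := (ZL.cons (nat_lit 76) (nat_lit 3) (nat_lit 83607989671506167304) (ZL.cons (nat_lit 152) (nat_lit 6) (nat_lit 161949193601428196370) (ZL.cons (nat_lit 228) (nat_lit 6) (nat_lit 157170105162382593364) (ZL.cons (nat_lit 304) (nat_lit 3) (nat_lit 78366533311512146131) (ZL.cons (nat_lit 380) (nat_lit 6) (nat_lit 152008689648213342118) (ZL.cons (nat_lit 456) (nat_lit 6) (nat_lit 147748066368996466234) (ZL.cons (nat_lit 532) (nat_lit 3) (nat_lit 73671700527387908532) (ZL.cons (nat_lit 608) (nat_lit 6) (nat_lit 143146593227442240276) (ZL.cons (nat_lit 684) (nat_lit 6) (nat_lit 139393396193902486856) (ZL.cons (nat_lit 760) (nat_lit 3) (nat_lit 69509353044071313258) (ZL.cons (nat_lit 836) (nat_lit 6) (nat_lit 136061568786550395298) (ZL.cons (nat_lit 912) (nat_lit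 6) (nat_lit 135339943397679553162) (ZL.cons (nat_lit 988) (nat_lit 6) (nat_lit 132088505080850276076) (ZL.cons (nat_lit 1064) (nat_lit 3) (nat_lit 65870784898869647140) (ZL.cons (nat_lit 1140) (nat_lit 6) (nat_lit 129245123355036547696) (ZL.cons (nat_lit 1216) (nat_lit 6) (nat_lit 128576951698674656826) (ZL.cons (nat_lit 1292) (nat_lit 6) (nat_lit 126792948550752064442) (ZL.cons (nat_lit 1368) (nat_lit 6) (nat_lit 125827335808046739248) (ZL.cons (nat_lit 1444) (nat_lit 3) (nat_lit 62753049717397915087) (ZL.cons (nat_lit 1520) (nat_lit 6) (nat_lit 124717449261749214560) (ZL.cons (nat_lit 1596) (nat_lit 6) (nat_lit 123476428105762931658) (ZL.cons (nat_lit 1672) (nat_lit 6) (nat_lit 122857750646168588260) (ZL.cons (nat_lit 1748) (nat_lit 6) (nat_lit 121510297286920811494) (ZL.cons (nat_lit 1824) (nat_lit 6) (nat_lit 120616211414045510388) (ZL.cons (nat_lit 1900) (nat_lit 3) (nat_lit 60159385163851038032)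 (ZL.cons (nat_lit 1976) (nat_lit 6) (nat_lit 119917292205927240270) (ZL.cons (nat_lit 2052) (nat_lit 6) (nat_lit 118768198542976978320) (ZL.cons (nat_lit 2128) (nat_lit 6) (nat_lit 118195349043352586288) (ZL.cons (nat_lit 2204) (nat_lit 3) (nat_lit 58559904887605864442) (ZL.cons (nat_lit 2280) (nat_lit 6) (nat_lit 117293363792249457920) (ZL.cons (nat_lit 2356) (nat_lit 6) (nat_lit 117815054311611757506) (ZL.cons (nat_lit 2432) (nat_lit 6) (nat_lit 118687972832672626450) (ZL.cons (nat_lit 2508) (nat_lit 6) (nat_lit 117302760845578882240) (ZL.cons (nat_lit 2584) (nat_lit 6) (nat_lit 116474903555879529364) (ZL.cons (nat_lit 2660) (nat_lit 3) (nat_lit 58099747571299285828) (ZL.cons (nat_lit 2736) (nat_lit 6) (nat_lit 115126097966333798438) (ZL.cons (nat_lit 2812) (nat_lit 6) (nat_lit 115487090321772274838) (ZL.cons (nat_lit 2888) (nat_lit 6) (nat_lit 116211214246607381574) (ZL.cons (nat_lit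 2964) (nat_lit 6) (nat_lit 115147238632764546438) (ZL.cons (nat_lit 3040) (nat_lit 6) (nat_lit 114616822429408627886) (ZL.cons (nat_lit 3116) (nat_lit 3) (nat_lit 56726811265353388533) (ZL.cons (nat_lit 3192) (nat_lit 6) (nat_lit 113641060869107524430) (ZL.cons (nat_lit 3268) (nat_lit 6) (nat_lit 114204486630018807980) (ZL.cons (nat_lit 3344) (nat_lit 6) (nat_lit 113437952102519407168) (ZL.cons (nat_lit 3420) (nat_lit 3) (nat_lit 56591472156222223162) (ZL.cons (nat_lit 3496) (nat_lit 6) (nat_lit 112266026519823937382) (ZL.cons (nat_lit 3572) (nat_lit 6) (nat_lit 112655898263697491896) (ZL.cons (nat_lit 3648) (nat_lit 6) (nat_lit 112164772149479048792) (ZL.cons (nat_lit 3724) (nat_lit 3) (nat_lit 55676919461111027703) (ZL.cons (nat_lit 3800) (nat_lit 6) (nat_lit 111556272327694862556) (ZL.cons (nat_lit 3876) (nat_lit 3) (nat_lit 55660077001775690148) (ZL.cons (nat_lit 3952) (nat_lit 6)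 (nat_lit 110899092520167941424) (ZL.cons (nat_lit 4028) (nat_lit 1) (nat_lit 18446744073709551617) ZL.nil)))))))))))))))))))))))))))))))))))))))))))))))))))))

noncomputable def vl : XL := ⟨(nat_lit 0), (nat_lit 76), (nat_lit 248438588), (nat_lit 152), (nat_lit 232529072), (nat_lit 152), (nat_lit 232529072), (nat_lit 1), (nat_lit 4), (nat_lit 2), (nat_lit 5), (nat_lit 2), (nat_lit 4), (nat_lit 0), (nat_lit 0), (nat_lit 0)⟩

noncomputable def cp0 : Nat := (nat_lit 75968133447353842274326522304888416325042512957172123423387506651878892402487618008088975028092308160508871570671474955292218252546360673428153227234417141983763927827722918852982798875124792365469462897339591891900275653497776897662664769488430140335139118889670686390552432797615681690976821604053047981744893940626054446925045572281756742336375701458120301604739696311414841584692833263529985807607423754131502143952865600973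25475202678573441295747948636000701925195045728458263638168868630912962635480606437157023624793775350129318374180693546818521340586166862350376604077181398664175749460870253983417781121557673950945899619605882963430135999221624902965112035858278102061814015509971616096681612648736580781552506605103804642954956017458296103370832689372943173951272310789155478299950172394762231077384599203844972980192616459492155562650510298215136950595203775163719616053338350319511972291069871697770473725526960691787912251894425057356246135831535982497315827928949750825487142182908285234131960989263110827541605160539203525532167311288158936184444396630272060170922070664493771221888810793834197970024258188772669520893930877746939864168021911131418245562989054384580877256824479224422110769240765701272717800505344)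

noncomputable def cp1 : Nat := (nat_lit 935271826664662957701140651864983982399423896962497040783093945297470148174146884361768260244327617948718206972537883012055850886461203070922275746154309030147463422659389361938097208272181352483794746189079839316111059719152065581634529596988525567813669183870956058157119077902270905171818117839198982816567347806418706733740129386950820911842859232223443738635626784283771533535122948825204044399832613946674659394498869109995229848487415960620084270054091812422968000100536592620770947549180782282423064628866791944772801186614707050594571905739195623241397041493473976707305197103245162544506342610272908351751022017451293078251727793297116390925412073786234725879553288412724699787332211164389875646124420154981628754386304768225833181237320480653727031164062936103583829971996182984287829368283386032807384800238882997283164552339843383037274596607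646698816475001758254955206025923920478639369370083763136330306156110777720537813504016459452437784784970991517350484157401436675000275614253907841172503091058961626916262561475256749507595900799760873247048379903366644028211535806170727707902183905662880052928260094511677985537515832362027301433744862076918054014260375070336429958369908814138100241839253425326542150054112432743190668450686398392997470463213320387658495243983635882620395203926763172775915348771689701997214987527988541722526603047984165923051987942566879803021100049989693145728785923677393513800894141735773994412651770019727841406104787110002958145547747483070062239227945343638766590297082626373080187011775456751862469765695110357072646529843583689903254297086402025521666184321246484623507134252743908071910070174500123268848190755896907371770035585868226222392831876382067351578854056836639778610258547515151105051899216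4434908409050627156280655809983097963274500224124476281054930586760056559794488397069943968230107120922266963317864213977378260606425131838822795602429288533215305298287905901151196800218110090748836355157013776925637295754390962577076107565124306458849272322887099056010725282930817621153154252198949671617953462194176151727268548721357517608243097231247153523655934660050309168184595298885817641461309775536617490701806138786374707855753663604975319419976250812461015877940953829798026404622648132990724934906694511270594685576976938024987970979762345882388681629253872214540478065241517838755578706671730070506401203255959117352709951523062318118125397901456710847501129945255459392961325548140625505354753011044167227575948507018308908673962434759619510272)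

noncomputable def rc0 : Nat := (nat_lit 935271826664662957701140651864983982399423896962497040783093945297470148174146884361768260244327617948718206972537883012055850886461203070922275746154309030147463422659389361938097208272181352483794746189079839316111059719152065581634529596988525567813669183870956058157119077902270905171818117839198982816567347806418706733740129386950820911842859232223443738635626784283771533535122948825204044399832613946674659394498869109995229848487415960620084270054091812422968000100536592620770947549180782282423064628866791944772801186614707050594571905739195623241397041493473976707305197103245162544506342610272908351751022017451293078251727793297116390925412073786234725879553288412724699787332211164389875646124420154981628754386304768225833181237320480653727031164062936103583829971996182984287829368283386032807384800238882997283164552339843383037274596607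646698816475001758254955206025923920478639369370083763136330306156110777720537813504016459452437784784970991517350484157401436675000275614253907841172503091058961626916262561475256749507595900799760873247048379903366644028211535806170727707902183905662880052928260094511677985537515832362027301433744862076918054014260375070336429958369908814138100241839253425326542150054112432743190668450686398392997470463213320387658495243983635882620395203926763172775915348771689701997214987527988541722526603047984165923051987942566879803021100049989693145728785923677393513800894141735773994412651770019727841406104787110002958145547747483070062239227945343638766590297082626373080187011775456751862469765695110357072646529843583689903254297086402025521666184321246484623507134252743908071910070174500123268848190755896907371770035585868226222392831876382067351578854056836639778610258547515151105051899216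4434908409050627156280655809983097963274500224124476281054930586760056559794488397069943968230107120922266963317864213977378260606425131838822795602429288533215305298287905901151196800218110090748836355157013776925637295754390962577076107565124306458849272322887099056010725282930817621153154252198949671617953462194176151727268548721357517608243097231247153523655934660050309168184595298885817641461309775536617490701806138786374707855753663604975319419976250812461015877940953829798026404622648132990724934906694511270594685576976938024987970979762345882388681629253872214540478065241517838755578706671730070506401203255959117352709951523062318118125397901456710847501129945255459392961325548140625505354753011044167227575948507018308908673962434759619510272)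

end Vale.Agent.Lib.P154.PChain.BV.S3
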