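import Vale.Agent.Lib.P154.PChain.BV.R3_0

set_option linter.all false

namespace Vale.Agent.Lib.P154.PChain.BV.S4

open Vale.Agent.Lib.P154.Chain

noncomputable def pc0 : PT := (PT.nd (nat_lit 3574584) (PT.nd (nat_lit 3462108) (PT.nd (nat_lit 3387150) (PT.nd (nat_lit 3349710) (PT.nd (nat_lit 3349632) (PT.nd (nat_lit 3312192) PT.nil (PT.lf (nat_lit 76) (nat_lit 3) (nat_lit 1) (nat_lit 1) (nat_lit 136) (nat_lit 88) (nat_lit 136))) (PT.lf (nat_lit 152) (nat_lit 6) (nat_lit 2) (nat_lit 3) (nat_lit 135) (nat_lit 89) (nat_lit 136))) (PT.nd (nat_lit 37362) (PT.lf (nat_lit 152) (nat_lit 6) (nat_lit 2) (nat_lit 1) (nat_lit 136) (nat_lit 89) (nat_lit 135)) (PT.lf (nat_lit 228) (nat_lit 6) (nat_lit 3) (nat_lit 3) (nat_lit 134) (nat_lit 90) (nat_lit 136)))) (PT.nd (nat_lit 37440) (PT.nd (nat_lit 78) (PT.lf (nat_lit 304) (nat_lit 3) (nat_lit 4) (nat_lit 1) (nat_lit 135) (nat_lit 90) (nat_lit 135))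 (PT.lf (nat_lit 228) (nat_lit 6) (nat_lit 3) (nat_lit 1) (nat_lit 136) (nat_lit 90) (nat_lit 134))) (PT.nd (nat_lit 78) (PT.lf (nat_lit 380) (nat_lit 6) (nat_lit 5) (nat_lit 3) (nat_lit 134) (nat_lit 91) (nat_lit 135)) (PT.nd (nat_lit 37362) (PT.lf (nat_lit 380) (nat_lit 6) (nat_lit 5) (nat_lit 1) (nat_lit 135) (nat_lit 91) (nat_lit 134)) (PT.lf (nat_lit 456) (nat_lit 6) (nat_lit 6) (nat_lit 3) (nat_lit 133) (nat_lit 92) (nat_lit 135)))))) (PT.nd (nat_lit 74880) (PT.nd (nat_lit 37440) (PT.nd (nat_lit 78) (PT.lf (nat_lit 532) (nat_lit 3) (nat_lit 7) (nat_lit 1) (nat_lit 134) (nat_lit 92) (nat_lit 134)) (PT.lf (nat_lit 456) (nat_lit 6) (nat_lit 6) (nat_lit 1) (nat_lit 135) (nat_lit 92) (nat_lit 133))) (PT.nd (nat_lit 78) (PT.lf (nat_lit 608) (nat_lit 6) (nat_lit 8) (nat_lit 3) (nat_lit 133) (nat_lit 93) (nat_lit 134)) (PT.lf (nat_lit 608) (nat_lit 6) (nat_lit 8) (nat_lit 1) (nat_lit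 134) (nat_lit 93) (nat_lit 133)))) (PT.nd (nat_lit 156) (PT.nd (nat_lit 78) (PT.lf (nat_lit 684) (nat_lit 6) (nat_lit 9) (nat_lit 3) (nat_lit 132) (nat_lit 94) (nat_lit 134)) (PT.lf (nat_lit 760) (nat_lit 3) (nat_lit 10) (nat_lit 1) (nat_lit 133) (nat_lit 94) (nat_lit 133))) (PT.nd (nat_lit 37284) (PT.lf (nat_lit 684) (nat_lit 6) (nat_lit 9) (nat_lit 1) (nat_lit 134) (nat_lit 94) (nat_lit 132)) (PT.nd (nat_lit 78) (PT.lf (nat_lit 836) (nat_lit 6) (nat_lit 11) (nat_lit 3) (nat_lit 131) (nat_lit 95) (nat_lit 134)) (PT.lf (nat_lit 912) (nat_lit 6) (nat_lit 12) (nat_lit 3) (nat_lit 132) (nat_lit 95) (nat_lit 133))))))) (PT.nd (nat_lit 112320) (PT.nd (nat_lit 37518) (PT.nd (nat_lit 37362) (PT.nd (nat_lit 78) (PT.lf (nat_lit 912) (nat_lit 6) (nat_lit 12) (nat_lit 1) (nat_lit 133) (nat_lit 95) (nat_lit 132)) (PT.lf (nat_lit 836) (nat_lit 6) (nat_lit 11) (nat_lit 1) (nat_lit 134) (nat_lit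 95) (nat_lit 131))) (PT.nd (nat_lit 78) (PT.lf (nat_lit 988) (nat_lit 6) (nat_lit 13) (nat_lit 3) (nat_lit 131) (nat_lit 96) (nat_lit 133)) (PT.lf (nat_lit 1064) (nat_lit 3) (nat_lit 14) (nat_lit 1) (nat_lit 132) (nat_lit 96) (nat_lit 132)))) (PT.nd (nat_lit 37362) (PT.nd (nat_lit 37284) (PT.lf (nat_lit 988) (nat_lit 6) (nat_lit 13) (nat_lit 1) (nat_lit 133) (nat_lit 96) (nat_lit 131)) (PT.lf (nat_lit 1140) (nat_lit 6) (nat_lit 15) (nat_lit 3) (nat_lit 130) (nat_lit 97) (nat_lit 133))) (PT.nd (nat_lit 78) (PT.lf (nat_lit 1216) (nat_lit 6) (nat_lit 16) (nat_lit 3) (nat_lit 131) (nat_lit 97) (nat_lit 132)) (PT.nd (nat_lit 78) (PT.lf (nat_lit 1216) (nat_lit 6) (nat_lit 16) (nat_lit 1) (nat_lit 132) (nat_lit 97) (nat_lit 131)) (PT.lf (nat_lit 1140) (nat_lit 6) (nat_lit 15) (nat_lit 1) (nat_lit 133) (nat_lit 97) (nat_lit 130)))))) (PT.nd (nat_lit 37518) (PT.nd (nat_lit 156) (PT.nd (nat_lit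 78) (PT.lf (nat_lit 1292) (nat_lit 6) (nat_lit 17) (nat_lit 3) (nat_lit 130) (nat_lit 98) (nat_lit 132)) (PT.lf (nat_lit 1368) (nat_lit 3) (nat_lit 18) (nat_lit 1) (nat_lit 131) (nat_lit 98) (nat_lit 131))) (PT.nd (nat_lit 37284) (PT.lf (nat_lit 1292) (nat_lit 6) (nat_lit 17) (nat_lit 1) (nat_lit 132) (nat_lit 98) (nat_lit 130)) (PT.lf (nat_lit 1444) (nat_lit 6) (nat_lit 19) (nat_lit 3) (nat_lit 129) (nat_lit 99) (nat_lit 132)))) (PT.nd (nat_lit 156) (PT.nd (nat_lit 78) (PT.lf (nat_lit 1520) (nat_lit 6) (nat_lit 20) (nat_lit 3) (nat_lit 130) (nat_lit 99) (nat_lit 131)) (PT.lf (nat_lit 1520) (nat_lit 6) (nat_lit 20) (nat_lit 1) (nat_lit 131) (nat_lit 99) (nat_lit 130))) (PT.nd (nat_lit 37206) (PT.lf (nat_lit 1444) (nat_lit 6) (nat_lit 19) (nat_lit 1) (nat_lit 132) (nat_lit 99) (nat_lit 129)) (PT.nd (nat_lit 78) (PT.lf (nat_lit 1596) (nat_lit 6) (nat_lit 21) (nat_lit 3) (nat_lit 128)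 (nat_lit 100) (nat_lit 132)) (PT.lf (nat_lit 1672) (nat_lit 6) (nat_lit 22) (nat_lit 3) (nat_lit 129) (nat_lit 100) (nat_lit 131))))))))
noncomputable def pc1 : PT := (PT.nd (nat_lit 149682) (PT.nd (nat_lit 74958) (PT.nd (nat_lit 37440) (PT.nd (nat_lit 156) (PT.nd (nat_lit 78) (PT.lf (nat_lit 1748) (nat_lit 3) (nat_lit 23) (nat_lit 1) (nat_lit 130) (nat_lit 100) (nat_lit 130)) (PT.lf (nat_lit 1672) (nat_lit 6) (nat_lit 22) (nat_lit 1) (nat_lit 131) (nat_lit 100) (nat_lit 129))) (PT.nd (nat_lit 37206) (PT.lf (nat_lit 1596) (nat_lit 6) (nat_lit 21) (nat_lit 1) (nat_lit 132) (nat_lit 100) (nat_lit 128)) (PT.lf (nat_lit 1824) (nat_lit 6) (nat_lit 24) (nat_lit 3) (nat_lit 128) (nat_lit 101) (nat_lit 131)))) (PT.nd (nat_lit 156) (PT.nd (nat_lit 78) (PT.lf (nat_lit 1900) (nat_lit 6) (nat_lit 25) (nat_lit 3) (nat_lit 129) (nat_lit 101) (nat_lit 130)) (PT.lf (nat_lit 1900) (nat_lit 6) (nat_lit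 25) (nat_lit 1) (nat_lit 130) (nat_lit 101) (nat_lit 129))) (PT.nd (nat_lit 37206) (PT.lf (nat_lit 1824) (nat_lit 6) (nat_lit 24) (nat_lit 1) (nat_lit 131) (nat_lit 101) (nat_lit 128)) (PT.nd (nat_lit 78) (PT.lf (nat_lit 1976) (nat_lit 6) (nat_lit 26) (nat_lit 3) (nat_lit 127) (nat_lit 102) (nat_lit 131)) (PT.lf (nat_lit 2052) (nat_lit 6) (nat_lit 27) (nat_lit 3) (nat_lit 128) (nat_lit 102) (nat_lit 130)))))) (PT.nd (nat_lit 37362) (PT.nd (nat_lit 156) (PT.nd (nat_lit 78) (PT.lf (nat_lit 2128) (nat_lit 3) (nat_lit 28) (nat_lit 1) (nat_lit 129) (nat_lit 102) (nat_lit 129)) (PT.lf (nat_lit 2052) (nat_lit 6) (nat_lit 27) (nat_lit 1) (nat_lit 130) (nat_lit 102) (nat_lit 128))) (PT.nd (nat_lit 37128) (PT.lf (nat_lit 1976) (nat_lit 6) (nat_lit 26) (nat_lit 1) (nat_lit 131) (nat_lit 102) (nat_lit 127)) (PT.lf (nat_lit 2204) (nat_lit 6) (nat_lit 29) (nat_lit 3) (nat_lit 126) (nat_lit 103)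 (nat_lit 131)))) (PT.nd (nat_lit 156) (PT.nd (nat_lit 78) (PT.lf (nat_lit 2280) (nat_lit 6) (nat_lit 30) (nat_lit 3) (nat_lit 127) (nat_lit 103) (nat_lit 130)) (PT.lf (nat_lit 2356) (nat_lit 6) (nat_lit 31) (nat_lit 3) (nat_lit 128) (nat_lit 103) (nat_lit 129))) (PT.nd (nat_lit 78) (PT.lf (nat_lit 2356) (nat_lit 6) (nat_lit 31) (nat_lit 1) (nat_lit 129) (nat_lit 103) (nat_lit 128)) (PT.nd (nat_lit 78) (PT.lf (nat_lit 2280) (nat_lit 6) (nat_lit 30) (nat_lit 1) (nat_lit 130) (nat_lit 103) (nat_lit 127)) (PT.lf (nat_lit 2204) (nat_lit 6) (nat_lit 29) (nat_lit 1) (nat_lit 131) (nat_lit 103) (nat_lit 126))))))) (PT.nd (nat_lit 37674) (PT.nd (nat_lit 312) (PT.nd (nat_lit 156) (PT.nd (nat_lit 78) (PT.lf (nat_lit 2432) (nat_lit 6) (nat_lit 32) (nat_lit 3) (nat_lit 125) (nat_lit 104) (nat_lit 131)) (PT.lf (nat_lit 2508) (nat_lit 6) (nat_lit 33) (nat_lit 3) (nat_lit 126) (nat_lit 104) (nat_lit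 130))) (PT.nd (nat_lit 78) (PT.lf (nat_lit 2584) (nat_lit 6) (nat_lit 34) (nat_lit 3) (nat_lit 127) (nat_lit 104) (nat_lit 129)) (PT.lf (nat_lit 2660) (nat_lit 3) (nat_lit 35) (nat_lit 1) (nat_lit 128) (nat_lit 104) (nat_lit 128)))) (PT.nd (nat_lit 156) (PT.nd (nat_lit 78) (PT.lf (nat_lit 2584) (nat_lit 6) (nat_lit 34) (nat_lit 1) (nat_lit 129) (nat_lit 104) (nat_lit 127)) (PT.lf (nat_lit 2508) (nat_lit 6) (nat_lit 33) (nat_lit 1) (nat_lit 130) (nat_lit 104) (nat_lit 126))) (PT.nd (nat_lit 37050) (PT.lf (nat_lit 2432) (nat_lit 6) (nat_lit 32) (nat_lit 1) (nat_lit 131) (nat_lit 104) (nat_lit 125)) (PT.nd (nat_lit 78) (PT.lf (nat_lit 2736) (nat_lit 6) (nat_lit 36) (nat_lit 3) (nat_lit 125) (nat_lit 105) (nat_lit 130)) (PT.lf (nat_lit 2812) (nat_lit 6) (nat_lit 37) (nat_lit 3) (nat_lit 126) (nat_lit 105) (nat_lit 129)))))) (PT.nd (nat_lit 37362) (PT.nd (nat_lit 156) (PT.nd (nat_lit 78)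 (PT.lf (nat_lit 2888) (nat_lit 6) (nat_lit 38) (nat_lit 3) (nat_lit 127) (nat_lit 105) (nat_lit 128)) (PT.lf (nat_lit 2888) (nat_lit 6) (nat_lit 38) (nat_lit 1) (nat_lit 128) (nat_lit 105) (nat_lit 127))) (PT.nd (nat_lit 78) (PT.lf (nat_lit 2812) (nat_lit 6) (nat_lit 37) (nat_lit 1) (nat_lit 129) (nat_lit 105) (nat_lit 126)) (PT.nd (nat_lit 37050) (PT.lf (nat_lit 2736) (nat_lit 6) (nat_lit 36) (nat_lit 1) (nat_lit 130) (nat_lit 105) (nat_lit 125)) (PT.lf (nat_lit 2964) (nat_lit 6) (nat_lit 39) (nat_lit 3) (nat_lit 124) (nat_lit 106) (nat_lit 130))))) (PT.nd (nat_lit 156) (PT.nd (nat_lit 78) (PT.lf (nat_lit 3040) (nat_lit 6) (nat_lit 40) (nat_lit 3) (nat_lit 125) (nat_lit 106) (nat_lit 129)) (PT.lf (nat_lit 3116) (nat_lit 6) (nat_lit 41) (nat_lit 3) (nat_lit 126) (nat_lit 106) (nat_lit 128))) (PT.nd (nat_lit 78) (PT.lf (nat_lit 3192) (nat_lit 3) (nat_lit 42) (nat_lit 1) (nat_lit 127)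 (nat_lit 106) (nat_lit 127)) (PT.nd (nat_lit 78) (PT.lf (nat_lit 3116) (nat_lit 6) (nat_lit 41) (nat_lit 1) (nat_lit 128) (nat_lit 106) (nat_lit 126)) (PT.lf (nat_lit 3040) (nat_lit 6) (nat_lit 40) (nat_lit 1) (nat_lit 129) (nat_lit 106) (nat_lit 125))))))))
noncomputable def pc2 : PT := (PT.nd (nat_lit 112086) (PT.nd (nat_lit 74490) (PT.nd (nat_lit 37206) (PT.nd (nat_lit 37050) (PT.nd (nat_lit 36972) (PT.lf (nat_lit 2964) (nat_lit 6) (nat_lit 39) (nat_lit 1) (nat_lit 130) (nat_lit 106) (nat_lit 124)) (PT.lf (nat_lit 3268) (nat_lit 6) (nat_lit 43) (nat_lit 3) (nat_lit 123) (nat_lit 107) (nat_lit 130))) (PT.nd (nat_lit 78) (PT.lf (nat_lit 3344) (nat_lit 6) (nat_lit 44) (nat_lit 3) (nat_lit 124) (nat_lit 107) (nat_lit 129)) (PT.lf (nat_lit 3420) (nat_lit 6) (nat_lit 45) (nat_lit 3) (nat_lit 125) (nat_lit 107) (nat_lit 128)))) (PT.nd (nat_lit 156) (PT.nd (nat_lit 78) (PT.lf (nat_lit 3496)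 (nat_lit 6) (nat_lit 46) (nat_lit 3) (nat_lit 126) (nat_lit 107) (nat_lit 127)) (PT.lf (nat_lit 3496) (nat_lit 6) (nat_lit 46) (nat_lit 1) (nat_lit 127) (nat_lit 107) (nat_lit 126))) (PT.nd (nat_lit 78) (PT.lf (nat_lit 3420) (nat_lit 6) (nat_lit 45) (nat_lit 1) (nat_lit 128) (nat_lit 107) (nat_lit 125)) (PT.nd (nat_lit 78) (PT.lf (nat_lit 3344) (nat_lit 6) (nat_lit 44) (nat_lit 1) (nat_lit 129) (nat_lit 107) (nat_lit 124)) (PT.lf (nat_lit 3268) (nat_lit 6) (nat_lit 43) (nat_lit 1) (nat_lit 130) (nat_lit 107) (nat_lit 123)))))) (PT.nd (nat_lit 312) (PT.nd (nat_lit 156) (PT.nd (nat_lit 78) (PT.lf (nat_lit 3572) (nat_lit 6) (nat_lit 47) (nat_lit 3) (nat_lit 123) (nat_lit 108) (nat_lit 129)) (PT.lf (nat_lit 3648) (nat_lit 6) (nat_lit 48) (nat_lit 3) (nat_lit 124) (nat_lit 108) (nat_lit 128))) (PT.nd (nat_lit 78) (PT.lf (nat_lit 3724) (nat_lit 6) (nat_lit 49) (nat_lit 3) (nat_lit 125) (nat_lit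 108) (nat_lit 127)) (PT.lf (nat_lit 3800) (nat_lit 3) (nat_lit 50) (nat_lit 1) (nat_lit 126) (nat_lit 108) (nat_lit 126)))) (PT.nd (nat_lit 156) (PT.nd (nat_lit 78) (PT.lf (nat_lit 3724) (nat_lit 6) (nat_lit 49) (nat_lit 1) (nat_lit 127) (nat_lit 108) (nat_lit 125)) (PT.lf (nat_lit 3648) (nat_lit 6) (nat_lit 48) (nat_lit 1) (nat_lit 128) (nat_lit 108) (nat_lit 124))) (PT.nd (nat_lit 36972) (PT.lf (nat_lit 3572) (nat_lit 6) (nat_lit 47) (nat_lit 1) (nat_lit 129) (nat_lit 108) (nat_lit 123)) (PT.nd (nat_lit 78) (PT.lf (nat_lit 3876) (nat_lit 6) (nat_lit 51) (nat_lit 3) (nat_lit 122) (nat_lit 109) (nat_lit 129)) (PT.lf (nat_lit 3952) (nat_lit 6) (nat_lit 52) (nat_lit 3) (nat_lit 123) (nat_lit 109) (nat_lit 128))))))) (PT.nd (nat_lit 37518) (PT.nd (nat_lit 312) (PT.nd (nat_lit 156) (PT.nd (nat_lit 78) (PT.lf (nat_lit 4028) (nat_lit 6) (nat_lit 53) (nat_lit 3) (nat_lit 124) (nat_lit 109)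 (nat_lit 127)) (PT.lf (nat_lit 4104) (nat_lit 6) (nat_lit 54) (nat_lit 3) (nat_lit 125) (nat_lit 109) (nat_lit 126))) (PT.nd (nat_lit 78) (PT.lf (nat_lit 4104) (nat_lit 6) (nat_lit 54) (nat_lit 1) (nat_lit 126) (nat_lit 109) (nat_lit 125)) (PT.lf (nat_lit 4028) (nat_lit 6) (nat_lit 53) (nat_lit 1) (nat_lit 127) (nat_lit 109) (nat_lit 124)))) (PT.nd (nat_lit 36972) (PT.nd (nat_lit 78) (PT.lf (nat_lit 3952) (nat_lit 6) (nat_lit 52) (nat_lit 1) (nat_lit 128) (nat_lit 109) (nat_lit 123)) (PT.lf (nat_lit 3876) (nat_lit 6) (nat_lit 51) (nat_lit 1) (nat_lit 129) (nat_lit 109) (nat_lit 122))) (PT.nd (nat_lit 78) (PT.lf (nat_lit 4180) (nat_lit 6) (nat_lit 55) (nat_lit 3) (nat_lit 121) (nat_lit 110) (nat_lit 129)) (PT.nd (nat_lit 78) (PT.lf (nat_lit 4256) (nat_lit 6) (nat_lit 56) (nat_lit 3) (nat_lit 122) (nat_lit 110) (nat_lit 128)) (PT.lf (nat_lit 4332) (nat_lit 6) (nat_lit 57) (nat_lit 3)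 (nat_lit 123) (nat_lit 110) (nat_lit 127)))))) (PT.nd (nat_lit 390) (PT.nd (nat_lit 156) (PT.nd (nat_lit 78) (PT.lf (nat_lit 4408) (nat_lit 6) (nat_lit 58) (nat_lit 3) (nat_lit 124) (nat_lit 110) (nat_lit 126)) (PT.lf (nat_lit 4484) (nat_lit 3) (nat_lit 59) (nat_lit 1) (nat_lit 125) (nat_lit 110) (nat_lit 125))) (PT.nd (nat_lit 78) (PT.lf (nat_lit 4408) (nat_lit 6) (nat_lit 58) (nat_lit 1) (nat_lit 126) (nat_lit 110) (nat_lit 124)) (PT.nd (nat_lit 78) (PT.lf (nat_lit 4332) (nat_lit 6) (nat_lit 57) (nat_lit 1) (nat_lit 127) (nat_lit 110) (nat_lit 123)) (PT.lf (nat_lit 4256) (nat_lit 6) (nat_lit 56) (nat_lit 1) (nat_lit 128) (nat_lit 110) (nat_lit 122))))) (PT.nd (nat_lit 36894) (PT.nd (nat_lit 36816) (PT.lf (nat_lit 4180) (nat_lit 6) (nat_lit 55) (nat_lit 1) (nat_lit 129) (nat_lit 110) (nat_lit 121)) (PT.lf (nat_lit 4864) (nat_lit 6) (nat_lit 64) (nat_lit 3) (nat_lit 120) (nat_lit 111)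 (nat_lit 129))) (PT.nd (nat_lit 78) (PT.lf (nat_lit 4940) (nat_lit 6) (nat_lit 65) (nat_lit 3) (nat_lit 121) (nat_lit 111) (nat_lit 128)) (PT.nd (nat_lit 78) (PT.lf (nat_lit 5016) (nat_lit 6) (nat_lit 66) (nat_lit 3) (nat_lit 122) (nat_lit 111) (nat_lit 127)) (PT.lf (nat_lit 5092) (nat_lit 6) (nat_lit 67) (nat_lit 3) (nat_lit 123) (nat_lit 111) (nat_lit 126))))))))
noncomputable def pc3 : PT := (PT.nd (nat_lit 74646) (PT.nd (nat_lit 37362) (PT.nd (nat_lit 312) (PT.nd (nat_lit 156) (PT.nd (nat_lit 78) (PT.lf (nat_lit 5168) (nat_lit 6) (nat_lit 68) (nat_lit 3) (nat_lit 124) (nat_lit 111) (nat_lit 125)) (PT.lf (nat_lit 5168) (nat_lit 6) (nat_lit 68) (nat_lit 1) (nat_lit 125) (nat_lit 111) (nat_lit 124))) (PT.nd (nat_lit 78) (PT.lf (nat_lit 5092) (nat_lit 6) (nat_lit 67) (nat_lit 1) (nat_lit 126) (nat_lit 111) (nat_lit 123)) (PT.lf (nat_lit 5016) (nat_lit 6) (nat_lit 66) (nat_lit 1) (nat_lit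 127) (nat_lit 111) (nat_lit 122)))) (PT.nd (nat_lit 36816) (PT.nd (nat_lit 78) (PT.lf (nat_lit 4940) (nat_lit 6) (nat_lit 65) (nat_lit 1) (nat_lit 128) (nat_lit 111) (nat_lit 121)) (PT.lf (nat_lit 4864) (nat_lit 6) (nat_lit 64) (nat_lit 1) (nat_lit 129) (nat_lit 111) (nat_lit 120))) (PT.nd (nat_lit 78) (PT.lf (nat_lit 4788) (nat_lit 6) (nat_lit 63) (nat_lit 3) (nat_lit 119) (nat_lit 112) (nat_lit 129)) (PT.nd (nat_lit 78) (PT.lf (nat_lit 5548) (nat_lit 6) (nat_lit 73) (nat_lit 3) (nat_lit 120) (nat_lit 112) (nat_lit 128)) (PT.lf (nat_lit 5624) (nat_lit 6) (nat_lit 74) (nat_lit 3) (nat_lit 121) (nat_lit 112) (nat_lit 127)))))) (PT.nd (nat_lit 312) (PT.nd (nat_lit 156) (PT.nd (nat_lit 78) (PT.lf (nat_lit 5700) (nat_lit 6) (nat_lit 75) (nat_lit 3) (nat_lit 122) (nat_lit 112) (nat_lit 126)) (PT.lf (nat_lit 5776) (nat_lit 6) (nat_lit 76) (nat_lit 3) (nat_lit 123) (nat_lit 112) (nat_lit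 125))) (PT.nd (nat_lit 78) (PT.lf (nat_lit 5852) (nat_lit 3) (nat_lit 77) (nat_lit 1) (nat_lit 124) (nat_lit 112) (nat_lit 124)) (PT.lf (nat_lit 5776) (nat_lit 6) (nat_lit 76) (nat_lit 1) (nat_lit 125) (nat_lit 112) (nat_lit 123)))) (PT.nd (nat_lit 156) (PT.nd (nat_lit 78) (PT.lf (nat_lit 5700) (nat_lit 6) (nat_lit 75) (nat_lit 1) (nat_lit 126) (nat_lit 112) (nat_lit 122)) (PT.lf (nat_lit 5624) (nat_lit 6) (nat_lit 74) (nat_lit 1) (nat_lit 127) (nat_lit 112) (nat_lit 121))) (PT.nd (nat_lit 78) (PT.lf (nat_lit 5548) (nat_lit 6) (nat_lit 73) (nat_lit 1) (nat_lit 128) (nat_lit 112) (nat_lit 120)) (PT.nd (nat_lit 36660) (PT.lf (nat_lit 4788) (nat_lit 6) (nat_lit 63) (nat_lit 1) (nat_lit 129) (nat_lit 112) (nat_lit 119)) (PT.lf (nat_lit 4712) (nat_lit 6) (nat_lit 62) (nat_lit 3) (nat_lit 118) (nat_lit 113) (nat_lit 129))))))) (PT.nd (nat_lit 702) (PT.nd (nat_lit 312) (PT.nd (nat_lit 156)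 (PT.nd (nat_lit 78) (PT.lf (nat_lit 5472) (nat_lit 6) (nat_lit 72) (nat_lit 3) (nat_lit 119) (nat_lit 113) (nat_lit 128)) (PT.lf (nat_lit 6156) (nat_lit 6) (nat_lit 81) (nat_lit 3) (nat_lit 120) (nat_lit 113) (nat_lit 127))) (PT.nd (nat_lit 78) (PT.lf (nat_lit 6232) (nat_lit 6) (nat_lit 82) (nat_lit 3) (nat_lit 121) (nat_lit 113) (nat_lit 126)) (PT.lf (nat_lit 6308) (nat_lit 6) (nat_lit 83) (nat_lit 3) (nat_lit 122) (nat_lit 113) (nat_lit 125)))) (PT.nd (nat_lit 156) (PT.nd (nat_lit 78) (PT.lf (nat_lit 6384) (nat_lit 6) (nat_lit 84) (nat_lit 3) (nat_lit 123) (nat_lit 113) (nat_lit 124)) (PT.lf (nat_lit 6384) (nat_lit 6) (nat_lit 84) (nat_lit 1) (nat_lit 124) (nat_lit 113) (nat_lit 123))) (PT.nd (nat_lit 78) (PT.lf (nat_lit 6308) (nat_lit 6) (nat_lit 83) (nat_lit 1) (nat_lit 125) (nat_lit 113) (nat_lit 122)) (PT.nd (nat_lit 78) (PT.lf (nat_lit 6232) (nat_lit 6) (nat_lit 82) (nat_lit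 1) (nat_lit 126) (nat_lit 113) (nat_lit 121)) (PT.lf (nat_lit 6156) (nat_lit 6) (nat_lit 81) (nat_lit 1) (nat_lit 127) (nat_lit 113) (nat_lit 120)))))) (PT.nd (nat_lit 36894) (PT.nd (nat_lit 36660) (PT.nd (nat_lit 78) (PT.lf (nat_lit 5472) (nat_lit 6) (nat_lit 72) (nat_lit 1) (nat_lit 128) (nat_lit 113) (nat_lit 119)) (PT.lf (nat_lit 4712) (nat_lit 6) (nat_lit 62) (nat_lit 1) (nat_lit 129) (nat_lit 113) (nat_lit 118))) (PT.nd (nat_lit 78) (PT.lf (nat_lit 4636) (nat_lit 6) (nat_lit 61) (nat_lit 3) (nat_lit 117) (nat_lit 114) (nat_lit 129)) (PT.nd (nat_lit 78) (PT.lf (nat_lit 5396) (nat_lit 6) (nat_lit 71) (nat_lit 3) (nat_lit 118) (nat_lit 114) (nat_lit 128)) (PT.lf (nat_lit 6080) (nat_lit 6) (nat_lit 80) (nat_lit 3) (nat_lit 119) (nat_lit 114) (nat_lit 127))))) (PT.nd (nat_lit 156) (PT.nd (nat_lit 78) (PT.lf (nat_lit 6688) (nat_lit 6) (nat_lit 88) (nat_lit 3) (nat_lit 120) (nat_lit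 114) (nat_lit 126)) (PT.lf (nat_lit 6764) (nat_lit 6) (nat_lit 89) (nat_lit 3) (nat_lit 121) (nat_lit 114) (nat_lit 125))) (PT.nd (nat_lit 78) (PT.lf (nat_lit 6840) (nat_lit 6) (nat_lit 90) (nat_lit 3) (nat_lit 122) (nat_lit 114) (nat_lit 124)) (PT.nd (nat_lit 78) (PT.lf (nat_lit 6916) (nat_lit 3) (nat_lit 91) (nat_lit 1) (nat_lit 123) (nat_lit 114) (nat_lit 123)) (PT.lf (nat_lit 6840) (nat_lit 6) (nat_lit 90) (nat_lit 1) (nat_lit 124) (nat_lit 114) (nat_lit 122))))))))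
noncomputable def pc4 : PT := (PT.nd (nat_lit 37830) (PT.nd (nat_lit 37128) (PT.nd (nat_lit 312) (PT.nd (nat_lit 156) (PT.nd (nat_lit 78) (PT.lf (nat_lit 6764) (nat_lit 6) (nat_lit 89) (nat_lit 1) (nat_lit 125) (nat_lit 114) (nat_lit 121)) (PT.lf (nat_lit 6688) (nat_lit 6) (nat_lit 88) (nat_lit 1) (nat_lit 126) (nat_lit 114) (nat_lit 120))) (PT.nd (nat_lit 78) (PT.lf (nat_lit 6080) (nat_lit 6) (nat_lit 80) (nat_lit 1) (nat_lit 127) (nat_lit 114) (nat_lit 119)) (PT.lf (nat_lit 5396) (nat_lit 6) (nat_lit 71) (nat_lit 1) (nat_lit 128) (nat_lit 114) (nat_lit 118)))) (PT.nd (nat_lit 36582) (PT.nd (nat_lit 36504) (PT.lf (nat_lit 4636) (nat_lit 6) (nat_lit 61) (nat_lit 1) (nat_lit 129) (nat_lit 114) (nat_lit 117)) (PT.lf (nat_lit 4560) (nat_lit 6) (nat_lit 60) (nat_lit 3) (nat_lit 116) (nat_lit 115) (nat_lit 129))) (PT.nd (nat_lit 78) (PT.lf (nat_lit 5320) (nat_lit 6) (nat_lit 70) (nat_lit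 3) (nat_lit 117) (nat_lit 115) (nat_lit 128)) (PT.nd (nat_lit 78) (PT.lf (nat_lit 6004) (nat_lit 6) (nat_lit 79) (nat_lit 3) (nat_lit 118) (nat_lit 115) (nat_lit 127)) (PT.lf (nat_lit 6612) (nat_lit 6) (nat_lit 87) (nat_lit 3) (nat_lit 119) (nat_lit 115) (nat_lit 126)))))) (PT.nd (nat_lit 312) (PT.nd (nat_lit 156) (PT.nd (nat_lit 78) (PT.lf (nat_lit 7144) (nat_lit 6) (nat_lit 94) (nat_lit 3) (nat_lit 120) (nat_lit 115) (nat_lit 125)) (PT.lf (nat_lit 7220) (nat_lit 6) (nat_lit 95) (nat_lit 3) (nat_lit 121) (nat_lit 115) (nat_lit 124))) (PT.nd (nat_lit 78) (PT.lf (nat_lit 7296) (nat_lit 6) (nat_lit 96) (nat_lit 3) (nat_lit 122) (nat_lit 115) (nat_lit 123)) (PT.lf (nat_lit 7296) (nat_lit 6) (nat_lit 96) (nat_lit 1) (nat_lit 123) (nat_lit 115) (nat_lit 122)))) (PT.nd (nat_lit 156) (PT.nd (nat_lit 78) (PT.lf (nat_lit 7220) (nat_lit 6) (nat_lit 95) (nat_lit 1) (nat_lit 124) (nat_lit 115)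 (nat_lit 121)) (PT.lf (nat_lit 7144) (nat_lit 6) (nat_lit 94) (nat_lit 1) (nat_lit 125) (nat_lit 115) (nat_lit 120))) (PT.nd (nat_lit 78) (PT.lf (nat_lit 6612) (nat_lit 6) (nat_lit 87) (nat_lit 1) (nat_lit 126) (nat_lit 115) (nat_lit 119)) (PT.nd (nat_lit 78) (PT.lf (nat_lit 6004) (nat_lit 6) (nat_lit 79) (nat_lit 1) (nat_lit 127) (nat_lit 115) (nat_lit 118)) (PT.lf (nat_lit 5320) (nat_lit 6) (nat_lit 70) (nat_lit 1) (nat_lit 128) (nat_lit 115) (nat_lit 117))))))) (PT.nd (nat_lit 37050) (PT.nd (nat_lit 36660) (PT.nd (nat_lit 36504) (PT.nd (nat_lit 36426) (PT.lf (nat_lit 4560) (nat_lit 6) (nat_lit 60) (nat_lit 1) (nat_lit 129) (nat_lit 115) (nat_lit 116)) (PT.lf (nat_lit 4560) (nat_lit 6) (nat_lit 60) (nat_lit 5) (nat_lit 115) (nat_lit 116) (nat_lit 129))) (PT.nd (nat_lit 78) (PT.lf (nat_lit 5244) (nat_lit 3) (nat_lit 69) (nat_lit 3) (nat_lit 116) (nat_lit 116) (nat_lit 128)) (PT.lf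 (nat_lit 5928) (nat_lit 6) (nat_lit 78) (nat_lit 3) (nat_lit 117) (nat_lit 116) (nat_lit 127)))) (PT.nd (nat_lit 156) (PT.nd (nat_lit 78) (PT.lf (nat_lit 6536) (nat_lit 6) (nat_lit 86) (nat_lit 3) (nat_lit 118) (nat_lit 116) (nat_lit 126)) (PT.lf (nat_lit 7068) (nat_lit 6) (nat_lit 93) (nat_lit 3) (nat_lit 119) (nat_lit 116) (nat_lit 125))) (PT.nd (nat_lit 78) (PT.lf (nat_lit 7524) (nat_lit 6) (nat_lit 99) (nat_lit 3) (nat_lit 120) (nat_lit 116) (nat_lit 124)) (PT.nd (nat_lit 78) (PT.lf (nat_lit 7600) (nat_lit 6) (nat_lit 100) (nat_lit 3) (nat_lit 121) (nat_lit 116) (nat_lit 123)) (PT.lf (nat_lit 7676) (nat_lit 3) (nat_lit 101) (nat_lit 1) (nat_lit 122) (nat_lit 116) (nat_lit 122)))))) (PT.nd (nat_lit 312) (PT.nd (nat_lit 156) (PT.nd (nat_lit 78) (PT.lf (nat_lit 7600) (nat_lit 6) (nat_lit 100) (nat_lit 1) (nat_lit 123) (nat_lit 116) (nat_lit 121)) (PT.lf (nat_lit 7524) (nat_lit 6)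 (nat_lit 99) (nat_lit 1) (nat_lit 124) (nat_lit 116) (nat_lit 120))) (PT.nd (nat_lit 78) (PT.lf (nat_lit 7068) (nat_lit 6) (nat_lit 93) (nat_lit 1) (nat_lit 125) (nat_lit 116) (nat_lit 119)) (PT.lf (nat_lit 6536) (nat_lit 6) (nat_lit 86) (nat_lit 1) (nat_lit 126) (nat_lit 116) (nat_lit 118)))) (PT.nd (nat_lit 156) (PT.nd (nat_lit 78) (PT.lf (nat_lit 5928) (nat_lit 6) (nat_lit 78) (nat_lit 1) (nat_lit 127) (nat_lit 116) (nat_lit 117)) (PT.lf (nat_lit 5244) (nat_lit 3) (nat_lit 69) (nat_lit 0) (nat_lit 128) (nat_lit 116) (nat_lit 116))) (PT.nd (nat_lit 36348) (PT.lf (nat_lit 4560) (nat_lit 6) (nat_lit 60) (nat_lit 0) (nat_lit 129) (nat_lit 116) (nat_lit 115)) (PT.nd (nat_lit 78) (PT.lf (nat_lit 4636) (nat_lit 6) (nat_lit 61) (nat_lit 5) (nat_lit 114) (nat_lit 117) (nat_lit 129)) (PT.lf (nat_lit 5320) (nat_lit 6) (nat_lit 70) (nat_lit 5) (nat_lit 115) (nat_lit 117) (nat_lit 128))))))))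
noncomputable def pc5 : PT := (PT.nd (nat_lit 37596) (PT.nd (nat_lit 702) (PT.nd (nat_lit 312) (PT.nd (nat_lit 156) (PT.nd (nat_lit 78) (PT.lf (nat_lit 5928) (nat_lit 6) (nat_lit 78) (nat_lit 5) (nat_lit 116) (nat_lit 117) (nat_lit 127)) (PT.lf (nat_lit 6460) (nat_lit 3) (nat_lit 85) (nat_lit 3) (nat_lit 117) (nat_lit 117) (nat_lit 126))) (PT.nd (nat_lit 78) (PT.lf (nat_lit 6992) (nat_lit 6) (nat_lit 92) (nat_lit 3) (nat_lit 118) (nat_lit 117) (nat_lit 125)) (PT.lf (nat_lit 7448) (nat_lit 6) (nat_lit 98) (nat_lit 3) (nat_lit 119) (nat_lit 117) (nat_lit 124)))) (PT.nd (nat_lit 156) (PT.nd (nat_lit 78) (PT.lf (nat_lit 7828) (nat_lit 6) (nat_lit 103) (nat_lit 3) (nat_lit 120) (nat_lit 117) (nat_lit 123)) (PT.lf (nat_lit 7904) (nat_lit 6) (nat_lit 104) (nat_lit 3) (nat_lit 121) (nat_lit 117) (nat_lit 122))) (PT.nd (nat_lit 78) (PT.lf (nat_lit 7904) (nat_lit 6) (nat_lit 104) (nat_lit 1)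 (nat_lit 122) (nat_lit 117) (nat_lit 121)) (PT.nd (nat_lit 78) (PT.lf (nat_lit 7828) (nat_lit 6) (nat_lit 103) (nat_lit 1) (nat_lit 123) (nat_lit 117) (nat_lit 120)) (PT.lf (nat_lit 7448) (nat_lit 6) (nat_lit 98) (nat_lit 1) (nat_lit 124) (nat_lit 117) (nat_lit 119)))))) (PT.nd (nat_lit 312) (PT.nd (nat_lit 156) (PT.nd (nat_lit 78) (PT.lf (nat_lit 6992) (nat_lit 6) (nat_lit 92) (nat_lit 1) (nat_lit 125) (nat_lit 117) (nat_lit 118)) (PT.lf (nat_lit 6460) (nat_lit 3) (nat_lit 85) (nat_lit 0) (nat_lit 126) (nat_lit 117) (nat_lit 117))) (PT.nd (nat_lit 78) (PT.lf (nat_lit 5928) (nat_lit 6) (nat_lit 78) (nat_lit 0) (nat_lit 127) (nat_lit 117) (nat_lit 116)) (PT.lf (nat_lit 5320) (nat_lit 6) (nat_lit 70) (nat_lit 0) (nat_lit 128) (nat_lit 117) (nat_lit 115)))) (PT.nd (nat_lit 36348) (PT.nd (nat_lit 36270) (PT.lf (nat_lit 4636) (nat_lit 6) (nat_lit 61) (nat_lit 0) (nat_lit 129) (nat_lit 117)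 (nat_lit 114)) (PT.lf (nat_lit 4712) (nat_lit 6) (nat_lit 62) (nat_lit 5) (nat_lit 113) (nat_lit 118) (nat_lit 129))) (PT.nd (nat_lit 78) (PT.lf (nat_lit 5396) (nat_lit 6) (nat_lit 71) (nat_lit 5) (nat_lit 114) (nat_lit 118) (nat_lit 128)) (PT.nd (nat_lit 78) (PT.lf (nat_lit 6004) (nat_lit 6) (nat_lit 79) (nat_lit 5) (nat_lit 115) (nat_lit 118) (nat_lit 127)) (PT.lf (nat_lit 6536) (nat_lit 6) (nat_lit 86) (nat_lit 5) (nat_lit 116) (nat_lit 118) (nat_lit 126))))))) (PT.nd (nat_lit 702) (PT.nd (nat_lit 312) (PT.nd (nat_lit 156) (PT.nd (nat_lit 78) (PT.lf (nat_lit 6992) (nat_lit 6) (nat_lit 92) (nat_lit 5) (nat_lit 117) (nat_lit 118) (nat_lit 125)) (PT.lf (nat_lit 7372) (nat_lit 3) (nat_lit 97) (nat_lit 3) (nat_lit 118) (nat_lit 118) (nat_lit 124))) (PT.nd (nat_lit 78) (PT.lf (nat_lit 7752) (nat_lit 6) (nat_lit 102) (nat_lit 3) (nat_lit 119) (nat_lit 118) (nat_lit 123)) (PT.lf (nat_lit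 8056) (nat_lit 6) (nat_lit 106) (nat_lit 3) (nat_lit 120) (nat_lit 118) (nat_lit 122)))) (PT.nd (nat_lit 156) (PT.nd (nat_lit 78) (PT.lf (nat_lit 8132) (nat_lit 3) (nat_lit 107) (nat_lit 1) (nat_lit 121) (nat_lit 118) (nat_lit 121)) (PT.lf (nat_lit 8056) (nat_lit 6) (nat_lit 106) (nat_lit 1) (nat_lit 122) (nat_lit 118) (nat_lit 120))) (PT.nd (nat_lit 78) (PT.lf (nat_lit 7752) (nat_lit 6) (nat_lit 102) (nat_lit 1) (nat_lit 123) (nat_lit 118) (nat_lit 119)) (PT.nd (nat_lit 78) (PT.lf (nat_lit 7372) (nat_lit 3) (nat_lit 97) (nat_lit 0) (nat_lit 124) (nat_lit 118) (nat_lit 118)) (PT.lf (nat_lit 6992) (nat_lit 6) (nat_lit 92) (nat_lit 0) (nat_lit 125) (nat_lit 118) (nat_lit 117)))))) (PT.nd (nat_lit 36504) (PT.nd (nat_lit 156) (PT.nd (nat_lit 78) (PT.lf (nat_lit 6536) (nat_lit 6) (nat_lit 86) (nat_lit 0) (nat_lit 126) (nat_lit 118) (nat_lit 116)) (PT.lf (nat_lit 6004) (nat_lit 6) (nat_lit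 79) (nat_lit 0) (nat_lit 127) (nat_lit 118) (nat_lit 115))) (PT.nd (nat_lit 78) (PT.lf (nat_lit 5396) (nat_lit 6) (nat_lit 71) (nat_lit 0) (nat_lit 128) (nat_lit 118) (nat_lit 114)) (PT.nd (nat_lit 36192) (PT.lf (nat_lit 4712) (nat_lit 6) (nat_lit 62) (nat_lit 0) (nat_lit 129) (nat_lit 118) (nat_lit 113)) (PT.lf (nat_lit 4788) (nat_lit 6) (nat_lit 63) (nat_lit 5) (nat_lit 112) (nat_lit 119) (nat_lit 129))))) (PT.nd (nat_lit 156) (PT.nd (nat_lit 78) (PT.lf (nat_lit 5472) (nat_lit 6) (nat_lit 72) (nat_lit 5) (nat_lit 113) (nat_lit 119) (nat_lit 128)) (PT.lf (nat_lit 6080) (nat_lit 6) (nat_lit 80) (nat_lit 5) (nat_lit 114) (nat_lit 119) (nat_lit 127))) (PT.nd (nat_lit 78) (PT.lf (nat_lit 6612) (nat_lit 6) (nat_lit 87) (nat_lit 5) (nat_lit 115) (nat_lit 119) (nat_lit 126)) (PT.nd (nat_lit 78) (PT.lf (nat_lit 7068) (nat_lit 6) (nat_lit 93) (nat_lit 5) (nat_lit 116) (nat_lit 119) (nat_lit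 125)) (PT.lf (nat_lit 7448) (nat_lit 6) (nat_lit 98) (nat_lit 5) (nat_lit 117) (nat_lit 119) (nat_lit 124))))))))
noncomputable def pc6 : PT := (PT.nd (nat_lit 37440) (PT.nd (nat_lit 702) (PT.nd (nat_lit 312) (PT.nd (nat_lit 156) (PT.nd (nat_lit 78) (PT.lf (nat_lit 7752) (nat_lit 6) (nat_lit 102) (nat_lit 5) (nat_lit 118) (nat_lit 119) (nat_lit 123)) (PT.lf (nat_lit 7980) (nat_lit 3) (nat_lit 105) (nat_lit 3) (nat_lit 119) (nat_lit 119) (nat_lit 122))) (PT.nd (nat_lit 78) (PT.lf (nat_lit 8208) (nat_lit 6) (nat_lit 108) (nat_lit 3) (nat_lit 120) (nat_lit 119) (nat_lit 121)) (PT.lf (nat_lit 8208) (nat_lit 6) (nat_lit 108) (nat_lit 1) (nat_lit 121) (nat_lit 119) (nat_lit 120)))) (PT.nd (nat_lit 156) (PT.nd (nat_lit 78) (PT.lf (nat_lit 7980) (nat_lit 3) (nat_lit 105) (nat_lit 0) (nat_lit 122) (nat_lit 119) (nat_lit 119)) (PT.lf (nat_lit 7752) (nat_lit 6) (nat_lit 102) (nat_lit 0) (nat_lit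 123) (nat_lit 119) (nat_lit 118))) (PT.nd (nat_lit 78) (PT.lf (nat_lit 7448) (nat_lit 6) (nat_lit 98) (nat_lit 0) (nat_lit 124) (nat_lit 119) (nat_lit 117)) (PT.nd (nat_lit 78) (PT.lf (nat_lit 7068) (nat_lit 6) (nat_lit 93) (nat_lit 0) (nat_lit 125) (nat_lit 119) (nat_lit 116)) (PT.lf (nat_lit 6612) (nat_lit 6) (nat_lit 87) (nat_lit 0) (nat_lit 126) (nat_lit 119) (nat_lit 115)))))) (PT.nd (nat_lit 36348) (PT.nd (nat_lit 156) (PT.nd (nat_lit 78) (PT.lf (nat_lit 6080) (nat_lit 6) (nat_lit 80) (nat_lit 0) (nat_lit 127) (nat_lit 119) (nat_lit 114)) (PT.lf (nat_lit 5472) (nat_lit 6) (nat_lit 72) (nat_lit 0) (nat_lit 128) (nat_lit 119) (nat_lit 113))) (PT.nd (nat_lit 36114) (PT.lf (nat_lit 4788) (nat_lit 6) (nat_lit 63) (nat_lit 0) (nat_lit 129) (nat_lit 119) (nat_lit 112)) (PT.lf (nat_lit 4864) (nat_lit 6) (nat_lit 64) (nat_lit 5) (nat_lit 111) (nat_lit 120) (nat_lit 129)))) (PT.nd (nat_lit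 156) (PT.nd (nat_lit 78) (PT.lf (nat_lit 5548) (nat_lit 6) (nat_lit 73) (nat_lit 5) (nat_lit 112) (nat_lit 120) (nat_lit 128)) (PT.lf (nat_lit 6156) (nat_lit 6) (nat_lit 81) (nat_lit 5) (nat_lit 113) (nat_lit 120) (nat_lit 127))) (PT.nd (nat_lit 78) (PT.lf (nat_lit 6688) (nat_lit 6) (nat_lit 88) (nat_lit 5) (nat_lit 114) (nat_lit 120) (nat_lit 126)) (PT.nd (nat_lit 78) (PT.lf (nat_lit 7144) (nat_lit 6) (nat_lit 94) (nat_lit 5) (nat_lit 115) (nat_lit 120) (nat_lit 125)) (PT.lf (nat_lit 7524) (nat_lit 6) (nat_lit 99) (nat_lit 5) (nat_lit 116) (nat_lit 120) (nat_lit 124))))))) (PT.nd (nat_lit 702) (PT.nd (nat_lit 312) (PT.nd (nat_lit 156) (PT.nd (nat_lit 78) (PT.lf (nat_lit 7828) (nat_lit 6) (nat_lit 103) (nat_lit 5) (nat_lit 117) (nat_lit 120) (nat_lit 123)) (PT.lf (nat_lit 8056) (nat_lit 6) (nat_lit 106) (nat_lit 5) (nat_lit 118) (nat_lit 120) (nat_lit 122))) (PT.nd (nat_lit 78) (PT.lf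 (nat_lit 8208) (nat_lit 6) (nat_lit 108) (nat_lit 5) (nat_lit 119) (nat_lit 120) (nat_lit 121)) (PT.lf (nat_lit 8284) (nat_lit 1) (nat_lit 109) (nat_lit 0) (nat_lit 120) (nat_lit 120) (nat_lit 120)))) (PT.nd (nat_lit 156) (PT.nd (nat_lit 78) (PT.lf (nat_lit 8208) (nat_lit 6) (nat_lit 108) (nat_lit 0) (nat_lit 121) (nat_lit 120) (nat_lit 119)) (PT.lf (nat_lit 8056) (nat_lit 6) (nat_lit 106) (nat_lit 0) (nat_lit 122) (nat_lit 120) (nat_lit 118))) (PT.nd (nat_lit 78) (PT.lf (nat_lit 7828) (nat_lit 6) (nat_lit 103) (nat_lit 0) (nat_lit 123) (nat_lit 120) (nat_lit 117)) (PT.nd (nat_lit 78) (PT.lf (nat_lit 7524) (nat_lit 6) (nat_lit 99) (nat_lit 0) (nat_lit 124) (nat_lit 120) (nat_lit 116)) (PT.lf (nat_lit 7144) (nat_lit 6) (nat_lit 94) (nat_lit 0) (nat_lit 125) (nat_lit 120) (nat_lit 115)))))) (PT.nd (nat_lit 36348) (PT.nd (nat_lit 156) (PT.nd (nat_lit 78) (PT.lf (nat_lit 6688) (nat_lit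 6) (nat_lit 88) (nat_lit 0) (nat_lit 126) (nat_lit 120) (nat_lit 114)) (PT.lf (nat_lit 6156) (nat_lit 6) (nat_lit 81) (nat_lit 0) (nat_lit 127) (nat_lit 120) (nat_lit 113))) (PT.nd (nat_lit 78) (PT.lf (nat_lit 5548) (nat_lit 6) (nat_lit 73) (nat_lit 0) (nat_lit 128) (nat_lit 120) (nat_lit 112)) (PT.nd (nat_lit 36036) (PT.lf (nat_lit 4864) (nat_lit 6) (nat_lit 64) (nat_lit 0) (nat_lit 129) (nat_lit 120) (nat_lit 111)) (PT.lf (nat_lit 4180) (nat_lit 6) (nat_lit 55) (nat_lit 5) (nat_lit 110) (nat_lit 121) (nat_lit 129))))) (PT.nd (nat_lit 156) (PT.nd (nat_lit 78) (PT.lf (nat_lit 4940) (nat_lit 6) (nat_lit 65) (nat_lit 5) (nat_lit 111) (nat_lit 121) (nat_lit 128)) (PT.lf (nat_lit 5624) (nat_lit 6) (nat_lit 74) (nat_lit 5) (nat_lit 112) (nat_lit 121) (nat_lit 127))) (PT.nd (nat_lit 78) (PT.lf (nat_lit 6232) (nat_lit 6) (nat_lit 82) (nat_lit 5) (nat_lit 113) (nat_lit 121) (nat_lit 126))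 (PT.nd (nat_lit 78) (PT.lf (nat_lit 6764) (nat_lit 6) (nat_lit 89) (nat_lit 5) (nat_lit 114) (nat_lit 121) (nat_lit 125)) (PT.lf (nat_lit 7220) (nat_lit 6) (nat_lit 95) (nat_lit 5) (nat_lit 115) (nat_lit 121) (nat_lit 124))))))))
noncomputable def pc7 : PT := (PT.nd (nat_lit 37284) (PT.nd (nat_lit 702) (PT.nd (nat_lit 312) (PT.nd (nat_lit 156) (PT.nd (nat_lit 78) (PT.lf (nat_lit 7600) (nat_lit 6) (nat_lit 100) (nat_lit 5) (nat_lit 116) (nat_lit 121) (nat_lit 123)) (PT.lf (nat_lit 7904) (nat_lit 6) (nat_lit 104) (nat_lit 5) (nat_lit 117) (nat_lit 121) (nat_lit 122))) (PT.nd (nat_lit 78) (PT.lf (nat_lit 8132) (nat_lit 3) (nat_lit 107) (nat_lit 4) (nat_lit 118) (nat_lit 121) (nat_lit 121)) (PT.lf (nat_lit 8208) (nat_lit 6) (nat_lit 108) (nat_lit 4) (nat_lit 119) (nat_lit 121) (nat_lit 120)))) (PT.nd (nat_lit 156) (PT.nd (nat_lit 78) (PT.lf (nat_lit 8208) (nat_lit 6) (nat_lit 108) (nat_lit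 2) (nat_lit 120) (nat_lit 121) (nat_lit 119)) (PT.lf (nat_lit 8132) (nat_lit 3) (nat_lit 107) (nat_lit 0) (nat_lit 121) (nat_lit 121) (nat_lit 118))) (PT.nd (nat_lit 78) (PT.lf (nat_lit 7904) (nat_lit 6) (nat_lit 104) (nat_lit 0) (nat_lit 122) (nat_lit 121) (nat_lit 117)) (PT.nd (nat_lit 78) (PT.lf (nat_lit 7600) (nat_lit 6) (nat_lit 100) (nat_lit 0) (nat_lit 123) (nat_lit 121) (nat_lit 116)) (PT.lf (nat_lit 7220) (nat_lit 6) (nat_lit 95) (nat_lit 0) (nat_lit 124) (nat_lit 121) (nat_lit 115)))))) (PT.nd (nat_lit 312) (PT.nd (nat_lit 156) (PT.nd (nat_lit 78) (PT.lf (nat_lit 6764) (nat_lit 6) (nat_lit 89) (nat_lit 0) (nat_lit 125) (nat_lit 121) (nat_lit 114)) (PT.lf (nat_lit 6232) (nat_lit 6) (nat_lit 82) (nat_lit 0) (nat_lit 126) (nat_lit 121) (nat_lit 113))) (PT.nd (nat_lit 78) (PT.lf (nat_lit 5624) (nat_lit 6) (nat_lit 74) (nat_lit 0) (nat_lit 127) (nat_lit 121) (nat_lit 112)) (PT.lf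 (nat_lit 4940) (nat_lit 6) (nat_lit 65) (nat_lit 0) (nat_lit 128) (nat_lit 121) (nat_lit 111)))) (PT.nd (nat_lit 36036) (PT.nd (nat_lit 35958) (PT.lf (nat_lit 4180) (nat_lit 6) (nat_lit 55) (nat_lit 0) (nat_lit 129) (nat_lit 121) (nat_lit 110)) (PT.lf (nat_lit 3876) (nat_lit 6) (nat_lit 51) (nat_lit 5) (nat_lit 109) (nat_lit 122) (nat_lit 129))) (PT.nd (nat_lit 78) (PT.lf (nat_lit 4256) (nat_lit 6) (nat_lit 56) (nat_lit 5) (nat_lit 110) (nat_lit 122) (nat_lit 128)) (PT.nd (nat_lit 78) (PT.lf (nat_lit 5016) (nat_lit 6) (nat_lit 66) (nat_lit 5) (nat_lit 111) (nat_lit 122) (nat_lit 127)) (PT.lf (nat_lit 5700) (nat_lit 6) (nat_lit 75) (nat_lit 5) (nat_lit 112) (nat_lit 122) (nat_lit 126))))))) (PT.nd (nat_lit 702) (PT.nd (nat_lit 312) (PT.nd (nat_lit 156) (PT.nd (nat_lit 78) (PT.lf (nat_lit 6308) (nat_lit 6) (nat_lit 83) (nat_lit 5) (nat_lit 113) (nat_lit 122) (nat_lit 125)) (PT.lf (nat_lit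 6840) (nat_lit 6) (nat_lit 90) (nat_lit 5) (nat_lit 114) (nat_lit 122) (nat_lit 124))) (PT.nd (nat_lit 78) (PT.lf (nat_lit 7296) (nat_lit 6) (nat_lit 96) (nat_lit 5) (nat_lit 115) (nat_lit 122) (nat_lit 123)) (PT.lf (nat_lit 7676) (nat_lit 3) (nat_lit 101) (nat_lit 4) (nat_lit 116) (nat_lit 122) (nat_lit 122)))) (PT.nd (nat_lit 156) (PT.nd (nat_lit 78) (PT.lf (nat_lit 7904) (nat_lit 6) (nat_lit 104) (nat_lit 4) (nat_lit 117) (nat_lit 122) (nat_lit 121)) (PT.lf (nat_lit 8056) (nat_lit 6) (nat_lit 106) (nat_lit 4) (nat_lit 118) (nat_lit 122) (nat_lit 120))) (PT.nd (nat_lit 78) (PT.lf (nat_lit 7980) (nat_lit 3) (nat_lit 105) (nat_lit 2) (nat_lit 119) (nat_lit 122) (nat_lit 119)) (PT.nd (nat_lit 78) (PT.lf (nat_lit 8056) (nat_lit 6) (nat_lit 106) (nat_lit 2) (nat_lit 120) (nat_lit 122) (nat_lit 118)) (PT.lf (nat_lit 7904) (nat_lit 6) (nat_lit 104) (nat_lit 2) (nat_lit 121) (nat_lit 122)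 (nat_lit 117)))))) (PT.nd (nat_lit 390) (PT.nd (nat_lit 156) (PT.nd (nat_lit 78) (PT.lf (nat_lit 7676) (nat_lit 3) (nat_lit 101) (nat_lit 0) (nat_lit 122) (nat_lit 122) (nat_lit 116)) (PT.lf (nat_lit 7296) (nat_lit 6) (nat_lit 96) (nat_lit 0) (nat_lit 123) (nat_lit 122) (nat_lit 115))) (PT.nd (nat_lit 78) (PT.lf (nat_lit 6840) (nat_lit 6) (nat_lit 90) (nat_lit 0) (nat_lit 124) (nat_lit 122) (nat_lit 114)) (PT.nd (nat_lit 78) (PT.lf (nat_lit 6308) (nat_lit 6) (nat_lit 83) (nat_lit 0) (nat_lit 125) (nat_lit 122) (nat_lit 113)) (PT.lf (nat_lit 5700) (nat_lit 6) (nat_lit 75) (nat_lit 0) (nat_lit 126) (nat_lit 122) (nat_lit 112))))) (PT.nd (nat_lit 156) (PT.nd (nat_lit 78) (PT.lf (nat_lit 5016) (nat_lit 6) (nat_lit 66) (nat_lit 0) (nat_lit 127) (nat_lit 122) (nat_lit 111)) (PT.lf (nat_lit 4256) (nat_lit 6) (nat_lit 56) (nat_lit 0) (nat_lit 128) (nat_lit 122) (nat_lit 110))) (PT.nd (nat_lit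 35802) (PT.lf (nat_lit 3876) (nat_lit 6) (nat_lit 51) (nat_lit 0) (nat_lit 129) (nat_lit 122) (nat_lit 109)) (PT.nd (nat_lit 78) (PT.lf (nat_lit 3268) (nat_lit 6) (nat_lit 43) (nat_lit 5) (nat_lit 107) (nat_lit 123) (nat_lit 130)) (PT.lf (nat_lit 3572) (nat_lit 6) (nat_lit 47) (nat_lit 5) (nat_lit 108) (nat_lit 123) (nat_lit 129))))))))
noncomputable def pc8 : PT := (PT.nd (nat_lit 1404) (PT.nd (nat_lit 702) (PT.nd (nat_lit 312) (PT.nd (nat_lit 156) (PT.nd (nat_lit 78) (PT.lf (nat_lit 3952) (nat_lit 6) (nat_lit 52) (nat_lit 5) (nat_lit 109) (nat_lit 123) (nat_lit 128)) (PT.lf (nat_lit 4332) (nat_lit 6) (nat_lit 57) (nat_lit 5) (nat_lit 110) (nat_lit 123) (nat_lit 127))) (PT.nd (nat_lit 78) (PT.lf (nat_lit 5092) (nat_lit 6) (nat_lit 67) (nat_lit 5) (nat_lit 111) (nat_lit 123) (nat_lit 126)) (PT.lf (nat_lit 5776) (nat_lit 6) (nat_lit 76) (nat_lit 5) (nat_lit 112) (nat_lit 123) (nat_lit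 125)))) (PT.nd (nat_lit 156) (PT.nd (nat_lit 78) (PT.lf (nat_lit 6384) (nat_lit 6) (nat_lit 84) (nat_lit 5) (nat_lit 113) (nat_lit 123) (nat_lit 124)) (PT.lf (nat_lit 6916) (nat_lit 3) (nat_lit 91) (nat_lit 4) (nat_lit 114) (nat_lit 123) (nat_lit 123))) (PT.nd (nat_lit 78) (PT.lf (nat_lit 7296) (nat_lit 6) (nat_lit 96) (nat_lit 4) (nat_lit 115) (nat_lit 123) (nat_lit 122)) (PT.nd (nat_lit 78) (PT.lf (nat_lit 7600) (nat_lit 6) (nat_lit 100) (nat_lit 4) (nat_lit 116) (nat_lit 123) (nat_lit 121)) (PT.lf (nat_lit 7828) (nat_lit 6) (nat_lit 103) (nat_lit 4) (nat_lit 117) (nat_lit 123) (nat_lit 120)))))) (PT.nd (nat_lit 312) (PT.nd (nat_lit 156) (PT.nd (nat_lit 78) (PT.lf (nat_lit 7752) (nat_lit 6) (nat_lit 102) (nat_lit 4) (nat_lit 118) (nat_lit 123) (nat_lit 119)) (PT.lf (nat_lit 7752) (nat_lit 6) (nat_lit 102) (nat_lit 2) (nat_lit 119) (nat_lit 123) (nat_lit 118))) (PT.nd (nat_lit 78)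 (PT.lf (nat_lit 7828) (nat_lit 6) (nat_lit 103) (nat_lit 2) (nat_lit 120) (nat_lit 123) (nat_lit 117)) (PT.lf (nat_lit 7600) (nat_lit 6) (nat_lit 100) (nat_lit 2) (nat_lit 121) (nat_lit 123) (nat_lit 116)))) (PT.nd (nat_lit 156) (PT.nd (nat_lit 78) (PT.lf (nat_lit 7296) (nat_lit 6) (nat_lit 96) (nat_lit 2) (nat_lit 122) (nat_lit 123) (nat_lit 115)) (PT.lf (nat_lit 6916) (nat_lit 3) (nat_lit 91) (nat_lit 0) (nat_lit 123) (nat_lit 123) (nat_lit 114))) (PT.nd (nat_lit 78) (PT.lf (nat_lit 6384) (nat_lit 6) (nat_lit 84) (nat_lit 0) (nat_lit 124) (nat_lit 123) (nat_lit 113)) (PT.nd (nat_lit 78) (PT.lf (nat_lit 5776) (nat_lit 6) (nat_lit 76) (nat_lit 0) (nat_lit 125) (nat_lit 123) (nat_lit 112)) (PT.lf (nat_lit 5092) (nat_lit 6) (nat_lit 67) (nat_lit 0) (nat_lit 126) (nat_lit 123) (nat_lit 111))))))) (PT.nd (nat_lit 36270) (PT.nd (nat_lit 35880) (PT.nd (nat_lit 156) (PT.nd (nat_lit 78) (PT.lf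 (nat_lit 4332) (nat_lit 6) (nat_lit 57) (nat_lit 0) (nat_lit 127) (nat_lit 123) (nat_lit 110)) (PT.lf (nat_lit 3952) (nat_lit 6) (nat_lit 52) (nat_lit 0) (nat_lit 128) (nat_lit 123) (nat_lit 109))) (PT.nd (nat_lit 78) (PT.lf (nat_lit 3572) (nat_lit 6) (nat_lit 47) (nat_lit 0) (nat_lit 129) (nat_lit 123) (nat_lit 108)) (PT.lf (nat_lit 3268) (nat_lit 6) (nat_lit 43) (nat_lit 0) (nat_lit 130) (nat_lit 123) (nat_lit 107)))) (PT.nd (nat_lit 156) (PT.nd (nat_lit 78) (PT.lf (nat_lit 2964) (nat_lit 6) (nat_lit 39) (nat_lit 5) (nat_lit 106) (nat_lit 124) (nat_lit 130)) (PT.lf (nat_lit 3344) (nat_lit 6) (nat_lit 44) (nat_lit 5) (nat_lit 107) (nat_lit 124) (nat_lit 129))) (PT.nd (nat_lit 78) (PT.lf (nat_lit 3648) (nat_lit 6) (nat_lit 48) (nat_lit 5) (nat_lit 108) (nat_lit 124) (nat_lit 128)) (PT.nd (nat_lit 78) (PT.lf (nat_lit 4028) (nat_lit 6) (nat_lit 53) (nat_lit 5) (nat_lit 109) (nat_lit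 124) (nat_lit 127)) (PT.lf (nat_lit 4408) (nat_lit 6) (nat_lit 58) (nat_lit 5) (nat_lit 110) (nat_lit 124) (nat_lit 126)))))) (PT.nd (nat_lit 312) (PT.nd (nat_lit 156) (PT.nd (nat_lit 78) (PT.lf (nat_lit 5168) (nat_lit 6) (nat_lit 68) (nat_lit 5) (nat_lit 111) (nat_lit 124) (nat_lit 125)) (PT.lf (nat_lit 5852) (nat_lit 3) (nat_lit 77) (nat_lit 4) (nat_lit 112) (nat_lit 124) (nat_lit 124))) (PT.nd (nat_lit 78) (PT.lf (nat_lit 6384) (nat_lit 6) (nat_lit 84) (nat_lit 4) (nat_lit 113) (nat_lit 124) (nat_lit 123)) (PT.lf (nat_lit 6840) (nat_lit 6) (nat_lit 90) (nat_lit 4) (nat_lit 114) (nat_lit 124) (nat_lit 122)))) (PT.nd (nat_lit 156) (PT.nd (nat_lit 78) (PT.lf (nat_lit 7220) (nat_lit 6) (nat_lit 95) (nat_lit 4) (nat_lit 115) (nat_lit 124) (nat_lit 121)) (PT.lf (nat_lit 7524) (nat_lit 6) (nat_lit 99) (nat_lit 4) (nat_lit 116) (nat_lit 124) (nat_lit 120))) (PT.nd (nat_lit 78) (PT.lf (nat_lit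 7448) (nat_lit 6) (nat_lit 98) (nat_lit 4) (nat_lit 117) (nat_lit 124) (nat_lit 119)) (PT.nd (nat_lit 78) (PT.lf (nat_lit 7372) (nat_lit 3) (nat_lit 97) (nat_lit 2) (nat_lit 118) (nat_lit 124) (nat_lit 118)) (PT.lf (nat_lit 7448) (nat_lit 6) (nat_lit 98) (nat_lit 2) (nat_lit 119) (nat_lit 124) (nat_lit 117))))))))
noncomputable def pc9 : PT := (PT.nd (nat_lit 36816) (PT.nd (nat_lit 702) (PT.nd (nat_lit 312) (PT.nd (nat_lit 156) (PT.nd (nat_lit 78) (PT.lf (nat_lit 7524) (nat_lit 6) (nat_lit 99) (nat_lit 2) (nat_lit 120) (nat_lit 124) (nat_lit 116)) (PT.lf (nat_lit 7220) (nat_lit 6) (nat_lit 95) (nat_lit 2) (nat_lit 121) (nat_lit 124) (nat_lit 115))) (PT.nd (nat_lit 78) (PT.lf (nat_lit 6840) (nat_lit 6) (nat_lit 90) (nat_lit 2) (nat_lit 122) (nat_lit 124) (nat_lit 114)) (PT.lf (nat_lit 6384) (nat_lit 6) (nat_lit 84) (nat_lit 2) (nat_lit 123) (nat_lit 124) (nat_lit 113)))) (PT.nd (nat_lit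 156) (PT.nd (nat_lit 78) (PT.lf (nat_lit 5852) (nat_lit 3) (nat_lit 77) (nat_lit 0) (nat_lit 124) (nat_lit 124) (nat_lit 112)) (PT.lf (nat_lit 5168) (nat_lit 6) (nat_lit 68) (nat_lit 0) (nat_lit 125) (nat_lit 124) (nat_lit 111))) (PT.nd (nat_lit 78) (PT.lf (nat_lit 4408) (nat_lit 6) (nat_lit 58) (nat_lit 0) (nat_lit 126) (nat_lit 124) (nat_lit 110)) (PT.nd (nat_lit 78) (PT.lf (nat_lit 4028) (nat_lit 6) (nat_lit 53) (nat_lit 0) (nat_lit 127) (nat_lit 124) (nat_lit 109)) (PT.lf (nat_lit 3648) (nat_lit 6) (nat_lit 48) (nat_lit 0) (nat_lit 128) (nat_lit 124) (nat_lit 108)))))) (PT.nd (nat_lit 35724) (PT.nd (nat_lit 35568) (PT.nd (nat_lit 78) (PT.lf (nat_lit 3344) (nat_lit 6) (nat_lit 44) (nat_lit 0) (nat_lit 129) (nat_lit 124) (nat_lit 107)) (PT.lf (nat_lit 2964) (nat_lit 6) (nat_lit 39) (nat_lit 0) (nat_lit 130) (nat_lit 124) (nat_lit 106))) (PT.nd (nat_lit 78) (PT.lf (nat_lit 2432) (nat_lit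 6) (nat_lit 32) (nat_lit 5) (nat_lit 104) (nat_lit 125) (nat_lit 131)) (PT.lf (nat_lit 2736) (nat_lit 6) (nat_lit 36) (nat_lit 5) (nat_lit 105) (nat_lit 125) (nat_lit 130)))) (PT.nd (nat_lit 156) (PT.nd (nat_lit 78) (PT.lf (nat_lit 3040) (nat_lit 6) (nat_lit 40) (nat_lit 5) (nat_lit 106) (nat_lit 125) (nat_lit 129)) (PT.lf (nat_lit 3420) (nat_lit 6) (nat_lit 45) (nat_lit 5) (nat_lit 107) (nat_lit 125) (nat_lit 128))) (PT.nd (nat_lit 78) (PT.lf (nat_lit 3724) (nat_lit 6) (nat_lit 49) (nat_lit 5) (nat_lit 108) (nat_lit 125) (nat_lit 127)) (PT.nd (nat_lit 78) (PT.lf (nat_lit 4104) (nat_lit 6) (nat_lit 54) (nat_lit 5) (nat_lit 109) (nat_lit 125) (nat_lit 126)) (PT.lf (nat_lit 4484) (nat_lit 3) (nat_lit 59) (nat_lit 4) (nat_lit 110) (nat_lit 125) (nat_lit 125))))))) (PT.nd (nat_lit 702) (PT.nd (nat_lit 312) (PT.nd (nat_lit 156) (PT.nd (nat_lit 78) (PT.lf (nat_lit 5168) (nat_lit 6) (nat_lit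 68) (nat_lit 4) (nat_lit 111) (nat_lit 125) (nat_lit 124)) (PT.lf (nat_lit 5776) (nat_lit 6) (nat_lit 76) (nat_lit 4) (nat_lit 112) (nat_lit 125) (nat_lit 123))) (PT.nd (nat_lit 78) (PT.lf (nat_lit 6308) (nat_lit 6) (nat_lit 83) (nat_lit 4) (nat_lit 113) (nat_lit 125) (nat_lit 122)) (PT.lf (nat_lit 6764) (nat_lit 6) (nat_lit 89) (nat_lit 4) (nat_lit 114) (nat_lit 125) (nat_lit 121)))) (PT.nd (nat_lit 156) (PT.nd (nat_lit 78) (PT.lf (nat_lit 7144) (nat_lit 6) (nat_lit 94) (nat_lit 4) (nat_lit 115) (nat_lit 125) (nat_lit 120)) (PT.lf (nat_lit 7068) (nat_lit 6) (nat_lit 93) (nat_lit 4) (nat_lit 116) (nat_lit 125) (nat_lit 119))) (PT.nd (nat_lit 78) (PT.lf (nat_lit 6992) (nat_lit 6) (nat_lit 92) (nat_lit 4) (nat_lit 117) (nat_lit 125) (nat_lit 118)) (PT.nd (nat_lit 78) (PT.lf (nat_lit 6992) (nat_lit 6) (nat_lit 92) (nat_lit 2) (nat_lit 118) (nat_lit 125) (nat_lit 117)) (PT.lf (nat_lit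 7068) (nat_lit 6) (nat_lit 93) (nat_lit 2) (nat_lit 119) (nat_lit 125) (nat_lit 116)))))) (PT.nd (nat_lit 390) (PT.nd (nat_lit 156) (PT.nd (nat_lit 78) (PT.lf (nat_lit 7144) (nat_lit 6) (nat_lit 94) (nat_lit 2) (nat_lit 120) (nat_lit 125) (nat_lit 115)) (PT.lf (nat_lit 6764) (nat_lit 6) (nat_lit 89) (nat_lit 2) (nat_lit 121) (nat_lit 125) (nat_lit 114))) (PT.nd (nat_lit 78) (PT.lf (nat_lit 6308) (nat_lit 6) (nat_lit 83) (nat_lit 2) (nat_lit 122) (nat_lit 125) (nat_lit 113)) (PT.nd (nat_lit 78) (PT.lf (nat_lit 5776) (nat_lit 6) (nat_lit 76) (nat_lit 2) (nat_lit 123) (nat_lit 125) (nat_lit 112)) (PT.lf (nat_lit 5168) (nat_lit 6) (nat_lit 68) (nat_lit 2) (nat_lit 124) (nat_lit 125) (nat_lit 111))))) (PT.nd (nat_lit 156) (PT.nd (nat_lit 78) (PT.lf (nat_lit 4484) (nat_lit 3) (nat_lit 59) (nat_lit 0) (nat_lit 125) (nat_lit 125) (nat_lit 110)) (PT.lf (nat_lit 4104) (nat_lit 6) (nat_lit 54)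 (nat_lit 0) (nat_lit 126) (nat_lit 125) (nat_lit 109))) (PT.nd (nat_lit 78) (PT.lf (nat_lit 3724) (nat_lit 6) (nat_lit 49) (nat_lit 0) (nat_lit 127) (nat_lit 125) (nat_lit 108)) (PT.nd (nat_lit 78) (PT.lf (nat_lit 3420) (nat_lit 6) (nat_lit 45) (nat_lit 0) (nat_lit 128) (nat_lit 125) (nat_lit 107)) (PT.lf (nat_lit 3040) (nat_lit 6) (nat_lit 40) (nat_lit 0) (nat_lit 129) (nat_lit 125) (nat_lit 106))))))))
noncomputable def pc10 : PT := (PT.nd (nat_lit 36660) (PT.nd (nat_lit 35958) (PT.nd (nat_lit 35568) (PT.nd (nat_lit 35412) (PT.nd (nat_lit 78) (PT.lf (nat_lit 2736) (nat_lit 6) (nat_lit 36) (nat_lit 0) (nat_lit 130) (nat_lit 125) (nat_lit 105)) (PT.lf (nat_lit 2432) (nat_lit 6) (nat_lit 32) (nat_lit 0) (nat_lit 131) (nat_lit 125) (nat_lit 104))) (PT.nd (nat_lit 78) (PT.lf (nat_lit 2204) (nat_lit 6) (nat_lit 29) (nat_lit 5) (nat_lit 103) (nat_lit 126) (nat_lit 131)) (PT.lf (nat_lit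 2508) (nat_lit 6) (nat_lit 33) (nat_lit 5) (nat_lit 104) (nat_lit 126) (nat_lit 130)))) (PT.nd (nat_lit 156) (PT.nd (nat_lit 78) (PT.lf (nat_lit 2812) (nat_lit 6) (nat_lit 37) (nat_lit 5) (nat_lit 105) (nat_lit 126) (nat_lit 129)) (PT.lf (nat_lit 3116) (nat_lit 6) (nat_lit 41) (nat_lit 5) (nat_lit 106) (nat_lit 126) (nat_lit 128))) (PT.nd (nat_lit 78) (PT.lf (nat_lit 3496) (nat_lit 6) (nat_lit 46) (nat_lit 5) (nat_lit 107) (nat_lit 126) (nat_lit 127)) (PT.nd (nat_lit 78) (PT.lf (nat_lit 3800) (nat_lit 3) (nat_lit 50) (nat_lit 4) (nat_lit 108) (nat_lit 126) (nat_lit 126)) (PT.lf (nat_lit 4104) (nat_lit 6) (nat_lit 54) (nat_lit 4) (nat_lit 109) (nat_lit 126) (nat_lit 125)))))) (PT.nd (nat_lit 312) (PT.nd (nat_lit 156) (PT.nd (nat_lit 78) (PT.lf (nat_lit 4408) (nat_lit 6) (nat_lit 58) (nat_lit 4) (nat_lit 110) (nat_lit 126) (nat_lit 124)) (PT.lf (nat_lit 5092) (nat_lit 6) (nat_lit 67)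 (nat_lit 4) (nat_lit 111) (nat_lit 126) (nat_lit 123))) (PT.nd (nat_lit 78) (PT.lf (nat_lit 5700) (nat_lit 6) (nat_lit 75) (nat_lit 4) (nat_lit 112) (nat_lit 126) (nat_lit 122)) (PT.lf (nat_lit 6232) (nat_lit 6) (nat_lit 82) (nat_lit 4) (nat_lit 113) (nat_lit 126) (nat_lit 121)))) (PT.nd (nat_lit 156) (PT.nd (nat_lit 78) (PT.lf (nat_lit 6688) (nat_lit 6) (nat_lit 88) (nat_lit 4) (nat_lit 114) (nat_lit 126) (nat_lit 120)) (PT.lf (nat_lit 6612) (nat_lit 6) (nat_lit 87) (nat_lit 4) (nat_lit 115) (nat_lit 126) (nat_lit 119))) (PT.nd (nat_lit 78) (PT.lf (nat_lit 6536) (nat_lit 6) (nat_lit 86) (nat_lit 4) (nat_lit 116) (nat_lit 126) (nat_lit 118)) (PT.nd (nat_lit 78) (PT.lf (nat_lit 6460) (nat_lit 3) (nat_lit 85) (nat_lit 2) (nat_lit 117) (nat_lit 126) (nat_lit 117)) (PT.lf (nat_lit 6536) (nat_lit 6) (nat_lit 86) (nat_lit 2) (nat_lit 118) (nat_lit 126) (nat_lit 116))))))) (PT.nd (nat_lit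 702) (PT.nd (nat_lit 312) (PT.nd (nat_lit 156) (PT.nd (nat_lit 78) (PT.lf (nat_lit 6612) (nat_lit 6) (nat_lit 87) (nat_lit 2) (nat_lit 119) (nat_lit 126) (nat_lit 115)) (PT.lf (nat_lit 6688) (nat_lit 6) (nat_lit 88) (nat_lit 2) (nat_lit 120) (nat_lit 126) (nat_lit 114))) (PT.nd (nat_lit 78) (PT.lf (nat_lit 6232) (nat_lit 6) (nat_lit 82) (nat_lit 2) (nat_lit 121) (nat_lit 126) (nat_lit 113)) (PT.lf (nat_lit 5700) (nat_lit 6) (nat_lit 75) (nat_lit 2) (nat_lit 122) (nat_lit 126) (nat_lit 112)))) (PT.nd (nat_lit 156) (PT.nd (nat_lit 78) (PT.lf (nat_lit 5092) (nat_lit 6) (nat_lit 67) (nat_lit 2) (nat_lit 123) (nat_lit 126) (nat_lit 111)) (PT.lf (nat_lit 4408) (nat_lit 6) (nat_lit 58) (nat_lit 2) (nat_lit 124) (nat_lit 126) (nat_lit 110))) (PT.nd (nat_lit 78) (PT.lf (nat_lit 4104) (nat_lit 6) (nat_lit 54) (nat_lit 2) (nat_lit 125) (nat_lit 126) (nat_lit 109)) (PT.nd (nat_lit 78) (PT.lf (nat_lit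 3800) (nat_lit 3) (nat_lit 50) (nat_lit 0) (nat_lit 126) (nat_lit 126) (nat_lit 108)) (PT.lf (nat_lit 3496) (nat_lit 6) (nat_lit 46) (nat_lit 0) (nat_lit 127) (nat_lit 126) (nat_lit 107)))))) (PT.nd (nat_lit 35568) (PT.nd (nat_lit 156) (PT.nd (nat_lit 78) (PT.lf (nat_lit 3116) (nat_lit 6) (nat_lit 41) (nat_lit 0) (nat_lit 128) (nat_lit 126) (nat_lit 106)) (PT.lf (nat_lit 2812) (nat_lit 6) (nat_lit 37) (nat_lit 0) (nat_lit 129) (nat_lit 126) (nat_lit 105))) (PT.nd (nat_lit 78) (PT.lf (nat_lit 2508) (nat_lit 6) (nat_lit 33) (nat_lit 0) (nat_lit 130) (nat_lit 126) (nat_lit 104)) (PT.nd (nat_lit 35256) (PT.lf (nat_lit 2204) (nat_lit 6) (nat_lit 29) (nat_lit 0) (nat_lit 131) (nat_lit 126) (nat_lit 103)) (PT.lf (nat_lit 1976) (nat_lit 6) (nat_lit 26) (nat_lit 5) (nat_lit 102) (nat_lit 127) (nat_lit 131))))) (PT.nd (nat_lit 156) (PT.nd (nat_lit 78) (PT.lf (nat_lit 2280) (nat_lit 6) (nat_lit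 30) (nat_lit 5) (nat_lit 103) (nat_lit 127) (nat_lit 130)) (PT.lf (nat_lit 2584) (nat_lit 6) (nat_lit 34) (nat_lit 5) (nat_lit 104) (nat_lit 127) (nat_lit 129))) (PT.nd (nat_lit 78) (PT.lf (nat_lit 2888) (nat_lit 6) (nat_lit 38) (nat_lit 5) (nat_lit 105) (nat_lit 127) (nat_lit 128)) (PT.nd (nat_lit 78) (PT.lf (nat_lit 3192) (nat_lit 3) (nat_lit 42) (nat_lit 4) (nat_lit 106) (nat_lit 127) (nat_lit 127)) (PT.lf (nat_lit 3496) (nat_lit 6) (nat_lit 46) (nat_lit 4) (nat_lit 107) (nat_lit 127) (nat_lit 126))))))))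
noncomputable def pc11 : PT := (PT.nd (nat_lit 1404) (PT.nd (nat_lit 702) (PT.nd (nat_lit 312) (PT.nd (nat_lit 156) (PT.nd (nat_lit 78) (PT.lf (nat_lit 3724) (nat_lit 6) (nat_lit 49) (nat_lit 4) (nat_lit 108) (nat_lit 127) (nat_lit 125)) (PT.lf (nat_lit 4028) (nat_lit 6) (nat_lit 53) (nat_lit 4) (nat_lit 109) (nat_lit 127) (nat_lit 124))) (PT.nd (nat_lit 78) (PT.lf (nat_lit 4332) (nat_lit 6) (nat_lit 57) (nat_lit 4) (nat_lit 110) (nat_lit 127) (nat_lit 123)) (PT.lf (nat_lit 5016) (nat_lit 6) (nat_lit 66) (nat_lit 4) (nat_lit 111) (nat_lit 127) (nat_lit 122)))) (PT.nd (nat_lit 156) (PT.nd (nat_lit 78) (PT.lf (nat_lit 5624) (nat_lit 6) (nat_lit 74) (nat_lit 4) (nat_lit 112) (nat_lit 127) (nat_lit 121)) (PT.lf (nat_lit 6156) (nat_lit 6) (nat_lit 81) (nat_lit 4) (nat_lit 113) (nat_lit 127) (nat_lit 120))) (PT.nd (nat_lit 78) (PT.lf (nat_lit 6080) (nat_lit 6) (nat_lit 80) (nat_lit 4) (nat_lit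 114) (nat_lit 127) (nat_lit 119)) (PT.nd (nat_lit 78) (PT.lf (nat_lit 6004) (nat_lit 6) (nat_lit 79) (nat_lit 4) (nat_lit 115) (nat_lit 127) (nat_lit 118)) (PT.lf (nat_lit 5928) (nat_lit 6) (nat_lit 78) (nat_lit 4) (nat_lit 116) (nat_lit 127) (nat_lit 117)))))) (PT.nd (nat_lit 312) (PT.nd (nat_lit 156) (PT.nd (nat_lit 78) (PT.lf (nat_lit 5928) (nat_lit 6) (nat_lit 78) (nat_lit 2) (nat_lit 117) (nat_lit 127) (nat_lit 116)) (PT.lf (nat_lit 6004) (nat_lit 6) (nat_lit 79) (nat_lit 2) (nat_lit 118) (nat_lit 127) (nat_lit 115))) (PT.nd (nat_lit 78) (PT.lf (nat_lit 6080) (nat_lit 6) (nat_lit 80) (nat_lit 2) (nat_lit 119) (nat_lit 127) (nat_lit 114)) (PT.lf (nat_lit 6156) (nat_lit 6) (nat_lit 81) (nat_lit 2) (nat_lit 120) (nat_lit 127) (nat_lit 113)))) (PT.nd (nat_lit 156) (PT.nd (nat_lit 78) (PT.lf (nat_lit 5624) (nat_lit 6) (nat_lit 74) (nat_lit 2) (nat_lit 121) (nat_lit 127) (nat_lit 112))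 (PT.lf (nat_lit 5016) (nat_lit 6) (nat_lit 66) (nat_lit 2) (nat_lit 122) (nat_lit 127) (nat_lit 111))) (PT.nd (nat_lit 78) (PT.lf (nat_lit 4332) (nat_lit 6) (nat_lit 57) (nat_lit 2) (nat_lit 123) (nat_lit 127) (nat_lit 110)) (PT.nd (nat_lit 78) (PT.lf (nat_lit 4028) (nat_lit 6) (nat_lit 53) (nat_lit 2) (nat_lit 124) (nat_lit 127) (nat_lit 109)) (PT.lf (nat_lit 3724) (nat_lit 6) (nat_lit 49) (nat_lit 2) (nat_lit 125) (nat_lit 127) (nat_lit 108))))))) (PT.nd (nat_lit 35724) (PT.nd (nat_lit 312) (PT.nd (nat_lit 156) (PT.nd (nat_lit 78) (PT.lf (nat_lit 3496) (nat_lit 6) (nat_lit 46) (nat_lit 2) (nat_lit 126) (nat_lit 127) (nat_lit 107)) (PT.lf (nat_lit 3192) (nat_lit 3) (nat_lit 42) (nat_lit 0) (nat_lit 127) (nat_lit 127) (nat_lit 106))) (PT.nd (nat_lit 78) (PT.lf (nat_lit 2888) (nat_lit 6) (nat_lit 38) (nat_lit 0) (nat_lit 128) (nat_lit 127) (nat_lit 105)) (PT.lf (nat_lit 2584) (nat_lit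 6) (nat_lit 34) (nat_lit 0) (nat_lit 129) (nat_lit 127) (nat_lit 104)))) (PT.nd (nat_lit 35178) (PT.nd (nat_lit 78) (PT.lf (nat_lit 2280) (nat_lit 6) (nat_lit 30) (nat_lit 0) (nat_lit 130) (nat_lit 127) (nat_lit 103)) (PT.lf (nat_lit 1976) (nat_lit 6) (nat_lit 26) (nat_lit 0) (nat_lit 131) (nat_lit 127) (nat_lit 102))) (PT.nd (nat_lit 78) (PT.lf (nat_lit 1596) (nat_lit 6) (nat_lit 21) (nat_lit 5) (nat_lit 100) (nat_lit 128) (nat_lit 132)) (PT.nd (nat_lit 78) (PT.lf (nat_lit 1824) (nat_lit 6) (nat_lit 24) (nat_lit 5) (nat_lit 101) (nat_lit 128) (nat_lit 131)) (PT.lf (nat_lit 2052) (nat_lit 6) (nat_lit 27) (nat_lit 5) (nat_lit 102) (nat_lit 128) (nat_lit 130)))))) (PT.nd (nat_lit 390) (PT.nd (nat_lit 156) (PT.nd (nat_lit 78) (PT.lf (nat_lit 2356) (nat_lit 6) (nat_lit 31) (nat_lit 5) (nat_lit 103) (nat_lit 128) (nat_lit 129)) (PT.lf (nat_lit 2660) (nat_lit 3) (nat_lit 35) (nat_lit 4)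 (nat_lit 104) (nat_lit 128) (nat_lit 128))) (PT.nd (nat_lit 78) (PT.lf (nat_lit 2888) (nat_lit 6) (nat_lit 38) (nat_lit 4) (nat_lit 105) (nat_lit 128) (nat_lit 127)) (PT.nd (nat_lit 78) (PT.lf (nat_lit 3116) (nat_lit 6) (nat_lit 41) (nat_lit 4) (nat_lit 106) (nat_lit 128) (nat_lit 126)) (PT.lf (nat_lit 3420) (nat_lit 6) (nat_lit 45) (nat_lit 4) (nat_lit 107) (nat_lit 128) (nat_lit 125))))) (PT.nd (nat_lit 156) (PT.nd (nat_lit 78) (PT.lf (nat_lit 3648) (nat_lit 6) (nat_lit 48) (nat_lit 4) (nat_lit 108) (nat_lit 128) (nat_lit 124)) (PT.lf (nat_lit 3952) (nat_lit 6) (nat_lit 52) (nat_lit 4) (nat_lit 109) (nat_lit 128) (nat_lit 123))) (PT.nd (nat_lit 78) (PT.lf (nat_lit 4256) (nat_lit 6) (nat_lit 56) (nat_lit 4) (nat_lit 110) (nat_lit 128) (nat_lit 122)) (PT.nd (nat_lit 78) (PT.lf (nat_lit 4940) (nat_lit 6) (nat_lit 65) (nat_lit 4) (nat_lit 111) (nat_lit 128) (nat_lit 121)) (PT.lf (nat_lit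 5548) (nat_lit 6) (nat_lit 73) (nat_lit 4) (nat_lit 112) (nat_lit 128) (nat_lit 120))))))))
noncomputable def pc12 : PT := (PT.nd (nat_lit 1404) (PT.nd (nat_lit 702) (PT.nd (nat_lit 312) (PT.nd (nat_lit 156) (PT.nd (nat_lit 78) (PT.lf (nat_lit 5472) (nat_lit 6) (nat_lit 72) (nat_lit 4) (nat_lit 113) (nat_lit 128) (nat_lit 119)) (PT.lf (nat_lit 5396) (nat_lit 6) (nat_lit 71) (nat_lit 4) (nat_lit 114) (nat_lit 128) (nat_lit 118))) (PT.nd (nat_lit 78) (PT.lf (nat_lit 5320) (nat_lit 6) (nat_lit 70) (nat_lit 4) (nat_lit 115) (nat_lit 128) (nat_lit 117)) (PT.lf (nat_lit 5244) (nat_lit 3) (nat_lit 69) (nat_lit 2) (nat_lit 116) (nat_lit 128) (nat_lit 116)))) (PT.nd (nat_lit 156) (PT.nd (nat_lit 78) (PT.lf (nat_lit 5320) (nat_lit 6) (nat_lit 70) (nat_lit 2) (nat_lit 117) (nat_lit 128) (nat_lit 115)) (PT.lf (nat_lit 5396) (nat_lit 6) (nat_lit 71) (nat_lit 2) (nat_lit 118) (nat_lit 128) (nat_lit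 114))) (PT.nd (nat_lit 78) (PT.lf (nat_lit 5472) (nat_lit 6) (nat_lit 72) (nat_lit 2) (nat_lit 119) (nat_lit 128) (nat_lit 113)) (PT.nd (nat_lit 78) (PT.lf (nat_lit 5548) (nat_lit 6) (nat_lit 73) (nat_lit 2) (nat_lit 120) (nat_lit 128) (nat_lit 112)) (PT.lf (nat_lit 4940) (nat_lit 6) (nat_lit 65) (nat_lit 2) (nat_lit 121) (nat_lit 128) (nat_lit 111)))))) (PT.nd (nat_lit 312) (PT.nd (nat_lit 156) (PT.nd (nat_lit 78) (PT.lf (nat_lit 4256) (nat_lit 6) (nat_lit 56) (nat_lit 2) (nat_lit 122) (nat_lit 128) (nat_lit 110)) (PT.lf (nat_lit 3952) (nat_lit 6) (nat_lit 52) (nat_lit 2) (nat_lit 123) (nat_lit 128) (nat_lit 109))) (PT.nd (nat_lit 78) (PT.lf (nat_lit 3648) (nat_lit 6) (nat_lit 48) (nat_lit 2) (nat_lit 124) (nat_lit 128) (nat_lit 108)) (PT.lf (nat_lit 3420) (nat_lit 6) (nat_lit 45) (nat_lit 2) (nat_lit 125) (nat_lit 128) (nat_lit 107)))) (PT.nd (nat_lit 156) (PT.nd (nat_lit 78) (PT.lf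 (nat_lit 3116) (nat_lit 6) (nat_lit 41) (nat_lit 2) (nat_lit 126) (nat_lit 128) (nat_lit 106)) (PT.lf (nat_lit 2888) (nat_lit 6) (nat_lit 38) (nat_lit 2) (nat_lit 127) (nat_lit 128) (nat_lit 105))) (PT.nd (nat_lit 78) (PT.lf (nat_lit 2660) (nat_lit 3) (nat_lit 35) (nat_lit 0) (nat_lit 128) (nat_lit 128) (nat_lit 104)) (PT.nd (nat_lit 78) (PT.lf (nat_lit 2356) (nat_lit 6) (nat_lit 31) (nat_lit 0) (nat_lit 129) (nat_lit 128) (nat_lit 103)) (PT.lf (nat_lit 2052) (nat_lit 6) (nat_lit 27) (nat_lit 0) (nat_lit 130) (nat_lit 128) (nat_lit 102))))))) (PT.nd (nat_lit 35568) (PT.nd (nat_lit 35178) (PT.nd (nat_lit 35022) (PT.nd (nat_lit 78) (PT.lf (nat_lit 1824) (nat_lit 6) (nat_lit 24) (nat_lit 0) (nat_lit 131) (nat_lit 128) (nat_lit 101)) (PT.lf (nat_lit 1596) (nat_lit 6) (nat_lit 21) (nat_lit 0) (nat_lit 132) (nat_lit 128) (nat_lit 100))) (PT.nd (nat_lit 78) (PT.lf (nat_lit 1444) (nat_lit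 6) (nat_lit 19) (nat_lit 5) (nat_lit 99) (nat_lit 129) (nat_lit 132)) (PT.lf (nat_lit 1672) (nat_lit 6) (nat_lit 22) (nat_lit 5) (nat_lit 100) (nat_lit 129) (nat_lit 131)))) (PT.nd (nat_lit 156) (PT.nd (nat_lit 78) (PT.lf (nat_lit 1900) (nat_lit 6) (nat_lit 25) (nat_lit 5) (nat_lit 101) (nat_lit 129) (nat_lit 130)) (PT.lf (nat_lit 2128) (nat_lit 3) (nat_lit 28) (nat_lit 4) (nat_lit 102) (nat_lit 129) (nat_lit 129))) (PT.nd (nat_lit 78) (PT.lf (nat_lit 2356) (nat_lit 6) (nat_lit 31) (nat_lit 4) (nat_lit 103) (nat_lit 129) (nat_lit 128)) (PT.nd (nat_lit 78) (PT.lf (nat_lit 2584) (nat_lit 6) (nat_lit 34) (nat_lit 4) (nat_lit 104) (nat_lit 129) (nat_lit 127)) (PT.lf (nat_lit 2812) (nat_lit 6) (nat_lit 37) (nat_lit 4) (nat_lit 105) (nat_lit 129) (nat_lit 126)))))) (PT.nd (nat_lit 390) (PT.nd (nat_lit 156) (PT.nd (nat_lit 78) (PT.lf (nat_lit 3040) (nat_lit 6) (nat_lit 40) (nat_lit 4) (nat_lit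 106) (nat_lit 129) (nat_lit 125)) (PT.lf (nat_lit 3344) (nat_lit 6) (nat_lit 44) (nat_lit 4) (nat_lit 107) (nat_lit 129) (nat_lit 124))) (PT.nd (nat_lit 78) (PT.lf (nat_lit 3572) (nat_lit 6) (nat_lit 47) (nat_lit 4) (nat_lit 108) (nat_lit 129) (nat_lit 123)) (PT.nd (nat_lit 78) (PT.lf (nat_lit 3876) (nat_lit 6) (nat_lit 51) (nat_lit 4) (nat_lit 109) (nat_lit 129) (nat_lit 122)) (PT.lf (nat_lit 4180) (nat_lit 6) (nat_lit 55) (nat_lit 4) (nat_lit 110) (nat_lit 129) (nat_lit 121))))) (PT.nd (nat_lit 156) (PT.nd (nat_lit 78) (PT.lf (nat_lit 4864) (nat_lit 6) (nat_lit 64) (nat_lit 4) (nat_lit 111) (nat_lit 129) (nat_lit 120)) (PT.lf (nat_lit 4788) (nat_lit 6) (nat_lit 63) (nat_lit 4) (nat_lit 112) (nat_lit 129) (nat_lit 119))) (PT.nd (nat_lit 78) (PT.lf (nat_lit 4712) (nat_lit 6) (nat_lit 62) (nat_lit 4) (nat_lit 113) (nat_lit 129) (nat_lit 118)) (PT.nd (nat_lit 78) (PT.lf (nat_lit 4636)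 (nat_lit 6) (nat_lit 61) (nat_lit 4) (nat_lit 114) (nat_lit 129) (nat_lit 117)) (PT.lf (nat_lit 4560) (nat_lit 6) (nat_lit 60) (nat_lit 4) (nat_lit 115) (nat_lit 129) (nat_lit 116))))))))
noncomputable def pc13 : PT := (PT.nd (nat_lit 36114) (PT.nd (nat_lit 702) (PT.nd (nat_lit 312) (PT.nd (nat_lit 156) (PT.nd (nat_lit 78) (PT.lf (nat_lit 4560) (nat_lit 6) (nat_lit 60) (nat_lit 2) (nat_lit 116) (nat_lit 129) (nat_lit 115)) (PT.lf (nat_lit 4636) (nat_lit 6) (nat_lit 61) (nat_lit 2) (nat_lit 117) (nat_lit 129) (nat_lit 114))) (PT.nd (nat_lit 78) (PT.lf (nat_lit 4712) (nat_lit 6) (nat_lit 62) (nat_lit 2) (nat_lit 118) (nat_lit 129) (nat_lit 113)) (PT.lf (nat_lit 4788) (nat_lit 6) (nat_lit 63) (nat_lit 2) (nat_lit 119) (nat_lit 129) (nat_lit 112)))) (PT.nd (nat_lit 156) (PT.nd (nat_lit 78) (PT.lf (nat_lit 4864) (nat_lit 6) (nat_lit 64) (nat_lit 2) (nat_lit 120) (nat_lit 129) (nat_lit 111))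 (PT.lf (nat_lit 4180) (nat_lit 6) (nat_lit 55) (nat_lit 2) (nat_lit 121) (nat_lit 129) (nat_lit 110))) (PT.nd (nat_lit 78) (PT.lf (nat_lit 3876) (nat_lit 6) (nat_lit 51) (nat_lit 2) (nat_lit 122) (nat_lit 129) (nat_lit 109)) (PT.nd (nat_lit 78) (PT.lf (nat_lit 3572) (nat_lit 6) (nat_lit 47) (nat_lit 2) (nat_lit 123) (nat_lit 129) (nat_lit 108)) (PT.lf (nat_lit 3344) (nat_lit 6) (nat_lit 44) (nat_lit 2) (nat_lit 124) (nat_lit 129) (nat_lit 107)))))) (PT.nd (nat_lit 312) (PT.nd (nat_lit 156) (PT.nd (nat_lit 78) (PT.lf (nat_lit 3040) (nat_lit 6) (nat_lit 40) (nat_lit 2) (nat_lit 125) (nat_lit 129) (nat_lit 106)) (PT.lf (nat_lit 2812) (nat_lit 6) (nat_lit 37) (nat_lit 2) (nat_lit 126) (nat_lit 129) (nat_lit 105))) (PT.nd (nat_lit 78) (PT.lf (nat_lit 2584) (nat_lit 6) (nat_lit 34) (nat_lit 2) (nat_lit 127) (nat_lit 129) (nat_lit 104)) (PT.lf (nat_lit 2356) (nat_lit 6) (nat_lit 31) (nat_lit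 2) (nat_lit 128) (nat_lit 129) (nat_lit 103)))) (PT.nd (nat_lit 156) (PT.nd (nat_lit 78) (PT.lf (nat_lit 2128) (nat_lit 3) (nat_lit 28) (nat_lit 0) (nat_lit 129) (nat_lit 129) (nat_lit 102)) (PT.lf (nat_lit 1900) (nat_lit 6) (nat_lit 25) (nat_lit 0) (nat_lit 130) (nat_lit 129) (nat_lit 101))) (PT.nd (nat_lit 78) (PT.lf (nat_lit 1672) (nat_lit 6) (nat_lit 22) (nat_lit 0) (nat_lit 131) (nat_lit 129) (nat_lit 100)) (PT.nd (nat_lit 34788) (PT.lf (nat_lit 1444) (nat_lit 6) (nat_lit 19) (nat_lit 0) (nat_lit 132) (nat_lit 129) (nat_lit 99)) (PT.lf (nat_lit 1140) (nat_lit 6) (nat_lit 15) (nat_lit 5) (nat_lit 97) (nat_lit 130) (nat_lit 133))))))) (PT.nd (nat_lit 702) (PT.nd (nat_lit 312) (PT.nd (nat_lit 156) (PT.nd (nat_lit 78) (PT.lf (nat_lit 1292) (nat_lit 6) (nat_lit 17) (nat_lit 5) (nat_lit 98) (nat_lit 130) (nat_lit 132)) (PT.lf (nat_lit 1520) (nat_lit 6) (nat_lit 20) (nat_lit 5) (nat_lit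 99) (nat_lit 130) (nat_lit 131))) (PT.nd (nat_lit 78) (PT.lf (nat_lit 1748) (nat_lit 3) (nat_lit 23) (nat_lit 4) (nat_lit 100) (nat_lit 130) (nat_lit 130)) (PT.lf (nat_lit 1900) (nat_lit 6) (nat_lit 25) (nat_lit 4) (nat_lit 101) (nat_lit 130) (nat_lit 129)))) (PT.nd (nat_lit 156) (PT.nd (nat_lit 78) (PT.lf (nat_lit 2052) (nat_lit 6) (nat_lit 27) (nat_lit 4) (nat_lit 102) (nat_lit 130) (nat_lit 128)) (PT.lf (nat_lit 2280) (nat_lit 6) (nat_lit 30) (nat_lit 4) (nat_lit 103) (nat_lit 130) (nat_lit 127))) (PT.nd (nat_lit 78) (PT.lf (nat_lit 2508) (nat_lit 6) (nat_lit 33) (nat_lit 4) (nat_lit 104) (nat_lit 130) (nat_lit 126)) (PT.nd (nat_lit 78) (PT.lf (nat_lit 2736) (nat_lit 6) (nat_lit 36) (nat_lit 4) (nat_lit 105) (nat_lit 130) (nat_lit 125)) (PT.lf (nat_lit 2964) (nat_lit 6) (nat_lit 39) (nat_lit 4) (nat_lit 106) (nat_lit 130) (nat_lit 124)))))) (PT.nd (nat_lit 1560) (PT.nd (nat_lit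 1326) (PT.nd (nat_lit 1248) (PT.lf (nat_lit 3268) (nat_lit 6) (nat_lit 43) (nat_lit 4) (nat_lit 107) (nat_lit 130) (nat_lit 123)) (PT.lf (nat_lit 3268) (nat_lit 6) (nat_lit 43) (nat_lit 2) (nat_lit 123) (nat_lit 130) (nat_lit 107))) (PT.nd (nat_lit 78) (PT.lf (nat_lit 2964) (nat_lit 6) (nat_lit 39) (nat_lit 2) (nat_lit 124) (nat_lit 130) (nat_lit 106)) (PT.nd (nat_lit 78) (PT.lf (nat_lit 2736) (nat_lit 6) (nat_lit 36) (nat_lit 2) (nat_lit 125) (nat_lit 130) (nat_lit 105)) (PT.lf (nat_lit 2508) (nat_lit 6) (nat_lit 33) (nat_lit 2) (nat_lit 126) (nat_lit 130) (nat_lit 104))))) (PT.nd (nat_lit 156) (PT.nd (nat_lit 78) (PT.lf (nat_lit 2280) (nat_lit 6) (nat_lit 30) (nat_lit 2) (nat_lit 127) (nat_lit 130) (nat_lit 103)) (PT.lf (nat_lit 2052) (nat_lit 6) (nat_lit 27) (nat_lit 2) (nat_lit 128) (nat_lit 130) (nat_lit 102))) (PT.nd (nat_lit 78) (PT.lf (nat_lit 1900) (nat_lit 6) (nat_lit 25)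 (nat_lit 2) (nat_lit 129) (nat_lit 130) (nat_lit 101)) (PT.nd (nat_lit 78) (PT.lf (nat_lit 1748) (nat_lit 3) (nat_lit 23) (nat_lit 0) (nat_lit 130) (nat_lit 130) (nat_lit 100)) (PT.lf (nat_lit 1520) (nat_lit 6) (nat_lit 20) (nat_lit 0) (nat_lit 131) (nat_lit 130) (nat_lit 99))))))))
noncomputable def pc14 : PT := (PT.nd (nat_lit 37440) (PT.nd (nat_lit 35178) (PT.nd (nat_lit 34788) (PT.nd (nat_lit 34632) (PT.nd (nat_lit 78) (PT.lf (nat_lit 1292) (nat_lit 6) (nat_lit 17) (nat_lit 0) (nat_lit 132) (nat_lit 130) (nat_lit 98)) (PT.lf (nat_lit 1140) (nat_lit 6) (nat_lit 15) (nat_lit 0) (nat_lit 133) (nat_lit 130) (nat_lit 97))) (PT.nd (nat_lit 78) (PT.lf (nat_lit 836) (nat_lit 6) (nat_lit 11) (nat_lit 5) (nat_lit 95) (nat_lit 131) (nat_lit 134)) (PT.lf (nat_lit 988) (nat_lit 6) (nat_lit 13) (nat_lit 5) (nat_lit 96) (nat_lit 131) (nat_lit 133)))) (PT.nd (nat_lit 156) (PT.nd (nat_lit 78) (PT.lf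 (nat_lit 1216) (nat_lit 6) (nat_lit 16) (nat_lit 5) (nat_lit 97) (nat_lit 131) (nat_lit 132)) (PT.lf (nat_lit 1368) (nat_lit 3) (nat_lit 18) (nat_lit 4) (nat_lit 98) (nat_lit 131) (nat_lit 131))) (PT.nd (nat_lit 78) (PT.lf (nat_lit 1520) (nat_lit 6) (nat_lit 20) (nat_lit 4) (nat_lit 99) (nat_lit 131) (nat_lit 130)) (PT.nd (nat_lit 78) (PT.lf (nat_lit 1672) (nat_lit 6) (nat_lit 22) (nat_lit 4) (nat_lit 100) (nat_lit 131) (nat_lit 129)) (PT.lf (nat_lit 1824) (nat_lit 6) (nat_lit 24) (nat_lit 4) (nat_lit 101) (nat_lit 131) (nat_lit 128)))))) (PT.nd (nat_lit 1872) (PT.nd (nat_lit 156) (PT.nd (nat_lit 78) (PT.lf (nat_lit 1976) (nat_lit 6) (nat_lit 26) (nat_lit 4) (nat_lit 102) (nat_lit 131) (nat_lit 127)) (PT.lf (nat_lit 2204) (nat_lit 6) (nat_lit 29) (nat_lit 4) (nat_lit 103) (nat_lit 131) (nat_lit 126))) (PT.nd (nat_lit 1638) (PT.lf (nat_lit 2432) (nat_lit 6) (nat_lit 32) (nat_lit 4)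 (nat_lit 104) (nat_lit 131) (nat_lit 125)) (PT.lf (nat_lit 2432) (nat_lit 6) (nat_lit 32) (nat_lit 2) (nat_lit 125) (nat_lit 131) (nat_lit 104)))) (PT.nd (nat_lit 156) (PT.nd (nat_lit 78) (PT.lf (nat_lit 2204) (nat_lit 6) (nat_lit 29) (nat_lit 2) (nat_lit 126) (nat_lit 131) (nat_lit 103)) (PT.lf (nat_lit 1976) (nat_lit 6) (nat_lit 26) (nat_lit 2) (nat_lit 127) (nat_lit 131) (nat_lit 102))) (PT.nd (nat_lit 78) (PT.lf (nat_lit 1824) (nat_lit 6) (nat_lit 24) (nat_lit 2) (nat_lit 128) (nat_lit 131) (nat_lit 101)) (PT.nd (nat_lit 78) (PT.lf (nat_lit 1672) (nat_lit 6) (nat_lit 22) (nat_lit 2) (nat_lit 129) (nat_lit 131) (nat_lit 100)) (PT.lf (nat_lit 1520) (nat_lit 6) (nat_lit 20) (nat_lit 2) (nat_lit 130) (nat_lit 131) (nat_lit 99))))))) (PT.nd (nat_lit 35022) (PT.nd (nat_lit 34632) (PT.nd (nat_lit 156) (PT.nd (nat_lit 78) (PT.lf (nat_lit 1368) (nat_lit 3) (nat_lit 18) (nat_lit 0) (nat_lit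 131) (nat_lit 131) (nat_lit 98)) (PT.lf (nat_lit 1216) (nat_lit 6) (nat_lit 16) (nat_lit 0) (nat_lit 132) (nat_lit 131) (nat_lit 97))) (PT.nd (nat_lit 78) (PT.lf (nat_lit 988) (nat_lit 6) (nat_lit 13) (nat_lit 0) (nat_lit 133) (nat_lit 131) (nat_lit 96)) (PT.lf (nat_lit 836) (nat_lit 6) (nat_lit 11) (nat_lit 0) (nat_lit 134) (nat_lit 131) (nat_lit 95)))) (PT.nd (nat_lit 156) (PT.nd (nat_lit 78) (PT.lf (nat_lit 684) (nat_lit 6) (nat_lit 9) (nat_lit 5) (nat_lit 94) (nat_lit 132) (nat_lit 134)) (PT.lf (nat_lit 912) (nat_lit 6) (nat_lit 12) (nat_lit 5) (nat_lit 95) (nat_lit 132) (nat_lit 133))) (PT.nd (nat_lit 78) (PT.lf (nat_lit 1064) (nat_lit 3) (nat_lit 14) (nat_lit 4) (nat_lit 96) (nat_lit 132) (nat_lit 132)) (PT.nd (nat_lit 78) (PT.lf (nat_lit 1216) (nat_lit 6) (nat_lit 16) (nat_lit 4) (nat_lit 97) (nat_lit 132) (nat_lit 131)) (PT.lf (nat_lit 1292) (nat_lit 6) (nat_lit 17) (nat_lit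 4) (nat_lit 98) (nat_lit 132) (nat_lit 130)))))) (PT.nd (nat_lit 2496) (PT.nd (nat_lit 2262) (PT.nd (nat_lit 78) (PT.lf (nat_lit 1444) (nat_lit 6) (nat_lit 19) (nat_lit 4) (nat_lit 99) (nat_lit 132) (nat_lit 129)) (PT.lf (nat_lit 1596) (nat_lit 6) (nat_lit 21) (nat_lit 4) (nat_lit 100) (nat_lit 132) (nat_lit 128))) (PT.nd (nat_lit 78) (PT.lf (nat_lit 1596) (nat_lit 6) (nat_lit 21) (nat_lit 2) (nat_lit 128) (nat_lit 132) (nat_lit 100)) (PT.nd (nat_lit 78) (PT.lf (nat_lit 1444) (nat_lit 6) (nat_lit 19) (nat_lit 2) (nat_lit 129) (nat_lit 132) (nat_lit 99)) (PT.lf (nat_lit 1292) (nat_lit 6) (nat_lit 17) (nat_lit 2) (nat_lit 130) (nat_lit 132) (nat_lit 98))))) (PT.nd (nat_lit 156) (PT.nd (nat_lit 78) (PT.lf (nat_lit 1216) (nat_lit 6) (nat_lit 16) (nat_lit 2) (nat_lit 131) (nat_lit 132) (nat_lit 97)) (PT.lf (nat_lit 1064) (nat_lit 3) (nat_lit 14) (nat_lit 0) (nat_lit 132) (nat_lit 132) (nat_lit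 96))) (PT.nd (nat_lit 78) (PT.lf (nat_lit 912) (nat_lit 6) (nat_lit 12) (nat_lit 0) (nat_lit 133) (nat_lit 132) (nat_lit 95)) (PT.nd (nat_lit 34242) (PT.lf (nat_lit 684) (nat_lit 6) (nat_lit 9) (nat_lit 0) (nat_lit 134) (nat_lit 132) (nat_lit 94)) (PT.lf (nat_lit 456) (nat_lit 6) (nat_lit 6) (nat_lit 5) (nat_lit 92) (nat_lit 133) (nat_lit 135))))))))
noncomputable def pc15 : PT := (PT.nd (nat_lit 40560) (PT.nd (nat_lit 3198) (PT.nd (nat_lit 312) (PT.nd (nat_lit 156) (PT.nd (nat_lit 78) (PT.lf (nat_lit 608) (nat_lit 6) (nat_lit 8) (nat_lit 5) (nat_lit 93) (nat_lit 133) (nat_lit 134)) (PT.lf (nat_lit 760) (nat_lit 3) (nat_lit 10) (nat_lit 4) (nat_lit 94) (nat_lit 133) (nat_lit 133))) (PT.nd (nat_lit 78) (PT.lf (nat_lit 912) (nat_lit 6) (nat_lit 12) (nat_lit 4) (nat_lit 95) (nat_lit 133) (nat_lit 132)) (PT.lf (nat_lit 988) (nat_lit 6) (nat_lit 13) (nat_lit 4) (nat_lit 96) (nat_lit 133)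 (nat_lit 131)))) (PT.nd (nat_lit 2652) (PT.nd (nat_lit 2574) (PT.lf (nat_lit 1140) (nat_lit 6) (nat_lit 15) (nat_lit 4) (nat_lit 97) (nat_lit 133) (nat_lit 130)) (PT.lf (nat_lit 1140) (nat_lit 6) (nat_lit 15) (nat_lit 2) (nat_lit 130) (nat_lit 133) (nat_lit 97))) (PT.nd (nat_lit 78) (PT.lf (nat_lit 988) (nat_lit 6) (nat_lit 13) (nat_lit 2) (nat_lit 131) (nat_lit 133) (nat_lit 96)) (PT.nd (nat_lit 78) (PT.lf (nat_lit 912) (nat_lit 6) (nat_lit 12) (nat_lit 2) (nat_lit 132) (nat_lit 133) (nat_lit 95)) (PT.lf (nat_lit 760) (nat_lit 3) (nat_lit 10) (nat_lit 0) (nat_lit 133) (nat_lit 133) (nat_lit 94)))))) (PT.nd (nat_lit 34242) (PT.nd (nat_lit 34086) (PT.nd (nat_lit 78) (PT.lf (nat_lit 608) (nat_lit 6) (nat_lit 8) (nat_lit 0) (nat_lit 134) (nat_lit 133) (nat_lit 93)) (PT.lf (nat_lit 456) (nat_lit 6) (nat_lit 6) (nat_lit 0) (nat_lit 135) (nat_lit 133) (nat_lit 92))) (PT.nd (nat_lit 78) (PT.lf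 (nat_lit 228) (nat_lit 6) (nat_lit 3) (nat_lit 5) (nat_lit 90) (nat_lit 134) (nat_lit 136)) (PT.lf (nat_lit 380) (nat_lit 6) (nat_lit 5) (nat_lit 5) (nat_lit 91) (nat_lit 134) (nat_lit 135)))) (PT.nd (nat_lit 156) (PT.nd (nat_lit 78) (PT.lf (nat_lit 532) (nat_lit 3) (nat_lit 7) (nat_lit 4) (nat_lit 92) (nat_lit 134) (nat_lit 134)) (PT.lf (nat_lit 608) (nat_lit 6) (nat_lit 8) (nat_lit 4) (nat_lit 93) (nat_lit 134) (nat_lit 133))) (PT.nd (nat_lit 78) (PT.lf (nat_lit 684) (nat_lit 6) (nat_lit 9) (nat_lit 4) (nat_lit 94) (nat_lit 134) (nat_lit 132)) (PT.nd (nat_lit 2808) (PT.lf (nat_lit 836) (nat_lit 6) (nat_lit 11) (nat_lit 4) (nat_lit 95) (nat_lit 134) (nat_lit 131)) (PT.lf (nat_lit 836) (nat_lit 6) (nat_lit 11) (nat_lit 2) (nat_lit 131) (nat_lit 134) (nat_lit 95))))))) (PT.nd (nat_lit 37596) (PT.nd (nat_lit 312) (PT.nd (nat_lit 156) (PT.nd (nat_lit 78) (PT.lf (nat_lit 684) (nat_lit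 6) (nat_lit 9) (nat_lit 2) (nat_lit 132) (nat_lit 134) (nat_lit 94)) (PT.lf (nat_lit 608) (nat_lit 6) (nat_lit 8) (nat_lit 2) (nat_lit 133) (nat_lit 134) (nat_lit 93))) (PT.nd (nat_lit 78) (PT.lf (nat_lit 532) (nat_lit 3) (nat_lit 7) (nat_lit 0) (nat_lit 134) (nat_lit 134) (nat_lit 92)) (PT.lf (nat_lit 380) (nat_lit 6) (nat_lit 5) (nat_lit 0) (nat_lit 135) (nat_lit 134) (nat_lit 91)))) (PT.nd (nat_lit 33930) (PT.nd (nat_lit 33852) (PT.lf (nat_lit 228) (nat_lit 6) (nat_lit 3) (nat_lit 0) (nat_lit 136) (nat_lit 134) (nat_lit 90)) (PT.lf (nat_lit 152) (nat_lit 6) (nat_lit 2) (nat_lit 5) (nat_lit 89) (nat_lit 135) (nat_lit 136))) (PT.nd (nat_lit 78) (PT.lf (nat_lit 304) (nat_lit 3) (nat_lit 4) (nat_lit 4) (nat_lit 90) (nat_lit 135) (nat_lit 135)) (PT.nd (nat_lit 78) (PT.lf (nat_lit 380) (nat_lit 6) (nat_lit 5) (nat_lit 4) (nat_lit 91) (nat_lit 135) (nat_lit 134)) (PT.lf (nat_lit 456) (nat_lit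 6) (nat_lit 6) (nat_lit 4) (nat_lit 92) (nat_lit 135) (nat_lit 133)))))) (PT.nd (nat_lit 34086) (PT.nd (nat_lit 156) (PT.nd (nat_lit 78) (PT.lf (nat_lit 456) (nat_lit 6) (nat_lit 6) (nat_lit 2) (nat_lit 133) (nat_lit 135) (nat_lit 92)) (PT.lf (nat_lit 380) (nat_lit 6) (nat_lit 5) (nat_lit 2) (nat_lit 134) (nat_lit 135) (nat_lit 91))) (PT.nd (nat_lit 78) (PT.lf (nat_lit 304) (nat_lit 3) (nat_lit 4) (nat_lit 0) (nat_lit 135) (nat_lit 135) (nat_lit 90)) (PT.nd (nat_lit 33774) (PT.lf (nat_lit 152) (nat_lit 6) (nat_lit 2) (nat_lit 0) (nat_lit 136) (nat_lit 135) (nat_lit 89)) (PT.lf (nat_lit 76) (nat_lit 3) (nat_lit 1) (nat_lit 4) (nat_lit 88) (nat_lit 136) (nat_lit 136))))) (PT.nd (nat_lit 3510) (PT.nd (nat_lit 78) (PT.lf (nat_lit 152) (nat_lit 6) (nat_lit 2) (nat_lit 4) (nat_lit 89) (nat_lit 136) (nat_lit 135)) (PT.lf (nat_lit 228) (nat_lit 6) (nat_lit 3) (nat_lit 4) (nat_lit 90) (nat_lit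 136) (nat_lit 134))) (PT.nd (nat_lit 78) (PT.lf (nat_lit 228) (nat_lit 6) (nat_lit 3) (nat_lit 2) (nat_lit 134) (nat_lit 136) (nat_lit 90)) (PT.nd (nat_lit 78) (PT.lf (nat_lit 152) (nat_lit 6) (nat_lit 2) (nat_lit 2) (nat_lit 135) (nat_lit 136) (nat_lit 89)) (PT.lf (nat_lit 76) (nat_lit 3) (nat_lit 1) (nat_lit 0) (nat_lit 136) (nat_lit 136) (nat_lit 88))))))))
noncomputable def xc0 : XT := (XT.nd (nat_lit 112476) (nat_lit 0) (nat_lit 0) (XT.nd (nat_lit 74880) (nat_lit 0) (nat_lit 0) (XT.nd (nat_lit 37518) (nat_lit 0) (nat_lit 0) (XT.nd (nat_lit 37362) (nat_lit 0) (nat_lit 0) (XT.nd (nat_lit 37284) (nat_lit 0) (nat_lit 0) (XT.lf (nat_lit 0) (nat_lit 203985506721) (nat_lit 76) (nat_lit 216013364291) (nat_lit 76) (nat_lit 215952026298) (nat_lit 1) (nat_lit 4) (nat_lit 2) (nat_lit 5) (nat_lit 2) (nat_lit 4) (nat_lit 365) (nat_lit 178) (nat_lit 177)) (XT.lf (nat_lit 0) (nat_lit 86275586901)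 (nat_lit 76) (nat_lit 94228068393) (nat_lit 76) (nat_lit 94228068393) (nat_lit 1) (nat_lit 4) (nat_lit 2) (nat_lit 5) (nat_lit 2) (nat_lit 4) (nat_lit 362) (nat_lit 179) (nat_lit 179))) (XT.nd (nat_lit 78) (nat_lit 0) (nat_lit 0) (XT.lf (nat_lit 0) (nat_lit 182550503527) (nat_lit 76) (nat_lit 197205550693) (nat_lit 76) (nat_lit 197141145800) (nat_lit 1) (nat_lit 4) (nat_lit 2) (nat_lit 5) (nat_lit 2) (nat_lit 4) (nat_lit 363) (nat_lit 179) (nat_lit 178)) (XT.lf (nat_lit 0) (nat_lit 193006602646) (nat_lit 76) (nat_lit 206411510932) (nat_lit 76) (nat_lit 206285768046) (nat_lit 1) (nat_lit 4) (nat_lit 2) (nat_lit 5) (nat_lit 2) (nat_lit 4) (nat_lit 364) (nat_lit 179) (nat_lit 177)))) (XT.nd (nat_lit 37206) (nat_lit 0) (nat_lit 0) (XT.nd (nat_lit 37128) (nat_lit 0) (nat_lit 0) (XT.lf (nat_lit 0) (nat_lit 203944366635) (nat_lit 76) (nat_lit 216095936457) (nat_lit 76) (nat_lit 215911776435)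 (nat_lit 1) (nat_lit 4) (nat_lit 2) (nat_lit 5) (nat_lit 2) (nat_lit 4) (nat_lit 365) (nat_lit 179) (nat_lit 176)) (XT.lf (nat_lit 0) (nat_lit 76925926648) (nat_lit 76) (nat_lit 86151011900) (nat_lit 76) (nat_lit 86151011900) (nat_lit 1) (nat_lit 4) (nat_lit 2) (nat_lit 5) (nat_lit 2) (nat_lit 4) (nat_lit 360) (nat_lit 180) (nat_lit 180))) (XT.nd (nat_lit 78) (nat_lit 0) (nat_lit 0) (XT.lf (nat_lit 0) (nat_lit 162984805546) (nat_lit 76) (nat_lit 180210062411) (nat_lit 76) (nat_lit 180142437273) (nat_lit 1) (nat_lit 4) (nat_lit 2) (nat_lit 5) (nat_lit 2) (nat_lit 4) (nat_lit 361) (nat_lit 180) (nat_lit 179)) (XT.lf (nat_lit 0) (nat_lit 172529048464) (nat_lit 76) (nat_lit 188533532371) (nat_lit 76) (nat_lit 188401502341) (nat_lit 1) (nat_lit 4) (nat_lit 2) (nat_lit 5) (nat_lit 2) (nat_lit 4) (nat_lit 362) (nat_lit 180) (nat_lit 178))))) (XT.nd (nat_lit 37206) (nat_lit 0) (nat_lit 0)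 (XT.nd (nat_lit 156) (nat_lit 0) (nat_lit 0) (XT.nd (nat_lit 78) (nat_lit 0) (nat_lit 0) (XT.lf (nat_lit 0) (nat_lit 182507306436) (nat_lit 76) (nat_lit 197292251467) (nat_lit 76) (nat_lit 197098883444) (nat_lit 1) (nat_lit 4) (nat_lit 2) (nat_lit 5) (nat_lit 2) (nat_lit 4) (nat_lit 363) (nat_lit 180) (nat_lit 177)) (XT.lf (nat_lit 0) (nat_lit 192943337220) (nat_lit 76) (nat_lit 206507073791) (nat_lit 76) (nat_lit 206255288632) (nat_lit 1) (nat_lit 4) (nat_lit 2) (nat_lit 5) (nat_lit 2) (nat_lit 4) (nat_lit 364) (nat_lit 180) (nat_lit 176))) (XT.nd (nat_lit 36972) (nat_lit 0) (nat_lit 0) (XT.lf (nat_lit 0) (nat_lit 203861988509) (nat_lit 76) (nat_lit 216199939397) (nat_lit 76) (nat_lit 215892518870) (nat_lit 1) (nat_lit 4) (nat_lit 2) (nat_lit 5) (nat_lit 2) (nat_lit 4) (nat_lit 365) (nat_lit 180) (nat_lit 175)) (XT.lf (nat_lit 0) (nat_lit 68379080487) (nat_lit 76) (nat_lit 78859052370)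 (nat_lit 76) (nat_lit 78859052370) (nat_lit 1) (nat_lit 4) (nat_lit 2) (nat_lit 5) (nat_lit 2) (nat_lit 4) (nat_lit 358) (nat_lit 181) (nat_lit 181)))) (XT.nd (nat_lit 156) (nat_lit 0) (nat_lit 0) (XT.nd (nat_lit 78) (nat_lit 0) (nat_lit 0) (XT.lf (nat_lit 0) (nat_lit 145108446588) (nat_lit 76) (nat_lit 164861594269) (nat_lit 76) (nat_lit 164790587875) (nat_lit 1) (nat_lit 4) (nat_lit 2) (nat_lit 5) (nat_lit 2) (nat_lit 4) (nat_lit 359) (nat_lit 181) (nat_lit 180)) (XT.lf (nat_lit 0) (nat_lit 153828621690) (nat_lit 76) (nat_lit 172383289165) (nat_lit 76) (nat_lit 172244657633) (nat_lit 1) (nat_lit 4) (nat_lit 2) (nat_lit 5) (nat_lit 2) (nat_lit 4) (nat_lit 360) (nat_lit 181) (nat_lit 179))) (XT.nd (nat_lit 78) (nat_lit 0) (nat_lit 0) (XT.lf (nat_lit 0) (nat_lit 162939448601) (nat_lit 76) (nat_lit 180301098224) (nat_lit 76) (nat_lit 180098061800) (nat_lit 1) (nat_lit 4) (nat_lit 2)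 (nat_lit 5) (nat_lit 2) (nat_lit 4) (nat_lit 361) (nat_lit 181) (nat_lit 178)) (XT.nd (nat_lit 78) (nat_lit 0) (nat_lit 0) (XT.lf (nat_lit 0) (nat_lit 172462619767) (nat_lit 76) (nat_lit 188633873373) (nat_lit 76) (nat_lit 188369498956) (nat_lit 1) (nat_lit 4) (nat_lit 2) (nat_lit 5) (nat_lit 2) (nat_lit 4) (nat_lit 362) (nat_lit 181) (nat_lit 177)) (XT.lf (nat_lit 0) (nat_lit 182420809404) (nat_lit 76) (nat_lit 197401454554) (nat_lit 76) (nat_lit 197078663000) (nat_lit 1) (nat_lit 4) (nat_lit 2) (nat_lit 5) (nat_lit 2) (nat_lit 4) (nat_lit 363) (nat_lit 181) (nat_lit 176))))))) (XT.nd (nat_lit 37440) (nat_lit 0) (nat_lit 0) (XT.nd (nat_lit 37128) (nat_lit 0) (nat_lit 0) (XT.nd (nat_lit 36972) (nat_lit 0) (nat_lit 0) (XT.nd (nat_lit 36894) (nat_lit 0) (nat_lit 0) (XT.lf (nat_lit 0) (nat_lit 192837727488) (nat_lit 76) (nat_lit 206624716959) (nat_lit 76) (nat_lit 206246290037) (nat_lit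 1) (nat_lit 4) (nat_lit 2) (nat_lit 5) (nat_lit 2) (nat_lit 4) (nat_lit 364) (nat_lit 181) (nat_lit 175)) (XT.lf (nat_lit 0) (nat_lit 60557088940) (nat_lit 76) (nat_lit 72280907369) (nat_lit 76) (nat_lit 72280907369) (nat_lit 1) (nat_lit 4) (nat_lit 2) (nat_lit 5) (nat_lit 2) (nat_lit 4) (nat_lit 356) (nat_lit 182) (nat_lit 182))) (XT.nd (nat_lit 78) (nat_lit 0) (nat_lit 0) (XT.lf (nat_lit 0) (nat_lit 128757883217) (nat_lit 76) (nat_lit 151010368983) (nat_lit 76) (nat_lit 150935812269) (nat_lit 1) (nat_lit 4) (nat_lit 2) (nat_lit 5) (nat_lit 2) (nat_lit 4) (nat_lit 357) (nat_lit 182) (nat_lit 181)) (XT.lf (nat_lit 0) (nat_lit 136733767788) (nat_lit 76) (nat_lit 157803433373) (nat_lit 76) (nat_lit 157657870265) (nat_lit 1) (nat_lit 4) (nat_lit 2) (nat_lit 5) (nat_lit 2) (nat_lit 4) (nat_lit 358) (nat_lit 182) (nat_lit 180)))) (XT.nd (nat_lit 156) (nat_lit 0) (nat_lit 0) (XT.nd (nat_lit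 78) (nat_lit 0) (nat_lit 0) (XT.lf (nat_lit 0) (nat_lit 145060821796) (nat_lit 76) (nat_lit 164957181873) (nat_lit 76) (nat_lit 164743993628) (nat_lit 1) (nat_lit 4) (nat_lit 2) (nat_lit 5) (nat_lit 2) (nat_lit 4) (nat_lit 359) (nat_lit 182) (nat_lit 179)) (XT.lf (nat_lit 0) (nat_lit 153758871558) (nat_lit 76) (nat_lit 172488647217) (nat_lit 76) (nat_lit 172211054079) (nat_lit 1) (nat_lit 4) (nat_lit 2) (nat_lit 5) (nat_lit 2) (nat_lit 4) (nat_lit 360) (nat_lit 182) (nat_lit 178))) (XT.nd (nat_lit 78) (nat_lit 0) (nat_lit 0) (XT.lf (nat_lit 0) (nat_lit 162848626717) (nat_lit 76) (nat_lit 180415761465) (nat_lit 76) (nat_lit 180076830334) (nat_lit 1) (nat_lit 4) (nat_lit 2) (nat_lit 5) (nat_lit 2) (nat_lit 4) (nat_lit 361) (nat_lit 182) (nat_lit 177)) (XT.lf (nat_lit 0) (nat_lit 172351729548) (nat_lit 76) (nat_lit 188757398699) (nat_lit 76) (nat_lit 188360050432) (nat_lit 1) (nat_lit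 4) (nat_lit 2) (nat_lit 5) (nat_lit 2) (nat_lit 4) (nat_lit 362) (nat_lit 182) (nat_lit 176))))) (XT.nd (nat_lit 36972) (nat_lit 0) (nat_lit 0) (XT.nd (nat_lit 36816) (nat_lit 0) (nat_lit 0) (XT.nd (nat_lit 78) (nat_lit 0) (nat_lit 0) (XT.lf (nat_lit 0) (nat_lit 182290806485) (nat_lit 76) (nat_lit 197533419960) (nat_lit 76) (nat_lit 197080436325) (nat_lit 1) (nat_lit 4) (nat_lit 2) (nat_lit 5) (nat_lit 2) (nat_lit 4) (nat_lit 363) (nat_lit 182) (nat_lit 175)) (XT.lf (nat_lit 0) (nat_lit 192689521998) (nat_lit 76) (nat_lit 206764720537) (nat_lit 76) (nat_lit 206258750837) (nat_lit 1) (nat_lit 4) (nat_lit 2) (nat_lit 5) (nat_lit 2) (nat_lit 4) (nat_lit 364) (nat_lit 182) (nat_lit 174))) (XT.nd (nat_lit 78) (nat_lit 0) (nat_lit 0) (XT.lf (nat_lit 0) (nat_lit 53389074387) (nat_lit 76) (nat_lit 66352007052) (nat_lit 76) (nat_lit 66352007052) (nat_lit 1) (nat_lit 4) (nat_lit 2) (nat_lit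 5) (nat_lit 2) (nat_lit 4) (nat_lit 354) (nat_lit 183) (nat_lit 183)) (XT.lf (nat_lit 0) (nat_lit 113784452479) (nat_lit 76) (nat_lit 138520701491) (nat_lit 76) (nat_lit 138442416942) (nat_lit 1) (nat_lit 4) (nat_lit 2) (nat_lit 5) (nat_lit 2) (nat_lit 4) (nat_lit 355) (nat_lit 183) (nat_lit 182)))) (XT.nd (nat_lit 156) (nat_lit 0) (nat_lit 0) (XT.nd (nat_lit 78) (nat_lit 0) (nat_lit 0) (XT.lf (nat_lit 0) (nat_lit 121088565034) (nat_lit 76) (nat_lit 144651409804) (nat_lit 76) (nat_lit 144498568541) (nat_lit 1) (nat_lit 4) (nat_lit 2) (nat_lit 5) (nat_lit 2) (nat_lit 4) (nat_lit 356) (nat_lit 183) (nat_lit 181)) (XT.lf (nat_lit 0) (nat_lit 128707877184) (nat_lit 76) (nat_lit 151110735967) (nat_lit 76) (nat_lit 150886888309) (nat_lit 1) (nat_lit 4) (nat_lit 2) (nat_lit 5) (nat_lit 2) (nat_lit 4) (nat_lit 357) (nat_lit 183) (nat_lit 180))) (XT.nd (nat_lit 78) (nat_lit 0) (nat_lit 0) (XT.lf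 (nat_lit 0) (nat_lit 136660530150) (nat_lit 76) (nat_lit 157914059328) (nat_lit 76) (nat_lit 157622586533) (nat_lit 1) (nat_lit 4) (nat_lit 2) (nat_lit 5) (nat_lit 2) (nat_lit 4) (nat_lit 358) (nat_lit 183) (nat_lit 179)) (XT.nd (nat_lit 78) (nat_lit 0) (nat_lit 0) (XT.lf (nat_lit 0) (nat_lit 144965458818) (nat_lit 76) (nat_lit 165077578276) (nat_lit 76) (nat_lit 164721700588) (nat_lit 1) (nat_lit 4) (nat_lit 2) (nat_lit 5) (nat_lit 2) (nat_lit 4) (nat_lit 359) (nat_lit 183) (nat_lit 178)) (XT.lf (nat_lit 0) (nat_lit 153642436828) (nat_lit 76) (nat_lit 172618348809) (nat_lit 76) (nat_lit 172201133128) (nat_lit 1) (nat_lit 4) (nat_lit 2) (nat_lit 5) (nat_lit 2) (nat_lit 4) (nat_lit 360) (nat_lit 183) (nat_lit 177))))))))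
noncomputable def xc1 : XT := (XT.nd (nat_lit 74178) (nat_lit 0) (nat_lit 0) (XT.nd (nat_lit 37128) (nat_lit 0) (nat_lit 0) (XT.nd (nat_lit 36816) (nat_lit 0) (nat_lit 0) (XT.nd (nat_lit 156) (nat_lit 0) (nat_lit 0) (XT.nd (nat_lit 78) (nat_lit 0) (nat_lit 0) (XT.lf (nat_lit 0) (nat_lit 162712123653) (nat_lit 76) (nat_lit 180554325142) (nat_lit 76) (nat_lit 180078692325) (nat_lit 1) (nat_lit 4) (nat_lit 2) (nat_lit 5) (nat_lit 2) (nat_lit 4) (nat_lit 361) (nat_lit 183) (nat_lit 176)) (XT.lf (nat_lit 0) (nat_lit 172196113784) (nat_lit 76) (nat_lit 188904402456) (nat_lit 76) (nat_lit 188373134272) (nat_lit 1) (nat_lit 4) (nat_lit 2) (nat_lit 5) (nat_lit 2) (nat_lit 4) (nat_lit 362) (nat_lit 183) (nat_lit 175))) (XT.nd (nat_lit 78) (nat_lit 0) (nat_lit 0) (XT.lf (nat_lit 0) (nat_lit 182116988150) (nat_lit 76) (nat_lit 197688461889) (nat_lit 76) (nat_lit 197104207640) (nat_lit 1) (nat_lit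 4) (nat_lit 2) (nat_lit 5) (nat_lit 2) (nat_lit 4) (nat_lit 363) (nat_lit 183) (nat_lit 174)) (XT.lf (nat_lit 0) (nat_lit 192498367880) (nat_lit 76) (nat_lit 206927417868) (nat_lit 76) (nat_lit 206292700700) (nat_lit 1) (nat_lit 4) (nat_lit 2) (nat_lit 5) (nat_lit 2) (nat_lit 4) (nat_lit 364) (nat_lit 183) (nat_lit 173)))) (XT.nd (nat_lit 156) (nat_lit 0) (nat_lit 0) (XT.nd (nat_lit 78) (nat_lit 0) (nat_lit 0) (XT.lf (nat_lit 0) (nat_lit 46810574366) (nat_lit 76) (nat_lit 61013874356) (nat_lit 76) (nat_lit 61013874356) (nat_lit 1) (nat_lit 4) (nat_lit 2) (nat_lit 5) (nat_lit 2) (nat_lit 4) (nat_lit 352) (nat_lit 184) (nat_lit 184)) (XT.lf (nat_lit 0) (nat_lit 100052972247) (nat_lit 76) (nat_lit 127269697164) (nat_lit 76) (nat_lit 127187498387) (nat_lit 1) (nat_lit 4) (nat_lit 2) (nat_lit 5) (nat_lit 2) (nat_lit 4) (nat_lit 353) (nat_lit 184) (nat_lit 183))) (XT.nd (nat_lit 78) (nat_lit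 0) (nat_lit 0) (XT.lf (nat_lit 0) (nat_lit 106751255287) (nat_lit 76) (nat_lit 132798088922) (nat_lit 76) (nat_lit 132637605595) (nat_lit 1) (nat_lit 4) (nat_lit 2) (nat_lit 5) (nat_lit 2) (nat_lit 4) (nat_lit 354) (nat_lit 184) (nat_lit 182)) (XT.lf (nat_lit 0) (nat_lit 113731946145) (nat_lit 76) (nat_lit 138626086825) (nat_lit 76) (nat_lit 138391046784) (nat_lit 1) (nat_lit 4) (nat_lit 2) (nat_lit 5) (nat_lit 2) (nat_lit 4) (nat_lit 355) (nat_lit 184) (nat_lit 181))))) (XT.nd (nat_lit 312) (nat_lit 0) (nat_lit 0) (XT.nd (nat_lit 156) (nat_lit 0) (nat_lit 0) (XT.nd (nat_lit 78) (nat_lit 0) (nat_lit 0) (XT.lf (nat_lit 0) (nat_lit 121011665513) (nat_lit 76) (nat_lit 144767567057) (nat_lit 76) (nat_lit 144461520622) (nat_lit 1) (nat_lit 4) (nat_lit 2) (nat_lit 5) (nat_lit 2) (nat_lit 4) (nat_lit 356) (nat_lit 184) (nat_lit 180)) (XT.lf (nat_lit 0) (nat_lit 128607746058) (nat_lit 76)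 (nat_lit 151237152190) (nat_lit 76) (nat_lit 150863480618) (nat_lit 1) (nat_lit 4) (nat_lit 2) (nat_lit 5) (nat_lit 2) (nat_lit 4) (nat_lit 357) (nat_lit 184) (nat_lit 179))) (XT.nd (nat_lit 78) (nat_lit 0) (nat_lit 0) (XT.lf (nat_lit 0) (nat_lit 136538273684) (nat_lit 76) (nat_lit 158050246000) (nat_lit 76) (nat_lit 157612169535) (nat_lit 1) (nat_lit 4) (nat_lit 2) (nat_lit 5) (nat_lit 2) (nat_lit 4) (nat_lit 358) (nat_lit 184) (nat_lit 178)) (XT.lf (nat_lit 0) (nat_lit 144822130600) (nat_lit 76) (nat_lit 165223070136) (nat_lit 76) (nat_lit 164723655679) (nat_lit 1) (nat_lit 4) (nat_lit 2) (nat_lit 5) (nat_lit 2) (nat_lit 4) (nat_lit 359) (nat_lit 184) (nat_lit 177)))) (XT.nd (nat_lit 156) (nat_lit 0) (nat_lit 0) (XT.nd (nat_lit 78) (nat_lit 0) (nat_lit 0) (XT.lf (nat_lit 0) (nat_lit 153479040276) (nat_lit 76) (nat_lit 172772702754) (nat_lit 76) (nat_lit 172214871160) (nat_lit 1)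 (nat_lit 4) (nat_lit 2) (nat_lit 5) (nat_lit 2) (nat_lit 4) (nat_lit 360) (nat_lit 184) (nat_lit 176)) (XT.lf (nat_lit 0) (nat_lit 162529614400) (nat_lit 76) (nat_lit 180717119167) (nat_lit 76) (nat_lit 180103652205) (nat_lit 1) (nat_lit 4) (nat_lit 2) (nat_lit 5) (nat_lit 2) (nat_lit 4) (nat_lit 361) (nat_lit 184) (nat_lit 175))) (XT.nd (nat_lit 78) (nat_lit 0) (nat_lit 0) (XT.lf (nat_lit 0) (nat_lit 171995401960) (nat_lit 76) (nat_lit 189075234654) (nat_lit 76) (nat_lit 188408781628) (nat_lit 1) (nat_lit 4) (nat_lit 2) (nat_lit 5) (nat_lit 2) (nat_lit 4) (nat_lit 362) (nat_lit 184) (nat_lit 174)) (XT.nd (nat_lit 78) (nat_lit 0) (nat_lit 0) (XT.lf (nat_lit 0) (nat_lit 181898940544) (nat_lit 76) (nat_lit 197866949489) (nat_lit 76) (nat_lit 197150033544) (nat_lit 1) (nat_lit 4) (nat_lit 2) (nat_lit 5) (nat_lit 2) (nat_lit 4) (nat_lit 363) (nat_lit 184) (nat_lit 173)) (XT.lf (nat_lit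 0) (nat_lit 192263810006) (nat_lit 76) (nat_lit 207113196326) (nat_lit 76) (nat_lit 206348220459) (nat_lit 1) (nat_lit 4) (nat_lit 2) (nat_lit 5) (nat_lit 2) (nat_lit 4) (nat_lit 364) (nat_lit 184) (nat_lit 172))))))) (XT.nd (nat_lit 702) (nat_lit 0) (nat_lit 0) (XT.nd (nat_lit 312) (nat_lit 0) (nat_lit 0) (XT.nd (nat_lit 156) (nat_lit 0) (nat_lit 0) (XT.nd (nat_lit 78) (nat_lit 0) (nat_lit 0) (XT.lf (nat_lit 0) (nat_lit 40762936425) (nat_lit 76) (nat_lit 56213563041) (nat_lit 76) (nat_lit 56213563041) (nat_lit 1) (nat_lit 4) (nat_lit 2) (nat_lit 5) (nat_lit 2) (nat_lit 4) (nat_lit 350) (nat_lit 185) (nat_lit 185)) (XT.lf (nat_lit 0) (nat_lit 87440470876) (nat_lit 76) (nat_lit 117146071453) (nat_lit 76) (nat_lit 117059762737) (nat_lit 1) (nat_lit 4) (nat_lit 2) (nat_lit 5) (nat_lit 2) (nat_lit 4) (nat_lit 351) (nat_lit 185) (nat_lit 184))) (XT.nd (nat_lit 78) (nat_lit 0) (nat_lit 0)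 (XT.lf (nat_lit 0) (nat_lit 93592910569) (nat_lit 76) (nat_lit 122126527271) (nat_lit 76) (nat_lit 121958019778) (nat_lit 1) (nat_lit 4) (nat_lit 2) (nat_lit 5) (nat_lit 2) (nat_lit 4) (nat_lit 352) (nat_lit 185) (nat_lit 183)) (XT.lf (nat_lit 0) (nat_lit 99997840596) (nat_lit 76) (nat_lit 127380351764) (nat_lit 76) (nat_lit 127133559721) (nat_lit 1) (nat_lit 4) (nat_lit 2) (nat_lit 5) (nat_lit 2) (nat_lit 4) (nat_lit 353) (nat_lit 185) (nat_lit 182)))) (XT.nd (nat_lit 156) (nat_lit 0) (nat_lit 0) (XT.nd (nat_lit 78) (nat_lit 0) (nat_lit 0) (XT.lf (nat_lit 0) (nat_lit 106670510790) (nat_lit 76) (nat_lit 132920054037) (nat_lit 76) (nat_lit 132598705281) (nat_lit 1) (nat_lit 4) (nat_lit 2) (nat_lit 5) (nat_lit 2) (nat_lit 4) (nat_lit 354) (nat_lit 185) (nat_lit 181)) (XT.lf (nat_lit 0) (nat_lit 113626808462) (nat_lit 76) (nat_lit 138758823859) (nat_lit 76) (nat_lit 138366468708) (nat_lit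 1) (nat_lit 4) (nat_lit 2) (nat_lit 5) (nat_lit 2) (nat_lit 4) (nat_lit 355) (nat_lit 185) (nat_lit 180))) (XT.nd (nat_lit 78) (nat_lit 0) (nat_lit 0) (XT.lf (nat_lit 0) (nat_lit 120883296224) (nat_lit 76) (nat_lit 144910563062) (nat_lit 76) (nat_lit 144450582774) (nat_lit 1) (nat_lit 4) (nat_lit 2) (nat_lit 5) (nat_lit 2) (nat_lit 4) (nat_lit 356) (nat_lit 185) (nat_lit 179)) (XT.nd (nat_lit 78) (nat_lit 0) (nat_lit 0) (XT.lf (nat_lit 0) (nat_lit 128457251429) (nat_lit 76) (nat_lit 151389918644) (nat_lit 76) (nat_lit 150865533463) (nat_lit 1) (nat_lit 4) (nat_lit 2) (nat_lit 5) (nat_lit 2) (nat_lit 4) (nat_lit 357) (nat_lit 185) (nat_lit 178)) (XT.lf (nat_lit 0) (nat_lit 136366707303) (nat_lit 76) (nat_lit 158212317642) (nat_lit 76) (nat_lit 157626594468) (nat_lit 1) (nat_lit 4) (nat_lit 2) (nat_lit 5) (nat_lit 2) (nat_lit 4) (nat_lit 358) (nat_lit 185) (nat_lit 177)))))) (XT.nd (nat_lit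 312) (nat_lit 0) (nat_lit 0) (XT.nd (nat_lit 156) (nat_lit 0) (nat_lit 0) (XT.nd (nat_lit 78) (nat_lit 0) (nat_lit 0) (XT.lf (nat_lit 0) (nat_lit 144630495885) (nat_lit 76) (nat_lit 165394003863) (nat_lit 76) (nat_lit 164749863554) (nat_lit 1) (nat_lit 4) (nat_lit 2) (nat_lit 5) (nat_lit 2) (nat_lit 4) (nat_lit 359) (nat_lit 185) (nat_lit 176)) (XT.lf (nat_lit 0) (nat_lit 153268292861) (nat_lit 76) (nat_lit 172952076561) (nat_lit 76) (nat_lit 172252300884) (nat_lit 1) (nat_lit 4) (nat_lit 2) (nat_lit 5) (nat_lit 2) (nat_lit 4) (nat_lit 360) (nat_lit 185) (nat_lit 175))) (XT.nd (nat_lit 78) (nat_lit 0) (nat_lit 0) (XT.lf (nat_lit 0) (nat_lit 162300664414) (nat_lit 76) (nat_lit 180904531147) (nat_lit 76) (nat_lit 180151769404) (nat_lit 1) (nat_lit 4) (nat_lit 2) (nat_lit 5) (nat_lit 2) (nat_lit 4) (nat_lit 361) (nat_lit 185) (nat_lit 174)) (XT.lf (nat_lit 0) (nat_lit 171749116191) (nat_lit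 76) (nat_lit 189270302035) (nat_lit 76) (nat_lit 188467077374) (nat_lit 1) (nat_lit 4) (nat_lit 2) (nat_lit 5) (nat_lit 2) (nat_lit 4) (nat_lit 362) (nat_lit 185) (nat_lit 173)))) (XT.nd (nat_lit 36348) (nat_lit 0) (nat_lit 0) (XT.nd (nat_lit 78) (nat_lit 0) (nat_lit 0) (XT.lf (nat_lit 0) (nat_lit 181636144506) (nat_lit 76) (nat_lit 198069307729) (nat_lit 76) (nat_lit 197218023146) (nat_lit 1) (nat_lit 4) (nat_lit 2) (nat_lit 5) (nat_lit 2) (nat_lit 4) (nat_lit 363) (nat_lit 185) (nat_lit 172)) (XT.lf (nat_lit 0) (nat_lit 191985289903) (nat_lit 76) (nat_lit 207322498242) (nat_lit 76) (nat_lit 206425442304) (nat_lit 1) (nat_lit 4) (nat_lit 2) (nat_lit 5) (nat_lit 2) (nat_lit 4) (nat_lit 364) (nat_lit 185) (nat_lit 171))) (XT.nd (nat_lit 78) (nat_lit 0) (nat_lit 0) (XT.lf (nat_lit 0) (nat_lit 35192768817) (nat_lit 76) (nat_lit 51903148193) (nat_lit 76) (nat_lit 51903148193) (nat_lit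 1) (nat_lit 4) (nat_lit 2) (nat_lit 5) (nat_lit 2) (nat_lit 4) (nat_lit 348) (nat_lit 186) (nat_lit 186)) (XT.nd (nat_lit 78) (nat_lit 0) (nat_lit 0) (XT.lf (nat_lit 0) (nat_lit 75835034118) (nat_lit 76) (nat_lit 108049079725) (nat_lit 76) (nat_lit 107958455574) (nat_lit 1) (nat_lit 4) (nat_lit 2) (nat_lit 5) (nat_lit 2) (nat_lit 4) (nat_lit 349) (nat_lit 186) (nat_lit 185)) (XT.lf (nat_lit 0) (nat_lit 81496222781) (nat_lit 76) (nat_lit 112530843569) (nat_lit 76) (nat_lit 112353910701) (nat_lit 1) (nat_lit 4) (nat_lit 2) (nat_lit 5) (nat_lit 2) (nat_lit 4) (nat_lit 350) (nat_lit 186) (nat_lit 184))))))))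
noncomputable def xc2 : XT := (XT.nd (nat_lit 37362) (nat_lit 0) (nat_lit 0) (XT.nd (nat_lit 624) (nat_lit 0) (nat_lit 0) (XT.nd (nat_lit 312) (nat_lit 0) (nat_lit 0) (XT.nd (nat_lit 156) (nat_lit 0) (nat_lit 0) (XT.nd (nat_lit 78) (nat_lit 0) (nat_lit 0) (XT.lf (nat_lit 0) (nat_lit 87382582643) (nat_lit 76) (nat_lit 117262258783) (nat_lit 76) (nat_lit 117003127138) (nat_lit 1) (nat_lit 4) (nat_lit 2) (nat_lit 5) (nat_lit 2) (nat_lit 4) (nat_lit 351) (nat_lit 186) (nat_lit 183)) (XT.lf (nat_lit 0) (nat_lit 93508128848) (nat_lit 76) (nat_lit 122254590642) (nat_lit 76) (nat_lit 121917174448) (nat_lit 1) (nat_lit 4) (nat_lit 2) (nat_lit 5) (nat_lit 2) (nat_lit 4) (nat_lit 352) (nat_lit 186) (nat_lit 182))) (XT.nd (nat_lit 78) (nat_lit 0) (nat_lit 0) (XT.lf (nat_lit 0) (nat_lit 99887446029) (nat_lit 76) (nat_lit 127519725650) (nat_lit 76) (nat_lit 127107752742) (nat_lit 1) (nat_lit 4)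 (nat_lit 2) (nat_lit 5) (nat_lit 2) (nat_lit 4) (nat_lit 353) (nat_lit 186) (nat_lit 181)) (XT.lf (nat_lit 0) (nat_lit 106535723036) (nat_lit 76) (nat_lit 133070199843) (nat_lit 76) (nat_lit 132587220540) (nat_lit 1) (nat_lit 4) (nat_lit 2) (nat_lit 5) (nat_lit 2) (nat_lit 4) (nat_lit 354) (nat_lit 186) (nat_lit 180)))) (XT.nd (nat_lit 156) (nat_lit 0) (nat_lit 0) (XT.nd (nat_lit 78) (nat_lit 0) (nat_lit 0) (XT.lf (nat_lit 0) (nat_lit 113468789102) (nat_lit 76) (nat_lit 138919228635) (nat_lit 76) (nat_lit 138368624195) (nat_lit 1) (nat_lit 4) (nat_lit 2) (nat_lit 5) (nat_lit 2) (nat_lit 4) (nat_lit 355) (nat_lit 186) (nat_lit 179)) (XT.lf (nat_lit 0) (nat_lit 120703151525) (nat_lit 76) (nat_lit 145080738286) (nat_lit 76) (nat_lit 144465728954) (nat_lit 1) (nat_lit 4) (nat_lit 2) (nat_lit 5) (nat_lit 2) (nat_lit 4) (nat_lit 356) (nat_lit 186) (nat_lit 178))) (XT.nd (nat_lit 78) (nat_lit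 0) (nat_lit 0) (XT.lf (nat_lit 0) (nat_lit 128256034978) (nat_lit 76) (nat_lit 151569399057) (nat_lit 76) (nat_lit 150893051731) (nat_lit 1) (nat_lit 4) (nat_lit 2) (nat_lit 5) (nat_lit 2) (nat_lit 4) (nat_lit 357) (nat_lit 186) (nat_lit 177)) (XT.lf (nat_lit 0) (nat_lit 136145422518) (nat_lit 76) (nat_lit 158400660140) (nat_lit 76) (nat_lit 157665895678) (nat_lit 1) (nat_lit 4) (nat_lit 2) (nat_lit 5) (nat_lit 2) (nat_lit 4) (nat_lit 358) (nat_lit 186) (nat_lit 176))))) (XT.nd (nat_lit 312) (nat_lit 0) (nat_lit 0) (XT.nd (nat_lit 156) (nat_lit 0) (nat_lit 0) (XT.nd (nat_lit 78) (nat_lit 0) (nat_lit 0) (XT.lf (nat_lit 0) (nat_lit 144390098399) (nat_lit 76) (nat_lit 165590786442) (nat_lit 76) (nat_lit 164800386612) (nat_lit 1) (nat_lit 4) (nat_lit 2) (nat_lit 5) (nat_lit 2) (nat_lit 4) (nat_lit 359) (nat_lit 186) (nat_lit 175)) (XT.lf (nat_lit 0) (nat_lit 153009692803) (nat_lit 76)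 (nat_lit 173156897312) (nat_lit 76) (nat_lit 172313511418) (nat_lit 1) (nat_lit 4) (nat_lit 2) (nat_lit 5) (nat_lit 2) (nat_lit 4) (nat_lit 360) (nat_lit 186) (nat_lit 174))) (XT.nd (nat_lit 78) (nat_lit 0) (nat_lit 0) (XT.lf (nat_lit 0) (nat_lit 162024728574) (nat_lit 76) (nat_lit 181117007299) (nat_lit 76) (nat_lit 180223158486) (nat_lit 1) (nat_lit 4) (nat_lit 2) (nat_lit 5) (nat_lit 2) (nat_lit 4) (nat_lit 361) (nat_lit 186) (nat_lit 173)) (XT.lf (nat_lit 0) (nat_lit 171456670083) (nat_lit 76) (nat_lit 189490069047) (nat_lit 76) (nat_lit 188548160312) (nat_lit 1) (nat_lit 4) (nat_lit 2) (nat_lit 5) (nat_lit 2) (nat_lit 4) (nat_lit 362) (nat_lit 186) (nat_lit 172)))) (XT.nd (nat_lit 36192) (nat_lit 0) (nat_lit 0) (XT.nd (nat_lit 78) (nat_lit 0) (nat_lit 0) (XT.lf (nat_lit 0) (nat_lit 181327974332) (nat_lit 76) (nat_lit 198296018416) (nat_lit 76) (nat_lit 197308338326) (nat_lit 1)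 (nat_lit 4) (nat_lit 2) (nat_lit 5) (nat_lit 2) (nat_lit 4) (nat_lit 363) (nat_lit 186) (nat_lit 171)) (XT.lf (nat_lit 0) (nat_lit 191662144428) (nat_lit 76) (nat_lit 207555821953) (nat_lit 76) (nat_lit 206524550096) (nat_lit 1) (nat_lit 4) (nat_lit 2) (nat_lit 5) (nat_lit 2) (nat_lit 4) (nat_lit 364) (nat_lit 186) (nat_lit 170))) (XT.nd (nat_lit 78) (nat_lit 0) (nat_lit 0) (XT.lf (nat_lit 0) (nat_lit 30051441789) (nat_lit 76) (nat_lit 48039264332) (nat_lit 76) (nat_lit 48039264332) (nat_lit 1) (nat_lit 4) (nat_lit 2) (nat_lit 5) (nat_lit 2) (nat_lit 4) (nat_lit 346) (nat_lit 187) (nat_lit 187)) (XT.nd (nat_lit 78) (nat_lit 0) (nat_lit 0) (XT.lf (nat_lit 0) (nat_lit 65134758339) (nat_lit 76) (nat_lit 99887547045) (nat_lit 76) (nat_lit 99792391685) (nat_lit 1) (nat_lit 4) (nat_lit 2) (nat_lit 5) (nat_lit 2) (nat_lit 4) (nat_lit 347) (nat_lit 187) (nat_lit 186)) (XT.lf (nat_lit 0) (nat_lit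 70354405061) (nat_lit 76) (nat_lit 103915199747) (nat_lit 76) (nat_lit 103729420236) (nat_lit 1) (nat_lit 4) (nat_lit 2) (nat_lit 5) (nat_lit 2) (nat_lit 4) (nat_lit 348) (nat_lit 187) (nat_lit 185))))))) (XT.nd (nat_lit 624) (nat_lit 0) (nat_lit 0) (XT.nd (nat_lit 312) (nat_lit 0) (nat_lit 0) (XT.nd (nat_lit 156) (nat_lit 0) (nat_lit 0) (XT.nd (nat_lit 78) (nat_lit 0) (nat_lit 0) (XT.lf (nat_lit 0) (nat_lit 75774251473) (nat_lit 76) (nat_lit 108171076422) (nat_lit 76) (nat_lit 107898988195) (nat_lit 1) (nat_lit 4) (nat_lit 2) (nat_lit 5) (nat_lit 2) (nat_lit 4) (nat_lit 349) (nat_lit 187) (nat_lit 184)) (XT.lf (nat_lit 0) (nat_lit 81407201973) (nat_lit 76) (nat_lit 112665310109) (nat_lit 76) (nat_lit 112311023104) (nat_lit 1) (nat_lit 4) (nat_lit 2) (nat_lit 5) (nat_lit 2) (nat_lit 4) (nat_lit 350) (nat_lit 187) (nat_lit 183))) (XT.nd (nat_lit 78) (nat_lit 0) (nat_lit 0) (XT.lf (nat_lit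 0) (nat_lit 87266668347) (nat_lit 76) (nat_lit 117408601364) (nat_lit 76) (nat_lit 116976029810) (nat_lit 1) (nat_lit 4) (nat_lit 2) (nat_lit 5) (nat_lit 2) (nat_lit 4) (nat_lit 351) (nat_lit 187) (nat_lit 182)) (XT.lf (nat_lit 0) (nat_lit 93366601706) (nat_lit 76) (nat_lit 122412243738) (nat_lit 76) (nat_lit 121905115470) (nat_lit 1) (nat_lit 4) (nat_lit 2) (nat_lit 5) (nat_lit 2) (nat_lit 4) (nat_lit 352) (nat_lit 187) (nat_lit 181)))) (XT.nd (nat_lit 156) (nat_lit 0) (nat_lit 0) (XT.nd (nat_lit 78) (nat_lit 0) (nat_lit 0) (XT.lf (nat_lit 0) (nat_lit 99721525701) (nat_lit 76) (nat_lit 127688150665) (nat_lit 76) (nat_lit 127110016003) (nat_lit 1) (nat_lit 4) (nat_lit 2) (nat_lit 5) (nat_lit 2) (nat_lit 4) (nat_lit 353) (nat_lit 187) (nat_lit 180)) (XT.lf (nat_lit 0) (nat_lit 106346571102) (nat_lit 76) (nat_lit 133248883828) (nat_lit 76) (nat_lit 132603124029) (nat_lit 1) (nat_lit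 4) (nat_lit 2) (nat_lit 5) (nat_lit 2) (nat_lit 4) (nat_lit 354) (nat_lit 187) (nat_lit 179))) (XT.nd (nat_lit 78) (nat_lit 0) (nat_lit 0) (XT.lf (nat_lit 0) (nat_lit 113257511828) (nat_lit 76) (nat_lit 139107683069) (nat_lit 76) (nat_lit 138397518377) (nat_lit 1) (nat_lit 4) (nat_lit 2) (nat_lit 5) (nat_lit 2) (nat_lit 4) (nat_lit 355) (nat_lit 187) (nat_lit 178)) (XT.lf (nat_lit 0) (nat_lit 120470802500) (nat_lit 76) (nat_lit 145278497909) (nat_lit 76) (nat_lit 144506995224) (nat_lit 1) (nat_lit 4) (nat_lit 2) (nat_lit 5) (nat_lit 2) (nat_lit 4) (nat_lit 356) (nat_lit 187) (nat_lit 177))))) (XT.nd (nat_lit 312) (nat_lit 0) (nat_lit 0) (XT.nd (nat_lit 156) (nat_lit 0) (nat_lit 0) (XT.nd (nat_lit 78) (nat_lit 0) (nat_lit 0) (XT.lf (nat_lit 0) (nat_lit 128003617618) (nat_lit 76) (nat_lit 151776020764) (nat_lit 76) (nat_lit 150946100943) (nat_lit 1) (nat_lit 4) (nat_lit 2) (nat_lit 5)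 (nat_lit 2) (nat_lit 4) (nat_lit 357) (nat_lit 187) (nat_lit 176)) (XT.lf (nat_lit 0) (nat_lit 135873892458) (nat_lit 76) (nat_lit 158615721928) (nat_lit 76) (nat_lit 157730166739) (nat_lit 1) (nat_lit 4) (nat_lit 2) (nat_lit 5) (nat_lit 2) (nat_lit 4) (nat_lit 358) (nat_lit 187) (nat_lit 175))) (XT.nd (nat_lit 78) (nat_lit 0) (nat_lit 0) (XT.lf (nat_lit 0) (nat_lit 144100365768) (nat_lit 76) (nat_lit 165813886402) (nat_lit 76) (nat_lit 164875345149) (nat_lit 1) (nat_lit 4) (nat_lit 2) (nat_lit 5) (nat_lit 2) (nat_lit 4) (nat_lit 359) (nat_lit 187) (nat_lit 174)) (XT.lf (nat_lit 0) (nat_lit 152702624390) (nat_lit 76) (nat_lit 173387652674) (nat_lit 76) (nat_lit 172398648502) (nat_lit 1) (nat_lit 4) (nat_lit 2) (nat_lit 5) (nat_lit 2) (nat_lit 4) (nat_lit 360) (nat_lit 187) (nat_lit 173)))) (XT.nd (nat_lit 156) (nat_lit 0) (nat_lit 0) (XT.nd (nat_lit 78) (nat_lit 0) (nat_lit 0) (XT.lf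 (nat_lit 0) (nat_lit 161701149892) (nat_lit 76) (nat_lit 181355053520) (nat_lit 76) (nat_lit 180317989426) (nat_lit 1) (nat_lit 4) (nat_lit 2) (nat_lit 5) (nat_lit 2) (nat_lit 4) (nat_lit 361) (nat_lit 187) (nat_lit 172)) (XT.lf (nat_lit 0) (nat_lit 171117367335) (nat_lit 76) (nat_lit 189735058943) (nat_lit 76) (nat_lit 188652223494) (nat_lit 1) (nat_lit 4) (nat_lit 2) (nat_lit 5) (nat_lit 2) (nat_lit 4) (nat_lit 362) (nat_lit 187) (nat_lit 171))) (XT.nd (nat_lit 78) (nat_lit 0) (nat_lit 0) (XT.lf (nat_lit 0) (nat_lit 180973696284) (nat_lit 76) (nat_lit 198547621336) (nat_lit 76) (nat_lit 197421194120) (nat_lit 1) (nat_lit 4) (nat_lit 2) (nat_lit 5) (nat_lit 2) (nat_lit 4) (nat_lit 363) (nat_lit 187) (nat_lit 170)) (XT.nd (nat_lit 35958) (nat_lit 0) (nat_lit 0) (XT.lf (nat_lit 0) (nat_lit 191293604189) (nat_lit 76) (nat_lit 207813722991) (nat_lit 76) (nat_lit 206645779807) (nat_lit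 1) (nat_lit 4) (nat_lit 2) (nat_lit 5) (nat_lit 2) (nat_lit 4) (nat_lit 364) (nat_lit 187) (nat_lit 169)) (XT.lf (nat_lit 0) (nat_lit 25294634768) (nat_lit 76) (nat_lit 44582686714) (nat_lit 76) (nat_lit 44582686714) (nat_lit 1) (nat_lit 4) (nat_lit 2) (nat_lit 5) (nat_lit 2) (nat_lit 4) (nat_lit 344) (nat_lit 188) (nat_lit 188))))))))
noncomputable def xc3 : XT := (XT.nd (nat_lit 1326) (nat_lit 0) (nat_lit 0) (XT.nd (nat_lit 624) (nat_lit 0) (nat_lit 0) (XT.nd (nat_lit 312) (nat_lit 0) (nat_lit 0) (XT.nd (nat_lit 156) (nat_lit 0) (nat_lit 0) (XT.nd (nat_lit 78) (nat_lit 0) (nat_lit 0) (XT.lf (nat_lit 0) (nat_lit 55246800125) (nat_lit 76) (nat_lit 92578988644) (nat_lit 76) (nat_lit 92479075517) (nat_lit 1) (nat_lit 4) (nat_lit 2) (nat_lit 5) (nat_lit 2) (nat_lit 4) (nat_lit 345) (nat_lit 188) (nat_lit 187)) (XT.lf (nat_lit 0) (nat_lit 60070194376) (nat_lit 76) (nat_lit 96192877194)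 (nat_lit 76) (nat_lit 95997808708) (nat_lit 1) (nat_lit 4) (nat_lit 2) (nat_lit 5) (nat_lit 2) (nat_lit 4) (nat_lit 346) (nat_lit 188) (nat_lit 186))) (XT.nd (nat_lit 78) (nat_lit 0) (nat_lit 0) (XT.lf (nat_lit 0) (nat_lit 65070936562) (nat_lit 76) (nat_lit 100015643576) (nat_lit 76) (nat_lit 99729950938) (nat_lit 1) (nat_lit 4) (nat_lit 2) (nat_lit 5) (nat_lit 2) (nat_lit 4) (nat_lit 347) (nat_lit 188) (nat_lit 185)) (XT.lf (nat_lit 0) (nat_lit 70260933213) (nat_lit 76) (nat_lit 104056389613) (nat_lit 76) (nat_lit 103684388259) (nat_lit 1) (nat_lit 4) (nat_lit 2) (nat_lit 5) (nat_lit 2) (nat_lit 4) (nat_lit 348) (nat_lit 188) (nat_lit 184)))) (XT.nd (nat_lit 156) (nat_lit 0) (nat_lit 0) (XT.nd (nat_lit 78) (nat_lit 0) (nat_lit 0) (XT.lf (nat_lit 0) (nat_lit 75652541463) (nat_lit 76) (nat_lit 108324736131) (nat_lit 76) (nat_lit 107870536000) (nat_lit 1) (nat_lit 4) (nat_lit 2) (nat_lit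 5) (nat_lit 2) (nat_lit 4) (nat_lit 349) (nat_lit 188) (nat_lit 183)) (XT.lf (nat_lit 0) (nat_lit 81258598475) (nat_lit 76) (nat_lit 112830845859) (nat_lit 76) (nat_lit 112298361178) (nat_lit 1) (nat_lit 4) (nat_lit 2) (nat_lit 5) (nat_lit 2) (nat_lit 4) (nat_lit 350) (nat_lit 188) (nat_lit 182))) (XT.nd (nat_lit 78) (nat_lit 0) (nat_lit 0) (XT.lf (nat_lit 0) (nat_lit 87092452003) (nat_lit 76) (nat_lit 117585447629) (nat_lit 76) (nat_lit 116978406234) (nat_lit 1) (nat_lit 4) (nat_lit 2) (nat_lit 5) (nat_lit 2) (nat_lit 4) (nat_lit 351) (nat_lit 188) (nat_lit 181)) (XT.lf (nat_lit 0) (nat_lit 93167992175) (nat_lit 76) (nat_lit 122599861922) (nat_lit 76) (nat_lit 121921814134) (nat_lit 1) (nat_lit 4) (nat_lit 2) (nat_lit 5) (nat_lit 2) (nat_lit 4) (nat_lit 352) (nat_lit 188) (nat_lit 180))))) (XT.nd (nat_lit 312) (nat_lit 0) (nat_lit 0) (XT.nd (nat_lit 156) (nat_lit 0) (nat_lit 0) (XT.nd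 (nat_lit 78) (nat_lit 0) (nat_lit 0) (XT.lf (nat_lit 0) (nat_lit 99499684564) (nat_lit 76) (nat_lit 127886027820) (nat_lit 76) (nat_lit 127140354894) (nat_lit 1) (nat_lit 4) (nat_lit 2) (nat_lit 5) (nat_lit 2) (nat_lit 4) (nat_lit 353) (nat_lit 188) (nat_lit 179)) (XT.lf (nat_lit 0) (nat_lit 106102604626) (nat_lit 76) (nat_lit 133456531432) (nat_lit 76) (nat_lit 132646453613) (nat_lit 1) (nat_lit 4) (nat_lit 2) (nat_lit 5) (nat_lit 2) (nat_lit 4) (nat_lit 354) (nat_lit 188) (nat_lit 178))) (XT.nd (nat_lit 78) (nat_lit 0) (nat_lit 0) (XT.lf (nat_lit 0) (nat_lit 112992473600) (nat_lit 76) (nat_lit 139324635862) (nat_lit 76) (nat_lit 138453220050) (nat_lit 1) (nat_lit 4) (nat_lit 2) (nat_lit 5) (nat_lit 2) (nat_lit 4) (nat_lit 355) (nat_lit 188) (nat_lit 177)) (XT.lf (nat_lit 0) (nat_lit 120185695937) (nat_lit 76) (nat_lit 145504312786) (nat_lit 76) (nat_lit 144574479838) (nat_lit 1)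 (nat_lit 4) (nat_lit 2) (nat_lit 5) (nat_lit 2) (nat_lit 4) (nat_lit 356) (nat_lit 188) (nat_lit 176)))) (XT.nd (nat_lit 156) (nat_lit 0) (nat_lit 0) (XT.nd (nat_lit 78) (nat_lit 0) (nat_lit 0) (XT.lf (nat_lit 0) (nat_lit 127699398355) (nat_lit 76) (nat_lit 152010275722) (nat_lit 76) (nat_lit 151024807406) (nat_lit 1) (nat_lit 4) (nat_lit 2) (nat_lit 5) (nat_lit 2) (nat_lit 4) (nat_lit 357) (nat_lit 188) (nat_lit 175)) (XT.lf (nat_lit 0) (nat_lit 135551470623) (nat_lit 76) (nat_lit 158858015058) (nat_lit 76) (nat_lit 157819560677) (nat_lit 1) (nat_lit 4) (nat_lit 2) (nat_lit 5) (nat_lit 2) (nat_lit 4) (nat_lit 358) (nat_lit 188) (nat_lit 174))) (XT.nd (nat_lit 78) (nat_lit 0) (nat_lit 0) (XT.lf (nat_lit 0) (nat_lit 143760608151) (nat_lit 76) (nat_lit 166063834934) (nat_lit 76) (nat_lit 164974917635) (nat_lit 1) (nat_lit 4) (nat_lit 2) (nat_lit 5) (nat_lit 2) (nat_lit 4) (nat_lit 359)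 (nat_lit 188) (nat_lit 173)) (XT.nd (nat_lit 78) (nat_lit 0) (nat_lit 0) (XT.lf (nat_lit 0) (nat_lit 152346356505) (nat_lit 76) (nat_lit 173644892065) (nat_lit 76) (nat_lit 172507914843) (nat_lit 1) (nat_lit 4) (nat_lit 2) (nat_lit 5) (nat_lit 2) (nat_lit 4) (nat_lit 360) (nat_lit 188) (nat_lit 172)) (XT.lf (nat_lit 0) (nat_lit 161329157941) (nat_lit 76) (nat_lit 181619236586) (nat_lit 76) (nat_lit 180436488010) (nat_lit 1) (nat_lit 4) (nat_lit 2) (nat_lit 5) (nat_lit 2) (nat_lit 4) (nat_lit 361) (nat_lit 188) (nat_lit 171))))))) (XT.nd (nat_lit 36426) (nat_lit 0) (nat_lit 0) (XT.nd (nat_lit 36036) (nat_lit 0) (nat_lit 0) (XT.nd (nat_lit 156) (nat_lit 0) (nat_lit 0) (XT.nd (nat_lit 78) (nat_lit 0) (nat_lit 0) (XT.lf (nat_lit 0) (nat_lit 170730400084) (nat_lit 76) (nat_lit 190005855033) (nat_lit 76) (nat_lit 188779514690) (nat_lit 1) (nat_lit 4) (nat_lit 2) (nat_lit 5) (nat_lit 2) (nat_lit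 4) (nat_lit 362) (nat_lit 188) (nat_lit 170)) (XT.lf (nat_lit 0) (nat_lit 180572466842) (nat_lit 76) (nat_lit 198824715544) (nat_lit 76) (nat_lit 197556859233) (nat_lit 1) (nat_lit 4) (nat_lit 2) (nat_lit 5) (nat_lit 2) (nat_lit 4) (nat_lit 363) (nat_lit 188) (nat_lit 169))) (XT.nd (nat_lit 35802) (nat_lit 0) (nat_lit 0) (XT.lf (nat_lit 0) (nat_lit 190878791708) (nat_lit 76) (nat_lit 208096815407) (nat_lit 76) (nat_lit 206789420078) (nat_lit 1) (nat_lit 4) (nat_lit 2) (nat_lit 5) (nat_lit 2) (nat_lit 4) (nat_lit 364) (nat_lit 188) (nat_lit 168)) (XT.lf (nat_lit 0) (nat_lit 20881925137) (nat_lit 76) (nat_lit 41497951812) (nat_lit 76) (nat_lit 41497951812) (nat_lit 1) (nat_lit 4) (nat_lit 2) (nat_lit 5) (nat_lit 2) (nat_lit 4) (nat_lit 342) (nat_lit 189) (nat_lit 189)))) (XT.nd (nat_lit 156) (nat_lit 0) (nat_lit 0) (XT.nd (nat_lit 78) (nat_lit 0) (nat_lit 0) (XT.lf (nat_lit 0) (nat_lit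 46086513255) (nat_lit 76) (nat_lit 86048812678) (nat_lit 76) (nat_lit 85943903894) (nat_lit 1) (nat_lit 4) (nat_lit 2) (nat_lit 5) (nat_lit 2) (nat_lit 4) (nat_lit 343) (nat_lit 189) (nat_lit 188)) (XT.lf (nat_lit 0) (nat_lit 50554945874) (nat_lit 76) (nat_lit 89285439385) (nat_lit 76) (nat_lit 89080617474) (nat_lit 1) (nat_lit 4) (nat_lit 2) (nat_lit 5) (nat_lit 2) (nat_lit 4) (nat_lit 344) (nat_lit 189) (nat_lit 187))) (XT.nd (nat_lit 78) (nat_lit 0) (nat_lit 0) (XT.lf (nat_lit 0) (nat_lit 55179787259) (nat_lit 76) (nat_lit 92713490002) (nat_lit 76) (nat_lit 92413512732) (nat_lit 1) (nat_lit 4) (nat_lit 2) (nat_lit 5) (nat_lit 2) (nat_lit 4) (nat_lit 345) (nat_lit 189) (nat_lit 186)) (XT.nd (nat_lit 78) (nat_lit 0) (nat_lit 0) (XT.lf (nat_lit 0) (nat_lit 59972048936) (nat_lit 76) (nat_lit 96341126554) (nat_lit 76) (nat_lit 95950525132) (nat_lit 1) (nat_lit 4) (nat_lit 2) (nat_lit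 5) (nat_lit 2) (nat_lit 4) (nat_lit 346) (nat_lit 189) (nat_lit 185)) (XT.lf (nat_lit 0) (nat_lit 64943141051) (nat_lit 76) (nat_lit 100176986271) (nat_lit 76) (nat_lit 99700076133) (nat_lit 1) (nat_lit 4) (nat_lit 2) (nat_lit 5) (nat_lit 2) (nat_lit 4) (nat_lit 347) (nat_lit 189) (nat_lit 184)))))) (XT.nd (nat_lit 312) (nat_lit 0) (nat_lit 0) (XT.nd (nat_lit 156) (nat_lit 0) (nat_lit 0) (XT.nd (nat_lit 78) (nat_lit 0) (nat_lit 0) (XT.lf (nat_lit 0) (nat_lit 70104899539) (nat_lit 76) (nat_lit 104230202151) (nat_lit 76) (nat_lit 103671093237) (nat_lit 1) (nat_lit 4) (nat_lit 2) (nat_lit 5) (nat_lit 2) (nat_lit 4) (nat_lit 348) (nat_lit 189) (nat_lit 183)) (XT.lf (nat_lit 0) (nat_lit 75469614301) (nat_lit 76) (nat_lit 108510424710) (nat_lit 76) (nat_lit 107873031246) (nat_lit 1) (nat_lit 4) (nat_lit 2) (nat_lit 5) (nat_lit 2) (nat_lit 4) (nat_lit 349) (nat_lit 189) (nat_lit 182))) (XT.nd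 (nat_lit 78) (nat_lit 0) (nat_lit 0) (XT.lf (nat_lit 0) (nat_lit 81050058467) (nat_lit 76) (nat_lit 113027844953) (nat_lit 76) (nat_lit 112315894775) (nat_lit 1) (nat_lit 4) (nat_lit 2) (nat_lit 5) (nat_lit 2) (nat_lit 4) (nat_lit 350) (nat_lit 189) (nat_lit 181)) (XT.lf (nat_lit 0) (nat_lit 86859518809) (nat_lit 76) (nat_lit 117793218643) (nat_lit 76) (nat_lit 117010262070) (nat_lit 1) (nat_lit 4) (nat_lit 2) (nat_lit 5) (nat_lit 2) (nat_lit 4) (nat_lit 351) (nat_lit 189) (nat_lit 180)))) (XT.nd (nat_lit 156) (nat_lit 0) (nat_lit 0) (XT.nd (nat_lit 78) (nat_lit 0) (nat_lit 0) (XT.lf (nat_lit 0) (nat_lit 92911827375) (nat_lit 76) (nat_lit 122817891907) (nat_lit 76) (nat_lit 121967310197) (nat_lit 1) (nat_lit 4) (nat_lit 2) (nat_lit 5) (nat_lit 2) (nat_lit 4) (nat_lit 352) (nat_lit 189) (nat_lit 179)) (XT.lf (nat_lit 0) (nat_lit 99221394424) (nat_lit 76) (nat_lit 128113828253) (nat_lit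 76) (nat_lit 127198841650) (nat_lit 1) (nat_lit 4) (nat_lit 2) (nat_lit 5) (nat_lit 2) (nat_lit 4) (nat_lit 353) (nat_lit 189) (nat_lit 178))) (XT.nd (nat_lit 78) (nat_lit 0) (nat_lit 0) (XT.lf (nat_lit 0) (nat_lit 105803242735) (nat_lit 76) (nat_lit 133693637054) (nat_lit 76) (nat_lit 132717312458) (nat_lit 1) (nat_lit 4) (nat_lit 2) (nat_lit 5) (nat_lit 2) (nat_lit 4) (nat_lit 354) (nat_lit 189) (nat_lit 177)) (XT.nd (nat_lit 78) (nat_lit 0) (nat_lit 0) (XT.lf (nat_lit 0) (nat_lit 112673043374) (nat_lit 76) (nat_lit 139570603568) (nat_lit 76) (nat_lit 138535861836) (nat_lit 1) (nat_lit 4) (nat_lit 2) (nat_lit 5) (nat_lit 2) (nat_lit 4) (nat_lit 355) (nat_lit 189) (nat_lit 176)) (XT.lf (nat_lit 0) (nat_lit 119847153011) (nat_lit 76) (nat_lit 145758720573) (nat_lit 76) (nat_lit 144668343473) (nat_lit 1) (nat_lit 4) (nat_lit 2) (nat_lit 5) (nat_lit 2) (nat_lit 4) (nat_lit 356) (nat_lit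 189) (nat_lit 175))))))))
noncomputable def xc4 : XT := (XT.nd (nat_lit 36894) (nat_lit 0) (nat_lit 0) (XT.nd (nat_lit 36192) (nat_lit 0) (nat_lit 0) (XT.nd (nat_lit 312) (nat_lit 0) (nat_lit 0) (XT.nd (nat_lit 156) (nat_lit 0) (nat_lit 0) (XT.nd (nat_lit 78) (nat_lit 0) (nat_lit 0) (XT.lf (nat_lit 0) (nat_lit 127342652858) (nat_lit 76) (nat_lit 152272721681) (nat_lit 76) (nat_lit 151129358517) (nat_lit 1) (nat_lit 4) (nat_lit 2) (nat_lit 5) (nat_lit 2) (nat_lit 4) (nat_lit 357) (nat_lit 189) (nat_lit 174)) (XT.lf (nat_lit 0) (nat_lit 135177389344) (nat_lit 76) (nat_lit 159128116418) (nat_lit 76) (nat_lit 157934290335) (nat_lit 1) (nat_lit 4) (nat_lit 2) (nat_lit 5) (nat_lit 2) (nat_lit 4) (nat_lit 358) (nat_lit 189) (nat_lit 173))) (XT.nd (nat_lit 78) (nat_lit 0) (nat_lit 0) (XT.lf (nat_lit 0) (nat_lit 143370016603) (nat_lit 76) (nat_lit 166341227153) (nat_lit 76) (nat_lit 165099341148)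 (nat_lit 1) (nat_lit 4) (nat_lit 2) (nat_lit 5) (nat_lit 2) (nat_lit 4) (nat_lit 359) (nat_lit 189) (nat_lit 172)) (XT.lf (nat_lit 0) (nat_lit 151940040891) (nat_lit 76) (nat_lit 173929227959) (nat_lit 76) (nat_lit 172641570599) (nat_lit 1) (nat_lit 4) (nat_lit 2) (nat_lit 5) (nat_lit 2) (nat_lit 4) (nat_lit 360) (nat_lit 189) (nat_lit 171)))) (XT.nd (nat_lit 156) (nat_lit 0) (nat_lit 0) (XT.nd (nat_lit 78) (nat_lit 0) (nat_lit 0) (XT.lf (nat_lit 0) (nat_lit 160907867027) (nat_lit 76) (nat_lit 181910185505) (nat_lit 76) (nat_lit 180578936378) (nat_lit 1) (nat_lit 4) (nat_lit 2) (nat_lit 5) (nat_lit 2) (nat_lit 4) (nat_lit 361) (nat_lit 189) (nat_lit 170)) (XT.lf (nat_lit 0) (nat_lit 170294846978) (nat_lit 76) (nat_lit 190303102070) (nat_lit 76) (nat_lit 188930336975) (nat_lit 1) (nat_lit 4) (nat_lit 2) (nat_lit 5) (nat_lit 2) (nat_lit 4) (nat_lit 362) (nat_lit 189) (nat_lit 169)))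 (XT.nd (nat_lit 78) (nat_lit 0) (nat_lit 0) (XT.lf (nat_lit 0) (nat_lit 180123330697) (nat_lit 76) (nat_lit 199127960789) (nat_lit 76) (nat_lit 197715656677) (nat_lit 1) (nat_lit 4) (nat_lit 2) (nat_lit 5) (nat_lit 2) (nat_lit 4) (nat_lit 363) (nat_lit 189) (nat_lit 168)) (XT.lf (nat_lit 0) (nat_lit 190416719336) (nat_lit 76) (nat_lit 208405773230) (nat_lit 76) (nat_lit 206955812911) (nat_lit 1) (nat_lit 4) (nat_lit 2) (nat_lit 5) (nat_lit 2) (nat_lit 4) (nat_lit 364) (nat_lit 189) (nat_lit 167))))) (XT.nd (nat_lit 312) (nat_lit 0) (nat_lit 0) (XT.nd (nat_lit 156) (nat_lit 0) (nat_lit 0) (XT.nd (nat_lit 78) (nat_lit 0) (nat_lit 0) (XT.lf (nat_lit 0) (nat_lit 16776414709) (nat_lit 76) (nat_lit 38753013360) (nat_lit 76) (nat_lit 38753013360) (nat_lit 1) (nat_lit 4) (nat_lit 2) (nat_lit 5) (nat_lit 2) (nat_lit 4) (nat_lit 340) (nat_lit 190) (nat_lit 190)) (XT.lf (nat_lit 0) (nat_lit 37576664880)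 (nat_lit 76) (nat_lit 80229597621) (nat_lit 76) (nat_lit 80119443398) (nat_lit 1) (nat_lit 4) (nat_lit 2) (nat_lit 5) (nat_lit 2) (nat_lit 4) (nat_lit 341) (nat_lit 190) (nat_lit 189))) (XT.nd (nat_lit 78) (nat_lit 0) (nat_lit 0) (XT.lf (nat_lit 0) (nat_lit 41727810429) (nat_lit 76) (nat_lit 83121972879) (nat_lit 76) (nat_lit 82906909873) (nat_lit 1) (nat_lit 4) (nat_lit 2) (nat_lit 5) (nat_lit 2) (nat_lit 4) (nat_lit 342) (nat_lit 190) (nat_lit 188)) (XT.lf (nat_lit 0) (nat_lit 46016149745) (nat_lit 76) (nat_lit 86190039103) (nat_lit 76) (nat_lit 85875062970) (nat_lit 1) (nat_lit 4) (nat_lit 2) (nat_lit 5) (nat_lit 2) (nat_lit 4) (nat_lit 343) (nat_lit 190) (nat_lit 187)))) (XT.nd (nat_lit 156) (nat_lit 0) (nat_lit 0) (XT.nd (nat_lit 78) (nat_lit 0) (nat_lit 0) (XT.lf (nat_lit 0) (nat_lit 50451893162) (nat_lit 76) (nat_lit 89441101213) (nat_lit 76) (nat_lit 89030969720) (nat_lit 1)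 (nat_lit 4) (nat_lit 2) (nat_lit 5) (nat_lit 2) (nat_lit 4) (nat_lit 344) (nat_lit 190) (nat_lit 186)) (XT.lf (nat_lit 0) (nat_lit 55045601972) (nat_lit 76) (nat_lit 92882899832) (nat_lit 76) (nat_lit 92382144187) (nat_lit 1) (nat_lit 4) (nat_lit 2) (nat_lit 5) (nat_lit 2) (nat_lit 4) (nat_lit 345) (nat_lit 190) (nat_lit 185))) (XT.nd (nat_lit 78) (nat_lit 0) (nat_lit 0) (XT.lf (nat_lit 0) (nat_lit 59808213578) (nat_lit 76) (nat_lit 96523629719) (nat_lit 76) (nat_lit 95936565358) (nat_lit 1) (nat_lit 4) (nat_lit 2) (nat_lit 5) (nat_lit 2) (nat_lit 4) (nat_lit 346) (nat_lit 190) (nat_lit 184)) (XT.nd (nat_lit 78) (nat_lit 0) (nat_lit 0) (XT.lf (nat_lit 0) (nat_lit 64751067531) (nat_lit 76) (nat_lit 100371959279) (nat_lit 76) (nat_lit 99702696141) (nat_lit 1) (nat_lit 4) (nat_lit 2) (nat_lit 5) (nat_lit 2) (nat_lit 4) (nat_lit 347) (nat_lit 190) (nat_lit 183)) (XT.lf (nat_lit 0) (nat_lit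 69885932531) (nat_lit 76) (nat_lit 104437051200) (nat_lit 76) (nat_lit 103689503513) (nat_lit 1) (nat_lit 4) (nat_lit 2) (nat_lit 5) (nat_lit 2) (nat_lit 4) (nat_lit 348) (nat_lit 190) (nat_lit 182))))))) (XT.nd (nat_lit 624) (nat_lit 0) (nat_lit 0) (XT.nd (nat_lit 312) (nat_lit 0) (nat_lit 0) (XT.nd (nat_lit 156) (nat_lit 0) (nat_lit 0) (XT.nd (nat_lit 78) (nat_lit 0) (nat_lit 0) (XT.lf (nat_lit 0) (nat_lit 75225034447) (nat_lit 76) (nat_lit 108728584274) (nat_lit 76) (nat_lit 107906479873) (nat_lit 1) (nat_lit 4) (nat_lit 2) (nat_lit 5) (nat_lit 2) (nat_lit 4) (nat_lit 349) (nat_lit 190) (nat_lit 181)) (XT.lf (nat_lit 0) (nat_lit 80781085427) (nat_lit 76) (nat_lit 113256776437) (nat_lit 76) (nat_lit 112363665641) (nat_lit 1) (nat_lit 4) (nat_lit 2) (nat_lit 5) (nat_lit 2) (nat_lit 4) (nat_lit 350) (nat_lit 190) (nat_lit 180))) (XT.nd (nat_lit 78) (nat_lit 0) (nat_lit 0) (XT.lf (nat_lit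 0) (nat_lit 86567314162) (nat_lit 76) (nat_lit 118032409097) (nat_lit 76) (nat_lit 117071673164) (nat_lit 1) (nat_lit 4) (nat_lit 2) (nat_lit 5) (nat_lit 2) (nat_lit 4) (nat_lit 351) (nat_lit 190) (nat_lit 179)) (XT.lf (nat_lit 0) (nat_lit 92597497389) (nat_lit 76) (nat_lit 123066852809) (nat_lit 76) (nat_lit 122041711984) (nat_lit 1) (nat_lit 4) (nat_lit 2) (nat_lit 5) (nat_lit 2) (nat_lit 4) (nat_lit 352) (nat_lit 190) (nat_lit 178)))) (XT.nd (nat_lit 156) (nat_lit 0) (nat_lit 0) (XT.nd (nat_lit 78) (nat_lit 0) (nat_lit 0) (XT.lf (nat_lit 0) (nat_lit 98885992687) (nat_lit 76) (nat_lit 128372094344) (nat_lit 76) (nat_lit 127285615526) (nat_lit 1) (nat_lit 4) (nat_lit 2) (nat_lit 5) (nat_lit 2) (nat_lit 4) (nat_lit 353) (nat_lit 190) (nat_lit 177)) (XT.lf (nat_lit 0) (nat_lit 105447772662) (nat_lit 76) (nat_lit 133960765229) (nat_lit 76) (nat_lit 132815869275) (nat_lit 1) (nat_lit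 4) (nat_lit 2) (nat_lit 5) (nat_lit 2) (nat_lit 4) (nat_lit 354) (nat_lit 190) (nat_lit 176))) (XT.nd (nat_lit 78) (nat_lit 0) (nat_lit 0) (XT.lf (nat_lit 0) (nat_lit 112298460602) (nat_lit 76) (nat_lit 139846171824) (nat_lit 76) (nat_lit 138645640502) (nat_lit 1) (nat_lit 4) (nat_lit 2) (nat_lit 5) (nat_lit 2) (nat_lit 4) (nat_lit 355) (nat_lit 190) (nat_lit 175)) (XT.lf (nat_lit 0) (nat_lit 119454367667) (nat_lit 76) (nat_lit 146042327001) (nat_lit 76) (nat_lit 144788809614) (nat_lit 1) (nat_lit 4) (nat_lit 2) (nat_lit 5) (nat_lit 2) (nat_lit 4) (nat_lit 356) (nat_lit 190) (nat_lit 174))))) (XT.nd (nat_lit 312) (nat_lit 0) (nat_lit 0) (XT.nd (nat_lit 156) (nat_lit 0) (nat_lit 0) (XT.nd (nat_lit 78) (nat_lit 0) (nat_lit 0) (XT.lf (nat_lit 0) (nat_lit 126932531732) (nat_lit 76) (nat_lit 152563983511) (nat_lit 76) (nat_lit 151260003206) (nat_lit 1) (nat_lit 4) (nat_lit 2) (nat_lit 5)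 (nat_lit 2) (nat_lit 4) (nat_lit 357) (nat_lit 190) (nat_lit 173)) (XT.lf (nat_lit 0) (nat_lit 134750757949) (nat_lit 76) (nat_lit 159426669108) (nat_lit 76) (nat_lit 158074628879) (nat_lit 1) (nat_lit 4) (nat_lit 2) (nat_lit 5) (nat_lit 2) (nat_lit 4) (nat_lit 358) (nat_lit 190) (nat_lit 172))) (XT.nd (nat_lit 78) (nat_lit 0) (nat_lit 0) (XT.lf (nat_lit 0) (nat_lit 142927661143) (nat_lit 76) (nat_lit 166646723518) (nat_lit 76) (nat_lit 165248911935) (nat_lit 1) (nat_lit 4) (nat_lit 2) (nat_lit 5) (nat_lit 2) (nat_lit 4) (nat_lit 359) (nat_lit 190) (nat_lit 171)) (XT.lf (nat_lit 0) (nat_lit 151482710130) (nat_lit 76) (nat_lit 174241337348) (nat_lit 76) (nat_lit 172799933998) (nat_lit 1) (nat_lit 4) (nat_lit 2) (nat_lit 5) (nat_lit 2) (nat_lit 4) (nat_lit 360) (nat_lit 190) (nat_lit 170)))) (XT.nd (nat_lit 156) (nat_lit 0) (nat_lit 0) (XT.nd (nat_lit 78) (nat_lit 0) (nat_lit 0) (XT.lf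 (nat_lit 0) (nat_lit 160436274075) (nat_lit 76) (nat_lit 182228593012) (nat_lit 76) (nat_lit 180745673694) (nat_lit 1) (nat_lit 4) (nat_lit 2) (nat_lit 5) (nat_lit 2) (nat_lit 4) (nat_lit 361) (nat_lit 190) (nat_lit 169)) (XT.lf (nat_lit 0) (nat_lit 169809670987) (nat_lit 76) (nat_lit 190627507784) (nat_lit 76) (nat_lit 189105049449) (nat_lit 1) (nat_lit 4) (nat_lit 2) (nat_lit 5) (nat_lit 2) (nat_lit 4) (nat_lit 362) (nat_lit 190) (nat_lit 168))) (XT.nd (nat_lit 78) (nat_lit 0) (nat_lit 0) (XT.lf (nat_lit 0) (nat_lit 179625218479) (nat_lit 76) (nat_lit 199458079082) (nat_lit 76) (nat_lit 197897964540) (nat_lit 1) (nat_lit 4) (nat_lit 2) (nat_lit 5) (nat_lit 2) (nat_lit 4) (nat_lit 363) (nat_lit 190) (nat_lit 167)) (XT.nd (nat_lit 35490) (nat_lit 0) (nat_lit 0) (XT.lf (nat_lit 0) (nat_lit 189906286900) (nat_lit 76) (nat_lit 208741332074) (nat_lit 76) (nat_lit 207145354478) (nat_lit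 1) (nat_lit 4) (nat_lit 2) (nat_lit 5) (nat_lit 2) (nat_lit 4) (nat_lit 364) (nat_lit 190) (nat_lit 166)) (XT.lf (nat_lit 0) (nat_lit 12944390380) (nat_lit 76) (nat_lit 36318930655) (nat_lit 76) (nat_lit 36318930655) (nat_lit 1) (nat_lit 4) (nat_lit 2) (nat_lit 5) (nat_lit 2) (nat_lit 4) (nat_lit 338) (nat_lit 191) (nat_lit 191))))))))
noncomputable def xc5 : XT := (XT.nd (nat_lit 1326) (nat_lit 0) (nat_lit 0) (XT.nd (nat_lit 624) (nat_lit 0) (nat_lit 0) (XT.nd (nat_lit 312) (nat_lit 0) (nat_lit 0) (XT.nd (nat_lit 156) (nat_lit 0) (nat_lit 0) (XT.nd (nat_lit 78) (nat_lit 0) (nat_lit 0) (XT.lf (nat_lit 0) (nat_lit 29646723487) (nat_lit 76) (nat_lit 75060437419) (nat_lit 76) (nat_lit 74944775485) (nat_lit 1) (nat_lit 4) (nat_lit 2) (nat_lit 5) (nat_lit 2) (nat_lit 4) (nat_lit 339) (nat_lit 191) (nat_lit 190)) (XT.lf (nat_lit 0) (nat_lit 33514987581) (nat_lit 76) (nat_lit 77638399437)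 (nat_lit 76) (nat_lit 77412583280) (nat_lit 1) (nat_lit 4) (nat_lit 2) (nat_lit 5) (nat_lit 2) (nat_lit 4) (nat_lit 340) (nat_lit 191) (nat_lit 189))) (XT.nd (nat_lit 78) (nat_lit 0) (nat_lit 0) (XT.lf (nat_lit 0) (nat_lit 37502783195) (nat_lit 76) (nat_lit 80377885368) (nat_lit 76) (nat_lit 80047160427) (nat_lit 1) (nat_lit 4) (nat_lit 2) (nat_lit 5) (nat_lit 2) (nat_lit 4) (nat_lit 341) (nat_lit 191) (nat_lit 188)) (XT.lf (nat_lit 0) (nat_lit 41619605081) (nat_lit 76) (nat_lit 83285417798) (nat_lit 76) (nat_lit 82854779730) (nat_lit 1) (nat_lit 4) (nat_lit 2) (nat_lit 5) (nat_lit 2) (nat_lit 4) (nat_lit 342) (nat_lit 191) (nat_lit 187)))) (XT.nd (nat_lit 156) (nat_lit 0) (nat_lit 0) (XT.nd (nat_lit 78) (nat_lit 0) (nat_lit 0) (XT.lf (nat_lit 0) (nat_lit 45875255195) (nat_lit 76) (nat_lit 86367919424) (nat_lit 76) (nat_lit 85842125997) (nat_lit 1) (nat_lit 4) (nat_lit 2) (nat_lit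 5) (nat_lit 2) (nat_lit 4) (nat_lit 343) (nat_lit 191) (nat_lit 186)) (XT.lf (nat_lit 0) (nat_lit 50279866037) (nat_lit 76) (nat_lit 89632729536) (nat_lit 76) (nat_lit 89016311957) (nat_lit 1) (nat_lit 4) (nat_lit 2) (nat_lit 5) (nat_lit 2) (nat_lit 4) (nat_lit 344) (nat_lit 191) (nat_lit 185))) (XT.nd (nat_lit 78) (nat_lit 0) (nat_lit 0) (XT.lf (nat_lit 0) (nat_lit 54843924777) (nat_lit 76) (nat_lit 93087621490) (nat_lit 76) (nat_lit 92384895196) (nat_lit 1) (nat_lit 4) (nat_lit 2) (nat_lit 5) (nat_lit 2) (nat_lit 4) (nat_lit 345) (nat_lit 191) (nat_lit 184)) (XT.lf (nat_lit 0) (nat_lit 59578298220) (nat_lit 76) (nat_lit 96740821220) (nat_lit 76) (nat_lit 95955896149) (nat_lit 1) (nat_lit 4) (nat_lit 2) (nat_lit 5) (nat_lit 2) (nat_lit 4) (nat_lit 346) (nat_lit 191) (nat_lit 183))))) (XT.nd (nat_lit 312) (nat_lit 0) (nat_lit 0) (XT.nd (nat_lit 156) (nat_lit 0) (nat_lit 0) (XT.nd (nat_lit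 78) (nat_lit 0) (nat_lit 0) (XT.lf (nat_lit 0) (nat_lit 64494258685) (nat_lit 76) (nat_lit 100601026821) (nat_lit 76) (nat_lit 99737817200) (nat_lit 1) (nat_lit 4) (nat_lit 2) (nat_lit 5) (nat_lit 2) (nat_lit 4) (nat_lit 347) (nat_lit 191) (nat_lit 182)) (XT.lf (nat_lit 0) (nat_lit 69603510839) (nat_lit 76) (nat_lit 104677429258) (nat_lit 76) (nat_lit 103739662923) (nat_lit 1) (nat_lit 4) (nat_lit 2) (nat_lit 5) (nat_lit 2) (nat_lit 4) (nat_lit 348) (nat_lit 191) (nat_lit 181))) (XT.nd (nat_lit 78) (nat_lit 0) (nat_lit 0) (XT.lf (nat_lit 0) (nat_lit 74918219569) (nat_lit 76) (nat_lit 108979734251) (nat_lit 76) (nat_lit 107970961522) (nat_lit 1) (nat_lit 4) (nat_lit 2) (nat_lit 5) (nat_lit 2) (nat_lit 4) (nat_lit 349) (nat_lit 191) (nat_lit 180)) (XT.lf (nat_lit 0) (nat_lit 80451038942) (nat_lit 76) (nat_lit 113518185384) (nat_lit 76) (nat_lit 112441787517) (nat_lit 1) (nat_lit 4) (nat_lit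 2) (nat_lit 5) (nat_lit 2) (nat_lit 4) (nat_lit 350) (nat_lit 191) (nat_lit 179)))) (XT.nd (nat_lit 156) (nat_lit 0) (nat_lit 0) (XT.nd (nat_lit 78) (nat_lit 0) (nat_lit 0) (XT.lf (nat_lit 0) (nat_lit 86215142338) (nat_lit 76) (nat_lit 118303588493) (nat_lit 76) (nat_lit 117162785733) (nat_lit 1) (nat_lit 4) (nat_lit 2) (nat_lit 5) (nat_lit 2) (nat_lit 4) (nat_lit 351) (nat_lit 191) (nat_lit 178)) (XT.lf (nat_lit 0) (nat_lit 92224253814) (nat_lit 76) (nat_lit 123347337394) (nat_lit 76) (nat_lit 122145196641) (nat_lit 1) (nat_lit 4) (nat_lit 2) (nat_lit 5) (nat_lit 2) (nat_lit 4) (nat_lit 352) (nat_lit 191) (nat_lit 177))) (XT.nd (nat_lit 78) (nat_lit 0) (nat_lit 0) (XT.lf (nat_lit 0) (nat_lit 98492680776) (nat_lit 76) (nat_lit 128661441013) (nat_lit 76) (nat_lit 127400883125) (nat_lit 1) (nat_lit 4) (nat_lit 2) (nat_lit 5) (nat_lit 2) (nat_lit 4) (nat_lit 353) (nat_lit 191) (nat_lit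 176)) (XT.nd (nat_lit 78) (nat_lit 0) (nat_lit 0) (XT.lf (nat_lit 0) (nat_lit 105035348052) (nat_lit 76) (nat_lit 134258551979) (nat_lit 76) (nat_lit 132942358723) (nat_lit 1) (nat_lit 4) (nat_lit 2) (nat_lit 5) (nat_lit 2) (nat_lit 4) (nat_lit 354) (nat_lit 191) (nat_lit 175)) (XT.lf (nat_lit 0) (nat_lit 111867833420) (nat_lit 76) (nat_lit 140151996746) (nat_lit 76) (nat_lit 138782817425) (nat_lit 1) (nat_lit 4) (nat_lit 2) (nat_lit 5) (nat_lit 2) (nat_lit 4) (nat_lit 355) (nat_lit 191) (nat_lit 174))))))) (XT.nd (nat_lit 35958) (nat_lit 0) (nat_lit 0) (XT.nd (nat_lit 312) (nat_lit 0) (nat_lit 0) (XT.nd (nat_lit 156) (nat_lit 0) (nat_lit 0) (XT.nd (nat_lit 78) (nat_lit 0) (nat_lit 0) (XT.lf (nat_lit 0) (nat_lit 119006404703) (nat_lit 76) (nat_lit 146355807325) (nat_lit 76) (nat_lit 144936165086) (nat_lit 1) (nat_lit 4) (nat_lit 2) (nat_lit 5) (nat_lit 2) (nat_lit 4) (nat_lit 356)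 (nat_lit 191) (nat_lit 173)) (XT.lf (nat_lit 0) (nat_lit 126468058499) (nat_lit 76) (nat_lit 152884754694) (nat_lit 76) (nat_lit 151417052532) (nat_lit 1) (nat_lit 4) (nat_lit 2) (nat_lit 5) (nat_lit 2) (nat_lit 4) (nat_lit 357) (nat_lit 191) (nat_lit 172))) (XT.nd (nat_lit 78) (nat_lit 0) (nat_lit 0) (XT.lf (nat_lit 0) (nat_lit 134270560650) (nat_lit 76) (nat_lit 159754383966) (nat_lit 76) (nat_lit 158240910449) (nat_lit 1) (nat_lit 4) (nat_lit 2) (nat_lit 5) (nat_lit 2) (nat_lit 4) (nat_lit 358) (nat_lit 191) (nat_lit 171)) (XT.lf (nat_lit 0) (nat_lit 142432488544) (nat_lit 76) (nat_lit 166981051400) (nat_lit 76) (nat_lit 165423986116) (nat_lit 1) (nat_lit 4) (nat_lit 2) (nat_lit 5) (nat_lit 2) (nat_lit 4) (nat_lit 359) (nat_lit 191) (nat_lit 170)))) (XT.nd (nat_lit 156) (nat_lit 0) (nat_lit 0) (XT.nd (nat_lit 78) (nat_lit 0) (nat_lit 0) (XT.lf (nat_lit 0) (nat_lit 150973275340)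 (nat_lit 76) (nat_lit 174581963348) (nat_lit 76) (nat_lit 172983382096) (nat_lit 1) (nat_lit 4) (nat_lit 2) (nat_lit 5) (nat_lit 2) (nat_lit 4) (nat_lit 360) (nat_lit 191) (nat_lit 169)) (XT.lf (nat_lit 0) (nat_lit 159913256246) (nat_lit 76) (nat_lit 182575217219) (nat_lit 76) (nat_lit 180937096951) (nat_lit 1) (nat_lit 4) (nat_lit 2) (nat_lit 5) (nat_lit 2) (nat_lit 4) (nat_lit 361) (nat_lit 191) (nat_lit 168))) (XT.nd (nat_lit 78) (nat_lit 0) (nat_lit 0) (XT.lf (nat_lit 0) (nat_lit 169273716931) (nat_lit 76) (nat_lit 190979844571) (nat_lit 76) (nat_lit 189304068095) (nat_lit 1) (nat_lit 4) (nat_lit 2) (nat_lit 5) (nat_lit 2) (nat_lit 4) (nat_lit 362) (nat_lit 191) (nat_lit 167)) (XT.nd (nat_lit 78) (nat_lit 0) (nat_lit 0) (XT.lf (nat_lit 0) (nat_lit 179076944205) (nat_lit 76) (nat_lit 199815856420) (nat_lit 76) (nat_lit 198104216890) (nat_lit 1) (nat_lit 4) (nat_lit 2) (nat_lit 5)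 (nat_lit 2) (nat_lit 4) (nat_lit 363) (nat_lit 191) (nat_lit 166)) (XT.lf (nat_lit 0) (nat_lit 189346279087) (nat_lit 76) (nat_lit 209104290889) (nat_lit 76) (nat_lit 207358496070) (nat_lit 1) (nat_lit 4) (nat_lit 2) (nat_lit 5) (nat_lit 2) (nat_lit 4) (nat_lit 364) (nat_lit 191) (nat_lit 165)))))) (XT.nd (nat_lit 312) (nat_lit 0) (nat_lit 0) (XT.nd (nat_lit 156) (nat_lit 0) (nat_lit 0) (XT.nd (nat_lit 78) (nat_lit 0) (nat_lit 0) (XT.lf (nat_lit 0) (nat_lit 9355015735) (nat_lit 76) (nat_lit 34169586147) (nat_lit 76) (nat_lit 34169586147) (nat_lit 1) (nat_lit 4) (nat_lit 2) (nat_lit 5) (nat_lit 2) (nat_lit 4) (nat_lit 336) (nat_lit 192) (nat_lit 192)) (XT.lf (nat_lit 0) (nat_lit 22232211917) (nat_lit 76) (nat_lit 70486348105) (nat_lit 76) (nat_lit 70364903074) (nat_lit 1) (nat_lit 4) (nat_lit 2) (nat_lit 5) (nat_lit 2) (nat_lit 4) (nat_lit 337) (nat_lit 192) (nat_lit 191))) (XT.nd (nat_lit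 78) (nat_lit 0) (nat_lit 0) (XT.lf (nat_lit 0) (nat_lit 25849046829) (nat_lit 76) (nat_lit 72776852663) (nat_lit 76) (nat_lit 72539745699) (nat_lit 1) (nat_lit 4) (nat_lit 2) (nat_lit 5) (nat_lit 2) (nat_lit 4) (nat_lit 338) (nat_lit 192) (nat_lit 190)) (XT.lf (nat_lit 0) (nat_lit 29569147718) (nat_lit 76) (nat_lit 75216139554) (nat_lit 76) (nat_lit 74868878366) (nat_lit 1) (nat_lit 4) (nat_lit 2) (nat_lit 5) (nat_lit 2) (nat_lit 4) (nat_lit 339) (nat_lit 192) (nat_lit 189)))) (XT.nd (nat_lit 156) (nat_lit 0) (nat_lit 0) (XT.nd (nat_lit 78) (nat_lit 0) (nat_lit 0) (XT.lf (nat_lit 0) (nat_lit 33401371966) (nat_lit 76) (nat_lit 77810016602) (nat_lit 76) (nat_lit 77357846631) (nat_lit 1) (nat_lit 4) (nat_lit 2) (nat_lit 5) (nat_lit 2) (nat_lit 4) (nat_lit 340) (nat_lit 192) (nat_lit 188)) (XT.lf (nat_lit 0) (nat_lit 37354843917) (nat_lit 76) (nat_lit 80564659705) (nat_lit 76) (nat_lit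 80012576607) (nat_lit 1) (nat_lit 4) (nat_lit 2) (nat_lit 5) (nat_lit 2) (nat_lit 4) (nat_lit 341) (nat_lit 192) (nat_lit 187))) (XT.nd (nat_lit 78) (nat_lit 0) (nat_lit 0) (XT.lf (nat_lit 0) (nat_lit 41438976600) (nat_lit 76) (nat_lit 83486627537) (nat_lit 76) (nat_lit 82839389080) (nat_lit 1) (nat_lit 4) (nat_lit 2) (nat_lit 5) (nat_lit 2) (nat_lit 4) (nat_lit 342) (nat_lit 192) (nat_lit 186)) (XT.nd (nat_lit 78) (nat_lit 0) (nat_lit 0) (XT.lf (nat_lit 0) (nat_lit 45663494139) (nat_lit 76) (nat_lit 86582877166) (nat_lit 76) (nat_lit 85845014556) (nat_lit 1) (nat_lit 4) (nat_lit 2) (nat_lit 5) (nat_lit 2) (nat_lit 4) (nat_lit 343) (nat_lit 192) (nat_lit 185)) (XT.lf (nat_lit 0) (nat_lit 50038454911) (nat_lit 76) (nat_lit 89860780612) (nat_lit 76) (nat_lit 89036609287) (nat_lit 1) (nat_lit 4) (nat_lit 2) (nat_lit 5) (nat_lit 2) (nat_lit 4) (nat_lit 344) (nat_lit 192) (nat_lit 184))))))))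
noncomputable def xc6 : XT := (XT.nd (nat_lit 1326) (nat_lit 0) (nat_lit 0) (XT.nd (nat_lit 624) (nat_lit 0) (nat_lit 0) (XT.nd (nat_lit 312) (nat_lit 0) (nat_lit 0) (XT.nd (nat_lit 156) (nat_lit 0) (nat_lit 0) (XT.nd (nat_lit 78) (nat_lit 0) (nat_lit 0) (XT.lf (nat_lit 0) (nat_lit 54574275488) (nat_lit 76) (nat_lit 93328142410) (nat_lit 76) (nat_lit 92421772307) (nat_lit 1) (nat_lit 4) (nat_lit 2) (nat_lit 5) (nat_lit 2) (nat_lit 4) (nat_lit 345) (nat_lit 192) (nat_lit 183)) (XT.lf (nat_lit 0) (nat_lit 59281755443) (nat_lit 76) (nat_lit 96993218181) (nat_lit 76) (nat_lit 96008563529) (nat_lit 1) (nat_lit 4) (nat_lit 2) (nat_lit 5) (nat_lit 2) (nat_lit 4) (nat_lit 346) (nat_lit 192) (nat_lit 182))) (XT.nd (nat_lit 78) (nat_lit 0) (nat_lit 0) (XT.lf (nat_lit 0) (nat_lit 64172103062) (nat_lit 76) (nat_lit 100864734297) (nat_lit 76) (nat_lit 99805522931) (nat_lit 1) (nat_lit 4) (nat_lit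 2) (nat_lit 5) (nat_lit 2) (nat_lit 4) (nat_lit 347) (nat_lit 192) (nat_lit 181)) (XT.lf (nat_lit 0) (nat_lit 69256962030) (nat_lit 76) (nat_lit 104951908653) (nat_lit 76) (nat_lit 103821690893) (nat_lit 1) (nat_lit 4) (nat_lit 2) (nat_lit 5) (nat_lit 2) (nat_lit 4) (nat_lit 348) (nat_lit 192) (nat_lit 180)))) (XT.nd (nat_lit 156) (nat_lit 0) (nat_lit 0) (XT.nd (nat_lit 78) (nat_lit 0) (nat_lit 0) (XT.lf (nat_lit 0) (nat_lit 74548439153) (nat_lit 76) (nat_lit 109264472617) (nat_lit 76) (nat_lit 108066629719) (nat_lit 1) (nat_lit 4) (nat_lit 2) (nat_lit 5) (nat_lit 2) (nat_lit 4) (nat_lit 349) (nat_lit 192) (nat_lit 179)) (XT.lf (nat_lit 0) (nat_lit 80059133187) (nat_lit 76) (nat_lit 113812694198) (nat_lit 76) (nat_lit 112550446408) (nat_lit 1) (nat_lit 4) (nat_lit 2) (nat_lit 5) (nat_lit 2) (nat_lit 4) (nat_lit 350) (nat_lit 192) (nat_lit 178))) (XT.nd (nat_lit 78) (nat_lit 0) (nat_lit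 0) (XT.lf (nat_lit 0) (nat_lit 85802164832) (nat_lit 76) (nat_lit 118607402495) (nat_lit 76) (nat_lit 117283816712) (nat_lit 1) (nat_lit 4) (nat_lit 2) (nat_lit 5) (nat_lit 2) (nat_lit 4) (nat_lit 351) (nat_lit 192) (nat_lit 177)) (XT.lf (nat_lit 0) (nat_lit 91791207972) (nat_lit 76) (nat_lit 123660013481) (nat_lit 76) (nat_lit 122278010562) (nat_lit 1) (nat_lit 4) (nat_lit 2) (nat_lit 5) (nat_lit 2) (nat_lit 4) (nat_lit 352) (nat_lit 192) (nat_lit 176))))) (XT.nd (nat_lit 312) (nat_lit 0) (nat_lit 0) (XT.nd (nat_lit 156) (nat_lit 0) (nat_lit 0) (XT.nd (nat_lit 78) (nat_lit 0) (nat_lit 0) (XT.lf (nat_lit 0) (nat_lit 98040522235) (nat_lit 76) (nat_lit 128982557181) (nat_lit 76) (nat_lit 127544918894) (nat_lit 1) (nat_lit 4) (nat_lit 2) (nat_lit 5) (nat_lit 2) (nat_lit 4) (nat_lit 353) (nat_lit 192) (nat_lit 175)) (XT.lf (nat_lit 0) (nat_lit 104564986939) (nat_lit 76) (nat_lit 134587706319)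 (nat_lit 76) (nat_lit 133097081968) (nat_lit 1) (nat_lit 4) (nat_lit 2) (nat_lit 5) (nat_lit 2) (nat_lit 4) (nat_lit 354) (nat_lit 192) (nat_lit 174))) (XT.nd (nat_lit 78) (nat_lit 0) (nat_lit 0) (XT.lf (nat_lit 0) (nat_lit 111380136525) (nat_lit 76) (nat_lit 140488806488) (nat_lit 76) (nat_lit 138947719218) (nat_lit 1) (nat_lit 4) (nat_lit 2) (nat_lit 5) (nat_lit 2) (nat_lit 4) (nat_lit 355) (nat_lit 192) (nat_lit 173)) (XT.lf (nat_lit 0) (nat_lit 118502197539) (nat_lit 76) (nat_lit 146699907926) (nat_lit 76) (nat_lit 145110760733) (nat_lit 1) (nat_lit 4) (nat_lit 2) (nat_lit 5) (nat_lit 2) (nat_lit 4) (nat_lit 356) (nat_lit 192) (nat_lit 172)))) (XT.nd (nat_lit 156) (nat_lit 0) (nat_lit 0) (XT.nd (nat_lit 78) (nat_lit 0) (nat_lit 0) (XT.lf (nat_lit 0) (nat_lit 125948127270) (nat_lit 76) (nat_lit 153235798970) (nat_lit 76) (nat_lit 151600880423) (nat_lit 1) (nat_lit 4) (nat_lit 2)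 (nat_lit 5) (nat_lit 2) (nat_lit 4) (nat_lit 357) (nat_lit 192) (nat_lit 171)) (XT.lf (nat_lit 0) (nat_lit 133735654121) (nat_lit 76) (nat_lit 160112041266) (nat_lit 76) (nat_lit 158433530952) (nat_lit 1) (nat_lit 4) (nat_lit 2) (nat_lit 5) (nat_lit 2) (nat_lit 4) (nat_lit 358) (nat_lit 192) (nat_lit 170))) (XT.nd (nat_lit 78) (nat_lit 0) (nat_lit 0) (XT.lf (nat_lit 0) (nat_lit 141883319823) (nat_lit 76) (nat_lit 167345006818) (nat_lit 76) (nat_lit 165624980536) (nat_lit 1) (nat_lit 4) (nat_lit 2) (nat_lit 5) (nat_lit 2) (nat_lit 4) (nat_lit 359) (nat_lit 192) (nat_lit 169)) (XT.nd (nat_lit 78) (nat_lit 0) (nat_lit 0) (XT.lf (nat_lit 0) (nat_lit 150410523580) (nat_lit 76) (nat_lit 174951916974) (nat_lit 76) (nat_lit 173192351674) (nat_lit 1) (nat_lit 4) (nat_lit 2) (nat_lit 5) (nat_lit 2) (nat_lit 4) (nat_lit 360) (nat_lit 192) (nat_lit 168)) (XT.lf (nat_lit 0) (nat_lit 159337568259)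 (nat_lit 76) (nat_lit 182950883424) (nat_lit 76) (nat_lit 181153661918) (nat_lit 1) (nat_lit 4) (nat_lit 2) (nat_lit 5) (nat_lit 2) (nat_lit 4) (nat_lit 361) (nat_lit 192) (nat_lit 167))))))) (XT.nd (nat_lit 35724) (nat_lit 0) (nat_lit 0) (XT.nd (nat_lit 35412) (nat_lit 0) (nat_lit 0) (XT.nd (nat_lit 156) (nat_lit 0) (nat_lit 0) (XT.nd (nat_lit 78) (nat_lit 0) (nat_lit 0) (XT.lf (nat_lit 0) (nat_lit 168685708727) (nat_lit 76) (nat_lit 191360951327) (nat_lit 76) (nat_lit 189527866766) (nat_lit 1) (nat_lit 4) (nat_lit 2) (nat_lit 5) (nat_lit 2) (nat_lit 4) (nat_lit 362) (nat_lit 192) (nat_lit 166)) (XT.lf (nat_lit 0) (nat_lit 178477202461) (nat_lit 76) (nat_lit 200202144653) (nat_lit 76) (nat_lit 198334904803) (nat_lit 1) (nat_lit 4) (nat_lit 2) (nat_lit 5) (nat_lit 2) (nat_lit 4) (nat_lit 363) (nat_lit 192) (nat_lit 165))) (XT.nd (nat_lit 35178) (nat_lit 0) (nat_lit 0) (XT.lf (nat_lit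 0) (nat_lit 188735362543) (nat_lit 76) (nat_lit 209495513863) (nat_lit 76) (nat_lit 207595745166) (nat_lit 1) (nat_lit 4) (nat_lit 2) (nat_lit 5) (nat_lit 2) (nat_lit 4) (nat_lit 364) (nat_lit 192) (nat_lit 164)) (XT.lf (nat_lit 0) (nat_lit 5980050727) (nat_lit 76) (nat_lit 32281429590) (nat_lit 76) (nat_lit 32281429590) (nat_lit 1) (nat_lit 4) (nat_lit 2) (nat_lit 5) (nat_lit 2) (nat_lit 4) (nat_lit 334) (nat_lit 193) (nat_lit 193)))) (XT.nd (nat_lit 156) (nat_lit 0) (nat_lit 0) (XT.nd (nat_lit 78) (nat_lit 0) (nat_lit 0) (XT.lf (nat_lit 0) (nat_lit 15274119345) (nat_lit 76) (nat_lit 66457730194) (nat_lit 76) (nat_lit 66330212912) (nat_lit 1) (nat_lit 4) (nat_lit 2) (nat_lit 5) (nat_lit 2) (nat_lit 4) (nat_lit 335) (nat_lit 193) (nat_lit 192)) (XT.lf (nat_lit 0) (nat_lit 18668310844) (nat_lit 76) (nat_lit 68485113215) (nat_lit 76) (nat_lit 68236150902) (nat_lit 1) (nat_lit 4) (nat_lit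 2) (nat_lit 5) (nat_lit 2) (nat_lit 4) (nat_lit 336) (nat_lit 193) (nat_lit 191))) (XT.nd (nat_lit 78) (nat_lit 0) (nat_lit 0) (XT.lf (nat_lit 0) (nat_lit 22150757360) (nat_lit 76) (nat_lit 70649835346) (nat_lit 76) (nat_lit 70285211099) (nat_lit 1) (nat_lit 4) (nat_lit 2) (nat_lit 5) (nat_lit 2) (nat_lit 4) (nat_lit 337) (nat_lit 193) (nat_lit 190)) (XT.lf (nat_lit 0) (nat_lit 25729750433) (nat_lit 76) (nat_lit 72957050687) (nat_lit 76) (nat_lit 72482272217) (nat_lit 1) (nat_lit 4) (nat_lit 2) (nat_lit 5) (nat_lit 2) (nat_lit 4) (nat_lit 338) (nat_lit 193) (nat_lit 189))))) (XT.nd (nat_lit 312) (nat_lit 0) (nat_lit 0) (XT.nd (nat_lit 156) (nat_lit 0) (nat_lit 0) (XT.nd (nat_lit 78) (nat_lit 0) (nat_lit 0) (XT.lf (nat_lit 0) (nat_lit 29413811475) (nat_lit 76) (nat_lit 75412252608) (nat_lit 76) (nat_lit 74832565355) (nat_lit 1) (nat_lit 4) (nat_lit 2) (nat_lit 5) (nat_lit 2) (nat_lit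 4) (nat_lit 339) (nat_lit 193) (nat_lit 188)) (XT.lf (nat_lit 0) (nat_lit 33211712060) (nat_lit 76) (nat_lit 78021286828) (nat_lit 76) (nat_lit 77341686447) (nat_lit 1) (nat_lit 4) (nat_lit 2) (nat_lit 5) (nat_lit 2) (nat_lit 4) (nat_lit 340) (nat_lit 193) (nat_lit 187))) (XT.nd (nat_lit 78) (nat_lit 0) (nat_lit 0) (XT.lf (nat_lit 0) (nat_lit 37132494809) (nat_lit 76) (nat_lit 80790365333) (nat_lit 76) (nat_lit 80015609593) (nat_lit 1) (nat_lit 4) (nat_lit 2) (nat_lit 5) (nat_lit 2) (nat_lit 4) (nat_lit 341) (nat_lit 193) (nat_lit 186)) (XT.lf (nat_lit 0) (nat_lit 41185494917) (nat_lit 76) (nat_lit 83726081168) (nat_lit 76) (nat_lit 82860701276) (nat_lit 1) (nat_lit 4) (nat_lit 2) (nat_lit 5) (nat_lit 2) (nat_lit 4) (nat_lit 342) (nat_lit 193) (nat_lit 185)))) (XT.nd (nat_lit 156) (nat_lit 0) (nat_lit 0) (XT.nd (nat_lit 78) (nat_lit 0) (nat_lit 0) (XT.lf (nat_lit 0) (nat_lit 45380362386)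 (nat_lit 76) (nat_lit 86835424131) (nat_lit 76) (nat_lit 85883735524) (nat_lit 1) (nat_lit 4) (nat_lit 2) (nat_lit 5) (nat_lit 2) (nat_lit 4) (nat_lit 343) (nat_lit 193) (nat_lit 184)) (XT.lf (nat_lit 0) (nat_lit 49727084995) (nat_lit 76) (nat_lit 90125797421) (nat_lit 76) (nat_lit 89091910036) (nat_lit 1) (nat_lit 4) (nat_lit 2) (nat_lit 5) (nat_lit 2) (nat_lit 4) (nat_lit 344) (nat_lit 193) (nat_lit 183))) (XT.nd (nat_lit 78) (nat_lit 0) (nat_lit 0) (XT.lf (nat_lit 0) (nat_lit 54236012084) (nat_lit 76) (nat_lit 93605035259) (nat_lit 76) (nat_lit 92492863325) (nat_lit 1) (nat_lit 4) (nat_lit 2) (nat_lit 5) (nat_lit 2) (nat_lit 4) (nat_lit 345) (nat_lit 193) (nat_lit 182)) (XT.nd (nat_lit 78) (nat_lit 0) (nat_lit 0) (XT.lf (nat_lit 0) (nat_lit 58917879194) (nat_lit 76) (nat_lit 97281421545) (nat_lit 76) (nat_lit 96094692897) (nat_lit 1) (nat_lit 4) (nat_lit 2) (nat_lit 5) (nat_lit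 2) (nat_lit 4) (nat_lit 346) (nat_lit 193) (nat_lit 181)) (XT.lf (nat_lit 0) (nat_lit 63783833626) (nat_lit 76) (nat_lit 101163709581) (nat_lit 76) (nat_lit 99905974538) (nat_lit 1) (nat_lit 4) (nat_lit 2) (nat_lit 5) (nat_lit 2) (nat_lit 4) (nat_lit 347) (nat_lit 193) (nat_lit 180))))))))
noncomputable def xc7 : XT := (XT.nd (nat_lit 36270) (nat_lit 0) (nat_lit 0) (XT.nd (nat_lit 624) (nat_lit 0) (nat_lit 0) (XT.nd (nat_lit 312) (nat_lit 0) (nat_lit 0) (XT.nd (nat_lit 156) (nat_lit 0) (nat_lit 0) (XT.nd (nat_lit 78) (nat_lit 0) (nat_lit 0) (XT.lf (nat_lit 0) (nat_lit 68845460988) (nat_lit 76) (nat_lit 105261142907) (nat_lit 76) (nat_lit 103935782728) (nat_lit 1) (nat_lit 4) (nat_lit 2) (nat_lit 5) (nat_lit 2) (nat_lit 4) (nat_lit 348) (nat_lit 193) (nat_lit 179)) (XT.lf (nat_lit 0) (nat_lit 74114812772) (nat_lit 76) (nat_lit 109583477320) (nat_lit 76) (nat_lit 108193712247) (nat_lit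 1) (nat_lit 4) (nat_lit 2) (nat_lit 5) (nat_lit 2) (nat_lit 4) (nat_lit 349) (nat_lit 193) (nat_lit 178))) (XT.nd (nat_lit 78) (nat_lit 0) (nat_lit 0) (XT.lf (nat_lit 0) (nat_lit 79604435054) (nat_lit 76) (nat_lit 114141004090) (nat_lit 76) (nat_lit 112689901024) (nat_lit 1) (nat_lit 4) (nat_lit 2) (nat_lit 5) (nat_lit 2) (nat_lit 4) (nat_lit 350) (nat_lit 193) (nat_lit 177)) (XT.lf (nat_lit 0) (nat_lit 85327398364) (nat_lit 76) (nat_lit 118944574472) (nat_lit 76) (nat_lit 117435054270) (nat_lit 1) (nat_lit 4) (nat_lit 2) (nat_lit 5) (nat_lit 2) (nat_lit 4) (nat_lit 351) (nat_lit 193) (nat_lit 176)))) (XT.nd (nat_lit 156) (nat_lit 0) (nat_lit 0) (XT.nd (nat_lit 78) (nat_lit 0) (nat_lit 0) (XT.lf (nat_lit 0) (nat_lit 91297328804) (nat_lit 76) (nat_lit 124005625538) (nat_lit 76) (nat_lit 122440469969) (nat_lit 1) (nat_lit 4) (nat_lit 2) (nat_lit 5) (nat_lit 2) (nat_lit 4) (nat_lit 352)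 (nat_lit 193) (nat_lit 175)) (XT.lf (nat_lit 0) (nat_lit 97528440495) (nat_lit 76) (nat_lit 129336207410) (nat_lit 76) (nat_lit 127718065777) (nat_lit 1) (nat_lit 4) (nat_lit 2) (nat_lit 5) (nat_lit 2) (nat_lit 4) (nat_lit 353) (nat_lit 193) (nat_lit 174))) (XT.nd (nat_lit 78) (nat_lit 0) (nat_lit 0) (XT.lf (nat_lit 0) (nat_lit 104035569417) (nat_lit 76) (nat_lit 134949011950) (nat_lit 76) (nat_lit 133280407398) (nat_lit 1) (nat_lit 4) (nat_lit 2) (nat_lit 5) (nat_lit 2) (nat_lit 4) (nat_lit 354) (nat_lit 193) (nat_lit 173)) (XT.lf (nat_lit 0) (nat_lit 110834208734) (nat_lit 76) (nat_lit 140857402978) (nat_lit 76) (nat_lit 139140738503) (nat_lit 1) (nat_lit 4) (nat_lit 2) (nat_lit 5) (nat_lit 2) (nat_lit 4) (nat_lit 355) (nat_lit 193) (nat_lit 172))))) (XT.nd (nat_lit 312) (nat_lit 0) (nat_lit 0) (XT.nd (nat_lit 156) (nat_lit 0) (nat_lit 0) (XT.nd (nat_lit 78) (nat_lit 0) (nat_lit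 0) (XT.lf (nat_lit 0) (nat_lit 117940545683) (nat_lit 76) (nat_lit 147075448091) (nat_lit 76) (nat_lit 145313012261) (nat_lit 1) (nat_lit 4) (nat_lit 2) (nat_lit 5) (nat_lit 2) (nat_lit 4) (nat_lit 356) (nat_lit 193) (nat_lit 171)) (XT.lf (nat_lit 0) (nat_lit 125371500113) (nat_lit 76) (nat_lit 153617952159) (nat_lit 76) (nat_lit 151811924563) (nat_lit 1) (nat_lit 4) (nat_lit 2) (nat_lit 5) (nat_lit 2) (nat_lit 4) (nat_lit 357) (nat_lit 193) (nat_lit 170))) (XT.nd (nat_lit 78) (nat_lit 0) (nat_lit 0) (XT.lf (nat_lit 0) (nat_lit 133144764773) (nat_lit 76) (nat_lit 160500492573) (nat_lit 76) (nat_lit 158652949009) (nat_lit 1) (nat_lit 4) (nat_lit 2) (nat_lit 5) (nat_lit 2) (nat_lit 4) (nat_lit 358) (nat_lit 193) (nat_lit 169)) (XT.lf (nat_lit 0) (nat_lit 141278847436) (nat_lit 76) (nat_lit 167739456333) (nat_lit 76) (nat_lit 165852373751) (nat_lit 1) (nat_lit 4) (nat_lit 2) (nat_lit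 5) (nat_lit 2) (nat_lit 4) (nat_lit 359) (nat_lit 193) (nat_lit 168)))) (XT.nd (nat_lit 156) (nat_lit 0) (nat_lit 0) (XT.nd (nat_lit 78) (nat_lit 0) (nat_lit 0) (XT.lf (nat_lit 0) (nat_lit 149793114966) (nat_lit 76) (nat_lit 175352079068) (nat_lit 76) (nat_lit 173427340279) (nat_lit 1) (nat_lit 4) (nat_lit 2) (nat_lit 5) (nat_lit 2) (nat_lit 4) (nat_lit 360) (nat_lit 193) (nat_lit 167)) (XT.lf (nat_lit 0) (nat_lit 158707839428) (nat_lit 76) (nat_lit 183356486069) (nat_lit 76) (nat_lit 181395884226) (nat_lit 1) (nat_lit 4) (nat_lit 2) (nat_lit 5) (nat_lit 2) (nat_lit 4) (nat_lit 361) (nat_lit 193) (nat_lit 166))) (XT.nd (nat_lit 78) (nat_lit 0) (nat_lit 0) (XT.lf (nat_lit 0) (nat_lit 168044246356) (nat_lit 76) (nat_lit 191771735449) (nat_lit 76) (nat_lit 189776978316) (nat_lit 1) (nat_lit 4) (nat_lit 2) (nat_lit 5) (nat_lit 2) (nat_lit 4) (nat_lit 362) (nat_lit 193) (nat_lit 165)) (XT.nd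 (nat_lit 78) (nat_lit 0) (nat_lit 0) (XT.lf (nat_lit 0) (nat_lit 177824565291) (nat_lit 76) (nat_lit 200617863515) (nat_lit 76) (nat_lit 198590577536) (nat_lit 1) (nat_lit 4) (nat_lit 2) (nat_lit 5) (nat_lit 2) (nat_lit 4) (nat_lit 363) (nat_lit 193) (nat_lit 164)) (XT.lf (nat_lit 0) (nat_lit 188072082706) (nat_lit 76) (nat_lit 209915932478) (nat_lit 76) (nat_lit 207857666644) (nat_lit 1) (nat_lit 4) (nat_lit 2) (nat_lit 5) (nat_lit 2) (nat_lit 4) (nat_lit 364) (nat_lit 193) (nat_lit 163))))))) (XT.nd (nat_lit 702) (nat_lit 0) (nat_lit 0) (XT.nd (nat_lit 312) (nat_lit 0) (nat_lit 0) (XT.nd (nat_lit 156) (nat_lit 0) (nat_lit 0) (XT.nd (nat_lit 78) (nat_lit 0) (nat_lit 0) (XT.lf (nat_lit 0) (nat_lit 2793596760) (nat_lit 76) (nat_lit 30633246317) (nat_lit 76) (nat_lit 30633246317) (nat_lit 1) (nat_lit 4) (nat_lit 2) (nat_lit 5) (nat_lit 2) (nat_lit 4) (nat_lit 332) (nat_lit 194) (nat_lit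 194)) (XT.lf (nat_lit 0) (nat_lit 8718366655) (nat_lit 76) (nat_lit 62929881723) (nat_lit 76) (nat_lit 62795988577) (nat_lit 1) (nat_lit 4) (nat_lit 2) (nat_lit 5) (nat_lit 2) (nat_lit 4) (nat_lit 333) (nat_lit 194) (nat_lit 193))) (XT.nd (nat_lit 78) (nat_lit 0) (nat_lit 0) (XT.lf (nat_lit 0) (nat_lit 11916294796) (nat_lit 76) (nat_lit 64716097146) (nat_lit 76) (nat_lit 64454686718) (nat_lit 1) (nat_lit 4) (nat_lit 2) (nat_lit 5) (nat_lit 2) (nat_lit 4) (nat_lit 334) (nat_lit 194) (nat_lit 192)) (XT.lf (nat_lit 0) (nat_lit 15188592059) (nat_lit 76) (nat_lit 66629391797) (nat_lit 76) (nat_lit 66246536338) (nat_lit 1) (nat_lit 4) (nat_lit 2) (nat_lit 5) (nat_lit 2) (nat_lit 4) (nat_lit 335) (nat_lit 194) (nat_lit 191)))) (XT.nd (nat_lit 156) (nat_lit 0) (nat_lit 0) (XT.nd (nat_lit 78) (nat_lit 0) (nat_lit 0) (XT.lf (nat_lit 0) (nat_lit 18543049628) (nat_lit 76) (nat_lit 68674321139)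 (nat_lit 76) (nat_lit 68175803746) (nat_lit 1) (nat_lit 4) (nat_lit 2) (nat_lit 5) (nat_lit 2) (nat_lit 4) (nat_lit 336) (nat_lit 194) (nat_lit 190)) (XT.lf (nat_lit 0) (nat_lit 21987654306) (nat_lit 76) (nat_lit 70855754052) (nat_lit 76) (nat_lit 70247082437) (nat_lit 1) (nat_lit 4) (nat_lit 2) (nat_lit 5) (nat_lit 2) (nat_lit 4) (nat_lit 337) (nat_lit 194) (nat_lit 189))) (XT.nd (nat_lit 78) (nat_lit 0) (nat_lit 0) (XT.lf (nat_lit 0) (nat_lit 25530607533) (nat_lit 76) (nat_lit 73178884424) (nat_lit 76) (nat_lit 72465304025) (nat_lit 1) (nat_lit 4) (nat_lit 2) (nat_lit 5) (nat_lit 2) (nat_lit 4) (nat_lit 338) (nat_lit 194) (nat_lit 188)) (XT.nd (nat_lit 78) (nat_lit 0) (nat_lit 0) (XT.lf (nat_lit 0) (nat_lit 29180344912) (nat_lit 76) (nat_lit 75649243518) (nat_lit 76) (nat_lit 74835749991) (nat_lit 1) (nat_lit 4) (nat_lit 2) (nat_lit 5) (nat_lit 2) (nat_lit 4) (nat_lit 339) (nat_lit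 194) (nat_lit 187)) (XT.lf (nat_lit 0) (nat_lit 32945556294) (nat_lit 76) (nat_lit 78272713140) (nat_lit 76) (nat_lit 77364064254) (nat_lit 1) (nat_lit 4) (nat_lit 2) (nat_lit 5) (nat_lit 2) (nat_lit 4) (nat_lit 340) (nat_lit 194) (nat_lit 186)))))) (XT.nd (nat_lit 312) (nat_lit 0) (nat_lit 0) (XT.nd (nat_lit 156) (nat_lit 0) (nat_lit 0) (XT.nd (nat_lit 78) (nat_lit 0) (nat_lit 0) (XT.lf (nat_lit 0) (nat_lit 36835206468) (nat_lit 76) (nat_lit 81055539647) (nat_lit 76) (nat_lit 80056266609) (nat_lit 1) (nat_lit 4) (nat_lit 2) (nat_lit 5) (nat_lit 2) (nat_lit 4) (nat_lit 341) (nat_lit 194) (nat_lit 185)) (XT.lf (nat_lit 0) (nat_lit 40858556506) (nat_lit 76) (nat_lit 84004348817) (nat_lit 76) (nat_lit 82918767063) (nat_lit 1) (nat_lit 4) (nat_lit 2) (nat_lit 5) (nat_lit 2) (nat_lit 4) (nat_lit 342) (nat_lit 194) (nat_lit 184))) (XT.nd (nat_lit 78) (nat_lit 0) (nat_lit 0) (XT.lf (nat_lit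 0) (nat_lit 45025185812) (nat_lit 76) (nat_lit 87126161623) (nat_lit 76) (nat_lit 85958381092) (nat_lit 1) (nat_lit 4) (nat_lit 2) (nat_lit 5) (nat_lit 2) (nat_lit 4) (nat_lit 343) (nat_lit 194) (nat_lit 183)) (XT.lf (nat_lit 0) (nat_lit 49345014933) (nat_lit 76) (nat_lit 90428410954) (nat_lit 76) (nat_lit 89182345873) (nat_lit 1) (nat_lit 4) (nat_lit 2) (nat_lit 5) (nat_lit 2) (nat_lit 4) (nat_lit 344) (nat_lit 194) (nat_lit 182)))) (XT.nd (nat_lit 156) (nat_lit 0) (nat_lit 0) (XT.nd (nat_lit 78) (nat_lit 0) (nat_lit 0) (XT.lf (nat_lit 0) (nat_lit 53828329176) (nat_lit 76) (nat_lit 93918959307) (nat_lit 76) (nat_lit 92598337513) (nat_lit 1) (nat_lit 4) (nat_lit 2) (nat_lit 5) (nat_lit 2) (nat_lit 4) (nat_lit 345) (nat_lit 194) (nat_lit 181)) (XT.lf (nat_lit 0) (nat_lit 58485803099) (nat_lit 76) (nat_lit 97606117513) (nat_lit 76) (nat_lit 96214489324) (nat_lit 1) (nat_lit 4) (nat_lit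 2) (nat_lit 5) (nat_lit 2) (nat_lit 4) (nat_lit 346) (nat_lit 194) (nat_lit 180))) (XT.nd (nat_lit 78) (nat_lit 0) (nat_lit 0) (XT.lf (nat_lit 0) (nat_lit 63328525925) (nat_lit 76) (nat_lit 101498664519) (nat_lit 76) (nat_lit 100039411193) (nat_lit 1) (nat_lit 4) (nat_lit 2) (nat_lit 5) (nat_lit 2) (nat_lit 4) (nat_lit 347) (nat_lit 194) (nat_lit 179)) (XT.nd (nat_lit 78) (nat_lit 0) (nat_lit 0) (XT.lf (nat_lit 0) (nat_lit 68368027948) (nat_lit 76) (nat_lit 105605868294) (nat_lit 76) (nat_lit 104082210075) (nat_lit 1) (nat_lit 4) (nat_lit 2) (nat_lit 5) (nat_lit 2) (nat_lit 4) (nat_lit 348) (nat_lit 194) (nat_lit 178)) (XT.lf (nat_lit 0) (nat_lit 73616307980) (nat_lit 76) (nat_lit 109937507895) (nat_lit 76) (nat_lit 108352511683) (nat_lit 1) (nat_lit 4) (nat_lit 2) (nat_lit 5) (nat_lit 2) (nat_lit 4) (nat_lit 349) (nat_lit 194) (nat_lit 177))))))))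
noncomputable def xc8 : XT := (XT.nd (nat_lit 36114) (nat_lit 0) (nat_lit 0) (XT.nd (nat_lit 624) (nat_lit 0) (nat_lit 0) (XT.nd (nat_lit 312) (nat_lit 0) (nat_lit 0) (XT.nd (nat_lit 156) (nat_lit 0) (nat_lit 0) (XT.nd (nat_lit 78) (nat_lit 0) (nat_lit 0) (XT.lf (nat_lit 0) (nat_lit 79085861927) (nat_lit 76) (nat_lit 114503896750) (nat_lit 76) (nat_lit 112860483402) (nat_lit 1) (nat_lit 4) (nat_lit 2) (nat_lit 5) (nat_lit 2) (nat_lit 4) (nat_lit 350) (nat_lit 194) (nat_lit 176)) (XT.lf (nat_lit 0) (nat_lit 84789712537) (nat_lit 76) (nat_lit 119315907212) (nat_lit 76) (nat_lit 117616858497) (nat_lit 1) (nat_lit 4) (nat_lit 2) (nat_lit 5) (nat_lit 2) (nat_lit 4) (nat_lit 351) (nat_lit 194) (nat_lit 175))) (XT.nd (nat_lit 78) (nat_lit 0) (nat_lit 0) (XT.lf (nat_lit 0) (nat_lit 90741440406) (nat_lit 76) (nat_lit 124384996451) (nat_lit 76) (nat_lit 122632961670) (nat_lit 1) (nat_lit 4)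 (nat_lit 2) (nat_lit 5) (nat_lit 2) (nat_lit 4) (nat_lit 352) (nat_lit 194) (nat_lit 174)) (XT.lf (nat_lit 0) (nat_lit 96955216315) (nat_lit 76) (nat_lit 129723233725) (nat_lit 76) (nat_lit 127920736026) (nat_lit 1) (nat_lit 4) (nat_lit 2) (nat_lit 5) (nat_lit 2) (nat_lit 4) (nat_lit 353) (nat_lit 194) (nat_lit 173)))) (XT.nd (nat_lit 156) (nat_lit 0) (nat_lit 0) (XT.nd (nat_lit 78) (nat_lit 0) (nat_lit 0) (XT.lf (nat_lit 0) (nat_lit 103445834968) (nat_lit 76) (nat_lit 135343329124) (nat_lit 76) (nat_lit 133492771502) (nat_lit 1) (nat_lit 4) (nat_lit 2) (nat_lit 5) (nat_lit 2) (nat_lit 4) (nat_lit 354) (nat_lit 194) (nat_lit 172)) (XT.lf (nat_lit 0) (nat_lit 110228750220) (nat_lit 76) (nat_lit 141258663827) (nat_lit 76) (nat_lit 139362334850) (nat_lit 1) (nat_lit 4) (nat_lit 2) (nat_lit 5) (nat_lit 2) (nat_lit 4) (nat_lit 355) (nat_lit 194) (nat_lit 171))) (XT.nd (nat_lit 78) (nat_lit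 0) (nat_lit 0) (XT.lf (nat_lit 0) (nat_lit 117320111868) (nat_lit 76) (nat_lit 147483321964) (nat_lit 76) (nat_lit 145543401221) (nat_lit 1) (nat_lit 4) (nat_lit 2) (nat_lit 5) (nat_lit 2) (nat_lit 4) (nat_lit 356) (nat_lit 194) (nat_lit 170)) (XT.lf (nat_lit 0) (nat_lit 124736804107) (nat_lit 76) (nat_lit 154032124150) (nat_lit 76) (nat_lit 152050687439) (nat_lit 1) (nat_lit 4) (nat_lit 2) (nat_lit 5) (nat_lit 2) (nat_lit 4) (nat_lit 357) (nat_lit 194) (nat_lit 169))))) (XT.nd (nat_lit 312) (nat_lit 0) (nat_lit 0) (XT.nd (nat_lit 156) (nat_lit 0) (nat_lit 0) (XT.nd (nat_lit 78) (nat_lit 0) (nat_lit 0) (XT.lf (nat_lit 0) (nat_lit 132496485728) (nat_lit 76) (nat_lit 160920662771) (nat_lit 76) (nat_lit 158899687043) (nat_lit 1) (nat_lit 4) (nat_lit 2) (nat_lit 5) (nat_lit 2) (nat_lit 4) (nat_lit 358) (nat_lit 194) (nat_lit 168)) (XT.lf (nat_lit 0) (nat_lit 140617632164) (nat_lit 76)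 (nat_lit 168165339110) (nat_lit 76) (nat_lit 166106707175) (nat_lit 1) (nat_lit 4) (nat_lit 2) (nat_lit 5) (nat_lit 2) (nat_lit 4) (nat_lit 359) (nat_lit 194) (nat_lit 167))) (XT.nd (nat_lit 78) (nat_lit 0) (nat_lit 0) (XT.lf (nat_lit 0) (nat_lit 149119579477) (nat_lit 76) (nat_lit 175783402396) (nat_lit 76) (nat_lit 173688907407) (nat_lit 1) (nat_lit 4) (nat_lit 2) (nat_lit 5) (nat_lit 2) (nat_lit 4) (nat_lit 360) (nat_lit 194) (nat_lit 166)) (XT.lf (nat_lit 0) (nat_lit 158022570398) (nat_lit 76) (nat_lit 183792990875) (nat_lit 76) (nat_lit 181664340596) (nat_lit 1) (nat_lit 4) (nat_lit 2) (nat_lit 5) (nat_lit 2) (nat_lit 4) (nat_lit 361) (nat_lit 194) (nat_lit 165)))) (XT.nd (nat_lit 156) (nat_lit 0) (nat_lit 0) (XT.nd (nat_lit 78) (nat_lit 0) (nat_lit 0) (XT.lf (nat_lit 0) (nat_lit 167347802527) (nat_lit 76) (nat_lit 192213174995) (nat_lit 76) (nat_lit 190051995869) (nat_lit 1)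 (nat_lit 4) (nat_lit 2) (nat_lit 5) (nat_lit 2) (nat_lit 4) (nat_lit 362) (nat_lit 194) (nat_lit 164)) (XT.lf (nat_lit 0) (nat_lit 177117478795) (nat_lit 76) (nat_lit 201064002814) (nat_lit 76) (nat_lit 198871843833) (nat_lit 1) (nat_lit 4) (nat_lit 2) (nat_lit 5) (nat_lit 2) (nat_lit 4) (nat_lit 363) (nat_lit 194) (nat_lit 163))) (XT.nd (nat_lit 34866) (nat_lit 0) (nat_lit 0) (XT.lf (nat_lit 0) (nat_lit 187354860338) (nat_lit 76) (nat_lit 210366547732) (nat_lit 76) (nat_lit 208144884128) (nat_lit 1) (nat_lit 4) (nat_lit 2) (nat_lit 5) (nat_lit 2) (nat_lit 4) (nat_lit 364) (nat_lit 194) (nat_lit 162)) (XT.nd (nat_lit 78) (nat_lit 76) (nat_lit 0) (XT.lf (nat_lit 0) (nat_lit 28981374041) (nat_lit 152) (nat_lit 220833444) (nat_lit 0) (nat_lit 28981374041) (nat_lit 2) (nat_lit 5) (nat_lit 4) (nat_lit 4) (nat_lit 2) (nat_lit 4) (nat_lit 330) (nat_lit 195) (nat_lit 195)) (XT.lf (nat_lit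 0) (nat_lit 2515320220) (nat_lit 76) (nat_lit 59862557233) (nat_lit 76) (nat_lit 59721969430) (nat_lit 1) (nat_lit 4) (nat_lit 2) (nat_lit 5) (nat_lit 2) (nat_lit 4) (nat_lit 331) (nat_lit 195) (nat_lit 194))))))) (XT.nd (nat_lit 624) (nat_lit 0) (nat_lit 0) (XT.nd (nat_lit 312) (nat_lit 0) (nat_lit 0) (XT.nd (nat_lit 156) (nat_lit 0) (nat_lit 0) (XT.nd (nat_lit 78) (nat_lit 0) (nat_lit 0) (XT.lf (nat_lit 0) (nat_lit 5541196530) (nat_lit 76) (nat_lit 61427392498) (nat_lit 76) (nat_lit 61152911548) (nat_lit 1) (nat_lit 4) (nat_lit 2) (nat_lit 5) (nat_lit 2) (nat_lit 4) (nat_lit 332) (nat_lit 195) (nat_lit 193)) (XT.lf (nat_lit 0) (nat_lit 8628563006) (nat_lit 76) (nat_lit 63110126407) (nat_lit 76) (nat_lit 62708128174) (nat_lit 1) (nat_lit 4) (nat_lit 2) (nat_lit 5) (nat_lit 2) (nat_lit 4) (nat_lit 333) (nat_lit 195) (nat_lit 192))) (XT.nd (nat_lit 78) (nat_lit 0) (nat_lit 0) (XT.lf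 (nat_lit 0) (nat_lit 11784770520) (nat_lit 76) (nat_lit 64914765467) (nat_lit 76) (nat_lit 64391322204) (nat_lit 1) (nat_lit 4) (nat_lit 2) (nat_lit 5) (nat_lit 2) (nat_lit 4) (nat_lit 334) (nat_lit 195) (nat_lit 191)) (XT.lf (nat_lit 0) (nat_lit 15017333852) (nat_lit 76) (nat_lit 66845606439) (nat_lit 76) (nat_lit 66206501242) (nat_lit 1) (nat_lit 4) (nat_lit 2) (nat_lit 5) (nat_lit 2) (nat_lit 4) (nat_lit 335) (nat_lit 195) (nat_lit 190)))) (XT.nd (nat_lit 156) (nat_lit 0) (nat_lit 0) (XT.nd (nat_lit 78) (nat_lit 0) (nat_lit 0) (XT.lf (nat_lit 0) (nat_lit 18333949582) (nat_lit 76) (nat_lit 68907246564) (nat_lit 76) (nat_lit 68157987144) (nat_lit 1) (nat_lit 4) (nat_lit 2) (nat_lit 5) (nat_lit 2) (nat_lit 4) (nat_lit 336) (nat_lit 195) (nat_lit 189)) (XT.lf (nat_lit 0) (nat_lit 21742514414) (nat_lit 76) (nat_lit 71104594508) (nat_lit 76) (nat_lit 70250426304) (nat_lit 1) (nat_lit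 4) (nat_lit 2) (nat_lit 5) (nat_lit 2) (nat_lit 4) (nat_lit 337) (nat_lit 195) (nat_lit 188))) (XT.nd (nat_lit 78) (nat_lit 0) (nat_lit 0) (XT.lf (nat_lit 0) (nat_lit 25251143978) (nat_lit 76) (nat_lit 73442882052) (nat_lit 76) (nat_lit 72488800721) (nat_lit 1) (nat_lit 4) (nat_lit 2) (nat_lit 5) (nat_lit 2) (nat_lit 4) (nat_lit 338) (nat_lit 195) (nat_lit 187)) (XT.lf (nat_lit 0) (nat_lit 28868192154) (nat_lit 76) (nat_lit 75927676547) (nat_lit 76) (nat_lit 74878439857) (nat_lit 1) (nat_lit 4) (nat_lit 2) (nat_lit 5) (nat_lit 2) (nat_lit 4) (nat_lit 339) (nat_lit 195) (nat_lit 186))))) (XT.nd (nat_lit 312) (nat_lit 0) (nat_lit 0) (XT.nd (nat_lit 156) (nat_lit 0) (nat_lit 0) (XT.nd (nat_lit 78) (nat_lit 0) (nat_lit 0) (XT.lf (nat_lit 0) (nat_lit 32602270962) (nat_lit 76) (nat_lit 78564894171) (nat_lit 76) (nat_lit 77425033329) (nat_lit 1) (nat_lit 4) (nat_lit 2) (nat_lit 5) (nat_lit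 2) (nat_lit 4) (nat_lit 340) (nat_lit 195) (nat_lit 185)) (XT.lf (nat_lit 0) (nat_lit 36462271065) (nat_lit 76) (nat_lit 81360814013) (nat_lit 76) (nat_lit 80134644456) (nat_lit 1) (nat_lit 4) (nat_lit 2) (nat_lit 5) (nat_lit 2) (nat_lit 4) (nat_lit 341) (nat_lit 195) (nat_lit 184))) (XT.nd (nat_lit 78) (nat_lit 0) (nat_lit 0) (XT.lf (nat_lit 0) (nat_lit 40457382940) (nat_lit 76) (nat_lit 84322093026) (nat_lit 76) (nat_lit 83013724692) (nat_lit 1) (nat_lit 4) (nat_lit 2) (nat_lit 5) (nat_lit 2) (nat_lit 4) (nat_lit 342) (nat_lit 195) (nat_lit 183)) (XT.lf (nat_lit 0) (nat_lit 44597118759) (nat_lit 76) (nat_lit 87455781873) (nat_lit 76) (nat_lit 86069128989) (nat_lit 1) (nat_lit 4) (nat_lit 2) (nat_lit 5) (nat_lit 2) (nat_lit 4) (nat_lit 343) (nat_lit 195) (nat_lit 182)))) (XT.nd (nat_lit 156) (nat_lit 0) (nat_lit 0) (XT.nd (nat_lit 78) (nat_lit 0) (nat_lit 0) (XT.lf (nat_lit 0) (nat_lit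 48891335034) (nat_lit 76) (nat_lit 90769341719) (nat_lit 76) (nat_lit 89308132121) (nat_lit 1) (nat_lit 4) (nat_lit 2) (nat_lit 5) (nat_lit 2) (nat_lit 4) (nat_lit 344) (nat_lit 195) (nat_lit 181)) (XT.lf (nat_lit 0) (nat_lit 53350256090) (nat_lit 76) (nat_lit 94270661992) (nat_lit 76) (nat_lit 92738446000) (nat_lit 1) (nat_lit 4) (nat_lit 2) (nat_lit 5) (nat_lit 2) (nat_lit 4) (nat_lit 345) (nat_lit 195) (nat_lit 180))) (XT.nd (nat_lit 78) (nat_lit 0) (nat_lit 0) (XT.lf (nat_lit 0) (nat_lit 57984498407) (nat_lit 76) (nat_lit 97968079168) (nat_lit 76) (nat_lit 96368238039) (nat_lit 1) (nat_lit 4) (nat_lit 2) (nat_lit 5) (nat_lit 2) (nat_lit 4) (nat_lit 346) (nat_lit 195) (nat_lit 179)) (XT.nd (nat_lit 78) (nat_lit 0) (nat_lit 0) (XT.lf (nat_lit 0) (nat_lit 62805095894) (nat_lit 76) (nat_lit 101870396623) (nat_lit 76) (nat_lit 100206150600) (nat_lit 1) (nat_lit 4) (nat_lit 2) (nat_lit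 5) (nat_lit 2) (nat_lit 4) (nat_lit 347) (nat_lit 195) (nat_lit 178)) (XT.lf (nat_lit 0) (nat_lit 67823526165) (nat_lit 76) (nat_lit 105986905587) (nat_lit 76) (nat_lit 104261321572) (nat_lit 1) (nat_lit 4) (nat_lit 2) (nat_lit 5) (nat_lit 2) (nat_lit 4) (nat_lit 348) (nat_lit 195) (nat_lit 177))))))))
noncomputable def xc9 : XT := (XT.nd (nat_lit 35958) (nat_lit 0) (nat_lit 0) (XT.nd (nat_lit 624) (nat_lit 0) (nat_lit 0) (XT.nd (nat_lit 312) (nat_lit 0) (nat_lit 0) (XT.nd (nat_lit 156) (nat_lit 0) (nat_lit 0) (XT.nd (nat_lit 78) (nat_lit 0) (nat_lit 0) (XT.lf (nat_lit 0) (nat_lit 73051737862) (nat_lit 76) (nat_lit 110327407272) (nat_lit 76) (nat_lit 108543406121) (nat_lit 1) (nat_lit 4) (nat_lit 2) (nat_lit 5) (nat_lit 2) (nat_lit 4) (nat_lit 349) (nat_lit 195) (nat_lit 176)) (XT.lf (nat_lit 0) (nat_lit 78502179109) (nat_lit 76) (nat_lit 114902236208) (nat_lit 76) (nat_lit 113062599689)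 (nat_lit 1) (nat_lit 4) (nat_lit 2) (nat_lit 5) (nat_lit 2) (nat_lit 4) (nat_lit 350) (nat_lit 195) (nat_lit 175))) (XT.nd (nat_lit 78) (nat_lit 0) (nat_lit 0) (XT.lf (nat_lit 0) (nat_lit 84187827148) (nat_lit 76) (nat_lit 119722284842) (nat_lit 76) (nat_lit 117829662259) (nat_lit 1) (nat_lit 4) (nat_lit 2) (nat_lit 5) (nat_lit 2) (nat_lit 4) (nat_lit 351) (nat_lit 195) (nat_lit 174)) (XT.lf (nat_lit 0) (nat_lit 90122219235) (nat_lit 76) (nat_lit 124799029483) (nat_lit 76) (nat_lit 122855943980) (nat_lit 1) (nat_lit 4) (nat_lit 2) (nat_lit 5) (nat_lit 2) (nat_lit 4) (nat_lit 352) (nat_lit 195) (nat_lit 173)))) (XT.nd (nat_lit 156) (nat_lit 0) (nat_lit 0) (XT.nd (nat_lit 78) (nat_lit 0) (nat_lit 0) (XT.lf (nat_lit 0) (nat_lit 96319484875) (nat_lit 76) (nat_lit 130144557616) (nat_lit 76) (nat_lit 128153412191) (nat_lit 1) (nat_lit 4) (nat_lit 2) (nat_lit 5) (nat_lit 2) (nat_lit 4) (nat_lit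 353) (nat_lit 195) (nat_lit 172)) (XT.lf (nat_lit 0) (nat_lit 102794379463) (nat_lit 76) (nat_lit 135771596690) (nat_lit 76) (nat_lit 133734679910) (nat_lit 1) (nat_lit 4) (nat_lit 2) (nat_lit 5) (nat_lit 2) (nat_lit 4) (nat_lit 354) (nat_lit 195) (nat_lit 171))) (XT.nd (nat_lit 78) (nat_lit 0) (nat_lit 0) (XT.lf (nat_lit 0) (nat_lit 109562319414) (nat_lit 76) (nat_lit 141693544417) (nat_lit 76) (nat_lit 139613035870) (nat_lit 1) (nat_lit 4) (nat_lit 2) (nat_lit 5) (nat_lit 2) (nat_lit 4) (nat_lit 355) (nat_lit 195) (nat_lit 170)) (XT.lf (nat_lit 0) (nat_lit 116639418871) (nat_lit 76) (nat_lit 147924500672) (nat_lit 76) (nat_lit 145802476158) (nat_lit 1) (nat_lit 4) (nat_lit 2) (nat_lit 5) (nat_lit 2) (nat_lit 4) (nat_lit 356) (nat_lit 195) (nat_lit 169))))) (XT.nd (nat_lit 312) (nat_lit 0) (nat_lit 0) (XT.nd (nat_lit 156) (nat_lit 0) (nat_lit 0) (XT.nd (nat_lit 78) (nat_lit 0) (nat_lit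 0) (XT.lf (nat_lit 0) (nat_lit 124042528071) (nat_lit 76) (nat_lit 154479301066) (nat_lit 76) (nat_lit 152317737534) (nat_lit 1) (nat_lit 4) (nat_lit 2) (nat_lit 5) (nat_lit 2) (nat_lit 4) (nat_lit 357) (nat_lit 195) (nat_lit 168)) (XT.lf (nat_lit 0) (nat_lit 131789273464) (nat_lit 76) (nat_lit 161373552266) (nat_lit 76) (nat_lit 159174332528) (nat_lit 1) (nat_lit 4) (nat_lit 2) (nat_lit 5) (nat_lit 2) (nat_lit 4) (nat_lit 358) (nat_lit 195) (nat_lit 167))) (XT.nd (nat_lit 78) (nat_lit 0) (nat_lit 0) (XT.lf (nat_lit 0) (nat_lit 139898099683) (nat_lit 76) (nat_lit 168623669156) (nat_lit 76) (nat_lit 166388586364) (nat_lit 1) (nat_lit 4) (nat_lit 2) (nat_lit 5) (nat_lit 2) (nat_lit 4) (nat_lit 359) (nat_lit 195) (nat_lit 166)) (XT.lf (nat_lit 0) (nat_lit 148388313456) (nat_lit 76) (nat_lit 176246913919) (nat_lit 76) (nat_lit 173977675837) (nat_lit 1) (nat_lit 4) (nat_lit 2) (nat_lit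 5) (nat_lit 2) (nat_lit 4) (nat_lit 360) (nat_lit 195) (nat_lit 165)))) (XT.nd (nat_lit 156) (nat_lit 0) (nat_lit 0) (XT.nd (nat_lit 78) (nat_lit 0) (nat_lit 0) (XT.lf (nat_lit 0) (nat_lit 157280129578) (nat_lit 76) (nat_lit 184261437138) (nat_lit 76) (nat_lit 181959670209) (nat_lit 1) (nat_lit 4) (nat_lit 2) (nat_lit 5) (nat_lit 2) (nat_lit 4) (nat_lit 361) (nat_lit 195) (nat_lit 164)) (XT.lf (nat_lit 0) (nat_lit 166594719040) (nat_lit 76) (nat_lit 192686321011) (nat_lit 76) (nat_lit 190353574227) (nat_lit 1) (nat_lit 4) (nat_lit 2) (nat_lit 5) (nat_lit 2) (nat_lit 4) (nat_lit 362) (nat_lit 195) (nat_lit 163))) (XT.nd (nat_lit 78) (nat_lit 0) (nat_lit 0) (XT.lf (nat_lit 0) (nat_lit 176354259436) (nat_lit 76) (nat_lit 201541624785) (nat_lit 76) (nat_lit 199179373378) (nat_lit 1) (nat_lit 4) (nat_lit 2) (nat_lit 5) (nat_lit 2) (nat_lit 4) (nat_lit 363) (nat_lit 195) (nat_lit 162)) (XT.nd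 (nat_lit 34710) (nat_lit 0) (nat_lit 76) (XT.lf (nat_lit 0) (nat_lit 186581987766) (nat_lit 76) (nat_lit 210848432517) (nat_lit 76) (nat_lit 208458081468) (nat_lit 1) (nat_lit 4) (nat_lit 2) (nat_lit 5) (nat_lit 2) (nat_lit 4) (nat_lit 364) (nat_lit 195) (nat_lit 161)) (XT.lf (nat_lit 0) (nat_lit 24923853606) (nat_lit 152) (nat_lit 3007591101) (nat_lit 0) (nat_lit 24923853606) (nat_lit 2) (nat_lit 5) (nat_lit 4) (nat_lit 4) (nat_lit 2) (nat_lit 4) (nat_lit 328) (nat_lit 196) (nat_lit 196))))))) (XT.nd (nat_lit 702) (nat_lit 0) (nat_lit 0) (XT.nd (nat_lit 312) (nat_lit 0) (nat_lit 0) (XT.nd (nat_lit 156) (nat_lit 76) (nat_lit 0) (XT.nd (nat_lit 78) (nat_lit 0) (nat_lit 0) (XT.lf (nat_lit 0) (nat_lit 53891699382) (nat_lit 152) (nat_lit 3272448589) (nat_lit 0) (nat_lit 53744082189) (nat_lit 2) (nat_lit 5) (nat_lit 4) (nat_lit 4) (nat_lit 2) (nat_lit 4) (nat_lit 329) (nat_lit 196) (nat_lit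 195)) (XT.lf (nat_lit 0) (nat_lit 58084150147) (nat_lit 152) (nat_lit 488417928) (nat_lit 0) (nat_lit 57795945150) (nat_lit 2) (nat_lit 5) (nat_lit 4) (nat_lit 4) (nat_lit 2) (nat_lit 4) (nat_lit 330) (nat_lit 196) (nat_lit 194))) (XT.nd (nat_lit 78) (nat_lit 0) (nat_lit 0) (XT.lf (nat_lit 0) (nat_lit 2421026388) (nat_lit 76) (nat_lit 60051814151) (nat_lit 76) (nat_lit 59629716007) (nat_lit 1) (nat_lit 4) (nat_lit 2) (nat_lit 5) (nat_lit 2) (nat_lit 4) (nat_lit 331) (nat_lit 196) (nat_lit 193)) (XT.lf (nat_lit 0) (nat_lit 5403096040) (nat_lit 76) (nat_lit 61635994235) (nat_lit 76) (nat_lit 61086378809) (nat_lit 1) (nat_lit 4) (nat_lit 2) (nat_lit 5) (nat_lit 2) (nat_lit 4) (nat_lit 332) (nat_lit 196) (nat_lit 192)))) (XT.nd (nat_lit 156) (nat_lit 0) (nat_lit 0) (XT.nd (nat_lit 78) (nat_lit 0) (nat_lit 0) (XT.lf (nat_lit 0) (nat_lit 8448741888) (nat_lit 76) (nat_lit 63337151781) (nat_lit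 76) (nat_lit 62666091324) (nat_lit 1) (nat_lit 4) (nat_lit 2) (nat_lit 5) (nat_lit 2) (nat_lit 4) (nat_lit 333) (nat_lit 196) (nat_lit 191)) (XT.lf (nat_lit 0) (nat_lit 11565215472) (nat_lit 76) (nat_lit 65159337163) (nat_lit 76) (nat_lit 64372614772) (nat_lit 1) (nat_lit 4) (nat_lit 2) (nat_lit 5) (nat_lit 2) (nat_lit 4) (nat_lit 334) (nat_lit 196) (nat_lit 190))) (XT.nd (nat_lit 78) (nat_lit 0) (nat_lit 0) (XT.lf (nat_lit 0) (nat_lit 14759936966) (nat_lit 76) (nat_lit 67106888917) (nat_lit 76) (nat_lit 66210012304) (nat_lit 1) (nat_lit 4) (nat_lit 2) (nat_lit 5) (nat_lit 2) (nat_lit 4) (nat_lit 335) (nat_lit 196) (nat_lit 189)) (XT.nd (nat_lit 78) (nat_lit 0) (nat_lit 0) (XT.lf (nat_lit 0) (nat_lit 18040512850) (nat_lit 76) (nat_lit 69184444072) (nat_lit 76) (nat_lit 68182658676) (nat_lit 1) (nat_lit 4) (nat_lit 2) (nat_lit 5) (nat_lit 2) (nat_lit 4) (nat_lit 336) (nat_lit 196) (nat_lit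 188)) (XT.lf (nat_lit 0) (nat_lit 21414754018) (nat_lit 76) (nat_lit 71396949188) (nat_lit 76) (nat_lit 70295250664) (nat_lit 1) (nat_lit 4) (nat_lit 2) (nat_lit 5) (nat_lit 2) (nat_lit 4) (nat_lit 337) (nat_lit 196) (nat_lit 187)))))) (XT.nd (nat_lit 312) (nat_lit 0) (nat_lit 0) (XT.nd (nat_lit 156) (nat_lit 0) (nat_lit 0) (XT.nd (nat_lit 78) (nat_lit 0) (nat_lit 0) (XT.lf (nat_lit 0) (nat_lit 24890694379) (nat_lit 76) (nat_lit 73749672134) (nat_lit 76) (nat_lit 72552818251) (nat_lit 1) (nat_lit 4) (nat_lit 2) (nat_lit 5) (nat_lit 2) (nat_lit 4) (nat_lit 338) (nat_lit 196) (nat_lit 186)) (XT.lf (nat_lit 0) (nat_lit 28476609981) (nat_lit 76) (nat_lit 76248214632) (nat_lit 76) (nat_lit 74960736596) (nat_lit 1) (nat_lit 4) (nat_lit 2) (nat_lit 5) (nat_lit 2) (nat_lit 4) (nat_lit 339) (nat_lit 196) (nat_lit 185))) (XT.nd (nat_lit 78) (nat_lit 0) (nat_lit 0) (XT.lf (nat_lit 0) (nat_lit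 32181038718) (nat_lit 76) (nat_lit 78898525591) (nat_lit 76) (nat_lit 77524738840) (nat_lit 1) (nat_lit 4) (nat_lit 2) (nat_lit 5) (nat_lit 2) (nat_lit 4) (nat_lit 340) (nat_lit 196) (nat_lit 184)) (XT.lf (nat_lit 0) (nat_lit 36012800659) (nat_lit 76) (nat_lit 81706915276) (nat_lit 76) (nat_lit 80250929748) (nat_lit 1) (nat_lit 4) (nat_lit 2) (nat_lit 5) (nat_lit 2) (nat_lit 4) (nat_lit 341) (nat_lit 196) (nat_lit 183)))) (XT.nd (nat_lit 156) (nat_lit 0) (nat_lit 0) (XT.nd (nat_lit 78) (nat_lit 0) (nat_lit 0) (XT.lf (nat_lit 0) (nat_lit 39981019046) (nat_lit 76) (nat_lit 84680070330) (nat_lit 76) (nat_lit 83145800252) (nat_lit 1) (nat_lit 4) (nat_lit 2) (nat_lit 5) (nat_lit 2) (nat_lit 4) (nat_lit 342) (nat_lit 196) (nat_lit 182)) (XT.lf (nat_lit 0) (nat_lit 44095142019) (nat_lit 76) (nat_lit 87825069693) (nat_lit 76) (nat_lit 86216242901) (nat_lit 1) (nat_lit 4) (nat_lit 2) (nat_lit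 5) (nat_lit 2) (nat_lit 4) (nat_lit 343) (nat_lit 196) (nat_lit 181))) (XT.nd (nat_lit 78) (nat_lit 0) (nat_lit 0) (XT.lf (nat_lit 0) (nat_lit 48364965107) (nat_lit 76) (nat_lit 91149401458) (nat_lit 76) (nat_lit 89469568272) (nat_lit 1) (nat_lit 4) (nat_lit 2) (nat_lit 5) (nat_lit 2) (nat_lit 4) (nat_lit 344) (nat_lit 196) (nat_lit 180)) (XT.nd (nat_lit 78) (nat_lit 0) (nat_lit 0) (XT.lf (nat_lit 0) (nat_lit 52800654558) (nat_lit 76) (nat_lit 94660980701) (nat_lit 76) (nat_lit 92913522378) (nat_lit 1) (nat_lit 4) (nat_lit 2) (nat_lit 5) (nat_lit 2) (nat_lit 4) (nat_lit 345) (nat_lit 196) (nat_lit 179)) (XT.lf (nat_lit 0) (nat_lit 57412771535) (nat_lit 76) (nat_lit 98368168326) (nat_lit 76) (nat_lit 96556305110) (nat_lit 1) (nat_lit 4) (nat_lit 2) (nat_lit 5) (nat_lit 2) (nat_lit 4) (nat_lit 346) (nat_lit 196) (nat_lit 178))))))))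
noncomputable def xc10 : XT := (XT.nd (nat_lit 1326) (nat_lit 0) (nat_lit 0) (XT.nd (nat_lit 624) (nat_lit 0) (nat_lit 0) (XT.nd (nat_lit 312) (nat_lit 0) (nat_lit 0) (XT.nd (nat_lit 156) (nat_lit 0) (nat_lit 0) (XT.nd (nat_lit 78) (nat_lit 0) (nat_lit 0) (XT.lf (nat_lit 0) (nat_lit 62212297270) (nat_lit 76) (nat_lit 102279790969) (nat_lit 76) (nat_lit 100406589760) (nat_lit 1) (nat_lit 4) (nat_lit 2) (nat_lit 5) (nat_lit 2) (nat_lit 4) (nat_lit 347) (nat_lit 196) (nat_lit 177)) (XT.lf (nat_lit 0) (nat_lit 67210659206) (nat_lit 76) (nat_lit 106405162018) (nat_lit 76) (nat_lit 104473543673) (nat_lit 1) (nat_lit 4) (nat_lit 2) (nat_lit 5) (nat_lit 2) (nat_lit 4) (nat_lit 348) (nat_lit 196) (nat_lit 176))) (XT.nd (nat_lit 78) (nat_lit 0) (nat_lit 0) (XT.lf (nat_lit 0) (nat_lit 72419758203) (nat_lit 76) (nat_lit 110754103784) (nat_lit 76) (nat_lit 108766850071) (nat_lit 1) (nat_lit 4)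 (nat_lit 2) (nat_lit 5) (nat_lit 2) (nat_lit 4) (nat_lit 349) (nat_lit 196) (nat_lit 175)) (XT.lf (nat_lit 0) (nat_lit 77851996879) (nat_lit 76) (nat_lit 115336970891) (nat_lit 76) (nat_lit 113296731114) (nat_lit 1) (nat_lit 4) (nat_lit 2) (nat_lit 5) (nat_lit 2) (nat_lit 4) (nat_lit 350) (nat_lit 196) (nat_lit 174)))) (XT.nd (nat_lit 156) (nat_lit 0) (nat_lit 0) (XT.nd (nat_lit 78) (nat_lit 0) (nat_lit 0) (XT.lf (nat_lit 0) (nat_lit 83520309136) (nat_lit 76) (nat_lit 120164674928) (nat_lit 76) (nat_lit 118073972232) (nat_lit 1) (nat_lit 4) (nat_lit 2) (nat_lit 5) (nat_lit 2) (nat_lit 4) (nat_lit 351) (nat_lit 196) (nat_lit 173)) (XT.lf (nat_lit 0) (nat_lit 89438190954) (nat_lit 76) (nat_lit 125248710427) (nat_lit 76) (nat_lit 123109947808) (nat_lit 1) (nat_lit 4) (nat_lit 2) (nat_lit 5) (nat_lit 2) (nat_lit 4) (nat_lit 352) (nat_lit 196) (nat_lit 172))) (XT.nd (nat_lit 78) (nat_lit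 0) (nat_lit 0) (XT.lf (nat_lit 0) (nat_lit 95619732528) (nat_lit 76) (nat_lit 130601182236) (nat_lit 76) (nat_lit 128416648262) (nat_lit 1) (nat_lit 4) (nat_lit 2) (nat_lit 5) (nat_lit 2) (nat_lit 4) (nat_lit 353) (nat_lit 196) (nat_lit 171)) (XT.lf (nat_lit 0) (nat_lit 102079651815) (nat_lit 76) (nat_lit 136234834334) (nat_lit 76) (nat_lit 134006708593) (nat_lit 1) (nat_lit 4) (nat_lit 2) (nat_lit 5) (nat_lit 2) (nat_lit 4) (nat_lit 354) (nat_lit 196) (nat_lit 170))))) (XT.nd (nat_lit 312) (nat_lit 0) (nat_lit 0) (XT.nd (nat_lit 156) (nat_lit 0) (nat_lit 0) (XT.nd (nat_lit 78) (nat_lit 0) (nat_lit 0) (XT.lf (nat_lit 0) (nat_lit 108833329576) (nat_lit 76) (nat_lit 142163080179) (nat_lit 76) (nat_lit 139893438470) (nat_lit 1) (nat_lit 4) (nat_lit 2) (nat_lit 5) (nat_lit 2) (nat_lit 4) (nat_lit 355) (nat_lit 196) (nat_lit 169)) (XT.lf (nat_lit 0) (nat_lit 115896845994) (nat_lit 76) (nat_lit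 148400034642) (nat_lit 76) (nat_lit 146090853916) (nat_lit 1) (nat_lit 4) (nat_lit 2) (nat_lit 5) (nat_lit 2) (nat_lit 4) (nat_lit 356) (nat_lit 196) (nat_lit 168))) (XT.nd (nat_lit 78) (nat_lit 0) (nat_lit 0) (XT.lf (nat_lit 0) (nat_lit 123287018966) (nat_lit 76) (nat_lit 154960547614) (nat_lit 76) (nat_lit 152613710682) (nat_lit 1) (nat_lit 4) (nat_lit 2) (nat_lit 5) (nat_lit 2) (nat_lit 4) (nat_lit 357) (nat_lit 196) (nat_lit 167)) (XT.lf (nat_lit 0) (nat_lit 131021444143) (nat_lit 76) (nat_lit 161860239366) (nat_lit 76) (nat_lit 159477539379) (nat_lit 1) (nat_lit 4) (nat_lit 2) (nat_lit 5) (nat_lit 2) (nat_lit 4) (nat_lit 358) (nat_lit 196) (nat_lit 166)))) (XT.nd (nat_lit 156) (nat_lit 0) (nat_lit 0) (XT.nd (nat_lit 78) (nat_lit 0) (nat_lit 0) (XT.lf (nat_lit 0) (nat_lit 139118536822) (nat_lit 76) (nat_lit 169115537733) (nat_lit 76) (nat_lit 166698682457) (nat_lit 1) (nat_lit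 4) (nat_lit 2) (nat_lit 5) (nat_lit 2) (nat_lit 4) (nat_lit 359) (nat_lit 196) (nat_lit 165)) (XT.lf (nat_lit 0) (nat_lit 147597575795) (nat_lit 76) (nat_lit 176743717236) (nat_lit 76) (nat_lit 174294333113) (nat_lit 1) (nat_lit 4) (nat_lit 2) (nat_lit 5) (nat_lit 2) (nat_lit 4) (nat_lit 360) (nat_lit 196) (nat_lit 164))) (XT.nd (nat_lit 78) (nat_lit 0) (nat_lit 0) (XT.lf (nat_lit 0) (nat_lit 156478749251) (nat_lit 76) (nat_lit 184762940208) (nat_lit 76) (nat_lit 182282576230) (nat_lit 1) (nat_lit 4) (nat_lit 2) (nat_lit 5) (nat_lit 2) (nat_lit 4) (nat_lit 361) (nat_lit 196) (nat_lit 163)) (XT.nd (nat_lit 78) (nat_lit 0) (nat_lit 0) (XT.lf (nat_lit 0) (nat_lit 165783202840) (nat_lit 76) (nat_lit 193192300036) (nat_lit 76) (nat_lit 190682431434) (nat_lit 1) (nat_lit 4) (nat_lit 2) (nat_lit 5) (nat_lit 2) (nat_lit 4) (nat_lit 362) (nat_lit 196) (nat_lit 162)) (XT.lf (nat_lit 0) (nat_lit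 175533090023) (nat_lit 76) (nat_lit 202051866624) (nat_lit 76) (nat_lit 199513898382) (nat_lit 1) (nat_lit 4) (nat_lit 2) (nat_lit 5) (nat_lit 2) (nat_lit 4) (nat_lit 363) (nat_lit 196) (nat_lit 161))))))) (XT.nd (nat_lit 35100) (nat_lit 0) (nat_lit 0) (XT.nd (nat_lit 34788) (nat_lit 0) (nat_lit 0) (XT.nd (nat_lit 34632) (nat_lit 0) (nat_lit 76) (XT.nd (nat_lit 34554) (nat_lit 0) (nat_lit 76) (XT.lf (nat_lit 0) (nat_lit 185751624818) (nat_lit 76) (nat_lit 211362734179) (nat_lit 76) (nat_lit 208798004374) (nat_lit 1) (nat_lit 4) (nat_lit 2) (nat_lit 5) (nat_lit 2) (nat_lit 4) (nat_lit 364) (nat_lit 196) (nat_lit 160)) (XT.lf (nat_lit 0) (nat_lit 21175407614) (nat_lit 152) (nat_lit 5675626878) (nat_lit 0) (nat_lit 21175407614) (nat_lit 2) (nat_lit 5) (nat_lit 4) (nat_lit 4) (nat_lit 2) (nat_lit 4) (nat_lit 326) (nat_lit 197) (nat_lit 197))) (XT.nd (nat_lit 78) (nat_lit 0) (nat_lit 0)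 (XT.lf (nat_lit 0) (nat_lit 46097543139) (nat_lit 152) (nat_lit 8723149085) (nat_lit 0) (nat_lit 45942545085) (nat_lit 2) (nat_lit 5) (nat_lit 4) (nat_lit 4) (nat_lit 2) (nat_lit 4) (nat_lit 327) (nat_lit 197) (nat_lit 196)) (XT.lf (nat_lit 0) (nat_lit 49975179381) (nat_lit 152) (nat_lit 6064270794) (nat_lit 0) (nat_lit 49672564134) (nat_lit 2) (nat_lit 5) (nat_lit 4) (nat_lit 4) (nat_lit 2) (nat_lit 4) (nat_lit 328) (nat_lit 197) (nat_lit 195)))) (XT.nd (nat_lit 156) (nat_lit 76) (nat_lit 0) (XT.nd (nat_lit 78) (nat_lit 0) (nat_lit 0) (XT.lf (nat_lit 0) (nat_lit 53992956422) (nat_lit 152) (nat_lit 3368288222) (nat_lit 0) (nat_lit 53549753372) (nat_lit 2) (nat_lit 5) (nat_lit 4) (nat_lit 4) (nat_lit 2) (nat_lit 4) (nat_lit 329) (nat_lit 197) (nat_lit 194)) (XT.lf (nat_lit 0) (nat_lit 58160440398) (nat_lit 152) (nat_lit 628782361) (nat_lit 0) (nat_lit 57583344201) (nat_lit 2) (nat_lit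 5) (nat_lit 4) (nat_lit 4) (nat_lit 2) (nat_lit 4) (nat_lit 330) (nat_lit 197) (nat_lit 193))) (XT.nd (nat_lit 78) (nat_lit 0) (nat_lit 0) (XT.lf (nat_lit 0) (nat_lit 2232214215) (nat_lit 76) (nat_lit 60290190794) (nat_lit 76) (nat_lit 59585577314) (nat_lit 1) (nat_lit 4) (nat_lit 2) (nat_lit 5) (nat_lit 2) (nat_lit 4) (nat_lit 331) (nat_lit 197) (nat_lit 192)) (XT.lf (nat_lit 0) (nat_lit 5172563240) (nat_lit 76) (nat_lit 61892794516) (nat_lit 76) (nat_lit 61066736006) (nat_lit 1) (nat_lit 4) (nat_lit 2) (nat_lit 5) (nat_lit 2) (nat_lit 4) (nat_lit 332) (nat_lit 197) (nat_lit 191))))) (XT.nd (nat_lit 312) (nat_lit 0) (nat_lit 0) (XT.nd (nat_lit 156) (nat_lit 0) (nat_lit 0) (XT.nd (nat_lit 78) (nat_lit 0) (nat_lit 0) (XT.lf (nat_lit 0) (nat_lit 8178475158) (nat_lit 76) (nat_lit 63611498383) (nat_lit 76) (nat_lit 62669777939) (nat_lit 1) (nat_lit 4) (nat_lit 2) (nat_lit 5) (nat_lit 2)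 (nat_lit 4) (nat_lit 333) (nat_lit 197) (nat_lit 190)) (XT.lf (nat_lit 0) (nat_lit 11257106903) (nat_lit 76) (nat_lit 65450394547) (nat_lit 76) (nat_lit 64398519880) (nat_lit 1) (nat_lit 4) (nat_lit 2) (nat_lit 5) (nat_lit 2) (nat_lit 4) (nat_lit 334) (nat_lit 197) (nat_lit 189))) (XT.nd (nat_lit 78) (nat_lit 0) (nat_lit 0) (XT.lf (nat_lit 0) (nat_lit 14415788550) (nat_lit 76) (nat_lit 67413861332) (nat_lit 76) (nat_lit 66257077882) (nat_lit 1) (nat_lit 4) (nat_lit 2) (nat_lit 5) (nat_lit 2) (nat_lit 4) (nat_lit 335) (nat_lit 197) (nat_lit 188)) (XT.lf (nat_lit 0) (nat_lit 17662040771) (nat_lit 76) (nat_lit 69506573659) (nat_lit 76) (nat_lit 68249877082) (nat_lit 1) (nat_lit 4) (nat_lit 2) (nat_lit 5) (nat_lit 2) (nat_lit 4) (nat_lit 336) (nat_lit 197) (nat_lit 187)))) (XT.nd (nat_lit 156) (nat_lit 0) (nat_lit 0) (XT.nd (nat_lit 78) (nat_lit 0) (nat_lit 0) (XT.lf (nat_lit 0) (nat_lit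 21003592737) (nat_lit 76) (nat_lit 71733514178) (nat_lit 76) (nat_lit 70381662240) (nat_lit 1) (nat_lit 4) (nat_lit 2) (nat_lit 5) (nat_lit 2) (nat_lit 4) (nat_lit 337) (nat_lit 197) (nat_lit 186)) (XT.lf (nat_lit 0) (nat_lit 24448400523) (nat_lit 76) (nat_lit 74099985125) (nat_lit 76) (nat_lit 72657509037) (nat_lit 1) (nat_lit 4) (nat_lit 2) (nat_lit 5) (nat_lit 2) (nat_lit 4) (nat_lit 338) (nat_lit 197) (nat_lit 185))) (XT.nd (nat_lit 78) (nat_lit 0) (nat_lit 0) (XT.lf (nat_lit 0) (nat_lit 28004666055) (nat_lit 76) (nat_lit 76611620958) (nat_lit 76) (nat_lit 75082836153) (nat_lit 1) (nat_lit 4) (nat_lit 2) (nat_lit 5) (nat_lit 2) (nat_lit 4) (nat_lit 339) (nat_lit 197) (nat_lit 184)) (XT.nd (nat_lit 78) (nat_lit 0) (nat_lit 0) (XT.lf (nat_lit 0) (nat_lit 31680856629) (nat_lit 76) (nat_lit 79274401760) (nat_lit 76) (nat_lit 77663418178) (nat_lit 1) (nat_lit 4) (nat_lit 2) (nat_lit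 5) (nat_lit 2) (nat_lit 4) (nat_lit 340) (nat_lit 197) (nat_lit 183)) (XT.lf (nat_lit 0) (nat_lit 35485725082) (nat_lit 76) (nat_lit 82094667487) (nat_lit 76) (nat_lit 80405399355) (nat_lit 1) (nat_lit 4) (nat_lit 2) (nat_lit 5) (nat_lit 2) (nat_lit 4) (nat_lit 341) (nat_lit 197) (nat_lit 182))))))))
noncomputable def xc11 : XT := (XT.nd (nat_lit 1326) (nat_lit 0) (nat_lit 0) (XT.nd (nat_lit 624) (nat_lit 0) (nat_lit 0) (XT.nd (nat_lit 312) (nat_lit 0) (nat_lit 0) (XT.nd (nat_lit 156) (nat_lit 0) (nat_lit 0) (XT.nd (nat_lit 78) (nat_lit 0) (nat_lit 0) (XT.lf (nat_lit 0) (nat_lit 39428330623) (nat_lit 76) (nat_lit 85079133055) (nat_lit 76) (nat_lit 83315308210) (nat_lit 1) (nat_lit 4) (nat_lit 2) (nat_lit 5) (nat_lit 2) (nat_lit 4) (nat_lit 342) (nat_lit 197) (nat_lit 181)) (XT.lf (nat_lit 0) (nat_lit 43518060409) (nat_lit 76) (nat_lit 88234904337) (nat_lit 76) (nat_lit 86400073098)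 (nat_lit 1) (nat_lit 4) (nat_lit 2) (nat_lit 5) (nat_lit 2) (nat_lit 4) (nat_lit 343) (nat_lit 197) (nat_lit 180))) (XT.nd (nat_lit 78) (nat_lit 0) (nat_lit 0) (XT.lf (nat_lit 0) (nat_lit 47764651892) (nat_lit 76) (nat_lit 91569495073) (nat_lit 76) (nat_lit 89667038697) (nat_lit 1) (nat_lit 4) (nat_lit 2) (nat_lit 5) (nat_lit 2) (nat_lit 4) (nat_lit 344) (nat_lit 197) (nat_lit 179)) (XT.lf (nat_lit 0) (nat_lit 52178216003) (nat_lit 76) (nat_lit 95090844765) (nat_lit 76) (nat_lit 93123983496) (nat_lit 1) (nat_lit 4) (nat_lit 2) (nat_lit 5) (nat_lit 2) (nat_lit 4) (nat_lit 345) (nat_lit 197) (nat_lit 178)))) (XT.nd (nat_lit 156) (nat_lit 0) (nat_lit 0) (XT.nd (nat_lit 78) (nat_lit 0) (nat_lit 0) (XT.lf (nat_lit 0) (nat_lit 56769261228) (nat_lit 76) (nat_lit 98807337578) (nat_lit 76) (nat_lit 96779138316) (nat_lit 1) (nat_lit 4) (nat_lit 2) (nat_lit 5) (nat_lit 2) (nat_lit 4) (nat_lit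 346) (nat_lit 197) (nat_lit 177)) (XT.lf (nat_lit 0) (nat_lit 61548718629) (nat_lit 76) (nat_lit 102727822306) (nat_lit 76) (nat_lit 100641205908) (nat_lit 1) (nat_lit 4) (nat_lit 2) (nat_lit 5) (nat_lit 2) (nat_lit 4) (nat_lit 347) (nat_lit 197) (nat_lit 176))) (XT.nd (nat_lit 78) (nat_lit 0) (nat_lit 0) (XT.lf (nat_lit 0) (nat_lit 66527967864) (nat_lit 76) (nat_lit 106861633435) (nat_lit 76) (nat_lit 104719381669) (nat_lit 1) (nat_lit 4) (nat_lit 2) (nat_lit 5) (nat_lit 2) (nat_lit 4) (nat_lit 348) (nat_lit 197) (nat_lit 175)) (XT.lf (nat_lit 0) (nat_lit 71718864291) (nat_lit 76) (nat_lit 111218613374) (nat_lit 76) (nat_lit 109023375543) (nat_lit 1) (nat_lit 4) (nat_lit 2) (nat_lit 5) (nat_lit 2) (nat_lit 4) (nat_lit 349) (nat_lit 197) (nat_lit 174))))) (XT.nd (nat_lit 312) (nat_lit 0) (nat_lit 0) (XT.nd (nat_lit 156) (nat_lit 0) (nat_lit 0) (XT.nd (nat_lit 78) (nat_lit 0) (nat_lit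 0) (XT.lf (nat_lit 0) (nat_lit 77133767184) (nat_lit 76) (nat_lit 115809135883) (nat_lit 76) (nat_lit 113563435133) (nat_lit 1) (nat_lit 4) (nat_lit 2) (nat_lit 5) (nat_lit 2) (nat_lit 4) (nat_lit 350) (nat_lit 197) (nat_lit 173)) (XT.lf (nat_lit 0) (nat_lit 82785569172) (nat_lit 76) (nat_lit 120644130779) (nat_lit 76) (nat_lit 118350370106) (nat_lit 1) (nat_lit 4) (nat_lit 2) (nat_lit 5) (nat_lit 2) (nat_lit 4) (nat_lit 351) (nat_lit 197) (nat_lit 172))) (XT.nd (nat_lit 78) (nat_lit 0) (nat_lit 0) (XT.lf (nat_lit 0) (nat_lit 88687726924) (nat_lit 76) (nat_lit 125735109953) (nat_lit 76) (nat_lit 123395577926) (nat_lit 1) (nat_lit 4) (nat_lit 2) (nat_lit 5) (nat_lit 2) (nat_lit 4) (nat_lit 352) (nat_lit 197) (nat_lit 171)) (XT.lf (nat_lit 0) (nat_lit 94854293198) (nat_lit 76) (nat_lit 131094194785) (nat_lit 76) (nat_lit 128711070992) (nat_lit 1) (nat_lit 4) (nat_lit 2) (nat_lit 5) (nat_lit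 2) (nat_lit 4) (nat_lit 353) (nat_lit 197) (nat_lit 170)))) (XT.nd (nat_lit 156) (nat_lit 0) (nat_lit 0) (XT.nd (nat_lit 78) (nat_lit 0) (nat_lit 0) (XT.lf (nat_lit 0) (nat_lit 101299950295) (nat_lit 76) (nat_lit 136734145001) (nat_lit 76) (nat_lit 134309505240) (nat_lit 1) (nat_lit 4) (nat_lit 2) (nat_lit 5) (nat_lit 2) (nat_lit 4) (nat_lit 354) (nat_lit 197) (nat_lit 169)) (XT.lf (nat_lit 0) (nat_lit 108040045016) (nat_lit 76) (nat_lit 142668389054) (nat_lit 76) (nat_lit 140204210275) (nat_lit 1) (nat_lit 4) (nat_lit 2) (nat_lit 5) (nat_lit 2) (nat_lit 4) (nat_lit 355) (nat_lit 197) (nat_lit 168))) (XT.nd (nat_lit 78) (nat_lit 0) (nat_lit 0) (XT.lf (nat_lit 0) (nat_lit 115090625206) (nat_lit 76) (nat_lit 148911056096) (nat_lit 76) (nat_lit 146409221110) (nat_lit 1) (nat_lit 4) (nat_lit 2) (nat_lit 5) (nat_lit 2) (nat_lit 4) (nat_lit 356) (nat_lit 197) (nat_lit 167)) (XT.nd (nat_lit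 78) (nat_lit 0) (nat_lit 0) (XT.lf (nat_lit 0) (nat_lit 122468477962) (nat_lit 76) (nat_lit 155477009620) (nat_lit 76) (nat_lit 152939311580) (nat_lit 1) (nat_lit 4) (nat_lit 2) (nat_lit 5) (nat_lit 2) (nat_lit 4) (nat_lit 357) (nat_lit 197) (nat_lit 166)) (XT.lf (nat_lit 0) (nat_lit 130191169599) (nat_lit 76) (nat_lit 162381882849) (nat_lit 76) (nat_lit 159810029519) (nat_lit 1) (nat_lit 4) (nat_lit 2) (nat_lit 5) (nat_lit 2) (nat_lit 4) (nat_lit 358) (nat_lit 197) (nat_lit 165))))))) (XT.nd (nat_lit 35022) (nat_lit 0) (nat_lit 0) (XT.nd (nat_lit 312) (nat_lit 0) (nat_lit 0) (XT.nd (nat_lit 156) (nat_lit 0) (nat_lit 0) (XT.nd (nat_lit 78) (nat_lit 0) (nat_lit 0) (XT.lf (nat_lit 0) (nat_lit 138277087478) (nat_lit 76) (nat_lit 169642115956) (nat_lit 76) (nat_lit 167037733779) (nat_lit 1) (nat_lit 4) (nat_lit 2) (nat_lit 5) (nat_lit 2) (nat_lit 4) (nat_lit 359) (nat_lit 197) (nat_lit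 164)) (XT.lf (nat_lit 0) (nat_lit 146745483785) (nat_lit 76) (nat_lit 177274995212) (nat_lit 76) (nat_lit 174639633181) (nat_lit 1) (nat_lit 4) (nat_lit 2) (nat_lit 5) (nat_lit 2) (nat_lit 4) (nat_lit 360) (nat_lit 197) (nat_lit 163))) (XT.nd (nat_lit 78) (nat_lit 0) (nat_lit 0) (XT.lf (nat_lit 0) (nat_lit 155616521367) (nat_lit 76) (nat_lit 185298694139) (nat_lit 76) (nat_lit 182633827484) (nat_lit 1) (nat_lit 4) (nat_lit 2) (nat_lit 5) (nat_lit 2) (nat_lit 4) (nat_lit 361) (nat_lit 197) (nat_lit 162)) (XT.lf (nat_lit 0) (nat_lit 164911321744) (nat_lit 76) (nat_lit 193732316781) (nat_lit 76) (nat_lit 191039350485) (nat_lit 1) (nat_lit 4) (nat_lit 2) (nat_lit 5) (nat_lit 2) (nat_lit 4) (nat_lit 362) (nat_lit 197) (nat_lit 161)))) (XT.nd (nat_lit 34476) (nat_lit 0) (nat_lit 76) (XT.nd (nat_lit 78) (nat_lit 0) (nat_lit 0) (XT.lf (nat_lit 0) (nat_lit 174652015392) (nat_lit 76) (nat_lit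 202595943193) (nat_lit 76) (nat_lit 199876215333) (nat_lit 1) (nat_lit 4) (nat_lit 2) (nat_lit 5) (nat_lit 2) (nat_lit 4) (nat_lit 363) (nat_lit 197) (nat_lit 160)) (XT.lf (nat_lit 0) (nat_lit 184861794439) (nat_lit 76) (nat_lit 211910677246) (nat_lit 76) (nat_lit 209165462183) (nat_lit 1) (nat_lit 4) (nat_lit 2) (nat_lit 5) (nat_lit 2) (nat_lit 4) (nat_lit 364) (nat_lit 197) (nat_lit 159))) (XT.nd (nat_lit 78) (nat_lit 0) (nat_lit 0) (XT.lf (nat_lit 0) (nat_lit 17703893484) (nat_lit 152) (nat_lit 8242996632) (nat_lit 0) (nat_lit 17703893484) (nat_lit 2) (nat_lit 5) (nat_lit 4) (nat_lit 4) (nat_lit 2) (nat_lit 4) (nat_lit 324) (nat_lit 198) (nat_lit 198)) (XT.nd (nat_lit 78) (nat_lit 0) (nat_lit 0) (XT.lf (nat_lit 0) (nat_lit 38888822824) (nat_lit 152) (nat_lit 13954842201) (nat_lit 0) (nat_lit 38726074868) (nat_lit 2) (nat_lit 5) (nat_lit 4) (nat_lit 4) (nat_lit 2) (nat_lit 4) (nat_lit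 325) (nat_lit 198) (nat_lit 197)) (XT.lf (nat_lit 0) (nat_lit 42484661005) (nat_lit 152) (nat_lit 11402796778) (nat_lit 0) (nat_lit 42166914996) (nat_lit 2) (nat_lit 5) (nat_lit 4) (nat_lit 4) (nat_lit 2) (nat_lit 4) (nat_lit 326) (nat_lit 198) (nat_lit 196)))))) (XT.nd (nat_lit 312) (nat_lit 76) (nat_lit 0) (XT.nd (nat_lit 156) (nat_lit 0) (nat_lit 0) (XT.nd (nat_lit 78) (nat_lit 0) (nat_lit 0) (XT.lf (nat_lit 0) (nat_lit 46203863031) (nat_lit 152) (nat_lit 8823780699) (nat_lit 0) (nat_lit 45738499828) (nat_lit 2) (nat_lit 5) (nat_lit 4) (nat_lit 4) (nat_lit 2) (nat_lit 4) (nat_lit 327) (nat_lit 198) (nat_lit 195)) (XT.lf (nat_lit 0) (nat_lit 50055284145) (nat_lit 152) (nat_lit 6211653449) (nat_lit 0) (nat_lit 49449333138) (nat_lit 2) (nat_lit 5) (nat_lit 4) (nat_lit 4) (nat_lit 2) (nat_lit 4) (nat_lit 328) (nat_lit 198) (nat_lit 194))) (XT.nd (nat_lit 78) (nat_lit 0) (nat_lit 0)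 (XT.lf (nat_lit 0) (nat_lit 54048094397) (nat_lit 152) (nat_lit 3560195677) (nat_lit 0) (nat_lit 53308250244) (nat_lit 2) (nat_lit 5) (nat_lit 4) (nat_lit 4) (nat_lit 2) (nat_lit 4) (nat_lit 329) (nat_lit 198) (nat_lit 193)) (XT.lf (nat_lit 0) (nat_lit 58191800479) (nat_lit 152) (nat_lit 863094388) (nat_lit 0) (nat_lit 57324439043) (nat_lit 2) (nat_lit 5) (nat_lit 4) (nat_lit 4) (nat_lit 2) (nat_lit 4) (nat_lit 330) (nat_lit 198) (nat_lit 192)))) (XT.nd (nat_lit 156) (nat_lit 0) (nat_lit 0) (XT.nd (nat_lit 78) (nat_lit 0) (nat_lit 0) (XT.lf (nat_lit 0) (nat_lit 1948434148) (nat_lit 76) (nat_lit 60578254725) (nat_lit 76) (nat_lit 59589448259) (nat_lit 1) (nat_lit 4) (nat_lit 2) (nat_lit 5) (nat_lit 2) (nat_lit 4) (nat_lit 331) (nat_lit 198) (nat_lit 191)) (XT.lf (nat_lit 0) (nat_lit 4849049242) (nat_lit 76) (nat_lit 62198404769) (nat_lit 76) (nat_lit 61093936369) (nat_lit 1) (nat_lit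 4) (nat_lit 2) (nat_lit 5) (nat_lit 2) (nat_lit 4) (nat_lit 332) (nat_lit 198) (nat_lit 190))) (XT.nd (nat_lit 78) (nat_lit 0) (nat_lit 0) (XT.lf (nat_lit 0) (nat_lit 7817119321) (nat_lit 76) (nat_lit 63933819418) (nat_lit 76) (nat_lit 62719196795) (nat_lit 1) (nat_lit 4) (nat_lit 2) (nat_lit 5) (nat_lit 2) (nat_lit 4) (nat_lit 333) (nat_lit 198) (nat_lit 189)) (XT.nd (nat_lit 78) (nat_lit 0) (nat_lit 0) (XT.lf (nat_lit 0) (nat_lit 10859711220) (nat_lit 76) (nat_lit 65788630613) (nat_lit 76) (nat_lit 64469099206) (nat_lit 1) (nat_lit 4) (nat_lit 2) (nat_lit 5) (nat_lit 2) (nat_lit 4) (nat_lit 334) (nat_lit 198) (nat_lit 188)) (XT.lf (nat_lit 0) (nat_lit 13984069205) (nat_lit 76) (nat_lit 67767254570) (nat_lit 76) (nat_lit 66347810037) (nat_lit 1) (nat_lit 4) (nat_lit 2) (nat_lit 5) (nat_lit 2) (nat_lit 4) (nat_lit 335) (nat_lit 198) (nat_lit 187))))))))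
noncomputable def xc12 : XT := (XT.nd (nat_lit 1326) (nat_lit 0) (nat_lit 0) (XT.nd (nat_lit 624) (nat_lit 0) (nat_lit 0) (XT.nd (nat_lit 312) (nat_lit 0) (nat_lit 0) (XT.nd (nat_lit 156) (nat_lit 0) (nat_lit 0) (XT.nd (nat_lit 78) (nat_lit 0) (nat_lit 0) (XT.lf (nat_lit 0) (nat_lit 17197632222) (nat_lit 76) (nat_lit 69874402300) (nat_lit 76) (nat_lit 68359802407) (nat_lit 1) (nat_lit 4) (nat_lit 2) (nat_lit 5) (nat_lit 2) (nat_lit 4) (nat_lit 336) (nat_lit 198) (nat_lit 186)) (XT.lf (nat_lit 0) (nat_lit 20508051614) (nat_lit 76) (nat_lit 72115090820) (nat_lit 76) (nat_lit 70509866775) (nat_lit 1) (nat_lit 4) (nat_lit 2) (nat_lit 5) (nat_lit 2) (nat_lit 4) (nat_lit 337) (nat_lit 198) (nat_lit 185))) (XT.nd (nat_lit 78) (nat_lit 0) (nat_lit 0) (XT.lf (nat_lit 0) (nat_lit 23923209330) (nat_lit 76) (nat_lit 74494655103) (nat_lit 76) (nat_lit 72803122342) (nat_lit 1) (nat_lit 4) (nat_lit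 2) (nat_lit 5) (nat_lit 2) (nat_lit 4) (nat_lit 338) (nat_lit 198) (nat_lit 184)) (XT.lf (nat_lit 0) (nat_lit 27451236699) (nat_lit 76) (nat_lit 77018760779) (nat_lit 76) (nat_lit 75245029241) (nat_lit 1) (nat_lit 4) (nat_lit 2) (nat_lit 5) (nat_lit 2) (nat_lit 4) (nat_lit 339) (nat_lit 198) (nat_lit 183)))) (XT.nd (nat_lit 156) (nat_lit 0) (nat_lit 0) (XT.nd (nat_lit 78) (nat_lit 0) (nat_lit 0) (XT.lf (nat_lit 0) (nat_lit 31100533785) (nat_lit 76) (nat_lit 79693417622) (nat_lit 76) (nat_lit 77841401534) (nat_lit 1) (nat_lit 4) (nat_lit 2) (nat_lit 5) (nat_lit 2) (nat_lit 4) (nat_lit 340) (nat_lit 198) (nat_lit 182)) (XT.lf (nat_lit 0) (nat_lit 34879789392) (nat_lit 76) (nat_lit 82524993863) (nat_lit 76) (nat_lit 80598421062) (nat_lit 1) (nat_lit 4) (nat_lit 2) (nat_lit 5) (nat_lit 2) (nat_lit 4) (nat_lit 341) (nat_lit 198) (nat_lit 181))) (XT.nd (nat_lit 78) (nat_lit 0) (nat_lit 0)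 (XT.lf (nat_lit 0) (nat_lit 38798001747) (nat_lit 76) (nat_lit 85520231352) (nat_lit 76) (nat_lit 83522652156) (nat_lit 1) (nat_lit 4) (nat_lit 2) (nat_lit 5) (nat_lit 2) (nat_lit 4) (nat_lit 342) (nat_lit 198) (nat_lit 180)) (XT.lf (nat_lit 0) (nat_lit 42864499926) (nat_lit 76) (nat_lit 88686261604) (nat_lit 76) (nat_lit 86621057271) (nat_lit 1) (nat_lit 4) (nat_lit 2) (nat_lit 5) (nat_lit 2) (nat_lit 4) (nat_lit 343) (nat_lit 198) (nat_lit 179))))) (XT.nd (nat_lit 312) (nat_lit 0) (nat_lit 0) (XT.nd (nat_lit 156) (nat_lit 0) (nat_lit 0) (XT.nd (nat_lit 78) (nat_lit 0) (nat_lit 0) (XT.lf (nat_lit 0) (nat_lit 47088966070) (nat_lit 76) (nat_lit 92030622788) (nat_lit 76) (nat_lit 89901013563) (nat_lit 1) (nat_lit 4) (nat_lit 2) (nat_lit 5) (nat_lit 2) (nat_lit 4) (nat_lit 344) (nat_lit 198) (nat_lit 178)) (XT.lf (nat_lit 0) (nat_lit 51481458429) (nat_lit 76) (nat_lit 95561277669) (nat_lit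 76) (nat_lit 93370330450) (nat_lit 1) (nat_lit 4) (nat_lit 2) (nat_lit 5) (nat_lit 2) (nat_lit 4) (nat_lit 345) (nat_lit 198) (nat_lit 177))) (XT.nd (nat_lit 78) (nat_lit 0) (nat_lit 0) (XT.lf (nat_lit 0) (nat_lit 56052435320) (nat_lit 76) (nat_lit 99286632567) (nat_lit 76) (nat_lit 97037268212) (nat_lit 1) (nat_lit 4) (nat_lit 2) (nat_lit 5) (nat_lit 2) (nat_lit 4) (nat_lit 346) (nat_lit 198) (nat_lit 176)) (XT.lf (nat_lit 0) (nat_lit 60812780020) (nat_lit 76) (nat_lit 103215557375) (nat_lit 76) (nat_lit 100910557653) (nat_lit 1) (nat_lit 4) (nat_lit 2) (nat_lit 5) (nat_lit 2) (nat_lit 4) (nat_lit 347) (nat_lit 198) (nat_lit 175)))) (XT.nd (nat_lit 156) (nat_lit 0) (nat_lit 0) (XT.nd (nat_lit 78) (nat_lit 0) (nat_lit 0) (XT.lf (nat_lit 0) (nat_lit 65773826685) (nat_lit 76) (nat_lit 107357406677) (nat_lit 76) (nat_lit 104999420890) (nat_lit 1) (nat_lit 4) (nat_lit 2) (nat_lit 5) (nat_lit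 2) (nat_lit 4) (nat_lit 348) (nat_lit 198) (nat_lit 174)) (XT.lf (nat_lit 0) (nat_lit 70947387328) (nat_lit 76) (nat_lit 111722042017) (nat_lit 76) (nat_lit 109313593311) (nat_lit 1) (nat_lit 4) (nat_lit 2) (nat_lit 5) (nat_lit 2) (nat_lit 4) (nat_lit 349) (nat_lit 198) (nat_lit 173))) (XT.nd (nat_lit 78) (nat_lit 0) (nat_lit 0) (XT.lf (nat_lit 0) (nat_lit 76345779953) (nat_lit 76) (nat_lit 116319855385) (nat_lit 76) (nat_lit 113863346757) (nat_lit 1) (nat_lit 4) (nat_lit 2) (nat_lit 5) (nat_lit 2) (nat_lit 4) (nat_lit 350) (nat_lit 198) (nat_lit 172)) (XT.nd (nat_lit 78) (nat_lit 0) (nat_lit 0) (XT.lf (nat_lit 0) (nat_lit 81981857875) (nat_lit 76) (nat_lit 121161793956) (nat_lit 76) (nat_lit 118659513973) (nat_lit 1) (nat_lit 4) (nat_lit 2) (nat_lit 5) (nat_lit 2) (nat_lit 4) (nat_lit 351) (nat_lit 198) (nat_lit 171)) (XT.lf (nat_lit 0) (nat_lit 87869040327) (nat_lit 76) (nat_lit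 126259386154) (nat_lit 76) (nat_lit 123713514405) (nat_lit 1) (nat_lit 4) (nat_lit 2) (nat_lit 5) (nat_lit 2) (nat_lit 4) (nat_lit 352) (nat_lit 198) (nat_lit 170))))))) (XT.nd (nat_lit 624) (nat_lit 0) (nat_lit 0) (XT.nd (nat_lit 312) (nat_lit 0) (nat_lit 0) (XT.nd (nat_lit 156) (nat_lit 0) (nat_lit 0) (XT.nd (nat_lit 78) (nat_lit 0) (nat_lit 0) (XT.lf (nat_lit 0) (nat_lit 94021344410) (nat_lit 76) (nat_lit 131624769105) (nat_lit 76) (nat_lit 129037381387) (nat_lit 1) (nat_lit 4) (nat_lit 2) (nat_lit 5) (nat_lit 2) (nat_lit 4) (nat_lit 353) (nat_lit 198) (nat_lit 169)) (XT.lf (nat_lit 0) (nat_lit 100453418468) (nat_lit 76) (nat_lit 137270717529) (nat_lit 76) (nat_lit 134643790794) (nat_lit 1) (nat_lit 4) (nat_lit 2) (nat_lit 5) (nat_lit 2) (nat_lit 4) (nat_lit 354) (nat_lit 198) (nat_lit 168))) (XT.nd (nat_lit 78) (nat_lit 0) (nat_lit 0) (XT.lf (nat_lit 0) (nat_lit 107180576961) (nat_lit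 76) (nat_lit 143210674160) (nat_lit 76) (nat_lit 140546091218) (nat_lit 1) (nat_lit 4) (nat_lit 2) (nat_lit 5) (nat_lit 2) (nat_lit 4) (nat_lit 355) (nat_lit 198) (nat_lit 167)) (XT.lf (nat_lit 0) (nat_lit 114218836935) (nat_lit 76) (nat_lit 149458781753) (nat_lit 76) (nat_lit 146758335757) (nat_lit 1) (nat_lit 4) (nat_lit 2) (nat_lit 5) (nat_lit 2) (nat_lit 4) (nat_lit 356) (nat_lit 198) (nat_lit 166)))) (XT.nd (nat_lit 156) (nat_lit 0) (nat_lit 0) (XT.nd (nat_lit 78) (nat_lit 0) (nat_lit 0) (XT.lf (nat_lit 0) (nat_lit 121584956151) (nat_lit 76) (nat_lit 156029916754) (nat_lit 76) (nat_lit 153295315469) (nat_lit 1) (nat_lit 4) (nat_lit 2) (nat_lit 5) (nat_lit 2) (nat_lit 4) (nat_lit 357) (nat_lit 198) (nat_lit 165)) (XT.lf (nat_lit 0) (nat_lit 129296472988) (nat_lit 76) (nat_lit 162939724723) (nat_lit 76) (nat_lit 160172594590) (nat_lit 1) (nat_lit 4) (nat_lit 2) (nat_lit 5) (nat_lit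 2) (nat_lit 4) (nat_lit 358) (nat_lit 198) (nat_lit 164))) (XT.nd (nat_lit 78) (nat_lit 0) (nat_lit 0) (XT.lf (nat_lit 0) (nat_lit 137371748200) (nat_lit 76) (nat_lit 170204657584) (nat_lit 76) (nat_lit 167406547596) (nat_lit 1) (nat_lit 4) (nat_lit 2) (nat_lit 5) (nat_lit 2) (nat_lit 4) (nat_lit 359) (nat_lit 198) (nat_lit 163)) (XT.lf (nat_lit 0) (nat_lit 145830008634) (nat_lit 76) (nat_lit 177842012795) (nat_lit 76) (nat_lit 175014398184) (nat_lit 1) (nat_lit 4) (nat_lit 2) (nat_lit 5) (nat_lit 2) (nat_lit 4) (nat_lit 360) (nat_lit 198) (nat_lit 162))))) (XT.nd (nat_lit 34476) (nat_lit 0) (nat_lit 76) (XT.nd (nat_lit 156) (nat_lit 0) (nat_lit 0) (XT.nd (nat_lit 78) (nat_lit 0) (nat_lit 0) (XT.lf (nat_lit 0) (nat_lit 154691393005) (nat_lit 76) (nat_lit 185869974536) (nat_lit 76) (nat_lit 183014260283) (nat_lit 1) (nat_lit 4) (nat_lit 2) (nat_lit 5) (nat_lit 2) (nat_lit 4) (nat_lit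 361) (nat_lit 198) (nat_lit 161)) (XT.lf (nat_lit 0) (nat_lit 163976999846) (nat_lit 76) (nat_lit 194307657001) (nat_lit 76) (nat_lit 191425181185) (nat_lit 1) (nat_lit 4) (nat_lit 2) (nat_lit 5) (nat_lit 2) (nat_lit 4) (nat_lit 362) (nat_lit 198) (nat_lit 160))) (XT.nd (nat_lit 78) (nat_lit 0) (nat_lit 0) (XT.lf (nat_lit 0) (nat_lit 173708937746) (nat_lit 76) (nat_lit 203175149910) (nat_lit 76) (nat_lit 200267186892) (nat_lit 1) (nat_lit 4) (nat_lit 2) (nat_lit 5) (nat_lit 2) (nat_lit 4) (nat_lit 363) (nat_lit 198) (nat_lit 159)) (XT.lf (nat_lit 0) (nat_lit 183910377985) (nat_lit 76) (nat_lit 212493566343) (nat_lit 76) (nat_lit 209561329798) (nat_lit 1) (nat_lit 4) (nat_lit 2) (nat_lit 5) (nat_lit 2) (nat_lit 4) (nat_lit 364) (nat_lit 198) (nat_lit 158)))) (XT.nd (nat_lit 156) (nat_lit 0) (nat_lit 0) (XT.nd (nat_lit 78) (nat_lit 0) (nat_lit 0) (XT.lf (nat_lit 0) (nat_lit 14479986562)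 (nat_lit 152) (nat_lit 10726428468) (nat_lit 0) (nat_lit 14479986562) (nat_lit 2) (nat_lit 5) (nat_lit 4) (nat_lit 4) (nat_lit 2) (nat_lit 4) (nat_lit 322) (nat_lit 199) (nat_lit 199)) (XT.lf (nat_lit 0) (nat_lit 32204150613) (nat_lit 152) (nat_lit 19002276520) (nat_lit 0) (nat_lit 32033265259) (nat_lit 2) (nat_lit 5) (nat_lit 4) (nat_lit 4) (nat_lit 2) (nat_lit 4) (nat_lit 323) (nat_lit 199) (nat_lit 198))) (XT.nd (nat_lit 78) (nat_lit 0) (nat_lit 0) (XT.lf (nat_lit 0) (nat_lit 35548325035) (nat_lit 152) (nat_lit 16540113438) (nat_lit 0) (nat_lit 35214691725) (nat_lit 2) (nat_lit 5) (nat_lit 4) (nat_lit 4) (nat_lit 2) (nat_lit 4) (nat_lit 324) (nat_lit 199) (nat_lit 197)) (XT.nd (nat_lit 78) (nat_lit 0) (nat_lit 0) (XT.lf (nat_lit 0) (nat_lit 39000458711) (nat_lit 152) (nat_lit 14060505396) (nat_lit 0) (nat_lit 38511827347) (nat_lit 2) (nat_lit 5) (nat_lit 4) (nat_lit 4) (nat_lit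 2) (nat_lit 4) (nat_lit 325) (nat_lit 199) (nat_lit 196)) (XT.lf (nat_lit 0) (nat_lit 42568771007) (nat_lit 152) (nat_lit 11557548566) (nat_lit 0) (nat_lit 41932522450) (nat_lit 2) (nat_lit 5) (nat_lit 4) (nat_lit 4) (nat_lit 2) (nat_lit 4) (nat_lit 326) (nat_lit 199) (nat_lit 195))))))))
noncomputable def xc13 : XT := (XT.nd (nat_lit 1326) (nat_lit 0) (nat_lit 0) (XT.nd (nat_lit 624) (nat_lit 0) (nat_lit 0) (XT.nd (nat_lit 312) (nat_lit 76) (nat_lit 0) (XT.nd (nat_lit 156) (nat_lit 0) (nat_lit 0) (XT.nd (nat_lit 78) (nat_lit 0) (nat_lit 0) (XT.lf (nat_lit 0) (nat_lit 46261757905) (nat_lit 152) (nat_lit 9025283527) (nat_lit 0) (nat_lit 45484921544) (nat_lit 2) (nat_lit 5) (nat_lit 4) (nat_lit 4) (nat_lit 2) (nat_lit 4) (nat_lit 327) (nat_lit 199) (nat_lit 194)) (XT.lf (nat_lit 0) (nat_lit 50088212229) (nat_lit 152) (nat_lit 6457681077) (nat_lit 0) (nat_lit 49177482722) (nat_lit 2)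 (nat_lit 5) (nat_lit 4) (nat_lit 4) (nat_lit 2) (nat_lit 4) (nat_lit 328) (nat_lit 199) (nat_lit 193))) (XT.nd (nat_lit 78) (nat_lit 0) (nat_lit 0) (XT.lf (nat_lit 0) (nat_lit 54057244587) (nat_lit 152) (nat_lit 3848627876) (nat_lit 0) (nat_lit 53018997798) (nat_lit 2) (nat_lit 5) (nat_lit 4) (nat_lit 4) (nat_lit 2) (nat_lit 4) (nat_lit 329) (nat_lit 199) (nat_lit 192)) (XT.lf (nat_lit 0) (nat_lit 58178305055) (nat_lit 152) (nat_lit 1191911893) (nat_lit 0) (nat_lit 57018613235) (nat_lit 2) (nat_lit 5) (nat_lit 4) (nat_lit 4) (nat_lit 2) (nat_lit 4) (nat_lit 330) (nat_lit 199) (nat_lit 191)))) (XT.nd (nat_lit 156) (nat_lit 0) (nat_lit 0) (XT.nd (nat_lit 78) (nat_lit 0) (nat_lit 0) (XT.lf (nat_lit 0) (nat_lit 1569010520) (nat_lit 76) (nat_lit 60916691813) (nat_lit 76) (nat_lit 59641338059) (nat_lit 1) (nat_lit 4) (nat_lit 2) (nat_lit 5) (nat_lit 2) (nat_lit 4) (nat_lit 331) (nat_lit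 199) (nat_lit 190)) (XT.lf (nat_lit 0) (nat_lit 4431783775) (nat_lit 76) (nat_lit 62553552639) (nat_lit 76) (nat_lit 61168044662) (nat_lit 1) (nat_lit 4) (nat_lit 2) (nat_lit 5) (nat_lit 2) (nat_lit 4) (nat_lit 332) (nat_lit 199) (nat_lit 189))) (XT.nd (nat_lit 78) (nat_lit 0) (nat_lit 0) (XT.lf (nat_lit 0) (nat_lit 7363814009) (nat_lit 76) (nat_lit 64304882319) (nat_lit 76) (nat_lit 62814465558) (nat_lit 1) (nat_lit 4) (nat_lit 2) (nat_lit 5) (nat_lit 2) (nat_lit 4) (nat_lit 333) (nat_lit 199) (nat_lit 188)) (XT.lf (nat_lit 0) (nat_lit 10372082244) (nat_lit 76) (nat_lit 66174850686) (nat_lit 76) (nat_lit 64584520798) (nat_lit 1) (nat_lit 4) (nat_lit 2) (nat_lit 5) (nat_lit 2) (nat_lit 4) (nat_lit 334) (nat_lit 199) (nat_lit 187))))) (XT.nd (nat_lit 312) (nat_lit 0) (nat_lit 0) (XT.nd (nat_lit 156) (nat_lit 0) (nat_lit 0) (XT.nd (nat_lit 78) (nat_lit 0) (nat_lit 0) (XT.lf (nat_lit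 0) (nat_lit 13463751026) (nat_lit 76) (nat_lit 68167910045) (nat_lit 76) (nat_lit 66482424798) (nat_lit 1) (nat_lit 4) (nat_lit 2) (nat_lit 5) (nat_lit 2) (nat_lit 4) (nat_lit 335) (nat_lit 199) (nat_lit 186)) (XT.lf (nat_lit 0) (nat_lit 16646181469) (nat_lit 76) (nat_lit 70288805777) (nat_lit 76) (nat_lit 68512696378) (nat_lit 1) (nat_lit 4) (nat_lit 2) (nat_lit 5) (nat_lit 2) (nat_lit 4) (nat_lit 336) (nat_lit 199) (nat_lit 185))) (XT.nd (nat_lit 78) (nat_lit 0) (nat_lit 0) (XT.lf (nat_lit 0) (nat_lit 19926950790) (nat_lit 76) (nat_lit 72542587632) (nat_lit 76) (nat_lit 70680169517) (nat_lit 1) (nat_lit 4) (nat_lit 2) (nat_lit 5) (nat_lit 2) (nat_lit 4) (nat_lit 337) (nat_lit 199) (nat_lit 184)) (XT.lf (nat_lit 0) (nat_lit 23313870344) (nat_lit 76) (nat_lit 74934621758) (nat_lit 76) (nat_lit 72990004866) (nat_lit 1) (nat_lit 4) (nat_lit 2) (nat_lit 5) (nat_lit 2) (nat_lit 4) (nat_lit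 338) (nat_lit 199) (nat_lit 183)))) (XT.nd (nat_lit 156) (nat_lit 0) (nat_lit 0) (XT.nd (nat_lit 78) (nat_lit 0) (nat_lit 0) (XT.lf (nat_lit 0) (nat_lit 26815004224) (nat_lit 76) (nat_lit 77470603474) (nat_lit 76) (nat_lit 75447702033) (nat_lit 1) (nat_lit 4) (nat_lit 2) (nat_lit 5) (nat_lit 2) (nat_lit 4) (nat_lit 339) (nat_lit 199) (nat_lit 182)) (XT.lf (nat_lit 0) (nat_lit 30438688465) (nat_lit 76) (nat_lit 80156570833) (nat_lit 76) (nat_lit 78059112677) (nat_lit 1) (nat_lit 4) (nat_lit 2) (nat_lit 5) (nat_lit 2) (nat_lit 4) (nat_lit 340) (nat_lit 199) (nat_lit 181))) (XT.nd (nat_lit 78) (nat_lit 0) (nat_lit 0) (XT.lf (nat_lit 0) (nat_lit 34193550885) (nat_lit 76) (nat_lit 82998918994) (nat_lit 76) (nat_lit 80830454444) (nat_lit 1) (nat_lit 4) (nat_lit 2) (nat_lit 5) (nat_lit 2) (nat_lit 4) (nat_lit 341) (nat_lit 199) (nat_lit 180)) (XT.nd (nat_lit 78) (nat_lit 0) (nat_lit 0) (XT.lf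 (nat_lit 0) (nat_lit 38088531634) (nat_lit 76) (nat_lit 86004415453) (nat_lit 76) (nat_lit 83768325766) (nat_lit 1) (nat_lit 4) (nat_lit 2) (nat_lit 5) (nat_lit 2) (nat_lit 4) (nat_lit 342) (nat_lit 199) (nat_lit 179)) (XT.lf (nat_lit 0) (nat_lit 42132904474) (nat_lit 76) (nat_lit 89180216153) (nat_lit 76) (nat_lit 86879721574) (nat_lit 1) (nat_lit 4) (nat_lit 2) (nat_lit 5) (nat_lit 2) (nat_lit 4) (nat_lit 343) (nat_lit 199) (nat_lit 178))))))) (XT.nd (nat_lit 702) (nat_lit 0) (nat_lit 0) (XT.nd (nat_lit 312) (nat_lit 0) (nat_lit 0) (XT.nd (nat_lit 156) (nat_lit 0) (nat_lit 0) (XT.nd (nat_lit 78) (nat_lit 0) (nat_lit 0) (XT.lf (nat_lit 0) (nat_lit 46336298866) (nat_lit 76) (nat_lit 92533882527) (nat_lit 76) (nat_lit 90172049954) (nat_lit 1) (nat_lit 4) (nat_lit 2) (nat_lit 5) (nat_lit 2) (nat_lit 4) (nat_lit 344) (nat_lit 199) (nat_lit 177)) (XT.lf (nat_lit 0) (nat_lit 50708722890)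 (nat_lit 76) (nat_lit 96073399492) (nat_lit 76) (nat_lit 93653149783) (nat_lit 1) (nat_lit 4) (nat_lit 2) (nat_lit 5) (nat_lit 2) (nat_lit 4) (nat_lit 345) (nat_lit 199) (nat_lit 176))) (XT.nd (nat_lit 78) (nat_lit 0) (nat_lit 0) (XT.lf (nat_lit 0) (nat_lit 55260587081) (nat_lit 76) (nat_lit 99807194471) (nat_lit 76) (nat_lit 97331309394) (nat_lit 1) (nat_lit 4) (nat_lit 2) (nat_lit 5) (nat_lit 2) (nat_lit 4) (nat_lit 346) (nat_lit 199) (nat_lit 175)) (XT.lf (nat_lit 0) (nat_lit 60002729210) (nat_lit 76) (nat_lit 103744157451) (nat_lit 76) (nat_lit 101215286310) (nat_lit 1) (nat_lit 4) (nat_lit 2) (nat_lit 5) (nat_lit 2) (nat_lit 4) (nat_lit 347) (nat_lit 199) (nat_lit 174)))) (XT.nd (nat_lit 156) (nat_lit 0) (nat_lit 0) (XT.nd (nat_lit 78) (nat_lit 0) (nat_lit 0) (XT.lf (nat_lit 0) (nat_lit 64946440092) (nat_lit 76) (nat_lit 107893662154) (nat_lit 76) (nat_lit 105314328094) (nat_lit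 1) (nat_lit 4) (nat_lit 2) (nat_lit 5) (nat_lit 2) (nat_lit 4) (nat_lit 348) (nat_lit 199) (nat_lit 173)) (XT.lf (nat_lit 0) (nat_lit 70103490467) (nat_lit 76) (nat_lit 112265588353) (nat_lit 76) (nat_lit 109638194371) (nat_lit 1) (nat_lit 4) (nat_lit 2) (nat_lit 5) (nat_lit 2) (nat_lit 4) (nat_lit 349) (nat_lit 199) (nat_lit 172))) (XT.nd (nat_lit 78) (nat_lit 0) (nat_lit 0) (XT.lf (nat_lit 0) (nat_lit 75486159027) (nat_lit 76) (nat_lit 116870345397) (nat_lit 76) (nat_lit 114197180059) (nat_lit 1) (nat_lit 4) (nat_lit 2) (nat_lit 5) (nat_lit 2) (nat_lit 4) (nat_lit 350) (nat_lit 199) (nat_lit 171)) (XT.nd (nat_lit 78) (nat_lit 0) (nat_lit 0) (XT.lf (nat_lit 0) (nat_lit 81107261648) (nat_lit 76) (nat_lit 121718896991) (nat_lit 76) (nat_lit 119002139888) (nat_lit 1) (nat_lit 4) (nat_lit 2) (nat_lit 5) (nat_lit 2) (nat_lit 4) (nat_lit 351) (nat_lit 199) (nat_lit 170)) (XT.lf (nat_lit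 0) (nat_lit 86980181909) (nat_lit 76) (nat_lit 126822787308) (nat_lit 76) (nat_lit 124064514236) (nat_lit 1) (nat_lit 4) (nat_lit 2) (nat_lit 5) (nat_lit 2) (nat_lit 4) (nat_lit 352) (nat_lit 199) (nat_lit 169)))))) (XT.nd (nat_lit 312) (nat_lit 0) (nat_lit 0) (XT.nd (nat_lit 156) (nat_lit 0) (nat_lit 0) (XT.nd (nat_lit 78) (nat_lit 0) (nat_lit 0) (XT.lf (nat_lit 0) (nat_lit 93118902953) (nat_lit 76) (nat_lit 132194168466) (nat_lit 76) (nat_lit 129396356377) (nat_lit 1) (nat_lit 4) (nat_lit 2) (nat_lit 5) (nat_lit 2) (nat_lit 4) (nat_lit 353) (nat_lit 199) (nat_lit 168)) (XT.lf (nat_lit 0) (nat_lit 99538040783) (nat_lit 76) (nat_lit 137845829469) (nat_lit 76) (nat_lit 135010361173) (nat_lit 1) (nat_lit 4) (nat_lit 2) (nat_lit 5) (nat_lit 2) (nat_lit 4) (nat_lit 354) (nat_lit 199) (nat_lit 167))) (XT.nd (nat_lit 78) (nat_lit 0) (nat_lit 0) (XT.lf (nat_lit 0) (nat_lit 106252879059) (nat_lit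 76) (nat_lit 143791226651) (nat_lit 76) (nat_lit 140919895301) (nat_lit 1) (nat_lit 4) (nat_lit 2) (nat_lit 5) (nat_lit 2) (nat_lit 4) (nat_lit 355) (nat_lit 199) (nat_lit 166)) (XT.lf (nat_lit 0) (nat_lit 113279405493) (nat_lit 76) (nat_lit 150044515722) (nat_lit 76) (nat_lit 147139029082) (nat_lit 1) (nat_lit 4) (nat_lit 2) (nat_lit 5) (nat_lit 2) (nat_lit 4) (nat_lit 356) (nat_lit 199) (nat_lit 165)))) (XT.nd (nat_lit 156) (nat_lit 0) (nat_lit 0) (XT.nd (nat_lit 78) (nat_lit 0) (nat_lit 0) (XT.lf (nat_lit 0) (nat_lit 120634349909) (nat_lit 76) (nat_lit 156620585463) (nat_lit 76) (nat_lit 153682569976) (nat_lit 1) (nat_lit 4) (nat_lit 2) (nat_lit 5) (nat_lit 2) (nat_lit 4) (nat_lit 357) (nat_lit 199) (nat_lit 164)) (XT.lf (nat_lit 0) (nat_lit 128335224080) (nat_lit 76) (nat_lit 163535093185) (nat_lit 76) (nat_lit 160566097843) (nat_lit 1) (nat_lit 4) (nat_lit 2) (nat_lit 5) (nat_lit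 2) (nat_lit 4) (nat_lit 358) (nat_lit 199) (nat_lit 163))) (XT.nd (nat_lit 78) (nat_lit 0) (nat_lit 0) (XT.lf (nat_lit 0) (nat_lit 136400363420) (nat_lit 76) (nat_lit 170804502000) (nat_lit 76) (nat_lit 167806002035) (nat_lit 1) (nat_lit 4) (nat_lit 2) (nat_lit 5) (nat_lit 2) (nat_lit 4) (nat_lit 359) (nat_lit 199) (nat_lit 162)) (XT.nd (nat_lit 78) (nat_lit 0) (nat_lit 0) (XT.lf (nat_lit 0) (nat_lit 144848970642) (nat_lit 76) (nat_lit 178446120026) (nat_lit 76) (nat_lit 175419520419) (nat_lit 1) (nat_lit 4) (nat_lit 2) (nat_lit 5) (nat_lit 2) (nat_lit 4) (nat_lit 360) (nat_lit 199) (nat_lit 161)) (XT.lf (nat_lit 0) (nat_lit 153701161477) (nat_lit 76) (nat_lit 186478141589) (nat_lit 76) (nat_lit 183424780420) (nat_lit 1) (nat_lit 4) (nat_lit 2) (nat_lit 5) (nat_lit 2) (nat_lit 4) (nat_lit 361) (nat_lit 199) (nat_lit 160))))))))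
noncomputable def xc14 : XT := (XT.nd (nat_lit 35334) (nat_lit 0) (nat_lit 0) (XT.nd (nat_lit 34632) (nat_lit 0) (nat_lit 0) (XT.nd (nat_lit 34320) (nat_lit 0) (nat_lit 76) (XT.nd (nat_lit 156) (nat_lit 0) (nat_lit 0) (XT.nd (nat_lit 78) (nat_lit 0) (nat_lit 0) (XT.lf (nat_lit 0) (nat_lit 162978012570) (nat_lit 76) (nat_lit 194919690553) (nat_lit 76) (nat_lit 191840842180) (nat_lit 1) (nat_lit 4) (nat_lit 2) (nat_lit 5) (nat_lit 2) (nat_lit 4) (nat_lit 362) (nat_lit 199) (nat_lit 159)) (XT.lf (nat_lit 0) (nat_lit 172701611662) (nat_lit 76) (nat_lit 203790865842) (nat_lit 76) (nat_lit 200687743942) (nat_lit 1) (nat_lit 4) (nat_lit 2) (nat_lit 5) (nat_lit 2) (nat_lit 4) (nat_lit 363) (nat_lit 199) (nat_lit 158))) (XT.nd (nat_lit 34086) (nat_lit 0) (nat_lit 76) (XT.lf (nat_lit 0) (nat_lit 182895110180) (nat_lit 76) (nat_lit 213112789302) (nat_lit 76) (nat_lit 209986549758) (nat_lit 1)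 (nat_lit 4) (nat_lit 2) (nat_lit 5) (nat_lit 2) (nat_lit 4) (nat_lit 364) (nat_lit 199) (nat_lit 157)) (XT.lf (nat_lit 0) (nat_lit 11476909612) (nat_lit 152) (nat_lit 13141463728) (nat_lit 0) (nat_lit 11476909612) (nat_lit 2) (nat_lit 5) (nat_lit 4) (nat_lit 4) (nat_lit 2) (nat_lit 4) (nat_lit 320) (nat_lit 200) (nat_lit 200)))) (XT.nd (nat_lit 156) (nat_lit 0) (nat_lit 0) (XT.nd (nat_lit 78) (nat_lit 0) (nat_lit 0) (XT.lf (nat_lit 0) (nat_lit 25987497959) (nat_lit 152) (nat_lit 23897689403) (nat_lit 0) (nat_lit 25808068337) (nat_lit 2) (nat_lit 5) (nat_lit 4) (nat_lit 4) (nat_lit 2) (nat_lit 4) (nat_lit 321) (nat_lit 200) (nat_lit 199)) (XT.lf (nat_lit 0) (nat_lit 29107538093) (nat_lit 152) (nat_lit 21509683119) (nat_lit 0) (nat_lit 28757223118) (nat_lit 2) (nat_lit 5) (nat_lit 4) (nat_lit 4) (nat_lit 2) (nat_lit 4) (nat_lit 322) (nat_lit 200) (nat_lit 198))) (XT.nd (nat_lit 78) (nat_lit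 0) (nat_lit 0) (XT.lf (nat_lit 0) (nat_lit 32321368294) (nat_lit 152) (nat_lit 19113222875) (nat_lit 0) (nat_lit 31808305362) (nat_lit 2) (nat_lit 5) (nat_lit 4) (nat_lit 4) (nat_lit 2) (nat_lit 4) (nat_lit 323) (nat_lit 200) (nat_lit 197)) (XT.lf (nat_lit 0) (nat_lit 35636640537) (nat_lit 152) (nat_lit 16702602814) (nat_lit 0) (nat_lit 34968579552) (nat_lit 2) (nat_lit 5) (nat_lit 4) (nat_lit 4) (nat_lit 2) (nat_lit 4) (nat_lit 324) (nat_lit 200) (nat_lit 196))))) (XT.nd (nat_lit 312) (nat_lit 76) (nat_lit 0) (XT.nd (nat_lit 156) (nat_lit 0) (nat_lit 0) (XT.nd (nat_lit 78) (nat_lit 0) (nat_lit 0) (XT.lf (nat_lit 0) (nat_lit 39061248328) (nat_lit 152) (nat_lit 14272083365) (nat_lit 0) (nat_lit 38245570149) (nat_lit 2) (nat_lit 5) (nat_lit 4) (nat_lit 4) (nat_lit 2) (nat_lit 4) (nat_lit 325) (nat_lit 200) (nat_lit 195)) (XT.lf (nat_lit 0) (nat_lit 42603345496) (nat_lit 152) (nat_lit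 11815877575) (nat_lit 0) (nat_lit 41647079513) (nat_lit 2) (nat_lit 5) (nat_lit 4) (nat_lit 4) (nat_lit 2) (nat_lit 4) (nat_lit 326) (nat_lit 200) (nat_lit 194))) (XT.nd (nat_lit 78) (nat_lit 0) (nat_lit 0) (XT.lf (nat_lit 0) (nat_lit 46271365604) (nat_lit 152) (nat_lit 9328137336) (nat_lit 0) (nat_lit 45181206475) (nat_lit 2) (nat_lit 5) (nat_lit 4) (nat_lit 4) (nat_lit 2) (nat_lit 4) (nat_lit 327) (nat_lit 200) (nat_lit 193)) (XT.lf (nat_lit 0) (nat_lit 50074042035) (nat_lit 152) (nat_lit 6802939458) (nat_lit 0) (nat_lit 48856365624) (nat_lit 2) (nat_lit 5) (nat_lit 4) (nat_lit 4) (nat_lit 2) (nat_lit 4) (nat_lit 328) (nat_lit 200) (nat_lit 192)))) (XT.nd (nat_lit 156) (nat_lit 76) (nat_lit 0) (XT.nd (nat_lit 78) (nat_lit 0) (nat_lit 0) (XT.lf (nat_lit 0) (nat_lit 54020428779) (nat_lit 152) (nat_lit 4234271564) (nat_lit 0) (nat_lit 52681307337) (nat_lit 2) (nat_lit 5) (nat_lit 4)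 (nat_lit 4) (nat_lit 2) (nat_lit 4) (nat_lit 329) (nat_lit 200) (nat_lit 191)) (XT.lf (nat_lit 0) (nat_lit 58119921996) (nat_lit 152) (nat_lit 1616017778) (nat_lit 0) (nat_lit 56665138620) (nat_lit 2) (nat_lit 5) (nat_lit 4) (nat_lit 4) (nat_lit 2) (nat_lit 4) (nat_lit 330) (nat_lit 200) (nat_lit 190))) (XT.nd (nat_lit 78) (nat_lit 0) (nat_lit 0) (XT.lf (nat_lit 0) (nat_lit 1093039941) (nat_lit 76) (nat_lit 61306307858) (nat_lit 76) (nat_lit 59741370260) (nat_lit 1) (nat_lit 4) (nat_lit 2) (nat_lit 5) (nat_lit 2) (nat_lit 4) (nat_lit 331) (nat_lit 200) (nat_lit 189)) (XT.nd (nat_lit 78) (nat_lit 0) (nat_lit 0) (XT.lf (nat_lit 0) (nat_lit 3919773350) (nat_lit 76) (nat_lit 62959083715) (nat_lit 76) (nat_lit 61289237333) (nat_lit 1) (nat_lit 4) (nat_lit 2) (nat_lit 5) (nat_lit 2) (nat_lit 4) (nat_lit 332) (nat_lit 200) (nat_lit 188)) (XT.lf (nat_lit 0) (nat_lit 6817479921) (nat_lit 76)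 (nat_lit 64725570567) (nat_lit 76) (nat_lit 62955811057) (nat_lit 1) (nat_lit 4) (nat_lit 2) (nat_lit 5) (nat_lit 2) (nat_lit 4) (nat_lit 333) (nat_lit 200) (nat_lit 187))))))) (XT.nd (nat_lit 624) (nat_lit 0) (nat_lit 0) (XT.nd (nat_lit 312) (nat_lit 0) (nat_lit 0) (XT.nd (nat_lit 156) (nat_lit 0) (nat_lit 0) (XT.nd (nat_lit 78) (nat_lit 0) (nat_lit 0) (XT.lf (nat_lit 0) (nat_lit 9793058954) (nat_lit 76) (nat_lit 66609974336) (nat_lit 76) (nat_lit 64745059467) (nat_lit 1) (nat_lit 4) (nat_lit 2) (nat_lit 5) (nat_lit 2) (nat_lit 4) (nat_lit 334) (nat_lit 200) (nat_lit 186)) (XT.lf (nat_lit 0) (nat_lit 12853595161) (nat_lit 76) (nat_lit 68616781697) (nat_lit 76) (nat_lit 66661242677) (nat_lit 1) (nat_lit 4) (nat_lit 2) (nat_lit 5) (nat_lit 2) (nat_lit 4) (nat_lit 335) (nat_lit 200) (nat_lit 185))) (XT.nd (nat_lit 78) (nat_lit 0) (nat_lit 0) (XT.lf (nat_lit 0) (nat_lit 16006375534) (nat_lit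 76) (nat_lit 70750770764) (nat_lit 76) (nat_lit 68708923028) (nat_lit 1) (nat_lit 4) (nat_lit 2) (nat_lit 5) (nat_lit 2) (nat_lit 4) (nat_lit 336) (nat_lit 200) (nat_lit 184)) (XT.lf (nat_lit 0) (nat_lit 19258906692) (nat_lit 76) (nat_lit 73017022462) (nat_lit 76) (nat_lit 70892975949) (nat_lit 1) (nat_lit 4) (nat_lit 2) (nat_lit 5) (nat_lit 2) (nat_lit 4) (nat_lit 337) (nat_lit 200) (nat_lit 183)))) (XT.nd (nat_lit 156) (nat_lit 0) (nat_lit 0) (XT.nd (nat_lit 78) (nat_lit 0) (nat_lit 0) (XT.lf (nat_lit 0) (nat_lit 22618932757) (nat_lit 76) (nat_lit 75420932629) (nat_lit 76) (nat_lit 73218601566) (nat_lit 1) (nat_lit 4) (nat_lit 2) (nat_lit 5) (nat_lit 2) (nat_lit 4) (nat_lit 338) (nat_lit 200) (nat_lit 182)) (XT.lf (nat_lit 0) (nat_lit 26094453792) (nat_lit 76) (nat_lit 77968224861) (nat_lit 76) (nat_lit 75691337084) (nat_lit 1) (nat_lit 4) (nat_lit 2) (nat_lit 5) (nat_lit 2) (nat_lit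 4) (nat_lit 339) (nat_lit 200) (nat_lit 181))) (XT.nd (nat_lit 78) (nat_lit 0) (nat_lit 0) (XT.lf (nat_lit 0) (nat_lit 29693744846) (nat_lit 76) (nat_lit 80664964139) (nat_lit 76) (nat_lit 78317069968) (nat_lit 1) (nat_lit 4) (nat_lit 2) (nat_lit 5) (nat_lit 2) (nat_lit 4) (nat_lit 340) (nat_lit 200) (nat_lit 180)) (XT.lf (nat_lit 0) (nat_lit 33425375660) (nat_lit 76) (nat_lit 83517571270) (nat_lit 76) (nat_lit 81102051962) (nat_lit 1) (nat_lit 4) (nat_lit 2) (nat_lit 5) (nat_lit 2) (nat_lit 4) (nat_lit 341) (nat_lit 200) (nat_lit 179))))) (XT.nd (nat_lit 312) (nat_lit 0) (nat_lit 0) (XT.nd (nat_lit 156) (nat_lit 0) (nat_lit 0) (XT.nd (nat_lit 78) (nat_lit 0) (nat_lit 0) (XT.lf (nat_lit 0) (nat_lit 37298231069) (nat_lit 76) (nat_lit 86532838178) (nat_lit 76) (nat_lit 84052913976) (nat_lit 1) (nat_lit 4) (nat_lit 2) (nat_lit 5) (nat_lit 2) (nat_lit 4) (nat_lit 342) (nat_lit 200) (nat_lit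 178)) (XT.lf (nat_lit 0) (nat_lit 41321532158) (nat_lit 76) (nat_lit 89717944067) (nat_lit 76) (nat_lit 87176681873) (nat_lit 1) (nat_lit 4) (nat_lit 2) (nat_lit 5) (nat_lit 2) (nat_lit 4) (nat_lit 343) (nat_lit 200) (nat_lit 177))) (XT.nd (nat_lit 78) (nat_lit 0) (nat_lit 0) (XT.lf (nat_lit 0) (nat_lit 45504858215) (nat_lit 76) (nat_lit 93080472525) (nat_lit 76) (nat_lit 90480793195) (nat_lit 1) (nat_lit 4) (nat_lit 2) (nat_lit 5) (nat_lit 2) (nat_lit 4) (nat_lit 344) (nat_lit 200) (nat_lit 176)) (XT.lf (nat_lit 0) (nat_lit 49858169539) (nat_lit 76) (nat_lit 96628429571) (nat_lit 76) (nat_lit 93973114873) (nat_lit 1) (nat_lit 4) (nat_lit 2) (nat_lit 5) (nat_lit 2) (nat_lit 4) (nat_lit 345) (nat_lit 200) (nat_lit 175)))) (XT.nd (nat_lit 156) (nat_lit 0) (nat_lit 0) (XT.nd (nat_lit 78) (nat_lit 0) (nat_lit 0) (XT.lf (nat_lit 0) (nat_lit 54391831159) (nat_lit 76) (nat_lit 100370262722)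 (nat_lit 76) (nat_lit 97661961959) (nat_lit 1) (nat_lit 4) (nat_lit 2) (nat_lit 5) (nat_lit 2) (nat_lit 4) (nat_lit 346) (nat_lit 200) (nat_lit 174)) (XT.lf (nat_lit 0) (nat_lit 59116637506) (nat_lit 76) (nat_lit 104314881104) (nat_lit 76) (nat_lit 101556117422) (nat_lit 1) (nat_lit 4) (nat_lit 2) (nat_lit 5) (nat_lit 2) (nat_lit 4) (nat_lit 347) (nat_lit 200) (nat_lit 173))) (XT.nd (nat_lit 78) (nat_lit 0) (nat_lit 0) (XT.lf (nat_lit 0) (nat_lit 64043838119) (nat_lit 76) (nat_lit 108471676666) (nat_lit 76) (nat_lit 105664853062) (nat_lit 1) (nat_lit 4) (nat_lit 2) (nat_lit 5) (nat_lit 2) (nat_lit 4) (nat_lit 348) (nat_lit 200) (nat_lit 172)) (XT.nd (nat_lit 78) (nat_lit 0) (nat_lit 0) (XT.lf (nat_lit 0) (nat_lit 69185164429) (nat_lit 76) (nat_lit 112850546540) (nat_lit 76) (nat_lit 109997951582) (nat_lit 1) (nat_lit 4) (nat_lit 2) (nat_lit 5) (nat_lit 2) (nat_lit 4) (nat_lit 349)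 (nat_lit 200) (nat_lit 171)) (XT.lf (nat_lit 0) (nat_lit 74552857687) (nat_lit 76) (nat_lit 117461916608) (nat_lit 76) (nat_lit 114565729882) (nat_lit 1) (nat_lit 4) (nat_lit 2) (nat_lit 5) (nat_lit 2) (nat_lit 4) (nat_lit 350) (nat_lit 200) (nat_lit 170))))))))
noncomputable def xc15 : XT := (XT.nd (nat_lit 35178) (nat_lit 0) (nat_lit 0) (XT.nd (nat_lit 624) (nat_lit 0) (nat_lit 0) (XT.nd (nat_lit 312) (nat_lit 0) (nat_lit 0) (XT.nd (nat_lit 156) (nat_lit 0) (nat_lit 0) (XT.nd (nat_lit 78) (nat_lit 0) (nat_lit 0) (XT.lf (nat_lit 0) (nat_lit 80159698118) (nat_lit 76) (nat_lit 122316766321) (nat_lit 76) (nat_lit 119379063627) (nat_lit 1) (nat_lit 4) (nat_lit 2) (nat_lit 5) (nat_lit 2) (nat_lit 4) (nat_lit 351) (nat_lit 200) (nat_lit 169)) (XT.lf (nat_lit 0) (nat_lit 86019035340) (nat_lit 76) (nat_lit 127426654845) (nat_lit 76) (nat_lit 124449413134) (nat_lit 1) (nat_lit 4) (nat_lit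 2) (nat_lit 5) (nat_lit 2) (nat_lit 4) (nat_lit 352) (nat_lit 200) (nat_lit 168))) (XT.nd (nat_lit 78) (nat_lit 0) (nat_lit 0) (XT.lf (nat_lit 0) (nat_lit 92144820156) (nat_lit 76) (nat_lit 132803748582) (nat_lit 76) (nat_lit 129788850664) (nat_lit 1) (nat_lit 4) (nat_lit 2) (nat_lit 5) (nat_lit 2) (nat_lit 4) (nat_lit 353) (nat_lit 200) (nat_lit 167)) (XT.lf (nat_lit 0) (nat_lit 98551637769) (nat_lit 76) (nat_lit 138460850136) (nat_lit 76) (nat_lit 135410089164) (nat_lit 1) (nat_lit 4) (nat_lit 2) (nat_lit 5) (nat_lit 2) (nat_lit 4) (nat_lit 354) (nat_lit 200) (nat_lit 166)))) (XT.nd (nat_lit 156) (nat_lit 0) (nat_lit 0) (XT.nd (nat_lit 78) (nat_lit 0) (nat_lit 0) (XT.lf (nat_lit 0) (nat_lit 105254742506) (nat_lit 76) (nat_lit 144411428796) (nat_lit 76) (nat_lit 141326512534) (nat_lit 1) (nat_lit 4) (nat_lit 2) (nat_lit 5) (nat_lit 2) (nat_lit 4) (nat_lit 355) (nat_lit 200) (nat_lit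 165)) (XT.lf (nat_lit 0) (nat_lit 112270094140) (nat_lit 76) (nat_lit 150669652606) (nat_lit 76) (nat_lit 147552207498) (nat_lit 1) (nat_lit 4) (nat_lit 2) (nat_lit 5) (nat_lit 2) (nat_lit 4) (nat_lit 356) (nat_lit 200) (nat_lit 164))) (XT.nd (nat_lit 78) (nat_lit 0) (nat_lit 0) (XT.lf (nat_lit 0) (nat_lit 119614395890) (nat_lit 76) (nat_lit 157250422101) (nat_lit 76) (nat_lit 154101997137) (nat_lit 1) (nat_lit 4) (nat_lit 2) (nat_lit 5) (nat_lit 2) (nat_lit 4) (nat_lit 357) (nat_lit 200) (nat_lit 163)) (XT.lf (nat_lit 0) (nat_lit 127305134188) (nat_lit 76) (nat_lit 164169405777) (nat_lit 76) (nat_lit 160991476191) (nat_lit 1) (nat_lit 4) (nat_lit 2) (nat_lit 5) (nat_lit 2) (nat_lit 4) (nat_lit 358) (nat_lit 200) (nat_lit 162))))) (XT.nd (nat_lit 312) (nat_lit 0) (nat_lit 0) (XT.nd (nat_lit 156) (nat_lit 0) (nat_lit 0) (XT.nd (nat_lit 78) (nat_lit 0) (nat_lit 0) (XT.lf (nat_lit 0)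 (nat_lit 135360620315) (nat_lit 76) (nat_lit 171443077407) (nat_lit 76) (nat_lit 168237048179) (nat_lit 1) (nat_lit 4) (nat_lit 2) (nat_lit 5) (nat_lit 2) (nat_lit 4) (nat_lit 359) (nat_lit 200) (nat_lit 161)) (XT.lf (nat_lit 0) (nat_lit 143800034001) (nat_lit 76) (nat_lit 179088755255) (nat_lit 76) (nat_lit 175855964464) (nat_lit 1) (nat_lit 4) (nat_lit 2) (nat_lit 5) (nat_lit 2) (nat_lit 4) (nat_lit 360) (nat_lit 200) (nat_lit 160))) (XT.nd (nat_lit 78) (nat_lit 0) (nat_lit 0) (XT.lf (nat_lit 0) (nat_lit 152643469088) (nat_lit 76) (nat_lit 187124643317) (nat_lit 76) (nat_lit 183866365323) (nat_lit 1) (nat_lit 4) (nat_lit 2) (nat_lit 5) (nat_lit 2) (nat_lit 4) (nat_lit 361) (nat_lit 200) (nat_lit 159)) (XT.lf (nat_lit 0) (nat_lit 161911981374) (nat_lit 76) (nat_lit 195569874660) (nat_lit 76) (nat_lit 192287323139) (nat_lit 1) (nat_lit 4) (nat_lit 2) (nat_lit 5) (nat_lit 2) (nat_lit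 4) (nat_lit 362) (nat_lit 200) (nat_lit 158)))) (XT.nd (nat_lit 34008) (nat_lit 0) (nat_lit 76) (XT.nd (nat_lit 78) (nat_lit 0) (nat_lit 0) (XT.lf (nat_lit 0) (nat_lit 171627638745) (nat_lit 76) (nat_lit 204444556976) (nat_lit 76) (nat_lit 201138887811) (nat_lit 1) (nat_lit 4) (nat_lit 2) (nat_lit 5) (nat_lit 2) (nat_lit 4) (nat_lit 363) (nat_lit 200) (nat_lit 157)) (XT.lf (nat_lit 0) (nat_lit 181813573718) (nat_lit 76) (nat_lit 213769820463) (nat_lit 76) (nat_lit 210442134494) (nat_lit 1) (nat_lit 4) (nat_lit 2) (nat_lit 5) (nat_lit 2) (nat_lit 4) (nat_lit 364) (nat_lit 200) (nat_lit 156))) (XT.nd (nat_lit 78) (nat_lit 0) (nat_lit 0) (XT.lf (nat_lit 0) (nat_lit 8670187040) (nat_lit 152) (nat_lit 15502585746) (nat_lit 0) (nat_lit 8670187040) (nat_lit 2) (nat_lit 5) (nat_lit 4) (nat_lit 4) (nat_lit 2) (nat_lit 4) (nat_lit 318) (nat_lit 201) (nat_lit 201)) (XT.nd (nat_lit 78) (nat_lit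 0) (nat_lit 0) (XT.lf (nat_lit 0) (nat_lit 20187679946) (nat_lit 152) (nat_lit 28671076419) (nat_lit 0) (nat_lit 19999278844) (nat_lit 2) (nat_lit 5) (nat_lit 4) (nat_lit 4) (nat_lit 2) (nat_lit 4) (nat_lit 319) (nat_lit 201) (nat_lit 200)) (XT.lf (nat_lit 0) (nat_lit 23108762442) (nat_lit 152) (nat_lit 26342594948) (nat_lit 0) (nat_lit 22740931717) (nat_lit 2) (nat_lit 5) (nat_lit 4) (nat_lit 4) (nat_lit 2) (nat_lit 4) (nat_lit 320) (nat_lit 201) (nat_lit 199))))))) (XT.nd (nat_lit 702) (nat_lit 76) (nat_lit 0) (XT.nd (nat_lit 312) (nat_lit 0) (nat_lit 0) (XT.nd (nat_lit 156) (nat_lit 0) (nat_lit 0) (XT.nd (nat_lit 78) (nat_lit 0) (nat_lit 0) (XT.lf (nat_lit 0) (nat_lit 26110576524) (nat_lit 152) (nat_lit 24014183075) (nat_lit 0) (nat_lit 25571860446) (nat_lit 2) (nat_lit 5) (nat_lit 4) (nat_lit 4) (nat_lit 2) (nat_lit 4) (nat_lit 321) (nat_lit 201) (nat_lit 198)) (XT.lf (nat_lit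 0) (nat_lit 29200269370) (nat_lit 152) (nat_lit 21680296964) (nat_lit 0) (nat_lit 28498805336) (nat_lit 2) (nat_lit 5) (nat_lit 4) (nat_lit 4) (nat_lit 2) (nat_lit 4) (nat_lit 322) (nat_lit 201) (nat_lit 197))) (XT.nd (nat_lit 78) (nat_lit 0) (nat_lit 0) (XT.lf (nat_lit 0) (nat_lit 32385197392) (nat_lit 152) (nat_lit 19335379742) (nat_lit 0) (nat_lit 31528735304) (nat_lit 2) (nat_lit 5) (nat_lit 4) (nat_lit 4) (nat_lit 2) (nat_lit 4) (nat_lit 323) (nat_lit 201) (nat_lit 196)) (XT.lf (nat_lit 0) (nat_lit 35672943750) (nat_lit 152) (nat_lit 16973848274) (nat_lit 0) (nat_lit 34668864468) (nat_lit 2) (nat_lit 5) (nat_lit 4) (nat_lit 4) (nat_lit 2) (nat_lit 4) (nat_lit 324) (nat_lit 201) (nat_lit 195)))) (XT.nd (nat_lit 156) (nat_lit 0) (nat_lit 0) (XT.nd (nat_lit 78) (nat_lit 0) (nat_lit 0) (XT.lf (nat_lit 0) (nat_lit 39071336413) (nat_lit 152) (nat_lit 14590079864) (nat_lit 0) (nat_lit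 37926669327) (nat_lit 2) (nat_lit 5) (nat_lit 4) (nat_lit 4) (nat_lit 2) (nat_lit 4) (nat_lit 325) (nat_lit 201) (nat_lit 194)) (XT.lf (nat_lit 0) (nat_lit 42588466791) (nat_lit 152) (nat_lit 12178398875) (nat_lit 0) (nat_lit 41309906560) (nat_lit 2) (nat_lit 5) (nat_lit 4) (nat_lit 4) (nat_lit 2) (nat_lit 4) (nat_lit 326) (nat_lit 201) (nat_lit 193))) (XT.nd (nat_lit 78) (nat_lit 0) (nat_lit 0) (XT.lf (nat_lit 0) (nat_lit 46232709006) (nat_lit 152) (nat_lit 9733063208) (nat_lit 0) (nat_lit 44826631492) (nat_lit 2) (nat_lit 5) (nat_lit 4) (nat_lit 4) (nat_lit 2) (nat_lit 4) (nat_lit 327) (nat_lit 201) (nat_lit 192)) (XT.nd (nat_lit 78) (nat_lit 0) (nat_lit 0) (XT.lf (nat_lit 0) (nat_lit 50012739823) (nat_lit 152) (nat_lit 7248250636) (nat_lit 0) (nat_lit 48485217278) (nat_lit 2) (nat_lit 5) (nat_lit 4) (nat_lit 4) (nat_lit 2) (nat_lit 4) (nat_lit 328) (nat_lit 201) (nat_lit 191)) (XT.lf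 (nat_lit 0) (nat_lit 53937559316) (nat_lit 152) (nat_lit 4718044939) (nat_lit 0) (nat_lit 52294374837) (nat_lit 2) (nat_lit 5) (nat_lit 4) (nat_lit 4) (nat_lit 2) (nat_lit 4) (nat_lit 329) (nat_lit 201) (nat_lit 190)))))) (XT.nd (nat_lit 312) (nat_lit 0) (nat_lit 0) (XT.nd (nat_lit 156) (nat_lit 0) (nat_lit 0) (XT.nd (nat_lit 78) (nat_lit 76) (nat_lit 0) (XT.lf (nat_lit 0) (nat_lit 58016512293) (nat_lit 152) (nat_lit 2136421816) (nat_lit 0) (nat_lit 56263173592) (nat_lit 2) (nat_lit 5) (nat_lit 4) (nat_lit 4) (nat_lit 2) (nat_lit 4) (nat_lit 330) (nat_lit 201) (nat_lit 189)) (XT.lf (nat_lit 0) (nat_lit 519389149) (nat_lit 76) (nat_lit 61748030519) (nat_lit 76) (nat_lit 59889783034) (nat_lit 1) (nat_lit 4) (nat_lit 2) (nat_lit 5) (nat_lit 2) (nat_lit 4) (nat_lit 331) (nat_lit 201) (nat_lit 188))) (XT.nd (nat_lit 78) (nat_lit 0) (nat_lit 0) (XT.lf (nat_lit 0) (nat_lit 3311798895) (nat_lit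 76) (nat_lit 63415963548) (nat_lit 76) (nat_lit 61457802935) (nat_lit 1) (nat_lit 4) (nat_lit 2) (nat_lit 5) (nat_lit 2) (nat_lit 4) (nat_lit 332) (nat_lit 201) (nat_lit 187)) (XT.lf (nat_lit 0) (nat_lit 6176816263) (nat_lit 76) (nat_lit 65196885802) (nat_lit 76) (nat_lit 63143569830) (nat_lit 1) (nat_lit 4) (nat_lit 2) (nat_lit 5) (nat_lit 2) (nat_lit 4) (nat_lit 333) (nat_lit 201) (nat_lit 186)))) (XT.nd (nat_lit 156) (nat_lit 0) (nat_lit 0) (XT.nd (nat_lit 78) (nat_lit 0) (nat_lit 0) (XT.lf (nat_lit 0) (nat_lit 9121262721) (nat_lit 76) (nat_lit 67095037573) (nat_lit 76) (nat_lit 64951097450) (nat_lit 1) (nat_lit 4) (nat_lit 2) (nat_lit 5) (nat_lit 2) (nat_lit 4) (nat_lit 334) (nat_lit 201) (nat_lit 185)) (XT.lf (nat_lit 0) (nat_lit 12152148858) (nat_lit 76) (nat_lit 69114938269) (nat_lit 76) (nat_lit 66884689430) (nat_lit 1) (nat_lit 4) (nat_lit 2) (nat_lit 5) (nat_lit 2) (nat_lit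 4) (nat_lit 335) (nat_lit 201) (nat_lit 184))) (XT.nd (nat_lit 78) (nat_lit 0) (nat_lit 0) (XT.lf (nat_lit 0) (nat_lit 15276691068) (nat_lit 76) (nat_lit 71261397179) (nat_lit 76) (nat_lit 68948949563) (nat_lit 1) (nat_lit 4) (nat_lit 2) (nat_lit 5) (nat_lit 2) (nat_lit 4) (nat_lit 336) (nat_lit 201) (nat_lit 183)) (XT.nd (nat_lit 78) (nat_lit 0) (nat_lit 0) (XT.lf (nat_lit 0) (nat_lit 18502328738) (nat_lit 76) (nat_lit 73539524918) (nat_lit 76) (nat_lit 71148792752) (nat_lit 1) (nat_lit 4) (nat_lit 2) (nat_lit 5) (nat_lit 2) (nat_lit 4) (nat_lit 337) (nat_lit 201) (nat_lit 182)) (XT.lf (nat_lit 0) (nat_lit 21836741958) (nat_lit 76) (nat_lit 75954745601) (nat_lit 76) (nat_lit 73489456721) (nat_lit 1) (nat_lit 4) (nat_lit 2) (nat_lit 5) (nat_lit 2) (nat_lit 4) (nat_lit 338) (nat_lit 201) (nat_lit 181))))))))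
noncomputable def xc16 : XT := (XT.nd (nat_lit 1326) (nat_lit 0) (nat_lit 0) (XT.nd (nat_lit 624) (nat_lit 0) (nat_lit 0) (XT.nd (nat_lit 312) (nat_lit 0) (nat_lit 0) (XT.nd (nat_lit 156) (nat_lit 0) (nat_lit 0) (XT.nd (nat_lit 78) (nat_lit 0) (nat_lit 0) (XT.lf (nat_lit 0) (nat_lit 25287869806) (nat_lit 76) (nat_lit 78512809752) (nat_lit 76) (nat_lit 75976514478) (nat_lit 1) (nat_lit 4) (nat_lit 2) (nat_lit 5) (nat_lit 2) (nat_lit 4) (nat_lit 339) (nat_lit 201) (nat_lit 180)) (XT.lf (nat_lit 0) (nat_lit 28863929254) (nat_lit 76) (nat_lit 81219808000) (nat_lit 76) (nat_lit 78615887589) (nat_lit 1) (nat_lit 4) (nat_lit 2) (nat_lit 5) (nat_lit 2) (nat_lit 4) (nat_lit 340) (nat_lit 201) (nat_lit 179))) (XT.nd (nat_lit 78) (nat_lit 0) (nat_lit 0) (XT.lf (nat_lit 0) (nat_lit 32573434729) (nat_lit 76) (nat_lit 84082185580) (nat_lit 76) (nat_lit 81413860276) (nat_lit 1) (nat_lit 4) (nat_lit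 2) (nat_lit 5) (nat_lit 2) (nat_lit 4) (nat_lit 341) (nat_lit 201) (nat_lit 178)) (XT.lf (nat_lit 0) (nat_lit 36425218386) (nat_lit 76) (nat_lit 87106757676) (nat_lit 76) (nat_lit 84377094379) (nat_lit 1) (nat_lit 4) (nat_lit 2) (nat_lit 5) (nat_lit 2) (nat_lit 4) (nat_lit 342) (nat_lit 201) (nat_lit 177)))) (XT.nd (nat_lit 156) (nat_lit 0) (nat_lit 0) (XT.nd (nat_lit 78) (nat_lit 0) (nat_lit 0) (XT.lf (nat_lit 0) (nat_lit 40428451140) (nat_lit 76) (nat_lit 90300725650) (nat_lit 76) (nat_lit 87512645217) (nat_lit 1) (nat_lit 4) (nat_lit 2) (nat_lit 5) (nat_lit 2) (nat_lit 4) (nat_lit 343) (nat_lit 201) (nat_lit 176)) (XT.lf (nat_lit 0) (nat_lit 44592664497) (nat_lit 76) (nat_lit 93671694189) (nat_lit 76) (nat_lit 90827978388) (nat_lit 1) (nat_lit 4) (nat_lit 2) (nat_lit 5) (nat_lit 2) (nat_lit 4) (nat_lit 344) (nat_lit 201) (nat_lit 175))) (XT.nd (nat_lit 78) (nat_lit 0) (nat_lit 0)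 (XT.lf (nat_lit 0) (nat_lit 48927773250) (nat_lit 76) (nat_lit 97227689407) (nat_lit 76) (nat_lit 94330987541) (nat_lit 1) (nat_lit 4) (nat_lit 2) (nat_lit 5) (nat_lit 2) (nat_lit 4) (nat_lit 345) (nat_lit 201) (nat_lit 174)) (XT.lf (nat_lit 0) (nat_lit 53444099087) (nat_lit 76) (nat_lit 100977177959) (nat_lit 76) (nat_lit 98030013175) (nat_lit 1) (nat_lit 4) (nat_lit 2) (nat_lit 5) (nat_lit 2) (nat_lit 4) (nat_lit 346) (nat_lit 201) (nat_lit 173))))) (XT.nd (nat_lit 312) (nat_lit 0) (nat_lit 0) (XT.nd (nat_lit 156) (nat_lit 0) (nat_lit 0) (XT.nd (nat_lit 78) (nat_lit 0) (nat_lit 0) (XT.lf (nat_lit 0) (nat_lit 58152395165) (nat_lit 76) (nat_lit 104929087200) (nat_lit 76) (nat_lit 101933862494) (nat_lit 1) (nat_lit 4) (nat_lit 2) (nat_lit 5) (nat_lit 2) (nat_lit 4) (nat_lit 347) (nat_lit 201) (nat_lit 172)) (XT.lf (nat_lit 0) (nat_lit 63063871713) (nat_lit 76) (nat_lit 109092826438)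 (nat_lit 76) (nat_lit 106051830376) (nat_lit 1) (nat_lit 4) (nat_lit 2) (nat_lit 5) (nat_lit 2) (nat_lit 4) (nat_lit 348) (nat_lit 201) (nat_lit 171))) (XT.nd (nat_lit 78) (nat_lit 0) (nat_lit 0) (XT.lf (nat_lit 0) (nat_lit 68190222722) (nat_lit 76) (nat_lit 113478309336) (nat_lit 76) (nat_lit 110393721508) (nat_lit 1) (nat_lit 4) (nat_lit 2) (nat_lit 5) (nat_lit 2) (nat_lit 4) (nat_lit 349) (nat_lit 201) (nat_lit 170)) (XT.lf (nat_lit 0) (nat_lit 73543653790) (nat_lit 76) (nat_lit 118095977522) (nat_lit 76) (nat_lit 114969873725) (nat_lit 1) (nat_lit 4) (nat_lit 2) (nat_lit 5) (nat_lit 2) (nat_lit 4) (nat_lit 350) (nat_lit 201) (nat_lit 169)))) (XT.nd (nat_lit 156) (nat_lit 0) (nat_lit 0) (XT.nd (nat_lit 78) (nat_lit 0) (nat_lit 0) (XT.lf (nat_lit 0) (nat_lit 79136911181) (nat_lit 76) (nat_lit 122956825442) (nat_lit 76) (nat_lit 119791182629) (nat_lit 1) (nat_lit 4) (nat_lit 2) (nat_lit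 5) (nat_lit 2) (nat_lit 4) (nat_lit 351) (nat_lit 201) (nat_lit 168)) (XT.lf (nat_lit 0) (nat_lit 84983312176) (nat_lit 76) (nat_lit 128072426545) (nat_lit 76) (nat_lit 124869127525) (nat_lit 1) (nat_lit 4) (nat_lit 2) (nat_lit 5) (nat_lit 2) (nat_lit 4) (nat_lit 352) (nat_lit 201) (nat_lit 167))) (XT.nd (nat_lit 78) (nat_lit 0) (nat_lit 0) (XT.lf (nat_lit 0) (nat_lit 91096776775) (nat_lit 76) (nat_lit 133454960833) (nat_lit 76) (nat_lit 130215798759) (nat_lit 1) (nat_lit 4) (nat_lit 2) (nat_lit 5) (nat_lit 2) (nat_lit 4) (nat_lit 353) (nat_lit 201) (nat_lit 166)) (XT.nd (nat_lit 78) (nat_lit 0) (nat_lit 0) (XT.lf (nat_lit 0) (nat_lit 97491860848) (nat_lit 76) (nat_lit 139117243864) (nat_lit 76) (nat_lit 135843926500) (nat_lit 1) (nat_lit 4) (nat_lit 2) (nat_lit 5) (nat_lit 2) (nat_lit 4) (nat_lit 354) (nat_lit 201) (nat_lit 165)) (XT.lf (nat_lit 0) (nat_lit 104183790786) (nat_lit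 76) (nat_lit 145072757265) (nat_lit 76) (nat_lit 141766911053) (nat_lit 1) (nat_lit 4) (nat_lit 2) (nat_lit 5) (nat_lit 2) (nat_lit 4) (nat_lit 355) (nat_lit 201) (nat_lit 164))))))) (XT.nd (nat_lit 624) (nat_lit 0) (nat_lit 0) (XT.nd (nat_lit 312) (nat_lit 0) (nat_lit 0) (XT.nd (nat_lit 156) (nat_lit 0) (nat_lit 0) (XT.nd (nat_lit 78) (nat_lit 0) (nat_lit 0) (XT.lf (nat_lit 0) (nat_lit 111188499753) (nat_lit 76) (nat_lit 151335680828) (nat_lit 76) (nat_lit 147998854762) (nat_lit 1) (nat_lit 4) (nat_lit 2) (nat_lit 5) (nat_lit 2) (nat_lit 4) (nat_lit 356) (nat_lit 201) (nat_lit 163)) (XT.lf (nat_lit 0) (nat_lit 118522665630) (nat_lit 76) (nat_lit 157920926277) (nat_lit 76) (nat_lit 154554595588) (nat_lit 1) (nat_lit 4) (nat_lit 2) (nat_lit 5) (nat_lit 2) (nat_lit 4) (nat_lit 357) (nat_lit 201) (nat_lit 162))) (XT.nd (nat_lit 78) (nat_lit 0) (nat_lit 0) (XT.lf (nat_lit 0) (nat_lit 126203750715)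 (nat_lit 76) (nat_lit 164844172768) (nat_lit 76) (nat_lit 161449742438) (nat_lit 1) (nat_lit 4) (nat_lit 2) (nat_lit 5) (nat_lit 2) (nat_lit 4) (nat_lit 358) (nat_lit 201) (nat_lit 161)) (XT.lf (nat_lit 0) (nat_lit 134250043308) (nat_lit 76) (nat_lit 172121904221) (nat_lit 76) (nat_lit 168700712327) (nat_lit 1) (nat_lit 4) (nat_lit 2) (nat_lit 5) (nat_lit 2) (nat_lit 4) (nat_lit 359) (nat_lit 201) (nat_lit 160)))) (XT.nd (nat_lit 156) (nat_lit 0) (nat_lit 0) (XT.nd (nat_lit 78) (nat_lit 0) (nat_lit 0) (XT.lf (nat_lit 0) (nat_lit 142680701246) (nat_lit 76) (nat_lit 179771448567) (nat_lit 76) (nat_lit 176324769471) (nat_lit 1) (nat_lit 4) (nat_lit 2) (nat_lit 5) (nat_lit 2) (nat_lit 4) (nat_lit 360) (nat_lit 201) (nat_lit 159)) (XT.lf (nat_lit 0) (nat_lit 151515797525) (nat_lit 76) (nat_lit 187811019009) (nat_lit 76) (nat_lit 184340066385) (nat_lit 1) (nat_lit 4) (nat_lit 2) (nat_lit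 5) (nat_lit 2) (nat_lit 4) (nat_lit 361) (nat_lit 201) (nat_lit 158))) (XT.nd (nat_lit 78) (nat_lit 0) (nat_lit 0) (XT.lf (nat_lit 0) (nat_lit 160776368089) (nat_lit 76) (nat_lit 196259757379) (nat_lit 76) (nat_lit 192765687111) (nat_lit 1) (nat_lit 4) (nat_lit 2) (nat_lit 5) (nat_lit 2) (nat_lit 4) (nat_lit 362) (nat_lit 201) (nat_lit 157)) (XT.lf (nat_lit 0) (nat_lit 170484461915) (nat_lit 76) (nat_lit 205137779722) (nat_lit 76) (nat_lit 201621692650) (nat_lit 1) (nat_lit 4) (nat_lit 2) (nat_lit 5) (nat_lit 2) (nat_lit 4) (nat_lit 363) (nat_lit 201) (nat_lit 156))))) (XT.nd (nat_lit 34008) (nat_lit 0) (nat_lit 76) (XT.nd (nat_lit 33852) (nat_lit 0) (nat_lit 76) (XT.nd (nat_lit 33774) (nat_lit 0) (nat_lit 76) (XT.lf (nat_lit 0) (nat_lit 180663193513) (nat_lit 76) (nat_lit 214466224187) (nat_lit 76) (nat_lit 210929168729) (nat_lit 1) (nat_lit 4) (nat_lit 2) (nat_lit 5) (nat_lit 2)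 (nat_lit 4) (nat_lit 364) (nat_lit 201) (nat_lit 155)) (XT.lf (nat_lit 0) (nat_lit 6037421514) (nat_lit 152) (nat_lit 17823337556) (nat_lit 0) (nat_lit 6037421514) (nat_lit 2) (nat_lit 5) (nat_lit 4) (nat_lit 4) (nat_lit 2) (nat_lit 4) (nat_lit 316) (nat_lit 202) (nat_lit 202))) (XT.nd (nat_lit 78) (nat_lit 0) (nat_lit 0) (XT.lf (nat_lit 0) (nat_lit 14757886700) (nat_lit 152) (nat_lit 33350437537) (nat_lit 0) (nat_lit 14560065543) (nat_lit 2) (nat_lit 5) (nat_lit 4) (nat_lit 4) (nat_lit 2) (nat_lit 4) (nat_lit 317) (nat_lit 202) (nat_lit 201)) (XT.lf (nat_lit 0) (nat_lit 17503064458) (nat_lit 152) (nat_lit 31067822357) (nat_lit 0) (nat_lit 17116842198) (nat_lit 2) (nat_lit 5) (nat_lit 4) (nat_lit 4) (nat_lit 2) (nat_lit 4) (nat_lit 318) (nat_lit 202) (nat_lit 200)))) (XT.nd (nat_lit 156) (nat_lit 0) (nat_lit 0) (XT.nd (nat_lit 78) (nat_lit 0) (nat_lit 0) (XT.lf (nat_lit 0) (nat_lit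 20316912440) (nat_lit 152) (nat_lit 28793394775) (nat_lit 0) (nat_lit 19751260558) (nat_lit 2) (nat_lit 5) (nat_lit 4) (nat_lit 4) (nat_lit 2) (nat_lit 4) (nat_lit 319) (nat_lit 202) (nat_lit 199)) (XT.lf (nat_lit 0) (nat_lit 23206130283) (nat_lit 152) (nat_lit 26521739485) (nat_lit 0) (nat_lit 22469593046) (nat_lit 2) (nat_lit 5) (nat_lit 4) (nat_lit 4) (nat_lit 2) (nat_lit 4) (nat_lit 320) (nat_lit 202) (nat_lit 198))) (XT.nd (nat_lit 78) (nat_lit 0) (nat_lit 0) (XT.lf (nat_lit 0) (nat_lit 26177597077) (nat_lit 152) (nat_lit 24247447786) (nat_lit 0) (nat_lit 25278311885) (nat_lit 2) (nat_lit 5) (nat_lit 4) (nat_lit 4) (nat_lit 2) (nat_lit 4) (nat_lit 321) (nat_lit 202) (nat_lit 197)) (XT.nd (nat_lit 78) (nat_lit 0) (nat_lit 0) (XT.lf (nat_lit 0) (nat_lit 29238387744) (nat_lit 152) (nat_lit 21965104697) (nat_lit 0) (nat_lit 28184104498) (nat_lit 2) (nat_lit 5) (nat_lit 4) (nat_lit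 4) (nat_lit 2) (nat_lit 4) (nat_lit 322) (nat_lit 202) (nat_lit 196)) (XT.lf (nat_lit 0) (nat_lit 32395789881) (nat_lit 152) (nat_lit 19669276067) (nat_lit 0) (nat_lit 31193889441) (nat_lit 2) (nat_lit 5) (nat_lit 4) (nat_lit 4) (nat_lit 2) (nat_lit 4) (nat_lit 323) (nat_lit 202) (nat_lit 195))))))))
noncomputable def xc17 : XT := (XT.nd (nat_lit 1326) (nat_lit 0) (nat_lit 0) (XT.nd (nat_lit 624) (nat_lit 76) (nat_lit 0) (XT.nd (nat_lit 312) (nat_lit 0) (nat_lit 0) (XT.nd (nat_lit 156) (nat_lit 0) (nat_lit 0) (XT.nd (nat_lit 78) (nat_lit 0) (nat_lit 0) (XT.lf (nat_lit 0) (nat_lit 35657321110) (nat_lit 152) (nat_lit 17354495639) (nat_lit 0) (nat_lit 34314832867) (nat_lit 2) (nat_lit 5) (nat_lit 4) (nat_lit 4) (nat_lit 2) (nat_lit 4) (nat_lit 324) (nat_lit 202) (nat_lit 194)) (XT.lf (nat_lit 0) (nat_lit 39030746984) (nat_lit 152) (nat_lit 15015252030) (nat_lit 0) (nat_lit 37554365595)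 (nat_lit 2) (nat_lit 5) (nat_lit 4) (nat_lit 4) (nat_lit 2) (nat_lit 4) (nat_lit 325) (nat_lit 202) (nat_lit 193))) (XT.nd (nat_lit 78) (nat_lit 0) (nat_lit 0) (XT.lf (nat_lit 0) (nat_lit 42524099468) (nat_lit 152) (nat_lit 12645975612) (nat_lit 0) (nat_lit 40920200797) (nat_lit 2) (nat_lit 5) (nat_lit 4) (nat_lit 4) (nat_lit 2) (nat_lit 4) (nat_lit 326) (nat_lit 202) (nat_lit 192)) (XT.lf (nat_lit 0) (nat_lit 46145696069) (nat_lit 152) (nat_lit 10241025252) (nat_lit 0) (nat_lit 44420352367) (nat_lit 2) (nat_lit 5) (nat_lit 4) (nat_lit 4) (nat_lit 2) (nat_lit 4) (nat_lit 327) (nat_lit 202) (nat_lit 191)))) (XT.nd (nat_lit 156) (nat_lit 0) (nat_lit 0) (XT.nd (nat_lit 78) (nat_lit 0) (nat_lit 0) (XT.lf (nat_lit 0) (nat_lit 49904159635) (nat_lit 152) (nat_lit 7794674876) (nat_lit 0) (nat_lit 48063153999) (nat_lit 2) (nat_lit 5) (nat_lit 4) (nat_lit 4) (nat_lit 2) (nat_lit 4) (nat_lit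 328) (nat_lit 202) (nat_lit 190)) (XT.lf (nat_lit 0) (nat_lit 53808438889) (nat_lit 152) (nat_lit 5301099842) (nat_lit 0) (nat_lit 51857279030) (nat_lit 2) (nat_lit 5) (nat_lit 4) (nat_lit 4) (nat_lit 2) (nat_lit 4) (nat_lit 329) (nat_lit 202) (nat_lit 189))) (XT.nd (nat_lit 78) (nat_lit 0) (nat_lit 0) (XT.lf (nat_lit 0) (nat_lit 57867829734) (nat_lit 152) (nat_lit 2754363065) (nat_lit 0) (nat_lit 55811761091) (nat_lit 2) (nat_lit 5) (nat_lit 4) (nat_lit 4) (nat_lit 2) (nat_lit 4) (nat_lit 330) (nat_lit 202) (nat_lit 188)) (XT.lf (nat_lit 0) (nat_lit 62091997387) (nat_lit 152) (nat_lit 148400887) (nat_lit 0) (nat_lit 59936015617) (nat_lit 2) (nat_lit 5) (nat_lit 4) (nat_lit 4) (nat_lit 2) (nat_lit 4) (nat_lit 331) (nat_lit 202) (nat_lit 187))))) (XT.nd (nat_lit 312) (nat_lit 0) (nat_lit 0) (XT.nd (nat_lit 156) (nat_lit 0) (nat_lit 0) (XT.nd (nat_lit 78) (nat_lit 0) (nat_lit 0) (XT.lf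 (nat_lit 0) (nat_lit 2606412851) (nat_lit 76) (nat_lit 63925279946) (nat_lit 76) (nat_lit 61674142817) (nat_lit 1) (nat_lit 4) (nat_lit 2) (nat_lit 5) (nat_lit 2) (nat_lit 4) (nat_lit 332) (nat_lit 202) (nat_lit 186)) (XT.lf (nat_lit 0) (nat_lit 5440297644) (nat_lit 76) (nat_lit 65719950203) (nat_lit 76) (nat_lit 63378188921) (nat_lit 1) (nat_lit 4) (nat_lit 2) (nat_lit 5) (nat_lit 2) (nat_lit 4) (nat_lit 333) (nat_lit 202) (nat_lit 185))) (XT.nd (nat_lit 78) (nat_lit 0) (nat_lit 0) (XT.lf (nat_lit 0) (nat_lit 8355094032) (nat_lit 76) (nat_lit 67631195309) (nat_lit 76) (nat_lit 65203125312) (nat_lit 1) (nat_lit 4) (nat_lit 2) (nat_lit 5) (nat_lit 2) (nat_lit 4) (nat_lit 334) (nat_lit 202) (nat_lit 184)) (XT.lf (nat_lit 0) (nat_lit 11357742006) (nat_lit 76) (nat_lit 69663565848) (nat_lit 76) (nat_lit 67153297074) (nat_lit 1) (nat_lit 4) (nat_lit 2) (nat_lit 5) (nat_lit 2) (nat_lit 4)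 (nat_lit 335) (nat_lit 202) (nat_lit 183)))) (XT.nd (nat_lit 156) (nat_lit 0) (nat_lit 0) (XT.nd (nat_lit 78) (nat_lit 0) (nat_lit 0) (XT.lf (nat_lit 0) (nat_lit 14455390729) (nat_lit 76) (nat_lit 71821900799) (nat_lit 76) (nat_lit 69233347475) (nat_lit 1) (nat_lit 4) (nat_lit 2) (nat_lit 5) (nat_lit 2) (nat_lit 4) (nat_lit 336) (nat_lit 202) (nat_lit 182)) (XT.lf (nat_lit 0) (nat_lit 17655415553) (nat_lit 76) (nat_lit 74111339053) (nat_lit 76) (nat_lit 71448229016) (nat_lit 1) (nat_lit 4) (nat_lit 2) (nat_lit 5) (nat_lit 2) (nat_lit 4) (nat_lit 337) (nat_lit 202) (nat_lit 181))) (XT.nd (nat_lit 78) (nat_lit 0) (nat_lit 0) (XT.lf (nat_lit 0) (nat_lit 20965435586) (nat_lit 76) (nat_lit 76537331655) (nat_lit 76) (nat_lit 73803215223) (nat_lit 1) (nat_lit 4) (nat_lit 2) (nat_lit 5) (nat_lit 2) (nat_lit 4) (nat_lit 338) (nat_lit 202) (nat_lit 180)) (XT.nd (nat_lit 78) (nat_lit 0) (nat_lit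 0) (XT.lf (nat_lit 0) (nat_lit 24393331828) (nat_lit 76) (nat_lit 79105654777) (nat_lit 76) (nat_lit 76303913208) (nat_lit 1) (nat_lit 4) (nat_lit 2) (nat_lit 5) (nat_lit 2) (nat_lit 4) (nat_lit 339) (nat_lit 202) (nat_lit 179)) (XT.lf (nat_lit 0) (nat_lit 27947265936) (nat_lit 76) (nat_lit 81822423473) (nat_lit 76) (nat_lit 78956277012) (nat_lit 1) (nat_lit 4) (nat_lit 2) (nat_lit 5) (nat_lit 2) (nat_lit 4) (nat_lit 340) (nat_lit 202) (nat_lit 178))))))) (XT.nd (nat_lit 702) (nat_lit 0) (nat_lit 0) (XT.nd (nat_lit 312) (nat_lit 0) (nat_lit 0) (XT.nd (nat_lit 156) (nat_lit 0) (nat_lit 0) (XT.nd (nat_lit 78) (nat_lit 0) (nat_lit 0) (XT.lf (nat_lit 0) (nat_lit 31635699659) (nat_lit 76) (nat_lit 84694106242) (nat_lit 76) (nat_lit 81766621787) (nat_lit 1) (nat_lit 4) (nat_lit 2) (nat_lit 5) (nat_lit 2) (nat_lit 4) (nat_lit 341) (nat_lit 202) (nat_lit 177)) (XT.lf (nat_lit 0) (nat_lit 35467414982)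 (nat_lit 76) (nat_lit 87727540423) (nat_lit 76) (nat_lit 84741638832) (nat_lit 1) (nat_lit 4) (nat_lit 2) (nat_lit 5) (nat_lit 2) (nat_lit 4) (nat_lit 342) (nat_lit 202) (nat_lit 176))) (XT.nd (nat_lit 78) (nat_lit 0) (nat_lit 0) (XT.lf (nat_lit 0) (nat_lit 39451535036) (nat_lit 76) (nat_lit 90929948478) (nat_lit 76) (nat_lit 87888411519) (nat_lit 1) (nat_lit 4) (nat_lit 2) (nat_lit 5) (nat_lit 2) (nat_lit 4) (nat_lit 343) (nat_lit 202) (nat_lit 175)) (XT.lf (nat_lit 0) (nat_lit 43597545821) (nat_lit 76) (nat_lit 94308955188) (nat_lit 76) (nat_lit 91214432165) (nat_lit 1) (nat_lit 4) (nat_lit 2) (nat_lit 5) (nat_lit 2) (nat_lit 4) (nat_lit 344) (nat_lit 202) (nat_lit 174)))) (XT.nd (nat_lit 156) (nat_lit 0) (nat_lit 0) (XT.nd (nat_lit 78) (nat_lit 0) (nat_lit 0) (XT.lf (nat_lit 0) (nat_lit 47915318792) (nat_lit 76) (nat_lit 97872605808) (nat_lit 76) (nat_lit 94727619866) (nat_lit 1)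 (nat_lit 4) (nat_lit 2) (nat_lit 5) (nat_lit 2) (nat_lit 4) (nat_lit 345) (nat_lit 202) (nat_lit 173)) (XT.lf (nat_lit 0) (nat_lit 52415134361) (nat_lit 76) (nat_lit 101629385220) (nat_lit 76) (nat_lit 98436339355) (nat_lit 1) (nat_lit 4) (nat_lit 2) (nat_lit 5) (nat_lit 2) (nat_lit 4) (nat_lit 346) (nat_lit 202) (nat_lit 172))) (XT.nd (nat_lit 78) (nat_lit 0) (nat_lit 0) (XT.lf (nat_lit 0) (nat_lit 57107706373) (nat_lit 76) (nat_lit 105588238136) (nat_lit 76) (nat_lit 102349420916) (nat_lit 1) (nat_lit 4) (nat_lit 2) (nat_lit 5) (nat_lit 2) (nat_lit 4) (nat_lit 347) (nat_lit 202) (nat_lit 171)) (XT.nd (nat_lit 78) (nat_lit 0) (nat_lit 0) (XT.lf (nat_lit 0) (nat_lit 62004207620) (nat_lit 76) (nat_lit 109758590397) (nat_lit 76) (nat_lit 106476181411) (nat_lit 1) (nat_lit 4) (nat_lit 2) (nat_lit 5) (nat_lit 2) (nat_lit 4) (nat_lit 348) (nat_lit 202) (nat_lit 170)) (XT.lf (nat_lit 0)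 (nat_lit 67116296438) (nat_lit 76) (nat_lit 114150371414) (nat_lit 76) (nat_lit 110826446460) (nat_lit 1) (nat_lit 4) (nat_lit 2) (nat_lit 5) (nat_lit 2) (nat_lit 4) (nat_lit 349) (nat_lit 202) (nat_lit 169)))))) (XT.nd (nat_lit 312) (nat_lit 0) (nat_lit 0) (XT.nd (nat_lit 156) (nat_lit 0) (nat_lit 0) (XT.nd (nat_lit 78) (nat_lit 0) (nat_lit 0) (XT.lf (nat_lit 0) (nat_lit 72456144467) (nat_lit 76) (nat_lit 118774037807) (nat_lit 76) (nat_lit 115410573836) (nat_lit 1) (nat_lit 4) (nat_lit 2) (nat_lit 5) (nat_lit 2) (nat_lit 4) (nat_lit 350) (nat_lit 202) (nat_lit 168)) (XT.lf (nat_lit 0) (nat_lit 78036465631) (nat_lit 76) (nat_lit 123640598306) (nat_lit 76) (nat_lit 120239478128) (nat_lit 1) (nat_lit 4) (nat_lit 2) (nat_lit 5) (nat_lit 2) (nat_lit 4) (nat_lit 351) (nat_lit 202) (nat_lit 167))) (XT.nd (nat_lit 78) (nat_lit 0) (nat_lit 0) (XT.lf (nat_lit 0) (nat_lit 83870546409) (nat_lit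 76) (nat_lit 128761639961) (nat_lit 76) (nat_lit 125324656728) (nat_lit 1) (nat_lit 4) (nat_lit 2) (nat_lit 5) (nat_lit 2) (nat_lit 4) (nat_lit 352) (nat_lit 202) (nat_lit 166)) (XT.lf (nat_lit 0) (nat_lit 89972277469) (nat_lit 76) (nat_lit 134149355726) (nat_lit 76) (nat_lit 130678217204) (nat_lit 1) (nat_lit 4) (nat_lit 2) (nat_lit 5) (nat_lit 2) (nat_lit 4) (nat_lit 353) (nat_lit 202) (nat_lit 165)))) (XT.nd (nat_lit 156) (nat_lit 0) (nat_lit 0) (XT.nd (nat_lit 78) (nat_lit 0) (nat_lit 0) (XT.lf (nat_lit 0) (nat_lit 96356186742) (nat_lit 76) (nat_lit 139816573497) (nat_lit 76) (nat_lit 136312906128) (nat_lit 1) (nat_lit 4) (nat_lit 2) (nat_lit 5) (nat_lit 2) (nat_lit 4) (nat_lit 354) (nat_lit 202) (nat_lit 164)) (XT.lf (nat_lit 0) (nat_lit 103037474013) (nat_lit 76) (nat_lit 145776786651) (nat_lit 76) (nat_lit 142242139427) (nat_lit 1) (nat_lit 4) (nat_lit 2) (nat_lit 5) (nat_lit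 2) (nat_lit 4) (nat_lit 355) (nat_lit 202) (nat_lit 163))) (XT.nd (nat_lit 78) (nat_lit 0) (nat_lit 0) (XT.lf (nat_lit 0) (nat_lit 110032047107) (nat_lit 76) (nat_lit 152044186169) (nat_lit 76) (nat_lit 148480034322) (nat_lit 1) (nat_lit 4) (nat_lit 2) (nat_lit 5) (nat_lit 2) (nat_lit 4) (nat_lit 356) (nat_lit 202) (nat_lit 162)) (XT.nd (nat_lit 78) (nat_lit 0) (nat_lit 0) (XT.lf (nat_lit 0) (nat_lit 117356559772) (nat_lit 76) (nat_lit 158633694432) (nat_lit 76) (nat_lit 155041442944) (nat_lit 1) (nat_lit 4) (nat_lit 2) (nat_lit 5) (nat_lit 2) (nat_lit 4) (nat_lit 357) (nat_lit 202) (nat_lit 161)) (XT.lf (nat_lit 0) (nat_lit 125028451322) (nat_lit 76) (nat_lit 165561000746) (nat_lit 76) (nat_lit 161941987694) (nat_lit 1) (nat_lit 4) (nat_lit 2) (nat_lit 5) (nat_lit 2) (nat_lit 4) (nat_lit 358) (nat_lit 202) (nat_lit 160))))))))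
noncomputable def xc18 : XT := (XT.nd (nat_lit 34866) (nat_lit 0) (nat_lit 0) (XT.nd (nat_lit 34164) (nat_lit 0) (nat_lit 76) (XT.nd (nat_lit 312) (nat_lit 0) (nat_lit 0) (XT.nd (nat_lit 156) (nat_lit 0) (nat_lit 0) (XT.nd (nat_lit 78) (nat_lit 0) (nat_lit 0) (XT.lf (nat_lit 0) (nat_lit 133065988166) (nat_lit 76) (nat_lit 172842598697) (nat_lit 76) (nat_lit 169198098442) (nat_lit 1) (nat_lit 4) (nat_lit 2) (nat_lit 5) (nat_lit 2) (nat_lit 4) (nat_lit 359) (nat_lit 202) (nat_lit 159)) (XT.lf (nat_lit 0) (nat_lit 141488307297) (nat_lit 76) (nat_lit 180495825423) (nat_lit 76) (nat_lit 176827051641) (nat_lit 1) (nat_lit 4) (nat_lit 2) (nat_lit 5) (nat_lit 2) (nat_lit 4) (nat_lit 360) (nat_lit 202) (nat_lit 158))) (XT.nd (nat_lit 78) (nat_lit 0) (nat_lit 0) (XT.lf (nat_lit 0) (nat_lit 150315461854) (nat_lit 76) (nat_lit 188538902892) (nat_lit 76) (nat_lit 184847011466) (nat_lit 1) (nat_lit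 4) (nat_lit 2) (nat_lit 5) (nat_lit 2) (nat_lit 4) (nat_lit 361) (nat_lit 202) (nat_lit 157)) (XT.lf (nat_lit 0) (nat_lit 159568468874) (nat_lit 76) (nat_lit 196990981289) (nat_lit 76) (nat_lit 193277073058) (nat_lit 1) (nat_lit 4) (nat_lit 2) (nat_lit 5) (nat_lit 2) (nat_lit 4) (nat_lit 362) (nat_lit 202) (nat_lit 156)))) (XT.nd (nat_lit 33696) (nat_lit 0) (nat_lit 76) (XT.nd (nat_lit 78) (nat_lit 0) (nat_lit 0) (XT.lf (nat_lit 0) (nat_lit 169269359325) (nat_lit 76) (nat_lit 205872184610) (nat_lit 76) (nat_lit 202137307994) (nat_lit 1) (nat_lit 4) (nat_lit 2) (nat_lit 5) (nat_lit 2) (nat_lit 4) (nat_lit 363) (nat_lit 202) (nat_lit 155)) (XT.lf (nat_lit 0) (nat_lit 179441230565) (nat_lit 76) (nat_lit 215203658577) (nat_lit 76) (nat_lit 211448812071) (nat_lit 1) (nat_lit 4) (nat_lit 2) (nat_lit 5) (nat_lit 2) (nat_lit 4) (nat_lit 364) (nat_lit 202) (nat_lit 154))) (XT.nd (nat_lit 78)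 (nat_lit 0) (nat_lit 0) (XT.lf (nat_lit 0) (nat_lit 3558090886) (nat_lit 152) (nat_lit 20116429624) (nat_lit 0) (nat_lit 3558090886) (nat_lit 2) (nat_lit 5) (nat_lit 4) (nat_lit 4) (nat_lit 2) (nat_lit 4) (nat_lit 314) (nat_lit 203) (nat_lit 203)) (XT.lf (nat_lit 0) (nat_lit 9655257459) (nat_lit 152) (nat_lit 37962002314) (nat_lit 0) (nat_lit 9447545243) (nat_lit 2) (nat_lit 5) (nat_lit 4) (nat_lit 4) (nat_lit 2) (nat_lit 4) (nat_lit 315) (nat_lit 203) (nat_lit 202))))) (XT.nd (nat_lit 312) (nat_lit 0) (nat_lit 0) (XT.nd (nat_lit 156) (nat_lit 0) (nat_lit 0) (XT.nd (nat_lit 78) (nat_lit 0) (nat_lit 0) (XT.lf (nat_lit 0) (nat_lit 12245667926) (nat_lit 152) (nat_lit 35712458521) (nat_lit 0) (nat_lit 11840134552) (nat_lit 2) (nat_lit 5) (nat_lit 4) (nat_lit 4) (nat_lit 2) (nat_lit 4) (nat_lit 316) (nat_lit 203) (nat_lit 201)) (XT.lf (nat_lit 0) (nat_lit 14893580819) (nat_lit 152) (nat_lit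 33478871811) (nat_lit 0) (nat_lit 14299646342) (nat_lit 2) (nat_lit 5) (nat_lit 4) (nat_lit 4) (nat_lit 2) (nat_lit 4) (nat_lit 317) (nat_lit 203) (nat_lit 200))) (XT.nd (nat_lit 78) (nat_lit 0) (nat_lit 0) (XT.lf (nat_lit 0) (nat_lit 17605300691) (nat_lit 152) (nat_lit 31255924122) (nat_lit 0) (nat_lit 16831936593) (nat_lit 2) (nat_lit 5) (nat_lit 4) (nat_lit 4) (nat_lit 2) (nat_lit 4) (nat_lit 318) (nat_lit 203) (nat_lit 199)) (XT.lf (nat_lit 0) (nat_lit 20387284020) (nat_lit 152) (nat_lit 29038322721) (nat_lit 0) (nat_lit 19443034568) (nat_lit 2) (nat_lit 5) (nat_lit 4) (nat_lit 4) (nat_lit 2) (nat_lit 4) (nat_lit 319) (nat_lit 203) (nat_lit 198)))) (XT.nd (nat_lit 156) (nat_lit 0) (nat_lit 0) (XT.nd (nat_lit 78) (nat_lit 0) (nat_lit 0) (XT.lf (nat_lit 0) (nat_lit 23246154575) (nat_lit 152) (nat_lit 26820787605) (nat_lit 0) (nat_lit 22139157167) (nat_lit 2) (nat_lit 5) (nat_lit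 4) (nat_lit 4) (nat_lit 2) (nat_lit 4) (nat_lit 320) (nat_lit 203) (nat_lit 197)) (XT.lf (nat_lit 0) (nat_lit 26188719190) (nat_lit 152) (nat_lit 24598038927) (nat_lit 0) (nat_lit 24926723729) (nat_lit 2) (nat_lit 5) (nat_lit 4) (nat_lit 4) (nat_lit 2) (nat_lit 4) (nat_lit 321) (nat_lit 203) (nat_lit 196))) (XT.nd (nat_lit 78) (nat_lit 0) (nat_lit 0) (XT.lf (nat_lit 0) (nat_lit 29221983973) (nat_lit 152) (nat_lit 22364784430) (nat_lit 0) (nat_lit 27812371317) (nat_lit 2) (nat_lit 5) (nat_lit 4) (nat_lit 4) (nat_lit 2) (nat_lit 4) (nat_lit 322) (nat_lit 203) (nat_lit 195)) (XT.nd (nat_lit 78) (nat_lit 0) (nat_lit 0) (XT.lf (nat_lit 0) (nat_lit 32353170980) (nat_lit 152) (nat_lit 20115706841) (nat_lit 0) (nat_lit 30802970521) (nat_lit 2) (nat_lit 5) (nat_lit 4) (nat_lit 4) (nat_lit 2) (nat_lit 4) (nat_lit 323) (nat_lit 203) (nat_lit 194)) (XT.lf (nat_lit 0) (nat_lit 35589735421) (nat_lit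 152) (nat_lit 17845451213) (nat_lit 0) (nat_lit 33905641816) (nat_lit 2) (nat_lit 5) (nat_lit 4) (nat_lit 4) (nat_lit 2) (nat_lit 4) (nat_lit 324) (nat_lit 203) (nat_lit 193))))))) (XT.nd (nat_lit 624) (nat_lit 0) (nat_lit 0) (XT.nd (nat_lit 312) (nat_lit 76) (nat_lit 0) (XT.nd (nat_lit 156) (nat_lit 0) (nat_lit 0) (XT.nd (nat_lit 78) (nat_lit 0) (nat_lit 0) (XT.lf (nat_lit 0) (nat_lit 38939383401) (nat_lit 152) (nat_lit 15548612176) (nat_lit 0) (nat_lit 37127772513) (nat_lit 2) (nat_lit 5) (nat_lit 4) (nat_lit 4) (nat_lit 2) (nat_lit 4) (nat_lit 325) (nat_lit 203) (nat_lit 192)) (XT.lf (nat_lit 0) (nat_lit 42410090272) (nat_lit 152) (nat_lit 13219721065) (nat_lit 0) (nat_lit 40477034353) (nat_lit 2) (nat_lit 5) (nat_lit 4) (nat_lit 4) (nat_lit 2) (nat_lit 4) (nat_lit 326) (nat_lit 203) (nat_lit 191))) (XT.nd (nat_lit 78) (nat_lit 0) (nat_lit 0) (XT.lf (nat_lit 0) (nat_lit 46010119621)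 (nat_lit 152) (nat_lit 10853232901) (nat_lit 0) (nat_lit 43961401769) (nat_lit 2) (nat_lit 5) (nat_lit 4) (nat_lit 4) (nat_lit 2) (nat_lit 4) (nat_lit 327) (nat_lit 203) (nat_lit 190)) (XT.lf (nat_lit 0) (nat_lit 49748042948) (nat_lit 152) (nat_lit 8443513189) (nat_lit 0) (nat_lit 47589170873) (nat_lit 2) (nat_lit 5) (nat_lit 4) (nat_lit 4) (nat_lit 2) (nat_lit 4) (nat_lit 328) (nat_lit 203) (nat_lit 189)))) (XT.nd (nat_lit 156) (nat_lit 76) (nat_lit 0) (XT.nd (nat_lit 78) (nat_lit 0) (nat_lit 0) (XT.lf (nat_lit 0) (nat_lit 53632760069) (nat_lit 152) (nat_lit 5984824500) (nat_lit 0) (nat_lit 51368979211) (nat_lit 2) (nat_lit 5) (nat_lit 4) (nat_lit 4) (nat_lit 2) (nat_lit 4) (nat_lit 329) (nat_lit 203) (nat_lit 188)) (XT.lf (nat_lit 0) (nat_lit 57673520312) (nat_lit 152) (nat_lit 3471312815) (nat_lit 0) (nat_lit 55309826326) (nat_lit 2) (nat_lit 5) (nat_lit 4) (nat_lit 4) (nat_lit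 2) (nat_lit 4) (nat_lit 330) (nat_lit 203) (nat_lit 187))) (XT.nd (nat_lit 78) (nat_lit 76) (nat_lit 0) (XT.lf (nat_lit 0) (nat_lit 61879944534) (nat_lit 152) (nat_lit 896993581) (nat_lit 0) (nat_lit 59421095189) (nat_lit 2) (nat_lit 5) (nat_lit 4) (nat_lit 4) (nat_lit 2) (nat_lit 4) (nat_lit 331) (nat_lit 203) (nat_lit 186)) (XT.lf (nat_lit 0) (nat_lit 1801935728) (nat_lit 76) (nat_lit 64488245569) (nat_lit 76) (nat_lit 61938772072) (nat_lit 1) (nat_lit 4) (nat_lit 2) (nat_lit 5) (nat_lit 2) (nat_lit 4) (nat_lit 332) (nat_lit 203) (nat_lit 185))))) (XT.nd (nat_lit 312) (nat_lit 0) (nat_lit 0) (XT.nd (nat_lit 156) (nat_lit 0) (nat_lit 0) (XT.nd (nat_lit 78) (nat_lit 0) (nat_lit 0) (XT.lf (nat_lit 0) (nat_lit 4606170450) (nat_lit 76) (nat_lit 66296009160) (nat_lit 76) (nat_lit 63660226948) (nat_lit 1) (nat_lit 4) (nat_lit 2) (nat_lit 5) (nat_lit 2) (nat_lit 4) (nat_lit 333) (nat_lit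 203) (nat_lit 184)) (XT.lf (nat_lit 0) (nat_lit 7492728676) (nat_lit 76) (nat_lit 68219724110) (nat_lit 76) (nat_lit 65501743120) (nat_lit 1) (nat_lit 4) (nat_lit 2) (nat_lit 5) (nat_lit 2) (nat_lit 4) (nat_lit 334) (nat_lit 203) (nat_lit 183))) (XT.nd (nat_lit 78) (nat_lit 0) (nat_lit 0) (XT.lf (nat_lit 0) (nat_lit 10468483162) (nat_lit 76) (nat_lit 70263970690) (nat_lit 76) (nat_lit 67467705151) (nat_lit 1) (nat_lit 4) (nat_lit 2) (nat_lit 5) (nat_lit 2) (nat_lit 4) (nat_lit 335) (nat_lit 203) (nat_lit 182)) (XT.lf (nat_lit 0) (nat_lit 13540519038) (nat_lit 76) (nat_lit 72433616156) (nat_lit 76) (nat_lit 69562793903) (nat_lit 1) (nat_lit 4) (nat_lit 2) (nat_lit 5) (nat_lit 2) (nat_lit 4) (nat_lit 336) (nat_lit 203) (nat_lit 181)))) (XT.nd (nat_lit 156) (nat_lit 0) (nat_lit 0) (XT.nd (nat_lit 78) (nat_lit 0) (nat_lit 0) (XT.lf (nat_lit 0) (nat_lit 16716150676) (nat_lit 76) (nat_lit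 74733826330) (nat_lit 76) (nat_lit 71791997682) (nat_lit 1) (nat_lit 4) (nat_lit 2) (nat_lit 5) (nat_lit 2) (nat_lit 4) (nat_lit 337) (nat_lit 203) (nat_lit 180)) (XT.lf (nat_lit 0) (nat_lit 20002939102) (nat_lit 76) (nat_lit 77170077902) (nat_lit 76) (nat_lit 74160624117) (nat_lit 1) (nat_lit 4) (nat_lit 2) (nat_lit 5) (nat_lit 2) (nat_lit 4) (nat_lit 338) (nat_lit 203) (nat_lit 179))) (XT.nd (nat_lit 78) (nat_lit 0) (nat_lit 0) (XT.lf (nat_lit 0) (nat_lit 23408710005) (nat_lit 76) (nat_lit 79748171472) (nat_lit 76) (nat_lit 76674312794) (nat_lit 1) (nat_lit 4) (nat_lit 2) (nat_lit 5) (nat_lit 2) (nat_lit 4) (nat_lit 339) (nat_lit 203) (nat_lit 178)) (XT.nd (nat_lit 78) (nat_lit 0) (nat_lit 0) (XT.lf (nat_lit 0) (nat_lit 26941572362) (nat_lit 76) (nat_lit 82474245358) (nat_lit 76) (nat_lit 79339048687) (nat_lit 1) (nat_lit 4) (nat_lit 2) (nat_lit 5) (nat_lit 2) (nat_lit 4) (nat_lit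 340) (nat_lit 203) (nat_lit 177)) (XT.lf (nat_lit 0) (nat_lit 30609937750) (nat_lit 76) (nat_lit 85354790211) (nat_lit 76) (nat_lit 82161176404) (nat_lit 1) (nat_lit 4) (nat_lit 2) (nat_lit 5) (nat_lit 2) (nat_lit 4) (nat_lit 341) (nat_lit 203) (nat_lit 176))))))))
noncomputable def xc19 : XT := (XT.nd (nat_lit 1326) (nat_lit 0) (nat_lit 0) (XT.nd (nat_lit 624) (nat_lit 0) (nat_lit 0) (XT.nd (nat_lit 312) (nat_lit 0) (nat_lit 0) (XT.nd (nat_lit 156) (nat_lit 0) (nat_lit 0) (XT.nd (nat_lit 78) (nat_lit 0) (nat_lit 0) (XT.lf (nat_lit 0) (nat_lit 34422540373) (nat_lit 76) (nat_lit 88396664472) (nat_lit 76) (nat_lit 85147415298) (nat_lit 1) (nat_lit 4) (nat_lit 2) (nat_lit 5) (nat_lit 2) (nat_lit 4) (nat_lit 342) (nat_lit 203) (nat_lit 175)) (XT.lf (nat_lit 0) (nat_lit 38388457855) (nat_lit 76) (nat_lit 91607110699) (nat_lit 76) (nat_lit 88304875460) (nat_lit 1) (nat_lit 4) (nat_lit 2)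 (nat_lit 5) (nat_lit 2) (nat_lit 4) (nat_lit 343) (nat_lit 203) (nat_lit 174))) (XT.nd (nat_lit 78) (nat_lit 0) (nat_lit 0) (XT.lf (nat_lit 0) (nat_lit 42517132859) (nat_lit 76) (nat_lit 94993772812) (nat_lit 76) (nat_lit 91641074654) (nat_lit 1) (nat_lit 4) (nat_lit 2) (nat_lit 5) (nat_lit 2) (nat_lit 4) (nat_lit 344) (nat_lit 203) (nat_lit 173)) (XT.lf (nat_lit 0) (nat_lit 46818395561) (nat_lit 76) (nat_lit 98564714290) (nat_lit 76) (nat_lit 95163956210) (nat_lit 1) (nat_lit 4) (nat_lit 2) (nat_lit 5) (nat_lit 2) (nat_lit 4) (nat_lit 345) (nat_lit 203) (nat_lit 172)))) (XT.nd (nat_lit 156) (nat_lit 0) (nat_lit 0) (XT.nd (nat_lit 78) (nat_lit 0) (nat_lit 0) (XT.lf (nat_lit 0) (nat_lit 51302487064) (nat_lit 76) (nat_lit 102328437377) (nat_lit 76) (nat_lit 98881907942) (nat_lit 1) (nat_lit 4) (nat_lit 2) (nat_lit 5) (nat_lit 2) (nat_lit 4) (nat_lit 346) (nat_lit 203) (nat_lit 171))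 (XT.lf (nat_lit 0) (nat_lit 55980083776) (nat_lit 76) (nat_lit 106293903317) (nat_lit 76) (nat_lit 102803782116) (nat_lit 1) (nat_lit 4) (nat_lit 2) (nat_lit 5) (nat_lit 2) (nat_lit 4) (nat_lit 347) (nat_lit 203) (nat_lit 170))) (XT.nd (nat_lit 78) (nat_lit 0) (nat_lit 0) (XT.lf (nat_lit 0) (nat_lit 60862322832) (nat_lit 76) (nat_lit 110470553697) (nat_lit 76) (nat_lit 106938916527) (nat_lit 1) (nat_lit 4) (nat_lit 2) (nat_lit 5) (nat_lit 2) (nat_lit 4) (nat_lit 348) (nat_lit 203) (nat_lit 169)) (XT.lf (nat_lit 0) (nat_lit 65960828611) (nat_lit 76) (nat_lit 114868332921) (nat_lit 76) (nat_lit 111297156734) (nat_lit 1) (nat_lit 4) (nat_lit 2) (nat_lit 5) (nat_lit 2) (nat_lit 4) (nat_lit 349) (nat_lit 203) (nat_lit 168))))) (XT.nd (nat_lit 312) (nat_lit 0) (nat_lit 0) (XT.nd (nat_lit 156) (nat_lit 0) (nat_lit 0) (XT.nd (nat_lit 78) (nat_lit 0) (nat_lit 0) (XT.lf (nat_lit 0) (nat_lit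 71287740412) (nat_lit 76) (nat_lit 119497711893) (nat_lit 76) (nat_lit 115888879499) (nat_lit 1) (nat_lit 4) (nat_lit 2) (nat_lit 5) (nat_lit 2) (nat_lit 4) (nat_lit 350) (nat_lit 203) (nat_lit 167)) (XT.lf (nat_lit 0) (nat_lit 76855741359) (nat_lit 76) (nat_lit 124369712944) (nat_lit 76) (nat_lit 120725017496) (nat_lit 1) (nat_lit 4) (nat_lit 2) (nat_lit 5) (nat_lit 2) (nat_lit 4) (nat_lit 351) (nat_lit 203) (nat_lit 166))) (XT.nd (nat_lit 78) (nat_lit 0) (nat_lit 0) (XT.lf (nat_lit 0) (nat_lit 82678088597) (nat_lit 76) (nat_lit 129495936075) (nat_lit 76) (nat_lit 125817085337) (nat_lit 1) (nat_lit 4) (nat_lit 2) (nat_lit 5) (nat_lit 2) (nat_lit 4) (nat_lit 352) (nat_lit 203) (nat_lit 165)) (XT.lf (nat_lit 0) (nat_lit 88768644857) (nat_lit 76) (nat_lit 134888586581) (nat_lit 76) (nat_lit 131177206996) (nat_lit 1) (nat_lit 4) (nat_lit 2) (nat_lit 5) (nat_lit 2) (nat_lit 4) (nat_lit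 353) (nat_lit 203) (nat_lit 164)))) (XT.nd (nat_lit 156) (nat_lit 0) (nat_lit 0) (XT.nd (nat_lit 78) (nat_lit 0) (nat_lit 0) (XT.lf (nat_lit 0) (nat_lit 95141911464) (nat_lit 76) (nat_lit 140560504105) (nat_lit 76) (nat_lit 136818144666) (nat_lit 1) (nat_lit 4) (nat_lit 2) (nat_lit 5) (nat_lit 2) (nat_lit 4) (nat_lit 354) (nat_lit 203) (nat_lit 163)) (XT.lf (nat_lit 0) (nat_lit 101813062862) (nat_lit 76) (nat_lit 146525193213) (nat_lit 76) (nat_lit 142753329150) (nat_lit 1) (nat_lit 4) (nat_lit 2) (nat_lit 5) (nat_lit 2) (nat_lit 4) (nat_lit 355) (nat_lit 203) (nat_lit 162))) (XT.nd (nat_lit 78) (nat_lit 0) (nat_lit 0) (XT.lf (nat_lit 0) (nat_lit 108797982744) (nat_lit 76) (nat_lit 152796855546) (nat_lit 76) (nat_lit 148996891841) (nat_lit 1) (nat_lit 4) (nat_lit 2) (nat_lit 5) (nat_lit 2) (nat_lit 4) (nat_lit 356) (nat_lit 203) (nat_lit 161)) (XT.nd (nat_lit 78) (nat_lit 0) (nat_lit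 0) (XT.lf (nat_lit 0) (nat_lit 116113301873) (nat_lit 76) (nat_lit 159390423632) (nat_lit 76) (nat_lit 155563698365) (nat_lit 1) (nat_lit 4) (nat_lit 2) (nat_lit 5) (nat_lit 2) (nat_lit 4) (nat_lit 357) (nat_lit 203) (nat_lit 160)) (XT.lf (nat_lit 0) (nat_lit 123776437675) (nat_lit 76) (nat_lit 166321596444) (nat_lit 76) (nat_lit 162469383974) (nat_lit 1) (nat_lit 4) (nat_lit 2) (nat_lit 5) (nat_lit 2) (nat_lit 4) (nat_lit 358) (nat_lit 203) (nat_lit 159))))))) (XT.nd (nat_lit 34086) (nat_lit 0) (nat_lit 76) (XT.nd (nat_lit 312) (nat_lit 0) (nat_lit 0) (XT.nd (nat_lit 156) (nat_lit 0) (nat_lit 0) (XT.nd (nat_lit 78) (nat_lit 0) (nat_lit 0) (XT.lf (nat_lit 0) (nat_lit 131805635712) (nat_lit 76) (nat_lit 173606876774) (nat_lit 76) (nat_lit 169730390777) (nat_lit 1) (nat_lit 4) (nat_lit 2) (nat_lit 5) (nat_lit 2) (nat_lit 4) (nat_lit 359) (nat_lit 203) (nat_lit 158)) (XT.lf (nat_lit 0)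 (nat_lit 140220013121) (nat_lit 76) (nat_lit 181263610528) (nat_lit 76) (nat_lit 177364006886) (nat_lit 1) (nat_lit 4) (nat_lit 2) (nat_lit 5) (nat_lit 2) (nat_lit 4) (nat_lit 360) (nat_lit 203) (nat_lit 157))) (XT.nd (nat_lit 78) (nat_lit 0) (nat_lit 0) (XT.lf (nat_lit 0) (nat_lit 149039604134) (nat_lit 76) (nat_lit 189310028024) (nat_lit 76) (nat_lit 185388407577) (nat_lit 1) (nat_lit 4) (nat_lit 2) (nat_lit 5) (nat_lit 2) (nat_lit 4) (nat_lit 361) (nat_lit 203) (nat_lit 156)) (XT.lf (nat_lit 0) (nat_lit 158285407778) (nat_lit 76) (nat_lit 197765287398) (nat_lit 76) (nat_lit 193822698567) (nat_lit 1) (nat_lit 4) (nat_lit 2) (nat_lit 5) (nat_lit 2) (nat_lit 4) (nat_lit 362) (nat_lit 203) (nat_lit 155)))) (XT.nd (nat_lit 33540) (nat_lit 0) (nat_lit 76) (XT.nd (nat_lit 78) (nat_lit 0) (nat_lit 0) (XT.lf (nat_lit 0) (nat_lit 167979437871) (nat_lit 76) (nat_lit 206649520221) (nat_lit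 76) (nat_lit 202686961500) (nat_lit 1) (nat_lit 4) (nat_lit 2) (nat_lit 5) (nat_lit 2) (nat_lit 4) (nat_lit 363) (nat_lit 203) (nat_lit 154)) (XT.lf (nat_lit 0) (nat_lit 178144775437) (nat_lit 76) (nat_lit 215983879429) (nat_lit 76) (nat_lit 212002301764) (nat_lit 1) (nat_lit 4) (nat_lit 2) (nat_lit 5) (nat_lit 2) (nat_lit 4) (nat_lit 364) (nat_lit 203) (nat_lit 153))) (XT.nd (nat_lit 78) (nat_lit 0) (nat_lit 0) (XT.lf (nat_lit 0) (nat_lit 1213363501) (nat_lit 152) (nat_lit 22393838580) (nat_lit 0) (nat_lit 1213363501) (nat_lit 2) (nat_lit 5) (nat_lit 4) (nat_lit 4) (nat_lit 2) (nat_lit 4) (nat_lit 312) (nat_lit 204) (nat_lit 204)) (XT.nd (nat_lit 78) (nat_lit 0) (nat_lit 0) (XT.lf (nat_lit 0) (nat_lit 4840493278) (nat_lit 152) (nat_lit 42530436126) (nat_lit 0) (nat_lit 4622395452) (nat_lit 2) (nat_lit 5) (nat_lit 4) (nat_lit 4) (nat_lit 2) (nat_lit 4) (nat_lit 313) (nat_lit 204) (nat_lit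 203)) (XT.lf (nat_lit 0) (nat_lit 7295547916) (nat_lit 152) (nat_lit 40301931828) (nat_lit 0) (nat_lit 6869737873) (nat_lit 2) (nat_lit 5) (nat_lit 4) (nat_lit 4) (nat_lit 2) (nat_lit 4) (nat_lit 314) (nat_lit 204) (nat_lit 202)))))) (XT.nd (nat_lit 312) (nat_lit 0) (nat_lit 0) (XT.nd (nat_lit 156) (nat_lit 0) (nat_lit 0) (XT.nd (nat_lit 78) (nat_lit 0) (nat_lit 0) (XT.lf (nat_lit 0) (nat_lit 9797736283) (nat_lit 152) (nat_lit 38096858302) (nat_lit 0) (nat_lit 9174105083) (nat_lit 2) (nat_lit 5) (nat_lit 4) (nat_lit 4) (nat_lit 2) (nat_lit 4) (nat_lit 315) (nat_lit 204) (nat_lit 201)) (XT.lf (nat_lit 0) (nat_lit 12353015970) (nat_lit 152) (nat_lit 35909965373) (nat_lit 0) (nat_lit 11540983667) (nat_lit 2) (nat_lit 5) (nat_lit 4) (nat_lit 4) (nat_lit 2) (nat_lit 4) (nat_lit 316) (nat_lit 204) (nat_lit 200))) (XT.nd (nat_lit 78) (nat_lit 0) (nat_lit 0) (XT.lf (nat_lit 0) (nat_lit 14967470978)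 (nat_lit 152) (nat_lit 33736046155) (nat_lit 0) (nat_lit 13976009053) (nat_lit 2) (nat_lit 5) (nat_lit 4) (nat_lit 4) (nat_lit 2) (nat_lit 4) (nat_lit 317) (nat_lit 204) (nat_lit 199)) (XT.lf (nat_lit 0) (nat_lit 17647326198) (nat_lit 152) (nat_lit 31569924647) (nat_lit 0) (nat_lit 16484978920) (nat_lit 2) (nat_lit 5) (nat_lit 4) (nat_lit 4) (nat_lit 2) (nat_lit 4) (nat_lit 318) (nat_lit 204) (nat_lit 198)))) (XT.nd (nat_lit 156) (nat_lit 0) (nat_lit 0) (XT.nd (nat_lit 78) (nat_lit 0) (nat_lit 0) (XT.lf (nat_lit 0) (nat_lit 20398962239) (nat_lit 152) (nat_lit 29406443419) (nat_lit 0) (nat_lit 19073867005) (nat_lit 2) (nat_lit 5) (nat_lit 4) (nat_lit 4) (nat_lit 2) (nat_lit 4) (nat_lit 319) (nat_lit 204) (nat_lit 197)) (XT.lf (nat_lit 0) (nat_lit 23228930615) (nat_lit 152) (nat_lit 27240451325) (nat_lit 0) (nat_lit 21748837327) (nat_lit 2) (nat_lit 5) (nat_lit 4) (nat_lit 4) (nat_lit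 2) (nat_lit 4) (nat_lit 320) (nat_lit 204) (nat_lit 196))) (XT.nd (nat_lit 78) (nat_lit 0) (nat_lit 0) (XT.lf (nat_lit 0) (nat_lit 26143969345) (nat_lit 152) (nat_lit 25066791240) (nat_lit 0) (nat_lit 24516258863) (nat_lit 2) (nat_lit 5) (nat_lit 4) (nat_lit 4) (nat_lit 2) (nat_lit 4) (nat_lit 321) (nat_lit 204) (nat_lit 195)) (XT.nd (nat_lit 78) (nat_lit 0) (nat_lit 0) (XT.lf (nat_lit 0) (nat_lit 29151018999) (nat_lit 152) (nat_lit 22880287783) (nat_lit 0) (nat_lit 27382720713) (nat_lit 2) (nat_lit 5) (nat_lit 4) (nat_lit 4) (nat_lit 2) (nat_lit 4) (nat_lit 322) (nat_lit 204) (nat_lit 194)) (XT.lf (nat_lit 0) (nat_lit 32257239218) (nat_lit 152) (nat_lit 20675734994) (nat_lit 0) (nat_lit 30355047786) (nat_lit 2) (nat_lit 5) (nat_lit 4) (nat_lit 4) (nat_lit 2) (nat_lit 4) (nat_lit 323) (nat_lit 204) (nat_lit 193))))))))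
noncomputable def xc20 : XT := (XT.nd (nat_lit 1326) (nat_lit 0) (nat_lit 0) (XT.nd (nat_lit 624) (nat_lit 76) (nat_lit 0) (XT.nd (nat_lit 312) (nat_lit 0) (nat_lit 0) (XT.nd (nat_lit 156) (nat_lit 0) (nat_lit 0) (XT.nd (nat_lit 78) (nat_lit 0) (nat_lit 0) (XT.lf (nat_lit 0) (nat_lit 35470025765) (nat_lit 152) (nat_lit 18447883938) (nat_lit 0) (nat_lit 33440317050) (nat_lit 2) (nat_lit 5) (nat_lit 4) (nat_lit 4) (nat_lit 2) (nat_lit 4) (nat_lit 324) (nat_lit 204) (nat_lit 192)) (XT.lf (nat_lit 0) (nat_lit 38797028130) (nat_lit 152) (nat_lit 16191430207) (nat_lit 0) (nat_lit 36645874386) (nat_lit 2) (nat_lit 5) (nat_lit 4) (nat_lit 4) (nat_lit 2) (nat_lit 4) (nat_lit 325) (nat_lit 204) (nat_lit 191))) (XT.nd (nat_lit 78) (nat_lit 0) (nat_lit 0) (XT.lf (nat_lit 0) (nat_lit 42246167750) (nat_lit 152) (nat_lit 13901001292) (nat_lit 0) (nat_lit 39979352071) (nat_lit 2) (nat_lit 5) (nat_lit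 4) (nat_lit 4) (nat_lit 2) (nat_lit 4) (nat_lit 326) (nat_lit 204) (nat_lit 190)) (XT.lf (nat_lit 0) (nat_lit 45825656860) (nat_lit 152) (nat_lit 11571143792) (nat_lit 0) (nat_lit 43448686959) (nat_lit 2) (nat_lit 5) (nat_lit 4) (nat_lit 4) (nat_lit 2) (nat_lit 4) (nat_lit 327) (nat_lit 204) (nat_lit 189)))) (XT.nd (nat_lit 156) (nat_lit 0) (nat_lit 0) (XT.nd (nat_lit 78) (nat_lit 0) (nat_lit 0) (XT.lf (nat_lit 0) (nat_lit 49544018055) (nat_lit 152) (nat_lit 9196310426) (nat_lit 0) (nat_lit 47062139370) (nat_lit 2) (nat_lit 5) (nat_lit 4) (nat_lit 4) (nat_lit 2) (nat_lit 4) (nat_lit 328) (nat_lit 204) (nat_lit 188)) (XT.lf (nat_lit 0) (nat_lit 53410104574) (nat_lit 152) (nat_lit 6770846829) (nat_lit 0) (nat_lit 50828312762) (nat_lit 2) (nat_lit 5) (nat_lit 4) (nat_lit 4) (nat_lit 2) (nat_lit 4) (nat_lit 329) (nat_lit 204) (nat_lit 187))) (XT.nd (nat_lit 78) (nat_lit 0) (nat_lit 0)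 (XT.lf (nat_lit 0) (nat_lit 57433121386) (nat_lit 152) (nat_lit 4288978088) (nat_lit 0) (nat_lit 54756174214) (nat_lit 2) (nat_lit 5) (nat_lit 4) (nat_lit 4) (nat_lit 2) (nat_lit 4) (nat_lit 330) (nat_lit 204) (nat_lit 186)) (XT.lf (nat_lit 0) (nat_lit 61622647102) (nat_lit 152) (nat_lit 1744794992) (nat_lit 0) (nat_lit 58855075779) (nat_lit 2) (nat_lit 5) (nat_lit 4) (nat_lit 4) (nat_lit 2) (nat_lit 4) (nat_lit 331) (nat_lit 204) (nat_lit 185))))) (XT.nd (nat_lit 312) (nat_lit 0) (nat_lit 0) (XT.nd (nat_lit 156) (nat_lit 0) (nat_lit 0) (XT.nd (nat_lit 78) (nat_lit 0) (nat_lit 0) (XT.lf (nat_lit 0) (nat_lit 896452103) (nat_lit 76) (nat_lit 65106200810) (nat_lit 76) (nat_lit 62252320771) (nat_lit 1) (nat_lit 4) (nat_lit 2) (nat_lit 5) (nat_lit 2) (nat_lit 4) (nat_lit 332) (nat_lit 204) (nat_lit 184)) (XT.lf (nat_lit 0) (nat_lit 3672448663) (nat_lit 76) (nat_lit 66926434244) (nat_lit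 76) (nat_lit 63990355428) (nat_lit 1) (nat_lit 4) (nat_lit 2) (nat_lit 5) (nat_lit 2) (nat_lit 4) (nat_lit 333) (nat_lit 204) (nat_lit 183))) (XT.nd (nat_lit 78) (nat_lit 0) (nat_lit 0) (XT.lf (nat_lit 0) (nat_lit 6532113401) (nat_lit 76) (nat_lit 68862025234) (nat_lit 76) (nat_lit 65847661868) (nat_lit 1) (nat_lit 4) (nat_lit 2) (nat_lit 5) (nat_lit 2) (nat_lit 4) (nat_lit 334) (nat_lit 204) (nat_lit 182)) (XT.lf (nat_lit 0) (nat_lit 9482255041) (nat_lit 76) (nat_lit 70917582330) (nat_lit 76) (nat_lit 67828662250) (nat_lit 1) (nat_lit 4) (nat_lit 2) (nat_lit 5) (nat_lit 2) (nat_lit 4) (nat_lit 335) (nat_lit 204) (nat_lit 181)))) (XT.nd (nat_lit 156) (nat_lit 0) (nat_lit 0) (XT.nd (nat_lit 78) (nat_lit 0) (nat_lit 0) (XT.lf (nat_lit 0) (nat_lit 12529897730) (nat_lit 76) (nat_lit 73097999715) (nat_lit 76) (nat_lit 69938073241) (nat_lit 1) (nat_lit 4) (nat_lit 2) (nat_lit 5) (nat_lit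 2) (nat_lit 4) (nat_lit 336) (nat_lit 204) (nat_lit 180)) (XT.lf (nat_lit 0) (nat_lit 15682297762) (nat_lit 76) (nat_lit 75408468860) (nat_lit 76) (nat_lit 72180917248) (nat_lit 1) (nat_lit 4) (nat_lit 2) (nat_lit 5) (nat_lit 2) (nat_lit 4) (nat_lit 337) (nat_lit 204) (nat_lit 179))) (XT.nd (nat_lit 78) (nat_lit 0) (nat_lit 0) (XT.lf (nat_lit 0) (nat_lit 18946960849) (nat_lit 76) (nat_lit 77854490880) (nat_lit 76) (nat_lit 74562534376) (nat_lit 1) (nat_lit 4) (nat_lit 2) (nat_lit 5) (nat_lit 2) (nat_lit 4) (nat_lit 338) (nat_lit 204) (nat_lit 178)) (XT.nd (nat_lit 78) (nat_lit 0) (nat_lit 0) (XT.lf (nat_lit 0) (nat_lit 22331660000) (nat_lit 76) (nat_lit 80441889639) (nat_lit 76) (nat_lit 77088595142) (nat_lit 1) (nat_lit 4) (nat_lit 2) (nat_lit 5) (nat_lit 2) (nat_lit 4) (nat_lit 339) (nat_lit 204) (nat_lit 177)) (XT.lf (nat_lit 0) (nat_lit 25844454022) (nat_lit 76) (nat_lit 83176825610)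 (nat_lit 76) (nat_lit 79765113976) (nat_lit 1) (nat_lit 4) (nat_lit 2) (nat_lit 5) (nat_lit 2) (nat_lit 4) (nat_lit 340) (nat_lit 204) (nat_lit 176))))))) (XT.nd (nat_lit 624) (nat_lit 0) (nat_lit 0) (XT.nd (nat_lit 312) (nat_lit 0) (nat_lit 0) (XT.nd (nat_lit 156) (nat_lit 0) (nat_lit 0) (XT.nd (nat_lit 78) (nat_lit 0) (nat_lit 0) (XT.lf (nat_lit 0) (nat_lit 29493706711) (nat_lit 76) (nat_lit 86065810544) (nat_lit 76) (nat_lit 82598463542) (nat_lit 1) (nat_lit 4) (nat_lit 2) (nat_lit 5) (nat_lit 2) (nat_lit 4) (nat_lit 341) (nat_lit 204) (nat_lit 175)) (XT.lf (nat_lit 0) (nat_lit 33288106762) (nat_lit 76) (nat_lit 89115722977) (nat_lit 76) (nat_lit 85595389911) (nat_lit 1) (nat_lit 4) (nat_lit 2) (nat_lit 5) (nat_lit 2) (nat_lit 4) (nat_lit 342) (nat_lit 204) (nat_lit 174))) (XT.nd (nat_lit 78) (nat_lit 0) (nat_lit 0) (XT.lf (nat_lit 0) (nat_lit 37236688462) (nat_lit 76) (nat_lit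 92333824606) (nat_lit 76) (nat_lit 88763028621) (nat_lit 1) (nat_lit 4) (nat_lit 2) (nat_lit 5) (nat_lit 2) (nat_lit 4) (nat_lit 343) (nat_lit 204) (nat_lit 173)) (XT.lf (nat_lit 0) (nat_lit 41348853197) (nat_lit 76) (nat_lit 95727777577) (nat_lit 76) (nat_lit 92108921670) (nat_lit 1) (nat_lit 4) (nat_lit 2) (nat_lit 5) (nat_lit 2) (nat_lit 4) (nat_lit 344) (nat_lit 204) (nat_lit 172)))) (XT.nd (nat_lit 156) (nat_lit 0) (nat_lit 0) (XT.nd (nat_lit 78) (nat_lit 0) (nat_lit 0) (XT.lf (nat_lit 0) (nat_lit 45634391833) (nat_lit 76) (nat_lit 99305662731) (nat_lit 76) (nat_lit 95641035469) (nat_lit 1) (nat_lit 4) (nat_lit 2) (nat_lit 5) (nat_lit 2) (nat_lit 4) (nat_lit 345) (nat_lit 204) (nat_lit 171)) (XT.lf (nat_lit 0) (nat_lit 50103508036) (nat_lit 76) (nat_lit 103075998842) (nat_lit 76) (nat_lit 99367779813) (nat_lit 1) (nat_lit 4) (nat_lit 2) (nat_lit 5) (nat_lit 2) (nat_lit 4) (nat_lit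 346) (nat_lit 204) (nat_lit 170))) (XT.nd (nat_lit 78) (nat_lit 0) (nat_lit 0) (XT.lf (nat_lit 0) (nat_lit 54766842557) (nat_lit 76) (nat_lit 107047762900) (nat_lit 76) (nat_lit 103298027904) (nat_lit 1) (nat_lit 4) (nat_lit 2) (nat_lit 5) (nat_lit 2) (nat_lit 4) (nat_lit 347) (nat_lit 204) (nat_lit 169)) (XT.lf (nat_lit 0) (nat_lit 59635498574) (nat_lit 76) (nat_lit 111230411487) (nat_lit 76) (nat_lit 107441137474) (nat_lit 1) (nat_lit 4) (nat_lit 2) (nat_lit 5) (nat_lit 2) (nat_lit 4) (nat_lit 348) (nat_lit 204) (nat_lit 168))))) (XT.nd (nat_lit 312) (nat_lit 0) (nat_lit 0) (XT.nd (nat_lit 156) (nat_lit 0) (nat_lit 0) (XT.nd (nat_lit 78) (nat_lit 0) (nat_lit 0) (XT.lf (nat_lit 0) (nat_lit 64721068125) (nat_lit 76) (nat_lit 115633903290) (nat_lit 76) (nat_lit 111806973070) (nat_lit 1) (nat_lit 4) (nat_lit 2) (nat_lit 5) (nat_lit 2) (nat_lit 4) (nat_lit 349) (nat_lit 204) (nat_lit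 167)) (XT.lf (nat_lit 0) (nat_lit 70035659710) (nat_lit 76) (nat_lit 120268722813) (nat_lit 76) (nat_lit 116405929539) (nat_lit 1) (nat_lit 4) (nat_lit 2) (nat_lit 5) (nat_lit 2) (nat_lit 4) (nat_lit 350) (nat_lit 204) (nat_lit 166))) (XT.nd (nat_lit 78) (nat_lit 0) (nat_lit 0) (XT.lf (nat_lit 0) (nat_lit 75591927117) (nat_lit 76) (nat_lit 125145905341) (nat_lit 76) (nat_lit 121248956777) (nat_lit 1) (nat_lit 4) (nat_lit 2) (nat_lit 5) (nat_lit 2) (nat_lit 4) (nat_lit 351) (nat_lit 204) (nat_lit 165)) (XT.lf (nat_lit 0) (nat_lit 81403099555) (nat_lit 76) (nat_lit 130277063213) (nat_lit 76) (nat_lit 126347585802) (nat_lit 1) (nat_lit 4) (nat_lit 2) (nat_lit 5) (nat_lit 2) (nat_lit 4) (nat_lit 352) (nat_lit 204) (nat_lit 164)))) (XT.nd (nat_lit 156) (nat_lit 0) (nat_lit 0) (XT.nd (nat_lit 78) (nat_lit 0) (nat_lit 0) (XT.lf (nat_lit 0) (nat_lit 87483013149) (nat_lit 76) (nat_lit 135674413472)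 (nat_lit 76) (nat_lit 131713956206) (nat_lit 1) (nat_lit 4) (nat_lit 2) (nat_lit 5) (nat_lit 2) (nat_lit 4) (nat_lit 353) (nat_lit 204) (nat_lit 163)) (XT.lf (nat_lit 0) (nat_lit 93846143883) (nat_lit 76) (nat_lit 141350806951) (nat_lit 76) (nat_lit 137360845061) (nat_lit 1) (nat_lit 4) (nat_lit 2) (nat_lit 5) (nat_lit 2) (nat_lit 4) (nat_lit 354) (nat_lit 204) (nat_lit 162))) (XT.nd (nat_lit 78) (nat_lit 0) (nat_lit 0) (XT.lf (nat_lit 0) (nat_lit 100507642068) (nat_lit 76) (nat_lit 147319758873) (nat_lit 76) (nat_lit 143301697342) (nat_lit 1) (nat_lit 4) (nat_lit 2) (nat_lit 5) (nat_lit 2) (nat_lit 4) (nat_lit 355) (nat_lit 204) (nat_lit 161)) (XT.nd (nat_lit 78) (nat_lit 0) (nat_lit 0) (XT.lf (nat_lit 0) (nat_lit 107483368415) (nat_lit 76) (nat_lit 153595481029) (nat_lit 76) (nat_lit 149550657935) (nat_lit 1) (nat_lit 4) (nat_lit 2) (nat_lit 5) (nat_lit 2) (nat_lit 4) (nat_lit 356)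 (nat_lit 204) (nat_lit 160)) (XT.lf (nat_lit 0) (nat_lit 114789931796) (nat_lit 76) (nat_lit 160192915613) (nat_lit 76) (nat_lit 156122605316) (nat_lit 1) (nat_lit 4) (nat_lit 2) (nat_lit 5) (nat_lit 2) (nat_lit 4) (nat_lit 357) (nat_lit 204) (nat_lit 159))))))))
noncomputable def xc21 : XT := (XT.nd (nat_lit 34554) (nat_lit 0) (nat_lit 0) (XT.nd (nat_lit 33852) (nat_lit 0) (nat_lit 76) (XT.nd (nat_lit 312) (nat_lit 0) (nat_lit 0) (XT.nd (nat_lit 156) (nat_lit 0) (nat_lit 0) (XT.nd (nat_lit 78) (nat_lit 0) (nat_lit 0) (XT.lf (nat_lit 0) (nat_lit 122444728791) (nat_lit 76) (nat_lit 167127770805) (nat_lit 76) (nat_lit 163033186981) (nat_lit 1) (nat_lit 4) (nat_lit 2) (nat_lit 5) (nat_lit 2) (nat_lit 4) (nat_lit 358) (nat_lit 204) (nat_lit 158)) (XT.lf (nat_lit 0) (nat_lit 130465985105) (nat_lit 76) (nat_lit 174416558163) (nat_lit 76) (nat_lit 170298856694) (nat_lit 1) (nat_lit 4) (nat_lit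 2) (nat_lit 5) (nat_lit 2) (nat_lit 4) (nat_lit 359) (nat_lit 204) (nat_lit 157))) (XT.nd (nat_lit 78) (nat_lit 0) (nat_lit 0) (XT.lf (nat_lit 0) (nat_lit 138872798970) (nat_lit 76) (nat_lit 182076631943) (nat_lit 76) (nat_lit 177936913670) (nat_lit 1) (nat_lit 4) (nat_lit 2) (nat_lit 5) (nat_lit 2) (nat_lit 4) (nat_lit 360) (nat_lit 204) (nat_lit 156)) (XT.lf (nat_lit 0) (nat_lit 147685186608) (nat_lit 76) (nat_lit 190126230416) (nat_lit 76) (nat_lit 185965543758) (nat_lit 1) (nat_lit 4) (nat_lit 2) (nat_lit 5) (nat_lit 2) (nat_lit 4) (nat_lit 361) (nat_lit 204) (nat_lit 155)))) (XT.nd (nat_lit 156) (nat_lit 0) (nat_lit 0) (XT.nd (nat_lit 78) (nat_lit 0) (nat_lit 0) (XT.lf (nat_lit 0) (nat_lit 156924129894) (nat_lit 76) (nat_lit 198584519293) (nat_lit 76) (nat_lit 194403862745) (nat_lit 1) (nat_lit 4) (nat_lit 2) (nat_lit 5) (nat_lit 2) (nat_lit 4) (nat_lit 362) (nat_lit 204) (nat_lit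 154)) (XT.lf (nat_lit 0) (nat_lit 166611626313) (nat_lit 76) (nat_lit 207471637357) (nat_lit 76) (nat_lit 203271961865) (nat_lit 1) (nat_lit 4) (nat_lit 2) (nat_lit 5) (nat_lit 2) (nat_lit 4) (nat_lit 363) (nat_lit 204) (nat_lit 153))) (XT.nd (nat_lit 33306) (nat_lit 0) (nat_lit 228) (XT.lf (nat_lit 0) (nat_lit 176770741332) (nat_lit 76) (nat_lit 216808744412) (nat_lit 76) (nat_lit 212590955641) (nat_lit 1) (nat_lit 4) (nat_lit 2) (nat_lit 5) (nat_lit 2) (nat_lit 4) (nat_lit 364) (nat_lit 204) (nat_lit 152)) (XT.lf (nat_lit 0) (nat_lit 20640137063) (nat_lit 76) (nat_lit 997713882) (nat_lit 76) (nat_lit 997713882) (nat_lit 4) (nat_lit 4) (nat_lit 5) (nat_lit 5) (nat_lit 5) (nat_lit 4) (nat_lit 310) (nat_lit 205) (nat_lit 205))))) (XT.nd (nat_lit 312) (nat_lit 0) (nat_lit 0) (XT.nd (nat_lit 156) (nat_lit 0) (nat_lit 0) (XT.nd (nat_lit 78) (nat_lit 0) (nat_lit 0) (XT.lf (nat_lit 0) (nat_lit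 277504741) (nat_lit 152) (nat_lit 47079029313) (nat_lit 0) (nat_lit 48502023) (nat_lit 2) (nat_lit 5) (nat_lit 4) (nat_lit 4) (nat_lit 2) (nat_lit 4) (nat_lit 311) (nat_lit 205) (nat_lit 204)) (XT.lf (nat_lit 0) (nat_lit 2615061451) (nat_lit 152) (nat_lit 44860203368) (nat_lit 0) (nat_lit 2167960906) (nat_lit 2) (nat_lit 5) (nat_lit 4) (nat_lit 4) (nat_lit 2) (nat_lit 4) (nat_lit 312) (nat_lit 205) (nat_lit 203))) (XT.nd (nat_lit 78) (nat_lit 0) (nat_lit 0) (XT.lf (nat_lit 0) (nat_lit 4990096043) (nat_lit 152) (nat_lit 42672034913) (nat_lit 0) (nat_lit 4335283283) (nat_lit 2) (nat_lit 5) (nat_lit 4) (nat_lit 4) (nat_lit 2) (nat_lit 4) (nat_lit 313) (nat_lit 205) (nat_lit 202)) (XT.lf (nat_lit 0) (nat_lit 7408263363) (nat_lit 152) (nat_lit 40509314023) (nat_lit 0) (nat_lit 6555629445) (nat_lit 2) (nat_lit 5) (nat_lit 4) (nat_lit 4) (nat_lit 2) (nat_lit 4) (nat_lit 314) (nat_lit 205)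 (nat_lit 201)))) (XT.nd (nat_lit 156) (nat_lit 0) (nat_lit 0) (XT.nd (nat_lit 78) (nat_lit 0) (nat_lit 0) (XT.lf (nat_lit 0) (nat_lit 9875320950) (nat_lit 152) (nat_lit 38366891363) (nat_lit 0) (nat_lit 8834285929) (nat_lit 2) (nat_lit 5) (nat_lit 4) (nat_lit 4) (nat_lit 2) (nat_lit 4) (nat_lit 315) (nat_lit 205) (nat_lit 200)) (XT.lf (nat_lit 0) (nat_lit 12397142753) (nat_lit 152) (nat_lit 36239665925) (nat_lit 0) (nat_lit 11176678110) (nat_lit 2) (nat_lit 5) (nat_lit 4) (nat_lit 4) (nat_lit 2) (nat_lit 4) (nat_lit 316) (nat_lit 205) (nat_lit 199))) (XT.nd (nat_lit 78) (nat_lit 0) (nat_lit 0) (XT.lf (nat_lit 0) (nat_lit 14979733108) (nat_lit 152) (nat_lit 34122572888) (nat_lit 0) (nat_lit 13588383111) (nat_lit 2) (nat_lit 5) (nat_lit 4) (nat_lit 4) (nat_lit 2) (nat_lit 4) (nat_lit 317) (nat_lit 205) (nat_lit 198)) (XT.nd (nat_lit 78) (nat_lit 0) (nat_lit 0) (XT.lf (nat_lit 0) (nat_lit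 17629241040) (nat_lit 152) (nat_lit 32010571553) (nat_lit 0) (nat_lit 16075143088) (nat_lit 2) (nat_lit 5) (nat_lit 4) (nat_lit 4) (nat_lit 2) (nat_lit 4) (nat_lit 318) (nat_lit 205) (nat_lit 197)) (XT.lf (nat_lit 0) (nat_lit 20351974902) (nat_lit 152) (nat_lit 29898633347) (nat_lit 0) (nat_lit 18642878896) (nat_lit 2) (nat_lit 5) (nat_lit 4) (nat_lit 4) (nat_lit 2) (nat_lit 4) (nat_lit 319) (nat_lit 205) (nat_lit 196))))))) (XT.nd (nat_lit 702) (nat_lit 76) (nat_lit 0) (XT.nd (nat_lit 312) (nat_lit 0) (nat_lit 0) (XT.nd (nat_lit 156) (nat_lit 0) (nat_lit 0) (XT.nd (nat_lit 78) (nat_lit 0) (nat_lit 0) (XT.lf (nat_lit 0) (nat_lit 23154417393) (nat_lit 152) (nat_lit 27781729845) (nat_lit 0) (nat_lit 21297704193) (nat_lit 2) (nat_lit 5) (nat_lit 4) (nat_lit 4) (nat_lit 2) (nat_lit 4) (nat_lit 320) (nat_lit 205) (nat_lit 195)) (XT.lf (nat_lit 0) (nat_lit 26043240995) (nat_lit 152) (nat_lit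 25654820801) (nat_lit 0) (nat_lit 24045939991) (nat_lit 2) (nat_lit 5) (nat_lit 4) (nat_lit 4) (nat_lit 2) (nat_lit 4) (nat_lit 321) (nat_lit 205) (nat_lit 194))) (XT.nd (nat_lit 78) (nat_lit 0) (nat_lit 0) (XT.lf (nat_lit 0) (nat_lit 29025323859) (nat_lit 152) (nat_lit 23512842144) (nat_lit 0) (nat_lit 26894129710) (nat_lit 2) (nat_lit 5) (nat_lit 4) (nat_lit 4) (nat_lit 2) (nat_lit 4) (nat_lit 322) (nat_lit 205) (nat_lit 193)) (XT.lf (nat_lit 0) (nat_lit 32107766184) (nat_lit 152) (nat_lit 21350693927) (nat_lit 0) (nat_lit 29849054752) (nat_lit 2) (nat_lit 5) (nat_lit 4) (nat_lit 4) (nat_lit 2) (nat_lit 4) (nat_lit 323) (nat_lit 205) (nat_lit 192)))) (XT.nd (nat_lit 156) (nat_lit 0) (nat_lit 0) (XT.nd (nat_lit 78) (nat_lit 0) (nat_lit 0) (XT.lf (nat_lit 0) (nat_lit 35297907117) (nat_lit 152) (nat_lit 19163228177) (nat_lit 0) (nat_lit 32917750654) (nat_lit 2) (nat_lit 5) (nat_lit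 4) (nat_lit 4) (nat_lit 2) (nat_lit 4) (nat_lit 324) (nat_lit 205) (nat_lit 191)) (XT.lf (nat_lit 0) (nat_lit 38603342232) (nat_lit 152) (nat_lit 16945236643) (nat_lit 0) (nat_lit 36107523835) (nat_lit 2) (nat_lit 5) (nat_lit 4) (nat_lit 4) (nat_lit 2) (nat_lit 4) (nat_lit 325) (nat_lit 205) (nat_lit 190))) (XT.nd (nat_lit 78) (nat_lit 0) (nat_lit 0) (XT.lf (nat_lit 0) (nat_lit 42031941612) (nat_lit 152) (nat_lit 14691438391) (nat_lit 0) (nat_lit 39425968993) (nat_lit 2) (nat_lit 5) (nat_lit 4) (nat_lit 4) (nat_lit 2) (nat_lit 4) (nat_lit 326) (nat_lit 205) (nat_lit 189)) (XT.nd (nat_lit 78) (nat_lit 0) (nat_lit 0) (XT.lf (nat_lit 0) (nat_lit 45591868590) (nat_lit 152) (nat_lit 12396467237) (nat_lit 0) (nat_lit 42880987187) (nat_lit 2) (nat_lit 5) (nat_lit 4) (nat_lit 4) (nat_lit 2) (nat_lit 4) (nat_lit 327) (nat_lit 205) (nat_lit 188)) (XT.lf (nat_lit 0) (nat_lit 49291599182) (nat_lit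 152) (nat_lit 10054858962) (nat_lit 0) (nat_lit 46480804652) (nat_lit 2) (nat_lit 5) (nat_lit 4) (nat_lit 4) (nat_lit 2) (nat_lit 4) (nat_lit 328) (nat_lit 205) (nat_lit 187)))))) (XT.nd (nat_lit 312) (nat_lit 76) (nat_lit 0) (XT.nd (nat_lit 156) (nat_lit 0) (nat_lit 0) (XT.nd (nat_lit 78) (nat_lit 0) (nat_lit 0) (XT.lf (nat_lit 0) (nat_lit 53139942271) (nat_lit 152) (nat_lit 7661038310) (nat_lit 0) (nat_lit 50233992381) (nat_lit 2) (nat_lit 5) (nat_lit 4) (nat_lit 4) (nat_lit 2) (nat_lit 4) (nat_lit 329) (nat_lit 205) (nat_lit 186)) (XT.lf (nat_lit 0) (nat_lit 57146060577) (nat_lit 152) (nat_lit 5209305706) (nat_lit 0) (nat_lit 54149486536) (nat_lit 2) (nat_lit 5) (nat_lit 4) (nat_lit 4) (nat_lit 2) (nat_lit 4) (nat_lit 330) (nat_lit 205) (nat_lit 185))) (XT.nd (nat_lit 78) (nat_lit 0) (nat_lit 0) (XT.lf (nat_lit 0) (nat_lit 61319492479) (nat_lit 152) (nat_lit 2693823693) (nat_lit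 0) (nat_lit 58236609721) (nat_lit 2) (nat_lit 5) (nat_lit 4) (nat_lit 4) (nat_lit 2) (nat_lit 4) (nat_lit 331) (nat_lit 205) (nat_lit 184)) (XT.lf (nat_lit 0) (nat_lit 65670174718) (nat_lit 152) (nat_lit 108603028) (nat_lit 0) (nat_lit 62505093183) (nat_lit 2) (nat_lit 5) (nat_lit 4) (nat_lit 4) (nat_lit 2) (nat_lit 4) (nat_lit 332) (nat_lit 205) (nat_lit 183)))) (XT.nd (nat_lit 156) (nat_lit 0) (nat_lit 0) (XT.nd (nat_lit 78) (nat_lit 0) (nat_lit 0) (XT.lf (nat_lit 0) (nat_lit 2636909136) (nat_lit 76) (nat_lit 67612726466) (nat_lit 76) (nat_lit 64369360383) (nat_lit 1) (nat_lit 4) (nat_lit 2) (nat_lit 5) (nat_lit 2) (nat_lit 4) (nat_lit 333) (nat_lit 205) (nat_lit 182)) (XT.lf (nat_lit 0) (nat_lit 5470961028) (nat_lit 76) (nat_lit 69559627972) (nat_lit 76) (nat_lit 66241705174) (nat_lit 1) (nat_lit 4) (nat_lit 2) (nat_lit 5) (nat_lit 2) (nat_lit 4) (nat_lit 334) (nat_lit 205) (nat_lit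 181))) (XT.nd (nat_lit 78) (nat_lit 0) (nat_lit 0) (XT.lf (nat_lit 0) (nat_lit 8396709481) (nat_lit 76) (nat_lit 71625956987) (nat_lit 76) (nat_lit 68237027795) (nat_lit 1) (nat_lit 4) (nat_lit 2) (nat_lit 5) (nat_lit 2) (nat_lit 4) (nat_lit 335) (nat_lit 205) (nat_lit 180)) (XT.nd (nat_lit 78) (nat_lit 0) (nat_lit 0) (XT.lf (nat_lit 0) (nat_lit 11421120565) (nat_lit 76) (nat_lit 73816633343) (nat_lit 76) (nat_lit 70360079013) (nat_lit 1) (nat_lit 4) (nat_lit 2) (nat_lit 5) (nat_lit 2) (nat_lit 4) (nat_lit 336) (nat_lit 205) (nat_lit 179)) (XT.lf (nat_lit 0) (nat_lit 14551395257) (nat_lit 76) (nat_lit 76136872935) (nat_lit 76) (nat_lit 72615913713) (nat_lit 1) (nat_lit 4) (nat_lit 2) (nat_lit 5) (nat_lit 2) (nat_lit 4) (nat_lit 337) (nat_lit 205) (nat_lit 178))))))))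
noncomputable def xc22 : XT := (XT.nd (nat_lit 1326) (nat_lit 0) (nat_lit 0) (XT.nd (nat_lit 624) (nat_lit 0) (nat_lit 0) (XT.nd (nat_lit 312) (nat_lit 0) (nat_lit 0) (XT.nd (nat_lit 156) (nat_lit 0) (nat_lit 0) (XT.nd (nat_lit 78) (nat_lit 0) (nat_lit 0) (XT.lf (nat_lit 0) (nat_lit 17794986593) (nat_lit 76) (nat_lit 78592200145) (nat_lit 76) (nat_lit 75009902930) (nat_lit 1) (nat_lit 4) (nat_lit 2) (nat_lit 5) (nat_lit 2) (nat_lit 4) (nat_lit 338) (nat_lit 205) (nat_lit 177)) (XT.lf (nat_lit 0) (nat_lit 21159617409) (nat_lit 76) (nat_lit 81188460988) (nat_lit 76) (nat_lit 77547746637) (nat_lit 1) (nat_lit 4) (nat_lit 2) (nat_lit 5) (nat_lit 2) (nat_lit 4) (nat_lit 339) (nat_lit 205) (nat_lit 176))) (XT.nd (nat_lit 78) (nat_lit 0) (nat_lit 0) (XT.lf (nat_lit 0) (nat_lit 24653298731) (nat_lit 76) (nat_lit 83931837039) (nat_lit 76) (nat_lit 80235487320) (nat_lit 1) (nat_lit 4) (nat_lit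 2) (nat_lit 5) (nat_lit 2) (nat_lit 4) (nat_lit 340) (nat_lit 205) (nat_lit 175)) (XT.lf (nat_lit 0) (nat_lit 28284348848) (nat_lit 76) (nat_lit 86828860145) (nat_lit 76) (nat_lit 83079524362) (nat_lit 1) (nat_lit 4) (nat_lit 2) (nat_lit 5) (nat_lit 2) (nat_lit 4) (nat_lit 341) (nat_lit 205) (nat_lit 174)))) (XT.nd (nat_lit 156) (nat_lit 0) (nat_lit 0) (XT.nd (nat_lit 78) (nat_lit 0) (nat_lit 0) (XT.lf (nat_lit 0) (nat_lit 32061413117) (nat_lit 76) (nat_lit 89886427981) (nat_lit 76) (nat_lit 86086629278) (nat_lit 1) (nat_lit 4) (nat_lit 2) (nat_lit 5) (nat_lit 2) (nat_lit 4) (nat_lit 342) (nat_lit 205) (nat_lit 173)) (XT.lf (nat_lit 0) (nat_lit 35993484548) (nat_lit 76) (nat_lit 93111820468) (nat_lit 76) (nat_lit 89263961843) (nat_lit 1) (nat_lit 4) (nat_lit 2) (nat_lit 5) (nat_lit 2) (nat_lit 4) (nat_lit 343) (nat_lit 205) (nat_lit 172))) (XT.nd (nat_lit 78) (nat_lit 0) (nat_lit 0)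 (XT.lf (nat_lit 0) (nat_lit 40089925217) (nat_lit 76) (nat_lit 96512717115) (nat_lit 76) (nat_lit 92619087135) (nat_lit 1) (nat_lit 4) (nat_lit 2) (nat_lit 5) (nat_lit 2) (nat_lit 4) (nat_lit 344) (nat_lit 205) (nat_lit 171)) (XT.lf (nat_lit 0) (nat_lit 44360488553) (nat_lit 76) (nat_lit 100097215293) (nat_lit 76) (nat_lit 96159993546) (nat_lit 1) (nat_lit 4) (nat_lit 2) (nat_lit 5) (nat_lit 2) (nat_lit 4) (nat_lit 345) (nat_lit 205) (nat_lit 170))))) (XT.nd (nat_lit 312) (nat_lit 0) (nat_lit 0) (XT.nd (nat_lit 156) (nat_lit 0) (nat_lit 0) (XT.nd (nat_lit 78) (nat_lit 0) (nat_lit 0) (XT.lf (nat_lit 0) (nat_lit 48815342565) (nat_lit 76) (nat_lit 103873849522) (nat_lit 76) (nat_lit 99895111807) (nat_lit 1) (nat_lit 4) (nat_lit 2) (nat_lit 5) (nat_lit 2) (nat_lit 4) (nat_lit 346) (nat_lit 205) (nat_lit 169)) (XT.lf (nat_lit 0) (nat_lit 53465094047) (nat_lit 76) (nat_lit 107851611788)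 (nat_lit 76) (nat_lit 103833335056) (nat_lit 1) (nat_lit 4) (nat_lit 2) (nat_lit 5) (nat_lit 2) (nat_lit 4) (nat_lit 347) (nat_lit 205) (nat_lit 168))) (XT.nd (nat_lit 78) (nat_lit 0) (nat_lit 0) (XT.lf (nat_lit 0) (nat_lit 58320813836) (nat_lit 76) (nat_lit 112039972954) (nat_lit 76) (nat_lit 107984040015) (nat_lit 1) (nat_lit 4) (nat_lit 2) (nat_lit 5) (nat_lit 2) (nat_lit 4) (nat_lit 348) (nat_lit 205) (nat_lit 167)) (XT.lf (nat_lit 0) (nat_lit 63394063171) (nat_lit 76) (nat_lit 116448905308) (nat_lit 76) (nat_lit 112357109315) (nat_lit 1) (nat_lit 4) (nat_lit 2) (nat_lit 5) (nat_lit 2) (nat_lit 4) (nat_lit 349) (nat_lit 205) (nat_lit 166)))) (XT.nd (nat_lit 156) (nat_lit 0) (nat_lit 0) (XT.nd (nat_lit 78) (nat_lit 0) (nat_lit 0) (XT.lf (nat_lit 0) (nat_lit 68696921216) (nat_lit 76) (nat_lit 121088906308) (nat_lit 76) (nat_lit 116962955026) (nat_lit 1) (nat_lit 4) (nat_lit 2) (nat_lit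 5) (nat_lit 2) (nat_lit 4) (nat_lit 350) (nat_lit 205) (nat_lit 165)) (XT.lf (nat_lit 0) (nat_lit 74242013823) (nat_lit 76) (nat_lit 125971023577) (nat_lit 76) (nat_lit 121812543447) (nat_lit 1) (nat_lit 4) (nat_lit 2) (nat_lit 5) (nat_lit 2) (nat_lit 4) (nat_lit 351) (nat_lit 205) (nat_lit 164))) (XT.nd (nat_lit 78) (nat_lit 0) (nat_lit 0) (XT.lf (nat_lit 0) (nat_lit 80042543595) (nat_lit 76) (nat_lit 131106881201) (nat_lit 76) (nat_lit 126917421217) (nat_lit 1) (nat_lit 4) (nat_lit 2) (nat_lit 5) (nat_lit 2) (nat_lit 4) (nat_lit 352) (nat_lit 205) (nat_lit 163)) (XT.nd (nat_lit 78) (nat_lit 0) (nat_lit 0) (XT.lf (nat_lit 0) (nat_lit 86112321315) (nat_lit 76) (nat_lit 136508707415) (nat_lit 76) (nat_lit 132289742807) (nat_lit 1) (nat_lit 4) (nat_lit 2) (nat_lit 5) (nat_lit 2) (nat_lit 4) (nat_lit 353) (nat_lit 205) (nat_lit 162)) (XT.lf (nat_lit 0) (nat_lit 92465798837) (nat_lit 76)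 (nat_lit 142189363708) (nat_lit 76) (nat_lit 137942299459) (nat_lit 1) (nat_lit 4) (nat_lit 2) (nat_lit 5) (nat_lit 2) (nat_lit 4) (nat_lit 354) (nat_lit 205) (nat_lit 161))))))) (XT.nd (nat_lit 624) (nat_lit 0) (nat_lit 0) (XT.nd (nat_lit 312) (nat_lit 0) (nat_lit 0) (XT.nd (nat_lit 156) (nat_lit 0) (nat_lit 0) (XT.nd (nat_lit 78) (nat_lit 0) (nat_lit 0) (XT.lf (nat_lit 0) (nat_lit 99118103487) (nat_lit 76) (nat_lit 148162375453) (nat_lit 76) (nat_lit 143888549641) (nat_lit 1) (nat_lit 4) (nat_lit 2) (nat_lit 5) (nat_lit 2) (nat_lit 4) (nat_lit 355) (nat_lit 205) (nat_lit 160)) (XT.lf (nat_lit 0) (nat_lit 106085074086) (nat_lit 76) (nat_lit 154441964107) (nat_lit 76) (nat_lit 150142651092) (nat_lit 1) (nat_lit 4) (nat_lit 2) (nat_lit 5) (nat_lit 2) (nat_lit 4) (nat_lit 356) (nat_lit 205) (nat_lit 159))) (XT.nd (nat_lit 78) (nat_lit 0) (nat_lit 0) (XT.lf (nat_lit 0) (nat_lit 113383298660)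 (nat_lit 76) (nat_lit 161043081071) (nat_lit 76) (nat_lit 156719494529) (nat_lit 1) (nat_lit 4) (nat_lit 2) (nat_lit 5) (nat_lit 2) (nat_lit 4) (nat_lit 357) (nat_lit 205) (nat_lit 158)) (XT.lf (nat_lit 0) (nat_lit 121030153932) (nat_lit 76) (nat_lit 167981443290) (nat_lit 76) (nat_lit 163634739104) (nat_lit 1) (nat_lit 4) (nat_lit 2) (nat_lit 5) (nat_lit 2) (nat_lit 4) (nat_lit 358) (nat_lit 205) (nat_lit 157)))) (XT.nd (nat_lit 156) (nat_lit 0) (nat_lit 0) (XT.nd (nat_lit 78) (nat_lit 0) (nat_lit 0) (XT.lf (nat_lit 0) (nat_lit 129043846703) (nat_lit 76) (nat_lit 175273570674) (nat_lit 76) (nat_lit 170904849684) (nat_lit 1) (nat_lit 4) (nat_lit 2) (nat_lit 5) (nat_lit 2) (nat_lit 4) (nat_lit 359) (nat_lit 205) (nat_lit 156)) (XT.lf (nat_lit 0) (nat_lit 137443457192) (nat_lit 76) (nat_lit 182936825432) (nat_lit 76) (nat_lit 178547136057) (nat_lit 1) (nat_lit 4) (nat_lit 2) (nat_lit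 5) (nat_lit 2) (nat_lit 4) (nat_lit 360) (nat_lit 205) (nat_lit 155))) (XT.nd (nat_lit 78) (nat_lit 0) (nat_lit 0) (XT.lf (nat_lit 0) (nat_lit 146248984472) (nat_lit 76) (nat_lit 190989453408) (nat_lit 76) (nat_lit 186579794142) (nat_lit 1) (nat_lit 4) (nat_lit 2) (nat_lit 5) (nat_lit 2) (nat_lit 4) (nat_lit 361) (nat_lit 205) (nat_lit 154)) (XT.lf (nat_lit 0) (nat_lit 155481394084) (nat_lit 76) (nat_lit 199450627525) (nat_lit 76) (nat_lit 195021949316) (nat_lit 1) (nat_lit 4) (nat_lit 2) (nat_lit 5) (nat_lit 2) (nat_lit 4) (nat_lit 362) (nat_lit 205) (nat_lit 153))))) (XT.nd (nat_lit 33384) (nat_lit 0) (nat_lit 76) (XT.nd (nat_lit 33228) (nat_lit 0) (nat_lit 228) (XT.nd (nat_lit 78) (nat_lit 0) (nat_lit 0) (XT.lf (nat_lit 0) (nat_lit 165162667957) (nat_lit 76) (nat_lit 208340493437) (nat_lit 76) (nat_lit 203893701948) (nat_lit 1) (nat_lit 4) (nat_lit 2) (nat_lit 5) (nat_lit 2) (nat_lit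 4) (nat_lit 363) (nat_lit 205) (nat_lit 152)) (XT.lf (nat_lit 0) (nat_lit 175315856741) (nat_lit 76) (nat_lit 217680217491) (nat_lit 76) (nat_lit 213216175260) (nat_lit 1) (nat_lit 4) (nat_lit 2) (nat_lit 5) (nat_lit 2) (nat_lit 4) (nat_lit 364) (nat_lit 205) (nat_lit 151))) (XT.nd (nat_lit 78) (nat_lit 0) (nat_lit 0) (XT.lf (nat_lit 0) (nat_lit 14477192188) (nat_lit 76) (nat_lit 3089501310) (nat_lit 76) (nat_lit 3089501310) (nat_lit 4) (nat_lit 4) (nat_lit 5) (nat_lit 5) (nat_lit 5) (nat_lit 4) (nat_lit 308) (nat_lit 206) (nat_lit 206)) (XT.lf (nat_lit 0) (nat_lit 35003214236) (nat_lit 76) (nat_lit 4245838376) (nat_lit 76) (nat_lit 3993362880) (nat_lit 4) (nat_lit 4) (nat_lit 5) (nat_lit 5) (nat_lit 5) (nat_lit 4) (nat_lit 309) (nat_lit 206) (nat_lit 205)))) (XT.nd (nat_lit 156) (nat_lit 0) (nat_lit 0) (XT.nd (nat_lit 78) (nat_lit 152) (nat_lit 0) (XT.lf (nat_lit 0) (nat_lit 41209596545)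 (nat_lit 76) (nat_lit 2278272157) (nat_lit 76) (nat_lit 1785343807) (nat_lit 4) (nat_lit 4) (nat_lit 5) (nat_lit 5) (nat_lit 5) (nat_lit 4) (nat_lit 310) (nat_lit 206) (nat_lit 204)) (XT.lf (nat_lit 0) (nat_lit 177337794) (nat_lit 76) (nat_lit 261329943) (nat_lit 152) (nat_lit 46970458189) (nat_lit 2) (nat_lit 5) (nat_lit 3) (nat_lit 5) (nat_lit 4) (nat_lit 4) (nat_lit 311) (nat_lit 206) (nat_lit 203))) (XT.nd (nat_lit 78) (nat_lit 0) (nat_lit 0) (XT.lf (nat_lit 0) (nat_lit 2733412670) (nat_lit 152) (nat_lit 45077954673) (nat_lit 0) (nat_lit 1838147056) (nat_lit 2) (nat_lit 5) (nat_lit 4) (nat_lit 4) (nat_lit 2) (nat_lit 4) (nat_lit 312) (nat_lit 206) (nat_lit 202)) (XT.nd (nat_lit 78) (nat_lit 0) (nat_lit 0) (XT.lf (nat_lit 0) (nat_lit 5071559944) (nat_lit 152) (nat_lit 42955569627) (nat_lit 0) (nat_lit 3978473172) (nat_lit 2) (nat_lit 5) (nat_lit 4) (nat_lit 4) (nat_lit 2) (nat_lit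 4) (nat_lit 313) (nat_lit 206) (nat_lit 201)) (XT.lf (nat_lit 0) (nat_lit 7454596484) (nat_lit 152) (nat_lit 40855499602) (nat_lit 0) (nat_lit 6173108610) (nat_lit 2) (nat_lit 5) (nat_lit 4) (nat_lit 4) (nat_lit 2) (nat_lit 4) (nat_lit 314) (nat_lit 206) (nat_lit 200))))))))
noncomputable def xc23 : XT := (XT.nd (nat_lit 1326) (nat_lit 76) (nat_lit 0) (XT.nd (nat_lit 624) (nat_lit 0) (nat_lit 0) (XT.nd (nat_lit 312) (nat_lit 0) (nat_lit 0) (XT.nd (nat_lit 156) (nat_lit 0) (nat_lit 0) (XT.nd (nat_lit 78) (nat_lit 0) (nat_lit 0) (XT.lf (nat_lit 0) (nat_lit 9888196187) (nat_lit 152) (nat_lit 38772744432) (nat_lit 0) (nat_lit 8427278690) (nat_lit 2) (nat_lit 5) (nat_lit 4) (nat_lit 4) (nat_lit 2) (nat_lit 4) (nat_lit 315) (nat_lit 206) (nat_lit 199)) (XT.lf (nat_lit 0) (nat_lit 12378153337) (nat_lit 152) (nat_lit 36702345176) (nat_lit 0) (nat_lit 10746350487) (nat_lit 2) (nat_lit 5) (nat_lit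 4) (nat_lit 4) (nat_lit 2) (nat_lit 4) (nat_lit 316) (nat_lit 206) (nat_lit 198))) (XT.nd (nat_lit 78) (nat_lit 0) (nat_lit 0) (XT.lf (nat_lit 0) (nat_lit 14930396404) (nat_lit 152) (nat_lit 34639372312) (nat_lit 0) (nat_lit 13135845597) (nat_lit 2) (nat_lit 5) (nat_lit 4) (nat_lit 4) (nat_lit 2) (nat_lit 4) (nat_lit 317) (nat_lit 206) (nat_lit 197)) (XT.lf (nat_lit 0) (nat_lit 17551002157) (nat_lit 152) (nat_lit 32578914000) (nat_lit 0) (nat_lit 15601453297) (nat_lit 2) (nat_lit 5) (nat_lit 4) (nat_lit 4) (nat_lit 2) (nat_lit 4) (nat_lit 318) (nat_lit 206) (nat_lit 196)))) (XT.nd (nat_lit 156) (nat_lit 0) (nat_lit 0) (XT.nd (nat_lit 78) (nat_lit 0) (nat_lit 0) (XT.lf (nat_lit 0) (nat_lit 20246210134) (nat_lit 152) (nat_lit 30516064386) (nat_lit 0) (nat_lit 18149044080) (nat_lit 2) (nat_lit 5) (nat_lit 4) (nat_lit 4) (nat_lit 2) (nat_lit 4) (nat_lit 319) (nat_lit 206) (nat_lit 195))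 (XT.lf (nat_lit 0) (nat_lit 23022437496) (nat_lit 152) (nat_lit 28445911924) (nat_lit 0) (nat_lit 20784683639) (nat_lit 2) (nat_lit 5) (nat_lit 4) (nat_lit 4) (nat_lit 2) (nat_lit 4) (nat_lit 320) (nat_lit 206) (nat_lit 194))) (XT.nd (nat_lit 78) (nat_lit 0) (nat_lit 0) (XT.lf (nat_lit 0) (nat_lit 25886294309) (nat_lit 152) (nat_lit 26363527680) (nat_lit 0) (nat_lit 23514647306) (nat_lit 2) (nat_lit 5) (nat_lit 4) (nat_lit 4) (nat_lit 2) (nat_lit 4) (nat_lit 321) (nat_lit 206) (nat_lit 193)) (XT.lf (nat_lit 0) (nat_lit 28844599280) (nat_lit 152) (nat_lit 24263953595) (nat_lit 0) (nat_lit 26345434994) (nat_lit 2) (nat_lit 5) (nat_lit 4) (nat_lit 4) (nat_lit 2) (nat_lit 4) (nat_lit 322) (nat_lit 206) (nat_lit 192))))) (XT.nd (nat_lit 312) (nat_lit 0) (nat_lit 0) (XT.nd (nat_lit 156) (nat_lit 0) (nat_lit 0) (XT.nd (nat_lit 78) (nat_lit 0) (nat_lit 0) (XT.lf (nat_lit 0) (nat_lit 31904395991)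 (nat_lit 152) (nat_lit 22142190684) (nat_lit 0) (nat_lit 29283786674) (nat_lit 2) (nat_lit 5) (nat_lit 4) (nat_lit 4) (nat_lit 2) (nat_lit 4) (nat_lit 323) (nat_lit 206) (nat_lit 191)) (XT.lf (nat_lit 0) (nat_lit 35072969672) (nat_lit 152) (nat_lit 19993187131) (nat_lit 0) (nat_lit 32336698422) (nat_lit 2) (nat_lit 5) (nat_lit 4) (nat_lit 4) (nat_lit 2) (nat_lit 4) (nat_lit 324) (nat_lit 206) (nat_lit 190))) (XT.nd (nat_lit 78) (nat_lit 0) (nat_lit 0) (XT.lf (nat_lit 0) (nat_lit 38357864548) (nat_lit 152) (nat_lit 17811826260) (nat_lit 0) (nat_lit 35511439075) (nat_lit 2) (nat_lit 5) (nat_lit 4) (nat_lit 4) (nat_lit 2) (nat_lit 4) (nat_lit 325) (nat_lit 206) (nat_lit 189)) (XT.lf (nat_lit 0) (nat_lit 41766901796) (nat_lit 152) (nat_lit 15592914355) (nat_lit 0) (nat_lit 38815567539) (nat_lit 2) (nat_lit 5) (nat_lit 4) (nat_lit 4) (nat_lit 2) (nat_lit 4) (nat_lit 326) (nat_lit 206) (nat_lit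 188)))) (XT.nd (nat_lit 156) (nat_lit 0) (nat_lit 0) (XT.nd (nat_lit 78) (nat_lit 0) (nat_lit 0) (XT.lf (nat_lit 0) (nat_lit 45308198172) (nat_lit 152) (nat_lit 13331168292) (nat_lit 0) (nat_lit 42256950788) (nat_lit 2) (nat_lit 5) (nat_lit 4) (nat_lit 4) (nat_lit 2) (nat_lit 4) (nat_lit 327) (nat_lit 206) (nat_lit 187)) (XT.lf (nat_lit 0) (nat_lit 48990185333) (nat_lit 152) (nat_lit 11021202961) (nat_lit 0) (nat_lit 45843782590) (nat_lit 2) (nat_lit 5) (nat_lit 4) (nat_lit 4) (nat_lit 2) (nat_lit 4) (nat_lit 328) (nat_lit 206) (nat_lit 186))) (XT.nd (nat_lit 78) (nat_lit 0) (nat_lit 0) (XT.lf (nat_lit 0) (nat_lit 52821629916) (nat_lit 152) (nat_lit 8657518446) (nat_lit 0) (nat_lit 49584603021) (nat_lit 2) (nat_lit 5) (nat_lit 4) (nat_lit 4) (nat_lit 2) (nat_lit 4) (nat_lit 329) (nat_lit 206) (nat_lit 185)) (XT.nd (nat_lit 78) (nat_lit 0) (nat_lit 0) (XT.lf (nat_lit 0) (nat_lit 56811654408)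 (nat_lit 152) (nat_lit 6234486926) (nat_lit 0) (nat_lit 53488318796) (nat_lit 2) (nat_lit 5) (nat_lit 4) (nat_lit 4) (nat_lit 2) (nat_lit 4) (nat_lit 330) (nat_lit 206) (nat_lit 184)) (XT.lf (nat_lit 0) (nat_lit 60969758866) (nat_lit 152) (nat_lit 3746339278) (nat_lit 0) (nat_lit 57564224478) (nat_lit 2) (nat_lit 5) (nat_lit 4) (nat_lit 4) (nat_lit 2) (nat_lit 4) (nat_lit 331) (nat_lit 206) (nat_lit 183))))))) (XT.nd (nat_lit 702) (nat_lit 0) (nat_lit 0) (XT.nd (nat_lit 312) (nat_lit 0) (nat_lit 0) (XT.nd (nat_lit 156) (nat_lit 0) (nat_lit 0) (XT.nd (nat_lit 78) (nat_lit 76) (nat_lit 0) (XT.lf (nat_lit 0) (nat_lit 65305843541) (nat_lit 152) (nat_lit 1187151341) (nat_lit 0) (nat_lit 61822024603) (nat_lit 2) (nat_lit 5) (nat_lit 4) (nat_lit 4) (nat_lit 2) (nat_lit 4) (nat_lit 332) (nat_lit 206) (nat_lit 182)) (XT.lf (nat_lit 0) (nat_lit 1497086299) (nat_lit 76) (nat_lit 68356519856)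 (nat_lit 76) (nat_lit 64798144204) (nat_lit 1) (nat_lit 4) (nat_lit 2) (nat_lit 5) (nat_lit 2) (nat_lit 4) (nat_lit 333) (nat_lit 206) (nat_lit 181))) (XT.nd (nat_lit 78) (nat_lit 0) (nat_lit 0) (XT.lf (nat_lit 0) (nat_lit 4306745004) (nat_lit 76) (nat_lit 70314193281) (nat_lit 76) (nat_lit 66684811235) (nat_lit 1) (nat_lit 4) (nat_lit 2) (nat_lit 5) (nat_lit 2) (nat_lit 4) (nat_lit 334) (nat_lit 206) (nat_lit 180)) (XT.lf (nat_lit 0) (nat_lit 7209261851) (nat_lit 76) (nat_lit 72390781266) (nat_lit 76) (nat_lit 68693774083) (nat_lit 1) (nat_lit 4) (nat_lit 2) (nat_lit 5) (nat_lit 2) (nat_lit 4) (nat_lit 335) (nat_lit 206) (nat_lit 179)))) (XT.nd (nat_lit 156) (nat_lit 0) (nat_lit 0) (XT.nd (nat_lit 78) (nat_lit 0) (nat_lit 0) (XT.lf (nat_lit 0) (nat_lit 10211547595) (nat_lit 76) (nat_lit 74591228071) (nat_lit 76) (nat_lit 70829815995) (nat_lit 1) (nat_lit 4) (nat_lit 2) (nat_lit 5)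 (nat_lit 2) (nat_lit 4) (nat_lit 336) (nat_lit 206) (nat_lit 178)) (XT.lf (nat_lit 0) (nat_lit 13320750536) (nat_lit 76) (nat_lit 76920772852) (nat_lit 76) (nat_lit 73098022783) (nat_lit 1) (nat_lit 4) (nat_lit 2) (nat_lit 5) (nat_lit 2) (nat_lit 4) (nat_lit 337) (nat_lit 206) (nat_lit 177))) (XT.nd (nat_lit 78) (nat_lit 0) (nat_lit 0) (XT.lf (nat_lit 0) (nat_lit 16544273537) (nat_lit 76) (nat_lit 79384962146) (nat_lit 76) (nat_lit 75503794941) (nat_lit 1) (nat_lit 4) (nat_lit 2) (nat_lit 5) (nat_lit 2) (nat_lit 4) (nat_lit 338) (nat_lit 206) (nat_lit 176)) (XT.nd (nat_lit 78) (nat_lit 0) (nat_lit 0) (XT.lf (nat_lit 0) (nat_lit 19889791653) (nat_lit 76) (nat_lit 81989663070) (nat_lit 76) (nat_lit 78052860497) (nat_lit 1) (nat_lit 4) (nat_lit 2) (nat_lit 5) (nat_lit 2) (nat_lit 4) (nat_lit 339) (nat_lit 206) (nat_lit 175)) (XT.lf (nat_lit 0) (nat_lit 23365270404) (nat_lit 76) (nat_lit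 84741077293) (nat_lit 76) (nat_lit 80751288656) (nat_lit 1) (nat_lit 4) (nat_lit 2) (nat_lit 5) (nat_lit 2) (nat_lit 4) (nat_lit 340) (nat_lit 206) (nat_lit 174)))))) (XT.nd (nat_lit 312) (nat_lit 0) (nat_lit 0) (XT.nd (nat_lit 156) (nat_lit 0) (nat_lit 0) (XT.nd (nat_lit 78) (nat_lit 0) (nat_lit 0) (XT.lf (nat_lit 0) (nat_lit 26978984738) (nat_lit 76) (nat_lit 87645755801) (nat_lit 76) (nat_lit 83605504245) (nat_lit 1) (nat_lit 4) (nat_lit 2) (nat_lit 5) (nat_lit 2) (nat_lit 4) (nat_lit 341) (nat_lit 206) (nat_lit 173)) (XT.lf (nat_lit 0) (nat_lit 30739538739) (nat_lit 76) (nat_lit 90710614495) (nat_lit 76) (nat_lit 86622303017) (nat_lit 1) (nat_lit 4) (nat_lit 2) (nat_lit 5) (nat_lit 2) (nat_lit 4) (nat_lit 342) (nat_lit 206) (nat_lit 172))) (XT.nd (nat_lit 78) (nat_lit 0) (nat_lit 0) (XT.lf (nat_lit 0) (nat_lit 34655886105) (nat_lit 76) (nat_lit 93942950658) (nat_lit 76) (nat_lit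 89808867825) (nat_lit 1) (nat_lit 4) (nat_lit 2) (nat_lit 5) (nat_lit 2) (nat_lit 4) (nat_lit 343) (nat_lit 206) (nat_lit 171)) (XT.lf (nat_lit 0) (nat_lit 38737351473) (nat_lit 76) (nat_lit 97350460329) (nat_lit 76) (nat_lit 93172785729) (nat_lit 1) (nat_lit 4) (nat_lit 2) (nat_lit 5) (nat_lit 2) (nat_lit 4) (nat_lit 344) (nat_lit 206) (nat_lit 170)))) (XT.nd (nat_lit 156) (nat_lit 0) (nat_lit 0) (XT.nd (nat_lit 78) (nat_lit 0) (nat_lit 0) (XT.lf (nat_lit 0) (nat_lit 42993652618) (nat_lit 76) (nat_lit 100941256625) (nat_lit 76) (nat_lit 96722066057) (nat_lit 1) (nat_lit 4) (nat_lit 2) (nat_lit 5) (nat_lit 2) (nat_lit 4) (nat_lit 345) (nat_lit 206) (nat_lit 169)) (XT.lf (nat_lit 0) (nat_lit 47434923590) (nat_lit 76) (nat_lit 104723889061) (nat_lit 76) (nat_lit 100465159476) (nat_lit 1) (nat_lit 4) (nat_lit 2) (nat_lit 5) (nat_lit 2) (nat_lit 4) (nat_lit 346) (nat_lit 206) (nat_lit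 168))) (XT.nd (nat_lit 78) (nat_lit 0) (nat_lit 0) (XT.lf (nat_lit 0) (nat_lit 52071738845) (nat_lit 76) (nat_lit 108707363906) (nat_lit 76) (nat_lit 104410978114) (nat_lit 1) (nat_lit 4) (nat_lit 2) (nat_lit 5) (nat_lit 2) (nat_lit 4) (nat_lit 347) (nat_lit 206) (nat_lit 167)) (XT.nd (nat_lit 78) (nat_lit 0) (nat_lit 0) (XT.lf (nat_lit 0) (nat_lit 56915138418) (nat_lit 76) (nat_lit 112901165623) (nat_lit 76) (nat_lit 108568916777) (nat_lit 1) (nat_lit 4) (nat_lit 2) (nat_lit 5) (nat_lit 2) (nat_lit 4) (nat_lit 348) (nat_lit 206) (nat_lit 166)) (XT.lf (nat_lit 0) (nat_lit 61976654213) (nat_lit 76) (nat_lit 117315279455) (nat_lit 76) (nat_lit 112948875319) (nat_lit 1) (nat_lit 4) (nat_lit 2) (nat_lit 5) (nat_lit 2) (nat_lit 4) (nat_lit 349) (nat_lit 206) (nat_lit 165))))))))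
noncomputable def xc24 : XT := (XT.nd (nat_lit 34242) (nat_lit 0) (nat_lit 76) (XT.nd (nat_lit 624) (nat_lit 0) (nat_lit 0) (XT.nd (nat_lit 312) (nat_lit 0) (nat_lit 0) (XT.nd (nat_lit 156) (nat_lit 0) (nat_lit 0) (XT.nd (nat_lit 78) (nat_lit 0) (nat_lit 0) (XT.lf (nat_lit 0) (nat_lit 67268337457) (nat_lit 76) (nat_lit 121960215196) (nat_lit 76) (nat_lit 117561282212) (nat_lit 1) (nat_lit 4) (nat_lit 2) (nat_lit 5) (nat_lit 2) (nat_lit 4) (nat_lit 350) (nat_lit 206) (nat_lit 164)) (XT.lf (nat_lit 0) (nat_lit 72802787398) (nat_lit 76) (nat_lit 126847032217) (nat_lit 76) (nat_lit 122417119379) (nat_lit 1) (nat_lit 4) (nat_lit 2) (nat_lit 5) (nat_lit 2) (nat_lit 4) (nat_lit 351) (nat_lit 206) (nat_lit 163))) (XT.nd (nat_lit 78) (nat_lit 0) (nat_lit 0) (XT.lf (nat_lit 0) (nat_lit 78593181297) (nat_lit 76) (nat_lit 131987365796) (nat_lit 76) (nat_lit 127527948335) (nat_lit 1) (nat_lit 4)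 (nat_lit 2) (nat_lit 5) (nat_lit 2) (nat_lit 4) (nat_lit 352) (nat_lit 206) (nat_lit 162)) (XT.lf (nat_lit 0) (nat_lit 84653305806) (nat_lit 76) (nat_lit 137393454824) (nat_lit 76) (nat_lit 132905937721) (nat_lit 1) (nat_lit 4) (nat_lit 2) (nat_lit 5) (nat_lit 2) (nat_lit 4) (nat_lit 353) (nat_lit 206) (nat_lit 161)))) (XT.nd (nat_lit 156) (nat_lit 0) (nat_lit 0) (XT.nd (nat_lit 78) (nat_lit 0) (nat_lit 0) (XT.lf (nat_lit 0) (nat_lit 90997589792) (nat_lit 76) (nat_lit 143078170940) (nat_lit 76) (nat_lit 138563892274) (nat_lit 1) (nat_lit 4) (nat_lit 2) (nat_lit 5) (nat_lit 2) (nat_lit 4) (nat_lit 354) (nat_lit 206) (nat_lit 160)) (XT.lf (nat_lit 0) (nat_lit 97641138694) (nat_lit 76) (nat_lit 149055049184) (nat_lit 76) (nat_lit 144515283315) (nat_lit 1) (nat_lit 4) (nat_lit 2) (nat_lit 5) (nat_lit 2) (nat_lit 4) (nat_lit 355) (nat_lit 206) (nat_lit 159))) (XT.nd (nat_lit 78) (nat_lit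 0) (nat_lit 0) (XT.lf (nat_lit 0) (nat_lit 104599770485) (nat_lit 76) (nat_lit 155338320217) (nat_lit 76) (nat_lit 150774280821) (nat_lit 1) (nat_lit 4) (nat_lit 2) (nat_lit 5) (nat_lit 2) (nat_lit 4) (nat_lit 356) (nat_lit 206) (nat_lit 158)) (XT.lf (nat_lit 0) (nat_lit 111890053337) (nat_lit 76) (nat_lit 161942944208) (nat_lit 76) (nat_lit 157355787168) (nat_lit 1) (nat_lit 4) (nat_lit 2) (nat_lit 5) (nat_lit 2) (nat_lit 4) (nat_lit 357) (nat_lit 206) (nat_lit 157))))) (XT.nd (nat_lit 312) (nat_lit 0) (nat_lit 0) (XT.nd (nat_lit 156) (nat_lit 0) (nat_lit 0) (XT.nd (nat_lit 78) (nat_lit 0) (nat_lit 0) (XT.lf (nat_lit 0) (nat_lit 119529345065) (nat_lit 76) (nat_lit 168884646454) (nat_lit 76) (nat_lit 164275472610) (nat_lit 1) (nat_lit 4) (nat_lit 2) (nat_lit 5) (nat_lit 2) (nat_lit 4) (nat_lit 358) (nat_lit 206) (nat_lit 156)) (XT.lf (nat_lit 0) (nat_lit 127535834460) (nat_lit 76)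 (nat_lit 176179954816) (nat_lit 76) (nat_lit 171549812587) (nat_lit 1) (nat_lit 4) (nat_lit 2) (nat_lit 5) (nat_lit 2) (nat_lit 4) (nat_lit 359) (nat_lit 206) (nat_lit 155))) (XT.nd (nat_lit 78) (nat_lit 0) (nat_lit 0) (XT.lf (nat_lit 0) (nat_lit 135928584591) (nat_lit 76) (nat_lit 183846239076) (nat_lit 76) (nat_lit 179196126956) (nat_lit 1) (nat_lit 4) (nat_lit 2) (nat_lit 5) (nat_lit 2) (nat_lit 4) (nat_lit 360) (nat_lit 206) (nat_lit 154)) (XT.lf (nat_lit 0) (nat_lit 144727578198) (nat_lit 76) (nat_lit 191901752292) (nat_lit 76) (nat_lit 187232621229) (nat_lit 1) (nat_lit 4) (nat_lit 2) (nat_lit 5) (nat_lit 2) (nat_lit 4) (nat_lit 361) (nat_lit 206) (nat_lit 153)))) (XT.nd (nat_lit 156) (nat_lit 0) (nat_lit 0) (XT.nd (nat_lit 78) (nat_lit 0) (nat_lit 0) (XT.lf (nat_lit 0) (nat_lit 153953765263) (nat_lit 76) (nat_lit 200365674258) (nat_lit 76) (nat_lit 195678429915) (nat_lit 1)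 (nat_lit 4) (nat_lit 2) (nat_lit 5) (nat_lit 2) (nat_lit 4) (nat_lit 362) (nat_lit 206) (nat_lit 152)) (XT.lf (nat_lit 0) (nat_lit 163629112901) (nat_lit 76) (nat_lit 209258157168) (nat_lit 76) (nat_lit 204553662083) (nat_lit 1) (nat_lit 4) (nat_lit 2) (nat_lit 5) (nat_lit 2) (nat_lit 4) (nat_lit 363) (nat_lit 206) (nat_lit 151))) (XT.nd (nat_lit 32994) (nat_lit 0) (nat_lit 228) (XT.lf (nat_lit 0) (nat_lit 173776657652) (nat_lit 76) (nat_lit 218600373601) (nat_lit 76) (nat_lit 213879449238) (nat_lit 1) (nat_lit 4) (nat_lit 2) (nat_lit 5) (nat_lit 2) (nat_lit 4) (nat_lit 364) (nat_lit 206) (nat_lit 150)) (XT.nd (nat_lit 78) (nat_lit 0) (nat_lit 0) (XT.lf (nat_lit 0) (nat_lit 8675018483) (nat_lit 76) (nat_lit 5096041439) (nat_lit 76) (nat_lit 5096041439) (nat_lit 4) (nat_lit 4) (nat_lit 5) (nat_lit 5) (nat_lit 5) (nat_lit 4) (nat_lit 306) (nat_lit 207) (nat_lit 207)) (XT.lf (nat_lit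 0) (nat_lit 23048704988) (nat_lit 76) (nat_lit 8347466930) (nat_lit 76) (nat_lit 8082367659) (nat_lit 4) (nat_lit 4) (nat_lit 5) (nat_lit 5) (nat_lit 5) (nat_lit 4) (nat_lit 307) (nat_lit 207) (nat_lit 206))))))) (XT.nd (nat_lit 624) (nat_lit 0) (nat_lit 0) (XT.nd (nat_lit 312) (nat_lit 76) (nat_lit 0) (XT.nd (nat_lit 156) (nat_lit 76) (nat_lit 0) (XT.nd (nat_lit 78) (nat_lit 0) (nat_lit 0) (XT.lf (nat_lit 0) (nat_lit 28880172914) (nat_lit 76) (nat_lit 6475989231) (nat_lit 76) (nat_lit 5958414464) (nat_lit 4) (nat_lit 4) (nat_lit 5) (nat_lit 5) (nat_lit 5) (nat_lit 4) (nat_lit 308) (nat_lit 207) (nat_lit 205)) (XT.lf (nat_lit 0) (nat_lit 34858325191) (nat_lit 76) (nat_lit 4573193884) (nat_lit 76) (nat_lit 3815166262) (nat_lit 4) (nat_lit 4) (nat_lit 5) (nat_lit 5) (nat_lit 5) (nat_lit 4) (nat_lit 309) (nat_lit 207) (nat_lit 204))) (XT.nd (nat_lit 78) (nat_lit 76) (nat_lit 0) (XT.lf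 (nat_lit 0) (nat_lit 40997395516) (nat_lit 76) (nat_lit 2634550422) (nat_lit 76) (nat_lit 1647520083) (nat_lit 4) (nat_lit 4) (nat_lit 5) (nat_lit 5) (nat_lit 5) (nat_lit 4) (nat_lit 310) (nat_lit 207) (nat_lit 203)) (XT.lf (nat_lit 0) (nat_lit 532091779) (nat_lit 152) (nat_lit 114340017) (nat_lit 76) (nat_lit 46770897711) (nat_lit 3) (nat_lit 5) (nat_lit 5) (nat_lit 5) (nat_lit 4) (nat_lit 4) (nat_lit 311) (nat_lit 207) (nat_lit 202)))) (XT.nd (nat_lit 156) (nat_lit 0) (nat_lit 0) (XT.nd (nat_lit 78) (nat_lit 0) (nat_lit 0) (XT.lf (nat_lit 0) (nat_lit 2782062448) (nat_lit 152) (nat_lit 45441449531) (nat_lit 0) (nat_lit 1436500179) (nat_lit 2) (nat_lit 5) (nat_lit 4) (nat_lit 4) (nat_lit 2) (nat_lit 4) (nat_lit 312) (nat_lit 207) (nat_lit 201)) (XT.lf (nat_lit 0) (nat_lit 5085078942) (nat_lit 152) (nat_lit 43381715350) (nat_lit 0) (nat_lit 3551115571) (nat_lit 2) (nat_lit 5) (nat_lit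 4) (nat_lit 4) (nat_lit 2) (nat_lit 4) (nat_lit 313) (nat_lit 207) (nat_lit 200))) (XT.nd (nat_lit 78) (nat_lit 0) (nat_lit 0) (XT.lf (nat_lit 0) (nat_lit 7434657597) (nat_lit 152) (nat_lit 41341312816) (nat_lit 0) (nat_lit 5721264604) (nat_lit 2) (nat_lit 5) (nat_lit 4) (nat_lit 4) (nat_lit 2) (nat_lit 4) (nat_lit 314) (nat_lit 207) (nat_lit 199)) (XT.lf (nat_lit 0) (nat_lit 9836392647) (nat_lit 152) (nat_lit 39315383828) (nat_lit 0) (nat_lit 7952114301) (nat_lit 2) (nat_lit 5) (nat_lit 4) (nat_lit 4) (nat_lit 2) (nat_lit 4) (nat_lit 315) (nat_lit 207) (nat_lit 198))))) (XT.nd (nat_lit 312) (nat_lit 0) (nat_lit 0) (XT.nd (nat_lit 156) (nat_lit 0) (nat_lit 0) (XT.nd (nat_lit 78) (nat_lit 0) (nat_lit 0) (XT.lf (nat_lit 0) (nat_lit 12296002509) (nat_lit 152) (nat_lit 37299104745) (nat_lit 0) (nat_lit 10248976206) (nat_lit 2) (nat_lit 5) (nat_lit 4) (nat_lit 4) (nat_lit 2) (nat_lit 4)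 (nat_lit 316) (nat_lit 207) (nat_lit 197)) (XT.lf (nat_lit 0) (nat_lit 14819343397) (nat_lit 152) (nat_lit 35287674903) (nat_lit 0) (nat_lit 12617319041) (nat_lit 2) (nat_lit 5) (nat_lit 4) (nat_lit 4) (nat_lit 2) (nat_lit 4) (nat_lit 317) (nat_lit 207) (nat_lit 196))) (XT.nd (nat_lit 78) (nat_lit 0) (nat_lit 0) (XT.lf (nat_lit 0) (nat_lit 17412423266) (nat_lit 152) (nat_lit 33276305183) (nat_lit 0) (nat_lit 15062781715) (nat_lit 2) (nat_lit 5) (nat_lit 4) (nat_lit 4) (nat_lit 2) (nat_lit 4) (nat_lit 318) (nat_lit 207) (nat_lit 195)) (XT.lf (nat_lit 0) (nat_lit 20081416114) (nat_lit 152) (nat_lit 31260206609) (nat_lit 0) (nat_lit 17591186760) (nat_lit 2) (nat_lit 5) (nat_lit 4) (nat_lit 4) (nat_lit 2) (nat_lit 4) (nat_lit 319) (nat_lit 207) (nat_lit 194)))) (XT.nd (nat_lit 156) (nat_lit 0) (nat_lit 0) (XT.nd (nat_lit 78) (nat_lit 0) (nat_lit 0) (XT.lf (nat_lit 0) (nat_lit 22832676687)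 (nat_lit 152) (nat_lit 29234578948) (nat_lit 0) (nat_lit 20208554187) (nat_lit 2) (nat_lit 5) (nat_lit 4) (nat_lit 4) (nat_lit 2) (nat_lit 4) (nat_lit 320) (nat_lit 207) (nat_lit 193)) (XT.lf (nat_lit 0) (nat_lit 25672755606) (nat_lit 152) (nat_lit 27194599275) (nat_lit 0) (nat_lit 22921115824) (nat_lit 2) (nat_lit 5) (nat_lit 4) (nat_lit 4) (nat_lit 2) (nat_lit 4) (nat_lit 321) (nat_lit 207) (nat_lit 192))) (XT.nd (nat_lit 78) (nat_lit 0) (nat_lit 0) (XT.lf (nat_lit 0) (nat_lit 28608414963) (nat_lit 152) (nat_lit 25135410497) (nat_lit 0) (nat_lit 25735330150) (nat_lit 2) (nat_lit 5) (nat_lit 4) (nat_lit 4) (nat_lit 2) (nat_lit 4) (nat_lit 322) (nat_lit 207) (nat_lit 191)) (XT.nd (nat_lit 78) (nat_lit 0) (nat_lit 0) (XT.lf (nat_lit 0) (nat_lit 31646644423) (nat_lit 152) (nat_lit 23052109783) (nat_lit 0) (nat_lit 28657897676) (nat_lit 2) (nat_lit 5) (nat_lit 4) (nat_lit 4) (nat_lit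 2) (nat_lit 4) (nat_lit 323) (nat_lit 207) (nat_lit 190)) (XT.lf (nat_lit 0) (nat_lit 34794677865) (nat_lit 152) (nat_lit 20939736893) (nat_lit 0) (nat_lit 31695776896) (nat_lit 2) (nat_lit 5) (nat_lit 4) (nat_lit 4) (nat_lit 2) (nat_lit 4) (nat_lit 324) (nat_lit 207) (nat_lit 189))))))))
noncomputable def xc25 : XT := (XT.nd (nat_lit 1326) (nat_lit 0) (nat_lit 0) (XT.nd (nat_lit 624) (nat_lit 76) (nat_lit 0) (XT.nd (nat_lit 312) (nat_lit 0) (nat_lit 0) (XT.nd (nat_lit 156) (nat_lit 0) (nat_lit 0) (XT.nd (nat_lit 78) (nat_lit 0) (nat_lit 0) (XT.lf (nat_lit 0) (nat_lit 38060010609) (nat_lit 152) (nat_lit 18793262368) (nat_lit 0) (nat_lit 34856200855) (nat_lit 2) (nat_lit 5) (nat_lit 4) (nat_lit 4) (nat_lit 2) (nat_lit 4) (nat_lit 325) (nat_lit 207) (nat_lit 188)) (XT.lf (nat_lit 0) (nat_lit 41450417254) (nat_lit 152) (nat_lit 16607575554) (nat_lit 0) (nat_lit 38146694374) (nat_lit 2)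 (nat_lit 5) (nat_lit 4) (nat_lit 4) (nat_lit 2) (nat_lit 4) (nat_lit 326) (nat_lit 207) (nat_lit 187))) (XT.nd (nat_lit 78) (nat_lit 0) (nat_lit 0) (XT.lf (nat_lit 0) (nat_lit 44973970199) (nat_lit 152) (nat_lit 14377472435) (nat_lit 0) (nat_lit 41575091959) (nat_lit 2) (nat_lit 5) (nat_lit 4) (nat_lit 4) (nat_lit 2) (nat_lit 4) (nat_lit 327) (nat_lit 207) (nat_lit 186)) (XT.lf (nat_lit 0) (nat_lit 48639058855) (nat_lit 152) (nat_lit 12097643242) (nat_lit 0) (nat_lit 45149556463) (nat_lit 2) (nat_lit 5) (nat_lit 4) (nat_lit 4) (nat_lit 2) (nat_lit 4) (nat_lit 328) (nat_lit 207) (nat_lit 185)))) (XT.nd (nat_lit 156) (nat_lit 0) (nat_lit 0) (XT.nd (nat_lit 78) (nat_lit 0) (nat_lit 0) (XT.lf (nat_lit 0) (nat_lit 52454409623) (nat_lit 152) (nat_lit 9762659810) (nat_lit 0) (nat_lit 48878598515) (nat_lit 2) (nat_lit 5) (nat_lit 4) (nat_lit 4) (nat_lit 2) (nat_lit 4) (nat_lit 329) (nat_lit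 207) (nat_lit 184)) (XT.lf (nat_lit 0) (nat_lit 56429106672) (nat_lit 152) (nat_lit 7366962655) (nat_lit 0) (nat_lit 52771096787) (nat_lit 2) (nat_lit 5) (nat_lit 4) (nat_lit 4) (nat_lit 2) (nat_lit 4) (nat_lit 330) (nat_lit 207) (nat_lit 183))) (XT.nd (nat_lit 78) (nat_lit 0) (nat_lit 0) (XT.lf (nat_lit 0) (nat_lit 60572613566) (nat_lit 152) (nat_lit 4904847736) (nat_lit 0) (nat_lit 56836319132) (nat_lit 2) (nat_lit 5) (nat_lit 4) (nat_lit 4) (nat_lit 2) (nat_lit 4) (nat_lit 331) (nat_lit 207) (nat_lit 182)) (XT.lf (nat_lit 0) (nat_lit 64894795799) (nat_lit 152) (nat_lit 2370452874) (nat_lit 0) (nat_lit 61083944650) (nat_lit 2) (nat_lit 5) (nat_lit 4) (nat_lit 4) (nat_lit 2) (nat_lit 4) (nat_lit 332) (nat_lit 207) (nat_lit 181))))) (XT.nd (nat_lit 312) (nat_lit 0) (nat_lit 0) (XT.nd (nat_lit 156) (nat_lit 0) (nat_lit 0) (XT.nd (nat_lit 78) (nat_lit 0) (nat_lit 0) (XT.lf (nat_lit 0)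 (nat_lit 250266287) (nat_lit 76) (nat_lit 69159585349) (nat_lit 76) (nat_lit 65277727807) (nat_lit 1) (nat_lit 4) (nat_lit 2) (nat_lit 5) (nat_lit 2) (nat_lit 4) (nat_lit 333) (nat_lit 207) (nat_lit 180)) (XT.lf (nat_lit 0) (nat_lit 3036693386) (nat_lit 76) (nat_lit 71127517745) (nat_lit 76) (nat_lit 67178035065) (nat_lit 1) (nat_lit 4) (nat_lit 2) (nat_lit 5) (nat_lit 2) (nat_lit 4) (nat_lit 334) (nat_lit 207) (nat_lit 179))) (XT.nd (nat_lit 78) (nat_lit 0) (nat_lit 0) (XT.lf (nat_lit 0) (nat_lit 5917084894) (nat_lit 76) (nat_lit 73213876179) (nat_lit 76) (nat_lit 69199988607) (nat_lit 1) (nat_lit 4) (nat_lit 2) (nat_lit 5) (nat_lit 2) (nat_lit 4) (nat_lit 335) (nat_lit 207) (nat_lit 178)) (XT.lf (nat_lit 0) (nat_lit 8898298887) (nat_lit 76) (nat_lit 75423628172) (nat_lit 76) (nat_lit 71348402607) (nat_lit 1) (nat_lit 4) (nat_lit 2) (nat_lit 5) (nat_lit 2) (nat_lit 4) (nat_lit 336)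 (nat_lit 207) (nat_lit 177)))) (XT.nd (nat_lit 156) (nat_lit 0) (nat_lit 0) (XT.nd (nat_lit 78) (nat_lit 0) (nat_lit 0) (XT.lf (nat_lit 0) (nat_lit 11987433492) (nat_lit 76) (nat_lit 77762035038) (nat_lit 76) (nat_lit 73628392336) (nat_lit 1) (nat_lit 4) (nat_lit 2) (nat_lit 5) (nat_lit 2) (nat_lit 4) (nat_lit 337) (nat_lit 207) (nat_lit 176)) (XT.lf (nat_lit 0) (nat_lit 15191843793) (nat_lit 76) (nat_lit 80234664413) (nat_lit 76) (nat_lit 76045386343) (nat_lit 1) (nat_lit 4) (nat_lit 2) (nat_lit 5) (nat_lit 2) (nat_lit 4) (nat_lit 338) (nat_lit 207) (nat_lit 175))) (XT.nd (nat_lit 78) (nat_lit 0) (nat_lit 0) (XT.lf (nat_lit 0) (nat_lit 18519159338) (nat_lit 76) (nat_lit 82847403509) (nat_lit 76) (nat_lit 78605139375) (nat_lit 1) (nat_lit 4) (nat_lit 2) (nat_lit 5) (nat_lit 2) (nat_lit 4) (nat_lit 339) (nat_lit 207) (nat_lit 174)) (XT.nd (nat_lit 78) (nat_lit 0) (nat_lit 0) (XT.lf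 (nat_lit 0) (nat_lit 21977302306) (nat_lit 76) (nat_lit 85606473134) (nat_lit 76) (nat_lit 81313746081) (nat_lit 1) (nat_lit 4) (nat_lit 2) (nat_lit 5) (nat_lit 2) (nat_lit 4) (nat_lit 340) (nat_lit 207) (nat_lit 173)) (XT.lf (nat_lit 0) (nat_lit 25574506372) (nat_lit 76) (nat_lit 88518442500) (nat_lit 76) (nat_lit 84177655525) (nat_lit 1) (nat_lit 4) (nat_lit 2) (nat_lit 5) (nat_lit 2) (nat_lit 4) (nat_lit 341) (nat_lit 207) (nat_lit 172))))))) (XT.nd (nat_lit 702) (nat_lit 0) (nat_lit 0) (XT.nd (nat_lit 312) (nat_lit 0) (nat_lit 0) (XT.nd (nat_lit 156) (nat_lit 0) (nat_lit 0) (XT.nd (nat_lit 78) (nat_lit 0) (nat_lit 0) (XT.lf (nat_lit 0) (nat_lit 29319336307) (nat_lit 76) (nat_lit 91590244870) (nat_lit 76) (nat_lit 87203686540) (nat_lit 1) (nat_lit 4) (nat_lit 2) (nat_lit 5) (nat_lit 2) (nat_lit 4) (nat_lit 342) (nat_lit 207) (nat_lit 171)) (XT.lf (nat_lit 0) (nat_lit 33220708372)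 (nat_lit 76) (nat_lit 94829194057) (nat_lit 76) (nat_lit 90399043960) (nat_lit 1) (nat_lit 4) (nat_lit 2) (nat_lit 5) (nat_lit 2) (nat_lit 4) (nat_lit 343) (nat_lit 207) (nat_lit 170))) (XT.nd (nat_lit 78) (nat_lit 0) (nat_lit 0) (XT.lf (nat_lit 0) (nat_lit 37287911550) (nat_lit 76) (nat_lit 98243001845) (nat_lit 76) (nat_lit 93771335781) (nat_lit 1) (nat_lit 4) (nat_lit 2) (nat_lit 5) (nat_lit 2) (nat_lit 4) (nat_lit 344) (nat_lit 207) (nat_lit 169)) (XT.lf (nat_lit 0) (nat_lit 41530629656) (nat_lit 76) (nat_lit 101839796349) (nat_lit 76) (nat_lit 97328591267) (nat_lit 1) (nat_lit 4) (nat_lit 2) (nat_lit 5) (nat_lit 2) (nat_lit 4) (nat_lit 345) (nat_lit 207) (nat_lit 168)))) (XT.nd (nat_lit 156) (nat_lit 0) (nat_lit 0) (XT.nd (nat_lit 78) (nat_lit 0) (nat_lit 0) (XT.lf (nat_lit 0) (nat_lit 45958964401) (nat_lit 76) (nat_lit 105628141364) (nat_lit 76) (nat_lit 101079280076) (nat_lit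 1) (nat_lit 4) (nat_lit 2) (nat_lit 5) (nat_lit 2) (nat_lit 4) (nat_lit 346) (nat_lit 207) (nat_lit 167)) (XT.lf (nat_lit 0) (nat_lit 50583459438) (nat_lit 76) (nat_lit 109617056761) (nat_lit 76) (nat_lit 105032332418) (nat_lit 1) (nat_lit 4) (nat_lit 2) (nat_lit 5) (nat_lit 2) (nat_lit 4) (nat_lit 347) (nat_lit 207) (nat_lit 166))) (XT.nd (nat_lit 78) (nat_lit 0) (nat_lit 0) (XT.lf (nat_lit 0) (nat_lit 55415125471) (nat_lit 76) (nat_lit 113816039955) (nat_lit 76) (nat_lit 109197160323) (nat_lit 1) (nat_lit 4) (nat_lit 2) (nat_lit 5) (nat_lit 2) (nat_lit 4) (nat_lit 348) (nat_lit 207) (nat_lit 165)) (XT.nd (nat_lit 78) (nat_lit 0) (nat_lit 0) (XT.lf (nat_lit 0) (nat_lit 60465466466) (nat_lit 76) (nat_lit 118235088527) (nat_lit 76) (nat_lit 113583680047) (nat_lit 1) (nat_lit 4) (nat_lit 2) (nat_lit 5) (nat_lit 2) (nat_lit 4) (nat_lit 349) (nat_lit 207) (nat_lit 164)) (XT.lf (nat_lit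 0) (nat_lit 65746507045) (nat_lit 76) (nat_lit 122884724020) (nat_lit 76) (nat_lit 118202335686) (nat_lit 1) (nat_lit 4) (nat_lit 2) (nat_lit 5) (nat_lit 2) (nat_lit 4) (nat_lit 350) (nat_lit 207) (nat_lit 163)))))) (XT.nd (nat_lit 312) (nat_lit 0) (nat_lit 0) (XT.nd (nat_lit 156) (nat_lit 0) (nat_lit 0) (XT.nd (nat_lit 78) (nat_lit 0) (nat_lit 0) (XT.lf (nat_lit 0) (nat_lit 71270821113) (nat_lit 76) (nat_lit 127776016996) (nat_lit 76) (nat_lit 123064124039) (nat_lit 1) (nat_lit 4) (nat_lit 2) (nat_lit 5) (nat_lit 2) (nat_lit 4) (nat_lit 351) (nat_lit 207) (nat_lit 162)) (XT.lf (nat_lit 0) (nat_lit 77051561799) (nat_lit 76) (nat_lit 132920613390) (nat_lit 76) (nat_lit 128180620791) (nat_lit 1) (nat_lit 4) (nat_lit 2) (nat_lit 5) (nat_lit 2) (nat_lit 4) (nat_lit 352) (nat_lit 207) (nat_lit 161))) (XT.nd (nat_lit 78) (nat_lit 0) (nat_lit 0) (XT.lf (nat_lit 0) (nat_lit 83102492772) (nat_lit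 76) (nat_lit 138330762241) (nat_lit 76) (nat_lit 133564008079) (nat_lit 1) (nat_lit 4) (nat_lit 2) (nat_lit 5) (nat_lit 2) (nat_lit 4) (nat_lit 353) (nat_lit 207) (nat_lit 160)) (XT.lf (nat_lit 0) (nat_lit 89438021011) (nat_lit 76) (nat_lit 144019344855) (nat_lit 76) (nat_lit 139227103490) (nat_lit 1) (nat_lit 4) (nat_lit 2) (nat_lit 5) (nat_lit 2) (nat_lit 4) (nat_lit 354) (nat_lit 207) (nat_lit 159)))) (XT.nd (nat_lit 156) (nat_lit 0) (nat_lit 0) (XT.nd (nat_lit 78) (nat_lit 0) (nat_lit 0) (XT.lf (nat_lit 0) (nat_lit 96073231105) (nat_lit 76) (nat_lit 149999905478) (nat_lit 76) (nat_lit 145183390586) (nat_lit 1) (nat_lit 4) (nat_lit 2) (nat_lit 5) (nat_lit 2) (nat_lit 4) (nat_lit 355) (nat_lit 207) (nat_lit 158)) (XT.lf (nat_lit 0) (nat_lit 103023921175) (nat_lit 76) (nat_lit 156286683539) (nat_lit 76) (nat_lit 151447051002) (nat_lit 1) (nat_lit 4) (nat_lit 2) (nat_lit 5) (nat_lit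 2) (nat_lit 4) (nat_lit 356) (nat_lit 207) (nat_lit 157))) (XT.nd (nat_lit 78) (nat_lit 0) (nat_lit 0) (XT.lf (nat_lit 0) (nat_lit 110306640482) (nat_lit 76) (nat_lit 162894647557) (nat_lit 76) (nat_lit 158032998216) (nat_lit 1) (nat_lit 4) (nat_lit 2) (nat_lit 5) (nat_lit 2) (nat_lit 4) (nat_lit 357) (nat_lit 207) (nat_lit 156)) (XT.nd (nat_lit 78) (nat_lit 0) (nat_lit 0) (XT.lf (nat_lit 0) (nat_lit 117938728835) (nat_lit 76) (nat_lit 169839530780) (nat_lit 76) (nat_lit 164956913055) (nat_lit 1) (nat_lit 4) (nat_lit 2) (nat_lit 5) (nat_lit 2) (nat_lit 4) (nat_lit 358) (nat_lit 207) (nat_lit 155)) (XT.lf (nat_lit 0) (nat_lit 125938357872) (nat_lit 76) (nat_lit 177137868645) (nat_lit 76) (nat_lit 172235281029) (nat_lit 1) (nat_lit 4) (nat_lit 2) (nat_lit 5) (nat_lit 2) (nat_lit 4) (nat_lit 359) (nat_lit 207) (nat_lit 154))))))))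
noncomputable def xc26 : XT := (XT.nd (nat_lit 34086) (nat_lit 0) (nat_lit 76) (XT.nd (nat_lit 33384) (nat_lit 0) (nat_lit 76) (XT.nd (nat_lit 312) (nat_lit 0) (nat_lit 0) (XT.nd (nat_lit 156) (nat_lit 0) (nat_lit 0) (XT.nd (nat_lit 78) (nat_lit 0) (nat_lit 0) (XT.lf (nat_lit 0) (nat_lit 134324574329) (nat_lit 76) (nat_lit 184807038146) (nat_lit 76) (nat_lit 179885431586) (nat_lit 1) (nat_lit 4) (nat_lit 2) (nat_lit 5) (nat_lit 2) (nat_lit 4) (nat_lit 360) (nat_lit 207) (nat_lit 153)) (XT.lf (nat_lit 0) (nat_lit 143117345389) (nat_lit 76) (nat_lit 192865299210) (nat_lit 76) (nat_lit 187925579371) (nat_lit 1) (nat_lit 4) (nat_lit 2) (nat_lit 5) (nat_lit 2) (nat_lit 4) (nat_lit 361) (nat_lit 207) (nat_lit 152))) (XT.nd (nat_lit 78) (nat_lit 0) (nat_lit 0) (XT.lf (nat_lit 0) (nat_lit 152337606220) (nat_lit 76) (nat_lit 201331838173) (nat_lit 76) (nat_lit 196374867592) (nat_lit 1) (nat_lit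 4) (nat_lit 2) (nat_lit 5) (nat_lit 2) (nat_lit 4) (nat_lit 362) (nat_lit 207) (nat_lit 151)) (XT.lf (nat_lit 0) (nat_lit 162007309824) (nat_lit 76) (nat_lit 210226813463) (nat_lit 76) (nat_lit 205253413603) (nat_lit 1) (nat_lit 4) (nat_lit 2) (nat_lit 5) (nat_lit 2) (nat_lit 4) (nat_lit 363) (nat_lit 207) (nat_lit 150)))) (XT.nd (nat_lit 32916) (nat_lit 0) (nat_lit 228) (XT.nd (nat_lit 32838) (nat_lit 0) (nat_lit 228) (XT.lf (nat_lit 0) (nat_lit 172149479305) (nat_lit 76) (nat_lit 219571403590) (nat_lit 76) (nat_lit 214582356799) (nat_lit 1) (nat_lit 4) (nat_lit 2) (nat_lit 5) (nat_lit 2) (nat_lit 4) (nat_lit 364) (nat_lit 207) (nat_lit 149)) (XT.lf (nat_lit 0) (nat_lit 3189464813) (nat_lit 76) (nat_lit 7030721120) (nat_lit 76) (nat_lit 7030721120) (nat_lit 4) (nat_lit 4) (nat_lit 5) (nat_lit 5) (nat_lit 5) (nat_lit 4) (nat_lit 304) (nat_lit 208) (nat_lit 208))) (XT.nd (nat_lit 78)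 (nat_lit 0) (nat_lit 0) (XT.lf (nat_lit 0) (nat_lit 11770600591) (nat_lit 76) (nat_lit 12292583256) (nat_lit 76) (nat_lit 12014229021) (nat_lit 4) (nat_lit 4) (nat_lit 5) (nat_lit 5) (nat_lit 5) (nat_lit 4) (nat_lit 305) (nat_lit 208) (nat_lit 207)) (XT.lf (nat_lit 0) (nat_lit 17272114931) (nat_lit 76) (nat_lit 10503918821) (nat_lit 76) (nat_lit 9960465315) (nat_lit 4) (nat_lit 4) (nat_lit 5) (nat_lit 5) (nat_lit 5) (nat_lit 4) (nat_lit 306) (nat_lit 208) (nat_lit 206))))) (XT.nd (nat_lit 312) (nat_lit 152) (nat_lit 0) (XT.nd (nat_lit 156) (nat_lit 0) (nat_lit 0) (XT.nd (nat_lit 78) (nat_lit 0) (nat_lit 0) (XT.lf (nat_lit 0) (nat_lit 22896571491) (nat_lit 76) (nat_lit 8691190213) (nat_lit 76) (nat_lit 7895261210) (nat_lit 4) (nat_lit 4) (nat_lit 5) (nat_lit 5) (nat_lit 5) (nat_lit 4) (nat_lit 307) (nat_lit 208) (nat_lit 205)) (XT.lf (nat_lit 0) (nat_lit 28657361834) (nat_lit 76) (nat_lit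 6850081410) (nat_lit 76) (nat_lit 5813699553) (nat_lit 4) (nat_lit 4) (nat_lit 5) (nat_lit 5) (nat_lit 5) (nat_lit 4) (nat_lit 308) (nat_lit 208) (nat_lit 204))) (XT.nd (nat_lit 78) (nat_lit 0) (nat_lit 0) (XT.lf (nat_lit 0) (nat_lit 34568202128) (nat_lit 76) (nat_lit 4976208820) (nat_lit 76) (nat_lit 3710824245) (nat_lit 4) (nat_lit 4) (nat_lit 5) (nat_lit 5) (nat_lit 5) (nat_lit 4) (nat_lit 309) (nat_lit 208) (nat_lit 203)) (XT.lf (nat_lit 0) (nat_lit 40643165802) (nat_lit 76) (nat_lit 3065110841) (nat_lit 76) (nat_lit 1581628441) (nat_lit 4) (nat_lit 4) (nat_lit 5) (nat_lit 5) (nat_lit 5) (nat_lit 4) (nat_lit 310) (nat_lit 208) (nat_lit 202)))) (XT.nd (nat_lit 156) (nat_lit 0) (nat_lit 0) (XT.nd (nat_lit 78) (nat_lit 76) (nat_lit 0) (XT.lf (nat_lit 0) (nat_lit 560427122) (nat_lit 152) (nat_lit 542319015) (nat_lit 76) (nat_lit 46326798827) (nat_lit 3) (nat_lit 5) (nat_lit 5) (nat_lit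 5) (nat_lit 4) (nat_lit 4) (nat_lit 311) (nat_lit 208) (nat_lit 201)) (XT.lf (nat_lit 0) (nat_lit 2761126617) (nat_lit 152) (nat_lit 45951553406) (nat_lit 0) (nat_lit 962063974) (nat_lit 2) (nat_lit 5) (nat_lit 4) (nat_lit 4) (nat_lit 2) (nat_lit 4) (nat_lit 312) (nat_lit 208) (nat_lit 200))) (XT.nd (nat_lit 78) (nat_lit 0) (nat_lit 0) (XT.lf (nat_lit 0) (nat_lit 5030685226) (nat_lit 152) (nat_lit 43951486716) (nat_lit 0) (nat_lit 3052192962) (nat_lit 2) (nat_lit 5) (nat_lit 4) (nat_lit 4) (nat_lit 2) (nat_lit 4) (nat_lit 313) (nat_lit 208) (nat_lit 199)) (XT.nd (nat_lit 78) (nat_lit 0) (nat_lit 0) (XT.lf (nat_lit 0) (nat_lit 7348399228) (nat_lit 152) (nat_lit 41967910364) (nat_lit 0) (nat_lit 5199021610) (nat_lit 2) (nat_lit 5) (nat_lit 4) (nat_lit 4) (nat_lit 2) (nat_lit 4) (nat_lit 314) (nat_lit 208) (nat_lit 198)) (XT.lf (nat_lit 0) (nat_lit 9719786990) (nat_lit 152) (nat_lit 39996101548)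 (nat_lit 0) (nat_lit 7407661416) (nat_lit 2) (nat_lit 5) (nat_lit 4) (nat_lit 4) (nat_lit 2) (nat_lit 4) (nat_lit 315) (nat_lit 208) (nat_lit 197))))))) (XT.nd (nat_lit 624) (nat_lit 0) (nat_lit 0) (XT.nd (nat_lit 312) (nat_lit 0) (nat_lit 0) (XT.nd (nat_lit 156) (nat_lit 0) (nat_lit 0) (XT.nd (nat_lit 78) (nat_lit 0) (nat_lit 0) (XT.lf (nat_lit 0) (nat_lit 12150494673) (nat_lit 152) (nat_lit 38031365487) (nat_lit 0) (nat_lit 9683371046) (nat_lit 2) (nat_lit 5) (nat_lit 4) (nat_lit 4) (nat_lit 2) (nat_lit 4) (nat_lit 316) (nat_lit 208) (nat_lit 196)) (XT.lf (nat_lit 0) (nat_lit 14646309676) (nat_lit 152) (nat_lit 36069024237) (nat_lit 0) (nat_lit 12031568855) (nat_lit 2) (nat_lit 5) (nat_lit 4) (nat_lit 4) (nat_lit 2) (nat_lit 4) (nat_lit 317) (nat_lit 208) (nat_lit 195))) (XT.nd (nat_lit 78) (nat_lit 0) (nat_lit 0) (XT.lf (nat_lit 0) (nat_lit 17213174416) (nat_lit 152) (nat_lit 34104405558)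 (nat_lit 0) (nat_lit 14457845791) (nat_lit 2) (nat_lit 5) (nat_lit 4) (nat_lit 4) (nat_lit 2) (nat_lit 4) (nat_lit 318) (nat_lit 208) (nat_lit 194)) (XT.lf (nat_lit 0) (nat_lit 19857200476) (nat_lit 152) (nat_lit 32132831784) (nat_lit 0) (nat_lit 16967978704) (nat_lit 2) (nat_lit 5) (nat_lit 4) (nat_lit 4) (nat_lit 2) (nat_lit 4) (nat_lit 319) (nat_lit 208) (nat_lit 193)))) (XT.nd (nat_lit 156) (nat_lit 0) (nat_lit 0) (XT.nd (nat_lit 78) (nat_lit 0) (nat_lit 0) (XT.lf (nat_lit 0) (nat_lit 22584683155) (nat_lit 152) (nat_lit 30149608695) (nat_lit 0) (nat_lit 19567944101) (nat_lit 2) (nat_lit 5) (nat_lit 4) (nat_lit 4) (nat_lit 2) (nat_lit 4) (nat_lit 320) (nat_lit 208) (nat_lit 192)) (XT.lf (nat_lit 0) (nat_lit 25402116460) (nat_lit 152) (nat_lit 28150014328) (nat_lit 0) (nat_lit 22263932376) (nat_lit 2) (nat_lit 5) (nat_lit 4) (nat_lit 4) (nat_lit 2) (nat_lit 4) (nat_lit 321) (nat_lit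 208) (nat_lit 191))) (XT.nd (nat_lit 78) (nat_lit 0) (nat_lit 0) (XT.lf (nat_lit 0) (nat_lit 28316208565) (nat_lit 152) (nat_lit 26129287747) (nat_lit 0) (nat_lit 25062362547) (nat_lit 2) (nat_lit 5) (nat_lit 4) (nat_lit 4) (nat_lit 2) (nat_lit 4) (nat_lit 322) (nat_lit 208) (nat_lit 190)) (XT.lf (nat_lit 0) (nat_lit 31333897786) (nat_lit 152) (nat_lit 24082617696) (nat_lit 0) (nat_lit 27969897545) (nat_lit 2) (nat_lit 5) (nat_lit 4) (nat_lit 4) (nat_lit 2) (nat_lit 4) (nat_lit 323) (nat_lit 208) (nat_lit 189))))) (XT.nd (nat_lit 312) (nat_lit 0) (nat_lit 0) (XT.nd (nat_lit 156) (nat_lit 0) (nat_lit 0) (XT.nd (nat_lit 78) (nat_lit 0) (nat_lit 0) (XT.lf (nat_lit 0) (nat_lit 34462369097) (nat_lit 152) (nat_lit 22005131152) (nat_lit 0) (nat_lit 30993460072) (nat_lit 2) (nat_lit 5) (nat_lit 4) (nat_lit 4) (nat_lit 2) (nat_lit 4) (nat_lit 324) (nat_lit 208) (nat_lit 188)) (XT.lf (nat_lit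 0) (nat_lit 37709071238) (nat_lit 152) (nat_lit 19891881718) (nat_lit 0) (nat_lit 34140249086) (nat_lit 2) (nat_lit 5) (nat_lit 4) (nat_lit 4) (nat_lit 2) (nat_lit 4) (nat_lit 325) (nat_lit 208) (nat_lit 187))) (XT.nd (nat_lit 78) (nat_lit 0) (nat_lit 0) (XT.lf (nat_lit 0) (nat_lit 41081734452) (nat_lit 152) (nat_lit 17737837849) (nat_lit 0) (nat_lit 37417756941) (nat_lit 2) (nat_lit 5) (nat_lit 4) (nat_lit 4) (nat_lit 2) (nat_lit 4) (nat_lit 326) (nat_lit 208) (nat_lit 186)) (XT.lf (nat_lit 0) (nat_lit 44588388892) (nat_lit 152) (nat_lit 15537870868) (nat_lit 0) (nat_lit 40833787229) (nat_lit 2) (nat_lit 5) (nat_lit 4) (nat_lit 4) (nat_lit 2) (nat_lit 4) (nat_lit 327) (nat_lit 208) (nat_lit 185)))) (XT.nd (nat_lit 156) (nat_lit 0) (nat_lit 0) (XT.nd (nat_lit 78) (nat_lit 0) (nat_lit 0) (XT.lf (nat_lit 0) (nat_lit 48237383732) (nat_lit 152) (nat_lit 13286742758) (nat_lit 0) (nat_lit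 44396473354) (nat_lit 2) (nat_lit 5) (nat_lit 4) (nat_lit 4) (nat_lit 2) (nat_lit 4) (nat_lit 328) (nat_lit 208) (nat_lit 184)) (XT.lf (nat_lit 0) (nat_lit 52037407058) (nat_lit 152) (nat_lit 10979093691) (nat_lit 0) (nat_lit 48114297902) (nat_lit 2) (nat_lit 5) (nat_lit 4) (nat_lit 4) (nat_lit 2) (nat_lit 4) (nat_lit 329) (nat_lit 208) (nat_lit 183))) (XT.nd (nat_lit 78) (nat_lit 0) (nat_lit 0) (XT.lf (nat_lit 0) (nat_lit 55997506542) (nat_lit 152) (nat_lit 8609429264) (nat_lit 0) (nat_lit 51996112837) (nat_lit 2) (nat_lit 5) (nat_lit 4) (nat_lit 4) (nat_lit 2) (nat_lit 4) (nat_lit 330) (nat_lit 208) (nat_lit 182)) (XT.nd (nat_lit 78) (nat_lit 0) (nat_lit 0) (XT.lf (nat_lit 0) (nat_lit 60127110994) (nat_lit 152) (nat_lit 6172107420) (nat_lit 0) (nat_lit 56051160575) (nat_lit 2) (nat_lit 5) (nat_lit 4) (nat_lit 4) (nat_lit 2) (nat_lit 4) (nat_lit 331) (nat_lit 208) (nat_lit 181)) (XT.lf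 (nat_lit 0) (nat_lit 64436052805) (nat_lit 152) (nat_lit 3661325010) (nat_lit 0) (nat_lit 60289095992) (nat_lit 2) (nat_lit 5) (nat_lit 4) (nat_lit 4) (nat_lit 2) (nat_lit 4) (nat_lit 332) (nat_lit 208) (nat_lit 180))))))))
noncomputable def xc27 : XT := (XT.nd (nat_lit 1326) (nat_lit 0) (nat_lit 0) (XT.nd (nat_lit 624) (nat_lit 0) (nat_lit 0) (XT.nd (nat_lit 312) (nat_lit 0) (nat_lit 0) (XT.nd (nat_lit 156) (nat_lit 0) (nat_lit 0) (XT.nd (nat_lit 78) (nat_lit 76) (nat_lit 0) (XT.lf (nat_lit 0) (nat_lit 68934591361) (nat_lit 152) (nat_lit 1071103982) (nat_lit 0) (nat_lit 64720009410) (nat_lit 2) (nat_lit 5) (nat_lit 4) (nat_lit 4) (nat_lit 2) (nat_lit 4) (nat_lit 333) (nat_lit 208) (nat_lit 179)) (XT.lf (nat_lit 0) (nat_lit 1657782242) (nat_lit 76) (nat_lit 72001537851) (nat_lit 76) (nat_lit 67722551007) (nat_lit 1) (nat_lit 4) (nat_lit 2) (nat_lit 5) (nat_lit 2) (nat_lit 4) (nat_lit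 334) (nat_lit 208) (nat_lit 178))) (XT.nd (nat_lit 78) (nat_lit 0) (nat_lit 0) (XT.lf (nat_lit 0) (nat_lit 4517101998) (nat_lit 76) (nat_lit 74097201474) (nat_lit 76) (nat_lit 69756876637) (nat_lit 1) (nat_lit 4) (nat_lit 2) (nat_lit 5) (nat_lit 2) (nat_lit 4) (nat_lit 335) (nat_lit 208) (nat_lit 177)) (XT.lf (nat_lit 0) (nat_lit 7478247656) (nat_lit 76) (nat_lit 76315815552) (nat_lit 76) (nat_lit 71917073579) (nat_lit 1) (nat_lit 4) (nat_lit 2) (nat_lit 5) (nat_lit 2) (nat_lit 4) (nat_lit 336) (nat_lit 208) (nat_lit 176)))) (XT.nd (nat_lit 156) (nat_lit 0) (nat_lit 0) (XT.nd (nat_lit 78) (nat_lit 0) (nat_lit 0) (XT.lf (nat_lit 0) (nat_lit 10548269561) (nat_lit 76) (nat_lit 78662662498) (nat_lit 76) (nat_lit 74208285158) (nat_lit 1) (nat_lit 4) (nat_lit 2) (nat_lit 5) (nat_lit 2) (nat_lit 4) (nat_lit 337) (nat_lit 208) (nat_lit 175)) (XT.lf (nat_lit 0) (nat_lit 13734477291) (nat_lit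 76) (nat_lit 81143330045) (nat_lit 76) (nat_lit 76635966640) (nat_lit 1) (nat_lit 4) (nat_lit 2) (nat_lit 5) (nat_lit 2) (nat_lit 4) (nat_lit 338) (nat_lit 208) (nat_lit 174))) (XT.nd (nat_lit 78) (nat_lit 0) (nat_lit 0) (XT.lf (nat_lit 0) (nat_lit 17044457054) (nat_lit 76) (nat_lit 83763724543) (nat_lit 76) (nat_lit 79205898219) (nat_lit 1) (nat_lit 4) (nat_lit 2) (nat_lit 5) (nat_lit 2) (nat_lit 4) (nat_lit 339) (nat_lit 208) (nat_lit 173)) (XT.lf (nat_lit 0) (nat_lit 20486089753) (nat_lit 76) (nat_lit 86530085027) (nat_lit 76) (nat_lit 81924198780) (nat_lit 1) (nat_lit 4) (nat_lit 2) (nat_lit 5) (nat_lit 2) (nat_lit 4) (nat_lit 340) (nat_lit 208) (nat_lit 172))))) (XT.nd (nat_lit 312) (nat_lit 0) (nat_lit 0) (XT.nd (nat_lit 156) (nat_lit 0) (nat_lit 0) (XT.nd (nat_lit 78) (nat_lit 0) (nat_lit 0) (XT.lf (nat_lit 0) (nat_lit 24067569754) (nat_lit 76) (nat_lit 89448998069) (nat_lit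 76) (nat_lit 84797340468) (nat_lit 1) (nat_lit 4) (nat_lit 2) (nat_lit 5) (nat_lit 2) (nat_lit 4) (nat_lit 341) (nat_lit 208) (nat_lit 171)) (XT.lf (nat_lit 0) (nat_lit 27797424388) (nat_lit 76) (nat_lit 92527413462) (nat_lit 76) (nat_lit 87832164095) (nat_lit 1) (nat_lit 4) (nat_lit 2) (nat_lit 5) (nat_lit 2) (nat_lit 4) (nat_lit 342) (nat_lit 208) (nat_lit 170))) (XT.nd (nat_lit 78) (nat_lit 0) (nat_lit 0) (XT.lf (nat_lit 0) (nat_lit 31684534262) (nat_lit 76) (nat_lit 95772660768) (nat_lit 76) (nat_lit 91035895432) (nat_lit 1) (nat_lit 4) (nat_lit 2) (nat_lit 5) (nat_lit 2) (nat_lit 4) (nat_lit 343) (nat_lit 208) (nat_lit 169)) (XT.lf (nat_lit 0) (nat_lit 35738154401) (nat_lit 76) (nat_lit 99192466764) (nat_lit 76) (nat_lit 94416162411) (nat_lit 1) (nat_lit 4) (nat_lit 2) (nat_lit 5) (nat_lit 2) (nat_lit 4) (nat_lit 344) (nat_lit 208) (nat_lit 168)))) (XT.nd (nat_lit 156) (nat_lit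 0) (nat_lit 0) (XT.nd (nat_lit 78) (nat_lit 0) (nat_lit 0) (XT.lf (nat_lit 0) (nat_lit 39967936279) (nat_lit 76) (nat_lit 102794973846) (nat_lit 76) (nat_lit 97981013286) (nat_lit 1) (nat_lit 4) (nat_lit 2) (nat_lit 5) (nat_lit 2) (nat_lit 4) (nat_lit 345) (nat_lit 208) (nat_lit 167)) (XT.lf (nat_lit 0) (nat_lit 44383950807) (nat_lit 76) (nat_lit 106588759413) (nat_lit 76) (nat_lit 101738935799) (nat_lit 1) (nat_lit 4) (nat_lit 2) (nat_lit 5) (nat_lit 2) (nat_lit 4) (nat_lit 346) (nat_lit 208) (nat_lit 166))) (XT.nd (nat_lit 78) (nat_lit 0) (nat_lit 0) (XT.lf (nat_lit 0) (nat_lit 48996712305) (nat_lit 76) (nat_lit 110582856286) (nat_lit 76) (nat_lit 105698877383) (nat_lit 1) (nat_lit 4) (nat_lit 2) (nat_lit 5) (nat_lit 2) (nat_lit 4) (nat_lit 347) (nat_lit 208) (nat_lit 165)) (XT.nd (nat_lit 78) (nat_lit 0) (nat_lit 0) (XT.lf (nat_lit 0) (nat_lit 53817203538) (nat_lit 76) (nat_lit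 114786774221) (nat_lit 76) (nat_lit 109870266470) (nat_lit 1) (nat_lit 4) (nat_lit 2) (nat_lit 5) (nat_lit 2) (nat_lit 4) (nat_lit 348) (nat_lit 208) (nat_lit 164)) (XT.lf (nat_lit 0) (nat_lit 58856901867) (nat_lit 76) (nat_lit 119210522546) (nat_lit 76) (nat_lit 114263034940) (nat_lit 1) (nat_lit 4) (nat_lit 2) (nat_lit 5) (nat_lit 2) (nat_lit 4) (nat_lit 349) (nat_lit 208) (nat_lit 163))))))) (XT.nd (nat_lit 702) (nat_lit 0) (nat_lit 0) (XT.nd (nat_lit 312) (nat_lit 0) (nat_lit 0) (XT.nd (nat_lit 156) (nat_lit 0) (nat_lit 0) (XT.nd (nat_lit 78) (nat_lit 0) (nat_lit 0) (XT.lf (nat_lit 0) (nat_lit 64127806572) (nat_lit 76) (nat_lit 123864633994) (nat_lit 76) (nat_lit 118887641765) (nat_lit 1) (nat_lit 4) (nat_lit 2) (nat_lit 5) (nat_lit 2) (nat_lit 4) (nat_lit 350) (nat_lit 208) (nat_lit 162)) (XT.lf (nat_lit 0) (nat_lit 69642467428) (nat_lit 76) (nat_lit 128760189784) (nat_lit 76)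 (nat_lit 123755097914) (nat_lit 1) (nat_lit 4) (nat_lit 2) (nat_lit 5) (nat_lit 2) (nat_lit 4) (nat_lit 351) (nat_lit 208) (nat_lit 161))) (XT.nd (nat_lit 78) (nat_lit 0) (nat_lit 0) (XT.lf (nat_lit 0) (nat_lit 75414014579) (nat_lit 76) (nat_lit 133908846001) (nat_lit 76) (nat_lit 128876992567) (nat_lit 1) (nat_lit 4) (nat_lit 2) (nat_lit 5) (nat_lit 2) (nat_lit 4) (nat_lit 352) (nat_lit 208) (nat_lit 160)) (XT.lf (nat_lit 0) (nat_lit 81456189804) (nat_lit 76) (nat_lit 139322861350) (nat_lit 76) (nat_lit 134265520713) (nat_lit 1) (nat_lit 4) (nat_lit 2) (nat_lit 5) (nat_lit 2) (nat_lit 4) (nat_lit 353) (nat_lit 208) (nat_lit 159)))) (XT.nd (nat_lit 156) (nat_lit 0) (nat_lit 0) (XT.nd (nat_lit 78) (nat_lit 0) (nat_lit 0) (XT.lf (nat_lit 0) (nat_lit 87783379235) (nat_lit 76) (nat_lit 145015126344) (nat_lit 76) (nat_lit 139933512180) (nat_lit 1) (nat_lit 4) (nat_lit 2) (nat_lit 5) (nat_lit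 2) (nat_lit 4) (nat_lit 354) (nat_lit 208) (nat_lit 158)) (XT.lf (nat_lit 0) (nat_lit 94410647607) (nat_lit 76) (nat_lit 150999193994) (nat_lit 76) (nat_lit 145894462186) (nat_lit 1) (nat_lit 4) (nat_lit 2) (nat_lit 5) (nat_lit 2) (nat_lit 4) (nat_lit 355) (nat_lit 208) (nat_lit 157))) (XT.nd (nat_lit 78) (nat_lit 0) (nat_lit 0) (XT.lf (nat_lit 0) (nat_lit 101353774133) (nat_lit 76) (nat_lit 157289312082) (nat_lit 76) (nat_lit 152162563470) (nat_lit 1) (nat_lit 4) (nat_lit 2) (nat_lit 5) (nat_lit 2) (nat_lit 4) (nat_lit 356) (nat_lit 208) (nat_lit 156)) (XT.nd (nat_lit 78) (nat_lit 0) (nat_lit 0) (XT.lf (nat_lit 0) (nat_lit 108629290065) (nat_lit 76) (nat_lit 163900457077) (nat_lit 76) (nat_lit 158752740080) (nat_lit 1) (nat_lit 4) (nat_lit 2) (nat_lit 5) (nat_lit 2) (nat_lit 4) (nat_lit 357) (nat_lit 208) (nat_lit 155)) (XT.lf (nat_lit 0) (nat_lit 116254518060) (nat_lit 76) (nat_lit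 170848369803) (nat_lit 76) (nat_lit 165680682916) (nat_lit 1) (nat_lit 4) (nat_lit 2) (nat_lit 5) (nat_lit 2) (nat_lit 4) (nat_lit 358) (nat_lit 208) (nat_lit 154)))))) (XT.nd (nat_lit 312) (nat_lit 0) (nat_lit 0) (XT.nd (nat_lit 156) (nat_lit 0) (nat_lit 0) (XT.nd (nat_lit 78) (nat_lit 0) (nat_lit 0) (XT.lf (nat_lit 0) (nat_lit 124247613423) (nat_lit 76) (nat_lit 178149592908) (nat_lit 76) (nat_lit 172962887077) (nat_lit 1) (nat_lit 4) (nat_lit 2) (nat_lit 5) (nat_lit 2) (nat_lit 4) (nat_lit 359) (nat_lit 208) (nat_lit 153)) (XT.lf (nat_lit 0) (nat_lit 132627607333) (nat_lit 76) (nat_lit 185821510257) (nat_lit 76) (nat_lit 180616691147) (nat_lit 1) (nat_lit 4) (nat_lit 2) (nat_lit 5) (nat_lit 2) (nat_lit 4) (nat_lit 360) (nat_lit 208) (nat_lit 152))) (XT.nd (nat_lit 78) (nat_lit 0) (nat_lit 0) (XT.lf (nat_lit 0) (nat_lit 141414452158) (nat_lit 76) (nat_lit 193882388319) (nat_lit 76)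 (nat_lit 188660318467) (nat_lit 1) (nat_lit 4) (nat_lit 2) (nat_lit 5) (nat_lit 2) (nat_lit 4) (nat_lit 361) (nat_lit 208) (nat_lit 151)) (XT.lf (nat_lit 0) (nat_lit 150629068955) (nat_lit 76) (nat_lit 202351419662) (nat_lit 76) (nat_lit 197112920531) (nat_lit 1) (nat_lit 4) (nat_lit 2) (nat_lit 5) (nat_lit 2) (nat_lit 4) (nat_lit 362) (nat_lit 208) (nat_lit 150)))) (XT.nd (nat_lit 32760) (nat_lit 0) (nat_lit 228) (XT.nd (nat_lit 78) (nat_lit 0) (nat_lit 0) (XT.lf (nat_lit 0) (nat_lit 160293397290) (nat_lit 76) (nat_lit 211248768646) (nat_lit 76) (nat_lit 205994622583) (nat_lit 1) (nat_lit 4) (nat_lit 2) (nat_lit 5) (nat_lit 2) (nat_lit 4) (nat_lit 363) (nat_lit 208) (nat_lit 149)) (XT.lf (nat_lit 0) (nat_lit 170430447467) (nat_lit 76) (nat_lit 220595619434) (nat_lit 76) (nat_lit 215326571532) (nat_lit 1) (nat_lit 4) (nat_lit 2) (nat_lit 5) (nat_lit 2) (nat_lit 4) (nat_lit 364) (nat_lit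 208) (nat_lit 148))) (XT.nd (nat_lit 78) (nat_lit 76) (nat_lit 0) (XT.lf (nat_lit 0) (nat_lit 6917448559) (nat_lit 152) (nat_lit 1955391625) (nat_lit 0) (nat_lit 6917448559) (nat_lit 5) (nat_lit 5) (nat_lit 7) (nat_lit 4) (nat_lit 5) (nat_lit 4) (nat_lit 302) (nat_lit 209) (nat_lit 209)) (XT.nd (nat_lit 78) (nat_lit 0) (nat_lit 0) (XT.lf (nat_lit 0) (nat_lit 1084264728) (nat_lit 76) (nat_lit 16106979293) (nat_lit 76) (nat_lit 15814707346) (nat_lit 4) (nat_lit 4) (nat_lit 5) (nat_lit 5) (nat_lit 5) (nat_lit 4) (nat_lit 303) (nat_lit 209) (nat_lit 208)) (XT.lf (nat_lit 0) (nat_lit 6297111490) (nat_lit 76) (nat_lit 14388869980) (nat_lit 76) (nat_lit 13818243799) (nat_lit 4) (nat_lit 4) (nat_lit 5) (nat_lit 5) (nat_lit 5) (nat_lit 4) (nat_lit 304) (nat_lit 209) (nat_lit 207))))))))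
noncomputable def xc28 : XT := (XT.nd (nat_lit 1326) (nat_lit 76) (nat_lit 0) (XT.nd (nat_lit 624) (nat_lit 0) (nat_lit 0) (XT.nd (nat_lit 312) (nat_lit 152) (nat_lit 0) (XT.nd (nat_lit 156) (nat_lit 0) (nat_lit 0) (XT.nd (nat_lit 78) (nat_lit 0) (nat_lit 0) (XT.lf (nat_lit 0) (nat_lit 11610860419) (nat_lit 76) (nat_lit 12653492702) (nat_lit 76) (nat_lit 11817767250) (nat_lit 4) (nat_lit 4) (nat_lit 5) (nat_lit 5) (nat_lit 5) (nat_lit 4) (nat_lit 305) (nat_lit 209) (nat_lit 206)) (XT.lf (nat_lit 0) (nat_lit 17038163297) (nat_lit 76) (nat_lit 10896715608) (nat_lit 76) (nat_lit 9808514659) (nat_lit 4) (nat_lit 4) (nat_lit 5) (nat_lit 5) (nat_lit 5) (nat_lit 4) (nat_lit 306) (nat_lit 209) (nat_lit 205))) (XT.nd (nat_lit 78) (nat_lit 0) (nat_lit 0) (XT.lf (nat_lit 0) (nat_lit 22591942274) (nat_lit 76) (nat_lit 9114355895) (nat_lit 76) (nat_lit 7785702092) (nat_lit 4) (nat_lit 4) (nat_lit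 5) (nat_lit 5) (nat_lit 5) (nat_lit 4) (nat_lit 307) (nat_lit 209) (nat_lit 204)) (XT.lf (nat_lit 0) (nat_lit 28285420634) (nat_lit 76) (nat_lit 7302169850) (nat_lit 76) (nat_lit 5744513329) (nat_lit 4) (nat_lit 4) (nat_lit 5) (nat_lit 5) (nat_lit 5) (nat_lit 4) (nat_lit 308) (nat_lit 209) (nat_lit 203)))) (XT.nd (nat_lit 156) (nat_lit 152) (nat_lit 0) (XT.nd (nat_lit 78) (nat_lit 0) (nat_lit 0) (XT.lf (nat_lit 0) (nat_lit 34132154276) (nat_lit 76) (nat_lit 5455842744) (nat_lit 76) (nat_lit 3680088396) (nat_lit 4) (nat_lit 4) (nat_lit 5) (nat_lit 5) (nat_lit 5) (nat_lit 4) (nat_lit 309) (nat_lit 209) (nat_lit 202)) (XT.lf (nat_lit 0) (nat_lit 40146063997) (nat_lit 76) (nat_lit 3570978559) (nat_lit 76) (nat_lit 1587511996) (nat_lit 4) (nat_lit 4) (nat_lit 5) (nat_lit 5) (nat_lit 5) (nat_lit 4) (nat_lit 310) (nat_lit 209) (nat_lit 201))) (XT.nd (nat_lit 78) (nat_lit 76) (nat_lit 0) (XT.lf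 (nat_lit 0) (nat_lit 520972492) (nat_lit 152) (nat_lit 1113294112) (nat_lit 76) (nat_lit 45811673214) (nat_lit 3) (nat_lit 5) (nat_lit 5) (nat_lit 5) (nat_lit 4) (nat_lit 4) (nat_lit 311) (nat_lit 209) (nat_lit 200)) (XT.lf (nat_lit 0) (nat_lit 2670555329) (nat_lit 152) (nat_lit 46609480831) (nat_lit 0) (nat_lit 413708830) (nat_lit 2) (nat_lit 5) (nat_lit 4) (nat_lit 4) (nat_lit 2) (nat_lit 4) (nat_lit 312) (nat_lit 209) (nat_lit 199))))) (XT.nd (nat_lit 312) (nat_lit 0) (nat_lit 0) (XT.nd (nat_lit 156) (nat_lit 0) (nat_lit 0) (XT.nd (nat_lit 78) (nat_lit 0) (nat_lit 0) (XT.lf (nat_lit 0) (nat_lit 4908249286) (nat_lit 152) (nat_lit 44666240322) (nat_lit 0) (nat_lit 2480517433) (nat_lit 2) (nat_lit 5) (nat_lit 4) (nat_lit 4) (nat_lit 2) (nat_lit 4) (nat_lit 313) (nat_lit 209) (nat_lit 198)) (XT.lf (nat_lit 0) (nat_lit 7195616001) (nat_lit 152) (nat_lit 42736784143) (nat_lit 0) (nat_lit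 4605136192) (nat_lit 2) (nat_lit 5) (nat_lit 4) (nat_lit 4) (nat_lit 2) (nat_lit 4) (nat_lit 314) (nat_lit 209) (nat_lit 197))) (XT.nd (nat_lit 78) (nat_lit 0) (nat_lit 0) (XT.lf (nat_lit 0) (nat_lit 9538101584) (nat_lit 152) (nat_lit 40816518350) (nat_lit 0) (nat_lit 6792623721) (nat_lit 2) (nat_lit 5) (nat_lit 4) (nat_lit 4) (nat_lit 2) (nat_lit 4) (nat_lit 315) (nat_lit 209) (nat_lit 196)) (XT.lf (nat_lit 0) (nat_lit 11941283382) (nat_lit 152) (nat_lit 38900870881) (nat_lit 0) (nat_lit 9048188325) (nat_lit 2) (nat_lit 5) (nat_lit 4) (nat_lit 4) (nat_lit 2) (nat_lit 4) (nat_lit 316) (nat_lit 209) (nat_lit 195)))) (XT.nd (nat_lit 156) (nat_lit 0) (nat_lit 0) (XT.nd (nat_lit 78) (nat_lit 0) (nat_lit 0) (XT.lf (nat_lit 0) (nat_lit 14410883256) (nat_lit 152) (nat_lit 36985280671) (nat_lit 0) (nat_lit 11377200396) (nat_lit 2) (nat_lit 5) (nat_lit 4) (nat_lit 4) (nat_lit 2) (nat_lit 4)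 (nat_lit 317) (nat_lit 209) (nat_lit 194)) (XT.lf (nat_lit 0) (nat_lit 16952781207) (nat_lit 152) (nat_lit 35065186792) (nat_lit 0) (nat_lit 13785205201) (nat_lit 2) (nat_lit 5) (nat_lit 4) (nat_lit 4) (nat_lit 2) (nat_lit 4) (nat_lit 318) (nat_lit 209) (nat_lit 193))) (XT.nd (nat_lit 78) (nat_lit 0) (nat_lit 0) (XT.lf (nat_lit 0) (nat_lit 19573029372) (nat_lit 152) (nat_lit 33136017590) (nat_lit 0) (nat_lit 16277936084) (nat_lit 2) (nat_lit 5) (nat_lit 4) (nat_lit 4) (nat_lit 2) (nat_lit 4) (nat_lit 319) (nat_lit 209) (nat_lit 192)) (XT.nd (nat_lit 78) (nat_lit 0) (nat_lit 0) (XT.lf (nat_lit 0) (nat_lit 22277866438) (nat_lit 152) (nat_lit 31193179807) (nat_lit 0) (nat_lit 18861328118) (nat_lit 2) (nat_lit 5) (nat_lit 4) (nat_lit 4) (nat_lit 2) (nat_lit 4) (nat_lit 320) (nat_lit 209) (nat_lit 191)) (XT.lf (nat_lit 0) (nat_lit 25073732492) (nat_lit 152) (nat_lit 29232047637) (nat_lit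 0) (nat_lit 21541532239) (nat_lit 2) (nat_lit 5) (nat_lit 4) (nat_lit 4) (nat_lit 2) (nat_lit 4) (nat_lit 321) (nat_lit 209) (nat_lit 190))))))) (XT.nd (nat_lit 624) (nat_lit 76) (nat_lit 0) (XT.nd (nat_lit 312) (nat_lit 0) (nat_lit 0) (XT.nd (nat_lit 156) (nat_lit 0) (nat_lit 0) (XT.nd (nat_lit 78) (nat_lit 0) (nat_lit 0) (XT.lf (nat_lit 0) (nat_lit 27967284358) (nat_lit 152) (nat_lit 27247951719) (nat_lit 0) (nat_lit 24324929882) (nat_lit 2) (nat_lit 5) (nat_lit 4) (nat_lit 4) (nat_lit 2) (nat_lit 4) (nat_lit 322) (nat_lit 209) (nat_lit 189)) (XT.lf (nat_lit 0) (nat_lit 30965411447) (nat_lit 152) (nat_lit 25236168014) (nat_lit 0) (nat_lit 27218148187) (nat_lit 2) (nat_lit 5) (nat_lit 4) (nat_lit 4) (nat_lit 2) (nat_lit 4) (nat_lit 323) (nat_lit 209) (nat_lit 188))) (XT.nd (nat_lit 78) (nat_lit 0) (nat_lit 0) (XT.lf (nat_lit 0) (nat_lit 34075252154) (nat_lit 152) (nat_lit 23191906561)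 (nat_lit 0) (nat_lit 30228075768) (nat_lit 2) (nat_lit 5) (nat_lit 4) (nat_lit 4) (nat_lit 2) (nat_lit 4) (nat_lit 324) (nat_lit 209) (nat_lit 187)) (XT.lf (nat_lit 0) (nat_lit 37304210865) (nat_lit 152) (nat_lit 21110300072) (nat_lit 0) (nat_lit 33361879119) (nat_lit 2) (nat_lit 5) (nat_lit 4) (nat_lit 4) (nat_lit 2) (nat_lit 4) (nat_lit 325) (nat_lit 209) (nat_lit 186)))) (XT.nd (nat_lit 156) (nat_lit 0) (nat_lit 0) (XT.nd (nat_lit 78) (nat_lit 0) (nat_lit 0) (XT.lf (nat_lit 0) (nat_lit 40659975574) (nat_lit 152) (nat_lit 18986392340) (nat_lit 0) (nat_lit 36627019676) (nat_lit 2) (nat_lit 5) (nat_lit 4) (nat_lit 4) (nat_lit 2) (nat_lit 4) (nat_lit 326) (nat_lit 209) (nat_lit 185)) (XT.lf (nat_lit 0) (nat_lit 44150536198) (nat_lit 152) (nat_lit 16815126442) (nat_lit 0) (nat_lit 40031271585) (nat_lit 2) (nat_lit 5) (nat_lit 4) (nat_lit 4) (nat_lit 2) (nat_lit 4) (nat_lit 327) (nat_lit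 209) (nat_lit 184))) (XT.nd (nat_lit 78) (nat_lit 0) (nat_lit 0) (XT.lf (nat_lit 0) (nat_lit 47784203596) (nat_lit 152) (nat_lit 14591332697) (nat_lit 0) (nat_lit 43582740206) (nat_lit 2) (nat_lit 5) (nat_lit 4) (nat_lit 4) (nat_lit 2) (nat_lit 4) (nat_lit 328) (nat_lit 209) (nat_lit 183)) (XT.lf (nat_lit 0) (nat_lit 51569629357) (nat_lit 152) (nat_lit 12309716359) (nat_lit 0) (nat_lit 47289881417) (nat_lit 2) (nat_lit 5) (nat_lit 4) (nat_lit 4) (nat_lit 2) (nat_lit 4) (nat_lit 329) (nat_lit 209) (nat_lit 182))))) (XT.nd (nat_lit 312) (nat_lit 76) (nat_lit 0) (XT.nd (nat_lit 156) (nat_lit 0) (nat_lit 0) (XT.nd (nat_lit 78) (nat_lit 0) (nat_lit 0) (XT.lf (nat_lit 0) (nat_lit 55515826400) (nat_lit 152) (nat_lit 9964845007) (nat_lit 0) (nat_lit 51161521745) (nat_lit 2) (nat_lit 5) (nat_lit 4) (nat_lit 4) (nat_lit 2) (nat_lit 4) (nat_lit 330) (nat_lit 209) (nat_lit 181)) (XT.lf (nat_lit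 0) (nat_lit 59632190430) (nat_lit 152) (nat_lit 7551135615) (nat_lit 0) (nat_lit 55206879382) (nat_lit 2) (nat_lit 5) (nat_lit 4) (nat_lit 4) (nat_lit 2) (nat_lit 4) (nat_lit 331) (nat_lit 209) (nat_lit 180))) (XT.nd (nat_lit 78) (nat_lit 0) (nat_lit 0) (XT.lf (nat_lit 0) (nat_lit 63928522316) (nat_lit 152) (nat_lit 5062841255) (nat_lit 0) (nat_lit 59435586131) (nat_lit 2) (nat_lit 5) (nat_lit 4) (nat_lit 4) (nat_lit 2) (nat_lit 4) (nat_lit 332) (nat_lit 209) (nat_lit 179)) (XT.lf (nat_lit 0) (nat_lit 68415051419) (nat_lit 152) (nat_lit 2494037417) (nat_lit 0) (nat_lit 63857710341) (nat_lit 2) (nat_lit 5) (nat_lit 4) (nat_lit 4) (nat_lit 2) (nat_lit 4) (nat_lit 333) (nat_lit 209) (nat_lit 178)))) (XT.nd (nat_lit 156) (nat_lit 0) (nat_lit 0) (XT.nd (nat_lit 78) (nat_lit 0) (nat_lit 0) (XT.lf (nat_lit 0) (nat_lit 166728449) (nat_lit 76) (nat_lit 72938334600) (nat_lit 76) (nat_lit 68319655528)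 (nat_lit 1) (nat_lit 4) (nat_lit 2) (nat_lit 5) (nat_lit 2) (nat_lit 4) (nat_lit 334) (nat_lit 209) (nat_lit 177)) (XT.lf (nat_lit 0) (nat_lit 3005979871) (nat_lit 76) (nat_lit 75042860308) (nat_lit 76) (nat_lit 70365764100) (nat_lit 1) (nat_lit 4) (nat_lit 2) (nat_lit 5) (nat_lit 2) (nat_lit 4) (nat_lit 335) (nat_lit 209) (nat_lit 176))) (XT.nd (nat_lit 78) (nat_lit 0) (nat_lit 0) (XT.lf (nat_lit 0) (nat_lit 5948012828) (nat_lit 76) (nat_lit 77269914466) (nat_lit 76) (nat_lit 72537182890) (nat_lit 1) (nat_lit 4) (nat_lit 2) (nat_lit 5) (nat_lit 2) (nat_lit 4) (nat_lit 336) (nat_lit 209) (nat_lit 175)) (XT.nd (nat_lit 78) (nat_lit 0) (nat_lit 0) (XT.lf (nat_lit 0) (nat_lit 8999832163) (nat_lit 76) (nat_lit 79624799585) (nat_lit 76) (nat_lit 74839081944) (nat_lit 1) (nat_lit 4) (nat_lit 2) (nat_lit 5) (nat_lit 2) (nat_lit 4) (nat_lit 337) (nat_lit 209) (nat_lit 174)) (XT.lf (nat_lit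 0) (nat_lit 12168704110) (nat_lit 76) (nat_lit 82113122533) (nat_lit 76) (nat_lit 77276941974) (nat_lit 1) (nat_lit 4) (nat_lit 2) (nat_lit 5) (nat_lit 2) (nat_lit 4) (nat_lit 338) (nat_lit 209) (nat_lit 173))))))))
noncomputable def xc29 : XT := (XT.nd (nat_lit 1326) (nat_lit 0) (nat_lit 0) (XT.nd (nat_lit 624) (nat_lit 0) (nat_lit 0) (XT.nd (nat_lit 312) (nat_lit 0) (nat_lit 0) (XT.nd (nat_lit 156) (nat_lit 0) (nat_lit 0) (XT.nd (nat_lit 78) (nat_lit 0) (nat_lit 0) (XT.lf (nat_lit 0) (nat_lit 15462173604) (nat_lit 76) (nat_lit 84740807890) (nat_lit 76) (nat_lit 79856567409) (nat_lit 1) (nat_lit 4) (nat_lit 2) (nat_lit 5) (nat_lit 2) (nat_lit 4) (nat_lit 339) (nat_lit 209) (nat_lit 172)) (XT.lf (nat_lit 0) (nat_lit 18888082238) (nat_lit 76) (nat_lit 87514112049) (nat_lit 76) (nat_lit 82584100213) (nat_lit 1) (nat_lit 4) (nat_lit 2) (nat_lit 5) (nat_lit 2) (nat_lit 4) (nat_lit 340)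 (nat_lit 209) (nat_lit 171))) (XT.nd (nat_lit 78) (nat_lit 0) (nat_lit 0) (XT.lf (nat_lit 0) (nat_lit 22454586938) (nat_lit 76) (nat_lit 90439638115) (nat_lit 76) (nat_lit 85466034513) (nat_lit 1) (nat_lit 4) (nat_lit 2) (nat_lit 5) (nat_lit 2) (nat_lit 4) (nat_lit 341) (nat_lit 209) (nat_lit 170)) (XT.lf (nat_lit 0) (nat_lit 26170179381) (nat_lit 76) (nat_lit 93524351627) (nat_lit 76) (nat_lit 88509232056) (nat_lit 1) (nat_lit 4) (nat_lit 2) (nat_lit 5) (nat_lit 2) (nat_lit 4) (nat_lit 342) (nat_lit 209) (nat_lit 169)))) (XT.nd (nat_lit 156) (nat_lit 0) (nat_lit 0) (XT.nd (nat_lit 78) (nat_lit 0) (nat_lit 0) (XT.lf (nat_lit 0) (nat_lit 30043706217) (nat_lit 76) (nat_lit 96775597139) (nat_lit 76) (nat_lit 91720938552) (nat_lit 1) (nat_lit 4) (nat_lit 2) (nat_lit 5) (nat_lit 2) (nat_lit 4) (nat_lit 343) (nat_lit 209) (nat_lit 168)) (XT.lf (nat_lit 0) (nat_lit 34084390127) (nat_lit 76)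 (nat_lit 100201115714) (nat_lit 76) (nat_lit 95108800920) (nat_lit 1) (nat_lit 4) (nat_lit 2) (nat_lit 5) (nat_lit 2) (nat_lit 4) (nat_lit 344) (nat_lit 209) (nat_lit 167))) (XT.nd (nat_lit 78) (nat_lit 0) (nat_lit 0) (XT.lf (nat_lit 0) (nat_lit 38301851789) (nat_lit 76) (nat_lit 103809063348) (nat_lit 76) (nat_lit 98680885499) (nat_lit 1) (nat_lit 4) (nat_lit 2) (nat_lit 5) (nat_lit 2) (nat_lit 4) (nat_lit 345) (nat_lit 209) (nat_lit 166)) (XT.lf (nat_lit 0) (nat_lit 42706132777) (nat_lit 76) (nat_lit 107608030392) (nat_lit 76) (nat_lit 102445697253) (nat_lit 1) (nat_lit 4) (nat_lit 2) (nat_lit 5) (nat_lit 2) (nat_lit 4) (nat_lit 346) (nat_lit 209) (nat_lit 165))))) (XT.nd (nat_lit 312) (nat_lit 0) (nat_lit 0) (XT.nd (nat_lit 156) (nat_lit 0) (nat_lit 0) (XT.nd (nat_lit 78) (nat_lit 0) (nat_lit 0) (XT.lf (nat_lit 0) (nat_lit 47307719475) (nat_lit 76) (nat_lit 111607062006) (nat_lit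 76) (nat_lit 106412200020) (nat_lit 1) (nat_lit 4) (nat_lit 2) (nat_lit 5) (nat_lit 2) (nat_lit 4) (nat_lit 347) (nat_lit 209) (nat_lit 164)) (XT.lf (nat_lit 0) (nat_lit 52117568042) (nat_lit 76) (nat_lit 115815679693) (nat_lit 76) (nat_lit 110589837853) (nat_lit 1) (nat_lit 4) (nat_lit 2) (nat_lit 5) (nat_lit 2) (nat_lit 4) (nat_lit 348) (nat_lit 209) (nat_lit 163))) (XT.nd (nat_lit 78) (nat_lit 0) (nat_lit 0) (XT.lf (nat_lit 0) (nat_lit 57147130498) (nat_lit 76) (nat_lit 120243903973) (nat_lit 76) (nat_lit 114988557509) (nat_lit 1) (nat_lit 4) (nat_lit 2) (nat_lit 5) (nat_lit 2) (nat_lit 4) (nat_lit 349) (nat_lit 209) (nat_lit 162)) (XT.lf (nat_lit 0) (nat_lit 62408381991) (nat_lit 76) (nat_lit 124902278236) (nat_lit 76) (nat_lit 119618832130) (nat_lit 1) (nat_lit 4) (nat_lit 2) (nat_lit 5) (nat_lit 2) (nat_lit 4) (nat_lit 350) (nat_lit 209) (nat_lit 161)))) (XT.nd (nat_lit 156)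 (nat_lit 0) (nat_lit 0) (XT.nd (nat_lit 78) (nat_lit 0) (nat_lit 0) (XT.lf (nat_lit 0) (nat_lit 67913849312) (nat_lit 76) (nat_lit 129801893849) (nat_lit 76) (nat_lit 124491686180) (nat_lit 1) (nat_lit 4) (nat_lit 2) (nat_lit 5) (nat_lit 2) (nat_lit 4) (nat_lit 351) (nat_lit 209) (nat_lit 160)) (XT.lf (nat_lit 0) (nat_lit 73676640714) (nat_lit 76) (nat_lit 134954416564) (nat_lit 76) (nat_lit 129618721692) (nat_lit 1) (nat_lit 4) (nat_lit 2) (nat_lit 5) (nat_lit 2) (nat_lit 4) (nat_lit 352) (nat_lit 209) (nat_lit 159))) (XT.nd (nat_lit 78) (nat_lit 0) (nat_lit 0) (XT.lf (nat_lit 0) (nat_lit 79710477132) (nat_lit 76) (nat_lit 140372114292) (nat_lit 76) (nat_lit 135012145894) (nat_lit 1) (nat_lit 4) (nat_lit 2) (nat_lit 5) (nat_lit 2) (nat_lit 4) (nat_lit 353) (nat_lit 209) (nat_lit 158)) (XT.nd (nat_lit 78) (nat_lit 0) (nat_lit 0) (XT.lf (nat_lit 0) (nat_lit 86029724841) (nat_lit 76)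 (nat_lit 146067886314) (nat_lit 76) (nat_lit 140684800271) (nat_lit 1) (nat_lit 4) (nat_lit 2) (nat_lit 5) (nat_lit 2) (nat_lit 4) (nat_lit 354) (nat_lit 209) (nat_lit 157)) (XT.lf (nat_lit 0) (nat_lit 92649429669) (nat_lit 76) (nat_lit 152055293990) (nat_lit 76) (nat_lit 146650191144) (nat_lit 1) (nat_lit 4) (nat_lit 2) (nat_lit 5) (nat_lit 2) (nat_lit 4) (nat_lit 355) (nat_lit 209) (nat_lit 156))))))) (XT.nd (nat_lit 33150) (nat_lit 0) (nat_lit 228) (XT.nd (nat_lit 312) (nat_lit 0) (nat_lit 0) (XT.nd (nat_lit 156) (nat_lit 0) (nat_lit 0) (XT.nd (nat_lit 78) (nat_lit 0) (nat_lit 0) (XT.lf (nat_lit 0) (nat_lit 99585352819) (nat_lit 76) (nat_lit 158348593055) (nat_lit 76) (nat_lit 152922521823) (nat_lit 1) (nat_lit 4) (nat_lit 2) (nat_lit 5) (nat_lit 2) (nat_lit 4) (nat_lit 356) (nat_lit 209) (nat_lit 155)) (XT.lf (nat_lit 0) (nat_lit 106854008393) (nat_lit 76) (nat_lit 164962767554)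 (nat_lit 76) (nat_lit 159516726431) (nat_lit 1) (nat_lit 4) (nat_lit 2) (nat_lit 5) (nat_lit 2) (nat_lit 4) (nat_lit 357) (nat_lit 209) (nat_lit 154))) (XT.nd (nat_lit 78) (nat_lit 0) (nat_lit 0) (XT.lf (nat_lit 0) (nat_lit 114472702714) (nat_lit 76) (nat_lit 171913565520) (nat_lit 76) (nat_lit 166448505454) (nat_lit 1) (nat_lit 4) (nat_lit 2) (nat_lit 5) (nat_lit 2) (nat_lit 4) (nat_lit 358) (nat_lit 209) (nat_lit 153)) (XT.lf (nat_lit 0) (nat_lit 122459575531) (nat_lit 76) (nat_lit 179217536473) (nat_lit 76) (nat_lit 173734363128) (nat_lit 1) (nat_lit 4) (nat_lit 2) (nat_lit 5) (nat_lit 2) (nat_lit 4) (nat_lit 359) (nat_lit 209) (nat_lit 152)))) (XT.nd (nat_lit 156) (nat_lit 0) (nat_lit 0) (XT.nd (nat_lit 78) (nat_lit 0) (nat_lit 0) (XT.lf (nat_lit 0) (nat_lit 130833643206) (nat_lit 76) (nat_lit 186892070820) (nat_lit 76) (nat_lit 181391646732) (nat_lit 1) (nat_lit 4) (nat_lit 2)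 (nat_lit 5) (nat_lit 2) (nat_lit 4) (nat_lit 360) (nat_lit 209) (nat_lit 151)) (XT.lf (nat_lit 0) (nat_lit 139614843997) (nat_lit 76) (nat_lit 194955441261) (nat_lit 76) (nat_lit 189438587896) (nat_lit 1) (nat_lit 4) (nat_lit 2) (nat_lit 5) (nat_lit 2) (nat_lit 4) (nat_lit 361) (nat_lit 209) (nat_lit 150))) (XT.nd (nat_lit 78) (nat_lit 0) (nat_lit 0) (XT.lf (nat_lit 0) (nat_lit 148824085525) (nat_lit 76) (nat_lit 203426846299) (nat_lit 76) (nat_lit 197894346001) (nat_lit 1) (nat_lit 4) (nat_lit 2) (nat_lit 5) (nat_lit 2) (nat_lit 4) (nat_lit 362) (nat_lit 209) (nat_lit 149)) (XT.nd (nat_lit 78) (nat_lit 0) (nat_lit 0) (XT.lf (nat_lit 0) (nat_lit 158483294555) (nat_lit 76) (nat_lit 212326455944) (nat_lit 76) (nat_lit 206779053807) (nat_lit 1) (nat_lit 4) (nat_lit 2) (nat_lit 5) (nat_lit 2) (nat_lit 4) (nat_lit 363) (nat_lit 209) (nat_lit 148)) (XT.lf (nat_lit 0) (nat_lit 168615469204)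 (nat_lit 76) (nat_lit 221675459743) (nat_lit 76) (nat_lit 216113865378) (nat_lit 1) (nat_lit 4) (nat_lit 2) (nat_lit 5) (nat_lit 2) (nat_lit 4) (nat_lit 364) (nat_lit 209) (nat_lit 147)))))) (XT.nd (nat_lit 312) (nat_lit 0) (nat_lit 0) (XT.nd (nat_lit 156) (nat_lit 76) (nat_lit 0) (XT.nd (nat_lit 78) (nat_lit 0) (nat_lit 0) (XT.lf (nat_lit 0) (nat_lit 3851565555) (nat_lit 152) (nat_lit 6767122883) (nat_lit 0) (nat_lit 3851565555) (nat_lit 5) (nat_lit 5) (nat_lit 7) (nat_lit 4) (nat_lit 5) (nat_lit 4) (nat_lit 300) (nat_lit 210) (nat_lit 210)) (XT.lf (nat_lit 0) (nat_lit 10868344984) (nat_lit 152) (nat_lit 8797279959) (nat_lit 0) (nat_lit 10561459440) (nat_lit 5) (nat_lit 5) (nat_lit 7) (nat_lit 4) (nat_lit 5) (nat_lit 4) (nat_lit 301) (nat_lit 210) (nat_lit 209))) (XT.nd (nat_lit 78) (nat_lit 76) (nat_lit 0) (XT.lf (nat_lit 0) (nat_lit 14094128482) (nat_lit 152) (nat_lit 3993942669)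 (nat_lit 0) (nat_lit 13494970991) (nat_lit 5) (nat_lit 5) (nat_lit 7) (nat_lit 4) (nat_lit 5) (nat_lit 4) (nat_lit 302) (nat_lit 210) (nat_lit 208)) (XT.lf (nat_lit 0) (nat_lit 916537548) (nat_lit 76) (nat_lit 16485934212) (nat_lit 76) (nat_lit 15608422487) (nat_lit 4) (nat_lit 4) (nat_lit 5) (nat_lit 5) (nat_lit 5) (nat_lit 4) (nat_lit 303) (nat_lit 210) (nat_lit 207)))) (XT.nd (nat_lit 156) (nat_lit 0) (nat_lit 0) (XT.nd (nat_lit 78) (nat_lit 0) (nat_lit 0) (XT.lf (nat_lit 0) (nat_lit 6051462275) (nat_lit 76) (nat_lit 14801306607) (nat_lit 76) (nat_lit 13658695610) (nat_lit 4) (nat_lit 4) (nat_lit 5) (nat_lit 5) (nat_lit 5) (nat_lit 4) (nat_lit 304) (nat_lit 210) (nat_lit 206)) (XT.lf (nat_lit 0) (nat_lit 11290999742) (nat_lit 76) (nat_lit 13097816669) (nat_lit 76) (nat_lit 11702730176) (nat_lit 4) (nat_lit 4) (nat_lit 5) (nat_lit 5) (nat_lit 5) (nat_lit 4) (nat_lit 305) (nat_lit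 210) (nat_lit 205))) (XT.nd (nat_lit 78) (nat_lit 0) (nat_lit 0) (XT.lf (nat_lit 0) (nat_lit 16647625037) (nat_lit 76) (nat_lit 11371408471) (nat_lit 76) (nat_lit 9735869124) (nat_lit 4) (nat_lit 4) (nat_lit 5) (nat_lit 5) (nat_lit 5) (nat_lit 4) (nat_lit 306) (nat_lit 210) (nat_lit 204)) (XT.nd (nat_lit 78) (nat_lit 0) (nat_lit 0) (XT.lf (nat_lit 0) (nat_lit 22134092030) (nat_lit 76) (nat_lit 9617971515) (nat_lit 76) (nat_lit 7753429451) (nat_lit 4) (nat_lit 4) (nat_lit 5) (nat_lit 5) (nat_lit 5) (nat_lit 4) (nat_lit 307) (nat_lit 210) (nat_lit 203)) (XT.lf (nat_lit 0) (nat_lit 27763463739) (nat_lit 76) (nat_lit 7833330954) (nat_lit 76) (nat_lit 5750691062) (nat_lit 4) (nat_lit 4) (nat_lit 5) (nat_lit 5) (nat_lit 5) (nat_lit 4) (nat_lit 308) (nat_lit 210) (nat_lit 202))))))))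
noncomputable def xc30 : XT := (XT.nd (nat_lit 1326) (nat_lit 76) (nat_lit 0) (XT.nd (nat_lit 624) (nat_lit 0) (nat_lit 0) (XT.nd (nat_lit 312) (nat_lit 0) (nat_lit 0) (XT.nd (nat_lit 156) (nat_lit 152) (nat_lit 0) (XT.nd (nat_lit 78) (nat_lit 0) (nat_lit 0) (XT.lf (nat_lit 0) (nat_lit 33549143428) (nat_lit 76) (nat_lit 6013237641) (nat_lit 76) (nat_lit 3722885534) (nat_lit 4) (nat_lit 4) (nat_lit 5) (nat_lit 5) (nat_lit 5) (nat_lit 4) (nat_lit 309) (nat_lit 210) (nat_lit 201)) (XT.lf (nat_lit 0) (nat_lit 39504906526) (nat_lit 76) (nat_lit 4153358022) (nat_lit 76) (nat_lit 1665184757) (nat_lit 4) (nat_lit 4) (nat_lit 5) (nat_lit 5) (nat_lit 5) (nat_lit 4) (nat_lit 310) (nat_lit 210) (nat_lit 200))) (XT.nd (nat_lit 78) (nat_lit 76) (nat_lit 0) (XT.lf (nat_lit 0) (nat_lit 413633948) (nat_lit 152) (nat_lit 1828624773) (nat_lit 76) (nat_lit 45224294382) (nat_lit 3) (nat_lit 5) (nat_lit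 5) (nat_lit 5) (nat_lit 4) (nat_lit 4) (nat_lit 311) (nat_lit 210) (nat_lit 199)) (XT.lf (nat_lit 0) (nat_lit 2296707817) (nat_lit 76) (nat_lit 216810137) (nat_lit 152) (nat_lit 47203373176) (nat_lit 2) (nat_lit 5) (nat_lit 3) (nat_lit 5) (nat_lit 4) (nat_lit 4) (nat_lit 312) (nat_lit 210) (nat_lit 198)))) (XT.nd (nat_lit 156) (nat_lit 0) (nat_lit 0) (XT.nd (nat_lit 78) (nat_lit 0) (nat_lit 0) (XT.lf (nat_lit 0) (nat_lit 4717479609) (nat_lit 152) (nat_lit 45527677963) (nat_lit 0) (nat_lit 1834727853) (nat_lit 2) (nat_lit 5) (nat_lit 4) (nat_lit 4) (nat_lit 2) (nat_lit 4) (nat_lit 313) (nat_lit 210) (nat_lit 197)) (XT.lf (nat_lit 0) (nat_lit 6975944144) (nat_lit 152) (nat_lit 43649764806) (nat_lit 0) (nat_lit 3938194335) (nat_lit 2) (nat_lit 5) (nat_lit 4) (nat_lit 4) (nat_lit 2) (nat_lit 4) (nat_lit 314) (nat_lit 210) (nat_lit 196))) (XT.nd (nat_lit 78) (nat_lit 0) (nat_lit 0) (XT.lf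 (nat_lit 0) (nat_lit 9290903842) (nat_lit 152) (nat_lit 41778587605) (nat_lit 0) (nat_lit 6105536839) (nat_lit 2) (nat_lit 5) (nat_lit 4) (nat_lit 4) (nat_lit 2) (nat_lit 4) (nat_lit 315) (nat_lit 210) (nat_lit 195)) (XT.lf (nat_lit 0) (nat_lit 11667870512) (nat_lit 152) (nat_lit 39909691177) (nat_lit 0) (nat_lit 8341915705) (nat_lit 2) (nat_lit 5) (nat_lit 4) (nat_lit 4) (nat_lit 2) (nat_lit 4) (nat_lit 316) (nat_lit 210) (nat_lit 194))))) (XT.nd (nat_lit 312) (nat_lit 0) (nat_lit 0) (XT.nd (nat_lit 156) (nat_lit 0) (nat_lit 0) (XT.nd (nat_lit 78) (nat_lit 0) (nat_lit 0) (XT.lf (nat_lit 0) (nat_lit 14112503597) (nat_lit 152) (nat_lit 38038625767) (nat_lit 0) (nat_lit 10652655645) (nat_lit 2) (nat_lit 5) (nat_lit 4) (nat_lit 4) (nat_lit 2) (nat_lit 4) (nat_lit 317) (nat_lit 210) (nat_lit 193)) (XT.lf (nat_lit 0) (nat_lit 16630623654) (nat_lit 152) (nat_lit 36160936459) (nat_lit 0)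 (nat_lit 13043258419) (nat_lit 2) (nat_lit 5) (nat_lit 4) (nat_lit 4) (nat_lit 2) (nat_lit 4) (nat_lit 318) (nat_lit 210) (nat_lit 192))) (XT.nd (nat_lit 78) (nat_lit 0) (nat_lit 0) (XT.lf (nat_lit 0) (nat_lit 19228226205) (nat_lit 152) (nat_lit 34272152564) (nat_lit 0) (nat_lit 15519415940) (nat_lit 2) (nat_lit 5) (nat_lit 4) (nat_lit 4) (nat_lit 2) (nat_lit 4) (nat_lit 319) (nat_lit 210) (nat_lit 191)) (XT.lf (nat_lit 0) (nat_lit 21911496020) (nat_lit 152) (nat_lit 32367776977) (nat_lit 0) (nat_lit 18087023820) (nat_lit 2) (nat_lit 5) (nat_lit 4) (nat_lit 4) (nat_lit 2) (nat_lit 4) (nat_lit 320) (nat_lit 210) (nat_lit 190)))) (XT.nd (nat_lit 156) (nat_lit 0) (nat_lit 0) (XT.nd (nat_lit 78) (nat_lit 0) (nat_lit 0) (XT.lf (nat_lit 0) (nat_lit 24686821835) (nat_lit 152) (nat_lit 30443275471) (nat_lit 0) (nat_lit 20752195412) (nat_lit 2) (nat_lit 5) (nat_lit 4) (nat_lit 4) (nat_lit 2)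 (nat_lit 4) (nat_lit 321) (nat_lit 210) (nat_lit 189)) (XT.lf (nat_lit 0) (nat_lit 27560811569) (nat_lit 152) (nat_lit 28494065899) (nat_lit 0) (nat_lit 23521276363) (nat_lit 2) (nat_lit 5) (nat_lit 4) (nat_lit 4) (nat_lit 2) (nat_lit 4) (nat_lit 322) (nat_lit 210) (nat_lit 188))) (XT.nd (nat_lit 78) (nat_lit 0) (nat_lit 0) (XT.lf (nat_lit 0) (nat_lit 30540308055) (nat_lit 152) (nat_lit 26515507285) (nat_lit 0) (nat_lit 26400859721) (nat_lit 2) (nat_lit 5) (nat_lit 4) (nat_lit 4) (nat_lit 2) (nat_lit 4) (nat_lit 323) (nat_lit 210) (nat_lit 187)) (XT.nd (nat_lit 78) (nat_lit 0) (nat_lit 0) (XT.lf (nat_lit 0) (nat_lit 33632405332) (nat_lit 152) (nat_lit 24502888777) (nat_lit 0) (nat_lit 29397801639) (nat_lit 2) (nat_lit 5) (nat_lit 4) (nat_lit 4) (nat_lit 2) (nat_lit 4) (nat_lit 324) (nat_lit 210) (nat_lit 186)) (XT.lf (nat_lit 0) (nat_lit 36844465537) (nat_lit 152) (nat_lit 22451418425)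 (nat_lit 0) (nat_lit 32519237692) (nat_lit 2) (nat_lit 5) (nat_lit 4) (nat_lit 4) (nat_lit 2) (nat_lit 4) (nat_lit 325) (nat_lit 210) (nat_lit 185))))))) (XT.nd (nat_lit 702) (nat_lit 76) (nat_lit 0) (XT.nd (nat_lit 312) (nat_lit 0) (nat_lit 0) (XT.nd (nat_lit 156) (nat_lit 0) (nat_lit 0) (XT.nd (nat_lit 78) (nat_lit 0) (nat_lit 0) (XT.lf (nat_lit 0) (nat_lit 40184136431) (nat_lit 152) (nat_lit 20356211777) (nat_lit 0) (nat_lit 35772599871) (nat_lit 2) (nat_lit 5) (nat_lit 4) (nat_lit 4) (nat_lit 2) (nat_lit 4) (nat_lit 326) (nat_lit 210) (nat_lit 184)) (XT.lf (nat_lit 0) (nat_lit 43659369613) (nat_lit 152) (nat_lit 18212280244) (nat_lit 0) (nat_lit 39165634275) (nat_lit 2) (nat_lit 5) (nat_lit 4) (nat_lit 4) (nat_lit 2) (nat_lit 4) (nat_lit 327) (nat_lit 210) (nat_lit 183))) (XT.nd (nat_lit 78) (nat_lit 0) (nat_lit 0) (XT.lf (nat_lit 0) (nat_lit 47278439447) (nat_lit 152) (nat_lit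 16014519228) (nat_lit 0) (nat_lit 42706419560) (nat_lit 2) (nat_lit 5) (nat_lit 4) (nat_lit 4) (nat_lit 2) (nat_lit 4) (nat_lit 328) (nat_lit 210) (nat_lit 182)) (XT.lf (nat_lit 0) (nat_lit 51049962765) (nat_lit 152) (nat_lit 13757695964) (nat_lit 0) (nat_lit 46403386164) (nat_lit 2) (nat_lit 5) (nat_lit 4) (nat_lit 4) (nat_lit 2) (nat_lit 4) (nat_lit 329) (nat_lit 210) (nat_lit 181)))) (XT.nd (nat_lit 156) (nat_lit 0) (nat_lit 0) (XT.nd (nat_lit 78) (nat_lit 0) (nat_lit 0) (XT.lf (nat_lit 0) (nat_lit 54982919386) (nat_lit 152) (nat_lit 11436437065) (nat_lit 0) (nat_lit 50265336391) (nat_lit 2) (nat_lit 5) (nat_lit 4) (nat_lit 4) (nat_lit 2) (nat_lit 4) (nat_lit 330) (nat_lit 210) (nat_lit 180)) (XT.lf (nat_lit 0) (nat_lit 59086673492) (nat_lit 152) (nat_lit 9045215722) (nat_lit 0) (nat_lit 54301465359) (nat_lit 2) (nat_lit 5) (nat_lit 4) (nat_lit 4) (nat_lit 2) (nat_lit 4) (nat_lit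 331) (nat_lit 210) (nat_lit 179))) (XT.nd (nat_lit 78) (nat_lit 0) (nat_lit 0) (XT.lf (nat_lit 0) (nat_lit 63370995925) (nat_lit 152) (nat_lit 6578338552) (nat_lit 0) (nat_lit 58521382900) (nat_lit 2) (nat_lit 5) (nat_lit 4) (nat_lit 4) (nat_lit 2) (nat_lit 4) (nat_lit 332) (nat_lit 210) (nat_lit 178)) (XT.nd (nat_lit 78) (nat_lit 0) (nat_lit 0) (XT.lf (nat_lit 0) (nat_lit 67846087455) (nat_lit 152) (nat_lit 4029932038) (nat_lit 0) (nat_lit 62935136437) (nat_lit 2) (nat_lit 5) (nat_lit 4) (nat_lit 4) (nat_lit 2) (nat_lit 4) (nat_lit 333) (nat_lit 210) (nat_lit 177)) (XT.lf (nat_lit 0) (nat_lit 72522603059) (nat_lit 152) (nat_lit 1393928546) (nat_lit 0) (nat_lit 67553234905) (nat_lit 2) (nat_lit 5) (nat_lit 4) (nat_lit 4) (nat_lit 2) (nat_lit 4) (nat_lit 334) (nat_lit 210) (nat_lit 176)))))) (XT.nd (nat_lit 312) (nat_lit 0) (nat_lit 0) (XT.nd (nat_lit 156) (nat_lit 0) (nat_lit 0) (XT.nd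 (nat_lit 78) (nat_lit 0) (nat_lit 0) (XT.lf (nat_lit 0) (nat_lit 1380120602) (nat_lit 76) (nat_lit 76053104248) (nat_lit 76) (nat_lit 71028100726) (nat_lit 1) (nat_lit 4) (nat_lit 2) (nat_lit 5) (nat_lit 2) (nat_lit 4) (nat_lit 335) (nat_lit 210) (nat_lit 175)) (XT.lf (nat_lit 0) (nat_lit 4303950989) (nat_lit 76) (nat_lit 78288196578) (nat_lit 76) (nat_lit 73210206991) (nat_lit 1) (nat_lit 4) (nat_lit 2) (nat_lit 5) (nat_lit 2) (nat_lit 4) (nat_lit 336) (nat_lit 210) (nat_lit 174))) (XT.nd (nat_lit 78) (nat_lit 0) (nat_lit 0) (XT.lf (nat_lit 0) (nat_lit 7338434541) (nat_lit 76) (nat_lit 80650737099) (nat_lit 76) (nat_lit 75522284593) (nat_lit 1) (nat_lit 4) (nat_lit 2) (nat_lit 5) (nat_lit 2) (nat_lit 4) (nat_lit 337) (nat_lit 210) (nat_lit 173)) (XT.lf (nat_lit 0) (nat_lit 10490796219) (nat_lit 76) (nat_lit 83146350906) (nat_lit 76) (nat_lit 77969838479) (nat_lit 1) (nat_lit 4) (nat_lit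 2) (nat_lit 5) (nat_lit 2) (nat_lit 4) (nat_lit 338) (nat_lit 210) (nat_lit 172)))) (XT.nd (nat_lit 156) (nat_lit 0) (nat_lit 0) (XT.nd (nat_lit 78) (nat_lit 0) (nat_lit 0) (XT.lf (nat_lit 0) (nat_lit 13768541647) (nat_lit 76) (nat_lit 85780979939) (nat_lit 76) (nat_lit 80558696156) (nat_lit 1) (nat_lit 4) (nat_lit 2) (nat_lit 5) (nat_lit 2) (nat_lit 4) (nat_lit 339) (nat_lit 210) (nat_lit 171)) (XT.lf (nat_lit 0) (nat_lit 17179474981) (nat_lit 76) (nat_lit 88560897122) (nat_lit 76) (nat_lit 83295021572) (nat_lit 1) (nat_lit 4) (nat_lit 2) (nat_lit 5) (nat_lit 2) (nat_lit 4) (nat_lit 340) (nat_lit 210) (nat_lit 170))) (XT.nd (nat_lit 78) (nat_lit 0) (nat_lit 0) (XT.lf (nat_lit 0) (nat_lit 20731717490) (nat_lit 76) (nat_lit 91492721306) (nat_lit 76) (nat_lit 86185329788) (nat_lit 1) (nat_lit 4) (nat_lit 2) (nat_lit 5) (nat_lit 2) (nat_lit 4) (nat_lit 341) (nat_lit 210) (nat_lit 169))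 (XT.nd (nat_lit 78) (nat_lit 0) (nat_lit 0) (XT.lf (nat_lit 0) (nat_lit 24433726894) (nat_lit 76) (nat_lit 94583433025) (nat_lit 76) (nat_lit 89236502490) (nat_lit 1) (nat_lit 4) (nat_lit 2) (nat_lit 5) (nat_lit 2) (nat_lit 4) (nat_lit 342) (nat_lit 210) (nat_lit 168)) (XT.lf (nat_lit 0) (nat_lit 28294317502) (nat_lit 76) (nat_lit 97840391116) (nat_lit 76) (nat_lit 92455804375) (nat_lit 1) (nat_lit 4) (nat_lit 2) (nat_lit 5) (nat_lit 2) (nat_lit 4) (nat_lit 343) (nat_lit 210) (nat_lit 167))))))))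
noncomputable def xc31 : XT := (XT.nd (nat_lit 1326) (nat_lit 0) (nat_lit 0) (XT.nd (nat_lit 624) (nat_lit 0) (nat_lit 0) (XT.nd (nat_lit 312) (nat_lit 0) (nat_lit 0) (XT.nd (nat_lit 156) (nat_lit 0) (nat_lit 0) (XT.nd (nat_lit 78) (nat_lit 0) (nat_lit 0) (XT.lf (nat_lit 0) (nat_lit 32322681196) (nat_lit 76) (nat_lit 101271350243) (nat_lit 76) (nat_lit 95850900447) (nat_lit 1) (nat_lit 4) (nat_lit 2) (nat_lit 5) (nat_lit 2) (nat_lit 4) (nat_lit 344) (nat_lit 210) (nat_lit 166)) (XT.lf (nat_lit 0) (nat_lit 36528409318) (nat_lit 76) (nat_lit 104884479354) (nat_lit 76) (nat_lit 99429874268) (nat_lit 1) (nat_lit 4) (nat_lit 2) (nat_lit 5) (nat_lit 2) (nat_lit 4) (nat_lit 345) (nat_lit 210) (nat_lit 165))) (XT.nd (nat_lit 78) (nat_lit 0) (nat_lit 0) (XT.lf (nat_lit 0) (nat_lit 40921515506) (nat_lit 76) (nat_lit 108688381138) (nat_lit 76) (nat_lit 103201247205) (nat_lit 1) (nat_lit 4) (nat_lit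 2) (nat_lit 5) (nat_lit 2) (nat_lit 4) (nat_lit 346) (nat_lit 210) (nat_lit 164)) (XT.lf (nat_lit 0) (nat_lit 45512459538) (nat_lit 76) (nat_lit 112692112504) (nat_lit 76) (nat_lit 107173998717) (nat_lit 1) (nat_lit 4) (nat_lit 2) (nat_lit 5) (nat_lit 2) (nat_lit 4) (nat_lit 347) (nat_lit 210) (nat_lit 163)))) (XT.nd (nat_lit 156) (nat_lit 0) (nat_lit 0) (XT.nd (nat_lit 78) (nat_lit 0) (nat_lit 0) (XT.lf (nat_lit 0) (nat_lit 50312172232) (nat_lit 76) (nat_lit 116905206147) (nat_lit 76) (nat_lit 111357587736) (nat_lit 1) (nat_lit 4) (nat_lit 2) (nat_lit 5) (nat_lit 2) (nat_lit 4) (nat_lit 348) (nat_lit 210) (nat_lit 162)) (XT.lf (nat_lit 0) (nat_lit 55332081475) (nat_lit 76) (nat_lit 121337693241) (nat_lit 76) (nat_lit 115761975189) (nat_lit 1) (nat_lit 4) (nat_lit 2) (nat_lit 5) (nat_lit 2) (nat_lit 4) (nat_lit 349) (nat_lit 210) (nat_lit 161))) (XT.nd (nat_lit 78) (nat_lit 0) (nat_lit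 0) (XT.lf (nat_lit 0) (nat_lit 60584139433) (nat_lit 76) (nat_lit 126000127326) (nat_lit 76) (nat_lit 120397647711) (nat_lit 1) (nat_lit 4) (nat_lit 2) (nat_lit 5) (nat_lit 2) (nat_lit 4) (nat_lit 350) (nat_lit 210) (nat_lit 160)) (XT.lf (nat_lit 0) (nat_lit 66080851006) (nat_lit 76) (nat_lit 130903609438) (nat_lit 76) (nat_lit 125275642620) (nat_lit 1) (nat_lit 4) (nat_lit 2) (nat_lit 5) (nat_lit 2) (nat_lit 4) (nat_lit 351) (nat_lit 210) (nat_lit 159))))) (XT.nd (nat_lit 312) (nat_lit 0) (nat_lit 0) (XT.nd (nat_lit 156) (nat_lit 0) (nat_lit 0) (XT.nd (nat_lit 78) (nat_lit 0) (nat_lit 0) (XT.lf (nat_lit 0) (nat_lit 71835303601) (nat_lit 76) (nat_lit 136059814532) (nat_lit 76) (nat_lit 130407574187) (nat_lit 1) (nat_lit 4) (nat_lit 2) (nat_lit 5) (nat_lit 2) (nat_lit 4) (nat_lit 352) (nat_lit 210) (nat_lit 158)) (XT.lf (nat_lit 0) (nat_lit 77861198296) (nat_lit 76) (nat_lit 141481019288)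 (nat_lit 76) (nat_lit 135805661299) (nat_lit 1) (nat_lit 4) (nat_lit 2) (nat_lit 5) (nat_lit 2) (nat_lit 4) (nat_lit 353) (nat_lit 210) (nat_lit 157))) (XT.nd (nat_lit 78) (nat_lit 0) (nat_lit 0) (XT.lf (nat_lit 0) (nat_lit 84172882461) (nat_lit 76) (nat_lit 147180131336) (nat_lit 76) (nat_lit 141482756543) (nat_lit 1) (nat_lit 4) (nat_lit 2) (nat_lit 5) (nat_lit 2) (nat_lit 4) (nat_lit 354) (nat_lit 210) (nat_lit 156)) (XT.lf (nat_lit 0) (nat_lit 90785383914) (nat_lit 76) (nat_lit 153170719991) (nat_lit 76) (nat_lit 147452376812) (nat_lit 1) (nat_lit 4) (nat_lit 2) (nat_lit 5) (nat_lit 2) (nat_lit 4) (nat_lit 355) (nat_lit 210) (nat_lit 155)))) (XT.nd (nat_lit 156) (nat_lit 0) (nat_lit 0) (XT.nd (nat_lit 78) (nat_lit 0) (nat_lit 0) (XT.lf (nat_lit 0) (nat_lit 97714446706) (nat_lit 76) (nat_lit 159467048558) (nat_lit 76) (nat_lit 153728735489) (nat_lit 1) (nat_lit 4) (nat_lit 2) (nat_lit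 5) (nat_lit 2) (nat_lit 4) (nat_lit 356) (nat_lit 210) (nat_lit 154)) (XT.lf (nat_lit 0) (nat_lit 104976568606) (nat_lit 76) (nat_lit 166084108297) (nat_lit 76) (nat_lit 160326776285) (nat_lit 1) (nat_lit 4) (nat_lit 2) (nat_lit 5) (nat_lit 2) (nat_lit 4) (nat_lit 357) (nat_lit 210) (nat_lit 153))) (XT.nd (nat_lit 78) (nat_lit 0) (nat_lit 0) (XT.lf (nat_lit 0) (nat_lit 112589040380) (nat_lit 76) (nat_lit 173037654111) (nat_lit 76) (nat_lit 167262208819) (nat_lit 1) (nat_lit 4) (nat_lit 2) (nat_lit 5) (nat_lit 2) (nat_lit 4) (nat_lit 358) (nat_lit 210) (nat_lit 152)) (XT.nd (nat_lit 78) (nat_lit 0) (nat_lit 0) (XT.lf (nat_lit 0) (nat_lit 120569986962) (nat_lit 76) (nat_lit 180344242062) (nat_lit 76) (nat_lit 174551546028) (nat_lit 1) (nat_lit 4) (nat_lit 2) (nat_lit 5) (nat_lit 2) (nat_lit 4) (nat_lit 359) (nat_lit 210) (nat_lit 151)) (XT.lf (nat_lit 0) (nat_lit 128938410604) (nat_lit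 76) (nat_lit 188021268788) (nat_lit 76) (nat_lit 182212143476) (nat_lit 1) (nat_lit 4) (nat_lit 2) (nat_lit 5) (nat_lit 2) (nat_lit 4) (nat_lit 360) (nat_lit 210) (nat_lit 150))))))) (XT.nd (nat_lit 32994) (nat_lit 0) (nat_lit 152) (XT.nd (nat_lit 32604) (nat_lit 0) (nat_lit 304) (XT.nd (nat_lit 156) (nat_lit 0) (nat_lit 0) (XT.nd (nat_lit 78) (nat_lit 0) (nat_lit 0) (XT.lf (nat_lit 0) (nat_lit 137714236126) (nat_lit 76) (nat_lit 196087012924) (nat_lit 76) (nat_lit 190262240680) (nat_lit 1) (nat_lit 4) (nat_lit 2) (nat_lit 5) (nat_lit 2) (nat_lit 4) (nat_lit 361) (nat_lit 210) (nat_lit 149)) (XT.lf (nat_lit 0) (nat_lit 146918358349) (nat_lit 76) (nat_lit 204560678623) (nat_lit 76) (nat_lit 198721004539) (nat_lit 1) (nat_lit 4) (nat_lit 2) (nat_lit 5) (nat_lit 2) (nat_lit 4) (nat_lit 362) (nat_lit 210) (nat_lit 148))) (XT.nd (nat_lit 78) (nat_lit 0) (nat_lit 0) (XT.lf (nat_lit 0) (nat_lit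 156572691851) (nat_lit 76) (nat_lit 213462441279) (nat_lit 76) (nat_lit 207608574967) (nat_lit 1) (nat_lit 4) (nat_lit 2) (nat_lit 5) (nat_lit 2) (nat_lit 4) (nat_lit 363) (nat_lit 210) (nat_lit 147)) (XT.lf (nat_lit 0) (nat_lit 166700223139) (nat_lit 76) (nat_lit 222813495565) (nat_lit 76) (nat_lit 216946112845) (nat_lit 1) (nat_lit 4) (nat_lit 2) (nat_lit 5) (nat_lit 2) (nat_lit 4) (nat_lit 364) (nat_lit 210) (nat_lit 146)))) (XT.nd (nat_lit 156) (nat_lit 0) (nat_lit 0) (XT.nd (nat_lit 78) (nat_lit 0) (nat_lit 0) (XT.lf (nat_lit 0) (nat_lit 949581083) (nat_lit 152) (nat_lit 11381181228) (nat_lit 0) (nat_lit 949581083) (nat_lit 5) (nat_lit 5) (nat_lit 7) (nat_lit 4) (nat_lit 5) (nat_lit 4) (nat_lit 298) (nat_lit 211) (nat_lit 211)) (XT.lf (nat_lit 0) (nat_lit 4913180459) (nat_lit 152) (nat_lit 18216118579) (nat_lit 0) (nat_lit 4590950638) (nat_lit 5) (nat_lit 5) (nat_lit 7) (nat_lit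 4) (nat_lit 5) (nat_lit 4) (nat_lit 299) (nat_lit 211) (nat_lit 210))) (XT.nd (nat_lit 78) (nat_lit 0) (nat_lit 0) (XT.lf (nat_lit 0) (nat_lit 7975324043) (nat_lit 152) (nat_lit 13621563155) (nat_lit 0) (nat_lit 7346208677) (nat_lit 5) (nat_lit 5) (nat_lit 7) (nat_lit 4) (nat_lit 5) (nat_lit 4) (nat_lit 300) (nat_lit 211) (nat_lit 209)) (XT.nd (nat_lit 78) (nat_lit 0) (nat_lit 0) (XT.lf (nat_lit 0) (nat_lit 11092883736) (nat_lit 152) (nat_lit 8967756766) (nat_lit 0) (nat_lit 10171496424) (nat_lit 5) (nat_lit 5) (nat_lit 7) (nat_lit 4) (nat_lit 5) (nat_lit 4) (nat_lit 301) (nat_lit 211) (nat_lit 208)) (XT.lf (nat_lit 0) (nat_lit 14273282300) (nat_lit 152) (nat_lit 4243618921) (nat_lit 0) (nat_lit 13073540753) (nat_lit 5) (nat_lit 5) (nat_lit 7) (nat_lit 4) (nat_lit 5) (nat_lit 4) (nat_lit 302) (nat_lit 211) (nat_lit 207)))))) (XT.nd (nat_lit 312) (nat_lit 76) (nat_lit 0) (XT.nd (nat_lit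 156) (nat_lit 0) (nat_lit 0) (XT.nd (nat_lit 78) (nat_lit 0) (nat_lit 0) (XT.lf (nat_lit 0) (nat_lit 580683836) (nat_lit 76) (nat_lit 16952474377) (nat_lit 76) (nat_lit 15487633559) (nat_lit 4) (nat_lit 4) (nat_lit 5) (nat_lit 5) (nat_lit 5) (nat_lit 4) (nat_lit 303) (nat_lit 211) (nat_lit 206)) (XT.lf (nat_lit 0) (nat_lit 5641397102) (nat_lit 76) (nat_lit 15299734113) (nat_lit 76) (nat_lit 13582417798) (nat_lit 4) (nat_lit 4) (nat_lit 5) (nat_lit 5) (nat_lit 5) (nat_lit 4) (nat_lit 304) (nat_lit 211) (nat_lit 205))) (XT.nd (nat_lit 78) (nat_lit 0) (nat_lit 0) (XT.lf (nat_lit 0) (nat_lit 10810256985) (nat_lit 76) (nat_lit 13626613070) (nat_lit 76) (nat_lit 11668843902) (nat_lit 4) (nat_lit 4) (nat_lit 5) (nat_lit 5) (nat_lit 5) (nat_lit 4) (nat_lit 305) (nat_lit 211) (nat_lit 204)) (XT.lf (nat_lit 0) (nat_lit 16099570297) (nat_lit 76) (nat_lit 11929127629) (nat_lit 76) (nat_lit 9742355743)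 (nat_lit 4) (nat_lit 4) (nat_lit 5) (nat_lit 5) (nat_lit 5) (nat_lit 4) (nat_lit 306) (nat_lit 211) (nat_lit 203)))) (XT.nd (nat_lit 156) (nat_lit 76) (nat_lit 0) (XT.nd (nat_lit 78) (nat_lit 0) (nat_lit 0) (XT.lf (nat_lit 0) (nat_lit 21521930639) (nat_lit 76) (nat_lit 10203236158) (nat_lit 76) (nat_lit 7798366445) (nat_lit 4) (nat_lit 4) (nat_lit 5) (nat_lit 5) (nat_lit 5) (nat_lit 4) (nat_lit 307) (nat_lit 211) (nat_lit 202)) (XT.lf (nat_lit 0) (nat_lit 27090248394) (nat_lit 76) (nat_lit 8444829390) (nat_lit 76) (nat_lit 5832247461) (nat_lit 4) (nat_lit 4) (nat_lit 5) (nat_lit 5) (nat_lit 5) (nat_lit 4) (nat_lit 308) (nat_lit 211) (nat_lit 201))) (XT.nd (nat_lit 78) (nat_lit 76) (nat_lit 0) (XT.lf (nat_lit 0) (nat_lit 32817781461) (nat_lit 76) (nat_lit 6649720643) (nat_lit 76) (nat_lit 3839317557) (nat_lit 4) (nat_lit 4) (nat_lit 5) (nat_lit 5) (nat_lit 5) (nat_lit 4) (nat_lit 309)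 (nat_lit 211) (nat_lit 200)) (XT.nd (nat_lit 78) (nat_lit 76) (nat_lit 0) (XT.lf (nat_lit 0) (nat_lit 38718166824) (nat_lit 76) (nat_lit 4813635848) (nat_lit 76) (nat_lit 1814831659) (nat_lit 4) (nat_lit 4) (nat_lit 5) (nat_lit 5) (nat_lit 5) (nat_lit 4) (nat_lit 310) (nat_lit 211) (nat_lit 199)) (XT.lf (nat_lit 0) (nat_lit 238155923) (nat_lit 152) (nat_lit 2690014167) (nat_lit 76) (nat_lit 44563263809) (nat_lit 3) (nat_lit 5) (nat_lit 5) (nat_lit 5) (nat_lit 4) (nat_lit 4) (nat_lit 311) (nat_lit 211) (nat_lit 198))))))))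
noncomputable def xc32 : XT := (XT.nd (nat_lit 1326) (nat_lit 76) (nat_lit 0) (XT.nd (nat_lit 624) (nat_lit 0) (nat_lit 0) (XT.nd (nat_lit 312) (nat_lit 0) (nat_lit 0) (XT.nd (nat_lit 156) (nat_lit 0) (nat_lit 0) (XT.nd (nat_lit 78) (nat_lit 0) (nat_lit 0) (XT.lf (nat_lit 0) (nat_lit 1353903686) (nat_lit 76) (nat_lit 940253801) (nat_lit 152) (nat_lit 47449854190) (nat_lit 2) (nat_lit 5) (nat_lit 3) (nat_lit 5) (nat_lit 4) (nat_lit 4) (nat_lit 312) (nat_lit 211) (nat_lit 197)) (XT.lf (nat_lit 0) (nat_lit 4457921981) (nat_lit 152) (nat_lit 46537850682) (nat_lit 0) (nat_lit 1113286628) (nat_lit 2) (nat_lit 5) (nat_lit 4) (nat_lit 4) (nat_lit 2) (nat_lit 4) (nat_lit 313) (nat_lit 211) (nat_lit 196))) (XT.nd (nat_lit 78) (nat_lit 0) (nat_lit 0) (XT.lf (nat_lit 0) (nat_lit 6688860631) (nat_lit 152) (nat_lit 44709026117) (nat_lit 0) (nat_lit 3196608084) (nat_lit 2) (nat_lit 5) (nat_lit 4)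 (nat_lit 4) (nat_lit 2) (nat_lit 4) (nat_lit 314) (nat_lit 211) (nat_lit 195)) (XT.lf (nat_lit 0) (nat_lit 8977605201) (nat_lit 152) (nat_lit 42884599956) (nat_lit 0) (nat_lit 5344764850) (nat_lit 2) (nat_lit 5) (nat_lit 4) (nat_lit 4) (nat_lit 2) (nat_lit 4) (nat_lit 315) (nat_lit 211) (nat_lit 194)))) (XT.nd (nat_lit 156) (nat_lit 0) (nat_lit 0) (XT.nd (nat_lit 78) (nat_lit 0) (nat_lit 0) (XT.lf (nat_lit 0) (nat_lit 11329605081) (nat_lit 152) (nat_lit 41060228328) (nat_lit 0) (nat_lit 7562871584) (nat_lit 2) (nat_lit 5) (nat_lit 4) (nat_lit 4) (nat_lit 2) (nat_lit 4) (nat_lit 316) (nat_lit 211) (nat_lit 193)) (XT.lf (nat_lit 0) (nat_lit 13750460272) (nat_lit 152) (nat_lit 39231567490) (nat_lit 0) (nat_lit 9856209493) (nat_lit 2) (nat_lit 5) (nat_lit 4) (nat_lit 4) (nat_lit 2) (nat_lit 4) (nat_lit 317) (nat_lit 211) (nat_lit 192))) (XT.nd (nat_lit 78) (nat_lit 0) (nat_lit 0) (XT.lf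 (nat_lit 0) (nat_lit 16245934715) (nat_lit 152) (nat_lit 37394263489) (nat_lit 0) (nat_lit 12230238906) (nat_lit 2) (nat_lit 5) (nat_lit 4) (nat_lit 4) (nat_lit 2) (nat_lit 4) (nat_lit 318) (nat_lit 211) (nat_lit 191)) (XT.lf (nat_lit 0) (nat_lit 18821970016) (nat_lit 152) (nat_lit 35543941790) (nat_lit 0) (nat_lit 14690612272) (nat_lit 2) (nat_lit 5) (nat_lit 4) (nat_lit 4) (nat_lit 2) (nat_lit 4) (nat_lit 319) (nat_lit 211) (nat_lit 190))))) (XT.nd (nat_lit 312) (nat_lit 0) (nat_lit 0) (XT.nd (nat_lit 156) (nat_lit 0) (nat_lit 0) (XT.nd (nat_lit 78) (nat_lit 0) (nat_lit 0) (XT.lf (nat_lit 0) (nat_lit 21484699591) (nat_lit 152) (nat_lit 33676196867) (nat_lit 0) (nat_lit 17243187625) (nat_lit 2) (nat_lit 5) (nat_lit 4) (nat_lit 4) (nat_lit 2) (nat_lit 4) (nat_lit 320) (nat_lit 211) (nat_lit 189)) (XT.lf (nat_lit 0) (nat_lit 24240463274) (nat_lit 152) (nat_lit 31786581706) (nat_lit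 0) (nat_lit 19894042524) (nat_lit 2) (nat_lit 5) (nat_lit 4) (nat_lit 4) (nat_lit 2) (nat_lit 4) (nat_lit 321) (nat_lit 211) (nat_lit 188))) (XT.nd (nat_lit 78) (nat_lit 0) (nat_lit 0) (XT.lf (nat_lit 0) (nat_lit 27095822405) (nat_lit 152) (nat_lit 29870597225) (nat_lit 0) (nat_lit 22649488528) (nat_lit 2) (nat_lit 5) (nat_lit 4) (nat_lit 4) (nat_lit 2) (nat_lit 4) (nat_lit 322) (nat_lit 211) (nat_lit 187)) (XT.lf (nat_lit 0) (nat_lit 30057575460) (nat_lit 152) (nat_lit 27923681556) (nat_lit 0) (nat_lit 25516086224) (nat_lit 2) (nat_lit 5) (nat_lit 4) (nat_lit 4) (nat_lit 2) (nat_lit 4) (nat_lit 323) (nat_lit 211) (nat_lit 186)))) (XT.nd (nat_lit 156) (nat_lit 0) (nat_lit 0) (XT.nd (nat_lit 78) (nat_lit 0) (nat_lit 0) (XT.lf (nat_lit 0) (nat_lit 33132774232) (nat_lit 152) (nat_lit 25941199186) (nat_lit 0) (nat_lit 28500660844) (nat_lit 2) (nat_lit 5) (nat_lit 4) (nat_lit 4) (nat_lit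 2) (nat_lit 4) (nat_lit 324) (nat_lit 211) (nat_lit 185)) (XT.lf (nat_lit 0) (nat_lit 36328740622) (nat_lit 152) (nat_lit 23918429917) (nat_lit 0) (nat_lit 31610318518) (nat_lit 2) (nat_lit 5) (nat_lit 4) (nat_lit 4) (nat_lit 2) (nat_lit 4) (nat_lit 325) (nat_lit 211) (nat_lit 184))) (XT.nd (nat_lit 78) (nat_lit 0) (nat_lit 0) (XT.lf (nat_lit 0) (nat_lit 39653084074) (nat_lit 152) (nat_lit 21850557633) (nat_lit 0) (nat_lit 34852463192) (nat_lit 2) (nat_lit 5) (nat_lit 4) (nat_lit 4) (nat_lit 2) (nat_lit 4) (nat_lit 326) (nat_lit 211) (nat_lit 183)) (XT.nd (nat_lit 78) (nat_lit 0) (nat_lit 0) (XT.lf (nat_lit 0) (nat_lit 43113719691) (nat_lit 152) (nat_lit 19732658829) (nat_lit 0) (nat_lit 38234814260) (nat_lit 2) (nat_lit 5) (nat_lit 4) (nat_lit 4) (nat_lit 2) (nat_lit 4) (nat_lit 327) (nat_lit 211) (nat_lit 182)) (XT.lf (nat_lit 0) (nat_lit 46718887082) (nat_lit 152) (nat_lit 17559690888)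 (nat_lit 0) (nat_lit 41765424938) (nat_lit 2) (nat_lit 5) (nat_lit 4) (nat_lit 4) (nat_lit 2) (nat_lit 4) (nat_lit 328) (nat_lit 211) (nat_lit 181))))))) (XT.nd (nat_lit 624) (nat_lit 0) (nat_lit 0) (XT.nd (nat_lit 312) (nat_lit 76) (nat_lit 0) (XT.nd (nat_lit 156) (nat_lit 0) (nat_lit 0) (XT.nd (nat_lit 78) (nat_lit 0) (nat_lit 0) (XT.lf (nat_lit 0) (nat_lit 50477169980) (nat_lit 152) (nat_lit 15326480077) (nat_lit 0) (nat_lit 45452701441) (nat_lit 2) (nat_lit 5) (nat_lit 4) (nat_lit 4) (nat_lit 2) (nat_lit 4) (nat_lit 329) (nat_lit 211) (nat_lit 180)) (XT.lf (nat_lit 0) (nat_lit 54397516676) (nat_lit 152) (nat_lit 13027709227) (nat_lit 0) (nat_lit 49305422999) (nat_lit 2) (nat_lit 5) (nat_lit 4) (nat_lit 4) (nat_lit 2) (nat_lit 4) (nat_lit 330) (nat_lit 211) (nat_lit 179))) (XT.nd (nat_lit 78) (nat_lit 0) (nat_lit 0) (XT.lf (nat_lit 0) (nat_lit 58489261329) (nat_lit 152) (nat_lit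 10657905074) (nat_lit 0) (nat_lit 53332762760) (nat_lit 2) (nat_lit 5) (nat_lit 4) (nat_lit 4) (nat_lit 2) (nat_lit 4) (nat_lit 331) (nat_lit 211) (nat_lit 178)) (XT.lf (nat_lit 0) (nat_lit 62762146189) (nat_lit 152) (nat_lit 8211425229) (nat_lit 0) (nat_lit 57544309627) (nat_lit 2) (nat_lit 5) (nat_lit 4) (nat_lit 4) (nat_lit 2) (nat_lit 4) (nat_lit 332) (nat_lit 211) (nat_lit 177)))) (XT.nd (nat_lit 156) (nat_lit 76) (nat_lit 0) (XT.nd (nat_lit 78) (nat_lit 0) (nat_lit 0) (XT.lf (nat_lit 0) (nat_lit 67226344791) (nat_lit 152) (nat_lit 5682444737) (nat_lit 0) (nat_lit 61950091092) (nat_lit 2) (nat_lit 5) (nat_lit 4) (nat_lit 4) (nat_lit 2) (nat_lit 4) (nat_lit 333) (nat_lit 211) (nat_lit 176)) (XT.lf (nat_lit 0) (nat_lit 71892486179) (nat_lit 152) (nat_lit 3064942219) (nat_lit 0) (nat_lit 66560597113) (nat_lit 2) (nat_lit 5) (nat_lit 4) (nat_lit 4) (nat_lit 2) (nat_lit 4) (nat_lit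 334) (nat_lit 211) (nat_lit 175))) (XT.nd (nat_lit 78) (nat_lit 76) (nat_lit 0) (XT.lf (nat_lit 0) (nat_lit 76771680214) (nat_lit 152) (nat_lit 352685524) (nat_lit 0) (nat_lit 71386805083) (nat_lit 2) (nat_lit 5) (nat_lit 4) (nat_lit 4) (nat_lit 2) (nat_lit 4) (nat_lit 335) (nat_lit 211) (nat_lit 174)) (XT.lf (nat_lit 0) (nat_lit 2542147703) (nat_lit 76) (nat_lit 79373086370) (nat_lit 76) (nat_lit 73937748321) (nat_lit 1) (nat_lit 4) (nat_lit 2) (nat_lit 5) (nat_lit 2) (nat_lit 4) (nat_lit 336) (nat_lit 211) (nat_lit 173))))) (XT.nd (nat_lit 312) (nat_lit 0) (nat_lit 0) (XT.nd (nat_lit 156) (nat_lit 0) (nat_lit 0) (XT.nd (nat_lit 78) (nat_lit 0) (nat_lit 0) (XT.lf (nat_lit 0) (nat_lit 5560120986) (nat_lit 76) (nat_lit 81742917750) (nat_lit 76) (nat_lit 76259519778) (nat_lit 1) (nat_lit 4) (nat_lit 2) (nat_lit 5) (nat_lit 2) (nat_lit 4) (nat_lit 337) (nat_lit 211) (nat_lit 172)) (XT.lf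 (nat_lit 0) (nat_lit 8696758599) (nat_lit 76) (nat_lit 84245475233) (nat_lit 76) (nat_lit 78716305906) (nat_lit 1) (nat_lit 4) (nat_lit 2) (nat_lit 5) (nat_lit 2) (nat_lit 4) (nat_lit 338) (nat_lit 211) (nat_lit 171))) (XT.nd (nat_lit 78) (nat_lit 0) (nat_lit 0) (XT.lf (nat_lit 0) (nat_lit 11959528727) (nat_lit 76) (nat_lit 86886717289) (nat_lit 76) (nat_lit 81313956195) (nat_lit 1) (nat_lit 4) (nat_lit 2) (nat_lit 5) (nat_lit 2) (nat_lit 4) (nat_lit 339) (nat_lit 211) (nat_lit 170)) (XT.lf (nat_lit 0) (nat_lit 15356199870) (nat_lit 76) (nat_lit 89672932590) (nat_lit 76) (nat_lit 84058655528) (nat_lit 1) (nat_lit 4) (nat_lit 2) (nat_lit 5) (nat_lit 2) (nat_lit 4) (nat_lit 340) (nat_lit 211) (nat_lit 169)))) (XT.nd (nat_lit 156) (nat_lit 0) (nat_lit 0) (XT.nd (nat_lit 78) (nat_lit 0) (nat_lit 0) (XT.lf (nat_lit 0) (nat_lit 18894859340) (nat_lit 76) (nat_lit 92610754982) (nat_lit 76)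 (nat_lit 86956938903) (nat_lit 1) (nat_lit 4) (nat_lit 2) (nat_lit 5) (nat_lit 2) (nat_lit 4) (nat_lit 341) (nat_lit 211) (nat_lit 168)) (XT.lf (nat_lit 0) (nat_lit 22583932516) (nat_lit 76) (nat_lit 95707179280) (nat_lit 76) (nat_lit 90015706994) (nat_lit 1) (nat_lit 4) (nat_lit 2) (nat_lit 5) (nat_lit 2) (nat_lit 4) (nat_lit 342) (nat_lit 211) (nat_lit 167))) (XT.nd (nat_lit 78) (nat_lit 0) (nat_lit 0) (XT.lf (nat_lit 0) (nat_lit 26432202907) (nat_lit 76) (nat_lit 98969577922) (nat_lit 76) (nat_lit 93242242583) (nat_lit 1) (nat_lit 4) (nat_lit 2) (nat_lit 5) (nat_lit 2) (nat_lit 4) (nat_lit 343) (nat_lit 211) (nat_lit 166)) (XT.nd (nat_lit 78) (nat_lit 0) (nat_lit 0) (XT.lf (nat_lit 0) (nat_lit 30448833061) (nat_lit 76) (nat_lit 102405718526) (nat_lit 76) (nat_lit 96644227897) (nat_lit 1) (nat_lit 4) (nat_lit 2) (nat_lit 5) (nat_lit 2) (nat_lit 4) (nat_lit 344) (nat_lit 211) (nat_lit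 165)) (XT.lf (nat_lit 0) (nat_lit 34643386384) (nat_lit 76) (nat_lit 106023782377) (nat_lit 76) (nat_lit 100229762901) (nat_lit 1) (nat_lit 4) (nat_lit 2) (nat_lit 5) (nat_lit 2) (nat_lit 4) (nat_lit 345) (nat_lit 211) (nat_lit 164))))))))
noncomputable def xc33 : XT := (XT.nd (nat_lit 1326) (nat_lit 0) (nat_lit 0) (XT.nd (nat_lit 624) (nat_lit 0) (nat_lit 0) (XT.nd (nat_lit 312) (nat_lit 0) (nat_lit 0) (XT.nd (nat_lit 156) (nat_lit 0) (nat_lit 0) (XT.nd (nat_lit 78) (nat_lit 0) (nat_lit 0) (XT.lf (nat_lit 0) (nat_lit 39025849906) (nat_lit 76) (nat_lit 109832383914) (nat_lit 76) (nat_lit 104007384583) (nat_lit 1) (nat_lit 4) (nat_lit 2) (nat_lit 5) (nat_lit 2) (nat_lit 4) (nat_lit 346) (nat_lit 211) (nat_lit 163)) (XT.lf (nat_lit 0) (nat_lit 43606658064) (nat_lit 76) (nat_lit 113840591236) (nat_lit 76) (nat_lit 107986087281) (nat_lit 1) (nat_lit 4) (nat_lit 2) (nat_lit 5) (nat_lit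 2) (nat_lit 4) (nat_lit 347) (nat_lit 211) (nat_lit 162))) (XT.nd (nat_lit 78) (nat_lit 0) (nat_lit 0) (XT.lf (nat_lit 0) (nat_lit 48396717546) (nat_lit 76) (nat_lit 118057947692) (nat_lit 76) (nat_lit 112175344097) (nat_lit 1) (nat_lit 4) (nat_lit 2) (nat_lit 5) (nat_lit 2) (nat_lit 4) (nat_lit 348) (nat_lit 211) (nat_lit 161)) (XT.lf (nat_lit 0) (nat_lit 53407433254) (nat_lit 76) (nat_lit 122494494609) (nat_lit 76) (nat_lit 116585129450) (nat_lit 1) (nat_lit 4) (nat_lit 2) (nat_lit 5) (nat_lit 2) (nat_lit 4) (nat_lit 349) (nat_lit 211) (nat_lit 160)))) (XT.nd (nat_lit 156) (nat_lit 0) (nat_lit 0) (XT.nd (nat_lit 78) (nat_lit 0) (nat_lit 0) (XT.lf (nat_lit 0) (nat_lit 58650735464) (nat_lit 76) (nat_lit 127160795193) (nat_lit 76) (nat_lit 121225942831) (nat_lit 1) (nat_lit 4) (nat_lit 2) (nat_lit 5) (nat_lit 2) (nat_lit 4) (nat_lit 350) (nat_lit 211) (nat_lit 159)) (XT.lf (nat_lit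 0) (nat_lit 64139108228) (nat_lit 76) (nat_lit 132067959684) (nat_lit 76) (nat_lit 126108833795) (nat_lit 1) (nat_lit 4) (nat_lit 2) (nat_lit 5) (nat_lit 2) (nat_lit 4) (nat_lit 351) (nat_lit 211) (nat_lit 158))) (XT.nd (nat_lit 78) (nat_lit 0) (nat_lit 0) (XT.lf (nat_lit 0) (nat_lit 69885619102) (nat_lit 76) (nat_lit 137227671806) (nat_lit 76) (nat_lit 131245428272) (nat_lit 1) (nat_lit 4) (nat_lit 2) (nat_lit 5) (nat_lit 2) (nat_lit 4) (nat_lit 352) (nat_lit 211) (nat_lit 157)) (XT.lf (nat_lit 0) (nat_lit 75903950253) (nat_lit 76) (nat_lit 142652216588) (nat_lit 76) (nat_lit 136647956251) (nat_lit 1) (nat_lit 4) (nat_lit 2) (nat_lit 5) (nat_lit 2) (nat_lit 4) (nat_lit 353) (nat_lit 211) (nat_lit 156))))) (XT.nd (nat_lit 312) (nat_lit 0) (nat_lit 0) (XT.nd (nat_lit 156) (nat_lit 0) (nat_lit 0) (XT.nd (nat_lit 78) (nat_lit 0) (nat_lit 0) (XT.lf (nat_lit 0) (nat_lit 82208431042) (nat_lit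 76) (nat_lit 148354509614) (nat_lit 76) (nat_lit 142329280891) (nat_lit 1) (nat_lit 4) (nat_lit 2) (nat_lit 5) (nat_lit 2) (nat_lit 4) (nat_lit 354) (nat_lit 211) (nat_lit 155)) (XT.lf (nat_lit 0) (nat_lit 88814072138) (nat_lit 76) (nat_lit 154348127771) (nat_lit 76) (nat_lit 148302929158) (nat_lit 1) (nat_lit 4) (nat_lit 2) (nat_lit 5) (nat_lit 2) (nat_lit 4) (nat_lit 355) (nat_lit 211) (nat_lit 154))) (XT.nd (nat_lit 78) (nat_lit 0) (nat_lit 0) (XT.lf (nat_lit 0) (nat_lit 95736601256) (nat_lit 76) (nat_lit 160647341579) (nat_lit 76) (nat_lit 154583124023) (nat_lit 1) (nat_lit 4) (nat_lit 2) (nat_lit 5) (nat_lit 2) (nat_lit 4) (nat_lit 356) (nat_lit 211) (nat_lit 153)) (XT.lf (nat_lit 0) (nat_lit 102992500609) (nat_lit 76) (nat_lit 167267149166) (nat_lit 76) (nat_lit 161184818330) (nat_lit 1) (nat_lit 4) (nat_lit 2) (nat_lit 5) (nat_lit 2) (nat_lit 4) (nat_lit 357) (nat_lit 211) (nat_lit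 152)))) (XT.nd (nat_lit 156) (nat_lit 0) (nat_lit 0) (XT.nd (nat_lit 78) (nat_lit 0) (nat_lit 0) (XT.lf (nat_lit 0) (nat_lit 110599046149) (nat_lit 76) (nat_lit 174223311978) (nat_lit 76) (nat_lit 168123730400) (nat_lit 1) (nat_lit 4) (nat_lit 2) (nat_lit 5) (nat_lit 2) (nat_lit 4) (nat_lit 358) (nat_lit 211) (nat_lit 151)) (XT.lf (nat_lit 0) (nat_lit 118574348697) (nat_lit 76) (nat_lit 181532392308) (nat_lit 76) (nat_lit 175416381452) (nat_lit 1) (nat_lit 4) (nat_lit 2) (nat_lit 5) (nat_lit 2) (nat_lit 4) (nat_lit 359) (nat_lit 211) (nat_lit 150))) (XT.nd (nat_lit 78) (nat_lit 0) (nat_lit 0) (XT.lf (nat_lit 0) (nat_lit 126937397069) (nat_lit 76) (nat_lit 189211792729) (nat_lit 76) (nat_lit 183080134941) (nat_lit 1) (nat_lit 4) (nat_lit 2) (nat_lit 5) (nat_lit 2) (nat_lit 4) (nat_lit 360) (nat_lit 211) (nat_lit 149)) (XT.nd (nat_lit 78) (nat_lit 0) (nat_lit 0) (XT.lf (nat_lit 0) (nat_lit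 135708103286) (nat_lit 76) (nat_lit 197279797526) (nat_lit 76) (nat_lit 191133237899) (nat_lit 1) (nat_lit 4) (nat_lit 2) (nat_lit 5) (nat_lit 2) (nat_lit 4) (nat_lit 361) (nat_lit 211) (nat_lit 148)) (XT.lf (nat_lit 0) (nat_lit 144907349981) (nat_lit 76) (nat_lit 205755616236) (nat_lit 76) (nat_lit 199594864380) (nat_lit 1) (nat_lit 4) (nat_lit 2) (nat_lit 5) (nat_lit 2) (nat_lit 4) (nat_lit 362) (nat_lit 211) (nat_lit 147))))))) (XT.nd (nat_lit 32916) (nat_lit 0) (nat_lit 76) (XT.nd (nat_lit 32526) (nat_lit 0) (nat_lit 228) (XT.nd (nat_lit 32370) (nat_lit 0) (nat_lit 304) (XT.nd (nat_lit 32292) (nat_lit 0) (nat_lit 456) (XT.lf (nat_lit 0) (nat_lit 154557040123) (nat_lit 76) (nat_lit 214659429378) (nat_lit 76) (nat_lit 208485161114) (nat_lit 1) (nat_lit 4) (nat_lit 2) (nat_lit 5) (nat_lit 2) (nat_lit 4) (nat_lit 363) (nat_lit 211) (nat_lit 146)) (XT.lf (nat_lit 0) (nat_lit 8641911796)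 (nat_lit 76) (nat_lit 1780609184) (nat_lit 76) (nat_lit 1780609184) (nat_lit 7) (nat_lit 4) (nat_lit 8) (nat_lit 5) (nat_lit 8) (nat_lit 4) (nat_lit 296) (nat_lit 212) (nat_lit 212))) (XT.nd (nat_lit 78) (nat_lit 152) (nat_lit 0) (XT.lf (nat_lit 0) (nat_lit 23678509558) (nat_lit 76) (nat_lit 1067773077) (nat_lit 76) (nat_lit 712514700) (nat_lit 7) (nat_lit 4) (nat_lit 8) (nat_lit 5) (nat_lit 8) (nat_lit 4) (nat_lit 297) (nat_lit 212) (nat_lit 211)) (XT.lf (nat_lit 0) (nat_lit 2184964745) (nat_lit 152) (nat_lit 22854045714) (nat_lit 0) (nat_lit 1524393612) (nat_lit 5) (nat_lit 5) (nat_lit 7) (nat_lit 4) (nat_lit 5) (nat_lit 4) (nat_lit 298) (nat_lit 212) (nat_lit 210)))) (XT.nd (nat_lit 156) (nat_lit 76) (nat_lit 0) (XT.nd (nat_lit 78) (nat_lit 0) (nat_lit 0) (XT.lf (nat_lit 0) (nat_lit 5148946148) (nat_lit 152) (nat_lit 18395119226) (nat_lit 0) (nat_lit 4181489471) (nat_lit 5) (nat_lit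 5) (nat_lit 7) (nat_lit 4) (nat_lit 5) (nat_lit 4) (nat_lit 299) (nat_lit 212) (nat_lit 209)) (XT.lf (nat_lit 0) (nat_lit 8163435551) (nat_lit 152) (nat_lit 13883723219) (nat_lit 0) (nat_lit 6903706927) (nat_lit 5) (nat_lit 5) (nat_lit 7) (nat_lit 4) (nat_lit 5) (nat_lit 4) (nat_lit 300) (nat_lit 212) (nat_lit 208))) (XT.nd (nat_lit 78) (nat_lit 76) (nat_lit 0) (XT.lf (nat_lit 0) (nat_lit 11235610311) (nat_lit 152) (nat_lit 9309116276) (nat_lit 0) (nat_lit 9697527452) (nat_lit 5) (nat_lit 5) (nat_lit 7) (nat_lit 4) (nat_lit 5) (nat_lit 4) (nat_lit 301) (nat_lit 212) (nat_lit 207)) (XT.nd (nat_lit 78) (nat_lit 76) (nat_lit 0) (XT.lf (nat_lit 0) (nat_lit 14372785129) (nat_lit 152) (nat_lit 4660406474) (nat_lit 0) (nat_lit 12569602999) (nat_lit 5) (nat_lit 5) (nat_lit 7) (nat_lit 4) (nat_lit 5) (nat_lit 4) (nat_lit 302) (nat_lit 212) (nat_lit 206)) (XT.lf (nat_lit 0) (nat_lit 75903942)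 (nat_lit 76) (nat_lit 17507710599) (nat_lit 76) (nat_lit 15452052972) (nat_lit 4) (nat_lit 4) (nat_lit 5) (nat_lit 5) (nat_lit 5) (nat_lit 4) (nat_lit 303) (nat_lit 212) (nat_lit 205)))))) (XT.nd (nat_lit 312) (nat_lit 152) (nat_lit 0) (XT.nd (nat_lit 156) (nat_lit 0) (nat_lit 0) (XT.nd (nat_lit 78) (nat_lit 0) (nat_lit 0) (XT.lf (nat_lit 0) (nat_lit 5065939625) (nat_lit 76) (nat_lit 15885339229) (nat_lit 76) (nat_lit 13589228749) (nat_lit 4) (nat_lit 4) (nat_lit 5) (nat_lit 5) (nat_lit 5) (nat_lit 4) (nat_lit 304) (nat_lit 212) (nat_lit 204)) (XT.lf (nat_lit 0) (nat_lit 10167487525) (nat_lit 76) (nat_lit 14241140945) (nat_lit 76) (nat_lit 11716027747) (nat_lit 4) (nat_lit 4) (nat_lit 5) (nat_lit 5) (nat_lit 5) (nat_lit 4) (nat_lit 305) (nat_lit 212) (nat_lit 203))) (XT.nd (nat_lit 78) (nat_lit 0) (nat_lit 0) (XT.lf (nat_lit 0) (nat_lit 15392694185) (nat_lit 76) (nat_lit 12571200988)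 (nat_lit 76) (nat_lit 9827989963) (nat_lit 4) (nat_lit 4) (nat_lit 5) (nat_lit 5) (nat_lit 5) (nat_lit 4) (nat_lit 306) (nat_lit 212) (nat_lit 202)) (XT.lf (nat_lit 0) (nat_lit 20754000574) (nat_lit 76) (nat_lit 10871543310) (nat_lit 76) (nat_lit 7920620069) (nat_lit 4) (nat_lit 4) (nat_lit 5) (nat_lit 5) (nat_lit 5) (nat_lit 4) (nat_lit 307) (nat_lit 212) (nat_lit 201)))) (XT.nd (nat_lit 156) (nat_lit 152) (nat_lit 0) (XT.nd (nat_lit 78) (nat_lit 0) (nat_lit 0) (XT.lf (nat_lit 0) (nat_lit 26264171707) (nat_lit 76) (nat_lit 9138121107) (nat_lit 76) (nat_lit 5989376709) (nat_lit 4) (nat_lit 4) (nat_lit 5) (nat_lit 5) (nat_lit 5) (nat_lit 4) (nat_lit 308) (nat_lit 212) (nat_lit 200)) (XT.lf (nat_lit 0) (nat_lit 31936327039) (nat_lit 76) (nat_lit 7366807185) (nat_lit 76) (nat_lit 4029661683) (nat_lit 4) (nat_lit 4) (nat_lit 5) (nat_lit 5) (nat_lit 5) (nat_lit 4) (nat_lit 309) (nat_lit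 212) (nat_lit 199))) (XT.nd (nat_lit 78) (nat_lit 152) (nat_lit 0) (XT.lf (nat_lit 0) (nat_lit 37783971701) (nat_lit 76) (nat_lit 5553384128) (nat_lit 76) (nat_lit 2036809005) (nat_lit 4) (nat_lit 4) (nat_lit 5) (nat_lit 5) (nat_lit 5) (nat_lit 4) (nat_lit 310) (nat_lit 212) (nat_lit 198)) (XT.nd (nat_lit 78) (nat_lit 152) (nat_lit 0) (XT.lf (nat_lit 0) (nat_lit 43821028657) (nat_lit 76) (nat_lit 3693534262) (nat_lit 76) (nat_lit 6073786) (nat_lit 4) (nat_lit 4) (nat_lit 5) (nat_lit 5) (nat_lit 5) (nat_lit 4) (nat_lit 311) (nat_lit 212) (nat_lit 197)) (XT.lf (nat_lit 0) (nat_lit 260613355) (nat_lit 76) (nat_lit 1744665565) (nat_lit 152) (nat_lit 47770225925) (nat_lit 2) (nat_lit 5) (nat_lit 3) (nat_lit 5) (nat_lit 4) (nat_lit 4) (nat_lit 312) (nat_lit 212) (nat_lit 196))))))))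
noncomputable def xc34 : XT := (XT.nd (nat_lit 1326) (nat_lit 76) (nat_lit 0) (XT.nd (nat_lit 624) (nat_lit 0) (nat_lit 0) (XT.nd (nat_lit 312) (nat_lit 0) (nat_lit 0) (XT.nd (nat_lit 156) (nat_lit 0) (nat_lit 0) (XT.nd (nat_lit 78) (nat_lit 0) (nat_lit 0) (XT.lf (nat_lit 0) (nat_lit 4128958407) (nat_lit 152) (nat_lit 47699163650) (nat_lit 0) (nat_lit 314476039) (nat_lit 2) (nat_lit 5) (nat_lit 4) (nat_lit 4) (nat_lit 2) (nat_lit 4) (nat_lit 313) (nat_lit 212) (nat_lit 195)) (XT.lf (nat_lit 0) (nat_lit 6333681929) (nat_lit 152) (nat_lit 45917090125) (nat_lit 0) (nat_lit 2378611757) (nat_lit 2) (nat_lit 5) (nat_lit 4) (nat_lit 4) (nat_lit 2) (nat_lit 4) (nat_lit 314) (nat_lit 212) (nat_lit 194))) (XT.nd (nat_lit 78) (nat_lit 0) (nat_lit 0) (XT.lf (nat_lit 0) (nat_lit 8597459709) (nat_lit 152) (nat_lit 44137188765) (nat_lit 0) (nat_lit 4508496391) (nat_lit 2) (nat_lit 5) (nat_lit 4)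 (nat_lit 4) (nat_lit 2) (nat_lit 4) (nat_lit 315) (nat_lit 212) (nat_lit 193)) (XT.lf (nat_lit 0) (nat_lit 10925681696) (nat_lit 152) (nat_lit 42355221708) (nat_lit 0) (nat_lit 6709201096) (nat_lit 2) (nat_lit 5) (nat_lit 4) (nat_lit 4) (nat_lit 2) (nat_lit 4) (nat_lit 316) (nat_lit 212) (nat_lit 192)))) (XT.nd (nat_lit 156) (nat_lit 0) (nat_lit 0) (XT.nd (nat_lit 78) (nat_lit 0) (nat_lit 0) (XT.lf (nat_lit 0) (nat_lit 13323891273) (nat_lit 152) (nat_lit 40566946177) (nat_lit 0) (nat_lit 8985965643) (nat_lit 2) (nat_lit 5) (nat_lit 4) (nat_lit 4) (nat_lit 2) (nat_lit 4) (nat_lit 317) (nat_lit 212) (nat_lit 191)) (XT.lf (nat_lit 0) (nat_lit 15797798465) (nat_lit 152) (nat_lit 38768104372) (nat_lit 0) (nat_lit 11344210900) (nat_lit 2) (nat_lit 5) (nat_lit 4) (nat_lit 4) (nat_lit 2) (nat_lit 4) (nat_lit 318) (nat_lit 212) (nat_lit 190))) (XT.nd (nat_lit 78) (nat_lit 0) (nat_lit 0) (XT.lf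 (nat_lit 0) (nat_lit 18353293527) (nat_lit 152) (nat_lit 36954413337) (nat_lit 0) (nat_lit 13789551739) (nat_lit 2) (nat_lit 5) (nat_lit 4) (nat_lit 4) (nat_lit 2) (nat_lit 4) (nat_lit 319) (nat_lit 212) (nat_lit 189)) (XT.lf (nat_lit 0) (nat_lit 20996460969) (nat_lit 152) (nat_lit 35121554760) (nat_lit 0) (nat_lit 16327810398) (nat_lit 2) (nat_lit 5) (nat_lit 4) (nat_lit 4) (nat_lit 2) (nat_lit 4) (nat_lit 320) (nat_lit 212) (nat_lit 188))))) (XT.nd (nat_lit 312) (nat_lit 0) (nat_lit 0) (XT.nd (nat_lit 156) (nat_lit 0) (nat_lit 0) (XT.nd (nat_lit 78) (nat_lit 0) (nat_lit 0) (XT.lf (nat_lit 0) (nat_lit 23733594049) (nat_lit 152) (nat_lit 33265164691) (nat_lit 0) (nat_lit 18965030351) (nat_lit 2) (nat_lit 5) (nat_lit 4) (nat_lit 4) (nat_lit 2) (nat_lit 4) (nat_lit 321) (nat_lit 212) (nat_lit 187)) (XT.lf (nat_lit 0) (nat_lit 26571209750) (nat_lit 152) (nat_lit 31380823154) (nat_lit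 0) (nat_lit 21707490693) (nat_lit 2) (nat_lit 5) (nat_lit 4) (nat_lit 4) (nat_lit 2) (nat_lit 4) (nat_lit 322) (nat_lit 212) (nat_lit 186))) (XT.nd (nat_lit 78) (nat_lit 0) (nat_lit 0) (XT.lf (nat_lit 0) (nat_lit 29516064300) (nat_lit 152) (nat_lit 29464043623) (nat_lit 0) (nat_lit 24561721091) (nat_lit 2) (nat_lit 5) (nat_lit 4) (nat_lit 4) (nat_lit 2) (nat_lit 4) (nat_lit 323) (nat_lit 212) (nat_lit 185)) (XT.lf (nat_lit 0) (nat_lit 32575169257) (nat_lit 152) (nat_lit 27510262335) (nat_lit 0) (nat_lit 27534517331) (nat_lit 2) (nat_lit 5) (nat_lit 4) (nat_lit 4) (nat_lit 2) (nat_lit 4) (nat_lit 324) (nat_lit 212) (nat_lit 184)))) (XT.nd (nat_lit 156) (nat_lit 0) (nat_lit 0) (XT.nd (nat_lit 78) (nat_lit 0) (nat_lit 0) (XT.lf (nat_lit 0) (nat_lit 35755808204) (nat_lit 152) (nat_lit 25514827432) (nat_lit 0) (nat_lit 30632957501) (nat_lit 2) (nat_lit 5) (nat_lit 4) (nat_lit 4) (nat_lit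 2) (nat_lit 4) (nat_lit 325) (nat_lit 212) (nat_lit 183)) (XT.lf (nat_lit 0) (nat_lit 39065554091) (nat_lit 152) (nat_lit 23472987876) (nat_lit 0) (nat_lit 33864418839) (nat_lit 2) (nat_lit 5) (nat_lit 4) (nat_lit 4) (nat_lit 2) (nat_lit 4) (nat_lit 326) (nat_lit 212) (nat_lit 182))) (XT.nd (nat_lit 78) (nat_lit 0) (nat_lit 0) (XT.lf (nat_lit 0) (nat_lit 42512287266) (nat_lit 152) (nat_lit 21379882147) (nat_lit 0) (nat_lit 37236595300) (nat_lit 2) (nat_lit 5) (nat_lit 4) (nat_lit 4) (nat_lit 2) (nat_lit 4) (nat_lit 327) (nat_lit 212) (nat_lit 181)) (XT.nd (nat_lit 78) (nat_lit 0) (nat_lit 0) (XT.lf (nat_lit 0) (nat_lit 46104214236) (nat_lit 152) (nat_lit 19230526658) (nat_lit 0) (nat_lit 40757515876) (nat_lit 2) (nat_lit 5) (nat_lit 4) (nat_lit 4) (nat_lit 2) (nat_lit 4) (nat_lit 328) (nat_lit 212) (nat_lit 180)) (XT.lf (nat_lit 0) (nat_lit 49849887209) (nat_lit 152) (nat_lit 17019803896)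 (nat_lit 0) (nat_lit 44435563711) (nat_lit 2) (nat_lit 5) (nat_lit 4) (nat_lit 4) (nat_lit 2) (nat_lit 4) (nat_lit 329) (nat_lit 212) (nat_lit 179))))))) (XT.nd (nat_lit 624) (nat_lit 0) (nat_lit 0) (XT.nd (nat_lit 312) (nat_lit 76) (nat_lit 0) (XT.nd (nat_lit 156) (nat_lit 0) (nat_lit 0) (XT.nd (nat_lit 78) (nat_lit 0) (nat_lit 0) (XT.lf (nat_lit 0) (nat_lit 53758224452) (nat_lit 152) (nat_lit 14742450237) (nat_lit 0) (nat_lit 48279496062) (nat_lit 2) (nat_lit 5) (nat_lit 4) (nat_lit 4) (nat_lit 2) (nat_lit 4) (nat_lit 330) (nat_lit 212) (nat_lit 178)) (XT.lf (nat_lit 0) (nat_lit 57838531532) (nat_lit 152) (nat_lit 12393043408) (nat_lit 0) (nat_lit 52298465149) (nat_lit 2) (nat_lit 5) (nat_lit 4) (nat_lit 4) (nat_lit 2) (nat_lit 4) (nat_lit 331) (nat_lit 212) (nat_lit 177))) (XT.nd (nat_lit 78) (nat_lit 0) (nat_lit 0) (XT.lf (nat_lit 0) (nat_lit 62100523464) (nat_lit 152) (nat_lit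 9965989586) (nat_lit 0) (nat_lit 56502039945) (nat_lit 2) (nat_lit 5) (nat_lit 4) (nat_lit 4) (nat_lit 2) (nat_lit 4) (nat_lit 332) (nat_lit 212) (nat_lit 176)) (XT.lf (nat_lit 0) (nat_lit 66554347850) (nat_lit 152) (nat_lit 7455510069) (nat_lit 0) (nat_lit 60900228963) (nat_lit 2) (nat_lit 5) (nat_lit 4) (nat_lit 4) (nat_lit 2) (nat_lit 4) (nat_lit 333) (nat_lit 212) (nat_lit 175)))) (XT.nd (nat_lit 156) (nat_lit 76) (nat_lit 0) (XT.nd (nat_lit 78) (nat_lit 0) (nat_lit 0) (XT.lf (nat_lit 0) (nat_lit 71210609032) (nat_lit 152) (nat_lit 4855627525) (nat_lit 0) (nat_lit 65503504080) (nat_lit 2) (nat_lit 5) (nat_lit 4) (nat_lit 4) (nat_lit 2) (nat_lit 4) (nat_lit 334) (nat_lit 212) (nat_lit 174)) (XT.lf (nat_lit 0) (nat_lit 76080393346) (nat_lit 152) (nat_lit 2160151759) (nat_lit 0) (nat_lit 70322825476) (nat_lit 2) (nat_lit 5) (nat_lit 4) (nat_lit 4) (nat_lit 2) (nat_lit 4) (nat_lit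 335) (nat_lit 212) (nat_lit 173))) (XT.nd (nat_lit 78) (nat_lit 0) (nat_lit 0) (XT.lf (nat_lit 0) (nat_lit 658408202) (nat_lit 76) (nat_lit 80527166913) (nat_lit 76) (nat_lit 74721539119) (nat_lit 1) (nat_lit 4) (nat_lit 2) (nat_lit 5) (nat_lit 2) (nat_lit 4) (nat_lit 336) (nat_lit 212) (nat_lit 172)) (XT.lf (nat_lit 0) (nat_lit 3660657420) (nat_lit 76) (nat_lit 82903941967) (nat_lit 76) (nat_lit 77052542820) (nat_lit 1) (nat_lit 4) (nat_lit 2) (nat_lit 5) (nat_lit 2) (nat_lit 4) (nat_lit 337) (nat_lit 212) (nat_lit 171))))) (XT.nd (nat_lit 312) (nat_lit 0) (nat_lit 0) (XT.nd (nat_lit 156) (nat_lit 0) (nat_lit 0) (XT.nd (nat_lit 78) (nat_lit 0) (nat_lit 0) (XT.lf (nat_lit 0) (nat_lit 6782319733) (nat_lit 76) (nat_lit 85413112474) (nat_lit 76) (nat_lit 79518121560) (nat_lit 1) (nat_lit 4) (nat_lit 2) (nat_lit 5) (nat_lit 2) (nat_lit 4) (nat_lit 338) (nat_lit 212) (nat_lit 170)) (XT.lf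 (nat_lit 0) (nat_lit 10030827669) (nat_lit 76) (nat_lit 88060652648) (nat_lit 76) (nat_lit 82124145766) (nat_lit 1) (nat_lit 4) (nat_lit 2) (nat_lit 5) (nat_lit 2) (nat_lit 4) (nat_lit 339) (nat_lit 212) (nat_lit 169))) (XT.nd (nat_lit 78) (nat_lit 0) (nat_lit 0) (XT.lf (nat_lit 0) (nat_lit 13413915773) (nat_lit 76) (nat_lit 90852866157) (nat_lit 76) (nat_lit 84876820257) (nat_lit 1) (nat_lit 4) (nat_lit 2) (nat_lit 5) (nat_lit 2) (nat_lit 4) (nat_lit 340) (nat_lit 212) (nat_lit 168)) (XT.lf (nat_lit 0) (nat_lit 16939639015) (nat_lit 76) (nat_lit 93796401128) (nat_lit 76) (nat_lit 87782699021) (nat_lit 1) (nat_lit 4) (nat_lit 2) (nat_lit 5) (nat_lit 2) (nat_lit 4) (nat_lit 341) (nat_lit 212) (nat_lit 167)))) (XT.nd (nat_lit 156) (nat_lit 0) (nat_lit 0) (XT.nd (nat_lit 78) (nat_lit 0) (nat_lit 0) (XT.lf (nat_lit 0) (nat_lit 20616391975) (nat_lit 76) (nat_lit 96898265977) (nat_lit 76)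 (nat_lit 90848700816) (nat_lit 1) (nat_lit 4) (nat_lit 2) (nat_lit 5) (nat_lit 2) (nat_lit 4) (nat_lit 342) (nat_lit 212) (nat_lit 166)) (XT.lf (nat_lit 0) (nat_lit 24452928826) (nat_lit 76) (nat_lit 100165846097) (nat_lit 76) (nat_lit 94082125647) (nat_lit 1) (nat_lit 4) (nat_lit 2) (nat_lit 5) (nat_lit 2) (nat_lit 4) (nat_lit 343) (nat_lit 212) (nat_lit 165))) (XT.nd (nat_lit 78) (nat_lit 0) (nat_lit 0) (XT.lf (nat_lit 0) (nat_lit 28458384181) (nat_lit 76) (nat_lit 103606921441) (nat_lit 76) (nat_lit 97490672143) (nat_lit 1) (nat_lit 4) (nat_lit 2) (nat_lit 5) (nat_lit 2) (nat_lit 4) (nat_lit 344) (nat_lit 212) (nat_lit 164)) (XT.nd (nat_lit 78) (nat_lit 0) (nat_lit 0) (XT.lf (nat_lit 0) (nat_lit 32642294836) (nat_lit 76) (nat_lit 107229685045) (nat_lit 76) (nat_lit 101082455893) (nat_lit 1) (nat_lit 4) (nat_lit 2) (nat_lit 5) (nat_lit 2) (nat_lit 4) (nat_lit 345) (nat_lit 212) (nat_lit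 163)) (XT.lf (nat_lit 0) (nat_lit 37014622485) (nat_lit 76) (nat_lit 111042762537) (nat_lit 76) (nat_lit 104866028761) (nat_lit 1) (nat_lit 4) (nat_lit 2) (nat_lit 5) (nat_lit 2) (nat_lit 4) (nat_lit 346) (nat_lit 212) (nat_lit 162))))))))
noncomputable def xc35 : XT := (XT.nd (nat_lit 33384) (nat_lit 0) (nat_lit 228) (XT.nd (nat_lit 624) (nat_lit 0) (nat_lit 0) (XT.nd (nat_lit 312) (nat_lit 0) (nat_lit 0) (XT.nd (nat_lit 156) (nat_lit 0) (nat_lit 0) (XT.nd (nat_lit 78) (nat_lit 0) (nat_lit 0) (XT.lf (nat_lit 0) (nat_lit 41585777432) (nat_lit 76) (nat_lit 115055232673) (nat_lit 76) (nat_lit 108850399256) (nat_lit 1) (nat_lit 4) (nat_lit 2) (nat_lit 5) (nat_lit 2) (nat_lit 4) (nat_lit 347) (nat_lit 212) (nat_lit 161)) (XT.lf (nat_lit 0) (nat_lit 46366643378) (nat_lit 76) (nat_lit 119276648952) (nat_lit 76) (nat_lit 113045053972) (nat_lit 1) (nat_lit 4) (nat_lit 2) (nat_lit 5) (nat_lit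 2) (nat_lit 4) (nat_lit 348) (nat_lit 212) (nat_lit 160))) (XT.nd (nat_lit 78) (nat_lit 0) (nat_lit 0) (XT.lf (nat_lit 0) (nat_lit 51368603338) (nat_lit 76) (nat_lit 123717062367) (nat_lit 76) (nat_lit 117459980184) (nat_lit 1) (nat_lit 4) (nat_lit 2) (nat_lit 5) (nat_lit 2) (nat_lit 4) (nat_lit 349) (nat_lit 212) (nat_lit 159)) (XT.lf (nat_lit 0) (nat_lit 56603566740) (nat_lit 76) (nat_lit 128387045330) (nat_lit 76) (nat_lit 122105689621) (nat_lit 1) (nat_lit 4) (nat_lit 2) (nat_lit 5) (nat_lit 2) (nat_lit 4) (nat_lit 350) (nat_lit 212) (nat_lit 158)))) (XT.nd (nat_lit 156) (nat_lit 0) (nat_lit 0) (XT.nd (nat_lit 78) (nat_lit 0) (nat_lit 0) (XT.lf (nat_lit 0) (nat_lit 62083997783) (nat_lit 76) (nat_lit 133297716849) (nat_lit 76) (nat_lit 126993243494) (nat_lit 1) (nat_lit 4) (nat_lit 2) (nat_lit 5) (nat_lit 2) (nat_lit 4) (nat_lit 351) (nat_lit 212) (nat_lit 157)) (XT.lf (nat_lit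 0) (nat_lit 67822945113) (nat_lit 76) (nat_lit 138460768997) (nat_lit 76) (nat_lit 132134278839) (nat_lit 1) (nat_lit 4) (nat_lit 2) (nat_lit 5) (nat_lit 2) (nat_lit 4) (nat_lit 352) (nat_lit 212) (nat_lit 156))) (XT.nd (nat_lit 78) (nat_lit 0) (nat_lit 0) (XT.lf (nat_lit 0) (nat_lit 73834072888) (nat_lit 76) (nat_lit 143888494757) (nat_lit 76) (nat_lit 137541036214) (nat_lit 1) (nat_lit 4) (nat_lit 2) (nat_lit 5) (nat_lit 2) (nat_lit 4) (nat_lit 353) (nat_lit 212) (nat_lit 155)) (XT.lf (nat_lit 0) (nat_lit 80131693320) (nat_lit 76) (nat_lit 149593817286) (nat_lit 76) (nat_lit 143226388852) (nat_lit 1) (nat_lit 4) (nat_lit 2) (nat_lit 5) (nat_lit 2) (nat_lit 4) (nat_lit 354) (nat_lit 212) (nat_lit 154))))) (XT.nd (nat_lit 312) (nat_lit 0) (nat_lit 0) (XT.nd (nat_lit 156) (nat_lit 0) (nat_lit 0) (XT.nd (nat_lit 78) (nat_lit 0) (nat_lit 0) (XT.lf (nat_lit 0) (nat_lit 86730800741) (nat_lit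 76) (nat_lit 155590320683) (nat_lit 76) (nat_lit 149203873306) (nat_lit 1) (nat_lit 4) (nat_lit 2) (nat_lit 5) (nat_lit 2) (nat_lit 4) (nat_lit 355) (nat_lit 212) (nat_lit 153)) (XT.lf (nat_lit 0) (nat_lit 93647107312) (nat_lit 76) (nat_lit 161892282339) (nat_lit 76) (nat_lit 155487721682) (nat_lit 1) (nat_lit 4) (nat_lit 2) (nat_lit 5) (nat_lit 2) (nat_lit 4) (nat_lit 356) (nat_lit 212) (nat_lit 152))) (XT.nd (nat_lit 78) (nat_lit 0) (nat_lit 0) (XT.lf (nat_lit 0) (nat_lit 100897080431) (nat_lit 76) (nat_lit 168514706924) (nat_lit 76) (nat_lit 162092895525) (nat_lit 1) (nat_lit 4) (nat_lit 2) (nat_lit 5) (nat_lit 2) (nat_lit 4) (nat_lit 357) (nat_lit 212) (nat_lit 151)) (XT.lf (nat_lit 0) (nat_lit 108497981937) (nat_lit 76) (nat_lit 175473362116) (nat_lit 76) (nat_lit 169035121438) (nat_lit 1) (nat_lit 4) (nat_lit 2) (nat_lit 5) (nat_lit 2) (nat_lit 4) (nat_lit 358) (nat_lit 212)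 (nat_lit 150)))) (XT.nd (nat_lit 156) (nat_lit 0) (nat_lit 0) (XT.nd (nat_lit 78) (nat_lit 0) (nat_lit 0) (XT.lf (nat_lit 0) (nat_lit 116467909215) (nat_lit 76) (nat_lit 182784816141) (nat_lit 76) (nat_lit 176330928531) (nat_lit 1) (nat_lit 4) (nat_lit 2) (nat_lit 5) (nat_lit 2) (nat_lit 4) (nat_lit 359) (nat_lit 212) (nat_lit 149)) (XT.lf (nat_lit 0) (nat_lit 124825838283) (nat_lit 76) (nat_lit 190466477222) (nat_lit 76) (nat_lit 183997687774) (nat_lit 1) (nat_lit 4) (nat_lit 2) (nat_lit 5) (nat_lit 2) (nat_lit 4) (nat_lit 360) (nat_lit 212) (nat_lit 148))) (XT.nd (nat_lit 78) (nat_lit 0) (nat_lit 0) (XT.lf (nat_lit 0) (nat_lit 133591668972) (nat_lit 76) (nat_lit 198536635031) (nat_lit 76) (nat_lit 192053653354) (nat_lit 1) (nat_lit 4) (nat_lit 2) (nat_lit 5) (nat_lit 2) (nat_lit 4) (nat_lit 361) (nat_lit 212) (nat_lit 147)) (XT.nd (nat_lit 78) (nat_lit 0) (nat_lit 0) (XT.lf (nat_lit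 0) (nat_lit 142786272307) (nat_lit 76) (nat_lit 207014504227) (nat_lit 76) (nat_lit 200518006142) (nat_lit 1) (nat_lit 4) (nat_lit 2) (nat_lit 5) (nat_lit 2) (nat_lit 4) (nat_lit 362) (nat_lit 212) (nat_lit 146)) (XT.lf (nat_lit 0) (nat_lit 152431540201) (nat_lit 76) (nat_lit 215920270214) (nat_lit 76) (nat_lit 209410899359) (nat_lit 1) (nat_lit 4) (nat_lit 2) (nat_lit 5) (nat_lit 2) (nat_lit 4) (nat_lit 363) (nat_lit 212) (nat_lit 145))))))) (XT.nd (nat_lit 702) (nat_lit 76) (nat_lit 0) (XT.nd (nat_lit 312) (nat_lit 152) (nat_lit 0) (XT.nd (nat_lit 156) (nat_lit 0) (nat_lit 0) (XT.nd (nat_lit 78) (nat_lit 0) (nat_lit 0) (XT.lf (nat_lit 0) (nat_lit 2482129329) (nat_lit 76) (nat_lit 4374481102) (nat_lit 76) (nat_lit 4374481102) (nat_lit 7) (nat_lit 4) (nat_lit 8) (nat_lit 5) (nat_lit 8) (nat_lit 4) (nat_lit 294) (nat_lit 213) (nat_lit 213)) (XT.lf (nat_lit 0) (nat_lit 11019491117) (nat_lit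 76) (nat_lit 6381328793) (nat_lit 76) (nat_lit 6008307496) (nat_lit 7) (nat_lit 4) (nat_lit 8) (nat_lit 5) (nat_lit 8) (nat_lit 4) (nat_lit 295) (nat_lit 213) (nat_lit 212))) (XT.nd (nat_lit 78) (nat_lit 0) (nat_lit 0) (XT.lf (nat_lit 0) (nat_lit 17194622064) (nat_lit 76) (nat_lit 3971312003) (nat_lit 76) (nat_lit 3243032329) (nat_lit 7) (nat_lit 4) (nat_lit 8) (nat_lit 5) (nat_lit 8) (nat_lit 4) (nat_lit 296) (nat_lit 213) (nat_lit 211)) (XT.lf (nat_lit 0) (nat_lit 23504354192) (nat_lit 76) (nat_lit 1513173699) (nat_lit 76) (nat_lit 446552713) (nat_lit 7) (nat_lit 4) (nat_lit 8) (nat_lit 5) (nat_lit 8) (nat_lit 4) (nat_lit 297) (nat_lit 213) (nat_lit 210)))) (XT.nd (nat_lit 156) (nat_lit 0) (nat_lit 0) (XT.nd (nat_lit 78) (nat_lit 0) (nat_lit 0) (XT.lf (nat_lit 0) (nat_lit 2382481829) (nat_lit 152) (nat_lit 23129313781) (nat_lit 0) (nat_lit 1059766774) (nat_lit 5) (nat_lit 5) (nat_lit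 7) (nat_lit 4) (nat_lit 5) (nat_lit 4) (nat_lit 298) (nat_lit 213) (nat_lit 209)) (XT.lf (nat_lit 0) (nat_lit 5298809052) (nat_lit 152) (nat_lit 18753546711) (nat_lit 0) (nat_lit 3683822050) (nat_lit 5) (nat_lit 5) (nat_lit 7) (nat_lit 4) (nat_lit 5) (nat_lit 4) (nat_lit 299) (nat_lit 213) (nat_lit 208))) (XT.nd (nat_lit 78) (nat_lit 0) (nat_lit 0) (XT.lf (nat_lit 0) (nat_lit 8267913521) (nat_lit 152) (nat_lit 14321350150) (nat_lit 0) (nat_lit 6374572285) (nat_lit 5) (nat_lit 5) (nat_lit 7) (nat_lit 4) (nat_lit 5) (nat_lit 4) (nat_lit 300) (nat_lit 213) (nat_lit 207)) (XT.nd (nat_lit 78) (nat_lit 0) (nat_lit 0) (XT.lf (nat_lit 0) (nat_lit 11296864535) (nat_lit 152) (nat_lit 9822171250) (nat_lit 0) (nat_lit 9138424027) (nat_lit 5) (nat_lit 5) (nat_lit 7) (nat_lit 4) (nat_lit 5) (nat_lit 4) (nat_lit 301) (nat_lit 213) (nat_lit 206)) (XT.lf (nat_lit 0) (nat_lit 14392873880) (nat_lit 152)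 (nat_lit 5245297680) (nat_lit 0) (nat_lit 11981957875) (nat_lit 5) (nat_lit 5) (nat_lit 7) (nat_lit 4) (nat_lit 5) (nat_lit 4) (nat_lit 302) (nat_lit 213) (nat_lit 205)))))) (XT.nd (nat_lit 312) (nat_lit 0) (nat_lit 0) (XT.nd (nat_lit 156) (nat_lit 0) (nat_lit 0) (XT.nd (nat_lit 78) (nat_lit 76) (nat_lit 0) (XT.lf (nat_lit 0) (nat_lit 17563313007) (nat_lit 152) (nat_lit 579832122) (nat_lit 0) (nat_lit 14911944149) (nat_lit 5) (nat_lit 5) (nat_lit 7) (nat_lit 4) (nat_lit 5) (nat_lit 4) (nat_lit 303) (nat_lit 213) (nat_lit 204)) (XT.lf (nat_lit 0) (nat_lit 4323719708) (nat_lit 76) (nat_lit 16559516255) (nat_lit 76) (nat_lit 13679144679) (nat_lit 4) (nat_lit 4) (nat_lit 5) (nat_lit 5) (nat_lit 5) (nat_lit 4) (nat_lit 304) (nat_lit 213) (nat_lit 203))) (XT.nd (nat_lit 78) (nat_lit 0) (nat_lit 0) (XT.lf (nat_lit 0) (nat_lit 9361160957) (nat_lit 76) (nat_lit 14942863454) (nat_lit 76) (nat_lit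 11844394052) (nat_lit 4) (nat_lit 4) (nat_lit 5) (nat_lit 5) (nat_lit 5) (nat_lit 4) (nat_lit 305) (nat_lit 213) (nat_lit 202)) (XT.lf (nat_lit 0) (nat_lit 14525313664) (nat_lit 76) (nat_lit 13299157291) (nat_lit 76) (nat_lit 9992975672) (nat_lit 4) (nat_lit 4) (nat_lit 5) (nat_lit 5) (nat_lit 5) (nat_lit 4) (nat_lit 306) (nat_lit 213) (nat_lit 201)))) (XT.nd (nat_lit 156) (nat_lit 0) (nat_lit 0) (XT.nd (nat_lit 78) (nat_lit 0) (nat_lit 0) (XT.lf (nat_lit 0) (nat_lit 19828473431) (nat_lit 76) (nat_lit 11624484178) (nat_lit 76) (nat_lit 8120481402) (nat_lit 4) (nat_lit 4) (nat_lit 5) (nat_lit 5) (nat_lit 5) (nat_lit 4) (nat_lit 307) (nat_lit 213) (nat_lit 200)) (XT.lf (nat_lit 0) (nat_lit 25283266828) (nat_lit 76) (nat_lit 9914856800) (nat_lit 76) (nat_lit 6222452921) (nat_lit 4) (nat_lit 4) (nat_lit 5) (nat_lit 5) (nat_lit 5) (nat_lit 4) (nat_lit 308) (nat_lit 213) (nat_lit 199)))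 (XT.nd (nat_lit 78) (nat_lit 0) (nat_lit 0) (XT.lf (nat_lit 0) (nat_lit 30902681459) (nat_lit 76) (nat_lit 8166204615) (nat_lit 76) (nat_lit 4294371115) (nat_lit 4) (nat_lit 4) (nat_lit 5) (nat_lit 5) (nat_lit 5) (nat_lit 4) (nat_lit 309) (nat_lit 213) (nat_lit 198)) (XT.nd (nat_lit 78) (nat_lit 0) (nat_lit 0) (XT.lf (nat_lit 0) (nat_lit 36700096882) (nat_lit 76) (nat_lit 6374364165) (nat_lit 76) (nat_lit 2331645311) (nat_lit 4) (nat_lit 4) (nat_lit 5) (nat_lit 5) (nat_lit 5) (nat_lit 4) (nat_lit 310) (nat_lit 213) (nat_lit 197)) (XT.lf (nat_lit 0) (nat_lit 42689316469) (nat_lit 76) (nat_lit 4535069164) (nat_lit 76) (nat_lit 329602353) (nat_lit 4) (nat_lit 4) (nat_lit 5) (nat_lit 5) (nat_lit 5) (nat_lit 4) (nat_lit 311) (nat_lit 213) (nat_lit 196))))))))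
noncomputable def xc36 : XT := (XT.nd (nat_lit 1326) (nat_lit 76) (nat_lit 0) (XT.nd (nat_lit 624) (nat_lit 0) (nat_lit 0) (XT.nd (nat_lit 312) (nat_lit 0) (nat_lit 0) (XT.nd (nat_lit 156) (nat_lit 0) (nat_lit 0) (XT.nd (nat_lit 78) (nat_lit 76) (nat_lit 0) (XT.lf (nat_lit 0) (nat_lit 1661585021) (nat_lit 152) (nat_lit 954215570) (nat_lit 76) (nat_lit 47194875496) (nat_lit 3) (nat_lit 5) (nat_lit 5) (nat_lit 5) (nat_lit 4) (nat_lit 4) (nat_lit 312) (nat_lit 213) (nat_lit 195)) (XT.lf (nat_lit 0) (nat_lit 3156654861) (nat_lit 76) (nat_lit 582241196) (nat_lit 152) (nat_lit 48441231120) (nat_lit 2) (nat_lit 5) (nat_lit 3) (nat_lit 5) (nat_lit 4) (nat_lit 4) (nat_lit 313) (nat_lit 213) (nat_lit 194))) (XT.nd (nat_lit 78) (nat_lit 0) (nat_lit 0) (XT.lf (nat_lit 0) (nat_lit 5909562374) (nat_lit 152) (nat_lit 47276833175) (nat_lit 0) (nat_lit 1482257744) (nat_lit 2) (nat_lit 5) (nat_lit 4)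 (nat_lit 4) (nat_lit 2) (nat_lit 4) (nat_lit 314) (nat_lit 213) (nat_lit 193)) (XT.lf (nat_lit 0) (nat_lit 8149562260) (nat_lit 152) (nat_lit 45539336386) (nat_lit 0) (nat_lit 3594740348) (nat_lit 2) (nat_lit 5) (nat_lit 4) (nat_lit 4) (nat_lit 2) (nat_lit 4) (nat_lit 315) (nat_lit 213) (nat_lit 192)))) (XT.nd (nat_lit 156) (nat_lit 0) (nat_lit 0) (XT.nd (nat_lit 78) (nat_lit 0) (nat_lit 0) (XT.lf (nat_lit 0) (nat_lit 10455138633) (nat_lit 152) (nat_lit 43797754636) (nat_lit 0) (nat_lit 5778871690) (nat_lit 2) (nat_lit 5) (nat_lit 4) (nat_lit 4) (nat_lit 2) (nat_lit 4) (nat_lit 316) (nat_lit 213) (nat_lit 191)) (XT.lf (nat_lit 0) (nat_lit 12831780960) (nat_lit 152) (nat_lit 42047941301) (nat_lit 0) (nat_lit 8039852083) (nat_lit 2) (nat_lit 5) (nat_lit 4) (nat_lit 4) (nat_lit 2) (nat_lit 4) (nat_lit 317) (nat_lit 213) (nat_lit 190))) (XT.nd (nat_lit 78) (nat_lit 0) (nat_lit 0) (XT.lf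 (nat_lit 0) (nat_lit 15285147912) (nat_lit 152) (nat_lit 40285730160) (nat_lit 0) (nat_lit 10383064813) (nat_lit 2) (nat_lit 5) (nat_lit 4) (nat_lit 4) (nat_lit 2) (nat_lit 4) (nat_lit 318) (nat_lit 213) (nat_lit 189)) (XT.lf (nat_lit 0) (nat_lit 17821080841) (nat_lit 152) (nat_lit 38506925471) (nat_lit 0) (nat_lit 12814088958) (nat_lit 2) (nat_lit 5) (nat_lit 4) (nat_lit 4) (nat_lit 2) (nat_lit 4) (nat_lit 319) (nat_lit 213) (nat_lit 188))))) (XT.nd (nat_lit 312) (nat_lit 0) (nat_lit 0) (XT.nd (nat_lit 156) (nat_lit 0) (nat_lit 0) (XT.nd (nat_lit 78) (nat_lit 0) (nat_lit 0) (XT.lf (nat_lit 0) (nat_lit 20445617682) (nat_lit 152) (nat_lit 36707291985) (nat_lit 0) (nat_lit 15338712671) (nat_lit 2) (nat_lit 5) (nat_lit 4) (nat_lit 4) (nat_lit 2) (nat_lit 4) (nat_lit 320) (nat_lit 213) (nat_lit 187)) (XT.lf (nat_lit 0) (nat_lit 23165007331) (nat_lit 152) (nat_lit 34882544860) (nat_lit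 0) (nat_lit 17962946961) (nat_lit 2) (nat_lit 5) (nat_lit 4) (nat_lit 4) (nat_lit 2) (nat_lit 4) (nat_lit 321) (nat_lit 213) (nat_lit 186))) (XT.nd (nat_lit 78) (nat_lit 0) (nat_lit 0) (XT.lf (nat_lit 0) (nat_lit 25985724526) (nat_lit 152) (nat_lit 33028339461) (nat_lit 0) (nat_lit 20693040005) (nat_lit 2) (nat_lit 5) (nat_lit 4) (nat_lit 4) (nat_lit 2) (nat_lit 4) (nat_lit 322) (nat_lit 213) (nat_lit 185)) (XT.lf (nat_lit 0) (nat_lit 28914485261) (nat_lit 152) (nat_lit 31140261013) (nat_lit 0) (nat_lit 23535492024) (nat_lit 2) (nat_lit 5) (nat_lit 4) (nat_lit 4) (nat_lit 2) (nat_lit 4) (nat_lit 323) (nat_lit 213) (nat_lit 184)))) (XT.nd (nat_lit 156) (nat_lit 0) (nat_lit 0) (XT.nd (nat_lit 78) (nat_lit 0) (nat_lit 0) (XT.lf (nat_lit 0) (nat_lit 31958262775) (nat_lit 152) (nat_lit 29213814090) (nat_lit 0) (nat_lit 26497070761) (nat_lit 2) (nat_lit 5) (nat_lit 4) (nat_lit 4) (nat_lit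 2) (nat_lit 4) (nat_lit 324) (nat_lit 213) (nat_lit 183)) (XT.lf (nat_lit 0) (nat_lit 35124304158) (nat_lit 152) (nat_lit 27244411915) (nat_lit 0) (nat_lit 29584827594) (nat_lit 2) (nat_lit 5) (nat_lit 4) (nat_lit 4) (nat_lit 2) (nat_lit 4) (nat_lit 325) (nat_lit 213) (nat_lit 182))) (XT.nd (nat_lit 78) (nat_lit 0) (nat_lit 0) (XT.lf (nat_lit 0) (nat_lit 38420147603) (nat_lit 152) (nat_lit 25227365435) (nat_lit 0) (nat_lit 32806114325) (nat_lit 2) (nat_lit 5) (nat_lit 4) (nat_lit 4) (nat_lit 2) (nat_lit 4) (nat_lit 326) (nat_lit 213) (nat_lit 181)) (XT.nd (nat_lit 78) (nat_lit 0) (nat_lit 0) (XT.lf (nat_lit 0) (nat_lit 41853640357) (nat_lit 152) (nat_lit 23157872158) (nat_lit 0) (nat_lit 36168600684) (nat_lit 2) (nat_lit 5) (nat_lit 4) (nat_lit 4) (nat_lit 2) (nat_lit 4) (nat_lit 327) (nat_lit 213) (nat_lit 180)) (XT.lf (nat_lit 0) (nat_lit 45432957402) (nat_lit 152) (nat_lit 21031004718)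 (nat_lit 0) (nat_lit 39680292592) (nat_lit 2) (nat_lit 5) (nat_lit 4) (nat_lit 4) (nat_lit 2) (nat_lit 4) (nat_lit 328) (nat_lit 213) (nat_lit 179))))))) (XT.nd (nat_lit 624) (nat_lit 76) (nat_lit 0) (XT.nd (nat_lit 312) (nat_lit 0) (nat_lit 0) (XT.nd (nat_lit 156) (nat_lit 0) (nat_lit 0) (XT.nd (nat_lit 78) (nat_lit 0) (nat_lit 0) (XT.lf (nat_lit 0) (nat_lit 49166620922) (nat_lit 152) (nat_lit 18841699147) (nat_lit 0) (nat_lit 43349551219) (nat_lit 2) (nat_lit 5) (nat_lit 4) (nat_lit 4) (nat_lit 2) (nat_lit 4) (nat_lit 329) (nat_lit 213) (nat_lit 178)) (XT.lf (nat_lit 0) (nat_lit 53063520592) (nat_lit 152) (nat_lit 16584742812) (nat_lit 0) (nat_lit 47185112896) (nat_lit 2) (nat_lit 5) (nat_lit 4) (nat_lit 4) (nat_lit 2) (nat_lit 4) (nat_lit 330) (nat_lit 213) (nat_lit 177))) (XT.nd (nat_lit 78) (nat_lit 0) (nat_lit 0) (XT.lf (nat_lit 0) (nat_lit 57132934744) (nat_lit 152) (nat_lit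 14254762006) (nat_lit 0) (nat_lit 51196109912) (nat_lit 2) (nat_lit 5) (nat_lit 4) (nat_lit 4) (nat_lit 2) (nat_lit 4) (nat_lit 331) (nat_lit 213) (nat_lit 176)) (XT.lf (nat_lit 0) (nat_lit 61384552460) (nat_lit 152) (nat_lit 11846209157) (nat_lit 0) (nat_lit 55392092261) (nat_lit 2) (nat_lit 5) (nat_lit 4) (nat_lit 4) (nat_lit 2) (nat_lit 4) (nat_lit 332) (nat_lit 213) (nat_lit 175)))) (XT.nd (nat_lit 156) (nat_lit 0) (nat_lit 0) (XT.nd (nat_lit 78) (nat_lit 0) (nat_lit 0) (XT.lf (nat_lit 0) (nat_lit 65828496639) (nat_lit 152) (nat_lit 9353349616) (nat_lit 0) (nat_lit 59783050375) (nat_lit 2) (nat_lit 5) (nat_lit 4) (nat_lit 4) (nat_lit 2) (nat_lit 4) (nat_lit 333) (nat_lit 213) (nat_lit 174)) (XT.lf (nat_lit 0) (nat_lit 70475348101) (nat_lit 152) (nat_lit 6770248002) (nat_lit 0) (nat_lit 64379438918) (nat_lit 2) (nat_lit 5) (nat_lit 4) (nat_lit 4) (nat_lit 2) (nat_lit 4) (nat_lit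 334) (nat_lit 213) (nat_lit 173))) (XT.nd (nat_lit 78) (nat_lit 0) (nat_lit 0) (XT.lf (nat_lit 0) (nat_lit 75336170777) (nat_lit 152) (nat_lit 4090754073) (nat_lit 0) (nat_lit 69192201672) (nat_lit 2) (nat_lit 5) (nat_lit 4) (nat_lit 4) (nat_lit 2) (nat_lit 4) (nat_lit 335) (nat_lit 213) (nat_lit 172)) (XT.lf (nat_lit 0) (nat_lit 80422538055) (nat_lit 152) (nat_lit 1308488082) (nat_lit 0) (nat_lit 74232797595) (nat_lit 2) (nat_lit 5) (nat_lit 4) (nat_lit 4) (nat_lit 2) (nat_lit 4) (nat_lit 336) (nat_lit 213) (nat_lit 171))))) (XT.nd (nat_lit 312) (nat_lit 0) (nat_lit 0) (XT.nd (nat_lit 156) (nat_lit 0) (nat_lit 0) (XT.nd (nat_lit 78) (nat_lit 0) (nat_lit 0) (XT.lf (nat_lit 0) (nat_lit 1635521309) (nat_lit 76) (nat_lit 84136574095) (nat_lit 76) (nat_lit 77903241869) (nat_lit 1) (nat_lit 4) (nat_lit 2) (nat_lit 5) (nat_lit 2) (nat_lit 4) (nat_lit 337) (nat_lit 213) (nat_lit 170)) (XT.lf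 (nat_lit 0) (nat_lit 4742921431) (nat_lit 76) (nat_lit 86652042720) (nat_lit 76) (nat_lit 80377194525) (nat_lit 1) (nat_lit 4) (nat_lit 2) (nat_lit 5) (nat_lit 2) (nat_lit 4) (nat_lit 338) (nat_lit 213) (nat_lit 169))) (XT.nd (nat_lit 78) (nat_lit 0) (nat_lit 0) (XT.lf (nat_lit 0) (nat_lit 7977846329) (nat_lit 76) (nat_lit 89305581102) (nat_lit 76) (nat_lit 82991193890) (nat_lit 1) (nat_lit 4) (nat_lit 2) (nat_lit 5) (nat_lit 2) (nat_lit 4) (nat_lit 339) (nat_lit 213) (nat_lit 168)) (XT.lf (nat_lit 0) (nat_lit 11347998205) (nat_lit 76) (nat_lit 92103507189) (nat_lit 76) (nat_lit 85751463771) (nat_lit 1) (nat_lit 4) (nat_lit 2) (nat_lit 5) (nat_lit 2) (nat_lit 4) (nat_lit 340) (nat_lit 213) (nat_lit 167)))) (XT.nd (nat_lit 156) (nat_lit 0) (nat_lit 0) (XT.nd (nat_lit 78) (nat_lit 0) (nat_lit 0) (XT.lf (nat_lit 0) (nat_lit 14861401230) (nat_lit 76) (nat_lit 95052482711) (nat_lit 76)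 (nat_lit 88664576238) (nat_lit 1) (nat_lit 4) (nat_lit 2) (nat_lit 5) (nat_lit 2) (nat_lit 4) (nat_lit 341) (nat_lit 213) (nat_lit 166)) (XT.lf (nat_lit 0) (nat_lit 18526420650) (nat_lit 76) (nat_lit 98159529038) (nat_lit 76) (nat_lit 91737467275) (nat_lit 1) (nat_lit 4) (nat_lit 2) (nat_lit 5) (nat_lit 2) (nat_lit 4) (nat_lit 342) (nat_lit 213) (nat_lit 165))) (XT.nd (nat_lit 78) (nat_lit 0) (nat_lit 0) (XT.lf (nat_lit 0) (nat_lit 22351782702) (nat_lit 76) (nat_lit 101432043898) (nat_lit 76) (nat_lit 94977453288) (nat_lit 1) (nat_lit 4) (nat_lit 2) (nat_lit 5) (nat_lit 2) (nat_lit 4) (nat_lit 343) (nat_lit 213) (nat_lit 164)) (XT.nd (nat_lit 78) (nat_lit 0) (nat_lit 0) (XT.lf (nat_lit 0) (nat_lit 26346595389) (nat_lit 76) (nat_lit 104877818995) (nat_lit 76) (nat_lit 98392248530) (nat_lit 1) (nat_lit 4) (nat_lit 2) (nat_lit 5) (nat_lit 2) (nat_lit 4) (nat_lit 344) (nat_lit 213) (nat_lit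 163)) (XT.lf (nat_lit 0) (nat_lit 30520370172) (nat_lit 76) (nat_lit 108505058554) (nat_lit 76) (nat_lit 101989983466) (nat_lit 1) (nat_lit 4) (nat_lit 2) (nat_lit 5) (nat_lit 2) (nat_lit 4) (nat_lit 345) (nat_lit 213) (nat_lit 162))))))))
noncomputable def xc37 : XT := (XT.nd (nat_lit 1326) (nat_lit 0) (nat_lit 0) (XT.nd (nat_lit 624) (nat_lit 0) (nat_lit 0) (XT.nd (nat_lit 312) (nat_lit 0) (nat_lit 0) (XT.nd (nat_lit 156) (nat_lit 0) (nat_lit 0) (XT.nd (nat_lit 78) (nat_lit 0) (nat_lit 0) (XT.lf (nat_lit 0) (nat_lit 34883044609) (nat_lit 76) (nat_lit 112322398860) (nat_lit 76) (nat_lit 105779224131) (nat_lit 1) (nat_lit 4) (nat_lit 2) (nat_lit 5) (nat_lit 2) (nat_lit 4) (nat_lit 346) (nat_lit 213) (nat_lit 161)) (XT.lf (nat_lit 0) (nat_lit 39445006020) (nat_lit 76) (nat_lit 116338928819) (nat_lit 76) (nat_lit 109768992526) (nat_lit 1) (nat_lit 4) (nat_lit 2) (nat_lit 5) (nat_lit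 2) (nat_lit 4) (nat_lit 347) (nat_lit 213) (nat_lit 160))) (XT.nd (nat_lit 78) (nat_lit 0) (nat_lit 0) (XT.lf (nat_lit 0) (nat_lit 44217116218) (nat_lit 76) (nat_lit 120564211597) (nat_lit 76) (nat_lit 113968788101) (nat_lit 1) (nat_lit 4) (nat_lit 2) (nat_lit 5) (nat_lit 2) (nat_lit 4) (nat_lit 348) (nat_lit 213) (nat_lit 159)) (XT.lf (nat_lit 0) (nat_lit 49210737371) (nat_lit 76) (nat_lit 125008307391) (nat_lit 76) (nat_lit 118388610369) (nat_lit 1) (nat_lit 4) (nat_lit 2) (nat_lit 5) (nat_lit 2) (nat_lit 4) (nat_lit 349) (nat_lit 213) (nat_lit 158)))) (XT.nd (nat_lit 156) (nat_lit 0) (nat_lit 0) (XT.nd (nat_lit 78) (nat_lit 0) (nat_lit 0) (XT.lf (nat_lit 0) (nat_lit 54437759051) (nat_lit 76) (nat_lit 129681797382) (nat_lit 76) (nat_lit 123038982715) (nat_lit 1) (nat_lit 4) (nat_lit 2) (nat_lit 5) (nat_lit 2) (nat_lit 4) (nat_lit 350) (nat_lit 213) (nat_lit 157)) (XT.lf (nat_lit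 0) (nat_lit 59910626550) (nat_lit 76) (nat_lit 134595808927) (nat_lit 76) (nat_lit 127930977456) (nat_lit 1) (nat_lit 4) (nat_lit 2) (nat_lit 5) (nat_lit 2) (nat_lit 4) (nat_lit 351) (nat_lit 213) (nat_lit 156))) (XT.nd (nat_lit 78) (nat_lit 0) (nat_lit 0) (XT.lf (nat_lit 0) (nat_lit 65642370504) (nat_lit 76) (nat_lit 139762042053) (nat_lit 76) (nat_lit 133076242197) (nat_lit 1) (nat_lit 4) (nat_lit 2) (nat_lit 5) (nat_lit 2) (nat_lit 4) (nat_lit 352) (nat_lit 213) (nat_lit 155)) (XT.lf (nat_lit 0) (nat_lit 71646637922) (nat_lit 76) (nat_lit 145192797315) (nat_lit 76) (nat_lit 138487027569) (nat_lit 1) (nat_lit 4) (nat_lit 2) (nat_lit 5) (nat_lit 2) (nat_lit 4) (nat_lit 353) (nat_lit 213) (nat_lit 154))))) (XT.nd (nat_lit 312) (nat_lit 0) (nat_lit 0) (XT.nd (nat_lit 156) (nat_lit 0) (nat_lit 0) (XT.nd (nat_lit 78) (nat_lit 0) (nat_lit 0) (XT.lf (nat_lit 0) (nat_lit 77937724679) (nat_lit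 76) (nat_lit 150901005084) (nat_lit 76) (nat_lit 144176216394) (nat_lit 1) (nat_lit 4) (nat_lit 2) (nat_lit 5) (nat_lit 2) (nat_lit 4) (nat_lit 354) (nat_lit 213) (nat_lit 153)) (XT.lf (nat_lit 0) (nat_lit 84530609553) (nat_lit 76) (nat_lit 156900256330) (nat_lit 76) (nat_lit 150157354361) (nat_lit 1) (nat_lit 4) (nat_lit 2) (nat_lit 5) (nat_lit 2) (nat_lit 4) (nat_lit 355) (nat_lit 213) (nat_lit 152))) (XT.nd (nat_lit 78) (nat_lit 0) (nat_lit 0) (XT.lf (nat_lit 0) (nat_lit 91440989890) (nat_lit 76) (nat_lit 163204834984) (nat_lit 76) (nat_lit 156444682272) (nat_lit 1) (nat_lit 4) (nat_lit 2) (nat_lit 5) (nat_lit 2) (nat_lit 4) (nat_lit 356) (nat_lit 213) (nat_lit 151)) (XT.lf (nat_lit 0) (nat_lit 98685318975) (nat_lit 76) (nat_lit 169829751948) (nat_lit 76) (nat_lit 163053169958) (nat_lit 1) (nat_lit 4) (nat_lit 2) (nat_lit 5) (nat_lit 2) (nat_lit 4) (nat_lit 357) (nat_lit 213) (nat_lit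 150)))) (XT.nd (nat_lit 156) (nat_lit 0) (nat_lit 0) (XT.nd (nat_lit 78) (nat_lit 0) (nat_lit 0) (XT.lf (nat_lit 0) (nat_lit 106280845212) (nat_lit 76) (nat_lit 176790780834) (nat_lit 76) (nat_lit 169998551913) (nat_lit 1) (nat_lit 4) (nat_lit 2) (nat_lit 5) (nat_lit 2) (nat_lit 4) (nat_lit 358) (nat_lit 213) (nat_lit 149)) (XT.lf (nat_lit 0) (nat_lit 114245653185) (nat_lit 76) (nat_lit 184104495520) (nat_lit 76) (nat_lit 177297364759) (nat_lit 1) (nat_lit 4) (nat_lit 2) (nat_lit 5) (nat_lit 2) (nat_lit 4) (nat_lit 359) (nat_lit 213) (nat_lit 148))) (XT.nd (nat_lit 78) (nat_lit 0) (nat_lit 0) (XT.lf (nat_lit 0) (nat_lit 122598706725) (nat_lit 76) (nat_lit 191788309613) (nat_lit 76) (nat_lit 184966986624) (nat_lit 1) (nat_lit 4) (nat_lit 2) (nat_lit 5) (nat_lit 2) (nat_lit 4) (nat_lit 360) (nat_lit 213) (nat_lit 147)) (XT.nd (nat_lit 78) (nat_lit 0) (nat_lit 0) (XT.lf (nat_lit 0) (nat_lit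 131359894054) (nat_lit 76) (nat_lit 199860517908) (nat_lit 76) (nat_lit 193025678510) (nat_lit 1) (nat_lit 4) (nat_lit 2) (nat_lit 5) (nat_lit 2) (nat_lit 4) (nat_lit 361) (nat_lit 213) (nat_lit 146)) (XT.lf (nat_lit 0) (nat_lit 140550075141) (nat_lit 76) (nat_lit 208340339948) (nat_lit 76) (nat_lit 201492627781) (nat_lit 1) (nat_lit 4) (nat_lit 2) (nat_lit 5) (nat_lit 2) (nat_lit 4) (nat_lit 362) (nat_lit 213) (nat_lit 145))))))) (XT.nd (nat_lit 32604) (nat_lit 0) (nat_lit 228) (XT.nd (nat_lit 32214) (nat_lit 0) (nat_lit 304) (XT.nd (nat_lit 32058) (nat_lit 0) (nat_lit 456) (XT.nd (nat_lit 31980) (nat_lit 0) (nat_lit 532) (XT.lf (nat_lit 0) (nat_lit 150191131370) (nat_lit 76) (nat_lit 217247965787) (nat_lit 76) (nat_lit 210387993839) (nat_lit 1) (nat_lit 4) (nat_lit 2) (nat_lit 5) (nat_lit 2) (nat_lit 4) (nat_lit 363) (nat_lit 213) (nat_lit 144)) (XT.lf (nat_lit 0) (nat_lit 3545037013)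 (nat_lit 152) (nat_lit 3264841514) (nat_lit 0) (nat_lit 3545037013) (nat_lit 8) (nat_lit 5) (nat_lit 10) (nat_lit 4) (nat_lit 8) (nat_lit 4) (nat_lit 292) (nat_lit 214) (nat_lit 214))) (XT.nd (nat_lit 78) (nat_lit 76) (nat_lit 0) (XT.lf (nat_lit 0) (nat_lit 10501415590) (nat_lit 152) (nat_lit 953950614) (nat_lit 0) (nat_lit 10109743229) (nat_lit 8) (nat_lit 5) (nat_lit 10) (nat_lit 4) (nat_lit 8) (nat_lit 4) (nat_lit 293) (nat_lit 214) (nat_lit 213)) (XT.lf (nat_lit 0) (nat_lit 4870597054) (nat_lit 76) (nat_lit 9179560520) (nat_lit 76) (nat_lit 8414866861) (nat_lit 7) (nat_lit 4) (nat_lit 8) (nat_lit 5) (nat_lit 8) (nat_lit 4) (nat_lit 294) (nat_lit 214) (nat_lit 212)))) (XT.nd (nat_lit 156) (nat_lit 152) (nat_lit 0) (XT.nd (nat_lit 78) (nat_lit 0) (nat_lit 0) (XT.lf (nat_lit 0) (nat_lit 10836627983) (nat_lit 76) (nat_lit 6848999446) (nat_lit 76) (nat_lit 5729047410) (nat_lit 7) (nat_lit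 4) (nat_lit 8) (nat_lit 5) (nat_lit 8) (nat_lit 4) (nat_lit 295) (nat_lit 214) (nat_lit 211)) (XT.lf (nat_lit 0) (nat_lit 16926805093) (nat_lit 76) (nat_lit 4474289644) (nat_lit 76) (nat_lit 3015996296) (nat_lit 7) (nat_lit 4) (nat_lit 8) (nat_lit 5) (nat_lit 8) (nat_lit 4) (nat_lit 296) (nat_lit 214) (nat_lit 210))) (XT.nd (nat_lit 78) (nat_lit 152) (nat_lit 0) (XT.lf (nat_lit 0) (nat_lit 23155628805) (nat_lit 76) (nat_lit 2049777043) (nat_lit 76) (nat_lit 269253874) (nat_lit 7) (nat_lit 4) (nat_lit 8) (nat_lit 5) (nat_lit 8) (nat_lit 4) (nat_lit 297) (nat_lit 214) (nat_lit 209)) (XT.nd (nat_lit 78) (nat_lit 0) (nat_lit 0) (XT.lf (nat_lit 0) (nat_lit 2492183698) (nat_lit 152) (nat_lit 23588822059) (nat_lit 0) (nat_lit 504175399) (nat_lit 5) (nat_lit 5) (nat_lit 7) (nat_lit 4) (nat_lit 5) (nat_lit 4) (nat_lit 298) (nat_lit 214) (nat_lit 208)) (XT.lf (nat_lit 0) (nat_lit 5363125987)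 (nat_lit 152) (nat_lit 19292254434) (nat_lit 0) (nat_lit 3096763453) (nat_lit 5) (nat_lit 5) (nat_lit 7) (nat_lit 4) (nat_lit 5) (nat_lit 4) (nat_lit 299) (nat_lit 214) (nat_lit 207)))))) (XT.nd (nat_lit 312) (nat_lit 76) (nat_lit 0) (XT.nd (nat_lit 156) (nat_lit 0) (nat_lit 0) (XT.nd (nat_lit 78) (nat_lit 0) (nat_lit 0) (XT.lf (nat_lit 0) (nat_lit 8289006710) (nat_lit 152) (nat_lit 14935485916) (nat_lit 0) (nat_lit 5757544906) (nat_lit 5) (nat_lit 5) (nat_lit 7) (nat_lit 4) (nat_lit 5) (nat_lit 4) (nat_lit 300) (nat_lit 214) (nat_lit 206)) (XT.lf (nat_lit 0) (nat_lit 11276792251) (nat_lit 152) (nat_lit 10508143248) (nat_lit 0) (nat_lit 8492854950) (nat_lit 5) (nat_lit 5) (nat_lit 7) (nat_lit 4) (nat_lit 5) (nat_lit 4) (nat_lit 301) (nat_lit 214) (nat_lit 205))) (XT.nd (nat_lit 78) (nat_lit 0) (nat_lit 0) (XT.lf (nat_lit 0) (nat_lit 14333596384) (nat_lit 152) (nat_lit 5999685136) (nat_lit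 0) (nat_lit 11309206229) (nat_lit 5) (nat_lit 5) (nat_lit 7) (nat_lit 4) (nat_lit 5) (nat_lit 4) (nat_lit 302) (nat_lit 214) (nat_lit 204)) (XT.lf (nat_lit 0) (nat_lit 17466697214) (nat_lit 152) (nat_lit 1399377158) (nat_lit 0) (nat_lit 14213304341) (nat_lit 5) (nat_lit 5) (nat_lit 7) (nat_lit 4) (nat_lit 5) (nat_lit 4) (nat_lit 303) (nat_lit 214) (nat_lit 203)))) (XT.nd (nat_lit 156) (nat_lit 0) (nat_lit 0) (XT.nd (nat_lit 78) (nat_lit 0) (nat_lit 0) (XT.lf (nat_lit 0) (nat_lit 3412970160) (nat_lit 76) (nat_lit 17323870374) (nat_lit 76) (nat_lit 13852379674) (nat_lit 4) (nat_lit 4) (nat_lit 5) (nat_lit 5) (nat_lit 5) (nat_lit 4) (nat_lit 304) (nat_lit 214) (nat_lit 202)) (XT.lf (nat_lit 0) (nat_lit 8389357456) (nat_lit 76) (nat_lit 15733451367) (nat_lit 76) (nat_lit 12054248452) (nat_lit 4) (nat_lit 4) (nat_lit 5) (nat_lit 5) (nat_lit 5) (nat_lit 4) (nat_lit 305) (nat_lit 214) (nat_lit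 201))) (XT.nd (nat_lit 78) (nat_lit 0) (nat_lit 0) (XT.lf (nat_lit 0) (nat_lit 13495363541) (nat_lit 76) (nat_lit 14114729769) (nat_lit 76) (nat_lit 10237705696) (nat_lit 4) (nat_lit 4) (nat_lit 5) (nat_lit 5) (nat_lit 5) (nat_lit 4) (nat_lit 306) (nat_lit 214) (nat_lit 200)) (XT.nd (nat_lit 78) (nat_lit 0) (nat_lit 0) (XT.lf (nat_lit 0) (nat_lit 18743145572) (nat_lit 76) (nat_lit 12463851481) (nat_lit 76) (nat_lit 8398426305) (nat_lit 4) (nat_lit 4) (nat_lit 5) (nat_lit 5) (nat_lit 5) (nat_lit 4) (nat_lit 307) (nat_lit 214) (nat_lit 199)) (XT.lf (nat_lit 0) (nat_lit 24145198268) (nat_lit 76) (nat_lit 10776885840) (nat_lit 76) (nat_lit 6532031043) (nat_lit 4) (nat_lit 4) (nat_lit 5) (nat_lit 5) (nat_lit 5) (nat_lit 4) (nat_lit 308) (nat_lit 214) (nat_lit 198))))))))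
noncomputable def xc38 : XT := (XT.nd (nat_lit 1326) (nat_lit 76) (nat_lit 0) (XT.nd (nat_lit 624) (nat_lit 0) (nat_lit 0) (XT.nd (nat_lit 312) (nat_lit 76) (nat_lit 0) (XT.nd (nat_lit 156) (nat_lit 76) (nat_lit 0) (XT.nd (nat_lit 78) (nat_lit 0) (nat_lit 0) (XT.lf (nat_lit 0) (nat_lit 29714383661) (nat_lit 76) (nat_lit 9049816262) (nat_lit 76) (nat_lit 4634076111) (nat_lit 4) (nat_lit 4) (nat_lit 5) (nat_lit 5) (nat_lit 5) (nat_lit 4) (nat_lit 309) (nat_lit 214) (nat_lit 197)) (XT.lf (nat_lit 0) (nat_lit 35463961714) (nat_lit 76) (nat_lit 7278530676) (nat_lit 76) (nat_lit 2700042569) (nat_lit 4) (nat_lit 4) (nat_lit 5) (nat_lit 5) (nat_lit 5) (nat_lit 4) (nat_lit 310) (nat_lit 214) (nat_lit 196))) (XT.nd (nat_lit 78) (nat_lit 76) (nat_lit 0) (XT.lf (nat_lit 0) (nat_lit 41407621900) (nat_lit 76) (nat_lit 5458811736) (nat_lit 76) (nat_lit 725325575) (nat_lit 4) (nat_lit 4) (nat_lit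 5) (nat_lit 5) (nat_lit 5) (nat_lit 4) (nat_lit 311) (nat_lit 214) (nat_lit 195)) (XT.lf (nat_lit 0) (nat_lit 1253335641) (nat_lit 152) (nat_lit 2311765290) (nat_lit 76) (nat_lit 46284954304) (nat_lit 3) (nat_lit 5) (nat_lit 5) (nat_lit 5) (nat_lit 4) (nat_lit 4) (nat_lit 312) (nat_lit 214) (nat_lit 194)))) (XT.nd (nat_lit 156) (nat_lit 0) (nat_lit 0) (XT.nd (nat_lit 78) (nat_lit 0) (nat_lit 0) (XT.lf (nat_lit 0) (nat_lit 1710670048) (nat_lit 76) (nat_lit 1573408588) (nat_lit 152) (nat_lit 48937793631) (nat_lit 2) (nat_lit 5) (nat_lit 3) (nat_lit 5) (nat_lit 4) (nat_lit 4) (nat_lit 313) (nat_lit 214) (nat_lit 193)) (XT.lf (nat_lit 0) (nat_lit 5415492158) (nat_lit 152) (nat_lit 48791492749) (nat_lit 0) (nat_lit 505411868) (nat_lit 2) (nat_lit 5) (nat_lit 4) (nat_lit 4) (nat_lit 2) (nat_lit 4) (nat_lit 314) (nat_lit 214) (nat_lit 192))) (XT.nd (nat_lit 78) (nat_lit 0) (nat_lit 0) (XT.lf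 (nat_lit 0) (nat_lit 7632846431) (nat_lit 152) (nat_lit 47094381267) (nat_lit 0) (nat_lit 2601321110) (nat_lit 2) (nat_lit 5) (nat_lit 4) (nat_lit 4) (nat_lit 2) (nat_lit 4) (nat_lit 315) (nat_lit 214) (nat_lit 191)) (XT.lf (nat_lit 0) (nat_lit 9916855552) (nat_lit 152) (nat_lit 45391261713) (nat_lit 0) (nat_lit 4769668298) (nat_lit 2) (nat_lit 5) (nat_lit 4) (nat_lit 4) (nat_lit 2) (nat_lit 4) (nat_lit 316) (nat_lit 214) (nat_lit 190))))) (XT.nd (nat_lit 312) (nat_lit 0) (nat_lit 0) (XT.nd (nat_lit 156) (nat_lit 0) (nat_lit 0) (XT.nd (nat_lit 78) (nat_lit 0) (nat_lit 0) (XT.lf (nat_lit 0) (nat_lit 12272957640) (nat_lit 152) (nat_lit 43678079042) (nat_lit 0) (nat_lit 7015616162) (nat_lit 2) (nat_lit 5) (nat_lit 4) (nat_lit 4) (nat_lit 2) (nat_lit 4) (nat_lit 317) (nat_lit 214) (nat_lit 189)) (XT.lf (nat_lit 0) (nat_lit 14706762460) (nat_lit 152) (nat_lit 41950754247) (nat_lit 0) (nat_lit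 9344512199) (nat_lit 2) (nat_lit 5) (nat_lit 4) (nat_lit 4) (nat_lit 2) (nat_lit 4) (nat_lit 318) (nat_lit 214) (nat_lit 188))) (XT.nd (nat_lit 78) (nat_lit 0) (nat_lit 0) (XT.lf (nat_lit 0) (nat_lit 17224064787) (nat_lit 152) (nat_lit 40205174649) (nat_lit 0) (nat_lit 11761901398) (nat_lit 2) (nat_lit 5) (nat_lit 4) (nat_lit 4) (nat_lit 2) (nat_lit 4) (nat_lit 319) (nat_lit 214) (nat_lit 187)) (XT.lf (nat_lit 0) (nat_lit 19830858196) (nat_lit 152) (nat_lit 38437184107) (nat_lit 0) (nat_lit 14273539449) (nat_lit 2) (nat_lit 5) (nat_lit 4) (nat_lit 4) (nat_lit 2) (nat_lit 4) (nat_lit 320) (nat_lit 214) (nat_lit 186)))) (XT.nd (nat_lit 156) (nat_lit 0) (nat_lit 0) (XT.nd (nat_lit 78) (nat_lit 0) (nat_lit 0) (XT.lf (nat_lit 0) (nat_lit 22533349340) (nat_lit 152) (nat_lit 36642573120) (nat_lit 0) (nat_lit 16885406441) (nat_lit 2) (nat_lit 5) (nat_lit 4) (nat_lit 4) (nat_lit 2) (nat_lit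 4) (nat_lit 321) (nat_lit 214) (nat_lit 185)) (XT.lf (nat_lit 0) (nat_lit 25337972721) (nat_lit 152) (nat_lit 34817068804) (nat_lit 0) (nat_lit 19603721105) (nat_lit 2) (nat_lit 5) (nat_lit 4) (nat_lit 4) (nat_lit 2) (nat_lit 4) (nat_lit 322) (nat_lit 214) (nat_lit 184))) (XT.nd (nat_lit 78) (nat_lit 0) (nat_lit 0) (XT.lf (nat_lit 0) (nat_lit 28251406013) (nat_lit 152) (nat_lit 32956324721) (nat_lit 0) (nat_lit 22434955620) (nat_lit 2) (nat_lit 5) (nat_lit 4) (nat_lit 4) (nat_lit 2) (nat_lit 4) (nat_lit 323) (nat_lit 214) (nat_lit 183)) (XT.nd (nat_lit 78) (nat_lit 0) (nat_lit 0) (XT.lf (nat_lit 0) (nat_lit 31280585963) (nat_lit 152) (nat_lit 31055910527) (nat_lit 0) (nat_lit 25385851021) (nat_lit 2) (nat_lit 5) (nat_lit 4) (nat_lit 4) (nat_lit 2) (nat_lit 4) (nat_lit 324) (nat_lit 214) (nat_lit 182)) (XT.lf (nat_lit 0) (nat_lit 34432724903) (nat_lit 152) (nat_lit 29111301427) (nat_lit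 0) (nat_lit 28463433247) (nat_lit 2) (nat_lit 5) (nat_lit 4) (nat_lit 4) (nat_lit 2) (nat_lit 4) (nat_lit 325) (nat_lit 214) (nat_lit 181))))))) (XT.nd (nat_lit 624) (nat_lit 76) (nat_lit 0) (XT.nd (nat_lit 312) (nat_lit 0) (nat_lit 0) (XT.nd (nat_lit 156) (nat_lit 0) (nat_lit 0) (XT.nd (nat_lit 78) (nat_lit 0) (nat_lit 0) (XT.lf (nat_lit 0) (nat_lit 37715327927) (nat_lit 152) (nat_lit 27117867399) (nat_lit 0) (nat_lit 31675029877) (nat_lit 2) (nat_lit 5) (nat_lit 4) (nat_lit 4) (nat_lit 2) (nat_lit 4) (nat_lit 326) (nat_lit 214) (nat_lit 180)) (XT.lf (nat_lit 0) (nat_lit 41136210755) (nat_lit 152) (nat_lit 25070862171) (nat_lit 0) (nat_lit 35028287568) (nat_lit 2) (nat_lit 5) (nat_lit 4) (nat_lit 4) (nat_lit 2) (nat_lit 4) (nat_lit 327) (nat_lit 214) (nat_lit 179))) (XT.nd (nat_lit 78) (nat_lit 0) (nat_lit 0) (XT.lf (nat_lit 0) (nat_lit 44703518348) (nat_lit 152) (nat_lit 22965411922)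 (nat_lit 0) (nat_lit 38531190268) (nat_lit 2) (nat_lit 5) (nat_lit 4) (nat_lit 4) (nat_lit 2) (nat_lit 4) (nat_lit 328) (nat_lit 214) (nat_lit 178)) (XT.lf (nat_lit 0) (nat_lit 48425744294) (nat_lit 152) (nat_lit 20796503675) (nat_lit 0) (nat_lit 42192078221) (nat_lit 2) (nat_lit 5) (nat_lit 4) (nat_lit 4) (nat_lit 2) (nat_lit 4) (nat_lit 329) (nat_lit 214) (nat_lit 177)))) (XT.nd (nat_lit 156) (nat_lit 0) (nat_lit 0) (XT.nd (nat_lit 78) (nat_lit 0) (nat_lit 0) (XT.lf (nat_lit 0) (nat_lit 52311751037) (nat_lit 152) (nat_lit 18558973362) (nat_lit 0) (nat_lit 46019667827) (nat_lit 2) (nat_lit 5) (nat_lit 4) (nat_lit 4) (nat_lit 2) (nat_lit 4) (nat_lit 330) (nat_lit 214) (nat_lit 176)) (XT.lf (nat_lit 0) (nat_lit 56370790973) (nat_lit 152) (nat_lit 16247493531) (nat_lit 0) (nat_lit 50023072395) (nat_lit 2) (nat_lit 5) (nat_lit 4) (nat_lit 4) (nat_lit 2) (nat_lit 4) (nat_lit 331) (nat_lit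 214) (nat_lit 175))) (XT.nd (nat_lit 78) (nat_lit 0) (nat_lit 0) (XT.lf (nat_lit 0) (nat_lit 60612528482) (nat_lit 152) (nat_lit 13856560658) (nat_lit 0) (nat_lit 54211823841) (nat_lit 2) (nat_lit 5) (nat_lit 4) (nat_lit 4) (nat_lit 2) (nat_lit 4) (nat_lit 332) (nat_lit 214) (nat_lit 174)) (XT.lf (nat_lit 0) (nat_lit 65047062941) (nat_lit 152) (nat_lit 11380482045) (nat_lit 0) (nat_lit 58595895381) (nat_lit 2) (nat_lit 5) (nat_lit 4) (nat_lit 4) (nat_lit 2) (nat_lit 4) (nat_lit 333) (nat_lit 214) (nat_lit 173))))) (XT.nd (nat_lit 312) (nat_lit 76) (nat_lit 0) (XT.nd (nat_lit 156) (nat_lit 0) (nat_lit 0) (XT.nd (nat_lit 78) (nat_lit 0) (nat_lit 0) (XT.lf (nat_lit 0) (nat_lit 69684952765) (nat_lit 152) (nat_lit 8813362268) (nat_lit 0) (nat_lit 63185725282) (nat_lit 2) (nat_lit 5) (nat_lit 4) (nat_lit 4) (nat_lit 2) (nat_lit 4) (nat_lit 334) (nat_lit 214) (nat_lit 172)) (XT.lf (nat_lit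 0) (nat_lit 74537240547) (nat_lit 152) (nat_lit 6149089136) (nat_lit 0) (nat_lit 67992241710) (nat_lit 2) (nat_lit 5) (nat_lit 4) (nat_lit 4) (nat_lit 2) (nat_lit 4) (nat_lit 335) (nat_lit 214) (nat_lit 171))) (XT.nd (nat_lit 78) (nat_lit 0) (nat_lit 0) (XT.lf (nat_lit 0) (nat_lit 79615479356) (nat_lit 152) (nat_lit 3381319142) (nat_lit 0) (nat_lit 73026888751) (nat_lit 2) (nat_lit 5) (nat_lit 4) (nat_lit 4) (nat_lit 2) (nat_lit 4) (nat_lit 336) (nat_lit 214) (nat_lit 170)) (XT.lf (nat_lit 0) (nat_lit 84931760234) (nat_lit 152) (nat_lit 503462358) (nat_lit 0) (nat_lit 78301653661) (nat_lit 2) (nat_lit 5) (nat_lit 4) (nat_lit 4) (nat_lit 2) (nat_lit 4) (nat_lit 337) (nat_lit 214) (nat_lit 169)))) (XT.nd (nat_lit 156) (nat_lit 0) (nat_lit 0) (XT.nd (nat_lit 78) (nat_lit 0) (nat_lit 0) (XT.lf (nat_lit 0) (nat_lit 2573707984) (nat_lit 76) (nat_lit 87965215804) (nat_lit 76) (nat_lit 81295570214)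 (nat_lit 1) (nat_lit 4) (nat_lit 2) (nat_lit 5) (nat_lit 2) (nat_lit 4) (nat_lit 338) (nat_lit 214) (nat_lit 168)) (XT.lf (nat_lit 0) (nat_lit 5795696654) (nat_lit 76) (nat_lit 90624466764) (nat_lit 76) (nat_lit 83917164968) (nat_lit 1) (nat_lit 4) (nat_lit 2) (nat_lit 5) (nat_lit 2) (nat_lit 4) (nat_lit 339) (nat_lit 214) (nat_lit 167))) (XT.nd (nat_lit 78) (nat_lit 0) (nat_lit 0) (XT.lf (nat_lit 0) (nat_lit 9153528314) (nat_lit 76) (nat_lit 93427833403) (nat_lit 76) (nat_lit 86684668553) (nat_lit 1) (nat_lit 4) (nat_lit 2) (nat_lit 5) (nat_lit 2) (nat_lit 4) (nat_lit 340) (nat_lit 214) (nat_lit 166)) (XT.nd (nat_lit 78) (nat_lit 0) (nat_lit 0) (XT.lf (nat_lit 0) (nat_lit 12655197799) (nat_lit 76) (nat_lit 96381990402) (nat_lit 76) (nat_lit 89604670262) (nat_lit 1) (nat_lit 4) (nat_lit 2) (nat_lit 5) (nat_lit 2) (nat_lit 4) (nat_lit 341) (nat_lit 214) (nat_lit 165)) (XT.lf (nat_lit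 0) (nat_lit 16309042419) (nat_lit 76) (nat_lit 99493971469) (nat_lit 76) (nat_lit 92684122482) (nat_lit 1) (nat_lit 4) (nat_lit 2) (nat_lit 5) (nat_lit 2) (nat_lit 4) (nat_lit 342) (nat_lit 214) (nat_lit 164))))))))
noncomputable def xc39 : XT := (XT.nd (nat_lit 1326) (nat_lit 0) (nat_lit 0) (XT.nd (nat_lit 624) (nat_lit 0) (nat_lit 0) (XT.nd (nat_lit 312) (nat_lit 0) (nat_lit 0) (XT.nd (nat_lit 156) (nat_lit 0) (nat_lit 0) (XT.nd (nat_lit 78) (nat_lit 0) (nat_lit 0) (XT.lf (nat_lit 0) (nat_lit 20123761804) (nat_lit 76) (nat_lit 102771186082) (nat_lit 76) (nat_lit 95930357240) (nat_lit 1) (nat_lit 4) (nat_lit 2) (nat_lit 5) (nat_lit 2) (nat_lit 4) (nat_lit 343) (nat_lit 214) (nat_lit 163)) (XT.lf (nat_lit 0) (nat_lit 24108438619) (nat_lit 76) (nat_lit 106221437134) (nat_lit 76) (nat_lit 99351103668) (nat_lit 1) (nat_lit 4) (nat_lit 2) (nat_lit 5) (nat_lit 2) (nat_lit 4) (nat_lit 344)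 (nat_lit 214) (nat_lit 162))) (XT.nd (nat_lit 78) (nat_lit 0) (nat_lit 0) (XT.lf (nat_lit 0) (nat_lit 28272560190) (nat_lit 76) (nat_lit 109852939507) (nat_lit 76) (nat_lit 102954506400) (nat_lit 1) (nat_lit 4) (nat_lit 2) (nat_lit 5) (nat_lit 2) (nat_lit 4) (nat_lit 345) (nat_lit 214) (nat_lit 161)) (XT.lf (nat_lit 0) (nat_lit 32626041091) (nat_lit 76) (nat_lit 113674339636) (nat_lit 76) (nat_lit 106749144966) (nat_lit 1) (nat_lit 4) (nat_lit 2) (nat_lit 5) (nat_lit 2) (nat_lit 4) (nat_lit 346) (nat_lit 214) (nat_lit 160)))) (XT.nd (nat_lit 156) (nat_lit 0) (nat_lit 0) (XT.nd (nat_lit 78) (nat_lit 0) (nat_lit 0) (XT.lf (nat_lit 0) (nat_lit 37179246754) (nat_lit 76) (nat_lit 117694736093) (nat_lit 76) (nat_lit 110744054220) (nat_lit 1) (nat_lit 4) (nat_lit 2) (nat_lit 5) (nat_lit 2) (nat_lit 4) (nat_lit 347) (nat_lit 214) (nat_lit 159)) (XT.lf (nat_lit 0) (nat_lit 41943018145) (nat_lit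 76) (nat_lit 121923701250) (nat_lit 76) (nat_lit 114948745851) (nat_lit 1) (nat_lit 4) (nat_lit 2) (nat_lit 5) (nat_lit 2) (nat_lit 4) (nat_lit 348) (nat_lit 214) (nat_lit 158))) (XT.nd (nat_lit 78) (nat_lit 0) (nat_lit 0) (XT.lf (nat_lit 0) (nat_lit 46928697576) (nat_lit 76) (nat_lit 126371304072) (nat_lit 76) (nat_lit 119373231028) (nat_lit 1) (nat_lit 4) (nat_lit 2) (nat_lit 5) (nat_lit 2) (nat_lit 4) (nat_lit 349) (nat_lit 214) (nat_lit 157)) (XT.lf (nat_lit 0) (nat_lit 52148155712) (nat_lit 76) (nat_lit 131048134090) (nat_lit 76) (nat_lit 124028044241) (nat_lit 1) (nat_lit 4) (nat_lit 2) (nat_lit 5) (nat_lit 2) (nat_lit 4) (nat_lit 350) (nat_lit 214) (nat_lit 156))))) (XT.nd (nat_lit 312) (nat_lit 0) (nat_lit 0) (XT.nd (nat_lit 156) (nat_lit 0) (nat_lit 0) (XT.nd (nat_lit 78) (nat_lit 0) (nat_lit 0) (XT.lf (nat_lit 0) (nat_lit 57613819835) (nat_lit 76) (nat_lit 135965326612) (nat_lit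 76) (nat_lit 128924268379) (nat_lit 1) (nat_lit 4) (nat_lit 2) (nat_lit 5) (nat_lit 2) (nat_lit 4) (nat_lit 351) (nat_lit 214) (nat_lit 155)) (XT.lf (nat_lit 0) (nat_lit 63338703431) (nat_lit 76) (nat_lit 141134589241) (nat_lit 76) (nat_lit 134073561117) (nat_lit 1) (nat_lit 4) (nat_lit 2) (nat_lit 5) (nat_lit 2) (nat_lit 4) (nat_lit 352) (nat_lit 214) (nat_lit 154))) (XT.nd (nat_lit 78) (nat_lit 0) (nat_lit 0) (XT.lf (nat_lit 0) (nat_lit 69336437175) (nat_lit 76) (nat_lit 146568229744) (nat_lit 76) (nat_lit 139488182677) (nat_lit 1) (nat_lit 4) (nat_lit 2) (nat_lit 5) (nat_lit 2) (nat_lit 4) (nat_lit 353) (nat_lit 214) (nat_lit 153)) (XT.lf (nat_lit 0) (nat_lit 75621301385) (nat_lit 76) (nat_lit 152279185361) (nat_lit 76) (nat_lit 145181025014) (nat_lit 1) (nat_lit 4) (nat_lit 2) (nat_lit 5) (nat_lit 2) (nat_lit 4) (nat_lit 354) (nat_lit 214) (nat_lit 152)))) (XT.nd (nat_lit 156)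 (nat_lit 0) (nat_lit 0) (XT.nd (nat_lit 78) (nat_lit 0) (nat_lit 0) (XT.lf (nat_lit 0) (nat_lit 82208260025) (nat_lit 76) (nat_lit 158281053605) (nat_lit 76) (nat_lit 151165642515) (nat_lit 1) (nat_lit 4) (nat_lit 2) (nat_lit 5) (nat_lit 2) (nat_lit 4) (nat_lit 355) (nat_lit 214) (nat_lit 151)) (XT.lf (nat_lit 0) (nat_lit 89112996328) (nat_lit 76) (nat_lit 164588124638) (nat_lit 76) (nat_lit 157456284270) (nat_lit 1) (nat_lit 4) (nat_lit 2) (nat_lit 5) (nat_lit 2) (nat_lit 4) (nat_lit 356) (nat_lit 214) (nat_lit 150))) (XT.nd (nat_lit 78) (nat_lit 0) (nat_lit 0) (XT.lf (nat_lit 0) (nat_lit 96351950144) (nat_lit 76) (nat_lit 171215415296) (nat_lit 76) (nat_lit 164067927997) (nat_lit 1) (nat_lit 4) (nat_lit 2) (nat_lit 5) (nat_lit 2) (nat_lit 4) (nat_lit 357) (nat_lit 214) (nat_lit 149)) (XT.nd (nat_lit 78) (nat_lit 0) (nat_lit 0) (XT.lf (nat_lit 0) (nat_lit 103942357076) (nat_lit 76)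 (nat_lit 178178704844) (nat_lit 76) (nat_lit 171016315705) (nat_lit 1) (nat_lit 4) (nat_lit 2) (nat_lit 5) (nat_lit 2) (nat_lit 4) (nat_lit 358) (nat_lit 214) (nat_lit 148)) (XT.lf (nat_lit 0) (nat_lit 111902289521) (nat_lit 76) (nat_lit 185494572541) (nat_lit 76) (nat_lit 178317991174) (nat_lit 1) (nat_lit 4) (nat_lit 2) (nat_lit 5) (nat_lit 2) (nat_lit 4) (nat_lit 359) (nat_lit 214) (nat_lit 147))))))) (XT.nd (nat_lit 32448) (nat_lit 0) (nat_lit 304) (XT.nd (nat_lit 32058) (nat_lit 0) (nat_lit 456) (XT.nd (nat_lit 156) (nat_lit 0) (nat_lit 0) (XT.nd (nat_lit 78) (nat_lit 0) (nat_lit 0) (XT.lf (nat_lit 0) (nat_lit 120250699701) (nat_lit 76) (nat_lit 193180437120) (nat_lit 76) (nat_lit 185990339345) (nat_lit 1) (nat_lit 4) (nat_lit 2) (nat_lit 5) (nat_lit 2) (nat_lit 4) (nat_lit 360) (nat_lit 214) (nat_lit 146)) (XT.lf (nat_lit 0) (nat_lit 129007464782) (nat_lit 76) (nat_lit 201254598260)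 (nat_lit 76) (nat_lit 194051627715) (nat_lit 1) (nat_lit 4) (nat_lit 2) (nat_lit 5) (nat_lit 2) (nat_lit 4) (nat_lit 361) (nat_lit 214) (nat_lit 145))) (XT.nd (nat_lit 78) (nat_lit 0) (nat_lit 0) (XT.lf (nat_lit 0) (nat_lit 138193434205) (nat_lit 76) (nat_lit 209736280152) (nat_lit 76) (nat_lit 202521049827) (nat_lit 1) (nat_lit 4) (nat_lit 2) (nat_lit 5) (nat_lit 2) (nat_lit 4) (nat_lit 362) (nat_lit 214) (nat_lit 144)) (XT.lf (nat_lit 0) (nat_lit 147830479325) (nat_lit 76) (nat_lit 218645677278) (nat_lit 76) (nat_lit 211418770971) (nat_lit 1) (nat_lit 4) (nat_lit 2) (nat_lit 5) (nat_lit 2) (nat_lit 4) (nat_lit 363) (nat_lit 214) (nat_lit 143)))) (XT.nd (nat_lit 156) (nat_lit 76) (nat_lit 0) (XT.nd (nat_lit 78) (nat_lit 0) (nat_lit 0) (XT.lf (nat_lit 0) (nat_lit 444544378) (nat_lit 152) (nat_lit 8677663172) (nat_lit 0) (nat_lit 444544378) (nat_lit 8) (nat_lit 5) (nat_lit 10) (nat_lit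 4) (nat_lit 8) (nat_lit 4) (nat_lit 290) (nat_lit 215) (nat_lit 215)) (XT.lf (nat_lit 0) (nat_lit 4143222950) (nat_lit 152) (nat_lit 12025765266) (nat_lit 0) (nat_lit 3731966970) (nat_lit 8) (nat_lit 5) (nat_lit 10) (nat_lit 4) (nat_lit 8) (nat_lit 4) (nat_lit 291) (nat_lit 215) (nat_lit 214))) (XT.nd (nat_lit 78) (nat_lit 76) (nat_lit 0) (XT.lf (nat_lit 0) (nat_lit 7445393008) (nat_lit 152) (nat_lit 6624880070) (nat_lit 0) (nat_lit 6642464667) (nat_lit 8) (nat_lit 5) (nat_lit 10) (nat_lit 4) (nat_lit 8) (nat_lit 4) (nat_lit 292) (nat_lit 215) (nat_lit 213)) (XT.nd (nat_lit 78) (nat_lit 76) (nat_lit 0) (XT.lf (nat_lit 0) (nat_lit 10803461241) (nat_lit 152) (nat_lit 1139811504) (nat_lit 0) (nat_lit 9627511604) (nat_lit 8) (nat_lit 5) (nat_lit 10) (nat_lit 4) (nat_lit 8) (nat_lit 4) (nat_lit 293) (nat_lit 215) (nat_lit 212)) (XT.lf (nat_lit 0) (nat_lit 4589389234) (nat_lit 76) (nat_lit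 9707687043) (nat_lit 76) (nat_lit 8176479027) (nat_lit 7) (nat_lit 4) (nat_lit 8) (nat_lit 5) (nat_lit 8) (nat_lit 4) (nat_lit 294) (nat_lit 215) (nat_lit 211)))))) (XT.nd (nat_lit 312) (nat_lit 0) (nat_lit 0) (XT.nd (nat_lit 156) (nat_lit 152) (nat_lit 0) (XT.nd (nat_lit 78) (nat_lit 0) (nat_lit 0) (XT.lf (nat_lit 0) (nat_lit 10470466327) (nat_lit 76) (nat_lit 7412432957) (nat_lit 76) (nat_lit 5542883629) (nat_lit 7) (nat_lit 4) (nat_lit 8) (nat_lit 5) (nat_lit 8) (nat_lit 4) (nat_lit 295) (nat_lit 215) (nat_lit 210)) (XT.lf (nat_lit 0) (nat_lit 16479735020) (nat_lit 76) (nat_lit 5071348858) (nat_lit 76) (nat_lit 2879569709) (nat_lit 7) (nat_lit 4) (nat_lit 8) (nat_lit 5) (nat_lit 8) (nat_lit 4) (nat_lit 296) (nat_lit 215) (nat_lit 209))) (XT.nd (nat_lit 78) (nat_lit 152) (nat_lit 0) (XT.lf (nat_lit 0) (nat_lit 22631503098) (nat_lit 76) (nat_lit 2678860736) (nat_lit 76) (nat_lit 180196043)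 (nat_lit 7) (nat_lit 4) (nat_lit 8) (nat_lit 5) (nat_lit 8) (nat_lit 4) (nat_lit 297) (nat_lit 215) (nat_lit 208)) (XT.lf (nat_lit 0) (nat_lit 2368194512) (nat_lit 76) (nat_lit 148454830) (nat_lit 152) (nat_lit 24087527579) (nat_lit 5) (nat_lit 5) (nat_lit 6) (nat_lit 5) (nat_lit 7) (nat_lit 4) (nat_lit 298) (nat_lit 215) (nat_lit 207)))) (XT.nd (nat_lit 156) (nat_lit 0) (nat_lit 0) (XT.nd (nat_lit 78) (nat_lit 0) (nat_lit 0) (XT.lf (nat_lit 0) (nat_lit 5342050089) (nat_lit 152) (nat_lit 20012525032) (nat_lit 0) (nat_lit 2418915923) (nat_lit 5) (nat_lit 5) (nat_lit 7) (nat_lit 4) (nat_lit 5) (nat_lit 4) (nat_lit 299) (nat_lit 215) (nat_lit 206)) (XT.lf (nat_lit 0) (nat_lit 8226765339) (nat_lit 152) (nat_lit 15727592746) (nat_lit 0) (nat_lit 5051155677) (nat_lit 5) (nat_lit 5) (nat_lit 7) (nat_lit 4) (nat_lit 5) (nat_lit 4) (nat_lit 300) (nat_lit 215) (nat_lit 205))) (XT.nd (nat_lit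 78) (nat_lit 0) (nat_lit 0) (XT.lf (nat_lit 0) (nat_lit 11175345668) (nat_lit 152) (nat_lit 11368665536) (nat_lit 0) (nat_lit 7759283152) (nat_lit 5) (nat_lit 5) (nat_lit 7) (nat_lit 4) (nat_lit 5) (nat_lit 4) (nat_lit 301) (nat_lit 215) (nat_lit 204)) (XT.nd (nat_lit 78) (nat_lit 0) (nat_lit 0) (XT.lf (nat_lit 0) (nat_lit 14194811504) (nat_lit 152) (nat_lit 6925365004) (nat_lit 0) (nat_lit 10549746269) (nat_lit 5) (nat_lit 5) (nat_lit 7) (nat_lit 4) (nat_lit 5) (nat_lit 4) (nat_lit 302) (nat_lit 215) (nat_lit 203)) (XT.lf (nat_lit 0) (nat_lit 17292352051) (nat_lit 152) (nat_lit 2387111864) (nat_lit 0) (nat_lit 13429188990) (nat_lit 5) (nat_lit 5) (nat_lit 7) (nat_lit 4) (nat_lit 5) (nat_lit 4) (nat_lit 303) (nat_lit 215) (nat_lit 202))))))))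
noncomputable def xc40 : XT := (XT.nd (nat_lit 1326) (nat_lit 0) (nat_lit 0) (XT.nd (nat_lit 624) (nat_lit 152) (nat_lit 0) (XT.nd (nat_lit 312) (nat_lit 0) (nat_lit 0) (XT.nd (nat_lit 156) (nat_lit 0) (nat_lit 0) (XT.nd (nat_lit 78) (nat_lit 0) (nat_lit 0) (XT.lf (nat_lit 0) (nat_lit 2331522531) (nat_lit 76) (nat_lit 18180221475) (nat_lit 76) (nat_lit 14109346199) (nat_lit 4) (nat_lit 4) (nat_lit 5) (nat_lit 5) (nat_lit 5) (nat_lit 4) (nat_lit 304) (nat_lit 215) (nat_lit 201)) (XT.lf (nat_lit 0) (nat_lit 7249763204) (nat_lit 76) (nat_lit 16614787034) (nat_lit 76) (nat_lit 12346090600) (nat_lit 4) (nat_lit 4) (nat_lit 5) (nat_lit 5) (nat_lit 5) (nat_lit 4) (nat_lit 305) (nat_lit 215) (nat_lit 200))) (XT.nd (nat_lit 78) (nat_lit 0) (nat_lit 0) (XT.lf (nat_lit 0) (nat_lit 12300391553) (nat_lit 76) (nat_lit 15019860260) (nat_lit 76) (nat_lit 10562762723) (nat_lit 4) (nat_lit 4) (nat_lit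 5) (nat_lit 5) (nat_lit 5) (nat_lit 4) (nat_lit 306) (nat_lit 215) (nat_lit 199)) (XT.lf (nat_lit 0) (nat_lit 17495432884) (nat_lit 76) (nat_lit 13391643710) (nat_lit 76) (nat_lit 8755116551) (nat_lit 4) (nat_lit 4) (nat_lit 5) (nat_lit 5) (nat_lit 5) (nat_lit 4) (nat_lit 307) (nat_lit 215) (nat_lit 198)))) (XT.nd (nat_lit 156) (nat_lit 0) (nat_lit 0) (XT.nd (nat_lit 78) (nat_lit 0) (nat_lit 0) (XT.lf (nat_lit 0) (nat_lit 22847256342) (nat_lit 76) (nat_lit 11726260676) (nat_lit 76) (nat_lit 6918848163) (nat_lit 4) (nat_lit 4) (nat_lit 5) (nat_lit 5) (nat_lit 5) (nat_lit 4) (nat_lit 308) (nat_lit 215) (nat_lit 197)) (XT.lf (nat_lit 0) (nat_lit 28368604365) (nat_lit 76) (nat_lit 10019745962) (nat_lit 76) (nat_lit 5049585493) (nat_lit 4) (nat_lit 4) (nat_lit 5) (nat_lit 5) (nat_lit 5) (nat_lit 4) (nat_lit 309) (nat_lit 215) (nat_lit 196))) (XT.nd (nat_lit 78) (nat_lit 0) (nat_lit 0) (XT.lf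 (nat_lit 0) (nat_lit 34072623018) (nat_lit 76) (nat_lit 8268036437) (nat_lit 76) (nat_lit 3142877915) (nat_lit 4) (nat_lit 4) (nat_lit 5) (nat_lit 5) (nat_lit 5) (nat_lit 4) (nat_lit 310) (nat_lit 215) (nat_lit 195)) (XT.lf (nat_lit 0) (nat_lit 39972893299) (nat_lit 76) (nat_lit 6466961364) (nat_lit 76) (nat_lit 1194185648) (nat_lit 4) (nat_lit 4) (nat_lit 5) (nat_lit 5) (nat_lit 5) (nat_lit 4) (nat_lit 311) (nat_lit 215) (nat_lit 194))))) (XT.nd (nat_lit 312) (nat_lit 0) (nat_lit 0) (XT.nd (nat_lit 156) (nat_lit 0) (nat_lit 0) (XT.nd (nat_lit 78) (nat_lit 76) (nat_lit 0) (XT.lf (nat_lit 0) (nat_lit 775489853) (nat_lit 152) (nat_lit 3823609320) (nat_lit 76) (nat_lit 45294840322) (nat_lit 3) (nat_lit 5) (nat_lit 5) (nat_lit 5) (nat_lit 4) (nat_lit 4) (nat_lit 312) (nat_lit 215) (nat_lit 193)) (XT.lf (nat_lit 0) (nat_lit 107362991) (nat_lit 76) (nat_lit 2650988061) (nat_lit 152) (nat_lit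 49509835318) (nat_lit 2) (nat_lit 5) (nat_lit 3) (nat_lit 5) (nat_lit 4) (nat_lit 4) (nat_lit 313) (nat_lit 215) (nat_lit 192))) (XT.nd (nat_lit 78) (nat_lit 0) (nat_lit 0) (XT.lf (nat_lit 0) (nat_lit 4286656710) (nat_lit 76) (nat_lit 572577757) (nat_lit 152) (nat_lit 49901036966) (nat_lit 2) (nat_lit 5) (nat_lit 3) (nat_lit 5) (nat_lit 4) (nat_lit 4) (nat_lit 314) (nat_lit 215) (nat_lit 191)) (XT.lf (nat_lit 0) (nat_lit 7046081945) (nat_lit 152) (nat_lit 48806025894) (nat_lit 0) (nat_lit 1525873394) (nat_lit 2) (nat_lit 5) (nat_lit 4) (nat_lit 4) (nat_lit 2) (nat_lit 4) (nat_lit 315) (nat_lit 215) (nat_lit 190)))) (XT.nd (nat_lit 156) (nat_lit 0) (nat_lit 0) (XT.nd (nat_lit 78) (nat_lit 0) (nat_lit 0) (XT.lf (nat_lit 0) (nat_lit 9309550828) (nat_lit 152) (nat_lit 47139537004) (nat_lit 0) (nat_lit 3679188054) (nat_lit 2) (nat_lit 5) (nat_lit 4) (nat_lit 4) (nat_lit 2) (nat_lit 4) (nat_lit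 316) (nat_lit 215) (nat_lit 189)) (XT.lf (nat_lit 0) (nat_lit 11646090783) (nat_lit 152) (nat_lit 45461240679) (nat_lit 0) (nat_lit 5910819225) (nat_lit 2) (nat_lit 5) (nat_lit 4) (nat_lit 4) (nat_lit 2) (nat_lit 4) (nat_lit 317) (nat_lit 215) (nat_lit 188))) (XT.nd (nat_lit 78) (nat_lit 0) (nat_lit 0) (XT.lf (nat_lit 0) (nat_lit 14061265001) (nat_lit 152) (nat_lit 43767140975) (nat_lit 0) (nat_lit 8226080316) (nat_lit 2) (nat_lit 5) (nat_lit 4) (nat_lit 4) (nat_lit 2) (nat_lit 4) (nat_lit 318) (nat_lit 215) (nat_lit 187)) (XT.nd (nat_lit 78) (nat_lit 0) (nat_lit 0) (XT.lf (nat_lit 0) (nat_lit 16560823896) (nat_lit 152) (nat_lit 42053204322) (nat_lit 0) (nat_lit 10630483852) (nat_lit 2) (nat_lit 5) (nat_lit 4) (nat_lit 4) (nat_lit 2) (nat_lit 4) (nat_lit 319) (nat_lit 215) (nat_lit 186)) (XT.lf (nat_lit 0) (nat_lit 19150718801) (nat_lit 152) (nat_lit 40315349917) (nat_lit 0) (nat_lit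 13129754604) (nat_lit 2) (nat_lit 5) (nat_lit 4) (nat_lit 4) (nat_lit 2) (nat_lit 4) (nat_lit 320) (nat_lit 215) (nat_lit 185))))))) (XT.nd (nat_lit 624) (nat_lit 0) (nat_lit 0) (XT.nd (nat_lit 312) (nat_lit 0) (nat_lit 0) (XT.nd (nat_lit 156) (nat_lit 0) (nat_lit 0) (XT.nd (nat_lit 78) (nat_lit 0) (nat_lit 0) (XT.lf (nat_lit 0) (nat_lit 21837116130) (nat_lit 152) (nat_lit 38549440013) (nat_lit 0) (nat_lit 15729843217) (nat_lit 2) (nat_lit 5) (nat_lit 4) (nat_lit 4) (nat_lit 2) (nat_lit 4) (nat_lit 321) (nat_lit 215) (nat_lit 184)) (XT.lf (nat_lit 0) (nat_lit 24626412067) (nat_lit 152) (nat_lit 36751270063) (nat_lit 0) (nat_lit 18436940378) (nat_lit 2) (nat_lit 5) (nat_lit 4) (nat_lit 4) (nat_lit 2) (nat_lit 4) (nat_lit 322) (nat_lit 215) (nat_lit 183))) (XT.nd (nat_lit 78) (nat_lit 0) (nat_lit 0) (XT.lf (nat_lit 0) (nat_lit 27525247795) (nat_lit 152) (nat_lit 34916558708) (nat_lit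 0) (nat_lit 21257491556) (nat_lit 2) (nat_lit 5) (nat_lit 4) (nat_lit 4) (nat_lit 2) (nat_lit 4) (nat_lit 323) (nat_lit 215) (nat_lit 182)) (XT.lf (nat_lit 0) (nat_lit 30540525302) (nat_lit 152) (nat_lit 33040937589) (nat_lit 0) (nat_lit 24198212350) (nat_lit 2) (nat_lit 5) (nat_lit 4) (nat_lit 4) (nat_lit 2) (nat_lit 4) (nat_lit 324) (nat_lit 215) (nat_lit 181)))) (XT.nd (nat_lit 156) (nat_lit 0) (nat_lit 0) (XT.nd (nat_lit 78) (nat_lit 0) (nat_lit 0) (XT.lf (nat_lit 0) (nat_lit 33679423822) (nat_lit 152) (nat_lit 31119940941) (nat_lit 0) (nat_lit 27266104475) (nat_lit 2) (nat_lit 5) (nat_lit 4) (nat_lit 4) (nat_lit 2) (nat_lit 4) (nat_lit 325) (nat_lit 215) (nat_lit 180)) (XT.lf (nat_lit 0) (nat_lit 36949416920) (nat_lit 152) (nat_lit 29148994962) (nat_lit 0) (nat_lit 30468472436) (nat_lit 2) (nat_lit 5) (nat_lit 4) (nat_lit 4) (nat_lit 2) (nat_lit 4) (nat_lit 326) (nat_lit 215)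 (nat_lit 179))) (XT.nd (nat_lit 78) (nat_lit 0) (nat_lit 0) (XT.lf (nat_lit 0) (nat_lit 40358290297) (nat_lit 152) (nat_lit 27123406925) (nat_lit 0) (nat_lit 33812940920) (nat_lit 2) (nat_lit 5) (nat_lit 4) (nat_lit 4) (nat_lit 2) (nat_lit 4) (nat_lit 327) (nat_lit 215) (nat_lit 178)) (XT.lf (nat_lit 0) (nat_lit 43914160316) (nat_lit 152) (nat_lit 25038354000) (nat_lit 0) (nat_lit 37307472946) (nat_lit 2) (nat_lit 5) (nat_lit 4) (nat_lit 4) (nat_lit 2) (nat_lit 4) (nat_lit 328) (nat_lit 215) (nat_lit 177))))) (XT.nd (nat_lit 312) (nat_lit 0) (nat_lit 0) (XT.nd (nat_lit 156) (nat_lit 0) (nat_lit 0) (XT.nd (nat_lit 78) (nat_lit 0) (nat_lit 0) (XT.lf (nat_lit 0) (nat_lit 47625493335) (nat_lit 152) (nat_lit 22888871776) (nat_lit 0) (nat_lit 40960388828) (nat_lit 2) (nat_lit 5) (nat_lit 4) (nat_lit 4) (nat_lit 2) (nat_lit 4) (nat_lit 329) (nat_lit 215) (nat_lit 176)) (XT.lf (nat_lit 0)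 (nat_lit 51501125861) (nat_lit 152) (nat_lit 20669842437) (nat_lit 0) (nat_lit 44780385987) (nat_lit 2) (nat_lit 5) (nat_lit 4) (nat_lit 4) (nat_lit 2) (nat_lit 4) (nat_lit 330) (nat_lit 215) (nat_lit 175))) (XT.nd (nat_lit 78) (nat_lit 0) (nat_lit 0) (XT.lf (nat_lit 0) (nat_lit 55550285590) (nat_lit 152) (nat_lit 18375982581) (nat_lit 0) (nat_lit 48776559652) (nat_lit 2) (nat_lit 5) (nat_lit 4) (nat_lit 4) (nat_lit 2) (nat_lit 4) (nat_lit 331) (nat_lit 215) (nat_lit 174)) (XT.lf (nat_lit 0) (nat_lit 59782613380) (nat_lit 152) (nat_lit 16001830637) (nat_lit 0) (nat_lit 52958424523) (nat_lit 2) (nat_lit 5) (nat_lit 4) (nat_lit 4) (nat_lit 2) (nat_lit 4) (nat_lit 332) (nat_lit 215) (nat_lit 173)))) (XT.nd (nat_lit 156) (nat_lit 0) (nat_lit 0) (XT.nd (nat_lit 78) (nat_lit 0) (nat_lit 0) (XT.lf (nat_lit 0) (nat_lit 64208186200) (nat_lit 152) (nat_lit 13541733861) (nat_lit 0) (nat_lit 57335937421)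 (nat_lit 2) (nat_lit 5) (nat_lit 4) (nat_lit 4) (nat_lit 2) (nat_lit 4) (nat_lit 333) (nat_lit 215) (nat_lit 172)) (XT.lf (nat_lit 0) (nat_lit 68837541130) (nat_lit 152) (nat_lit 10989834882) (nat_lit 0) (nat_lit 61919520996) (nat_lit 2) (nat_lit 5) (nat_lit 4) (nat_lit 4) (nat_lit 2) (nat_lit 4) (nat_lit 334) (nat_lit 215) (nat_lit 171))) (XT.nd (nat_lit 78) (nat_lit 0) (nat_lit 0) (XT.lf (nat_lit 0) (nat_lit 73681700443) (nat_lit 152) (nat_lit 8340057747) (nat_lit 0) (nat_lit 66720088542) (nat_lit 2) (nat_lit 5) (nat_lit 4) (nat_lit 4) (nat_lit 2) (nat_lit 4) (nat_lit 335) (nat_lit 215) (nat_lit 170)) (XT.nd (nat_lit 78) (nat_lit 0) (nat_lit 0) (XT.lf (nat_lit 0) (nat_lit 78752197851) (nat_lit 152) (nat_lit 5586093465) (nat_lit 0) (nat_lit 71749069982) (nat_lit 2) (nat_lit 5) (nat_lit 4) (nat_lit 4) (nat_lit 2) (nat_lit 4) (nat_lit 336) (nat_lit 215) (nat_lit 169)) (XT.lf (nat_lit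 0) (nat_lit 84061105967) (nat_lit 152) (nat_lit 2721384978) (nat_lit 0) (nat_lit 77018439081) (nat_lit 2) (nat_lit 5) (nat_lit 4) (nat_lit 4) (nat_lit 2) (nat_lit 4) (nat_lit 337) (nat_lit 215) (nat_lit 168))))))))
noncomputable def xc41 : XT := (XT.nd (nat_lit 1326) (nat_lit 0) (nat_lit 0) (XT.nd (nat_lit 624) (nat_lit 0) (nat_lit 0) (XT.nd (nat_lit 312) (nat_lit 0) (nat_lit 0) (XT.nd (nat_lit 156) (nat_lit 0) (nat_lit 0) (XT.nd (nat_lit 78) (nat_lit 0) (nat_lit 0) (XT.lf (nat_lit 0) (nat_lit 269514599) (nat_lit 76) (nat_lit 89355758328) (nat_lit 76) (nat_lit 82275435235) (nat_lit 1) (nat_lit 4) (nat_lit 2) (nat_lit 5) (nat_lit 2) (nat_lit 4) (nat_lit 338) (nat_lit 215) (nat_lit 167)) (XT.lf (nat_lit 0) (nat_lit 3479183052) (nat_lit 76) (nat_lit 92020449840) (nat_lit 76) (nat_lit 84904263693) (nat_lit 1) (nat_lit 4) (nat_lit 2) (nat_lit 5) (nat_lit 2) (nat_lit 4) (nat_lit 339) (nat_lit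 215) (nat_lit 166))) (XT.nd (nat_lit 78) (nat_lit 0) (nat_lit 0) (XT.lf (nat_lit 0) (nat_lit 6825281171) (nat_lit 76) (nat_lit 94828997956) (nat_lit 76) (nat_lit 87678656519) (nat_lit 1) (nat_lit 4) (nat_lit 2) (nat_lit 5) (nat_lit 2) (nat_lit 4) (nat_lit 340) (nat_lit 215) (nat_lit 165)) (XT.lf (nat_lit 0) (nat_lit 10315775857) (nat_lit 76) (nat_lit 97788089696) (nat_lit 76) (nat_lit 90605219411) (nat_lit 1) (nat_lit 4) (nat_lit 2) (nat_lit 5) (nat_lit 2) (nat_lit 4) (nat_lit 341) (nat_lit 215) (nat_lit 164)))) (XT.nd (nat_lit 156) (nat_lit 0) (nat_lit 0) (XT.nd (nat_lit 78) (nat_lit 0) (nat_lit 0) (XT.lf (nat_lit 0) (nat_lit 13958977811) (nat_lit 76) (nat_lit 100904770515) (nat_lit 76) (nat_lit 93690920376) (nat_lit 1) (nat_lit 4) (nat_lit 2) (nat_lit 5) (nat_lit 2) (nat_lit 4) (nat_lit 342) (nat_lit 215) (nat_lit 163)) (XT.lf (nat_lit 0) (nat_lit 17763561323) (nat_lit 76) (nat_lit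 104186461083) (nat_lit 76) (nat_lit 96943106321) (nat_lit 1) (nat_lit 4) (nat_lit 2) (nat_lit 5) (nat_lit 2) (nat_lit 4) (nat_lit 343) (nat_lit 215) (nat_lit 162))) (XT.nd (nat_lit 78) (nat_lit 0) (nat_lit 0) (XT.lf (nat_lit 0) (nat_lit 21738584926) (nat_lit 76) (nat_lit 107640974949) (nat_lit 76) (nat_lit 100369520545) (nat_lit 1) (nat_lit 4) (nat_lit 2) (nat_lit 5) (nat_lit 2) (nat_lit 4) (nat_lit 344) (nat_lit 215) (nat_lit 161)) (XT.lf (nat_lit 0) (nat_lit 25893512961) (nat_lit 76) (nat_lit 111276537145) (nat_lit 76) (nat_lit 103978321179) (nat_lit 1) (nat_lit 4) (nat_lit 2) (nat_lit 5) (nat_lit 2) (nat_lit 4) (nat_lit 345) (nat_lit 215) (nat_lit 160))))) (XT.nd (nat_lit 312) (nat_lit 0) (nat_lit 0) (XT.nd (nat_lit 156) (nat_lit 0) (nat_lit 0) (XT.nd (nat_lit 78) (nat_lit 0) (nat_lit 0) (XT.lf (nat_lit 0) (nat_lit 30238238114) (nat_lit 76) (nat_lit 115101803773) (nat_lit 76) (nat_lit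 107778100603) (nat_lit 1) (nat_lit 4) (nat_lit 2) (nat_lit 5) (nat_lit 2) (nat_lit 4) (nat_lit 346) (nat_lit 215) (nat_lit 159)) (XT.lf (nat_lit 0) (nat_lit 34783104970) (nat_lit 76) (nat_lit 119125882609) (nat_lit 76) (nat_lit 111777905912) (nat_lit 1) (nat_lit 4) (nat_lit 2) (nat_lit 5) (nat_lit 2) (nat_lit 4) (nat_lit 347) (nat_lit 215) (nat_lit 158))) (XT.nd (nat_lit 78) (nat_lit 0) (nat_lit 0) (XT.lf (nat_lit 0) (nat_lit 39538934638) (nat_lit 76) (nat_lit 123358354794) (nat_lit 76) (nat_lit 115987260453) (nat_lit 1) (nat_lit 4) (nat_lit 2) (nat_lit 5) (nat_lit 2) (nat_lit 4) (nat_lit 348) (nat_lit 215) (nat_lit 157)) (XT.lf (nat_lit 0) (nat_lit 44517050525) (nat_lit 76) (nat_lit 127809297642) (nat_lit 76) (nat_lit 120416186497) (nat_lit 1) (nat_lit 4) (nat_lit 2) (nat_lit 5) (nat_lit 2) (nat_lit 4) (nat_lit 349) (nat_lit 215) (nat_lit 156)))) (XT.nd (nat_lit 156) (nat_lit 0) (nat_lit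 0) (XT.nd (nat_lit 78) (nat_lit 0) (nat_lit 0) (XT.lf (nat_lit 0) (nat_lit 49729305285) (nat_lit 76) (nat_lit 132489308638) (nat_lit 76) (nat_lit 125075229107) (nat_lit 1) (nat_lit 4) (nat_lit 2) (nat_lit 5) (nat_lit 2) (nat_lit 4) (nat_lit 350) (nat_lit 215) (nat_lit 155)) (XT.lf (nat_lit 0) (nat_lit 55188109051) (nat_lit 76) (nat_lit 137409530662) (nat_lit 76) (nat_lit 129975481242) (nat_lit 1) (nat_lit 4) (nat_lit 2) (nat_lit 5) (nat_lit 2) (nat_lit 4) (nat_lit 351) (nat_lit 215) (nat_lit 154))) (XT.nd (nat_lit 78) (nat_lit 0) (nat_lit 0) (XT.lf (nat_lit 0) (nat_lit 60906458973) (nat_lit 76) (nat_lit 142581678532) (nat_lit 76) (nat_lit 135128610167) (nat_lit 1) (nat_lit 4) (nat_lit 2) (nat_lit 5) (nat_lit 2) (nat_lit 4) (nat_lit 352) (nat_lit 215) (nat_lit 153)) (XT.nd (nat_lit 78) (nat_lit 0) (nat_lit 0) (XT.lf (nat_lit 0) (nat_lit 66897970170) (nat_lit 76) (nat_lit 148018066883)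 (nat_lit 76) (nat_lit 140546885239) (nat_lit 1) (nat_lit 4) (nat_lit 2) (nat_lit 5) (nat_lit 2) (nat_lit 4) (nat_lit 353) (nat_lit 215) (nat_lit 152)) (XT.lf (nat_lit 0) (nat_lit 73176908146) (nat_lit 76) (nat_lit 153731639498) (nat_lit 76) (nat_lit 146243207112) (nat_lit 1) (nat_lit 4) (nat_lit 2) (nat_lit 5) (nat_lit 2) (nat_lit 4) (nat_lit 354) (nat_lit 215) (nat_lit 151))))))) (XT.nd (nat_lit 32292) (nat_lit 0) (nat_lit 456) (XT.nd (nat_lit 312) (nat_lit 0) (nat_lit 0) (XT.nd (nat_lit 156) (nat_lit 0) (nat_lit 0) (XT.nd (nat_lit 78) (nat_lit 0) (nat_lit 0) (XT.lf (nat_lit 0) (nat_lit 79758222752) (nat_lit 76) (nat_lit 159736000121) (nat_lit 76) (nat_lit 152231138456) (nat_lit 1) (nat_lit 4) (nat_lit 2) (nat_lit 5) (nat_lit 2) (nat_lit 4) (nat_lit 355) (nat_lit 215) (nat_lit 150)) (XT.lf (nat_lit 0) (nat_lit 86657583786) (nat_lit 76) (nat_lit 166045444848) (nat_lit 76) (nat_lit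 158524936253) (nat_lit 1) (nat_lit 4) (nat_lit 2) (nat_lit 5) (nat_lit 2) (nat_lit 4) (nat_lit 356) (nat_lit 215) (nat_lit 149))) (XT.nd (nat_lit 78) (nat_lit 0) (nat_lit 0) (XT.lf (nat_lit 0) (nat_lit 93891418296) (nat_lit 76) (nat_lit 172674996168) (nat_lit 76) (nat_lit 165139585733) (nat_lit 1) (nat_lit 4) (nat_lit 2) (nat_lit 5) (nat_lit 2) (nat_lit 4) (nat_lit 357) (nat_lit 215) (nat_lit 148)) (XT.lf (nat_lit 0) (nat_lit 101476949700) (nat_lit 76) (nat_lit 179640438727) (nat_lit 76) (nat_lit 172090836063) (nat_lit 1) (nat_lit 4) (nat_lit 2) (nat_lit 5) (nat_lit 2) (nat_lit 4) (nat_lit 358) (nat_lit 215) (nat_lit 147)))) (XT.nd (nat_lit 156) (nat_lit 0) (nat_lit 0) (XT.nd (nat_lit 78) (nat_lit 0) (nat_lit 0) (XT.lf (nat_lit 0) (nat_lit 109432238786) (nat_lit 76) (nat_lit 186958356910) (nat_lit 76) (nat_lit 179395237839) (nat_lit 1) (nat_lit 4) (nat_lit 2) (nat_lit 5) (nat_lit 2)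 (nat_lit 4) (nat_lit 359) (nat_lit 215) (nat_lit 146)) (XT.lf (nat_lit 0) (nat_lit 117776226718) (nat_lit 76) (nat_lit 194646174334) (nat_lit 76) (nat_lit 187070182493) (nat_lit 1) (nat_lit 4) (nat_lit 2) (nat_lit 5) (nat_lit 2) (nat_lit 4) (nat_lit 360) (nat_lit 215) (nat_lit 145))) (XT.nd (nat_lit 78) (nat_lit 0) (nat_lit 0) (XT.lf (nat_lit 0) (nat_lit 126528780134) (nat_lit 76) (nat_lit 202722195325) (nat_lit 76) (nat_lit 195133943703) (nat_lit 1) (nat_lit 4) (nat_lit 2) (nat_lit 5) (nat_lit 2) (nat_lit 4) (nat_lit 361) (nat_lit 215) (nat_lit 144)) (XT.nd (nat_lit 78) (nat_lit 0) (nat_lit 0) (XT.lf (nat_lit 0) (nat_lit 135710738448) (nat_lit 76) (nat_lit 211205648504) (nat_lit 76) (nat_lit 203605720901) (nat_lit 1) (nat_lit 4) (nat_lit 2) (nat_lit 5) (nat_lit 2) (nat_lit 4) (nat_lit 362) (nat_lit 215) (nat_lit 143)) (XT.lf (nat_lit 0) (nat_lit 145343963464) (nat_lit 76) (nat_lit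 220116732571) (nat_lit 76) (nat_lit 212505684985) (nat_lit 1) (nat_lit 4) (nat_lit 2) (nat_lit 5) (nat_lit 2) (nat_lit 4) (nat_lit 363) (nat_lit 215) (nat_lit 142)))))) (XT.nd (nat_lit 312) (nat_lit 76) (nat_lit 0) (XT.nd (nat_lit 156) (nat_lit 152) (nat_lit 0) (XT.nd (nat_lit 78) (nat_lit 0) (nat_lit 0) (XT.lf (nat_lit 0) (nat_lit 3921066940) (nat_lit 152) (nat_lit 2465816060) (nat_lit 152) (nat_lit 2465816060) (nat_lit 10) (nat_lit 4) (nat_lit 12) (nat_lit 5) (nat_lit 12) (nat_lit 4) (nat_lit 288) (nat_lit 216) (nat_lit 216)) (XT.lf (nat_lit 0) (nat_lit 14252246840) (nat_lit 152) (nat_lit 2301539300) (nat_lit 152) (nat_lit 1848129583) (nat_lit 10) (nat_lit 4) (nat_lit 12) (nat_lit 5) (nat_lit 12) (nat_lit 4) (nat_lit 289) (nat_lit 216) (nat_lit 215))) (XT.nd (nat_lit 78) (nat_lit 0) (nat_lit 0) (XT.lf (nat_lit 0) (nat_lit 1262173687) (nat_lit 152) (nat_lit 17455283237) (nat_lit 0)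 (nat_lit 419098929) (nat_lit 8) (nat_lit 5) (nat_lit 10) (nat_lit 4) (nat_lit 8) (nat_lit 4) (nat_lit 290) (nat_lit 216) (nat_lit 214)) (XT.lf (nat_lit 0) (nat_lit 4460370883) (nat_lit 152) (nat_lit 12220919201) (nat_lit 0) (nat_lit 3225623764) (nat_lit 8) (nat_lit 5) (nat_lit 10) (nat_lit 4) (nat_lit 8) (nat_lit 4) (nat_lit 291) (nat_lit 216) (nat_lit 213)))) (XT.nd (nat_lit 156) (nat_lit 76) (nat_lit 0) (XT.nd (nat_lit 78) (nat_lit 0) (nat_lit 0) (XT.lf (nat_lit 0) (nat_lit 7709267611) (nat_lit 152) (nat_lit 6910697854) (nat_lit 0) (nat_lit 6101499195) (nat_lit 8) (nat_lit 5) (nat_lit 10) (nat_lit 4) (nat_lit 8) (nat_lit 4) (nat_lit 292) (nat_lit 216) (nat_lit 212)) (XT.lf (nat_lit 0) (nat_lit 11016599339) (nat_lit 152) (nat_lit 1511975810) (nat_lit 0) (nat_lit 9053572545) (nat_lit 8) (nat_lit 5) (nat_lit 10) (nat_lit 4) (nat_lit 8) (nat_lit 4) (nat_lit 293) (nat_lit 216) (nat_lit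 211))) (XT.nd (nat_lit 78) (nat_lit 0) (nat_lit 0) (XT.lf (nat_lit 0) (nat_lit 4119965658) (nat_lit 76) (nat_lit 10334599217) (nat_lit 76) (nat_lit 8033231111) (nat_lit 7) (nat_lit 4) (nat_lit 8) (nat_lit 5) (nat_lit 8) (nat_lit 4) (nat_lit 294) (nat_lit 216) (nat_lit 210)) (XT.nd (nat_lit 78) (nat_lit 0) (nat_lit 0) (XT.lf (nat_lit 0) (nat_lit 9920134334) (nat_lit 76) (nat_lit 8072970834) (nat_lit 76) (nat_lit 5449372907) (nat_lit 7) (nat_lit 4) (nat_lit 8) (nat_lit 5) (nat_lit 8) (nat_lit 4) (nat_lit 295) (nat_lit 216) (nat_lit 209)) (XT.lf (nat_lit 0) (nat_lit 15852347393) (nat_lit 76) (nat_lit 5763911214) (nat_lit 76) (nat_lit 2833427743) (nat_lit 7) (nat_lit 4) (nat_lit 8) (nat_lit 5) (nat_lit 8) (nat_lit 4) (nat_lit 296) (nat_lit 216) (nat_lit 208))))))))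
noncomputable def xc42 : XT := (XT.nd (nat_lit 1326) (nat_lit 76) (nat_lit 0) (XT.nd (nat_lit 624) (nat_lit 76) (nat_lit 0) (XT.nd (nat_lit 312) (nat_lit 76) (nat_lit 0) (XT.nd (nat_lit 156) (nat_lit 0) (nat_lit 0) (XT.nd (nat_lit 78) (nat_lit 152) (nat_lit 0) (XT.lf (nat_lit 0) (nat_lit 21930729153) (nat_lit 76) (nat_lit 3401922595) (nat_lit 76) (nat_lit 179167177) (nat_lit 7) (nat_lit 4) (nat_lit 8) (nat_lit 5) (nat_lit 8) (nat_lit 4) (nat_lit 297) (nat_lit 216) (nat_lit 207)) (XT.lf (nat_lit 0) (nat_lit 1548571187) (nat_lit 76) (nat_lit 914687759) (nat_lit 152) (nat_lit 24164969864) (nat_lit 5) (nat_lit 5) (nat_lit 6) (nat_lit 5) (nat_lit 7) (nat_lit 4) (nat_lit 298) (nat_lit 216) (nat_lit 206))) (XT.nd (nat_lit 78) (nat_lit 0) (nat_lit 0) (XT.lf (nat_lit 0) (nat_lit 5235531176) (nat_lit 152) (nat_lit 20916073434) (nat_lit 0) (nat_lit 1648665534) (nat_lit 5) (nat_lit 5) (nat_lit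 7) (nat_lit 4) (nat_lit 5) (nat_lit 4) (nat_lit 299) (nat_lit 216) (nat_lit 205)) (XT.lf (nat_lit 0) (nat_lit 8081041215) (nat_lit 152) (nat_lit 16699556607) (nat_lit 0) (nat_lit 4253722719) (nat_lit 5) (nat_lit 5) (nat_lit 7) (nat_lit 4) (nat_lit 5) (nat_lit 4) (nat_lit 300) (nat_lit 216) (nat_lit 204)))) (XT.nd (nat_lit 156) (nat_lit 76) (nat_lit 0) (XT.nd (nat_lit 78) (nat_lit 0) (nat_lit 0) (XT.lf (nat_lit 0) (nat_lit 10992283246) (nat_lit 152) (nat_lit 12405786977) (nat_lit 0) (nat_lit 6935962033) (nat_lit 5) (nat_lit 5) (nat_lit 7) (nat_lit 4) (nat_lit 5) (nat_lit 4) (nat_lit 301) (nat_lit 216) (nat_lit 203)) (XT.lf (nat_lit 0) (nat_lit 13976188799) (nat_lit 152) (nat_lit 8024541284) (nat_lit 0) (nat_lit 9701769759) (nat_lit 5) (nat_lit 5) (nat_lit 7) (nat_lit 4) (nat_lit 5) (nat_lit 4) (nat_lit 302) (nat_lit 216) (nat_lit 202))) (XT.nd (nat_lit 78) (nat_lit 76) (nat_lit 0) (XT.lf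 (nat_lit 0) (nat_lit 17039862410) (nat_lit 152) (nat_lit 3545387989) (nat_lit 0) (nat_lit 12557731154) (nat_lit 5) (nat_lit 5) (nat_lit 7) (nat_lit 4) (nat_lit 5) (nat_lit 4) (nat_lit 303) (nat_lit 216) (nat_lit 201)) (XT.lf (nat_lit 0) (nat_lit 1076801944) (nat_lit 76) (nat_lit 19130608492) (nat_lit 76) (nat_lit 14450656078) (nat_lit 4) (nat_lit 4) (nat_lit 5) (nat_lit 5) (nat_lit 5) (nat_lit 4) (nat_lit 304) (nat_lit 216) (nat_lit 200))))) (XT.nd (nat_lit 312) (nat_lit 76) (nat_lit 0) (XT.nd (nat_lit 156) (nat_lit 0) (nat_lit 0) (XT.nd (nat_lit 78) (nat_lit 0) (nat_lit 0) (XT.lf (nat_lit 0) (nat_lit 5939664882) (nat_lit 76) (nat_lit 17588968875) (nat_lit 76) (nat_lit 12720615358) (nat_lit 4) (nat_lit 4) (nat_lit 5) (nat_lit 5) (nat_lit 5) (nat_lit 4) (nat_lit 305) (nat_lit 216) (nat_lit 199)) (XT.lf (nat_lit 0) (nat_lit 10937552531) (nat_lit 76) (nat_lit 16016703838) (nat_lit 76)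 (nat_lit 10968920700) (nat_lit 4) (nat_lit 4) (nat_lit 5) (nat_lit 5) (nat_lit 5) (nat_lit 4) (nat_lit 306) (nat_lit 216) (nat_lit 198))) (XT.nd (nat_lit 78) (nat_lit 0) (nat_lit 0) (XT.lf (nat_lit 0) (nat_lit 16082364623) (nat_lit 76) (nat_lit 14410069895) (nat_lit 76) (nat_lit 9191401403) (nat_lit 4) (nat_lit 4) (nat_lit 5) (nat_lit 5) (nat_lit 5) (nat_lit 4) (nat_lit 307) (nat_lit 216) (nat_lit 197)) (XT.lf (nat_lit 0) (nat_lit 21386350711) (nat_lit 76) (nat_lit 12765241725) (nat_lit 76) (nat_lit 7383825277) (nat_lit 4) (nat_lit 4) (nat_lit 5) (nat_lit 5) (nat_lit 5) (nat_lit 4) (nat_lit 308) (nat_lit 216) (nat_lit 196)))) (XT.nd (nat_lit 156) (nat_lit 76) (nat_lit 0) (XT.nd (nat_lit 78) (nat_lit 0) (nat_lit 0) (XT.lf (nat_lit 0) (nat_lit 26862139333) (nat_lit 76) (nat_lit 11078303072) (nat_lit 76) (nat_lit 5541888570) (nat_lit 4) (nat_lit 4) (nat_lit 5) (nat_lit 5) (nat_lit 5)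 (nat_lit 4) (nat_lit 309) (nat_lit 216) (nat_lit 195)) (XT.lf (nat_lit 0) (nat_lit 32522768082) (nat_lit 76) (nat_lit 9345237415) (nat_lit 76) (nat_lit 3661205719) (nat_lit 4) (nat_lit 4) (nat_lit 5) (nat_lit 5) (nat_lit 5) (nat_lit 4) (nat_lit 310) (nat_lit 216) (nat_lit 194))) (XT.nd (nat_lit 78) (nat_lit 76) (nat_lit 0) (XT.lf (nat_lit 0) (nat_lit 38381714644) (nat_lit 76) (nat_lit 7561918406) (nat_lit 76) (nat_lit 1737298907) (nat_lit 4) (nat_lit 4) (nat_lit 5) (nat_lit 5) (nat_lit 5) (nat_lit 4) (nat_lit 311) (nat_lit 216) (nat_lit 193)) (XT.nd (nat_lit 78) (nat_lit 0) (nat_lit 0) (XT.lf (nat_lit 0) (nat_lit 226909929) (nat_lit 152) (nat_lit 5493347290) (nat_lit 76) (nat_lit 44222176134) (nat_lit 3) (nat_lit 5) (nat_lit 5) (nat_lit 5) (nat_lit 4) (nat_lit 4) (nat_lit 312) (nat_lit 216) (nat_lit 192)) (XT.lf (nat_lit 0) (nat_lit 2186333290) (nat_lit 152) (nat_lit 1604046682) (nat_lit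 76) (nat_lit 48527506197) (nat_lit 3) (nat_lit 5) (nat_lit 5) (nat_lit 5) (nat_lit 4) (nat_lit 4) (nat_lit 313) (nat_lit 216) (nat_lit 191))))))) (XT.nd (nat_lit 624) (nat_lit 0) (nat_lit 0) (XT.nd (nat_lit 312) (nat_lit 0) (nat_lit 0) (XT.nd (nat_lit 156) (nat_lit 0) (nat_lit 0) (XT.nd (nat_lit 78) (nat_lit 0) (nat_lit 0) (XT.lf (nat_lit 0) (nat_lit 2484591292) (nat_lit 76) (nat_lit 1755441025) (nat_lit 152) (nat_lit 50572330564) (nat_lit 2) (nat_lit 5) (nat_lit 3) (nat_lit 5) (nat_lit 4) (nat_lit 4) (nat_lit 314) (nat_lit 216) (nat_lit 190)) (XT.lf (nat_lit 0) (nat_lit 6387871745) (nat_lit 152) (nat_lit 50678345613) (nat_lit 0) (nat_lit 365836610) (nat_lit 2) (nat_lit 5) (nat_lit 4) (nat_lit 4) (nat_lit 2) (nat_lit 4) (nat_lit 315) (nat_lit 216) (nat_lit 189))) (XT.nd (nat_lit 78) (nat_lit 0) (nat_lit 0) (XT.lf (nat_lit 0) (nat_lit 8631778495) (nat_lit 152) (nat_lit 49046743069)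 (nat_lit 0) (nat_lit 2504834576) (nat_lit 2) (nat_lit 5) (nat_lit 4) (nat_lit 4) (nat_lit 2) (nat_lit 4) (nat_lit 316) (nat_lit 216) (nat_lit 188)) (XT.lf (nat_lit 0) (nat_lit 10949687848) (nat_lit 152) (nat_lit 47401671835) (nat_lit 0) (nat_lit 4722830801) (nat_lit 2) (nat_lit 5) (nat_lit 4) (nat_lit 4) (nat_lit 2) (nat_lit 4) (nat_lit 317) (nat_lit 216) (nat_lit 187)))) (XT.nd (nat_lit 156) (nat_lit 0) (nat_lit 0) (XT.nd (nat_lit 78) (nat_lit 0) (nat_lit 0) (XT.lf (nat_lit 0) (nat_lit 13347118635) (nat_lit 152) (nat_lit 45739215076) (nat_lit 0) (nat_lit 7025106229) (nat_lit 2) (nat_lit 5) (nat_lit 4) (nat_lit 4) (nat_lit 2) (nat_lit 4) (nat_lit 318) (nat_lit 216) (nat_lit 186)) (XT.lf (nat_lit 0) (nat_lit 15829779025) (nat_lit 152) (nat_lit 44055414560) (nat_lit 0) (nat_lit 9417142468) (nat_lit 2) (nat_lit 5) (nat_lit 4) (nat_lit 4) (nat_lit 2) (nat_lit 4) (nat_lit 319) (nat_lit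 216) (nat_lit 185))) (XT.nd (nat_lit 78) (nat_lit 0) (nat_lit 0) (XT.lf (nat_lit 0) (nat_lit 18403580115) (nat_lit 152) (nat_lit 42346261239) (nat_lit 0) (nat_lit 11904634841) (nat_lit 2) (nat_lit 5) (nat_lit 4) (nat_lit 4) (nat_lit 2) (nat_lit 4) (nat_lit 320) (nat_lit 216) (nat_lit 184)) (XT.lf (nat_lit 0) (nat_lit 21074650001) (nat_lit 152) (nat_lit 40607685700) (nat_lit 0) (nat_lit 14493505950) (nat_lit 2) (nat_lit 5) (nat_lit 4) (nat_lit 4) (nat_lit 2) (nat_lit 4) (nat_lit 321) (nat_lit 216) (nat_lit 183))))) (XT.nd (nat_lit 312) (nat_lit 0) (nat_lit 0) (XT.nd (nat_lit 156) (nat_lit 0) (nat_lit 0) (XT.nd (nat_lit 78) (nat_lit 0) (nat_lit 0) (XT.lf (nat_lit 0) (nat_lit 23849348374) (nat_lit 152) (nat_lit 38835548478) (nat_lit 0) (nat_lit 17189919774) (nat_lit 2) (nat_lit 5) (nat_lit 4) (nat_lit 4) (nat_lit 2) (nat_lit 4) (nat_lit 322) (nat_lit 216) (nat_lit 182)) (XT.lf (nat_lit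 0) (nat_lit 26734281660) (nat_lit 152) (nat_lit 37025630198) (nat_lit 0) (nat_lit 20000296346) (nat_lit 2) (nat_lit 5) (nat_lit 4) (nat_lit 4) (nat_lit 2) (nat_lit 4) (nat_lit 323) (nat_lit 216) (nat_lit 181))) (XT.nd (nat_lit 78) (nat_lit 0) (nat_lit 0) (XT.lf (nat_lit 0) (nat_lit 29736318746) (nat_lit 152) (nat_lit 35173621531) (nat_lit 0) (nat_lit 22931327037) (nat_lit 2) (nat_lit 5) (nat_lit 4) (nat_lit 4) (nat_lit 2) (nat_lit 4) (nat_lit 324) (nat_lit 216) (nat_lit 180)) (XT.lf (nat_lit 0) (nat_lit 32862607340) (nat_lit 152) (nat_lit 33275112933) (nat_lit 0) (nat_lit 25989990494) (nat_lit 2) (nat_lit 5) (nat_lit 4) (nat_lit 4) (nat_lit 2) (nat_lit 4) (nat_lit 325) (nat_lit 216) (nat_lit 179)))) (XT.nd (nat_lit 156) (nat_lit 0) (nat_lit 0) (XT.nd (nat_lit 78) (nat_lit 0) (nat_lit 0) (XT.lf (nat_lit 0) (nat_lit 36120590986) (nat_lit 152) (nat_lit 31325584144) (nat_lit 0) (nat_lit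 29183569248) (nat_lit 2) (nat_lit 5) (nat_lit 4) (nat_lit 4) (nat_lit 2) (nat_lit 4) (nat_lit 326) (nat_lit 216) (nat_lit 178)) (XT.lf (nat_lit 0) (nat_lit 39518026789) (nat_lit 152) (nat_lit 29320393431) (nat_lit 0) (nat_lit 32519667057) (nat_lit 2) (nat_lit 5) (nat_lit 4) (nat_lit 4) (nat_lit 2) (nat_lit 4) (nat_lit 327) (nat_lit 216) (nat_lit 177))) (XT.nd (nat_lit 78) (nat_lit 0) (nat_lit 0) (XT.lf (nat_lit 0) (nat_lit 43063003880) (nat_lit 152) (nat_lit 27254766529) (nat_lit 0) (nat_lit 36006227013) (nat_lit 2) (nat_lit 5) (nat_lit 4) (nat_lit 4) (nat_lit 2) (nat_lit 4) (nat_lit 328) (nat_lit 216) (nat_lit 176)) (XT.nd (nat_lit 78) (nat_lit 0) (nat_lit 0) (XT.lf (nat_lit 0) (nat_lit 46763962683) (nat_lit 152) (nat_lit 25123785279) (nat_lit 0) (nat_lit 39651550447) (nat_lit 2) (nat_lit 5) (nat_lit 4) (nat_lit 4) (nat_lit 2) (nat_lit 4) (nat_lit 329) (nat_lit 216) (nat_lit 175))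 (XT.lf (nat_lit 0) (nat_lit 50629715003) (nat_lit 152) (nat_lit 22922375916) (nat_lit 0) (nat_lit 43464316703) (nat_lit 2) (nat_lit 5) (nat_lit 4) (nat_lit 4) (nat_lit 2) (nat_lit 4) (nat_lit 330) (nat_lit 216) (nat_lit 174))))))))
noncomputable def xc43 : XT := (XT.nd (nat_lit 1326) (nat_lit 0) (nat_lit 0) (XT.nd (nat_lit 624) (nat_lit 76) (nat_lit 0) (XT.nd (nat_lit 312) (nat_lit 0) (nat_lit 0) (XT.nd (nat_lit 156) (nat_lit 0) (nat_lit 0) (XT.nd (nat_lit 78) (nat_lit 0) (nat_lit 0) (XT.lf (nat_lit 0) (nat_lit 54669465012) (nat_lit 152) (nat_lit 20645296989) (nat_lit 0) (nat_lit 47453603793) (nat_lit 2) (nat_lit 5) (nat_lit 4) (nat_lit 4) (nat_lit 2) (nat_lit 4) (nat_lit 331) (nat_lit 216) (nat_lit 173)) (XT.lf (nat_lit 0) (nat_lit 58892831163) (nat_lit 152) (nat_lit 18287126881) (nat_lit 0) (nat_lit 51628910022) (nat_lit 2) (nat_lit 5) (nat_lit 4) (nat_lit 4) (nat_lit 2) (nat_lit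 4) (nat_lit 332) (nat_lit 216) (nat_lit 172))) (XT.nd (nat_lit 78) (nat_lit 0) (nat_lit 0) (XT.lf (nat_lit 0) (nat_lit 63309869090) (nat_lit 152) (nat_lit 15842250903) (nat_lit 0) (nat_lit 56000176594) (nat_lit 2) (nat_lit 5) (nat_lit 4) (nat_lit 4) (nat_lit 2) (nat_lit 4) (nat_lit 333) (nat_lit 216) (nat_lit 171)) (XT.lf (nat_lit 0) (nat_lit 67931095550) (nat_lit 152) (nat_lit 13304847921) (nat_lit 0) (nat_lit 60577811288) (nat_lit 2) (nat_lit 5) (nat_lit 4) (nat_lit 4) (nat_lit 2) (nat_lit 4) (nat_lit 334) (nat_lit 216) (nat_lit 170)))) (XT.nd (nat_lit 156) (nat_lit 0) (nat_lit 0) (XT.nd (nat_lit 78) (nat_lit 0) (nat_lit 0) (XT.lf (nat_lit 0) (nat_lit 72767513463) (nat_lit 152) (nat_lit 10668876498) (nat_lit 0) (nat_lit 65372713232) (nat_lit 2) (nat_lit 5) (nat_lit 4) (nat_lit 4) (nat_lit 2) (nat_lit 4) (nat_lit 335) (nat_lit 216) (nat_lit 169)) (XT.lf (nat_lit 0) (nat_lit 77830638109)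 (nat_lit 152) (nat_lit 7928060513) (nat_lit 0) (nat_lit 70396298861) (nat_lit 2) (nat_lit 5) (nat_lit 4) (nat_lit 4) (nat_lit 2) (nat_lit 4) (nat_lit 336) (nat_lit 216) (nat_lit 168))) (XT.nd (nat_lit 78) (nat_lit 0) (nat_lit 0) (XT.lf (nat_lit 0) (nat_lit 83132524547) (nat_lit 152) (nat_lit 5075874213) (nat_lit 0) (nat_lit 75660529092) (nat_lit 2) (nat_lit 5) (nat_lit 4) (nat_lit 4) (nat_lit 2) (nat_lit 4) (nat_lit 337) (nat_lit 216) (nat_lit 167)) (XT.lf (nat_lit 0) (nat_lit 88685796316) (nat_lit 152) (nat_lit 2105526679) (nat_lit 0) (nat_lit 81177937808) (nat_lit 2) (nat_lit 5) (nat_lit 4) (nat_lit 4) (nat_lit 2) (nat_lit 4) (nat_lit 338) (nat_lit 216) (nat_lit 166))))) (XT.nd (nat_lit 312) (nat_lit 0) (nat_lit 0) (XT.nd (nat_lit 156) (nat_lit 0) (nat_lit 0) (XT.nd (nat_lit 78) (nat_lit 0) (nat_lit 0) (XT.lf (nat_lit 0) (nat_lit 1022790013) (nat_lit 76) (nat_lit 93496854098) (nat_lit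 76) (nat_lit 85954840300) (nat_lit 1) (nat_lit 4) (nat_lit 2) (nat_lit 5) (nat_lit 2) (nat_lit 4) (nat_lit 339) (nat_lit 216) (nat_lit 165)) (XT.lf (nat_lit 0) (nat_lit 4357713332) (nat_lit 76) (nat_lit 96310336955) (nat_lit 76) (nat_lit 88735794309) (nat_lit 1) (nat_lit 4) (nat_lit 2) (nat_lit 5) (nat_lit 2) (nat_lit 4) (nat_lit 340) (nat_lit 216) (nat_lit 164))) (XT.nd (nat_lit 78) (nat_lit 0) (nat_lit 0) (XT.lf (nat_lit 0) (nat_lit 7837565352) (nat_lit 76) (nat_lit 99274128447) (nat_lit 76) (nat_lit 91668605946) (nat_lit 1) (nat_lit 4) (nat_lit 2) (nat_lit 5) (nat_lit 2) (nat_lit 4) (nat_lit 341) (nat_lit 216) (nat_lit 163)) (XT.lf (nat_lit 0) (nat_lit 11470631433) (nat_lit 76) (nat_lit 102395285221) (nat_lit 76) (nat_lit 94760258097) (nat_lit 1) (nat_lit 4) (nat_lit 2) (nat_lit 5) (nat_lit 2) (nat_lit 4) (nat_lit 342) (nat_lit 216) (nat_lit 162)))) (XT.nd (nat_lit 156) (nat_lit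 0) (nat_lit 0) (XT.nd (nat_lit 78) (nat_lit 0) (nat_lit 0) (XT.lf (nat_lit 0) (nat_lit 15265561732) (nat_lit 76) (nat_lit 105681238604) (nat_lit 76) (nat_lit 98018111839) (nat_lit 1) (nat_lit 4) (nat_lit 2) (nat_lit 5) (nat_lit 2) (nat_lit 4) (nat_lit 343) (nat_lit 216) (nat_lit 161)) (XT.lf (nat_lit 0) (nat_lit 19231391800) (nat_lit 76) (nat_lit 109139812292) (nat_lit 76) (nat_lit 101449923964) (nat_lit 1) (nat_lit 4) (nat_lit 2) (nat_lit 5) (nat_lit 2) (nat_lit 4) (nat_lit 344) (nat_lit 216) (nat_lit 160))) (XT.nd (nat_lit 78) (nat_lit 0) (nat_lit 0) (XT.lf (nat_lit 0) (nat_lit 23377564087) (nat_lit 76) (nat_lit 112779240987) (nat_lit 76) (nat_lit 105063865456) (nat_lit 1) (nat_lit 4) (nat_lit 2) (nat_lit 5) (nat_lit 2) (nat_lit 4) (nat_lit 345) (nat_lit 216) (nat_lit 159)) (XT.nd (nat_lit 78) (nat_lit 0) (nat_lit 0) (XT.lf (nat_lit 0) (nat_lit 27713950433) (nat_lit 76) (nat_lit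 116608189994) (nat_lit 76) (nat_lit 108868540935) (nat_lit 1) (nat_lit 4) (nat_lit 2) (nat_lit 5) (nat_lit 2) (nat_lit 4) (nat_lit 346) (nat_lit 216) (nat_lit 158)) (XT.lf (nat_lit 0) (nat_lit 32250875566) (nat_lit 76) (nat_lit 120635775858) (nat_lit 76) (nat_lit 112873009155) (nat_lit 1) (nat_lit 4) (nat_lit 2) (nat_lit 5) (nat_lit 2) (nat_lit 4) (nat_lit 347) (nat_lit 216) (nat_lit 157))))))) (XT.nd (nat_lit 702) (nat_lit 0) (nat_lit 0) (XT.nd (nat_lit 312) (nat_lit 0) (nat_lit 0) (XT.nd (nat_lit 156) (nat_lit 0) (nat_lit 0) (XT.nd (nat_lit 78) (nat_lit 0) (nat_lit 0) (XT.lf (nat_lit 0) (nat_lit 36999141691) (nat_lit 76) (nat_lit 124871588069) (nat_lit 76) (nat_lit 117086804562) (nat_lit 1) (nat_lit 4) (nat_lit 2) (nat_lit 5) (nat_lit 2) (nat_lit 4) (nat_lit 348) (nat_lit 216) (nat_lit 156)) (XT.lf (nat_lit 0) (nat_lit 41970054201) (nat_lit 76) (nat_lit 129325711895) (nat_lit 76)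 (nat_lit 121519960003) (nat_lit 1) (nat_lit 4) (nat_lit 2) (nat_lit 5) (nat_lit 2) (nat_lit 4) (nat_lit 349) (nat_lit 216) (nat_lit 155))) (XT.nd (nat_lit 78) (nat_lit 0) (nat_lit 0) (XT.lf (nat_lit 0) (nat_lit 47175448604) (nat_lit 76) (nat_lit 134008752393) (nat_lit 76) (nat_lit 126183030610) (nat_lit 1) (nat_lit 4) (nat_lit 2) (nat_lit 5) (nat_lit 2) (nat_lit 4) (nat_lit 350) (nat_lit 216) (nat_lit 154)) (XT.lf (nat_lit 0) (nat_lit 52627718696) (nat_lit 76) (nat_lit 138931859658) (nat_lit 76) (nat_lit 131087118932) (nat_lit 1) (nat_lit 4) (nat_lit 2) (nat_lit 5) (nat_lit 2) (nat_lit 4) (nat_lit 351) (nat_lit 216) (nat_lit 153)))) (XT.nd (nat_lit 156) (nat_lit 0) (nat_lit 0) (XT.nd (nat_lit 78) (nat_lit 0) (nat_lit 0) (XT.lf (nat_lit 0) (nat_lit 58339846071) (nat_lit 76) (nat_lit 144106755375) (nat_lit 76) (nat_lit 136243901370) (nat_lit 1) (nat_lit 4) (nat_lit 2) (nat_lit 5) (nat_lit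 2) (nat_lit 4) (nat_lit 352) (nat_lit 216) (nat_lit 152)) (XT.lf (nat_lit 0) (nat_lit 64325431034) (nat_lit 76) (nat_lit 149545760725) (nat_lit 76) (nat_lit 141665655977) (nat_lit 1) (nat_lit 4) (nat_lit 2) (nat_lit 5) (nat_lit 2) (nat_lit 4) (nat_lit 353) (nat_lit 216) (nat_lit 151))) (XT.nd (nat_lit 78) (nat_lit 0) (nat_lit 0) (XT.lf (nat_lit 0) (nat_lit 70598724976) (nat_lit 76) (nat_lit 155261825719) (nat_lit 76) (nat_lit 147365291693) (nat_lit 1) (nat_lit 4) (nat_lit 2) (nat_lit 5) (nat_lit 2) (nat_lit 4) (nat_lit 354) (nat_lit 216) (nat_lit 150)) (XT.nd (nat_lit 78) (nat_lit 0) (nat_lit 0) (XT.lf (nat_lit 0) (nat_lit 77174664312) (nat_lit 76) (nat_lit 161268560036) (nat_lit 76) (nat_lit 153356379079) (nat_lit 1) (nat_lit 4) (nat_lit 2) (nat_lit 5) (nat_lit 2) (nat_lit 4) (nat_lit 355) (nat_lit 216) (nat_lit 149)) (XT.lf (nat_lit 0) (nat_lit 84068906041) (nat_lit 76) (nat_lit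 167580265425) (nat_lit 76) (nat_lit 159653182628) (nat_lit 1) (nat_lit 4) (nat_lit 2) (nat_lit 5) (nat_lit 2) (nat_lit 4) (nat_lit 356) (nat_lit 216) (nat_lit 148)))))) (XT.nd (nat_lit 312) (nat_lit 0) (nat_lit 0) (XT.nd (nat_lit 156) (nat_lit 0) (nat_lit 0) (XT.nd (nat_lit 78) (nat_lit 0) (nat_lit 0) (XT.lf (nat_lit 0) (nat_lit 91297865024) (nat_lit 76) (nat_lit 174211969756) (nat_lit 76) (nat_lit 166270694731) (nat_lit 1) (nat_lit 4) (nat_lit 2) (nat_lit 5) (nat_lit 2) (nat_lit 4) (nat_lit 357) (nat_lit 216) (nat_lit 147)) (XT.lf (nat_lit 0) (nat_lit 98878753068) (nat_lit 76) (nat_lit 181179462801) (nat_lit 76) (nat_lit 173224671368) (nat_lit 1) (nat_lit 4) (nat_lit 2) (nat_lit 5) (nat_lit 2) (nat_lit 4) (nat_lit 358) (nat_lit 216) (nat_lit 146))) (XT.nd (nat_lit 78) (nat_lit 0) (nat_lit 0) (XT.lf (nat_lit 0) (nat_lit 106829619906) (nat_lit 76) (nat_lit 188499333829) (nat_lit 76)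 (nat_lit 180531669626) (nat_lit 1) (nat_lit 4) (nat_lit 2) (nat_lit 5) (nat_lit 2) (nat_lit 4) (nat_lit 359) (nat_lit 216) (nat_lit 145)) (XT.lf (nat_lit 0) (nat_lit 115169396173) (nat_lit 76) (nat_lit 196189011104) (nat_lit 76) (nat_lit 188209087121) (nat_lit 1) (nat_lit 4) (nat_lit 2) (nat_lit 5) (nat_lit 2) (nat_lit 4) (nat_lit 360) (nat_lit 216) (nat_lit 144)))) (XT.nd (nat_lit 156) (nat_lit 0) (nat_lit 0) (XT.nd (nat_lit 78) (nat_lit 0) (nat_lit 0) (XT.lf (nat_lit 0) (nat_lit 123917938480) (nat_lit 76) (nat_lit 204266803383) (nat_lit 76) (nat_lit 196275203418) (nat_lit 1) (nat_lit 4) (nat_lit 2) (nat_lit 5) (nat_lit 2) (nat_lit 4) (nat_lit 361) (nat_lit 216) (nat_lit 143)) (XT.lf (nat_lit 0) (nat_lit 133096076690) (nat_lit 76) (nat_lit 212751943502) (nat_lit 76) (nat_lit 204749223556) (nat_lit 1) (nat_lit 4) (nat_lit 2) (nat_lit 5) (nat_lit 2) (nat_lit 4) (nat_lit 362) (nat_lit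 216) (nat_lit 142))) (XT.nd (nat_lit 31512) (nat_lit 0) (nat_lit 684) (XT.lf (nat_lit 0) (nat_lit 142725663512) (nat_lit 76) (nat_lit 221664634178) (nat_lit 76) (nat_lit 213651323772) (nat_lit 1) (nat_lit 4) (nat_lit 2) (nat_lit 5) (nat_lit 2) (nat_lit 4) (nat_lit 363) (nat_lit 216) (nat_lit 141)) (XT.nd (nat_lit 78) (nat_lit 152) (nat_lit 0) (XT.lf (nat_lit 0) (nat_lit 3005717735) (nat_lit 152) (nat_lit 2199258436) (nat_lit 0) (nat_lit 3005717735) (nat_lit 12) (nat_lit 5) (nat_lit 14) (nat_lit 4) (nat_lit 12) (nat_lit 4) (nat_lit 286) (nat_lit 217) (nat_lit 217)) (XT.lf (nat_lit 0) (nat_lit 1547757287) (nat_lit 152) (nat_lit 7988157376) (nat_lit 152) (nat_lit 7512077173) (nat_lit 10) (nat_lit 4) (nat_lit 12) (nat_lit 5) (nat_lit 12) (nat_lit 4) (nat_lit 287) (nat_lit 217) (nat_lit 216))))))))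
noncomputable def xc44 : XT := (XT.nd (nat_lit 1326) (nat_lit 228) (nat_lit 0) (XT.nd (nat_lit 624) (nat_lit 152) (nat_lit 0) (XT.nd (nat_lit 312) (nat_lit 76) (nat_lit 0) (XT.nd (nat_lit 156) (nat_lit 152) (nat_lit 0) (XT.nd (nat_lit 78) (nat_lit 0) (nat_lit 0) (XT.lf (nat_lit 0) (nat_lit 7745069264) (nat_lit 152) (nat_lit 5446431585) (nat_lit 152) (nat_lit 4516941664) (nat_lit 10) (nat_lit 4) (nat_lit 12) (nat_lit 5) (nat_lit 12) (nat_lit 4) (nat_lit 288) (nat_lit 217) (nat_lit 215)) (XT.lf (nat_lit 0) (nat_lit 14062739730) (nat_lit 152) (nat_lit 2853214253) (nat_lit 152) (nat_lit 1491905553) (nat_lit 10) (nat_lit 4) (nat_lit 12) (nat_lit 5) (nat_lit 12) (nat_lit 4) (nat_lit 289) (nat_lit 217) (nat_lit 214))) (XT.nd (nat_lit 78) (nat_lit 0) (nat_lit 0) (XT.lf (nat_lit 0) (nat_lit 1387805259) (nat_lit 76) (nat_lit 153838612) (nat_lit 152) (nat_lit 17603955149) (nat_lit 8) (nat_lit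 5) (nat_lit 9) (nat_lit 5) (nat_lit 10) (nat_lit 4) (nat_lit 290) (nat_lit 217) (nat_lit 213)) (XT.lf (nat_lit 0) (nat_lit 4684165886) (nat_lit 152) (nat_lit 12611691723) (nat_lit 0) (nat_lit 2622987752) (nat_lit 8) (nat_lit 5) (nat_lit 10) (nat_lit 4) (nat_lit 8) (nat_lit 4) (nat_lit 291) (nat_lit 217) (nat_lit 212)))) (XT.nd (nat_lit 156) (nat_lit 76) (nat_lit 0) (XT.nd (nat_lit 78) (nat_lit 0) (nat_lit 0) (XT.lf (nat_lit 0) (nat_lit 7882326108) (nat_lit 152) (nat_lit 7387816898) (nat_lit 0) (nat_lit 5465889596) (nat_lit 8) (nat_lit 5) (nat_lit 10) (nat_lit 4) (nat_lit 8) (nat_lit 4) (nat_lit 292) (nat_lit 217) (nat_lit 211)) (XT.lf (nat_lit 0) (nat_lit 11141337354) (nat_lit 152) (nat_lit 2071329639) (nat_lit 0) (nat_lit 8386559530) (nat_lit 8) (nat_lit 5) (nat_lit 10) (nat_lit 4) (nat_lit 8) (nat_lit 4) (nat_lit 293) (nat_lit 217) (nat_lit 210))) (XT.nd (nat_lit 78) (nat_lit 0)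 (nat_lit 0) (XT.lf (nat_lit 0) (nat_lit 3461208650) (nat_lit 76) (nat_lit 11061789691) (nat_lit 76) (nat_lit 7984782046) (nat_lit 7) (nat_lit 4) (nat_lit 8) (nat_lit 5) (nat_lit 8) (nat_lit 4) (nat_lit 294) (nat_lit 217) (nat_lit 209)) (XT.lf (nat_lit 0) (nat_lit 9184321692) (nat_lit 76) (nat_lit 8832185787) (nat_lit 76) (nat_lit 5448292598) (nat_lit 7) (nat_lit 4) (nat_lit 8) (nat_lit 5) (nat_lit 8) (nat_lit 4) (nat_lit 295) (nat_lit 217) (nat_lit 208))))) (XT.nd (nat_lit 312) (nat_lit 0) (nat_lit 0) (XT.nd (nat_lit 156) (nat_lit 152) (nat_lit 0) (XT.nd (nat_lit 78) (nat_lit 0) (nat_lit 0) (XT.lf (nat_lit 0) (nat_lit 15043148432) (nat_lit 76) (nat_lit 6553625670) (nat_lit 76) (nat_lit 2877460535) (nat_lit 7) (nat_lit 4) (nat_lit 8) (nat_lit 5) (nat_lit 8) (nat_lit 4) (nat_lit 296) (nat_lit 217) (nat_lit 207)) (XT.lf (nat_lit 0) (nat_lit 21051638460) (nat_lit 76) (nat_lit 4220684198)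 (nat_lit 76) (nat_lit 266164827) (nat_lit 7) (nat_lit 4) (nat_lit 8) (nat_lit 5) (nat_lit 8) (nat_lit 4) (nat_lit 297) (nat_lit 217) (nat_lit 206))) (XT.nd (nat_lit 78) (nat_lit 0) (nat_lit 0) (XT.lf (nat_lit 0) (nat_lit 544076092) (nat_lit 76) (nat_lit 1779677436) (nat_lit 152) (nat_lit 24334047155) (nat_lit 5) (nat_lit 5) (nat_lit 6) (nat_lit 5) (nat_lit 7) (nat_lit 4) (nat_lit 298) (nat_lit 217) (nat_lit 205)) (XT.lf (nat_lit 0) (nat_lit 5043315634) (nat_lit 152) (nat_lit 22005050948) (nat_lit 0) (nat_lit 784178359) (nat_lit 5) (nat_lit 5) (nat_lit 7) (nat_lit 4) (nat_lit 5) (nat_lit 4) (nat_lit 299) (nat_lit 217) (nat_lit 204)))) (XT.nd (nat_lit 156) (nat_lit 0) (nat_lit 0) (XT.nd (nat_lit 78) (nat_lit 0) (nat_lit 0) (XT.lf (nat_lit 0) (nat_lit 7851487375) (nat_lit 152) (nat_lit 17853691700) (nat_lit 0) (nat_lit 3363347383) (nat_lit 5) (nat_lit 5) (nat_lit 7) (nat_lit 4) (nat_lit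 5) (nat_lit 4) (nat_lit 300) (nat_lit 217) (nat_lit 203)) (XT.lf (nat_lit 0) (nat_lit 10727169124) (nat_lit 152) (nat_lit 13621976908) (nat_lit 0) (nat_lit 6020931305) (nat_lit 5) (nat_lit 5) (nat_lit 7) (nat_lit 4) (nat_lit 5) (nat_lit 4) (nat_lit 301) (nat_lit 217) (nat_lit 202))) (XT.nd (nat_lit 78) (nat_lit 0) (nat_lit 0) (XT.lf (nat_lit 0) (nat_lit 13677207740) (nat_lit 152) (nat_lit 9299831060) (nat_lit 0) (nat_lit 8763257705) (nat_lit 5) (nat_lit 5) (nat_lit 7) (nat_lit 4) (nat_lit 5) (nat_lit 4) (nat_lit 302) (nat_lit 217) (nat_lit 201)) (XT.nd (nat_lit 78) (nat_lit 0) (nat_lit 0) (XT.lf (nat_lit 0) (nat_lit 16708627126) (nat_lit 152) (nat_lit 4876963333) (nat_lit 0) (nat_lit 11596855933) (nat_lit 5) (nat_lit 5) (nat_lit 7) (nat_lit 4) (nat_lit 5) (nat_lit 4) (nat_lit 303) (nat_lit 217) (nat_lit 200)) (XT.lf (nat_lit 0) (nat_lit 19828644946) (nat_lit 152) (nat_lit 342843088)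 (nat_lit 0) (nat_lit 14528472651) (nat_lit 5) (nat_lit 5) (nat_lit 7) (nat_lit 4) (nat_lit 5) (nat_lit 4) (nat_lit 304) (nat_lit 217) (nat_lit 199))))))) (XT.nd (nat_lit 624) (nat_lit 152) (nat_lit 0) (XT.nd (nat_lit 312) (nat_lit 0) (nat_lit 0) (XT.nd (nat_lit 156) (nat_lit 0) (nat_lit 0) (XT.nd (nat_lit 78) (nat_lit 0) (nat_lit 0) (XT.lf (nat_lit 0) (nat_lit 4455943207) (nat_lit 76) (nat_lit 18658316369) (nat_lit 76) (nat_lit 13178714452) (nat_lit 4) (nat_lit 4) (nat_lit 5) (nat_lit 5) (nat_lit 5) (nat_lit 4) (nat_lit 305) (nat_lit 217) (nat_lit 198)) (XT.lf (nat_lit 0) (nat_lit 9403601618) (nat_lit 76) (nat_lit 17107633940) (nat_lit 76) (nat_lit 11457146669) (nat_lit 4) (nat_lit 4) (nat_lit 5) (nat_lit 5) (nat_lit 5) (nat_lit 4) (nat_lit 306) (nat_lit 217) (nat_lit 197))) (XT.nd (nat_lit 78) (nat_lit 0) (nat_lit 0) (XT.lf (nat_lit 0) (nat_lit 14500576340) (nat_lit 76) (nat_lit 15521554860)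 (nat_lit 76) (nat_lit 9708319633) (nat_lit 4) (nat_lit 4) (nat_lit 5) (nat_lit 5) (nat_lit 5) (nat_lit 4) (nat_lit 307) (nat_lit 217) (nat_lit 196)) (XT.lf (nat_lit 0) (nat_lit 19759003028) (nat_lit 76) (nat_lit 13896302752) (nat_lit 76) (nat_lit 7928069471) (nat_lit 4) (nat_lit 4) (nat_lit 5) (nat_lit 5) (nat_lit 5) (nat_lit 4) (nat_lit 308) (nat_lit 217) (nat_lit 195)))) (XT.nd (nat_lit 156) (nat_lit 0) (nat_lit 0) (XT.nd (nat_lit 78) (nat_lit 0) (nat_lit 0) (XT.lf (nat_lit 0) (nat_lit 25191401745) (nat_lit 76) (nat_lit 12228007966) (nat_lit 76) (nat_lit 6112157491) (nat_lit 4) (nat_lit 4) (nat_lit 5) (nat_lit 5) (nat_lit 5) (nat_lit 4) (nat_lit 309) (nat_lit 217) (nat_lit 194)) (XT.lf (nat_lit 0) (nat_lit 30810706775) (nat_lit 76) (nat_lit 10512698373) (nat_lit 76) (nat_lit 4256260095) (nat_lit 4) (nat_lit 4) (nat_lit 5) (nat_lit 5) (nat_lit 5) (nat_lit 4) (nat_lit 310) (nat_lit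 217) (nat_lit 193))) (XT.nd (nat_lit 78) (nat_lit 0) (nat_lit 0) (XT.lf (nat_lit 0) (nat_lit 36630297415) (nat_lit 76) (nat_lit 8746289901) (nat_lit 76) (nat_lit 2355958477) (nat_lit 4) (nat_lit 4) (nat_lit 5) (nat_lit 5) (nat_lit 5) (nat_lit 4) (nat_lit 311) (nat_lit 217) (nat_lit 192)) (XT.lf (nat_lit 0) (nat_lit 42664029832) (nat_lit 76) (nat_lit 6924576818) (nat_lit 76) (nat_lit 406728111) (nat_lit 4) (nat_lit 4) (nat_lit 5) (nat_lit 5) (nat_lit 5) (nat_lit 4) (nat_lit 312) (nat_lit 217) (nat_lit 191))))) (XT.nd (nat_lit 312) (nat_lit 0) (nat_lit 0) (XT.nd (nat_lit 156) (nat_lit 0) (nat_lit 0) (XT.nd (nat_lit 78) (nat_lit 76) (nat_lit 0) (XT.lf (nat_lit 0) (nat_lit 1544987754) (nat_lit 152) (nat_lit 3472068840) (nat_lit 76) (nat_lit 47355117188) (nat_lit 3) (nat_lit 5) (nat_lit 5) (nat_lit 5) (nat_lit 4) (nat_lit 4) (nat_lit 313) (nat_lit 217) (nat_lit 190)) (XT.lf (nat_lit 0)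 (nat_lit 518976534) (nat_lit 76) (nat_lit 3029283077) (nat_lit 152) (nat_lit 51320943124) (nat_lit 2) (nat_lit 5) (nat_lit 3) (nat_lit 5) (nat_lit 4) (nat_lit 4) (nat_lit 314) (nat_lit 217) (nat_lit 189))) (XT.nd (nat_lit 78) (nat_lit 0) (nat_lit 0) (XT.lf (nat_lit 0) (nat_lit 4760167932) (nat_lit 76) (nat_lit 910699299) (nat_lit 152) (nat_lit 51819317596) (nat_lit 2) (nat_lit 5) (nat_lit 3) (nat_lit 5) (nat_lit 4) (nat_lit 4) (nat_lit 315) (nat_lit 217) (nat_lit 188)) (XT.lf (nat_lit 0) (nat_lit 7881924811) (nat_lit 152) (nat_lit 51117420875) (nat_lit 0) (nat_lit 1243811785) (nat_lit 2) (nat_lit 5) (nat_lit 4) (nat_lit 4) (nat_lit 2) (nat_lit 4) (nat_lit 316) (nat_lit 217) (nat_lit 187)))) (XT.nd (nat_lit 156) (nat_lit 0) (nat_lit 0) (XT.nd (nat_lit 78) (nat_lit 0) (nat_lit 0) (XT.lf (nat_lit 0) (nat_lit 10182090733) (nat_lit 152) (nat_lit 49503992585) (nat_lit 0) (nat_lit 3448822348)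 (nat_lit 2) (nat_lit 5) (nat_lit 4) (nat_lit 4) (nat_lit 2) (nat_lit 4) (nat_lit 317) (nat_lit 217) (nat_lit 186)) (XT.lf (nat_lit 0) (nat_lit 12562623015) (nat_lit 152) (nat_lit 47871671963) (nat_lit 0) (nat_lit 5738730478) (nat_lit 2) (nat_lit 5) (nat_lit 4) (nat_lit 4) (nat_lit 2) (nat_lit 4) (nat_lit 318) (nat_lit 217) (nat_lit 185))) (XT.nd (nat_lit 78) (nat_lit 0) (nat_lit 0) (XT.lf (nat_lit 0) (nat_lit 15029189590) (nat_lit 152) (nat_lit 46216572530) (nat_lit 0) (nat_lit 8118988337) (nat_lit 2) (nat_lit 5) (nat_lit 4) (nat_lit 4) (nat_lit 2) (nat_lit 4) (nat_lit 319) (nat_lit 217) (nat_lit 184)) (XT.nd (nat_lit 78) (nat_lit 0) (nat_lit 0) (XT.lf (nat_lit 0) (nat_lit 17587663237) (nat_lit 152) (nat_lit 44534753574) (nat_lit 0) (nat_lit 10595263207) (nat_lit 2) (nat_lit 5) (nat_lit 4) (nat_lit 4) (nat_lit 2) (nat_lit 4) (nat_lit 320) (nat_lit 217) (nat_lit 183)) (XT.lf (nat_lit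 0) (nat_lit 20244135559) (nat_lit 152) (nat_lit 42822210764) (nat_lit 0) (nat_lit 13173450979) (nat_lit 2) (nat_lit 5) (nat_lit 4) (nat_lit 4) (nat_lit 2) (nat_lit 4) (nat_lit 321) (nat_lit 217) (nat_lit 182))))))))
noncomputable def xc45 : XT := (XT.nd (nat_lit 1326) (nat_lit 76) (nat_lit 0) (XT.nd (nat_lit 624) (nat_lit 0) (nat_lit 0) (XT.nd (nat_lit 312) (nat_lit 0) (nat_lit 0) (XT.nd (nat_lit 156) (nat_lit 0) (nat_lit 0) (XT.nd (nat_lit 78) (nat_lit 0) (nat_lit 0) (XT.lf (nat_lit 0) (nat_lit 23004931490) (nat_lit 152) (nat_lit 41074866617) (nat_lit 0) (nat_lit 15859690196) (nat_lit 2) (nat_lit 5) (nat_lit 4) (nat_lit 4) (nat_lit 2) (nat_lit 4) (nat_lit 322) (nat_lit 217) (nat_lit 181)) (XT.lf (nat_lit 0) (nat_lit 25876624354) (nat_lit 152) (nat_lit 39288560789) (nat_lit 0) (nat_lit 18660376666) (nat_lit 2) (nat_lit 5) (nat_lit 4) (nat_lit 4) (nat_lit 2) (nat_lit 4) (nat_lit 323)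 (nat_lit 217) (nat_lit 180))) (XT.nd (nat_lit 78) (nat_lit 0) (nat_lit 0) (XT.lf (nat_lit 0) (nat_lit 28866051515) (nat_lit 152) (nat_lit 37459040172) (nat_lit 0) (nat_lit 21582178690) (nat_lit 2) (nat_lit 5) (nat_lit 4) (nat_lit 4) (nat_lit 2) (nat_lit 4) (nat_lit 324) (nat_lit 217) (nat_lit 179)) (XT.lf (nat_lit 0) (nat_lit 31980330657) (nat_lit 152) (nat_lit 35581948764) (nat_lit 0) (nat_lit 24632052939) (nat_lit 2) (nat_lit 5) (nat_lit 4) (nat_lit 4) (nat_lit 2) (nat_lit 4) (nat_lit 325) (nat_lit 217) (nat_lit 178)))) (XT.nd (nat_lit 156) (nat_lit 0) (nat_lit 0) (XT.nd (nat_lit 78) (nat_lit 0) (nat_lit 0) (XT.lf (nat_lit 0) (nat_lit 35226876729) (nat_lit 152) (nat_lit 33652817300) (nat_lit 0) (nat_lit 27817261018) (nat_lit 2) (nat_lit 5) (nat_lit 4) (nat_lit 4) (nat_lit 2) (nat_lit 4) (nat_lit 326) (nat_lit 217) (nat_lit 177)) (XT.lf (nat_lit 0) (nat_lit 38613419605) (nat_lit 152)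 (nat_lit 31667052609) (nat_lit 0) (nat_lit 31145386757) (nat_lit 2) (nat_lit 5) (nat_lit 4) (nat_lit 4) (nat_lit 2) (nat_lit 4) (nat_lit 327) (nat_lit 217) (nat_lit 176))) (XT.nd (nat_lit 78) (nat_lit 0) (nat_lit 0) (XT.lf (nat_lit 0) (nat_lit 42148022480) (nat_lit 152) (nat_lit 29619926681) (nat_lit 0) (nat_lit 34624354265) (nat_lit 2) (nat_lit 5) (nat_lit 4) (nat_lit 4) (nat_lit 2) (nat_lit 4) (nat_lit 328) (nat_lit 217) (nat_lit 175)) (XT.lf (nat_lit 0) (nat_lit 45839101076) (nat_lit 152) (nat_lit 27506565406) (nat_lit 0) (nat_lit 38262446796) (nat_lit 2) (nat_lit 5) (nat_lit 4) (nat_lit 4) (nat_lit 2) (nat_lit 4) (nat_lit 329) (nat_lit 217) (nat_lit 174))))) (XT.nd (nat_lit 312) (nat_lit 0) (nat_lit 0) (XT.nd (nat_lit 156) (nat_lit 0) (nat_lit 0) (XT.nd (nat_lit 78) (nat_lit 0) (nat_lit 0) (XT.lf (nat_lit 0) (nat_lit 49695443675) (nat_lit 152) (nat_lit 25321936972) (nat_lit 0)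 (nat_lit 42068326477) (nat_lit 2) (nat_lit 5) (nat_lit 4) (nat_lit 4) (nat_lit 2) (nat_lit 4) (nat_lit 330) (nat_lit 217) (nat_lit 173)) (XT.lf (nat_lit 0) (nat_lit 53726232047) (nat_lit 152) (nat_lit 23060839882) (nat_lit 0) (nat_lit 46051054926) (nat_lit 2) (nat_lit 5) (nat_lit 4) (nat_lit 4) (nat_lit 2) (nat_lit 4) (nat_lit 331) (nat_lit 217) (nat_lit 172))) (XT.nd (nat_lit 78) (nat_lit 0) (nat_lit 0) (XT.lf (nat_lit 0) (nat_lit 57941063304) (nat_lit 152) (nat_lit 20717890572) (nat_lit 0) (nat_lit 50220114829) (nat_lit 2) (nat_lit 5) (nat_lit 4) (nat_lit 4) (nat_lit 2) (nat_lit 4) (nat_lit 332) (nat_lit 217) (nat_lit 171)) (XT.lf (nat_lit 0) (nat_lit 62349972761) (nat_lit 152) (nat_lit 18287510591) (nat_lit 0) (nat_lit 54585432519) (nat_lit 2) (nat_lit 5) (nat_lit 4) (nat_lit 4) (nat_lit 2) (nat_lit 4) (nat_lit 333) (nat_lit 217) (nat_lit 170)))) (XT.nd (nat_lit 156) (nat_lit 0)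 (nat_lit 0) (XT.nd (nat_lit 78) (nat_lit 0) (nat_lit 0) (XT.lf (nat_lit 0) (nat_lit 66963457821) (nat_lit 152) (nat_lit 15763913321) (nat_lit 0) (nat_lit 59157401611) (nat_lit 2) (nat_lit 5) (nat_lit 4) (nat_lit 4) (nat_lit 2) (nat_lit 4) (nat_lit 334) (nat_lit 217) (nat_lit 169)) (XT.lf (nat_lit 0) (nat_lit 71792502971) (nat_lit 152) (nat_lit 13141090195) (nat_lit 0) (nat_lit 63946907744) (nat_lit 2) (nat_lit 5) (nat_lit 4) (nat_lit 4) (nat_lit 2) (nat_lit 4) (nat_lit 335) (nat_lit 217) (nat_lit 168))) (XT.nd (nat_lit 78) (nat_lit 0) (nat_lit 0) (XT.lf (nat_lit 0) (nat_lit 76848605939) (nat_lit 152) (nat_lit 10412796398) (nat_lit 0) (nat_lit 68965354505) (nat_lit 2) (nat_lit 5) (nat_lit 4) (nat_lit 4) (nat_lit 2) (nat_lit 4) (nat_lit 336) (nat_lit 217) (nat_lit 167)) (XT.nd (nat_lit 78) (nat_lit 0) (nat_lit 0) (XT.lf (nat_lit 0) (nat_lit 82143805065) (nat_lit 152) (nat_lit 7572535991)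 (nat_lit 0) (nat_lit 74224690577) (nat_lit 2) (nat_lit 5) (nat_lit 4) (nat_lit 4) (nat_lit 2) (nat_lit 4) (nat_lit 337) (nat_lit 217) (nat_lit 166)) (XT.lf (nat_lit 0) (nat_lit 87690707966) (nat_lit 152) (nat_lit 4613546450) (nat_lit 0) (nat_lit 79737438187) (nat_lit 2) (nat_lit 5) (nat_lit 4) (nat_lit 4) (nat_lit 2) (nat_lit 4) (nat_lit 338) (nat_lit 217) (nat_lit 165))))))) (XT.nd (nat_lit 702) (nat_lit 0) (nat_lit 0) (XT.nd (nat_lit 312) (nat_lit 0) (nat_lit 0) (XT.nd (nat_lit 156) (nat_lit 0) (nat_lit 0) (XT.nd (nat_lit 78) (nat_lit 76) (nat_lit 0) (XT.lf (nat_lit 0) (nat_lit 93502521553) (nat_lit 152) (nat_lit 1528782561) (nat_lit 0) (nat_lit 85516722927) (nat_lit 2) (nat_lit 5) (nat_lit 4) (nat_lit 4) (nat_lit 2) (nat_lit 4) (nat_lit 339) (nat_lit 217) (nat_lit 164)) (XT.lf (nat_lit 0) (nat_lit 1744949635) (nat_lit 76) (nat_lit 97875377396) (nat_lit 76) (nat_lit 89858598916)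 (nat_lit 1) (nat_lit 4) (nat_lit 2) (nat_lit 5) (nat_lit 2) (nat_lit 4) (nat_lit 340) (nat_lit 217) (nat_lit 163))) (XT.nd (nat_lit 78) (nat_lit 0) (nat_lit 0) (XT.lf (nat_lit 0) (nat_lit 5214665782) (nat_lit 76) (nat_lit 100843644843) (nat_lit 76) (nat_lit 92797361740) (nat_lit 1) (nat_lit 4) (nat_lit 2) (nat_lit 5) (nat_lit 2) (nat_lit 4) (nat_lit 341) (nat_lit 217) (nat_lit 162)) (XT.lf (nat_lit 0) (nat_lit 8838078650) (nat_lit 76) (nat_lit 103969064432) (nat_lit 76) (nat_lit 95894681687) (nat_lit 1) (nat_lit 4) (nat_lit 2) (nat_lit 5) (nat_lit 2) (nat_lit 4) (nat_lit 342) (nat_lit 217) (nat_lit 161)))) (XT.nd (nat_lit 156) (nat_lit 0) (nat_lit 0) (XT.nd (nat_lit 78) (nat_lit 0) (nat_lit 0) (XT.lf (nat_lit 0) (nat_lit 12623815415) (nat_lit 76) (nat_lit 107259077637) (nat_lit 76) (nat_lit 99157933329) (nat_lit 1) (nat_lit 4) (nat_lit 2) (nat_lit 5) (nat_lit 2) (nat_lit 4) (nat_lit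 343) (nat_lit 217) (nat_lit 160)) (XT.lf (nat_lit 0) (nat_lit 16580889734) (nat_lit 76) (nat_lit 110721517824) (nat_lit 76) (nat_lit 102594886313) (nat_lit 1) (nat_lit 4) (nat_lit 2) (nat_lit 5) (nat_lit 2) (nat_lit 4) (nat_lit 344) (nat_lit 217) (nat_lit 159))) (XT.nd (nat_lit 78) (nat_lit 0) (nat_lit 0) (XT.lf (nat_lit 0) (nat_lit 20718723213) (nat_lit 76) (nat_lit 114364628898) (nat_lit 76) (nat_lit 106213723860) (nat_lit 1) (nat_lit 4) (nat_lit 2) (nat_lit 5) (nat_lit 2) (nat_lit 4) (nat_lit 345) (nat_lit 217) (nat_lit 158)) (XT.nd (nat_lit 78) (nat_lit 0) (nat_lit 0) (XT.lf (nat_lit 0) (nat_lit 25047167837) (nat_lit 76) (nat_lit 118197084932) (nat_lit 76) (nat_lit 110023062250) (nat_lit 1) (nat_lit 4) (nat_lit 2) (nat_lit 5) (nat_lit 2) (nat_lit 4) (nat_lit 346) (nat_lit 217) (nat_lit 157)) (XT.lf (nat_lit 0) (nat_lit 29576529427) (nat_lit 76) (nat_lit 122228010823) (nat_lit 76)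 (nat_lit 114031971336) (nat_lit 1) (nat_lit 4) (nat_lit 2) (nat_lit 5) (nat_lit 2) (nat_lit 4) (nat_lit 347) (nat_lit 217) (nat_lit 156)))))) (XT.nd (nat_lit 312) (nat_lit 0) (nat_lit 0) (XT.nd (nat_lit 156) (nat_lit 0) (nat_lit 0) (XT.nd (nat_lit 78) (nat_lit 0) (nat_lit 0) (XT.lf (nat_lit 0) (nat_lit 34317592176) (nat_lit 76) (nat_lit 126467004012) (nat_lit 76) (nat_lit 118249996140) (nat_lit 1) (nat_lit 4) (nat_lit 2) (nat_lit 5) (nat_lit 2) (nat_lit 4) (nat_lit 348) (nat_lit 217) (nat_lit 155)) (XT.lf (nat_lit 0) (nat_lit 39281644329) (nat_lit 76) (nat_lit 130924157341) (nat_lit 76) (nat_lit 122687179579) (nat_lit 1) (nat_lit 4) (nat_lit 2) (nat_lit 5) (nat_lit 2) (nat_lit 4) (nat_lit 349) (nat_lit 217) (nat_lit 154))) (XT.nd (nat_lit 78) (nat_lit 0) (nat_lit 0) (XT.lf (nat_lit 0) (nat_lit 44480505058) (nat_lit 76) (nat_lit 135610083079) (nat_lit 76) (nat_lit 127354086373) (nat_lit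 1) (nat_lit 4) (nat_lit 2) (nat_lit 5) (nat_lit 2) (nat_lit 4) (nat_lit 350) (nat_lit 217) (nat_lit 153)) (XT.lf (nat_lit 0) (nat_lit 49926552602) (nat_lit 76) (nat_lit 140535938192) (nat_lit 76) (nat_lit 132261828207) (nat_lit 1) (nat_lit 4) (nat_lit 2) (nat_lit 5) (nat_lit 2) (nat_lit 4) (nat_lit 351) (nat_lit 217) (nat_lit 152)))) (XT.nd (nat_lit 156) (nat_lit 0) (nat_lit 0) (XT.nd (nat_lit 78) (nat_lit 0) (nat_lit 0) (XT.lf (nat_lit 0) (nat_lit 55632753743) (nat_lit 76) (nat_lit 145713450907) (nat_lit 76) (nat_lit 137422090180) (nat_lit 1) (nat_lit 4) (nat_lit 2) (nat_lit 5) (nat_lit 2) (nat_lit 4) (nat_lit 352) (nat_lit 217) (nat_lit 151)) (XT.lf (nat_lit 0) (nat_lit 61612694672) (nat_lit 76) (nat_lit 151154948636) (nat_lit 76) (nat_lit 142847158631) (nat_lit 1) (nat_lit 4) (nat_lit 2) (nat_lit 5) (nat_lit 2) (nat_lit 4) (nat_lit 353) (nat_lit 217) (nat_lit 150))) (XT.nd (nat_lit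 78) (nat_lit 0) (nat_lit 0) (XT.lf (nat_lit 0) (nat_lit 67880613345) (nat_lit 76) (nat_lit 156873387324) (nat_lit 76) (nat_lit 148549950387) (nat_lit 1) (nat_lit 4) (nat_lit 2) (nat_lit 5) (nat_lit 2) (nat_lit 4) (nat_lit 354) (nat_lit 217) (nat_lit 149)) (XT.nd (nat_lit 78) (nat_lit 0) (nat_lit 0) (XT.lf (nat_lit 0) (nat_lit 74451433377) (nat_lit 76) (nat_lit 162882382303) (nat_lit 76) (nat_lit 154544043527) (nat_lit 1) (nat_lit 4) (nat_lit 2) (nat_lit 5) (nat_lit 2) (nat_lit 4) (nat_lit 355) (nat_lit 217) (nat_lit 148)) (XT.lf (nat_lit 0) (nat_lit 81340799577) (nat_lit 76) (nat_lit 169196240703) (nat_lit 76) (nat_lit 160843709698) (nat_lit 1) (nat_lit 4) (nat_lit 2) (nat_lit 5) (nat_lit 2) (nat_lit 4) (nat_lit 356) (nat_lit 217) (nat_lit 147))))))))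
noncomputable def xc46 : XT := (XT.nd (nat_lit 32604) (nat_lit 0) (nat_lit 228) (XT.nd (nat_lit 31902) (nat_lit 0) (nat_lit 532) (XT.nd (nat_lit 312) (nat_lit 0) (nat_lit 0) (XT.nd (nat_lit 156) (nat_lit 0) (nat_lit 0) (XT.nd (nat_lit 78) (nat_lit 0) (nat_lit 0) (XT.lf (nat_lit 0) (nat_lit 88565115200) (nat_lit 76) (nat_lit 175829995521) (nat_lit 76) (nat_lit 167463948108) (nat_lit 1) (nat_lit 4) (nat_lit 2) (nat_lit 5) (nat_lit 2) (nat_lit 4) (nat_lit 357) (nat_lit 217) (nat_lit 146)) (XT.lf (nat_lit 0) (nat_lit 96141580996) (nat_lit 76) (nat_lit 182799441410) (nat_lit 76) (nat_lit 174420521227) (nat_lit 1) (nat_lit 4) (nat_lit 2) (nat_lit 5) (nat_lit 2) (nat_lit 4) (nat_lit 358) (nat_lit 217) (nat_lit 145))) (XT.nd (nat_lit 78) (nat_lit 0) (nat_lit 0) (XT.lf (nat_lit 0) (nat_lit 104088236169) (nat_lit 76) (nat_lit 190121172289) (nat_lit 76) (nat_lit 181729992327) (nat_lit 1) (nat_lit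 4) (nat_lit 2) (nat_lit 5) (nat_lit 2) (nat_lit 4) (nat_lit 359) (nat_lit 217) (nat_lit 144)) (XT.lf (nat_lit 0) (nat_lit 112424001328) (nat_lit 76) (nat_lit 197812620852) (nat_lit 76) (nat_lit 189409764908) (nat_lit 1) (nat_lit 4) (nat_lit 2) (nat_lit 5) (nat_lit 2) (nat_lit 4) (nat_lit 360) (nat_lit 217) (nat_lit 143)))) (XT.nd (nat_lit 156) (nat_lit 0) (nat_lit 0) (XT.nd (nat_lit 78) (nat_lit 0) (nat_lit 0) (XT.lf (nat_lit 0) (nat_lit 121168723531) (nat_lit 76) (nat_lit 205892100071) (nat_lit 76) (nat_lit 197478124144) (nat_lit 1) (nat_lit 4) (nat_lit 2) (nat_lit 5) (nat_lit 2) (nat_lit 4) (nat_lit 361) (nat_lit 217) (nat_lit 142)) (XT.lf (nat_lit 0) (nat_lit 130343223547) (nat_lit 76) (nat_lit 214378846801) (nat_lit 76) (nat_lit 205954280415) (nat_lit 1) (nat_lit 4) (nat_lit 2) (nat_lit 5) (nat_lit 2) (nat_lit 4) (nat_lit 362) (nat_lit 217) (nat_lit 141))) (XT.nd (nat_lit 31356)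 (nat_lit 0) (nat_lit 988) (XT.lf (nat_lit 0) (nat_lit 139969345422) (nat_lit 76) (nat_lit 223293067581) (nat_lit 76) (nat_lit 214858415044) (nat_lit 1) (nat_lit 4) (nat_lit 2) (nat_lit 5) (nat_lit 2) (nat_lit 4) (nat_lit 363) (nat_lit 217) (nat_lit 140)) (XT.lf (nat_lit 0) (nat_lit 7354323441) (nat_lit 152) (nat_lit 139870876) (nat_lit 152) (nat_lit 139870876) (nat_lit 14) (nat_lit 4) (nat_lit 16) (nat_lit 5) (nat_lit 16) (nat_lit 4) (nat_lit 284) (nat_lit 218) (nat_lit 218))))) (XT.nd (nat_lit 312) (nat_lit 152) (nat_lit 0) (XT.nd (nat_lit 156) (nat_lit 152) (nat_lit 0) (XT.nd (nat_lit 78) (nat_lit 0) (nat_lit 0) (XT.lf (nat_lit 0) (nat_lit 3061185651) (nat_lit 152) (nat_lit 10207069953) (nat_lit 0) (nat_lit 2561301438) (nat_lit 12) (nat_lit 5) (nat_lit 14) (nat_lit 4) (nat_lit 12) (nat_lit 4) (nat_lit 285) (nat_lit 218) (nat_lit 217)) (XT.lf (nat_lit 0) (nat_lit 6451648284) (nat_lit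 152) (nat_lit 4497172713) (nat_lit 0) (nat_lit 5475683867) (nat_lit 12) (nat_lit 5) (nat_lit 14) (nat_lit 4) (nat_lit 12) (nat_lit 4) (nat_lit 286) (nat_lit 218) (nat_lit 216))) (XT.nd (nat_lit 78) (nat_lit 0) (nat_lit 0) (XT.lf (nat_lit 0) (nat_lit 1348774822) (nat_lit 152) (nat_lit 8567416076) (nat_lit 152) (nat_lit 7138041942) (nat_lit 10) (nat_lit 4) (nat_lit 12) (nat_lit 5) (nat_lit 12) (nat_lit 4) (nat_lit 287) (nat_lit 218) (nat_lit 215)) (XT.lf (nat_lit 0) (nat_lit 7453644306) (nat_lit 152) (nat_lit 6062565772) (nat_lit 152) (nat_lit 4201372859) (nat_lit 10) (nat_lit 4) (nat_lit 12) (nat_lit 5) (nat_lit 12) (nat_lit 4) (nat_lit 288) (nat_lit 218) (nat_lit 214)))) (XT.nd (nat_lit 156) (nat_lit 0) (nat_lit 0) (XT.nd (nat_lit 78) (nat_lit 152) (nat_lit 0) (XT.lf (nat_lit 0) (nat_lit 13683274303) (nat_lit 152) (nat_lit 3504467952) (nat_lit 152) (nat_lit 1232019059) (nat_lit 10)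 (nat_lit 4) (nat_lit 12) (nat_lit 5) (nat_lit 12) (nat_lit 4) (nat_lit 289) (nat_lit 218) (nat_lit 213)) (XT.lf (nat_lit 0) (nat_lit 890824028) (nat_lit 76) (nat_lit 843295621) (nat_lit 152) (nat_lit 17426237493) (nat_lit 8) (nat_lit 5) (nat_lit 9) (nat_lit 5) (nat_lit 10) (nat_lit 4) (nat_lit 290) (nat_lit 218) (nat_lit 212))) (XT.nd (nat_lit 78) (nat_lit 0) (nat_lit 0) (XT.lf (nat_lit 0) (nat_lit 4815140801) (nat_lit 152) (nat_lit 13199013243) (nat_lit 0) (nat_lit 1922624086) (nat_lit 8) (nat_lit 5) (nat_lit 10) (nat_lit 4) (nat_lit 8) (nat_lit 4) (nat_lit 291) (nat_lit 218) (nat_lit 211)) (XT.nd (nat_lit 78) (nat_lit 0) (nat_lit 0) (XT.lf (nat_lit 0) (nat_lit 7964980542) (nat_lit 152) (nat_lit 8057373202) (nat_lit 0) (nat_lit 4734122514) (nat_lit 8) (nat_lit 5) (nat_lit 10) (nat_lit 4) (nat_lit 8) (nat_lit 4) (nat_lit 292) (nat_lit 218) (nat_lit 210)) (XT.lf (nat_lit 0) (nat_lit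 11177972282) (nat_lit 152) (nat_lit 2819204784) (nat_lit 0) (nat_lit 7624884433) (nat_lit 8) (nat_lit 5) (nat_lit 10) (nat_lit 4) (nat_lit 8) (nat_lit 4) (nat_lit 293) (nat_lit 218) (nat_lit 209))))))) (XT.nd (nat_lit 624) (nat_lit 76) (nat_lit 0) (XT.nd (nat_lit 312) (nat_lit 152) (nat_lit 0) (XT.nd (nat_lit 156) (nat_lit 0) (nat_lit 0) (XT.nd (nat_lit 78) (nat_lit 0) (nat_lit 0) (XT.lf (nat_lit 0) (nat_lit 2611549741) (nat_lit 76) (nat_lit 11890989870) (nat_lit 76) (nat_lit 8031016478) (nat_lit 7) (nat_lit 4) (nat_lit 8) (nat_lit 5) (nat_lit 8) (nat_lit 4) (nat_lit 294) (nat_lit 218) (nat_lit 208)) (XT.lf (nat_lit 0) (nat_lit 8261276464) (nat_lit 76) (nat_lit 9691885470) (nat_lit 76) (nat_lit 5539640131) (nat_lit 7) (nat_lit 4) (nat_lit 8) (nat_lit 5) (nat_lit 8) (nat_lit 4) (nat_lit 295) (nat_lit 218) (nat_lit 207))) (XT.nd (nat_lit 78) (nat_lit 0) (nat_lit 0) (XT.lf (nat_lit 0)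 (nat_lit 14050211473) (nat_lit 76) (nat_lit 7442372499) (nat_lit 76) (nat_lit 3011772926) (nat_lit 7) (nat_lit 4) (nat_lit 8) (nat_lit 5) (nat_lit 8) (nat_lit 4) (nat_lit 296) (nat_lit 218) (nat_lit 206)) (XT.lf (nat_lit 0) (nat_lit 19992137946) (nat_lit 76) (nat_lit 5137094976) (nat_lit 76) (nat_lit 441396131) (nat_lit 7) (nat_lit 4) (nat_lit 8) (nat_lit 5) (nat_lit 8) (nat_lit 4) (nat_lit 297) (nat_lit 218) (nat_lit 205)))) (XT.nd (nat_lit 156) (nat_lit 0) (nat_lit 0) (XT.nd (nat_lit 78) (nat_lit 76) (nat_lit 0) (XT.lf (nat_lit 0) (nat_lit 2107913072) (nat_lit 152) (nat_lit 626952543) (nat_lit 76) (nat_lit 23957591727) (nat_lit 6) (nat_lit 5) (nat_lit 8) (nat_lit 5) (nat_lit 7) (nat_lit 4) (nat_lit 298) (nat_lit 218) (nat_lit 204)) (XT.lf (nat_lit 0) (nat_lit 4585351028) (nat_lit 76) (nat_lit 182443226) (nat_lit 152) (nat_lit 23102455598) (nat_lit 5) (nat_lit 5) (nat_lit 6) (nat_lit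 5) (nat_lit 7) (nat_lit 4) (nat_lit 299) (nat_lit 218) (nat_lit 203))) (XT.nd (nat_lit 78) (nat_lit 0) (nat_lit 0) (XT.lf (nat_lit 0) (nat_lit 7537557263) (nat_lit 152) (nat_lit 19192745966) (nat_lit 0) (nat_lit 2377909727) (nat_lit 5) (nat_lit 5) (nat_lit 7) (nat_lit 4) (nat_lit 5) (nat_lit 4) (nat_lit 300) (nat_lit 218) (nat_lit 202)) (XT.lf (nat_lit 0) (nat_lit 10379372075) (nat_lit 152) (nat_lit 15020131019) (nat_lit 0) (nat_lit 5012012323) (nat_lit 5) (nat_lit 5) (nat_lit 7) (nat_lit 4) (nat_lit 5) (nat_lit 4) (nat_lit 301) (nat_lit 218) (nat_lit 201))))) (XT.nd (nat_lit 312) (nat_lit 0) (nat_lit 0) (XT.nd (nat_lit 156) (nat_lit 76) (nat_lit 0) (XT.nd (nat_lit 78) (nat_lit 0) (nat_lit 0) (XT.lf (nat_lit 0) (nat_lit 13297156467) (nat_lit 152) (nat_lit 10754270739) (nat_lit 0) (nat_lit 7731975557) (nat_lit 5) (nat_lit 5) (nat_lit 7) (nat_lit 4) (nat_lit 5) (nat_lit 4) (nat_lit 302)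 (nat_lit 218) (nat_lit 200)) (XT.lf (nat_lit 0) (nat_lit 16297857543) (nat_lit 152) (nat_lit 6385008313) (nat_lit 0) (nat_lit 10544275530) (nat_lit 5) (nat_lit 5) (nat_lit 7) (nat_lit 4) (nat_lit 5) (nat_lit 4) (nat_lit 303) (nat_lit 218) (nat_lit 199))) (XT.nd (nat_lit 78) (nat_lit 76) (nat_lit 0) (XT.lf (nat_lit 0) (nat_lit 19388619831) (nat_lit 152) (nat_lit 1901940737) (nat_lit 0) (nat_lit 13455608196) (nat_lit 5) (nat_lit 5) (nat_lit 7) (nat_lit 4) (nat_lit 5) (nat_lit 4) (nat_lit 304) (nat_lit 218) (nat_lit 198)) (XT.lf (nat_lit 0) (nat_lit 2795065510) (nat_lit 76) (nat_lit 19825375583) (nat_lit 76) (nat_lit 13721478594) (nat_lit 4) (nat_lit 4) (nat_lit 5) (nat_lit 5) (nat_lit 5) (nat_lit 4) (nat_lit 305) (nat_lit 218) (nat_lit 197)))) (XT.nd (nat_lit 156) (nat_lit 0) (nat_lit 0) (XT.nd (nat_lit 78) (nat_lit 0) (nat_lit 0) (XT.lf (nat_lit 0) (nat_lit 7694886550) (nat_lit 76)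 (nat_lit 18295248017) (nat_lit 76) (nat_lit 12028603073) (nat_lit 4) (nat_lit 4) (nat_lit 5) (nat_lit 5) (nat_lit 5) (nat_lit 4) (nat_lit 306) (nat_lit 218) (nat_lit 196)) (XT.lf (nat_lit 0) (nat_lit 12746301872) (nat_lit 76) (nat_lit 16728744999) (nat_lit 76) (nat_lit 10307102001) (nat_lit 4) (nat_lit 4) (nat_lit 5) (nat_lit 5) (nat_lit 5) (nat_lit 4) (nat_lit 307) (nat_lit 218) (nat_lit 195))) (XT.nd (nat_lit 78) (nat_lit 0) (nat_lit 0) (XT.lf (nat_lit 0) (nat_lit 17961338656) (nat_lit 76) (nat_lit 15122136758) (nat_lit 76) (nat_lit 8552876566) (nat_lit 4) (nat_lit 4) (nat_lit 5) (nat_lit 5) (nat_lit 5) (nat_lit 4) (nat_lit 308) (nat_lit 218) (nat_lit 194)) (XT.nd (nat_lit 78) (nat_lit 0) (nat_lit 0) (XT.lf (nat_lit 0) (nat_lit 23352413654) (nat_lit 76) (nat_lit 13471598036) (nat_lit 76) (nat_lit 6761750041) (nat_lit 4) (nat_lit 4) (nat_lit 5) (nat_lit 5) (nat_lit 5) (nat_lit 4)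 (nat_lit 309) (nat_lit 218) (nat_lit 193)) (XT.lf (nat_lit 0) (nat_lit 28932362761) (nat_lit 76) (nat_lit 11773198980) (nat_lit 76) (nat_lit 4929457839) (nat_lit 4) (nat_lit 4) (nat_lit 5) (nat_lit 5) (nat_lit 5) (nat_lit 4) (nat_lit 310) (nat_lit 218) (nat_lit 192))))))))
noncomputable def xc47 : XT := (XT.nd (nat_lit 1326) (nat_lit 76) (nat_lit 0) (XT.nd (nat_lit 624) (nat_lit 0) (nat_lit 0) (XT.nd (nat_lit 312) (nat_lit 76) (nat_lit 0) (XT.nd (nat_lit 156) (nat_lit 76) (nat_lit 0) (XT.nd (nat_lit 78) (nat_lit 0) (nat_lit 0) (XT.lf (nat_lit 0) (nat_lit 34714471570) (nat_lit 76) (nat_lit 10022895783) (nat_lit 76) (nat_lit 3051637359) (nat_lit 4) (nat_lit 4) (nat_lit 5) (nat_lit 5) (nat_lit 5) (nat_lit 4) (nat_lit 311) (nat_lit 218) (nat_lit 191)) (XT.lf (nat_lit 0) (nat_lit 40712507005) (nat_lit 76) (nat_lit 8216521055) (nat_lit 76) (nat_lit 1123817600) (nat_lit 4) (nat_lit 4) (nat_lit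 5) (nat_lit 5) (nat_lit 5) (nat_lit 4) (nat_lit 312) (nat_lit 218) (nat_lit 190))) (XT.nd (nat_lit 78) (nat_lit 0) (nat_lit 0) (XT.lf (nat_lit 0) (nat_lit 831111193) (nat_lit 152) (nat_lit 5504587441) (nat_lit 76) (nat_lit 46095563641) (nat_lit 3) (nat_lit 5) (nat_lit 5) (nat_lit 5) (nat_lit 4) (nat_lit 4) (nat_lit 313) (nat_lit 218) (nat_lit 189)) (XT.lf (nat_lit 0) (nat_lit 2807481884) (nat_lit 152) (nat_lit 1563181748) (nat_lit 76) (nat_lit 50559002070) (nat_lit 3) (nat_lit 5) (nat_lit 5) (nat_lit 5) (nat_lit 4) (nat_lit 4) (nat_lit 314) (nat_lit 218) (nat_lit 188)))) (XT.nd (nat_lit 156) (nat_lit 0) (nat_lit 0) (XT.nd (nat_lit 78) (nat_lit 0) (nat_lit 0) (XT.lf (nat_lit 0) (nat_lit 2593827338) (nat_lit 76) (nat_lit 2292638872) (nat_lit 152) (nat_lit 52666390760) (nat_lit 2) (nat_lit 5) (nat_lit 3) (nat_lit 5) (nat_lit 4) (nat_lit 4) (nat_lit 315) (nat_lit 218) (nat_lit 187)) (XT.lf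 (nat_lit 0) (nat_lit 6949511545) (nat_lit 76) (nat_lit 110416780) (nat_lit 152) (nat_lit 53247807742) (nat_lit 2) (nat_lit 5) (nat_lit 3) (nat_lit 5) (nat_lit 4) (nat_lit 4) (nat_lit 316) (nat_lit 218) (nat_lit 186))) (XT.nd (nat_lit 78) (nat_lit 0) (nat_lit 0) (XT.lf (nat_lit 0) (nat_lit 9341471826) (nat_lit 152) (nat_lit 51773208454) (nat_lit 0) (nat_lit 2085760511) (nat_lit 2) (nat_lit 5) (nat_lit 4) (nat_lit 4) (nat_lit 2) (nat_lit 4) (nat_lit 317) (nat_lit 218) (nat_lit 185)) (XT.lf (nat_lit 0) (nat_lit 11705910293) (nat_lit 152) (nat_lit 50169588915) (nat_lit 0) (nat_lit 4363890261) (nat_lit 2) (nat_lit 5) (nat_lit 4) (nat_lit 4) (nat_lit 2) (nat_lit 4) (nat_lit 318) (nat_lit 218) (nat_lit 184))))) (XT.nd (nat_lit 312) (nat_lit 0) (nat_lit 0) (XT.nd (nat_lit 156) (nat_lit 0) (nat_lit 0) (XT.nd (nat_lit 78) (nat_lit 0) (nat_lit 0) (XT.lf (nat_lit 0) (nat_lit 14157149426) (nat_lit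 152) (nat_lit 48541823848) (nat_lit 0) (nat_lit 6732930617) (nat_lit 2) (nat_lit 5) (nat_lit 4) (nat_lit 4) (nat_lit 2) (nat_lit 4) (nat_lit 319) (nat_lit 218) (nat_lit 183)) (XT.lf (nat_lit 0) (nat_lit 16701025508) (nat_lit 152) (nat_lit 46886037620) (nat_lit 0) (nat_lit 9198522150) (nat_lit 2) (nat_lit 5) (nat_lit 4) (nat_lit 4) (nat_lit 2) (nat_lit 4) (nat_lit 320) (nat_lit 218) (nat_lit 182))) (XT.nd (nat_lit 78) (nat_lit 0) (nat_lit 0) (XT.lf (nat_lit 0) (nat_lit 19343595388) (nat_lit 152) (nat_lit 45198287885) (nat_lit 0) (nat_lit 11766535315) (nat_lit 2) (nat_lit 5) (nat_lit 4) (nat_lit 4) (nat_lit 2) (nat_lit 4) (nat_lit 321) (nat_lit 218) (nat_lit 181)) (XT.lf (nat_lit 0) (nat_lit 22091150897) (nat_lit 152) (nat_lit 43474556190) (nat_lit 0) (nat_lit 14443084431) (nat_lit 2) (nat_lit 5) (nat_lit 4) (nat_lit 4) (nat_lit 2) (nat_lit 4) (nat_lit 322) (nat_lit 218) (nat_lit 180))))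 (XT.nd (nat_lit 156) (nat_lit 0) (nat_lit 0) (XT.nd (nat_lit 78) (nat_lit 0) (nat_lit 0) (XT.lf (nat_lit 0) (nat_lit 24950233837) (nat_lit 152) (nat_lit 41710738412) (nat_lit 0) (nat_lit 17234542233) (nat_lit 2) (nat_lit 5) (nat_lit 4) (nat_lit 4) (nat_lit 2) (nat_lit 4) (nat_lit 323) (nat_lit 218) (nat_lit 179)) (XT.lf (nat_lit 0) (nat_lit 27927651545) (nat_lit 152) (nat_lit 39902634985) (nat_lit 0) (nat_lit 20147555049) (nat_lit 2) (nat_lit 5) (nat_lit 4) (nat_lit 4) (nat_lit 2) (nat_lit 4) (nat_lit 324) (nat_lit 218) (nat_lit 178))) (XT.nd (nat_lit 78) (nat_lit 0) (nat_lit 0) (XT.lf (nat_lit 0) (nat_lit 31030493113) (nat_lit 152) (nat_lit 38045940901) (nat_lit 0) (nat_lit 23189058624) (nat_lit 2) (nat_lit 5) (nat_lit 4) (nat_lit 4) (nat_lit 2) (nat_lit 4) (nat_lit 325) (nat_lit 218) (nat_lit 177)) (XT.nd (nat_lit 78) (nat_lit 0) (nat_lit 0) (XT.lf (nat_lit 0) (nat_lit 34266146258)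 (nat_lit 152) (nat_lit 36136235460) (nat_lit 0) (nat_lit 26366294633) (nat_lit 2) (nat_lit 5) (nat_lit 4) (nat_lit 4) (nat_lit 2) (nat_lit 4) (nat_lit 326) (nat_lit 218) (nat_lit 176)) (XT.lf (nat_lit 0) (nat_lit 37642314917) (nat_lit 152) (nat_lit 34168971743) (nat_lit 0) (nat_lit 29686827924) (nat_lit 2) (nat_lit 5) (nat_lit 4) (nat_lit 4) (nat_lit 2) (nat_lit 4) (nat_lit 327) (nat_lit 218) (nat_lit 175))))))) (XT.nd (nat_lit 702) (nat_lit 76) (nat_lit 0) (XT.nd (nat_lit 312) (nat_lit 0) (nat_lit 0) (XT.nd (nat_lit 156) (nat_lit 0) (nat_lit 0) (XT.nd (nat_lit 78) (nat_lit 0) (nat_lit 0) (XT.lf (nat_lit 0) (nat_lit 41167037586) (nat_lit 152) (nat_lit 32139465791) (nat_lit 0) (nat_lit 33158564528) (nat_lit 2) (nat_lit 5) (nat_lit 4) (nat_lit 4) (nat_lit 2) (nat_lit 4) (nat_lit 328) (nat_lit 218) (nat_lit 174)) (XT.lf (nat_lit 0) (nat_lit 44848706462) (nat_lit 152) (nat_lit 30042885445)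 (nat_lit 0) (nat_lit 36789770485) (nat_lit 2) (nat_lit 5) (nat_lit 4) (nat_lit 4) (nat_lit 2) (nat_lit 4) (nat_lit 329) (nat_lit 218) (nat_lit 173))) (XT.nd (nat_lit 78) (nat_lit 0) (nat_lit 0) (XT.lf (nat_lit 0) (nat_lit 48696087423) (nat_lit 152) (nat_lit 27874238848) (nat_lit 0) (nat_lit 40589091524) (nat_lit 2) (nat_lit 5) (nat_lit 4) (nat_lit 4) (nat_lit 2) (nat_lit 4) (nat_lit 330) (nat_lit 218) (nat_lit 172)) (XT.lf (nat_lit 0) (nat_lit 52718340901) (nat_lit 152) (nat_lit 25628362555) (nat_lit 0) (nat_lit 44565573647) (nat_lit 2) (nat_lit 5) (nat_lit 4) (nat_lit 4) (nat_lit 2) (nat_lit 4) (nat_lit 331) (nat_lit 218) (nat_lit 171)))) (XT.nd (nat_lit 156) (nat_lit 0) (nat_lit 0) (XT.nd (nat_lit 78) (nat_lit 0) (nat_lit 0) (XT.lf (nat_lit 0) (nat_lit 56925043689) (nat_lit 152) (nat_lit 23299909243) (nat_lit 0) (nat_lit 48728684668) (nat_lit 2) (nat_lit 5) (nat_lit 4) (nat_lit 4)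 (nat_lit 2) (nat_lit 4) (nat_lit 332) (nat_lit 218) (nat_lit 170)) (XT.lf (nat_lit 0) (nat_lit 61326211745) (nat_lit 152) (nat_lit 20883334973) (nat_lit 0) (nat_lit 53088336757) (nat_lit 2) (nat_lit 5) (nat_lit 4) (nat_lit 4) (nat_lit 2) (nat_lit 4) (nat_lit 333) (nat_lit 218) (nat_lit 169))) (XT.nd (nat_lit 78) (nat_lit 0) (nat_lit 0) (XT.lf (nat_lit 0) (nat_lit 65932324043) (nat_lit 152) (nat_lit 18372886000) (nat_lit 0) (nat_lit 57654910037) (nat_lit 2) (nat_lit 5) (nat_lit 4) (nat_lit 4) (nat_lit 2) (nat_lit 4) (nat_lit 334) (nat_lit 218) (nat_lit 168)) (XT.nd (nat_lit 78) (nat_lit 0) (nat_lit 0) (XT.lf (nat_lit 0) (nat_lit 70754347515) (nat_lit 152) (nat_lit 15762585061) (nat_lit 0) (nat_lit 62439277302) (nat_lit 2) (nat_lit 5) (nat_lit 4) (nat_lit 4) (nat_lit 2) (nat_lit 4) (nat_lit 335) (nat_lit 218) (nat_lit 167)) (XT.lf (nat_lit 0) (nat_lit 75803763171) (nat_lit 152) (nat_lit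 13046217157) (nat_lit 0) (nat_lit 67452829904) (nat_lit 2) (nat_lit 5) (nat_lit 4) (nat_lit 4) (nat_lit 2) (nat_lit 4) (nat_lit 336) (nat_lit 218) (nat_lit 166)))))) (XT.nd (nat_lit 312) (nat_lit 76) (nat_lit 0) (XT.nd (nat_lit 156) (nat_lit 0) (nat_lit 0) (XT.nd (nat_lit 78) (nat_lit 0) (nat_lit 0) (XT.lf (nat_lit 0) (nat_lit 81092593428) (nat_lit 152) (nat_lit 10217314743) (nat_lit 0) (nat_lit 72707504871) (nat_lit 2) (nat_lit 5) (nat_lit 4) (nat_lit 4) (nat_lit 2) (nat_lit 4) (nat_lit 337) (nat_lit 218) (nat_lit 165)) (XT.lf (nat_lit 0) (nat_lit 86633430739) (nat_lit 152) (nat_lit 7269142339) (nat_lit 0) (nat_lit 78215813335) (nat_lit 2) (nat_lit 5) (nat_lit 4) (nat_lit 4) (nat_lit 2) (nat_lit 4) (nat_lit 338) (nat_lit 218) (nat_lit 164))) (XT.nd (nat_lit 78) (nat_lit 0) (nat_lit 0) (XT.lf (nat_lit 0) (nat_lit 92439467574) (nat_lit 152) (nat_lit 4194680485) (nat_lit 0) (nat_lit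 83990870315) (nat_lit 2) (nat_lit 5) (nat_lit 4) (nat_lit 4) (nat_lit 2) (nat_lit 4) (nat_lit 339) (nat_lit 218) (nat_lit 163)) (XT.lf (nat_lit 0) (nat_lit 98524527830) (nat_lit 152) (nat_lit 986609035) (nat_lit 0) (nat_lit 90046425948) (nat_lit 2) (nat_lit 5) (nat_lit 4) (nat_lit 4) (nat_lit 2) (nat_lit 4) (nat_lit 340) (nat_lit 218) (nat_lit 162)))) (XT.nd (nat_lit 156) (nat_lit 0) (nat_lit 0) (XT.nd (nat_lit 78) (nat_lit 0) (nat_lit 0) (XT.lf (nat_lit 0) (nat_lit 2440832148) (nat_lit 76) (nat_lit 102500375828) (nat_lit 76) (nat_lit 93994174305) (nat_lit 1) (nat_lit 4) (nat_lit 2) (nat_lit 5) (nat_lit 2) (nat_lit 4) (nat_lit 341) (nat_lit 218) (nat_lit 161)) (XT.lf (nat_lit 0) (nat_lit 6055051481) (nat_lit 76) (nat_lit 105629855240) (nat_lit 76) (nat_lit 97096892154) (nat_lit 1) (nat_lit 4) (nat_lit 2) (nat_lit 5) (nat_lit 2) (nat_lit 4) (nat_lit 342) (nat_lit 218) (nat_lit 160)))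 (XT.nd (nat_lit 78) (nat_lit 0) (nat_lit 0) (XT.lf (nat_lit 0) (nat_lit 9832032498) (nat_lit 76) (nat_lit 108923734944) (nat_lit 76) (nat_lit 100365284654) (nat_lit 1) (nat_lit 4) (nat_lit 2) (nat_lit 5) (nat_lit 2) (nat_lit 4) (nat_lit 343) (nat_lit 218) (nat_lit 159)) (XT.nd (nat_lit 78) (nat_lit 0) (nat_lit 0) (XT.lf (nat_lit 0) (nat_lit 13780768009) (nat_lit 76) (nat_lit 112389857510) (nat_lit 76) (nat_lit 103807133694) (nat_lit 1) (nat_lit 4) (nat_lit 2) (nat_lit 5) (nat_lit 2) (nat_lit 4) (nat_lit 344) (nat_lit 218) (nat_lit 158)) (XT.lf (nat_lit 0) (nat_lit 17910659767) (nat_lit 76) (nat_lit 116036475612) (nat_lit 76) (nat_lit 107430634151) (nat_lit 1) (nat_lit 4) (nat_lit 2) (nat_lit 5) (nat_lit 2) (nat_lit 4) (nat_lit 345) (nat_lit 218) (nat_lit 157))))))))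
noncomputable def xc48 : XT := (XT.nd (nat_lit 1326) (nat_lit 0) (nat_lit 0) (XT.nd (nat_lit 624) (nat_lit 0) (nat_lit 0) (XT.nd (nat_lit 312) (nat_lit 0) (nat_lit 0) (XT.nd (nat_lit 156) (nat_lit 0) (nat_lit 0) (XT.nd (nat_lit 78) (nat_lit 0) (nat_lit 0) (XT.lf (nat_lit 0) (nat_lit 22231540847) (nat_lit 76) (nat_lit 119872271672) (nat_lit 76) (nat_lit 111244413407) (nat_lit 1) (nat_lit 4) (nat_lit 2) (nat_lit 5) (nat_lit 2) (nat_lit 4) (nat_lit 346) (nat_lit 218) (nat_lit 156)) (XT.lf (nat_lit 0) (nat_lit 26753699060) (nat_lit 76) (nat_lit 123906378540) (nat_lit 76) (nat_lit 115257551890) (nat_lit 1) (nat_lit 4) (nat_lit 2) (nat_lit 5) (nat_lit 2) (nat_lit 4) (nat_lit 347) (nat_lit 218) (nat_lit 155))) (XT.nd (nat_lit 78) (nat_lit 0) (nat_lit 0) (XT.lf (nat_lit 0) (nat_lit 31487901452) (nat_lit 76) (nat_lit 128148401232) (nat_lit 76) (nat_lit 119479604692) (nat_lit 1) (nat_lit 4)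 (nat_lit 2) (nat_lit 5) (nat_lit 2) (nat_lit 4) (nat_lit 348) (nat_lit 218) (nat_lit 154)) (XT.lf (nat_lit 0) (nat_lit 36445419931) (nat_lit 76) (nat_lit 132608439801) (nat_lit 76) (nat_lit 123920624317) (nat_lit 1) (nat_lit 4) (nat_lit 2) (nat_lit 5) (nat_lit 2) (nat_lit 4) (nat_lit 349) (nat_lit 218) (nat_lit 153)))) (XT.nd (nat_lit 156) (nat_lit 0) (nat_lit 0) (XT.nd (nat_lit 78) (nat_lit 0) (nat_lit 0) (XT.lf (nat_lit 0) (nat_lit 41638058113) (nat_lit 76) (nat_lit 137297113387) (nat_lit 76) (nat_lit 128591184624) (nat_lit 1) (nat_lit 4) (nat_lit 2) (nat_lit 5) (nat_lit 2) (nat_lit 4) (nat_lit 350) (nat_lit 218) (nat_lit 152)) (XT.lf (nat_lit 0) (nat_lit 47078179423) (nat_lit 76) (nat_lit 142225585499) (nat_lit 76) (nat_lit 133502405993) (nat_lit 1) (nat_lit 4) (nat_lit 2) (nat_lit 5) (nat_lit 2) (nat_lit 4) (nat_lit 351) (nat_lit 218) (nat_lit 151))) (XT.nd (nat_lit 78) (nat_lit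 0) (nat_lit 0) (XT.lf (nat_lit 0) (nat_lit 52778736530) (nat_lit 76) (nat_lit 147405590593) (nat_lit 76) (nat_lit 138665981810) (nat_lit 1) (nat_lit 4) (nat_lit 2) (nat_lit 5) (nat_lit 2) (nat_lit 4) (nat_lit 352) (nat_lit 218) (nat_lit 150)) (XT.lf (nat_lit 0) (nat_lit 58753302189) (nat_lit 76) (nat_lit 152849462016) (nat_lit 76) (nat_lit 144094206301) (nat_lit 1) (nat_lit 4) (nat_lit 2) (nat_lit 5) (nat_lit 2) (nat_lit 4) (nat_lit 353) (nat_lit 218) (nat_lit 149))))) (XT.nd (nat_lit 312) (nat_lit 0) (nat_lit 0) (XT.nd (nat_lit 156) (nat_lit 0) (nat_lit 0) (XT.nd (nat_lit 78) (nat_lit 0) (nat_lit 0) (XT.lf (nat_lit 0) (nat_lit 65016101557) (nat_lit 76) (nat_lit 158570161366) (nat_lit 76) (nat_lit 149800003811) (nat_lit 1) (nat_lit 4) (nat_lit 2) (nat_lit 5) (nat_lit 2) (nat_lit 4) (nat_lit 354) (nat_lit 218) (nat_lit 148)) (XT.lf (nat_lit 0) (nat_lit 71582046061) (nat_lit 76) (nat_lit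 164581309356) (nat_lit 76) (nat_lit 155796959572) (nat_lit 1) (nat_lit 4) (nat_lit 2) (nat_lit 5) (nat_lit 2) (nat_lit 4) (nat_lit 355) (nat_lit 218) (nat_lit 147))) (XT.nd (nat_lit 78) (nat_lit 0) (nat_lit 0) (XT.lf (nat_lit 0) (nat_lit 78466768902) (nat_lit 76) (nat_lit 170897218243) (nat_lit 76) (nat_lit 162099352051) (nat_lit 1) (nat_lit 4) (nat_lit 2) (nat_lit 5) (nat_lit 2) (nat_lit 4) (nat_lit 356) (nat_lit 218) (nat_lit 146)) (XT.lf (nat_lit 0) (nat_lit 85686662277) (nat_lit 76) (nat_lit 177532925904) (nat_lit 76) (nat_lit 168722186943) (nat_lit 1) (nat_lit 4) (nat_lit 2) (nat_lit 5) (nat_lit 2) (nat_lit 4) (nat_lit 357) (nat_lit 218) (nat_lit 145)))) (XT.nd (nat_lit 156) (nat_lit 0) (nat_lit 0) (XT.nd (nat_lit 78) (nat_lit 0) (nat_lit 0) (XT.lf (nat_lit 0) (nat_lit 93258916408) (nat_lit 76) (nat_lit 184504231645) (nat_lit 76) (nat_lit 175681232904) (nat_lit 1) (nat_lit 4)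 (nat_lit 2) (nat_lit 5) (nat_lit 2) (nat_lit 4) (nat_lit 358) (nat_lit 218) (nat_lit 144)) (XT.lf (nat_lit 0) (nat_lit 101201560472) (nat_lit 76) (nat_lit 191827733812) (nat_lit 76) (nat_lit 182993059089) (nat_lit 1) (nat_lit 4) (nat_lit 2) (nat_lit 5) (nat_lit 2) (nat_lit 4) (nat_lit 359) (nat_lit 218) (nat_lit 143))) (XT.nd (nat_lit 78) (nat_lit 0) (nat_lit 0) (XT.lf (nat_lit 0) (nat_lit 109533505527) (nat_lit 76) (nat_lit 199520869315) (nat_lit 76) (nat_lit 190675074610) (nat_lit 1) (nat_lit 4) (nat_lit 2) (nat_lit 5) (nat_lit 2) (nat_lit 4) (nat_lit 360) (nat_lit 218) (nat_lit 142)) (XT.nd (nat_lit 78) (nat_lit 0) (nat_lit 0) (XT.lf (nat_lit 0) (nat_lit 118274589536) (nat_lit 76) (nat_lit 207601955144) (nat_lit 76) (nat_lit 198745569979) (nat_lit 1) (nat_lit 4) (nat_lit 2) (nat_lit 5) (nat_lit 2) (nat_lit 4) (nat_lit 361) (nat_lit 218) (nat_lit 141)) (XT.lf (nat_lit 0) (nat_lit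 127445624605) (nat_lit 76) (nat_lit 216090231978) (nat_lit 76) (nat_lit 207223760662) (nat_lit 1) (nat_lit 4) (nat_lit 2) (nat_lit 5) (nat_lit 2) (nat_lit 4) (nat_lit 362) (nat_lit 218) (nat_lit 140))))))) (XT.nd (nat_lit 31746) (nat_lit 0) (nat_lit 456) (XT.nd (nat_lit 31434) (nat_lit 0) (nat_lit 684) (XT.nd (nat_lit 31278) (nat_lit 0) (nat_lit 912) (XT.nd (nat_lit 31200) (nat_lit 0) (nat_lit 988) (XT.lf (nat_lit 0) (nat_lit 137068446531) (nat_lit 76) (nat_lit 225005910001) (nat_lit 76) (nat_lit 216129832826) (nat_lit 1) (nat_lit 4) (nat_lit 2) (nat_lit 5) (nat_lit 2) (nat_lit 4) (nat_lit 363) (nat_lit 218) (nat_lit 139)) (XT.lf (nat_lit 0) (nat_lit 931069910) (nat_lit 152) (nat_lit 3090148969) (nat_lit 152) (nat_lit 3090148969) (nat_lit 14) (nat_lit 4) (nat_lit 16) (nat_lit 5) (nat_lit 16) (nat_lit 4) (nat_lit 282) (nat_lit 219) (nat_lit 219))) (XT.nd (nat_lit 78) (nat_lit 76) (nat_lit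 0) (XT.lf (nat_lit 0) (nat_lit 8177685665) (nat_lit 152) (nat_lit 3552262772) (nat_lit 152) (nat_lit 3001140427) (nat_lit 14) (nat_lit 4) (nat_lit 16) (nat_lit 5) (nat_lit 16) (nat_lit 4) (nat_lit 283) (nat_lit 219) (nat_lit 218)) (XT.lf (nat_lit 0) (nat_lit 202223346) (nat_lit 228) (nat_lit 661442908) (nat_lit 76) (nat_lit 14407416008) (nat_lit 13) (nat_lit 5) (nat_lit 16) (nat_lit 5) (nat_lit 14) (nat_lit 4) (nat_lit 284) (nat_lit 219) (nat_lit 217)))) (XT.nd (nat_lit 156) (nat_lit 152) (nat_lit 0) (XT.nd (nat_lit 78) (nat_lit 0) (nat_lit 0) (XT.lf (nat_lit 0) (nat_lit 3463737705) (nat_lit 152) (nat_lit 10409314426) (nat_lit 0) (nat_lit 1962894864) (nat_lit 12) (nat_lit 5) (nat_lit 14) (nat_lit 4) (nat_lit 12) (nat_lit 4) (nat_lit 285) (nat_lit 219) (nat_lit 216)) (XT.lf (nat_lit 0) (nat_lit 6797370433) (nat_lit 152) (nat_lit 4793375129) (nat_lit 0) (nat_lit 4843117875) (nat_lit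 12) (nat_lit 5) (nat_lit 14) (nat_lit 4) (nat_lit 12) (nat_lit 4) (nat_lit 286) (nat_lit 219) (nat_lit 215))) (XT.nd (nat_lit 78) (nat_lit 0) (nat_lit 0) (XT.lf (nat_lit 0) (nat_lit 950336123) (nat_lit 152) (nat_lit 9251232460) (nat_lit 152) (nat_lit 6865161123) (nat_lit 10) (nat_lit 4) (nat_lit 12) (nat_lit 5) (nat_lit 12) (nat_lit 4) (nat_lit 287) (nat_lit 219) (nat_lit 214)) (XT.lf (nat_lit 0) (nat_lit 6967165139) (nat_lit 152) (nat_lit 6781501668) (nat_lit 152) (nat_lit 3984174351) (nat_lit 10) (nat_lit 4) (nat_lit 12) (nat_lit 5) (nat_lit 12) (nat_lit 4) (nat_lit 288) (nat_lit 219) (nat_lit 213))))) (XT.nd (nat_lit 312) (nat_lit 76) (nat_lit 0) (XT.nd (nat_lit 156) (nat_lit 0) (nat_lit 0) (XT.nd (nat_lit 78) (nat_lit 152) (nat_lit 0) (XT.lf (nat_lit 0) (nat_lit 13112947070) (nat_lit 152) (nat_lit 4256851001) (nat_lit 152) (nat_lit 1067851323) (nat_lit 10) (nat_lit 4) (nat_lit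 12) (nat_lit 5) (nat_lit 12) (nat_lit 4) (nat_lit 289) (nat_lit 219) (nat_lit 212)) (XT.lf (nat_lit 0) (nat_lit 196243277) (nat_lit 76) (nat_lit 1637056357) (nat_lit 152) (nat_lit 17347903705) (nat_lit 8) (nat_lit 5) (nat_lit 9) (nat_lit 5) (nat_lit 10) (nat_lit 4) (nat_lit 290) (nat_lit 219) (nat_lit 211))) (XT.nd (nat_lit 78) (nat_lit 0) (nat_lit 0) (XT.lf (nat_lit 0) (nat_lit 4853607476) (nat_lit 152) (nat_lit 13984282145) (nat_lit 0) (nat_lit 1122865235) (nat_lit 8) (nat_lit 5) (nat_lit 10) (nat_lit 4) (nat_lit 8) (nat_lit 4) (nat_lit 291) (nat_lit 219) (nat_lit 210)) (XT.lf (nat_lit 0) (nat_lit 7957427710) (nat_lit 152) (nat_lit 8920960945) (nat_lit 0) (nat_lit 3904455648) (nat_lit 8) (nat_lit 5) (nat_lit 10) (nat_lit 4) (nat_lit 8) (nat_lit 4) (nat_lit 292) (nat_lit 219) (nat_lit 209)))) (XT.nd (nat_lit 156) (nat_lit 0) (nat_lit 0) (XT.nd (nat_lit 78) (nat_lit 76) (nat_lit 0)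 (XT.lf (nat_lit 0) (nat_lit 11126591348) (nat_lit 152) (nat_lit 3757381900) (nat_lit 0) (nat_lit 6766733742) (nat_lit 8) (nat_lit 5) (nat_lit 10) (nat_lit 4) (nat_lit 8) (nat_lit 4) (nat_lit 293) (nat_lit 219) (nat_lit 208)) (XT.lf (nat_lit 0) (nat_lit 1568965933) (nat_lit 76) (nat_lit 12824174041) (nat_lit 76) (nat_lit 8172044488) (nat_lit 7) (nat_lit 4) (nat_lit 8) (nat_lit 5) (nat_lit 8) (nat_lit 4) (nat_lit 294) (nat_lit 219) (nat_lit 207))) (XT.nd (nat_lit 78) (nat_lit 0) (nat_lit 0) (XT.lf (nat_lit 0) (nat_lit 7148800924) (nat_lit 76) (nat_lit 10654116787) (nat_lit 76) (nat_lit 5723632999) (nat_lit 7) (nat_lit 4) (nat_lit 8) (nat_lit 5) (nat_lit 8) (nat_lit 4) (nat_lit 295) (nat_lit 219) (nat_lit 206)) (XT.nd (nat_lit 78) (nat_lit 0) (nat_lit 0) (XT.lf (nat_lit 0) (nat_lit 12871172379) (nat_lit 76) (nat_lit 8432267765) (nat_lit 76) (nat_lit 3236684707) (nat_lit 7) (nat_lit 4)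 (nat_lit 8) (nat_lit 5) (nat_lit 8) (nat_lit 4) (nat_lit 296) (nat_lit 219) (nat_lit 205)) (XT.lf (nat_lit 0) (nat_lit 18749704991) (nat_lit 76) (nat_lit 6153336860) (nat_lit 76) (nat_lit 705278305) (nat_lit 7) (nat_lit 4) (nat_lit 8) (nat_lit 5) (nat_lit 8) (nat_lit 4) (nat_lit 297) (nat_lit 219) (nat_lit 204))))))))
noncomputable def xc49 : XT := (XT.nd (nat_lit 1326) (nat_lit 76) (nat_lit 0) (XT.nd (nat_lit 624) (nat_lit 76) (nat_lit 0) (XT.nd (nat_lit 312) (nat_lit 76) (nat_lit 0) (XT.nd (nat_lit 156) (nat_lit 0) (nat_lit 0) (XT.nd (nat_lit 78) (nat_lit 76) (nat_lit 0) (XT.lf (nat_lit 0) (nat_lit 1816550017) (nat_lit 152) (nat_lit 1964583874) (nat_lit 76) (nat_lit 22951081096) (nat_lit 6) (nat_lit 5) (nat_lit 8) (nat_lit 5) (nat_lit 7) (nat_lit 4) (nat_lit 298) (nat_lit 219) (nat_lit 203)) (XT.lf (nat_lit 0) (nat_lit 3142858339) (nat_lit 76) (nat_lit 1276835546) (nat_lit 152) (nat_lit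 23493211627) (nat_lit 5) (nat_lit 5) (nat_lit 6) (nat_lit 5) (nat_lit 7) (nat_lit 4) (nat_lit 299) (nat_lit 219) (nat_lit 202))) (XT.nd (nat_lit 78) (nat_lit 0) (nat_lit 0) (XT.lf (nat_lit 0) (nat_lit 7138503427) (nat_lit 152) (nat_lit 20719907628) (nat_lit 0) (nat_lit 1295063471) (nat_lit 5) (nat_lit 5) (nat_lit 7) (nat_lit 4) (nat_lit 5) (nat_lit 4) (nat_lit 300) (nat_lit 219) (nat_lit 201)) (XT.lf (nat_lit 0) (nat_lit 9948064014) (nat_lit 152) (nat_lit 16603578249) (nat_lit 0) (nat_lit 3906802900) (nat_lit 5) (nat_lit 5) (nat_lit 7) (nat_lit 4) (nat_lit 5) (nat_lit 4) (nat_lit 301) (nat_lit 219) (nat_lit 200)))) (XT.nd (nat_lit 156) (nat_lit 76) (nat_lit 0) (XT.nd (nat_lit 78) (nat_lit 0) (nat_lit 0) (XT.lf (nat_lit 0) (nat_lit 12835130095) (nat_lit 152) (nat_lit 12391323270) (nat_lit 0) (nat_lit 6605467879) (nat_lit 5) (nat_lit 5) (nat_lit 7) (nat_lit 4) (nat_lit 5) (nat_lit 4)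 (nat_lit 302) (nat_lit 219) (nat_lit 199)) (XT.lf (nat_lit 0) (nat_lit 15806575639) (nat_lit 152) (nat_lit 8073113513) (nat_lit 0) (nat_lit 9397483801) (nat_lit 5) (nat_lit 5) (nat_lit 7) (nat_lit 4) (nat_lit 5) (nat_lit 4) (nat_lit 303) (nat_lit 219) (nat_lit 198))) (XT.nd (nat_lit 78) (nat_lit 76) (nat_lit 0) (XT.lf (nat_lit 0) (nat_lit 18869475514) (nat_lit 152) (nat_lit 3638667527) (nat_lit 0) (nat_lit 12289498322) (nat_lit 5) (nat_lit 5) (nat_lit 7) (nat_lit 4) (nat_lit 5) (nat_lit 4) (nat_lit 304) (nat_lit 219) (nat_lit 197)) (XT.lf (nat_lit 0) (nat_lit 953077320) (nat_lit 76) (nat_lit 21092925228) (nat_lit 76) (nat_lit 14350200080) (nat_lit 4) (nat_lit 4) (nat_lit 5) (nat_lit 5) (nat_lit 5) (nat_lit 4) (nat_lit 305) (nat_lit 219) (nat_lit 196))))) (XT.nd (nat_lit 312) (nat_lit 76) (nat_lit 0) (XT.nd (nat_lit 156) (nat_lit 0) (nat_lit 0) (XT.nd (nat_lit 78) (nat_lit 0) (nat_lit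 0) (XT.lf (nat_lit 0) (nat_lit 5807338960) (nat_lit 76) (nat_lit 19582373724) (nat_lit 76) (nat_lit 12684650522) (nat_lit 4) (nat_lit 4) (nat_lit 5) (nat_lit 5) (nat_lit 5) (nat_lit 4) (nat_lit 306) (nat_lit 219) (nat_lit 195)) (XT.lf (nat_lit 0) (nat_lit 10815364377) (nat_lit 76) (nat_lit 18034514573) (nat_lit 76) (nat_lit 10989174177) (nat_lit 4) (nat_lit 4) (nat_lit 5) (nat_lit 5) (nat_lit 5) (nat_lit 4) (nat_lit 307) (nat_lit 219) (nat_lit 194))) (XT.nd (nat_lit 78) (nat_lit 0) (nat_lit 0) (XT.lf (nat_lit 0) (nat_lit 15989077441) (nat_lit 76) (nat_lit 16445662396) (nat_lit 76) (nat_lit 9259734197) (nat_lit 4) (nat_lit 4) (nat_lit 5) (nat_lit 5) (nat_lit 5) (nat_lit 4) (nat_lit 308) (nat_lit 219) (nat_lit 193)) (XT.lf (nat_lit 0) (nat_lit 21340796517) (nat_lit 76) (nat_lit 14812034212) (nat_lit 76) (nat_lit 7492212866) (nat_lit 4) (nat_lit 4) (nat_lit 5) (nat_lit 5) (nat_lit 5)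 (nat_lit 4) (nat_lit 309) (nat_lit 219) (nat_lit 192)))) (XT.nd (nat_lit 156) (nat_lit 76) (nat_lit 0) (XT.nd (nat_lit 78) (nat_lit 0) (nat_lit 0) (XT.lf (nat_lit 0) (nat_lit 26883263793) (nat_lit 76) (nat_lit 13129740430) (nat_lit 76) (nat_lit 5682401802) (nat_lit 4) (nat_lit 4) (nat_lit 5) (nat_lit 5) (nat_lit 5) (nat_lit 4) (nat_lit 310) (nat_lit 219) (nat_lit 191)) (XT.lf (nat_lit 0) (nat_lit 32629675619) (nat_lit 76) (nat_lit 11394775588) (nat_lit 76) (nat_lit 3825991930) (nat_lit 4) (nat_lit 4) (nat_lit 5) (nat_lit 5) (nat_lit 5) (nat_lit 4) (nat_lit 311) (nat_lit 219) (nat_lit 190))) (XT.nd (nat_lit 78) (nat_lit 76) (nat_lit 0) (XT.lf (nat_lit 0) (nat_lit 38593713929) (nat_lit 76) (nat_lit 9603008818) (nat_lit 76) (nat_lit 1918563226) (nat_lit 4) (nat_lit 4) (nat_lit 5) (nat_lit 5) (nat_lit 5) (nat_lit 4) (nat_lit 312) (nat_lit 219) (nat_lit 189)) (XT.nd (nat_lit 78) (nat_lit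 0) (nat_lit 0) (XT.lf (nat_lit 0) (nat_lit 43003901) (nat_lit 152) (nat_lit 7706441815) (nat_lit 76) (nat_lit 44745846620) (nat_lit 3) (nat_lit 5) (nat_lit 5) (nat_lit 5) (nat_lit 4) (nat_lit 4) (nat_lit 313) (nat_lit 219) (nat_lit 188)) (XT.lf (nat_lit 0) (nat_lit 2001471269) (nat_lit 152) (nat_lit 3796492495) (nat_lit 76) (nat_lit 49196655178) (nat_lit 3) (nat_lit 5) (nat_lit 5) (nat_lit 5) (nat_lit 4) (nat_lit 4) (nat_lit 314) (nat_lit 219) (nat_lit 187))))))) (XT.nd (nat_lit 702) (nat_lit 0) (nat_lit 0) (XT.nd (nat_lit 312) (nat_lit 0) (nat_lit 0) (XT.nd (nat_lit 156) (nat_lit 0) (nat_lit 0) (XT.nd (nat_lit 78) (nat_lit 0) (nat_lit 0) (XT.lf (nat_lit 0) (nat_lit 255724240) (nat_lit 76) (nat_lit 3771176230) (nat_lit 152) (nat_lit 53593614176) (nat_lit 2) (nat_lit 5) (nat_lit 3) (nat_lit 5) (nat_lit 4) (nat_lit 4) (nat_lit 315) (nat_lit 219) (nat_lit 186)) (XT.lf (nat_lit 0) (nat_lit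 4581933197) (nat_lit 76) (nat_lit 1601730354) (nat_lit 152) (nat_lit 54192590551) (nat_lit 2) (nat_lit 5) (nat_lit 3) (nat_lit 5) (nat_lit 4) (nat_lit 4) (nat_lit 316) (nat_lit 219) (nat_lit 185))) (XT.nd (nat_lit 78) (nat_lit 0) (nat_lit 0) (XT.lf (nat_lit 0) (nat_lit 8425829654) (nat_lit 152) (nat_lit 54214722338) (nat_lit 0) (nat_lit 630399905) (nat_lit 2) (nat_lit 5) (nat_lit 4) (nat_lit 4) (nat_lit 2) (nat_lit 4) (nat_lit 317) (nat_lit 219) (nat_lit 184)) (XT.lf (nat_lit 0) (nat_lit 10774940678) (nat_lit 152) (nat_lit 52638437164) (nat_lit 0) (nat_lit 2897312152) (nat_lit 2) (nat_lit 5) (nat_lit 4) (nat_lit 4) (nat_lit 2) (nat_lit 4) (nat_lit 318) (nat_lit 219) (nat_lit 183)))) (XT.nd (nat_lit 156) (nat_lit 0) (nat_lit 0) (XT.nd (nat_lit 78) (nat_lit 0) (nat_lit 0) (XT.lf (nat_lit 0) (nat_lit 13211582246) (nat_lit 152) (nat_lit 51036704825) (nat_lit 0) (nat_lit 5255669170) (nat_lit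 2) (nat_lit 5) (nat_lit 4) (nat_lit 4) (nat_lit 2) (nat_lit 4) (nat_lit 319) (nat_lit 219) (nat_lit 182)) (XT.lf (nat_lit 0) (nat_lit 15741555886) (nat_lit 152) (nat_lit 49405711672) (nat_lit 0) (nat_lit 7711086096) (nat_lit 2) (nat_lit 5) (nat_lit 4) (nat_lit 4) (nat_lit 2) (nat_lit 4) (nat_lit 320) (nat_lit 219) (nat_lit 181))) (XT.nd (nat_lit 78) (nat_lit 0) (nat_lit 0) (XT.lf (nat_lit 0) (nat_lit 18370885344) (nat_lit 152) (nat_lit 47741574389) (nat_lit 0) (nat_lit 10269409160) (nat_lit 2) (nat_lit 5) (nat_lit 4) (nat_lit 4) (nat_lit 2) (nat_lit 4) (nat_lit 321) (nat_lit 219) (nat_lit 180)) (XT.nd (nat_lit 78) (nat_lit 0) (nat_lit 0) (XT.lf (nat_lit 0) (nat_lit 21105830929) (nat_lit 152) (nat_lit 46040330743) (nat_lit 0) (nat_lit 12936729608) (nat_lit 2) (nat_lit 5) (nat_lit 4) (nat_lit 4) (nat_lit 2) (nat_lit 4) (nat_lit 322) (nat_lit 219) (nat_lit 179)) (XT.lf (nat_lit 0) (nat_lit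 23952904416) (nat_lit 152) (nat_lit 44297930156) (nat_lit 0) (nat_lit 15719398202) (nat_lit 2) (nat_lit 5) (nat_lit 4) (nat_lit 4) (nat_lit 2) (nat_lit 4) (nat_lit 323) (nat_lit 219) (nat_lit 178)))))) (XT.nd (nat_lit 312) (nat_lit 0) (nat_lit 0) (XT.nd (nat_lit 156) (nat_lit 0) (nat_lit 0) (XT.nd (nat_lit 78) (nat_lit 0) (nat_lit 0) (XT.lf (nat_lit 0) (nat_lit 26918884551) (nat_lit 152) (nat_lit 42510224053) (nat_lit 0) (nat_lit 18624040344) (nat_lit 2) (nat_lit 5) (nat_lit 4) (nat_lit 4) (nat_lit 2) (nat_lit 4) (nat_lit 324) (nat_lit 219) (nat_lit 177)) (XT.lf (nat_lit 0) (nat_lit 30010833191) (nat_lit 152) (nat_lit 40672955992) (nat_lit 0) (nat_lit 21657571848) (nat_lit 2) (nat_lit 5) (nat_lit 4) (nat_lit 4) (nat_lit 2) (nat_lit 4) (nat_lit 325) (nat_lit 219) (nat_lit 176))) (XT.nd (nat_lit 78) (nat_lit 0) (nat_lit 0) (XT.lf (nat_lit 0) (nat_lit 33236112120) (nat_lit 152) (nat_lit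 38781751525) (nat_lit 0) (nat_lit 24827215409) (nat_lit 2) (nat_lit 5) (nat_lit 4) (nat_lit 4) (nat_lit 2) (nat_lit 4) (nat_lit 326) (nat_lit 219) (nat_lit 175)) (XT.lf (nat_lit 0) (nat_lit 36602400573) (nat_lit 152) (nat_lit 36832107784) (nat_lit 0) (nat_lit 28140517797) (nat_lit 2) (nat_lit 5) (nat_lit 4) (nat_lit 4) (nat_lit 2) (nat_lit 4) (nat_lit 327) (nat_lit 219) (nat_lit 174)))) (XT.nd (nat_lit 156) (nat_lit 0) (nat_lit 0) (XT.nd (nat_lit 78) (nat_lit 0) (nat_lit 0) (XT.lf (nat_lit 0) (nat_lit 40117713521) (nat_lit 152) (nat_lit 34819382760) (nat_lit 0) (nat_lit 31605367827) (nat_lit 2) (nat_lit 5) (nat_lit 4) (nat_lit 4) (nat_lit 2) (nat_lit 4) (nat_lit 328) (nat_lit 219) (nat_lit 173)) (XT.lf (nat_lit 0) (nat_lit 43790420759) (nat_lit 152) (nat_lit 32738784251) (nat_lit 0) (nat_lit 35230015142) (nat_lit 2) (nat_lit 5) (nat_lit 4) (nat_lit 4) (nat_lit 2) (nat_lit 4) (nat_lit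 329) (nat_lit 219) (nat_lit 172))) (XT.nd (nat_lit 78) (nat_lit 0) (nat_lit 0) (XT.lf (nat_lit 0) (nat_lit 47629266827) (nat_lit 152) (nat_lit 30585358451) (nat_lit 0) (nat_lit 39023089855) (nat_lit 2) (nat_lit 5) (nat_lit 4) (nat_lit 4) (nat_lit 2) (nat_lit 4) (nat_lit 330) (nat_lit 219) (nat_lit 171)) (XT.nd (nat_lit 78) (nat_lit 0) (nat_lit 0) (XT.lf (nat_lit 0) (nat_lit 51643391834) (nat_lit 152) (nat_lit 28353978156) (nat_lit 0) (nat_lit 42993623096) (nat_lit 2) (nat_lit 5) (nat_lit 4) (nat_lit 4) (nat_lit 2) (nat_lit 4) (nat_lit 331) (nat_lit 219) (nat_lit 170)) (XT.lf (nat_lit 0) (nat_lit 55842353222) (nat_lit 152) (nat_lit 26039330555) (nat_lit 0) (nat_lit 47151068516) (nat_lit 2) (nat_lit 5) (nat_lit 4) (nat_lit 4) (nat_lit 2) (nat_lit 4) (nat_lit 332) (nat_lit 219) (nat_lit 169))))))))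
noncomputable def xc50 : XT := (XT.nd (nat_lit 1326) (nat_lit 0) (nat_lit 0) (XT.nd (nat_lit 624) (nat_lit 76) (nat_lit 0) (XT.nd (nat_lit 312) (nat_lit 0) (nat_lit 0) (XT.nd (nat_lit 156) (nat_lit 0) (nat_lit 0) (XT.nd (nat_lit 78) (nat_lit 0) (nat_lit 0) (XT.lf (nat_lit 0) (nat_lit 60236148517) (nat_lit 152) (nat_lit 23635904583) (nat_lit 0) (nat_lit 51505324793) (nat_lit 2) (nat_lit 5) (nat_lit 4) (nat_lit 4) (nat_lit 2) (nat_lit 4) (nat_lit 333) (nat_lit 219) (nat_lit 168)) (XT.lf (nat_lit 0) (nat_lit 64835239136) (nat_lit 152) (nat_lit 21137977797) (nat_lit 0) (nat_lit 56066759206) (nat_lit 2) (nat_lit 5) (nat_lit 4) (nat_lit 4) (nat_lit 2) (nat_lit 4) (nat_lit 334) (nat_lit 219) (nat_lit 167))) (XT.nd (nat_lit 78) (nat_lit 0) (nat_lit 0) (XT.lf (nat_lit 0) (nat_lit 69650575296) (nat_lit 152) (nat_lit 18539602752) (nat_lit 0) (nat_lit 60846232312) (nat_lit 2) (nat_lit 5) (nat_lit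 4) (nat_lit 4) (nat_lit 2) (nat_lit 4) (nat_lit 335) (nat_lit 219) (nat_lit 166)) (XT.lf (nat_lit 0) (nat_lit 74693622083) (nat_lit 152) (nat_lit 15834592840) (nat_lit 0) (nat_lit 65855123808) (nat_lit 2) (nat_lit 5) (nat_lit 4) (nat_lit 4) (nat_lit 2) (nat_lit 4) (nat_lit 336) (nat_lit 219) (nat_lit 165)))) (XT.nd (nat_lit 156) (nat_lit 0) (nat_lit 0) (XT.nd (nat_lit 78) (nat_lit 0) (nat_lit 0) (XT.lf (nat_lit 0) (nat_lit 79976386750) (nat_lit 152) (nat_lit 13016507563) (nat_lit 0) (nat_lit 71105359628) (nat_lit 2) (nat_lit 5) (nat_lit 4) (nat_lit 4) (nat_lit 2) (nat_lit 4) (nat_lit 337) (nat_lit 219) (nat_lit 164)) (XT.lf (nat_lit 0) (nat_lit 85511447309) (nat_lit 152) (nat_lit 10078637193) (nat_lit 0) (nat_lit 76609440333) (nat_lit 2) (nat_lit 5) (nat_lit 4) (nat_lit 4) (nat_lit 2) (nat_lit 4) (nat_lit 338) (nat_lit 219) (nat_lit 163))) (XT.nd (nat_lit 78) (nat_lit 0) (nat_lit 0)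 (XT.lf (nat_lit 0) (nat_lit 91311982475) (nat_lit 152) (nat_lit 7013986801) (nat_lit 0) (nat_lit 82380470876) (nat_lit 2) (nat_lit 5) (nat_lit 4) (nat_lit 4) (nat_lit 2) (nat_lit 4) (nat_lit 339) (nat_lit 219) (nat_lit 162)) (XT.lf (nat_lit 0) (nat_lit 97391803048) (nat_lit 152) (nat_lit 3815259600) (nat_lit 0) (nat_lit 88432191807) (nat_lit 2) (nat_lit 5) (nat_lit 4) (nat_lit 4) (nat_lit 2) (nat_lit 4) (nat_lit 340) (nat_lit 219) (nat_lit 161))))) (XT.nd (nat_lit 312) (nat_lit 0) (nat_lit 0) (XT.nd (nat_lit 156) (nat_lit 0) (nat_lit 0) (XT.nd (nat_lit 78) (nat_lit 76) (nat_lit 0) (XT.lf (nat_lit 0) (nat_lit 103765384788) (nat_lit 152) (nat_lit 474839573) (nat_lit 0) (nat_lit 94779011984) (nat_lit 2) (nat_lit 5) (nat_lit 4) (nat_lit 4) (nat_lit 2) (nat_lit 4) (nat_lit 341) (nat_lit 219) (nat_lit 160)) (XT.lf (nat_lit 0) (nat_lit 3114923670) (nat_lit 76) (nat_lit 107381611910) (nat_lit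 76) (nat_lit 98369751903) (nat_lit 1) (nat_lit 4) (nat_lit 2) (nat_lit 5) (nat_lit 2) (nat_lit 4) (nat_lit 342) (nat_lit 219) (nat_lit 159))) (XT.nd (nat_lit 78) (nat_lit 0) (nat_lit 0) (XT.lf (nat_lit 0) (nat_lit 6883565879) (nat_lit 76) (nat_lit 110679173993) (nat_lit 76) (nat_lit 101643040459) (nat_lit 1) (nat_lit 4) (nat_lit 2) (nat_lit 5) (nat_lit 2) (nat_lit 4) (nat_lit 343) (nat_lit 219) (nat_lit 158)) (XT.lf (nat_lit 0) (nat_lit 10824359669) (nat_lit 76) (nat_lit 114148803587) (nat_lit 76) (nat_lit 105089552409) (nat_lit 1) (nat_lit 4) (nat_lit 2) (nat_lit 5) (nat_lit 2) (nat_lit 4) (nat_lit 344) (nat_lit 219) (nat_lit 157)))) (XT.nd (nat_lit 156) (nat_lit 0) (nat_lit 0) (XT.nd (nat_lit 78) (nat_lit 0) (nat_lit 0) (XT.lf (nat_lit 0) (nat_lit 14946687882) (nat_lit 76) (nat_lit 117798761715) (nat_lit 76) (nat_lit 108717493733) (nat_lit 1) (nat_lit 4) (nat_lit 2) (nat_lit 5) (nat_lit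 2) (nat_lit 4) (nat_lit 345) (nat_lit 219) (nat_lit 156)) (XT.lf (nat_lit 0) (nat_lit 19260365586) (nat_lit 76) (nat_lit 121637738754) (nat_lit 76) (nat_lit 112535502386) (nat_lit 1) (nat_lit 4) (nat_lit 2) (nat_lit 5) (nat_lit 2) (nat_lit 4) (nat_lit 346) (nat_lit 219) (nat_lit 155))) (XT.nd (nat_lit 78) (nat_lit 0) (nat_lit 0) (XT.lf (nat_lit 0) (nat_lit 23775663442) (nat_lit 76) (nat_lit 125674875124) (nat_lit 76) (nat_lit 116552668866) (nat_lit 1) (nat_lit 4) (nat_lit 2) (nat_lit 5) (nat_lit 2) (nat_lit 4) (nat_lit 347) (nat_lit 219) (nat_lit 154)) (XT.nd (nat_lit 78) (nat_lit 0) (nat_lit 0) (XT.lf (nat_lit 0) (nat_lit 28503332160) (nat_lit 76) (nat_lit 129919783056) (nat_lit 76) (nat_lit 120778557855) (nat_lit 1) (nat_lit 4) (nat_lit 2) (nat_lit 5) (nat_lit 2) (nat_lit 4) (nat_lit 348) (nat_lit 219) (nat_lit 153)) (XT.lf (nat_lit 0) (nat_lit 33454628092) (nat_lit 76) (nat_lit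 134382569473) (nat_lit 76) (nat_lit 125223230993) (nat_lit 1) (nat_lit 4) (nat_lit 2) (nat_lit 5) (nat_lit 2) (nat_lit 4) (nat_lit 349) (nat_lit 219) (nat_lit 152))))))) (XT.nd (nat_lit 624) (nat_lit 0) (nat_lit 0) (XT.nd (nat_lit 312) (nat_lit 0) (nat_lit 0) (XT.nd (nat_lit 156) (nat_lit 0) (nat_lit 0) (XT.nd (nat_lit 78) (nat_lit 0) (nat_lit 0) (XT.lf (nat_lit 0) (nat_lit 38641340039) (nat_lit 76) (nat_lit 139073860058) (nat_lit 76) (nat_lit 129897270835) (nat_lit 1) (nat_lit 4) (nat_lit 2) (nat_lit 5) (nat_lit 2) (nat_lit 4) (nat_lit 350) (nat_lit 219) (nat_lit 151)) (XT.lf (nat_lit 0) (nat_lit 44075817316) (nat_lit 76) (nat_lit 144004824548) (nat_lit 76) (nat_lit 134811806047) (nat_lit 1) (nat_lit 4) (nat_lit 2) (nat_lit 5) (nat_lit 2) (nat_lit 4) (nat_lit 351) (nat_lit 219) (nat_lit 150))) (XT.nd (nat_lit 78) (nat_lit 0) (nat_lit 0) (XT.lf (nat_lit 0) (nat_lit 49770999153) (nat_lit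 76) (nat_lit 149187203337) (nat_lit 76) (nat_lit 139978537904) (nat_lit 1) (nat_lit 4) (nat_lit 2) (nat_lit 5) (nat_lit 2) (nat_lit 4) (nat_lit 352) (nat_lit 219) (nat_lit 149)) (XT.lf (nat_lit 0) (nat_lit 55740445508) (nat_lit 76) (nat_lit 154633335422) (nat_lit 76) (nat_lit 145409768149) (nat_lit 1) (nat_lit 4) (nat_lit 2) (nat_lit 5) (nat_lit 2) (nat_lit 4) (nat_lit 353) (nat_lit 219) (nat_lit 148)))) (XT.nd (nat_lit 156) (nat_lit 0) (nat_lit 0) (XT.nd (nat_lit 78) (nat_lit 0) (nat_lit 0) (XT.lf (nat_lit 0) (nat_lit 61998369348) (nat_lit 76) (nat_lit 160356187782) (nat_lit 76) (nat_lit 151118428281) (nat_lit 1) (nat_lit 4) (nat_lit 2) (nat_lit 5) (nat_lit 2) (nat_lit 4) (nat_lit 354) (nat_lit 219) (nat_lit 147)) (XT.lf (nat_lit 0) (nat_lit 68559670492) (nat_lit 76) (nat_lit 166369386259) (nat_lit 76) (nat_lit 157118110350) (nat_lit 1) (nat_lit 4) (nat_lit 2) (nat_lit 5) (nat_lit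 2) (nat_lit 4) (nat_lit 355) (nat_lit 219) (nat_lit 146))) (XT.nd (nat_lit 78) (nat_lit 0) (nat_lit 0) (XT.lf (nat_lit 0) (nat_lit 75439971085) (nat_lit 76) (nat_lit 172687247990) (nat_lit 76) (nat_lit 163423099311) (nat_lit 1) (nat_lit 4) (nat_lit 2) (nat_lit 5) (nat_lit 2) (nat_lit 4) (nat_lit 356) (nat_lit 219) (nat_lit 145)) (XT.lf (nat_lit 0) (nat_lit 82655652795) (nat_lit 76) (nat_lit 179324815503) (nat_lit 76) (nat_lit 170048407044) (nat_lit 1) (nat_lit 4) (nat_lit 2) (nat_lit 5) (nat_lit 2) (nat_lit 4) (nat_lit 357) (nat_lit 219) (nat_lit 144))))) (XT.nd (nat_lit 312) (nat_lit 0) (nat_lit 0) (XT.nd (nat_lit 156) (nat_lit 0) (nat_lit 0) (XT.nd (nat_lit 78) (nat_lit 0) (nat_lit 0) (XT.lf (nat_lit 0) (nat_lit 90223895817) (nat_lit 76) (nat_lit 186297892531) (nat_lit 76) (nat_lit 177009808091) (nat_lit 1) (nat_lit 4) (nat_lit 2) (nat_lit 5) (nat_lit 2) (nat_lit 4) (nat_lit 358)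 (nat_lit 219) (nat_lit 143)) (XT.lf (nat_lit 0) (nat_lit 98162719778) (nat_lit 76) (nat_lit 193623081639) (nat_lit 76) (nat_lit 184323877216) (nat_lit 1) (nat_lit 4) (nat_lit 2) (nat_lit 5) (nat_lit 2) (nat_lit 4) (nat_lit 359) (nat_lit 219) (nat_lit 142))) (XT.nd (nat_lit 78) (nat_lit 0) (nat_lit 0) (XT.lf (nat_lit 0) (nat_lit 106491026638) (nat_lit 76) (nat_lit 201317823752) (nat_lit 76) (nat_lit 192008028870) (nat_lit 1) (nat_lit 4) (nat_lit 2) (nat_lit 5) (nat_lit 2) (nat_lit 4) (nat_lit 360) (nat_lit 219) (nat_lit 141)) (XT.lf (nat_lit 0) (nat_lit 115228645700) (nat_lit 76) (nat_lit 209400439685) (nat_lit 76) (nat_lit 200080558651) (nat_lit 1) (nat_lit 4) (nat_lit 2) (nat_lit 5) (nat_lit 2) (nat_lit 4) (nat_lit 361) (nat_lit 219) (nat_lit 140)))) (XT.nd (nat_lit 31122) (nat_lit 0) (nat_lit 988) (XT.nd (nat_lit 78) (nat_lit 0) (nat_lit 0) (XT.lf (nat_lit 0) (nat_lit 124396380820)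 (nat_lit 76) (nat_lit 217890173762) (nat_lit 76) (nat_lit 208560686869) (nat_lit 1) (nat_lit 4) (nat_lit 2) (nat_lit 5) (nat_lit 2) (nat_lit 4) (nat_lit 362) (nat_lit 219) (nat_lit 139)) (XT.lf (nat_lit 0) (nat_lit 134016059937) (nat_lit 76) (nat_lit 226807239635) (nat_lit 76) (nat_lit 217468604305) (nat_lit 1) (nat_lit 4) (nat_lit 2) (nat_lit 5) (nat_lit 2) (nat_lit 4) (nat_lit 363) (nat_lit 219) (nat_lit 138))) (XT.nd (nat_lit 78) (nat_lit 152) (nat_lit 0) (XT.lf (nat_lit 0) (nat_lit 813221294) (nat_lit 152) (nat_lit 5016130377) (nat_lit 0) (nat_lit 813221294) (nat_lit 16) (nat_lit 5) (nat_lit 18) (nat_lit 4) (nat_lit 16) (nat_lit 4) (nat_lit 280) (nat_lit 220) (nat_lit 220)) (XT.nd (nat_lit 78) (nat_lit 152) (nat_lit 0) (XT.lf (nat_lit 0) (nat_lit 5055415752) (nat_lit 152) (nat_lit 4209427746) (nat_lit 0) (nat_lit 4476737289) (nat_lit 16) (nat_lit 5) (nat_lit 18) (nat_lit 4) (nat_lit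 16) (nat_lit 4) (nat_lit 281) (nat_lit 220) (nat_lit 219)) (XT.lf (nat_lit 0) (nat_lit 1761777904) (nat_lit 152) (nat_lit 6797014653) (nat_lit 152) (nat_lit 5667213845) (nat_lit 14) (nat_lit 4) (nat_lit 16) (nat_lit 5) (nat_lit 16) (nat_lit 4) (nat_lit 282) (nat_lit 220) (nat_lit 218))))))))
noncomputable def xc51 : XT := (XT.nd (nat_lit 1326) (nat_lit 228) (nat_lit 0) (XT.nd (nat_lit 624) (nat_lit 304) (nat_lit 0) (XT.nd (nat_lit 312) (nat_lit 228) (nat_lit 0) (XT.nd (nat_lit 156) (nat_lit 76) (nat_lit 0) (XT.nd (nat_lit 78) (nat_lit 76) (nat_lit 0) (XT.lf (nat_lit 0) (nat_lit 7981740970) (nat_lit 152) (nat_lit 4205206393) (nat_lit 152) (nat_lit 2550527160) (nat_lit 14) (nat_lit 4) (nat_lit 16) (nat_lit 5) (nat_lit 16) (nat_lit 4) (nat_lit 283) (nat_lit 220) (nat_lit 217)) (XT.lf (nat_lit 0) (nat_lit 580822392) (nat_lit 228) (nat_lit 963877540) (nat_lit 76) (nat_lit 13735429292) (nat_lit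 13) (nat_lit 5) (nat_lit 16) (nat_lit 5) (nat_lit 14) (nat_lit 4) (nat_lit 284) (nat_lit 220) (nat_lit 216))) (XT.nd (nat_lit 78) (nat_lit 0) (nat_lit 0) (XT.lf (nat_lit 0) (nat_lit 3769916057) (nat_lit 152) (nat_lit 10814284906) (nat_lit 0) (nat_lit 1264541153) (nat_lit 12) (nat_lit 5) (nat_lit 14) (nat_lit 4) (nat_lit 12) (nat_lit 4) (nat_lit 285) (nat_lit 220) (nat_lit 215)) (XT.lf (nat_lit 0) (nat_lit 7049425066) (nat_lit 152) (nat_lit 5287829365) (nat_lit 0) (nat_lit 4112231384) (nat_lit 12) (nat_lit 5) (nat_lit 14) (nat_lit 4) (nat_lit 12) (nat_lit 4) (nat_lit 286) (nat_lit 220) (nat_lit 214)))) (XT.nd (nat_lit 156) (nat_lit 76) (nat_lit 0) (XT.nd (nat_lit 78) (nat_lit 0) (nat_lit 0) (XT.lf (nat_lit 0) (nat_lit 351492529) (nat_lit 152) (nat_lit 10041234662) (nat_lit 152) (nat_lit 6692785000) (nat_lit 10) (nat_lit 4) (nat_lit 12) (nat_lit 5) (nat_lit 12) (nat_lit 4) (nat_lit 287)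 (nat_lit 220) (nat_lit 213)) (XT.lf (nat_lit 0) (nat_lit 6284473478) (nat_lit 152) (nat_lit 7604951024) (nat_lit 152) (nat_lit 3864829000) (nat_lit 10) (nat_lit 4) (nat_lit 12) (nat_lit 5) (nat_lit 12) (nat_lit 4) (nat_lit 288) (nat_lit 220) (nat_lit 212))) (XT.nd (nat_lit 78) (nat_lit 76) (nat_lit 0) (XT.lf (nat_lit 0) (nat_lit 12350400109) (nat_lit 152) (nat_lit 5112154790) (nat_lit 152) (nat_lit 999011469) (nat_lit 10) (nat_lit 4) (nat_lit 12) (nat_lit 5) (nat_lit 12) (nat_lit 4) (nat_lit 289) (nat_lit 220) (nat_lit 211)) (XT.lf (nat_lit 0) (nat_lit 1850311318) (nat_lit 228) (nat_lit 675263495) (nat_lit 76) (nat_lit 16682067867) (nat_lit 9) (nat_lit 5) (nat_lit 12) (nat_lit 5) (nat_lit 10) (nat_lit 4) (nat_lit 290) (nat_lit 220) (nat_lit 210))))) (XT.nd (nat_lit 312) (nat_lit 152) (nat_lit 0) (XT.nd (nat_lit 156) (nat_lit 76) (nat_lit 0) (XT.nd (nat_lit 78) (nat_lit 0) (nat_lit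 0) (XT.lf (nat_lit 0) (nat_lit 4799657496) (nat_lit 152) (nat_lit 14969368117) (nat_lit 0) (nat_lit 221807010) (nat_lit 8) (nat_lit 5) (nat_lit 10) (nat_lit 4) (nat_lit 8) (nat_lit 4) (nat_lit 291) (nat_lit 220) (nat_lit 209)) (XT.lf (nat_lit 0) (nat_lit 7859649629) (nat_lit 152) (nat_lit 9980636291) (nat_lit 0) (nat_lit 2974913599) (nat_lit 8) (nat_lit 5) (nat_lit 10) (nat_lit 4) (nat_lit 8) (nat_lit 4) (nat_lit 292) (nat_lit 220) (nat_lit 208))) (XT.nd (nat_lit 78) (nat_lit 76) (nat_lit 0) (XT.lf (nat_lit 0) (nat_lit 10987072219) (nat_lit 152) (nat_lit 4888094744) (nat_lit 0) (nat_lit 5810064242) (nat_lit 8) (nat_lit 5) (nat_lit 10) (nat_lit 4) (nat_lit 8) (nat_lit 4) (nat_lit 293) (nat_lit 220) (nat_lit 207)) (XT.lf (nat_lit 0) (nat_lit 330974885) (nat_lit 76) (nat_lit 13863564070) (nat_lit 76) (nat_lit 8408201858) (nat_lit 7) (nat_lit 4) (nat_lit 8) (nat_lit 5) (nat_lit 8) (nat_lit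 4) (nat_lit 294) (nat_lit 220) (nat_lit 206)))) (XT.nd (nat_lit 156) (nat_lit 152) (nat_lit 0) (XT.nd (nat_lit 78) (nat_lit 0) (nat_lit 0) (XT.lf (nat_lit 0) (nat_lit 5844246322) (nat_lit 76) (nat_lit 11721170765) (nat_lit 76) (nat_lit 6000709282) (nat_lit 7) (nat_lit 4) (nat_lit 8) (nat_lit 5) (nat_lit 8) (nat_lit 4) (nat_lit 295) (nat_lit 220) (nat_lit 205)) (XT.lf (nat_lit 0) (nat_lit 11503223915) (nat_lit 76) (nat_lit 9525668361) (nat_lit 76) (nat_lit 3552731382) (nat_lit 7) (nat_lit 4) (nat_lit 8) (nat_lit 5) (nat_lit 8) (nat_lit 4) (nat_lit 296) (nat_lit 220) (nat_lit 204))) (XT.nd (nat_lit 78) (nat_lit 152) (nat_lit 0) (XT.lf (nat_lit 0) (nat_lit 17321381422) (nat_lit 76) (nat_lit 7271829473) (nat_lit 76) (nat_lit 1058439640) (nat_lit 7) (nat_lit 4) (nat_lit 8) (nat_lit 5) (nat_lit 8) (nat_lit 4) (nat_lit 297) (nat_lit 220) (nat_lit 203)) (XT.nd (nat_lit 78) (nat_lit 76) (nat_lit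 0) (XT.lf (nat_lit 0) (nat_lit 1440476089) (nat_lit 152) (nat_lit 3489416568) (nat_lit 76) (nat_lit 21847700348) (nat_lit 6) (nat_lit 5) (nat_lit 8) (nat_lit 5) (nat_lit 7) (nat_lit 4) (nat_lit 298) (nat_lit 220) (nat_lit 202)) (XT.lf (nat_lit 0) (nat_lit 1509861861) (nat_lit 76) (nat_lit 2475675816) (nat_lit 152) (nat_lit 23975708204) (nat_lit 5) (nat_lit 5) (nat_lit 6) (nat_lit 5) (nat_lit 7) (nat_lit 4) (nat_lit 299) (nat_lit 220) (nat_lit 201))))))) (XT.nd (nat_lit 702) (nat_lit 152) (nat_lit 0) (XT.nd (nat_lit 312) (nat_lit 76) (nat_lit 0) (XT.nd (nat_lit 156) (nat_lit 0) (nat_lit 0) (XT.nd (nat_lit 78) (nat_lit 0) (nat_lit 0) (XT.lf (nat_lit 0) (nat_lit 6653375737) (nat_lit 152) (nat_lit 22438812786) (nat_lit 0) (nat_lit 112230409) (nat_lit 5) (nat_lit 5) (nat_lit 7) (nat_lit 4) (nat_lit 5) (nat_lit 4) (nat_lit 300) (nat_lit 220) (nat_lit 200)) (XT.lf (nat_lit 0) (nat_lit 9432218014)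 (nat_lit 152) (nat_lit 18376088709) (nat_lit 0) (nat_lit 2702671584) (nat_lit 5) (nat_lit 5) (nat_lit 7) (nat_lit 4) (nat_lit 5) (nat_lit 4) (nat_lit 301) (nat_lit 220) (nat_lit 199))) (XT.nd (nat_lit 78) (nat_lit 0) (nat_lit 0) (XT.lf (nat_lit 0) (nat_lit 12290028563) (nat_lit 152) (nat_lit 14214886399) (nat_lit 0) (nat_lit 5381052511) (nat_lit 5) (nat_lit 5) (nat_lit 7) (nat_lit 4) (nat_lit 5) (nat_lit 4) (nat_lit 302) (nat_lit 220) (nat_lit 198)) (XT.lf (nat_lit 0) (nat_lit 15233611694) (nat_lit 152) (nat_lit 9945298232) (nat_lit 0) (nat_lit 8153750289) (nat_lit 5) (nat_lit 5) (nat_lit 7) (nat_lit 4) (nat_lit 5) (nat_lit 4) (nat_lit 303) (nat_lit 220) (nat_lit 197)))) (XT.nd (nat_lit 156) (nat_lit 76) (nat_lit 0) (XT.nd (nat_lit 78) (nat_lit 0) (nat_lit 0) (XT.lf (nat_lit 0) (nat_lit 18269975939) (nat_lit 152) (nat_lit 5557158521) (nat_lit 0) (nat_lit 11027366577) (nat_lit 5) (nat_lit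 5) (nat_lit 7) (nat_lit 4) (nat_lit 5) (nat_lit 4) (nat_lit 304) (nat_lit 220) (nat_lit 196)) (XT.lf (nat_lit 0) (nat_lit 21406350736) (nat_lit 152) (nat_lit 1040019314) (nat_lit 0) (nat_lit 14008743321) (nat_lit 5) (nat_lit 5) (nat_lit 7) (nat_lit 4) (nat_lit 5) (nat_lit 4) (nat_lit 305) (nat_lit 220) (nat_lit 195))) (XT.nd (nat_lit 78) (nat_lit 0) (nat_lit 0) (XT.lf (nat_lit 0) (nat_lit 3736464685) (nat_lit 76) (nat_lit 20972075644) (nat_lit 76) (nat_lit 13426851035) (nat_lit 4) (nat_lit 4) (nat_lit 5) (nat_lit 5) (nat_lit 5) (nat_lit 4) (nat_lit 306) (nat_lit 220) (nat_lit 194)) (XT.nd (nat_lit 78) (nat_lit 0) (nat_lit 0) (XT.lf (nat_lit 0) (nat_lit 8703166383) (nat_lit 76) (nat_lit 19441972557) (nat_lit 76) (nat_lit 11756160144) (nat_lit 4) (nat_lit 4) (nat_lit 5) (nat_lit 5) (nat_lit 5) (nat_lit 4) (nat_lit 307) (nat_lit 220) (nat_lit 193)) (XT.lf (nat_lit 0) (nat_lit 13837523525)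 (nat_lit 76) (nat_lit 17870030917) (nat_lit 76) (nat_lit 10050325359) (nat_lit 4) (nat_lit 4) (nat_lit 5) (nat_lit 5) (nat_lit 5) (nat_lit 4) (nat_lit 308) (nat_lit 220) (nat_lit 192)))))) (XT.nd (nat_lit 312) (nat_lit 152) (nat_lit 0) (XT.nd (nat_lit 156) (nat_lit 0) (nat_lit 0) (XT.nd (nat_lit 78) (nat_lit 0) (nat_lit 0) (XT.lf (nat_lit 0) (nat_lit 19151760769) (nat_lit 76) (nat_lit 16252508007) (nat_lit 76) (nat_lit 8305285166) (nat_lit 4) (nat_lit 4) (nat_lit 5) (nat_lit 5) (nat_lit 5) (nat_lit 4) (nat_lit 309) (nat_lit 220) (nat_lit 191)) (XT.lf (nat_lit 0) (nat_lit 24658531063) (nat_lit 76) (nat_lit 14585552581) (nat_lit 76) (nat_lit 6516884709) (nat_lit 4) (nat_lit 4) (nat_lit 5) (nat_lit 5) (nat_lit 5) (nat_lit 4) (nat_lit 310) (nat_lit 220) (nat_lit 190))) (XT.nd (nat_lit 78) (nat_lit 0) (nat_lit 0) (XT.lf (nat_lit 0) (nat_lit 30370945764) (nat_lit 76) (nat_lit 12865195697)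 (nat_lit 76) (nat_lit 4680865892) (nat_lit 4) (nat_lit 4) (nat_lit 5) (nat_lit 5) (nat_lit 5) (nat_lit 4) (nat_lit 311) (nat_lit 220) (nat_lit 189)) (XT.lf (nat_lit 0) (nat_lit 36302605858) (nat_lit 76) (nat_lit 11087341269) (nat_lit 76) (nat_lit 2792857240) (nat_lit 4) (nat_lit 4) (nat_lit 5) (nat_lit 5) (nat_lit 5) (nat_lit 4) (nat_lit 312) (nat_lit 220) (nat_lit 188)))) (XT.nd (nat_lit 156) (nat_lit 76) (nat_lit 0) (XT.nd (nat_lit 78) (nat_lit 76) (nat_lit 0) (XT.lf (nat_lit 0) (nat_lit 42467634348) (nat_lit 76) (nat_lit 9247756308) (nat_lit 76) (nat_lit 848363496) (nat_lit 4) (nat_lit 4) (nat_lit 5) (nat_lit 5) (nat_lit 5) (nat_lit 4) (nat_lit 313) (nat_lit 220) (nat_lit 187)) (XT.lf (nat_lit 0) (nat_lit 1120206017) (nat_lit 152) (nat_lit 6202883603) (nat_lit 76) (nat_lit 47741532622) (nat_lit 3) (nat_lit 5) (nat_lit 5) (nat_lit 5) (nat_lit 4) (nat_lit 4) (nat_lit 314) (nat_lit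 220) (nat_lit 186))) (XT.nd (nat_lit 78) (nat_lit 76) (nat_lit 0) (XT.lf (nat_lit 0) (nat_lit 3125403805) (nat_lit 152) (nat_lit 2187383498) (nat_lit 76) (nat_lit 52378767624) (nat_lit 3) (nat_lit 5) (nat_lit 5) (nat_lit 5) (nat_lit 4) (nat_lit 4) (nat_lit 315) (nat_lit 220) (nat_lit 185)) (XT.nd (nat_lit 78) (nat_lit 0) (nat_lit 0) (XT.lf (nat_lit 0) (nat_lit 2038429016) (nat_lit 76) (nat_lit 3192553650) (nat_lit 152) (nat_lit 55218895126) (nat_lit 2) (nat_lit 5) (nat_lit 3) (nat_lit 5) (nat_lit 4) (nat_lit 4) (nat_lit 316) (nat_lit 220) (nat_lit 184)) (XT.lf (nat_lit 0) (nat_lit 6496666584) (nat_lit 76) (nat_lit 951167927) (nat_lit 152) (nat_lit 55898029833) (nat_lit 2) (nat_lit 5) (nat_lit 3) (nat_lit 5) (nat_lit 4) (nat_lit 4) (nat_lit 317) (nat_lit 220) (nat_lit 183))))))))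
noncomputable def xc52 : XT := (XT.nd (nat_lit 1326) (nat_lit 76) (nat_lit 0) (XT.nd (nat_lit 624) (nat_lit 0) (nat_lit 0) (XT.nd (nat_lit 312) (nat_lit 0) (nat_lit 0) (XT.nd (nat_lit 156) (nat_lit 0) (nat_lit 0) (XT.nd (nat_lit 78) (nat_lit 0) (nat_lit 0) (XT.lf (nat_lit 0) (nat_lit 9767497575) (nat_lit 152) (nat_lit 55284094918) (nat_lit 0) (nat_lit 1335504296) (nat_lit 2) (nat_lit 5) (nat_lit 4) (nat_lit 4) (nat_lit 2) (nat_lit 4) (nat_lit 318) (nat_lit 220) (nat_lit 182)) (XT.lf (nat_lit 0) (nat_lit 12190236701) (nat_lit 152) (nat_lit 53707155654) (nat_lit 0) (nat_lit 3683686708) (nat_lit 2) (nat_lit 5) (nat_lit 4) (nat_lit 4) (nat_lit 2) (nat_lit 4) (nat_lit 319) (nat_lit 220) (nat_lit 181))) (XT.nd (nat_lit 78) (nat_lit 0) (nat_lit 0) (XT.lf (nat_lit 0) (nat_lit 14706969919) (nat_lit 152) (nat_lit 52099774953) (nat_lit 0) (nat_lit 6129413532) (nat_lit 2) (nat_lit 5) (nat_lit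 4) (nat_lit 4) (nat_lit 2) (nat_lit 4) (nat_lit 320) (nat_lit 220) (nat_lit 180)) (XT.lf (nat_lit 0) (nat_lit 17323689453) (nat_lit 152) (nat_lit 50458125720) (nat_lit 0) (nat_lit 8678507928) (nat_lit 2) (nat_lit 5) (nat_lit 4) (nat_lit 4) (nat_lit 2) (nat_lit 4) (nat_lit 321) (nat_lit 220) (nat_lit 179)))) (XT.nd (nat_lit 156) (nat_lit 0) (nat_lit 0) (XT.nd (nat_lit 78) (nat_lit 0) (nat_lit 0) (XT.lf (nat_lit 0) (nat_lit 20046625585) (nat_lit 152) (nat_lit 48778299265) (nat_lit 0) (nat_lit 11337039168) (nat_lit 2) (nat_lit 5) (nat_lit 4) (nat_lit 4) (nat_lit 2) (nat_lit 4) (nat_lit 322) (nat_lit 220) (nat_lit 178)) (XT.lf (nat_lit 0) (nat_lit 22882261498) (nat_lit 152) (nat_lit 47056296001) (nat_lit 0) (nat_lit 14111337088) (nat_lit 2) (nat_lit 5) (nat_lit 4) (nat_lit 4) (nat_lit 2) (nat_lit 4) (nat_lit 323) (nat_lit 220) (nat_lit 177))) (XT.nd (nat_lit 78) (nat_lit 0) (nat_lit 0)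 (XT.lf (nat_lit 0) (nat_lit 25837348706) (nat_lit 152) (nat_lit 45288015921) (nat_lit 0) (nat_lit 17008007159) (nat_lit 2) (nat_lit 5) (nat_lit 4) (nat_lit 4) (nat_lit 2) (nat_lit 4) (nat_lit 324) (nat_lit 220) (nat_lit 176)) (XT.lf (nat_lit 0) (nat_lit 28918923130) (nat_lit 152) (nat_lit 43469248834) (nat_lit 0) (nat_lit 20033946215) (nat_lit 2) (nat_lit 5) (nat_lit 4) (nat_lit 4) (nat_lit 2) (nat_lit 4) (nat_lit 325) (nat_lit 220) (nat_lit 175))))) (XT.nd (nat_lit 312) (nat_lit 0) (nat_lit 0) (XT.nd (nat_lit 156) (nat_lit 0) (nat_lit 0) (XT.nd (nat_lit 78) (nat_lit 0) (nat_lit 0) (XT.lf (nat_lit 0) (nat_lit 32134321852) (nat_lit 152) (nat_lit 41595664342) (nat_lit 0) (nat_lit 23196358873) (nat_lit 2) (nat_lit 5) (nat_lit 4) (nat_lit 4) (nat_lit 2) (nat_lit 4) (nat_lit 326) (nat_lit 220) (nat_lit 174)) (XT.lf (nat_lit 0) (nat_lit 35491200585) (nat_lit 152) (nat_lit 39662801530) (nat_lit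 0) (nat_lit 26502774687) (nat_lit 2) (nat_lit 5) (nat_lit 4) (nat_lit 4) (nat_lit 2) (nat_lit 4) (nat_lit 327) (nat_lit 220) (nat_lit 173))) (XT.nd (nat_lit 78) (nat_lit 0) (nat_lit 0) (XT.lf (nat_lit 0) (nat_lit 38997551895) (nat_lit 152) (nat_lit 37666058344) (nat_lit 0) (nat_lit 29961066075) (nat_lit 2) (nat_lit 5) (nat_lit 4) (nat_lit 4) (nat_lit 2) (nat_lit 4) (nat_lit 328) (nat_lit 220) (nat_lit 172)) (XT.lf (nat_lit 0) (nat_lit 42661724239) (nat_lit 152) (nat_lit 35600680632) (nat_lit 0) (nat_lit 33579467064) (nat_lit 2) (nat_lit 5) (nat_lit 4) (nat_lit 4) (nat_lit 2) (nat_lit 4) (nat_lit 329) (nat_lit 220) (nat_lit 171)))) (XT.nd (nat_lit 156) (nat_lit 0) (nat_lit 0) (XT.nd (nat_lit 78) (nat_lit 0) (nat_lit 0) (XT.lf (nat_lit 0) (nat_lit 46492441837) (nat_lit 152) (nat_lit 33461750830) (nat_lit 0) (nat_lit 37366592895) (nat_lit 2) (nat_lit 5) (nat_lit 4) (nat_lit 4) (nat_lit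 2) (nat_lit 4) (nat_lit 330) (nat_lit 220) (nat_lit 170)) (XT.lf (nat_lit 0) (nat_lit 50498825444) (nat_lit 152) (nat_lit 31244176246) (nat_lit 0) (nat_lit 41331460534) (nat_lit 2) (nat_lit 5) (nat_lit 4) (nat_lit 4) (nat_lit 2) (nat_lit 4) (nat_lit 331) (nat_lit 220) (nat_lit 169))) (XT.nd (nat_lit 78) (nat_lit 0) (nat_lit 0) (XT.lf (nat_lit 0) (nat_lit 54690414070) (nat_lit 152) (nat_lit 28942676942) (nat_lit 0) (nat_lit 45483510143) (nat_lit 2) (nat_lit 5) (nat_lit 4) (nat_lit 4) (nat_lit 2) (nat_lit 4) (nat_lit 332) (nat_lit 220) (nat_lit 168)) (XT.nd (nat_lit 78) (nat_lit 0) (nat_lit 0) (XT.lf (nat_lit 0) (nat_lit 59077187686) (nat_lit 152) (nat_lit 26551773158) (nat_lit 0) (nat_lit 49832627553) (nat_lit 2) (nat_lit 5) (nat_lit 4) (nat_lit 4) (nat_lit 2) (nat_lit 4) (nat_lit 333) (nat_lit 220) (nat_lit 167)) (XT.lf (nat_lit 0) (nat_lit 63669590993) (nat_lit 152) (nat_lit 24065772264)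 (nat_lit 0) (nat_lit 54389167806) (nat_lit 2) (nat_lit 5) (nat_lit 4) (nat_lit 4) (nat_lit 2) (nat_lit 4) (nat_lit 334) (nat_lit 220) (nat_lit 166))))))) (XT.nd (nat_lit 624) (nat_lit 0) (nat_lit 0) (XT.nd (nat_lit 312) (nat_lit 76) (nat_lit 0) (XT.nd (nat_lit 156) (nat_lit 0) (nat_lit 0) (XT.nd (nat_lit 78) (nat_lit 0) (nat_lit 0) (XT.lf (nat_lit 0) (nat_lit 68478558284) (nat_lit 152) (nat_lit 21478755212) (nat_lit 0) (nat_lit 59163979807) (nat_lit 2) (nat_lit 5) (nat_lit 4) (nat_lit 4) (nat_lit 2) (nat_lit 4) (nat_lit 335) (nat_lit 220) (nat_lit 165)) (XT.lf (nat_lit 0) (nat_lit 73515539481) (nat_lit 152) (nat_lit 18784562438) (nat_lit 0) (nat_lit 64168432156) (nat_lit 2) (nat_lit 5) (nat_lit 4) (nat_lit 4) (nat_lit 2) (nat_lit 4) (nat_lit 336) (nat_lit 220) (nat_lit 164))) (XT.nd (nat_lit 78) (nat_lit 0) (nat_lit 0) (XT.lf (nat_lit 0) (nat_lit 78792527397) (nat_lit 152) (nat_lit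 15976779195) (nat_lit 0) (nat_lit 69414440217) (nat_lit 2) (nat_lit 5) (nat_lit 4) (nat_lit 4) (nat_lit 2) (nat_lit 4) (nat_lit 337) (nat_lit 220) (nat_lit 163)) (XT.lf (nat_lit 0) (nat_lit 84322086287) (nat_lit 152) (nat_lit 13048720287) (nat_lit 0) (nat_lit 74914494484) (nat_lit 2) (nat_lit 5) (nat_lit 4) (nat_lit 4) (nat_lit 2) (nat_lit 4) (nat_lit 338) (nat_lit 220) (nat_lit 162)))) (XT.nd (nat_lit 156) (nat_lit 76) (nat_lit 0) (XT.nd (nat_lit 78) (nat_lit 0) (nat_lit 0) (XT.lf (nat_lit 0) (nat_lit 90117381769) (nat_lit 152) (nat_lit 9993414144) (nat_lit 0) (nat_lit 80681690325) (nat_lit 2) (nat_lit 5) (nat_lit 4) (nat_lit 4) (nat_lit 2) (nat_lit 4) (nat_lit 339) (nat_lit 220) (nat_lit 161)) (XT.lf (nat_lit 0) (nat_lit 96192212166) (nat_lit 152) (nat_lit 6803586228) (nat_lit 0) (nat_lit 86729759159) (nat_lit 2) (nat_lit 5) (nat_lit 4) (nat_lit 4) (nat_lit 2) (nat_lit 4) (nat_lit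 340) (nat_lit 220) (nat_lit 160))) (XT.nd (nat_lit 78) (nat_lit 76) (nat_lit 0) (XT.lf (nat_lit 0) (nat_lit 102561041359) (nat_lit 152) (nat_lit 3471641710) (nat_lit 0) (nat_lit 93073101148) (nat_lit 2) (nat_lit 5) (nat_lit 4) (nat_lit 4) (nat_lit 2) (nat_lit 4) (nat_lit 341) (nat_lit 220) (nat_lit 159)) (XT.lf (nat_lit 0) (nat_lit 10694913) (nat_lit 76) (nat_lit 109228505291) (nat_lit 76) (nat_lit 99716291554) (nat_lit 1) (nat_lit 4) (nat_lit 2) (nat_lit 5) (nat_lit 2) (nat_lit 4) (nat_lit 342) (nat_lit 220) (nat_lit 158))))) (XT.nd (nat_lit 312) (nat_lit 0) (nat_lit 0) (XT.nd (nat_lit 156) (nat_lit 0) (nat_lit 0) (XT.nd (nat_lit 78) (nat_lit 0) (nat_lit 0) (XT.lf (nat_lit 0) (nat_lit 3771395400) (nat_lit 76) (nat_lit 112529574402) (nat_lit 76) (nat_lit 102994243020) (nat_lit 1) (nat_lit 4) (nat_lit 2) (nat_lit 5) (nat_lit 2) (nat_lit 4) (nat_lit 343) (nat_lit 220) (nat_lit 157))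 (XT.lf (nat_lit 0) (nat_lit 7704625645) (nat_lit 76) (nat_lit 116002544022) (nat_lit 76) (nat_lit 106445195836) (nat_lit 1) (nat_lit 4) (nat_lit 2) (nat_lit 5) (nat_lit 2) (nat_lit 4) (nat_lit 344) (nat_lit 220) (nat_lit 156))) (XT.nd (nat_lit 78) (nat_lit 0) (nat_lit 0) (XT.lf (nat_lit 0) (nat_lit 11819750483) (nat_lit 76) (nat_lit 119655683128) (nat_lit 76) (nat_lit 110077366557) (nat_lit 1) (nat_lit 4) (nat_lit 2) (nat_lit 5) (nat_lit 2) (nat_lit 4) (nat_lit 345) (nat_lit 220) (nat_lit 155)) (XT.lf (nat_lit 0) (nat_lit 16126567830) (nat_lit 76) (nat_lit 123497689669) (nat_lit 76) (nat_lit 113899403207) (nat_lit 1) (nat_lit 4) (nat_lit 2) (nat_lit 5) (nat_lit 2) (nat_lit 4) (nat_lit 346) (nat_lit 220) (nat_lit 154)))) (XT.nd (nat_lit 156) (nat_lit 0) (nat_lit 0) (XT.nd (nat_lit 78) (nat_lit 0) (nat_lit 0) (XT.lf (nat_lit 0) (nat_lit 20635332012) (nat_lit 76) (nat_lit 127537711280)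 (nat_lit 76) (nat_lit 117920405875) (nat_lit 1) (nat_lit 4) (nat_lit 2) (nat_lit 5) (nat_lit 2) (nat_lit 4) (nat_lit 347) (nat_lit 220) (nat_lit 153)) (XT.lf (nat_lit 0) (nat_lit 25356778182) (nat_lit 76) (nat_lit 131785367060) (nat_lit 76) (nat_lit 122149948376) (nat_lit 1) (nat_lit 4) (nat_lit 2) (nat_lit 5) (nat_lit 2) (nat_lit 4) (nat_lit 348) (nat_lit 220) (nat_lit 152))) (XT.nd (nat_lit 78) (nat_lit 0) (nat_lit 0) (XT.lf (nat_lit 0) (nat_lit 30302147880) (nat_lit 76) (nat_lit 136250770475) (nat_lit 76) (nat_lit 126598101049) (nat_lit 1) (nat_lit 4) (nat_lit 2) (nat_lit 5) (nat_lit 2) (nat_lit 4) (nat_lit 349) (nat_lit 220) (nat_lit 151)) (XT.nd (nat_lit 78) (nat_lit 0) (nat_lit 0) (XT.lf (nat_lit 0) (nat_lit 35483215794) (nat_lit 76) (nat_lit 140944553439) (nat_lit 76) (nat_lit 131275454734) (nat_lit 1) (nat_lit 4) (nat_lit 2) (nat_lit 5) (nat_lit 2) (nat_lit 4) (nat_lit 350)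 (nat_lit 220) (nat_lit 150)) (XT.lf (nat_lit 0) (nat_lit 40912317801) (nat_lit 76) (nat_lit 145877891624) (nat_lit 76) (nat_lit 136193145988) (nat_lit 1) (nat_lit 4) (nat_lit 2) (nat_lit 5) (nat_lit 2) (nat_lit 4) (nat_lit 351) (nat_lit 220) (nat_lit 149))))))))
noncomputable def xc53 : XT := (XT.nd (nat_lit 32136) (nat_lit 0) (nat_lit 304) (XT.nd (nat_lit 624) (nat_lit 0) (nat_lit 0) (XT.nd (nat_lit 312) (nat_lit 0) (nat_lit 0) (XT.nd (nat_lit 156) (nat_lit 0) (nat_lit 0) (XT.nd (nat_lit 78) (nat_lit 0) (nat_lit 0) (XT.lf (nat_lit 0) (nat_lit 46602380333) (nat_lit 76) (nat_lit 151062531074) (nat_lit 76) (nat_lit 141362883598) (nat_lit 1) (nat_lit 4) (nat_lit 2) (nat_lit 5) (nat_lit 2) (nat_lit 4) (nat_lit 352) (nat_lit 220) (nat_lit 148)) (XT.lf (nat_lit 0) (nat_lit 52566951160) (nat_lit 76) (nat_lit 156510816170) (nat_lit 76) (nat_lit 146796976465) (nat_lit 1) (nat_lit 4) (nat_lit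 2) (nat_lit 5) (nat_lit 2) (nat_lit 4) (nat_lit 353) (nat_lit 220) (nat_lit 147))) (XT.nd (nat_lit 78) (nat_lit 0) (nat_lit 0) (XT.lf (nat_lit 0) (nat_lit 58820231640) (nat_lit 76) (nat_lit 162235719017) (nat_lit 76) (nat_lit 152508362905) (nat_lit 1) (nat_lit 4) (nat_lit 2) (nat_lit 5) (nat_lit 2) (nat_lit 4) (nat_lit 354) (nat_lit 220) (nat_lit 146)) (XT.lf (nat_lit 0) (nat_lit 65377110536) (nat_lit 76) (nat_lit 168250870337) (nat_lit 76) (nat_lit 158510641456) (nat_lit 1) (nat_lit 4) (nat_lit 2) (nat_lit 5) (nat_lit 2) (nat_lit 4) (nat_lit 355) (nat_lit 220) (nat_lit 145)))) (XT.nd (nat_lit 156) (nat_lit 0) (nat_lit 0) (XT.nd (nat_lit 78) (nat_lit 0) (nat_lit 0) (XT.lf (nat_lit 0) (nat_lit 72253199464) (nat_lit 76) (nat_lit 174570591920) (nat_lit 76) (nat_lit 164818103258) (nat_lit 1) (nat_lit 4) (nat_lit 2) (nat_lit 5) (nat_lit 2) (nat_lit 4) (nat_lit 356) (nat_lit 220) (nat_lit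 144)) (XT.lf (nat_lit 0) (nat_lit 79464870066) (nat_lit 76) (nat_lit 181209930721) (nat_lit 76) (nat_lit 171445766077) (nat_lit 1) (nat_lit 4) (nat_lit 2) (nat_lit 5) (nat_lit 2) (nat_lit 4) (nat_lit 357) (nat_lit 220) (nat_lit 143))) (XT.nd (nat_lit 78) (nat_lit 0) (nat_lit 0) (XT.lf (nat_lit 0) (nat_lit 87029292984) (nat_lit 76) (nat_lit 188184694690) (nat_lit 76) (nat_lit 178409410064) (nat_lit 1) (nat_lit 4) (nat_lit 2) (nat_lit 5) (nat_lit 2) (nat_lit 4) (nat_lit 358) (nat_lit 220) (nat_lit 142)) (XT.lf (nat_lit 0) (nat_lit 94964478750) (nat_lit 76) (nat_lit 195511490407) (nat_lit 76) (nat_lit 185725615322) (nat_lit 1) (nat_lit 4) (nat_lit 2) (nat_lit 5) (nat_lit 2) (nat_lit 4) (nat_lit 359) (nat_lit 220) (nat_lit 141))))) (XT.nd (nat_lit 31122) (nat_lit 0) (nat_lit 988) (XT.nd (nat_lit 156) (nat_lit 0) (nat_lit 0) (XT.nd (nat_lit 78) (nat_lit 0) (nat_lit 0) (XT.lf (nat_lit 0)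 (nat_lit 103289320664) (nat_lit 76) (nat_lit 203207762624) (nat_lit 76) (nat_lit 193411801387) (nat_lit 1) (nat_lit 4) (nat_lit 2) (nat_lit 5) (nat_lit 2) (nat_lit 4) (nat_lit 360) (nat_lit 220) (nat_lit 140)) (XT.lf (nat_lit 0) (nat_lit 112023639777) (nat_lit 76) (nat_lit 211291835800) (nat_lit 76) (nat_lit 201486268704) (nat_lit 1) (nat_lit 4) (nat_lit 2) (nat_lit 5) (nat_lit 2) (nat_lit 4) (nat_lit 361) (nat_lit 220) (nat_lit 139))) (XT.nd (nat_lit 78) (nat_lit 0) (nat_lit 0) (XT.lf (nat_lit 0) (nat_lit 121188232087) (nat_lit 76) (nat_lit 219782957727) (nat_lit 76) (nat_lit 209968242194) (nat_lit 1) (nat_lit 4) (nat_lit 2) (nat_lit 5) (nat_lit 2) (nat_lit 4) (nat_lit 362) (nat_lit 220) (nat_lit 138)) (XT.lf (nat_lit 0) (nat_lit 130804918053) (nat_lit 76) (nat_lit 228701345362) (nat_lit 76) (nat_lit 218877917032) (nat_lit 1) (nat_lit 4) (nat_lit 2) (nat_lit 5) (nat_lit 2) (nat_lit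 4) (nat_lit 363) (nat_lit 220) (nat_lit 137)))) (XT.nd (nat_lit 156) (nat_lit 304) (nat_lit 0) (XT.nd (nat_lit 78) (nat_lit 0) (nat_lit 0) (XT.lf (nat_lit 0) (nat_lit 1842257846) (nat_lit 152) (nat_lit 2188512574) (nat_lit 152) (nat_lit 2188512574) (nat_lit 18) (nat_lit 4) (nat_lit 20) (nat_lit 5) (nat_lit 20) (nat_lit 4) (nat_lit 278) (nat_lit 221) (nat_lit 221)) (XT.lf (nat_lit 0) (nat_lit 9979506877) (nat_lit 152) (nat_lit 1755439507) (nat_lit 152) (nat_lit 1117446502) (nat_lit 18) (nat_lit 4) (nat_lit 20) (nat_lit 5) (nat_lit 20) (nat_lit 4) (nat_lit 279) (nat_lit 221) (nat_lit 220))) (XT.nd (nat_lit 78) (nat_lit 152) (nat_lit 0) (XT.lf (nat_lit 0) (nat_lit 2170260403) (nat_lit 152) (nat_lit 10134267949) (nat_lit 0) (nat_lit 983969554) (nat_lit 16) (nat_lit 5) (nat_lit 18) (nat_lit 4) (nat_lit 16) (nat_lit 4) (nat_lit 280) (nat_lit 221) (nat_lit 219)) (XT.nd (nat_lit 78) (nat_lit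 152) (nat_lit 0) (XT.lf (nat_lit 0) (nat_lit 5538476832) (nat_lit 152) (nat_lit 4408584649) (nat_lit 0) (nat_lit 3801063638) (nat_lit 16) (nat_lit 5) (nat_lit 18) (nat_lit 4) (nat_lit 16) (nat_lit 4) (nat_lit 281) (nat_lit 221) (nat_lit 218)) (XT.lf (nat_lit 0) (nat_lit 1460453197) (nat_lit 152) (nat_lit 7518832361) (nat_lit 152) (nat_lit 5256540743) (nat_lit 14) (nat_lit 4) (nat_lit 16) (nat_lit 5) (nat_lit 16) (nat_lit 4) (nat_lit 282) (nat_lit 221) (nat_lit 217))))))) (XT.nd (nat_lit 702) (nat_lit 228) (nat_lit 0) (XT.nd (nat_lit 312) (nat_lit 304) (nat_lit 0) (XT.nd (nat_lit 156) (nat_lit 76) (nat_lit 0) (XT.nd (nat_lit 78) (nat_lit 76) (nat_lit 0) (XT.lf (nat_lit 0) (nat_lit 7589385045) (nat_lit 152) (nat_lit 4961525916) (nat_lit 152) (nat_lit 2199350084) (nat_lit 14) (nat_lit 4) (nat_lit 16) (nat_lit 5) (nat_lit 16) (nat_lit 4) (nat_lit 283) (nat_lit 221) (nat_lit 216)) (XT.lf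 (nat_lit 0) (nat_lit 865910293) (nat_lit 228) (nat_lit 1463139934) (nat_lit 76) (nat_lit 12966460968) (nat_lit 13) (nat_lit 5) (nat_lit 16) (nat_lit 5) (nat_lit 14) (nat_lit 4) (nat_lit 284) (nat_lit 221) (nat_lit 215))) (XT.nd (nat_lit 78) (nat_lit 0) (nat_lit 0) (XT.lf (nat_lit 0) (nat_lit 3980449703) (nat_lit 152) (nat_lit 11422945609) (nat_lit 0) (nat_lit 464577558) (nat_lit 12) (nat_lit 5) (nat_lit 14) (nat_lit 4) (nat_lit 12) (nat_lit 4) (nat_lit 285) (nat_lit 221) (nat_lit 214)) (XT.lf (nat_lit 0) (nat_lit 7208412313) (nat_lit 152) (nat_lit 5981712692) (nat_lit 0) (nat_lit 3281284188) (nat_lit 12) (nat_lit 5) (nat_lit 14) (nat_lit 4) (nat_lit 12) (nat_lit 4) (nat_lit 286) (nat_lit 221) (nat_lit 213)))) (XT.nd (nat_lit 156) (nat_lit 152) (nat_lit 0) (XT.nd (nat_lit 78) (nat_lit 152) (nat_lit 0) (XT.lf (nat_lit 0) (nat_lit 10497134846) (nat_lit 152) (nat_lit 434805158) (nat_lit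 0) (nat_lit 6178334360) (nat_lit 12) (nat_lit 5) (nat_lit 14) (nat_lit 4) (nat_lit 12) (nat_lit 4) (nat_lit 287) (nat_lit 221) (nat_lit 212)) (XT.lf (nat_lit 0) (nat_lit 5403943868) (nat_lit 152) (nat_lit 8534874434) (nat_lit 152) (nat_lit 3843052651) (nat_lit 10) (nat_lit 4) (nat_lit 12) (nat_lit 5) (nat_lit 12) (nat_lit 4) (nat_lit 288) (nat_lit 221) (nat_lit 211))) (XT.nd (nat_lit 78) (nat_lit 152) (nat_lit 0) (XT.lf (nat_lit 0) (nat_lit 11393817831) (nat_lit 152) (nat_lit 6072415755) (nat_lit 152) (nat_lit 1025335593) (nat_lit 10) (nat_lit 4) (nat_lit 12) (nat_lit 5) (nat_lit 12) (nat_lit 4) (nat_lit 289) (nat_lit 221) (nat_lit 210)) (XT.nd (nat_lit 78) (nat_lit 76) (nat_lit 0) (XT.lf (nat_lit 0) (nat_lit 1780485961) (nat_lit 228) (nat_lit 1735425253) (nat_lit 76) (nat_lit 15724062361) (nat_lit 9) (nat_lit 5) (nat_lit 12) (nat_lit 5) (nat_lit 10) (nat_lit 4) (nat_lit 290) (nat_lit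 221) (nat_lit 209)) (XT.lf (nat_lit 0) (nat_lit 3857211109) (nat_lit 76) (nat_lit 808575428) (nat_lit 152) (nat_lit 15360665303) (nat_lit 8) (nat_lit 5) (nat_lit 9) (nat_lit 5) (nat_lit 10) (nat_lit 4) (nat_lit 291) (nat_lit 221) (nat_lit 208)))))) (XT.nd (nat_lit 312) (nat_lit 152) (nat_lit 0) (XT.nd (nat_lit 156) (nat_lit 76) (nat_lit 0) (XT.nd (nat_lit 78) (nat_lit 0) (nat_lit 0) (XT.lf (nat_lit 0) (nat_lit 7671413494) (nat_lit 152) (nat_lit 11238922274) (nat_lit 0) (nat_lit 1943283172) (nat_lit 8) (nat_lit 5) (nat_lit 10) (nat_lit 4) (nat_lit 8) (nat_lit 4) (nat_lit 292) (nat_lit 221) (nat_lit 207)) (XT.lf (nat_lit 0) (nat_lit 10759082704) (nat_lit 152) (nat_lit 6214035487) (nat_lit 0) (nat_lit 4752598147) (nat_lit 8) (nat_lit 5) (nat_lit 10) (nat_lit 4) (nat_lit 8) (nat_lit 4) (nat_lit 293) (nat_lit 221) (nat_lit 206))) (XT.nd (nat_lit 78) (nat_lit 76) (nat_lit 0) (XT.lf (nat_lit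 0) (nat_lit 13923521633) (nat_lit 152) (nat_lit 1069992226) (nat_lit 0) (nat_lit 7651937805) (nat_lit 8) (nat_lit 5) (nat_lit 10) (nat_lit 4) (nat_lit 8) (nat_lit 4) (nat_lit 294) (nat_lit 221) (nat_lit 205)) (XT.lf (nat_lit 0) (nat_lit 4344506574) (nat_lit 76) (nat_lit 12895588008) (nat_lit 76) (nat_lit 6371528684) (nat_lit 7) (nat_lit 4) (nat_lit 8) (nat_lit 5) (nat_lit 8) (nat_lit 4) (nat_lit 295) (nat_lit 221) (nat_lit 204)))) (XT.nd (nat_lit 156) (nat_lit 152) (nat_lit 0) (XT.nd (nat_lit 78) (nat_lit 0) (nat_lit 0) (XT.lf (nat_lit 0) (nat_lit 9943109062) (nat_lit 76) (nat_lit 10725177622) (nat_lit 76) (nat_lit 3960665444) (nat_lit 7) (nat_lit 4) (nat_lit 8) (nat_lit 5) (nat_lit 8) (nat_lit 4) (nat_lit 296) (nat_lit 221) (nat_lit 203)) (XT.lf (nat_lit 0) (nat_lit 15703766467) (nat_lit 76) (nat_lit 8495235893) (nat_lit 76) (nat_lit 1501720997) (nat_lit 7) (nat_lit 4) (nat_lit 8)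 (nat_lit 5) (nat_lit 8) (nat_lit 4) (nat_lit 297) (nat_lit 221) (nat_lit 202))) (XT.nd (nat_lit 78) (nat_lit 76) (nat_lit 0) (XT.lf (nat_lit 0) (nat_lit 978795874) (nat_lit 152) (nat_lit 5205081179) (nat_lit 76) (nat_lit 20644822384) (nat_lit 6) (nat_lit 5) (nat_lit 8) (nat_lit 5) (nat_lit 7) (nat_lit 4) (nat_lit 298) (nat_lit 221) (nat_lit 201)) (XT.nd (nat_lit 78) (nat_lit 76) (nat_lit 0) (XT.lf (nat_lit 0) (nat_lit 3469249402) (nat_lit 152) (nat_lit 307363663) (nat_lit 76) (nat_lit 24238525116) (nat_lit 6) (nat_lit 5) (nat_lit 8) (nat_lit 5) (nat_lit 7) (nat_lit 4) (nat_lit 299) (nat_lit 221) (nat_lit 200)) (XT.lf (nat_lit 0) (nat_lit 4887741208) (nat_lit 76) (nat_lit 1212203818) (nat_lit 152) (nat_lit 23160276152) (nat_lit 5) (nat_lit 5) (nat_lit 6) (nat_lit 5) (nat_lit 7) (nat_lit 4) (nat_lit 300) (nat_lit 221) (nat_lit 199))))))))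
noncomputable def xc54 : XT := (XT.nd (nat_lit 1326) (nat_lit 0) (nat_lit 0) (XT.nd (nat_lit 624) (nat_lit 152) (nat_lit 0) (XT.nd (nat_lit 312) (nat_lit 76) (nat_lit 0) (XT.nd (nat_lit 156) (nat_lit 0) (nat_lit 0) (XT.nd (nat_lit 78) (nat_lit 0) (nat_lit 0) (XT.lf (nat_lit 0) (nat_lit 8830605872) (nat_lit 152) (nat_lit 20341882663) (nat_lit 0) (nat_lit 1396751396) (nat_lit 5) (nat_lit 5) (nat_lit 7) (nat_lit 4) (nat_lit 5) (nat_lit 4) (nat_lit 301) (nat_lit 221) (nat_lit 198)) (XT.lf (nat_lit 0) (nat_lit 11660554009) (nat_lit 152) (nat_lit 16229301943) (nat_lit 0) (nat_lit 4055814179) (nat_lit 5) (nat_lit 5) (nat_lit 7) (nat_lit 4) (nat_lit 5) (nat_lit 4) (nat_lit 302) (nat_lit 221) (nat_lit 197))) (XT.nd (nat_lit 78) (nat_lit 0) (nat_lit 0) (XT.lf (nat_lit 0) (nat_lit 14577601509) (nat_lit 152) (nat_lit 12006020051) (nat_lit 0) (nat_lit 6810113723) (nat_lit 5) (nat_lit 5) (nat_lit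 7) (nat_lit 4) (nat_lit 5) (nat_lit 4) (nat_lit 303) (nat_lit 221) (nat_lit 196)) (XT.lf (nat_lit 0) (nat_lit 17588693724) (nat_lit 152) (nat_lit 7661981554) (nat_lit 0) (nat_lit 9666207885) (nat_lit 5) (nat_lit 5) (nat_lit 7) (nat_lit 4) (nat_lit 5) (nat_lit 4) (nat_lit 304) (nat_lit 221) (nat_lit 195)))) (XT.nd (nat_lit 156) (nat_lit 0) (nat_lit 0) (XT.nd (nat_lit 78) (nat_lit 76) (nat_lit 0) (XT.lf (nat_lit 0) (nat_lit 20700999922) (nat_lit 152) (nat_lit 3186843505) (nat_lit 0) (nat_lit 12630896889) (nat_lit 5) (nat_lit 5) (nat_lit 7) (nat_lit 4) (nat_lit 5) (nat_lit 4) (nat_lit 305) (nat_lit 221) (nat_lit 194)) (XT.lf (nat_lit 0) (nat_lit 1477333072) (nat_lit 76) (nat_lit 22467662591) (nat_lit 76) (nat_lit 14256971755) (nat_lit 4) (nat_lit 4) (nat_lit 5) (nat_lit 5) (nat_lit 5) (nat_lit 4) (nat_lit 306) (nat_lit 221) (nat_lit 193))) (XT.nd (nat_lit 78) (nat_lit 0) (nat_lit 0) (XT.lf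 (nat_lit 0) (nat_lit 6404678848) (nat_lit 76) (nat_lit 20954470042) (nat_lit 76) (nat_lit 12609886059) (nat_lit 4) (nat_lit 4) (nat_lit 5) (nat_lit 5) (nat_lit 5) (nat_lit 4) (nat_lit 307) (nat_lit 221) (nat_lit 192)) (XT.lf (nat_lit 0) (nat_lit 11501554158) (nat_lit 76) (nat_lit 19398633676) (nat_lit 76) (nat_lit 10926532411) (nat_lit 4) (nat_lit 4) (nat_lit 5) (nat_lit 5) (nat_lit 5) (nat_lit 4) (nat_lit 308) (nat_lit 221) (nat_lit 191))))) (XT.nd (nat_lit 312) (nat_lit 152) (nat_lit 0) (XT.nd (nat_lit 156) (nat_lit 0) (nat_lit 0) (XT.nd (nat_lit 78) (nat_lit 0) (nat_lit 0) (XT.lf (nat_lit 0) (nat_lit 16780094421) (nat_lit 76) (nat_lit 17796449122) (nat_lit 76) (nat_lit 9202902826) (nat_lit 4) (nat_lit 4) (nat_lit 5) (nat_lit 5) (nat_lit 5) (nat_lit 4) (nat_lit 309) (nat_lit 221) (nat_lit 190)) (XT.lf (nat_lit 0) (nat_lit 22252867589) (nat_lit 76) (nat_lit 16144101654) (nat_lit 76)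 (nat_lit 7434893424) (nat_lit 4) (nat_lit 4) (nat_lit 5) (nat_lit 5) (nat_lit 5) (nat_lit 4) (nat_lit 310) (nat_lit 221) (nat_lit 189))) (XT.nd (nat_lit 78) (nat_lit 0) (nat_lit 0) (XT.lf (nat_lit 0) (nat_lit 27932904074) (nat_lit 76) (nat_lit 14437657111) (nat_lit 76) (nat_lit 5618294659) (nat_lit 4) (nat_lit 4) (nat_lit 5) (nat_lit 5) (nat_lit 5) (nat_lit 4) (nat_lit 311) (nat_lit 221) (nat_lit 188)) (XT.lf (nat_lit 0) (nat_lit 33833727774) (nat_lit 76) (nat_lit 12673052531) (nat_lit 76) (nat_lit 3748781295) (nat_lit 4) (nat_lit 4) (nat_lit 5) (nat_lit 5) (nat_lit 5) (nat_lit 4) (nat_lit 312) (nat_lit 221) (nat_lit 187)))) (XT.nd (nat_lit 156) (nat_lit 76) (nat_lit 0) (XT.nd (nat_lit 78) (nat_lit 76) (nat_lit 0) (XT.lf (nat_lit 0) (nat_lit 39969388267) (nat_lit 76) (nat_lit 10846086474) (nat_lit 76) (nat_lit 1821902110) (nat_lit 4) (nat_lit 4) (nat_lit 5) (nat_lit 5) (nat_lit 5)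 (nat_lit 4) (nat_lit 313) (nat_lit 221) (nat_lit 186)) (XT.lf (nat_lit 0) (nat_lit 161587877) (nat_lit 152) (nat_lit 8788084574) (nat_lit 76) (nat_lit 46190169825) (nat_lit 3) (nat_lit 5) (nat_lit 5) (nat_lit 5) (nat_lit 4) (nat_lit 4) (nat_lit 314) (nat_lit 221) (nat_lit 185))) (XT.nd (nat_lit 78) (nat_lit 76) (nat_lit 0) (XT.lf (nat_lit 0) (nat_lit 2151320101) (nat_lit 152) (nat_lit 4799757667) (nat_lit 76) (nat_lit 50816494669) (nat_lit 3) (nat_lit 5) (nat_lit 5) (nat_lit 5) (nat_lit 4) (nat_lit 4) (nat_lit 315) (nat_lit 221) (nat_lit 184)) (XT.nd (nat_lit 78) (nat_lit 76) (nat_lit 0) (XT.lf (nat_lit 0) (nat_lit 4210344264) (nat_lit 152) (nat_lit 665066847) (nat_lit 76) (nat_lit 55652834972) (nat_lit 3) (nat_lit 5) (nat_lit 5) (nat_lit 5) (nat_lit 4) (nat_lit 4) (nat_lit 316) (nat_lit 221) (nat_lit 183)) (XT.lf (nat_lit 0) (nat_lit 3745718778) (nat_lit 76) (nat_lit 2656325195) (nat_lit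 152) (nat_lit 57023468220) (nat_lit 2) (nat_lit 5) (nat_lit 3) (nat_lit 5) (nat_lit 4) (nat_lit 4) (nat_lit 317) (nat_lit 221) (nat_lit 182))))))) (XT.nd (nat_lit 624) (nat_lit 0) (nat_lit 0) (XT.nd (nat_lit 312) (nat_lit 0) (nat_lit 0) (XT.nd (nat_lit 156) (nat_lit 0) (nat_lit 0) (XT.nd (nat_lit 78) (nat_lit 0) (nat_lit 0) (XT.lf (nat_lit 0) (nat_lit 8350422115) (nat_lit 76) (nat_lit 336006192) (nat_lit 152) (nat_lit 57782101169) (nat_lit 2) (nat_lit 5) (nat_lit 3) (nat_lit 5) (nat_lit 4) (nat_lit 4) (nat_lit 318) (nat_lit 221) (nat_lit 181)) (XT.lf (nat_lit 0) (nat_lit 11090681015) (nat_lit 152) (nat_lit 56559534551) (nat_lit 0) (nat_lit 2013240414) (nat_lit 2) (nat_lit 5) (nat_lit 4) (nat_lit 4) (nat_lit 2) (nat_lit 4) (nat_lit 319) (nat_lit 221) (nat_lit 180))) (XT.nd (nat_lit 78) (nat_lit 0) (nat_lit 0) (XT.lf (nat_lit 0) (nat_lit 13594804308) (nat_lit 152) (nat_lit 54974641901)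 (nat_lit 0) (nat_lit 4449738570) (nat_lit 2) (nat_lit 5) (nat_lit 4) (nat_lit 4) (nat_lit 2) (nat_lit 4) (nat_lit 320) (nat_lit 221) (nat_lit 179)) (XT.lf (nat_lit 0) (nat_lit 16199514389) (nat_lit 152) (nat_lit 53354409857) (nat_lit 0) (nat_lit 6990043758) (nat_lit 2) (nat_lit 5) (nat_lit 4) (nat_lit 4) (nat_lit 2) (nat_lit 4) (nat_lit 321) (nat_lit 221) (nat_lit 178)))) (XT.nd (nat_lit 156) (nat_lit 0) (nat_lit 0) (XT.nd (nat_lit 78) (nat_lit 0) (nat_lit 0) (XT.lf (nat_lit 0) (nat_lit 18911012948) (nat_lit 152) (nat_lit 51694980726) (nat_lit 0) (nat_lit 9640204324) (nat_lit 2) (nat_lit 5) (nat_lit 4) (nat_lit 4) (nat_lit 2) (nat_lit 4) (nat_lit 322) (nat_lit 221) (nat_lit 177)) (XT.lf (nat_lit 0) (nat_lit 21735755933) (nat_lit 152) (nat_lit 49992403485) (nat_lit 0) (nat_lit 12406530173) (nat_lit 2) (nat_lit 5) (nat_lit 4) (nat_lit 4) (nat_lit 2) (nat_lit 4) (nat_lit 323) (nat_lit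 221) (nat_lit 176))) (XT.nd (nat_lit 78) (nat_lit 0) (nat_lit 0) (XT.lf (nat_lit 0) (nat_lit 24680468924) (nat_lit 152) (nat_lit 48242624380) (nat_lit 0) (nat_lit 15295607796) (nat_lit 2) (nat_lit 5) (nat_lit 4) (nat_lit 4) (nat_lit 2) (nat_lit 4) (nat_lit 324) (nat_lit 221) (nat_lit 175)) (XT.lf (nat_lit 0) (nat_lit 27752163142) (nat_lit 152) (nat_lit 46441477268) (nat_lit 0) (nat_lit 18314315950) (nat_lit 2) (nat_lit 5) (nat_lit 4) (nat_lit 4) (nat_lit 2) (nat_lit 4) (nat_lit 325) (nat_lit 221) (nat_lit 174))))) (XT.nd (nat_lit 312) (nat_lit 0) (nat_lit 0) (XT.nd (nat_lit 156) (nat_lit 0) (nat_lit 0) (XT.nd (nat_lit 78) (nat_lit 0) (nat_lit 0) (XT.lf (nat_lit 0) (nat_lit 30958152145) (nat_lit 152) (nat_lit 44584673705) (nat_lit 0) (nat_lit 21469842033) (nat_lit 2) (nat_lit 5) (nat_lit 4) (nat_lit 4) (nat_lit 2) (nat_lit 4) (nat_lit 326) (nat_lit 221) (nat_lit 173)) (XT.lf (nat_lit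 0) (nat_lit 34306069239) (nat_lit 152) (nat_lit 42667792730) (nat_lit 0) (nat_lit 24769699205) (nat_lit 2) (nat_lit 5) (nat_lit 4) (nat_lit 4) (nat_lit 2) (nat_lit 4) (nat_lit 327) (nat_lit 221) (nat_lit 172))) (XT.nd (nat_lit 78) (nat_lit 0) (nat_lit 0) (XT.lf (nat_lit 0) (nat_lit 37803885656) (nat_lit 152) (nat_lit 40686270341) (nat_lit 0) (nat_lit 28221744267) (nat_lit 2) (nat_lit 5) (nat_lit 4) (nat_lit 4) (nat_lit 2) (nat_lit 4) (nat_lit 328) (nat_lit 221) (nat_lit 171)) (XT.lf (nat_lit 0) (nat_lit 41459929530) (nat_lit 152) (nat_lit 38635388627) (nat_lit 0) (nat_lit 31834196374) (nat_lit 2) (nat_lit 5) (nat_lit 4) (nat_lit 4) (nat_lit 2) (nat_lit 4) (nat_lit 329) (nat_lit 221) (nat_lit 170)))) (XT.nd (nat_lit 156) (nat_lit 0) (nat_lit 0) (XT.nd (nat_lit 78) (nat_lit 0) (nat_lit 0) (XT.lf (nat_lit 0) (nat_lit 45282905727) (nat_lit 152) (nat_lit 36510264536) (nat_lit 0) (nat_lit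 35615656604) (nat_lit 2) (nat_lit 5) (nat_lit 4) (nat_lit 4) (nat_lit 2) (nat_lit 4) (nat_lit 330) (nat_lit 221) (nat_lit 169)) (XT.lf (nat_lit 0) (nat_lit 49281916572) (nat_lit 152) (nat_lit 34305838250) (nat_lit 0) (nat_lit 39575128432) (nat_lit 2) (nat_lit 5) (nat_lit 4) (nat_lit 4) (nat_lit 2) (nat_lit 4) (nat_lit 331) (nat_lit 221) (nat_lit 168))) (XT.nd (nat_lit 78) (nat_lit 0) (nat_lit 0) (XT.lf (nat_lit 0) (nat_lit 53466483520) (nat_lit 152) (nat_lit 32016861133) (nat_lit 0) (nat_lit 43722039173) (nat_lit 2) (nat_lit 5) (nat_lit 4) (nat_lit 4) (nat_lit 2) (nat_lit 4) (nat_lit 332) (nat_lit 221) (nat_lit 167)) (XT.nd (nat_lit 78) (nat_lit 0) (nat_lit 0) (XT.lf (nat_lit 0) (nat_lit 57846569824) (nat_lit 152) (nat_lit 29637883242) (nat_lit 0) (nat_lit 48066262423) (nat_lit 2) (nat_lit 5) (nat_lit 4) (nat_lit 4) (nat_lit 2) (nat_lit 4) (nat_lit 333) (nat_lit 221) (nat_lit 166))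 (XT.lf (nat_lit 0) (nat_lit 62432604262) (nat_lit 152) (nat_lit 27163240342) (nat_lit 0) (nat_lit 52618141571) (nat_lit 2) (nat_lit 5) (nat_lit 4) (nat_lit 4) (nat_lit 2) (nat_lit 4) (nat_lit 334) (nat_lit 221) (nat_lit 165))))))))
noncomputable def xc55 : XT := (XT.nd (nat_lit 1326) (nat_lit 0) (nat_lit 0) (XT.nd (nat_lit 624) (nat_lit 76) (nat_lit 0) (XT.nd (nat_lit 312) (nat_lit 0) (nat_lit 0) (XT.nd (nat_lit 156) (nat_lit 0) (nat_lit 0) (XT.nd (nat_lit 78) (nat_lit 0) (nat_lit 0) (XT.lf (nat_lit 0) (nat_lit 67235505964) (nat_lit 152) (nat_lit 24587040426) (nat_lit 0) (nat_lit 57388514425) (nat_lit 2) (nat_lit 5) (nat_lit 4) (nat_lit 4) (nat_lit 2) (nat_lit 4) (nat_lit 335) (nat_lit 221) (nat_lit 164)) (XT.lf (nat_lit 0) (nat_lit 72266710409) (nat_lit 152) (nat_lit 21903149686) (nat_lit 0) (nat_lit 62388739015) (nat_lit 2) (nat_lit 5) (nat_lit 4) (nat_lit 4) (nat_lit 2) (nat_lit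 4) (nat_lit 336) (nat_lit 221) (nat_lit 163))) (XT.nd (nat_lit 78) (nat_lit 0) (nat_lit 0) (XT.lf (nat_lit 0) (nat_lit 77538196655) (nat_lit 152) (nat_lit 19105177905) (nat_lit 0) (nat_lit 67630720639) (nat_lit 2) (nat_lit 5) (nat_lit 4) (nat_lit 4) (nat_lit 2) (nat_lit 4) (nat_lit 337) (nat_lit 221) (nat_lit 162)) (XT.lf (nat_lit 0) (nat_lit 83062515862) (nat_lit 152) (nat_lit 16186463246) (nat_lit 0) (nat_lit 73126940204) (nat_lit 2) (nat_lit 5) (nat_lit 4) (nat_lit 4) (nat_lit 2) (nat_lit 4) (nat_lit 338) (nat_lit 221) (nat_lit 161)))) (XT.nd (nat_lit 156) (nat_lit 0) (nat_lit 0) (XT.nd (nat_lit 78) (nat_lit 0) (nat_lit 0) (XT.lf (nat_lit 0) (nat_lit 88852821168) (nat_lit 152) (nat_lit 13140056388) (nat_lit 0) (nat_lit 78890483947) (nat_lit 2) (nat_lit 5) (nat_lit 4) (nat_lit 4) (nat_lit 2) (nat_lit 4) (nat_lit 339) (nat_lit 221) (nat_lit 160)) (XT.lf (nat_lit 0) (nat_lit 94922899017)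 (nat_lit 152) (nat_lit 9958703981) (nat_lit 0) (nat_lit 84935074593) (nat_lit 2) (nat_lit 5) (nat_lit 4) (nat_lit 4) (nat_lit 2) (nat_lit 4) (nat_lit 340) (nat_lit 221) (nat_lit 159))) (XT.nd (nat_lit 78) (nat_lit 0) (nat_lit 0) (XT.lf (nat_lit 0) (nat_lit 101287201973) (nat_lit 152) (nat_lit 6634831378) (nat_lit 0) (nat_lit 91275104023) (nat_lit 2) (nat_lit 5) (nat_lit 4) (nat_lit 4) (nat_lit 2) (nat_lit 4) (nat_lit 341) (nat_lit 221) (nat_lit 158)) (XT.lf (nat_lit 0) (nat_lit 107960883140) (nat_lit 152) (nat_lit 3160524594) (nat_lit 0) (nat_lit 97925667545) (nat_lit 2) (nat_lit 5) (nat_lit 4) (nat_lit 4) (nat_lit 2) (nat_lit 4) (nat_lit 342) (nat_lit 221) (nat_lit 157))))) (XT.nd (nat_lit 312) (nat_lit 0) (nat_lit 0) (XT.nd (nat_lit 156) (nat_lit 0) (nat_lit 0) (XT.nd (nat_lit 78) (nat_lit 0) (nat_lit 0) (XT.lf (nat_lit 0) (nat_lit 488111131) (nat_lit 76) (nat_lit 114479341885) (nat_lit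 76) (nat_lit 104422109486) (nat_lit 1) (nat_lit 4) (nat_lit 2) (nat_lit 5) (nat_lit 2) (nat_lit 4) (nat_lit 343) (nat_lit 221) (nat_lit 156)) (XT.lf (nat_lit 0) (nat_lit 4414138001) (nat_lit 76) (nat_lit 117955492483) (nat_lit 76) (nat_lit 107877291699) (nat_lit 1) (nat_lit 4) (nat_lit 2) (nat_lit 5) (nat_lit 2) (nat_lit 4) (nat_lit 344) (nat_lit 221) (nat_lit 155))) (XT.nd (nat_lit 78) (nat_lit 0) (nat_lit 0) (XT.lf (nat_lit 0) (nat_lit 8522402481) (nat_lit 76) (nat_lit 121611661091) (nat_lit 76) (nat_lit 111513490416) (nat_lit 1) (nat_lit 4) (nat_lit 2) (nat_lit 5) (nat_lit 2) (nat_lit 4) (nat_lit 345) (nat_lit 221) (nat_lit 154)) (XT.lf (nat_lit 0) (nat_lit 12822686154) (nat_lit 76) (nat_lit 125456552873) (nat_lit 76) (nat_lit 115339363255) (nat_lit 1) (nat_lit 4) (nat_lit 2) (nat_lit 5) (nat_lit 2) (nat_lit 4) (nat_lit 346) (nat_lit 221) (nat_lit 153)))) (XT.nd (nat_lit 156) (nat_lit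 0) (nat_lit 0) (XT.nd (nat_lit 78) (nat_lit 0) (nat_lit 0) (XT.lf (nat_lit 0) (nat_lit 17325227789) (nat_lit 76) (nat_lit 129499322332) (nat_lit 76) (nat_lit 119364019434) (nat_lit 1) (nat_lit 4) (nat_lit 2) (nat_lit 5) (nat_lit 2) (nat_lit 4) (nat_lit 347) (nat_lit 221) (nat_lit 152)) (XT.lf (nat_lit 0) (nat_lit 22040747725) (nat_lit 76) (nat_lit 133749595110) (nat_lit 76) (nat_lit 123597041470) (nat_lit 1) (nat_lit 4) (nat_lit 2) (nat_lit 5) (nat_lit 2) (nat_lit 4) (nat_lit 348) (nat_lit 221) (nat_lit 151))) (XT.nd (nat_lit 78) (nat_lit 0) (nat_lit 0) (XT.lf (nat_lit 0) (nat_lit 26980473389) (nat_lit 76) (nat_lit 138217490905) (nat_lit 76) (nat_lit 128048507987) (nat_lit 1) (nat_lit 4) (nat_lit 2) (nat_lit 5) (nat_lit 2) (nat_lit 4) (nat_lit 349) (nat_lit 221) (nat_lit 150)) (XT.nd (nat_lit 78) (nat_lit 0) (nat_lit 0) (XT.lf (nat_lit 0) (nat_lit 32156166033) (nat_lit 76) (nat_lit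 142913647563) (nat_lit 76) (nat_lit 132729017713) (nat_lit 1) (nat_lit 4) (nat_lit 2) (nat_lit 5) (nat_lit 2) (nat_lit 4) (nat_lit 350) (nat_lit 221) (nat_lit 149)) (XT.lf (nat_lit 0) (nat_lit 37580148735) (nat_lit 76) (nat_lit 147849246409) (nat_lit 76) (nat_lit 137649714720) (nat_lit 1) (nat_lit 4) (nat_lit 2) (nat_lit 5) (nat_lit 2) (nat_lit 4) (nat_lit 351) (nat_lit 221) (nat_lit 148))))))) (XT.nd (nat_lit 702) (nat_lit 0) (nat_lit 0) (XT.nd (nat_lit 312) (nat_lit 0) (nat_lit 0) (XT.nd (nat_lit 156) (nat_lit 0) (nat_lit 0) (XT.nd (nat_lit 78) (nat_lit 0) (nat_lit 0) (XT.lf (nat_lit 0) (nat_lit 43265335740) (nat_lit 76) (nat_lit 153036038871) (nat_lit 76) (nat_lit 142822314953) (nat_lit 1) (nat_lit 4) (nat_lit 2) (nat_lit 5) (nat_lit 2) (nat_lit 4) (nat_lit 352) (nat_lit 221) (nat_lit 147)) (XT.lf (nat_lit 0) (nat_lit 49225263207) (nat_lit 76) (nat_lit 158486374452) (nat_lit 76)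 (nat_lit 148259134126) (nat_lit 1) (nat_lit 4) (nat_lit 2) (nat_lit 5) (nat_lit 2) (nat_lit 4) (nat_lit 353) (nat_lit 221) (nat_lit 146))) (XT.nd (nat_lit 78) (nat_lit 0) (nat_lit 0) (XT.lf (nat_lit 0) (nat_lit 55474121439) (nat_lit 76) (nat_lit 164213230144) (nat_lit 76) (nat_lit 153973117049) (nat_lit 1) (nat_lit 4) (nat_lit 2) (nat_lit 5) (nat_lit 2) (nat_lit 4) (nat_lit 354) (nat_lit 221) (nat_lit 145)) (XT.lf (nat_lit 0) (nat_lit 62026788670) (nat_lit 76) (nat_lit 170230241316) (nat_lit 76) (nat_lit 159977868440) (nat_lit 1) (nat_lit 4) (nat_lit 2) (nat_lit 5) (nat_lit 2) (nat_lit 4) (nat_lit 355) (nat_lit 221) (nat_lit 144)))) (XT.nd (nat_lit 156) (nat_lit 0) (nat_lit 0) (XT.nd (nat_lit 78) (nat_lit 0) (nat_lit 0) (XT.lf (nat_lit 0) (nat_lit 68898866489) (nat_lit 76) (nat_lit 176551734186) (nat_lit 76) (nat_lit 166287685329) (nat_lit 1) (nat_lit 4) (nat_lit 2) (nat_lit 5) (nat_lit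 2) (nat_lit 4) (nat_lit 356) (nat_lit 221) (nat_lit 143)) (XT.lf (nat_lit 0) (nat_lit 76106716987) (nat_lit 76) (nat_lit 183192759927) (nat_lit 76) (nat_lit 172917591088) (nat_lit 1) (nat_lit 4) (nat_lit 2) (nat_lit 5) (nat_lit 2) (nat_lit 4) (nat_lit 357) (nat_lit 221) (nat_lit 142))) (XT.nd (nat_lit 78) (nat_lit 0) (nat_lit 0) (XT.lf (nat_lit 0) (nat_lit 83667501711) (nat_lit 76) (nat_lit 190169130506) (nat_lit 76) (nat_lit 179883371207) (nat_lit 1) (nat_lit 4) (nat_lit 2) (nat_lit 5) (nat_lit 2) (nat_lit 4) (nat_lit 358) (nat_lit 221) (nat_lit 141)) (XT.nd (nat_lit 78) (nat_lit 0) (nat_lit 0) (XT.lf (nat_lit 0) (nat_lit 91599222530) (nat_lit 76) (nat_lit 197497456328) (nat_lit 76) (nat_lit 187201610877) (nat_lit 1) (nat_lit 4) (nat_lit 2) (nat_lit 5) (nat_lit 2) (nat_lit 4) (nat_lit 359) (nat_lit 221) (nat_lit 140)) (XT.lf (nat_lit 0) (nat_lit 99920764495) (nat_lit 76) (nat_lit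 205195185788) (nat_lit 76) (nat_lit 194889734478) (nat_lit 1) (nat_lit 4) (nat_lit 2) (nat_lit 5) (nat_lit 2) (nat_lit 4) (nat_lit 360) (nat_lit 221) (nat_lit 139)))))) (XT.nd (nat_lit 30966) (nat_lit 0) (nat_lit 1140) (XT.nd (nat_lit 156) (nat_lit 0) (nat_lit 0) (XT.nd (nat_lit 78) (nat_lit 0) (nat_lit 0) (XT.lf (nat_lit 0) (nat_lit 108651940799) (nat_lit 76) (nat_lit 213280646813) (nat_lit 76) (nat_lit 202966047067) (nat_lit 1) (nat_lit 4) (nat_lit 2) (nat_lit 5) (nat_lit 2) (nat_lit 4) (nat_lit 361) (nat_lit 221) (nat_lit 138)) (XT.lf (nat_lit 0) (nat_lit 117813539958) (nat_lit 76) (nat_lit 221773090502) (nat_lit 76) (nat_lit 211449777959) (nat_lit 1) (nat_lit 4) (nat_lit 2) (nat_lit 5) (nat_lit 2) (nat_lit 4) (nat_lit 362) (nat_lit 221) (nat_lit 137))) (XT.nd (nat_lit 30732) (nat_lit 0) (nat_lit 1444) (XT.lf (nat_lit 0) (nat_lit 127427375303) (nat_lit 76) (nat_lit 230692736958)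 (nat_lit 76) (nat_lit 220361126513) (nat_lit 1) (nat_lit 4) (nat_lit 2) (nat_lit 5) (nat_lit 2) (nat_lit 4) (nat_lit 363) (nat_lit 221) (nat_lit 136)) (XT.lf (nat_lit 0) (nat_lit 863946200) (nat_lit 228) (nat_lit 4111413242) (nat_lit 0) (nat_lit 863946200) (nat_lit 20) (nat_lit 5) (nat_lit 23) (nat_lit 4) (nat_lit 20) (nat_lit 4) (nat_lit 276) (nat_lit 222) (nat_lit 222)))) (XT.nd (nat_lit 156) (nat_lit 152) (nat_lit 0) (XT.nd (nat_lit 78) (nat_lit 152) (nat_lit 0) (XT.lf (nat_lit 0) (nat_lit 5147955465) (nat_lit 228) (nat_lit 2423025925) (nat_lit 0) (nat_lit 4478062810) (nat_lit 20) (nat_lit 5) (nat_lit 23) (nat_lit 4) (nat_lit 20) (nat_lit 4) (nat_lit 277) (nat_lit 222) (nat_lit 221)) (XT.lf (nat_lit 0) (nat_lit 3585954959) (nat_lit 152) (nat_lit 5081926583) (nat_lit 152) (nat_lit 3774040922) (nat_lit 18) (nat_lit 4) (nat_lit 20) (nat_lit 5) (nat_lit 20) (nat_lit 4) (nat_lit 278)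 (nat_lit 222) (nat_lit 220))) (XT.nd (nat_lit 78) (nat_lit 152) (nat_lit 0) (XT.lf (nat_lit 0) (nat_lit 9787078781) (nat_lit 152) (nat_lit 2493682634) (nat_lit 152) (nat_lit 578184588) (nat_lit 18) (nat_lit 4) (nat_lit 20) (nat_lit 5) (nat_lit 20) (nat_lit 4) (nat_lit 279) (nat_lit 222) (nat_lit 219)) (XT.nd (nat_lit 78) (nat_lit 0) (nat_lit 0) (XT.lf (nat_lit 0) (nat_lit 2616717802) (nat_lit 152) (nat_lit 10440532406) (nat_lit 0) (nat_lit 241311603) (nat_lit 16) (nat_lit 5) (nat_lit 18) (nat_lit 4) (nat_lit 16) (nat_lit 4) (nat_lit 280) (nat_lit 222) (nat_lit 218)) (XT.lf (nat_lit 0) (nat_lit 5927070674) (nat_lit 152) (nat_lit 4807372639) (nat_lit 0) (nat_lit 3026786051) (nat_lit 16) (nat_lit 5) (nat_lit 18) (nat_lit 4) (nat_lit 16) (nat_lit 4) (nat_lit 281) (nat_lit 222) (nat_lit 217))))))))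
noncomputable def xc56 : XT := (XT.nd (nat_lit 1326) (nat_lit 228) (nat_lit 0) (XT.nd (nat_lit 624) (nat_lit 304) (nat_lit 0) (XT.nd (nat_lit 312) (nat_lit 152) (nat_lit 0) (XT.nd (nat_lit 156) (nat_lit 152) (nat_lit 0) (XT.nd (nat_lit 78) (nat_lit 0) (nat_lit 0) (XT.lf (nat_lit 0) (nat_lit 957448258) (nat_lit 152) (nat_lit 8347469676) (nat_lit 152) (nat_lit 4947300839) (nat_lit 14) (nat_lit 4) (nat_lit 16) (nat_lit 5) (nat_lit 16) (nat_lit 4) (nat_lit 282) (nat_lit 222) (nat_lit 216)) (XT.lf (nat_lit 0) (nat_lit 6999683709) (nat_lit 152) (nat_lit 5823022103) (nat_lit 152) (nat_lit 1946773063) (nat_lit 14) (nat_lit 4) (nat_lit 16) (nat_lit 5) (nat_lit 16) (nat_lit 4) (nat_lit 283) (nat_lit 222) (nat_lit 215))) (XT.nd (nat_lit 78) (nat_lit 76) (nat_lit 0) (XT.lf (nat_lit 0) (nat_lit 1058165828) (nat_lit 228) (nat_lit 2160418809) (nat_lit 76) (nat_lit 12098680158) (nat_lit 13) (nat_lit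 5) (nat_lit 16) (nat_lit 5) (nat_lit 14) (nat_lit 4) (nat_lit 284) (nat_lit 222) (nat_lit 214)) (XT.lf (nat_lit 0) (nat_lit 3649506322) (nat_lit 76) (nat_lit 453412632) (nat_lit 152) (nat_lit 11790412135) (nat_lit 12) (nat_lit 5) (nat_lit 13) (nat_lit 5) (nat_lit 14) (nat_lit 4) (nat_lit 285) (nat_lit 222) (nat_lit 213)))) (XT.nd (nat_lit 156) (nat_lit 152) (nat_lit 0) (XT.nd (nat_lit 78) (nat_lit 0) (nat_lit 0) (XT.lf (nat_lit 0) (nat_lit 7274710715) (nat_lit 152) (nat_lit 6876677214) (nat_lit 0) (nat_lit 2348297842) (nat_lit 12) (nat_lit 5) (nat_lit 14) (nat_lit 4) (nat_lit 12) (nat_lit 4) (nat_lit 286) (nat_lit 222) (nat_lit 212)) (XT.lf (nat_lit 0) (nat_lit 10516679145) (nat_lit 152) (nat_lit 1407069112) (nat_lit 0) (nat_lit 5217244976) (nat_lit 12) (nat_lit 5) (nat_lit 14) (nat_lit 4) (nat_lit 12) (nat_lit 4) (nat_lit 287) (nat_lit 222) (nat_lit 211))) (XT.nd (nat_lit 78) (nat_lit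 0) (nat_lit 0) (XT.lf (nat_lit 0) (nat_lit 4323479809) (nat_lit 152) (nat_lit 9573486002) (nat_lit 152) (nat_lit 3918793455) (nat_lit 10) (nat_lit 4) (nat_lit 12) (nat_lit 5) (nat_lit 12) (nat_lit 4) (nat_lit 288) (nat_lit 222) (nat_lit 210)) (XT.lf (nat_lit 0) (nat_lit 10240922661) (nat_lit 152) (nat_lit 7139920231) (nat_lit 152) (nat_lit 1146886372) (nat_lit 10) (nat_lit 4) (nat_lit 12) (nat_lit 5) (nat_lit 12) (nat_lit 4) (nat_lit 289) (nat_lit 222) (nat_lit 209))))) (XT.nd (nat_lit 312) (nat_lit 152) (nat_lit 0) (XT.nd (nat_lit 156) (nat_lit 0) (nat_lit 0) (XT.nd (nat_lit 78) (nat_lit 76) (nat_lit 0) (XT.lf (nat_lit 0) (nat_lit 1620593404) (nat_lit 228) (nat_lit 2993047200) (nat_lit 76) (nat_lit 14664785593) (nat_lit 9) (nat_lit 5) (nat_lit 12) (nat_lit 5) (nat_lit 10) (nat_lit 4) (nat_lit 290) (nat_lit 222) (nat_lit 208)) (XT.lf (nat_lit 0) (nat_lit 2488678584) (nat_lit 76) (nat_lit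 1955627663) (nat_lit 152) (nat_lit 15623759549) (nat_lit 8) (nat_lit 5) (nat_lit 9) (nat_lit 5) (nat_lit 10) (nat_lit 4) (nat_lit 291) (nat_lit 222) (nat_lit 207))) (XT.nd (nat_lit 78) (nat_lit 0) (nat_lit 0) (XT.lf (nat_lit 0) (nat_lit 7392271124) (nat_lit 152) (nat_lit 12698814815) (nat_lit 0) (nat_lit 807108104) (nat_lit 8) (nat_lit 5) (nat_lit 10) (nat_lit 4) (nat_lit 8) (nat_lit 4) (nat_lit 292) (nat_lit 222) (nat_lit 206)) (XT.lf (nat_lit 0) (nat_lit 10442079972) (nat_lit 152) (nat_lit 7738361133) (nat_lit 0) (nat_lit 3591817681) (nat_lit 8) (nat_lit 5) (nat_lit 10) (nat_lit 4) (nat_lit 8) (nat_lit 4) (nat_lit 293) (nat_lit 222) (nat_lit 205)))) (XT.nd (nat_lit 156) (nat_lit 76) (nat_lit 0) (XT.nd (nat_lit 78) (nat_lit 76) (nat_lit 0) (XT.lf (nat_lit 0) (nat_lit 13570461414) (nat_lit 152) (nat_lit 2655682733) (nat_lit 0) (nat_lit 6467723626) (nat_lit 8) (nat_lit 5) (nat_lit 10)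 (nat_lit 4) (nat_lit 8) (nat_lit 4) (nat_lit 294) (nat_lit 222) (nat_lit 204)) (XT.lf (nat_lit 0) (nat_lit 2646010872) (nat_lit 76) (nat_lit 14180164750) (nat_lit 76) (nat_lit 6836974108) (nat_lit 7) (nat_lit 4) (nat_lit 8) (nat_lit 5) (nat_lit 8) (nat_lit 4) (nat_lit 295) (nat_lit 222) (nat_lit 203))) (XT.nd (nat_lit 78) (nat_lit 76) (nat_lit 0) (XT.lf (nat_lit 0) (nat_lit 8187113258) (nat_lit 76) (nat_lit 12033651523) (nat_lit 76) (nat_lit 4461458163) (nat_lit 7) (nat_lit 4) (nat_lit 8) (nat_lit 5) (nat_lit 8) (nat_lit 4) (nat_lit 296) (nat_lit 222) (nat_lit 202)) (XT.nd (nat_lit 78) (nat_lit 76) (nat_lit 0) (XT.lf (nat_lit 0) (nat_lit 13893008663) (nat_lit 76) (nat_lit 9826468993) (nat_lit 76) (nat_lit 2036177807) (nat_lit 7) (nat_lit 4) (nat_lit 8) (nat_lit 5) (nat_lit 8) (nat_lit 4) (nat_lit 297) (nat_lit 222) (nat_lit 201)) (XT.lf (nat_lit 0) (nat_lit 430410135) (nat_lit 152)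 (nat_lit 7115662624) (nat_lit 76) (nat_lit 19339583212) (nat_lit 6) (nat_lit 5) (nat_lit 8) (nat_lit 5) (nat_lit 7) (nat_lit 4) (nat_lit 298) (nat_lit 222) (nat_lit 200))))))) (XT.nd (nat_lit 624) (nat_lit 152) (nat_lit 0) (XT.nd (nat_lit 312) (nat_lit 0) (nat_lit 0) (XT.nd (nat_lit 156) (nat_lit 0) (nat_lit 0) (XT.nd (nat_lit 78) (nat_lit 76) (nat_lit 0) (XT.lf (nat_lit 0) (nat_lit 2891306629) (nat_lit 152) (nat_lit 2268645968) (nat_lit 76) (nat_lit 22913672791) (nat_lit 6) (nat_lit 5) (nat_lit 8) (nat_lit 5) (nat_lit 7) (nat_lit 4) (nat_lit 299) (nat_lit 222) (nat_lit 199)) (XT.lf (nat_lit 0) (nat_lit 2811726946) (nat_lit 76) (nat_lit 2649713350) (nat_lit 152) (nat_lit 23860346493) (nat_lit 5) (nat_lit 5) (nat_lit 6) (nat_lit 5) (nat_lit 7) (nat_lit 4) (nat_lit 300) (nat_lit 222) (nat_lit 198))) (XT.nd (nat_lit 78) (nat_lit 0) (nat_lit 0) (XT.lf (nat_lit 0) (nat_lit 8127489949) (nat_lit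 76) (nat_lit 14532115) (nat_lit 152) (nat_lit 22491335345) (nat_lit 5) (nat_lit 5) (nat_lit 6) (nat_lit 5) (nat_lit 7) (nat_lit 4) (nat_lit 301) (nat_lit 222) (nat_lit 197)) (XT.lf (nat_lit 0) (nat_lit 10945207684) (nat_lit 152) (nat_lit 18439366128) (nat_lit 0) (nat_lit 2626597552) (nat_lit 5) (nat_lit 5) (nat_lit 7) (nat_lit 4) (nat_lit 5) (nat_lit 4) (nat_lit 302) (nat_lit 222) (nat_lit 196)))) (XT.nd (nat_lit 156) (nat_lit 0) (nat_lit 0) (XT.nd (nat_lit 78) (nat_lit 0) (nat_lit 0) (XT.lf (nat_lit 0) (nat_lit 13836983155) (nat_lit 152) (nat_lit 14260185451) (nat_lit 0) (nat_lit 5363374970) (nat_lit 5) (nat_lit 5) (nat_lit 7) (nat_lit 4) (nat_lit 5) (nat_lit 4) (nat_lit 303) (nat_lit 222) (nat_lit 195)) (XT.lf (nat_lit 0) (nat_lit 16824006771) (nat_lit 152) (nat_lit 9958148111) (nat_lit 0) (nat_lit 8202781392) (nat_lit 5) (nat_lit 5) (nat_lit 7) (nat_lit 4) (nat_lit 5) (nat_lit 4)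 (nat_lit 304) (nat_lit 222) (nat_lit 194))) (XT.nd (nat_lit 78) (nat_lit 0) (nat_lit 0) (XT.lf (nat_lit 0) (nat_lit 19913390493) (nat_lit 152) (nat_lit 5523011163) (nat_lit 0) (nat_lit 11151577311) (nat_lit 5) (nat_lit 5) (nat_lit 7) (nat_lit 4) (nat_lit 5) (nat_lit 4) (nat_lit 305) (nat_lit 222) (nat_lit 193)) (XT.lf (nat_lit 0) (nat_lit 23112489997) (nat_lit 152) (nat_lit 944214757) (nat_lit 0) (nat_lit 14216783668) (nat_lit 5) (nat_lit 5) (nat_lit 7) (nat_lit 4) (nat_lit 5) (nat_lit 4) (nat_lit 306) (nat_lit 222) (nat_lit 192))))) (XT.nd (nat_lit 312) (nat_lit 76) (nat_lit 0) (XT.nd (nat_lit 156) (nat_lit 0) (nat_lit 0) (XT.nd (nat_lit 78) (nat_lit 0) (nat_lit 0) (XT.lf (nat_lit 0) (nat_lit 3914429182) (nat_lit 76) (nat_lit 22575608213) (nat_lit 76) (nat_lit 13552384602) (nat_lit 4) (nat_lit 4) (nat_lit 5) (nat_lit 5) (nat_lit 5) (nat_lit 4) (nat_lit 307) (nat_lit 222) (nat_lit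 191)) (XT.lf (nat_lit 0) (nat_lit 8975607510) (nat_lit 76) (nat_lit 21035110203) (nat_lit 76) (nat_lit 11890441561) (nat_lit 4) (nat_lit 4) (nat_lit 5) (nat_lit 5) (nat_lit 5) (nat_lit 4) (nat_lit 308) (nat_lit 222) (nat_lit 190))) (XT.nd (nat_lit 78) (nat_lit 0) (nat_lit 0) (XT.lf (nat_lit 0) (nat_lit 14220150647) (nat_lit 76) (nat_lit 19447533606) (nat_lit 76) (nat_lit 10187203031) (nat_lit 4) (nat_lit 4) (nat_lit 5) (nat_lit 5) (nat_lit 5) (nat_lit 4) (nat_lit 309) (nat_lit 222) (nat_lit 189)) (XT.lf (nat_lit 0) (nat_lit 19660545600) (nat_lit 76) (nat_lit 17809098479) (nat_lit 76) (nat_lit 8438613681) (nat_lit 4) (nat_lit 4) (nat_lit 5) (nat_lit 5) (nat_lit 5) (nat_lit 4) (nat_lit 310) (nat_lit 222) (nat_lit 188)))) (XT.nd (nat_lit 156) (nat_lit 76) (nat_lit 0) (XT.nd (nat_lit 78) (nat_lit 0) (nat_lit 0) (XT.lf (nat_lit 0) (nat_lit 25309745690) (nat_lit 76) (nat_lit 16115903785)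 (nat_lit 76) (nat_lit 6640510204) (nat_lit 4) (nat_lit 4) (nat_lit 5) (nat_lit 5) (nat_lit 5) (nat_lit 4) (nat_lit 311) (nat_lit 222) (nat_lit 187)) (XT.lf (nat_lit 0) (nat_lit 31181201394) (nat_lit 76) (nat_lit 14363918108) (nat_lit 76) (nat_lit 4788611399) (nat_lit 4) (nat_lit 4) (nat_lit 5) (nat_lit 5) (nat_lit 5) (nat_lit 4) (nat_lit 312) (nat_lit 222) (nat_lit 186))) (XT.nd (nat_lit 78) (nat_lit 76) (nat_lit 0) (XT.lf (nat_lit 0) (nat_lit 37288892368) (nat_lit 76) (nat_lit 12548970054) (nat_lit 76) (nat_lit 2878507986) (nat_lit 4) (nat_lit 4) (nat_lit 5) (nat_lit 5) (nat_lit 5) (nat_lit 4) (nat_lit 313) (nat_lit 222) (nat_lit 185)) (XT.nd (nat_lit 78) (nat_lit 76) (nat_lit 0) (XT.lf (nat_lit 0) (nat_lit 43647360734) (nat_lit 76) (nat_lit 10666738318) (nat_lit 76) (nat_lit 905652098) (nat_lit 4) (nat_lit 4) (nat_lit 5) (nat_lit 5) (nat_lit 5) (nat_lit 4) (nat_lit 314) (nat_lit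 222) (nat_lit 184)) (XT.lf (nat_lit 0) (nat_lit 1098337540) (nat_lit 152) (nat_lit 7595802978) (nat_lit 76) (nat_lit 49154807284) (nat_lit 3) (nat_lit 5) (nat_lit 5) (nat_lit 5) (nat_lit 4) (nat_lit 4) (nat_lit 315) (nat_lit 222) (nat_lit 183))))))))
noncomputable def xc57 : XT := (XT.nd (nat_lit 1326) (nat_lit 76) (nat_lit 0) (XT.nd (nat_lit 624) (nat_lit 0) (nat_lit 0) (XT.nd (nat_lit 312) (nat_lit 0) (nat_lit 0) (XT.nd (nat_lit 156) (nat_lit 0) (nat_lit 0) (XT.nd (nat_lit 78) (nat_lit 76) (nat_lit 0) (XT.lf (nat_lit 0) (nat_lit 3143333981) (nat_lit 152) (nat_lit 3485759050) (nat_lit 76) (nat_lit 53981251753) (nat_lit 3) (nat_lit 5) (nat_lit 5) (nat_lit 5) (nat_lit 4) (nat_lit 4) (nat_lit 316) (nat_lit 222) (nat_lit 182)) (XT.lf (nat_lit 0) (nat_lit 807512392) (nat_lit 76) (nat_lit 4468287927) (nat_lit 152) (nat_lit 58234793146) (nat_lit 2) (nat_lit 5) (nat_lit 3) (nat_lit 5) (nat_lit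 4) (nat_lit 4) (nat_lit 317) (nat_lit 222) (nat_lit 181))) (XT.nd (nat_lit 78) (nat_lit 0) (nat_lit 0) (XT.lf (nat_lit 0) (nat_lit 5389121099) (nat_lit 76) (nat_lit 2157979425) (nat_lit 152) (nat_lit 59007184340) (nat_lit 2) (nat_lit 5) (nat_lit 3) (nat_lit 5) (nat_lit 4) (nat_lit 4) (nat_lit 318) (nat_lit 222) (nat_lit 180)) (XT.lf (nat_lit 0) (nat_lit 9910297198) (nat_lit 152) (nat_lit 59600632896) (nat_lit 0) (nat_lit 240353035) (nat_lit 2) (nat_lit 5) (nat_lit 4) (nat_lit 4) (nat_lit 2) (nat_lit 4) (nat_lit 319) (nat_lit 222) (nat_lit 179)))) (XT.nd (nat_lit 156) (nat_lit 0) (nat_lit 0) (XT.nd (nat_lit 78) (nat_lit 0) (nat_lit 0) (XT.lf (nat_lit 0) (nat_lit 12402411039) (nat_lit 152) (nat_lit 58037157435) (nat_lit 0) (nat_lit 2668061984) (nat_lit 2) (nat_lit 5) (nat_lit 4) (nat_lit 4) (nat_lit 2) (nat_lit 4) (nat_lit 320) (nat_lit 222) (nat_lit 178)) (XT.lf (nat_lit 0) (nat_lit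 14995683546) (nat_lit 152) (nat_lit 56437322716) (nat_lit 0) (nat_lit 5199996498) (nat_lit 2) (nat_lit 5) (nat_lit 4) (nat_lit 4) (nat_lit 2) (nat_lit 4) (nat_lit 321) (nat_lit 222) (nat_lit 177))) (XT.nd (nat_lit 78) (nat_lit 0) (nat_lit 0) (XT.lf (nat_lit 0) (nat_lit 17696289177) (nat_lit 152) (nat_lit 54797319608) (nat_lit 0) (nat_lit 7842184993) (nat_lit 2) (nat_lit 5) (nat_lit 4) (nat_lit 4) (nat_lit 2) (nat_lit 4) (nat_lit 322) (nat_lit 222) (nat_lit 176)) (XT.lf (nat_lit 0) (nat_lit 20510657947) (nat_lit 152) (nat_lit 53113243341) (nat_lit 0) (nat_lit 10600918394) (nat_lit 2) (nat_lit 5) (nat_lit 4) (nat_lit 4) (nat_lit 2) (nat_lit 4) (nat_lit 323) (nat_lit 222) (nat_lit 175))))) (XT.nd (nat_lit 312) (nat_lit 0) (nat_lit 0) (XT.nd (nat_lit 156) (nat_lit 0) (nat_lit 0) (XT.nd (nat_lit 78) (nat_lit 0) (nat_lit 0) (XT.lf (nat_lit 0) (nat_lit 23445490731) (nat_lit 152) (nat_lit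 51381084211) (nat_lit 0) (nat_lit 13482765114) (nat_lit 2) (nat_lit 5) (nat_lit 4) (nat_lit 4) (nat_lit 2) (nat_lit 4) (nat_lit 324) (nat_lit 222) (nat_lit 174)) (XT.lf (nat_lit 0) (nat_lit 26507775229) (nat_lit 152) (nat_lit 49596718028) (nat_lit 0) (nat_lit 16494586693) (nat_lit 2) (nat_lit 5) (nat_lit 4) (nat_lit 4) (nat_lit 2) (nat_lit 4) (nat_lit 325) (nat_lit 222) (nat_lit 173))) (XT.nd (nat_lit 78) (nat_lit 0) (nat_lit 0) (XT.lf (nat_lit 0) (nat_lit 29704802593) (nat_lit 152) (nat_lit 47755896303) (nat_lit 0) (nat_lit 19643554135) (nat_lit 2) (nat_lit 5) (nat_lit 4) (nat_lit 4) (nat_lit 2) (nat_lit 4) (nat_lit 326) (nat_lit 222) (nat_lit 172)) (XT.lf (nat_lit 0) (nat_lit 33044184794) (nat_lit 152) (nat_lit 45854236125) (nat_lit 0) (nat_lit 22937164981) (nat_lit 2) (nat_lit 5) (nat_lit 4) (nat_lit 4) (nat_lit 2) (nat_lit 4) (nat_lit 327) (nat_lit 222) (nat_lit 171)))) (XT.nd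 (nat_lit 156) (nat_lit 0) (nat_lit 0) (XT.nd (nat_lit 78) (nat_lit 0) (nat_lit 0) (XT.lf (nat_lit 0) (nat_lit 36533872740) (nat_lit 152) (nat_lit 43887209733) (nat_lit 0) (nat_lit 26383261161) (nat_lit 2) (nat_lit 5) (nat_lit 4) (nat_lit 4) (nat_lit 2) (nat_lit 4) (nat_lit 328) (nat_lit 222) (nat_lit 170)) (XT.lf (nat_lit 0) (nat_lit 40182175214) (nat_lit 152) (nat_lit 41850133731) (nat_lit 0) (nat_lit 29990047667) (nat_lit 2) (nat_lit 5) (nat_lit 4) (nat_lit 4) (nat_lit 2) (nat_lit 4) (nat_lit 329) (nat_lit 222) (nat_lit 169))) (XT.nd (nat_lit 78) (nat_lit 0) (nat_lit 0) (XT.lf (nat_lit 0) (nat_lit 43997778650) (nat_lit 152) (nat_lit 39738157937) (nat_lit 0) (nat_lit 33766112085) (nat_lit 2) (nat_lit 5) (nat_lit 4) (nat_lit 4) (nat_lit 2) (nat_lit 4) (nat_lit 330) (nat_lit 222) (nat_lit 168)) (XT.nd (nat_lit 78) (nat_lit 0) (nat_lit 0) (XT.lf (nat_lit 0) (nat_lit 47989767817) (nat_lit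 152) (nat_lit 37546253838) (nat_lit 0) (nat_lit 37720445045) (nat_lit 2) (nat_lit 5) (nat_lit 4) (nat_lit 4) (nat_lit 2) (nat_lit 4) (nat_lit 331) (nat_lit 222) (nat_lit 167)) (XT.lf (nat_lit 0) (nat_lit 52167647452) (nat_lit 152) (nat_lit 35269202614) (nat_lit 0) (nat_lit 41862461626) (nat_lit 2) (nat_lit 5) (nat_lit 4) (nat_lit 4) (nat_lit 2) (nat_lit 4) (nat_lit 332) (nat_lit 222) (nat_lit 166))))))) (XT.nd (nat_lit 702) (nat_lit 76) (nat_lit 0) (XT.nd (nat_lit 312) (nat_lit 0) (nat_lit 0) (XT.nd (nat_lit 156) (nat_lit 0) (nat_lit 0) (XT.nd (nat_lit 78) (nat_lit 0) (nat_lit 0) (XT.lf (nat_lit 0) (nat_lit 56541364887) (nat_lit 152) (nat_lit 32901582716) (nat_lit 0) (nat_lit 46202023772) (nat_lit 2) (nat_lit 5) (nat_lit 4) (nat_lit 4) (nat_lit 2) (nat_lit 4) (nat_lit 333) (nat_lit 222) (nat_lit 165)) (XT.lf (nat_lit 0) (nat_lit 61121333736) (nat_lit 152) (nat_lit 30437756952) (nat_lit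 0) (nat_lit 50749463773) (nat_lit 2) (nat_lit 5) (nat_lit 4) (nat_lit 4) (nat_lit 2) (nat_lit 4) (nat_lit 334) (nat_lit 222) (nat_lit 164))) (XT.nd (nat_lit 78) (nat_lit 0) (nat_lit 0) (XT.lf (nat_lit 0) (nat_lit 65918458685) (nat_lit 152) (nat_lit 27871859071) (nat_lit 0) (nat_lit 55515608868) (nat_lit 2) (nat_lit 5) (nat_lit 4) (nat_lit 4) (nat_lit 2) (nat_lit 4) (nat_lit 335) (nat_lit 222) (nat_lit 163)) (XT.lf (nat_lit 0) (nat_lit 70944161462) (nat_lit 152) (nat_lit 25197779793) (nat_lit 0) (nat_lit 60511807021) (nat_lit 2) (nat_lit 5) (nat_lit 4) (nat_lit 4) (nat_lit 2) (nat_lit 4) (nat_lit 336) (nat_lit 222) (nat_lit 162)))) (XT.nd (nat_lit 156) (nat_lit 0) (nat_lit 0) (XT.nd (nat_lit 78) (nat_lit 0) (nat_lit 0) (XT.lf (nat_lit 0) (nat_lit 76210408024) (nat_lit 152) (nat_lit 22409152261) (nat_lit 0) (nat_lit 65749953942) (nat_lit 2) (nat_lit 5) (nat_lit 4) (nat_lit 4) (nat_lit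 2) (nat_lit 4) (nat_lit 337) (nat_lit 222) (nat_lit 161)) (XT.lf (nat_lit 0) (nat_lit 81729737055) (nat_lit 152) (nat_lit 19499336887) (nat_lit 0) (nat_lit 71242521410) (nat_lit 2) (nat_lit 5) (nat_lit 4) (nat_lit 4) (nat_lit 2) (nat_lit 4) (nat_lit 338) (nat_lit 222) (nat_lit 160))) (XT.nd (nat_lit 78) (nat_lit 0) (nat_lit 0) (XT.lf (nat_lit 0) (nat_lit 87515289814) (nat_lit 152) (nat_lit 16461405538) (nat_lit 0) (nat_lit 77002586965) (nat_lit 2) (nat_lit 5) (nat_lit 4) (nat_lit 4) (nat_lit 2) (nat_lit 4) (nat_lit 339) (nat_lit 222) (nat_lit 159)) (XT.nd (nat_lit 78) (nat_lit 0) (nat_lit 0) (XT.lf (nat_lit 0) (nat_lit 93580841426) (nat_lit 152) (nat_lit 13288125045) (nat_lit 0) (nat_lit 83043865051) (nat_lit 2) (nat_lit 5) (nat_lit 4) (nat_lit 4) (nat_lit 2) (nat_lit 4) (nat_lit 340) (nat_lit 222) (nat_lit 158)) (XT.lf (nat_lit 0) (nat_lit 99940833681) (nat_lit 152) (nat_lit 9971939979)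 (nat_lit 0) (nat_lit 89380739661) (nat_lit 2) (nat_lit 5) (nat_lit 4) (nat_lit 4) (nat_lit 2) (nat_lit 4) (nat_lit 341) (nat_lit 222) (nat_lit 157)))))) (XT.nd (nat_lit 312) (nat_lit 0) (nat_lit 0) (XT.nd (nat_lit 156) (nat_lit 76) (nat_lit 0) (XT.nd (nat_lit 78) (nat_lit 0) (nat_lit 0) (XT.lf (nat_lit 0) (nat_lit 106610409418) (nat_lit 152) (nat_lit 6504954659) (nat_lit 0) (nat_lit 96028298594) (nat_lit 2) (nat_lit 5) (nat_lit 4) (nat_lit 4) (nat_lit 2) (nat_lit 4) (nat_lit 342) (nat_lit 222) (nat_lit 156)) (XT.lf (nat_lit 0) (nat_lit 113605448579) (nat_lit 152) (nat_lit 2878914360) (nat_lit 0) (nat_lit 103002369370) (nat_lit 2) (nat_lit 5) (nat_lit 4) (nat_lit 4) (nat_lit 2) (nat_lit 4) (nat_lit 343) (nat_lit 222) (nat_lit 155))) (XT.nd (nat_lit 78) (nat_lit 0) (nat_lit 0) (XT.lf (nat_lit 0) (nat_lit 945062241) (nat_lit 76) (nat_lit 120012298848) (nat_lit 76) (nat_lit 109389249748)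 (nat_lit 1) (nat_lit 4) (nat_lit 2) (nat_lit 5) (nat_lit 2) (nat_lit 4) (nat_lit 344) (nat_lit 222) (nat_lit 154)) (XT.lf (nat_lit 0) (nat_lit 5046793047) (nat_lit 76) (nat_lit 123671352696) (nat_lit 76) (nat_lit 113029284654) (nat_lit 1) (nat_lit 4) (nat_lit 2) (nat_lit 5) (nat_lit 2) (nat_lit 4) (nat_lit 345) (nat_lit 222) (nat_lit 153)))) (XT.nd (nat_lit 156) (nat_lit 0) (nat_lit 0) (XT.nd (nat_lit 78) (nat_lit 0) (nat_lit 0) (XT.lf (nat_lit 0) (nat_lit 9340854173) (nat_lit 76) (nat_lit 127518992326) (nat_lit 76) (nat_lit 116858811004) (nat_lit 1) (nat_lit 4) (nat_lit 2) (nat_lit 5) (nat_lit 2) (nat_lit 4) (nat_lit 346) (nat_lit 222) (nat_lit 152)) (XT.lf (nat_lit 0) (nat_lit 13837469573) (nat_lit 76) (nat_lit 131564378783) (nat_lit 76) (nat_lit 120886946719) (nat_lit 1) (nat_lit 4) (nat_lit 2) (nat_lit 5) (nat_lit 2) (nat_lit 4) (nat_lit 347) (nat_lit 222) (nat_lit 151))) (XT.nd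 (nat_lit 78) (nat_lit 0) (nat_lit 0) (XT.lf (nat_lit 0) (nat_lit 18547345476) (nat_lit 76) (nat_lit 135817143940) (nat_lit 76) (nat_lit 125123282598) (nat_lit 1) (nat_lit 4) (nat_lit 2) (nat_lit 5) (nat_lit 2) (nat_lit 4) (nat_lit 348) (nat_lit 222) (nat_lit 150)) (XT.nd (nat_lit 78) (nat_lit 0) (nat_lit 0) (XT.lf (nat_lit 0) (nat_lit 23481695870) (nat_lit 76) (nat_lit 140287413429) (nat_lit 76) (nat_lit 129577905155) (nat_lit 1) (nat_lit 4) (nat_lit 2) (nat_lit 5) (nat_lit 2) (nat_lit 4) (nat_lit 349) (nat_lit 222) (nat_lit 149)) (XT.lf (nat_lit 0) (nat_lit 28652269210) (nat_lit 76) (nat_lit 144985830749) (nat_lit 76) (nat_lit 134261420635) (nat_lit 1) (nat_lit 4) (nat_lit 2) (nat_lit 5) (nat_lit 2) (nat_lit 4) (nat_lit 350) (nat_lit 222) (nat_lit 148))))))))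
noncomputable def xc58 : XT := (XT.nd (nat_lit 31824) (nat_lit 0) (nat_lit 532) (XT.nd (nat_lit 624) (nat_lit 0) (nat_lit 0) (XT.nd (nat_lit 312) (nat_lit 0) (nat_lit 0) (XT.nd (nat_lit 156) (nat_lit 0) (nat_lit 0) (XT.nd (nat_lit 78) (nat_lit 0) (nat_lit 0) (XT.lf (nat_lit 0) (nat_lit 34071376384) (nat_lit 76) (nat_lit 149923582606) (nat_lit 76) (nat_lit 139184980264) (nat_lit 1) (nat_lit 4) (nat_lit 2) (nat_lit 5) (nat_lit 2) (nat_lit 4) (nat_lit 351) (nat_lit 222) (nat_lit 147)) (XT.lf (nat_lit 0) (nat_lit 39751920029) (nat_lit 76) (nat_lit 155112425554) (nat_lit 76) (nat_lit 144360306804) (nat_lit 1) (nat_lit 4) (nat_lit 2) (nat_lit 5) (nat_lit 2) (nat_lit 4) (nat_lit 352) (nat_lit 222) (nat_lit 146))) (XT.nd (nat_lit 78) (nat_lit 0) (nat_lit 0) (XT.lf (nat_lit 0) (nat_lit 45707425247) (nat_lit 76) (nat_lit 160564713980) (nat_lit 76) (nat_lit 149799722460) (nat_lit 1) (nat_lit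 4) (nat_lit 2) (nat_lit 5) (nat_lit 2) (nat_lit 4) (nat_lit 353) (nat_lit 222) (nat_lit 145)) (XT.lf (nat_lit 0) (nat_lit 51952071815) (nat_lit 76) (nat_lit 166293429523) (nat_lit 76) (nat_lit 155516178223) (nat_lit 1) (nat_lit 4) (nat_lit 2) (nat_lit 5) (nat_lit 2) (nat_lit 4) (nat_lit 354) (nat_lit 222) (nat_lit 144)))) (XT.nd (nat_lit 156) (nat_lit 0) (nat_lit 0) (XT.nd (nat_lit 78) (nat_lit 0) (nat_lit 0) (XT.lf (nat_lit 0) (nat_lit 58500727937) (nat_lit 76) (nat_lit 172312211983) (nat_lit 76) (nat_lit 161523284702) (nat_lit 1) (nat_lit 4) (nat_lit 2) (nat_lit 5) (nat_lit 2) (nat_lit 4) (nat_lit 355) (nat_lit 222) (nat_lit 143)) (XT.lf (nat_lit 0) (nat_lit 65368985653) (nat_lit 76) (nat_lit 178635391793) (nat_lit 76) (nat_lit 167835344530) (nat_lit 1) (nat_lit 4) (nat_lit 2) (nat_lit 5) (nat_lit 2) (nat_lit 4) (nat_lit 356) (nat_lit 222) (nat_lit 142))) (XT.nd (nat_lit 78) (nat_lit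 0) (nat_lit 0) (XT.lf (nat_lit 0) (nat_lit 72573197956) (nat_lit 76) (nat_lit 185278024144) (nat_lit 76) (nat_lit 174467386421) (nat_lit 1) (nat_lit 4) (nat_lit 2) (nat_lit 5) (nat_lit 2) (nat_lit 4) (nat_lit 357) (nat_lit 222) (nat_lit 141)) (XT.lf (nat_lit 0) (nat_lit 80130517733) (nat_lit 76) (nat_lit 192255924827) (nat_lit 76) (nat_lit 181435200953) (nat_lit 1) (nat_lit 4) (nat_lit 2) (nat_lit 5) (nat_lit 2) (nat_lit 4) (nat_lit 358) (nat_lit 222) (nat_lit 140))))) (XT.nd (nat_lit 312) (nat_lit 0) (nat_lit 0) (XT.nd (nat_lit 156) (nat_lit 0) (nat_lit 0) (XT.nd (nat_lit 78) (nat_lit 0) (nat_lit 0) (XT.lf (nat_lit 0) (nat_lit 88058938603) (nat_lit 76) (nat_lit 199585707892) (nat_lit 76) (nat_lit 188755378158) (nat_lit 1) (nat_lit 4) (nat_lit 2) (nat_lit 5) (nat_lit 2) (nat_lit 4) (nat_lit 359) (nat_lit 222) (nat_lit 139)) (XT.lf (nat_lit 0) (nat_lit 96377337759) (nat_lit 76) (nat_lit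 207284825202) (nat_lit 76) (nat_lit 196445347031) (nat_lit 1) (nat_lit 4) (nat_lit 2) (nat_lit 5) (nat_lit 2) (nat_lit 4) (nat_lit 360) (nat_lit 222) (nat_lit 138))) (XT.nd (nat_lit 78) (nat_lit 0) (nat_lit 0) (XT.lf (nat_lit 0) (nat_lit 105105520912) (nat_lit 76) (nat_lit 215371607989) (nat_lit 76) (nat_lit 204523417022) (nat_lit 1) (nat_lit 4) (nat_lit 2) (nat_lit 5) (nat_lit 2) (nat_lit 4) (nat_lit 361) (nat_lit 222) (nat_lit 137)) (XT.lf (nat_lit 0) (nat_lit 114264269450) (nat_lit 76) (nat_lit 223865310499) (nat_lit 76) (nat_lit 213008821629) (nat_lit 1) (nat_lit 4) (nat_lit 2) (nat_lit 5) (nat_lit 2) (nat_lit 4) (nat_lit 362) (nat_lit 222) (nat_lit 136)))) (XT.nd (nat_lit 30654) (nat_lit 0) (nat_lit 1444) (XT.nd (nat_lit 30576) (nat_lit 0) (nat_lit 1672) (XT.lf (nat_lit 0) (nat_lit 123875389919) (nat_lit 76) (nat_lit 232786155832) (nat_lit 76) (nat_lit 221921764199) (nat_lit 1)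 (nat_lit 4) (nat_lit 2) (nat_lit 5) (nat_lit 2) (nat_lit 4) (nat_lit 363) (nat_lit 222) (nat_lit 135)) (XT.lf (nat_lit 0) (nat_lit 1323592326) (nat_lit 152) (nat_lit 2086463322) (nat_lit 152) (nat_lit 2086463322) (nat_lit 23) (nat_lit 4) (nat_lit 25) (nat_lit 5) (nat_lit 25) (nat_lit 4) (nat_lit 274) (nat_lit 223) (nat_lit 223))) (XT.nd (nat_lit 78) (nat_lit 228) (nat_lit 0) (XT.lf (nat_lit 0) (nat_lit 8761033308) (nat_lit 152) (nat_lit 1652977891) (nat_lit 152) (nat_lit 914421238) (nat_lit 23) (nat_lit 4) (nat_lit 25) (nat_lit 5) (nat_lit 25) (nat_lit 4) (nat_lit 275) (nat_lit 223) (nat_lit 222)) (XT.nd (nat_lit 78) (nat_lit 0) (nat_lit 0) (XT.lf (nat_lit 0) (nat_lit 2366165887) (nat_lit 228) (nat_lit 8323002966) (nat_lit 0) (nat_lit 992885943) (nat_lit 20) (nat_lit 5) (nat_lit 23) (nat_lit 4) (nat_lit 20) (nat_lit 4) (nat_lit 276) (nat_lit 223) (nat_lit 221)) (XT.lf (nat_lit 0) (nat_lit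 5724215807) (nat_lit 228) (nat_lit 2618608580) (nat_lit 0) (nat_lit 3712942858) (nat_lit 20) (nat_lit 5) (nat_lit 23) (nat_lit 4) (nat_lit 20) (nat_lit 4) (nat_lit 277) (nat_lit 223) (nat_lit 220))))))) (XT.nd (nat_lit 624) (nat_lit 304) (nat_lit 0) (XT.nd (nat_lit 312) (nat_lit 304) (nat_lit 0) (XT.nd (nat_lit 156) (nat_lit 152) (nat_lit 0) (XT.nd (nat_lit 78) (nat_lit 0) (nat_lit 0) (XT.lf (nat_lit 0) (nat_lit 3290038094) (nat_lit 152) (nat_lit 5890423560) (nat_lit 152) (nat_lit 3271538225) (nat_lit 18) (nat_lit 4) (nat_lit 20) (nat_lit 5) (nat_lit 20) (nat_lit 4) (nat_lit 278) (nat_lit 223) (nat_lit 219)) (XT.lf (nat_lit 0) (nat_lit 9401764426) (nat_lit 152) (nat_lit 3333933605) (nat_lit 152) (nat_lit 136369807) (nat_lit 18) (nat_lit 4) (nat_lit 20) (nat_lit 5) (nat_lit 20) (nat_lit 4) (nat_lit 279) (nat_lit 223) (nat_lit 218))) (XT.nd (nat_lit 78) (nat_lit 0) (nat_lit 0) (XT.lf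 (nat_lit 0) (nat_lit 2353361114) (nat_lit 76) (nat_lit 623247303) (nat_lit 152) (nat_lit 10338266661) (nat_lit 16) (nat_lit 5) (nat_lit 17) (nat_lit 5) (nat_lit 18) (nat_lit 4) (nat_lit 280) (nat_lit 223) (nat_lit 217)) (XT.lf (nat_lit 0) (nat_lit 6222122503) (nat_lit 152) (nat_lit 5406741209) (nat_lit 0) (nat_lit 2152061011) (nat_lit 16) (nat_lit 5) (nat_lit 18) (nat_lit 4) (nat_lit 16) (nat_lit 4) (nat_lit 281) (nat_lit 223) (nat_lit 216)))) (XT.nd (nat_lit 156) (nat_lit 152) (nat_lit 0) (XT.nd (nat_lit 78) (nat_lit 0) (nat_lit 0) (XT.lf (nat_lit 0) (nat_lit 251565458) (nat_lit 152) (nat_lit 9284899545) (nat_lit 152) (nat_lit 4738757849) (nat_lit 14) (nat_lit 4) (nat_lit 16) (nat_lit 5) (nat_lit 16) (nat_lit 4) (nat_lit 282) (nat_lit 223) (nat_lit 215)) (XT.lf (nat_lit 0) (nat_lit 6211232911) (nat_lit 152) (nat_lit 6791746136) (nat_lit 152) (nat_lit 1792194722) (nat_lit 14) (nat_lit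 4) (nat_lit 16) (nat_lit 5) (nat_lit 16) (nat_lit 4) (nat_lit 283) (nat_lit 223) (nat_lit 214))) (XT.nd (nat_lit 78) (nat_lit 76) (nat_lit 0) (XT.lf (nat_lit 0) (nat_lit 1158046750) (nat_lit 228) (nat_lit 3057374353) (nat_lit 76) (nat_lit 11130020719) (nat_lit 13) (nat_lit 5) (nat_lit 16) (nat_lit 5) (nat_lit 14) (nat_lit 4) (nat_lit 284) (nat_lit 223) (nat_lit 213)) (XT.lf (nat_lit 0) (nat_lit 2643793643) (nat_lit 76) (nat_lit 1495923339) (nat_lit 152) (nat_lit 11785055094) (nat_lit 12) (nat_lit 5) (nat_lit 13) (nat_lit 5) (nat_lit 14) (nat_lit 4) (nat_lit 285) (nat_lit 223) (nat_lit 212))))) (XT.nd (nat_lit 312) (nat_lit 152) (nat_lit 0) (XT.nd (nat_lit 156) (nat_lit 152) (nat_lit 0) (XT.nd (nat_lit 78) (nat_lit 0) (nat_lit 0) (XT.lf (nat_lit 0) (nat_lit 7248478125) (nat_lit 152) (nat_lit 7974853798) (nat_lit 0) (nat_lit 1311050951) (nat_lit 12) (nat_lit 5) (nat_lit 14) (nat_lit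 4) (nat_lit 12) (nat_lit 4) (nat_lit 286) (nat_lit 223) (nat_lit 211)) (XT.lf (nat_lit 0) (nat_lit 10445918837) (nat_lit 152) (nat_lit 2578864203) (nat_lit 0) (nat_lit 4153233285) (nat_lit 12) (nat_lit 5) (nat_lit 14) (nat_lit 4) (nat_lit 12) (nat_lit 4) (nat_lit 287) (nat_lit 223) (nat_lit 210))) (XT.nd (nat_lit 78) (nat_lit 0) (nat_lit 0) (XT.lf (nat_lit 0) (nat_lit 3040508768) (nat_lit 152) (nat_lit 10723258612) (nat_lit 152) (nat_lit 4092231747) (nat_lit 10) (nat_lit 4) (nat_lit 12) (nat_lit 5) (nat_lit 12) (nat_lit 4) (nat_lit 288) (nat_lit 223) (nat_lit 209)) (XT.lf (nat_lit 0) (nat_lit 8888969608) (nat_lit 152) (nat_lit 8317209898) (nat_lit 152) (nat_lit 1363953212) (nat_lit 10) (nat_lit 4) (nat_lit 12) (nat_lit 5) (nat_lit 12) (nat_lit 4) (nat_lit 289) (nat_lit 223) (nat_lit 208)))) (XT.nd (nat_lit 156) (nat_lit 0) (nat_lit 0) (XT.nd (nat_lit 78) (nat_lit 76) (nat_lit 0) (XT.lf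 (nat_lit 0) (nat_lit 1370252953) (nat_lit 228) (nat_lit 4451123675) (nat_lit 76) (nat_lit 13501715476) (nat_lit 9) (nat_lit 5) (nat_lit 12) (nat_lit 5) (nat_lit 10) (nat_lit 4) (nat_lit 290) (nat_lit 223) (nat_lit 207)) (XT.lf (nat_lit 0) (nat_lit 916364928) (nat_lit 76) (nat_lit 3214746829) (nat_lit 152) (nat_lit 15984840689) (nat_lit 8) (nat_lit 5) (nat_lit 9) (nat_lit 5) (nat_lit 10) (nat_lit 4) (nat_lit 291) (nat_lit 223) (nat_lit 206))) (XT.nd (nat_lit 78) (nat_lit 0) (nat_lit 0) (XT.lf (nat_lit 0) (nat_lit 6577851875) (nat_lit 76) (nat_lit 450743386) (nat_lit 152) (nat_lit 13920083829) (nat_lit 8) (nat_lit 5) (nat_lit 9) (nat_lit 5) (nat_lit 10) (nat_lit 4) (nat_lit 292) (nat_lit 223) (nat_lit 205)) (XT.nd (nat_lit 78) (nat_lit 0) (nat_lit 0) (XT.lf (nat_lit 0) (nat_lit 10035309255) (nat_lit 152) (nat_lit 9464701027) (nat_lit 0) (nat_lit 2324959081) (nat_lit 8) (nat_lit 5) (nat_lit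 10) (nat_lit 4) (nat_lit 8) (nat_lit 4) (nat_lit 293) (nat_lit 223) (nat_lit 204)) (XT.lf (nat_lit 0) (nat_lit 13129350232) (nat_lit 152) (nat_lit 4440465353) (nat_lit 0) (nat_lit 5178547205) (nat_lit 8) (nat_lit 5) (nat_lit 10) (nat_lit 4) (nat_lit 8) (nat_lit 4) (nat_lit 294) (nat_lit 223) (nat_lit 203))))))))
noncomputable def xc59 : XT := (XT.nd (nat_lit 1326) (nat_lit 152) (nat_lit 0) (XT.nd (nat_lit 624) (nat_lit 76) (nat_lit 0) (XT.nd (nat_lit 312) (nat_lit 152) (nat_lit 0) (XT.nd (nat_lit 156) (nat_lit 0) (nat_lit 0) (XT.nd (nat_lit 78) (nat_lit 0) (nat_lit 0) (XT.lf (nat_lit 0) (nat_lit 744715177) (nat_lit 76) (nat_lit 15577959504) (nat_lit 76) (nat_lit 7398153759) (nat_lit 7) (nat_lit 4) (nat_lit 8) (nat_lit 5) (nat_lit 8) (nat_lit 4) (nat_lit 295) (nat_lit 223) (nat_lit 202)) (XT.lf (nat_lit 0) (nat_lit 6231055563) (nat_lit 76) (nat_lit 13454205476) (nat_lit 76) (nat_lit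 5056301905) (nat_lit 7) (nat_lit 4) (nat_lit 8) (nat_lit 5) (nat_lit 8) (nat_lit 4) (nat_lit 296) (nat_lit 223) (nat_lit 201))) (XT.nd (nat_lit 78) (nat_lit 0) (nat_lit 0) (XT.lf (nat_lit 0) (nat_lit 11884796682) (nat_lit 76) (nat_lit 11268698374) (nat_lit 76) (nat_lit 2663082587) (nat_lit 7) (nat_lit 4) (nat_lit 8) (nat_lit 5) (nat_lit 8) (nat_lit 4) (nat_lit 297) (nat_lit 223) (nat_lit 200)) (XT.lf (nat_lit 0) (nat_lit 17719399820) (nat_lit 76) (nat_lit 9016234609) (nat_lit 76) (nat_lit 212797664) (nat_lit 7) (nat_lit 4) (nat_lit 8) (nat_lit 5) (nat_lit 8) (nat_lit 4) (nat_lit 298) (nat_lit 223) (nat_lit 199)))) (XT.nd (nat_lit 156) (nat_lit 0) (nat_lit 0) (XT.nd (nat_lit 78) (nat_lit 76) (nat_lit 0) (XT.lf (nat_lit 0) (nat_lit 2226760128) (nat_lit 152) (nat_lit 4426979784) (nat_lit 76) (nat_lit 21484285503) (nat_lit 6) (nat_lit 5) (nat_lit 8) (nat_lit 5) (nat_lit 7) (nat_lit 4)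 (nat_lit 299) (nat_lit 223) (nat_lit 198)) (XT.lf (nat_lit 0) (nat_lit 534521148) (nat_lit 76) (nat_lit 4200009982) (nat_lit 152) (nat_lit 24654821731) (nat_lit 5) (nat_lit 5) (nat_lit 6) (nat_lit 5) (nat_lit 7) (nat_lit 4) (nat_lit 300) (nat_lit 223) (nat_lit 197))) (XT.nd (nat_lit 78) (nat_lit 0) (nat_lit 0) (XT.lf (nat_lit 0) (nat_lit 5805038705) (nat_lit 76) (nat_lit 1583835308) (nat_lit 152) (nat_lit 23313407043) (nat_lit 5) (nat_lit 5) (nat_lit 6) (nat_lit 5) (nat_lit 7) (nat_lit 4) (nat_lit 301) (nat_lit 223) (nat_lit 196)) (XT.lf (nat_lit 0) (nat_lit 10142286382) (nat_lit 152) (nat_lit 20850341013) (nat_lit 0) (nat_lit 1089999735) (nat_lit 5) (nat_lit 5) (nat_lit 7) (nat_lit 4) (nat_lit 5) (nat_lit 4) (nat_lit 302) (nat_lit 223) (nat_lit 195))))) (XT.nd (nat_lit 312) (nat_lit 76) (nat_lit 0) (XT.nd (nat_lit 156) (nat_lit 0) (nat_lit 0) (XT.nd (nat_lit 78) (nat_lit 0) (nat_lit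 0) (XT.lf (nat_lit 0) (nat_lit 13009993254) (nat_lit 152) (nat_lit 16713161493) (nat_lit 0) (nat_lit 3810089413) (nat_lit 5) (nat_lit 5) (nat_lit 7) (nat_lit 4) (nat_lit 5) (nat_lit 4) (nat_lit 303) (nat_lit 223) (nat_lit 194)) (XT.lf (nat_lit 0) (nat_lit 15974094395) (nat_lit 152) (nat_lit 12451125255) (nat_lit 0) (nat_lit 6633602750) (nat_lit 5) (nat_lit 5) (nat_lit 7) (nat_lit 4) (nat_lit 5) (nat_lit 4) (nat_lit 304) (nat_lit 223) (nat_lit 193))) (XT.nd (nat_lit 78) (nat_lit 0) (nat_lit 0) (XT.lf (nat_lit 0) (nat_lit 19041647188) (nat_lit 152) (nat_lit 8054084594) (nat_lit 0) (nat_lit 9567262397) (nat_lit 5) (nat_lit 5) (nat_lit 7) (nat_lit 4) (nat_lit 5) (nat_lit 4) (nat_lit 305) (nat_lit 223) (nat_lit 192)) (XT.lf (nat_lit 0) (nat_lit 22219955330) (nat_lit 152) (nat_lit 3511570367) (nat_lit 0) (nat_lit 12618053257) (nat_lit 5) (nat_lit 5) (nat_lit 7) (nat_lit 4) (nat_lit 5) (nat_lit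 4) (nat_lit 306) (nat_lit 223) (nat_lit 191)))) (XT.nd (nat_lit 156) (nat_lit 0) (nat_lit 0) (XT.nd (nat_lit 78) (nat_lit 0) (nat_lit 0) (XT.lf (nat_lit 0) (nat_lit 1226488219) (nat_lit 76) (nat_lit 24309246921) (nat_lit 76) (nat_lit 14585899817) (nat_lit 4) (nat_lit 4) (nat_lit 5) (nat_lit 5) (nat_lit 5) (nat_lit 4) (nat_lit 307) (nat_lit 223) (nat_lit 190)) (XT.lf (nat_lit 0) (nat_lit 6253669422) (nat_lit 76) (nat_lit 22783356870) (nat_lit 76) (nat_lit 12944347832) (nat_lit 4) (nat_lit 4) (nat_lit 5) (nat_lit 5) (nat_lit 5) (nat_lit 4) (nat_lit 308) (nat_lit 223) (nat_lit 189))) (XT.nd (nat_lit 78) (nat_lit 0) (nat_lit 0) (XT.lf (nat_lit 0) (nat_lit 11465834344) (nat_lit 76) (nat_lit 21209692614) (nat_lit 76) (nat_lit 11260529353) (nat_lit 4) (nat_lit 4) (nat_lit 5) (nat_lit 5) (nat_lit 5) (nat_lit 4) (nat_lit 309) (nat_lit 223) (nat_lit 188)) (XT.nd (nat_lit 78) (nat_lit 0) (nat_lit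 0) (XT.lf (nat_lit 0) (nat_lit 16875392901) (nat_lit 76) (nat_lit 19584507336) (nat_lit 76) (nat_lit 9530435291) (nat_lit 4) (nat_lit 4) (nat_lit 5) (nat_lit 5) (nat_lit 5) (nat_lit 4) (nat_lit 310) (nat_lit 223) (nat_lit 187)) (XT.lf (nat_lit 0) (nat_lit 22495224996) (nat_lit 76) (nat_lit 17903931545) (nat_lit 76) (nat_lit 7749946373) (nat_lit 4) (nat_lit 4) (nat_lit 5) (nat_lit 5) (nat_lit 5) (nat_lit 4) (nat_lit 311) (nat_lit 223) (nat_lit 186))))))) (XT.nd (nat_lit 702) (nat_lit 0) (nat_lit 0) (XT.nd (nat_lit 312) (nat_lit 152) (nat_lit 0) (XT.nd (nat_lit 156) (nat_lit 0) (nat_lit 0) (XT.nd (nat_lit 78) (nat_lit 0) (nat_lit 0) (XT.lf (nat_lit 0) (nat_lit 28338711180) (nat_lit 76) (nat_lit 16163963871) (nat_lit 76) (nat_lit 5914823340) (nat_lit 4) (nat_lit 4) (nat_lit 5) (nat_lit 5) (nat_lit 5) (nat_lit 4) (nat_lit 312) (nat_lit 223) (nat_lit 185)) (XT.lf (nat_lit 0) (nat_lit 34419764517)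 (nat_lit 76) (nat_lit 14360461535) (nat_lit 76) (nat_lit 4020696852) (nat_lit 4) (nat_lit 4) (nat_lit 5) (nat_lit 5) (nat_lit 5) (nat_lit 4) (nat_lit 313) (nat_lit 223) (nat_lit 184))) (XT.nd (nat_lit 78) (nat_lit 0) (nat_lit 0) (XT.lf (nat_lit 0) (nat_lit 40752863704) (nat_lit 76) (nat_lit 12489130482) (nat_lit 76) (nat_lit 2063057083) (nat_lit 4) (nat_lit 4) (nat_lit 5) (nat_lit 5) (nat_lit 5) (nat_lit 4) (nat_lit 314) (nat_lit 223) (nat_lit 183)) (XT.lf (nat_lit 0) (nat_lit 47353087549) (nat_lit 76) (nat_lit 10545515162) (nat_lit 76) (nat_lit 37242987) (nat_lit 4) (nat_lit 4) (nat_lit 5) (nat_lit 5) (nat_lit 5) (nat_lit 4) (nat_lit 315) (nat_lit 223) (nat_lit 182)))) (XT.nd (nat_lit 156) (nat_lit 76) (nat_lit 0) (XT.nd (nat_lit 78) (nat_lit 0) (nat_lit 0) (XT.lf (nat_lit 0) (nat_lit 1995585727) (nat_lit 152) (nat_lit 6495605984) (nat_lit 76) (nat_lit 52206768934) (nat_lit 3) (nat_lit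 5) (nat_lit 5) (nat_lit 5) (nat_lit 4) (nat_lit 4) (nat_lit 316) (nat_lit 223) (nat_lit 181)) (XT.lf (nat_lit 0) (nat_lit 4102720975) (nat_lit 152) (nat_lit 2250535438) (nat_lit 76) (nat_lit 57246239375) (nat_lit 3) (nat_lit 5) (nat_lit 5) (nat_lit 5) (nat_lit 4) (nat_lit 4) (nat_lit 317) (nat_lit 223) (nat_lit 180))) (XT.nd (nat_lit 78) (nat_lit 0) (nat_lit 0) (XT.lf (nat_lit 0) (nat_lit 2234665518) (nat_lit 76) (nat_lit 4090595628) (nat_lit 152) (nat_lit 60320383003) (nat_lit 2) (nat_lit 5) (nat_lit 3) (nat_lit 5) (nat_lit 4) (nat_lit 4) (nat_lit 318) (nat_lit 223) (nat_lit 179)) (XT.nd (nat_lit 78) (nat_lit 0) (nat_lit 0) (XT.lf (nat_lit 0) (nat_lit 6979317637) (nat_lit 76) (nat_lit 1693395829) (nat_lit 152) (nat_lit 61170734223) (nat_lit 2) (nat_lit 5) (nat_lit 3) (nat_lit 5) (nat_lit 4) (nat_lit 4) (nat_lit 319) (nat_lit 223) (nat_lit 178)) (XT.lf (nat_lit 0) (nat_lit 11126951080)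 (nat_lit 152) (nat_lit 61294613261) (nat_lit 0) (nat_lit 780141686) (nat_lit 2) (nat_lit 5) (nat_lit 4) (nat_lit 4) (nat_lit 2) (nat_lit 4) (nat_lit 320) (nat_lit 223) (nat_lit 177)))))) (XT.nd (nat_lit 312) (nat_lit 0) (nat_lit 0) (XT.nd (nat_lit 156) (nat_lit 0) (nat_lit 0) (XT.nd (nat_lit 78) (nat_lit 0) (nat_lit 0) (XT.lf (nat_lit 0) (nat_lit 13709330660) (nat_lit 152) (nat_lit 59714204565) (nat_lit 0) (nat_lit 3304104130) (nat_lit 2) (nat_lit 5) (nat_lit 4) (nat_lit 4) (nat_lit 2) (nat_lit 4) (nat_lit 321) (nat_lit 223) (nat_lit 176)) (XT.lf (nat_lit 0) (nat_lit 16399562075) (nat_lit 152) (nat_lit 58092702431) (nat_lit 0) (nat_lit 5938700177) (nat_lit 2) (nat_lit 5) (nat_lit 4) (nat_lit 4) (nat_lit 2) (nat_lit 4) (nat_lit 322) (nat_lit 223) (nat_lit 175))) (XT.nd (nat_lit 78) (nat_lit 0) (nat_lit 0) (XT.lf (nat_lit 0) (nat_lit 19204050638) (nat_lit 152) (nat_lit 56426246139) (nat_lit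 0) (nat_lit 8690202675) (nat_lit 2) (nat_lit 5) (nat_lit 4) (nat_lit 4) (nat_lit 2) (nat_lit 4) (nat_lit 323) (nat_lit 223) (nat_lit 174)) (XT.lf (nat_lit 0) (nat_lit 22129473702) (nat_lit 152) (nat_lit 54710867938) (nat_lit 0) (nat_lit 11565162821) (nat_lit 2) (nat_lit 5) (nat_lit 4) (nat_lit 4) (nat_lit 2) (nat_lit 4) (nat_lit 324) (nat_lit 223) (nat_lit 173)))) (XT.nd (nat_lit 156) (nat_lit 0) (nat_lit 0) (XT.nd (nat_lit 78) (nat_lit 0) (nat_lit 0) (XT.lf (nat_lit 0) (nat_lit 25182796562) (nat_lit 152) (nat_lit 52942483592) (nat_lit 0) (nat_lit 14570425758) (nat_lit 2) (nat_lit 5) (nat_lit 4) (nat_lit 4) (nat_lit 2) (nat_lit 4) (nat_lit 325) (nat_lit 223) (nat_lit 172)) (XT.lf (nat_lit 0) (nat_lit 28371289032) (nat_lit 152) (nat_lit 51116882664) (nat_lit 0) (nat_lit 17713146874) (nat_lit 2) (nat_lit 5) (nat_lit 4) (nat_lit 4) (nat_lit 2) (nat_lit 4) (nat_lit 326) (nat_lit 223) (nat_lit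 171))) (XT.nd (nat_lit 78) (nat_lit 0) (nat_lit 0) (XT.lf (nat_lit 0) (nat_lit 31702542763) (nat_lit 152) (nat_lit 49229718484) (nat_lit 0) (nat_lit 21000808838) (nat_lit 2) (nat_lit 5) (nat_lit 4) (nat_lit 4) (nat_lit 2) (nat_lit 4) (nat_lit 327) (nat_lit 223) (nat_lit 170)) (XT.nd (nat_lit 78) (nat_lit 0) (nat_lit 0) (XT.lf (nat_lit 0) (nat_lit 35184489309) (nat_lit 152) (nat_lit 47276497804) (nat_lit 0) (nat_lit 24441239416) (nat_lit 2) (nat_lit 5) (nat_lit 4) (nat_lit 4) (nat_lit 2) (nat_lit 4) (nat_lit 328) (nat_lit 223) (nat_lit 169)) (XT.lf (nat_lit 0) (nat_lit 38825419021) (nat_lit 152) (nat_lit 45252570098) (nat_lit 0) (nat_lit 28042630111) (nat_lit 2) (nat_lit 5) (nat_lit 4) (nat_lit 4) (nat_lit 2) (nat_lit 4) (nat_lit 329) (nat_lit 223) (nat_lit 168))))))))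
noncomputable def xc60 : XT := (XT.nd (nat_lit 1326) (nat_lit 0) (nat_lit 0) (XT.nd (nat_lit 624) (nat_lit 76) (nat_lit 0) (XT.nd (nat_lit 312) (nat_lit 0) (nat_lit 0) (XT.nd (nat_lit 156) (nat_lit 0) (nat_lit 0) (XT.nd (nat_lit 78) (nat_lit 0) (nat_lit 0) (XT.lf (nat_lit 0) (nat_lit 42634000779) (nat_lit 152) (nat_lit 43153116492) (nat_lit 0) (nat_lit 31813555662) (nat_lit 2) (nat_lit 5) (nat_lit 4) (nat_lit 4) (nat_lit 2) (nat_lit 4) (nat_lit 330) (nat_lit 223) (nat_lit 167)) (XT.lf (nat_lit 0) (nat_lit 46619302633) (nat_lit 152) (nat_lit 40973138286) (nat_lit 0) (nat_lit 35762994462) (nat_lit 2) (nat_lit 5) (nat_lit 4) (nat_lit 4) (nat_lit 2) (nat_lit 4) (nat_lit 331) (nat_lit 223) (nat_lit 166))) (XT.nd (nat_lit 78) (nat_lit 0) (nat_lit 0) (XT.lf (nat_lit 0) (nat_lit 50790813399) (nat_lit 152) (nat_lit 38707445056) (nat_lit 0) (nat_lit 39900349938) (nat_lit 2) (nat_lit 5) (nat_lit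 4) (nat_lit 4) (nat_lit 2) (nat_lit 4) (nat_lit 332) (nat_lit 223) (nat_lit 165)) (XT.lf (nat_lit 0) (nat_lit 55158465245) (nat_lit 152) (nat_lit 36350642294) (nat_lit 0) (nat_lit 44235472937) (nat_lit 2) (nat_lit 5) (nat_lit 4) (nat_lit 4) (nat_lit 2) (nat_lit 4) (nat_lit 333) (nat_lit 223) (nat_lit 164)))) (XT.nd (nat_lit 156) (nat_lit 0) (nat_lit 0) (XT.nd (nat_lit 78) (nat_lit 0) (nat_lit 0) (XT.lf (nat_lit 0) (nat_lit 59732657342) (nat_lit 152) (nat_lit 33897118565) (nat_lit 0) (nat_lit 48778685179) (nat_lit 2) (nat_lit 5) (nat_lit 4) (nat_lit 4) (nat_lit 2) (nat_lit 4) (nat_lit 334) (nat_lit 223) (nat_lit 163)) (XT.lf (nat_lit 0) (nat_lit 64524280622) (nat_lit 152) (nat_lit 31341032145) (nat_lit 0) (nat_lit 53540803836) (nat_lit 2) (nat_lit 5) (nat_lit 4) (nat_lit 4) (nat_lit 2) (nat_lit 4) (nat_lit 335) (nat_lit 223) (nat_lit 162))) (XT.nd (nat_lit 78) (nat_lit 0) (nat_lit 0)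 (XT.lf (nat_lit 0) (nat_lit 69544743715) (nat_lit 152) (nat_lit 28676297116) (nat_lit 0) (nat_lit 58533167287) (nat_lit 2) (nat_lit 5) (nat_lit 4) (nat_lit 4) (nat_lit 2) (nat_lit 4) (nat_lit 336) (nat_lit 223) (nat_lit 161)) (XT.lf (nat_lit 0) (nat_lit 74806000102) (nat_lit 152) (nat_lit 25896568869) (nat_lit 0) (nat_lit 63767662111) (nat_lit 2) (nat_lit 5) (nat_lit 4) (nat_lit 4) (nat_lit 2) (nat_lit 4) (nat_lit 337) (nat_lit 223) (nat_lit 160))))) (XT.nd (nat_lit 312) (nat_lit 76) (nat_lit 0) (XT.nd (nat_lit 156) (nat_lit 0) (nat_lit 0) (XT.nd (nat_lit 78) (nat_lit 0) (nat_lit 0) (XT.lf (nat_lit 0) (nat_lit 80320576584) (nat_lit 152) (nat_lit 22995229004) (nat_lit 0) (nat_lit 69256751390) (nat_lit 2) (nat_lit 5) (nat_lit 4) (nat_lit 4) (nat_lit 2) (nat_lit 4) (nat_lit 338) (nat_lit 223) (nat_lit 159)) (XT.lf (nat_lit 0) (nat_lit 86101603107) (nat_lit 152) (nat_lit 19965369570) (nat_lit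 0) (nat_lit 75013504386) (nat_lit 2) (nat_lit 5) (nat_lit 4) (nat_lit 4) (nat_lit 2) (nat_lit 4) (nat_lit 339) (nat_lit 223) (nat_lit 158))) (XT.nd (nat_lit 78) (nat_lit 0) (nat_lit 0) (XT.lf (nat_lit 0) (nat_lit 92162844017) (nat_lit 152) (nat_lit 16799776614) (nat_lit 0) (nat_lit 81051627653) (nat_lit 2) (nat_lit 5) (nat_lit 4) (nat_lit 4) (nat_lit 2) (nat_lit 4) (nat_lit 340) (nat_lit 223) (nat_lit 157)) (XT.lf (nat_lit 0) (nat_lit 98518730843) (nat_lit 152) (nat_lit 13490913010) (nat_lit 0) (nat_lit 87385497674) (nat_lit 2) (nat_lit 5) (nat_lit 4) (nat_lit 4) (nat_lit 2) (nat_lit 4) (nat_lit 341) (nat_lit 223) (nat_lit 156)))) (XT.nd (nat_lit 156) (nat_lit 76) (nat_lit 0) (XT.nd (nat_lit 78) (nat_lit 0) (nat_lit 0) (XT.lf (nat_lit 0) (nat_lit 105184396647) (nat_lit 152) (nat_lit 10030900513) (nat_lit 0) (nat_lit 94030195093) (nat_lit 2) (nat_lit 5) (nat_lit 4) (nat_lit 4) (nat_lit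 2) (nat_lit 4) (nat_lit 342) (nat_lit 223) (nat_lit 155)) (XT.lf (nat_lit 0) (nat_lit 112175712062) (nat_lit 152) (nat_lit 6411500998) (nat_lit 0) (nat_lit 101001540617) (nat_lit 2) (nat_lit 5) (nat_lit 4) (nat_lit 4) (nat_lit 2) (nat_lit 4) (nat_lit 343) (nat_lit 223) (nat_lit 154))) (XT.nd (nat_lit 78) (nat_lit 76) (nat_lit 0) (XT.lf (nat_lit 0) (nat_lit 119509323078) (nat_lit 152) (nat_lit 2624096845) (nat_lit 0) (nat_lit 108316132690) (nat_lit 2) (nat_lit 5) (nat_lit 4) (nat_lit 4) (nat_lit 2) (nat_lit 4) (nat_lit 344) (nat_lit 223) (nat_lit 153)) (XT.nd (nat_lit 78) (nat_lit 0) (nat_lit 0) (XT.lf (nat_lit 0) (nat_lit 1384646921) (nat_lit 76) (nat_lit 125839661970) (nat_lit 76) (nat_lit 114628358302) (nat_lit 1) (nat_lit 4) (nat_lit 2) (nat_lit 5) (nat_lit 2) (nat_lit 4) (nat_lit 345) (nat_lit 223) (nat_lit 152)) (XT.lf (nat_lit 0) (nat_lit 5672781812) (nat_lit 76) (nat_lit 129689918597)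 (nat_lit 76) (nat_lit 118461364188) (nat_lit 1) (nat_lit 4) (nat_lit 2) (nat_lit 5) (nat_lit 2) (nat_lit 4) (nat_lit 346) (nat_lit 223) (nat_lit 151))))))) (XT.nd (nat_lit 624) (nat_lit 0) (nat_lit 0) (XT.nd (nat_lit 312) (nat_lit 0) (nat_lit 0) (XT.nd (nat_lit 156) (nat_lit 0) (nat_lit 0) (XT.nd (nat_lit 78) (nat_lit 0) (nat_lit 0) (XT.lf (nat_lit 0) (nat_lit 10163753179) (nat_lit 76) (nat_lit 133737797434) (nat_lit 76) (nat_lit 122492813746) (nat_lit 1) (nat_lit 4) (nat_lit 2) (nat_lit 5) (nat_lit 2) (nat_lit 4) (nat_lit 347) (nat_lit 223) (nat_lit 150)) (XT.lf (nat_lit 0) (nat_lit 14868253811) (nat_lit 76) (nat_lit 137992936286) (nat_lit 76) (nat_lit 126732305666) (nat_lit 1) (nat_lit 4) (nat_lit 2) (nat_lit 5) (nat_lit 2) (nat_lit 4) (nat_lit 348) (nat_lit 223) (nat_lit 149))) (XT.nd (nat_lit 78) (nat_lit 0) (nat_lit 0) (XT.lf (nat_lit 0) (nat_lit 19797484901) (nat_lit 76) (nat_lit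 142465466436) (nat_lit 76) (nat_lit 131189933977) (nat_lit 1) (nat_lit 4) (nat_lit 2) (nat_lit 5) (nat_lit 2) (nat_lit 4) (nat_lit 349) (nat_lit 223) (nat_lit 148)) (XT.lf (nat_lit 0) (nat_lit 24963182713) (nat_lit 76) (nat_lit 147166036766) (nat_lit 76) (nat_lit 135876312078) (nat_lit 1) (nat_lit 4) (nat_lit 2) (nat_lit 5) (nat_lit 2) (nat_lit 4) (nat_lit 350) (nat_lit 223) (nat_lit 147)))) (XT.nd (nat_lit 156) (nat_lit 0) (nat_lit 0) (XT.nd (nat_lit 78) (nat_lit 0) (nat_lit 0) (XT.lf (nat_lit 0) (nat_lit 30377646527) (nat_lit 76) (nat_lit 152105839110) (nat_lit 76) (nat_lit 140802598015) (nat_lit 1) (nat_lit 4) (nat_lit 2) (nat_lit 5) (nat_lit 2) (nat_lit 4) (nat_lit 351) (nat_lit 223) (nat_lit 146)) (XT.lf (nat_lit 0) (nat_lit 36053767924) (nat_lit 76) (nat_lit 157296634902) (nat_lit 76) (nat_lit 145980521037) (nat_lit 1) (nat_lit 4) (nat_lit 2) (nat_lit 5) (nat_lit 2) (nat_lit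 4) (nat_lit 352) (nat_lit 223) (nat_lit 145))) (XT.nd (nat_lit 78) (nat_lit 0) (nat_lit 0) (XT.lf (nat_lit 0) (nat_lit 42005061478) (nat_lit 76) (nat_lit 162750783180) (nat_lit 76) (nat_lit 151422409535) (nat_lit 1) (nat_lit 4) (nat_lit 2) (nat_lit 5) (nat_lit 2) (nat_lit 4) (nat_lit 353) (nat_lit 223) (nat_lit 144)) (XT.lf (nat_lit 0) (nat_lit 48245696936) (nat_lit 76) (nat_lit 168481270011) (nat_lit 76) (nat_lit 157141220384) (nat_lit 1) (nat_lit 4) (nat_lit 2) (nat_lit 5) (nat_lit 2) (nat_lit 4) (nat_lit 354) (nat_lit 223) (nat_lit 143))))) (XT.nd (nat_lit 312) (nat_lit 0) (nat_lit 0) (XT.nd (nat_lit 156) (nat_lit 0) (nat_lit 0) (XT.nd (nat_lit 78) (nat_lit 0) (nat_lit 0) (XT.lf (nat_lit 0) (nat_lit 54790532955) (nat_lit 76) (nat_lit 174501739411) (nat_lit 76) (nat_lit 163150569802) (nat_lit 1) (nat_lit 4) (nat_lit 2) (nat_lit 5) (nat_lit 2) (nat_lit 4) (nat_lit 355) (nat_lit 223)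 (nat_lit 142)) (XT.lf (nat_lit 0) (nat_lit 61655152476) (nat_lit 76) (nat_lit 180826525831) (nat_lit 76) (nat_lit 169464765763) (nat_lit 1) (nat_lit 4) (nat_lit 2) (nat_lit 5) (nat_lit 2) (nat_lit 4) (nat_lit 356) (nat_lit 223) (nat_lit 141))) (XT.nd (nat_lit 78) (nat_lit 0) (nat_lit 0) (XT.lf (nat_lit 0) (nat_lit 68855899833) (nat_lit 76) (nat_lit 187470688287) (nat_lit 76) (nat_lit 176098842067) (nat_lit 1) (nat_lit 4) (nat_lit 2) (nat_lit 5) (nat_lit 2) (nat_lit 4) (nat_lit 357) (nat_lit 223) (nat_lit 140)) (XT.lf (nat_lit 0) (nat_lit 76409919661) (nat_lit 76) (nat_lit 194450046212) (nat_lit 76) (nat_lit 183068594133) (nat_lit 1) (nat_lit 4) (nat_lit 2) (nat_lit 5) (nat_lit 2) (nat_lit 4) (nat_lit 358) (nat_lit 223) (nat_lit 139)))) (XT.nd (nat_lit 156) (nat_lit 0) (nat_lit 0) (XT.nd (nat_lit 78) (nat_lit 0) (nat_lit 0) (XT.lf (nat_lit 0) (nat_lit 84335197722) (nat_lit 76) (nat_lit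 201781217127) (nat_lit 76) (nat_lit 190390616611) (nat_lit 1) (nat_lit 4) (nat_lit 2) (nat_lit 5) (nat_lit 2) (nat_lit 4) (nat_lit 359) (nat_lit 223) (nat_lit 138)) (XT.lf (nat_lit 0) (nat_lit 92650603726) (nat_lit 76) (nat_lit 209481656199) (nat_lit 76) (nat_lit 198082342886) (nat_lit 1) (nat_lit 4) (nat_lit 2) (nat_lit 5) (nat_lit 2) (nat_lit 4) (nat_lit 360) (nat_lit 223) (nat_lit 137))) (XT.nd (nat_lit 78) (nat_lit 0) (nat_lit 0) (XT.lf (nat_lit 0) (nat_lit 101375936258) (nat_lit 76) (nat_lit 217569697807) (nat_lit 76) (nat_lit 206162086592) (nat_lit 1) (nat_lit 4) (nat_lit 2) (nat_lit 5) (nat_lit 2) (nat_lit 4) (nat_lit 361) (nat_lit 223) (nat_lit 136)) (XT.nd (nat_lit 30498) (nat_lit 0) (nat_lit 1824) (XT.lf (nat_lit 0) (nat_lit 110531969921) (nat_lit 76) (nat_lit 226064599193) (nat_lit 76) (nat_lit 214649085215) (nat_lit 1) (nat_lit 4) (nat_lit 2) (nat_lit 5) (nat_lit 2) (nat_lit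 4) (nat_lit 362) (nat_lit 223) (nat_lit 135)) (XT.lf (nat_lit 0) (nat_lit 371913377) (nat_lit 228) (nat_lit 4445603250) (nat_lit 0) (nat_lit 371913377) (nat_lit 25) (nat_lit 5) (nat_lit 28) (nat_lit 4) (nat_lit 25) (nat_lit 4) (nat_lit 272) (nat_lit 224) (nat_lit 224))))))))
noncomputable def xc61 : XT := (XT.nd (nat_lit 1326) (nat_lit 380) (nat_lit 0) (XT.nd (nat_lit 624) (nat_lit 456) (nat_lit 0) (XT.nd (nat_lit 312) (nat_lit 304) (nat_lit 0) (XT.nd (nat_lit 156) (nat_lit 228) (nat_lit 0) (XT.nd (nat_lit 78) (nat_lit 152) (nat_lit 0) (XT.lf (nat_lit 0) (nat_lit 4098499942) (nat_lit 228) (nat_lit 3256220200) (nat_lit 0) (nat_lit 3323015457) (nat_lit 25) (nat_lit 5) (nat_lit 28) (nat_lit 4) (nat_lit 25) (nat_lit 4) (nat_lit 273) (nat_lit 224) (nat_lit 223)) (XT.lf (nat_lit 0) (nat_lit 2550709017) (nat_lit 152) (nat_lit 4979912914) (nat_lit 152) (nat_lit 3465871776) (nat_lit 23) (nat_lit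 4) (nat_lit 25) (nat_lit 5) (nat_lit 25) (nat_lit 4) (nat_lit 274) (nat_lit 224) (nat_lit 222))) (XT.nd (nat_lit 78) (nat_lit 228) (nat_lit 0) (XT.lf (nat_lit 0) (nat_lit 8572676114) (nat_lit 152) (nat_lit 2489965859) (nat_lit 152) (nat_lit 272537433) (nat_lit 23) (nat_lit 4) (nat_lit 25) (nat_lit 5) (nat_lit 25) (nat_lit 4) (nat_lit 275) (nat_lit 224) (nat_lit 221)) (XT.lf (nat_lit 0) (nat_lit 2909226100) (nat_lit 228) (nat_lit 8623770927) (nat_lit 0) (nat_lit 159396499) (nat_lit 20) (nat_lit 5) (nat_lit 23) (nat_lit 4) (nat_lit 20) (nat_lit 4) (nat_lit 276) (nat_lit 224) (nat_lit 220)))) (XT.nd (nat_lit 156) (nat_lit 152) (nat_lit 0) (XT.nd (nat_lit 78) (nat_lit 152) (nat_lit 0) (XT.lf (nat_lit 0) (nat_lit 6208215882) (nat_lit 228) (nat_lit 3010239564) (nat_lit 0) (nat_lit 2850773895) (nat_lit 20) (nat_lit 5) (nat_lit 23) (nat_lit 4) (nat_lit 20) (nat_lit 4) (nat_lit 277) (nat_lit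 224) (nat_lit 219)) (XT.lf (nat_lit 0) (nat_lit 2796060532) (nat_lit 152) (nat_lit 6804441073) (nat_lit 152) (nat_lit 2868320623) (nat_lit 18) (nat_lit 4) (nat_lit 20) (nat_lit 5) (nat_lit 20) (nat_lit 4) (nat_lit 278) (nat_lit 224) (nat_lit 218))) (XT.nd (nat_lit 78) (nat_lit 76) (nat_lit 0) (XT.lf (nat_lit 0) (nat_lit 202358879) (nat_lit 228) (nat_lit 4072407091) (nat_lit 76) (nat_lit 8616860472) (nat_lit 17) (nat_lit 5) (nat_lit 20) (nat_lit 5) (nat_lit 18) (nat_lit 4) (nat_lit 279) (nat_lit 224) (nat_lit 217)) (XT.lf (nat_lit 0) (nat_lit 1643417574) (nat_lit 76) (nat_lit 1603186715) (nat_lit 152) (nat_lit 10091081499) (nat_lit 16) (nat_lit 5) (nat_lit 17) (nat_lit 5) (nat_lit 18) (nat_lit 4) (nat_lit 280) (nat_lit 224) (nat_lit 216))))) (XT.nd (nat_lit 312) (nat_lit 228) (nat_lit 0) (XT.nd (nat_lit 156) (nat_lit 228) (nat_lit 0) (XT.nd (nat_lit 78) (nat_lit 0) (nat_lit 0) (XT.lf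 (nat_lit 0) (nat_lit 6424334823) (nat_lit 152) (nat_lit 6208117430) (nat_lit 0) (nat_lit 1174805839) (nat_lit 16) (nat_lit 5) (nat_lit 18) (nat_lit 4) (nat_lit 16) (nat_lit 4) (nat_lit 281) (nat_lit 224) (nat_lit 215)) (XT.lf (nat_lit 0) (nat_lit 9684764965) (nat_lit 152) (nat_lit 637787733) (nat_lit 0) (nat_lit 3981826263) (nat_lit 16) (nat_lit 5) (nat_lit 18) (nat_lit 4) (nat_lit 16) (nat_lit 4) (nat_lit 282) (nat_lit 224) (nat_lit 214))) (XT.nd (nat_lit 78) (nat_lit 76) (nat_lit 0) (XT.lf (nat_lit 0) (nat_lit 5222155388) (nat_lit 152) (nat_lit 7870004499) (nat_lit 152) (nat_lit 1735247019) (nat_lit 14) (nat_lit 4) (nat_lit 16) (nat_lit 5) (nat_lit 16) (nat_lit 4) (nat_lit 283) (nat_lit 224) (nat_lit 213)) (XT.lf (nat_lit 0) (nat_lit 1165790870) (nat_lit 228) (nat_lit 4156142174) (nat_lit 76) (nat_lit 10058176318) (nat_lit 13) (nat_lit 5) (nat_lit 16) (nat_lit 5) (nat_lit 14) (nat_lit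 4) (nat_lit 284) (nat_lit 224) (nat_lit 212)))) (XT.nd (nat_lit 156) (nat_lit 152) (nat_lit 0) (XT.nd (nat_lit 78) (nat_lit 0) (nat_lit 0) (XT.lf (nat_lit 0) (nat_lit 1433362515) (nat_lit 76) (nat_lit 2650075697) (nat_lit 152) (nat_lit 11879307135) (nat_lit 12) (nat_lit 5) (nat_lit 13) (nat_lit 5) (nat_lit 14) (nat_lit 4) (nat_lit 285) (nat_lit 224) (nat_lit 211)) (XT.lf (nat_lit 0) (nat_lit 7129652085) (nat_lit 152) (nat_lit 9278857151) (nat_lit 0) (nat_lit 167073877) (nat_lit 12) (nat_lit 5) (nat_lit 14) (nat_lit 4) (nat_lit 12) (nat_lit 4) (nat_lit 286) (nat_lit 224) (nat_lit 210))) (XT.nd (nat_lit 78) (nat_lit 152) (nat_lit 0) (XT.lf (nat_lit 0) (nat_lit 10284685447) (nat_lit 152) (nat_lit 3952980420) (nat_lit 0) (nat_lit 2983765927) (nat_lit 12) (nat_lit 5) (nat_lit 14) (nat_lit 4) (nat_lit 12) (nat_lit 4) (nat_lit 287) (nat_lit 224) (nat_lit 209)) (XT.nd (nat_lit 78) (nat_lit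 0) (nat_lit 0) (XT.lf (nat_lit 0) (nat_lit 1551976052) (nat_lit 152) (nat_lit 11986929818) (nat_lit 152) (nat_lit 4363780477) (nat_lit 10) (nat_lit 4) (nat_lit 12) (nat_lit 5) (nat_lit 12) (nat_lit 4) (nat_lit 288) (nat_lit 224) (nat_lit 208)) (XT.lf (nat_lit 0) (nat_lit 7334739739) (nat_lit 152) (nat_lit 9607087824) (nat_lit 152) (nat_lit 1677052939) (nat_lit 10) (nat_lit 4) (nat_lit 12) (nat_lit 5) (nat_lit 12) (nat_lit 4) (nat_lit 289) (nat_lit 224) (nat_lit 207))))))) (XT.nd (nat_lit 702) (nat_lit 152) (nat_lit 0) (XT.nd (nat_lit 312) (nat_lit 76) (nat_lit 0) (XT.nd (nat_lit 156) (nat_lit 76) (nat_lit 0) (XT.nd (nat_lit 78) (nat_lit 0) (nat_lit 0) (XT.lf (nat_lit 0) (nat_lit 1028868557) (nat_lit 228) (nat_lit 6113126288) (nat_lit 76) (nat_lit 12232082794) (nat_lit 9) (nat_lit 5) (nat_lit 12) (nat_lit 5) (nat_lit 10) (nat_lit 4) (nat_lit 290) (nat_lit 224) (nat_lit 206)) (XT.lf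 (nat_lit 0) (nat_lit 3738938609) (nat_lit 228) (nat_lit 835836917) (nat_lit 76) (nat_lit 15594776222) (nat_lit 9) (nat_lit 5) (nat_lit 12) (nat_lit 5) (nat_lit 10) (nat_lit 4) (nat_lit 291) (nat_lit 224) (nat_lit 205))) (XT.nd (nat_lit 78) (nat_lit 0) (nat_lit 0) (XT.lf (nat_lit 0) (nat_lit 4738125424) (nat_lit 76) (nat_lit 1849135922) (nat_lit 152) (nat_lit 14417545869) (nat_lit 8) (nat_lit 5) (nat_lit 9) (nat_lit 5) (nat_lit 10) (nat_lit 4) (nat_lit 292) (nat_lit 224) (nat_lit 204)) (XT.lf (nat_lit 0) (nat_lit 9537802050) (nat_lit 152) (nat_lit 11397165503) (nat_lit 0) (nat_lit 949006018) (nat_lit 8) (nat_lit 5) (nat_lit 10) (nat_lit 4) (nat_lit 8) (nat_lit 4) (nat_lit 293) (nat_lit 224) (nat_lit 203)))) (XT.nd (nat_lit 156) (nat_lit 76) (nat_lit 0) (XT.nd (nat_lit 78) (nat_lit 0) (nat_lit 0) (XT.lf (nat_lit 0) (nat_lit 12599137824) (nat_lit 152) (nat_lit 6428589567) (nat_lit 0)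 (nat_lit 3781339073) (nat_lit 8) (nat_lit 5) (nat_lit 10) (nat_lit 4) (nat_lit 8) (nat_lit 4) (nat_lit 294) (nat_lit 224) (nat_lit 202)) (XT.lf (nat_lit 0) (nat_lit 15749687369) (nat_lit 152) (nat_lit 1320253847) (nat_lit 0) (nat_lit 6713790792) (nat_lit 8) (nat_lit 5) (nat_lit 10) (nat_lit 4) (nat_lit 8) (nat_lit 4) (nat_lit 295) (nat_lit 224) (nat_lit 201))) (XT.nd (nat_lit 78) (nat_lit 0) (nat_lit 0) (XT.lf (nat_lit 0) (nat_lit 4070278697) (nat_lit 76) (nat_lit 14990221755) (nat_lit 76) (nat_lit 5746612962) (nat_lit 7) (nat_lit 4) (nat_lit 8) (nat_lit 5) (nat_lit 8) (nat_lit 4) (nat_lit 296) (nat_lit 224) (nat_lit 200)) (XT.nd (nat_lit 78) (nat_lit 0) (nat_lit 0) (XT.lf (nat_lit 0) (nat_lit 9674349066) (nat_lit 76) (nat_lit 12825357917) (nat_lit 76) (nat_lit 3383927967) (nat_lit 7) (nat_lit 4) (nat_lit 8) (nat_lit 5) (nat_lit 8) (nat_lit 4) (nat_lit 297) (nat_lit 224) (nat_lit 199))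 (XT.lf (nat_lit 0) (nat_lit 15461646729) (nat_lit 76) (nat_lit 10592554404) (nat_lit 76) (nat_lit 962723351) (nat_lit 7) (nat_lit 4) (nat_lit 8) (nat_lit 5) (nat_lit 8) (nat_lit 4) (nat_lit 298) (nat_lit 224) (nat_lit 198)))))) (XT.nd (nat_lit 312) (nat_lit 0) (nat_lit 0) (XT.nd (nat_lit 156) (nat_lit 76) (nat_lit 0) (XT.nd (nat_lit 78) (nat_lit 0) (nat_lit 0) (XT.lf (nat_lit 0) (nat_lit 1474027646) (nat_lit 152) (nat_lit 6787504000) (nat_lit 76) (nat_lit 19946959949) (nat_lit 6) (nat_lit 5) (nat_lit 8) (nat_lit 5) (nat_lit 7) (nat_lit 4) (nat_lit 299) (nat_lit 224) (nat_lit 197)) (XT.lf (nat_lit 0) (nat_lit 3947920798) (nat_lit 152) (nat_lit 1886908391) (nat_lit 76) (nat_lit 23626729375) (nat_lit 6) (nat_lit 5) (nat_lit 8) (nat_lit 5) (nat_lit 7) (nat_lit 4) (nat_lit 300) (nat_lit 224) (nat_lit 196))) (XT.nd (nat_lit 78) (nat_lit 0) (nat_lit 0) (XT.lf (nat_lit 0) (nat_lit 3278128550)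 (nat_lit 76) (nat_lit 3268711710) (nat_lit 152) (nat_lit 24230461127) (nat_lit 5) (nat_lit 5) (nat_lit 6) (nat_lit 5) (nat_lit 7) (nat_lit 4) (nat_lit 301) (nat_lit 224) (nat_lit 195)) (XT.lf (nat_lit 0) (nat_lit 8682796682) (nat_lit 76) (nat_lit 576075864) (nat_lit 152) (nat_lit 22900885308) (nat_lit 5) (nat_lit 5) (nat_lit 6) (nat_lit 5) (nat_lit 7) (nat_lit 4) (nat_lit 302) (nat_lit 224) (nat_lit 194)))) (XT.nd (nat_lit 156) (nat_lit 0) (nat_lit 0) (XT.nd (nat_lit 78) (nat_lit 0) (nat_lit 0) (XT.lf (nat_lit 0) (nat_lit 12094662784) (nat_lit 152) (nat_lit 19370788595) (nat_lit 0) (nat_lit 2146558753) (nat_lit 5) (nat_lit 5) (nat_lit 7) (nat_lit 4) (nat_lit 5) (nat_lit 4) (nat_lit 303) (nat_lit 224) (nat_lit 193)) (XT.lf (nat_lit 0) (nat_lit 15036932995) (nat_lit 152) (nat_lit 15146848645) (nat_lit 0) (nat_lit 4954935818) (nat_lit 5) (nat_lit 5) (nat_lit 7) (nat_lit 4) (nat_lit 5)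 (nat_lit 4) (nat_lit 304) (nat_lit 224) (nat_lit 192))) (XT.nd (nat_lit 78) (nat_lit 0) (nat_lit 0) (XT.lf (nat_lit 0) (nat_lit 18083694427) (nat_lit 152) (nat_lit 10786090163) (nat_lit 0) (nat_lit 7874179968) (nat_lit 5) (nat_lit 5) (nat_lit 7) (nat_lit 4) (nat_lit 5) (nat_lit 4) (nat_lit 305) (nat_lit 224) (nat_lit 191)) (XT.nd (nat_lit 78) (nat_lit 0) (nat_lit 0) (XT.lf (nat_lit 0) (nat_lit 21242201274) (nat_lit 152) (nat_lit 6278130391) (nat_lit 0) (nat_lit 10911241784) (nat_lit 5) (nat_lit 5) (nat_lit 7) (nat_lit 4) (nat_lit 5) (nat_lit 4) (nat_lit 306) (nat_lit 224) (nat_lit 190)) (XT.lf (nat_lit 0) (nat_lit 24519973789) (nat_lit 152) (nat_lit 1612236092) (nat_lit 0) (nat_lit 14073352365) (nat_lit 5) (nat_lit 5) (nat_lit 7) (nat_lit 4) (nat_lit 5) (nat_lit 4) (nat_lit 307) (nat_lit 224) (nat_lit 189))))))))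
noncomputable def xc62 : XT := (XT.nd (nat_lit 1326) (nat_lit 0) (nat_lit 0) (XT.nd (nat_lit 624) (nat_lit 152) (nat_lit 0) (XT.nd (nat_lit 312) (nat_lit 0) (nat_lit 0) (XT.nd (nat_lit 156) (nat_lit 0) (nat_lit 0) (XT.nd (nat_lit 78) (nat_lit 0) (nat_lit 0) (XT.lf (nat_lit 0) (nat_lit 3329259088) (nat_lit 76) (nat_lit 24647536169) (nat_lit 76) (nat_lit 14090760522) (nat_lit 4) (nat_lit 4) (nat_lit 5) (nat_lit 5) (nat_lit 5) (nat_lit 4) (nat_lit 308) (nat_lit 224) (nat_lit 188)) (XT.lf (nat_lit 0) (nat_lit 8510587615) (nat_lit 76) (nat_lit 23087121762) (nat_lit 76) (nat_lit 12425437332) (nat_lit 4) (nat_lit 4) (nat_lit 5) (nat_lit 5) (nat_lit 5) (nat_lit 4) (nat_lit 309) (nat_lit 224) (nat_lit 187))) (XT.nd (nat_lit 78) (nat_lit 0) (nat_lit 0) (XT.lf (nat_lit 0) (nat_lit 13890778177) (nat_lit 76) (nat_lit 21474555387) (nat_lit 76) (nat_lit 10712957829) (nat_lit 4) (nat_lit 4) (nat_lit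 5) (nat_lit 5) (nat_lit 5) (nat_lit 4) (nat_lit 310) (nat_lit 224) (nat_lit 186)) (XT.lf (nat_lit 0) (nat_lit 19482640752) (nat_lit 76) (nat_lit 19805997599) (nat_lit 76) (nat_lit 8949244682) (nat_lit 4) (nat_lit 4) (nat_lit 5) (nat_lit 5) (nat_lit 5) (nat_lit 4) (nat_lit 311) (nat_lit 224) (nat_lit 185)))) (XT.nd (nat_lit 156) (nat_lit 0) (nat_lit 0) (XT.nd (nat_lit 78) (nat_lit 0) (nat_lit 0) (XT.lf (nat_lit 0) (nat_lit 25299489299) (nat_lit 76) (nat_lit 18077475643) (nat_lit 76) (nat_lit 7130098574) (nat_lit 4) (nat_lit 4) (nat_lit 5) (nat_lit 5) (nat_lit 5) (nat_lit 4) (nat_lit 312) (nat_lit 224) (nat_lit 184)) (XT.lf (nat_lit 0) (nat_lit 31355173457) (nat_lit 76) (nat_lit 16284873990) (nat_lit 76) (nat_lit 5251188205) (nat_lit 4) (nat_lit 4) (nat_lit 5) (nat_lit 5) (nat_lit 5) (nat_lit 4) (nat_lit 313) (nat_lit 224) (nat_lit 183))) (XT.nd (nat_lit 78) (nat_lit 0) (nat_lit 0) (XT.lf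 (nat_lit 0) (nat_lit 37664111521) (nat_lit 76) (nat_lit 14423924540) (nat_lit 76) (nat_lit 3308039978) (nat_lit 4) (nat_lit 4) (nat_lit 5) (nat_lit 5) (nat_lit 5) (nat_lit 4) (nat_lit 314) (nat_lit 224) (nat_lit 182)) (XT.lf (nat_lit 0) (nat_lit 44241324773) (nat_lit 76) (nat_lit 12490196461) (nat_lit 76) (nat_lit 1296027350) (nat_lit 4) (nat_lit 4) (nat_lit 5) (nat_lit 5) (nat_lit 5) (nat_lit 4) (nat_lit 315) (nat_lit 224) (nat_lit 181))))) (XT.nd (nat_lit 312) (nat_lit 0) (nat_lit 0) (XT.nd (nat_lit 156) (nat_lit 76) (nat_lit 0) (XT.nd (nat_lit 78) (nat_lit 0) (nat_lit 0) (XT.lf (nat_lit 0) (nat_lit 764366767) (nat_lit 152) (nat_lit 9701773952) (nat_lit 76) (nat_lit 50325161557) (nat_lit 3) (nat_lit 5) (nat_lit 5) (nat_lit 5) (nat_lit 4) (nat_lit 4) (nat_lit 316) (nat_lit 224) (nat_lit 180)) (XT.lf (nat_lit 0) (nat_lit 2859384342) (nat_lit 152) (nat_lit 5477994317) (nat_lit 76) (nat_lit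 55356083604) (nat_lit 3) (nat_lit 5) (nat_lit 5) (nat_lit 5) (nat_lit 4) (nat_lit 4) (nat_lit 317) (nat_lit 224) (nat_lit 179))) (XT.nd (nat_lit 78) (nat_lit 76) (nat_lit 0) (XT.lf (nat_lit 0) (nat_lit 5035494480) (nat_lit 152) (nat_lit 1084593671) (nat_lit 76) (nat_lit 60621862032) (nat_lit 3) (nat_lit 5) (nat_lit 5) (nat_lit 5) (nat_lit 4) (nat_lit 4) (nat_lit 318) (nat_lit 224) (nat_lit 178)) (XT.lf (nat_lit 0) (nat_lit 3604246873) (nat_lit 76) (nat_lit 3749903917) (nat_lit 152) (nat_lit 62587059930) (nat_lit 2) (nat_lit 5) (nat_lit 3) (nat_lit 5) (nat_lit 4) (nat_lit 4) (nat_lit 319) (nat_lit 224) (nat_lit 177)))) (XT.nd (nat_lit 156) (nat_lit 0) (nat_lit 0) (XT.nd (nat_lit 78) (nat_lit 0) (nat_lit 0) (XT.lf (nat_lit 0) (nat_lit 8526234071) (nat_lit 76) (nat_lit 1258807057) (nat_lit 152) (nat_lit 63515611674) (nat_lit 2) (nat_lit 5) (nat_lit 3) (nat_lit 5) (nat_lit 4) (nat_lit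 4) (nat_lit 320) (nat_lit 224) (nat_lit 176)) (XT.lf (nat_lit 0) (nat_lit 12337392985) (nat_lit 152) (nat_lit 63192857503) (nat_lit 0) (nat_lit 1297852625) (nat_lit 2) (nat_lit 5) (nat_lit 4) (nat_lit 4) (nat_lit 2) (nat_lit 4) (nat_lit 321) (nat_lit 224) (nat_lit 175))) (XT.nd (nat_lit 78) (nat_lit 0) (nat_lit 0) (XT.lf (nat_lit 0) (nat_lit 15017744194) (nat_lit 152) (nat_lit 61588975344) (nat_lit 0) (nat_lit 3925217769) (nat_lit 2) (nat_lit 5) (nat_lit 4) (nat_lit 4) (nat_lit 2) (nat_lit 4) (nat_lit 322) (nat_lit 224) (nat_lit 174)) (XT.nd (nat_lit 78) (nat_lit 0) (nat_lit 0) (XT.lf (nat_lit 0) (nat_lit 17812823037) (nat_lit 152) (nat_lit 59939299982) (nat_lit 0) (nat_lit 6669833693) (nat_lit 2) (nat_lit 5) (nat_lit 4) (nat_lit 4) (nat_lit 2) (nat_lit 4) (nat_lit 323) (nat_lit 224) (nat_lit 173)) (XT.lf (nat_lit 0) (nat_lit 20729284463) (nat_lit 152) (nat_lit 58239903617) (nat_lit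 0) (nat_lit 9538235197) (nat_lit 2) (nat_lit 5) (nat_lit 4) (nat_lit 4) (nat_lit 2) (nat_lit 4) (nat_lit 324) (nat_lit 224) (nat_lit 172))))))) (XT.nd (nat_lit 702) (nat_lit 0) (nat_lit 0) (XT.nd (nat_lit 312) (nat_lit 0) (nat_lit 0) (XT.nd (nat_lit 156) (nat_lit 0) (nat_lit 0) (XT.nd (nat_lit 78) (nat_lit 0) (nat_lit 0) (XT.lf (nat_lit 0) (nat_lit 23774072429) (nat_lit 152) (nat_lit 56486740069) (nat_lit 0) (nat_lit 12537251808) (nat_lit 2) (nat_lit 5) (nat_lit 4) (nat_lit 4) (nat_lit 2) (nat_lit 4) (nat_lit 325) (nat_lit 224) (nat_lit 171)) (XT.lf (nat_lit 0) (nat_lit 26954436429) (nat_lit 152) (nat_lit 54675635138) (nat_lit 0) (nat_lit 15674024042) (nat_lit 2) (nat_lit 5) (nat_lit 4) (nat_lit 4) (nat_lit 2) (nat_lit 4) (nat_lit 326) (nat_lit 224) (nat_lit 170))) (XT.nd (nat_lit 78) (nat_lit 0) (nat_lit 0) (XT.lf (nat_lit 0) (nat_lit 30277948760) (nat_lit 152) (nat_lit 52802276670)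 (nat_lit 0) (nat_lit 18956020404) (nat_lit 2) (nat_lit 5) (nat_lit 4) (nat_lit 4) (nat_lit 2) (nat_lit 4) (nat_lit 327) (nat_lit 224) (nat_lit 169)) (XT.lf (nat_lit 0) (nat_lit 33752522544) (nat_lit 152) (nat_lit 50862204286) (nat_lit 0) (nat_lit 22391055172) (nat_lit 2) (nat_lit 5) (nat_lit 4) (nat_lit 4) (nat_lit 2) (nat_lit 4) (nat_lit 328) (nat_lit 224) (nat_lit 168)))) (XT.nd (nat_lit 156) (nat_lit 0) (nat_lit 0) (XT.nd (nat_lit 78) (nat_lit 0) (nat_lit 0) (XT.lf (nat_lit 0) (nat_lit 37386430578) (nat_lit 152) (nat_lit 48850798768) (nat_lit 0) (nat_lit 25987306998) (nat_lit 2) (nat_lit 5) (nat_lit 4) (nat_lit 4) (nat_lit 2) (nat_lit 4) (nat_lit 329) (nat_lit 224) (nat_lit 167)) (XT.lf (nat_lit 0) (nat_lit 41188325023) (nat_lit 152) (nat_lit 46763271055) (nat_lit 0) (nat_lit 29753338389) (nat_lit 2) (nat_lit 5) (nat_lit 4) (nat_lit 4) (nat_lit 2) (nat_lit 4) (nat_lit 330) (nat_lit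 224) (nat_lit 166))) (XT.nd (nat_lit 78) (nat_lit 0) (nat_lit 0) (XT.lf (nat_lit 0) (nat_lit 45167258009) (nat_lit 152) (nat_lit 44594650842) (nat_lit 0) (nat_lit 33698116085) (nat_lit 2) (nat_lit 5) (nat_lit 4) (nat_lit 4) (nat_lit 2) (nat_lit 4) (nat_lit 331) (nat_lit 224) (nat_lit 165)) (XT.nd (nat_lit 78) (nat_lit 0) (nat_lit 0) (XT.lf (nat_lit 0) (nat_lit 49332703185) (nat_lit 152) (nat_lit 42339774749) (nat_lit 0) (nat_lit 37831032414) (nat_lit 2) (nat_lit 5) (nat_lit 4) (nat_lit 4) (nat_lit 2) (nat_lit 4) (nat_lit 332) (nat_lit 224) (nat_lit 164)) (XT.lf (nat_lit 0) (nat_lit 53694578279) (nat_lit 152) (nat_lit 39993274021) (nat_lit 0) (nat_lit 42161927654) (nat_lit 2) (nat_lit 5) (nat_lit 4) (nat_lit 4) (nat_lit 2) (nat_lit 4) (nat_lit 333) (nat_lit 224) (nat_lit 163)))))) (XT.nd (nat_lit 312) (nat_lit 0) (nat_lit 0) (XT.nd (nat_lit 156) (nat_lit 0) (nat_lit 0) (XT.nd (nat_lit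 78) (nat_lit 0) (nat_lit 0) (XT.lf (nat_lit 0) (nat_lit 58263268707) (nat_lit 152) (nat_lit 37549561754) (nat_lit 0) (nat_lit 46701113458) (nat_lit 2) (nat_lit 5) (nat_lit 4) (nat_lit 4) (nat_lit 2) (nat_lit 4) (nat_lit 334) (nat_lit 224) (nat_lit 162)) (XT.lf (nat_lit 0) (nat_lit 63049652304) (nat_lit 152) (nat_lit 35002819584) (nat_lit 0) (nat_lit 51459397414) (nat_lit 2) (nat_lit 5) (nat_lit 4) (nat_lit 4) (nat_lit 2) (nat_lit 4) (nat_lit 335) (nat_lit 224) (nat_lit 161))) (XT.nd (nat_lit 78) (nat_lit 0) (nat_lit 0) (XT.lf (nat_lit 0) (nat_lit 68065125220) (nat_lit 152) (nat_lit 32346983839) (nat_lit 0) (nat_lit 56448108767) (nat_lit 2) (nat_lit 5) (nat_lit 4) (nat_lit 4) (nat_lit 2) (nat_lit 4) (nat_lit 336) (nat_lit 224) (nat_lit 160)) (XT.lf (nat_lit 0) (nat_lit 73321629059) (nat_lit 152) (nat_lit 29575731102) (nat_lit 0) (nat_lit 61679125403) (nat_lit 2) (nat_lit 5) (nat_lit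 4) (nat_lit 4) (nat_lit 2) (nat_lit 4) (nat_lit 337) (nat_lit 224) (nat_lit 159)))) (XT.nd (nat_lit 156) (nat_lit 0) (nat_lit 0) (XT.nd (nat_lit 78) (nat_lit 0) (nat_lit 0) (XT.lf (nat_lit 0) (nat_lit 78831679306) (nat_lit 152) (nat_lit 26682463151) (nat_lit 0) (nat_lit 67164902122) (nat_lit 2) (nat_lit 5) (nat_lit 4) (nat_lit 4) (nat_lit 2) (nat_lit 4) (nat_lit 338) (nat_lit 224) (nat_lit 158)) (XT.lf (nat_lit 0) (nat_lit 84608395127) (nat_lit 152) (nat_lit 23660291253) (nat_lit 0) (nat_lit 72918500299) (nat_lit 2) (nat_lit 5) (nat_lit 4) (nat_lit 4) (nat_lit 2) (nat_lit 4) (nat_lit 339) (nat_lit 224) (nat_lit 157))) (XT.nd (nat_lit 78) (nat_lit 0) (nat_lit 0) (XT.lf (nat_lit 0) (nat_lit 90665530608) (nat_lit 152) (nat_lit 20502019761) (nat_lit 0) (nat_lit 78953618976) (nat_lit 2) (nat_lit 5) (nat_lit 4) (nat_lit 4) (nat_lit 2) (nat_lit 4) (nat_lit 340) (nat_lit 224) (nat_lit 156))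 (XT.nd (nat_lit 78) (nat_lit 0) (nat_lit 0) (XT.lf (nat_lit 0) (nat_lit 97017507500) (nat_lit 152) (nat_lit 17200128980) (nat_lit 0) (nat_lit 85284627483) (nat_lit 2) (nat_lit 5) (nat_lit 4) (nat_lit 4) (nat_lit 2) (nat_lit 4) (nat_lit 341) (nat_lit 224) (nat_lit 155)) (XT.lf (nat_lit 0) (nat_lit 103679449558) (nat_lit 152) (nat_lit 13746757267) (nat_lit 0) (nat_lit 91926599651) (nat_lit 2) (nat_lit 5) (nat_lit 4) (nat_lit 4) (nat_lit 2) (nat_lit 4) (nat_lit 342) (nat_lit 224) (nat_lit 154))))))))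
noncomputable def xc63 : XT := (XT.nd (nat_lit 1326) (nat_lit 0) (nat_lit 0) (XT.nd (nat_lit 624) (nat_lit 0) (nat_lit 0) (XT.nd (nat_lit 312) (nat_lit 0) (nat_lit 0) (XT.nd (nat_lit 156) (nat_lit 76) (nat_lit 0) (XT.nd (nat_lit 78) (nat_lit 0) (nat_lit 0) (XT.lf (nat_lit 0) (nat_lit 110667218549) (nat_lit 152) (nat_lit 10133682306) (nat_lit 0) (nat_lit 98895349698) (nat_lit 2) (nat_lit 5) (nat_lit 4) (nat_lit 4) (nat_lit 2) (nat_lit 4) (nat_lit 343) (nat_lit 224) (nat_lit 153)) (XT.lf (nat_lit 0) (nat_lit 117997452017) (nat_lit 152) (nat_lit 6352301540) (nat_lit 0) (nat_lit 106207469887) (nat_lit 2) (nat_lit 5) (nat_lit 4) (nat_lit 4) (nat_lit 2) (nat_lit 4) (nat_lit 344) (nat_lit 224) (nat_lit 152))) (XT.nd (nat_lit 78) (nat_lit 76) (nat_lit 0) (XT.lf (nat_lit 0) (nat_lit 125687602900) (nat_lit 152) (nat_lit 2393611680) (nat_lit 0) (nat_lit 113880370028) (nat_lit 2) (nat_lit 5) (nat_lit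 4) (nat_lit 4) (nat_lit 2) (nat_lit 4) (nat_lit 345) (nat_lit 224) (nat_lit 151)) (XT.lf (nat_lit 0) (nat_lit 1809735564) (nat_lit 76) (nat_lit 131974500560) (nat_lit 76) (nat_lit 120150838409) (nat_lit 1) (nat_lit 4) (nat_lit 2) (nat_lit 5) (nat_lit 2) (nat_lit 4) (nat_lit 346) (nat_lit 224) (nat_lit 150)))) (XT.nd (nat_lit 156) (nat_lit 0) (nat_lit 0) (XT.nd (nat_lit 78) (nat_lit 0) (nat_lit 0) (XT.lf (nat_lit 0) (nat_lit 6295331662) (nat_lit 76) (nat_lit 136024753091) (nat_lit 76) (nat_lit 124185444008) (nat_lit 1) (nat_lit 4) (nat_lit 2) (nat_lit 5) (nat_lit 2) (nat_lit 4) (nat_lit 347) (nat_lit 224) (nat_lit 149)) (XT.lf (nat_lit 0) (nat_lit 10994712990) (nat_lit 76) (nat_lit 140282152604) (nat_lit 76) (nat_lit 128427941682) (nat_lit 1) (nat_lit 4) (nat_lit 2) (nat_lit 5) (nat_lit 2) (nat_lit 4) (nat_lit 348) (nat_lit 224) (nat_lit 148))) (XT.nd (nat_lit 78) (nat_lit 0) (nat_lit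 0) (XT.lf (nat_lit 0) (nat_lit 15919068551) (nat_lit 76) (nat_lit 144756835765) (nat_lit 76) (nat_lit 132888432615) (nat_lit 1) (nat_lit 4) (nat_lit 2) (nat_lit 5) (nat_lit 2) (nat_lit 4) (nat_lit 349) (nat_lit 224) (nat_lit 147)) (XT.lf (nat_lit 0) (nat_lit 21080123003) (nat_lit 76) (nat_lit 149459456582) (nat_lit 76) (nat_lit 137577537024) (nat_lit 1) (nat_lit 4) (nat_lit 2) (nat_lit 5) (nat_lit 2) (nat_lit 4) (nat_lit 350) (nat_lit 224) (nat_lit 146))))) (XT.nd (nat_lit 312) (nat_lit 0) (nat_lit 0) (XT.nd (nat_lit 156) (nat_lit 0) (nat_lit 0) (XT.nd (nat_lit 78) (nat_lit 0) (nat_lit 0) (XT.lf (nat_lit 0) (nat_lit 26490164569) (nat_lit 76) (nat_lit 154401211770) (nat_lit 76) (nat_lit 142506419443) (nat_lit 1) (nat_lit 4) (nat_lit 2) (nat_lit 5) (nat_lit 2) (nat_lit 4) (nat_lit 351) (nat_lit 224) (nat_lit 145)) (XT.lf (nat_lit 0) (nat_lit 32162074301) (nat_lit 76) (nat_lit 159593867414)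 (nat_lit 76) (nat_lit 147686815306) (nat_lit 1) (nat_lit 4) (nat_lit 2) (nat_lit 5) (nat_lit 2) (nat_lit 4) (nat_lit 352) (nat_lit 224) (nat_lit 144))) (XT.nd (nat_lit 78) (nat_lit 0) (nat_lit 0) (XT.lf (nat_lit 0) (nat_lit 38109356747) (nat_lit 76) (nat_lit 165049786979) (nat_lit 76) (nat_lit 153131058890) (nat_lit 1) (nat_lit 4) (nat_lit 2) (nat_lit 5) (nat_lit 2) (nat_lit 4) (nat_lit 353) (nat_lit 224) (nat_lit 143)) (XT.lf (nat_lit 0) (nat_lit 44346172101) (nat_lit 76) (nat_lit 170781960750) (nat_lit 76) (nat_lit 158852112679) (nat_lit 1) (nat_lit 4) (nat_lit 2) (nat_lit 5) (nat_lit 2) (nat_lit 4) (nat_lit 354) (nat_lit 224) (nat_lit 142)))) (XT.nd (nat_lit 156) (nat_lit 0) (nat_lit 0) (XT.nd (nat_lit 78) (nat_lit 0) (nat_lit 0) (XT.lf (nat_lit 0) (nat_lit 50887369925) (nat_lit 76) (nat_lit 176804036760) (nat_lit 76) (nat_lit 164863598229) (nat_lit 1) (nat_lit 4) (nat_lit 2) (nat_lit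 5) (nat_lit 2) (nat_lit 4) (nat_lit 355) (nat_lit 224) (nat_lit 141)) (XT.lf (nat_lit 0) (nat_lit 57748524500) (nat_lit 76) (nat_lit 183130353285) (nat_lit 76) (nat_lit 171179828602) (nat_lit 1) (nat_lit 4) (nat_lit 2) (nat_lit 5) (nat_lit 2) (nat_lit 4) (nat_lit 356) (nat_lit 224) (nat_lit 140))) (XT.nd (nat_lit 78) (nat_lit 0) (nat_lit 0) (XT.lf (nat_lit 0) (nat_lit 64945971907) (nat_lit 76) (nat_lit 189775972983) (nat_lit 76) (nat_lit 177815842442) (nat_lit 1) (nat_lit 4) (nat_lit 2) (nat_lit 5) (nat_lit 2) (nat_lit 4) (nat_lit 357) (nat_lit 224) (nat_lit 139)) (XT.nd (nat_lit 78) (nat_lit 0) (nat_lit 0) (XT.lf (nat_lit 0) (nat_lit 72496848926) (nat_lit 76) (nat_lit 196756718759) (nat_lit 76) (nat_lit 184787439780) (nat_lit 1) (nat_lit 4) (nat_lit 2) (nat_lit 5) (nat_lit 2) (nat_lit 4) (nat_lit 358) (nat_lit 224) (nat_lit 138)) (XT.lf (nat_lit 0) (nat_lit 80419133836) (nat_lit 76)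 (nat_lit 204089211435) (nat_lit 76) (nat_lit 192111219659) (nat_lit 1) (nat_lit 4) (nat_lit 2) (nat_lit 5) (nat_lit 2) (nat_lit 4) (nat_lit 359) (nat_lit 224) (nat_lit 137))))))) (XT.nd (nat_lit 30966) (nat_lit 0) (nat_lit 912) (XT.nd (nat_lit 30576) (nat_lit 0) (nat_lit 1596) (XT.nd (nat_lit 156) (nat_lit 0) (nat_lit 0) (XT.nd (nat_lit 78) (nat_lit 0) (nat_lit 0) (XT.lf (nat_lit 0) (nat_lit 88731689220) (nat_lit 76) (nat_lit 211790909328) (nat_lit 76) (nat_lit 199804619650) (nat_lit 1) (nat_lit 4) (nat_lit 2) (nat_lit 5) (nat_lit 2) (nat_lit 4) (nat_lit 360) (nat_lit 224) (nat_lit 136)) (XT.lf (nat_lit 0) (nat_lit 97454306876) (nat_lit 76) (nat_lit 219880149813) (nat_lit 76) (nat_lit 207885957372) (nat_lit 1) (nat_lit 4) (nat_lit 2) (nat_lit 5) (nat_lit 2) (nat_lit 4) (nat_lit 361) (nat_lit 224) (nat_lit 135))) (XT.nd (nat_lit 30342) (nat_lit 0) (nat_lit 2280) (XT.lf (nat_lit 0) (nat_lit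 106607754941) (nat_lit 76) (nat_lit 228376192987) (nat_lit 76) (nat_lit 216374474104) (nat_lit 1) (nat_lit 4) (nat_lit 2) (nat_lit 5) (nat_lit 2) (nat_lit 4) (nat_lit 362) (nat_lit 224) (nat_lit 134)) (XT.lf (nat_lit 0) (nat_lit 2452525486) (nat_lit 304) (nat_lit 7173756) (nat_lit 0) (nat_lit 2452525486) (nat_lit 31) (nat_lit 5) (nat_lit 35) (nat_lit 4) (nat_lit 31) (nat_lit 4) (nat_lit 270) (nat_lit 225) (nat_lit 225)))) (XT.nd (nat_lit 156) (nat_lit 228) (nat_lit 0) (XT.nd (nat_lit 78) (nat_lit 228) (nat_lit 0) (XT.lf (nat_lit 0) (nat_lit 5816273315) (nat_lit 228) (nat_lit 2566499335) (nat_lit 228) (nat_lit 1711527690) (nat_lit 28) (nat_lit 4) (nat_lit 31) (nat_lit 5) (nat_lit 31) (nat_lit 4) (nat_lit 271) (nat_lit 225) (nat_lit 224)) (XT.lf (nat_lit 0) (nat_lit 1391481045) (nat_lit 152) (nat_lit 101548905) (nat_lit 228) (nat_lit 8889300262) (nat_lit 25) (nat_lit 5) (nat_lit 27)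 (nat_lit 5) (nat_lit 28) (nat_lit 4) (nat_lit 272) (nat_lit 225) (nat_lit 223))) (XT.nd (nat_lit 78) (nat_lit 228) (nat_lit 0) (XT.lf (nat_lit 0) (nat_lit 4782650078) (nat_lit 228) (nat_lit 3447665217) (nat_lit 0) (nat_lit 2454350231) (nat_lit 25) (nat_lit 5) (nat_lit 28) (nat_lit 4) (nat_lit 25) (nat_lit 4) (nat_lit 273) (nat_lit 225) (nat_lit 222)) (XT.nd (nat_lit 78) (nat_lit 76) (nat_lit 0) (XT.lf (nat_lit 0) (nat_lit 2261052405) (nat_lit 152) (nat_lit 5888751980) (nat_lit 152) (nat_lit 2857064844) (nat_lit 23) (nat_lit 4) (nat_lit 25) (nat_lit 5) (nat_lit 25) (nat_lit 4) (nat_lit 274) (nat_lit 225) (nat_lit 221)) (XT.lf (nat_lit 0) (nat_lit 265425648) (nat_lit 228) (nat_lit 3157457211) (nat_lit 76) (nat_lit 7925592497) (nat_lit 22) (nat_lit 5) (nat_lit 25) (nat_lit 5) (nat_lit 23) (nat_lit 4) (nat_lit 275) (nat_lit 225) (nat_lit 220)))))) (XT.nd (nat_lit 312) (nat_lit 304) (nat_lit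 0) (XT.nd (nat_lit 156) (nat_lit 228) (nat_lit 0) (XT.nd (nat_lit 78) (nat_lit 0) (nat_lit 0) (XT.lf (nat_lit 0) (nat_lit 2570688055) (nat_lit 152) (nat_lit 800170896) (nat_lit 228) (nat_lit 8338168496) (nat_lit 20) (nat_lit 5) (nat_lit 22) (nat_lit 5) (nat_lit 23) (nat_lit 4) (nat_lit 276) (nat_lit 225) (nat_lit 219)) (XT.lf (nat_lit 0) (nat_lit 6601108072) (nat_lit 228) (nat_lit 3598851330) (nat_lit 0) (nat_lit 1889503137) (nat_lit 20) (nat_lit 5) (nat_lit 23) (nat_lit 4) (nat_lit 20) (nat_lit 4) (nat_lit 277) (nat_lit 225) (nat_lit 218))) (XT.nd (nat_lit 78) (nat_lit 76) (nat_lit 0) (XT.lf (nat_lit 0) (nat_lit 2102846136) (nat_lit 152) (nat_lit 7826155354) (nat_lit 152) (nat_lit 2563428073) (nat_lit 18) (nat_lit 4) (nat_lit 20) (nat_lit 5) (nat_lit 20) (nat_lit 4) (nat_lit 278) (nat_lit 225) (nat_lit 217)) (XT.lf (nat_lit 0) (nat_lit 444209041) (nat_lit 228) (nat_lit 4876977170)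 (nat_lit 76) (nat_lit 7596613907) (nat_lit 17) (nat_lit 5) (nat_lit 20) (nat_lit 5) (nat_lit 18) (nat_lit 4) (nat_lit 279) (nat_lit 225) (nat_lit 216)))) (XT.nd (nat_lit 156) (nat_lit 228) (nat_lit 0) (XT.nd (nat_lit 78) (nat_lit 0) (nat_lit 0) (XT.lf (nat_lit 0) (nat_lit 730595173) (nat_lit 76) (nat_lit 2692860968) (nat_lit 152) (nat_lit 9943786717) (nat_lit 16) (nat_lit 5) (nat_lit 17) (nat_lit 5) (nat_lit 18) (nat_lit 4) (nat_lit 280) (nat_lit 225) (nat_lit 215)) (XT.lf (nat_lit 0) (nat_lit 6534189091) (nat_lit 152) (nat_lit 7213409338) (nat_lit 0) (nat_lit 92693736) (nat_lit 16) (nat_lit 5) (nat_lit 18) (nat_lit 4) (nat_lit 16) (nat_lit 4) (nat_lit 281) (nat_lit 225) (nat_lit 214))) (XT.nd (nat_lit 78) (nat_lit 228) (nat_lit 0) (XT.lf (nat_lit 0) (nat_lit 9747014741) (nat_lit 152) (nat_lit 1719198980) (nat_lit 0) (nat_lit 2873700609) (nat_lit 16) (nat_lit 5) (nat_lit 18) (nat_lit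 4) (nat_lit 16) (nat_lit 4) (nat_lit 282) (nat_lit 225) (nat_lit 213)) (XT.nd (nat_lit 78) (nat_lit 76) (nat_lit 0) (XT.lf (nat_lit 0) (nat_lit 4030096194) (nat_lit 152) (nat_lit 9060364474) (nat_lit 152) (nat_lit 1775794362) (nat_lit 14) (nat_lit 4) (nat_lit 16) (nat_lit 5) (nat_lit 16) (nat_lit 4) (nat_lit 283) (nat_lit 225) (nat_lit 212)) (XT.lf (nat_lit 0) (nat_lit 1081416627) (nat_lit 228) (nat_lit 5459338387) (nat_lit 76) (nat_lit 8880594944) (nat_lit 13) (nat_lit 5) (nat_lit 16) (nat_lit 5) (nat_lit 14) (nat_lit 4) (nat_lit 284) (nat_lit 225) (nat_lit 211))))))))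
noncomputable def xc64 : XT := (XT.nd (nat_lit 1326) (nat_lit 152) (nat_lit 0) (XT.nd (nat_lit 624) (nat_lit 228) (nat_lit 0) (XT.nd (nat_lit 312) (nat_lit 304) (nat_lit 0) (XT.nd (nat_lit 156) (nat_lit 0) (nat_lit 0) (XT.nd (nat_lit 78) (nat_lit 0) (nat_lit 0) (XT.lf (nat_lit 0) (nat_lit 15330959) (nat_lit 76) (nat_lit 3918617689) (nat_lit 152) (nat_lit 12073392666) (nat_lit 12) (nat_lit 5) (nat_lit 13) (nat_lit 5) (nat_lit 14) (nat_lit 4) (nat_lit 285) (nat_lit 225) (nat_lit 210)) (XT.lf (nat_lit 0) (nat_lit 5813194558) (nat_lit 76) (nat_lit 1122277005) (nat_lit 152) (nat_lit 9687036926) (nat_lit 12) (nat_lit 5) (nat_lit 13) (nat_lit 5) (nat_lit 14) (nat_lit 4) (nat_lit 286) (nat_lit 225) (nat_lit 209))) (XT.nd (nat_lit 78) (nat_lit 0) (nat_lit 0) (XT.lf (nat_lit 0) (nat_lit 10032595085) (nat_lit 152) (nat_lit 5532689468) (nat_lit 0) (nat_lit 1706058456) (nat_lit 12) (nat_lit 5)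 (nat_lit 14) (nat_lit 4) (nat_lit 12) (nat_lit 4) (nat_lit 287) (nat_lit 225) (nat_lit 208)) (XT.lf (nat_lit 0) (nat_lit 13224120096) (nat_lit 152) (nat_lit 141000355) (nat_lit 0) (nat_lit 4590697923) (nat_lit 12) (nat_lit 5) (nat_lit 14) (nat_lit 4) (nat_lit 12) (nat_lit 4) (nat_lit 288) (nat_lit 225) (nat_lit 207)))) (XT.nd (nat_lit 156) (nat_lit 76) (nat_lit 0) (XT.nd (nat_lit 78) (nat_lit 76) (nat_lit 0) (XT.lf (nat_lit 0) (nat_lit 5574532505) (nat_lit 152) (nat_lit 11012625148) (nat_lit 152) (nat_lit 2086931029) (nat_lit 10) (nat_lit 4) (nat_lit 12) (nat_lit 5) (nat_lit 12) (nat_lit 4) (nat_lit 289) (nat_lit 225) (nat_lit 206)) (XT.lf (nat_lit 0) (nat_lit 595627397) (nat_lit 228) (nat_lit 7983012189) (nat_lit 76) (nat_lit 10852864614) (nat_lit 9) (nat_lit 5) (nat_lit 12) (nat_lit 5) (nat_lit 10) (nat_lit 4) (nat_lit 290) (nat_lit 225) (nat_lit 205))) (XT.nd (nat_lit 78) (nat_lit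 76) (nat_lit 0) (XT.lf (nat_lit 0) (nat_lit 3270952945) (nat_lit 228) (nat_lit 2763694087) (nat_lit 76) (nat_lit 14194139288) (nat_lit 9) (nat_lit 5) (nat_lit 12) (nat_lit 5) (nat_lit 10) (nat_lit 4) (nat_lit 291) (nat_lit 225) (nat_lit 204)) (XT.lf (nat_lit 0) (nat_lit 2689488341) (nat_lit 76) (nat_lit 3364712372) (nat_lit 152) (nat_lit 15013162241) (nat_lit 8) (nat_lit 5) (nat_lit 9) (nat_lit 5) (nat_lit 10) (nat_lit 4) (nat_lit 292) (nat_lit 225) (nat_lit 203))))) (XT.nd (nat_lit 312) (nat_lit 152) (nat_lit 0) (XT.nd (nat_lit 156) (nat_lit 76) (nat_lit 0) (XT.nd (nat_lit 78) (nat_lit 0) (nat_lit 0) (XT.lf (nat_lit 0) (nat_lit 8399922624) (nat_lit 76) (nat_lit 557149863) (nat_lit 152) (nat_lit 12991904474) (nat_lit 8) (nat_lit 5) (nat_lit 9) (nat_lit 5) (nat_lit 10) (nat_lit 4) (nat_lit 293) (nat_lit 225) (nat_lit 202)) (XT.lf (nat_lit 0) (nat_lit 11978561778) (nat_lit 152) (nat_lit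 8624789005) (nat_lit 0) (nat_lit 2272772545) (nat_lit 8) (nat_lit 5) (nat_lit 10) (nat_lit 4) (nat_lit 8) (nat_lit 4) (nat_lit 294) (nat_lit 225) (nat_lit 201))) (XT.nd (nat_lit 78) (nat_lit 76) (nat_lit 0) (XT.lf (nat_lit 0) (nat_lit 15099446739) (nat_lit 152) (nat_lit 3566938309) (nat_lit 0) (nat_lit 5185945291) (nat_lit 8) (nat_lit 5) (nat_lit 10) (nat_lit 4) (nat_lit 8) (nat_lit 4) (nat_lit 295) (nat_lit 225) (nat_lit 200)) (XT.lf (nat_lit 0) (nat_lit 1699637951) (nat_lit 76) (nat_lit 16645357540) (nat_lit 76) (nat_lit 6534034934) (nat_lit 7) (nat_lit 4) (nat_lit 8) (nat_lit 5) (nat_lit 8) (nat_lit 4) (nat_lit 296) (nat_lit 225) (nat_lit 199)))) (XT.nd (nat_lit 156) (nat_lit 152) (nat_lit 0) (XT.nd (nat_lit 78) (nat_lit 0) (nat_lit 0) (XT.lf (nat_lit 0) (nat_lit 7256402845) (nat_lit 76) (nat_lit 14500153954) (nat_lit 76) (nat_lit 4200430245) (nat_lit 7) (nat_lit 4) (nat_lit 8)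 (nat_lit 5) (nat_lit 8) (nat_lit 4) (nat_lit 297) (nat_lit 225) (nat_lit 198)) (XT.lf (nat_lit 0) (nat_lit 12998647675) (nat_lit 76) (nat_lit 12286074491) (nat_lit 76) (nat_lit 1806921160) (nat_lit 7) (nat_lit 4) (nat_lit 8) (nat_lit 5) (nat_lit 8) (nat_lit 4) (nat_lit 298) (nat_lit 225) (nat_lit 197))) (XT.nd (nat_lit 78) (nat_lit 76) (nat_lit 0) (XT.lf (nat_lit 0) (nat_lit 631316962) (nat_lit 152) (nat_lit 9355838912) (nat_lit 76) (nat_lit 18298035832) (nat_lit 6) (nat_lit 5) (nat_lit 8) (nat_lit 5) (nat_lit 7) (nat_lit 4) (nat_lit 299) (nat_lit 225) (nat_lit 196)) (XT.nd (nat_lit 78) (nat_lit 76) (nat_lit 0) (XT.lf (nat_lit 0) (nat_lit 3080893469) (nat_lit 152) (nat_lit 4496955026) (nat_lit 76) (nat_lit 21961669468) (nat_lit 6) (nat_lit 5) (nat_lit 8) (nat_lit 5) (nat_lit 7) (nat_lit 4) (nat_lit 300) (nat_lit 225) (nat_lit 195)) (XT.lf (nat_lit 0) (nat_lit 540743031) (nat_lit 76)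 (nat_lit 5073172931) (nat_lit 152) (nat_lit 25244681060) (nat_lit 5) (nat_lit 5) (nat_lit 6) (nat_lit 5) (nat_lit 7) (nat_lit 4) (nat_lit 301) (nat_lit 225) (nat_lit 194))))))) (XT.nd (nat_lit 624) (nat_lit 76) (nat_lit 0) (XT.nd (nat_lit 312) (nat_lit 76) (nat_lit 0) (XT.nd (nat_lit 156) (nat_lit 0) (nat_lit 0) (XT.nd (nat_lit 78) (nat_lit 0) (nat_lit 0) (XT.lf (nat_lit 0) (nat_lit 5906326445) (nat_lit 76) (nat_lit 2396955668) (nat_lit 152) (nat_lit 23938944101) (nat_lit 5) (nat_lit 5) (nat_lit 6) (nat_lit 5) (nat_lit 7) (nat_lit 4) (nat_lit 302) (nat_lit 225) (nat_lit 193)) (XT.lf (nat_lit 0) (nat_lit 11088812385) (nat_lit 152) (nat_lit 22239394442) (nat_lit 0) (nat_lit 368822203) (nat_lit 5) (nat_lit 5) (nat_lit 7) (nat_lit 4) (nat_lit 5) (nat_lit 4) (nat_lit 303) (nat_lit 225) (nat_lit 192))) (XT.nd (nat_lit 78) (nat_lit 0) (nat_lit 0) (XT.lf (nat_lit 0) (nat_lit 14010291236) (nat_lit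 152) (nat_lit 18051736670) (nat_lit 0) (nat_lit 3162783771) (nat_lit 5) (nat_lit 5) (nat_lit 7) (nat_lit 4) (nat_lit 5) (nat_lit 4) (nat_lit 304) (nat_lit 225) (nat_lit 191)) (XT.lf (nat_lit 0) (nat_lit 17037251372) (nat_lit 152) (nat_lit 13725532644) (nat_lit 0) (nat_lit 6068298876) (nat_lit 5) (nat_lit 5) (nat_lit 7) (nat_lit 4) (nat_lit 5) (nat_lit 4) (nat_lit 305) (nat_lit 225) (nat_lit 190)))) (XT.nd (nat_lit 156) (nat_lit 76) (nat_lit 0) (XT.nd (nat_lit 78) (nat_lit 0) (nat_lit 0) (XT.lf (nat_lit 0) (nat_lit 20176899841) (nat_lit 152) (nat_lit 9250481878) (nat_lit 0) (nat_lit 9092285412) (nat_lit 5) (nat_lit 5) (nat_lit 7) (nat_lit 4) (nat_lit 5) (nat_lit 4) (nat_lit 306) (nat_lit 225) (nat_lit 189)) (XT.lf (nat_lit 0) (nat_lit 23436711996) (nat_lit 152) (nat_lit 4615929488) (nat_lit 0) (nat_lit 12241943344) (nat_lit 5) (nat_lit 5) (nat_lit 7) (nat_lit 4) (nat_lit 5) (nat_lit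 4) (nat_lit 307) (nat_lit 225) (nat_lit 188))) (XT.nd (nat_lit 78) (nat_lit 0) (nat_lit 0) (XT.lf (nat_lit 0) (nat_lit 195413628) (nat_lit 76) (nat_lit 26632086622) (nat_lit 76) (nat_lit 15332409187) (nat_lit 4) (nat_lit 4) (nat_lit 5) (nat_lit 5) (nat_lit 5) (nat_lit 4) (nat_lit 308) (nat_lit 225) (nat_lit 187)) (XT.lf (nat_lit 0) (nat_lit 5347374159) (nat_lit 76) (nat_lit 25084291119) (nat_lit 76) (nat_lit 13684700556) (nat_lit 4) (nat_lit 4) (nat_lit 5) (nat_lit 5) (nat_lit 5) (nat_lit 4) (nat_lit 309) (nat_lit 225) (nat_lit 186))))) (XT.nd (nat_lit 312) (nat_lit 76) (nat_lit 0) (XT.nd (nat_lit 156) (nat_lit 0) (nat_lit 0) (XT.nd (nat_lit 78) (nat_lit 0) (nat_lit 0) (XT.lf (nat_lit 0) (nat_lit 10699595201) (nat_lit 76) (nat_lit 23483742747) (nat_lit 76) (nat_lit 11988996825) (nat_lit 4) (nat_lit 4) (nat_lit 5) (nat_lit 5) (nat_lit 5) (nat_lit 4) (nat_lit 310) (nat_lit 225) (nat_lit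 185)) (XT.lf (nat_lit 0) (nat_lit 16264820139) (nat_lit 76) (nat_lit 21826630677) (nat_lit 76) (nat_lit 10241260603) (nat_lit 4) (nat_lit 4) (nat_lit 5) (nat_lit 5) (nat_lit 5) (nat_lit 4) (nat_lit 311) (nat_lit 225) (nat_lit 184))) (XT.nd (nat_lit 78) (nat_lit 0) (nat_lit 0) (XT.lf (nat_lit 0) (nat_lit 22056299507) (nat_lit 76) (nat_lit 20109009404) (nat_lit 76) (nat_lit 8437330614) (nat_lit 4) (nat_lit 4) (nat_lit 5) (nat_lit 5) (nat_lit 5) (nat_lit 4) (nat_lit 312) (nat_lit 225) (nat_lit 183)) (XT.lf (nat_lit 0) (nat_lit 28087822542) (nat_lit 76) (nat_lit 18326789353) (nat_lit 76) (nat_lit 6572911787) (nat_lit 4) (nat_lit 4) (nat_lit 5) (nat_lit 5) (nat_lit 5) (nat_lit 4) (nat_lit 313) (nat_lit 225) (nat_lit 182)))) (XT.nd (nat_lit 156) (nat_lit 76) (nat_lit 0) (XT.nd (nat_lit 78) (nat_lit 0) (nat_lit 0) (XT.lf (nat_lit 0) (nat_lit 34373750014) (nat_lit 76) (nat_lit 16475727145)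 (nat_lit 76) (nat_lit 4643565028) (nat_lit 4) (nat_lit 4) (nat_lit 5) (nat_lit 5) (nat_lit 5) (nat_lit 4) (nat_lit 314) (nat_lit 225) (nat_lit 181)) (XT.lf (nat_lit 0) (nat_lit 40929048416) (nat_lit 76) (nat_lit 14551415486) (nat_lit 76) (nat_lit 2644696656) (nat_lit 4) (nat_lit 4) (nat_lit 5) (nat_lit 5) (nat_lit 5) (nat_lit 4) (nat_lit 315) (nat_lit 225) (nat_lit 180))) (XT.nd (nat_lit 78) (nat_lit 76) (nat_lit 0) (XT.lf (nat_lit 0) (nat_lit 47769325601) (nat_lit 76) (nat_lit 12549272684) (nat_lit 76) (nat_lit 571547460) (nat_lit 4) (nat_lit 4) (nat_lit 5) (nat_lit 5) (nat_lit 5) (nat_lit 4) (nat_lit 316) (nat_lit 225) (nat_lit 179)) (XT.nd (nat_lit 78) (nat_lit 0) (nat_lit 0) (XT.lf (nat_lit 0) (nat_lit 1530222561) (nat_lit 152) (nat_lit 8908394110) (nat_lit 76) (nat_lit 53354730323) (nat_lit 3) (nat_lit 5) (nat_lit 5) (nat_lit 5) (nat_lit 4) (nat_lit 4) (nat_lit 317) (nat_lit 225)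 (nat_lit 178)) (XT.lf (nat_lit 0) (nat_lit 3695341612) (nat_lit 152) (nat_lit 4534304948) (nat_lit 76) (nat_lit 58612755106) (nat_lit 3) (nat_lit 5) (nat_lit 5) (nat_lit 5) (nat_lit 4) (nat_lit 4) (nat_lit 318) (nat_lit 225) (nat_lit 177))))))))
noncomputable def xc65 : XT := (XT.nd (nat_lit 1326) (nat_lit 76) (nat_lit 0) (XT.nd (nat_lit 624) (nat_lit 0) (nat_lit 0) (XT.nd (nat_lit 312) (nat_lit 0) (nat_lit 0) (XT.nd (nat_lit 156) (nat_lit 0) (nat_lit 0) (XT.nd (nat_lit 78) (nat_lit 0) (nat_lit 0) (XT.lf (nat_lit 0) (nat_lit 21472553) (nat_lit 76) (nat_lit 5926120520) (nat_lit 152) (nat_lit 64097405753) (nat_lit 2) (nat_lit 5) (nat_lit 3) (nat_lit 5) (nat_lit 4) (nat_lit 4) (nat_lit 319) (nat_lit 225) (nat_lit 176)) (XT.lf (nat_lit 0) (nat_lit 4925364504) (nat_lit 76) (nat_lit 3442867148) (nat_lit 152) (nat_lit 65036737441) (nat_lit 2) (nat_lit 5) (nat_lit 3) (nat_lit 5) (nat_lit 4)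 (nat_lit 4) (nat_lit 320) (nat_lit 225) (nat_lit 175))) (XT.nd (nat_lit 78) (nat_lit 0) (nat_lit 0) (XT.lf (nat_lit 0) (nat_lit 10039122238) (nat_lit 76) (nat_lit 850764585) (nat_lit 152) (nat_lit 66044082271) (nat_lit 2) (nat_lit 5) (nat_lit 3) (nat_lit 5) (nat_lit 4) (nat_lit 4) (nat_lit 321) (nat_lit 225) (nat_lit 174)) (XT.lf (nat_lit 0) (nat_lit 13547545493) (nat_lit 152) (nat_lit 65294462808) (nat_lit 0) (nat_lit 1796943764) (nat_lit 2) (nat_lit 5) (nat_lit 4) (nat_lit 4) (nat_lit 2) (nat_lit 4) (nat_lit 322) (nat_lit 225) (nat_lit 173)))) (XT.nd (nat_lit 156) (nat_lit 0) (nat_lit 0) (XT.nd (nat_lit 78) (nat_lit 0) (nat_lit 0) (XT.lf (nat_lit 0) (nat_lit 16333662698) (nat_lit 152) (nat_lit 63660769282) (nat_lit 0) (nat_lit 4535001045) (nat_lit 2) (nat_lit 5) (nat_lit 4) (nat_lit 4) (nat_lit 2) (nat_lit 4) (nat_lit 323) (nat_lit 225) (nat_lit 172)) (XT.lf (nat_lit 0) (nat_lit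 19241589230) (nat_lit 152) (nat_lit 61976593715) (nat_lit 0) (nat_lit 7397156223) (nat_lit 2) (nat_lit 5) (nat_lit 4) (nat_lit 4) (nat_lit 2) (nat_lit 4) (nat_lit 324) (nat_lit 225) (nat_lit 171))) (XT.nd (nat_lit 78) (nat_lit 0) (nat_lit 0) (XT.lf (nat_lit 0) (nat_lit 22278248726) (nat_lit 152) (nat_lit 60237926164) (nat_lit 0) (nat_lit 10390223953) (nat_lit 2) (nat_lit 5) (nat_lit 4) (nat_lit 4) (nat_lit 2) (nat_lit 4) (nat_lit 325) (nat_lit 225) (nat_lit 170)) (XT.lf (nat_lit 0) (nat_lit 25450871326) (nat_lit 152) (nat_lit 58440626945) (nat_lit 0) (nat_lit 13521330585) (nat_lit 2) (nat_lit 5) (nat_lit 4) (nat_lit 4) (nat_lit 2) (nat_lit 4) (nat_lit 326) (nat_lit 225) (nat_lit 169))))) (XT.nd (nat_lit 312) (nat_lit 0) (nat_lit 0) (XT.nd (nat_lit 156) (nat_lit 0) (nat_lit 0) (XT.nd (nat_lit 78) (nat_lit 0) (nat_lit 0) (XT.lf (nat_lit 0) (nat_lit 28767010895) (nat_lit 152) (nat_lit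 56580416773) (nat_lit 0) (nat_lit 16797931136) (nat_lit 2) (nat_lit 5) (nat_lit 4) (nat_lit 4) (nat_lit 2) (nat_lit 4) (nat_lit 327) (nat_lit 225) (nat_lit 168)) (XT.lf (nat_lit 0) (nat_lit 32234563001) (nat_lit 152) (nat_lit 54652866578) (nat_lit 0) (nat_lit 20227827036) (nat_lit 2) (nat_lit 5) (nat_lit 4) (nat_lit 4) (nat_lit 2) (nat_lit 4) (nat_lit 328) (nat_lit 225) (nat_lit 167))) (XT.nd (nat_lit 78) (nat_lit 0) (nat_lit 0) (XT.lf (nat_lit 0) (nat_lit 35861783723) (nat_lit 152) (nat_lit 52653386953) (nat_lit 0) (nat_lit 23819184703) (nat_lit 2) (nat_lit 5) (nat_lit 4) (nat_lit 4) (nat_lit 2) (nat_lit 4) (nat_lit 329) (nat_lit 225) (nat_lit 166)) (XT.lf (nat_lit 0) (nat_lit 39657309299) (nat_lit 152) (nat_lit 50577217233) (nat_lit 0) (nat_lit 27580554989) (nat_lit 2) (nat_lit 5) (nat_lit 4) (nat_lit 4) (nat_lit 2) (nat_lit 4) (nat_lit 330) (nat_lit 225) (nat_lit 165)))) (XT.nd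 (nat_lit 156) (nat_lit 0) (nat_lit 0) (XT.nd (nat_lit 78) (nat_lit 0) (nat_lit 0) (XT.lf (nat_lit 0) (nat_lit 43630176695) (nat_lit 152) (nat_lit 48419414156) (nat_lit 0) (nat_lit 31520893538) (nat_lit 2) (nat_lit 5) (nat_lit 4) (nat_lit 4) (nat_lit 2) (nat_lit 4) (nat_lit 331) (nat_lit 225) (nat_lit 164)) (XT.lf (nat_lit 0) (nat_lit 47789845119) (nat_lit 152) (nat_lit 46174840097) (nat_lit 0) (nat_lit 35649582108) (nat_lit 2) (nat_lit 5) (nat_lit 4) (nat_lit 4) (nat_lit 2) (nat_lit 4) (nat_lit 332) (nat_lit 225) (nat_lit 163))) (XT.nd (nat_lit 78) (nat_lit 0) (nat_lit 0) (XT.lf (nat_lit 0) (nat_lit 52146218545) (nat_lit 152) (nat_lit 43838150831) (nat_lit 0) (nat_lit 39976450910) (nat_lit 2) (nat_lit 5) (nat_lit 4) (nat_lit 4) (nat_lit 2) (nat_lit 4) (nat_lit 333) (nat_lit 225) (nat_lit 162)) (XT.nd (nat_lit 78) (nat_lit 0) (nat_lit 0) (XT.lf (nat_lit 0) (nat_lit 56709669288) (nat_lit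 152) (nat_lit 41403782813) (nat_lit 0) (nat_lit 44511802012) (nat_lit 2) (nat_lit 5) (nat_lit 4) (nat_lit 4) (nat_lit 2) (nat_lit 4) (nat_lit 334) (nat_lit 225) (nat_lit 161)) (XT.lf (nat_lit 0) (nat_lit 61491062709) (nat_lit 152) (nat_lit 38865939928) (nat_lit 0) (nat_lit 49266433870) (nat_lit 2) (nat_lit 5) (nat_lit 4) (nat_lit 4) (nat_lit 2) (nat_lit 4) (nat_lit 335) (nat_lit 225) (nat_lit 160))))))) (XT.nd (nat_lit 702) (nat_lit 76) (nat_lit 0) (XT.nd (nat_lit 312) (nat_lit 0) (nat_lit 0) (XT.nd (nat_lit 156) (nat_lit 0) (nat_lit 0) (XT.nd (nat_lit 78) (nat_lit 0) (nat_lit 0) (XT.lf (nat_lit 0) (nat_lit 66501783078) (nat_lit 152) (nat_lit 36218579693) (nat_lit 0) (nat_lit 54251667036) (nat_lit 2) (nat_lit 5) (nat_lit 4) (nat_lit 4) (nat_lit 2) (nat_lit 4) (nat_lit 336) (nat_lit 225) (nat_lit 159)) (XT.lf (nat_lit 0) (nat_lit 71753760680) (nat_lit 152) (nat_lit 33455398869) (nat_lit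 0) (nat_lit 59479371111) (nat_lit 2) (nat_lit 5) (nat_lit 4) (nat_lit 4) (nat_lit 2) (nat_lit 4) (nat_lit 337) (nat_lit 225) (nat_lit 158))) (XT.nd (nat_lit 78) (nat_lit 0) (nat_lit 0) (XT.lf (nat_lit 0) (nat_lit 77259500225) (nat_lit 152) (nat_lit 30569818455) (nat_lit 0) (nat_lit 64961993012) (nat_lit 2) (nat_lit 5) (nat_lit 4) (nat_lit 4) (nat_lit 2) (nat_lit 4) (nat_lit 338) (nat_lit 225) (nat_lit 157)) (XT.lf (nat_lit 0) (nat_lit 83032110617) (nat_lit 152) (nat_lit 27554968021) (nat_lit 0) (nat_lit 70712586599) (nat_lit 2) (nat_lit 5) (nat_lit 4) (nat_lit 4) (nat_lit 2) (nat_lit 4) (nat_lit 339) (nat_lit 225) (nat_lit 156)))) (XT.nd (nat_lit 156) (nat_lit 0) (nat_lit 0) (XT.nd (nat_lit 78) (nat_lit 0) (nat_lit 0) (XT.lf (nat_lit 0) (nat_lit 89085336165) (nat_lit 152) (nat_lit 24403669351) (nat_lit 0) (nat_lit 76744843762) (nat_lit 2) (nat_lit 5) (nat_lit 4) (nat_lit 4) (nat_lit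 2) (nat_lit 4) (nat_lit 340) (nat_lit 225) (nat_lit 155)) (XT.lf (nat_lit 0) (nat_lit 95433589311) (nat_lit 152) (nat_lit 21108419354) (nat_lit 0) (nat_lit 83073127018) (nat_lit 2) (nat_lit 5) (nat_lit 4) (nat_lit 4) (nat_lit 2) (nat_lit 4) (nat_lit 341) (nat_lit 225) (nat_lit 154))) (XT.nd (nat_lit 78) (nat_lit 0) (nat_lit 0) (XT.lf (nat_lit 0) (nat_lit 102091984945) (nat_lit 152) (nat_lit 17661372196) (nat_lit 0) (nat_lit 89712503708) (nat_lit 2) (nat_lit 5) (nat_lit 4) (nat_lit 4) (nat_lit 2) (nat_lit 4) (nat_lit 342) (nat_lit 225) (nat_lit 153)) (XT.nd (nat_lit 78) (nat_lit 0) (nat_lit 0) (XT.lf (nat_lit 0) (nat_lit 109076376388) (nat_lit 152) (nat_lit 14054320623) (nat_lit 0) (nat_lit 96678781872) (nat_lit 2) (nat_lit 5) (nat_lit 4) (nat_lit 4) (nat_lit 2) (nat_lit 4) (nat_lit 343) (nat_lit 225) (nat_lit 152)) (XT.lf (nat_lit 0) (nat_lit 116403393145) (nat_lit 152) (nat_lit 10278676415)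 (nat_lit 0) (nat_lit 103988547887) (nat_lit 2) (nat_lit 5) (nat_lit 4) (nat_lit 4) (nat_lit 2) (nat_lit 4) (nat_lit 344) (nat_lit 225) (nat_lit 151)))))) (XT.nd (nat_lit 312) (nat_lit 0) (nat_lit 0) (XT.nd (nat_lit 156) (nat_lit 76) (nat_lit 0) (XT.nd (nat_lit 78) (nat_lit 0) (nat_lit 0) (XT.lf (nat_lit 0) (nat_lit 124090480493) (nat_lit 152) (nat_lit 6325449944) (nat_lit 0) (nat_lit 111659205957) (nat_lit 2) (nat_lit 5) (nat_lit 4) (nat_lit 4) (nat_lit 2) (nat_lit 4) (nat_lit 345) (nat_lit 225) (nat_lit 150)) (XT.lf (nat_lit 0) (nat_lit 132155941021) (nat_lit 152) (nat_lit 2185228766) (nat_lit 0) (nat_lit 119709019553) (nat_lit 2) (nat_lit 5) (nat_lit 4) (nat_lit 4) (nat_lit 2) (nat_lit 4) (nat_lit 346) (nat_lit 225) (nat_lit 149))) (XT.nd (nat_lit 78) (nat_lit 0) (nat_lit 0) (XT.lf (nat_lit 0) (nat_lit 2222994494) (nat_lit 76) (nat_lit 138430690887) (nat_lit 76) (nat_lit 125968867579)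 (nat_lit 1) (nat_lit 4) (nat_lit 2) (nat_lit 5) (nat_lit 2) (nat_lit 4) (nat_lit 347) (nat_lit 225) (nat_lit 148)) (XT.lf (nat_lit 0) (nat_lit 6917500294) (nat_lit 76) (nat_lit 142690243411) (nat_lit 76) (nat_lit 130214227874) (nat_lit 1) (nat_lit 4) (nat_lit 2) (nat_lit 5) (nat_lit 2) (nat_lit 4) (nat_lit 348) (nat_lit 225) (nat_lit 147)))) (XT.nd (nat_lit 156) (nat_lit 0) (nat_lit 0) (XT.nd (nat_lit 78) (nat_lit 0) (nat_lit 0) (XT.lf (nat_lit 0) (nat_lit 11837212496) (nat_lit 76) (nat_lit 147166977058) (nat_lit 76) (nat_lit 134677445114) (nat_lit 1) (nat_lit 4) (nat_lit 2) (nat_lit 5) (nat_lit 2) (nat_lit 4) (nat_lit 349) (nat_lit 225) (nat_lit 146)) (XT.lf (nat_lit 0) (nat_lit 16993844699) (nat_lit 76) (nat_lit 151871550719) (nat_lit 76) (nat_lit 139369146006) (nat_lit 1) (nat_lit 4) (nat_lit 2) (nat_lit 5) (nat_lit 2) (nat_lit 4) (nat_lit 350) (nat_lit 225) (nat_lit 145))) (XT.nd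 (nat_lit 78) (nat_lit 0) (nat_lit 0) (XT.lf (nat_lit 0) (nat_lit 22399674601) (nat_lit 76) (nat_lit 156815165760) (nat_lit 76) (nat_lit 144300501265) (nat_lit 1) (nat_lit 4) (nat_lit 2) (nat_lit 5) (nat_lit 2) (nat_lit 4) (nat_lit 351) (nat_lit 225) (nat_lit 144)) (XT.nd (nat_lit 78) (nat_lit 0) (nat_lit 0) (XT.lf (nat_lit 0) (nat_lit 28067573224) (nat_lit 76) (nat_lit 162009592691) (nat_lit 76) (nat_lit 149483252215) (nat_lit 1) (nat_lit 4) (nat_lit 2) (nat_lit 5) (nat_lit 2) (nat_lit 4) (nat_lit 352) (nat_lit 225) (nat_lit 143)) (XT.lf (nat_lit 0) (nat_lit 34011035566) (nat_lit 76) (nat_lit 167467199196) (nat_lit 76) (nat_lit 154929738738) (nat_lit 1) (nat_lit 4) (nat_lit 2) (nat_lit 5) (nat_lit 2) (nat_lit 4) (nat_lit 353) (nat_lit 225) (nat_lit 142))))))))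
noncomputable def xc66 : XT := (XT.nd (nat_lit 31434) (nat_lit 0) (nat_lit 532) (XT.nd (nat_lit 624) (nat_lit 0) (nat_lit 0) (XT.nd (nat_lit 312) (nat_lit 0) (nat_lit 0) (XT.nd (nat_lit 156) (nat_lit 0) (nat_lit 0) (XT.nd (nat_lit 78) (nat_lit 0) (nat_lit 0) (XT.lf (nat_lit 0) (nat_lit 40244212726) (nat_lit 76) (nat_lit 173200979577) (nat_lit 76) (nat_lit 160652928660) (nat_lit 1) (nat_lit 4) (nat_lit 2) (nat_lit 5) (nat_lit 2) (nat_lit 4) (nat_lit 354) (nat_lit 225) (nat_lit 141)) (XT.lf (nat_lit 0) (nat_lit 46781945603) (nat_lit 76) (nat_lit 179224585692) (nat_lit 76) (nat_lit 166666448623) (nat_lit 1) (nat_lit 4) (nat_lit 2) (nat_lit 5) (nat_lit 2) (nat_lit 4) (nat_lit 355) (nat_lit 225) (nat_lit 140))) (XT.nd (nat_lit 78) (nat_lit 0) (nat_lit 0) (XT.lf (nat_lit 0) (nat_lit 53639800229) (nat_lit 76) (nat_lit 185552359459) (nat_lit 76) (nat_lit 172984616531) (nat_lit 1) (nat_lit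 4) (nat_lit 2) (nat_lit 5) (nat_lit 2) (nat_lit 4) (nat_lit 356) (nat_lit 225) (nat_lit 139)) (XT.lf (nat_lit 0) (nat_lit 60834104827) (nat_lit 76) (nat_lit 192199367007) (nat_lit 76) (nat_lit 179622475643) (nat_lit 1) (nat_lit 4) (nat_lit 2) (nat_lit 5) (nat_lit 2) (nat_lit 4) (nat_lit 357) (nat_lit 225) (nat_lit 138)))) (XT.nd (nat_lit 156) (nat_lit 0) (nat_lit 0) (XT.nd (nat_lit 78) (nat_lit 0) (nat_lit 0) (XT.lf (nat_lit 0) (nat_lit 68381988695) (nat_lit 76) (nat_lit 199181434545) (nat_lit 76) (nat_lit 186595830383) (nat_lit 1) (nat_lit 4) (nat_lit 2) (nat_lit 5) (nat_lit 2) (nat_lit 4) (nat_lit 358) (nat_lit 225) (nat_lit 137)) (XT.lf (nat_lit 0) (nat_lit 76301422984) (nat_lit 76) (nat_lit 206515186042) (nat_lit 76) (nat_lit 193921283978) (nat_lit 1) (nat_lit 4) (nat_lit 2) (nat_lit 5) (nat_lit 2) (nat_lit 4) (nat_lit 359) (nat_lit 225) (nat_lit 136))) (XT.nd (nat_lit 78) (nat_lit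 0) (nat_lit 0) (XT.lf (nat_lit 0) (nat_lit 84611263491) (nat_lit 76) (nat_lit 214218082812) (nat_lit 76) (nat_lit 201616277984) (nat_lit 1) (nat_lit 4) (nat_lit 2) (nat_lit 5) (nat_lit 2) (nat_lit 4) (nat_lit 360) (nat_lit 225) (nat_lit 135)) (XT.lf (nat_lit 0) (nat_lit 93331295551) (nat_lit 76) (nat_lit 222308465084) (nat_lit 76) (nat_lit 209699133815) (nat_lit 1) (nat_lit 4) (nat_lit 2) (nat_lit 5) (nat_lit 2) (nat_lit 4) (nat_lit 361) (nat_lit 225) (nat_lit 134))))) (XT.nd (nat_lit 30420) (nat_lit 0) (nat_lit 1596) (XT.nd (nat_lit 30264) (nat_lit 0) (nat_lit 2280) (XT.nd (nat_lit 30186) (nat_lit 0) (nat_lit 2584) (XT.lf (nat_lit 0) (nat_lit 102482281143) (nat_lit 76) (nat_lit 230805595675) (nat_lit 76) (nat_lit 218189096367) (nat_lit 1) (nat_lit 4) (nat_lit 2) (nat_lit 5) (nat_lit 2) (nat_lit 4) (nat_lit 362) (nat_lit 225) (nat_lit 133)) (XT.lf (nat_lit 0) (nat_lit 3868916153) (nat_lit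 228) (nat_lit 397673418) (nat_lit 228) (nat_lit 397673418) (nat_lit 35) (nat_lit 4) (nat_lit 38) (nat_lit 5) (nat_lit 38) (nat_lit 4) (nat_lit 268) (nat_lit 226) (nat_lit 226))) (XT.nd (nat_lit 78) (nat_lit 0) (nat_lit 0) (XT.lf (nat_lit 0) (nat_lit 2449939267) (nat_lit 304) (nat_lit 5567794125) (nat_lit 0) (nat_lit 1552219040) (nat_lit 31) (nat_lit 5) (nat_lit 35) (nat_lit 4) (nat_lit 31) (nat_lit 4) (nat_lit 269) (nat_lit 226) (nat_lit 225)) (XT.lf (nat_lit 0) (nat_lit 5737619894) (nat_lit 304) (nat_lit 105398821) (nat_lit 0) (nat_lit 3984928022) (nat_lit 31) (nat_lit 5) (nat_lit 35) (nat_lit 4) (nat_lit 31) (nat_lit 4) (nat_lit 270) (nat_lit 226) (nat_lit 224)))) (XT.nd (nat_lit 156) (nat_lit 228) (nat_lit 0) (XT.nd (nat_lit 78) (nat_lit 228) (nat_lit 0) (XT.lf (nat_lit 0) (nat_lit 5632628700) (nat_lit 228) (nat_lit 3517796800) (nat_lit 228) (nat_lit 950846218) (nat_lit 28) (nat_lit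 4) (nat_lit 31) (nat_lit 5) (nat_lit 31) (nat_lit 4) (nat_lit 271) (nat_lit 226) (nat_lit 223)) (XT.lf (nat_lit 0) (nat_lit 1091836546) (nat_lit 152) (nat_lit 1071222777) (nat_lit 228) (nat_lit 8229170798) (nat_lit 25) (nat_lit 5) (nat_lit 27) (nat_lit 5) (nat_lit 28) (nat_lit 4) (nat_lit 272) (nat_lit 226) (nat_lit 222))) (XT.nd (nat_lit 78) (nat_lit 228) (nat_lit 0) (XT.lf (nat_lit 0) (nat_lit 5377094793) (nat_lit 228) (nat_lit 3831011071) (nat_lit 0) (nat_lit 1490436013) (nat_lit 25) (nat_lit 5) (nat_lit 28) (nat_lit 4) (nat_lit 25) (nat_lit 4) (nat_lit 273) (nat_lit 226) (nat_lit 221)) (XT.nd (nat_lit 78) (nat_lit 76) (nat_lit 0) (XT.lf (nat_lit 0) (nat_lit 1777525160) (nat_lit 152) (nat_lit 6901607744) (nat_lit 152) (nat_lit 2345056308) (nat_lit 23) (nat_lit 4) (nat_lit 25) (nat_lit 5) (nat_lit 25) (nat_lit 4) (nat_lit 274) (nat_lit 226) (nat_lit 220)) (XT.lf (nat_lit 0) (nat_lit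 703826594) (nat_lit 228) (nat_lit 3751699923) (nat_lit 76) (nat_lit 6912900492) (nat_lit 22) (nat_lit 5) (nat_lit 25) (nat_lit 5) (nat_lit 23) (nat_lit 4) (nat_lit 275) (nat_lit 226) (nat_lit 219))))))) (XT.nd (nat_lit 624) (nat_lit 456) (nat_lit 0) (XT.nd (nat_lit 312) (nat_lit 228) (nat_lit 0) (XT.nd (nat_lit 156) (nat_lit 228) (nat_lit 0) (XT.nd (nat_lit 78) (nat_lit 0) (nat_lit 0) (XT.lf (nat_lit 0) (nat_lit 1872772844) (nat_lit 152) (nat_lit 1871095287) (nat_lit 228) (nat_lit 7988542803) (nat_lit 20) (nat_lit 5) (nat_lit 22) (nat_lit 5) (nat_lit 23) (nat_lit 4) (nat_lit 276) (nat_lit 226) (nat_lit 218)) (XT.lf (nat_lit 0) (nat_lit 6903827836) (nat_lit 228) (nat_lit 4385845337) (nat_lit 0) (nat_lit 826841846) (nat_lit 20) (nat_lit 5) (nat_lit 23) (nat_lit 4) (nat_lit 20) (nat_lit 4) (nat_lit 277) (nat_lit 226) (nat_lit 217))) (XT.nd (nat_lit 78) (nat_lit 76) (nat_lit 0) (XT.lf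 (nat_lit 0) (nat_lit 1208744395) (nat_lit 152) (nat_lit 8957999056) (nat_lit 152) (nat_lit 2356134642) (nat_lit 18) (nat_lit 4) (nat_lit 20) (nat_lit 5) (nat_lit 20) (nat_lit 4) (nat_lit 278) (nat_lit 226) (nat_lit 216)) (XT.lf (nat_lit 0) (nat_lit 594121195) (nat_lit 228) (nat_lit 5883800177) (nat_lit 76) (nat_lit 6472836265) (nat_lit 17) (nat_lit 5) (nat_lit 20) (nat_lit 5) (nat_lit 18) (nat_lit 4) (nat_lit 279) (nat_lit 226) (nat_lit 215)))) (XT.nd (nat_lit 156) (nat_lit 152) (nat_lit 0) (XT.nd (nat_lit 78) (nat_lit 76) (nat_lit 0) (XT.lf (nat_lit 0) (nat_lit 3513631569) (nat_lit 228) (nat_lit 374884113) (nat_lit 76) (nat_lit 9514798655) (nat_lit 17) (nat_lit 5) (nat_lit 20) (nat_lit 5) (nat_lit 18) (nat_lit 4) (nat_lit 280) (nat_lit 226) (nat_lit 214)) (XT.lf (nat_lit 0) (nat_lit 5436519397) (nat_lit 76) (nat_lit 1133118625) (nat_lit 152) (nat_lit 7309583019) (nat_lit 16) (nat_lit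 5) (nat_lit 17) (nat_lit 5) (nat_lit 18) (nat_lit 4) (nat_lit 281) (nat_lit 226) (nat_lit 213))) (XT.nd (nat_lit 78) (nat_lit 152) (nat_lit 0) (XT.lf (nat_lit 0) (nat_lit 9719434905) (nat_lit 152) (nat_lit 3003294738) (nat_lit 0) (nat_lit 1659380307) (nat_lit 16) (nat_lit 5) (nat_lit 18) (nat_lit 4) (nat_lit 16) (nat_lit 4) (nat_lit 282) (nat_lit 226) (nat_lit 212)) (XT.lf (nat_lit 0) (nat_lit 2632217091) (nat_lit 152) (nat_lit 10365660253) (nat_lit 152) (nat_lit 1913933294) (nat_lit 14) (nat_lit 4) (nat_lit 16) (nat_lit 5) (nat_lit 16) (nat_lit 4) (nat_lit 283) (nat_lit 226) (nat_lit 211))))) (XT.nd (nat_lit 312) (nat_lit 304) (nat_lit 0) (XT.nd (nat_lit 156) (nat_lit 76) (nat_lit 0) (XT.nd (nat_lit 78) (nat_lit 0) (nat_lit 0) (XT.lf (nat_lit 0) (nat_lit 904723129) (nat_lit 228) (nat_lit 6970065840) (nat_lit 76) (nat_lit 7594472833) (nat_lit 13) (nat_lit 5) (nat_lit 16) (nat_lit 5)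 (nat_lit 14) (nat_lit 4) (nat_lit 284) (nat_lit 226) (nat_lit 210)) (XT.lf (nat_lit 0) (nat_lit 3716086387) (nat_lit 228) (nat_lit 1562029539) (nat_lit 76) (nat_lit 10779290532) (nat_lit 13) (nat_lit 5) (nat_lit 16) (nat_lit 5) (nat_lit 14) (nat_lit 4) (nat_lit 285) (nat_lit 226) (nat_lit 209))) (XT.nd (nat_lit 78) (nat_lit 0) (nat_lit 0) (XT.lf (nat_lit 0) (nat_lit 4119110762) (nat_lit 76) (nat_lit 2533308119) (nat_lit 152) (nat_lit 10023504618) (nat_lit 12) (nat_lit 5) (nat_lit 13) (nat_lit 5) (nat_lit 14) (nat_lit 4) (nat_lit 286) (nat_lit 226) (nat_lit 208)) (XT.lf (nat_lit 0) (nat_lit 9689047536) (nat_lit 152) (nat_lit 7321752558) (nat_lit 0) (nat_lit 317068710) (nat_lit 12) (nat_lit 5) (nat_lit 14) (nat_lit 4) (nat_lit 12) (nat_lit 4) (nat_lit 287) (nat_lit 226) (nat_lit 207)))) (XT.nd (nat_lit 156) (nat_lit 152) (nat_lit 0) (XT.nd (nat_lit 78) (nat_lit 152) (nat_lit 0) (XT.lf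 (nat_lit 0) (nat_lit 12843939484) (nat_lit 152) (nat_lit 1990629573) (nat_lit 0) (nat_lit 3179688712) (nat_lit 12) (nat_lit 5) (nat_lit 14) (nat_lit 4) (nat_lit 12) (nat_lit 4) (nat_lit 288) (nat_lit 226) (nat_lit 206)) (XT.lf (nat_lit 0) (nat_lit 3604156936) (nat_lit 152) (nat_lit 12537168388) (nat_lit 152) (nat_lit 2594563381) (nat_lit 10) (nat_lit 4) (nat_lit 12) (nat_lit 5) (nat_lit 12) (nat_lit 4) (nat_lit 289) (nat_lit 226) (nat_lit 205))) (XT.nd (nat_lit 78) (nat_lit 76) (nat_lit 0) (XT.lf (nat_lit 0) (nat_lit 69497946) (nat_lit 228) (nat_lit 10065233487) (nat_lit 76) (nat_lit 9360777081) (nat_lit 9) (nat_lit 5) (nat_lit 12) (nat_lit 5) (nat_lit 10) (nat_lit 4) (nat_lit 290) (nat_lit 226) (nat_lit 204)) (XT.nd (nat_lit 78) (nat_lit 76) (nat_lit 0) (XT.lf (nat_lit 0) (nat_lit 2711733491) (nat_lit 228) (nat_lit 4901126117) (nat_lit 76) (nat_lit 12681652944) (nat_lit 9) (nat_lit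 5) (nat_lit 12) (nat_lit 5) (nat_lit 10) (nat_lit 4) (nat_lit 291) (nat_lit 226) (nat_lit 203)) (XT.lf (nat_lit 0) (nat_lit 427062919) (nat_lit 76) (nat_lit 5001081250) (nat_lit 152) (nat_lit 15708351077) (nat_lit 8) (nat_lit 5) (nat_lit 9) (nat_lit 5) (nat_lit 10) (nat_lit 4) (nat_lit 292) (nat_lit 226) (nat_lit 202))))))))
noncomputable def xc67 : XT := (XT.nd (nat_lit 1326) (nat_lit 152) (nat_lit 0) (XT.nd (nat_lit 624) (nat_lit 152) (nat_lit 0) (XT.nd (nat_lit 312) (nat_lit 152) (nat_lit 0) (XT.nd (nat_lit 156) (nat_lit 0) (nat_lit 0) (XT.nd (nat_lit 78) (nat_lit 0) (nat_lit 0) (XT.lf (nat_lit 0) (nat_lit 6085763643) (nat_lit 76) (nat_lit 2214430985) (nat_lit 152) (nat_lit 13719516840) (nat_lit 8) (nat_lit 5) (nat_lit 9) (nat_lit 5) (nat_lit 10) (nat_lit 4) (nat_lit 293) (nat_lit 226) (nat_lit 201)) (XT.lf (nat_lit 0) (nat_lit 11266144532) (nat_lit 152) (nat_lit 11034292714) (nat_lit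 0) (nat_lit 649255796) (nat_lit 8) (nat_lit 5) (nat_lit 10) (nat_lit 4) (nat_lit 8) (nat_lit 4) (nat_lit 294) (nat_lit 226) (nat_lit 200))) (XT.nd (nat_lit 78) (nat_lit 0) (nat_lit 0) (XT.lf (nat_lit 0) (nat_lit 14358777508) (nat_lit 152) (nat_lit 6024522993) (nat_lit 0) (nat_lit 3544067614) (nat_lit 8) (nat_lit 5) (nat_lit 10) (nat_lit 4) (nat_lit 8) (nat_lit 4) (nat_lit 295) (nat_lit 226) (nat_lit 199)) (XT.lf (nat_lit 0) (nat_lit 17550883497) (nat_lit 152) (nat_lit 858137165) (nat_lit 0) (nat_lit 6547772500) (nat_lit 8) (nat_lit 5) (nat_lit 10) (nat_lit 4) (nat_lit 8) (nat_lit 4) (nat_lit 296) (nat_lit 226) (nat_lit 198)))) (XT.nd (nat_lit 156) (nat_lit 76) (nat_lit 0) (XT.nd (nat_lit 78) (nat_lit 0) (nat_lit 0) (XT.lf (nat_lit 0) (nat_lit 4625201004) (nat_lit 76) (nat_lit 16297074094) (nat_lit 76) (nat_lit 5114533476) (nat_lit 7) (nat_lit 4) (nat_lit 8) (nat_lit 5) (nat_lit 8)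 (nat_lit 4) (nat_lit 297) (nat_lit 226) (nat_lit 197)) (XT.lf (nat_lit 0) (nat_lit 10324538374) (nat_lit 76) (nat_lit 14100827059) (nat_lit 76) (nat_lit 2747401087) (nat_lit 7) (nat_lit 4) (nat_lit 8) (nat_lit 5) (nat_lit 8) (nat_lit 4) (nat_lit 298) (nat_lit 226) (nat_lit 196))) (XT.nd (nat_lit 78) (nat_lit 76) (nat_lit 0) (XT.lf (nat_lit 0) (nat_lit 16225070903) (nat_lit 76) (nat_lit 11829583365) (nat_lit 76) (nat_lit 313409436) (nat_lit 7) (nat_lit 4) (nat_lit 8) (nat_lit 5) (nat_lit 8) (nat_lit 4) (nat_lit 299) (nat_lit 226) (nat_lit 195)) (XT.lf (nat_lit 0) (nat_lit 2123039421) (nat_lit 152) (nat_lit 7318941168) (nat_lit 76) (nat_lit 20181853358) (nat_lit 6) (nat_lit 5) (nat_lit 8) (nat_lit 5) (nat_lit 7) (nat_lit 4) (nat_lit 300) (nat_lit 226) (nat_lit 194))))) (XT.nd (nat_lit 312) (nat_lit 76) (nat_lit 0) (XT.nd (nat_lit 156) (nat_lit 0) (nat_lit 0) (XT.nd (nat_lit 78) (nat_lit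 76) (nat_lit 0) (XT.lf (nat_lit 0) (nat_lit 4625563487) (nat_lit 152) (nat_lit 2336384026) (nat_lit 76) (nat_lit 23982529831) (nat_lit 6) (nat_lit 5) (nat_lit 8) (nat_lit 5) (nat_lit 7) (nat_lit 4) (nat_lit 301) (nat_lit 226) (nat_lit 193)) (XT.lf (nat_lit 0) (nat_lit 2914724438) (nat_lit 76) (nat_lit 4340934789) (nat_lit 152) (nat_lit 25075448368) (nat_lit 5) (nat_lit 5) (nat_lit 6) (nat_lit 5) (nat_lit 7) (nat_lit 4) (nat_lit 302) (nat_lit 226) (nat_lit 192))) (XT.nd (nat_lit 78) (nat_lit 0) (nat_lit 0) (XT.lf (nat_lit 0) (nat_lit 8436827773) (nat_lit 76) (nat_lit 1577854128) (nat_lit 152) (nat_lit 23772589643) (nat_lit 5) (nat_lit 5) (nat_lit 6) (nat_lit 5) (nat_lit 7) (nat_lit 4) (nat_lit 303) (nat_lit 226) (nat_lit 191)) (XT.lf (nat_lit 0) (nat_lit 12891724731) (nat_lit 152) (nat_lit 21172705731) (nat_lit 0) (nat_lit 1252879581) (nat_lit 5) (nat_lit 5) (nat_lit 7) (nat_lit 4)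 (nat_lit 5) (nat_lit 4) (nat_lit 304) (nat_lit 226) (nat_lit 190)))) (XT.nd (nat_lit 156) (nat_lit 76) (nat_lit 0) (XT.nd (nat_lit 78) (nat_lit 0) (nat_lit 0) (XT.lf (nat_lit 0) (nat_lit 15899826489) (nat_lit 152) (nat_lit 16879410710) (nat_lit 0) (nat_lit 4145319405) (nat_lit 5) (nat_lit 5) (nat_lit 7) (nat_lit 4) (nat_lit 5) (nat_lit 4) (nat_lit 305) (nat_lit 226) (nat_lit 189)) (XT.lf (nat_lit 0) (nat_lit 19021514599) (nat_lit 152) (nat_lit 12435701854) (nat_lit 0) (nat_lit 7156853292) (nat_lit 5) (nat_lit 5) (nat_lit 7) (nat_lit 4) (nat_lit 5) (nat_lit 4) (nat_lit 306) (nat_lit 226) (nat_lit 188))) (XT.nd (nat_lit 78) (nat_lit 76) (nat_lit 0) (XT.lf (nat_lit 0) (nat_lit 22264221651) (nat_lit 152) (nat_lit 7830998903) (nat_lit 0) (nat_lit 10294651560) (nat_lit 5) (nat_lit 5) (nat_lit 7) (nat_lit 4) (nat_lit 5) (nat_lit 4) (nat_lit 307) (nat_lit 226) (nat_lit 187)) (XT.nd (nat_lit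 78) (nat_lit 76) (nat_lit 0) (XT.lf (nat_lit 0) (nat_lit 25635668375) (nat_lit 152) (nat_lit 3054338278) (nat_lit 0) (nat_lit 13566185157) (nat_lit 5) (nat_lit 5) (nat_lit 7) (nat_lit 4) (nat_lit 5) (nat_lit 4) (nat_lit 308) (nat_lit 226) (nat_lit 186)) (XT.lf (nat_lit 0) (nat_lit 1968662515) (nat_lit 76) (nat_lit 27205955850) (nat_lit 76) (nat_lit 15041317273) (nat_lit 4) (nat_lit 4) (nat_lit 5) (nat_lit 5) (nat_lit 5) (nat_lit 4) (nat_lit 309) (nat_lit 226) (nat_lit 185))))))) (XT.nd (nat_lit 702) (nat_lit 76) (nat_lit 0) (XT.nd (nat_lit 312) (nat_lit 76) (nat_lit 0) (XT.nd (nat_lit 156) (nat_lit 0) (nat_lit 0) (XT.nd (nat_lit 78) (nat_lit 0) (nat_lit 0) (XT.lf (nat_lit 0) (nat_lit 7294245920) (nat_lit 76) (nat_lit 25616853196) (nat_lit 76) (nat_lit 13361590466) (nat_lit 4) (nat_lit 4) (nat_lit 5) (nat_lit 5) (nat_lit 5) (nat_lit 4) (nat_lit 310) (nat_lit 226) (nat_lit 184)) (XT.lf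 (nat_lit 0) (nat_lit 12834101679) (nat_lit 76) (nat_lit 23970641809) (nat_lit 76) (nat_lit 11629070364) (nat_lit 4) (nat_lit 4) (nat_lit 5) (nat_lit 5) (nat_lit 5) (nat_lit 4) (nat_lit 311) (nat_lit 226) (nat_lit 183))) (XT.nd (nat_lit 78) (nat_lit 0) (nat_lit 0) (XT.lf (nat_lit 0) (nat_lit 18601419924) (nat_lit 76) (nat_lit 22263402139) (nat_lit 76) (nat_lit 9839631917) (nat_lit 4) (nat_lit 4) (nat_lit 5) (nat_lit 5) (nat_lit 5) (nat_lit 4) (nat_lit 312) (nat_lit 226) (nat_lit 182)) (XT.lf (nat_lit 0) (nat_lit 24609932367) (nat_lit 76) (nat_lit 20491069329) (nat_lit 76) (nat_lit 7989014558) (nat_lit 4) (nat_lit 4) (nat_lit 5) (nat_lit 5) (nat_lit 5) (nat_lit 4) (nat_lit 313) (nat_lit 226) (nat_lit 181)))) (XT.nd (nat_lit 156) (nat_lit 76) (nat_lit 0) (XT.nd (nat_lit 78) (nat_lit 0) (nat_lit 0) (XT.lf (nat_lit 0) (nat_lit 30873944988) (nat_lit 76) (nat_lit 18649423541) (nat_lit 76)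 (nat_lit 6072812055) (nat_lit 4) (nat_lit 4) (nat_lit 5) (nat_lit 5) (nat_lit 5) (nat_lit 4) (nat_lit 314) (nat_lit 226) (nat_lit 180)) (XT.lf (nat_lit 0) (nat_lit 37408372103) (nat_lit 76) (nat_lit 16734079901) (nat_lit 76) (nat_lit 4086462021) (nat_lit 4) (nat_lit 4) (nat_lit 5) (nat_lit 5) (nat_lit 5) (nat_lit 4) (nat_lit 315) (nat_lit 226) (nat_lit 179))) (XT.nd (nat_lit 78) (nat_lit 76) (nat_lit 0) (XT.lf (nat_lit 0) (nat_lit 44228771873) (nat_lit 76) (nat_lit 14740478070) (nat_lit 76) (nat_lit 2025235052) (nat_lit 4) (nat_lit 4) (nat_lit 5) (nat_lit 5) (nat_lit 5) (nat_lit 4) (nat_lit 316) (nat_lit 226) (nat_lit 178)) (XT.nd (nat_lit 78) (nat_lit 0) (nat_lit 0) (XT.lf (nat_lit 0) (nat_lit 112070962) (nat_lit 152) (nat_lit 12549902436) (nat_lit 76) (nat_lit 51237414406) (nat_lit 3) (nat_lit 5) (nat_lit 5) (nat_lit 5) (nat_lit 4) (nat_lit 4) (nat_lit 317) (nat_lit 226) (nat_lit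 177)) (XT.lf (nat_lit 0) (nat_lit 2266722311) (nat_lit 152) (nat_lit 8194205163) (nat_lit 76) (nat_lit 56488054765) (nat_lit 3) (nat_lit 5) (nat_lit 5) (nat_lit 5) (nat_lit 4) (nat_lit 4) (nat_lit 318) (nat_lit 226) (nat_lit 176)))))) (XT.nd (nat_lit 312) (nat_lit 0) (nat_lit 0) (XT.nd (nat_lit 156) (nat_lit 0) (nat_lit 0) (XT.nd (nat_lit 78) (nat_lit 76) (nat_lit 0) (XT.lf (nat_lit 0) (nat_lit 4508669285) (nat_lit 152) (nat_lit 3656631002) (nat_lit 76) (nat_lit 61986809934) (nat_lit 3) (nat_lit 5) (nat_lit 5) (nat_lit 5) (nat_lit 4) (nat_lit 4) (nat_lit 319) (nat_lit 226) (nat_lit 175)) (XT.lf (nat_lit 0) (nat_lit 1109122645) (nat_lit 76) (nat_lit 5751443721) (nat_lit 152) (nat_lit 66654966054) (nat_lit 2) (nat_lit 5) (nat_lit 3) (nat_lit 5) (nat_lit 4) (nat_lit 4) (nat_lit 320) (nat_lit 226) (nat_lit 174))) (XT.nd (nat_lit 78) (nat_lit 0) (nat_lit 0) (XT.lf (nat_lit 0) (nat_lit 6206467457)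 (nat_lit 76) (nat_lit 3166455434) (nat_lit 152) (nat_lit 67672088612) (nat_lit 2) (nat_lit 5) (nat_lit 3) (nat_lit 5) (nat_lit 4) (nat_lit 4) (nat_lit 321) (nat_lit 226) (nat_lit 173)) (XT.lf (nat_lit 0) (nat_lit 11526635234) (nat_lit 76) (nat_lit 466107509) (nat_lit 152) (nat_lit 68759157145) (nat_lit 2) (nat_lit 5) (nat_lit 3) (nat_lit 5) (nat_lit 4) (nat_lit 4) (nat_lit 322) (nat_lit 226) (nat_lit 172)))) (XT.nd (nat_lit 156) (nat_lit 0) (nat_lit 0) (XT.nd (nat_lit 78) (nat_lit 0) (nat_lit 0) (XT.lf (nat_lit 0) (nat_lit 14763047809) (nat_lit 152) (nat_lit 67599514682) (nat_lit 0) (nat_lit 2280621797) (nat_lit 2) (nat_lit 5) (nat_lit 4) (nat_lit 4) (nat_lit 2) (nat_lit 4) (nat_lit 323) (nat_lit 226) (nat_lit 171)) (XT.lf (nat_lit 0) (nat_lit 17662845872) (nat_lit 152) (nat_lit 65929835112) (nat_lit 0) (nat_lit 5136828094) (nat_lit 2) (nat_lit 5) (nat_lit 4) (nat_lit 4) (nat_lit 2)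 (nat_lit 4) (nat_lit 324) (nat_lit 226) (nat_lit 170))) (XT.nd (nat_lit 78) (nat_lit 0) (nat_lit 0) (XT.lf (nat_lit 0) (nat_lit 20691763968) (nat_lit 152) (nat_lit 64204973273) (nat_lit 0) (nat_lit 8124230221) (nat_lit 2) (nat_lit 5) (nat_lit 4) (nat_lit 4) (nat_lit 2) (nat_lit 4) (nat_lit 325) (nat_lit 226) (nat_lit 169)) (XT.nd (nat_lit 78) (nat_lit 0) (nat_lit 0) (XT.lf (nat_lit 0) (nat_lit 23857013806) (nat_lit 152) (nat_lit 62420822351) (nat_lit 0) (nat_lit 11249941042) (nat_lit 2) (nat_lit 5) (nat_lit 4) (nat_lit 4) (nat_lit 2) (nat_lit 4) (nat_lit 326) (nat_lit 226) (nat_lit 168)) (XT.lf (nat_lit 0) (nat_lit 27166131696) (nat_lit 152) (nat_lit 60573134367) (nat_lit 0) (nat_lit 14521402726) (nat_lit 2) (nat_lit 5) (nat_lit 4) (nat_lit 4) (nat_lit 2) (nat_lit 4) (nat_lit 327) (nat_lit 226) (nat_lit 167))))))))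
noncomputable def xc68 : XT := (XT.nd (nat_lit 1326) (nat_lit 76) (nat_lit 0) (XT.nd (nat_lit 624) (nat_lit 0) (nat_lit 0) (XT.nd (nat_lit 312) (nat_lit 0) (nat_lit 0) (XT.nd (nat_lit 156) (nat_lit 0) (nat_lit 0) (XT.nd (nat_lit 78) (nat_lit 0) (nat_lit 0) (XT.lf (nat_lit 0) (nat_lit 30626996490) (nat_lit 152) (nat_lit 58657510064) (nat_lit 0) (nat_lit 17946404465) (nat_lit 2) (nat_lit 5) (nat_lit 4) (nat_lit 4) (nat_lit 2) (nat_lit 4) (nat_lit 328) (nat_lit 226) (nat_lit 166)) (XT.lf (nat_lit 0) (nat_lit 34247848343) (nat_lit 152) (nat_lit 56669388432) (nat_lit 0) (nat_lit 21533101028) (nat_lit 2) (nat_lit 5) (nat_lit 4) (nat_lit 4) (nat_lit 2) (nat_lit 4) (nat_lit 329) (nat_lit 226) (nat_lit 165))) (XT.nd (nat_lit 78) (nat_lit 0) (nat_lit 0) (XT.lf (nat_lit 0) (nat_lit 38037308329) (nat_lit 152) (nat_lit 54604035849) (nat_lit 0) (nat_lit 25290032167) (nat_lit 2) (nat_lit 5) (nat_lit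 4) (nat_lit 4) (nat_lit 2) (nat_lit 4) (nat_lit 330) (nat_lit 226) (nat_lit 164)) (XT.lf (nat_lit 0) (nat_lit 42004398973) (nat_lit 152) (nat_lit 52456534807) (nat_lit 0) (nat_lit 29226142957) (nat_lit 2) (nat_lit 5) (nat_lit 4) (nat_lit 4) (nat_lit 2) (nat_lit 4) (nat_lit 331) (nat_lit 226) (nat_lit 163)))) (XT.nd (nat_lit 156) (nat_lit 0) (nat_lit 0) (XT.nd (nat_lit 78) (nat_lit 0) (nat_lit 0) (XT.lf (nat_lit 0) (nat_lit 46158565729) (nat_lit 152) (nat_lit 50221772210) (nat_lit 0) (nat_lit 33350805089) (nat_lit 2) (nat_lit 5) (nat_lit 4) (nat_lit 4) (nat_lit 2) (nat_lit 4) (nat_lit 332) (nat_lit 226) (nat_lit 162)) (XT.lf (nat_lit 0) (nat_lit 50509699470) (nat_lit 152) (nat_lit 47894427193) (nat_lit 0) (nat_lit 37673839189) (nat_lit 2) (nat_lit 5) (nat_lit 4) (nat_lit 4) (nat_lit 2) (nat_lit 4) (nat_lit 333) (nat_lit 226) (nat_lit 161))) (XT.nd (nat_lit 78) (nat_lit 0) (nat_lit 0)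 (XT.lf (nat_lit 0) (nat_lit 55068160039) (nat_lit 152) (nat_lit 45468958460) (nat_lit 0) (nat_lit 42205538194) (nat_lit 2) (nat_lit 5) (nat_lit 4) (nat_lit 4) (nat_lit 2) (nat_lit 4) (nat_lit 334) (nat_lit 226) (nat_lit 160)) (XT.lf (nat_lit 0) (nat_lit 59844800912) (nat_lit 152) (nat_lit 42939591084) (nat_lit 0) (nat_lit 46956691864) (nat_lit 2) (nat_lit 5) (nat_lit 4) (nat_lit 4) (nat_lit 2) (nat_lit 4) (nat_lit 335) (nat_lit 226) (nat_lit 159))))) (XT.nd (nat_lit 312) (nat_lit 0) (nat_lit 0) (XT.nd (nat_lit 156) (nat_lit 0) (nat_lit 0) (XT.nd (nat_lit 78) (nat_lit 0) (nat_lit 0) (XT.lf (nat_lit 0) (nat_lit 64850995044) (nat_lit 152) (nat_lit 40300302763) (nat_lit 0) (nat_lit 51938612470) (nat_lit 2) (nat_lit 5) (nat_lit 4) (nat_lit 4) (nat_lit 2) (nat_lit 4) (nat_lit 336) (nat_lit 226) (nat_lit 158)) (XT.lf (nat_lit 0) (nat_lit 70098661945) (nat_lit 152) (nat_lit 37544809476) (nat_lit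 0) (nat_lit 57163161726) (nat_lit 2) (nat_lit 5) (nat_lit 4) (nat_lit 4) (nat_lit 2) (nat_lit 4) (nat_lit 337) (nat_lit 226) (nat_lit 157))) (XT.nd (nat_lit 78) (nat_lit 0) (nat_lit 0) (XT.lf (nat_lit 0) (nat_lit 75600296060) (nat_lit 152) (nat_lit 34666550526) (nat_lit 0) (nat_lit 62642779037) (nat_lit 2) (nat_lit 5) (nat_lit 4) (nat_lit 4) (nat_lit 2) (nat_lit 4) (nat_lit 338) (nat_lit 226) (nat_lit 156)) (XT.lf (nat_lit 0) (nat_lit 81368996519) (nat_lit 152) (nat_lit 31658672914) (nat_lit 0) (nat_lit 68390511111) (nat_lit 2) (nat_lit 5) (nat_lit 4) (nat_lit 4) (nat_lit 2) (nat_lit 4) (nat_lit 339) (nat_lit 226) (nat_lit 155)))) (XT.nd (nat_lit 156) (nat_lit 0) (nat_lit 0) (XT.nd (nat_lit 78) (nat_lit 0) (nat_lit 0) (XT.lf (nat_lit 0) (nat_lit 87418498321) (nat_lit 152) (nat_lit 28514015028) (nat_lit 0) (nat_lit 74420043022) (nat_lit 2) (nat_lit 5) (nat_lit 4) (nat_lit 4) (nat_lit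 2) (nat_lit 4) (nat_lit 340) (nat_lit 226) (nat_lit 154)) (XT.lf (nat_lit 0) (nat_lit 93763205043) (nat_lit 152) (nat_lit 25225089586) (nat_lit 0) (nat_lit 80745730801) (nat_lit 2) (nat_lit 5) (nat_lit 4) (nat_lit 4) (nat_lit 2) (nat_lit 4) (nat_lit 341) (nat_lit 226) (nat_lit 153))) (XT.nd (nat_lit 78) (nat_lit 0) (nat_lit 0) (XT.lf (nat_lit 0) (nat_lit 100418223129) (nat_lit 152) (nat_lit 21784065815) (nat_lit 0) (nat_lit 87382635608) (nat_lit 2) (nat_lit 5) (nat_lit 4) (nat_lit 4) (nat_lit 2) (nat_lit 4) (nat_lit 342) (nat_lit 226) (nat_lit 152)) (XT.nd (nat_lit 78) (nat_lit 0) (nat_lit 0) (XT.lf (nat_lit 0) (nat_lit 107399397861) (nat_lit 152) (nat_lit 18182750799) (nat_lit 0) (nat_lit 94346559598) (nat_lit 2) (nat_lit 5) (nat_lit 4) (nat_lit 4) (nat_lit 2) (nat_lit 4) (nat_lit 343) (nat_lit 226) (nat_lit 151)) (XT.lf (nat_lit 0) (nat_lit 114723351083) (nat_lit 152) (nat_lit 14412569980)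 (nat_lit 0) (nat_lit 101654083541) (nat_lit 2) (nat_lit 5) (nat_lit 4) (nat_lit 4) (nat_lit 2) (nat_lit 4) (nat_lit 344) (nat_lit 226) (nat_lit 150))))))) (XT.nd (nat_lit 624) (nat_lit 0) (nat_lit 0) (XT.nd (nat_lit 312) (nat_lit 0) (nat_lit 0) (XT.nd (nat_lit 156) (nat_lit 76) (nat_lit 0) (XT.nd (nat_lit 78) (nat_lit 0) (nat_lit 0) (XT.lf (nat_lit 0) (nat_lit 122407520778) (nat_lit 152) (nat_lit 10464546737) (nat_lit 0) (nat_lit 109322606305) (nat_lit 2) (nat_lit 5) (nat_lit 4) (nat_lit 4) (nat_lit 2) (nat_lit 4) (nat_lit 345) (nat_lit 226) (nat_lit 149)) (XT.lf (nat_lit 0) (nat_lit 130470202590) (nat_lit 152) (nat_lit 6329281014) (nat_lit 0) (nat_lit 117370386277) (nat_lit 2) (nat_lit 5) (nat_lit 4) (nat_lit 4) (nat_lit 2) (nat_lit 4) (nat_lit 346) (nat_lit 226) (nat_lit 148))) (XT.nd (nat_lit 78) (nat_lit 76) (nat_lit 0) (XT.lf (nat_lit 0) (nat_lit 138930593380) (nat_lit 152) (nat_lit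 1996926940) (nat_lit 0) (nat_lit 125816584838) (nat_lit 2) (nat_lit 5) (nat_lit 4) (nat_lit 4) (nat_lit 2) (nat_lit 4) (nat_lit 347) (nat_lit 226) (nat_lit 147)) (XT.lf (nat_lit 0) (nat_lit 2626908075) (nat_lit 76) (nat_lit 145222942255) (nat_lit 76) (nat_lit 132095417306) (nat_lit 1) (nat_lit 4) (nat_lit 2) (nat_lit 5) (nat_lit 2) (nat_lit 4) (nat_lit 348) (nat_lit 226) (nat_lit 146)))) (XT.nd (nat_lit 156) (nat_lit 0) (nat_lit 0) (XT.nd (nat_lit 78) (nat_lit 0) (nat_lit 0) (XT.lf (nat_lit 0) (nat_lit 7542198029) (nat_lit 76) (nat_lit 149701628747) (nat_lit 76) (nat_lit 136561231028) (nat_lit 1) (nat_lit 4) (nat_lit 2) (nat_lit 5) (nat_lit 2) (nat_lit 4) (nat_lit 349) (nat_lit 226) (nat_lit 145)) (XT.lf (nat_lit 0) (nat_lit 12694618568) (nat_lit 76) (nat_lit 154408062260) (nat_lit 76) (nat_lit 141255404761) (nat_lit 1) (nat_lit 4) (nat_lit 2) (nat_lit 5) (nat_lit 2) (nat_lit 4) (nat_lit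 350) (nat_lit 226) (nat_lit 144))) (XT.nd (nat_lit 78) (nat_lit 0) (nat_lit 0) (XT.lf (nat_lit 0) (nat_lit 18096437361) (nat_lit 76) (nat_lit 159353448587) (nat_lit 76) (nat_lit 146189115107) (nat_lit 1) (nat_lit 4) (nat_lit 2) (nat_lit 5) (nat_lit 2) (nat_lit 4) (nat_lit 351) (nat_lit 226) (nat_lit 143)) (XT.lf (nat_lit 0) (nat_lit 23760515880) (nat_lit 76) (nat_lit 164549562459) (nat_lit 76) (nat_lit 151374108996) (nat_lit 1) (nat_lit 4) (nat_lit 2) (nat_lit 5) (nat_lit 2) (nat_lit 4) (nat_lit 352) (nat_lit 226) (nat_lit 142))))) (XT.nd (nat_lit 312) (nat_lit 0) (nat_lit 0) (XT.nd (nat_lit 156) (nat_lit 0) (nat_lit 0) (XT.nd (nat_lit 78) (nat_lit 0) (nat_lit 0) (XT.lf (nat_lit 0) (nat_lit 29700340028) (nat_lit 76) (nat_lit 170008775574) (nat_lit 76) (nat_lit 156822731652) (nat_lit 1) (nat_lit 4) (nat_lit 2) (nat_lit 5) (nat_lit 2) (nat_lit 4) (nat_lit 353) (nat_lit 226) (nat_lit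 141)) (XT.lf (nat_lit 0) (nat_lit 35930052241) (nat_lit 76) (nat_lit 175744086060) (nat_lit 76) (nat_lit 162547955986) (nat_lit 1) (nat_lit 4) (nat_lit 2) (nat_lit 5) (nat_lit 2) (nat_lit 4) (nat_lit 354) (nat_lit 226) (nat_lit 140))) (XT.nd (nat_lit 78) (nat_lit 0) (nat_lit 0) (XT.lf (nat_lit 0) (nat_lit 42464485169) (nat_lit 76) (nat_lit 181769149417) (nat_lit 76) (nat_lit 168563413484) (nat_lit 1) (nat_lit 4) (nat_lit 2) (nat_lit 5) (nat_lit 2) (nat_lit 4) (nat_lit 355) (nat_lit 226) (nat_lit 139)) (XT.lf (nat_lit 0) (nat_lit 49319196985) (nat_lit 76) (nat_lit 188098311034) (nat_lit 76) (nat_lit 174883426664) (nat_lit 1) (nat_lit 4) (nat_lit 2) (nat_lit 5) (nat_lit 2) (nat_lit 4) (nat_lit 356) (nat_lit 226) (nat_lit 138)))) (XT.nd (nat_lit 156) (nat_lit 0) (nat_lit 0) (XT.nd (nat_lit 78) (nat_lit 0) (nat_lit 0) (XT.lf (nat_lit 0) (nat_lit 56510508432) (nat_lit 76) (nat_lit 194746640344)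 (nat_lit 76) (nat_lit 181523043177) (nat_lit 1) (nat_lit 4) (nat_lit 2) (nat_lit 5) (nat_lit 2) (nat_lit 4) (nat_lit 357) (nat_lit 226) (nat_lit 137)) (XT.lf (nat_lit 0) (nat_lit 64055541680) (nat_lit 76) (nat_lit 201729966702) (nat_lit 76) (nat_lit 188498071634) (nat_lit 1) (nat_lit 4) (nat_lit 2) (nat_lit 5) (nat_lit 2) (nat_lit 4) (nat_lit 358) (nat_lit 226) (nat_lit 136))) (XT.nd (nat_lit 78) (nat_lit 0) (nat_lit 0) (XT.lf (nat_lit 0) (nat_lit 71972261093) (nat_lit 76) (nat_lit 209064917076) (nat_lit 76) (nat_lit 195825119244) (nat_lit 1) (nat_lit 4) (nat_lit 2) (nat_lit 5) (nat_lit 2) (nat_lit 4) (nat_lit 359) (nat_lit 226) (nat_lit 135)) (XT.nd (nat_lit 78) (nat_lit 0) (nat_lit 0) (XT.lf (nat_lit 0) (nat_lit 80279516003) (nat_lit 76) (nat_lit 216768955634) (nat_lit 76) (nat_lit 203521631360) (nat_lit 1) (nat_lit 4) (nat_lit 2) (nat_lit 5) (nat_lit 2) (nat_lit 4) (nat_lit 360)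 (nat_lit 226) (nat_lit 134)) (XT.lf (nat_lit 0) (nat_lit 88997085590) (nat_lit 76) (nat_lit 224860425324) (nat_lit 76) (nat_lit 211605933010) (nat_lit 1) (nat_lit 4) (nat_lit 2) (nat_lit 5) (nat_lit 2) (nat_lit 4) (nat_lit 361) (nat_lit 226) (nat_lit 133))))))))
noncomputable def xc69 : XT := (XT.nd (nat_lit 31278) (nat_lit 0) (nat_lit 456) (XT.nd (nat_lit 30576) (nat_lit 0) (nat_lit 1140) (XT.nd (nat_lit 30264) (nat_lit 0) (nat_lit 1824) (XT.nd (nat_lit 30108) (nat_lit 0) (nat_lit 2508) (XT.nd (nat_lit 30030) (nat_lit 0) (nat_lit 2812) (XT.lf (nat_lit 0) (nat_lit 98145725970) (nat_lit 76) (nat_lit 233358591550) (nat_lit 76) (nat_lit 220097272531) (nat_lit 1) (nat_lit 4) (nat_lit 2) (nat_lit 5) (nat_lit 2) (nat_lit 4) (nat_lit 362) (nat_lit 226) (nat_lit 132)) (XT.lf (nat_lit 0) (nat_lit 1392812903) (nat_lit 304) (nat_lit 1655474789) (nat_lit 0) (nat_lit 1392812903) (nat_lit 38) (nat_lit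 5) (nat_lit 42) (nat_lit 4) (nat_lit 38) (nat_lit 4) (nat_lit 266) (nat_lit 227) (nat_lit 227))) (XT.nd (nat_lit 78) (nat_lit 76) (nat_lit 0) (XT.lf (nat_lit 0) (nat_lit 2067148392) (nat_lit 228) (nat_lit 4011034834) (nat_lit 228) (nat_lit 3021298283) (nat_lit 35) (nat_lit 4) (nat_lit 38) (nat_lit 5) (nat_lit 38) (nat_lit 4) (nat_lit 267) (nat_lit 227) (nat_lit 226)) (XT.lf (nat_lit 0) (nat_lit 121580089) (nat_lit 304) (nat_lit 1683103606) (nat_lit 76) (nat_lit 7527271631) (nat_lit 34) (nat_lit 5) (nat_lit 38) (nat_lit 5) (nat_lit 35) (nat_lit 4) (nat_lit 268) (nat_lit 227) (nat_lit 225)))) (XT.nd (nat_lit 156) (nat_lit 456) (nat_lit 0) (XT.nd (nat_lit 78) (nat_lit 0) (nat_lit 0) (XT.lf (nat_lit 0) (nat_lit 3258985326) (nat_lit 304) (nat_lit 5754449307) (nat_lit 0) (nat_lit 563687216) (nat_lit 31) (nat_lit 5) (nat_lit 35) (nat_lit 4) (nat_lit 31) (nat_lit 4) (nat_lit 269) (nat_lit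 227) (nat_lit 224)) (XT.lf (nat_lit 0) (nat_lit 6484617089) (nat_lit 304) (nat_lit 378769536) (nat_lit 0) (nat_lit 2975060269) (nat_lit 31) (nat_lit 5) (nat_lit 35) (nat_lit 4) (nat_lit 31) (nat_lit 4) (nat_lit 270) (nat_lit 227) (nat_lit 223))) (XT.nd (nat_lit 78) (nat_lit 228) (nat_lit 0) (XT.lf (nat_lit 0) (nat_lit 5264902221) (nat_lit 228) (nat_lit 4567685078) (nat_lit 228) (nat_lit 282643773) (nat_lit 28) (nat_lit 4) (nat_lit 31) (nat_lit 5) (nat_lit 31) (nat_lit 4) (nat_lit 271) (nat_lit 227) (nat_lit 222)) (XT.lf (nat_lit 0) (nat_lit 600603640) (nat_lit 152) (nat_lit 2142909334) (nat_lit 228) (nat_lit 7665670193) (nat_lit 25) (nat_lit 5) (nat_lit 27) (nat_lit 5) (nat_lit 28) (nat_lit 4) (nat_lit 272) (nat_lit 227) (nat_lit 221))))) (XT.nd (nat_lit 312) (nat_lit 304) (nat_lit 0) (XT.nd (nat_lit 156) (nat_lit 228) (nat_lit 0) (XT.nd (nat_lit 78) (nat_lit 152) (nat_lit 0) (XT.lf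 (nat_lit 0) (nat_lit 5883249433) (nat_lit 228) (nat_lit 4407170493) (nat_lit 0) (nat_lit 428977770) (nat_lit 25) (nat_lit 5) (nat_lit 28) (nat_lit 4) (nat_lit 25) (nat_lit 4) (nat_lit 273) (nat_lit 227) (nat_lit 220)) (XT.lf (nat_lit 0) (nat_lit 1098976025) (nat_lit 152) (nat_lit 8020891768) (nat_lit 152) (nat_lit 1928627100) (nat_lit 23) (nat_lit 4) (nat_lit 25) (nat_lit 5) (nat_lit 25) (nat_lit 4) (nat_lit 274) (nat_lit 227) (nat_lit 219))) (XT.nd (nat_lit 78) (nat_lit 152) (nat_lit 0) (XT.lf (nat_lit 0) (nat_lit 1052432114) (nat_lit 228) (nat_lit 4542391219) (nat_lit 76) (nat_lit 5800471289) (nat_lit 22) (nat_lit 5) (nat_lit 25) (nat_lit 5) (nat_lit 23) (nat_lit 4) (nat_lit 275) (nat_lit 227) (nat_lit 218)) (XT.lf (nat_lit 0) (nat_lit 975914722) (nat_lit 152) (nat_lit 3050656125) (nat_lit 228) (nat_lit 7736157361) (nat_lit 20) (nat_lit 5) (nat_lit 22) (nat_lit 5) (nat_lit 23) (nat_lit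 4) (nat_lit 276) (nat_lit 227) (nat_lit 217)))) (XT.nd (nat_lit 156) (nat_lit 152) (nat_lit 0) (XT.nd (nat_lit 78) (nat_lit 152) (nat_lit 0) (XT.lf (nat_lit 0) (nat_lit 6771602145) (nat_lit 152) (nat_lit 350973467) (nat_lit 228) (nat_lit 5027601589) (nat_lit 20) (nat_lit 5) (nat_lit 22) (nat_lit 5) (nat_lit 23) (nat_lit 4) (nat_lit 277) (nat_lit 227) (nat_lit 216)) (XT.lf (nat_lit 0) (nat_lit 111626496) (nat_lit 152) (nat_lit 10202667046) (nat_lit 152) (nat_lit 2245946773) (nat_lit 18) (nat_lit 4) (nat_lit 20) (nat_lit 5) (nat_lit 20) (nat_lit 4) (nat_lit 278) (nat_lit 227) (nat_lit 215))) (XT.nd (nat_lit 78) (nat_lit 76) (nat_lit 0) (XT.lf (nat_lit 0) (nat_lit 652452275) (nat_lit 228) (nat_lit 7095273310) (nat_lit 76) (nat_lit 5242851885) (nat_lit 17) (nat_lit 5) (nat_lit 20) (nat_lit 5) (nat_lit 18) (nat_lit 4) (nat_lit 279) (nat_lit 227) (nat_lit 214)) (XT.nd (nat_lit 78) (nat_lit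 76) (nat_lit 0) (XT.lf (nat_lit 0) (nat_lit 3525933994) (nat_lit 228) (nat_lit 1658045505) (nat_lit 76) (nat_lit 8261577176) (nat_lit 17) (nat_lit 5) (nat_lit 20) (nat_lit 5) (nat_lit 18) (nat_lit 4) (nat_lit 280) (nat_lit 227) (nat_lit 213)) (XT.lf (nat_lit 0) (nat_lit 4040398898) (nat_lit 76) (nat_lit 2475907379) (nat_lit 152) (nat_lit 7408554114) (nat_lit 16) (nat_lit 5) (nat_lit 17) (nat_lit 5) (nat_lit 18) (nat_lit 4) (nat_lit 281) (nat_lit 227) (nat_lit 212))))))) (XT.nd (nat_lit 702) (nat_lit 228) (nat_lit 0) (XT.nd (nat_lit 312) (nat_lit 228) (nat_lit 0) (XT.nd (nat_lit 156) (nat_lit 76) (nat_lit 0) (XT.nd (nat_lit 78) (nat_lit 152) (nat_lit 0) (XT.lf (nat_lit 0) (nat_lit 9601959788) (nat_lit 152) (nat_lit 4493132376) (nat_lit 0) (nat_lit 335974120) (nat_lit 16) (nat_lit 5) (nat_lit 18) (nat_lit 4) (nat_lit 16) (nat_lit 4) (nat_lit 282) (nat_lit 227) (nat_lit 211)) (XT.lf (nat_lit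 0) (nat_lit 1025189796) (nat_lit 152) (nat_lit 11788999682) (nat_lit 152) (nat_lit 2149992717) (nat_lit 14) (nat_lit 4) (nat_lit 16) (nat_lit 5) (nat_lit 16) (nat_lit 4) (nat_lit 283) (nat_lit 227) (nat_lit 210))) (XT.nd (nat_lit 78) (nat_lit 0) (nat_lit 0) (XT.lf (nat_lit 0) (nat_lit 635289678) (nat_lit 228) (nat_lit 8691921502) (nat_lit 76) (nat_lit 6196747789) (nat_lit 13) (nat_lit 5) (nat_lit 16) (nat_lit 5) (nat_lit 14) (nat_lit 4) (nat_lit 284) (nat_lit 227) (nat_lit 209)) (XT.lf (nat_lit 0) (nat_lit 3407672551) (nat_lit 228) (nat_lit 3346877924) (nat_lit 76) (nat_lit 9359592514) (nat_lit 13) (nat_lit 5) (nat_lit 16) (nat_lit 5) (nat_lit 14) (nat_lit 4) (nat_lit 285) (nat_lit 227) (nat_lit 208)))) (XT.nd (nat_lit 156) (nat_lit 152) (nat_lit 0) (XT.nd (nat_lit 78) (nat_lit 0) (nat_lit 0) (XT.lf (nat_lit 0) (nat_lit 2213270517) (nat_lit 76) (nat_lit 4063854845) (nat_lit 152) (nat_lit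 10458964696) (nat_lit 12) (nat_lit 5) (nat_lit 13) (nat_lit 5) (nat_lit 14) (nat_lit 4) (nat_lit 286) (nat_lit 227) (nat_lit 207)) (XT.lf (nat_lit 0) (nat_lit 8046620273) (nat_lit 76) (nat_lit 1225741820) (nat_lit 152) (nat_lit 8117824810) (nat_lit 12) (nat_lit 5) (nat_lit 13) (nat_lit 5) (nat_lit 14) (nat_lit 4) (nat_lit 287) (nat_lit 227) (nat_lit 206))) (XT.nd (nat_lit 78) (nat_lit 152) (nat_lit 0) (XT.lf (nat_lit 0) (nat_lit 12373228146) (nat_lit 152) (nat_lit 4050988407) (nat_lit 0) (nat_lit 1655138653) (nat_lit 12) (nat_lit 5) (nat_lit 14) (nat_lit 4) (nat_lit 12) (nat_lit 4) (nat_lit 288) (nat_lit 227) (nat_lit 205)) (XT.nd (nat_lit 78) (nat_lit 0) (nat_lit 0) (XT.lf (nat_lit 0) (nat_lit 1418921663) (nat_lit 152) (nat_lit 14184347408) (nat_lit 152) (nat_lit 3201158645) (nat_lit 10) (nat_lit 4) (nat_lit 12) (nat_lit 5) (nat_lit 12) (nat_lit 4) (nat_lit 289) (nat_lit 227) (nat_lit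 204)) (XT.lf (nat_lit 0) (nat_lit 7192167525) (nat_lit 152) (nat_lit 11804647768) (nat_lit 152) (nat_lit 568983508) (nat_lit 10) (nat_lit 4) (nat_lit 12) (nat_lit 5) (nat_lit 12) (nat_lit 4) (nat_lit 290) (nat_lit 227) (nat_lit 203)))))) (XT.nd (nat_lit 312) (nat_lit 76) (nat_lit 0) (XT.nd (nat_lit 156) (nat_lit 76) (nat_lit 0) (XT.nd (nat_lit 78) (nat_lit 0) (nat_lit 0) (XT.lf (nat_lit 0) (nat_lit 2059948772) (nat_lit 228) (nat_lit 7253222130) (nat_lit 76) (nat_lit 11053716030) (nat_lit 9) (nat_lit 5) (nat_lit 12) (nat_lit 5) (nat_lit 10) (nat_lit 4) (nat_lit 291) (nat_lit 227) (nat_lit 202)) (XT.lf (nat_lit 0) (nat_lit 4739678192) (nat_lit 228) (nat_lit 1988779536) (nat_lit 76) (nat_lit 14482307110) (nat_lit 9) (nat_lit 5) (nat_lit 12) (nat_lit 5) (nat_lit 10) (nat_lit 4) (nat_lit 292) (nat_lit 227) (nat_lit 201))) (XT.nd (nat_lit 78) (nat_lit 0) (nat_lit 0) (XT.lf (nat_lit 0) (nat_lit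 3554893098) (nat_lit 76) (nat_lit 3995404831) (nat_lit 152) (nat_lit 14546812904) (nat_lit 8) (nat_lit 5) (nat_lit 9) (nat_lit 5) (nat_lit 10) (nat_lit 4) (nat_lit 293) (nat_lit 227) (nat_lit 200)) (XT.lf (nat_lit 0) (nat_lit 9348601381) (nat_lit 76) (nat_lit 1129218743) (nat_lit 152) (nat_lit 12551249133) (nat_lit 8) (nat_lit 5) (nat_lit 9) (nat_lit 5) (nat_lit 10) (nat_lit 4) (nat_lit 294) (nat_lit 227) (nat_lit 199)))) (XT.nd (nat_lit 156) (nat_lit 76) (nat_lit 0) (XT.nd (nat_lit 78) (nat_lit 0) (nat_lit 0) (XT.lf (nat_lit 0) (nat_lit 13525916179) (nat_lit 152) (nat_lit 8698859290) (nat_lit 0) (nat_lit 1784248530) (nat_lit 8) (nat_lit 5) (nat_lit 10) (nat_lit 4) (nat_lit 8) (nat_lit 4) (nat_lit 295) (nat_lit 227) (nat_lit 198)) (XT.lf (nat_lit 0) (nat_lit 16692396784) (nat_lit 152) (nat_lit 3576084324) (nat_lit 0) (nat_lit 4771299513) (nat_lit 8) (nat_lit 5) (nat_lit 10) (nat_lit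 4) (nat_lit 8) (nat_lit 4) (nat_lit 296) (nat_lit 227) (nat_lit 197))) (XT.nd (nat_lit 78) (nat_lit 0) (nat_lit 0) (XT.lf (nat_lit 0) (nat_lit 1774478777) (nat_lit 76) (nat_lit 18220396719) (nat_lit 76) (nat_lit 6128414094) (nat_lit 7) (nat_lit 4) (nat_lit 8) (nat_lit 5) (nat_lit 8) (nat_lit 4) (nat_lit 297) (nat_lit 227) (nat_lit 196)) (XT.nd (nat_lit 78) (nat_lit 0) (nat_lit 0) (XT.lf (nat_lit 0) (nat_lit 7432951899) (nat_lit 76) (nat_lit 16041132949) (nat_lit 76) (nat_lit 3786402368) (nat_lit 7) (nat_lit 4) (nat_lit 8) (nat_lit 5) (nat_lit 8) (nat_lit 4) (nat_lit 298) (nat_lit 227) (nat_lit 195)) (XT.lf (nat_lit 0) (nat_lit 13294566096) (nat_lit 76) (nat_lit 13786063793) (nat_lit 76) (nat_lit 1376335158) (nat_lit 7) (nat_lit 4) (nat_lit 8) (nat_lit 5) (nat_lit 8) (nat_lit 4) (nat_lit 299) (nat_lit 227) (nat_lit 194))))))))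
noncomputable def xc70 : XT := (XT.nd (nat_lit 1326) (nat_lit 152) (nat_lit 0) (XT.nd (nat_lit 624) (nat_lit 76) (nat_lit 0) (XT.nd (nat_lit 312) (nat_lit 0) (nat_lit 0) (XT.nd (nat_lit 156) (nat_lit 76) (nat_lit 0) (XT.nd (nat_lit 78) (nat_lit 0) (nat_lit 0) (XT.lf (nat_lit 0) (nat_lit 1072078047) (nat_lit 152) (nat_lit 10359585831) (nat_lit 76) (nat_lit 18283043387) (nat_lit 6) (nat_lit 5) (nat_lit 8) (nat_lit 5) (nat_lit 7) (nat_lit 4) (nat_lit 300) (nat_lit 227) (nat_lit 193)) (XT.lf (nat_lit 0) (nat_lit 3553596481) (nat_lit 152) (nat_lit 5413060844) (nat_lit 76) (nat_lit 22069781159) (nat_lit 6) (nat_lit 5) (nat_lit 8) (nat_lit 5) (nat_lit 7) (nat_lit 4) (nat_lit 301) (nat_lit 227) (nat_lit 192))) (XT.nd (nat_lit 78) (nat_lit 76) (nat_lit 0) (XT.lf (nat_lit 0) (nat_lit 6118179842) (nat_lit 152) (nat_lit 289558102) (nat_lit 76) (nat_lit 26018642163) (nat_lit 6) (nat_lit 5) (nat_lit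 8) (nat_lit 5) (nat_lit 7) (nat_lit 4) (nat_lit 302) (nat_lit 227) (nat_lit 191)) (XT.lf (nat_lit 0) (nat_lit 5189208284) (nat_lit 76) (nat_lit 3663744078) (nat_lit 152) (nat_lit 25030838251) (nat_lit 5) (nat_lit 5) (nat_lit 6) (nat_lit 5) (nat_lit 7) (nat_lit 4) (nat_lit 303) (nat_lit 227) (nat_lit 190)))) (XT.nd (nat_lit 156) (nat_lit 0) (nat_lit 0) (XT.nd (nat_lit 78) (nat_lit 0) (nat_lit 0) (XT.lf (nat_lit 0) (nat_lit 10886047851) (nat_lit 76) (nat_lit 805092120) (nat_lit 152) (nat_lit 23724664330) (nat_lit 5) (nat_lit 5) (nat_lit 6) (nat_lit 5) (nat_lit 7) (nat_lit 4) (nat_lit 304) (nat_lit 227) (nat_lit 189)) (XT.lf (nat_lit 0) (nat_lit 14668711626) (nat_lit 152) (nat_lit 20255233595) (nat_lit 0) (nat_lit 2100663031) (nat_lit 5) (nat_lit 5) (nat_lit 7) (nat_lit 4) (nat_lit 5) (nat_lit 4) (nat_lit 305) (nat_lit 227) (nat_lit 188))) (XT.nd (nat_lit 78) (nat_lit 0) (nat_lit 0) (XT.lf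 (nat_lit 0) (nat_lit 17773294632) (nat_lit 152) (nat_lit 15841374177) (nat_lit 0) (nat_lit 5100337253) (nat_lit 5) (nat_lit 5) (nat_lit 7) (nat_lit 4) (nat_lit 5) (nat_lit 4) (nat_lit 306) (nat_lit 227) (nat_lit 187)) (XT.lf (nat_lit 0) (nat_lit 20999711108) (nat_lit 152) (nat_lit 11265099262) (nat_lit 0) (nat_lit 8226840602) (nat_lit 5) (nat_lit 5) (nat_lit 7) (nat_lit 4) (nat_lit 5) (nat_lit 4) (nat_lit 307) (nat_lit 227) (nat_lit 186))))) (XT.nd (nat_lit 312) (nat_lit 0) (nat_lit 0) (XT.nd (nat_lit 156) (nat_lit 76) (nat_lit 0) (XT.nd (nat_lit 78) (nat_lit 0) (nat_lit 0) (XT.lf (nat_lit 0) (nat_lit 24355642999) (nat_lit 152) (nat_lit 6515512958) (nat_lit 0) (nat_lit 11487617133) (nat_lit 5) (nat_lit 5) (nat_lit 7) (nat_lit 4) (nat_lit 5) (nat_lit 4) (nat_lit 308) (nat_lit 227) (nat_lit 185)) (XT.lf (nat_lit 0) (nat_lit 27849080618) (nat_lit 152) (nat_lit 1581306725) (nat_lit 0)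 (nat_lit 14890430601) (nat_lit 5) (nat_lit 5) (nat_lit 7) (nat_lit 4) (nat_lit 5) (nat_lit 4) (nat_lit 309) (nat_lit 227) (nat_lit 184))) (XT.nd (nat_lit 78) (nat_lit 0) (nat_lit 0) (XT.lf (nat_lit 0) (nat_lit 3666622358) (nat_lit 76) (nat_lit 27878965567) (nat_lit 76) (nat_lit 14834006834) (nat_lit 4) (nat_lit 4) (nat_lit 5) (nat_lit 5) (nat_lit 5) (nat_lit 4) (nat_lit 310) (nat_lit 227) (nat_lit 183)) (XT.lf (nat_lit 0) (nat_lit 9182316994) (nat_lit 76) (nat_lit 26243135784) (nat_lit 76) (nat_lit 13115978273) (nat_lit 4) (nat_lit 4) (nat_lit 5) (nat_lit 5) (nat_lit 5) (nat_lit 4) (nat_lit 311) (nat_lit 227) (nat_lit 182)))) (XT.nd (nat_lit 156) (nat_lit 0) (nat_lit 0) (XT.nd (nat_lit 78) (nat_lit 0) (nat_lit 0) (XT.lf (nat_lit 0) (nat_lit 14926624647) (nat_lit 76) (nat_lit 24545783355) (nat_lit 76) (nat_lit 11340341295) (nat_lit 4) (nat_lit 4) (nat_lit 5) (nat_lit 5) (nat_lit 5)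 (nat_lit 4) (nat_lit 312) (nat_lit 227) (nat_lit 181)) (XT.lf (nat_lit 0) (nat_lit 20913222239) (nat_lit 76) (nat_lit 22782866965) (nat_lit 76) (nat_lit 9502868191) (nat_lit 4) (nat_lit 4) (nat_lit 5) (nat_lit 5) (nat_lit 5) (nat_lit 4) (nat_lit 313) (nat_lit 227) (nat_lit 180))) (XT.nd (nat_lit 78) (nat_lit 0) (nat_lit 0) (XT.lf (nat_lit 0) (nat_lit 27156363574) (nat_lit 76) (nat_lit 20950189195) (nat_lit 76) (nat_lit 7599184027) (nat_lit 4) (nat_lit 4) (nat_lit 5) (nat_lit 5) (nat_lit 5) (nat_lit 4) (nat_lit 314) (nat_lit 227) (nat_lit 179)) (XT.nd (nat_lit 78) (nat_lit 0) (nat_lit 0) (XT.lf (nat_lit 0) (nat_lit 33670913274) (nat_lit 76) (nat_lit 19043386527) (nat_lit 76) (nat_lit 5624756221) (nat_lit 4) (nat_lit 4) (nat_lit 5) (nat_lit 5) (nat_lit 5) (nat_lit 4) (nat_lit 315) (nat_lit 227) (nat_lit 178)) (XT.lf (nat_lit 0) (nat_lit 40472382172) (nat_lit 76) (nat_lit 17057918953)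 (nat_lit 76) (nat_lit 3574883755) (nat_lit 4) (nat_lit 4) (nat_lit 5) (nat_lit 5) (nat_lit 5) (nat_lit 4) (nat_lit 316) (nat_lit 227) (nat_lit 177))))))) (XT.nd (nat_lit 624) (nat_lit 0) (nat_lit 0) (XT.nd (nat_lit 312) (nat_lit 76) (nat_lit 0) (XT.nd (nat_lit 156) (nat_lit 0) (nat_lit 0) (XT.nd (nat_lit 78) (nat_lit 76) (nat_lit 0) (XT.lf (nat_lit 0) (nat_lit 47576964242) (nat_lit 76) (nat_lit 14989059169) (nat_lit 76) (nat_lit 1444685978) (nat_lit 4) (nat_lit 4) (nat_lit 5) (nat_lit 5) (nat_lit 5) (nat_lit 4) (nat_lit 317) (nat_lit 227) (nat_lit 176)) (XT.lf (nat_lit 0) (nat_lit 746235103) (nat_lit 152) (nat_lit 12073008364) (nat_lit 76) (nat_lit 54242702199) (nat_lit 3) (nat_lit 5) (nat_lit 5) (nat_lit 5) (nat_lit 4) (nat_lit 4) (nat_lit 318) (nat_lit 227) (nat_lit 175))) (XT.nd (nat_lit 78) (nat_lit 0) (nat_lit 0) (XT.lf (nat_lit 0) (nat_lit 2978687563) (nat_lit 152) (nat_lit 7552116190)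 (nat_lit 76) (nat_lit 59734759477) (nat_lit 3) (nat_lit 5) (nat_lit 5) (nat_lit 5) (nat_lit 4) (nat_lit 4) (nat_lit 319) (nat_lit 227) (nat_lit 174)) (XT.lf (nat_lit 0) (nat_lit 5304225736) (nat_lit 152) (nat_lit 2837748999) (nat_lit 76) (nat_lit 65488342787) (nat_lit 3) (nat_lit 5) (nat_lit 5) (nat_lit 5) (nat_lit 4) (nat_lit 4) (nat_lit 320) (nat_lit 227) (nat_lit 173)))) (XT.nd (nat_lit 156) (nat_lit 0) (nat_lit 0) (XT.nd (nat_lit 78) (nat_lit 0) (nat_lit 0) (XT.lf (nat_lit 0) (nat_lit 2150135660) (nat_lit 76) (nat_lit 5611820602) (nat_lit 152) (nat_lit 69400585117) (nat_lit 2) (nat_lit 5) (nat_lit 3) (nat_lit 5) (nat_lit 4) (nat_lit 4) (nat_lit 321) (nat_lit 227) (nat_lit 172)) (XT.lf (nat_lit 0) (nat_lit 7455416433) (nat_lit 76) (nat_lit 2917925534) (nat_lit 152) (nat_lit 70496522338) (nat_lit 2) (nat_lit 5) (nat_lit 3) (nat_lit 5) (nat_lit 4) (nat_lit 4) (nat_lit 322) (nat_lit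 227) (nat_lit 171))) (XT.nd (nat_lit 78) (nat_lit 0) (nat_lit 0) (XT.lf (nat_lit 0) (nat_lit 12996896141) (nat_lit 76) (nat_lit 101934149) (nat_lit 152) (nat_lit 71664571475) (nat_lit 2) (nat_lit 5) (nat_lit 3) (nat_lit 5) (nat_lit 4) (nat_lit 4) (nat_lit 323) (nat_lit 227) (nat_lit 170)) (XT.lf (nat_lit 0) (nat_lit 15989295476) (nat_lit 152) (nat_lit 70109040289) (nat_lit 0) (nat_lit 2751869074) (nat_lit 2) (nat_lit 5) (nat_lit 4) (nat_lit 4) (nat_lit 2) (nat_lit 4) (nat_lit 324) (nat_lit 227) (nat_lit 169))))) (XT.nd (nat_lit 312) (nat_lit 0) (nat_lit 0) (XT.nd (nat_lit 156) (nat_lit 0) (nat_lit 0) (XT.nd (nat_lit 78) (nat_lit 0) (nat_lit 0) (XT.lf (nat_lit 0) (nat_lit 19010840809) (nat_lit 152) (nat_lit 68397326747) (nat_lit 0) (nat_lit 5733875390) (nat_lit 2) (nat_lit 5) (nat_lit 4) (nat_lit 4) (nat_lit 2) (nat_lit 4) (nat_lit 325) (nat_lit 227) (nat_lit 168)) (XT.lf (nat_lit 0)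 (nat_lit 22169068970) (nat_lit 152) (nat_lit 66625698012) (nat_lit 0) (nat_lit 8854447344) (nat_lit 2) (nat_lit 5) (nat_lit 4) (nat_lit 4) (nat_lit 2) (nat_lit 4) (nat_lit 326) (nat_lit 227) (nat_lit 167))) (XT.nd (nat_lit 78) (nat_lit 0) (nat_lit 0) (XT.lf (nat_lit 0) (nat_lit 25471499547) (nat_lit 152) (nat_lit 64789935921) (nat_lit 0) (nat_lit 12121014867) (nat_lit 2) (nat_lit 5) (nat_lit 4) (nat_lit 4) (nat_lit 2) (nat_lit 4) (nat_lit 327) (nat_lit 227) (nat_lit 166)) (XT.lf (nat_lit 0) (nat_lit 28925995473) (nat_lit 152) (nat_lit 62885669611) (nat_lit 0) (nat_lit 15541355503) (nat_lit 2) (nat_lit 5) (nat_lit 4) (nat_lit 4) (nat_lit 2) (nat_lit 4) (nat_lit 328) (nat_lit 227) (nat_lit 165)))) (XT.nd (nat_lit 156) (nat_lit 0) (nat_lit 0) (XT.nd (nat_lit 78) (nat_lit 0) (nat_lit 0) (XT.lf (nat_lit 0) (nat_lit 32540781735) (nat_lit 152) (nat_lit 60908365116) (nat_lit 0) (nat_lit 19123612918)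 (nat_lit 2) (nat_lit 5) (nat_lit 4) (nat_lit 4) (nat_lit 2) (nat_lit 4) (nat_lit 329) (nat_lit 227) (nat_lit 164)) (XT.lf (nat_lit 0) (nat_lit 36324464970) (nat_lit 152) (nat_lit 58853314567) (nat_lit 0) (nat_lit 22876316298) (nat_lit 2) (nat_lit 5) (nat_lit 4) (nat_lit 4) (nat_lit 2) (nat_lit 4) (nat_lit 330) (nat_lit 227) (nat_lit 163))) (XT.nd (nat_lit 78) (nat_lit 0) (nat_lit 0) (XT.lf (nat_lit 0) (nat_lit 40286053945) (nat_lit 152) (nat_lit 56715624987) (nat_lit 0) (nat_lit 26808400650) (nat_lit 2) (nat_lit 5) (nat_lit 4) (nat_lit 4) (nat_lit 2) (nat_lit 4) (nat_lit 331) (nat_lit 227) (nat_lit 162)) (XT.nd (nat_lit 78) (nat_lit 0) (nat_lit 0) (XT.lf (nat_lit 0) (nat_lit 44434981017) (nat_lit 152) (nat_lit 54490206638) (nat_lit 0) (nat_lit 30929228081) (nat_lit 2) (nat_lit 5) (nat_lit 4) (nat_lit 4) (nat_lit 2) (nat_lit 4) (nat_lit 332) (nat_lit 227) (nat_lit 161)) (XT.lf (nat_lit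 0) (nat_lit 48781124583) (nat_lit 152) (nat_lit 52171760907) (nat_lit 0) (nat_lit 35248610083) (nat_lit 2) (nat_lit 5) (nat_lit 4) (nat_lit 4) (nat_lit 2) (nat_lit 4) (nat_lit 333) (nat_lit 227) (nat_lit 160))))))))
noncomputable def xc71 : XT := (XT.nd (nat_lit 1326) (nat_lit 0) (nat_lit 0) (XT.nd (nat_lit 624) (nat_lit 76) (nat_lit 0) (XT.nd (nat_lit 312) (nat_lit 0) (nat_lit 0) (XT.nd (nat_lit 156) (nat_lit 0) (nat_lit 0) (XT.nd (nat_lit 78) (nat_lit 0) (nat_lit 0) (XT.lf (nat_lit 0) (nat_lit 53334832603) (nat_lit 152) (nat_lit 49754767683) (nat_lit 0) (nat_lit 39776830900) (nat_lit 2) (nat_lit 5) (nat_lit 4) (nat_lit 4) (nat_lit 2) (nat_lit 4) (nat_lit 334) (nat_lit 227) (nat_lit 159)) (XT.lf (nat_lit 0) (nat_lit 58106947239) (nat_lit 152) (nat_lit 47233472221) (nat_lit 0) (nat_lit 44524672010) (nat_lit 2) (nat_lit 5) (nat_lit 4) (nat_lit 4) (nat_lit 2) (nat_lit 4) (nat_lit 335)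 (nat_lit 227) (nat_lit 158))) (XT.nd (nat_lit 78) (nat_lit 0) (nat_lit 0) (XT.lf (nat_lit 0) (nat_lit 63108830670) (nat_lit 152) (nat_lit 44601871437) (nat_lit 0) (nat_lit 49503437796) (nat_lit 2) (nat_lit 5) (nat_lit 4) (nat_lit 4) (nat_lit 2) (nat_lit 4) (nat_lit 336) (nat_lit 227) (nat_lit 157)) (XT.lf (nat_lit 0) (nat_lit 68352392142) (nat_lit 152) (nat_lit 41853699614) (nat_lit 0) (nat_lit 54724982464) (nat_lit 2) (nat_lit 5) (nat_lit 4) (nat_lit 4) (nat_lit 2) (nat_lit 4) (nat_lit 337) (nat_lit 227) (nat_lit 156)))) (XT.nd (nat_lit 156) (nat_lit 0) (nat_lit 0) (XT.nd (nat_lit 78) (nat_lit 0) (nat_lit 0) (XT.lf (nat_lit 0) (nat_lit 73850116324) (nat_lit 152) (nat_lit 38982413486) (nat_lit 0) (nat_lit 60201738261) (nat_lit 2) (nat_lit 5) (nat_lit 4) (nat_lit 4) (nat_lit 2) (nat_lit 4) (nat_lit 338) (nat_lit 227) (nat_lit 155)) (XT.lf (nat_lit 0) (nat_lit 79615093037) (nat_lit 152)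 (nat_lit 35981176657) (nat_lit 0) (nat_lit 65946745083) (nat_lit 2) (nat_lit 5) (nat_lit 4) (nat_lit 4) (nat_lit 2) (nat_lit 4) (nat_lit 339) (nat_lit 227) (nat_lit 154))) (XT.nd (nat_lit 78) (nat_lit 0) (nat_lit 0) (XT.lf (nat_lit 0) (nat_lit 85661048414) (nat_lit 152) (nat_lit 32842843327) (nat_lit 0) (nat_lit 71973681517) (nat_lit 2) (nat_lit 5) (nat_lit 4) (nat_lit 4) (nat_lit 2) (nat_lit 4) (nat_lit 340) (nat_lit 227) (nat_lit 153)) (XT.lf (nat_lit 0) (nat_lit 92002377589) (nat_lit 152) (nat_lit 29559941272) (nat_lit 0) (nat_lit 78296897413) (nat_lit 2) (nat_lit 5) (nat_lit 4) (nat_lit 4) (nat_lit 2) (nat_lit 4) (nat_lit 341) (nat_lit 227) (nat_lit 152))))) (XT.nd (nat_lit 312) (nat_lit 76) (nat_lit 0) (XT.nd (nat_lit 156) (nat_lit 0) (nat_lit 0) (XT.nd (nat_lit 78) (nat_lit 0) (nat_lit 0) (XT.lf (nat_lit 0) (nat_lit 98654178964) (nat_lit 152) (nat_lit 26124654059) (nat_lit 0)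 (nat_lit 84931448045) (nat_lit 2) (nat_lit 5) (nat_lit 4) (nat_lit 4) (nat_lit 2) (nat_lit 4) (nat_lit 342) (nat_lit 227) (nat_lit 151)) (XT.lf (nat_lit 0) (nat_lit 105632290161) (nat_lit 152) (nat_lit 22528802432) (nat_lit 0) (nat_lit 91893129964) (nat_lit 2) (nat_lit 5) (nat_lit 4) (nat_lit 4) (nat_lit 2) (nat_lit 4) (nat_lit 343) (nat_lit 227) (nat_lit 150))) (XT.nd (nat_lit 78) (nat_lit 0) (nat_lit 0) (XT.lf (nat_lit 0) (nat_lit 112953325730) (nat_lit 152) (nat_lit 18763824841) (nat_lit 0) (nat_lit 99198518601) (nat_lit 2) (nat_lit 5) (nat_lit 4) (nat_lit 4) (nat_lit 2) (nat_lit 4) (nat_lit 344) (nat_lit 227) (nat_lit 149)) (XT.lf (nat_lit 0) (nat_lit 120634716709) (nat_lit 152) (nat_lit 14820757052) (nat_lit 0) (nat_lit 106865007741) (nat_lit 2) (nat_lit 5) (nat_lit 4) (nat_lit 4) (nat_lit 2) (nat_lit 4) (nat_lit 345) (nat_lit 227) (nat_lit 148)))) (XT.nd (nat_lit 156) (nat_lit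 76) (nat_lit 0) (XT.nd (nat_lit 78) (nat_lit 0) (nat_lit 0) (XT.lf (nat_lit 0) (nat_lit 128694752125) (nat_lit 152) (nat_lit 10690210810) (nat_lit 0) (nat_lit 114910850928) (nat_lit 2) (nat_lit 5) (nat_lit 4) (nat_lit 4) (nat_lit 2) (nat_lit 4) (nat_lit 346) (nat_lit 227) (nat_lit 147)) (XT.lf (nat_lit 0) (nat_lit 137152622536) (nat_lit 152) (nat_lit 6362351480) (nat_lit 0) (nat_lit 123355204931) (nat_lit 2) (nat_lit 5) (nat_lit 4) (nat_lit 4) (nat_lit 2) (nat_lit 4) (nat_lit 347) (nat_lit 227) (nat_lit 146))) (XT.nd (nat_lit 78) (nat_lit 76) (nat_lit 0) (XT.lf (nat_lit 0) (nat_lit 146028465731) (nat_lit 152) (nat_lit 1826874635) (nat_lit 0) (nat_lit 132218175356) (nat_lit 2) (nat_lit 5) (nat_lit 4) (nat_lit 4) (nat_lit 2) (nat_lit 4) (nat_lit 348) (nat_lit 227) (nat_lit 145)) (XT.nd (nat_lit 78) (nat_lit 0) (nat_lit 0) (XT.lf (nat_lit 0) (nat_lit 3023798927) (nat_lit 76) (nat_lit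 152366825716) (nat_lit 76) (nat_lit 138544275562) (nat_lit 1) (nat_lit 4) (nat_lit 2) (nat_lit 5) (nat_lit 2) (nat_lit 4) (nat_lit 349) (nat_lit 227) (nat_lit 144)) (XT.lf (nat_lit 0) (nat_lit 8172208357) (nat_lit 76) (nat_lit 157075030516) (nat_lit 76) (nat_lit 143240804380) (nat_lit 1) (nat_lit 4) (nat_lit 2) (nat_lit 5) (nat_lit 2) (nat_lit 4) (nat_lit 350) (nat_lit 227) (nat_lit 143))))))) (XT.nd (nat_lit 702) (nat_lit 0) (nat_lit 0) (XT.nd (nat_lit 312) (nat_lit 0) (nat_lit 0) (XT.nd (nat_lit 156) (nat_lit 0) (nat_lit 0) (XT.nd (nat_lit 78) (nat_lit 0) (nat_lit 0) (XT.lf (nat_lit 0) (nat_lit 13570207046) (nat_lit 76) (nat_lit 162022103784) (nat_lit 76) (nat_lit 148176757666) (nat_lit 1) (nat_lit 4) (nat_lit 2) (nat_lit 5) (nat_lit 2) (nat_lit 4) (nat_lit 351) (nat_lit 227) (nat_lit 142)) (XT.lf (nat_lit 0) (nat_lit 19230647371) (nat_lit 76) (nat_lit 167219824266) (nat_lit 76)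 (nat_lit 153363887688) (nat_lit 1) (nat_lit 4) (nat_lit 2) (nat_lit 5) (nat_lit 2) (nat_lit 4) (nat_lit 352) (nat_lit 227) (nat_lit 141))) (XT.nd (nat_lit 78) (nat_lit 0) (nat_lit 0) (XT.lf (nat_lit 0) (nat_lit 25167006572) (nat_lit 76) (nat_lit 172680567485) (nat_lit 76) (nat_lit 158814544756) (nat_lit 1) (nat_lit 4) (nat_lit 2) (nat_lit 5) (nat_lit 2) (nat_lit 4) (nat_lit 353) (nat_lit 227) (nat_lit 140)) (XT.lf (nat_lit 0) (nat_lit 31393418836) (nat_lit 76) (nat_lit 178417335214) (nat_lit 76) (nat_lit 164541706625) (nat_lit 1) (nat_lit 4) (nat_lit 2) (nat_lit 5) (nat_lit 2) (nat_lit 4) (nat_lit 354) (nat_lit 227) (nat_lit 139)))) (XT.nd (nat_lit 156) (nat_lit 0) (nat_lit 0) (XT.nd (nat_lit 78) (nat_lit 0) (nat_lit 0) (XT.lf (nat_lit 0) (nat_lit 37924708955) (nat_lit 76) (nat_lit 184443786421) (nat_lit 76) (nat_lit 170559009395) (nat_lit 1) (nat_lit 4) (nat_lit 2) (nat_lit 5) (nat_lit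 2) (nat_lit 4) (nat_lit 355) (nat_lit 227) (nat_lit 138)) (XT.lf (nat_lit 0) (nat_lit 44776427620) (nat_lit 76) (nat_lit 190774269800) (nat_lit 76) (nat_lit 176880779978) (nat_lit 1) (nat_lit 4) (nat_lit 2) (nat_lit 5) (nat_lit 2) (nat_lit 4) (nat_lit 356) (nat_lit 227) (nat_lit 137))) (XT.nd (nat_lit 78) (nat_lit 0) (nat_lit 0) (XT.lf (nat_lit 0) (nat_lit 51964888446) (nat_lit 76) (nat_lit 197423857931) (nat_lit 76) (nat_lit 183522070207) (nat_lit 1) (nat_lit 4) (nat_lit 2) (nat_lit 5) (nat_lit 2) (nat_lit 4) (nat_lit 357) (nat_lit 227) (nat_lit 136)) (XT.nd (nat_lit 78) (nat_lit 0) (nat_lit 0) (XT.lf (nat_lit 0) (nat_lit 59507206817) (nat_lit 76) (nat_lit 204408383166) (nat_lit 76) (nat_lit 190498692678) (nat_lit 1) (nat_lit 4) (nat_lit 2) (nat_lit 5) (nat_lit 2) (nat_lit 4) (nat_lit 358) (nat_lit 227) (nat_lit 135)) (XT.lf (nat_lit 0) (nat_lit 67421340634) (nat_lit 76) (nat_lit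 211744475328) (nat_lit 76) (nat_lit 197827258398) (nat_lit 1) (nat_lit 4) (nat_lit 2) (nat_lit 5) (nat_lit 2) (nat_lit 4) (nat_lit 359) (nat_lit 227) (nat_lit 134)))))) (XT.nd (nat_lit 30108) (nat_lit 0) (nat_lit 2280) (XT.nd (nat_lit 156) (nat_lit 0) (nat_lit 0) (XT.nd (nat_lit 78) (nat_lit 0) (nat_lit 0) (XT.lf (nat_lit 0) (nat_lit 75726133071) (nat_lit 76) (nat_lit 219449601302) (nat_lit 76) (nat_lit 205525216333) (nat_lit 1) (nat_lit 4) (nat_lit 2) (nat_lit 5) (nat_lit 2) (nat_lit 4) (nat_lit 360) (nat_lit 227) (nat_lit 133)) (XT.lf (nat_lit 0) (nat_lit 84441357445) (nat_lit 76) (nat_lit 227542106627) (nat_lit 76) (nat_lit 213610894953) (nat_lit 1) (nat_lit 4) (nat_lit 2) (nat_lit 5) (nat_lit 2) (nat_lit 4) (nat_lit 361) (nat_lit 227) (nat_lit 132))) (XT.nd (nat_lit 29874) (nat_lit 0) (nat_lit 3116) (XT.lf (nat_lit 0) (nat_lit 93587764290) (nat_lit 76) (nat_lit 236041259172) (nat_lit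 76) (nat_lit 222103545875) (nat_lit 1) (nat_lit 4) (nat_lit 2) (nat_lit 5) (nat_lit 2) (nat_lit 4) (nat_lit 362) (nat_lit 227) (nat_lit 131)) (XT.lf (nat_lit 0) (nat_lit 1723367042) (nat_lit 304) (nat_lit 1259467508) (nat_lit 304) (nat_lit 1259467508) (nat_lit 42) (nat_lit 4) (nat_lit 46) (nat_lit 5) (nat_lit 46) (nat_lit 4) (nat_lit 264) (nat_lit 228) (nat_lit 228)))) (XT.nd (nat_lit 156) (nat_lit 532) (nat_lit 0) (XT.nd (nat_lit 78) (nat_lit 0) (nat_lit 0) (XT.lf (nat_lit 0) (nat_lit 130772225) (nat_lit 228) (nat_lit 465304248) (nat_lit 304) (nat_lit 8084383046) (nat_lit 38) (nat_lit 5) (nat_lit 41) (nat_lit 5) (nat_lit 42) (nat_lit 4) (nat_lit 265) (nat_lit 228) (nat_lit 227)) (XT.lf (nat_lit 0) (nat_lit 3757748772) (nat_lit 304) (nat_lit 3399296091) (nat_lit 0) (nat_lit 1728788844) (nat_lit 38) (nat_lit 5) (nat_lit 42) (nat_lit 4) (nat_lit 38) (nat_lit 4) (nat_lit 266) (nat_lit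 228) (nat_lit 226))) (XT.nd (nat_lit 78) (nat_lit 304) (nat_lit 0) (XT.lf (nat_lit 0) (nat_lit 1888959175) (nat_lit 228) (nat_lit 5094659829) (nat_lit 228) (nat_lit 2123093662) (nat_lit 35) (nat_lit 4) (nat_lit 38) (nat_lit 5) (nat_lit 38) (nat_lit 4) (nat_lit 267) (nat_lit 228) (nat_lit 225)) (XT.nd (nat_lit 78) (nat_lit 228) (nat_lit 0) (XT.lf (nat_lit 0) (nat_lit 927619467) (nat_lit 304) (nat_lit 1967666486) (nat_lit 76) (nat_lit 6446609923) (nat_lit 34) (nat_lit 5) (nat_lit 38) (nat_lit 5) (nat_lit 35) (nat_lit 4) (nat_lit 268) (nat_lit 228) (nat_lit 224)) (XT.lf (nat_lit 0) (nat_lit 3454500918) (nat_lit 228) (nat_lit 535137597) (nat_lit 304) (nat_lit 5601421490) (nat_lit 31) (nat_lit 5) (nat_lit 34) (nat_lit 5) (nat_lit 35) (nat_lit 4) (nat_lit 269) (nat_lit 228) (nat_lit 223))))))))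
noncomputable def xc72 : XT := (XT.nd (nat_lit 1326) (nat_lit 532) (nat_lit 0) (XT.nd (nat_lit 624) (nat_lit 608) (nat_lit 0) (XT.nd (nat_lit 312) (nat_lit 380) (nat_lit 0) (XT.nd (nat_lit 156) (nat_lit 152) (nat_lit 0) (XT.nd (nat_lit 78) (nat_lit 304) (nat_lit 0) (XT.lf (nat_lit 0) (nat_lit 7147821125) (nat_lit 304) (nat_lit 835110540) (nat_lit 0) (nat_lit 1873043269) (nat_lit 31) (nat_lit 5) (nat_lit 35) (nat_lit 4) (nat_lit 31) (nat_lit 4) (nat_lit 270) (nat_lit 228) (nat_lit 222)) (XT.lf (nat_lit 0) (nat_lit 285239304) (nat_lit 304) (nat_lit 5428593935) (nat_lit 76) (nat_lit 4422148368) (nat_lit 27) (nat_lit 5) (nat_lit 31) (nat_lit 5) (nat_lit 28) (nat_lit 4) (nat_lit 271) (nat_lit 228) (nat_lit 221))) (XT.nd (nat_lit 78) (nat_lit 152) (nat_lit 0) (XT.lf (nat_lit 0) (nat_lit 3237074846) (nat_lit 304) (nat_lit 80718361) (nat_lit 76) (nat_lit 7115371413) (nat_lit 27) (nat_lit 5)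 (nat_lit 31) (nat_lit 5) (nat_lit 28) (nat_lit 4) (nat_lit 272) (nat_lit 228) (nat_lit 220)) (XT.lf (nat_lit 0) (nat_lit 5557361227) (nat_lit 152) (nat_lit 756773250) (nat_lit 228) (nat_lit 4432557389) (nat_lit 25) (nat_lit 5) (nat_lit 27) (nat_lit 5) (nat_lit 28) (nat_lit 4) (nat_lit 273) (nat_lit 228) (nat_lit 219)))) (XT.nd (nat_lit 156) (nat_lit 152) (nat_lit 0) (XT.nd (nat_lit 78) (nat_lit 76) (nat_lit 0) (XT.lf (nat_lit 0) (nat_lit 223789407) (nat_lit 152) (nat_lit 9249269015) (nat_lit 152) (nat_lit 1606785722) (nat_lit 23) (nat_lit 4) (nat_lit 25) (nat_lit 5) (nat_lit 25) (nat_lit 4) (nat_lit 274) (nat_lit 228) (nat_lit 218)) (XT.lf (nat_lit 0) (nat_lit 1312072222) (nat_lit 228) (nat_lit 5531413698) (nat_lit 76) (nat_lit 4585656247) (nat_lit 22) (nat_lit 5) (nat_lit 25) (nat_lit 5) (nat_lit 23) (nat_lit 4) (nat_lit 275) (nat_lit 228) (nat_lit 217))) (XT.nd (nat_lit 78) (nat_lit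 152) (nat_lit 0) (XT.lf (nat_lit 0) (nat_lit 4221545301) (nat_lit 228) (nat_lit 118116232) (nat_lit 76) (nat_lit 7460294666) (nat_lit 22) (nat_lit 5) (nat_lit 25) (nat_lit 5) (nat_lit 23) (nat_lit 4) (nat_lit 276) (nat_lit 228) (nat_lit 216)) (XT.lf (nat_lit 0) (nat_lit 5601082514) (nat_lit 152) (nat_lit 1666354090) (nat_lit 228) (nat_lit 4922614416) (nat_lit 20) (nat_lit 5) (nat_lit 22) (nat_lit 5) (nat_lit 23) (nat_lit 4) (nat_lit 277) (nat_lit 228) (nat_lit 215))))) (XT.nd (nat_lit 312) (nat_lit 304) (nat_lit 0) (XT.nd (nat_lit 156) (nat_lit 76) (nat_lit 0) (XT.nd (nat_lit 78) (nat_lit 228) (nat_lit 0) (XT.lf (nat_lit 0) (nat_lit 10390599790) (nat_lit 228) (nat_lit 1152996475) (nat_lit 0) (nat_lit 1060079087) (nat_lit 20) (nat_lit 5) (nat_lit 23) (nat_lit 4) (nat_lit 20) (nat_lit 4) (nat_lit 278) (nat_lit 228) (nat_lit 214)) (XT.lf (nat_lit 0) (nat_lit 619341166) (nat_lit 228) (nat_lit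 8514281030) (nat_lit 76) (nat_lit 3903732232) (nat_lit 17) (nat_lit 5) (nat_lit 20) (nat_lit 5) (nat_lit 18) (nat_lit 4) (nat_lit 279) (nat_lit 228) (nat_lit 213))) (XT.nd (nat_lit 78) (nat_lit 76) (nat_lit 0) (XT.lf (nat_lit 0) (nat_lit 3448986069) (nat_lit 228) (nat_lit 3145327756) (nat_lit 76) (nat_lit 6900326953) (nat_lit 17) (nat_lit 5) (nat_lit 20) (nat_lit 5) (nat_lit 18) (nat_lit 4) (nat_lit 280) (nat_lit 228) (nat_lit 212)) (XT.lf (nat_lit 0) (nat_lit 2436767050) (nat_lit 76) (nat_lit 3935804769) (nat_lit 152) (nat_lit 7604821819) (nat_lit 16) (nat_lit 5) (nat_lit 17) (nat_lit 5) (nat_lit 18) (nat_lit 4) (nat_lit 281) (nat_lit 228) (nat_lit 211)))) (XT.nd (nat_lit 156) (nat_lit 304) (nat_lit 0) (XT.nd (nat_lit 78) (nat_lit 0) (nat_lit 0) (XT.lf (nat_lit 0) (nat_lit 8276017345) (nat_lit 76) (nat_lit 1136028940) (nat_lit 152) (nat_lit 5073966782) (nat_lit 16) (nat_lit 5) (nat_lit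 17) (nat_lit 5) (nat_lit 18) (nat_lit 4) (nat_lit 282) (nat_lit 228) (nat_lit 210)) (XT.lf (nat_lit 0) (nat_lit 12551368962) (nat_lit 152) (nat_lit 769372998) (nat_lit 0) (nat_lit 1702131974) (nat_lit 16) (nat_lit 5) (nat_lit 18) (nat_lit 4) (nat_lit 16) (nat_lit 4) (nat_lit 283) (nat_lit 228) (nat_lit 209))) (XT.nd (nat_lit 78) (nat_lit 76) (nat_lit 0) (XT.lf (nat_lit 0) (nat_lit 272474765) (nat_lit 228) (nat_lit 10629005030) (nat_lit 76) (nat_lit 4684091896) (nat_lit 13) (nat_lit 5) (nat_lit 16) (nat_lit 5) (nat_lit 14) (nat_lit 4) (nat_lit 284) (nat_lit 228) (nat_lit 208)) (XT.nd (nat_lit 78) (nat_lit 76) (nat_lit 0) (XT.lf (nat_lit 0) (nat_lit 3007733462) (nat_lit 228) (nat_lit 5343954522) (nat_lit 76) (nat_lit 7826009978) (nat_lit 13) (nat_lit 5) (nat_lit 16) (nat_lit 5) (nat_lit 14) (nat_lit 4) (nat_lit 285) (nat_lit 228) (nat_lit 207)) (XT.lf (nat_lit 0) (nat_lit 91136108) (nat_lit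 76) (nat_lit 5717561342) (nat_lit 152) (nat_lit 10994453968) (nat_lit 12) (nat_lit 5) (nat_lit 13) (nat_lit 5) (nat_lit 14) (nat_lit 4) (nat_lit 286) (nat_lit 228) (nat_lit 206))))))) (XT.nd (nat_lit 624) (nat_lit 228) (nat_lit 0) (XT.nd (nat_lit 312) (nat_lit 152) (nat_lit 0) (XT.nd (nat_lit 156) (nat_lit 152) (nat_lit 0) (XT.nd (nat_lit 78) (nat_lit 0) (nat_lit 0) (XT.lf (nat_lit 0) (nat_lit 5868271160) (nat_lit 76) (nat_lit 2901112631) (nat_lit 152) (nat_lit 8689670036) (nat_lit 12) (nat_lit 5) (nat_lit 13) (nat_lit 5) (nat_lit 14) (nat_lit 4) (nat_lit 287) (nat_lit 228) (nat_lit 205)) (XT.lf (nat_lit 0) (nat_lit 11810865340) (nat_lit 152) (nat_lit 6326982473) (nat_lit 0) (nat_lit 13417867) (nat_lit 12) (nat_lit 5) (nat_lit 14) (nat_lit 4) (nat_lit 12) (nat_lit 4) (nat_lit 288) (nat_lit 228) (nat_lit 204))) (XT.nd (nat_lit 78) (nat_lit 152) (nat_lit 0) (XT.lf (nat_lit 0) (nat_lit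 14987107905) (nat_lit 152) (nat_lit 954806055) (nat_lit 0) (nat_lit 2937184935) (nat_lit 12) (nat_lit 5) (nat_lit 14) (nat_lit 4) (nat_lit 12) (nat_lit 4) (nat_lit 289) (nat_lit 228) (nat_lit 203)) (XT.lf (nat_lit 0) (nat_lit 4735394167) (nat_lit 152) (nat_lit 13598918075) (nat_lit 152) (nat_lit 1308542251) (nat_lit 10) (nat_lit 4) (nat_lit 12) (nat_lit 5) (nat_lit 12) (nat_lit 4) (nat_lit 290) (nat_lit 228) (nat_lit 202)))) (XT.nd (nat_lit 156) (nat_lit 76) (nat_lit 0) (XT.nd (nat_lit 78) (nat_lit 0) (nat_lit 0) (XT.lf (nat_lit 0) (nat_lit 1314046918) (nat_lit 228) (nat_lit 9825582357) (nat_lit 76) (nat_lit 9306452506) (nat_lit 9) (nat_lit 5) (nat_lit 12) (nat_lit 5) (nat_lit 10) (nat_lit 4) (nat_lit 291) (nat_lit 228) (nat_lit 201)) (XT.lf (nat_lit 0) (nat_lit 3965191950) (nat_lit 228) (nat_lit 4608832869) (nat_lit 76) (nat_lit 12717422325) (nat_lit 9) (nat_lit 5) (nat_lit 12) (nat_lit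 5) (nat_lit 10) (nat_lit 4) (nat_lit 292) (nat_lit 228) (nat_lit 200))) (XT.nd (nat_lit 78) (nat_lit 0) (nat_lit 0) (XT.lf (nat_lit 0) (nat_lit 801285106) (nat_lit 76) (nat_lit 5904311815) (nat_lit 152) (nat_lit 15475762421) (nat_lit 8) (nat_lit 5) (nat_lit 9) (nat_lit 5) (nat_lit 10) (nat_lit 4) (nat_lit 293) (nat_lit 228) (nat_lit 199)) (XT.lf (nat_lit 0) (nat_lit 6550303996) (nat_lit 76) (nat_lit 3056190509) (nat_lit 152) (nat_lit 13508207312) (nat_lit 8) (nat_lit 5) (nat_lit 9) (nat_lit 5) (nat_lit 10) (nat_lit 4) (nat_lit 294) (nat_lit 228) (nat_lit 198))))) (XT.nd (nat_lit 312) (nat_lit 152) (nat_lit 0) (XT.nd (nat_lit 156) (nat_lit 76) (nat_lit 0) (XT.nd (nat_lit 78) (nat_lit 0) (nat_lit 0) (XT.lf (nat_lit 0) (nat_lit 12499523110) (nat_lit 76) (nat_lit 100932477) (nat_lit 152) (nat_lit 11496958030) (nat_lit 8) (nat_lit 5) (nat_lit 9) (nat_lit 5) (nat_lit 10) (nat_lit 4) (nat_lit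 295) (nat_lit 228) (nat_lit 197)) (XT.lf (nat_lit 0) (nat_lit 15740955227) (nat_lit 152) (nat_lit 6515073856) (nat_lit 0) (nat_lit 2873488117) (nat_lit 8) (nat_lit 5) (nat_lit 10) (nat_lit 4) (nat_lit 8) (nat_lit 4) (nat_lit 296) (nat_lit 228) (nat_lit 196))) (XT.nd (nat_lit 78) (nat_lit 76) (nat_lit 0) (XT.lf (nat_lit 0) (nat_lit 18992486375) (nat_lit 152) (nat_lit 1260861493) (nat_lit 0) (nat_lit 5962271308) (nat_lit 8) (nat_lit 5) (nat_lit 10) (nat_lit 4) (nat_lit 8) (nat_lit 4) (nat_lit 297) (nat_lit 228) (nat_lit 195)) (XT.lf (nat_lit 0) (nat_lit 4317003520) (nat_lit 76) (nat_lit 18111611936) (nat_lit 76) (nat_lit 4926398816) (nat_lit 7) (nat_lit 4) (nat_lit 8) (nat_lit 5) (nat_lit 8) (nat_lit 4) (nat_lit 298) (nat_lit 228) (nat_lit 194)))) (XT.nd (nat_lit 156) (nat_lit 152) (nat_lit 0) (XT.nd (nat_lit 78) (nat_lit 0) (nat_lit 0) (XT.lf (nat_lit 0) (nat_lit 10141552640) (nat_lit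 76) (nat_lit 15871947102) (nat_lit 76) (nat_lit 2539116788) (nat_lit 7) (nat_lit 4) (nat_lit 8) (nat_lit 5) (nat_lit 8) (nat_lit 4) (nat_lit 299) (nat_lit 228) (nat_lit 193)) (XT.lf (nat_lit 0) (nat_lit 16184964064) (nat_lit 76) (nat_lit 13550374130) (nat_lit 76) (nat_lit 76956013) (nat_lit 7) (nat_lit 4) (nat_lit 8) (nat_lit 5) (nat_lit 8) (nat_lit 4) (nat_lit 300) (nat_lit 228) (nat_lit 192))) (XT.nd (nat_lit 78) (nat_lit 76) (nat_lit 0) (XT.lf (nat_lit 0) (nat_lit 2387020130) (nat_lit 152) (nat_lit 8713919997) (nat_lit 76) (nat_lit 20034181397) (nat_lit 6) (nat_lit 5) (nat_lit 8) (nat_lit 5) (nat_lit 7) (nat_lit 4) (nat_lit 301) (nat_lit 228) (nat_lit 191)) (XT.nd (nat_lit 78) (nat_lit 76) (nat_lit 0) (XT.lf (nat_lit 0) (nat_lit 4932550763) (nat_lit 152) (nat_lit 3623099481) (nat_lit 76) (nat_lit 23970399589) (nat_lit 6) (nat_lit 5) (nat_lit 8) (nat_lit 5) (nat_lit 7) (nat_lit 4)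 (nat_lit 302) (nat_lit 228) (nat_lit 190)) (XT.lf (nat_lit 0) (nat_lit 1713289878) (nat_lit 76) (nat_lit 5881619123) (nat_lit 152) (nat_lit 26392204480) (nat_lit 5) (nat_lit 5) (nat_lit 6) (nat_lit 5) (nat_lit 7) (nat_lit 4) (nat_lit 303) (nat_lit 228) (nat_lit 189))))))))
noncomputable def xc73 : XT := (XT.nd (nat_lit 1326) (nat_lit 76) (nat_lit 0) (XT.nd (nat_lit 624) (nat_lit 76) (nat_lit 0) (XT.nd (nat_lit 312) (nat_lit 76) (nat_lit 0) (XT.nd (nat_lit 156) (nat_lit 0) (nat_lit 0) (XT.nd (nat_lit 78) (nat_lit 0) (nat_lit 0) (XT.lf (nat_lit 0) (nat_lit 7379505546) (nat_lit 76) (nat_lit 3035831554) (nat_lit 152) (nat_lit 25104708929) (nat_lit 5) (nat_lit 5) (nat_lit 6) (nat_lit 5) (nat_lit 7) (nat_lit 4) (nat_lit 304) (nat_lit 228) (nat_lit 188)) (XT.lf (nat_lit 0) (nat_lit 13269242479) (nat_lit 76) (nat_lit 72870794) (nat_lit 152) (nat_lit 23789305895) (nat_lit 5) (nat_lit 5) (nat_lit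 6) (nat_lit 5) (nat_lit 7) (nat_lit 4) (nat_lit 305) (nat_lit 228) (nat_lit 187))) (XT.nd (nat_lit 78) (nat_lit 0) (nat_lit 0) (XT.lf (nat_lit 0) (nat_lit 16429267987) (nat_lit 152) (nat_lit 19475607591) (nat_lit 0) (nat_lit 2917840828) (nat_lit 5) (nat_lit 5) (nat_lit 7) (nat_lit 4) (nat_lit 5) (nat_lit 4) (nat_lit 306) (nat_lit 228) (nat_lit 186)) (XT.lf (nat_lit 0) (nat_lit 19640169629) (nat_lit 152) (nat_lit 14926406996) (nat_lit 0) (nat_lit 6033587111) (nat_lit 5) (nat_lit 5) (nat_lit 7) (nat_lit 4) (nat_lit 5) (nat_lit 4) (nat_lit 307) (nat_lit 228) (nat_lit 185)))) (XT.nd (nat_lit 156) (nat_lit 76) (nat_lit 0) (XT.nd (nat_lit 78) (nat_lit 0) (nat_lit 0) (XT.lf (nat_lit 0) (nat_lit 22981325488) (nat_lit 152) (nat_lit 10202605758) (nat_lit 0) (nat_lit 9284118818) (nat_lit 5) (nat_lit 5) (nat_lit 7) (nat_lit 4) (nat_lit 5) (nat_lit 4) (nat_lit 308) (nat_lit 228) (nat_lit 184))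 (XT.lf (nat_lit 0) (nat_lit 26460690696) (nat_lit 152) (nat_lit 5292956733) (nat_lit 0) (nat_lit 12677175310) (nat_lit 5) (nat_lit 5) (nat_lit 7) (nat_lit 4) (nat_lit 5) (nat_lit 4) (nat_lit 309) (nat_lit 228) (nat_lit 183))) (XT.nd (nat_lit 78) (nat_lit 76) (nat_lit 0) (XT.lf (nat_lit 0) (nat_lit 30086549456) (nat_lit 152) (nat_lit 185770278) (nat_lit 0) (nat_lit 16220835293) (nat_lit 5) (nat_lit 5) (nat_lit 7) (nat_lit 4) (nat_lit 5) (nat_lit 4) (nat_lit 310) (nat_lit 228) (nat_lit 182)) (XT.lf (nat_lit 0) (nat_lit 5300771360) (nat_lit 76) (nat_lit 28649523301) (nat_lit 76) (nat_lit 14705524589) (nat_lit 4) (nat_lit 4) (nat_lit 5) (nat_lit 5) (nat_lit 5) (nat_lit 4) (nat_lit 311) (nat_lit 228) (nat_lit 181))))) (XT.nd (nat_lit 312) (nat_lit 76) (nat_lit 0) (XT.nd (nat_lit 156) (nat_lit 0) (nat_lit 0) (XT.nd (nat_lit 78) (nat_lit 0) (nat_lit 0) (XT.lf (nat_lit 0) (nat_lit 11023164162)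 (nat_lit 76) (nat_lit 26961587292) (nat_lit 76) (nat_lit 12943031866) (nat_lit 4) (nat_lit 4) (nat_lit 5) (nat_lit 5) (nat_lit 5) (nat_lit 4) (nat_lit 312) (nat_lit 228) (nat_lit 180)) (XT.lf (nat_lit 0) (nat_lit 16988890468) (nat_lit 76) (nat_lit 25207638922) (nat_lit 76) (nat_lit 11118077101) (nat_lit 4) (nat_lit 4) (nat_lit 5) (nat_lit 5) (nat_lit 5) (nat_lit 4) (nat_lit 313) (nat_lit 228) (nat_lit 179))) (XT.nd (nat_lit 78) (nat_lit 0) (nat_lit 0) (XT.lf (nat_lit 0) (nat_lit 23212154388) (nat_lit 76) (nat_lit 23383502123) (nat_lit 76) (nat_lit 9226315165) (nat_lit 4) (nat_lit 4) (nat_lit 5) (nat_lit 5) (nat_lit 5) (nat_lit 4) (nat_lit 314) (nat_lit 228) (nat_lit 178)) (XT.lf (nat_lit 0) (nat_lit 29707773216) (nat_lit 76) (nat_lit 21484833711) (nat_lit 76) (nat_lit 7263241861) (nat_lit 4) (nat_lit 4) (nat_lit 5) (nat_lit 5) (nat_lit 5) (nat_lit 4) (nat_lit 315) (nat_lit 228) (nat_lit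 177)))) (XT.nd (nat_lit 156) (nat_lit 76) (nat_lit 0) (XT.nd (nat_lit 78) (nat_lit 0) (nat_lit 0) (XT.lf (nat_lit 0) (nat_lit 36491212713) (nat_lit 76) (nat_lit 19507113049) (nat_lit 76) (nat_lit 5224183206) (nat_lit 4) (nat_lit 4) (nat_lit 5) (nat_lit 5) (nat_lit 5) (nat_lit 4) (nat_lit 316) (nat_lit 228) (nat_lit 176)) (XT.lf (nat_lit 0) (nat_lit 43578623924) (nat_lit 76) (nat_lit 17445631278) (nat_lit 76) (nat_lit 3104284298) (nat_lit 4) (nat_lit 4) (nat_lit 5) (nat_lit 5) (nat_lit 5) (nat_lit 4) (nat_lit 317) (nat_lit 228) (nat_lit 175))) (XT.nd (nat_lit 78) (nat_lit 76) (nat_lit 0) (XT.lf (nat_lit 0) (nat_lit 50986881638) (nat_lit 76) (nat_lit 15295480106) (nat_lit 76) (nat_lit 898497759) (nat_lit 4) (nat_lit 4) (nat_lit 5) (nat_lit 5) (nat_lit 5) (nat_lit 4) (nat_lit 318) (nat_lit 228) (nat_lit 174)) (XT.nd (nat_lit 78) (nat_lit 0) (nat_lit 0) (XT.lf (nat_lit 0) (nat_lit 1353669845)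 (nat_lit 152) (nat_lit 11674945229) (nat_lit 76) (nat_lit 57357029665) (nat_lit 3) (nat_lit 5) (nat_lit 5) (nat_lit 5) (nat_lit 4) (nat_lit 4) (nat_lit 319) (nat_lit 228) (nat_lit 173)) (XT.lf (nat_lit 0) (nat_lit 3670596214) (nat_lit 152) (nat_lit 6975709091) (nat_lit 76) (nat_lit 63104537790) (nat_lit 3) (nat_lit 5) (nat_lit 5) (nat_lit 5) (nat_lit 4) (nat_lit 4) (nat_lit 320) (nat_lit 228) (nat_lit 172))))))) (XT.nd (nat_lit 702) (nat_lit 0) (nat_lit 0) (XT.nd (nat_lit 312) (nat_lit 0) (nat_lit 0) (XT.nd (nat_lit 156) (nat_lit 0) (nat_lit 0) (XT.nd (nat_lit 78) (nat_lit 76) (nat_lit 0) (XT.lf (nat_lit 0) (nat_lit 6086555378) (nat_lit 152) (nat_lit 2071052727) (nat_lit 76) (nat_lit 69127560249) (nat_lit 3) (nat_lit 5) (nat_lit 5) (nat_lit 5) (nat_lit 4) (nat_lit 4) (nat_lit 321) (nat_lit 228) (nat_lit 171)) (XT.lf (nat_lit 0) (nat_lit 3151571589) (nat_lit 76) (nat_lit 5504932896)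 (nat_lit 152) (nat_lit 72338070846) (nat_lit 2) (nat_lit 5) (nat_lit 3) (nat_lit 5) (nat_lit 4) (nat_lit 4) (nat_lit 322) (nat_lit 228) (nat_lit 170))) (XT.nd (nat_lit 78) (nat_lit 0) (nat_lit 0) (XT.lf (nat_lit 0) (nat_lit 8679548346) (nat_lit 76) (nat_lit 2694794444) (nat_lit 152) (nat_lit 73514164143) (nat_lit 2) (nat_lit 5) (nat_lit 3) (nat_lit 5) (nat_lit 4) (nat_lit 4) (nat_lit 323) (nat_lit 228) (nat_lit 169)) (XT.lf (nat_lit 0) (nat_lit 14216953398) (nat_lit 152) (nat_lit 74524159733) (nat_lit 0) (nat_lit 236600690) (nat_lit 2) (nat_lit 5) (nat_lit 4) (nat_lit 4) (nat_lit 2) (nat_lit 4) (nat_lit 324) (nat_lit 228) (nat_lit 168)))) (XT.nd (nat_lit 156) (nat_lit 0) (nat_lit 0) (XT.nd (nat_lit 78) (nat_lit 0) (nat_lit 0) (XT.lf (nat_lit 0) (nat_lit 17231477053) (nat_lit 152) (nat_lit 72824968378) (nat_lit 0) (nat_lit 3213468139) (nat_lit 2) (nat_lit 5) (nat_lit 4) (nat_lit 4)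 (nat_lit 2) (nat_lit 4) (nat_lit 325) (nat_lit 228) (nat_lit 167)) (XT.lf (nat_lit 0) (nat_lit 20383017901) (nat_lit 152) (nat_lit 71065265536) (nat_lit 0) (nat_lit 6329145932) (nat_lit 2) (nat_lit 5) (nat_lit 4) (nat_lit 4) (nat_lit 2) (nat_lit 4) (nat_lit 326) (nat_lit 228) (nat_lit 166))) (XT.nd (nat_lit 78) (nat_lit 0) (nat_lit 0) (XT.lf (nat_lit 0) (nat_lit 23679079610) (nat_lit 152) (nat_lit 69240861438) (nat_lit 0) (nat_lit 9591052351) (nat_lit 2) (nat_lit 5) (nat_lit 4) (nat_lit 4) (nat_lit 2) (nat_lit 4) (nat_lit 327) (nat_lit 228) (nat_lit 165)) (XT.nd (nat_lit 78) (nat_lit 0) (nat_lit 0) (XT.lf (nat_lit 0) (nat_lit 27127509945) (nat_lit 152) (nat_lit 67347412265) (nat_lit 0) (nat_lit 13006953840) (nat_lit 2) (nat_lit 5) (nat_lit 4) (nat_lit 4) (nat_lit 2) (nat_lit 4) (nat_lit 328) (nat_lit 228) (nat_lit 164)) (XT.lf (nat_lit 0) (nat_lit 30736519456) (nat_lit 152) (nat_lit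 65380409805) (nat_lit 0) (nat_lit 16584983496) (nat_lit 2) (nat_lit 5) (nat_lit 4) (nat_lit 4) (nat_lit 2) (nat_lit 4) (nat_lit 329) (nat_lit 228) (nat_lit 163)))))) (XT.nd (nat_lit 312) (nat_lit 0) (nat_lit 0) (XT.nd (nat_lit 156) (nat_lit 0) (nat_lit 0) (XT.nd (nat_lit 78) (nat_lit 0) (nat_lit 0) (XT.lf (nat_lit 0) (nat_lit 34514701022) (nat_lit 152) (nat_lit 63335170717) (nat_lit 0) (nat_lit 20333660438) (nat_lit 2) (nat_lit 5) (nat_lit 4) (nat_lit 4) (nat_lit 2) (nat_lit 4) (nat_lit 330) (nat_lit 228) (nat_lit 162)) (XT.lf (nat_lit 0) (nat_lit 38471050313) (nat_lit 152) (nat_lit 61206825386) (nat_lit 0) (nat_lit 24261910089) (nat_lit 2) (nat_lit 5) (nat_lit 4) (nat_lit 4) (nat_lit 2) (nat_lit 4) (nat_lit 331) (nat_lit 228) (nat_lit 161))) (XT.nd (nat_lit 78) (nat_lit 0) (nat_lit 0) (XT.lf (nat_lit 0) (nat_lit 42614987210) (nat_lit 152) (nat_lit 58990306323) (nat_lit 0) (nat_lit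 28379085422) (nat_lit 2) (nat_lit 5) (nat_lit 4) (nat_lit 4) (nat_lit 2) (nat_lit 4) (nat_lit 332) (nat_lit 228) (nat_lit 160)) (XT.lf (nat_lit 0) (nat_lit 46956378227) (nat_lit 152) (nat_lit 56680336101) (nat_lit 0) (nat_lit 32694989236) (nat_lit 2) (nat_lit 5) (nat_lit 4) (nat_lit 4) (nat_lit 2) (nat_lit 4) (nat_lit 333) (nat_lit 228) (nat_lit 159)))) (XT.nd (nat_lit 156) (nat_lit 0) (nat_lit 0) (XT.nd (nat_lit 78) (nat_lit 0) (nat_lit 0) (XT.lf (nat_lit 0) (nat_lit 51505560011) (nat_lit 152) (nat_lit 54271414790) (nat_lit 0) (nat_lit 37219897493) (nat_lit 2) (nat_lit 5) (nat_lit 4) (nat_lit 4) (nat_lit 2) (nat_lit 4) (nat_lit 334) (nat_lit 228) (nat_lit 158)) (XT.lf (nat_lit 0) (nat_lit 56273363946) (nat_lit 152) (nat_lit 51757806865) (nat_lit 0) (nat_lit 41964583784) (nat_lit 2) (nat_lit 5) (nat_lit 4) (nat_lit 4) (nat_lit 2) (nat_lit 4) (nat_lit 335) (nat_lit 228) (nat_lit 157)))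 (XT.nd (nat_lit 78) (nat_lit 0) (nat_lit 0) (XT.lf (nat_lit 0) (nat_lit 61271141947) (nat_lit 152) (nat_lit 49133527545) (nat_lit 0) (nat_lit 46940344981) (nat_lit 2) (nat_lit 5) (nat_lit 4) (nat_lit 4) (nat_lit 2) (nat_lit 4) (nat_lit 336) (nat_lit 228) (nat_lit 156)) (XT.nd (nat_lit 78) (nat_lit 0) (nat_lit 0) (XT.lf (nat_lit 0) (nat_lit 66510793486) (nat_lit 152) (nat_lit 46392328544) (nat_lit 0) (nat_lit 52159028134) (nat_lit 2) (nat_lit 5) (nat_lit 4) (nat_lit 4) (nat_lit 2) (nat_lit 4) (nat_lit 337) (nat_lit 228) (nat_lit 155)) (XT.lf (nat_lit 0) (nat_lit 72004793922) (nat_lit 152) (nat_lit 43527683200) (nat_lit 0) (nat_lit 57633058680) (nat_lit 2) (nat_lit 5) (nat_lit 4) (nat_lit 4) (nat_lit 2) (nat_lit 4) (nat_lit 338) (nat_lit 228) (nat_lit 154))))))))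
noncomputable def xc74 : XT := (XT.nd (nat_lit 1326) (nat_lit 0) (nat_lit 0) (XT.nd (nat_lit 624) (nat_lit 76) (nat_lit 0) (XT.nd (nat_lit 312) (nat_lit 0) (nat_lit 0) (XT.nd (nat_lit 156) (nat_lit 0) (nat_lit 0) (XT.nd (nat_lit 78) (nat_lit 0) (nat_lit 0) (XT.lf (nat_lit 0) (nat_lit 77766224210) (nat_lit 152) (nat_lit 40532770927) (nat_lit 0) (nat_lit 63375470025) (nat_lit 2) (nat_lit 5) (nat_lit 4) (nat_lit 4) (nat_lit 2) (nat_lit 4) (nat_lit 339) (nat_lit 228) (nat_lit 153)) (XT.lf (nat_lit 0) (nat_lit 83808802041) (nat_lit 152) (nat_lit 37400460983) (nat_lit 0) (nat_lit 69399934576) (nat_lit 2) (nat_lit 5) (nat_lit 4) (nat_lit 4) (nat_lit 2) (nat_lit 4) (nat_lit 340) (nat_lit 228) (nat_lit 152))) (XT.nd (nat_lit 78) (nat_lit 0) (nat_lit 0) (XT.lf (nat_lit 0) (nat_lit 90146914504) (nat_lit 152) (nat_lit 34123295486) (nat_lit 0) (nat_lit 75720796297) (nat_lit 2) (nat_lit 5) (nat_lit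 4) (nat_lit 4) (nat_lit 2) (nat_lit 4) (nat_lit 341) (nat_lit 228) (nat_lit 151)) (XT.lf (nat_lit 0) (nat_lit 96795652343) (nat_lit 152) (nat_lit 30693471662) (nat_lit 0) (nat_lit 82353104858) (nat_lit 2) (nat_lit 5) (nat_lit 4) (nat_lit 4) (nat_lit 2) (nat_lit 4) (nat_lit 342) (nat_lit 228) (nat_lit 150)))) (XT.nd (nat_lit 156) (nat_lit 0) (nat_lit 0) (XT.nd (nat_lit 78) (nat_lit 0) (nat_lit 0) (XT.lf (nat_lit 0) (nat_lit 103770845888) (nat_lit 152) (nat_lit 27102823263) (nat_lit 0) (nat_lit 89312651471) (nat_lit 2) (nat_lit 5) (nat_lit 4) (nat_lit 4) (nat_lit 2) (nat_lit 4) (nat_lit 343) (nat_lit 228) (nat_lit 149)) (XT.lf (nat_lit 0) (nat_lit 111089102741) (nat_lit 152) (nat_lit 23342801127) (nat_lit 0) (nat_lit 96616006484) (nat_lit 2) (nat_lit 5) (nat_lit 4) (nat_lit 4) (nat_lit 2) (nat_lit 4) (nat_lit 344) (nat_lit 228) (nat_lit 148))) (XT.nd (nat_lit 78) (nat_lit 0) (nat_lit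 0) (XT.lf (nat_lit 0) (nat_lit 118767847324) (nat_lit 152) (nat_lit 19404452819) (nat_lit 0) (nat_lit 104280558839) (nat_lit 2) (nat_lit 5) (nat_lit 4) (nat_lit 4) (nat_lit 2) (nat_lit 4) (nat_lit 345) (nat_lit 228) (nat_lit 147)) (XT.lf (nat_lit 0) (nat_lit 126825362361) (nat_lit 152) (nat_lit 15278401320) (nat_lit 0) (nat_lit 112324557468) (nat_lit 2) (nat_lit 5) (nat_lit 4) (nat_lit 4) (nat_lit 2) (nat_lit 4) (nat_lit 346) (nat_lit 228) (nat_lit 146))))) (XT.nd (nat_lit 312) (nat_lit 0) (nat_lit 0) (XT.nd (nat_lit 156) (nat_lit 76) (nat_lit 0) (XT.nd (nat_lit 78) (nat_lit 0) (nat_lit 0) (XT.lf (nat_lit 0) (nat_lit 135280832413) (nat_lit 152) (nat_lit 10954822698) (nat_lit 0) (nat_lit 120767154751) (nat_lit 2) (nat_lit 5) (nat_lit 4) (nat_lit 4) (nat_lit 2) (nat_lit 4) (nat_lit 347) (nat_lit 228) (nat_lit 145)) (XT.lf (nat_lit 0) (nat_lit 144154389551) (nat_lit 152) (nat_lit 6423422719)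 (nat_lit 0) (nat_lit 129628452108) (nat_lit 2) (nat_lit 5) (nat_lit 4) (nat_lit 4) (nat_lit 2) (nat_lit 4) (nat_lit 348) (nat_lit 228) (nat_lit 144))) (XT.nd (nat_lit 78) (nat_lit 76) (nat_lit 0) (XT.lf (nat_lit 0) (nat_lit 153467161291) (nat_lit 152) (nat_lit 1673412333) (nat_lit 0) (nat_lit 138929547867) (nat_lit 2) (nat_lit 5) (nat_lit 4) (nat_lit 4) (nat_lit 2) (nat_lit 4) (nat_lit 349) (nat_lit 228) (nat_lit 143)) (XT.lf (nat_lit 0) (nat_lit 3415846423) (nat_lit 76) (nat_lit 159878805413) (nat_lit 76) (nat_lit 145330072007) (nat_lit 1) (nat_lit 4) (nat_lit 2) (nat_lit 5) (nat_lit 2) (nat_lit 4) (nat_lit 350) (nat_lit 228) (nat_lit 142)))) (XT.nd (nat_lit 156) (nat_lit 0) (nat_lit 0) (XT.nd (nat_lit 78) (nat_lit 0) (nat_lit 0) (XT.lf (nat_lit 0) (nat_lit 8810206917) (nat_lit 76) (nat_lit 164827485291) (nat_lit 76) (nat_lit 150268161425) (nat_lit 1) (nat_lit 4) (nat_lit 2) (nat_lit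 5) (nat_lit 2) (nat_lit 4) (nat_lit 351) (nat_lit 228) (nat_lit 141)) (XT.lf (nat_lit 0) (nat_lit 14467182296) (nat_lit 76) (nat_lit 170026735877) (nat_lit 76) (nat_lit 155457325860) (nat_lit 1) (nat_lit 4) (nat_lit 2) (nat_lit 5) (nat_lit 2) (nat_lit 4) (nat_lit 352) (nat_lit 228) (nat_lit 140))) (XT.nd (nat_lit 78) (nat_lit 0) (nat_lit 0) (XT.lf (nat_lit 0) (nat_lit 20400241547) (nat_lit 76) (nat_lit 175488936339) (nat_lit 76) (nat_lit 160909920463) (nat_lit 1) (nat_lit 4) (nat_lit 2) (nat_lit 5) (nat_lit 2) (nat_lit 4) (nat_lit 353) (nat_lit 228) (nat_lit 139)) (XT.nd (nat_lit 78) (nat_lit 0) (nat_lit 0) (XT.lf (nat_lit 0) (nat_lit 26623511002) (nat_lit 76) (nat_lit 181227091918) (nat_lit 76) (nat_lit 166638927604) (nat_lit 1) (nat_lit 4) (nat_lit 2) (nat_lit 5) (nat_lit 2) (nat_lit 4) (nat_lit 354) (nat_lit 228) (nat_lit 138)) (XT.lf (nat_lit 0) (nat_lit 33151807970) (nat_lit 76)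 (nat_lit 187254864886) (nat_lit 76) (nat_lit 172657987776) (nat_lit 1) (nat_lit 4) (nat_lit 2) (nat_lit 5) (nat_lit 2) (nat_lit 4) (nat_lit 355) (nat_lit 228) (nat_lit 137))))))) (XT.nd (nat_lit 30264) (nat_lit 0) (nat_lit 1976) (XT.nd (nat_lit 312) (nat_lit 0) (nat_lit 0) (XT.nd (nat_lit 156) (nat_lit 0) (nat_lit 0) (XT.nd (nat_lit 78) (nat_lit 0) (nat_lit 0) (XT.lf (nat_lit 0) (nat_lit 40000676014) (nat_lit 76) (nat_lit 193586607086) (nat_lit 76) (nat_lit 178981432074) (nat_lit 1) (nat_lit 4) (nat_lit 2) (nat_lit 5) (nat_lit 2) (nat_lit 4) (nat_lit 356) (nat_lit 228) (nat_lit 136)) (XT.lf (nat_lit 0) (nat_lit 47186421964) (nat_lit 76) (nat_lit 200237394094) (nat_lit 76) (nat_lit 185624316318) (nat_lit 1) (nat_lit 4) (nat_lit 2) (nat_lit 5) (nat_lit 2) (nat_lit 4) (nat_lit 357) (nat_lit 228) (nat_lit 135))) (XT.nd (nat_lit 78) (nat_lit 0) (nat_lit 0) (XT.lf (nat_lit 0) (nat_lit 54726154739)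 (nat_lit 76) (nat_lit 207223061117) (nat_lit 76) (nat_lit 192602456900) (nat_lit 1) (nat_lit 4) (nat_lit 2) (nat_lit 5) (nat_lit 2) (nat_lit 4) (nat_lit 358) (nat_lit 228) (nat_lit 134)) (XT.lf (nat_lit 0) (nat_lit 62637826082) (nat_lit 76) (nat_lit 214560240696) (nat_lit 76) (nat_lit 199932468438) (nat_lit 1) (nat_lit 4) (nat_lit 2) (nat_lit 5) (nat_lit 2) (nat_lit 4) (nat_lit 359) (nat_lit 228) (nat_lit 133)))) (XT.nd (nat_lit 156) (nat_lit 0) (nat_lit 0) (XT.nd (nat_lit 78) (nat_lit 0) (nat_lit 0) (XT.lf (nat_lit 0) (nat_lit 70940273307) (nat_lit 76) (nat_lit 222266402305) (nat_lit 76) (nat_lit 207631803343) (nat_lit 1) (nat_lit 4) (nat_lit 2) (nat_lit 5) (nat_lit 2) (nat_lit 4) (nat_lit 360) (nat_lit 228) (nat_lit 132)) (XT.lf (nat_lit 0) (nat_lit 79653264145) (nat_lit 76) (nat_lit 230359893949) (nat_lit 76) (nat_lit 215718793364) (nat_lit 1) (nat_lit 4) (nat_lit 2) (nat_lit 5)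 (nat_lit 2) (nat_lit 4) (nat_lit 361) (nat_lit 228) (nat_lit 131))) (XT.nd (nat_lit 29718) (nat_lit 0) (nat_lit 3420) (XT.lf (nat_lit 0) (nat_lit 88797543813) (nat_lit 76) (nat_lit 238859985846) (nat_lit 76) (nat_lit 224212693238) (nat_lit 1) (nat_lit 4) (nat_lit 2) (nat_lit 5) (nat_lit 2) (nat_lit 4) (nat_lit 362) (nat_lit 228) (nat_lit 130)) (XT.lf (nat_lit 0) (nat_lit 352801691) (nat_lit 304) (nat_lit 3360200237) (nat_lit 0) (nat_lit 352801691) (nat_lit 46) (nat_lit 5) (nat_lit 50) (nat_lit 4) (nat_lit 46) (nat_lit 4) (nat_lit 262) (nat_lit 229) (nat_lit 229))))) (XT.nd (nat_lit 312) (nat_lit 836) (nat_lit 0) (XT.nd (nat_lit 156) (nat_lit 304) (nat_lit 0) (XT.nd (nat_lit 78) (nat_lit 304) (nat_lit 0) (XT.lf (nat_lit 0) (nat_lit 3837970729) (nat_lit 304) (nat_lit 1773067343) (nat_lit 0) (nat_lit 2692226955) (nat_lit 46) (nat_lit 5) (nat_lit 50) (nat_lit 4) (nat_lit 46) (nat_lit 4)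 (nat_lit 263) (nat_lit 229) (nat_lit 228)) (XT.lf (nat_lit 0) (nat_lit 3362893153) (nat_lit 304) (nat_lit 3681156689) (nat_lit 304) (nat_lit 1444228368) (nat_lit 42) (nat_lit 4) (nat_lit 46) (nat_lit 5) (nat_lit 46) (nat_lit 4) (nat_lit 264) (nat_lit 229) (nat_lit 227))) (XT.nd (nat_lit 78) (nat_lit 228) (nat_lit 0) (XT.lf (nat_lit 0) (nat_lit 1568855036) (nat_lit 380) (nat_lit 59998874) (nat_lit 76) (nat_lit 7058094776) (nat_lit 41) (nat_lit 5) (nat_lit 46) (nat_lit 5) (nat_lit 42) (nat_lit 4) (nat_lit 265) (nat_lit 229) (nat_lit 226)) (XT.lf (nat_lit 0) (nat_lit 4647472321) (nat_lit 304) (nat_lit 3664545978) (nat_lit 0) (nat_lit 584721607) (nat_lit 38) (nat_lit 5) (nat_lit 42) (nat_lit 4) (nat_lit 38) (nat_lit 4) (nat_lit 266) (nat_lit 229) (nat_lit 225)))) (XT.nd (nat_lit 156) (nat_lit 532) (nat_lit 0) (XT.nd (nat_lit 78) (nat_lit 76) (nat_lit 0) (XT.lf (nat_lit 0) (nat_lit 1532156482)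 (nat_lit 228) (nat_lit 6274753330) (nat_lit 228) (nat_lit 1314282388) (nat_lit 35) (nat_lit 4) (nat_lit 38) (nat_lit 5) (nat_lit 38) (nat_lit 4) (nat_lit 267) (nat_lit 229) (nat_lit 224)) (XT.lf (nat_lit 0) (nat_lit 1650146505) (nat_lit 304) (nat_lit 2432642250) (nat_lit 76) (nat_lit 5276203421) (nat_lit 34) (nat_lit 5) (nat_lit 38) (nat_lit 5) (nat_lit 35) (nat_lit 4) (nat_lit 268) (nat_lit 229) (nat_lit 223))) (XT.nd (nat_lit 78) (nat_lit 304) (nat_lit 0) (XT.lf (nat_lit 0) (nat_lit 2894392739) (nat_lit 228) (nat_lit 1751506789) (nat_lit 304) (nat_lit 4965787505) (nat_lit 31) (nat_lit 5) (nat_lit 34) (nat_lit 5) (nat_lit 35) (nat_lit 4) (nat_lit 269) (nat_lit 229) (nat_lit 222)) (XT.nd (nat_lit 78) (nat_lit 304) (nat_lit 0) (XT.lf (nat_lit 0) (nat_lit 7728811058) (nat_lit 304) (nat_lit 1475508358) (nat_lit 0) (nat_lit 676253172) (nat_lit 31) (nat_lit 5) (nat_lit 35) (nat_lit 4) (nat_lit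 31) (nat_lit 4) (nat_lit 270) (nat_lit 229) (nat_lit 221)) (XT.lf (nat_lit 0) (nat_lit 757427496) (nat_lit 304) (nat_lit 6203218806) (nat_lit 76) (nat_lit 3203006239) (nat_lit 27) (nat_lit 5) (nat_lit 31) (nat_lit 5) (nat_lit 28) (nat_lit 4) (nat_lit 271) (nat_lit 229) (nat_lit 220))))))))
noncomputable def xc75 : XT := (XT.nd (nat_lit 1326) (nat_lit 532) (nat_lit 0) (XT.nd (nat_lit 624) (nat_lit 380) (nat_lit 0) (XT.nd (nat_lit 312) (nat_lit 380) (nat_lit 0) (XT.nd (nat_lit 156) (nat_lit 228) (nat_lit 0) (XT.nd (nat_lit 78) (nat_lit 152) (nat_lit 0) (XT.lf (nat_lit 0) (nat_lit 3656027101) (nat_lit 304) (nat_lit 930982271) (nat_lit 76) (nat_lit 5876666856) (nat_lit 27) (nat_lit 5) (nat_lit 31) (nat_lit 5) (nat_lit 28) (nat_lit 4) (nat_lit 272) (nat_lit 229) (nat_lit 219)) (XT.lf (nat_lit 0) (nat_lit 4604564699) (nat_lit 152) (nat_lit 2062945317) (nat_lit 228) (nat_lit 4113142653) (nat_lit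 25) (nat_lit 5) (nat_lit 27) (nat_lit 5) (nat_lit 28) (nat_lit 4) (nat_lit 273) (nat_lit 229) (nat_lit 218))) (XT.nd (nat_lit 78) (nat_lit 228) (nat_lit 0) (XT.lf (nat_lit 0) (nat_lit 9752818452) (nat_lit 228) (nat_lit 822909370) (nat_lit 0) (nat_lit 541920146) (nat_lit 25) (nat_lit 5) (nat_lit 28) (nat_lit 4) (nat_lit 25) (nat_lit 4) (nat_lit 274) (nat_lit 229) (nat_lit 217)) (XT.lf (nat_lit 0) (nat_lit 1483365109) (nat_lit 228) (nat_lit 6721122176) (nat_lit 76) (nat_lit 3265562949) (nat_lit 22) (nat_lit 5) (nat_lit 25) (nat_lit 5) (nat_lit 23) (nat_lit 4) (nat_lit 275) (nat_lit 229) (nat_lit 216)))) (XT.nd (nat_lit 156) (nat_lit 228) (nat_lit 0) (XT.nd (nat_lit 78) (nat_lit 152) (nat_lit 0) (XT.lf (nat_lit 0) (nat_lit 4345763054) (nat_lit 228) (nat_lit 1378084813) (nat_lit 76) (nat_lit 6119510309) (nat_lit 22) (nat_lit 5) (nat_lit 25) (nat_lit 5) (nat_lit 23) (nat_lit 4) (nat_lit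 276) (nat_lit 229) (nat_lit 215)) (XT.lf (nat_lit 0) (nat_lit 4230326804) (nat_lit 152) (nat_lit 3095092753) (nat_lit 228) (nat_lit 4911478661) (nat_lit 20) (nat_lit 5) (nat_lit 22) (nat_lit 5) (nat_lit 23) (nat_lit 4) (nat_lit 277) (nat_lit 229) (nat_lit 214))) (XT.nd (nat_lit 78) (nat_lit 228) (nat_lit 0) (XT.lf (nat_lit 0) (nat_lit 10032040999) (nat_lit 152) (nat_lit 355717289) (nat_lit 228) (nat_lit 2265932609) (nat_lit 20) (nat_lit 5) (nat_lit 22) (nat_lit 5) (nat_lit 23) (nat_lit 4) (nat_lit 278) (nat_lit 229) (nat_lit 213)) (XT.lf (nat_lit 0) (nat_lit 494709030) (nat_lit 228) (nat_lit 10144201925) (nat_lit 76) (nat_lit 2452288928) (nat_lit 17) (nat_lit 5) (nat_lit 20) (nat_lit 5) (nat_lit 18) (nat_lit 4) (nat_lit 279) (nat_lit 229) (nat_lit 212))))) (XT.nd (nat_lit 312) (nat_lit 304) (nat_lit 0) (XT.nd (nat_lit 156) (nat_lit 0) (nat_lit 0) (XT.nd (nat_lit 78) (nat_lit 76) (nat_lit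 0) (XT.lf (nat_lit 0) (nat_lit 3282604586) (nat_lit 228) (nat_lit 4840272015) (nat_lit 76) (nat_lit 5427806915) (nat_lit 17) (nat_lit 5) (nat_lit 20) (nat_lit 5) (nat_lit 18) (nat_lit 4) (nat_lit 280) (nat_lit 229) (nat_lit 211)) (XT.lf (nat_lit 0) (nat_lit 621805679) (nat_lit 76) (nat_lit 5516286739) (nat_lit 152) (nat_lit 7898853437) (nat_lit 16) (nat_lit 5) (nat_lit 17) (nat_lit 5) (nat_lit 18) (nat_lit 4) (nat_lit 281) (nat_lit 229) (nat_lit 210))) (XT.nd (nat_lit 78) (nat_lit 0) (nat_lit 0) (XT.lf (nat_lit 0) (nat_lit 6400127784) (nat_lit 76) (nat_lit 2738619952) (nat_lit 152) (nat_lit 5408858111) (nat_lit 16) (nat_lit 5) (nat_lit 17) (nat_lit 5) (nat_lit 18) (nat_lit 4) (nat_lit 282) (nat_lit 229) (nat_lit 209)) (XT.lf (nat_lit 0) (nat_lit 12215750111) (nat_lit 152) (nat_lit 2741475896) (nat_lit 0) (nat_lit 130451584) (nat_lit 16) (nat_lit 5) (nat_lit 18) (nat_lit 4) (nat_lit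 16) (nat_lit 4) (nat_lit 283) (nat_lit 229) (nat_lit 208)))) (XT.nd (nat_lit 156) (nat_lit 76) (nat_lit 0) (XT.nd (nat_lit 78) (nat_lit 76) (nat_lit 0) (XT.lf (nat_lit 0) (nat_lit 2865192093) (nat_lit 152) (nat_lit 12598217030) (nat_lit 152) (nat_lit 190688682) (nat_lit 14) (nat_lit 4) (nat_lit 16) (nat_lit 5) (nat_lit 16) (nat_lit 4) (nat_lit 284) (nat_lit 229) (nat_lit 207)) (XT.lf (nat_lit 0) (nat_lit 2515316885) (nat_lit 228) (nat_lit 7558014277) (nat_lit 76) (nat_lit 6174891537) (nat_lit 13) (nat_lit 5) (nat_lit 16) (nat_lit 5) (nat_lit 14) (nat_lit 4) (nat_lit 285) (nat_lit 229) (nat_lit 206))) (XT.nd (nat_lit 78) (nat_lit 76) (nat_lit 0) (XT.lf (nat_lit 0) (nat_lit 5281185260) (nat_lit 228) (nat_lit 2180256054) (nat_lit 76) (nat_lit 9414067663) (nat_lit 13) (nat_lit 5) (nat_lit 16) (nat_lit 5) (nat_lit 14) (nat_lit 4) (nat_lit 286) (nat_lit 229) (nat_lit 205)) (XT.nd (nat_lit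 78) (nat_lit 0) (nat_lit 0) (XT.lf (nat_lit 0) (nat_lit 3471252072) (nat_lit 76) (nat_lit 4702548974) (nat_lit 152) (nat_lit 9361088195) (nat_lit 12) (nat_lit 5) (nat_lit 13) (nat_lit 5) (nat_lit 14) (nat_lit 4) (nat_lit 287) (nat_lit 229) (nat_lit 204)) (XT.lf (nat_lit 0) (nat_lit 9376502965) (nat_lit 76) (nat_lit 1807224991) (nat_lit 152) (nat_lit 7045021660) (nat_lit 12) (nat_lit 5) (nat_lit 13) (nat_lit 5) (nat_lit 14) (nat_lit 4) (nat_lit 288) (nat_lit 229) (nat_lit 203))))))) (XT.nd (nat_lit 702) (nat_lit 228) (nat_lit 0) (XT.nd (nat_lit 312) (nat_lit 76) (nat_lit 0) (XT.nd (nat_lit 156) (nat_lit 76) (nat_lit 0) (XT.nd (nat_lit 78) (nat_lit 152) (nat_lit 0) (XT.lf (nat_lit 0) (nat_lit 14301616562) (nat_lit 152) (nat_lit 3501682290) (nat_lit 0) (nat_lit 1156269093) (nat_lit 12) (nat_lit 5) (nat_lit 14) (nat_lit 4) (nat_lit 12) (nat_lit 4) (nat_lit 289) (nat_lit 229) (nat_lit 202))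 (XT.lf (nat_lit 0) (nat_lit 2055282475) (nat_lit 152) (nat_lit 15522991405) (nat_lit 152) (nat_lit 2148641219) (nat_lit 10) (nat_lit 4) (nat_lit 12) (nat_lit 5) (nat_lit 12) (nat_lit 4) (nat_lit 290) (nat_lit 229) (nat_lit 201))) (XT.nd (nat_lit 78) (nat_lit 0) (nat_lit 0) (XT.lf (nat_lit 0) (nat_lit 472251975) (nat_lit 228) (nat_lit 12624331463) (nat_lit 76) (nat_lit 7435702222) (nat_lit 9) (nat_lit 5) (nat_lit 12) (nat_lit 5) (nat_lit 10) (nat_lit 4) (nat_lit 291) (nat_lit 229) (nat_lit 200)) (XT.lf (nat_lit 0) (nat_lit 3096173778) (nat_lit 228) (nat_lit 7453003981) (nat_lit 76) (nat_lit 10829889888) (nat_lit 9) (nat_lit 5) (nat_lit 12) (nat_lit 5) (nat_lit 10) (nat_lit 4) (nat_lit 292) (nat_lit 229) (nat_lit 199)))) (XT.nd (nat_lit 156) (nat_lit 0) (nat_lit 0) (XT.nd (nat_lit 78) (nat_lit 76) (nat_lit 0) (XT.lf (nat_lit 0) (nat_lit 5798141560) (nat_lit 228) (nat_lit 2111791186)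 (nat_lit 76) (nat_lit 14361021781) (nat_lit 9) (nat_lit 5) (nat_lit 12) (nat_lit 5) (nat_lit 10) (nat_lit 4) (nat_lit 293) (nat_lit 229) (nat_lit 198)) (XT.lf (nat_lit 0) (nat_lit 3524841022) (nat_lit 76) (nat_lit 5114780202) (nat_lit 152) (nat_lit 14567696982) (nat_lit 8) (nat_lit 5) (nat_lit 9) (nat_lit 5) (nat_lit 10) (nat_lit 4) (nat_lit 294) (nat_lit 229) (nat_lit 197))) (XT.nd (nat_lit 78) (nat_lit 0) (nat_lit 0) (XT.lf (nat_lit 0) (nat_lit 9433525539) (nat_lit 76) (nat_lit 2175907460) (nat_lit 152) (nat_lit 12581852383) (nat_lit 8) (nat_lit 5) (nat_lit 9) (nat_lit 5) (nat_lit 10) (nat_lit 4) (nat_lit 295) (nat_lit 229) (nat_lit 196)) (XT.nd (nat_lit 78) (nat_lit 0) (nat_lit 0) (XT.lf (nat_lit 0) (nat_lit 14694293487) (nat_lit 152) (nat_lit 9682103355) (nat_lit 0) (nat_lit 849819711) (nat_lit 8) (nat_lit 5) (nat_lit 10) (nat_lit 4) (nat_lit 8) (nat_lit 4) (nat_lit 296) (nat_lit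 229) (nat_lit 195)) (XT.lf (nat_lit 0) (nat_lit 17923688466) (nat_lit 152) (nat_lit 4465563694) (nat_lit 0) (nat_lit 3924216636) (nat_lit 8) (nat_lit 5) (nat_lit 10) (nat_lit 4) (nat_lit 8) (nat_lit 4) (nat_lit 297) (nat_lit 229) (nat_lit 194)))))) (XT.nd (nat_lit 312) (nat_lit 76) (nat_lit 0) (XT.nd (nat_lit 156) (nat_lit 76) (nat_lit 0) (XT.nd (nat_lit 78) (nat_lit 0) (nat_lit 0) (XT.lf (nat_lit 0) (nat_lit 969274314) (nat_lit 76) (nat_lit 20317193732) (nat_lit 76) (nat_lit 6170104709) (nat_lit 7) (nat_lit 4) (nat_lit 8) (nat_lit 5) (nat_lit 8) (nat_lit 4) (nat_lit 298) (nat_lit 229) (nat_lit 193)) (XT.lf (nat_lit 0) (nat_lit 6758523360) (nat_lit 76) (nat_lit 18092199681) (nat_lit 76) (nat_lit 3804522854) (nat_lit 7) (nat_lit 4) (nat_lit 8) (nat_lit 5) (nat_lit 8) (nat_lit 4) (nat_lit 299) (nat_lit 229) (nat_lit 192))) (XT.nd (nat_lit 78) (nat_lit 76) (nat_lit 0) (XT.lf (nat_lit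 0) (nat_lit 12768315666) (nat_lit 76) (nat_lit 15784598883) (nat_lit 76) (nat_lit 1363028910) (nat_lit 7) (nat_lit 4) (nat_lit 8) (nat_lit 5) (nat_lit 8) (nat_lit 4) (nat_lit 300) (nat_lit 229) (nat_lit 191)) (XT.lf (nat_lit 0) (nat_lit 1123056869) (nat_lit 152) (nat_lit 12246820672) (nat_lit 76) (nat_lit 17870883880) (nat_lit 6) (nat_lit 5) (nat_lit 8) (nat_lit 5) (nat_lit 7) (nat_lit 4) (nat_lit 301) (nat_lit 229) (nat_lit 190)))) (XT.nd (nat_lit 156) (nat_lit 76) (nat_lit 0) (XT.nd (nat_lit 78) (nat_lit 0) (nat_lit 0) (XT.lf (nat_lit 0) (nat_lit 3650442048) (nat_lit 152) (nat_lit 7187126086) (nat_lit 76) (nat_lit 21795061298) (nat_lit 6) (nat_lit 5) (nat_lit 8) (nat_lit 5) (nat_lit 7) (nat_lit 4) (nat_lit 302) (nat_lit 229) (nat_lit 189)) (XT.lf (nat_lit 0) (nat_lit 6268769646) (nat_lit 152) (nat_lit 1935216445) (nat_lit 76) (nat_lit 25891939407) (nat_lit 6) (nat_lit 5) (nat_lit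 8) (nat_lit 5) (nat_lit 7) (nat_lit 4) (nat_lit 303) (nat_lit 229) (nat_lit 188))) (XT.nd (nat_lit 78) (nat_lit 0) (nat_lit 0) (XT.lf (nat_lit 0) (nat_lit 3637846608) (nat_lit 76) (nat_lit 5403224148) (nat_lit 152) (nat_lit 26590223053) (nat_lit 5) (nat_lit 5) (nat_lit 6) (nat_lit 5) (nat_lit 7) (nat_lit 4) (nat_lit 304) (nat_lit 229) (nat_lit 187)) (XT.nd (nat_lit 78) (nat_lit 0) (nat_lit 0) (XT.lf (nat_lit 0) (nat_lit 9499806762) (nat_lit 76) (nat_lit 2451931768) (nat_lit 152) (nat_lit 25291761851) (nat_lit 5) (nat_lit 5) (nat_lit 6) (nat_lit 5) (nat_lit 7) (nat_lit 4) (nat_lit 305) (nat_lit 229) (nat_lit 186)) (XT.lf (nat_lit 0) (nat_lit 14986234600) (nat_lit 152) (nat_lit 23347055031) (nat_lit 0) (nat_lit 604167597) (nat_lit 5) (nat_lit 5) (nat_lit 7) (nat_lit 4) (nat_lit 5) (nat_lit 4) (nat_lit 306) (nat_lit 229) (nat_lit 185))))))))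
noncomputable def xc76 : XT := (XT.nd (nat_lit 1326) (nat_lit 0) (nat_lit 0) (XT.nd (nat_lit 624) (nat_lit 152) (nat_lit 0) (XT.nd (nat_lit 312) (nat_lit 76) (nat_lit 0) (XT.nd (nat_lit 156) (nat_lit 0) (nat_lit 0) (XT.nd (nat_lit 78) (nat_lit 0) (nat_lit 0) (XT.lf (nat_lit 0) (nat_lit 18182360211) (nat_lit 152) (nat_lit 18823639503) (nat_lit 0) (nat_lit 3709669056) (nat_lit 5) (nat_lit 5) (nat_lit 7) (nat_lit 4) (nat_lit 5) (nat_lit 4) (nat_lit 307) (nat_lit 229) (nat_lit 184)) (XT.lf (nat_lit 0) (nat_lit 21509443658) (nat_lit 152) (nat_lit 14124395473) (nat_lit 0) (nat_lit 6950443787) (nat_lit 5) (nat_lit 5) (nat_lit 7) (nat_lit 4) (nat_lit 5) (nat_lit 4) (nat_lit 308) (nat_lit 229) (nat_lit 183))) (XT.nd (nat_lit 78) (nat_lit 0) (nat_lit 0) (XT.lf (nat_lit 0) (nat_lit 24975406569) (nat_lit 152) (nat_lit 9238134262) (nat_lit 0) (nat_lit 10334207921) (nat_lit 5) (nat_lit 5) (nat_lit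 7) (nat_lit 4) (nat_lit 5) (nat_lit 4) (nat_lit 309) (nat_lit 229) (nat_lit 182)) (XT.lf (nat_lit 0) (nat_lit 28588501237) (nat_lit 152) (nat_lit 4153221918) (nat_lit 0) (nat_lit 13869018040) (nat_lit 5) (nat_lit 5) (nat_lit 7) (nat_lit 4) (nat_lit 5) (nat_lit 4) (nat_lit 310) (nat_lit 229) (nat_lit 181)))) (XT.nd (nat_lit 156) (nat_lit 0) (nat_lit 0) (XT.nd (nat_lit 78) (nat_lit 0) (nat_lit 0) (XT.lf (nat_lit 0) (nat_lit 1180223001) (nat_lit 76) (nat_lit 31195533856) (nat_lit 76) (nat_lit 16401493944) (nat_lit 4) (nat_lit 4) (nat_lit 5) (nat_lit 5) (nat_lit 5) (nat_lit 4) (nat_lit 311) (nat_lit 229) (nat_lit 180)) (XT.lf (nat_lit 0) (nat_lit 6881744517) (nat_lit 76) (nat_lit 29516565866) (nat_lit 76) (nat_lit 14651519560) (nat_lit 4) (nat_lit 4) (nat_lit 5) (nat_lit 5) (nat_lit 5) (nat_lit 4) (nat_lit 312) (nat_lit 229) (nat_lit 179))) (XT.nd (nat_lit 78) (nat_lit 0) (nat_lit 0) (XT.lf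 (nat_lit 0) (nat_lit 12827593407) (nat_lit 76) (nat_lit 27771158466) (nat_lit 76) (nat_lit 12838487023) (nat_lit 4) (nat_lit 4) (nat_lit 5) (nat_lit 5) (nat_lit 5) (nat_lit 4) (nat_lit 313) (nat_lit 229) (nat_lit 178)) (XT.lf (nat_lit 0) (nat_lit 19031926455) (nat_lit 76) (nat_lit 25955155924) (nat_lit 76) (nat_lit 10958079588) (nat_lit 4) (nat_lit 4) (nat_lit 5) (nat_lit 5) (nat_lit 5) (nat_lit 4) (nat_lit 314) (nat_lit 229) (nat_lit 177))))) (XT.nd (nat_lit 312) (nat_lit 152) (nat_lit 0) (XT.nd (nat_lit 156) (nat_lit 0) (nat_lit 0) (XT.nd (nat_lit 78) (nat_lit 0) (nat_lit 0) (XT.lf (nat_lit 0) (nat_lit 25509515882) (nat_lit 76) (nat_lit 24064234425) (nat_lit 76) (nat_lit 9005820096) (nat_lit 4) (nat_lit 4) (nat_lit 5) (nat_lit 5) (nat_lit 5) (nat_lit 4) (nat_lit 315) (nat_lit 229) (nat_lit 176)) (XT.lf (nat_lit 0) (nat_lit 32275784520) (nat_lit 76) (nat_lit 22093891775) (nat_lit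 76) (nat_lit 6977060309) (nat_lit 4) (nat_lit 4) (nat_lit 5) (nat_lit 5) (nat_lit 5) (nat_lit 4) (nat_lit 316) (nat_lit 229) (nat_lit 175))) (XT.nd (nat_lit 78) (nat_lit 0) (nat_lit 0) (XT.lf (nat_lit 0) (nat_lit 39346842532) (nat_lit 76) (nat_lit 20039436680) (nat_lit 76) (nat_lit 4866969848) (nat_lit 4) (nat_lit 4) (nat_lit 5) (nat_lit 5) (nat_lit 5) (nat_lit 4) (nat_lit 317) (nat_lit 229) (nat_lit 174)) (XT.lf (nat_lit 0) (nat_lit 46739525771) (nat_lit 76) (nat_lit 17895977583) (nat_lit 76) (nat_lit 2670524686) (nat_lit 4) (nat_lit 4) (nat_lit 5) (nat_lit 5) (nat_lit 5) (nat_lit 4) (nat_lit 318) (nat_lit 229) (nat_lit 173)))) (XT.nd (nat_lit 156) (nat_lit 76) (nat_lit 0) (XT.nd (nat_lit 78) (nat_lit 76) (nat_lit 0) (XT.lf (nat_lit 0) (nat_lit 54471435864) (nat_lit 76) (nat_lit 15658411008) (nat_lit 76) (nat_lit 382495192) (nat_lit 4) (nat_lit 4) (nat_lit 5) (nat_lit 5) (nat_lit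 5) (nat_lit 4) (nat_lit 319) (nat_lit 229) (nat_lit 172)) (XT.lf (nat_lit 0) (nat_lit 1938471692) (nat_lit 152) (nat_lit 11350108769) (nat_lit 76) (nat_lit 60589681471) (nat_lit 3) (nat_lit 5) (nat_lit 5) (nat_lit 5) (nat_lit 4) (nat_lit 4) (nat_lit 320) (nat_lit 229) (nat_lit 171))) (XT.nd (nat_lit 78) (nat_lit 76) (nat_lit 0) (XT.lf (nat_lit 0) (nat_lit 4346619696) (nat_lit 152) (nat_lit 6459176715) (nat_lit 76) (nat_lit 66607193559) (nat_lit 3) (nat_lit 5) (nat_lit 5) (nat_lit 5) (nat_lit 4) (nat_lit 4) (nat_lit 321) (nat_lit 229) (nat_lit 170)) (XT.nd (nat_lit 78) (nat_lit 76) (nat_lit 0) (XT.lf (nat_lit 0) (nat_lit 6859924739) (nat_lit 152) (nat_lit 1350493144) (nat_lit 76) (nat_lit 72914822908) (nat_lit 3) (nat_lit 5) (nat_lit 5) (nat_lit 5) (nat_lit 4) (nat_lit 4) (nat_lit 322) (nat_lit 229) (nat_lit 169)) (XT.lf (nat_lit 0) (nat_lit 4119970256) (nat_lit 76) (nat_lit 5428724906)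 (nat_lit 152) (nat_lit 75471941710) (nat_lit 2) (nat_lit 5) (nat_lit 3) (nat_lit 5) (nat_lit 4) (nat_lit 4) (nat_lit 323) (nat_lit 229) (nat_lit 168))))))) (XT.nd (nat_lit 624) (nat_lit 0) (nat_lit 0) (XT.nd (nat_lit 312) (nat_lit 0) (nat_lit 0) (XT.nd (nat_lit 156) (nat_lit 0) (nat_lit 0) (XT.nd (nat_lit 78) (nat_lit 0) (nat_lit 0) (XT.lf (nat_lit 0) (nat_lit 9885735370) (nat_lit 76) (nat_lit 2494815466) (nat_lit 152) (nat_lit 76729841228) (nat_lit 2) (nat_lit 5) (nat_lit 3) (nat_lit 5) (nat_lit 4) (nat_lit 4) (nat_lit 324) (nat_lit 229) (nat_lit 167)) (XT.lf (nat_lit 0) (nat_lit 15349436118) (nat_lit 152) (nat_lit 77498440171) (nat_lit 0) (nat_lit 557007497) (nat_lit 2) (nat_lit 5) (nat_lit 4) (nat_lit 4) (nat_lit 2) (nat_lit 4) (nat_lit 325) (nat_lit 229) (nat_lit 166))) (XT.nd (nat_lit 78) (nat_lit 0) (nat_lit 0) (XT.lf (nat_lit 0) (nat_lit 18494608097) (nat_lit 152) (nat_lit 75750095323)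 (nat_lit 0) (nat_lit 3668024186) (nat_lit 2) (nat_lit 5) (nat_lit 4) (nat_lit 4) (nat_lit 2) (nat_lit 4) (nat_lit 326) (nat_lit 229) (nat_lit 165)) (XT.lf (nat_lit 0) (nat_lit 21784604216) (nat_lit 152) (nat_lit 73936508361) (nat_lit 0) (nat_lit 6925491458) (nat_lit 2) (nat_lit 5) (nat_lit 4) (nat_lit 4) (nat_lit 2) (nat_lit 4) (nat_lit 327) (nat_lit 229) (nat_lit 164)))) (XT.nd (nat_lit 156) (nat_lit 0) (nat_lit 0) (XT.nd (nat_lit 78) (nat_lit 0) (nat_lit 0) (XT.lf (nat_lit 0) (nat_lit 25227257800) (nat_lit 152) (nat_lit 72053361223) (nat_lit 0) (nat_lit 10337165187) (nat_lit 2) (nat_lit 5) (nat_lit 4) (nat_lit 4) (nat_lit 2) (nat_lit 4) (nat_lit 328) (nat_lit 229) (nat_lit 163)) (XT.lf (nat_lit 0) (nat_lit 28830765642) (nat_lit 152) (nat_lit 70096170224) (nat_lit 0) (nat_lit 13911168406) (nat_lit 2) (nat_lit 5) (nat_lit 4) (nat_lit 4) (nat_lit 2) (nat_lit 4) (nat_lit 329) (nat_lit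 229) (nat_lit 162))) (XT.nd (nat_lit 78) (nat_lit 0) (nat_lit 0) (XT.lf (nat_lit 0) (nat_lit 32603707524) (nat_lit 152) (nat_lit 68060275386) (nat_lit 0) (nat_lit 17656010647) (nat_lit 2) (nat_lit 5) (nat_lit 4) (nat_lit 4) (nat_lit 2) (nat_lit 4) (nat_lit 330) (nat_lit 229) (nat_lit 161)) (XT.lf (nat_lit 0) (nat_lit 36555066640) (nat_lit 152) (nat_lit 65940829340) (nat_lit 0) (nat_lit 21580608199) (nat_lit 2) (nat_lit 5) (nat_lit 4) (nat_lit 4) (nat_lit 2) (nat_lit 4) (nat_lit 331) (nat_lit 229) (nat_lit 160))))) (XT.nd (nat_lit 312) (nat_lit 0) (nat_lit 0) (XT.nd (nat_lit 156) (nat_lit 0) (nat_lit 0) (XT.nd (nat_lit 78) (nat_lit 0) (nat_lit 0) (XT.lf (nat_lit 0) (nat_lit 40694250988) (nat_lit 152) (nat_lit 63732785786) (nat_lit 0) (nat_lit 25694305344) (nat_lit 2) (nat_lit 5) (nat_lit 4) (nat_lit 4) (nat_lit 2) (nat_lit 4) (nat_lit 332) (nat_lit 229) (nat_lit 159)) (XT.lf (nat_lit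 0) (nat_lit 45031115769) (nat_lit 152) (nat_lit 61430887477) (nat_lit 0) (nat_lit 30006896599) (nat_lit 2) (nat_lit 5) (nat_lit 4) (nat_lit 4) (nat_lit 2) (nat_lit 4) (nat_lit 333) (nat_lit 229) (nat_lit 158))) (XT.nd (nat_lit 78) (nat_lit 0) (nat_lit 0) (XT.lf (nat_lit 0) (nat_lit 49575986852) (nat_lit 152) (nat_lit 59029653704) (nat_lit 0) (nat_lit 34528650037) (nat_lit 2) (nat_lit 5) (nat_lit 4) (nat_lit 4) (nat_lit 2) (nat_lit 4) (nat_lit 334) (nat_lit 229) (nat_lit 157)) (XT.lf (nat_lit 0) (nat_lit 54339685357) (nat_lit 152) (nat_lit 56523367243) (nat_lit 0) (nat_lit 39270331738) (nat_lit 2) (nat_lit 5) (nat_lit 4) (nat_lit 4) (nat_lit 2) (nat_lit 4) (nat_lit 335) (nat_lit 229) (nat_lit 156)))) (XT.nd (nat_lit 156) (nat_lit 0) (nat_lit 0) (XT.nd (nat_lit 78) (nat_lit 0) (nat_lit 0) (XT.lf (nat_lit 0) (nat_lit 59333553425) (nat_lit 152) (nat_lit 53906060744) (nat_lit 0) (nat_lit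 44243231421) (nat_lit 2) (nat_lit 5) (nat_lit 4) (nat_lit 4) (nat_lit 2) (nat_lit 4) (nat_lit 336) (nat_lit 229) (nat_lit 155)) (XT.lf (nat_lit 0) (nat_lit 64569481218) (nat_lit 152) (nat_lit 51171502527) (nat_lit 0) (nat_lit 49459189323) (nat_lit 2) (nat_lit 5) (nat_lit 4) (nat_lit 4) (nat_lit 2) (nat_lit 4) (nat_lit 337) (nat_lit 229) (nat_lit 154))) (XT.nd (nat_lit 78) (nat_lit 0) (nat_lit 0) (XT.lf (nat_lit 0) (nat_lit 70059935230) (nat_lit 152) (nat_lit 48313181739) (nat_lit 0) (nat_lit 54930624392) (nat_lit 2) (nat_lit 5) (nat_lit 4) (nat_lit 4) (nat_lit 2) (nat_lit 4) (nat_lit 338) (nat_lit 229) (nat_lit 153)) (XT.nd (nat_lit 78) (nat_lit 0) (nat_lit 0) (XT.lf (nat_lit 0) (nat_lit 75817987970) (nat_lit 152) (nat_lit 45324292852) (nat_lit 0) (nat_lit 60670563853) (nat_lit 2) (nat_lit 5) (nat_lit 4) (nat_lit 4) (nat_lit 2) (nat_lit 4) (nat_lit 339) (nat_lit 229) (nat_lit 152))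 (XT.lf (nat_lit 0) (nat_lit 81857349089) (nat_lit 152) (nat_lit 42197719467) (nat_lit 0) (nat_lit 66692674230) (nat_lit 2) (nat_lit 5) (nat_lit 4) (nat_lit 4) (nat_lit 2) (nat_lit 4) (nat_lit 340) (nat_lit 229) (nat_lit 151))))))))
noncomputable def xc77 : XT := (XT.nd (nat_lit 1326) (nat_lit 0) (nat_lit 0) (XT.nd (nat_lit 624) (nat_lit 76) (nat_lit 0) (XT.nd (nat_lit 312) (nat_lit 0) (nat_lit 0) (XT.nd (nat_lit 156) (nat_lit 0) (nat_lit 0) (XT.nd (nat_lit 78) (nat_lit 0) (nat_lit 0) (XT.lf (nat_lit 0) (nat_lit 88192398018) (nat_lit 152) (nat_lit 38926017359) (nat_lit 0) (nat_lit 73011293880) (nat_lit 2) (nat_lit 5) (nat_lit 4) (nat_lit 4) (nat_lit 2) (nat_lit 4) (nat_lit 341) (nat_lit 229) (nat_lit 150)) (XT.lf (nat_lit 0) (nat_lit 94838218205) (nat_lit 152) (nat_lit 35501396762) (nat_lit 0) (nat_lit 79641467135) (nat_lit 2) (nat_lit 5) (nat_lit 4) (nat_lit 4) (nat_lit 2) (nat_lit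 4) (nat_lit 342) (nat_lit 229) (nat_lit 149))) (XT.nd (nat_lit 78) (nat_lit 0) (nat_lit 0) (XT.lf (nat_lit 0) (nat_lit 101810633033) (nat_lit 152) (nat_lit 31915703818) (nat_lit 0) (nat_lit 86598980124) (nat_lit 2) (nat_lit 5) (nat_lit 4) (nat_lit 4) (nat_lit 2) (nat_lit 4) (nat_lit 343) (nat_lit 229) (nat_lit 148)) (XT.lf (nat_lit 0) (nat_lit 109126243490) (nat_lit 152) (nat_lit 28160401162) (nat_lit 0) (nat_lit 93900398352) (nat_lit 2) (nat_lit 5) (nat_lit 4) (nat_lit 4) (nat_lit 2) (nat_lit 4) (nat_lit 344) (nat_lit 229) (nat_lit 147)))) (XT.nd (nat_lit 156) (nat_lit 0) (nat_lit 0) (XT.nd (nat_lit 78) (nat_lit 0) (nat_lit 0) (XT.lf (nat_lit 0) (nat_lit 116802467694) (nat_lit 152) (nat_lit 24226547598) (nat_lit 0) (nat_lit 101563106149) (nat_lit 2) (nat_lit 5) (nat_lit 4) (nat_lit 4) (nat_lit 2) (nat_lit 4) (nat_lit 345) (nat_lit 229) (nat_lit 146)) (XT.lf (nat_lit 0) (nat_lit 124857582372)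 (nat_lit 152) (nat_lit 20104776808) (nat_lit 0) (nat_lit 109605348057) (nat_lit 2) (nat_lit 5) (nat_lit 4) (nat_lit 4) (nat_lit 2) (nat_lit 4) (nat_lit 346) (nat_lit 229) (nat_lit 145))) (XT.nd (nat_lit 78) (nat_lit 0) (nat_lit 0) (XT.lf (nat_lit 0) (nat_lit 133310766367) (nat_lit 152) (nat_lit 15785275051) (nat_lit 0) (nat_lit 118046272272) (nat_lit 2) (nat_lit 5) (nat_lit 4) (nat_lit 4) (nat_lit 2) (nat_lit 4) (nat_lit 347) (nat_lit 229) (nat_lit 144)) (XT.lf (nat_lit 0) (nat_lit 142182146308) (nat_lit 152) (nat_lit 11257757800) (nat_lit 0) (nat_lit 126905976231) (nat_lit 2) (nat_lit 5) (nat_lit 4) (nat_lit 4) (nat_lit 2) (nat_lit 4) (nat_lit 348) (nat_lit 229) (nat_lit 143))))) (XT.nd (nat_lit 312) (nat_lit 0) (nat_lit 0) (XT.nd (nat_lit 156) (nat_lit 76) (nat_lit 0) (XT.nd (nat_lit 78) (nat_lit 0) (nat_lit 0) (XT.lf (nat_lit 0) (nat_lit 151492844527) (nat_lit 152) (nat_lit 6511445251)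 (nat_lit 0) (nat_lit 136205554468) (nat_lit 2) (nat_lit 5) (nat_lit 4) (nat_lit 4) (nat_lit 2) (nat_lit 4) (nat_lit 349) (nat_lit 229) (nat_lit 142)) (XT.lf (nat_lit 0) (nat_lit 161265029355) (nat_lit 152) (nat_lit 1535036661) (nat_lit 0) (nat_lit 145967148837) (nat_lit 2) (nat_lit 5) (nat_lit 4) (nat_lit 4) (nat_lit 2) (nat_lit 4) (nat_lit 350) (nat_lit 229) (nat_lit 141))) (XT.nd (nat_lit 78) (nat_lit 0) (nat_lit 0) (XT.lf (nat_lit 0) (nat_lit 3805103641) (nat_lit 76) (nat_lit 167776272588) (nat_lit 76) (nat_lit 152468305918) (nat_lit 1) (nat_lit 4) (nat_lit 2) (nat_lit 5) (nat_lit 2) (nat_lit 4) (nat_lit 351) (nat_lit 229) (nat_lit 140)) (XT.lf (nat_lit 0) (nat_lit 9458779070) (nat_lit 76) (nat_lit 172976980416) (nat_lit 76) (nat_lit 157659407887) (nat_lit 1) (nat_lit 4) (nat_lit 2) (nat_lit 5) (nat_lit 2) (nat_lit 4) (nat_lit 352) (nat_lit 229) (nat_lit 139)))) (XT.nd (nat_lit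 156) (nat_lit 0) (nat_lit 0) (XT.nd (nat_lit 78) (nat_lit 0) (nat_lit 0) (XT.lf (nat_lit 0) (nat_lit 15388695512) (nat_lit 76) (nat_lit 178440568729) (nat_lit 76) (nat_lit 163113847763) (nat_lit 1) (nat_lit 4) (nat_lit 2) (nat_lit 5) (nat_lit 2) (nat_lit 4) (nat_lit 353) (nat_lit 229) (nat_lit 138)) (XT.lf (nat_lit 0) (nat_lit 21608971816) (nat_lit 76) (nat_lit 184180046069) (nat_lit 76) (nat_lit 168844612306) (nat_lit 1) (nat_lit 4) (nat_lit 2) (nat_lit 5) (nat_lit 2) (nat_lit 4) (nat_lit 354) (nat_lit 229) (nat_lit 137))) (XT.nd (nat_lit 78) (nat_lit 0) (nat_lit 0) (XT.lf (nat_lit 0) (nat_lit 28134418164) (nat_lit 76) (nat_lit 190209077858) (nat_lit 76) (nat_lit 174865346193) (nat_lit 1) (nat_lit 4) (nat_lit 2) (nat_lit 5) (nat_lit 2) (nat_lit 4) (nat_lit 355) (nat_lit 229) (nat_lit 136)) (XT.nd (nat_lit 78) (nat_lit 0) (nat_lit 0) (XT.lf (nat_lit 0) (nat_lit 34980571332) (nat_lit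 76) (nat_lit 196542018935) (nat_lit 76) (nat_lit 181190384507) (nat_lit 1) (nat_lit 4) (nat_lit 2) (nat_lit 5) (nat_lit 2) (nat_lit 4) (nat_lit 356) (nat_lit 229) (nat_lit 135)) (XT.lf (nat_lit 0) (nat_lit 42163731685) (nat_lit 76) (nat_lit 203193947731) (nat_lit 76) (nat_lit 187834786861) (nat_lit 1) (nat_lit 4) (nat_lit 2) (nat_lit 5) (nat_lit 2) (nat_lit 4) (nat_lit 357) (nat_lit 229) (nat_lit 134))))))) (XT.nd (nat_lit 30186) (nat_lit 0) (nat_lit 1976) (XT.nd (nat_lit 312) (nat_lit 0) (nat_lit 0) (XT.nd (nat_lit 156) (nat_lit 0) (nat_lit 0) (XT.nd (nat_lit 78) (nat_lit 0) (nat_lit 0) (XT.lf (nat_lit 0) (nat_lit 49701001986) (nat_lit 76) (nat_lit 210180702171) (nat_lit 76) (nat_lit 194814373261) (nat_lit 1) (nat_lit 4) (nat_lit 2) (nat_lit 5) (nat_lit 2) (nat_lit 4) (nat_lit 358) (nat_lit 229) (nat_lit 133)) (XT.lf (nat_lit 0) (nat_lit 57610328117) (nat_lit 76) (nat_lit 217518917384)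 (nat_lit 76) (nat_lit 202145761770) (nat_lit 1) (nat_lit 4) (nat_lit 2) (nat_lit 5) (nat_lit 2) (nat_lit 4) (nat_lit 359) (nat_lit 229) (nat_lit 132))) (XT.nd (nat_lit 78) (nat_lit 0) (nat_lit 0) (XT.lf (nat_lit 0) (nat_lit 65910541807) (nat_lit 76) (nat_lit 225226065313) (nat_lit 76) (nat_lit 209846408075) (nat_lit 1) (nat_lit 4) (nat_lit 2) (nat_lit 5) (nat_lit 2) (nat_lit 4) (nat_lit 360) (nat_lit 229) (nat_lit 131)) (XT.lf (nat_lit 0) (nat_lit 74621405468) (nat_lit 76) (nat_lit 233320496308) (nat_lit 76) (nat_lit 217934647048) (nat_lit 1) (nat_lit 4) (nat_lit 2) (nat_lit 5) (nat_lit 2) (nat_lit 4) (nat_lit 361) (nat_lit 229) (nat_lit 130)))) (XT.nd (nat_lit 29640) (nat_lit 0) (nat_lit 3420) (XT.nd (nat_lit 29562) (nat_lit 0) (nat_lit 4028) (XT.lf (nat_lit 0) (nat_lit 83763659253) (nat_lit 76) (nat_lit 241821482825) (nat_lit 76) (nat_lit 226429736401) (nat_lit 1) (nat_lit 4) (nat_lit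 2) (nat_lit 5) (nat_lit 2) (nat_lit 4) (nat_lit 362) (nat_lit 229) (nat_lit 129)) (XT.lf (nat_lit 0) (nat_lit 1822432406) (nat_lit 380) (nat_lit 263560469) (nat_lit 0) (nat_lit 1822432406) (nat_lit 54) (nat_lit 5) (nat_lit 59) (nat_lit 4) (nat_lit 54) (nat_lit 4) (nat_lit 260) (nat_lit 230) (nat_lit 230))) (XT.nd (nat_lit 78) (nat_lit 304) (nat_lit 0) (XT.lf (nat_lit 0) (nat_lit 4405254551) (nat_lit 304) (nat_lit 2413872448) (nat_lit 304) (nat_lit 1150689937) (nat_lit 50) (nat_lit 4) (nat_lit 54) (nat_lit 5) (nat_lit 54) (nat_lit 4) (nat_lit 261) (nat_lit 230) (nat_lit 229)) (XT.nd (nat_lit 78) (nat_lit 0) (nat_lit 0) (XT.lf (nat_lit 0) (nat_lit 1321151887) (nat_lit 228) (nat_lit 526343410) (nat_lit 304) (nat_lit 6287490132) (nat_lit 46) (nat_lit 5) (nat_lit 49) (nat_lit 5) (nat_lit 50) (nat_lit 4) (nat_lit 262) (nat_lit 230) (nat_lit 228)) (XT.lf (nat_lit 0) (nat_lit 4905590906) (nat_lit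 304) (nat_lit 1939440215) (nat_lit 0) (nat_lit 1465631622) (nat_lit 46) (nat_lit 5) (nat_lit 50) (nat_lit 4) (nat_lit 46) (nat_lit 4) (nat_lit 263) (nat_lit 230) (nat_lit 227)))))) (XT.nd (nat_lit 312) (nat_lit 608) (nat_lit 0) (XT.nd (nat_lit 156) (nat_lit 456) (nat_lit 0) (XT.nd (nat_lit 78) (nat_lit 76) (nat_lit 0) (XT.lf (nat_lit 0) (nat_lit 3111170736) (nat_lit 304) (nat_lit 4933660579) (nat_lit 304) (nat_lit 454477917) (nat_lit 42) (nat_lit 4) (nat_lit 46) (nat_lit 5) (nat_lit 46) (nat_lit 4) (nat_lit 264) (nat_lit 230) (nat_lit 226)) (XT.lf (nat_lit 0) (nat_lit 2464556776) (nat_lit 380) (nat_lit 416577821) (nat_lit 76) (nat_lit 5819455280) (nat_lit 41) (nat_lit 5) (nat_lit 46) (nat_lit 5) (nat_lit 42) (nat_lit 4) (nat_lit 265) (nat_lit 230) (nat_lit 225))) (XT.nd (nat_lit 78) (nat_lit 228) (nat_lit 0) (XT.lf (nat_lit 0) (nat_lit 4796618761) (nat_lit 228) (nat_lit 670768659)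 (nat_lit 304) (nat_lit 3447034706) (nat_lit 38) (nat_lit 5) (nat_lit 41) (nat_lit 5) (nat_lit 42) (nat_lit 4) (nat_lit 266) (nat_lit 230) (nat_lit 224)) (XT.lf (nat_lit 0) (nat_lit 995890782) (nat_lit 228) (nat_lit 7554125081) (nat_lit 228) (nat_lit 592938721) (nat_lit 35) (nat_lit 4) (nat_lit 38) (nat_lit 5) (nat_lit 38) (nat_lit 4) (nat_lit 267) (nat_lit 230) (nat_lit 223)))) (XT.nd (nat_lit 156) (nat_lit 304) (nat_lit 0) (XT.nd (nat_lit 78) (nat_lit 228) (nat_lit 0) (XT.lf (nat_lit 0) (nat_lit 2290881504) (nat_lit 304) (nat_lit 3079137985) (nat_lit 76) (nat_lit 4013265445) (nat_lit 34) (nat_lit 5) (nat_lit 38) (nat_lit 5) (nat_lit 35) (nat_lit 4) (nat_lit 268) (nat_lit 230) (nat_lit 222)) (XT.lf (nat_lit 0) (nat_lit 2150560731) (nat_lit 228) (nat_lit 3069678432) (nat_lit 304) (nat_lit 4419267468) (nat_lit 31) (nat_lit 5) (nat_lit 34) (nat_lit 5) (nat_lit 35) (nat_lit 4) (nat_lit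 269) (nat_lit 230) (nat_lit 221))) (XT.nd (nat_lit 78) (nat_lit 304) (nat_lit 0) (XT.lf (nat_lit 0) (nat_lit 7600341844) (nat_lit 228) (nat_lit 638598668) (nat_lit 304) (nat_lit 1672859394) (nat_lit 31) (nat_lit 5) (nat_lit 34) (nat_lit 5) (nat_lit 35) (nat_lit 4) (nat_lit 270) (nat_lit 230) (nat_lit 220)) (XT.nd (nat_lit 78) (nat_lit 0) (nat_lit 0) (XT.lf (nat_lit 0) (nat_lit 1144091428) (nat_lit 304) (nat_lit 7171634949) (nat_lit 76) (nat_lit 1882804027) (nat_lit 27) (nat_lit 5) (nat_lit 31) (nat_lit 5) (nat_lit 28) (nat_lit 4) (nat_lit 271) (nat_lit 230) (nat_lit 219)) (XT.lf (nat_lit 0) (nat_lit 3991990140) (nat_lit 304) (nat_lit 1971435593) (nat_lit 76) (nat_lit 4537833761) (nat_lit 27) (nat_lit 5) (nat_lit 31) (nat_lit 5) (nat_lit 28) (nat_lit 4) (nat_lit 272) (nat_lit 230) (nat_lit 218))))))))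
noncomputable def xc78 : XT := (XT.nd (nat_lit 1326) (nat_lit 532) (nat_lit 0) (XT.nd (nat_lit 624) (nat_lit 380) (nat_lit 0) (XT.nd (nat_lit 312) (nat_lit 380) (nat_lit 0) (XT.nd (nat_lit 156) (nat_lit 228) (nat_lit 0) (XT.nd (nat_lit 78) (nat_lit 0) (nat_lit 0) (XT.lf (nat_lit 0) (nat_lit 3458834002) (nat_lit 152) (nat_lit 3478464422) (nat_lit 228) (nat_lit 3884408489) (nat_lit 25) (nat_lit 5) (nat_lit 27) (nat_lit 5) (nat_lit 28) (nat_lit 4) (nat_lit 273) (nat_lit 230) (nat_lit 217)) (XT.lf (nat_lit 0) (nat_lit 9090685305) (nat_lit 152) (nat_lit 876139834) (nat_lit 228) (nat_lit 1194820679) (nat_lit 25) (nat_lit 5) (nat_lit 27) (nat_lit 5) (nat_lit 28) (nat_lit 4) (nat_lit 274) (nat_lit 230) (nat_lit 216))) (XT.nd (nat_lit 78) (nat_lit 0) (nat_lit 0) (XT.lf (nat_lit 0) (nat_lit 1566718615) (nat_lit 228) (nat_lit 8114349291) (nat_lit 76) (nat_lit 1837048315) (nat_lit 22) (nat_lit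 5) (nat_lit 25) (nat_lit 5) (nat_lit 23) (nat_lit 4) (nat_lit 275) (nat_lit 230) (nat_lit 215)) (XT.lf (nat_lit 0) (nat_lit 4384283099) (nat_lit 228) (nat_lit 2838226313) (nat_lit 76) (nat_lit 4671289906) (nat_lit 22) (nat_lit 5) (nat_lit 25) (nat_lit 5) (nat_lit 23) (nat_lit 4) (nat_lit 276) (nat_lit 230) (nat_lit 214)))) (XT.nd (nat_lit 156) (nat_lit 228) (nat_lit 0) (XT.nd (nat_lit 78) (nat_lit 0) (nat_lit 0) (XT.lf (nat_lit 0) (nat_lit 2656071311) (nat_lit 152) (nat_lit 4640591216) (nat_lit 228) (nat_lit 4994167811) (nat_lit 20) (nat_lit 5) (nat_lit 22) (nat_lit 5) (nat_lit 23) (nat_lit 4) (nat_lit 277) (nat_lit 230) (nat_lit 213)) (XT.lf (nat_lit 0) (nat_lit 8395085391) (nat_lit 152) (nat_lit 1922271671) (nat_lit 228) (nat_lit 2392469234) (nat_lit 20) (nat_lit 5) (nat_lit 22) (nat_lit 5) (nat_lit 23) (nat_lit 4) (nat_lit 278) (nat_lit 230) (nat_lit 212))) (XT.nd (nat_lit 78) (nat_lit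 0) (nat_lit 0) (XT.lf (nat_lit 0) (nat_lit 278259125) (nat_lit 228) (nat_lit 11988916761) (nat_lit 76) (nat_lit 885066153) (nat_lit 17) (nat_lit 5) (nat_lit 20) (nat_lit 5) (nat_lit 18) (nat_lit 4) (nat_lit 279) (nat_lit 230) (nat_lit 211)) (XT.lf (nat_lit 0) (nat_lit 3026393398) (nat_lit 228) (nat_lit 6746913863) (nat_lit 76) (nat_lit 3840511061) (nat_lit 17) (nat_lit 5) (nat_lit 20) (nat_lit 5) (nat_lit 18) (nat_lit 4) (nat_lit 280) (nat_lit 230) (nat_lit 210))))) (XT.nd (nat_lit 312) (nat_lit 152) (nat_lit 0) (XT.nd (nat_lit 156) (nat_lit 152) (nat_lit 0) (XT.nd (nat_lit 78) (nat_lit 76) (nat_lit 0) (XT.lf (nat_lit 0) (nat_lit 5834305212) (nat_lit 228) (nat_lit 1363715940) (nat_lit 76) (nat_lit 6904537914) (nat_lit 17) (nat_lit 5) (nat_lit 20) (nat_lit 5) (nat_lit 18) (nat_lit 4) (nat_lit 281) (nat_lit 230) (nat_lit 209)) (XT.lf (nat_lit 0) (nat_lit 4311488708) (nat_lit 76) (nat_lit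 4464505785) (nat_lit 152) (nat_lit 5840267730) (nat_lit 16) (nat_lit 5) (nat_lit 17) (nat_lit 5) (nat_lit 18) (nat_lit 4) (nat_lit 282) (nat_lit 230) (nat_lit 208))) (XT.nd (nat_lit 78) (nat_lit 152) (nat_lit 0) (XT.lf (nat_lit 0) (nat_lit 10204508216) (nat_lit 76) (nat_lit 1611174482) (nat_lit 152) (nat_lit 3342607323) (nat_lit 16) (nat_lit 5) (nat_lit 17) (nat_lit 5) (nat_lit 18) (nat_lit 4) (nat_lit 283) (nat_lit 230) (nat_lit 207)) (XT.lf (nat_lit 0) (nat_lit 549838775) (nat_lit 152) (nat_lit 14418367209) (nat_lit 152) (nat_lit 761347079) (nat_lit 14) (nat_lit 4) (nat_lit 16) (nat_lit 5) (nat_lit 16) (nat_lit 4) (nat_lit 284) (nat_lit 230) (nat_lit 206)))) (XT.nd (nat_lit 156) (nat_lit 76) (nat_lit 0) (XT.nd (nat_lit 78) (nat_lit 0) (nat_lit 0) (XT.lf (nat_lit 0) (nat_lit 1929250398) (nat_lit 228) (nat_lit 9994328759) (nat_lit 76) (nat_lit 4402305957) (nat_lit 13) (nat_lit 5) (nat_lit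 16) (nat_lit 5) (nat_lit 14) (nat_lit 4) (nat_lit 285) (nat_lit 230) (nat_lit 205)) (XT.lf (nat_lit 0) (nat_lit 4663049515) (nat_lit 228) (nat_lit 4668394805) (nat_lit 76) (nat_lit 7623404863) (nat_lit 13) (nat_lit 5) (nat_lit 16) (nat_lit 5) (nat_lit 14) (nat_lit 4) (nat_lit 286) (nat_lit 230) (nat_lit 204))) (XT.nd (nat_lit 78) (nat_lit 0) (nat_lit 0) (XT.lf (nat_lit 0) (nat_lit 849855823) (nat_lit 76) (nat_lit 6634339985) (nat_lit 152) (nat_lit 10133677902) (nat_lit 12) (nat_lit 5) (nat_lit 13) (nat_lit 5) (nat_lit 14) (nat_lit 4) (nat_lit 287) (nat_lit 230) (nat_lit 203)) (XT.nd (nat_lit 78) (nat_lit 0) (nat_lit 0) (XT.lf (nat_lit 0) (nat_lit 6706546340) (nat_lit 76) (nat_lit 3757730450) (nat_lit 152) (nat_lit 7849017007) (nat_lit 12) (nat_lit 5) (nat_lit 13) (nat_lit 5) (nat_lit 14) (nat_lit 4) (nat_lit 288) (nat_lit 230) (nat_lit 202)) (XT.lf (nat_lit 0) (nat_lit 12761263031)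 (nat_lit 76) (nat_lit 773828171) (nat_lit 152) (nat_lit 5511438840) (nat_lit 12) (nat_lit 5) (nat_lit 13) (nat_lit 5) (nat_lit 14) (nat_lit 4) (nat_lit 289) (nat_lit 230) (nat_lit 201))))))) (XT.nd (nat_lit 624) (nat_lit 228) (nat_lit 0) (XT.nd (nat_lit 312) (nat_lit 76) (nat_lit 0) (XT.nd (nat_lit 156) (nat_lit 76) (nat_lit 0) (XT.nd (nat_lit 78) (nat_lit 152) (nat_lit 0) (XT.lf (nat_lit 0) (nat_lit 16740242020) (nat_lit 152) (nat_lit 827197872) (nat_lit 0) (nat_lit 2250073780) (nat_lit 12) (nat_lit 5) (nat_lit 14) (nat_lit 4) (nat_lit 12) (nat_lit 4) (nat_lit 290) (nat_lit 230) (nat_lit 200)) (XT.lf (nat_lit 0) (nat_lit 4961654348) (nat_lit 152) (nat_lit 15180776476) (nat_lit 152) (nat_lit 482896020) (nat_lit 10) (nat_lit 4) (nat_lit 12) (nat_lit 5) (nat_lit 12) (nat_lit 4) (nat_lit 291) (nat_lit 230) (nat_lit 199))) (XT.nd (nat_lit 78) (nat_lit 0) (nat_lit 0) (XT.lf (nat_lit 0)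 (nat_lit 2130554587) (nat_lit 228) (nat_lit 10528064709) (nat_lit 76) (nat_lit 8815215672) (nat_lit 9) (nat_lit 5) (nat_lit 12) (nat_lit 5) (nat_lit 10) (nat_lit 4) (nat_lit 292) (nat_lit 230) (nat_lit 198)) (XT.lf (nat_lit 0) (nat_lit 4807830099) (nat_lit 228) (nat_lit 5228051012) (nat_lit 76) (nat_lit 12331125658) (nat_lit 9) (nat_lit 5) (nat_lit 12) (nat_lit 5) (nat_lit 10) (nat_lit 4) (nat_lit 293) (nat_lit 230) (nat_lit 197)))) (XT.nd (nat_lit 156) (nat_lit 0) (nat_lit 0) (XT.nd (nat_lit 78) (nat_lit 0) (nat_lit 0) (XT.lf (nat_lit 0) (nat_lit 265008975) (nat_lit 76) (nat_lit 7309889225) (nat_lit 152) (nat_lit 15732240737) (nat_lit 8) (nat_lit 5) (nat_lit 9) (nat_lit 5) (nat_lit 10) (nat_lit 4) (nat_lit 294) (nat_lit 230) (nat_lit 196)) (XT.lf (nat_lit 0) (nat_lit 6135089114) (nat_lit 76) (nat_lit 4386621522) (nat_lit 152) (nat_lit 13770591074) (nat_lit 8) (nat_lit 5) (nat_lit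 9) (nat_lit 5) (nat_lit 10) (nat_lit 4) (nat_lit 295) (nat_lit 230) (nat_lit 195))) (XT.nd (nat_lit 78) (nat_lit 0) (nat_lit 0) (XT.lf (nat_lit 0) (nat_lit 12223302807) (nat_lit 76) (nat_lit 1347657414) (nat_lit 152) (nat_lit 11758096663) (nat_lit 8) (nat_lit 5) (nat_lit 9) (nat_lit 5) (nat_lit 10) (nat_lit 4) (nat_lit 296) (nat_lit 230) (nat_lit 194)) (XT.lf (nat_lit 0) (nat_lit 16758232425) (nat_lit 152) (nat_lit 7904052471) (nat_lit 0) (nat_lit 1756171757) (nat_lit 8) (nat_lit 5) (nat_lit 10) (nat_lit 4) (nat_lit 8) (nat_lit 4) (nat_lit 297) (nat_lit 230) (nat_lit 193))))) (XT.nd (nat_lit 312) (nat_lit 152) (nat_lit 0) (XT.nd (nat_lit 156) (nat_lit 0) (nat_lit 0) (XT.nd (nat_lit 78) (nat_lit 76) (nat_lit 0) (XT.lf (nat_lit 0) (nat_lit 20085800759) (nat_lit 152) (nat_lit 2534407545) (nat_lit 0) (nat_lit 4943152288) (nat_lit 8) (nat_lit 5) (nat_lit 10) (nat_lit 4) (nat_lit 8) (nat_lit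 4) (nat_lit 298) (nat_lit 230) (nat_lit 192)) (XT.lf (nat_lit 0) (nat_lit 3137423423) (nat_lit 76) (nat_lit 20452107845) (nat_lit 76) (nat_lit 5175566227) (nat_lit 7) (nat_lit 4) (nat_lit 8) (nat_lit 5) (nat_lit 8) (nat_lit 4) (nat_lit 299) (nat_lit 230) (nat_lit 191))) (XT.nd (nat_lit 78) (nat_lit 0) (nat_lit 0) (XT.lf (nat_lit 0) (nat_lit 9115197522) (nat_lit 76) (nat_lit 18157813881) (nat_lit 76) (nat_lit 2753754980) (nat_lit 7) (nat_lit 4) (nat_lit 8) (nat_lit 5) (nat_lit 8) (nat_lit 4) (nat_lit 300) (nat_lit 230) (nat_lit 190)) (XT.lf (nat_lit 0) (nat_lit 15329348586) (nat_lit 76) (nat_lit 15774785224) (nat_lit 76) (nat_lit 249281293) (nat_lit 7) (nat_lit 4) (nat_lit 8) (nat_lit 5) (nat_lit 8) (nat_lit 4) (nat_lit 301) (nat_lit 230) (nat_lit 189)))) (XT.nd (nat_lit 156) (nat_lit 76) (nat_lit 0) (XT.nd (nat_lit 78) (nat_lit 0) (nat_lit 0) (XT.lf (nat_lit 0) (nat_lit 2268801058)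 (nat_lit 152) (nat_lit 10990123695) (nat_lit 76) (nat_lit 19487447913) (nat_lit 6) (nat_lit 5) (nat_lit 8) (nat_lit 5) (nat_lit 7) (nat_lit 4) (nat_lit 302) (nat_lit 230) (nat_lit 188)) (XT.lf (nat_lit 0) (nat_lit 4870670193) (nat_lit 152) (nat_lit 5766446191) (nat_lit 76) (nat_lit 23573404685) (nat_lit 6) (nat_lit 5) (nat_lit 8) (nat_lit 5) (nat_lit 7) (nat_lit 4) (nat_lit 303) (nat_lit 230) (nat_lit 187))) (XT.nd (nat_lit 78) (nat_lit 76) (nat_lit 0) (XT.lf (nat_lit 0) (nat_lit 7570499597) (nat_lit 152) (nat_lit 336704696) (nat_lit 76) (nat_lit 27842336685) (nat_lit 6) (nat_lit 5) (nat_lit 8) (nat_lit 5) (nat_lit 7) (nat_lit 4) (nat_lit 304) (nat_lit 230) (nat_lit 186)) (XT.nd (nat_lit 78) (nat_lit 0) (nat_lit 0) (XT.lf (nat_lit 0) (nat_lit 5487668403) (nat_lit 76) (nat_lit 4972726914) (nat_lit 152) (nat_lit 26902417515) (nat_lit 5) (nat_lit 5) (nat_lit 6) (nat_lit 5) (nat_lit 7)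 (nat_lit 4) (nat_lit 305) (nat_lit 230) (nat_lit 185)) (XT.lf (nat_lit 0) (nat_lit 11563301352) (nat_lit 76) (nat_lit 1907234603) (nat_lit 152) (nat_lit 25587476905) (nat_lit 5) (nat_lit 5) (nat_lit 6) (nat_lit 5) (nat_lit 7) (nat_lit 4) (nat_lit 306) (nat_lit 230) (nat_lit 184))))))))
noncomputable def xc79 : XT := (XT.nd (nat_lit 1326) (nat_lit 76) (nat_lit 0) (XT.nd (nat_lit 624) (nat_lit 76) (nat_lit 0) (XT.nd (nat_lit 312) (nat_lit 76) (nat_lit 0) (XT.nd (nat_lit 156) (nat_lit 0) (nat_lit 0) (XT.nd (nat_lit 78) (nat_lit 0) (nat_lit 0) (XT.lf (nat_lit 0) (nat_lit 16622811878) (nat_lit 152) (nat_lit 22966075910) (nat_lit 0) (nat_lit 1249553297) (nat_lit 5) (nat_lit 5) (nat_lit 7) (nat_lit 4) (nat_lit 5) (nat_lit 4) (nat_lit 307) (nat_lit 230) (nat_lit 183)) (XT.lf (nat_lit 0) (nat_lit 19936493028) (nat_lit 152) (nat_lit 18290219695) (nat_lit 0) (nat_lit 4481035670) (nat_lit 5) (nat_lit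 5) (nat_lit 7) (nat_lit 4) (nat_lit 5) (nat_lit 4) (nat_lit 308) (nat_lit 230) (nat_lit 182))) (XT.nd (nat_lit 78) (nat_lit 0) (nat_lit 0) (XT.lf (nat_lit 0) (nat_lit 23389691847) (nat_lit 152) (nat_lit 13426232595) (nat_lit 0) (nat_lit 7855949940) (nat_lit 5) (nat_lit 5) (nat_lit 7) (nat_lit 4) (nat_lit 5) (nat_lit 4) (nat_lit 309) (nat_lit 230) (nat_lit 181)) (XT.lf (nat_lit 0) (nat_lit 26990630237) (nat_lit 152) (nat_lit 8362533689) (nat_lit 0) (nat_lit 11382331616) (nat_lit 5) (nat_lit 5) (nat_lit 7) (nat_lit 4) (nat_lit 5) (nat_lit 4) (nat_lit 310) (nat_lit 230) (nat_lit 180)))) (XT.nd (nat_lit 156) (nat_lit 0) (nat_lit 0) (XT.nd (nat_lit 78) (nat_lit 76) (nat_lit 0) (XT.lf (nat_lit 0) (nat_lit 30747881861) (nat_lit 152) (nat_lit 3087066550) (nat_lit 0) (nat_lit 15068576845) (nat_lit 5) (nat_lit 5) (nat_lit 7) (nat_lit 4) (nat_lit 5) (nat_lit 4) (nat_lit 311) (nat_lit 230) (nat_lit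 179)) (XT.lf (nat_lit 0) (nat_lit 2492505188) (nat_lit 76) (nat_lit 32216802358) (nat_lit 76) (nat_lit 16469872205) (nat_lit 4) (nat_lit 4) (nat_lit 5) (nat_lit 5) (nat_lit 5) (nat_lit 4) (nat_lit 312) (nat_lit 230) (nat_lit 178))) (XT.nd (nat_lit 78) (nat_lit 0) (nat_lit 0) (XT.lf (nat_lit 0) (nat_lit 8419423207) (nat_lit 76) (nat_lit 30479529215) (nat_lit 76) (nat_lit 14668194170) (nat_lit 4) (nat_lit 4) (nat_lit 5) (nat_lit 5) (nat_lit 5) (nat_lit 4) (nat_lit 313) (nat_lit 230) (nat_lit 177)) (XT.lf (nat_lit 0) (nat_lit 14605726853) (nat_lit 76) (nat_lit 28671273586) (nat_lit 76) (nat_lit 12798600547) (nat_lit 4) (nat_lit 4) (nat_lit 5) (nat_lit 5) (nat_lit 5) (nat_lit 4) (nat_lit 314) (nat_lit 230) (nat_lit 176))))) (XT.nd (nat_lit 312) (nat_lit 76) (nat_lit 0) (XT.nd (nat_lit 156) (nat_lit 0) (nat_lit 0) (XT.nd (nat_lit 78) (nat_lit 0) (nat_lit 0) (XT.lf (nat_lit 0) (nat_lit 21066145421)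 (nat_lit 76) (nat_lit 26787730098) (nat_lit 76) (nat_lit 10856639923) (nat_lit 4) (nat_lit 4) (nat_lit 5) (nat_lit 5) (nat_lit 5) (nat_lit 4) (nat_lit 315) (nat_lit 230) (nat_lit 175)) (XT.lf (nat_lit 0) (nat_lit 27816060860) (nat_lit 76) (nat_lit 24824414125) (nat_lit 76) (nat_lit 8837688583) (nat_lit 4) (nat_lit 4) (nat_lit 5) (nat_lit 5) (nat_lit 5) (nat_lit 4) (nat_lit 316) (nat_lit 230) (nat_lit 174))) (XT.nd (nat_lit 78) (nat_lit 0) (nat_lit 0) (XT.lf (nat_lit 0) (nat_lit 34871544397) (nat_lit 76) (nat_lit 22776651105) (nat_lit 76) (nat_lit 6736939498) (nat_lit 4) (nat_lit 4) (nat_lit 5) (nat_lit 5) (nat_lit 5) (nat_lit 4) (nat_lit 317) (nat_lit 230) (nat_lit 173)) (XT.lf (nat_lit 0) (nat_lit 42249394803) (nat_lit 76) (nat_lit 20639565411) (nat_lit 76) (nat_lit 4549390886) (nat_lit 4) (nat_lit 4) (nat_lit 5) (nat_lit 5) (nat_lit 5) (nat_lit 4) (nat_lit 318) (nat_lit 230) (nat_lit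 172)))) (XT.nd (nat_lit 156) (nat_lit 0) (nat_lit 0) (XT.nd (nat_lit 78) (nat_lit 76) (nat_lit 0) (XT.lf (nat_lit 0) (nat_lit 49967178387) (nat_lit 76) (nat_lit 18408068745) (nat_lit 76) (nat_lit 2269834297) (nat_lit 4) (nat_lit 4) (nat_lit 5) (nat_lit 5) (nat_lit 5) (nat_lit 4) (nat_lit 319) (nat_lit 230) (nat_lit 171)) (XT.lf (nat_lit 0) (nat_lit 103728065) (nat_lit 152) (nat_lit 15971363268) (nat_lit 76) (nat_lit 57937786075) (nat_lit 3) (nat_lit 5) (nat_lit 5) (nat_lit 5) (nat_lit 4) (nat_lit 4) (nat_lit 320) (nat_lit 230) (nat_lit 170))) (XT.nd (nat_lit 78) (nat_lit 0) (nat_lit 0) (XT.lf (nat_lit 0) (nat_lit 2504436869) (nat_lit 152) (nat_lit 11093501987) (nat_lit 76) (nat_lit 63950050191) (nat_lit 3) (nat_lit 5) (nat_lit 5) (nat_lit 5) (nat_lit 4) (nat_lit 4) (nat_lit 321) (nat_lit 230) (nat_lit 169)) (XT.nd (nat_lit 78) (nat_lit 0) (nat_lit 0) (XT.lf (nat_lit 0) (nat_lit 5010656959)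 (nat_lit 152) (nat_lit 5997266771) (nat_lit 76) (nat_lit 70252681472) (nat_lit 3) (nat_lit 5) (nat_lit 5) (nat_lit 5) (nat_lit 4) (nat_lit 4) (nat_lit 322) (nat_lit 230) (nat_lit 168)) (XT.lf (nat_lit 0) (nat_lit 7628355526) (nat_lit 152) (nat_lit 670523724) (nat_lit 76) (nat_lit 76860686182) (nat_lit 3) (nat_lit 5) (nat_lit 5) (nat_lit 5) (nat_lit 4) (nat_lit 4) (nat_lit 323) (nat_lit 230) (nat_lit 167))))))) (XT.nd (nat_lit 702) (nat_lit 0) (nat_lit 0) (XT.nd (nat_lit 312) (nat_lit 0) (nat_lit 0) (XT.nd (nat_lit 156) (nat_lit 0) (nat_lit 0) (XT.nd (nat_lit 78) (nat_lit 0) (nat_lit 0) (XT.lf (nat_lit 0) (nat_lit 5061406489) (nat_lit 76) (nat_lit 5381381437) (nat_lit 152) (nat_lit 78807413917) (nat_lit 2) (nat_lit 5) (nat_lit 3) (nat_lit 5) (nat_lit 4) (nat_lit 4) (nat_lit 324) (nat_lit 230) (nat_lit 166)) (XT.lf (nat_lit 0) (nat_lit 11080439016) (nat_lit 76) (nat_lit 2315956511) (nat_lit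 152) (nat_lit 80149071500) (nat_lit 2) (nat_lit 5) (nat_lit 3) (nat_lit 5) (nat_lit 4) (nat_lit 4) (nat_lit 325) (nat_lit 230) (nat_lit 165))) (XT.nd (nat_lit 78) (nat_lit 0) (nat_lit 0) (XT.lf (nat_lit 0) (nat_lit 16499343345) (nat_lit 152) (nat_lit 80691341728) (nat_lit 0) (nat_lit 864746102) (nat_lit 2) (nat_lit 5) (nat_lit 4) (nat_lit 4) (nat_lit 2) (nat_lit 4) (nat_lit 326) (nat_lit 230) (nat_lit 164)) (XT.lf (nat_lit 0) (nat_lit 19783562712) (nat_lit 152) (nat_lit 78888056802) (nat_lit 0) (nat_lit 4117985614) (nat_lit 2) (nat_lit 5) (nat_lit 4) (nat_lit 4) (nat_lit 2) (nat_lit 4) (nat_lit 327) (nat_lit 230) (nat_lit 163)))) (XT.nd (nat_lit 156) (nat_lit 0) (nat_lit 0) (XT.nd (nat_lit 78) (nat_lit 0) (nat_lit 0) (XT.lf (nat_lit 0) (nat_lit 23220714627) (nat_lit 152) (nat_lit 77014721125) (nat_lit 0) (nat_lit 7525632906) (nat_lit 2) (nat_lit 5) (nat_lit 4) (nat_lit 4) (nat_lit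 2) (nat_lit 4) (nat_lit 328) (nat_lit 230) (nat_lit 162)) (XT.lf (nat_lit 0) (nat_lit 26818982785) (nat_lit 152) (nat_lit 75066874375) (nat_lit 0) (nat_lit 11095801423) (nat_lit 2) (nat_lit 5) (nat_lit 4) (nat_lit 4) (nat_lit 2) (nat_lit 4) (nat_lit 329) (nat_lit 230) (nat_lit 161))) (XT.nd (nat_lit 78) (nat_lit 0) (nat_lit 0) (XT.lf (nat_lit 0) (nat_lit 30586934491) (nat_lit 152) (nat_lit 73039878822) (nat_lit 0) (nat_lit 14836991565) (nat_lit 2) (nat_lit 5) (nat_lit 4) (nat_lit 4) (nat_lit 2) (nat_lit 4) (nat_lit 330) (nat_lit 230) (nat_lit 160)) (XT.nd (nat_lit 78) (nat_lit 0) (nat_lit 0) (XT.lf (nat_lit 0) (nat_lit 34533541059) (nat_lit 152) (nat_lit 70928908285) (nat_lit 0) (nat_lit 18758110930) (nat_lit 2) (nat_lit 5) (nat_lit 4) (nat_lit 4) (nat_lit 2) (nat_lit 4) (nat_lit 331) (nat_lit 230) (nat_lit 159)) (XT.lf (nat_lit 0) (nat_lit 38668199171) (nat_lit 152) (nat_lit 68728936645)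 (nat_lit 0) (nat_lit 22868495515) (nat_lit 2) (nat_lit 5) (nat_lit 4) (nat_lit 4) (nat_lit 2) (nat_lit 4) (nat_lit 332) (nat_lit 230) (nat_lit 158)))))) (XT.nd (nat_lit 312) (nat_lit 0) (nat_lit 0) (XT.nd (nat_lit 156) (nat_lit 0) (nat_lit 0) (XT.nd (nat_lit 78) (nat_lit 0) (nat_lit 0) (XT.lf (nat_lit 0) (nat_lit 43000753251) (nat_lit 152) (nat_lit 66434725873) (nat_lit 0) (nat_lit 27177931951) (nat_lit 2) (nat_lit 5) (nat_lit 4) (nat_lit 4) (nat_lit 2) (nat_lit 4) (nat_lit 333) (nat_lit 230) (nat_lit 157)) (XT.lf (nat_lit 0) (nat_lit 47541518903) (nat_lit 152) (nat_lit 64040813564) (nat_lit 0) (nat_lit 31696680799) (nat_lit 2) (nat_lit 5) (nat_lit 4) (nat_lit 4) (nat_lit 2) (nat_lit 4) (nat_lit 334) (nat_lit 230) (nat_lit 156))) (XT.nd (nat_lit 78) (nat_lit 0) (nat_lit 0) (XT.lf (nat_lit 0) (nat_lit 52301307476) (nat_lit 152) (nat_lit 61541499925) (nat_lit 0) (nat_lit 36435500987)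 (nat_lit 2) (nat_lit 5) (nat_lit 4) (nat_lit 4) (nat_lit 2) (nat_lit 4) (nat_lit 335) (nat_lit 230) (nat_lit 155)) (XT.lf (nat_lit 0) (nat_lit 57291451798) (nat_lit 152) (nat_lit 58930834210) (nat_lit 0) (nat_lit 41405675419) (nat_lit 2) (nat_lit 5) (nat_lit 4) (nat_lit 4) (nat_lit 2) (nat_lit 4) (nat_lit 336) (nat_lit 230) (nat_lit 154)))) (XT.nd (nat_lit 156) (nat_lit 0) (nat_lit 0) (XT.nd (nat_lit 78) (nat_lit 0) (nat_lit 0) (XT.lf (nat_lit 0) (nat_lit 62523833166) (nat_lit 152) (nat_lit 56202600549) (nat_lit 0) (nat_lit 46619037843) (nat_lit 2) (nat_lit 5) (nat_lit 4) (nat_lit 4) (nat_lit 2) (nat_lit 4) (nat_lit 337) (nat_lit 230) (nat_lit 153)) (XT.lf (nat_lit 0) (nat_lit 68010909631) (nat_lit 152) (nat_lit 53350303146) (nat_lit 0) (nat_lit 52088001029) (nat_lit 2) (nat_lit 5) (nat_lit 4) (nat_lit 4) (nat_lit 2) (nat_lit 4) (nat_lit 338) (nat_lit 230) (nat_lit 152))) (XT.nd (nat_lit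 78) (nat_lit 0) (nat_lit 0) (XT.lf (nat_lit 0) (nat_lit 73765745660) (nat_lit 152) (nat_lit 50367150819) (nat_lit 0) (nat_lit 57825586315) (nat_lit 2) (nat_lit 5) (nat_lit 4) (nat_lit 4) (nat_lit 2) (nat_lit 4) (nat_lit 339) (nat_lit 230) (nat_lit 151)) (XT.nd (nat_lit 78) (nat_lit 0) (nat_lit 0) (XT.lf (nat_lit 0) (nat_lit 79802043244) (nat_lit 152) (nat_lit 47246040822) (nat_lit 0) (nat_lit 63845454621) (nat_lit 2) (nat_lit 5) (nat_lit 4) (nat_lit 4) (nat_lit 2) (nat_lit 4) (nat_lit 340) (nat_lit 230) (nat_lit 150)) (XT.lf (nat_lit 0) (nat_lit 86134174520) (nat_lit 152) (nat_lit 43979541941) (nat_lit 0) (nat_lit 70161938965) (nat_lit 2) (nat_lit 5) (nat_lit 4) (nat_lit 4) (nat_lit 2) (nat_lit 4) (nat_lit 341) (nat_lit 230) (nat_lit 149))))))))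
noncomputable def xc80 : XT := (XT.nd (nat_lit 1326) (nat_lit 0) (nat_lit 0) (XT.nd (nat_lit 624) (nat_lit 76) (nat_lit 0) (XT.nd (nat_lit 312) (nat_lit 0) (nat_lit 0) (XT.nd (nat_lit 156) (nat_lit 0) (nat_lit 0) (XT.nd (nat_lit 78) (nat_lit 0) (nat_lit 0) (XT.lf (nat_lit 0) (nat_lit 92777215991) (nat_lit 152) (nat_lit 40559876800) (nat_lit 0) (nat_lit 76790078596) (nat_lit 2) (nat_lit 5) (nat_lit 4) (nat_lit 4) (nat_lit 2) (nat_lit 4) (nat_lit 342) (nat_lit 230) (nat_lit 148)) (XT.lf (nat_lit 0) (nat_lit 99746984422) (nat_lit 152) (nat_lit 36978903336) (nat_lit 0) (nat_lit 83745654800) (nat_lit 2) (nat_lit 5) (nat_lit 4) (nat_lit 4) (nat_lit 2) (nat_lit 4) (nat_lit 343) (nat_lit 230) (nat_lit 147))) (XT.nd (nat_lit 78) (nat_lit 0) (nat_lit 0) (XT.lf (nat_lit 0) (nat_lit 107060074501) (nat_lit 152) (nat_lit 33228095424) (nat_lit 0) (nat_lit 91045228470) (nat_lit 2) (nat_lit 5) (nat_lit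 4) (nat_lit 4) (nat_lit 2) (nat_lit 4) (nat_lit 344) (nat_lit 230) (nat_lit 146)) (XT.lf (nat_lit 0) (nat_lit 114733898346) (nat_lit 152) (nat_lit 29298522568) (nat_lit 0) (nat_lit 98706179546) (nat_lit 2) (nat_lit 5) (nat_lit 4) (nat_lit 4) (nat_lit 2) (nat_lit 4) (nat_lit 345) (nat_lit 230) (nat_lit 145)))) (XT.nd (nat_lit 156) (nat_lit 0) (nat_lit 0) (XT.nd (nat_lit 78) (nat_lit 0) (nat_lit 0) (XT.lf (nat_lit 0) (nat_lit 122786726967) (nat_lit 152) (nat_lit 25180828643) (nat_lit 0) (nat_lit 106746748386) (nat_lit 2) (nat_lit 5) (nat_lit 4) (nat_lit 4) (nat_lit 2) (nat_lit 4) (nat_lit 346) (nat_lit 230) (nat_lit 144)) (XT.lf (nat_lit 0) (nat_lit 131237733765) (nat_lit 152) (nat_lit 20865209614) (nat_lit 0) (nat_lit 115186079203) (nat_lit 2) (nat_lit 5) (nat_lit 4) (nat_lit 4) (nat_lit 2) (nat_lit 4) (nat_lit 347) (nat_lit 230) (nat_lit 143))) (XT.nd (nat_lit 78) (nat_lit 0) (nat_lit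 0) (XT.lf (nat_lit 0) (nat_lit 140107040185) (nat_lit 152) (nat_lit 16341390200) (nat_lit 0) (nat_lit 124044265640) (nat_lit 2) (nat_lit 5) (nat_lit 4) (nat_lit 4) (nat_lit 2) (nat_lit 4) (nat_lit 348) (nat_lit 230) (nat_lit 142)) (XT.lf (nat_lit 0) (nat_lit 149415763622) (nat_lit 152) (nat_lit 11598599401) (nat_lit 0) (nat_lit 133342398619) (nat_lit 2) (nat_lit 5) (nat_lit 4) (nat_lit 4) (nat_lit 2) (nat_lit 4) (nat_lit 349) (nat_lit 230) (nat_lit 141))))) (XT.nd (nat_lit 312) (nat_lit 0) (nat_lit 0) (XT.nd (nat_lit 156) (nat_lit 76) (nat_lit 0) (XT.nd (nat_lit 78) (nat_lit 0) (nat_lit 0) (XT.lf (nat_lit 0) (nat_lit 159186067705) (nat_lit 152) (nat_lit 6625544858) (nat_lit 0) (nat_lit 143102616550) (nat_lit 2) (nat_lit 5) (nat_lit 4) (nat_lit 4) (nat_lit 2) (nat_lit 4) (nat_lit 350) (nat_lit 230) (nat_lit 140)) (XT.lf (nat_lit 0) (nat_lit 169441215063) (nat_lit 152) (nat_lit 1410385964)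 (nat_lit 0) (nat_lit 153348158049) (nat_lit 2) (nat_lit 5) (nat_lit 4) (nat_lit 4) (nat_lit 2) (nat_lit 4) (nat_lit 351) (nat_lit 230) (nat_lit 139))) (XT.nd (nat_lit 78) (nat_lit 0) (nat_lit 0) (XT.lf (nat_lit 0) (nat_lit 4193512925) (nat_lit 76) (nat_lit 176077582275) (nat_lit 76) (nat_lit 159975376824) (nat_lit 1) (nat_lit 4) (nat_lit 2) (nat_lit 5) (nat_lit 2) (nat_lit 4) (nat_lit 352) (nat_lit 230) (nat_lit 138)) (XT.lf (nat_lit 0) (nat_lit 10120436216) (nat_lit 76) (nat_lit 181542492349) (nat_lit 76) (nat_lit 165431574101) (nat_lit 1) (nat_lit 4) (nat_lit 2) (nat_lit 5) (nat_lit 2) (nat_lit 4) (nat_lit 353) (nat_lit 230) (nat_lit 137)))) (XT.nd (nat_lit 156) (nat_lit 0) (nat_lit 0) (XT.nd (nat_lit 78) (nat_lit 0) (nat_lit 0) (XT.lf (nat_lit 0) (nat_lit 16337861900) (nat_lit 76) (nat_lit 187283228510) (nat_lit 76) (nat_lit 171164012360) (nat_lit 1) (nat_lit 4) (nat_lit 2) (nat_lit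 5) (nat_lit 2) (nat_lit 4) (nat_lit 354) (nat_lit 230) (nat_lit 136)) (XT.lf (nat_lit 0) (nat_lit 22860593371) (nat_lit 76) (nat_lit 193313459177) (nat_lit 76) (nat_lit 177186340263) (nat_lit 1) (nat_lit 4) (nat_lit 2) (nat_lit 5) (nat_lit 2) (nat_lit 4) (nat_lit 355) (nat_lit 230) (nat_lit 135))) (XT.nd (nat_lit 78) (nat_lit 0) (nat_lit 0) (XT.lf (nat_lit 0) (nat_lit 29704160942) (nat_lit 76) (nat_lit 199647542041) (nat_lit 76) (nat_lit 183512896686) (nat_lit 1) (nat_lit 4) (nat_lit 2) (nat_lit 5) (nat_lit 2) (nat_lit 4) (nat_lit 356) (nat_lit 230) (nat_lit 134)) (XT.nd (nat_lit 78) (nat_lit 0) (nat_lit 0) (XT.lf (nat_lit 0) (nat_lit 36884858822) (nat_lit 76) (nat_lit 206300558254) (nat_lit 76) (nat_lit 190158744858) (nat_lit 1) (nat_lit 4) (nat_lit 2) (nat_lit 5) (nat_lit 2) (nat_lit 4) (nat_lit 357) (nat_lit 230) (nat_lit 133)) (XT.lf (nat_lit 0) (nat_lit 44419783911) (nat_lit 76)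 (nat_lit 213288348329) (nat_lit 76) (nat_lit 197139708229) (nat_lit 1) (nat_lit 4) (nat_lit 2) (nat_lit 5) (nat_lit 2) (nat_lit 4) (nat_lit 358) (nat_lit 230) (nat_lit 132))))))) (XT.nd (nat_lit 30030) (nat_lit 0) (nat_lit 1976) (XT.nd (nat_lit 29718) (nat_lit 0) (nat_lit 3420) (XT.nd (nat_lit 156) (nat_lit 0) (nat_lit 0) (XT.nd (nat_lit 78) (nat_lit 0) (nat_lit 0) (XT.lf (nat_lit 0) (nat_lit 52326876506) (nat_lit 76) (nat_lit 220627549861) (nat_lit 76) (nat_lit 204472408138) (nat_lit 1) (nat_lit 4) (nat_lit 2) (nat_lit 5) (nat_lit 2) (nat_lit 4) (nat_lit 359) (nat_lit 230) (nat_lit 131)) (XT.lf (nat_lit 0) (nat_lit 60624963019) (nat_lit 76) (nat_lit 228335637141) (nat_lit 76) (nat_lit 212174303396) (nat_lit 1) (nat_lit 4) (nat_lit 2) (nat_lit 5) (nat_lit 2) (nat_lit 4) (nat_lit 360) (nat_lit 230) (nat_lit 130))) (XT.nd (nat_lit 29484) (nat_lit 0) (nat_lit 4408) (XT.lf (nat_lit 0)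 (nat_lit 69333800798) (nat_lit 76) (nat_lit 236430962757) (nat_lit 76) (nat_lit 220263731848) (nat_lit 1) (nat_lit 4) (nat_lit 2) (nat_lit 5) (nat_lit 2) (nat_lit 4) (nat_lit 361) (nat_lit 230) (nat_lit 129)) (XT.lf (nat_lit 0) (nat_lit 2655630937) (nat_lit 684) (nat_lit 557348474) (nat_lit 684) (nat_lit 557348474) (nat_lit 59) (nat_lit 4) (nat_lit 68) (nat_lit 5) (nat_lit 68) (nat_lit 4) (nat_lit 258) (nat_lit 231) (nat_lit 231)))) (XT.nd (nat_lit 156) (nat_lit 608) (nat_lit 0) (XT.nd (nat_lit 78) (nat_lit 0) (nat_lit 0) (XT.lf (nat_lit 0) (nat_lit 1879783403) (nat_lit 380) (nat_lit 5242050405) (nat_lit 0) (nat_lit 553441766) (nat_lit 54) (nat_lit 5) (nat_lit 59) (nat_lit 4) (nat_lit 54) (nat_lit 4) (nat_lit 259) (nat_lit 231) (nat_lit 230)) (XT.lf (nat_lit 0) (nat_lit 4902664800) (nat_lit 380) (nat_lit 604826356) (nat_lit 0) (nat_lit 2313140652) (nat_lit 54) (nat_lit 5) (nat_lit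 59) (nat_lit 4) (nat_lit 54) (nat_lit 4) (nat_lit 260) (nat_lit 231) (nat_lit 229))) (XT.nd (nat_lit 78) (nat_lit 228) (nat_lit 0) (XT.lf (nat_lit 0) (nat_lit 30860188) (nat_lit 380) (nat_lit 3729291723) (nat_lit 76) (nat_lit 4217144916) (nat_lit 49) (nat_lit 5) (nat_lit 54) (nat_lit 5) (nat_lit 50) (nat_lit 4) (nat_lit 261) (nat_lit 231) (nat_lit 228)) (XT.lf (nat_lit 0) (nat_lit 1054672811) (nat_lit 228) (nat_lit 1868728016) (nat_lit 304) (nat_lit 5221912926) (nat_lit 46) (nat_lit 5) (nat_lit 49) (nat_lit 5) (nat_lit 50) (nat_lit 4) (nat_lit 262) (nat_lit 231) (nat_lit 227))))) (XT.nd (nat_lit 312) (nat_lit 836) (nat_lit 0) (XT.nd (nat_lit 156) (nat_lit 228) (nat_lit 0) (XT.nd (nat_lit 78) (nat_lit 380) (nat_lit 0) (XT.lf (nat_lit 0) (nat_lit 5897629438) (nat_lit 304) (nat_lit 2272582085) (nat_lit 0) (nat_lit 155264265) (nat_lit 46) (nat_lit 5) (nat_lit 50) (nat_lit 4) (nat_lit 46)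 (nat_lit 4) (nat_lit 263) (nat_lit 231) (nat_lit 226)) (XT.lf (nat_lit 0) (nat_lit 438184524) (nat_lit 380) (nat_lit 5833823447) (nat_lit 76) (nat_lit 2245362103) (nat_lit 41) (nat_lit 5) (nat_lit 46) (nat_lit 5) (nat_lit 42) (nat_lit 4) (nat_lit 264) (nat_lit 231) (nat_lit 225))) (XT.nd (nat_lit 78) (nat_lit 228) (nat_lit 0) (XT.lf (nat_lit 0) (nat_lit 3283272595) (nat_lit 380) (nat_lit 943999140) (nat_lit 76) (nat_lit 4494245921) (nat_lit 41) (nat_lit 5) (nat_lit 46) (nat_lit 5) (nat_lit 42) (nat_lit 4) (nat_lit 265) (nat_lit 231) (nat_lit 224)) (XT.lf (nat_lit 0) (nat_lit 4178321698) (nat_lit 228) (nat_lit 2041556295) (nat_lit 304) (nat_lit 2719022887) (nat_lit 38) (nat_lit 5) (nat_lit 41) (nat_lit 5) (nat_lit 42) (nat_lit 4) (nat_lit 266) (nat_lit 231) (nat_lit 223)))) (XT.nd (nat_lit 156) (nat_lit 532) (nat_lit 0) (XT.nd (nat_lit 78) (nat_lit 0) (nat_lit 0) (XT.lf (nat_lit 0)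 (nat_lit 41289604) (nat_lit 304) (nat_lit 8893832343) (nat_lit 76) (nat_lit 236896389) (nat_lit 34) (nat_lit 5) (nat_lit 38) (nat_lit 5) (nat_lit 35) (nat_lit 4) (nat_lit 267) (nat_lit 231) (nat_lit 222)) (XT.lf (nat_lit 0) (nat_lit 2851350025) (nat_lit 304) (nat_lit 3908692965) (nat_lit 76) (nat_lit 2654788999) (nat_lit 34) (nat_lit 5) (nat_lit 38) (nat_lit 5) (nat_lit 35) (nat_lit 4) (nat_lit 268) (nat_lit 231) (nat_lit 221))) (XT.nd (nat_lit 78) (nat_lit 304) (nat_lit 0) (XT.lf (nat_lit 0) (nat_lit 1221233864) (nat_lit 228) (nat_lit 4492791030) (nat_lit 304) (nat_lit 3960560143) (nat_lit 31) (nat_lit 5) (nat_lit 34) (nat_lit 5) (nat_lit 35) (nat_lit 4) (nat_lit 269) (nat_lit 231) (nat_lit 220)) (XT.nd (nat_lit 78) (nat_lit 304) (nat_lit 0) (XT.lf (nat_lit 0) (nat_lit 6602116832) (nat_lit 228) (nat_lit 2079844773) (nat_lit 304) (nat_lit 1267642760) (nat_lit 31) (nat_lit 5) (nat_lit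 34) (nat_lit 5) (nat_lit 35) (nat_lit 4) (nat_lit 270) (nat_lit 231) (nat_lit 219)) (XT.lf (nat_lit 0) (nat_lit 1446151726) (nat_lit 304) (nat_lit 8336148117) (nat_lit 76) (nat_lit 458398392) (nat_lit 27) (nat_lit 5) (nat_lit 31) (nat_lit 5) (nat_lit 28) (nat_lit 4) (nat_lit 271) (nat_lit 231) (nat_lit 218))))))))
noncomputable def xc81 : XT := (XT.nd (nat_lit 1326) (nat_lit 532) (nat_lit 0) (XT.nd (nat_lit 624) (nat_lit 608) (nat_lit 0) (XT.nd (nat_lit 312) (nat_lit 152) (nat_lit 0) (XT.nd (nat_lit 156) (nat_lit 228) (nat_lit 0) (XT.nd (nat_lit 78) (nat_lit 152) (nat_lit 0) (XT.lf (nat_lit 0) (nat_lit 4245763874) (nat_lit 304) (nat_lit 3204555598) (nat_lit 76) (nat_lit 3095684428) (nat_lit 27) (nat_lit 5) (nat_lit 31) (nat_lit 5) (nat_lit 28) (nat_lit 4) (nat_lit 272) (nat_lit 231) (nat_lit 217)) (XT.lf (nat_lit 0) (nat_lit 2117441205) (nat_lit 152) (nat_lit 5006700848) (nat_lit 228)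 (nat_lit 3745810292) (nat_lit 25) (nat_lit 5) (nat_lit 27) (nat_lit 5) (nat_lit 28) (nat_lit 4) (nat_lit 273) (nat_lit 231) (nat_lit 216))) (XT.nd (nat_lit 78) (nat_lit 228) (nat_lit 0) (XT.lf (nat_lit 0) (nat_lit 7685006531) (nat_lit 152) (nat_lit 2423861215) (nat_lit 228) (nat_lit 1103410717) (nat_lit 25) (nat_lit 5) (nat_lit 27) (nat_lit 5) (nat_lit 28) (nat_lit 4) (nat_lit 274) (nat_lit 231) (nat_lit 215)) (XT.lf (nat_lit 0) (nat_lit 1562331201) (nat_lit 228) (nat_lit 9714412251) (nat_lit 76) (nat_lit 296711122) (nat_lit 22) (nat_lit 5) (nat_lit 25) (nat_lit 5) (nat_lit 23) (nat_lit 4) (nat_lit 275) (nat_lit 231) (nat_lit 214)))) (XT.nd (nat_lit 156) (nat_lit 0) (nat_lit 0) (XT.nd (nat_lit 78) (nat_lit 152) (nat_lit 0) (XT.lf (nat_lit 0) (nat_lit 4337197150) (nat_lit 228) (nat_lit 4502017259) (nat_lit 76) (nat_lit 3112185312) (nat_lit 22) (nat_lit 5) (nat_lit 25) (nat_lit 5) (nat_lit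 23) (nat_lit 4) (nat_lit 276) (nat_lit 231) (nat_lit 213)) (XT.lf (nat_lit 0) (nat_lit 874567808) (nat_lit 152) (nat_lit 6306529237) (nat_lit 228) (nat_lit 5170878743) (nat_lit 20) (nat_lit 5) (nat_lit 22) (nat_lit 5) (nat_lit 23) (nat_lit 4) (nat_lit 277) (nat_lit 231) (nat_lit 212))) (XT.nd (nat_lit 78) (nat_lit 0) (nat_lit 0) (XT.lf (nat_lit 0) (nat_lit 6553867492) (nat_lit 152) (nat_lit 3608262949) (nat_lit 228) (nat_lit 2610939667) (nat_lit 20) (nat_lit 5) (nat_lit 22) (nat_lit 5) (nat_lit 23) (nat_lit 4) (nat_lit 278) (nat_lit 231) (nat_lit 211)) (XT.lf (nat_lit 0) (nat_lit 12400546914) (nat_lit 152) (nat_lit 814234943) (nat_lit 228) (nat_lit 4534092) (nat_lit 20) (nat_lit 5) (nat_lit 22) (nat_lit 5) (nat_lit 23) (nat_lit 4) (nat_lit 279) (nat_lit 231) (nat_lit 210))))) (XT.nd (nat_lit 312) (nat_lit 304) (nat_lit 0) (XT.nd (nat_lit 156) (nat_lit 76) (nat_lit 0) (XT.nd (nat_lit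 78) (nat_lit 0) (nat_lit 0) (XT.lf (nat_lit 0) (nat_lit 2679742478) (nat_lit 228) (nat_lit 8869792924) (nat_lit 76) (nat_lit 2134660115) (nat_lit 17) (nat_lit 5) (nat_lit 20) (nat_lit 5) (nat_lit 18) (nat_lit 4) (nat_lit 280) (nat_lit 231) (nat_lit 209)) (XT.lf (nat_lit 0) (nat_lit 5451589636) (nat_lit 228) (nat_lit 3542764627) (nat_lit 76) (nat_lit 5180480094) (nat_lit 17) (nat_lit 5) (nat_lit 20) (nat_lit 5) (nat_lit 18) (nat_lit 4) (nat_lit 281) (nat_lit 231) (nat_lit 208))) (XT.nd (nat_lit 78) (nat_lit 0) (nat_lit 0) (XT.lf (nat_lit 0) (nat_lit 2005127167) (nat_lit 76) (nat_lit 6317795692) (nat_lit 152) (nat_lit 6369222802) (nat_lit 16) (nat_lit 5) (nat_lit 17) (nat_lit 5) (nat_lit 18) (nat_lit 4) (nat_lit 282) (nat_lit 231) (nat_lit 207)) (XT.lf (nat_lit 0) (nat_lit 7845514613) (nat_lit 76) (nat_lit 3483563010) (nat_lit 152) (nat_lit 3906858550) (nat_lit 16) (nat_lit 5) (nat_lit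 17) (nat_lit 5) (nat_lit 18) (nat_lit 4) (nat_lit 283) (nat_lit 231) (nat_lit 206)))) (XT.nd (nat_lit 156) (nat_lit 76) (nat_lit 0) (XT.nd (nat_lit 78) (nat_lit 228) (nat_lit 0) (XT.lf (nat_lit 0) (nat_lit 13875163598) (nat_lit 76) (nat_lit 544906478) (nat_lit 152) (nat_lit 1390287626) (nat_lit 16) (nat_lit 5) (nat_lit 17) (nat_lit 5) (nat_lit 18) (nat_lit 4) (nat_lit 284) (nat_lit 231) (nat_lit 205)) (XT.lf (nat_lit 0) (nat_lit 1248138607) (nat_lit 228) (nat_lit 12658698718) (nat_lit 76) (nat_lit 2504032796) (nat_lit 13) (nat_lit 5) (nat_lit 16) (nat_lit 5) (nat_lit 14) (nat_lit 4) (nat_lit 285) (nat_lit 231) (nat_lit 204))) (XT.nd (nat_lit 78) (nat_lit 76) (nat_lit 0) (XT.lf (nat_lit 0) (nat_lit 3951395572) (nat_lit 228) (nat_lit 7382121211) (nat_lit 76) (nat_lit 5707915302) (nat_lit 13) (nat_lit 5) (nat_lit 16) (nat_lit 5) (nat_lit 14) (nat_lit 4) (nat_lit 286) (nat_lit 231) (nat_lit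 203)) (XT.nd (nat_lit 78) (nat_lit 76) (nat_lit 0) (XT.lf (nat_lit 0) (nat_lit 6730185470) (nat_lit 228) (nat_lit 1938077416) (nat_lit 76) (nat_lit 9038378960) (nat_lit 13) (nat_lit 5) (nat_lit 16) (nat_lit 5) (nat_lit 14) (nat_lit 4) (nat_lit 287) (nat_lit 231) (nat_lit 202)) (XT.lf (nat_lit 0) (nat_lit 3808283532) (nat_lit 76) (nat_lit 5842298914) (nat_lit 152) (nat_lit 8754527894) (nat_lit 12) (nat_lit 5) (nat_lit 13) (nat_lit 5) (nat_lit 14) (nat_lit 4) (nat_lit 288) (nat_lit 231) (nat_lit 201))))))) (XT.nd (nat_lit 702) (nat_lit 228) (nat_lit 0) (XT.nd (nat_lit 312) (nat_lit 76) (nat_lit 0) (XT.nd (nat_lit 156) (nat_lit 228) (nat_lit 0) (XT.nd (nat_lit 78) (nat_lit 0) (nat_lit 0) (XT.lf (nat_lit 0) (nat_lit 9818954531) (nat_lit 76) (nat_lit 2875371192) (nat_lit 152) (nat_lit 6445435569) (nat_lit 12) (nat_lit 5) (nat_lit 13) (nat_lit 5) (nat_lit 14) (nat_lit 4) (nat_lit 289) (nat_lit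 231) (nat_lit 200)) (XT.lf (nat_lit 0) (nat_lit 15840631130) (nat_lit 152) (nat_lit 3872969862) (nat_lit 0) (nat_lit 200144436) (nat_lit 12) (nat_lit 5) (nat_lit 14) (nat_lit 4) (nat_lit 12) (nat_lit 4) (nat_lit 290) (nat_lit 231) (nat_lit 199))) (XT.nd (nat_lit 78) (nat_lit 76) (nat_lit 0) (XT.lf (nat_lit 0) (nat_lit 1772826410) (nat_lit 152) (nat_lit 17395412285) (nat_lit 152) (nat_lit 1557104433) (nat_lit 10) (nat_lit 4) (nat_lit 12) (nat_lit 5) (nat_lit 12) (nat_lit 4) (nat_lit 291) (nat_lit 231) (nat_lit 198)) (XT.lf (nat_lit 0) (nat_lit 1066035282) (nat_lit 228) (nat_lit 13841336625) (nat_lit 76) (nat_lit 6668602835) (nat_lit 9) (nat_lit 5) (nat_lit 12) (nat_lit 5) (nat_lit 10) (nat_lit 4) (nat_lit 292) (nat_lit 231) (nat_lit 197)))) (XT.nd (nat_lit 156) (nat_lit 76) (nat_lit 0) (XT.nd (nat_lit 78) (nat_lit 0) (nat_lit 0) (XT.lf (nat_lit 0) (nat_lit 3719794346) (nat_lit 228)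 (nat_lit 8580560165) (nat_lit 76) (nat_lit 10170015766) (nat_lit 9) (nat_lit 5) (nat_lit 12) (nat_lit 5) (nat_lit 10) (nat_lit 4) (nat_lit 293) (nat_lit 231) (nat_lit 196)) (XT.lf (nat_lit 0) (nat_lit 6460328299) (nat_lit 228) (nat_lit 3133350916) (nat_lit 76) (nat_lit 13818195569) (nat_lit 9) (nat_lit 5) (nat_lit 12) (nat_lit 5) (nat_lit 10) (nat_lit 4) (nat_lit 294) (nat_lit 231) (nat_lit 195))) (XT.nd (nat_lit 78) (nat_lit 0) (nat_lit 0) (XT.lf (nat_lit 0) (nat_lit 2596360416) (nat_lit 76) (nat_lit 6738338268) (nat_lit 152) (nat_lit 15066004434) (nat_lit 8) (nat_lit 5) (nat_lit 9) (nat_lit 5) (nat_lit 10) (nat_lit 4) (nat_lit 295) (nat_lit 231) (nat_lit 194)) (XT.nd (nat_lit 78) (nat_lit 0) (nat_lit 0) (XT.lf (nat_lit 0) (nat_lit 8649558800) (nat_lit 76) (nat_lit 3713528390) (nat_lit 152) (nat_lit 13075455543) (nat_lit 8) (nat_lit 5) (nat_lit 9) (nat_lit 5) (nat_lit 10) (nat_lit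 4) (nat_lit 296) (nat_lit 231) (nat_lit 193)) (XT.lf (nat_lit 0) (nat_lit 14937053881) (nat_lit 76) (nat_lit 565112467) (nat_lit 152) (nat_lit 11028225224) (nat_lit 8) (nat_lit 5) (nat_lit 9) (nat_lit 5) (nat_lit 10) (nat_lit 4) (nat_lit 297) (nat_lit 231) (nat_lit 192)))))) (XT.nd (nat_lit 312) (nat_lit 152) (nat_lit 0) (XT.nd (nat_lit 156) (nat_lit 76) (nat_lit 0) (XT.nd (nat_lit 78) (nat_lit 0) (nat_lit 0) (XT.lf (nat_lit 0) (nat_lit 18801789638) (nat_lit 152) (nat_lit 6247412871) (nat_lit 0) (nat_lit 2627527793) (nat_lit 8) (nat_lit 5) (nat_lit 10) (nat_lit 4) (nat_lit 8) (nat_lit 4) (nat_lit 298) (nat_lit 231) (nat_lit 191)) (XT.lf (nat_lit 0) (nat_lit 22238324694) (nat_lit 152) (nat_lit 706992471) (nat_lit 0) (nat_lit 5936545566) (nat_lit 8) (nat_lit 5) (nat_lit 10) (nat_lit 4) (nat_lit 8) (nat_lit 4) (nat_lit 299) (nat_lit 231) (nat_lit 190))) (XT.nd (nat_lit 78) (nat_lit 0)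 (nat_lit 0) (XT.lf (nat_lit 0) (nat_lit 5216911732) (nat_lit 76) (nat_lit 20675669634) (nat_lit 76) (nat_lit 4252445476) (nat_lit 7) (nat_lit 4) (nat_lit 8) (nat_lit 5) (nat_lit 8) (nat_lit 4) (nat_lit 300) (nat_lit 231) (nat_lit 189)) (XT.lf (nat_lit 0) (nat_lit 11402021338) (nat_lit 76) (nat_lit 18304710666) (nat_lit 76) (nat_lit 1765824574) (nat_lit 7) (nat_lit 4) (nat_lit 8) (nat_lit 5) (nat_lit 8) (nat_lit 4) (nat_lit 301) (nat_lit 231) (nat_lit 188)))) (XT.nd (nat_lit 156) (nat_lit 76) (nat_lit 0) (XT.nd (nat_lit 78) (nat_lit 0) (nat_lit 0) (XT.lf (nat_lit 0) (nat_lit 784338170) (nat_lit 152) (nat_lit 15041147065) (nat_lit 76) (nat_lit 17042065118) (nat_lit 6) (nat_lit 5) (nat_lit 8) (nat_lit 5) (nat_lit 7) (nat_lit 4) (nat_lit 302) (nat_lit 231) (nat_lit 187)) (XT.lf (nat_lit 0) (nat_lit 3370532579) (nat_lit 152) (nat_lit 9844357309) (nat_lit 76) (nat_lit 21117620616) (nat_lit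 6) (nat_lit 5) (nat_lit 8) (nat_lit 5) (nat_lit 7) (nat_lit 4) (nat_lit 303) (nat_lit 231) (nat_lit 186))) (XT.nd (nat_lit 78) (nat_lit 76) (nat_lit 0) (XT.lf (nat_lit 0) (nat_lit 6055433673) (nat_lit 152) (nat_lit 4440223194) (nat_lit 76) (nat_lit 25376646641) (nat_lit 6) (nat_lit 5) (nat_lit 8) (nat_lit 5) (nat_lit 7) (nat_lit 4) (nat_lit 304) (nat_lit 231) (nat_lit 185)) (XT.nd (nat_lit 78) (nat_lit 0) (nat_lit 0) (XT.lf (nat_lit 0) (nat_lit 1223274694) (nat_lit 76) (nat_lit 7641258124) (nat_lit 152) (nat_lit 28625107782) (nat_lit 5) (nat_lit 5) (nat_lit 6) (nat_lit 5) (nat_lit 7) (nat_lit 4) (nat_lit 305) (nat_lit 231) (nat_lit 184)) (XT.lf (nat_lit 0) (nat_lit 7274913017) (nat_lit 76) (nat_lit 4585845399) (nat_lit 152) (nat_lit 27324802163) (nat_lit 5) (nat_lit 5) (nat_lit 6) (nat_lit 5) (nat_lit 7) (nat_lit 4) (nat_lit 306) (nat_lit 231) (nat_lit 183))))))))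
noncomputable def xc82 : XT := (XT.nd (nat_lit 1326) (nat_lit 76) (nat_lit 0) (XT.nd (nat_lit 624) (nat_lit 76) (nat_lit 0) (XT.nd (nat_lit 312) (nat_lit 76) (nat_lit 0) (XT.nd (nat_lit 156) (nat_lit 0) (nat_lit 0) (XT.nd (nat_lit 78) (nat_lit 0) (nat_lit 0) (XT.lf (nat_lit 0) (nat_lit 13582286604) (nat_lit 76) (nat_lit 1397341228) (nat_lit 152) (nat_lit 25988054343) (nat_lit 5) (nat_lit 5) (nat_lit 6) (nat_lit 5) (nat_lit 7) (nat_lit 4) (nat_lit 307) (nat_lit 231) (nat_lit 182)) (XT.lf (nat_lit 0) (nat_lit 18258728478) (nat_lit 152) (nat_lit 22709997054) (nat_lit 0) (nat_lit 1870014926) (nat_lit 5) (nat_lit 5) (nat_lit 7) (nat_lit 4) (nat_lit 5) (nat_lit 4) (nat_lit 308) (nat_lit 231) (nat_lit 181))) (XT.nd (nat_lit 78) (nat_lit 0) (nat_lit 0) (XT.lf (nat_lit 0) (nat_lit 21699771019) (nat_lit 152) (nat_lit 17867223392) (nat_lit 0) (nat_lit 5236500753) (nat_lit 5) (nat_lit 5) (nat_lit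 7) (nat_lit 4) (nat_lit 5) (nat_lit 4) (nat_lit 309) (nat_lit 231) (nat_lit 180)) (XT.lf (nat_lit 0) (nat_lit 25289132001) (nat_lit 152) (nat_lit 12823727761) (nat_lit 0) (nat_lit 8754855341) (nat_lit 5) (nat_lit 5) (nat_lit 7) (nat_lit 4) (nat_lit 5) (nat_lit 4) (nat_lit 310) (nat_lit 231) (nat_lit 179)))) (XT.nd (nat_lit 156) (nat_lit 76) (nat_lit 0) (XT.nd (nat_lit 78) (nat_lit 0) (nat_lit 0) (XT.lf (nat_lit 0) (nat_lit 29035357522) (nat_lit 152) (nat_lit 7567501836) (nat_lit 0) (nat_lit 12433455724) (nat_lit 5) (nat_lit 5) (nat_lit 7) (nat_lit 4) (nat_lit 5) (nat_lit 4) (nat_lit 311) (nat_lit 231) (nat_lit 178)) (XT.lf (nat_lit 0) (nat_lit 32947367166) (nat_lit 152) (nat_lit 2086030795) (nat_lit 0) (nat_lit 16281060476) (nat_lit 5) (nat_lit 5) (nat_lit 7) (nat_lit 4) (nat_lit 5) (nat_lit 4) (nat_lit 312) (nat_lit 231) (nat_lit 177))) (XT.nd (nat_lit 78) (nat_lit 0) (nat_lit 0)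 (XT.lf (nat_lit 0) (nat_lit 3753884222) (nat_lit 76) (nat_lit 33339199672) (nat_lit 76) (nat_lit 16611554989) (nat_lit 4) (nat_lit 4) (nat_lit 5) (nat_lit 5) (nat_lit 5) (nat_lit 4) (nat_lit 313) (nat_lit 231) (nat_lit 176)) (XT.lf (nat_lit 0) (nat_lit 9923017010) (nat_lit 76) (nat_lit 31538322054) (nat_lit 76) (nat_lit 14752260234) (nat_lit 4) (nat_lit 4) (nat_lit 5) (nat_lit 5) (nat_lit 5) (nat_lit 4) (nat_lit 314) (nat_lit 231) (nat_lit 175))))) (XT.nd (nat_lit 312) (nat_lit 76) (nat_lit 0) (XT.nd (nat_lit 156) (nat_lit 0) (nat_lit 0) (XT.nd (nat_lit 78) (nat_lit 0) (nat_lit 0) (XT.lf (nat_lit 0) (nat_lit 16367082379) (nat_lit 76) (nat_lit 29661805244) (nat_lit 76) (nat_lit 12820108056) (nat_lit 4) (nat_lit 4) (nat_lit 5) (nat_lit 5) (nat_lit 5) (nat_lit 4) (nat_lit 315) (nat_lit 231) (nat_lit 174)) (XT.lf (nat_lit 0) (nat_lit 23101423343) (nat_lit 76) (nat_lit 27705181344) (nat_lit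 76) (nat_lit 10810498092) (nat_lit 4) (nat_lit 4) (nat_lit 5) (nat_lit 5) (nat_lit 5) (nat_lit 4) (nat_lit 316) (nat_lit 231) (nat_lit 173))) (XT.nd (nat_lit 78) (nat_lit 0) (nat_lit 0) (XT.lf (nat_lit 0) (nat_lit 30142074047) (nat_lit 76) (nat_lit 25663791728) (nat_lit 76) (nat_lit 8718645557) (nat_lit 4) (nat_lit 4) (nat_lit 5) (nat_lit 5) (nat_lit 5) (nat_lit 4) (nat_lit 317) (nat_lit 231) (nat_lit 172)) (XT.lf (nat_lit 0) (nat_lit 37505797945) (nat_lit 76) (nat_lit 23532775943) (nat_lit 76) (nat_lit 6539569849) (nat_lit 4) (nat_lit 4) (nat_lit 5) (nat_lit 5) (nat_lit 5) (nat_lit 4) (nat_lit 318) (nat_lit 231) (nat_lit 171)))) (XT.nd (nat_lit 156) (nat_lit 76) (nat_lit 0) (XT.nd (nat_lit 78) (nat_lit 0) (nat_lit 0) (XT.lf (nat_lit 0) (nat_lit 45210127712) (nat_lit 76) (nat_lit 21307060141) (nat_lit 76) (nat_lit 4268082693) (nat_lit 4) (nat_lit 4) (nat_lit 5) (nat_lit 5) (nat_lit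 5) (nat_lit 4) (nat_lit 319) (nat_lit 231) (nat_lit 170)) (XT.lf (nat_lit 0) (nat_lit 53273406992) (nat_lit 76) (nat_lit 18981345001) (nat_lit 76) (nat_lit 1898775786) (nat_lit 4) (nat_lit 4) (nat_lit 5) (nat_lit 5) (nat_lit 5) (nat_lit 4) (nat_lit 320) (nat_lit 231) (nat_lit 169))) (XT.nd (nat_lit 78) (nat_lit 0) (nat_lit 0) (XT.lf (nat_lit 0) (nat_lit 555620746) (nat_lit 152) (nat_lit 15985062651) (nat_lit 76) (nat_lit 61149803614) (nat_lit 3) (nat_lit 5) (nat_lit 5) (nat_lit 5) (nat_lit 4) (nat_lit 4) (nat_lit 321) (nat_lit 231) (nat_lit 168)) (XT.nd (nat_lit 78) (nat_lit 0) (nat_lit 0) (XT.lf (nat_lit 0) (nat_lit 3055093262) (nat_lit 152) (nat_lit 10900683010) (nat_lit 76) (nat_lit 67447674829) (nat_lit 3) (nat_lit 5) (nat_lit 5) (nat_lit 5) (nat_lit 4) (nat_lit 4) (nat_lit 322) (nat_lit 231) (nat_lit 167)) (XT.lf (nat_lit 0) (nat_lit 5666365569) (nat_lit 152) (nat_lit 5585230988)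 (nat_lit 76) (nat_lit 74051146144) (nat_lit 3) (nat_lit 5) (nat_lit 5) (nat_lit 5) (nat_lit 4) (nat_lit 4) (nat_lit 323) (nat_lit 231) (nat_lit 166))))))) (XT.nd (nat_lit 624) (nat_lit 0) (nat_lit 0) (XT.nd (nat_lit 312) (nat_lit 0) (nat_lit 0) (XT.nd (nat_lit 156) (nat_lit 0) (nat_lit 0) (XT.nd (nat_lit 78) (nat_lit 76) (nat_lit 0) (XT.lf (nat_lit 0) (nat_lit 8395654981) (nat_lit 152) (nat_lit 26050748) (nat_lit 76) (nat_lit 80975940109) (nat_lit 3) (nat_lit 5) (nat_lit 5) (nat_lit 5) (nat_lit 4) (nat_lit 4) (nat_lit 324) (nat_lit 231) (nat_lit 165)) (XT.lf (nat_lit 0) (nat_lit 5981540506) (nat_lit 76) (nat_lit 5361307911) (nat_lit 152) (nat_lit 82350392433) (nat_lit 2) (nat_lit 5) (nat_lit 3) (nat_lit 5) (nat_lit 4) (nat_lit 4) (nat_lit 325) (nat_lit 231) (nat_lit 164))) (XT.nd (nat_lit 78) (nat_lit 0) (nat_lit 0) (XT.lf (nat_lit 0) (nat_lit 12269759721) (nat_lit 76) (nat_lit 2156380434)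 (nat_lit 152) (nat_lit 83778056333) (nat_lit 2) (nat_lit 5) (nat_lit 3) (nat_lit 5) (nat_lit 4) (nat_lit 4) (nat_lit 326) (nat_lit 231) (nat_lit 163)) (XT.lf (nat_lit 0) (nat_lit 17671190712) (nat_lit 152) (nat_lit 84107296160) (nat_lit 0) (nat_lit 1161850281) (nat_lit 2) (nat_lit 5) (nat_lit 4) (nat_lit 4) (nat_lit 2) (nat_lit 4) (nat_lit 327) (nat_lit 231) (nat_lit 162)))) (XT.nd (nat_lit 156) (nat_lit 0) (nat_lit 0) (XT.nd (nat_lit 78) (nat_lit 0) (nat_lit 0) (XT.lf (nat_lit 0) (nat_lit 21103102943) (nat_lit 152) (nat_lit 82243304733) (nat_lit 0) (nat_lit 4565662871) (nat_lit 2) (nat_lit 5) (nat_lit 4) (nat_lit 4) (nat_lit 2) (nat_lit 4) (nat_lit 328) (nat_lit 231) (nat_lit 161)) (XT.lf (nat_lit 0) (nat_lit 24696380925) (nat_lit 152) (nat_lit 80304357268) (nat_lit 0) (nat_lit 8132179290) (nat_lit 2) (nat_lit 5) (nat_lit 4) (nat_lit 4) (nat_lit 2) (nat_lit 4) (nat_lit 329) (nat_lit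 231) (nat_lit 160))) (XT.nd (nat_lit 78) (nat_lit 0) (nat_lit 0) (XT.lf (nat_lit 0) (nat_lit 28459580083) (nat_lit 152) (nat_lit 78285837224) (nat_lit 0) (nat_lit 11869891245) (nat_lit 2) (nat_lit 5) (nat_lit 4) (nat_lit 4) (nat_lit 2) (nat_lit 4) (nat_lit 330) (nat_lit 231) (nat_lit 159)) (XT.lf (nat_lit 0) (nat_lit 32401660415) (nat_lit 152) (nat_lit 76182938601) (nat_lit 0) (nat_lit 15787698050) (nat_lit 2) (nat_lit 5) (nat_lit 4) (nat_lit 4) (nat_lit 2) (nat_lit 4) (nat_lit 331) (nat_lit 231) (nat_lit 158))))) (XT.nd (nat_lit 312) (nat_lit 0) (nat_lit 0) (XT.nd (nat_lit 156) (nat_lit 0) (nat_lit 0) (XT.nd (nat_lit 78) (nat_lit 0) (nat_lit 0) (XT.lf (nat_lit 0) (nat_lit 36532007825) (nat_lit 152) (nat_lit 73990654498) (nat_lit 0) (nat_lit 19894927816) (nat_lit 2) (nat_lit 5) (nat_lit 4) (nat_lit 4) (nat_lit 2) (nat_lit 4) (nat_lit 332) (nat_lit 231) (nat_lit 157)) (XT.lf (nat_lit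 0) (nat_lit 40860456475) (nat_lit 152) (nat_lit 71703765190) (nat_lit 0) (nat_lit 24201359662) (nat_lit 2) (nat_lit 5) (nat_lit 4) (nat_lit 4) (nat_lit 2) (nat_lit 4) (nat_lit 333) (nat_lit 231) (nat_lit 156))) (XT.nd (nat_lit 78) (nat_lit 0) (nat_lit 0) (XT.lf (nat_lit 0) (nat_lit 45397312195) (nat_lit 152) (nat_lit 69316825703) (nat_lit 0) (nat_lit 28717246996) (nat_lit 2) (nat_lit 5) (nat_lit 4) (nat_lit 4) (nat_lit 2) (nat_lit 4) (nat_lit 334) (nat_lit 231) (nat_lit 155)) (XT.lf (nat_lit 0) (nat_lit 50153377022) (nat_lit 152) (nat_lit 66824152847) (nat_lit 0) (nat_lit 33453341933) (nat_lit 2) (nat_lit 5) (nat_lit 4) (nat_lit 4) (nat_lit 2) (nat_lit 4) (nat_lit 335) (nat_lit 231) (nat_lit 154)))) (XT.nd (nat_lit 156) (nat_lit 0) (nat_lit 0) (XT.nd (nat_lit 78) (nat_lit 0) (nat_lit 0) (XT.lf (nat_lit 0) (nat_lit 55139974920) (nat_lit 152) (nat_lit 64219811688) (nat_lit 0) (nat_lit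 38420920887) (nat_lit 2) (nat_lit 5) (nat_lit 4) (nat_lit 4) (nat_lit 2) (nat_lit 4) (nat_lit 336) (nat_lit 231) (nat_lit 153)) (XT.lf (nat_lit 0) (nat_lit 60368978740) (nat_lit 152) (nat_lit 61497601413) (nat_lit 0) (nat_lit 43631811428) (nat_lit 2) (nat_lit 5) (nat_lit 4) (nat_lit 4) (nat_lit 2) (nat_lit 4) (nat_lit 337) (nat_lit 231) (nat_lit 152))) (XT.nd (nat_lit 78) (nat_lit 0) (nat_lit 0) (XT.lf (nat_lit 0) (nat_lit 65852838493) (nat_lit 152) (nat_lit 58651040569) (nat_lit 0) (nat_lit 49098420439) (nat_lit 2) (nat_lit 5) (nat_lit 4) (nat_lit 4) (nat_lit 2) (nat_lit 4) (nat_lit 338) (nat_lit 231) (nat_lit 151)) (XT.nd (nat_lit 78) (nat_lit 0) (nat_lit 0) (XT.lf (nat_lit 0) (nat_lit 71604610987) (nat_lit 152) (nat_lit 55673351630) (nat_lit 0) (nat_lit 54833763655) (nat_lit 2) (nat_lit 5) (nat_lit 4) (nat_lit 4) (nat_lit 2) (nat_lit 4) (nat_lit 339) (nat_lit 231) (nat_lit 150))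 (XT.lf (nat_lit 0) (nat_lit 77637990919) (nat_lit 152) (nat_lit 52557444861) (nat_lit 0) (nat_lit 60851496655) (nat_lit 2) (nat_lit 5) (nat_lit 4) (nat_lit 4) (nat_lit 2) (nat_lit 4) (nat_lit 340) (nat_lit 231) (nat_lit 149))))))))
noncomputable def xc83 : XT := (XT.nd (nat_lit 1326) (nat_lit 0) (nat_lit 0) (XT.nd (nat_lit 624) (nat_lit 76) (nat_lit 0) (XT.nd (nat_lit 312) (nat_lit 0) (nat_lit 0) (XT.nd (nat_lit 156) (nat_lit 0) (nat_lit 0) (XT.nd (nat_lit 78) (nat_lit 0) (nat_lit 0) (XT.lf (nat_lit 0) (nat_lit 83967343479) (nat_lit 152) (nat_lit 49295901436) (nat_lit 0) (nat_lit 67165947375) (nat_lit 2) (nat_lit 5) (nat_lit 4) (nat_lit 4) (nat_lit 2) (nat_lit 4) (nat_lit 341) (nat_lit 231) (nat_lit 148)) (XT.lf (nat_lit 0) (nat_lit 90607738553) (nat_lit 152) (nat_lit 45880955775) (nat_lit 0) (nat_lit 73792150221) (nat_lit 2) (nat_lit 5) (nat_lit 4) (nat_lit 4) (nat_lit 2) (nat_lit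 4) (nat_lit 342) (nat_lit 231) (nat_lit 147))) (XT.nd (nat_lit 78) (nat_lit 0) (nat_lit 0) (XT.lf (nat_lit 0) (nat_lit 97574986607) (nat_lit 152) (nat_lit 42304477055) (nat_lit 0) (nat_lit 80745881867) (nat_lit 2) (nat_lit 5) (nat_lit 4) (nat_lit 4) (nat_lit 2) (nat_lit 4) (nat_lit 343) (nat_lit 231) (nat_lit 146)) (XT.lf (nat_lit 0) (nat_lit 104885676326) (nat_lit 152) (nat_lit 38557949851) (nat_lit 0) (nat_lit 88043698816) (nat_lit 2) (nat_lit 5) (nat_lit 4) (nat_lit 4) (nat_lit 2) (nat_lit 4) (nat_lit 344) (nat_lit 231) (nat_lit 145)))) (XT.nd (nat_lit 156) (nat_lit 0) (nat_lit 0) (XT.nd (nat_lit 78) (nat_lit 0) (nat_lit 0) (XT.lf (nat_lit 0) (nat_lit 112557214114) (nat_lit 152) (nat_lit 34632453860) (nat_lit 0) (nat_lit 95702976824) (nat_lit 2) (nat_lit 5) (nat_lit 4) (nat_lit 4) (nat_lit 2) (nat_lit 4) (nat_lit 345) (nat_lit 231) (nat_lit 144)) (XT.lf (nat_lit 0) (nat_lit 120607865538)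 (nat_lit 152) (nat_lit 30518642663) (nat_lit 0) (nat_lit 103741952266) (nat_lit 2) (nat_lit 5) (nat_lit 4) (nat_lit 4) (nat_lit 2) (nat_lit 4) (nat_lit 346) (nat_lit 231) (nat_lit 143))) (XT.nd (nat_lit 78) (nat_lit 0) (nat_lit 0) (XT.lf (nat_lit 0) (nat_lit 129056798815) (nat_lit 152) (nat_lit 26206721472) (nat_lit 0) (nat_lit 112179765561) (nat_lit 2) (nat_lit 5) (nat_lit 4) (nat_lit 4) (nat_lit 2) (nat_lit 4) (nat_lit 347) (nat_lit 231) (nat_lit 142)) (XT.lf (nat_lit 0) (nat_lit 137924130452) (nat_lit 152) (nat_lit 21686423806) (nat_lit 0) (nat_lit 121036506739) (nat_lit 2) (nat_lit 5) (nat_lit 4) (nat_lit 4) (nat_lit 2) (nat_lit 4) (nat_lit 348) (nat_lit 231) (nat_lit 141))))) (XT.nd (nat_lit 312) (nat_lit 76) (nat_lit 0) (XT.nd (nat_lit 156) (nat_lit 0) (nat_lit 0) (XT.nd (nat_lit 78) (nat_lit 0) (nat_lit 0) (XT.lf (nat_lit 0) (nat_lit 147230973145) (nat_lit 152) (nat_lit 16946987054)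 (nat_lit 0) (nat_lit 130333263281) (nat_lit 2) (nat_lit 5) (nat_lit 4) (nat_lit 4) (nat_lit 2) (nat_lit 4) (nat_lit 349) (nat_lit 231) (nat_lit 140)) (XT.lf (nat_lit 0) (nat_lit 156999486043) (nat_lit 152) (nat_lit 11977126841) (nat_lit 0) (nat_lit 140092170320) (nat_lit 2) (nat_lit 5) (nat_lit 4) (nat_lit 4) (nat_lit 2) (nat_lit 4) (nat_lit 350) (nat_lit 231) (nat_lit 139))) (XT.nd (nat_lit 78) (nat_lit 0) (nat_lit 0) (XT.lf (nat_lit 0) (nat_lit 167252927509) (nat_lit 152) (nat_lit 6765010167) (nat_lit 0) (nat_lit 150336463349) (nat_lit 2) (nat_lit 5) (nat_lit 4) (nat_lit 4) (nat_lit 2) (nat_lit 4) (nat_lit 351) (nat_lit 231) (nat_lit 138)) (XT.lf (nat_lit 0) (nat_lit 178015710500) (nat_lit 152) (nat_lit 1298227231) (nat_lit 0) (nat_lit 161090533543) (nat_lit 2) (nat_lit 5) (nat_lit 4) (nat_lit 4) (nat_lit 2) (nat_lit 4) (nat_lit 352) (nat_lit 231) (nat_lit 137)))) (XT.nd (nat_lit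 156) (nat_lit 0) (nat_lit 0) (XT.nd (nat_lit 78) (nat_lit 0) (nat_lit 0) (XT.lf (nat_lit 0) (nat_lit 4582920183) (nat_lit 76) (nat_lit 184802092734) (nat_lit 76) (nat_lit 167868617874) (nat_lit 1) (nat_lit 4) (nat_lit 2) (nat_lit 5) (nat_lit 2) (nat_lit 4) (nat_lit 353) (nat_lit 231) (nat_lit 136)) (XT.lf (nat_lit 0) (nat_lit 10797630990) (nat_lit 76) (nat_lit 190544027771) (nat_lit 76) (nat_lit 173602650148) (nat_lit 1) (nat_lit 4) (nat_lit 2) (nat_lit 5) (nat_lit 2) (nat_lit 4) (nat_lit 354) (nat_lit 231) (nat_lit 135))) (XT.nd (nat_lit 78) (nat_lit 0) (nat_lit 0) (XT.lf (nat_lit 0) (nat_lit 17317776864) (nat_lit 76) (nat_lit 196575400226) (nat_lit 76) (nat_lit 179626496161) (nat_lit 1) (nat_lit 4) (nat_lit 2) (nat_lit 5) (nat_lit 2) (nat_lit 4) (nat_lit 355) (nat_lit 231) (nat_lit 134)) (XT.nd (nat_lit 78) (nat_lit 0) (nat_lit 0) (XT.lf (nat_lit 0) (nat_lit 24158881963) (nat_lit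 76) (nat_lit 202910570507) (nat_lit 76) (nat_lit 185954498402) (nat_lit 1) (nat_lit 4) (nat_lit 2) (nat_lit 5) (nat_lit 2) (nat_lit 4) (nat_lit 356) (nat_lit 231) (nat_lit 133)) (XT.lf (nat_lit 0) (nat_lit 31337234631) (nat_lit 76) (nat_lit 209564622355) (nat_lit 76) (nat_lit 192601723545) (nat_lit 1) (nat_lit 4) (nat_lit 2) (nat_lit 5) (nat_lit 2) (nat_lit 4) (nat_lit 357) (nat_lit 231) (nat_lit 132))))))) (XT.nd (nat_lit 29952) (nat_lit 0) (nat_lit 2280) (XT.nd (nat_lit 29562) (nat_lit 0) (nat_lit 4028) (XT.nd (nat_lit 156) (nat_lit 0) (nat_lit 0) (XT.nd (nat_lit 78) (nat_lit 0) (nat_lit 0) (XT.lf (nat_lit 0) (nat_lit 38869926184) (nat_lit 76) (nat_lit 216553398748) (nat_lit 76) (nat_lit 199583998316) (nat_lit 1) (nat_lit 4) (nat_lit 2) (nat_lit 5) (nat_lit 2) (nat_lit 4) (nat_lit 358) (nat_lit 231) (nat_lit 131)) (XT.lf (nat_lit 0) (nat_lit 46774891603) (nat_lit 76) (nat_lit 223893539633)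 (nat_lit 76) (nat_lit 206917947178) (nat_lit 1) (nat_lit 4) (nat_lit 2) (nat_lit 5) (nat_lit 2) (nat_lit 4) (nat_lit 359) (nat_lit 231) (nat_lit 130))) (XT.nd (nat_lit 78) (nat_lit 0) (nat_lit 0) (XT.lf (nat_lit 0) (nat_lit 55070952233) (nat_lit 76) (nat_lit 231602521533) (nat_lit 76) (nat_lit 214621031914) (nat_lit 1) (nat_lit 4) (nat_lit 2) (nat_lit 5) (nat_lit 2) (nat_lit 4) (nat_lit 360) (nat_lit 231) (nat_lit 129)) (XT.lf (nat_lit 0) (nat_lit 63777860599) (nat_lit 76) (nat_lit 239698699168) (nat_lit 76) (nat_lit 222711593203) (nat_lit 1) (nat_lit 4) (nat_lit 2) (nat_lit 5) (nat_lit 2) (nat_lit 4) (nat_lit 361) (nat_lit 231) (nat_lit 128)))) (XT.nd (nat_lit 156) (nat_lit 380) (nat_lit 0) (XT.nd (nat_lit 78) (nat_lit 684) (nat_lit 0) (XT.lf (nat_lit 0) (nat_lit 882846061) (nat_lit 684) (nat_lit 1883656260) (nat_lit 0) (nat_lit 882846061) (nat_lit 68) (nat_lit 5) (nat_lit 77) (nat_lit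 4) (nat_lit 68) (nat_lit 4) (nat_lit 256) (nat_lit 232) (nat_lit 232)) (XT.lf (nat_lit 0) (nat_lit 634603661) (nat_lit 684) (nat_lit 4121999347) (nat_lit 684) (nat_lit 2659707693) (nat_lit 59) (nat_lit 4) (nat_lit 68) (nat_lit 5) (nat_lit 68) (nat_lit 4) (nat_lit 257) (nat_lit 232) (nat_lit 231))) (XT.nd (nat_lit 78) (nat_lit 304) (nat_lit 0) (XT.lf (nat_lit 0) (nat_lit 265805294) (nat_lit 760) (nat_lit 2310049518) (nat_lit 76) (nat_lit 4968434694) (nat_lit 58) (nat_lit 5) (nat_lit 68) (nat_lit 5) (nat_lit 59) (nat_lit 4) (nat_lit 258) (nat_lit 232) (nat_lit 230)) (XT.nd (nat_lit 78) (nat_lit 0) (nat_lit 0) (XT.lf (nat_lit 0) (nat_lit 2267281204) (nat_lit 304) (nat_lit 878364265) (nat_lit 380) (nat_lit 4536695972) (nat_lit 54) (nat_lit 5) (nat_lit 58) (nat_lit 5) (nat_lit 59) (nat_lit 4) (nat_lit 259) (nat_lit 232) (nat_lit 229)) (XT.lf (nat_lit 0) (nat_lit 6089535378) (nat_lit 380)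 (nat_lit 838127621) (nat_lit 0) (nat_lit 904321549) (nat_lit 54) (nat_lit 5) (nat_lit 59) (nat_lit 4) (nat_lit 54) (nat_lit 4) (nat_lit 260) (nat_lit 232) (nat_lit 228)))))) (XT.nd (nat_lit 312) (nat_lit 760) (nat_lit 0) (XT.nd (nat_lit 156) (nat_lit 380) (nat_lit 0) (XT.nd (nat_lit 78) (nat_lit 228) (nat_lit 0) (XT.lf (nat_lit 0) (nat_lit 1100274656) (nat_lit 380) (nat_lit 4075394557) (nat_lit 76) (nat_lit 2815792611) (nat_lit 49) (nat_lit 5) (nat_lit 54) (nat_lit 5) (nat_lit 50) (nat_lit 4) (nat_lit 261) (nat_lit 232) (nat_lit 227)) (XT.lf (nat_lit 0) (nat_lit 623084799) (nat_lit 228) (nat_lit 3301416151) (nat_lit 304) (nat_lit 4238684887) (nat_lit 46) (nat_lit 5) (nat_lit 49) (nat_lit 5) (nat_lit 50) (nat_lit 4) (nat_lit 262) (nat_lit 232) (nat_lit 226))) (XT.nd (nat_lit 78) (nat_lit 380) (nat_lit 0) (XT.lf (nat_lit 0) (nat_lit 5553419497) (nat_lit 228) (nat_lit 1283061003) (nat_lit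 304) (nat_lit 1510257323) (nat_lit 46) (nat_lit 5) (nat_lit 49) (nat_lit 5) (nat_lit 50) (nat_lit 4) (nat_lit 263) (nat_lit 232) (nat_lit 225)) (XT.lf (nat_lit 0) (nat_lit 1238435644) (nat_lit 380) (nat_lit 6462256528) (nat_lit 76) (nat_lit 841873794) (nat_lit 41) (nat_lit 5) (nat_lit 46) (nat_lit 5) (nat_lit 42) (nat_lit 4) (nat_lit 264) (nat_lit 232) (nat_lit 224)))) (XT.nd (nat_lit 156) (nat_lit 532) (nat_lit 0) (XT.nd (nat_lit 78) (nat_lit 228) (nat_lit 0) (XT.lf (nat_lit 0) (nat_lit 4026951819) (nat_lit 380) (nat_lit 1643518597) (nat_lit 76) (nat_lit 3079311439) (nat_lit 41) (nat_lit 5) (nat_lit 46) (nat_lit 5) (nat_lit 42) (nat_lit 4) (nat_lit 265) (nat_lit 232) (nat_lit 223)) (XT.lf (nat_lit 0) (nat_lit 3385733148) (nat_lit 228) (nat_lit 3511571544) (nat_lit 304) (nat_lit 2073401309) (nat_lit 38) (nat_lit 5) (nat_lit 41) (nat_lit 5) (nat_lit 42) (nat_lit 4) (nat_lit 266) (nat_lit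 232) (nat_lit 222))) (XT.nd (nat_lit 78) (nat_lit 456) (nat_lit 0) (XT.lf (nat_lit 0) (nat_lit 604599411) (nat_lit 304) (nat_lit 629890547) (nat_lit 76) (nat_lit 7972118964) (nat_lit 37) (nat_lit 5) (nat_lit 41) (nat_lit 5) (nat_lit 38) (nat_lit 5) (nat_lit 267) (nat_lit 232) (nat_lit 221)) (XT.nd (nat_lit 78) (nat_lit 228) (nat_lit 0) (XT.lf (nat_lit 0) (nat_lit 3332886517) (nat_lit 304) (nat_lit 4923282321) (nat_lit 76) (nat_lit 1197539615) (nat_lit 34) (nat_lit 5) (nat_lit 38) (nat_lit 5) (nat_lit 35) (nat_lit 4) (nat_lit 268) (nat_lit 232) (nat_lit 220)) (XT.lf (nat_lit 0) (nat_lit 104199456) (nat_lit 228) (nat_lit 6024232946) (nat_lit 304) (nat_lit 3588573368) (nat_lit 31) (nat_lit 5) (nat_lit 34) (nat_lit 5) (nat_lit 35) (nat_lit 4) (nat_lit 269) (nat_lit 232) (nat_lit 219))))))))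
noncomputable def xc84 : XT := (XT.nd (nat_lit 1326) (nat_lit 532) (nat_lit 0) (XT.nd (nat_lit 624) (nat_lit 684) (nat_lit 0) (XT.nd (nat_lit 312) (nat_lit 228) (nat_lit 0) (XT.nd (nat_lit 156) (nat_lit 152) (nat_lit 0) (XT.nd (nat_lit 78) (nat_lit 304) (nat_lit 0) (XT.lf (nat_lit 0) (nat_lit 5419465142) (nat_lit 228) (nat_lit 3628556695) (nat_lit 304) (nat_lit 946599501) (nat_lit 31) (nat_lit 5) (nat_lit 34) (nat_lit 5) (nat_lit 35) (nat_lit 4) (nat_lit 270) (nat_lit 232) (nat_lit 218)) (XT.lf (nat_lit 0) (nat_lit 572543506) (nat_lit 228) (nat_lit 1109100239) (nat_lit 304) (nat_lit 8607746884) (nat_lit 27) (nat_lit 5) (nat_lit 30) (nat_lit 5) (nat_lit 31) (nat_lit 5) (nat_lit 271) (nat_lit 232) (nat_lit 217))) (XT.nd (nat_lit 78) (nat_lit 152) (nat_lit 0) (XT.lf (nat_lit 0) (nat_lit 4417952527) (nat_lit 304) (nat_lit 4633278286) (nat_lit 76) (nat_lit 1546785169) (nat_lit 27) (nat_lit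 5) (nat_lit 31) (nat_lit 5) (nat_lit 28) (nat_lit 4) (nat_lit 272) (nat_lit 232) (nat_lit 216)) (XT.lf (nat_lit 0) (nat_lit 577192516) (nat_lit 152) (nat_lit 6651293254) (nat_lit 228) (nat_lit 3697018066) (nat_lit 25) (nat_lit 5) (nat_lit 27) (nat_lit 5) (nat_lit 28) (nat_lit 4) (nat_lit 273) (nat_lit 232) (nat_lit 215)))) (XT.nd (nat_lit 156) (nat_lit 0) (nat_lit 0) (XT.nd (nat_lit 78) (nat_lit 228) (nat_lit 0) (XT.lf (nat_lit 0) (nat_lit 6083533102) (nat_lit 152) (nat_lit 4087010721) (nat_lit 228) (nat_lit 1099559667) (nat_lit 25) (nat_lit 5) (nat_lit 27) (nat_lit 5) (nat_lit 28) (nat_lit 4) (nat_lit 274) (nat_lit 232) (nat_lit 214)) (XT.lf (nat_lit 0) (nat_lit 88059029) (nat_lit 152) (nat_lit 1404054617) (nat_lit 228) (nat_lit 10142987339) (nat_lit 22) (nat_lit 5) (nat_lit 24) (nat_lit 5) (nat_lit 25) (nat_lit 5) (nat_lit 275) (nat_lit 232) (nat_lit 213))) (XT.nd (nat_lit 78) (nat_lit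 0) (nat_lit 0) (XT.lf (nat_lit 0) (nat_lit 4204393098) (nat_lit 228) (nat_lit 6373419057) (nat_lit 76) (nat_lit 1438484374) (nat_lit 22) (nat_lit 5) (nat_lit 25) (nat_lit 5) (nat_lit 23) (nat_lit 4) (nat_lit 276) (nat_lit 232) (nat_lit 212)) (XT.lf (nat_lit 0) (nat_lit 6995909709) (nat_lit 228) (nat_lit 1082628783) (nat_lit 76) (nat_lit 4341068573) (nat_lit 22) (nat_lit 5) (nat_lit 25) (nat_lit 5) (nat_lit 23) (nat_lit 4) (nat_lit 277) (nat_lit 232) (nat_lit 211))))) (XT.nd (nat_lit 312) (nat_lit 304) (nat_lit 0) (XT.nd (nat_lit 156) (nat_lit 228) (nat_lit 0) (XT.nd (nat_lit 78) (nat_lit 0) (nat_lit 0) (XT.lf (nat_lit 0) (nat_lit 4504003451) (nat_lit 152) (nat_lit 5417705386) (nat_lit 228) (nat_lit 2921864077) (nat_lit 20) (nat_lit 5) (nat_lit 22) (nat_lit 5) (nat_lit 23) (nat_lit 4) (nat_lit 278) (nat_lit 232) (nat_lit 210)) (XT.lf (nat_lit 0) (nat_lit 10296520156) (nat_lit 152) (nat_lit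 2641866275) (nat_lit 228) (nat_lit 353335600) (nat_lit 20) (nat_lit 5) (nat_lit 22) (nat_lit 5) (nat_lit 23) (nat_lit 4) (nat_lit 279) (nat_lit 232) (nat_lit 209))) (XT.nd (nat_lit 78) (nat_lit 0) (nat_lit 0) (XT.lf (nat_lit 0) (nat_lit 2241826467) (nat_lit 228) (nat_lit 11213963671) (nat_lit 76) (nat_lit 306192528) (nat_lit 17) (nat_lit 5) (nat_lit 20) (nat_lit 5) (nat_lit 18) (nat_lit 4) (nat_lit 280) (nat_lit 232) (nat_lit 208)) (XT.lf (nat_lit 0) (nat_lit 4979326333) (nat_lit 228) (nat_lit 5940430257) (nat_lit 76) (nat_lit 3334672625) (nat_lit 17) (nat_lit 5) (nat_lit 20) (nat_lit 5) (nat_lit 18) (nat_lit 4) (nat_lit 281) (nat_lit 232) (nat_lit 207)))) (XT.nd (nat_lit 156) (nat_lit 228) (nat_lit 0) (XT.nd (nat_lit 78) (nat_lit 76) (nat_lit 0) (XT.lf (nat_lit 0) (nat_lit 7786642195) (nat_lit 228) (nat_lit 507662560) (nat_lit 76) (nat_lit 6480722674) (nat_lit 17) (nat_lit 5) (nat_lit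 20) (nat_lit 5) (nat_lit 18) (nat_lit 4) (nat_lit 282) (nat_lit 232) (nat_lit 206)) (XT.lf (nat_lit 0) (nat_lit 5265813496) (nat_lit 76) (nat_lit 5486858748) (nat_lit 152) (nat_lit 4568233880) (nat_lit 16) (nat_lit 5) (nat_lit 17) (nat_lit 5) (nat_lit 18) (nat_lit 4) (nat_lit 283) (nat_lit 232) (nat_lit 205))) (XT.nd (nat_lit 78) (nat_lit 228) (nat_lit 0) (XT.lf (nat_lit 0) (nat_lit 11247723649) (nat_lit 76) (nat_lit 2565525229) (nat_lit 152) (nat_lit 2083677608) (nat_lit 16) (nat_lit 5) (nat_lit 17) (nat_lit 5) (nat_lit 18) (nat_lit 4) (nat_lit 284) (nat_lit 232) (nat_lit 204)) (XT.nd (nat_lit 78) (nat_lit 0) (nat_lit 0) (XT.lf (nat_lit 0) (nat_lit 470359815) (nat_lit 228) (nat_lit 15557467891) (nat_lit 76) (nat_lit 475552356) (nat_lit 13) (nat_lit 5) (nat_lit 16) (nat_lit 5) (nat_lit 14) (nat_lit 4) (nat_lit 285) (nat_lit 232) (nat_lit 203)) (XT.lf (nat_lit 0) (nat_lit 3144529016)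 (nat_lit 228) (nat_lit 10327896524) (nat_lit 76) (nat_lit 3663038290) (nat_lit 13) (nat_lit 5) (nat_lit 16) (nat_lit 5) (nat_lit 14) (nat_lit 4) (nat_lit 286) (nat_lit 232) (nat_lit 202))))))) (XT.nd (nat_lit 624) (nat_lit 228) (nat_lit 0) (XT.nd (nat_lit 312) (nat_lit 228) (nat_lit 0) (XT.nd (nat_lit 156) (nat_lit 0) (nat_lit 0) (XT.nd (nat_lit 78) (nat_lit 76) (nat_lit 0) (XT.lf (nat_lit 0) (nat_lit 5895616283) (nat_lit 228) (nat_lit 4928620481) (nat_lit 76) (nat_lit 6977886166) (nat_lit 13) (nat_lit 5) (nat_lit 16) (nat_lit 5) (nat_lit 14) (nat_lit 4) (nat_lit 287) (nat_lit 232) (nat_lit 201)) (XT.lf (nat_lit 0) (nat_lit 674813915) (nat_lit 76) (nat_lit 8065893643) (nat_lit 152) (nat_lit 9763710300) (nat_lit 12) (nat_lit 5) (nat_lit 13) (nat_lit 5) (nat_lit 14) (nat_lit 4) (nat_lit 288) (nat_lit 232) (nat_lit 200))) (XT.nd (nat_lit 78) (nat_lit 0) (nat_lit 0) (XT.lf (nat_lit 0)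 (nat_lit 6643536636) (nat_lit 76) (nat_lit 5115132165) (nat_lit 152) (nat_lit 7481747348) (nat_lit 12) (nat_lit 5) (nat_lit 13) (nat_lit 5) (nat_lit 14) (nat_lit 4) (nat_lit 289) (nat_lit 232) (nat_lit 199)) (XT.lf (nat_lit 0) (nat_lit 12828796474) (nat_lit 76) (nat_lit 2048395280) (nat_lit 152) (nat_lit 5138653118) (nat_lit 12) (nat_lit 5) (nat_lit 13) (nat_lit 5) (nat_lit 14) (nat_lit 4) (nat_lit 290) (nat_lit 232) (nat_lit 198)))) (XT.nd (nat_lit 156) (nat_lit 76) (nat_lit 0) (XT.nd (nat_lit 78) (nat_lit 152) (nat_lit 0) (XT.lf (nat_lit 0) (nat_lit 18121525341) (nat_lit 152) (nat_lit 1605053917) (nat_lit 0) (nat_lit 1105079836) (nat_lit 12) (nat_lit 5) (nat_lit 14) (nat_lit 4) (nat_lit 12) (nat_lit 4) (nat_lit 291) (nat_lit 232) (nat_lit 197)) (XT.lf (nat_lit 0) (nat_lit 4283329517) (nat_lit 152) (nat_lit 17299097596) (nat_lit 152) (nat_lit 103222469) (nat_lit 10) (nat_lit 4) (nat_lit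 12) (nat_lit 5) (nat_lit 12) (nat_lit 4) (nat_lit 292) (nat_lit 232) (nat_lit 196))) (XT.nd (nat_lit 78) (nat_lit 0) (nat_lit 0) (XT.lf (nat_lit 0) (nat_lit 2531443741) (nat_lit 228) (nat_lit 12177300810) (nat_lit 76) (nat_lit 7872546605) (nat_lit 9) (nat_lit 5) (nat_lit 12) (nat_lit 5) (nat_lit 10) (nat_lit 4) (nat_lit 293) (nat_lit 232) (nat_lit 195)) (XT.lf (nat_lit 0) (nat_lit 5250647583) (nat_lit 228) (nat_lit 6765680891) (nat_lit 76) (nat_lit 11507577153) (nat_lit 9) (nat_lit 5) (nat_lit 12) (nat_lit 5) (nat_lit 10) (nat_lit 4) (nat_lit 294) (nat_lit 232) (nat_lit 194))))) (XT.nd (nat_lit 312) (nat_lit 152) (nat_lit 0) (XT.nd (nat_lit 156) (nat_lit 0) (nat_lit 0) (XT.nd (nat_lit 78) (nat_lit 76) (nat_lit 0) (XT.lf (nat_lit 0) (nat_lit 8064167113) (nat_lit 228) (nat_lit 1152963907) (nat_lit 76) (nat_lit 15298686870) (nat_lit 9) (nat_lit 5) (nat_lit 12) (nat_lit 5) (nat_lit 10)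 (nat_lit 4) (nat_lit 295) (nat_lit 232) (nat_lit 193)) (XT.lf (nat_lit 0) (nat_lit 4828764370) (nat_lit 76) (nat_lit 6225327363) (nat_lit 152) (nat_lit 14501528384) (nat_lit 8) (nat_lit 5) (nat_lit 9) (nat_lit 5) (nat_lit 10) (nat_lit 4) (nat_lit 296) (nat_lit 232) (nat_lit 192))) (XT.nd (nat_lit 78) (nat_lit 0) (nat_lit 0) (XT.lf (nat_lit 0) (nat_lit 11084499533) (nat_lit 76) (nat_lit 3089749745) (nat_lit 152) (nat_lit 12474203299) (nat_lit 8) (nat_lit 5) (nat_lit 9) (nat_lit 5) (nat_lit 10) (nat_lit 4) (nat_lit 297) (nat_lit 232) (nat_lit 191)) (XT.lf (nat_lit 0) (nat_lit 17416244423) (nat_lit 152) (nat_lit 10209604986) (nat_lit 0) (nat_lit 171859057) (nat_lit 8) (nat_lit 5) (nat_lit 10) (nat_lit 4) (nat_lit 8) (nat_lit 4) (nat_lit 298) (nat_lit 232) (nat_lit 190)))) (XT.nd (nat_lit 156) (nat_lit 76) (nat_lit 0) (XT.nd (nat_lit 78) (nat_lit 76) (nat_lit 0) (XT.lf (nat_lit 0) (nat_lit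 20835435211) (nat_lit 152) (nat_lit 4698702133) (nat_lit 0) (nat_lit 3469604815) (nat_lit 8) (nat_lit 5) (nat_lit 10) (nat_lit 4) (nat_lit 8) (nat_lit 4) (nat_lit 299) (nat_lit 232) (nat_lit 189)) (XT.lf (nat_lit 0) (nat_lit 1064176663) (nat_lit 76) (nat_lit 23344161038) (nat_lit 76) (nat_lit 5862668707) (nat_lit 7) (nat_lit 4) (nat_lit 8) (nat_lit 5) (nat_lit 8) (nat_lit 4) (nat_lit 300) (nat_lit 232) (nat_lit 188))) (XT.nd (nat_lit 78) (nat_lit 76) (nat_lit 0) (XT.lf (nat_lit 0) (nat_lit 7221627737) (nat_lit 76) (nat_lit 20984697012) (nat_lit 76) (nat_lit 3393050459) (nat_lit 7) (nat_lit 4) (nat_lit 8) (nat_lit 5) (nat_lit 8) (nat_lit 4) (nat_lit 301) (nat_lit 232) (nat_lit 187)) (XT.nd (nat_lit 78) (nat_lit 76) (nat_lit 0) (XT.lf (nat_lit 0) (nat_lit 13632951376) (nat_lit 76) (nat_lit 18529702292) (nat_lit 76) (nat_lit 833146955) (nat_lit 7) (nat_lit 4) (nat_lit 8) (nat_lit 5) (nat_lit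 8) (nat_lit 4) (nat_lit 302) (nat_lit 232) (nat_lit 186)) (XT.lf (nat_lit 0) (nat_lit 1764785049) (nat_lit 152) (nat_lit 14178659112) (nat_lit 76) (nat_lit 18518740095) (nat_lit 6) (nat_lit 5) (nat_lit 8) (nat_lit 5) (nat_lit 7) (nat_lit 4) (nat_lit 303) (nat_lit 232) (nat_lit 185))))))))
noncomputable def xc85 : XT := (XT.nd (nat_lit 1326) (nat_lit 152) (nat_lit 0) (XT.nd (nat_lit 624) (nat_lit 76) (nat_lit 0) (XT.nd (nat_lit 312) (nat_lit 0) (nat_lit 0) (XT.nd (nat_lit 156) (nat_lit 76) (nat_lit 0) (XT.nd (nat_lit 78) (nat_lit 0) (nat_lit 0) (XT.lf (nat_lit 0) (nat_lit 4435468704) (nat_lit 152) (nat_lit 8798912978) (nat_lit 76) (nat_lit 22768331858) (nat_lit 6) (nat_lit 5) (nat_lit 8) (nat_lit 5) (nat_lit 7) (nat_lit 4) (nat_lit 304) (nat_lit 232) (nat_lit 184)) (XT.lf (nat_lit 0) (nat_lit 7211928686) (nat_lit 152) (nat_lit 3197794167) (nat_lit 76) (nat_lit 27211983936) (nat_lit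 6) (nat_lit 5) (nat_lit 8) (nat_lit 5) (nat_lit 7) (nat_lit 4) (nat_lit 305) (nat_lit 232) (nat_lit 183))) (XT.nd (nat_lit 78) (nat_lit 0) (nat_lit 0) (XT.lf (nat_lit 0) (nat_lit 2725258612) (nat_lit 76) (nat_lit 7418065925) (nat_lit 152) (nat_lit 29177566764) (nat_lit 5) (nat_lit 5) (nat_lit 6) (nat_lit 5) (nat_lit 7) (nat_lit 4) (nat_lit 306) (nat_lit 232) (nat_lit 182)) (XT.lf (nat_lit 0) (nat_lit 9010868366) (nat_lit 76) (nat_lit 4238704235) (nat_lit 152) (nat_lit 27854093312) (nat_lit 5) (nat_lit 5) (nat_lit 6) (nat_lit 5) (nat_lit 7) (nat_lit 4) (nat_lit 307) (nat_lit 232) (nat_lit 181)))) (XT.nd (nat_lit 156) (nat_lit 0) (nat_lit 0) (XT.nd (nat_lit 78) (nat_lit 0) (nat_lit 0) (XT.lf (nat_lit 0) (nat_lit 15568267314) (nat_lit 76) (nat_lit 918224067) (nat_lit 152) (nat_lit 26490362813) (nat_lit 5) (nat_lit 5) (nat_lit 6) (nat_lit 5) (nat_lit 7) (nat_lit 4) (nat_lit 308) (nat_lit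 232) (nat_lit 180)) (XT.lf (nat_lit 0) (nat_lit 19901620463) (nat_lit 152) (nat_lit 22571680443) (nat_lit 0) (nat_lit 2469623576) (nat_lit 5) (nat_lit 5) (nat_lit 7) (nat_lit 4) (nat_lit 5) (nat_lit 4) (nat_lit 309) (nat_lit 232) (nat_lit 179))) (XT.nd (nat_lit 78) (nat_lit 0) (nat_lit 0) (XT.lf (nat_lit 0) (nat_lit 23479955343) (nat_lit 152) (nat_lit 17547426025) (nat_lit 0) (nat_lit 5980333318) (nat_lit 5) (nat_lit 5) (nat_lit 7) (nat_lit 4) (nat_lit 5) (nat_lit 4) (nat_lit 310) (nat_lit 232) (nat_lit 178)) (XT.lf (nat_lit 0) (nat_lit 27215679813) (nat_lit 152) (nat_lit 12309525066) (nat_lit 0) (nat_lit 9651652896) (nat_lit 5) (nat_lit 5) (nat_lit 7) (nat_lit 4) (nat_lit 5) (nat_lit 4) (nat_lit 311) (nat_lit 232) (nat_lit 177))))) (XT.nd (nat_lit 312) (nat_lit 0) (nat_lit 0) (XT.nd (nat_lit 156) (nat_lit 76) (nat_lit 0) (XT.nd (nat_lit 78) (nat_lit 0) (nat_lit 0) (XT.lf (nat_lit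 0) (nat_lit 31117688457) (nat_lit 152) (nat_lit 6845506373) (nat_lit 0) (nat_lit 13492323547) (nat_lit 5) (nat_lit 5) (nat_lit 7) (nat_lit 4) (nat_lit 5) (nat_lit 4) (nat_lit 312) (nat_lit 232) (nat_lit 176)) (XT.lf (nat_lit 0) (nat_lit 35195271771) (nat_lit 152) (nat_lit 1142360377) (nat_lit 0) (nat_lit 17511489724) (nat_lit 5) (nat_lit 5) (nat_lit 7) (nat_lit 4) (nat_lit 5) (nat_lit 4) (nat_lit 313) (nat_lit 232) (nat_lit 175))) (XT.nd (nat_lit 78) (nat_lit 0) (nat_lit 0) (XT.lf (nat_lit 0) (nat_lit 4972647617) (nat_lit 76) (nat_lit 34563127634) (nat_lit 76) (nat_lit 16823710220) (nat_lit 4) (nat_lit 4) (nat_lit 5) (nat_lit 5) (nat_lit 5) (nat_lit 4) (nat_lit 314) (nat_lit 232) (nat_lit 174)) (XT.lf (nat_lit 0) (nat_lit 11401138512) (nat_lit 76) (nat_lit 32693302898) (nat_lit 76) (nat_lit 14900899419) (nat_lit 4) (nat_lit 4) (nat_lit 5) (nat_lit 5) (nat_lit 5) (nat_lit 4) (nat_lit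 315) (nat_lit 232) (nat_lit 173)))) (XT.nd (nat_lit 156) (nat_lit 0) (nat_lit 0) (XT.nd (nat_lit 78) (nat_lit 0) (nat_lit 0) (XT.lf (nat_lit 0) (nat_lit 18120646642) (nat_lit 76) (nat_lit 30743052402) (nat_lit 76) (nat_lit 12900186005) (nat_lit 4) (nat_lit 4) (nat_lit 5) (nat_lit 5) (nat_lit 5) (nat_lit 4) (nat_lit 316) (nat_lit 232) (nat_lit 172)) (XT.lf (nat_lit 0) (nat_lit 25147170838) (nat_lit 76) (nat_lit 28707732694) (nat_lit 76) (nat_lit 10816806374) (nat_lit 4) (nat_lit 4) (nat_lit 5) (nat_lit 5) (nat_lit 5) (nat_lit 4) (nat_lit 317) (nat_lit 232) (nat_lit 171))) (XT.nd (nat_lit 78) (nat_lit 0) (nat_lit 0) (XT.lf (nat_lit 0) (nat_lit 32497440919) (nat_lit 76) (nat_lit 26582497774) (nat_lit 76) (nat_lit 8645800099) (nat_lit 4) (nat_lit 4) (nat_lit 5) (nat_lit 5) (nat_lit 5) (nat_lit 4) (nat_lit 318) (nat_lit 232) (nat_lit 170)) (XT.nd (nat_lit 78) (nat_lit 0) (nat_lit 0) (XT.lf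 (nat_lit 0) (nat_lit 40188957527) (nat_lit 76) (nat_lit 24362287558) (nat_lit 76) (nat_lit 6381998117) (nat_lit 4) (nat_lit 4) (nat_lit 5) (nat_lit 5) (nat_lit 5) (nat_lit 4) (nat_lit 319) (nat_lit 232) (nat_lit 169)) (XT.lf (nat_lit 0) (nat_lit 48240033798) (nat_lit 76) (nat_lit 22041815833) (nat_lit 76) (nat_lit 4020010423) (nat_lit 4) (nat_lit 4) (nat_lit 5) (nat_lit 5) (nat_lit 5) (nat_lit 4) (nat_lit 320) (nat_lit 232) (nat_lit 168))))))) (XT.nd (nat_lit 702) (nat_lit 0) (nat_lit 0) (XT.nd (nat_lit 312) (nat_lit 76) (nat_lit 0) (XT.nd (nat_lit 156) (nat_lit 0) (nat_lit 0) (XT.nd (nat_lit 78) (nat_lit 76) (nat_lit 0) (XT.lf (nat_lit 0) (nat_lit 56669838960) (nat_lit 76) (nat_lit 19615557665) (nat_lit 76) (nat_lit 1554213238) (nat_lit 4) (nat_lit 4) (nat_lit 5) (nat_lit 5) (nat_lit 5) (nat_lit 4) (nat_lit 321) (nat_lit 232) (nat_lit 167)) (XT.lf (nat_lit 0) (nat_lit 988577546) (nat_lit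 152) (nat_lit 16072416663) (nat_lit 76) (nat_lit 64493124393) (nat_lit 3) (nat_lit 5) (nat_lit 5) (nat_lit 5) (nat_lit 4) (nat_lit 4) (nat_lit 322) (nat_lit 232) (nat_lit 166))) (XT.nd (nat_lit 78) (nat_lit 0) (nat_lit 0) (XT.lf (nat_lit 0) (nat_lit 3593729604) (nat_lit 152) (nat_lit 10767717998) (nat_lit 76) (nat_lit 71092278188) (nat_lit 3) (nat_lit 5) (nat_lit 5) (nat_lit 5) (nat_lit 4) (nat_lit 4) (nat_lit 323) (nat_lit 232) (nat_lit 165)) (XT.lf (nat_lit 0) (nat_lit 6317190208) (nat_lit 152) (nat_lit 5218779050) (nat_lit 76) (nat_lit 78012960230) (nat_lit 3) (nat_lit 5) (nat_lit 5) (nat_lit 5) (nat_lit 4) (nat_lit 4) (nat_lit 324) (nat_lit 232) (nat_lit 164)))) (XT.nd (nat_lit 156) (nat_lit 0) (nat_lit 0) (XT.nd (nat_lit 78) (nat_lit 0) (nat_lit 0) (XT.lf (nat_lit 0) (nat_lit 607041045) (nat_lit 76) (nat_lit 8567880354) (nat_lit 152) (nat_lit 84674084899) (nat_lit 2) (nat_lit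 5) (nat_lit 3) (nat_lit 5) (nat_lit 4) (nat_lit 4) (nat_lit 325) (nat_lit 232) (nat_lit 163)) (XT.lf (nat_lit 0) (nat_lit 6885663964) (nat_lit 76) (nat_lit 5367112447) (nat_lit 152) (nat_lit 86107465633) (nat_lit 2) (nat_lit 5) (nat_lit 3) (nat_lit 5) (nat_lit 4) (nat_lit 4) (nat_lit 326) (nat_lit 232) (nat_lit 162))) (XT.nd (nat_lit 78) (nat_lit 0) (nat_lit 0) (XT.lf (nat_lit 0) (nat_lit 13459482405) (nat_lit 76) (nat_lit 2014427208) (nat_lit 152) (nat_lit 87623676843) (nat_lit 2) (nat_lit 5) (nat_lit 3) (nat_lit 5) (nat_lit 4) (nat_lit 4) (nat_lit 327) (nat_lit 232) (nat_lit 161)) (XT.nd (nat_lit 78) (nat_lit 0) (nat_lit 0) (XT.lf (nat_lit 0) (nat_lit 18869380814) (nat_lit 152) (nat_lit 87751561055) (nat_lit 0) (nat_lit 1450207534) (nat_lit 2) (nat_lit 5) (nat_lit 4) (nat_lit 4) (nat_lit 2) (nat_lit 4) (nat_lit 328) (nat_lit 232) (nat_lit 160)) (XT.lf (nat_lit 0) (nat_lit 22457906249)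 (nat_lit 152) (nat_lit 85821089099) (nat_lit 0) (nat_lit 5013245766) (nat_lit 2) (nat_lit 5) (nat_lit 4) (nat_lit 4) (nat_lit 2) (nat_lit 4) (nat_lit 329) (nat_lit 232) (nat_lit 159)))))) (XT.nd (nat_lit 312) (nat_lit 0) (nat_lit 0) (XT.nd (nat_lit 156) (nat_lit 0) (nat_lit 0) (XT.nd (nat_lit 78) (nat_lit 0) (nat_lit 0) (XT.lf (nat_lit 0) (nat_lit 26216579170) (nat_lit 152) (nat_lit 83810640969) (nat_lit 0) (nat_lit 8747645161) (nat_lit 2) (nat_lit 5) (nat_lit 4) (nat_lit 4) (nat_lit 2) (nat_lit 4) (nat_lit 330) (nat_lit 232) (nat_lit 158)) (XT.lf (nat_lit 0) (nat_lit 30154348801) (nat_lit 152) (nat_lit 81715429883) (nat_lit 0) (nat_lit 12662297146) (nat_lit 2) (nat_lit 5) (nat_lit 4) (nat_lit 4) (nat_lit 2) (nat_lit 4) (nat_lit 331) (nat_lit 232) (nat_lit 157))) (XT.nd (nat_lit 78) (nat_lit 0) (nat_lit 0) (XT.lf (nat_lit 0) (nat_lit 34280590781) (nat_lit 152) (nat_lit 79530467244)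 (nat_lit 0) (nat_lit 16766522323) (nat_lit 2) (nat_lit 5) (nat_lit 4) (nat_lit 4) (nat_lit 2) (nat_lit 4) (nat_lit 332) (nat_lit 232) (nat_lit 156)) (XT.lf (nat_lit 0) (nat_lit 38605129498) (nat_lit 152) (nat_lit 77250550758) (nat_lit 0) (nat_lit 21070092655) (nat_lit 2) (nat_lit 5) (nat_lit 4) (nat_lit 4) (nat_lit 2) (nat_lit 4) (nat_lit 333) (nat_lit 232) (nat_lit 155)))) (XT.nd (nat_lit 156) (nat_lit 0) (nat_lit 0) (XT.nd (nat_lit 78) (nat_lit 0) (nat_lit 0) (XT.lf (nat_lit 0) (nat_lit 43138261472) (nat_lit 152) (nat_lit 74870252055) (nat_lit 0) (nat_lit 25583254738) (nat_lit 2) (nat_lit 5) (nat_lit 4) (nat_lit 4) (nat_lit 2) (nat_lit 4) (nat_lit 334) (nat_lit 232) (nat_lit 154)) (XT.lf (nat_lit 0) (nat_lit 47890779875) (nat_lit 152) (nat_lit 72383903755) (nat_lit 0) (nat_lit 30316754197) (nat_lit 2) (nat_lit 5) (nat_lit 4) (nat_lit 4) (nat_lit 2) (nat_lit 4) (nat_lit 335) (nat_lit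 232) (nat_lit 153))) (XT.nd (nat_lit 78) (nat_lit 0) (nat_lit 0) (XT.lf (nat_lit 0) (nat_lit 52874000225) (nat_lit 152) (nat_lit 69785585982) (nat_lit 0) (nat_lit 35281861268) (nat_lit 2) (nat_lit 5) (nat_lit 4) (nat_lit 4) (nat_lit 2) (nat_lit 4) (nat_lit 336) (nat_lit 232) (nat_lit 152)) (XT.nd (nat_lit 78) (nat_lit 0) (nat_lit 0) (XT.lf (nat_lit 0) (nat_lit 58099787334) (nat_lit 152) (nat_lit 67069112266) (nat_lit 0) (nat_lit 40490397635) (nat_lit 2) (nat_lit 5) (nat_lit 4) (nat_lit 4) (nat_lit 2) (nat_lit 4) (nat_lit 337) (nat_lit 232) (nat_lit 151)) (XT.lf (nat_lit 0) (nat_lit 63580583552) (nat_lit 152) (nat_lit 64228014811) (nat_lit 0) (nat_lit 45954764575) (nat_lit 2) (nat_lit 5) (nat_lit 4) (nat_lit 4) (nat_lit 2) (nat_lit 4) (nat_lit 338) (nat_lit 232) (nat_lit 150))))))))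
noncomputable def xc86 : XT := (XT.nd (nat_lit 1326) (nat_lit 0) (nat_lit 0) (XT.nd (nat_lit 624) (nat_lit 76) (nat_lit 0) (XT.nd (nat_lit 312) (nat_lit 0) (nat_lit 0) (XT.nd (nat_lit 156) (nat_lit 0) (nat_lit 0) (XT.nd (nat_lit 78) (nat_lit 0) (nat_lit 0) (XT.lf (nat_lit 0) (nat_lit 69329438394) (nat_lit 152) (nat_lit 61255529099) (nat_lit 0) (nat_lit 51687972485) (nat_lit 2) (nat_lit 5) (nat_lit 4) (nat_lit 4) (nat_lit 2) (nat_lit 4) (nat_lit 339) (nat_lit 232) (nat_lit 149)) (XT.lf (nat_lit 0) (nat_lit 75360039609) (nat_lit 152) (nat_lit 58144577785) (nat_lit 0) (nat_lit 57703671860) (nat_lit 2) (nat_lit 5) (nat_lit 4) (nat_lit 4) (nat_lit 2) (nat_lit 4) (nat_lit 340) (nat_lit 232) (nat_lit 148))) (XT.nd (nat_lit 78) (nat_lit 0) (nat_lit 0) (XT.lf (nat_lit 0) (nat_lit 81686745772) (nat_lit 152) (nat_lit 54887753840) (nat_lit 0) (nat_lit 64016185795) (nat_lit 2) (nat_lit 5) (nat_lit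 4) (nat_lit 4) (nat_lit 2) (nat_lit 4) (nat_lit 341) (nat_lit 232) (nat_lit 147)) (XT.lf (nat_lit 0) (nat_lit 88324620469) (nat_lit 152) (nat_lit 51477302923) (nat_lit 0) (nat_lit 70640544084) (nat_lit 2) (nat_lit 5) (nat_lit 4) (nat_lit 4) (nat_lit 2) (nat_lit 4) (nat_lit 342) (nat_lit 232) (nat_lit 146)))) (XT.nd (nat_lit 156) (nat_lit 0) (nat_lit 0) (XT.nd (nat_lit 78) (nat_lit 0) (nat_lit 0) (XT.lf (nat_lit 0) (nat_lit 95289468163) (nat_lit 152) (nat_lit 47905104911) (nat_lit 0) (nat_lit 77592519008) (nat_lit 2) (nat_lit 5) (nat_lit 4) (nat_lit 4) (nat_lit 2) (nat_lit 4) (nat_lit 343) (nat_lit 232) (nat_lit 145)) (XT.lf (nat_lit 0) (nat_lit 102597871825) (nat_lit 152) (nat_lit 44162654572) (nat_lit 0) (nat_lit 84888662890) (nat_lit 2) (nat_lit 5) (nat_lit 4) (nat_lit 4) (nat_lit 2) (nat_lit 4) (nat_lit 344) (nat_lit 232) (nat_lit 144))) (XT.nd (nat_lit 78) (nat_lit 0) (nat_lit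 0) (XT.lf (nat_lit 0) (nat_lit 110267232416) (nat_lit 152) (nat_lit 40241041310) (nat_lit 0) (nat_lit 92546347500) (nat_lit 2) (nat_lit 5) (nat_lit 4) (nat_lit 4) (nat_lit 2) (nat_lit 4) (nat_lit 345) (nat_lit 232) (nat_lit 143)) (XT.lf (nat_lit 0) (nat_lit 118315810319) (nat_lit 152) (nat_lit 36130927950) (nat_lit 0) (nat_lit 100583805420) (nat_lit 2) (nat_lit 5) (nat_lit 4) (nat_lit 4) (nat_lit 2) (nat_lit 4) (nat_lit 346) (nat_lit 232) (nat_lit 142))))) (XT.nd (nat_lit 312) (nat_lit 76) (nat_lit 0) (XT.nd (nat_lit 156) (nat_lit 0) (nat_lit 0) (XT.nd (nat_lit 78) (nat_lit 0) (nat_lit 0) (XT.lf (nat_lit 0) (nat_lit 126762768814) (nat_lit 152) (nat_lit 31822528507) (nat_lit 0) (nat_lit 109020173456) (nat_lit 2) (nat_lit 5) (nat_lit 4) (nat_lit 4) (nat_lit 2) (nat_lit 4) (nat_lit 347) (nat_lit 232) (nat_lit 141)) (XT.lf (nat_lit 0) (nat_lit 135628219707) (nat_lit 152) (nat_lit 27305584889)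 (nat_lit 0) (nat_lit 117875538197) (nat_lit 2) (nat_lit 5) (nat_lit 4) (nat_lit 4) (nat_lit 2) (nat_lit 4) (nat_lit 348) (nat_lit 232) (nat_lit 140))) (XT.nd (nat_lit 78) (nat_lit 0) (nat_lit 0) (XT.lf (nat_lit 0) (nat_lit 144933271215) (nat_lit 152) (nat_lit 22569342467) (nat_lit 0) (nat_lit 127170983846) (nat_lit 2) (nat_lit 5) (nat_lit 4) (nat_lit 4) (nat_lit 2) (nat_lit 4) (nat_lit 349) (nat_lit 232) (nat_lit 139)) (XT.lf (nat_lit 0) (nat_lit 154700078221) (nat_lit 152) (nat_lit 17602524473) (nat_lit 0) (nat_lit 136928642416) (nat_lit 2) (nat_lit 5) (nat_lit 4) (nat_lit 4) (nat_lit 2) (nat_lit 4) (nat_lit 350) (nat_lit 232) (nat_lit 138)))) (XT.nd (nat_lit 156) (nat_lit 76) (nat_lit 0) (XT.nd (nat_lit 78) (nat_lit 0) (nat_lit 0) (XT.lf (nat_lit 0) (nat_lit 164951895030) (nat_lit 152) (nat_lit 12393305152) (nat_lit 0) (nat_lit 147171746427) (nat_lit 2) (nat_lit 5) (nat_lit 4) (nat_lit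 4) (nat_lit 2) (nat_lit 4) (nat_lit 351) (nat_lit 232) (nat_lit 137)) (XT.lf (nat_lit 0) (nat_lit 175713130727) (nat_lit 152) (nat_lit 6929281598) (nat_lit 0) (nat_lit 157924684223) (nat_lit 2) (nat_lit 5) (nat_lit 4) (nat_lit 4) (nat_lit 2) (nat_lit 4) (nat_lit 352) (nat_lit 232) (nat_lit 136))) (XT.nd (nat_lit 78) (nat_lit 76) (nat_lit 0) (XT.lf (nat_lit 0) (nat_lit 187009407304) (nat_lit 152) (nat_lit 1197444233) (nat_lit 0) (nat_lit 169213058035) (nat_lit 2) (nat_lit 5) (nat_lit 4) (nat_lit 4) (nat_lit 2) (nat_lit 4) (nat_lit 353) (nat_lit 232) (nat_lit 135)) (XT.nd (nat_lit 78) (nat_lit 0) (nat_lit 0) (XT.lf (nat_lit 0) (nat_lit 4975088062) (nat_lit 76) (nat_lit 193970207660) (nat_lit 76) (nat_lit 176166331950) (nat_lit 1) (nat_lit 4) (nat_lit 2) (nat_lit 5) (nat_lit 2) (nat_lit 4) (nat_lit 354) (nat_lit 232) (nat_lit 134)) (XT.lf (nat_lit 0) (nat_lit 11492771463) (nat_lit 76)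 (nat_lit 200002667531) (nat_lit 76) (nat_lit 182191623782) (nat_lit 1) (nat_lit 4) (nat_lit 2) (nat_lit 5) (nat_lit 2) (nat_lit 4) (nat_lit 355) (nat_lit 232) (nat_lit 133))))))) (XT.nd (nat_lit 29718) (nat_lit 0) (nat_lit 3040) (XT.nd (nat_lit 312) (nat_lit 0) (nat_lit 0) (XT.nd (nat_lit 156) (nat_lit 0) (nat_lit 0) (XT.nd (nat_lit 78) (nat_lit 0) (nat_lit 0) (XT.lf (nat_lit 0) (nat_lit 18331531349) (nat_lit 76) (nat_lit 206338873448) (nat_lit 76) (nat_lit 188521002994) (nat_lit 1) (nat_lit 4) (nat_lit 2) (nat_lit 5) (nat_lit 2) (nat_lit 4) (nat_lit 356) (nat_lit 232) (nat_lit 132)) (XT.lf (nat_lit 0) (nat_lit 25507650482) (nat_lit 76) (nat_lit 212993911614) (nat_lit 76) (nat_lit 195169539537) (nat_lit 1) (nat_lit 4) (nat_lit 2) (nat_lit 5) (nat_lit 2) (nat_lit 4) (nat_lit 357) (nat_lit 232) (nat_lit 131))) (XT.nd (nat_lit 78) (nat_lit 0) (nat_lit 0) (XT.lf (nat_lit 0) (nat_lit 33038214858)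 (nat_lit 76) (nat_lit 219983627360) (nat_lit 76) (nat_lit 202153063260) (nat_lit 1) (nat_lit 4) (nat_lit 2) (nat_lit 5) (nat_lit 2) (nat_lit 4) (nat_lit 358) (nat_lit 232) (nat_lit 130)) (XT.lf (nat_lit 0) (nat_lit 40941154394) (nat_lit 76) (nat_lit 227324662864) (nat_lit 76) (nat_lit 209488201601) (nat_lit 1) (nat_lit 4) (nat_lit 2) (nat_lit 5) (nat_lit 2) (nat_lit 4) (nat_lit 359) (nat_lit 232) (nat_lit 129)))) (XT.nd (nat_lit 29250) (nat_lit 0) (nat_lit 5700) (XT.nd (nat_lit 78) (nat_lit 0) (nat_lit 0) (XT.lf (nat_lit 0) (nat_lit 49235285612) (nat_lit 76) (nat_lit 235034496784) (nat_lit 76) (nat_lit 217192419174) (nat_lit 1) (nat_lit 4) (nat_lit 2) (nat_lit 5) (nat_lit 2) (nat_lit 4) (nat_lit 360) (nat_lit 232) (nat_lit 128)) (XT.lf (nat_lit 0) (nat_lit 57940356444) (nat_lit 76) (nat_lit 243131485867) (nat_lit 76) (nat_lit 225284059355) (nat_lit 1) (nat_lit 4) (nat_lit 2) (nat_lit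 5) (nat_lit 2) (nat_lit 4) (nat_lit 361) (nat_lit 232) (nat_lit 127))) (XT.nd (nat_lit 78) (nat_lit 76) (nat_lit 0) (XT.lf (nat_lit 0) (nat_lit 1001275578) (nat_lit 532) (nat_lit 1271886558) (nat_lit 532) (nat_lit 1271886558) (nat_lit 77) (nat_lit 4) (nat_lit 84) (nat_lit 5) (nat_lit 84) (nat_lit 4) (nat_lit 254) (nat_lit 233) (nat_lit 233)) (XT.lf (nat_lit 0) (nat_lit 356386612) (nat_lit 608) (nat_lit 881583993) (nat_lit 76) (nat_lit 5954324599) (nat_lit 76) (nat_lit 5) (nat_lit 84) (nat_lit 5) (nat_lit 77) (nat_lit 4) (nat_lit 255) (nat_lit 233) (nat_lit 232))))) (XT.nd (nat_lit 312) (nat_lit 988) (nat_lit 0) (XT.nd (nat_lit 156) (nat_lit 380) (nat_lit 0) (XT.nd (nat_lit 78) (nat_lit 684) (nat_lit 0) (XT.lf (nat_lit 0) (nat_lit 3229676995) (nat_lit 684) (nat_lit 3841021722) (nat_lit 0) (nat_lit 231979104) (nat_lit 68) (nat_lit 5) (nat_lit 77) (nat_lit 4) (nat_lit 68) (nat_lit 4)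 (nat_lit 256) (nat_lit 233) (nat_lit 231)) (XT.lf (nat_lit 0) (nat_lit 485936956) (nat_lit 684) (nat_lit 5664309475) (nat_lit 684) (nat_lit 1273952865) (nat_lit 59) (nat_lit 4) (nat_lit 68) (nat_lit 5) (nat_lit 68) (nat_lit 4) (nat_lit 257) (nat_lit 233) (nat_lit 230))) (XT.nd (nat_lit 78) (nat_lit 304) (nat_lit 0) (XT.lf (nat_lit 0) (nat_lit 1539908067) (nat_lit 760) (nat_lit 2559886709) (nat_lit 76) (nat_lit 3455020675) (nat_lit 58) (nat_lit 5) (nat_lit 68) (nat_lit 5) (nat_lit 59) (nat_lit 4) (nat_lit 258) (nat_lit 233) (nat_lit 229)) (XT.lf (nat_lit 0) (nat_lit 1938692480) (nat_lit 304) (nat_lit 2411831050) (nat_lit 380) (nat_lit 3346142390) (nat_lit 54) (nat_lit 5) (nat_lit 58) (nat_lit 5) (nat_lit 59) (nat_lit 4) (nat_lit 259) (nat_lit 233) (nat_lit 228)))) (XT.nd (nat_lit 156) (nat_lit 608) (nat_lit 0) (XT.nd (nat_lit 78) (nat_lit 380) (nat_lit 0) (XT.lf (nat_lit 0) (nat_lit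 6613449243) (nat_lit 304) (nat_lit 604287812) (nat_lit 380) (nat_lit 632727027) (nat_lit 54) (nat_lit 5) (nat_lit 58) (nat_lit 5) (nat_lit 59) (nat_lit 4) (nat_lit 260) (nat_lit 233) (nat_lit 227)) (XT.lf (nat_lit 0) (nat_lit 2096928954) (nat_lit 380) (nat_lit 4585729448) (nat_lit 76) (nat_lit 1330585524) (nat_lit 49) (nat_lit 5) (nat_lit 54) (nat_lit 5) (nat_lit 50) (nat_lit 4) (nat_lit 261) (nat_lit 233) (nat_lit 226))) (XT.nd (nat_lit 78) (nat_lit 380) (nat_lit 0) (XT.lf (nat_lit 0) (nat_lit 25360262) (nat_lit 228) (nat_lit 4827818979) (nat_lit 304) (nat_lit 3335464995) (nat_lit 46) (nat_lit 5) (nat_lit 49) (nat_lit 5) (nat_lit 50) (nat_lit 4) (nat_lit 262) (nat_lit 233) (nat_lit 225)) (XT.nd (nat_lit 78) (nat_lit 380) (nat_lit 0) (XT.lf (nat_lit 0) (nat_lit 4888537178) (nat_lit 228) (nat_lit 2819721803) (nat_lit 304) (nat_lit 667046512) (nat_lit 46) (nat_lit 5) (nat_lit 49) (nat_lit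 5) (nat_lit 50) (nat_lit 4) (nat_lit 263) (nat_lit 233) (nat_lit 224)) (XT.lf (nat_lit 0) (nat_lit 1296376310) (nat_lit 304) (nat_lit 676919227) (nat_lit 380) (nat_lit 6601487711) (nat_lit 41) (nat_lit 5) (nat_lit 45) (nat_lit 5) (nat_lit 46) (nat_lit 5) (nat_lit 264) (nat_lit 233) (nat_lit 223))))))))
noncomputable def xc87 : XT := (XT.nd (nat_lit 1326) (nat_lit 684) (nat_lit 0) (XT.nd (nat_lit 624) (nat_lit 760) (nat_lit 0) (XT.nd (nat_lit 312) (nat_lit 532) (nat_lit 0) (XT.nd (nat_lit 156) (nat_lit 304) (nat_lit 0) (XT.nd (nat_lit 78) (nat_lit 228) (nat_lit 0) (XT.lf (nat_lit 0) (nat_lit 4697365110) (nat_lit 380) (nat_lit 2516801713) (nat_lit 76) (nat_lit 1571282941) (nat_lit 41) (nat_lit 5) (nat_lit 46) (nat_lit 5) (nat_lit 42) (nat_lit 4) (nat_lit 265) (nat_lit 233) (nat_lit 222)) (XT.lf (nat_lit 0) (nat_lit 2416965994) (nat_lit 228) (nat_lit 5084314441) (nat_lit 304) (nat_lit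 1508632779) (nat_lit 38) (nat_lit 5) (nat_lit 41) (nat_lit 5) (nat_lit 42) (nat_lit 4) (nat_lit 266) (nat_lit 233) (nat_lit 221))) (XT.nd (nat_lit 78) (nat_lit 228) (nat_lit 0) (XT.lf (nat_lit 0) (nat_lit 1100414642) (nat_lit 304) (nat_lit 1711999455) (nat_lit 76) (nat_lit 6435702228) (nat_lit 37) (nat_lit 5) (nat_lit 41) (nat_lit 5) (nat_lit 38) (nat_lit 5) (nat_lit 267) (nat_lit 233) (nat_lit 220)) (XT.lf (nat_lit 0) (nat_lit 3368555308) (nat_lit 228) (nat_lit 373920126) (nat_lit 304) (nat_lit 5757239557) (nat_lit 34) (nat_lit 5) (nat_lit 37) (nat_lit 5) (nat_lit 38) (nat_lit 5) (nat_lit 268) (nat_lit 233) (nat_lit 219)))) (XT.nd (nat_lit 156) (nat_lit 304) (nat_lit 0) (XT.nd (nat_lit 78) (nat_lit 228) (nat_lit 0) (XT.lf (nat_lit 0) (nat_lit 6483233729) (nat_lit 304) (nat_lit 1164692116) (nat_lit 76) (nat_lit 2118004720) (nat_lit 34) (nat_lit 5) (nat_lit 38) (nat_lit 5) (nat_lit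 35) (nat_lit 4) (nat_lit 269) (nat_lit 233) (nat_lit 218)) (XT.lf (nat_lit 0) (nat_lit 4049570939) (nat_lit 228) (nat_lit 5288421844) (nat_lit 304) (nat_lit 708965228) (nat_lit 31) (nat_lit 5) (nat_lit 34) (nat_lit 5) (nat_lit 35) (nat_lit 4) (nat_lit 270) (nat_lit 233) (nat_lit 217))) (XT.nd (nat_lit 78) (nat_lit 228) (nat_lit 0) (XT.lf (nat_lit 0) (nat_lit 1858004880) (nat_lit 304) (nat_lit 932872724) (nat_lit 76) (nat_lit 7553502078) (nat_lit 30) (nat_lit 5) (nat_lit 34) (nat_lit 5) (nat_lit 31) (nat_lit 5) (nat_lit 271) (nat_lit 233) (nat_lit 216)) (XT.lf (nat_lit 0) (nat_lit 4394508080) (nat_lit 228) (nat_lit 116273343) (nat_lit 304) (nat_lit 6146547387) (nat_lit 27) (nat_lit 5) (nat_lit 30) (nat_lit 5) (nat_lit 31) (nat_lit 5) (nat_lit 272) (nat_lit 233) (nat_lit 215))))) (XT.nd (nat_lit 312) (nat_lit 380) (nat_lit 0) (XT.nd (nat_lit 156) (nat_lit 228) (nat_lit 0) (XT.nd (nat_lit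 78) (nat_lit 152) (nat_lit 0) (XT.lf (nat_lit 0) (nat_lit 7268775971) (nat_lit 304) (nat_lit 1128273506) (nat_lit 76) (nat_lit 2590534275) (nat_lit 27) (nat_lit 5) (nat_lit 31) (nat_lit 5) (nat_lit 28) (nat_lit 4) (nat_lit 273) (nat_lit 233) (nat_lit 214)) (XT.lf (nat_lit 0) (nat_lit 4282451987) (nat_lit 152) (nat_lit 5869548232) (nat_lit 228) (nat_lit 1183258360) (nat_lit 25) (nat_lit 5) (nat_lit 27) (nat_lit 5) (nat_lit 28) (nat_lit 4) (nat_lit 274) (nat_lit 233) (nat_lit 213))) (XT.nd (nat_lit 78) (nat_lit 152) (nat_lit 0) (XT.lf (nat_lit 0) (nat_lit 1370260685) (nat_lit 228) (nat_lit 1836647225) (nat_lit 76) (nat_lit 8495576230) (nat_lit 24) (nat_lit 5) (nat_lit 27) (nat_lit 5) (nat_lit 25) (nat_lit 5) (nat_lit 275) (nat_lit 233) (nat_lit 212)) (XT.lf (nat_lit 0) (nat_lit 3625765093) (nat_lit 152) (nat_lit 365496067) (nat_lit 228) (nat_lit 8097097777) (nat_lit 22) (nat_lit 5) (nat_lit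 24) (nat_lit 5) (nat_lit 25) (nat_lit 5) (nat_lit 276) (nat_lit 233) (nat_lit 211)))) (XT.nd (nat_lit 156) (nat_lit 228) (nat_lit 0) (XT.nd (nat_lit 78) (nat_lit 152) (nat_lit 0) (XT.lf (nat_lit 0) (nat_lit 6740186754) (nat_lit 228) (nat_lit 3221147782) (nat_lit 76) (nat_lit 2532574303) (nat_lit 22) (nat_lit 5) (nat_lit 25) (nat_lit 5) (nat_lit 23) (nat_lit 4) (nat_lit 277) (nat_lit 233) (nat_lit 210)) (XT.lf (nat_lit 0) (nat_lit 2240612639) (nat_lit 152) (nat_lit 7354907180) (nat_lit 228) (nat_lit 3325982758) (nat_lit 20) (nat_lit 5) (nat_lit 22) (nat_lit 5) (nat_lit 23) (nat_lit 4) (nat_lit 278) (nat_lit 233) (nat_lit 209))) (XT.nd (nat_lit 78) (nat_lit 228) (nat_lit 0) (XT.lf (nat_lit 0) (nat_lit 7981545804) (nat_lit 152) (nat_lit 4596390826) (nat_lit 228) (nat_lit 793527708) (nat_lit 20) (nat_lit 5) (nat_lit 22) (nat_lit 5) (nat_lit 23) (nat_lit 4) (nat_lit 279) (nat_lit 233) (nat_lit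 208)) (XT.nd (nat_lit 78) (nat_lit 0) (nat_lit 0) (XT.lf (nat_lit 0) (nat_lit 34426748) (nat_lit 152) (nat_lit 1703776688) (nat_lit 228) (nat_lit 12107831504) (nat_lit 17) (nat_lit 5) (nat_lit 19) (nat_lit 5) (nat_lit 20) (nat_lit 5) (nat_lit 280) (nat_lit 233) (nat_lit 207)) (XT.lf (nat_lit 0) (nat_lit 4416390868) (nat_lit 228) (nat_lit 8562421556) (nat_lit 76) (nat_lit 1362720730) (nat_lit 17) (nat_lit 5) (nat_lit 20) (nat_lit 5) (nat_lit 18) (nat_lit 4) (nat_lit 281) (nat_lit 233) (nat_lit 206))))))) (XT.nd (nat_lit 702) (nat_lit 304) (nat_lit 0) (XT.nd (nat_lit 312) (nat_lit 304) (nat_lit 0) (XT.nd (nat_lit 156) (nat_lit 0) (nat_lit 0) (XT.nd (nat_lit 78) (nat_lit 76) (nat_lit 0) (XT.lf (nat_lit 0) (nat_lit 7192552724) (nat_lit 228) (nat_lit 3178175295) (nat_lit 76) (nat_lit 4493042996) (nat_lit 17) (nat_lit 5) (nat_lit 20) (nat_lit 5) (nat_lit 18) (nat_lit 4) (nat_lit 282) (nat_lit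 233) (nat_lit 205)) (XT.lf (nat_lit 0) (nat_lit 2459262718) (nat_lit 76) (nat_lit 7625831449) (nat_lit 152) (nat_lit 5328308014) (nat_lit 16) (nat_lit 5) (nat_lit 17) (nat_lit 5) (nat_lit 18) (nat_lit 4) (nat_lit 283) (nat_lit 233) (nat_lit 204))) (XT.nd (nat_lit 78) (nat_lit 0) (nat_lit 0) (XT.lf (nat_lit 0) (nat_lit 8395707319) (nat_lit 76) (nat_lit 4720996037) (nat_lit 152) (nat_lit 2874241888) (nat_lit 16) (nat_lit 5) (nat_lit 17) (nat_lit 5) (nat_lit 18) (nat_lit 4) (nat_lit 284) (nat_lit 233) (nat_lit 203)) (XT.lf (nat_lit 0) (nat_lit 14540208068) (nat_lit 76) (nat_lit 1703129444) (nat_lit 152) (nat_lit 357000836) (nat_lit 16) (nat_lit 5) (nat_lit 17) (nat_lit 5) (nat_lit 18) (nat_lit 4) (nat_lit 285) (nat_lit 233) (nat_lit 202)))) (XT.nd (nat_lit 156) (nat_lit 76) (nat_lit 0) (XT.nd (nat_lit 78) (nat_lit 0) (nat_lit 0) (XT.lf (nat_lit 0) (nat_lit 2240528738) (nat_lit 228) (nat_lit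 13512734495) (nat_lit 76) (nat_lit 1483905074) (nat_lit 13) (nat_lit 5) (nat_lit 16) (nat_lit 5) (nat_lit 14) (nat_lit 4) (nat_lit 286) (nat_lit 233) (nat_lit 201)) (XT.lf (nat_lit 0) (nat_lit 4965232546) (nat_lit 228) (nat_lit 8156094407) (nat_lit 76) (nat_lit 4783880776) (nat_lit 13) (nat_lit 5) (nat_lit 16) (nat_lit 5) (nat_lit 14) (nat_lit 4) (nat_lit 287) (nat_lit 233) (nat_lit 200))) (XT.nd (nat_lit 78) (nat_lit 76) (nat_lit 0) (XT.lf (nat_lit 0) (nat_lit 7774660981) (nat_lit 228) (nat_lit 2614863941) (nat_lit 76) (nat_lit 8219819113) (nat_lit 13) (nat_lit 5) (nat_lit 16) (nat_lit 5) (nat_lit 14) (nat_lit 4) (nat_lit 288) (nat_lit 233) (nat_lit 199)) (XT.nd (nat_lit 78) (nat_lit 0) (nat_lit 0) (XT.lf (nat_lit 0) (nat_lit 3227448828) (nat_lit 76) (nat_lit 7498443853) (nat_lit 152) (nat_lit 8622841586) (nat_lit 12) (nat_lit 5) (nat_lit 13) (nat_lit 5) (nat_lit 14) (nat_lit 4) (nat_lit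 289) (nat_lit 233) (nat_lit 198)) (XT.lf (nat_lit 0) (nat_lit 9374660341) (nat_lit 76) (nat_lit 4446370228) (nat_lit 152) (nat_lit 6304354497) (nat_lit 12) (nat_lit 5) (nat_lit 13) (nat_lit 5) (nat_lit 14) (nat_lit 4) (nat_lit 290) (nat_lit 233) (nat_lit 197)))))) (XT.nd (nat_lit 312) (nat_lit 76) (nat_lit 0) (XT.nd (nat_lit 156) (nat_lit 76) (nat_lit 0) (XT.nd (nat_lit 78) (nat_lit 152) (nat_lit 0) (XT.lf (nat_lit 0) (nat_lit 15754947606) (nat_lit 76) (nat_lit 1270321191) (nat_lit 152) (nat_lit 3917985565) (nat_lit 12) (nat_lit 5) (nat_lit 13) (nat_lit 5) (nat_lit 14) (nat_lit 4) (nat_lit 291) (nat_lit 233) (nat_lit 196)) (XT.lf (nat_lit 0) (nat_lit 565504573) (nat_lit 152) (nat_lit 19821368463) (nat_lit 152) (nat_lit 1415384604) (nat_lit 10) (nat_lit 4) (nat_lit 12) (nat_lit 5) (nat_lit 12) (nat_lit 4) (nat_lit 292) (nat_lit 233) (nat_lit 195))) (XT.nd (nat_lit 78) (nat_lit 0) (nat_lit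 0) (XT.lf (nat_lit 0) (nat_lit 1239948878) (nat_lit 228) (nat_lit 16026836614) (nat_lit 76) (nat_lit 5433248012) (nat_lit 9) (nat_lit 5) (nat_lit 12) (nat_lit 5) (nat_lit 10) (nat_lit 4) (nat_lit 293) (nat_lit 233) (nat_lit 194)) (XT.lf (nat_lit 0) (nat_lit 3938838328) (nat_lit 228) (nat_lit 10649111295) (nat_lit 76) (nat_lit 9055755458) (nat_lit 9) (nat_lit 5) (nat_lit 12) (nat_lit 5) (nat_lit 10) (nat_lit 4) (nat_lit 294) (nat_lit 233) (nat_lit 193)))) (XT.nd (nat_lit 156) (nat_lit 0) (nat_lit 0) (XT.nd (nat_lit 78) (nat_lit 76) (nat_lit 0) (XT.lf (nat_lit 0) (nat_lit 6733010819) (nat_lit 228) (nat_lit 5068674883) (nat_lit 76) (nat_lit 12834938413) (nat_lit 9) (nat_lit 5) (nat_lit 12) (nat_lit 5) (nat_lit 10) (nat_lit 4) (nat_lit 295) (nat_lit 233) (nat_lit 192)) (XT.lf (nat_lit 0) (nat_lit 751822387) (nat_lit 76) (nat_lit 8889034809) (nat_lit 152) (nat_lit 16039710597) (nat_lit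 8) (nat_lit 5) (nat_lit 9) (nat_lit 5) (nat_lit 10) (nat_lit 4) (nat_lit 296) (nat_lit 233) (nat_lit 191))) (XT.nd (nat_lit 78) (nat_lit 0) (nat_lit 0) (XT.lf (nat_lit 0) (nat_lit 6977310011) (nat_lit 76) (nat_lit 5765684146) (nat_lit 152) (nat_lit 14031342878) (nat_lit 8) (nat_lit 5) (nat_lit 9) (nat_lit 5) (nat_lit 10) (nat_lit 4) (nat_lit 297) (nat_lit 233) (nat_lit 190)) (XT.nd (nat_lit 78) (nat_lit 0) (nat_lit 0) (XT.lf (nat_lit 0) (nat_lit 13455017293) (nat_lit 76) (nat_lit 2510037627) (nat_lit 152) (nat_lit 11959568774) (nat_lit 8) (nat_lit 5) (nat_lit 9) (nat_lit 5) (nat_lit 10) (nat_lit 4) (nat_lit 298) (nat_lit 233) (nat_lit 189)) (XT.lf (nat_lit 0) (nat_lit 19328538637) (nat_lit 152) (nat_lit 8947626776) (nat_lit 0) (nat_lit 857309756) (nat_lit 8) (nat_lit 5) (nat_lit 10) (nat_lit 4) (nat_lit 8) (nat_lit 4) (nat_lit 299) (nat_lit 233) (nat_lit 188))))))))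
noncomputable def xc88 : XT := (XT.nd (nat_lit 1326) (nat_lit 152) (nat_lit 0) (XT.nd (nat_lit 624) (nat_lit 76) (nat_lit 0) (XT.nd (nat_lit 312) (nat_lit 76) (nat_lit 0) (XT.nd (nat_lit 156) (nat_lit 76) (nat_lit 0) (XT.nd (nat_lit 78) (nat_lit 76) (nat_lit 0) (XT.lf (nat_lit 0) (nat_lit 22869094583) (nat_lit 152) (nat_lit 3245581565) (nat_lit 0) (nat_lit 4287711480) (nat_lit 8) (nat_lit 5) (nat_lit 10) (nat_lit 4) (nat_lit 8) (nat_lit 4) (nat_lit 300) (nat_lit 233) (nat_lit 187)) (XT.lf (nat_lit 0) (nat_lit 2778214466) (nat_lit 76) (nat_lit 23821125182) (nat_lit 76) (nat_lit 5134833294) (nat_lit 7) (nat_lit 4) (nat_lit 8) (nat_lit 5) (nat_lit 8) (nat_lit 4) (nat_lit 301) (nat_lit 233) (nat_lit 186))) (XT.nd (nat_lit 78) (nat_lit 76) (nat_lit 0) (XT.lf (nat_lit 0) (nat_lit 9164451001) (nat_lit 76) (nat_lit 21376556712) (nat_lit 76) (nat_lit 2590351698) (nat_lit 7) (nat_lit 4) (nat_lit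 8) (nat_lit 5) (nat_lit 8) (nat_lit 4) (nat_lit 302) (nat_lit 233) (nat_lit 185)) (XT.lf (nat_lit 0) (nat_lit 49604393) (nat_lit 152) (nat_lit 18779671366) (nat_lit 76) (nat_lit 15770575311) (nat_lit 6) (nat_lit 5) (nat_lit 8) (nat_lit 5) (nat_lit 7) (nat_lit 4) (nat_lit 303) (nat_lit 233) (nat_lit 184)))) (XT.nd (nat_lit 156) (nat_lit 76) (nat_lit 0) (XT.nd (nat_lit 78) (nat_lit 0) (nat_lit 0) (XT.lf (nat_lit 0) (nat_lit 2706747631) (nat_lit 152) (nat_lit 13423151881) (nat_lit 76) (nat_lit 20011182063) (nat_lit 6) (nat_lit 5) (nat_lit 8) (nat_lit 5) (nat_lit 7) (nat_lit 4) (nat_lit 304) (nat_lit 233) (nat_lit 183)) (XT.lf (nat_lit 0) (nat_lit 5470311977) (nat_lit 152) (nat_lit 7844153687) (nat_lit 76) (nat_lit 24446276987) (nat_lit 6) (nat_lit 5) (nat_lit 8) (nat_lit 5) (nat_lit 7) (nat_lit 4) (nat_lit 305) (nat_lit 233) (nat_lit 182))) (XT.nd (nat_lit 78) (nat_lit 76) (nat_lit 0)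 (XT.lf (nat_lit 0) (nat_lit 8346877347) (nat_lit 152) (nat_lit 2029393457) (nat_lit 76) (nat_lit 29086419833) (nat_lit 6) (nat_lit 5) (nat_lit 8) (nat_lit 5) (nat_lit 7) (nat_lit 4) (nat_lit 306) (nat_lit 233) (nat_lit 181)) (XT.lf (nat_lit 0) (nat_lit 4168387923) (nat_lit 76) (nat_lit 7239984999) (nat_lit 152) (nat_lit 29839350855) (nat_lit 5) (nat_lit 5) (nat_lit 6) (nat_lit 5) (nat_lit 7) (nat_lit 4) (nat_lit 307) (nat_lit 233) (nat_lit 180))))) (XT.nd (nat_lit 312) (nat_lit 76) (nat_lit 0) (XT.nd (nat_lit 156) (nat_lit 0) (nat_lit 0) (XT.nd (nat_lit 78) (nat_lit 0) (nat_lit 0) (XT.lf (nat_lit 0) (nat_lit 10706046432) (nat_lit 76) (nat_lit 3927797330) (nat_lit 152) (nat_lit 28487660600) (nat_lit 5) (nat_lit 5) (nat_lit 6) (nat_lit 5) (nat_lit 7) (nat_lit 4) (nat_lit 308) (nat_lit 233) (nat_lit 179)) (XT.lf (nat_lit 0) (nat_lit 17532047011) (nat_lit 76) (nat_lit 466190397) (nat_lit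 152) (nat_lit 27091892975) (nat_lit 5) (nat_lit 5) (nat_lit 6) (nat_lit 5) (nat_lit 7) (nat_lit 4) (nat_lit 309) (nat_lit 233) (nat_lit 178))) (XT.nd (nat_lit 78) (nat_lit 0) (nat_lit 0) (XT.lf (nat_lit 0) (nat_lit 21558792699) (nat_lit 152) (nat_lit 22544875382) (nat_lit 0) (nat_lit 3052159543) (nat_lit 5) (nat_lit 5) (nat_lit 7) (nat_lit 4) (nat_lit 5) (nat_lit 4) (nat_lit 310) (nat_lit 233) (nat_lit 177)) (XT.lf (nat_lit 0) (nat_lit 25284516169) (nat_lit 152) (nat_lit 17324426771) (nat_lit 0) (nat_lit 6716545020) (nat_lit 5) (nat_lit 5) (nat_lit 7) (nat_lit 4) (nat_lit 5) (nat_lit 4) (nat_lit 311) (nat_lit 233) (nat_lit 176)))) (XT.nd (nat_lit 156) (nat_lit 76) (nat_lit 0) (XT.nd (nat_lit 78) (nat_lit 0) (nat_lit 0) (XT.lf (nat_lit 0) (nat_lit 29177000051) (nat_lit 152) (nat_lit 11877029362) (nat_lit 0) (nat_lit 10550611766) (nat_lit 5) (nat_lit 5) (nat_lit 7) (nat_lit 4) (nat_lit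 5) (nat_lit 4) (nat_lit 312) (nat_lit 233) (nat_lit 175)) (XT.lf (nat_lit 0) (nat_lit 33245512163) (nat_lit 152) (nat_lit 6189713161) (nat_lit 0) (nat_lit 14563488510) (nat_lit 5) (nat_lit 5) (nat_lit 7) (nat_lit 4) (nat_lit 5) (nat_lit 4) (nat_lit 313) (nat_lit 233) (nat_lit 174))) (XT.nd (nat_lit 78) (nat_lit 76) (nat_lit 0) (XT.lf (nat_lit 0) (nat_lit 37499739438) (nat_lit 152) (nat_lit 248936938) (nat_lit 0) (nat_lit 18764729721) (nat_lit 5) (nat_lit 5) (nat_lit 7) (nat_lit 4) (nat_lit 5) (nat_lit 4) (nat_lit 314) (nat_lit 233) (nat_lit 173)) (XT.nd (nat_lit 78) (nat_lit 0) (nat_lit 0) (XT.lf (nat_lit 0) (nat_lit 6156490142) (nat_lit 76) (nat_lit 35889440912) (nat_lit 76) (nat_lit 17103968276) (nat_lit 4) (nat_lit 4) (nat_lit 5) (nat_lit 5) (nat_lit 5) (nat_lit 4) (nat_lit 315) (nat_lit 233) (nat_lit 172)) (XT.lf (nat_lit 0) (nat_lit 12861871765) (nat_lit 76) (nat_lit 33945260325)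 (nat_lit 76) (nat_lit 15111727766) (nat_lit 4) (nat_lit 4) (nat_lit 5) (nat_lit 5) (nat_lit 5) (nat_lit 4) (nat_lit 316) (nat_lit 233) (nat_lit 171))))))) (XT.nd (nat_lit 624) (nat_lit 76) (nat_lit 0) (XT.nd (nat_lit 312) (nat_lit 76) (nat_lit 0) (XT.nd (nat_lit 156) (nat_lit 0) (nat_lit 0) (XT.nd (nat_lit 78) (nat_lit 0) (nat_lit 0) (XT.lf (nat_lit 0) (nat_lit 19874942143) (nat_lit 76) (nat_lit 31915721482) (nat_lit 76) (nat_lit 13036417568) (nat_lit 4) (nat_lit 4) (nat_lit 5) (nat_lit 5) (nat_lit 5) (nat_lit 4) (nat_lit 317) (nat_lit 233) (nat_lit 170)) (XT.lf (nat_lit 0) (nat_lit 27212399065) (nat_lit 76) (nat_lit 29795992148) (nat_lit 76) (nat_lit 10873096467) (nat_lit 4) (nat_lit 4) (nat_lit 5) (nat_lit 5) (nat_lit 5) (nat_lit 4) (nat_lit 318) (nat_lit 233) (nat_lit 169))) (XT.nd (nat_lit 78) (nat_lit 0) (nat_lit 0) (XT.lf (nat_lit 0) (nat_lit 34891712664) (nat_lit 76) (nat_lit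 27581025347) (nat_lit 76) (nat_lit 8616613699) (nat_lit 4) (nat_lit 4) (nat_lit 5) (nat_lit 5) (nat_lit 5) (nat_lit 4) (nat_lit 319) (nat_lit 233) (nat_lit 168)) (XT.lf (nat_lit 0) (nat_lit 42931167022) (nat_lit 76) (nat_lit 25265547350) (nat_lit 76) (nat_lit 6261596685) (nat_lit 4) (nat_lit 4) (nat_lit 5) (nat_lit 5) (nat_lit 5) (nat_lit 4) (nat_lit 320) (nat_lit 233) (nat_lit 167)))) (XT.nd (nat_lit 156) (nat_lit 76) (nat_lit 0) (XT.nd (nat_lit 78) (nat_lit 0) (nat_lit 0) (XT.lf (nat_lit 0) (nat_lit 51349903696) (nat_lit 76) (nat_lit 22844045114) (nat_lit 76) (nat_lit 3802438241) (nat_lit 4) (nat_lit 4) (nat_lit 5) (nat_lit 5) (nat_lit 5) (nat_lit 4) (nat_lit 321) (nat_lit 233) (nat_lit 166)) (XT.lf (nat_lit 0) (nat_lit 60167967297) (nat_lit 76) (nat_lit 20310753157) (nat_lit 76) (nat_lit 1233283230) (nat_lit 4) (nat_lit 4) (nat_lit 5) (nat_lit 5) (nat_lit 5) (nat_lit 4) (nat_lit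 322) (nat_lit 233) (nat_lit 165))) (XT.nd (nat_lit 78) (nat_lit 0) (nat_lit 0) (XT.lf (nat_lit 0) (nat_lit 1405512784) (nat_lit 152) (nat_lit 16230324008) (nat_lit 76) (nat_lit 67977037392) (nat_lit 3) (nat_lit 5) (nat_lit 5) (nat_lit 5) (nat_lit 4) (nat_lit 4) (nat_lit 323) (nat_lit 233) (nat_lit 164)) (XT.lf (nat_lit 0) (nat_lit 4123422142) (nat_lit 152) (nat_lit 10691138671) (nat_lit 76) (nat_lit 74893803316) (nat_lit 3) (nat_lit 5) (nat_lit 5) (nat_lit 5) (nat_lit 4) (nat_lit 4) (nat_lit 324) (nat_lit 233) (nat_lit 163))))) (XT.nd (nat_lit 312) (nat_lit 0) (nat_lit 0) (XT.nd (nat_lit 156) (nat_lit 0) (nat_lit 0) (XT.nd (nat_lit 78) (nat_lit 76) (nat_lit 0) (XT.lf (nat_lit 0) (nat_lit 6966388821) (nat_lit 152) (nat_lit 4894036834) (nat_lit 76) (nat_lit 82148761782) (nat_lit 3) (nat_lit 5) (nat_lit 5) (nat_lit 5) (nat_lit 4) (nat_lit 4) (nat_lit 325) (nat_lit 233) (nat_lit 162))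 (XT.lf (nat_lit 0) (nat_lit 1213627795) (nat_lit 76) (nat_lit 8746502124) (nat_lit 152) (nat_lit 88564506837) (nat_lit 2) (nat_lit 5) (nat_lit 3) (nat_lit 5) (nat_lit 4) (nat_lit 4) (nat_lit 326) (nat_lit 233) (nat_lit 161))) (XT.nd (nat_lit 78) (nat_lit 0) (nat_lit 0) (XT.lf (nat_lit 0) (nat_lit 7778742113) (nat_lit 76) (nat_lit 5397589738) (nat_lit 152) (nat_lit 90085903385) (nat_lit 2) (nat_lit 5) (nat_lit 3) (nat_lit 5) (nat_lit 4) (nat_lit 4) (nat_lit 327) (nat_lit 233) (nat_lit 160)) (XT.lf (nat_lit 0) (nat_lit 14655118383) (nat_lit 76) (nat_lit 1888597777) (nat_lit 152) (nat_lit 91693493514) (nat_lit 2) (nat_lit 5) (nat_lit 3) (nat_lit 5) (nat_lit 4) (nat_lit 4) (nat_lit 328) (nat_lit 233) (nat_lit 159)))) (XT.nd (nat_lit 156) (nat_lit 0) (nat_lit 0) (XT.nd (nat_lit 78) (nat_lit 0) (nat_lit 0) (XT.lf (nat_lit 0) (nat_lit 20098229054) (nat_lit 152) (nat_lit 91630204946) (nat_lit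 0) (nat_lit 1731574817) (nat_lit 2) (nat_lit 5) (nat_lit 4) (nat_lit 4) (nat_lit 2) (nat_lit 4) (nat_lit 329) (nat_lit 233) (nat_lit 158)) (XT.lf (nat_lit 0) (nat_lit 23852591274) (nat_lit 152) (nat_lit 89627444353) (nat_lit 0) (nat_lit 5462819393) (nat_lit 2) (nat_lit 5) (nat_lit 4) (nat_lit 4) (nat_lit 2) (nat_lit 4) (nat_lit 330) (nat_lit 233) (nat_lit 157))) (XT.nd (nat_lit 78) (nat_lit 0) (nat_lit 0) (XT.lf (nat_lit 0) (nat_lit 27786255475) (nat_lit 152) (nat_lit 87539554730) (nat_lit 0) (nat_lit 9374466789) (nat_lit 2) (nat_lit 5) (nat_lit 4) (nat_lit 4) (nat_lit 2) (nat_lit 4) (nat_lit 331) (nat_lit 233) (nat_lit 156)) (XT.nd (nat_lit 78) (nat_lit 0) (nat_lit 0) (XT.lf (nat_lit 0) (nat_lit 31908587523) (nat_lit 152) (nat_lit 85361564913) (nat_lit 0) (nat_lit 13475830452) (nat_lit 2) (nat_lit 5) (nat_lit 4) (nat_lit 4) (nat_lit 2) (nat_lit 4) (nat_lit 332) (nat_lit 233) (nat_lit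 155)) (XT.lf (nat_lit 0) (nat_lit 36229402494) (nat_lit 152) (nat_lit 83088289212) (nat_lit 0) (nat_lit 17776675532) (nat_lit 2) (nat_lit 5) (nat_lit 4) (nat_lit 4) (nat_lit 2) (nat_lit 4) (nat_lit 333) (nat_lit 233) (nat_lit 154))))))))
noncomputable def xc89 : XT := (XT.nd (nat_lit 1326) (nat_lit 76) (nat_lit 0) (XT.nd (nat_lit 624) (nat_lit 0) (nat_lit 0) (XT.nd (nat_lit 312) (nat_lit 0) (nat_lit 0) (XT.nd (nat_lit 156) (nat_lit 0) (nat_lit 0) (XT.nd (nat_lit 78) (nat_lit 0) (nat_lit 0) (XT.lf (nat_lit 0) (nat_lit 40758988043) (nat_lit 152) (nat_lit 80714315064) (nat_lit 0) (nat_lit 22287242138) (nat_lit 2) (nat_lit 5) (nat_lit 4) (nat_lit 4) (nat_lit 2) (nat_lit 4) (nat_lit 334) (nat_lit 233) (nat_lit 153)) (XT.lf (nat_lit 0) (nat_lit 45508128898) (nat_lit 152) (nat_lit 78233990150) (nat_lit 0) (nat_lit 27018269714) (nat_lit 2) (nat_lit 5) (nat_lit 4) (nat_lit 4) (nat_lit 2) (nat_lit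 4) (nat_lit 335) (nat_lit 233) (nat_lit 152))) (XT.nd (nat_lit 78) (nat_lit 0) (nat_lit 0) (XT.lf (nat_lit 0) (nat_lit 50488132537) (nat_lit 152) (nat_lit 75641408936) (nat_lit 0) (nat_lit 31981022611) (nat_lit 2) (nat_lit 5) (nat_lit 4) (nat_lit 4) (nat_lit 2) (nat_lit 4) (nat_lit 336) (nat_lit 233) (nat_lit 151)) (XT.lf (nat_lit 0) (nat_lit 55710856111) (nat_lit 152) (nat_lit 72930398608) (nat_lit 0) (nat_lit 37187316907) (nat_lit 2) (nat_lit 5) (nat_lit 4) (nat_lit 4) (nat_lit 2) (nat_lit 4) (nat_lit 337) (nat_lit 233) (nat_lit 150)))) (XT.nd (nat_lit 156) (nat_lit 0) (nat_lit 0) (XT.nd (nat_lit 78) (nat_lit 0) (nat_lit 0) (XT.lf (nat_lit 0) (nat_lit 61188734677) (nat_lit 152) (nat_lit 70094504381) (nat_lit 0) (nat_lit 42649548541) (nat_lit 2) (nat_lit 5) (nat_lit 4) (nat_lit 4) (nat_lit 2) (nat_lit 4) (nat_lit 338) (nat_lit 233) (nat_lit 149)) (XT.lf (nat_lit 0) (nat_lit 66934810802)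 (nat_lit 152) (nat_lit 67126974124) (nat_lit 0) (nat_lit 48380722826) (nat_lit 2) (nat_lit 5) (nat_lit 4) (nat_lit 4) (nat_lit 2) (nat_lit 4) (nat_lit 339) (nat_lit 233) (nat_lit 148))) (XT.nd (nat_lit 78) (nat_lit 0) (nat_lit 0) (XT.lf (nat_lit 0) (nat_lit 72962765621) (nat_lit 152) (nat_lit 64020742290) (nat_lit 0) (nat_lit 54394485417) (nat_lit 2) (nat_lit 5) (nat_lit 4) (nat_lit 4) (nat_lit 2) (nat_lit 4) (nat_lit 340) (nat_lit 233) (nat_lit 147)) (XT.lf (nat_lit 0) (nat_lit 79286951406) (nat_lit 152) (nat_lit 60768413089) (nat_lit 0) (nat_lit 60705154794) (nat_lit 2) (nat_lit 5) (nat_lit 4) (nat_lit 4) (nat_lit 2) (nat_lit 4) (nat_lit 341) (nat_lit 233) (nat_lit 146))))) (XT.nd (nat_lit 312) (nat_lit 0) (nat_lit 0) (XT.nd (nat_lit 156) (nat_lit 0) (nat_lit 0) (XT.nd (nat_lit 78) (nat_lit 0) (nat_lit 0) (XT.lf (nat_lit 0) (nat_lit 85922425743) (nat_lit 152) (nat_lit 57362242880)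 (nat_lit 0) (nat_lit 67327756361) (nat_lit 2) (nat_lit 5) (nat_lit 4) (nat_lit 4) (nat_lit 2) (nat_lit 4) (nat_lit 342) (nat_lit 233) (nat_lit 145)) (XT.lf (nat_lit 0) (nat_lit 92884987380) (nat_lit 152) (nat_lit 53794121734) (nat_lit 0) (nat_lit 74278058218) (nat_lit 2) (nat_lit 5) (nat_lit 4) (nat_lit 4) (nat_lit 2) (nat_lit 4) (nat_lit 343) (nat_lit 233) (nat_lit 144))) (XT.nd (nat_lit 78) (nat_lit 0) (nat_lit 0) (XT.lf (nat_lit 0) (nat_lit 100191213845) (nat_lit 152) (nat_lit 50055554123) (nat_lit 0) (nat_lit 81572608702) (nat_lit 2) (nat_lit 5) (nat_lit 4) (nat_lit 4) (nat_lit 2) (nat_lit 4) (nat_lit 344) (nat_lit 233) (nat_lit 143)) (XT.lf (nat_lit 0) (nat_lit 107858500915) (nat_lit 152) (nat_lit 46137638698) (nat_lit 0) (nat_lit 89228775789) (nat_lit 2) (nat_lit 5) (nat_lit 4) (nat_lit 4) (nat_lit 2) (nat_lit 4) (nat_lit 345) (nat_lit 233) (nat_lit 142)))) (XT.nd (nat_lit 156)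 (nat_lit 0) (nat_lit 0) (XT.nd (nat_lit 78) (nat_lit 0) (nat_lit 0) (XT.lf (nat_lit 0) (nat_lit 115905104036) (nat_lit 152) (nat_lit 42031047086) (nat_lit 0) (nat_lit 97264788451) (nat_lit 2) (nat_lit 5) (nat_lit 4) (nat_lit 4) (nat_lit 2) (nat_lit 4) (nat_lit 346) (nat_lit 233) (nat_lit 141)) (XT.lf (nat_lit 0) (nat_lit 124350181786) (nat_lit 152) (nat_lit 37726001691) (nat_lit 0) (nat_lit 105699780050) (nat_lit 2) (nat_lit 5) (nat_lit 4) (nat_lit 4) (nat_lit 2) (nat_lit 4) (nat_lit 347) (nat_lit 233) (nat_lit 140))) (XT.nd (nat_lit 78) (nat_lit 0) (nat_lit 0) (XT.lf (nat_lit 0) (nat_lit 133213841494) (nat_lit 152) (nat_lit 33212252403) (nat_lit 0) (nat_lit 114553833898) (nat_lit 2) (nat_lit 5) (nat_lit 4) (nat_lit 4) (nat_lit 2) (nat_lit 4) (nat_lit 348) (nat_lit 233) (nat_lit 139)) (XT.nd (nat_lit 78) (nat_lit 0) (nat_lit 0) (XT.lf (nat_lit 0) (nat_lit 142517187111) (nat_lit 152)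 (nat_lit 28479052200) (nat_lit 0) (nat_lit 123848031078) (nat_lit 2) (nat_lit 5) (nat_lit 4) (nat_lit 4) (nat_lit 2) (nat_lit 4) (nat_lit 349) (nat_lit 233) (nat_lit 138)) (XT.lf (nat_lit 0) (nat_lit 152282369460) (nat_lit 152) (nat_lit 23515131559) (nat_lit 0) (nat_lit 133604500630) (nat_lit 2) (nat_lit 5) (nat_lit 4) (nat_lit 4) (nat_lit 2) (nat_lit 4) (nat_lit 350) (nat_lit 233) (nat_lit 137))))))) (XT.nd (nat_lit 702) (nat_lit 0) (nat_lit 0) (XT.nd (nat_lit 312) (nat_lit 76) (nat_lit 0) (XT.nd (nat_lit 156) (nat_lit 0) (nat_lit 0) (XT.nd (nat_lit 78) (nat_lit 0) (nat_lit 0) (XT.lf (nat_lit 0) (nat_lit 162532638975) (nat_lit 152) (nat_lit 18308671620) (nat_lit 0) (nat_lit 143846472243) (nat_lit 2) (nat_lit 5) (nat_lit 4) (nat_lit 4) (nat_lit 2) (nat_lit 4) (nat_lit 351) (nat_lit 233) (nat_lit 136)) (XT.lf (nat_lit 0) (nat_lit 173292401060) (nat_lit 152) (nat_lit 12847276050) (nat_lit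 0) (nat_lit 154598331564) (nat_lit 2) (nat_lit 5) (nat_lit 4) (nat_lit 4) (nat_lit 2) (nat_lit 4) (nat_lit 352) (nat_lit 233) (nat_lit 135))) (XT.nd (nat_lit 78) (nat_lit 0) (nat_lit 0) (XT.lf (nat_lit 0) (nat_lit 184587274196) (nat_lit 152) (nat_lit 7117941526) (nat_lit 0) (nat_lit 165885678258) (nat_lit 2) (nat_lit 5) (nat_lit 4) (nat_lit 4) (nat_lit 2) (nat_lit 4) (nat_lit 353) (nat_lit 233) (nat_lit 134)) (XT.lf (nat_lit 0) (nat_lit 196444150937) (nat_lit 152) (nat_lit 1107026776) (nat_lit 0) (nat_lit 177735386960) (nat_lit 2) (nat_lit 5) (nat_lit 4) (nat_lit 4) (nat_lit 2) (nat_lit 4) (nat_lit 354) (nat_lit 233) (nat_lit 133)))) (XT.nd (nat_lit 156) (nat_lit 0) (nat_lit 0) (XT.nd (nat_lit 78) (nat_lit 0) (nat_lit 0) (XT.lf (nat_lit 0) (nat_lit 5371708107) (nat_lit 76) (nat_lit 203603421254) (nat_lit 76) (nat_lit 184887830573) (nat_lit 1) (nat_lit 4) (nat_lit 2) (nat_lit 5) (nat_lit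 2) (nat_lit 4) (nat_lit 355) (nat_lit 233) (nat_lit 132)) (XT.lf (nat_lit 0) (nat_lit 12208234457) (nat_lit 76) (nat_lit 209940613490) (nat_lit 76) (nat_lit 191218521185) (nat_lit 1) (nat_lit 4) (nat_lit 2) (nat_lit 5) (nat_lit 2) (nat_lit 4) (nat_lit 356) (nat_lit 233) (nat_lit 131))) (XT.nd (nat_lit 78) (nat_lit 0) (nat_lit 0) (XT.lf (nat_lit 0) (nat_lit 19382226413) (nat_lit 76) (nat_lit 216596591008) (nat_lit 76) (nat_lit 197868306681) (nat_lit 1) (nat_lit 4) (nat_lit 2) (nat_lit 5) (nat_lit 2) (nat_lit 4) (nat_lit 357) (nat_lit 233) (nat_lit 130)) (XT.nd (nat_lit 78) (nat_lit 0) (nat_lit 0) (XT.lf (nat_lit 0) (nat_lit 26910764907) (nat_lit 76) (nat_lit 223587201374) (nat_lit 76) (nat_lit 204853019883) (nat_lit 1) (nat_lit 4) (nat_lit 2) (nat_lit 5) (nat_lit 2) (nat_lit 4) (nat_lit 358) (nat_lit 233) (nat_lit 129)) (XT.lf (nat_lit 0) (nat_lit 34811775030) (nat_lit 76) (nat_lit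 230929088898) (nat_lit 76) (nat_lit 212189291060) (nat_lit 1) (nat_lit 4) (nat_lit 2) (nat_lit 5) (nat_lit 2) (nat_lit 4) (nat_lit 359) (nat_lit 233) (nat_lit 128)))))) (XT.nd (nat_lit 29250) (nat_lit 0) (nat_lit 4332) (XT.nd (nat_lit 29094) (nat_lit 0) (nat_lit 6308) (XT.nd (nat_lit 78) (nat_lit 0) (nat_lit 0) (XT.lf (nat_lit 0) (nat_lit 43104068713) (nat_lit 76) (nat_lit 238639734265) (nat_lit 76) (nat_lit 219894587526) (nat_lit 1) (nat_lit 4) (nat_lit 2) (nat_lit 5) (nat_lit 2) (nat_lit 4) (nat_lit 360) (nat_lit 233) (nat_lit 127)) (XT.lf (nat_lit 0) (nat_lit 51807389511) (nat_lit 76) (nat_lit 246737496154) (nat_lit 76) (nat_lit 227987255223) (nat_lit 1) (nat_lit 4) (nat_lit 2) (nat_lit 5) (nat_lit 2) (nat_lit 4) (nat_lit 361) (nat_lit 233) (nat_lit 126))) (XT.nd (nat_lit 78) (nat_lit 0) (nat_lit 0) (XT.lf (nat_lit 0) (nat_lit 192725575) (nat_lit 532) (nat_lit 3071618948) (nat_lit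 0) (nat_lit 192725575) (nat_lit 84) (nat_lit 5) (nat_lit 91) (nat_lit 4) (nat_lit 84) (nat_lit 4) (nat_lit 252) (nat_lit 234) (nat_lit 234)) (XT.lf (nat_lit 0) (nat_lit 3262108739) (nat_lit 532) (nat_lit 2167248631) (nat_lit 0) (nat_lit 1569323363) (nat_lit 84) (nat_lit 5) (nat_lit 91) (nat_lit 4) (nat_lit 84) (nat_lit 4) (nat_lit 253) (nat_lit 234) (nat_lit 233)))) (XT.nd (nat_lit 156) (nat_lit 1368) (nat_lit 0) (XT.nd (nat_lit 78) (nat_lit 76) (nat_lit 0) (XT.lf (nat_lit 0) (nat_lit 1934582316) (nat_lit 532) (nat_lit 4232270915) (nat_lit 532) (nat_lit 927308989) (nat_lit 77) (nat_lit 4) (nat_lit 84) (nat_lit 5) (nat_lit 84) (nat_lit 4) (nat_lit 254) (nat_lit 234) (nat_lit 232)) (XT.lf (nat_lit 0) (nat_lit 1850753321) (nat_lit 608) (nat_lit 1046323853) (nat_lit 76) (nat_lit 4301948998) (nat_lit 76) (nat_lit 5) (nat_lit 84) (nat_lit 5) (nat_lit 77) (nat_lit 4) (nat_lit 255) (nat_lit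 234) (nat_lit 231))) (XT.nd (nat_lit 78) (nat_lit 760) (nat_lit 0) (XT.lf (nat_lit 0) (nat_lit 3229017426) (nat_lit 608) (nat_lit 1420581228) (nat_lit 684) (nat_lit 2663922852) (nat_lit 68) (nat_lit 5) (nat_lit 76) (nat_lit 5) (nat_lit 77) (nat_lit 4) (nat_lit 256) (nat_lit 234) (nat_lit 230)) (XT.nd (nat_lit 78) (nat_lit 0) (nat_lit 0) (XT.lf (nat_lit 0) (nat_lit 37330246) (nat_lit 760) (nat_lit 7252347790) (nat_lit 76) (nat_lit 150287125) (nat_lit 58) (nat_lit 5) (nat_lit 68) (nat_lit 5) (nat_lit 59) (nat_lit 4) (nat_lit 257) (nat_lit 234) (nat_lit 229)) (XT.lf (nat_lit 0) (nat_lit 2746322210) (nat_lit 760) (nat_lit 2962096776) (nat_lit 76) (nat_lit 1864709857) (nat_lit 58) (nat_lit 5) (nat_lit 68) (nat_lit 5) (nat_lit 59) (nat_lit 4) (nat_lit 258) (nat_lit 234) (nat_lit 228))))))))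
noncomputable def xc90 : XT := (XT.nd (nat_lit 1326) (nat_lit 912) (nat_lit 0) (XT.nd (nat_lit 624) (nat_lit 1064) (nat_lit 0) (XT.nd (nat_lit 312) (nat_lit 836) (nat_lit 0) (XT.nd (nat_lit 156) (nat_lit 304) (nat_lit 0) (XT.nd (nat_lit 78) (nat_lit 76) (nat_lit 0) (XT.lf (nat_lit 0) (nat_lit 1456049448) (nat_lit 304) (nat_lit 4032310414) (nat_lit 380) (nat_lit 2230369576) (nat_lit 54) (nat_lit 5) (nat_lit 58) (nat_lit 5) (nat_lit 59) (nat_lit 4) (nat_lit 259) (nat_lit 234) (nat_lit 227)) (XT.lf (nat_lit 0) (nat_lit 407185889) (nat_lit 380) (nat_lit 1815488759) (nat_lit 76) (nat_lit 5652787209) (nat_lit 53) (nat_lit 5) (nat_lit 58) (nat_lit 5) (nat_lit 54) (nat_lit 5) (nat_lit 260) (nat_lit 234) (nat_lit 226))) (XT.nd (nat_lit 78) (nat_lit 0) (nat_lit 0) (XT.lf (nat_lit 0) (nat_lit 2777084918) (nat_lit 304) (nat_lit 250014578) (nat_lit 380) (nat_lit 5015400326) (nat_lit 49) (nat_lit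 5) (nat_lit 53) (nat_lit 5) (nat_lit 54) (nat_lit 5) (nat_lit 261) (nat_lit 234) (nat_lit 225)) (XT.lf (nat_lit 0) (nat_lit 5723199123) (nat_lit 380) (nat_lit 716241766) (nat_lit 76) (nat_lit 1781731059) (nat_lit 49) (nat_lit 5) (nat_lit 54) (nat_lit 5) (nat_lit 50) (nat_lit 4) (nat_lit 262) (nat_lit 234) (nat_lit 224)))) (XT.nd (nat_lit 156) (nat_lit 228) (nat_lit 0) (XT.nd (nat_lit 78) (nat_lit 304) (nat_lit 0) (XT.lf (nat_lit 0) (nat_lit 97926361) (nat_lit 304) (nat_lit 4353658320) (nat_lit 76) (nat_lit 3959708377) (nat_lit 45) (nat_lit 5) (nat_lit 49) (nat_lit 5) (nat_lit 46) (nat_lit 5) (nat_lit 263) (nat_lit 234) (nat_lit 223)) (XT.lf (nat_lit 0) (nat_lit 325100462) (nat_lit 304) (nat_lit 2323966051) (nat_lit 380) (nat_lit 5964804487) (nat_lit 41) (nat_lit 5) (nat_lit 45) (nat_lit 5) (nat_lit 46) (nat_lit 5) (nat_lit 264) (nat_lit 234) (nat_lit 222))) (XT.nd (nat_lit 78) (nat_lit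 228) (nat_lit 0) (XT.lf (nat_lit 0) (nat_lit 5262112422) (nat_lit 304) (nat_lit 34535464) (nat_lit 380) (nat_lit 3531931465) (nat_lit 41) (nat_lit 5) (nat_lit 45) (nat_lit 5) (nat_lit 46) (nat_lit 5) (nat_lit 265) (nat_lit 234) (nat_lit 221)) (XT.lf (nat_lit 0) (nat_lit 1269713648) (nat_lit 228) (nat_lit 6763529613) (nat_lit 304) (nat_lit 1023372610) (nat_lit 38) (nat_lit 5) (nat_lit 41) (nat_lit 5) (nat_lit 42) (nat_lit 4) (nat_lit 266) (nat_lit 234) (nat_lit 220))))) (XT.nd (nat_lit 312) (nat_lit 532) (nat_lit 0) (XT.nd (nat_lit 156) (nat_lit 228) (nat_lit 0) (XT.nd (nat_lit 78) (nat_lit 228) (nat_lit 0) (XT.lf (nat_lit 0) (nat_lit 1521688999) (nat_lit 304) (nat_lit 2975737320) (nat_lit 76) (nat_lit 4799624392) (nat_lit 37) (nat_lit 5) (nat_lit 41) (nat_lit 5) (nat_lit 38) (nat_lit 5) (nat_lit 267) (nat_lit 234) (nat_lit 219)) (XT.lf (nat_lit 0) (nat_lit 2001829303) (nat_lit 228)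 (nat_lit 2094434964) (nat_lit 304) (nat_lit 5455938263) (nat_lit 34) (nat_lit 5) (nat_lit 37) (nat_lit 5) (nat_lit 38) (nat_lit 5) (nat_lit 268) (nat_lit 234) (nat_lit 218))) (XT.nd (nat_lit 78) (nat_lit 228) (nat_lit 0) (XT.lf (nat_lit 0) (nat_lit 6765091165) (nat_lit 304) (nat_lit 2617536096) (nat_lit 76) (nat_lit 439557772) (nat_lit 34) (nat_lit 5) (nat_lit 38) (nat_lit 5) (nat_lit 35) (nat_lit 4) (nat_lit 269) (nat_lit 234) (nat_lit 217)) (XT.lf (nat_lit 0) (nat_lit 2489172567) (nat_lit 228) (nat_lit 7063392280) (nat_lit 304) (nat_lit 554174146) (nat_lit 31) (nat_lit 5) (nat_lit 34) (nat_lit 5) (nat_lit 35) (nat_lit 4) (nat_lit 270) (nat_lit 234) (nat_lit 216)))) (XT.nd (nat_lit 156) (nat_lit 228) (nat_lit 0) (XT.nd (nat_lit 78) (nat_lit 228) (nat_lit 0) (XT.lf (nat_lit 0) (nat_lit 1965243253) (nat_lit 304) (nat_lit 2613707133) (nat_lit 76) (nat_lit 5827366525) (nat_lit 30) (nat_lit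 5) (nat_lit 34) (nat_lit 5) (nat_lit 31) (nat_lit 5) (nat_lit 271) (nat_lit 234) (nat_lit 215)) (XT.lf (nat_lit 0) (nat_lit 2600798689) (nat_lit 228) (nat_lit 1948646346) (nat_lit 304) (nat_lit 6173389898) (nat_lit 27) (nat_lit 5) (nat_lit 30) (nat_lit 5) (nat_lit 31) (nat_lit 5) (nat_lit 272) (nat_lit 234) (nat_lit 214))) (XT.nd (nat_lit 78) (nat_lit 228) (nat_lit 0) (XT.lf (nat_lit 0) (nat_lit 7239105630) (nat_lit 304) (nat_lit 3015323556) (nat_lit 76) (nat_lit 802210867) (nat_lit 27) (nat_lit 5) (nat_lit 31) (nat_lit 5) (nat_lit 28) (nat_lit 4) (nat_lit 273) (nat_lit 234) (nat_lit 213)) (XT.nd (nat_lit 78) (nat_lit 76) (nat_lit 0) (XT.lf (nat_lit 0) (nat_lit 2277474895) (nat_lit 152) (nat_lit 7775717883) (nat_lit 228) (nat_lit 1354706079) (nat_lit 25) (nat_lit 5) (nat_lit 27) (nat_lit 5) (nat_lit 28) (nat_lit 4) (nat_lit 274) (nat_lit 234) (nat_lit 212)) (XT.lf (nat_lit 0) (nat_lit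 1166721028) (nat_lit 228) (nat_lit 3965833897) (nat_lit 76) (nat_lit 6644697606) (nat_lit 24) (nat_lit 5) (nat_lit 27) (nat_lit 5) (nat_lit 25) (nat_lit 5) (nat_lit 275) (nat_lit 234) (nat_lit 211))))))) (XT.nd (nat_lit 624) (nat_lit 380) (nat_lit 0) (XT.nd (nat_lit 312) (nat_lit 228) (nat_lit 0) (XT.nd (nat_lit 156) (nat_lit 152) (nat_lit 0) (XT.nd (nat_lit 78) (nat_lit 0) (nat_lit 0) (XT.lf (nat_lit 0) (nat_lit 1372806751) (nat_lit 152) (nat_lit 2343949916) (nat_lit 228) (nat_lit 8450028717) (nat_lit 22) (nat_lit 5) (nat_lit 24) (nat_lit 5) (nat_lit 25) (nat_lit 5) (nat_lit 276) (nat_lit 234) (nat_lit 210)) (XT.lf (nat_lit 0) (nat_lit 6399664862) (nat_lit 228) (nat_lit 5574072534) (nat_lit 76) (nat_lit 602003346) (nat_lit 22) (nat_lit 5) (nat_lit 25) (nat_lit 5) (nat_lit 23) (nat_lit 4) (nat_lit 277) (nat_lit 234) (nat_lit 209))) (XT.nd (nat_lit 78) (nat_lit 152) (nat_lit 0) (XT.lf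 (nat_lit 0) (nat_lit 9186560266) (nat_lit 228) (nat_lit 233958253) (nat_lit 76) (nat_lit 3586337449) (nat_lit 22) (nat_lit 5) (nat_lit 25) (nat_lit 5) (nat_lit 23) (nat_lit 4) (nat_lit 278) (nat_lit 234) (nat_lit 208)) (XT.lf (nat_lit 0) (nat_lit 5450112014) (nat_lit 152) (nat_lit 6682462225) (nat_lit 228) (nat_lit 1326158493) (nat_lit 20) (nat_lit 5) (nat_lit 22) (nat_lit 5) (nat_lit 23) (nat_lit 4) (nat_lit 279) (nat_lit 234) (nat_lit 207)))) (XT.nd (nat_lit 156) (nat_lit 0) (nat_lit 0) (XT.nd (nat_lit 78) (nat_lit 152) (nat_lit 0) (XT.lf (nat_lit 0) (nat_lit 1190410236) (nat_lit 228) (nat_lit 2624982515) (nat_lit 76) (nat_lit 10120022915) (nat_lit 19) (nat_lit 5) (nat_lit 22) (nat_lit 5) (nat_lit 20) (nat_lit 5) (nat_lit 280) (nat_lit 234) (nat_lit 206)) (XT.lf (nat_lit 0) (nat_lit 3008838746) (nat_lit 152) (nat_lit 764540795) (nat_lit 228) (nat_lit 10662377192) (nat_lit 17) (nat_lit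 5) (nat_lit 19) (nat_lit 5) (nat_lit 20) (nat_lit 5) (nat_lit 281) (nat_lit 234) (nat_lit 205))) (XT.nd (nat_lit 78) (nat_lit 0) (nat_lit 0) (XT.lf (nat_lit 0) (nat_lit 6507934291) (nat_lit 228) (nat_lit 6076945992) (nat_lit 76) (nat_lit 2375272709) (nat_lit 17) (nat_lit 5) (nat_lit 20) (nat_lit 5) (nat_lit 18) (nat_lit 4) (nat_lit 282) (nat_lit 234) (nat_lit 204)) (XT.lf (nat_lit 0) (nat_lit 9333822151) (nat_lit 228) (nat_lit 562230115) (nat_lit 76) (nat_lit 5617138900) (nat_lit 17) (nat_lit 5) (nat_lit 20) (nat_lit 5) (nat_lit 18) (nat_lit 4) (nat_lit 283) (nat_lit 234) (nat_lit 203))))) (XT.nd (nat_lit 312) (nat_lit 76) (nat_lit 0) (XT.nd (nat_lit 156) (nat_lit 228) (nat_lit 0) (XT.nd (nat_lit 78) (nat_lit 0) (nat_lit 0) (XT.lf (nat_lit 0) (nat_lit 5312324091) (nat_lit 76) (nat_lit 7016450975) (nat_lit 152) (nat_lit 3763862762) (nat_lit 16) (nat_lit 5) (nat_lit 17) (nat_lit 5) (nat_lit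 18) (nat_lit 4) (nat_lit 284) (nat_lit 234) (nat_lit 202)) (XT.lf (nat_lit 0) (nat_lit 11415586243) (nat_lit 76) (nat_lit 4013548652) (nat_lit 152) (nat_lit 1274277171) (nat_lit 16) (nat_lit 5) (nat_lit 17) (nat_lit 5) (nat_lit 18) (nat_lit 4) (nat_lit 285) (nat_lit 234) (nat_lit 201))) (XT.nd (nat_lit 78) (nat_lit 0) (nat_lit 0) (XT.lf (nat_lit 0) (nat_lit 388434008) (nat_lit 152) (nat_lit 862270811) (nat_lit 228) (nat_lit 16095409725) (nat_lit 13) (nat_lit 5) (nat_lit 15) (nat_lit 5) (nat_lit 16) (nat_lit 5) (nat_lit 286) (nat_lit 234) (nat_lit 200)) (XT.lf (nat_lit 0) (nat_lit 3936819059) (nat_lit 228) (nat_lit 11628183655) (nat_lit 76) (nat_lit 2451138966) (nat_lit 13) (nat_lit 5) (nat_lit 16) (nat_lit 5) (nat_lit 14) (nat_lit 4) (nat_lit 287) (nat_lit 234) (nat_lit 199)))) (XT.nd (nat_lit 156) (nat_lit 76) (nat_lit 0) (XT.nd (nat_lit 78) (nat_lit 0) (nat_lit 0) (XT.lf (nat_lit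 0) (nat_lit 6722316920) (nat_lit 228) (nat_lit 6125625257) (nat_lit 76) (nat_lit 5873587804) (nat_lit 13) (nat_lit 5) (nat_lit 16) (nat_lit 5) (nat_lit 14) (nat_lit 4) (nat_lit 288) (nat_lit 234) (nat_lit 198)) (XT.lf (nat_lit 0) (nat_lit 9600368075) (nat_lit 228) (nat_lit 423441546) (nat_lit 76) (nat_lit 9440822440) (nat_lit 13) (nat_lit 5) (nat_lit 16) (nat_lit 5) (nat_lit 14) (nat_lit 4) (nat_lit 289) (nat_lit 234) (nat_lit 197))) (XT.nd (nat_lit 78) (nat_lit 0) (nat_lit 0) (XT.lf (nat_lit 0) (nat_lit 5673532577) (nat_lit 76) (nat_lit 6992872194) (nat_lit 152) (nat_lit 7576383457) (nat_lit 12) (nat_lit 5) (nat_lit 13) (nat_lit 5) (nat_lit 14) (nat_lit 4) (nat_lit 290) (nat_lit 234) (nat_lit 196)) (XT.nd (nat_lit 78) (nat_lit 0) (nat_lit 0) (XT.lf (nat_lit 0) (nat_lit 12019308889) (nat_lit 76) (nat_lit 3830123166) (nat_lit 152) (nat_lit 5212333928) (nat_lit 12) (nat_lit 5) (nat_lit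 13) (nat_lit 5) (nat_lit 14) (nat_lit 4) (nat_lit 291) (nat_lit 234) (nat_lit 195)) (XT.lf (nat_lit 0) (nat_lit 18614995492) (nat_lit 76) (nat_lit 535203372) (nat_lit 152) (nat_lit 2773657898) (nat_lit 12) (nat_lit 5) (nat_lit 13) (nat_lit 5) (nat_lit 14) (nat_lit 4) (nat_lit 292) (nat_lit 234) (nat_lit 194))))))))
noncomputable def xc91 : XT := (XT.nd (nat_lit 1326) (nat_lit 228) (nat_lit 0) (XT.nd (nat_lit 624) (nat_lit 228) (nat_lit 0) (XT.nd (nat_lit 312) (nat_lit 76) (nat_lit 0) (XT.nd (nat_lit 156) (nat_lit 0) (nat_lit 0) (XT.nd (nat_lit 78) (nat_lit 76) (nat_lit 0) (XT.lf (nat_lit 0) (nat_lit 2685875070) (nat_lit 152) (nat_lit 19977896077) (nat_lit 152) (nat_lit 162981662) (nat_lit 10) (nat_lit 4) (nat_lit 12) (nat_lit 5) (nat_lit 12) (nat_lit 4) (nat_lit 293) (nat_lit 234) (nat_lit 193)) (XT.lf (nat_lit 0) (nat_lit 2521777178) (nat_lit 228) (nat_lit 14792888392) (nat_lit 76)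 (nat_lit 6456892815) (nat_lit 9) (nat_lit 5) (nat_lit 12) (nat_lit 5) (nat_lit 10) (nat_lit 4) (nat_lit 294) (nat_lit 234) (nat_lit 192))) (XT.nd (nat_lit 78) (nat_lit 0) (nat_lit 0) (XT.lf (nat_lit 0) (nat_lit 5297523917) (nat_lit 228) (nat_lit 9243195381) (nat_lit 76) (nat_lit 10224716948) (nat_lit 9) (nat_lit 5) (nat_lit 12) (nat_lit 5) (nat_lit 10) (nat_lit 4) (nat_lit 295) (nat_lit 234) (nat_lit 191)) (XT.lf (nat_lit 0) (nat_lit 8176083905) (nat_lit 228) (nat_lit 3476040552) (nat_lit 76) (nat_lit 14158755540) (nat_lit 9) (nat_lit 5) (nat_lit 12) (nat_lit 5) (nat_lit 10) (nat_lit 4) (nat_lit 296) (nat_lit 234) (nat_lit 190)))) (XT.nd (nat_lit 156) (nat_lit 0) (nat_lit 0) (XT.nd (nat_lit 78) (nat_lit 0) (nat_lit 0) (XT.lf (nat_lit 0) (nat_lit 2605706290) (nat_lit 76) (nat_lit 8599286944) (nat_lit 152) (nat_lit 15703351436) (nat_lit 8) (nat_lit 5) (nat_lit 9) (nat_lit 5) (nat_lit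 10) (nat_lit 4) (nat_lit 297) (nat_lit 234) (nat_lit 189)) (XT.lf (nat_lit 0) (nat_lit 9055978162) (nat_lit 76) (nat_lit 5354730634) (nat_lit 152) (nat_lit 13648772222) (nat_lit 8) (nat_lit 5) (nat_lit 9) (nat_lit 5) (nat_lit 10) (nat_lit 4) (nat_lit 298) (nat_lit 234) (nat_lit 188))) (XT.nd (nat_lit 78) (nat_lit 0) (nat_lit 0) (XT.lf (nat_lit 0) (nat_lit 15775199254) (nat_lit 76) (nat_lit 1969598823) (nat_lit 152) (nat_lit 11525035022) (nat_lit 8) (nat_lit 5) (nat_lit 9) (nat_lit 5) (nat_lit 10) (nat_lit 4) (nat_lit 299) (nat_lit 234) (nat_lit 187)) (XT.lf (nat_lit 0) (nat_lit 21239620437) (nat_lit 152) (nat_lit 7787336044) (nat_lit 0) (nat_lit 1514105171) (nat_lit 8) (nat_lit 5) (nat_lit 10) (nat_lit 4) (nat_lit 8) (nat_lit 4) (nat_lit 300) (nat_lit 234) (nat_lit 186))))) (XT.nd (nat_lit 312) (nat_lit 76) (nat_lit 0) (XT.nd (nat_lit 156) (nat_lit 76) (nat_lit 0) (XT.nd (nat_lit 78)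 (nat_lit 76) (nat_lit 0) (XT.lf (nat_lit 0) (nat_lit 24912220616) (nat_lit 152) (nat_lit 1876744384) (nat_lit 0) (nat_lit 5086792223) (nat_lit 8) (nat_lit 5) (nat_lit 10) (nat_lit 4) (nat_lit 8) (nat_lit 4) (nat_lit 301) (nat_lit 234) (nat_lit 185)) (XT.lf (nat_lit 0) (nat_lit 4423546025) (nat_lit 76) (nat_lit 24386109869) (nat_lit 76) (nat_lit 4465526117) (nat_lit 7) (nat_lit 4) (nat_lit 8) (nat_lit 5) (nat_lit 8) (nat_lit 4) (nat_lit 302) (nat_lit 234) (nat_lit 184))) (XT.nd (nat_lit 78) (nat_lit 76) (nat_lit 0) (XT.lf (nat_lit 0) (nat_lit 11057360061) (nat_lit 76) (nat_lit 21849125908) (nat_lit 76) (nat_lit 1837918004) (nat_lit 7) (nat_lit 4) (nat_lit 8) (nat_lit 5) (nat_lit 8) (nat_lit 4) (nat_lit 303) (nat_lit 234) (nat_lit 183)) (XT.lf (nat_lit 0) (nat_lit 865154450) (nat_lit 152) (nat_lit 18323949995) (nat_lit 76) (nat_lit 17098632613) (nat_lit 6) (nat_lit 5) (nat_lit 8) (nat_lit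 5) (nat_lit 7) (nat_lit 4) (nat_lit 304) (nat_lit 234) (nat_lit 182)))) (XT.nd (nat_lit 156) (nat_lit 76) (nat_lit 0) (XT.nd (nat_lit 78) (nat_lit 0) (nat_lit 0) (XT.lf (nat_lit 0) (nat_lit 3616437239) (nat_lit 152) (nat_lit 12766019056) (nat_lit 76) (nat_lit 21525577867) (nat_lit 6) (nat_lit 5) (nat_lit 8) (nat_lit 5) (nat_lit 7) (nat_lit 4) (nat_lit 305) (nat_lit 234) (nat_lit 181)) (XT.lf (nat_lit 0) (nat_lit 6481305886) (nat_lit 152) (nat_lit 6971322878) (nat_lit 76) (nat_lit 26157959123) (nat_lit 6) (nat_lit 5) (nat_lit 8) (nat_lit 5) (nat_lit 7) (nat_lit 4) (nat_lit 306) (nat_lit 234) (nat_lit 180))) (XT.nd (nat_lit 78) (nat_lit 76) (nat_lit 0) (XT.lf (nat_lit 0) (nat_lit 9466581510) (nat_lit 152) (nat_lit 926064564) (nat_lit 76) (nat_lit 31006805860) (nat_lit 6) (nat_lit 5) (nat_lit 8) (nat_lit 5) (nat_lit 7) (nat_lit 4) (nat_lit 307) (nat_lit 234) (nat_lit 179)) (XT.nd (nat_lit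 78) (nat_lit 0) (nat_lit 0) (XT.lf (nat_lit 0) (nat_lit 5562173650) (nat_lit 76) (nat_lit 7104039376) (nat_lit 152) (nat_lit 30608330419) (nat_lit 5) (nat_lit 5) (nat_lit 6) (nat_lit 5) (nat_lit 7) (nat_lit 4) (nat_lit 308) (nat_lit 234) (nat_lit 178)) (XT.lf (nat_lit 0) (nat_lit 12370269069) (nat_lit 76) (nat_lit 3649953984) (nat_lit 152) (nat_lit 29223483650) (nat_lit 5) (nat_lit 5) (nat_lit 6) (nat_lit 5) (nat_lit 7) (nat_lit 4) (nat_lit 309) (nat_lit 234) (nat_lit 177))))))) (XT.nd (nat_lit 702) (nat_lit 152) (nat_lit 0) (XT.nd (nat_lit 312) (nat_lit 76) (nat_lit 0) (XT.nd (nat_lit 156) (nat_lit 0) (nat_lit 0) (XT.nd (nat_lit 78) (nat_lit 0) (nat_lit 0) (XT.lf (nat_lit 0) (nat_lit 19483811566) (nat_lit 76) (nat_lit 37849238) (nat_lit 152) (nat_lit 27790716215) (nat_lit 5) (nat_lit 5) (nat_lit 6) (nat_lit 5) (nat_lit 7) (nat_lit 4) (nat_lit 310) (nat_lit 234) (nat_lit 176)) (XT.lf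 (nat_lit 0) (nat_lit 23237268581) (nat_lit 152) (nat_lit 22624147194) (nat_lit 0) (nat_lit 3621143745) (nat_lit 5) (nat_lit 5) (nat_lit 7) (nat_lit 4) (nat_lit 5) (nat_lit 4) (nat_lit 311) (nat_lit 234) (nat_lit 175))) (XT.nd (nat_lit 78) (nat_lit 0) (nat_lit 0) (XT.lf (nat_lit 0) (nat_lit 27120681260) (nat_lit 152) (nat_lit 17192579579) (nat_lit 0) (nat_lit 7448921057) (nat_lit 5) (nat_lit 5) (nat_lit 7) (nat_lit 4) (nat_lit 5) (nat_lit 4) (nat_lit 312) (nat_lit 234) (nat_lit 174)) (XT.lf (nat_lit 0) (nat_lit 31180554132) (nat_lit 152) (nat_lit 11520339373) (nat_lit 0) (nat_lit 11455807864) (nat_lit 5) (nat_lit 5) (nat_lit 7) (nat_lit 4) (nat_lit 5) (nat_lit 4) (nat_lit 313) (nat_lit 234) (nat_lit 173)))) (XT.nd (nat_lit 156) (nat_lit 0) (nat_lit 0) (XT.nd (nat_lit 78) (nat_lit 76) (nat_lit 0) (XT.lf (nat_lit 0) (nat_lit 35426553560) (nat_lit 152) (nat_lit 5593921240) (nat_lit 0)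 (nat_lit 15651344374) (nat_lit 5) (nat_lit 5) (nat_lit 7) (nat_lit 4) (nat_lit 5) (nat_lit 4) (nat_lit 314) (nat_lit 234) (nat_lit 172)) (XT.lf (nat_lit 0) (nat_lit 620650013) (nat_lit 76) (nat_lit 39257829140) (nat_lit 76) (nat_lit 19434560030) (nat_lit 4) (nat_lit 4) (nat_lit 5) (nat_lit 5) (nat_lit 5) (nat_lit 4) (nat_lit 315) (nat_lit 234) (nat_lit 171))) (XT.nd (nat_lit 78) (nat_lit 0) (nat_lit 0) (XT.lf (nat_lit 0) (nat_lit 7312577818) (nat_lit 76) (nat_lit 37319429418) (nat_lit 76) (nat_lit 17450388954) (nat_lit 4) (nat_lit 4) (nat_lit 5) (nat_lit 5) (nat_lit 5) (nat_lit 4) (nat_lit 316) (nat_lit 234) (nat_lit 170)) (XT.nd (nat_lit 78) (nat_lit 0) (nat_lit 0) (XT.lf (nat_lit 0) (nat_lit 14312835038) (nat_lit 76) (nat_lit 35295396160) (nat_lit 76) (nat_lit 15382763930) (nat_lit 4) (nat_lit 4) (nat_lit 5) (nat_lit 5) (nat_lit 5) (nat_lit 4) (nat_lit 317) (nat_lit 234) (nat_lit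 169)) (XT.lf (nat_lit 0) (nat_lit 21638088950) (nat_lit 76) (nat_lit 33180910241) (nat_lit 76) (nat_lit 13226762042) (nat_lit 4) (nat_lit 4) (nat_lit 5) (nat_lit 5) (nat_lit 5) (nat_lit 4) (nat_lit 318) (nat_lit 234) (nat_lit 168)))))) (XT.nd (nat_lit 312) (nat_lit 152) (nat_lit 0) (XT.nd (nat_lit 156) (nat_lit 0) (nat_lit 0) (XT.nd (nat_lit 78) (nat_lit 0) (nat_lit 0) (XT.lf (nat_lit 0) (nat_lit 29305780637) (nat_lit 76) (nat_lit 30970937169) (nat_lit 76) (nat_lit 10977249953) (nat_lit 4) (nat_lit 4) (nat_lit 5) (nat_lit 5) (nat_lit 5) (nat_lit 4) (nat_lit 319) (nat_lit 234) (nat_lit 167)) (XT.lf (nat_lit 0) (nat_lit 37334166506) (nat_lit 76) (nat_lit 28660215104) (nat_lit 76) (nat_lit 8628871681) (nat_lit 4) (nat_lit 4) (nat_lit 5) (nat_lit 5) (nat_lit 5) (nat_lit 4) (nat_lit 320) (nat_lit 234) (nat_lit 166))) (XT.nd (nat_lit 78) (nat_lit 0) (nat_lit 0) (XT.lf (nat_lit 0) (nat_lit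 45742361762) (nat_lit 76) (nat_lit 26243242326) (nat_lit 76) (nat_lit 6176035849) (nat_lit 4) (nat_lit 4) (nat_lit 5) (nat_lit 5) (nat_lit 5) (nat_lit 4) (nat_lit 321) (nat_lit 234) (nat_lit 165)) (XT.lf (nat_lit 0) (nat_lit 54550385918) (nat_lit 76) (nat_lit 23714264140) (nat_lit 76) (nat_lit 3612902373) (nat_lit 4) (nat_lit 4) (nat_lit 5) (nat_lit 5) (nat_lit 5) (nat_lit 4) (nat_lit 322) (nat_lit 234) (nat_lit 164)))) (XT.nd (nat_lit 156) (nat_lit 76) (nat_lit 0) (XT.nd (nat_lit 78) (nat_lit 76) (nat_lit 0) (XT.lf (nat_lit 0) (nat_lit 63779210459) (nat_lit 76) (nat_lit 21067259167) (nat_lit 76) (nat_lit 933368553) (nat_lit 4) (nat_lit 4) (nat_lit 5) (nat_lit 5) (nat_lit 5) (nat_lit 4) (nat_lit 323) (nat_lit 234) (nat_lit 163)) (XT.lf (nat_lit 0) (nat_lit 1809127526) (nat_lit 152) (nat_lit 16456159040) (nat_lit 76) (nat_lit 71611042802) (nat_lit 3) (nat_lit 5) (nat_lit 5) (nat_lit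 5) (nat_lit 4) (nat_lit 4) (nat_lit 324) (nat_lit 234) (nat_lit 162))) (XT.nd (nat_lit 78) (nat_lit 76) (nat_lit 0) (XT.lf (nat_lit 0) (nat_lit 4647059061) (nat_lit 152) (nat_lit 10667904016) (nat_lit 76) (nat_lit 78862449235) (nat_lit 3) (nat_lit 5) (nat_lit 5) (nat_lit 5) (nat_lit 4) (nat_lit 4) (nat_lit 325) (nat_lit 234) (nat_lit 161)) (XT.nd (nat_lit 78) (nat_lit 76) (nat_lit 0) (XT.lf (nat_lit 0) (nat_lit 7617056654) (nat_lit 152) (nat_lit 4607508591) (nat_lit 76) (nat_lit 86469491065) (nat_lit 3) (nat_lit 5) (nat_lit 5) (nat_lit 5) (nat_lit 4) (nat_lit 4) (nat_lit 326) (nat_lit 234) (nat_lit 160)) (XT.lf (nat_lit 0) (nat_lit 1796971043) (nat_lit 76) (nat_lit 8957276439) (nat_lit 152) (nat_lit 92681365008) (nat_lit 2) (nat_lit 5) (nat_lit 3) (nat_lit 5) (nat_lit 4) (nat_lit 4) (nat_lit 327) (nat_lit 234) (nat_lit 159))))))))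
noncomputable def xc92 : XT := (XT.nd (nat_lit 1326) (nat_lit 76) (nat_lit 0) (XT.nd (nat_lit 624) (nat_lit 0) (nat_lit 0) (XT.nd (nat_lit 312) (nat_lit 0) (nat_lit 0) (XT.nd (nat_lit 156) (nat_lit 0) (nat_lit 0) (XT.nd (nat_lit 78) (nat_lit 0) (nat_lit 0) (XT.lf (nat_lit 0) (nat_lit 8665452416) (nat_lit 76) (nat_lit 5451706566) (nat_lit 152) (nat_lit 94293658391) (nat_lit 2) (nat_lit 5) (nat_lit 3) (nat_lit 5) (nat_lit 4) (nat_lit 4) (nat_lit 328) (nat_lit 234) (nat_lit 158)) (XT.lf (nat_lit 0) (nat_lit 15861944014) (nat_lit 76) (nat_lit 1777539420) (nat_lit 152) (nat_lit 95995748987) (nat_lit 2) (nat_lit 5) (nat_lit 3) (nat_lit 5) (nat_lit 4) (nat_lit 4) (nat_lit 329) (nat_lit 234) (nat_lit 157))) (XT.nd (nat_lit 78) (nat_lit 0) (nat_lit 0) (XT.lf (nat_lit 0) (nat_lit 21361987853) (nat_lit 152) (nat_lit 95750096906) (nat_lit 0) (nat_lit 2007592928) (nat_lit 2) (nat_lit 5) (nat_lit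 4) (nat_lit 4) (nat_lit 2) (nat_lit 4) (nat_lit 330) (nat_lit 234) (nat_lit 156)) (XT.lf (nat_lit 0) (nat_lit 25291742120) (nat_lit 152) (nat_lit 93669180106) (nat_lit 0) (nat_lit 5916378811) (nat_lit 2) (nat_lit 5) (nat_lit 4) (nat_lit 4) (nat_lit 2) (nat_lit 4) (nat_lit 331) (nat_lit 234) (nat_lit 155)))) (XT.nd (nat_lit 156) (nat_lit 0) (nat_lit 0) (XT.nd (nat_lit 78) (nat_lit 0) (nat_lit 0) (XT.lf (nat_lit 0) (nat_lit 29410350422) (nat_lit 152) (nat_lit 91497831073) (nat_lit 0) (nat_lit 10015017222) (nat_lit 2) (nat_lit 5) (nat_lit 4) (nat_lit 4) (nat_lit 2) (nat_lit 4) (nat_lit 332) (nat_lit 234) (nat_lit 154)) (XT.lf (nat_lit 0) (nat_lit 33727618968) (nat_lit 152) (nat_lit 89230879926) (nat_lit 0) (nat_lit 14313266825) (nat_lit 2) (nat_lit 5) (nat_lit 4) (nat_lit 4) (nat_lit 2) (nat_lit 4) (nat_lit 333) (nat_lit 234) (nat_lit 153))) (XT.nd (nat_lit 78) (nat_lit 0) (nat_lit 0)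 (XT.lf (nat_lit 0) (nat_lit 38253826971) (nat_lit 152) (nat_lit 86862929165) (nat_lit 0) (nat_lit 18821361548) (nat_lit 2) (nat_lit 5) (nat_lit 4) (nat_lit 4) (nat_lit 2) (nat_lit 4) (nat_lit 334) (nat_lit 234) (nat_lit 152)) (XT.lf (nat_lit 0) (nat_lit 42999751114) (nat_lit 152) (nat_lit 84388340810) (nat_lit 0) (nat_lit 23550034949) (nat_lit 2) (nat_lit 5) (nat_lit 4) (nat_lit 4) (nat_lit 2) (nat_lit 4) (nat_lit 335) (nat_lit 234) (nat_lit 151))))) (XT.nd (nat_lit 312) (nat_lit 0) (nat_lit 0) (XT.nd (nat_lit 156) (nat_lit 0) (nat_lit 0) (XT.nd (nat_lit 78) (nat_lit 0) (nat_lit 0) (XT.lf (nat_lit 0) (nat_lit 47976691218) (nat_lit 152) (nat_lit 81801222984) (nat_lit 0) (nat_lit 28510545775) (nat_lit 2) (nat_lit 5) (nat_lit 4) (nat_lit 4) (nat_lit 2) (nat_lit 4) (nat_lit 336) (nat_lit 234) (nat_lit 150)) (XT.lf (nat_lit 0) (nat_lit 53196497140) (nat_lit 152) (nat_lit 79095415884) (nat_lit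 0) (nat_lit 33714704765) (nat_lit 2) (nat_lit 5) (nat_lit 4) (nat_lit 4) (nat_lit 2) (nat_lit 4) (nat_lit 337) (nat_lit 234) (nat_lit 149))) (XT.nd (nat_lit 78) (nat_lit 0) (nat_lit 0) (XT.lf (nat_lit 0) (nat_lit 58671596989) (nat_lit 152) (nat_lit 76264477112) (nat_lit 0) (nat_lit 39174902775) (nat_lit 2) (nat_lit 5) (nat_lit 4) (nat_lit 4) (nat_lit 2) (nat_lit 4) (nat_lit 338) (nat_lit 234) (nat_lit 148)) (XT.lf (nat_lit 0) (nat_lit 64415026718) (nat_lit 152) (nat_lit 73301666336) (nat_lit 0) (nat_lit 44904140275) (nat_lit 2) (nat_lit 5) (nat_lit 4) (nat_lit 4) (nat_lit 2) (nat_lit 4) (nat_lit 339) (nat_lit 234) (nat_lit 147)))) (XT.nd (nat_lit 156) (nat_lit 0) (nat_lit 0) (XT.nd (nat_lit 78) (nat_lit 0) (nat_lit 0) (XT.lf (nat_lit 0) (nat_lit 70440461159) (nat_lit 152) (nat_lit 70199929246) (nat_lit 0) (nat_lit 50916058308) (nat_lit 2) (nat_lit 5) (nat_lit 4) (nat_lit 4) (nat_lit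 2) (nat_lit 4) (nat_lit 340) (nat_lit 234) (nat_lit 146)) (XT.lf (nat_lit 0) (nat_lit 76762246584) (nat_lit 152) (nat_lit 66951880753) (nat_lit 0) (nat_lit 57224970964) (nat_lit 2) (nat_lit 5) (nat_lit 4) (nat_lit 4) (nat_lit 2) (nat_lit 4) (nat_lit 341) (nat_lit 234) (nat_lit 145))) (XT.nd (nat_lit 78) (nat_lit 0) (nat_lit 0) (XT.lf (nat_lit 0) (nat_lit 83395434864) (nat_lit 152) (nat_lit 63549787409) (nat_lit 0) (nat_lit 63845899463) (nat_lit 2) (nat_lit 5) (nat_lit 4) (nat_lit 4) (nat_lit 2) (nat_lit 4) (nat_lit 342) (nat_lit 234) (nat_lit 144)) (XT.nd (nat_lit 78) (nat_lit 0) (nat_lit 0) (XT.lf (nat_lit 0) (nat_lit 90355819304) (nat_lit 152) (nat_lit 59985548991) (nat_lit 0) (nat_lit 70794607922) (nat_lit 2) (nat_lit 5) (nat_lit 4) (nat_lit 4) (nat_lit 2) (nat_lit 4) (nat_lit 343) (nat_lit 234) (nat_lit 143)) (XT.lf (nat_lit 0) (nat_lit 97659972248) (nat_lit 152) (nat_lit 56250679217)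 (nat_lit 0) (nat_lit 78087640884) (nat_lit 2) (nat_lit 5) (nat_lit 4) (nat_lit 4) (nat_lit 2) (nat_lit 4) (nat_lit 344) (nat_lit 234) (nat_lit 142))))))) (XT.nd (nat_lit 624) (nat_lit 76) (nat_lit 0) (XT.nd (nat_lit 312) (nat_lit 0) (nat_lit 0) (XT.nd (nat_lit 156) (nat_lit 0) (nat_lit 0) (XT.nd (nat_lit 78) (nat_lit 0) (nat_lit 0) (XT.lf (nat_lit 0) (nat_lit 105325284537) (nat_lit 152) (nat_lit 52336285540) (nat_lit 0) (nat_lit 85742362713) (nat_lit 2) (nat_lit 5) (nat_lit 4) (nat_lit 4) (nat_lit 2) (nat_lit 4) (nat_lit 345) (nat_lit 234) (nat_lit 141)) (XT.lf (nat_lit 0) (nat_lit 113370006913) (nat_lit 152) (nat_lit 48233047976) (nat_lit 0) (nat_lit 93776998937) (nat_lit 2) (nat_lit 5) (nat_lit 4) (nat_lit 4) (nat_lit 2) (nat_lit 4) (nat_lit 346) (nat_lit 234) (nat_lit 140))) (XT.nd (nat_lit 78) (nat_lit 0) (nat_lit 0) (XT.lf (nat_lit 0) (nat_lit 121813293478) (nat_lit 152) (nat_lit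 43931196911) (nat_lit 0) (nat_lit 102210679643) (nat_lit 2) (nat_lit 5) (nat_lit 4) (nat_lit 4) (nat_lit 2) (nat_lit 4) (nat_lit 347) (nat_lit 234) (nat_lit 139)) (XT.lf (nat_lit 0) (nat_lit 130675247295) (nat_lit 152) (nat_lit 39420489842) (nat_lit 0) (nat_lit 111063485023) (nat_lit 2) (nat_lit 5) (nat_lit 4) (nat_lit 4) (nat_lit 2) (nat_lit 4) (nat_lit 348) (nat_lit 234) (nat_lit 138)))) (XT.nd (nat_lit 156) (nat_lit 0) (nat_lit 0) (XT.nd (nat_lit 78) (nat_lit 0) (nat_lit 0) (XT.lf (nat_lit 0) (nat_lit 139976968253) (nat_lit 152) (nat_lit 34690186992) (nat_lit 0) (nat_lit 120356493185) (nat_lit 2) (nat_lit 5) (nat_lit 4) (nat_lit 4) (nat_lit 2) (nat_lit 4) (nat_lit 349) (nat_lit 234) (nat_lit 137)) (XT.lf (nat_lit 0) (nat_lit 149740603309) (nat_lit 152) (nat_lit 29729025733) (nat_lit 0) (nat_lit 130111830339) (nat_lit 2) (nat_lit 5) (nat_lit 4) (nat_lit 4) (nat_lit 2) (nat_lit 4)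 (nat_lit 350) (nat_lit 234) (nat_lit 136))) (XT.nd (nat_lit 78) (nat_lit 0) (nat_lit 0) (XT.lf (nat_lit 0) (nat_lit 159989399211) (nat_lit 152) (nat_lit 24525193777) (nat_lit 0) (nat_lit 140352723477) (nat_lit 2) (nat_lit 5) (nat_lit 4) (nat_lit 4) (nat_lit 2) (nat_lit 4) (nat_lit 351) (nat_lit 234) (nat_lit 135)) (XT.lf (nat_lit 0) (nat_lit 170747757856) (nat_lit 152) (nat_lit 19066301049) (nat_lit 0) (nat_lit 151103555680) (nat_lit 2) (nat_lit 5) (nat_lit 4) (nat_lit 4) (nat_lit 2) (nat_lit 4) (nat_lit 352) (nat_lit 234) (nat_lit 134))))) (XT.nd (nat_lit 312) (nat_lit 0) (nat_lit 0) (XT.nd (nat_lit 156) (nat_lit 76) (nat_lit 0) (XT.nd (nat_lit 78) (nat_lit 0) (nat_lit 0) (XT.lf (nat_lit 0) (nat_lit 182041294381) (nat_lit 152) (nat_lit 13339350184) (nat_lit 0) (nat_lit 162389924166) (nat_lit 2) (nat_lit 5) (nat_lit 4) (nat_lit 4) (nat_lit 2) (nat_lit 4) (nat_lit 353) (nat_lit 234)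 (nat_lit 133)) (XT.lf (nat_lit 0) (nat_lit 193896898161) (nat_lit 152) (nat_lit 7330705585) (nat_lit 0) (nat_lit 174238701241) (nat_lit 2) (nat_lit 5) (nat_lit 4) (nat_lit 4) (nat_lit 2) (nat_lit 4) (nat_lit 354) (nat_lit 234) (nat_lit 132))) (XT.nd (nat_lit 78) (nat_lit 76) (nat_lit 0) (XT.lf (nat_lit 0) (nat_lit 206342796823) (nat_lit 152) (nat_lit 1026060955) (nat_lit 0) (nat_lit 186678098280) (nat_lit 2) (nat_lit 5) (nat_lit 4) (nat_lit 4) (nat_lit 2) (nat_lit 4) (nat_lit 355) (nat_lit 234) (nat_lit 131)) (XT.lf (nat_lit 0) (nat_lit 5774412008) (nat_lit 76) (nat_lit 213724366205) (nat_lit 76) (nat_lit 194053475639) (nat_lit 1) (nat_lit 4) (nat_lit 2) (nat_lit 5) (nat_lit 2) (nat_lit 4) (nat_lit 356) (nat_lit 234) (nat_lit 130)))) (XT.nd (nat_lit 156) (nat_lit 0) (nat_lit 0) (XT.nd (nat_lit 78) (nat_lit 0) (nat_lit 0) (XT.lf (nat_lit 0) (nat_lit 12946378081) (nat_lit 76) (nat_lit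 220381238343) (nat_lit 76) (nat_lit 200704450614) (nat_lit 1) (nat_lit 4) (nat_lit 2) (nat_lit 5) (nat_lit 2) (nat_lit 4) (nat_lit 357) (nat_lit 234) (nat_lit 129)) (XT.lf (nat_lit 0) (nat_lit 20472987163) (nat_lit 76) (nat_lit 227372700729) (nat_lit 76) (nat_lit 207690296652) (nat_lit 1) (nat_lit 4) (nat_lit 2) (nat_lit 5) (nat_lit 2) (nat_lit 4) (nat_lit 358) (nat_lit 234) (nat_lit 128))) (XT.nd (nat_lit 78) (nat_lit 0) (nat_lit 0) (XT.lf (nat_lit 0) (nat_lit 28372159751) (nat_lit 76) (nat_lit 234715399700) (nat_lit 76) (nat_lit 215027646722) (nat_lit 1) (nat_lit 4) (nat_lit 2) (nat_lit 5) (nat_lit 2) (nat_lit 4) (nat_lit 359) (nat_lit 234) (nat_lit 127)) (XT.nd (nat_lit 78) (nat_lit 0) (nat_lit 0) (XT.lf (nat_lit 0) (nat_lit 36662703400) (nat_lit 76) (nat_lit 242426817874) (nat_lit 76) (nat_lit 222733970704) (nat_lit 1) (nat_lit 4) (nat_lit 2) (nat_lit 5) (nat_lit 2) (nat_lit 4)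 (nat_lit 360) (nat_lit 234) (nat_lit 126)) (XT.lf (nat_lit 0) (nat_lit 45364357500) (nat_lit 76) (nat_lit 250525315769) (nat_lit 76) (nat_lit 230827616988) (nat_lit 1) (nat_lit 4) (nat_lit 2) (nat_lit 5) (nat_lit 2) (nat_lit 4) (nat_lit 361) (nat_lit 234) (nat_lit 125))))))))
noncomputable def xc93 : XT := (XT.nd (nat_lit 1326) (nat_lit 1900) (nat_lit 0) (XT.nd (nat_lit 624) (nat_lit 1976) (nat_lit 0) (XT.nd (nat_lit 312) (nat_lit 1292) (nat_lit 0) (XT.nd (nat_lit 156) (nat_lit 532) (nat_lit 0) (XT.nd (nat_lit 78) (nat_lit 380) (nat_lit 0) (XT.lf (nat_lit 0) (nat_lit 1640407403) (nat_lit 380) (nat_lit 102126923) (nat_lit 0) (nat_lit 1640407403) (nat_lit 96) (nat_lit 5) (nat_lit 101) (nat_lit 4) (nat_lit 96) (nat_lit 4) (nat_lit 250) (nat_lit 235) (nat_lit 235)) (XT.lf (nat_lit 0) (nat_lit 3665836345) (nat_lit 380) (nat_lit 2518617287) (nat_lit 380) (nat_lit 652321410) (nat_lit 91)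 (nat_lit 4) (nat_lit 96) (nat_lit 5) (nat_lit 96) (nat_lit 4) (nat_lit 251) (nat_lit 235) (nat_lit 234))) (XT.nd (nat_lit 78) (nat_lit 0) (nat_lit 0) (XT.lf (nat_lit 0) (nat_lit 682625229) (nat_lit 456) (nat_lit 1427787332) (nat_lit 532) (nat_lit 4806825409) (nat_lit 84) (nat_lit 5) (nat_lit 90) (nat_lit 5) (nat_lit 91) (nat_lit 4) (nat_lit 252) (nat_lit 235) (nat_lit 233)) (XT.lf (nat_lit 0) (nat_lit 4701582265) (nat_lit 456) (nat_lit 195046107) (nat_lit 532) (nat_lit 2110124236) (nat_lit 84) (nat_lit 5) (nat_lit 90) (nat_lit 5) (nat_lit 91) (nat_lit 4) (nat_lit 253) (nat_lit 235) (nat_lit 232)))) (XT.nd (nat_lit 156) (nat_lit 684) (nat_lit 0) (XT.nd (nat_lit 78) (nat_lit 0) (nat_lit 0) (XT.lf (nat_lit 0) (nat_lit 601095263) (nat_lit 608) (nat_lit 5385547517) (nat_lit 76) (nat_lit 1119238863) (nat_lit 76) (nat_lit 5) (nat_lit 84) (nat_lit 5) (nat_lit 77) (nat_lit 4) (nat_lit 254)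 (nat_lit 235) (nat_lit 231)) (XT.lf (nat_lit 0) (nat_lit 3282467924) (nat_lit 608) (nat_lit 1351025216) (nat_lit 76) (nat_lit 2580269523) (nat_lit 76) (nat_lit 5) (nat_lit 84) (nat_lit 5) (nat_lit 77) (nat_lit 4) (nat_lit 255) (nat_lit 235) (nat_lit 230))) (XT.nd (nat_lit 78) (nat_lit 76) (nat_lit 0) (XT.lf (nat_lit 0) (nat_lit 2851021786) (nat_lit 608) (nat_lit 3160570880) (nat_lit 684) (nat_lit 1320523233) (nat_lit 68) (nat_lit 5) (nat_lit 76) (nat_lit 5) (nat_lit 77) (nat_lit 4) (nat_lit 256) (nat_lit 235) (nat_lit 229)) (XT.lf (nat_lit 0) (nat_lit 1269265048) (nat_lit 684) (nat_lit 296119953) (nat_lit 76) (nat_lit 5895886522) (nat_lit 67) (nat_lit 5) (nat_lit 76) (nat_lit 5) (nat_lit 68) (nat_lit 5) (nat_lit 257) (nat_lit 235) (nat_lit 228))))) (XT.nd (nat_lit 312) (nat_lit 608) (nat_lit 0) (XT.nd (nat_lit 156) (nat_lit 380) (nat_lit 0) (XT.nd (nat_lit 78) (nat_lit 304) (nat_lit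 0) (XT.lf (nat_lit 0) (nat_lit 3887920138) (nat_lit 760) (nat_lit 3517637362) (nat_lit 76) (nat_lit 193715784) (nat_lit 58) (nat_lit 5) (nat_lit 68) (nat_lit 5) (nat_lit 59) (nat_lit 4) (nat_lit 258) (nat_lit 235) (nat_lit 227)) (XT.lf (nat_lit 0) (nat_lit 818202958) (nat_lit 304) (nat_lit 5743660641) (nat_lit 380) (nat_lit 1186720930) (nat_lit 54) (nat_lit 5) (nat_lit 58) (nat_lit 5) (nat_lit 59) (nat_lit 4) (nat_lit 259) (nat_lit 235) (nat_lit 226))) (XT.nd (nat_lit 78) (nat_lit 304) (nat_lit 0) (XT.lf (nat_lit 0) (nat_lit 1359908009) (nat_lit 380) (nat_lit 2562556688) (nat_lit 76) (nat_lit 3985191197) (nat_lit 53) (nat_lit 5) (nat_lit 58) (nat_lit 5) (nat_lit 54) (nat_lit 5) (nat_lit 260) (nat_lit 235) (nat_lit 225)) (XT.lf (nat_lit 0) (nat_lit 1943260774) (nat_lit 304) (nat_lit 1968758462) (nat_lit 380) (nat_lit 4166329024) (nat_lit 49) (nat_lit 5) (nat_lit 53) (nat_lit 5) (nat_lit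 54) (nat_lit 5) (nat_lit 261) (nat_lit 235) (nat_lit 224)))) (XT.nd (nat_lit 156) (nat_lit 304) (nat_lit 0) (XT.nd (nat_lit 78) (nat_lit 304) (nat_lit 0) (XT.lf (nat_lit 0) (nat_lit 6528092751) (nat_lit 380) (nat_lit 1620992618) (nat_lit 76) (nat_lit 112188019) (nat_lit 49) (nat_lit 5) (nat_lit 54) (nat_lit 5) (nat_lit 50) (nat_lit 4) (nat_lit 262) (nat_lit 235) (nat_lit 223)) (XT.lf (nat_lit 0) (nat_lit 770720535) (nat_lit 304) (nat_lit 5403741208) (nat_lit 76) (nat_lit 2279940020) (nat_lit 45) (nat_lit 5) (nat_lit 49) (nat_lit 5) (nat_lit 46) (nat_lit 5) (nat_lit 263) (nat_lit 235) (nat_lit 222))) (XT.nd (nat_lit 78) (nat_lit 304) (nat_lit 0) (XT.lf (nat_lit 0) (nat_lit 3266606000) (nat_lit 304) (nat_lit 795277655) (nat_lit 76) (nat_lit 4598076209) (nat_lit 45) (nat_lit 5) (nat_lit 49) (nat_lit 5) (nat_lit 46) (nat_lit 5) (nat_lit 264) (nat_lit 235) (nat_lit 221)) (XT.nd (nat_lit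 78) (nat_lit 0) (nat_lit 0) (XT.lf (nat_lit 0) (nat_lit 4056514815) (nat_lit 304) (nat_lit 1796136045) (nat_lit 380) (nat_lit 3025301252) (nat_lit 41) (nat_lit 5) (nat_lit 45) (nat_lit 5) (nat_lit 46) (nat_lit 5) (nat_lit 265) (nat_lit 235) (nat_lit 220)) (XT.lf (nat_lit 0) (nat_lit 8495377086) (nat_lit 380) (nat_lit 56874901) (nat_lit 76) (nat_lit 558627314) (nat_lit 41) (nat_lit 5) (nat_lit 46) (nat_lit 5) (nat_lit 42) (nat_lit 4) (nat_lit 266) (nat_lit 235) (nat_lit 219))))))) (XT.nd (nat_lit 702) (nat_lit 608) (nat_lit 0) (XT.nd (nat_lit 312) (nat_lit 532) (nat_lit 0) (XT.nd (nat_lit 156) (nat_lit 228) (nat_lit 0) (XT.nd (nat_lit 78) (nat_lit 228) (nat_lit 0) (XT.lf (nat_lit 0) (nat_lit 1869425517) (nat_lit 304) (nat_lit 4424113042) (nat_lit 76) (nat_lit 3059990032) (nat_lit 37) (nat_lit 5) (nat_lit 41) (nat_lit 5) (nat_lit 38) (nat_lit 5) (nat_lit 267) (nat_lit 235) (nat_lit 218))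 (XT.lf (nat_lit 0) (nat_lit 447274920) (nat_lit 228) (nat_lit 3928505294) (nat_lit 304) (nat_lit 5236481584) (nat_lit 34) (nat_lit 5) (nat_lit 37) (nat_lit 5) (nat_lit 38) (nat_lit 5) (nat_lit 268) (nat_lit 235) (nat_lit 217))) (XT.nd (nat_lit 78) (nat_lit 228) (nat_lit 0) (XT.lf (nat_lit 0) (nat_lit 5602025518) (nat_lit 228) (nat_lit 1392768455) (nat_lit 304) (nat_lit 2890103231) (nat_lit 34) (nat_lit 5) (nat_lit 37) (nat_lit 5) (nat_lit 38) (nat_lit 5) (nat_lit 269) (nat_lit 235) (nat_lit 216)) (XT.lf (nat_lit 0) (nat_lit 734554794) (nat_lit 228) (nat_lit 8957694123) (nat_lit 304) (nat_lit 481857703) (nat_lit 31) (nat_lit 5) (nat_lit 34) (nat_lit 5) (nat_lit 35) (nat_lit 4) (nat_lit 270) (nat_lit 235) (nat_lit 215)))) (XT.nd (nat_lit 156) (nat_lit 228) (nat_lit 0) (XT.nd (nat_lit 78) (nat_lit 228) (nat_lit 0) (XT.lf (nat_lit 0) (nat_lit 1994675187) (nat_lit 304) (nat_lit 4492286676)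 (nat_lit 76) (nat_lit 3988834875) (nat_lit 30) (nat_lit 5) (nat_lit 34) (nat_lit 5) (nat_lit 31) (nat_lit 5) (nat_lit 271) (nat_lit 235) (nat_lit 214)) (XT.lf (nat_lit 0) (nat_lit 605534341) (nat_lit 228) (nat_lit 3903552929) (nat_lit 304) (nat_lit 6286850453) (nat_lit 27) (nat_lit 5) (nat_lit 30) (nat_lit 5) (nat_lit 31) (nat_lit 5) (nat_lit 272) (nat_lit 235) (nat_lit 213))) (XT.nd (nat_lit 78) (nat_lit 228) (nat_lit 0) (XT.lf (nat_lit 0) (nat_lit 6007666092) (nat_lit 228) (nat_lit 1140533338) (nat_lit 304) (nat_lit 3984197960) (nat_lit 27) (nat_lit 5) (nat_lit 30) (nat_lit 5) (nat_lit 31) (nat_lit 5) (nat_lit 273) (nat_lit 235) (nat_lit 212)) (XT.nd (nat_lit 78) (nat_lit 76) (nat_lit 0) (XT.lf (nat_lit 0) (nat_lit 63828074) (nat_lit 152) (nat_lit 9810058175) (nat_lit 228) (nat_lit 1614311033) (nat_lit 25) (nat_lit 5) (nat_lit 27) (nat_lit 5) (nat_lit 28) (nat_lit 4) (nat_lit 274)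 (nat_lit 235) (nat_lit 211)) (XT.lf (nat_lit 0) (nat_lit 879635212) (nat_lit 228) (nat_lit 6307388915) (nat_lit 76) (nat_lit 4672628794) (nat_lit 24) (nat_lit 5) (nat_lit 27) (nat_lit 5) (nat_lit 25) (nat_lit 5) (nat_lit 275) (nat_lit 235) (nat_lit 210)))))) (XT.nd (nat_lit 312) (nat_lit 304) (nat_lit 0) (XT.nd (nat_lit 156) (nat_lit 152) (nat_lit 0) (XT.nd (nat_lit 78) (nat_lit 152) (nat_lit 0) (XT.lf (nat_lit 0) (nat_lit 3374151925) (nat_lit 228) (nat_lit 1061889449) (nat_lit 76) (nat_lit 7816024930) (nat_lit 24) (nat_lit 5) (nat_lit 27) (nat_lit 5) (nat_lit 25) (nat_lit 5) (nat_lit 276) (nat_lit 235) (nat_lit 209)) (XT.lf (nat_lit 0) (nat_lit 4493647164) (nat_lit 152) (nat_lit 1503357729) (nat_lit 228) (nat_lit 6667119136) (nat_lit 22) (nat_lit 5) (nat_lit 24) (nat_lit 5) (nat_lit 25) (nat_lit 5) (nat_lit 277) (nat_lit 235) (nat_lit 208))) (XT.nd (nat_lit 78) (nat_lit 152) (nat_lit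 0) (XT.lf (nat_lit 0) (nat_lit 8728566366) (nat_lit 228) (nat_lit 2854445762) (nat_lit 76) (nat_lit 1515088686) (nat_lit 22) (nat_lit 5) (nat_lit 25) (nat_lit 5) (nat_lit 23) (nat_lit 4) (nat_lit 278) (nat_lit 235) (nat_lit 207)) (XT.lf (nat_lit 0) (nat_lit 2696191562) (nat_lit 152) (nat_lit 8905047309) (nat_lit 228) (nat_lit 1952496125) (nat_lit 20) (nat_lit 5) (nat_lit 22) (nat_lit 5) (nat_lit 23) (nat_lit 4) (nat_lit 279) (nat_lit 235) (nat_lit 206)))) (XT.nd (nat_lit 156) (nat_lit 228) (nat_lit 0) (XT.nd (nat_lit 78) (nat_lit 0) (nat_lit 0) (XT.lf (nat_lit 0) (nat_lit 553955103) (nat_lit 228) (nat_lit 5509765457) (nat_lit 76) (nat_lit 7968776471) (nat_lit 19) (nat_lit 5) (nat_lit 22) (nat_lit 5) (nat_lit 20) (nat_lit 5) (nat_lit 280) (nat_lit 235) (nat_lit 205)) (XT.lf (nat_lit 0) (nat_lit 3061220177) (nat_lit 228) (nat_lit 15711646) (nat_lit 76) (nat_lit 11459769529) (nat_lit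 19) (nat_lit 5) (nat_lit 22) (nat_lit 5) (nat_lit 20) (nat_lit 5) (nat_lit 281) (nat_lit 235) (nat_lit 204))) (XT.nd (nat_lit 78) (nat_lit 76) (nat_lit 0) (XT.lf (nat_lit 0) (nat_lit 5731156853) (nat_lit 228) (nat_lit 9210876486) (nat_lit 76) (nat_lit 122369503) (nat_lit 17) (nat_lit 5) (nat_lit 20) (nat_lit 5) (nat_lit 18) (nat_lit 4) (nat_lit 282) (nat_lit 235) (nat_lit 203)) (XT.nd (nat_lit 78) (nat_lit 76) (nat_lit 0) (XT.lf (nat_lit 0) (nat_lit 8530132711) (nat_lit 228) (nat_lit 3738075248) (nat_lit 76) (nat_lit 3350649443) (nat_lit 17) (nat_lit 5) (nat_lit 20) (nat_lit 5) (nat_lit 18) (nat_lit 4) (nat_lit 283) (nat_lit 235) (nat_lit 202)) (XT.lf (nat_lit 0) (nat_lit 1990232577) (nat_lit 76) (nat_lit 9457355413) (nat_lit 152) (nat_lit 4754658374) (nat_lit 16) (nat_lit 5) (nat_lit 17) (nat_lit 5) (nat_lit 18) (nat_lit 4) (nat_lit 284) (nat_lit 235) (nat_lit 201))))))))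
noncomputable def xc94 : XT := (XT.nd (nat_lit 1326) (nat_lit 304) (nat_lit 0) (XT.nd (nat_lit 624) (nat_lit 304) (nat_lit 0) (XT.nd (nat_lit 312) (nat_lit 76) (nat_lit 0) (XT.nd (nat_lit 156) (nat_lit 152) (nat_lit 0) (XT.nd (nat_lit 78) (nat_lit 76) (nat_lit 0) (XT.lf (nat_lit 0) (nat_lit 8054219875) (nat_lit 76) (nat_lit 6468704775) (nat_lit 152) (nat_lit 2291411317) (nat_lit 16) (nat_lit 5) (nat_lit 17) (nat_lit 5) (nat_lit 18) (nat_lit 4) (nat_lit 285) (nat_lit 235) (nat_lit 200)) (XT.lf (nat_lit 0) (nat_lit 235779310) (nat_lit 152) (nat_lit 3118673975) (nat_lit 76) (nat_lit 14104954712) (nat_lit 15) (nat_lit 5) (nat_lit 17) (nat_lit 5) (nat_lit 16) (nat_lit 5) (nat_lit 286) (nat_lit 235) (nat_lit 199))) (XT.nd (nat_lit 78) (nat_lit 0) (nat_lit 0) (XT.lf (nat_lit 0) (nat_lit 2781595294) (nat_lit 152) (nat_lit 26749561) (nat_lit 228) (nat_lit 15326823178) (nat_lit 13) (nat_lit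 5) (nat_lit 15) (nat_lit 5) (nat_lit 16) (nat_lit 5) (nat_lit 287) (nat_lit 235) (nat_lit 198)) (XT.lf (nat_lit 0) (nat_lit 5570634057) (nat_lit 228) (nat_lit 9887427246) (nat_lit 76) (nat_lit 3383708285) (nat_lit 13) (nat_lit 5) (nat_lit 16) (nat_lit 5) (nat_lit 14) (nat_lit 4) (nat_lit 288) (nat_lit 235) (nat_lit 197)))) (XT.nd (nat_lit 156) (nat_lit 0) (nat_lit 0) (XT.nd (nat_lit 78) (nat_lit 76) (nat_lit 0) (XT.lf (nat_lit 0) (nat_lit 8426979475) (nat_lit 228) (nat_lit 4220320242) (nat_lit 76) (nat_lit 6938707547) (nat_lit 13) (nat_lit 5) (nat_lit 16) (nat_lit 5) (nat_lit 14) (nat_lit 4) (nat_lit 289) (nat_lit 235) (nat_lit 196)) (XT.lf (nat_lit 0) (nat_lit 1716600972) (nat_lit 76) (nat_lit 9693964276) (nat_lit 152) (nat_lit 8957768639) (nat_lit 12) (nat_lit 5) (nat_lit 13) (nat_lit 5) (nat_lit 14) (nat_lit 4) (nat_lit 290) (nat_lit 235) (nat_lit 195))) (XT.nd (nat_lit 78) (nat_lit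 0) (nat_lit 0) (XT.lf (nat_lit 0) (nat_lit 8029509712) (nat_lit 76) (nat_lit 6543881924) (nat_lit 152) (nat_lit 6614975684) (nat_lit 12) (nat_lit 5) (nat_lit 13) (nat_lit 5) (nat_lit 14) (nat_lit 4) (nat_lit 291) (nat_lit 235) (nat_lit 194)) (XT.lf (nat_lit 0) (nat_lit 14593893864) (nat_lit 76) (nat_lit 3261025630) (nat_lit 152) (nat_lit 4196544009) (nat_lit 12) (nat_lit 5) (nat_lit 13) (nat_lit 5) (nat_lit 14) (nat_lit 4) (nat_lit 292) (nat_lit 235) (nat_lit 193))))) (XT.nd (nat_lit 312) (nat_lit 76) (nat_lit 0) (XT.nd (nat_lit 156) (nat_lit 0) (nat_lit 0) (XT.nd (nat_lit 78) (nat_lit 228) (nat_lit 0) (XT.lf (nat_lit 0) (nat_lit 21265497829) (nat_lit 152) (nat_lit 1536830360) (nat_lit 0) (nat_lit 157222446) (nat_lit 12) (nat_lit 5) (nat_lit 14) (nat_lit 4) (nat_lit 12) (nat_lit 4) (nat_lit 293) (nat_lit 235) (nat_lit 192)) (XT.lf (nat_lit 0) (nat_lit 996090180) (nat_lit 228) (nat_lit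 19206878317) (nat_lit 76) (nat_lit 3704801455) (nat_lit 9) (nat_lit 5) (nat_lit 12) (nat_lit 5) (nat_lit 10) (nat_lit 4) (nat_lit 294) (nat_lit 235) (nat_lit 191))) (XT.nd (nat_lit 78) (nat_lit 0) (nat_lit 0) (XT.lf (nat_lit 0) (nat_lit 3754288583) (nat_lit 228) (nat_lit 13686464737) (nat_lit 76) (nat_lit 7461807662) (nat_lit 9) (nat_lit 5) (nat_lit 12) (nat_lit 5) (nat_lit 10) (nat_lit 4) (nat_lit 295) (nat_lit 235) (nat_lit 190)) (XT.lf (nat_lit 0) (nat_lit 6616135871) (nat_lit 228) (nat_lit 7947195079) (nat_lit 76) (nat_lit 11385543468) (nat_lit 9) (nat_lit 5) (nat_lit 12) (nat_lit 5) (nat_lit 10) (nat_lit 4) (nat_lit 296) (nat_lit 235) (nat_lit 189)))) (XT.nd (nat_lit 156) (nat_lit 0) (nat_lit 0) (XT.nd (nat_lit 78) (nat_lit 76) (nat_lit 0) (XT.lf (nat_lit 0) (nat_lit 9588445965) (nat_lit 228) (nat_lit 1975404417) (nat_lit 76) (nat_lit 15485351100) (nat_lit 9) (nat_lit 5) (nat_lit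 12) (nat_lit 5) (nat_lit 10) (nat_lit 4) (nat_lit 297) (nat_lit 235) (nat_lit 188)) (XT.lf (nat_lit 0) (nat_lit 4383422701) (nat_lit 76) (nat_lit 8363310606) (nat_lit 152) (nat_lit 15456006818) (nat_lit 8) (nat_lit 5) (nat_lit 9) (nat_lit 5) (nat_lit 10) (nat_lit 4) (nat_lit 298) (nat_lit 235) (nat_lit 187))) (XT.nd (nat_lit 78) (nat_lit 0) (nat_lit 0) (XT.lf (nat_lit 0) (nat_lit 11077759066) (nat_lit 76) (nat_lit 4988237942) (nat_lit 152) (nat_lit 13347865889) (nat_lit 8) (nat_lit 5) (nat_lit 9) (nat_lit 5) (nat_lit 10) (nat_lit 4) (nat_lit 299) (nat_lit 235) (nat_lit 186)) (XT.nd (nat_lit 78) (nat_lit 0) (nat_lit 0) (XT.lf (nat_lit 0) (nat_lit 18058227785) (nat_lit 76) (nat_lit 1464050932) (nat_lit 152) (nat_lit 11164767779) (nat_lit 8) (nat_lit 5) (nat_lit 9) (nat_lit 5) (nat_lit 10) (nat_lit 4) (nat_lit 300) (nat_lit 235) (nat_lit 185)) (XT.lf (nat_lit 0) (nat_lit 23158431271)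 (nat_lit 152) (nat_lit 6718496885) (nat_lit 0) (nat_lit 2146662972) (nat_lit 8) (nat_lit 5) (nat_lit 10) (nat_lit 4) (nat_lit 8) (nat_lit 4) (nat_lit 301) (nat_lit 235) (nat_lit 184))))))) (XT.nd (nat_lit 702) (nat_lit 76) (nat_lit 0) (XT.nd (nat_lit 312) (nat_lit 76) (nat_lit 0) (XT.nd (nat_lit 156) (nat_lit 76) (nat_lit 0) (XT.nd (nat_lit 78) (nat_lit 76) (nat_lit 0) (XT.lf (nat_lit 0) (nat_lit 26973860039) (nat_lit 152) (nat_lit 581814022) (nat_lit 0) (nat_lit 5871467588) (nat_lit 8) (nat_lit 5) (nat_lit 10) (nat_lit 4) (nat_lit 8) (nat_lit 4) (nat_lit 302) (nat_lit 235) (nat_lit 183)) (XT.lf (nat_lit 0) (nat_lit 6011091430) (nat_lit 76) (nat_lit 25037549991) (nat_lit 76) (nat_lit 3848848824) (nat_lit 7) (nat_lit 4) (nat_lit 8) (nat_lit 5) (nat_lit 8) (nat_lit 4) (nat_lit 303) (nat_lit 235) (nat_lit 182))) (XT.nd (nat_lit 78) (nat_lit 76) (nat_lit 0) (XT.lf (nat_lit 0) (nat_lit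 12911531020) (nat_lit 76) (nat_lit 22400758041) (nat_lit 76) (nat_lit 1129858097) (nat_lit 7) (nat_lit 4) (nat_lit 8) (nat_lit 5) (nat_lit 8) (nat_lit 4) (nat_lit 304) (nat_lit 235) (nat_lit 181)) (XT.lf (nat_lit 0) (nat_lit 1645890484) (nat_lit 152) (nat_lit 17975109000) (nat_lit 76) (nat_lit 18442932530) (nat_lit 6) (nat_lit 5) (nat_lit 8) (nat_lit 5) (nat_lit 7) (nat_lit 4) (nat_lit 305) (nat_lit 235) (nat_lit 180)))) (XT.nd (nat_lit 156) (nat_lit 76) (nat_lit 0) (XT.nd (nat_lit 78) (nat_lit 0) (nat_lit 0) (XT.lf (nat_lit 0) (nat_lit 4499619396) (nat_lit 152) (nat_lit 12199521443) (nat_lit 76) (nat_lit 23067921795) (nat_lit 6) (nat_lit 5) (nat_lit 8) (nat_lit 5) (nat_lit 7) (nat_lit 4) (nat_lit 306) (nat_lit 235) (nat_lit 179)) (XT.lf (nat_lit 0) (nat_lit 7474285748) (nat_lit 152) (nat_lit 6172461816) (nat_lit 76) (nat_lit 27909728540) (nat_lit 6) (nat_lit 5) (nat_lit 8) (nat_lit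 5) (nat_lit 7) (nat_lit 4) (nat_lit 307) (nat_lit 235) (nat_lit 178))) (XT.nd (nat_lit 78) (nat_lit 0) (nat_lit 0) (XT.lf (nat_lit 0) (nat_lit 124401652) (nat_lit 76) (nat_lit 10454512684) (nat_lit 152) (nat_lit 32857421485) (nat_lit 5) (nat_lit 5) (nat_lit 6) (nat_lit 5) (nat_lit 7) (nat_lit 4) (nat_lit 308) (nat_lit 235) (nat_lit 177)) (XT.nd (nat_lit 78) (nat_lit 0) (nat_lit 0) (XT.lf (nat_lit 0) (nat_lit 6915444537) (nat_lit 76) (nat_lit 7007590666) (nat_lit 152) (nat_lit 31482975531) (nat_lit 5) (nat_lit 5) (nat_lit 6) (nat_lit 5) (nat_lit 7) (nat_lit 4) (nat_lit 309) (nat_lit 235) (nat_lit 176)) (XT.lf (nat_lit 0) (nat_lit 14012746527) (nat_lit 76) (nat_lit 3402308180) (nat_lit 152) (nat_lit 30060113634) (nat_lit 5) (nat_lit 5) (nat_lit 6) (nat_lit 5) (nat_lit 7) (nat_lit 4) (nat_lit 310) (nat_lit 235) (nat_lit 175)))))) (XT.nd (nat_lit 312) (nat_lit 76) (nat_lit 0) (XT.nd (nat_lit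 156) (nat_lit 0) (nat_lit 0) (XT.nd (nat_lit 78) (nat_lit 0) (nat_lit 0) (XT.lf (nat_lit 0) (nat_lit 21069062649) (nat_lit 152) (nat_lit 28221304716) (nat_lit 0) (nat_lit 358079067) (nat_lit 5) (nat_lit 5) (nat_lit 7) (nat_lit 4) (nat_lit 5) (nat_lit 4) (nat_lit 311) (nat_lit 235) (nat_lit 174)) (XT.lf (nat_lit 0) (nat_lit 24943836088) (nat_lit 152) (nat_lit 22804813096) (nat_lit 0) (nat_lit 4179866442) (nat_lit 5) (nat_lit 5) (nat_lit 7) (nat_lit 4) (nat_lit 5) (nat_lit 4) (nat_lit 312) (nat_lit 235) (nat_lit 173))) (XT.nd (nat_lit 78) (nat_lit 0) (nat_lit 0) (XT.lf (nat_lit 0) (nat_lit 28995481113) (nat_lit 152) (nat_lit 17146930979) (nat_lit 0) (nat_lit 8181048548) (nat_lit 5) (nat_lit 5) (nat_lit 7) (nat_lit 4) (nat_lit 5) (nat_lit 4) (nat_lit 313) (nat_lit 235) (nat_lit 172)) (XT.lf (nat_lit 0) (nat_lit 33233644496) (nat_lit 152) (nat_lit 11234187218) (nat_lit 0) (nat_lit 12371152008)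 (nat_lit 5) (nat_lit 5) (nat_lit 7) (nat_lit 4) (nat_lit 5) (nat_lit 4) (nat_lit 314) (nat_lit 235) (nat_lit 171)))) (XT.nd (nat_lit 156) (nat_lit 0) (nat_lit 0) (XT.nd (nat_lit 78) (nat_lit 76) (nat_lit 0) (XT.lf (nat_lit 0) (nat_lit 37668417102) (nat_lit 152) (nat_lit 5052503852) (nat_lit 0) (nat_lit 16760153260) (nat_lit 5) (nat_lit 5) (nat_lit 7) (nat_lit 4) (nat_lit 5) (nat_lit 4) (nat_lit 315) (nat_lit 235) (nat_lit 170)) (XT.lf (nat_lit 0) (nat_lit 1459552198) (nat_lit 76) (nat_lit 40873593415) (nat_lit 76) (nat_lit 19921737807) (nat_lit 4) (nat_lit 4) (nat_lit 5) (nat_lit 5) (nat_lit 5) (nat_lit 4) (nat_lit 316) (nat_lit 235) (nat_lit 169))) (XT.nd (nat_lit 78) (nat_lit 0) (nat_lit 0) (XT.lf (nat_lit 0) (nat_lit 8447606409) (nat_lit 76) (nat_lit 38854803573) (nat_lit 76) (nat_lit 17861431996) (nat_lit 4) (nat_lit 4) (nat_lit 5) (nat_lit 5) (nat_lit 5) (nat_lit 4) (nat_lit 317)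 (nat_lit 235) (nat_lit 168)) (XT.nd (nat_lit 78) (nat_lit 0) (nat_lit 0) (XT.lf (nat_lit 0) (nat_lit 15761238409) (nat_lit 76) (nat_lit 36745311382) (nat_lit 76) (nat_lit 15712400788) (nat_lit 4) (nat_lit 4) (nat_lit 5) (nat_lit 5) (nat_lit 5) (nat_lit 4) (nat_lit 318) (nat_lit 235) (nat_lit 167)) (XT.lf (nat_lit 0) (nat_lit 23417861607) (nat_lit 76) (nat_lit 34540094242) (nat_lit 76) (nat_lit 13469527441) (nat_lit 4) (nat_lit 4) (nat_lit 5) (nat_lit 5) (nat_lit 5) (nat_lit 4) (nat_lit 319) (nat_lit 235) (nat_lit 166))))))))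
noncomputable def xc95 : XT := (XT.nd (nat_lit 1326) (nat_lit 0) (nat_lit 0) (XT.nd (nat_lit 624) (nat_lit 76) (nat_lit 0) (XT.nd (nat_lit 312) (nat_lit 76) (nat_lit 0) (XT.nd (nat_lit 156) (nat_lit 0) (nat_lit 0) (XT.nd (nat_lit 78) (nat_lit 0) (nat_lit 0) (XT.lf (nat_lit 0) (nat_lit 31435706058) (nat_lit 76) (nat_lit 32233901636) (nat_lit 76) (nat_lit 11127471781) (nat_lit 4) (nat_lit 4) (nat_lit 5) (nat_lit 5) (nat_lit 5) (nat_lit 4) (nat_lit 320) (nat_lit 235) (nat_lit 165)) (XT.lf (nat_lit 0) (nat_lit 39833861869) (nat_lit 76) (nat_lit 29821242629) (nat_lit 76) (nat_lit 8680657485) (nat_lit 4) (nat_lit 4) (nat_lit 5) (nat_lit 5) (nat_lit 5) (nat_lit 4) (nat_lit 321) (nat_lit 235) (nat_lit 164))) (XT.nd (nat_lit 78) (nat_lit 0) (nat_lit 0) (XT.lf (nat_lit 0) (nat_lit 48632324648) (nat_lit 76) (nat_lit 27296372795) (nat_lit 76) (nat_lit 6123258803) (nat_lit 4) (nat_lit 4) (nat_lit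 5) (nat_lit 5) (nat_lit 5) (nat_lit 4) (nat_lit 322) (nat_lit 235) (nat_lit 163)) (XT.lf (nat_lit 0) (nat_lit 57852043116) (nat_lit 76) (nat_lit 24653280540) (nat_lit 76) (nat_lit 3449186693) (nat_lit 4) (nat_lit 4) (nat_lit 5) (nat_lit 5) (nat_lit 5) (nat_lit 4) (nat_lit 323) (nat_lit 235) (nat_lit 162)))) (XT.nd (nat_lit 156) (nat_lit 0) (nat_lit 0) (XT.nd (nat_lit 78) (nat_lit 76) (nat_lit 0) (XT.lf (nat_lit 0) (nat_lit 67514968985) (nat_lit 76) (nat_lit 21885672786) (nat_lit 76) (nat_lit 652074316) (nat_lit 4) (nat_lit 4) (nat_lit 5) (nat_lit 5) (nat_lit 5) (nat_lit 4) (nat_lit 324) (nat_lit 235) (nat_lit 161)) (XT.lf (nat_lit 0) (nat_lit 2201932294) (nat_lit 152) (nat_lit 16747736907) (nat_lit 76) (nat_lit 75404886136) (nat_lit 3) (nat_lit 5) (nat_lit 5) (nat_lit 5) (nat_lit 4) (nat_lit 4) (nat_lit 325) (nat_lit 235) (nat_lit 160))) (XT.nd (nat_lit 78) (nat_lit 0) (nat_lit 0)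 (XT.lf (nat_lit 0) (nat_lit 5167362864) (nat_lit 152) (nat_lit 10695365803) (nat_lit 76) (nat_lit 83008706166) (nat_lit 3) (nat_lit 5) (nat_lit 5) (nat_lit 5) (nat_lit 4) (nat_lit 4) (nat_lit 326) (nat_lit 235) (nat_lit 159)) (XT.lf (nat_lit 0) (nat_lit 8272148391) (nat_lit 152) (nat_lit 4356042674) (nat_lit 76) (nat_lit 90986427018) (nat_lit 3) (nat_lit 5) (nat_lit 5) (nat_lit 5) (nat_lit 4) (nat_lit 4) (nat_lit 327) (nat_lit 235) (nat_lit 158))))) (XT.nd (nat_lit 312) (nat_lit 0) (nat_lit 0) (XT.nd (nat_lit 156) (nat_lit 0) (nat_lit 0) (XT.nd (nat_lit 78) (nat_lit 0) (nat_lit 0) (XT.lf (nat_lit 0) (nat_lit 2360889307) (nat_lit 76) (nat_lit 9199652015) (nat_lit 152) (nat_lit 97033014056) (nat_lit 2) (nat_lit 5) (nat_lit 3) (nat_lit 5) (nat_lit 4) (nat_lit 4) (nat_lit 328) (nat_lit 235) (nat_lit 157)) (XT.lf (nat_lit 0) (nat_lit 9550220001) (nat_lit 76) (nat_lit 5528588803) (nat_lit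 152) (nat_lit 98739370641) (nat_lit 2) (nat_lit 5) (nat_lit 3) (nat_lit 5) (nat_lit 4) (nat_lit 4) (nat_lit 329) (nat_lit 235) (nat_lit 156))) (XT.nd (nat_lit 78) (nat_lit 0) (nat_lit 0) (XT.lf (nat_lit 0) (nat_lit 17085036418) (nat_lit 76) (nat_lit 1680032494) (nat_lit 152) (nat_lit 100539373894) (nat_lit 2) (nat_lit 5) (nat_lit 3) (nat_lit 5) (nat_lit 4) (nat_lit 4) (nat_lit 330) (nat_lit 235) (nat_lit 155)) (XT.lf (nat_lit 0) (nat_lit 22664869419) (nat_lit 152) (nat_lit 100118900357) (nat_lit 0) (nat_lit 2279799668) (nat_lit 2) (nat_lit 5) (nat_lit 4) (nat_lit 4) (nat_lit 2) (nat_lit 4) (nat_lit 331) (nat_lit 235) (nat_lit 154)))) (XT.nd (nat_lit 156) (nat_lit 0) (nat_lit 0) (XT.nd (nat_lit 78) (nat_lit 0) (nat_lit 0) (XT.lf (nat_lit 0) (nat_lit 26779931296) (nat_lit 152) (nat_lit 97953875879) (nat_lit 0) (nat_lit 6375842602) (nat_lit 2) (nat_lit 5) (nat_lit 4) (nat_lit 4) (nat_lit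 2) (nat_lit 4) (nat_lit 332) (nat_lit 235) (nat_lit 153)) (XT.lf (nat_lit 0) (nat_lit 31093822295) (nat_lit 152) (nat_lit 95692948119) (nat_lit 0) (nat_lit 10671620322) (nat_lit 2) (nat_lit 5) (nat_lit 4) (nat_lit 4) (nat_lit 2) (nat_lit 4) (nat_lit 333) (nat_lit 235) (nat_lit 152))) (XT.nd (nat_lit 78) (nat_lit 0) (nat_lit 0) (XT.lf (nat_lit 0) (nat_lit 35616813586) (nat_lit 152) (nat_lit 93330733916) (nat_lit 0) (nat_lit 15177360870) (nat_lit 2) (nat_lit 5) (nat_lit 4) (nat_lit 4) (nat_lit 2) (nat_lit 4) (nat_lit 334) (nat_lit 235) (nat_lit 151)) (XT.nd (nat_lit 78) (nat_lit 0) (nat_lit 0) (XT.lf (nat_lit 0) (nat_lit 40359674194) (nat_lit 152) (nat_lit 90861608950) (nat_lit 0) (nat_lit 19903792200) (nat_lit 2) (nat_lit 5) (nat_lit 4) (nat_lit 4) (nat_lit 2) (nat_lit 4) (nat_lit 335) (nat_lit 235) (nat_lit 150)) (XT.lf (nat_lit 0) (nat_lit 45333696646) (nat_lit 152) (nat_lit 88279694352)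 (nat_lit 0) (nat_lit 24862167720) (nat_lit 2) (nat_lit 5) (nat_lit 4) (nat_lit 4) (nat_lit 2) (nat_lit 4) (nat_lit 336) (nat_lit 235) (nat_lit 149))))))) (XT.nd (nat_lit 702) (nat_lit 0) (nat_lit 0) (XT.nd (nat_lit 312) (nat_lit 0) (nat_lit 0) (XT.nd (nat_lit 156) (nat_lit 0) (nat_lit 0) (XT.nd (nat_lit 78) (nat_lit 0) (nat_lit 0) (XT.lf (nat_lit 0) (nat_lit 50550723851) (nat_lit 152) (nat_lit 85578842707) (nat_lit 0) (nat_lit 30064293086) (nat_lit 2) (nat_lit 5) (nat_lit 4) (nat_lit 4) (nat_lit 2) (nat_lit 4) (nat_lit 337) (nat_lit 235) (nat_lit 148)) (XT.lf (nat_lit 0) (nat_lit 56023177304) (nat_lit 152) (nat_lit 82752623415) (nat_lit 0) (nat_lit 35522554311) (nat_lit 2) (nat_lit 5) (nat_lit 4) (nat_lit 4) (nat_lit 2) (nat_lit 4) (nat_lit 338) (nat_lit 235) (nat_lit 147))) (XT.nd (nat_lit 78) (nat_lit 0) (nat_lit 0) (XT.lf (nat_lit 0) (nat_lit 61764086655) (nat_lit 152) (nat_lit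 79794307382) (nat_lit 0) (nat_lit 41249947254) (nat_lit 2) (nat_lit 5) (nat_lit 4) (nat_lit 4) (nat_lit 2) (nat_lit 4) (nat_lit 339) (nat_lit 235) (nat_lit 146)) (XT.lf (nat_lit 0) (nat_lit 67787120736) (nat_lit 152) (nat_lit 76696851001) (nat_lit 0) (nat_lit 47260108565) (nat_lit 2) (nat_lit 5) (nat_lit 4) (nat_lit 4) (nat_lit 2) (nat_lit 4) (nat_lit 340) (nat_lit 235) (nat_lit 145)))) (XT.nd (nat_lit 156) (nat_lit 0) (nat_lit 0) (XT.nd (nat_lit 78) (nat_lit 0) (nat_lit 0) (XT.lf (nat_lit 0) (nat_lit 74106620105) (nat_lit 152) (nat_lit 73452879373) (nat_lit 0) (nat_lit 53567348153) (nat_lit 2) (nat_lit 5) (nat_lit 4) (nat_lit 4) (nat_lit 2) (nat_lit 4) (nat_lit 341) (nat_lit 235) (nat_lit 144)) (XT.lf (nat_lit 0) (nat_lit 80737631188) (nat_lit 152) (nat_lit 70054668757) (nat_lit 0) (nat_lit 60186683255) (nat_lit 2) (nat_lit 5) (nat_lit 4) (nat_lit 4) (nat_lit 2) (nat_lit 4) (nat_lit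 342) (nat_lit 235) (nat_lit 143))) (XT.nd (nat_lit 78) (nat_lit 0) (nat_lit 0) (XT.lf (nat_lit 0) (nat_lit 87695942107) (nat_lit 152) (nat_lit 66494128176) (nat_lit 0) (nat_lit 67133874192) (nat_lit 2) (nat_lit 5) (nat_lit 4) (nat_lit 4) (nat_lit 2) (nat_lit 4) (nat_lit 343) (nat_lit 235) (nat_lit 142)) (XT.nd (nat_lit 78) (nat_lit 0) (nat_lit 0) (XT.lf (nat_lit 0) (nat_lit 94998120269) (nat_lit 152) (nat_lit 62762780151) (nat_lit 0) (nat_lit 74425461895) (nat_lit 2) (nat_lit 5) (nat_lit 4) (nat_lit 4) (nat_lit 2) (nat_lit 4) (nat_lit 344) (nat_lit 235) (nat_lit 141)) (XT.lf (nat_lit 0) (nat_lit 102661551812) (nat_lit 152) (nat_lit 58851740522) (nat_lit 0) (nat_lit 82078807286) (nat_lit 2) (nat_lit 5) (nat_lit 4) (nat_lit 4) (nat_lit 2) (nat_lit 4) (nat_lit 345) (nat_lit 235) (nat_lit 140)))))) (XT.nd (nat_lit 312) (nat_lit 0) (nat_lit 0) (XT.nd (nat_lit 156) (nat_lit 0) (nat_lit 0)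 (XT.nd (nat_lit 78) (nat_lit 0) (nat_lit 0) (XT.lf (nat_lit 0) (nat_lit 110704483003) (nat_lit 152) (nat_lit 54751697288) (nat_lit 0) (nat_lit 90112132618) (nat_lit 2) (nat_lit 5) (nat_lit 4) (nat_lit 4) (nat_lit 2) (nat_lit 4) (nat_lit 346) (nat_lit 235) (nat_lit 139)) (XT.lf (nat_lit 0) (nat_lit 119146063677) (nat_lit 152) (nat_lit 50452888442) (nat_lit 0) (nat_lit 98544564855) (nat_lit 2) (nat_lit 5) (nat_lit 4) (nat_lit 4) (nat_lit 2) (nat_lit 4) (nat_lit 347) (nat_lit 235) (nat_lit 138))) (XT.nd (nat_lit 78) (nat_lit 0) (nat_lit 0) (XT.lf (nat_lit 0) (nat_lit 128006392836) (nat_lit 152) (nat_lit 45945078725) (nat_lit 0) (nat_lit 107396181217) (nat_lit 2) (nat_lit 5) (nat_lit 4) (nat_lit 4) (nat_lit 2) (nat_lit 4) (nat_lit 348) (nat_lit 235) (nat_lit 137)) (XT.lf (nat_lit 0) (nat_lit 137306566502) (nat_lit 152) (nat_lit 41217535257) (nat_lit 0) (nat_lit 116688056981) (nat_lit 2)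 (nat_lit 5) (nat_lit 4) (nat_lit 4) (nat_lit 2) (nat_lit 4) (nat_lit 349) (nat_lit 235) (nat_lit 136)))) (XT.nd (nat_lit 156) (nat_lit 0) (nat_lit 0) (XT.nd (nat_lit 78) (nat_lit 0) (nat_lit 0) (XT.lf (nat_lit 0) (nat_lit 147068727945) (nat_lit 152) (nat_lit 36259001982) (nat_lit 0) (nat_lit 126442315660) (nat_lit 2) (nat_lit 5) (nat_lit 4) (nat_lit 4) (nat_lit 2) (nat_lit 4) (nat_lit 350) (nat_lit 235) (nat_lit 135)) (XT.lf (nat_lit 0) (nat_lit 157316120406) (nat_lit 152) (nat_lit 31057672867) (nat_lit 0) (nat_lit 136682181680) (nat_lit 2) (nat_lit 5) (nat_lit 4) (nat_lit 4) (nat_lit 2) (nat_lit 4) (nat_lit 351) (nat_lit 235) (nat_lit 134))) (XT.nd (nat_lit 78) (nat_lit 0) (nat_lit 0) (XT.lf (nat_lit 0) (nat_lit 168073142440) (nat_lit 152) (nat_lit 25601163797) (nat_lit 0) (nat_lit 147432035674) (nat_lit 2) (nat_lit 5) (nat_lit 4) (nat_lit 4) (nat_lit 2) (nat_lit 4) (nat_lit 352)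 (nat_lit 235) (nat_lit 133)) (XT.nd (nat_lit 78) (nat_lit 0) (nat_lit 0) (XT.lf (nat_lit 0) (nat_lit 179365406004) (nat_lit 152) (nat_lit 19876483083) (nat_lit 0) (nat_lit 158717472534) (nat_lit 2) (nat_lit 5) (nat_lit 4) (nat_lit 4) (nat_lit 2) (nat_lit 4) (nat_lit 353) (nat_lit 235) (nat_lit 132)) (XT.lf (nat_lit 0) (nat_lit 191219797439) (nat_lit 152) (nat_lit 13870000533) (nat_lit 0) (nat_lit 170565362345) (nat_lit 2) (nat_lit 5) (nat_lit 4) (nat_lit 4) (nat_lit 2) (nat_lit 4) (nat_lit 354) (nat_lit 235) (nat_lit 131))))))))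
noncomputable def xc96 : XT := (XT.nd (nat_lit 29952) (nat_lit 0) (nat_lit 1976) (XT.nd (nat_lit 29250) (nat_lit 0) (nat_lit 5016) (XT.nd (nat_lit 312) (nat_lit 0) (nat_lit 0) (XT.nd (nat_lit 156) (nat_lit 76) (nat_lit 0) (XT.nd (nat_lit 78) (nat_lit 0) (nat_lit 0) (XT.lf (nat_lit 0) (nat_lit 203664541487) (nat_lit 152) (nat_lit 7567414998) (nat_lit 0) (nat_lit 183003914371) (nat_lit 2) (nat_lit 5) (nat_lit 4) (nat_lit 4) (nat_lit 2) (nat_lit 4) (nat_lit 355) (nat_lit 235) (nat_lit 130)) (XT.lf (nat_lit 0) (nat_lit 216729268491) (nat_lit 152) (nat_lit 953720321) (nat_lit 0) (nat_lit 196062744211) (nat_lit 2) (nat_lit 5) (nat_lit 4) (nat_lit 4) (nat_lit 2) (nat_lit 4) (nat_lit 356) (nat_lit 235) (nat_lit 129))) (XT.nd (nat_lit 78) (nat_lit 0) (nat_lit 0) (XT.lf (nat_lit 0) (nat_lit 6184782038) (nat_lit 76) (nat_lit 224356864685) (nat_lit 76) (nat_lit 203684724058) (nat_lit 1) (nat_lit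 4) (nat_lit 2) (nat_lit 5) (nat_lit 2) (nat_lit 4) (nat_lit 357) (nat_lit 235) (nat_lit 128)) (XT.lf (nat_lit 0) (nat_lit 13709553584) (nat_lit 76) (nat_lit 231349138518) (nat_lit 76) (nat_lit 210671648989) (nat_lit 1) (nat_lit 4) (nat_lit 2) (nat_lit 5) (nat_lit 2) (nat_lit 4) (nat_lit 358) (nat_lit 235) (nat_lit 127)))) (XT.nd (nat_lit 156) (nat_lit 0) (nat_lit 0) (XT.nd (nat_lit 78) (nat_lit 0) (nat_lit 0) (XT.lf (nat_lit 0) (nat_lit 21606976139) (nat_lit 76) (nat_lit 238692610296) (nat_lit 76) (nat_lit 218010026575) (nat_lit 1) (nat_lit 4) (nat_lit 2) (nat_lit 5) (nat_lit 2) (nat_lit 4) (nat_lit 359) (nat_lit 235) (nat_lit 126)) (XT.lf (nat_lit 0) (nat_lit 29895853090) (nat_lit 76) (nat_lit 246404764476) (nat_lit 76) (nat_lit 225717329144) (nat_lit 1) (nat_lit 4) (nat_lit 2) (nat_lit 5) (nat_lit 2) (nat_lit 4) (nat_lit 360) (nat_lit 235) (nat_lit 125))) (XT.nd (nat_lit 28704) (nat_lit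 0) (nat_lit 7600) (XT.lf (nat_lit 0) (nat_lit 38595919857) (nat_lit 76) (nat_lit 254503963330) (nat_lit 76) (nat_lit 233811907416) (nat_lit 1) (nat_lit 4) (nat_lit 2) (nat_lit 5) (nat_lit 2) (nat_lit 4) (nat_lit 361) (nat_lit 235) (nat_lit 124)) (XT.lf (nat_lit 0) (nat_lit 2918170783) (nat_lit 228) (nat_lit 202909074) (nat_lit 228) (nat_lit 202909074) (nat_lit 101) (nat_lit 4) (nat_lit 104) (nat_lit 5) (nat_lit 104) (nat_lit 4) (nat_lit 248) (nat_lit 236) (nat_lit 236))))) (XT.nd (nat_lit 312) (nat_lit 1292) (nat_lit 0) (XT.nd (nat_lit 156) (nat_lit 912) (nat_lit 0) (XT.nd (nat_lit 78) (nat_lit 0) (nat_lit 0) (XT.lf (nat_lit 0) (nat_lit 2383387861) (nat_lit 380) (nat_lit 3896807585) (nat_lit 0) (nat_lit 423777190) (nat_lit 96) (nat_lit 5) (nat_lit 101) (nat_lit 4) (nat_lit 96) (nat_lit 4) (nat_lit 249) (nat_lit 236) (nat_lit 235)) (XT.lf (nat_lit 0) (nat_lit 5165554917) (nat_lit 380)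 (nat_lit 264946963) (nat_lit 0) (nat_lit 1339648368) (nat_lit 96) (nat_lit 5) (nat_lit 101) (nat_lit 4) (nat_lit 96) (nat_lit 4) (nat_lit 250) (nat_lit 236) (nat_lit 234))) (XT.nd (nat_lit 78) (nat_lit 456) (nat_lit 0) (XT.lf (nat_lit 0) (nat_lit 1113944193) (nat_lit 456) (nat_lit 3319745598) (nat_lit 76) (nat_lit 2410612868) (nat_lit 90) (nat_lit 5) (nat_lit 96) (nat_lit 5) (nat_lit 91) (nat_lit 4) (nat_lit 251) (nat_lit 236) (nat_lit 233)) (XT.lf (nat_lit 0) (nat_lit 456754573) (nat_lit 456) (nat_lit 3325133789) (nat_lit 532) (nat_lit 3146515580) (nat_lit 84) (nat_lit 5) (nat_lit 90) (nat_lit 5) (nat_lit 91) (nat_lit 4) (nat_lit 252) (nat_lit 236) (nat_lit 232)))) (XT.nd (nat_lit 156) (nat_lit 684) (nat_lit 0) (XT.nd (nat_lit 78) (nat_lit 608) (nat_lit 0) (XT.lf (nat_lit 0) (nat_lit 4417023785) (nat_lit 456) (nat_lit 2083130802) (nat_lit 532) (nat_lit 521591960) (nat_lit 84) (nat_lit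 5) (nat_lit 90) (nat_lit 5) (nat_lit 91) (nat_lit 4) (nat_lit 253) (nat_lit 236) (nat_lit 231)) (XT.lf (nat_lit 0) (nat_lit 1343805617) (nat_lit 532) (nat_lit 704580483) (nat_lit 608) (nat_lit 5076159799) (nat_lit 76) (nat_lit 5) (nat_lit 83) (nat_lit 5) (nat_lit 84) (nat_lit 5) (nat_lit 254) (nat_lit 236) (nat_lit 230))) (XT.nd (nat_lit 78) (nat_lit 684) (nat_lit 0) (XT.lf (nat_lit 0) (nat_lit 4654939266) (nat_lit 608) (nat_lit 1796413562) (nat_lit 76) (nat_lit 785186938) (nat_lit 76) (nat_lit 5) (nat_lit 84) (nat_lit 5) (nat_lit 77) (nat_lit 4) (nat_lit 255) (nat_lit 236) (nat_lit 229)) (XT.nd (nat_lit 78) (nat_lit 76) (nat_lit 0) (XT.lf (nat_lit 0) (nat_lit 2330697867) (nat_lit 608) (nat_lit 4984462407) (nat_lit 684) (nat_lit 43532079) (nat_lit 68) (nat_lit 5) (nat_lit 76) (nat_lit 5) (nat_lit 77) (nat_lit 4) (nat_lit 256) (nat_lit 236) (nat_lit 228)) (XT.lf (nat_lit 0) (nat_lit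 2445313384) (nat_lit 684) (nat_lit 922607122) (nat_lit 76) (nat_lit 4122255392) (nat_lit 67) (nat_lit 5) (nat_lit 76) (nat_lit 5) (nat_lit 68) (nat_lit 5) (nat_lit 257) (nat_lit 236) (nat_lit 227))))))) (XT.nd (nat_lit 624) (nat_lit 1064) (nat_lit 0) (XT.nd (nat_lit 312) (nat_lit 608) (nat_lit 0) (XT.nd (nat_lit 156) (nat_lit 380) (nat_lit 0) (XT.nd (nat_lit 78) (nat_lit 304) (nat_lit 0) (XT.lf (nat_lit 0) (nat_lit 3379027631) (nat_lit 684) (nat_lit 1613584893) (nat_lit 760) (nat_lit 2639438873) (nat_lit 58) (nat_lit 5) (nat_lit 67) (nat_lit 5) (nat_lit 68) (nat_lit 5) (nat_lit 258) (nat_lit 236) (nat_lit 226)) (XT.lf (nat_lit 0) (nat_lit 23634328) (nat_lit 304) (nat_lit 7549956374) (nat_lit 380) (nat_lit 212711574) (nat_lit 54) (nat_lit 5) (nat_lit 58) (nat_lit 5) (nat_lit 59) (nat_lit 4) (nat_lit 259) (nat_lit 236) (nat_lit 225))) (XT.nd (nat_lit 78) (nat_lit 304) (nat_lit 0) (XT.lf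 (nat_lit 0) (nat_lit 2247958933) (nat_lit 380) (nat_lit 3470118717) (nat_lit 76) (nat_lit 2229539124) (nat_lit 53) (nat_lit 5) (nat_lit 58) (nat_lit 5) (nat_lit 54) (nat_lit 5) (nat_lit 260) (nat_lit 236) (nat_lit 224)) (XT.lf (nat_lit 0) (nat_lit 946590859) (nat_lit 304) (nat_lit 3785743206) (nat_lit 380) (nat_lit 3389613578) (nat_lit 49) (nat_lit 5) (nat_lit 53) (nat_lit 5) (nat_lit 54) (nat_lit 5) (nat_lit 261) (nat_lit 236) (nat_lit 223)))) (XT.nd (nat_lit 156) (nat_lit 304) (nat_lit 0) (XT.nd (nat_lit 78) (nat_lit 304) (nat_lit 0) (XT.lf (nat_lit 0) (nat_lit 5589225303) (nat_lit 304) (nat_lit 1706803270) (nat_lit 380) (nat_lit 1011702860) (nat_lit 49) (nat_lit 5) (nat_lit 53) (nat_lit 5) (nat_lit 54) (nat_lit 5) (nat_lit 262) (nat_lit 236) (nat_lit 222)) (XT.lf (nat_lit 0) (nat_lit 1374287552) (nat_lit 304) (nat_lit 6629102710) (nat_lit 76) (nat_lit 501864704) (nat_lit 45) (nat_lit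 5) (nat_lit 49) (nat_lit 5) (nat_lit 46) (nat_lit 5) (nat_lit 263) (nat_lit 236) (nat_lit 221))) (XT.nd (nat_lit 78) (nat_lit 304) (nat_lit 0) (XT.lf (nat_lit 0) (nat_lit 3822383534) (nat_lit 304) (nat_lit 2077677238) (nat_lit 76) (nat_lit 2813348843) (nat_lit 45) (nat_lit 5) (nat_lit 49) (nat_lit 5) (nat_lit 46) (nat_lit 5) (nat_lit 264) (nat_lit 236) (nat_lit 220)) (XT.lf (nat_lit 0) (nat_lit 2675595198) (nat_lit 304) (nat_lit 3665759376) (nat_lit 380) (nat_lit 2593598191) (nat_lit 41) (nat_lit 5) (nat_lit 45) (nat_lit 5) (nat_lit 46) (nat_lit 5) (nat_lit 265) (nat_lit 236) (nat_lit 219))))) (XT.nd (nat_lit 312) (nat_lit 532) (nat_lit 0) (XT.nd (nat_lit 156) (nat_lit 228) (nat_lit 0) (XT.nd (nat_lit 78) (nat_lit 304) (nat_lit 0) (XT.lf (nat_lit 0) (nat_lit 7629099585) (nat_lit 304) (nat_lit 1301790186) (nat_lit 380) (nat_lit 239837554) (nat_lit 41) (nat_lit 5) (nat_lit 45) (nat_lit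 5) (nat_lit 46) (nat_lit 5) (nat_lit 266) (nat_lit 236) (nat_lit 218)) (XT.lf (nat_lit 0) (nat_lit 2144452140) (nat_lit 304) (nat_lit 6060575135) (nat_lit 76) (nat_lit 1212657163) (nat_lit 37) (nat_lit 5) (nat_lit 41) (nat_lit 5) (nat_lit 38) (nat_lit 5) (nat_lit 267) (nat_lit 236) (nat_lit 217))) (XT.nd (nat_lit 78) (nat_lit 228) (nat_lit 0) (XT.lf (nat_lit 0) (nat_lit 4601966841) (nat_lit 304) (nat_lit 1257239155) (nat_lit 76) (nat_lit 3819815894) (nat_lit 37) (nat_lit 5) (nat_lit 41) (nat_lit 5) (nat_lit 38) (nat_lit 5) (nat_lit 268) (nat_lit 236) (nat_lit 216)) (XT.lf (nat_lit 0) (nat_lit 3803071761) (nat_lit 228) (nat_lit 3356941742) (nat_lit 304) (nat_lit 2794846667) (nat_lit 34) (nat_lit 5) (nat_lit 37) (nat_lit 5) (nat_lit 38) (nat_lit 5) (nat_lit 269) (nat_lit 236) (nat_lit 215)))) (XT.nd (nat_lit 156) (nat_lit 228) (nat_lit 0) (XT.nd (nat_lit 78) (nat_lit 304) (nat_lit 0)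 (XT.lf (nat_lit 0) (nat_lit 9056824980) (nat_lit 228) (nat_lit 730988957) (nat_lit 304) (nat_lit 459885539) (nat_lit 34) (nat_lit 5) (nat_lit 37) (nat_lit 5) (nat_lit 38) (nat_lit 5) (nat_lit 270) (nat_lit 236) (nat_lit 214)) (XT.lf (nat_lit 0) (nat_lit 1946370756) (nat_lit 304) (nat_lit 6573084160) (nat_lit 76) (nat_lit 2033529672) (nat_lit 30) (nat_lit 5) (nat_lit 34) (nat_lit 5) (nat_lit 31) (nat_lit 5) (nat_lit 271) (nat_lit 236) (nat_lit 213))) (XT.nd (nat_lit 78) (nat_lit 228) (nat_lit 0) (XT.lf (nat_lit 0) (nat_lit 4414530629) (nat_lit 304) (nat_lit 1544952484) (nat_lit 76) (nat_lit 4916082195) (nat_lit 30) (nat_lit 5) (nat_lit 34) (nat_lit 5) (nat_lit 31) (nat_lit 5) (nat_lit 272) (nat_lit 236) (nat_lit 212)) (XT.nd (nat_lit 78) (nat_lit 0) (nat_lit 0) (XT.lf (nat_lit 0) (nat_lit 3756599124) (nat_lit 228) (nat_lit 3236306456) (nat_lit 304) (nat_lit 4222277326) (nat_lit 27)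 (nat_lit 5) (nat_lit 30) (nat_lit 5) (nat_lit 31) (nat_lit 5) (nat_lit 273) (nat_lit 236) (nat_lit 211)) (XT.lf (nat_lit 0) (nat_lit 9280228506) (nat_lit 228) (nat_lit 376203700) (nat_lit 304) (nat_lit 1917773906) (nat_lit 27) (nat_lit 5) (nat_lit 30) (nat_lit 5) (nat_lit 31) (nat_lit 5) (nat_lit 274) (nat_lit 236) (nat_lit 210))))))))
noncomputable def xc97 : XT := (XT.nd (nat_lit 1326) (nat_lit 532) (nat_lit 0) (XT.nd (nat_lit 624) (nat_lit 380) (nat_lit 0) (XT.nd (nat_lit 312) (nat_lit 380) (nat_lit 0) (XT.nd (nat_lit 156) (nat_lit 152) (nat_lit 0) (XT.nd (nat_lit 78) (nat_lit 0) (nat_lit 0) (XT.lf (nat_lit 0) (nat_lit 508319696) (nat_lit 228) (nat_lit 8866887412) (nat_lit 76) (nat_lit 2574674391) (nat_lit 24) (nat_lit 5) (nat_lit 27) (nat_lit 5) (nat_lit 25) (nat_lit 5) (nat_lit 275) (nat_lit 236) (nat_lit 209)) (XT.lf (nat_lit 0) (nat_lit 2970373968) (nat_lit 228) (nat_lit 3668247749)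 (nat_lit 76) (nat_lit 5705395894) (nat_lit 24) (nat_lit 5) (nat_lit 27) (nat_lit 5) (nat_lit 25) (nat_lit 5) (nat_lit 276) (nat_lit 236) (nat_lit 208))) (XT.nd (nat_lit 78) (nat_lit 0) (nat_lit 0) (XT.lf (nat_lit 0) (nat_lit 1755006888) (nat_lit 152) (nat_lit 3764545586) (nat_lit 228) (nat_lit 7240301447) (nat_lit 22) (nat_lit 5) (nat_lit 24) (nat_lit 5) (nat_lit 25) (nat_lit 5) (nat_lit 277) (nat_lit 236) (nat_lit 207)) (XT.lf (nat_lit 0) (nat_lit 7486764965) (nat_lit 152) (nat_lit 709782139) (nat_lit 228) (nat_lit 5000102288) (nat_lit 22) (nat_lit 5) (nat_lit 24) (nat_lit 5) (nat_lit 25) (nat_lit 5) (nat_lit 278) (nat_lit 236) (nat_lit 206)))) (XT.nd (nat_lit 156) (nat_lit 228) (nat_lit 0) (XT.nd (nat_lit 78) (nat_lit 152) (nat_lit 0) (XT.lf (nat_lit 0) (nat_lit 10987142767) (nat_lit 228) (nat_lit 277593992) (nat_lit 76) (nat_lit 2391736701) (nat_lit 22) (nat_lit 5) (nat_lit 25)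 (nat_lit 5) (nat_lit 23) (nat_lit 4) (nat_lit 279) (nat_lit 236) (nat_lit 205)) (XT.lf (nat_lit 0) (nat_lit 5506711101) (nat_lit 152) (nat_lit 8451744172) (nat_lit 228) (nat_lit 178942093) (nat_lit 20) (nat_lit 5) (nat_lit 22) (nat_lit 5) (nat_lit 23) (nat_lit 4) (nat_lit 280) (nat_lit 236) (nat_lit 204))) (XT.nd (nat_lit 78) (nat_lit 152) (nat_lit 0) (XT.lf (nat_lit 0) (nat_lit 2306690410) (nat_lit 228) (nat_lit 3175234687) (nat_lit 76) (nat_lit 9161258597) (nat_lit 19) (nat_lit 5) (nat_lit 22) (nat_lit 5) (nat_lit 20) (nat_lit 5) (nat_lit 281) (nat_lit 236) (nat_lit 203)) (XT.lf (nat_lit 0) (nat_lit 2550879260) (nat_lit 152) (nat_lit 2346121207) (nat_lit 228) (nat_lit 10277936836) (nat_lit 17) (nat_lit 5) (nat_lit 19) (nat_lit 5) (nat_lit 20) (nat_lit 5) (nat_lit 282) (nat_lit 236) (nat_lit 202))))) (XT.nd (nat_lit 312) (nat_lit 304) (nat_lit 0) (XT.nd (nat_lit 156) (nat_lit 76)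 (nat_lit 0) (XT.nd (nat_lit 78) (nat_lit 0) (nat_lit 0) (XT.lf (nat_lit 0) (nat_lit 7633716320) (nat_lit 228) (nat_lit 7154545983) (nat_lit 76) (nat_lit 944309977) (nat_lit 17) (nat_lit 5) (nat_lit 20) (nat_lit 5) (nat_lit 18) (nat_lit 4) (nat_lit 283) (nat_lit 236) (nat_lit 201)) (XT.lf (nat_lit 0) (nat_lit 10495688512) (nat_lit 228) (nat_lit 1527955843) (nat_lit 76) (nat_lit 4295155248) (nat_lit 17) (nat_lit 5) (nat_lit 20) (nat_lit 5) (nat_lit 18) (nat_lit 4) (nat_lit 284) (nat_lit 236) (nat_lit 200))) (XT.nd (nat_lit 78) (nat_lit 0) (nat_lit 0) (XT.lf (nat_lit 0) (nat_lit 4448105710) (nat_lit 76) (nat_lit 9074443422) (nat_lit 152) (nat_lit 3410825024) (nat_lit 16) (nat_lit 5) (nat_lit 17) (nat_lit 5) (nat_lit 18) (nat_lit 4) (nat_lit 285) (nat_lit 236) (nat_lit 199)) (XT.lf (nat_lit 0) (nat_lit 10702989444) (nat_lit 76) (nat_lit 5977111669) (nat_lit 152) (nat_lit 899728293) (nat_lit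 16) (nat_lit 5) (nat_lit 17) (nat_lit 5) (nat_lit 18) (nat_lit 4) (nat_lit 286) (nat_lit 236) (nat_lit 198)))) (XT.nd (nat_lit 156) (nat_lit 76) (nat_lit 0) (XT.nd (nat_lit 78) (nat_lit 152) (nat_lit 0) (XT.lf (nat_lit 0) (nat_lit 1636181674) (nat_lit 152) (nat_lit 1086259965) (nat_lit 76) (nat_lit 15537175615) (nat_lit 15) (nat_lit 5) (nat_lit 17) (nat_lit 5) (nat_lit 16) (nat_lit 5) (nat_lit 287) (nat_lit 236) (nat_lit 197)) (XT.lf (nat_lit 0) (nat_lit 4316870290) (nat_lit 228) (nat_lit 13909226582) (nat_lit 76) (nat_lit 744252274) (nat_lit 13) (nat_lit 5) (nat_lit 16) (nat_lit 5) (nat_lit 14) (nat_lit 4) (nat_lit 288) (nat_lit 236) (nat_lit 196))) (XT.nd (nat_lit 78) (nat_lit 76) (nat_lit 0) (XT.lf (nat_lit 0) (nat_lit 7152543578) (nat_lit 228) (nat_lit 8275525963) (nat_lit 76) (nat_lit 4287598798) (nat_lit 13) (nat_lit 5) (nat_lit 16) (nat_lit 5) (nat_lit 14) (nat_lit 4) (nat_lit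 289) (nat_lit 236) (nat_lit 195)) (XT.nd (nat_lit 78) (nat_lit 76) (nat_lit 0) (XT.lf (nat_lit 0) (nat_lit 10089640657) (nat_lit 228) (nat_lit 2425362306) (nat_lit 76) (nat_lit 7985362066) (nat_lit 13) (nat_lit 5) (nat_lit 16) (nat_lit 5) (nat_lit 14) (nat_lit 4) (nat_lit 290) (nat_lit 236) (nat_lit 194)) (XT.lf (nat_lit 0) (nat_lit 3776050551) (nat_lit 76) (nat_lit 9418058795) (nat_lit 152) (nat_lit 8129250456) (nat_lit 12) (nat_lit 5) (nat_lit 13) (nat_lit 5) (nat_lit 14) (nat_lit 4) (nat_lit 291) (nat_lit 236) (nat_lit 193))))))) (XT.nd (nat_lit 702) (nat_lit 228) (nat_lit 0) (XT.nd (nat_lit 312) (nat_lit 76) (nat_lit 0) (XT.nd (nat_lit 156) (nat_lit 228) (nat_lit 0) (XT.nd (nat_lit 78) (nat_lit 0) (nat_lit 0) (XT.lf (nat_lit 0) (nat_lit 10310622844) (nat_lit 76) (nat_lit 6146691549) (nat_lit 152) (nat_lit 5730099120) (nat_lit 12) (nat_lit 5) (nat_lit 13) (nat_lit 5) (nat_lit 14)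 (nat_lit 4) (nat_lit 292) (nat_lit 236) (nat_lit 192)) (XT.lf (nat_lit 0) (nat_lit 17113719649) (nat_lit 76) (nat_lit 2734186939) (nat_lit 152) (nat_lit 3248632783) (nat_lit 12) (nat_lit 5) (nat_lit 13) (nat_lit 5) (nat_lit 14) (nat_lit 4) (nat_lit 293) (nat_lit 236) (nat_lit 191))) (XT.nd (nat_lit 78) (nat_lit 76) (nat_lit 0) (XT.lf (nat_lit 0) (nat_lit 140203394) (nat_lit 152) (nat_lit 23248865185) (nat_lit 152) (nat_lit 663077889) (nat_lit 10) (nat_lit 4) (nat_lit 12) (nat_lit 5) (nat_lit 12) (nat_lit 4) (nat_lit 294) (nat_lit 236) (nat_lit 190)) (XT.lf (nat_lit 0) (nat_lit 2099630447) (nat_lit 228) (nat_lit 18409062162) (nat_lit 76) (nat_lit 4539632200) (nat_lit 9) (nat_lit 5) (nat_lit 12) (nat_lit 5) (nat_lit 10) (nat_lit 4) (nat_lit 295) (nat_lit 236) (nat_lit 189)))) (XT.nd (nat_lit 156) (nat_lit 76) (nat_lit 0) (XT.nd (nat_lit 78) (nat_lit 0) (nat_lit 0) (XT.lf (nat_lit 0)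 (nat_lit 4945560877) (nat_lit 228) (nat_lit 12696349810) (nat_lit 76) (nat_lit 8453555829) (nat_lit 9) (nat_lit 5) (nat_lit 12) (nat_lit 5) (nat_lit 10) (nat_lit 4) (nat_lit 296) (nat_lit 236) (nat_lit 188)) (XT.lf (nat_lit 0) (nat_lit 7902712059) (nat_lit 228) (nat_lit 6749851821) (nat_lit 76) (nat_lit 12544018530) (nat_lit 9) (nat_lit 5) (nat_lit 12) (nat_lit 5) (nat_lit 10) (nat_lit 4) (nat_lit 297) (nat_lit 236) (nat_lit 187))) (XT.nd (nat_lit 78) (nat_lit 76) (nat_lit 0) (XT.lf (nat_lit 0) (nat_lit 10978124830) (nat_lit 228) (nat_lit 555409864) (nat_lit 76) (nat_lit 16820759502) (nat_lit 9) (nat_lit 5) (nat_lit 12) (nat_lit 5) (nat_lit 10) (nat_lit 4) (nat_lit 298) (nat_lit 236) (nat_lit 186)) (XT.nd (nat_lit 78) (nat_lit 0) (nat_lit 0) (XT.lf (nat_lit 0) (nat_lit 6096862403) (nat_lit 76) (nat_lit 8177448305) (nat_lit 152) (nat_lit 15292288165) (nat_lit 8) (nat_lit 5) (nat_lit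 9) (nat_lit 5) (nat_lit 10) (nat_lit 4) (nat_lit 299) (nat_lit 236) (nat_lit 185)) (XT.lf (nat_lit 0) (nat_lit 13054759941) (nat_lit 76) (nat_lit 4662385238) (nat_lit 152) (nat_lit 13123336333) (nat_lit 8) (nat_lit 5) (nat_lit 9) (nat_lit 5) (nat_lit 10) (nat_lit 4) (nat_lit 300) (nat_lit 236) (nat_lit 184)))))) (XT.nd (nat_lit 312) (nat_lit 152) (nat_lit 0) (XT.nd (nat_lit 156) (nat_lit 76) (nat_lit 0) (XT.nd (nat_lit 78) (nat_lit 0) (nat_lit 0) (XT.lf (nat_lit 0) (nat_lit 20316484813) (nat_lit 76) (nat_lit 989382430) (nat_lit 152) (nat_lit 10873555833) (nat_lit 8) (nat_lit 5) (nat_lit 9) (nat_lit 5) (nat_lit 10) (nat_lit 4) (nat_lit 301) (nat_lit 236) (nat_lit 183)) (XT.lf (nat_lit 0) (nat_lit 25093522732) (nat_lit 152) (nat_lit 5731785938) (nat_lit 0) (nat_lit 2759077791) (nat_lit 8) (nat_lit 5) (nat_lit 10) (nat_lit 4) (nat_lit 8) (nat_lit 4) (nat_lit 302) (nat_lit 236) (nat_lit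 182))) (XT.nd (nat_lit 78) (nat_lit 0) (nat_lit 0) (XT.lf (nat_lit 0) (nat_lit 670198963) (nat_lit 76) (nat_lit 28402979569) (nat_lit 76) (nat_lit 5986335851) (nat_lit 7) (nat_lit 4) (nat_lit 8) (nat_lit 5) (nat_lit 8) (nat_lit 4) (nat_lit 303) (nat_lit 236) (nat_lit 181)) (XT.lf (nat_lit 0) (nat_lit 7550982151) (nat_lit 76) (nat_lit 25774356859) (nat_lit 76) (nat_lit 3279428592) (nat_lit 7) (nat_lit 4) (nat_lit 8) (nat_lit 5) (nat_lit 8) (nat_lit 4) (nat_lit 304) (nat_lit 236) (nat_lit 180)))) (XT.nd (nat_lit 156) (nat_lit 76) (nat_lit 0) (XT.nd (nat_lit 78) (nat_lit 76) (nat_lit 0) (XT.lf (nat_lit 0) (nat_lit 14737427714) (nat_lit 76) (nat_lit 23030252484) (nat_lit 76) (nat_lit 460767503) (nat_lit 7) (nat_lit 4) (nat_lit 8) (nat_lit 5) (nat_lit 8) (nat_lit 4) (nat_lit 305) (nat_lit 236) (nat_lit 179)) (XT.lf (nat_lit 0) (nat_lit 2397099575) (nat_lit 152) (nat_lit 17726437245) (nat_lit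 76) (nat_lit 19808950618) (nat_lit 6) (nat_lit 5) (nat_lit 8) (nat_lit 5) (nat_lit 7) (nat_lit 4) (nat_lit 306) (nat_lit 236) (nat_lit 178))) (XT.nd (nat_lit 78) (nat_lit 76) (nat_lit 0) (XT.lf (nat_lit 0) (nat_lit 5361661859) (nat_lit 152) (nat_lit 11716709700) (nat_lit 76) (nat_lit 24644052610) (nat_lit 6) (nat_lit 5) (nat_lit 8) (nat_lit 5) (nat_lit 7) (nat_lit 4) (nat_lit 307) (nat_lit 236) (nat_lit 177)) (XT.nd (nat_lit 78) (nat_lit 76) (nat_lit 0) (XT.lf (nat_lit 0) (nat_lit 8454725267) (nat_lit 152) (nat_lit 5440334607) (nat_lit 76) (nat_lit 29707819468) (nat_lit 6) (nat_lit 5) (nat_lit 8) (nat_lit 5) (nat_lit 7) (nat_lit 4) (nat_lit 308) (nat_lit 236) (nat_lit 176)) (XT.lf (nat_lit 0) (nat_lit 1154585739) (nat_lit 76) (nat_lit 10547094815) (nat_lit 152) (nat_lit 33875748359) (nat_lit 5) (nat_lit 5) (nat_lit 6) (nat_lit 5) (nat_lit 7) (nat_lit 4) (nat_lit 309) (nat_lit 236)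 (nat_lit 175))))))))
noncomputable def xc98 : XT := (XT.nd (nat_lit 1326) (nat_lit 76) (nat_lit 0) (XT.nd (nat_lit 624) (nat_lit 76) (nat_lit 0) (XT.nd (nat_lit 312) (nat_lit 76) (nat_lit 0) (XT.nd (nat_lit 156) (nat_lit 0) (nat_lit 0) (XT.nd (nat_lit 78) (nat_lit 0) (nat_lit 0) (XT.lf (nat_lit 0) (nat_lit 8236420578) (nat_lit 76) (nat_lit 6948309720) (nat_lit 152) (nat_lit 32462320308) (nat_lit 5) (nat_lit 5) (nat_lit 6) (nat_lit 5) (nat_lit 7) (nat_lit 4) (nat_lit 310) (nat_lit 236) (nat_lit 174)) (XT.lf (nat_lit 0) (nat_lit 15642149390) (nat_lit 76) (nat_lit 3182270752) (nat_lit 152) (nat_lit 30996639316) (nat_lit 5) (nat_lit 5) (nat_lit 6) (nat_lit 5) (nat_lit 7) (nat_lit 4) (nat_lit 311) (nat_lit 236) (nat_lit 173))) (XT.nd (nat_lit 78) (nat_lit 0) (nat_lit 0) (XT.lf (nat_lit 0) (nat_lit 22641281570) (nat_lit 152) (nat_lit 28727092373) (nat_lit 0) (nat_lit 735664459) (nat_lit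 5) (nat_lit 5) (nat_lit 7) (nat_lit 4) (nat_lit 5) (nat_lit 4) (nat_lit 312) (nat_lit 236) (nat_lit 172)) (XT.lf (nat_lit 0) (nat_lit 26685090549) (nat_lit 152) (nat_lit 23082884628) (nat_lit 0) (nat_lit 4731413515) (nat_lit 5) (nat_lit 5) (nat_lit 7) (nat_lit 4) (nat_lit 5) (nat_lit 4) (nat_lit 313) (nat_lit 236) (nat_lit 171)))) (XT.nd (nat_lit 156) (nat_lit 76) (nat_lit 0) (XT.nd (nat_lit 78) (nat_lit 0) (nat_lit 0) (XT.lf (nat_lit 0) (nat_lit 30915791032) (nat_lit 152) (nat_lit 17183164078) (nat_lit 0) (nat_lit 8916342643) (nat_lit 5) (nat_lit 5) (nat_lit 7) (nat_lit 4) (nat_lit 5) (nat_lit 4) (nat_lit 314) (nat_lit 236) (nat_lit 170)) (XT.lf (nat_lit 0) (nat_lit 35343456114) (nat_lit 152) (nat_lit 11013883770) (nat_lit 0) (nat_lit 13300415958) (nat_lit 5) (nat_lit 5) (nat_lit 7) (nat_lit 4) (nat_lit 5) (nat_lit 4) (nat_lit 315) (nat_lit 236) (nat_lit 169))) (XT.nd (nat_lit 78)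 (nat_lit 76) (nat_lit 0) (XT.lf (nat_lit 0) (nat_lit 39978627856) (nat_lit 152) (nat_lit 4560354940) (nat_lit 0) (nat_lit 17894071732) (nat_lit 5) (nat_lit 5) (nat_lit 7) (nat_lit 4) (nat_lit 5) (nat_lit 4) (nat_lit 316) (nat_lit 236) (nat_lit 168)) (XT.lf (nat_lit 0) (nat_lit 2265291427) (nat_lit 76) (nat_lit 42602418500) (nat_lit 76) (nat_lit 20478323359) (nat_lit 4) (nat_lit 4) (nat_lit 5) (nat_lit 5) (nat_lit 5) (nat_lit 4) (nat_lit 317) (nat_lit 236) (nat_lit 167))))) (XT.nd (nat_lit 312) (nat_lit 76) (nat_lit 0) (XT.nd (nat_lit 156) (nat_lit 0) (nat_lit 0) (XT.nd (nat_lit 78) (nat_lit 0) (nat_lit 0) (XT.lf (nat_lit 0) (nat_lit 9567854938) (nat_lit 76) (nat_lit 40497682241) (nat_lit 76) (nat_lit 18335930893) (nat_lit 4) (nat_lit 4) (nat_lit 5) (nat_lit 5) (nat_lit 5) (nat_lit 4) (nat_lit 318) (nat_lit 236) (nat_lit 166)) (XT.lf (nat_lit 0) (nat_lit 17213936718) (nat_lit 76) (nat_lit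 38296994560) (nat_lit 76) (nat_lit 16099380158) (nat_lit 4) (nat_lit 4) (nat_lit 5) (nat_lit 5) (nat_lit 5) (nat_lit 4) (nat_lit 319) (nat_lit 236) (nat_lit 165))) (XT.nd (nat_lit 78) (nat_lit 0) (nat_lit 0) (XT.lf (nat_lit 0) (nat_lit 25221741724) (nat_lit 76) (nat_lit 35995115724) (nat_lit 76) (nat_lit 13763346033) (nat_lit 4) (nat_lit 4) (nat_lit 5) (nat_lit 5) (nat_lit 5) (nat_lit 4) (nat_lit 320) (nat_lit 236) (nat_lit 164)) (XT.lf (nat_lit 0) (nat_lit 33610336158) (nat_lit 76) (nat_lit 33586565070) (nat_lit 76) (nat_lit 11322266532) (nat_lit 4) (nat_lit 4) (nat_lit 5) (nat_lit 5) (nat_lit 5) (nat_lit 4) (nat_lit 321) (nat_lit 236) (nat_lit 163)))) (XT.nd (nat_lit 156) (nat_lit 76) (nat_lit 0) (XT.nd (nat_lit 78) (nat_lit 0) (nat_lit 0) (XT.lf (nat_lit 0) (nat_lit 42399692864) (nat_lit 76) (nat_lit 31065607954) (nat_lit 76) (nat_lit 8770329560) (nat_lit 4) (nat_lit 4) (nat_lit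 5) (nat_lit 5) (nat_lit 5) (nat_lit 4) (nat_lit 322) (nat_lit 236) (nat_lit 162)) (XT.lf (nat_lit 0) (nat_lit 51610738882) (nat_lit 76) (nat_lit 28426242095) (nat_lit 76) (nat_lit 6101459078) (nat_lit 4) (nat_lit 4) (nat_lit 5) (nat_lit 5) (nat_lit 5) (nat_lit 4) (nat_lit 323) (nat_lit 236) (nat_lit 161))) (XT.nd (nat_lit 78) (nat_lit 76) (nat_lit 0) (XT.lf (nat_lit 0) (nat_lit 61265405274) (nat_lit 76) (nat_lit 25662183291) (nat_lit 76) (nat_lit 3309300632) (nat_lit 4) (nat_lit 4) (nat_lit 5) (nat_lit 5) (nat_lit 5) (nat_lit 4) (nat_lit 324) (nat_lit 236) (nat_lit 160)) (XT.nd (nat_lit 78) (nat_lit 76) (nat_lit 0) (XT.lf (nat_lit 0) (nat_lit 71386679341) (nat_lit 76) (nat_lit 22766850448) (nat_lit 76) (nat_lit 387206226) (nat_lit 4) (nat_lit 4) (nat_lit 5) (nat_lit 5) (nat_lit 5) (nat_lit 4) (nat_lit 325) (nat_lit 236) (nat_lit 159)) (XT.lf (nat_lit 0) (nat_lit 2586267813) (nat_lit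 152) (nat_lit 17103282406) (nat_lit 76) (nat_lit 79368591843) (nat_lit 3) (nat_lit 5) (nat_lit 5) (nat_lit 5) (nat_lit 4) (nat_lit 4) (nat_lit 326) (nat_lit 236) (nat_lit 158))))))) (XT.nd (nat_lit 624) (nat_lit 0) (nat_lit 0) (XT.nd (nat_lit 312) (nat_lit 0) (nat_lit 0) (XT.nd (nat_lit 156) (nat_lit 76) (nat_lit 0) (XT.nd (nat_lit 78) (nat_lit 0) (nat_lit 0) (XT.lf (nat_lit 0) (nat_lit 5686910916) (nat_lit 152) (nat_lit 10771237572) (nat_lit 76) (nat_lit 87343390427) (nat_lit 3) (nat_lit 5) (nat_lit 5) (nat_lit 5) (nat_lit 4) (nat_lit 4) (nat_lit 327) (nat_lit 236) (nat_lit 157)) (XT.lf (nat_lit 0) (nat_lit 8934498581) (nat_lit 152) (nat_lit 4136800502) (nat_lit 76) (nat_lit 95711223562) (nat_lit 3) (nat_lit 5) (nat_lit 5) (nat_lit 5) (nat_lit 4) (nat_lit 4) (nat_lit 328) (nat_lit 236) (nat_lit 156))) (XT.nd (nat_lit 78) (nat_lit 0) (nat_lit 0) (XT.lf (nat_lit 0) (nat_lit 2908928976)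 (nat_lit 76) (nat_lit 9473250719) (nat_lit 152) (nat_lit 101628502216) (nat_lit 2) (nat_lit 5) (nat_lit 3) (nat_lit 5) (nat_lit 4) (nat_lit 4) (nat_lit 329) (nat_lit 236) (nat_lit 155)) (XT.lf (nat_lit 0) (nat_lit 10437250243) (nat_lit 76) (nat_lit 5627509770) (nat_lit 152) (nat_lit 103432374847) (nat_lit 2) (nat_lit 5) (nat_lit 3) (nat_lit 5) (nat_lit 4) (nat_lit 4) (nat_lit 330) (nat_lit 236) (nat_lit 154)))) (XT.nd (nat_lit 156) (nat_lit 0) (nat_lit 0) (XT.nd (nat_lit 78) (nat_lit 0) (nat_lit 0) (XT.lf (nat_lit 0) (nat_lit 18329306564) (nat_lit 76) (nat_lit 1594978430) (nat_lit 152) (nat_lit 105333995612) (nat_lit 2) (nat_lit 5) (nat_lit 3) (nat_lit 5) (nat_lit 4) (nat_lit 4) (nat_lit 331) (nat_lit 236) (nat_lit 153)) (XT.lf (nat_lit 0) (nat_lit 24011067242) (nat_lit 152) (nat_lit 104745070867) (nat_lit 0) (nat_lit 2549641890) (nat_lit 2) (nat_lit 5) (nat_lit 4) (nat_lit 4) (nat_lit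 2) (nat_lit 4) (nat_lit 332) (nat_lit 236) (nat_lit 152))) (XT.nd (nat_lit 78) (nat_lit 0) (nat_lit 0) (XT.lf (nat_lit 0) (nat_lit 28321741529) (nat_lit 152) (nat_lit 102489879666) (nat_lit 0) (nat_lit 6843065436) (nat_lit 2) (nat_lit 5) (nat_lit 4) (nat_lit 4) (nat_lit 2) (nat_lit 4) (nat_lit 333) (nat_lit 236) (nat_lit 151)) (XT.lf (nat_lit 0) (nat_lit 32841669285) (nat_lit 152) (nat_lit 100133128851) (nat_lit 0) (nat_lit 11346563913) (nat_lit 2) (nat_lit 5) (nat_lit 4) (nat_lit 4) (nat_lit 2) (nat_lit 4) (nat_lit 334) (nat_lit 236) (nat_lit 150))))) (XT.nd (nat_lit 312) (nat_lit 0) (nat_lit 0) (XT.nd (nat_lit 156) (nat_lit 0) (nat_lit 0) (XT.nd (nat_lit 78) (nat_lit 0) (nat_lit 0) (XT.lf (nat_lit 0) (nat_lit 37581612241) (nat_lit 152) (nat_lit 97669207113) (nat_lit 0) (nat_lit 16070859938) (nat_lit 2) (nat_lit 5) (nat_lit 4) (nat_lit 4) (nat_lit 2) (nat_lit 4) (nat_lit 335) (nat_lit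 236) (nat_lit 149)) (XT.lf (nat_lit 0) (nat_lit 42552855976) (nat_lit 152) (nat_lit 95092247970) (nat_lit 0) (nat_lit 21027201833) (nat_lit 2) (nat_lit 5) (nat_lit 4) (nat_lit 4) (nat_lit 2) (nat_lit 4) (nat_lit 336) (nat_lit 236) (nat_lit 148))) (XT.nd (nat_lit 78) (nat_lit 0) (nat_lit 0) (XT.lf (nat_lit 0) (nat_lit 47767236785) (nat_lit 152) (nat_lit 92396115805) (nat_lit 0) (nat_lit 26227390414) (nat_lit 2) (nat_lit 5) (nat_lit 4) (nat_lit 4) (nat_lit 2) (nat_lit 4) (nat_lit 337) (nat_lit 236) (nat_lit 147)) (XT.lf (nat_lit 0) (nat_lit 53237169860) (nat_lit 152) (nat_lit 89574391257) (nat_lit 0) (nat_lit 31683807081) (nat_lit 2) (nat_lit 5) (nat_lit 4) (nat_lit 4) (nat_lit 2) (nat_lit 4) (nat_lit 338) (nat_lit 236) (nat_lit 146)))) (XT.nd (nat_lit 156) (nat_lit 0) (nat_lit 0) (XT.nd (nat_lit 78) (nat_lit 0) (nat_lit 0) (XT.lf (nat_lit 0) (nat_lit 58975678852) (nat_lit 152) (nat_lit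 86620355933) (nat_lit 0) (nat_lit 37409443303) (nat_lit 2) (nat_lit 5) (nat_lit 4) (nat_lit 4) (nat_lit 2) (nat_lit 4) (nat_lit 339) (nat_lit 236) (nat_lit 145)) (XT.lf (nat_lit 0) (nat_lit 64996426876) (nat_lit 152) (nat_lit 83526976416) (nat_lit 0) (nat_lit 43417931546) (nat_lit 2) (nat_lit 5) (nat_lit 4) (nat_lit 4) (nat_lit 2) (nat_lit 4) (nat_lit 340) (nat_lit 236) (nat_lit 144))) (XT.nd (nat_lit 78) (nat_lit 0) (nat_lit 0) (XT.lf (nat_lit 0) (nat_lit 71313749047) (nat_lit 152) (nat_lit 80286887517) (nat_lit 0) (nat_lit 49723577736) (nat_lit 2) (nat_lit 5) (nat_lit 4) (nat_lit 4) (nat_lit 2) (nat_lit 4) (nat_lit 341) (nat_lit 236) (nat_lit 143)) (XT.nd (nat_lit 78) (nat_lit 0) (nat_lit 0) (XT.lf (nat_lit 0) (nat_lit 77942686609) (nat_lit 152) (nat_lit 76892374738) (nat_lit 0) (nat_lit 56341395316) (nat_lit 2) (nat_lit 5) (nat_lit 4) (nat_lit 4) (nat_lit 2) (nat_lit 4) (nat_lit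 342) (nat_lit 236) (nat_lit 142)) (XT.lf (nat_lit 0) (nat_lit 84899022746) (nat_lit 152) (nat_lit 73335355906) (nat_lit 0) (nat_lit 63287140994) (nat_lit 2) (nat_lit 5) (nat_lit 4) (nat_lit 4) (nat_lit 2) (nat_lit 4) (nat_lit 343) (nat_lit 236) (nat_lit 141))))))))
noncomputable def xc99 : XT := (XT.nd (nat_lit 1326) (nat_lit 0) (nat_lit 0) (XT.nd (nat_lit 624) (nat_lit 76) (nat_lit 0) (XT.nd (nat_lit 312) (nat_lit 0) (nat_lit 0) (XT.nd (nat_lit 156) (nat_lit 0) (nat_lit 0) (XT.nd (nat_lit 78) (nat_lit 0) (nat_lit 0) (XT.lf (nat_lit 0) (nat_lit 92199320164) (nat_lit 152) (nat_lit 69607361928) (nat_lit 0) (nat_lit 70577352260) (nat_lit 2) (nat_lit 5) (nat_lit 4) (nat_lit 4) (nat_lit 2) (nat_lit 4) (nat_lit 344) (nat_lit 236) (nat_lit 140)) (XT.lf (nat_lit 0) (nat_lit 99860960522) (nat_lit 152) (nat_lit 65699516629) (nat_lit 0) (nat_lit 78229386759) (nat_lit 2) (nat_lit 5) (nat_lit 4)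 (nat_lit 4) (nat_lit 2) (nat_lit 4) (nat_lit 345) (nat_lit 236) (nat_lit 139))) (XT.nd (nat_lit 78) (nat_lit 0) (nat_lit 0) (XT.lf (nat_lit 0) (nat_lit 107902185822) (nat_lit 152) (nat_lit 61602515615) (nat_lit 0) (nat_lit 86261463622) (nat_lit 2) (nat_lit 5) (nat_lit 4) (nat_lit 4) (nat_lit 2) (nat_lit 4) (nat_lit 346) (nat_lit 236) (nat_lit 138)) (XT.lf (nat_lit 0) (nat_lit 116342141838) (nat_lit 152) (nat_lit 57306604121) (nat_lit 0) (nat_lit 94692706841) (nat_lit 2) (nat_lit 5) (nat_lit 4) (nat_lit 4) (nat_lit 2) (nat_lit 4) (nat_lit 347) (nat_lit 236) (nat_lit 137)))) (XT.nd (nat_lit 156) (nat_lit 0) (nat_lit 0) (XT.nd (nat_lit 78) (nat_lit 0) (nat_lit 0) (XT.lf (nat_lit 0) (nat_lit 125200923703) (nat_lit 152) (nat_lit 52801553787) (nat_lit 0) (nat_lit 103543190805) (nat_lit 2) (nat_lit 5) (nat_lit 4) (nat_lit 4) (nat_lit 2) (nat_lit 4) (nat_lit 348) (nat_lit 236) (nat_lit 136))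 (XT.lf (nat_lit 0) (nat_lit 134499623756) (nat_lit 152) (nat_lit 48076638302) (nat_lit 0) (nat_lit 112833988094) (nat_lit 2) (nat_lit 5) (nat_lit 4) (nat_lit 4) (nat_lit 2) (nat_lit 4) (nat_lit 349) (nat_lit 236) (nat_lit 135))) (XT.nd (nat_lit 78) (nat_lit 0) (nat_lit 0) (XT.lf (nat_lit 0) (nat_lit 144260381759) (nat_lit 152) (nat_lit 43120607868) (nat_lit 0) (nat_lit 122587219654) (nat_lit 2) (nat_lit 5) (nat_lit 4) (nat_lit 4) (nat_lit 2) (nat_lit 4) (nat_lit 350) (nat_lit 236) (nat_lit 134)) (XT.lf (nat_lit 0) (nat_lit 154506437610) (nat_lit 152) (nat_lit 37921662412) (nat_lit 0) (nat_lit 132826107466) (nat_lit 2) (nat_lit 5) (nat_lit 4) (nat_lit 4) (nat_lit 2) (nat_lit 4) (nat_lit 351) (nat_lit 236) (nat_lit 133))))) (XT.nd (nat_lit 312) (nat_lit 76) (nat_lit 0) (XT.nd (nat_lit 156) (nat_lit 0) (nat_lit 0) (XT.nd (nat_lit 78) (nat_lit 0) (nat_lit 0) (XT.lf (nat_lit 0) (nat_lit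 165262186682) (nat_lit 152) (nat_lit 32467423493) (nat_lit 0) (nat_lit 143575029834) (nat_lit 2) (nat_lit 5) (nat_lit 4) (nat_lit 4) (nat_lit 2) (nat_lit 4) (nat_lit 352) (nat_lit 236) (nat_lit 132)) (XT.lf (nat_lit 0) (nat_lit 176553237901) (nat_lit 152) (nat_lit 26744904828) (nat_lit 0) (nat_lit 154859579429) (nat_lit 2) (nat_lit 5) (nat_lit 4) (nat_lit 4) (nat_lit 2) (nat_lit 4) (nat_lit 353) (nat_lit 236) (nat_lit 131))) (XT.nd (nat_lit 78) (nat_lit 0) (nat_lit 0) (XT.lf (nat_lit 0) (nat_lit 188406474722) (nat_lit 152) (nat_lit 20740481371) (nat_lit 0) (nat_lit 166706624228) (nat_lit 2) (nat_lit 5) (nat_lit 4) (nat_lit 4) (nat_lit 2) (nat_lit 4) (nat_lit 354) (nat_lit 236) (nat_lit 130)) (XT.lf (nat_lit 0) (nat_lit 200850119137) (nat_lit 152) (nat_lit 14439856877) (nat_lit 0) (nat_lit 179144371479) (nat_lit 2) (nat_lit 5) (nat_lit 4) (nat_lit 4) (nat_lit 2) (nat_lit 4) (nat_lit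 355) (nat_lit 236) (nat_lit 129)))) (XT.nd (nat_lit 156) (nat_lit 76) (nat_lit 0) (XT.nd (nat_lit 78) (nat_lit 0) (nat_lit 0) (XT.lf (nat_lit 0) (nat_lit 213913798872) (nat_lit 152) (nat_lit 7828029860) (nat_lit 0) (nat_lit 192202434868) (nat_lit 2) (nat_lit 5) (nat_lit 4) (nat_lit 4) (nat_lit 2) (nat_lit 4) (nat_lit 356) (nat_lit 236) (nat_lit 128)) (XT.lf (nat_lit 0) (nat_lit 227628617926) (nat_lit 152) (nat_lit 889257872) (nat_lit 0) (nat_lit 205911905019) (nat_lit 2) (nat_lit 5) (nat_lit 4) (nat_lit 4) (nat_lit 2) (nat_lit 4) (nat_lit 357) (nat_lit 236) (nat_lit 127))) (XT.nd (nat_lit 78) (nat_lit 0) (nat_lit 0) (XT.lf (nat_lit 0) (nat_lit 6604360758) (nat_lit 76) (nat_lit 235525982450) (nat_lit 76) (nat_lit 213804175352) (nat_lit 1) (nat_lit 4) (nat_lit 2) (nat_lit 5) (nat_lit 2) (nat_lit 4) (nat_lit 358) (nat_lit 236) (nat_lit 126)) (XT.nd (nat_lit 78) (nat_lit 0) (nat_lit 0)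 (XT.lf (nat_lit 0) (nat_lit 14500116615) (nat_lit 76) (nat_lit 242870190235) (nat_lit 76) (nat_lit 221143531525) (nat_lit 1) (nat_lit 4) (nat_lit 2) (nat_lit 5) (nat_lit 2) (nat_lit 4) (nat_lit 359) (nat_lit 236) (nat_lit 125)) (XT.lf (nat_lit 0) (nat_lit 22787406233) (nat_lit 76) (nat_lit 250583045373) (nat_lit 76) (nat_lit 228851766082) (nat_lit 1) (nat_lit 4) (nat_lit 2) (nat_lit 5) (nat_lit 2) (nat_lit 4) (nat_lit 360) (nat_lit 236) (nat_lit 124))))))) (XT.nd (nat_lit 29172) (nat_lit 0) (nat_lit 3648) (XT.nd (nat_lit 28782) (nat_lit 0) (nat_lit 6232) (XT.nd (nat_lit 28626) (nat_lit 0) (nat_lit 7524) (XT.nd (nat_lit 28548) (nat_lit 0) (nat_lit 7828) (XT.lf (nat_lit 0) (nat_lit 31485961255) (nat_lit 76) (nat_lit 258682911807) (nat_lit 76) (nat_lit 236947231961) (nat_lit 1) (nat_lit 4) (nat_lit 2) (nat_lit 5) (nat_lit 2) (nat_lit 4) (nat_lit 361) (nat_lit 236) (nat_lit 123)) (XT.lf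 (nat_lit 0) (nat_lit 1353393598) (nat_lit 228) (nat_lit 571127614) (nat_lit 0) (nat_lit 1353393598) (nat_lit 104) (nat_lit 5) (nat_lit 107) (nat_lit 4) (nat_lit 104) (nat_lit 4) (nat_lit 246) (nat_lit 237) (nat_lit 237))) (XT.nd (nat_lit 78) (nat_lit 76) (nat_lit 0) (XT.lf (nat_lit 0) (nat_lit 2270203663) (nat_lit 228) (nat_lit 3244635993) (nat_lit 228) (nat_lit 1084165228) (nat_lit 101) (nat_lit 4) (nat_lit 104) (nat_lit 5) (nat_lit 104) (nat_lit 4) (nat_lit 247) (nat_lit 237) (nat_lit 236)) (XT.lf (nat_lit 0) (nat_lit 1620486224) (nat_lit 304) (nat_lit 896065209) (nat_lit 76) (nat_lit 4134506429) (nat_lit 100) (nat_lit 5) (nat_lit 104) (nat_lit 5) (nat_lit 101) (nat_lit 4) (nat_lit 248) (nat_lit 237) (nat_lit 235)))) (XT.nd (nat_lit 156) (nat_lit 912) (nat_lit 0) (XT.nd (nat_lit 78) (nat_lit 76) (nat_lit 0) (XT.lf (nat_lit 0) (nat_lit 2664461991) (nat_lit 304) (nat_lit 1648774415)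 (nat_lit 380) (nat_lit 2398196048) (nat_lit 96) (nat_lit 5) (nat_lit 100) (nat_lit 5) (nat_lit 101) (nat_lit 4) (nat_lit 249) (nat_lit 237) (nat_lit 234)) (XT.lf (nat_lit 0) (nat_lit 219363145) (nat_lit 380) (nat_lit 461395487) (nat_lit 76) (nat_lit 6101490907) (nat_lit 95) (nat_lit 5) (nat_lit 100) (nat_lit 5) (nat_lit 96) (nat_lit 5) (nat_lit 250) (nat_lit 237) (nat_lit 233))) (XT.nd (nat_lit 78) (nat_lit 532) (nat_lit 0) (XT.lf (nat_lit 0) (nat_lit 2802311611) (nat_lit 456) (nat_lit 3608968972) (nat_lit 76) (nat_lit 448532467) (nat_lit 90) (nat_lit 5) (nat_lit 96) (nat_lit 5) (nat_lit 91) (nat_lit 4) (nat_lit 251) (nat_lit 237) (nat_lit 232)) (XT.nd (nat_lit 78) (nat_lit 76) (nat_lit 0) (XT.lf (nat_lit 0) (nat_lit 99280344) (nat_lit 456) (nat_lit 5298360957) (nat_lit 532) (nat_lit 1550334244) (nat_lit 84) (nat_lit 5) (nat_lit 90) (nat_lit 5) (nat_lit 91) (nat_lit 4) (nat_lit 252)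 (nat_lit 237) (nat_lit 231)) (XT.lf (nat_lit 0) (nat_lit 974024163) (nat_lit 532) (nat_lit 3057017510) (nat_lit 76) (nat_lit 3013136657) (nat_lit 83) (nat_lit 5) (nat_lit 90) (nat_lit 5) (nat_lit 84) (nat_lit 5) (nat_lit 253) (nat_lit 237) (nat_lit 230)))))) (XT.nd (nat_lit 312) (nat_lit 1368) (nat_lit 0) (XT.nd (nat_lit 156) (nat_lit 684) (nat_lit 0) (XT.nd (nat_lit 78) (nat_lit 0) (nat_lit 0) (XT.lf (nat_lit 0) (nat_lit 810614715) (nat_lit 532) (nat_lit 2645348095) (nat_lit 608) (nat_lit 3694546829) (nat_lit 76) (nat_lit 5) (nat_lit 83) (nat_lit 5) (nat_lit 84) (nat_lit 5) (nat_lit 254) (nat_lit 237) (nat_lit 229)) (XT.lf (nat_lit 0) (nat_lit 4865443800) (nat_lit 532) (nat_lit 1123532830) (nat_lit 608) (nat_lit 1277558006) (nat_lit 76) (nat_lit 5) (nat_lit 83) (nat_lit 5) (nat_lit 84) (nat_lit 5) (nat_lit 255) (nat_lit 237) (nat_lit 228))) (XT.nd (nat_lit 78) (nat_lit 0) (nat_lit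 0) (XT.lf (nat_lit 0) (nat_lit 1132640845) (nat_lit 684) (nat_lit 5744775741) (nat_lit 76) (nat_lit 514984136) (nat_lit 67) (nat_lit 5) (nat_lit 76) (nat_lit 5) (nat_lit 68) (nat_lit 5) (nat_lit 256) (nat_lit 237) (nat_lit 227)) (XT.lf (nat_lit 0) (nat_lit 3562882413) (nat_lit 684) (nat_lit 1696876973) (nat_lit 76) (nat_lit 2267257367) (nat_lit 67) (nat_lit 5) (nat_lit 76) (nat_lit 5) (nat_lit 68) (nat_lit 5) (nat_lit 257) (nat_lit 237) (nat_lit 226)))) (XT.nd (nat_lit 156) (nat_lit 608) (nat_lit 0) (XT.nd (nat_lit 78) (nat_lit 76) (nat_lit 0) (XT.lf (nat_lit 0) (nat_lit 2523264255) (nat_lit 684) (nat_lit 3519070150) (nat_lit 760) (nat_lit 1630241575) (nat_lit 58) (nat_lit 5) (nat_lit 67) (nat_lit 5) (nat_lit 68) (nat_lit 5) (nat_lit 258) (nat_lit 237) (nat_lit 225)) (XT.lf (nat_lit 0) (nat_lit 712893977) (nat_lit 760) (nat_lit 937247033) (nat_lit 76) (nat_lit 6179233326) (nat_lit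 57) (nat_lit 5) (nat_lit 67) (nat_lit 5) (nat_lit 58) (nat_lit 5) (nat_lit 259) (nat_lit 237) (nat_lit 224))) (XT.nd (nat_lit 78) (nat_lit 304) (nat_lit 0) (XT.lf (nat_lit 0) (nat_lit 3073453070) (nat_lit 380) (nat_lit 4540335707) (nat_lit 76) (nat_lit 381650868) (nat_lit 53) (nat_lit 5) (nat_lit 58) (nat_lit 5) (nat_lit 54) (nat_lit 5) (nat_lit 260) (nat_lit 237) (nat_lit 223)) (XT.nd (nat_lit 78) (nat_lit 304) (nat_lit 0) (XT.lf (nat_lit 0) (nat_lit 5493358519) (nat_lit 380) (nat_lit 208406973) (nat_lit 76) (nat_lit 2471468218) (nat_lit 53) (nat_lit 5) (nat_lit 58) (nat_lit 5) (nat_lit 54) (nat_lit 5) (nat_lit 261) (nat_lit 237) (nat_lit 222)) (XT.lf (nat_lit 0) (nat_lit 4373731345) (nat_lit 304) (nat_lit 3631798829) (nat_lit 380) (nat_lit 356291766) (nat_lit 49) (nat_lit 5) (nat_lit 53) (nat_lit 5) (nat_lit 54) (nat_lit 5) (nat_lit 262) (nat_lit 237) (nat_lit 221))))))))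
noncomputable def xc100 : XT := (XT.nd (nat_lit 1326) (nat_lit 988) (nat_lit 0) (XT.nd (nat_lit 624) (nat_lit 912) (nat_lit 0) (XT.nd (nat_lit 312) (nat_lit 456) (nat_lit 0) (XT.nd (nat_lit 156) (nat_lit 380) (nat_lit 0) (XT.nd (nat_lit 78) (nat_lit 0) (nat_lit 0) (XT.lf (nat_lit 0) (nat_lit 507963581) (nat_lit 228) (nat_lit 1424338818) (nat_lit 304) (nat_lit 6630559456) (nat_lit 45) (nat_lit 5) (nat_lit 48) (nat_lit 5) (nat_lit 49) (nat_lit 5) (nat_lit 263) (nat_lit 237) (nat_lit 220)) (XT.lf (nat_lit 0) (nat_lit 4312646665) (nat_lit 304) (nat_lit 3535556865) (nat_lit 76) (nat_lit 926397770) (nat_lit 45) (nat_lit 5) (nat_lit 49) (nat_lit 5) (nat_lit 46) (nat_lit 5) (nat_lit 264) (nat_lit 237) (nat_lit 219))) (XT.nd (nat_lit 78) (nat_lit 76) (nat_lit 0) (XT.lf (nat_lit 0) (nat_lit 1116065666) (nat_lit 304) (nat_lit 5647856943) (nat_lit 380) (nat_lit 2235794418) (nat_lit 41) (nat_lit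 5) (nat_lit 45) (nat_lit 5) (nat_lit 46) (nat_lit 5) (nat_lit 265) (nat_lit 237) (nat_lit 218)) (XT.lf (nat_lit 0) (nat_lit 71250567) (nat_lit 380) (nat_lit 3220254247) (nat_lit 76) (nat_lit 5946212041) (nat_lit 40) (nat_lit 5) (nat_lit 45) (nat_lit 5) (nat_lit 41) (nat_lit 5) (nat_lit 266) (nat_lit 237) (nat_lit 217)))) (XT.nd (nat_lit 156) (nat_lit 228) (nat_lit 0) (XT.nd (nat_lit 78) (nat_lit 0) (nat_lit 0) (XT.lf (nat_lit 0) (nat_lit 1588004108) (nat_lit 228) (nat_lit 771464303) (nat_lit 304) (nat_lit 7129600353) (nat_lit 37) (nat_lit 5) (nat_lit 40) (nat_lit 5) (nat_lit 41) (nat_lit 5) (nat_lit 267) (nat_lit 237) (nat_lit 216)) (XT.lf (nat_lit 0) (nat_lit 4765074793) (nat_lit 304) (nat_lit 3136861473) (nat_lit 76) (nat_lit 1851219887) (nat_lit 37) (nat_lit 5) (nat_lit 41) (nat_lit 5) (nat_lit 38) (nat_lit 5) (nat_lit 268) (nat_lit 237) (nat_lit 215))) (XT.nd (nat_lit 78) (nat_lit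 0) (nat_lit 0) (XT.lf (nat_lit 0) (nat_lit 1810948568) (nat_lit 228) (nat_lit 5443104927) (nat_lit 304) (nat_lit 2778541499) (nat_lit 34) (nat_lit 5) (nat_lit 37) (nat_lit 5) (nat_lit 38) (nat_lit 5) (nat_lit 269) (nat_lit 237) (nat_lit 214)) (XT.lf (nat_lit 0) (nat_lit 7016747431) (nat_lit 228) (nat_lit 2828200333) (nat_lit 304) (nat_lit 482471997) (nat_lit 34) (nat_lit 5) (nat_lit 37) (nat_lit 5) (nat_lit 38) (nat_lit 5) (nat_lit 270) (nat_lit 237) (nat_lit 213))))) (XT.nd (nat_lit 312) (nat_lit 380) (nat_lit 0) (XT.nd (nat_lit 156) (nat_lit 228) (nat_lit 0) (XT.nd (nat_lit 78) (nat_lit 0) (nat_lit 0) (XT.lf (nat_lit 0) (nat_lit 1776278688) (nat_lit 228) (nat_lit 44633111) (nat_lit 304) (nat_lit 8817117602) (nat_lit 30) (nat_lit 5) (nat_lit 33) (nat_lit 5) (nat_lit 34) (nat_lit 5) (nat_lit 271) (nat_lit 237) (nat_lit 212)) (XT.lf (nat_lit 0) (nat_lit 4253328992) (nat_lit 304) (nat_lit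 3880835010) (nat_lit 76) (nat_lit 2828354323) (nat_lit 30) (nat_lit 5) (nat_lit 34) (nat_lit 5) (nat_lit 31) (nat_lit 5) (nat_lit 272) (nat_lit 237) (nat_lit 211))) (XT.nd (nat_lit 78) (nat_lit 0) (nat_lit 0) (XT.lf (nat_lit 0) (nat_lit 1296341739) (nat_lit 228) (nat_lit 5463573709) (nat_lit 304) (nat_lit 4545925206) (nat_lit 27) (nat_lit 5) (nat_lit 30) (nat_lit 5) (nat_lit 31) (nat_lit 5) (nat_lit 273) (nat_lit 237) (nat_lit 210)) (XT.lf (nat_lit 0) (nat_lit 6775075851) (nat_lit 228) (nat_lit 2615877679) (nat_lit 304) (nat_lit 2275644571) (nat_lit 27) (nat_lit 5) (nat_lit 30) (nat_lit 5) (nat_lit 31) (nat_lit 5) (nat_lit 274) (nat_lit 237) (nat_lit 209)))) (XT.nd (nat_lit 156) (nat_lit 152) (nat_lit 0) (XT.nd (nat_lit 78) (nat_lit 0) (nat_lit 0) (XT.lf (nat_lit 0) (nat_lit 51890399) (nat_lit 228) (nat_lit 11650423430) (nat_lit 76) (nat_lit 345839270) (nat_lit 24) (nat_lit 5) (nat_lit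 27) (nat_lit 5) (nat_lit 25) (nat_lit 5) (nat_lit 275) (nat_lit 237) (nat_lit 208)) (XT.lf (nat_lit 0) (nat_lit 2483028058) (nat_lit 228) (nat_lit 6496412152) (nat_lit 76) (nat_lit 3464489693) (nat_lit 24) (nat_lit 5) (nat_lit 27) (nat_lit 5) (nat_lit 25) (nat_lit 5) (nat_lit 276) (nat_lit 237) (nat_lit 207))) (XT.nd (nat_lit 78) (nat_lit 152) (nat_lit 0) (XT.lf (nat_lit 0) (nat_lit 4975361597) (nat_lit 228) (nat_lit 1171831918) (nat_lit 76) (nat_lit 6715505291) (nat_lit 24) (nat_lit 5) (nat_lit 27) (nat_lit 5) (nat_lit 25) (nat_lit 5) (nat_lit 277) (nat_lit 237) (nat_lit 206)) (XT.nd (nat_lit 78) (nat_lit 0) (nat_lit 0) (XT.lf (nat_lit 0) (nat_lit 4479362416) (nat_lit 152) (nat_lit 3125398126) (nat_lit 228) (nat_lit 5697199562) (nat_lit 22) (nat_lit 5) (nat_lit 24) (nat_lit 5) (nat_lit 25) (nat_lit 5) (nat_lit 278) (nat_lit 237) (nat_lit 205)) (XT.lf (nat_lit 0) (nat_lit 10330117813)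 (nat_lit 228) (nat_lit 3393672345) (nat_lit 76) (nat_lit 41337878) (nat_lit 22) (nat_lit 5) (nat_lit 25) (nat_lit 5) (nat_lit 23) (nat_lit 4) (nat_lit 279) (nat_lit 237) (nat_lit 204))))))) (XT.nd (nat_lit 624) (nat_lit 456) (nat_lit 0) (XT.nd (nat_lit 312) (nat_lit 152) (nat_lit 0) (XT.nd (nat_lit 156) (nat_lit 152) (nat_lit 0) (XT.nd (nat_lit 78) (nat_lit 76) (nat_lit 0) (XT.lf (nat_lit 0) (nat_lit 2247184071) (nat_lit 152) (nat_lit 10977142700) (nat_lit 228) (nat_lit 1025658392) (nat_lit 20) (nat_lit 5) (nat_lit 22) (nat_lit 5) (nat_lit 23) (nat_lit 4) (nat_lit 280) (nat_lit 237) (nat_lit 203)) (XT.lf (nat_lit 0) (nat_lit 1461017336) (nat_lit 228) (nat_lit 6573554680) (nat_lit 76) (nat_lit 6723234094) (nat_lit 19) (nat_lit 5) (nat_lit 22) (nat_lit 5) (nat_lit 20) (nat_lit 5) (nat_lit 281) (nat_lit 237) (nat_lit 202))) (XT.nd (nat_lit 78) (nat_lit 152) (nat_lit 0) (XT.lf (nat_lit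 0) (nat_lit 3986684842) (nat_lit 228) (nat_lit 966632210) (nat_lit 76) (nat_lit 10339542210) (nat_lit 19) (nat_lit 5) (nat_lit 22) (nat_lit 5) (nat_lit 20) (nat_lit 5) (nat_lit 282) (nat_lit 237) (nat_lit 201)) (XT.lf (nat_lit 0) (nat_lit 5007604140) (nat_lit 152) (nat_lit 1660763687) (nat_lit 228) (nat_lit 9184942262) (nat_lit 17) (nat_lit 5) (nat_lit 19) (nat_lit 5) (nat_lit 20) (nat_lit 5) (nat_lit 283) (nat_lit 237) (nat_lit 200)))) (XT.nd (nat_lit 156) (nat_lit 76) (nat_lit 0) (XT.nd (nat_lit 78) (nat_lit 76) (nat_lit 0) (XT.lf (nat_lit 0) (nat_lit 9481163246) (nat_lit 228) (nat_lit 5229394075) (nat_lit 76) (nat_lit 1731500078) (nat_lit 17) (nat_lit 5) (nat_lit 20) (nat_lit 5) (nat_lit 18) (nat_lit 4) (nat_lit 284) (nat_lit 237) (nat_lit 199)) (XT.lf (nat_lit 0) (nat_lit 588657763) (nat_lit 76) (nat_lit 11836968734) (nat_lit 152) (nat_lit 4635183561) (nat_lit 16) (nat_lit 5) (nat_lit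 17) (nat_lit 5) (nat_lit 18) (nat_lit 4) (nat_lit 285) (nat_lit 237) (nat_lit 198))) (XT.nd (nat_lit 78) (nat_lit 76) (nat_lit 0) (XT.lf (nat_lit 0) (nat_lit 6809614401) (nat_lit 76) (nat_lit 8751948122) (nat_lit 152) (nat_lit 2146839047) (nat_lit 16) (nat_lit 5) (nat_lit 17) (nat_lit 5) (nat_lit 18) (nat_lit 4) (nat_lit 286) (nat_lit 237) (nat_lit 197)) (XT.lf (nat_lit 0) (nat_lit 408011012) (nat_lit 152) (nat_lit 5121791642) (nat_lit 76) (nat_lit 12860459378) (nat_lit 15) (nat_lit 5) (nat_lit 17) (nat_lit 5) (nat_lit 16) (nat_lit 5) (nat_lit 287) (nat_lit 237) (nat_lit 196))))) (XT.nd (nat_lit 312) (nat_lit 304) (nat_lit 0) (XT.nd (nat_lit 156) (nat_lit 0) (nat_lit 0) (XT.nd (nat_lit 78) (nat_lit 0) (nat_lit 0) (XT.lf (nat_lit 0) (nat_lit 872240045) (nat_lit 152) (nat_lit 2118882110) (nat_lit 228) (nat_lit 16114798554) (nat_lit 13) (nat_lit 5) (nat_lit 15) (nat_lit 5) (nat_lit 16)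 (nat_lit 5) (nat_lit 288) (nat_lit 237) (nat_lit 195)) (XT.lf (nat_lit 0) (nat_lit 5774026013) (nat_lit 228) (nat_lit 12598713963) (nat_lit 76) (nat_lit 1481184028) (nat_lit 13) (nat_lit 5) (nat_lit 16) (nat_lit 5) (nat_lit 14) (nat_lit 4) (nat_lit 289) (nat_lit 237) (nat_lit 194))) (XT.nd (nat_lit 78) (nat_lit 0) (nat_lit 0) (XT.lf (nat_lit 0) (nat_lit 8692372860) (nat_lit 228) (nat_lit 6778850882) (nat_lit 76) (nat_lit 5168377920) (nat_lit 13) (nat_lit 5) (nat_lit 16) (nat_lit 5) (nat_lit 14) (nat_lit 4) (nat_lit 290) (nat_lit 237) (nat_lit 193)) (XT.lf (nat_lit 0) (nat_lit 11720029455) (nat_lit 228) (nat_lit 727152917) (nat_lit 76) (nat_lit 9019296057) (nat_lit 13) (nat_lit 5) (nat_lit 16) (nat_lit 5) (nat_lit 14) (nat_lit 4) (nat_lit 291) (nat_lit 237) (nat_lit 192)))) (XT.nd (nat_lit 156) (nat_lit 228) (nat_lit 0) (XT.nd (nat_lit 78) (nat_lit 0) (nat_lit 0) (XT.lf (nat_lit 0)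 (nat_lit 5754984171) (nat_lit 76) (nat_lit 9199071763) (nat_lit 152) (nat_lit 7377974552) (nat_lit 12) (nat_lit 5) (nat_lit 13) (nat_lit 5) (nat_lit 14) (nat_lit 4) (nat_lit 292) (nat_lit 237) (nat_lit 191)) (XT.lf (nat_lit 0) (nat_lit 12531040741) (nat_lit 76) (nat_lit 5796988057) (nat_lit 152) (nat_lit 4913996050) (nat_lit 12) (nat_lit 5) (nat_lit 13) (nat_lit 5) (nat_lit 14) (nat_lit 4) (nat_lit 293) (nat_lit 237) (nat_lit 190))) (XT.nd (nat_lit 78) (nat_lit 228) (nat_lit 0) (XT.lf (nat_lit 0) (nat_lit 19593107303) (nat_lit 76) (nat_lit 2245145744) (nat_lit 152) (nat_lit 2360961540) (nat_lit 12) (nat_lit 5) (nat_lit 13) (nat_lit 5) (nat_lit 14) (nat_lit 4) (nat_lit 294) (nat_lit 237) (nat_lit 189)) (XT.nd (nat_lit 78) (nat_lit 0) (nat_lit 0) (XT.lf (nat_lit 0) (nat_lit 329609845) (nat_lit 228) (nat_lit 23422231936) (nat_lit 76) (nat_lit 1451233002) (nat_lit 9) (nat_lit 5) (nat_lit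 12) (nat_lit 5) (nat_lit 10) (nat_lit 4) (nat_lit 295) (nat_lit 237) (nat_lit 188)) (XT.lf (nat_lit 0) (nat_lit 3160381364) (nat_lit 228) (nat_lit 17734812257) (nat_lit 76) (nat_lit 5355811699) (nat_lit 9) (nat_lit 5) (nat_lit 12) (nat_lit 5) (nat_lit 10) (nat_lit 4) (nat_lit 296) (nat_lit 237) (nat_lit 187))))))))
noncomputable def xc101 : XT := (XT.nd (nat_lit 1326) (nat_lit 228) (nat_lit 0) (XT.nd (nat_lit 624) (nat_lit 152) (nat_lit 0) (XT.nd (nat_lit 312) (nat_lit 76) (nat_lit 0) (XT.nd (nat_lit 156) (nat_lit 76) (nat_lit 0) (XT.nd (nat_lit 78) (nat_lit 0) (nat_lit 0) (XT.lf (nat_lit 0) (nat_lit 6103095487) (nat_lit 228) (nat_lit 11812402527) (nat_lit 76) (nat_lit 9437374467) (nat_lit 9) (nat_lit 5) (nat_lit 12) (nat_lit 5) (nat_lit 10) (nat_lit 4) (nat_lit 297) (nat_lit 237) (nat_lit 186)) (XT.lf (nat_lit 0) (nat_lit 9164758678) (nat_lit 228) (nat_lit 5640901770) (nat_lit 76)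 (nat_lit 13705639311) (nat_lit 9) (nat_lit 5) (nat_lit 12) (nat_lit 5) (nat_lit 10) (nat_lit 4) (nat_lit 298) (nat_lit 237) (nat_lit 185))) (XT.nd (nat_lit 78) (nat_lit 0) (nat_lit 0) (XT.lf (nat_lit 0) (nat_lit 820649988) (nat_lit 76) (nat_lit 11544823268) (nat_lit 152) (nat_lit 17362931424) (nat_lit 8) (nat_lit 5) (nat_lit 9) (nat_lit 5) (nat_lit 10) (nat_lit 4) (nat_lit 299) (nat_lit 237) (nat_lit 184)) (XT.lf (nat_lit 0) (nat_lit 7757051163) (nat_lit 76) (nat_lit 8038449670) (nat_lit 152) (nat_lit 15207452238) (nat_lit 8) (nat_lit 5) (nat_lit 9) (nat_lit 5) (nat_lit 10) (nat_lit 4) (nat_lit 300) (nat_lit 237) (nat_lit 183)))) (XT.nd (nat_lit 156) (nat_lit 76) (nat_lit 0) (XT.nd (nat_lit 78) (nat_lit 0) (nat_lit 0) (XT.lf (nat_lit 0) (nat_lit 14998303309) (nat_lit 76) (nat_lit 4373722548) (nat_lit 152) (nat_lit 12970502831) (nat_lit 8) (nat_lit 5) (nat_lit 9) (nat_lit 5) (nat_lit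 10) (nat_lit 4) (nat_lit 301) (nat_lit 237) (nat_lit 182)) (XT.lf (nat_lit 0) (nat_lit 22561647503) (nat_lit 76) (nat_lit 541916359) (nat_lit 152) (nat_lit 10646757131) (nat_lit 8) (nat_lit 5) (nat_lit 9) (nat_lit 5) (nat_lit 10) (nat_lit 4) (nat_lit 302) (nat_lit 237) (nat_lit 181))) (XT.nd (nat_lit 78) (nat_lit 76) (nat_lit 0) (XT.lf (nat_lit 0) (nat_lit 27053114876) (nat_lit 152) (nat_lit 4818705582) (nat_lit 0) (nat_lit 3355155645) (nat_lit 8) (nat_lit 5) (nat_lit 10) (nat_lit 4) (nat_lit 8) (nat_lit 4) (nat_lit 303) (nat_lit 237) (nat_lit 180)) (XT.lf (nat_lit 0) (nat_lit 1884029053) (nat_lit 76) (nat_lit 29332585089) (nat_lit 76) (nat_lit 5560069144) (nat_lit 7) (nat_lit 4) (nat_lit 8) (nat_lit 5) (nat_lit 8) (nat_lit 4) (nat_lit 304) (nat_lit 237) (nat_lit 179))))) (XT.nd (nat_lit 312) (nat_lit 76) (nat_lit 0) (XT.nd (nat_lit 156) (nat_lit 0) (nat_lit 0) (XT.nd (nat_lit 78)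 (nat_lit 76) (nat_lit 0) (XT.lf (nat_lit 0) (nat_lit 9052645680) (nat_lit 76) (nat_lit 26595890456) (nat_lit 76) (nat_lit 2752368117) (nat_lit 7) (nat_lit 4) (nat_lit 8) (nat_lit 5) (nat_lit 8) (nat_lit 4) (nat_lit 305) (nat_lit 237) (nat_lit 178)) (XT.lf (nat_lit 0) (nat_lit 168740424) (nat_lit 152) (nat_lit 23565229606) (nat_lit 76) (nat_lit 16373286137) (nat_lit 6) (nat_lit 5) (nat_lit 8) (nat_lit 5) (nat_lit 7) (nat_lit 4) (nat_lit 306) (nat_lit 237) (nat_lit 177))) (XT.nd (nat_lit 78) (nat_lit 0) (nat_lit 0) (XT.lf (nat_lit 0) (nat_lit 3123679785) (nat_lit 152) (nat_lit 17572008807) (nat_lit 76) (nat_lit 21202002649) (nat_lit 6) (nat_lit 5) (nat_lit 8) (nat_lit 5) (nat_lit 7) (nat_lit 4) (nat_lit 307) (nat_lit 237) (nat_lit 176)) (XT.lf (nat_lit 0) (nat_lit 6207578506) (nat_lit 152) (nat_lit 11311354424) (nat_lit 76) (nat_lit 26259688098) (nat_lit 6) (nat_lit 5) (nat_lit 8) (nat_lit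 5) (nat_lit 7) (nat_lit 4) (nat_lit 308) (nat_lit 237) (nat_lit 175)))) (XT.nd (nat_lit 156) (nat_lit 0) (nat_lit 0) (XT.nd (nat_lit 78) (nat_lit 76) (nat_lit 0) (XT.lf (nat_lit 0) (nat_lit 9427779200) (nat_lit 152) (nat_lit 4768360136) (nat_lit 76) (nat_lit 31558384591) (nat_lit 6) (nat_lit 5) (nat_lit 8) (nat_lit 5) (nat_lit 7) (nat_lit 4) (nat_lit 309) (nat_lit 237) (nat_lit 174)) (XT.lf (nat_lit 0) (nat_lit 2141080563) (nat_lit 76) (nat_lit 10684296719) (nat_lit 152) (nat_lit 35003055778) (nat_lit 5) (nat_lit 5) (nat_lit 6) (nat_lit 5) (nat_lit 7) (nat_lit 4) (nat_lit 310) (nat_lit 237) (nat_lit 173))) (XT.nd (nat_lit 78) (nat_lit 0) (nat_lit 0) (XT.lf (nat_lit 0) (nat_lit 9532780214) (nat_lit 76) (nat_lit 6924151075) (nat_lit 152) (nat_lit 33545931562) (nat_lit 5) (nat_lit 5) (nat_lit 6) (nat_lit 5) (nat_lit 7) (nat_lit 4) (nat_lit 311) (nat_lit 237) (nat_lit 172)) (XT.nd (nat_lit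 78) (nat_lit 0) (nat_lit 0) (XT.lf (nat_lit 0) (nat_lit 17266674581) (nat_lit 76) (nat_lit 2987504165) (nat_lit 152) (nat_lit 32032657223) (nat_lit 5) (nat_lit 5) (nat_lit 6) (nat_lit 5) (nat_lit 7) (nat_lit 4) (nat_lit 312) (nat_lit 237) (nat_lit 171)) (XT.lf (nat_lit 0) (nat_lit 24243881512) (nat_lit 152) (nat_lit 29342333542) (nat_lit 0) (nat_lit 1098689349) (nat_lit 5) (nat_lit 5) (nat_lit 7) (nat_lit 4) (nat_lit 5) (nat_lit 4) (nat_lit 313) (nat_lit 237) (nat_lit 170))))))) (XT.nd (nat_lit 702) (nat_lit 152) (nat_lit 0) (XT.nd (nat_lit 312) (nat_lit 76) (nat_lit 0) (XT.nd (nat_lit 156) (nat_lit 0) (nat_lit 0) (XT.nd (nat_lit 78) (nat_lit 0) (nat_lit 0) (XT.lf (nat_lit 0) (nat_lit 28467474471) (nat_lit 152) (nat_lit 23455016050) (nat_lit 0) (nat_lit 5278690541) (nat_lit 5) (nat_lit 5) (nat_lit 7) (nat_lit 4) (nat_lit 5) (nat_lit 4) (nat_lit 314) (nat_lit 237) (nat_lit 169)) (XT.lf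 (nat_lit 0) (nat_lit 32888370482) (nat_lit 152) (nat_lit 17297548178) (nat_lit 0) (nat_lit 9658070584) (nat_lit 5) (nat_lit 5) (nat_lit 7) (nat_lit 4) (nat_lit 5) (nat_lit 4) (nat_lit 315) (nat_lit 237) (nat_lit 168))) (XT.nd (nat_lit 78) (nat_lit 0) (nat_lit 0) (XT.lf (nat_lit 0) (nat_lit 37517095490) (nat_lit 152) (nat_lit 10855269287) (nat_lit 0) (nat_lit 14247256575) (nat_lit 5) (nat_lit 5) (nat_lit 7) (nat_lit 4) (nat_lit 5) (nat_lit 4) (nat_lit 316) (nat_lit 237) (nat_lit 167)) (XT.lf (nat_lit 0) (nat_lit 42364670268) (nat_lit 152) (nat_lit 4112840620) (nat_lit 0) (nat_lit 19057175146) (nat_lit 5) (nat_lit 5) (nat_lit 7) (nat_lit 4) (nat_lit 5) (nat_lit 4) (nat_lit 317) (nat_lit 237) (nat_lit 166)))) (XT.nd (nat_lit 156) (nat_lit 0) (nat_lit 0) (XT.nd (nat_lit 78) (nat_lit 0) (nat_lit 0) (XT.lf (nat_lit 0) (nat_lit 3043192388) (nat_lit 76) (nat_lit 44446957034) (nat_lit 76) (nat_lit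 21103598858) (nat_lit 4) (nat_lit 4) (nat_lit 5) (nat_lit 5) (nat_lit 5) (nat_lit 4) (nat_lit 318) (nat_lit 237) (nat_lit 165)) (XT.lf (nat_lit 0) (nat_lit 10679234722) (nat_lit 76) (nat_lit 42250583123) (nat_lit 76) (nat_lit 18873069657) (nat_lit 4) (nat_lit 4) (nat_lit 5) (nat_lit 5) (nat_lit 5) (nat_lit 4) (nat_lit 319) (nat_lit 237) (nat_lit 164))) (XT.nd (nat_lit 78) (nat_lit 0) (nat_lit 0) (XT.lf (nat_lit 0) (nat_lit 18677478351) (nat_lit 76) (nat_lit 39952812641) (nat_lit 76) (nat_lit 16542770328) (nat_lit 4) (nat_lit 4) (nat_lit 5) (nat_lit 5) (nat_lit 5) (nat_lit 4) (nat_lit 320) (nat_lit 237) (nat_lit 163)) (XT.nd (nat_lit 78) (nat_lit 0) (nat_lit 0) (XT.lf (nat_lit 0) (nat_lit 27056966713) (nat_lit 76) (nat_lit 37548174704) (nat_lit 76) (nat_lit 14107152536) (nat_lit 4) (nat_lit 4) (nat_lit 5) (nat_lit 5) (nat_lit 5) (nat_lit 4) (nat_lit 321) (nat_lit 237) (nat_lit 162))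 (XT.lf (nat_lit 0) (nat_lit 35837650968) (nat_lit 76) (nat_lit 35030943984) (nat_lit 76) (nat_lit 11560417193) (nat_lit 4) (nat_lit 4) (nat_lit 5) (nat_lit 5) (nat_lit 5) (nat_lit 4) (nat_lit 322) (nat_lit 237) (nat_lit 161)))))) (XT.nd (nat_lit 312) (nat_lit 152) (nat_lit 0) (XT.nd (nat_lit 156) (nat_lit 0) (nat_lit 0) (XT.nd (nat_lit 78) (nat_lit 0) (nat_lit 0) (XT.lf (nat_lit 0) (nat_lit 45040437510) (nat_lit 76) (nat_lit 32395127075) (nat_lit 76) (nat_lit 8896500643) (nat_lit 4) (nat_lit 4) (nat_lit 5) (nat_lit 5) (nat_lit 5) (nat_lit 4) (nat_lit 323) (nat_lit 237) (nat_lit 160)) (XT.lf (nat_lit 0) (nat_lit 54687237733) (nat_lit 76) (nat_lit 29634448223) (nat_lit 76) (nat_lit 6109060227) (nat_lit 4) (nat_lit 4) (nat_lit 5) (nat_lit 5) (nat_lit 5) (nat_lit 4) (nat_lit 324) (nat_lit 237) (nat_lit 159))) (XT.nd (nat_lit 78) (nat_lit 0) (nat_lit 0) (XT.lf (nat_lit 0) (nat_lit 64801020211)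 (nat_lit 76) (nat_lit 26742334382) (nat_lit 76) (nat_lit 3191459183) (nat_lit 4) (nat_lit 4) (nat_lit 5) (nat_lit 5) (nat_lit 5) (nat_lit 4) (nat_lit 325) (nat_lit 237) (nat_lit 158)) (XT.lf (nat_lit 0) (nat_lit 75405865377) (nat_lit 76) (nat_lit 23711899566) (nat_lit 76) (nat_lit 136750841) (nat_lit 4) (nat_lit 4) (nat_lit 5) (nat_lit 5) (nat_lit 5) (nat_lit 4) (nat_lit 326) (nat_lit 237) (nat_lit 157)))) (XT.nd (nat_lit 156) (nat_lit 76) (nat_lit 0) (XT.nd (nat_lit 78) (nat_lit 0) (nat_lit 0) (XT.lf (nat_lit 0) (nat_lit 2964323975) (nat_lit 152) (nat_lit 17521402221) (nat_lit 76) (nat_lit 83512496628) (nat_lit 3) (nat_lit 5) (nat_lit 5) (nat_lit 5) (nat_lit 4) (nat_lit 4) (nat_lit 327) (nat_lit 237) (nat_lit 156)) (XT.lf (nat_lit 0) (nat_lit 6208154338) (nat_lit 152) (nat_lit 10893566779) (nat_lit 76) (nat_lit 91877679180) (nat_lit 3) (nat_lit 5) (nat_lit 5) (nat_lit 5) (nat_lit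 4) (nat_lit 4) (nat_lit 328) (nat_lit 237) (nat_lit 155))) (XT.nd (nat_lit 78) (nat_lit 76) (nat_lit 0) (XT.lf (nat_lit 0) (nat_lit 9606840536) (nat_lit 152) (nat_lit 3947228459) (nat_lit 76) (nat_lit 100655945912) (nat_lit 3) (nat_lit 5) (nat_lit 5) (nat_lit 5) (nat_lit 4) (nat_lit 4) (nat_lit 329) (nat_lit 237) (nat_lit 154)) (XT.nd (nat_lit 78) (nat_lit 0) (nat_lit 0) (XT.lf (nat_lit 0) (nat_lit 3444393750) (nat_lit 76) (nat_lit 9777857566) (nat_lit 152) (nat_lit 106477580350) (nat_lit 2) (nat_lit 5) (nat_lit 3) (nat_lit 5) (nat_lit 4) (nat_lit 4) (nat_lit 330) (nat_lit 237) (nat_lit 153)) (XT.lf (nat_lit 0) (nat_lit 11330558779) (nat_lit 76) (nat_lit 5747879841) (nat_lit 152) (nat_lit 108382710755) (nat_lit 2) (nat_lit 5) (nat_lit 3) (nat_lit 5) (nat_lit 4) (nat_lit 4) (nat_lit 331) (nat_lit 237) (nat_lit 152))))))))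
noncomputable def xc102 : XT := (XT.nd (nat_lit 1326) (nat_lit 76) (nat_lit 0) (XT.nd (nat_lit 624) (nat_lit 0) (nat_lit 0) (XT.nd (nat_lit 312) (nat_lit 0) (nat_lit 0) (XT.nd (nat_lit 156) (nat_lit 0) (nat_lit 0) (XT.nd (nat_lit 78) (nat_lit 0) (nat_lit 0) (XT.lf (nat_lit 0) (nat_lit 19599530011) (nat_lit 76) (nat_lit 1521388858) (nat_lit 152) (nat_lit 110389949835) (nat_lit 2) (nat_lit 5) (nat_lit 3) (nat_lit 5) (nat_lit 4) (nat_lit 4) (nat_lit 332) (nat_lit 237) (nat_lit 151)) (XT.lf (nat_lit 0) (nat_lit 25404776479) (nat_lit 152) (nat_lit 109637857737) (nat_lit 0) (nat_lit 2818486560) (nat_lit 2) (nat_lit 5) (nat_lit 4) (nat_lit 4) (nat_lit 2) (nat_lit 4) (nat_lit 333) (nat_lit 237) (nat_lit 150))) (XT.nd (nat_lit 78) (nat_lit 0) (nat_lit 0) (XT.lf (nat_lit 0) (nat_lit 29921786582) (nat_lit 152) (nat_lit 107286310150) (nat_lit 0) (nat_lit 7319849732) (nat_lit 2) (nat_lit 5) (nat_lit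 4) (nat_lit 4) (nat_lit 2) (nat_lit 4) (nat_lit 334) (nat_lit 237) (nat_lit 149)) (XT.lf (nat_lit 0) (nat_lit 34658950822) (nat_lit 152) (nat_lit 104827343867) (nat_lit 0) (nat_lit 12042112132) (nat_lit 2) (nat_lit 5) (nat_lit 4) (nat_lit 4) (nat_lit 2) (nat_lit 4) (nat_lit 335) (nat_lit 237) (nat_lit 148)))) (XT.nd (nat_lit 156) (nat_lit 0) (nat_lit 0) (XT.nd (nat_lit 78) (nat_lit 0) (nat_lit 0) (XT.lf (nat_lit 0) (nat_lit 39627548160) (nat_lit 152) (nat_lit 102255104205) (nat_lit 0) (nat_lit 16996517242) (nat_lit 2) (nat_lit 5) (nat_lit 4) (nat_lit 4) (nat_lit 2) (nat_lit 4) (nat_lit 336) (nat_lit 237) (nat_lit 147)) (XT.lf (nat_lit 0) (nat_lit 44839408591) (nat_lit 152) (nat_lit 99563466784) (nat_lit 0) (nat_lit 22194861265) (nat_lit 2) (nat_lit 5) (nat_lit 4) (nat_lit 4) (nat_lit 2) (nat_lit 4) (nat_lit 337) (nat_lit 237) (nat_lit 146))) (XT.nd (nat_lit 78) (nat_lit 0) (nat_lit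 0) (XT.lf (nat_lit 0) (nat_lit 50306941307) (nat_lit 152) (nat_lit 96746022944) (nat_lit 0) (nat_lit 27649521211) (nat_lit 2) (nat_lit 5) (nat_lit 4) (nat_lit 4) (nat_lit 2) (nat_lit 4) (nat_lit 338) (nat_lit 237) (nat_lit 145)) (XT.lf (nat_lit 0) (nat_lit 56043164241) (nat_lit 152) (nat_lit 93796064485) (nat_lit 0) (nat_lit 33373484365) (nat_lit 2) (nat_lit 5) (nat_lit 4) (nat_lit 4) (nat_lit 2) (nat_lit 4) (nat_lit 339) (nat_lit 237) (nat_lit 144))))) (XT.nd (nat_lit 312) (nat_lit 0) (nat_lit 0) (XT.nd (nat_lit 156) (nat_lit 0) (nat_lit 0) (XT.nd (nat_lit 78) (nat_lit 0) (nat_lit 0) (XT.lf (nat_lit 0) (nat_lit 62061735068) (nat_lit 152) (nat_lit 90706567696) (nat_lit 0) (nat_lit 39380379211) (nat_lit 2) (nat_lit 5) (nat_lit 4) (nat_lit 4) (nat_lit 2) (nat_lit 4) (nat_lit 340) (nat_lit 237) (nat_lit 143)) (XT.lf (nat_lit 0) (nat_lit 68376983719) (nat_lit 152) (nat_lit 87470176634)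 (nat_lit 0) (nat_lit 45684507879) (nat_lit 2) (nat_lit 5) (nat_lit 4) (nat_lit 4) (nat_lit 2) (nat_lit 4) (nat_lit 341) (nat_lit 237) (nat_lit 142))) (XT.nd (nat_lit 78) (nat_lit 0) (nat_lit 0) (XT.lf (nat_lit 0) (nat_lit 75003946499) (nat_lit 152) (nat_lit 84079185604) (nat_lit 0) (nat_lit 52300880200) (nat_lit 2) (nat_lit 5) (nat_lit 4) (nat_lit 4) (nat_lit 2) (nat_lit 4) (nat_lit 342) (nat_lit 237) (nat_lit 141)) (XT.lf (nat_lit 0) (nat_lit 81958401891) (nat_lit 152) (nat_lit 80525520819) (nat_lit 0) (nat_lit 59245249440) (nat_lit 2) (nat_lit 5) (nat_lit 4) (nat_lit 4) (nat_lit 2) (nat_lit 4) (nat_lit 343) (nat_lit 237) (nat_lit 140)))) (XT.nd (nat_lit 156) (nat_lit 0) (nat_lit 0) (XT.nd (nat_lit 78) (nat_lit 0) (nat_lit 0) (XT.lf (nat_lit 0) (nat_lit 89256908123) (nat_lit 152) (nat_lit 76800721171) (nat_lit 0) (nat_lit 66534149814) (nat_lit 2) (nat_lit 5) (nat_lit 4) (nat_lit 4)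 (nat_lit 2) (nat_lit 4) (nat_lit 344) (nat_lit 237) (nat_lit 139)) (XT.lf (nat_lit 0) (nat_lit 96916842591) (nat_lit 152) (nat_lit 72895918092) (nat_lit 0) (nat_lit 74184935844) (nat_lit 2) (nat_lit 5) (nat_lit 4) (nat_lit 4) (nat_lit 2) (nat_lit 4) (nat_lit 345) (nat_lit 237) (nat_lit 138))) (XT.nd (nat_lit 78) (nat_lit 0) (nat_lit 0) (XT.lf (nat_lit 0) (nat_lit 104956443232) (nat_lit 152) (nat_lit 68801814429) (nat_lit 0) (nat_lit 82215823689) (nat_lit 2) (nat_lit 5) (nat_lit 4) (nat_lit 4) (nat_lit 2) (nat_lit 4) (nat_lit 346) (nat_lit 237) (nat_lit 137)) (XT.nd (nat_lit 78) (nat_lit 0) (nat_lit 0) (XT.lf (nat_lit 0) (nat_lit 113394851955) (nat_lit 152) (nat_lit 64508662318) (nat_lit 0) (nat_lit 90645934510) (nat_lit 2) (nat_lit 5) (nat_lit 4) (nat_lit 4) (nat_lit 2) (nat_lit 4) (nat_lit 347) (nat_lit 237) (nat_lit 136)) (XT.lf (nat_lit 0) (nat_lit 122252160208) (nat_lit 152) (nat_lit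 60006239967) (nat_lit 0) (nat_lit 99495339999) (nat_lit 2) (nat_lit 5) (nat_lit 4) (nat_lit 4) (nat_lit 2) (nat_lit 4) (nat_lit 348) (nat_lit 237) (nat_lit 135))))))) (XT.nd (nat_lit 624) (nat_lit 76) (nat_lit 0) (XT.nd (nat_lit 312) (nat_lit 0) (nat_lit 0) (XT.nd (nat_lit 156) (nat_lit 0) (nat_lit 0) (XT.nd (nat_lit 78) (nat_lit 0) (nat_lit 0) (XT.lf (nat_lit 0) (nat_lit 131549456820) (nat_lit 152) (nat_lit 55283827324) (nat_lit 0) (nat_lit 108785110169) (nat_lit 2) (nat_lit 5) (nat_lit 4) (nat_lit 4) (nat_lit 2) (nat_lit 4) (nat_lit 349) (nat_lit 237) (nat_lit 134)) (XT.lf (nat_lit 0) (nat_lit 141308878213) (nat_lit 152) (nat_lit 50330180548) (nat_lit 0) (nat_lit 118537363522) (nat_lit 2) (nat_lit 5) (nat_lit 4) (nat_lit 4) (nat_lit 2) (nat_lit 4) (nat_lit 350) (nat_lit 237) (nat_lit 133))) (XT.nd (nat_lit 78) (nat_lit 0) (nat_lit 0) (XT.lf (nat_lit 0) (nat_lit 151553661102) (nat_lit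 152) (nat_lit 45133505244) (nat_lit 0) (nat_lit 128775319707) (nat_lit 2) (nat_lit 5) (nat_lit 4) (nat_lit 4) (nat_lit 2) (nat_lit 4) (nat_lit 351) (nat_lit 237) (nat_lit 132)) (XT.lf (nat_lit 0) (nat_lit 162308197829) (nat_lit 152) (nat_lit 39681428373) (nat_lit 0) (nat_lit 139523354811) (nat_lit 2) (nat_lit 5) (nat_lit 4) (nat_lit 4) (nat_lit 2) (nat_lit 4) (nat_lit 352) (nat_lit 237) (nat_lit 131)))) (XT.nd (nat_lit 156) (nat_lit 0) (nat_lit 0) (XT.nd (nat_lit 78) (nat_lit 0) (nat_lit 0) (XT.lf (nat_lit 0) (nat_lit 173598094434) (nat_lit 152) (nat_lit 33960968801) (nat_lit 0) (nat_lit 150807059393) (nat_lit 2) (nat_lit 5) (nat_lit 4) (nat_lit 4) (nat_lit 2) (nat_lit 4) (nat_lit 353) (nat_lit 237) (nat_lit 130)) (XT.lf (nat_lit 0) (nat_lit 185450231623) (nat_lit 152) (nat_lit 27958506387) (nat_lit 0) (nat_lit 162653299418) (nat_lit 2) (nat_lit 5) (nat_lit 4) (nat_lit 4) (nat_lit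 2) (nat_lit 4) (nat_lit 354) (nat_lit 237) (nat_lit 129))) (XT.nd (nat_lit 78) (nat_lit 0) (nat_lit 0) (XT.lf (nat_lit 0) (nat_lit 197892828769) (nat_lit 152) (nat_lit 21659749552) (nat_lit 0) (nat_lit 175090280218) (nat_lit 2) (nat_lit 5) (nat_lit 4) (nat_lit 4) (nat_lit 2) (nat_lit 4) (nat_lit 355) (nat_lit 237) (nat_lit 128)) (XT.lf (nat_lit 0) (nat_lit 210955511105) (nat_lit 152) (nat_lit 15049701257) (nat_lit 0) (nat_lit 188147613652) (nat_lit 2) (nat_lit 5) (nat_lit 4) (nat_lit 4) (nat_lit 2) (nat_lit 4) (nat_lit 356) (nat_lit 237) (nat_lit 127))))) (XT.nd (nat_lit 28704) (nat_lit 0) (nat_lit 7524) (XT.nd (nat_lit 156) (nat_lit 76) (nat_lit 0) (XT.nd (nat_lit 78) (nat_lit 0) (nat_lit 0) (XT.lf (nat_lit 0) (nat_lit 224669380254) (nat_lit 152) (nat_lit 8112623291) (nat_lit 0) (nat_lit 201856388609) (nat_lit 2) (nat_lit 5) (nat_lit 4) (nat_lit 4) (nat_lit 2) (nat_lit 4) (nat_lit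 357) (nat_lit 237) (nat_lit 126)) (XT.lf (nat_lit 0) (nat_lit 239067088287) (nat_lit 152) (nat_lit 831998803) (nat_lit 0) (nat_lit 216249245031) (nat_lit 2) (nat_lit 5) (nat_lit 4) (nat_lit 4) (nat_lit 2) (nat_lit 4) (nat_lit 358) (nat_lit 237) (nat_lit 125))) (XT.nd (nat_lit 78) (nat_lit 0) (nat_lit 0) (XT.lf (nat_lit 0) (nat_lit 7034660083) (nat_lit 76) (nat_lit 247258086136) (nat_lit 76) (nat_lit 224435622297) (nat_lit 1) (nat_lit 4) (nat_lit 2) (nat_lit 5) (nat_lit 2) (nat_lit 4) (nat_lit 359) (nat_lit 237) (nat_lit 124)) (XT.lf (nat_lit 0) (nat_lit 15320437956) (nat_lit 76) (nat_lit 254971608854) (nat_lit 76) (nat_lit 232144744461) (nat_lit 1) (nat_lit 4) (nat_lit 2) (nat_lit 5) (nat_lit 2) (nat_lit 4) (nat_lit 360) (nat_lit 237) (nat_lit 123)))) (XT.nd (nat_lit 156) (nat_lit 304) (nat_lit 0) (XT.nd (nat_lit 78) (nat_lit 228) (nat_lit 0) (XT.lf (nat_lit 0) (nat_lit 2694396634)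 (nat_lit 76) (nat_lit 275911440) (nat_lit 76) (nat_lit 275911440) (nat_lit 107) (nat_lit 4) (nat_lit 108) (nat_lit 5) (nat_lit 108) (nat_lit 4) (nat_lit 244) (nat_lit 238) (nat_lit 238)) (XT.lf (nat_lit 0) (nat_lit 2090450096) (nat_lit 152) (nat_lit 91193374) (nat_lit 228) (nat_lit 4340214603) (nat_lit 104) (nat_lit 5) (nat_lit 106) (nat_lit 5) (nat_lit 107) (nat_lit 4) (nat_lit 245) (nat_lit 238) (nat_lit 237))) (XT.nd (nat_lit 78) (nat_lit 304) (nat_lit 0) (XT.lf (nat_lit 0) (nat_lit 4896156287) (nat_lit 228) (nat_lit 1197044114) (nat_lit 0) (nat_lit 467191219) (nat_lit 104) (nat_lit 5) (nat_lit 107) (nat_lit 4) (nat_lit 104) (nat_lit 4) (nat_lit 246) (nat_lit 238) (nat_lit 236)) (XT.nd (nat_lit 78) (nat_lit 0) (nat_lit 0) (XT.lf (nat_lit 0) (nat_lit 986509720) (nat_lit 304) (nat_lit 4464211345) (nat_lit 76) (nat_lit 1156481273) (nat_lit 100) (nat_lit 5) (nat_lit 104) (nat_lit 5)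 (nat_lit 101) (nat_lit 4) (nat_lit 247) (nat_lit 238) (nat_lit 235)) (XT.lf (nat_lit 0) (nat_lit 3582169163) (nat_lit 304) (nat_lit 1102720159) (nat_lit 76) (nat_lit 1977757511) (nat_lit 100) (nat_lit 5) (nat_lit 104) (nat_lit 5) (nat_lit 101) (nat_lit 4) (nat_lit 248) (nat_lit 238) (nat_lit 234))))))))
noncomputable def xc103 : XT := (XT.nd (nat_lit 1326) (nat_lit 2128) (nat_lit 0) (XT.nd (nat_lit 624) (nat_lit 1672) (nat_lit 0) (XT.nd (nat_lit 312) (nat_lit 1748) (nat_lit 0) (XT.nd (nat_lit 156) (nat_lit 380) (nat_lit 0) (XT.nd (nat_lit 78) (nat_lit 76) (nat_lit 0) (XT.lf (nat_lit 0) (nat_lit 2397532223) (nat_lit 304) (nat_lit 3802465360) (nat_lit 380) (nat_lit 527268272) (nat_lit 96) (nat_lit 5) (nat_lit 100) (nat_lit 5) (nat_lit 101) (nat_lit 4) (nat_lit 249) (nat_lit 238) (nat_lit 233)) (XT.lf (nat_lit 0) (nat_lit 1960652790) (nat_lit 380) (nat_lit 827024590) (nat_lit 76) (nat_lit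 4012884890) (nat_lit 95) (nat_lit 5) (nat_lit 100) (nat_lit 5) (nat_lit 96) (nat_lit 5) (nat_lit 250) (nat_lit 238) (nat_lit 232))) (XT.nd (nat_lit 78) (nat_lit 0) (nat_lit 0) (XT.lf (nat_lit 0) (nat_lit 2827931646) (nat_lit 380) (nat_lit 1635278764) (nat_lit 456) (nat_lit 2419365400) (nat_lit 90) (nat_lit 5) (nat_lit 95) (nat_lit 5) (nat_lit 96) (nat_lit 5) (nat_lit 251) (nat_lit 238) (nat_lit 231)) (XT.lf (nat_lit 0) (nat_lit 6591281744) (nat_lit 380) (nat_lit 382304632) (nat_lit 456) (nat_lit 1809604) (nat_lit 90) (nat_lit 5) (nat_lit 95) (nat_lit 5) (nat_lit 96) (nat_lit 5) (nat_lit 252) (nat_lit 238) (nat_lit 230)))) (XT.nd (nat_lit 156) (nat_lit 684) (nat_lit 0) (XT.nd (nat_lit 78) (nat_lit 532) (nat_lit 0) (XT.lf (nat_lit 0) (nat_lit 2397699932) (nat_lit 532) (nat_lit 3654636450) (nat_lit 76) (nat_lit 1022189735) (nat_lit 83) (nat_lit 5) (nat_lit 90) (nat_lit 5) (nat_lit 84)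 (nat_lit 5) (nat_lit 253) (nat_lit 238) (nat_lit 229)) (XT.lf (nat_lit 0) (nat_lit 138446771) (nat_lit 532) (nat_lit 4670677753) (nat_lit 608) (nat_lit 2375612767) (nat_lit 76) (nat_lit 5) (nat_lit 83) (nat_lit 5) (nat_lit 84) (nat_lit 5) (nat_lit 254) (nat_lit 238) (nat_lit 228))) (XT.nd (nat_lit 78) (nat_lit 684) (nat_lit 0) (XT.lf (nat_lit 0) (nat_lit 4141095834) (nat_lit 532) (nat_lit 3143066282) (nat_lit 608) (nat_lit 19836282) (nat_lit 76) (nat_lit 5) (nat_lit 83) (nat_lit 5) (nat_lit 84) (nat_lit 5) (nat_lit 255) (nat_lit 238) (nat_lit 227)) (XT.lf (nat_lit 0) (nat_lit 795477947) (nat_lit 608) (nat_lit 1476451324) (nat_lit 684) (nat_lit 5161168241) (nat_lit 67) (nat_lit 5) (nat_lit 75) (nat_lit 5) (nat_lit 76) (nat_lit 5) (nat_lit 256) (nat_lit 238) (nat_lit 226))))) (XT.nd (nat_lit 312) (nat_lit 608) (nat_lit 0) (XT.nd (nat_lit 156) (nat_lit 380) (nat_lit 0) (XT.nd (nat_lit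 78) (nat_lit 684) (nat_lit 0) (XT.lf (nat_lit 0) (nat_lit 4624633014) (nat_lit 684) (nat_lit 2620773008) (nat_lit 76) (nat_lit 326475786) (nat_lit 67) (nat_lit 5) (nat_lit 76) (nat_lit 5) (nat_lit 68) (nat_lit 5) (nat_lit 257) (nat_lit 238) (nat_lit 225)) (XT.lf (nat_lit 0) (nat_lit 1515588936) (nat_lit 684) (nat_lit 5520871737) (nat_lit 760) (nat_lit 684639074) (nat_lit 58) (nat_lit 5) (nat_lit 67) (nat_lit 5) (nat_lit 68) (nat_lit 5) (nat_lit 258) (nat_lit 238) (nat_lit 224))) (XT.nd (nat_lit 78) (nat_lit 304) (nat_lit 0) (XT.lf (nat_lit 0) (nat_lit 1576940143) (nat_lit 760) (nat_lit 2060853534) (nat_lit 76) (nat_lit 4242182505) (nat_lit 57) (nat_lit 5) (nat_lit 67) (nat_lit 5) (nat_lit 58) (nat_lit 5) (nat_lit 259) (nat_lit 238) (nat_lit 223)) (XT.lf (nat_lit 0) (nat_lit 2249014560) (nat_lit 304) (nat_lit 1614548955) (nat_lit 380) (nat_lit 4186414475) (nat_lit 53) (nat_lit 5) (nat_lit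 57) (nat_lit 5) (nat_lit 58) (nat_lit 5) (nat_lit 260) (nat_lit 238) (nat_lit 222)))) (XT.nd (nat_lit 156) (nat_lit 228) (nat_lit 0) (XT.nd (nat_lit 78) (nat_lit 380) (nat_lit 0) (XT.lf (nat_lit 0) (nat_lit 6210936808) (nat_lit 380) (nat_lit 1495716608) (nat_lit 76) (nat_lit 524973543) (nat_lit 53) (nat_lit 5) (nat_lit 58) (nat_lit 5) (nat_lit 54) (nat_lit 5) (nat_lit 261) (nat_lit 238) (nat_lit 221)) (XT.lf (nat_lit 0) (nat_lit 225264912) (nat_lit 380) (nat_lit 5434592652) (nat_lit 76) (nat_lit 2763724940) (nat_lit 48) (nat_lit 5) (nat_lit 53) (nat_lit 5) (nat_lit 49) (nat_lit 5) (nat_lit 262) (nat_lit 238) (nat_lit 220))) (XT.nd (nat_lit 78) (nat_lit 228) (nat_lit 0) (XT.lf (nat_lit 0) (nat_lit 2449924354) (nat_lit 380) (nat_lit 1010652639) (nat_lit 76) (nat_lit 5166591060) (nat_lit 48) (nat_lit 5) (nat_lit 53) (nat_lit 5) (nat_lit 49) (nat_lit 5) (nat_lit 263) (nat_lit 238) (nat_lit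 219)) (XT.nd (nat_lit 78) (nat_lit 0) (nat_lit 0) (XT.lf (nat_lit 0) (nat_lit 3653218210) (nat_lit 228) (nat_lit 1102558506) (nat_lit 304) (nat_lit 4087043197) (nat_lit 45) (nat_lit 5) (nat_lit 48) (nat_lit 5) (nat_lit 49) (nat_lit 5) (nat_lit 264) (nat_lit 238) (nat_lit 218)) (XT.lf (nat_lit 0) (nat_lit 7131131366) (nat_lit 304) (nat_lit 605757855) (nat_lit 76) (nat_lit 1335021360) (nat_lit 45) (nat_lit 5) (nat_lit 49) (nat_lit 5) (nat_lit 46) (nat_lit 5) (nat_lit 265) (nat_lit 238) (nat_lit 217))))))) (XT.nd (nat_lit 702) (nat_lit 760) (nat_lit 0) (XT.nd (nat_lit 312) (nat_lit 760) (nat_lit 0) (XT.nd (nat_lit 156) (nat_lit 228) (nat_lit 0) (XT.nd (nat_lit 78) (nat_lit 0) (nat_lit 0) (XT.lf (nat_lit 0) (nat_lit 305997749) (nat_lit 380) (nat_lit 5089226136) (nat_lit 76) (nat_lit 3917159754) (nat_lit 40) (nat_lit 5) (nat_lit 45) (nat_lit 5) (nat_lit 41) (nat_lit 5) (nat_lit 266) (nat_lit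 238) (nat_lit 216)) (XT.lf (nat_lit 0) (nat_lit 2530474558) (nat_lit 380) (nat_lit 379404650) (nat_lit 76) (nat_lit 6657197913) (nat_lit 40) (nat_lit 5) (nat_lit 45) (nat_lit 5) (nat_lit 41) (nat_lit 5) (nat_lit 267) (nat_lit 238) (nat_lit 215))) (XT.nd (nat_lit 78) (nat_lit 0) (nat_lit 0) (XT.lf (nat_lit 0) (nat_lit 4620849489) (nat_lit 228) (nat_lit 241429101) (nat_lit 304) (nat_lit 4972723199) (nat_lit 37) (nat_lit 5) (nat_lit 40) (nat_lit 5) (nat_lit 41) (nat_lit 5) (nat_lit 268) (nat_lit 238) (nat_lit 214)) (XT.lf (nat_lit 0) (nat_lit 7283056465) (nat_lit 304) (nat_lit 366954054) (nat_lit 76) (nat_lit 2467980307) (nat_lit 37) (nat_lit 5) (nat_lit 41) (nat_lit 5) (nat_lit 38) (nat_lit 5) (nat_lit 269) (nat_lit 238) (nat_lit 213)))) (XT.nd (nat_lit 156) (nat_lit 456) (nat_lit 0) (XT.nd (nat_lit 78) (nat_lit 76) (nat_lit 0) (XT.lf (nat_lit 0) (nat_lit 4781040836) (nat_lit 228) (nat_lit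 5051842558) (nat_lit 304) (nat_lit 582119047) (nat_lit 34) (nat_lit 5) (nat_lit 37) (nat_lit 5) (nat_lit 38) (nat_lit 5) (nat_lit 270) (nat_lit 238) (nat_lit 212)) (XT.lf (nat_lit 0) (nat_lit 1662574585) (nat_lit 304) (nat_lit 647052959) (nat_lit 76) (nat_lit 8419277370) (nat_lit 33) (nat_lit 5) (nat_lit 37) (nat_lit 5) (nat_lit 34) (nat_lit 5) (nat_lit 271) (nat_lit 238) (nat_lit 211))) (XT.nd (nat_lit 78) (nat_lit 228) (nat_lit 0) (XT.lf (nat_lit 0) (nat_lit 4015644459) (nat_lit 304) (nat_lit 6427055742) (nat_lit 76) (nat_lit 614776310) (nat_lit 30) (nat_lit 5) (nat_lit 34) (nat_lit 5) (nat_lit 31) (nat_lit 5) (nat_lit 272) (nat_lit 238) (nat_lit 210)) (XT.nd (nat_lit 78) (nat_lit 228) (nat_lit 0) (XT.lf (nat_lit 0) (nat_lit 6470203785) (nat_lit 304) (nat_lit 1334828364) (nat_lit 76) (nat_lit 3598477861) (nat_lit 30) (nat_lit 5) (nat_lit 34) (nat_lit 5) (nat_lit 31) (nat_lit 5) (nat_lit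 273) (nat_lit 238) (nat_lit 209)) (XT.lf (nat_lit 0) (nat_lit 4057012894) (nat_lit 228) (nat_lit 4991758014) (nat_lit 304) (nat_lit 2718224684) (nat_lit 27) (nat_lit 5) (nat_lit 30) (nat_lit 5) (nat_lit 31) (nat_lit 5) (nat_lit 274) (nat_lit 238) (nat_lit 208)))))) (XT.nd (nat_lit 312) (nat_lit 380) (nat_lit 0) (XT.nd (nat_lit 156) (nat_lit 152) (nat_lit 0) (XT.nd (nat_lit 78) (nat_lit 228) (nat_lit 0) (XT.lf (nat_lit 0) (nat_lit 9681309709) (nat_lit 228) (nat_lit 2037153106) (nat_lit 304) (nat_lit 432287007) (nat_lit 27) (nat_lit 5) (nat_lit 30) (nat_lit 5) (nat_lit 31) (nat_lit 5) (nat_lit 275) (nat_lit 238) (nat_lit 207)) (XT.lf (nat_lit 0) (nat_lit 1910953849) (nat_lit 228) (nat_lit 9553116383) (nat_lit 76) (nat_lit 1087970835) (nat_lit 24) (nat_lit 5) (nat_lit 27) (nat_lit 5) (nat_lit 25) (nat_lit 5) (nat_lit 276) (nat_lit 238) (nat_lit 206))) (XT.nd (nat_lit 78) (nat_lit 152)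 (nat_lit 0) (XT.lf (nat_lit 0) (nat_lit 4375245109) (nat_lit 228) (nat_lit 4269015408) (nat_lit 76) (nat_lit 4328037608) (nat_lit 24) (nat_lit 5) (nat_lit 27) (nat_lit 5) (nat_lit 25) (nat_lit 5) (nat_lit 277) (nat_lit 238) (nat_lit 205)) (XT.lf (nat_lit 0) (nat_lit 1239945683) (nat_lit 152) (nat_lit 5687415066) (nat_lit 228) (nat_lit 6488144786) (nat_lit 22) (nat_lit 5) (nat_lit 24) (nat_lit 5) (nat_lit 25) (nat_lit 5) (nat_lit 278) (nat_lit 238) (nat_lit 204)))) (XT.nd (nat_lit 156) (nat_lit 380) (nat_lit 0) (XT.nd (nat_lit 78) (nat_lit 0) (nat_lit 0) (XT.lf (nat_lit 0) (nat_lit 7094809161) (nat_lit 152) (nat_lit 2531214754) (nat_lit 228) (nat_lit 4254062300) (nat_lit 22) (nat_lit 5) (nat_lit 24) (nat_lit 5) (nat_lit 25) (nat_lit 5) (nat_lit 279) (nat_lit 238) (nat_lit 203)) (XT.lf (nat_lit 0) (nat_lit 12420663728) (nat_lit 228) (nat_lit 1214085639) (nat_lit 76) (nat_lit 735246759)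 (nat_lit 22) (nat_lit 5) (nat_lit 25) (nat_lit 5) (nat_lit 23) (nat_lit 4) (nat_lit 280) (nat_lit 238) (nat_lit 202))) (XT.nd (nat_lit 78) (nat_lit 152) (nat_lit 0) (XT.lf (nat_lit 0) (nat_lit 522187446) (nat_lit 228) (nat_lit 10218762864) (nat_lit 76) (nat_lit 4139891198) (nat_lit 19) (nat_lit 5) (nat_lit 22) (nat_lit 5) (nat_lit 20) (nat_lit 5) (nat_lit 281) (nat_lit 238) (nat_lit 201)) (XT.nd (nat_lit 78) (nat_lit 152) (nat_lit 0) (XT.lf (nat_lit 0) (nat_lit 3024220499) (nat_lit 228) (nat_lit 4647599832) (nat_lit 76) (nat_lit 7745320258) (nat_lit 19) (nat_lit 5) (nat_lit 22) (nat_lit 5) (nat_lit 20) (nat_lit 5) (nat_lit 282) (nat_lit 238) (nat_lit 200)) (XT.lf (nat_lit 0) (nat_lit 1169744432) (nat_lit 152) (nat_lit 4453730303) (nat_lit 228) (nat_lit 10358299267) (nat_lit 17) (nat_lit 5) (nat_lit 19) (nat_lit 5) (nat_lit 20) (nat_lit 5) (nat_lit 283) (nat_lit 238) (nat_lit 199))))))))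
noncomputable def xc104 : XT := (XT.nd (nat_lit 1326) (nat_lit 228) (nat_lit 0) (XT.nd (nat_lit 624) (nat_lit 380) (nat_lit 0) (XT.nd (nat_lit 312) (nat_lit 228) (nat_lit 0) (XT.nd (nat_lit 156) (nat_lit 76) (nat_lit 0) (XT.nd (nat_lit 78) (nat_lit 0) (nat_lit 0) (XT.lf (nat_lit 0) (nat_lit 7370620100) (nat_lit 152) (nat_lit 1015762343) (nat_lit 228) (nat_lit 8186691492) (nat_lit 17) (nat_lit 5) (nat_lit 19) (nat_lit 5) (nat_lit 20) (nat_lit 5) (nat_lit 284) (nat_lit 238) (nat_lit 198)) (XT.lf (nat_lit 0) (nat_lit 11284709944) (nat_lit 228) (nat_lit 3420225041) (nat_lit 76) (nat_lit 2489253860) (nat_lit 17) (nat_lit 5) (nat_lit 20) (nat_lit 5) (nat_lit 18) (nat_lit 4) (nat_lit 285) (nat_lit 238) (nat_lit 197))) (XT.nd (nat_lit 78) (nat_lit 0) (nat_lit 0) (XT.lf (nat_lit 0) (nat_lit 2655331989) (nat_lit 76) (nat_lit 11689562437) (nat_lit 152) (nat_lit 3500726331) (nat_lit 16) (nat_lit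 5) (nat_lit 17) (nat_lit 5) (nat_lit 18) (nat_lit 4) (nat_lit 286) (nat_lit 238) (nat_lit 196)) (XT.lf (nat_lit 0) (nat_lit 9090324967) (nat_lit 76) (nat_lit 8485493401) (nat_lit 152) (nat_lit 953022515) (nat_lit 16) (nat_lit 5) (nat_lit 17) (nat_lit 5) (nat_lit 18) (nat_lit 4) (nat_lit 287) (nat_lit 238) (nat_lit 195)))) (XT.nd (nat_lit 156) (nat_lit 0) (nat_lit 0) (XT.nd (nat_lit 78) (nat_lit 152) (nat_lit 0) (XT.lf (nat_lit 0) (nat_lit 1627948026) (nat_lit 152) (nat_lit 3487504194) (nat_lit 76) (nat_lit 14131469101) (nat_lit 15) (nat_lit 5) (nat_lit 17) (nat_lit 5) (nat_lit 16) (nat_lit 5) (nat_lit 288) (nat_lit 238) (nat_lit 194)) (XT.lf (nat_lit 0) (nat_lit 2775739125) (nat_lit 152) (nat_lit 1536392867) (nat_lit 228) (nat_lit 15687772077) (nat_lit 13) (nat_lit 5) (nat_lit 15) (nat_lit 5) (nat_lit 16) (nat_lit 5) (nat_lit 289) (nat_lit 238) (nat_lit 193))) (XT.nd (nat_lit 78) (nat_lit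 0) (nat_lit 0) (XT.lf (nat_lit 0) (nat_lit 7188634078) (nat_lit 228) (nat_lit 11409172157) (nat_lit 76) (nat_lit 2189909118) (nat_lit 13) (nat_lit 5) (nat_lit 16) (nat_lit 5) (nat_lit 14) (nat_lit 4) (nat_lit 290) (nat_lit 238) (nat_lit 192)) (XT.lf (nat_lit 0) (nat_lit 10199283660) (nat_lit 228) (nat_lit 5384957709) (nat_lit 76) (nat_lit 6031240519) (nat_lit 13) (nat_lit 5) (nat_lit 16) (nat_lit 5) (nat_lit 14) (nat_lit 4) (nat_lit 291) (nat_lit 238) (nat_lit 191))))) (XT.nd (nat_lit 312) (nat_lit 304) (nat_lit 0) (XT.nd (nat_lit 156) (nat_lit 0) (nat_lit 0) (XT.nd (nat_lit 78) (nat_lit 0) (nat_lit 0) (XT.lf (nat_lit 0) (nat_lit 916131083) (nat_lit 76) (nat_lit 12425433843) (nat_lit 152) (nat_lit 9144093819) (nat_lit 12) (nat_lit 5) (nat_lit 13) (nat_lit 5) (nat_lit 14) (nat_lit 4) (nat_lit 292) (nat_lit 238) (nat_lit 190)) (XT.lf (nat_lit 0) (nat_lit 7666435050) (nat_lit 76) (nat_lit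 9033274809) (nat_lit 152) (nat_lit 6696770398) (nat_lit 12) (nat_lit 5) (nat_lit 13) (nat_lit 5) (nat_lit 14) (nat_lit 4) (nat_lit 293) (nat_lit 238) (nat_lit 189))) (XT.nd (nat_lit 78) (nat_lit 0) (nat_lit 0) (XT.lf (nat_lit 0) (nat_lit 14703975323) (nat_lit 76) (nat_lit 5490884563) (nat_lit 152) (nat_lit 4159597871) (nat_lit 12) (nat_lit 5) (nat_lit 13) (nat_lit 5) (nat_lit 14) (nat_lit 4) (nat_lit 294) (nat_lit 238) (nat_lit 188)) (XT.lf (nat_lit 0) (nat_lit 22045507948) (nat_lit 76) (nat_lit 1789828843) (nat_lit 152) (nat_lit 1526535348) (nat_lit 12) (nat_lit 5) (nat_lit 13) (nat_lit 5) (nat_lit 14) (nat_lit 4) (nat_lit 295) (nat_lit 238) (nat_lit 187)))) (XT.nd (nat_lit 156) (nat_lit 76) (nat_lit 0) (XT.nd (nat_lit 78) (nat_lit 0) (nat_lit 0) (XT.lf (nat_lit 0) (nat_lit 1256346904) (nat_lit 228) (nat_lit 23074578759) (nat_lit 76) (nat_lit 2084935499) (nat_lit 9) (nat_lit 5) (nat_lit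 12) (nat_lit 5) (nat_lit 10) (nat_lit 4) (nat_lit 296) (nat_lit 238) (nat_lit 186)) (XT.lf (nat_lit 0) (nat_lit 4185311448) (nat_lit 228) (nat_lit 17175110228) (nat_lit 76) (nat_lit 6158022138) (nat_lit 9) (nat_lit 5) (nat_lit 12) (nat_lit 5) (nat_lit 10) (nat_lit 4) (nat_lit 297) (nat_lit 238) (nat_lit 185))) (XT.nd (nat_lit 78) (nat_lit 76) (nat_lit 0) (XT.lf (nat_lit 0) (nat_lit 7233879800) (nat_lit 228) (nat_lit 11025458233) (nat_lit 76) (nat_lit 10418214480) (nat_lit 9) (nat_lit 5) (nat_lit 12) (nat_lit 5) (nat_lit 10) (nat_lit 4) (nat_lit 298) (nat_lit 238) (nat_lit 184)) (XT.nd (nat_lit 78) (nat_lit 76) (nat_lit 0) (XT.lf (nat_lit 0) (nat_lit 10409310458) (nat_lit 228) (nat_lit 4610980743) (nat_lit 76) (nat_lit 14875655838) (nat_lit 9) (nat_lit 5) (nat_lit 12) (nat_lit 5) (nat_lit 10) (nat_lit 4) (nat_lit 299) (nat_lit 238) (nat_lit 183)) (XT.lf (nat_lit 0) (nat_lit 2152487858)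 (nat_lit 76) (nat_lit 11600282480) (nat_lit 152) (nat_lit 17422077677) (nat_lit 8) (nat_lit 5) (nat_lit 9) (nat_lit 5) (nat_lit 10) (nat_lit 4) (nat_lit 300) (nat_lit 238) (nat_lit 182))))))) (XT.nd (nat_lit 624) (nat_lit 76) (nat_lit 0) (XT.nd (nat_lit 312) (nat_lit 152) (nat_lit 0) (XT.nd (nat_lit 156) (nat_lit 0) (nat_lit 0) (XT.nd (nat_lit 78) (nat_lit 0) (nat_lit 0) (XT.lf (nat_lit 0) (nat_lit 9374242170) (nat_lit 76) (nat_lit 7943436962) (nat_lit 152) (nat_lit 15197348357) (nat_lit 8) (nat_lit 5) (nat_lit 9) (nat_lit 5) (nat_lit 10) (nat_lit 4) (nat_lit 301) (nat_lit 238) (nat_lit 181)) (XT.lf (nat_lit 0) (nat_lit 16919016998) (nat_lit 76) (nat_lit 4119137063) (nat_lit 152) (nat_lit 12885240835) (nat_lit 8) (nat_lit 5) (nat_lit 9) (nat_lit 5) (nat_lit 10) (nat_lit 4) (nat_lit 302) (nat_lit 238) (nat_lit 180))) (XT.nd (nat_lit 78) (nat_lit 0) (nat_lit 0) (XT.lf (nat_lit 0) (nat_lit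 24804776090) (nat_lit 76) (nat_lit 118277308) (nat_lit 152) (nat_lit 10480250095) (nat_lit 8) (nat_lit 5) (nat_lit 9) (nat_lit 5) (nat_lit 10) (nat_lit 4) (nat_lit 303) (nat_lit 238) (nat_lit 179)) (XT.lf (nat_lit 0) (nat_lit 29045150218) (nat_lit 152) (nat_lit 3971505122) (nat_lit 0) (nat_lit 3938445368) (nat_lit 8) (nat_lit 5) (nat_lit 10) (nat_lit 4) (nat_lit 8) (nat_lit 4) (nat_lit 304) (nat_lit 238) (nat_lit 178)))) (XT.nd (nat_lit 156) (nat_lit 76) (nat_lit 0) (XT.nd (nat_lit 78) (nat_lit 0) (nat_lit 0) (XT.lf (nat_lit 0) (nat_lit 3048815669) (nat_lit 76) (nat_lit 30354276966) (nat_lit 76) (nat_lit 5179946979) (nat_lit 7) (nat_lit 4) (nat_lit 8) (nat_lit 5) (nat_lit 8) (nat_lit 4) (nat_lit 305) (nat_lit 238) (nat_lit 177)) (XT.lf (nat_lit 0) (nat_lit 10524882881) (nat_lit 76) (nat_lit 27501935095) (nat_lit 76) (nat_lit 2263200216) (nat_lit 7) (nat_lit 4) (nat_lit 8) (nat_lit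 5) (nat_lit 8) (nat_lit 4) (nat_lit 306) (nat_lit 238) (nat_lit 176))) (XT.nd (nat_lit 78) (nat_lit 0) (nat_lit 0) (XT.lf (nat_lit 0) (nat_lit 755010998) (nat_lit 152) (nat_lit 23752300325) (nat_lit 76) (nat_lit 17575383302) (nat_lit 6) (nat_lit 5) (nat_lit 8) (nat_lit 5) (nat_lit 7) (nat_lit 4) (nat_lit 307) (nat_lit 238) (nat_lit 175)) (XT.lf (nat_lit 0) (nat_lit 3830181445) (nat_lit 152) (nat_lit 17506618046) (nat_lit 76) (nat_lit 22627276932) (nat_lit 6) (nat_lit 5) (nat_lit 8) (nat_lit 5) (nat_lit 7) (nat_lit 4) (nat_lit 308) (nat_lit 238) (nat_lit 174))))) (XT.nd (nat_lit 312) (nat_lit 0) (nat_lit 0) (XT.nd (nat_lit 156) (nat_lit 76) (nat_lit 0) (XT.nd (nat_lit 78) (nat_lit 0) (nat_lit 0) (XT.lf (nat_lit 0) (nat_lit 7042069498) (nat_lit 152) (nat_lit 10977882905) (nat_lit 76) (nat_lit 27920457408) (nat_lit 6) (nat_lit 5) (nat_lit 8) (nat_lit 5) (nat_lit 7) (nat_lit 4) (nat_lit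 309) (nat_lit 238) (nat_lit 173)) (XT.lf (nat_lit 0) (nat_lit 10398322510) (nat_lit 152) (nat_lit 4150550295) (nat_lit 76) (nat_lit 33467527540) (nat_lit 6) (nat_lit 5) (nat_lit 8) (nat_lit 5) (nat_lit 7) (nat_lit 4) (nat_lit 310) (nat_lit 238) (nat_lit 172))) (XT.nd (nat_lit 78) (nat_lit 0) (nat_lit 0) (XT.lf (nat_lit 0) (nat_lit 3090552312) (nat_lit 76) (nat_lit 10864631430) (nat_lit 152) (nat_lit 36239394508) (nat_lit 5) (nat_lit 5) (nat_lit 6) (nat_lit 5) (nat_lit 7) (nat_lit 4) (nat_lit 311) (nat_lit 238) (nat_lit 171)) (XT.lf (nat_lit 0) (nat_lit 10811721816) (nat_lit 76) (nat_lit 6933329939) (nat_lit 152) (nat_lit 34733881418) (nat_lit 5) (nat_lit 5) (nat_lit 6) (nat_lit 5) (nat_lit 7) (nat_lit 4) (nat_lit 312) (nat_lit 238) (nat_lit 170)))) (XT.nd (nat_lit 156) (nat_lit 0) (nat_lit 0) (XT.nd (nat_lit 78) (nat_lit 0) (nat_lit 0) (XT.lf (nat_lit 0) (nat_lit 18894106016) (nat_lit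 76) (nat_lit 2815899668) (nat_lit 152) (nat_lit 33168245587) (nat_lit 5) (nat_lit 5) (nat_lit 6) (nat_lit 5) (nat_lit 7) (nat_lit 4) (nat_lit 313) (nat_lit 238) (nat_lit 169)) (XT.lf (nat_lit 0) (nat_lit 25882865487) (nat_lit 152) (nat_lit 30064676114) (nat_lit 0) (nat_lit 1449534626) (nat_lit 5) (nat_lit 5) (nat_lit 7) (nat_lit 4) (nat_lit 5) (nat_lit 4) (nat_lit 314) (nat_lit 238) (nat_lit 168))) (XT.nd (nat_lit 78) (nat_lit 0) (nat_lit 0) (XT.lf (nat_lit 0) (nat_lit 30297314764) (nat_lit 152) (nat_lit 23918458181) (nat_lit 0) (nat_lit 5824444886) (nat_lit 5) (nat_lit 5) (nat_lit 7) (nat_lit 4) (nat_lit 5) (nat_lit 4) (nat_lit 315) (nat_lit 238) (nat_lit 167)) (XT.nd (nat_lit 78) (nat_lit 0) (nat_lit 0) (XT.lf (nat_lit 0) (nat_lit 34919900026) (nat_lit 152) (nat_lit 17486893519) (nat_lit 0) (nat_lit 10409373941) (nat_lit 5) (nat_lit 5) (nat_lit 7) (nat_lit 4) (nat_lit 5) (nat_lit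 4) (nat_lit 316) (nat_lit 238) (nat_lit 166)) (XT.lf (nat_lit 0) (nat_lit 39761627426) (nat_lit 152) (nat_lit 10754668878) (nat_lit 0) (nat_lit 15215238287) (nat_lit 5) (nat_lit 5) (nat_lit 7) (nat_lit 4) (nat_lit 5) (nat_lit 4) (nat_lit 317) (nat_lit 238) (nat_lit 165))))))))
noncomputable def xc105 : XT := (XT.nd (nat_lit 1326) (nat_lit 0) (nat_lit 0) (XT.nd (nat_lit 624) (nat_lit 152) (nat_lit 0) (XT.nd (nat_lit 312) (nat_lit 0) (nat_lit 0) (XT.nd (nat_lit 156) (nat_lit 0) (nat_lit 0) (XT.nd (nat_lit 78) (nat_lit 76) (nat_lit 0) (XT.lf (nat_lit 0) (nat_lit 44834024887) (nat_lit 152) (nat_lit 3705755152) (nat_lit 0) (nat_lit 20253480458) (nat_lit 5) (nat_lit 5) (nat_lit 7) (nat_lit 4) (nat_lit 5) (nat_lit 4) (nat_lit 318) (nat_lit 238) (nat_lit 164)) (XT.lf (nat_lit 0) (nat_lit 3798196804) (nat_lit 76) (nat_lit 46410273238) (nat_lit 76) (nat_lit 21797199962) (nat_lit 4) (nat_lit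 4) (nat_lit 5) (nat_lit 5) (nat_lit 5) (nat_lit 4) (nat_lit 319) (nat_lit 238) (nat_lit 163))) (XT.nd (nat_lit 78) (nat_lit 0) (nat_lit 0) (XT.lf (nat_lit 0) (nat_lit 11787334361) (nat_lit 76) (nat_lit 44116415473) (nat_lit 76) (nat_lit 19472362342) (nat_lit 4) (nat_lit 4) (nat_lit 5) (nat_lit 5) (nat_lit 5) (nat_lit 4) (nat_lit 320) (nat_lit 238) (nat_lit 162)) (XT.lf (nat_lit 0) (nat_lit 20158150271) (nat_lit 76) (nat_lit 41715503933) (nat_lit 76) (nat_lit 17041946179) (nat_lit 4) (nat_lit 4) (nat_lit 5) (nat_lit 5) (nat_lit 5) (nat_lit 4) (nat_lit 321) (nat_lit 238) (nat_lit 161)))) (XT.nd (nat_lit 156) (nat_lit 0) (nat_lit 0) (XT.nd (nat_lit 78) (nat_lit 0) (nat_lit 0) (XT.lf (nat_lit 0) (nat_lit 28930575050) (nat_lit 76) (nat_lit 39201822163) (nat_lit 76) (nat_lit 14500164767) (nat_lit 4) (nat_lit 4) (nat_lit 5) (nat_lit 5) (nat_lit 5) (nat_lit 4) (nat_lit 322) (nat_lit 238) (nat_lit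 160)) (XT.lf (nat_lit 0) (nat_lit 38125495423) (nat_lit 76) (nat_lit 36569385206) (nat_lit 76) (nat_lit 11840966247) (nat_lit 4) (nat_lit 4) (nat_lit 5) (nat_lit 5) (nat_lit 5) (nat_lit 4) (nat_lit 323) (nat_lit 238) (nat_lit 159))) (XT.nd (nat_lit 78) (nat_lit 0) (nat_lit 0) (XT.lf (nat_lit 0) (nat_lit 47764804058) (nat_lit 76) (nat_lit 33811925355) (nat_lit 76) (nat_lit 9058019194) (nat_lit 4) (nat_lit 4) (nat_lit 5) (nat_lit 5) (nat_lit 5) (nat_lit 4) (nat_lit 324) (nat_lit 238) (nat_lit 158)) (XT.lf (nat_lit 0) (nat_lit 57871451689) (nat_lit 76) (nat_lit 30922877230) (nat_lit 76) (nat_lit 6144697542) (nat_lit 4) (nat_lit 4) (nat_lit 5) (nat_lit 5) (nat_lit 5) (nat_lit 4) (nat_lit 325) (nat_lit 238) (nat_lit 157))))) (XT.nd (nat_lit 312) (nat_lit 76) (nat_lit 0) (XT.nd (nat_lit 156) (nat_lit 0) (nat_lit 0) (XT.nd (nat_lit 78) (nat_lit 76) (nat_lit 0) (XT.lf (nat_lit 0) (nat_lit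 68469501764) (nat_lit 76) (nat_lit 27895362145) (nat_lit 76) (nat_lit 3094064812) (nat_lit 4) (nat_lit 4) (nat_lit 5) (nat_lit 5) (nat_lit 5) (nat_lit 4) (nat_lit 326) (nat_lit 238) (nat_lit 156)) (XT.lf (nat_lit 0) (nat_lit 97905218) (nat_lit 152) (nat_lit 24622608440) (nat_lit 76) (nat_lit 79484624444) (nat_lit 3) (nat_lit 5) (nat_lit 5) (nat_lit 5) (nat_lit 4) (nat_lit 4) (nat_lit 327) (nat_lit 238) (nat_lit 155))) (XT.nd (nat_lit 78) (nat_lit 0) (nat_lit 0) (XT.lf (nat_lit 0) (nat_lit 3338157199) (nat_lit 152) (nat_lit 18001060263) (nat_lit 76) (nat_lit 87847282631) (nat_lit 3) (nat_lit 5) (nat_lit 5) (nat_lit 5) (nat_lit 4) (nat_lit 4) (nat_lit 328) (nat_lit 238) (nat_lit 154)) (XT.lf (nat_lit 0) (nat_lit 6733435413) (nat_lit 152) (nat_lit 11060709815) (nat_lit 76) (nat_lit 96623145208) (nat_lit 3) (nat_lit 5) (nat_lit 5) (nat_lit 5) (nat_lit 4) (nat_lit 4) (nat_lit 329) (nat_lit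 238) (nat_lit 153)))) (XT.nd (nat_lit 156) (nat_lit 0) (nat_lit 0) (XT.nd (nat_lit 78) (nat_lit 76) (nat_lit 0) (XT.lf (nat_lit 0) (nat_lit 10291823856) (nat_lit 152) (nat_lit 3785032450) (nat_lit 76) (nat_lit 105833107083) (nat_lit 3) (nat_lit 5) (nat_lit 5) (nat_lit 5) (nat_lit 4) (nat_lit 4) (nat_lit 330) (nat_lit 238) (nat_lit 152)) (XT.lf (nat_lit 0) (nat_lit 3970371556) (nat_lit 76) (nat_lit 10113411951) (nat_lit 152) (nat_lit 111590713810) (nat_lit 2) (nat_lit 5) (nat_lit 3) (nat_lit 5) (nat_lit 4) (nat_lit 4) (nat_lit 331) (nat_lit 238) (nat_lit 151))) (XT.nd (nat_lit 78) (nat_lit 0) (nat_lit 0) (XT.lf (nat_lit 0) (nat_lit 12233999211) (nat_lit 76) (nat_lit 5889237173) (nat_lit 152) (nat_lit 113601136237) (nat_lit 2) (nat_lit 5) (nat_lit 3) (nat_lit 5) (nat_lit 4) (nat_lit 4) (nat_lit 332) (nat_lit 238) (nat_lit 150)) (XT.nd (nat_lit 78) (nat_lit 0) (nat_lit 0) (XT.lf (nat_lit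 0) (nat_lit 20900375553) (nat_lit 76) (nat_lit 1458375768) (nat_lit 152) (nat_lit 115718294893) (nat_lit 2) (nat_lit 5) (nat_lit 3) (nat_lit 5) (nat_lit 4) (nat_lit 4) (nat_lit 333) (nat_lit 238) (nat_lit 149)) (XT.lf (nat_lit 0) (nat_lit 26850213375) (nat_lit 152) (nat_lit 114807309197) (nat_lit 0) (nat_lit 3087630911) (nat_lit 2) (nat_lit 5) (nat_lit 4) (nat_lit 4) (nat_lit 2) (nat_lit 4) (nat_lit 334) (nat_lit 238) (nat_lit 148))))))) (XT.nd (nat_lit 702) (nat_lit 0) (nat_lit 0) (XT.nd (nat_lit 312) (nat_lit 0) (nat_lit 0) (XT.nd (nat_lit 156) (nat_lit 0) (nat_lit 0) (XT.nd (nat_lit 78) (nat_lit 0) (nat_lit 0) (XT.lf (nat_lit 0) (nat_lit 31584731218) (nat_lit 152) (nat_lit 112353062394) (nat_lit 0) (nat_lit 7807956525) (nat_lit 2) (nat_lit 5) (nat_lit 4) (nat_lit 4) (nat_lit 2) (nat_lit 4) (nat_lit 335) (nat_lit 238) (nat_lit 147)) (XT.lf (nat_lit 0) (nat_lit 36550808179) (nat_lit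 152) (nat_lit 109785317476) (nat_lit 0) (nat_lit 12760517078) (nat_lit 2) (nat_lit 5) (nat_lit 4) (nat_lit 4) (nat_lit 2) (nat_lit 4) (nat_lit 336) (nat_lit 238) (nat_lit 146))) (XT.nd (nat_lit 78) (nat_lit 0) (nat_lit 0) (XT.lf (nat_lit 0) (nat_lit 41760268250) (nat_lit 152) (nat_lit 107097960763) (nat_lit 0) (nat_lit 17957104380) (nat_lit 2) (nat_lit 5) (nat_lit 4) (nat_lit 4) (nat_lit 2) (nat_lit 4) (nat_lit 337) (nat_lit 238) (nat_lit 145)) (XT.lf (nat_lit 0) (nat_lit 47225514909) (nat_lit 152) (nat_lit 104284593788) (nat_lit 0) (nat_lit 23410091258) (nat_lit 2) (nat_lit 5) (nat_lit 4) (nat_lit 4) (nat_lit 2) (nat_lit 4) (nat_lit 338) (nat_lit 238) (nat_lit 144)))) (XT.nd (nat_lit 156) (nat_lit 0) (nat_lit 0) (XT.nd (nat_lit 78) (nat_lit 0) (nat_lit 0) (XT.lf (nat_lit 0) (nat_lit 52959560646) (nat_lit 152) (nat_lit 101338518057) (nat_lit 0) (nat_lit 29132461014) (nat_lit 2) (nat_lit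 5) (nat_lit 4) (nat_lit 4) (nat_lit 2) (nat_lit 4) (nat_lit 339) (nat_lit 238) (nat_lit 143)) (XT.lf (nat_lit 0) (nat_lit 58976057952) (nat_lit 152) (nat_lit 98252719106) (nat_lit 0) (nat_lit 35137838338) (nat_lit 2) (nat_lit 5) (nat_lit 4) (nat_lit 4) (nat_lit 2) (nat_lit 4) (nat_lit 340) (nat_lit 238) (nat_lit 142))) (XT.nd (nat_lit 78) (nat_lit 0) (nat_lit 0) (XT.lf (nat_lit 0) (nat_lit 65289331821) (nat_lit 152) (nat_lit 95019849792) (nat_lit 0) (nat_lit 41440521747) (nat_lit 2) (nat_lit 5) (nat_lit 4) (nat_lit 4) (nat_lit 2) (nat_lit 4) (nat_lit 341) (nat_lit 238) (nat_lit 141)) (XT.nd (nat_lit 78) (nat_lit 0) (nat_lit 0) (XT.lf (nat_lit 0) (nat_lit 71914413856) (nat_lit 152) (nat_lit 91632212809) (nat_lit 0) (nat_lit 48055517631) (nat_lit 2) (nat_lit 5) (nat_lit 4) (nat_lit 4) (nat_lit 2) (nat_lit 4) (nat_lit 342) (nat_lit 238) (nat_lit 140)) (XT.lf (nat_lit 0) (nat_lit 78867078063)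 (nat_lit 152) (nat_lit 88081742354) (nat_lit 0) (nat_lit 54998575979) (nat_lit 2) (nat_lit 5) (nat_lit 4) (nat_lit 4) (nat_lit 2) (nat_lit 4) (nat_lit 343) (nat_lit 238) (nat_lit 139)))))) (XT.nd (nat_lit 312) (nat_lit 0) (nat_lit 0) (XT.nd (nat_lit 156) (nat_lit 0) (nat_lit 0) (XT.nd (nat_lit 78) (nat_lit 0) (nat_lit 0) (XT.lf (nat_lit 0) (nat_lit 86163878404) (nat_lit 152) (nat_lit 84359984927) (nat_lit 0) (nat_lit 62286227884) (nat_lit 2) (nat_lit 5) (nat_lit 4) (nat_lit 4) (nat_lit 2) (nat_lit 4) (nat_lit 344) (nat_lit 238) (nat_lit 138)) (XT.lf (nat_lit 0) (nat_lit 93822188214) (nat_lit 152) (nat_lit 80458079199) (nat_lit 0) (nat_lit 69935824896) (nat_lit 2) (nat_lit 5) (nat_lit 4) (nat_lit 4) (nat_lit 2) (nat_lit 4) (nat_lit 345) (nat_lit 238) (nat_lit 137))) (XT.nd (nat_lit 78) (nat_lit 0) (nat_lit 0) (XT.lf (nat_lit 0) (nat_lit 101860241562) (nat_lit 152) (nat_lit 76366734919)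 (nat_lit 0) (nat_lit 77965580343) (nat_lit 2) (nat_lit 5) (nat_lit 4) (nat_lit 4) (nat_lit 2) (nat_lit 4) (nat_lit 346) (nat_lit 238) (nat_lit 136)) (XT.lf (nat_lit 0) (nat_lit 110297176673) (nat_lit 152) (nat_lit 72076210791) (nat_lit 0) (nat_lit 86394612689) (nat_lit 2) (nat_lit 5) (nat_lit 4) (nat_lit 4) (nat_lit 2) (nat_lit 4) (nat_lit 347) (nat_lit 238) (nat_lit 135)))) (XT.nd (nat_lit 156) (nat_lit 0) (nat_lit 0) (XT.nd (nat_lit 78) (nat_lit 0) (nat_lit 0) (XT.lf (nat_lit 0) (nat_lit 119153081485) (nat_lit 152) (nat_lit 67576291282) (nat_lit 0) (nat_lit 95242991059) (nat_lit 2) (nat_lit 5) (nat_lit 4) (nat_lit 4) (nat_lit 2) (nat_lit 4) (nat_lit 348) (nat_lit 238) (nat_lit 134)) (XT.lf (nat_lit 0) (nat_lit 128449041487) (nat_lit 152) (nat_lit 62856262297) (nat_lit 0) (nat_lit 104531783022) (nat_lit 2) (nat_lit 5) (nat_lit 4) (nat_lit 4) (nat_lit 2) (nat_lit 4) (nat_lit 349) (nat_lit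 238) (nat_lit 133))) (XT.nd (nat_lit 78) (nat_lit 0) (nat_lit 0) (XT.lf (nat_lit 0) (nat_lit 138207189917) (nat_lit 152) (nat_lit 57904885672) (nat_lit 0) (nat_lit 114283104748) (nat_lit 2) (nat_lit 5) (nat_lit 4) (nat_lit 4) (nat_lit 2) (nat_lit 4) (nat_lit 350) (nat_lit 238) (nat_lit 132)) (XT.nd (nat_lit 78) (nat_lit 0) (nat_lit 0) (XT.lf (nat_lit 0) (nat_lit 148450760462) (nat_lit 152) (nat_lit 52710372416) (nat_lit 0) (nat_lit 124520173669) (nat_lit 2) (nat_lit 5) (nat_lit 4) (nat_lit 4) (nat_lit 2) (nat_lit 4) (nat_lit 351) (nat_lit 238) (nat_lit 131)) (XT.lf (nat_lit 0) (nat_lit 159204142575) (nat_lit 152) (nat_lit 47260354639) (nat_lit 0) (nat_lit 135267363760) (nat_lit 2) (nat_lit 5) (nat_lit 4) (nat_lit 4) (nat_lit 2) (nat_lit 4) (nat_lit 352) (nat_lit 238) (nat_lit 130))))))))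
noncomputable def xc106 : XT := (XT.nd (nat_lit 29562) (nat_lit 0) (nat_lit 2964) (XT.nd (nat_lit 28860) (nat_lit 0) (nat_lit 7144) (XT.nd (nat_lit 312) (nat_lit 76) (nat_lit 0) (XT.nd (nat_lit 156) (nat_lit 0) (nat_lit 0) (XT.nd (nat_lit 78) (nat_lit 0) (nat_lit 0) (XT.lf (nat_lit 0) (nat_lit 170492939547) (nat_lit 152) (nat_lit 41541856109) (nat_lit 0) (nat_lit 146550263568) (nat_lit 2) (nat_lit 5) (nat_lit 4) (nat_lit 4) (nat_lit 2) (nat_lit 4) (nat_lit 353) (nat_lit 238) (nat_lit 129)) (XT.lf (nat_lit 0) (nat_lit 182344029467) (nat_lit 152) (nat_lit 35541261354) (nat_lit 0) (nat_lit 158395737141) (nat_lit 2) (nat_lit 5) (nat_lit 4) (nat_lit 4) (nat_lit 2) (nat_lit 4) (nat_lit 354) (nat_lit 238) (nat_lit 128))) (XT.nd (nat_lit 78) (nat_lit 0) (nat_lit 0) (XT.lf (nat_lit 0) (nat_lit 194785629214) (nat_lit 152) (nat_lit 29244283241) (nat_lit 0) (nat_lit 170831987987) (nat_lit 2) (nat_lit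 5) (nat_lit 4) (nat_lit 4) (nat_lit 2) (nat_lit 4) (nat_lit 355) (nat_lit 238) (nat_lit 127)) (XT.lf (nat_lit 0) (nat_lit 207847361646) (nat_lit 152) (nat_lit 22635928968) (nat_lit 0) (nat_lit 183888626227) (nat_lit 2) (nat_lit 5) (nat_lit 4) (nat_lit 4) (nat_lit 2) (nat_lit 4) (nat_lit 356) (nat_lit 238) (nat_lit 126)))) (XT.nd (nat_lit 156) (nat_lit 76) (nat_lit 0) (XT.nd (nat_lit 78) (nat_lit 0) (nat_lit 0) (XT.lf (nat_lit 0) (nat_lit 221560326125) (nat_lit 152) (nat_lit 15700464356) (nat_lit 0) (nat_lit 197596739094) (nat_lit 2) (nat_lit 5) (nat_lit 4) (nat_lit 4) (nat_lit 2) (nat_lit 4) (nat_lit 357) (nat_lit 238) (nat_lit 125)) (XT.lf (nat_lit 0) (nat_lit 235957172567) (nat_lit 152) (nat_lit 8421376395) (nat_lit 0) (nat_lit 211988964954) (nat_lit 2) (nat_lit 5) (nat_lit 4) (nat_lit 4) (nat_lit 2) (nat_lit 4) (nat_lit 358) (nat_lit 238) (nat_lit 124))) (XT.nd (nat_lit 78) (nat_lit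 76) (nat_lit 0) (XT.lf (nat_lit 0) (nat_lit 251072179178) (nat_lit 152) (nat_lit 781333923) (nat_lit 0) (nat_lit 227099571010) (nat_lit 2) (nat_lit 5) (nat_lit 4) (nat_lit 4) (nat_lit 2) (nat_lit 4) (nat_lit 359) (nat_lit 238) (nat_lit 123)) (XT.lf (nat_lit 0) (nat_lit 7477169764) (nat_lit 76) (nat_lit 259580903878) (nat_lit 76) (nat_lit 235604104706) (nat_lit 1) (nat_lit 4) (nat_lit 2) (nat_lit 5) (nat_lit 2) (nat_lit 4) (nat_lit 360) (nat_lit 238) (nat_lit 122))))) (XT.nd (nat_lit 312) (nat_lit 684) (nat_lit 0) (XT.nd (nat_lit 156) (nat_lit 228) (nat_lit 0) (XT.nd (nat_lit 78) (nat_lit 76) (nat_lit 0) (XT.lf (nat_lit 0) (nat_lit 1425017341) (nat_lit 76) (nat_lit 376726266) (nat_lit 0) (nat_lit 1425017341) (nat_lit 108) (nat_lit 5) (nat_lit 109) (nat_lit 0) (nat_lit 108) (nat_lit 4) (nat_lit 242) (nat_lit 239) (nat_lit 239)) (XT.lf (nat_lit 0) (nat_lit 2254170495) (nat_lit 76) (nat_lit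 3358625313) (nat_lit 76) (nat_lit 857610344) (nat_lit 107) (nat_lit 4) (nat_lit 108) (nat_lit 5) (nat_lit 108) (nat_lit 4) (nat_lit 243) (nat_lit 239) (nat_lit 238))) (XT.nd (nat_lit 78) (nat_lit 152) (nat_lit 0) (XT.lf (nat_lit 0) (nat_lit 1804050257) (nat_lit 152) (nat_lit 1184630960) (nat_lit 76) (nat_lit 3507009997) (nat_lit 106) (nat_lit 5) (nat_lit 108) (nat_lit 5) (nat_lit 107) (nat_lit 4) (nat_lit 244) (nat_lit 239) (nat_lit 237)) (XT.lf (nat_lit 0) (nat_lit 1948149312) (nat_lit 152) (nat_lit 2490669030) (nat_lit 228) (nat_lit 2090518704) (nat_lit 104) (nat_lit 5) (nat_lit 106) (nat_lit 5) (nat_lit 107) (nat_lit 4) (nat_lit 245) (nat_lit 239) (nat_lit 236)))) (XT.nd (nat_lit 156) (nat_lit 380) (nat_lit 0) (XT.nd (nat_lit 78) (nat_lit 228) (nat_lit 0) (XT.lf (nat_lit 0) (nat_lit 481460973) (nat_lit 228) (nat_lit 1398790013) (nat_lit 76) (nat_lit 4691975057) (nat_lit 103) (nat_lit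 5) (nat_lit 106) (nat_lit 5) (nat_lit 104) (nat_lit 5) (nat_lit 246) (nat_lit 239) (nat_lit 235)) (XT.lf (nat_lit 0) (nat_lit 1869735349) (nat_lit 228) (nat_lit 1119731654) (nat_lit 304) (nat_lit 3633267506) (nat_lit 100) (nat_lit 5) (nat_lit 103) (nat_lit 5) (nat_lit 104) (nat_lit 5) (nat_lit 247) (nat_lit 239) (nat_lit 234))) (XT.nd (nat_lit 78) (nat_lit 380) (nat_lit 0) (XT.lf (nat_lit 0) (nat_lit 5253274909) (nat_lit 228) (nat_lit 247478988) (nat_lit 304) (nat_lit 1182142076) (nat_lit 100) (nat_lit 5) (nat_lit 103) (nat_lit 5) (nat_lit 104) (nat_lit 5) (nat_lit 248) (nat_lit 239) (nat_lit 233)) (XT.nd (nat_lit 78) (nat_lit 0) (nat_lit 0) (XT.lf (nat_lit 0) (nat_lit 1248204975) (nat_lit 380) (nat_lit 4759067561) (nat_lit 76) (nat_lit 743573142) (nat_lit 95) (nat_lit 5) (nat_lit 100) (nat_lit 5) (nat_lit 96) (nat_lit 5) (nat_lit 249) (nat_lit 239) (nat_lit 232)) (XT.lf (nat_lit 0)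 (nat_lit 3652815154) (nat_lit 380) (nat_lit 1315691137) (nat_lit 76) (nat_lit 1858976434) (nat_lit 95) (nat_lit 5) (nat_lit 100) (nat_lit 5) (nat_lit 96) (nat_lit 5) (nat_lit 250) (nat_lit 239) (nat_lit 231))))))) (XT.nd (nat_lit 624) (nat_lit 1292) (nat_lit 0) (XT.nd (nat_lit 312) (nat_lit 1976) (nat_lit 0) (XT.nd (nat_lit 156) (nat_lit 456) (nat_lit 0) (XT.nd (nat_lit 78) (nat_lit 76) (nat_lit 0) (XT.lf (nat_lit 0) (nat_lit 2272831295) (nat_lit 380) (nat_lit 3810603372) (nat_lit 456) (nat_lit 830068491) (nat_lit 90) (nat_lit 5) (nat_lit 95) (nat_lit 5) (nat_lit 96) (nat_lit 5) (nat_lit 251) (nat_lit 239) (nat_lit 230)) (XT.lf (nat_lit 0) (nat_lit 1474293644) (nat_lit 456) (nat_lit 1045243808) (nat_lit 76) (nat_lit 4489037699) (nat_lit 89) (nat_lit 5) (nat_lit 95) (nat_lit 5) (nat_lit 90) (nat_lit 5) (nat_lit 252) (nat_lit 239) (nat_lit 229))) (XT.nd (nat_lit 78) (nat_lit 0) (nat_lit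 0) (XT.lf (nat_lit 0) (nat_lit 2704677071) (nat_lit 456) (nat_lit 1081731031) (nat_lit 532) (nat_lit 3326016794) (nat_lit 83) (nat_lit 5) (nat_lit 89) (nat_lit 5) (nat_lit 90) (nat_lit 5) (nat_lit 253) (nat_lit 239) (nat_lit 228)) (XT.lf (nat_lit 0) (nat_lit 6121620749) (nat_lit 532) (nat_lit 652716848) (nat_lit 76) (nat_lit 452446371) (nat_lit 83) (nat_lit 5) (nat_lit 90) (nat_lit 5) (nat_lit 84) (nat_lit 5) (nat_lit 254) (nat_lit 239) (nat_lit 227)))) (XT.nd (nat_lit 156) (nat_lit 1368) (nat_lit 0) (XT.nd (nat_lit 78) (nat_lit 0) (nat_lit 0) (XT.lf (nat_lit 0) (nat_lit 1143453973) (nat_lit 608) (nat_lit 4089441085) (nat_lit 76) (nat_lit 2115836269) (nat_lit 75) (nat_lit 5) (nat_lit 83) (nat_lit 5) (nat_lit 76) (nat_lit 5) (nat_lit 255) (nat_lit 239) (nat_lit 226)) (XT.lf (nat_lit 0) (nat_lit 3368420639) (nat_lit 608) (nat_lit 206227756) (nat_lit 76) (nat_lit 3906766133) (nat_lit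 75) (nat_lit 5) (nat_lit 83) (nat_lit 5) (nat_lit 76) (nat_lit 5) (nat_lit 256) (nat_lit 239) (nat_lit 225))) (XT.nd (nat_lit 78) (nat_lit 760) (nat_lit 0) (XT.lf (nat_lit 0) (nat_lit 3899512810) (nat_lit 608) (nat_lit 1761075681) (nat_lit 684) (nat_lit 1962914623) (nat_lit 67) (nat_lit 5) (nat_lit 75) (nat_lit 5) (nat_lit 76) (nat_lit 5) (nat_lit 257) (nat_lit 239) (nat_lit 224)) (XT.lf (nat_lit 0) (nat_lit 193230975) (nat_lit 760) (nat_lit 7427252413) (nat_lit 76) (nat_lit 157099008) (nat_lit 57) (nat_lit 5) (nat_lit 67) (nat_lit 5) (nat_lit 58) (nat_lit 5) (nat_lit 258) (nat_lit 239) (nat_lit 223))))) (XT.nd (nat_lit 312) (nat_lit 608) (nat_lit 0) (XT.nd (nat_lit 156) (nat_lit 380) (nat_lit 0) (XT.nd (nat_lit 78) (nat_lit 304) (nat_lit 0) (XT.lf (nat_lit 0) (nat_lit 2384048753) (nat_lit 760) (nat_lit 3343421327) (nat_lit 76) (nat_lit 2211136442) (nat_lit 57) (nat_lit 5) (nat_lit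 67) (nat_lit 5) (nat_lit 58) (nat_lit 5) (nat_lit 259) (nat_lit 239) (nat_lit 222)) (XT.lf (nat_lit 0) (nat_lit 874710889) (nat_lit 304) (nat_lit 3727981919) (nat_lit 380) (nat_lit 3509542784) (nat_lit 53) (nat_lit 5) (nat_lit 57) (nat_lit 5) (nat_lit 58) (nat_lit 5) (nat_lit 260) (nat_lit 239) (nat_lit 221))) (XT.nd (nat_lit 78) (nat_lit 380) (nat_lit 0) (XT.lf (nat_lit 0) (nat_lit 5323517938) (nat_lit 304) (nat_lit 1573040144) (nat_lit 380) (nat_lit 1400219306) (nat_lit 53) (nat_lit 5) (nat_lit 57) (nat_lit 5) (nat_lit 58) (nat_lit 5) (nat_lit 261) (nat_lit 239) (nat_lit 220)) (XT.lf (nat_lit 0) (nat_lit 732494808) (nat_lit 380) (nat_lit 7062362220) (nat_lit 76) (nat_lit 698257852) (nat_lit 48) (nat_lit 5) (nat_lit 53) (nat_lit 5) (nat_lit 49) (nat_lit 5) (nat_lit 262) (nat_lit 239) (nat_lit 219)))) (XT.nd (nat_lit 156) (nat_lit 380) (nat_lit 0) (XT.nd (nat_lit 78) (nat_lit 228)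 (nat_lit 0) (XT.lf (nat_lit 0) (nat_lit 2914677652) (nat_lit 380) (nat_lit 2686320725) (nat_lit 76) (nat_lit 3098013702) (nat_lit 48) (nat_lit 5) (nat_lit 53) (nat_lit 5) (nat_lit 49) (nat_lit 5) (nat_lit 263) (nat_lit 239) (nat_lit 218)) (XT.lf (nat_lit 0) (nat_lit 1875019008) (nat_lit 228) (nat_lit 3277294431) (nat_lit 304) (nat_lit 3765940207) (nat_lit 45) (nat_lit 5) (nat_lit 48) (nat_lit 5) (nat_lit 49) (nat_lit 5) (nat_lit 264) (nat_lit 239) (nat_lit 217))) (XT.nd (nat_lit 78) (nat_lit 380) (nat_lit 0) (XT.lf (nat_lit 0) (nat_lit 6665680890) (nat_lit 228) (nat_lit 801226338) (nat_lit 304) (nat_lit 1683645487) (nat_lit 45) (nat_lit 5) (nat_lit 48) (nat_lit 5) (nat_lit 49) (nat_lit 5) (nat_lit 265) (nat_lit 239) (nat_lit 216)) (XT.nd (nat_lit 78) (nat_lit 0) (nat_lit 0) (XT.lf (nat_lit 0) (nat_lit 472639214) (nat_lit 380) (nat_lit 7149248804) (nat_lit 76) (nat_lit 1773204666) (nat_lit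 40) (nat_lit 5) (nat_lit 45) (nat_lit 5) (nat_lit 41) (nat_lit 5) (nat_lit 266) (nat_lit 239) (nat_lit 215)) (XT.lf (nat_lit 0) (nat_lit 2660022839) (nat_lit 380) (nat_lit 2484770958) (nat_lit 76) (nat_lit 4506994190) (nat_lit 40) (nat_lit 5) (nat_lit 45) (nat_lit 5) (nat_lit 41) (nat_lit 5) (nat_lit 267) (nat_lit 239) (nat_lit 214))))))))
noncomputable def xc107 : XT := (XT.nd (nat_lit 1326) (nat_lit 684) (nat_lit 0) (XT.nd (nat_lit 624) (nat_lit 760) (nat_lit 0) (XT.nd (nat_lit 312) (nat_lit 456) (nat_lit 0) (XT.nd (nat_lit 156) (nat_lit 304) (nat_lit 0) (XT.nd (nat_lit 78) (nat_lit 0) (nat_lit 0) (XT.lf (nat_lit 0) (nat_lit 2401257973) (nat_lit 228) (nat_lit 2520588014) (nat_lit 304) (nat_lit 5001505867) (nat_lit 37) (nat_lit 5) (nat_lit 40) (nat_lit 5) (nat_lit 41) (nat_lit 5) (nat_lit 268) (nat_lit 239) (nat_lit 213)) (XT.lf (nat_lit 0) (nat_lit 7272604126) (nat_lit 304) (nat_lit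 2683520640) (nat_lit 76) (nat_lit 253850592) (nat_lit 37) (nat_lit 5) (nat_lit 41) (nat_lit 5) (nat_lit 38) (nat_lit 5) (nat_lit 269) (nat_lit 239) (nat_lit 212))) (XT.nd (nat_lit 78) (nat_lit 76) (nat_lit 0) (XT.lf (nat_lit 0) (nat_lit 2344382083) (nat_lit 228) (nat_lit 7407210017) (nat_lit 304) (nat_lit 759063945) (nat_lit 34) (nat_lit 5) (nat_lit 37) (nat_lit 5) (nat_lit 38) (nat_lit 5) (nat_lit 270) (nat_lit 239) (nat_lit 211)) (XT.lf (nat_lit 0) (nat_lit 1458772264) (nat_lit 304) (nat_lit 3219218074) (nat_lit 76) (nat_lit 6148447654) (nat_lit 33) (nat_lit 5) (nat_lit 37) (nat_lit 5) (nat_lit 34) (nat_lit 5) (nat_lit 271) (nat_lit 239) (nat_lit 210)))) (XT.nd (nat_lit 156) (nat_lit 228) (nat_lit 0) (XT.nd (nat_lit 78) (nat_lit 0) (nat_lit 0) (XT.lf (nat_lit 0) (nat_lit 1941691775) (nat_lit 228) (nat_lit 1787121310) (nat_lit 304) (nat_lit 7430457770) (nat_lit 30) (nat_lit 5) (nat_lit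 33) (nat_lit 5) (nat_lit 34) (nat_lit 5) (nat_lit 272) (nat_lit 239) (nat_lit 209)) (XT.lf (nat_lit 0) (nat_lit 6125196532) (nat_lit 304) (nat_lit 4138838627) (nat_lit 76) (nat_lit 1244282575) (nat_lit 30) (nat_lit 5) (nat_lit 34) (nat_lit 5) (nat_lit 31) (nat_lit 5) (nat_lit 273) (nat_lit 239) (nat_lit 208))) (XT.nd (nat_lit 78) (nat_lit 0) (nat_lit 0) (XT.lf (nat_lit 0) (nat_lit 1119568055) (nat_lit 228) (nat_lit 7509501561) (nat_lit 304) (nat_lit 3246568006) (nat_lit 27) (nat_lit 5) (nat_lit 30) (nat_lit 5) (nat_lit 31) (nat_lit 5) (nat_lit 274) (nat_lit 239) (nat_lit 207)) (XT.lf (nat_lit 0) (nat_lit 6705082648) (nat_lit 228) (nat_lit 4565614050) (nat_lit 304) (nat_lit 990193259) (nat_lit 27) (nat_lit 5) (nat_lit 30) (nat_lit 5) (nat_lit 31) (nat_lit 5) (nat_lit 275) (nat_lit 239) (nat_lit 206))))) (XT.nd (nat_lit 312) (nat_lit 380) (nat_lit 0) (XT.nd (nat_lit 156) (nat_lit 152)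 (nat_lit 0) (XT.nd (nat_lit 78) (nat_lit 152) (nat_lit 0) (XT.lf (nat_lit 0) (nat_lit 1278992847) (nat_lit 304) (nat_lit 194803395) (nat_lit 76) (nat_lit 11193502089) (nat_lit 26) (nat_lit 5) (nat_lit 30) (nat_lit 5) (nat_lit 27) (nat_lit 5) (nat_lit 276) (nat_lit 239) (nat_lit 205)) (XT.lf (nat_lit 0) (nat_lit 3690373587) (nat_lit 228) (nat_lit 7600089010) (nat_lit 76) (nat_lit 1799820263) (nat_lit 24) (nat_lit 5) (nat_lit 27) (nat_lit 5) (nat_lit 25) (nat_lit 5) (nat_lit 277) (nat_lit 239) (nat_lit 204))) (XT.nd (nat_lit 78) (nat_lit 152) (nat_lit 0) (XT.lf (nat_lit 0) (nat_lit 6197695027) (nat_lit 228) (nat_lit 2167529805) (nat_lit 76) (nat_lit 5170583190) (nat_lit 24) (nat_lit 5) (nat_lit 27) (nat_lit 5) (nat_lit 25) (nat_lit 5) (nat_lit 278) (nat_lit 239) (nat_lit 203)) (XT.lf (nat_lit 0) (nat_lit 3579541657) (nat_lit 152) (nat_lit 5257068412) (nat_lit 228) (nat_lit 5166840368)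 (nat_lit 22) (nat_lit 5) (nat_lit 24) (nat_lit 5) (nat_lit 25) (nat_lit 5) (nat_lit 279) (nat_lit 239) (nat_lit 202)))) (XT.nd (nat_lit 156) (nat_lit 228) (nat_lit 0) (XT.nd (nat_lit 78) (nat_lit 152) (nat_lit 0) (XT.lf (nat_lit 0) (nat_lit 9618691228) (nat_lit 152) (nat_lit 1977092247) (nat_lit 228) (nat_lit 2899420980) (nat_lit 22) (nat_lit 5) (nat_lit 24) (nat_lit 5) (nat_lit 25) (nat_lit 5) (nat_lit 280) (nat_lit 239) (nat_lit 201)) (XT.lf (nat_lit 0) (nat_lit 884372972) (nat_lit 152) (nat_lit 13598832184) (nat_lit 228) (nat_lit 528964742) (nat_lit 20) (nat_lit 5) (nat_lit 22) (nat_lit 5) (nat_lit 23) (nat_lit 4) (nat_lit 281) (nat_lit 239) (nat_lit 200))) (XT.nd (nat_lit 78) (nat_lit 152) (nat_lit 0) (XT.lf (nat_lit 0) (nat_lit 1967489481) (nat_lit 228) (nat_lit 8582431881) (nat_lit 76) (nat_lit 5000147148) (nat_lit 19) (nat_lit 5) (nat_lit 22) (nat_lit 5) (nat_lit 20) (nat_lit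 5) (nat_lit 282) (nat_lit 239) (nat_lit 199)) (XT.nd (nat_lit 78) (nat_lit 152) (nat_lit 0) (XT.lf (nat_lit 0) (nat_lit 4527043583) (nat_lit 228) (nat_lit 2834961608) (nat_lit 76) (nat_lit 8754739976) (nat_lit 19) (nat_lit 5) (nat_lit 22) (nat_lit 5) (nat_lit 20) (nat_lit 5) (nat_lit 283) (nat_lit 239) (nat_lit 198)) (XT.lf (nat_lit 0) (nat_lit 3240265704) (nat_lit 152) (nat_lit 3983045839) (nat_lit 228) (nat_lit 9488121008) (nat_lit 17) (nat_lit 5) (nat_lit 19) (nat_lit 5) (nat_lit 20) (nat_lit 5) (nat_lit 284) (nat_lit 239) (nat_lit 197))))))) (XT.nd (nat_lit 702) (nat_lit 304) (nat_lit 0) (XT.nd (nat_lit 312) (nat_lit 228) (nat_lit 0) (XT.nd (nat_lit 156) (nat_lit 152) (nat_lit 0) (XT.nd (nat_lit 78) (nat_lit 0) (nat_lit 0) (XT.lf (nat_lit 0) (nat_lit 9655374011) (nat_lit 152) (nat_lit 406197147) (nat_lit 228) (nat_lit 7274032521) (nat_lit 17) (nat_lit 5) (nat_lit 19) (nat_lit 5)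 (nat_lit 20) (nat_lit 5) (nat_lit 285) (nat_lit 239) (nat_lit 196)) (XT.lf (nat_lit 0) (nat_lit 13054830734) (nat_lit 228) (nat_lit 1713105920) (nat_lit 76) (nat_lit 3222495490) (nat_lit 17) (nat_lit 5) (nat_lit 20) (nat_lit 5) (nat_lit 18) (nat_lit 4) (nat_lit 286) (nat_lit 239) (nat_lit 195))) (XT.nd (nat_lit 78) (nat_lit 76) (nat_lit 0) (XT.lf (nat_lit 0) (nat_lit 4635936537) (nat_lit 76) (nat_lit 11603514723) (nat_lit 152) (nat_lit 2436564091) (nat_lit 16) (nat_lit 5) (nat_lit 17) (nat_lit 5) (nat_lit 18) (nat_lit 4) (nat_lit 287) (nat_lit 239) (nat_lit 194)) (XT.lf (nat_lit 0) (nat_lit 173769843) (nat_lit 152) (nat_lit 8094459316) (nat_lit 76) (nat_lit 11127974160) (nat_lit 15) (nat_lit 5) (nat_lit 17) (nat_lit 5) (nat_lit 16) (nat_lit 5) (nat_lit 288) (nat_lit 239) (nat_lit 193)))) (XT.nd (nat_lit 156) (nat_lit 76) (nat_lit 0) (XT.nd (nat_lit 78) (nat_lit 152) (nat_lit 0) (XT.lf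 (nat_lit 0) (nat_lit 2797360360) (nat_lit 152) (nat_lit 1947251712) (nat_lit 76) (nat_lit 15407645055) (nat_lit 15) (nat_lit 5) (nat_lit 17) (nat_lit 5) (nat_lit 16) (nat_lit 5) (nat_lit 289) (nat_lit 239) (nat_lit 192)) (XT.lf (nat_lit 0) (nat_lit 4601498488) (nat_lit 152) (nat_lit 988783169) (nat_lit 228) (nat_lit 15354005212) (nat_lit 13) (nat_lit 5) (nat_lit 15) (nat_lit 5) (nat_lit 16) (nat_lit 5) (nat_lit 290) (nat_lit 239) (nat_lit 191))) (XT.nd (nat_lit 78) (nat_lit 76) (nat_lit 0) (XT.lf (nat_lit 0) (nat_lit 8569296408) (nat_lit 228) (nat_lit 10329311034) (nat_lit 76) (nat_lit 2875065243) (nat_lit 13) (nat_lit 5) (nat_lit 16) (nat_lit 5) (nat_lit 14) (nat_lit 4) (nat_lit 291) (nat_lit 239) (nat_lit 190)) (XT.nd (nat_lit 78) (nat_lit 76) (nat_lit 0) (XT.lf (nat_lit 0) (nat_lit 11681848439) (nat_lit 228) (nat_lit 4082472517) (nat_lit 76) (nat_lit 6881050801) (nat_lit 13) (nat_lit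 5) (nat_lit 16) (nat_lit 5) (nat_lit 14) (nat_lit 4) (nat_lit 292) (nat_lit 239) (nat_lit 189)) (XT.lf (nat_lit 0) (nat_lit 2508320182) (nat_lit 76) (nat_lit 12450752638) (nat_lit 152) (nat_lit 8601200527) (nat_lit 12) (nat_lit 5) (nat_lit 13) (nat_lit 5) (nat_lit 14) (nat_lit 4) (nat_lit 293) (nat_lit 239) (nat_lit 188)))))) (XT.nd (nat_lit 312) (nat_lit 76) (nat_lit 0) (XT.nd (nat_lit 156) (nat_lit 228) (nat_lit 0) (XT.nd (nat_lit 78) (nat_lit 0) (nat_lit 0) (XT.lf (nat_lit 0) (nat_lit 9522502083) (nat_lit 76) (nat_lit 8917364362) (nat_lit 152) (nat_lit 6079134649) (nat_lit 12) (nat_lit 5) (nat_lit 13) (nat_lit 5) (nat_lit 14) (nat_lit 4) (nat_lit 294) (nat_lit 239) (nat_lit 187)) (XT.lf (nat_lit 0) (nat_lit 16841788641) (nat_lit 76) (nat_lit 5224881946) (nat_lit 152) (nat_lit 3460459413) (nat_lit 12) (nat_lit 5) (nat_lit 13) (nat_lit 5) (nat_lit 14) (nat_lit 4) (nat_lit 295) (nat_lit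 239) (nat_lit 186))) (XT.nd (nat_lit 78) (nat_lit 228) (nat_lit 0) (XT.lf (nat_lit 0) (nat_lit 24483606729) (nat_lit 76) (nat_lit 1364513766) (nat_lit 152) (nat_lit 738939877) (nat_lit 12) (nat_lit 5) (nat_lit 13) (nat_lit 5) (nat_lit 14) (nat_lit 4) (nat_lit 296) (nat_lit 239) (nat_lit 185)) (XT.lf (nat_lit 0) (nat_lit 2144793788) (nat_lit 228) (nat_lit 22850743276) (nat_lit 76) (nat_lit 2698153563) (nat_lit 9) (nat_lit 5) (nat_lit 12) (nat_lit 5) (nat_lit 10) (nat_lit 4) (nat_lit 297) (nat_lit 239) (nat_lit 184)))) (XT.nd (nat_lit 156) (nat_lit 76) (nat_lit 0) (XT.nd (nat_lit 78) (nat_lit 0) (nat_lit 0) (XT.lf (nat_lit 0) (nat_lit 5180890866) (nat_lit 228) (nat_lit 16721899625) (nat_lit 76) (nat_lit 6950657807) (nat_lit 9) (nat_lit 5) (nat_lit 12) (nat_lit 5) (nat_lit 10) (nat_lit 4) (nat_lit 298) (nat_lit 239) (nat_lit 183)) (XT.lf (nat_lit 0) (nat_lit 8344444120) (nat_lit 228)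 (nat_lit 10327239606) (nat_lit 76) (nat_lit 11400777167) (nat_lit 9) (nat_lit 5) (nat_lit 12) (nat_lit 5) (nat_lit 10) (nat_lit 4) (nat_lit 299) (nat_lit 239) (nat_lit 182))) (XT.nd (nat_lit 78) (nat_lit 76) (nat_lit 0) (XT.lf (nat_lit 0) (nat_lit 11642985819) (nat_lit 228) (nat_lit 3651537840) (nat_lit 76) (nat_lit 16059107166) (nat_lit 9) (nat_lit 5) (nat_lit 12) (nat_lit 5) (nat_lit 10) (nat_lit 4) (nat_lit 300) (nat_lit 239) (nat_lit 181)) (XT.nd (nat_lit 78) (nat_lit 0) (nat_lit 0) (XT.lf (nat_lit 0) (nat_lit 3430910774) (nat_lit 76) (nat_lit 11707024992) (nat_lit 152) (nat_lit 17559394424) (nat_lit 8) (nat_lit 5) (nat_lit 9) (nat_lit 5) (nat_lit 10) (nat_lit 4) (nat_lit 301) (nat_lit 239) (nat_lit 180)) (XT.lf (nat_lit 0) (nat_lit 10958000491) (nat_lit 76) (nat_lit 7889873942) (nat_lit 152) (nat_lit 15258370882) (nat_lit 8) (nat_lit 5) (nat_lit 9) (nat_lit 5) (nat_lit 10) (nat_lit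 4) (nat_lit 302) (nat_lit 239) (nat_lit 179))))))))
noncomputable def xc108 : XT := (XT.nd (nat_lit 1326) (nat_lit 228) (nat_lit 0) (XT.nd (nat_lit 624) (nat_lit 76) (nat_lit 0) (XT.nd (nat_lit 312) (nat_lit 76) (nat_lit 0) (XT.nd (nat_lit 156) (nat_lit 76) (nat_lit 0) (XT.nd (nat_lit 78) (nat_lit 0) (nat_lit 0) (XT.lf (nat_lit 0) (nat_lit 18826916621) (nat_lit 76) (nat_lit 3895822613) (nat_lit 152) (nat_lit 12863936313) (nat_lit 8) (nat_lit 5) (nat_lit 9) (nat_lit 5) (nat_lit 10) (nat_lit 4) (nat_lit 303) (nat_lit 239) (nat_lit 178)) (XT.lf (nat_lit 0) (nat_lit 26776200047) (nat_lit 152) (nat_lit 10090195051) (nat_lit 0) (nat_lit 275528424) (nat_lit 8) (nat_lit 5) (nat_lit 10) (nat_lit 4) (nat_lit 8) (nat_lit 4) (nat_lit 304) (nat_lit 239) (nat_lit 177))) (XT.nd (nat_lit 78) (nat_lit 76) (nat_lit 0) (XT.lf (nat_lit 0) (nat_lit 31077343872) (nat_lit 152) (nat_lit 3183109186) (nat_lit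 0) (nat_lit 4512267356) (nat_lit 8) (nat_lit 5) (nat_lit 10) (nat_lit 4) (nat_lit 8) (nat_lit 4) (nat_lit 305) (nat_lit 239) (nat_lit 176)) (XT.lf (nat_lit 0) (nat_lit 4172308754) (nat_lit 76) (nat_lit 31468419497) (nat_lit 76) (nat_lit 4842004987) (nat_lit 7) (nat_lit 4) (nat_lit 8) (nat_lit 5) (nat_lit 8) (nat_lit 4) (nat_lit 306) (nat_lit 239) (nat_lit 175)))) (XT.nd (nat_lit 156) (nat_lit 0) (nat_lit 0) (XT.nd (nat_lit 78) (nat_lit 76) (nat_lit 0) (XT.lf (nat_lit 0) (nat_lit 11975938741) (nat_lit 76) (nat_lit 28492678215) (nat_lit 76) (nat_lit 1807846569) (nat_lit 7) (nat_lit 4) (nat_lit 8) (nat_lit 5) (nat_lit 8) (nat_lit 4) (nat_lit 307) (nat_lit 239) (nat_lit 174)) (XT.lf (nat_lit 0) (nat_lit 1316873615) (nat_lit 152) (nat_lit 24040876101) (nat_lit 76) (nat_lit 18801937372) (nat_lit 6) (nat_lit 5) (nat_lit 8) (nat_lit 5) (nat_lit 7) (nat_lit 4) (nat_lit 308) (nat_lit 239) (nat_lit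 173))) (XT.nd (nat_lit 78) (nat_lit 0) (nat_lit 0) (XT.lf (nat_lit 0) (nat_lit 4520844866) (nat_lit 152) (nat_lit 17525721101) (nat_lit 76) (nat_lit 24089864497) (nat_lit 6) (nat_lit 5) (nat_lit 8) (nat_lit 5) (nat_lit 7) (nat_lit 4) (nat_lit 309) (nat_lit 239) (nat_lit 172)) (XT.lf (nat_lit 0) (nat_lit 7869558067) (nat_lit 152) (nat_lit 10711321958) (nat_lit 76) (nat_lit 29631931439) (nat_lit 6) (nat_lit 5) (nat_lit 8) (nat_lit 5) (nat_lit 7) (nat_lit 4) (nat_lit 310) (nat_lit 239) (nat_lit 171))))) (XT.nd (nat_lit 312) (nat_lit 0) (nat_lit 0) (XT.nd (nat_lit 156) (nat_lit 0) (nat_lit 0) (XT.nd (nat_lit 78) (nat_lit 76) (nat_lit 0) (XT.lf (nat_lit 0) (nat_lit 11370986344) (nat_lit 152) (nat_lit 3581453912) (nat_lit 76) (nat_lit 35441333594) (nat_lit 6) (nat_lit 5) (nat_lit 8) (nat_lit 5) (nat_lit 7) (nat_lit 4) (nat_lit 311) (nat_lit 239) (nat_lit 170)) (XT.lf (nat_lit 0) (nat_lit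 4009177633) (nat_lit 76) (nat_lit 11086883296) (nat_lit 152) (nat_lit 37585319736) (nat_lit 5) (nat_lit 5) (nat_lit 6) (nat_lit 5) (nat_lit 7) (nat_lit 4) (nat_lit 312) (nat_lit 239) (nat_lit 169))) (XT.nd (nat_lit 78) (nat_lit 0) (nat_lit 0) (XT.lf (nat_lit 0) (nat_lit 12080020008) (nat_lit 76) (nat_lit 6974301479) (nat_lit 152) (nat_lit 36026723587) (nat_lit 5) (nat_lit 5) (nat_lit 6) (nat_lit 5) (nat_lit 7) (nat_lit 4) (nat_lit 313) (nat_lit 239) (nat_lit 168)) (XT.lf (nat_lit 0) (nat_lit 20531870460) (nat_lit 76) (nat_lit 2665556597) (nat_lit 152) (nat_lit 34403941769) (nat_lit 5) (nat_lit 5) (nat_lit 6) (nat_lit 5) (nat_lit 7) (nat_lit 4) (nat_lit 314) (nat_lit 239) (nat_lit 167)))) (XT.nd (nat_lit 156) (nat_lit 0) (nat_lit 0) (XT.nd (nat_lit 78) (nat_lit 0) (nat_lit 0) (XT.lf (nat_lit 0) (nat_lit 27564119780) (nat_lit 152) (nat_lit 30892377853) (nat_lit 0) (nat_lit 1790411184)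 (nat_lit 5) (nat_lit 5) (nat_lit 7) (nat_lit 4) (nat_lit 5) (nat_lit 4) (nat_lit 315) (nat_lit 239) (nat_lit 166)) (XT.lf (nat_lit 0) (nat_lit 32180857664) (nat_lit 152) (nat_lit 24471017217) (nat_lit 0) (nat_lit 6371286014) (nat_lit 5) (nat_lit 5) (nat_lit 7) (nat_lit 4) (nat_lit 5) (nat_lit 4) (nat_lit 316) (nat_lit 239) (nat_lit 165))) (XT.nd (nat_lit 78) (nat_lit 0) (nat_lit 0) (XT.lf (nat_lit 0) (nat_lit 37017016133) (nat_lit 152) (nat_lit 17748510696) (nat_lit 0) (nat_lit 11173289193) (nat_lit 5) (nat_lit 5) (nat_lit 7) (nat_lit 4) (nat_lit 5) (nat_lit 4) (nat_lit 317) (nat_lit 239) (nat_lit 164)) (XT.nd (nat_lit 78) (nat_lit 0) (nat_lit 0) (XT.lf (nat_lit 0) (nat_lit 42084109850) (nat_lit 152) (nat_lit 10708852323) (nat_lit 0) (nat_lit 16207854063) (nat_lit 5) (nat_lit 5) (nat_lit 7) (nat_lit 4) (nat_lit 5) (nat_lit 4) (nat_lit 318) (nat_lit 239) (nat_lit 163)) (XT.lf (nat_lit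 0) (nat_lit 47394203325) (nat_lit 152) (nat_lit 3335281006) (nat_lit 0) (nat_lit 21486967683) (nat_lit 5) (nat_lit 5) (nat_lit 7) (nat_lit 4) (nat_lit 5) (nat_lit 4) (nat_lit 319) (nat_lit 239) (nat_lit 162))))))) (XT.nd (nat_lit 624) (nat_lit 152) (nat_lit 0) (XT.nd (nat_lit 312) (nat_lit 0) (nat_lit 0) (XT.nd (nat_lit 156) (nat_lit 0) (nat_lit 0) (XT.nd (nat_lit 78) (nat_lit 0) (nat_lit 0) (XT.lf (nat_lit 0) (nat_lit 4534904647) (nat_lit 76) (nat_lit 48495837560) (nat_lit 76) (nat_lit 22559097295) (nat_lit 4) (nat_lit 4) (nat_lit 5) (nat_lit 5) (nat_lit 5) (nat_lit 4) (nat_lit 320) (nat_lit 239) (nat_lit 161)) (XT.lf (nat_lit 0) (nat_lit 12897461081) (nat_lit 76) (nat_lit 46098474970) (nat_lit 76) (nat_lit 20133635063) (nat_lit 4) (nat_lit 4) (nat_lit 5) (nat_lit 5) (nat_lit 5) (nat_lit 4) (nat_lit 321) (nat_lit 239) (nat_lit 160))) (XT.nd (nat_lit 78) (nat_lit 0) (nat_lit 0) (XT.lf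 (nat_lit 0) (nat_lit 21662019691) (nat_lit 76) (nat_lit 43588173152) (nat_lit 76) (nat_lit 17596571682) (nat_lit 4) (nat_lit 4) (nat_lit 5) (nat_lit 5) (nat_lit 5) (nat_lit 4) (nat_lit 322) (nat_lit 239) (nat_lit 159)) (XT.lf (nat_lit 0) (nat_lit 30849448476) (nat_lit 76) (nat_lit 40958955197) (nat_lit 76) (nat_lit 14941866525) (nat_lit 4) (nat_lit 4) (nat_lit 5) (nat_lit 5) (nat_lit 5) (nat_lit 4) (nat_lit 323) (nat_lit 239) (nat_lit 158)))) (XT.nd (nat_lit 156) (nat_lit 0) (nat_lit 0) (XT.nd (nat_lit 78) (nat_lit 0) (nat_lit 0) (XT.lf (nat_lit 0) (nat_lit 40481622264) (nat_lit 76) (nat_lit 38204561063) (nat_lit 76) (nat_lit 12163198863) (nat_lit 4) (nat_lit 4) (nat_lit 5) (nat_lit 5) (nat_lit 5) (nat_lit 4) (nat_lit 324) (nat_lit 239) (nat_lit 157)) (XT.lf (nat_lit 0) (nat_lit 50581474803) (nat_lit 76) (nat_lit 35318432668) (nat_lit 76) (nat_lit 9253952824) (nat_lit 4) (nat_lit 4)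 (nat_lit 5) (nat_lit 5) (nat_lit 5) (nat_lit 4) (nat_lit 325) (nat_lit 239) (nat_lit 156))) (XT.nd (nat_lit 78) (nat_lit 0) (nat_lit 0) (XT.lf (nat_lit 0) (nat_lit 61173053362) (nat_lit 76) (nat_lit 32293698277) (nat_lit 76) (nat_lit 6207201629) (nat_lit 4) (nat_lit 4) (nat_lit 5) (nat_lit 5) (nat_lit 5) (nat_lit 4) (nat_lit 326) (nat_lit 239) (nat_lit 155)) (XT.lf (nat_lit 0) (nat_lit 72281575983) (nat_lit 76) (nat_lit 29123156143) (nat_lit 76) (nat_lit 3015691110) (nat_lit 4) (nat_lit 4) (nat_lit 5) (nat_lit 5) (nat_lit 5) (nat_lit 4) (nat_lit 327) (nat_lit 239) (nat_lit 154))))) (XT.nd (nat_lit 312) (nat_lit 76) (nat_lit 0) (XT.nd (nat_lit 156) (nat_lit 0) (nat_lit 0) (XT.nd (nat_lit 78) (nat_lit 0) (nat_lit 0) (XT.lf (nat_lit 0) (nat_lit 317673836) (nat_lit 152) (nat_lit 25476203558) (nat_lit 76) (nat_lit 83610437735) (nat_lit 3) (nat_lit 5) (nat_lit 5) (nat_lit 5) (nat_lit 4)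 (nat_lit 4) (nat_lit 328) (nat_lit 239) (nat_lit 153)) (XT.lf (nat_lit 0) (nat_lit 3709706352) (nat_lit 152) (nat_lit 18541555845) (nat_lit 76) (nat_lit 92384010638) (nat_lit 3) (nat_lit 5) (nat_lit 5) (nat_lit 5) (nat_lit 4) (nat_lit 4) (nat_lit 329) (nat_lit 239) (nat_lit 152))) (XT.nd (nat_lit 78) (nat_lit 0) (nat_lit 0) (XT.lf (nat_lit 0) (nat_lit 7265003653) (nat_lit 152) (nat_lit 11271309656) (nat_lit 76) (nat_lit 101591791873) (nat_lit 3) (nat_lit 5) (nat_lit 5) (nat_lit 5) (nat_lit 4) (nat_lit 4) (nat_lit 330) (nat_lit 239) (nat_lit 151)) (XT.lf (nat_lit 0) (nat_lit 10992030734) (nat_lit 152) (nat_lit 3648154883) (nat_lit 76) (nat_lit 111255704728) (nat_lit 3) (nat_lit 5) (nat_lit 5) (nat_lit 5) (nat_lit 4) (nat_lit 4) (nat_lit 331) (nat_lit 239) (nat_lit 150)))) (XT.nd (nat_lit 156) (nat_lit 0) (nat_lit 0) (XT.nd (nat_lit 78) (nat_lit 0) (nat_lit 0) (XT.lf (nat_lit 0) (nat_lit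 4489759175) (nat_lit 76) (nat_lit 10480000015) (nat_lit 152) (nat_lit 116979097067) (nat_lit 2) (nat_lit 5) (nat_lit 3) (nat_lit 5) (nat_lit 4) (nat_lit 4) (nat_lit 332) (nat_lit 239) (nat_lit 149)) (XT.lf (nat_lit 0) (nat_lit 13151288735) (nat_lit 76) (nat_lit 6051239476) (nat_lit 152) (nat_lit 119099143113) (nat_lit 2) (nat_lit 5) (nat_lit 3) (nat_lit 5) (nat_lit 4) (nat_lit 4) (nat_lit 333) (nat_lit 239) (nat_lit 148))) (XT.nd (nat_lit 78) (nat_lit 0) (nat_lit 0) (XT.lf (nat_lit 0) (nat_lit 22236432010) (nat_lit 76) (nat_lit 1405142598) (nat_lit 152) (nat_lit 121330828746) (nat_lit 2) (nat_lit 5) (nat_lit 3) (nat_lit 5) (nat_lit 4) (nat_lit 4) (nat_lit 334) (nat_lit 239) (nat_lit 147)) (XT.nd (nat_lit 78) (nat_lit 0) (nat_lit 0) (XT.lf (nat_lit 0) (nat_lit 28351633860) (nat_lit 152) (nat_lit 120264281072) (nat_lit 0) (nat_lit 3358311797) (nat_lit 2) (nat_lit 5) (nat_lit 4) (nat_lit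 4) (nat_lit 2) (nat_lit 4) (nat_lit 335) (nat_lit 239) (nat_lit 146)) (XT.lf (nat_lit 0) (nat_lit 33315310461) (nat_lit 152) (nat_lit 117700816862) (nat_lit 0) (nat_lit 8309115628) (nat_lit 2) (nat_lit 5) (nat_lit 4) (nat_lit 4) (nat_lit 2) (nat_lit 4) (nat_lit 336) (nat_lit 239) (nat_lit 145))))))))
noncomputable def xc109 : XT := (XT.nd (nat_lit 1326) (nat_lit 0) (nat_lit 0) (XT.nd (nat_lit 624) (nat_lit 0) (nat_lit 0) (XT.nd (nat_lit 312) (nat_lit 0) (nat_lit 0) (XT.nd (nat_lit 156) (nat_lit 0) (nat_lit 0) (XT.nd (nat_lit 78) (nat_lit 0) (nat_lit 0) (XT.lf (nat_lit 0) (nat_lit 38522484476) (nat_lit 152) (nat_lit 115017537014) (nat_lit 0) (nat_lit 13504029862) (nat_lit 2) (nat_lit 5) (nat_lit 4) (nat_lit 4) (nat_lit 2) (nat_lit 4) (nat_lit 337) (nat_lit 239) (nat_lit 144)) (XT.lf (nat_lit 0) (nat_lit 43985553937) (nat_lit 152) (nat_lit 112208052767) (nat_lit 0) (nat_lit 18955423342)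 (nat_lit 2) (nat_lit 5) (nat_lit 4) (nat_lit 4) (nat_lit 2) (nat_lit 4) (nat_lit 338) (nat_lit 239) (nat_lit 143))) (XT.nd (nat_lit 78) (nat_lit 0) (nat_lit 0) (XT.lf (nat_lit 0) (nat_lit 49717526153) (nat_lit 152) (nat_lit 109265674874) (nat_lit 0) (nat_lit 24676275576) (nat_lit 2) (nat_lit 5) (nat_lit 4) (nat_lit 4) (nat_lit 2) (nat_lit 4) (nat_lit 339) (nat_lit 239) (nat_lit 142)) (XT.lf (nat_lit 0) (nat_lit 55732048678) (nat_lit 152) (nat_lit 106183397671) (nat_lit 0) (nat_lit 30680207641) (nat_lit 2) (nat_lit 5) (nat_lit 4) (nat_lit 4) (nat_lit 2) (nat_lit 4) (nat_lit 340) (nat_lit 239) (nat_lit 141)))) (XT.nd (nat_lit 156) (nat_lit 0) (nat_lit 0) (XT.nd (nat_lit 78) (nat_lit 0) (nat_lit 0) (XT.lf (nat_lit 0) (nat_lit 62043441802) (nat_lit 152) (nat_lit 102953882405) (nat_lit 0) (nat_lit 36981514613) (nat_lit 2) (nat_lit 5) (nat_lit 4) (nat_lit 4) (nat_lit 2) (nat_lit 4) (nat_lit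 341) (nat_lit 239) (nat_lit 140)) (XT.lf (nat_lit 0) (nat_lit 68666732652) (nat_lit 152) (nat_lit 99569439752) (nat_lit 0) (nat_lit 43595199605) (nat_lit 2) (nat_lit 5) (nat_lit 4) (nat_lit 4) (nat_lit 2) (nat_lit 4) (nat_lit 342) (nat_lit 239) (nat_lit 139))) (XT.nd (nat_lit 78) (nat_lit 0) (nat_lit 0) (XT.lf (nat_lit 0) (nat_lit 75617690968) (nat_lit 152) (nat_lit 96022011517) (nat_lit 0) (nat_lit 50537009484) (nat_lit 2) (nat_lit 5) (nat_lit 4) (nat_lit 4) (nat_lit 2) (nat_lit 4) (nat_lit 343) (nat_lit 239) (nat_lit 138)) (XT.lf (nat_lit 0) (nat_lit 82912866651) (nat_lit 152) (nat_lit 92303151441) (nat_lit 0) (nat_lit 57823472370) (nat_lit 2) (nat_lit 5) (nat_lit 4) (nat_lit 4) (nat_lit 2) (nat_lit 4) (nat_lit 344) (nat_lit 239) (nat_lit 137))))) (XT.nd (nat_lit 312) (nat_lit 0) (nat_lit 0) (XT.nd (nat_lit 156) (nat_lit 0) (nat_lit 0) (XT.nd (nat_lit 78) (nat_lit 0) (nat_lit 0)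 (XT.lf (nat_lit 0) (nat_lit 90569629167) (nat_lit 152) (nat_lit 88404005095) (nat_lit 0) (nat_lit 65471936984) (nat_lit 2) (nat_lit 5) (nat_lit 4) (nat_lit 4) (nat_lit 2) (nat_lit 4) (nat_lit 345) (nat_lit 239) (nat_lit 136)) (XT.lf (nat_lit 0) (nat_lit 98606208903) (nat_lit 152) (nat_lit 84315288799) (nat_lit 0) (nat_lit 73500613956) (nat_lit 2) (nat_lit 5) (nat_lit 4) (nat_lit 4) (nat_lit 2) (nat_lit 4) (nat_lit 346) (nat_lit 239) (nat_lit 135))) (XT.nd (nat_lit 78) (nat_lit 0) (nat_lit 0) (XT.lf (nat_lit 0) (nat_lit 107041740572) (nat_lit 152) (nat_lit 80027267513) (nat_lit 0) (nat_lit 81928619184) (nat_lit 2) (nat_lit 5) (nat_lit 4) (nat_lit 4) (nat_lit 2) (nat_lit 4) (nat_lit 347) (nat_lit 239) (nat_lit 134)) (XT.lf (nat_lit 0) (nat_lit 115896308775) (nat_lit 152) (nat_lit 75529731662) (nat_lit 0) (nat_lit 90776019347) (nat_lit 2) (nat_lit 5) (nat_lit 4) (nat_lit 4) (nat_lit 2)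 (nat_lit 4) (nat_lit 348) (nat_lit 239) (nat_lit 133)))) (XT.nd (nat_lit 156) (nat_lit 0) (nat_lit 0) (XT.nd (nat_lit 78) (nat_lit 0) (nat_lit 0) (XT.lf (nat_lit 0) (nat_lit 125190995815) (nat_lit 152) (nat_lit 70811972828) (nat_lit 0) (nat_lit 100063879682) (nat_lit 2) (nat_lit 5) (nat_lit 4) (nat_lit 4) (nat_lit 2) (nat_lit 4) (nat_lit 349) (nat_lit 239) (nat_lit 132)) (XT.lf (nat_lit 0) (nat_lit 134947931900) (nat_lit 152) (nat_lit 65862758252) (nat_lit 0) (nat_lit 109814314144) (nat_lit 2) (nat_lit 5) (nat_lit 4) (nat_lit 4) (nat_lit 2) (nat_lit 4) (nat_lit 350) (nat_lit 239) (nat_lit 131))) (XT.nd (nat_lit 78) (nat_lit 0) (nat_lit 0) (XT.lf (nat_lit 0) (nat_lit 145190347831) (nat_lit 152) (nat_lit 60670304090) (nat_lit 0) (nat_lit 120050538053) (nat_lit 2) (nat_lit 5) (nat_lit 4) (nat_lit 4) (nat_lit 2) (nat_lit 4) (nat_lit 351) (nat_lit 239) (nat_lit 130)) (XT.nd (nat_lit 78)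 (nat_lit 0) (nat_lit 0) (XT.lf (nat_lit 0) (nat_lit 155942630312) (nat_lit 152) (nat_lit 55222247355) (nat_lit 0) (nat_lit 130796923369) (nat_lit 2) (nat_lit 5) (nat_lit 4) (nat_lit 4) (nat_lit 2) (nat_lit 4) (nat_lit 352) (nat_lit 239) (nat_lit 129)) (XT.lf (nat_lit 0) (nat_lit 167230380015) (nat_lit 152) (nat_lit 49505616484) (nat_lit 0) (nat_lit 142079056726) (nat_lit 2) (nat_lit 5) (nat_lit 4) (nat_lit 4) (nat_lit 2) (nat_lit 4) (nat_lit 353) (nat_lit 239) (nat_lit 128))))))) (XT.nd (nat_lit 28782) (nat_lit 0) (nat_lit 7068) (XT.nd (nat_lit 312) (nat_lit 0) (nat_lit 0) (XT.nd (nat_lit 156) (nat_lit 0) (nat_lit 0) (XT.nd (nat_lit 78) (nat_lit 0) (nat_lit 0) (XT.lf (nat_lit 0) (nat_lit 179080472535) (nat_lit 152) (nat_lit 43506800450) (nat_lit 0) (nat_lit 153923800345) (nat_lit 2) (nat_lit 5) (nat_lit 4) (nat_lit 4) (nat_lit 2) (nat_lit 4) (nat_lit 354) (nat_lit 239) (nat_lit 127))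 (XT.lf (nat_lit 0) (nat_lit 191521122379) (nat_lit 152) (nat_lit 37211516360) (nat_lit 0) (nat_lit 166359355996) (nat_lit 2) (nat_lit 5) (nat_lit 4) (nat_lit 4) (nat_lit 2) (nat_lit 4) (nat_lit 355) (nat_lit 239) (nat_lit 126))) (XT.nd (nat_lit 78) (nat_lit 0) (nat_lit 0) (XT.lf (nat_lit 0) (nat_lit 204581950140) (nat_lit 152) (nat_lit 30604775440) (nat_lit 0) (nat_lit 179415332146) (nat_lit 2) (nat_lit 5) (nat_lit 4) (nat_lit 4) (nat_lit 2) (nat_lit 4) (nat_lit 356) (nat_lit 239) (nat_lit 125)) (XT.lf (nat_lit 0) (nat_lit 218294053029) (nat_lit 152) (nat_lit 23670847356) (nat_lit 0) (nat_lit 193122814452) (nat_lit 2) (nat_lit 5) (nat_lit 4) (nat_lit 4) (nat_lit 2) (nat_lit 4) (nat_lit 357) (nat_lit 239) (nat_lit 124)))) (XT.nd (nat_lit 156) (nat_lit 0) (nat_lit 0) (XT.nd (nat_lit 78) (nat_lit 0) (nat_lit 0) (XT.lf (nat_lit 0) (nat_lit 232690078908) (nat_lit 152) (nat_lit 16393222754)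 (nat_lit 0) (nat_lit 207514439777) (nat_lit 2) (nat_lit 5) (nat_lit 4) (nat_lit 4) (nat_lit 2) (nat_lit 4) (nat_lit 358) (nat_lit 239) (nat_lit 123)) (XT.lf (nat_lit 0) (nat_lit 247804304030) (nat_lit 152) (nat_lit 8754573958) (nat_lit 0) (nat_lit 222624473895) (nat_lit 2) (nat_lit 5) (nat_lit 4) (nat_lit 4) (nat_lit 2) (nat_lit 4) (nat_lit 359) (nat_lit 239) (nat_lit 122))) (XT.nd (nat_lit 28158) (nat_lit 0) (nat_lit 8056) (XT.lf (nat_lit 0) (nat_lit 263672714646) (nat_lit 152) (nat_lit 736713708) (nat_lit 0) (nat_lit 238488893078) (nat_lit 2) (nat_lit 5) (nat_lit 4) (nat_lit 4) (nat_lit 2) (nat_lit 4) (nat_lit 360) (nat_lit 239) (nat_lit 121)) (XT.nd (nat_lit 78) (nat_lit 76) (nat_lit 0) (XT.lf (nat_lit 0) (nat_lit 1073741823) (nat_lit 0) (nat_lit 0) (nat_lit 0) (nat_lit 0) (nat_lit 109) (nat_lit 0) (nat_lit 1) (nat_lit 0) (nat_lit 1) (nat_lit 0) (nat_lit 240) (nat_lit 240) (nat_lit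 240)) (XT.lf (nat_lit 0) (nat_lit 2714318746) (nat_lit 76) (nat_lit 3642767962) (nat_lit 0) (nat_lit 88253028) (nat_lit 108) (nat_lit 5) (nat_lit 109) (nat_lit 0) (nat_lit 108) (nat_lit 4) (nat_lit 241) (nat_lit 240) (nat_lit 239)))))) (XT.nd (nat_lit 312) (nat_lit 608) (nat_lit 0) (XT.nd (nat_lit 156) (nat_lit 228) (nat_lit 0) (XT.nd (nat_lit 78) (nat_lit 152) (nat_lit 0) (XT.lf (nat_lit 0) (nat_lit 5392049898) (nat_lit 76) (nat_lit 801406535) (nat_lit 0) (nat_lit 264969210) (nat_lit 108) (nat_lit 5) (nat_lit 109) (nat_lit 0) (nat_lit 108) (nat_lit 4) (nat_lit 242) (nat_lit 240) (nat_lit 238)) (XT.lf (nat_lit 0) (nat_lit 1542204959) (nat_lit 152) (nat_lit 4347479540) (nat_lit 76) (nat_lit 589127420) (nat_lit 106) (nat_lit 5) (nat_lit 108) (nat_lit 5) (nat_lit 107) (nat_lit 4) (nat_lit 243) (nat_lit 240) (nat_lit 237))) (XT.nd (nat_lit 78) (nat_lit 228) (nat_lit 0) (XT.lf (nat_lit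 0) (nat_lit 4097601900) (nat_lit 152) (nat_lit 1377410113) (nat_lit 76) (nat_lit 1032961961) (nat_lit 106) (nat_lit 5) (nat_lit 108) (nat_lit 5) (nat_lit 107) (nat_lit 4) (nat_lit 244) (nat_lit 240) (nat_lit 236)) (XT.lf (nat_lit 0) (nat_lit 103882342) (nat_lit 228) (nat_lit 4846190770) (nat_lit 76) (nat_lit 1595985342) (nat_lit 103) (nat_lit 5) (nat_lit 106) (nat_lit 5) (nat_lit 104) (nat_lit 5) (nat_lit 245) (nat_lit 240) (nat_lit 235)))) (XT.nd (nat_lit 156) (nat_lit 380) (nat_lit 0) (XT.nd (nat_lit 78) (nat_lit 228) (nat_lit 0) (XT.lf (nat_lit 0) (nat_lit 2535045389) (nat_lit 228) (nat_lit 1744512224) (nat_lit 76) (nat_lit 2311976506) (nat_lit 103) (nat_lit 5) (nat_lit 106) (nat_lit 5) (nat_lit 104) (nat_lit 5) (nat_lit 246) (nat_lit 240) (nat_lit 234)) (XT.lf (nat_lit 0) (nat_lit 1465277171) (nat_lit 228) (nat_lit 3501071925) (nat_lit 304) (nat_lit 1680026947) (nat_lit 100) (nat_lit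 5) (nat_lit 103) (nat_lit 5) (nat_lit 104) (nat_lit 5) (nat_lit 247) (nat_lit 240) (nat_lit 233))) (XT.nd (nat_lit 78) (nat_lit 304) (nat_lit 0) (XT.lf (nat_lit 0) (nat_lit 677109416) (nat_lit 304) (nat_lit 1917555687) (nat_lit 76) (nat_lit 4115187921) (nat_lit 99) (nat_lit 5) (nat_lit 103) (nat_lit 5) (nat_lit 100) (nat_lit 5) (nat_lit 248) (nat_lit 240) (nat_lit 232)) (XT.nd (nat_lit 78) (nat_lit 0) (nat_lit 0) (XT.lf (nat_lit 0) (nat_lit 1434211134) (nat_lit 304) (nat_lit 1548505832) (nat_lit 380) (nat_lit 3798938602) (nat_lit 95) (nat_lit 5) (nat_lit 99) (nat_lit 5) (nat_lit 100) (nat_lit 5) (nat_lit 249) (nat_lit 240) (nat_lit 231)) (XT.lf (nat_lit 0) (nat_lit 4928328785) (nat_lit 304) (nat_lit 377443359) (nat_lit 380) (nat_lit 1557008210) (nat_lit 95) (nat_lit 5) (nat_lit 99) (nat_lit 5) (nat_lit 100) (nat_lit 5) (nat_lit 250) (nat_lit 240) (nat_lit 230))))))))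
noncomputable def xc110 : XT := (XT.nd (nat_lit 1326) (nat_lit 1596) (nat_lit 0) (XT.nd (nat_lit 624) (nat_lit 1976) (nat_lit 0) (XT.nd (nat_lit 312) (nat_lit 1216) (nat_lit 0) (XT.nd (nat_lit 156) (nat_lit 532) (nat_lit 0) (XT.nd (nat_lit 78) (nat_lit 0) (nat_lit 0) (XT.lf (nat_lit 0) (nat_lit 683962328) (nat_lit 456) (nat_lit 5372244631) (nat_lit 76) (nat_lit 896271910) (nat_lit 89) (nat_lit 5) (nat_lit 95) (nat_lit 5) (nat_lit 90) (nat_lit 5) (nat_lit 251) (nat_lit 240) (nat_lit 229)) (XT.lf (nat_lit 0) (nat_lit 2902343611) (nat_lit 456) (nat_lit 1837696980) (nat_lit 76) (nat_lit 2310187122) (nat_lit 89) (nat_lit 5) (nat_lit 95) (nat_lit 5) (nat_lit 90) (nat_lit 5) (nat_lit 252) (nat_lit 240) (nat_lit 228))) (XT.nd (nat_lit 78) (nat_lit 76) (nat_lit 0) (XT.lf (nat_lit 0) (nat_lit 1838874022) (nat_lit 456) (nat_lit 3305482170) (nat_lit 532) (nat_lit 2013563659) (nat_lit 83) (nat_lit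 5) (nat_lit 89) (nat_lit 5) (nat_lit 90) (nat_lit 5) (nat_lit 253) (nat_lit 240) (nat_lit 227)) (XT.lf (nat_lit 0) (nat_lit 137441471) (nat_lit 532) (nat_lit 1606887568) (nat_lit 76) (nat_lit 5531254697) (nat_lit 82) (nat_lit 5) (nat_lit 89) (nat_lit 5) (nat_lit 83) (nat_lit 5) (nat_lit 254) (nat_lit 240) (nat_lit 226)))) (XT.nd (nat_lit 156) (nat_lit 684) (nat_lit 0) (XT.nd (nat_lit 78) (nat_lit 0) (nat_lit 0) (XT.lf (nat_lit 0) (nat_lit 2237620862) (nat_lit 532) (nat_lit 16706135) (nat_lit 608) (nat_lit 5147450713) (nat_lit 75) (nat_lit 5) (nat_lit 82) (nat_lit 5) (nat_lit 83) (nat_lit 5) (nat_lit 255) (nat_lit 240) (nat_lit 225)) (XT.lf (nat_lit 0) (nat_lit 4427847726) (nat_lit 608) (nat_lit 1327727661) (nat_lit 76) (nat_lit 1781735316) (nat_lit 75) (nat_lit 5) (nat_lit 83) (nat_lit 5) (nat_lit 76) (nat_lit 5) (nat_lit 256) (nat_lit 240) (nat_lit 224))) (XT.nd (nat_lit 78) (nat_lit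 76) (nat_lit 0) (XT.lf (nat_lit 0) (nat_lit 2694644870) (nat_lit 608) (nat_lit 3957811620) (nat_lit 684) (nat_lit 1030585035) (nat_lit 67) (nat_lit 5) (nat_lit 75) (nat_lit 5) (nat_lit 76) (nat_lit 5) (nat_lit 257) (nat_lit 240) (nat_lit 223)) (XT.lf (nat_lit 0) (nat_lit 1039544508) (nat_lit 684) (nat_lit 983183205) (nat_lit 76) (nat_lit 5816713778) (nat_lit 66) (nat_lit 5) (nat_lit 75) (nat_lit 5) (nat_lit 67) (nat_lit 5) (nat_lit 258) (nat_lit 240) (nat_lit 222))))) (XT.nd (nat_lit 312) (nat_lit 912) (nat_lit 0) (XT.nd (nat_lit 156) (nat_lit 380) (nat_lit 0) (XT.nd (nat_lit 78) (nat_lit 0) (nat_lit 0) (XT.lf (nat_lit 0) (nat_lit 3136141495) (nat_lit 760) (nat_lit 4788004144) (nat_lit 76) (nat_lit 81259314) (nat_lit 57) (nat_lit 5) (nat_lit 67) (nat_lit 5) (nat_lit 58) (nat_lit 5) (nat_lit 259) (nat_lit 240) (nat_lit 221)) (XT.lf (nat_lit 0) (nat_lit 5296821639) (nat_lit 760) (nat_lit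 643343926) (nat_lit 76) (nat_lit 2241984079) (nat_lit 57) (nat_lit 5) (nat_lit 67) (nat_lit 5) (nat_lit 58) (nat_lit 5) (nat_lit 260) (nat_lit 240) (nat_lit 220))) (XT.nd (nat_lit 78) (nat_lit 76) (nat_lit 0) (XT.lf (nat_lit 0) (nat_lit 3739448958) (nat_lit 304) (nat_lit 3797965531) (nat_lit 380) (nat_lit 832147644) (nat_lit 53) (nat_lit 5) (nat_lit 57) (nat_lit 5) (nat_lit 58) (nat_lit 5) (nat_lit 261) (nat_lit 240) (nat_lit 219)) (XT.lf (nat_lit 0) (nat_lit 1206885849) (nat_lit 380) (nat_lit 313495216) (nat_lit 76) (nat_lit 7049037860) (nat_lit 52) (nat_lit 5) (nat_lit 57) (nat_lit 5) (nat_lit 53) (nat_lit 5) (nat_lit 262) (nat_lit 240) (nat_lit 218)))) (XT.nd (nat_lit 156) (nat_lit 608) (nat_lit 0) (XT.nd (nat_lit 78) (nat_lit 0) (nat_lit 0) (XT.lf (nat_lit 0) (nat_lit 3319738115) (nat_lit 380) (nat_lit 4539288369) (nat_lit 76) (nat_lit 919935045) (nat_lit 48) (nat_lit 5) (nat_lit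 53) (nat_lit 5) (nat_lit 49) (nat_lit 5) (nat_lit 263) (nat_lit 240) (nat_lit 217)) (XT.lf (nat_lit 0) (nat_lit 5489572075) (nat_lit 380) (nat_lit 81406321) (nat_lit 76) (nat_lit 3430785150) (nat_lit 48) (nat_lit 5) (nat_lit 53) (nat_lit 5) (nat_lit 49) (nat_lit 5) (nat_lit 264) (nat_lit 240) (nat_lit 216))) (XT.nd (nat_lit 78) (nat_lit 380) (nat_lit 0) (XT.lf (nat_lit 0) (nat_lit 4663819262) (nat_lit 228) (nat_lit 3101673350) (nat_lit 304) (nat_lit 1470665912) (nat_lit 45) (nat_lit 5) (nat_lit 48) (nat_lit 5) (nat_lit 49) (nat_lit 5) (nat_lit 265) (nat_lit 240) (nat_lit 215)) (XT.nd (nat_lit 78) (nat_lit 0) (nat_lit 0) (XT.lf (nat_lit 0) (nat_lit 72502626) (nat_lit 304) (nat_lit 506984550) (nat_lit 380) (nat_lit 8906157966) (nat_lit 40) (nat_lit 5) (nat_lit 44) (nat_lit 5) (nat_lit 45) (nat_lit 5) (nat_lit 266) (nat_lit 240) (nat_lit 214)) (XT.lf (nat_lit 0) (nat_lit 2723628511) (nat_lit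 380) (nat_lit 4783933640) (nat_lit 76) (nat_lit 2237080564) (nat_lit 40) (nat_lit 5) (nat_lit 45) (nat_lit 5) (nat_lit 41) (nat_lit 5) (nat_lit 267) (nat_lit 240) (nat_lit 213))))))) (XT.nd (nat_lit 624) (nat_lit 608) (nat_lit 0) (XT.nd (nat_lit 312) (nat_lit 456) (nat_lit 0) (XT.nd (nat_lit 156) (nat_lit 304) (nat_lit 0) (XT.nd (nat_lit 78) (nat_lit 228) (nat_lit 0) (XT.lf (nat_lit 0) (nat_lit 4914316682) (nat_lit 380) (nat_lit 15887977) (nat_lit 76) (nat_lit 5089692151) (nat_lit 40) (nat_lit 5) (nat_lit 45) (nat_lit 5) (nat_lit 41) (nat_lit 5) (nat_lit 268) (nat_lit 240) (nat_lit 212)) (XT.lf (nat_lit 0) (nat_lit 5072617859) (nat_lit 228) (nat_lit 2155432086) (nat_lit 304) (nat_lit 3080448737) (nat_lit 37) (nat_lit 5) (nat_lit 40) (nat_lit 5) (nat_lit 41) (nat_lit 5) (nat_lit 269) (nat_lit 240) (nat_lit 211))) (XT.nd (nat_lit 78) (nat_lit 304) (nat_lit 0) (XT.lf (nat_lit 0) (nat_lit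 9605549035) (nat_lit 304) (nat_lit 289459555) (nat_lit 76) (nat_lit 719366294) (nat_lit 37) (nat_lit 5) (nat_lit 41) (nat_lit 5) (nat_lit 38) (nat_lit 5) (nat_lit 270) (nat_lit 240) (nat_lit 210)) (XT.lf (nat_lit 0) (nat_lit 1181286904) (nat_lit 304) (nat_lit 6003192868) (nat_lit 76) (nat_lit 3747767717) (nat_lit 33) (nat_lit 5) (nat_lit 37) (nat_lit 5) (nat_lit 34) (nat_lit 5) (nat_lit 271) (nat_lit 240) (nat_lit 209)))) (XT.nd (nat_lit 156) (nat_lit 228) (nat_lit 0) (XT.nd (nat_lit 78) (nat_lit 228) (nat_lit 0) (XT.lf (nat_lit 0) (nat_lit 3391515183) (nat_lit 304) (nat_lit 943082672) (nat_lit 76) (nat_lit 6933577711) (nat_lit 33) (nat_lit 5) (nat_lit 37) (nat_lit 5) (nat_lit 34) (nat_lit 5) (nat_lit 272) (nat_lit 240) (nat_lit 208)) (XT.lf (nat_lit 0) (nat_lit 4436564665) (nat_lit 228) (nat_lit 1287367466) (nat_lit 304) (nat_lit 5896588243) (nat_lit 30) (nat_lit 5) (nat_lit 33) (nat_lit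 5) (nat_lit 34) (nat_lit 5) (nat_lit 273) (nat_lit 240) (nat_lit 207))) (XT.nd (nat_lit 78) (nat_lit 228) (nat_lit 0) (XT.lf (nat_lit 0) (nat_lit 8162766881) (nat_lit 304) (nat_lit 1978823731) (nat_lit 76) (nat_lit 1849596430) (nat_lit 30) (nat_lit 5) (nat_lit 34) (nat_lit 5) (nat_lit 31) (nat_lit 5) (nat_lit 274) (nat_lit 240) (nat_lit 206)) (XT.lf (nat_lit 0) (nat_lit 3504326562) (nat_lit 228) (nat_lit 7241422483) (nat_lit 304) (nat_lit 1633712922) (nat_lit 27) (nat_lit 5) (nat_lit 30) (nat_lit 5) (nat_lit 31) (nat_lit 5) (nat_lit 275) (nat_lit 240) (nat_lit 205))))) (XT.nd (nat_lit 312) (nat_lit 380) (nat_lit 0) (XT.nd (nat_lit 156) (nat_lit 0) (nat_lit 0) (XT.nd (nat_lit 78) (nat_lit 152) (nat_lit 0) (XT.lf (nat_lit 0) (nat_lit 630113614) (nat_lit 304) (nat_lit 3540201139) (nat_lit 76) (nat_lit 8617437701) (nat_lit 26) (nat_lit 5) (nat_lit 30) (nat_lit 5) (nat_lit 27) (nat_lit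 5) (nat_lit 276) (nat_lit 240) (nat_lit 204)) (XT.lf (nat_lit 0) (nat_lit 2029128711) (nat_lit 152) (nat_lit 904103259) (nat_lit 228) (nat_lit 10282996176) (nat_lit 24) (nat_lit 5) (nat_lit 26) (nat_lit 5) (nat_lit 27) (nat_lit 5) (nat_lit 277) (nat_lit 240) (nat_lit 203))) (XT.nd (nat_lit 78) (nat_lit 0) (nat_lit 0) (XT.lf (nat_lit 0) (nat_lit 5402213850) (nat_lit 228) (nat_lit 5775392152) (nat_lit 76) (nat_lit 2486138611) (nat_lit 24) (nat_lit 5) (nat_lit 27) (nat_lit 5) (nat_lit 25) (nat_lit 5) (nat_lit 278) (nat_lit 240) (nat_lit 202)) (XT.lf (nat_lit 0) (nat_lit 7962171763) (nat_lit 228) (nat_lit 176190764) (nat_lit 76) (nat_lit 5997043144) (nat_lit 24) (nat_lit 5) (nat_lit 27) (nat_lit 5) (nat_lit 25) (nat_lit 5) (nat_lit 279) (nat_lit 240) (nat_lit 201)))) (XT.nd (nat_lit 156) (nat_lit 228) (nat_lit 0) (XT.nd (nat_lit 78) (nat_lit 0) (nat_lit 0) (XT.lf (nat_lit 0) (nat_lit 5824367892)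 (nat_lit 152) (nat_lit 4871652075) (nat_lit 228) (nat_lit 3932473400) (nat_lit 22) (nat_lit 5) (nat_lit 24) (nat_lit 5) (nat_lit 25) (nat_lit 5) (nat_lit 280) (nat_lit 240) (nat_lit 200)) (XT.lf (nat_lit 0) (nat_lit 12067101172) (nat_lit 152) (nat_lit 1458547090) (nat_lit 228) (nat_lit 1622764423) (nat_lit 22) (nat_lit 5) (nat_lit 24) (nat_lit 5) (nat_lit 25) (nat_lit 5) (nat_lit 281) (nat_lit 240) (nat_lit 199))) (XT.nd (nat_lit 78) (nat_lit 0) (nat_lit 0) (XT.lf (nat_lit 0) (nat_lit 813975764) (nat_lit 228) (nat_lit 12780497005) (nat_lit 76) (nat_lit 2097486752) (nat_lit 19) (nat_lit 5) (nat_lit 22) (nat_lit 5) (nat_lit 20) (nat_lit 5) (nat_lit 282) (nat_lit 240) (nat_lit 198)) (XT.nd (nat_lit 78) (nat_lit 0) (nat_lit 0) (XT.lf (nat_lit 0) (nat_lit 3353113536) (nat_lit 228) (nat_lit 7063917079) (nat_lit 76) (nat_lit 5842681843) (nat_lit 19) (nat_lit 5) (nat_lit 22) (nat_lit 5) (nat_lit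 20) (nat_lit 5) (nat_lit 283) (nat_lit 240) (nat_lit 197)) (XT.lf (nat_lit 0) (nat_lit 5979347745) (nat_lit 228) (nat_lit 1121817883) (nat_lit 76) (nat_lit 9756788726) (nat_lit 19) (nat_lit 5) (nat_lit 22) (nat_lit 5) (nat_lit 20) (nat_lit 5) (nat_lit 284) (nat_lit 240) (nat_lit 196))))))))
noncomputable def xc111 : XT := (XT.nd (nat_lit 1326) (nat_lit 304) (nat_lit 0) (XT.nd (nat_lit 624) (nat_lit 304) (nat_lit 0) (XT.nd (nat_lit 312) (nat_lit 228) (nat_lit 0) (XT.nd (nat_lit 156) (nat_lit 76) (nat_lit 0) (XT.nd (nat_lit 78) (nat_lit 0) (nat_lit 0) (XT.lf (nat_lit 0) (nat_lit 5227253185) (nat_lit 152) (nat_lit 3553290213) (nat_lit 228) (nat_lit 8703485588) (nat_lit 17) (nat_lit 5) (nat_lit 19) (nat_lit 5) (nat_lit 20) (nat_lit 5) (nat_lit 285) (nat_lit 240) (nat_lit 195)) (XT.lf (nat_lit 0) (nat_lit 11706452930) (nat_lit 228) (nat_lit 6268886588) (nat_lit 76) (nat_lit 166933346) (nat_lit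 17) (nat_lit 5) (nat_lit 20) (nat_lit 5) (nat_lit 18) (nat_lit 4) (nat_lit 286) (nat_lit 240) (nat_lit 194))) (XT.nd (nat_lit 78) (nat_lit 76) (nat_lit 0) (XT.lf (nat_lit 0) (nat_lit 14801345779) (nat_lit 228) (nat_lit 95241602) (nat_lit 76) (nat_lit 3935800706) (nat_lit 17) (nat_lit 5) (nat_lit 20) (nat_lit 5) (nat_lit 18) (nat_lit 4) (nat_lit 287) (nat_lit 240) (nat_lit 193)) (XT.lf (nat_lit 0) (nat_lit 6543776855) (nat_lit 76) (nat_lit 11575503759) (nat_lit 152) (nat_lit 1434402676) (nat_lit 16) (nat_lit 5) (nat_lit 17) (nat_lit 5) (nat_lit 18) (nat_lit 4) (nat_lit 288) (nat_lit 240) (nat_lit 192)))) (XT.nd (nat_lit 156) (nat_lit 152) (nat_lit 0) (XT.nd (nat_lit 78) (nat_lit 0) (nat_lit 0) (XT.lf (nat_lit 0) (nat_lit 1218663033) (nat_lit 152) (nat_lit 6866203529) (nat_lit 76) (nat_lit 12226851438) (nat_lit 15) (nat_lit 5) (nat_lit 17) (nat_lit 5) (nat_lit 16) (nat_lit 5) (nat_lit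 289) (nat_lit 240) (nat_lit 191)) (XT.lf (nat_lit 0) (nat_lit 3924089995) (nat_lit 152) (nat_lit 489396437) (nat_lit 76) (nat_lit 16694673565) (nat_lit 15) (nat_lit 5) (nat_lit 17) (nat_lit 5) (nat_lit 16) (nat_lit 5) (nat_lit 290) (nat_lit 240) (nat_lit 190))) (XT.nd (nat_lit 78) (nat_lit 0) (nat_lit 0) (XT.lf (nat_lit 0) (nat_lit 6361707114) (nat_lit 152) (nat_lit 471846508) (nat_lit 228) (nat_lit 15107505501) (nat_lit 13) (nat_lit 5) (nat_lit 15) (nat_lit 5) (nat_lit 16) (nat_lit 5) (nat_lit 291) (nat_lit 240) (nat_lit 189)) (XT.lf (nat_lit 0) (nat_lit 9924047510) (nat_lit 228) (nat_lit 9348887940) (nat_lit 76) (nat_lit 3540959701) (nat_lit 13) (nat_lit 5) (nat_lit 16) (nat_lit 5) (nat_lit 14) (nat_lit 4) (nat_lit 292) (nat_lit 240) (nat_lit 188))))) (XT.nd (nat_lit 312) (nat_lit 228) (nat_lit 0) (XT.nd (nat_lit 156) (nat_lit 0) (nat_lit 0) (XT.nd (nat_lit 78) (nat_lit 76) (nat_lit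 0) (XT.lf (nat_lit 0) (nat_lit 13148118272) (nat_lit 228) (nat_lit 2860987909) (nat_lit 76) (nat_lit 7722380671) (nat_lit 13) (nat_lit 5) (nat_lit 16) (nat_lit 5) (nat_lit 14) (nat_lit 4) (nat_lit 293) (nat_lit 240) (nat_lit 187)) (XT.lf (nat_lit 0) (nat_lit 4036350743) (nat_lit 76) (nat_lit 12532743424) (nat_lit 152) (nat_lit 8124142202) (nat_lit 12) (nat_lit 5) (nat_lit 13) (nat_lit 5) (nat_lit 14) (nat_lit 4) (nat_lit 294) (nat_lit 240) (nat_lit 186))) (XT.nd (nat_lit 78) (nat_lit 0) (nat_lit 0) (XT.lf (nat_lit 0) (nat_lit 11334450570) (nat_lit 76) (nat_lit 8848426060) (nat_lit 152) (nat_lit 5519169143) (nat_lit 12) (nat_lit 5) (nat_lit 13) (nat_lit 5) (nat_lit 14) (nat_lit 4) (nat_lit 295) (nat_lit 240) (nat_lit 185)) (XT.lf (nat_lit 0) (nat_lit 18956090819) (nat_lit 76) (nat_lit 4995834120) (nat_lit 152) (nat_lit 2810699298) (nat_lit 12) (nat_lit 5) (nat_lit 13) (nat_lit 5) (nat_lit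 14) (nat_lit 4) (nat_lit 296) (nat_lit 240) (nat_lit 184)))) (XT.nd (nat_lit 156) (nat_lit 0) (nat_lit 0) (XT.nd (nat_lit 78) (nat_lit 152) (nat_lit 0) (XT.lf (nat_lit 0) (nat_lit 7469104) (nat_lit 152) (nat_lit 958199167) (nat_lit 76) (nat_lit 26911822654) (nat_lit 11) (nat_lit 5) (nat_lit 13) (nat_lit 5) (nat_lit 12) (nat_lit 5) (nat_lit 297) (nat_lit 240) (nat_lit 183)) (XT.lf (nat_lit 0) (nat_lit 3000903807) (nat_lit 228) (nat_lit 22743788902) (nat_lit 76) (nat_lit 3294713205) (nat_lit 9) (nat_lit 5) (nat_lit 12) (nat_lit 5) (nat_lit 10) (nat_lit 4) (nat_lit 298) (nat_lit 240) (nat_lit 182))) (XT.nd (nat_lit 78) (nat_lit 0) (nat_lit 0) (XT.lf (nat_lit 0) (nat_lit 6153145248) (nat_lit 228) (nat_lit 16368002665) (nat_lit 76) (nat_lit 7737859234) (nat_lit 9) (nat_lit 5) (nat_lit 12) (nat_lit 5) (nat_lit 10) (nat_lit 4) (nat_lit 299) (nat_lit 240) (nat_lit 181)) (XT.nd (nat_lit 78)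 (nat_lit 0) (nat_lit 0) (XT.lf (nat_lit 0) (nat_lit 9440913791) (nat_lit 228) (nat_lit 9710275929) (nat_lit 76) (nat_lit 12389547965) (nat_lit 9) (nat_lit 5) (nat_lit 12) (nat_lit 5) (nat_lit 10) (nat_lit 4) (nat_lit 300) (nat_lit 240) (nat_lit 180)) (XT.lf (nat_lit 0) (nat_lit 12872037457) (nat_lit 228) (nat_lit 2754756962) (nat_lit 76) (nat_lit 17260854848) (nat_lit 9) (nat_lit 5) (nat_lit 12) (nat_lit 5) (nat_lit 10) (nat_lit 4) (nat_lit 301) (nat_lit 240) (nat_lit 179))))))) (XT.nd (nat_lit 702) (nat_lit 76) (nat_lit 0) (XT.nd (nat_lit 312) (nat_lit 152) (nat_lit 0) (XT.nd (nat_lit 156) (nat_lit 0) (nat_lit 0) (XT.nd (nat_lit 78) (nat_lit 0) (nat_lit 0) (XT.lf (nat_lit 0) (nat_lit 4664405086) (nat_lit 76) (nat_lit 11863104938) (nat_lit 152) (nat_lit 17771797581) (nat_lit 8) (nat_lit 5) (nat_lit 9) (nat_lit 5) (nat_lit 10) (nat_lit 4) (nat_lit 302) (nat_lit 240) (nat_lit 178)) (XT.lf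 (nat_lit 0) (nat_lit 12517280299) (nat_lit 76) (nat_lit 7875537826) (nat_lit 152) (nat_lit 15387416508) (nat_lit 8) (nat_lit 5) (nat_lit 9) (nat_lit 5) (nat_lit 10) (nat_lit 4) (nat_lit 303) (nat_lit 240) (nat_lit 177))) (XT.nd (nat_lit 78) (nat_lit 0) (nat_lit 0) (XT.lf (nat_lit 0) (nat_lit 20731481294) (nat_lit 76) (nat_lit 3701252018) (nat_lit 152) (nat_lit 12903444635) (nat_lit 8) (nat_lit 5) (nat_lit 9) (nat_lit 5) (nat_lit 10) (nat_lit 4) (nat_lit 304) (nat_lit 240) (nat_lit 176)) (XT.lf (nat_lit 0) (nat_lit 28667330186) (nat_lit 152) (nat_lit 9654732239) (nat_lit 0) (nat_lit 648256959) (nat_lit 8) (nat_lit 5) (nat_lit 10) (nat_lit 4) (nat_lit 8) (nat_lit 4) (nat_lit 305) (nat_lit 240) (nat_lit 175)))) (XT.nd (nat_lit 156) (nat_lit 76) (nat_lit 0) (XT.nd (nat_lit 78) (nat_lit 76) (nat_lit 0) (XT.lf (nat_lit 0) (nat_lit 33157230244) (nat_lit 152) (nat_lit 2447052680) (nat_lit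 0) (nat_lit 5079739880) (nat_lit 8) (nat_lit 5) (nat_lit 10) (nat_lit 4) (nat_lit 8) (nat_lit 4) (nat_lit 306) (nat_lit 240) (nat_lit 174)) (XT.lf (nat_lit 0) (nat_lit 5261697255) (nat_lit 76) (nat_lit 32675789390) (nat_lit 76) (nat_lit 4542663658) (nat_lit 7) (nat_lit 4) (nat_lit 8) (nat_lit 5) (nat_lit 8) (nat_lit 4) (nat_lit 307) (nat_lit 240) (nat_lit 173))) (XT.nd (nat_lit 78) (nat_lit 76) (nat_lit 0) (XT.lf (nat_lit 0) (nat_lit 13413567166) (nat_lit 76) (nat_lit 29568692048) (nat_lit 76) (nat_lit 1382580251) (nat_lit 7) (nat_lit 4) (nat_lit 8) (nat_lit 5) (nat_lit 8) (nat_lit 4) (nat_lit 308) (nat_lit 240) (nat_lit 172)) (XT.nd (nat_lit 78) (nat_lit 0) (nat_lit 0) (XT.lf (nat_lit 0) (nat_lit 1858102390) (nat_lit 152) (nat_lit 24427464814) (nat_lit 76) (nat_lit 20057485401) (nat_lit 6) (nat_lit 5) (nat_lit 8) (nat_lit 5) (nat_lit 7) (nat_lit 4) (nat_lit 309) (nat_lit 240) (nat_lit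 171)) (XT.lf (nat_lit 0) (nat_lit 5199634819) (nat_lit 152) (nat_lit 17625383258) (nat_lit 76) (nat_lit 25594787399) (nat_lit 6) (nat_lit 5) (nat_lit 8) (nat_lit 5) (nat_lit 7) (nat_lit 4) (nat_lit 310) (nat_lit 240) (nat_lit 170)))))) (XT.nd (nat_lit 312) (nat_lit 0) (nat_lit 0) (XT.nd (nat_lit 156) (nat_lit 76) (nat_lit 0) (XT.nd (nat_lit 78) (nat_lit 0) (nat_lit 0) (XT.lf (nat_lit 0) (nat_lit 8694224265) (nat_lit 152) (nat_lit 10507246248) (nat_lit 76) (nat_lit 31399651513) (nat_lit 6) (nat_lit 5) (nat_lit 8) (nat_lit 5) (nat_lit 7) (nat_lit 4) (nat_lit 311) (nat_lit 240) (nat_lit 169)) (XT.lf (nat_lit 0) (nat_lit 12350191180) (nat_lit 152) (nat_lit 3056105839) (nat_lit 76) (nat_lit 37485898846) (nat_lit 6) (nat_lit 5) (nat_lit 8) (nat_lit 5) (nat_lit 7) (nat_lit 4) (nat_lit 312) (nat_lit 240) (nat_lit 168))) (XT.nd (nat_lit 78) (nat_lit 0) (nat_lit 0) (XT.lf (nat_lit 0) (nat_lit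 4902695659) (nat_lit 76) (nat_lit 11350089407) (nat_lit 152) (nat_lit 39041869626) (nat_lit 5) (nat_lit 5) (nat_lit 6) (nat_lit 5) (nat_lit 7) (nat_lit 4) (nat_lit 313) (nat_lit 240) (nat_lit 167)) (XT.lf (nat_lit 0) (nat_lit 13344077335) (nat_lit 76) (nat_lit 7045742215) (nat_lit 152) (nat_lit 37425473006) (nat_lit 5) (nat_lit 5) (nat_lit 6) (nat_lit 5) (nat_lit 7) (nat_lit 4) (nat_lit 314) (nat_lit 240) (nat_lit 166)))) (XT.nd (nat_lit 156) (nat_lit 0) (nat_lit 0) (XT.nd (nat_lit 78) (nat_lit 0) (nat_lit 0) (XT.lf (nat_lit 0) (nat_lit 22187089057) (nat_lit 76) (nat_lit 2534763629) (nat_lit 152) (nat_lit 35740722896) (nat_lit 5) (nat_lit 5) (nat_lit 6) (nat_lit 5) (nat_lit 7) (nat_lit 4) (nat_lit 315) (nat_lit 240) (nat_lit 165)) (XT.lf (nat_lit 0) (nat_lit 29293446875) (nat_lit 152) (nat_lit 31824269246) (nat_lit 0) (nat_lit 2123378299) (nat_lit 5) (nat_lit 5) (nat_lit 7) (nat_lit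 4) (nat_lit 5) (nat_lit 4) (nat_lit 316) (nat_lit 240) (nat_lit 164))) (XT.nd (nat_lit 78) (nat_lit 0) (nat_lit 0) (XT.lf (nat_lit 0) (nat_lit 34124301600) (nat_lit 152) (nat_lit 25111018079) (nat_lit 0) (nat_lit 6921704176) (nat_lit 5) (nat_lit 5) (nat_lit 7) (nat_lit 4) (nat_lit 5) (nat_lit 4) (nat_lit 317) (nat_lit 240) (nat_lit 163)) (XT.nd (nat_lit 78) (nat_lit 0) (nat_lit 0) (XT.lf (nat_lit 0) (nat_lit 39186344133) (nat_lit 152) (nat_lit 18080174327) (nat_lit 0) (nat_lit 11952766855) (nat_lit 5) (nat_lit 5) (nat_lit 7) (nat_lit 4) (nat_lit 5) (nat_lit 4) (nat_lit 318) (nat_lit 240) (nat_lit 162)) (XT.lf (nat_lit 0) (nat_lit 44491626956) (nat_lit 152) (nat_lit 10714997888) (nat_lit 0) (nat_lit 17228545054) (nat_lit 5) (nat_lit 5) (nat_lit 7) (nat_lit 4) (nat_lit 5) (nat_lit 4) (nat_lit 319) (nat_lit 240) (nat_lit 161))))))))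
noncomputable def xc112 : XT := (XT.nd (nat_lit 1326) (nat_lit 0) (nat_lit 0) (XT.nd (nat_lit 624) (nat_lit 152) (nat_lit 0) (XT.nd (nat_lit 312) (nat_lit 0) (nat_lit 0) (XT.nd (nat_lit 156) (nat_lit 0) (nat_lit 0) (XT.nd (nat_lit 78) (nat_lit 76) (nat_lit 0) (XT.lf (nat_lit 0) (nat_lit 50052781694) (nat_lit 152) (nat_lit 2997952626) (nat_lit 0) (nat_lit 22761600151) (nat_lit 5) (nat_lit 5) (nat_lit 7) (nat_lit 4) (nat_lit 5) (nat_lit 4) (nat_lit 320) (nat_lit 240) (nat_lit 160)) (XT.lf (nat_lit 0) (nat_lit 5257611786) (nat_lit 76) (nat_lit 50707523461) (nat_lit 76) (nat_lit 23389580354) (nat_lit 4) (nat_lit 4) (nat_lit 5) (nat_lit 5) (nat_lit 5) (nat_lit 4) (nat_lit 321) (nat_lit 240) (nat_lit 159))) (XT.nd (nat_lit 78) (nat_lit 0) (nat_lit 0) (XT.lf (nat_lit 0) (nat_lit 14014678808) (nat_lit 76) (nat_lit 48200440645) (nat_lit 76) (nat_lit 20857010335) (nat_lit 4) (nat_lit 4) (nat_lit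 5) (nat_lit 5) (nat_lit 5) (nat_lit 4) (nat_lit 322) (nat_lit 240) (nat_lit 158)) (XT.lf (nat_lit 0) (nat_lit 23194972746) (nat_lit 76) (nat_lit 45574288406) (nat_lit 76) (nat_lit 18206584570) (nat_lit 4) (nat_lit 4) (nat_lit 5) (nat_lit 5) (nat_lit 5) (nat_lit 4) (nat_lit 323) (nat_lit 240) (nat_lit 157)))) (XT.nd (nat_lit 156) (nat_lit 0) (nat_lit 0) (XT.nd (nat_lit 78) (nat_lit 0) (nat_lit 0) (XT.lf (nat_lit 0) (nat_lit 32820351442) (nat_lit 76) (nat_lit 42822814002) (nat_lit 76) (nat_lit 15431992521) (nat_lit 4) (nat_lit 4) (nat_lit 5) (nat_lit 5) (nat_lit 5) (nat_lit 4) (nat_lit 324) (nat_lit 240) (nat_lit 156)) (XT.lf (nat_lit 0) (nat_lit 42913732465) (nat_lit 76) (nat_lit 39939466301) (nat_lit 76) (nat_lit 12526628016) (nat_lit 4) (nat_lit 4) (nat_lit 5) (nat_lit 5) (nat_lit 5) (nat_lit 4) (nat_lit 325) (nat_lit 240) (nat_lit 155))) (XT.nd (nat_lit 78) (nat_lit 0) (nat_lit 0)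 (XT.lf (nat_lit 0) (nat_lit 53499147675) (nat_lit 76) (nat_lit 36917380191) (nat_lit 76) (nat_lit 9483573522) (nat_lit 4) (nat_lit 4) (nat_lit 5) (nat_lit 5) (nat_lit 5) (nat_lit 4) (nat_lit 326) (nat_lit 240) (nat_lit 154)) (XT.lf (nat_lit 0) (nat_lit 64601800441) (nat_lit 76) (nat_lit 33749360230) (nat_lit 76) (nat_lit 6295583669) (nat_lit 4) (nat_lit 4) (nat_lit 5) (nat_lit 5) (nat_lit 5) (nat_lit 4) (nat_lit 327) (nat_lit 240) (nat_lit 153))))) (XT.nd (nat_lit 312) (nat_lit 76) (nat_lit 0) (XT.nd (nat_lit 156) (nat_lit 0) (nat_lit 0) (XT.nd (nat_lit 78) (nat_lit 76) (nat_lit 0) (XT.lf (nat_lit 0) (nat_lit 76248125650) (nat_lit 76) (nat_lit 30427863511) (nat_lit 76) (nat_lit 2955068007) (nat_lit 4) (nat_lit 4) (nat_lit 5) (nat_lit 5) (nat_lit 5) (nat_lit 4) (nat_lit 328) (nat_lit 240) (nat_lit 152)) (XT.lf (nat_lit 0) (nat_lit 528453997) (nat_lit 152) (nat_lit 26407578087) (nat_lit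 76) (nat_lit 87928449027) (nat_lit 3) (nat_lit 5) (nat_lit 5) (nat_lit 5) (nat_lit 4) (nat_lit 4) (nat_lit 329) (nat_lit 240) (nat_lit 151))) (XT.nd (nat_lit 78) (nat_lit 0) (nat_lit 0) (XT.lf (nat_lit 0) (nat_lit 4080807354) (nat_lit 152) (nat_lit 19142504447) (nat_lit 76) (nat_lit 97134153461) (nat_lit 3) (nat_lit 5) (nat_lit 5) (nat_lit 5) (nat_lit 4) (nat_lit 4) (nat_lit 330) (nat_lit 240) (nat_lit 150)) (XT.lf (nat_lit 0) (nat_lit 7805030679) (nat_lit 152) (nat_lit 11524275911) (nat_lit 76) (nat_lit 106796088410) (nat_lit 3) (nat_lit 5) (nat_lit 5) (nat_lit 5) (nat_lit 4) (nat_lit 4) (nat_lit 331) (nat_lit 240) (nat_lit 149)))) (XT.nd (nat_lit 156) (nat_lit 0) (nat_lit 0) (XT.nd (nat_lit 78) (nat_lit 76) (nat_lit 0) (XT.lf (nat_lit 0) (nat_lit 11709991168) (nat_lit 152) (nat_lit 3534753839) (nat_lit 76) (nat_lit 116937258482) (nat_lit 3) (nat_lit 5) (nat_lit 5) (nat_lit 5) (nat_lit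 4) (nat_lit 4) (nat_lit 332) (nat_lit 240) (nat_lit 148)) (XT.lf (nat_lit 0) (nat_lit 5005284813) (nat_lit 76) (nat_lit 10877848058) (nat_lit 152) (nat_lit 122654671029) (nat_lit 2) (nat_lit 5) (nat_lit 3) (nat_lit 5) (nat_lit 4) (nat_lit 4) (nat_lit 333) (nat_lit 240) (nat_lit 147))) (XT.nd (nat_lit 78) (nat_lit 0) (nat_lit 0) (XT.lf (nat_lit 0) (nat_lit 14086031914) (nat_lit 76) (nat_lit 6233656728) (nat_lit 152) (nat_lit 124888975610) (nat_lit 2) (nat_lit 5) (nat_lit 3) (nat_lit 5) (nat_lit 4) (nat_lit 4) (nat_lit 334) (nat_lit 240) (nat_lit 146)) (XT.nd (nat_lit 78) (nat_lit 0) (nat_lit 0) (XT.lf (nat_lit 0) (nat_lit 23612233365) (nat_lit 76) (nat_lit 1360976184) (nat_lit 152) (nat_lit 127240108604) (nat_lit 2) (nat_lit 5) (nat_lit 3) (nat_lit 5) (nat_lit 4) (nat_lit 4) (nat_lit 335) (nat_lit 240) (nat_lit 145)) (XT.lf (nat_lit 0) (nat_lit 29913351441) (nat_lit 152) (nat_lit 126020448790)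 (nat_lit 0) (nat_lit 3631714316) (nat_lit 2) (nat_lit 5) (nat_lit 4) (nat_lit 4) (nat_lit 2) (nat_lit 4) (nat_lit 336) (nat_lit 240) (nat_lit 144))))))) (XT.nd (nat_lit 624) (nat_lit 0) (nat_lit 0) (XT.nd (nat_lit 312) (nat_lit 0) (nat_lit 0) (XT.nd (nat_lit 156) (nat_lit 0) (nat_lit 0) (XT.nd (nat_lit 78) (nat_lit 0) (nat_lit 0) (XT.lf (nat_lit 0) (nat_lit 35118348259) (nat_lit 152) (nat_lit 123341051671) (nat_lit 0) (nat_lit 8825035153) (nat_lit 2) (nat_lit 5) (nat_lit 4) (nat_lit 4) (nat_lit 2) (nat_lit 4) (nat_lit 337) (nat_lit 240) (nat_lit 143)) (XT.lf (nat_lit 0) (nat_lit 40579344199) (nat_lit 152) (nat_lit 120535265261) (nat_lit 0) (nat_lit 14274911111) (nat_lit 2) (nat_lit 5) (nat_lit 4) (nat_lit 4) (nat_lit 2) (nat_lit 4) (nat_lit 338) (nat_lit 240) (nat_lit 142))) (XT.nd (nat_lit 78) (nat_lit 0) (nat_lit 0) (XT.lf (nat_lit 0) (nat_lit 46309341633) (nat_lit 152) (nat_lit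 117596409117) (nat_lit 0) (nat_lit 19994318086) (nat_lit 2) (nat_lit 5) (nat_lit 4) (nat_lit 4) (nat_lit 2) (nat_lit 4) (nat_lit 339) (nat_lit 240) (nat_lit 141)) (XT.lf (nat_lit 0) (nat_lit 52321983413) (nat_lit 152) (nat_lit 114517485961) (nat_lit 0) (nat_lit 25996873714) (nat_lit 2) (nat_lit 5) (nat_lit 4) (nat_lit 4) (nat_lit 2) (nat_lit 4) (nat_lit 340) (nat_lit 240) (nat_lit 140)))) (XT.nd (nat_lit 156) (nat_lit 0) (nat_lit 0) (XT.nd (nat_lit 78) (nat_lit 0) (nat_lit 0) (XT.lf (nat_lit 0) (nat_lit 58631585351) (nat_lit 152) (nat_lit 111291165025) (nat_lit 0) (nat_lit 32296869793) (nat_lit 2) (nat_lit 5) (nat_lit 4) (nat_lit 4) (nat_lit 2) (nat_lit 4) (nat_lit 341) (nat_lit 240) (nat_lit 139)) (XT.lf (nat_lit 0) (nat_lit 65253170310) (nat_lit 152) (nat_lit 107909764592) (nat_lit 0) (nat_lit 38909306315) (nat_lit 2) (nat_lit 5) (nat_lit 4) (nat_lit 4) (nat_lit 2) (nat_lit 4) (nat_lit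 342) (nat_lit 240) (nat_lit 138))) (XT.nd (nat_lit 78) (nat_lit 0) (nat_lit 0) (XT.lf (nat_lit 0) (nat_lit 72202503969) (nat_lit 152) (nat_lit 104365233708) (nat_lit 0) (nat_lit 45849927177) (nat_lit 2) (nat_lit 5) (nat_lit 4) (nat_lit 4) (nat_lit 2) (nat_lit 4) (nat_lit 343) (nat_lit 240) (nat_lit 137)) (XT.lf (nat_lit 0) (nat_lit 79496132359) (nat_lit 152) (nat_lit 100649133015) (nat_lit 0) (nat_lit 53135257665) (nat_lit 2) (nat_lit 5) (nat_lit 4) (nat_lit 4) (nat_lit 2) (nat_lit 4) (nat_lit 344) (nat_lit 240) (nat_lit 136))))) (XT.nd (nat_lit 312) (nat_lit 0) (nat_lit 0) (XT.nd (nat_lit 156) (nat_lit 0) (nat_lit 0) (XT.nd (nat_lit 78) (nat_lit 0) (nat_lit 0) (XT.lf (nat_lit 0) (nat_lit 87151421262) (nat_lit 152) (nat_lit 96752614653) (nat_lit 0) (nat_lit 60782643804) (nat_lit 2) (nat_lit 5) (nat_lit 4) (nat_lit 4) (nat_lit 2) (nat_lit 4) (nat_lit 345) (nat_lit 240) (nat_lit 135))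 (XT.lf (nat_lit 0) (nat_lit 95186597557) (nat_lit 152) (nat_lit 92666401198) (nat_lit 0) (nat_lit 68810293658) (nat_lit 2) (nat_lit 5) (nat_lit 4) (nat_lit 4) (nat_lit 2) (nat_lit 4) (nat_lit 346) (nat_lit 240) (nat_lit 134))) (XT.nd (nat_lit 78) (nat_lit 0) (nat_lit 0) (XT.lf (nat_lit 0) (nat_lit 103620792617) (nat_lit 152) (nat_lit 88380763570) (nat_lit 0) (nat_lit 77237320677) (nat_lit 2) (nat_lit 5) (nat_lit 4) (nat_lit 4) (nat_lit 2) (nat_lit 4) (nat_lit 347) (nat_lit 240) (nat_lit 133)) (XT.lf (nat_lit 0) (nat_lit 112474087857) (nat_lit 152) (nat_lit 83885497870) (nat_lit 0) (nat_lit 86083789213) (nat_lit 2) (nat_lit 5) (nat_lit 4) (nat_lit 4) (nat_lit 2) (nat_lit 4) (nat_lit 348) (nat_lit 240) (nat_lit 132)))) (XT.nd (nat_lit 156) (nat_lit 0) (nat_lit 0) (XT.nd (nat_lit 78) (nat_lit 0) (nat_lit 0) (XT.lf (nat_lit 0) (nat_lit 121767562552) (nat_lit 152) (nat_lit 79169901085)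 (nat_lit 0) (nat_lit 95370762285) (nat_lit 2) (nat_lit 5) (nat_lit 4) (nat_lit 4) (nat_lit 2) (nat_lit 4) (nat_lit 349) (nat_lit 240) (nat_lit 131)) (XT.lf (nat_lit 0) (nat_lit 131523344023) (nat_lit 152) (nat_lit 74222745603) (nat_lit 0) (nat_lit 105120351734) (nat_lit 2) (nat_lit 5) (nat_lit 4) (nat_lit 4) (nat_lit 2) (nat_lit 4) (nat_lit 350) (nat_lit 240) (nat_lit 130))) (XT.nd (nat_lit 78) (nat_lit 0) (nat_lit 0) (XT.lf (nat_lit 0) (nat_lit 141764660322) (nat_lit 152) (nat_lit 69032252482) (nat_lit 0) (nat_lit 115355770868) (nat_lit 2) (nat_lit 5) (nat_lit 4) (nat_lit 4) (nat_lit 2) (nat_lit 4) (nat_lit 351) (nat_lit 240) (nat_lit 129)) (XT.nd (nat_lit 78) (nat_lit 0) (nat_lit 0) (XT.lf (nat_lit 0) (nat_lit 152515895533) (nat_lit 152) (nat_lit 63586063406) (nat_lit 0) (nat_lit 126101389733) (nat_lit 2) (nat_lit 5) (nat_lit 4) (nat_lit 4) (nat_lit 2) (nat_lit 4) (nat_lit 352) (nat_lit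 240) (nat_lit 128)) (XT.lf (nat_lit 0) (nat_lit 163802647838) (nat_lit 152) (nat_lit 57871211258) (nat_lit 0) (nat_lit 137382793136) (nat_lit 2) (nat_lit 5) (nat_lit 4) (nat_lit 4) (nat_lit 2) (nat_lit 4) (nat_lit 353) (nat_lit 240) (nat_lit 127))))))))
noncomputable def xc113 : XT := (XT.nd (nat_lit 29484) (nat_lit 0) (nat_lit 2888) (XT.nd (nat_lit 28782) (nat_lit 0) (nat_lit 6992) (XT.nd (nat_lit 312) (nat_lit 0) (nat_lit 0) (XT.nd (nat_lit 156) (nat_lit 0) (nat_lit 0) (XT.nd (nat_lit 78) (nat_lit 0) (nat_lit 0) (XT.lf (nat_lit 0) (nat_lit 175651790454) (nat_lit 152) (nat_lit 51874089246) (nat_lit 0) (nat_lit 149226841561) (nat_lit 2) (nat_lit 5) (nat_lit 4) (nat_lit 4) (nat_lit 2) (nat_lit 4) (nat_lit 354) (nat_lit 240) (nat_lit 126)) (XT.lf (nat_lit 0) (nat_lit 188091535627) (nat_lit 152) (nat_lit 45580418509) (nat_lit 0) (nat_lit 161661735122) (nat_lit 2) (nat_lit 5) (nat_lit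 4) (nat_lit 4) (nat_lit 2) (nat_lit 4) (nat_lit 355) (nat_lit 240) (nat_lit 125))) (XT.nd (nat_lit 78) (nat_lit 0) (nat_lit 0) (XT.lf (nat_lit 0) (nat_lit 201151501798) (nat_lit 152) (nat_lit 38975214117) (nat_lit 0) (nat_lit 174717080711) (nat_lit 2) (nat_lit 5) (nat_lit 4) (nat_lit 4) (nat_lit 2) (nat_lit 4) (nat_lit 356) (nat_lit 240) (nat_lit 124)) (XT.lf (nat_lit 0) (nat_lit 214862784124) (nat_lit 152) (nat_lit 32042749393) (nat_lit 0) (nat_lit 188423962482) (nat_lit 2) (nat_lit 5) (nat_lit 4) (nat_lit 4) (nat_lit 2) (nat_lit 4) (nat_lit 357) (nat_lit 240) (nat_lit 123)))) (XT.nd (nat_lit 156) (nat_lit 0) (nat_lit 0) (XT.nd (nat_lit 78) (nat_lit 0) (nat_lit 0) (XT.lf (nat_lit 0) (nat_lit 229258028515) (nat_lit 152) (nat_lit 24766518467) (nat_lit 0) (nat_lit 202815015869) (nat_lit 2) (nat_lit 5) (nat_lit 4) (nat_lit 4) (nat_lit 2) (nat_lit 4) (nat_lit 358) (nat_lit 240) (nat_lit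 122)) (XT.lf (nat_lit 0) (nat_lit 244371509363) (nat_lit 152) (nat_lit 17129196981) (nat_lit 0) (nat_lit 217924505284) (nat_lit 2) (nat_lit 5) (nat_lit 4) (nat_lit 4) (nat_lit 2) (nat_lit 4) (nat_lit 359) (nat_lit 240) (nat_lit 121))) (XT.nd (nat_lit 28236) (nat_lit 0) (nat_lit 8056) (XT.lf (nat_lit 0) (nat_lit 260239211145) (nat_lit 152) (nat_lit 9112600836) (nat_lit 0) (nat_lit 233788405702) (nat_lit 2) (nat_lit 5) (nat_lit 4) (nat_lit 4) (nat_lit 2) (nat_lit 4) (nat_lit 360) (nat_lit 240) (nat_lit 120)) (XT.lf (nat_lit 0) (nat_lit 1335269705) (nat_lit 0) (nat_lit 1335269705) (nat_lit 76) (nat_lit 556114429) (nat_lit 108) (nat_lit 5) (nat_lit 108) (nat_lit 3) (nat_lit 109) (nat_lit 0) (nat_lit 241) (nat_lit 241) (nat_lit 238))))) (XT.nd (nat_lit 312) (nat_lit 608) (nat_lit 0) (XT.nd (nat_lit 156) (nat_lit 228) (nat_lit 0) (XT.nd (nat_lit 78) (nat_lit 0) (nat_lit 0) (XT.lf (nat_lit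 0) (nat_lit 1417185434) (nat_lit 228) (nat_lit 1006455086) (nat_lit 228) (nat_lit 4046454413) (nat_lit 105) (nat_lit 3) (nat_lit 108) (nat_lit 3) (nat_lit 108) (nat_lit 5) (nat_lit 242) (nat_lit 241) (nat_lit 237)) (XT.lf (nat_lit 76) (nat_lit 1864791468) (nat_lit 0) (nat_lit 2038657093) (nat_lit 228) (nat_lit 2591215276) (nat_lit 106) (nat_lit 5) (nat_lit 105) (nat_lit 3) (nat_lit 108) (nat_lit 5) (nat_lit 243) (nat_lit 241) (nat_lit 236))) (XT.nd (nat_lit 78) (nat_lit 228) (nat_lit 0) (XT.lf (nat_lit 76) (nat_lit 4830584554) (nat_lit 0) (nat_lit 1545499692) (nat_lit 228) (nat_lit 152456604) (nat_lit 106) (nat_lit 5) (nat_lit 105) (nat_lit 3) (nat_lit 108) (nat_lit 5) (nat_lit 244) (nat_lit 241) (nat_lit 235)) (XT.lf (nat_lit 76) (nat_lit 1298487000) (nat_lit 0) (nat_lit 901832128) (nat_lit 304) (nat_lit 4369527408) (nat_lit 103) (nat_lit 5) (nat_lit 102) (nat_lit 5) (nat_lit 106)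 (nat_lit 5) (nat_lit 245) (nat_lit 241) (nat_lit 234)))) (XT.nd (nat_lit 156) (nat_lit 380) (nat_lit 0) (XT.nd (nat_lit 78) (nat_lit 228) (nat_lit 0) (XT.lf (nat_lit 76) (nat_lit 4416478411) (nat_lit 0) (nat_lit 132606397) (nat_lit 304) (nat_lit 2070855603) (nat_lit 103) (nat_lit 5) (nat_lit 102) (nat_lit 5) (nat_lit 106) (nat_lit 5) (nat_lit 246) (nat_lit 241) (nat_lit 233)) (XT.lf (nat_lit 0) (nat_lit 216921650) (nat_lit 304) (nat_lit 5734375578) (nat_lit 76) (nat_lit 727643713) (nat_lit 99) (nat_lit 5) (nat_lit 103) (nat_lit 5) (nat_lit 100) (nat_lit 5) (nat_lit 247) (nat_lit 241) (nat_lit 232))) (XT.nd (nat_lit 78) (nat_lit 380) (nat_lit 0) (XT.lf (nat_lit 0) (nat_lit 2454277994) (nat_lit 304) (nat_lit 2542582229) (nat_lit 76) (nat_lit 1747977124) (nat_lit 99) (nat_lit 5) (nat_lit 103) (nat_lit 5) (nat_lit 100) (nat_lit 5) (nat_lit 248) (nat_lit 241) (nat_lit 231)) (XT.nd (nat_lit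 78) (nat_lit 76) (nat_lit 0) (XT.lf (nat_lit 0) (nat_lit 743732676) (nat_lit 304) (nat_lit 3942507168) (nat_lit 380) (nat_lit 2134492320) (nat_lit 95) (nat_lit 5) (nat_lit 99) (nat_lit 5) (nat_lit 100) (nat_lit 5) (nat_lit 249) (nat_lit 241) (nat_lit 230)) (XT.lf (nat_lit 0) (nat_lit 42091253) (nat_lit 380) (nat_lit 2710755928) (nat_lit 76) (nat_lit 4152393175) (nat_lit 94) (nat_lit 5) (nat_lit 99) (nat_lit 5) (nat_lit 95) (nat_lit 5) (nat_lit 250) (nat_lit 241) (nat_lit 229))))))) (XT.nd (nat_lit 702) (nat_lit 1292) (nat_lit 0) (XT.nd (nat_lit 312) (nat_lit 1900) (nat_lit 0) (XT.nd (nat_lit 156) (nat_lit 532) (nat_lit 0) (XT.nd (nat_lit 78) (nat_lit 0) (nat_lit 0) (XT.lf (nat_lit 0) (nat_lit 723982584) (nat_lit 380) (nat_lit 1422223628) (nat_lit 456) (nat_lit 4852222440) (nat_lit 89) (nat_lit 5) (nat_lit 94) (nat_lit 5) (nat_lit 95) (nat_lit 5) (nat_lit 251) (nat_lit 241) (nat_lit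 228)) (XT.lf (nat_lit 0) (nat_lit 4285798334) (nat_lit 456) (nat_lit 2763332293) (nat_lit 76) (nat_lit 51323626) (nat_lit 89) (nat_lit 5) (nat_lit 95) (nat_lit 5) (nat_lit 90) (nat_lit 5) (nat_lit 252) (nat_lit 241) (nat_lit 227))) (XT.nd (nat_lit 78) (nat_lit 76) (nat_lit 0) (XT.lf (nat_lit 0) (nat_lit 837730362) (nat_lit 456) (nat_lit 5620560119) (nat_lit 532) (nat_lit 753653168) (nat_lit 83) (nat_lit 5) (nat_lit 89) (nat_lit 5) (nat_lit 90) (nat_lit 5) (nat_lit 253) (nat_lit 241) (nat_lit 226)) (XT.lf (nat_lit 0) (nat_lit 1303887226) (nat_lit 532) (nat_lit 2726538611) (nat_lit 76) (nat_lit 3301146519) (nat_lit 82) (nat_lit 5) (nat_lit 89) (nat_lit 5) (nat_lit 83) (nat_lit 5) (nat_lit 254) (nat_lit 241) (nat_lit 225)))) (XT.nd (nat_lit 156) (nat_lit 1368) (nat_lit 0) (XT.nd (nat_lit 78) (nat_lit 0) (nat_lit 0) (XT.lf (nat_lit 0) (nat_lit 1036859036) (nat_lit 532) (nat_lit 2314557189)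 (nat_lit 608) (nat_lit 4110095427) (nat_lit 75) (nat_lit 5) (nat_lit 82) (nat_lit 5) (nat_lit 83) (nat_lit 5) (nat_lit 255) (nat_lit 241) (nat_lit 224)) (XT.lf (nat_lit 0) (nat_lit 4997005230) (nat_lit 532) (nat_lit 450339164) (nat_lit 608) (nat_lit 2153844162) (nat_lit 75) (nat_lit 5) (nat_lit 82) (nat_lit 5) (nat_lit 83) (nat_lit 5) (nat_lit 256) (nat_lit 241) (nat_lit 223))) (XT.nd (nat_lit 78) (nat_lit 760) (nat_lit 0) (XT.lf (nat_lit 0) (nat_lit 1339165274) (nat_lit 608) (nat_lit 6258167591) (nat_lit 684) (nat_lit 153569224) (nat_lit 67) (nat_lit 5) (nat_lit 75) (nat_lit 5) (nat_lit 76) (nat_lit 5) (nat_lit 257) (nat_lit 241) (nat_lit 222)) (XT.nd (nat_lit 78) (nat_lit 684) (nat_lit 0) (XT.lf (nat_lit 0) (nat_lit 1842651613) (nat_lit 684) (nat_lit 2463942903) (nat_lit 76) (nat_lit 3602543138) (nat_lit 66) (nat_lit 5) (nat_lit 75) (nat_lit 5) (nat_lit 67) (nat_lit 5) (nat_lit 258)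 (nat_lit 241) (nat_lit 221)) (XT.lf (nat_lit 0) (nat_lit 1646035082) (nat_lit 684) (nat_lit 2223692048) (nat_lit 760) (nat_lit 4209067485) (nat_lit 57) (nat_lit 5) (nat_lit 66) (nat_lit 5) (nat_lit 67) (nat_lit 5) (nat_lit 259) (nat_lit 241) (nat_lit 220)))))) (XT.nd (nat_lit 312) (nat_lit 608) (nat_lit 0) (XT.nd (nat_lit 156) (nat_lit 380) (nat_lit 0) (XT.nd (nat_lit 78) (nat_lit 304) (nat_lit 0) (XT.lf (nat_lit 0) (nat_lit 5953491854) (nat_lit 760) (nat_lit 2296691525) (nat_lit 76) (nat_lit 9408770) (nat_lit 57) (nat_lit 5) (nat_lit 67) (nat_lit 5) (nat_lit 58) (nat_lit 5) (nat_lit 260) (nat_lit 241) (nat_lit 219)) (XT.lf (nat_lit 0) (nat_lit 1988822498) (nat_lit 304) (nat_lit 6137742062) (nat_lit 380) (nat_lit 324013296) (nat_lit 53) (nat_lit 5) (nat_lit 57) (nat_lit 5) (nat_lit 58) (nat_lit 5) (nat_lit 261) (nat_lit 241) (nat_lit 218))) (XT.nd (nat_lit 78) (nat_lit 304) (nat_lit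 0) (XT.lf (nat_lit 0) (nat_lit 1659029229) (nat_lit 380) (nat_lit 2195145840) (nat_lit 76) (nat_lit 4798028162) (nat_lit 52) (nat_lit 5) (nat_lit 57) (nat_lit 5) (nat_lit 53) (nat_lit 5) (nat_lit 262) (nat_lit 241) (nat_lit 217)) (XT.lf (nat_lit 0) (nat_lit 2269989806) (nat_lit 304) (nat_lit 1418222799) (nat_lit 380) (nat_lit 5177887034) (nat_lit 48) (nat_lit 5) (nat_lit 52) (nat_lit 5) (nat_lit 53) (nat_lit 5) (nat_lit 263) (nat_lit 241) (nat_lit 216)))) (XT.nd (nat_lit 156) (nat_lit 380) (nat_lit 0) (XT.nd (nat_lit 78) (nat_lit 228) (nat_lit 0) (XT.lf (nat_lit 0) (nat_lit 5799211249) (nat_lit 380) (nat_lit 2157461893) (nat_lit 76) (nat_lit 1135332524) (nat_lit 48) (nat_lit 5) (nat_lit 53) (nat_lit 5) (nat_lit 49) (nat_lit 5) (nat_lit 264) (nat_lit 241) (nat_lit 215)) (XT.lf (nat_lit 0) (nat_lit 2478410741) (nat_lit 228) (nat_lit 5527655092) (nat_lit 304) (nat_lit 1323942629) (nat_lit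 45) (nat_lit 5) (nat_lit 48) (nat_lit 5) (nat_lit 49) (nat_lit 5) (nat_lit 265) (nat_lit 241) (nat_lit 214))) (XT.nd (nat_lit 78) (nat_lit 304) (nat_lit 0) (XT.lf (nat_lit 0) (nat_lit 685797610) (nat_lit 304) (nat_lit 2251421461) (nat_lit 76) (nat_lit 6644087464) (nat_lit 44) (nat_lit 5) (nat_lit 48) (nat_lit 5) (nat_lit 45) (nat_lit 5) (nat_lit 266) (nat_lit 241) (nat_lit 213)) (XT.nd (nat_lit 78) (nat_lit 0) (nat_lit 0) (XT.lf (nat_lit 0) (nat_lit 2560820575) (nat_lit 304) (nat_lit 163169979) (nat_lit 380) (nat_lit 7121744453) (nat_lit 40) (nat_lit 5) (nat_lit 44) (nat_lit 5) (nat_lit 45) (nat_lit 5) (nat_lit 267) (nat_lit 241) (nat_lit 212)) (XT.lf (nat_lit 0) (nat_lit 4880088698) (nat_lit 380) (nat_lit 2553490770) (nat_lit 76) (nat_lit 2689266260) (nat_lit 40) (nat_lit 5) (nat_lit 45) (nat_lit 5) (nat_lit 41) (nat_lit 5) (nat_lit 268) (nat_lit 241) (nat_lit 211))))))))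
noncomputable def xc114 : XT := (XT.nd (nat_lit 1326) (nat_lit 608) (nat_lit 0) (XT.nd (nat_lit 624) (nat_lit 760) (nat_lit 0) (XT.nd (nat_lit 312) (nat_lit 456) (nat_lit 0) (XT.nd (nat_lit 156) (nat_lit 304) (nat_lit 0) (XT.nd (nat_lit 78) (nat_lit 0) (nat_lit 0) (XT.lf (nat_lit 0) (nat_lit 2412572683) (nat_lit 228) (nat_lit 4709201865) (nat_lit 304) (nat_lit 3293396494) (nat_lit 37) (nat_lit 5) (nat_lit 40) (nat_lit 5) (nat_lit 41) (nat_lit 5) (nat_lit 269) (nat_lit 241) (nat_lit 210)) (XT.lf (nat_lit 0) (nat_lit 7640350328) (nat_lit 228) (nat_lit 1817684117) (nat_lit 304) (nat_lit 1265190064) (nat_lit 37) (nat_lit 5) (nat_lit 40) (nat_lit 5) (nat_lit 41) (nat_lit 5) (nat_lit 270) (nat_lit 241) (nat_lit 209))) (XT.nd (nat_lit 78) (nat_lit 0) (nat_lit 0) (XT.lf (nat_lit 0) (nat_lit 829457827) (nat_lit 304) (nat_lit 9005605854) (nat_lit 76) (nat_lit 1211521654) (nat_lit 33) (nat_lit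 5) (nat_lit 37) (nat_lit 5) (nat_lit 34) (nat_lit 5) (nat_lit 271) (nat_lit 241) (nat_lit 208)) (XT.lf (nat_lit 0) (nat_lit 3011593446) (nat_lit 304) (nat_lit 3982308411) (nat_lit 76) (nat_lit 4390115792) (nat_lit 33) (nat_lit 5) (nat_lit 37) (nat_lit 5) (nat_lit 34) (nat_lit 5) (nat_lit 272) (nat_lit 241) (nat_lit 207)))) (XT.nd (nat_lit 156) (nat_lit 228) (nat_lit 0) (XT.nd (nat_lit 78) (nat_lit 0) (nat_lit 0) (XT.lf (nat_lit 0) (nat_lit 1260629398) (nat_lit 228) (nat_lit 4007040831) (nat_lit 304) (nat_lit 6472604098) (nat_lit 30) (nat_lit 5) (nat_lit 33) (nat_lit 5) (nat_lit 34) (nat_lit 5) (nat_lit 273) (nat_lit 241) (nat_lit 206)) (XT.lf (nat_lit 0) (nat_lit 6833257570) (nat_lit 228) (nat_lit 817395785) (nat_lit 304) (nat_lit 4463170566) (nat_lit 30) (nat_lit 5) (nat_lit 33) (nat_lit 5) (nat_lit 34) (nat_lit 5) (nat_lit 274) (nat_lit 241) (nat_lit 205))) (XT.nd (nat_lit 78) (nat_lit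 0) (nat_lit 0) (XT.lf (nat_lit 0) (nat_lit 71420603) (nat_lit 228) (nat_lit 10070949376) (nat_lit 304) (nat_lit 2364378186) (nat_lit 27) (nat_lit 5) (nat_lit 30) (nat_lit 5) (nat_lit 31) (nat_lit 5) (nat_lit 275) (nat_lit 241) (nat_lit 204)) (XT.lf (nat_lit 0) (nat_lit 5791815093) (nat_lit 228) (nat_lit 7019771016) (nat_lit 304) (nat_lit 105254817) (nat_lit 27) (nat_lit 5) (nat_lit 30) (nat_lit 5) (nat_lit 31) (nat_lit 5) (nat_lit 276) (nat_lit 241) (nat_lit 203))))) (XT.nd (nat_lit 312) (nat_lit 380) (nat_lit 0) (XT.nd (nat_lit 156) (nat_lit 152) (nat_lit 0) (XT.nd (nat_lit 78) (nat_lit 152) (nat_lit 0) (XT.lf (nat_lit 0) (nat_lit 2146008909) (nat_lit 304) (nat_lit 1651756448) (nat_lit 76) (nat_lit 9550468927) (nat_lit 26) (nat_lit 5) (nat_lit 30) (nat_lit 5) (nat_lit 27) (nat_lit 5) (nat_lit 277) (nat_lit 241) (nat_lit 202)) (XT.lf (nat_lit 0) (nat_lit 4162726108) (nat_lit 152) (nat_lit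 362599270) (nat_lit 228) (nat_lit 9274979431) (nat_lit 24) (nat_lit 5) (nat_lit 26) (nat_lit 5) (nat_lit 27) (nat_lit 5) (nat_lit 278) (nat_lit 241) (nat_lit 201))) (XT.nd (nat_lit 78) (nat_lit 152) (nat_lit 0) (XT.lf (nat_lit 0) (nat_lit 7057650242) (nat_lit 228) (nat_lit 4064432682) (nat_lit 76) (nat_lit 3151332012) (nat_lit 24) (nat_lit 5) (nat_lit 27) (nat_lit 5) (nat_lit 25) (nat_lit 5) (nat_lit 279) (nat_lit 241) (nat_lit 200)) (XT.lf (nat_lit 0) (nat_lit 1776358134) (nat_lit 152) (nat_lit 7931013955) (nat_lit 228) (nat_lit 5063401068) (nat_lit 22) (nat_lit 5) (nat_lit 24) (nat_lit 5) (nat_lit 25) (nat_lit 5) (nat_lit 280) (nat_lit 241) (nat_lit 199)))) (XT.nd (nat_lit 156) (nat_lit 380) (nat_lit 0) (XT.nd (nat_lit 78) (nat_lit 0) (nat_lit 0) (XT.lf (nat_lit 0) (nat_lit 7989372365) (nat_lit 152) (nat_lit 4527234898) (nat_lit 228) (nat_lit 2775166017) (nat_lit 22) (nat_lit 5)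 (nat_lit 24) (nat_lit 5) (nat_lit 25) (nat_lit 5) (nat_lit 281) (nat_lit 241) (nat_lit 198)) (XT.lf (nat_lit 0) (nat_lit 14455014401) (nat_lit 152) (nat_lit 971474653) (nat_lit 228) (nat_lit 414444499) (nat_lit 22) (nat_lit 5) (nat_lit 24) (nat_lit 5) (nat_lit 25) (nat_lit 5) (nat_lit 282) (nat_lit 241) (nat_lit 197))) (XT.nd (nat_lit 78) (nat_lit 152) (nat_lit 0) (XT.lf (nat_lit 0) (nat_lit 2080626534) (nat_lit 228) (nat_lit 11564630050) (nat_lit 76) (nat_lit 2766672840) (nat_lit 19) (nat_lit 5) (nat_lit 22) (nat_lit 5) (nat_lit 20) (nat_lit 5) (nat_lit 283) (nat_lit 241) (nat_lit 196)) (XT.nd (nat_lit 78) (nat_lit 152) (nat_lit 0) (XT.lf (nat_lit 0) (nat_lit 4688342529) (nat_lit 228) (nat_lit 5650549309) (nat_lit 76) (nat_lit 6672255698) (nat_lit 19) (nat_lit 5) (nat_lit 22) (nat_lit 5) (nat_lit 20) (nat_lit 5) (nat_lit 284) (nat_lit 241) (nat_lit 195)) (XT.lf (nat_lit 0) (nat_lit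 521214900) (nat_lit 152) (nat_lit 6877212443) (nat_lit 228) (nat_lit 10243398279) (nat_lit 17) (nat_lit 5) (nat_lit 19) (nat_lit 5) (nat_lit 20) (nat_lit 5) (nat_lit 285) (nat_lit 241) (nat_lit 194))))))) (XT.nd (nat_lit 624) (nat_lit 304) (nat_lit 0) (XT.nd (nat_lit 312) (nat_lit 228) (nat_lit 0) (XT.nd (nat_lit 156) (nat_lit 76) (nat_lit 0) (XT.nd (nat_lit 78) (nat_lit 0) (nat_lit 0) (XT.lf (nat_lit 0) (nat_lit 7143921237) (nat_lit 152) (nat_lit 3160516704) (nat_lit 228) (nat_lit 7996672138) (nat_lit 17) (nat_lit 5) (nat_lit 19) (nat_lit 5) (nat_lit 20) (nat_lit 5) (nat_lit 286) (nat_lit 241) (nat_lit 193)) (XT.lf (nat_lit 0) (nat_lit 13333464632) (nat_lit 228) (nat_lit 4959931286) (nat_lit 76) (nat_lit 701166148) (nat_lit 17) (nat_lit 5) (nat_lit 20) (nat_lit 5) (nat_lit 18) (nat_lit 4) (nat_lit 287) (nat_lit 241) (nat_lit 192))) (XT.nd (nat_lit 78) (nat_lit 0) (nat_lit 0) (XT.lf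 (nat_lit 0) (nat_lit 1492921639) (nat_lit 76) (nat_lit 15063884933) (nat_lit 152) (nat_lit 3163821730) (nat_lit 16) (nat_lit 5) (nat_lit 17) (nat_lit 5) (nat_lit 18) (nat_lit 4) (nat_lit 288) (nat_lit 241) (nat_lit 191)) (XT.lf (nat_lit 0) (nat_lit 8391186551) (nat_lit 76) (nat_lit 11602635683) (nat_lit 152) (nat_lit 486631091) (nat_lit 16) (nat_lit 5) (nat_lit 17) (nat_lit 5) (nat_lit 18) (nat_lit 4) (nat_lit 289) (nat_lit 241) (nat_lit 190)))) (XT.nd (nat_lit 156) (nat_lit 0) (nat_lit 0) (XT.nd (nat_lit 78) (nat_lit 152) (nat_lit 0) (XT.lf (nat_lit 0) (nat_lit 2219464392) (nat_lit 152) (nat_lit 5728353838) (nat_lit 76) (nat_lit 13330238065) (nat_lit 15) (nat_lit 5) (nat_lit 17) (nat_lit 5) (nat_lit 16) (nat_lit 5) (nat_lit 290) (nat_lit 241) (nat_lit 189)) (XT.lf (nat_lit 0) (nat_lit 926413192) (nat_lit 152) (nat_lit 4103457786) (nat_lit 228) (nat_lit 17086071342) (nat_lit 13) (nat_lit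 5) (nat_lit 15) (nat_lit 5) (nat_lit 16) (nat_lit 5) (nat_lit 291) (nat_lit 241) (nat_lit 188))) (XT.nd (nat_lit 78) (nat_lit 0) (nat_lit 0) (XT.lf (nat_lit 0) (nat_lit 8049673525) (nat_lit 228) (nat_lit 14924976187) (nat_lit 76) (nat_lit 17695633) (nat_lit 13) (nat_lit 5) (nat_lit 16) (nat_lit 5) (nat_lit 14) (nat_lit 4) (nat_lit 292) (nat_lit 241) (nat_lit 187)) (XT.lf (nat_lit 0) (nat_lit 11260418848) (nat_lit 228) (nat_lit 8458610210) (nat_lit 76) (nat_lit 4191605144) (nat_lit 13) (nat_lit 5) (nat_lit 16) (nat_lit 5) (nat_lit 14) (nat_lit 4) (nat_lit 293) (nat_lit 241) (nat_lit 186))))) (XT.nd (nat_lit 312) (nat_lit 228) (nat_lit 0) (XT.nd (nat_lit 156) (nat_lit 0) (nat_lit 0) (XT.nd (nat_lit 78) (nat_lit 76) (nat_lit 0) (XT.lf (nat_lit 0) (nat_lit 14605685102) (nat_lit 228) (nat_lit 1710968612) (nat_lit 76) (nat_lit 8559544902) (nat_lit 13) (nat_lit 5) (nat_lit 16) (nat_lit 5)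 (nat_lit 14) (nat_lit 4) (nat_lit 294) (nat_lit 241) (nat_lit 185)) (XT.lf (nat_lit 0) (nat_lit 5510381026) (nat_lit 76) (nat_lit 12669088672) (nat_lit 152) (nat_lit 7707566228) (nat_lit 12) (nat_lit 5) (nat_lit 13) (nat_lit 5) (nat_lit 14) (nat_lit 4) (nat_lit 295) (nat_lit 241) (nat_lit 184))) (XT.nd (nat_lit 78) (nat_lit 0) (nat_lit 0) (XT.lf (nat_lit 0) (nat_lit 13112804286) (nat_lit 76) (nat_lit 8823902674) (nat_lit 152) (nat_lit 5011524662) (nat_lit 12) (nat_lit 5) (nat_lit 13) (nat_lit 5) (nat_lit 14) (nat_lit 4) (nat_lit 296) (nat_lit 241) (nat_lit 183)) (XT.lf (nat_lit 0) (nat_lit 21057829824) (nat_lit 76) (nat_lit 4800916598) (nat_lit 152) (nat_lit 2204945751) (nat_lit 12) (nat_lit 5) (nat_lit 13) (nat_lit 5) (nat_lit 14) (nat_lit 4) (nat_lit 297) (nat_lit 241) (nat_lit 182)))) (XT.nd (nat_lit 156) (nat_lit 0) (nat_lit 0) (XT.nd (nat_lit 78) (nat_lit 0) (nat_lit 0) (XT.lf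 (nat_lit 0) (nat_lit 120948736) (nat_lit 152) (nat_lit 576784667) (nat_lit 228) (nat_lit 28537684453) (nat_lit 9) (nat_lit 5) (nat_lit 11) (nat_lit 5) (nat_lit 12) (nat_lit 5) (nat_lit 298) (nat_lit 241) (nat_lit 181)) (XT.lf (nat_lit 0) (nat_lit 3830196463) (nat_lit 228) (nat_lit 22747652689) (nat_lit 76) (nat_lit 3878180804) (nat_lit 9) (nat_lit 5) (nat_lit 12) (nat_lit 5) (nat_lit 10) (nat_lit 4) (nat_lit 299) (nat_lit 241) (nat_lit 180))) (XT.nd (nat_lit 78) (nat_lit 0) (nat_lit 0) (XT.lf (nat_lit 0) (nat_lit 7107704858) (nat_lit 228) (nat_lit 16107045029) (nat_lit 76) (nat_lit 8523544519) (nat_lit 9) (nat_lit 5) (nat_lit 12) (nat_lit 5) (nat_lit 10) (nat_lit 4) (nat_lit 300) (nat_lit 241) (nat_lit 179)) (XT.nd (nat_lit 78) (nat_lit 0) (nat_lit 0) (XT.lf (nat_lit 0) (nat_lit 10529056954) (nat_lit 228) (nat_lit 9167829945) (nat_lit 76) (nat_lit 13388827576) (nat_lit 9) (nat_lit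 5) (nat_lit 12) (nat_lit 5) (nat_lit 10) (nat_lit 4) (nat_lit 301) (nat_lit 241) (nat_lit 178)) (XT.lf (nat_lit 0) (nat_lit 14102398829) (nat_lit 228) (nat_lit 1913485495) (nat_lit 76) (nat_lit 18485613983) (nat_lit 9) (nat_lit 5) (nat_lit 12) (nat_lit 5) (nat_lit 10) (nat_lit 4) (nat_lit 302) (nat_lit 241) (nat_lit 177))))))))
noncomputable def xc115 : XT := (XT.nd (nat_lit 1326) (nat_lit 228) (nat_lit 0) (XT.nd (nat_lit 624) (nat_lit 76) (nat_lit 0) (XT.nd (nat_lit 312) (nat_lit 152) (nat_lit 0) (XT.nd (nat_lit 156) (nat_lit 0) (nat_lit 0) (XT.nd (nat_lit 78) (nat_lit 0) (nat_lit 0) (XT.lf (nat_lit 0) (nat_lit 5860844182) (nat_lit 76) (nat_lit 12066898459) (nat_lit 152) (nat_lit 18056698966) (nat_lit 8) (nat_lit 5) (nat_lit 9) (nat_lit 5) (nat_lit 10) (nat_lit 4) (nat_lit 303) (nat_lit 241) (nat_lit 176)) (XT.lf (nat_lit 0) (nat_lit 14060495592) (nat_lit 76) (nat_lit 7898494026)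 (nat_lit 152) (nat_lit 15581845911) (nat_lit 8) (nat_lit 5) (nat_lit 9) (nat_lit 5) (nat_lit 10) (nat_lit 4) (nat_lit 304) (nat_lit 241) (nat_lit 175))) (XT.nd (nat_lit 78) (nat_lit 0) (nat_lit 0) (XT.lf (nat_lit 0) (nat_lit 22641723242) (nat_lit 76) (nat_lit 3533152055) (nat_lit 152) (nat_lit 13001053607) (nat_lit 8) (nat_lit 5) (nat_lit 9) (nat_lit 5) (nat_lit 10) (nat_lit 4) (nat_lit 305) (nat_lit 241) (nat_lit 174)) (XT.lf (nat_lit 0) (nat_lit 30601667341) (nat_lit 152) (nat_lit 9284886027) (nat_lit 0) (nat_lit 1006249955) (nat_lit 8) (nat_lit 5) (nat_lit 10) (nat_lit 4) (nat_lit 8) (nat_lit 4) (nat_lit 306) (nat_lit 241) (nat_lit 173)))) (XT.nd (nat_lit 156) (nat_lit 76) (nat_lit 0) (XT.nd (nat_lit 78) (nat_lit 76) (nat_lit 0) (XT.lf (nat_lit 0) (nat_lit 35292206656) (nat_lit 152) (nat_lit 1757421672) (nat_lit 0) (nat_lit 5643803205) (nat_lit 8) (nat_lit 5) (nat_lit 10) (nat_lit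 4) (nat_lit 8) (nat_lit 4) (nat_lit 307) (nat_lit 241) (nat_lit 172)) (XT.lf (nat_lit 0) (nat_lit 6323669250) (nat_lit 76) (nat_lit 33977559738) (nat_lit 76) (nat_lit 4278693368) (nat_lit 7) (nat_lit 4) (nat_lit 8) (nat_lit 5) (nat_lit 8) (nat_lit 4) (nat_lit 308) (nat_lit 241) (nat_lit 171))) (XT.nd (nat_lit 78) (nat_lit 76) (nat_lit 0) (XT.lf (nat_lit 0) (nat_lit 14845090412) (nat_lit 76) (nat_lit 30730917963) (nat_lit 76) (nat_lit 983991671) (nat_lit 7) (nat_lit 4) (nat_lit 8) (nat_lit 5) (nat_lit 8) (nat_lit 4) (nat_lit 309) (nat_lit 241) (nat_lit 170)) (XT.lf (nat_lit 0) (nat_lit 2382195804) (nat_lit 152) (nat_lit 24909196247) (nat_lit 76) (nat_lit 21346483173) (nat_lit 6) (nat_lit 5) (nat_lit 8) (nat_lit 5) (nat_lit 7) (nat_lit 4) (nat_lit 310) (nat_lit 241) (nat_lit 169))))) (XT.nd (nat_lit 312) (nat_lit 0) (nat_lit 0) (XT.nd (nat_lit 156) (nat_lit 76) (nat_lit 0) (XT.nd (nat_lit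 78) (nat_lit 0) (nat_lit 0) (XT.lf (nat_lit 0) (nat_lit 5870272078) (nat_lit 152) (nat_lit 17802231652) (nat_lit 76) (nat_lit 27147025342) (nat_lit 6) (nat_lit 5) (nat_lit 8) (nat_lit 5) (nat_lit 7) (nat_lit 4) (nat_lit 311) (nat_lit 241) (nat_lit 168)) (XT.lf (nat_lit 0) (nat_lit 9520035972) (nat_lit 152) (nat_lit 10361731638) (nat_lit 76) (nat_lit 33229156539) (nat_lit 6) (nat_lit 5) (nat_lit 8) (nat_lit 5) (nat_lit 7) (nat_lit 4) (nat_lit 312) (nat_lit 241) (nat_lit 167))) (XT.nd (nat_lit 78) (nat_lit 76) (nat_lit 0) (XT.lf (nat_lit 0) (nat_lit 13340177400) (nat_lit 152) (nat_lit 2569980728) (nat_lit 76) (nat_lit 39607358028) (nat_lit 6) (nat_lit 5) (nat_lit 8) (nat_lit 5) (nat_lit 7) (nat_lit 4) (nat_lit 313) (nat_lit 241) (nat_lit 166)) (XT.lf (nat_lit 0) (nat_lit 5776455515) (nat_lit 76) (nat_lit 11653523080) (nat_lit 152) (nat_lit 40610547146) (nat_lit 5) (nat_lit 5) (nat_lit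 6) (nat_lit 5) (nat_lit 7) (nat_lit 4) (nat_lit 314) (nat_lit 241) (nat_lit 165)))) (XT.nd (nat_lit 156) (nat_lit 0) (nat_lit 0) (XT.nd (nat_lit 78) (nat_lit 0) (nat_lit 0) (XT.lf (nat_lit 0) (nat_lit 14609971748) (nat_lit 76) (nat_lit 7146533328) (nat_lit 152) (nat_lit 38931588598) (nat_lit 5) (nat_lit 5) (nat_lit 6) (nat_lit 5) (nat_lit 7) (nat_lit 4) (nat_lit 315) (nat_lit 241) (nat_lit 164)) (XT.lf (nat_lit 0) (nat_lit 23866624982) (nat_lit 76) (nat_lit 2421981813) (nat_lit 152) (nat_lit 37179989461) (nat_lit 5) (nat_lit 5) (nat_lit 6) (nat_lit 5) (nat_lit 7) (nat_lit 4) (nat_lit 316) (nat_lit 241) (nat_lit 163))) (XT.nd (nat_lit 78) (nat_lit 0) (nat_lit 0) (XT.lf (nat_lit 0) (nat_lit 31076596412) (nat_lit 152) (nat_lit 32859720805) (nat_lit 0) (nat_lit 2450360416) (nat_lit 5) (nat_lit 5) (nat_lit 7) (nat_lit 4) (nat_lit 5) (nat_lit 4) (nat_lit 317) (nat_lit 241) (nat_lit 162))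 (XT.nd (nat_lit 78) (nat_lit 0) (nat_lit 0) (XT.lf (nat_lit 0) (nat_lit 36133828293) (nat_lit 152) (nat_lit 25837271931) (nat_lit 0) (nat_lit 7478087673) (nat_lit 5) (nat_lit 5) (nat_lit 7) (nat_lit 4) (nat_lit 5) (nat_lit 4) (nat_lit 318) (nat_lit 241) (nat_lit 161)) (XT.lf (nat_lit 0) (nat_lit 41434529542) (nat_lit 152) (nat_lit 18480090614) (nat_lit 0) (nat_lit 12750689281) (nat_lit 5) (nat_lit 5) (nat_lit 7) (nat_lit 4) (nat_lit 5) (nat_lit 4) (nat_lit 319) (nat_lit 241) (nat_lit 160))))))) (XT.nd (nat_lit 702) (nat_lit 152) (nat_lit 0) (XT.nd (nat_lit 312) (nat_lit 0) (nat_lit 0) (XT.nd (nat_lit 156) (nat_lit 76) (nat_lit 0) (XT.nd (nat_lit 78) (nat_lit 0) (nat_lit 0) (XT.lf (nat_lit 0) (nat_lit 46991320878) (nat_lit 152) (nat_lit 10770659754) (nat_lit 0) (nat_lit 18280719053) (nat_lit 5) (nat_lit 5) (nat_lit 7) (nat_lit 4) (nat_lit 5) (nat_lit 4) (nat_lit 320) (nat_lit 241) (nat_lit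 159)) (XT.lf (nat_lit 0) (nat_lit 52817432754) (nat_lit 152) (nat_lit 2690623564) (nat_lit 0) (nat_lit 24081343726) (nat_lit 5) (nat_lit 5) (nat_lit 7) (nat_lit 4) (nat_lit 5) (nat_lit 4) (nat_lit 321) (nat_lit 241) (nat_lit 158))) (XT.nd (nat_lit 78) (nat_lit 0) (nat_lit 0) (XT.lf (nat_lit 0) (nat_lit 5970344445) (nat_lit 76) (nat_lit 53049606230) (nat_lit 76) (nat_lit 24289243676) (nat_lit 4) (nat_lit 4) (nat_lit 5) (nat_lit 5) (nat_lit 5) (nat_lit 4) (nat_lit 322) (nat_lit 241) (nat_lit 157)) (XT.lf (nat_lit 0) (nat_lit 15143843291) (nat_lit 76) (nat_lit 50426373722) (nat_lit 76) (nat_lit 21642893522) (nat_lit 4) (nat_lit 4) (nat_lit 5) (nat_lit 5) (nat_lit 5) (nat_lit 4) (nat_lit 323) (nat_lit 241) (nat_lit 156)))) (XT.nd (nat_lit 156) (nat_lit 0) (nat_lit 0) (XT.nd (nat_lit 78) (nat_lit 0) (nat_lit 0) (XT.lf (nat_lit 0) (nat_lit 24762750471) (nat_lit 76) (nat_lit 47677680012)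 (nat_lit 76) (nat_lit 18872183008) (nat_lit 4) (nat_lit 4) (nat_lit 5) (nat_lit 5) (nat_lit 5) (nat_lit 4) (nat_lit 324) (nat_lit 241) (nat_lit 155)) (XT.lf (nat_lit 0) (nat_lit 34849968146) (nat_lit 76) (nat_lit 44796980592) (nat_lit 76) (nat_lit 15970515204) (nat_lit 4) (nat_lit 4) (nat_lit 5) (nat_lit 5) (nat_lit 5) (nat_lit 4) (nat_lit 325) (nat_lit 241) (nat_lit 154))) (XT.nd (nat_lit 78) (nat_lit 0) (nat_lit 0) (XT.lf (nat_lit 0) (nat_lit 45429513499) (nat_lit 76) (nat_lit 41777416655) (nat_lit 76) (nat_lit 12930981376) (nat_lit 4) (nat_lit 4) (nat_lit 5) (nat_lit 5) (nat_lit 5) (nat_lit 4) (nat_lit 326) (nat_lit 241) (nat_lit 153)) (XT.nd (nat_lit 78) (nat_lit 0) (nat_lit 0) (XT.lf (nat_lit 0) (nat_lit 56526575926) (nat_lit 76) (nat_lit 38611798762) (nat_lit 76) (nat_lit 9746344539) (nat_lit 4) (nat_lit 4) (nat_lit 5) (nat_lit 5) (nat_lit 5) (nat_lit 4) (nat_lit 327) (nat_lit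 241) (nat_lit 152)) (XT.lf (nat_lit 0) (nat_lit 68167577003) (nat_lit 76) (nat_lit 35292589727) (nat_lit 76) (nat_lit 6409022226) (nat_lit 4) (nat_lit 4) (nat_lit 5) (nat_lit 5) (nat_lit 5) (nat_lit 4) (nat_lit 328) (nat_lit 241) (nat_lit 151)))))) (XT.nd (nat_lit 312) (nat_lit 76) (nat_lit 0) (XT.nd (nat_lit 156) (nat_lit 0) (nat_lit 0) (XT.nd (nat_lit 78) (nat_lit 76) (nat_lit 0) (XT.lf (nat_lit 0) (nat_lit 80380233400) (nat_lit 76) (nat_lit 31811886673) (nat_lit 76) (nat_lit 2911068429) (nat_lit 4) (nat_lit 4) (nat_lit 5) (nat_lit 5) (nat_lit 5) (nat_lit 4) (nat_lit 329) (nat_lit 241) (nat_lit 150)) (XT.lf (nat_lit 0) (nat_lit 731653540) (nat_lit 152) (nat_lit 27417357763) (nat_lit 76) (nat_lit 92449578422) (nat_lit 3) (nat_lit 5) (nat_lit 5) (nat_lit 5) (nat_lit 4) (nat_lit 4) (nat_lit 330) (nat_lit 241) (nat_lit 149))) (XT.nd (nat_lit 78) (nat_lit 0) (nat_lit 0) (XT.lf (nat_lit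 0) (nat_lit 4453206620) (nat_lit 152) (nat_lit 19803820881) (nat_lit 76) (nat_lit 102109629651) (nat_lit 3) (nat_lit 5) (nat_lit 5) (nat_lit 5) (nat_lit 4) (nat_lit 4) (nat_lit 331) (nat_lit 241) (nat_lit 148)) (XT.lf (nat_lit 0) (nat_lit 8355624020) (nat_lit 152) (nat_lit 11818767050) (nat_lit 76) (nat_lit 112249005705) (nat_lit 3) (nat_lit 5) (nat_lit 5) (nat_lit 5) (nat_lit 4) (nat_lit 4) (nat_lit 332) (nat_lit 241) (nat_lit 147)))) (XT.nd (nat_lit 156) (nat_lit 0) (nat_lit 0) (XT.nd (nat_lit 78) (nat_lit 76) (nat_lit 0) (XT.lf (nat_lit 0) (nat_lit 12448197210) (nat_lit 152) (nat_lit 3443184239) (nat_lit 76) (nat_lit 122891847953) (nat_lit 3) (nat_lit 5) (nat_lit 5) (nat_lit 5) (nat_lit 4) (nat_lit 4) (nat_lit 333) (nat_lit 241) (nat_lit 146)) (XT.lf (nat_lit 0) (nat_lit 5519528808) (nat_lit 76) (nat_lit 11307316917) (nat_lit 152) (nat_lit 128630143000) (nat_lit 2) (nat_lit 5) (nat_lit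 3) (nat_lit 5) (nat_lit 4) (nat_lit 4) (nat_lit 334) (nat_lit 241) (nat_lit 145))) (XT.nd (nat_lit 78) (nat_lit 0) (nat_lit 0) (XT.lf (nat_lit 0) (nat_lit 15041742800) (nat_lit 76) (nat_lit 6436364760) (nat_lit 152) (nat_lit 130983651457) (nat_lit 2) (nat_lit 5) (nat_lit 3) (nat_lit 5) (nat_lit 4) (nat_lit 4) (nat_lit 335) (nat_lit 241) (nat_lit 144)) (XT.nd (nat_lit 78) (nat_lit 0) (nat_lit 0) (XT.lf (nat_lit 0) (nat_lit 25032282452) (nat_lit 76) (nat_lit 1325239465) (nat_lit 152) (nat_lit 133459473146) (nat_lit 2) (nat_lit 5) (nat_lit 3) (nat_lit 5) (nat_lit 4) (nat_lit 4) (nat_lit 336) (nat_lit 241) (nat_lit 143)) (XT.lf (nat_lit 0) (nat_lit 31539754512) (nat_lit 152) (nat_lit 132088322627) (nat_lit 0) (nat_lit 3908979787) (nat_lit 2) (nat_lit 5) (nat_lit 4) (nat_lit 4) (nat_lit 2) (nat_lit 4) (nat_lit 337) (nat_lit 241) (nat_lit 142))))))))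
noncomputable def xc116 : XT := (XT.nd (nat_lit 1326) (nat_lit 0) (nat_lit 0) (XT.nd (nat_lit 624) (nat_lit 0) (nat_lit 0) (XT.nd (nat_lit 312) (nat_lit 0) (nat_lit 0) (XT.nd (nat_lit 156) (nat_lit 0) (nat_lit 0) (XT.nd (nat_lit 78) (nat_lit 0) (nat_lit 0) (XT.lf (nat_lit 0) (nat_lit 36998775671) (nat_lit 152) (nat_lit 129286057966) (nat_lit 0) (nat_lit 9357410486) (nat_lit 2) (nat_lit 5) (nat_lit 4) (nat_lit 4) (nat_lit 2) (nat_lit 4) (nat_lit 338) (nat_lit 241) (nat_lit 141)) (XT.lf (nat_lit 0) (nat_lit 42726892360) (nat_lit 152) (nat_lit 126350555868) (nat_lit 0) (nat_lit 15075441024) (nat_lit 2) (nat_lit 5) (nat_lit 4) (nat_lit 4) (nat_lit 2) (nat_lit 4) (nat_lit 339) (nat_lit 241) (nat_lit 140))) (XT.nd (nat_lit 78) (nat_lit 0) (nat_lit 0) (XT.lf (nat_lit 0) (nat_lit 48737742955) (nat_lit 152) (nat_lit 123274827043) (nat_lit 0) (nat_lit 21076685760) (nat_lit 2) (nat_lit 5) (nat_lit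 4) (nat_lit 4) (nat_lit 2) (nat_lit 4) (nat_lit 340) (nat_lit 241) (nat_lit 139)) (XT.lf (nat_lit 0) (nat_lit 55045639002) (nat_lit 152) (nat_lit 120051548326) (nat_lit 0) (nat_lit 27375433371) (nat_lit 2) (nat_lit 5) (nat_lit 4) (nat_lit 4) (nat_lit 2) (nat_lit 4) (nat_lit 341) (nat_lit 241) (nat_lit 138)))) (XT.nd (nat_lit 156) (nat_lit 0) (nat_lit 0) (XT.nd (nat_lit 78) (nat_lit 0) (nat_lit 0) (XT.lf (nat_lit 0) (nat_lit 61665599303) (nat_lit 152) (nat_lit 116673045245) (nat_lit 0) (nat_lit 33986680875) (nat_lit 2) (nat_lit 5) (nat_lit 4) (nat_lit 4) (nat_lit 2) (nat_lit 4) (nat_lit 342) (nat_lit 241) (nat_lit 137)) (XT.lf (nat_lit 0) (nat_lit 68613385668) (nat_lit 152) (nat_lit 113131273744) (nat_lit 0) (nat_lit 40926169338) (nat_lit 2) (nat_lit 5) (nat_lit 4) (nat_lit 4) (nat_lit 2) (nat_lit 4) (nat_lit 343) (nat_lit 241) (nat_lit 136))) (XT.nd (nat_lit 78) (nat_lit 0) (nat_lit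 0) (XT.lf (nat_lit 0) (nat_lit 75905540446) (nat_lit 152) (nat_lit 109417801034) (nat_lit 0) (nat_lit 48210421351) (nat_lit 2) (nat_lit 5) (nat_lit 4) (nat_lit 4) (nat_lit 2) (nat_lit 4) (nat_lit 344) (nat_lit 241) (nat_lit 135)) (XT.lf (nat_lit 0) (nat_lit 83559425908) (nat_lit 152) (nat_lit 105523785514) (nat_lit 0) (nat_lit 55856780372) (nat_lit 2) (nat_lit 5) (nat_lit 4) (nat_lit 4) (nat_lit 2) (nat_lit 4) (nat_lit 345) (nat_lit 241) (nat_lit 134))))) (XT.nd (nat_lit 312) (nat_lit 0) (nat_lit 0) (XT.nd (nat_lit 156) (nat_lit 0) (nat_lit 0) (XT.nd (nat_lit 78) (nat_lit 0) (nat_lit 0) (XT.lf (nat_lit 0) (nat_lit 91593265594) (nat_lit 152) (nat_lit 101439955717) (nat_lit 0) (nat_lit 63883452018) (nat_lit 2) (nat_lit 5) (nat_lit 4) (nat_lit 4) (nat_lit 2) (nat_lit 4) (nat_lit 346) (nat_lit 241) (nat_lit 133)) (XT.lf (nat_lit 0) (nat_lit 100026187691) (nat_lit 152) (nat_lit 97156588240)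 (nat_lit 0) (nat_lit 72309547410) (nat_lit 2) (nat_lit 5) (nat_lit 4) (nat_lit 4) (nat_lit 2) (nat_lit 4) (nat_lit 347) (nat_lit 241) (nat_lit 132))) (XT.nd (nat_lit 78) (nat_lit 0) (nat_lit 0) (XT.lf (nat_lit 0) (nat_lit 108878270586) (nat_lit 152) (nat_lit 92663484589) (nat_lit 0) (nat_lit 81155128683) (nat_lit 2) (nat_lit 5) (nat_lit 4) (nat_lit 4) (nat_lit 2) (nat_lit 4) (nat_lit 348) (nat_lit 241) (nat_lit 131)) (XT.lf (nat_lit 0) (nat_lit 118170590667) (nat_lit 152) (nat_lit 87949946898) (nat_lit 0) (nat_lit 90441256742) (nat_lit 2) (nat_lit 5) (nat_lit 4) (nat_lit 4) (nat_lit 2) (nat_lit 4) (nat_lit 349) (nat_lit 241) (nat_lit 130)))) (XT.nd (nat_lit 156) (nat_lit 0) (nat_lit 0) (XT.nd (nat_lit 78) (nat_lit 0) (nat_lit 0) (XT.lf (nat_lit 0) (nat_lit 127925272506) (nat_lit 152) (nat_lit 83004752457) (nat_lit 0) (nat_lit 100190041416) (nat_lit 2) (nat_lit 5) (nat_lit 4) (nat_lit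 4) (nat_lit 2) (nat_lit 4) (nat_lit 350) (nat_lit 241) (nat_lit 129)) (XT.lf (nat_lit 0) (nat_lit 138165541535) (nat_lit 152) (nat_lit 77816126995) (nat_lit 0) (nat_lit 110424694099) (nat_lit 2) (nat_lit 5) (nat_lit 4) (nat_lit 4) (nat_lit 2) (nat_lit 4) (nat_lit 351) (nat_lit 241) (nat_lit 128))) (XT.nd (nat_lit 78) (nat_lit 0) (nat_lit 0) (XT.lf (nat_lit 0) (nat_lit 148915779348) (nat_lit 152) (nat_lit 72371716642) (nat_lit 0) (nat_lit 121169583010) (nat_lit 2) (nat_lit 5) (nat_lit 4) (nat_lit 4) (nat_lit 2) (nat_lit 4) (nat_lit 352) (nat_lit 241) (nat_lit 127)) (XT.nd (nat_lit 78) (nat_lit 0) (nat_lit 0) (XT.lf (nat_lit 0) (nat_lit 160201581749) (nat_lit 152) (nat_lit 66658558515) (nat_lit 0) (nat_lit 132450291218) (nat_lit 2) (nat_lit 5) (nat_lit 4) (nat_lit 4) (nat_lit 2) (nat_lit 4) (nat_lit 353) (nat_lit 241) (nat_lit 126)) (XT.lf (nat_lit 0) (nat_lit 172049819695) (nat_lit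 152) (nat_lit 60663049857) (nat_lit 0) (nat_lit 144293677553) (nat_lit 2) (nat_lit 5) (nat_lit 4) (nat_lit 4) (nat_lit 2) (nat_lit 4) (nat_lit 354) (nat_lit 241) (nat_lit 125))))))) (XT.nd (nat_lit 28860) (nat_lit 0) (nat_lit 6612) (XT.nd (nat_lit 312) (nat_lit 0) (nat_lit 0) (XT.nd (nat_lit 156) (nat_lit 0) (nat_lit 0) (XT.nd (nat_lit 78) (nat_lit 0) (nat_lit 0) (XT.lf (nat_lit 0) (nat_lit 184488703277) (nat_lit 152) (nat_lit 54370915648) (nat_lit 0) (nat_lit 156727940553) (nat_lit 2) (nat_lit 5) (nat_lit 4) (nat_lit 4) (nat_lit 2) (nat_lit 4) (nat_lit 355) (nat_lit 241) (nat_lit 124)) (XT.lf (nat_lit 0) (nat_lit 197547848885) (nat_lit 152) (nat_lit 47767174616) (nat_lit 0) (nat_lit 169782685607) (nat_lit 2) (nat_lit 5) (nat_lit 4) (nat_lit 4) (nat_lit 2) (nat_lit 4) (nat_lit 356) (nat_lit 241) (nat_lit 123))) (XT.nd (nat_lit 78) (nat_lit 0) (nat_lit 0) (XT.lf (nat_lit 0) (nat_lit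 211258349723) (nat_lit 152) (nat_lit 40836103567) (nat_lit 0) (nat_lit 183488995440) (nat_lit 2) (nat_lit 5) (nat_lit 4) (nat_lit 4) (nat_lit 2) (nat_lit 4) (nat_lit 357) (nat_lit 241) (nat_lit 122)) (XT.lf (nat_lit 0) (nat_lit 225652849839) (nat_lit 152) (nat_lit 33561199951) (nat_lit 0) (nat_lit 197879504123) (nat_lit 2) (nat_lit 5) (nat_lit 4) (nat_lit 4) (nat_lit 2) (nat_lit 4) (nat_lit 358) (nat_lit 241) (nat_lit 121)))) (XT.nd (nat_lit 28392) (nat_lit 0) (nat_lit 7828) (XT.nd (nat_lit 78) (nat_lit 0) (nat_lit 0) (XT.lf (nat_lit 0) (nat_lit 240765621854) (nat_lit 152) (nat_lit 25925142570) (nat_lit 0) (nat_lit 212988474774) (nat_lit 2) (nat_lit 5) (nat_lit 4) (nat_lit 4) (nat_lit 2) (nat_lit 4) (nat_lit 359) (nat_lit 241) (nat_lit 120)) (XT.lf (nat_lit 0) (nat_lit 256632648558) (nat_lit 152) (nat_lit 17909750335) (nat_lit 0) (nat_lit 228851881131) (nat_lit 2) (nat_lit 5) (nat_lit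 4) (nat_lit 4) (nat_lit 2) (nat_lit 4) (nat_lit 360) (nat_lit 241) (nat_lit 119))) (XT.nd (nat_lit 78) (nat_lit 0) (nat_lit 0) (XT.lf (nat_lit 0) (nat_lit 1916145042) (nat_lit 228) (nat_lit 664566290) (nat_lit 228) (nat_lit 664566290) (nat_lit 105) (nat_lit 3) (nat_lit 108) (nat_lit 3) (nat_lit 108) (nat_lit 5) (nat_lit 242) (nat_lit 242) (nat_lit 236)) (XT.lf (nat_lit 76) (nat_lit 1490489850) (nat_lit 0) (nat_lit 4747256249) (nat_lit 228) (nat_lit 281995299) (nat_lit 106) (nat_lit 5) (nat_lit 105) (nat_lit 3) (nat_lit 108) (nat_lit 5) (nat_lit 243) (nat_lit 242) (nat_lit 235))))) (XT.nd (nat_lit 312) (nat_lit 684) (nat_lit 0) (XT.nd (nat_lit 156) (nat_lit 304) (nat_lit 0) (XT.nd (nat_lit 78) (nat_lit 0) (nat_lit 0) (XT.lf (nat_lit 0) (nat_lit 2014018756) (nat_lit 228) (nat_lit 2172973912) (nat_lit 304) (nat_lit 2369151083) (nat_lit 102) (nat_lit 5) (nat_lit 105) (nat_lit 3) (nat_lit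 106) (nat_lit 5) (nat_lit 244) (nat_lit 242) (nat_lit 234)) (XT.lf (nat_lit 76) (nat_lit 764015724) (nat_lit 0) (nat_lit 3519350114) (nat_lit 304) (nat_lit 2318390383) (nat_lit 103) (nat_lit 5) (nat_lit 102) (nat_lit 5) (nat_lit 106) (nat_lit 5) (nat_lit 245) (nat_lit 242) (nat_lit 233))) (XT.nd (nat_lit 78) (nat_lit 304) (nat_lit 0) (XT.lf (nat_lit 76) (nat_lit 3842684797) (nat_lit 0) (nat_lit 2721971368) (nat_lit 304) (nat_lit 91042312) (nat_lit 103) (nat_lit 5) (nat_lit 102) (nat_lit 5) (nat_lit 106) (nat_lit 5) (nat_lit 246) (nat_lit 242) (nat_lit 232)) (XT.lf (nat_lit 76) (nat_lit 253870863) (nat_lit 0) (nat_lit 1791032159) (nat_lit 380) (nat_lit 4673104228) (nat_lit 99) (nat_lit 5) (nat_lit 98) (nat_lit 5) (nat_lit 103) (nat_lit 5) (nat_lit 247) (nat_lit 242) (nat_lit 231)))) (XT.nd (nat_lit 156) (nat_lit 684) (nat_lit 0) (XT.nd (nat_lit 78) (nat_lit 0) (nat_lit 76) (XT.lf (nat_lit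 76) (nat_lit 3489432063) (nat_lit 0) (nat_lit 713132878) (nat_lit 380) (nat_lit 2585733424) (nat_lit 99) (nat_lit 5) (nat_lit 98) (nat_lit 5) (nat_lit 103) (nat_lit 5) (nat_lit 248) (nat_lit 242) (nat_lit 230)) (XT.lf (nat_lit 0) (nat_lit 6351909232) (nat_lit 304) (nat_lit 66509381) (nat_lit 76) (nat_lit 450295912) (nat_lit 99) (nat_lit 5) (nat_lit 103) (nat_lit 5) (nat_lit 100) (nat_lit 5) (nat_lit 249) (nat_lit 242) (nat_lit 229))) (XT.nd (nat_lit 78) (nat_lit 380) (nat_lit 0) (XT.lf (nat_lit 0) (nat_lit 1547951752) (nat_lit 380) (nat_lit 3639397742) (nat_lit 76) (nat_lit 1767967077) (nat_lit 94) (nat_lit 5) (nat_lit 99) (nat_lit 5) (nat_lit 95) (nat_lit 5) (nat_lit 250) (nat_lit 242) (nat_lit 228)) (XT.nd (nat_lit 78) (nat_lit 380) (nat_lit 0) (XT.lf (nat_lit 0) (nat_lit 3584610816) (nat_lit 380) (nat_lit 268712731) (nat_lit 76) (nat_lit 3198891413) (nat_lit 94) (nat_lit 5) (nat_lit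 99) (nat_lit 5) (nat_lit 95) (nat_lit 5) (nat_lit 251) (nat_lit 242) (nat_lit 227)) (XT.lf (nat_lit 0) (nat_lit 3296188820) (nat_lit 380) (nat_lit 2368745691) (nat_lit 456) (nat_lit 1492590709) (nat_lit 89) (nat_lit 5) (nat_lit 94) (nat_lit 5) (nat_lit 95) (nat_lit 5) (nat_lit 252) (nat_lit 242) (nat_lit 226))))))))
noncomputable def xc117 : XT := (XT.nd (nat_lit 1326) (nat_lit 1748) (nat_lit 0) (XT.nd (nat_lit 624) (nat_lit 1292) (nat_lit 0) (XT.nd (nat_lit 312) (nat_lit 1368) (nat_lit 0) (XT.nd (nat_lit 156) (nat_lit 532) (nat_lit 0) (XT.nd (nat_lit 78) (nat_lit 456) (nat_lit 0) (XT.lf (nat_lit 0) (nat_lit 459222154) (nat_lit 456) (nat_lit 311053696) (nat_lit 76) (nat_lit 6503136268) (nat_lit 88) (nat_lit 5) (nat_lit 94) (nat_lit 5) (nat_lit 89) (nat_lit 5) (nat_lit 253) (nat_lit 242) (nat_lit 225)) (XT.lf (nat_lit 0) (nat_lit 2424906266) (nat_lit 532) (nat_lit 3989663963) (nat_lit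 76) (nat_lit 981546494) (nat_lit 82) (nat_lit 5) (nat_lit 89) (nat_lit 5) (nat_lit 83) (nat_lit 5) (nat_lit 254) (nat_lit 242) (nat_lit 224))) (XT.nd (nat_lit 78) (nat_lit 532) (nat_lit 0) (XT.lf (nat_lit 0) (nat_lit 4408047687) (nat_lit 532) (nat_lit 300098857) (nat_lit 76) (nat_lit 2821393137) (nat_lit 82) (nat_lit 5) (nat_lit 89) (nat_lit 5) (nat_lit 83) (nat_lit 5) (nat_lit 255) (nat_lit 242) (nat_lit 223)) (XT.lf (nat_lit 0) (nat_lit 3610133726) (nat_lit 532) (nat_lit 2842473355) (nat_lit 608) (nat_lit 1219429639) (nat_lit 75) (nat_lit 5) (nat_lit 82) (nat_lit 5) (nat_lit 83) (nat_lit 5) (nat_lit 256) (nat_lit 242) (nat_lit 222)))) (XT.nd (nat_lit 156) (nat_lit 684) (nat_lit 0) (XT.nd (nat_lit 78) (nat_lit 608) (nat_lit 0) (XT.lf (nat_lit 0) (nat_lit 665202883) (nat_lit 608) (nat_lit 188947997) (nat_lit 76) (nat_lit 6971750635) (nat_lit 74) (nat_lit 5) (nat_lit 82) (nat_lit 5)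 (nat_lit 75) (nat_lit 5) (nat_lit 257) (nat_lit 242) (nat_lit 221)) (XT.lf (nat_lit 0) (nat_lit 2596419423) (nat_lit 684) (nat_lit 4104112082) (nat_lit 76) (nat_lit 1286707575) (nat_lit 66) (nat_lit 5) (nat_lit 75) (nat_lit 5) (nat_lit 67) (nat_lit 5) (nat_lit 258) (nat_lit 242) (nat_lit 220))) (XT.nd (nat_lit 78) (nat_lit 684) (nat_lit 0) (XT.lf (nat_lit 0) (nat_lit 4556218647) (nat_lit 684) (nat_lit 86479052) (nat_lit 76) (nat_lit 3517769228) (nat_lit 66) (nat_lit 5) (nat_lit 75) (nat_lit 5) (nat_lit 67) (nat_lit 5) (nat_lit 259) (nat_lit 242) (nat_lit 219)) (XT.lf (nat_lit 0) (nat_lit 4188664591) (nat_lit 684) (nat_lit 2409565749) (nat_lit 760) (nat_lit 1745318985) (nat_lit 57) (nat_lit 5) (nat_lit 66) (nat_lit 5) (nat_lit 67) (nat_lit 5) (nat_lit 260) (nat_lit 242) (nat_lit 218))))) (XT.nd (nat_lit 312) (nat_lit 608) (nat_lit 0) (XT.nd (nat_lit 156) (nat_lit 304) (nat_lit 0) (XT.nd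 (nat_lit 78) (nat_lit 0) (nat_lit 0) (XT.lf (nat_lit 0) (nat_lit 64466967) (nat_lit 304) (nat_lit 57815905) (nat_lit 380) (nat_lit 8417591560) (nat_lit 52) (nat_lit 5) (nat_lit 56) (nat_lit 5) (nat_lit 57) (nat_lit 5) (nat_lit 261) (nat_lit 242) (nat_lit 217)) (XT.lf (nat_lit 0) (nat_lit 2056216570) (nat_lit 380) (nat_lit 4253025500) (nat_lit 76) (nat_lit 2434112075) (nat_lit 52) (nat_lit 5) (nat_lit 57) (nat_lit 5) (nat_lit 53) (nat_lit 5) (nat_lit 262) (nat_lit 242) (nat_lit 216))) (XT.nd (nat_lit 78) (nat_lit 0) (nat_lit 0) (XT.lf (nat_lit 0) (nat_lit 104642198) (nat_lit 304) (nat_lit 3910916593) (nat_lit 380) (nat_lit 4945346066) (nat_lit 48) (nat_lit 5) (nat_lit 52) (nat_lit 5) (nat_lit 53) (nat_lit 5) (nat_lit 263) (nat_lit 242) (nat_lit 215)) (XT.lf (nat_lit 0) (nat_lit 4750875808) (nat_lit 304) (nat_lit 1322465482) (nat_lit 380) (nat_lit 3116284923) (nat_lit 48) (nat_lit 5)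 (nat_lit 52) (nat_lit 5) (nat_lit 53) (nat_lit 5) (nat_lit 264) (nat_lit 242) (nat_lit 214)))) (XT.nd (nat_lit 156) (nat_lit 304) (nat_lit 0) (XT.nd (nat_lit 78) (nat_lit 76) (nat_lit 0) (XT.lf (nat_lit 0) (nat_lit 104251970) (nat_lit 228) (nat_lit 8084947713) (nat_lit 304) (nat_lit 1243126297) (nat_lit 45) (nat_lit 5) (nat_lit 48) (nat_lit 5) (nat_lit 49) (nat_lit 5) (nat_lit 265) (nat_lit 242) (nat_lit 213)) (XT.lf (nat_lit 0) (nat_lit 731089393) (nat_lit 304) (nat_lit 4767306500) (nat_lit 76) (nat_lit 4186945450) (nat_lit 44) (nat_lit 5) (nat_lit 48) (nat_lit 5) (nat_lit 45) (nat_lit 5) (nat_lit 266) (nat_lit 242) (nat_lit 212))) (XT.nd (nat_lit 78) (nat_lit 304) (nat_lit 0) (XT.lf (nat_lit 0) (nat_lit 2697931301) (nat_lit 304) (nat_lit 73357172) (nat_lit 76) (nat_lit 7182176017) (nat_lit 44) (nat_lit 5) (nat_lit 48) (nat_lit 5) (nat_lit 45) (nat_lit 5) (nat_lit 267) (nat_lit 242)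 (nat_lit 211)) (XT.nd (nat_lit 78) (nat_lit 0) (nat_lit 0) (XT.lf (nat_lit 0) (nat_lit 4781590176) (nat_lit 380) (nat_lit 5294447569) (nat_lit 76) (nat_lit 158280501) (nat_lit 40) (nat_lit 5) (nat_lit 45) (nat_lit 5) (nat_lit 41) (nat_lit 5) (nat_lit 268) (nat_lit 242) (nat_lit 210)) (XT.lf (nat_lit 0) (nat_lit 6956545526) (nat_lit 380) (nat_lit 441129435) (nat_lit 76) (nat_lit 3132420429) (nat_lit 40) (nat_lit 5) (nat_lit 45) (nat_lit 5) (nat_lit 41) (nat_lit 5) (nat_lit 269) (nat_lit 242) (nat_lit 209))))))) (XT.nd (nat_lit 702) (nat_lit 532) (nat_lit 0) (XT.nd (nat_lit 312) (nat_lit 684) (nat_lit 0) (XT.nd (nat_lit 156) (nat_lit 228) (nat_lit 0) (XT.nd (nat_lit 78) (nat_lit 76) (nat_lit 0) (XT.lf (nat_lit 0) (nat_lit 4737107580) (nat_lit 228) (nat_lit 4520357603) (nat_lit 304) (nat_lit 1582560501) (nat_lit 37) (nat_lit 5) (nat_lit 40) (nat_lit 5) (nat_lit 41) (nat_lit 5) (nat_lit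 270) (nat_lit 242) (nat_lit 208)) (XT.lf (nat_lit 0) (nat_lit 443095704) (nat_lit 304) (nat_lit 1053869192) (nat_lit 76) (nat_lit 9670726446) (nat_lit 36) (nat_lit 5) (nat_lit 40) (nat_lit 5) (nat_lit 37) (nat_lit 5) (nat_lit 271) (nat_lit 242) (nat_lit 207))) (XT.nd (nat_lit 78) (nat_lit 0) (nat_lit 0) (XT.lf (nat_lit 0) (nat_lit 2557828048) (nat_lit 304) (nat_lit 7245367955) (nat_lit 76) (nat_lit 1705392679) (nat_lit 33) (nat_lit 5) (nat_lit 37) (nat_lit 5) (nat_lit 34) (nat_lit 5) (nat_lit 272) (nat_lit 242) (nat_lit 206)) (XT.lf (nat_lit 0) (nat_lit 4768742003) (nat_lit 304) (nat_lit 2076168411) (nat_lit 76) (nat_lit 5022283432) (nat_lit 33) (nat_lit 5) (nat_lit 37) (nat_lit 5) (nat_lit 34) (nat_lit 5) (nat_lit 273) (nat_lit 242) (nat_lit 205)))) (XT.nd (nat_lit 156) (nat_lit 456) (nat_lit 0) (XT.nd (nat_lit 78) (nat_lit 0) (nat_lit 0) (XT.lf (nat_lit 0) (nat_lit 3394960555) (nat_lit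 228) (nat_lit 3698497583) (nat_lit 304) (nat_lit 5150284694) (nat_lit 30) (nat_lit 5) (nat_lit 33) (nat_lit 5) (nat_lit 34) (nat_lit 5) (nat_lit 274) (nat_lit 242) (nat_lit 204)) (XT.lf (nat_lit 0) (nat_lit 9147586818) (nat_lit 228) (nat_lit 373603394) (nat_lit 304) (nat_lit 3118758039) (nat_lit 30) (nat_lit 5) (nat_lit 33) (nat_lit 5) (nat_lit 34) (nat_lit 5) (nat_lit 275) (nat_lit 242) (nat_lit 203))) (XT.nd (nat_lit 78) (nat_lit 228) (nat_lit 0) (XT.lf (nat_lit 0) (nat_lit 2086679446) (nat_lit 228) (nat_lit 10018570568) (nat_lit 304) (nat_lit 949126856) (nat_lit 27) (nat_lit 5) (nat_lit 30) (nat_lit 5) (nat_lit 31) (nat_lit 5) (nat_lit 276) (nat_lit 242) (nat_lit 202)) (XT.nd (nat_lit 78) (nat_lit 152) (nat_lit 0) (XT.lf (nat_lit 0) (nat_lit 1306724088) (nat_lit 304) (nat_lit 5512451877) (nat_lit 76) (nat_lit 6668444910) (nat_lit 26) (nat_lit 5) (nat_lit 30) (nat_lit 5) (nat_lit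 27) (nat_lit 5) (nat_lit 277) (nat_lit 242) (nat_lit 201)) (XT.lf (nat_lit 0) (nat_lit 143682819) (nat_lit 152) (nat_lit 3458254964) (nat_lit 228) (nat_lit 10342026172) (nat_lit 24) (nat_lit 5) (nat_lit 26) (nat_lit 5) (nat_lit 27) (nat_lit 5) (nat_lit 278) (nat_lit 242) (nat_lit 200)))))) (XT.nd (nat_lit 312) (nat_lit 380) (nat_lit 0) (XT.nd (nat_lit 156) (nat_lit 152) (nat_lit 0) (XT.nd (nat_lit 78) (nat_lit 0) (nat_lit 0) (XT.lf (nat_lit 0) (nat_lit 6065005206) (nat_lit 228) (nat_lit 8209009503) (nat_lit 76) (nat_lit 146586451) (nat_lit 24) (nat_lit 5) (nat_lit 27) (nat_lit 5) (nat_lit 25) (nat_lit 5) (nat_lit 279) (nat_lit 242) (nat_lit 199)) (XT.lf (nat_lit 0) (nat_lit 8667064001) (nat_lit 228) (nat_lit 2453841094) (nat_lit 76) (nat_lit 3799498587) (nat_lit 24) (nat_lit 5) (nat_lit 27) (nat_lit 5) (nat_lit 25) (nat_lit 5) (nat_lit 280) (nat_lit 242) (nat_lit 198))) (XT.nd (nat_lit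 78) (nat_lit 0) (nat_lit 0) (XT.lf (nat_lit 0) (nat_lit 3649734211) (nat_lit 152) (nat_lit 7767564862) (nat_lit 228) (nat_lit 4027112976) (nat_lit 22) (nat_lit 5) (nat_lit 24) (nat_lit 5) (nat_lit 25) (nat_lit 5) (nat_lit 281) (nat_lit 242) (nat_lit 197)) (XT.lf (nat_lit 0) (nat_lit 10088420193) (nat_lit 152) (nat_lit 4220263509) (nat_lit 228) (nat_lit 1685868941) (nat_lit 22) (nat_lit 5) (nat_lit 24) (nat_lit 5) (nat_lit 25) (nat_lit 5) (nat_lit 282) (nat_lit 242) (nat_lit 196)))) (XT.nd (nat_lit 156) (nat_lit 152) (nat_lit 0) (XT.nd (nat_lit 78) (nat_lit 0) (nat_lit 0) (XT.lf (nat_lit 0) (nat_lit 217802604) (nat_lit 152) (nat_lit 496502028) (nat_lit 228) (nat_lit 15859066263) (nat_lit 19) (nat_lit 5) (nat_lit 21) (nat_lit 5) (nat_lit 22) (nat_lit 5) (nat_lit 283) (nat_lit 242) (nat_lit 195)) (XT.lf (nat_lit 0) (nat_lit 3296632447) (nat_lit 228) (nat_lit 10460420006) (nat_lit 76)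 (nat_lit 3416853875) (nat_lit 19) (nat_lit 5) (nat_lit 22) (nat_lit 5) (nat_lit 20) (nat_lit 5) (nat_lit 284) (nat_lit 242) (nat_lit 194))) (XT.nd (nat_lit 78) (nat_lit 152) (nat_lit 0) (XT.lf (nat_lit 0) (nat_lit 5981783072) (nat_lit 228) (nat_lit 4330751492) (nat_lit 76) (nat_lit 7493342190) (nat_lit 19) (nat_lit 5) (nat_lit 22) (nat_lit 5) (nat_lit 20) (nat_lit 5) (nat_lit 285) (nat_lit 242) (nat_lit 193)) (XT.nd (nat_lit 78) (nat_lit 0) (nat_lit 0) (XT.lf (nat_lit 0) (nat_lit 2123756972) (nat_lit 152) (nat_lit 6677798760) (nat_lit 228) (nat_lit 9667960832) (nat_lit 17) (nat_lit 5) (nat_lit 19) (nat_lit 5) (nat_lit 20) (nat_lit 5) (nat_lit 286) (nat_lit 242) (nat_lit 192)) (XT.lf (nat_lit 0) (nat_lit 9002528086) (nat_lit 152) (nat_lit 2801138438) (nat_lit 228) (nat_lit 7360689210) (nat_lit 17) (nat_lit 5) (nat_lit 19) (nat_lit 5) (nat_lit 20) (nat_lit 5) (nat_lit 287) (nat_lit 242)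 (nat_lit 191))))))))
noncomputable def xc118 : XT := (XT.nd (nat_lit 1326) (nat_lit 228) (nat_lit 0) (XT.nd (nat_lit 624) (nat_lit 380) (nat_lit 0) (XT.nd (nat_lit 312) (nat_lit 152) (nat_lit 0) (XT.nd (nat_lit 156) (nat_lit 76) (nat_lit 0) (XT.nd (nat_lit 78) (nat_lit 76) (nat_lit 0) (XT.lf (nat_lit 0) (nat_lit 14944980544) (nat_lit 228) (nat_lit 3736363558) (nat_lit 76) (nat_lit 1213218682) (nat_lit 17) (nat_lit 5) (nat_lit 20) (nat_lit 5) (nat_lit 18) (nat_lit 4) (nat_lit 288) (nat_lit 242) (nat_lit 190)) (XT.lf (nat_lit 0) (nat_lit 3015397106) (nat_lit 76) (nat_lit 15291704642) (nat_lit 152) (nat_lit 2351068322) (nat_lit 16) (nat_lit 5) (nat_lit 17) (nat_lit 5) (nat_lit 18) (nat_lit 4) (nat_lit 289) (nat_lit 242) (nat_lit 189))) (XT.nd (nat_lit 78) (nat_lit 0) (nat_lit 0) (XT.lf (nat_lit 0) (nat_lit 400503927) (nat_lit 152) (nat_lit 11275124109) (nat_lit 76) (nat_lit 9782344351)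 (nat_lit 15) (nat_lit 5) (nat_lit 17) (nat_lit 5) (nat_lit 16) (nat_lit 5) (nat_lit 290) (nat_lit 242) (nat_lit 188)) (XT.lf (nat_lit 0) (nat_lit 3182925781) (nat_lit 152) (nat_lit 4671315868) (nat_lit 76) (nat_lit 14443048430) (nat_lit 15) (nat_lit 5) (nat_lit 17) (nat_lit 5) (nat_lit 16) (nat_lit 5) (nat_lit 291) (nat_lit 242) (nat_lit 187)))) (XT.nd (nat_lit 156) (nat_lit 0) (nat_lit 0) (XT.nd (nat_lit 78) (nat_lit 0) (nat_lit 0) (XT.lf (nat_lit 0) (nat_lit 2294520874) (nat_lit 152) (nat_lit 3819373947) (nat_lit 228) (nat_lit 17064270841) (nat_lit 13) (nat_lit 5) (nat_lit 15) (nat_lit 5) (nat_lit 16) (nat_lit 5) (nat_lit 292) (nat_lit 242) (nat_lit 186)) (XT.lf (nat_lit 0) (nat_lit 9252318119) (nat_lit 228) (nat_lit 14378156304) (nat_lit 76) (nat_lit 469625611) (nat_lit 13) (nat_lit 5) (nat_lit 16) (nat_lit 5) (nat_lit 14) (nat_lit 4) (nat_lit 293) (nat_lit 242) (nat_lit 185)))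 (XT.nd (nat_lit 78) (nat_lit 0) (nat_lit 0) (XT.lf (nat_lit 0) (nat_lit 12585497807) (nat_lit 228) (nat_lit 7650046728) (nat_lit 76) (nat_lit 4830752255) (nat_lit 13) (nat_lit 5) (nat_lit 16) (nat_lit 5) (nat_lit 14) (nat_lit 4) (nat_lit 294) (nat_lit 242) (nat_lit 184)) (XT.lf (nat_lit 0) (nat_lit 16061738897) (nat_lit 228) (nat_lit 623665620) (nat_lit 76) (nat_lit 9396633437) (nat_lit 13) (nat_lit 5) (nat_lit 16) (nat_lit 5) (nat_lit 14) (nat_lit 4) (nat_lit 295) (nat_lit 242) (nat_lit 183))))) (XT.nd (nat_lit 312) (nat_lit 76) (nat_lit 0) (XT.nd (nat_lit 156) (nat_lit 228) (nat_lit 0) (XT.nd (nat_lit 78) (nat_lit 0) (nat_lit 0) (XT.lf (nat_lit 0) (nat_lit 6939834541) (nat_lit 76) (nat_lit 12857833878) (nat_lit 152) (nat_lit 7346656026) (nat_lit 12) (nat_lit 5) (nat_lit 13) (nat_lit 5) (nat_lit 14) (nat_lit 4) (nat_lit 296) (nat_lit 242) (nat_lit 182)) (XT.lf (nat_lit 0) (nat_lit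 14867429703) (nat_lit 76) (nat_lit 8841565210) (nat_lit 152) (nat_lit 4551349930) (nat_lit 12) (nat_lit 5) (nat_lit 13) (nat_lit 5) (nat_lit 14) (nat_lit 4) (nat_lit 297) (nat_lit 242) (nat_lit 181))) (XT.nd (nat_lit 78) (nat_lit 228) (nat_lit 0) (XT.lf (nat_lit 0) (nat_lit 23157373889) (nat_lit 76) (nat_lit 4637598050) (nat_lit 152) (nat_lit 1638287358) (nat_lit 12) (nat_lit 5) (nat_lit 13) (nat_lit 5) (nat_lit 14) (nat_lit 4) (nat_lit 298) (nat_lit 242) (nat_lit 180)) (XT.lf (nat_lit 0) (nat_lit 1179444584) (nat_lit 152) (nat_lit 193645702) (nat_lit 228) (nat_lit 29290756970) (nat_lit 9) (nat_lit 5) (nat_lit 11) (nat_lit 5) (nat_lit 12) (nat_lit 5) (nat_lit 299) (nat_lit 242) (nat_lit 179)))) (XT.nd (nat_lit 156) (nat_lit 76) (nat_lit 0) (XT.nd (nat_lit 78) (nat_lit 0) (nat_lit 0) (XT.lf (nat_lit 0) (nat_lit 4637803759) (nat_lit 228) (nat_lit 22857075543) (nat_lit 76) (nat_lit 4451892057)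 (nat_lit 9) (nat_lit 5) (nat_lit 12) (nat_lit 5) (nat_lit 10) (nat_lit 4) (nat_lit 300) (nat_lit 242) (nat_lit 178)) (XT.lf (nat_lit 0) (nat_lit 8049849599) (nat_lit 228) (nat_lit 15933387966) (nat_lit 76) (nat_lit 9311438138) (nat_lit 9) (nat_lit 5) (nat_lit 12) (nat_lit 5) (nat_lit 10) (nat_lit 4) (nat_lit 301) (nat_lit 242) (nat_lit 177))) (XT.nd (nat_lit 78) (nat_lit 76) (nat_lit 0) (XT.lf (nat_lit 0) (nat_lit 11614328372) (nat_lit 228) (nat_lit 8693831618) (nat_lit 76) (nat_lit 14402760757) (nat_lit 9) (nat_lit 5) (nat_lit 12) (nat_lit 5) (nat_lit 10) (nat_lit 4) (nat_lit 302) (nat_lit 242) (nat_lit 176)) (XT.nd (nat_lit 78) (nat_lit 76) (nat_lit 0) (XT.lf (nat_lit 0) (nat_lit 15339726933) (nat_lit 228) (nat_lit 1121169462) (nat_lit 76) (nat_lit 19737982113) (nat_lit 9) (nat_lit 5) (nat_lit 12) (nat_lit 5) (nat_lit 10) (nat_lit 4) (nat_lit 303) (nat_lit 242) (nat_lit 175)) (XT.lf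 (nat_lit 0) (nat_lit 7027554275) (nat_lit 76) (nat_lit 12317080819) (nat_lit 152) (nat_lit 18411970655) (nat_lit 8) (nat_lit 5) (nat_lit 9) (nat_lit 5) (nat_lit 10) (nat_lit 4) (nat_lit 304) (nat_lit 242) (nat_lit 174))))))) (XT.nd (nat_lit 624) (nat_lit 76) (nat_lit 0) (XT.nd (nat_lit 312) (nat_lit 152) (nat_lit 0) (XT.nd (nat_lit 156) (nat_lit 0) (nat_lit 0) (XT.nd (nat_lit 78) (nat_lit 0) (nat_lit 0) (XT.lf (nat_lit 0) (nat_lit 15595585023) (nat_lit 76) (nat_lit 7957073429) (nat_lit 152) (nat_lit 15839449388) (nat_lit 8) (nat_lit 5) (nat_lit 9) (nat_lit 5) (nat_lit 10) (nat_lit 4) (nat_lit 305) (nat_lit 242) (nat_lit 173)) (XT.lf (nat_lit 0) (nat_lit 24566251930) (nat_lit 76) (nat_lit 3389480802) (nat_lit 152) (nat_lit 13154450270) (nat_lit 8) (nat_lit 5) (nat_lit 9) (nat_lit 5) (nat_lit 10) (nat_lit 4) (nat_lit 306) (nat_lit 242) (nat_lit 172))) (XT.nd (nat_lit 78) (nat_lit 0)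 (nat_lit 0) (XT.lf (nat_lit 0) (nat_lit 32586145852) (nat_lit 152) (nat_lit 8975812574) (nat_lit 0) (nat_lit 1351873245) (nat_lit 8) (nat_lit 5) (nat_lit 10) (nat_lit 4) (nat_lit 8) (nat_lit 4) (nat_lit 307) (nat_lit 242) (nat_lit 171)) (XT.lf (nat_lit 0) (nat_lit 37489574269) (nat_lit 152) (nat_lit 1108799656) (nat_lit 0) (nat_lit 6207241739) (nat_lit 8) (nat_lit 5) (nat_lit 10) (nat_lit 4) (nat_lit 8) (nat_lit 4) (nat_lit 308) (nat_lit 242) (nat_lit 170)))) (XT.nd (nat_lit 156) (nat_lit 76) (nat_lit 0) (XT.nd (nat_lit 78) (nat_lit 0) (nat_lit 0) (XT.lf (nat_lit 0) (nat_lit 7364466891) (nat_lit 76) (nat_lit 35375286594) (nat_lit 76) (nat_lit 4047182710) (nat_lit 7) (nat_lit 4) (nat_lit 8) (nat_lit 5) (nat_lit 8) (nat_lit 4) (nat_lit 309) (nat_lit 242) (nat_lit 169)) (XT.lf (nat_lit 0) (nat_lit 16277453674) (nat_lit 76) (nat_lit 31980653261) (nat_lit 76) (nat_lit 608957610) (nat_lit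 7) (nat_lit 4) (nat_lit 8) (nat_lit 5) (nat_lit 8) (nat_lit 4) (nat_lit 310) (nat_lit 242) (nat_lit 168))) (XT.nd (nat_lit 78) (nat_lit 0) (nat_lit 0) (XT.lf (nat_lit 0) (nat_lit 2892406088) (nat_lit 152) (nat_lit 25483779137) (nat_lit 76) (nat_lit 22673329782) (nat_lit 6) (nat_lit 5) (nat_lit 8) (nat_lit 5) (nat_lit 7) (nat_lit 4) (nat_lit 311) (nat_lit 242) (nat_lit 167)) (XT.lf (nat_lit 0) (nat_lit 6536262343) (nat_lit 152) (nat_lit 18053412832) (nat_lit 76) (nat_lit 28751540848) (nat_lit 6) (nat_lit 5) (nat_lit 8) (nat_lit 5) (nat_lit 7) (nat_lit 4) (nat_lit 312) (nat_lit 242) (nat_lit 166))))) (XT.nd (nat_lit 312) (nat_lit 0) (nat_lit 0) (XT.nd (nat_lit 156) (nat_lit 76) (nat_lit 0) (XT.nd (nat_lit 78) (nat_lit 0) (nat_lit 0) (XT.lf (nat_lit 0) (nat_lit 10350777447) (nat_lit 152) (nat_lit 10271313075) (nat_lit 76) (nat_lit 35126008879) (nat_lit 6) (nat_lit 5) (nat_lit 8) (nat_lit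 5) (nat_lit 7) (nat_lit 4) (nat_lit 313) (nat_lit 242) (nat_lit 165)) (XT.lf (nat_lit 0) (nat_lit 14345033581) (nat_lit 152) (nat_lit 2118951055) (nat_lit 76) (nat_lit 41811911179) (nat_lit 6) (nat_lit 5) (nat_lit 8) (nat_lit 5) (nat_lit 7) (nat_lit 4) (nat_lit 314) (nat_lit 242) (nat_lit 164))) (XT.nd (nat_lit 78) (nat_lit 0) (nat_lit 0) (XT.lf (nat_lit 0) (nat_lit 6635459764) (nat_lit 76) (nat_lit 11996679236) (nat_lit 152) (nat_lit 42293304923) (nat_lit 5) (nat_lit 5) (nat_lit 6) (nat_lit 5) (nat_lit 7) (nat_lit 4) (nat_lit 315) (nat_lit 242) (nat_lit 163)) (XT.lf (nat_lit 0) (nat_lit 15883500310) (nat_lit 76) (nat_lit 7275745711) (nat_lit 152) (nat_lit 40546958905) (nat_lit 5) (nat_lit 5) (nat_lit 6) (nat_lit 5) (nat_lit 7) (nat_lit 4) (nat_lit 316) (nat_lit 242) (nat_lit 162)))) (XT.nd (nat_lit 156) (nat_lit 0) (nat_lit 0) (XT.nd (nat_lit 78) (nat_lit 0) (nat_lit 0) (XT.lf (nat_lit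 0) (nat_lit 25577127635) (nat_lit 76) (nat_lit 2325829205) (nat_lit 152) (nat_lit 38723551674) (nat_lit 5) (nat_lit 5) (nat_lit 6) (nat_lit 5) (nat_lit 7) (nat_lit 4) (nat_lit 317) (nat_lit 242) (nat_lit 161)) (XT.lf (nat_lit 0) (nat_lit 32919294436) (nat_lit 152) (nat_lit 33998614415) (nat_lit 0) (nat_lit 2773162520) (nat_lit 5) (nat_lit 5) (nat_lit 7) (nat_lit 4) (nat_lit 5) (nat_lit 4) (nat_lit 318) (nat_lit 242) (nat_lit 160))) (XT.nd (nat_lit 78) (nat_lit 0) (nat_lit 0) (XT.lf (nat_lit 0) (nat_lit 38215632282) (nat_lit 152) (nat_lit 26649047500) (nat_lit 0) (nat_lit 8042738803) (nat_lit 5) (nat_lit 5) (nat_lit 7) (nat_lit 4) (nat_lit 5) (nat_lit 4) (nat_lit 319) (nat_lit 242) (nat_lit 159)) (XT.nd (nat_lit 78) (nat_lit 0) (nat_lit 0) (XT.lf (nat_lit 0) (nat_lit 43768267995) (nat_lit 152) (nat_lit 18946868451) (nat_lit 0) (nat_lit 13569887313) (nat_lit 5) (nat_lit 5) (nat_lit 7)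 (nat_lit 4) (nat_lit 5) (nat_lit 4) (nat_lit 320) (nat_lit 242) (nat_lit 158)) (XT.lf (nat_lit 0) (nat_lit 49590422136) (nat_lit 152) (nat_lit 10873738748) (nat_lit 0) (nat_lit 19367767927) (nat_lit 5) (nat_lit 5) (nat_lit 7) (nat_lit 4) (nat_lit 5) (nat_lit 4) (nat_lit 321) (nat_lit 242) (nat_lit 157))))))))
noncomputable def xc119 : XT := (XT.nd (nat_lit 1326) (nat_lit 0) (nat_lit 0) (XT.nd (nat_lit 624) (nat_lit 152) (nat_lit 0) (XT.nd (nat_lit 312) (nat_lit 0) (nat_lit 0) (XT.nd (nat_lit 156) (nat_lit 0) (nat_lit 0) (XT.nd (nat_lit 78) (nat_lit 76) (nat_lit 0) (XT.lf (nat_lit 0) (nat_lit 55695956977) (nat_lit 152) (nat_lit 2410436653) (nat_lit 0) (nat_lit 25450185124) (nat_lit 5) (nat_lit 5) (nat_lit 7) (nat_lit 4) (nat_lit 5) (nat_lit 4) (nat_lit 322) (nat_lit 242) (nat_lit 156)) (XT.lf (nat_lit 0) (nat_lit 6676890755) (nat_lit 76) (nat_lit 55526763727) (nat_lit 76) (nat_lit 25258975069)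 (nat_lit 4) (nat_lit 4) (nat_lit 5) (nat_lit 5) (nat_lit 5) (nat_lit 4) (nat_lit 323) (nat_lit 242) (nat_lit 155))) (XT.nd (nat_lit 78) (nat_lit 0) (nat_lit 0) (XT.lf (nat_lit 0) (nat_lit 16289634587) (nat_lit 76) (nat_lit 52780718298) (nat_lit 76) (nat_lit 22491961255) (nat_lit 4) (nat_lit 4) (nat_lit 5) (nat_lit 5) (nat_lit 5) (nat_lit 4) (nat_lit 324) (nat_lit 242) (nat_lit 154)) (XT.lf (nat_lit 0) (nat_lit 26370982405) (nat_lit 76) (nat_lit 49902541051) (nat_lit 76) (nat_lit 19593814118) (nat_lit 4) (nat_lit 4) (nat_lit 5) (nat_lit 5) (nat_lit 5) (nat_lit 4) (nat_lit 325) (nat_lit 242) (nat_lit 153)))) (XT.nd (nat_lit 156) (nat_lit 0) (nat_lit 0) (XT.nd (nat_lit 78) (nat_lit 0) (nat_lit 0) (XT.lf (nat_lit 0) (nat_lit 36944937420) (nat_lit 76) (nat_lit 46885379182) (nat_lit 76) (nat_lit 16557633306) (nat_lit 4) (nat_lit 4) (nat_lit 5) (nat_lit 5) (nat_lit 5) (nat_lit 4) (nat_lit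 326) (nat_lit 242) (nat_lit 152)) (XT.lf (nat_lit 0) (nat_lit 48036675715) (nat_lit 76) (nat_lit 43722048974) (nat_lit 76) (nat_lit 13376189818) (nat_lit 4) (nat_lit 4) (nat_lit 5) (nat_lit 5) (nat_lit 5) (nat_lit 4) (nat_lit 327) (nat_lit 242) (nat_lit 151))) (XT.nd (nat_lit 78) (nat_lit 0) (nat_lit 0) (XT.lf (nat_lit 0) (nat_lit 59672606190) (nat_lit 76) (nat_lit 40405018687) (nat_lit 76) (nat_lit 10041908788) (nat_lit 4) (nat_lit 4) (nat_lit 5) (nat_lit 5) (nat_lit 5) (nat_lit 4) (nat_lit 328) (nat_lit 242) (nat_lit 150)) (XT.lf (nat_lit 0) (nat_lit 71880433441) (nat_lit 76) (nat_lit 36926390630) (nat_lit 76) (nat_lit 6546851453) (nat_lit 4) (nat_lit 4) (nat_lit 5) (nat_lit 5) (nat_lit 5) (nat_lit 4) (nat_lit 329) (nat_lit 242) (nat_lit 149))))) (XT.nd (nat_lit 312) (nat_lit 76) (nat_lit 0) (XT.nd (nat_lit 156) (nat_lit 0) (nat_lit 0) (XT.nd (nat_lit 78) (nat_lit 76) (nat_lit 0)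 (XT.lf (nat_lit 0) (nat_lit 84689223725) (nat_lit 76) (nat_lit 33277882355) (nat_lit 76) (nat_lit 2882696247) (nat_lit 4) (nat_lit 4) (nat_lit 5) (nat_lit 5) (nat_lit 5) (nat_lit 4) (nat_lit 330) (nat_lit 242) (nat_lit 148)) (XT.lf (nat_lit 0) (nat_lit 928578025) (nat_lit 152) (nat_lit 28506502995) (nat_lit 76) (nat_lit 97185170217) (nat_lit 3) (nat_lit 5) (nat_lit 5) (nat_lit 5) (nat_lit 4) (nat_lit 4) (nat_lit 331) (nat_lit 242) (nat_lit 147))) (XT.nd (nat_lit 78) (nat_lit 0) (nat_lit 0) (XT.lf (nat_lit 0) (nat_lit 4828573435) (nat_lit 152) (nat_lit 20525704634) (nat_lit 76) (nat_lit 107322837680) (nat_lit 3) (nat_lit 5) (nat_lit 5) (nat_lit 5) (nat_lit 4) (nat_lit 4) (nat_lit 332) (nat_lit 242) (nat_lit 146)) (XT.lf (nat_lit 0) (nat_lit 8918839968) (nat_lit 152) (nat_lit 12154174649) (nat_lit 76) (nat_lit 117964052701) (nat_lit 3) (nat_lit 5) (nat_lit 5) (nat_lit 5) (nat_lit 4)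 (nat_lit 4) (nat_lit 333) (nat_lit 242) (nat_lit 145)))) (XT.nd (nat_lit 156) (nat_lit 0) (nat_lit 0) (XT.nd (nat_lit 78) (nat_lit 76) (nat_lit 0) (XT.lf (nat_lit 0) (nat_lit 13209116353) (nat_lit 152) (nat_lit 3371980828) (nat_lit 76) (nat_lit 129134151504) (nat_lit 3) (nat_lit 5) (nat_lit 5) (nat_lit 5) (nat_lit 4) (nat_lit 4) (nat_lit 334) (nat_lit 242) (nat_lit 144)) (XT.lf (nat_lit 0) (nat_lit 6034942668) (nat_lit 76) (nat_lit 11768897235) (nat_lit 152) (nat_lit 134919009262) (nat_lit 2) (nat_lit 5) (nat_lit 3) (nat_lit 5) (nat_lit 4) (nat_lit 4) (nat_lit 335) (nat_lit 242) (nat_lit 143))) (XT.nd (nat_lit 78) (nat_lit 0) (nat_lit 0) (XT.lf (nat_lit 0) (nat_lit 16021865577) (nat_lit 76) (nat_lit 6659339638) (nat_lit 152) (nat_lit 137396985565) (nat_lit 2) (nat_lit 5) (nat_lit 3) (nat_lit 5) (nat_lit 4) (nat_lit 4) (nat_lit 336) (nat_lit 242) (nat_lit 142)) (XT.nd (nat_lit 78) (nat_lit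 0) (nat_lit 0) (XT.lf (nat_lit 0) (nat_lit 26501073372) (nat_lit 76) (nat_lit 1297364905) (nat_lit 152) (nat_lit 140003067312) (nat_lit 2) (nat_lit 5) (nat_lit 3) (nat_lit 5) (nat_lit 4) (nat_lit 4) (nat_lit 337) (nat_lit 242) (nat_lit 141)) (XT.lf (nat_lit 0) (nat_lit 33235323190) (nat_lit 152) (nat_lit 138481266102) (nat_lit 0) (nat_lit 4191213135) (nat_lit 2) (nat_lit 5) (nat_lit 4) (nat_lit 4) (nat_lit 2) (nat_lit 4) (nat_lit 338) (nat_lit 242) (nat_lit 140))))))) (XT.nd (nat_lit 702) (nat_lit 0) (nat_lit 0) (XT.nd (nat_lit 312) (nat_lit 0) (nat_lit 0) (XT.nd (nat_lit 156) (nat_lit 0) (nat_lit 0) (XT.nd (nat_lit 78) (nat_lit 0) (nat_lit 0) (XT.lf (nat_lit 0) (nat_lit 38961648694) (nat_lit 152) (nat_lit 135548958334) (nat_lit 0) (nat_lit 9907932781) (nat_lit 2) (nat_lit 5) (nat_lit 4) (nat_lit 4) (nat_lit 2) (nat_lit 4) (nat_lit 339) (nat_lit 242) (nat_lit 139)) (XT.lf (nat_lit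 0) (nat_lit 44970793397) (nat_lit 152) (nat_lit 132476271729) (nat_lit 0) (nat_lit 15907929047) (nat_lit 2) (nat_lit 5) (nat_lit 4) (nat_lit 4) (nat_lit 2) (nat_lit 4) (nat_lit 340) (nat_lit 242) (nat_lit 138))) (XT.nd (nat_lit 78) (nat_lit 0) (nat_lit 0) (XT.lf (nat_lit 0) (nat_lit 51277064787) (nat_lit 152) (nat_lit 129255890364) (nat_lit 0) (nat_lit 22205487640) (nat_lit 2) (nat_lit 5) (nat_lit 4) (nat_lit 4) (nat_lit 2) (nat_lit 4) (nat_lit 341) (nat_lit 242) (nat_lit 137)) (XT.lf (nat_lit 0) (nat_lit 57895477795) (nat_lit 152) (nat_lit 125880146665) (nat_lit 0) (nat_lit 28815602745) (nat_lit 2) (nat_lit 5) (nat_lit 4) (nat_lit 4) (nat_lit 2) (nat_lit 4) (nat_lit 342) (nat_lit 242) (nat_lit 136)))) (XT.nd (nat_lit 156) (nat_lit 0) (nat_lit 0) (XT.nd (nat_lit 78) (nat_lit 0) (nat_lit 0) (XT.lf (nat_lit 0) (nat_lit 64841790547) (nat_lit 152) (nat_lit 122341003147) (nat_lit 0) (nat_lit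 35754012734) (nat_lit 2) (nat_lit 5) (nat_lit 4) (nat_lit 4) (nat_lit 2) (nat_lit 4) (nat_lit 343) (nat_lit 242) (nat_lit 135)) (XT.lf (nat_lit 0) (nat_lit 72132541884) (nat_lit 152) (nat_lit 118630033279) (nat_lit 0) (nat_lit 43037237629) (nat_lit 2) (nat_lit 5) (nat_lit 4) (nat_lit 4) (nat_lit 2) (nat_lit 4) (nat_lit 344) (nat_lit 242) (nat_lit 134))) (XT.nd (nat_lit 78) (nat_lit 0) (nat_lit 0) (XT.lf (nat_lit 0) (nat_lit 79785090736) (nat_lit 152) (nat_lit 114738401417) (nat_lit 0) (nat_lit 50682618442) (nat_lit 2) (nat_lit 5) (nat_lit 4) (nat_lit 4) (nat_lit 2) (nat_lit 4) (nat_lit 345) (nat_lit 242) (nat_lit 133)) (XT.nd (nat_lit 78) (nat_lit 0) (nat_lit 0) (XT.lf (nat_lit 0) (nat_lit 87817657459) (nat_lit 152) (nat_lit 110656841772) (nat_lit 0) (nat_lit 58708358461) (nat_lit 2) (nat_lit 5) (nat_lit 4) (nat_lit 4) (nat_lit 2) (nat_lit 4) (nat_lit 346) (nat_lit 242) (nat_lit 132))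 (XT.lf (nat_lit 0) (nat_lit 96249367212) (nat_lit 152) (nat_lit 106375636343) (nat_lit 0) (nat_lit 67133566590) (nat_lit 2) (nat_lit 5) (nat_lit 4) (nat_lit 4) (nat_lit 2) (nat_lit 4) (nat_lit 347) (nat_lit 242) (nat_lit 131)))))) (XT.nd (nat_lit 312) (nat_lit 0) (nat_lit 0) (XT.nd (nat_lit 156) (nat_lit 0) (nat_lit 0) (XT.nd (nat_lit 78) (nat_lit 0) (nat_lit 0) (XT.lf (nat_lit 0) (nat_lit 105100295493) (nat_lit 152) (nat_lit 101884591786) (nat_lit 0) (nat_lit 75978302849) (nat_lit 2) (nat_lit 5) (nat_lit 4) (nat_lit 4) (nat_lit 2) (nat_lit 4) (nat_lit 348) (nat_lit 242) (nat_lit 130)) (XT.lf (nat_lit 0) (nat_lit 114391515942) (nat_lit 152) (nat_lit 97173015136) (nat_lit 0) (nat_lit 85263626134) (nat_lit 2) (nat_lit 5) (nat_lit 4) (nat_lit 4) (nat_lit 2) (nat_lit 4) (nat_lit 349) (nat_lit 242) (nat_lit 129))) (XT.nd (nat_lit 78) (nat_lit 0) (nat_lit 0) (XT.lf (nat_lit 0) (nat_lit 124145150512)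 (nat_lit 152) (nat_lit 92229688355) (nat_lit 0) (nat_lit 95011644357) (nat_lit 2) (nat_lit 5) (nat_lit 4) (nat_lit 4) (nat_lit 2) (nat_lit 4) (nat_lit 350) (nat_lit 242) (nat_lit 128)) (XT.lf (nat_lit 0) (nat_lit 134384422142) (nat_lit 152) (nat_lit 87042841615) (nat_lit 0) (nat_lit 105245567085) (nat_lit 2) (nat_lit 5) (nat_lit 4) (nat_lit 4) (nat_lit 2) (nat_lit 4) (nat_lit 351) (nat_lit 242) (nat_lit 127)))) (XT.nd (nat_lit 156) (nat_lit 0) (nat_lit 0) (XT.nd (nat_lit 78) (nat_lit 0) (nat_lit 0) (XT.lf (nat_lit 0) (nat_lit 145133710051) (nat_lit 152) (nat_lit 81600125284) (nat_lit 0) (nat_lit 115989760802) (nat_lit 2) (nat_lit 5) (nat_lit 4) (nat_lit 4) (nat_lit 2) (nat_lit 4) (nat_lit 352) (nat_lit 242) (nat_lit 126)) (XT.lf (nat_lit 0) (nat_lit 156418607781) (nat_lit 152) (nat_lit 75888580511) (nat_lit 0) (nat_lit 127269806921) (nat_lit 2) (nat_lit 5) (nat_lit 4) (nat_lit 4) (nat_lit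 2) (nat_lit 4) (nat_lit 353) (nat_lit 242) (nat_lit 125))) (XT.nd (nat_lit 78) (nat_lit 0) (nat_lit 0) (XT.lf (nat_lit 0) (nat_lit 168265984136) (nat_lit 152) (nat_lit 69894608380) (nat_lit 0) (nat_lit 139112562694) (nat_lit 2) (nat_lit 5) (nat_lit 4) (nat_lit 4) (nat_lit 2) (nat_lit 4) (nat_lit 354) (nat_lit 242) (nat_lit 124)) (XT.nd (nat_lit 78) (nat_lit 0) (nat_lit 0) (XT.lf (nat_lit 0) (nat_lit 180704047156) (nat_lit 152) (nat_lit 63603937531) (nat_lit 0) (nat_lit 151546225159) (nat_lit 2) (nat_lit 5) (nat_lit 4) (nat_lit 4) (nat_lit 2) (nat_lit 4) (nat_lit 355) (nat_lit 242) (nat_lit 123)) (XT.lf (nat_lit 0) (nat_lit 193762411276) (nat_lit 152) (nat_lit 57001590174) (nat_lit 0) (nat_lit 164600398274) (nat_lit 2) (nat_lit 5) (nat_lit 4) (nat_lit 4) (nat_lit 2) (nat_lit 4) (nat_lit 356) (nat_lit 242) (nat_lit 122))))))))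
noncomputable def xc120 : XT := (XT.nd (nat_lit 29640) (nat_lit 0) (nat_lit 2356) (XT.nd (nat_lit 28938) (nat_lit 0) (nat_lit 6080) (XT.nd (nat_lit 28626) (nat_lit 0) (nat_lit 7296) (XT.nd (nat_lit 156) (nat_lit 0) (nat_lit 0) (XT.nd (nat_lit 78) (nat_lit 0) (nat_lit 0) (XT.lf (nat_lit 0) (nat_lit 207472167839) (nat_lit 152) (nat_lit 50071846435) (nat_lit 0) (nat_lit 178306163404) (nat_lit 2) (nat_lit 5) (nat_lit 4) (nat_lit 4) (nat_lit 2) (nat_lit 4) (nat_lit 357) (nat_lit 242) (nat_lit 121)) (XT.lf (nat_lit 0) (nat_lit 221865959122) (nat_lit 152) (nat_lit 42798206925) (nat_lit 0) (nat_lit 192696153324) (nat_lit 2) (nat_lit 5) (nat_lit 4) (nat_lit 4) (nat_lit 2) (nat_lit 4) (nat_lit 358) (nat_lit 242) (nat_lit 120))) (XT.nd (nat_lit 78) (nat_lit 0) (nat_lit 0) (XT.lf (nat_lit 0) (nat_lit 236978056058) (nat_lit 152) (nat_lit 35163353454) (nat_lit 0) (nat_lit 207804629912) (nat_lit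 2) (nat_lit 5) (nat_lit 4) (nat_lit 4) (nat_lit 2) (nat_lit 4) (nat_lit 359) (nat_lit 242) (nat_lit 119)) (XT.lf (nat_lit 0) (nat_lit 252844439830) (nat_lit 152) (nat_lit 27149107799) (nat_lit 0) (nat_lit 223667565734) (nat_lit 2) (nat_lit 5) (nat_lit 4) (nat_lit 4) (nat_lit 2) (nat_lit 4) (nat_lit 360) (nat_lit 242) (nat_lit 118)))) (XT.nd (nat_lit 156) (nat_lit 304) (nat_lit 0) (XT.nd (nat_lit 78) (nat_lit 0) (nat_lit 0) (XT.lf (nat_lit 0) (nat_lit 484530232) (nat_lit 0) (nat_lit 484530232) (nat_lit 228) (nat_lit 2307075598) (nat_lit 102) (nat_lit 5) (nat_lit 102) (nat_lit 3) (nat_lit 105) (nat_lit 3) (nat_lit 243) (nat_lit 243) (nat_lit 234)) (XT.lf (nat_lit 0) (nat_lit 3831918545) (nat_lit 0) (nat_lit 312739324) (nat_lit 228) (nat_lit 2448317391) (nat_lit 102) (nat_lit 5) (nat_lit 102) (nat_lit 3) (nat_lit 105) (nat_lit 3) (nat_lit 244) (nat_lit 243) (nat_lit 233))) (XT.nd (nat_lit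 78) (nat_lit 304) (nat_lit 0) (XT.lf (nat_lit 76) (nat_lit 122210091) (nat_lit 0) (nat_lit 6210030318) (nat_lit 304) (nat_lit 310910163) (nat_lit 103) (nat_lit 5) (nat_lit 102) (nat_lit 5) (nat_lit 106) (nat_lit 5) (nat_lit 245) (nat_lit 243) (nat_lit 232)) (XT.lf (nat_lit 0) (nat_lit 1789346659) (nat_lit 304) (nat_lit 3566189064) (nat_lit 380) (nat_lit 1343779206) (nat_lit 98) (nat_lit 5) (nat_lit 102) (nat_lit 5) (nat_lit 103) (nat_lit 5) (nat_lit 246) (nat_lit 243) (nat_lit 231))))) (XT.nd (nat_lit 312) (nat_lit 836) (nat_lit 0) (XT.nd (nat_lit 156) (nat_lit 380) (nat_lit 0) (XT.nd (nat_lit 78) (nat_lit 0) (nat_lit 0) (XT.lf (nat_lit 0) (nat_lit 3855792278) (nat_lit 304) (nat_lit 546998479) (nat_lit 380) (nat_lit 2362501152) (nat_lit 98) (nat_lit 5) (nat_lit 102) (nat_lit 5) (nat_lit 103) (nat_lit 5) (nat_lit 247) (nat_lit 243) (nat_lit 230)) (XT.lf (nat_lit 76) (nat_lit 2632944676)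 (nat_lit 0) (nat_lit 3311460837) (nat_lit 380) (nat_lit 895020410) (nat_lit 99) (nat_lit 5) (nat_lit 98) (nat_lit 5) (nat_lit 103) (nat_lit 5) (nat_lit 248) (nat_lit 243) (nat_lit 229))) (XT.nd (nat_lit 78) (nat_lit 0) (nat_lit 0) (XT.lf (nat_lit 0) (nat_lit 1070294957) (nat_lit 380) (nat_lit 1023108669) (nat_lit 456) (nat_lit 4829178241) (nat_lit 93) (nat_lit 5) (nat_lit 98) (nat_lit 5) (nat_lit 99) (nat_lit 5) (nat_lit 249) (nat_lit 243) (nat_lit 228)) (XT.lf (nat_lit 76) (nat_lit 2304245146) (nat_lit 0) (nat_lit 721004408) (nat_lit 456) (nat_lit 3988531291) (nat_lit 94) (nat_lit 5) (nat_lit 93) (nat_lit 5) (nat_lit 99) (nat_lit 5) (nat_lit 250) (nat_lit 243) (nat_lit 227)))) (XT.nd (nat_lit 156) (nat_lit 532) (nat_lit 0) (XT.nd (nat_lit 78) (nat_lit 380) (nat_lit 0) (XT.lf (nat_lit 0) (nat_lit 4997173150) (nat_lit 380) (nat_lit 1366528587) (nat_lit 76) (nat_lit 750535506) (nat_lit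 94) (nat_lit 5) (nat_lit 99) (nat_lit 5) (nat_lit 95) (nat_lit 5) (nat_lit 251) (nat_lit 243) (nat_lit 226)) (XT.lf (nat_lit 0) (nat_lit 2123767396) (nat_lit 380) (nat_lit 4884492693) (nat_lit 456) (nat_lit 215055191) (nat_lit 89) (nat_lit 5) (nat_lit 94) (nat_lit 5) (nat_lit 95) (nat_lit 5) (nat_lit 252) (nat_lit 243) (nat_lit 225))) (XT.nd (nat_lit 78) (nat_lit 456) (nat_lit 0) (XT.lf (nat_lit 0) (nat_lit 1645705747) (nat_lit 456) (nat_lit 1607629880) (nat_lit 76) (nat_lit 4087654894) (nat_lit 88) (nat_lit 5) (nat_lit 94) (nat_lit 5) (nat_lit 89) (nat_lit 5) (nat_lit 253) (nat_lit 243) (nat_lit 224)) (XT.nd (nat_lit 78) (nat_lit 0) (nat_lit 0) (XT.lf (nat_lit 0) (nat_lit 2045829747) (nat_lit 456) (nat_lit 1480451943) (nat_lit 532) (nat_lit 3941933126) (nat_lit 82) (nat_lit 5) (nat_lit 88) (nat_lit 5) (nat_lit 89) (nat_lit 5) (nat_lit 254) (nat_lit 243) (nat_lit 223)) (XT.lf (nat_lit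 0) (nat_lit 5440405008) (nat_lit 532) (nat_lit 1748416985) (nat_lit 76) (nat_lit 416518382) (nat_lit 82) (nat_lit 5) (nat_lit 89) (nat_lit 5) (nat_lit 83) (nat_lit 5) (nat_lit 255) (nat_lit 243) (nat_lit 222))))))) (XT.nd (nat_lit 624) (nat_lit 1444) (nat_lit 0) (XT.nd (nat_lit 312) (nat_lit 1064) (nat_lit 0) (XT.nd (nat_lit 156) (nat_lit 608) (nat_lit 0) (XT.nd (nat_lit 78) (nat_lit 76) (nat_lit 0) (XT.lf (nat_lit 0) (nat_lit 2075841005) (nat_lit 532) (nat_lit 5341450599) (nat_lit 608) (nat_lit 334169163) (nat_lit 75) (nat_lit 5) (nat_lit 82) (nat_lit 5) (nat_lit 83) (nat_lit 5) (nat_lit 256) (nat_lit 243) (nat_lit 221)) (XT.lf (nat_lit 0) (nat_lit 1479013964) (nat_lit 608) (nat_lit 1854402185) (nat_lit 76) (nat_lit 4573591545) (nat_lit 74) (nat_lit 5) (nat_lit 82) (nat_lit 5) (nat_lit 75) (nat_lit 5) (nat_lit 257) (nat_lit 243) (nat_lit 220))) (XT.nd (nat_lit 78) (nat_lit 0) (nat_lit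 0) (XT.lf (nat_lit 0) (nat_lit 2147091913) (nat_lit 608) (nat_lit 1173878240) (nat_lit 684) (nat_lit 4752045195) (nat_lit 66) (nat_lit 5) (nat_lit 74) (nat_lit 5) (nat_lit 75) (nat_lit 5) (nat_lit 258) (nat_lit 243) (nat_lit 219)) (XT.lf (nat_lit 0) (nat_lit 5222844636) (nat_lit 684) (nat_lit 1927735785) (nat_lit 76) (nat_lit 1098756223) (nat_lit 66) (nat_lit 5) (nat_lit 75) (nat_lit 5) (nat_lit 67) (nat_lit 5) (nat_lit 259) (nat_lit 243) (nat_lit 218)))) (XT.nd (nat_lit 156) (nat_lit 304) (nat_lit 0) (XT.nd (nat_lit 78) (nat_lit 76) (nat_lit 0) (XT.lf (nat_lit 0) (nat_lit 2249363927) (nat_lit 684) (nat_lit 4947502853) (nat_lit 760) (nat_lit 1239139560) (nat_lit 57) (nat_lit 5) (nat_lit 66) (nat_lit 5) (nat_lit 67) (nat_lit 5) (nat_lit 260) (nat_lit 243) (nat_lit 217)) (XT.lf (nat_lit 0) (nat_lit 574015453) (nat_lit 760) (nat_lit 2014052568) (nat_lit 76) (nat_lit 6045950938) (nat_lit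 56) (nat_lit 5) (nat_lit 66) (nat_lit 5) (nat_lit 57) (nat_lit 5) (nat_lit 261) (nat_lit 243) (nat_lit 216))) (XT.nd (nat_lit 78) (nat_lit 0) (nat_lit 0) (XT.lf (nat_lit 0) (nat_lit 2350236148) (nat_lit 304) (nat_lit 49937067) (nat_lit 380) (nat_lit 6442876500) (nat_lit 52) (nat_lit 5) (nat_lit 56) (nat_lit 5) (nat_lit 57) (nat_lit 5) (nat_lit 262) (nat_lit 243) (nat_lit 215)) (XT.lf (nat_lit 0) (nat_lit 4322783916) (nat_lit 380) (nat_lit 2174061416) (nat_lit 76) (nat_lit 2565746191) (nat_lit 52) (nat_lit 5) (nat_lit 57) (nat_lit 5) (nat_lit 53) (nat_lit 5) (nat_lit 263) (nat_lit 243) (nat_lit 214))))) (XT.nd (nat_lit 312) (nat_lit 836) (nat_lit 0) (XT.nd (nat_lit 156) (nat_lit 304) (nat_lit 0) (XT.nd (nat_lit 78) (nat_lit 0) (nat_lit 0) (XT.lf (nat_lit 0) (nat_lit 2364528129) (nat_lit 304) (nat_lit 3947730559) (nat_lit 380) (nat_lit 2982616739) (nat_lit 48) (nat_lit 5) (nat_lit 52)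 (nat_lit 5) (nat_lit 53) (nat_lit 5) (nat_lit 264) (nat_lit 243) (nat_lit 213)) (XT.lf (nat_lit 0) (nat_lit 7135708952) (nat_lit 304) (nat_lit 1237415553) (nat_lit 380) (nat_lit 1167340473) (nat_lit 48) (nat_lit 5) (nat_lit 52) (nat_lit 5) (nat_lit 53) (nat_lit 5) (nat_lit 265) (nat_lit 243) (nat_lit 212))) (XT.nd (nat_lit 78) (nat_lit 0) (nat_lit 0) (XT.lf (nat_lit 0) (nat_lit 714338393) (nat_lit 304) (nat_lit 7483463229) (nat_lit 76) (nat_lit 1600252241) (nat_lit 44) (nat_lit 5) (nat_lit 48) (nat_lit 5) (nat_lit 45) (nat_lit 5) (nat_lit 266) (nat_lit 243) (nat_lit 211)) (XT.lf (nat_lit 0) (nat_lit 2651304634) (nat_lit 304) (nat_lit 2824114337) (nat_lit 76) (nat_lit 4592372893) (nat_lit 44) (nat_lit 5) (nat_lit 48) (nat_lit 5) (nat_lit 45) (nat_lit 5) (nat_lit 267) (nat_lit 243) (nat_lit 210)))) (XT.nd (nat_lit 156) (nat_lit 532) (nat_lit 0) (XT.nd (nat_lit 78) (nat_lit 0) (nat_lit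 0) (XT.lf (nat_lit 0) (nat_lit 2066799250) (nat_lit 304) (nat_lit 2592259784) (nat_lit 380) (nat_lit 5693497116) (nat_lit 40) (nat_lit 5) (nat_lit 44) (nat_lit 5) (nat_lit 45) (nat_lit 5) (nat_lit 268) (nat_lit 243) (nat_lit 209)) (XT.lf (nat_lit 0) (nat_lit 6765862439) (nat_lit 380) (nat_lit 3425802448) (nat_lit 76) (nat_lit 460185818) (nat_lit 40) (nat_lit 5) (nat_lit 45) (nat_lit 5) (nat_lit 41) (nat_lit 5) (nat_lit 269) (nat_lit 243) (nat_lit 208))) (XT.nd (nat_lit 78) (nat_lit 304) (nat_lit 0) (XT.lf (nat_lit 0) (nat_lit 1620457420) (nat_lit 228) (nat_lit 7371303601) (nat_lit 304) (nat_lit 1973875618) (nat_lit 37) (nat_lit 5) (nat_lit 40) (nat_lit 5) (nat_lit 41) (nat_lit 5) (nat_lit 270) (nat_lit 243) (nat_lit 207)) (XT.nd (nat_lit 78) (nat_lit 228) (nat_lit 0) (XT.lf (nat_lit 0) (nat_lit 38187874) (nat_lit 304) (nat_lit 4322684319) (nat_lit 76) (nat_lit 6934136303) (nat_lit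 36) (nat_lit 5) (nat_lit 40) (nat_lit 5) (nat_lit 37) (nat_lit 5) (nat_lit 271) (nat_lit 243) (nat_lit 206)) (XT.lf (nat_lit 0) (nat_lit 883068753) (nat_lit 228) (nat_lit 1164247001) (nat_lit 304) (nat_lit 9593960652) (nat_lit 33) (nat_lit 5) (nat_lit 36) (nat_lit 5) (nat_lit 37) (nat_lit 5) (nat_lit 272) (nat_lit 243) (nat_lit 205))))))))
noncomputable def xc121 : XT := (XT.nd (nat_lit 1326) (nat_lit 684) (nat_lit 0) (XT.nd (nat_lit 624) (nat_lit 532) (nat_lit 0) (XT.nd (nat_lit 312) (nat_lit 456) (nat_lit 0) (XT.nd (nat_lit 156) (nat_lit 228) (nat_lit 0) (XT.nd (nat_lit 78) (nat_lit 0) (nat_lit 0) (XT.lf (nat_lit 0) (nat_lit 4215785055) (nat_lit 304) (nat_lit 5602631191) (nat_lit 76) (nat_lit 2183673599) (nat_lit 33) (nat_lit 5) (nat_lit 37) (nat_lit 5) (nat_lit 34) (nat_lit 5) (nat_lit 273) (nat_lit 243) (nat_lit 204)) (XT.lf (nat_lit 0) (nat_lit 6464384442) (nat_lit 304) (nat_lit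 270448106) (nat_lit 76) (nat_lit 5647694066) (nat_lit 33) (nat_lit 5) (nat_lit 37) (nat_lit 5) (nat_lit 34) (nat_lit 5) (nat_lit 274) (nat_lit 243) (nat_lit 203))) (XT.nd (nat_lit 78) (nat_lit 0) (nat_lit 0) (XT.lf (nat_lit 0) (nat_lit 5443438459) (nat_lit 228) (nat_lit 3421839433) (nat_lit 304) (nat_lit 3914874114) (nat_lit 30) (nat_lit 5) (nat_lit 33) (nat_lit 5) (nat_lit 34) (nat_lit 5) (nat_lit 275) (nat_lit 243) (nat_lit 202)) (XT.lf (nat_lit 0) (nat_lit 11347652173) (nat_lit 304) (nat_lit 1806282250) (nat_lit 76) (nat_lit 45804806) (nat_lit 30) (nat_lit 5) (nat_lit 34) (nat_lit 5) (nat_lit 31) (nat_lit 5) (nat_lit 276) (nat_lit 243) (nat_lit 201)))) (XT.nd (nat_lit 156) (nat_lit 152) (nat_lit 0) (XT.nd (nat_lit 78) (nat_lit 0) (nat_lit 0) (XT.lf (nat_lit 0) (nat_lit 381698824) (nat_lit 304) (nat_lit 9627094497) (nat_lit 76) (nat_lit 3627510487) (nat_lit 26) (nat_lit 5) (nat_lit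 30) (nat_lit 5) (nat_lit 27) (nat_lit 5) (nat_lit 277) (nat_lit 243) (nat_lit 200)) (XT.lf (nat_lit 0) (nat_lit 2654331852) (nat_lit 304) (nat_lit 4003857001) (nat_lit 76) (nat_lit 7435651275) (nat_lit 26) (nat_lit 5) (nat_lit 30) (nat_lit 5) (nat_lit 27) (nat_lit 5) (nat_lit 278) (nat_lit 243) (nat_lit 199))) (XT.nd (nat_lit 78) (nat_lit 0) (nat_lit 0) (XT.lf (nat_lit 0) (nat_lit 1906306728) (nat_lit 152) (nat_lit 3124346288) (nat_lit 228) (nat_lit 9544222780) (nat_lit 24) (nat_lit 5) (nat_lit 26) (nat_lit 5) (nat_lit 27) (nat_lit 5) (nat_lit 279) (nat_lit 243) (nat_lit 198)) (XT.lf (nat_lit 0) (nat_lit 7564951892) (nat_lit 228) (nat_lit 6892018814) (nat_lit 76) (nat_lit 621153844) (nat_lit 24) (nat_lit 5) (nat_lit 27) (nat_lit 5) (nat_lit 25) (nat_lit 5) (nat_lit 280) (nat_lit 243) (nat_lit 197))))) (XT.nd (nat_lit 312) (nat_lit 152) (nat_lit 0) (XT.nd (nat_lit 156) (nat_lit 228)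 (nat_lit 0) (XT.nd (nat_lit 78) (nat_lit 152) (nat_lit 0) (XT.lf (nat_lit 0) (nat_lit 10240128082) (nat_lit 228) (nat_lit 931351088) (nat_lit 76) (nat_lit 4434462154) (nat_lit 24) (nat_lit 5) (nat_lit 27) (nat_lit 5) (nat_lit 25) (nat_lit 5) (nat_lit 281) (nat_lit 243) (nat_lit 196)) (XT.lf (nat_lit 0) (nat_lit 5450867788) (nat_lit 152) (nat_lit 7648006787) (nat_lit 228) (nat_lit 3058892075) (nat_lit 22) (nat_lit 5) (nat_lit 24) (nat_lit 5) (nat_lit 25) (nat_lit 5) (nat_lit 282) (nat_lit 243) (nat_lit 195))) (XT.nd (nat_lit 78) (nat_lit 228) (nat_lit 0) (XT.lf (nat_lit 0) (nat_lit 12134409647) (nat_lit 152) (nat_lit 3947527810) (nat_lit 228) (nat_lit 656279960) (nat_lit 22) (nat_lit 5) (nat_lit 24) (nat_lit 5) (nat_lit 25) (nat_lit 5) (nat_lit 283) (nat_lit 243) (nat_lit 194)) (XT.lf (nat_lit 0) (nat_lit 1783445461) (nat_lit 152) (nat_lit 17735340) (nat_lit 228) (nat_lit 15545423604)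 (nat_lit 19) (nat_lit 5) (nat_lit 21) (nat_lit 5) (nat_lit 22) (nat_lit 5) (nat_lit 284) (nat_lit 243) (nat_lit 193)))) (XT.nd (nat_lit 156) (nat_lit 152) (nat_lit 0) (XT.nd (nat_lit 78) (nat_lit 0) (nat_lit 0) (XT.lf (nat_lit 0) (nat_lit 4470057799) (nat_lit 228) (nat_lit 9457416928) (nat_lit 76) (nat_lit 4051957243) (nat_lit 19) (nat_lit 5) (nat_lit 22) (nat_lit 5) (nat_lit 20) (nat_lit 5) (nat_lit 285) (nat_lit 243) (nat_lit 192)) (XT.lf (nat_lit 0) (nat_lit 7241437682) (nat_lit 228) (nat_lit 3093932802) (nat_lit 76) (nat_lit 8310162322) (nat_lit 19) (nat_lit 5) (nat_lit 22) (nat_lit 5) (nat_lit 20) (nat_lit 5) (nat_lit 286) (nat_lit 243) (nat_lit 191))) (XT.nd (nat_lit 78) (nat_lit 0) (nat_lit 0) (XT.lf (nat_lit 0) (nat_lit 3659859855) (nat_lit 152) (nat_lit 6518922888) (nat_lit 228) (nat_lit 9164866936) (nat_lit 17) (nat_lit 5) (nat_lit 19) (nat_lit 5) (nat_lit 20) (nat_lit 5)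 (nat_lit 287) (nat_lit 243) (nat_lit 190)) (XT.nd (nat_lit 78) (nat_lit 0) (nat_lit 0) (XT.lf (nat_lit 0) (nat_lit 10814478333) (nat_lit 152) (nat_lit 2471894589) (nat_lit 228) (nat_lit 6789207540) (nat_lit 17) (nat_lit 5) (nat_lit 19) (nat_lit 5) (nat_lit 20) (nat_lit 5) (nat_lit 288) (nat_lit 243) (nat_lit 189)) (XT.lf (nat_lit 0) (nat_lit 16549229735) (nat_lit 228) (nat_lit 2588429544) (nat_lit 76) (nat_lit 1706527441) (nat_lit 17) (nat_lit 5) (nat_lit 20) (nat_lit 5) (nat_lit 18) (nat_lit 4) (nat_lit 289) (nat_lit 243) (nat_lit 188))))))) (XT.nd (nat_lit 702) (nat_lit 304) (nat_lit 0) (XT.nd (nat_lit 312) (nat_lit 76) (nat_lit 0) (XT.nd (nat_lit 156) (nat_lit 152) (nat_lit 0) (XT.nd (nat_lit 78) (nat_lit 76) (nat_lit 0) (XT.lf (nat_lit 0) (nat_lit 4479390892) (nat_lit 76) (nat_lit 15579759681) (nat_lit 152) (nat_lit 1587946460) (nat_lit 16) (nat_lit 5) (nat_lit 17) (nat_lit 5)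 (nat_lit 18) (nat_lit 4) (nat_lit 290) (nat_lit 243) (nat_lit 187)) (XT.lf (nat_lit 0) (nat_lit 1232422618) (nat_lit 152) (nat_lit 10559398732) (nat_lit 76) (nat_lit 10696507723) (nat_lit 15) (nat_lit 5) (nat_lit 17) (nat_lit 5) (nat_lit 16) (nat_lit 5) (nat_lit 291) (nat_lit 243) (nat_lit 186))) (XT.nd (nat_lit 78) (nat_lit 152) (nat_lit 0) (XT.lf (nat_lit 0) (nat_lit 4115303969) (nat_lit 152) (nat_lit 3686327773) (nat_lit 76) (nat_lit 15570006713) (nat_lit 15) (nat_lit 5) (nat_lit 17) (nat_lit 5) (nat_lit 16) (nat_lit 5) (nat_lit 292) (nat_lit 243) (nat_lit 185)) (XT.lf (nat_lit 0) (nat_lit 3608146711) (nat_lit 152) (nat_lit 3566572370) (nat_lit 228) (nat_lit 17122832168) (nat_lit 13) (nat_lit 5) (nat_lit 15) (nat_lit 5) (nat_lit 16) (nat_lit 5) (nat_lit 293) (nat_lit 243) (nat_lit 184)))) (XT.nd (nat_lit 156) (nat_lit 76) (nat_lit 0) (XT.nd (nat_lit 78) (nat_lit 0) (nat_lit 0) (XT.lf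 (nat_lit 0) (nat_lit 10440703564) (nat_lit 228) (nat_lit 13924212698) (nat_lit 76) (nat_lit 902218182) (nat_lit 13) (nat_lit 5) (nat_lit 16) (nat_lit 5) (nat_lit 14) (nat_lit 4) (nat_lit 294) (nat_lit 243) (nat_lit 183)) (XT.lf (nat_lit 0) (nat_lit 13905981782) (nat_lit 228) (nat_lit 6915547710) (nat_lit 76) (nat_lit 5461919668) (nat_lit 13) (nat_lit 5) (nat_lit 16) (nat_lit 5) (nat_lit 14) (nat_lit 4) (nat_lit 295) (nat_lit 243) (nat_lit 182))) (XT.nd (nat_lit 78) (nat_lit 0) (nat_lit 0) (XT.lf (nat_lit 0) (nat_lit 422484039) (nat_lit 76) (nat_lit 17107232329) (nat_lit 152) (nat_lit 9821653230) (nat_lit 12) (nat_lit 5) (nat_lit 13) (nat_lit 5) (nat_lit 14) (nat_lit 4) (nat_lit 296) (nat_lit 243) (nat_lit 181)) (XT.nd (nat_lit 78) (nat_lit 0) (nat_lit 0) (XT.lf (nat_lit 0) (nat_lit 8333478843) (nat_lit 76) (nat_lit 13097361193) (nat_lit 152) (nat_lit 7037083147) (nat_lit 12) (nat_lit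 5) (nat_lit 13) (nat_lit 5) (nat_lit 14) (nat_lit 4) (nat_lit 297) (nat_lit 243) (nat_lit 180)) (XT.lf (nat_lit 0) (nat_lit 16607613164) (nat_lit 76) (nat_lit 8899486920) (nat_lit 152) (nat_lit 4134245350) (nat_lit 12) (nat_lit 5) (nat_lit 13) (nat_lit 5) (nat_lit 14) (nat_lit 4) (nat_lit 298) (nat_lit 243) (nat_lit 179)))))) (XT.nd (nat_lit 312) (nat_lit 76) (nat_lit 0) (XT.nd (nat_lit 156) (nat_lit 0) (nat_lit 0) (XT.nd (nat_lit 78) (nat_lit 228) (nat_lit 0) (XT.lf (nat_lit 0) (nat_lit 25264587323) (nat_lit 76) (nat_lit 4503614570) (nat_lit 152) (nat_lit 1106228320) (nat_lit 12) (nat_lit 5) (nat_lit 13) (nat_lit 5) (nat_lit 14) (nat_lit 4) (nat_lit 299) (nat_lit 243) (nat_lit 178)) (XT.lf (nat_lit 0) (nat_lit 2025329780) (nat_lit 228) (nat_lit 29976438972) (nat_lit 76) (nat_lit 164896170) (nat_lit 9) (nat_lit 5) (nat_lit 12) (nat_lit 5) (nat_lit 10) (nat_lit 4) (nat_lit 300) (nat_lit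 243) (nat_lit 177))) (XT.nd (nat_lit 78) (nat_lit 0) (nat_lit 0) (XT.lf (nat_lit 0) (nat_lit 5428512518) (nat_lit 228) (nat_lit 23067539496) (nat_lit 76) (nat_lit 5018978463) (nat_lit 9) (nat_lit 5) (nat_lit 12) (nat_lit 5) (nat_lit 10) (nat_lit 4) (nat_lit 301) (nat_lit 243) (nat_lit 176)) (XT.lf (nat_lit 0) (nat_lit 8984550241) (nat_lit 228) (nat_lit 15842067056) (nat_lit 76) (nat_lit 10105097476) (nat_lit 9) (nat_lit 5) (nat_lit 12) (nat_lit 5) (nat_lit 10) (nat_lit 4) (nat_lit 302) (nat_lit 243) (nat_lit 175)))) (XT.nd (nat_lit 156) (nat_lit 76) (nat_lit 0) (XT.nd (nat_lit 78) (nat_lit 0) (nat_lit 0) (XT.lf (nat_lit 0) (nat_lit 12701909707) (nat_lit 228) (nat_lit 8282818144) (nat_lit 76) (nat_lit 15435363015) (nat_lit 9) (nat_lit 5) (nat_lit 12) (nat_lit 5) (nat_lit 10) (nat_lit 4) (nat_lit 303) (nat_lit 243) (nat_lit 174)) (XT.lf (nat_lit 0) (nat_lit 16589441771) (nat_lit 228)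 (nat_lit 371794549) (nat_lit 76) (nat_lit 21022466191) (nat_lit 9) (nat_lit 5) (nat_lit 12) (nat_lit 5) (nat_lit 10) (nat_lit 4) (nat_lit 304) (nat_lit 243) (nat_lit 173))) (XT.nd (nat_lit 78) (nat_lit 0) (nat_lit 0) (XT.lf (nat_lit 0) (nat_lit 8171374514) (nat_lit 76) (nat_lit 12612606004) (nat_lit 152) (nat_lit 18835913170) (nat_lit 8) (nat_lit 5) (nat_lit 9) (nat_lit 5) (nat_lit 10) (nat_lit 4) (nat_lit 305) (nat_lit 243) (nat_lit 172)) (XT.nd (nat_lit 78) (nat_lit 0) (nat_lit 0) (XT.lf (nat_lit 0) (nat_lit 17130071441) (nat_lit 76) (nat_lit 8049851999) (nat_lit 152) (nat_lit 16158416126) (nat_lit 8) (nat_lit 5) (nat_lit 9) (nat_lit 5) (nat_lit 10) (nat_lit 4) (nat_lit 306) (nat_lit 243) (nat_lit 171)) (XT.lf (nat_lit 0) (nat_lit 26513333256) (nat_lit 76) (nat_lit 3268407128) (nat_lit 152) (nat_lit 13361691135) (nat_lit 8) (nat_lit 5) (nat_lit 9) (nat_lit 5) (nat_lit 10) (nat_lit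 4) (nat_lit 307) (nat_lit 243) (nat_lit 170))))))))
noncomputable def xc122 : XT := (XT.nd (nat_lit 1326) (nat_lit 152) (nat_lit 0) (XT.nd (nat_lit 624) (nat_lit 152) (nat_lit 0) (XT.nd (nat_lit 312) (nat_lit 76) (nat_lit 0) (XT.nd (nat_lit 156) (nat_lit 76) (nat_lit 0) (XT.nd (nat_lit 78) (nat_lit 0) (nat_lit 0) (XT.lf (nat_lit 0) (nat_lit 34627602934) (nat_lit 152) (nat_lit 8723181203) (nat_lit 0) (nat_lit 1687322501) (nat_lit 8) (nat_lit 5) (nat_lit 10) (nat_lit 4) (nat_lit 8) (nat_lit 4) (nat_lit 308) (nat_lit 243) (nat_lit 169)) (XT.lf (nat_lit 0) (nat_lit 39756576592) (nat_lit 152) (nat_lit 496218686) (nat_lit 0) (nat_lit 6772704392) (nat_lit 8) (nat_lit 5) (nat_lit 10) (nat_lit 4) (nat_lit 8) (nat_lit 4) (nat_lit 309) (nat_lit 243) (nat_lit 168))) (XT.nd (nat_lit 78) (nat_lit 0) (nat_lit 0) (XT.lf (nat_lit 0) (nat_lit 8389936656) (nat_lit 76) (nat_lit 36870897971) (nat_lit 76)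 (nat_lit 3845509803) (nat_lit 7) (nat_lit 4) (nat_lit 8) (nat_lit 5) (nat_lit 8) (nat_lit 4) (nat_lit 310) (nat_lit 243) (nat_lit 167)) (XT.lf (nat_lit 0) (nat_lit 17717275330) (nat_lit 76) (nat_lit 33319540254) (nat_lit 76) (nat_lit 254613069) (nat_lit 7) (nat_lit 4) (nat_lit 8) (nat_lit 5) (nat_lit 8) (nat_lit 4) (nat_lit 311) (nat_lit 243) (nat_lit 166)))) (XT.nd (nat_lit 156) (nat_lit 0) (nat_lit 0) (XT.nd (nat_lit 78) (nat_lit 0) (nat_lit 0) (XT.lf (nat_lit 0) (nat_lit 3391766069) (nat_lit 152) (nat_lit 26149462948) (nat_lit 76) (nat_lit 24042390784) (nat_lit 6) (nat_lit 5) (nat_lit 8) (nat_lit 5) (nat_lit 7) (nat_lit 4) (nat_lit 312) (nat_lit 243) (nat_lit 165)) (XT.lf (nat_lit 0) (nat_lit 7200922771) (nat_lit 152) (nat_lit 18376554764) (nat_lit 76) (nat_lit 30413303141) (nat_lit 6) (nat_lit 5) (nat_lit 8) (nat_lit 5) (nat_lit 7) (nat_lit 4) (nat_lit 313) (nat_lit 243) (nat_lit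 164))) (XT.nd (nat_lit 78) (nat_lit 0) (nat_lit 0) (XT.lf (nat_lit 0) (nat_lit 11190075664) (nat_lit 152) (nat_lit 10232946624) (nat_lit 76) (nat_lit 37095819085) (nat_lit 6) (nat_lit 5) (nat_lit 8) (nat_lit 5) (nat_lit 7) (nat_lit 4) (nat_lit 314) (nat_lit 243) (nat_lit 163)) (XT.lf (nat_lit 0) (nat_lit 15368722730) (nat_lit 152) (nat_lit 1699248984) (nat_lit 76) (nat_lit 44105849369) (nat_lit 6) (nat_lit 5) (nat_lit 8) (nat_lit 5) (nat_lit 7) (nat_lit 4) (nat_lit 315) (nat_lit 243) (nat_lit 162))))) (XT.nd (nat_lit 312) (nat_lit 76) (nat_lit 0) (XT.nd (nat_lit 156) (nat_lit 0) (nat_lit 0) (XT.nd (nat_lit 78) (nat_lit 0) (nat_lit 0) (XT.lf (nat_lit 0) (nat_lit 7484404156) (nat_lit 76) (nat_lit 12379261499) (nat_lit 152) (nat_lit 44092532909) (nat_lit 5) (nat_lit 5) (nat_lit 6) (nat_lit 5) (nat_lit 7) (nat_lit 4) (nat_lit 316) (nat_lit 243) (nat_lit 161)) (XT.lf (nat_lit 0) (nat_lit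 17170219519) (nat_lit 76) (nat_lit 7432626617) (nat_lit 152) (nat_lit 42273890412) (nat_lit 5) (nat_lit 5) (nat_lit 6) (nat_lit 5) (nat_lit 7) (nat_lit 4) (nat_lit 317) (nat_lit 243) (nat_lit 160))) (XT.nd (nat_lit 78) (nat_lit 0) (nat_lit 0) (XT.lf (nat_lit 0) (nat_lit 27325073726) (nat_lit 76) (nat_lit 2245066970) (nat_lit 152) (nat_lit 40373618364) (nat_lit 5) (nat_lit 5) (nat_lit 6) (nat_lit 5) (nat_lit 7) (nat_lit 4) (nat_lit 318) (nat_lit 243) (nat_lit 159)) (XT.lf (nat_lit 0) (nat_lit 34827271133) (nat_lit 152) (nat_lit 35241318443) (nat_lit 0) (nat_lit 3093484214) (nat_lit 5) (nat_lit 5) (nat_lit 7) (nat_lit 4) (nat_lit 5) (nat_lit 4) (nat_lit 319) (nat_lit 243) (nat_lit 158)))) (XT.nd (nat_lit 156) (nat_lit 76) (nat_lit 0) (XT.nd (nat_lit 78) (nat_lit 0) (nat_lit 0) (XT.lf (nat_lit 0) (nat_lit 40375949111) (nat_lit 152) (nat_lit 27546045881) (nat_lit 0) (nat_lit 8617888664)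 (nat_lit 5) (nat_lit 5) (nat_lit 7) (nat_lit 4) (nat_lit 5) (nat_lit 4) (nat_lit 320) (nat_lit 243) (nat_lit 157)) (XT.lf (nat_lit 0) (nat_lit 46194333980) (nat_lit 152) (nat_lit 19479493784) (nat_lit 0) (nat_lit 14413155889) (nat_lit 5) (nat_lit 5) (nat_lit 7) (nat_lit 4) (nat_lit 5) (nat_lit 4) (nat_lit 321) (nat_lit 243) (nat_lit 156))) (XT.nd (nat_lit 78) (nat_lit 76) (nat_lit 0) (XT.lf (nat_lit 0) (nat_lit 52296279038) (nat_lit 152) (nat_lit 11022456076) (nat_lit 0) (nat_lit 20493084143) (nat_lit 5) (nat_lit 5) (nat_lit 7) (nat_lit 4) (nat_lit 5) (nat_lit 4) (nat_lit 322) (nat_lit 243) (nat_lit 155)) (XT.nd (nat_lit 78) (nat_lit 76) (nat_lit 0) (XT.lf (nat_lit 0) (nat_lit 58696312726) (nat_lit 152) (nat_lit 2154796953) (nat_lit 0) (nat_lit 26872149446) (nat_lit 5) (nat_lit 5) (nat_lit 7) (nat_lit 4) (nat_lit 5) (nat_lit 4) (nat_lit 323) (nat_lit 243) (nat_lit 154)) (XT.lf (nat_lit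 0) (nat_lit 7380829703) (nat_lit 76) (nat_lit 58144078952) (nat_lit 76) (nat_lit 26299945782) (nat_lit 4) (nat_lit 4) (nat_lit 5) (nat_lit 5) (nat_lit 5) (nat_lit 4) (nat_lit 324) (nat_lit 243) (nat_lit 153))))))) (XT.nd (nat_lit 624) (nat_lit 76) (nat_lit 0) (XT.nd (nat_lit 312) (nat_lit 76) (nat_lit 0) (XT.nd (nat_lit 156) (nat_lit 0) (nat_lit 0) (XT.nd (nat_lit 78) (nat_lit 0) (nat_lit 0) (XT.lf (nat_lit 0) (nat_lit 17456587183) (nat_lit 76) (nat_lit 55268303774) (nat_lit 76) (nat_lit 23405151660) (nat_lit 4) (nat_lit 4) (nat_lit 5) (nat_lit 5) (nat_lit 5) (nat_lit 4) (nat_lit 325) (nat_lit 243) (nat_lit 152)) (XT.lf (nat_lit 0) (nat_lit 28025218066) (nat_lit 76) (nat_lit 52253429590) (nat_lit 76) (nat_lit 20372164197) (nat_lit 4) (nat_lit 4) (nat_lit 5) (nat_lit 5) (nat_lit 5) (nat_lit 4) (nat_lit 326) (nat_lit 243) (nat_lit 151))) (XT.nd (nat_lit 78) (nat_lit 0) (nat_lit 0) (XT.lf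 (nat_lit 0) (nat_lit 39111885759) (nat_lit 76) (nat_lit 49092278128) (nat_lit 76) (nat_lit 17193761993) (nat_lit 4) (nat_lit 4) (nat_lit 5) (nat_lit 5) (nat_lit 5) (nat_lit 4) (nat_lit 327) (nat_lit 243) (nat_lit 150)) (XT.lf (nat_lit 0) (nat_lit 50742987088) (nat_lit 76) (nat_lit 45777322839) (nat_lit 76) (nat_lit 13862377425) (nat_lit 4) (nat_lit 4) (nat_lit 5) (nat_lit 5) (nat_lit 5) (nat_lit 4) (nat_lit 328) (nat_lit 243) (nat_lit 149)))) (XT.nd (nat_lit 156) (nat_lit 76) (nat_lit 0) (XT.nd (nat_lit 78) (nat_lit 0) (nat_lit 0) (XT.lf (nat_lit 0) (nat_lit 62946215154) (nat_lit 76) (nat_lit 42300670970) (nat_lit 76) (nat_lit 10370078624) (nat_lit 4) (nat_lit 4) (nat_lit 5) (nat_lit 5) (nat_lit 5) (nat_lit 4) (nat_lit 329) (nat_lit 243) (nat_lit 148)) (XT.lf (nat_lit 0) (nat_lit 75750625261) (nat_lit 76) (nat_lit 38654044779) (nat_lit 76) (nat_lit 6708550594) (nat_lit 4) (nat_lit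 4) (nat_lit 5) (nat_lit 5) (nat_lit 5) (nat_lit 4) (nat_lit 330) (nat_lit 243) (nat_lit 147))) (XT.nd (nat_lit 78) (nat_lit 76) (nat_lit 0) (XT.lf (nat_lit 0) (nat_lit 89186704099) (nat_lit 76) (nat_lit 34828761824) (nat_lit 76) (nat_lit 2869075410) (nat_lit 4) (nat_lit 4) (nat_lit 5) (nat_lit 5) (nat_lit 5) (nat_lit 4) (nat_lit 331) (nat_lit 243) (nat_lit 146)) (XT.lf (nat_lit 0) (nat_lit 1120441672) (nat_lit 152) (nat_lit 29676297392) (nat_lit 76) (nat_lit 102147025438) (nat_lit 3) (nat_lit 5) (nat_lit 5) (nat_lit 5) (nat_lit 4) (nat_lit 4) (nat_lit 332) (nat_lit 243) (nat_lit 145))))) (XT.nd (nat_lit 312) (nat_lit 0) (nat_lit 0) (XT.nd (nat_lit 156) (nat_lit 76) (nat_lit 0) (XT.nd (nat_lit 78) (nat_lit 0) (nat_lit 0) (XT.lf (nat_lit 0) (nat_lit 5208511389) (nat_lit 152) (nat_lit 21308627243) (nat_lit 76) (nat_lit 112786690718) (nat_lit 3) (nat_lit 5) (nat_lit 5) (nat_lit 5) (nat_lit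 4) (nat_lit 4) (nat_lit 333) (nat_lit 243) (nat_lit 144)) (XT.lf (nat_lit 0) (nat_lit 9496695568) (nat_lit 152) (nat_lit 12530109455) (nat_lit 76) (nat_lit 123955313577) (nat_lit 3) (nat_lit 5) (nat_lit 5) (nat_lit 5) (nat_lit 4) (nat_lit 4) (nat_lit 334) (nat_lit 243) (nat_lit 143))) (XT.nd (nat_lit 78) (nat_lit 76) (nat_lit 0) (XT.lf (nat_lit 0) (nat_lit 13995204173) (nat_lit 152) (nat_lit 3319842797) (nat_lit 76) (nat_lit 135679485975) (nat_lit 3) (nat_lit 5) (nat_lit 5) (nat_lit 5) (nat_lit 4) (nat_lit 4) (nat_lit 335) (nat_lit 243) (nat_lit 142)) (XT.lf (nat_lit 0) (nat_lit 6553866599) (nat_lit 76) (nat_lit 12263205563) (nat_lit 152) (nat_lit 141535580234) (nat_lit 2) (nat_lit 5) (nat_lit 3) (nat_lit 5) (nat_lit 4) (nat_lit 4) (nat_lit 336) (nat_lit 243) (nat_lit 141)))) (XT.nd (nat_lit 156) (nat_lit 0) (nat_lit 0) (XT.nd (nat_lit 78) (nat_lit 0) (nat_lit 0) (XT.lf (nat_lit 0)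 (nat_lit 17029793901) (nat_lit 76) (nat_lit 6902652779) (nat_lit 152) (nat_lit 144143616280) (nat_lit 2) (nat_lit 5) (nat_lit 3) (nat_lit 5) (nat_lit 4) (nat_lit 4) (nat_lit 337) (nat_lit 243) (nat_lit 140)) (XT.lf (nat_lit 0) (nat_lit 28023112798) (nat_lit 76) (nat_lit 1276848540) (nat_lit 152) (nat_lit 146885869665) (nat_lit 2) (nat_lit 5) (nat_lit 3) (nat_lit 5) (nat_lit 4) (nat_lit 4) (nat_lit 338) (nat_lit 243) (nat_lit 139))) (XT.nd (nat_lit 78) (nat_lit 0) (nat_lit 0) (XT.lf (nat_lit 0) (nat_lit 35004645768) (nat_lit 152) (nat_lit 145213517474) (nat_lit 0) (nat_lit 4479489763) (nat_lit 2) (nat_lit 5) (nat_lit 4) (nat_lit 4) (nat_lit 2) (nat_lit 4) (nat_lit 339) (nat_lit 243) (nat_lit 138)) (XT.nd (nat_lit 78) (nat_lit 0) (nat_lit 0) (XT.lf (nat_lit 0) (nat_lit 41012165813) (nat_lit 152) (nat_lit 142143728220) (nat_lit 0) (nat_lit 10478297011) (nat_lit 2) (nat_lit 5) (nat_lit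 4) (nat_lit 4) (nat_lit 2) (nat_lit 4) (nat_lit 340) (nat_lit 243) (nat_lit 137)) (XT.lf (nat_lit 0) (nat_lit 47316889909) (nat_lit 152) (nat_lit 138926106237) (nat_lit 0) (nat_lit 16774723206) (nat_lit 2) (nat_lit 5) (nat_lit 4) (nat_lit 4) (nat_lit 2) (nat_lit 4) (nat_lit 341) (nat_lit 243) (nat_lit 136))))))))
noncomputable def xc123 : XT := (XT.nd (nat_lit 1326) (nat_lit 0) (nat_lit 0) (XT.nd (nat_lit 624) (nat_lit 0) (nat_lit 0) (XT.nd (nat_lit 312) (nat_lit 0) (nat_lit 0) (XT.nd (nat_lit 156) (nat_lit 0) (nat_lit 0) (XT.nd (nat_lit 78) (nat_lit 0) (nat_lit 0) (XT.lf (nat_lit 0) (nat_lit 53933829305) (nat_lit 152) (nat_lit 135552990522) (nat_lit 0) (nat_lit 23383759837) (nat_lit 2) (nat_lit 5) (nat_lit 4) (nat_lit 4) (nat_lit 2) (nat_lit 4) (nat_lit 342) (nat_lit 243) (nat_lit 135)) (XT.lf (nat_lit 0) (nat_lit 60878738616) (nat_lit 152) (nat_lit 132016349846) (nat_lit 0) (nat_lit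 30321142707) (nat_lit 2) (nat_lit 5) (nat_lit 4) (nat_lit 4) (nat_lit 2) (nat_lit 4) (nat_lit 343) (nat_lit 243) (nat_lit 134))) (XT.nd (nat_lit 78) (nat_lit 0) (nat_lit 0) (XT.lf (nat_lit 0) (nat_lit 68168153343) (nat_lit 152) (nat_lit 128307763636) (nat_lit 0) (nat_lit 37603389394) (nat_lit 2) (nat_lit 5) (nat_lit 4) (nat_lit 4) (nat_lit 2) (nat_lit 4) (nat_lit 344) (nat_lit 243) (nat_lit 133)) (XT.lf (nat_lit 0) (nat_lit 75819429233) (nat_lit 152) (nat_lit 124418401925) (nat_lit 0) (nat_lit 45247838580) (nat_lit 2) (nat_lit 5) (nat_lit 4) (nat_lit 4) (nat_lit 2) (nat_lit 4) (nat_lit 345) (nat_lit 243) (nat_lit 132)))) (XT.nd (nat_lit 156) (nat_lit 0) (nat_lit 0) (XT.nd (nat_lit 78) (nat_lit 0) (nat_lit 0) (XT.lf (nat_lit 0) (nat_lit 83850783612) (nat_lit 152) (nat_lit 120339004328) (nat_lit 0) (nat_lit 53272691335) (nat_lit 2) (nat_lit 5) (nat_lit 4) (nat_lit 4) (nat_lit 2) (nat_lit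 4) (nat_lit 346) (nat_lit 243) (nat_lit 131)) (XT.lf (nat_lit 0) (nat_lit 92281338750) (nat_lit 152) (nat_lit 116059857994) (nat_lit 0) (nat_lit 61697054451) (nat_lit 2) (nat_lit 5) (nat_lit 4) (nat_lit 4) (nat_lit 2) (nat_lit 4) (nat_lit 347) (nat_lit 243) (nat_lit 130))) (XT.nd (nat_lit 78) (nat_lit 0) (nat_lit 0) (XT.lf (nat_lit 0) (nat_lit 101131167399) (nat_lit 152) (nat_lit 111570774478) (nat_lit 0) (nat_lit 70540985936) (nat_lit 2) (nat_lit 5) (nat_lit 4) (nat_lit 4) (nat_lit 2) (nat_lit 4) (nat_lit 348) (nat_lit 243) (nat_lit 129)) (XT.lf (nat_lit 0) (nat_lit 110421340579) (nat_lit 152) (nat_lit 106861065487) (nat_lit 0) (nat_lit 79825542769) (nat_lit 2) (nat_lit 5) (nat_lit 4) (nat_lit 4) (nat_lit 2) (nat_lit 4) (nat_lit 349) (nat_lit 243) (nat_lit 128))))) (XT.nd (nat_lit 312) (nat_lit 0) (nat_lit 0) (XT.nd (nat_lit 156) (nat_lit 0) (nat_lit 0) (XT.nd (nat_lit 78) (nat_lit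 0) (nat_lit 0) (XT.lf (nat_lit 0) (nat_lit 120173977750) (nat_lit 152) (nat_lit 101919517428) (nat_lit 0) (nat_lit 89572831038) (nat_lit 2) (nat_lit 5) (nat_lit 4) (nat_lit 4) (nat_lit 2) (nat_lit 4) (nat_lit 350) (nat_lit 243) (nat_lit 127)) (XT.lf (nat_lit 0) (nat_lit 130412299476) (nat_lit 152) (nat_lit 96734364711) (nat_lit 0) (nat_lit 99806058573) (nat_lit 2) (nat_lit 5) (nat_lit 4) (nat_lit 4) (nat_lit 2) (nat_lit 4) (nat_lit 351) (nat_lit 243) (nat_lit 126))) (XT.nd (nat_lit 78) (nat_lit 0) (nat_lit 0) (XT.lf (nat_lit 0) (nat_lit 141160682714) (nat_lit 152) (nat_lit 91293261733) (nat_lit 0) (nat_lit 110549590200) (nat_lit 2) (nat_lit 5) (nat_lit 4) (nat_lit 4) (nat_lit 2) (nat_lit 4) (nat_lit 352) (nat_lit 243) (nat_lit 125)) (XT.lf (nat_lit 0) (nat_lit 152444718854) (nat_lit 152) (nat_lit 85583253487) (nat_lit 0) (nat_lit 121829005757) (nat_lit 2) (nat_lit 5) (nat_lit 4) (nat_lit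 4) (nat_lit 2) (nat_lit 4) (nat_lit 353) (nat_lit 243) (nat_lit 124)))) (XT.nd (nat_lit 156) (nat_lit 0) (nat_lit 0) (XT.nd (nat_lit 78) (nat_lit 0) (nat_lit 0) (XT.lf (nat_lit 0) (nat_lit 164291274646) (nat_lit 152) (nat_lit 79590744717) (nat_lit 0) (nat_lit 133671160995) (nat_lit 2) (nat_lit 5) (nat_lit 4) (nat_lit 4) (nat_lit 2) (nat_lit 4) (nat_lit 354) (nat_lit 243) (nat_lit 123)) (XT.lf (nat_lit 0) (nat_lit 176728556178) (nat_lit 152) (nat_lit 73301467543) (nat_lit 0) (nat_lit 146104251522) (nat_lit 2) (nat_lit 5) (nat_lit 4) (nat_lit 4) (nat_lit 2) (nat_lit 4) (nat_lit 355) (nat_lit 243) (nat_lit 122))) (XT.nd (nat_lit 78) (nat_lit 0) (nat_lit 0) (XT.lf (nat_lit 0) (nat_lit 189786176023) (nat_lit 152) (nat_lit 66700447496) (nat_lit 0) (nat_lit 159157879934) (nat_lit 2) (nat_lit 5) (nat_lit 4) (nat_lit 4) (nat_lit 2) (nat_lit 4) (nat_lit 356) (nat_lit 243) (nat_lit 121)) (XT.nd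 (nat_lit 78) (nat_lit 0) (nat_lit 0) (XT.lf (nat_lit 0) (nat_lit 203495223753) (nat_lit 152) (nat_lit 59771967863) (nat_lit 0) (nat_lit 172863126300) (nat_lit 2) (nat_lit 5) (nat_lit 4) (nat_lit 4) (nat_lit 2) (nat_lit 4) (nat_lit 357) (nat_lit 243) (nat_lit 120)) (XT.lf (nat_lit 0) (nat_lit 217888339958) (nat_lit 152) (nat_lit 52499532262) (nat_lit 0) (nat_lit 187252622158) (nat_lit 2) (nat_lit 5) (nat_lit 4) (nat_lit 4) (nat_lit 2) (nat_lit 4) (nat_lit 358) (nat_lit 243) (nat_lit 119))))))) (XT.nd (nat_lit 29172) (nat_lit 0) (nat_lit 4180) (XT.nd (nat_lit 28782) (nat_lit 0) (nat_lit 6916) (XT.nd (nat_lit 28626) (nat_lit 0) (nat_lit 7220) (XT.nd (nat_lit 28548) (nat_lit 0) (nat_lit 7600) (XT.lf (nat_lit 0) (nat_lit 232999793961) (nat_lit 152) (nat_lit 44865825371) (nat_lit 0) (nat_lit 202360628212) (nat_lit 2) (nat_lit 5) (nat_lit 4) (nat_lit 4) (nat_lit 2) (nat_lit 4) (nat_lit 359)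 (nat_lit 243) (nat_lit 118)) (XT.lf (nat_lit 0) (nat_lit 1570951833) (nat_lit 0) (nat_lit 1570951833) (nat_lit 228) (nat_lit 176857524) (nat_lit 102) (nat_lit 5) (nat_lit 102) (nat_lit 3) (nat_lit 105) (nat_lit 3) (nat_lit 244) (nat_lit 244) (nat_lit 232))) (XT.nd (nat_lit 78) (nat_lit 0) (nat_lit 0) (XT.lf (nat_lit 0) (nat_lit 1651926315) (nat_lit 380) (nat_lit 671702545) (nat_lit 380) (nat_lit 4366840727) (nat_lit 97) (nat_lit 3) (nat_lit 102) (nat_lit 3) (nat_lit 102) (nat_lit 5) (nat_lit 245) (nat_lit 244) (nat_lit 231)) (XT.lf (nat_lit 76) (nat_lit 2293279963) (nat_lit 0) (nat_lit 1360277823) (nat_lit 380) (nat_lit 3097677154) (nat_lit 98) (nat_lit 5) (nat_lit 97) (nat_lit 3) (nat_lit 102) (nat_lit 5) (nat_lit 246) (nat_lit 244) (nat_lit 230)))) (XT.nd (nat_lit 156) (nat_lit 0) (nat_lit 0) (XT.nd (nat_lit 78) (nat_lit 304) (nat_lit 0) (XT.lf (nat_lit 76) (nat_lit 5363193870) (nat_lit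 0) (nat_lit 280308028) (nat_lit 380) (nat_lit 1177925560) (nat_lit 98) (nat_lit 5) (nat_lit 97) (nat_lit 3) (nat_lit 102) (nat_lit 5) (nat_lit 247) (nat_lit 244) (nat_lit 229)) (XT.lf (nat_lit 0) (nat_lit 731805559) (nat_lit 380) (nat_lit 5251198189) (nat_lit 456) (nat_lit 916157498) (nat_lit 93) (nat_lit 5) (nat_lit 98) (nat_lit 5) (nat_lit 99) (nat_lit 5) (nat_lit 248) (nat_lit 244) (nat_lit 228))) (XT.nd (nat_lit 78) (nat_lit 0) (nat_lit 0) (XT.lf (nat_lit 0) (nat_lit 2612609461) (nat_lit 380) (nat_lit 2118026295) (nat_lit 456) (nat_lit 2254113305) (nat_lit 93) (nat_lit 5) (nat_lit 98) (nat_lit 5) (nat_lit 99) (nat_lit 5) (nat_lit 249) (nat_lit 244) (nat_lit 227)) (XT.nd (nat_lit 78) (nat_lit 0) (nat_lit 0) (XT.lf (nat_lit 76) (nat_lit 1137481995) (nat_lit 0) (nat_lit 3358660646) (nat_lit 456) (nat_lit 2583697706) (nat_lit 94) (nat_lit 5) (nat_lit 93) (nat_lit 5) (nat_lit 99) (nat_lit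 5) (nat_lit 250) (nat_lit 244) (nat_lit 226)) (XT.lf (nat_lit 76) (nat_lit 4559710851) (nat_lit 0) (nat_lit 1845048587) (nat_lit 456) (nat_lit 779008587) (nat_lit 94) (nat_lit 5) (nat_lit 93) (nat_lit 5) (nat_lit 99) (nat_lit 5) (nat_lit 251) (nat_lit 244) (nat_lit 225)))))) (XT.nd (nat_lit 312) (nat_lit 1900) (nat_lit 0) (XT.nd (nat_lit 156) (nat_lit 380) (nat_lit 0) (XT.nd (nat_lit 78) (nat_lit 0) (nat_lit 76) (XT.lf (nat_lit 76) (nat_lit 798057651) (nat_lit 0) (nat_lit 192419435) (nat_lit 532) (nat_lit 6306598824) (nat_lit 88) (nat_lit 5) (nat_lit 87) (nat_lit 5) (nat_lit 94) (nat_lit 5) (nat_lit 252) (nat_lit 244) (nat_lit 224)) (XT.lf (nat_lit 0) (nat_lit 2793576605) (nat_lit 456) (nat_lit 3044042984) (nat_lit 76) (nat_lit 1579766877) (nat_lit 88) (nat_lit 5) (nat_lit 94) (nat_lit 5) (nat_lit 89) (nat_lit 5) (nat_lit 253) (nat_lit 244) (nat_lit 223))) (XT.nd (nat_lit 78) (nat_lit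 0) (nat_lit 0) (XT.lf (nat_lit 0) (nat_lit 525923166) (nat_lit 456) (nat_lit 4079000234) (nat_lit 532) (nat_lit 2943400517) (nat_lit 82) (nat_lit 5) (nat_lit 88) (nat_lit 5) (nat_lit 89) (nat_lit 5) (nat_lit 254) (nat_lit 244) (nat_lit 222)) (XT.lf (nat_lit 0) (nat_lit 4309785824) (nat_lit 456) (nat_lit 2158675050) (nat_lit 532) (nat_lit 1219757606) (nat_lit 82) (nat_lit 5) (nat_lit 88) (nat_lit 5) (nat_lit 89) (nat_lit 5) (nat_lit 255) (nat_lit 244) (nat_lit 221)))) (XT.nd (nat_lit 156) (nat_lit 1292) (nat_lit 0) (XT.nd (nat_lit 78) (nat_lit 0) (nat_lit 0) (XT.lf (nat_lit 0) (nat_lit 380420851) (nat_lit 532) (nat_lit 109196452) (nat_lit 608) (nat_lit 7349553777) (nat_lit 74) (nat_lit 5) (nat_lit 81) (nat_lit 5) (nat_lit 82) (nat_lit 5) (nat_lit 256) (nat_lit 244) (nat_lit 220)) (XT.lf (nat_lit 0) (nat_lit 2249337657) (nat_lit 608) (nat_lit 3677155606) (nat_lit 76) (nat_lit 2070309314)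 (nat_lit 74) (nat_lit 5) (nat_lit 82) (nat_lit 5) (nat_lit 75) (nat_lit 5) (nat_lit 257) (nat_lit 244) (nat_lit 219))) (XT.nd (nat_lit 78) (nat_lit 684) (nat_lit 0) (XT.lf (nat_lit 0) (nat_lit 228541961) (nat_lit 608) (nat_lit 3793690885) (nat_lit 684) (nat_lit 4144227646) (nat_lit 66) (nat_lit 5) (nat_lit 74) (nat_lit 5) (nat_lit 75) (nat_lit 5) (nat_lit 258) (nat_lit 244) (nat_lit 218)) (XT.nd (nat_lit 78) (nat_lit 684) (nat_lit 0) (XT.lf (nat_lit 0) (nat_lit 4387822617) (nat_lit 608) (nat_lit 1480789742) (nat_lit 684) (nat_lit 2477131998) (nat_lit 66) (nat_lit 5) (nat_lit 74) (nat_lit 5) (nat_lit 75) (nat_lit 5) (nat_lit 259) (nat_lit 244) (nat_lit 217)) (XT.lf (nat_lit 0) (nat_lit 140540591) (nat_lit 684) (nat_lit 7610134153) (nat_lit 760) (nat_lit 786516173) (nat_lit 57) (nat_lit 5) (nat_lit 66) (nat_lit 5) (nat_lit 67) (nat_lit 5) (nat_lit 260) (nat_lit 244) (nat_lit 216))))))))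
noncomputable def xc124 : XT := (XT.nd (nat_lit 1326) (nat_lit 1292) (nat_lit 0) (XT.nd (nat_lit 624) (nat_lit 1064) (nat_lit 0) (XT.nd (nat_lit 312) (nat_lit 608) (nat_lit 0) (XT.nd (nat_lit 156) (nat_lit 304) (nat_lit 0) (XT.nd (nat_lit 78) (nat_lit 0) (nat_lit 0) (XT.lf (nat_lit 0) (nat_lit 976685938) (nat_lit 760) (nat_lit 4266170660) (nat_lit 76) (nat_lit 3493929155) (nat_lit 56) (nat_lit 5) (nat_lit 66) (nat_lit 5) (nat_lit 57) (nat_lit 5) (nat_lit 261) (nat_lit 244) (nat_lit 215)) (XT.lf (nat_lit 0) (nat_lit 2732372665) (nat_lit 760) (nat_lit 10478900) (nat_lit 76) (nat_lit 6206643015) (nat_lit 56) (nat_lit 5) (nat_lit 66) (nat_lit 5) (nat_lit 57) (nat_lit 5) (nat_lit 262) (nat_lit 244) (nat_lit 214))) (XT.nd (nat_lit 78) (nat_lit 0) (nat_lit 0) (XT.lf (nat_lit 0) (nat_lit 4538084311) (nat_lit 304) (nat_lit 42665546) (nat_lit 380) (nat_lit 4592145369) (nat_lit 52) (nat_lit 5)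 (nat_lit 56) (nat_lit 5) (nat_lit 57) (nat_lit 5) (nat_lit 263) (nat_lit 244) (nat_lit 213)) (XT.lf (nat_lit 0) (nat_lit 6501514058) (nat_lit 380) (nat_lit 204201803) (nat_lit 76) (nat_lit 2703038953) (nat_lit 52) (nat_lit 5) (nat_lit 57) (nat_lit 5) (nat_lit 53) (nat_lit 5) (nat_lit 264) (nat_lit 244) (nat_lit 212)))) (XT.nd (nat_lit 156) (nat_lit 228) (nat_lit 0) (XT.nd (nat_lit 78) (nat_lit 76) (nat_lit 0) (XT.lf (nat_lit 0) (nat_lit 4527792015) (nat_lit 304) (nat_lit 4001142608) (nat_lit 380) (nat_lit 1127215485) (nat_lit 48) (nat_lit 5) (nat_lit 52) (nat_lit 5) (nat_lit 53) (nat_lit 5) (nat_lit 265) (nat_lit 244) (nat_lit 211)) (XT.lf (nat_lit 0) (nat_lit 661498555) (nat_lit 380) (nat_lit 489466426) (nat_lit 76) (nat_lit 8767447789) (nat_lit 47) (nat_lit 5) (nat_lit 52) (nat_lit 5) (nat_lit 48) (nat_lit 5) (nat_lit 266) (nat_lit 244) (nat_lit 210))) (XT.nd (nat_lit 78) (nat_lit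 0) (nat_lit 0) (XT.lf (nat_lit 0) (nat_lit 2544017952) (nat_lit 304) (nat_lit 5779962593) (nat_lit 76) (nat_lit 1867007874) (nat_lit 44) (nat_lit 5) (nat_lit 48) (nat_lit 5) (nat_lit 45) (nat_lit 5) (nat_lit 267) (nat_lit 244) (nat_lit 209)) (XT.lf (nat_lit 0) (nat_lit 4492405713) (nat_lit 304) (nat_lit 986583103) (nat_lit 76) (nat_lit 4999842033) (nat_lit 44) (nat_lit 5) (nat_lit 48) (nat_lit 5) (nat_lit 45) (nat_lit 5) (nat_lit 268) (nat_lit 244) (nat_lit 208))))) (XT.nd (nat_lit 312) (nat_lit 456) (nat_lit 0) (XT.nd (nat_lit 156) (nat_lit 304) (nat_lit 0) (XT.nd (nat_lit 78) (nat_lit 0) (nat_lit 0) (XT.lf (nat_lit 0) (nat_lit 4116961051) (nat_lit 304) (nat_lit 2432623277) (nat_lit 380) (nat_lit 4231126902) (nat_lit 40) (nat_lit 5) (nat_lit 44) (nat_lit 5) (nat_lit 45) (nat_lit 5) (nat_lit 269) (nat_lit 244) (nat_lit 207)) (XT.lf (nat_lit 0) (nat_lit 8687096835) (nat_lit 380) (nat_lit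 1662065361) (nat_lit 76) (nat_lit 749853876) (nat_lit 40) (nat_lit 5) (nat_lit 45) (nat_lit 5) (nat_lit 41) (nat_lit 5) (nat_lit 270) (nat_lit 244) (nat_lit 206))) (XT.nd (nat_lit 78) (nat_lit 76) (nat_lit 0) (XT.lf (nat_lit 0) (nat_lit 3605297385) (nat_lit 228) (nat_lit 7373338725) (nat_lit 304) (nat_lit 452436956) (nat_lit 37) (nat_lit 5) (nat_lit 40) (nat_lit 5) (nat_lit 41) (nat_lit 5) (nat_lit 271) (nat_lit 244) (nat_lit 205)) (XT.lf (nat_lit 0) (nat_lit 1533695446) (nat_lit 304) (nat_lit 2670849307) (nat_lit 76) (nat_lit 7575109270) (nat_lit 36) (nat_lit 5) (nat_lit 40) (nat_lit 5) (nat_lit 37) (nat_lit 5) (nat_lit 272) (nat_lit 244) (nat_lit 204)))) (XT.nd (nat_lit 156) (nat_lit 228) (nat_lit 0) (XT.nd (nat_lit 78) (nat_lit 0) (nat_lit 0) (XT.lf (nat_lit 0) (nat_lit 2765062883) (nat_lit 228) (nat_lit 835786957) (nat_lit 304) (nat_lit 8544765313) (nat_lit 33) (nat_lit 5) (nat_lit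 36) (nat_lit 5) (nat_lit 37) (nat_lit 5) (nat_lit 273) (nat_lit 244) (nat_lit 203)) (XT.lf (nat_lit 0) (nat_lit 5814388916) (nat_lit 304) (nat_lit 4064163964) (nat_lit 76) (nat_lit 2649330101) (nat_lit 33) (nat_lit 5) (nat_lit 37) (nat_lit 5) (nat_lit 34) (nat_lit 5) (nat_lit 274) (nat_lit 244) (nat_lit 202))) (XT.nd (nat_lit 78) (nat_lit 0) (nat_lit 0) (XT.lf (nat_lit 0) (nat_lit 1495906688) (nat_lit 228) (nat_lit 6636780469) (nat_lit 304) (nat_lit 4797025303) (nat_lit 30) (nat_lit 5) (nat_lit 33) (nat_lit 5) (nat_lit 34) (nat_lit 5) (nat_lit 275) (nat_lit 244) (nat_lit 201)) (XT.nd (nat_lit 78) (nat_lit 0) (nat_lit 0) (XT.lf (nat_lit 0) (nat_lit 7419673760) (nat_lit 228) (nat_lit 3174261991) (nat_lit 304) (nat_lit 2756491003) (nat_lit 30) (nat_lit 5) (nat_lit 33) (nat_lit 5) (nat_lit 34) (nat_lit 5) (nat_lit 276) (nat_lit 244) (nat_lit 200)) (XT.lf (nat_lit 0) (nat_lit 13145444846)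 (nat_lit 304) (nat_lit 214444336) (nat_lit 76) (nat_lit 434065883) (nat_lit 30) (nat_lit 5) (nat_lit 34) (nat_lit 5) (nat_lit 31) (nat_lit 5) (nat_lit 277) (nat_lit 244) (nat_lit 199))))))) (XT.nd (nat_lit 624) (nat_lit 456) (nat_lit 0) (XT.nd (nat_lit 312) (nat_lit 380) (nat_lit 0) (XT.nd (nat_lit 156) (nat_lit 152) (nat_lit 0) (XT.nd (nat_lit 78) (nat_lit 0) (nat_lit 0) (XT.lf (nat_lit 0) (nat_lit 1621994774) (nat_lit 304) (nat_lit 8409194489) (nat_lit 76) (nat_lit 4222013745) (nat_lit 26) (nat_lit 5) (nat_lit 30) (nat_lit 5) (nat_lit 27) (nat_lit 5) (nat_lit 278) (nat_lit 244) (nat_lit 198)) (XT.lf (nat_lit 0) (nat_lit 3950106549) (nat_lit 304) (nat_lit 2585712011) (nat_lit 76) (nat_lit 8200888823) (nat_lit 26) (nat_lit 5) (nat_lit 30) (nat_lit 5) (nat_lit 27) (nat_lit 5) (nat_lit 279) (nat_lit 244) (nat_lit 197))) (XT.nd (nat_lit 78) (nat_lit 0) (nat_lit 0) (XT.lf (nat_lit 0) (nat_lit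 3593857682) (nat_lit 152) (nat_lit 2820861630) (nat_lit 228) (nat_lit 8828776594) (nat_lit 24) (nat_lit 5) (nat_lit 26) (nat_lit 5) (nat_lit 27) (nat_lit 5) (nat_lit 280) (nat_lit 244) (nat_lit 196)) (XT.lf (nat_lit 0) (nat_lit 9028638421) (nat_lit 228) (nat_lit 5669779697) (nat_lit 76) (nat_lit 1076010239) (nat_lit 24) (nat_lit 5) (nat_lit 27) (nat_lit 5) (nat_lit 25) (nat_lit 5) (nat_lit 281) (nat_lit 244) (nat_lit 195)))) (XT.nd (nat_lit 156) (nat_lit 228) (nat_lit 0) (XT.nd (nat_lit 78) (nat_lit 0) (nat_lit 0) (XT.lf (nat_lit 0) (nat_lit 531315394) (nat_lit 152) (nat_lit 11262865780) (nat_lit 228) (nat_lit 4536783002) (nat_lit 22) (nat_lit 5) (nat_lit 24) (nat_lit 5) (nat_lit 25) (nat_lit 5) (nat_lit 282) (nat_lit 244) (nat_lit 194)) (XT.lf (nat_lit 0) (nat_lit 7191571600) (nat_lit 152) (nat_lit 7569693912) (nat_lit 228) (nat_lit 2150996271) (nat_lit 22) (nat_lit 5) (nat_lit 24)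 (nat_lit 5) (nat_lit 25) (nat_lit 5) (nat_lit 283) (nat_lit 244) (nat_lit 193))) (XT.nd (nat_lit 78) (nat_lit 152) (nat_lit 0) (XT.lf (nat_lit 0) (nat_lit 310948865) (nat_lit 228) (nat_lit 3389914777) (nat_lit 76) (nat_lit 13823163216) (nat_lit 21) (nat_lit 5) (nat_lit 24) (nat_lit 5) (nat_lit 22) (nat_lit 5) (nat_lit 284) (nat_lit 244) (nat_lit 192)) (XT.lf (nat_lit 0) (nat_lit 2851514555) (nat_lit 228) (nat_lit 14887669883) (nat_lit 76) (nat_lit 424126938) (nat_lit 19) (nat_lit 5) (nat_lit 22) (nat_lit 5) (nat_lit 20) (nat_lit 5) (nat_lit 285) (nat_lit 244) (nat_lit 191))))) (XT.nd (nat_lit 312) (nat_lit 304) (nat_lit 0) (XT.nd (nat_lit 156) (nat_lit 152) (nat_lit 0) (XT.nd (nat_lit 78) (nat_lit 0) (nat_lit 0) (XT.lf (nat_lit 0) (nat_lit 5608384933) (nat_lit 228) (nat_lit 8546138950) (nat_lit 76) (nat_lit 4675653222) (nat_lit 19) (nat_lit 5) (nat_lit 22) (nat_lit 5) (nat_lit 20)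 (nat_lit 5) (nat_lit 286) (nat_lit 244) (nat_lit 190)) (XT.lf (nat_lit 0) (nat_lit 8474770751) (nat_lit 228) (nat_lit 1930392466) (nat_lit 76) (nat_lit 9126716264) (nat_lit 19) (nat_lit 5) (nat_lit 22) (nat_lit 5) (nat_lit 20) (nat_lit 5) (nat_lit 287) (nat_lit 244) (nat_lit 189))) (XT.nd (nat_lit 78) (nat_lit 0) (nat_lit 0) (XT.lf (nat_lit 0) (nat_lit 5139827937) (nat_lit 152) (nat_lit 6397915917) (nat_lit 228) (nat_lit 8728333016) (nat_lit 17) (nat_lit 5) (nat_lit 19) (nat_lit 5) (nat_lit 20) (nat_lit 5) (nat_lit 288) (nat_lit 244) (nat_lit 188)) (XT.lf (nat_lit 0) (nat_lit 12590416620) (nat_lit 152) (nat_lit 2169819685) (nat_lit 228) (nat_lit 6276499091) (nat_lit 17) (nat_lit 5) (nat_lit 19) (nat_lit 5) (nat_lit 20) (nat_lit 5) (nat_lit 289) (nat_lit 244) (nat_lit 187)))) (XT.nd (nat_lit 156) (nat_lit 228) (nat_lit 0) (XT.nd (nat_lit 78) (nat_lit 76) (nat_lit 0) (XT.lf (nat_lit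 0) (nat_lit 18154015634) (nat_lit 228) (nat_lit 1507191436) (nat_lit 76) (nat_lit 2184278143) (nat_lit 17) (nat_lit 5) (nat_lit 20) (nat_lit 5) (nat_lit 18) (nat_lit 4) (nat_lit 290) (nat_lit 244) (nat_lit 186)) (XT.lf (nat_lit 0) (nat_lit 5894493254) (nat_lit 76) (nat_lit 15926520733) (nat_lit 152) (nat_lit 868545345) (nat_lit 16) (nat_lit 5) (nat_lit 17) (nat_lit 5) (nat_lit 18) (nat_lit 4) (nat_lit 291) (nat_lit 244) (nat_lit 185))) (XT.nd (nat_lit 78) (nat_lit 152) (nat_lit 0) (XT.lf (nat_lit 0) (nat_lit 2030455082) (nat_lit 152) (nat_lit 9926841156) (nat_lit 76) (nat_lit 11616862501) (nat_lit 15) (nat_lit 5) (nat_lit 17) (nat_lit 5) (nat_lit 16) (nat_lit 5) (nat_lit 292) (nat_lit 244) (nat_lit 184)) (XT.nd (nat_lit 78) (nat_lit 152) (nat_lit 0) (XT.lf (nat_lit 0) (nat_lit 5022413294) (nat_lit 152) (nat_lit 2765379864) (nat_lit 76) (nat_lit 16715677898) (nat_lit 15) (nat_lit 5)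 (nat_lit 17) (nat_lit 5) (nat_lit 16) (nat_lit 5) (nat_lit 293) (nat_lit 244) (nat_lit 183)) (XT.lf (nat_lit 0) (nat_lit 4875991501) (nat_lit 152) (nat_lit 3342388268) (nat_lit 228) (nat_lit 17258200791) (nat_lit 13) (nat_lit 5) (nat_lit 15) (nat_lit 5) (nat_lit 16) (nat_lit 5) (nat_lit 294) (nat_lit 244) (nat_lit 182))))))))
noncomputable def xc125 : XT := (XT.nd (nat_lit 1326) (nat_lit 228) (nat_lit 0) (XT.nd (nat_lit 624) (nat_lit 152) (nat_lit 0) (XT.nd (nat_lit 312) (nat_lit 228) (nat_lit 0) (XT.nd (nat_lit 156) (nat_lit 76) (nat_lit 0) (XT.nd (nat_lit 78) (nat_lit 0) (nat_lit 0) (XT.lf (nat_lit 0) (nat_lit 11621033109) (nat_lit 228) (nat_lit 13556612519) (nat_lit 76) (nat_lit 1318405091) (nat_lit 13) (nat_lit 5) (nat_lit 16) (nat_lit 5) (nat_lit 14) (nat_lit 4) (nat_lit 295) (nat_lit 244) (nat_lit 181)) (XT.lf (nat_lit 0) (nat_lit 15228227887) (nat_lit 228) (nat_lit 6248171940)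 (nat_lit 76) (nat_lit 6088421366) (nat_lit 13) (nat_lit 5) (nat_lit 16) (nat_lit 5) (nat_lit 14) (nat_lit 4) (nat_lit 296) (nat_lit 244) (nat_lit 180))) (XT.nd (nat_lit 78) (nat_lit 0) (nat_lit 0) (XT.lf (nat_lit 0) (nat_lit 1440420217) (nat_lit 76) (nat_lit 17578437394) (nat_lit 152) (nat_lit 9668063815) (nat_lit 12) (nat_lit 5) (nat_lit 13) (nat_lit 5) (nat_lit 14) (nat_lit 4) (nat_lit 297) (nat_lit 244) (nat_lit 179)) (XT.lf (nat_lit 0) (nat_lit 9699497524) (nat_lit 76) (nat_lit 13386365871) (nat_lit 152) (nat_lit 6774963899) (nat_lit 12) (nat_lit 5) (nat_lit 13) (nat_lit 5) (nat_lit 14) (nat_lit 4) (nat_lit 298) (nat_lit 244) (nat_lit 178)))) (XT.nd (nat_lit 156) (nat_lit 228) (nat_lit 0) (XT.nd (nat_lit 78) (nat_lit 0) (nat_lit 0) (XT.lf (nat_lit 0) (nat_lit 18342131669) (nat_lit 76) (nat_lit 8996019950) (nat_lit 152) (nat_lit 3756221041) (nat_lit 12) (nat_lit 5) (nat_lit 13)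 (nat_lit 5) (nat_lit 14) (nat_lit 4) (nat_lit 299) (nat_lit 244) (nat_lit 177)) (XT.lf (nat_lit 0) (nat_lit 27388900352) (nat_lit 76) (nat_lit 4396946426) (nat_lit 152) (nat_lit 604647758) (nat_lit 12) (nat_lit 5) (nat_lit 13) (nat_lit 5) (nat_lit 14) (nat_lit 4) (nat_lit 300) (nat_lit 244) (nat_lit 176))) (XT.nd (nat_lit 78) (nat_lit 0) (nat_lit 0) (XT.lf (nat_lit 0) (nat_lit 2658804431) (nat_lit 228) (nat_lit 30587270612) (nat_lit 76) (nat_lit 501228410) (nat_lit 9) (nat_lit 5) (nat_lit 12) (nat_lit 5) (nat_lit 10) (nat_lit 4) (nat_lit 301) (nat_lit 244) (nat_lit 175)) (XT.lf (nat_lit 0) (nat_lit 6206803060) (nat_lit 228) (nat_lit 23375211416) (nat_lit 76) (nat_lit 5582391607) (nat_lit 9) (nat_lit 5) (nat_lit 12) (nat_lit 5) (nat_lit 10) (nat_lit 4) (nat_lit 302) (nat_lit 244) (nat_lit 174))))) (XT.nd (nat_lit 312) (nat_lit 76) (nat_lit 0) (XT.nd (nat_lit 156) (nat_lit 76) (nat_lit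 0) (XT.nd (nat_lit 78) (nat_lit 0) (nat_lit 0) (XT.lf (nat_lit 0) (nat_lit 9916506245) (nat_lit 228) (nat_lit 15828737022) (nat_lit 76) (nat_lit 10907937321) (nat_lit 9) (nat_lit 5) (nat_lit 12) (nat_lit 5) (nat_lit 10) (nat_lit 4) (nat_lit 303) (nat_lit 244) (nat_lit 173)) (XT.lf (nat_lit 0) (nat_lit 13796746613) (nat_lit 228) (nat_lit 7929879636) (nat_lit 76) (nat_lit 16490545425) (nat_lit 9) (nat_lit 5) (nat_lit 12) (nat_lit 5) (nat_lit 10) (nat_lit 4) (nat_lit 304) (nat_lit 244) (nat_lit 172))) (XT.nd (nat_lit 78) (nat_lit 0) (nat_lit 0) (XT.lf (nat_lit 0) (nat_lit 351415022) (nat_lit 76) (nat_lit 17510834383) (nat_lit 152) (nat_lit 21997579393) (nat_lit 8) (nat_lit 5) (nat_lit 9) (nat_lit 5) (nat_lit 10) (nat_lit 4) (nat_lit 305) (nat_lit 244) (nat_lit 171)) (XT.lf (nat_lit 0) (nat_lit 9298711970) (nat_lit 76) (nat_lit 12952688589) (nat_lit 152) (nat_lit 19327227180) (nat_lit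 8) (nat_lit 5) (nat_lit 9) (nat_lit 5) (nat_lit 10) (nat_lit 4) (nat_lit 306) (nat_lit 244) (nat_lit 170)))) (XT.nd (nat_lit 156) (nat_lit 76) (nat_lit 0) (XT.nd (nat_lit 78) (nat_lit 0) (nat_lit 0) (XT.lf (nat_lit 0) (nat_lit 18671116661) (nat_lit 76) (nat_lit 8175632490) (nat_lit 152) (nat_lit 16537306791) (nat_lit 8) (nat_lit 5) (nat_lit 9) (nat_lit 5) (nat_lit 10) (nat_lit 4) (nat_lit 307) (nat_lit 244) (nat_lit 169)) (XT.lf (nat_lit 0) (nat_lit 28490944346) (nat_lit 76) (nat_lit 3168292142) (nat_lit 152) (nat_lit 13621175557) (nat_lit 8) (nat_lit 5) (nat_lit 9) (nat_lit 5) (nat_lit 10) (nat_lit 4) (nat_lit 308) (nat_lit 244) (nat_lit 168))) (XT.nd (nat_lit 78) (nat_lit 76) (nat_lit 0) (XT.lf (nat_lit 0) (nat_lit 36732815090) (nat_lit 152) (nat_lit 8523129833) (nat_lit 0) (nat_lit 2014641546) (nat_lit 8) (nat_lit 5) (nat_lit 10) (nat_lit 4) (nat_lit 8) (nat_lit 4) (nat_lit 309)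 (nat_lit 244) (nat_lit 167)) (XT.nd (nat_lit 78) (nat_lit 0) (nat_lit 0) (XT.lf (nat_lit 0) (nat_lit 87691758) (nat_lit 76) (nat_lit 42014113262) (nat_lit 76) (nat_lit 7256400700) (nat_lit 7) (nat_lit 4) (nat_lit 8) (nat_lit 5) (nat_lit 8) (nat_lit 4) (nat_lit 310) (nat_lit 244) (nat_lit 166)) (XT.lf (nat_lit 0) (nat_lit 9405575367) (nat_lit 76) (nat_lit 38466685089) (nat_lit 76) (nat_lit 3671316321) (nat_lit 7) (nat_lit 4) (nat_lit 8) (nat_lit 5) (nat_lit 8) (nat_lit 4) (nat_lit 311) (nat_lit 244) (nat_lit 165))))))) (XT.nd (nat_lit 702) (nat_lit 76) (nat_lit 0) (XT.nd (nat_lit 312) (nat_lit 76) (nat_lit 0) (XT.nd (nat_lit 156) (nat_lit 0) (nat_lit 0) (XT.nd (nat_lit 78) (nat_lit 0) (nat_lit 0) (XT.lf (nat_lit 0) (nat_lit 79060256) (nat_lit 152) (nat_lit 34669158295) (nat_lit 76) (nat_lit 19090494085) (nat_lit 6) (nat_lit 5) (nat_lit 8) (nat_lit 5) (nat_lit 7) (nat_lit 4) (nat_lit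 312) (nat_lit 244) (nat_lit 164)) (XT.lf (nat_lit 0) (nat_lit 3883113717) (nat_lit 152) (nat_lit 26905003991) (nat_lit 76) (nat_lit 25458020086) (nat_lit 6) (nat_lit 5) (nat_lit 8) (nat_lit 5) (nat_lit 7) (nat_lit 4) (nat_lit 313) (nat_lit 244) (nat_lit 163))) (XT.nd (nat_lit 78) (nat_lit 0) (nat_lit 0) (XT.lf (nat_lit 0) (nat_lit 7867406380) (nat_lit 152) (nat_lit 18769732879) (nat_lit 76) (nat_lit 32137310929) (nat_lit 6) (nat_lit 5) (nat_lit 8) (nat_lit 5) (nat_lit 7) (nat_lit 4) (nat_lit 314) (nat_lit 244) (nat_lit 162)) (XT.lf (nat_lit 0) (nat_lit 12041424657) (nat_lit 152) (nat_lit 10243975266) (nat_lit 76) (nat_lit 39144269688) (nat_lit 6) (nat_lit 5) (nat_lit 8) (nat_lit 5) (nat_lit 7) (nat_lit 4) (nat_lit 315) (nat_lit 244) (nat_lit 161)))) (XT.nd (nat_lit 156) (nat_lit 0) (nat_lit 0) (XT.nd (nat_lit 78) (nat_lit 76) (nat_lit 0) (XT.lf (nat_lit 0) (nat_lit 16415106686) (nat_lit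 152) (nat_lit 1307431729) (nat_lit 76) (nat_lit 46495579598) (nat_lit 6) (nat_lit 5) (nat_lit 8) (nat_lit 5) (nat_lit 7) (nat_lit 4) (nat_lit 316) (nat_lit 244) (nat_lit 160)) (XT.lf (nat_lit 0) (nat_lit 8327714072) (nat_lit 76) (nat_lit 12801170879) (nat_lit 152) (nat_lit 46011048661) (nat_lit 5) (nat_lit 5) (nat_lit 6) (nat_lit 5) (nat_lit 7) (nat_lit 4) (nat_lit 317) (nat_lit 244) (nat_lit 159))) (XT.nd (nat_lit 78) (nat_lit 0) (nat_lit 0) (XT.lf (nat_lit 0) (nat_lit 18475482599) (nat_lit 76) (nat_lit 7616587762) (nat_lit 152) (nat_lit 44115098367) (nat_lit 5) (nat_lit 5) (nat_lit 6) (nat_lit 5) (nat_lit 7) (nat_lit 4) (nat_lit 318) (nat_lit 244) (nat_lit 158)) (XT.nd (nat_lit 78) (nat_lit 0) (nat_lit 0) (XT.lf (nat_lit 0) (nat_lit 29116805606) (nat_lit 76) (nat_lit 2178586808) (nat_lit 152) (nat_lit 42132788267) (nat_lit 5) (nat_lit 5) (nat_lit 6) (nat_lit 5) (nat_lit 7) (nat_lit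 4) (nat_lit 319) (nat_lit 244) (nat_lit 157)) (XT.lf (nat_lit 0) (nat_lit 36806287275) (nat_lit 152) (nat_lit 36588666275) (nat_lit 0) (nat_lit 3412932635) (nat_lit 5) (nat_lit 5) (nat_lit 7) (nat_lit 4) (nat_lit 5) (nat_lit 4) (nat_lit 320) (nat_lit 244) (nat_lit 156)))))) (XT.nd (nat_lit 312) (nat_lit 76) (nat_lit 0) (XT.nd (nat_lit 156) (nat_lit 0) (nat_lit 0) (XT.nd (nat_lit 78) (nat_lit 0) (nat_lit 0) (XT.lf (nat_lit 0) (nat_lit 42621082362) (nat_lit 152) (nat_lit 28528378566) (nat_lit 0) (nat_lit 9205710918) (nat_lit 5) (nat_lit 5) (nat_lit 7) (nat_lit 4) (nat_lit 5) (nat_lit 4) (nat_lit 321) (nat_lit 244) (nat_lit 155)) (XT.lf (nat_lit 0) (nat_lit 48719608580) (nat_lit 152) (nat_lit 20077306941) (nat_lit 0) (nat_lit 15283268751) (nat_lit 5) (nat_lit 5) (nat_lit 7) (nat_lit 4) (nat_lit 5) (nat_lit 4) (nat_lit 322) (nat_lit 244) (nat_lit 154))) (XT.nd (nat_lit 78) (nat_lit 0)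 (nat_lit 0) (XT.lf (nat_lit 0) (nat_lit 55116386229) (nat_lit 152) (nat_lit 11215329801) (nat_lit 0) (nat_lit 21660076509) (nat_lit 5) (nat_lit 5) (nat_lit 7) (nat_lit 4) (nat_lit 5) (nat_lit 4) (nat_lit 323) (nat_lit 244) (nat_lit 153)) (XT.lf (nat_lit 0) (nat_lit 61826645733) (nat_lit 152) (nat_lit 1921347202) (nat_lit 0) (nat_lit 28351317070) (nat_lit 5) (nat_lit 5) (nat_lit 7) (nat_lit 4) (nat_lit 5) (nat_lit 4) (nat_lit 324) (nat_lit 244) (nat_lit 152)))) (XT.nd (nat_lit 156) (nat_lit 0) (nat_lit 0) (XT.nd (nat_lit 78) (nat_lit 0) (nat_lit 0) (XT.lf (nat_lit 0) (nat_lit 8085557729) (nat_lit 76) (nat_lit 60907044386) (nat_lit 76) (nat_lit 27413602444) (nat_lit 4) (nat_lit 4) (nat_lit 5) (nat_lit 5) (nat_lit 5) (nat_lit 4) (nat_lit 325) (nat_lit 244) (nat_lit 151)) (XT.lf (nat_lit 0) (nat_lit 18649118010) (nat_lit 76) (nat_lit 57894348949) (nat_lit 76) (nat_lit 24383656265) (nat_lit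 4) (nat_lit 4) (nat_lit 5) (nat_lit 5) (nat_lit 5) (nat_lit 4) (nat_lit 326) (nat_lit 244) (nat_lit 150))) (XT.nd (nat_lit 78) (nat_lit 0) (nat_lit 0) (XT.lf (nat_lit 0) (nat_lit 29730956557) (nat_lit 76) (nat_lit 54735272485) (nat_lit 76) (nat_lit 21208150523) (nat_lit 4) (nat_lit 4) (nat_lit 5) (nat_lit 5) (nat_lit 5) (nat_lit 4) (nat_lit 327) (nat_lit 244) (nat_lit 149)) (XT.nd (nat_lit 78) (nat_lit 0) (nat_lit 0) (XT.lf (nat_lit 0) (nat_lit 41357458702) (nat_lit 76) (nat_lit 51422293384) (nat_lit 76) (nat_lit 17879524489) (nat_lit 4) (nat_lit 4) (nat_lit 5) (nat_lit 5) (nat_lit 5) (nat_lit 4) (nat_lit 328) (nat_lit 244) (nat_lit 148)) (XT.lf (nat_lit 0) (nat_lit 53556306591) (nat_lit 76) (nat_lit 47947523598) (nat_lit 76) (nat_lit 14389852864) (nat_lit 4) (nat_lit 4) (nat_lit 5) (nat_lit 5) (nat_lit 5) (nat_lit 4) (nat_lit 329) (nat_lit 244) (nat_lit 147))))))))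
noncomputable def xc126 : XT := (XT.nd (nat_lit 1326) (nat_lit 0) (nat_lit 0) (XT.nd (nat_lit 624) (nat_lit 0) (nat_lit 0) (XT.nd (nat_lit 312) (nat_lit 76) (nat_lit 0) (XT.nd (nat_lit 156) (nat_lit 76) (nat_lit 0) (XT.nd (nat_lit 78) (nat_lit 0) (nat_lit 0) (XT.lf (nat_lit 0) (nat_lit 66356545100) (nat_lit 76) (nat_lit 44302689869) (nat_lit 76) (nat_lit 10730826906) (nat_lit 4) (nat_lit 4) (nat_lit 5) (nat_lit 5) (nat_lit 5) (nat_lit 4) (nat_lit 330) (nat_lit 244) (nat_lit 146)) (XT.lf (nat_lit 0) (nat_lit 79788650989) (nat_lit 76) (nat_lit 40479114018) (nat_lit 76) (nat_lit 6893734648) (nat_lit 4) (nat_lit 4) (nat_lit 5) (nat_lit 5) (nat_lit 5) (nat_lit 4) (nat_lit 331) (nat_lit 244) (nat_lit 145))) (XT.nd (nat_lit 78) (nat_lit 76) (nat_lit 0) (XT.lf (nat_lit 0) (nat_lit 93884605461) (nat_lit 76) (nat_lit 36467692296) (nat_lit 76) (nat_lit 2869440156) (nat_lit 4) (nat_lit 4) (nat_lit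 5) (nat_lit 5) (nat_lit 5) (nat_lit 4) (nat_lit 332) (nat_lit 244) (nat_lit 144)) (XT.lf (nat_lit 0) (nat_lit 1308377358) (nat_lit 152) (nat_lit 30928338335) (nat_lit 76) (nat_lit 107347434951) (nat_lit 3) (nat_lit 5) (nat_lit 5) (nat_lit 5) (nat_lit 4) (nat_lit 4) (nat_lit 333) (nat_lit 244) (nat_lit 143)))) (XT.nd (nat_lit 156) (nat_lit 76) (nat_lit 0) (XT.nd (nat_lit 78) (nat_lit 0) (nat_lit 0) (XT.lf (nat_lit 0) (nat_lit 5594568960) (nat_lit 152) (nat_lit 22153321532) (nat_lit 76) (nat_lit 118514652150) (nat_lit 3) (nat_lit 5) (nat_lit 5) (nat_lit 5) (nat_lit 4) (nat_lit 4) (nat_lit 334) (nat_lit 244) (nat_lit 142)) (XT.lf (nat_lit 0) (nat_lit 10091179872) (nat_lit 152) (nat_lit 12946389145) (nat_lit 76) (nat_lit 130237485824) (nat_lit 3) (nat_lit 5) (nat_lit 5) (nat_lit 5) (nat_lit 4) (nat_lit 4) (nat_lit 335) (nat_lit 244) (nat_lit 141))) (XT.nd (nat_lit 78) (nat_lit 76) (nat_lit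 0) (XT.lf (nat_lit 0) (nat_lit 14808916311) (nat_lit 152) (nat_lit 3285619905) (nat_lit 76) (nat_lit 142543847481) (nat_lit 3) (nat_lit 5) (nat_lit 5) (nat_lit 5) (nat_lit 4) (nat_lit 4) (nat_lit 336) (nat_lit 244) (nat_lit 140)) (XT.lf (nat_lit 0) (nat_lit 7078545686) (nat_lit 76) (nat_lit 12790981231) (nat_lit 152) (nat_lit 148495008234) (nat_lit 2) (nat_lit 5) (nat_lit 3) (nat_lit 5) (nat_lit 4) (nat_lit 4) (nat_lit 337) (nat_lit 244) (nat_lit 139))))) (XT.nd (nat_lit 312) (nat_lit 0) (nat_lit 0) (XT.nd (nat_lit 156) (nat_lit 0) (nat_lit 0) (XT.nd (nat_lit 78) (nat_lit 0) (nat_lit 0) (XT.lf (nat_lit 0) (nat_lit 18068889079) (nat_lit 76) (nat_lit 7166466741) (nat_lit 152) (nat_lit 151239034226) (nat_lit 2) (nat_lit 5) (nat_lit 3) (nat_lit 5) (nat_lit 4) (nat_lit 4) (nat_lit 338) (nat_lit 244) (nat_lit 138)) (XT.lf (nat_lit 0) (nat_lit 29602940327) (nat_lit 76) (nat_lit 1263244608)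 (nat_lit 152) (nat_lit 154123722321) (nat_lit 2) (nat_lit 5) (nat_lit 3) (nat_lit 5) (nat_lit 4) (nat_lit 4) (nat_lit 339) (nat_lit 244) (nat_lit 137))) (XT.nd (nat_lit 78) (nat_lit 0) (nat_lit 0) (XT.lf (nat_lit 0) (nat_lit 36852434898) (nat_lit 152) (nat_lit 152300214270) (nat_lit 0) (nat_lit 4774861958) (nat_lit 2) (nat_lit 5) (nat_lit 4) (nat_lit 4) (nat_lit 2) (nat_lit 4) (nat_lit 340) (nat_lit 244) (nat_lit 136)) (XT.lf (nat_lit 0) (nat_lit 43155685382) (nat_lit 152) (nat_lit 149085220271) (nat_lit 0) (nat_lit 11070209678) (nat_lit 2) (nat_lit 5) (nat_lit 4) (nat_lit 4) (nat_lit 2) (nat_lit 4) (nat_lit 341) (nat_lit 244) (nat_lit 135)))) (XT.nd (nat_lit 156) (nat_lit 0) (nat_lit 0) (XT.nd (nat_lit 78) (nat_lit 0) (nat_lit 0) (XT.lf (nat_lit 0) (nat_lit 49771221337) (nat_lit 152) (nat_lit 145714607397) (nat_lit 0) (nat_lit 17678219190) (nat_lit 2) (nat_lit 5) (nat_lit 4) (nat_lit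 4) (nat_lit 2) (nat_lit 4) (nat_lit 342) (nat_lit 244) (nat_lit 134)) (XT.lf (nat_lit 0) (nat_lit 56714794038) (nat_lit 152) (nat_lit 142180350380) (nat_lit 0) (nat_lit 24614623852) (nat_lit 2) (nat_lit 5) (nat_lit 4) (nat_lit 4) (nat_lit 2) (nat_lit 4) (nat_lit 343) (nat_lit 244) (nat_lit 133))) (XT.nd (nat_lit 78) (nat_lit 0) (nat_lit 0) (XT.lf (nat_lit 0) (nat_lit 64002935803) (nat_lit 152) (nat_lit 138474034321) (nat_lit 0) (nat_lit 31895938912) (nat_lit 2) (nat_lit 5) (nat_lit 4) (nat_lit 4) (nat_lit 2) (nat_lit 4) (nat_lit 344) (nat_lit 244) (nat_lit 132)) (XT.nd (nat_lit 78) (nat_lit 0) (nat_lit 0) (XT.lf (nat_lit 0) (nat_lit 71652999349) (nat_lit 152) (nat_lit 134586834658) (nat_lit 0) (nat_lit 39539500835) (nat_lit 2) (nat_lit 5) (nat_lit 4) (nat_lit 4) (nat_lit 2) (nat_lit 4) (nat_lit 345) (nat_lit 244) (nat_lit 131)) (XT.lf (nat_lit 0) (nat_lit 79683199113) (nat_lit 152)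 (nat_lit 130509496155) (nat_lit 0) (nat_lit 47563508577) (nat_lit 2) (nat_lit 5) (nat_lit 4) (nat_lit 4) (nat_lit 2) (nat_lit 4) (nat_lit 346) (nat_lit 244) (nat_lit 130))))))) (XT.nd (nat_lit 702) (nat_lit 0) (nat_lit 0) (XT.nd (nat_lit 312) (nat_lit 0) (nat_lit 0) (XT.nd (nat_lit 156) (nat_lit 0) (nat_lit 0) (XT.nd (nat_lit 78) (nat_lit 0) (nat_lit 0) (XT.lf (nat_lit 0) (nat_lit 88112654619) (nat_lit 152) (nat_lit 126232310862) (nat_lit 0) (nat_lit 55987066919) (nat_lit 2) (nat_lit 5) (nat_lit 4) (nat_lit 4) (nat_lit 2) (nat_lit 4) (nat_lit 347) (nat_lit 244) (nat_lit 129)) (XT.lf (nat_lit 0) (nat_lit 96961435999) (nat_lit 152) (nat_lit 121745095006) (nat_lit 0) (nat_lit 64830231952) (nat_lit 2) (nat_lit 5) (nat_lit 4) (nat_lit 4) (nat_lit 2) (nat_lit 4) (nat_lit 348) (nat_lit 244) (nat_lit 128))) (XT.nd (nat_lit 78) (nat_lit 0) (nat_lit 0) (XT.lf (nat_lit 0) (nat_lit 106250611779)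 (nat_lit 152) (nat_lit 117037164737) (nat_lit 0) (nat_lit 74114058831) (nat_lit 2) (nat_lit 5) (nat_lit 4) (nat_lit 4) (nat_lit 2) (nat_lit 4) (nat_lit 349) (nat_lit 244) (nat_lit 127)) (XT.lf (nat_lit 0) (nat_lit 116002299046) (nat_lit 152) (nat_lit 112097310700) (nat_lit 0) (nat_lit 83860651906) (nat_lit 2) (nat_lit 5) (nat_lit 4) (nat_lit 4) (nat_lit 2) (nat_lit 4) (nat_lit 350) (nat_lit 244) (nat_lit 126)))) (XT.nd (nat_lit 156) (nat_lit 0) (nat_lit 0) (XT.nd (nat_lit 78) (nat_lit 0) (nat_lit 0) (XT.lf (nat_lit 0) (nat_lit 126239716102) (nat_lit 152) (nat_lit 106913771336) (nat_lit 0) (nat_lit 94093217351) (nat_lit 2) (nat_lit 5) (nat_lit 4) (nat_lit 4) (nat_lit 2) (nat_lit 4) (nat_lit 351) (nat_lit 244) (nat_lit 125)) (XT.lf (nat_lit 0) (nat_lit 136987237750) (nat_lit 152) (nat_lit 101474204886) (nat_lit 0) (nat_lit 104836118416) (nat_lit 2) (nat_lit 5) (nat_lit 4) (nat_lit 4)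 (nat_lit 2) (nat_lit 4) (nat_lit 352) (nat_lit 244) (nat_lit 124))) (XT.nd (nat_lit 78) (nat_lit 0) (nat_lit 0) (XT.lf (nat_lit 0) (nat_lit 148270453326) (nat_lit 152) (nat_lit 95765660000) (nat_lit 0) (nat_lit 116114933438) (nat_lit 2) (nat_lit 5) (nat_lit 4) (nat_lit 4) (nat_lit 2) (nat_lit 4) (nat_lit 353) (nat_lit 244) (nat_lit 123)) (XT.nd (nat_lit 78) (nat_lit 0) (nat_lit 0) (XT.lf (nat_lit 0) (nat_lit 160116227631) (nat_lit 152) (nat_lit 89774544905) (nat_lit 0) (nat_lit 127956516738) (nat_lit 2) (nat_lit 5) (nat_lit 4) (nat_lit 4) (nat_lit 2) (nat_lit 4) (nat_lit 354) (nat_lit 244) (nat_lit 122)) (XT.lf (nat_lit 0) (nat_lit 172552764888) (nat_lit 152) (nat_lit 83486595042) (nat_lit 0) (nat_lit 140389062562) (nat_lit 2) (nat_lit 5) (nat_lit 4) (nat_lit 4) (nat_lit 2) (nat_lit 4) (nat_lit 355) (nat_lit 244) (nat_lit 121)))))) (XT.nd (nat_lit 28860) (nat_lit 0) (nat_lit 6840)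 (XT.nd (nat_lit 156) (nat_lit 0) (nat_lit 0) (XT.nd (nat_lit 78) (nat_lit 0) (nat_lit 0) (XT.lf (nat_lit 0) (nat_lit 185609675900) (nat_lit 152) (nat_lit 76886839100) (nat_lit 0) (nat_lit 153442172210) (nat_lit 2) (nat_lit 5) (nat_lit 4) (nat_lit 4) (nat_lit 2) (nat_lit 4) (nat_lit 356) (nat_lit 244) (nat_lit 120)) (XT.lf (nat_lit 0) (nat_lit 199318048551) (nat_lit 152) (nat_lit 69959563376) (nat_lit 0) (nat_lit 167146924514) (nat_lit 2) (nat_lit 5) (nat_lit 4) (nat_lit 4) (nat_lit 2) (nat_lit 4) (nat_lit 357) (nat_lit 244) (nat_lit 119))) (XT.nd (nat_lit 78) (nat_lit 0) (nat_lit 0) (XT.lf (nat_lit 0) (nat_lit 213710521824) (nat_lit 152) (nat_lit 62688274356) (nat_lit 0) (nat_lit 181535949837) (nat_lit 2) (nat_lit 5) (nat_lit 4) (nat_lit 4) (nat_lit 2) (nat_lit 4) (nat_lit 358) (nat_lit 244) (nat_lit 118)) (XT.lf (nat_lit 0) (nat_lit 228821363511) (nat_lit 152) (nat_lit 55055659446)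 (nat_lit 0) (nat_lit 196643507762) (nat_lit 2) (nat_lit 5) (nat_lit 4) (nat_lit 4) (nat_lit 2) (nat_lit 4) (nat_lit 359) (nat_lit 244) (nat_lit 117)))) (XT.nd (nat_lit 156) (nat_lit 380) (nat_lit 0) (XT.nd (nat_lit 78) (nat_lit 0) (nat_lit 0) (XT.lf (nat_lit 0) (nat_lit 1791852722) (nat_lit 380) (nat_lit 790743067) (nat_lit 380) (nat_lit 790743067) (nat_lit 97) (nat_lit 3) (nat_lit 102) (nat_lit 3) (nat_lit 102) (nat_lit 5) (nat_lit 245) (nat_lit 245) (nat_lit 230)) (XT.lf (nat_lit 76) (nat_lit 1320908614) (nat_lit 0) (nat_lit 4189683866) (nat_lit 380) (nat_lit 1300978272) (nat_lit 98) (nat_lit 5) (nat_lit 97) (nat_lit 3) (nat_lit 102) (nat_lit 5) (nat_lit 246) (nat_lit 245) (nat_lit 229))) (XT.nd (nat_lit 78) (nat_lit 0) (nat_lit 0) (XT.lf (nat_lit 0) (nat_lit 540460865) (nat_lit 380) (nat_lit 2533848524) (nat_lit 456) (nat_lit 3810250398) (nat_lit 92) (nat_lit 5) (nat_lit 97) (nat_lit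 3) (nat_lit 98) (nat_lit 5) (nat_lit 247) (nat_lit 245) (nat_lit 228)) (XT.nd (nat_lit 78) (nat_lit 0) (nat_lit 0) (XT.lf (nat_lit 76) (nat_lit 500589460) (nat_lit 0) (nat_lit 1823247102) (nat_lit 456) (nat_lit 4642307500) (nat_lit 93) (nat_lit 5) (nat_lit 92) (nat_lit 5) (nat_lit 98) (nat_lit 5) (nat_lit 248) (nat_lit 245) (nat_lit 227)) (XT.lf (nat_lit 76) (nat_lit 3710855005) (nat_lit 0) (nat_lit 418650799) (nat_lit 456) (nat_lit 2926304041) (nat_lit 93) (nat_lit 5) (nat_lit 92) (nat_lit 5) (nat_lit 98) (nat_lit 5) (nat_lit 249) (nat_lit 245) (nat_lit 226))))))))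
noncomputable def xc127 : XT := (XT.nd (nat_lit 1326) (nat_lit 1900) (nat_lit 0) (XT.nd (nat_lit 624) (nat_lit 2052) (nat_lit 0) (XT.nd (nat_lit 312) (nat_lit 988) (nat_lit 0) (XT.nd (nat_lit 156) (nat_lit 0) (nat_lit 0) (XT.nd (nat_lit 78) (nat_lit 456) (nat_lit 0) (XT.lf (nat_lit 0) (nat_lit 5938071986) (nat_lit 380) (nat_lit 152175638) (nat_lit 456) (nat_lit 1064707796) (nat_lit 93) (nat_lit 5) (nat_lit 98) (nat_lit 5) (nat_lit 99) (nat_lit 5) (nat_lit 250) (nat_lit 245) (nat_lit 225)) (XT.lf (nat_lit 0) (nat_lit 516652880) (nat_lit 456) (nat_lit 4037375753) (nat_lit 532) (nat_lit 2707290064) (nat_lit 87) (nat_lit 5) (nat_lit 93) (nat_lit 5) (nat_lit 94) (nat_lit 5) (nat_lit 251) (nat_lit 245) (nat_lit 224))) (XT.nd (nat_lit 78) (nat_lit 0) (nat_lit 0) (XT.lf (nat_lit 0) (nat_lit 2201274386) (nat_lit 456) (nat_lit 685589575) (nat_lit 532) (nat_lit 4490415329) (nat_lit 87) (nat_lit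 5) (nat_lit 93) (nat_lit 5) (nat_lit 94) (nat_lit 5) (nat_lit 252) (nat_lit 245) (nat_lit 223)) (XT.lf (nat_lit 76) (nat_lit 2861684556) (nat_lit 0) (nat_lit 1060439633) (nat_lit 532) (nat_lit 3579829842) (nat_lit 88) (nat_lit 5) (nat_lit 87) (nat_lit 5) (nat_lit 94) (nat_lit 5) (nat_lit 253) (nat_lit 245) (nat_lit 222)))) (XT.nd (nat_lit 156) (nat_lit 608) (nat_lit 0) (XT.nd (nat_lit 78) (nat_lit 456) (nat_lit 0) (XT.lf (nat_lit 0) (nat_lit 5665370893) (nat_lit 456) (nat_lit 1103767310) (nat_lit 76) (nat_lit 867397992) (nat_lit 88) (nat_lit 5) (nat_lit 94) (nat_lit 5) (nat_lit 89) (nat_lit 5) (nat_lit 254) (nat_lit 245) (nat_lit 221)) (XT.lf (nat_lit 0) (nat_lit 2610947505) (nat_lit 456) (nat_lit 4858379303) (nat_lit 532) (nat_lit 310311327) (nat_lit 82) (nat_lit 5) (nat_lit 88) (nat_lit 5) (nat_lit 89) (nat_lit 5) (nat_lit 255) (nat_lit 245) (nat_lit 220))) (XT.nd (nat_lit 78) (nat_lit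 532) (nat_lit 0) (XT.lf (nat_lit 0) (nat_lit 1323364041) (nat_lit 532) (nat_lit 1468860625) (nat_lit 76) (nat_lit 5140192769) (nat_lit 81) (nat_lit 5) (nat_lit 88) (nat_lit 5) (nat_lit 82) (nat_lit 5) (nat_lit 256) (nat_lit 245) (nat_lit 219)) (XT.lf (nat_lit 0) (nat_lit 2424737957) (nat_lit 532) (nat_lit 562045209) (nat_lit 608) (nat_lit 5108278039) (nat_lit 74) (nat_lit 5) (nat_lit 81) (nat_lit 5) (nat_lit 82) (nat_lit 5) (nat_lit 257) (nat_lit 245) (nat_lit 218))))) (XT.nd (nat_lit 312) (nat_lit 684) (nat_lit 0) (XT.nd (nat_lit 156) (nat_lit 760) (nat_lit 0) (XT.nd (nat_lit 78) (nat_lit 608) (nat_lit 0) (XT.lf (nat_lit 0) (nat_lit 4710090258) (nat_lit 608) (nat_lit 1795918637) (nat_lit 76) (nat_lit 1761377451) (nat_lit 74) (nat_lit 5) (nat_lit 82) (nat_lit 5) (nat_lit 75) (nat_lit 5) (nat_lit 258) (nat_lit 245) (nat_lit 217)) (XT.lf (nat_lit 0) (nat_lit 2271755829) (nat_lit 608)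 (nat_lit 4219773134) (nat_lit 684) (nat_lit 1958567164) (nat_lit 66) (nat_lit 5) (nat_lit 74) (nat_lit 5) (nat_lit 75) (nat_lit 5) (nat_lit 259) (nat_lit 245) (nat_lit 216))) (XT.nd (nat_lit 78) (nat_lit 760) (nat_lit 0) (XT.lf (nat_lit 0) (nat_lit 6542248766) (nat_lit 608) (nat_lit 1779969900) (nat_lit 684) (nat_lit 322063013) (nat_lit 66) (nat_lit 5) (nat_lit 74) (nat_lit 5) (nat_lit 75) (nat_lit 5) (nat_lit 260) (nat_lit 245) (nat_lit 215)) (XT.lf (nat_lit 0) (nat_lit 1330246558) (nat_lit 760) (nat_lit 6699312839) (nat_lit 76) (nat_lit 818910425) (nat_lit 56) (nat_lit 5) (nat_lit 66) (nat_lit 5) (nat_lit 57) (nat_lit 5) (nat_lit 261) (nat_lit 245) (nat_lit 214)))) (XT.nd (nat_lit 156) (nat_lit 380) (nat_lit 0) (XT.nd (nat_lit 78) (nat_lit 304) (nat_lit 0) (XT.lf (nat_lit 0) (nat_lit 3053764464) (nat_lit 760) (nat_lit 2475406530) (nat_lit 76) (nat_lit 3533763260) (nat_lit 56) (nat_lit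 5) (nat_lit 66) (nat_lit 5) (nat_lit 57) (nat_lit 5) (nat_lit 262) (nat_lit 245) (nat_lit 213)) (XT.lf (nat_lit 0) (nat_lit 1960382260) (nat_lit 304) (nat_lit 2870877269) (nat_lit 380) (nat_lit 4458759631) (nat_lit 52) (nat_lit 5) (nat_lit 56) (nat_lit 5) (nat_lit 57) (nat_lit 5) (nat_lit 263) (nat_lit 245) (nat_lit 212))) (XT.nd (nat_lit 78) (nat_lit 380) (nat_lit 0) (XT.lf (nat_lit 0) (nat_lit 6642844632) (nat_lit 304) (nat_lit 35938620) (nat_lit 380) (nat_lit 2850891000) (nat_lit 52) (nat_lit 5) (nat_lit 56) (nat_lit 5) (nat_lit 57) (nat_lit 5) (nat_lit 264) (nat_lit 245) (nat_lit 211)) (XT.nd (nat_lit 78) (nat_lit 76) (nat_lit 0) (XT.lf (nat_lit 0) (nat_lit 1726153423) (nat_lit 304) (nat_lit 6907514271) (nat_lit 380) (nat_lit 1147155781) (nat_lit 48) (nat_lit 5) (nat_lit 52) (nat_lit 5) (nat_lit 53) (nat_lit 5) (nat_lit 265) (nat_lit 245) (nat_lit 210)) (XT.lf (nat_lit 0) (nat_lit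 614282484) (nat_lit 380) (nat_lit 3445924985) (nat_lit 76) (nat_lit 5984405238) (nat_lit 47) (nat_lit 5) (nat_lit 52) (nat_lit 5) (nat_lit 48) (nat_lit 5) (nat_lit 266) (nat_lit 245) (nat_lit 209))))))) (XT.nd (nat_lit 702) (nat_lit 836) (nat_lit 0) (XT.nd (nat_lit 312) (nat_lit 532) (nat_lit 0) (XT.nd (nat_lit 156) (nat_lit 304) (nat_lit 0) (XT.nd (nat_lit 78) (nat_lit 0) (nat_lit 0) (XT.lf (nat_lit 0) (nat_lit 1358465410) (nat_lit 228) (nat_lit 1033486012) (nat_lit 304) (nat_lit 7930589273) (nat_lit 44) (nat_lit 5) (nat_lit 47) (nat_lit 5) (nat_lit 48) (nat_lit 5) (nat_lit 267) (nat_lit 245) (nat_lit 208)) (XT.lf (nat_lit 0) (nat_lit 4298395847) (nat_lit 304) (nat_lit 4184449341) (nat_lit 76) (nat_lit 2129739691) (nat_lit 44) (nat_lit 5) (nat_lit 48) (nat_lit 5) (nat_lit 45) (nat_lit 5) (nat_lit 268) (nat_lit 245) (nat_lit 207))) (XT.nd (nat_lit 78) (nat_lit 0) (nat_lit 0) (XT.lf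 (nat_lit 0) (nat_lit 783951840) (nat_lit 304) (nat_lit 5495006223) (nat_lit 380) (nat_lit 4639437622) (nat_lit 40) (nat_lit 5) (nat_lit 44) (nat_lit 5) (nat_lit 45) (nat_lit 5) (nat_lit 269) (nat_lit 245) (nat_lit 206)) (XT.lf (nat_lit 0) (nat_lit 6088633901) (nat_lit 304) (nat_lit 2291896621) (nat_lit 380) (nat_lit 2858061869) (nat_lit 40) (nat_lit 5) (nat_lit 44) (nat_lit 5) (nat_lit 45) (nat_lit 5) (nat_lit 270) (nat_lit 245) (nat_lit 205)))) (XT.nd (nat_lit 156) (nat_lit 228) (nat_lit 0) (XT.nd (nat_lit 78) (nat_lit 76) (nat_lit 0) (XT.lf (nat_lit 0) (nat_lit 10287351) (nat_lit 228) (nat_lit 10547099338) (nat_lit 304) (nat_lit 1019087196) (nat_lit 37) (nat_lit 5) (nat_lit 40) (nat_lit 5) (nat_lit 41) (nat_lit 5) (nat_lit 271) (nat_lit 245) (nat_lit 204)) (XT.lf (nat_lit 0) (nat_lit 962620498) (nat_lit 304) (nat_lit 6430629154) (nat_lit 76) (nat_lit 4533457537) (nat_lit 36) (nat_lit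 5) (nat_lit 40) (nat_lit 5) (nat_lit 37) (nat_lit 5) (nat_lit 272) (nat_lit 245) (nat_lit 203))) (XT.nd (nat_lit 78) (nat_lit 228) (nat_lit 0) (XT.lf (nat_lit 0) (nat_lit 2965117794) (nat_lit 304) (nat_lit 1110088617) (nat_lit 76) (nat_lit 8220772807) (nat_lit 36) (nat_lit 5) (nat_lit 40) (nat_lit 5) (nat_lit 37) (nat_lit 5) (nat_lit 273) (nat_lit 245) (nat_lit 202)) (XT.nd (nat_lit 78) (nat_lit 0) (nat_lit 0) (XT.lf (nat_lit 0) (nat_lit 4570291712) (nat_lit 228) (nat_lit 526853044) (nat_lit 304) (nat_lit 7585252222) (nat_lit 33) (nat_lit 5) (nat_lit 36) (nat_lit 5) (nat_lit 37) (nat_lit 5) (nat_lit 274) (nat_lit 245) (nat_lit 201)) (XT.lf (nat_lit 0) (nat_lit 7363897121) (nat_lit 304) (nat_lit 2617849454) (nat_lit 76) (nat_lit 3105127963) (nat_lit 33) (nat_lit 5) (nat_lit 37) (nat_lit 5) (nat_lit 34) (nat_lit 5) (nat_lit 275) (nat_lit 245) (nat_lit 200)))))) (XT.nd (nat_lit 312) (nat_lit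 304) (nat_lit 0) (XT.nd (nat_lit 156) (nat_lit 304) (nat_lit 0) (XT.nd (nat_lit 78) (nat_lit 0) (nat_lit 0) (XT.lf (nat_lit 0) (nat_lit 3193619526) (nat_lit 228) (nat_lit 6569886718) (nat_lit 304) (nat_lit 3747231981) (nat_lit 30) (nat_lit 5) (nat_lit 33) (nat_lit 5) (nat_lit 34) (nat_lit 5) (nat_lit 276) (nat_lit 245) (nat_lit 199)) (XT.lf (nat_lit 0) (nat_lit 9336293166) (nat_lit 228) (nat_lit 2953229590) (nat_lit 304) (nat_lit 1666082613) (nat_lit 30) (nat_lit 5) (nat_lit 33) (nat_lit 5) (nat_lit 34) (nat_lit 5) (nat_lit 277) (nat_lit 245) (nat_lit 198))) (XT.nd (nat_lit 78) (nat_lit 0) (nat_lit 0) (XT.lf (nat_lit 0) (nat_lit 500225313) (nat_lit 304) (nat_lit 13087417291) (nat_lit 76) (nat_lit 834901591) (nat_lit 26) (nat_lit 5) (nat_lit 30) (nat_lit 5) (nat_lit 27) (nat_lit 5) (nat_lit 278) (nat_lit 245) (nat_lit 197)) (XT.lf (nat_lit 0) (nat_lit 2810768898) (nat_lit 304) (nat_lit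 7288380080) (nat_lit 76) (nat_lit 4807833465) (nat_lit 26) (nat_lit 5) (nat_lit 30) (nat_lit 5) (nat_lit 27) (nat_lit 5) (nat_lit 279) (nat_lit 245) (nat_lit 196)))) (XT.nd (nat_lit 156) (nat_lit 152) (nat_lit 0) (XT.nd (nat_lit 78) (nat_lit 152) (nat_lit 0) (XT.lf (nat_lit 0) (nat_lit 5202539862) (nat_lit 304) (nat_lit 1247117483) (nat_lit 76) (nat_lit 8967808533) (nat_lit 26) (nat_lit 5) (nat_lit 30) (nat_lit 5) (nat_lit 27) (nat_lit 5) (nat_lit 280) (nat_lit 245) (nat_lit 195)) (XT.lf (nat_lit 0) (nat_lit 5217755208) (nat_lit 152) (nat_lit 2544941471) (nat_lit 228) (nat_lit 8188440073) (nat_lit 24) (nat_lit 5) (nat_lit 26) (nat_lit 5) (nat_lit 27) (nat_lit 5) (nat_lit 281) (nat_lit 245) (nat_lit 194))) (XT.nd (nat_lit 78) (nat_lit 152) (nat_lit 0) (XT.lf (nat_lit 0) (nat_lit 10464595452) (nat_lit 228) (nat_lit 4532098561) (nat_lit 76) (nat_lit 1514208668) (nat_lit 24) (nat_lit 5)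 (nat_lit 27) (nat_lit 5) (nat_lit 25) (nat_lit 5) (nat_lit 282) (nat_lit 245) (nat_lit 193)) (XT.nd (nat_lit 78) (nat_lit 0) (nat_lit 0) (XT.lf (nat_lit 0) (nat_lit 1956129186) (nat_lit 152) (nat_lit 11387234580) (nat_lit 228) (nat_lit 3753297955) (nat_lit 22) (nat_lit 5) (nat_lit 24) (nat_lit 5) (nat_lit 25) (nat_lit 5) (nat_lit 283) (nat_lit 245) (nat_lit 192)) (XT.lf (nat_lit 0) (nat_lit 8882814963) (nat_lit 152) (nat_lit 7530298142) (nat_lit 228) (nat_lit 1296332563) (nat_lit 22) (nat_lit 5) (nat_lit 24) (nat_lit 5) (nat_lit 25) (nat_lit 5) (nat_lit 284) (nat_lit 245) (nat_lit 191))))))))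
noncomputable def xc128 : XT := (XT.nd (nat_lit 1326) (nat_lit 532) (nat_lit 0) (XT.nd (nat_lit 624) (nat_lit 304) (nat_lit 0) (XT.nd (nat_lit 312) (nat_lit 228) (nat_lit 0) (XT.nd (nat_lit 156) (nat_lit 0) (nat_lit 0) (XT.nd (nat_lit 78) (nat_lit 152) (nat_lit 0) (XT.lf (nat_lit 0) (nat_lit 1213559812) (nat_lit 228) (nat_lit 2259342765) (nat_lit 76) (nat_lit 14880487197) (nat_lit 21) (nat_lit 5) (nat_lit 24) (nat_lit 5) (nat_lit 22) (nat_lit 5) (nat_lit 285) (nat_lit 245) (nat_lit 190)) (XT.lf (nat_lit 0) (nat_lit 3865351468) (nat_lit 228) (nat_lit 14313816402) (nat_lit 76) (nat_lit 846379111) (nat_lit 19) (nat_lit 5) (nat_lit 22) (nat_lit 5) (nat_lit 20) (nat_lit 5) (nat_lit 286) (nat_lit 245) (nat_lit 189))) (XT.nd (nat_lit 78) (nat_lit 0) (nat_lit 0) (XT.lf (nat_lit 0) (nat_lit 6718576737) (nat_lit 228) (nat_lit 7717982111) (nat_lit 76) (nat_lit 5291384288) (nat_lit 19) (nat_lit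 5) (nat_lit 22) (nat_lit 5) (nat_lit 20) (nat_lit 5) (nat_lit 287) (nat_lit 245) (nat_lit 188)) (XT.lf (nat_lit 0) (nat_lit 9688768867) (nat_lit 228) (nat_lit 831232294) (nat_lit 76) (nat_lit 9946812463) (nat_lit 19) (nat_lit 5) (nat_lit 22) (nat_lit 5) (nat_lit 20) (nat_lit 5) (nat_lit 288) (nat_lit 245) (nat_lit 187)))) (XT.nd (nat_lit 156) (nat_lit 76) (nat_lit 0) (XT.nd (nat_lit 78) (nat_lit 0) (nat_lit 0) (XT.lf (nat_lit 0) (nat_lit 6573213972) (nat_lit 152) (nat_lit 6312412062) (nat_lit 228) (nat_lit 8353160308) (nat_lit 17) (nat_lit 5) (nat_lit 19) (nat_lit 5) (nat_lit 20) (nat_lit 5) (nat_lit 289) (nat_lit 245) (nat_lit 186)) (XT.lf (nat_lit 0) (nat_lit 14340313297) (nat_lit 152) (nat_lit 1892215763) (nat_lit 228) (nat_lit 5817381799) (nat_lit 17) (nat_lit 5) (nat_lit 19) (nat_lit 5) (nat_lit 20) (nat_lit 5) (nat_lit 290) (nat_lit 245) (nat_lit 185))) (XT.nd (nat_lit 78) (nat_lit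 76) (nat_lit 0) (XT.lf (nat_lit 0) (nat_lit 19766772571) (nat_lit 228) (nat_lit 484447076) (nat_lit 76) (nat_lit 2649432487) (nat_lit 17) (nat_lit 5) (nat_lit 20) (nat_lit 5) (nat_lit 18) (nat_lit 4) (nat_lit 291) (nat_lit 245) (nat_lit 184)) (XT.lf (nat_lit 0) (nat_lit 7269610495) (nat_lit 76) (nat_lit 16330804201) (nat_lit 152) (nat_lit 187438881) (nat_lit 16) (nat_lit 5) (nat_lit 17) (nat_lit 5) (nat_lit 18) (nat_lit 4) (nat_lit 292) (nat_lit 245) (nat_lit 183))))) (XT.nd (nat_lit 312) (nat_lit 76) (nat_lit 0) (XT.nd (nat_lit 156) (nat_lit 152) (nat_lit 0) (XT.nd (nat_lit 78) (nat_lit 0) (nat_lit 0) (XT.lf (nat_lit 0) (nat_lit 2799924623) (nat_lit 152) (nat_lit 9370550549) (nat_lit 76) (nat_lit 12547392150) (nat_lit 15) (nat_lit 5) (nat_lit 17) (nat_lit 5) (nat_lit 16) (nat_lit 5) (nat_lit 293) (nat_lit 245) (nat_lit 182)) (XT.lf (nat_lit 0) (nat_lit 5909673756) (nat_lit 152) (nat_lit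 1901141557) (nat_lit 76) (nat_lit 17884496577) (nat_lit 15) (nat_lit 5) (nat_lit 17) (nat_lit 5) (nat_lit 16) (nat_lit 5) (nat_lit 294) (nat_lit 245) (nat_lit 181))) (XT.nd (nat_lit 78) (nat_lit 0) (nat_lit 0) (XT.lf (nat_lit 0) (nat_lit 6106128903) (nat_lit 152) (nat_lit 3144416778) (nat_lit 228) (nat_lit 17467348486) (nat_lit 13) (nat_lit 5) (nat_lit 15) (nat_lit 5) (nat_lit 16) (nat_lit 5) (nat_lit 295) (nat_lit 245) (nat_lit 180)) (XT.lf (nat_lit 0) (nat_lit 12799177161) (nat_lit 228) (nat_lit 13269535378) (nat_lit 76) (nat_lit 1720902217) (nat_lit 13) (nat_lit 5) (nat_lit 16) (nat_lit 5) (nat_lit 14) (nat_lit 4) (nat_lit 296) (nat_lit 245) (nat_lit 179)))) (XT.nd (nat_lit 156) (nat_lit 0) (nat_lit 0) (XT.nd (nat_lit 78) (nat_lit 76) (nat_lit 0) (XT.lf (nat_lit 0) (nat_lit 16558298706) (nat_lit 228) (nat_lit 5641620758) (nat_lit 76) (nat_lit 6713391835) (nat_lit 13) (nat_lit 5)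 (nat_lit 16) (nat_lit 5) (nat_lit 14) (nat_lit 4) (nat_lit 297) (nat_lit 245) (nat_lit 178)) (XT.lf (nat_lit 0) (nat_lit 2416579074) (nat_lit 76) (nat_lit 18108917948) (nat_lit 152) (nat_lit 9566730428) (nat_lit 12) (nat_lit 5) (nat_lit 13) (nat_lit 5) (nat_lit 14) (nat_lit 4) (nat_lit 298) (nat_lit 245) (nat_lit 177))) (XT.nd (nat_lit 78) (nat_lit 0) (nat_lit 0) (XT.lf (nat_lit 0) (nat_lit 11045556063) (nat_lit 76) (nat_lit 13723835292) (nat_lit 152) (nat_lit 6556820115) (nat_lit 12) (nat_lit 5) (nat_lit 13) (nat_lit 5) (nat_lit 14) (nat_lit 4) (nat_lit 299) (nat_lit 245) (nat_lit 176)) (XT.nd (nat_lit 78) (nat_lit 0) (nat_lit 0) (XT.lf (nat_lit 0) (nat_lit 20079317932) (nat_lit 76) (nat_lit 9129774402) (nat_lit 152) (nat_lit 3413658780) (nat_lit 12) (nat_lit 5) (nat_lit 13) (nat_lit 5) (nat_lit 14) (nat_lit 4) (nat_lit 300) (nat_lit 245) (nat_lit 175)) (XT.lf (nat_lit 0) (nat_lit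 29539373636) (nat_lit 76) (nat_lit 4315797038) (nat_lit 152) (nat_lit 129762705) (nat_lit 12) (nat_lit 5) (nat_lit 13) (nat_lit 5) (nat_lit 14) (nat_lit 4) (nat_lit 301) (nat_lit 245) (nat_lit 174))))))) (XT.nd (nat_lit 624) (nat_lit 228) (nat_lit 0) (XT.nd (nat_lit 312) (nat_lit 76) (nat_lit 0) (XT.nd (nat_lit 156) (nat_lit 0) (nat_lit 0) (XT.nd (nat_lit 78) (nat_lit 0) (nat_lit 0) (XT.lf (nat_lit 0) (nat_lit 3274473144) (nat_lit 228) (nat_lit 31311200757) (nat_lit 76) (nat_lit 823874803) (nat_lit 9) (nat_lit 5) (nat_lit 12) (nat_lit 5) (nat_lit 10) (nat_lit 4) (nat_lit 302) (nat_lit 245) (nat_lit 173)) (XT.lf (nat_lit 0) (nat_lit 6976884634) (nat_lit 228) (nat_lit 23776892571) (nat_lit 76) (nat_lit 6144925446) (nat_lit 9) (nat_lit 5) (nat_lit 12) (nat_lit 5) (nat_lit 10) (nat_lit 4) (nat_lit 303) (nat_lit 245) (nat_lit 172))) (XT.nd (nat_lit 78) (nat_lit 0) (nat_lit 0) (XT.lf (nat_lit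 0) (nat_lit 10850180530) (nat_lit 228) (nat_lit 15889622049) (nat_lit 76) (nat_lit 11723252529) (nat_lit 9) (nat_lit 5) (nat_lit 12) (nat_lit 5) (nat_lit 10) (nat_lit 4) (nat_lit 304) (nat_lit 245) (nat_lit 171)) (XT.lf (nat_lit 0) (nat_lit 14903582965) (nat_lit 228) (nat_lit 7630609975) (nat_lit 76) (nat_lit 17572137784) (nat_lit 9) (nat_lit 5) (nat_lit 12) (nat_lit 5) (nat_lit 10) (nat_lit 4) (nat_lit 305) (nat_lit 245) (nat_lit 170)))) (XT.nd (nat_lit 156) (nat_lit 0) (nat_lit 0) (XT.nd (nat_lit 78) (nat_lit 0) (nat_lit 0) (XT.lf (nat_lit 0) (nat_lit 1053527421) (nat_lit 76) (nat_lit 18109663992) (nat_lit 152) (nat_lit 22668428221) (nat_lit 8) (nat_lit 5) (nat_lit 9) (nat_lit 5) (nat_lit 10) (nat_lit 4) (nat_lit 306) (nat_lit 245) (nat_lit 169)) (XT.lf (nat_lit 0) (nat_lit 10415591995) (nat_lit 76) (nat_lit 13336787676) (nat_lit 152) (nat_lit 19884988404) (nat_lit 8) (nat_lit 5)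 (nat_lit 9) (nat_lit 5) (nat_lit 10) (nat_lit 4) (nat_lit 307) (nat_lit 245) (nat_lit 168))) (XT.nd (nat_lit 78) (nat_lit 0) (nat_lit 0) (XT.lf (nat_lit 0) (nat_lit 20225571948) (nat_lit 76) (nat_lit 8333428074) (nat_lit 152) (nat_lit 16975029145) (nat_lit 8) (nat_lit 5) (nat_lit 9) (nat_lit 5) (nat_lit 10) (nat_lit 4) (nat_lit 308) (nat_lit 245) (nat_lit 167)) (XT.lf (nat_lit 0) (nat_lit 30506824376) (nat_lit 76) (nat_lit 3087672425) (nat_lit 152) (nat_lit 13931621967) (nat_lit 8) (nat_lit 5) (nat_lit 9) (nat_lit 5) (nat_lit 10) (nat_lit 4) (nat_lit 309) (nat_lit 245) (nat_lit 166))))) (XT.nd (nat_lit 312) (nat_lit 76) (nat_lit 0) (XT.nd (nat_lit 156) (nat_lit 76) (nat_lit 0) (XT.nd (nat_lit 78) (nat_lit 76) (nat_lit 0) (XT.lf (nat_lit 0) (nat_lit 38908532497) (nat_lit 152) (nat_lit 8372224709) (nat_lit 0) (nat_lit 2335739083) (nat_lit 8) (nat_lit 5) (nat_lit 10) (nat_lit 4) (nat_lit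 8) (nat_lit 4) (nat_lit 310) (nat_lit 245) (nat_lit 165)) (XT.lf (nat_lit 0) (nat_lit 659830515) (nat_lit 76) (nat_lit 43878859134) (nat_lit 76) (nat_lit 7270202666) (nat_lit 7) (nat_lit 4) (nat_lit 8) (nat_lit 5) (nat_lit 8) (nat_lit 4) (nat_lit 311) (nat_lit 245) (nat_lit 164))) (XT.nd (nat_lit 78) (nat_lit 76) (nat_lit 0) (XT.lf (nat_lit 0) (nat_lit 10416572392) (nat_lit 76) (nat_lit 40165295733) (nat_lit 76) (nat_lit 3522483976) (nat_lit 7) (nat_lit 4) (nat_lit 8) (nat_lit 5) (nat_lit 8) (nat_lit 4) (nat_lit 312) (nat_lit 245) (nat_lit 163)) (XT.lf (nat_lit 0) (nat_lit 389450740) (nat_lit 152) (nat_lit 35876966587) (nat_lit 76) (nat_lit 20248361421) (nat_lit 6) (nat_lit 5) (nat_lit 8) (nat_lit 5) (nat_lit 7) (nat_lit 4) (nat_lit 313) (nat_lit 245) (nat_lit 162)))) (XT.nd (nat_lit 156) (nat_lit 76) (nat_lit 0) (XT.nd (nat_lit 78) (nat_lit 0) (nat_lit 0) (XT.lf (nat_lit 0) (nat_lit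 4369114613) (nat_lit 152) (nat_lit 27749635501) (nat_lit 76) (nat_lit 26924580739) (nat_lit 6) (nat_lit 5) (nat_lit 8) (nat_lit 5) (nat_lit 7) (nat_lit 4) (nat_lit 314) (nat_lit 245) (nat_lit 161)) (XT.lf (nat_lit 0) (nat_lit 8538724518) (nat_lit 152) (nat_lit 19231439819) (nat_lit 76) (nat_lit 33928614236) (nat_lit 6) (nat_lit 5) (nat_lit 8) (nat_lit 5) (nat_lit 7) (nat_lit 4) (nat_lit 315) (nat_lit 245) (nat_lit 160))) (XT.nd (nat_lit 78) (nat_lit 76) (nat_lit 0) (XT.lf (nat_lit 0) (nat_lit 12908208099) (nat_lit 152) (nat_lit 10302098121) (nat_lit 76) (nat_lit 41277138182) (nat_lit 6) (nat_lit 5) (nat_lit 8) (nat_lit 5) (nat_lit 7) (nat_lit 4) (nat_lit 316) (nat_lit 245) (nat_lit 159)) (XT.nd (nat_lit 78) (nat_lit 76) (nat_lit 0) (XT.lf (nat_lit 0) (nat_lit 17487968886) (nat_lit 152) (nat_lit 940350070) (nat_lit 76) (nat_lit 48987649064) (nat_lit 6) (nat_lit 5) (nat_lit 8) (nat_lit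 5) (nat_lit 7) (nat_lit 4) (nat_lit 317) (nat_lit 245) (nat_lit 158)) (XT.lf (nat_lit 0) (nat_lit 9169577970) (nat_lit 76) (nat_lit 13262495913) (nat_lit 152) (nat_lit 48052090079) (nat_lit 5) (nat_lit 5) (nat_lit 6) (nat_lit 5) (nat_lit 7) (nat_lit 4) (nat_lit 318) (nat_lit 245) (nat_lit 157))))))))
noncomputable def xc129 : XT := (XT.nd (nat_lit 1326) (nat_lit 76) (nat_lit 0) (XT.nd (nat_lit 624) (nat_lit 76) (nat_lit 0) (XT.nd (nat_lit 312) (nat_lit 76) (nat_lit 0) (XT.nd (nat_lit 156) (nat_lit 0) (nat_lit 0) (XT.nd (nat_lit 78) (nat_lit 0) (nat_lit 0) (XT.lf (nat_lit 0) (nat_lit 19804474056) (nat_lit 76) (nat_lit 7827194759) (nat_lit 152) (nat_lit 46073699938) (nat_lit 5) (nat_lit 5) (nat_lit 6) (nat_lit 5) (nat_lit 7) (nat_lit 4) (nat_lit 319) (nat_lit 245) (nat_lit 156)) (XT.lf (nat_lit 0) (nat_lit 30958567150) (nat_lit 76) (nat_lit 2125399586) (nat_lit 152) (nat_lit 44004043540)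 (nat_lit 5) (nat_lit 5) (nat_lit 6) (nat_lit 5) (nat_lit 7) (nat_lit 4) (nat_lit 320) (nat_lit 245) (nat_lit 155))) (XT.nd (nat_lit 78) (nat_lit 0) (nat_lit 0) (XT.lf (nat_lit 0) (nat_lit 38862159539) (nat_lit 152) (nat_lit 38041938057) (nat_lit 0) (nat_lit 3733034334) (nat_lit 5) (nat_lit 5) (nat_lit 7) (nat_lit 4) (nat_lit 5) (nat_lit 4) (nat_lit 321) (nat_lit 245) (nat_lit 154)) (XT.lf (nat_lit 0) (nat_lit 44957429718) (nat_lit 152) (nat_lit 29596548416) (nat_lit 0) (nat_lit 9808334622) (nat_lit 5) (nat_lit 5) (nat_lit 7) (nat_lit 4) (nat_lit 5) (nat_lit 4) (nat_lit 322) (nat_lit 245) (nat_lit 153)))) (XT.nd (nat_lit 156) (nat_lit 76) (nat_lit 0) (XT.nd (nat_lit 78) (nat_lit 0) (nat_lit 0) (XT.lf (nat_lit 0) (nat_lit 51351106379) (nat_lit 152) (nat_lit 20739982689) (nat_lit 0) (nat_lit 16182992339) (nat_lit 5) (nat_lit 5) (nat_lit 7) (nat_lit 4) (nat_lit 5) (nat_lit 4) (nat_lit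 323) (nat_lit 245) (nat_lit 152)) (XT.lf (nat_lit 0) (nat_lit 58058412560) (nat_lit 152) (nat_lit 11451153817) (nat_lit 0) (nat_lit 22872185241) (nat_lit 5) (nat_lit 5) (nat_lit 7) (nat_lit 4) (nat_lit 5) (nat_lit 4) (nat_lit 324) (nat_lit 245) (nat_lit 151))) (XT.nd (nat_lit 78) (nat_lit 76) (nat_lit 0) (XT.lf (nat_lit 0) (nat_lit 65095318038) (nat_lit 152) (nat_lit 1707945538) (nat_lit 0) (nat_lit 29891839977) (nat_lit 5) (nat_lit 5) (nat_lit 7) (nat_lit 4) (nat_lit 5) (nat_lit 4) (nat_lit 325) (nat_lit 245) (nat_lit 150)) (XT.lf (nat_lit 0) (nat_lit 8794313203) (nat_lit 76) (nat_lit 63821568021) (nat_lit 76) (nat_lit 28601660682) (nat_lit 4) (nat_lit 4) (nat_lit 5) (nat_lit 5) (nat_lit 5) (nat_lit 4) (nat_lit 326) (nat_lit 245) (nat_lit 149))))) (XT.nd (nat_lit 312) (nat_lit 76) (nat_lit 0) (XT.nd (nat_lit 156) (nat_lit 0) (nat_lit 0) (XT.nd (nat_lit 78) (nat_lit 0) (nat_lit 0)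 (XT.lf (nat_lit 0) (nat_lit 19871552565) (nat_lit 76) (nat_lit 60664467746) (nat_lit 76) (nat_lit 25428913475) (nat_lit 4) (nat_lit 4) (nat_lit 5) (nat_lit 5) (nat_lit 5) (nat_lit 4) (nat_lit 327) (nat_lit 245) (nat_lit 148)) (XT.lf (nat_lit 0) (nat_lit 31493674533) (nat_lit 76) (nat_lit 57353370727) (nat_lit 76) (nat_lit 22102914617) (nat_lit 4) (nat_lit 4) (nat_lit 5) (nat_lit 5) (nat_lit 5) (nat_lit 4) (nat_lit 328) (nat_lit 245) (nat_lit 147))) (XT.nd (nat_lit 78) (nat_lit 0) (nat_lit 0) (XT.lf (nat_lit 0) (nat_lit 43688350825) (nat_lit 76) (nat_lit 53880393403) (nat_lit 76) (nat_lit 18615745064) (nat_lit 4) (nat_lit 4) (nat_lit 5) (nat_lit 5) (nat_lit 5) (nat_lit 4) (nat_lit 329) (nat_lit 245) (nat_lit 146)) (XT.lf (nat_lit 0) (nat_lit 56484616385) (nat_lit 76) (nat_lit 50237266779) (nat_lit 76) (nat_lit 14959102032) (nat_lit 4) (nat_lit 4) (nat_lit 5) (nat_lit 5) (nat_lit 5)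 (nat_lit 4) (nat_lit 330) (nat_lit 245) (nat_lit 145)))) (XT.nd (nat_lit 156) (nat_lit 76) (nat_lit 0) (XT.nd (nat_lit 78) (nat_lit 0) (nat_lit 0) (XT.lf (nat_lit 0) (nat_lit 69912938512) (nat_lit 76) (nat_lit 46415316743) (nat_lit 76) (nat_lit 11124279227) (nat_lit 4) (nat_lit 4) (nat_lit 5) (nat_lit 5) (nat_lit 5) (nat_lit 4) (nat_lit 331) (nat_lit 245) (nat_lit 144)) (XT.lf (nat_lit 0) (nat_lit 84005289402) (nat_lit 76) (nat_lit 42405443416) (nat_lit 76) (nat_lit 7102146119) (nat_lit 4) (nat_lit 4) (nat_lit 5) (nat_lit 5) (nat_lit 5) (nat_lit 4) (nat_lit 332) (nat_lit 245) (nat_lit 143))) (XT.nd (nat_lit 78) (nat_lit 76) (nat_lit 0) (XT.lf (nat_lit 0) (nat_lit 98795222272) (nat_lit 76) (nat_lit 38198099479) (nat_lit 76) (nat_lit 2883126201) (nat_lit 4) (nat_lit 4) (nat_lit 5) (nat_lit 5) (nat_lit 5) (nat_lit 4) (nat_lit 333) (nat_lit 245) (nat_lit 142)) (XT.nd (nat_lit 78) (nat_lit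 0) (nat_lit 0) (XT.lf (nat_lit 0) (nat_lit 1493445752) (nat_lit 152) (nat_lit 32264529468) (nat_lit 76) (nat_lit 112799213267) (nat_lit 3) (nat_lit 5) (nat_lit 5) (nat_lit 5) (nat_lit 4) (nat_lit 4) (nat_lit 334) (nat_lit 245) (nat_lit 141)) (XT.lf (nat_lit 0) (nat_lit 5988249337) (nat_lit 152) (nat_lit 23060772577) (nat_lit 76) (nat_lit 124520771965) (nat_lit 3) (nat_lit 5) (nat_lit 5) (nat_lit 5) (nat_lit 4) (nat_lit 4) (nat_lit 335) (nat_lit 245) (nat_lit 140))))))) (XT.nd (nat_lit 702) (nat_lit 0) (nat_lit 0) (XT.nd (nat_lit 312) (nat_lit 0) (nat_lit 0) (XT.nd (nat_lit 156) (nat_lit 76) (nat_lit 0) (XT.nd (nat_lit 78) (nat_lit 0) (nat_lit 0) (XT.lf (nat_lit 0) (nat_lit 10704264513) (nat_lit 152) (nat_lit 13403027619) (nat_lit 76) (nat_lit 136825919360) (nat_lit 3) (nat_lit 5) (nat_lit 5) (nat_lit 5) (nat_lit 4) (nat_lit 4) (nat_lit 336) (nat_lit 245) (nat_lit 139)) (XT.lf (nat_lit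 0) (nat_lit 15652719885) (nat_lit 152) (nat_lit 3268299964) (nat_lit 76) (nat_lit 149743953423) (nat_lit 3) (nat_lit 5) (nat_lit 5) (nat_lit 5) (nat_lit 4) (nat_lit 4) (nat_lit 337) (nat_lit 245) (nat_lit 138))) (XT.nd (nat_lit 78) (nat_lit 0) (nat_lit 0) (XT.lf (nat_lit 0) (nat_lit 7611144859) (nat_lit 76) (nat_lit 13353083934) (nat_lit 152) (nat_lit 155813317818) (nat_lit 2) (nat_lit 5) (nat_lit 3) (nat_lit 5) (nat_lit 4) (nat_lit 4) (nat_lit 338) (nat_lit 245) (nat_lit 137)) (XT.lf (nat_lit 0) (nat_lit 19142497237) (nat_lit 76) (nat_lit 7451031641) (nat_lit 152) (nat_lit 158699613720) (nat_lit 2) (nat_lit 5) (nat_lit 3) (nat_lit 5) (nat_lit 4) (nat_lit 4) (nat_lit 339) (nat_lit 245) (nat_lit 136)))) (XT.nd (nat_lit 156) (nat_lit 0) (nat_lit 0) (XT.nd (nat_lit 78) (nat_lit 0) (nat_lit 0) (XT.lf (nat_lit 0) (nat_lit 31245148013) (nat_lit 76) (nat_lit 1256160708) (nat_lit 152) (nat_lit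 161733363469) (nat_lit 2) (nat_lit 5) (nat_lit 3) (nat_lit 5) (nat_lit 4) (nat_lit 4) (nat_lit 340) (nat_lit 245) (nat_lit 135)) (XT.lf (nat_lit 0) (nat_lit 38783543575) (nat_lit 152) (nat_lit 159757420831) (nat_lit 0) (nat_lit 5078364880) (nat_lit 2) (nat_lit 5) (nat_lit 4) (nat_lit 4) (nat_lit 2) (nat_lit 4) (nat_lit 341) (nat_lit 245) (nat_lit 134))) (XT.nd (nat_lit 78) (nat_lit 0) (nat_lit 0) (XT.lf (nat_lit 0) (nat_lit 45397742920) (nat_lit 152) (nat_lit 156389191616) (nat_lit 0) (nat_lit 11685396185) (nat_lit 2) (nat_lit 5) (nat_lit 4) (nat_lit 4) (nat_lit 2) (nat_lit 4) (nat_lit 342) (nat_lit 245) (nat_lit 133)) (XT.nd (nat_lit 78) (nat_lit 0) (nat_lit 0) (XT.lf (nat_lit 0) (nat_lit 52340042659) (nat_lit 152) (nat_lit 152857204750) (nat_lit 0) (nat_lit 18620869220) (nat_lit 2) (nat_lit 5) (nat_lit 4) (nat_lit 4) (nat_lit 2) (nat_lit 4) (nat_lit 343) (nat_lit 245) (nat_lit 132))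 (XT.lf (nat_lit 0) (nat_lit 59626972079) (nat_lit 152) (nat_lit 149153050739) (nat_lit 0) (nat_lit 25901297016) (nat_lit 2) (nat_lit 5) (nat_lit 4) (nat_lit 4) (nat_lit 2) (nat_lit 4) (nat_lit 344) (nat_lit 245) (nat_lit 131)))))) (XT.nd (nat_lit 312) (nat_lit 0) (nat_lit 0) (XT.nd (nat_lit 156) (nat_lit 0) (nat_lit 0) (XT.nd (nat_lit 78) (nat_lit 0) (nat_lit 0) (XT.lf (nat_lit 0) (nat_lit 67275881011) (nat_lit 152) (nat_lit 145267910171) (nat_lit 0) (nat_lit 33544013926) (nat_lit 2) (nat_lit 5) (nat_lit 4) (nat_lit 4) (nat_lit 2) (nat_lit 4) (nat_lit 345) (nat_lit 245) (nat_lit 130)) (XT.lf (nat_lit 0) (nat_lit 75304981143) (nat_lit 152) (nat_lit 141192532709) (nat_lit 0) (nat_lit 41567216894) (nat_lit 2) (nat_lit 5) (nat_lit 4) (nat_lit 4) (nat_lit 2) (nat_lit 4) (nat_lit 346) (nat_lit 245) (nat_lit 129))) (XT.nd (nat_lit 78) (nat_lit 0) (nat_lit 0) (XT.lf (nat_lit 0) (nat_lit 83733389380)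 (nat_lit 152) (nat_lit 136917215075) (nat_lit 0) (nat_lit 49990008784) (nat_lit 2) (nat_lit 5) (nat_lit 4) (nat_lit 4) (nat_lit 2) (nat_lit 4) (nat_lit 347) (nat_lit 245) (nat_lit 128)) (XT.lf (nat_lit 0) (nat_lit 92581173360) (nat_lit 152) (nat_lit 132431777941) (nat_lit 0) (nat_lit 58832443863) (nat_lit 2) (nat_lit 5) (nat_lit 4) (nat_lit 4) (nat_lit 2) (nat_lit 4) (nat_lit 348) (nat_lit 245) (nat_lit 127)))) (XT.nd (nat_lit 156) (nat_lit 0) (nat_lit 0) (XT.nd (nat_lit 78) (nat_lit 0) (nat_lit 0) (XT.lf (nat_lit 0) (nat_lit 101869399237) (nat_lit 152) (nat_lit 127725541694) (nat_lit 0) (nat_lit 68115575548) (nat_lit 2) (nat_lit 5) (nat_lit 4) (nat_lit 4) (nat_lit 2) (nat_lit 4) (nat_lit 349) (nat_lit 245) (nat_lit 126)) (XT.lf (nat_lit 0) (nat_lit 111620181834) (nat_lit 152) (nat_lit 122787301011) (nat_lit 0) (nat_lit 77861506533) (nat_lit 2) (nat_lit 5) (nat_lit 4) (nat_lit 4) (nat_lit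 2) (nat_lit 4) (nat_lit 350) (nat_lit 245) (nat_lit 125))) (XT.nd (nat_lit 78) (nat_lit 0) (nat_lit 0) (XT.lf (nat_lit 0) (nat_lit 121856737299) (nat_lit 152) (nat_lit 117605298175) (nat_lit 0) (nat_lit 88093441416) (nat_lit 2) (nat_lit 5) (nat_lit 4) (nat_lit 4) (nat_lit 2) (nat_lit 4) (nat_lit 351) (nat_lit 245) (nat_lit 124)) (XT.nd (nat_lit 78) (nat_lit 0) (nat_lit 0) (XT.lf (nat_lit 0) (nat_lit 132603438384) (nat_lit 152) (nat_lit 112167195084) (nat_lit 0) (nat_lit 98835741946) (nat_lit 2) (nat_lit 5) (nat_lit 4) (nat_lit 4) (nat_lit 2) (nat_lit 4) (nat_lit 352) (nat_lit 245) (nat_lit 123)) (XT.lf (nat_lit 0) (nat_lit 143885872472) (nat_lit 152) (nat_lit 106460043874) (nat_lit 0) (nat_lit 110113985030) (nat_lit 2) (nat_lit 5) (nat_lit 4) (nat_lit 4) (nat_lit 2) (nat_lit 4) (nat_lit 353) (nat_lit 245) (nat_lit 122))))))))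
noncomputable def xc130 : XT := (XT.nd (nat_lit 29952) (nat_lit 0) (nat_lit 2584) (XT.nd (nat_lit 29250) (nat_lit 0) (nat_lit 6004) (XT.nd (nat_lit 312) (nat_lit 0) (nat_lit 0) (XT.nd (nat_lit 156) (nat_lit 0) (nat_lit 0) (XT.nd (nat_lit 78) (nat_lit 0) (nat_lit 0) (XT.lf (nat_lit 0) (nat_lit 155730902502) (nat_lit 152) (nat_lit 100470256089) (nat_lit 0) (nat_lit 121955023627) (nat_lit 2) (nat_lit 5) (nat_lit 4) (nat_lit 4) (nat_lit 2) (nat_lit 4) (nat_lit 354) (nat_lit 245) (nat_lit 121)) (XT.lf (nat_lit 0) (nat_lit 168166730926) (nat_lit 152) (nat_lit 94183570330) (nat_lit 0) (nat_lit 134387050687) (nat_lit 2) (nat_lit 5) (nat_lit 4) (nat_lit 4) (nat_lit 2) (nat_lit 4) (nat_lit 355) (nat_lit 245) (nat_lit 120))) (XT.nd (nat_lit 78) (nat_lit 0) (nat_lit 0) (XT.lf (nat_lit 0) (nat_lit 181222966859) (nat_lit 152) (nat_lit 87585018298) (nat_lit 0) (nat_lit 147439666273) (nat_lit 2) (nat_lit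 5) (nat_lit 4) (nat_lit 4) (nat_lit 2) (nat_lit 4) (nat_lit 356) (nat_lit 245) (nat_lit 119)) (XT.lf (nat_lit 0) (nat_lit 194930696578) (nat_lit 152) (nat_lit 80658889155) (nat_lit 0) (nat_lit 161143948042) (nat_lit 2) (nat_lit 5) (nat_lit 4) (nat_lit 4) (nat_lit 2) (nat_lit 4) (nat_lit 357) (nat_lit 245) (nat_lit 118)))) (XT.nd (nat_lit 28782) (nat_lit 0) (nat_lit 6840) (XT.nd (nat_lit 78) (nat_lit 0) (nat_lit 0) (XT.lf (nat_lit 0) (nat_lit 209322557534) (nat_lit 152) (nat_lit 73388692116) (nat_lit 0) (nat_lit 175532525237) (nat_lit 2) (nat_lit 5) (nat_lit 4) (nat_lit 4) (nat_lit 2) (nat_lit 4) (nat_lit 358) (nat_lit 245) (nat_lit 117)) (XT.lf (nat_lit 0) (nat_lit 224432816063) (nat_lit 152) (nat_lit 65757117189) (nat_lit 0) (nat_lit 190639656373) (nat_lit 2) (nat_lit 5) (nat_lit 4) (nat_lit 4) (nat_lit 2) (nat_lit 4) (nat_lit 359) (nat_lit 245) (nat_lit 116))) (XT.nd (nat_lit 78)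 (nat_lit 0) (nat_lit 0) (XT.lf (nat_lit 0) (nat_lit 112597238) (nat_lit 0) (nat_lit 112597238) (nat_lit 380) (nat_lit 3215312294) (nat_lit 92) (nat_lit 5) (nat_lit 92) (nat_lit 3) (nat_lit 97) (nat_lit 3) (nat_lit 246) (nat_lit 246) (nat_lit 228)) (XT.lf (nat_lit 0) (nat_lit 2190950988) (nat_lit 380) (nat_lit 3747465249) (nat_lit 456) (nat_lit 1017869926) (nat_lit 92) (nat_lit 5) (nat_lit 97) (nat_lit 3) (nat_lit 98) (nat_lit 5) (nat_lit 247) (nat_lit 246) (nat_lit 227))))) (XT.nd (nat_lit 312) (nat_lit 380) (nat_lit 0) (XT.nd (nat_lit 156) (nat_lit 456) (nat_lit 0) (XT.nd (nat_lit 78) (nat_lit 0) (nat_lit 0) (XT.lf (nat_lit 0) (nat_lit 3913442741) (nat_lit 380) (nat_lit 759205251) (nat_lit 456) (nat_lit 2368587878) (nat_lit 92) (nat_lit 5) (nat_lit 97) (nat_lit 3) (nat_lit 98) (nat_lit 5) (nat_lit 248) (nat_lit 246) (nat_lit 226)) (XT.lf (nat_lit 76) (nat_lit 2396287928) (nat_lit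 0) (nat_lit 3259574307) (nat_lit 456) (nat_lit 1478507846) (nat_lit 93) (nat_lit 5) (nat_lit 92) (nat_lit 5) (nat_lit 98) (nat_lit 5) (nat_lit 249) (nat_lit 246) (nat_lit 225))) (XT.nd (nat_lit 78) (nat_lit 0) (nat_lit 0) (XT.lf (nat_lit 0) (nat_lit 156413798) (nat_lit 456) (nat_lit 1561629978) (nat_lit 532) (nat_lit 5518924532) (nat_lit 86) (nat_lit 5) (nat_lit 92) (nat_lit 5) (nat_lit 93) (nat_lit 5) (nat_lit 250) (nat_lit 246) (nat_lit 224)) (XT.lf (nat_lit 76) (nat_lit 1746387107) (nat_lit 0) (nat_lit 7329167) (nat_lit 532) (nat_lit 5593793944) (nat_lit 87) (nat_lit 5) (nat_lit 86) (nat_lit 5) (nat_lit 93) (nat_lit 5) (nat_lit 251) (nat_lit 246) (nat_lit 223)))) (XT.nd (nat_lit 156) (nat_lit 456) (nat_lit 0) (XT.nd (nat_lit 78) (nat_lit 0) (nat_lit 0) (XT.lf (nat_lit 0) (nat_lit 3393012769) (nat_lit 456) (nat_lit 2280292326) (nat_lit 532) (nat_lit 1792683663) (nat_lit 87) (nat_lit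 5) (nat_lit 93) (nat_lit 5) (nat_lit 94) (nat_lit 5) (nat_lit 252) (nat_lit 246) (nat_lit 222)) (XT.lf (nat_lit 76) (nat_lit 1183685035) (nat_lit 0) (nat_lit 3860921563) (nat_lit 532) (nat_lit 2549759410) (nat_lit 88) (nat_lit 5) (nat_lit 87) (nat_lit 5) (nat_lit 94) (nat_lit 5) (nat_lit 253) (nat_lit 246) (nat_lit 221))) (XT.nd (nat_lit 78) (nat_lit 456) (nat_lit 0) (XT.lf (nat_lit 76) (nat_lit 4840346128) (nat_lit 0) (nat_lit 1892055017) (nat_lit 532) (nat_lit 999547934) (nat_lit 88) (nat_lit 5) (nat_lit 87) (nat_lit 5) (nat_lit 94) (nat_lit 5) (nat_lit 254) (nat_lit 246) (nat_lit 220)) (XT.nd (nat_lit 78) (nat_lit 0) (nat_lit 0) (XT.lf (nat_lit 0) (nat_lit 540638911) (nat_lit 532) (nat_lit 7125455370) (nat_lit 76) (nat_lit 213622627) (nat_lit 81) (nat_lit 5) (nat_lit 88) (nat_lit 5) (nat_lit 82) (nat_lit 5) (nat_lit 255) (nat_lit 246) (nat_lit 219)) (XT.lf (nat_lit 0) (nat_lit 2125666053)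 (nat_lit 532) (nat_lit 3461564150) (nat_lit 76) (nat_lit 2447156792) (nat_lit 81) (nat_lit 5) (nat_lit 88) (nat_lit 5) (nat_lit 82) (nat_lit 5) (nat_lit 256) (nat_lit 246) (nat_lit 218))))))) (XT.nd (nat_lit 624) (nat_lit 1216) (nat_lit 0) (XT.nd (nat_lit 312) (nat_lit 988) (nat_lit 0) (XT.nd (nat_lit 156) (nat_lit 684) (nat_lit 0) (XT.nd (nat_lit 78) (nat_lit 0) (nat_lit 0) (XT.lf (nat_lit 0) (nat_lit 335554213) (nat_lit 532) (nat_lit 3384040259) (nat_lit 608) (nat_lit 4481098649) (nat_lit 74) (nat_lit 5) (nat_lit 81) (nat_lit 5) (nat_lit 82) (nat_lit 5) (nat_lit 257) (nat_lit 246) (nat_lit 217)) (XT.lf (nat_lit 0) (nat_lit 4382978087) (nat_lit 532) (nat_lit 995942423) (nat_lit 608) (nat_lit 2997475681) (nat_lit 74) (nat_lit 5) (nat_lit 81) (nat_lit 5) (nat_lit 82) (nat_lit 5) (nat_lit 258) (nat_lit 246) (nat_lit 216))) (XT.nd (nat_lit 78) (nat_lit 684) (nat_lit 0) (XT.lf (nat_lit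 0) (nat_lit 7075559141) (nat_lit 608) (nat_lit 12612756) (nat_lit 76) (nat_lit 1475344437) (nat_lit 74) (nat_lit 5) (nat_lit 82) (nat_lit 5) (nat_lit 75) (nat_lit 5) (nat_lit 259) (nat_lit 246) (nat_lit 215)) (XT.lf (nat_lit 0) (nat_lit 110263970) (nat_lit 684) (nat_lit 4533050133) (nat_lit 76) (nat_lit 4116102769) (nat_lit 65) (nat_lit 5) (nat_lit 74) (nat_lit 5) (nat_lit 66) (nat_lit 5) (nat_lit 260) (nat_lit 246) (nat_lit 214)))) (XT.nd (nat_lit 156) (nat_lit 304) (nat_lit 0) (XT.nd (nat_lit 78) (nat_lit 684) (nat_lit 0) (XT.lf (nat_lit 0) (nat_lit 1673551354) (nat_lit 684) (nat_lit 371283864) (nat_lit 76) (nat_lit 6922601252) (nat_lit 65) (nat_lit 5) (nat_lit 74) (nat_lit 5) (nat_lit 66) (nat_lit 5) (nat_lit 261) (nat_lit 246) (nat_lit 213)) (XT.lf (nat_lit 0) (nat_lit 3328420056) (nat_lit 760) (nat_lit 5125637849) (nat_lit 76) (nat_lit 731415611) (nat_lit 56) (nat_lit 5) (nat_lit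 66) (nat_lit 5) (nat_lit 57) (nat_lit 5) (nat_lit 262) (nat_lit 246) (nat_lit 212))) (XT.nd (nat_lit 78) (nat_lit 304) (nat_lit 0) (XT.lf (nat_lit 0) (nat_lit 5046129992) (nat_lit 760) (nat_lit 781423874) (nat_lit 76) (nat_lit 3588127294) (nat_lit 56) (nat_lit 5) (nat_lit 66) (nat_lit 5) (nat_lit 57) (nat_lit 5) (nat_lit 263) (nat_lit 246) (nat_lit 211)) (XT.lf (nat_lit 0) (nat_lit 3846835759) (nat_lit 304) (nat_lit 3005982843) (nat_lit 380) (nat_lit 2804686529) (nat_lit 52) (nat_lit 5) (nat_lit 56) (nat_lit 5) (nat_lit 57) (nat_lit 5) (nat_lit 264) (nat_lit 246) (nat_lit 210))))) (XT.nd (nat_lit 312) (nat_lit 608) (nat_lit 0) (XT.nd (nat_lit 156) (nat_lit 228) (nat_lit 0) (XT.nd (nat_lit 78) (nat_lit 380) (nat_lit 0) (XT.lf (nat_lit 0) (nat_lit 8678257707) (nat_lit 304) (nat_lit 29699085) (nat_lit 380) (nat_lit 1205805947) (nat_lit 52) (nat_lit 5) (nat_lit 56) (nat_lit 5) (nat_lit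 57) (nat_lit 5) (nat_lit 265) (nat_lit 246) (nat_lit 209)) (XT.lf (nat_lit 0) (nat_lit 510206873) (nat_lit 380) (nat_lit 6609671942) (nat_lit 76) (nat_lit 3060193885) (nat_lit 47) (nat_lit 5) (nat_lit 52) (nat_lit 5) (nat_lit 48) (nat_lit 5) (nat_lit 266) (nat_lit 246) (nat_lit 208))) (XT.nd (nat_lit 78) (nat_lit 228) (nat_lit 0) (XT.lf (nat_lit 0) (nat_lit 2241347550) (nat_lit 380) (nat_lit 1876387158) (nat_lit 76) (nat_lit 6342696979) (nat_lit 47) (nat_lit 5) (nat_lit 52) (nat_lit 5) (nat_lit 48) (nat_lit 5) (nat_lit 267) (nat_lit 246) (nat_lit 207)) (XT.lf (nat_lit 0) (nat_lit 3140128659) (nat_lit 228) (nat_lit 918510847) (nat_lit 304) (nat_lit 6696393593) (nat_lit 44) (nat_lit 5) (nat_lit 47) (nat_lit 5) (nat_lit 48) (nat_lit 5) (nat_lit 268) (nat_lit 246) (nat_lit 206)))) (XT.nd (nat_lit 156) (nat_lit 304) (nat_lit 0) (XT.nd (nat_lit 78) (nat_lit 304) (nat_lit 0) (XT.lf (nat_lit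 0) (nat_lit 5989213143) (nat_lit 304) (nat_lit 2684364432) (nat_lit 76) (nat_lit 2389860621) (nat_lit 44) (nat_lit 5) (nat_lit 48) (nat_lit 5) (nat_lit 45) (nat_lit 5) (nat_lit 269) (nat_lit 246) (nat_lit 205)) (XT.lf (nat_lit 0) (nat_lit 2504887333) (nat_lit 304) (nat_lit 5519891944) (nat_lit 380) (nat_lit 3362246286) (nat_lit 40) (nat_lit 5) (nat_lit 44) (nat_lit 5) (nat_lit 45) (nat_lit 5) (nat_lit 270) (nat_lit 246) (nat_lit 204))) (XT.nd (nat_lit 78) (nat_lit 304) (nat_lit 0) (XT.lf (nat_lit 0) (nat_lit 7994720740) (nat_lit 304) (nat_lit 2168525175) (nat_lit 380) (nat_lit 1563666660) (nat_lit 40) (nat_lit 5) (nat_lit 44) (nat_lit 5) (nat_lit 45) (nat_lit 5) (nat_lit 271) (nat_lit 246) (nat_lit 203)) (XT.nd (nat_lit 78) (nat_lit 0) (nat_lit 0) (XT.lf (nat_lit 0) (nat_lit 318944032) (nat_lit 304) (nat_lit 10433486359) (nat_lit 76) (nat_lit 1331045001) (nat_lit 36) (nat_lit 5) (nat_lit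 40) (nat_lit 5) (nat_lit 37) (nat_lit 5) (nat_lit 272) (nat_lit 246) (nat_lit 202)) (XT.lf (nat_lit 0) (nat_lit 2300977786) (nat_lit 304) (nat_lit 5138538559) (nat_lit 76) (nat_lit 5014328579) (nat_lit 36) (nat_lit 5) (nat_lit 40) (nat_lit 5) (nat_lit 37) (nat_lit 5) (nat_lit 273) (nat_lit 246) (nat_lit 201))))))))
noncomputable def xc131 : XT := (XT.nd (nat_lit 1326) (nat_lit 684) (nat_lit 0) (XT.nd (nat_lit 624) (nat_lit 532) (nat_lit 0) (XT.nd (nat_lit 312) (nat_lit 456) (nat_lit 0) (XT.nd (nat_lit 156) (nat_lit 228) (nat_lit 0) (XT.nd (nat_lit 78) (nat_lit 0) (nat_lit 0) (XT.lf (nat_lit 0) (nat_lit 383463071) (nat_lit 228) (nat_lit 3964684462) (nat_lit 304) (nat_lit 8496428800) (nat_lit 33) (nat_lit 5) (nat_lit 36) (nat_lit 5) (nat_lit 37) (nat_lit 5) (nat_lit 274) (nat_lit 246) (nat_lit 200)) (XT.lf (nat_lit 0) (nat_lit 6310802384) (nat_lit 228) (nat_lit 235079361) (nat_lit 304)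 (nat_lit 6706690473) (nat_lit 33) (nat_lit 5) (nat_lit 36) (nat_lit 5) (nat_lit 37) (nat_lit 5) (nat_lit 275) (nat_lit 246) (nat_lit 199))) (XT.nd (nat_lit 78) (nat_lit 228) (nat_lit 0) (XT.lf (nat_lit 0) (nat_lit 8873850490) (nat_lit 304) (nat_lit 1252576205) (nat_lit 76) (nat_lit 3553655434) (nat_lit 33) (nat_lit 5) (nat_lit 37) (nat_lit 5) (nat_lit 34) (nat_lit 5) (nat_lit 276) (nat_lit 246) (nat_lit 198)) (XT.lf (nat_lit 0) (nat_lit 4825334519) (nat_lit 228) (nat_lit 6536718672) (nat_lit 304) (nat_lit 2764847923) (nat_lit 30) (nat_lit 5) (nat_lit 33) (nat_lit 5) (nat_lit 34) (nat_lit 5) (nat_lit 277) (nat_lit 246) (nat_lit 197)))) (XT.nd (nat_lit 156) (nat_lit 152) (nat_lit 0) (XT.nd (nat_lit 78) (nat_lit 304) (nat_lit 0) (XT.lf (nat_lit 0) (nat_lit 11205044984) (nat_lit 228) (nat_lit 2756450707) (nat_lit 304) (nat_lit 635343261) (nat_lit 30) (nat_lit 5) (nat_lit 33) (nat_lit 5)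 (nat_lit 34) (nat_lit 5) (nat_lit 278) (nat_lit 246) (nat_lit 196)) (XT.lf (nat_lit 0) (nat_lit 1580164565) (nat_lit 304) (nat_lit 12273908028) (nat_lit 76) (nat_lit 1233521940) (nat_lit 26) (nat_lit 5) (nat_lit 30) (nat_lit 5) (nat_lit 27) (nat_lit 5) (nat_lit 279) (nat_lit 246) (nat_lit 195))) (XT.nd (nat_lit 78) (nat_lit 152) (nat_lit 0) (XT.lf (nat_lit 0) (nat_lit 3956000662) (nat_lit 304) (nat_lit 6254818010) (nat_lit 76) (nat_lit 5388106347) (nat_lit 26) (nat_lit 5) (nat_lit 30) (nat_lit 5) (nat_lit 27) (nat_lit 5) (nat_lit 280) (nat_lit 246) (nat_lit 194)) (XT.lf (nat_lit 0) (nat_lit 22662530) (nat_lit 152) (nat_lit 6397208930) (nat_lit 228) (nat_lit 9717586644) (nat_lit 24) (nat_lit 5) (nat_lit 26) (nat_lit 5) (nat_lit 27) (nat_lit 5) (nat_lit 281) (nat_lit 246) (nat_lit 193))))) (XT.nd (nat_lit 312) (nat_lit 380) (nat_lit 0) (XT.nd (nat_lit 156) (nat_lit 152) (nat_lit 0) (XT.nd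 (nat_lit 78) (nat_lit 0) (nat_lit 0) (XT.lf (nat_lit 0) (nat_lit 6788579151) (nat_lit 152) (nat_lit 2293990594) (nat_lit 228) (nat_lit 7616659944) (nat_lit 24) (nat_lit 5) (nat_lit 26) (nat_lit 5) (nat_lit 27) (nat_lit 5) (nat_lit 282) (nat_lit 246) (nat_lit 192)) (XT.lf (nat_lit 0) (nat_lit 11880818523) (nat_lit 228) (nat_lit 3469660296) (nat_lit 76) (nat_lit 1938579343) (nat_lit 24) (nat_lit 5) (nat_lit 27) (nat_lit 5) (nat_lit 25) (nat_lit 5) (nat_lit 283) (nat_lit 246) (nat_lit 191))) (XT.nd (nat_lit 78) (nat_lit 0) (nat_lit 0) (XT.lf (nat_lit 0) (nat_lit 3322187819) (nat_lit 152) (nat_lit 11558614913) (nat_lit 228) (nat_lit 3024569022) (nat_lit 22) (nat_lit 5) (nat_lit 24) (nat_lit 5) (nat_lit 25) (nat_lit 5) (nat_lit 284) (nat_lit 246) (nat_lit 190)) (XT.lf (nat_lit 0) (nat_lit 10534814924) (nat_lit 152) (nat_lit 7527783148) (nat_lit 228) (nat_lit 488393162) (nat_lit 22) (nat_lit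 5) (nat_lit 24) (nat_lit 5) (nat_lit 25) (nat_lit 5) (nat_lit 285) (nat_lit 246) (nat_lit 189)))) (XT.nd (nat_lit 156) (nat_lit 152) (nat_lit 0) (XT.nd (nat_lit 78) (nat_lit 152) (nat_lit 0) (XT.lf (nat_lit 0) (nat_lit 2078830551) (nat_lit 228) (nat_lit 1193110130) (nat_lit 76) (nat_lit 15956634750) (nat_lit 21) (nat_lit 5) (nat_lit 24) (nat_lit 5) (nat_lit 22) (nat_lit 5) (nat_lit 286) (nat_lit 246) (nat_lit 188)) (XT.lf (nat_lit 0) (nat_lit 4848878619) (nat_lit 228) (nat_lit 13833827426) (nat_lit 76) (nat_lit 1252458452) (nat_lit 19) (nat_lit 5) (nat_lit 22) (nat_lit 5) (nat_lit 20) (nat_lit 5) (nat_lit 287) (nat_lit 246) (nat_lit 187))) (XT.nd (nat_lit 78) (nat_lit 152) (nat_lit 0) (XT.lf (nat_lit 0) (nat_lit 7807133744) (nat_lit 228) (nat_lit 6965138554) (nat_lit 76) (nat_lit 5902391965) (nat_lit 19) (nat_lit 5) (nat_lit 22) (nat_lit 5) (nat_lit 20) (nat_lit 5) (nat_lit 288) (nat_lit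 246) (nat_lit 186)) (XT.nd (nat_lit 78) (nat_lit 0) (nat_lit 0) (XT.lf (nat_lit 0) (nat_lit 218723428) (nat_lit 152) (nat_lit 10674687500) (nat_lit 228) (nat_lit 10558785936) (nat_lit 17) (nat_lit 5) (nat_lit 19) (nat_lit 5) (nat_lit 20) (nat_lit 5) (nat_lit 289) (nat_lit 246) (nat_lit 185)) (XT.lf (nat_lit 0) (nat_lit 7968899286) (nat_lit 152) (nat_lit 6260323231) (nat_lit 228) (nat_lit 8034682851) (nat_lit 17) (nat_lit 5) (nat_lit 19) (nat_lit 5) (nat_lit 20) (nat_lit 5) (nat_lit 290) (nat_lit 246) (nat_lit 184))))))) (XT.nd (nat_lit 702) (nat_lit 304) (nat_lit 0) (XT.nd (nat_lit 312) (nat_lit 228) (nat_lit 0) (XT.nd (nat_lit 156) (nat_lit 76) (nat_lit 0) (XT.nd (nat_lit 78) (nat_lit 76) (nat_lit 0) (XT.lf (nat_lit 0) (nat_lit 16073542881) (nat_lit 152) (nat_lit 1636627090) (nat_lit 228) (nat_lit 5407169487) (nat_lit 17) (nat_lit 5) (nat_lit 19) (nat_lit 5) (nat_lit 20) (nat_lit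 5) (nat_lit 291) (nat_lit 246) (nat_lit 183)) (XT.lf (nat_lit 0) (nat_lit 503456973) (nat_lit 76) (nat_lit 20899021318) (nat_lit 152) (nat_lit 2609155979) (nat_lit 16) (nat_lit 5) (nat_lit 17) (nat_lit 5) (nat_lit 18) (nat_lit 4) (nat_lit 292) (nat_lit 246) (nat_lit 182))) (XT.nd (nat_lit 78) (nat_lit 0) (nat_lit 0) (XT.lf (nat_lit 0) (nat_lit 445628146) (nat_lit 152) (nat_lit 16338575169) (nat_lit 76) (nat_lit 8159863861) (nat_lit 15) (nat_lit 5) (nat_lit 17) (nat_lit 5) (nat_lit 16) (nat_lit 5) (nat_lit 293) (nat_lit 246) (nat_lit 181)) (XT.lf (nat_lit 0) (nat_lit 3545768280) (nat_lit 152) (nat_lit 8884309220) (nat_lit 76) (nat_lit 13491937742) (nat_lit 15) (nat_lit 5) (nat_lit 17) (nat_lit 5) (nat_lit 16) (nat_lit 5) (nat_lit 294) (nat_lit 246) (nat_lit 180)))) (XT.nd (nat_lit 156) (nat_lit 76) (nat_lit 0) (XT.nd (nat_lit 78) (nat_lit 152) (nat_lit 0) (XT.lf (nat_lit 0) (nat_lit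 6782154993) (nat_lit 152) (nat_lit 1086894962) (nat_lit 76) (nat_lit 19080793773) (nat_lit 15) (nat_lit 5) (nat_lit 17) (nat_lit 5) (nat_lit 16) (nat_lit 5) (nat_lit 295) (nat_lit 246) (nat_lit 179)) (XT.lf (nat_lit 0) (nat_lit 7306072833) (nat_lit 152) (nat_lit 2970489405) (nat_lit 228) (nat_lit 17747734192) (nat_lit 13) (nat_lit 5) (nat_lit 15) (nat_lit 5) (nat_lit 16) (nat_lit 5) (nat_lit 296) (nat_lit 246) (nat_lit 178))) (XT.nd (nat_lit 78) (nat_lit 76) (nat_lit 0) (XT.lf (nat_lit 0) (nat_lit 13980716423) (nat_lit 228) (nat_lit 13057812357) (nat_lit 76) (nat_lit 2112232471) (nat_lit 13) (nat_lit 5) (nat_lit 16) (nat_lit 5) (nat_lit 14) (nat_lit 4) (nat_lit 297) (nat_lit 246) (nat_lit 177)) (XT.nd (nat_lit 78) (nat_lit 76) (nat_lit 0) (XT.lf (nat_lit 0) (nat_lit 17902004503) (nat_lit 228) (nat_lit 5090178188) (nat_lit 76) (nat_lit 7339809183) (nat_lit 13) (nat_lit 5) (nat_lit 16)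 (nat_lit 5) (nat_lit 14) (nat_lit 4) (nat_lit 298) (nat_lit 246) (nat_lit 176)) (XT.lf (nat_lit 0) (nat_lit 3357487707) (nat_lit 76) (nat_lit 18698317300) (nat_lit 152) (nat_lit 9514693637) (nat_lit 12) (nat_lit 5) (nat_lit 13) (nat_lit 5) (nat_lit 14) (nat_lit 4) (nat_lit 299) (nat_lit 246) (nat_lit 175)))))) (XT.nd (nat_lit 312) (nat_lit 76) (nat_lit 0) (XT.nd (nat_lit 156) (nat_lit 228) (nat_lit 0) (XT.nd (nat_lit 78) (nat_lit 0) (nat_lit 0) (XT.lf (nat_lit 0) (nat_lit 12378862133) (nat_lit 76) (nat_lit 14109030347) (nat_lit 152) (nat_lit 6379543680) (nat_lit 12) (nat_lit 5) (nat_lit 13) (nat_lit 5) (nat_lit 14) (nat_lit 4) (nat_lit 300) (nat_lit 246) (nat_lit 174)) (XT.lf (nat_lit 0) (nat_lit 21827120272) (nat_lit 76) (nat_lit 9299599589) (nat_lit 152) (nat_lit 3103277490) (nat_lit 12) (nat_lit 5) (nat_lit 13) (nat_lit 5) (nat_lit 14) (nat_lit 4) (nat_lit 301) (nat_lit 246) (nat_lit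 173))) (XT.nd (nat_lit 78) (nat_lit 152) (nat_lit 0) (XT.lf (nat_lit 0) (nat_lit 311602579) (nat_lit 152) (nat_lit 3941694280) (nat_lit 76) (nat_lit 31407878258) (nat_lit 11) (nat_lit 5) (nat_lit 13) (nat_lit 5) (nat_lit 12) (nat_lit 5) (nat_lit 302) (nat_lit 246) (nat_lit 172)) (XT.lf (nat_lit 0) (nat_lit 3876045774) (nat_lit 228) (nat_lit 32146208970) (nat_lit 76) (nat_lit 1134986884) (nat_lit 9) (nat_lit 5) (nat_lit 12) (nat_lit 5) (nat_lit 10) (nat_lit 4) (nat_lit 303) (nat_lit 246) (nat_lit 171)))) (XT.nd (nat_lit 156) (nat_lit 76) (nat_lit 0) (XT.nd (nat_lit 78) (nat_lit 0) (nat_lit 0) (XT.lf (nat_lit 0) (nat_lit 7742727886) (nat_lit 228) (nat_lit 24269973558) (nat_lit 76) (nat_lit 6709236805) (nat_lit 9) (nat_lit 5) (nat_lit 12) (nat_lit 5) (nat_lit 10) (nat_lit 4) (nat_lit 304) (nat_lit 246) (nat_lit 170)) (XT.lf (nat_lit 0) (nat_lit 11789831481) (nat_lit 228) (nat_lit 16021471112)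 (nat_lit 76) (nat_lit 12554239048) (nat_lit 9) (nat_lit 5) (nat_lit 12) (nat_lit 5) (nat_lit 10) (nat_lit 4) (nat_lit 305) (nat_lit 246) (nat_lit 169))) (XT.nd (nat_lit 78) (nat_lit 76) (nat_lit 0) (XT.lf (nat_lit 0) (nat_lit 16026992518) (nat_lit 228) (nat_lit 7381062341) (nat_lit 76) (nat_lit 18683910285) (nat_lit 9) (nat_lit 5) (nat_lit 12) (nat_lit 5) (nat_lit 10) (nat_lit 4) (nat_lit 306) (nat_lit 246) (nat_lit 168)) (XT.nd (nat_lit 78) (nat_lit 0) (nat_lit 0) (XT.lf (nat_lit 0) (nat_lit 1727103246) (nat_lit 76) (nat_lit 18764161152) (nat_lit 152) (nat_lit 23412706646) (nat_lit 8) (nat_lit 5) (nat_lit 9) (nat_lit 5) (nat_lit 10) (nat_lit 4) (nat_lit 307) (nat_lit 246) (nat_lit 167)) (XT.lf (nat_lit 0) (nat_lit 11527704408) (nat_lit 76) (nat_lit 13764592736) (nat_lit 152) (nat_lit 20508625457) (nat_lit 8) (nat_lit 5) (nat_lit 9) (nat_lit 5) (nat_lit 10) (nat_lit 4) (nat_lit 308)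 (nat_lit 246) (nat_lit 166))))))))
noncomputable def xc132 : XT := (XT.nd (nat_lit 1326) (nat_lit 228) (nat_lit 0) (XT.nd (nat_lit 624) (nat_lit 76) (nat_lit 0) (XT.nd (nat_lit 312) (nat_lit 76) (nat_lit 0) (XT.nd (nat_lit 156) (nat_lit 76) (nat_lit 0) (XT.nd (nat_lit 78) (nat_lit 0) (nat_lit 0) (XT.lf (nat_lit 0) (nat_lit 21800024653) (nat_lit 76) (nat_lit 8522447741) (nat_lit 152) (nat_lit 17470816443) (nat_lit 8) (nat_lit 5) (nat_lit 9) (nat_lit 5) (nat_lit 10) (nat_lit 4) (nat_lit 309) (nat_lit 246) (nat_lit 165)) (XT.lf (nat_lit 0) (nat_lit 32568521888) (nat_lit 76) (nat_lit 3025244867) (nat_lit 152) (nat_lit 14292046723) (nat_lit 8) (nat_lit 5) (nat_lit 9) (nat_lit 5) (nat_lit 10) (nat_lit 4) (nat_lit 310) (nat_lit 246) (nat_lit 164))) (XT.nd (nat_lit 78) (nat_lit 76) (nat_lit 0) (XT.lf (nat_lit 0) (nat_lit 41161511640) (nat_lit 152) (nat_lit 8267424049) (nat_lit 0) (nat_lit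 2652404005) (nat_lit 8) (nat_lit 5) (nat_lit 10) (nat_lit 4) (nat_lit 8) (nat_lit 4) (nat_lit 311) (nat_lit 246) (nat_lit 163)) (XT.lf (nat_lit 0) (nat_lit 1207791809) (nat_lit 76) (nat_lit 45858779604) (nat_lit 76) (nat_lit 7317143122) (nat_lit 7) (nat_lit 4) (nat_lit 8) (nat_lit 5) (nat_lit 8) (nat_lit 4) (nat_lit 312) (nat_lit 246) (nat_lit 162)))) (XT.nd (nat_lit 156) (nat_lit 0) (nat_lit 0) (XT.nd (nat_lit 78) (nat_lit 76) (nat_lit 0) (XT.lf (nat_lit 0) (nat_lit 11427848410) (nat_lit 76) (nat_lit 41969729581) (nat_lit 76) (nat_lit 3397113244) (nat_lit 7) (nat_lit 4) (nat_lit 8) (nat_lit 5) (nat_lit 8) (nat_lit 4) (nat_lit 313) (nat_lit 246) (nat_lit 161)) (XT.lf (nat_lit 0) (nat_lit 686871096) (nat_lit 152) (nat_lit 37194035212) (nat_lit 76) (nat_lit 21445217252) (nat_lit 6) (nat_lit 5) (nat_lit 8) (nat_lit 5) (nat_lit 7) (nat_lit 4) (nat_lit 314) (nat_lit 246) (nat_lit 160)))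 (XT.nd (nat_lit 78) (nat_lit 0) (nat_lit 0) (XT.lf (nat_lit 0) (nat_lit 4852282552) (nat_lit 152) (nat_lit 28683041368) (nat_lit 76) (nat_lit 28446464786) (nat_lit 6) (nat_lit 5) (nat_lit 8) (nat_lit 5) (nat_lit 7) (nat_lit 4) (nat_lit 315) (nat_lit 246) (nat_lit 159)) (XT.lf (nat_lit 0) (nat_lit 9217767610) (nat_lit 152) (nat_lit 19760558563) (nat_lit 76) (nat_lit 35792335433) (nat_lit 6) (nat_lit 5) (nat_lit 8) (nat_lit 5) (nat_lit 7) (nat_lit 4) (nat_lit 316) (nat_lit 246) (nat_lit 158))))) (XT.nd (nat_lit 312) (nat_lit 0) (nat_lit 0) (XT.nd (nat_lit 156) (nat_lit 76) (nat_lit 0) (XT.nd (nat_lit 78) (nat_lit 0) (nat_lit 0) (XT.lf (nat_lit 0) (nat_lit 13793720280) (nat_lit 152) (nat_lit 10405342792) (nat_lit 76) (nat_lit 43500319364) (nat_lit 6) (nat_lit 5) (nat_lit 8) (nat_lit 5) (nat_lit 7) (nat_lit 4) (nat_lit 317) (nat_lit 246) (nat_lit 157)) (XT.lf (nat_lit 0) (nat_lit 18591035689)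 (nat_lit 152) (nat_lit 595119731) (nat_lit 76) (nat_lit 51588768919) (nat_lit 6) (nat_lit 5) (nat_lit 8) (nat_lit 5) (nat_lit 7) (nat_lit 4) (nat_lit 318) (nat_lit 246) (nat_lit 156))) (XT.nd (nat_lit 78) (nat_lit 0) (nat_lit 0) (XT.lf (nat_lit 0) (nat_lit 10013978132) (nat_lit 76) (nat_lit 13763504146) (nat_lit 152) (nat_lit 50219310443) (nat_lit 5) (nat_lit 5) (nat_lit 6) (nat_lit 5) (nat_lit 7) (nat_lit 4) (nat_lit 319) (nat_lit 246) (nat_lit 155)) (XT.lf (nat_lit 0) (nat_lit 21162241820) (nat_lit 76) (nat_lit 8064157771) (nat_lit 152) (nat_lit 48153209563) (nat_lit 5) (nat_lit 5) (nat_lit 6) (nat_lit 5) (nat_lit 7) (nat_lit 4) (nat_lit 320) (nat_lit 246) (nat_lit 154)))) (XT.nd (nat_lit 156) (nat_lit 0) (nat_lit 0) (XT.nd (nat_lit 78) (nat_lit 0) (nat_lit 0) (XT.lf (nat_lit 0) (nat_lit 32856537471) (nat_lit 76) (nat_lit 2084625065) (nat_lit 152) (nat_lit 45990745363) (nat_lit 5)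 (nat_lit 5) (nat_lit 6) (nat_lit 5) (nat_lit 7) (nat_lit 4) (nat_lit 321) (nat_lit 246) (nat_lit 153)) (XT.lf (nat_lit 0) (nat_lit 41000784886) (nat_lit 152) (nat_lit 39602845361) (nat_lit 0) (nat_lit 4055246202) (nat_lit 5) (nat_lit 5) (nat_lit 7) (nat_lit 4) (nat_lit 5) (nat_lit 4) (nat_lit 322) (nat_lit 246) (nat_lit 152))) (XT.nd (nat_lit 78) (nat_lit 0) (nat_lit 0) (XT.lf (nat_lit 0) (nat_lit 47391508223) (nat_lit 152) (nat_lit 30751433362) (nat_lit 0) (nat_lit 10427856260) (nat_lit 5) (nat_lit 5) (nat_lit 7) (nat_lit 4) (nat_lit 5) (nat_lit 4) (nat_lit 323) (nat_lit 246) (nat_lit 151)) (XT.nd (nat_lit 78) (nat_lit 0) (nat_lit 0) (XT.lf (nat_lit 0) (nat_lit 54096001716) (nat_lit 152) (nat_lit 21467512800) (nat_lit 0) (nat_lit 17115099010) (nat_lit 5) (nat_lit 5) (nat_lit 7) (nat_lit 4) (nat_lit 5) (nat_lit 4) (nat_lit 324) (nat_lit 246) (nat_lit 150)) (XT.lf (nat_lit 0) (nat_lit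 61130228443) (nat_lit 152) (nat_lit 11728979104) (nat_lit 0) (nat_lit 24132896458) (nat_lit 5) (nat_lit 5) (nat_lit 7) (nat_lit 4) (nat_lit 5) (nat_lit 4) (nat_lit 325) (nat_lit 246) (nat_lit 149))))))) (XT.nd (nat_lit 624) (nat_lit 152) (nat_lit 0) (XT.nd (nat_lit 312) (nat_lit 0) (nat_lit 0) (XT.nd (nat_lit 156) (nat_lit 0) (nat_lit 0) (XT.nd (nat_lit 78) (nat_lit 76) (nat_lit 0) (XT.lf (nat_lit 0) (nat_lit 68510936564) (nat_lit 152) (nat_lit 1512645288) (nat_lit 0) (nat_lit 31497957648) (nat_lit 5) (nat_lit 5) (nat_lit 7) (nat_lit 4) (nat_lit 5) (nat_lit 4) (nat_lit 326) (nat_lit 246) (nat_lit 148)) (XT.lf (nat_lit 0) (nat_lit 9510199011) (nat_lit 76) (nat_lit 66893981040) (nat_lit 76) (nat_lit 29866100284) (nat_lit 4) (nat_lit 4) (nat_lit 5) (nat_lit 5) (nat_lit 5) (nat_lit 4) (nat_lit 327) (nat_lit 246) (nat_lit 147))) (XT.nd (nat_lit 78) (nat_lit 0) (nat_lit 0) (XT.lf (nat_lit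 0) (nat_lit 21128149382) (nat_lit 76) (nat_lit 63584676483) (nat_lit 76) (nat_lit 26542603499) (nat_lit 4) (nat_lit 4) (nat_lit 5) (nat_lit 5) (nat_lit 5) (nat_lit 4) (nat_lit 328) (nat_lit 246) (nat_lit 146)) (XT.lf (nat_lit 0) (nat_lit 33318852724) (nat_lit 76) (nat_lit 60113406264) (nat_lit 76) (nat_lit 23057816872) (nat_lit 4) (nat_lit 4) (nat_lit 5) (nat_lit 5) (nat_lit 5) (nat_lit 4) (nat_lit 329) (nat_lit 246) (nat_lit 145)))) (XT.nd (nat_lit 156) (nat_lit 0) (nat_lit 0) (XT.nd (nat_lit 78) (nat_lit 0) (nat_lit 0) (XT.lf (nat_lit 0) (nat_lit 46111334523) (nat_lit 76) (nat_lit 56471905454) (nat_lit 76) (nat_lit 19403443293) (nat_lit 4) (nat_lit 4) (nat_lit 5) (nat_lit 5) (nat_lit 5) (nat_lit 4) (nat_lit 330) (nat_lit 246) (nat_lit 144)) (XT.lf (nat_lit 0) (nat_lit 59536053068) (nat_lit 76) (nat_lit 52651503814) (nat_lit 76) (nat_lit 15570781872) (nat_lit 4) (nat_lit 4) (nat_lit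 5) (nat_lit 5) (nat_lit 5) (nat_lit 4) (nat_lit 331) (nat_lit 246) (nat_lit 143))) (XT.nd (nat_lit 78) (nat_lit 0) (nat_lit 0) (XT.lf (nat_lit 0) (nat_lit 73624971975) (nat_lit 76) (nat_lit 48643105148) (nat_lit 76) (nat_lit 11550707225) (nat_lit 4) (nat_lit 4) (nat_lit 5) (nat_lit 5) (nat_lit 5) (nat_lit 4) (nat_lit 332) (nat_lit 246) (nat_lit 142)) (XT.lf (nat_lit 0) (nat_lit 88411636289) (nat_lit 76) (nat_lit 44437165651) (nat_lit 76) (nat_lit 7333647746) (nat_lit 4) (nat_lit 4) (nat_lit 5) (nat_lit 5) (nat_lit 5) (nat_lit 4) (nat_lit 333) (nat_lit 246) (nat_lit 141))))) (XT.nd (nat_lit 312) (nat_lit 76) (nat_lit 0) (XT.nd (nat_lit 156) (nat_lit 0) (nat_lit 0) (XT.nd (nat_lit 78) (nat_lit 76) (nat_lit 0) (XT.lf (nat_lit 0) (nat_lit 103931252353) (nat_lit 76) (nat_lit 40023671181) (nat_lit 76) (nat_lit 2909562816) (nat_lit 4) (nat_lit 4) (nat_lit 5) (nat_lit 5) (nat_lit 5) (nat_lit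 4) (nat_lit 334) (nat_lit 246) (nat_lit 140)) (XT.lf (nat_lit 0) (nat_lit 1676643686) (nat_lit 152) (nat_lit 33687074959) (nat_lit 76) (nat_lit 118515733176) (nat_lit 3) (nat_lit 5) (nat_lit 5) (nat_lit 5) (nat_lit 4) (nat_lit 4) (nat_lit 335) (nat_lit 246) (nat_lit 139))) (XT.nd (nat_lit 78) (nat_lit 0) (nat_lit 0) (XT.lf (nat_lit 0) (nat_lit 6391019563) (nat_lit 152) (nat_lit 24032210270) (nat_lit 76) (nat_lit 130819724131) (nat_lit 3) (nat_lit 5) (nat_lit 5) (nat_lit 5) (nat_lit 4) (nat_lit 4) (nat_lit 336) (nat_lit 246) (nat_lit 138)) (XT.lf (nat_lit 0) (nat_lit 11337913699) (nat_lit 152) (nat_lit 13900225728) (nat_lit 76) (nat_lit 143736656821) (nat_lit 3) (nat_lit 5) (nat_lit 5) (nat_lit 5) (nat_lit 4) (nat_lit 4) (nat_lit 337) (nat_lit 246) (nat_lit 137)))) (XT.nd (nat_lit 156) (nat_lit 0) (nat_lit 0) (XT.nd (nat_lit 78) (nat_lit 76) (nat_lit 0) (XT.lf (nat_lit 0) (nat_lit 16529104413)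 (nat_lit 152) (nat_lit 3266997560) (nat_lit 76) (nat_lit 157297285848) (nat_lit 3) (nat_lit 5) (nat_lit 5) (nat_lit 5) (nat_lit 4) (nat_lit 4) (nat_lit 338) (nat_lit 246) (nat_lit 136)) (XT.lf (nat_lit 0) (nat_lit 8153762772) (nat_lit 76) (nat_lit 13950492000) (nat_lit 152) (nat_lit 163507438741) (nat_lit 2) (nat_lit 5) (nat_lit 3) (nat_lit 5) (nat_lit 4) (nat_lit 4) (nat_lit 339) (nat_lit 246) (nat_lit 135))) (XT.nd (nat_lit 78) (nat_lit 0) (nat_lit 0) (XT.lf (nat_lit 0) (nat_lit 20253965594) (nat_lit 76) (nat_lit 7756682146) (nat_lit 152) (nat_lit 166542646818) (nat_lit 2) (nat_lit 5) (nat_lit 3) (nat_lit 5) (nat_lit 4) (nat_lit 4) (nat_lit 340) (nat_lit 246) (nat_lit 134)) (XT.nd (nat_lit 78) (nat_lit 0) (nat_lit 0) (XT.lf (nat_lit 0) (nat_lit 32954399218) (nat_lit 76) (nat_lit 1255253432) (nat_lit 152) (nat_lit 169732462511) (nat_lit 2) (nat_lit 5) (nat_lit 3) (nat_lit 5) (nat_lit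 4) (nat_lit 4) (nat_lit 341) (nat_lit 246) (nat_lit 133)) (XT.lf (nat_lit 0) (nat_lit 40802981010) (nat_lit 152) (nat_lit 167602158855) (nat_lit 0) (nat_lit 5391022194) (nat_lit 2) (nat_lit 5) (nat_lit 4) (nat_lit 4) (nat_lit 2) (nat_lit 4) (nat_lit 342) (nat_lit 246) (nat_lit 132))))))))
noncomputable def xc133 : XT := (XT.nd (nat_lit 30030) (nat_lit 0) (nat_lit 3800) (XT.nd (nat_lit 624) (nat_lit 0) (nat_lit 0) (XT.nd (nat_lit 312) (nat_lit 0) (nat_lit 0) (XT.nd (nat_lit 156) (nat_lit 0) (nat_lit 0) (XT.nd (nat_lit 78) (nat_lit 0) (nat_lit 0) (XT.lf (nat_lit 0) (nat_lit 47744068404) (nat_lit 152) (nat_lit 164072334037) (nat_lit 0) (nat_lit 12325607965) (nat_lit 2) (nat_lit 5) (nat_lit 4) (nat_lit 4) (nat_lit 2) (nat_lit 4) (nat_lit 343) (nat_lit 246) (nat_lit 131)) (XT.lf (nat_lit 0) (nat_lit 55029843210) (nat_lit 152) (nat_lit 160370239121) (nat_lit 0) (nat_lit 19605190749) (nat_lit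 2) (nat_lit 5) (nat_lit 4) (nat_lit 4) (nat_lit 2) (nat_lit 4) (nat_lit 344) (nat_lit 246) (nat_lit 130))) (XT.nd (nat_lit 78) (nat_lit 0) (nat_lit 0) (XT.lf (nat_lit 0) (nat_lit 62677652509) (nat_lit 152) (nat_lit 156487059594) (nat_lit 0) (nat_lit 27247102884) (nat_lit 2) (nat_lit 5) (nat_lit 4) (nat_lit 4) (nat_lit 2) (nat_lit 4) (nat_lit 345) (nat_lit 246) (nat_lit 129)) (XT.lf (nat_lit 0) (nat_lit 70705705372) (nat_lit 152) (nat_lit 152413549791) (nat_lit 0) (nat_lit 35269539400) (nat_lit 2) (nat_lit 5) (nat_lit 4) (nat_lit 4) (nat_lit 2) (nat_lit 4) (nat_lit 346) (nat_lit 246) (nat_lit 128)))) (XT.nd (nat_lit 156) (nat_lit 0) (nat_lit 0) (XT.nd (nat_lit 78) (nat_lit 0) (nat_lit 0) (XT.lf (nat_lit 0) (nat_lit 79133116210) (nat_lit 152) (nat_lit 148140010880) (nat_lit 0) (nat_lit 43691601336) (nat_lit 2) (nat_lit 5) (nat_lit 4) (nat_lit 4) (nat_lit 2) (nat_lit 4) (nat_lit 347)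 (nat_lit 246) (nat_lit 127)) (XT.lf (nat_lit 0) (nat_lit 87979950287) (nat_lit 152) (nat_lit 143656267767) (nat_lit 0) (nat_lit 52533341221) (nat_lit 2) (nat_lit 5) (nat_lit 4) (nat_lit 4) (nat_lit 2) (nat_lit 4) (nat_lit 348) (nat_lit 246) (nat_lit 126))) (XT.nd (nat_lit 78) (nat_lit 0) (nat_lit 0) (XT.lf (nat_lit 0) (nat_lit 97267271494) (nat_lit 152) (nat_lit 138951644875) (nat_lit 0) (nat_lit 61815810816) (nat_lit 2) (nat_lit 5) (nat_lit 4) (nat_lit 4) (nat_lit 2) (nat_lit 4) (nat_lit 349) (nat_lit 246) (nat_lit 125)) (XT.lf (nat_lit 0) (nat_lit 107017192499) (nat_lit 152) (nat_lit 134014940719) (nat_lit 0) (nat_lit 71561111240) (nat_lit 2) (nat_lit 5) (nat_lit 4) (nat_lit 4) (nat_lit 2) (nat_lit 4) (nat_lit 350) (nat_lit 246) (nat_lit 124))))) (XT.nd (nat_lit 312) (nat_lit 0) (nat_lit 0) (XT.nd (nat_lit 156) (nat_lit 0) (nat_lit 0) (XT.nd (nat_lit 78) (nat_lit 0) (nat_lit 0) (XT.lf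 (nat_lit 0) (nat_lit 117252927402) (nat_lit 152) (nat_lit 128834401242) (nat_lit 0) (nat_lit 81792445588) (nat_lit 2) (nat_lit 5) (nat_lit 4) (nat_lit 4) (nat_lit 2) (nat_lit 4) (nat_lit 351) (nat_lit 246) (nat_lit 123)) (XT.lf (nat_lit 0) (nat_lit 127998846998) (nat_lit 152) (nat_lit 123397691827) (nat_lit 0) (nat_lit 92534174180) (nat_lit 2) (nat_lit 5) (nat_lit 4) (nat_lit 4) (nat_lit 2) (nat_lit 4) (nat_lit 352) (nat_lit 246) (nat_lit 122))) (XT.nd (nat_lit 78) (nat_lit 0) (nat_lit 0) (XT.lf (nat_lit 0) (nat_lit 139280536812) (nat_lit 152) (nat_lit 117691867927) (nat_lit 0) (nat_lit 103811872561) (nat_lit 2) (nat_lit 5) (nat_lit 4) (nat_lit 4) (nat_lit 2) (nat_lit 4) (nat_lit 353) (nat_lit 246) (nat_lit 121)) (XT.lf (nat_lit 0) (nat_lit 151124858009) (nat_lit 152) (nat_lit 111703344247) (nat_lit 0) (nat_lit 115652392394) (nat_lit 2) (nat_lit 5) (nat_lit 4) (nat_lit 4) (nat_lit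 2) (nat_lit 4) (nat_lit 354) (nat_lit 246) (nat_lit 120)))) (XT.nd (nat_lit 156) (nat_lit 0) (nat_lit 0) (XT.nd (nat_lit 78) (nat_lit 0) (nat_lit 0) (XT.lf (nat_lit 0) (nat_lit 163560011354) (nat_lit 152) (nat_lit 105417862398) (nat_lit 0) (nat_lit 128083925392) (nat_lit 2) (nat_lit 5) (nat_lit 4) (nat_lit 4) (nat_lit 2) (nat_lit 4) (nat_lit 355) (nat_lit 246) (nat_lit 119)) (XT.lf (nat_lit 0) (nat_lit 176615604355) (nat_lit 152) (nat_lit 98820456947) (nat_lit 0) (nat_lit 141136070443) (nat_lit 2) (nat_lit 5) (nat_lit 4) (nat_lit 4) (nat_lit 2) (nat_lit 4) (nat_lit 356) (nat_lit 246) (nat_lit 118))) (XT.nd (nat_lit 78) (nat_lit 0) (nat_lit 0) (XT.lf (nat_lit 0) (nat_lit 190322721758) (nat_lit 152) (nat_lit 91895419785) (nat_lit 0) (nat_lit 154839904084) (nat_lit 2) (nat_lit 5) (nat_lit 4) (nat_lit 4) (nat_lit 2) (nat_lit 4) (nat_lit 357) (nat_lit 246) (nat_lit 117)) (XT.nd (nat_lit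 78) (nat_lit 0) (nat_lit 0) (XT.lf (nat_lit 0) (nat_lit 204713999555) (nat_lit 152) (nat_lit 84626262728) (nat_lit 0) (nat_lit 169228054489) (nat_lit 2) (nat_lit 5) (nat_lit 4) (nat_lit 4) (nat_lit 2) (nat_lit 4) (nat_lit 358) (nat_lit 246) (nat_lit 116)) (XT.lf (nat_lit 0) (nat_lit 219823702695) (nat_lit 152) (nat_lit 76995678260) (nat_lit 0) (nat_lit 184334779160) (nat_lit 2) (nat_lit 5) (nat_lit 4) (nat_lit 4) (nat_lit 2) (nat_lit 4) (nat_lit 359) (nat_lit 246) (nat_lit 115))))))) (XT.nd (nat_lit 702) (nat_lit 2128) (nat_lit 0) (XT.nd (nat_lit 312) (nat_lit 456) (nat_lit 0) (XT.nd (nat_lit 156) (nat_lit 456) (nat_lit 0) (XT.nd (nat_lit 78) (nat_lit 0) (nat_lit 0) (XT.lf (nat_lit 0) (nat_lit 961298159) (nat_lit 0) (nat_lit 961298159) (nat_lit 380) (nat_lit 1595501702) (nat_lit 92) (nat_lit 5) (nat_lit 92) (nat_lit 3) (nat_lit 97) (nat_lit 3) (nat_lit 247) (nat_lit 247) (nat_lit 226))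 (XT.lf (nat_lit 0) (nat_lit 4993211622) (nat_lit 0) (nat_lit 501748068) (nat_lit 380) (nat_lit 1630128232) (nat_lit 92) (nat_lit 5) (nat_lit 92) (nat_lit 3) (nat_lit 97) (nat_lit 3) (nat_lit 248) (nat_lit 247) (nat_lit 225))) (XT.nd (nat_lit 78) (nat_lit 456) (nat_lit 0) (XT.lf (nat_lit 76) (nat_lit 958066112) (nat_lit 0) (nat_lit 6200890156) (nat_lit 456) (nat_lit 63478381) (nat_lit 93) (nat_lit 5) (nat_lit 92) (nat_lit 5) (nat_lit 98) (nat_lit 5) (nat_lit 249) (nat_lit 247) (nat_lit 224)) (XT.lf (nat_lit 0) (nat_lit 1478863879) (nat_lit 456) (nat_lit 3138748040) (nat_lit 532) (nat_lit 2708945092) (nat_lit 86) (nat_lit 5) (nat_lit 92) (nat_lit 5) (nat_lit 93) (nat_lit 5) (nat_lit 250) (nat_lit 247) (nat_lit 223)))) (XT.nd (nat_lit 156) (nat_lit 456) (nat_lit 0) (XT.nd (nat_lit 78) (nat_lit 0) (nat_lit 0) (XT.lf (nat_lit 76) (nat_lit 88846831) (nat_lit 0) (nat_lit 2916402957) (nat_lit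 532) (nat_lit 4435646658) (nat_lit 87) (nat_lit 5) (nat_lit 86) (nat_lit 5) (nat_lit 93) (nat_lit 5) (nat_lit 251) (nat_lit 247) (nat_lit 222)) (XT.lf (nat_lit 76) (nat_lit 3531587010) (nat_lit 0) (nat_lit 1040731515) (nat_lit 532) (nat_lit 2990907560) (nat_lit 87) (nat_lit 5) (nat_lit 86) (nat_lit 5) (nat_lit 93) (nat_lit 5) (nat_lit 252) (nat_lit 247) (nat_lit 221))) (XT.nd (nat_lit 78) (nat_lit 532) (nat_lit 0) (XT.lf (nat_lit 0) (nat_lit 6148175648) (nat_lit 456) (nat_lit 617479536) (nat_lit 532) (nat_lit 929963285) (nat_lit 87) (nat_lit 5) (nat_lit 93) (nat_lit 5) (nat_lit 94) (nat_lit 5) (nat_lit 253) (nat_lit 247) (nat_lit 220)) (XT.nd (nat_lit 78) (nat_lit 532) (nat_lit 0) (XT.lf (nat_lit 76) (nat_lit 2991038186) (nat_lit 0) (nat_lit 4795485168) (nat_lit 532) (nat_lit 49367953) (nat_lit 88) (nat_lit 5) (nat_lit 87) (nat_lit 5) (nat_lit 94) (nat_lit 5) (nat_lit 254) (nat_lit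 247) (nat_lit 219)) (XT.lf (nat_lit 0) (nat_lit 1406704962) (nat_lit 532) (nat_lit 1262336744) (nat_lit 608) (nat_lit 5316758004) (nat_lit 80) (nat_lit 5) (nat_lit 87) (nat_lit 5) (nat_lit 88) (nat_lit 5) (nat_lit 255) (nat_lit 247) (nat_lit 218)))))) (XT.nd (nat_lit 312) (nat_lit 1672) (nat_lit 0) (XT.nd (nat_lit 156) (nat_lit 456) (nat_lit 0) (XT.nd (nat_lit 78) (nat_lit 0) (nat_lit 76) (XT.lf (nat_lit 76) (nat_lit 2524887498) (nat_lit 0) (nat_lit 373437045) (nat_lit 608) (nat_lit 5247003452) (nat_lit 81) (nat_lit 5) (nat_lit 80) (nat_lit 5) (nat_lit 88) (nat_lit 5) (nat_lit 256) (nat_lit 247) (nat_lit 217)) (XT.lf (nat_lit 0) (nat_lit 4446066772) (nat_lit 532) (nat_lit 1856434700) (nat_lit 76) (nat_lit 2011620835) (nat_lit 81) (nat_lit 5) (nat_lit 88) (nat_lit 5) (nat_lit 82) (nat_lit 5) (nat_lit 257) (nat_lit 247) (nat_lit 216))) (XT.nd (nat_lit 78) (nat_lit 0) (nat_lit 0) (XT.lf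 (nat_lit 0) (nat_lit 2101858812) (nat_lit 532) (nat_lit 3939713655) (nat_lit 608) (nat_lit 2451614286) (nat_lit 74) (nat_lit 5) (nat_lit 81) (nat_lit 5) (nat_lit 82) (nat_lit 5) (nat_lit 258) (nat_lit 247) (nat_lit 215)) (XT.lf (nat_lit 0) (nat_lit 6268343075) (nat_lit 532) (nat_lit 1413807528) (nat_lit 608) (nat_lit 1001121564) (nat_lit 74) (nat_lit 5) (nat_lit 81) (nat_lit 5) (nat_lit 82) (nat_lit 5) (nat_lit 259) (nat_lit 247) (nat_lit 214)))) (XT.nd (nat_lit 156) (nat_lit 988) (nat_lit 0) (XT.nd (nat_lit 78) (nat_lit 0) (nat_lit 0) (XT.lf (nat_lit 0) (nat_lit 488327049) (nat_lit 684) (nat_lit 7150416896) (nat_lit 76) (nat_lit 1244855418) (nat_lit 65) (nat_lit 5) (nat_lit 74) (nat_lit 5) (nat_lit 66) (nat_lit 5) (nat_lit 260) (nat_lit 247) (nat_lit 213)) (XT.lf (nat_lit 0) (nat_lit 2021390588) (nat_lit 684) (nat_lit 3016301713) (nat_lit 76) (nat_lit 4055578007) (nat_lit 65) (nat_lit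 5) (nat_lit 74) (nat_lit 5) (nat_lit 66) (nat_lit 5) (nat_lit 261) (nat_lit 247) (nat_lit 212))) (XT.nd (nat_lit 78) (nat_lit 304) (nat_lit 0) (XT.lf (nat_lit 0) (nat_lit 1312543361) (nat_lit 684) (nat_lit 2280047962) (nat_lit 760) (nat_lit 5723032909) (nat_lit 56) (nat_lit 5) (nat_lit 65) (nat_lit 5) (nat_lit 66) (nat_lit 5) (nat_lit 262) (nat_lit 247) (nat_lit 211)) (XT.nd (nat_lit 78) (nat_lit 304) (nat_lit 0) (XT.lf (nat_lit 0) (nat_lit 5246914683) (nat_lit 760) (nat_lit 3650726425) (nat_lit 76) (nat_lit 651487221) (nat_lit 56) (nat_lit 5) (nat_lit 66) (nat_lit 5) (nat_lit 57) (nat_lit 5) (nat_lit 263) (nat_lit 247) (nat_lit 210)) (XT.lf (nat_lit 0) (nat_lit 855646502) (nat_lit 304) (nat_lit 6124790575) (nat_lit 380) (nat_lit 2814294605) (nat_lit 52) (nat_lit 5) (nat_lit 56) (nat_lit 5) (nat_lit 57) (nat_lit 5) (nat_lit 264) (nat_lit 247) (nat_lit 209))))))))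
noncomputable def xc134 : XT := (XT.nd (nat_lit 1326) (nat_lit 988) (nat_lit 0) (XT.nd (nat_lit 624) (nat_lit 1064) (nat_lit 0) (XT.nd (nat_lit 312) (nat_lit 532) (nat_lit 0) (XT.nd (nat_lit 156) (nat_lit 0) (nat_lit 0) (XT.nd (nat_lit 78) (nat_lit 380) (nat_lit 0) (XT.lf (nat_lit 0) (nat_lit 5661340255) (nat_lit 304) (nat_lit 3148628208) (nat_lit 380) (nat_lit 1242416472) (nat_lit 52) (nat_lit 5) (nat_lit 56) (nat_lit 5) (nat_lit 57) (nat_lit 5) (nat_lit 265) (nat_lit 247) (nat_lit 208)) (XT.lf (nat_lit 0) (nat_lit 336669501) (nat_lit 304) (nat_lit 12550367) (nat_lit 380) (nat_lit 9975885607) (nat_lit 47) (nat_lit 5) (nat_lit 51) (nat_lit 5) (nat_lit 52) (nat_lit 5) (nat_lit 266) (nat_lit 247) (nat_lit 207))) (XT.nd (nat_lit 78) (nat_lit 0) (nat_lit 0) (XT.lf (nat_lit 0) (nat_lit 2056051447) (nat_lit 380) (nat_lit 5281265943) (nat_lit 76) (nat_lit 3269462131) (nat_lit 47) (nat_lit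 5) (nat_lit 52) (nat_lit 5) (nat_lit 48) (nat_lit 5) (nat_lit 267) (nat_lit 247) (nat_lit 206)) (XT.lf (nat_lit 0) (nat_lit 3801352289) (nat_lit 380) (nat_lit 390311661) (nat_lit 76) (nat_lit 6713411401) (nat_lit 47) (nat_lit 5) (nat_lit 52) (nat_lit 5) (nat_lit 48) (nat_lit 5) (nat_lit 268) (nat_lit 247) (nat_lit 205)))) (XT.nd (nat_lit 156) (nat_lit 304) (nat_lit 0) (XT.nd (nat_lit 78) (nat_lit 0) (nat_lit 0) (XT.lf (nat_lit 0) (nat_lit 4851547772) (nat_lit 228) (nat_lit 813280412) (nat_lit 304) (nat_lit 5552097496) (nat_lit 44) (nat_lit 5) (nat_lit 47) (nat_lit 5) (nat_lit 48) (nat_lit 5) (nat_lit 269) (nat_lit 247) (nat_lit 204)) (XT.lf (nat_lit 0) (nat_lit 7627356342) (nat_lit 304) (nat_lit 1268190477) (nat_lit 76) (nat_lit 2648704169) (nat_lit 44) (nat_lit 5) (nat_lit 48) (nat_lit 5) (nat_lit 45) (nat_lit 5) (nat_lit 270) (nat_lit 247) (nat_lit 203))) (XT.nd (nat_lit 78) (nat_lit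 0) (nat_lit 0) (XT.lf (nat_lit 0) (nat_lit 4155517552) (nat_lit 304) (nat_lit 5569251992) (nat_lit 380) (nat_lit 2161503074) (nat_lit 40) (nat_lit 5) (nat_lit 44) (nat_lit 5) (nat_lit 45) (nat_lit 5) (nat_lit 271) (nat_lit 247) (nat_lit 202)) (XT.lf (nat_lit 0) (nat_lit 9847205208) (nat_lit 304) (nat_lit 2061109007) (nat_lit 380) (nat_lit 338178064) (nat_lit 40) (nat_lit 5) (nat_lit 44) (nat_lit 5) (nat_lit 45) (nat_lit 5) (nat_lit 272) (nat_lit 247) (nat_lit 201))))) (XT.nd (nat_lit 312) (nat_lit 532) (nat_lit 0) (XT.nd (nat_lit 156) (nat_lit 228) (nat_lit 0) (XT.nd (nat_lit 78) (nat_lit 0) (nat_lit 0) (XT.lf (nat_lit 0) (nat_lit 1563678150) (nat_lit 304) (nat_lit 9418377770) (nat_lit 76) (nat_lit 1639690742) (nat_lit 36) (nat_lit 5) (nat_lit 40) (nat_lit 5) (nat_lit 37) (nat_lit 5) (nat_lit 273) (nat_lit 247) (nat_lit 200)) (XT.lf (nat_lit 0) (nat_lit 3586299930) (nat_lit 304) (nat_lit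 3931862718) (nat_lit 76) (nat_lit 5495610238) (nat_lit 36) (nat_lit 5) (nat_lit 40) (nat_lit 5) (nat_lit 37) (nat_lit 5) (nat_lit 274) (nat_lit 247) (nat_lit 199))) (XT.nd (nat_lit 78) (nat_lit 0) (nat_lit 0) (XT.lf (nat_lit 0) (nat_lit 1842632497) (nat_lit 228) (nat_lit 3859950746) (nat_lit 304) (nat_lit 7723322278) (nat_lit 33) (nat_lit 5) (nat_lit 36) (nat_lit 5) (nat_lit 37) (nat_lit 5) (nat_lit 275) (nat_lit 247) (nat_lit 198)) (XT.lf (nat_lit 0) (nat_lit 7956711132) (nat_lit 304) (nat_lit 5860084831) (nat_lit 76) (nat_lit 40372661) (nat_lit 33) (nat_lit 5) (nat_lit 37) (nat_lit 5) (nat_lit 34) (nat_lit 5) (nat_lit 276) (nat_lit 247) (nat_lit 197)))) (XT.nd (nat_lit 156) (nat_lit 304) (nat_lit 0) (XT.nd (nat_lit 78) (nat_lit 0) (nat_lit 0) (XT.lf (nat_lit 0) (nat_lit 43245526) (nat_lit 228) (nat_lit 10310581300) (nat_lit 304) (nat_lit 3954773371) (nat_lit 30) (nat_lit 5) (nat_lit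 33) (nat_lit 5) (nat_lit 34) (nat_lit 5) (nat_lit 277) (nat_lit 247) (nat_lit 196)) (XT.lf (nat_lit 0) (nat_lit 6401779492) (nat_lit 228) (nat_lit 6535516165) (nat_lit 304) (nat_lit 1842096525) (nat_lit 30) (nat_lit 5) (nat_lit 33) (nat_lit 5) (nat_lit 34) (nat_lit 5) (nat_lit 278) (nat_lit 247) (nat_lit 195))) (XT.nd (nat_lit 78) (nat_lit 228) (nat_lit 0) (XT.lf (nat_lit 0) (nat_lit 332370195) (nat_lit 304) (nat_lit 2243856634) (nat_lit 76) (nat_lit 12698896518) (nat_lit 29) (nat_lit 5) (nat_lit 33) (nat_lit 5) (nat_lit 30) (nat_lit 5) (nat_lit 279) (nat_lit 247) (nat_lit 194)) (XT.nd (nat_lit 78) (nat_lit 0) (nat_lit 0) (XT.lf (nat_lit 0) (nat_lit 2616023573) (nat_lit 304) (nat_lit 11556192882) (nat_lit 76) (nat_lit 1618894426) (nat_lit 26) (nat_lit 5) (nat_lit 30) (nat_lit 5) (nat_lit 27) (nat_lit 5) (nat_lit 280) (nat_lit 247) (nat_lit 193)) (XT.lf (nat_lit 0) (nat_lit 5065087153)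 (nat_lit 304) (nat_lit 5299548866) (nat_lit 76) (nat_lit 5965793939) (nat_lit 26) (nat_lit 5) (nat_lit 30) (nat_lit 5) (nat_lit 27) (nat_lit 5) (nat_lit 281) (nat_lit 247) (nat_lit 192))))))) (XT.nd (nat_lit 624) (nat_lit 456) (nat_lit 0) (XT.nd (nat_lit 312) (nat_lit 228) (nat_lit 0) (XT.nd (nat_lit 156) (nat_lit 152) (nat_lit 0) (XT.nd (nat_lit 78) (nat_lit 0) (nat_lit 0) (XT.lf (nat_lit 0) (nat_lit 1271353926) (nat_lit 152) (nat_lit 6356880853) (nat_lit 228) (nat_lit 9268987755) (nat_lit 24) (nat_lit 5) (nat_lit 26) (nat_lit 5) (nat_lit 27) (nat_lit 5) (nat_lit 282) (nat_lit 247) (nat_lit 191)) (XT.lf (nat_lit 0) (nat_lit 8316158842) (nat_lit 152) (nat_lit 2065653435) (nat_lit 228) (nat_lit 7107513682) (nat_lit 24) (nat_lit 5) (nat_lit 26) (nat_lit 5) (nat_lit 27) (nat_lit 5) (nat_lit 283) (nat_lit 247) (nat_lit 190))) (XT.nd (nat_lit 78) (nat_lit 152) (nat_lit 0) (XT.lf (nat_lit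 0) (nat_lit 13284830694) (nat_lit 228) (nat_lit 2473943135) (nat_lit 76) (nat_lit 2351753428) (nat_lit 24) (nat_lit 5) (nat_lit 27) (nat_lit 5) (nat_lit 25) (nat_lit 5) (nat_lit 284) (nat_lit 247) (nat_lit 189)) (XT.lf (nat_lit 0) (nat_lit 4638639318) (nat_lit 152) (nat_lit 11775564800) (nat_lit 228) (nat_lit 2344601256) (nat_lit 22) (nat_lit 5) (nat_lit 24) (nat_lit 5) (nat_lit 25) (nat_lit 5) (nat_lit 285) (nat_lit 247) (nat_lit 188)))) (XT.nd (nat_lit 156) (nat_lit 152) (nat_lit 0) (XT.nd (nat_lit 78) (nat_lit 0) (nat_lit 0) (XT.lf (nat_lit 0) (nat_lit 269879199) (nat_lit 228) (nat_lit 7285931278) (nat_lit 76) (nat_lit 11882669849) (nat_lit 21) (nat_lit 5) (nat_lit 24) (nat_lit 5) (nat_lit 22) (nat_lit 5) (nat_lit 286) (nat_lit 247) (nat_lit 187)) (XT.lf (nat_lit 0) (nat_lit 2912561419) (nat_lit 228) (nat_lit 183196681) (nat_lit 76) (nat_lit 17055712013) (nat_lit 21) (nat_lit 5)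 (nat_lit 24) (nat_lit 5) (nat_lit 22) (nat_lit 5) (nat_lit 287) (nat_lit 247) (nat_lit 186))) (XT.nd (nat_lit 78) (nat_lit 0) (nat_lit 0) (XT.lf (nat_lit 0) (nat_lit 5808111284) (nat_lit 228) (nat_lit 13441001975) (nat_lit 76) (nat_lit 1645022768) (nat_lit 19) (nat_lit 5) (nat_lit 22) (nat_lit 5) (nat_lit 20) (nat_lit 5) (nat_lit 288) (nat_lit 247) (nat_lit 185)) (XT.lf (nat_lit 0) (nat_lit 8880146368) (nat_lit 228) (nat_lit 6280522318) (nat_lit 76) (nat_lit 6511741462) (nat_lit 19) (nat_lit 5) (nat_lit 22) (nat_lit 5) (nat_lit 20) (nat_lit 5) (nat_lit 289) (nat_lit 247) (nat_lit 184))))) (XT.nd (nat_lit 312) (nat_lit 228) (nat_lit 0) (XT.nd (nat_lit 156) (nat_lit 76) (nat_lit 0) (XT.nd (nat_lit 78) (nat_lit 0) (nat_lit 0) (XT.lf (nat_lit 0) (nat_lit 1245873519) (nat_lit 152) (nat_lit 10858222414) (nat_lit 228) (nat_lit 10385643831) (nat_lit 17) (nat_lit 5) (nat_lit 19) (nat_lit 5)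 (nat_lit 20) (nat_lit 5) (nat_lit 290) (nat_lit 247) (nat_lit 183)) (XT.lf (nat_lit 0) (nat_lit 9335167030) (nat_lit 152) (nat_lit 6239816096) (nat_lit 228) (nat_lit 7768720420) (nat_lit 17) (nat_lit 5) (nat_lit 19) (nat_lit 5) (nat_lit 20) (nat_lit 5) (nat_lit 291) (nat_lit 247) (nat_lit 182))) (XT.nd (nat_lit 78) (nat_lit 76) (nat_lit 0) (XT.lf (nat_lit 0) (nat_lit 17798956006) (nat_lit 152) (nat_lit 1400817210) (nat_lit 228) (nat_lit 5041626463) (nat_lit 17) (nat_lit 5) (nat_lit 19) (nat_lit 5) (nat_lit 20) (nat_lit 5) (nat_lit 292) (nat_lit 247) (nat_lit 181)) (XT.lf (nat_lit 0) (nat_lit 1461913552) (nat_lit 76) (nat_lit 21605311272) (nat_lit 152) (nat_lit 2113734300) (nat_lit 16) (nat_lit 5) (nat_lit 17) (nat_lit 5) (nat_lit 18) (nat_lit 4) (nat_lit 293) (nat_lit 247) (nat_lit 180)))) (XT.nd (nat_lit 156) (nat_lit 152) (nat_lit 0) (XT.nd (nat_lit 78) (nat_lit 0) (nat_lit 0) (XT.lf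 (nat_lit 0) (nat_lit 1044907102) (nat_lit 152) (nat_lit 16246200254) (nat_lit 76) (nat_lit 8869929421) (nat_lit 15) (nat_lit 5) (nat_lit 17) (nat_lit 5) (nat_lit 16) (nat_lit 5) (nat_lit 294) (nat_lit 247) (nat_lit 179)) (XT.lf (nat_lit 0) (nat_lit 4272578169) (nat_lit 152) (nat_lit 8462521183) (nat_lit 76) (nat_lit 14454222597) (nat_lit 15) (nat_lit 5) (nat_lit 17) (nat_lit 5) (nat_lit 16) (nat_lit 5) (nat_lit 295) (nat_lit 247) (nat_lit 178))) (XT.nd (nat_lit 78) (nat_lit 152) (nat_lit 0) (XT.lf (nat_lit 0) (nat_lit 7644616528) (nat_lit 152) (nat_lit 316474474) (nat_lit 76) (nat_lit 20308822002) (nat_lit 15) (nat_lit 5) (nat_lit 17) (nat_lit 5) (nat_lit 16) (nat_lit 5) (nat_lit 296) (nat_lit 247) (nat_lit 177)) (XT.nd (nat_lit 78) (nat_lit 0) (nat_lit 0) (XT.lf (nat_lit 0) (nat_lit 8482839046) (nat_lit 152) (nat_lit 2818652686) (nat_lit 228) (nat_lit 18097269003) (nat_lit 13) (nat_lit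 5) (nat_lit 15) (nat_lit 5) (nat_lit 16) (nat_lit 5) (nat_lit 297) (nat_lit 247) (nat_lit 176)) (XT.lf (nat_lit 0) (nat_lit 15170981637) (nat_lit 228) (nat_lit 12916870967) (nat_lit 76) (nat_lit 2494746719) (nat_lit 13) (nat_lit 5) (nat_lit 16) (nat_lit 5) (nat_lit 14) (nat_lit 4) (nat_lit 298) (nat_lit 247) (nat_lit 175))))))))
noncomputable def xc135 : XT := (XT.nd (nat_lit 1326) (nat_lit 152) (nat_lit 0) (XT.nd (nat_lit 624) (nat_lit 228) (nat_lit 0) (XT.nd (nat_lit 312) (nat_lit 228) (nat_lit 0) (XT.nd (nat_lit 156) (nat_lit 0) (nat_lit 0) (XT.nd (nat_lit 78) (nat_lit 76) (nat_lit 0) (XT.lf (nat_lit 0) (nat_lit 19264942245) (nat_lit 228) (nat_lit 4588656613) (nat_lit 76) (nat_lit 7970516427) (nat_lit 13) (nat_lit 5) (nat_lit 16) (nat_lit 5) (nat_lit 14) (nat_lit 4) (nat_lit 299) (nat_lit 247) (nat_lit 174)) (XT.lf (nat_lit 0) (nat_lit 4269198536) (nat_lit 76) (nat_lit 19346569632)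 (nat_lit 152) (nat_lit 9509364089) (nat_lit 12) (nat_lit 5) (nat_lit 13) (nat_lit 5) (nat_lit 14) (nat_lit 4) (nat_lit 300) (nat_lit 247) (nat_lit 173))) (XT.nd (nat_lit 78) (nat_lit 0) (nat_lit 0) (XT.lf (nat_lit 0) (nat_lit 13706220900) (nat_lit 76) (nat_lit 14541468975) (nat_lit 152) (nat_lit 6240364456) (nat_lit 12) (nat_lit 5) (nat_lit 13) (nat_lit 5) (nat_lit 14) (nat_lit 4) (nat_lit 301) (nat_lit 247) (nat_lit 172)) (XT.lf (nat_lit 0) (nat_lit 23593157868) (nat_lit 76) (nat_lit 9504567293) (nat_lit 152) (nat_lit 2822101927) (nat_lit 12) (nat_lit 5) (nat_lit 13) (nat_lit 5) (nat_lit 14) (nat_lit 4) (nat_lit 302) (nat_lit 247) (nat_lit 171)))) (XT.nd (nat_lit 156) (nat_lit 0) (nat_lit 0) (XT.nd (nat_lit 78) (nat_lit 152) (nat_lit 0) (XT.lf (nat_lit 0) (nat_lit 729443518) (nat_lit 152) (nat_lit 3482074965) (nat_lit 76) (nat_lit 33211752768) (nat_lit 11) (nat_lit 5) (nat_lit 13)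 (nat_lit 5) (nat_lit 12) (nat_lit 5) (nat_lit 303) (nat_lit 247) (nat_lit 170)) (XT.lf (nat_lit 0) (nat_lit 4466989987) (nat_lit 228) (nat_lit 33090887379) (nat_lit 76) (nat_lit 1436560121) (nat_lit 9) (nat_lit 5) (nat_lit 12) (nat_lit 5) (nat_lit 10) (nat_lit 4) (nat_lit 304) (nat_lit 247) (nat_lit 169))) (XT.nd (nat_lit 78) (nat_lit 0) (nat_lit 0) (XT.lf (nat_lit 0) (nat_lit 8508094685) (nat_lit 228) (nat_lit 24852394102) (nat_lit 76) (nat_lit 7277864258) (nat_lit 9) (nat_lit 5) (nat_lit 12) (nat_lit 5) (nat_lit 10) (nat_lit 4) (nat_lit 305) (nat_lit 247) (nat_lit 168)) (XT.lf (nat_lit 0) (nat_lit 12739542488) (nat_lit 228) (nat_lit 16221517874) (nat_lit 76) (nat_lit 13404013488) (nat_lit 9) (nat_lit 5) (nat_lit 12) (nat_lit 5) (nat_lit 10) (nat_lit 4) (nat_lit 306) (nat_lit 247) (nat_lit 167))))) (XT.nd (nat_lit 312) (nat_lit 152) (nat_lit 0) (XT.nd (nat_lit 156) (nat_lit 0) (nat_lit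 0) (XT.nd (nat_lit 78) (nat_lit 76) (nat_lit 0) (XT.lf (nat_lit 0) (nat_lit 17171408270) (nat_lit 228) (nat_lit 7177708988) (nat_lit 76) (nat_lit 19829593883) (nat_lit 9) (nat_lit 5) (nat_lit 12) (nat_lit 5) (nat_lit 10) (nat_lit 4) (nat_lit 307) (nat_lit 247) (nat_lit 166)) (XT.lf (nat_lit 0) (nat_lit 2376632516) (nat_lit 76) (nat_lit 19474717472) (nat_lit 152) (nat_lit 24230377819) (nat_lit 8) (nat_lit 5) (nat_lit 9) (nat_lit 5) (nat_lit 10) (nat_lit 4) (nat_lit 308) (nat_lit 247) (nat_lit 165))) (XT.nd (nat_lit 78) (nat_lit 0) (nat_lit 0) (XT.lf (nat_lit 0) (nat_lit 12640445921) (nat_lit 76) (nat_lit 14236011194) (nat_lit 152) (nat_lit 21197900388) (nat_lit 8) (nat_lit 5) (nat_lit 9) (nat_lit 5) (nat_lit 10) (nat_lit 4) (nat_lit 309) (nat_lit 247) (nat_lit 164)) (XT.lf (nat_lit 0) (nat_lit 23400841403) (nat_lit 76) (nat_lit 8742083291) (nat_lit 152) (nat_lit 18024208368) (nat_lit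 8) (nat_lit 5) (nat_lit 9) (nat_lit 5) (nat_lit 10) (nat_lit 4) (nat_lit 310) (nat_lit 247) (nat_lit 163)))) (XT.nd (nat_lit 156) (nat_lit 152) (nat_lit 0) (XT.nd (nat_lit 78) (nat_lit 0) (nat_lit 0) (XT.lf (nat_lit 0) (nat_lit 34683438952) (nat_lit 76) (nat_lit 2979852981) (nat_lit 152) (nat_lit 14701745348) (nat_lit 8) (nat_lit 5) (nat_lit 9) (nat_lit 5) (nat_lit 10) (nat_lit 4) (nat_lit 311) (nat_lit 247) (nat_lit 162)) (XT.lf (nat_lit 0) (nat_lit 43498546423) (nat_lit 152) (nat_lit 8206045233) (nat_lit 0) (nat_lit 2966319415) (nat_lit 8) (nat_lit 5) (nat_lit 10) (nat_lit 4) (nat_lit 8) (nat_lit 4) (nat_lit 312) (nat_lit 247) (nat_lit 161))) (XT.nd (nat_lit 78) (nat_lit 76) (nat_lit 0) (XT.lf (nat_lit 0) (nat_lit 1735274160) (nat_lit 76) (nat_lit 47957593881) (nat_lit 76) (nat_lit 7395862249) (nat_lit 7) (nat_lit 4) (nat_lit 8) (nat_lit 5) (nat_lit 8) (nat_lit 4) (nat_lit 313) (nat_lit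 247) (nat_lit 160)) (XT.nd (nat_lit 78) (nat_lit 76) (nat_lit 0) (XT.lf (nat_lit 0) (nat_lit 12444091078) (nat_lit 76) (nat_lit 43883335389) (nat_lit 76) (nat_lit 3293504116) (nat_lit 7) (nat_lit 4) (nat_lit 8) (nat_lit 5) (nat_lit 8) (nat_lit 4) (nat_lit 314) (nat_lit 247) (nat_lit 159)) (XT.lf (nat_lit 0) (nat_lit 973321516) (nat_lit 152) (nat_lit 38621283727) (nat_lit 76) (nat_lit 22684768600) (nat_lit 6) (nat_lit 5) (nat_lit 8) (nat_lit 5) (nat_lit 7) (nat_lit 4) (nat_lit 315) (nat_lit 247) (nat_lit 158))))))) (XT.nd (nat_lit 702) (nat_lit 76) (nat_lit 0) (XT.nd (nat_lit 312) (nat_lit 76) (nat_lit 0) (XT.nd (nat_lit 156) (nat_lit 0) (nat_lit 0) (XT.nd (nat_lit 78) (nat_lit 0) (nat_lit 0) (XT.lf (nat_lit 0) (nat_lit 5334998457) (nat_lit 152) (nat_lit 29705333202) (nat_lit 76) (nat_lit 30028112297) (nat_lit 6) (nat_lit 5) (nat_lit 8) (nat_lit 5) (nat_lit 7) (nat_lit 4) (nat_lit 316)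 (nat_lit 247) (nat_lit 157)) (XT.lf (nat_lit 0) (nat_lit 9907324349) (nat_lit 152) (nat_lit 20356338649) (nat_lit 76) (nat_lit 37733689607) (nat_lit 6) (nat_lit 5) (nat_lit 8) (nat_lit 5) (nat_lit 7) (nat_lit 4) (nat_lit 317) (nat_lit 247) (nat_lit 156))) (XT.nd (nat_lit 78) (nat_lit 0) (nat_lit 0) (XT.lf (nat_lit 0) (nat_lit 14701185683) (nat_lit 152) (nat_lit 10552040558) (nat_lit 76) (nat_lit 45819847143) (nat_lit 6) (nat_lit 5) (nat_lit 8) (nat_lit 5) (nat_lit 7) (nat_lit 4) (nat_lit 318) (nat_lit 247) (nat_lit 155)) (XT.lf (nat_lit 0) (nat_lit 19727996415) (nat_lit 152) (nat_lit 269095362) (nat_lit 76) (nat_lit 54305837662) (nat_lit 6) (nat_lit 5) (nat_lit 8) (nat_lit 5) (nat_lit 7) (nat_lit 4) (nat_lit 319) (nat_lit 247) (nat_lit 154)))) (XT.nd (nat_lit 156) (nat_lit 0) (nat_lit 0) (XT.nd (nat_lit 78) (nat_lit 0) (nat_lit 0) (XT.lf (nat_lit 0) (nat_lit 10864719002) (nat_lit 76)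 (nat_lit 14304634852) (nat_lit 152) (nat_lit 52516775611) (nat_lit 5) (nat_lit 5) (nat_lit 6) (nat_lit 5) (nat_lit 7) (nat_lit 4) (nat_lit 320) (nat_lit 247) (nat_lit 153)) (XT.lf (nat_lit 0) (nat_lit 22553727209) (nat_lit 76) (nat_lit 8327323277) (nat_lit 152) (nat_lit 50357536370) (nat_lit 5) (nat_lit 5) (nat_lit 6) (nat_lit 5) (nat_lit 7) (nat_lit 4) (nat_lit 321) (nat_lit 247) (nat_lit 152))) (XT.nd (nat_lit 78) (nat_lit 0) (nat_lit 0) (XT.lf (nat_lit 0) (nat_lit 34816862724) (nat_lit 76) (nat_lit 2055482621) (nat_lit 152) (nat_lit 48096631517) (nat_lit 5) (nat_lit 5) (nat_lit 6) (nat_lit 5) (nat_lit 7) (nat_lit 4) (nat_lit 322) (nat_lit 247) (nat_lit 151)) (XT.nd (nat_lit 78) (nat_lit 0) (nat_lit 0) (XT.lf (nat_lit 0) (nat_lit 43228164149) (nat_lit 152) (nat_lit 41273518605) (nat_lit 0) (nat_lit 4380965565) (nat_lit 5) (nat_lit 5) (nat_lit 7) (nat_lit 4) (nat_lit 5) (nat_lit 4)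 (nat_lit 323) (nat_lit 247) (nat_lit 150)) (XT.lf (nat_lit 0) (nat_lit 49929978890) (nat_lit 152) (nat_lit 31994272626) (nat_lit 0) (nat_lit 11066351028) (nat_lit 5) (nat_lit 5) (nat_lit 7) (nat_lit 4) (nat_lit 5) (nat_lit 4) (nat_lit 324) (nat_lit 247) (nat_lit 149)))))) (XT.nd (nat_lit 312) (nat_lit 0) (nat_lit 0) (XT.nd (nat_lit 156) (nat_lit 76) (nat_lit 0) (XT.nd (nat_lit 78) (nat_lit 0) (nat_lit 0) (XT.lf (nat_lit 0) (nat_lit 56961654426) (nat_lit 152) (nat_lit 22260190913) (nat_lit 0) (nat_lit 18082379632) (nat_lit 5) (nat_lit 5) (nat_lit 7) (nat_lit 4) (nat_lit 5) (nat_lit 4) (nat_lit 325) (nat_lit 247) (nat_lit 148)) (XT.lf (nat_lit 0) (nat_lit 64339932841) (nat_lit 152) (nat_lit 12048097081) (nat_lit 0) (nat_lit 25445756207) (nat_lit 5) (nat_lit 5) (nat_lit 7) (nat_lit 4) (nat_lit 5) (nat_lit 4) (nat_lit 326) (nat_lit 247) (nat_lit 147))) (XT.nd (nat_lit 78) (nat_lit 76)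 (nat_lit 0) (XT.lf (nat_lit 0) (nat_lit 72082381464) (nat_lit 152) (nat_lit 1333676621) (nat_lit 0) (nat_lit 33174012602) (nat_lit 5) (nat_lit 5) (nat_lit 7) (nat_lit 4) (nat_lit 5) (nat_lit 4) (nat_lit 327) (nat_lit 247) (nat_lit 146)) (XT.lf (nat_lit 0) (nat_lit 10236203427) (nat_lit 76) (nat_lit 70131047093) (nat_lit 76) (nat_lit 31209161823) (nat_lit 4) (nat_lit 4) (nat_lit 5) (nat_lit 5) (nat_lit 5) (nat_lit 4) (nat_lit 328) (nat_lit 247) (nat_lit 145)))) (XT.nd (nat_lit 156) (nat_lit 0) (nat_lit 0) (XT.nd (nat_lit 78) (nat_lit 0) (nat_lit 0) (XT.lf (nat_lit 0) (nat_lit 22423123008) (nat_lit 76) (nat_lit 66661402688) (nat_lit 76) (nat_lit 27726644649) (nat_lit 4) (nat_lit 4) (nat_lit 5) (nat_lit 5) (nat_lit 5) (nat_lit 4) (nat_lit 329) (nat_lit 247) (nat_lit 144)) (XT.lf (nat_lit 0) (nat_lit 35212001225) (nat_lit 76) (nat_lit 63021450274) (nat_lit 76) (nat_lit 24074432454) (nat_lit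 4) (nat_lit 4) (nat_lit 5) (nat_lit 5) (nat_lit 5) (nat_lit 4) (nat_lit 330) (nat_lit 247) (nat_lit 143))) (XT.nd (nat_lit 78) (nat_lit 0) (nat_lit 0) (XT.lf (nat_lit 0) (nat_lit 48633287786) (nat_lit 76) (nat_lit 59202523295) (nat_lit 76) (nat_lit 20243829494) (nat_lit 4) (nat_lit 4) (nat_lit 5) (nat_lit 5) (nat_lit 5) (nat_lit 4) (nat_lit 331) (nat_lit 247) (nat_lit 142)) (XT.nd (nat_lit 78) (nat_lit 0) (nat_lit 0) (XT.lf (nat_lit 0) (nat_lit 62718938138) (nat_lit 76) (nat_lit 55195529070) (nat_lit 76) (nat_lit 16225715286) (nat_lit 4) (nat_lit 4) (nat_lit 5) (nat_lit 5) (nat_lit 5) (nat_lit 4) (nat_lit 332) (nat_lit 247) (nat_lit 141)) (XT.lf (nat_lit 0) (nat_lit 77502489542) (nat_lit 76) (nat_lit 50990927134) (nat_lit 76) (nat_lit 12010522892) (nat_lit 4) (nat_lit 4) (nat_lit 5) (nat_lit 5) (nat_lit 5) (nat_lit 4) (nat_lit 333) (nat_lit 247) (nat_lit 140))))))))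
noncomputable def xc136 : XT := (XT.nd (nat_lit 1326) (nat_lit 0) (nat_lit 0) (XT.nd (nat_lit 624) (nat_lit 0) (nat_lit 0) (XT.nd (nat_lit 312) (nat_lit 76) (nat_lit 0) (XT.nd (nat_lit 156) (nat_lit 76) (nat_lit 0) (XT.nd (nat_lit 78) (nat_lit 0) (nat_lit 0) (XT.lf (nat_lit 0) (nat_lit 93019140930) (nat_lit 76) (nat_lit 46578706532) (nat_lit 76) (nat_lit 7588216138) (nat_lit 4) (nat_lit 4) (nat_lit 5) (nat_lit 5) (nat_lit 5) (nat_lit 4) (nat_lit 334) (nat_lit 247) (nat_lit 139)) (XT.lf (nat_lit 0) (nat_lit 109305836710) (nat_lit 76) (nat_lit 41948361977) (nat_lit 76) (nat_lit 2948265724) (nat_lit 4) (nat_lit 4) (nat_lit 5) (nat_lit 5) (nat_lit 5) (nat_lit 4) (nat_lit 335) (nat_lit 247) (nat_lit 138))) (XT.nd (nat_lit 78) (nat_lit 0) (nat_lit 0) (XT.lf (nat_lit 0) (nat_lit 1858911831) (nat_lit 152) (nat_lit 35198475434) (nat_lit 76) (nat_lit 124510961327) (nat_lit 3) (nat_lit 5) (nat_lit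 5) (nat_lit 5) (nat_lit 4) (nat_lit 4) (nat_lit 336) (nat_lit 247) (nat_lit 137)) (XT.lf (nat_lit 0) (nat_lit 6804319075) (nat_lit 152) (nat_lit 25069103381) (nat_lit 76) (nat_lit 137426845092) (nat_lit 3) (nat_lit 5) (nat_lit 5) (nat_lit 5) (nat_lit 4) (nat_lit 4) (nat_lit 337) (nat_lit 247) (nat_lit 136)))) (XT.nd (nat_lit 156) (nat_lit 76) (nat_lit 0) (XT.nd (nat_lit 78) (nat_lit 0) (nat_lit 0) (XT.lf (nat_lit 0) (nat_lit 11994093702) (nat_lit 152) (nat_lit 14438363298) (nat_lit 76) (nat_lit 150986475143) (nat_lit 3) (nat_lit 5) (nat_lit 5) (nat_lit 5) (nat_lit 4) (nat_lit 4) (nat_lit 338) (nat_lit 247) (nat_lit 135)) (XT.lf (nat_lit 0) (nat_lit 17440592318) (nat_lit 152) (nat_lit 3280943899) (nat_lit 76) (nat_lit 165222136313) (nat_lit 3) (nat_lit 5) (nat_lit 5) (nat_lit 5) (nat_lit 4) (nat_lit 4) (nat_lit 339) (nat_lit 247) (nat_lit 134))) (XT.nd (nat_lit 78) (nat_lit 0) (nat_lit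 0) (XT.lf (nat_lit 0) (nat_lit 8708444715) (nat_lit 76) (nat_lit 14584301289) (nat_lit 152) (nat_lit 171595241546) (nat_lit 2) (nat_lit 5) (nat_lit 3) (nat_lit 5) (nat_lit 4) (nat_lit 4) (nat_lit 340) (nat_lit 247) (nat_lit 133)) (XT.lf (nat_lit 0) (nat_lit 21406657973) (nat_lit 76) (nat_lit 8083835005) (nat_lit 152) (nat_lit 174786379985) (nat_lit 2) (nat_lit 5) (nat_lit 3) (nat_lit 5) (nat_lit 4) (nat_lit 4) (nat_lit 341) (nat_lit 247) (nat_lit 132))))) (XT.nd (nat_lit 312) (nat_lit 0) (nat_lit 0) (XT.nd (nat_lit 156) (nat_lit 0) (nat_lit 0) (XT.nd (nat_lit 78) (nat_lit 0) (nat_lit 0) (XT.lf (nat_lit 0) (nat_lit 34735446894) (nat_lit 76) (nat_lit 1260224438) (nat_lit 152) (nat_lit 178139657852) (nat_lit 2) (nat_lit 5) (nat_lit 3) (nat_lit 5) (nat_lit 4) (nat_lit 4) (nat_lit 342) (nat_lit 247) (nat_lit 131)) (XT.lf (nat_lit 0) (nat_lit 42915928478) (nat_lit 152) (nat_lit 175852440932)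 (nat_lit 0) (nat_lit 5713851371) (nat_lit 2) (nat_lit 5) (nat_lit 4) (nat_lit 4) (nat_lit 2) (nat_lit 4) (nat_lit 343) (nat_lit 247) (nat_lit 130))) (XT.nd (nat_lit 78) (nat_lit 0) (nat_lit 0) (XT.lf (nat_lit 0) (nat_lit 50200603651) (nat_lit 152) (nat_lit 172152307057) (nat_lit 0) (nat_lit 12992629380) (nat_lit 2) (nat_lit 5) (nat_lit 4) (nat_lit 4) (nat_lit 2) (nat_lit 4) (nat_lit 344) (nat_lit 247) (nat_lit 129)) (XT.lf (nat_lit 0) (nat_lit 57847365681) (nat_lit 152) (nat_lit 168270995189) (nat_lit 0) (nat_lit 20633775064) (nat_lit 2) (nat_lit 5) (nat_lit 4) (nat_lit 4) (nat_lit 2) (nat_lit 4) (nat_lit 345) (nat_lit 247) (nat_lit 128)))) (XT.nd (nat_lit 156) (nat_lit 0) (nat_lit 0) (XT.nd (nat_lit 78) (nat_lit 0) (nat_lit 0) (XT.lf (nat_lit 0) (nat_lit 65874421145) (nat_lit 152) (nat_lit 164199264109) (nat_lit 0) (nat_lit 28655481626) (nat_lit 2) (nat_lit 5) (nat_lit 4) (nat_lit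 4) (nat_lit 2) (nat_lit 4) (nat_lit 346) (nat_lit 247) (nat_lit 127)) (XT.lf (nat_lit 0) (nat_lit 74300882079) (nat_lit 152) (nat_lit 159927419219) (nat_lit 0) (nat_lit 37076848368) (nat_lit 2) (nat_lit 5) (nat_lit 4) (nat_lit 4) (nat_lit 2) (nat_lit 4) (nat_lit 347) (nat_lit 247) (nat_lit 126))) (XT.nd (nat_lit 78) (nat_lit 0) (nat_lit 0) (XT.lf (nat_lit 0) (nat_lit 83146811486) (nat_lit 152) (nat_lit 155445289461) (nat_lit 0) (nat_lit 45917926163) (nat_lit 2) (nat_lit 5) (nat_lit 4) (nat_lit 4) (nat_lit 2) (nat_lit 4) (nat_lit 348) (nat_lit 247) (nat_lit 125)) (XT.nd (nat_lit 78) (nat_lit 0) (nat_lit 0) (XT.lf (nat_lit 0) (nat_lit 92433271102) (nat_lit 152) (nat_lit 150742203095) (nat_lit 0) (nat_lit 55199765197) (nat_lit 2) (nat_lit 5) (nat_lit 4) (nat_lit 4) (nat_lit 2) (nat_lit 4) (nat_lit 349) (nat_lit 247) (nat_lit 124)) (XT.lf (nat_lit 0) (nat_lit 102182371545) (nat_lit 152)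 (nat_lit 145806962299) (nat_lit 0) (nat_lit 64944465085) (nat_lit 2) (nat_lit 5) (nat_lit 4) (nat_lit 4) (nat_lit 2) (nat_lit 4) (nat_lit 350) (nat_lit 247) (nat_lit 123))))))) (XT.nd (nat_lit 624) (nat_lit 0) (nat_lit 0) (XT.nd (nat_lit 312) (nat_lit 0) (nat_lit 0) (XT.nd (nat_lit 156) (nat_lit 0) (nat_lit 0) (XT.nd (nat_lit 78) (nat_lit 0) (nat_lit 0) (XT.lf (nat_lit 0) (nat_lit 112417324959) (nat_lit 152) (nat_lit 140627816498) (nat_lit 0) (nat_lit 75175227495) (nat_lit 2) (nat_lit 5) (nat_lit 4) (nat_lit 4) (nat_lit 2) (nat_lit 4) (nat_lit 351) (nat_lit 247) (nat_lit 122)) (XT.lf (nat_lit 0) (nat_lit 123162500281) (nat_lit 152) (nat_lit 135192434393) (nat_lit 0) (nat_lit 85916411385) (nat_lit 2) (nat_lit 5) (nat_lit 4) (nat_lit 4) (nat_lit 2) (nat_lit 4) (nat_lit 352) (nat_lit 247) (nat_lit 121))) (XT.nd (nat_lit 78) (nat_lit 0) (nat_lit 0) (XT.lf (nat_lit 0) (nat_lit 134443481262)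 (nat_lit 152) (nat_lit 129487874598) (nat_lit 0) (nat_lit 97193591001) (nat_lit 2) (nat_lit 5) (nat_lit 4) (nat_lit 4) (nat_lit 2) (nat_lit 4) (nat_lit 353) (nat_lit 247) (nat_lit 120)) (XT.lf (nat_lit 0) (nat_lit 146287127380) (nat_lit 152) (nat_lit 123500554828) (nat_lit 0) (nat_lit 109033616772) (nat_lit 2) (nat_lit 5) (nat_lit 4) (nat_lit 4) (nat_lit 2) (nat_lit 4) (nat_lit 354) (nat_lit 247) (nat_lit 119)))) (XT.nd (nat_lit 156) (nat_lit 0) (nat_lit 0) (XT.nd (nat_lit 78) (nat_lit 0) (nat_lit 0) (XT.lf (nat_lit 0) (nat_lit 158721637793) (nat_lit 152) (nat_lit 117216219560) (nat_lit 0) (nat_lit 121464679235) (nat_lit 2) (nat_lit 5) (nat_lit 4) (nat_lit 4) (nat_lit 2) (nat_lit 4) (nat_lit 355) (nat_lit 247) (nat_lit 118)) (XT.lf (nat_lit 0) (nat_lit 171776618477) (nat_lit 152) (nat_lit 110619906089) (nat_lit 0) (nat_lit 134516376158) (nat_lit 2) (nat_lit 5) (nat_lit 4) (nat_lit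 4) (nat_lit 2) (nat_lit 4) (nat_lit 356) (nat_lit 247) (nat_lit 117))) (XT.nd (nat_lit 78) (nat_lit 0) (nat_lit 0) (XT.lf (nat_lit 0) (nat_lit 185483152721) (nat_lit 152) (nat_lit 103695908910) (nat_lit 0) (nat_lit 148219783010) (nat_lit 2) (nat_lit 5) (nat_lit 4) (nat_lit 4) (nat_lit 2) (nat_lit 4) (nat_lit 357) (nat_lit 247) (nat_lit 116)) (XT.lf (nat_lit 0) (nat_lit 199873875129) (nat_lit 152) (nat_lit 96427742312) (nat_lit 0) (nat_lit 162607526949) (nat_lit 2) (nat_lit 5) (nat_lit 4) (nat_lit 4) (nat_lit 2) (nat_lit 4) (nat_lit 358) (nat_lit 247) (nat_lit 115))))) (XT.nd (nat_lit 29094) (nat_lit 0) (nat_lit 5928) (XT.nd (nat_lit 28938) (nat_lit 0) (nat_lit 6308) (XT.nd (nat_lit 28860) (nat_lit 0) (nat_lit 6840) (XT.lf (nat_lit 0) (nat_lit 214983049327) (nat_lit 152) (nat_lit 88798101139) (nat_lit 0) (nat_lit 177713864510) (nat_lit 2) (nat_lit 5) (nat_lit 4) (nat_lit 4) (nat_lit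 2) (nat_lit 4) (nat_lit 359) (nat_lit 247) (nat_lit 114)) (XT.lf (nat_lit 0) (nat_lit 1774053370) (nat_lit 0) (nat_lit 1774053370) (nat_lit 380) (nat_lit 60241678) (nat_lit 92) (nat_lit 5) (nat_lit 92) (nat_lit 3) (nat_lit 97) (nat_lit 3) (nat_lit 248) (nat_lit 248) (nat_lit 224))) (XT.nd (nat_lit 78) (nat_lit 0) (nat_lit 0) (XT.lf (nat_lit 0) (nat_lit 1320946256) (nat_lit 532) (nat_lit 640071309) (nat_lit 532) (nat_lit 5356108041) (nat_lit 85) (nat_lit 3) (nat_lit 92) (nat_lit 3) (nat_lit 92) (nat_lit 5) (nat_lit 249) (nat_lit 248) (nat_lit 223)) (XT.lf (nat_lit 76) (nat_lit 2571535613) (nat_lit 0) (nat_lit 206802292) (nat_lit 532) (nat_lit 4647258151) (nat_lit 86) (nat_lit 5) (nat_lit 85) (nat_lit 3) (nat_lit 92) (nat_lit 5) (nat_lit 250) (nat_lit 248) (nat_lit 222)))) (XT.nd (nat_lit 156) (nat_lit 456) (nat_lit 0) (XT.nd (nat_lit 78) (nat_lit 0) (nat_lit 0) (XT.lf (nat_lit 0) (nat_lit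 4257214837) (nat_lit 456) (nat_lit 1652147675) (nat_lit 532) (nat_lit 1633188140) (nat_lit 86) (nat_lit 5) (nat_lit 92) (nat_lit 5) (nat_lit 93) (nat_lit 5) (nat_lit 251) (nat_lit 248) (nat_lit 221)) (XT.lf (nat_lit 76) (nat_lit 1710318266) (nat_lit 0) (nat_lit 4046066809) (nat_lit 532) (nat_lit 1912118438) (nat_lit 87) (nat_lit 5) (nat_lit 86) (nat_lit 5) (nat_lit 93) (nat_lit 5) (nat_lit 252) (nat_lit 248) (nat_lit 220))) (XT.nd (nat_lit 78) (nat_lit 456) (nat_lit 0) (XT.lf (nat_lit 76) (nat_lit 5248194069) (nat_lit 0) (nat_lit 2029762096) (nat_lit 532) (nat_lit 525871459) (nat_lit 87) (nat_lit 5) (nat_lit 86) (nat_lit 5) (nat_lit 93) (nat_lit 5) (nat_lit 253) (nat_lit 248) (nat_lit 219)) (XT.nd (nat_lit 78) (nat_lit 0) (nat_lit 0) (XT.lf (nat_lit 0) (nat_lit 839199445) (nat_lit 532) (nat_lit 6967713597) (nat_lit 608) (nat_lit 141720058) (nat_lit 80) (nat_lit 5) (nat_lit 87) (nat_lit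 5) (nat_lit 88) (nat_lit 5) (nat_lit 254) (nat_lit 248) (nat_lit 218)) (XT.lf (nat_lit 0) (nat_lit 2257097906) (nat_lit 532) (nat_lit 3412514729) (nat_lit 608) (nat_lit 2430907869) (nat_lit 80) (nat_lit 5) (nat_lit 87) (nat_lit 5) (nat_lit 88) (nat_lit 5) (nat_lit 255) (nat_lit 248) (nat_lit 217))))))))
noncomputable def xc137 : XT := (XT.nd (nat_lit 1326) (nat_lit 1596) (nat_lit 0) (XT.nd (nat_lit 624) (nat_lit 1216) (nat_lit 0) (XT.nd (nat_lit 312) (nat_lit 1368) (nat_lit 0) (XT.nd (nat_lit 156) (nat_lit 456) (nat_lit 0) (XT.nd (nat_lit 78) (nat_lit 0) (nat_lit 0) (XT.lf (nat_lit 76) (nat_lit 277496355) (nat_lit 0) (nat_lit 3401281275) (nat_lit 608) (nat_lit 4584947029) (nat_lit 81) (nat_lit 5) (nat_lit 80) (nat_lit 5) (nat_lit 88) (nat_lit 5) (nat_lit 256) (nat_lit 248) (nat_lit 216)) (XT.lf (nat_lit 76) (nat_lit 4219489414) (nat_lit 0) (nat_lit 941004407) (nat_lit 608) (nat_lit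 3275496811) (nat_lit 81) (nat_lit 5) (nat_lit 80) (nat_lit 5) (nat_lit 88) (nat_lit 5) (nat_lit 257) (nat_lit 248) (nat_lit 215))) (XT.nd (nat_lit 78) (nat_lit 532) (nat_lit 0) (XT.lf (nat_lit 0) (nat_lit 6676639876) (nat_lit 532) (nat_lit 336369672) (nat_lit 76) (nat_lit 1606175758) (nat_lit 81) (nat_lit 5) (nat_lit 88) (nat_lit 5) (nat_lit 82) (nat_lit 5) (nat_lit 258) (nat_lit 248) (nat_lit 214)) (XT.lf (nat_lit 0) (nat_lit 3793824213) (nat_lit 532) (nat_lit 4487240275) (nat_lit 608) (nat_lit 530168429) (nat_lit 74) (nat_lit 5) (nat_lit 81) (nat_lit 5) (nat_lit 82) (nat_lit 5) (nat_lit 259) (nat_lit 248) (nat_lit 213)))) (XT.nd (nat_lit 156) (nat_lit 684) (nat_lit 0) (XT.nd (nat_lit 78) (nat_lit 608) (nat_lit 0) (XT.lf (nat_lit 0) (nat_lit 866852278) (nat_lit 608) (nat_lit 936813575) (nat_lit 76) (nat_lit 7211534492) (nat_lit 73) (nat_lit 5) (nat_lit 81) (nat_lit 5) (nat_lit 74)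 (nat_lit 5) (nat_lit 260) (nat_lit 248) (nat_lit 212)) (XT.lf (nat_lit 0) (nat_lit 2327613324) (nat_lit 684) (nat_lit 5847555905) (nat_lit 76) (nat_lit 1053450665) (nat_lit 65) (nat_lit 5) (nat_lit 74) (nat_lit 5) (nat_lit 66) (nat_lit 5) (nat_lit 261) (nat_lit 248) (nat_lit 211))) (XT.nd (nat_lit 78) (nat_lit 684) (nat_lit 0) (XT.lf (nat_lit 0) (nat_lit 3850907662) (nat_lit 684) (nat_lit 1585800764) (nat_lit 76) (nat_lit 4016787837) (nat_lit 65) (nat_lit 5) (nat_lit 74) (nat_lit 5) (nat_lit 66) (nat_lit 5) (nat_lit 262) (nat_lit 248) (nat_lit 210)) (XT.lf (nat_lit 0) (nat_lit 2933981466) (nat_lit 684) (nat_lit 2508670512) (nat_lit 760) (nat_lit 4247598405) (nat_lit 56) (nat_lit 5) (nat_lit 65) (nat_lit 5) (nat_lit 66) (nat_lit 5) (nat_lit 263) (nat_lit 248) (nat_lit 209))))) (XT.nd (nat_lit 312) (nat_lit 532) (nat_lit 0) (XT.nd (nat_lit 156) (nat_lit 380) (nat_lit 0) (XT.nd (nat_lit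 78) (nat_lit 304) (nat_lit 0) (XT.lf (nat_lit 0) (nat_lit 7098442842) (nat_lit 760) (nat_lit 2263019376) (nat_lit 76) (nat_lit 578393400) (nat_lit 56) (nat_lit 5) (nat_lit 66) (nat_lit 5) (nat_lit 57) (nat_lit 5) (nat_lit 264) (nat_lit 248) (nat_lit 208)) (XT.lf (nat_lit 0) (nat_lit 2443345692) (nat_lit 304) (nat_lit 6423740792) (nat_lit 380) (nat_lit 1333576589) (nat_lit 52) (nat_lit 5) (nat_lit 56) (nat_lit 5) (nat_lit 57) (nat_lit 5) (nat_lit 265) (nat_lit 248) (nat_lit 207))) (XT.nd (nat_lit 78) (nat_lit 304) (nat_lit 0) (XT.lf (nat_lit 0) (nat_lit 232012971) (nat_lit 380) (nat_lit 3063175194) (nat_lit 76) (nat_lit 7179814440) (nat_lit 51) (nat_lit 5) (nat_lit 56) (nat_lit 5) (nat_lit 52) (nat_lit 5) (nat_lit 266) (nat_lit 248) (nat_lit 206)) (XT.lf (nat_lit 0) (nat_lit 1814412480) (nat_lit 380) (nat_lit 8907757175) (nat_lit 76) (nat_lit 40823461) (nat_lit 47) (nat_lit 5) (nat_lit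 52) (nat_lit 5) (nat_lit 48) (nat_lit 5) (nat_lit 267) (nat_lit 248) (nat_lit 205)))) (XT.nd (nat_lit 156) (nat_lit 304) (nat_lit 0) (XT.nd (nat_lit 78) (nat_lit 228) (nat_lit 0) (XT.lf (nat_lit 0) (nat_lit 3537841982) (nat_lit 380) (nat_lit 4040667474) (nat_lit 76) (nat_lit 3483963402) (nat_lit 47) (nat_lit 5) (nat_lit 52) (nat_lit 5) (nat_lit 48) (nat_lit 5) (nat_lit 268) (nat_lit 248) (nat_lit 204)) (XT.lf (nat_lit 0) (nat_lit 1057015043) (nat_lit 228) (nat_lit 4264229696) (nat_lit 304) (nat_lit 6057168146) (nat_lit 44) (nat_lit 5) (nat_lit 47) (nat_lit 5) (nat_lit 48) (nat_lit 5) (nat_lit 269) (nat_lit 248) (nat_lit 203))) (XT.nd (nat_lit 78) (nat_lit 304) (nat_lit 0) (XT.lf (nat_lit 0) (nat_lit 6504023282) (nat_lit 228) (nat_lit 716841504) (nat_lit 304) (nat_lit 4488100759) (nat_lit 44) (nat_lit 5) (nat_lit 47) (nat_lit 5) (nat_lit 48) (nat_lit 5) (nat_lit 270) (nat_lit 248) (nat_lit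 202)) (XT.nd (nat_lit 78) (nat_lit 0) (nat_lit 0) (XT.lf (nat_lit 0) (nat_lit 77119719) (nat_lit 304) (nat_lit 9147033023) (nat_lit 380) (nat_lit 2831618739) (nat_lit 40) (nat_lit 5) (nat_lit 44) (nat_lit 5) (nat_lit 45) (nat_lit 5) (nat_lit 271) (nat_lit 248) (nat_lit 201)) (XT.lf (nat_lit 0) (nat_lit 5746863363) (nat_lit 304) (nat_lit 5642150375) (nat_lit 380) (nat_lit 1027985914) (nat_lit 40) (nat_lit 5) (nat_lit 44) (nat_lit 5) (nat_lit 45) (nat_lit 5) (nat_lit 272) (nat_lit 248) (nat_lit 200))))))) (XT.nd (nat_lit 702) (nat_lit 532) (nat_lit 0) (XT.nd (nat_lit 312) (nat_lit 532) (nat_lit 0) (XT.nd (nat_lit 156) (nat_lit 228) (nat_lit 0) (XT.nd (nat_lit 78) (nat_lit 228) (nat_lit 0) (XT.lf (nat_lit 0) (nat_lit 800900514) (nat_lit 380) (nat_lit 1153924860) (nat_lit 76) (nat_lit 10842786967) (nat_lit 39) (nat_lit 5) (nat_lit 44) (nat_lit 5) (nat_lit 40) (nat_lit 5) (nat_lit 273)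 (nat_lit 248) (nat_lit 199)) (XT.lf (nat_lit 0) (nat_lit 2756408014) (nat_lit 304) (nat_lit 8495389259) (nat_lit 76) (nat_lit 1941261212) (nat_lit 36) (nat_lit 5) (nat_lit 40) (nat_lit 5) (nat_lit 37) (nat_lit 5) (nat_lit 274) (nat_lit 248) (nat_lit 198))) (XT.nd (nat_lit 78) (nat_lit 228) (nat_lit 0) (XT.lf (nat_lit 0) (nat_lit 4827087266) (nat_lit 304) (nat_lit 2800924998) (nat_lit 76) (nat_lit 5979520210) (nat_lit 36) (nat_lit 5) (nat_lit 40) (nat_lit 5) (nat_lit 37) (nat_lit 5) (nat_lit 275) (nat_lit 248) (nat_lit 197)) (XT.lf (nat_lit 0) (nat_lit 3240883190) (nat_lit 228) (nat_lit 3778147432) (nat_lit 304) (nat_lit 7022932417) (nat_lit 33) (nat_lit 5) (nat_lit 36) (nat_lit 5) (nat_lit 37) (nat_lit 5) (nat_lit 276) (nat_lit 248) (nat_lit 196)))) (XT.nd (nat_lit 156) (nat_lit 304) (nat_lit 0) (XT.nd (nat_lit 78) (nat_lit 228) (nat_lit 0) (XT.lf (nat_lit 0) (nat_lit 9340840620) (nat_lit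 304) (nat_lit 4860644868) (nat_lit 76) (nat_lit 295729873) (nat_lit 33) (nat_lit 5) (nat_lit 37) (nat_lit 5) (nat_lit 34) (nat_lit 5) (nat_lit 277) (nat_lit 248) (nat_lit 195)) (XT.lf (nat_lit 0) (nat_lit 1317006132) (nat_lit 228) (nat_lit 10513692802) (nat_lit 304) (nat_lit 3142041760) (nat_lit 30) (nat_lit 5) (nat_lit 33) (nat_lit 5) (nat_lit 34) (nat_lit 5) (nat_lit 278) (nat_lit 248) (nat_lit 194))) (XT.nd (nat_lit 78) (nat_lit 304) (nat_lit 0) (XT.lf (nat_lit 0) (nat_lit 7932914495) (nat_lit 228) (nat_lit 6564751437) (nat_lit 304) (nat_lit 971848705) (nat_lit 30) (nat_lit 5) (nat_lit 33) (nat_lit 5) (nat_lit 34) (nat_lit 5) (nat_lit 279) (nat_lit 248) (nat_lit 193)) (XT.nd (nat_lit 78) (nat_lit 228) (nat_lit 0) (XT.lf (nat_lit 0) (nat_lit 1236180468) (nat_lit 304) (nat_lit 1170460741) (nat_lit 76) (nat_lit 13585001728) (nat_lit 29) (nat_lit 5) (nat_lit 33) (nat_lit 5) (nat_lit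 30) (nat_lit 5) (nat_lit 280) (nat_lit 248) (nat_lit 192)) (XT.lf (nat_lit 0) (nat_lit 3614716617) (nat_lit 304) (nat_lit 10926373913) (nat_lit 76) (nat_lit 1993441314) (nat_lit 26) (nat_lit 5) (nat_lit 30) (nat_lit 5) (nat_lit 27) (nat_lit 5) (nat_lit 281) (nat_lit 248) (nat_lit 191)))))) (XT.nd (nat_lit 312) (nat_lit 380) (nat_lit 0) (XT.nd (nat_lit 156) (nat_lit 0) (nat_lit 0) (XT.nd (nat_lit 78) (nat_lit 152) (nat_lit 0) (XT.lf (nat_lit 0) (nat_lit 6144905191) (nat_lit 304) (nat_lit 4414403820) (nat_lit 76) (nat_lit 6543704748) (nat_lit 26) (nat_lit 5) (nat_lit 30) (nat_lit 5) (nat_lit 27) (nat_lit 5) (nat_lit 282) (nat_lit 248) (nat_lit 190)) (XT.lf (nat_lit 0) (nat_lit 2466493749) (nat_lit 152) (nat_lit 6348023286) (nat_lit 228) (nat_lit 8884837848) (nat_lit 24) (nat_lit 5) (nat_lit 26) (nat_lit 5) (nat_lit 27) (nat_lit 5) (nat_lit 283) (nat_lit 248) (nat_lit 189))) (XT.nd (nat_lit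 78) (nat_lit 0) (nat_lit 0) (XT.lf (nat_lit 0) (nat_lit 9809654523) (nat_lit 152) (nat_lit 1857791717) (nat_lit 228) (nat_lit 6655651944) (nat_lit 24) (nat_lit 5) (nat_lit 26) (nat_lit 5) (nat_lit 27) (nat_lit 5) (nat_lit 284) (nat_lit 248) (nat_lit 188)) (XT.lf (nat_lit 0) (nat_lit 14683740024) (nat_lit 228) (nat_lit 1537141267) (nat_lit 76) (nat_lit 2756184743) (nat_lit 24) (nat_lit 5) (nat_lit 27) (nat_lit 5) (nat_lit 25) (nat_lit 5) (nat_lit 285) (nat_lit 248) (nat_lit 187)))) (XT.nd (nat_lit 156) (nat_lit 152) (nat_lit 0) (XT.nd (nat_lit 78) (nat_lit 76) (nat_lit 0) (XT.lf (nat_lit 0) (nat_lit 5913965486) (nat_lit 152) (nat_lit 12036922761) (nat_lit 228) (nat_lit 1707911847) (nat_lit 22) (nat_lit 5) (nat_lit 24) (nat_lit 5) (nat_lit 25) (nat_lit 5) (nat_lit 286) (nat_lit 248) (nat_lit 186)) (XT.lf (nat_lit 0) (nat_lit 978410626) (nat_lit 228) (nat_lit 6631590741) (nat_lit 76)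 (nat_lit 12763703843) (nat_lit 21) (nat_lit 5) (nat_lit 24) (nat_lit 5) (nat_lit 22) (nat_lit 5) (nat_lit 287) (nat_lit 248) (nat_lit 185))) (XT.nd (nat_lit 78) (nat_lit 0) (nat_lit 0) (XT.lf (nat_lit 0) (nat_lit 803490779) (nat_lit 152) (nat_lit 2929183898) (nat_lit 228) (nat_lit 17390790150) (nat_lit 19) (nat_lit 5) (nat_lit 21) (nat_lit 5) (nat_lit 22) (nat_lit 5) (nat_lit 288) (nat_lit 248) (nat_lit 184)) (XT.nd (nat_lit 78) (nat_lit 0) (nat_lit 0) (XT.lf (nat_lit 0) (nat_lit 6748665359) (nat_lit 228) (nat_lit 13129363346) (nat_lit 76) (nat_lit 2026540476) (nat_lit 19) (nat_lit 5) (nat_lit 22) (nat_lit 5) (nat_lit 20) (nat_lit 5) (nat_lit 289) (nat_lit 248) (nat_lit 183)) (XT.lf (nat_lit 0) (nat_lit 9943342744) (nat_lit 228) (nat_lit 5657702027) (nat_lit 76) (nat_lit 7122344315) (nat_lit 19) (nat_lit 5) (nat_lit 22) (nat_lit 5) (nat_lit 20) (nat_lit 5) (nat_lit 290) (nat_lit 248)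 (nat_lit 182))))))))
noncomputable def xc138 : XT := (XT.nd (nat_lit 1326) (nat_lit 304) (nat_lit 0) (XT.nd (nat_lit 624) (nat_lit 304) (nat_lit 0) (XT.nd (nat_lit 312) (nat_lit 228) (nat_lit 0) (XT.nd (nat_lit 156) (nat_lit 76) (nat_lit 0) (XT.nd (nat_lit 78) (nat_lit 0) (nat_lit 0) (XT.lf (nat_lit 0) (nat_lit 2229903176) (nat_lit 152) (nat_lit 11083492300) (nat_lit 228) (nat_lit 10269024524) (nat_lit 17) (nat_lit 5) (nat_lit 19) (nat_lit 5) (nat_lit 20) (nat_lit 5) (nat_lit 291) (nat_lit 248) (nat_lit 181)) (XT.lf (nat_lit 0) (nat_lit 10679769173) (nat_lit 152) (nat_lit 6249291439) (nat_lit 228) (nat_lit 7551535966) (nat_lit 17) (nat_lit 5) (nat_lit 19) (nat_lit 5) (nat_lit 20) (nat_lit 5) (nat_lit 292) (nat_lit 248) (nat_lit 180))) (XT.nd (nat_lit 78) (nat_lit 76) (nat_lit 0) (XT.lf (nat_lit 0) (nat_lit 19524945513) (nat_lit 152) (nat_lit 1182748107) (nat_lit 228) (nat_lit 4716926381)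 (nat_lit 17) (nat_lit 5) (nat_lit 19) (nat_lit 5) (nat_lit 20) (nat_lit 5) (nat_lit 293) (nat_lit 248) (nat_lit 179)) (XT.lf (nat_lit 0) (nat_lit 2381525085) (nat_lit 76) (nat_lit 22378401225) (nat_lit 152) (nat_lit 1651729879) (nat_lit 16) (nat_lit 5) (nat_lit 17) (nat_lit 5) (nat_lit 18) (nat_lit 4) (nat_lit 294) (nat_lit 248) (nat_lit 178)))) (XT.nd (nat_lit 156) (nat_lit 152) (nat_lit 0) (XT.nd (nat_lit 78) (nat_lit 0) (nat_lit 0) (XT.lf (nat_lit 0) (nat_lit 1620506243) (nat_lit 152) (nat_lit 16233745030) (nat_lit 76) (nat_lit 9587414433) (nat_lit 15) (nat_lit 5) (nat_lit 17) (nat_lit 5) (nat_lit 16) (nat_lit 5) (nat_lit 295) (nat_lit 248) (nat_lit 177)) (XT.lf (nat_lit 0) (nat_lit 4984639254) (nat_lit 152) (nat_lit 8100156540) (nat_lit 76) (nat_lit 15437875195) (nat_lit 15) (nat_lit 5) (nat_lit 17) (nat_lit 5) (nat_lit 16) (nat_lit 5) (nat_lit 296) (nat_lit 248) (nat_lit 176)))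 (XT.nd (nat_lit 78) (nat_lit 0) (nat_lit 0) (XT.lf (nat_lit 0) (nat_lit 429536019) (nat_lit 152) (nat_lit 8078714908) (nat_lit 228) (nat_lit 21149949028) (nat_lit 13) (nat_lit 5) (nat_lit 15) (nat_lit 5) (nat_lit 16) (nat_lit 5) (nat_lit 297) (nat_lit 248) (nat_lit 175)) (XT.lf (nat_lit 0) (nat_lit 9643001472) (nat_lit 152) (nat_lit 2687148867) (nat_lit 228) (nat_lit 18514284926) (nat_lit 13) (nat_lit 5) (nat_lit 15) (nat_lit 5) (nat_lit 16) (nat_lit 5) (nat_lit 298) (nat_lit 248) (nat_lit 174))))) (XT.nd (nat_lit 312) (nat_lit 228) (nat_lit 0) (XT.nd (nat_lit 156) (nat_lit 76) (nat_lit 0) (XT.nd (nat_lit 78) (nat_lit 0) (nat_lit 0) (XT.lf (nat_lit 0) (nat_lit 16375090258) (nat_lit 228) (nat_lit 12842685483) (nat_lit 76) (nat_lit 2870642898) (nat_lit 13) (nat_lit 5) (nat_lit 16) (nat_lit 5) (nat_lit 14) (nat_lit 4) (nat_lit 299) (nat_lit 248) (nat_lit 173)) (XT.lf (nat_lit 0) (nat_lit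 20652531775) (nat_lit 228) (nat_lit 4132347508) (nat_lit 76) (nat_lit 8608241147) (nat_lit 13) (nat_lit 5) (nat_lit 16) (nat_lit 5) (nat_lit 14) (nat_lit 4) (nat_lit 300) (nat_lit 248) (nat_lit 172))) (XT.nd (nat_lit 78) (nat_lit 0) (nat_lit 0) (XT.lf (nat_lit 0) (nat_lit 5157340045) (nat_lit 76) (nat_lit 20053885838) (nat_lit 152) (nat_lit 9548492857) (nat_lit 12) (nat_lit 5) (nat_lit 13) (nat_lit 5) (nat_lit 14) (nat_lit 4) (nat_lit 301) (nat_lit 248) (nat_lit 171)) (XT.lf (nat_lit 0) (nat_lit 15034085833) (nat_lit 76) (nat_lit 15020911686) (nat_lit 152) (nat_lit 6136821310) (nat_lit 12) (nat_lit 5) (nat_lit 13) (nat_lit 5) (nat_lit 14) (nat_lit 4) (nat_lit 302) (nat_lit 248) (nat_lit 170)))) (XT.nd (nat_lit 156) (nat_lit 152) (nat_lit 0) (XT.nd (nat_lit 78) (nat_lit 76) (nat_lit 0) (XT.lf (nat_lit 0) (nat_lit 25384771844) (nat_lit 76) (nat_lit 9743956860) (nat_lit 152) (nat_lit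 2567434292) (nat_lit 12) (nat_lit 5) (nat_lit 13) (nat_lit 5) (nat_lit 14) (nat_lit 4) (nat_lit 303) (nat_lit 248) (nat_lit 169)) (XT.lf (nat_lit 0) (nat_lit 1130778106) (nat_lit 152) (nat_lit 3060528801) (nat_lit 76) (nat_lit 35084114190) (nat_lit 11) (nat_lit 5) (nat_lit 13) (nat_lit 5) (nat_lit 12) (nat_lit 5) (nat_lit 304) (nat_lit 248) (nat_lit 168))) (XT.nd (nat_lit 78) (nat_lit 0) (nat_lit 0) (XT.lf (nat_lit 0) (nat_lit 5050558919) (nat_lit 228) (nat_lit 34144404954) (nat_lit 76) (nat_lit 1730450615) (nat_lit 9) (nat_lit 5) (nat_lit 12) (nat_lit 5) (nat_lit 10) (nat_lit 4) (nat_lit 305) (nat_lit 248) (nat_lit 167)) (XT.nd (nat_lit 78) (nat_lit 0) (nat_lit 0) (XT.lf (nat_lit 0) (nat_lit 9276565546) (nat_lit 228) (nat_lit 25522607337) (nat_lit 76) (nat_lit 7853245554) (nat_lit 9) (nat_lit 5) (nat_lit 12) (nat_lit 5) (nat_lit 10) (nat_lit 4) (nat_lit 306) (nat_lit 248) (nat_lit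 166)) (XT.lf (nat_lit 0) (nat_lit 13703249257) (nat_lit 228) (nat_lit 16487444748) (nat_lit 76) (nat_lit 14275631385) (nat_lit 9) (nat_lit 5) (nat_lit 12) (nat_lit 5) (nat_lit 10) (nat_lit 4) (nat_lit 307) (nat_lit 248) (nat_lit 165))))))) (XT.nd (nat_lit 624) (nat_lit 152) (nat_lit 0) (XT.nd (nat_lit 312) (nat_lit 76) (nat_lit 0) (XT.nd (nat_lit 156) (nat_lit 0) (nat_lit 0) (XT.nd (nat_lit 78) (nat_lit 76) (nat_lit 0) (XT.lf (nat_lit 0) (nat_lit 18341149774) (nat_lit 228) (nat_lit 7017404895) (nat_lit 76) (nat_lit 21012899503) (nat_lit 9) (nat_lit 5) (nat_lit 12) (nat_lit 5) (nat_lit 10) (nat_lit 4) (nat_lit 308) (nat_lit 248) (nat_lit 164)) (XT.lf (nat_lit 0) (nat_lit 3006279659) (nat_lit 76) (nat_lit 20241966509) (nat_lit 152) (nat_lit 25121747813) (nat_lit 8) (nat_lit 5) (nat_lit 9) (nat_lit 5) (nat_lit 10) (nat_lit 4) (nat_lit 309) (nat_lit 248) (nat_lit 163))) (XT.nd (nat_lit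 78) (nat_lit 0) (nat_lit 0) (XT.lf (nat_lit 0) (nat_lit 13758959186) (nat_lit 76) (nat_lit 14751157624) (nat_lit 152) (nat_lit 21952891696) (nat_lit 8) (nat_lit 5) (nat_lit 9) (nat_lit 5) (nat_lit 10) (nat_lit 4) (nat_lit 310) (nat_lit 248) (nat_lit 162)) (XT.lf (nat_lit 0) (nat_lit 25034208206) (nat_lit 76) (nat_lit 8991897808) (nat_lit 152) (nat_lit 18635034299) (nat_lit 8) (nat_lit 5) (nat_lit 9) (nat_lit 5) (nat_lit 10) (nat_lit 4) (nat_lit 311) (nat_lit 248) (nat_lit 161)))) (XT.nd (nat_lit 156) (nat_lit 76) (nat_lit 0) (XT.nd (nat_lit 78) (nat_lit 0) (nat_lit 0) (XT.lf (nat_lit 0) (nat_lit 36858872549) (nat_lit 76) (nat_lit 2950474537) (nat_lit 152) (nat_lit 15160275961) (nat_lit 8) (nat_lit 5) (nat_lit 9) (nat_lit 5) (nat_lit 10) (nat_lit 4) (nat_lit 312) (nat_lit 248) (nat_lit 160)) (XT.lf (nat_lit 0) (nat_lit 45926497963) (nat_lit 152) (nat_lit 8185735233) (nat_lit 0) (nat_lit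 3279075485) (nat_lit 8) (nat_lit 5) (nat_lit 10) (nat_lit 4) (nat_lit 8) (nat_lit 4) (nat_lit 313) (nat_lit 248) (nat_lit 159))) (XT.nd (nat_lit 78) (nat_lit 0) (nat_lit 0) (XT.lf (nat_lit 0) (nat_lit 2245704771) (nat_lit 76) (nat_lit 50179396746) (nat_lit 76) (nat_lit 7505212705) (nat_lit 7) (nat_lit 4) (nat_lit 8) (nat_lit 5) (nat_lit 8) (nat_lit 4) (nat_lit 314) (nat_lit 248) (nat_lit 158)) (XT.lf (nat_lit 0) (nat_lit 13469787920) (nat_lit 76) (nat_lit 45909809941) (nat_lit 76) (nat_lit 3210138697) (nat_lit 7) (nat_lit 4) (nat_lit 8) (nat_lit 5) (nat_lit 8) (nat_lit 4) (nat_lit 315) (nat_lit 248) (nat_lit 157))))) (XT.nd (nat_lit 312) (nat_lit 76) (nat_lit 0) (XT.nd (nat_lit 156) (nat_lit 0) (nat_lit 0) (XT.nd (nat_lit 78) (nat_lit 0) (nat_lit 0) (XT.lf (nat_lit 0) (nat_lit 1250655951) (nat_lit 152) (nat_lit 40160100071) (nat_lit 76) (nat_lit 23970744432) (nat_lit 6) (nat_lit 5)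 (nat_lit 8) (nat_lit 5) (nat_lit 7) (nat_lit 4) (nat_lit 316) (nat_lit 248) (nat_lit 156)) (XT.lf (nat_lit 0) (nat_lit 5819527769) (nat_lit 152) (nat_lit 30817030488) (nat_lit 76) (nat_lit 31674029723) (nat_lit 6) (nat_lit 5) (nat_lit 8) (nat_lit 5) (nat_lit 7) (nat_lit 4) (nat_lit 317) (nat_lit 248) (nat_lit 155))) (XT.nd (nat_lit 78) (nat_lit 0) (nat_lit 0) (XT.lf (nat_lit 0) (nat_lit 10610099508) (nat_lit 152) (nat_lit 21018375226) (nat_lit 76) (nat_lit 39758004384) (nat_lit 6) (nat_lit 5) (nat_lit 8) (nat_lit 5) (nat_lit 7) (nat_lit 4) (nat_lit 318) (nat_lit 248) (nat_lit 154)) (XT.lf (nat_lit 0) (nat_lit 15633777293) (nat_lit 152) (nat_lit 10740804152) (nat_lit 76) (nat_lit 48241915973) (nat_lit 6) (nat_lit 5) (nat_lit 8) (nat_lit 5) (nat_lit 7) (nat_lit 4) (nat_lit 319) (nat_lit 248) (nat_lit 153)))) (XT.nd (nat_lit 156) (nat_lit 0) (nat_lit 0) (XT.nd (nat_lit 78) (nat_lit 0)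 (nat_lit 0) (XT.lf (nat_lit 0) (nat_lit 41480784) (nat_lit 76) (nat_lit 20861689108) (nat_lit 152) (nat_lit 57105131128) (nat_lit 5) (nat_lit 5) (nat_lit 6) (nat_lit 5) (nat_lit 7) (nat_lit 4) (nat_lit 320) (nat_lit 248) (nat_lit 152)) (XT.lf (nat_lit 0) (nat_lit 11725453331) (nat_lit 76) (nat_lit 14886492897) (nat_lit 152) (nat_lit 54948963277) (nat_lit 5) (nat_lit 5) (nat_lit 6) (nat_lit 5) (nat_lit 7) (nat_lit 4) (nat_lit 321) (nat_lit 248) (nat_lit 151))) (XT.nd (nat_lit 78) (nat_lit 0) (nat_lit 0) (XT.lf (nat_lit 0) (nat_lit 23983792979) (nat_lit 76) (nat_lit 8616666873) (nat_lit 152) (nat_lit 52690983556) (nat_lit 5) (nat_lit 5) (nat_lit 6) (nat_lit 5) (nat_lit 7) (nat_lit 4) (nat_lit 322) (nat_lit 248) (nat_lit 150)) (XT.nd (nat_lit 78) (nat_lit 0) (nat_lit 0) (XT.lf (nat_lit 0) (nat_lit 36845686249) (nat_lit 76) (nat_lit 2037282877) (nat_lit 152) (nat_lit 50325815823) (nat_lit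 5) (nat_lit 5) (nat_lit 6) (nat_lit 5) (nat_lit 7) (nat_lit 4) (nat_lit 323) (nat_lit 248) (nat_lit 149)) (XT.lf (nat_lit 0) (nat_lit 45550424981) (nat_lit 152) (nat_lit 43056497009) (nat_lit 0) (nat_lit 4711539515) (nat_lit 5) (nat_lit 5) (nat_lit 7) (nat_lit 4) (nat_lit 5) (nat_lit 4) (nat_lit 324) (nat_lit 248) (nat_lit 148))))))))
noncomputable def xc139 : XT := (XT.nd (nat_lit 1326) (nat_lit 0) (nat_lit 0) (XT.nd (nat_lit 624) (nat_lit 152) (nat_lit 0) (XT.nd (nat_lit 312) (nat_lit 76) (nat_lit 0) (XT.nd (nat_lit 156) (nat_lit 0) (nat_lit 0) (XT.nd (nat_lit 78) (nat_lit 0) (nat_lit 0) (XT.lf (nat_lit 0) (nat_lit 52579670810) (nat_lit 152) (nat_lit 33326655279) (nat_lit 0) (nat_lit 11725883505) (nat_lit 5) (nat_lit 5) (nat_lit 7) (nat_lit 4) (nat_lit 5) (nat_lit 4) (nat_lit 325) (nat_lit 248) (nat_lit 147)) (XT.lf (nat_lit 0) (nat_lit 59955635219) (nat_lit 152) (nat_lit 23118599527)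 (nat_lit 0) (nat_lit 19087655686) (nat_lit 5) (nat_lit 5) (nat_lit 7) (nat_lit 4) (nat_lit 5) (nat_lit 4) (nat_lit 326) (nat_lit 248) (nat_lit 146))) (XT.nd (nat_lit 78) (nat_lit 0) (nat_lit 0) (XT.lf (nat_lit 0) (nat_lit 67695880027) (nat_lit 152) (nat_lit 12408024857) (nat_lit 0) (nat_lit 26814384086) (nat_lit 5) (nat_lit 5) (nat_lit 7) (nat_lit 4) (nat_lit 5) (nat_lit 4) (nat_lit 327) (nat_lit 248) (nat_lit 145)) (XT.lf (nat_lit 0) (nat_lit 75818834389) (nat_lit 152) (nat_lit 1169429902) (nat_lit 0) (nat_lit 34924465679) (nat_lit 5) (nat_lit 5) (nat_lit 7) (nat_lit 4) (nat_lit 5) (nat_lit 4) (nat_lit 328) (nat_lit 248) (nat_lit 144)))) (XT.nd (nat_lit 156) (nat_lit 0) (nat_lit 0) (XT.nd (nat_lit 78) (nat_lit 0) (nat_lit 0) (XT.lf (nat_lit 0) (nat_lit 10975219462) (nat_lit 76) (nat_lit 73539973144) (nat_lit 76) (nat_lit 32633344653) (nat_lit 4) (nat_lit 4) (nat_lit 5) (nat_lit 5)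 (nat_lit 5) (nat_lit 4) (nat_lit 329) (nat_lit 248) (nat_lit 143)) (XT.lf (nat_lit 0) (nat_lit 23760665695) (nat_lit 76) (nat_lit 69901495391) (nat_lit 76) (nat_lit 28983190918) (nat_lit 4) (nat_lit 4) (nat_lit 5) (nat_lit 5) (nat_lit 5) (nat_lit 4) (nat_lit 330) (nat_lit 248) (nat_lit 142))) (XT.nd (nat_lit 78) (nat_lit 0) (nat_lit 0) (XT.lf (nat_lit 0) (nat_lit 37178683702) (nat_lit 76) (nat_lit 66083972852) (nat_lit 76) (nat_lit 25154548398) (nat_lit 4) (nat_lit 4) (nat_lit 5) (nat_lit 5) (nat_lit 5) (nat_lit 4) (nat_lit 331) (nat_lit 248) (nat_lit 141)) (XT.lf (nat_lit 0) (nat_lit 51261221144) (nat_lit 76) (nat_lit 62078316188) (nat_lit 76) (nat_lit 21138301274) (nat_lit 4) (nat_lit 4) (nat_lit 5) (nat_lit 5) (nat_lit 5) (nat_lit 4) (nat_lit 332) (nat_lit 248) (nat_lit 140))))) (XT.nd (nat_lit 312) (nat_lit 152) (nat_lit 0) (XT.nd (nat_lit 156) (nat_lit 0) (nat_lit 0) (XT.nd (nat_lit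 78) (nat_lit 0) (nat_lit 0) (XT.lf (nat_lit 0) (nat_lit 66041807871) (nat_lit 76) (nat_lit 57874988121) (nat_lit 76) (nat_lit 16924887056) (nat_lit 4) (nat_lit 4) (nat_lit 5) (nat_lit 5) (nat_lit 5) (nat_lit 4) (nat_lit 333) (nat_lit 248) (nat_lit 139)) (XT.lf (nat_lit 0) (nat_lit 81555635758) (nat_lit 76) (nat_lit 53463980728) (nat_lit 76) (nat_lit 12504273803) (nat_lit 4) (nat_lit 4) (nat_lit 5) (nat_lit 5) (nat_lit 5) (nat_lit 4) (nat_lit 334) (nat_lit 248) (nat_lit 138))) (XT.nd (nat_lit 78) (nat_lit 0) (nat_lit 0) (XT.lf (nat_lit 0) (nat_lit 97839642490) (nat_lit 76) (nat_lit 48834791608) (nat_lit 76) (nat_lit 7865936247) (nat_lit 4) (nat_lit 4) (nat_lit 5) (nat_lit 5) (nat_lit 5) (nat_lit 4) (nat_lit 335) (nat_lit 248) (nat_lit 137)) (XT.lf (nat_lit 0) (nat_lit 114932599511) (nat_lit 76) (nat_lit 43976398884) (nat_lit 76) (nat_lit 2998830726) (nat_lit 4) (nat_lit 4) (nat_lit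 5) (nat_lit 5) (nat_lit 5) (nat_lit 4) (nat_lit 336) (nat_lit 248) (nat_lit 136)))) (XT.nd (nat_lit 156) (nat_lit 76) (nat_lit 0) (XT.nd (nat_lit 78) (nat_lit 0) (nat_lit 0) (XT.lf (nat_lit 0) (nat_lit 2041141741) (nat_lit 152) (nat_lit 36801525490) (nat_lit 76) (nat_lit 130799494874) (nat_lit 3) (nat_lit 5) (nat_lit 5) (nat_lit 5) (nat_lit 4) (nat_lit 4) (nat_lit 337) (nat_lit 248) (nat_lit 135)) (XT.lf (nat_lit 0) (nat_lit 7229567713) (nat_lit 152) (nat_lit 26173155011) (nat_lit 76) (nat_lit 144358173518) (nat_lit 3) (nat_lit 5) (nat_lit 5) (nat_lit 5) (nat_lit 4) (nat_lit 4) (nat_lit 338) (nat_lit 248) (nat_lit 134))) (XT.nd (nat_lit 78) (nat_lit 76) (nat_lit 0) (XT.lf (nat_lit 0) (nat_lit 12674781896) (nat_lit 152) (nat_lit 15017992378) (nat_lit 76) (nat_lit 158592928587) (nat_lit 3) (nat_lit 5) (nat_lit 5) (nat_lit 5) (nat_lit 4) (nat_lit 4) (nat_lit 339) (nat_lit 248) (nat_lit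 133)) (XT.nd (nat_lit 78) (nat_lit 76) (nat_lit 0) (XT.lf (nat_lit 0) (nat_lit 18389749085) (nat_lit 152) (nat_lit 3309477679) (nat_lit 76) (nat_lit 173537652355) (nat_lit 3) (nat_lit 5) (nat_lit 5) (nat_lit 5) (nat_lit 4) (nat_lit 4) (nat_lit 340) (nat_lit 248) (nat_lit 132)) (XT.lf (nat_lit 0) (nat_lit 9277194665) (nat_lit 76) (nat_lit 15255724688) (nat_lit 152) (nat_lit 180095575839) (nat_lit 2) (nat_lit 5) (nat_lit 3) (nat_lit 5) (nat_lit 4) (nat_lit 4) (nat_lit 341) (nat_lit 248) (nat_lit 131))))))) (XT.nd (nat_lit 702) (nat_lit 0) (nat_lit 0) (XT.nd (nat_lit 312) (nat_lit 0) (nat_lit 0) (XT.nd (nat_lit 156) (nat_lit 0) (nat_lit 0) (XT.nd (nat_lit 78) (nat_lit 0) (nat_lit 0) (XT.lf (nat_lit 0) (nat_lit 22603969648) (nat_lit 76) (nat_lit 8432987074) (nat_lit 152) (nat_lit 183450053476) (nat_lit 2) (nat_lit 5) (nat_lit 3) (nat_lit 5) (nat_lit 4) (nat_lit 4) (nat_lit 342) (nat_lit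 248) (nat_lit 130)) (XT.lf (nat_lit 0) (nat_lit 36593151405) (nat_lit 76) (nat_lit 1270816916) (nat_lit 152) (nat_lit 186974597403) (nat_lit 2) (nat_lit 5) (nat_lit 3) (nat_lit 5) (nat_lit 4) (nat_lit 4) (nat_lit 343) (nat_lit 248) (nat_lit 129))) (XT.nd (nat_lit 78) (nat_lit 0) (nat_lit 0) (XT.lf (nat_lit 0) (nat_lit 45127755213) (nat_lit 152) (nat_lit 184527307090) (nat_lit 0) (nat_lit 6047868718) (nat_lit 2) (nat_lit 5) (nat_lit 4) (nat_lit 4) (nat_lit 2) (nat_lit 4) (nat_lit 344) (nat_lit 248) (nat_lit 128)) (XT.lf (nat_lit 0) (nat_lit 52773519844) (nat_lit 152) (nat_lit 180647773945) (nat_lit 0) (nat_lit 13688284448) (nat_lit 2) (nat_lit 5) (nat_lit 4) (nat_lit 4) (nat_lit 2) (nat_lit 4) (nat_lit 345) (nat_lit 248) (nat_lit 127)))) (XT.nd (nat_lit 156) (nat_lit 0) (nat_lit 0) (XT.nd (nat_lit 78) (nat_lit 0) (nat_lit 0) (XT.lf (nat_lit 0) (nat_lit 60799625404) (nat_lit 152) (nat_lit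 176577736887) (nat_lit 0) (nat_lit 21709295816) (nat_lit 2) (nat_lit 5) (nat_lit 4) (nat_lit 4) (nat_lit 2) (nat_lit 4) (nat_lit 346) (nat_lit 248) (nat_lit 126)) (XT.lf (nat_lit 0) (nat_lit 69225181668) (nat_lit 152) (nat_lit 172307505351) (nat_lit 0) (nat_lit 30130000468) (nat_lit 2) (nat_lit 5) (nat_lit 4) (nat_lit 4) (nat_lit 2) (nat_lit 4) (nat_lit 347) (nat_lit 248) (nat_lit 125))) (XT.nd (nat_lit 78) (nat_lit 0) (nat_lit 0) (XT.lf (nat_lit 0) (nat_lit 78070249484) (nat_lit 152) (nat_lit 167826912120) (nat_lit 0) (nat_lit 38970447701) (nat_lit 2) (nat_lit 5) (nat_lit 4) (nat_lit 4) (nat_lit 2) (nat_lit 4) (nat_lit 348) (nat_lit 248) (nat_lit 124)) (XT.nd (nat_lit 78) (nat_lit 0) (nat_lit 0) (XT.lf (nat_lit 0) (nat_lit 87355888537) (nat_lit 152) (nat_lit 163125289114) (nat_lit 0) (nat_lit 48251686200) (nat_lit 2) (nat_lit 5) (nat_lit 4) (nat_lit 4) (nat_lit 2) (nat_lit 4) (nat_lit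 349) (nat_lit 248) (nat_lit 123)) (XT.lf (nat_lit 0) (nat_lit 97104207491) (nat_lit 152) (nat_lit 158191441994) (nat_lit 0) (nat_lit 57995814150) (nat_lit 2) (nat_lit 5) (nat_lit 4) (nat_lit 4) (nat_lit 2) (nat_lit 4) (nat_lit 350) (nat_lit 248) (nat_lit 122)))))) (XT.nd (nat_lit 312) (nat_lit 0) (nat_lit 0) (XT.nd (nat_lit 156) (nat_lit 0) (nat_lit 0) (XT.nd (nat_lit 78) (nat_lit 0) (nat_lit 0) (XT.lf (nat_lit 0) (nat_lit 107338416631) (nat_lit 152) (nat_lit 153013623503) (nat_lit 0) (nat_lit 68226031857) (nat_lit 2) (nat_lit 5) (nat_lit 4) (nat_lit 4) (nat_lit 2) (nat_lit 4) (nat_lit 351) (nat_lit 248) (nat_lit 121)) (XT.lf (nat_lit 0) (nat_lit 118082883120) (nat_lit 152) (nat_lit 147579505503) (nat_lit 0) (nat_lit 78966696982) (nat_lit 2) (nat_lit 5) (nat_lit 4) (nat_lit 4) (nat_lit 2) (nat_lit 4) (nat_lit 352) (nat_lit 248) (nat_lit 120))) (XT.nd (nat_lit 78) (nat_lit 0) (nat_lit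 0) (XT.lf (nat_lit 0) (nat_lit 129363189022) (nat_lit 152) (nat_lit 141876149618) (nat_lit 0) (nat_lit 90243382537) (nat_lit 2) (nat_lit 5) (nat_lit 4) (nat_lit 4) (nat_lit 2) (nat_lit 4) (nat_lit 353) (nat_lit 248) (nat_lit 119)) (XT.lf (nat_lit 0) (nat_lit 141206192208) (nat_lit 152) (nat_lit 135889976428) (nat_lit 0) (nat_lit 102082937773) (nat_lit 2) (nat_lit 5) (nat_lit 4) (nat_lit 4) (nat_lit 2) (nat_lit 4) (nat_lit 354) (nat_lit 248) (nat_lit 118)))) (XT.nd (nat_lit 156) (nat_lit 0) (nat_lit 0) (XT.nd (nat_lit 78) (nat_lit 0) (nat_lit 0) (XT.lf (nat_lit 0) (nat_lit 153640090304) (nat_lit 152) (nat_lit 129606733141) (nat_lit 0) (nat_lit 114513552108) (nat_lit 2) (nat_lit 5) (nat_lit 4) (nat_lit 4) (nat_lit 2) (nat_lit 4) (nat_lit 355) (nat_lit 248) (nat_lit 117)) (XT.lf (nat_lit 0) (nat_lit 166694487830) (nat_lit 152) (nat_lit 123011459653) (nat_lit 0) (nat_lit 127564822241)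 (nat_lit 2) (nat_lit 5) (nat_lit 4) (nat_lit 4) (nat_lit 2) (nat_lit 4) (nat_lit 356) (nat_lit 248) (nat_lit 116))) (XT.nd (nat_lit 78) (nat_lit 0) (nat_lit 0) (XT.lf (nat_lit 0) (nat_lit 180400466685) (nat_lit 152) (nat_lit 116088452932) (nat_lit 0) (nat_lit 141267822628) (nat_lit 2) (nat_lit 5) (nat_lit 4) (nat_lit 4) (nat_lit 2) (nat_lit 4) (nat_lit 357) (nat_lit 248) (nat_lit 115)) (XT.nd (nat_lit 78) (nat_lit 0) (nat_lit 0) (XT.lf (nat_lit 0) (nat_lit 194790660151) (nat_lit 152) (nat_lit 108821229630) (nat_lit 0) (nat_lit 155655179457) (nat_lit 2) (nat_lit 5) (nat_lit 4) (nat_lit 4) (nat_lit 2) (nat_lit 4) (nat_lit 358) (nat_lit 248) (nat_lit 114)) (XT.lf (nat_lit 0) (nat_lit 209899330594) (nat_lit 152) (nat_lit 101192486832) (nat_lit 0) (nat_lit 170761148341) (nat_lit 2) (nat_lit 5) (nat_lit 4) (nat_lit 4) (nat_lit 2) (nat_lit 4) (nat_lit 359) (nat_lit 248) (nat_lit 113))))))))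
noncomputable def xc140 : XT := (XT.nd (nat_lit 1326) (nat_lit 2280) (nat_lit 0) (XT.nd (nat_lit 624) (nat_lit 1748) (nat_lit 0) (XT.nd (nat_lit 312) (nat_lit 456) (nat_lit 0) (XT.nd (nat_lit 156) (nat_lit 0) (nat_lit 0) (XT.nd (nat_lit 78) (nat_lit 0) (nat_lit 0) (XT.lf (nat_lit 0) (nat_lit 1356769753) (nat_lit 532) (nat_lit 1176605379) (nat_lit 532) (nat_lit 1176605379) (nat_lit 85) (nat_lit 3) (nat_lit 92) (nat_lit 3) (nat_lit 92) (nat_lit 5) (nat_lit 249) (nat_lit 249) (nat_lit 222)) (XT.lf (nat_lit 76) (nat_lit 778394523) (nat_lit 0) (nat_lit 3321702444) (nat_lit 532) (nat_lit 3432115928) (nat_lit 86) (nat_lit 5) (nat_lit 85) (nat_lit 3) (nat_lit 92) (nat_lit 5) (nat_lit 250) (nat_lit 249) (nat_lit 221))) (XT.nd (nat_lit 78) (nat_lit 0) (nat_lit 76) (XT.lf (nat_lit 76) (nat_lit 4102675468) (nat_lit 0) (nat_lit 1408811061) (nat_lit 532) (nat_lit 2141283628) (nat_lit 86) (nat_lit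 5) (nat_lit 85) (nat_lit 3) (nat_lit 92) (nat_lit 5) (nat_lit 251) (nat_lit 249) (nat_lit 220)) (XT.lf (nat_lit 0) (nat_lit 6923053143) (nat_lit 456) (nat_lit 244017855) (nat_lit 532) (nat_lit 616249627) (nat_lit 86) (nat_lit 5) (nat_lit 92) (nat_lit 5) (nat_lit 93) (nat_lit 5) (nat_lit 252) (nat_lit 249) (nat_lit 219)))) (XT.nd (nat_lit 156) (nat_lit 0) (nat_lit 0) (XT.nd (nat_lit 78) (nat_lit 0) (nat_lit 0) (XT.lf (nat_lit 0) (nat_lit 466914922) (nat_lit 532) (nat_lit 4665923039) (nat_lit 608) (nat_lit 2787704882) (nat_lit 79) (nat_lit 5) (nat_lit 86) (nat_lit 5) (nat_lit 87) (nat_lit 5) (nat_lit 253) (nat_lit 249) (nat_lit 218)) (XT.lf (nat_lit 0) (nat_lit 1761107282) (nat_lit 532) (nat_lit 1190198897) (nat_lit 608) (nat_lit 5116521814) (nat_lit 79) (nat_lit 5) (nat_lit 86) (nat_lit 5) (nat_lit 87) (nat_lit 5) (nat_lit 254) (nat_lit 249) (nat_lit 217))) (XT.nd (nat_lit 78) (nat_lit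 0) (nat_lit 76) (XT.lf (nat_lit 76) (nat_lit 2493135986) (nat_lit 0) (nat_lit 594713500) (nat_lit 608) (nat_lit 5136602601) (nat_lit 80) (nat_lit 5) (nat_lit 79) (nat_lit 5) (nat_lit 87) (nat_lit 5) (nat_lit 255) (nat_lit 249) (nat_lit 216)) (XT.lf (nat_lit 0) (nat_lit 4462719395) (nat_lit 532) (nat_lit 2064980161) (nat_lit 608) (nat_lit 1862467534) (nat_lit 80) (nat_lit 5) (nat_lit 87) (nat_lit 5) (nat_lit 88) (nat_lit 5) (nat_lit 256) (nat_lit 249) (nat_lit 215))))) (XT.nd (nat_lit 312) (nat_lit 1292) (nat_lit 0) (XT.nd (nat_lit 156) (nat_lit 532) (nat_lit 0) (XT.nd (nat_lit 78) (nat_lit 0) (nat_lit 0) (XT.lf (nat_lit 76) (nat_lit 1785045021) (nat_lit 0) (nat_lit 4094102967) (nat_lit 608) (nat_lit 2686711701) (nat_lit 81) (nat_lit 5) (nat_lit 80) (nat_lit 5) (nat_lit 88) (nat_lit 5) (nat_lit 257) (nat_lit 249) (nat_lit 214)) (XT.lf (nat_lit 76) (nat_lit 5853010407) (nat_lit 0) (nat_lit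 1485919035) (nat_lit 608) (nat_lit 1413097671) (nat_lit 81) (nat_lit 5) (nat_lit 80) (nat_lit 5) (nat_lit 88) (nat_lit 5) (nat_lit 258) (nat_lit 249) (nat_lit 213))) (XT.nd (nat_lit 78) (nat_lit 76) (nat_lit 0) (XT.lf (nat_lit 0) (nat_lit 1146440953) (nat_lit 532) (nat_lit 7703489950) (nat_lit 608) (nat_lit 98962141) (nat_lit 74) (nat_lit 5) (nat_lit 81) (nat_lit 5) (nat_lit 82) (nat_lit 5) (nat_lit 259) (nat_lit 249) (nat_lit 212)) (XT.lf (nat_lit 0) (nat_lit 1255793306) (nat_lit 608) (nat_lit 3752492478) (nat_lit 76) (nat_lit 4145794750) (nat_lit 73) (nat_lit 5) (nat_lit 81) (nat_lit 5) (nat_lit 74) (nat_lit 5) (nat_lit 260) (nat_lit 249) (nat_lit 211)))) (XT.nd (nat_lit 156) (nat_lit 684) (nat_lit 0) (XT.nd (nat_lit 78) (nat_lit 0) (nat_lit 0) (XT.lf (nat_lit 0) (nat_lit 466609079) (nat_lit 608) (nat_lit 2160064242) (nat_lit 684) (nat_lit 6745447938) (nat_lit 65) (nat_lit 5) (nat_lit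 73) (nat_lit 5) (nat_lit 74) (nat_lit 5) (nat_lit 261) (nat_lit 249) (nat_lit 210)) (XT.lf (nat_lit 0) (nat_lit 4090134510) (nat_lit 684) (nat_lit 4633918430) (nat_lit 76) (nat_lit 876057416) (nat_lit 65) (nat_lit 5) (nat_lit 74) (nat_lit 5) (nat_lit 66) (nat_lit 5) (nat_lit 262) (nat_lit 249) (nat_lit 209))) (XT.nd (nat_lit 78) (nat_lit 684) (nat_lit 0) (XT.lf (nat_lit 0) (nat_lit 5611205921) (nat_lit 684) (nat_lit 230790545) (nat_lit 76) (nat_lit 3998516960) (nat_lit 65) (nat_lit 5) (nat_lit 74) (nat_lit 5) (nat_lit 66) (nat_lit 5) (nat_lit 263) (nat_lit 249) (nat_lit 208)) (XT.nd (nat_lit 78) (nat_lit 0) (nat_lit 0) (XT.lf (nat_lit 0) (nat_lit 4491846922) (nat_lit 684) (nat_lit 2738067894) (nat_lit 760) (nat_lit 2862167759) (nat_lit 56) (nat_lit 5) (nat_lit 65) (nat_lit 5) (nat_lit 66) (nat_lit 5) (nat_lit 264) (nat_lit 249) (nat_lit 207)) (XT.lf (nat_lit 0) (nat_lit 8894800290)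 (nat_lit 760) (nat_lit 951913319) (nat_lit 76) (nat_lit 511468914) (nat_lit 56) (nat_lit 5) (nat_lit 66) (nat_lit 5) (nat_lit 57) (nat_lit 5) (nat_lit 265) (nat_lit 249) (nat_lit 206))))))) (XT.nd (nat_lit 624) (nat_lit 988) (nat_lit 0) (XT.nd (nat_lit 312) (nat_lit 608) (nat_lit 0) (XT.nd (nat_lit 156) (nat_lit 304) (nat_lit 0) (XT.nd (nat_lit 78) (nat_lit 0) (nat_lit 0) (XT.lf (nat_lit 0) (nat_lit 68177620) (nat_lit 380) (nat_lit 6668983970) (nat_lit 76) (nat_lit 3897465874) (nat_lit 51) (nat_lit 5) (nat_lit 56) (nat_lit 5) (nat_lit 52) (nat_lit 5) (nat_lit 266) (nat_lit 249) (nat_lit 205)) (XT.lf (nat_lit 0) (nat_lit 1599438496) (nat_lit 380) (nat_lit 1831250746) (nat_lit 76) (nat_lit 7494576009) (nat_lit 51) (nat_lit 5) (nat_lit 56) (nat_lit 5) (nat_lit 52) (nat_lit 5) (nat_lit 267) (nat_lit 249) (nat_lit 204))) (XT.nd (nat_lit 78) (nat_lit 0) (nat_lit 0) (XT.lf (nat_lit 0) (nat_lit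 3218454974) (nat_lit 380) (nat_lit 7920133828) (nat_lit 76) (nat_lit 91462886) (nat_lit 47) (nat_lit 5) (nat_lit 52) (nat_lit 5) (nat_lit 48) (nat_lit 5) (nat_lit 268) (nat_lit 249) (nat_lit 203)) (XT.lf (nat_lit 0) (nat_lit 4965516814) (nat_lit 380) (nat_lit 2877928270) (nat_lit 76) (nat_lit 3704445622) (nat_lit 47) (nat_lit 5) (nat_lit 52) (nat_lit 5) (nat_lit 48) (nat_lit 5) (nat_lit 269) (nat_lit 249) (nat_lit 202)))) (XT.nd (nat_lit 156) (nat_lit 380) (nat_lit 0) (XT.nd (nat_lit 78) (nat_lit 0) (nat_lit 0) (XT.lf (nat_lit 0) (nat_lit 2452625911) (nat_lit 228) (nat_lit 4346866964) (nat_lit 304) (nat_lit 5082310733) (nat_lit 44) (nat_lit 5) (nat_lit 47) (nat_lit 5) (nat_lit 48) (nat_lit 5) (nat_lit 270) (nat_lit 249) (nat_lit 201)) (XT.lf (nat_lit 0) (nat_lit 8108043604) (nat_lit 228) (nat_lit 628327183) (nat_lit 304) (nat_lit 3495633587) (nat_lit 44) (nat_lit 5) (nat_lit 47) (nat_lit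 5) (nat_lit 48) (nat_lit 5) (nat_lit 271) (nat_lit 249) (nat_lit 200))) (XT.nd (nat_lit 78) (nat_lit 76) (nat_lit 0) (XT.lf (nat_lit 0) (nat_lit 1398661356) (nat_lit 304) (nat_lit 9408609230) (nat_lit 380) (nat_lit 1790730805) (nat_lit 40) (nat_lit 5) (nat_lit 44) (nat_lit 5) (nat_lit 45) (nat_lit 5) (nat_lit 272) (nat_lit 249) (nat_lit 199)) (XT.lf (nat_lit 0) (nat_lit 45278506) (nat_lit 380) (nat_lit 5691759769) (nat_lit 76) (nat_lit 7243099927) (nat_lit 39) (nat_lit 5) (nat_lit 44) (nat_lit 5) (nat_lit 40) (nat_lit 5) (nat_lit 273) (nat_lit 249) (nat_lit 198))))) (XT.nd (nat_lit 312) (nat_lit 532) (nat_lit 0) (XT.nd (nat_lit 156) (nat_lit 228) (nat_lit 0) (XT.nd (nat_lit 78) (nat_lit 0) (nat_lit 0) (XT.lf (nat_lit 0) (nat_lit 22460738) (nat_lit 228) (nat_lit 1857041809) (nat_lit 304) (nat_lit 11502207121) (nat_lit 36) (nat_lit 5) (nat_lit 39) (nat_lit 5) (nat_lit 40) (nat_lit 5)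 (nat_lit 274) (nat_lit 249) (nat_lit 197)) (XT.lf (nat_lit 0) (nat_lit 3905154452) (nat_lit 304) (nat_lit 7655843621) (nat_lit 76) (nat_lit 2237495187) (nat_lit 36) (nat_lit 5) (nat_lit 40) (nat_lit 5) (nat_lit 37) (nat_lit 5) (nat_lit 275) (nat_lit 249) (nat_lit 196))) (XT.nd (nat_lit 78) (nat_lit 228) (nat_lit 0) (XT.lf (nat_lit 0) (nat_lit 6031228331) (nat_lit 304) (nat_lit 1736861628) (nat_lit 76) (nat_lit 6468182805) (nat_lit 36) (nat_lit 5) (nat_lit 40) (nat_lit 5) (nat_lit 37) (nat_lit 5) (nat_lit 276) (nat_lit 249) (nat_lit 195)) (XT.lf (nat_lit 0) (nat_lit 4587615847) (nat_lit 228) (nat_lit 3717802331) (nat_lit 304) (nat_lit 6388540739) (nat_lit 33) (nat_lit 5) (nat_lit 36) (nat_lit 5) (nat_lit 37) (nat_lit 5) (nat_lit 277) (nat_lit 249) (nat_lit 194)))) (XT.nd (nat_lit 156) (nat_lit 304) (nat_lit 0) (XT.nd (nat_lit 78) (nat_lit 228) (nat_lit 0) (XT.lf (nat_lit 0) (nat_lit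 10702480321) (nat_lit 304) (nat_lit 3931392119) (nat_lit 76) (nat_lit 540301926) (nat_lit 33) (nat_lit 5) (nat_lit 37) (nat_lit 5) (nat_lit 34) (nat_lit 5) (nat_lit 278) (nat_lit 249) (nat_lit 193)) (XT.lf (nat_lit 0) (nat_lit 2536233609) (nat_lit 228) (nat_lit 10756005503) (nat_lit 304) (nat_lit 2382617518) (nat_lit 30) (nat_lit 5) (nat_lit 33) (nat_lit 5) (nat_lit 34) (nat_lit 5) (nat_lit 279) (nat_lit 249) (nat_lit 192))) (XT.nd (nat_lit 78) (nat_lit 304) (nat_lit 0) (XT.lf (nat_lit 0) (nat_lit 9428014668) (nat_lit 228) (nat_lit 6623110972) (nat_lit 304) (nat_lit 147558920) (nat_lit 30) (nat_lit 5) (nat_lit 33) (nat_lit 5) (nat_lit 34) (nat_lit 5) (nat_lit 280) (nat_lit 249) (nat_lit 191)) (XT.nd (nat_lit 78) (nat_lit 228) (nat_lit 0) (XT.lf (nat_lit 0) (nat_lit 2102698575) (nat_lit 304) (nat_lit 153619855) (nat_lit 76) (nat_lit 14492061687) (nat_lit 29) (nat_lit 5) (nat_lit 33)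 (nat_lit 5) (nat_lit 30) (nat_lit 5) (nat_lit 281) (nat_lit 249) (nat_lit 190)) (XT.lf (nat_lit 0) (nat_lit 4582655953) (nat_lit 304) (nat_lit 10377337857) (nat_lit 76) (nat_lit 2359419200) (nat_lit 26) (nat_lit 5) (nat_lit 30) (nat_lit 5) (nat_lit 27) (nat_lit 5) (nat_lit 282) (nat_lit 249) (nat_lit 189))))))))
noncomputable def xc141 : XT := (XT.nd (nat_lit 1326) (nat_lit 532) (nat_lit 0) (XT.nd (nat_lit 624) (nat_lit 456) (nat_lit 0) (XT.nd (nat_lit 312) (nat_lit 380) (nat_lit 0) (XT.nd (nat_lit 156) (nat_lit 0) (nat_lit 0) (XT.nd (nat_lit 78) (nat_lit 152) (nat_lit 0) (XT.lf (nat_lit 0) (nat_lit 7201868075) (nat_lit 304) (nat_lit 3591929010) (nat_lit 76) (nat_lit 7124514576) (nat_lit 26) (nat_lit 5) (nat_lit 30) (nat_lit 5) (nat_lit 27) (nat_lit 5) (nat_lit 283) (nat_lit 249) (nat_lit 188)) (XT.lf (nat_lit 0) (nat_lit 3616187712) (nat_lit 152) (nat_lit 6369096460) (nat_lit 228)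 (nat_lit 8560282195) (nat_lit 24) (nat_lit 5) (nat_lit 26) (nat_lit 5) (nat_lit 27) (nat_lit 5) (nat_lit 284) (nat_lit 249) (nat_lit 187))) (XT.nd (nat_lit 78) (nat_lit 0) (nat_lit 0) (XT.lf (nat_lit 0) (nat_lit 11277631798) (nat_lit 152) (nat_lit 1668464169) (nat_lit 228) (nat_lit 6256246402) (nat_lit 24) (nat_lit 5) (nat_lit 26) (nat_lit 5) (nat_lit 27) (nat_lit 5) (nat_lit 285) (nat_lit 249) (nat_lit 186)) (XT.lf (nat_lit 0) (nat_lit 16084292374) (nat_lit 228) (nat_lit 652094452) (nat_lit 76) (nat_lit 3154169621) (nat_lit 24) (nat_lit 5) (nat_lit 27) (nat_lit 5) (nat_lit 25) (nat_lit 5) (nat_lit 286) (nat_lit 249) (nat_lit 185)))) (XT.nd (nat_lit 156) (nat_lit 152) (nat_lit 0) (XT.nd (nat_lit 78) (nat_lit 76) (nat_lit 0) (XT.lf (nat_lit 0) (nat_lit 7156053060) (nat_lit 152) (nat_lit 12341789053) (nat_lit 228) (nat_lit 1109480254) (nat_lit 22) (nat_lit 5) (nat_lit 24) (nat_lit 5)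 (nat_lit 25) (nat_lit 5) (nat_lit 287) (nat_lit 249) (nat_lit 184)) (XT.lf (nat_lit 0) (nat_lit 1657750629) (nat_lit 228) (nat_lit 6039236400) (nat_lit 76) (nat_lit 13662116247) (nat_lit 21) (nat_lit 5) (nat_lit 24) (nat_lit 5) (nat_lit 22) (nat_lit 5) (nat_lit 288) (nat_lit 249) (nat_lit 183))) (XT.nd (nat_lit 78) (nat_lit 0) (nat_lit 0) (XT.lf (nat_lit 0) (nat_lit 1752697037) (nat_lit 152) (nat_lit 2781203404) (nat_lit 228) (nat_lit 17613325911) (nat_lit 19) (nat_lit 5) (nat_lit 21) (nat_lit 5) (nat_lit 22) (nat_lit 5) (nat_lit 289) (nat_lit 249) (nat_lit 182)) (XT.lf (nat_lit 0) (nat_lit 7675802491) (nat_lit 228) (nat_lit 12893596840) (nat_lit 76) (nat_lit 2399311101) (nat_lit 19) (nat_lit 5) (nat_lit 22) (nat_lit 5) (nat_lit 20) (nat_lit 5) (nat_lit 290) (nat_lit 249) (nat_lit 181))))) (XT.nd (nat_lit 312) (nat_lit 304) (nat_lit 0) (XT.nd (nat_lit 156) (nat_lit 0) (nat_lit 0) (XT.nd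 (nat_lit 78) (nat_lit 152) (nat_lit 0) (XT.lf (nat_lit 0) (nat_lit 11002132609) (nat_lit 228) (nat_lit 5090839820) (nat_lit 76) (nat_lit 7736979246) (nat_lit 19) (nat_lit 5) (nat_lit 22) (nat_lit 5) (nat_lit 20) (nat_lit 5) (nat_lit 291) (nat_lit 249) (nat_lit 180)) (XT.lf (nat_lit 0) (nat_lit 3177440041) (nat_lit 152) (nat_lit 11349556952) (nat_lit 228) (nat_lit 10205694345) (nat_lit 17) (nat_lit 5) (nat_lit 19) (nat_lit 5) (nat_lit 20) (nat_lit 5) (nat_lit 292) (nat_lit 249) (nat_lit 179))) (XT.nd (nat_lit 78) (nat_lit 0) (nat_lit 0) (XT.lf (nat_lit 0) (nat_lit 12009987829) (nat_lit 152) (nat_lit 6287365570) (nat_lit 228) (nat_lit 7379797141) (nat_lit 17) (nat_lit 5) (nat_lit 19) (nat_lit 5) (nat_lit 20) (nat_lit 5) (nat_lit 293) (nat_lit 249) (nat_lit 178)) (XT.lf (nat_lit 0) (nat_lit 21259507261) (nat_lit 152) (nat_lit 980561283) (nat_lit 228) (nat_lit 4429614964) (nat_lit 17)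 (nat_lit 5) (nat_lit 19) (nat_lit 5) (nat_lit 20) (nat_lit 5) (nat_lit 294) (nat_lit 249) (nat_lit 177)))) (XT.nd (nat_lit 156) (nat_lit 152) (nat_lit 0) (XT.nd (nat_lit 78) (nat_lit 76) (nat_lit 0) (XT.lf (nat_lit 0) (nat_lit 3268416173) (nat_lit 76) (nat_lit 23218703951) (nat_lit 152) (nat_lit 1219403777) (nat_lit 16) (nat_lit 5) (nat_lit 17) (nat_lit 5) (nat_lit 18) (nat_lit 4) (nat_lit 295) (nat_lit 249) (nat_lit 176)) (XT.lf (nat_lit 0) (nat_lit 2176228866) (nat_lit 152) (nat_lit 16297345899) (nat_lit 76) (nat_lit 10315300838) (nat_lit 15) (nat_lit 5) (nat_lit 17) (nat_lit 5) (nat_lit 16) (nat_lit 5) (nat_lit 296) (nat_lit 249) (nat_lit 175))) (XT.nd (nat_lit 78) (nat_lit 152) (nat_lit 0) (XT.lf (nat_lit 0) (nat_lit 5685963894) (nat_lit 152) (nat_lit 7792701146) (nat_lit 76) (nat_lit 16446450558) (nat_lit 15) (nat_lit 5) (nat_lit 17) (nat_lit 5) (nat_lit 16) (nat_lit 5) (nat_lit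 297) (nat_lit 249) (nat_lit 174)) (XT.nd (nat_lit 78) (nat_lit 0) (nat_lit 0) (XT.lf (nat_lit 0) (nat_lit 1151984699) (nat_lit 152) (nat_lit 8223187364) (nat_lit 228) (nat_lit 21742829786) (nat_lit 13) (nat_lit 5) (nat_lit 15) (nat_lit 5) (nat_lit 16) (nat_lit 5) (nat_lit 298) (nat_lit 249) (nat_lit 173)) (XT.lf (nat_lit 0) (nat_lit 10792743811) (nat_lit 152) (nat_lit 2574398416) (nat_lit 228) (nat_lit 18997507084) (nat_lit 13) (nat_lit 5) (nat_lit 15) (nat_lit 5) (nat_lit 16) (nat_lit 5) (nat_lit 299) (nat_lit 249) (nat_lit 172))))))) (XT.nd (nat_lit 702) (nat_lit 228) (nat_lit 0) (XT.nd (nat_lit 312) (nat_lit 228) (nat_lit 0) (XT.nd (nat_lit 156) (nat_lit 76) (nat_lit 0) (XT.nd (nat_lit 78) (nat_lit 0) (nat_lit 0) (XT.lf (nat_lit 0) (nat_lit 17597980407) (nat_lit 228) (nat_lit 12831732200) (nat_lit 76) (nat_lit 3241983518) (nat_lit 13) (nat_lit 5) (nat_lit 16) (nat_lit 5) (nat_lit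 14) (nat_lit 4) (nat_lit 300) (nat_lit 249) (nat_lit 171)) (XT.lf (nat_lit 0) (nat_lit 22070049446) (nat_lit 228) (nat_lit 3716976734) (nat_lit 76) (nat_lit 9255613656) (nat_lit 13) (nat_lit 5) (nat_lit 16) (nat_lit 5) (nat_lit 14) (nat_lit 4) (nat_lit 301) (nat_lit 249) (nat_lit 170))) (XT.nd (nat_lit 78) (nat_lit 0) (nat_lit 0) (XT.lf (nat_lit 0) (nat_lit 6027163130) (nat_lit 76) (nat_lit 20820741332) (nat_lit 152) (nat_lit 9630144768) (nat_lit 12) (nat_lit 5) (nat_lit 13) (nat_lit 5) (nat_lit 14) (nat_lit 4) (nat_lit 302) (nat_lit 249) (nat_lit 169)) (XT.lf (nat_lit 0) (nat_lit 16368605442) (nat_lit 76) (nat_lit 15547348891) (nat_lit 152) (nat_lit 6066735964) (nat_lit 12) (nat_lit 5) (nat_lit 13) (nat_lit 5) (nat_lit 14) (nat_lit 4) (nat_lit 303) (nat_lit 249) (nat_lit 168)))) (XT.nd (nat_lit 156) (nat_lit 152) (nat_lit 0) (XT.nd (nat_lit 78) (nat_lit 76) (nat_lit 0) (XT.lf (nat_lit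 0) (nat_lit 27209072644) (nat_lit 76) (nat_lit 10017241961) (nat_lit 152) (nat_lit 2336828472) (nat_lit 12) (nat_lit 5) (nat_lit 13) (nat_lit 5) (nat_lit 14) (nat_lit 4) (nat_lit 304) (nat_lit 249) (nat_lit 167)) (XT.lf (nat_lit 0) (nat_lit 1518257975) (nat_lit 152) (nat_lit 2673283211) (nat_lit 76) (nat_lit 37030404964) (nat_lit 11) (nat_lit 5) (nat_lit 13) (nat_lit 5) (nat_lit 12) (nat_lit 5) (nat_lit 305) (nat_lit 249) (nat_lit 166))) (XT.nd (nat_lit 78) (nat_lit 0) (nat_lit 0) (XT.lf (nat_lit 0) (nat_lit 5629816510) (nat_lit 228) (nat_lit 35306476183) (nat_lit 76) (nat_lit 2018390368) (nat_lit 9) (nat_lit 5) (nat_lit 12) (nat_lit 5) (nat_lit 10) (nat_lit 4) (nat_lit 306) (nat_lit 249) (nat_lit 165)) (XT.nd (nat_lit 78) (nat_lit 0) (nat_lit 0) (XT.lf (nat_lit 0) (nat_lit 10051564914) (nat_lit 228) (nat_lit 26279548162) (nat_lit 76) (nat_lit 8437733758) (nat_lit 9) (nat_lit 5) (nat_lit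 12) (nat_lit 5) (nat_lit 10) (nat_lit 4) (nat_lit 307) (nat_lit 249) (nat_lit 164)) (XT.lf (nat_lit 0) (nat_lit 14684765139) (nat_lit 228) (nat_lit 16817350755) (nat_lit 76) (nat_lit 15172104313) (nat_lit 9) (nat_lit 5) (nat_lit 12) (nat_lit 5) (nat_lit 10) (nat_lit 4) (nat_lit 308) (nat_lit 249) (nat_lit 163)))))) (XT.nd (nat_lit 312) (nat_lit 152) (nat_lit 0) (XT.nd (nat_lit 156) (nat_lit 0) (nat_lit 0) (XT.nd (nat_lit 78) (nat_lit 76) (nat_lit 0) (XT.lf (nat_lit 0) (nat_lit 19540448614) (nat_lit 228) (nat_lit 6897354920) (nat_lit 76) (nat_lit 22237536248) (nat_lit 9) (nat_lit 5) (nat_lit 12) (nat_lit 5) (nat_lit 10) (nat_lit 4) (nat_lit 309) (nat_lit 249) (nat_lit 162)) (XT.lf (nat_lit 0) (nat_lit 3619918374) (nat_lit 76) (nat_lit 21066775187) (nat_lit 152) (nat_lit 26087450716) (nat_lit 8) (nat_lit 5) (nat_lit 9) (nat_lit 5) (nat_lit 10) (nat_lit 4) (nat_lit 310) (nat_lit 249)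 (nat_lit 161))) (XT.nd (nat_lit 78) (nat_lit 0) (nat_lit 0) (XT.lf (nat_lit 0) (nat_lit 14888168795) (nat_lit 76) (nat_lit 15310344412) (nat_lit 152) (nat_lit 22773979626) (nat_lit 8) (nat_lit 5) (nat_lit 9) (nat_lit 5) (nat_lit 10) (nat_lit 4) (nat_lit 311) (nat_lit 249) (nat_lit 160)) (XT.lf (nat_lit 0) (nat_lit 26706167806) (nat_lit 76) (nat_lit 9271615467) (nat_lit 152) (nat_lit 19303398723) (nat_lit 8) (nat_lit 5) (nat_lit 9) (nat_lit 5) (nat_lit 10) (nat_lit 4) (nat_lit 312) (nat_lit 249) (nat_lit 159)))) (XT.nd (nat_lit 156) (nat_lit 152) (nat_lit 0) (XT.nd (nat_lit 78) (nat_lit 0) (nat_lit 0) (XT.lf (nat_lit 0) (nat_lit 39102053500) (nat_lit 76) (nat_lit 2936210424) (nat_lit 152) (nat_lit 15667444721) (nat_lit 8) (nat_lit 5) (nat_lit 9) (nat_lit 5) (nat_lit 10) (nat_lit 4) (nat_lit 313) (nat_lit 249) (nat_lit 158)) (XT.lf (nat_lit 0) (nat_lit 48452323286) (nat_lit 152) (nat_lit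 8204443979) (nat_lit 0) (nat_lit 3592181277) (nat_lit 8) (nat_lit 5) (nat_lit 10) (nat_lit 4) (nat_lit 8) (nat_lit 4) (nat_lit 314) (nat_lit 249) (nat_lit 157))) (XT.nd (nat_lit 78) (nat_lit 76) (nat_lit 0) (XT.lf (nat_lit 0) (nat_lit 2742268379) (nat_lit 76) (nat_lit 52528659709) (nat_lit 76) (nat_lit 7644244173) (nat_lit 7) (nat_lit 4) (nat_lit 8) (nat_lit 5) (nat_lit 8) (nat_lit 4) (nat_lit 315) (nat_lit 249) (nat_lit 156)) (XT.nd (nat_lit 78) (nat_lit 76) (nat_lit 0) (XT.lf (nat_lit 0) (nat_lit 14509256716) (nat_lit 76) (nat_lit 48053198653) (nat_lit 76) (nat_lit 3145665472) (nat_lit 7) (nat_lit 4) (nat_lit 8) (nat_lit 5) (nat_lit 8) (nat_lit 4) (nat_lit 316) (nat_lit 249) (nat_lit 155)) (XT.lf (nat_lit 0) (nat_lit 1520597690) (nat_lit 152) (nat_lit 41812324718) (nat_lit 76) (nat_lit 25306911951) (nat_lit 6) (nat_lit 5) (nat_lit 8) (nat_lit 5) (nat_lit 7) (nat_lit 4) (nat_lit 317)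 (nat_lit 249) (nat_lit 154))))))))
noncomputable def xc142 : XT := (XT.nd (nat_lit 1326) (nat_lit 152) (nat_lit 0) (XT.nd (nat_lit 624) (nat_lit 76) (nat_lit 0) (XT.nd (nat_lit 312) (nat_lit 0) (nat_lit 0) (XT.nd (nat_lit 156) (nat_lit 76) (nat_lit 0) (XT.nd (nat_lit 78) (nat_lit 0) (nat_lit 0) (XT.lf (nat_lit 0) (nat_lit 6308036483) (nat_lit 152) (nat_lit 32019043579) (nat_lit 76) (nat_lit 33388807682) (nat_lit 6) (nat_lit 5) (nat_lit 8) (nat_lit 5) (nat_lit 7) (nat_lit 4) (nat_lit 318) (nat_lit 249) (nat_lit 153)) (XT.lf (nat_lit 0) (nat_lit 11328730508) (nat_lit 152) (nat_lit 21746590717) (nat_lit 76) (nat_lit 41870739339) (nat_lit 6) (nat_lit 5) (nat_lit 8) (nat_lit 5) (nat_lit 7) (nat_lit 4) (nat_lit 319) (nat_lit 249) (nat_lit 152))) (XT.nd (nat_lit 78) (nat_lit 76) (nat_lit 0) (XT.lf (nat_lit 0) (nat_lit 16594633800) (nat_lit 152) (nat_lit 10970507912) (nat_lit 76) (nat_lit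 50772901997) (nat_lit 6) (nat_lit 5) (nat_lit 8) (nat_lit 5) (nat_lit 7) (nat_lit 4) (nat_lit 320) (nat_lit 249) (nat_lit 151)) (XT.lf (nat_lit 0) (nat_lit 345934232) (nat_lit 76) (nat_lit 21777750994) (nat_lit 152) (nat_lit 59775958051) (nat_lit 5) (nat_lit 5) (nat_lit 6) (nat_lit 5) (nat_lit 7) (nat_lit 4) (nat_lit 321) (nat_lit 249) (nat_lit 150)))) (XT.nd (nat_lit 156) (nat_lit 0) (nat_lit 0) (XT.nd (nat_lit 78) (nat_lit 0) (nat_lit 0) (XT.lf (nat_lit 0) (nat_lit 12599706387) (nat_lit 76) (nat_lit 15509843667) (nat_lit 152) (nat_lit 57520764171) (nat_lit 5) (nat_lit 5) (nat_lit 6) (nat_lit 5) (nat_lit 7) (nat_lit 4) (nat_lit 322) (nat_lit 249) (nat_lit 149)) (XT.lf (nat_lit 0) (nat_lit 25457249665) (nat_lit 76) (nat_lit 8932287002) (nat_lit 152) (nat_lit 55158249620) (nat_lit 5) (nat_lit 5) (nat_lit 6) (nat_lit 5) (nat_lit 7) (nat_lit 4) (nat_lit 323) (nat_lit 249) (nat_lit 148)))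 (XT.nd (nat_lit 78) (nat_lit 0) (nat_lit 0) (XT.lf (nat_lit 0) (nat_lit 38949177264) (nat_lit 76) (nat_lit 2029420150) (nat_lit 152) (nat_lit 52682789363) (nat_lit 5) (nat_lit 5) (nat_lit 6) (nat_lit 5) (nat_lit 7) (nat_lit 4) (nat_lit 324) (nat_lit 249) (nat_lit 147)) (XT.lf (nat_lit 0) (nat_lit 47973844302) (nat_lit 152) (nat_lit 44954720927) (nat_lit 0) (nat_lit 5048273563) (nat_lit 5) (nat_lit 5) (nat_lit 7) (nat_lit 4) (nat_lit 5) (nat_lit 4) (nat_lit 325) (nat_lit 249) (nat_lit 146))))) (XT.nd (nat_lit 312) (nat_lit 76) (nat_lit 0) (XT.nd (nat_lit 156) (nat_lit 0) (nat_lit 0) (XT.nd (nat_lit 78) (nat_lit 0) (nat_lit 0) (XT.lf (nat_lit 0) (nat_lit 55347604895) (nat_lit 152) (nat_lit 34750510966) (nat_lit 0) (nat_lit 12408517749) (nat_lit 5) (nat_lit 5) (nat_lit 7) (nat_lit 4) (nat_lit 5) (nat_lit 4) (nat_lit 326) (nat_lit 249) (nat_lit 145)) (XT.lf (nat_lit 0) (nat_lit 63085750832)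 (nat_lit 152) (nat_lit 24043598953) (nat_lit 0) (nat_lit 20133790916) (nat_lit 5) (nat_lit 5) (nat_lit 7) (nat_lit 4) (nat_lit 5) (nat_lit 4) (nat_lit 327) (nat_lit 249) (nat_lit 144))) (XT.nd (nat_lit 78) (nat_lit 0) (nat_lit 0) (XT.lf (nat_lit 0) (nat_lit 71206706269) (nat_lit 152) (nat_lit 12808492243) (nat_lit 0) (nat_lit 28242486573) (nat_lit 5) (nat_lit 5) (nat_lit 7) (nat_lit 4) (nat_lit 5) (nat_lit 4) (nat_lit 328) (nat_lit 249) (nat_lit 143)) (XT.lf (nat_lit 0) (nat_lit 79729806814) (nat_lit 152) (nat_lit 1018440581) (nat_lit 0) (nat_lit 36753911136) (nat_lit 5) (nat_lit 5) (nat_lit 7) (nat_lit 4) (nat_lit 5) (nat_lit 4) (nat_lit 329) (nat_lit 249) (nat_lit 142)))) (XT.nd (nat_lit 156) (nat_lit 0) (nat_lit 0) (XT.nd (nat_lit 78) (nat_lit 0) (nat_lit 0) (XT.lf (nat_lit 0) (nat_lit 11730062851) (nat_lit 76) (nat_lit 77128421866) (nat_lit 76) (nat_lit 34141406206) (nat_lit 4)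 (nat_lit 4) (nat_lit 5) (nat_lit 5) (nat_lit 5) (nat_lit 4) (nat_lit 330) (nat_lit 249) (nat_lit 141)) (XT.lf (nat_lit 0) (nat_lit 25144967948) (nat_lit 76) (nat_lit 73312236889) (nat_lit 76) (nat_lit 30314630770) (nat_lit 4) (nat_lit 4) (nat_lit 5) (nat_lit 5) (nat_lit 5) (nat_lit 4) (nat_lit 331) (nat_lit 249) (nat_lit 140))) (XT.nd (nat_lit 78) (nat_lit 0) (nat_lit 0) (XT.lf (nat_lit 0) (nat_lit 39224540714) (nat_lit 76) (nat_lit 69307854093) (nat_lit 76) (nat_lit 26300161823) (nat_lit 4) (nat_lit 4) (nat_lit 5) (nat_lit 5) (nat_lit 5) (nat_lit 4) (nat_lit 332) (nat_lit 249) (nat_lit 139)) (XT.nd (nat_lit 78) (nat_lit 0) (nat_lit 0) (XT.lf (nat_lit 0) (nat_lit 54002303940) (nat_lit 76) (nat_lit 65105739234) (nat_lit 76) (nat_lit 22088441105) (nat_lit 4) (nat_lit 4) (nat_lit 5) (nat_lit 5) (nat_lit 5) (nat_lit 4) (nat_lit 333) (nat_lit 249) (nat_lit 138)) (XT.lf (nat_lit 0) (nat_lit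 69513442779) (nat_lit 76) (nat_lit 60695887277) (nat_lit 76) (nat_lit 17669440710) (nat_lit 4) (nat_lit 4) (nat_lit 5) (nat_lit 5) (nat_lit 5) (nat_lit 4) (nat_lit 334) (nat_lit 249) (nat_lit 137))))))) (XT.nd (nat_lit 624) (nat_lit 0) (nat_lit 0) (XT.nd (nat_lit 312) (nat_lit 76) (nat_lit 0) (XT.nd (nat_lit 156) (nat_lit 76) (nat_lit 0) (XT.nd (nat_lit 78) (nat_lit 0) (nat_lit 0) (XT.lf (nat_lit 0) (nat_lit 85794888512) (nat_lit 76) (nat_lit 56067798573) (nat_lit 76) (nat_lit 13032639209) (nat_lit 4) (nat_lit 4) (nat_lit 5) (nat_lit 5) (nat_lit 5) (nat_lit 4) (nat_lit 335) (nat_lit 249) (nat_lit 136)) (XT.lf (nat_lit 0) (nat_lit 102885406487) (nat_lit 76) (nat_lit 51210453863) (nat_lit 76) (nat_lit 8166996598) (nat_lit 4) (nat_lit 4) (nat_lit 5) (nat_lit 5) (nat_lit 5) (nat_lit 4) (nat_lit 336) (nat_lit 249) (nat_lit 135))) (XT.nd (nat_lit 78) (nat_lit 76) (nat_lit 0) (XT.lf (nat_lit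 0) (nat_lit 120825688413) (nat_lit 76) (nat_lit 46112288043) (nat_lit 76) (nat_lit 3060928013) (nat_lit 4) (nat_lit 4) (nat_lit 5) (nat_lit 5) (nat_lit 5) (nat_lit 4) (nat_lit 337) (nat_lit 249) (nat_lit 134)) (XT.lf (nat_lit 0) (nat_lit 2224182337) (nat_lit 152) (nat_lit 38499312679) (nat_lit 76) (nat_lit 137396599305) (nat_lit 3) (nat_lit 5) (nat_lit 5) (nat_lit 5) (nat_lit 4) (nat_lit 4) (nat_lit 338) (nat_lit 249) (nat_lit 133)))) (XT.nd (nat_lit 156) (nat_lit 76) (nat_lit 0) (XT.nd (nat_lit 78) (nat_lit 0) (nat_lit 0) (XT.lf (nat_lit 0) (nat_lit 7668173250) (nat_lit 152) (nat_lit 27346299347) (nat_lit 76) (nat_lit 151630491421) (nat_lit 3) (nat_lit 5) (nat_lit 5) (nat_lit 5) (nat_lit 4) (nat_lit 4) (nat_lit 339) (nat_lit 249) (nat_lit 132)) (XT.lf (nat_lit 0) (nat_lit 13381975420) (nat_lit 152) (nat_lit 15639831602) (nat_lit 76) (nat_lit 166574393327) (nat_lit 3) (nat_lit 5) (nat_lit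 5) (nat_lit 5) (nat_lit 4) (nat_lit 4) (nat_lit 340) (nat_lit 249) (nat_lit 131))) (XT.nd (nat_lit 78) (nat_lit 76) (nat_lit 0) (XT.lf (nat_lit 0) (nat_lit 19379193139) (nat_lit 152) (nat_lit 3352036902) (nat_lit 76) (nat_lit 182263885745) (nat_lit 3) (nat_lit 5) (nat_lit 5) (nat_lit 5) (nat_lit 4) (nat_lit 4) (nat_lit 341) (nat_lit 249) (nat_lit 130)) (XT.lf (nat_lit 0) (nat_lit 9861986565) (nat_lit 76) (nat_lit 15966092178) (nat_lit 152) (nat_lit 189028311289) (nat_lit 2) (nat_lit 5) (nat_lit 3) (nat_lit 5) (nat_lit 4) (nat_lit 4) (nat_lit 342) (nat_lit 249) (nat_lit 129))))) (XT.nd (nat_lit 312) (nat_lit 0) (nat_lit 0) (XT.nd (nat_lit 156) (nat_lit 0) (nat_lit 0) (XT.nd (nat_lit 78) (nat_lit 0) (nat_lit 0) (XT.lf (nat_lit 0) (nat_lit 23849341622) (nat_lit 76) (nat_lit 8804713814) (nat_lit 152) (nat_lit 192553943443) (nat_lit 2) (nat_lit 5) (nat_lit 3) (nat_lit 5) (nat_lit 4) (nat_lit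 4) (nat_lit 343) (nat_lit 249) (nat_lit 128)) (XT.lf (nat_lit 0) (nat_lit 38532498016) (nat_lit 76) (nat_lit 1286812416) (nat_lit 152) (nat_lit 196257981839) (nat_lit 2) (nat_lit 5) (nat_lit 3) (nat_lit 5) (nat_lit 4) (nat_lit 4) (nat_lit 344) (nat_lit 249) (nat_lit 127))) (XT.nd (nat_lit 78) (nat_lit 0) (nat_lit 0) (XT.lf (nat_lit 0) (nat_lit 47444034412) (nat_lit 152) (nat_lit 193646864383) (nat_lit 0) (nat_lit 6394094152) (nat_lit 2) (nat_lit 5) (nat_lit 4) (nat_lit 4) (nat_lit 2) (nat_lit 4) (nat_lit 345) (nat_lit 249) (nat_lit 126)) (XT.lf (nat_lit 0) (nat_lit 55469235302) (nat_lit 152) (nat_lit 189578440679) (nat_lit 0) (nat_lit 14414443430) (nat_lit 2) (nat_lit 5) (nat_lit 4) (nat_lit 4) (nat_lit 2) (nat_lit 4) (nat_lit 346) (nat_lit 249) (nat_lit 125)))) (XT.nd (nat_lit 156) (nat_lit 0) (nat_lit 0) (XT.nd (nat_lit 78) (nat_lit 0) (nat_lit 0) (XT.lf (nat_lit 0) (nat_lit 63893929975)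 (nat_lit 152) (nat_lit 185309745671) (nat_lit 0) (nat_lit 22834517521) (nat_lit 2) (nat_lit 5) (nat_lit 4) (nat_lit 4) (nat_lit 2) (nat_lit 4) (nat_lit 347) (nat_lit 249) (nat_lit 124)) (XT.lf (nat_lit 0) (nat_lit 72738177228) (nat_lit 152) (nat_lit 180830615799) (nat_lit 0) (nat_lit 31674364219) (nat_lit 2) (nat_lit 5) (nat_lit 4) (nat_lit 4) (nat_lit 2) (nat_lit 4) (nat_lit 348) (nat_lit 249) (nat_lit 123))) (XT.nd (nat_lit 78) (nat_lit 0) (nat_lit 0) (XT.lf (nat_lit 0) (nat_lit 82023034792) (nat_lit 152) (nat_lit 176130386469) (nat_lit 0) (nat_lit 40955030780) (nat_lit 2) (nat_lit 5) (nat_lit 4) (nat_lit 4) (nat_lit 2) (nat_lit 4) (nat_lit 349) (nat_lit 249) (nat_lit 122)) (XT.nd (nat_lit 78) (nat_lit 0) (nat_lit 0) (XT.lf (nat_lit 0) (nat_lit 91770609473) (nat_lit 152) (nat_lit 171197866659) (nat_lit 0) (nat_lit 50698614027) (nat_lit 2) (nat_lit 5) (nat_lit 4) (nat_lit 4) (nat_lit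 2) (nat_lit 4) (nat_lit 350) (nat_lit 249) (nat_lit 121)) (XT.lf (nat_lit 0) (nat_lit 102004109779) (nat_lit 152) (nat_lit 166021312273) (nat_lit 0) (nat_lit 60928312970) (nat_lit 2) (nat_lit 5) (nat_lit 4) (nat_lit 4) (nat_lit 2) (nat_lit 4) (nat_lit 351) (nat_lit 249) (nat_lit 120))))))))
noncomputable def xc143 : XT := (XT.nd (nat_lit 30342) (nat_lit 0) (nat_lit 2584) (XT.nd (nat_lit 29640) (nat_lit 0) (nat_lit 5320) (XT.nd (nat_lit 312) (nat_lit 0) (nat_lit 0) (XT.nd (nat_lit 156) (nat_lit 0) (nat_lit 0) (XT.nd (nat_lit 78) (nat_lit 0) (nat_lit 0) (XT.lf (nat_lit 0) (nat_lit 112747901190) (nat_lit 152) (nat_lit 160588398183) (nat_lit 0) (nat_lit 71668484033) (nat_lit 2) (nat_lit 5) (nat_lit 4) (nat_lit 4) (nat_lit 2) (nat_lit 4) (nat_lit 352) (nat_lit 249) (nat_lit 119)) (XT.lf (nat_lit 0) (nat_lit 124027564159) (nat_lit 152) (nat_lit 154886188878) (nat_lit 0) (nat_lit 82944699053)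 (nat_lit 2) (nat_lit 5) (nat_lit 4) (nat_lit 4) (nat_lit 2) (nat_lit 4) (nat_lit 353) (nat_lit 249) (nat_lit 118))) (XT.nd (nat_lit 78) (nat_lit 0) (nat_lit 0) (XT.lf (nat_lit 0) (nat_lit 135869955029) (nat_lit 152) (nat_lit 148901107670) (nat_lit 0) (nat_lit 94783806160) (nat_lit 2) (nat_lit 5) (nat_lit 4) (nat_lit 4) (nat_lit 2) (nat_lit 4) (nat_lit 354) (nat_lit 249) (nat_lit 117)) (XT.lf (nat_lit 0) (nat_lit 148303269966) (nat_lit 152) (nat_lit 142618904365) (nat_lit 0) (nat_lit 107213993706) (nat_lit 2) (nat_lit 5) (nat_lit 4) (nat_lit 4) (nat_lit 2) (nat_lit 4) (nat_lit 355) (nat_lit 249) (nat_lit 116)))) (XT.nd (nat_lit 156) (nat_lit 0) (nat_lit 0) (XT.nd (nat_lit 78) (nat_lit 0) (nat_lit 0) (XT.lf (nat_lit 0) (nat_lit 161357112103) (nat_lit 152) (nat_lit 136024621336) (nat_lit 0) (nat_lit 120264857374) (nat_lit 2) (nat_lit 5) (nat_lit 4) (nat_lit 4) (nat_lit 2) (nat_lit 4)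 (nat_lit 356) (nat_lit 249) (nat_lit 115)) (XT.lf (nat_lit 0) (nat_lit 175062562016) (nat_lit 152) (nat_lit 129102557910) (nat_lit 0) (nat_lit 133967470650) (nat_lit 2) (nat_lit 5) (nat_lit 4) (nat_lit 4) (nat_lit 2) (nat_lit 4) (nat_lit 357) (nat_lit 249) (nat_lit 114))) (XT.nd (nat_lit 29094) (nat_lit 0) (nat_lit 6308) (XT.lf (nat_lit 0) (nat_lit 189452251728) (nat_lit 152) (nat_lit 121836232984) (nat_lit 0) (nat_lit 148354458803) (nat_lit 2) (nat_lit 5) (nat_lit 4) (nat_lit 4) (nat_lit 2) (nat_lit 4) (nat_lit 358) (nat_lit 249) (nat_lit 113)) (XT.lf (nat_lit 0) (nat_lit 2710775136) (nat_lit 532) (nat_lit 556599499) (nat_lit 532) (nat_lit 556599499) (nat_lit 85) (nat_lit 3) (nat_lit 92) (nat_lit 3) (nat_lit 92) (nat_lit 5) (nat_lit 250) (nat_lit 250) (nat_lit 220))))) (XT.nd (nat_lit 312) (nat_lit 456) (nat_lit 0) (XT.nd (nat_lit 156) (nat_lit 0) (nat_lit 0) (XT.nd (nat_lit 78) (nat_lit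 532) (nat_lit 0) (XT.lf (nat_lit 76) (nat_lit 2153088605) (nat_lit 0) (nat_lit 4622710095) (nat_lit 532) (nat_lit 995781314) (nat_lit 86) (nat_lit 5) (nat_lit 85) (nat_lit 3) (nat_lit 92) (nat_lit 5) (nat_lit 251) (nat_lit 250) (nat_lit 219)) (XT.lf (nat_lit 0) (nat_lit 227870533) (nat_lit 532) (nat_lit 2328400581) (nat_lit 608) (nat_lit 5348245664) (nat_lit 78) (nat_lit 5) (nat_lit 85) (nat_lit 3) (nat_lit 86) (nat_lit 5) (nat_lit 252) (nat_lit 250) (nat_lit 218))) (XT.nd (nat_lit 78) (nat_lit 0) (nat_lit 76) (XT.lf (nat_lit 76) (nat_lit 1102931145) (nat_lit 0) (nat_lit 319079631) (nat_lit 608) (nat_lit 6624519893) (nat_lit 79) (nat_lit 5) (nat_lit 78) (nat_lit 5) (nat_lit 86) (nat_lit 5) (nat_lit 253) (nat_lit 250) (nat_lit 217)) (XT.lf (nat_lit 0) (nat_lit 2676545988) (nat_lit 532) (nat_lit 3485318722) (nat_lit 608) (nat_lit 2034112843) (nat_lit 79) (nat_lit 5) (nat_lit 86) (nat_lit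 5) (nat_lit 87) (nat_lit 5) (nat_lit 254) (nat_lit 250) (nat_lit 216)))) (XT.nd (nat_lit 156) (nat_lit 532) (nat_lit 0) (XT.nd (nat_lit 78) (nat_lit 0) (nat_lit 0) (XT.lf (nat_lit 76) (nat_lit 100065762) (nat_lit 0) (nat_lit 3832835686) (nat_lit 608) (nat_lit 4423389894) (nat_lit 80) (nat_lit 5) (nat_lit 79) (nat_lit 5) (nat_lit 87) (nat_lit 5) (nat_lit 255) (nat_lit 250) (nat_lit 215)) (XT.lf (nat_lit 76) (nat_lit 3942645759) (nat_lit 0) (nat_lit 1303306102) (nat_lit 608) (nat_lit 3279307705) (nat_lit 80) (nat_lit 5) (nat_lit 79) (nat_lit 5) (nat_lit 87) (nat_lit 5) (nat_lit 256) (nat_lit 250) (nat_lit 214))) (XT.nd (nat_lit 78) (nat_lit 608) (nat_lit 0) (XT.lf (nat_lit 0) (nat_lit 6584056358) (nat_lit 532) (nat_lit 791213019) (nat_lit 608) (nat_lit 1329753514) (nat_lit 80) (nat_lit 5) (nat_lit 87) (nat_lit 5) (nat_lit 88) (nat_lit 5) (nat_lit 257) (nat_lit 250) (nat_lit 213)) (XT.nd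 (nat_lit 78) (nat_lit 608) (nat_lit 0) (XT.lf (nat_lit 76) (nat_lit 3229103484) (nat_lit 0) (nat_lit 4772964694) (nat_lit 608) (nat_lit 891357781) (nat_lit 81) (nat_lit 5) (nat_lit 80) (nat_lit 5) (nat_lit 88) (nat_lit 5) (nat_lit 258) (nat_lit 250) (nat_lit 212)) (XT.lf (nat_lit 0) (nat_lit 342715259) (nat_lit 608) (nat_lit 1663273372) (nat_lit 684) (nat_lit 7087433250) (nat_lit 72) (nat_lit 5) (nat_lit 80) (nat_lit 5) (nat_lit 81) (nat_lit 5) (nat_lit 259) (nat_lit 250) (nat_lit 211))))))) (XT.nd (nat_lit 702) (nat_lit 1140) (nat_lit 0) (XT.nd (nat_lit 312) (nat_lit 1064) (nat_lit 0) (XT.nd (nat_lit 156) (nat_lit 608) (nat_lit 0) (XT.nd (nat_lit 78) (nat_lit 0) (nat_lit 0) (XT.lf (nat_lit 0) (nat_lit 1608608882) (nat_lit 608) (nat_lit 6755623437) (nat_lit 76) (nat_lit 938711644) (nat_lit 73) (nat_lit 5) (nat_lit 81) (nat_lit 5) (nat_lit 74) (nat_lit 5) (nat_lit 260) (nat_lit 250)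 (nat_lit 210)) (XT.lf (nat_lit 0) (nat_lit 2946386166) (nat_lit 608) (nat_lit 2573137170) (nat_lit 76) (nat_lit 4003237559) (nat_lit 73) (nat_lit 5) (nat_lit 81) (nat_lit 5) (nat_lit 74) (nat_lit 5) (nat_lit 261) (nat_lit 250) (nat_lit 209))) (XT.nd (nat_lit 78) (nat_lit 0) (nat_lit 0) (XT.lf (nat_lit 0) (nat_lit 1834871402) (nat_lit 608) (nat_lit 2494422498) (nat_lit 684) (nat_lit 5425599071) (nat_lit 65) (nat_lit 5) (nat_lit 73) (nat_lit 5) (nat_lit 74) (nat_lit 5) (nat_lit 262) (nat_lit 250) (nat_lit 208)) (XT.lf (nat_lit 0) (nat_lit 5787739212) (nat_lit 684) (nat_lit 3499614107) (nat_lit 76) (nat_lit 711183841) (nat_lit 65) (nat_lit 5) (nat_lit 74) (nat_lit 5) (nat_lit 66) (nat_lit 5) (nat_lit 263) (nat_lit 250) (nat_lit 207)))) (XT.nd (nat_lit 156) (nat_lit 380) (nat_lit 0) (XT.nd (nat_lit 78) (nat_lit 0) (nat_lit 0) (XT.lf (nat_lit 0) (nat_lit 1093625383) (nat_lit 684) (nat_lit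 6237213464) (nat_lit 760) (nat_lit 2923152510) (nat_lit 56) (nat_lit 5) (nat_lit 65) (nat_lit 5) (nat_lit 66) (nat_lit 5) (nat_lit 264) (nat_lit 250) (nat_lit 206)) (XT.lf (nat_lit 0) (nat_lit 5996408776) (nat_lit 684) (nat_lit 2969269571) (nat_lit 760) (nat_lit 1556014862) (nat_lit 56) (nat_lit 5) (nat_lit 65) (nat_lit 5) (nat_lit 66) (nat_lit 5) (nat_lit 265) (nat_lit 250) (nat_lit 205))) (XT.nd (nat_lit 78) (nat_lit 76) (nat_lit 0) (XT.lf (nat_lit 0) (nat_lit 302000008) (nat_lit 304) (nat_lit 10349679677) (nat_lit 380) (nat_lit 152823943) (nat_lit 52) (nat_lit 5) (nat_lit 56) (nat_lit 5) (nat_lit 57) (nat_lit 5) (nat_lit 266) (nat_lit 250) (nat_lit 204)) (XT.nd (nat_lit 78) (nat_lit 0) (nat_lit 0) (XT.lf (nat_lit 0) (nat_lit 1362848288) (nat_lit 380) (nat_lit 5683306304) (nat_lit 76) (nat_lit 4050216166) (nat_lit 51) (nat_lit 5) (nat_lit 56) (nat_lit 5) (nat_lit 52) (nat_lit 5)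 (nat_lit 267) (nat_lit 250) (nat_lit 203)) (XT.lf (nat_lit 0) (nat_lit 2909183551) (nat_lit 380) (nat_lit 666501983) (nat_lit 76) (nat_lit 7829187665) (nat_lit 51) (nat_lit 5) (nat_lit 56) (nat_lit 5) (nat_lit 52) (nat_lit 5) (nat_lit 268) (nat_lit 250) (nat_lit 202)))))) (XT.nd (nat_lit 312) (nat_lit 608) (nat_lit 0) (XT.nd (nat_lit 156) (nat_lit 228) (nat_lit 0) (XT.nd (nat_lit 78) (nat_lit 0) (nat_lit 0) (XT.lf (nat_lit 0) (nat_lit 4570599373) (nat_lit 380) (nat_lit 7016357113) (nat_lit 76) (nat_lit 140116077) (nat_lit 47) (nat_lit 5) (nat_lit 52) (nat_lit 5) (nat_lit 48) (nat_lit 5) (nat_lit 269) (nat_lit 250) (nat_lit 201)) (XT.lf (nat_lit 0) (nat_lit 6348289465) (nat_lit 380) (nat_lit 1783935725) (nat_lit 76) (nat_lit 3931648900) (nat_lit 47) (nat_lit 5) (nat_lit 52) (nat_lit 5) (nat_lit 48) (nat_lit 5) (nat_lit 270) (nat_lit 250) (nat_lit 200))) (XT.nd (nat_lit 78) (nat_lit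 0) (nat_lit 0) (XT.lf (nat_lit 0) (nat_lit 3793180215) (nat_lit 228) (nat_lit 4445775649) (nat_lit 304) (nat_lit 4177500355) (nat_lit 44) (nat_lit 5) (nat_lit 47) (nat_lit 5) (nat_lit 48) (nat_lit 5) (nat_lit 271) (nat_lit 250) (nat_lit 199)) (XT.lf (nat_lit 0) (nat_lit 9673372458) (nat_lit 228) (nat_lit 546948624) (nat_lit 304) (nat_lit 2566676300) (nat_lit 44) (nat_lit 5) (nat_lit 47) (nat_lit 5) (nat_lit 48) (nat_lit 5) (nat_lit 272) (nat_lit 250) (nat_lit 198)))) (XT.nd (nat_lit 156) (nat_lit 228) (nat_lit 0) (XT.nd (nat_lit 78) (nat_lit 76) (nat_lit 0) (XT.lf (nat_lit 0) (nat_lit 2663774153) (nat_lit 304) (nat_lit 9701465592) (nat_lit 380) (nat_lit 807733223) (nat_lit 40) (nat_lit 5) (nat_lit 44) (nat_lit 5) (nat_lit 45) (nat_lit 5) (nat_lit 273) (nat_lit 250) (nat_lit 197)) (XT.lf (nat_lit 0) (nat_lit 1036310367) (nat_lit 380) (nat_lit 4801716369) (nat_lit 76) (nat_lit 7738008133)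 (nat_lit 39) (nat_lit 5) (nat_lit 44) (nat_lit 5) (nat_lit 40) (nat_lit 5) (nat_lit 274) (nat_lit 250) (nat_lit 196))) (XT.nd (nat_lit 78) (nat_lit 0) (nat_lit 0) (XT.lf (nat_lit 0) (nat_lit 1179269497) (nat_lit 228) (nat_lit 1753935419) (nat_lit 304) (nat_lit 11066106876) (nat_lit 36) (nat_lit 5) (nat_lit 39) (nat_lit 5) (nat_lit 40) (nat_lit 5) (nat_lit 275) (nat_lit 250) (nat_lit 195)) (XT.nd (nat_lit 78) (nat_lit 0) (nat_lit 0) (XT.lf (nat_lit 0) (nat_lit 5017351892) (nat_lit 304) (nat_lit 6891864736) (nat_lit 76) (nat_lit 2530023837) (nat_lit 36) (nat_lit 5) (nat_lit 40) (nat_lit 5) (nat_lit 37) (nat_lit 5) (nat_lit 276) (nat_lit 250) (nat_lit 194)) (XT.lf (nat_lit 0) (nat_lit 7206065668) (nat_lit 304) (nat_lit 731541789) (nat_lit 76) (nat_lit 6963643270) (nat_lit 36) (nat_lit 5) (nat_lit 40) (nat_lit 5) (nat_lit 37) (nat_lit 5) (nat_lit 277) (nat_lit 250) (nat_lit 193))))))))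
noncomputable def xc144 : XT := (XT.nd (nat_lit 1326) (nat_lit 684) (nat_lit 0) (XT.nd (nat_lit 624) (nat_lit 532) (nat_lit 0) (XT.nd (nat_lit 312) (nat_lit 380) (nat_lit 0) (XT.nd (nat_lit 156) (nat_lit 304) (nat_lit 0) (XT.nd (nat_lit 78) (nat_lit 0) (nat_lit 0) (XT.lf (nat_lit 0) (nat_lit 5891544029) (nat_lit 228) (nat_lit 3677613107) (nat_lit 304) (nat_lit 5814055486) (nat_lit 33) (nat_lit 5) (nat_lit 36) (nat_lit 5) (nat_lit 37) (nat_lit 5) (nat_lit 278) (nat_lit 250) (nat_lit 192)) (XT.lf (nat_lit 0) (nat_lit 12049030796) (nat_lit 304) (nat_lit 3064664679) (nat_lit 76) (nat_lit 775739299) (nat_lit 33) (nat_lit 5) (nat_lit 37) (nat_lit 5) (nat_lit 34) (nat_lit 5) (nat_lit 279) (nat_lit 250) (nat_lit 191))) (XT.nd (nat_lit 78) (nat_lit 76) (nat_lit 0) (XT.lf (nat_lit 0) (nat_lit 3709192383) (nat_lit 228) (nat_lit 11036779076) (nat_lit 304) (nat_lit 1670431994) (nat_lit 30) (nat_lit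 5) (nat_lit 33) (nat_lit 5) (nat_lit 34) (nat_lit 5) (nat_lit 280) (nat_lit 250) (nat_lit 190)) (XT.lf (nat_lit 0) (nat_lit 616411683) (nat_lit 304) (nat_lit 6082628272) (nat_lit 76) (nat_lit 10268895052) (nat_lit 29) (nat_lit 5) (nat_lit 33) (nat_lit 5) (nat_lit 30) (nat_lit 5) (nat_lit 281) (nat_lit 250) (nat_lit 189)))) (XT.nd (nat_lit 156) (nat_lit 152) (nat_lit 0) (XT.nd (nat_lit 78) (nat_lit 0) (nat_lit 0) (XT.lf (nat_lit 0) (nat_lit 841003287) (nat_lit 228) (nat_lit 2109855495) (nat_lit 304) (nat_lit 14595422172) (nat_lit 26) (nat_lit 5) (nat_lit 29) (nat_lit 5) (nat_lit 30) (nat_lit 5) (nat_lit 282) (nat_lit 250) (nat_lit 188)) (XT.lf (nat_lit 0) (nat_lit 5525805535) (nat_lit 304) (nat_lit 9902685701) (nat_lit 76) (nat_lit 2718937390) (nat_lit 26) (nat_lit 5) (nat_lit 30) (nat_lit 5) (nat_lit 27) (nat_lit 5) (nat_lit 283) (nat_lit 250) (nat_lit 187))) (XT.nd (nat_lit 78) (nat_lit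 152) (nat_lit 0) (XT.lf (nat_lit 0) (nat_lit 8241977464) (nat_lit 304) (nat_lit 2825316842) (nat_lit 76) (nat_lit 7710785285) (nat_lit 26) (nat_lit 5) (nat_lit 30) (nat_lit 5) (nat_lit 27) (nat_lit 5) (nat_lit 284) (nat_lit 250) (nat_lit 186)) (XT.lf (nat_lit 0) (nat_lit 4727944287) (nat_lit 152) (nat_lit 6418773061) (nat_lit 228) (nat_lit 8290974268) (nat_lit 24) (nat_lit 5) (nat_lit 26) (nat_lit 5) (nat_lit 27) (nat_lit 5) (nat_lit 285) (nat_lit 250) (nat_lit 185))))) (XT.nd (nat_lit 312) (nat_lit 304) (nat_lit 0) (XT.nd (nat_lit 156) (nat_lit 76) (nat_lit 0) (XT.nd (nat_lit 78) (nat_lit 152) (nat_lit 0) (XT.lf (nat_lit 0) (nat_lit 12728129758) (nat_lit 152) (nat_lit 1495908118) (nat_lit 228) (nat_lit 5904942497) (nat_lit 24) (nat_lit 5) (nat_lit 26) (nat_lit 5) (nat_lit 27) (nat_lit 5) (nat_lit 286) (nat_lit 250) (nat_lit 184)) (XT.lf (nat_lit 0) (nat_lit 193984719) (nat_lit 152)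 (nat_lit 17301963932) (nat_lit 228) (nat_lit 3356909003) (nat_lit 22) (nat_lit 5) (nat_lit 24) (nat_lit 5) (nat_lit 25) (nat_lit 5) (nat_lit 287) (nat_lit 250) (nat_lit 183))) (XT.nd (nat_lit 78) (nat_lit 76) (nat_lit 0) (XT.lf (nat_lit 0) (nat_lit 8372258705) (nat_lit 152) (nat_lit 12689509032) (nat_lit 228) (nat_lit 544702851) (nat_lit 22) (nat_lit 5) (nat_lit 24) (nat_lit 5) (nat_lit 25) (nat_lit 5) (nat_lit 288) (nat_lit 250) (nat_lit 182)) (XT.lf (nat_lit 0) (nat_lit 2312447205) (nat_lit 228) (nat_lit 5503162956) (nat_lit 76) (nat_lit 14581255811) (nat_lit 21) (nat_lit 5) (nat_lit 24) (nat_lit 5) (nat_lit 22) (nat_lit 5) (nat_lit 289) (nat_lit 250) (nat_lit 181)))) (XT.nd (nat_lit 156) (nat_lit 152) (nat_lit 0) (XT.nd (nat_lit 78) (nat_lit 0) (nat_lit 0) (XT.lf (nat_lit 0) (nat_lit 2664850455) (nat_lit 152) (nat_lit 2653198096) (nat_lit 228) (nat_lit 17907140736) (nat_lit 19)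 (nat_lit 5) (nat_lit 21) (nat_lit 5) (nat_lit 22) (nat_lit 5) (nat_lit 290) (nat_lit 250) (nat_lit 180)) (XT.lf (nat_lit 0) (nat_lit 8594471405) (nat_lit 228) (nat_lit 12728993532) (nat_lit 76) (nat_lit 2765484003) (nat_lit 19) (nat_lit 5) (nat_lit 22) (nat_lit 5) (nat_lit 20) (nat_lit 5) (nat_lit 291) (nat_lit 250) (nat_lit 179))) (XT.nd (nat_lit 78) (nat_lit 152) (nat_lit 0) (XT.lf (nat_lit 0) (nat_lit 12061647610) (nat_lit 228) (nat_lit 4574635953) (nat_lit 76) (nat_lit 8358311397) (nat_lit 19) (nat_lit 5) (nat_lit 22) (nat_lit 5) (nat_lit 20) (nat_lit 5) (nat_lit 292) (nat_lit 250) (nat_lit 178)) (XT.nd (nat_lit 78) (nat_lit 0) (nat_lit 0) (XT.lf (nat_lit 0) (nat_lit 4094626516) (nat_lit 152) (nat_lit 11655710570) (nat_lit 228) (nat_lit 10192821326) (nat_lit 17) (nat_lit 5) (nat_lit 19) (nat_lit 5) (nat_lit 20) (nat_lit 5) (nat_lit 293) (nat_lit 250) (nat_lit 177)) (XT.lf (nat_lit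 0) (nat_lit 13332691480) (nat_lit 152) (nat_lit 6352853630) (nat_lit 228) (nat_lit 7250541535) (nat_lit 17) (nat_lit 5) (nat_lit 19) (nat_lit 5) (nat_lit 20) (nat_lit 5) (nat_lit 294) (nat_lit 250) (nat_lit 176))))))) (XT.nd (nat_lit 624) (nat_lit 380) (nat_lit 0) (XT.nd (nat_lit 312) (nat_lit 152) (nat_lit 0) (XT.nd (nat_lit 156) (nat_lit 76) (nat_lit 0) (XT.nd (nat_lit 78) (nat_lit 76) (nat_lit 0) (XT.lf (nat_lit 0) (nat_lit 23010296205) (nat_lit 152) (nat_lit 792560567) (nat_lit 228) (nat_lit 4176576223) (nat_lit 17) (nat_lit 5) (nat_lit 19) (nat_lit 5) (nat_lit 20) (nat_lit 5) (nat_lit 295) (nat_lit 250) (nat_lit 175)) (XT.lf (nat_lit 0) (nat_lit 4128267671) (nat_lit 76) (nat_lit 24126925013) (nat_lit 152) (nat_lit 813333063) (nat_lit 16) (nat_lit 5) (nat_lit 17) (nat_lit 5) (nat_lit 18) (nat_lit 4) (nat_lit 296) (nat_lit 250) (nat_lit 174))) (XT.nd (nat_lit 78) (nat_lit 0) (nat_lit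 0) (XT.lf (nat_lit 0) (nat_lit 2715604764) (nat_lit 152) (nat_lit 16433676793) (nat_lit 76) (nat_lit 11056476930) (nat_lit 15) (nat_lit 5) (nat_lit 17) (nat_lit 5) (nat_lit 16) (nat_lit 5) (nat_lit 297) (nat_lit 250) (nat_lit 173)) (XT.lf (nat_lit 0) (nat_lit 6380323475) (nat_lit 152) (nat_lit 7536111060) (nat_lit 76) (nat_lit 17483450277) (nat_lit 15) (nat_lit 5) (nat_lit 17) (nat_lit 5) (nat_lit 16) (nat_lit 5) (nat_lit 298) (nat_lit 250) (nat_lit 172)))) (XT.nd (nat_lit 156) (nat_lit 0) (nat_lit 0) (XT.nd (nat_lit 78) (nat_lit 0) (nat_lit 0) (XT.lf (nat_lit 0) (nat_lit 1845386091) (nat_lit 152) (nat_lit 8399005881) (nat_lit 228) (nat_lit 22408550239) (nat_lit 13) (nat_lit 5) (nat_lit 15) (nat_lit 5) (nat_lit 16) (nat_lit 5) (nat_lit 299) (nat_lit 250) (nat_lit 171)) (XT.lf (nat_lit 0) (nat_lit 11937906866) (nat_lit 152) (nat_lit 2478984193) (nat_lit 228) (nat_lit 19546029070) (nat_lit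 13) (nat_lit 5) (nat_lit 15) (nat_lit 5) (nat_lit 16) (nat_lit 5) (nat_lit 300) (nat_lit 250) (nat_lit 170))) (XT.nd (nat_lit 78) (nat_lit 0) (nat_lit 0) (XT.lf (nat_lit 0) (nat_lit 18844442363) (nat_lit 228) (nat_lit 12880949143) (nat_lit 76) (nat_lit 3610711696) (nat_lit 13) (nat_lit 5) (nat_lit 16) (nat_lit 5) (nat_lit 14) (nat_lit 4) (nat_lit 301) (nat_lit 250) (nat_lit 169)) (XT.lf (nat_lit 0) (nat_lit 23522659476) (nat_lit 228) (nat_lit 3338663983) (nat_lit 76) (nat_lit 9915183864) (nat_lit 13) (nat_lit 5) (nat_lit 16) (nat_lit 5) (nat_lit 14) (nat_lit 4) (nat_lit 302) (nat_lit 250) (nat_lit 168))))) (XT.nd (nat_lit 312) (nat_lit 228) (nat_lit 0) (XT.nd (nat_lit 156) (nat_lit 76) (nat_lit 0) (XT.nd (nat_lit 78) (nat_lit 0) (nat_lit 0) (XT.lf (nat_lit 0) (nat_lit 6883583494) (nat_lit 76) (nat_lit 21647865657) (nat_lit 152) (nat_lit 9752674472) (nat_lit 12) (nat_lit 5) (nat_lit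 13) (nat_lit 5) (nat_lit 14) (nat_lit 4) (nat_lit 303) (nat_lit 250) (nat_lit 167)) (XT.lf (nat_lit 0) (nat_lit 17715666387) (nat_lit 76) (nat_lit 16120989914) (nat_lit 152) (nat_lit 6028189396) (nat_lit 12) (nat_lit 5) (nat_lit 13) (nat_lit 5) (nat_lit 14) (nat_lit 4) (nat_lit 304) (nat_lit 250) (nat_lit 166))) (XT.nd (nat_lit 78) (nat_lit 76) (nat_lit 0) (XT.lf (nat_lit 0) (nat_lit 29072984060) (nat_lit 76) (nat_lit 10324078896) (nat_lit 152) (nat_lit 2128066689) (nat_lit 12) (nat_lit 5) (nat_lit 13) (nat_lit 5) (nat_lit 14) (nat_lit 4) (nat_lit 305) (nat_lit 250) (nat_lit 165)) (XT.lf (nat_lit 0) (nat_lit 1894344083) (nat_lit 152) (nat_lit 2316904714) (nat_lit 76) (nat_lit 39056152028) (nat_lit 11) (nat_lit 5) (nat_lit 13) (nat_lit 5) (nat_lit 12) (nat_lit 5) (nat_lit 306) (nat_lit 250) (nat_lit 164)))) (XT.nd (nat_lit 156) (nat_lit 76) (nat_lit 0) (XT.nd (nat_lit 78) (nat_lit 0)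 (nat_lit 0) (XT.lf (nat_lit 0) (nat_lit 6207660754) (nat_lit 228) (nat_lit 36577333761) (nat_lit 76) (nat_lit 2302001245) (nat_lit 9) (nat_lit 5) (nat_lit 12) (nat_lit 5) (nat_lit 10) (nat_lit 4) (nat_lit 307) (nat_lit 250) (nat_lit 163)) (XT.lf (nat_lit 0) (nat_lit 10836384511) (nat_lit 228) (nat_lit 27122605350) (nat_lit 76) (nat_lit 9033612215) (nat_lit 9) (nat_lit 5) (nat_lit 12) (nat_lit 5) (nat_lit 10) (nat_lit 4) (nat_lit 308) (nat_lit 250) (nat_lit 162))) (XT.nd (nat_lit 78) (nat_lit 76) (nat_lit 0) (XT.lf (nat_lit 0) (nat_lit 15687804683) (nat_lit 228) (nat_lit 17209722845) (nat_lit 76) (nat_lit 16096415976) (nat_lit 9) (nat_lit 5) (nat_lit 12) (nat_lit 5) (nat_lit 10) (nat_lit 4) (nat_lit 309) (nat_lit 250) (nat_lit 161)) (XT.nd (nat_lit 78) (nat_lit 76) (nat_lit 0) (XT.lf (nat_lit 0) (nat_lit 20773472270) (nat_lit 228) (nat_lit 6815084145) (nat_lit 76) (nat_lit 23507228724)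 (nat_lit 9) (nat_lit 5) (nat_lit 12) (nat_lit 5) (nat_lit 10) (nat_lit 4) (nat_lit 310) (nat_lit 250) (nat_lit 160)) (XT.lf (nat_lit 0) (nat_lit 4221163483) (nat_lit 76) (nat_lit 21950236715) (nat_lit 152) (nat_lit 27128435962) (nat_lit 8) (nat_lit 5) (nat_lit 9) (nat_lit 5) (nat_lit 10) (nat_lit 4) (nat_lit 311) (nat_lit 250) (nat_lit 159))))))))
noncomputable def xc145 : XT := (XT.nd (nat_lit 1326) (nat_lit 228) (nat_lit 0) (XT.nd (nat_lit 624) (nat_lit 76) (nat_lit 0) (XT.nd (nat_lit 312) (nat_lit 152) (nat_lit 0) (XT.nd (nat_lit 156) (nat_lit 0) (nat_lit 0) (XT.nd (nat_lit 78) (nat_lit 0) (nat_lit 0) (XT.lf (nat_lit 0) (nat_lit 16032814559) (nat_lit 76) (nat_lit 15914073794) (nat_lit 152) (nat_lit 23661833569) (nat_lit 8) (nat_lit 5) (nat_lit 9) (nat_lit 5) (nat_lit 10) (nat_lit 4) (nat_lit 312) (nat_lit 250) (nat_lit 158)) (XT.lf (nat_lit 0) (nat_lit 28422654600) (nat_lit 76)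 (nat_lit 9581112584) (nat_lit 152) (nat_lit 20029668623) (nat_lit 8) (nat_lit 5) (nat_lit 9) (nat_lit 5) (nat_lit 10) (nat_lit 4) (nat_lit 313) (nat_lit 250) (nat_lit 157))) (XT.nd (nat_lit 78) (nat_lit 0) (nat_lit 0) (XT.lf (nat_lit 0) (nat_lit 41420183227) (nat_lit 76) (nat_lit 2936274606) (nat_lit 152) (nat_lit 16223293113) (nat_lit 8) (nat_lit 5) (nat_lit 9) (nat_lit 5) (nat_lit 10) (nat_lit 4) (nat_lit 314) (nat_lit 250) (nat_lit 156)) (XT.lf (nat_lit 0) (nat_lit 51083103101) (nat_lit 152) (nat_lit 8260400405) (nat_lit 0) (nat_lit 3907075617) (nat_lit 8) (nat_lit 5) (nat_lit 10) (nat_lit 4) (nat_lit 8) (nat_lit 4) (nat_lit 315) (nat_lit 250) (nat_lit 155)))) (XT.nd (nat_lit 156) (nat_lit 76) (nat_lit 0) (XT.nd (nat_lit 78) (nat_lit 0) (nat_lit 0) (XT.lf (nat_lit 0) (nat_lit 3227933608) (nat_lit 76) (nat_lit 55010233851) (nat_lit 76) (nat_lit 7812189563) (nat_lit 7) (nat_lit 4)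 (nat_lit 8) (nat_lit 5) (nat_lit 8) (nat_lit 4) (nat_lit 316) (nat_lit 250) (nat_lit 154)) (XT.lf (nat_lit 0) (nat_lit 15566673656) (nat_lit 76) (nat_lit 50317897783) (nat_lit 76) (nat_lit 3098885109) (nat_lit 7) (nat_lit 4) (nat_lit 8) (nat_lit 5) (nat_lit 8) (nat_lit 4) (nat_lit 317) (nat_lit 250) (nat_lit 153))) (XT.nd (nat_lit 78) (nat_lit 0) (nat_lit 0) (XT.lf (nat_lit 0) (nat_lit 1784753599) (nat_lit 152) (nat_lit 43580237684) (nat_lit 76) (nat_lit 26697092284) (nat_lit 6) (nat_lit 5) (nat_lit 8) (nat_lit 5) (nat_lit 7) (nat_lit 4) (nat_lit 318) (nat_lit 250) (nat_lit 152)) (XT.lf (nat_lit 0) (nat_lit 6802605949) (nat_lit 152) (nat_lit 33312659309) (nat_lit 76) (nat_lit 35177138291) (nat_lit 6) (nat_lit 5) (nat_lit 8) (nat_lit 5) (nat_lit 7) (nat_lit 4) (nat_lit 319) (nat_lit 250) (nat_lit 151))))) (XT.nd (nat_lit 312) (nat_lit 0) (nat_lit 0) (XT.nd (nat_lit 156) (nat_lit 76)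 (nat_lit 0) (XT.nd (nat_lit 78) (nat_lit 0) (nat_lit 0) (XT.lf (nat_lit 0) (nat_lit 12065802884) (nat_lit 152) (nat_lit 22541218873) (nat_lit 76) (nat_lit 44077505092) (nat_lit 6) (nat_lit 5) (nat_lit 8) (nat_lit 5) (nat_lit 7) (nat_lit 4) (nat_lit 320) (nat_lit 250) (nat_lit 150)) (XT.lf (nat_lit 0) (nat_lit 17586875824) (nat_lit 152) (nat_lit 11240270089) (nat_lit 76) (nat_lit 53419384035) (nat_lit 6) (nat_lit 5) (nat_lit 8) (nat_lit 5) (nat_lit 7) (nat_lit 4) (nat_lit 321) (nat_lit 250) (nat_lit 149))) (XT.nd (nat_lit 78) (nat_lit 0) (nat_lit 0) (XT.lf (nat_lit 0) (nat_lit 637497981) (nat_lit 76) (nat_lit 22751425330) (nat_lit 152) (nat_lit 62597472839) (nat_lit 5) (nat_lit 5) (nat_lit 6) (nat_lit 5) (nat_lit 7) (nat_lit 4) (nat_lit 322) (nat_lit 250) (nat_lit 148)) (XT.lf (nat_lit 0) (nat_lit 13490898409) (nat_lit 76) (nat_lit 16175608980) (nat_lit 152) (nat_lit 60237485128) (nat_lit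 5) (nat_lit 5) (nat_lit 6) (nat_lit 5) (nat_lit 7) (nat_lit 4) (nat_lit 323) (nat_lit 250) (nat_lit 147)))) (XT.nd (nat_lit 156) (nat_lit 0) (nat_lit 0) (XT.nd (nat_lit 78) (nat_lit 0) (nat_lit 0) (XT.lf (nat_lit 0) (nat_lit 26978880436) (nat_lit 76) (nat_lit 9274399570) (nat_lit 152) (nat_lit 57764431385) (nat_lit 5) (nat_lit 5) (nat_lit 6) (nat_lit 5) (nat_lit 7) (nat_lit 4) (nat_lit 324) (nat_lit 250) (nat_lit 146)) (XT.lf (nat_lit 0) (nat_lit 41133558306) (nat_lit 76) (nat_lit 2031365651) (nat_lit 152) (nat_lit 55172423387) (nat_lit 5) (nat_lit 5) (nat_lit 6) (nat_lit 5) (nat_lit 7) (nat_lit 4) (nat_lit 325) (nat_lit 250) (nat_lit 145))) (XT.nd (nat_lit 78) (nat_lit 0) (nat_lit 0) (XT.lf (nat_lit 0) (nat_lit 50504870369) (nat_lit 152) (nat_lit 46971526424) (nat_lit 0) (nat_lit 5392439688) (nat_lit 5) (nat_lit 5) (nat_lit 7) (nat_lit 4) (nat_lit 5) (nat_lit 4) (nat_lit 326) (nat_lit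 250) (nat_lit 144)) (XT.nd (nat_lit 78) (nat_lit 0) (nat_lit 0) (XT.lf (nat_lit 0) (nat_lit 58241017380) (nat_lit 152) (nat_lit 36268102657) (nat_lit 0) (nat_lit 13116326919) (nat_lit 5) (nat_lit 5) (nat_lit 7) (nat_lit 4) (nat_lit 5) (nat_lit 4) (nat_lit 327) (nat_lit 250) (nat_lit 143)) (XT.lf (nat_lit 0) (nat_lit 66360069078) (nat_lit 152) (nat_lit 25036318084) (nat_lit 0) (nat_lit 21223702636) (nat_lit 5) (nat_lit 5) (nat_lit 7) (nat_lit 4) (nat_lit 5) (nat_lit 4) (nat_lit 328) (nat_lit 250) (nat_lit 142))))))) (XT.nd (nat_lit 702) (nat_lit 152) (nat_lit 0) (XT.nd (nat_lit 312) (nat_lit 0) (nat_lit 0) (XT.nd (nat_lit 156) (nat_lit 76) (nat_lit 0) (XT.nd (nat_lit 78) (nat_lit 0) (nat_lit 0) (XT.lf (nat_lit 0) (nat_lit 74881356539) (nat_lit 152) (nat_lit 13249430363) (nat_lit 0) (nat_lit 29733870114) (nat_lit 5) (nat_lit 5) (nat_lit 7) (nat_lit 4) (nat_lit 5) (nat_lit 4) (nat_lit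 329) (nat_lit 250) (nat_lit 141)) (XT.lf (nat_lit 0) (nat_lit 83825168542) (nat_lit 152) (nat_lit 879375474) (nat_lit 0) (nat_lit 38667091658) (nat_lit 5) (nat_lit 5) (nat_lit 7) (nat_lit 4) (nat_lit 5) (nat_lit 4) (nat_lit 330) (nat_lit 250) (nat_lit 140))) (XT.nd (nat_lit 78) (nat_lit 0) (nat_lit 0) (XT.lf (nat_lit 0) (nat_lit 12503488821) (nat_lit 76) (nat_lit 80904525557) (nat_lit 76) (nat_lit 35736362521) (nat_lit 4) (nat_lit 4) (nat_lit 5) (nat_lit 5) (nat_lit 5) (nat_lit 4) (nat_lit 331) (nat_lit 250) (nat_lit 139)) (XT.lf (nat_lit 0) (nat_lit 26580238085) (nat_lit 76) (nat_lit 76901355970) (nat_lit 76) (nat_lit 31723587075) (nat_lit 4) (nat_lit 4) (nat_lit 5) (nat_lit 5) (nat_lit 5) (nat_lit 4) (nat_lit 332) (nat_lit 250) (nat_lit 138)))) (XT.nd (nat_lit 156) (nat_lit 0) (nat_lit 0) (XT.nd (nat_lit 78) (nat_lit 0) (nat_lit 0) (XT.lf (nat_lit 0) (nat_lit 41355312263) (nat_lit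 76) (nat_lit 72700396547) (nat_lit 76) (nat_lit 27513479215) (nat_lit 4) (nat_lit 4) (nat_lit 5) (nat_lit 5) (nat_lit 5) (nat_lit 4) (nat_lit 333) (nat_lit 250) (nat_lit 137)) (XT.lf (nat_lit 0) (nat_lit 56863890103) (nat_lit 76) (nat_lit 68291645005) (nat_lit 76) (nat_lit 23096014876) (nat_lit 4) (nat_lit 4) (nat_lit 5) (nat_lit 5) (nat_lit 5) (nat_lit 4) (nat_lit 334) (nat_lit 250) (nat_lit 136))) (XT.nd (nat_lit 78) (nat_lit 0) (nat_lit 0) (XT.lf (nat_lit 0) (nat_lit 73142896790) (nat_lit 76) (nat_lit 63664604315) (nat_lit 76) (nat_lit 18460676285) (nat_lit 4) (nat_lit 4) (nat_lit 5) (nat_lit 5) (nat_lit 5) (nat_lit 4) (nat_lit 335) (nat_lit 250) (nat_lit 135)) (XT.nd (nat_lit 78) (nat_lit 0) (nat_lit 0) (XT.lf (nat_lit 0) (nat_lit 90231091863) (nat_lit 76) (nat_lit 58808257716) (nat_lit 76) (nat_lit 13596426921) (nat_lit 4) (nat_lit 4) (nat_lit 5) (nat_lit 5) (nat_lit 5) (nat_lit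 4) (nat_lit 336) (nat_lit 250) (nat_lit 134)) (XT.lf (nat_lit 0) (nat_lit 108169161502) (nat_lit 76) (nat_lit 53711042475) (nat_lit 76) (nat_lit 8491685239) (nat_lit 4) (nat_lit 4) (nat_lit 5) (nat_lit 5) (nat_lit 5) (nat_lit 4) (nat_lit 337) (nat_lit 250) (nat_lit 133)))))) (XT.nd (nat_lit 312) (nat_lit 76) (nat_lit 0) (XT.nd (nat_lit 156) (nat_lit 0) (nat_lit 0) (XT.nd (nat_lit 78) (nat_lit 76) (nat_lit 0) (XT.lf (nat_lit 0) (nat_lit 126999815396) (nat_lit 76) (nat_lit 48360822367) (nat_lit 76) (nat_lit 3134297091) (nat_lit 4) (nat_lit 4) (nat_lit 5) (nat_lit 5) (nat_lit 5) (nat_lit 4) (nat_lit 338) (nat_lit 250) (nat_lit 132)) (XT.lf (nat_lit 0) (nat_lit 2408845883) (nat_lit 152) (nat_lit 40295217918) (nat_lit 76) (nat_lit 144318247581) (nat_lit 3) (nat_lit 5) (nat_lit 5) (nat_lit 5) (nat_lit 4) (nat_lit 4) (nat_lit 339) (nat_lit 250) (nat_lit 131))) (XT.nd (nat_lit 78) (nat_lit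 0) (nat_lit 0) (XT.lf (nat_lit 0) (nat_lit 8121538512) (nat_lit 152) (nat_lit 28590699652) (nat_lit 76) (nat_lit 159261366764) (nat_lit 3) (nat_lit 5) (nat_lit 5) (nat_lit 5) (nat_lit 4) (nat_lit 4) (nat_lit 340) (nat_lit 250) (nat_lit 130)) (XT.lf (nat_lit 0) (nat_lit 14117699524) (nat_lit 152) (nat_lit 16304761599) (nat_lit 76) (nat_lit 174950113729) (nat_lit 3) (nat_lit 5) (nat_lit 5) (nat_lit 5) (nat_lit 4) (nat_lit 4) (nat_lit 341) (nat_lit 250) (nat_lit 129)))) (XT.nd (nat_lit 156) (nat_lit 0) (nat_lit 0) (XT.nd (nat_lit 78) (nat_lit 76) (nat_lit 0) (XT.lf (nat_lit 0) (nat_lit 20411605494) (nat_lit 152) (nat_lit 3408151525) (nat_lit 76) (nat_lit 191421842637) (nat_lit 3) (nat_lit 5) (nat_lit 5) (nat_lit 5) (nat_lit 4) (nat_lit 4) (nat_lit 342) (nat_lit 250) (nat_lit 128)) (XT.lf (nat_lit 0) (nat_lit 10464774934) (nat_lit 76) (nat_lit 16716851441) (nat_lit 152) (nat_lit 198414381419)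 (nat_lit 2) (nat_lit 5) (nat_lit 3) (nat_lit 5) (nat_lit 4) (nat_lit 4) (nat_lit 343) (nat_lit 250) (nat_lit 127))) (XT.nd (nat_lit 78) (nat_lit 0) (nat_lit 0) (XT.lf (nat_lit 0) (nat_lit 25146274456) (nat_lit 76) (nat_lit 9199668223) (nat_lit 152) (nat_lit 202119406868) (nat_lit 2) (nat_lit 5) (nat_lit 3) (nat_lit 5) (nat_lit 4) (nat_lit 4) (nat_lit 344) (nat_lit 250) (nat_lit 126)) (XT.nd (nat_lit 78) (nat_lit 0) (nat_lit 0) (XT.lf (nat_lit 0) (nat_lit 40558614110) (nat_lit 76) (nat_lit 1308028006) (nat_lit 152) (nat_lit 206011610695) (nat_lit 2) (nat_lit 5) (nat_lit 3) (nat_lit 5) (nat_lit 4) (nat_lit 4) (nat_lit 345) (nat_lit 250) (nat_lit 125)) (XT.lf (nat_lit 0) (nat_lit 49870559433) (nat_lit 152) (nat_lit 203232329542) (nat_lit 0) (nat_lit 6753555774) (nat_lit 2) (nat_lit 5) (nat_lit 4) (nat_lit 4) (nat_lit 2) (nat_lit 4) (nat_lit 346) (nat_lit 250) (nat_lit 124))))))))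
noncomputable def xc146 : XT := (XT.nd (nat_lit 30420) (nat_lit 0) (nat_lit 3192) (XT.nd (nat_lit 624) (nat_lit 0) (nat_lit 0) (XT.nd (nat_lit 312) (nat_lit 0) (nat_lit 0) (XT.nd (nat_lit 156) (nat_lit 0) (nat_lit 0) (XT.nd (nat_lit 78) (nat_lit 0) (nat_lit 0) (XT.lf (nat_lit 0) (nat_lit 58294433543) (nat_lit 152) (nat_lit 198965097893) (nat_lit 0) (nat_lit 15173029330) (nat_lit 2) (nat_lit 5) (nat_lit 4) (nat_lit 4) (nat_lit 2) (nat_lit 4) (nat_lit 347) (nat_lit 250) (nat_lit 123)) (XT.lf (nat_lit 0) (nat_lit 67137899308) (nat_lit 152) (nat_lit 194487361698) (nat_lit 0) (nat_lit 24012304090) (nat_lit 2) (nat_lit 5) (nat_lit 4) (nat_lit 4) (nat_lit 2) (nat_lit 4) (nat_lit 348) (nat_lit 250) (nat_lit 122))) (XT.nd (nat_lit 78) (nat_lit 0) (nat_lit 0) (XT.lf (nat_lit 0) (nat_lit 76422012598) (nat_lit 152) (nat_lit 189788459678) (nat_lit 0) (nat_lit 33292425948) (nat_lit 2) (nat_lit 5)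 (nat_lit 4) (nat_lit 4) (nat_lit 2) (nat_lit 4) (nat_lit 349) (nat_lit 250) (nat_lit 121)) (XT.lf (nat_lit 0) (nat_lit 86168878446) (nat_lit 152) (nat_lit 184857203973) (nat_lit 0) (nat_lit 43035490431) (nat_lit 2) (nat_lit 5) (nat_lit 4) (nat_lit 4) (nat_lit 2) (nat_lit 4) (nat_lit 350) (nat_lit 250) (nat_lit 120)))) (XT.nd (nat_lit 156) (nat_lit 0) (nat_lit 0) (XT.nd (nat_lit 78) (nat_lit 0) (nat_lit 0) (XT.lf (nat_lit 0) (nat_lit 96401703673) (nat_lit 152) (nat_lit 179681853497) (nat_lit 0) (nat_lit 53264695311) (nat_lit 2) (nat_lit 5) (nat_lit 4) (nat_lit 4) (nat_lit 2) (nat_lit 4) (nat_lit 351) (nat_lit 250) (nat_lit 119)) (XT.lf (nat_lit 0) (nat_lit 107144852152) (nat_lit 152) (nat_lit 174250085987) (nat_lit 0) (nat_lit 64004395840) (nat_lit 2) (nat_lit 5) (nat_lit 4) (nat_lit 4) (nat_lit 2) (nat_lit 4) (nat_lit 352) (nat_lit 250) (nat_lit 118))) (XT.nd (nat_lit 78) (nat_lit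 0) (nat_lit 0) (XT.lf (nat_lit 0) (nat_lit 118423902805) (nat_lit 152) (nat_lit 168548968663) (nat_lit 0) (nat_lit 75280162731) (nat_lit 2) (nat_lit 5) (nat_lit 4) (nat_lit 4) (nat_lit 2) (nat_lit 4) (nat_lit 353) (nat_lit 250) (nat_lit 117)) (XT.lf (nat_lit 0) (nat_lit 130265710515) (nat_lit 152) (nat_lit 162564927437) (nat_lit 0) (nat_lit 87118843050) (nat_lit 2) (nat_lit 5) (nat_lit 4) (nat_lit 4) (nat_lit 2) (nat_lit 4) (nat_lit 354) (nat_lit 250) (nat_lit 116))))) (XT.nd (nat_lit 29406) (nat_lit 0) (nat_lit 5776) (XT.nd (nat_lit 156) (nat_lit 0) (nat_lit 0) (XT.nd (nat_lit 78) (nat_lit 0) (nat_lit 0) (XT.lf (nat_lit 0) (nat_lit 142698470064) (nat_lit 152) (nat_lit 156283714592) (nat_lit 0) (nat_lit 99548624130) (nat_lit 2) (nat_lit 5) (nat_lit 4) (nat_lit 4) (nat_lit 2) (nat_lit 4) (nat_lit 355) (nat_lit 250) (nat_lit 115)) (XT.lf (nat_lit 0) (nat_lit 155751783259) (nat_lit 152)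 (nat_lit 149690374858) (nat_lit 0) (nat_lit 112599100688) (nat_lit 2) (nat_lit 5) (nat_lit 4) (nat_lit 4) (nat_lit 2) (nat_lit 4) (nat_lit 356) (nat_lit 250) (nat_lit 114))) (XT.nd (nat_lit 78) (nat_lit 0) (nat_lit 0) (XT.lf (nat_lit 0) (nat_lit 169456729417) (nat_lit 152) (nat_lit 142769209808) (nat_lit 0) (nat_lit 126301345288) (nat_lit 2) (nat_lit 5) (nat_lit 4) (nat_lit 4) (nat_lit 2) (nat_lit 4) (nat_lit 357) (nat_lit 250) (nat_lit 113)) (XT.lf (nat_lit 0) (nat_lit 183845939363) (nat_lit 152) (nat_lit 135503740477) (nat_lit 0) (nat_lit 140687982320) (nat_lit 2) (nat_lit 5) (nat_lit 4) (nat_lit 4) (nat_lit 2) (nat_lit 4) (nat_lit 358) (nat_lit 250) (nat_lit 112)))) (XT.nd (nat_lit 156) (nat_lit 0) (nat_lit 0) (XT.nd (nat_lit 78) (nat_lit 0) (nat_lit 0) (XT.lf (nat_lit 0) (nat_lit 30790165) (nat_lit 0) (nat_lit 30790165) (nat_lit 532) (nat_lit 3888636455) (nat_lit 78) (nat_lit 5)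 (nat_lit 78) (nat_lit 3) (nat_lit 85) (nat_lit 3) (nat_lit 251) (nat_lit 251) (nat_lit 218)) (XT.lf (nat_lit 0) (nat_lit 1277663136) (nat_lit 532) (nat_lit 4583952808) (nat_lit 608) (nat_lit 2173028773) (nat_lit 78) (nat_lit 5) (nat_lit 85) (nat_lit 3) (nat_lit 86) (nat_lit 5) (nat_lit 252) (nat_lit 251) (nat_lit 217))) (XT.nd (nat_lit 78) (nat_lit 0) (nat_lit 0) (XT.lf (nat_lit 0) (nat_lit 2419996188) (nat_lit 532) (nat_lit 1207545479) (nat_lit 608) (nat_lit 4551886177) (nat_lit 78) (nat_lit 5) (nat_lit 85) (nat_lit 3) (nat_lit 86) (nat_lit 5) (nat_lit 253) (nat_lit 251) (nat_lit 216)) (XT.nd (nat_lit 78) (nat_lit 0) (nat_lit 76) (XT.lf (nat_lit 76) (nat_lit 2375396783) (nat_lit 0) (nat_lit 1213608036) (nat_lit 608) (nat_lit 4744316597) (nat_lit 79) (nat_lit 5) (nat_lit 78) (nat_lit 5) (nat_lit 86) (nat_lit 5) (nat_lit 254) (nat_lit 251) (nat_lit 215)) (XT.lf (nat_lit 0) (nat_lit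 4793398521) (nat_lit 532) (nat_lit 2377135253) (nat_lit 608) (nat_lit 1325861766) (nat_lit 79) (nat_lit 5) (nat_lit 86) (nat_lit 5) (nat_lit 87) (nat_lit 5) (nat_lit 255) (nat_lit 251) (nat_lit 214))))))) (XT.nd (nat_lit 624) (nat_lit 1596) (nat_lit 0) (XT.nd (nat_lit 312) (nat_lit 532) (nat_lit 0) (XT.nd (nat_lit 156) (nat_lit 532) (nat_lit 0) (XT.nd (nat_lit 78) (nat_lit 0) (nat_lit 0) (XT.lf (nat_lit 76) (nat_lit 1366833787) (nat_lit 0) (nat_lit 4671007877) (nat_lit 608) (nat_lit 2631106984) (nat_lit 80) (nat_lit 5) (nat_lit 79) (nat_lit 5) (nat_lit 87) (nat_lit 5) (nat_lit 256) (nat_lit 251) (nat_lit 213)) (XT.lf (nat_lit 76) (nat_lit 5341458749) (nat_lit 0) (nat_lit 1984214652) (nat_lit 608) (nat_lit 1525699371) (nat_lit 80) (nat_lit 5) (nat_lit 79) (nat_lit 5) (nat_lit 87) (nat_lit 5) (nat_lit 257) (nat_lit 251) (nat_lit 212))) (XT.nd (nat_lit 78) (nat_lit 608) (nat_lit 0) (XT.lf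 (nat_lit 76) (nat_lit 432048830) (nat_lit 0) (nat_lit 8209680094) (nat_lit 608) (nat_lit 403284885) (nat_lit 81) (nat_lit 5) (nat_lit 80) (nat_lit 5) (nat_lit 88) (nat_lit 5) (nat_lit 258) (nat_lit 251) (nat_lit 211)) (XT.lf (nat_lit 0) (nat_lit 788295002) (nat_lit 608) (nat_lit 4640041763) (nat_lit 684) (nat_lit 3817762670) (nat_lit 72) (nat_lit 5) (nat_lit 80) (nat_lit 5) (nat_lit 81) (nat_lit 5) (nat_lit 259) (nat_lit 251) (nat_lit 210)))) (XT.nd (nat_lit 156) (nat_lit 532) (nat_lit 0) (XT.nd (nat_lit 78) (nat_lit 0) (nat_lit 76) (XT.lf (nat_lit 0) (nat_lit 1973436933) (nat_lit 608) (nat_lit 515118552) (nat_lit 684) (nat_lit 6971224687) (nat_lit 72) (nat_lit 5) (nat_lit 80) (nat_lit 5) (nat_lit 81) (nat_lit 5) (nat_lit 260) (nat_lit 251) (nat_lit 209)) (XT.lf (nat_lit 0) (nat_lit 3239328082) (nat_lit 608) (nat_lit 5791518959) (nat_lit 76) (nat_lit 652459676) (nat_lit 73) (nat_lit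 5) (nat_lit 81) (nat_lit 5) (nat_lit 74) (nat_lit 5) (nat_lit 261) (nat_lit 251) (nat_lit 208))) (XT.nd (nat_lit 78) (nat_lit 608) (nat_lit 0) (XT.lf (nat_lit 0) (nat_lit 4570170957) (nat_lit 608) (nat_lit 1461902934) (nat_lit 76) (nat_lit 3886077960) (nat_lit 73) (nat_lit 5) (nat_lit 81) (nat_lit 5) (nat_lit 74) (nat_lit 5) (nat_lit 262) (nat_lit 251) (nat_lit 207)) (XT.lf (nat_lit 0) (nat_lit 3146507824) (nat_lit 608) (nat_lit 2824454319) (nat_lit 684) (nat_lit 4193821188) (nat_lit 65) (nat_lit 5) (nat_lit 73) (nat_lit 5) (nat_lit 74) (nat_lit 5) (nat_lit 263) (nat_lit 251) (nat_lit 206))))) (XT.nd (nat_lit 312) (nat_lit 532) (nat_lit 0) (XT.nd (nat_lit 156) (nat_lit 380) (nat_lit 0) (XT.nd (nat_lit 78) (nat_lit 684) (nat_lit 0) (XT.lf (nat_lit 0) (nat_lit 7431410052) (nat_lit 684) (nat_lit 2435592322) (nat_lit 76) (nat_lit 557467345) (nat_lit 65) (nat_lit 5) (nat_lit 74) (nat_lit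 5) (nat_lit 66) (nat_lit 5) (nat_lit 264) (nat_lit 251) (nat_lit 205)) (XT.lf (nat_lit 0) (nat_lit 2367325231) (nat_lit 684) (nat_lit 6638882025) (nat_lit 760) (nat_lit 1689061293) (nat_lit 56) (nat_lit 5) (nat_lit 65) (nat_lit 5) (nat_lit 66) (nat_lit 5) (nat_lit 265) (nat_lit 251) (nat_lit 204))) (XT.nd (nat_lit 78) (nat_lit 380) (nat_lit 0) (XT.lf (nat_lit 0) (nat_lit 7457199289) (nat_lit 684) (nat_lit 3203264372) (nat_lit 760) (nat_lit 319292898) (nat_lit 56) (nat_lit 5) (nat_lit 65) (nat_lit 5) (nat_lit 66) (nat_lit 5) (nat_lit 266) (nat_lit 251) (nat_lit 203)) (XT.lf (nat_lit 0) (nat_lit 1074443876) (nat_lit 380) (nat_lit 9768812191) (nat_lit 76) (nat_lit 434942694) (nat_lit 51) (nat_lit 5) (nat_lit 56) (nat_lit 5) (nat_lit 52) (nat_lit 5) (nat_lit 267) (nat_lit 251) (nat_lit 202)))) (XT.nd (nat_lit 156) (nat_lit 228) (nat_lit 0) (XT.nd (nat_lit 78) (nat_lit 304) (nat_lit 0)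 (XT.lf (nat_lit 0) (nat_lit 2602203208) (nat_lit 380) (nat_lit 4770984666) (nat_lit 76) (nat_lit 4214520169) (nat_lit 51) (nat_lit 5) (nat_lit 56) (nat_lit 5) (nat_lit 52) (nat_lit 5) (nat_lit 268) (nat_lit 251) (nat_lit 201)) (XT.lf (nat_lit 0) (nat_lit 454222249) (nat_lit 304) (nat_lit 3722952644) (nat_lit 380) (nat_lit 7737129048) (nat_lit 47) (nat_lit 5) (nat_lit 51) (nat_lit 5) (nat_lit 52) (nat_lit 5) (nat_lit 269) (nat_lit 251) (nat_lit 200))) (XT.nd (nat_lit 78) (nat_lit 228) (nat_lit 0) (XT.lf (nat_lit 0) (nat_lit 5879602494) (nat_lit 380) (nat_lit 6188233103) (nat_lit 76) (nat_lit 187103783) (nat_lit 47) (nat_lit 5) (nat_lit 52) (nat_lit 5) (nat_lit 48) (nat_lit 5) (nat_lit 270) (nat_lit 251) (nat_lit 199)) (XT.nd (nat_lit 78) (nat_lit 228) (nat_lit 0) (XT.lf (nat_lit 0) (nat_lit 7694725988) (nat_lit 380) (nat_lit 750330735) (nat_lit 76) (nat_lit 4166309347) (nat_lit 47)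 (nat_lit 5) (nat_lit 52) (nat_lit 5) (nat_lit 48) (nat_lit 5) (nat_lit 271) (nat_lit 251) (nat_lit 198)) (XT.lf (nat_lit 0) (nat_lit 5087531296) (nat_lit 228) (nat_lit 4560640700) (nat_lit 304) (nat_lit 3335195406) (nat_lit 44) (nat_lit 5) (nat_lit 47) (nat_lit 5) (nat_lit 48) (nat_lit 5) (nat_lit 272) (nat_lit 251) (nat_lit 197))))))))
noncomputable def xc147 : XT := (XT.nd (nat_lit 1326) (nat_lit 836) (nat_lit 0) (XT.nd (nat_lit 624) (nat_lit 836) (nat_lit 0) (XT.nd (nat_lit 312) (nat_lit 228) (nat_lit 0) (XT.nd (nat_lit 156) (nat_lit 228) (nat_lit 0) (XT.nd (nat_lit 78) (nat_lit 380) (nat_lit 0) (XT.lf (nat_lit 0) (nat_lit 11209128768) (nat_lit 228) (nat_lit 471987739) (nat_lit 304) (nat_lit 1693886337) (nat_lit 44) (nat_lit 5) (nat_lit 47) (nat_lit 5) (nat_lit 48) (nat_lit 5) (nat_lit 273) (nat_lit 251) (nat_lit 196)) (XT.lf (nat_lit 0) (nat_lit 120708996) (nat_lit 380) (nat_lit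 9902720667) (nat_lit 76) (nat_lit 3758272845) (nat_lit 39) (nat_lit 5) (nat_lit 44) (nat_lit 5) (nat_lit 40) (nat_lit 5) (nat_lit 274) (nat_lit 251) (nat_lit 195))) (XT.nd (nat_lit 78) (nat_lit 228) (nat_lit 0) (XT.lf (nat_lit 0) (nat_lit 1984967551) (nat_lit 380) (nat_lit 3976376891) (nat_lit 76) (nat_lit 8245319613) (nat_lit 39) (nat_lit 5) (nat_lit 44) (nat_lit 5) (nat_lit 40) (nat_lit 5) (nat_lit 275) (nat_lit 251) (nat_lit 194)) (XT.lf (nat_lit 0) (nat_lit 2286473989) (nat_lit 228) (nat_lit 1663892072) (nat_lit 304) (nat_lit 10702214396) (nat_lit 36) (nat_lit 5) (nat_lit 39) (nat_lit 5) (nat_lit 40) (nat_lit 5) (nat_lit 276) (nat_lit 251) (nat_lit 193)))) (XT.nd (nat_lit 156) (nat_lit 0) (nat_lit 0) (XT.nd (nat_lit 78) (nat_lit 228) (nat_lit 0) (XT.lf (nat_lit 0) (nat_lit 6099910839) (nat_lit 304) (nat_lit 6196302810) (nat_lit 76) (nat_lit 2820383433) (nat_lit 36) (nat_lit 5)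 (nat_lit 40) (nat_lit 5) (nat_lit 37) (nat_lit 5) (nat_lit 277) (nat_lit 251) (nat_lit 192)) (XT.lf (nat_lit 0) (nat_lit 229862108) (nat_lit 228) (nat_lit 8132182638) (nat_lit 304) (nat_lit 7241607740) (nat_lit 33) (nat_lit 5) (nat_lit 36) (nat_lit 5) (nat_lit 37) (nat_lit 5) (nat_lit 278) (nat_lit 251) (nat_lit 191))) (XT.nd (nat_lit 78) (nat_lit 0) (nat_lit 0) (XT.lf (nat_lit 0) (nat_lit 7160767389) (nat_lit 228) (nat_lit 3656433136) (nat_lit 304) (nat_lit 5293953463) (nat_lit 33) (nat_lit 5) (nat_lit 36) (nat_lit 5) (nat_lit 37) (nat_lit 5) (nat_lit 279) (nat_lit 251) (nat_lit 190)) (XT.lf (nat_lit 0) (nat_lit 13387470053) (nat_lit 304) (nat_lit 2253456148) (nat_lit 76) (nat_lit 1003571412) (nat_lit 33) (nat_lit 5) (nat_lit 37) (nat_lit 5) (nat_lit 34) (nat_lit 5) (nat_lit 280) (nat_lit 251) (nat_lit 189))))) (XT.nd (nat_lit 312) (nat_lit 304) (nat_lit 0) (XT.nd (nat_lit 156) (nat_lit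 228) (nat_lit 0) (XT.nd (nat_lit 78) (nat_lit 76) (nat_lit 0) (XT.lf (nat_lit 0) (nat_lit 4843538254) (nat_lit 228) (nat_lit 11355487235) (nat_lit 304) (nat_lit 999925114) (nat_lit 30) (nat_lit 5) (nat_lit 33) (nat_lit 5) (nat_lit 34) (nat_lit 5) (nat_lit 281) (nat_lit 251) (nat_lit 188)) (XT.lf (nat_lit 0) (nat_lit 1342370229) (nat_lit 304) (nat_lit 5457819897) (nat_lit 76) (nat_lit 10979130538) (nat_lit 29) (nat_lit 5) (nat_lit 33) (nat_lit 5) (nat_lit 30) (nat_lit 5) (nat_lit 282) (nat_lit 251) (nat_lit 187))) (XT.nd (nat_lit 78) (nat_lit 0) (nat_lit 0) (XT.lf (nat_lit 0) (nat_lit 1797010340) (nat_lit 228) (nat_lit 1977696963) (nat_lit 304) (nat_lit 14612925566) (nat_lit 26) (nat_lit 5) (nat_lit 29) (nat_lit 5) (nat_lit 30) (nat_lit 5) (nat_lit 283) (nat_lit 251) (nat_lit 186)) (XT.lf (nat_lit 0) (nat_lit 6449730084) (nat_lit 304) (nat_lit 9496668921) (nat_lit 76) (nat_lit 3073974717)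 (nat_lit 26) (nat_lit 5) (nat_lit 30) (nat_lit 5) (nat_lit 27) (nat_lit 5) (nat_lit 284) (nat_lit 251) (nat_lit 185)))) (XT.nd (nat_lit 156) (nat_lit 152) (nat_lit 0) (XT.nd (nat_lit 78) (nat_lit 152) (nat_lit 0) (XT.lf (nat_lit 0) (nat_lit 9270870882) (nat_lit 304) (nat_lit 2108343575) (nat_lit 76) (nat_lit 8304982128) (nat_lit 26) (nat_lit 5) (nat_lit 30) (nat_lit 5) (nat_lit 27) (nat_lit 5) (nat_lit 285) (nat_lit 251) (nat_lit 184)) (XT.lf (nat_lit 0) (nat_lit 5808738044) (nat_lit 152) (nat_lit 6495921943) (nat_lit 228) (nat_lit 8073031339) (nat_lit 24) (nat_lit 5) (nat_lit 26) (nat_lit 5) (nat_lit 27) (nat_lit 5) (nat_lit 286) (nat_lit 251) (nat_lit 183))) (XT.nd (nat_lit 78) (nat_lit 152) (nat_lit 0) (XT.lf (nat_lit 0) (nat_lit 14168723430) (nat_lit 152) (nat_lit 1338522790) (nat_lit 228) (nat_lit 5597816628) (nat_lit 24) (nat_lit 5) (nat_lit 26) (nat_lit 5) (nat_lit 27) (nat_lit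 5) (nat_lit 287) (nat_lit 251) (nat_lit 182)) (XT.nd (nat_lit 78) (nat_lit 0) (nat_lit 0) (XT.lf (nat_lit 0) (nat_lit 1021210614) (nat_lit 152) (nat_lit 17910519772) (nat_lit 228) (nat_lit 2934038820) (nat_lit 22) (nat_lit 5) (nat_lit 24) (nat_lit 5) (nat_lit 25) (nat_lit 5) (nat_lit 288) (nat_lit 251) (nat_lit 181)) (XT.lf (nat_lit 0) (nat_lit 9569468459) (nat_lit 152) (nat_lit 13079658430) (nat_lit 228) (nat_lit 9351676) (nat_lit 22) (nat_lit 5) (nat_lit 24) (nat_lit 5) (nat_lit 25) (nat_lit 5) (nat_lit 289) (nat_lit 251) (nat_lit 180))))))) (XT.nd (nat_lit 702) (nat_lit 304) (nat_lit 0) (XT.nd (nat_lit 312) (nat_lit 304) (nat_lit 0) (XT.nd (nat_lit 156) (nat_lit 0) (nat_lit 0) (XT.nd (nat_lit 78) (nat_lit 152) (nat_lit 0) (XT.lf (nat_lit 0) (nat_lit 2946717224) (nat_lit 228) (nat_lit 5018198416) (nat_lit 76) (nat_lit 15524408173) (nat_lit 21) (nat_lit 5) (nat_lit 24) (nat_lit 5)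 (nat_lit 22) (nat_lit 5) (nat_lit 290) (nat_lit 251) (nat_lit 179)) (XT.lf (nat_lit 0) (nat_lit 3545955622) (nat_lit 152) (nat_lit 2543621739) (nat_lit 228) (nat_lit 18270206190) (nat_lit 19) (nat_lit 5) (nat_lit 21) (nat_lit 5) (nat_lit 22) (nat_lit 5) (nat_lit 291) (nat_lit 251) (nat_lit 178))) (XT.nd (nat_lit 78) (nat_lit 0) (nat_lit 0) (XT.lf (nat_lit 0) (nat_lit 9509345804) (nat_lit 228) (nat_lit 12631399534) (nat_lit 76) (nat_lit 3127075526) (nat_lit 19) (nat_lit 5) (nat_lit 22) (nat_lit 5) (nat_lit 20) (nat_lit 5) (nat_lit 292) (nat_lit 251) (nat_lit 177)) (XT.lf (nat_lit 0) (nat_lit 13126778399) (nat_lit 228) (nat_lit 4104278538) (nat_lit 76) (nat_lit 8988910130) (nat_lit 19) (nat_lit 5) (nat_lit 22) (nat_lit 5) (nat_lit 20) (nat_lit 5) (nat_lit 293) (nat_lit 251) (nat_lit 176)))) (XT.nd (nat_lit 156) (nat_lit 152) (nat_lit 0) (XT.nd (nat_lit 78) (nat_lit 0) (nat_lit 0) (XT.lf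 (nat_lit 0) (nat_lit 4987171423) (nat_lit 152) (nat_lit 12001467318) (nat_lit 228) (nat_lit 10227942903) (nat_lit 17) (nat_lit 5) (nat_lit 19) (nat_lit 5) (nat_lit 20) (nat_lit 5) (nat_lit 294) (nat_lit 251) (nat_lit 175)) (XT.lf (nat_lit 0) (nat_lit 14654386607) (nat_lit 152) (nat_lit 6444754616) (nat_lit 228) (nat_lit 7161145289) (nat_lit 17) (nat_lit 5) (nat_lit 19) (nat_lit 5) (nat_lit 20) (nat_lit 5) (nat_lit 295) (nat_lit 251) (nat_lit 174))) (XT.nd (nat_lit 78) (nat_lit 152) (nat_lit 0) (XT.lf (nat_lit 0) (nat_lit 24784678209) (nat_lit 152) (nat_lit 617196505) (nat_lit 228) (nat_lit 3955001869) (nat_lit 17) (nat_lit 5) (nat_lit 19) (nat_lit 5) (nat_lit 20) (nat_lit 5) (nat_lit 296) (nat_lit 251) (nat_lit 173)) (XT.nd (nat_lit 78) (nat_lit 76) (nat_lit 0) (XT.lf (nat_lit 0) (nat_lit 4966364219) (nat_lit 76) (nat_lit 25104052094) (nat_lit 152) (nat_lit 430379850) (nat_lit 16)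 (nat_lit 5) (nat_lit 17) (nat_lit 5) (nat_lit 18) (nat_lit 4) (nat_lit 297) (nat_lit 251) (nat_lit 172)) (XT.lf (nat_lit 0) (nat_lit 3241919655) (nat_lit 152) (nat_lit 16639908115) (nat_lit 76) (nat_lit 11813755245) (nat_lit 15) (nat_lit 5) (nat_lit 17) (nat_lit 5) (nat_lit 16) (nat_lit 5) (nat_lit 298) (nat_lit 251) (nat_lit 171)))))) (XT.nd (nat_lit 312) (nat_lit 152) (nat_lit 0) (XT.nd (nat_lit 156) (nat_lit 0) (nat_lit 0) (XT.nd (nat_lit 78) (nat_lit 152) (nat_lit 0) (XT.lf (nat_lit 0) (nat_lit 7071277413) (nat_lit 152) (nat_lit 7326771357) (nat_lit 76) (nat_lit 18552341331) (nat_lit 15) (nat_lit 5) (nat_lit 17) (nat_lit 5) (nat_lit 16) (nat_lit 5) (nat_lit 299) (nat_lit 251) (nat_lit 170)) (XT.lf (nat_lit 0) (nat_lit 2514346695) (nat_lit 152) (nat_lit 8605495085) (nat_lit 228) (nat_lit 23146736449) (nat_lit 13) (nat_lit 5) (nat_lit 15) (nat_lit 5) (nat_lit 16) (nat_lit 5) (nat_lit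 300) (nat_lit 251) (nat_lit 169))) (XT.nd (nat_lit 78) (nat_lit 0) (nat_lit 0) (XT.lf (nat_lit 0) (nat_lit 13084032018) (nat_lit 152) (nat_lit 2399637127) (nat_lit 228) (nat_lit 20159291187) (nat_lit 13) (nat_lit 5) (nat_lit 15) (nat_lit 5) (nat_lit 16) (nat_lit 5) (nat_lit 301) (nat_lit 251) (nat_lit 168)) (XT.lf (nat_lit 0) (nat_lit 20119147869) (nat_lit 228) (nat_lit 12987699850) (nat_lit 76) (nat_lit 3978665876) (nat_lit 13) (nat_lit 5) (nat_lit 16) (nat_lit 5) (nat_lit 14) (nat_lit 4) (nat_lit 302) (nat_lit 251) (nat_lit 167)))) (XT.nd (nat_lit 156) (nat_lit 76) (nat_lit 0) (XT.nd (nat_lit 78) (nat_lit 76) (nat_lit 0) (XT.lf (nat_lit 0) (nat_lit 25015443296) (nat_lit 228) (nat_lit 2993885992) (nat_lit 76) (nat_lit 10589436958) (nat_lit 13) (nat_lit 5) (nat_lit 16) (nat_lit 5) (nat_lit 14) (nat_lit 4) (nat_lit 303) (nat_lit 251) (nat_lit 166)) (XT.lf (nat_lit 0) (nat_lit 7731220453)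 (nat_lit 76) (nat_lit 22536233776) (nat_lit 152) (nat_lit 9914704989) (nat_lit 12) (nat_lit 5) (nat_lit 13) (nat_lit 5) (nat_lit 14) (nat_lit 4) (nat_lit 304) (nat_lit 251) (nat_lit 165))) (XT.nd (nat_lit 78) (nat_lit 76) (nat_lit 0) (XT.lf (nat_lit 0) (nat_lit 19080933310) (nat_lit 76) (nat_lit 16742253541) (nat_lit 152) (nat_lit 6019500574) (nat_lit 12) (nat_lit 5) (nat_lit 13) (nat_lit 5) (nat_lit 14) (nat_lit 4) (nat_lit 305) (nat_lit 251) (nat_lit 164)) (XT.nd (nat_lit 78) (nat_lit 76) (nat_lit 0) (XT.lf (nat_lit 0) (nat_lit 30983284314) (nat_lit 76) (nat_lit 10664296298) (nat_lit 152) (nat_lit 1939138318) (nat_lit 12) (nat_lit 5) (nat_lit 13) (nat_lit 5) (nat_lit 14) (nat_lit 4) (nat_lit 306) (nat_lit 251) (nat_lit 163)) (XT.lf (nat_lit 0) (nat_lit 2261327237) (nat_lit 152) (nat_lit 1988266814) (nat_lit 76) (nat_lit 41166988487) (nat_lit 11) (nat_lit 5) (nat_lit 13) (nat_lit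 5) (nat_lit 12) (nat_lit 5) (nat_lit 307) (nat_lit 251) (nat_lit 162))))))))
noncomputable def xc148 : XT := (XT.nd (nat_lit 1326) (nat_lit 152) (nat_lit 0) (XT.nd (nat_lit 624) (nat_lit 228) (nat_lit 0) (XT.nd (nat_lit 312) (nat_lit 76) (nat_lit 0) (XT.nd (nat_lit 156) (nat_lit 0) (nat_lit 0) (XT.nd (nat_lit 78) (nat_lit 0) (nat_lit 0) (XT.lf (nat_lit 0) (nat_lit 6786845079) (nat_lit 228) (nat_lit 37957705002) (nat_lit 76) (nat_lit 2582807754) (nat_lit 9) (nat_lit 5) (nat_lit 12) (nat_lit 5) (nat_lit 10) (nat_lit 4) (nat_lit 308) (nat_lit 251) (nat_lit 161)) (XT.lf (nat_lit 0) (nat_lit 11634204962) (nat_lit 228) (nat_lit 28051597097) (nat_lit 76) (nat_lit 9643108490) (nat_lit 9) (nat_lit 5) (nat_lit 12) (nat_lit 5) (nat_lit 10) (nat_lit 4) (nat_lit 309) (nat_lit 251) (nat_lit 160))) (XT.nd (nat_lit 78) (nat_lit 0) (nat_lit 0) (XT.lf (nat_lit 0) (nat_lit 16716005608) (nat_lit 228)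 (nat_lit 17663410396) (nat_lit 76) (nat_lit 17051537407) (nat_lit 9) (nat_lit 5) (nat_lit 12) (nat_lit 5) (nat_lit 10) (nat_lit 4) (nat_lit 310) (nat_lit 251) (nat_lit 159)) (XT.lf (nat_lit 0) (nat_lit 22044346542) (nat_lit 228) (nat_lit 6768411122) (nat_lit 76) (nat_lit 24825733620) (nat_lit 9) (nat_lit 5) (nat_lit 12) (nat_lit 5) (nat_lit 10) (nat_lit 4) (nat_lit 311) (nat_lit 251) (nat_lit 158)))) (XT.nd (nat_lit 156) (nat_lit 0) (nat_lit 0) (XT.nd (nat_lit 78) (nat_lit 0) (nat_lit 0) (XT.lf (nat_lit 0) (nat_lit 4813400061) (nat_lit 76) (nat_lit 22893664894) (nat_lit 152) (nat_lit 28245957724) (nat_lit 8) (nat_lit 5) (nat_lit 9) (nat_lit 5) (nat_lit 10) (nat_lit 4) (nat_lit 312) (nat_lit 251) (nat_lit 157)) (XT.lf (nat_lit 0) (nat_lit 17197482338) (nat_lit 76) (nat_lit 16563031144) (nat_lit 152) (nat_lit 24617401404) (nat_lit 8) (nat_lit 5) (nat_lit 9) (nat_lit 5) (nat_lit 10) (nat_lit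 4) (nat_lit 313) (nat_lit 251) (nat_lit 156))) (XT.nd (nat_lit 78) (nat_lit 0) (nat_lit 0) (XT.lf (nat_lit 0) (nat_lit 30189527379) (nat_lit 76) (nat_lit 9920409794) (nat_lit 152) (nat_lit 20814462679) (nat_lit 8) (nat_lit 5) (nat_lit 9) (nat_lit 5) (nat_lit 10) (nat_lit 4) (nat_lit 314) (nat_lit 251) (nat_lit 155)) (XT.lf (nat_lit 0) (nat_lit 43820468625) (nat_lit 76) (nat_lit 2949985080) (nat_lit 152) (nat_lit 16828086934) (nat_lit 8) (nat_lit 5) (nat_lit 9) (nat_lit 5) (nat_lit 10) (nat_lit 4) (nat_lit 315) (nat_lit 251) (nat_lit 154))))) (XT.nd (nat_lit 312) (nat_lit 76) (nat_lit 0) (XT.nd (nat_lit 156) (nat_lit 76) (nat_lit 0) (XT.nd (nat_lit 78) (nat_lit 76) (nat_lit 0) (XT.lf (nat_lit 0) (nat_lit 53826068824) (nat_lit 152) (nat_lit 8352090925) (nat_lit 0) (nat_lit 4225137131) (nat_lit 8) (nat_lit 5) (nat_lit 10) (nat_lit 4) (nat_lit 8) (nat_lit 4) (nat_lit 316) (nat_lit 251)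 (nat_lit 153)) (XT.lf (nat_lit 0) (nat_lit 3705477054) (nat_lit 76) (nat_lit 57629354303) (nat_lit 76) (nat_lit 8008452721) (nat_lit 7) (nat_lit 4) (nat_lit 8) (nat_lit 5) (nat_lit 8) (nat_lit 4) (nat_lit 317) (nat_lit 251) (nat_lit 152))) (XT.nd (nat_lit 78) (nat_lit 76) (nat_lit 0) (XT.lf (nat_lit 0) (nat_lit 16646099497) (nat_lit 76) (nat_lit 52708658157) (nat_lit 76) (nat_lit 3068737631) (nat_lit 7) (nat_lit 4) (nat_lit 8) (nat_lit 5) (nat_lit 8) (nat_lit 4) (nat_lit 318) (nat_lit 251) (nat_lit 151)) (XT.lf (nat_lit 0) (nat_lit 2044627129) (nat_lit 152) (nat_lit 45466548189) (nat_lit 76) (nat_lit 28145175684) (nat_lit 6) (nat_lit 5) (nat_lit 8) (nat_lit 5) (nat_lit 7) (nat_lit 4) (nat_lit 319) (nat_lit 251) (nat_lit 150)))) (XT.nd (nat_lit 156) (nat_lit 76) (nat_lit 0) (XT.nd (nat_lit 78) (nat_lit 0) (nat_lit 0) (XT.lf (nat_lit 0) (nat_lit 7305246580) (nat_lit 152) (nat_lit 34699529057)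 (nat_lit 76) (nat_lit 37043832145) (nat_lit 6) (nat_lit 5) (nat_lit 8) (nat_lit 5) (nat_lit 7) (nat_lit 4) (nat_lit 320) (nat_lit 251) (nat_lit 149)) (XT.lf (nat_lit 0) (nat_lit 12823864774) (nat_lit 152) (nat_lit 23402791038) (nat_lit 76) (nat_lit 46384082193) (nat_lit 6) (nat_lit 5) (nat_lit 8) (nat_lit 5) (nat_lit 7) (nat_lit 4) (nat_lit 321) (nat_lit 251) (nat_lit 148))) (XT.nd (nat_lit 78) (nat_lit 76) (nat_lit 0) (XT.lf (nat_lit 0) (nat_lit 18613621278) (nat_lit 152) (nat_lit 11549437137) (nat_lit 76) (nat_lit 56188164519) (nat_lit 6) (nat_lit 5) (nat_lit 8) (nat_lit 5) (nat_lit 7) (nat_lit 4) (nat_lit 322) (nat_lit 251) (nat_lit 147)) (XT.nd (nat_lit 78) (nat_lit 0) (nat_lit 0) (XT.lf (nat_lit 0) (nat_lit 918141168) (nat_lit 76) (nat_lit 23784494814) (nat_lit 152) (nat_lit 65575615766) (nat_lit 5) (nat_lit 5) (nat_lit 6) (nat_lit 5) (nat_lit 7) (nat_lit 4) (nat_lit 323) (nat_lit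 251) (nat_lit 146)) (XT.lf (nat_lit 0) (nat_lit 14402365508) (nat_lit 76) (nat_lit 16884863922) (nat_lit 152) (nat_lit 63104853941) (nat_lit 5) (nat_lit 5) (nat_lit 6) (nat_lit 5) (nat_lit 7) (nat_lit 4) (nat_lit 324) (nat_lit 251) (nat_lit 145))))))) (XT.nd (nat_lit 624) (nat_lit 76) (nat_lit 0) (XT.nd (nat_lit 312) (nat_lit 76) (nat_lit 0) (XT.nd (nat_lit 156) (nat_lit 0) (nat_lit 0) (XT.nd (nat_lit 78) (nat_lit 0) (nat_lit 0) (XT.lf (nat_lit 0) (nat_lit 28553464628) (nat_lit 76) (nat_lit 9643333352) (nat_lit 152) (nat_lit 60515028723) (nat_lit 5) (nat_lit 5) (nat_lit 6) (nat_lit 5) (nat_lit 7) (nat_lit 4) (nat_lit 325) (nat_lit 251) (nat_lit 144)) (XT.lf (nat_lit 0) (nat_lit 43405131622) (nat_lit 76) (nat_lit 2042661365) (nat_lit 152) (nat_lit 57799973860) (nat_lit 5) (nat_lit 5) (nat_lit 6) (nat_lit 5) (nat_lit 7) (nat_lit 4) (nat_lit 326) (nat_lit 251) (nat_lit 143))) (XT.nd (nat_lit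 78) (nat_lit 0) (nat_lit 0) (XT.lf (nat_lit 0) (nat_lit 53150144592) (nat_lit 152) (nat_lit 49110641928) (nat_lit 0) (nat_lit 5745283846) (nat_lit 5) (nat_lit 5) (nat_lit 7) (nat_lit 4) (nat_lit 5) (nat_lit 4) (nat_lit 327) (nat_lit 251) (nat_lit 142)) (XT.lf (nat_lit 0) (nat_lit 61267383206) (nat_lit 152) (nat_lit 37882021297) (nat_lit 0) (nat_lit 13851402478) (nat_lit 5) (nat_lit 5) (nat_lit 7) (nat_lit 4) (nat_lit 5) (nat_lit 4) (nat_lit 328) (nat_lit 251) (nat_lit 141)))) (XT.nd (nat_lit 156) (nat_lit 76) (nat_lit 0) (XT.nd (nat_lit 78) (nat_lit 0) (nat_lit 0) (XT.lf (nat_lit 0) (nat_lit 69786943920) (nat_lit 152) (nat_lit 26098146854) (nat_lit 0) (nat_lit 22360372732) (nat_lit 5) (nat_lit 5) (nat_lit 7) (nat_lit 4) (nat_lit 5) (nat_lit 4) (nat_lit 329) (nat_lit 251) (nat_lit 140)) (XT.lf (nat_lit 0) (nat_lit 78729111402) (nat_lit 152) (nat_lit 13730961753) (nat_lit 0) (nat_lit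 31292454062) (nat_lit 5) (nat_lit 5) (nat_lit 7) (nat_lit 4) (nat_lit 5) (nat_lit 4) (nat_lit 330) (nat_lit 251) (nat_lit 139))) (XT.nd (nat_lit 78) (nat_lit 76) (nat_lit 0) (XT.lf (nat_lit 0) (nat_lit 88115176527) (nat_lit 152) (nat_lit 751020316) (nat_lit 0) (nat_lit 40668913329) (nat_lit 5) (nat_lit 5) (nat_lit 7) (nat_lit 4) (nat_lit 5) (nat_lit 4) (nat_lit 331) (nat_lit 251) (nat_lit 138)) (XT.lf (nat_lit 0) (nat_lit 13298207775) (nat_lit 76) (nat_lit 84876901584) (nat_lit 76) (nat_lit 37421489949) (nat_lit 4) (nat_lit 4) (nat_lit 5) (nat_lit 5) (nat_lit 5) (nat_lit 4) (nat_lit 332) (nat_lit 251) (nat_lit 137))))) (XT.nd (nat_lit 312) (nat_lit 76) (nat_lit 0) (XT.nd (nat_lit 156) (nat_lit 0) (nat_lit 0) (XT.nd (nat_lit 78) (nat_lit 0) (nat_lit 0) (XT.lf (nat_lit 0) (nat_lit 28070720955) (nat_lit 76) (nat_lit 80677042577) (nat_lit 76) (nat_lit 33212918145) (nat_lit 4) (nat_lit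 4) (nat_lit 5) (nat_lit 5) (nat_lit 5) (nat_lit 4) (nat_lit 333) (nat_lit 251) (nat_lit 136)) (XT.lf (nat_lit 0) (nat_lit 43576859748) (nat_lit 76) (nat_lit 76269339049) (nat_lit 76) (nat_lit 28796916715) (nat_lit 4) (nat_lit 4) (nat_lit 5) (nat_lit 5) (nat_lit 5) (nat_lit 4) (nat_lit 334) (nat_lit 251) (nat_lit 135))) (XT.nd (nat_lit 78) (nat_lit 0) (nat_lit 0) (XT.lf (nat_lit 0) (nat_lit 59853543534) (nat_lit 76) (nat_lit 71643296469) (nat_lit 76) (nat_lit 24162971371) (nat_lit 4) (nat_lit 4) (nat_lit 5) (nat_lit 5) (nat_lit 5) (nat_lit 4) (nat_lit 335) (nat_lit 251) (nat_lit 134)) (XT.lf (nat_lit 0) (nat_lit 76939526320) (nat_lit 76) (nat_lit 66787900450) (nat_lit 76) (nat_lit 19300048910) (nat_lit 4) (nat_lit 4) (nat_lit 5) (nat_lit 5) (nat_lit 5) (nat_lit 4) (nat_lit 336) (nat_lit 251) (nat_lit 133)))) (XT.nd (nat_lit 156) (nat_lit 76) (nat_lit 0) (XT.nd (nat_lit 78) (nat_lit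 0) (nat_lit 0) (XT.lf (nat_lit 0) (nat_lit 94875489020) (nat_lit 76) (nat_lit 61691590524) (nat_lit 76) (nat_lit 14196570944) (nat_lit 4) (nat_lit 4) (nat_lit 5) (nat_lit 5) (nat_lit 5) (nat_lit 4) (nat_lit 337) (nat_lit 251) (nat_lit 132)) (XT.lf (nat_lit 0) (nat_lit 113704136304) (nat_lit 76) (nat_lit 56342232620) (nat_lit 76) (nat_lit 8840386336) (nat_lit 4) (nat_lit 4) (nat_lit 5) (nat_lit 5) (nat_lit 5) (nat_lit 4) (nat_lit 338) (nat_lit 251) (nat_lit 131))) (XT.nd (nat_lit 78) (nat_lit 76) (nat_lit 0) (XT.lf (nat_lit 0) (nat_lit 133470298287) (nat_lit 76) (nat_lit 50727090172) (nat_lit 76) (nat_lit 3218742265) (nat_lit 4) (nat_lit 4) (nat_lit 5) (nat_lit 5) (nat_lit 5) (nat_lit 4) (nat_lit 339) (nat_lit 251) (nat_lit 130)) (XT.nd (nat_lit 78) (nat_lit 0) (nat_lit 0) (XT.lf (nat_lit 0) (nat_lit 2595913510) (nat_lit 152) (nat_lit 42192917232) (nat_lit 76) (nat_lit 151581160696)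 (nat_lit 3) (nat_lit 5) (nat_lit 5) (nat_lit 5) (nat_lit 4) (nat_lit 4) (nat_lit 340) (nat_lit 251) (nat_lit 129)) (XT.lf (nat_lit 0) (nat_lit 8591068136) (nat_lit 152) (nat_lit 29908747414) (nat_lit 76) (nat_lit 167269197707) (nat_lit 3) (nat_lit 5) (nat_lit 5) (nat_lit 5) (nat_lit 4) (nat_lit 4) (nat_lit 341) (nat_lit 251) (nat_lit 128))))))))
noncomputable def xc149 : XT := (XT.nd (nat_lit 30498) (nat_lit 0) (nat_lit 3724) (XT.nd (nat_lit 624) (nat_lit 0) (nat_lit 0) (XT.nd (nat_lit 312) (nat_lit 0) (nat_lit 0) (XT.nd (nat_lit 156) (nat_lit 76) (nat_lit 0) (XT.nd (nat_lit 78) (nat_lit 0) (nat_lit 0) (XT.lf (nat_lit 0) (nat_lit 14884015642) (nat_lit 152) (nat_lit 17013821373) (nat_lit 76) (nat_lit 183740250468) (nat_lit 3) (nat_lit 5) (nat_lit 5) (nat_lit 5) (nat_lit 4) (nat_lit 4) (nat_lit 342) (nat_lit 251) (nat_lit 127)) (XT.lf (nat_lit 0) (nat_lit 21489739236) (nat_lit 152) (nat_lit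 3477436905) (nat_lit 76) (nat_lit 201033535771) (nat_lit 3) (nat_lit 5) (nat_lit 5) (nat_lit 5) (nat_lit 4) (nat_lit 4) (nat_lit 343) (nat_lit 251) (nat_lit 126))) (XT.nd (nat_lit 78) (nat_lit 0) (nat_lit 0) (XT.lf (nat_lit 0) (nat_lit 11087504874) (nat_lit 76) (nat_lit 17509568983) (nat_lit 152) (nat_lit 208275830255) (nat_lit 2) (nat_lit 5) (nat_lit 3) (nat_lit 5) (nat_lit 4) (nat_lit 4) (nat_lit 344) (nat_lit 251) (nat_lit 125)) (XT.lf (nat_lit 0) (nat_lit 26498341697) (nat_lit 76) (nat_lit 9618580177) (nat_lit 152) (nat_lit 212168929368) (nat_lit 2) (nat_lit 5) (nat_lit 3) (nat_lit 5) (nat_lit 4) (nat_lit 4) (nat_lit 345) (nat_lit 251) (nat_lit 124)))) (XT.nd (nat_lit 156) (nat_lit 0) (nat_lit 0) (XT.nd (nat_lit 78) (nat_lit 0) (nat_lit 0) (XT.lf (nat_lit 0) (nat_lit 42676786261) (nat_lit 76) (nat_lit 1334313733) (nat_lit 152) (nat_lit 216258431379) (nat_lit 2) (nat_lit 5) (nat_lit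 3) (nat_lit 5) (nat_lit 4) (nat_lit 4) (nat_lit 346) (nat_lit 251) (nat_lit 123)) (XT.lf (nat_lit 0) (nat_lit 52413360239) (nat_lit 152) (nat_lit 213306074763) (nat_lit 0) (nat_lit 7127294256) (nat_lit 2) (nat_lit 5) (nat_lit 4) (nat_lit 4) (nat_lit 2) (nat_lit 4) (nat_lit 347) (nat_lit 251) (nat_lit 122))) (XT.nd (nat_lit 78) (nat_lit 0) (nat_lit 0) (XT.lf (nat_lit 0) (nat_lit 61256081730) (nat_lit 152) (nat_lit 208829665877) (nat_lit 0) (nat_lit 15966024314) (nat_lit 2) (nat_lit 5) (nat_lit 4) (nat_lit 4) (nat_lit 2) (nat_lit 4) (nat_lit 348) (nat_lit 251) (nat_lit 121)) (XT.lf (nat_lit 0) (nat_lit 70539486187) (nat_lit 152) (nat_lit 204132027962) (nat_lit 0) (nat_lit 25245627407) (nat_lit 2) (nat_lit 5) (nat_lit 4) (nat_lit 4) (nat_lit 2) (nat_lit 4) (nat_lit 349) (nat_lit 251) (nat_lit 120))))) (XT.nd (nat_lit 312) (nat_lit 0) (nat_lit 0) (XT.nd (nat_lit 156) (nat_lit 0) (nat_lit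 0) (XT.nd (nat_lit 78) (nat_lit 0) (nat_lit 0) (XT.lf (nat_lit 0) (nat_lit 80285676955) (nat_lit 152) (nat_lit 199201976167) (nat_lit 0) (nat_lit 34988197828) (nat_lit 2) (nat_lit 5) (nat_lit 4) (nat_lit 4) (nat_lit 2) (nat_lit 4) (nat_lit 350) (nat_lit 251) (nat_lit 119)) (XT.lf (nat_lit 0) (nat_lit 90517859251) (nat_lit 152) (nat_lit 194027772271) (nat_lit 0) (nat_lit 45216932174) (nat_lit 2) (nat_lit 5) (nat_lit 4) (nat_lit 4) (nat_lit 2) (nat_lit 4) (nat_lit 351) (nat_lit 251) (nat_lit 118))) (XT.nd (nat_lit 78) (nat_lit 0) (nat_lit 0) (XT.lf (nat_lit 0) (nat_lit 101260395412) (nat_lit 152) (nat_lit 188597096743) (nat_lit 0) (nat_lit 55956184574) (nat_lit 2) (nat_lit 5) (nat_lit 4) (nat_lit 4) (nat_lit 2) (nat_lit 4) (nat_lit 352) (nat_lit 251) (nat_lit 117)) (XT.lf (nat_lit 0) (nat_lit 112538862907) (nat_lit 152) (nat_lit 182897019401) (nat_lit 0) (nat_lit 67231524676) (nat_lit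 2) (nat_lit 5) (nat_lit 4) (nat_lit 4) (nat_lit 2) (nat_lit 4) (nat_lit 353) (nat_lit 251) (nat_lit 116)))) (XT.nd (nat_lit 156) (nat_lit 0) (nat_lit 0) (XT.nd (nat_lit 78) (nat_lit 0) (nat_lit 0) (XT.lf (nat_lit 0) (nat_lit 124380115229) (nat_lit 152) (nat_lit 176913968635) (nat_lit 0) (nat_lit 79069798530) (nat_lit 2) (nat_lit 5) (nat_lit 4) (nat_lit 4) (nat_lit 2) (nat_lit 4) (nat_lit 354) (nat_lit 251) (nat_lit 115)) (XT.lf (nat_lit 0) (nat_lit 136812345835) (nat_lit 152) (nat_lit 170633699084) (nat_lit 0) (nat_lit 91499192499) (nat_lit 2) (nat_lit 5) (nat_lit 4) (nat_lit 4) (nat_lit 2) (nat_lit 4) (nat_lit 355) (nat_lit 251) (nat_lit 114))) (XT.nd (nat_lit 78) (nat_lit 0) (nat_lit 0) (XT.lf (nat_lit 0) (nat_lit 149865155276) (nat_lit 152) (nat_lit 164041257726) (nat_lit 0) (nat_lit 104549300381) (nat_lit 2) (nat_lit 5) (nat_lit 4) (nat_lit 4) (nat_lit 2) (nat_lit 4) (nat_lit 356)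 (nat_lit 251) (nat_lit 113)) (XT.nd (nat_lit 78) (nat_lit 0) (nat_lit 0) (XT.lf (nat_lit 0) (nat_lit 163569621668) (nat_lit 152) (nat_lit 157120948272) (nat_lit 0) (nat_lit 118251193860) (nat_lit 2) (nat_lit 5) (nat_lit 4) (nat_lit 4) (nat_lit 2) (nat_lit 4) (nat_lit 357) (nat_lit 251) (nat_lit 112)) (XT.lf (nat_lit 0) (nat_lit 177958374694) (nat_lit 152) (nat_lit 149856293794) (nat_lit 0) (nat_lit 132637496493) (nat_lit 2) (nat_lit 5) (nat_lit 4) (nat_lit 4) (nat_lit 2) (nat_lit 4) (nat_lit 358) (nat_lit 251) (nat_lit 111))))))) (XT.nd (nat_lit 702) (nat_lit 1520) (nat_lit 0) (XT.nd (nat_lit 312) (nat_lit 532) (nat_lit 0) (XT.nd (nat_lit 156) (nat_lit 0) (nat_lit 0) (XT.nd (nat_lit 78) (nat_lit 0) (nat_lit 0) (XT.lf (nat_lit 0) (nat_lit 581802108) (nat_lit 0) (nat_lit 581802108) (nat_lit 532) (nat_lit 2923537082) (nat_lit 78) (nat_lit 5) (nat_lit 78) (nat_lit 3) (nat_lit 85) (nat_lit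 3) (nat_lit 252) (nat_lit 252) (nat_lit 216)) (XT.lf (nat_lit 0) (nat_lit 3418434035) (nat_lit 532) (nat_lit 3634793181) (nat_lit 608) (nat_lit 1268564241) (nat_lit 78) (nat_lit 5) (nat_lit 85) (nat_lit 3) (nat_lit 86) (nat_lit 5) (nat_lit 253) (nat_lit 252) (nat_lit 215))) (XT.nd (nat_lit 78) (nat_lit 0) (nat_lit 0) (XT.lf (nat_lit 0) (nat_lit 4518984323) (nat_lit 532) (nat_lit 145677736) (nat_lit 608) (nat_lit 3814608132) (nat_lit 78) (nat_lit 5) (nat_lit 85) (nat_lit 3) (nat_lit 86) (nat_lit 5) (nat_lit 254) (nat_lit 252) (nat_lit 214)) (XT.lf (nat_lit 76) (nat_lit 3598310913) (nat_lit 0) (nat_lit 2071181339) (nat_lit 608) (nat_lit 2975700872) (nat_lit 79) (nat_lit 5) (nat_lit 78) (nat_lit 5) (nat_lit 86) (nat_lit 5) (nat_lit 255) (nat_lit 252) (nat_lit 213)))) (XT.nd (nat_lit 156) (nat_lit 608) (nat_lit 0) (XT.nd (nat_lit 78) (nat_lit 0) (nat_lit 0) (XT.lf (nat_lit 0) (nat_lit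 6831730790) (nat_lit 532) (nat_lit 1332772600) (nat_lit 608) (nat_lit 657500234) (nat_lit 79) (nat_lit 5) (nat_lit 86) (nat_lit 5) (nat_lit 87) (nat_lit 5) (nat_lit 256) (nat_lit 252) (nat_lit 212)) (XT.lf (nat_lit 76) (nat_lit 2579633288) (nat_lit 0) (nat_lit 5490980409) (nat_lit 608) (nat_lit 936401648) (nat_lit 80) (nat_lit 5) (nat_lit 79) (nat_lit 5) (nat_lit 87) (nat_lit 5) (nat_lit 257) (nat_lit 252) (nat_lit 211))) (XT.nd (nat_lit 78) (nat_lit 0) (nat_lit 76) (XT.lf (nat_lit 0) (nat_lit 132916722) (nat_lit 608) (nat_lit 2506754927) (nat_lit 684) (nat_lit 6563323776) (nat_lit 71) (nat_lit 5) (nat_lit 79) (nat_lit 5) (nat_lit 80) (nat_lit 5) (nat_lit 258) (nat_lit 252) (nat_lit 210)) (XT.nd (nat_lit 78) (nat_lit 0) (nat_lit 0) (XT.lf (nat_lit 0) (nat_lit 1203689797) (nat_lit 608) (nat_lit 7805683512) (nat_lit 684) (nat_lit 399908950) (nat_lit 72) (nat_lit 5) (nat_lit 80) (nat_lit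 5) (nat_lit 81) (nat_lit 5) (nat_lit 259) (nat_lit 252) (nat_lit 209)) (XT.lf (nat_lit 0) (nat_lit 2364458239) (nat_lit 608) (nat_lit 3699359576) (nat_lit 684) (nat_lit 3560479161) (nat_lit 72) (nat_lit 5) (nat_lit 80) (nat_lit 5) (nat_lit 81) (nat_lit 5) (nat_lit 260) (nat_lit 252) (nat_lit 208)))))) (XT.nd (nat_lit 312) (nat_lit 1064) (nat_lit 0) (XT.nd (nat_lit 156) (nat_lit 532) (nat_lit 0) (XT.nd (nat_lit 78) (nat_lit 0) (nat_lit 76) (XT.lf (nat_lit 76) (nat_lit 595011779) (nat_lit 0) (nat_lit 2949956789) (nat_lit 684) (nat_lit 6307233808) (nat_lit 73) (nat_lit 5) (nat_lit 72) (nat_lit 5) (nat_lit 81) (nat_lit 5) (nat_lit 261) (nat_lit 252) (nat_lit 207)) (XT.lf (nat_lit 0) (nat_lit 4807452089) (nat_lit 608) (nat_lit 4900246245) (nat_lit 76) (nat_lit 382871729) (nat_lit 73) (nat_lit 5) (nat_lit 81) (nat_lit 5) (nat_lit 74) (nat_lit 5) (nat_lit 262) (nat_lit 252) (nat_lit 206)))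 (XT.nd (nat_lit 78) (nat_lit 608) (nat_lit 0) (XT.lf (nat_lit 0) (nat_lit 6137877221) (nat_lit 608) (nat_lit 410380307) (nat_lit 76) (nat_lit 3792561924) (nat_lit 73) (nat_lit 5) (nat_lit 81) (nat_lit 5) (nat_lit 74) (nat_lit 5) (nat_lit 263) (nat_lit 252) (nat_lit 205)) (XT.lf (nat_lit 0) (nat_lit 4410311992) (nat_lit 608) (nat_lit 3151899890) (nat_lit 684) (nat_lit 3040194483) (nat_lit 65) (nat_lit 5) (nat_lit 73) (nat_lit 5) (nat_lit 74) (nat_lit 5) (nat_lit 264) (nat_lit 252) (nat_lit 204)))) (XT.nd (nat_lit 156) (nat_lit 380) (nat_lit 0) (XT.nd (nat_lit 78) (nat_lit 684) (nat_lit 0) (XT.lf (nat_lit 0) (nat_lit 9031355955) (nat_lit 684) (nat_lit 1433560156) (nat_lit 76) (nat_lit 413662084) (nat_lit 65) (nat_lit 5) (nat_lit 74) (nat_lit 5) (nat_lit 66) (nat_lit 5) (nat_lit 265) (nat_lit 252) (nat_lit 203)) (XT.lf (nat_lit 0) (nat_lit 3591377278) (nat_lit 684) (nat_lit 7052284528)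 (nat_lit 760) (nat_lit 521587970) (nat_lit 56) (nat_lit 5) (nat_lit 65) (nat_lit 5) (nat_lit 66) (nat_lit 5) (nat_lit 266) (nat_lit 252) (nat_lit 202))) (XT.nd (nat_lit 78) (nat_lit 304) (nat_lit 0) (XT.lf (nat_lit 0) (nat_lit 829622243) (nat_lit 760) (nat_lit 2597334723) (nat_lit 76) (nat_lit 8039421038) (nat_lit 55) (nat_lit 5) (nat_lit 65) (nat_lit 5) (nat_lit 56) (nat_lit 5) (nat_lit 267) (nat_lit 252) (nat_lit 201)) (XT.nd (nat_lit 78) (nat_lit 0) (nat_lit 0) (XT.lf (nat_lit 0) (nat_lit 2243606551) (nat_lit 380) (nat_lit 9117741418) (nat_lit 76) (nat_lit 420302395) (nat_lit 51) (nat_lit 5) (nat_lit 56) (nat_lit 5) (nat_lit 52) (nat_lit 5) (nat_lit 268) (nat_lit 252) (nat_lit 200)) (XT.lf (nat_lit 0) (nat_lit 3794637636) (nat_lit 380) (nat_lit 3924284963) (nat_lit 76) (nat_lit 4390591479) (nat_lit 51) (nat_lit 5) (nat_lit 56) (nat_lit 5) (nat_lit 52) (nat_lit 5) (nat_lit 269) (nat_lit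 252) (nat_lit 199))))))))
noncomputable def xc150 : XT := (XT.nd (nat_lit 1326) (nat_lit 988) (nat_lit 0) (XT.nd (nat_lit 624) (nat_lit 760) (nat_lit 0) (XT.nd (nat_lit 312) (nat_lit 608) (nat_lit 0) (XT.nd (nat_lit 156) (nat_lit 228) (nat_lit 0) (XT.nd (nat_lit 78) (nat_lit 0) (nat_lit 0) (XT.lf (nat_lit 0) (nat_lit 1544678282) (nat_lit 304) (nat_lit 3869763243) (nat_lit 380) (nat_lit 7039906595) (nat_lit 47) (nat_lit 5) (nat_lit 51) (nat_lit 5) (nat_lit 52) (nat_lit 5) (nat_lit 270) (nat_lit 252) (nat_lit 198)) (XT.lf (nat_lit 0) (nat_lit 7153603619) (nat_lit 380) (nat_lit 5428309733) (nat_lit 76) (nat_lit 232723736) (nat_lit 47) (nat_lit 5) (nat_lit 52) (nat_lit 5) (nat_lit 48) (nat_lit 5) (nat_lit 271) (nat_lit 252) (nat_lit 197))) (XT.nd (nat_lit 78) (nat_lit 0) (nat_lit 0) (XT.lf (nat_lit 0) (nat_lit 238190625) (nat_lit 228) (nat_lit 8778343819) (nat_lit 304) (nat_lit 4174690882)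 (nat_lit 44) (nat_lit 5) (nat_lit 47) (nat_lit 5) (nat_lit 48) (nat_lit 5) (nat_lit 272) (nat_lit 252) (nat_lit 196)) (XT.lf (nat_lit 0) (nat_lit 6343896133) (nat_lit 228) (nat_lit 4691236243) (nat_lit 304) (nat_lit 2548503958) (nat_lit 44) (nat_lit 5) (nat_lit 47) (nat_lit 5) (nat_lit 48) (nat_lit 5) (nat_lit 273) (nat_lit 252) (nat_lit 195)))) (XT.nd (nat_lit 156) (nat_lit 228) (nat_lit 0) (XT.nd (nat_lit 78) (nat_lit 380) (nat_lit 0) (XT.lf (nat_lit 0) (nat_lit 12723859751) (nat_lit 228) (nat_lit 402790468) (nat_lit 304) (nat_lit 870531875) (nat_lit 44) (nat_lit 5) (nat_lit 47) (nat_lit 5) (nat_lit 48) (nat_lit 5) (nat_lit 274) (nat_lit 252) (nat_lit 194)) (XT.lf (nat_lit 0) (nat_lit 980879365) (nat_lit 380) (nat_lit 9383165942) (nat_lit 76) (nat_lit 4060863701) (nat_lit 39) (nat_lit 5) (nat_lit 44) (nat_lit 5) (nat_lit 40) (nat_lit 5) (nat_lit 275) (nat_lit 252) (nat_lit 193)))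 (XT.nd (nat_lit 78) (nat_lit 228) (nat_lit 0) (XT.lf (nat_lit 0) (nat_lit 2897677756) (nat_lit 380) (nat_lit 3208823585) (nat_lit 76) (nat_lit 8766801988) (nat_lit 39) (nat_lit 5) (nat_lit 44) (nat_lit 5) (nat_lit 40) (nat_lit 5) (nat_lit 276) (nat_lit 252) (nat_lit 192)) (XT.lf (nat_lit 0) (nat_lit 3351583192) (nat_lit 228) (nat_lit 1585871149) (nat_lit 304) (nat_lit 10405399652) (nat_lit 36) (nat_lit 5) (nat_lit 39) (nat_lit 5) (nat_lit 40) (nat_lit 5) (nat_lit 277) (nat_lit 252) (nat_lit 191))))) (XT.nd (nat_lit 312) (nat_lit 532) (nat_lit 0) (XT.nd (nat_lit 156) (nat_lit 0) (nat_lit 0) (XT.nd (nat_lit 78) (nat_lit 228) (nat_lit 0) (XT.lf (nat_lit 0) (nat_lit 7159274955) (nat_lit 304) (nat_lit 5562666556) (nat_lit 76) (nat_lit 3110027007) (nat_lit 36) (nat_lit 5) (nat_lit 40) (nat_lit 5) (nat_lit 37) (nat_lit 5) (nat_lit 278) (nat_lit 252) (nat_lit 190)) (XT.lf (nat_lit 0) (nat_lit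 1169589650) (nat_lit 228) (nat_lit 8343495935) (nat_lit 304) (nat_lit 6831493081) (nat_lit 33) (nat_lit 5) (nat_lit 36) (nat_lit 5) (nat_lit 37) (nat_lit 5) (nat_lit 279) (nat_lit 252) (nat_lit 189))) (XT.nd (nat_lit 78) (nat_lit 0) (nat_lit 0) (XT.lf (nat_lit 0) (nat_lit 8402838555) (nat_lit 228) (nat_lit 3653258760) (nat_lit 304) (nat_lit 4823227284) (nat_lit 33) (nat_lit 5) (nat_lit 36) (nat_lit 5) (nat_lit 37) (nat_lit 5) (nat_lit 280) (nat_lit 252) (nat_lit 188)) (XT.lf (nat_lit 0) (nat_lit 14724406111) (nat_lit 304) (nat_lit 1491351845) (nat_lit 76) (nat_lit 1225219505) (nat_lit 33) (nat_lit 5) (nat_lit 37) (nat_lit 5) (nat_lit 34) (nat_lit 5) (nat_lit 281) (nat_lit 252) (nat_lit 187)))) (XT.nd (nat_lit 156) (nat_lit 228) (nat_lit 0) (XT.nd (nat_lit 78) (nat_lit 76) (nat_lit 0) (XT.lf (nat_lit 0) (nat_lit 5946382970) (nat_lit 228) (nat_lit 11711805093) (nat_lit 304) (nat_lit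 365995310) (nat_lit 30) (nat_lit 5) (nat_lit 33) (nat_lit 5) (nat_lit 34) (nat_lit 5) (nat_lit 282) (nat_lit 252) (nat_lit 186)) (XT.lf (nat_lit 0) (nat_lit 2039999363) (nat_lit 304) (nat_lit 4888135119) (nat_lit 76) (nat_lit 11706582061) (nat_lit 29) (nat_lit 5) (nat_lit 33) (nat_lit 5) (nat_lit 30) (nat_lit 5) (nat_lit 283) (nat_lit 252) (nat_lit 185))) (XT.nd (nat_lit 78) (nat_lit 0) (nat_lit 0) (XT.lf (nat_lit 0) (nat_lit 2715846697) (nat_lit 228) (nat_lit 1861025071) (nat_lit 304) (nat_lit 14697524031) (nat_lit 26) (nat_lit 5) (nat_lit 29) (nat_lit 5) (nat_lit 30) (nat_lit 5) (nat_lit 284) (nat_lit 252) (nat_lit 184)) (XT.nd (nat_lit 78) (nat_lit 0) (nat_lit 0) (XT.lf (nat_lit 0) (nat_lit 7359639964) (nat_lit 304) (nat_lit 9154131787) (nat_lit 76) (nat_lit 3426394956) (nat_lit 26) (nat_lit 5) (nat_lit 30) (nat_lit 5) (nat_lit 27) (nat_lit 5) (nat_lit 285) (nat_lit 252) (nat_lit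 183)) (XT.lf (nat_lit 0) (nat_lit 10293865260) (nat_lit 304) (nat_lit 1435312582) (nat_lit 76) (nat_lit 8909489809) (nat_lit 26) (nat_lit 5) (nat_lit 30) (nat_lit 5) (nat_lit 27) (nat_lit 5) (nat_lit 286) (nat_lit 252) (nat_lit 182))))))) (XT.nd (nat_lit 624) (nat_lit 456) (nat_lit 0) (XT.nd (nat_lit 312) (nat_lit 152) (nat_lit 0) (XT.nd (nat_lit 156) (nat_lit 228) (nat_lit 0) (XT.nd (nat_lit 78) (nat_lit 0) (nat_lit 0) (XT.lf (nat_lit 0) (nat_lit 6865067503) (nat_lit 152) (nat_lit 6599593532) (nat_lit 228) (nat_lit 7902994340) (nat_lit 24) (nat_lit 5) (nat_lit 26) (nat_lit 5) (nat_lit 27) (nat_lit 5) (nat_lit 287) (nat_lit 252) (nat_lit 181)) (XT.lf (nat_lit 0) (nat_lit 15606581083) (nat_lit 152) (nat_lit 1194854159) (nat_lit 228) (nat_lit 5331337397) (nat_lit 24) (nat_lit 5) (nat_lit 26) (nat_lit 5) (nat_lit 27) (nat_lit 5) (nat_lit 288) (nat_lit 252) (nat_lit 180))) (XT.nd (nat_lit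 78) (nat_lit 76) (nat_lit 0) (XT.lf (nat_lit 0) (nat_lit 1813791925) (nat_lit 152) (nat_lit 18573354281) (nat_lit 228) (nat_lit 2544944268) (nat_lit 22) (nat_lit 5) (nat_lit 24) (nat_lit 5) (nat_lit 25) (nat_lit 5) (nat_lit 289) (nat_lit 252) (nat_lit 179)) (XT.lf (nat_lit 0) (nat_lit 484445169) (nat_lit 228) (nat_lit 13019380935) (nat_lit 76) (nat_lit 10261502665) (nat_lit 21) (nat_lit 5) (nat_lit 24) (nat_lit 5) (nat_lit 22) (nat_lit 5) (nat_lit 290) (nat_lit 252) (nat_lit 178)))) (XT.nd (nat_lit 156) (nat_lit 0) (nat_lit 0) (XT.nd (nat_lit 78) (nat_lit 152) (nat_lit 0) (XT.lf (nat_lit 0) (nat_lit 3564481801) (nat_lit 228) (nat_lit 4579654652) (nat_lit 76) (nat_lit 16494814134) (nat_lit 21) (nat_lit 5) (nat_lit 24) (nat_lit 5) (nat_lit 22) (nat_lit 5) (nat_lit 291) (nat_lit 252) (nat_lit 177)) (XT.lf (nat_lit 0) (nat_lit 4401586868) (nat_lit 152) (nat_lit 2451087397) (nat_lit 228)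 (nat_lit 18700912342) (nat_lit 19) (nat_lit 5) (nat_lit 21) (nat_lit 5) (nat_lit 22) (nat_lit 5) (nat_lit 292) (nat_lit 252) (nat_lit 176))) (XT.nd (nat_lit 78) (nat_lit 0) (nat_lit 0) (XT.lf (nat_lit 0) (nat_lit 10424859197) (nat_lit 228) (nat_lit 12597170260) (nat_lit 76) (nat_lit 3485984696) (nat_lit 19) (nat_lit 5) (nat_lit 22) (nat_lit 5) (nat_lit 20) (nat_lit 5) (nat_lit 293) (nat_lit 252) (nat_lit 175)) (XT.lf (nat_lit 0) (nat_lit 14202208846) (nat_lit 228) (nat_lit 3675397940) (nat_lit 76) (nat_lit 9631265536) (nat_lit 19) (nat_lit 5) (nat_lit 22) (nat_lit 5) (nat_lit 20) (nat_lit 5) (nat_lit 294) (nat_lit 252) (nat_lit 174))))) (XT.nd (nat_lit 312) (nat_lit 228) (nat_lit 0) (XT.nd (nat_lit 156) (nat_lit 76) (nat_lit 0) (XT.nd (nat_lit 78) (nat_lit 0) (nat_lit 0) (XT.lf (nat_lit 0) (nat_lit 5860397187) (nat_lit 152) (nat_lit 12386548594) (nat_lit 228) (nat_lit 10308936883)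 (nat_lit 17) (nat_lit 5) (nat_lit 19) (nat_lit 5) (nat_lit 20) (nat_lit 5) (nat_lit 295) (nat_lit 252) (nat_lit 173)) (XT.lf (nat_lit 0) (nat_lit 15981265169) (nat_lit 152) (nat_lit 6562237975) (nat_lit 228) (nat_lit 7109294777) (nat_lit 17) (nat_lit 5) (nat_lit 19) (nat_lit 5) (nat_lit 20) (nat_lit 5) (nat_lit 296) (nat_lit 252) (nat_lit 172))) (XT.nd (nat_lit 78) (nat_lit 76) (nat_lit 0) (XT.lf (nat_lit 0) (nat_lit 26589778054) (nat_lit 152) (nat_lit 453052166) (nat_lit 228) (nat_lit 3762363605) (nat_lit 17) (nat_lit 5) (nat_lit 19) (nat_lit 5) (nat_lit 20) (nat_lit 5) (nat_lit 297) (nat_lit 252) (nat_lit 171)) (XT.lf (nat_lit 0) (nat_lit 5787637681) (nat_lit 76) (nat_lit 26151346154) (nat_lit 152) (nat_lit 67663136) (nat_lit 16) (nat_lit 5) (nat_lit 17) (nat_lit 5) (nat_lit 18) (nat_lit 4) (nat_lit 298) (nat_lit 252) (nat_lit 170)))) (XT.nd (nat_lit 156) (nat_lit 152) (nat_lit 0)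 (XT.nd (nat_lit 78) (nat_lit 0) (nat_lit 0) (XT.lf (nat_lit 0) (nat_lit 3758242081) (nat_lit 152) (nat_lit 16913669944) (nat_lit 76) (nat_lit 12589889236) (nat_lit 15) (nat_lit 5) (nat_lit 17) (nat_lit 5) (nat_lit 16) (nat_lit 5) (nat_lit 299) (nat_lit 252) (nat_lit 169)) (XT.lf (nat_lit 0) (nat_lit 7762199800) (nat_lit 152) (nat_lit 7161458900) (nat_lit 76) (nat_lit 19656573854) (nat_lit 15) (nat_lit 5) (nat_lit 17) (nat_lit 5) (nat_lit 16) (nat_lit 5) (nat_lit 300) (nat_lit 252) (nat_lit 168))) (XT.nd (nat_lit 78) (nat_lit 0) (nat_lit 0) (XT.lf (nat_lit 0) (nat_lit 3163140039) (nat_lit 152) (nat_lit 8842154339) (nat_lit 228) (nat_lit 23957369141) (nat_lit 13) (nat_lit 5) (nat_lit 15) (nat_lit 5) (nat_lit 16) (nat_lit 5) (nat_lit 301) (nat_lit 252) (nat_lit 167)) (XT.nd (nat_lit 78) (nat_lit 0) (nat_lit 0) (XT.lf (nat_lit 0) (nat_lit 14236401246) (nat_lit 152) (nat_lit 2335223268)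 (nat_lit 228) (nat_lit 20837061338) (nat_lit 13) (nat_lit 5) (nat_lit 15) (nat_lit 5) (nat_lit 16) (nat_lit 5) (nat_lit 302) (nat_lit 252) (nat_lit 166)) (XT.lf (nat_lit 0) (nat_lit 21426677497) (nat_lit 228) (nat_lit 13149740852) (nat_lit 76) (nat_lit 4347593361) (nat_lit 13) (nat_lit 5) (nat_lit 16) (nat_lit 5) (nat_lit 14) (nat_lit 4) (nat_lit 303) (nat_lit 252) (nat_lit 165))))))))
noncomputable def xc151 : XT := (XT.nd (nat_lit 1326) (nat_lit 152) (nat_lit 0) (XT.nd (nat_lit 624) (nat_lit 228) (nat_lit 0) (XT.nd (nat_lit 312) (nat_lit 228) (nat_lit 0) (XT.nd (nat_lit 156) (nat_lit 0) (nat_lit 0) (XT.nd (nat_lit 78) (nat_lit 76) (nat_lit 0) (XT.lf (nat_lit 0) (nat_lit 26553427113) (nat_lit 228) (nat_lit 2679443157) (nat_lit 76) (nat_lit 11280808036) (nat_lit 13) (nat_lit 5) (nat_lit 16) (nat_lit 5) (nat_lit 14) (nat_lit 4) (nat_lit 304) (nat_lit 252) (nat_lit 164)) (XT.lf (nat_lit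 0) (nat_lit 8574432527) (nat_lit 76) (nat_lit 23487058923) (nat_lit 152) (nat_lit 10115108532) (nat_lit 12) (nat_lit 5) (nat_lit 13) (nat_lit 5) (nat_lit 14) (nat_lit 4) (nat_lit 305) (nat_lit 252) (nat_lit 163))) (XT.nd (nat_lit 78) (nat_lit 0) (nat_lit 0) (XT.lf (nat_lit 0) (nat_lit 20469885739) (nat_lit 76) (nat_lit 17411759987) (nat_lit 152) (nat_lit 6039207311) (nat_lit 12) (nat_lit 5) (nat_lit 13) (nat_lit 5) (nat_lit 14) (nat_lit 4) (nat_lit 306) (nat_lit 252) (nat_lit 162)) (XT.lf (nat_lit 0) (nat_lit 32946644495) (nat_lit 76) (nat_lit 11037886131) (nat_lit 152) (nat_lit 1768220670) (nat_lit 12) (nat_lit 5) (nat_lit 13) (nat_lit 5) (nat_lit 14) (nat_lit 4) (nat_lit 307) (nat_lit 252) (nat_lit 161)))) (XT.nd (nat_lit 156) (nat_lit 0) (nat_lit 0) (XT.nd (nat_lit 78) (nat_lit 152) (nat_lit 0) (XT.lf (nat_lit 0) (nat_lit 2621346841) (nat_lit 152) (nat_lit 1684520847) (nat_lit 76)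 (nat_lit 43368674744) (nat_lit 11) (nat_lit 5) (nat_lit 13) (nat_lit 5) (nat_lit 12) (nat_lit 5) (nat_lit 308) (nat_lit 252) (nat_lit 160)) (XT.lf (nat_lit 0) (nat_lit 7369998024) (nat_lit 228) (nat_lit 39448791661) (nat_lit 76) (nat_lit 2862248775) (nat_lit 9) (nat_lit 5) (nat_lit 12) (nat_lit 5) (nat_lit 10) (nat_lit 4) (nat_lit 309) (nat_lit 252) (nat_lit 159))) (XT.nd (nat_lit 78) (nat_lit 0) (nat_lit 0) (XT.lf (nat_lit 0) (nat_lit 12448115868) (nat_lit 228) (nat_lit 29066749722) (nat_lit 76) (nat_lit 10268407374) (nat_lit 9) (nat_lit 5) (nat_lit 12) (nat_lit 5) (nat_lit 10) (nat_lit 4) (nat_lit 310) (nat_lit 252) (nat_lit 158)) (XT.lf (nat_lit 0) (nat_lit 17772949372) (nat_lit 228) (nat_lit 18177602601) (nat_lit 76) (nat_lit 18040441381) (nat_lit 9) (nat_lit 5) (nat_lit 12) (nat_lit 5) (nat_lit 10) (nat_lit 4) (nat_lit 311) (nat_lit 252) (nat_lit 157))))) (XT.nd (nat_lit 312)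 (nat_lit 152) (nat_lit 0) (XT.nd (nat_lit 156) (nat_lit 0) (nat_lit 0) (XT.nd (nat_lit 78) (nat_lit 76) (nat_lit 0) (XT.lf (nat_lit 0) (nat_lit 23357176711) (nat_lit 228) (nat_lit 6755423760) (nat_lit 76) (nat_lit 26196855639) (nat_lit 9) (nat_lit 5) (nat_lit 12) (nat_lit 5) (nat_lit 10) (nat_lit 4) (nat_lit 312) (nat_lit 252) (nat_lit 156)) (XT.lf (nat_lit 0) (nat_lit 5399810113) (nat_lit 76) (nat_lit 23898589720) (nat_lit 152) (nat_lit 29441566235) (nat_lit 8) (nat_lit 5) (nat_lit 9) (nat_lit 5) (nat_lit 10) (nat_lit 4) (nat_lit 313) (nat_lit 252) (nat_lit 155))) (XT.nd (nat_lit 78) (nat_lit 0) (nat_lit 0) (XT.lf (nat_lit 0) (nat_lit 18386632692) (nat_lit 76) (nat_lit 17258079445) (nat_lit 152) (nat_lit 25641900640) (nat_lit 8) (nat_lit 5) (nat_lit 9) (nat_lit 5) (nat_lit 10) (nat_lit 4) (nat_lit 314) (nat_lit 252) (nat_lit 154)) (XT.lf (nat_lit 0) (nat_lit 32012600164) (nat_lit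 76) (nat_lit 10289665278) (nat_lit 152) (nat_lit 21658642162) (nat_lit 8) (nat_lit 5) (nat_lit 9) (nat_lit 5) (nat_lit 10) (nat_lit 4) (nat_lit 315) (nat_lit 252) (nat_lit 153)))) (XT.nd (nat_lit 156) (nat_lit 152) (nat_lit 0) (XT.nd (nat_lit 78) (nat_lit 0) (nat_lit 0) (XT.lf (nat_lit 0) (nat_lit 46310155310) (nat_lit 76) (nat_lit 2976755758) (nat_lit 152) (nat_lit 17482306852) (nat_lit 8) (nat_lit 5) (nat_lit 9) (nat_lit 5) (nat_lit 10) (nat_lit 4) (nat_lit 316) (nat_lit 252) (nat_lit 152)) (XT.lf (nat_lit 0) (nat_lit 56688629015) (nat_lit 152) (nat_lit 8478240143) (nat_lit 0) (nat_lit 4547693520) (nat_lit 8) (nat_lit 5) (nat_lit 10) (nat_lit 4) (nat_lit 8) (nat_lit 4) (nat_lit 317) (nat_lit 252) (nat_lit 151))) (XT.nd (nat_lit 78) (nat_lit 76) (nat_lit 0) (XT.lf (nat_lit 0) (nat_lit 4177505343) (nat_lit 76) (nat_lit 60391646290) (nat_lit 76) (nat_lit 8232597515) (nat_lit 7) (nat_lit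 4) (nat_lit 8) (nat_lit 5) (nat_lit 8) (nat_lit 4) (nat_lit 318) (nat_lit 252) (nat_lit 150)) (XT.nd (nat_lit 78) (nat_lit 76) (nat_lit 0) (XT.lf (nat_lit 0) (nat_lit 17751503935) (nat_lit 76) (nat_lit 55230590371) (nat_lit 76) (nat_lit 3054290854) (nat_lit 7) (nat_lit 4) (nat_lit 8) (nat_lit 5) (nat_lit 8) (nat_lit 4) (nat_lit 319) (nat_lit 252) (nat_lit 149)) (XT.lf (nat_lit 0) (nat_lit 2301630232) (nat_lit 152) (nat_lit 47474386819) (nat_lit 76) (nat_lit 29655136315) (nat_lit 6) (nat_lit 5) (nat_lit 8) (nat_lit 5) (nat_lit 7) (nat_lit 4) (nat_lit 320) (nat_lit 252) (nat_lit 148))))))) (XT.nd (nat_lit 702) (nat_lit 76) (nat_lit 0) (XT.nd (nat_lit 312) (nat_lit 0) (nat_lit 0) (XT.nd (nat_lit 156) (nat_lit 76) (nat_lit 0) (XT.nd (nat_lit 78) (nat_lit 0) (nat_lit 0) (XT.lf (nat_lit 0) (nat_lit 7817910572) (nat_lit 152) (nat_lit 36181659053) (nat_lit 76) (nat_lit 38993835034) (nat_lit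 6) (nat_lit 5) (nat_lit 8) (nat_lit 5) (nat_lit 7) (nat_lit 4) (nat_lit 321) (nat_lit 252) (nat_lit 147)) (XT.lf (nat_lit 0) (nat_lit 13605440549) (nat_lit 152) (nat_lit 24332124441) (nat_lit 76) (nat_lit 48796439905) (nat_lit 6) (nat_lit 5) (nat_lit 8) (nat_lit 5) (nat_lit 7) (nat_lit 4) (nat_lit 322) (nat_lit 252) (nat_lit 146))) (XT.nd (nat_lit 78) (nat_lit 76) (nat_lit 0) (XT.lf (nat_lit 0) (nat_lit 19677999995) (nat_lit 152) (nat_lit 11897569804) (nat_lit 76) (nat_lit 59086290462) (nat_lit 6) (nat_lit 5) (nat_lit 8) (nat_lit 5) (nat_lit 7) (nat_lit 4) (nat_lit 323) (nat_lit 252) (nat_lit 145)) (XT.lf (nat_lit 0) (nat_lit 1189688397) (nat_lit 76) (nat_lit 24878933359) (nat_lit 152) (nat_lit 68716772322) (nat_lit 5) (nat_lit 5) (nat_lit 6) (nat_lit 5) (nat_lit 7) (nat_lit 4) (nat_lit 324) (nat_lit 252) (nat_lit 144)))) (XT.nd (nat_lit 156) (nat_lit 0) (nat_lit 0) (XT.nd (nat_lit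 78) (nat_lit 0) (nat_lit 0) (XT.lf (nat_lit 0) (nat_lit 15337379184) (nat_lit 76) (nat_lit 17638834550) (nat_lit 152) (nat_lit 66129025941) (nat_lit 5) (nat_lit 5) (nat_lit 6) (nat_lit 5) (nat_lit 7) (nat_lit 4) (nat_lit 325) (nat_lit 252) (nat_lit 143)) (XT.lf (nat_lit 0) (nat_lit 30185800146) (nat_lit 76) (nat_lit 10039526146) (nat_lit 152) (nat_lit 63415950924) (nat_lit 5) (nat_lit 5) (nat_lit 6) (nat_lit 5) (nat_lit 7) (nat_lit 4) (nat_lit 326) (nat_lit 252) (nat_lit 142))) (XT.nd (nat_lit 78) (nat_lit 0) (nat_lit 0) (XT.lf (nat_lit 0) (nat_lit 45770304666) (nat_lit 76) (nat_lit 2062914553) (nat_lit 152) (nat_lit 60571087567) (nat_lit 5) (nat_lit 5) (nat_lit 6) (nat_lit 5) (nat_lit 7) (nat_lit 4) (nat_lit 327) (nat_lit 252) (nat_lit 141)) (XT.nd (nat_lit 78) (nat_lit 0) (nat_lit 0) (XT.lf (nat_lit 0) (nat_lit 55916523209) (nat_lit 152) (nat_lit 51376186890) (nat_lit 0) (nat_lit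 6108033003) (nat_lit 5) (nat_lit 5) (nat_lit 7) (nat_lit 4) (nat_lit 5) (nat_lit 4) (nat_lit 328) (nat_lit 252) (nat_lit 140)) (XT.lf (nat_lit 0) (nat_lit 64434439402) (nat_lit 152) (nat_lit 39595182234) (nat_lit 0) (nat_lit 14615863044) (nat_lit 5) (nat_lit 5) (nat_lit 7) (nat_lit 4) (nat_lit 5) (nat_lit 4) (nat_lit 329) (nat_lit 252) (nat_lit 139)))))) (XT.nd (nat_lit 312) (nat_lit 0) (nat_lit 0) (XT.nd (nat_lit 156) (nat_lit 76) (nat_lit 0) (XT.nd (nat_lit 78) (nat_lit 0) (nat_lit 0) (XT.lf (nat_lit 0) (nat_lit 73375040674) (nat_lit 152) (nat_lit 27230730264) (nat_lit 0) (nat_lit 23546858457) (nat_lit 5) (nat_lit 5) (nat_lit 7) (nat_lit 4) (nat_lit 5) (nat_lit 4) (nat_lit 330) (nat_lit 252) (nat_lit 138)) (XT.lf (nat_lit 0) (nat_lit 82759614170) (nat_lit 152) (nat_lit 14253391810) (nat_lit 0) (nat_lit 32922283516) (nat_lit 5) (nat_lit 5) (nat_lit 7) (nat_lit 4) (nat_lit 5) (nat_lit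 4) (nat_lit 331) (nat_lit 252) (nat_lit 137))) (XT.nd (nat_lit 78) (nat_lit 76) (nat_lit 0) (XT.lf (nat_lit 0) (nat_lit 92610504113) (nat_lit 152) (nat_lit 632268446) (nat_lit 0) (nat_lit 42764460662) (nat_lit 5) (nat_lit 5) (nat_lit 7) (nat_lit 4) (nat_lit 5) (nat_lit 4) (nat_lit 332) (nat_lit 252) (nat_lit 136)) (XT.lf (nat_lit 0) (nat_lit 14116900036) (nat_lit 76) (nat_lit 89054669339) (nat_lit 76) (nat_lit 39200327986) (nat_lit 4) (nat_lit 4) (nat_lit 5) (nat_lit 5) (nat_lit 5) (nat_lit 4) (nat_lit 333) (nat_lit 252) (nat_lit 135)))) (XT.nd (nat_lit 156) (nat_lit 0) (nat_lit 0) (XT.nd (nat_lit 78) (nat_lit 0) (nat_lit 0) (XT.lf (nat_lit 0) (nat_lit 29620715928) (nat_lit 76) (nat_lit 84647963920) (nat_lit 76) (nat_lit 34785719804) (nat_lit 4) (nat_lit 4) (nat_lit 5) (nat_lit 5) (nat_lit 5) (nat_lit 4) (nat_lit 334) (nat_lit 252) (nat_lit 134)) (XT.lf (nat_lit 0) (nat_lit 45895187427)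 (nat_lit 76) (nat_lit 80022871920) (nat_lit 76) (nat_lit 30153101362) (nat_lit 4) (nat_lit 4) (nat_lit 5) (nat_lit 5) (nat_lit 5) (nat_lit 4) (nat_lit 335) (nat_lit 252) (nat_lit 133))) (XT.nd (nat_lit 78) (nat_lit 0) (nat_lit 0) (XT.lf (nat_lit 0) (nat_lit 62979063274) (nat_lit 76) (nat_lit 75168381215) (nat_lit 76) (nat_lit 25291442617) (nat_lit 4) (nat_lit 4) (nat_lit 5) (nat_lit 5) (nat_lit 5) (nat_lit 4) (nat_lit 336) (nat_lit 252) (nat_lit 132)) (XT.nd (nat_lit 78) (nat_lit 0) (nat_lit 0) (XT.lf (nat_lit 0) (nat_lit 80913019363) (nat_lit 76) (nat_lit 70072933493) (nat_lit 76) (nat_lit 20189168191) (nat_lit 4) (nat_lit 4) (nat_lit 5) (nat_lit 5) (nat_lit 5) (nat_lit 4) (nat_lit 337) (nat_lit 252) (nat_lit 131)) (XT.lf (nat_lit 0) (nat_lit 99739755591) (nat_lit 76) (nat_lit 64724396737) (nat_lit 76) (nat_lit 14834129811) (nat_lit 4) (nat_lit 4) (nat_lit 5) (nat_lit 5) (nat_lit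 5) (nat_lit 4) (nat_lit 338) (nat_lit 252) (nat_lit 130))))))))
noncomputable def xc152 : XT := (XT.nd (nat_lit 1326) (nat_lit 0) (nat_lit 0) (XT.nd (nat_lit 624) (nat_lit 0) (nat_lit 0) (XT.nd (nat_lit 312) (nat_lit 76) (nat_lit 0) (XT.nd (nat_lit 156) (nat_lit 76) (nat_lit 0) (XT.nd (nat_lit 78) (nat_lit 0) (nat_lit 0) (XT.lf (nat_lit 0) (nat_lit 119504097520) (nat_lit 76) (nat_lit 59110036334) (nat_lit 76) (nat_lit 9213577385) (nat_lit 4) (nat_lit 4) (nat_lit 5) (nat_lit 5) (nat_lit 5) (nat_lit 4) (nat_lit 339) (nat_lit 252) (nat_lit 129)) (XT.lf (nat_lit 0) (nat_lit 140253103107) (nat_lit 76) (nat_lit 53216484760) (nat_lit 76) (nat_lit 3314128648) (nat_lit 4) (nat_lit 4) (nat_lit 5) (nat_lit 5) (nat_lit 5) (nat_lit 4) (nat_lit 340) (nat_lit 252) (nat_lit 128))) (XT.nd (nat_lit 78) (nat_lit 0) (nat_lit 0) (XT.lf (nat_lit 0) (nat_lit 2786140327) (nat_lit 152) (nat_lit 44196384787)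 (nat_lit 76) (nat_lit 159202849783) (nat_lit 3) (nat_lit 5) (nat_lit 5) (nat_lit 5) (nat_lit 4) (nat_lit 4) (nat_lit 341) (nat_lit 252) (nat_lit 127)) (XT.lf (nat_lit 0) (nat_lit 9078175010) (nat_lit 152) (nat_lit 31303062588) (nat_lit 76) (nat_lit 175673258595) (nat_lit 3) (nat_lit 5) (nat_lit 5) (nat_lit 5) (nat_lit 4) (nat_lit 4) (nat_lit 342) (nat_lit 252) (nat_lit 126)))) (XT.nd (nat_lit 156) (nat_lit 76) (nat_lit 0) (XT.nd (nat_lit 78) (nat_lit 0) (nat_lit 0) (XT.lf (nat_lit 0) (nat_lit 15683029250) (nat_lit 152) (nat_lit 17768205588) (nat_lit 76) (nat_lit 192965930613) (nat_lit 3) (nat_lit 5) (nat_lit 5) (nat_lit 5) (nat_lit 4) (nat_lit 4) (nat_lit 343) (nat_lit 252) (nat_lit 125)) (XT.lf (nat_lit 0) (nat_lit 22616428890) (nat_lit 152) (nat_lit 3559587938) (nat_lit 76) (nat_lit 211122038866) (nat_lit 3) (nat_lit 5) (nat_lit 5) (nat_lit 5) (nat_lit 4) (nat_lit 4) (nat_lit 344)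 (nat_lit 252) (nat_lit 124))) (XT.nd (nat_lit 78) (nat_lit 0) (nat_lit 0) (XT.lf (nat_lit 0) (nat_lit 11732121563) (nat_lit 76) (nat_lit 18345931758) (nat_lit 152) (nat_lit 218635861917) (nat_lit 2) (nat_lit 5) (nat_lit 3) (nat_lit 5) (nat_lit 4) (nat_lit 4) (nat_lit 345) (nat_lit 252) (nat_lit 123)) (XT.lf (nat_lit 0) (nat_lit 27909203015) (nat_lit 76) (nat_lit 10062256163) (nat_lit 152) (nat_lit 222726175979) (nat_lit 2) (nat_lit 5) (nat_lit 3) (nat_lit 5) (nat_lit 4) (nat_lit 4) (nat_lit 346) (nat_lit 252) (nat_lit 122))))) (XT.nd (nat_lit 312) (nat_lit 0) (nat_lit 0) (XT.nd (nat_lit 156) (nat_lit 0) (nat_lit 0) (XT.nd (nat_lit 78) (nat_lit 0) (nat_lit 0) (XT.lf (nat_lit 0) (nat_lit 44892477225) (nat_lit 76) (nat_lit 1365550350) (nat_lit 152) (nat_lit 227022591179) (nat_lit 2) (nat_lit 5) (nat_lit 3) (nat_lit 5) (nat_lit 4) (nat_lit 4) (nat_lit 347) (nat_lit 252) (nat_lit 121))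 (XT.lf (nat_lit 0) (nat_lit 55078720165) (nat_lit 152) (nat_lit 223891676681) (nat_lit 0) (nat_lit 7516367081) (nat_lit 2) (nat_lit 5) (nat_lit 4) (nat_lit 4) (nat_lit 2) (nat_lit 4) (nat_lit 348) (nat_lit 252) (nat_lit 120))) (XT.nd (nat_lit 78) (nat_lit 0) (nat_lit 0) (XT.lf (nat_lit 0) (nat_lit 64361449543) (nat_lit 152) (nat_lit 219195242676) (nat_lit 0) (nat_lit 16795476112) (nat_lit 2) (nat_lit 5) (nat_lit 4) (nat_lit 4) (nat_lit 2) (nat_lit 4) (nat_lit 349) (nat_lit 252) (nat_lit 119)) (XT.lf (nat_lit 0) (nat_lit 74106997379) (nat_lit 152) (nat_lit 214266337460) (nat_lit 0) (nat_lit 26537575999) (nat_lit 2) (nat_lit 5) (nat_lit 4) (nat_lit 4) (nat_lit 2) (nat_lit 4) (nat_lit 350) (nat_lit 252) (nat_lit 118)))) (XT.nd (nat_lit 156) (nat_lit 0) (nat_lit 0) (XT.nd (nat_lit 78) (nat_lit 0) (nat_lit 0) (XT.lf (nat_lit 0) (nat_lit 84338567358) (nat_lit 152) (nat_lit 209093225546)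 (nat_lit 0) (nat_lit 36765862216) (nat_lit 2) (nat_lit 5) (nat_lit 4) (nat_lit 4) (nat_lit 2) (nat_lit 4) (nat_lit 351) (nat_lit 252) (nat_lit 117)) (XT.lf (nat_lit 0) (nat_lit 95080520361) (nat_lit 152) (nat_lit 203663590000) (nat_lit 0) (nat_lit 47504687827) (nat_lit 2) (nat_lit 5) (nat_lit 4) (nat_lit 4) (nat_lit 2) (nat_lit 4) (nat_lit 352) (nat_lit 252) (nat_lit 116))) (XT.nd (nat_lit 78) (nat_lit 0) (nat_lit 0) (XT.lf (nat_lit 0) (nat_lit 106358432467) (nat_lit 152) (nat_lit 197964503118) (nat_lit 0) (nat_lit 58779621464) (nat_lit 2) (nat_lit 5) (nat_lit 4) (nat_lit 4) (nat_lit 2) (nat_lit 4) (nat_lit 353) (nat_lit 252) (nat_lit 115)) (XT.nd (nat_lit 78) (nat_lit 0) (nat_lit 0) (XT.lf (nat_lit 0) (nat_lit 118199155846) (nat_lit 152) (nat_lit 191982395646) (nat_lit 0) (nat_lit 70617508207) (nat_lit 2) (nat_lit 5) (nat_lit 4) (nat_lit 4) (nat_lit 2) (nat_lit 4) (nat_lit 354) (nat_lit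 252) (nat_lit 114)) (XT.lf (nat_lit 0) (nat_lit 130630882699) (nat_lit 152) (nat_lit 185703024471) (nat_lit 0) (nat_lit 83046533501) (nat_lit 2) (nat_lit 5) (nat_lit 4) (nat_lit 4) (nat_lit 2) (nat_lit 4) (nat_lit 355) (nat_lit 252) (nat_lit 113))))))) (XT.nd (nat_lit 29874) (nat_lit 0) (nat_lit 4788) (XT.nd (nat_lit 29562) (nat_lit 0) (nat_lit 5776) (XT.nd (nat_lit 156) (nat_lit 0) (nat_lit 0) (XT.nd (nat_lit 78) (nat_lit 0) (nat_lit 0) (XT.lf (nat_lit 0) (nat_lit 143683212373) (nat_lit 152) (nat_lit 179111438709) (nat_lit 0) (nat_lit 96096290262) (nat_lit 2) (nat_lit 5) (nat_lit 4) (nat_lit 4) (nat_lit 2) (nat_lit 4) (nat_lit 356) (nat_lit 252) (nat_lit 112)) (XT.lf (nat_lit 0) (nat_lit 157387221845) (nat_lit 152) (nat_lit 172191944108) (nat_lit 0) (nat_lit 109797849341) (nat_lit 2) (nat_lit 5) (nat_lit 4) (nat_lit 4) (nat_lit 2) (nat_lit 4) (nat_lit 357) (nat_lit 252) (nat_lit 111)))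 (XT.nd (nat_lit 29328) (nat_lit 0) (nat_lit 5776) (XT.lf (nat_lit 0) (nat_lit 171775539709) (nat_lit 152) (nat_lit 164928065682) (nat_lit 0) (nat_lit 124183833497) (nat_lit 2) (nat_lit 5) (nat_lit 4) (nat_lit 4) (nat_lit 2) (nat_lit 4) (nat_lit 358) (nat_lit 252) (nat_lit 110)) (XT.lf (nat_lit 0) (nat_lit 1109279909) (nat_lit 0) (nat_lit 1109279909) (nat_lit 532) (nat_lit 2017984961) (nat_lit 78) (nat_lit 5) (nat_lit 78) (nat_lit 3) (nat_lit 85) (nat_lit 3) (nat_lit 253) (nat_lit 253) (nat_lit 214)))) (XT.nd (nat_lit 156) (nat_lit 0) (nat_lit 0) (XT.nd (nat_lit 78) (nat_lit 0) (nat_lit 0) (XT.lf (nat_lit 0) (nat_lit 5473154142) (nat_lit 532) (nat_lit 2747728062) (nat_lit 608) (nat_lit 413066401) (nat_lit 78) (nat_lit 5) (nat_lit 85) (nat_lit 3) (nat_lit 86) (nat_lit 5) (nat_lit 254) (nat_lit 253) (nat_lit 213)) (XT.lf (nat_lit 76) (nat_lit 893546765) (nat_lit 0) (nat_lit 5659431262)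 (nat_lit 608) (nat_lit 2250574874) (nat_lit 79) (nat_lit 5) (nat_lit 78) (nat_lit 5) (nat_lit 86) (nat_lit 5) (nat_lit 255) (nat_lit 253) (nat_lit 212))) (XT.nd (nat_lit 78) (nat_lit 0) (nat_lit 76) (XT.lf (nat_lit 76) (nat_lit 4779717879) (nat_lit 0) (nat_lit 2897545759) (nat_lit 608) (nat_lit 1305137566) (nat_lit 79) (nat_lit 5) (nat_lit 78) (nat_lit 5) (nat_lit 86) (nat_lit 5) (nat_lit 256) (nat_lit 253) (nat_lit 211)) (XT.lf (nat_lit 0) (nat_lit 8804757097) (nat_lit 532) (nat_lit 344336931) (nat_lit 608) (nat_lit 24021848) (nat_lit 79) (nat_lit 5) (nat_lit 86) (nat_lit 5) (nat_lit 87) (nat_lit 5) (nat_lit 257) (nat_lit 253) (nat_lit 210))))) (XT.nd (nat_lit 312) (nat_lit 456) (nat_lit 0) (XT.nd (nat_lit 156) (nat_lit 0) (nat_lit 0) (XT.nd (nat_lit 78) (nat_lit 0) (nat_lit 0) (XT.lf (nat_lit 0) (nat_lit 651702323) (nat_lit 608) (nat_lit 5634692377) (nat_lit 684) (nat_lit 3083932707)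 (nat_lit 71) (nat_lit 5) (nat_lit 79) (nat_lit 5) (nat_lit 80) (nat_lit 5) (nat_lit 258) (nat_lit 253) (nat_lit 209)) (XT.lf (nat_lit 0) (nat_lit 1666662386) (nat_lit 608) (nat_lit 1585704162) (nat_lit 684) (nat_lit 6327153650) (nat_lit 71) (nat_lit 5) (nat_lit 79) (nat_lit 5) (nat_lit 80) (nat_lit 5) (nat_lit 259) (nat_lit 253) (nat_lit 208))) (XT.nd (nat_lit 78) (nat_lit 0) (nat_lit 76) (XT.lf (nat_lit 76) (nat_lit 2720401246) (nat_lit 0) (nat_lit 7154734) (nat_lit 684) (nat_lit 7072082493) (nat_lit 72) (nat_lit 5) (nat_lit 71) (nat_lit 5) (nat_lit 80) (nat_lit 5) (nat_lit 260) (nat_lit 253) (nat_lit 207)) (XT.lf (nat_lit 0) (nat_lit 3876557330) (nat_lit 608) (nat_lit 2820668349) (nat_lit 684) (nat_lit 3331998228) (nat_lit 72) (nat_lit 5) (nat_lit 80) (nat_lit 5) (nat_lit 81) (nat_lit 5) (nat_lit 261) (nat_lit 253) (nat_lit 206)))) (XT.nd (nat_lit 156) (nat_lit 532) (nat_lit 0) (XT.nd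 (nat_lit 78) (nat_lit 0) (nat_lit 76) (XT.lf (nat_lit 76) (nat_lit 1671265781) (nat_lit 0) (nat_lit 3394791189) (nat_lit 684) (nat_lit 5205283421) (nat_lit 73) (nat_lit 5) (nat_lit 72) (nat_lit 5) (nat_lit 81) (nat_lit 5) (nat_lit 262) (nat_lit 253) (nat_lit 205)) (XT.lf (nat_lit 0) (nat_lit 6323251090) (nat_lit 608) (nat_lit 4074194011) (nat_lit 76) (nat_lit 127901093) (nat_lit 73) (nat_lit 5) (nat_lit 81) (nat_lit 5) (nat_lit 74) (nat_lit 5) (nat_lit 263) (nat_lit 253) (nat_lit 204))) (XT.nd (nat_lit 78) (nat_lit 0) (nat_lit 0) (XT.lf (nat_lit 0) (nat_lit 608642510) (nat_lit 608) (nat_lit 7060322993) (nat_lit 684) (nat_lit 3121988960) (nat_lit 65) (nat_lit 5) (nat_lit 73) (nat_lit 5) (nat_lit 74) (nat_lit 5) (nat_lit 264) (nat_lit 253) (nat_lit 203)) (XT.nd (nat_lit 78) (nat_lit 0) (nat_lit 0) (XT.lf (nat_lit 0) (nat_lit 5634436459) (nat_lit 608) (nat_lit 3478404502) (nat_lit 684)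 (nat_lit 1955634806) (nat_lit 65) (nat_lit 5) (nat_lit 73) (nat_lit 5) (nat_lit 74) (nat_lit 5) (nat_lit 265) (nat_lit 253) (nat_lit 202)) (XT.lf (nat_lit 0) (nat_lit 10597096451) (nat_lit 684) (nat_lit 485907749) (nat_lit 76) (nat_lit 278627611) (nat_lit 65) (nat_lit 5) (nat_lit 74) (nat_lit 5) (nat_lit 66) (nat_lit 5) (nat_lit 266) (nat_lit 253) (nat_lit 201))))))))
noncomputable def xc153 : XT := (XT.nd (nat_lit 1326) (nat_lit 1064) (nat_lit 0) (XT.nd (nat_lit 624) (nat_lit 1140) (nat_lit 0) (XT.nd (nat_lit 312) (nat_lit 532) (nat_lit 0) (XT.nd (nat_lit 156) (nat_lit 304) (nat_lit 0) (XT.nd (nat_lit 78) (nat_lit 0) (nat_lit 0) (XT.lf (nat_lit 0) (nat_lit 569051361) (nat_lit 760) (nat_lit 6900095404) (nat_lit 76) (nat_lit 4195147222) (nat_lit 55) (nat_lit 5) (nat_lit 65) (nat_lit 5) (nat_lit 56) (nat_lit 5) (nat_lit 267) (nat_lit 253) (nat_lit 200)) (XT.lf (nat_lit 0) (nat_lit 1917950931)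 (nat_lit 760) (nat_lit 1732991843) (nat_lit 76) (nat_lit 8331948598) (nat_lit 55) (nat_lit 5) (nat_lit 65) (nat_lit 5) (nat_lit 56) (nat_lit 5) (nat_lit 268) (nat_lit 253) (nat_lit 199))) (XT.nd (nat_lit 78) (nat_lit 0) (nat_lit 0) (XT.lf (nat_lit 0) (nat_lit 3367524277) (nat_lit 380) (nat_lit 8540058073) (nat_lit 76) (nat_lit 408313040) (nat_lit 51) (nat_lit 5) (nat_lit 56) (nat_lit 5) (nat_lit 52) (nat_lit 5) (nat_lit 269) (nat_lit 253) (nat_lit 198)) (XT.lf (nat_lit 0) (nat_lit 4947928945) (nat_lit 380) (nat_lit 3136146435) (nat_lit 76) (nat_lit 4578688220) (nat_lit 51) (nat_lit 5) (nat_lit 56) (nat_lit 5) (nat_lit 52) (nat_lit 5) (nat_lit 270) (nat_lit 253) (nat_lit 197)))) (XT.nd (nat_lit 156) (nat_lit 228) (nat_lit 0) (XT.nd (nat_lit 78) (nat_lit 0) (nat_lit 0) (XT.lf (nat_lit 0) (nat_lit 2590388316) (nat_lit 304) (nat_lit 4027571557) (nat_lit 380) (nat_lit 6408610401) (nat_lit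 47) (nat_lit 5) (nat_lit 51) (nat_lit 5) (nat_lit 52) (nat_lit 5) (nat_lit 271) (nat_lit 253) (nat_lit 196)) (XT.lf (nat_lit 0) (nat_lit 8400191736) (nat_lit 380) (nat_lit 4729806829) (nat_lit 76) (nat_lit 277253132) (nat_lit 47) (nat_lit 5) (nat_lit 52) (nat_lit 5) (nat_lit 48) (nat_lit 5) (nat_lit 272) (nat_lit 253) (nat_lit 195))) (XT.nd (nat_lit 78) (nat_lit 0) (nat_lit 0) (XT.lf (nat_lit 0) (nat_lit 1204374701) (nat_lit 228) (nat_lit 9124464352) (nat_lit 304) (nat_lit 3475376648) (nat_lit 44) (nat_lit 5) (nat_lit 47) (nat_lit 5) (nat_lit 48) (nat_lit 5) (nat_lit 273) (nat_lit 253) (nat_lit 194)) (XT.lf (nat_lit 0) (nat_lit 7569923840) (nat_lit 228) (nat_lit 4837420286) (nat_lit 304) (nat_lit 1811120795) (nat_lit 44) (nat_lit 5) (nat_lit 47) (nat_lit 5) (nat_lit 48) (nat_lit 5) (nat_lit 274) (nat_lit 253) (nat_lit 193))))) (XT.nd (nat_lit 312) (nat_lit 532) (nat_lit 0) (XT.nd (nat_lit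 156) (nat_lit 228) (nat_lit 0) (XT.nd (nat_lit 78) (nat_lit 380) (nat_lit 0) (XT.lf (nat_lit 0) (nat_lit 14225607882) (nat_lit 228) (nat_lit 338760687) (nat_lit 304) (nat_lit 90431458) (nat_lit 44) (nat_lit 5) (nat_lit 47) (nat_lit 5) (nat_lit 48) (nat_lit 5) (nat_lit 275) (nat_lit 253) (nat_lit 192)) (XT.lf (nat_lit 0) (nat_lit 1804648884) (nat_lit 380) (nat_lit 8931969810) (nat_lit 76) (nat_lit 4367922499) (nat_lit 39) (nat_lit 5) (nat_lit 44) (nat_lit 5) (nat_lit 40) (nat_lit 5) (nat_lit 276) (nat_lit 253) (nat_lit 191))) (XT.nd (nat_lit 78) (nat_lit 228) (nat_lit 0) (XT.lf (nat_lit 0) (nat_lit 3780395502) (nat_lit 380) (nat_lit 2492736736) (nat_lit 76) (nat_lit 9304204576) (nat_lit 39) (nat_lit 5) (nat_lit 44) (nat_lit 5) (nat_lit 40) (nat_lit 5) (nat_lit 277) (nat_lit 253) (nat_lit 190)) (XT.lf (nat_lit 0) (nat_lit 4381552830) (nat_lit 228) (nat_lit 1518937472) (nat_lit 304) (nat_lit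 10171088715) (nat_lit 36) (nat_lit 5) (nat_lit 39) (nat_lit 5) (nat_lit 40) (nat_lit 5) (nat_lit 278) (nat_lit 253) (nat_lit 189)))) (XT.nd (nat_lit 156) (nat_lit 304) (nat_lit 0) (XT.nd (nat_lit 78) (nat_lit 228) (nat_lit 0) (XT.lf (nat_lit 0) (nat_lit 8201473237) (nat_lit 304) (nat_lit 4985061658) (nat_lit 76) (nat_lit 3400335072) (nat_lit 36) (nat_lit 5) (nat_lit 40) (nat_lit 5) (nat_lit 37) (nat_lit 5) (nat_lit 279) (nat_lit 253) (nat_lit 188)) (XT.lf (nat_lit 0) (nat_lit 2070005129) (nat_lit 228) (nat_lit 8583531653) (nat_lit 304) (nat_lit 6472664066) (nat_lit 33) (nat_lit 5) (nat_lit 36) (nat_lit 5) (nat_lit 37) (nat_lit 5) (nat_lit 280) (nat_lit 253) (nat_lit 187))) (XT.nd (nat_lit 78) (nat_lit 304) (nat_lit 0) (XT.lf (nat_lit 0) (nat_lit 9624824289) (nat_lit 228) (nat_lit 3667217813) (nat_lit 304) (nat_lit 4397337534) (nat_lit 33) (nat_lit 5) (nat_lit 36) (nat_lit 5) (nat_lit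 37) (nat_lit 5) (nat_lit 281) (nat_lit 253) (nat_lit 186)) (XT.nd (nat_lit 78) (nat_lit 304) (nat_lit 0) (XT.lf (nat_lit 0) (nat_lit 16066125333) (nat_lit 304) (nat_lit 772470811) (nat_lit 76) (nat_lit 1442008391) (nat_lit 33) (nat_lit 5) (nat_lit 37) (nat_lit 5) (nat_lit 34) (nat_lit 5) (nat_lit 282) (nat_lit 253) (nat_lit 185)) (XT.lf (nat_lit 0) (nat_lit 228491074) (nat_lit 304) (nat_lit 11873237384) (nat_lit 76) (nat_lit 6791992505) (nat_lit 29) (nat_lit 5) (nat_lit 33) (nat_lit 5) (nat_lit 30) (nat_lit 5) (nat_lit 283) (nat_lit 253) (nat_lit 184))))))) (XT.nd (nat_lit 702) (nat_lit 456) (nat_lit 0) (XT.nd (nat_lit 312) (nat_lit 380) (nat_lit 0) (XT.nd (nat_lit 156) (nat_lit 0) (nat_lit 0) (XT.nd (nat_lit 78) (nat_lit 228) (nat_lit 0) (XT.lf (nat_lit 0) (nat_lit 2713891053) (nat_lit 304) (nat_lit 4368300812) (nat_lit 76) (nat_lit 12453811387) (nat_lit 29) (nat_lit 5) (nat_lit 33)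 (nat_lit 5) (nat_lit 30) (nat_lit 5) (nat_lit 284) (nat_lit 253) (nat_lit 183)) (XT.lf (nat_lit 0) (nat_lit 3603553626) (nat_lit 228) (nat_lit 1758560007) (nat_lit 304) (nat_lit 14846415820) (nat_lit 26) (nat_lit 5) (nat_lit 29) (nat_lit 5) (nat_lit 30) (nat_lit 5) (nat_lit 285) (nat_lit 253) (nat_lit 182))) (XT.nd (nat_lit 78) (nat_lit 0) (nat_lit 0) (XT.lf (nat_lit 0) (nat_lit 8260432280) (nat_lit 304) (nat_lit 8870459165) (nat_lit 76) (nat_lit 3777960965) (nat_lit 26) (nat_lit 5) (nat_lit 30) (nat_lit 5) (nat_lit 27) (nat_lit 5) (nat_lit 286) (nat_lit 253) (nat_lit 181)) (XT.lf (nat_lit 0) (nat_lit 11315996922) (nat_lit 304) (nat_lit 801002771) (nat_lit 76) (nat_lit 9526627406) (nat_lit 26) (nat_lit 5) (nat_lit 30) (nat_lit 5) (nat_lit 27) (nat_lit 5) (nat_lit 287) (nat_lit 253) (nat_lit 180)))) (XT.nd (nat_lit 156) (nat_lit 228) (nat_lit 0) (XT.nd (nat_lit 78) (nat_lit 0) (nat_lit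 0) (XT.lf (nat_lit 0) (nat_lit 7903008004) (nat_lit 152) (nat_lit 6729006760) (nat_lit 228) (nat_lit 7777791617) (nat_lit 24) (nat_lit 5) (nat_lit 26) (nat_lit 5) (nat_lit 27) (nat_lit 5) (nat_lit 288) (nat_lit 253) (nat_lit 179)) (XT.lf (nat_lit 0) (nat_lit 17048516924) (nat_lit 152) (nat_lit 1063581203) (nat_lit 228) (nat_lit 5102330515) (nat_lit 24) (nat_lit 5) (nat_lit 26) (nat_lit 5) (nat_lit 27) (nat_lit 5) (nat_lit 289) (nat_lit 253) (nat_lit 178))) (XT.nd (nat_lit 78) (nat_lit 76) (nat_lit 0) (XT.lf (nat_lit 0) (nat_lit 2577062727) (nat_lit 152) (nat_lit 19290963963) (nat_lit 228) (nat_lit 2186208268) (nat_lit 22) (nat_lit 5) (nat_lit 24) (nat_lit 5) (nat_lit 25) (nat_lit 5) (nat_lit 290) (nat_lit 253) (nat_lit 177)) (XT.nd (nat_lit 78) (nat_lit 0) (nat_lit 0) (XT.lf (nat_lit 0) (nat_lit 956694776) (nat_lit 228) (nat_lit 13013727425) (nat_lit 76) (nat_lit 10959516420) (nat_lit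 21) (nat_lit 5) (nat_lit 24) (nat_lit 5) (nat_lit 22) (nat_lit 5) (nat_lit 291) (nat_lit 253) (nat_lit 176)) (XT.lf (nat_lit 0) (nat_lit 4169398604) (nat_lit 228) (nat_lit 4183282568) (nat_lit 76) (nat_lit 17495686861) (nat_lit 21) (nat_lit 5) (nat_lit 24) (nat_lit 5) (nat_lit 22) (nat_lit 5) (nat_lit 292) (nat_lit 253) (nat_lit 175)))))) (XT.nd (nat_lit 312) (nat_lit 152) (nat_lit 0) (XT.nd (nat_lit 156) (nat_lit 152) (nat_lit 0) (XT.nd (nat_lit 78) (nat_lit 0) (nat_lit 0) (XT.lf (nat_lit 0) (nat_lit 5236934660) (nat_lit 152) (nat_lit 2374353395) (nat_lit 228) (nat_lit 19198040356) (nat_lit 19) (nat_lit 5) (nat_lit 21) (nat_lit 5) (nat_lit 22) (nat_lit 5) (nat_lit 293) (nat_lit 253) (nat_lit 174)) (XT.lf (nat_lit 0) (nat_lit 11345236945) (nat_lit 228) (nat_lit 12623129226) (nat_lit 76) (nat_lit 3844007644) (nat_lit 19) (nat_lit 5) (nat_lit 22) (nat_lit 5) (nat_lit 20) (nat_lit 5)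 (nat_lit 294) (nat_lit 253) (nat_lit 173))) (XT.nd (nat_lit 78) (nat_lit 152) (nat_lit 0) (XT.lf (nat_lit 0) (nat_lit 15292447658) (nat_lit 228) (nat_lit 3284025412) (nat_lit 76) (nat_lit 10287803778) (nat_lit 19) (nat_lit 5) (nat_lit 22) (nat_lit 5) (nat_lit 20) (nat_lit 5) (nat_lit 295) (nat_lit 253) (nat_lit 172)) (XT.lf (nat_lit 0) (nat_lit 6719282982) (nat_lit 152) (nat_lit 12810871860) (nat_lit 228) (nat_lit 10433995370) (nat_lit 17) (nat_lit 5) (nat_lit 19) (nat_lit 5) (nat_lit 20) (nat_lit 5) (nat_lit 296) (nat_lit 253) (nat_lit 171)))) (XT.nd (nat_lit 156) (nat_lit 152) (nat_lit 0) (XT.nd (nat_lit 78) (nat_lit 0) (nat_lit 0) (XT.lf (nat_lit 0) (nat_lit 17319248366) (nat_lit 152) (nat_lit 6704631622) (nat_lit 228) (nat_lit 7092961080) (nat_lit 17) (nat_lit 5) (nat_lit 19) (nat_lit 5) (nat_lit 20) (nat_lit 5) (nat_lit 297) (nat_lit 253) (nat_lit 170)) (XT.lf (nat_lit 0) (nat_lit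 28432524041) (nat_lit 152) (nat_lit 298830250) (nat_lit 228) (nat_lit 3596388037) (nat_lit 17) (nat_lit 5) (nat_lit 19) (nat_lit 5) (nat_lit 20) (nat_lit 5) (nat_lit 298) (nat_lit 253) (nat_lit 169))) (XT.nd (nat_lit 78) (nat_lit 0) (nat_lit 0) (XT.lf (nat_lit 0) (nat_lit 268586148) (nat_lit 152) (nat_lit 26997199497) (nat_lit 76) (nat_lit 6323572083) (nat_lit 15) (nat_lit 5) (nat_lit 17) (nat_lit 5) (nat_lit 16) (nat_lit 5) (nat_lit 299) (nat_lit 253) (nat_lit 168)) (XT.nd (nat_lit 78) (nat_lit 0) (nat_lit 0) (XT.lf (nat_lit 0) (nat_lit 4267448010) (nat_lit 152) (nat_lit 17253019132) (nat_lit 76) (nat_lit 13387588895) (nat_lit 15) (nat_lit 5) (nat_lit 17) (nat_lit 5) (nat_lit 16) (nat_lit 5) (nat_lit 300) (nat_lit 253) (nat_lit 167)) (XT.lf (nat_lit 0) (nat_lit 8456303909) (nat_lit 152) (nat_lit 7037308693) (nat_lit 76) (nat_lit 20799597972) (nat_lit 15) (nat_lit 5) (nat_lit 17) (nat_lit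 5) (nat_lit 16) (nat_lit 5) (nat_lit 301) (nat_lit 253) (nat_lit 166))))))))
noncomputable def xc154 : XT := (XT.nd (nat_lit 1326) (nat_lit 304) (nat_lit 0) (XT.nd (nat_lit 624) (nat_lit 228) (nat_lit 0) (XT.nd (nat_lit 312) (nat_lit 152) (nat_lit 0) (XT.nd (nat_lit 156) (nat_lit 0) (nat_lit 0) (XT.nd (nat_lit 78) (nat_lit 0) (nat_lit 0) (XT.lf (nat_lit 0) (nat_lit 3795742400) (nat_lit 152) (nat_lit 9108647089) (nat_lit 228) (nat_lit 24840766733) (nat_lit 13) (nat_lit 5) (nat_lit 15) (nat_lit 5) (nat_lit 16) (nat_lit 5) (nat_lit 302) (nat_lit 253) (nat_lit 165)) (XT.lf (nat_lit 0) (nat_lit 15400074032) (nat_lit 152) (nat_lit 2284732082) (nat_lit 228) (nat_lit 21579418342) (nat_lit 13) (nat_lit 5) (nat_lit 15) (nat_lit 5) (nat_lit 16) (nat_lit 5) (nat_lit 303) (nat_lit 253) (nat_lit 164))) (XT.nd (nat_lit 78) (nat_lit 0) (nat_lit 0) (XT.lf (nat_lit 0) (nat_lit 22771546278) (nat_lit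 228) (nat_lit 13365192529) (nat_lit 76) (nat_lit 4719162772) (nat_lit 13) (nat_lit 5) (nat_lit 16) (nat_lit 5) (nat_lit 14) (nat_lit 4) (nat_lit 304) (nat_lit 253) (nat_lit 163)) (XT.lf (nat_lit 0) (nat_lit 28141607903) (nat_lit 228) (nat_lit 2392429252) (nat_lit 76) (nat_lit 11991695812) (nat_lit 13) (nat_lit 5) (nat_lit 16) (nat_lit 5) (nat_lit 14) (nat_lit 4) (nat_lit 305) (nat_lit 253) (nat_lit 162)))) (XT.nd (nat_lit 156) (nat_lit 76) (nat_lit 0) (XT.nd (nat_lit 78) (nat_lit 0) (nat_lit 0) (XT.lf (nat_lit 0) (nat_lit 9417350118) (nat_lit 76) (nat_lit 24501786887) (nat_lit 152) (nat_lit 10352989396) (nat_lit 12) (nat_lit 5) (nat_lit 13) (nat_lit 5) (nat_lit 14) (nat_lit 4) (nat_lit 306) (nat_lit 253) (nat_lit 161)) (XT.lf (nat_lit 0) (nat_lit 21887852374) (nat_lit 76) (nat_lit 18130324194) (nat_lit 152) (nat_lit 6086049045) (nat_lit 12) (nat_lit 5) (nat_lit 13) (nat_lit 5) (nat_lit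 14) (nat_lit 4) (nat_lit 307) (nat_lit 253) (nat_lit 160))) (XT.nd (nat_lit 78) (nat_lit 76) (nat_lit 0) (XT.lf (nat_lit 0) (nat_lit 34969664670) (nat_lit 76) (nat_lit 11444995874) (nat_lit 152) (nat_lit 1613661578) (nat_lit 12) (nat_lit 5) (nat_lit 13) (nat_lit 5) (nat_lit 14) (nat_lit 4) (nat_lit 308) (nat_lit 253) (nat_lit 159)) (XT.lf (nat_lit 0) (nat_lit 2976408054) (nat_lit 152) (nat_lit 1403069514) (nat_lit 76) (nat_lit 45667119214) (nat_lit 11) (nat_lit 5) (nat_lit 13) (nat_lit 5) (nat_lit 12) (nat_lit 5) (nat_lit 309) (nat_lit 253) (nat_lit 158))))) (XT.nd (nat_lit 312) (nat_lit 76) (nat_lit 0) (XT.nd (nat_lit 156) (nat_lit 0) (nat_lit 0) (XT.nd (nat_lit 78) (nat_lit 0) (nat_lit 0) (XT.lf (nat_lit 0) (nat_lit 7959641410) (nat_lit 228) (nat_lit 41052252929) (nat_lit 76) (nat_lit 3141688318) (nat_lit 9) (nat_lit 5) (nat_lit 12) (nat_lit 5) (nat_lit 10) (nat_lit 4) (nat_lit 310)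 (nat_lit 253) (nat_lit 157)) (XT.lf (nat_lit 0) (nat_lit 13281134504) (nat_lit 228) (nat_lit 30168679289) (nat_lit 76) (nat_lit 10911663081) (nat_lit 9) (nat_lit 5) (nat_lit 12) (nat_lit 5) (nat_lit 10) (nat_lit 4) (nat_lit 311) (nat_lit 253) (nat_lit 156))) (XT.nd (nat_lit 78) (nat_lit 0) (nat_lit 0) (XT.lf (nat_lit 0) (nat_lit 18862180500) (nat_lit 228) (nat_lit 18751808524) (nat_lit 76) (nat_lit 19066116153) (nat_lit 9) (nat_lit 5) (nat_lit 12) (nat_lit 5) (nat_lit 10) (nat_lit 4) (nat_lit 312) (nat_lit 253) (nat_lit 155)) (XT.lf (nat_lit 0) (nat_lit 24716067603) (nat_lit 228) (nat_lit 6774457607) (nat_lit 76) (nat_lit 27624462899) (nat_lit 9) (nat_lit 5) (nat_lit 12) (nat_lit 5) (nat_lit 10) (nat_lit 4) (nat_lit 313) (nat_lit 253) (nat_lit 154)))) (XT.nd (nat_lit 156) (nat_lit 0) (nat_lit 0) (XT.nd (nat_lit 78) (nat_lit 0) (nat_lit 0) (XT.lf (nat_lit 0) (nat_lit 5983397035) (nat_lit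 76) (nat_lit 24966754200) (nat_lit 152) (nat_lit 30717100895) (nat_lit 8) (nat_lit 5) (nat_lit 9) (nat_lit 5) (nat_lit 10) (nat_lit 4) (nat_lit 314) (nat_lit 253) (nat_lit 153)) (XT.lf (nat_lit 0) (nat_lit 19604627580) (nat_lit 76) (nat_lit 18000254841) (nat_lit 152) (nat_lit 26736811242) (nat_lit 8) (nat_lit 5) (nat_lit 9) (nat_lit 5) (nat_lit 10) (nat_lit 4) (nat_lit 315) (nat_lit 253) (nat_lit 152))) (XT.nd (nat_lit 78) (nat_lit 0) (nat_lit 0) (XT.lf (nat_lit 0) (nat_lit 33897671366) (nat_lit 76) (nat_lit 10689168945) (nat_lit 152) (nat_lit 22563303385) (nat_lit 8) (nat_lit 5) (nat_lit 9) (nat_lit 5) (nat_lit 10) (nat_lit 4) (nat_lit 316) (nat_lit 253) (nat_lit 151)) (XT.nd (nat_lit 78) (nat_lit 0) (nat_lit 0) (XT.lf (nat_lit 0) (nat_lit 48896559450) (nat_lit 76) (nat_lit 3016089167) (nat_lit 152) (nat_lit 18186640399) (nat_lit 8) (nat_lit 5) (nat_lit 9) (nat_lit 5) (nat_lit 10)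 (nat_lit 4) (nat_lit 317) (nat_lit 253) (nat_lit 150)) (XT.lf (nat_lit 0) (nat_lit 59678395387) (nat_lit 152) (nat_lit 8637793575) (nat_lit 0) (nat_lit 4876030152) (nat_lit 8) (nat_lit 5) (nat_lit 10) (nat_lit 4) (nat_lit 8) (nat_lit 4) (nat_lit 318) (nat_lit 253) (nat_lit 149))))))) (XT.nd (nat_lit 624) (nat_lit 76) (nat_lit 0) (XT.nd (nat_lit 312) (nat_lit 76) (nat_lit 0) (XT.nd (nat_lit 156) (nat_lit 76) (nat_lit 0) (XT.nd (nat_lit 78) (nat_lit 0) (nat_lit 0) (XT.lf (nat_lit 0) (nat_lit 4646475337) (nat_lit 76) (nat_lit 63303132705) (nat_lit 76) (nat_lit 8484338192) (nat_lit 7) (nat_lit 4) (nat_lit 8) (nat_lit 5) (nat_lit 8) (nat_lit 4) (nat_lit 319) (nat_lit 253) (nat_lit 148)) (XT.lf (nat_lit 0) (nat_lit 18886788395) (nat_lit 76) (nat_lit 57889171414) (nat_lit 76) (nat_lit 3054729969) (nat_lit 7) (nat_lit 4) (nat_lit 8) (nat_lit 5) (nat_lit 8) (nat_lit 4) (nat_lit 320) (nat_lit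 253) (nat_lit 147))) (XT.nd (nat_lit 78) (nat_lit 0) (nat_lit 0) (XT.lf (nat_lit 0) (nat_lit 2557094279) (nat_lit 152) (nat_lit 49607300011) (nat_lit 76) (nat_lit 31231046732) (nat_lit 6) (nat_lit 5) (nat_lit 8) (nat_lit 5) (nat_lit 7) (nat_lit 4) (nat_lit 321) (nat_lit 253) (nat_lit 146)) (XT.lf (nat_lit 0) (nat_lit 8342503754) (nat_lit 152) (nat_lit 37761402816) (nat_lit 76) (nat_lit 41032244502) (nat_lit 6) (nat_lit 5) (nat_lit 8) (nat_lit 5) (nat_lit 7) (nat_lit 4) (nat_lit 322) (nat_lit 253) (nat_lit 145)))) (XT.nd (nat_lit 156) (nat_lit 76) (nat_lit 0) (XT.nd (nat_lit 78) (nat_lit 0) (nat_lit 0) (XT.lf (nat_lit 0) (nat_lit 14413043675) (nat_lit 152) (nat_lit 25330312387) (nat_lit 76) (nat_lit 51320754963) (nat_lit 6) (nat_lit 5) (nat_lit 8) (nat_lit 5) (nat_lit 7) (nat_lit 4) (nat_lit 323) (nat_lit 253) (nat_lit 144)) (XT.lf (nat_lit 0) (nat_lit 20783167708) (nat_lit 152) (nat_lit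 12284430889) (nat_lit 76) (nat_lit 62121074569) (nat_lit 6) (nat_lit 5) (nat_lit 8) (nat_lit 5) (nat_lit 7) (nat_lit 4) (nat_lit 324) (nat_lit 253) (nat_lit 143))) (XT.nd (nat_lit 78) (nat_lit 0) (nat_lit 0) (XT.lf (nat_lit 0) (nat_lit 1453835103) (nat_lit 76) (nat_lit 26036906152) (nat_lit 152) (nat_lit 72027781703) (nat_lit 5) (nat_lit 5) (nat_lit 6) (nat_lit 5) (nat_lit 7) (nat_lit 4) (nat_lit 325) (nat_lit 253) (nat_lit 142)) (XT.lf (nat_lit 0) (nat_lit 16299164606) (nat_lit 76) (nat_lit 18438896397) (nat_lit 152) (nat_lit 69316592252) (nat_lit 5) (nat_lit 5) (nat_lit 6) (nat_lit 5) (nat_lit 7) (nat_lit 4) (nat_lit 326) (nat_lit 253) (nat_lit 141))))) (XT.nd (nat_lit 312) (nat_lit 76) (nat_lit 0) (XT.nd (nat_lit 156) (nat_lit 0) (nat_lit 0) (XT.nd (nat_lit 78) (nat_lit 0) (nat_lit 0) (XT.lf (nat_lit 0) (nat_lit 31880724880) (nat_lit 76) (nat_lit 10463521615) (nat_lit 152) (nat_lit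 66473524674) (nat_lit 5) (nat_lit 5) (nat_lit 6) (nat_lit 5) (nat_lit 7) (nat_lit 4) (nat_lit 327) (nat_lit 253) (nat_lit 140)) (XT.lf (nat_lit 0) (nat_lit 48235614877) (nat_lit 76) (nat_lit 2091792816) (nat_lit 152) (nat_lit 63491809759) (nat_lit 5) (nat_lit 5) (nat_lit 6) (nat_lit 5) (nat_lit 7) (nat_lit 4) (nat_lit 328) (nat_lit 253) (nat_lit 139))) (XT.nd (nat_lit 78) (nat_lit 0) (nat_lit 0) (XT.lf (nat_lit 0) (nat_lit 58811098927) (nat_lit 152) (nat_lit 53772672302) (nat_lit 0) (nat_lit 6481901741) (nat_lit 5) (nat_lit 5) (nat_lit 7) (nat_lit 4) (nat_lit 5) (nat_lit 4) (nat_lit 329) (nat_lit 253) (nat_lit 138)) (XT.lf (nat_lit 0) (nat_lit 67750208570) (nat_lit 152) (nat_lit 41410823315) (nat_lit 0) (nat_lit 15411862947) (nat_lit 5) (nat_lit 5) (nat_lit 7) (nat_lit 4) (nat_lit 5) (nat_lit 4) (nat_lit 330) (nat_lit 253) (nat_lit 137)))) (XT.nd (nat_lit 156) (nat_lit 76) (nat_lit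 0) (XT.nd (nat_lit 78) (nat_lit 0) (nat_lit 0) (XT.lf (nat_lit 0) (nat_lit 77133361468) (nat_lit 152) (nat_lit 28435963891) (nat_lit 0) (nat_lit 24786303047) (nat_lit 5) (nat_lit 5) (nat_lit 7) (nat_lit 4) (nat_lit 5) (nat_lit 4) (nat_lit 331) (nat_lit 253) (nat_lit 136)) (XT.lf (nat_lit 0) (nat_lit 86982898459) (nat_lit 152) (nat_lit 14817201509) (nat_lit 0) (nat_lit 34627542137) (nat_lit 5) (nat_lit 5) (nat_lit 7) (nat_lit 4) (nat_lit 5) (nat_lit 4) (nat_lit 332) (nat_lit 253) (nat_lit 135))) (XT.nd (nat_lit 78) (nat_lit 76) (nat_lit 0) (XT.lf (nat_lit 0) (nat_lit 97322270824) (nat_lit 152) (nat_lit 522110543) (nat_lit 0) (nat_lit 44959011738) (nat_lit 5) (nat_lit 5) (nat_lit 7) (nat_lit 4) (nat_lit 5) (nat_lit 4) (nat_lit 333) (nat_lit 253) (nat_lit 134)) (XT.nd (nat_lit 78) (nat_lit 0) (nat_lit 0) (XT.lf (nat_lit 0) (nat_lit 14962229729) (nat_lit 76) (nat_lit 93447468724) (nat_lit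 76) (nat_lit 41076683196) (nat_lit 4) (nat_lit 4) (nat_lit 5) (nat_lit 5) (nat_lit 5) (nat_lit 4) (nat_lit 334) (nat_lit 253) (nat_lit 133)) (XT.lf (nat_lit 0) (nat_lit 31234594288) (nat_lit 76) (nat_lit 88823282038) (nat_lit 76) (nat_lit 36445328471) (nat_lit 4) (nat_lit 4) (nat_lit 5) (nat_lit 5) (nat_lit 5) (nat_lit 4) (nat_lit 335) (nat_lit 253) (nat_lit 132))))))))
noncomputable def xc155 : XT := (XT.nd (nat_lit 1326) (nat_lit 0) (nat_lit 0) (XT.nd (nat_lit 624) (nat_lit 76) (nat_lit 0) (XT.nd (nat_lit 312) (nat_lit 76) (nat_lit 0) (XT.nd (nat_lit 156) (nat_lit 0) (nat_lit 0) (XT.nd (nat_lit 78) (nat_lit 0) (nat_lit 0) (XT.lf (nat_lit 0) (nat_lit 48316463525) (nat_lit 76) (nat_lit 83969653537) (nat_lit 76) (nat_lit 31584873265) (nat_lit 4) (nat_lit 4) (nat_lit 5) (nat_lit 5) (nat_lit 5) (nat_lit 4) (nat_lit 336) (nat_lit 253) (nat_lit 131)) (XT.lf (nat_lit 0) (nat_lit 66248508558)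 (nat_lit 76) (nat_lit 78875026963) (nat_lit 76) (nat_lit 26483745067) (nat_lit 4) (nat_lit 4) (nat_lit 5) (nat_lit 5) (nat_lit 5) (nat_lit 4) (nat_lit 337) (nat_lit 253) (nat_lit 130))) (XT.nd (nat_lit 78) (nat_lit 0) (nat_lit 0) (XT.lf (nat_lit 0) (nat_lit 85073424732) (nat_lit 76) (nat_lit 73527272251) (nat_lit 76) (nat_lit 21129798333) (nat_lit 4) (nat_lit 4) (nat_lit 5) (nat_lit 5) (nat_lit 5) (nat_lit 4) (nat_lit 338) (nat_lit 253) (nat_lit 129)) (XT.lf (nat_lit 0) (nat_lit 104836033276) (nat_lit 76) (nat_lit 67913656652) (nat_lit 76) (nat_lit 15510285570) (nat_lit 4) (nat_lit 4) (nat_lit 5) (nat_lit 5) (nat_lit 5) (nat_lit 4) (nat_lit 339) (nat_lit 253) (nat_lit 128)))) (XT.nd (nat_lit 156) (nat_lit 76) (nat_lit 0) (XT.nd (nat_lit 78) (nat_lit 0) (nat_lit 0) (XT.lf (nat_lit 0) (nat_lit 125583388020) (nat_lit 76) (nat_lit 62020814416) (nat_lit 76) (nat_lit 9611826987) (nat_lit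 4) (nat_lit 4) (nat_lit 5) (nat_lit 5) (nat_lit 5) (nat_lit 4) (nat_lit 340) (nat_lit 253) (nat_lit 127)) (XT.lf (nat_lit 0) (nat_lit 147364887428) (nat_lit 76) (nat_lit 55834714965) (nat_lit 76) (nat_lit 3420378635) (nat_lit 4) (nat_lit 4) (nat_lit 5) (nat_lit 5) (nat_lit 5) (nat_lit 4) (nat_lit 341) (nat_lit 253) (nat_lit 126))) (XT.nd (nat_lit 78) (nat_lit 0) (nat_lit 0) (XT.lf (nat_lit 0) (nat_lit 2980260170) (nat_lit 152) (nat_lit 46309897173) (nat_lit 76) (nat_lit 167201659894) (nat_lit 3) (nat_lit 5) (nat_lit 5) (nat_lit 5) (nat_lit 4) (nat_lit 4) (nat_lit 342) (nat_lit 253) (nat_lit 125)) (XT.lf (nat_lit 0) (nat_lit 9584286452) (nat_lit 152) (nat_lit 32776494904) (nat_lit 76) (nat_lit 184493747831) (nat_lit 3) (nat_lit 5) (nat_lit 5) (nat_lit 5) (nat_lit 4) (nat_lit 4) (nat_lit 343) (nat_lit 253) (nat_lit 124))))) (XT.nd (nat_lit 312) (nat_lit 0) (nat_lit 0) (XT.nd (nat_lit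 156) (nat_lit 76) (nat_lit 0) (XT.nd (nat_lit 78) (nat_lit 0) (nat_lit 0) (XT.lf (nat_lit 0) (nat_lit 16516897562) (nat_lit 152) (nat_lit 18569262712) (nat_lit 76) (nat_lit 202649299816) (nat_lit 3) (nat_lit 5) (nat_lit 5) (nat_lit 5) (nat_lit 4) (nat_lit 4) (nat_lit 344) (nat_lit 253) (nat_lit 123)) (XT.lf (nat_lit 0) (nat_lit 23794599715) (nat_lit 152) (nat_lit 3654373854) (nat_lit 76) (nat_lit 221711543355) (nat_lit 3) (nat_lit 5) (nat_lit 5) (nat_lit 5) (nat_lit 4) (nat_lit 4) (nat_lit 345) (nat_lit 253) (nat_lit 122))) (XT.nd (nat_lit 78) (nat_lit 0) (nat_lit 0) (XT.lf (nat_lit 0) (nat_lit 12400579292) (nat_lit 76) (nat_lit 19227749276) (nat_lit 152) (nat_lit 229518893243) (nat_lit 2) (nat_lit 5) (nat_lit 3) (nat_lit 5) (nat_lit 4) (nat_lit 4) (nat_lit 346) (nat_lit 253) (nat_lit 121)) (XT.lf (nat_lit 0) (nat_lit 29382617119) (nat_lit 76) (nat_lit 10531579381) (nat_lit 152) (nat_lit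 233816044998) (nat_lit 2) (nat_lit 5) (nat_lit 3) (nat_lit 5) (nat_lit 4) (nat_lit 4) (nat_lit 347) (nat_lit 253) (nat_lit 120)))) (XT.nd (nat_lit 156) (nat_lit 0) (nat_lit 0) (XT.nd (nat_lit 78) (nat_lit 0) (nat_lit 0) (XT.lf (nat_lit 0) (nat_lit 47211342946) (nat_lit 76) (nat_lit 1401647306) (nat_lit 152) (nat_lit 238329492375) (nat_lit 2) (nat_lit 5) (nat_lit 3) (nat_lit 5) (nat_lit 4) (nat_lit 4) (nat_lit 348) (nat_lit 253) (nat_lit 119)) (XT.lf (nat_lit 0) (nat_lit 57873193056) (nat_lit 152) (nat_lit 235013968615) (nat_lit 0) (nat_lit 7921852657) (nat_lit 2) (nat_lit 5) (nat_lit 4) (nat_lit 4) (nat_lit 2) (nat_lit 4) (nat_lit 349) (nat_lit 253) (nat_lit 118))) (XT.nd (nat_lit 78) (nat_lit 0) (nat_lit 0) (XT.lf (nat_lit 0) (nat_lit 67618128576) (nat_lit 152) (nat_lit 230086155381) (nat_lit 0) (nat_lit 17663504415) (nat_lit 2) (nat_lit 5) (nat_lit 4) (nat_lit 4) (nat_lit 2) (nat_lit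 4) (nat_lit 350) (nat_lit 253) (nat_lit 117)) (XT.nd (nat_lit 78) (nat_lit 0) (nat_lit 0) (XT.lf (nat_lit 0) (nat_lit 77849115396) (nat_lit 152) (nat_lit 224914083449) (nat_lit 0) (nat_lit 27891363843) (nat_lit 2) (nat_lit 5) (nat_lit 4) (nat_lit 4) (nat_lit 2) (nat_lit 4) (nat_lit 351) (nat_lit 253) (nat_lit 116)) (XT.lf (nat_lit 0) (nat_lit 88590513010) (nat_lit 152) (nat_lit 219485438362) (nat_lit 0) (nat_lit 38629782989) (nat_lit 2) (nat_lit 5) (nat_lit 4) (nat_lit 4) (nat_lit 2) (nat_lit 4) (nat_lit 352) (nat_lit 253) (nat_lit 115))))))) (XT.nd (nat_lit 30108) (nat_lit 0) (nat_lit 4788) (XT.nd (nat_lit 312) (nat_lit 0) (nat_lit 0) (XT.nd (nat_lit 156) (nat_lit 0) (nat_lit 0) (XT.nd (nat_lit 78) (nat_lit 0) (nat_lit 0) (XT.lf (nat_lit 0) (nat_lit 99867896173) (nat_lit 152) (nat_lit 213787294775) (nat_lit 0) (nat_lit 49904329515) (nat_lit 2) (nat_lit 5) (nat_lit 4) (nat_lit 4) (nat_lit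 2) (nat_lit 4) (nat_lit 353) (nat_lit 253) (nat_lit 114)) (XT.lf (nat_lit 0) (nat_lit 111708115799) (nat_lit 152) (nat_lit 207806085679) (nat_lit 0) (nat_lit 61741847582) (nat_lit 2) (nat_lit 5) (nat_lit 4) (nat_lit 4) (nat_lit 2) (nat_lit 4) (nat_lit 354) (nat_lit 253) (nat_lit 113))) (XT.nd (nat_lit 78) (nat_lit 0) (nat_lit 0) (XT.lf (nat_lit 0) (nat_lit 124139362885) (nat_lit 152) (nat_lit 201527570100) (nat_lit 0) (nat_lit 74170521755) (nat_lit 2) (nat_lit 5) (nat_lit 4) (nat_lit 4) (nat_lit 2) (nat_lit 4) (nat_lit 355) (nat_lit 253) (nat_lit 112)) (XT.lf (nat_lit 0) (nat_lit 137191235639) (nat_lit 152) (nat_lit 194936799191) (nat_lit 0) (nat_lit 87219944116) (nat_lit 2) (nat_lit 5) (nat_lit 4) (nat_lit 4) (nat_lit 2) (nat_lit 4) (nat_lit 356) (nat_lit 253) (nat_lit 111)))) (XT.nd (nat_lit 29562) (nat_lit 0) (nat_lit 5168) (XT.nd (nat_lit 29484) (nat_lit 0) (nat_lit 5776) (XT.lf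 (nat_lit 0) (nat_lit 150894809950) (nat_lit 152) (nat_lit 188018080641) (nat_lit 0) (nat_lit 100921184718) (nat_lit 2) (nat_lit 5) (nat_lit 4) (nat_lit 4) (nat_lit 2) (nat_lit 4) (nat_lit 357) (nat_lit 253) (nat_lit 110)) (XT.lf (nat_lit 0) (nat_lit 1616796237) (nat_lit 0) (nat_lit 1616796237) (nat_lit 532) (nat_lit 1164935025) (nat_lit 78) (nat_lit 5) (nat_lit 78) (nat_lit 3) (nat_lit 85) (nat_lit 3) (nat_lit 254) (nat_lit 254) (nat_lit 212))) (XT.nd (nat_lit 78) (nat_lit 608) (nat_lit 0) (XT.lf (nat_lit 0) (nat_lit 7048928885) (nat_lit 0) (nat_lit 412991605) (nat_lit 532) (nat_lit 1509133376) (nat_lit 78) (nat_lit 5) (nat_lit 78) (nat_lit 3) (nat_lit 85) (nat_lit 3) (nat_lit 255) (nat_lit 254) (nat_lit 211)) (XT.nd (nat_lit 78) (nat_lit 608) (nat_lit 0) (XT.lf (nat_lit 76) (nat_lit 1892025456) (nat_lit 0) (nat_lit 6630788875) (nat_lit 608) (nat_lit 630390904) (nat_lit 79) (nat_lit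 5) (nat_lit 78) (nat_lit 5) (nat_lit 86) (nat_lit 5) (nat_lit 256) (nat_lit 254) (nat_lit 210)) (XT.lf (nat_lit 0) (nat_lit 270852532) (nat_lit 608) (nat_lit 3422589258) (nat_lit 684) (nat_lit 5651646463) (nat_lit 70) (nat_lit 5) (nat_lit 78) (nat_lit 5) (nat_lit 79) (nat_lit 5) (nat_lit 257) (nat_lit 254) (nat_lit 209)))))) (XT.nd (nat_lit 312) (nat_lit 380) (nat_lit 0) (XT.nd (nat_lit 156) (nat_lit 0) (nat_lit 76) (XT.nd (nat_lit 78) (nat_lit 0) (nat_lit 76) (XT.lf (nat_lit 76) (nat_lit 586363322) (nat_lit 0) (nat_lit 569300318) (nat_lit 684) (nat_lit 8392636903) (nat_lit 71) (nat_lit 5) (nat_lit 70) (nat_lit 5) (nat_lit 79) (nat_lit 5) (nat_lit 258) (nat_lit 254) (nat_lit 208)) (XT.lf (nat_lit 0) (nat_lit 2138668228) (nat_lit 608) (nat_lit 4919866509) (nat_lit 684) (nat_lit 2700666186) (nat_lit 71) (nat_lit 5) (nat_lit 79) (nat_lit 5) (nat_lit 80) (nat_lit 5) (nat_lit 259) (nat_lit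 254) (nat_lit 207))) (XT.nd (nat_lit 78) (nat_lit 0) (nat_lit 0) (XT.lf (nat_lit 0) (nat_lit 3135120065) (nat_lit 608) (nat_lit 715884145) (nat_lit 684) (nat_lit 6131641660) (nat_lit 71) (nat_lit 5) (nat_lit 79) (nat_lit 5) (nat_lit 80) (nat_lit 5) (nat_lit 260) (nat_lit 254) (nat_lit 206)) (XT.lf (nat_lit 76) (nat_lit 3790218385) (nat_lit 0) (nat_lit 407460831) (nat_lit 684) (nat_lit 6018973804) (nat_lit 72) (nat_lit 5) (nat_lit 71) (nat_lit 5) (nat_lit 80) (nat_lit 5) (nat_lit 261) (nat_lit 254) (nat_lit 205)))) (XT.nd (nat_lit 156) (nat_lit 532) (nat_lit 0) (XT.nd (nat_lit 78) (nat_lit 0) (nat_lit 0) (XT.lf (nat_lit 0) (nat_lit 5334671979) (nat_lit 608) (nat_lit 1996931511) (nat_lit 684) (nat_lit 3129886220) (nat_lit 72) (nat_lit 5) (nat_lit 80) (nat_lit 5) (nat_lit 81) (nat_lit 5) (nat_lit 262) (nat_lit 254) (nat_lit 204)) (XT.lf (nat_lit 76) (nat_lit 2704038515) (nat_lit 0) (nat_lit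 3834223774) (nat_lit 684) (nat_lit 4180003759) (nat_lit 73) (nat_lit 5) (nat_lit 72) (nat_lit 5) (nat_lit 81) (nat_lit 5) (nat_lit 263) (nat_lit 254) (nat_lit 203))) (XT.nd (nat_lit 78) (nat_lit 532) (nat_lit 0) (XT.lf (nat_lit 76) (nat_lit 7679993157) (nat_lit 0) (nat_lit 118113915) (nat_lit 684) (nat_lit 3190146769) (nat_lit 73) (nat_lit 5) (nat_lit 72) (nat_lit 5) (nat_lit 81) (nat_lit 5) (nat_lit 264) (nat_lit 254) (nat_lit 202)) (XT.nd (nat_lit 78) (nat_lit 0) (nat_lit 0) (XT.lf (nat_lit 0) (nat_lit 1594892605) (nat_lit 608) (nat_lit 7574205446) (nat_lit 684) (nat_lit 2100403264) (nat_lit 65) (nat_lit 5) (nat_lit 73) (nat_lit 5) (nat_lit 74) (nat_lit 5) (nat_lit 265) (nat_lit 254) (nat_lit 201)) (XT.lf (nat_lit 0) (nat_lit 6826461110) (nat_lit 608) (nat_lit 3805530731) (nat_lit 684) (nat_lit 931811647) (nat_lit 65) (nat_lit 5) (nat_lit 73) (nat_lit 5) (nat_lit 74) (nat_lit 5)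 (nat_lit 266) (nat_lit 254) (nat_lit 200))))))))
noncomputable def xc156 : XT := (XT.nd (nat_lit 1326) (nat_lit 1368) (nat_lit 0) (XT.nd (nat_lit 624) (nat_lit 836) (nat_lit 0) (XT.nd (nat_lit 312) (nat_lit 532) (nat_lit 0) (XT.nd (nat_lit 156) (nat_lit 304) (nat_lit 0) (XT.nd (nat_lit 78) (nat_lit 0) (nat_lit 0) (XT.lf (nat_lit 0) (nat_lit 261414861) (nat_lit 760) (nat_lit 11450319729) (nat_lit 76) (nat_lit 162218148) (nat_lit 55) (nat_lit 5) (nat_lit 65) (nat_lit 5) (nat_lit 56) (nat_lit 5) (nat_lit 267) (nat_lit 254) (nat_lit 199)) (XT.lf (nat_lit 0) (nat_lit 1594501621) (nat_lit 760) (nat_lit 6298233874) (nat_lit 76) (nat_lit 4300672686) (nat_lit 55) (nat_lit 5) (nat_lit 65) (nat_lit 5) (nat_lit 56) (nat_lit 5) (nat_lit 268) (nat_lit 254) (nat_lit 198))) (XT.nd (nat_lit 78) (nat_lit 304) (nat_lit 0) (XT.lf (nat_lit 0) (nat_lit 2963370088) (nat_lit 760) (nat_lit 917864006) (nat_lit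 76) (nat_lit 8649277554) (nat_lit 55) (nat_lit 5) (nat_lit 65) (nat_lit 5) (nat_lit 56) (nat_lit 5) (nat_lit 269) (nat_lit 254) (nat_lit 197)) (XT.lf (nat_lit 0) (nat_lit 4453576135) (nat_lit 380) (nat_lit 8029582142) (nat_lit 76) (nat_lit 398792661) (nat_lit 51) (nat_lit 5) (nat_lit 56) (nat_lit 5) (nat_lit 52) (nat_lit 5) (nat_lit 270) (nat_lit 254) (nat_lit 196)))) (XT.nd (nat_lit 156) (nat_lit 228) (nat_lit 0) (XT.nd (nat_lit 78) (nat_lit 304) (nat_lit 0) (XT.lf (nat_lit 0) (nat_lit 6069302196) (nat_lit 380) (nat_lit 2400116771) (nat_lit 76) (nat_lit 4779112125) (nat_lit 51) (nat_lit 5) (nat_lit 56) (nat_lit 5) (nat_lit 52) (nat_lit 5) (nat_lit 271) (nat_lit 254) (nat_lit 195)) (XT.lf (nat_lit 0) (nat_lit 3598344121) (nat_lit 304) (nat_lit 4196587461) (nat_lit 380) (nat_lit 5837166523) (nat_lit 47) (nat_lit 5) (nat_lit 51) (nat_lit 5) (nat_lit 52) (nat_lit 5) (nat_lit 272) (nat_lit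 254) (nat_lit 194))) (XT.nd (nat_lit 78) (nat_lit 228) (nat_lit 0) (XT.lf (nat_lit 0) (nat_lit 9626467025) (nat_lit 380) (nat_lit 4086552599) (nat_lit 76) (nat_lit 320950900) (nat_lit 47) (nat_lit 5) (nat_lit 52) (nat_lit 5) (nat_lit 48) (nat_lit 5) (nat_lit 273) (nat_lit 254) (nat_lit 193)) (XT.lf (nat_lit 0) (nat_lit 2130148580) (nat_lit 228) (nat_lit 9496518265) (nat_lit 304) (nat_lit 2825518470) (nat_lit 44) (nat_lit 5) (nat_lit 47) (nat_lit 5) (nat_lit 48) (nat_lit 5) (nat_lit 274) (nat_lit 254) (nat_lit 192))))) (XT.nd (nat_lit 312) (nat_lit 456) (nat_lit 0) (XT.nd (nat_lit 156) (nat_lit 0) (nat_lit 0) (XT.nd (nat_lit 78) (nat_lit 380) (nat_lit 0) (XT.lf (nat_lit 0) (nat_lit 8772758264) (nat_lit 228) (nat_lit 4999130058) (nat_lit 304) (nat_lit 1117270158) (nat_lit 44) (nat_lit 5) (nat_lit 47) (nat_lit 5) (nat_lit 48) (nat_lit 5) (nat_lit 275) (nat_lit 254) (nat_lit 191)) (XT.lf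 (nat_lit 0) (nat_lit 374553182) (nat_lit 304) (nat_lit 262524286) (nat_lit 380) (nat_lit 14711347126) (nat_lit 39) (nat_lit 5) (nat_lit 43) (nat_lit 5) (nat_lit 44) (nat_lit 5) (nat_lit 276) (nat_lit 254) (nat_lit 190))) (XT.nd (nat_lit 78) (nat_lit 0) (nat_lit 0) (XT.lf (nat_lit 0) (nat_lit 2597580240) (nat_lit 380) (nat_lit 8543779703) (nat_lit 76) (nat_lit 4680663851) (nat_lit 39) (nat_lit 5) (nat_lit 44) (nat_lit 5) (nat_lit 40) (nat_lit 5) (nat_lit 277) (nat_lit 254) (nat_lit 189)) (XT.lf (nat_lit 0) (nat_lit 4638652336) (nat_lit 380) (nat_lit 1822336813) (nat_lit 76) (nat_lit 9859267402) (nat_lit 39) (nat_lit 5) (nat_lit 44) (nat_lit 5) (nat_lit 40) (nat_lit 5) (nat_lit 278) (nat_lit 254) (nat_lit 188)))) (XT.nd (nat_lit 156) (nat_lit 228) (nat_lit 0) (XT.nd (nat_lit 78) (nat_lit 0) (nat_lit 0) (XT.lf (nat_lit 0) (nat_lit 5382844058) (nat_lit 228) (nat_lit 1462251933) (nat_lit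 304) (nat_lit 9995216013) (nat_lit 36) (nat_lit 5) (nat_lit 39) (nat_lit 5) (nat_lit 40) (nat_lit 5) (nat_lit 279) (nat_lit 254) (nat_lit 187)) (XT.lf (nat_lit 0) (nat_lit 9232167792) (nat_lit 304) (nat_lit 4458134943) (nat_lit 76) (nat_lit 3692625490) (nat_lit 36) (nat_lit 5) (nat_lit 40) (nat_lit 5) (nat_lit 37) (nat_lit 5) (nat_lit 280) (nat_lit 254) (nat_lit 186))) (XT.nd (nat_lit 78) (nat_lit 0) (nat_lit 0) (XT.lf (nat_lit 0) (nat_lit 2937166154) (nat_lit 228) (nat_lit 8852037869) (nat_lit 304) (nat_lit 6161010495) (nat_lit 33) (nat_lit 5) (nat_lit 36) (nat_lit 5) (nat_lit 37) (nat_lit 5) (nat_lit 281) (nat_lit 254) (nat_lit 185)) (XT.nd (nat_lit 78) (nat_lit 0) (nat_lit 0) (XT.lf (nat_lit 0) (nat_lit 10833361473) (nat_lit 228) (nat_lit 3697559307) (nat_lit 304) (nat_lit 4012169387) (nat_lit 33) (nat_lit 5) (nat_lit 36) (nat_lit 5) (nat_lit 37) (nat_lit 5) (nat_lit 282) (nat_lit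 254) (nat_lit 184)) (XT.lf (nat_lit 0) (nat_lit 17418636966) (nat_lit 304) (nat_lit 91413057) (nat_lit 76) (nat_lit 1655177211) (nat_lit 33) (nat_lit 5) (nat_lit 37) (nat_lit 5) (nat_lit 34) (nat_lit 5) (nat_lit 283) (nat_lit 254) (nat_lit 183))))))) (XT.nd (nat_lit 624) (nat_lit 532) (nat_lit 0) (XT.nd (nat_lit 312) (nat_lit 304) (nat_lit 0) (XT.nd (nat_lit 156) (nat_lit 228) (nat_lit 0) (XT.nd (nat_lit 78) (nat_lit 0) (nat_lit 0) (XT.lf (nat_lit 0) (nat_lit 784574410) (nat_lit 304) (nat_lit 11739050622) (nat_lit 76) (nat_lit 7285782819) (nat_lit 29) (nat_lit 5) (nat_lit 33) (nat_lit 5) (nat_lit 30) (nat_lit 5) (nat_lit 284) (nat_lit 254) (nat_lit 182)) (XT.lf (nat_lit 0) (nat_lit 3368308256) (nat_lit 304) (nat_lit 3893526680) (nat_lit 76) (nat_lit 13223350232) (nat_lit 29) (nat_lit 5) (nat_lit 33) (nat_lit 5) (nat_lit 30) (nat_lit 5) (nat_lit 285) (nat_lit 254) (nat_lit 181))) (XT.nd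 (nat_lit 78) (nat_lit 0) (nat_lit 0) (XT.lf (nat_lit 0) (nat_lit 4465740010) (nat_lit 228) (nat_lit 1669148943) (nat_lit 304) (nat_lit 15057231476) (nat_lit 26) (nat_lit 5) (nat_lit 29) (nat_lit 5) (nat_lit 30) (nat_lit 5) (nat_lit 286) (nat_lit 254) (nat_lit 180)) (XT.lf (nat_lit 0) (nat_lit 9156728559) (nat_lit 304) (nat_lit 8641529324) (nat_lit 76) (nat_lit 4130347686) (nat_lit 26) (nat_lit 5) (nat_lit 30) (nat_lit 5) (nat_lit 27) (nat_lit 5) (nat_lit 287) (nat_lit 254) (nat_lit 179)))) (XT.nd (nat_lit 156) (nat_lit 152) (nat_lit 0) (XT.nd (nat_lit 78) (nat_lit 152) (nat_lit 0) (XT.lf (nat_lit 0) (nat_lit 12342058353) (nat_lit 304) (nat_lit 200621672) (nat_lit 76) (nat_lit 10158662274) (nat_lit 26) (nat_lit 5) (nat_lit 30) (nat_lit 5) (nat_lit 27) (nat_lit 5) (nat_lit 288) (nat_lit 254) (nat_lit 178)) (XT.lf (nat_lit 0) (nat_lit 8928260105) (nat_lit 152) (nat_lit 6883537418) (nat_lit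 228) (nat_lit 7694706195) (nat_lit 24) (nat_lit 5) (nat_lit 26) (nat_lit 5) (nat_lit 27) (nat_lit 5) (nat_lit 289) (nat_lit 254) (nat_lit 177))) (XT.nd (nat_lit 78) (nat_lit 152) (nat_lit 0) (XT.lf (nat_lit 0) (nat_lit 18501039629) (nat_lit 152) (nat_lit 943503424) (nat_lit 228) (nat_lit 4907947038) (nat_lit 24) (nat_lit 5) (nat_lit 26) (nat_lit 5) (nat_lit 27) (nat_lit 5) (nat_lit 290) (nat_lit 254) (nat_lit 176)) (XT.lf (nat_lit 0) (nat_lit 3315966844) (nat_lit 152) (nat_lit 20064076305) (nat_lit 228) (nat_lit 1854717580) (nat_lit 22) (nat_lit 5) (nat_lit 24) (nat_lit 5) (nat_lit 25) (nat_lit 5) (nat_lit 291) (nat_lit 254) (nat_lit 175))))) (XT.nd (nat_lit 312) (nat_lit 304) (nat_lit 0) (XT.nd (nat_lit 156) (nat_lit 152) (nat_lit 0) (XT.nd (nat_lit 78) (nat_lit 0) (nat_lit 0) (XT.lf (nat_lit 0) (nat_lit 1410903527) (nat_lit 228) (nat_lit 13068837780) (nat_lit 76) (nat_lit 11675237022)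 (nat_lit 21) (nat_lit 5) (nat_lit 24) (nat_lit 5) (nat_lit 22) (nat_lit 5) (nat_lit 292) (nat_lit 254) (nat_lit 174)) (XT.lf (nat_lit 0) (nat_lit 4764891403) (nat_lit 228) (nat_lit 3825231443) (nat_lit 76) (nat_lit 18530228138) (nat_lit 21) (nat_lit 5) (nat_lit 24) (nat_lit 5) (nat_lit 22) (nat_lit 5) (nat_lit 293) (nat_lit 254) (nat_lit 173))) (XT.nd (nat_lit 78) (nat_lit 0) (nat_lit 0) (XT.lf (nat_lit 0) (nat_lit 6056848013) (nat_lit 152) (nat_lit 2312310637) (nat_lit 228) (nat_lit 19760738199) (nat_lit 19) (nat_lit 5) (nat_lit 21) (nat_lit 5) (nat_lit 22) (nat_lit 5) (nat_lit 294) (nat_lit 254) (nat_lit 172)) (XT.lf (nat_lit 0) (nat_lit 12274525810) (nat_lit 228) (nat_lit 12706530996) (nat_lit 76) (nat_lit 4202850851) (nat_lit 19) (nat_lit 5) (nat_lit 22) (nat_lit 5) (nat_lit 20) (nat_lit 5) (nat_lit 295) (nat_lit 254) (nat_lit 171)))) (XT.nd (nat_lit 156) (nat_lit 152) (nat_lit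 0) (XT.nd (nat_lit 78) (nat_lit 152) (nat_lit 0) (XT.lf (nat_lit 0) (nat_lit 16401857677) (nat_lit 228) (nat_lit 2926555548) (nat_lit 76) (nat_lit 10960901418) (nat_lit 19) (nat_lit 5) (nat_lit 22) (nat_lit 5) (nat_lit 20) (nat_lit 5) (nat_lit 296) (nat_lit 254) (nat_lit 170)) (XT.lf (nat_lit 0) (nat_lit 7568504215) (nat_lit 152) (nat_lit 13274540928) (nat_lit 228) (nat_lit 10601601389) (nat_lit 17) (nat_lit 5) (nat_lit 19) (nat_lit 5) (nat_lit 20) (nat_lit 5) (nat_lit 297) (nat_lit 254) (nat_lit 169))) (XT.nd (nat_lit 78) (nat_lit 152) (nat_lit 0) (XT.lf (nat_lit 0) (nat_lit 18674027055) (nat_lit 152) (nat_lit 6871411275) (nat_lit 228) (nat_lit 7110376992) (nat_lit 17) (nat_lit 5) (nat_lit 19) (nat_lit 5) (nat_lit 20) (nat_lit 5) (nat_lit 298) (nat_lit 254) (nat_lit 168)) (XT.nd (nat_lit 78) (nat_lit 152) (nat_lit 0) (XT.lf (nat_lit 0) (nat_lit 30319689548) (nat_lit 152) (nat_lit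 153341354) (nat_lit 228) (nat_lit 3455033970) (nat_lit 17) (nat_lit 5) (nat_lit 19) (nat_lit 5) (nat_lit 20) (nat_lit 5) (nat_lit 299) (nat_lit 254) (nat_lit 167)) (XT.lf (nat_lit 0) (nat_lit 588009575) (nat_lit 152) (nat_lit 27864836320) (nat_lit 76) (nat_lit 6799946113) (nat_lit 15) (nat_lit 5) (nat_lit 17) (nat_lit 5) (nat_lit 16) (nat_lit 5) (nat_lit 300) (nat_lit 254) (nat_lit 166))))))))
noncomputable def xc157 : XT := (XT.nd (nat_lit 1326) (nat_lit 304) (nat_lit 0) (XT.nd (nat_lit 624) (nat_lit 304) (nat_lit 0) (XT.nd (nat_lit 312) (nat_lit 76) (nat_lit 0) (XT.nd (nat_lit 156) (nat_lit 152) (nat_lit 0) (XT.nd (nat_lit 78) (nat_lit 0) (nat_lit 0) (XT.lf (nat_lit 0) (nat_lit 4772243381) (nat_lit 152) (nat_lit 17656409944) (nat_lit 76) (nat_lit 14209535411) (nat_lit 15) (nat_lit 5) (nat_lit 17) (nat_lit 5) (nat_lit 16) (nat_lit 5) (nat_lit 301) (nat_lit 254) (nat_lit 165)) (XT.lf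 (nat_lit 0) (nat_lit 9156664791) (nat_lit 152) (nat_lit 6951783514) (nat_lit 76) (nat_lit 21984879844) (nat_lit 15) (nat_lit 5) (nat_lit 17) (nat_lit 5) (nat_lit 16) (nat_lit 5) (nat_lit 302) (nat_lit 254) (nat_lit 164))) (XT.nd (nat_lit 78) (nat_lit 0) (nat_lit 0) (XT.lf (nat_lit 0) (nat_lit 4415865447) (nat_lit 152) (nat_lit 9404791491) (nat_lit 228) (nat_lit 25797570724) (nat_lit 13) (nat_lit 5) (nat_lit 15) (nat_lit 5) (nat_lit 16) (nat_lit 5) (nat_lit 303) (nat_lit 254) (nat_lit 163)) (XT.lf (nat_lit 0) (nat_lit 16579921473) (nat_lit 152) (nat_lit 2247265875) (nat_lit 228) (nat_lit 22386737501) (nat_lit 13) (nat_lit 5) (nat_lit 15) (nat_lit 5) (nat_lit 16) (nat_lit 5) (nat_lit 304) (nat_lit 254) (nat_lit 162)))) (XT.nd (nat_lit 156) (nat_lit 76) (nat_lit 0) (XT.nd (nat_lit 78) (nat_lit 0) (nat_lit 0) (XT.lf (nat_lit 0) (nat_lit 24158227816) (nat_lit 228) (nat_lit 13632513048)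 (nat_lit 76) (nat_lit 5094975552) (nat_lit 13) (nat_lit 5) (nat_lit 16) (nat_lit 5) (nat_lit 14) (nat_lit 4) (nat_lit 305) (nat_lit 254) (nat_lit 161)) (XT.lf (nat_lit 0) (nat_lit 29784978035) (nat_lit 228) (nat_lit 2130203946) (nat_lit 76) (nat_lit 12724475499) (nat_lit 13) (nat_lit 5) (nat_lit 16) (nat_lit 5) (nat_lit 14) (nat_lit 4) (nat_lit 306) (nat_lit 254) (nat_lit 160))) (XT.nd (nat_lit 78) (nat_lit 0) (nat_lit 0) (XT.lf (nat_lit 0) (nat_lit 10263905574) (nat_lit 76) (nat_lit 25582091668) (nat_lit 152) (nat_lit 10627668740) (nat_lit 12) (nat_lit 5) (nat_lit 13) (nat_lit 5) (nat_lit 14) (nat_lit 4) (nat_lit 307) (nat_lit 254) (nat_lit 159)) (XT.lf (nat_lit 0) (nat_lit 23340043040) (nat_lit 76) (nat_lit 18898950343) (nat_lit 152) (nat_lit 6158951378) (nat_lit 12) (nat_lit 5) (nat_lit 13) (nat_lit 5) (nat_lit 14) (nat_lit 4) (nat_lit 308) (nat_lit 254) (nat_lit 158))))) (XT.nd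 (nat_lit 312) (nat_lit 76) (nat_lit 0) (XT.nd (nat_lit 156) (nat_lit 152) (nat_lit 0) (XT.nd (nat_lit 78) (nat_lit 76) (nat_lit 0) (XT.lf (nat_lit 0) (nat_lit 37058907949) (nat_lit 76) (nat_lit 11885921800) (nat_lit 152) (nat_lit 1473963591) (nat_lit 12) (nat_lit 5) (nat_lit 13) (nat_lit 5) (nat_lit 14) (nat_lit 4) (nat_lit 309) (nat_lit 254) (nat_lit 157)) (XT.lf (nat_lit 0) (nat_lit 3328397500) (nat_lit 152) (nat_lit 1141542830) (nat_lit 76) (nat_lit 48068398741) (nat_lit 11) (nat_lit 5) (nat_lit 13) (nat_lit 5) (nat_lit 12) (nat_lit 5) (nat_lit 310) (nat_lit 254) (nat_lit 156))) (XT.nd (nat_lit 78) (nat_lit 0) (nat_lit 0) (XT.lf (nat_lit 0) (nat_lit 8558207139) (nat_lit 228) (nat_lit 42770191368) (nat_lit 76) (nat_lit 3422425436) (nat_lit 9) (nat_lit 5) (nat_lit 12) (nat_lit 5) (nat_lit 10) (nat_lit 4) (nat_lit 311) (nat_lit 254) (nat_lit 155)) (XT.lf (nat_lit 0) (nat_lit 14136223285)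 (nat_lit 228) (nat_lit 31358375913) (nat_lit 76) (nat_lit 11575010713) (nat_lit 9) (nat_lit 5) (nat_lit 12) (nat_lit 5) (nat_lit 10) (nat_lit 4) (nat_lit 312) (nat_lit 254) (nat_lit 154)))) (XT.nd (nat_lit 156) (nat_lit 76) (nat_lit 0) (XT.nd (nat_lit 78) (nat_lit 0) (nat_lit 0) (XT.lf (nat_lit 0) (nat_lit 19987224817) (nat_lit 228) (nat_lit 19385839577) (nat_lit 76) (nat_lit 20131578607) (nat_lit 9) (nat_lit 5) (nat_lit 12) (nat_lit 5) (nat_lit 10) (nat_lit 4) (nat_lit 313) (nat_lit 254) (nat_lit 153)) (XT.lf (nat_lit 0) (nat_lit 26125142690) (nat_lit 228) (nat_lit 6824076323) (nat_lit 76) (nat_lit 29112501897) (nat_lit 9) (nat_lit 5) (nat_lit 12) (nat_lit 5) (nat_lit 10) (nat_lit 4) (nat_lit 314) (nat_lit 254) (nat_lit 152))) (XT.nd (nat_lit 78) (nat_lit 0) (nat_lit 0) (XT.lf (nat_lit 0) (nat_lit 6567008081) (nat_lit 76) (nat_lit 26100112313) (nat_lit 152) (nat_lit 32074685055) (nat_lit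 8) (nat_lit 5) (nat_lit 9) (nat_lit 5) (nat_lit 10) (nat_lit 4) (nat_lit 315) (nat_lit 254) (nat_lit 151)) (XT.nd (nat_lit 78) (nat_lit 0) (nat_lit 0) (XT.lf (nat_lit 0) (nat_lit 20855755334) (nat_lit 76) (nat_lit 18790763205) (nat_lit 152) (nat_lit 27903870009) (nat_lit 8) (nat_lit 5) (nat_lit 9) (nat_lit 5) (nat_lit 10) (nat_lit 4) (nat_lit 316) (nat_lit 254) (nat_lit 150)) (XT.lf (nat_lit 0) (nat_lit 35850551482) (nat_lit 76) (nat_lit 11119337509) (nat_lit 152) (nat_lit 23529771606) (nat_lit 8) (nat_lit 5) (nat_lit 9) (nat_lit 5) (nat_lit 10) (nat_lit 4) (nat_lit 317) (nat_lit 254) (nat_lit 149))))))) (XT.nd (nat_lit 702) (nat_lit 76) (nat_lit 0) (XT.nd (nat_lit 312) (nat_lit 152) (nat_lit 0) (XT.nd (nat_lit 156) (nat_lit 76) (nat_lit 0) (XT.nd (nat_lit 78) (nat_lit 0) (nat_lit 0) (XT.lf (nat_lit 0) (nat_lit 51587098421) (nat_lit 76) (nat_lit 3067569927) (nat_lit 152) (nat_lit 18941975325)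 (nat_lit 8) (nat_lit 5) (nat_lit 9) (nat_lit 5) (nat_lit 10) (nat_lit 4) (nat_lit 318) (nat_lit 254) (nat_lit 148)) (XT.lf (nat_lit 0) (nat_lit 62803208509) (nat_lit 152) (nat_lit 8829902234) (nat_lit 0) (nat_lit 5211398060) (nat_lit 8) (nat_lit 5) (nat_lit 10) (nat_lit 4) (nat_lit 8) (nat_lit 4) (nat_lit 319) (nat_lit 254) (nat_lit 147))) (XT.nd (nat_lit 78) (nat_lit 0) (nat_lit 0) (XT.lf (nat_lit 0) (nat_lit 5114712688) (nat_lit 76) (nat_lit 66370243174) (nat_lit 76) (nat_lit 8763530885) (nat_lit 7) (nat_lit 4) (nat_lit 8) (nat_lit 5) (nat_lit 8) (nat_lit 4) (nat_lit 320) (nat_lit 254) (nat_lit 146)) (XT.lf (nat_lit 0) (nat_lit 20055807419) (nat_lit 76) (nat_lit 60690252683) (nat_lit 76) (nat_lit 3069348166) (nat_lit 7) (nat_lit 4) (nat_lit 8) (nat_lit 5) (nat_lit 8) (nat_lit 4) (nat_lit 321) (nat_lit 254) (nat_lit 145)))) (XT.nd (nat_lit 156) (nat_lit 76) (nat_lit 0) (XT.nd (nat_lit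 78) (nat_lit 0) (nat_lit 0) (XT.lf (nat_lit 0) (nat_lit 2812280092) (nat_lit 152) (nat_lit 51869246735) (nat_lit 76) (nat_lit 32877092132) (nat_lit 6) (nat_lit 5) (nat_lit 8) (nat_lit 5) (nat_lit 7) (nat_lit 4) (nat_lit 322) (nat_lit 254) (nat_lit 144)) (XT.lf (nat_lit 0) (nat_lit 8880896655) (nat_lit 152) (nat_lit 39441455551) (nat_lit 76) (nat_lit 43164326311) (nat_lit 6) (nat_lit 5) (nat_lit 8) (nat_lit 5) (nat_lit 7) (nat_lit 4) (nat_lit 323) (nat_lit 254) (nat_lit 143))) (XT.nd (nat_lit 78) (nat_lit 76) (nat_lit 0) (XT.lf (nat_lit 0) (nat_lit 15249188918) (nat_lit 152) (nat_lit 26398716191) (nat_lit 76) (nat_lit 53963430410) (nat_lit 6) (nat_lit 5) (nat_lit 8) (nat_lit 5) (nat_lit 7) (nat_lit 4) (nat_lit 324) (nat_lit 254) (nat_lit 142)) (XT.nd (nat_lit 78) (nat_lit 76) (nat_lit 0) (XT.lf (nat_lit 0) (nat_lit 21932319483) (nat_lit 152) (nat_lit 12709974514) (nat_lit 76) (nat_lit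 65300116582) (nat_lit 6) (nat_lit 5) (nat_lit 8) (nat_lit 5) (nat_lit 7) (nat_lit 4) (nat_lit 325) (nat_lit 254) (nat_lit 141)) (XT.lf (nat_lit 0) (nat_lit 1712161584) (nat_lit 76) (nat_lit 27260770621) (nat_lit 152) (nat_lit 75515946992) (nat_lit 5) (nat_lit 5) (nat_lit 6) (nat_lit 5) (nat_lit 7) (nat_lit 4) (nat_lit 326) (nat_lit 254) (nat_lit 140)))))) (XT.nd (nat_lit 312) (nat_lit 76) (nat_lit 0) (XT.nd (nat_lit 156) (nat_lit 0) (nat_lit 0) (XT.nd (nat_lit 78) (nat_lit 0) (nat_lit 0) (XT.lf (nat_lit 0) (nat_lit 17290917814) (nat_lit 76) (nat_lit 19286573752) (nat_lit 152) (nat_lit 72674589678) (nat_lit 5) (nat_lit 5) (nat_lit 6) (nat_lit 5) (nat_lit 7) (nat_lit 4) (nat_lit 327) (nat_lit 254) (nat_lit 139)) (XT.lf (nat_lit 0) (nat_lit 33643137293) (nat_lit 76) (nat_lit 10915966776) (nat_lit 152) (nat_lit 69694503587) (nat_lit 5) (nat_lit 5) (nat_lit 6) (nat_lit 5) (nat_lit 7) (nat_lit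 4) (nat_lit 328) (nat_lit 254) (nat_lit 138))) (XT.nd (nat_lit 78) (nat_lit 0) (nat_lit 0) (XT.lf (nat_lit 0) (nat_lit 50807753877) (nat_lit 76) (nat_lit 2129019676) (nat_lit 152) (nat_lit 66568593274) (nat_lit 5) (nat_lit 5) (nat_lit 6) (nat_lit 5) (nat_lit 7) (nat_lit 4) (nat_lit 329) (nat_lit 254) (nat_lit 137)) (XT.lf (nat_lit 0) (nat_lit 61841222634) (nat_lit 152) (nat_lit 56305003031) (nat_lit 0) (nat_lit 6868098495) (nat_lit 5) (nat_lit 5) (nat_lit 7) (nat_lit 4) (nat_lit 5) (nat_lit 4) (nat_lit 330) (nat_lit 254) (nat_lit 136)))) (XT.nd (nat_lit 156) (nat_lit 76) (nat_lit 0) (XT.nd (nat_lit 78) (nat_lit 0) (nat_lit 0) (XT.lf (nat_lit 0) (nat_lit 71223022580) (nat_lit 152) (nat_lit 43332504589) (nat_lit 0) (nat_lit 16241600539) (nat_lit 5) (nat_lit 5) (nat_lit 7) (nat_lit 4) (nat_lit 5) (nat_lit 4) (nat_lit 331) (nat_lit 254) (nat_lit 135)) (XT.lf (nat_lit 0) (nat_lit 81071271047)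 (nat_lit 152) (nat_lit 29715990760) (nat_lit 0) (nat_lit 26081946242) (nat_lit 5) (nat_lit 5) (nat_lit 7) (nat_lit 4) (nat_lit 5) (nat_lit 4) (nat_lit 332) (nat_lit 254) (nat_lit 134))) (XT.nd (nat_lit 78) (nat_lit 76) (nat_lit 0) (XT.lf (nat_lit 0) (nat_lit 91409416245) (nat_lit 152) (nat_lit 15423041274) (nat_lit 0) (nat_lit 36412564999) (nat_lit 5) (nat_lit 5) (nat_lit 7) (nat_lit 4) (nat_lit 5) (nat_lit 4) (nat_lit 333) (nat_lit 254) (nat_lit 133)) (XT.nd (nat_lit 78) (nat_lit 76) (nat_lit 0) (XT.lf (nat_lit 0) (nat_lit 102262072806) (nat_lit 152) (nat_lit 419625298) (nat_lit 0) (nat_lit 47258053520) (nat_lit 5) (nat_lit 5) (nat_lit 7) (nat_lit 4) (nat_lit 5) (nat_lit 4) (nat_lit 334) (nat_lit 254) (nat_lit 132)) (XT.lf (nat_lit 0) (nat_lit 15836857942) (nat_lit 76) (nat_lit 98065480181) (nat_lit 76) (nat_lit 43054634191) (nat_lit 4) (nat_lit 4) (nat_lit 5) (nat_lit 5) (nat_lit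 5) (nat_lit 4) (nat_lit 335) (nat_lit 254) (nat_lit 131))))))))
noncomputable def xc158 : XT := (XT.nd (nat_lit 1326) (nat_lit 0) (nat_lit 0) (XT.nd (nat_lit 624) (nat_lit 76) (nat_lit 0) (XT.nd (nat_lit 312) (nat_lit 76) (nat_lit 0) (XT.nd (nat_lit 156) (nat_lit 0) (nat_lit 0) (XT.nd (nat_lit 78) (nat_lit 0) (nat_lit 0) (XT.lf (nat_lit 0) (nat_lit 32916816123) (nat_lit 76) (nat_lit 93212672827) (nat_lit 76) (nat_lit 38195325214) (nat_lit 4) (nat_lit 4) (nat_lit 5) (nat_lit 5) (nat_lit 5) (nat_lit 4) (nat_lit 336) (nat_lit 254) (nat_lit 130)) (XT.lf (nat_lit 0) (nat_lit 50847041102) (nat_lit 76) (nat_lit 88118828297) (nat_lit 76) (nat_lit 33095288661) (nat_lit 4) (nat_lit 4) (nat_lit 5) (nat_lit 5) (nat_lit 5) (nat_lit 4) (nat_lit 337) (nat_lit 254) (nat_lit 129))) (XT.nd (nat_lit 78) (nat_lit 0) (nat_lit 0) (XT.lf (nat_lit 0) (nat_lit 69670223891) (nat_lit 76) (nat_lit 82771818389)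 (nat_lit 76) (nat_lit 27742381590) (nat_lit 4) (nat_lit 4) (nat_lit 5) (nat_lit 5) (nat_lit 5) (nat_lit 4) (nat_lit 338) (nat_lit 254) (nat_lit 128)) (XT.lf (nat_lit 0) (nat_lit 89431181593) (nat_lit 76) (nat_lit 77158912129) (nat_lit 76) (nat_lit 22123858982) (nat_lit 4) (nat_lit 4) (nat_lit 5) (nat_lit 5) (nat_lit 5) (nat_lit 4) (nat_lit 339) (nat_lit 254) (nat_lit 127)))) (XT.nd (nat_lit 156) (nat_lit 76) (nat_lit 0) (XT.nd (nat_lit 78) (nat_lit 0) (nat_lit 0) (XT.lf (nat_lit 0) (nat_lit 110176964106) (nat_lit 76) (nat_lit 71266745452) (nat_lit 76) (nat_lit 16226343404) (nat_lit 4) (nat_lit 4) (nat_lit 5) (nat_lit 5) (nat_lit 5) (nat_lit 4) (nat_lit 340) (nat_lit 254) (nat_lit 126)) (XT.lf (nat_lit 0) (nat_lit 131956966150) (nat_lit 76) (nat_lit 65081289391) (nat_lit 76) (nat_lit 10035793151) (nat_lit 4) (nat_lit 4) (nat_lit 5) (nat_lit 5) (nat_lit 5) (nat_lit 4) (nat_lit 341) (nat_lit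 254) (nat_lit 125))) (XT.nd (nat_lit 78) (nat_lit 76) (nat_lit 0) (XT.lf (nat_lit 0) (nat_lit 154823044875) (nat_lit 76) (nat_lit 58587816670) (nat_lit 76) (nat_lit 3537468818) (nat_lit 4) (nat_lit 4) (nat_lit 5) (nat_lit 5) (nat_lit 5) (nat_lit 4) (nat_lit 342) (nat_lit 254) (nat_lit 124)) (XT.lf (nat_lit 0) (nat_lit 3178990027) (nat_lit 152) (nat_lit 48538038876) (nat_lit 76) (nat_lit 175596815561) (nat_lit 3) (nat_lit 5) (nat_lit 5) (nat_lit 5) (nat_lit 4) (nat_lit 4) (nat_lit 343) (nat_lit 254) (nat_lit 123))))) (XT.nd (nat_lit 312) (nat_lit 0) (nat_lit 0) (XT.nd (nat_lit 156) (nat_lit 76) (nat_lit 0) (XT.nd (nat_lit 78) (nat_lit 0) (nat_lit 0) (XT.lf (nat_lit 0) (nat_lit 10110850155) (nat_lit 152) (nat_lit 34332126168) (nat_lit 76) (nat_lit 193751837767) (nat_lit 3) (nat_lit 5) (nat_lit 5) (nat_lit 5) (nat_lit 4) (nat_lit 4) (nat_lit 344) (nat_lit 254) (nat_lit 122)) (XT.lf (nat_lit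 0) (nat_lit 17387837088) (nat_lit 152) (nat_lit 19418493961) (nat_lit 76) (nat_lit 212813576755) (nat_lit 3) (nat_lit 5) (nat_lit 5) (nat_lit 5) (nat_lit 4) (nat_lit 4) (nat_lit 345) (nat_lit 254) (nat_lit 121))) (XT.nd (nat_lit 78) (nat_lit 76) (nat_lit 0) (XT.lf (nat_lit 0) (nat_lit 25027276984) (nat_lit 152) (nat_lit 3761633606) (nat_lit 76) (nat_lit 232827417615) (nat_lit 3) (nat_lit 5) (nat_lit 5) (nat_lit 5) (nat_lit 4) (nat_lit 4) (nat_lit 346) (nat_lit 254) (nat_lit 120)) (XT.lf (nat_lit 0) (nat_lit 13094850117) (nat_lit 76) (nat_lit 20156956179) (nat_lit 152) (nat_lit 240950609543) (nat_lit 2) (nat_lit 5) (nat_lit 3) (nat_lit 5) (nat_lit 4) (nat_lit 4) (nat_lit 347) (nat_lit 254) (nat_lit 119)))) (XT.nd (nat_lit 156) (nat_lit 0) (nat_lit 0) (XT.nd (nat_lit 78) (nat_lit 0) (nat_lit 0) (XT.lf (nat_lit 0) (nat_lit 30922454508) (nat_lit 76) (nat_lit 11027510196) (nat_lit 152)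 (nat_lit 245464724998) (nat_lit 2) (nat_lit 5) (nat_lit 3) (nat_lit 5) (nat_lit 4) (nat_lit 4) (nat_lit 348) (nat_lit 254) (nat_lit 118)) (XT.lf (nat_lit 0) (nat_lit 49639249649) (nat_lit 76) (nat_lit 1442540953) (nat_lit 152) (nat_lit 250205850566) (nat_lit 2) (nat_lit 5) (nat_lit 3) (nat_lit 5) (nat_lit 4) (nat_lit 4) (nat_lit 349) (nat_lit 254) (nat_lit 117))) (XT.nd (nat_lit 78) (nat_lit 0) (nat_lit 0) (XT.lf (nat_lit 0) (nat_lit 60803620857) (nat_lit 152) (nat_lit 246699096161) (nat_lit 0) (nat_lit 8344854334) (nat_lit 2) (nat_lit 5) (nat_lit 4) (nat_lit 4) (nat_lit 2) (nat_lit 4) (nat_lit 350) (nat_lit 254) (nat_lit 116)) (XT.nd (nat_lit 78) (nat_lit 0) (nat_lit 0) (XT.lf (nat_lit 0) (nat_lit 71034052288) (nat_lit 152) (nat_lit 241528014688) (nat_lit 0) (nat_lit 18572307297) (nat_lit 2) (nat_lit 5) (nat_lit 4) (nat_lit 4) (nat_lit 2) (nat_lit 4) (nat_lit 351) (nat_lit 254) (nat_lit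 115)) (XT.lf (nat_lit 0) (nat_lit 81774920960) (nat_lit 152) (nat_lit 236100312896) (nat_lit 0) (nat_lit 29310339332) (nat_lit 2) (nat_lit 5) (nat_lit 4) (nat_lit 4) (nat_lit 2) (nat_lit 4) (nat_lit 352) (nat_lit 254) (nat_lit 114))))))) (XT.nd (nat_lit 30186) (nat_lit 0) (nat_lit 4712) (XT.nd (nat_lit 312) (nat_lit 0) (nat_lit 0) (XT.nd (nat_lit 156) (nat_lit 0) (nat_lit 0) (XT.nd (nat_lit 78) (nat_lit 0) (nat_lit 0) (XT.lf (nat_lit 0) (nat_lit 93051800369) (nat_lit 152) (nat_lit 230403067685) (nat_lit 0) (nat_lit 40584517183) (nat_lit 2) (nat_lit 5) (nat_lit 4) (nat_lit 4) (nat_lit 2) (nat_lit 4) (nat_lit 353) (nat_lit 254) (nat_lit 113)) (XT.lf (nat_lit 0) (nat_lit 104891540228) (nat_lit 152) (nat_lit 224422714185) (nat_lit 0) (nat_lit 52421684129) (nat_lit 2) (nat_lit 5) (nat_lit 4) (nat_lit 4) (nat_lit 2) (nat_lit 4) (nat_lit 354) (nat_lit 254) (nat_lit 112))) (XT.nd (nat_lit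 78) (nat_lit 0) (nat_lit 0) (XT.lf (nat_lit 0) (nat_lit 117322330395) (nat_lit 152) (nat_lit 218145013459) (nat_lit 0) (nat_lit 64850023902) (nat_lit 2) (nat_lit 5) (nat_lit 4) (nat_lit 4) (nat_lit 2) (nat_lit 4) (nat_lit 355) (nat_lit 254) (nat_lit 111)) (XT.lf (nat_lit 0) (nat_lit 130373767987) (nat_lit 152) (nat_lit 211555018601) (nat_lit 0) (nat_lit 77899127786) (nat_lit 2) (nat_lit 5) (nat_lit 4) (nat_lit 4) (nat_lit 2) (nat_lit 4) (nat_lit 356) (nat_lit 254) (nat_lit 110)))) (XT.nd (nat_lit 29640) (nat_lit 0) (nat_lit 5092) (XT.nd (nat_lit 29562) (nat_lit 0) (nat_lit 5776) (XT.lf (nat_lit 0) (nat_lit 144076927858) (nat_lit 152) (nat_lit 204637039147) (nat_lit 0) (nat_lit 91600065078) (nat_lit 2) (nat_lit 5) (nat_lit 4) (nat_lit 4) (nat_lit 2) (nat_lit 4) (nat_lit 357) (nat_lit 254) (nat_lit 109)) (XT.lf (nat_lit 0) (nat_lit 2107660839) (nat_lit 0) (nat_lit 2107660839) (nat_lit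 532) (nat_lit 357921745) (nat_lit 78) (nat_lit 5) (nat_lit 78) (nat_lit 3) (nat_lit 85) (nat_lit 3) (nat_lit 255) (nat_lit 255) (nat_lit 210))) (XT.nd (nat_lit 78) (nat_lit 0) (nat_lit 76) (XT.lf (nat_lit 0) (nat_lit 61491125) (nat_lit 684) (nat_lit 1152108279) (nat_lit 684) (nat_lit 8119842423) (nat_lit 69) (nat_lit 3) (nat_lit 78) (nat_lit 3) (nat_lit 78) (nat_lit 5) (nat_lit 256) (nat_lit 255) (nat_lit 209)) (XT.nd (nat_lit 78) (nat_lit 0) (nat_lit 0) (XT.lf (nat_lit 0) (nat_lit 880594624) (nat_lit 608) (nat_lit 6691206839) (nat_lit 684) (nat_lit 1956244752) (nat_lit 70) (nat_lit 5) (nat_lit 78) (nat_lit 5) (nat_lit 79) (nat_lit 5) (nat_lit 257) (nat_lit 255) (nat_lit 208)) (XT.lf (nat_lit 0) (nat_lit 1733271164) (nat_lit 608) (nat_lit 2714959051) (nat_lit 684) (nat_lit 5284744834) (nat_lit 70) (nat_lit 5) (nat_lit 78) (nat_lit 5) (nat_lit 79) (nat_lit 5) (nat_lit 258) (nat_lit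 255) (nat_lit 207)))))) (XT.nd (nat_lit 312) (nat_lit 456) (nat_lit 0) (XT.nd (nat_lit 156) (nat_lit 0) (nat_lit 76) (XT.nd (nat_lit 78) (nat_lit 0) (nat_lit 76) (XT.lf (nat_lit 76) (nat_lit 1480267615) (nat_lit 0) (nat_lit 1126559730) (nat_lit 684) (nat_lit 7342625089) (nat_lit 71) (nat_lit 5) (nat_lit 70) (nat_lit 5) (nat_lit 79) (nat_lit 5) (nat_lit 259) (nat_lit 255) (nat_lit 206)) (XT.lf (nat_lit 0) (nat_lit 3564767887) (nat_lit 608) (nat_lit 4261950096) (nat_lit 684) (nat_lit 2348204568) (nat_lit 71) (nat_lit 5) (nat_lit 79) (nat_lit 5) (nat_lit 80) (nat_lit 5) (nat_lit 260) (nat_lit 255) (nat_lit 205))) (XT.nd (nat_lit 78) (nat_lit 0) (nat_lit 0) (XT.lf (nat_lit 76) (nat_lit 112798315) (nat_lit 0) (nat_lit 4437187659) (nat_lit 684) (nat_lit 5862905642) (nat_lit 72) (nat_lit 5) (nat_lit 71) (nat_lit 5) (nat_lit 80) (nat_lit 5) (nat_lit 261) (nat_lit 255) (nat_lit 204)) (XT.lf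 (nat_lit 76) (nat_lit 4826710779) (nat_lit 0) (nat_lit 790598825) (nat_lit 684) (nat_lit 5043992504) (nat_lit 72) (nat_lit 5) (nat_lit 71) (nat_lit 5) (nat_lit 80) (nat_lit 5) (nat_lit 262) (nat_lit 255) (nat_lit 203)))) (XT.nd (nat_lit 156) (nat_lit 608) (nat_lit 0) (XT.nd (nat_lit 78) (nat_lit 0) (nat_lit 0) (XT.lf (nat_lit 0) (nat_lit 6748150960) (nat_lit 608) (nat_lit 1221703025) (nat_lit 684) (nat_lit 2951947951) (nat_lit 72) (nat_lit 5) (nat_lit 80) (nat_lit 5) (nat_lit 81) (nat_lit 5) (nat_lit 263) (nat_lit 255) (nat_lit 202)) (XT.lf (nat_lit 76) (nat_lit 3700201388) (nat_lit 0) (nat_lit 4270554487) (nat_lit 684) (nat_lit 3222977793) (nat_lit 73) (nat_lit 5) (nat_lit 72) (nat_lit 5) (nat_lit 81) (nat_lit 5) (nat_lit 264) (nat_lit 255) (nat_lit 201))) (XT.nd (nat_lit 78) (nat_lit 608) (nat_lit 0) (XT.lf (nat_lit 76) (nat_lit 8883955622) (nat_lit 0) (nat_lit 356990586) (nat_lit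 684) (nat_lit 2239153009) (nat_lit 73) (nat_lit 5) (nat_lit 72) (nat_lit 5) (nat_lit 81) (nat_lit 5) (nat_lit 265) (nat_lit 255) (nat_lit 200)) (XT.nd (nat_lit 78) (nat_lit 76) (nat_lit 0) (XT.lf (nat_lit 0) (nat_lit 2541592310) (nat_lit 608) (nat_lit 8098826197) (nat_lit 684) (nat_lit 1137228285) (nat_lit 65) (nat_lit 5) (nat_lit 73) (nat_lit 5) (nat_lit 74) (nat_lit 5) (nat_lit 266) (nat_lit 255) (nat_lit 199)) (XT.lf (nat_lit 0) (nat_lit 37680586) (nat_lit 684) (nat_lit 4096450903) (nat_lit 76) (nat_lit 7955136940) (nat_lit 64) (nat_lit 5) (nat_lit 73) (nat_lit 5) (nat_lit 65) (nat_lit 5) (nat_lit 267) (nat_lit 255) (nat_lit 198))))))))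
noncomputable def xc159 : XT := (XT.nd (nat_lit 1326) (nat_lit 1140) (nat_lit 0) (XT.nd (nat_lit 624) (nat_lit 1064) (nat_lit 0) (XT.nd (nat_lit 312) (nat_lit 532) (nat_lit 0) (XT.nd (nat_lit 156) (nat_lit 304) (nat_lit 0) (XT.nd (nat_lit 78) (nat_lit 0) (nat_lit 0) (XT.lf (nat_lit 0) (nat_lit 1224007215) (nat_lit 760) (nat_lit 11121058287) (nat_lit 76) (nat_lit 71060581) (nat_lit 55) (nat_lit 5) (nat_lit 65) (nat_lit 5) (nat_lit 56) (nat_lit 5) (nat_lit 268) (nat_lit 255) (nat_lit 197)) (XT.lf (nat_lit 0) (nat_lit 2578532998) (nat_lit 760) (nat_lit 5754309920) (nat_lit 76) (nat_lit 4421164917) (nat_lit 55) (nat_lit 5) (nat_lit 65) (nat_lit 5) (nat_lit 56) (nat_lit 5) (nat_lit 269) (nat_lit 255) (nat_lit 196))) (XT.nd (nat_lit 78) (nat_lit 304) (nat_lit 0) (XT.lf (nat_lit 0) (nat_lit 3972782684) (nat_lit 760) (nat_lit 145818495) (nat_lit 76) (nat_lit 8991702000) (nat_lit 55) (nat_lit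 5) (nat_lit 65) (nat_lit 5) (nat_lit 56) (nat_lit 5) (nat_lit 270) (nat_lit 255) (nat_lit 195)) (XT.lf (nat_lit 0) (nat_lit 5508613803) (nat_lit 380) (nat_lit 7580740310) (nat_lit 76) (nat_lit 391579431) (nat_lit 51) (nat_lit 5) (nat_lit 56) (nat_lit 5) (nat_lit 52) (nat_lit 5) (nat_lit 271) (nat_lit 255) (nat_lit 194)))) (XT.nd (nat_lit 156) (nat_lit 228) (nat_lit 0) (XT.nd (nat_lit 78) (nat_lit 304) (nat_lit 0) (XT.lf (nat_lit 0) (nat_lit 7165490031) (nat_lit 380) (nat_lit 1710293144) (nat_lit 76) (nat_lit 4992207862) (nat_lit 51) (nat_lit 5) (nat_lit 56) (nat_lit 5) (nat_lit 52) (nat_lit 5) (nat_lit 272) (nat_lit 255) (nat_lit 193)) (XT.lf (nat_lit 0) (nat_lit 4575029027) (nat_lit 304) (nat_lit 4377062934) (nat_lit 380) (nat_lit 5320068479) (nat_lit 47) (nat_lit 5) (nat_lit 51) (nat_lit 5) (nat_lit 52) (nat_lit 5) (nat_lit 273) (nat_lit 255) (nat_lit 192))) (XT.nd (nat_lit 78) (nat_lit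 228) (nat_lit 0) (XT.lf (nat_lit 0) (nat_lit 10839097135) (nat_lit 380) (nat_lit 3492925969) (nat_lit 76) (nat_lit 364059770) (nat_lit 47) (nat_lit 5) (nat_lit 52) (nat_lit 5) (nat_lit 48) (nat_lit 5) (nat_lit 274) (nat_lit 255) (nat_lit 191)) (XT.lf (nat_lit 0) (nat_lit 3021740039) (nat_lit 228) (nat_lit 9895000138) (nat_lit 304) (nat_lit 2219740416) (nat_lit 44) (nat_lit 5) (nat_lit 47) (nat_lit 5) (nat_lit 48) (nat_lit 5) (nat_lit 275) (nat_lit 255) (nat_lit 190))))) (XT.nd (nat_lit 312) (nat_lit 684) (nat_lit 0) (XT.nd (nat_lit 156) (nat_lit 0) (nat_lit 0) (XT.nd (nat_lit 78) (nat_lit 380) (nat_lit 0) (XT.lf (nat_lit 0) (nat_lit 9959095253) (nat_lit 228) (nat_lit 5176377951) (nat_lit 304) (nat_lit 461653688) (nat_lit 44) (nat_lit 5) (nat_lit 47) (nat_lit 5) (nat_lit 48) (nat_lit 5) (nat_lit 276) (nat_lit 255) (nat_lit 189)) (XT.lf (nat_lit 0) (nat_lit 1153892194) (nat_lit 304)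 (nat_lit 182826970) (nat_lit 380) (nat_lit 14743252017) (nat_lit 39) (nat_lit 5) (nat_lit 43) (nat_lit 5) (nat_lit 44) (nat_lit 5) (nat_lit 277) (nat_lit 255) (nat_lit 188))) (XT.nd (nat_lit 78) (nat_lit 0) (nat_lit 0) (XT.lf (nat_lit 0) (nat_lit 3364827880) (nat_lit 380) (nat_lit 8213790821) (nat_lit 76) (nat_lit 5000270946) (nat_lit 39) (nat_lit 5) (nat_lit 44) (nat_lit 5) (nat_lit 40) (nat_lit 5) (nat_lit 278) (nat_lit 255) (nat_lit 187)) (XT.lf (nat_lit 0) (nat_lit 5477602693) (nat_lit 380) (nat_lit 1192331876) (nat_lit 76) (nat_lit 10433729727) (nat_lit 39) (nat_lit 5) (nat_lit 44) (nat_lit 5) (nat_lit 40) (nat_lit 5) (nat_lit 279) (nat_lit 255) (nat_lit 186)))) (XT.nd (nat_lit 156) (nat_lit 456) (nat_lit 0) (XT.nd (nat_lit 78) (nat_lit 0) (nat_lit 0) (XT.lf (nat_lit 0) (nat_lit 6361477043) (nat_lit 228) (nat_lit 1415063021) (nat_lit 304) (nat_lit 9874181224) (nat_lit 36) (nat_lit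 5) (nat_lit 39) (nat_lit 5) (nat_lit 40) (nat_lit 5) (nat_lit 280) (nat_lit 255) (nat_lit 185)) (XT.lf (nat_lit 0) (nat_lit 10256697626) (nat_lit 304) (nat_lit 3977023734) (nat_lit 76) (nat_lit 3988162582) (nat_lit 36) (nat_lit 5) (nat_lit 40) (nat_lit 5) (nat_lit 37) (nat_lit 5) (nat_lit 281) (nat_lit 255) (nat_lit 184))) (XT.nd (nat_lit 78) (nat_lit 228) (nat_lit 0) (XT.lf (nat_lit 0) (nat_lit 3776687290) (nat_lit 228) (nat_lit 9148907004) (nat_lit 304) (nat_lit 5892837187) (nat_lit 33) (nat_lit 5) (nat_lit 36) (nat_lit 5) (nat_lit 37) (nat_lit 5) (nat_lit 282) (nat_lit 255) (nat_lit 183)) (XT.nd (nat_lit 78) (nat_lit 228) (nat_lit 0) (XT.lf (nat_lit 0) (nat_lit 12034708431) (nat_lit 228) (nat_lit 3743644169) (nat_lit 304) (nat_lit 3663993255) (nat_lit 33) (nat_lit 5) (nat_lit 36) (nat_lit 5) (nat_lit 37) (nat_lit 5) (nat_lit 283) (nat_lit 255) (nat_lit 182)) (XT.lf (nat_lit 0) (nat_lit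 575198378) (nat_lit 228) (nat_lit 18221496351) (nat_lit 304) (nat_lit 1299671350) (nat_lit 30) (nat_lit 5) (nat_lit 33) (nat_lit 5) (nat_lit 34) (nat_lit 5) (nat_lit 284) (nat_lit 255) (nat_lit 181))))))) (XT.nd (nat_lit 702) (nat_lit 456) (nat_lit 0) (XT.nd (nat_lit 312) (nat_lit 380) (nat_lit 0) (XT.nd (nat_lit 156) (nat_lit 228) (nat_lit 0) (XT.nd (nat_lit 78) (nat_lit 0) (nat_lit 0) (XT.lf (nat_lit 0) (nat_lit 1317824702) (nat_lit 304) (nat_lit 11665822988) (nat_lit 76) (nat_lit 7789927460) (nat_lit 29) (nat_lit 5) (nat_lit 33) (nat_lit 5) (nat_lit 30) (nat_lit 5) (nat_lit 285) (nat_lit 255) (nat_lit 180)) (XT.lf (nat_lit 0) (nat_lit 4007220403) (nat_lit 304) (nat_lit 3459460000) (nat_lit 76) (nat_lit 14017713457) (nat_lit 29) (nat_lit 5) (nat_lit 33) (nat_lit 5) (nat_lit 30) (nat_lit 5) (nat_lit 286) (nat_lit 255) (nat_lit 179))) (XT.nd (nat_lit 78) (nat_lit 0) (nat_lit 0) (XT.lf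 (nat_lit 0) (nat_lit 5307629008) (nat_lit 228) (nat_lit 1591754632) (nat_lit 304) (nat_lit 15328002224) (nat_lit 26) (nat_lit 5) (nat_lit 29) (nat_lit 5) (nat_lit 30) (nat_lit 5) (nat_lit 287) (nat_lit 255) (nat_lit 178)) (XT.lf (nat_lit 0) (nat_lit 10052909355) (nat_lit 304) (nat_lit 8463671278) (nat_lit 76) (nat_lit 4485154116) (nat_lit 26) (nat_lit 5) (nat_lit 30) (nat_lit 5) (nat_lit 27) (nat_lit 5) (nat_lit 288) (nat_lit 255) (nat_lit 177)))) (XT.nd (nat_lit 156) (nat_lit 228) (nat_lit 0) (XT.nd (nat_lit 78) (nat_lit 0) (nat_lit 0) (XT.lf (nat_lit 0) (nat_lit 382478970) (nat_lit 152) (nat_lit 13000124695) (nat_lit 228) (nat_lit 10431315648) (nat_lit 24) (nat_lit 5) (nat_lit 26) (nat_lit 5) (nat_lit 27) (nat_lit 5) (nat_lit 289) (nat_lit 255) (nat_lit 176)) (XT.lf (nat_lit 0) (nat_lit 9946193928) (nat_lit 152) (nat_lit 7062707776) (nat_lit 228) (nat_lit 7651346265) (nat_lit 24)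 (nat_lit 5) (nat_lit 26) (nat_lit 5) (nat_lit 27) (nat_lit 5) (nat_lit 290) (nat_lit 255) (nat_lit 175))) (XT.nd (nat_lit 78) (nat_lit 228) (nat_lit 0) (XT.lf (nat_lit 0) (nat_lit 19970397151) (nat_lit 152) (nat_lit 833529535) (nat_lit 228) (nat_lit 4745634637) (nat_lit 24) (nat_lit 5) (nat_lit 26) (nat_lit 5) (nat_lit 27) (nat_lit 5) (nat_lit 291) (nat_lit 255) (nat_lit 174)) (XT.nd (nat_lit 78) (nat_lit 76) (nat_lit 0) (XT.lf (nat_lit 0) (nat_lit 4035099409) (nat_lit 152) (nat_lit 20893642156) (nat_lit 228) (nat_lit 1547633866) (nat_lit 22) (nat_lit 5) (nat_lit 24) (nat_lit 5) (nat_lit 25) (nat_lit 5) (nat_lit 292) (nat_lit 255) (nat_lit 173)) (XT.lf (nat_lit 0) (nat_lit 1850041912) (nat_lit 228) (nat_lit 13182074666) (nat_lit 76) (nat_lit 12411148334) (nat_lit 21) (nat_lit 5) (nat_lit 24) (nat_lit 5) (nat_lit 22) (nat_lit 5) (nat_lit 293) (nat_lit 255) (nat_lit 172)))))) (XT.nd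 (nat_lit 312) (nat_lit 304) (nat_lit 0) (XT.nd (nat_lit 156) (nat_lit 0) (nat_lit 0) (XT.nd (nat_lit 78) (nat_lit 152) (nat_lit 0) (XT.lf (nat_lit 0) (nat_lit 5354177124) (nat_lit 228) (nat_lit 3502012060) (nat_lit 76) (nat_lit 19601643794) (nat_lit 21) (nat_lit 5) (nat_lit 24) (nat_lit 5) (nat_lit 22) (nat_lit 5) (nat_lit 294) (nat_lit 255) (nat_lit 171)) (XT.lf (nat_lit 0) (nat_lit 6865873289) (nat_lit 152) (nat_lit 2263971132) (nat_lit 228) (nat_lit 20388499214) (nat_lit 19) (nat_lit 5) (nat_lit 21) (nat_lit 5) (nat_lit 22) (nat_lit 5) (nat_lit 295) (nat_lit 255) (nat_lit 170))) (XT.nd (nat_lit 78) (nat_lit 0) (nat_lit 0) (XT.lf (nat_lit 0) (nat_lit 13216621278) (nat_lit 228) (nat_lit 12845027894) (nat_lit 76) (nat_lit 4564143347) (nat_lit 19) (nat_lit 5) (nat_lit 22) (nat_lit 5) (nat_lit 20) (nat_lit 5) (nat_lit 296) (nat_lit 255) (nat_lit 169)) (XT.lf (nat_lit 0) (nat_lit 17534683111)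 (nat_lit 228) (nat_lit 2599712228) (nat_lit 76) (nat_lit 11652898826) (nat_lit 19) (nat_lit 5) (nat_lit 22) (nat_lit 5) (nat_lit 20) (nat_lit 5) (nat_lit 297) (nat_lit 255) (nat_lit 168)))) (XT.nd (nat_lit 156) (nat_lit 152) (nat_lit 0) (XT.nd (nat_lit 78) (nat_lit 0) (nat_lit 0) (XT.lf (nat_lit 0) (nat_lit 8412468731) (nat_lit 152) (nat_lit 13777837566) (nat_lit 228) (nat_lit 10810507991) (nat_lit 17) (nat_lit 5) (nat_lit 19) (nat_lit 5) (nat_lit 20) (nat_lit 5) (nat_lit 298) (nat_lit 255) (nat_lit 167)) (XT.lf (nat_lit 0) (nat_lit 20051099174) (nat_lit 152) (nat_lit 7062190974) (nat_lit 228) (nat_lit 7160016348) (nat_lit 17) (nat_lit 5) (nat_lit 19) (nat_lit 5) (nat_lit 20) (nat_lit 5) (nat_lit 299) (nat_lit 255) (nat_lit 166))) (XT.nd (nat_lit 78) (nat_lit 152) (nat_lit 0) (XT.lf (nat_lit 0) (nat_lit 32257931899) (nat_lit 152) (nat_lit 15493312) (nat_lit 228) (nat_lit 3336471865)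 (nat_lit 17) (nat_lit 5) (nat_lit 19) (nat_lit 5) (nat_lit 20) (nat_lit 5) (nat_lit 300) (nat_lit 255) (nat_lit 165)) (XT.nd (nat_lit 78) (nat_lit 0) (nat_lit 0) (XT.lf (nat_lit 0) (nat_lit 894955740) (nat_lit 152) (nat_lit 28820687522) (nat_lit 76) (nat_lit 7285245391) (nat_lit 15) (nat_lit 5) (nat_lit 17) (nat_lit 5) (nat_lit 16) (nat_lit 5) (nat_lit 301) (nat_lit 255) (nat_lit 164)) (XT.lf (nat_lit 0) (nat_lit 5275184775) (nat_lit 152) (nat_lit 18122667951) (nat_lit 76) (nat_lit 15058395013) (nat_lit 15) (nat_lit 5) (nat_lit 17) (nat_lit 5) (nat_lit 16) (nat_lit 5) (nat_lit 302) (nat_lit 255) (nat_lit 163))))))))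
noncomputable def xc160 : XT := (XT.nd (nat_lit 1326) (nat_lit 304) (nat_lit 0) (XT.nd (nat_lit 624) (nat_lit 304) (nat_lit 0) (XT.nd (nat_lit 312) (nat_lit 76) (nat_lit 0) (XT.nd (nat_lit 156) (nat_lit 0) (nat_lit 0) (XT.nd (nat_lit 78) (nat_lit 152) (nat_lit 0) (XT.lf (nat_lit 0) (nat_lit 9866240150) (nat_lit 152) (nat_lit 6902646509) (nat_lit 76) (nat_lit 23215917009) (nat_lit 15) (nat_lit 5) (nat_lit 17) (nat_lit 5) (nat_lit 16) (nat_lit 5) (nat_lit 303) (nat_lit 255) (nat_lit 162)) (XT.lf (nat_lit 0) (nat_lit 5026986091) (nat_lit 152) (nat_lit 9730552198) (nat_lit 228) (nat_lit 26828733301) (nat_lit 13) (nat_lit 5) (nat_lit 15) (nat_lit 5) (nat_lit 16) (nat_lit 5) (nat_lit 304) (nat_lit 255) (nat_lit 161))) (XT.nd (nat_lit 78) (nat_lit 0) (nat_lit 0) (XT.lf (nat_lit 0) (nat_lit 17780657901) (nat_lit 152) (nat_lit 2222030247) (nat_lit 228) (nat_lit 23259678224) (nat_lit 13) (nat_lit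 5) (nat_lit 15) (nat_lit 5) (nat_lit 16) (nat_lit 5) (nat_lit 305) (nat_lit 255) (nat_lit 160)) (XT.lf (nat_lit 0) (nat_lit 25591177051) (nat_lit 228) (nat_lit 13950475111) (nat_lit 76) (nat_lit 5476576613) (nat_lit 13) (nat_lit 5) (nat_lit 16) (nat_lit 5) (nat_lit 14) (nat_lit 4) (nat_lit 306) (nat_lit 255) (nat_lit 159)))) (XT.nd (nat_lit 156) (nat_lit 0) (nat_lit 0) (XT.nd (nat_lit 78) (nat_lit 76) (nat_lit 0) (XT.lf (nat_lit 0) (nat_lit 31488548693) (nat_lit 228) (nat_lit 1890367868) (nat_lit 76) (nat_lit 13481510972) (nat_lit 13) (nat_lit 5) (nat_lit 16) (nat_lit 5) (nat_lit 14) (nat_lit 4) (nat_lit 307) (nat_lit 255) (nat_lit 158)) (XT.lf (nat_lit 0) (nat_lit 11117860898) (nat_lit 76) (nat_lit 26729872384) (nat_lit 152) (nat_lit 10938671111) (nat_lit 12) (nat_lit 5) (nat_lit 13) (nat_lit 5) (nat_lit 14) (nat_lit 4) (nat_lit 308) (nat_lit 255) (nat_lit 157))) (XT.nd (nat_lit 78)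 (nat_lit 0) (nat_lit 0) (XT.lf (nat_lit 0) (nat_lit 24831578569) (nat_lit 76) (nat_lit 19718827510) (nat_lit 152) (nat_lit 6257012217) (nat_lit 12) (nat_lit 5) (nat_lit 13) (nat_lit 5) (nat_lit 14) (nat_lit 4) (nat_lit 309) (nat_lit 255) (nat_lit 156)) (XT.lf (nat_lit 0) (nat_lit 39220932752) (nat_lit 76) (nat_lit 12361103271) (nat_lit 152) (nat_lit 1347769647) (nat_lit 12) (nat_lit 5) (nat_lit 13) (nat_lit 5) (nat_lit 14) (nat_lit 4) (nat_lit 310) (nat_lit 255) (nat_lit 155))))) (XT.nd (nat_lit 312) (nat_lit 76) (nat_lit 0) (XT.nd (nat_lit 156) (nat_lit 0) (nat_lit 0) (XT.nd (nat_lit 78) (nat_lit 152) (nat_lit 0) (XT.lf (nat_lit 0) (nat_lit 3679097687) (nat_lit 152) (nat_lit 897776289) (nat_lit 76) (nat_lit 50578778830) (nat_lit 11) (nat_lit 5) (nat_lit 13) (nat_lit 5) (nat_lit 12) (nat_lit 5) (nat_lit 311) (nat_lit 255) (nat_lit 154)) (XT.lf (nat_lit 0) (nat_lit 9168052788) (nat_lit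 228) (nat_lit 44605141564) (nat_lit 76) (nat_lit 3705703354) (nat_lit 9) (nat_lit 5) (nat_lit 12) (nat_lit 5) (nat_lit 10) (nat_lit 4) (nat_lit 312) (nat_lit 255) (nat_lit 153))) (XT.nd (nat_lit 78) (nat_lit 0) (nat_lit 0) (XT.lf (nat_lit 0) (nat_lit 15016306156) (nat_lit 228) (nat_lit 32637190544) (nat_lit 76) (nat_lit 12260577102) (nat_lit 9) (nat_lit 5) (nat_lit 12) (nat_lit 5) (nat_lit 10) (nat_lit 4) (nat_lit 313) (nat_lit 255) (nat_lit 152)) (XT.lf (nat_lit 0) (nat_lit 21151606730) (nat_lit 228) (nat_lit 20079794257) (nat_lit 76) (nat_lit 21239886921) (nat_lit 9) (nat_lit 5) (nat_lit 12) (nat_lit 5) (nat_lit 10) (nat_lit 4) (nat_lit 314) (nat_lit 255) (nat_lit 151)))) (XT.nd (nat_lit 156) (nat_lit 0) (nat_lit 0) (XT.nd (nat_lit 78) (nat_lit 76) (nat_lit 0) (XT.lf (nat_lit 0) (nat_lit 27588562370) (nat_lit 228) (nat_lit 6903054140) (nat_lit 76) (nat_lit 30665012120) (nat_lit 9)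 (nat_lit 5) (nat_lit 12) (nat_lit 5) (nat_lit 10) (nat_lit 4) (nat_lit 315) (nat_lit 255) (nat_lit 150)) (XT.lf (nat_lit 0) (nat_lit 7153355032) (nat_lit 76) (nat_lit 27300828045) (nat_lit 152) (nat_lit 33516722359) (nat_lit 8) (nat_lit 5) (nat_lit 9) (nat_lit 5) (nat_lit 10) (nat_lit 4) (nat_lit 316) (nat_lit 255) (nat_lit 149))) (XT.nd (nat_lit 78) (nat_lit 0) (nat_lit 0) (XT.lf (nat_lit 0) (nat_lit 22144254099) (nat_lit 76) (nat_lit 19630977666) (nat_lit 152) (nat_lit 29145066416) (nat_lit 8) (nat_lit 5) (nat_lit 9) (nat_lit 5) (nat_lit 10) (nat_lit 4) (nat_lit 317) (nat_lit 255) (nat_lit 148)) (XT.nd (nat_lit 78) (nat_lit 0) (nat_lit 0) (XT.lf (nat_lit 0) (nat_lit 37877089531) (nat_lit 76) (nat_lit 11580710385) (nat_lit 152) (nat_lit 24559596287) (nat_lit 8) (nat_lit 5) (nat_lit 9) (nat_lit 5) (nat_lit 10) (nat_lit 4) (nat_lit 318) (nat_lit 255) (nat_lit 147)) (XT.lf (nat_lit 0)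 (nat_lit 54389320460) (nat_lit 76) (nat_lit 3130858901) (nat_lit 152) (nat_lit 19749394188) (nat_lit 8) (nat_lit 5) (nat_lit 9) (nat_lit 5) (nat_lit 10) (nat_lit 4) (nat_lit 319) (nat_lit 255) (nat_lit 146))))))) (XT.nd (nat_lit 624) (nat_lit 76) (nat_lit 0) (XT.nd (nat_lit 312) (nat_lit 76) (nat_lit 0) (XT.nd (nat_lit 156) (nat_lit 76) (nat_lit 0) (XT.nd (nat_lit 78) (nat_lit 76) (nat_lit 0) (XT.lf (nat_lit 0) (nat_lit 66071163359) (nat_lit 152) (nat_lit 9053908892) (nat_lit 0) (nat_lit 5555021387) (nat_lit 8) (nat_lit 5) (nat_lit 10) (nat_lit 4) (nat_lit 8) (nat_lit 4) (nat_lit 320) (nat_lit 255) (nat_lit 145)) (XT.lf (nat_lit 0) (nat_lit 5584428898) (nat_lit 76) (nat_lit 69599824569) (nat_lit 76) (nat_lit 9070166189) (nat_lit 7) (nat_lit 4) (nat_lit 8) (nat_lit 5) (nat_lit 8) (nat_lit 4) (nat_lit 321) (nat_lit 255) (nat_lit 144))) (XT.nd (nat_lit 78) (nat_lit 76) (nat_lit 0) (XT.lf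 (nat_lit 0) (nat_lit 21262388815) (nat_lit 76) (nat_lit 63640069352) (nat_lit 76) (nat_lit 3097538203) (nat_lit 7) (nat_lit 4) (nat_lit 8) (nat_lit 5) (nat_lit 8) (nat_lit 4) (nat_lit 322) (nat_lit 255) (nat_lit 143)) (XT.lf (nat_lit 0) (nat_lit 3068387156) (nat_lit 152) (nat_lit 54264597257) (nat_lit 76) (nat_lit 34597584438) (nat_lit 6) (nat_lit 5) (nat_lit 8) (nat_lit 5) (nat_lit 7) (nat_lit 4) (nat_lit 323) (nat_lit 255) (nat_lit 142)))) (XT.nd (nat_lit 156) (nat_lit 76) (nat_lit 0) (XT.nd (nat_lit 78) (nat_lit 0) (nat_lit 0) (XT.lf (nat_lit 0) (nat_lit 9434934878) (nat_lit 152) (nat_lit 41224850410) (nat_lit 76) (nat_lit 45395530911) (nat_lit 6) (nat_lit 5) (nat_lit 8) (nat_lit 5) (nat_lit 7) (nat_lit 4) (nat_lit 324) (nat_lit 255) (nat_lit 141)) (XT.lf (nat_lit 0) (nat_lit 16116403974) (nat_lit 152) (nat_lit 27538958745) (nat_lit 76) (nat_lit 56731114583) (nat_lit 6) (nat_lit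 5) (nat_lit 8) (nat_lit 5) (nat_lit 7) (nat_lit 4) (nat_lit 325) (nat_lit 255) (nat_lit 140))) (XT.nd (nat_lit 78) (nat_lit 76) (nat_lit 0) (XT.lf (nat_lit 0) (nat_lit 23128702705) (nat_lit 152) (nat_lit 13174336806) (nat_lit 76) (nat_lit 68631324937) (nat_lit 6) (nat_lit 5) (nat_lit 8) (nat_lit 5) (nat_lit 7) (nat_lit 4) (nat_lit 326) (nat_lit 255) (nat_lit 139)) (XT.lf (nat_lit 0) (nat_lit 1966145833) (nat_lit 76) (nat_lit 28553078233) (nat_lit 152) (nat_lit 79189047021) (nat_lit 5) (nat_lit 5) (nat_lit 6) (nat_lit 5) (nat_lit 7) (nat_lit 4) (nat_lit 327) (nat_lit 255) (nat_lit 138))))) (XT.nd (nat_lit 312) (nat_lit 76) (nat_lit 0) (XT.nd (nat_lit 156) (nat_lit 0) (nat_lit 0) (XT.nd (nat_lit 78) (nat_lit 0) (nat_lit 0) (XT.lf (nat_lit 0) (nat_lit 18315821961) (nat_lit 76) (nat_lit 20183539660) (nat_lit 152) (nat_lit 76210512190) (nat_lit 5) (nat_lit 5) (nat_lit 6) (nat_lit 5) (nat_lit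 7) (nat_lit 4) (nat_lit 328) (nat_lit 255) (nat_lit 137)) (XT.lf (nat_lit 0) (nat_lit 35478016307) (nat_lit 76) (nat_lit 11397610086) (nat_lit 152) (nat_lit 73086079269) (nat_lit 5) (nat_lit 5) (nat_lit 6) (nat_lit 5) (nat_lit 7) (nat_lit 4) (nat_lit 329) (nat_lit 255) (nat_lit 136))) (XT.nd (nat_lit 78) (nat_lit 0) (nat_lit 0) (XT.lf (nat_lit 0) (nat_lit 53493591236) (nat_lit 76) (nat_lit 2174370633) (nat_lit 152) (nat_lit 69808309131) (nat_lit 5) (nat_lit 5) (nat_lit 6) (nat_lit 5) (nat_lit 7) (nat_lit 4) (nat_lit 330) (nat_lit 255) (nat_lit 135)) (XT.lf (nat_lit 0) (nat_lit 65014525271) (nat_lit 152) (nat_lit 58978481857) (nat_lit 0) (nat_lit 7267831463) (nat_lit 5) (nat_lit 5) (nat_lit 7) (nat_lit 4) (nat_lit 5) (nat_lit 4) (nat_lit 331) (nat_lit 255) (nat_lit 134)))) (XT.nd (nat_lit 156) (nat_lit 76) (nat_lit 0) (XT.nd (nat_lit 78) (nat_lit 0) (nat_lit 0) (XT.lf (nat_lit 0) (nat_lit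 74861546571) (nat_lit 152) (nat_lit 45364109508) (nat_lit 0) (nat_lit 17107326321) (nat_lit 5) (nat_lit 5) (nat_lit 7) (nat_lit 4) (nat_lit 5) (nat_lit 4) (nat_lit 332) (nat_lit 255) (nat_lit 133)) (XT.lf (nat_lit 0) (nat_lit 85198523039) (nat_lit 152) (nat_lit 31073199527) (nat_lit 0) (nat_lit 27437134750) (nat_lit 5) (nat_lit 5) (nat_lit 7) (nat_lit 4) (nat_lit 5) (nat_lit 4) (nat_lit 333) (nat_lit 255) (nat_lit 132))) (XT.nd (nat_lit 78) (nat_lit 76) (nat_lit 0) (XT.lf (nat_lit 0) (nat_lit 96050066524) (nat_lit 152) (nat_lit 16071725937) (nat_lit 0) (nat_lit 38281851530) (nat_lit 5) (nat_lit 5) (nat_lit 7) (nat_lit 4) (nat_lit 5) (nat_lit 4) (nat_lit 334) (nat_lit 255) (nat_lit 131)) (XT.nd (nat_lit 78) (nat_lit 76) (nat_lit 0) (XT.lf (nat_lit 0) (nat_lit 107442014034) (nat_lit 152) (nat_lit 323970943) (nat_lit 0) (nat_lit 49667297417) (nat_lit 5) (nat_lit 5) (nat_lit 7) (nat_lit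 4) (nat_lit 5) (nat_lit 4) (nat_lit 335) (nat_lit 255) (nat_lit 130)) (XT.lf (nat_lit 0) (nat_lit 16743455240) (nat_lit 76) (nat_lit 102919446273) (nat_lit 76) (nat_lit 45138537633) (nat_lit 4) (nat_lit 4) (nat_lit 5) (nat_lit 5) (nat_lit 5) (nat_lit 4) (nat_lit 336) (nat_lit 255) (nat_lit 129))))))))
noncomputable def xc161 : XT := (XT.nd (nat_lit 1326) (nat_lit 0) (nat_lit 0) (XT.nd (nat_lit 624) (nat_lit 76) (nat_lit 0) (XT.nd (nat_lit 312) (nat_lit 76) (nat_lit 0) (XT.nd (nat_lit 156) (nat_lit 0) (nat_lit 0) (XT.nd (nat_lit 78) (nat_lit 0) (nat_lit 0) (XT.lf (nat_lit 0) (nat_lit 34671946834) (nat_lit 76) (nat_lit 97826346547) (nat_lit 76) (nat_lit 40039540743) (nat_lit 4) (nat_lit 4) (nat_lit 5) (nat_lit 5) (nat_lit 5) (nat_lit 4) (nat_lit 337) (nat_lit 255) (nat_lit 128)) (XT.lf (nat_lit 0) (nat_lit 53493478781) (nat_lit 76) (nat_lit 92480045977) (nat_lit 76) (nat_lit 34687623827)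 (nat_lit 4) (nat_lit 4) (nat_lit 5) (nat_lit 5) (nat_lit 5) (nat_lit 4) (nat_lit 338) (nat_lit 255) (nat_lit 127))) (XT.nd (nat_lit 78) (nat_lit 0) (nat_lit 0) (XT.lf (nat_lit 0) (nat_lit 73252864252) (nat_lit 76) (nat_lit 86867815276) (nat_lit 76) (nat_lit 29070044224) (nat_lit 4) (nat_lit 4) (nat_lit 5) (nat_lit 5) (nat_lit 5) (nat_lit 4) (nat_lit 339) (nat_lit 255) (nat_lit 126)) (XT.lf (nat_lit 0) (nat_lit 93997149402) (nat_lit 76) (nat_lit 80976291989) (nat_lit 76) (nat_lit 23173426745) (nat_lit 4) (nat_lit 4) (nat_lit 5) (nat_lit 5) (nat_lit 5) (nat_lit 4) (nat_lit 340) (nat_lit 255) (nat_lit 125)))) (XT.nd (nat_lit 156) (nat_lit 76) (nat_lit 0) (XT.nd (nat_lit 78) (nat_lit 0) (nat_lit 0) (XT.lf (nat_lit 0) (nat_lit 115775725387) (nat_lit 76) (nat_lit 74791448681) (nat_lit 76) (nat_lit 16983731825) (nat_lit 4) (nat_lit 4) (nat_lit 5) (nat_lit 5) (nat_lit 5) (nat_lit 4) (nat_lit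 341) (nat_lit 255) (nat_lit 124)) (XT.lf (nat_lit 0) (nat_lit 138640445959) (nat_lit 76) (nat_lit 68298559533) (nat_lit 76) (nat_lit 10486222096) (nat_lit 4) (nat_lit 4) (nat_lit 5) (nat_lit 5) (nat_lit 5) (nat_lit 4) (nat_lit 342) (nat_lit 255) (nat_lit 123))) (XT.nd (nat_lit 78) (nat_lit 76) (nat_lit 0) (XT.lf (nat_lit 0) (nat_lit 162645750928) (nat_lit 76) (nat_lit 61482165287) (nat_lit 76) (nat_lit 3665427294) (nat_lit 4) (nat_lit 4) (nat_lit 5) (nat_lit 5) (nat_lit 5) (nat_lit 4) (nat_lit 343) (nat_lit 255) (nat_lit 122)) (XT.lf (nat_lit 0) (nat_lit 3383034177) (nat_lit 152) (nat_lit 50885708933) (nat_lit 76) (nat_lit 184408468287) (nat_lit 3) (nat_lit 5) (nat_lit 5) (nat_lit 5) (nat_lit 4) (nat_lit 4) (nat_lit 344) (nat_lit 255) (nat_lit 121))))) (XT.nd (nat_lit 312) (nat_lit 0) (nat_lit 0) (XT.nd (nat_lit 156) (nat_lit 76) (nat_lit 0) (XT.nd (nat_lit 78) (nat_lit 0) (nat_lit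 0) (XT.lf (nat_lit 0) (nat_lit 10659339947) (nat_lit 152) (nat_lit 35973273537) (nat_lit 76) (nat_lit 203469726749) (nat_lit 3) (nat_lit 5) (nat_lit 5) (nat_lit 5) (nat_lit 4) (nat_lit 4) (nat_lit 345) (nat_lit 255) (nat_lit 120)) (XT.lf (nat_lit 0) (nat_lit 18298131117) (nat_lit 152) (nat_lit 20317553002) (nat_lit 76) (nat_lit 223483109967) (nat_lit 3) (nat_lit 5) (nat_lit 5) (nat_lit 5) (nat_lit 4) (nat_lit 4) (nat_lit 346) (nat_lit 255) (nat_lit 119))) (XT.nd (nat_lit 78) (nat_lit 76) (nat_lit 0) (XT.lf (nat_lit 0) (nat_lit 26317595286) (nat_lit 152) (nat_lit 3881271804) (nat_lit 76) (nat_lit 244496268853) (nat_lit 3) (nat_lit 5) (nat_lit 5) (nat_lit 5) (nat_lit 4) (nat_lit 4) (nat_lit 347) (nat_lit 255) (nat_lit 118)) (XT.lf (nat_lit 0) (nat_lit 13816932178) (nat_lit 76) (nat_lit 21135615269) (nat_lit 152) (nat_lit 252958023592) (nat_lit 2) (nat_lit 5) (nat_lit 3) (nat_lit 5) (nat_lit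 4) (nat_lit 4) (nat_lit 348) (nat_lit 255) (nat_lit 117)))) (XT.nd (nat_lit 156) (nat_lit 0) (nat_lit 0) (XT.nd (nat_lit 78) (nat_lit 0) (nat_lit 0) (XT.lf (nat_lit 0) (nat_lit 32532710144) (nat_lit 76) (nat_lit 11551086927) (nat_lit 152) (nat_lit 257699755125) (nat_lit 2) (nat_lit 5) (nat_lit 3) (nat_lit 5) (nat_lit 4) (nat_lit 4) (nat_lit 349) (nat_lit 255) (nat_lit 116)) (XT.lf (nat_lit 0) (nat_lit 52182291094) (nat_lit 76) (nat_lit 1488192973) (nat_lit 152) (nat_lit 262679756311) (nat_lit 2) (nat_lit 5) (nat_lit 3) (nat_lit 5) (nat_lit 4) (nat_lit 4) (nat_lit 350) (nat_lit 255) (nat_lit 115))) (XT.nd (nat_lit 78) (nat_lit 0) (nat_lit 0) (XT.lf (nat_lit 0) (nat_lit 63877151694) (nat_lit 152) (nat_lit 258974576244) (nat_lit 0) (nat_lit 8786504348) (nat_lit 2) (nat_lit 5) (nat_lit 4) (nat_lit 4) (nat_lit 2) (nat_lit 4) (nat_lit 351) (nat_lit 255) (nat_lit 114)) (XT.nd (nat_lit 78)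 (nat_lit 0) (nat_lit 0) (XT.lf (nat_lit 0) (nat_lit 74617516611) (nat_lit 152) (nat_lit 253547772827) (nat_lit 0) (nat_lit 19524167707) (nat_lit 2) (nat_lit 5) (nat_lit 4) (nat_lit 4) (nat_lit 2) (nat_lit 4) (nat_lit 352) (nat_lit 255) (nat_lit 113)) (XT.lf (nat_lit 0) (nat_lit 85893916254) (nat_lit 152) (nat_lit 247851383212) (nat_lit 0) (nat_lit 30797994437) (nat_lit 2) (nat_lit 5) (nat_lit 4) (nat_lit 4) (nat_lit 2) (nat_lit 4) (nat_lit 353) (nat_lit 255) (nat_lit 112))))))) (XT.nd (nat_lit 30264) (nat_lit 0) (nat_lit 4028) (XT.nd (nat_lit 29874) (nat_lit 0) (nat_lit 5092) (XT.nd (nat_lit 156) (nat_lit 0) (nat_lit 0) (XT.nd (nat_lit 78) (nat_lit 0) (nat_lit 0) (XT.lf (nat_lit 0) (nat_lit 97733199194) (nat_lit 152) (nat_lit 241871844565) (nat_lit 0) (nat_lit 42634826982) (nat_lit 2) (nat_lit 5) (nat_lit 4) (nat_lit 4) (nat_lit 2) (nat_lit 4) (nat_lit 354) (nat_lit 255) (nat_lit 111))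 (XT.lf (nat_lit 0) (nat_lit 110163554198) (nat_lit 152) (nat_lit 235594919890) (nat_lit 0) (nat_lit 55062848279) (nat_lit 2) (nat_lit 5) (nat_lit 4) (nat_lit 4) (nat_lit 2) (nat_lit 4) (nat_lit 355) (nat_lit 255) (nat_lit 110))) (XT.nd (nat_lit 78) (nat_lit 0) (nat_lit 0) (XT.lf (nat_lit 0) (nat_lit 123214577351) (nat_lit 152) (nat_lit 229005664128) (nat_lit 0) (nat_lit 68111648852) (nat_lit 2) (nat_lit 5) (nat_lit 4) (nat_lit 4) (nat_lit 2) (nat_lit 4) (nat_lit 356) (nat_lit 255) (nat_lit 109)) (XT.lf (nat_lit 0) (nat_lit 136917342516) (nat_lit 152) (nat_lit 222088388575) (nat_lit 0) (nat_lit 81812297276) (nat_lit 2) (nat_lit 5) (nat_lit 4) (nat_lit 4) (nat_lit 2) (nat_lit 4) (nat_lit 357) (nat_lit 255) (nat_lit 108)))) (XT.nd (nat_lit 156) (nat_lit 0) (nat_lit 76) (XT.nd (nat_lit 78) (nat_lit 0) (nat_lit 0) (XT.lf (nat_lit 0) (nat_lit 395908014) (nat_lit 684) (nat_lit 2182335544)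 (nat_lit 684) (nat_lit 2182335544) (nat_lit 69) (nat_lit 3) (nat_lit 78) (nat_lit 3) (nat_lit 78) (nat_lit 5) (nat_lit 256) (nat_lit 256) (nat_lit 208)) (XT.lf (nat_lit 0) (nat_lit 1511608215) (nat_lit 684) (nat_lit 446554455) (nat_lit 684) (nat_lit 7762675306) (nat_lit 69) (nat_lit 3) (nat_lit 78) (nat_lit 3) (nat_lit 78) (nat_lit 5) (nat_lit 257) (nat_lit 256) (nat_lit 207))) (XT.nd (nat_lit 78) (nat_lit 0) (nat_lit 0) (XT.lf (nat_lit 0) (nat_lit 2304506265) (nat_lit 608) (nat_lit 6188853210) (nat_lit 684) (nat_lit 1435500845) (nat_lit 70) (nat_lit 5) (nat_lit 78) (nat_lit 5) (nat_lit 79) (nat_lit 5) (nat_lit 258) (nat_lit 256) (nat_lit 206)) (XT.nd (nat_lit 78) (nat_lit 0) (nat_lit 0) (XT.lf (nat_lit 0) (nat_lit 3134107970) (nat_lit 608) (nat_lit 2053646079) (nat_lit 684) (nat_lit 4959880985) (nat_lit 70) (nat_lit 5) (nat_lit 78) (nat_lit 5) (nat_lit 79) (nat_lit 5) (nat_lit 259)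 (nat_lit 256) (nat_lit 205)) (XT.lf (nat_lit 76) (nat_lit 2338486099) (nat_lit 0) (nat_lit 1662519822) (nat_lit 684) (nat_lit 6376746222) (nat_lit 71) (nat_lit 5) (nat_lit 70) (nat_lit 5) (nat_lit 79) (nat_lit 5) (nat_lit 260) (nat_lit 256) (nat_lit 204)))))) (XT.nd (nat_lit 312) (nat_lit 1216) (nat_lit 0) (XT.nd (nat_lit 156) (nat_lit 0) (nat_lit 0) (XT.nd (nat_lit 78) (nat_lit 0) (nat_lit 0) (XT.lf (nat_lit 0) (nat_lit 4939528955) (nat_lit 608) (nat_lit 3655174823) (nat_lit 684) (nat_lit 2023442528) (nat_lit 71) (nat_lit 5) (nat_lit 79) (nat_lit 5) (nat_lit 80) (nat_lit 5) (nat_lit 261) (nat_lit 256) (nat_lit 203)) (XT.lf (nat_lit 76) (nat_lit 925087255) (nat_lit 0) (nat_lit 5004537473) (nat_lit 684) (nat_lit 4940879506) (nat_lit 72) (nat_lit 5) (nat_lit 71) (nat_lit 5) (nat_lit 80) (nat_lit 5) (nat_lit 262) (nat_lit 256) (nat_lit 202))) (XT.nd (nat_lit 78) (nat_lit 0) (nat_lit 76)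 (XT.lf (nat_lit 76) (nat_lit 5836283484) (nat_lit 0) (nat_lit 1159167273) (nat_lit 684) (nat_lit 4138886016) (nat_lit 72) (nat_lit 5) (nat_lit 71) (nat_lit 5) (nat_lit 80) (nat_lit 5) (nat_lit 263) (nat_lit 256) (nat_lit 201)) (XT.lf (nat_lit 0) (nat_lit 8125690373) (nat_lit 608) (nat_lit 489069300) (nat_lit 684) (nat_lit 2796205141) (nat_lit 72) (nat_lit 5) (nat_lit 80) (nat_lit 5) (nat_lit 81) (nat_lit 5) (nat_lit 264) (nat_lit 256) (nat_lit 200)))) (XT.nd (nat_lit 156) (nat_lit 1292) (nat_lit 0) (XT.nd (nat_lit 78) (nat_lit 0) (nat_lit 0) (XT.lf (nat_lit 76) (nat_lit 4666128417) (nat_lit 0) (nat_lit 4705959331) (nat_lit 684) (nat_lit 2326506589) (nat_lit 73) (nat_lit 5) (nat_lit 72) (nat_lit 5) (nat_lit 81) (nat_lit 5) (nat_lit 265) (nat_lit 256) (nat_lit 199)) (XT.lf (nat_lit 76) (nat_lit 10071883841) (nat_lit 0) (nat_lit 586151658) (nat_lit 684) (nat_lit 1343853428) (nat_lit 73)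 (nat_lit 5) (nat_lit 72) (nat_lit 5) (nat_lit 81) (nat_lit 5) (nat_lit 266) (nat_lit 256) (nat_lit 198))) (XT.nd (nat_lit 78) (nat_lit 760) (nat_lit 0) (XT.lf (nat_lit 0) (nat_lit 3455025734) (nat_lit 608) (nat_lit 8636112613) (nat_lit 684) (nat_lit 225205217) (nat_lit 65) (nat_lit 5) (nat_lit 73) (nat_lit 5) (nat_lit 74) (nat_lit 5) (nat_lit 267) (nat_lit 256) (nat_lit 197)) (XT.nd (nat_lit 78) (nat_lit 684) (nat_lit 0) (XT.lf (nat_lit 0) (nat_lit 932778071) (nat_lit 684) (nat_lit 3518975948) (nat_lit 76) (nat_lit 8193461718) (nat_lit 64) (nat_lit 5) (nat_lit 73) (nat_lit 5) (nat_lit 65) (nat_lit 5) (nat_lit 268) (nat_lit 256) (nat_lit 196)) (XT.lf (nat_lit 0) (nat_lit 2130764603) (nat_lit 684) (nat_lit 15935867) (nat_lit 760) (nat_lit 10843485425) (nat_lit 55) (nat_lit 5) (nat_lit 64) (nat_lit 5) (nat_lit 65) (nat_lit 5) (nat_lit 269) (nat_lit 256) (nat_lit 195))))))))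
noncomputable def xc162 : XT := (XT.nd (nat_lit 1326) (nat_lit 1064) (nat_lit 0) (XT.nd (nat_lit 624) (nat_lit 1064) (nat_lit 0) (XT.nd (nat_lit 312) (nat_lit 608) (nat_lit 0) (XT.nd (nat_lit 156) (nat_lit 0) (nat_lit 0) (XT.nd (nat_lit 78) (nat_lit 304) (nat_lit 0) (XT.lf (nat_lit 0) (nat_lit 3527692115) (nat_lit 760) (nat_lit 5263036168) (nat_lit 76) (nat_lit 4556471323) (nat_lit 55) (nat_lit 5) (nat_lit 65) (nat_lit 5) (nat_lit 56) (nat_lit 5) (nat_lit 270) (nat_lit 256) (nat_lit 194)) (XT.lf (nat_lit 0) (nat_lit 608252996) (nat_lit 304) (nat_lit 4353839134) (nat_lit 380) (nat_lit 8760862218) (nat_lit 51) (nat_lit 5) (nat_lit 55) (nat_lit 5) (nat_lit 56) (nat_lit 5) (nat_lit 271) (nat_lit 256) (nat_lit 193))) (XT.nd (nat_lit 78) (nat_lit 0) (nat_lit 0) (XT.lf (nat_lit 0) (nat_lit 6539018517) (nat_lit 380) (nat_lit 7188511168) (nat_lit 76) (nat_lit 386529956) (nat_lit 51) (nat_lit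 5) (nat_lit 56) (nat_lit 5) (nat_lit 52) (nat_lit 5) (nat_lit 272) (nat_lit 256) (nat_lit 192)) (XT.lf (nat_lit 0) (nat_lit 8242787412) (nat_lit 380) (nat_lit 1061268603) (nat_lit 76) (nat_lit 5218362592) (nat_lit 51) (nat_lit 5) (nat_lit 56) (nat_lit 5) (nat_lit 52) (nat_lit 5) (nat_lit 273) (nat_lit 256) (nat_lit 191)))) (XT.nd (nat_lit 156) (nat_lit 304) (nat_lit 0) (XT.nd (nat_lit 78) (nat_lit 0) (nat_lit 0) (XT.lf (nat_lit 0) (nat_lit 5526472269) (nat_lit 304) (nat_lit 4569291229) (nat_lit 380) (nat_lit 4852324628) (nat_lit 47) (nat_lit 5) (nat_lit 51) (nat_lit 5) (nat_lit 52) (nat_lit 5) (nat_lit 274) (nat_lit 256) (nat_lit 190)) (XT.lf (nat_lit 0) (nat_lit 12044368780) (nat_lit 380) (nat_lit 2943804231) (nat_lit 76) (nat_lit 406808178) (nat_lit 47) (nat_lit 5) (nat_lit 52) (nat_lit 5) (nat_lit 48) (nat_lit 5) (nat_lit 275) (nat_lit 256) (nat_lit 189))) (XT.nd (nat_lit 78) (nat_lit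 76) (nat_lit 0) (XT.lf (nat_lit 0) (nat_lit 3884921399) (nat_lit 228) (nat_lit 10320503850) (nat_lit 304) (nat_lit 1653127457) (nat_lit 44) (nat_lit 5) (nat_lit 47) (nat_lit 5) (nat_lit 48) (nat_lit 5) (nat_lit 276) (nat_lit 256) (nat_lit 188)) (XT.lf (nat_lit 0) (nat_lit 155456836) (nat_lit 304) (nat_lit 5211158423) (nat_lit 76) (nat_lit 10977145546) (nat_lit 43) (nat_lit 5) (nat_lit 47) (nat_lit 5) (nat_lit 44) (nat_lit 5) (nat_lit 277) (nat_lit 256) (nat_lit 187))))) (XT.nd (nat_lit 312) (nat_lit 532) (nat_lit 0) (XT.nd (nat_lit 156) (nat_lit 228) (nat_lit 0) (XT.nd (nat_lit 78) (nat_lit 0) (nat_lit 0) (XT.lf (nat_lit 0) (nat_lit 1901483723) (nat_lit 304) (nat_lit 107774640) (nat_lit 380) (nat_lit 14842172019) (nat_lit 39) (nat_lit 5) (nat_lit 43) (nat_lit 5) (nat_lit 44) (nat_lit 5) (nat_lit 278) (nat_lit 256) (nat_lit 186)) (XT.lf (nat_lit 0) (nat_lit 4111181407) (nat_lit 380)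 (nat_lit 7937697717) (nat_lit 76) (nat_lit 5327902545) (nat_lit 39) (nat_lit 5) (nat_lit 44) (nat_lit 5) (nat_lit 40) (nat_lit 5) (nat_lit 279) (nat_lit 256) (nat_lit 185))) (XT.nd (nat_lit 78) (nat_lit 228) (nat_lit 0) (XT.lf (nat_lit 0) (nat_lit 6302065812) (nat_lit 380) (nat_lit 597869759) (nat_lit 76) (nat_lit 11029338167) (nat_lit 39) (nat_lit 5) (nat_lit 44) (nat_lit 5) (nat_lit 40) (nat_lit 5) (nat_lit 280) (nat_lit 256) (nat_lit 184)) (XT.lf (nat_lit 0) (nat_lit 7323079948) (nat_lit 228) (nat_lit 1376699158) (nat_lit 304) (nat_lit 9804810385) (nat_lit 36) (nat_lit 5) (nat_lit 39) (nat_lit 5) (nat_lit 40) (nat_lit 5) (nat_lit 281) (nat_lit 256) (nat_lit 183)))) (XT.nd (nat_lit 156) (nat_lit 304) (nat_lit 0) (XT.nd (nat_lit 78) (nat_lit 228) (nat_lit 0) (XT.lf (nat_lit 0) (nat_lit 11280118852) (nat_lit 304) (nat_lit 3537309881) (nat_lit 76) (nat_lit 4288165557) (nat_lit 36) (nat_lit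 5) (nat_lit 40) (nat_lit 5) (nat_lit 37) (nat_lit 5) (nat_lit 282) (nat_lit 256) (nat_lit 182)) (XT.lf (nat_lit 0) (nat_lit 4593787258) (nat_lit 228) (nat_lit 9474168446) (nat_lit 304) (nat_lit 5664827045) (nat_lit 33) (nat_lit 5) (nat_lit 36) (nat_lit 5) (nat_lit 37) (nat_lit 5) (nat_lit 283) (nat_lit 256) (nat_lit 181))) (XT.nd (nat_lit 78) (nat_lit 304) (nat_lit 0) (XT.lf (nat_lit 0) (nat_lit 13234792047) (nat_lit 228) (nat_lit 3804936941) (nat_lit 304) (nat_lit 3349429106) (nat_lit 33) (nat_lit 5) (nat_lit 36) (nat_lit 5) (nat_lit 37) (nat_lit 5) (nat_lit 284) (nat_lit 256) (nat_lit 180)) (XT.nd (nat_lit 78) (nat_lit 76) (nat_lit 0) (XT.lf (nat_lit 0) (nat_lit 1215618835) (nat_lit 228) (nat_lit 18982292979) (nat_lit 304) (nat_lit 878601436) (nat_lit 30) (nat_lit 5) (nat_lit 33) (nat_lit 5) (nat_lit 34) (nat_lit 5) (nat_lit 285) (nat_lit 256) (nat_lit 179)) (XT.lf (nat_lit 0) (nat_lit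 1831808065) (nat_lit 304) (nat_lit 11650311267) (nat_lit 76) (nat_lit 8306276894) (nat_lit 29) (nat_lit 5) (nat_lit 33) (nat_lit 5) (nat_lit 30) (nat_lit 5) (nat_lit 286) (nat_lit 256) (nat_lit 178))))))) (XT.nd (nat_lit 624) (nat_lit 456) (nat_lit 0) (XT.nd (nat_lit 312) (nat_lit 228) (nat_lit 0) (XT.nd (nat_lit 156) (nat_lit 152) (nat_lit 0) (XT.nd (nat_lit 78) (nat_lit 228) (nat_lit 0) (XT.lf (nat_lit 0) (nat_lit 4634335831) (nat_lit 304) (nat_lit 3062144552) (nat_lit 76) (nat_lit 14839411570) (nat_lit 29) (nat_lit 5) (nat_lit 33) (nat_lit 5) (nat_lit 30) (nat_lit 5) (nat_lit 287) (nat_lit 256) (nat_lit 177)) (XT.lf (nat_lit 0) (nat_lit 6134100706) (nat_lit 228) (nat_lit 1525445077) (nat_lit 304) (nat_lit 15657131746) (nat_lit 26) (nat_lit 5) (nat_lit 29) (nat_lit 5) (nat_lit 30) (nat_lit 5) (nat_lit 288) (nat_lit 256) (nat_lit 176))) (XT.nd (nat_lit 78) (nat_lit 152) (nat_lit 0)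 (XT.lf (nat_lit 0) (nat_lit 10953146085) (nat_lit 304) (nat_lit 8333626260) (nat_lit 76) (nat_lit 4843914357) (nat_lit 26) (nat_lit 5) (nat_lit 30) (nat_lit 5) (nat_lit 27) (nat_lit 5) (nat_lit 289) (nat_lit 256) (nat_lit 175)) (XT.lf (nat_lit 0) (nat_lit 945908459) (nat_lit 152) (nat_lit 13492981870) (nat_lit 228) (nat_lit 10545171678) (nat_lit 24) (nat_lit 5) (nat_lit 26) (nat_lit 5) (nat_lit 27) (nat_lit 5) (nat_lit 290) (nat_lit 256) (nat_lit 174)))) (XT.nd (nat_lit 156) (nat_lit 228) (nat_lit 0) (XT.nd (nat_lit 78) (nat_lit 0) (nat_lit 0) (XT.lf (nat_lit 0) (nat_lit 10961889854) (nat_lit 152) (nat_lit 7266177393) (nat_lit 228) (nat_lit 7645618576) (nat_lit 24) (nat_lit 5) (nat_lit 26) (nat_lit 5) (nat_lit 27) (nat_lit 5) (nat_lit 291) (nat_lit 256) (nat_lit 173)) (XT.lf (nat_lit 0) (nat_lit 21462618179) (nat_lit 152) (nat_lit 732667182) (nat_lit 228) (nat_lit 4613111605) (nat_lit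 24) (nat_lit 5) (nat_lit 26) (nat_lit 5) (nat_lit 27) (nat_lit 5) (nat_lit 292) (nat_lit 256) (nat_lit 172))) (XT.nd (nat_lit 78) (nat_lit 76) (nat_lit 0) (XT.lf (nat_lit 0) (nat_lit 4738744830) (nat_lit 152) (nat_lit 21780829511) (nat_lit 228) (nat_lit 1262367403) (nat_lit 22) (nat_lit 5) (nat_lit 24) (nat_lit 5) (nat_lit 25) (nat_lit 5) (nat_lit 293) (nat_lit 256) (nat_lit 171)) (XT.lf (nat_lit 0) (nat_lit 2276868913) (nat_lit 228) (nat_lit 13351196537) (nat_lit 76) (nat_lit 13169709797) (nat_lit 21) (nat_lit 5) (nat_lit 24) (nat_lit 5) (nat_lit 22) (nat_lit 5) (nat_lit 294) (nat_lit 256) (nat_lit 170))))) (XT.nd (nat_lit 312) (nat_lit 304) (nat_lit 0) (XT.nd (nat_lit 156) (nat_lit 0) (nat_lit 0) (XT.nd (nat_lit 78) (nat_lit 152) (nat_lit 0) (XT.lf (nat_lit 0) (nat_lit 5940290652) (nat_lit 228) (nat_lit 3210463270) (nat_lit 76) (nat_lit 20713158409) (nat_lit 21) (nat_lit 5) (nat_lit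 24) (nat_lit 5) (nat_lit 22) (nat_lit 5) (nat_lit 295) (nat_lit 256) (nat_lit 169)) (XT.lf (nat_lit 0) (nat_lit 7668289743) (nat_lit 152) (nat_lit 2228457637) (nat_lit 228) (nat_lit 21081143317) (nat_lit 19) (nat_lit 5) (nat_lit 21) (nat_lit 5) (nat_lit 22) (nat_lit 5) (nat_lit 296) (nat_lit 256) (nat_lit 168))) (XT.nd (nat_lit 78) (nat_lit 0) (nat_lit 0) (XT.lf (nat_lit 0) (nat_lit 14175292866) (nat_lit 228) (nat_lit 13036640149) (nat_lit 76) (nat_lit 4929447978) (nat_lit 19) (nat_lit 5) (nat_lit 22) (nat_lit 5) (nat_lit 20) (nat_lit 5) (nat_lit 297) (nat_lit 256) (nat_lit 167)) (XT.lf (nat_lit 0) (nat_lit 18695074908) (nat_lit 228) (nat_lit 2300517706) (nat_lit 76) (nat_lit 12366112781) (nat_lit 19) (nat_lit 5) (nat_lit 22) (nat_lit 5) (nat_lit 20) (nat_lit 5) (nat_lit 298) (nat_lit 256) (nat_lit 166)))) (XT.nd (nat_lit 156) (nat_lit 152) (nat_lit 0) (XT.nd (nat_lit 78) (nat_lit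 0) (nat_lit 0) (XT.lf (nat_lit 0) (nat_lit 9255350041) (nat_lit 152) (nat_lit 14321214335) (nat_lit 228) (nat_lit 11059719587) (nat_lit 17) (nat_lit 5) (nat_lit 19) (nat_lit 5) (nat_lit 20) (nat_lit 5) (nat_lit 299) (nat_lit 256) (nat_lit 165)) (XT.lf (nat_lit 0) (nat_lit 21455804489) (nat_lit 152) (nat_lit 7276714704) (nat_lit 228) (nat_lit 7240575448) (nat_lit 17) (nat_lit 5) (nat_lit 19) (nat_lit 5) (nat_lit 20) (nat_lit 5) (nat_lit 300) (nat_lit 256) (nat_lit 164))) (XT.nd (nat_lit 78) (nat_lit 152) (nat_lit 0) (XT.lf (nat_lit 0) (nat_lit 34139917007) (nat_lit 228) (nat_lit 3125153426) (nat_lit 76) (nat_lit 112014800) (nat_lit 17) (nat_lit 5) (nat_lit 20) (nat_lit 5) (nat_lit 18) (nat_lit 4) (nat_lit 301) (nat_lit 256) (nat_lit 163)) (XT.nd (nat_lit 78) (nat_lit 0) (nat_lit 0) (XT.lf (nat_lit 0) (nat_lit 1191445646) (nat_lit 152) (nat_lit 29864995718) (nat_lit 76) (nat_lit 7781300834)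 (nat_lit 15) (nat_lit 5) (nat_lit 17) (nat_lit 5) (nat_lit 16) (nat_lit 5) (nat_lit 302) (nat_lit 256) (nat_lit 162)) (XT.lf (nat_lit 0) (nat_lit 5778698414) (nat_lit 152) (nat_lit 18650966891) (nat_lit 76) (nat_lit 15936832072) (nat_lit 15) (nat_lit 5) (nat_lit 17) (nat_lit 5) (nat_lit 16) (nat_lit 5) (nat_lit 303) (nat_lit 256) (nat_lit 161))))))))
noncomputable def xc163 : XT := (XT.nd (nat_lit 1326) (nat_lit 304) (nat_lit 0) (XT.nd (nat_lit 624) (nat_lit 304) (nat_lit 0) (XT.nd (nat_lit 312) (nat_lit 76) (nat_lit 0) (XT.nd (nat_lit 156) (nat_lit 0) (nat_lit 0) (XT.nd (nat_lit 78) (nat_lit 152) (nat_lit 0) (XT.lf (nat_lit 0) (nat_lit 10587889681) (nat_lit 152) (nat_lit 6887936494) (nat_lit 76) (nat_lit 24496253153) (nat_lit 15) (nat_lit 5) (nat_lit 17) (nat_lit 5) (nat_lit 16) (nat_lit 5) (nat_lit 304) (nat_lit 256) (nat_lit 160)) (XT.lf (nat_lit 0) (nat_lit 5632373827) (nat_lit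 152) (nat_lit 10086033216) (nat_lit 228) (nat_lit 27935506964) (nat_lit 13) (nat_lit 5) (nat_lit 15) (nat_lit 5) (nat_lit 16) (nat_lit 5) (nat_lit 305) (nat_lit 256) (nat_lit 159))) (XT.nd (nat_lit 78) (nat_lit 0) (nat_lit 0) (XT.lf (nat_lit 0) (nat_lit 19006870255) (nat_lit 152) (nat_lit 2208325481) (nat_lit 228) (nat_lit 24199173562) (nat_lit 13) (nat_lit 5) (nat_lit 15) (nat_lit 5) (nat_lit 16) (nat_lit 5) (nat_lit 306) (nat_lit 256) (nat_lit 158)) (XT.lf (nat_lit 0) (nat_lit 27074851862) (nat_lit 228) (nat_lit 14318145270) (nat_lit 76) (nat_lit 5865464203) (nat_lit 13) (nat_lit 5) (nat_lit 16) (nat_lit 5) (nat_lit 14) (nat_lit 4) (nat_lit 307) (nat_lit 256) (nat_lit 157)))) (XT.nd (nat_lit 156) (nat_lit 0) (nat_lit 0) (XT.nd (nat_lit 78) (nat_lit 76) (nat_lit 0) (XT.lf (nat_lit 0) (nat_lit 33257372279) (nat_lit 228) (nat_lit 1670739979) (nat_lit 76) (nat_lit 14265166292) (nat_lit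 13) (nat_lit 5) (nat_lit 16) (nat_lit 5) (nat_lit 14) (nat_lit 4) (nat_lit 308) (nat_lit 256) (nat_lit 156)) (XT.lf (nat_lit 0) (nat_lit 11982833349) (nat_lit 76) (nat_lit 27947251384) (nat_lit 152) (nat_lit 11285712543) (nat_lit 12) (nat_lit 5) (nat_lit 13) (nat_lit 5) (nat_lit 14) (nat_lit 4) (nat_lit 309) (nat_lit 256) (nat_lit 155))) (XT.nd (nat_lit 78) (nat_lit 0) (nat_lit 0) (XT.lf (nat_lit 0) (nat_lit 26367518836) (nat_lit 76) (nat_lit 20591326392) (nat_lit 152) (nat_lit 6379489377) (nat_lit 12) (nat_lit 5) (nat_lit 13) (nat_lit 5) (nat_lit 14) (nat_lit 4) (nat_lit 310) (nat_lit 256) (nat_lit 154)) (XT.lf (nat_lit 0) (nat_lit 41462323523) (nat_lit 76) (nat_lit 12871117964) (nat_lit 152) (nat_lit 1233850081) (nat_lit 12) (nat_lit 5) (nat_lit 13) (nat_lit 5) (nat_lit 14) (nat_lit 4) (nat_lit 311) (nat_lit 256) (nat_lit 153))))) (XT.nd (nat_lit 312) (nat_lit 76) (nat_lit 0) (XT.nd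 (nat_lit 156) (nat_lit 0) (nat_lit 0) (XT.nd (nat_lit 78) (nat_lit 152) (nat_lit 0) (XT.lf (nat_lit 0) (nat_lit 4030200246) (nat_lit 152) (nat_lit 669791015) (nat_lit 76) (nat_lit 53204733782) (nat_lit 11) (nat_lit 5) (nat_lit 13) (nat_lit 5) (nat_lit 12) (nat_lit 5) (nat_lit 312) (nat_lit 256) (nat_lit 152)) (XT.lf (nat_lit 0) (nat_lit 9791476100) (nat_lit 228) (nat_lit 46560061343) (nat_lit 76) (nat_lit 3992717906) (nat_lit 9) (nat_lit 5) (nat_lit 12) (nat_lit 5) (nat_lit 10) (nat_lit 4) (nat_lit 313) (nat_lit 256) (nat_lit 151))) (XT.nd (nat_lit 78) (nat_lit 0) (nat_lit 0) (XT.lf (nat_lit 0) (nat_lit 15924284009) (nat_lit 228) (nat_lit 34006824072) (nat_lit 76) (nat_lit 12970491085) (nat_lit 9) (nat_lit 5) (nat_lit 12) (nat_lit 5) (nat_lit 10) (nat_lit 4) (nat_lit 314) (nat_lit 256) (nat_lit 150)) (XT.lf (nat_lit 0) (nat_lit 22358865681) (nat_lit 228) (nat_lit 20834044923) (nat_lit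 76) (nat_lit 22394152818) (nat_lit 9) (nat_lit 5) (nat_lit 12) (nat_lit 5) (nat_lit 10) (nat_lit 4) (nat_lit 315) (nat_lit 256) (nat_lit 149)))) (XT.nd (nat_lit 156) (nat_lit 0) (nat_lit 0) (XT.nd (nat_lit 78) (nat_lit 76) (nat_lit 0) (XT.lf (nat_lit 0) (nat_lit 29110541550) (nat_lit 228) (nat_lit 7010360135) (nat_lit 76) (nat_lit 32286140393) (nat_lit 9) (nat_lit 5) (nat_lit 12) (nat_lit 5) (nat_lit 10) (nat_lit 4) (nat_lit 316) (nat_lit 256) (nat_lit 148)) (XT.lf (nat_lit 0) (nat_lit 7745033258) (nat_lit 76) (nat_lit 28571275449) (nat_lit 152) (nat_lit 35045894579) (nat_lit 8) (nat_lit 5) (nat_lit 9) (nat_lit 5) (nat_lit 10) (nat_lit 4) (nat_lit 317) (nat_lit 256) (nat_lit 147))) (XT.nd (nat_lit 78) (nat_lit 0) (nat_lit 0) (XT.lf (nat_lit 0) (nat_lit 23474333922) (nat_lit 76) (nat_lit 20522437026) (nat_lit 152) (nat_lit 30462639833) (nat_lit 8) (nat_lit 5) (nat_lit 9) (nat_lit 5)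 (nat_lit 10) (nat_lit 4) (nat_lit 318) (nat_lit 256) (nat_lit 146)) (XT.nd (nat_lit 78) (nat_lit 0) (nat_lit 0) (XT.lf (nat_lit 0) (nat_lit 39983198405) (nat_lit 76) (nat_lit 12073946359) (nat_lit 152) (nat_lit 25654547622) (nat_lit 8) (nat_lit 5) (nat_lit 9) (nat_lit 5) (nat_lit 10) (nat_lit 4) (nat_lit 319) (nat_lit 256) (nat_lit 145)) (XT.lf (nat_lit 0) (nat_lit 57310933529) (nat_lit 76) (nat_lit 3205687993) (nat_lit 152) (nat_lit 20610170107) (nat_lit 8) (nat_lit 5) (nat_lit 9) (nat_lit 5) (nat_lit 10) (nat_lit 4) (nat_lit 320) (nat_lit 256) (nat_lit 144))))))) (XT.nd (nat_lit 702) (nat_lit 76) (nat_lit 0) (XT.nd (nat_lit 312) (nat_lit 76) (nat_lit 0) (XT.nd (nat_lit 156) (nat_lit 76) (nat_lit 0) (XT.nd (nat_lit 78) (nat_lit 76) (nat_lit 0) (XT.lf (nat_lit 0) (nat_lit 69490634837) (nat_lit 152) (nat_lit 9309335898) (nat_lit 0) (nat_lit 5908104361) (nat_lit 8) (nat_lit 5) (nat_lit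 10) (nat_lit 4) (nat_lit 8) (nat_lit 4) (nat_lit 321) (nat_lit 256) (nat_lit 143)) (XT.lf (nat_lit 0) (nat_lit 6057737033) (nat_lit 76) (nat_lit 72999152973) (nat_lit 76) (nat_lit 9404362717) (nat_lit 7) (nat_lit 4) (nat_lit 8) (nat_lit 5) (nat_lit 8) (nat_lit 4) (nat_lit 322) (nat_lit 256) (nat_lit 142))) (XT.nd (nat_lit 78) (nat_lit 76) (nat_lit 0) (XT.lf (nat_lit 0) (nat_lit 22510352722) (nat_lit 76) (nat_lit 66745251082) (nat_lit 76) (nat_lit 3138784845) (nat_lit 7) (nat_lit 4) (nat_lit 8) (nat_lit 5) (nat_lit 8) (nat_lit 4) (nat_lit 323) (nat_lit 256) (nat_lit 141)) (XT.lf (nat_lit 0) (nat_lit 3326562124) (nat_lit 152) (nat_lit 56798133864) (nat_lit 76) (nat_lit 36396976312) (nat_lit 6) (nat_lit 5) (nat_lit 8) (nat_lit 5) (nat_lit 7) (nat_lit 4) (nat_lit 324) (nat_lit 256) (nat_lit 140)))) (XT.nd (nat_lit 156) (nat_lit 76) (nat_lit 0) (XT.nd (nat_lit 78) (nat_lit 0) (nat_lit 0)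 (XT.lf (nat_lit 0) (nat_lit 10006448869) (nat_lit 152) (nat_lit 43114956496) (nat_lit 76) (nat_lit 47731509983) (nat_lit 6) (nat_lit 5) (nat_lit 8) (nat_lit 5) (nat_lit 7) (nat_lit 4) (nat_lit 325) (nat_lit 256) (nat_lit 139)) (XT.lf (nat_lit 0) (nat_lit 17017240599) (nat_lit 152) (nat_lit 28752919602) (nat_lit 76) (nat_lit 59630720337) (nat_lit 6) (nat_lit 5) (nat_lit 8) (nat_lit 5) (nat_lit 7) (nat_lit 4) (nat_lit 326) (nat_lit 256) (nat_lit 138))) (XT.nd (nat_lit 78) (nat_lit 76) (nat_lit 0) (XT.lf (nat_lit 0) (nat_lit 24375629675) (nat_lit 152) (nat_lit 13677827855) (nat_lit 76) (nat_lit 72122938826) (nat_lit 6) (nat_lit 5) (nat_lit 8) (nat_lit 5) (nat_lit 7) (nat_lit 4) (nat_lit 327) (nat_lit 256) (nat_lit 137)) (XT.nd (nat_lit 78) (nat_lit 0) (nat_lit 0) (XT.lf (nat_lit 0) (nat_lit 2217175274) (nat_lit 76) (nat_lit 29916577116) (nat_lit 152) (nat_lit 83055349875) (nat_lit 5)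 (nat_lit 5) (nat_lit 6) (nat_lit 5) (nat_lit 7) (nat_lit 4) (nat_lit 328) (nat_lit 256) (nat_lit 136)) (XT.lf (nat_lit 0) (nat_lit 19377062725) (nat_lit 76) (nat_lit 21131616615) (nat_lit 152) (nat_lit 79932323993) (nat_lit 5) (nat_lit 5) (nat_lit 6) (nat_lit 5) (nat_lit 7) (nat_lit 4) (nat_lit 329) (nat_lit 256) (nat_lit 135)))))) (XT.nd (nat_lit 312) (nat_lit 76) (nat_lit 0) (XT.nd (nat_lit 156) (nat_lit 0) (nat_lit 0) (XT.nd (nat_lit 78) (nat_lit 0) (nat_lit 0) (XT.lf (nat_lit 0) (nat_lit 37390440613) (nat_lit 76) (nat_lit 11909300088) (nat_lit 152) (nat_lit 76655893892) (nat_lit 5) (nat_lit 5) (nat_lit 6) (nat_lit 5) (nat_lit 7) (nat_lit 4) (nat_lit 330) (nat_lit 256) (nat_lit 134)) (XT.lf (nat_lit 0) (nat_lit 56300197933) (nat_lit 76) (nat_lit 2227669638) (nat_lit 152) (nat_lit 73218258550) (nat_lit 5) (nat_lit 5) (nat_lit 6) (nat_lit 5) (nat_lit 7) (nat_lit 4) (nat_lit 331) (nat_lit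 256) (nat_lit 133))) (XT.nd (nat_lit 78) (nat_lit 0) (nat_lit 0) (XT.lf (nat_lit 0) (nat_lit 68338939975) (nat_lit 152) (nat_lit 61798815178) (nat_lit 0) (nat_lit 7682314231) (nat_lit 5) (nat_lit 5) (nat_lit 7) (nat_lit 4) (nat_lit 5) (nat_lit 4) (nat_lit 332) (nat_lit 256) (nat_lit 132)) (XT.lf (nat_lit 0) (nat_lit 78674803367) (nat_lit 152) (nat_lit 47509847583) (nat_lit 0) (nat_lit 18011350919) (nat_lit 5) (nat_lit 5) (nat_lit 7) (nat_lit 4) (nat_lit 5) (nat_lit 4) (nat_lit 333) (nat_lit 256) (nat_lit 131)))) (XT.nd (nat_lit 156) (nat_lit 76) (nat_lit 0) (XT.nd (nat_lit 78) (nat_lit 0) (nat_lit 0) (XT.lf (nat_lit 0) (nat_lit 89525286779) (nat_lit 152) (nat_lit 32510223883) (nat_lit 0) (nat_lit 28855332707) (nat_lit 5) (nat_lit 5) (nat_lit 7) (nat_lit 4) (nat_lit 5) (nat_lit 4) (nat_lit 334) (nat_lit 256) (nat_lit 130)) (XT.lf (nat_lit 0) (nat_lit 100916224696) (nat_lit 152) (nat_lit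 16764230690) (nat_lit 0) (nat_lit 40240078602) (nat_lit 5) (nat_lit 5) (nat_lit 7) (nat_lit 4) (nat_lit 5) (nat_lit 4) (nat_lit 335) (nat_lit 256) (nat_lit 129))) (XT.nd (nat_lit 78) (nat_lit 76) (nat_lit 0) (XT.lf (nat_lit 0) (nat_lit 112874738398) (nat_lit 152) (nat_lit 234377544) (nat_lit 0) (nat_lit 52192695140) (nat_lit 5) (nat_lit 5) (nat_lit 7) (nat_lit 4) (nat_lit 5) (nat_lit 4) (nat_lit 336) (nat_lit 256) (nat_lit 128)) (XT.nd (nat_lit 78) (nat_lit 0) (nat_lit 0) (XT.lf (nat_lit 0) (nat_lit 17684713626) (nat_lit 76) (nat_lit 108020694852) (nat_lit 76) (nat_lit 47333035247) (nat_lit 4) (nat_lit 4) (nat_lit 5) (nat_lit 5) (nat_lit 5) (nat_lit 4) (nat_lit 337) (nat_lit 256) (nat_lit 127)) (XT.lf (nat_lit 0) (nat_lit 36504673342) (nat_lit 76) (nat_lit 102675069842) (nat_lit 76) (nat_lit 41982061336) (nat_lit 4) (nat_lit 4) (nat_lit 5) (nat_lit 5) (nat_lit 5) (nat_lit 4) (nat_lit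 338) (nat_lit 256) (nat_lit 126))))))))
noncomputable def xc164 : XT := (XT.nd (nat_lit 1326) (nat_lit 0) (nat_lit 0) (XT.nd (nat_lit 624) (nat_lit 76) (nat_lit 0) (XT.nd (nat_lit 312) (nat_lit 76) (nat_lit 0) (XT.nd (nat_lit 156) (nat_lit 0) (nat_lit 0) (XT.nd (nat_lit 78) (nat_lit 0) (nat_lit 0) (XT.lf (nat_lit 0) (nat_lit 56262561450) (nat_lit 76) (nat_lit 97063482531) (nat_lit 76) (nat_lit 36365379832) (nat_lit 4) (nat_lit 4) (nat_lit 5) (nat_lit 5) (nat_lit 5) (nat_lit 4) (nat_lit 339) (nat_lit 256) (nat_lit 125)) (XT.lf (nat_lit 0) (nat_lit 77005420540) (nat_lit 76) (nat_lit 91172571997) (nat_lit 76) (nat_lit 30469617687) (nat_lit 4) (nat_lit 4) (nat_lit 5) (nat_lit 5) (nat_lit 5) (nat_lit 4) (nat_lit 340) (nat_lit 256) (nat_lit 124))) (XT.nd (nat_lit 78) (nat_lit 0) (nat_lit 0) (XT.lf (nat_lit 0) (nat_lit 98782638372) (nat_lit 76) (nat_lit 84988312262) (nat_lit 76) (nat_lit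 24280737370) (nat_lit 4) (nat_lit 4) (nat_lit 5) (nat_lit 5) (nat_lit 5) (nat_lit 4) (nat_lit 341) (nat_lit 256) (nat_lit 123)) (XT.lf (nat_lit 0) (nat_lit 121646065466) (nat_lit 76) (nat_lit 78495978899) (nat_lit 76) (nat_lit 17784003452) (nat_lit 4) (nat_lit 4) (nat_lit 5) (nat_lit 5) (nat_lit 5) (nat_lit 4) (nat_lit 342) (nat_lit 256) (nat_lit 122)))) (XT.nd (nat_lit 156) (nat_lit 76) (nat_lit 0) (XT.nd (nat_lit 78) (nat_lit 0) (nat_lit 0) (XT.lf (nat_lit 0) (nat_lit 145650138552) (nat_lit 76) (nat_lit 71680113971) (nat_lit 76) (nat_lit 10963947520) (nat_lit 4) (nat_lit 4) (nat_lit 5) (nat_lit 5) (nat_lit 5) (nat_lit 4) (nat_lit 343) (nat_lit 256) (nat_lit 121)) (XT.lf (nat_lit 0) (nat_lit 170852010185) (nat_lit 76) (nat_lit 64524489228) (nat_lit 76) (nat_lit 3804331344) (nat_lit 4) (nat_lit 4) (nat_lit 5) (nat_lit 5) (nat_lit 5) (nat_lit 4) (nat_lit 344) (nat_lit 256) (nat_lit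 120))) (XT.nd (nat_lit 78) (nat_lit 0) (nat_lit 0) (XT.lf (nat_lit 0) (nat_lit 3593088060) (nat_lit 152) (nat_lit 53358128723) (nat_lit 76) (nat_lit 193657746075) (nat_lit 3) (nat_lit 5) (nat_lit 5) (nat_lit 5) (nat_lit 4) (nat_lit 4) (nat_lit 345) (nat_lit 256) (nat_lit 119)) (XT.lf (nat_lit 0) (nat_lit 11231261396) (nat_lit 152) (nat_lit 37703493731) (nat_lit 76) (nat_lit 213670693443) (nat_lit 3) (nat_lit 5) (nat_lit 5) (nat_lit 5) (nat_lit 4) (nat_lit 4) (nat_lit 346) (nat_lit 256) (nat_lit 118))))) (XT.nd (nat_lit 312) (nat_lit 0) (nat_lit 0) (XT.nd (nat_lit 156) (nat_lit 76) (nat_lit 0) (XT.nd (nat_lit 78) (nat_lit 0) (nat_lit 0) (XT.lf (nat_lit 0) (nat_lit 19250137151) (nat_lit 152) (nat_lit 21268246383) (nat_lit 76) (nat_lit 234683437233) (nat_lit 3) (nat_lit 5) (nat_lit 5) (nat_lit 5) (nat_lit 4) (nat_lit 4) (nat_lit 347) (nat_lit 256) (nat_lit 117)) (XT.lf (nat_lit 0) (nat_lit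 27668807887) (nat_lit 152) (nat_lit 4013255138) (nat_lit 76) (nat_lit 256746007789) (nat_lit 3) (nat_lit 5) (nat_lit 5) (nat_lit 5) (nat_lit 4) (nat_lit 4) (nat_lit 348) (nat_lit 256) (nat_lit 116))) (XT.nd (nat_lit 78) (nat_lit 0) (nat_lit 0) (XT.lf (nat_lit 0) (nat_lit 14568857749) (nat_lit 76) (nat_lit 22165921005) (nat_lit 152) (nat_lit 265569537988) (nat_lit 2) (nat_lit 5) (nat_lit 3) (nat_lit 5) (nat_lit 4) (nat_lit 4) (nat_lit 349) (nat_lit 256) (nat_lit 115)) (XT.lf (nat_lit 0) (nat_lit 34217516091) (nat_lit 76) (nat_lit 12103426961) (nat_lit 152) (nat_lit 270550088802) (nat_lit 2) (nat_lit 5) (nat_lit 3) (nat_lit 5) (nat_lit 4) (nat_lit 4) (nat_lit 350) (nat_lit 256) (nat_lit 114)))) (XT.nd (nat_lit 156) (nat_lit 0) (nat_lit 0) (XT.nd (nat_lit 78) (nat_lit 0) (nat_lit 0) (XT.lf (nat_lit 0) (nat_lit 54846806068) (nat_lit 76) (nat_lit 1538588991) (nat_lit 152) (nat_lit 275780740242)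 (nat_lit 2) (nat_lit 5) (nat_lit 3) (nat_lit 5) (nat_lit 4) (nat_lit 4) (nat_lit 351) (nat_lit 256) (nat_lit 113)) (XT.lf (nat_lit 0) (nat_lit 67101258525) (nat_lit 152) (nat_lit 271869359727) (nat_lit 0) (nat_lit 9247967703) (nat_lit 2) (nat_lit 5) (nat_lit 4) (nat_lit 4) (nat_lit 2) (nat_lit 4) (nat_lit 352) (nat_lit 256) (nat_lit 112))) (XT.nd (nat_lit 78) (nat_lit 0) (nat_lit 0) (XT.lf (nat_lit 0) (nat_lit 78377201248) (nat_lit 152) (nat_lit 266173784965) (nat_lit 0) (nat_lit 20521460033) (nat_lit 2) (nat_lit 5) (nat_lit 4) (nat_lit 4) (nat_lit 2) (nat_lit 4) (nat_lit 353) (nat_lit 256) (nat_lit 111)) (XT.nd (nat_lit 78) (nat_lit 0) (nat_lit 0) (XT.lf (nat_lit 0) (nat_lit 90216049025) (nat_lit 152) (nat_lit 260195022369) (nat_lit 0) (nat_lit 32357974102) (nat_lit 2) (nat_lit 5) (nat_lit 4) (nat_lit 4) (nat_lit 2) (nat_lit 4) (nat_lit 354) (nat_lit 256) (nat_lit 110)) (XT.lf (nat_lit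 0) (nat_lit 102645989589) (nat_lit 152) (nat_lit 253918836790) (nat_lit 0) (nat_lit 44785692087) (nat_lit 2) (nat_lit 5) (nat_lit 4) (nat_lit 4) (nat_lit 2) (nat_lit 4) (nat_lit 355) (nat_lit 256) (nat_lit 109))))))) (XT.nd (nat_lit 30264) (nat_lit 0) (nat_lit 4028) (XT.nd (nat_lit 29952) (nat_lit 0) (nat_lit 5168) (XT.nd (nat_lit 29796) (nat_lit 0) (nat_lit 5092) (XT.nd (nat_lit 78) (nat_lit 0) (nat_lit 0) (XT.lf (nat_lit 0) (nat_lit 115696618038) (nat_lit 152) (nat_lit 247330284929) (nat_lit 0) (nat_lit 57834203793) (nat_lit 2) (nat_lit 5) (nat_lit 4) (nat_lit 4) (nat_lit 2) (nat_lit 4) (nat_lit 356) (nat_lit 256) (nat_lit 108)) (XT.lf (nat_lit 0) (nat_lit 129399007294) (nat_lit 152) (nat_lit 240413679758) (nat_lit 0) (nat_lit 71534577105) (nat_lit 2) (nat_lit 5) (nat_lit 4) (nat_lit 4) (nat_lit 2) (nat_lit 4) (nat_lit 357) (nat_lit 256) (nat_lit 107))) (XT.nd (nat_lit 78) (nat_lit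 0) (nat_lit 0) (XT.lf (nat_lit 0) (nat_lit 1104771288) (nat_lit 684) (nat_lit 1928043161) (nat_lit 684) (nat_lit 1928043161) (nat_lit 69) (nat_lit 3) (nat_lit 78) (nat_lit 3) (nat_lit 78) (nat_lit 5) (nat_lit 257) (nat_lit 257) (nat_lit 206)) (XT.lf (nat_lit 76) (nat_lit 230709904) (nat_lit 0) (nat_lit 2672590983) (nat_lit 684) (nat_lit 7231493270) (nat_lit 70) (nat_lit 5) (nat_lit 69) (nat_lit 3) (nat_lit 78) (nat_lit 5) (nat_lit 258) (nat_lit 257) (nat_lit 205)))) (XT.nd (nat_lit 156) (nat_lit 0) (nat_lit 0) (XT.nd (nat_lit 78) (nat_lit 0) (nat_lit 0) (XT.lf (nat_lit 0) (nat_lit 3671325147) (nat_lit 608) (nat_lit 5739190228) (nat_lit 684) (nat_lit 946227230) (nat_lit 70) (nat_lit 5) (nat_lit 78) (nat_lit 5) (nat_lit 79) (nat_lit 5) (nat_lit 259) (nat_lit 257) (nat_lit 204)) (XT.lf (nat_lit 0) (nat_lit 4482807244) (nat_lit 608) (nat_lit 1433370628) (nat_lit 684) (nat_lit 4673542980)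 (nat_lit 70) (nat_lit 5) (nat_lit 78) (nat_lit 5) (nat_lit 79) (nat_lit 5) (nat_lit 260) (nat_lit 257) (nat_lit 203))) (XT.nd (nat_lit 78) (nat_lit 0) (nat_lit 76) (XT.lf (nat_lit 76) (nat_lit 3166707550) (nat_lit 0) (nat_lit 2180686271) (nat_lit 684) (nat_lit 5486504058) (nat_lit 71) (nat_lit 5) (nat_lit 70) (nat_lit 5) (nat_lit 79) (nat_lit 5) (nat_lit 261) (nat_lit 257) (nat_lit 202)) (XT.lf (nat_lit 0) (nat_lit 6271786739) (nat_lit 608) (nat_lit 3094284785) (nat_lit 684) (nat_lit 1723551371) (nat_lit 71) (nat_lit 5) (nat_lit 79) (nat_lit 5) (nat_lit 80) (nat_lit 5) (nat_lit 262) (nat_lit 257) (nat_lit 201))))) (XT.nd (nat_lit 312) (nat_lit 1216) (nat_lit 0) (XT.nd (nat_lit 156) (nat_lit 0) (nat_lit 76) (XT.nd (nat_lit 78) (nat_lit 0) (nat_lit 0) (XT.lf (nat_lit 76) (nat_lit 1702996061) (nat_lit 0) (nat_lit 5568134352) (nat_lit 684) (nat_lit 4085727183) (nat_lit 72) (nat_lit 5)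 (nat_lit 71) (nat_lit 5) (nat_lit 80) (nat_lit 5) (nat_lit 263) (nat_lit 257) (nat_lit 200)) (XT.lf (nat_lit 76) (nat_lit 6824911414) (nat_lit 0) (nat_lit 1515573261) (nat_lit 684) (nat_lit 3296119557) (nat_lit 72) (nat_lit 5) (nat_lit 71) (nat_lit 5) (nat_lit 80) (nat_lit 5) (nat_lit 264) (nat_lit 257) (nat_lit 199))) (XT.nd (nat_lit 78) (nat_lit 0) (nat_lit 0) (XT.lf (nat_lit 76) (nat_lit 213228290) (nat_lit 0) (nat_lit 9265505956) (nat_lit 684) (nat_lit 2450977687) (nat_lit 73) (nat_lit 5) (nat_lit 72) (nat_lit 5) (nat_lit 81) (nat_lit 5) (nat_lit 265) (nat_lit 257) (nat_lit 198)) (XT.lf (nat_lit 76) (nat_lit 5607749540) (nat_lit 0) (nat_lit 5142506386) (nat_lit 684) (nat_lit 1483539317) (nat_lit 73) (nat_lit 5) (nat_lit 72) (nat_lit 5) (nat_lit 81) (nat_lit 5) (nat_lit 266) (nat_lit 257) (nat_lit 197)))) (XT.nd (nat_lit 156) (nat_lit 684) (nat_lit 0) (XT.nd (nat_lit 78) (nat_lit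 608) (nat_lit 0) (XT.lf (nat_lit 76) (nat_lit 11250063463) (nat_lit 0) (nat_lit 807125039) (nat_lit 684) (nat_lit 497434097) (nat_lit 73) (nat_lit 5) (nat_lit 72) (nat_lit 5) (nat_lit 81) (nat_lit 5) (nat_lit 267) (nat_lit 257) (nat_lit 196)) (XT.lf (nat_lit 0) (nat_lit 621782375) (nat_lit 684) (nat_lit 8555646595) (nat_lit 76) (nat_lit 3708710546) (nat_lit 64) (nat_lit 5) (nat_lit 73) (nat_lit 5) (nat_lit 65) (nat_lit 5) (nat_lit 268) (nat_lit 257) (nat_lit 195))) (XT.nd (nat_lit 78) (nat_lit 684) (nat_lit 0) (XT.lf (nat_lit 0) (nat_lit 1789587910) (nat_lit 684) (nat_lit 2985357852) (nat_lit 76) (nat_lit 8458525219) (nat_lit 64) (nat_lit 5) (nat_lit 73) (nat_lit 5) (nat_lit 65) (nat_lit 5) (nat_lit 269) (nat_lit 257) (nat_lit 194)) (XT.nd (nat_lit 78) (nat_lit 0) (nat_lit 0) (XT.lf (nat_lit 0) (nat_lit 2935425099) (nat_lit 684) (nat_lit 101101406) (nat_lit 760) (nat_lit 10560713661)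 (nat_lit 55) (nat_lit 5) (nat_lit 64) (nat_lit 5) (nat_lit 65) (nat_lit 5) (nat_lit 270) (nat_lit 257) (nat_lit 193)) (XT.lf (nat_lit 0) (nat_lit 4448051749) (nat_lit 760) (nat_lit 4819621764) (nat_lit 76) (nat_lit 4706515443) (nat_lit 55) (nat_lit 5) (nat_lit 65) (nat_lit 5) (nat_lit 56) (nat_lit 5) (nat_lit 271) (nat_lit 257) (nat_lit 192))))))))
noncomputable def xc165 : XT := (XT.nd (nat_lit 1326) (nat_lit 1216) (nat_lit 0) (XT.nd (nat_lit 624) (nat_lit 760) (nat_lit 0) (XT.nd (nat_lit 312) (nat_lit 608) (nat_lit 0) (XT.nd (nat_lit 156) (nat_lit 304) (nat_lit 0) (XT.nd (nat_lit 78) (nat_lit 0) (nat_lit 0) (XT.lf (nat_lit 0) (nat_lit 1333835629) (nat_lit 304) (nat_lit 4595762305) (nat_lit 380) (nat_lit 8440513235) (nat_lit 51) (nat_lit 5) (nat_lit 55) (nat_lit 5) (nat_lit 56) (nat_lit 5) (nat_lit 272) (nat_lit 257) (nat_lit 191)) (XT.lf (nat_lit 0) (nat_lit 7550753138) (nat_lit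 380) (nat_lit 6848375586) (nat_lit 76) (nat_lit 383517726) (nat_lit 51) (nat_lit 5) (nat_lit 56) (nat_lit 5) (nat_lit 52) (nat_lit 5) (nat_lit 273) (nat_lit 257) (nat_lit 190))) (XT.nd (nat_lit 78) (nat_lit 304) (nat_lit 0) (XT.lf (nat_lit 0) (nat_lit 9307101731) (nat_lit 380) (nat_lit 448083328) (nat_lit 76) (nat_lit 5458005743) (nat_lit 51) (nat_lit 5) (nat_lit 56) (nat_lit 5) (nat_lit 52) (nat_lit 5) (nat_lit 274) (nat_lit 257) (nat_lit 189)) (XT.lf (nat_lit 0) (nat_lit 6458298641) (nat_lit 304) (nat_lit 4773606265) (nat_lit 380) (nat_lit 4429410452) (nat_lit 47) (nat_lit 5) (nat_lit 51) (nat_lit 5) (nat_lit 52) (nat_lit 5) (nat_lit 275) (nat_lit 257) (nat_lit 188)))) (XT.nd (nat_lit 156) (nat_lit 380) (nat_lit 0) (XT.nd (nat_lit 78) (nat_lit 228) (nat_lit 0) (XT.lf (nat_lit 0) (nat_lit 13248235100) (nat_lit 380) (nat_lit 2434515498) (nat_lit 76) (nat_lit 449412006) (nat_lit 47)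 (nat_lit 5) (nat_lit 52) (nat_lit 5) (nat_lit 48) (nat_lit 5) (nat_lit 276) (nat_lit 257) (nat_lit 187)) (XT.lf (nat_lit 0) (nat_lit 4725058043) (nat_lit 228) (nat_lit 10773720611) (nat_lit 304) (nat_lit 1121180673) (nat_lit 44) (nat_lit 5) (nat_lit 47) (nat_lit 5) (nat_lit 48) (nat_lit 5) (nat_lit 277) (nat_lit 257) (nat_lit 186))) (XT.nd (nat_lit 78) (nat_lit 304) (nat_lit 0) (XT.lf (nat_lit 0) (nat_lit 729831598) (nat_lit 304) (nat_lit 4835701192) (nat_lit 76) (nat_lit 11564939105) (nat_lit 43) (nat_lit 5) (nat_lit 47) (nat_lit 5) (nat_lit 44) (nat_lit 5) (nat_lit 278) (nat_lit 257) (nat_lit 185)) (XT.lf (nat_lit 0) (nat_lit 2622314753) (nat_lit 304) (nat_lit 36797224) (nat_lit 380) (nat_lit 15005375768) (nat_lit 39) (nat_lit 5) (nat_lit 43) (nat_lit 5) (nat_lit 44) (nat_lit 5) (nat_lit 279) (nat_lit 257) (nat_lit 184))))) (XT.nd (nat_lit 312) (nat_lit 532) (nat_lit 0) (XT.nd (nat_lit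 156) (nat_lit 228) (nat_lit 0) (XT.nd (nat_lit 78) (nat_lit 0) (nat_lit 0) (XT.lf (nat_lit 0) (nat_lit 4841105225) (nat_lit 380) (nat_lit 7711650498) (nat_lit 76) (nat_lit 5664699534) (nat_lit 39) (nat_lit 5) (nat_lit 44) (nat_lit 5) (nat_lit 40) (nat_lit 5) (nat_lit 280) (nat_lit 257) (nat_lit 183)) (XT.lf (nat_lit 0) (nat_lit 7116564100) (nat_lit 380) (nat_lit 34494576) (nat_lit 76) (nat_lit 11647854467) (nat_lit 39) (nat_lit 5) (nat_lit 44) (nat_lit 5) (nat_lit 40) (nat_lit 5) (nat_lit 281) (nat_lit 257) (nat_lit 182))) (XT.nd (nat_lit 78) (nat_lit 0) (nat_lit 0) (XT.lf (nat_lit 0) (nat_lit 8272933767) (nat_lit 228) (nat_lit 1346561767) (nat_lit 304) (nat_lit 9784320836) (nat_lit 36) (nat_lit 5) (nat_lit 39) (nat_lit 5) (nat_lit 40) (nat_lit 5) (nat_lit 282) (nat_lit 257) (nat_lit 181)) (XT.lf (nat_lit 0) (nat_lit 12307241660) (nat_lit 304) (nat_lit 3134978060) (nat_lit 76) (nat_lit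 4593816326) (nat_lit 36) (nat_lit 5) (nat_lit 40) (nat_lit 5) (nat_lit 37) (nat_lit 5) (nat_lit 283) (nat_lit 257) (nat_lit 180)))) (XT.nd (nat_lit 156) (nat_lit 304) (nat_lit 0) (XT.nd (nat_lit 78) (nat_lit 0) (nat_lit 0) (XT.lf (nat_lit 0) (nat_lit 5393332044) (nat_lit 228) (nat_lit 9827982167) (nat_lit 304) (nat_lit 5474007625) (nat_lit 33) (nat_lit 5) (nat_lit 36) (nat_lit 5) (nat_lit 37) (nat_lit 5) (nat_lit 284) (nat_lit 257) (nat_lit 179)) (XT.lf (nat_lit 0) (nat_lit 14439251100) (nat_lit 228) (nat_lit 3880998359) (nat_lit 304) (nat_lit 3065414111) (nat_lit 33) (nat_lit 5) (nat_lit 36) (nat_lit 5) (nat_lit 37) (nat_lit 5) (nat_lit 285) (nat_lit 257) (nat_lit 178))) (XT.nd (nat_lit 78) (nat_lit 76) (nat_lit 0) (XT.lf (nat_lit 0) (nat_lit 1831193917) (nat_lit 228) (nat_lit 19795100881) (nat_lit 304) (nat_lit 481666672) (nat_lit 30) (nat_lit 5) (nat_lit 33) (nat_lit 5) (nat_lit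 34) (nat_lit 5) (nat_lit 286) (nat_lit 257) (nat_lit 177)) (XT.nd (nat_lit 78) (nat_lit 0) (nat_lit 0) (XT.lf (nat_lit 0) (nat_lit 2329831237) (nat_lit 304) (nat_lit 11689694975) (nat_lit 76) (nat_lit 8836650205) (nat_lit 29) (nat_lit 5) (nat_lit 33) (nat_lit 5) (nat_lit 30) (nat_lit 5) (nat_lit 287) (nat_lit 257) (nat_lit 176)) (XT.lf (nat_lit 0) (nat_lit 5253131451) (nat_lit 304) (nat_lit 2697983346) (nat_lit 76) (nat_lit 15690962592) (nat_lit 29) (nat_lit 5) (nat_lit 33) (nat_lit 5) (nat_lit 30) (nat_lit 5) (nat_lit 288) (nat_lit 257) (nat_lit 175))))))) (XT.nd (nat_lit 702) (nat_lit 456) (nat_lit 0) (XT.nd (nat_lit 312) (nat_lit 380) (nat_lit 0) (XT.nd (nat_lit 156) (nat_lit 152) (nat_lit 0) (XT.nd (nat_lit 78) (nat_lit 0) (nat_lit 0) (XT.lf (nat_lit 0) (nat_lit 6949731136) (nat_lit 228) (nat_lit 1469384191) (nat_lit 304) (nat_lit 16043371018) (nat_lit 26) (nat_lit 5) (nat_lit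 29) (nat_lit 5) (nat_lit 30) (nat_lit 5) (nat_lit 289) (nat_lit 257) (nat_lit 174)) (XT.lf (nat_lit 0) (nat_lit 11861430386) (nat_lit 304) (nat_lit 8248512940) (nat_lit 76) (nat_lit 5208107840) (nat_lit 26) (nat_lit 5) (nat_lit 30) (nat_lit 5) (nat_lit 27) (nat_lit 5) (nat_lit 290) (nat_lit 257) (nat_lit 173))) (XT.nd (nat_lit 78) (nat_lit 0) (nat_lit 0) (XT.lf (nat_lit 0) (nat_lit 1486905052) (nat_lit 152) (nat_lit 14025092134) (nat_lit 228) (nat_lit 10702625498) (nat_lit 24) (nat_lit 5) (nat_lit 26) (nat_lit 5) (nat_lit 27) (nat_lit 5) (nat_lit 291) (nat_lit 257) (nat_lit 172)) (XT.lf (nat_lit 0) (nat_lit 11980175937) (nat_lit 152) (nat_lit 7493734996) (nat_lit 228) (nat_lit 7675704491) (nat_lit 24) (nat_lit 5) (nat_lit 26) (nat_lit 5) (nat_lit 27) (nat_lit 5) (nat_lit 292) (nat_lit 257) (nat_lit 171)))) (XT.nd (nat_lit 156) (nat_lit 228) (nat_lit 0) (XT.nd (nat_lit 78) (nat_lit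 152) (nat_lit 0) (XT.lf (nat_lit 0) (nat_lit 22983550603) (nat_lit 152) (nat_lit 640013621) (nat_lit 228) (nat_lit 4508343362) (nat_lit 24) (nat_lit 5) (nat_lit 26) (nat_lit 5) (nat_lit 27) (nat_lit 5) (nat_lit 293) (nat_lit 257) (nat_lit 170)) (XT.lf (nat_lit 0) (nat_lit 5430911506) (nat_lit 152) (nat_lit 22727018603) (nat_lit 228) (nat_lit 996553205) (nat_lit 22) (nat_lit 5) (nat_lit 24) (nat_lit 5) (nat_lit 25) (nat_lit 5) (nat_lit 294) (nat_lit 257) (nat_lit 169))) (XT.nd (nat_lit 78) (nat_lit 152) (nat_lit 0) (XT.lf (nat_lit 0) (nat_lit 2693954903) (nat_lit 228) (nat_lit 13574328371) (nat_lit 76) (nat_lit 13953369026) (nat_lit 21) (nat_lit 5) (nat_lit 24) (nat_lit 5) (nat_lit 22) (nat_lit 5) (nat_lit 295) (nat_lit 257) (nat_lit 168)) (XT.nd (nat_lit 78) (nat_lit 152) (nat_lit 0) (XT.lf (nat_lit 0) (nat_lit 6526107608) (nat_lit 228) (nat_lit 2947721679) (nat_lit 76) (nat_lit 21868029413)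 (nat_lit 21) (nat_lit 5) (nat_lit 24) (nat_lit 5) (nat_lit 22) (nat_lit 5) (nat_lit 296) (nat_lit 257) (nat_lit 167)) (XT.lf (nat_lit 0) (nat_lit 8468142134) (nat_lit 152) (nat_lit 2204994305) (nat_lit 228) (nat_lit 21838800612) (nat_lit 19) (nat_lit 5) (nat_lit 21) (nat_lit 5) (nat_lit 22) (nat_lit 5) (nat_lit 297) (nat_lit 257) (nat_lit 166)))))) (XT.nd (nat_lit 312) (nat_lit 304) (nat_lit 0) (XT.nd (nat_lit 156) (nat_lit 152) (nat_lit 0) (XT.nd (nat_lit 78) (nat_lit 0) (nat_lit 0) (XT.lf (nat_lit 0) (nat_lit 15154207644) (nat_lit 228) (nat_lit 13279729172) (nat_lit 76) (nat_lit 5300271818) (nat_lit 19) (nat_lit 5) (nat_lit 22) (nat_lit 5) (nat_lit 20) (nat_lit 5) (nat_lit 298) (nat_lit 257) (nat_lit 165)) (XT.lf (nat_lit 0) (nat_lit 19887114497) (nat_lit 228) (nat_lit 2026264559) (nat_lit 76) (nat_lit 13102848364) (nat_lit 19) (nat_lit 5) (nat_lit 22) (nat_lit 5) (nat_lit 20) (nat_lit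 5) (nat_lit 299) (nat_lit 257) (nat_lit 164))) (XT.nd (nat_lit 78) (nat_lit 0) (nat_lit 0) (XT.lf (nat_lit 0) (nat_lit 10101117881) (nat_lit 152) (nat_lit 14905288558) (nat_lit 228) (nat_lit 11348475359) (nat_lit 17) (nat_lit 5) (nat_lit 19) (nat_lit 5) (nat_lit 20) (nat_lit 5) (nat_lit 300) (nat_lit 257) (nat_lit 163)) (XT.lf (nat_lit 0) (nat_lit 22893356940) (nat_lit 152) (nat_lit 7514849016) (nat_lit 228) (nat_lit 7350956404) (nat_lit 17) (nat_lit 5) (nat_lit 19) (nat_lit 5) (nat_lit 20) (nat_lit 5) (nat_lit 301) (nat_lit 257) (nat_lit 162)))) (XT.nd (nat_lit 156) (nat_lit 152) (nat_lit 0) (XT.nd (nat_lit 78) (nat_lit 152) (nat_lit 0) (XT.lf (nat_lit 0) (nat_lit 36076458911) (nat_lit 228) (nat_lit 2923899967) (nat_lit 76) (nat_lit 233499532) (nat_lit 17) (nat_lit 5) (nat_lit 20) (nat_lit 5) (nat_lit 18) (nat_lit 4) (nat_lit 302) (nat_lit 257) (nat_lit 161)) (XT.lf (nat_lit 0) (nat_lit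 1479355452) (nat_lit 152) (nat_lit 30998403163) (nat_lit 76) (nat_lit 8289906168) (nat_lit 15) (nat_lit 5) (nat_lit 17) (nat_lit 5) (nat_lit 16) (nat_lit 5) (nat_lit 303) (nat_lit 257) (nat_lit 160))) (XT.nd (nat_lit 78) (nat_lit 152) (nat_lit 0) (XT.lf (nat_lit 0) (nat_lit 6285097642) (nat_lit 152) (nat_lit 19240808245) (nat_lit 76) (nat_lit 16847521573) (nat_lit 15) (nat_lit 5) (nat_lit 17) (nat_lit 5) (nat_lit 16) (nat_lit 5) (nat_lit 304) (nat_lit 257) (nat_lit 159)) (XT.nd (nat_lit 78) (nat_lit 152) (nat_lit 0) (XT.lf (nat_lit 0) (nat_lit 11324393029) (nat_lit 152) (nat_lit 6905945708) (nat_lit 76) (nat_lit 25829492380) (nat_lit 15) (nat_lit 5) (nat_lit 17) (nat_lit 5) (nat_lit 16) (nat_lit 5) (nat_lit 305) (nat_lit 257) (nat_lit 158)) (XT.lf (nat_lit 0) (nat_lit 6235115813) (nat_lit 152) (nat_lit 10471471755) (nat_lit 228) (nat_lit 29119436052) (nat_lit 13) (nat_lit 5) (nat_lit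 15) (nat_lit 5) (nat_lit 16) (nat_lit 5) (nat_lit 306) (nat_lit 257) (nat_lit 157))))))))
noncomputable def xc166 : XT := (XT.nd (nat_lit 1326) (nat_lit 228) (nat_lit 0) (XT.nd (nat_lit 624) (nat_lit 152) (nat_lit 0) (XT.nd (nat_lit 312) (nat_lit 228) (nat_lit 0) (XT.nd (nat_lit 156) (nat_lit 76) (nat_lit 0) (XT.nd (nat_lit 78) (nat_lit 0) (nat_lit 0) (XT.lf (nat_lit 0) (nat_lit 20263045476) (nat_lit 152) (nat_lit 2205538782) (nat_lit 228) (nat_lit 25206421517) (nat_lit 13) (nat_lit 5) (nat_lit 15) (nat_lit 5) (nat_lit 16) (nat_lit 5) (nat_lit 307) (nat_lit 257) (nat_lit 156)) (XT.lf (nat_lit 0) (nat_lit 28613733647) (nat_lit 228) (nat_lit 14734865599) (nat_lit 76) (nat_lit 6263099100) (nat_lit 13) (nat_lit 5) (nat_lit 16) (nat_lit 5) (nat_lit 14) (nat_lit 4) (nat_lit 308) (nat_lit 257) (nat_lit 155))) (XT.nd (nat_lit 78) (nat_lit 76) (nat_lit 0) (XT.lf (nat_lit 0) (nat_lit 35096563932)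 (nat_lit 228) (nat_lit 1469337040) (nat_lit 76) (nat_lit 15077816689) (nat_lit 13) (nat_lit 5) (nat_lit 16) (nat_lit 5) (nat_lit 14) (nat_lit 4) (nat_lit 309) (nat_lit 257) (nat_lit 154)) (XT.lf (nat_lit 0) (nat_lit 12862319149) (nat_lit 76) (nat_lit 29236573483) (nat_lit 152) (nat_lit 11668690121) (nat_lit 12) (nat_lit 5) (nat_lit 13) (nat_lit 5) (nat_lit 14) (nat_lit 4) (nat_lit 310) (nat_lit 257) (nat_lit 153)))) (XT.nd (nat_lit 156) (nat_lit 228) (nat_lit 0) (XT.nd (nat_lit 78) (nat_lit 0) (nat_lit 0) (XT.lf (nat_lit 0) (nat_lit 27952889190) (nat_lit 76) (nat_lit 21517997025) (nat_lit 152) (nat_lit 6525789514) (nat_lit 12) (nat_lit 5) (nat_lit 13) (nat_lit 5) (nat_lit 14) (nat_lit 4) (nat_lit 311) (nat_lit 257) (nat_lit 152)) (XT.lf (nat_lit 0) (nat_lit 43789720091) (nat_lit 76) (nat_lit 13416677971) (nat_lit 152) (nat_lit 1131090840) (nat_lit 12) (nat_lit 5) (nat_lit 13) (nat_lit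 5) (nat_lit 14) (nat_lit 4) (nat_lit 312) (nat_lit 257) (nat_lit 151))) (XT.nd (nat_lit 78) (nat_lit 152) (nat_lit 0) (XT.lf (nat_lit 0) (nat_lit 4383318127) (nat_lit 152) (nat_lit 455775724) (nat_lit 76) (nat_lit 55952966852) (nat_lit 11) (nat_lit 5) (nat_lit 13) (nat_lit 5) (nat_lit 12) (nat_lit 5) (nat_lit 313) (nat_lit 257) (nat_lit 150)) (XT.lf (nat_lit 0) (nat_lit 10430728520) (nat_lit 228) (nat_lit 48638325363) (nat_lit 76) (nat_lit 4284625351) (nat_lit 9) (nat_lit 5) (nat_lit 12) (nat_lit 5) (nat_lit 10) (nat_lit 4) (nat_lit 314) (nat_lit 257) (nat_lit 149))))) (XT.nd (nat_lit 312) (nat_lit 76) (nat_lit 0) (XT.nd (nat_lit 156) (nat_lit 76) (nat_lit 0) (XT.nd (nat_lit 78) (nat_lit 0) (nat_lit 0) (XT.lf (nat_lit 0) (nat_lit 16863049271) (nat_lit 228) (nat_lit 35469318564) (nat_lit 76) (nat_lit 13706893306) (nat_lit 9) (nat_lit 5) (nat_lit 12) (nat_lit 5) (nat_lit 10) (nat_lit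 4) (nat_lit 315) (nat_lit 257) (nat_lit 148)) (XT.lf (nat_lit 0) (nat_lit 23612571881) (nat_lit 228) (nat_lit 21649226492) (nat_lit 76) (nat_lit 23597553475) (nat_lit 9) (nat_lit 5) (nat_lit 12) (nat_lit 5) (nat_lit 10) (nat_lit 4) (nat_lit 316) (nat_lit 257) (nat_lit 147))) (XT.nd (nat_lit 78) (nat_lit 76) (nat_lit 0) (XT.lf (nat_lit 0) (nat_lit 30695366642) (nat_lit 228) (nat_lit 7145144164) (nat_lit 76) (nat_lit 33980155047) (nat_lit 9) (nat_lit 5) (nat_lit 12) (nat_lit 5) (nat_lit 10) (nat_lit 4) (nat_lit 317) (nat_lit 257) (nat_lit 146)) (XT.lf (nat_lit 0) (nat_lit 8344539319) (nat_lit 76) (nat_lit 29914039675) (nat_lit 152) (nat_lit 36665160828) (nat_lit 8) (nat_lit 5) (nat_lit 9) (nat_lit 5) (nat_lit 10) (nat_lit 4) (nat_lit 318) (nat_lit 257) (nat_lit 145)))) (XT.nd (nat_lit 156) (nat_lit 76) (nat_lit 0) (XT.nd (nat_lit 78) (nat_lit 0) (nat_lit 0) (XT.lf (nat_lit 0) (nat_lit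 24850197664) (nat_lit 76) (nat_lit 21466845025) (nat_lit 152) (nat_lit 31859078035) (nat_lit 8) (nat_lit 5) (nat_lit 9) (nat_lit 5) (nat_lit 10) (nat_lit 4) (nat_lit 319) (nat_lit 257) (nat_lit 144)) (XT.lf (nat_lit 0) (nat_lit 42174879322) (nat_lit 76) (nat_lit 12599820960) (nat_lit 152) (nat_lit 26816614251) (nat_lit 8) (nat_lit 5) (nat_lit 9) (nat_lit 5) (nat_lit 10) (nat_lit 4) (nat_lit 320) (nat_lit 257) (nat_lit 143))) (XT.nd (nat_lit 78) (nat_lit 76) (nat_lit 0) (XT.lf (nat_lit 0) (nat_lit 60359833535) (nat_lit 76) (nat_lit 3291855519) (nat_lit 152) (nat_lit 21525763610) (nat_lit 8) (nat_lit 5) (nat_lit 9) (nat_lit 5) (nat_lit 10) (nat_lit 4) (nat_lit 321) (nat_lit 257) (nat_lit 142)) (XT.nd (nat_lit 78) (nat_lit 76) (nat_lit 0) (XT.lf (nat_lit 0) (nat_lit 73070303368) (nat_lit 152) (nat_lit 9595874404) (nat_lit 0) (nat_lit 6271837836) (nat_lit 8) (nat_lit 5) (nat_lit 10) (nat_lit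 4) (nat_lit 8) (nat_lit 4) (nat_lit 322) (nat_lit 257) (nat_lit 141)) (XT.lf (nat_lit 0) (nat_lit 6536666233) (nat_lit 76) (nat_lit 76575947063) (nat_lit 76) (nat_lit 9766361549) (nat_lit 7) (nat_lit 4) (nat_lit 8) (nat_lit 5) (nat_lit 8) (nat_lit 4) (nat_lit 323) (nat_lit 257) (nat_lit 140))))))) (XT.nd (nat_lit 624) (nat_lit 76) (nat_lit 0) (XT.nd (nat_lit 312) (nat_lit 76) (nat_lit 0) (XT.nd (nat_lit 156) (nat_lit 0) (nat_lit 0) (XT.nd (nat_lit 78) (nat_lit 76) (nat_lit 0) (XT.lf (nat_lit 0) (nat_lit 23803529738) (nat_lit 76) (nat_lit 70012834056) (nat_lit 76) (nat_lit 3192658084) (nat_lit 7) (nat_lit 4) (nat_lit 8) (nat_lit 5) (nat_lit 8) (nat_lit 4) (nat_lit 324) (nat_lit 257) (nat_lit 139)) (XT.lf (nat_lit 0) (nat_lit 3587906656) (nat_lit 152) (nat_lit 59475053477) (nat_lit 76) (nat_lit 38279875152) (nat_lit 6) (nat_lit 5) (nat_lit 8) (nat_lit 5) (nat_lit 7) (nat_lit 4) (nat_lit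 325) (nat_lit 257) (nat_lit 138))) (XT.nd (nat_lit 78) (nat_lit 0) (nat_lit 0) (XT.lf (nat_lit 0) (nat_lit 10597263147) (nat_lit 152) (nat_lit 45115478530) (nat_lit 76) (nat_lit 50178133125) (nat_lit 6) (nat_lit 5) (nat_lit 8) (nat_lit 5) (nat_lit 7) (nat_lit 4) (nat_lit 326) (nat_lit 257) (nat_lit 137)) (XT.lf (nat_lit 0) (nat_lit 17954285328) (nat_lit 152) (nat_lit 30042731496) (nat_lit 76) (nat_lit 62669444584) (nat_lit 6) (nat_lit 5) (nat_lit 8) (nat_lit 5) (nat_lit 7) (nat_lit 4) (nat_lit 327) (nat_lit 257) (nat_lit 136)))) (XT.nd (nat_lit 156) (nat_lit 0) (nat_lit 0) (XT.nd (nat_lit 78) (nat_lit 76) (nat_lit 0) (XT.lf (nat_lit 0) (nat_lit 25676489920) (nat_lit 152) (nat_lit 14220924880) (nat_lit 76) (nat_lit 75783550749) (nat_lit 6) (nat_lit 5) (nat_lit 8) (nat_lit 5) (nat_lit 7) (nat_lit 4) (nat_lit 328) (nat_lit 257) (nat_lit 135)) (XT.lf (nat_lit 0) (nat_lit 2466557528) (nat_lit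 76) (nat_lit 31354215470) (nat_lit 152) (nat_lit 87123628029) (nat_lit 5) (nat_lit 5) (nat_lit 6) (nat_lit 5) (nat_lit 7) (nat_lit 4) (nat_lit 329) (nat_lit 257) (nat_lit 134))) (XT.nd (nat_lit 78) (nat_lit 0) (nat_lit 0) (XT.lf (nat_lit 0) (nat_lit 20477842996) (nat_lit 76) (nat_lit 22132777920) (nat_lit 152) (nat_lit 83848474154) (nat_lit 5) (nat_lit 5) (nat_lit 6) (nat_lit 5) (nat_lit 7) (nat_lit 4) (nat_lit 330) (nat_lit 257) (nat_lit 133)) (XT.lf (nat_lit 0) (nat_lit 39385607534) (nat_lit 76) (nat_lit 12451984592) (nat_lit 152) (nat_lit 80412054265) (nat_lit 5) (nat_lit 5) (nat_lit 6) (nat_lit 5) (nat_lit 7) (nat_lit 4) (nat_lit 331) (nat_lit 257) (nat_lit 132))))) (XT.nd (nat_lit 312) (nat_lit 76) (nat_lit 0) (XT.nd (nat_lit 156) (nat_lit 0) (nat_lit 0) (XT.nd (nat_lit 78) (nat_lit 0) (nat_lit 0) (XT.lf (nat_lit 0) (nat_lit 59234869629) (nat_lit 76) (nat_lit 2288785977) (nat_lit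 152) (nat_lit 76806186409) (nat_lit 5) (nat_lit 5) (nat_lit 6) (nat_lit 5) (nat_lit 7) (nat_lit 4) (nat_lit 332) (nat_lit 257) (nat_lit 131)) (XT.lf (nat_lit 0) (nat_lit 71822724562) (nat_lit 152) (nat_lit 64772120317) (nat_lit 0) (nat_lit 8112771163) (nat_lit 5) (nat_lit 5) (nat_lit 7) (nat_lit 4) (nat_lit 5) (nat_lit 4) (nat_lit 333) (nat_lit 257) (nat_lit 130))) (XT.nd (nat_lit 78) (nat_lit 0) (nat_lit 0) (XT.lf (nat_lit 0) (nat_lit 82672198381) (nat_lit 152) (nat_lit 49774258419) (nat_lit 0) (nat_lit 18956052960) (nat_lit 5) (nat_lit 5) (nat_lit 7) (nat_lit 4) (nat_lit 5) (nat_lit 4) (nat_lit 334) (nat_lit 257) (nat_lit 129)) (XT.lf (nat_lit 0) (nat_lit 94062174781) (nat_lit 152) (nat_lit 34029943131) (nat_lit 0) (nat_lit 30340132196) (nat_lit 5) (nat_lit 5) (nat_lit 7) (nat_lit 4) (nat_lit 5) (nat_lit 4) (nat_lit 335) (nat_lit 257) (nat_lit 128)))) (XT.nd (nat_lit 156) (nat_lit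 76) (nat_lit 0) (XT.nd (nat_lit 78) (nat_lit 0) (nat_lit 0) (XT.lf (nat_lit 0) (nat_lit 106019772752) (nat_lit 152) (nat_lit 17501687991) (nat_lit 0) (nat_lit 42292113820) (nat_lit 5) (nat_lit 5) (nat_lit 7) (nat_lit 4) (nat_lit 5) (nat_lit 4) (nat_lit 336) (nat_lit 257) (nat_lit 127)) (XT.lf (nat_lit 0) (nat_lit 118573462767) (nat_lit 152) (nat_lit 150140008) (nat_lit 0) (nat_lit 54840454934) (nat_lit 5) (nat_lit 5) (nat_lit 7) (nat_lit 4) (nat_lit 5) (nat_lit 4) (nat_lit 337) (nat_lit 257) (nat_lit 126))) (XT.nd (nat_lit 78) (nat_lit 0) (nat_lit 0) (XT.lf (nat_lit 0) (nat_lit 18663358037) (nat_lit 76) (nat_lit 113381163849) (nat_lit 76) (nat_lit 49643061824) (nat_lit 4) (nat_lit 4) (nat_lit 5) (nat_lit 5) (nat_lit 5) (nat_lit 4) (nat_lit 338) (nat_lit 257) (nat_lit 125)) (XT.nd (nat_lit 78) (nat_lit 0) (nat_lit 0) (XT.lf (nat_lit 0) (nat_lit 38419820085) (nat_lit 76) (nat_lit 107770189291)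 (nat_lit 76) (nat_lit 44027235654) (nat_lit 4) (nat_lit 4) (nat_lit 5) (nat_lit 5) (nat_lit 5) (nat_lit 4) (nat_lit 339) (nat_lit 257) (nat_lit 124)) (XT.lf (nat_lit 0) (nat_lit 59161321023) (nat_lit 76) (nat_lit 101879862330) (nat_lit 76) (nat_lit 38132288111) (nat_lit 4) (nat_lit 4) (nat_lit 5) (nat_lit 5) (nat_lit 5) (nat_lit 4) (nat_lit 340) (nat_lit 257) (nat_lit 123))))))))
noncomputable def xc167 : XT := (XT.nd (nat_lit 31122) (nat_lit 0) (nat_lit 3420) (XT.nd (nat_lit 624) (nat_lit 76) (nat_lit 0) (XT.nd (nat_lit 312) (nat_lit 76) (nat_lit 0) (XT.nd (nat_lit 156) (nat_lit 0) (nat_lit 0) (XT.nd (nat_lit 78) (nat_lit 0) (nat_lit 0) (XT.lf (nat_lit 0) (nat_lit 80937245377) (nat_lit 76) (nat_lit 95696158380) (nat_lit 76) (nat_lit 31944183607) (nat_lit 4) (nat_lit 4) (nat_lit 5) (nat_lit 5) (nat_lit 5) (nat_lit 4) (nat_lit 341) (nat_lit 257) (nat_lit 122)) (XT.lf (nat_lit 0) (nat_lit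 103799440586) (nat_lit 76) (nat_lit 89204354336) (nat_lit 76) (nat_lit 25448188558) (nat_lit 4) (nat_lit 4) (nat_lit 5) (nat_lit 5) (nat_lit 5) (nat_lit 4) (nat_lit 342) (nat_lit 257) (nat_lit 121))) (XT.nd (nat_lit 78) (nat_lit 0) (nat_lit 0) (XT.lf (nat_lit 0) (nat_lit 127802340449) (nat_lit 76) (nat_lit 82388993521) (nat_lit 76) (nat_lit 18628836310) (nat_lit 4) (nat_lit 4) (nat_lit 5) (nat_lit 5) (nat_lit 5) (nat_lit 4) (nat_lit 343) (nat_lit 257) (nat_lit 120)) (XT.lf (nat_lit 0) (nat_lit 153003094727) (nat_lit 76) (nat_lit 75233848885) (nat_lit 76) (nat_lit 11469890310) (nat_lit 4) (nat_lit 4) (nat_lit 5) (nat_lit 5) (nat_lit 5) (nat_lit 4) (nat_lit 344) (nat_lit 257) (nat_lit 119)))) (XT.nd (nat_lit 156) (nat_lit 0) (nat_lit 0) (XT.nd (nat_lit 78) (nat_lit 76) (nat_lit 0) (XT.lf (nat_lit 0) (nat_lit 179461705215) (nat_lit 76) (nat_lit 67721884371) (nat_lit 76) (nat_lit 3954305449)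 (nat_lit 4) (nat_lit 4) (nat_lit 5) (nat_lit 5) (nat_lit 5) (nat_lit 4) (nat_lit 345) (nat_lit 257) (nat_lit 118)) (XT.lf (nat_lit 0) (nat_lit 3809841942) (nat_lit 152) (nat_lit 55960850890) (nat_lit 76) (nat_lit 203366805147) (nat_lit 3) (nat_lit 5) (nat_lit 5) (nat_lit 5) (nat_lit 4) (nat_lit 4) (nat_lit 346) (nat_lit 257) (nat_lit 117))) (XT.nd (nat_lit 78) (nat_lit 0) (nat_lit 0) (XT.lf (nat_lit 0) (nat_lit 11828157303) (nat_lit 152) (nat_lit 39526588161) (nat_lit 76) (nat_lit 224379153609) (nat_lit 3) (nat_lit 5) (nat_lit 5) (nat_lit 5) (nat_lit 4) (nat_lit 4) (nat_lit 347) (nat_lit 257) (nat_lit 116)) (XT.lf (nat_lit 0) (nat_lit 20246294330) (nat_lit 152) (nat_lit 22272534648) (nat_lit 76) (nat_lit 246441347660) (nat_lit 3) (nat_lit 5) (nat_lit 5) (nat_lit 5) (nat_lit 4) (nat_lit 4) (nat_lit 348) (nat_lit 257) (nat_lit 115))))) (XT.nd (nat_lit 312) (nat_lit 0) (nat_lit 0) (XT.nd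 (nat_lit 156) (nat_lit 0) (nat_lit 0) (XT.nd (nat_lit 78) (nat_lit 76) (nat_lit 0) (XT.lf (nat_lit 0) (nat_lit 29084296205) (nat_lit 152) (nat_lit 4157609272) (nat_lit 76) (nat_lit 269605916336) (nat_lit 3) (nat_lit 5) (nat_lit 5) (nat_lit 5) (nat_lit 4) (nat_lit 4) (nat_lit 349) (nat_lit 257) (nat_lit 114)) (XT.lf (nat_lit 0) (nat_lit 15352701056) (nat_lit 76) (nat_lit 23250203425) (nat_lit 152) (nat_lit 278815011003) (nat_lit 2) (nat_lit 5) (nat_lit 3) (nat_lit 5) (nat_lit 4) (nat_lit 4) (nat_lit 350) (nat_lit 257) (nat_lit 113))) (XT.nd (nat_lit 78) (nat_lit 0) (nat_lit 0) (XT.lf (nat_lit 0) (nat_lit 35981154200) (nat_lit 76) (nat_lit 12685728185) (nat_lit 152) (nat_lit 284046160971) (nat_lit 2) (nat_lit 5) (nat_lit 3) (nat_lit 5) (nat_lit 4) (nat_lit 4) (nat_lit 351) (nat_lit 257) (nat_lit 112)) (XT.lf (nat_lit 0) (nat_lit 57639396184) (nat_lit 76) (nat_lit 1593737370) (nat_lit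 152) (nat_lit 289539841757) (nat_lit 2) (nat_lit 5) (nat_lit 3) (nat_lit 5) (nat_lit 4) (nat_lit 4) (nat_lit 352) (nat_lit 257) (nat_lit 111)))) (XT.nd (nat_lit 156) (nat_lit 0) (nat_lit 0) (XT.nd (nat_lit 78) (nat_lit 0) (nat_lit 0) (XT.lf (nat_lit 0) (nat_lit 70483758409) (nat_lit 152) (nat_lit 285413897709) (nat_lit 0) (nat_lit 9730446031) (nat_lit 2) (nat_lit 5) (nat_lit 4) (nat_lit 4) (nat_lit 2) (nat_lit 4) (nat_lit 353) (nat_lit 257) (nat_lit 110)) (XT.lf (nat_lit 0) (nat_lit 82322191746) (nat_lit 152) (nat_lit 279435874210) (nat_lit 0) (nat_lit 21566656790) (nat_lit 2) (nat_lit 5) (nat_lit 4) (nat_lit 4) (nat_lit 2) (nat_lit 4) (nat_lit 354) (nat_lit 257) (nat_lit 109))) (XT.nd (nat_lit 78) (nat_lit 0) (nat_lit 0) (XT.lf (nat_lit 0) (nat_lit 94751737606) (nat_lit 152) (nat_lit 273160392532) (nat_lit 0) (nat_lit 33994085908) (nat_lit 2) (nat_lit 5) (nat_lit 4) (nat_lit 4) (nat_lit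 2) (nat_lit 4) (nat_lit 355) (nat_lit 257) (nat_lit 108)) (XT.nd (nat_lit 29874) (nat_lit 0) (nat_lit 5092) (XT.lf (nat_lit 0) (nat_lit 107801990145) (nat_lit 152) (nat_lit 266572511053) (nat_lit 0) (nat_lit 47042322502) (nat_lit 2) (nat_lit 5) (nat_lit 4) (nat_lit 4) (nat_lit 2) (nat_lit 4) (nat_lit 356) (nat_lit 257) (nat_lit 107)) (XT.lf (nat_lit 0) (nat_lit 1785014726) (nat_lit 684) (nat_lit 1694822497) (nat_lit 684) (nat_lit 1694822497) (nat_lit 69) (nat_lit 3) (nat_lit 78) (nat_lit 3) (nat_lit 78) (nat_lit 5) (nat_lit 258) (nat_lit 258) (nat_lit 204))))))) (XT.nd (nat_lit 702) (nat_lit 1672) (nat_lit 0) (XT.nd (nat_lit 312) (nat_lit 0) (nat_lit 152) (XT.nd (nat_lit 156) (nat_lit 0) (nat_lit 76) (XT.nd (nat_lit 78) (nat_lit 0) (nat_lit 76) (XT.lf (nat_lit 76) (nat_lit 890858048) (nat_lit 0) (nat_lit 3358220018) (nat_lit 684) (nat_lit 6326728952) (nat_lit 70) (nat_lit 5) (nat_lit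 69) (nat_lit 3) (nat_lit 78) (nat_lit 5) (nat_lit 259) (nat_lit 258) (nat_lit 203)) (XT.lf (nat_lit 0) (nat_lit 4990123667) (nat_lit 608) (nat_lit 5337618544) (nat_lit 684) (nat_lit 484650921) (nat_lit 70) (nat_lit 5) (nat_lit 78) (nat_lit 5) (nat_lit 79) (nat_lit 5) (nat_lit 260) (nat_lit 258) (nat_lit 202))) (XT.nd (nat_lit 78) (nat_lit 0) (nat_lit 0) (XT.lf (nat_lit 0) (nat_lit 5788121189) (nat_lit 608) (nat_lit 849295164) (nat_lit 684) (nat_lit 4422565204) (nat_lit 70) (nat_lit 5) (nat_lit 78) (nat_lit 5) (nat_lit 79) (nat_lit 5) (nat_lit 261) (nat_lit 258) (nat_lit 201)) (XT.lf (nat_lit 76) (nat_lit 3970210407) (nat_lit 0) (nat_lit 2684315105) (nat_lit 684) (nat_lit 4664158536) (nat_lit 71) (nat_lit 5) (nat_lit 70) (nat_lit 5) (nat_lit 79) (nat_lit 5) (nat_lit 262) (nat_lit 258) (nat_lit 200)))) (XT.nd (nat_lit 156) (nat_lit 0) (nat_lit 0) (XT.nd (nat_lit 78) (nat_lit 0) (nat_lit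 0) (XT.lf (nat_lit 0) (nat_lit 7569758241) (nat_lit 608) (nat_lit 2574487660) (nat_lit 684) (nat_lit 1445952720) (nat_lit 71) (nat_lit 5) (nat_lit 79) (nat_lit 5) (nat_lit 80) (nat_lit 5) (nat_lit 263) (nat_lit 258) (nat_lit 199)) (XT.lf (nat_lit 76) (nat_lit 2451778013) (nat_lit 0) (nat_lit 6130776903) (nat_lit 684) (nat_lit 3290289008) (nat_lit 72) (nat_lit 5) (nat_lit 71) (nat_lit 5) (nat_lit 80) (nat_lit 5) (nat_lit 264) (nat_lit 258) (nat_lit 198))) (XT.nd (nat_lit 78) (nat_lit 0) (nat_lit 76) (XT.lf (nat_lit 76) (nat_lit 7798187602) (nat_lit 0) (nat_lit 1862052717) (nat_lit 684) (nat_lit 2508806931) (nat_lit 72) (nat_lit 5) (nat_lit 71) (nat_lit 5) (nat_lit 80) (nat_lit 5) (nat_lit 265) (nat_lit 258) (nat_lit 197)) (XT.nd (nat_lit 78) (nat_lit 0) (nat_lit 0) (XT.lf (nat_lit 76) (nat_lit 898475135) (nat_lit 0) (nat_lit 9920447052) (nat_lit 684) (nat_lit 1659914570) (nat_lit 73)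 (nat_lit 5) (nat_lit 72) (nat_lit 5) (nat_lit 81) (nat_lit 5) (nat_lit 266) (nat_lit 258) (nat_lit 196)) (XT.lf (nat_lit 76) (nat_lit 6530599332) (nat_lit 0) (nat_lit 5582170561) (nat_lit 684) (nat_lit 687609614) (nat_lit 73) (nat_lit 5) (nat_lit 72) (nat_lit 5) (nat_lit 81) (nat_lit 5) (nat_lit 267) (nat_lit 258) (nat_lit 195)))))) (XT.nd (nat_lit 312) (nat_lit 608) (nat_lit 0) (XT.nd (nat_lit 156) (nat_lit 608) (nat_lit 0) (XT.nd (nat_lit 78) (nat_lit 0) (nat_lit 76) (XT.lf (nat_lit 0) (nat_lit 296561550) (nat_lit 684) (nat_lit 719743856) (nat_lit 760) (nat_lit 12122851544) (nat_lit 63) (nat_lit 5) (nat_lit 72) (nat_lit 5) (nat_lit 73) (nat_lit 5) (nat_lit 268) (nat_lit 258) (nat_lit 194)) (XT.lf (nat_lit 0) (nat_lit 1424462860) (nat_lit 684) (nat_lit 8307650931) (nat_lit 76) (nat_lit 3756422658) (nat_lit 64) (nat_lit 5) (nat_lit 73) (nat_lit 5) (nat_lit 65) (nat_lit 5) (nat_lit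 269) (nat_lit 258) (nat_lit 193))) (XT.nd (nat_lit 78) (nat_lit 684) (nat_lit 0) (XT.lf (nat_lit 0) (nat_lit 2613916225) (nat_lit 684) (nat_lit 2491027656) (nat_lit 76) (nat_lit 8750286322) (nat_lit 64) (nat_lit 5) (nat_lit 73) (nat_lit 5) (nat_lit 65) (nat_lit 5) (nat_lit 270) (nat_lit 258) (nat_lit 192)) (XT.lf (nat_lit 0) (nat_lit 3715413828) (nat_lit 684) (nat_lit 182681416) (nat_lit 760) (nat_lit 10340498971) (nat_lit 55) (nat_lit 5) (nat_lit 64) (nat_lit 5) (nat_lit 65) (nat_lit 5) (nat_lit 271) (nat_lit 258) (nat_lit 191)))) (XT.nd (nat_lit 156) (nat_lit 304) (nat_lit 0) (XT.nd (nat_lit 78) (nat_lit 304) (nat_lit 0) (XT.lf (nat_lit 0) (nat_lit 5345261617) (nat_lit 760) (nat_lit 4419726469) (nat_lit 76) (nat_lit 4871292964) (nat_lit 55) (nat_lit 5) (nat_lit 65) (nat_lit 5) (nat_lit 56) (nat_lit 5) (nat_lit 272) (nat_lit 258) (nat_lit 190)) (XT.lf (nat_lit 0) (nat_lit 2031067078)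 (nat_lit 304) (nat_lit 4847528846) (nat_lit 380) (nat_lit 8174654910) (nat_lit 51) (nat_lit 5) (nat_lit 55) (nat_lit 5) (nat_lit 56) (nat_lit 5) (nat_lit 273) (nat_lit 258) (nat_lit 189))) (XT.nd (nat_lit 78) (nat_lit 304) (nat_lit 0) (XT.lf (nat_lit 0) (nat_lit 8549409793) (nat_lit 380) (nat_lit 6556271788) (nat_lit 76) (nat_lit 382431728) (nat_lit 51) (nat_lit 5) (nat_lit 56) (nat_lit 5) (nat_lit 52) (nat_lit 5) (nat_lit 274) (nat_lit 258) (nat_lit 188)) (XT.nd (nat_lit 78) (nat_lit 0) (nat_lit 0) (XT.lf (nat_lit 0) (nat_lit 138244405) (nat_lit 304) (nat_lit 10227912697) (nat_lit 380) (nat_lit 5575522974) (nat_lit 47) (nat_lit 5) (nat_lit 51) (nat_lit 5) (nat_lit 52) (nat_lit 5) (nat_lit 275) (nat_lit 258) (nat_lit 187)) (XT.lf (nat_lit 0) (nat_lit 7375773899) (nat_lit 304) (nat_lit 4990382246) (nat_lit 380) (nat_lit 4047225275) (nat_lit 47) (nat_lit 5) (nat_lit 51) (nat_lit 5) (nat_lit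 52) (nat_lit 5) (nat_lit 276) (nat_lit 258) (nat_lit 186))))))))
noncomputable def xc168 : XT := (XT.nd (nat_lit 1326) (nat_lit 836) (nat_lit 0) (XT.nd (nat_lit 624) (nat_lit 912) (nat_lit 0) (XT.nd (nat_lit 312) (nat_lit 228) (nat_lit 0) (XT.nd (nat_lit 156) (nat_lit 380) (nat_lit 0) (XT.nd (nat_lit 78) (nat_lit 228) (nat_lit 0) (XT.lf (nat_lit 0) (nat_lit 14456359219) (nat_lit 380) (nat_lit 1960795518) (nat_lit 76) (nat_lit 492076184) (nat_lit 47) (nat_lit 5) (nat_lit 52) (nat_lit 5) (nat_lit 48) (nat_lit 5) (nat_lit 277) (nat_lit 258) (nat_lit 185)) (XT.lf (nat_lit 0) (nat_lit 5547152736) (nat_lit 228) (nat_lit 11255437544) (nat_lit 304) (nat_lit 619776527) (nat_lit 44) (nat_lit 5) (nat_lit 47) (nat_lit 5) (nat_lit 48) (nat_lit 5) (nat_lit 278) (nat_lit 258) (nat_lit 184))) (XT.nd (nat_lit 78) (nat_lit 304) (nat_lit 0) (XT.lf (nat_lit 0) (nat_lit 1280247823) (nat_lit 304) (nat_lit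 4500601761) (nat_lit 76) (nat_lit 12178502416) (nat_lit 43) (nat_lit 5) (nat_lit 47) (nat_lit 5) (nat_lit 44) (nat_lit 5) (nat_lit 279) (nat_lit 258) (nat_lit 183)) (XT.lf (nat_lit 0) (nat_lit 3290859340) (nat_lit 380) (nat_lit 15200409738) (nat_lit 76) (nat_lit 29648933) (nat_lit 39) (nat_lit 5) (nat_lit 44) (nat_lit 5) (nat_lit 40) (nat_lit 5) (nat_lit 280) (nat_lit 258) (nat_lit 182)))) (XT.nd (nat_lit 156) (nat_lit 0) (nat_lit 0) (XT.nd (nat_lit 78) (nat_lit 228) (nat_lit 0) (XT.lf (nat_lit 0) (nat_lit 5558774769) (nat_lit 380) (nat_lit 7532215241) (nat_lit 76) (nat_lit 6011791074) (nat_lit 39) (nat_lit 5) (nat_lit 44) (nat_lit 5) (nat_lit 40) (nat_lit 5) (nat_lit 281) (nat_lit 258) (nat_lit 181)) (XT.lf (nat_lit 0) (nat_lit 518487712) (nat_lit 228) (nat_lit 7414965623) (nat_lit 304) (nat_lit 11780670299) (nat_lit 36) (nat_lit 5) (nat_lit 39) (nat_lit 5) (nat_lit 40) (nat_lit 5)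 (nat_lit 282) (nat_lit 258) (nat_lit 180))) (XT.nd (nat_lit 78) (nat_lit 0) (nat_lit 0) (XT.lf (nat_lit 0) (nat_lit 9216013401) (nat_lit 228) (nat_lit 1324119018) (nat_lit 304) (nat_lit 9810289651) (nat_lit 36) (nat_lit 5) (nat_lit 39) (nat_lit 5) (nat_lit 40) (nat_lit 5) (nat_lit 283) (nat_lit 258) (nat_lit 179)) (XT.lf (nat_lit 0) (nat_lit 13342664393) (nat_lit 304) (nat_lit 2766377924) (nat_lit 76) (nat_lit 4906266771) (nat_lit 36) (nat_lit 5) (nat_lit 40) (nat_lit 5) (nat_lit 37) (nat_lit 5) (nat_lit 284) (nat_lit 258) (nat_lit 178))))) (XT.nd (nat_lit 312) (nat_lit 380) (nat_lit 0) (XT.nd (nat_lit 156) (nat_lit 304) (nat_lit 0) (XT.nd (nat_lit 78) (nat_lit 0) (nat_lit 0) (XT.lf (nat_lit 0) (nat_lit 6179874314) (nat_lit 228) (nat_lit 10210633247) (nat_lit 304) (nat_lit 5317720910) (nat_lit 33) (nat_lit 5) (nat_lit 36) (nat_lit 5) (nat_lit 37) (nat_lit 5) (nat_lit 285) (nat_lit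 258) (nat_lit 177)) (XT.lf (nat_lit 0) (nat_lit 15653476195) (nat_lit 228) (nat_lit 3971478726) (nat_lit 304) (nat_lit 2809173298) (nat_lit 33) (nat_lit 5) (nat_lit 36) (nat_lit 5) (nat_lit 37) (nat_lit 5) (nat_lit 286) (nat_lit 258) (nat_lit 176))) (XT.nd (nat_lit 78) (nat_lit 76) (nat_lit 0) (XT.lf (nat_lit 0) (nat_lit 2425968251) (nat_lit 228) (nat_lit 20661221686) (nat_lit 304) (nat_lit 105872603) (nat_lit 30) (nat_lit 5) (nat_lit 33) (nat_lit 5) (nat_lit 34) (nat_lit 5) (nat_lit 287) (nat_lit 258) (nat_lit 175)) (XT.lf (nat_lit 0) (nat_lit 2814969302) (nat_lit 304) (nat_lit 11781543120) (nat_lit 76) (nat_lit 9382845043) (nat_lit 29) (nat_lit 5) (nat_lit 33) (nat_lit 5) (nat_lit 30) (nat_lit 5) (nat_lit 288) (nat_lit 258) (nat_lit 174)))) (XT.nd (nat_lit 156) (nat_lit 152) (nat_lit 0) (XT.nd (nat_lit 78) (nat_lit 228) (nat_lit 0) (XT.lf (nat_lit 0) (nat_lit 5866879931) (nat_lit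 304) (nat_lit 2363704796) (nat_lit 76) (nat_lit 16574903414) (nat_lit 29) (nat_lit 5) (nat_lit 33) (nat_lit 5) (nat_lit 30) (nat_lit 5) (nat_lit 289) (nat_lit 258) (nat_lit 173)) (XT.lf (nat_lit 0) (nat_lit 7758828027) (nat_lit 228) (nat_lit 1422823342) (nat_lit 304) (nat_lit 16485795972) (nat_lit 26) (nat_lit 5) (nat_lit 29) (nat_lit 5) (nat_lit 30) (nat_lit 5) (nat_lit 290) (nat_lit 258) (nat_lit 172))) (XT.nd (nat_lit 78) (nat_lit 152) (nat_lit 0) (XT.lf (nat_lit 0) (nat_lit 12781601221) (nat_lit 304) (nat_lit 8205796064) (nat_lit 76) (nat_lit 5579168801) (nat_lit 26) (nat_lit 5) (nat_lit 30) (nat_lit 5) (nat_lit 27) (nat_lit 5) (nat_lit 291) (nat_lit 258) (nat_lit 171)) (XT.nd (nat_lit 78) (nat_lit 0) (nat_lit 0) (XT.lf (nat_lit 0) (nat_lit 2009051820) (nat_lit 152) (nat_lit 14597059820) (nat_lit 228) (nat_lit 10902332950) (nat_lit 24) (nat_lit 5) (nat_lit 26) (nat_lit 5) (nat_lit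 27) (nat_lit 5) (nat_lit 292) (nat_lit 258) (nat_lit 170)) (XT.lf (nat_lit 0) (nat_lit 13005662368) (nat_lit 152) (nat_lit 7745291346) (nat_lit 228) (nat_lit 7740038456) (nat_lit 24) (nat_lit 5) (nat_lit 26) (nat_lit 5) (nat_lit 27) (nat_lit 5) (nat_lit 293) (nat_lit 258) (nat_lit 169))))))) (XT.nd (nat_lit 624) (nat_lit 304) (nat_lit 0) (XT.nd (nat_lit 312) (nat_lit 304) (nat_lit 0) (XT.nd (nat_lit 156) (nat_lit 76) (nat_lit 0) (XT.nd (nat_lit 78) (nat_lit 152) (nat_lit 0) (XT.lf (nat_lit 0) (nat_lit 24538897308) (nat_lit 152) (nat_lit 554747254) (nat_lit 228) (nat_lit 4429521236) (nat_lit 24) (nat_lit 5) (nat_lit 26) (nat_lit 5) (nat_lit 27) (nat_lit 5) (nat_lit 294) (nat_lit 258) (nat_lit 168)) (XT.lf (nat_lit 0) (nat_lit 6115363598) (nat_lit 152) (nat_lit 23733798210) (nat_lit 228) (nat_lit 748029329) (nat_lit 22) (nat_lit 5) (nat_lit 24) (nat_lit 5) (nat_lit 25) (nat_lit 5) (nat_lit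 295) (nat_lit 258) (nat_lit 167))) (XT.nd (nat_lit 78) (nat_lit 0) (nat_lit 0) (XT.lf (nat_lit 0) (nat_lit 3103702575) (nat_lit 228) (nat_lit 13849935499) (nat_lit 76) (nat_lit 14764573747) (nat_lit 21) (nat_lit 5) (nat_lit 24) (nat_lit 5) (nat_lit 22) (nat_lit 5) (nat_lit 296) (nat_lit 258) (nat_lit 166)) (XT.lf (nat_lit 0) (nat_lit 7114365300) (nat_lit 228) (nat_lit 2711194152) (nat_lit 76) (nat_lit 23069560665) (nat_lit 21) (nat_lit 5) (nat_lit 24) (nat_lit 5) (nat_lit 22) (nat_lit 5) (nat_lit 297) (nat_lit 258) (nat_lit 165)))) (XT.nd (nat_lit 156) (nat_lit 152) (nat_lit 0) (XT.nd (nat_lit 78) (nat_lit 0) (nat_lit 0) (XT.lf (nat_lit 0) (nat_lit 9269270696) (nat_lit 152) (nat_lit 2192898248) (nat_lit 228) (nat_lit 22661897222) (nat_lit 19) (nat_lit 5) (nat_lit 21) (nat_lit 5) (nat_lit 22) (nat_lit 5) (nat_lit 298) (nat_lit 258) (nat_lit 164)) (XT.lf (nat_lit 0) (nat_lit 16156952163)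 (nat_lit 228) (nat_lit 13572973695) (nat_lit 76) (nat_lit 5678075832) (nat_lit 19) (nat_lit 5) (nat_lit 22) (nat_lit 5) (nat_lit 20) (nat_lit 5) (nat_lit 299) (nat_lit 258) (nat_lit 163))) (XT.nd (nat_lit 78) (nat_lit 152) (nat_lit 0) (XT.lf (nat_lit 0) (nat_lit 21114836065) (nat_lit 228) (nat_lit 1774490229) (nat_lit 76) (nat_lit 13865410232) (nat_lit 19) (nat_lit 5) (nat_lit 22) (nat_lit 5) (nat_lit 20) (nat_lit 5) (nat_lit 300) (nat_lit 258) (nat_lit 162)) (XT.lf (nat_lit 0) (nat_lit 10953566373) (nat_lit 152) (nat_lit 15530837345) (nat_lit 228) (nat_lit 11676234540) (nat_lit 17) (nat_lit 5) (nat_lit 19) (nat_lit 5) (nat_lit 20) (nat_lit 5) (nat_lit 301) (nat_lit 258) (nat_lit 161))))) (XT.nd (nat_lit 312) (nat_lit 152) (nat_lit 0) (XT.nd (nat_lit 156) (nat_lit 152) (nat_lit 0) (XT.nd (nat_lit 78) (nat_lit 0) (nat_lit 0) (XT.lf (nat_lit 0) (nat_lit 24368874880) (nat_lit 152) (nat_lit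 7776576571) (nat_lit 228) (nat_lit 7490252237) (nat_lit 17) (nat_lit 5) (nat_lit 19) (nat_lit 5) (nat_lit 20) (nat_lit 5) (nat_lit 302) (nat_lit 258) (nat_lit 160)) (XT.lf (nat_lit 0) (nat_lit 38088486894) (nat_lit 228) (nat_lit 2745821830) (nat_lit 76) (nat_lit 350284706) (nat_lit 17) (nat_lit 5) (nat_lit 20) (nat_lit 5) (nat_lit 18) (nat_lit 4) (nat_lit 303) (nat_lit 258) (nat_lit 159))) (XT.nd (nat_lit 78) (nat_lit 0) (nat_lit 0) (XT.lf (nat_lit 0) (nat_lit 1760432089) (nat_lit 152) (nat_lit 32221935710) (nat_lit 76) (nat_lit 8812828046) (nat_lit 15) (nat_lit 5) (nat_lit 17) (nat_lit 5) (nat_lit 16) (nat_lit 5) (nat_lit 304) (nat_lit 258) (nat_lit 158)) (XT.lf (nat_lit 0) (nat_lit 6796599062) (nat_lit 152) (nat_lit 19892003314) (nat_lit 76) (nat_lit 17793161051) (nat_lit 15) (nat_lit 5) (nat_lit 17) (nat_lit 5) (nat_lit 16) (nat_lit 5) (nat_lit 305) (nat_lit 258) (nat_lit 157))))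 (XT.nd (nat_lit 156) (nat_lit 0) (nat_lit 0) (XT.nd (nat_lit 78) (nat_lit 152) (nat_lit 0) (XT.lf (nat_lit 0) (nat_lit 12078466526) (nat_lit 152) (nat_lit 6955199809) (nat_lit 76) (nat_lit 27219313094) (nat_lit 15) (nat_lit 5) (nat_lit 17) (nat_lit 5) (nat_lit 16) (nat_lit 5) (nat_lit 306) (nat_lit 258) (nat_lit 156)) (XT.lf (nat_lit 0) (nat_lit 6838139898) (nat_lit 152) (nat_lit 10887232987) (nat_lit 228) (nat_lit 30382350022) (nat_lit 13) (nat_lit 5) (nat_lit 15) (nat_lit 5) (nat_lit 16) (nat_lit 5) (nat_lit 307) (nat_lit 258) (nat_lit 155))) (XT.nd (nat_lit 78) (nat_lit 0) (nat_lit 0) (XT.lf (nat_lit 0) (nat_lit 21553596126) (nat_lit 152) (nat_lit 2213137287) (nat_lit 228) (nat_lit 26282877990) (nat_lit 13) (nat_lit 5) (nat_lit 15) (nat_lit 5) (nat_lit 16) (nat_lit 5) (nat_lit 308) (nat_lit 258) (nat_lit 154)) (XT.nd (nat_lit 78) (nat_lit 0) (nat_lit 0) (XT.lf (nat_lit 0) (nat_lit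 30212347034) (nat_lit 228) (nat_lit 15200237509) (nat_lit 76) (nat_lit 6670913182) (nat_lit 13) (nat_lit 5) (nat_lit 16) (nat_lit 5) (nat_lit 14) (nat_lit 4) (nat_lit 309) (nat_lit 258) (nat_lit 153)) (XT.lf (nat_lit 0) (nat_lit 37011322324) (nat_lit 228) (nat_lit 1284354969) (nat_lit 76) (nat_lit 15921859073) (nat_lit 13) (nat_lit 5) (nat_lit 16) (nat_lit 5) (nat_lit 14) (nat_lit 4) (nat_lit 310) (nat_lit 258) (nat_lit 152))))))))
noncomputable def xc169 : XT := (XT.nd (nat_lit 1326) (nat_lit 152) (nat_lit 0) (XT.nd (nat_lit 624) (nat_lit 228) (nat_lit 0) (XT.nd (nat_lit 312) (nat_lit 152) (nat_lit 0) (XT.nd (nat_lit 156) (nat_lit 76) (nat_lit 0) (XT.nd (nat_lit 78) (nat_lit 0) (nat_lit 0) (XT.lf (nat_lit 0) (nat_lit 13759715499) (nat_lit 76) (nat_lit 30600406265) (nat_lit 152) (nat_lit 12087672883) (nat_lit 12) (nat_lit 5) (nat_lit 13) (nat_lit 5) (nat_lit 14) (nat_lit 4) (nat_lit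 311) (nat_lit 258) (nat_lit 151)) (XT.lf (nat_lit 0) (nat_lit 29592705452) (nat_lit 76) (nat_lit 22500567455) (nat_lit 152) (nat_lit 6695458280) (nat_lit 12) (nat_lit 5) (nat_lit 13) (nat_lit 5) (nat_lit 14) (nat_lit 4) (nat_lit 312) (nat_lit 258) (nat_lit 150))) (XT.nd (nat_lit 78) (nat_lit 76) (nat_lit 0) (XT.lf (nat_lit 0) (nat_lit 46209845908) (nat_lit 76) (nat_lit 13998626706) (nat_lit 152) (nat_lit 1038482802) (nat_lit 12) (nat_lit 5) (nat_lit 13) (nat_lit 5) (nat_lit 14) (nat_lit 4) (nat_lit 313) (nat_lit 258) (nat_lit 149)) (XT.lf (nat_lit 0) (nat_lit 4739996839) (nat_lit 152) (nat_lit 254070323) (nat_lit 76) (nat_lit 58830430507) (nat_lit 11) (nat_lit 5) (nat_lit 13) (nat_lit 5) (nat_lit 12) (nat_lit 5) (nat_lit 314) (nat_lit 258) (nat_lit 148)))) (XT.nd (nat_lit 156) (nat_lit 0) (nat_lit 0) (XT.nd (nat_lit 78) (nat_lit 0) (nat_lit 0) (XT.lf (nat_lit 0) (nat_lit 11088027861)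 (nat_lit 228) (nat_lit 50843720954) (nat_lit 76) (nat_lit 4582549635) (nat_lit 9) (nat_lit 5) (nat_lit 12) (nat_lit 5) (nat_lit 10) (nat_lit 4) (nat_lit 315) (nat_lit 258) (nat_lit 147)) (XT.lf (nat_lit 0) (nat_lit 17835499750) (nat_lit 228) (nat_lit 37027050514) (nat_lit 76) (nat_lit 14471945606) (nat_lit 9) (nat_lit 5) (nat_lit 12) (nat_lit 5) (nat_lit 10) (nat_lit 4) (nat_lit 316) (nat_lit 258) (nat_lit 146))) (XT.nd (nat_lit 78) (nat_lit 0) (nat_lit 0) (XT.lf (nat_lit 0) (nat_lit 24916341442) (nat_lit 228) (nat_lit 22526226884) (nat_lit 76) (nat_lit 24853343181) (nat_lit 9) (nat_lit 5) (nat_lit 12) (nat_lit 5) (nat_lit 10) (nat_lit 4) (nat_lit 317) (nat_lit 258) (nat_lit 145)) (XT.lf (nat_lit 0) (nat_lit 32347412086) (nat_lit 228) (nat_lit 7306724294) (nat_lit 76) (nat_lit 35751459974) (nat_lit 9) (nat_lit 5) (nat_lit 12) (nat_lit 5) (nat_lit 10) (nat_lit 4) (nat_lit 318) (nat_lit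 258) (nat_lit 144))))) (XT.nd (nat_lit 312) (nat_lit 152) (nat_lit 0) (XT.nd (nat_lit 156) (nat_lit 0) (nat_lit 0) (XT.nd (nat_lit 78) (nat_lit 0) (nat_lit 0) (XT.lf (nat_lit 0) (nat_lit 8954287281) (nat_lit 76) (nat_lit 31331918942) (nat_lit 152) (nat_lit 38377758117) (nat_lit 8) (nat_lit 5) (nat_lit 9) (nat_lit 5) (nat_lit 10) (nat_lit 4) (nat_lit 319) (nat_lit 258) (nat_lit 143)) (XT.lf (nat_lit 0) (nat_lit 26276060877) (nat_lit 76) (nat_lit 22466070403) (nat_lit 152) (nat_lit 33337116934) (nat_lit 8) (nat_lit 5) (nat_lit 9) (nat_lit 5) (nat_lit 10) (nat_lit 4) (nat_lit 320) (nat_lit 258) (nat_lit 142))) (XT.nd (nat_lit 78) (nat_lit 0) (nat_lit 0) (XT.lf (nat_lit 0) (nat_lit 44458245507) (nat_lit 76) (nat_lit 13159224510) (nat_lit 152) (nat_lit 28048002104) (nat_lit 8) (nat_lit 5) (nat_lit 9) (nat_lit 5) (nat_lit 10) (nat_lit 4) (nat_lit 321) (nat_lit 258) (nat_lit 141)) (XT.lf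 (nat_lit 0) (nat_lit 63544132087) (nat_lit 76) (nat_lit 3389222106) (nat_lit 152) (nat_lit 22497820496) (nat_lit 8) (nat_lit 5) (nat_lit 9) (nat_lit 5) (nat_lit 10) (nat_lit 4) (nat_lit 322) (nat_lit 258) (nat_lit 140)))) (XT.nd (nat_lit 156) (nat_lit 76) (nat_lit 0) (XT.nd (nat_lit 78) (nat_lit 76) (nat_lit 0) (XT.lf (nat_lit 0) (nat_lit 76819180703) (nat_lit 152) (nat_lit 9913374891) (nat_lit 0) (nat_lit 6647405472) (nat_lit 8) (nat_lit 5) (nat_lit 10) (nat_lit 4) (nat_lit 8) (nat_lit 4) (nat_lit 323) (nat_lit 258) (nat_lit 139)) (XT.lf (nat_lit 0) (nat_lit 7023175145) (nat_lit 76) (nat_lit 80338382911) (nat_lit 76) (nat_lit 10156521529) (nat_lit 7) (nat_lit 4) (nat_lit 8) (nat_lit 5) (nat_lit 8) (nat_lit 4) (nat_lit 324) (nat_lit 258) (nat_lit 138))) (XT.nd (nat_lit 78) (nat_lit 76) (nat_lit 0) (XT.lf (nat_lit 0) (nat_lit 25145778224) (nat_lit 76) (nat_lit 73450274326) (nat_lit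 76) (nat_lit 3258807085) (nat_lit 7) (nat_lit 4) (nat_lit 8) (nat_lit 5) (nat_lit 8) (nat_lit 4) (nat_lit 325) (nat_lit 258) (nat_lit 137)) (XT.nd (nat_lit 78) (nat_lit 0) (nat_lit 0) (XT.lf (nat_lit 0) (nat_lit 3853484689) (nat_lit 152) (nat_lit 62300972065) (nat_lit 76) (nat_lit 40251057141) (nat_lit 6) (nat_lit 5) (nat_lit 8) (nat_lit 5) (nat_lit 7) (nat_lit 4) (nat_lit 326) (nat_lit 258) (nat_lit 136)) (XT.lf (nat_lit 0) (nat_lit 11209205066) (nat_lit 152) (nat_lit 47230458089) (nat_lit 76) (nat_lit 52741504763) (nat_lit 6) (nat_lit 5) (nat_lit 8) (nat_lit 5) (nat_lit 7) (nat_lit 4) (nat_lit 327) (nat_lit 258) (nat_lit 135))))))) (XT.nd (nat_lit 702) (nat_lit 76) (nat_lit 0) (XT.nd (nat_lit 312) (nat_lit 0) (nat_lit 0) (XT.nd (nat_lit 156) (nat_lit 76) (nat_lit 0) (XT.nd (nat_lit 78) (nat_lit 0) (nat_lit 0) (XT.lf (nat_lit 0) (nat_lit 18930169844) (nat_lit 152) (nat_lit 31410778196)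 (nat_lit 76) (nat_lit 65854788225) (nat_lit 6) (nat_lit 5) (nat_lit 8) (nat_lit 5) (nat_lit 7) (nat_lit 4) (nat_lit 328) (nat_lit 258) (nat_lit 134)) (XT.lf (nat_lit 0) (nat_lit 27034762272) (nat_lit 152) (nat_lit 14804266482) (nat_lit 76) (nat_lit 79622129631) (nat_lit 6) (nat_lit 5) (nat_lit 8) (nat_lit 5) (nat_lit 7) (nat_lit 4) (nat_lit 329) (nat_lit 258) (nat_lit 133))) (XT.nd (nat_lit 78) (nat_lit 0) (nat_lit 0) (XT.lf (nat_lit 0) (nat_lit 2715530295) (nat_lit 76) (nat_lit 32869145742) (nat_lit 152) (nat_lit 91403175108) (nat_lit 5) (nat_lit 5) (nat_lit 6) (nat_lit 5) (nat_lit 7) (nat_lit 4) (nat_lit 330) (nat_lit 258) (nat_lit 132)) (XT.lf (nat_lit 0) (nat_lit 21621396945) (nat_lit 76) (nat_lit 23189149672) (nat_lit 152) (nat_lit 87967912793) (nat_lit 5) (nat_lit 5) (nat_lit 6) (nat_lit 5) (nat_lit 7) (nat_lit 4) (nat_lit 331) (nat_lit 258) (nat_lit 131)))) (XT.nd (nat_lit 156)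 (nat_lit 0) (nat_lit 0) (XT.nd (nat_lit 78) (nat_lit 0) (nat_lit 0) (XT.lf (nat_lit 0) (nat_lit 41468851529) (nat_lit 76) (nat_lit 13026710351) (nat_lit 152) (nat_lit 84363147389) (nat_lit 5) (nat_lit 5) (nat_lit 6) (nat_lit 5) (nat_lit 7) (nat_lit 4) (nat_lit 332) (nat_lit 258) (nat_lit 130)) (XT.lf (nat_lit 0) (nat_lit 62305149891) (nat_lit 76) (nat_lit 2357631494) (nat_lit 152) (nat_lit 80580296121) (nat_lit 5) (nat_lit 5) (nat_lit 6) (nat_lit 5) (nat_lit 7) (nat_lit 4) (nat_lit 333) (nat_lit 258) (nat_lit 129))) (XT.nd (nat_lit 78) (nat_lit 0) (nat_lit 0) (XT.lf (nat_lit 0) (nat_lit 75474484452) (nat_lit 152) (nat_lit 67904934387) (nat_lit 0) (nat_lit 8560442574) (nat_lit 5) (nat_lit 5) (nat_lit 7) (nat_lit 4) (nat_lit 5) (nat_lit 4) (nat_lit 334) (nat_lit 258) (nat_lit 128)) (XT.nd (nat_lit 78) (nat_lit 0) (nat_lit 0) (XT.lf (nat_lit 0) (nat_lit 86863545121) (nat_lit 152) (nat_lit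 52162217105) (nat_lit 0) (nat_lit 19943886896) (nat_lit 5) (nat_lit 5) (nat_lit 7) (nat_lit 4) (nat_lit 5) (nat_lit 4) (nat_lit 335) (nat_lit 258) (nat_lit 127)) (XT.lf (nat_lit 0) (nat_lit 98820270968) (nat_lit 152) (nat_lit 35635483875) (nat_lit 0) (nat_lit 31895263842) (nat_lit 5) (nat_lit 5) (nat_lit 7) (nat_lit 4) (nat_lit 5) (nat_lit 4) (nat_lit 336) (nat_lit 258) (nat_lit 126)))))) (XT.nd (nat_lit 312) (nat_lit 0) (nat_lit 0) (XT.nd (nat_lit 156) (nat_lit 76) (nat_lit 0) (XT.nd (nat_lit 78) (nat_lit 0) (nat_lit 0) (XT.lf (nat_lit 0) (nat_lit 111373130389) (nat_lit 152) (nat_lit 18285385330) (nat_lit 0) (nat_lit 44443029070) (nat_lit 5) (nat_lit 5) (nat_lit 7) (nat_lit 4) (nat_lit 5) (nat_lit 4) (nat_lit 337) (nat_lit 258) (nat_lit 125)) (XT.lf (nat_lit 0) (nat_lit 124552011143) (nat_lit 152) (nat_lit 70611713) (nat_lit 0) (nat_lit 57617058213) (nat_lit 5) (nat_lit 5) (nat_lit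 7) (nat_lit 4) (nat_lit 5) (nat_lit 4) (nat_lit 338) (nat_lit 258) (nat_lit 124))) (XT.nd (nat_lit 78) (nat_lit 0) (nat_lit 0) (XT.lf (nat_lit 0) (nat_lit 19682157439) (nat_lit 76) (nat_lit 119013427715) (nat_lit 76) (nat_lit 52073854202) (nat_lit 4) (nat_lit 4) (nat_lit 5) (nat_lit 5) (nat_lit 5) (nat_lit 4) (nat_lit 339) (nat_lit 258) (nat_lit 123)) (XT.lf (nat_lit 0) (nat_lit 40422364899) (nat_lit 76) (nat_lit 113123656539) (nat_lit 76) (nat_lit 46179682472) (nat_lit 4) (nat_lit 4) (nat_lit 5) (nat_lit 5) (nat_lit 5) (nat_lit 4) (nat_lit 340) (nat_lit 258) (nat_lit 122)))) (XT.nd (nat_lit 156) (nat_lit 0) (nat_lit 0) (XT.nd (nat_lit 78) (nat_lit 0) (nat_lit 0) (XT.lf (nat_lit 0) (nat_lit 62197057369) (nat_lit 76) (nat_lit 106940481907) (nat_lit 76) (nat_lit 39992316836) (nat_lit 4) (nat_lit 4) (nat_lit 5) (nat_lit 5) (nat_lit 5) (nat_lit 4) (nat_lit 341) (nat_lit 258) (nat_lit 121))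 (XT.lf (nat_lit 0) (nat_lit 85058079356) (nat_lit 76) (nat_lit 100449181976) (nat_lit 76) (nat_lit 33497025472) (nat_lit 4) (nat_lit 4) (nat_lit 5) (nat_lit 5) (nat_lit 5) (nat_lit 4) (nat_lit 342) (nat_lit 258) (nat_lit 120))) (XT.nd (nat_lit 78) (nat_lit 0) (nat_lit 0) (XT.lf (nat_lit 0) (nat_lit 109059861863) (nat_lit 76) (nat_lit 93634301269) (nat_lit 76) (nat_lit 26678343400) (nat_lit 4) (nat_lit 4) (nat_lit 5) (nat_lit 5) (nat_lit 5) (nat_lit 4) (nat_lit 343) (nat_lit 258) (nat_lit 119)) (XT.nd (nat_lit 78) (nat_lit 0) (nat_lit 0) (XT.lf (nat_lit 0) (nat_lit 134259551993) (nat_lit 76) (nat_lit 86479613879) (nat_lit 76) (nat_lit 19520035663) (nat_lit 4) (nat_lit 4) (nat_lit 5) (nat_lit 5) (nat_lit 5) (nat_lit 4) (nat_lit 344) (nat_lit 258) (nat_lit 118)) (XT.lf (nat_lit 0) (nat_lit 160717149007) (nat_lit 76) (nat_lit 78968084836) (nat_lit 76) (nat_lit 12005058671) (nat_lit 4)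 (nat_lit 4) (nat_lit 5) (nat_lit 5) (nat_lit 5) (nat_lit 4) (nat_lit 345) (nat_lit 258) (nat_lit 117))))))))
noncomputable def xc170 : XT := (XT.nd (nat_lit 31200) (nat_lit 0) (nat_lit 2812) (XT.nd (nat_lit 624) (nat_lit 0) (nat_lit 0) (XT.nd (nat_lit 312) (nat_lit 76) (nat_lit 0) (XT.nd (nat_lit 156) (nat_lit 0) (nat_lit 0) (XT.nd (nat_lit 78) (nat_lit 76) (nat_lit 0) (XT.lf (nat_lit 0) (nat_lit 188495647185) (nat_lit 76) (nat_lit 71081829549) (nat_lit 76) (nat_lit 4115519622) (nat_lit 4) (nat_lit 4) (nat_lit 5) (nat_lit 5) (nat_lit 5) (nat_lit 4) (nat_lit 346) (nat_lit 258) (nat_lit 116)) (XT.lf (nat_lit 0) (nat_lit 4033984359) (nat_lit 152) (nat_lit 58699769380) (nat_lit 76) (nat_lit 213558883970) (nat_lit 3) (nat_lit 5) (nat_lit 5) (nat_lit 5) (nat_lit 4) (nat_lit 4) (nat_lit 347) (nat_lit 258) (nat_lit 115))) (XT.nd (nat_lit 78) (nat_lit 0) (nat_lit 0) (XT.lf (nat_lit 0) (nat_lit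 12451613092) (nat_lit 152) (nat_lit 41446608946) (nat_lit 76) (nat_lit 235620719446) (nat_lit 3) (nat_lit 5) (nat_lit 5) (nat_lit 5) (nat_lit 4) (nat_lit 4) (nat_lit 348) (nat_lit 258) (nat_lit 114)) (XT.lf (nat_lit 0) (nat_lit 21289130879) (nat_lit 152) (nat_lit 23332534121) (nat_lit 76) (nat_lit 258784946622) (nat_lit 3) (nat_lit 5) (nat_lit 5) (nat_lit 5) (nat_lit 4) (nat_lit 4) (nat_lit 349) (nat_lit 258) (nat_lit 113)))) (XT.nd (nat_lit 156) (nat_lit 0) (nat_lit 0) (XT.nd (nat_lit 78) (nat_lit 76) (nat_lit 0) (XT.lf (nat_lit 0) (nat_lit 30567579428) (nat_lit 152) (nat_lit 4314416155) (nat_lit 76) (nat_lit 283106718418) (nat_lit 3) (nat_lit 5) (nat_lit 5) (nat_lit 5) (nat_lit 4) (nat_lit 4) (nat_lit 350) (nat_lit 258) (nat_lit 112)) (XT.lf (nat_lit 0) (nat_lit 16170585922) (nat_lit 76) (nat_lit 24390932525) (nat_lit 152) (nat_lit 292725826056) (nat_lit 2) (nat_lit 5) (nat_lit 3)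 (nat_lit 5) (nat_lit 4) (nat_lit 4) (nat_lit 351) (nat_lit 258) (nat_lit 111))) (XT.nd (nat_lit 78) (nat_lit 0) (nat_lit 0) (XT.lf (nat_lit 0) (nat_lit 37828068875) (nat_lit 76) (nat_lit 13299270717) (nat_lit 152) (nat_lit 298219959023) (nat_lit 2) (nat_lit 5) (nat_lit 3) (nat_lit 5) (nat_lit 4) (nat_lit 4) (nat_lit 352) (nat_lit 258) (nat_lit 110)) (XT.lf (nat_lit 0) (nat_lit 60566944055) (nat_lit 76) (nat_lit 1653668165) (nat_lit 152) (nat_lit 303989681467) (nat_lit 2) (nat_lit 5) (nat_lit 3) (nat_lit 5) (nat_lit 4) (nat_lit 4) (nat_lit 353) (nat_lit 258) (nat_lit 109))))) (XT.nd (nat_lit 30186) (nat_lit 0) (nat_lit 5092) (XT.nd (nat_lit 156) (nat_lit 0) (nat_lit 0) (XT.nd (nat_lit 78) (nat_lit 0) (nat_lit 0) (XT.lf (nat_lit 0) (nat_lit 74032832459) (nat_lit 152) (nat_lit 299640211639) (nat_lit 0) (nat_lit 10235181434) (nat_lit 2) (nat_lit 5) (nat_lit 4) (nat_lit 4) (nat_lit 2) (nat_lit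 4) (nat_lit 354) (nat_lit 258) (nat_lit 108)) (XT.lf (nat_lit 0) (nat_lit 86462002410) (nat_lit 152) (nat_lit 293365400343) (nat_lit 0) (nat_lit 22662335439) (nat_lit 2) (nat_lit 5) (nat_lit 4) (nat_lit 4) (nat_lit 2) (nat_lit 4) (nat_lit 355) (nat_lit 258) (nat_lit 107))) (XT.nd (nat_lit 29952) (nat_lit 0) (nat_lit 5092) (XT.lf (nat_lit 0) (nat_lit 99511896940) (nat_lit 152) (nat_lit 286778157323) (nat_lit 0) (nat_lit 35710310022) (nat_lit 2) (nat_lit 5) (nat_lit 4) (nat_lit 4) (nat_lit 2) (nat_lit 4) (nat_lit 356) (nat_lit 258) (nat_lit 106)) (XT.lf (nat_lit 0) (nat_lit 2441163307) (nat_lit 684) (nat_lit 1480586006) (nat_lit 684) (nat_lit 1480586006) (nat_lit 69) (nat_lit 3) (nat_lit 78) (nat_lit 3) (nat_lit 78) (nat_lit 5) (nat_lit 259) (nat_lit 259) (nat_lit 202)))) (XT.nd (nat_lit 156) (nat_lit 0) (nat_lit 76) (XT.nd (nat_lit 78) (nat_lit 0) (nat_lit 76) (XT.lf (nat_lit 76) (nat_lit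 1523711743) (nat_lit 0) (nat_lit 4026810824) (nat_lit 684) (nat_lit 5494458613) (nat_lit 70) (nat_lit 5) (nat_lit 69) (nat_lit 3) (nat_lit 78) (nat_lit 5) (nat_lit 260) (nat_lit 259) (nat_lit 201)) (XT.lf (nat_lit 0) (nat_lit 6269318978) (nat_lit 608) (nat_lit 4979981380) (nat_lit 684) (nat_lit 47307348) (nat_lit 70) (nat_lit 5) (nat_lit 78) (nat_lit 5) (nat_lit 79) (nat_lit 5) (nat_lit 261) (nat_lit 259) (nat_lit 200))) (XT.nd (nat_lit 78) (nat_lit 0) (nat_lit 0) (XT.lf (nat_lit 0) (nat_lit 7058183560) (nat_lit 608) (nat_lit 296980788) (nat_lit 684) (nat_lit 4204097161) (nat_lit 70) (nat_lit 5) (nat_lit 78) (nat_lit 5) (nat_lit 79) (nat_lit 5) (nat_lit 262) (nat_lit 259) (nat_lit 199)) (XT.nd (nat_lit 78) (nat_lit 0) (nat_lit 76) (XT.lf (nat_lit 76) (nat_lit 4753906849) (nat_lit 0) (nat_lit 3176439721) (nat_lit 684) (nat_lit 3902653786) (nat_lit 71) (nat_lit 5) (nat_lit 70) (nat_lit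 5) (nat_lit 79) (nat_lit 5) (nat_lit 263) (nat_lit 259) (nat_lit 198)) (XT.lf (nat_lit 0) (nat_lit 8841109795) (nat_lit 608) (nat_lit 2091410353) (nat_lit 684) (nat_lit 1188294601) (nat_lit 71) (nat_lit 5) (nat_lit 79) (nat_lit 5) (nat_lit 80) (nat_lit 5) (nat_lit 264) (nat_lit 259) (nat_lit 197))))))) (XT.nd (nat_lit 624) (nat_lit 1216) (nat_lit 0) (XT.nd (nat_lit 312) (nat_lit 608) (nat_lit 0) (XT.nd (nat_lit 156) (nat_lit 608) (nat_lit 0) (XT.nd (nat_lit 78) (nat_lit 0) (nat_lit 0) (XT.lf (nat_lit 76) (nat_lit 3176300835) (nat_lit 0) (nat_lit 6695126027) (nat_lit 684) (nat_lit 2548023836) (nat_lit 72) (nat_lit 5) (nat_lit 71) (nat_lit 5) (nat_lit 80) (nat_lit 5) (nat_lit 265) (nat_lit 259) (nat_lit 196)) (XT.lf (nat_lit 76) (nat_lit 8761367384) (nat_lit 0) (nat_lit 2200688952) (nat_lit 684) (nat_lit 1770647637) (nat_lit 72) (nat_lit 5) (nat_lit 71) (nat_lit 5) (nat_lit 80) (nat_lit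 5) (nat_lit 266) (nat_lit 259) (nat_lit 195))) (XT.nd (nat_lit 78) (nat_lit 684) (nat_lit 0) (XT.lf (nat_lit 76) (nat_lit 1555267763) (nat_lit 0) (nat_lit 10590315933) (nat_lit 684) (nat_lit 914237281) (nat_lit 73) (nat_lit 5) (nat_lit 72) (nat_lit 5) (nat_lit 81) (nat_lit 5) (nat_lit 267) (nat_lit 259) (nat_lit 194)) (XT.lf (nat_lit 0) (nat_lit 65070768) (nat_lit 684) (nat_lit 5960674438) (nat_lit 760) (nat_lit 7373688783) (nat_lit 63) (nat_lit 5) (nat_lit 72) (nat_lit 5) (nat_lit 73) (nat_lit 5) (nat_lit 268) (nat_lit 259) (nat_lit 193)))) (XT.nd (nat_lit 156) (nat_lit 608) (nat_lit 0) (XT.nd (nat_lit 78) (nat_lit 0) (nat_lit 76) (XT.lf (nat_lit 0) (nat_lit 1038963602) (nat_lit 684) (nat_lit 173519184) (nat_lit 760) (nat_lit 12544081433) (nat_lit 63) (nat_lit 5) (nat_lit 72) (nat_lit 5) (nat_lit 73) (nat_lit 5) (nat_lit 269) (nat_lit 259) (nat_lit 192)) (XT.lf (nat_lit 0) (nat_lit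 2195542118) (nat_lit 684) (nat_lit 8110082916) (nat_lit 76) (nat_lit 3819324594) (nat_lit 64) (nat_lit 5) (nat_lit 73) (nat_lit 5) (nat_lit 65) (nat_lit 5) (nat_lit 270) (nat_lit 259) (nat_lit 191))) (XT.nd (nat_lit 78) (nat_lit 684) (nat_lit 0) (XT.lf (nat_lit 0) (nat_lit 3411141670) (nat_lit 684) (nat_lit 2031816599) (nat_lit 76) (nat_lit 9068829975) (nat_lit 64) (nat_lit 5) (nat_lit 73) (nat_lit 5) (nat_lit 65) (nat_lit 5) (nat_lit 271) (nat_lit 259) (nat_lit 190)) (XT.lf (nat_lit 0) (nat_lit 4475531436) (nat_lit 684) (nat_lit 261225863) (nat_lit 760) (nat_lit 10178838775) (nat_lit 55) (nat_lit 5) (nat_lit 64) (nat_lit 5) (nat_lit 65) (nat_lit 5) (nat_lit 272) (nat_lit 259) (nat_lit 189))))) (XT.nd (nat_lit 312) (nat_lit 608) (nat_lit 0) (XT.nd (nat_lit 156) (nat_lit 304) (nat_lit 0) (XT.nd (nat_lit 78) (nat_lit 304) (nat_lit 0) (XT.lf (nat_lit 0) (nat_lit 6224594795) (nat_lit 760)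 (nat_lit 4059419021) (nat_lit 76) (nat_lit 5050868269) (nat_lit 55) (nat_lit 5) (nat_lit 65) (nat_lit 5) (nat_lit 56) (nat_lit 5) (nat_lit 273) (nat_lit 259) (nat_lit 188)) (XT.lf (nat_lit 0) (nat_lit 2704538497) (nat_lit 304) (nat_lit 5109840368) (nat_lit 380) (nat_lit 7959456603) (nat_lit 51) (nat_lit 5) (nat_lit 55) (nat_lit 5) (nat_lit 56) (nat_lit 5) (nat_lit 274) (nat_lit 259) (nat_lit 187))) (XT.nd (nat_lit 78) (nat_lit 304) (nat_lit 0) (XT.lf (nat_lit 0) (nat_lit 9540253523) (nat_lit 380) (nat_lit 6308554696) (nat_lit 76) (nat_lit 383175188) (nat_lit 51) (nat_lit 5) (nat_lit 56) (nat_lit 5) (nat_lit 52) (nat_lit 5) (nat_lit 275) (nat_lit 259) (nat_lit 186)) (XT.lf (nat_lit 0) (nat_lit 711404554) (nat_lit 304) (nat_lit 10718447064) (nat_lit 380) (nat_lit 5279388934) (nat_lit 47) (nat_lit 5) (nat_lit 51) (nat_lit 5) (nat_lit 52) (nat_lit 5) (nat_lit 276) (nat_lit 259) (nat_lit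 185)))) (XT.nd (nat_lit 156) (nat_lit 608) (nat_lit 0) (XT.nd (nat_lit 78) (nat_lit 0) (nat_lit 0) (XT.lf (nat_lit 0) (nat_lit 8283846335) (nat_lit 304) (nat_lit 5220033484) (nat_lit 380) (nat_lit 3702053026) (nat_lit 47) (nat_lit 5) (nat_lit 51) (nat_lit 5) (nat_lit 52) (nat_lit 5) (nat_lit 277) (nat_lit 259) (nat_lit 184)) (XT.lf (nat_lit 0) (nat_lit 15674154380) (nat_lit 380) (nat_lit 1518748442) (nat_lit 76) (nat_lit 534996163) (nat_lit 47) (nat_lit 5) (nat_lit 52) (nat_lit 5) (nat_lit 48) (nat_lit 5) (nat_lit 278) (nat_lit 259) (nat_lit 183))) (XT.nd (nat_lit 78) (nat_lit 380) (nat_lit 0) (XT.lf (nat_lit 0) (nat_lit 6355886147) (nat_lit 228) (nat_lit 11766536769) (nat_lit 304) (nat_lit 145129816) (nat_lit 44) (nat_lit 5) (nat_lit 47) (nat_lit 5) (nat_lit 48) (nat_lit 5) (nat_lit 279) (nat_lit 259) (nat_lit 182)) (XT.nd (nat_lit 78) (nat_lit 304) (nat_lit 0) (XT.lf (nat_lit 0)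 (nat_lit 1810405017) (nat_lit 304) (nat_lit 4202380609) (nat_lit 76) (nat_lit 12819460512) (nat_lit 43) (nat_lit 5) (nat_lit 47) (nat_lit 5) (nat_lit 44) (nat_lit 5) (nat_lit 280) (nat_lit 259) (nat_lit 181)) (XT.lf (nat_lit 0) (nat_lit 3908368292) (nat_lit 380) (nat_lit 15422318052) (nat_lit 76) (nat_lit 91947154) (nat_lit 39) (nat_lit 5) (nat_lit 44) (nat_lit 5) (nat_lit 40) (nat_lit 5) (nat_lit 281) (nat_lit 259) (nat_lit 180))))))))
noncomputable def xc171 : XT := (XT.nd (nat_lit 1326) (nat_lit 912) (nat_lit 0) (XT.nd (nat_lit 624) (nat_lit 608) (nat_lit 0) (XT.nd (nat_lit 312) (nat_lit 532) (nat_lit 0) (XT.nd (nat_lit 156) (nat_lit 0) (nat_lit 0) (XT.nd (nat_lit 78) (nat_lit 228) (nat_lit 0) (XT.lf (nat_lit 0) (nat_lit 6268109683) (nat_lit 380) (nat_lit 7396338218) (nat_lit 76) (nat_lit 6370300413) (nat_lit 39) (nat_lit 5) (nat_lit 44) (nat_lit 5) (nat_lit 40) (nat_lit 5) (nat_lit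 282) (nat_lit 259) (nat_lit 179)) (XT.lf (nat_lit 0) (nat_lit 1048633950) (nat_lit 228) (nat_lit 7700217868) (nat_lit 304) (nat_lit 11928515978) (nat_lit 36) (nat_lit 5) (nat_lit 39) (nat_lit 5) (nat_lit 40) (nat_lit 5) (nat_lit 283) (nat_lit 259) (nat_lit 178))) (XT.nd (nat_lit 78) (nat_lit 0) (nat_lit 0) (XT.lf (nat_lit 0) (nat_lit 10157025359) (nat_lit 228) (nat_lit 1308900173) (nat_lit 304) (nat_lit 9880625242) (nat_lit 36) (nat_lit 5) (nat_lit 39) (nat_lit 5) (nat_lit 40) (nat_lit 5) (nat_lit 284) (nat_lit 259) (nat_lit 177)) (XT.lf (nat_lit 0) (nat_lit 14390805004) (nat_lit 304) (nat_lit 2428189756) (nat_lit 76) (nat_lit 5226645532) (nat_lit 36) (nat_lit 5) (nat_lit 40) (nat_lit 5) (nat_lit 37) (nat_lit 5) (nat_lit 285) (nat_lit 259) (nat_lit 176)))) (XT.nd (nat_lit 156) (nat_lit 304) (nat_lit 0) (XT.nd (nat_lit 78) (nat_lit 0) (nat_lit 0) (XT.lf (nat_lit 0) (nat_lit 6957689496)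 (nat_lit 228) (nat_lit 10622527242) (nat_lit 304) (nat_lit 5193595985) (nat_lit 33) (nat_lit 5) (nat_lit 36) (nat_lit 5) (nat_lit 37) (nat_lit 5) (nat_lit 286) (nat_lit 259) (nat_lit 175)) (XT.lf (nat_lit 0) (nat_lit 16882646640) (nat_lit 228) (nat_lit 4076112027) (nat_lit 304) (nat_lit 2578192943) (nat_lit 33) (nat_lit 5) (nat_lit 36) (nat_lit 5) (nat_lit 37) (nat_lit 5) (nat_lit 287) (nat_lit 259) (nat_lit 174))) (XT.nd (nat_lit 78) (nat_lit 0) (nat_lit 0) (XT.lf (nat_lit 0) (nat_lit 243483687) (nat_lit 304) (nat_lit 21334535671) (nat_lit 76) (nat_lit 2756089974) (nat_lit 29) (nat_lit 5) (nat_lit 33) (nat_lit 5) (nat_lit 30) (nat_lit 5) (nat_lit 288) (nat_lit 259) (nat_lit 173)) (XT.lf (nat_lit 0) (nat_lit 3290091013) (nat_lit 304) (nat_lit 11923784355) (nat_lit 76) (nat_lit 9946647002) (nat_lit 29) (nat_lit 5) (nat_lit 33) (nat_lit 5) (nat_lit 30) (nat_lit 5) (nat_lit 289) (nat_lit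 259) (nat_lit 172))))) (XT.nd (nat_lit 312) (nat_lit 228) (nat_lit 0) (XT.nd (nat_lit 156) (nat_lit 152) (nat_lit 0) (XT.nd (nat_lit 78) (nat_lit 228) (nat_lit 0) (XT.lf (nat_lit 0) (nat_lit 6478674637) (nat_lit 304) (nat_lit 2056332015) (nat_lit 76) (nat_lit 17493800687) (nat_lit 29) (nat_lit 5) (nat_lit 33) (nat_lit 5) (nat_lit 30) (nat_lit 5) (nat_lit 290) (nat_lit 259) (nat_lit 171)) (XT.lf (nat_lit 0) (nat_lit 8565463610) (nat_lit 228) (nat_lit 1385093707) (nat_lit 304) (nat_lit 16983787723) (nat_lit 26) (nat_lit 5) (nat_lit 29) (nat_lit 5) (nat_lit 30) (nat_lit 5) (nat_lit 291) (nat_lit 259) (nat_lit 170))) (XT.nd (nat_lit 78) (nat_lit 152) (nat_lit 0) (XT.lf (nat_lit 0) (nat_lit 13717370004) (nat_lit 304) (nat_lit 8203258181) (nat_lit 76) (nat_lit 5958495104) (nat_lit 26) (nat_lit 5) (nat_lit 30) (nat_lit 5) (nat_lit 27) (nat_lit 5) (nat_lit 292) (nat_lit 259) (nat_lit 169))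 (XT.lf (nat_lit 0) (nat_lit 2515673586) (nat_lit 152) (nat_lit 15209645763) (nat_lit 228) (nat_lit 11143210303) (nat_lit 24) (nat_lit 5) (nat_lit 26) (nat_lit 5) (nat_lit 27) (nat_lit 5) (nat_lit 293) (nat_lit 259) (nat_lit 168)))) (XT.nd (nat_lit 156) (nat_lit 228) (nat_lit 0) (XT.nd (nat_lit 78) (nat_lit 0) (nat_lit 0) (XT.lf (nat_lit 0) (nat_lit 14042773272) (nat_lit 152) (nat_lit 8020873010) (nat_lit 228) (nat_lit 7837288669) (nat_lit 24) (nat_lit 5) (nat_lit 26) (nat_lit 5) (nat_lit 27) (nat_lit 5) (nat_lit 294) (nat_lit 259) (nat_lit 167)) (XT.lf (nat_lit 0) (nat_lit 26134249588) (nat_lit 152) (nat_lit 476119947) (nat_lit 228) (nat_lit 4375043289) (nat_lit 24) (nat_lit 5) (nat_lit 26) (nat_lit 5) (nat_lit 27) (nat_lit 5) (nat_lit 295) (nat_lit 259) (nat_lit 166))) (XT.nd (nat_lit 78) (nat_lit 76) (nat_lit 0) (XT.lf (nat_lit 0) (nat_lit 6795650160) (nat_lit 152) (nat_lit 24802963111)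 (nat_lit 228) (nat_lit 514817158) (nat_lit 22) (nat_lit 5) (nat_lit 24) (nat_lit 5) (nat_lit 25) (nat_lit 5) (nat_lit 296) (nat_lit 259) (nat_lit 165)) (XT.nd (nat_lit 78) (nat_lit 0) (nat_lit 0) (XT.lf (nat_lit 0) (nat_lit 3508366096) (nat_lit 228) (nat_lit 14176800265) (nat_lit 76) (nat_lit 15605783179) (nat_lit 21) (nat_lit 5) (nat_lit 24) (nat_lit 5) (nat_lit 22) (nat_lit 5) (nat_lit 297) (nat_lit 259) (nat_lit 164)) (XT.lf (nat_lit 0) (nat_lit 7707682034) (nat_lit 228) (nat_lit 2498532899) (nat_lit 76) (nat_lit 24321115598) (nat_lit 21) (nat_lit 5) (nat_lit 24) (nat_lit 5) (nat_lit 22) (nat_lit 5) (nat_lit 298) (nat_lit 259) (nat_lit 163))))))) (XT.nd (nat_lit 702) (nat_lit 456) (nat_lit 0) (XT.nd (nat_lit 312) (nat_lit 152) (nat_lit 0) (XT.nd (nat_lit 156) (nat_lit 152) (nat_lit 0) (XT.nd (nat_lit 78) (nat_lit 0) (nat_lit 0) (XT.lf (nat_lit 0) (nat_lit 10075338725) (nat_lit 152)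 (nat_lit 2191571938) (nat_lit 228) (nat_lit 23551143176) (nat_lit 19) (nat_lit 5) (nat_lit 21) (nat_lit 5) (nat_lit 22) (nat_lit 5) (nat_lit 299) (nat_lit 259) (nat_lit 162)) (XT.lf (nat_lit 0) (nat_lit 17187052956) (nat_lit 228) (nat_lit 13915348515) (nat_lit 76) (nat_lit 6064283861) (nat_lit 19) (nat_lit 5) (nat_lit 22) (nat_lit 5) (nat_lit 20) (nat_lit 5) (nat_lit 300) (nat_lit 259) (nat_lit 161))) (XT.nd (nat_lit 78) (nat_lit 152) (nat_lit 0) (XT.lf (nat_lit 0) (nat_lit 22382247568) (nat_lit 228) (nat_lit 1542953917) (nat_lit 76) (nat_lit 14656113352) (nat_lit 19) (nat_lit 5) (nat_lit 22) (nat_lit 5) (nat_lit 20) (nat_lit 5) (nat_lit 301) (nat_lit 259) (nat_lit 160)) (XT.lf (nat_lit 0) (nat_lit 11816340018) (nat_lit 152) (nat_lit 16198793597) (nat_lit 228) (nat_lit 12042663422) (nat_lit 17) (nat_lit 5) (nat_lit 19) (nat_lit 5) (nat_lit 20) (nat_lit 5) (nat_lit 302) (nat_lit 259)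 (nat_lit 159)))) (XT.nd (nat_lit 156) (nat_lit 152) (nat_lit 0) (XT.nd (nat_lit 78) (nat_lit 0) (nat_lit 0) (XT.lf (nat_lit 0) (nat_lit 25887409411) (nat_lit 152) (nat_lit 8061990529) (nat_lit 228) (nat_lit 7657733568) (nat_lit 17) (nat_lit 5) (nat_lit 19) (nat_lit 5) (nat_lit 20) (nat_lit 5) (nat_lit 303) (nat_lit 259) (nat_lit 158)) (XT.lf (nat_lit 0) (nat_lit 40181759344) (nat_lit 228) (nat_lit 2588987630) (nat_lit 76) (nat_lit 463136989) (nat_lit 17) (nat_lit 5) (nat_lit 20) (nat_lit 5) (nat_lit 18) (nat_lit 4) (nat_lit 304) (nat_lit 259) (nat_lit 157))) (XT.nd (nat_lit 78) (nat_lit 0) (nat_lit 0) (XT.lf (nat_lit 0) (nat_lit 2036307539) (nat_lit 152) (nat_lit 33536989312) (nat_lit 76) (nat_lit 9351815544) (nat_lit 15) (nat_lit 5) (nat_lit 17) (nat_lit 5) (nat_lit 16) (nat_lit 5) (nat_lit 305) (nat_lit 259) (nat_lit 156)) (XT.nd (nat_lit 78) (nat_lit 0) (nat_lit 0) (XT.lf (nat_lit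 0) (nat_lit 7315337439) (nat_lit 152) (nat_lit 20604657589) (nat_lit 76) (nat_lit 18776482051) (nat_lit 15) (nat_lit 5) (nat_lit 17) (nat_lit 5) (nat_lit 16) (nat_lit 5) (nat_lit 306) (nat_lit 259) (nat_lit 155)) (XT.lf (nat_lit 0) (nat_lit 12852778828) (nat_lit 152) (nat_lit 7034439904) (nat_lit 76) (nat_lit 28669481555) (nat_lit 15) (nat_lit 5) (nat_lit 17) (nat_lit 5) (nat_lit 16) (nat_lit 5) (nat_lit 307) (nat_lit 259) (nat_lit 154)))))) (XT.nd (nat_lit 312) (nat_lit 304) (nat_lit 0) (XT.nd (nat_lit 156) (nat_lit 0) (nat_lit 0) (XT.nd (nat_lit 78) (nat_lit 0) (nat_lit 0) (XT.lf (nat_lit 0) (nat_lit 7444235821) (nat_lit 152) (nat_lit 11333805651) (nat_lit 228) (nat_lit 31726358378) (nat_lit 13) (nat_lit 5) (nat_lit 15) (nat_lit 5) (nat_lit 16) (nat_lit 5) (nat_lit 308) (nat_lit 259) (nat_lit 153)) (XT.lf (nat_lit 0) (nat_lit 22882884436) (nat_lit 152) (nat_lit 2230661785) (nat_lit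 228) (nat_lit 27430251275) (nat_lit 13) (nat_lit 5) (nat_lit 15) (nat_lit 5) (nat_lit 16) (nat_lit 5) (nat_lit 309) (nat_lit 259) (nat_lit 152))) (XT.nd (nat_lit 78) (nat_lit 0) (nat_lit 0) (XT.lf (nat_lit 0) (nat_lit 31875278856) (nat_lit 228) (nat_lit 15714107553) (nat_lit 76) (nat_lit 7090317459) (nat_lit 13) (nat_lit 5) (nat_lit 16) (nat_lit 5) (nat_lit 14) (nat_lit 4) (nat_lit 310) (nat_lit 259) (nat_lit 151)) (XT.lf (nat_lit 0) (nat_lit 39006949841) (nat_lit 228) (nat_lit 1114151925) (nat_lit 76) (nat_lit 16799722139) (nat_lit 13) (nat_lit 5) (nat_lit 16) (nat_lit 5) (nat_lit 14) (nat_lit 4) (nat_lit 311) (nat_lit 259) (nat_lit 150)))) (XT.nd (nat_lit 156) (nat_lit 228) (nat_lit 0) (XT.nd (nat_lit 78) (nat_lit 0) (nat_lit 0) (XT.lf (nat_lit 0) (nat_lit 14678341086) (nat_lit 76) (nat_lit 32041541415) (nat_lit 152) (nat_lit 12542893947) (nat_lit 12) (nat_lit 5) (nat_lit 13) (nat_lit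 5) (nat_lit 14) (nat_lit 4) (nat_lit 312) (nat_lit 259) (nat_lit 149)) (XT.lf (nat_lit 0) (nat_lit 31291997688) (nat_lit 76) (nat_lit 23540943292) (nat_lit 152) (nat_lit 6888171594) (nat_lit 12) (nat_lit 5) (nat_lit 13) (nat_lit 5) (nat_lit 14) (nat_lit 4) (nat_lit 313) (nat_lit 259) (nat_lit 148))) (XT.nd (nat_lit 78) (nat_lit 228) (nat_lit 0) (XT.lf (nat_lit 0) (nat_lit 48729535311) (nat_lit 76) (nat_lit 14617936579) (nat_lit 152) (nat_lit 955112085) (nat_lit 12) (nat_lit 5) (nat_lit 13) (nat_lit 5) (nat_lit 14) (nat_lit 4) (nat_lit 314) (nat_lit 259) (nat_lit 147)) (XT.nd (nat_lit 78) (nat_lit 152) (nat_lit 0) (XT.lf (nat_lit 0) (nat_lit 5101724850) (nat_lit 152) (nat_lit 63150993) (nat_lit 76) (nat_lit 61844346873) (nat_lit 11) (nat_lit 5) (nat_lit 13) (nat_lit 5) (nat_lit 12) (nat_lit 5) (nat_lit 315) (nat_lit 259) (nat_lit 146)) (XT.lf (nat_lit 0) (nat_lit 11765570221) (nat_lit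 228) (nat_lit 53180446069) (nat_lit 76) (nat_lit 4887589150) (nat_lit 9) (nat_lit 5) (nat_lit 12) (nat_lit 5) (nat_lit 10) (nat_lit 4) (nat_lit 316) (nat_lit 259) (nat_lit 145))))))))
noncomputable def xc172 : XT := (XT.nd (nat_lit 1326) (nat_lit 152) (nat_lit 0) (XT.nd (nat_lit 624) (nat_lit 228) (nat_lit 0) (XT.nd (nat_lit 312) (nat_lit 0) (nat_lit 0) (XT.nd (nat_lit 156) (nat_lit 76) (nat_lit 0) (XT.nd (nat_lit 78) (nat_lit 0) (nat_lit 0) (XT.lf (nat_lit 0) (nat_lit 18844551848) (nat_lit 228) (nat_lit 38682725962) (nat_lit 76) (nat_lit 15267840061) (nat_lit 9) (nat_lit 5) (nat_lit 12) (nat_lit 5) (nat_lit 10) (nat_lit 4) (nat_lit 317) (nat_lit 259) (nat_lit 144)) (XT.lf (nat_lit 0) (nat_lit 26273851001) (nat_lit 228) (nat_lit 23466179107) (nat_lit 76) (nat_lit 26164864792) (nat_lit 9) (nat_lit 5) (nat_lit 12) (nat_lit 5) (nat_lit 10) (nat_lit 4) (nat_lit 318) (nat_lit 259) (nat_lit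 143))) (XT.nd (nat_lit 78) (nat_lit 76) (nat_lit 0) (XT.lf (nat_lit 0) (nat_lit 34071156487) (nat_lit 228) (nat_lit 7494575630) (nat_lit 76) (nat_lit 37604608640) (nat_lit 9) (nat_lit 5) (nat_lit 12) (nat_lit 5) (nat_lit 10) (nat_lit 4) (nat_lit 319) (nat_lit 259) (nat_lit 142)) (XT.lf (nat_lit 0) (nat_lit 9576623864) (nat_lit 76) (nat_lit 32827927391) (nat_lit 152) (nat_lit 40187203164) (nat_lit 8) (nat_lit 5) (nat_lit 9) (nat_lit 5) (nat_lit 10) (nat_lit 4) (nat_lit 320) (nat_lit 259) (nat_lit 141)))) (XT.nd (nat_lit 156) (nat_lit 0) (nat_lit 0) (XT.nd (nat_lit 78) (nat_lit 0) (nat_lit 0) (XT.lf (nat_lit 0) (nat_lit 27756170796) (nat_lit 76) (nat_lit 23522147734) (nat_lit 152) (nat_lit 34899741487) (nat_lit 8) (nat_lit 5) (nat_lit 9) (nat_lit 5) (nat_lit 10) (nat_lit 4) (nat_lit 321) (nat_lit 259) (nat_lit 140)) (XT.lf (nat_lit 0) (nat_lit 46839545282) (nat_lit 76) (nat_lit 13753160793)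 (nat_lit 152) (nat_lit 29351134310) (nat_lit 8) (nat_lit 5) (nat_lit 9) (nat_lit 5) (nat_lit 10) (nat_lit 4) (nat_lit 322) (nat_lit 259) (nat_lit 139))) (XT.nd (nat_lit 78) (nat_lit 0) (nat_lit 0) (XT.lf (nat_lit 0) (nat_lit 66872183929) (nat_lit 76) (nat_lit 3497707076) (nat_lit 152) (nat_lit 23528170664) (nat_lit 8) (nat_lit 5) (nat_lit 9) (nat_lit 5) (nat_lit 10) (nat_lit 4) (nat_lit 323) (nat_lit 259) (nat_lit 138)) (XT.lf (nat_lit 0) (nat_lit 80746636034) (nat_lit 152) (nat_lit 10261838890) (nat_lit 0) (nat_lit 7035989573) (nat_lit 8) (nat_lit 5) (nat_lit 10) (nat_lit 4) (nat_lit 8) (nat_lit 4) (nat_lit 324) (nat_lit 259) (nat_lit 137))))) (XT.nd (nat_lit 312) (nat_lit 76) (nat_lit 0) (XT.nd (nat_lit 156) (nat_lit 76) (nat_lit 0) (XT.nd (nat_lit 78) (nat_lit 0) (nat_lit 0) (XT.lf (nat_lit 0) (nat_lit 7519164378) (nat_lit 76) (nat_lit 84295110215) (nat_lit 76) (nat_lit 10575315316)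 (nat_lit 7) (nat_lit 4) (nat_lit 8) (nat_lit 5) (nat_lit 8) (nat_lit 4) (nat_lit 325) (nat_lit 259) (nat_lit 136)) (XT.lf (nat_lit 0) (nat_lit 26541000922) (nat_lit 76) (nat_lit 77065462479) (nat_lit 76) (nat_lit 3336954783) (nat_lit 7) (nat_lit 4) (nat_lit 8) (nat_lit 5) (nat_lit 8) (nat_lit 4) (nat_lit 326) (nat_lit 259) (nat_lit 135))) (XT.nd (nat_lit 78) (nat_lit 0) (nat_lit 0) (XT.lf (nat_lit 0) (nat_lit 4124329172) (nat_lit 152) (nat_lit 65281930794) (nat_lit 76) (nat_lit 42315481409) (nat_lit 6) (nat_lit 5) (nat_lit 8) (nat_lit 5) (nat_lit 7) (nat_lit 4) (nat_lit 327) (nat_lit 259) (nat_lit 134)) (XT.lf (nat_lit 0) (nat_lit 11844113175) (nat_lit 152) (nat_lit 49464276351) (nat_lit 76) (nat_lit 55427981345) (nat_lit 6) (nat_lit 5) (nat_lit 8) (nat_lit 5) (nat_lit 7) (nat_lit 4) (nat_lit 328) (nat_lit 259) (nat_lit 133)))) (XT.nd (nat_lit 156) (nat_lit 76) (nat_lit 0) (XT.nd (nat_lit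 78) (nat_lit 0) (nat_lit 0) (XT.lf (nat_lit 0) (nat_lit 19947581056) (nat_lit 152) (nat_lit 32859693637) (nat_lit 76) (nat_lit 69194576535) (nat_lit 6) (nat_lit 5) (nat_lit 8) (nat_lit 5) (nat_lit 7) (nat_lit 4) (nat_lit 329) (nat_lit 259) (nat_lit 132)) (XT.lf (nat_lit 0) (nat_lit 28454026786) (nat_lit 152) (nat_lit 15428647931) (nat_lit 76) (nat_lit 83648044588) (nat_lit 6) (nat_lit 5) (nat_lit 8) (nat_lit 5) (nat_lit 7) (nat_lit 4) (nat_lit 330) (nat_lit 259) (nat_lit 131))) (XT.nd (nat_lit 78) (nat_lit 0) (nat_lit 0) (XT.lf (nat_lit 0) (nat_lit 2965270428) (nat_lit 76) (nat_lit 34464729559) (nat_lit 152) (nat_lit 95903824275) (nat_lit 5) (nat_lit 5) (nat_lit 6) (nat_lit 5) (nat_lit 7) (nat_lit 4) (nat_lit 331) (nat_lit 259) (nat_lit 130)) (XT.nd (nat_lit 78) (nat_lit 0) (nat_lit 0) (XT.lf (nat_lit 0) (nat_lit 22811003573) (nat_lit 76) (nat_lit 24303013375) (nat_lit 152) (nat_lit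 92300108824) (nat_lit 5) (nat_lit 5) (nat_lit 6) (nat_lit 5) (nat_lit 7) (nat_lit 4) (nat_lit 332) (nat_lit 259) (nat_lit 129)) (XT.lf (nat_lit 0) (nat_lit 43645662468) (nat_lit 76) (nat_lit 13634623220) (nat_lit 152) (nat_lit 88518257512) (nat_lit 5) (nat_lit 5) (nat_lit 6) (nat_lit 5) (nat_lit 7) (nat_lit 4) (nat_lit 333) (nat_lit 259) (nat_lit 128))))))) (XT.nd (nat_lit 624) (nat_lit 76) (nat_lit 0) (XT.nd (nat_lit 312) (nat_lit 76) (nat_lit 0) (XT.nd (nat_lit 156) (nat_lit 0) (nat_lit 0) (XT.nd (nat_lit 78) (nat_lit 0) (nat_lit 0) (XT.lf (nat_lit 0) (nat_lit 65518853444) (nat_lit 76) (nat_lit 2434158165) (nat_lit 152) (nat_lit 84549265930) (nat_lit 5) (nat_lit 5) (nat_lit 6) (nat_lit 5) (nat_lit 7) (nat_lit 4) (nat_lit 334) (nat_lit 259) (nat_lit 127)) (XT.lf (nat_lit 0) (nat_lit 79303196124) (nat_lit 152) (nat_lit 71204224693) (nat_lit 0) (nat_lit 9026589739) (nat_lit 5) (nat_lit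 5) (nat_lit 7) (nat_lit 4) (nat_lit 5) (nat_lit 4) (nat_lit 335) (nat_lit 259) (nat_lit 126))) (XT.nd (nat_lit 78) (nat_lit 0) (nat_lit 0) (XT.lf (nat_lit 0) (nat_lit 91259091376) (nat_lit 152) (nat_lit 54678940900) (nat_lit 0) (nat_lit 20977390800) (nat_lit 5) (nat_lit 5) (nat_lit 7) (nat_lit 4) (nat_lit 5) (nat_lit 4) (nat_lit 336) (nat_lit 259) (nat_lit 125)) (XT.lf (nat_lit 0) (nat_lit 103811159754) (nat_lit 152) (nat_lit 37330222773) (nat_lit 0) (nat_lit 33524607566) (nat_lit 5) (nat_lit 5) (nat_lit 7) (nat_lit 4) (nat_lit 5) (nat_lit 4) (nat_lit 337) (nat_lit 259) (nat_lit 124)))) (XT.nd (nat_lit 156) (nat_lit 0) (nat_lit 0) (XT.nd (nat_lit 78) (nat_lit 76) (nat_lit 0) (XT.lf (nat_lit 0) (nat_lit 116989287134) (nat_lit 152) (nat_lit 19116763839) (nat_lit 0) (nat_lit 46698114364) (nat_lit 5) (nat_lit 5) (nat_lit 7) (nat_lit 4) (nat_lit 5) (nat_lit 4) (nat_lit 338) (nat_lit 259)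 (nat_lit 123)) (XT.lf (nat_lit 0) (nat_lit 4960031) (nat_lit 76) (nat_lit 130819967418) (nat_lit 76) (nat_lit 60524394094) (nat_lit 4) (nat_lit 4) (nat_lit 5) (nat_lit 5) (nat_lit 5) (nat_lit 4) (nat_lit 339) (nat_lit 259) (nat_lit 122))) (XT.nd (nat_lit 78) (nat_lit 0) (nat_lit 0) (XT.lf (nat_lit 0) (nat_lit 20743935607) (nat_lit 76) (nat_lit 124930725561) (nat_lit 76) (nat_lit 54630961232) (nat_lit 4) (nat_lit 4) (nat_lit 5) (nat_lit 5) (nat_lit 5) (nat_lit 4) (nat_lit 340) (nat_lit 259) (nat_lit 121)) (XT.lf (nat_lit 0) (nat_lit 42517454854) (nat_lit 76) (nat_lit 118748055043) (nat_lit 76) (nat_lit 48444299281) (nat_lit 4) (nat_lit 4) (nat_lit 5) (nat_lit 5) (nat_lit 5) (nat_lit 4) (nat_lit 341) (nat_lit 259) (nat_lit 120))))) (XT.nd (nat_lit 312) (nat_lit 76) (nat_lit 0) (XT.nd (nat_lit 156) (nat_lit 0) (nat_lit 0) (XT.nd (nat_lit 78) (nat_lit 0) (nat_lit 0) (XT.lf (nat_lit 0)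 (nat_lit 65377359485) (nat_lit 76) (nat_lit 112257235219) (nat_lit 76) (nat_lit 41949678092) (nat_lit 4) (nat_lit 4) (nat_lit 5) (nat_lit 5) (nat_lit 5) (nat_lit 4) (nat_lit 342) (nat_lit 259) (nat_lit 119)) (XT.lf (nat_lit 0) (nat_lit 89378077845) (nat_lit 76) (nat_lit 105442811757) (nat_lit 76) (nat_lit 35131634283) (nat_lit 4) (nat_lit 4) (nat_lit 5) (nat_lit 5) (nat_lit 5) (nat_lit 4) (nat_lit 343) (nat_lit 259) (nat_lit 118))) (XT.nd (nat_lit 78) (nat_lit 0) (nat_lit 0) (XT.lf (nat_lit 0) (nat_lit 114576754500) (nat_lit 76) (nat_lit 98288559839) (nat_lit 76) (nat_lit 27973934415) (nat_lit 4) (nat_lit 4) (nat_lit 5) (nat_lit 5) (nat_lit 5) (nat_lit 4) (nat_lit 344) (nat_lit 259) (nat_lit 117)) (XT.lf (nat_lit 0) (nat_lit 141033386301) (nat_lit 76) (nat_lit 90777445531) (nat_lit 76) (nat_lit 20459536347) (nat_lit 4) (nat_lit 4) (nat_lit 5) (nat_lit 5) (nat_lit 5) (nat_lit 4) (nat_lit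 345) (nat_lit 259) (nat_lit 116)))) (XT.nd (nat_lit 156) (nat_lit 76) (nat_lit 0) (XT.nd (nat_lit 78) (nat_lit 0) (nat_lit 0) (XT.lf (nat_lit 0) (nat_lit 168810965228) (nat_lit 76) (nat_lit 82891585229) (nat_lit 76) (nat_lit 12570548653) (nat_lit 4) (nat_lit 4) (nat_lit 5) (nat_lit 5) (nat_lit 5) (nat_lit 4) (nat_lit 346) (nat_lit 259) (nat_lit 115)) (XT.lf (nat_lit 0) (nat_lit 197975628373) (nat_lit 76) (nat_lit 74612203075) (nat_lit 76) (nat_lit 4288188030) (nat_lit 4) (nat_lit 4) (nat_lit 5) (nat_lit 5) (nat_lit 5) (nat_lit 4) (nat_lit 347) (nat_lit 259) (nat_lit 114))) (XT.nd (nat_lit 78) (nat_lit 0) (nat_lit 0) (XT.lf (nat_lit 0) (nat_lit 4266205410) (nat_lit 152) (nat_lit 61581130590) (nat_lit 76) (nat_lit 224258359747) (nat_lit 3) (nat_lit 5) (nat_lit 5) (nat_lit 5) (nat_lit 4) (nat_lit 4) (nat_lit 348) (nat_lit 259) (nat_lit 113)) (XT.nd (nat_lit 78) (nat_lit 0) (nat_lit 0)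 (XT.lf (nat_lit 0) (nat_lit 13103262159) (nat_lit 152) (nat_lit 43467865813) (nat_lit 76) (nat_lit 247422261684) (nat_lit 3) (nat_lit 5) (nat_lit 5) (nat_lit 5) (nat_lit 4) (nat_lit 4) (nat_lit 349) (nat_lit 259) (nat_lit 112)) (XT.lf (nat_lit 0) (nat_lit 22381271625) (nat_lit 152) (nat_lit 24450519322) (nat_lit 76) (nat_lit 271743723729) (nat_lit 3) (nat_lit 5) (nat_lit 5) (nat_lit 5) (nat_lit 4) (nat_lit 4) (nat_lit 350) (nat_lit 259) (nat_lit 111))))))))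
noncomputable def xc173 : XT := (XT.nd (nat_lit 31278) (nat_lit 0) (nat_lit 2356) (XT.nd (nat_lit 30576) (nat_lit 0) (nat_lit 4636) (XT.nd (nat_lit 312) (nat_lit 0) (nat_lit 0) (XT.nd (nat_lit 156) (nat_lit 0) (nat_lit 0) (XT.nd (nat_lit 78) (nat_lit 76) (nat_lit 0) (XT.lf (nat_lit 0) (nat_lit 32122324306) (nat_lit 152) (nat_lit 4483811719) (nat_lit 76) (nat_lit 297280654126) (nat_lit 3) (nat_lit 5) (nat_lit 5) (nat_lit 5) (nat_lit 4) (nat_lit 4) (nat_lit 351) (nat_lit 259) (nat_lit 110)) (XT.lf (nat_lit 0) (nat_lit 17024693280) (nat_lit 76) (nat_lit 25590723078) (nat_lit 152) (nat_lit 307334964981) (nat_lit 2) (nat_lit 5) (nat_lit 3) (nat_lit 5) (nat_lit 4) (nat_lit 4) (nat_lit 352) (nat_lit 259) (nat_lit 109))) (XT.nd (nat_lit 78) (nat_lit 0) (nat_lit 0) (XT.lf (nat_lit 0) (nat_lit 39762879996) (nat_lit 76) (nat_lit 13945418945) (nat_lit 152) (nat_lit 313105097567) (nat_lit 2) (nat_lit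 5) (nat_lit 3) (nat_lit 5) (nat_lit 4) (nat_lit 4) (nat_lit 353) (nat_lit 259) (nat_lit 108)) (XT.lf (nat_lit 0) (nat_lit 63636631904) (nat_lit 76) (nat_lit 1718432232) (nat_lit 152) (nat_lit 319164537534) (nat_lit 2) (nat_lit 5) (nat_lit 3) (nat_lit 5) (nat_lit 4) (nat_lit 4) (nat_lit 354) (nat_lit 259) (nat_lit 107)))) (XT.nd (nat_lit 30108) (nat_lit 0) (nat_lit 5092) (XT.nd (nat_lit 78) (nat_lit 0) (nat_lit 0) (XT.lf (nat_lit 0) (nat_lit 77757046535) (nat_lit 152) (nat_lit 314581967386) (nat_lit 0) (nat_lit 10763460325) (nat_lit 2) (nat_lit 5) (nat_lit 4) (nat_lit 4) (nat_lit 2) (nat_lit 4) (nat_lit 355) (nat_lit 259) (nat_lit 106)) (XT.lf (nat_lit 0) (nat_lit 90806600105) (nat_lit 152) (nat_lit 307995332422) (nat_lit 0) (nat_lit 23811185373) (nat_lit 2) (nat_lit 5) (nat_lit 4) (nat_lit 4) (nat_lit 2) (nat_lit 4) (nat_lit 356) (nat_lit 259) (nat_lit 105))) (XT.nd (nat_lit 78) (nat_lit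 0) (nat_lit 0) (XT.lf (nat_lit 0) (nat_lit 3077414528) (nat_lit 684) (nat_lit 1283433795) (nat_lit 684) (nat_lit 1283433795) (nat_lit 69) (nat_lit 3) (nat_lit 78) (nat_lit 3) (nat_lit 78) (nat_lit 5) (nat_lit 260) (nat_lit 260) (nat_lit 200)) (XT.lf (nat_lit 76) (nat_lit 2133512562) (nat_lit 0) (nat_lit 4682282708) (nat_lit 684) (nat_lit 4727361330) (nat_lit 70) (nat_lit 5) (nat_lit 69) (nat_lit 3) (nat_lit 78) (nat_lit 5) (nat_lit 261) (nat_lit 260) (nat_lit 199))))) (XT.nd (nat_lit 312) (nat_lit 456) (nat_lit 0) (XT.nd (nat_lit 156) (nat_lit 0) (nat_lit 76) (XT.nd (nat_lit 78) (nat_lit 0) (nat_lit 76) (XT.lf (nat_lit 76) (nat_lit 7141503856) (nat_lit 0) (nat_lit 381190920) (nat_lit 684) (nat_lit 4287284669) (nat_lit 70) (nat_lit 5) (nat_lit 69) (nat_lit 3) (nat_lit 78) (nat_lit 5) (nat_lit 262) (nat_lit 260) (nat_lit 198)) (XT.lf (nat_lit 76) (nat_lit 235179595) (nat_lit 0) (nat_lit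 8069069137) (nat_lit 684) (nat_lit 3784067430) (nat_lit 71) (nat_lit 5) (nat_lit 70) (nat_lit 5) (nat_lit 79) (nat_lit 5) (nat_lit 263) (nat_lit 260) (nat_lit 197))) (XT.nd (nat_lit 78) (nat_lit 0) (nat_lit 76) (XT.lf (nat_lit 76) (nat_lit 5522383074) (nat_lit 0) (nat_lit 3659895596) (nat_lit 684) (nat_lit 3195552755) (nat_lit 71) (nat_lit 5) (nat_lit 70) (nat_lit 5) (nat_lit 79) (nat_lit 5) (nat_lit 264) (nat_lit 260) (nat_lit 196)) (XT.lf (nat_lit 0) (nat_lit 10093018927) (nat_lit 608) (nat_lit 1641058702) (nat_lit 684) (nat_lit 948429734) (nat_lit 71) (nat_lit 5) (nat_lit 79) (nat_lit 5) (nat_lit 80) (nat_lit 5) (nat_lit 265) (nat_lit 260) (nat_lit 195)))) (XT.nd (nat_lit 156) (nat_lit 608) (nat_lit 0) (XT.nd (nat_lit 78) (nat_lit 0) (nat_lit 0) (XT.lf (nat_lit 76) (nat_lit 3881087687) (nat_lit 0) (nat_lit 7263723852) (nat_lit 684) (nat_lit 1852949180) (nat_lit 72) (nat_lit 5) (nat_lit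 71) (nat_lit 5) (nat_lit 80) (nat_lit 5) (nat_lit 266) (nat_lit 260) (nat_lit 194)) (XT.lf (nat_lit 76) (nat_lit 9719408906) (nat_lit 0) (nat_lit 2533429612) (nat_lit 684) (nat_lit 1075869688) (nat_lit 72) (nat_lit 5) (nat_lit 71) (nat_lit 5) (nat_lit 80) (nat_lit 5) (nat_lit 267) (nat_lit 260) (nat_lit 193))) (XT.nd (nat_lit 78) (nat_lit 684) (nat_lit 0) (XT.lf (nat_lit 76) (nat_lit 2188014255) (nat_lit 0) (nat_lit 11277515657) (nat_lit 684) (nat_lit 208318290) (nat_lit 73) (nat_lit 5) (nat_lit 72) (nat_lit 5) (nat_lit 81) (nat_lit 5) (nat_lit 268) (nat_lit 260) (nat_lit 192)) (XT.nd (nat_lit 78) (nat_lit 0) (nat_lit 0) (XT.lf (nat_lit 0) (nat_lit 761251900) (nat_lit 684) (nat_lit 5704220670) (nat_lit 760) (nat_lit 7566265901) (nat_lit 63) (nat_lit 5) (nat_lit 72) (nat_lit 5) (nat_lit 73) (nat_lit 5) (nat_lit 269) (nat_lit 260) (nat_lit 191)) (XT.lf (nat_lit 76) (nat_lit 357324804)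 (nat_lit 0) (nat_lit 1399096860) (nat_lit 760) (nat_lit 12651818283) (nat_lit 64) (nat_lit 5) (nat_lit 63) (nat_lit 5) (nat_lit 73) (nat_lit 5) (nat_lit 270) (nat_lit 260) (nat_lit 190))))))) (XT.nd (nat_lit 702) (nat_lit 1064) (nat_lit 0) (XT.nd (nat_lit 312) (nat_lit 608) (nat_lit 0) (XT.nd (nat_lit 156) (nat_lit 684) (nat_lit 0) (XT.nd (nat_lit 78) (nat_lit 0) (nat_lit 0) (XT.lf (nat_lit 0) (nat_lit 2940109351) (nat_lit 684) (nat_lit 7959622835) (nat_lit 76) (nat_lit 3896985429) (nat_lit 64) (nat_lit 5) (nat_lit 73) (nat_lit 5) (nat_lit 65) (nat_lit 5) (nat_lit 271) (nat_lit 260) (nat_lit 189)) (XT.lf (nat_lit 0) (nat_lit 4186260779) (nat_lit 684) (nat_lit 1603917689) (nat_lit 76) (nat_lit 9414361574) (nat_lit 64) (nat_lit 5) (nat_lit 73) (nat_lit 5) (nat_lit 65) (nat_lit 5) (nat_lit 272) (nat_lit 260) (nat_lit 188))) (XT.nd (nat_lit 78) (nat_lit 0) (nat_lit 0) (XT.lf (nat_lit 0)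 (nat_lit 5220257591) (nat_lit 684) (nat_lit 337244413) (nat_lit 760) (nat_lit 10072193280) (nat_lit 55) (nat_lit 5) (nat_lit 64) (nat_lit 5) (nat_lit 65) (nat_lit 5) (nat_lit 273) (nat_lit 260) (nat_lit 187)) (XT.lf (nat_lit 0) (nat_lit 7090990155) (nat_lit 760) (nat_lit 3735139386) (nat_lit 76) (nat_lit 5245371462) (nat_lit 55) (nat_lit 5) (nat_lit 65) (nat_lit 5) (nat_lit 56) (nat_lit 5) (nat_lit 274) (nat_lit 260) (nat_lit 186)))) (XT.nd (nat_lit 156) (nat_lit 304) (nat_lit 0) (XT.nd (nat_lit 78) (nat_lit 0) (nat_lit 0) (XT.lf (nat_lit 0) (nat_lit 3358511966) (nat_lit 304) (nat_lit 5383414091) (nat_lit 380) (nat_lit 7791505575) (nat_lit 51) (nat_lit 5) (nat_lit 55) (nat_lit 5) (nat_lit 56) (nat_lit 5) (nat_lit 275) (nat_lit 260) (nat_lit 185)) (XT.lf (nat_lit 0) (nat_lit 10528262336) (nat_lit 380) (nat_lit 6101959137) (nat_lit 76) (nat_lit 385664445) (nat_lit 51) (nat_lit 5) (nat_lit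 56) (nat_lit 5) (nat_lit 52) (nat_lit 5) (nat_lit 276) (nat_lit 260) (nat_lit 184))) (XT.nd (nat_lit 78) (nat_lit 0) (nat_lit 0) (XT.lf (nat_lit 0) (nat_lit 1260578345) (nat_lit 304) (nat_lit 11235447632) (nat_lit 380) (nat_lit 5021897892) (nat_lit 47) (nat_lit 5) (nat_lit 51) (nat_lit 5) (nat_lit 52) (nat_lit 5) (nat_lit 277) (nat_lit 260) (nat_lit 183)) (XT.nd (nat_lit 78) (nat_lit 0) (nat_lit 0) (XT.lf (nat_lit 0) (nat_lit 9187184903) (nat_lit 304) (nat_lit 5463014411) (nat_lit 380) (nat_lit 3390526640) (nat_lit 47) (nat_lit 5) (nat_lit 51) (nat_lit 5) (nat_lit 52) (nat_lit 5) (nat_lit 278) (nat_lit 260) (nat_lit 182)) (XT.lf (nat_lit 0) (nat_lit 16906821011) (nat_lit 380) (nat_lit 1104811168) (nat_lit 76) (nat_lit 578359278) (nat_lit 47) (nat_lit 5) (nat_lit 52) (nat_lit 5) (nat_lit 48) (nat_lit 5) (nat_lit 279) (nat_lit 260) (nat_lit 181)))))) (XT.nd (nat_lit 312) (nat_lit 456)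 (nat_lit 0) (XT.nd (nat_lit 156) (nat_lit 304) (nat_lit 0) (XT.nd (nat_lit 78) (nat_lit 0) (nat_lit 0) (XT.lf (nat_lit 0) (nat_lit 296438437) (nat_lit 304) (nat_lit 12006536224) (nat_lit 76) (nat_lit 6854195180) (nat_lit 43) (nat_lit 5) (nat_lit 47) (nat_lit 5) (nat_lit 44) (nat_lit 5) (nat_lit 280) (nat_lit 260) (nat_lit 180)) (XT.lf (nat_lit 0) (nat_lit 2323732345) (nat_lit 304) (nat_lit 3937895341) (nat_lit 76) (nat_lit 13489488391) (nat_lit 43) (nat_lit 5) (nat_lit 47) (nat_lit 5) (nat_lit 44) (nat_lit 5) (nat_lit 281) (nat_lit 260) (nat_lit 179))) (XT.nd (nat_lit 78) (nat_lit 0) (nat_lit 0) (XT.lf (nat_lit 0) (nat_lit 4514640206) (nat_lit 380) (nat_lit 15705350350) (nat_lit 76) (nat_lit 151706213) (nat_lit 39) (nat_lit 5) (nat_lit 44) (nat_lit 5) (nat_lit 40) (nat_lit 5) (nat_lit 282) (nat_lit 260) (nat_lit 178)) (XT.lf (nat_lit 0) (nat_lit 6972804215) (nat_lit 380) (nat_lit 7301313602)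 (nat_lit 76) (nat_lit 6741350387) (nat_lit 39) (nat_lit 5) (nat_lit 44) (nat_lit 5) (nat_lit 40) (nat_lit 5) (nat_lit 283) (nat_lit 260) (nat_lit 177)))) (XT.nd (nat_lit 156) (nat_lit 228) (nat_lit 0) (XT.nd (nat_lit 78) (nat_lit 0) (nat_lit 0) (XT.lf (nat_lit 0) (nat_lit 1558409731) (nat_lit 228) (nat_lit 8007681337) (nat_lit 304) (nat_lit 12124771405) (nat_lit 36) (nat_lit 5) (nat_lit 39) (nat_lit 5) (nat_lit 40) (nat_lit 5) (nat_lit 284) (nat_lit 260) (nat_lit 176)) (XT.lf (nat_lit 0) (nat_lit 11100442420) (nat_lit 228) (nat_lit 1300490492) (nat_lit 304) (nat_lit 9993541864) (nat_lit 36) (nat_lit 5) (nat_lit 39) (nat_lit 5) (nat_lit 40) (nat_lit 5) (nat_lit 285) (nat_lit 260) (nat_lit 175))) (XT.nd (nat_lit 78) (nat_lit 228) (nat_lit 0) (XT.lf (nat_lit 0) (nat_lit 15455930190) (nat_lit 304) (nat_lit 2117393289) (nat_lit 76) (nat_lit 5556064360) (nat_lit 36) (nat_lit 5) (nat_lit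 40) (nat_lit 5) (nat_lit 37) (nat_lit 5) (nat_lit 286) (nat_lit 260) (nat_lit 174)) (XT.nd (nat_lit 78) (nat_lit 0) (nat_lit 0) (XT.lf (nat_lit 0) (nat_lit 7730808861) (nat_lit 228) (nat_lit 11064186332) (nat_lit 304) (nat_lit 5099524337) (nat_lit 33) (nat_lit 5) (nat_lit 36) (nat_lit 5) (nat_lit 37) (nat_lit 5) (nat_lit 287) (nat_lit 260) (nat_lit 173)) (XT.lf (nat_lit 0) (nat_lit 18131764582) (nat_lit 228) (nat_lit 4194710702) (nat_lit 304) (nat_lit 2370196449) (nat_lit 33) (nat_lit 5) (nat_lit 36) (nat_lit 5) (nat_lit 37) (nat_lit 5) (nat_lit 288) (nat_lit 260) (nat_lit 172))))))))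
noncomputable def xc174 : XT := (XT.nd (nat_lit 1326) (nat_lit 684) (nat_lit 0) (XT.nd (nat_lit 624) (nat_lit 532) (nat_lit 0) (XT.nd (nat_lit 312) (nat_lit 152) (nat_lit 0) (XT.nd (nat_lit 156) (nat_lit 228) (nat_lit 0) (XT.nd (nat_lit 78) (nat_lit 0) (nat_lit 0) (XT.lf (nat_lit 0) (nat_lit 574108581) (nat_lit 304) (nat_lit 21975704434) (nat_lit 76) (nat_lit 2984046575) (nat_lit 29) (nat_lit 5) (nat_lit 33) (nat_lit 5) (nat_lit 30) (nat_lit 5) (nat_lit 289) (nat_lit 260) (nat_lit 171)) (XT.lf (nat_lit 0) (nat_lit 3757881953) (nat_lit 304) (nat_lit 12114680220) (nat_lit 76) (nat_lit 10529838497) (nat_lit 29) (nat_lit 5) (nat_lit 33) (nat_lit 5) (nat_lit 30) (nat_lit 5) (nat_lit 290) (nat_lit 260) (nat_lit 170))) (XT.nd (nat_lit 78) (nat_lit 228) (nat_lit 0) (XT.lf (nat_lit 0) (nat_lit 7091452550) (nat_lit 304) (nat_lit 1773154946) (nat_lit 76) (nat_lit 18450261336) (nat_lit 29) (nat_lit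 5) (nat_lit 33) (nat_lit 5) (nat_lit 30) (nat_lit 5) (nat_lit 291) (nat_lit 260) (nat_lit 169)) (XT.lf (nat_lit 0) (nat_lit 9373504756) (nat_lit 228) (nat_lit 1355599366) (nat_lit 304) (nat_lit 17537015162) (nat_lit 26) (nat_lit 5) (nat_lit 29) (nat_lit 5) (nat_lit 30) (nat_lit 5) (nat_lit 292) (nat_lit 260) (nat_lit 168)))) (XT.nd (nat_lit 156) (nat_lit 0) (nat_lit 0) (XT.nd (nat_lit 78) (nat_lit 152) (nat_lit 0) (XT.lf (nat_lit 0) (nat_lit 14672343921) (nat_lit 304) (nat_lit 8238974209) (nat_lit 76) (nat_lit 6347456470) (nat_lit 26) (nat_lit 5) (nat_lit 30) (nat_lit 5) (nat_lit 27) (nat_lit 5) (nat_lit 293) (nat_lit 260) (nat_lit 167)) (XT.lf (nat_lit 0) (nat_lit 3009864680) (nat_lit 152) (nat_lit 15863763382) (nat_lit 228) (nat_lit 11424416809) (nat_lit 24) (nat_lit 5) (nat_lit 26) (nat_lit 5) (nat_lit 27) (nat_lit 5) (nat_lit 294) (nat_lit 260) (nat_lit 166))) (XT.nd (nat_lit 78)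 (nat_lit 0) (nat_lit 0) (XT.lf (nat_lit 0) (nat_lit 15095776140) (nat_lit 152) (nat_lit 8320616975) (nat_lit 228) (nat_lit 7966339761) (nat_lit 24) (nat_lit 5) (nat_lit 26) (nat_lit 5) (nat_lit 27) (nat_lit 5) (nat_lit 295) (nat_lit 260) (nat_lit 165)) (XT.lf (nat_lit 0) (nat_lit 27775118453) (nat_lit 152) (nat_lit 403450054) (nat_lit 228) (nat_lit 4343497032) (nat_lit 24) (nat_lit 5) (nat_lit 26) (nat_lit 5) (nat_lit 27) (nat_lit 5) (nat_lit 296) (nat_lit 260) (nat_lit 164))))) (XT.nd (nat_lit 312) (nat_lit 152) (nat_lit 0) (XT.nd (nat_lit 156) (nat_lit 152) (nat_lit 0) (XT.nd (nat_lit 78) (nat_lit 76) (nat_lit 0) (XT.lf (nat_lit 0) (nat_lit 7475131881) (nat_lit 152) (nat_lit 25936512619) (nat_lit 228) (nat_lit 295103469) (nat_lit 22) (nat_lit 5) (nat_lit 24) (nat_lit 5) (nat_lit 25) (nat_lit 5) (nat_lit 297) (nat_lit 260) (nat_lit 163)) (XT.lf (nat_lit 0) (nat_lit 3910068657) (nat_lit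 228) (nat_lit 14554001267) (nat_lit 76) (nat_lit 16479478909) (nat_lit 21) (nat_lit 5) (nat_lit 24) (nat_lit 5) (nat_lit 22) (nat_lit 5) (nat_lit 298) (nat_lit 260) (nat_lit 162))) (XT.nd (nat_lit 78) (nat_lit 152) (nat_lit 0) (XT.lf (nat_lit 0) (nat_lit 8308574951) (nat_lit 228) (nat_lit 2307612866) (nat_lit 76) (nat_lit 25626130017) (nat_lit 21) (nat_lit 5) (nat_lit 24) (nat_lit 5) (nat_lit 22) (nat_lit 5) (nat_lit 299) (nat_lit 260) (nat_lit 161)) (XT.lf (nat_lit 0) (nat_lit 10889858038) (nat_lit 152) (nat_lit 2200496365) (nat_lit 228) (nat_lit 24507522187) (nat_lit 19) (nat_lit 5) (nat_lit 21) (nat_lit 5) (nat_lit 22) (nat_lit 5) (nat_lit 300) (nat_lit 260) (nat_lit 160)))) (XT.nd (nat_lit 156) (nat_lit 152) (nat_lit 0) (XT.nd (nat_lit 78) (nat_lit 0) (nat_lit 0) (XT.lf (nat_lit 0) (nat_lit 18247995793) (nat_lit 228) (nat_lit 14306105633) (nat_lit 76) (nat_lit 6460291014) (nat_lit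 19) (nat_lit 5) (nat_lit 22) (nat_lit 5) (nat_lit 20) (nat_lit 5) (nat_lit 301) (nat_lit 260) (nat_lit 159)) (XT.lf (nat_lit 0) (nat_lit 23693350604) (nat_lit 228) (nat_lit 1329615605) (nat_lit 76) (nat_lit 15477293267) (nat_lit 19) (nat_lit 5) (nat_lit 22) (nat_lit 5) (nat_lit 20) (nat_lit 5) (nat_lit 302) (nat_lit 260) (nat_lit 158))) (XT.nd (nat_lit 78) (nat_lit 0) (nat_lit 0) (XT.lf (nat_lit 0) (nat_lit 12692957768) (nat_lit 152) (nat_lit 16910242923) (nat_lit 228) (nat_lit 12447623944) (nat_lit 17) (nat_lit 5) (nat_lit 19) (nat_lit 5) (nat_lit 20) (nat_lit 5) (nat_lit 303) (nat_lit 260) (nat_lit 157)) (XT.nd (nat_lit 78) (nat_lit 0) (nat_lit 0) (XT.lf (nat_lit 0) (nat_lit 27453971071) (nat_lit 152) (nat_lit 8371289718) (nat_lit 228) (nat_lit 7852836771) (nat_lit 17) (nat_lit 5) (nat_lit 19) (nat_lit 5) (nat_lit 20) (nat_lit 5) (nat_lit 304) (nat_lit 260) (nat_lit 156)) (XT.lf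 (nat_lit 0) (nat_lit 42362138111) (nat_lit 228) (nat_lit 2451656701) (nat_lit 76) (nat_lit 572768258) (nat_lit 17) (nat_lit 5) (nat_lit 20) (nat_lit 5) (nat_lit 18) (nat_lit 4) (nat_lit 305) (nat_lit 260) (nat_lit 155))))))) (XT.nd (nat_lit 624) (nat_lit 304) (nat_lit 0) (XT.nd (nat_lit 312) (nat_lit 76) (nat_lit 0) (XT.nd (nat_lit 156) (nat_lit 152) (nat_lit 0) (XT.nd (nat_lit 78) (nat_lit 0) (nat_lit 0) (XT.lf (nat_lit 0) (nat_lit 2308511891) (nat_lit 152) (nat_lit 34945318882) (nat_lit 76) (nat_lit 9908609128) (nat_lit 15) (nat_lit 5) (nat_lit 17) (nat_lit 5) (nat_lit 16) (nat_lit 5) (nat_lit 306) (nat_lit 260) (nat_lit 154)) (XT.lf (nat_lit 0) (nat_lit 7843379526) (nat_lit 152) (nat_lit 21379157236) (nat_lit 76) (nat_lit 19800261208) (nat_lit 15) (nat_lit 5) (nat_lit 17) (nat_lit 5) (nat_lit 16) (nat_lit 5) (nat_lit 307) (nat_lit 260) (nat_lit 153))) (XT.nd (nat_lit 78) (nat_lit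 152) (nat_lit 0) (XT.lf (nat_lit 0) (nat_lit 13649965593) (nat_lit 152) (nat_lit 7142606439) (nat_lit 76) (nat_lit 30183865209) (nat_lit 15) (nat_lit 5) (nat_lit 17) (nat_lit 5) (nat_lit 16) (nat_lit 5) (nat_lit 308) (nat_lit 260) (nat_lit 152)) (XT.lf (nat_lit 0) (nat_lit 8056074759) (nat_lit 152) (nat_lit 11811798442) (nat_lit 228) (nat_lit 33153847140) (nat_lit 13) (nat_lit 5) (nat_lit 15) (nat_lit 5) (nat_lit 16) (nat_lit 5) (nat_lit 309) (nat_lit 260) (nat_lit 151)))) (XT.nd (nat_lit 156) (nat_lit 76) (nat_lit 0) (XT.nd (nat_lit 78) (nat_lit 0) (nat_lit 0) (XT.lf (nat_lit 0) (nat_lit 24255244987) (nat_lit 152) (nat_lit 2257721072) (nat_lit 228) (nat_lit 28650497976) (nat_lit 13) (nat_lit 5) (nat_lit 15) (nat_lit 5) (nat_lit 16) (nat_lit 5) (nat_lit 310) (nat_lit 260) (nat_lit 150)) (XT.lf (nat_lit 0) (nat_lit 33607196514) (nat_lit 228) (nat_lit 16276555033) (nat_lit 76) (nat_lit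 7522709630) (nat_lit 13) (nat_lit 5) (nat_lit 16) (nat_lit 5) (nat_lit 14) (nat_lit 4) (nat_lit 311) (nat_lit 260) (nat_lit 149))) (XT.nd (nat_lit 78) (nat_lit 76) (nat_lit 0) (XT.lf (nat_lit 0) (nat_lit 41088872300) (nat_lit 228) (nat_lit 957232952) (nat_lit 76) (nat_lit 17713876149) (nat_lit 13) (nat_lit 5) (nat_lit 16) (nat_lit 5) (nat_lit 14) (nat_lit 4) (nat_lit 312) (nat_lit 260) (nat_lit 148)) (XT.lf (nat_lit 0) (nat_lit 15621455249) (nat_lit 76) (nat_lit 33562997023) (nat_lit 152) (nat_lit 13034743787) (nat_lit 12) (nat_lit 5) (nat_lit 13) (nat_lit 5) (nat_lit 14) (nat_lit 4) (nat_lit 313) (nat_lit 260) (nat_lit 147))))) (XT.nd (nat_lit 312) (nat_lit 76) (nat_lit 0) (XT.nd (nat_lit 156) (nat_lit 228) (nat_lit 0) (XT.nd (nat_lit 78) (nat_lit 0) (nat_lit 0) (XT.lf (nat_lit 0) (nat_lit 33055832914) (nat_lit 76) (nat_lit 24641208111) (nat_lit 152) (nat_lit 7103727929) (nat_lit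 12) (nat_lit 5) (nat_lit 13) (nat_lit 5) (nat_lit 14) (nat_lit 4) (nat_lit 314) (nat_lit 260) (nat_lit 146)) (XT.lf (nat_lit 0) (nat_lit 51355760021) (nat_lit 76) (nat_lit 15275707365) (nat_lit 152) (nat_lit 880151265) (nat_lit 12) (nat_lit 5) (nat_lit 13) (nat_lit 5) (nat_lit 14) (nat_lit 4) (nat_lit 315) (nat_lit 260) (nat_lit 145))) (XT.nd (nat_lit 78) (nat_lit 0) (nat_lit 0) (XT.lf (nat_lit 0) (nat_lit 122297670) (nat_lit 152) (nat_lit 5349554957) (nat_lit 228) (nat_lit 64881840210) (nat_lit 9) (nat_lit 5) (nat_lit 11) (nat_lit 5) (nat_lit 12) (nat_lit 5) (nat_lit 316) (nat_lit 260) (nat_lit 144)) (XT.lf (nat_lit 0) (nat_lit 12465541219) (nat_lit 228) (nat_lit 55653109251) (nat_lit 76) (nat_lit 5200823059) (nat_lit 9) (nat_lit 5) (nat_lit 12) (nat_lit 5) (nat_lit 10) (nat_lit 4) (nat_lit 317) (nat_lit 260) (nat_lit 143)))) (XT.nd (nat_lit 156) (nat_lit 76) (nat_lit 0) (XT.nd (nat_lit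 78) (nat_lit 0) (nat_lit 0) (XT.lf (nat_lit 0) (nat_lit 19893153238) (nat_lit 228) (nat_lit 40439377382) (nat_lit 76) (nat_lit 16096807732) (nat_lit 9) (nat_lit 5) (nat_lit 12) (nat_lit 5) (nat_lit 10) (nat_lit 4) (nat_lit 318) (nat_lit 260) (nat_lit 142)) (XT.lf (nat_lit 0) (nat_lit 27688851929) (nat_lit 228) (nat_lit 24470454845) (nat_lit 76) (nat_lit 27535561049) (nat_lit 9) (nat_lit 5) (nat_lit 12) (nat_lit 5) (nat_lit 10) (nat_lit 4) (nat_lit 319) (nat_lit 260) (nat_lit 141))) (XT.nd (nat_lit 78) (nat_lit 76) (nat_lit 0) (XT.lf (nat_lit 0) (nat_lit 35871198481) (nat_lit 228) (nat_lit 7708320396) (nat_lit 76) (nat_lit 39544318136) (nat_lit 9) (nat_lit 5) (nat_lit 12) (nat_lit 5) (nat_lit 10) (nat_lit 4) (nat_lit 320) (nat_lit 260) (nat_lit 140)) (XT.nd (nat_lit 78) (nat_lit 0) (nat_lit 0) (XT.lf (nat_lit 0) (nat_lit 10213842557) (nat_lit 76) (nat_lit 34405298819) (nat_lit 152)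 (nat_lit 42097295422) (nat_lit 8) (nat_lit 5) (nat_lit 9) (nat_lit 5) (nat_lit 10) (nat_lit 4) (nat_lit 321) (nat_lit 260) (nat_lit 139)) (XT.lf (nat_lit 0) (nat_lit 29294824574) (nat_lit 76) (nat_lit 24637278985) (nat_lit 152) (nat_lit 36550187704) (nat_lit 8) (nat_lit 5) (nat_lit 9) (nat_lit 5) (nat_lit 10) (nat_lit 4) (nat_lit 322) (nat_lit 260) (nat_lit 138))))))))
noncomputable def xc175 : XT := (XT.nd (nat_lit 1326) (nat_lit 228) (nat_lit 0) (XT.nd (nat_lit 624) (nat_lit 76) (nat_lit 0) (XT.nd (nat_lit 312) (nat_lit 76) (nat_lit 0) (XT.nd (nat_lit 156) (nat_lit 76) (nat_lit 0) (XT.nd (nat_lit 78) (nat_lit 0) (nat_lit 0) (XT.lf (nat_lit 0) (nat_lit 49325184678) (nat_lit 76) (nat_lit 14382746323) (nat_lit 152) (nat_lit 30728652114) (nat_lit 8) (nat_lit 5) (nat_lit 9) (nat_lit 5) (nat_lit 10) (nat_lit 4) (nat_lit 323) (nat_lit 260) (nat_lit 137)) (XT.lf (nat_lit 0) (nat_lit 70352614203)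 (nat_lit 76) (nat_lit 3617285278) (nat_lit 152) (nat_lit 24618827854) (nat_lit 8) (nat_lit 5) (nat_lit 9) (nat_lit 5) (nat_lit 10) (nat_lit 4) (nat_lit 324) (nat_lit 260) (nat_lit 136))) (XT.nd (nat_lit 78) (nat_lit 76) (nat_lit 0) (XT.lf (nat_lit 0) (nat_lit 84862422527) (nat_lit 152) (nat_lit 10641411790) (nat_lit 0) (nat_lit 7438776649) (nat_lit 8) (nat_lit 5) (nat_lit 10) (nat_lit 4) (nat_lit 8) (nat_lit 4) (nat_lit 325) (nat_lit 260) (nat_lit 135)) (XT.lf (nat_lit 0) (nat_lit 8026488108) (nat_lit 76) (nat_lit 88455269951) (nat_lit 76) (nat_lit 11023326172) (nat_lit 7) (nat_lit 4) (nat_lit 8) (nat_lit 5) (nat_lit 8) (nat_lit 4) (nat_lit 326) (nat_lit 260) (nat_lit 134)))) (XT.nd (nat_lit 156) (nat_lit 0) (nat_lit 0) (XT.nd (nat_lit 78) (nat_lit 76) (nat_lit 0) (XT.lf (nat_lit 0) (nat_lit 27993160979) (nat_lit 76) (nat_lit 80866739627) (nat_lit 76) (nat_lit 3426893084) (nat_lit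 7) (nat_lit 4) (nat_lit 8) (nat_lit 5) (nat_lit 8) (nat_lit 4) (nat_lit 327) (nat_lit 260) (nat_lit 133)) (XT.lf (nat_lit 0) (nat_lit 4401448351) (nat_lit 152) (nat_lit 68424403864) (nat_lit 76) (nat_lit 44478304379) (nat_lit 6) (nat_lit 5) (nat_lit 8) (nat_lit 5) (nat_lit 7) (nat_lit 4) (nat_lit 328) (nat_lit 260) (nat_lit 132))) (XT.nd (nat_lit 78) (nat_lit 0) (nat_lit 0) (XT.lf (nat_lit 0) (nat_lit 12503845234) (nat_lit 152) (nat_lit 51821658294) (nat_lit 76) (nat_lit 58244188888) (nat_lit 6) (nat_lit 5) (nat_lit 8) (nat_lit 5) (nat_lit 7) (nat_lit 4) (nat_lit 329) (nat_lit 260) (nat_lit 131)) (XT.lf (nat_lit 0) (nat_lit 21009270966) (nat_lit 152) (nat_lit 34392362248) (nat_lit 76) (nat_lit 72696980101) (nat_lit 6) (nat_lit 5) (nat_lit 8) (nat_lit 5) (nat_lit 7) (nat_lit 4) (nat_lit 330) (nat_lit 260) (nat_lit 130))))) (XT.nd (nat_lit 312) (nat_lit 0) (nat_lit 0) (XT.nd (nat_lit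 156) (nat_lit 0) (nat_lit 0) (XT.nd (nat_lit 78) (nat_lit 76) (nat_lit 0) (XT.lf (nat_lit 0) (nat_lit 29937976560) (nat_lit 152) (nat_lit 16095017402) (nat_lit 76) (nat_lit 87871089425) (nat_lit 6) (nat_lit 5) (nat_lit 8) (nat_lit 5) (nat_lit 7) (nat_lit 4) (nat_lit 331) (nat_lit 260) (nat_lit 129)) (XT.lf (nat_lit 0) (nat_lit 3216902312) (nat_lit 76) (nat_lit 36144543388) (nat_lit 152) (nat_lit 100635968242) (nat_lit 5) (nat_lit 5) (nat_lit 6) (nat_lit 5) (nat_lit 7) (nat_lit 4) (nat_lit 332) (nat_lit 260) (nat_lit 128))) (XT.nd (nat_lit 78) (nat_lit 0) (nat_lit 0) (XT.lf (nat_lit 0) (nat_lit 24049999810) (nat_lit 76) (nat_lit 25476809140) (nat_lit 152) (nat_lit 96855069269) (nat_lit 5) (nat_lit 5) (nat_lit 6) (nat_lit 5) (nat_lit 7) (nat_lit 4) (nat_lit 333) (nat_lit 260) (nat_lit 127)) (XT.lf (nat_lit 0) (nat_lit 45921703742) (nat_lit 76) (nat_lit 14276968758) (nat_lit 152) (nat_lit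 92886984677) (nat_lit 5) (nat_lit 5) (nat_lit 6) (nat_lit 5) (nat_lit 7) (nat_lit 4) (nat_lit 334) (nat_lit 260) (nat_lit 126)))) (XT.nd (nat_lit 156) (nat_lit 0) (nat_lit 0) (XT.nd (nat_lit 78) (nat_lit 0) (nat_lit 0) (XT.lf (nat_lit 0) (nat_lit 68884089594) (nat_lit 76) (nat_lit 2518355957) (nat_lit 152) (nat_lit 88722266645) (nat_lit 5) (nat_lit 5) (nat_lit 6) (nat_lit 5) (nat_lit 7) (nat_lit 4) (nat_lit 335) (nat_lit 260) (nat_lit 125)) (XT.lf (nat_lit 0) (nat_lit 83318231167) (nat_lit 152) (nat_lit 74677400632) (nat_lit 0) (nat_lit 9512499758) (nat_lit 5) (nat_lit 5) (nat_lit 7) (nat_lit 4) (nat_lit 5) (nat_lit 4) (nat_lit 336) (nat_lit 260) (nat_lit 124))) (XT.nd (nat_lit 78) (nat_lit 0) (nat_lit 0) (XT.lf (nat_lit 0) (nat_lit 95869546171) (nat_lit 152) (nat_lit 57329997188) (nat_lit 0) (nat_lit 22059194180) (nat_lit 5) (nat_lit 5) (nat_lit 7) (nat_lit 4) (nat_lit 5) (nat_lit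 4) (nat_lit 337) (nat_lit 260) (nat_lit 123)) (XT.nd (nat_lit 78) (nat_lit 0) (nat_lit 0) (XT.lf (nat_lit 0) (nat_lit 109046956052) (nat_lit 152) (nat_lit 39117790332) (nat_lit 0) (nat_lit 35232203506) (nat_lit 5) (nat_lit 5) (nat_lit 7) (nat_lit 4) (nat_lit 5) (nat_lit 4) (nat_lit 338) (nat_lit 260) (nat_lit 122)) (XT.lf (nat_lit 0) (nat_lit 122881835596) (nat_lit 152) (nat_lit 19997417670) (nat_lit 0) (nat_lit 49062892046) (nat_lit 5) (nat_lit 5) (nat_lit 7) (nat_lit 4) (nat_lit 5) (nat_lit 4) (nat_lit 339) (nat_lit 260) (nat_lit 121))))))) (XT.nd (nat_lit 702) (nat_lit 152) (nat_lit 0) (XT.nd (nat_lit 312) (nat_lit 0) (nat_lit 0) (XT.nd (nat_lit 156) (nat_lit 0) (nat_lit 0) (XT.nd (nat_lit 78) (nat_lit 0) (nat_lit 0) (XT.lf (nat_lit 0) (nat_lit 79179743) (nat_lit 76) (nat_lit 137329181466) (nat_lit 76) (nat_lit 63506246483) (nat_lit 4) (nat_lit 4) (nat_lit 5) (nat_lit 5) (nat_lit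 5) (nat_lit 4) (nat_lit 340) (nat_lit 260) (nat_lit 120)) (XT.lf (nat_lit 0) (nat_lit 21851581634) (nat_lit 76) (nat_lit 131146991055) (nat_lit 76) (nat_lit 57320254708) (nat_lit 4) (nat_lit 4) (nat_lit 5) (nat_lit 5) (nat_lit 5) (nat_lit 4) (nat_lit 341) (nat_lit 260) (nat_lit 119))) (XT.nd (nat_lit 78) (nat_lit 0) (nat_lit 0) (XT.lf (nat_lit 0) (nat_lit 44710422118) (nat_lit 76) (nat_lit 124656628477) (nat_lit 76) (nat_lit 50826271782) (nat_lit 4) (nat_lit 4) (nat_lit 5) (nat_lit 5) (nat_lit 5) (nat_lit 4) (nat_lit 342) (nat_lit 260) (nat_lit 118)) (XT.lf (nat_lit 0) (nat_lit 68710127003) (nat_lit 76) (nat_lit 117842640486) (nat_lit 76) (nat_lit 44008835842) (nat_lit 4) (nat_lit 4) (nat_lit 5) (nat_lit 5) (nat_lit 5) (nat_lit 4) (nat_lit 343) (nat_lit 260) (nat_lit 117)))) (XT.nd (nat_lit 156) (nat_lit 0) (nat_lit 0) (XT.nd (nat_lit 78) (nat_lit 0) (nat_lit 0) (XT.lf (nat_lit 0)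 (nat_lit 93907838446) (nat_lit 76) (nat_lit 110688803303) (nat_lit 76) (nat_lit 36851714898) (nat_lit 4) (nat_lit 4) (nat_lit 5) (nat_lit 5) (nat_lit 5) (nat_lit 4) (nat_lit 344) (nat_lit 260) (nat_lit 116)) (XT.lf (nat_lit 0) (nat_lit 120363550996) (nat_lit 76) (nat_lit 103178083982) (nat_lit 76) (nat_lit 29337868184) (nat_lit 4) (nat_lit 4) (nat_lit 5) (nat_lit 5) (nat_lit 5) (nat_lit 4) (nat_lit 345) (nat_lit 260) (nat_lit 115))) (XT.nd (nat_lit 78) (nat_lit 0) (nat_lit 0) (XT.lf (nat_lit 0) (nat_lit 148140254445) (nat_lit 76) (nat_lit 95292599857) (nat_lit 76) (nat_lit 21449405591) (nat_lit 4) (nat_lit 4) (nat_lit 5) (nat_lit 5) (nat_lit 5) (nat_lit 4) (nat_lit 346) (nat_lit 260) (nat_lit 114)) (XT.nd (nat_lit 78) (nat_lit 0) (nat_lit 0) (XT.lf (nat_lit 0) (nat_lit 177304083803) (nat_lit 76) (nat_lit 87013575966) (nat_lit 76) (nat_lit 13167545063) (nat_lit 4) (nat_lit 4) (nat_lit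 5) (nat_lit 5) (nat_lit 5) (nat_lit 4) (nat_lit 347) (nat_lit 260) (nat_lit 113)) (XT.lf (nat_lit 0) (nat_lit 207924476756) (nat_lit 76) (nat_lit 78321300348) (nat_lit 76) (nat_lit 4472567886) (nat_lit 4) (nat_lit 4) (nat_lit 5) (nat_lit 5) (nat_lit 5) (nat_lit 4) (nat_lit 348) (nat_lit 260) (nat_lit 112)))))) (XT.nd (nat_lit 312) (nat_lit 76) (nat_lit 0) (XT.nd (nat_lit 156) (nat_lit 0) (nat_lit 0) (XT.nd (nat_lit 78) (nat_lit 0) (nat_lit 0) (XT.lf (nat_lit 0) (nat_lit 4507199883) (nat_lit 152) (nat_lit 64611545614) (nat_lit 76) (nat_lit 235490807511) (nat_lit 3) (nat_lit 5) (nat_lit 5) (nat_lit 5) (nat_lit 4) (nat_lit 4) (nat_lit 349) (nat_lit 260) (nat_lit 111)) (XT.lf (nat_lit 0) (nat_lit 13784791174) (nat_lit 152) (nat_lit 45594933861) (nat_lit 76) (nat_lit 259811974555) (nat_lit 3) (nat_lit 5) (nat_lit 5) (nat_lit 5) (nat_lit 4) (nat_lit 4) (nat_lit 350) (nat_lit 260) (nat_lit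 110))) (XT.nd (nat_lit 78) (nat_lit 0) (nat_lit 0) (XT.lf (nat_lit 0) (nat_lit 23525445593) (nat_lit 152) (nat_lit 25628926009) (nat_lit 76) (nat_lit 285348623999) (nat_lit 3) (nat_lit 5) (nat_lit 5) (nat_lit 5) (nat_lit 4) (nat_lit 4) (nat_lit 351) (nat_lit 260) (nat_lit 109)) (XT.lf (nat_lit 0) (nat_lit 33752355176) (nat_lit 152) (nat_lit 4665983944) (nat_lit 76) (nat_lit 312161557387) (nat_lit 3) (nat_lit 5) (nat_lit 5) (nat_lit 5) (nat_lit 4) (nat_lit 4) (nat_lit 352) (nat_lit 260) (nat_lit 108)))) (XT.nd (nat_lit 156) (nat_lit 0) (nat_lit 0) (XT.nd (nat_lit 78) (nat_lit 0) (nat_lit 0) (XT.lf (nat_lit 0) (nat_lit 17917268590) (nat_lit 76) (nat_lit 26852339891) (nat_lit 152) (nat_lit 322677085223) (nat_lit 2) (nat_lit 5) (nat_lit 3) (nat_lit 5) (nat_lit 4) (nat_lit 4) (nat_lit 353) (nat_lit 260) (nat_lit 107)) (XT.lf (nat_lit 0) (nat_lit 41790396040) (nat_lit 76) (nat_lit 14625623853)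 (nat_lit 152) (nat_lit 328736897201) (nat_lit 2) (nat_lit 5) (nat_lit 3) (nat_lit 5) (nat_lit 4) (nat_lit 4) (nat_lit 354) (nat_lit 260) (nat_lit 106))) (XT.nd (nat_lit 30186) (nat_lit 0) (nat_lit 5092) (XT.lf (nat_lit 0) (nat_lit 66855960684) (nat_lit 76) (nat_lit 1788100473) (nat_lit 152) (nat_lit 335100426082) (nat_lit 2) (nat_lit 5) (nat_lit 3) (nat_lit 5) (nat_lit 4) (nat_lit 4) (nat_lit 355) (nat_lit 260) (nat_lit 105)) (XT.nd (nat_lit 78) (nat_lit 0) (nat_lit 0) (XT.lf (nat_lit 0) (nat_lit 3697673514) (nat_lit 684) (nat_lit 1101635860) (nat_lit 684) (nat_lit 1101635860) (nat_lit 69) (nat_lit 3) (nat_lit 78) (nat_lit 3) (nat_lit 78) (nat_lit 5) (nat_lit 261) (nat_lit 261) (nat_lit 198)) (XT.lf (nat_lit 76) (nat_lit 2724192935) (nat_lit 0) (nat_lit 5328307359) (nat_lit 684) (nat_lit 4018767751) (nat_lit 70) (nat_lit 5) (nat_lit 69) (nat_lit 3) (nat_lit 78) (nat_lit 5) (nat_lit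 262) (nat_lit 261) (nat_lit 197))))))))
noncomputable def xc176 : XT := (XT.nd (nat_lit 1326) (nat_lit 1748) (nat_lit 0) (XT.nd (nat_lit 624) (nat_lit 1216) (nat_lit 0) (XT.nd (nat_lit 312) (nat_lit 456) (nat_lit 0) (XT.nd (nat_lit 156) (nat_lit 0) (nat_lit 76) (XT.nd (nat_lit 78) (nat_lit 0) (nat_lit 76) (XT.lf (nat_lit 76) (nat_lit 7959535949) (nat_lit 0) (nat_lit 792546195) (nat_lit 684) (nat_lit 3601685431) (nat_lit 70) (nat_lit 5) (nat_lit 69) (nat_lit 3) (nat_lit 78) (nat_lit 5) (nat_lit 263) (nat_lit 261) (nat_lit 196)) (XT.lf (nat_lit 76) (nat_lit 752444177) (nat_lit 0) (nat_lit 8781697726) (nat_lit 684) (nat_lit 3114000592) (nat_lit 71) (nat_lit 5) (nat_lit 70) (nat_lit 5) (nat_lit 79) (nat_lit 5) (nat_lit 264) (nat_lit 261) (nat_lit 195))) (XT.nd (nat_lit 78) (nat_lit 0) (nat_lit 76) (XT.lf (nat_lit 76) (nat_lit 6279936134) (nat_lit 0) (nat_lit 4137342882) (nat_lit 684) (nat_lit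 2536977812) (nat_lit 71) (nat_lit 5) (nat_lit 70) (nat_lit 5) (nat_lit 79) (nat_lit 5) (nat_lit 265) (nat_lit 261) (nat_lit 194)) (XT.lf (nat_lit 0) (nat_lit 11332231001) (nat_lit 608) (nat_lit 1219780872) (nat_lit 684) (nat_lit 724395805) (nat_lit 71) (nat_lit 5) (nat_lit 79) (nat_lit 5) (nat_lit 80) (nat_lit 5) (nat_lit 266) (nat_lit 261) (nat_lit 193)))) (XT.nd (nat_lit 156) (nat_lit 608) (nat_lit 0) (XT.nd (nat_lit 78) (nat_lit 0) (nat_lit 0) (XT.lf (nat_lit 76) (nat_lit 4570354598) (nat_lit 0) (nat_lit 7839011199) (nat_lit 684) (nat_lit 1199586800) (nat_lit 72) (nat_lit 5) (nat_lit 71) (nat_lit 5) (nat_lit 80) (nat_lit 5) (nat_lit 267) (nat_lit 261) (nat_lit 192)) (XT.lf (nat_lit 76) (nat_lit 10677010329) (nat_lit 0) (nat_lit 2862102193) (nat_lit 684) (nat_lit 419177611) (nat_lit 72) (nat_lit 5) (nat_lit 71) (nat_lit 5) (nat_lit 80) (nat_lit 5) (nat_lit 268) (nat_lit 261) (nat_lit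 191))) (XT.nd (nat_lit 78) (nat_lit 0) (nat_lit 0) (XT.lf (nat_lit 0) (nat_lit 448197697) (nat_lit 684) (nat_lit 11528627266) (nat_lit 760) (nat_lit 2345012860) (nat_lit 63) (nat_lit 5) (nat_lit 72) (nat_lit 5) (nat_lit 73) (nat_lit 5) (nat_lit 269) (nat_lit 261) (nat_lit 190)) (XT.lf (nat_lit 0) (nat_lit 1427820250) (nat_lit 684) (nat_lit 5486495205) (nat_lit 760) (nat_lit 7784844664) (nat_lit 63) (nat_lit 5) (nat_lit 72) (nat_lit 5) (nat_lit 73) (nat_lit 5) (nat_lit 270) (nat_lit 261) (nat_lit 189))))) (XT.nd (nat_lit 312) (nat_lit 608) (nat_lit 0) (XT.nd (nat_lit 156) (nat_lit 608) (nat_lit 0) (XT.nd (nat_lit 78) (nat_lit 0) (nat_lit 76) (XT.lf (nat_lit 76) (nat_lit 870015664) (nat_lit 0) (nat_lit 1580529591) (nat_lit 760) (nat_lit 12645182051) (nat_lit 64) (nat_lit 5) (nat_lit 63) (nat_lit 5) (nat_lit 73) (nat_lit 5) (nat_lit 271) (nat_lit 261) (nat_lit 188)) (XT.lf (nat_lit 0)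 (nat_lit 3662888176) (nat_lit 684) (nat_lit 7853328033) (nat_lit 76) (nat_lit 3989063368) (nat_lit 64) (nat_lit 5) (nat_lit 73) (nat_lit 5) (nat_lit 65) (nat_lit 5) (nat_lit 272) (nat_lit 261) (nat_lit 187))) (XT.nd (nat_lit 78) (nat_lit 684) (nat_lit 0) (XT.lf (nat_lit 0) (nat_lit 4943929396) (nat_lit 684) (nat_lit 1203850770) (nat_lit 76) (nat_lit 9787202193) (nat_lit 64) (nat_lit 5) (nat_lit 73) (nat_lit 5) (nat_lit 65) (nat_lit 5) (nat_lit 273) (nat_lit 261) (nat_lit 186)) (XT.lf (nat_lit 0) (nat_lit 5953787100) (nat_lit 684) (nat_lit 411210721) (nat_lit 760) (nat_lit 10017446995) (nat_lit 55) (nat_lit 5) (nat_lit 64) (nat_lit 5) (nat_lit 65) (nat_lit 5) (nat_lit 274) (nat_lit 261) (nat_lit 185)))) (XT.nd (nat_lit 156) (nat_lit 304) (nat_lit 0) (XT.nd (nat_lit 78) (nat_lit 304) (nat_lit 0) (XT.lf (nat_lit 0) (nat_lit 7949091245) (nat_lit 760) (nat_lit 3443664531) (nat_lit 76) (nat_lit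 5454995844) (nat_lit 55) (nat_lit 5) (nat_lit 65) (nat_lit 5) (nat_lit 56) (nat_lit 5) (nat_lit 275) (nat_lit 261) (nat_lit 184)) (XT.lf (nat_lit 0) (nat_lit 3996955972) (nat_lit 304) (nat_lit 5668985435) (nat_lit 380) (nat_lit 7667771233) (nat_lit 51) (nat_lit 5) (nat_lit 55) (nat_lit 5) (nat_lit 56) (nat_lit 5) (nat_lit 276) (nat_lit 261) (nat_lit 183))) (XT.nd (nat_lit 78) (nat_lit 304) (nat_lit 0) (XT.lf (nat_lit 0) (nat_lit 11518164012) (nat_lit 380) (nat_lit 5933566577) (nat_lit 76) (nat_lit 389827938) (nat_lit 51) (nat_lit 5) (nat_lit 56) (nat_lit 5) (nat_lit 52) (nat_lit 5) (nat_lit 277) (nat_lit 261) (nat_lit 182)) (XT.nd (nat_lit 78) (nat_lit 0) (nat_lit 0) (XT.lf (nat_lit 0) (nat_lit 1789460835) (nat_lit 304) (nat_lit 11780057396) (nat_lit 380) (nat_lit 4800012751) (nat_lit 47) (nat_lit 5) (nat_lit 51) (nat_lit 5) (nat_lit 52) (nat_lit 5) (nat_lit 278) (nat_lit 261) (nat_lit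 181)) (XT.lf (nat_lit 0) (nat_lit 10090214217) (nat_lit 304) (nat_lit 5719819782) (nat_lit 380) (nat_lit 3109595795) (nat_lit 47) (nat_lit 5) (nat_lit 51) (nat_lit 5) (nat_lit 52) (nat_lit 5) (nat_lit 279) (nat_lit 261) (nat_lit 180))))))) (XT.nd (nat_lit 624) (nat_lit 912) (nat_lit 0) (XT.nd (nat_lit 312) (nat_lit 228) (nat_lit 0) (XT.nd (nat_lit 156) (nat_lit 304) (nat_lit 0) (XT.nd (nat_lit 78) (nat_lit 304) (nat_lit 0) (XT.lf (nat_lit 0) (nat_lit 18159381029) (nat_lit 380) (nat_lit 715720937) (nat_lit 76) (nat_lit 622346000) (nat_lit 47) (nat_lit 5) (nat_lit 52) (nat_lit 5) (nat_lit 48) (nat_lit 5) (nat_lit 280) (nat_lit 261) (nat_lit 179)) (XT.lf (nat_lit 0) (nat_lit 713933766) (nat_lit 304) (nat_lit 12154858941) (nat_lit 76) (nat_lit 7224576228) (nat_lit 43) (nat_lit 5) (nat_lit 47) (nat_lit 5) (nat_lit 44) (nat_lit 5) (nat_lit 281) (nat_lit 261) (nat_lit 178))) (XT.nd (nat_lit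 78) (nat_lit 304) (nat_lit 0) (XT.lf (nat_lit 0) (nat_lit 2823417445) (nat_lit 304) (nat_lit 3704310018) (nat_lit 76) (nat_lit 14190316419) (nat_lit 43) (nat_lit 5) (nat_lit 47) (nat_lit 5) (nat_lit 44) (nat_lit 5) (nat_lit 282) (nat_lit 261) (nat_lit 177)) (XT.lf (nat_lit 0) (nat_lit 5113028453) (nat_lit 380) (nat_lit 16047911651) (nat_lit 76) (nat_lit 209324812) (nat_lit 39) (nat_lit 5) (nat_lit 44) (nat_lit 5) (nat_lit 40) (nat_lit 5) (nat_lit 283) (nat_lit 261) (nat_lit 176)))) (XT.nd (nat_lit 156) (nat_lit 0) (nat_lit 0) (XT.nd (nat_lit 78) (nat_lit 228) (nat_lit 0) (XT.lf (nat_lit 0) (nat_lit 7676355127) (nat_lit 380) (nat_lit 7244754313) (nat_lit 76) (nat_lit 7126068657) (nat_lit 39) (nat_lit 5) (nat_lit 44) (nat_lit 5) (nat_lit 40) (nat_lit 5) (nat_lit 284) (nat_lit 261) (nat_lit 175)) (XT.lf (nat_lit 0) (nat_lit 2051154784) (nat_lit 228) (nat_lit 8337727603) (nat_lit 304)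 (nat_lit 12368043651) (nat_lit 36) (nat_lit 5) (nat_lit 39) (nat_lit 5) (nat_lit 40) (nat_lit 5) (nat_lit 285) (nat_lit 261) (nat_lit 174))) (XT.nd (nat_lit 78) (nat_lit 0) (nat_lit 0) (XT.lf (nat_lit 0) (nat_lit 12050535556) (nat_lit 228) (nat_lit 1298526635) (nat_lit 304) (nat_lit 10147536743) (nat_lit 36) (nat_lit 5) (nat_lit 39) (nat_lit 5) (nat_lit 40) (nat_lit 5) (nat_lit 286) (nat_lit 261) (nat_lit 173)) (XT.lf (nat_lit 0) (nat_lit 16542182423) (nat_lit 304) (nat_lit 1831239412) (nat_lit 76) (nat_lit 5895624088) (nat_lit 36) (nat_lit 5) (nat_lit 40) (nat_lit 5) (nat_lit 37) (nat_lit 5) (nat_lit 287) (nat_lit 261) (nat_lit 172))))) (XT.nd (nat_lit 312) (nat_lit 380) (nat_lit 0) (XT.nd (nat_lit 156) (nat_lit 304) (nat_lit 0) (XT.nd (nat_lit 78) (nat_lit 0) (nat_lit 0) (XT.lf (nat_lit 0) (nat_lit 8503049885) (nat_lit 228) (nat_lit 11536246196) (nat_lit 304) (nat_lit 5033637563)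 (nat_lit 33) (nat_lit 5) (nat_lit 36) (nat_lit 5) (nat_lit 37) (nat_lit 5) (nat_lit 288) (nat_lit 261) (nat_lit 171)) (XT.lf (nat_lit 0) (nat_lit 19405686697) (nat_lit 228) (nat_lit 4327161044) (nat_lit 304) (nat_lit 2183122471) (nat_lit 33) (nat_lit 5) (nat_lit 36) (nat_lit 5) (nat_lit 37) (nat_lit 5) (nat_lit 289) (nat_lit 261) (nat_lit 170))) (XT.nd (nat_lit 78) (nat_lit 0) (nat_lit 0) (XT.lf (nat_lit 0) (nat_lit 891658191) (nat_lit 304) (nat_lit 22688495986) (nat_lit 76) (nat_lit 3215019518) (nat_lit 29) (nat_lit 5) (nat_lit 33) (nat_lit 5) (nat_lit 30) (nat_lit 5) (nat_lit 290) (nat_lit 261) (nat_lit 169)) (XT.lf (nat_lit 0) (nat_lit 4220865747) (nat_lit 304) (nat_lit 12352801212) (nat_lit 76) (nat_lit 11134207198) (nat_lit 29) (nat_lit 5) (nat_lit 33) (nat_lit 5) (nat_lit 30) (nat_lit 5) (nat_lit 291) (nat_lit 261) (nat_lit 168)))) (XT.nd (nat_lit 156) (nat_lit 152) (nat_lit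 0) (XT.nd (nat_lit 78) (nat_lit 228) (nat_lit 0) (XT.lf (nat_lit 0) (nat_lit 7708015365) (nat_lit 304) (nat_lit 1511705057) (nat_lit 76) (nat_lit 19446942760) (nat_lit 29) (nat_lit 5) (nat_lit 33) (nat_lit 5) (nat_lit 30) (nat_lit 5) (nat_lit 292) (nat_lit 261) (nat_lit 167)) (XT.lf (nat_lit 0) (nat_lit 10186640733) (nat_lit 228) (nat_lit 1333811057) (nat_lit 304) (nat_lit 18145419710) (nat_lit 26) (nat_lit 5) (nat_lit 29) (nat_lit 5) (nat_lit 30) (nat_lit 5) (nat_lit 293) (nat_lit 261) (nat_lit 166))) (XT.nd (nat_lit 78) (nat_lit 152) (nat_lit 0) (XT.lf (nat_lit 0) (nat_lit 15650047663) (nat_lit 304) (nat_lit 8311288561) (nat_lit 76) (nat_lit 6747402182) (nat_lit 26) (nat_lit 5) (nat_lit 30) (nat_lit 5) (nat_lit 27) (nat_lit 5) (nat_lit 294) (nat_lit 261) (nat_lit 165)) (XT.nd (nat_lit 78) (nat_lit 0) (nat_lit 0) (XT.lf (nat_lit 0) (nat_lit 3494514300) (nat_lit 152) (nat_lit 16560475660)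 (nat_lit 228) (nat_lit 11745339229) (nat_lit 24) (nat_lit 5) (nat_lit 26) (nat_lit 5) (nat_lit 27) (nat_lit 5) (nat_lit 295) (nat_lit 261) (nat_lit 164)) (XT.lf (nat_lit 0) (nat_lit 16168809124) (nat_lit 152) (nat_lit 8644766023) (nat_lit 228) (nat_lit 8126277300) (nat_lit 24) (nat_lit 5) (nat_lit 26) (nat_lit 5) (nat_lit 27) (nat_lit 5) (nat_lit 296) (nat_lit 261) (nat_lit 163))))))))
noncomputable def xc177 : XT := (XT.nd (nat_lit 1326) (nat_lit 532) (nat_lit 0) (XT.nd (nat_lit 624) (nat_lit 304) (nat_lit 0) (XT.nd (nat_lit 312) (nat_lit 304) (nat_lit 0) (XT.nd (nat_lit 156) (nat_lit 76) (nat_lit 0) (XT.nd (nat_lit 78) (nat_lit 152) (nat_lit 0) (XT.lf (nat_lit 0) (nat_lit 29466964068) (nat_lit 152) (nat_lit 336116080) (nat_lit 228) (nat_lit 4333643838) (nat_lit 24) (nat_lit 5) (nat_lit 26) (nat_lit 5) (nat_lit 27) (nat_lit 5) (nat_lit 297) (nat_lit 261) (nat_lit 162)) (XT.lf (nat_lit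 0) (nat_lit 8157005675) (nat_lit 152) (nat_lit 27136650134) (nat_lit 228) (nat_lit 87224133) (nat_lit 22) (nat_lit 5) (nat_lit 24) (nat_lit 5) (nat_lit 25) (nat_lit 5) (nat_lit 298) (nat_lit 261) (nat_lit 161))) (XT.nd (nat_lit 78) (nat_lit 0) (nat_lit 0) (XT.lf (nat_lit 0) (nat_lit 4310818580) (nat_lit 228) (nat_lit 14980894971) (nat_lit 76) (nat_lit 17388175368) (nat_lit 21) (nat_lit 5) (nat_lit 24) (nat_lit 5) (nat_lit 22) (nat_lit 5) (nat_lit 299) (nat_lit 261) (nat_lit 160)) (XT.lf (nat_lit 0) (nat_lit 8919476546) (nat_lit 228) (nat_lit 2136511263) (nat_lit 76) (nat_lit 26988124625) (nat_lit 21) (nat_lit 5) (nat_lit 24) (nat_lit 5) (nat_lit 22) (nat_lit 5) (nat_lit 300) (nat_lit 261) (nat_lit 159)))) (XT.nd (nat_lit 156) (nat_lit 152) (nat_lit 0) (XT.nd (nat_lit 78) (nat_lit 0) (nat_lit 0) (XT.lf (nat_lit 0) (nat_lit 11716212505) (nat_lit 152) (nat_lit 2219224884) (nat_lit 228)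 (nat_lit 25532283197) (nat_lit 19) (nat_lit 5) (nat_lit 21) (nat_lit 5) (nat_lit 22) (nat_lit 5) (nat_lit 301) (nat_lit 261) (nat_lit 158)) (XT.lf (nat_lit 0) (nat_lit 19343243828) (nat_lit 228) (nat_lit 14744757574) (nat_lit 76) (nat_lit 6867471515) (nat_lit 19) (nat_lit 5) (nat_lit 22) (nat_lit 5) (nat_lit 20) (nat_lit 5) (nat_lit 302) (nat_lit 261) (nat_lit 157))) (XT.nd (nat_lit 78) (nat_lit 152) (nat_lit 0) (XT.lf (nat_lit 0) (nat_lit 25052159320) (nat_lit 228) (nat_lit 1132617013) (nat_lit 76) (nat_lit 16331315978) (nat_lit 19) (nat_lit 5) (nat_lit 22) (nat_lit 5) (nat_lit 20) (nat_lit 5) (nat_lit 303) (nat_lit 261) (nat_lit 156)) (XT.lf (nat_lit 0) (nat_lit 13586835361) (nat_lit 152) (nat_lit 17666421415) (nat_lit 228) (nat_lit 12891163737) (nat_lit 17) (nat_lit 5) (nat_lit 19) (nat_lit 5) (nat_lit 20) (nat_lit 5) (nat_lit 304) (nat_lit 261) (nat_lit 155))))) (XT.nd (nat_lit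 312) (nat_lit 152) (nat_lit 0) (XT.nd (nat_lit 156) (nat_lit 152) (nat_lit 0) (XT.nd (nat_lit 78) (nat_lit 0) (nat_lit 0) (XT.lf (nat_lit 0) (nat_lit 29073555058) (nat_lit 152) (nat_lit 8704774533) (nat_lit 228) (nat_lit 8075153462) (nat_lit 17) (nat_lit 5) (nat_lit 19) (nat_lit 5) (nat_lit 20) (nat_lit 5) (nat_lit 305) (nat_lit 261) (nat_lit 154)) (XT.lf (nat_lit 0) (nat_lit 44635610821) (nat_lit 228) (nat_lit 2332261930) (nat_lit 76) (nat_lit 679841518) (nat_lit 17) (nat_lit 5) (nat_lit 20) (nat_lit 5) (nat_lit 18) (nat_lit 4) (nat_lit 306) (nat_lit 261) (nat_lit 153))) (XT.nd (nat_lit 78) (nat_lit 0) (nat_lit 0) (XT.lf (nat_lit 0) (nat_lit 2578485309) (nat_lit 152) (nat_lit 36449029366) (nat_lit 76) (nat_lit 10484949160) (nat_lit 15) (nat_lit 5) (nat_lit 17) (nat_lit 5) (nat_lit 16) (nat_lit 5) (nat_lit 307) (nat_lit 261) (nat_lit 152)) (XT.lf (nat_lit 0) (nat_lit 8382736905) (nat_lit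 152) (nat_lit 22216157516) (nat_lit 76) (nat_lit 20867331007) (nat_lit 15) (nat_lit 5) (nat_lit 17) (nat_lit 5) (nat_lit 16) (nat_lit 5) (nat_lit 308) (nat_lit 261) (nat_lit 151)))) (XT.nd (nat_lit 156) (nat_lit 0) (nat_lit 0) (XT.nd (nat_lit 78) (nat_lit 152) (nat_lit 0) (XT.lf (nat_lit 0) (nat_lit 14472643304) (nat_lit 152) (nat_lit 7278824779) (nat_lit 76) (nat_lit 31766445839) (nat_lit 15) (nat_lit 5) (nat_lit 17) (nat_lit 5) (nat_lit 16) (nat_lit 5) (nat_lit 309) (nat_lit 261) (nat_lit 150)) (XT.lf (nat_lit 0) (nat_lit 8676227383) (nat_lit 152) (nat_lit 12321937124) (nat_lit 228) (nat_lit 34667476771) (nat_lit 13) (nat_lit 5) (nat_lit 15) (nat_lit 5) (nat_lit 16) (nat_lit 5) (nat_lit 310) (nat_lit 261) (nat_lit 149))) (XT.nd (nat_lit 78) (nat_lit 0) (nat_lit 0) (XT.lf (nat_lit 0) (nat_lit 25675006175) (nat_lit 152) (nat_lit 2293986897) (nat_lit 228) (nat_lit 29945820278) (nat_lit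 13) (nat_lit 5) (nat_lit 15) (nat_lit 5) (nat_lit 16) (nat_lit 5) (nat_lit 311) (nat_lit 261) (nat_lit 148)) (XT.nd (nat_lit 78) (nat_lit 0) (nat_lit 0) (XT.lf (nat_lit 0) (nat_lit 35412865832) (nat_lit 228) (nat_lit 16887881291) (nat_lit 76) (nat_lit 7969481209) (nat_lit 13) (nat_lit 5) (nat_lit 16) (nat_lit 5) (nat_lit 14) (nat_lit 4) (nat_lit 312) (nat_lit 261) (nat_lit 147)) (XT.lf (nat_lit 0) (nat_lit 43262658288) (nat_lit 228) (nat_lit 812236034) (nat_lit 76) (nat_lit 18666842430) (nat_lit 13) (nat_lit 5) (nat_lit 16) (nat_lit 5) (nat_lit 14) (nat_lit 4) (nat_lit 313) (nat_lit 261) (nat_lit 146))))))) (XT.nd (nat_lit 702) (nat_lit 152) (nat_lit 0) (XT.nd (nat_lit 312) (nat_lit 76) (nat_lit 0) (XT.nd (nat_lit 156) (nat_lit 228) (nat_lit 0) (XT.nd (nat_lit 78) (nat_lit 0) (nat_lit 0) (XT.lf (nat_lit 0) (nat_lit 16592275955) (nat_lit 76) (nat_lit 35168020831) (nat_lit 152) (nat_lit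 13563764552) (nat_lit 12) (nat_lit 5) (nat_lit 13) (nat_lit 5) (nat_lit 14) (nat_lit 4) (nat_lit 314) (nat_lit 261) (nat_lit 145)) (XT.lf (nat_lit 0) (nat_lit 34889336887) (nat_lit 76) (nat_lit 25803624666) (nat_lit 152) (nat_lit 7342041541) (nat_lit 12) (nat_lit 5) (nat_lit 13) (nat_lit 5) (nat_lit 14) (nat_lit 4) (nat_lit 315) (nat_lit 261) (nat_lit 144))) (XT.nd (nat_lit 78) (nat_lit 228) (nat_lit 0) (XT.lf (nat_lit 0) (nat_lit 54095655000) (nat_lit 76) (nat_lit 15973165256) (nat_lit 152) (nat_lit 812851414) (nat_lit 12) (nat_lit 5) (nat_lit 13) (nat_lit 5) (nat_lit 14) (nat_lit 4) (nat_lit 316) (nat_lit 261) (nat_lit 143)) (XT.lf (nat_lit 0) (nat_lit 301472574) (nat_lit 152) (nat_lit 5549288809) (nat_lit 228) (nat_lit 68015133566) (nat_lit 9) (nat_lit 5) (nat_lit 11) (nat_lit 5) (nat_lit 12) (nat_lit 5) (nat_lit 317) (nat_lit 261) (nat_lit 142)))) (XT.nd (nat_lit 156) (nat_lit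 76) (nat_lit 0) (XT.nd (nat_lit 78) (nat_lit 0) (nat_lit 0) (XT.lf (nat_lit 0) (nat_lit 13190126658) (nat_lit 228) (nat_lit 58266731496) (nat_lit 76) (nat_lit 5523317229) (nat_lit 9) (nat_lit 5) (nat_lit 12) (nat_lit 5) (nat_lit 10) (nat_lit 4) (nat_lit 318) (nat_lit 261) (nat_lit 141)) (XT.lf (nat_lit 0) (nat_lit 20984295069) (nat_lit 228) (nat_lit 42300362235) (nat_lit 76) (nat_lit 16961127182) (nat_lit 9) (nat_lit 5) (nat_lit 12) (nat_lit 5) (nat_lit 10) (nat_lit 4) (nat_lit 319) (nat_lit 261) (nat_lit 140))) (XT.nd (nat_lit 78) (nat_lit 76) (nat_lit 0) (XT.lf (nat_lit 0) (nat_lit 29165184211) (nat_lit 228) (nat_lit 25540659476) (nat_lit 76) (nat_lit 28968985829) (nat_lit 9) (nat_lit 5) (nat_lit 12) (nat_lit 5) (nat_lit 10) (nat_lit 4) (nat_lit 320) (nat_lit 261) (nat_lit 139)) (XT.nd (nat_lit 78) (nat_lit 76) (nat_lit 0) (XT.lf (nat_lit 0) (nat_lit 37752272391) (nat_lit 228) (nat_lit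 7947719167) (nat_lit 76) (nat_lit 41575483308) (nat_lit 9) (nat_lit 5) (nat_lit 12) (nat_lit 5) (nat_lit 10) (nat_lit 4) (nat_lit 321) (nat_lit 261) (nat_lit 138)) (XT.lf (nat_lit 0) (nat_lit 10868196817) (nat_lit 76) (nat_lit 36067491250) (nat_lit 152) (nat_lit 44112121282) (nat_lit 8) (nat_lit 5) (nat_lit 9) (nat_lit 5) (nat_lit 10) (nat_lit 4) (nat_lit 322) (nat_lit 261) (nat_lit 137)))))) (XT.nd (nat_lit 312) (nat_lit 152) (nat_lit 0) (XT.nd (nat_lit 156) (nat_lit 0) (nat_lit 0) (XT.nd (nat_lit 78) (nat_lit 0) (nat_lit 0) (XT.lf (nat_lit 0) (nat_lit 30896386880) (nat_lit 76) (nat_lit 25813835783) (nat_lit 152) (nat_lit 38291945746) (nat_lit 8) (nat_lit 5) (nat_lit 9) (nat_lit 5) (nat_lit 10) (nat_lit 4) (nat_lit 323) (nat_lit 261) (nat_lit 136)) (XT.lf (nat_lit 0) (nat_lit 51921749700) (nat_lit 76) (nat_lit 15049210161) (nat_lit 152) (nat_lit 32183416774) (nat_lit 8) (nat_lit 5)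 (nat_lit 9) (nat_lit 5) (nat_lit 10) (nat_lit 4) (nat_lit 324) (nat_lit 261) (nat_lit 135))) (XT.nd (nat_lit 78) (nat_lit 0) (nat_lit 0) (XT.lf (nat_lit 0) (nat_lit 73994345664) (nat_lit 76) (nat_lit 3747984325) (nat_lit 152) (nat_lit 25771990250) (nat_lit 8) (nat_lit 5) (nat_lit 9) (nat_lit 5) (nat_lit 10) (nat_lit 4) (nat_lit 325) (nat_lit 261) (nat_lit 134)) (XT.lf (nat_lit 0) (nat_lit 89176704370) (nat_lit 152) (nat_lit 11052376671) (nat_lit 0) (nat_lit 7856962736) (nat_lit 8) (nat_lit 5) (nat_lit 10) (nat_lit 4) (nat_lit 8) (nat_lit 4) (nat_lit 326) (nat_lit 261) (nat_lit 133)))) (XT.nd (nat_lit 156) (nat_lit 76) (nat_lit 0) (XT.nd (nat_lit 78) (nat_lit 0) (nat_lit 0) (XT.lf (nat_lit 0) (nat_lit 8546964905) (nat_lit 76) (nat_lit 92828513472) (nat_lit 76) (nat_lit 11501245396) (nat_lit 7) (nat_lit 4) (nat_lit 8) (nat_lit 5) (nat_lit 8) (nat_lit 4) (nat_lit 327) (nat_lit 261) (nat_lit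 132)) (XT.lf (nat_lit 0) (nat_lit 29506297496) (nat_lit 76) (nat_lit 84862914726) (nat_lit 76) (nat_lit 3528478610) (nat_lit 7) (nat_lit 4) (nat_lit 8) (nat_lit 5) (nat_lit 8) (nat_lit 4) (nat_lit 328) (nat_lit 261) (nat_lit 131))) (XT.nd (nat_lit 78) (nat_lit 0) (nat_lit 0) (XT.lf (nat_lit 0) (nat_lit 4685831626) (nat_lit 152) (nat_lit 71735307986) (nat_lit 76) (nat_lit 46744894336) (nat_lit 6) (nat_lit 5) (nat_lit 8) (nat_lit 5) (nat_lit 7) (nat_lit 4) (nat_lit 329) (nat_lit 261) (nat_lit 130)) (XT.nd (nat_lit 78) (nat_lit 0) (nat_lit 0) (XT.lf (nat_lit 0) (nat_lit 13190285931) (nat_lit 152) (nat_lit 54307678283) (nat_lit 76) (nat_lit 61197040940) (nat_lit 6) (nat_lit 5) (nat_lit 8) (nat_lit 5) (nat_lit 7) (nat_lit 4) (nat_lit 330) (nat_lit 261) (nat_lit 129)) (XT.lf (nat_lit 0) (nat_lit 22118066358) (nat_lit 152) (nat_lit 36011920431) (nat_lit 76) (nat_lit 76370536351) (nat_lit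 6) (nat_lit 5) (nat_lit 8) (nat_lit 5) (nat_lit 7) (nat_lit 4) (nat_lit 331) (nat_lit 261) (nat_lit 128))))))))
noncomputable def xc178 : XT := (XT.nd (nat_lit 1326) (nat_lit 152) (nat_lit 0) (XT.nd (nat_lit 624) (nat_lit 76) (nat_lit 0) (XT.nd (nat_lit 312) (nat_lit 0) (nat_lit 0) (XT.nd (nat_lit 156) (nat_lit 0) (nat_lit 0) (XT.nd (nat_lit 78) (nat_lit 76) (nat_lit 0) (XT.lf (nat_lit 0) (nat_lit 31490429525) (nat_lit 152) (nat_lit 16804473102) (nat_lit 76) (nat_lit 92301507940) (nat_lit 6) (nat_lit 5) (nat_lit 8) (nat_lit 5) (nat_lit 7) (nat_lit 4) (nat_lit 332) (nat_lit 261) (nat_lit 127)) (XT.lf (nat_lit 0) (nat_lit 3471505579) (nat_lit 76) (nat_lit 37912384935) (nat_lit 152) (nat_lit 105610580943) (nat_lit 5) (nat_lit 5) (nat_lit 6) (nat_lit 5) (nat_lit 7) (nat_lit 4) (nat_lit 333) (nat_lit 261) (nat_lit 126))) (XT.nd (nat_lit 78) (nat_lit 0) (nat_lit 0) (XT.lf (nat_lit 0) (nat_lit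 25341793278) (nat_lit 76) (nat_lit 26713139480) (nat_lit 152) (nat_lit 101643360151) (nat_lit 5) (nat_lit 5) (nat_lit 6) (nat_lit 5) (nat_lit 7) (nat_lit 4) (nat_lit 334) (nat_lit 261) (nat_lit 125)) (XT.lf (nat_lit 0) (nat_lit 48302830337) (nat_lit 76) (nat_lit 14955093276) (nat_lit 152) (nat_lit 97479464785) (nat_lit 5) (nat_lit 5) (nat_lit 6) (nat_lit 5) (nat_lit 7) (nat_lit 4) (nat_lit 335) (nat_lit 261) (nat_lit 124)))) (XT.nd (nat_lit 156) (nat_lit 0) (nat_lit 0) (XT.nd (nat_lit 78) (nat_lit 0) (nat_lit 0) (XT.lf (nat_lit 0) (nat_lit 72409285890) (nat_lit 76) (nat_lit 2610250973) (nat_lit 152) (nat_lit 93108980810) (nat_lit 5) (nat_lit 5) (nat_lit 6) (nat_lit 5) (nat_lit 7) (nat_lit 4) (nat_lit 336) (nat_lit 261) (nat_lit 123)) (XT.lf (nat_lit 0) (nat_lit 87529381036) (nat_lit 152) (nat_lit 78332327085) (nat_lit 0) (nat_lit 10019490308) (nat_lit 5) (nat_lit 5) (nat_lit 7) (nat_lit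 4) (nat_lit 5) (nat_lit 4) (nat_lit 337) (nat_lit 261) (nat_lit 122))) (XT.nd (nat_lit 78) (nat_lit 0) (nat_lit 0) (XT.lf (nat_lit 0) (nat_lit 100706107584) (nat_lit 152) (nat_lit 60121312686) (nat_lit 0) (nat_lit 23192025853) (nat_lit 5) (nat_lit 5) (nat_lit 7) (nat_lit 4) (nat_lit 5) (nat_lit 4) (nat_lit 338) (nat_lit 261) (nat_lit 121)) (XT.lf (nat_lit 0) (nat_lit 114540336335) (nat_lit 152) (nat_lit 41002075696) (nat_lit 0) (nat_lit 37022263171) (nat_lit 5) (nat_lit 5) (nat_lit 7) (nat_lit 4) (nat_lit 5) (nat_lit 4) (nat_lit 339) (nat_lit 261) (nat_lit 120))))) (XT.nd (nat_lit 312) (nat_lit 0) (nat_lit 0) (XT.nd (nat_lit 156) (nat_lit 0) (nat_lit 0) (XT.nd (nat_lit 78) (nat_lit 76) (nat_lit 0) (XT.lf (nat_lit 0) (nat_lit 129065005929) (nat_lit 152) (nat_lit 20929094122) (nat_lit 0) (nat_lit 51543131400) (nat_lit 5) (nat_lit 5) (nat_lit 7) (nat_lit 4) (nat_lit 5) (nat_lit 4) (nat_lit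 340) (nat_lit 261) (nat_lit 119)) (XT.lf (nat_lit 0) (nat_lit 150233251) (nat_lit 76) (nat_lit 144166811221) (nat_lit 76) (nat_lit 66641316345) (nat_lit 4) (nat_lit 4) (nat_lit 5) (nat_lit 5) (nat_lit 5) (nat_lit 4) (nat_lit 341) (nat_lit 261) (nat_lit 118))) (XT.nd (nat_lit 78) (nat_lit 0) (nat_lit 0) (XT.lf (nat_lit 0) (nat_lit 23008060260) (nat_lit 76) (nat_lit 137676884115) (nat_lit 76) (nat_lit 60147941289) (nat_lit 4) (nat_lit 4) (nat_lit 5) (nat_lit 5) (nat_lit 5) (nat_lit 4) (nat_lit 342) (nat_lit 261) (nat_lit 117)) (XT.lf (nat_lit 0) (nat_lit 47006799932) (nat_lit 76) (nat_lit 130863310859) (nat_lit 76) (nat_lit 53331084272) (nat_lit 4) (nat_lit 4) (nat_lit 5) (nat_lit 5) (nat_lit 5) (nat_lit 4) (nat_lit 343) (nat_lit 261) (nat_lit 116)))) (XT.nd (nat_lit 156) (nat_lit 0) (nat_lit 0) (XT.nd (nat_lit 78) (nat_lit 0) (nat_lit 0) (XT.lf (nat_lit 0) (nat_lit 72203592124) (nat_lit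 76) (nat_lit 123709868662) (nat_lit 76) (nat_lit 46174514682) (nat_lit 4) (nat_lit 4) (nat_lit 5) (nat_lit 5) (nat_lit 5) (nat_lit 4) (nat_lit 344) (nat_lit 261) (nat_lit 115)) (XT.lf (nat_lit 0) (nat_lit 98658429197) (nat_lit 76) (nat_lit 116199525517) (nat_lit 76) (nat_lit 38661193069) (nat_lit 4) (nat_lit 4) (nat_lit 5) (nat_lit 5) (nat_lit 5) (nat_lit 4) (nat_lit 345) (nat_lit 261) (nat_lit 114))) (XT.nd (nat_lit 78) (nat_lit 0) (nat_lit 0) (XT.lf (nat_lit 0) (nat_lit 126434298859) (nat_lit 76) (nat_lit 108314399656) (nat_lit 76) (nat_lit 30773230571) (nat_lit 4) (nat_lit 4) (nat_lit 5) (nat_lit 5) (nat_lit 5) (nat_lit 4) (nat_lit 346) (nat_lit 261) (nat_lit 113)) (XT.nd (nat_lit 78) (nat_lit 0) (nat_lit 0) (XT.lf (nat_lit 0) (nat_lit 155597334132) (nat_lit 76) (nat_lit 100035716968) (nat_lit 76) (nat_lit 22491846325) (nat_lit 4) (nat_lit 4) (nat_lit 5) (nat_lit 5) (nat_lit 5)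 (nat_lit 4) (nat_lit 347) (nat_lit 261) (nat_lit 112)) (XT.lf (nat_lit 0) (nat_lit 186216970816) (nat_lit 76) (nat_lit 91343766306) (nat_lit 76) (nat_lit 13797322749) (nat_lit 4) (nat_lit 4) (nat_lit 5) (nat_lit 5) (nat_lit 5) (nat_lit 4) (nat_lit 348) (nat_lit 261) (nat_lit 111))))))) (XT.nd (nat_lit 30810) (nat_lit 0) (nat_lit 4560) (XT.nd (nat_lit 312) (nat_lit 76) (nat_lit 0) (XT.nd (nat_lit 156) (nat_lit 0) (nat_lit 0) (XT.nd (nat_lit 78) (nat_lit 76) (nat_lit 0) (XT.lf (nat_lit 0) (nat_lit 218366112807) (nat_lit 76) (nat_lit 82217852548) (nat_lit 76) (nat_lit 4668958598) (nat_lit 4) (nat_lit 4) (nat_lit 5) (nat_lit 5) (nat_lit 5) (nat_lit 4) (nat_lit 349) (nat_lit 261) (nat_lit 110)) (XT.lf (nat_lit 0) (nat_lit 4757670264) (nat_lit 152) (nat_lit 67798003615) (nat_lit 76) (nat_lit 247283061969) (nat_lit 3) (nat_lit 5) (nat_lit 5) (nat_lit 5) (nat_lit 4) (nat_lit 4) (nat_lit 350)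 (nat_lit 261) (nat_lit 109))) (XT.nd (nat_lit 78) (nat_lit 0) (nat_lit 0) (XT.lf (nat_lit 0) (nat_lit 14497945387) (nat_lit 152) (nat_lit 47832662192) (nat_lit 76) (nat_lit 272819443838) (nat_lit 3) (nat_lit 5) (nat_lit 5) (nat_lit 5) (nat_lit 4) (nat_lit 4) (nat_lit 351) (nat_lit 261) (nat_lit 108)) (XT.lf (nat_lit 0) (nat_lit 24724493734) (nat_lit 152) (nat_lit 26870354822) (nat_lit 76) (nat_lit 299632122394) (nat_lit 3) (nat_lit 5) (nat_lit 5) (nat_lit 5) (nat_lit 4) (nat_lit 4) (nat_lit 352) (nat_lit 261) (nat_lit 107)))) (XT.nd (nat_lit 156) (nat_lit 0) (nat_lit 0) (XT.nd (nat_lit 78) (nat_lit 76) (nat_lit 0) (XT.lf (nat_lit 0) (nat_lit 35461664231) (nat_lit 152) (nat_lit 4861171249) (nat_lit 76) (nat_lit 327784937347) (nat_lit 3) (nat_lit 5) (nat_lit 5) (nat_lit 5) (nat_lit 4) (nat_lit 4) (nat_lit 353) (nat_lit 261) (nat_lit 106)) (XT.lf (nat_lit 0) (nat_lit 18850629204) (nat_lit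 76) (nat_lit 28178703515) (nat_lit 152) (nat_lit 338788601156) (nat_lit 2) (nat_lit 5) (nat_lit 3) (nat_lit 5) (nat_lit 4) (nat_lit 4) (nat_lit 354) (nat_lit 261) (nat_lit 105))) (XT.nd (nat_lit 30264) (nat_lit 0) (nat_lit 5092) (XT.lf (nat_lit 0) (nat_lit 43915627446) (nat_lit 76) (nat_lit 15341425645) (nat_lit 152) (nat_lit 345152467462) (nat_lit 2) (nat_lit 5) (nat_lit 3) (nat_lit 5) (nat_lit 4) (nat_lit 4) (nat_lit 355) (nat_lit 261) (nat_lit 104)) (XT.lf (nat_lit 0) (nat_lit 4305585090) (nat_lit 684) (nat_lit 933615953) (nat_lit 684) (nat_lit 933615953) (nat_lit 69) (nat_lit 3) (nat_lit 78) (nat_lit 3) (nat_lit 78) (nat_lit 5) (nat_lit 262) (nat_lit 262) (nat_lit 196))))) (XT.nd (nat_lit 312) (nat_lit 532) (nat_lit 0) (XT.nd (nat_lit 156) (nat_lit 0) (nat_lit 76) (XT.nd (nat_lit 78) (nat_lit 0) (nat_lit 0) (XT.lf (nat_lit 76) (nat_lit 3299409154) (nat_lit 0) (nat_lit 5968337706)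 (nat_lit 684) (nat_lit 3362598071) (nat_lit 70) (nat_lit 5) (nat_lit 69) (nat_lit 3) (nat_lit 78) (nat_lit 5) (nat_lit 263) (nat_lit 262) (nat_lit 195)) (XT.lf (nat_lit 76) (nat_lit 8775614243) (nat_lit 0) (nat_lit 1187997295) (nat_lit 684) (nat_lit 2965476304) (nat_lit 70) (nat_lit 5) (nat_lit 69) (nat_lit 3) (nat_lit 78) (nat_lit 5) (nat_lit 264) (nat_lit 262) (nat_lit 194))) (XT.nd (nat_lit 78) (nat_lit 0) (nat_lit 0) (XT.lf (nat_lit 76) (nat_lit 1248574868) (nat_lit 0) (nat_lit 9501213571) (nat_lit 684) (nat_lit 2490317211) (nat_lit 71) (nat_lit 5) (nat_lit 70) (nat_lit 5) (nat_lit 79) (nat_lit 5) (nat_lit 265) (nat_lit 262) (nat_lit 193)) (XT.lf (nat_lit 76) (nat_lit 7030607686) (nat_lit 0) (nat_lit 4611287129) (nat_lit 684) (nat_lit 1921556789) (nat_lit 71) (nat_lit 5) (nat_lit 70) (nat_lit 5) (nat_lit 79) (nat_lit 5) (nat_lit 266) (nat_lit 262) (nat_lit 192)))) (XT.nd (nat_lit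 156) (nat_lit 684) (nat_lit 0) (XT.nd (nat_lit 78) (nat_lit 0) (nat_lit 0) (XT.lf (nat_lit 0) (nat_lit 12565111148) (nat_lit 608) (nat_lit 824234075) (nat_lit 684) (nat_lit 514397530) (nat_lit 71) (nat_lit 5) (nat_lit 79) (nat_lit 5) (nat_lit 80) (nat_lit 5) (nat_lit 267) (nat_lit 262) (nat_lit 191)) (XT.lf (nat_lit 76) (nat_lit 5248044688) (nat_lit 0) (nat_lit 8423343759) (nat_lit 684) (nat_lit 582913224) (nat_lit 72) (nat_lit 5) (nat_lit 71) (nat_lit 5) (nat_lit 80) (nat_lit 5) (nat_lit 268) (nat_lit 262) (nat_lit 190))) (XT.nd (nat_lit 78) (nat_lit 0) (nat_lit 76) (XT.lf (nat_lit 0) (nat_lit 197756144) (nat_lit 684) (nat_lit 2987323014) (nat_lit 760) (nat_lit 11437538805) (nat_lit 62) (nat_lit 5) (nat_lit 71) (nat_lit 5) (nat_lit 72) (nat_lit 5) (nat_lit 269) (nat_lit 262) (nat_lit 189)) (XT.nd (nat_lit 78) (nat_lit 0) (nat_lit 0) (XT.lf (nat_lit 0) (nat_lit 1069184491) (nat_lit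 684) (nat_lit 11626071488) (nat_lit 760) (nat_lit 2310135377) (nat_lit 63) (nat_lit 5) (nat_lit 72) (nat_lit 5) (nat_lit 73) (nat_lit 5) (nat_lit 270) (nat_lit 262) (nat_lit 188)) (XT.lf (nat_lit 0) (nat_lit 2069284508) (nat_lit 684) (nat_lit 5304641735) (nat_lit 760) (nat_lit 8029202968) (nat_lit 63) (nat_lit 5) (nat_lit 72) (nat_lit 5) (nat_lit 73) (nat_lit 5) (nat_lit 271) (nat_lit 262) (nat_lit 187))))))))
noncomputable def xc179 : XT := (XT.nd (nat_lit 1326) (nat_lit 1444) (nat_lit 0) (XT.nd (nat_lit 624) (nat_lit 836) (nat_lit 0) (XT.nd (nat_lit 312) (nat_lit 608) (nat_lit 0) (XT.nd (nat_lit 156) (nat_lit 608) (nat_lit 0) (XT.nd (nat_lit 78) (nat_lit 0) (nat_lit 76) (XT.lf (nat_lit 76) (nat_lit 1362336964) (nat_lit 0) (nat_lit 1760669801) (nat_lit 760) (nat_lit 12697643288) (nat_lit 64) (nat_lit 5) (nat_lit 63) (nat_lit 5) (nat_lit 73) (nat_lit 5) (nat_lit 272) (nat_lit 262)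 (nat_lit 186)) (XT.lf (nat_lit 0) (nat_lit 4368275993) (nat_lit 684) (nat_lit 7788601288) (nat_lit 76) (nat_lit 4095299908) (nat_lit 64) (nat_lit 5) (nat_lit 73) (nat_lit 5) (nat_lit 65) (nat_lit 5) (nat_lit 273) (nat_lit 262) (nat_lit 185))) (XT.nd (nat_lit 78) (nat_lit 684) (nat_lit 0) (XT.lf (nat_lit 0) (nat_lit 5688500541) (nat_lit 684) (nat_lit 828430788) (nat_lit 76) (nat_lit 10187784562) (nat_lit 64) (nat_lit 5) (nat_lit 73) (nat_lit 5) (nat_lit 65) (nat_lit 5) (nat_lit 274) (nat_lit 262) (nat_lit 184)) (XT.lf (nat_lit 0) (nat_lit 6680062966) (nat_lit 684) (nat_lit 483566349) (nat_lit 760) (nat_lit 10011874040) (nat_lit 55) (nat_lit 5) (nat_lit 64) (nat_lit 5) (nat_lit 65) (nat_lit 5) (nat_lit 275) (nat_lit 262) (nat_lit 183)))) (XT.nd (nat_lit 156) (nat_lit 304) (nat_lit 0) (XT.nd (nat_lit 78) (nat_lit 304) (nat_lit 0) (XT.lf (nat_lit 0) (nat_lit 8803281938) (nat_lit 760) (nat_lit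 3182077396) (nat_lit 76) (nat_lit 5679995803) (nat_lit 55) (nat_lit 5) (nat_lit 65) (nat_lit 5) (nat_lit 56) (nat_lit 5) (nat_lit 276) (nat_lit 262) (nat_lit 182)) (XT.lf (nat_lit 0) (nat_lit 4623577837) (nat_lit 304) (nat_lit 5967310570) (nat_lit 380) (nat_lit 7585572836) (nat_lit 51) (nat_lit 5) (nat_lit 55) (nat_lit 5) (nat_lit 56) (nat_lit 5) (nat_lit 277) (nat_lit 262) (nat_lit 181))) (XT.nd (nat_lit 78) (nat_lit 304) (nat_lit 0) (XT.lf (nat_lit 0) (nat_lit 12514469999) (nat_lit 380) (nat_lit 5800775050) (nat_lit 76) (nat_lit 395605294) (nat_lit 51) (nat_lit 5) (nat_lit 56) (nat_lit 5) (nat_lit 52) (nat_lit 5) (nat_lit 278) (nat_lit 262) (nat_lit 180)) (XT.lf (nat_lit 0) (nat_lit 2301476799) (nat_lit 304) (nat_lit 12353493266) (nat_lit 380) (nat_lit 4611006553) (nat_lit 47) (nat_lit 5) (nat_lit 51) (nat_lit 5) (nat_lit 52) (nat_lit 5) (nat_lit 279) (nat_lit 262) (nat_lit 179)))))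 (XT.nd (nat_lit 312) (nat_lit 532) (nat_lit 0) (XT.nd (nat_lit 156) (nat_lit 304) (nat_lit 0) (XT.nd (nat_lit 78) (nat_lit 0) (nat_lit 0) (XT.lf (nat_lit 0) (nat_lit 10997146759) (nat_lit 304) (nat_lit 5990985057) (nat_lit 380) (nat_lit 2856497647) (nat_lit 47) (nat_lit 5) (nat_lit 51) (nat_lit 5) (nat_lit 52) (nat_lit 5) (nat_lit 280) (nat_lit 262) (nat_lit 178)) (XT.lf (nat_lit 0) (nat_lit 19436709688) (nat_lit 380) (nat_lit 348485859) (nat_lit 76) (nat_lit 667131108) (nat_lit 47) (nat_lit 5) (nat_lit 52) (nat_lit 5) (nat_lit 48) (nat_lit 5) (nat_lit 281) (nat_lit 262) (nat_lit 177))) (XT.nd (nat_lit 78) (nat_lit 0) (nat_lit 0) (XT.lf (nat_lit 0) (nat_lit 1114867104) (nat_lit 304) (nat_lit 12352620850) (nat_lit 76) (nat_lit 7610903713) (nat_lit 43) (nat_lit 5) (nat_lit 47) (nat_lit 5) (nat_lit 44) (nat_lit 5) (nat_lit 282) (nat_lit 262) (nat_lit 176)) (XT.lf (nat_lit 0) (nat_lit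 3312432746) (nat_lit 304) (nat_lit 3499067388) (nat_lit 76) (nat_lit 14923735739) (nat_lit 43) (nat_lit 5) (nat_lit 47) (nat_lit 5) (nat_lit 44) (nat_lit 5) (nat_lit 283) (nat_lit 262) (nat_lit 175)))) (XT.nd (nat_lit 156) (nat_lit 228) (nat_lit 0) (XT.nd (nat_lit 78) (nat_lit 0) (nat_lit 0) (XT.lf (nat_lit 0) (nat_lit 5706690067) (nat_lit 380) (nat_lit 16448759645) (nat_lit 76) (nat_lit 265172720) (nat_lit 39) (nat_lit 5) (nat_lit 44) (nat_lit 5) (nat_lit 40) (nat_lit 5) (nat_lit 284) (nat_lit 262) (nat_lit 174)) (XT.lf (nat_lit 0) (nat_lit 8382087351) (nat_lit 380) (nat_lit 7224565754) (nat_lit 76) (nat_lit 7525592725) (nat_lit 39) (nat_lit 5) (nat_lit 44) (nat_lit 5) (nat_lit 40) (nat_lit 5) (nat_lit 285) (nat_lit 262) (nat_lit 173))) (XT.nd (nat_lit 78) (nat_lit 0) (nat_lit 0) (XT.lf (nat_lit 0) (nat_lit 2529970632) (nat_lit 228) (nat_lit 8690815525) (nat_lit 304) (nat_lit 12657224678)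 (nat_lit 36) (nat_lit 5) (nat_lit 39) (nat_lit 5) (nat_lit 40) (nat_lit 5) (nat_lit 286) (nat_lit 262) (nat_lit 172)) (XT.nd (nat_lit 78) (nat_lit 0) (nat_lit 0) (XT.lf (nat_lit 0) (nat_lit 13011403391) (nat_lit 228) (nat_lit 1302692530) (nat_lit 304) (nat_lit 10341369623) (nat_lit 36) (nat_lit 5) (nat_lit 39) (nat_lit 5) (nat_lit 40) (nat_lit 5) (nat_lit 287) (nat_lit 262) (nat_lit 171)) (XT.lf (nat_lit 0) (nat_lit 17653605126) (nat_lit 304) (nat_lit 1567224475) (nat_lit 76) (nat_lit 6246420266) (nat_lit 36) (nat_lit 5) (nat_lit 40) (nat_lit 5) (nat_lit 37) (nat_lit 5) (nat_lit 288) (nat_lit 262) (nat_lit 170))))))) (XT.nd (nat_lit 702) (nat_lit 532) (nat_lit 0) (XT.nd (nat_lit 312) (nat_lit 380) (nat_lit 0) (XT.nd (nat_lit 156) (nat_lit 304) (nat_lit 0) (XT.nd (nat_lit 78) (nat_lit 0) (nat_lit 0) (XT.lf (nat_lit 0) (nat_lit 9278044177) (nat_lit 228) (nat_lit 12039453560) (nat_lit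 304) (nat_lit 4994287250) (nat_lit 33) (nat_lit 5) (nat_lit 36) (nat_lit 5) (nat_lit 37) (nat_lit 5) (nat_lit 289) (nat_lit 262) (nat_lit 169)) (XT.lf (nat_lit 0) (nat_lit 20709153696) (nat_lit 228) (nat_lit 4473419147) (nat_lit 304) (nat_lit 2015105079) (nat_lit 33) (nat_lit 5) (nat_lit 36) (nat_lit 5) (nat_lit 37) (nat_lit 5) (nat_lit 290) (nat_lit 262) (nat_lit 168))) (XT.nd (nat_lit 78) (nat_lit 0) (nat_lit 0) (XT.lf (nat_lit 0) (nat_lit 1198231288) (nat_lit 304) (nat_lit 23472813149) (nat_lit 76) (nat_lit 3449938852) (nat_lit 29) (nat_lit 5) (nat_lit 33) (nat_lit 5) (nat_lit 30) (nat_lit 5) (nat_lit 291) (nat_lit 262) (nat_lit 167)) (XT.lf (nat_lit 0) (nat_lit 4681423499) (nat_lit 304) (nat_lit 12637005429) (nat_lit 76) (nat_lit 11761554089) (nat_lit 29) (nat_lit 5) (nat_lit 33) (nat_lit 5) (nat_lit 30) (nat_lit 5) (nat_lit 292) (nat_lit 262) (nat_lit 166)))) (XT.nd (nat_lit 156)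 (nat_lit 152) (nat_lit 0) (XT.nd (nat_lit 78) (nat_lit 228) (nat_lit 0) (XT.lf (nat_lit 0) (nat_lit 8331048956) (nat_lit 304) (nat_lit 1269732363) (nat_lit 76) (nat_lit 20486562785) (nat_lit 29) (nat_lit 5) (nat_lit 33) (nat_lit 5) (nat_lit 30) (nat_lit 5) (nat_lit 293) (nat_lit 262) (nat_lit 165)) (XT.lf (nat_lit 0) (nat_lit 11008408814) (nat_lit 228) (nat_lit 1319260541) (nat_lit 304) (nat_lit 18809202069) (nat_lit 26) (nat_lit 5) (nat_lit 29) (nat_lit 5) (nat_lit 30) (nat_lit 5) (nat_lit 294) (nat_lit 262) (nat_lit 164))) (XT.nd (nat_lit 78) (nat_lit 152) (nat_lit 0) (XT.lf (nat_lit 0) (nat_lit 16653943738) (nat_lit 304) (nat_lit 8418794614) (nat_lit 76) (nat_lit 7159668336) (nat_lit 26) (nat_lit 5) (nat_lit 30) (nat_lit 5) (nat_lit 27) (nat_lit 5) (nat_lit 295) (nat_lit 262) (nat_lit 163)) (XT.nd (nat_lit 78) (nat_lit 0) (nat_lit 0) (XT.lf (nat_lit 0) (nat_lit 3972329707) (nat_lit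 152) (nat_lit 17300992966) (nat_lit 228) (nat_lit 12105578144) (nat_lit 24) (nat_lit 5) (nat_lit 26) (nat_lit 5) (nat_lit 27) (nat_lit 5) (nat_lit 296) (nat_lit 262) (nat_lit 162)) (XT.lf (nat_lit 0) (nat_lit 17265906429) (nat_lit 152) (nat_lit 8993664823) (nat_lit 228) (nat_lit 8316373979) (nat_lit 24) (nat_lit 5) (nat_lit 26) (nat_lit 5) (nat_lit 27) (nat_lit 5) (nat_lit 297) (nat_lit 262) (nat_lit 161)))))) (XT.nd (nat_lit 312) (nat_lit 304) (nat_lit 0) (XT.nd (nat_lit 156) (nat_lit 0) (nat_lit 0) (XT.nd (nat_lit 78) (nat_lit 228) (nat_lit 0) (XT.lf (nat_lit 0) (nat_lit 31215223556) (nat_lit 152) (nat_lit 273550930) (nat_lit 228) (nat_lit 4344404899) (nat_lit 24) (nat_lit 5) (nat_lit 26) (nat_lit 5) (nat_lit 27) (nat_lit 5) (nat_lit 298) (nat_lit 262) (nat_lit 160)) (XT.lf (nat_lit 0) (nat_lit 106818811) (nat_lit 228) (nat_lit 28297155830) (nat_lit 76) (nat_lit 8735699503) (nat_lit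 21) (nat_lit 5) (nat_lit 24) (nat_lit 5) (nat_lit 22) (nat_lit 5) (nat_lit 299) (nat_lit 262) (nat_lit 159))) (XT.nd (nat_lit 78) (nat_lit 0) (nat_lit 0) (XT.lf (nat_lit 0) (nat_lit 4712524126) (nat_lit 228) (nat_lit 15457099485) (nat_lit 76) (nat_lit 18334429953) (nat_lit 21) (nat_lit 5) (nat_lit 24) (nat_lit 5) (nat_lit 22) (nat_lit 5) (nat_lit 300) (nat_lit 262) (nat_lit 158)) (XT.lf (nat_lit 0) (nat_lit 9542750009) (nat_lit 228) (nat_lit 1983488983) (nat_lit 76) (nat_lit 28410717349) (nat_lit 21) (nat_lit 5) (nat_lit 24) (nat_lit 5) (nat_lit 22) (nat_lit 5) (nat_lit 301) (nat_lit 262) (nat_lit 157)))) (XT.nd (nat_lit 156) (nat_lit 152) (nat_lit 0) (XT.nd (nat_lit 78) (nat_lit 0) (nat_lit 0) (XT.lf (nat_lit 0) (nat_lit 12557679879) (nat_lit 152) (nat_lit 2247377693) (nat_lit 228) (nat_lit 26626933548) (nat_lit 19) (nat_lit 5) (nat_lit 21) (nat_lit 5) (nat_lit 22) (nat_lit 5) (nat_lit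 302) (nat_lit 262) (nat_lit 156)) (XT.lf (nat_lit 0) (nat_lit 20476254768) (nat_lit 228) (nat_lit 15231062717) (nat_lit 76) (nat_lit 7287186089) (nat_lit 19) (nat_lit 5) (nat_lit 22) (nat_lit 5) (nat_lit 20) (nat_lit 5) (nat_lit 303) (nat_lit 262) (nat_lit 155))) (XT.nd (nat_lit 78) (nat_lit 152) (nat_lit 0) (XT.lf (nat_lit 0) (nat_lit 26462718475) (nat_lit 228) (nat_lit 950264306) (nat_lit 76) (nat_lit 17220587489) (nat_lit 19) (nat_lit 5) (nat_lit 22) (nat_lit 5) (nat_lit 20) (nat_lit 5) (nat_lit 304) (nat_lit 262) (nat_lit 154)) (XT.nd (nat_lit 78) (nat_lit 0) (nat_lit 0) (XT.lf (nat_lit 0) (nat_lit 14501306113) (nat_lit 152) (nat_lit 18468714228) (nat_lit 228) (nat_lit 13373507497) (nat_lit 17) (nat_lit 5) (nat_lit 19) (nat_lit 5) (nat_lit 20) (nat_lit 5) (nat_lit 305) (nat_lit 262) (nat_lit 153)) (XT.lf (nat_lit 0) (nat_lit 30751165177) (nat_lit 152) (nat_lit 9062843490) (nat_lit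 228) (nat_lit 8324421206) (nat_lit 17) (nat_lit 5) (nat_lit 19) (nat_lit 5) (nat_lit 20) (nat_lit 5) (nat_lit 306) (nat_lit 262) (nat_lit 152))))))))
noncomputable def xc180 : XT := (XT.nd (nat_lit 1326) (nat_lit 228) (nat_lit 0) (XT.nd (nat_lit 624) (nat_lit 380) (nat_lit 0) (XT.nd (nat_lit 312) (nat_lit 152) (nat_lit 0) (XT.nd (nat_lit 156) (nat_lit 0) (nat_lit 0) (XT.nd (nat_lit 78) (nat_lit 152) (nat_lit 0) (XT.lf (nat_lit 0) (nat_lit 47008312726) (nat_lit 228) (nat_lit 2229394205) (nat_lit 76) (nat_lit 784976313) (nat_lit 17) (nat_lit 5) (nat_lit 20) (nat_lit 5) (nat_lit 18) (nat_lit 4) (nat_lit 307) (nat_lit 262) (nat_lit 151)) (XT.lf (nat_lit 0) (nat_lit 2847589006) (nat_lit 152) (nat_lit 38050568852) (nat_lit 76) (nat_lit 11082583988) (nat_lit 15) (nat_lit 5) (nat_lit 17) (nat_lit 5) (nat_lit 16) (nat_lit 5) (nat_lit 308) (nat_lit 262) (nat_lit 150))) (XT.nd (nat_lit 78) (nat_lit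 0) (nat_lit 0) (XT.lf (nat_lit 0) (nat_lit 8935377971) (nat_lit 152) (nat_lit 23116573028) (nat_lit 76) (nat_lit 21980590291) (nat_lit 15) (nat_lit 5) (nat_lit 17) (nat_lit 5) (nat_lit 16) (nat_lit 5) (nat_lit 309) (nat_lit 262) (nat_lit 149)) (XT.lf (nat_lit 0) (nat_lit 15323422346) (nat_lit 152) (nat_lit 7442392338) (nat_lit 76) (nat_lit 33421332639) (nat_lit 15) (nat_lit 5) (nat_lit 17) (nat_lit 5) (nat_lit 16) (nat_lit 5) (nat_lit 310) (nat_lit 262) (nat_lit 148)))) (XT.nd (nat_lit 156) (nat_lit 0) (nat_lit 0) (XT.nd (nat_lit 78) (nat_lit 0) (nat_lit 0) (XT.lf (nat_lit 0) (nat_lit 9307180598) (nat_lit 152) (nat_lit 12865062335) (nat_lit 228) (nat_lit 36270181469) (nat_lit 13) (nat_lit 5) (nat_lit 15) (nat_lit 5) (nat_lit 16) (nat_lit 5) (nat_lit 311) (nat_lit 262) (nat_lit 147)) (XT.lf (nat_lit 0) (nat_lit 27146510624) (nat_lit 152) (nat_lit 2339189437) (nat_lit 228) (nat_lit 31318664491)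 (nat_lit 13) (nat_lit 5) (nat_lit 15) (nat_lit 5) (nat_lit 16) (nat_lit 5) (nat_lit 312) (nat_lit 262) (nat_lit 146))) (XT.nd (nat_lit 78) (nat_lit 0) (nat_lit 0) (XT.lf (nat_lit 0) (nat_lit 37297168527) (nat_lit 228) (nat_lit 17548600531) (nat_lit 76) (nat_lit 8432024292) (nat_lit 13) (nat_lit 5) (nat_lit 16) (nat_lit 5) (nat_lit 14) (nat_lit 4) (nat_lit 313) (nat_lit 262) (nat_lit 145)) (XT.lf (nat_lit 0) (nat_lit 45534038254) (nat_lit 228) (nat_lit 677919431) (nat_lit 76) (nat_lit 19661202669) (nat_lit 13) (nat_lit 5) (nat_lit 16) (nat_lit 5) (nat_lit 14) (nat_lit 4) (nat_lit 314) (nat_lit 262) (nat_lit 144))))) (XT.nd (nat_lit 312) (nat_lit 76) (nat_lit 0) (XT.nd (nat_lit 156) (nat_lit 228) (nat_lit 0) (XT.nd (nat_lit 78) (nat_lit 0) (nat_lit 0) (XT.lf (nat_lit 0) (nat_lit 17593996731) (nat_lit 76) (nat_lit 36860094396) (nat_lit 152) (nat_lit 14130645366) (nat_lit 12) (nat_lit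 5) (nat_lit 13) (nat_lit 5) (nat_lit 14) (nat_lit 4) (nat_lit 315) (nat_lit 262) (nat_lit 143)) (XT.lf (nat_lit 0) (nat_lit 36797715140) (nat_lit 76) (nat_lit 27030636874) (nat_lit 152) (nat_lit 7603136557) (nat_lit 12) (nat_lit 5) (nat_lit 13) (nat_lit 5) (nat_lit 14) (nat_lit 4) (nat_lit 316) (nat_lit 262) (nat_lit 142))) (XT.nd (nat_lit 78) (nat_lit 228) (nat_lit 0) (XT.lf (nat_lit 0) (nat_lit 56956543853) (nat_lit 76) (nat_lit 16711662542) (nat_lit 152) (nat_lit 752534879) (nat_lit 12) (nat_lit 5) (nat_lit 13) (nat_lit 5) (nat_lit 14) (nat_lit 4) (nat_lit 317) (nat_lit 262) (nat_lit 141)) (XT.lf (nat_lit 0) (nat_lit 473516743) (nat_lit 152) (nat_lit 5765307539) (nat_lit 228) (nat_lit 71315392599) (nat_lit 9) (nat_lit 5) (nat_lit 11) (nat_lit 5) (nat_lit 12) (nat_lit 5) (nat_lit 318) (nat_lit 262) (nat_lit 140)))) (XT.nd (nat_lit 156) (nat_lit 76) (nat_lit 0) (XT.nd (nat_lit 78)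 (nat_lit 0) (nat_lit 0) (XT.lf (nat_lit 0) (nat_lit 13941522676) (nat_lit 228) (nat_lit 61026749960) (nat_lit 76) (nat_lit 5856129818) (nat_lit 9) (nat_lit 5) (nat_lit 12) (nat_lit 5) (nat_lit 10) (nat_lit 4) (nat_lit 319) (nat_lit 262) (nat_lit 139)) (XT.lf (nat_lit 0) (nat_lit 22121023809) (nat_lit 228) (nat_lit 44269363098) (nat_lit 76) (nat_lit 17863132806) (nat_lit 9) (nat_lit 5) (nat_lit 12) (nat_lit 5) (nat_lit 10) (nat_lit 4) (nat_lit 320) (nat_lit 262) (nat_lit 138))) (XT.nd (nat_lit 78) (nat_lit 76) (nat_lit 0) (XT.lf (nat_lit 0) (nat_lit 30706790075) (nat_lit 228) (nat_lit 26678628404) (nat_lit 76) (nat_lit 30468815372) (nat_lit 9) (nat_lit 5) (nat_lit 12) (nat_lit 5) (nat_lit 10) (nat_lit 4) (nat_lit 321) (nat_lit 262) (nat_lit 137)) (XT.nd (nat_lit 78) (nat_lit 76) (nat_lit 0) (XT.lf (nat_lit 0) (nat_lit 39719263775) (nat_lit 228) (nat_lit 8212663177) (nat_lit 76) (nat_lit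 43703191046) (nat_lit 9) (nat_lit 5) (nat_lit 12) (nat_lit 5) (nat_lit 10) (nat_lit 4) (nat_lit 322) (nat_lit 262) (nat_lit 136)) (XT.lf (nat_lit 0) (nat_lit 11541912446) (nat_lit 76) (nat_lit 37818192334) (nat_lit 152) (nat_lit 46236059400) (nat_lit 8) (nat_lit 5) (nat_lit 9) (nat_lit 5) (nat_lit 10) (nat_lit 4) (nat_lit 323) (nat_lit 262) (nat_lit 135))))))) (XT.nd (nat_lit 624) (nat_lit 76) (nat_lit 0) (XT.nd (nat_lit 312) (nat_lit 152) (nat_lit 0) (XT.nd (nat_lit 156) (nat_lit 0) (nat_lit 0) (XT.nd (nat_lit 78) (nat_lit 0) (nat_lit 0) (XT.lf (nat_lit 0) (nat_lit 32565306975) (nat_lit 76) (nat_lit 27054362355) (nat_lit 152) (nat_lit 40128764036) (nat_lit 8) (nat_lit 5) (nat_lit 9) (nat_lit 5) (nat_lit 10) (nat_lit 4) (nat_lit 324) (nat_lit 262) (nat_lit 134)) (XT.lf (nat_lit 0) (nat_lit 54636028376) (nat_lit 76) (nat_lit 15753894272) (nat_lit 152) (nat_lit 33718512377) (nat_lit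 8) (nat_lit 5) (nat_lit 9) (nat_lit 5) (nat_lit 10) (nat_lit 4) (nat_lit 325) (nat_lit 262) (nat_lit 133))) (XT.nd (nat_lit 78) (nat_lit 0) (nat_lit 0) (XT.lf (nat_lit 0) (nat_lit 77806625986) (nat_lit 76) (nat_lit 3889882210) (nat_lit 152) (nat_lit 26990041919) (nat_lit 8) (nat_lit 5) (nat_lit 9) (nat_lit 5) (nat_lit 10) (nat_lit 4) (nat_lit 326) (nat_lit 262) (nat_lit 132)) (XT.lf (nat_lit 0) (nat_lit 93700084457) (nat_lit 152) (nat_lit 11495149056) (nat_lit 0) (nat_lit 8291758496) (nat_lit 8) (nat_lit 5) (nat_lit 10) (nat_lit 4) (nat_lit 8) (nat_lit 4) (nat_lit 327) (nat_lit 262) (nat_lit 131)))) (XT.nd (nat_lit 156) (nat_lit 76) (nat_lit 0) (XT.nd (nat_lit 78) (nat_lit 0) (nat_lit 0) (XT.lf (nat_lit 0) (nat_lit 9082387881) (nat_lit 76) (nat_lit 97425023067) (nat_lit 76) (nat_lit 12009870401) (nat_lit 7) (nat_lit 4) (nat_lit 8) (nat_lit 5) (nat_lit 8) (nat_lit 4) (nat_lit 328) (nat_lit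 262) (nat_lit 130)) (XT.lf (nat_lit 0) (nat_lit 31084540686) (nat_lit 76) (nat_lit 89063283244) (nat_lit 76) (nat_lit 3641628955) (nat_lit 7) (nat_lit 4) (nat_lit 8) (nat_lit 5) (nat_lit 8) (nat_lit 4) (nat_lit 329) (nat_lit 262) (nat_lit 129))) (XT.nd (nat_lit 78) (nat_lit 0) (nat_lit 0) (XT.lf (nat_lit 0) (nat_lit 4978455050) (nat_lit 152) (nat_lit 75222013457) (nat_lit 76) (nat_lit 49120846299) (nat_lit 6) (nat_lit 5) (nat_lit 8) (nat_lit 5) (nat_lit 7) (nat_lit 4) (nat_lit 330) (nat_lit 262) (nat_lit 128)) (XT.lf (nat_lit 0) (nat_lit 13905354364) (nat_lit 152) (nat_lit 56927767027) (nat_lit 76) (nat_lit 64293757031) (nat_lit 6) (nat_lit 5) (nat_lit 8) (nat_lit 5) (nat_lit 7) (nat_lit 4) (nat_lit 331) (nat_lit 262) (nat_lit 127))))) (XT.nd (nat_lit 312) (nat_lit 0) (nat_lit 0) (XT.nd (nat_lit 156) (nat_lit 76) (nat_lit 0) (XT.nd (nat_lit 78) (nat_lit 0) (nat_lit 0) (XT.lf (nat_lit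 0) (nat_lit 23276878377) (nat_lit 152) (nat_lit 37721759148) (nat_lit 76) (nat_lit 80224171782) (nat_lit 6) (nat_lit 5) (nat_lit 8) (nat_lit 5) (nat_lit 7) (nat_lit 4) (nat_lit 332) (nat_lit 262) (nat_lit 126)) (XT.lf (nat_lit 0) (nat_lit 33115340241) (nat_lit 152) (nat_lit 17558261229) (nat_lit 76) (nat_lit 96950020112) (nat_lit 6) (nat_lit 5) (nat_lit 8) (nat_lit 5) (nat_lit 7) (nat_lit 4) (nat_lit 333) (nat_lit 262) (nat_lit 125))) (XT.nd (nat_lit 78) (nat_lit 0) (nat_lit 0) (XT.lf (nat_lit 0) (nat_lit 3730122265) (nat_lit 76) (nat_lit 39772280261) (nat_lit 152) (nat_lit 110839240865) (nat_lit 5) (nat_lit 5) (nat_lit 6) (nat_lit 5) (nat_lit 7) (nat_lit 4) (nat_lit 334) (nat_lit 262) (nat_lit 124)) (XT.lf (nat_lit 0) (nat_lit 26689874758) (nat_lit 76) (nat_lit 28014773673) (nat_lit 152) (nat_lit 106676128991) (nat_lit 5) (nat_lit 5) (nat_lit 6) (nat_lit 5) (nat_lit 7) (nat_lit 4)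 (nat_lit 335) (nat_lit 262) (nat_lit 123)))) (XT.nd (nat_lit 156) (nat_lit 0) (nat_lit 0) (XT.nd (nat_lit 78) (nat_lit 0) (nat_lit 0) (XT.lf (nat_lit 0) (nat_lit 50795106917) (nat_lit 76) (nat_lit 15670445290) (nat_lit 152) (nat_lit 102306391199) (nat_lit 5) (nat_lit 5) (nat_lit 6) (nat_lit 5) (nat_lit 7) (nat_lit 4) (nat_lit 336) (nat_lit 262) (nat_lit 122)) (XT.lf (nat_lit 0) (nat_lit 76103212150) (nat_lit 76) (nat_lit 2709903856) (nat_lit 152) (nat_lit 97719623349) (nat_lit 5) (nat_lit 5) (nat_lit 6) (nat_lit 5) (nat_lit 7) (nat_lit 4) (nat_lit 337) (nat_lit 262) (nat_lit 121))) (XT.nd (nat_lit 78) (nat_lit 0) (nat_lit 0) (XT.lf (nat_lit 0) (nat_lit 91946882569) (nat_lit 152) (nat_lit 82177339286) (nat_lit 0) (nat_lit 10548914313) (nat_lit 5) (nat_lit 5) (nat_lit 7) (nat_lit 4) (nat_lit 5) (nat_lit 4) (nat_lit 338) (nat_lit 262) (nat_lit 120)) (XT.nd (nat_lit 78) (nat_lit 0) (nat_lit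 0) (XT.lf (nat_lit 0) (nat_lit 105780491517) (nat_lit 152) (nat_lit 63059183889) (nat_lit 0) (nat_lit 24378721897) (nat_lit 5) (nat_lit 5) (nat_lit 7) (nat_lit 4) (nat_lit 5) (nat_lit 4) (nat_lit 339) (nat_lit 262) (nat_lit 119)) (XT.lf (nat_lit 0) (nat_lit 120304570822) (nat_lit 152) (nat_lit 42987232403) (nat_lit 0) (nat_lit 38899180855) (nat_lit 5) (nat_lit 5) (nat_lit 7) (nat_lit 4) (nat_lit 5) (nat_lit 4) (nat_lit 340) (nat_lit 262) (nat_lit 118))))))))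
noncomputable def xc181 : XT := (XT.nd (nat_lit 31668) (nat_lit 0) (nat_lit 3116) (XT.nd (nat_lit 624) (nat_lit 152) (nat_lit 0) (XT.nd (nat_lit 312) (nat_lit 0) (nat_lit 0) (XT.nd (nat_lit 156) (nat_lit 0) (nat_lit 0) (XT.nd (nat_lit 78) (nat_lit 76) (nat_lit 0) (XT.lf (nat_lit 0) (nat_lit 135553701625) (nat_lit 152) (nat_lit 21913694468) (nat_lit 0) (nat_lit 54144863708) (nat_lit 5) (nat_lit 5) (nat_lit 7) (nat_lit 4) (nat_lit 5) (nat_lit 4) (nat_lit 341) (nat_lit 262) (nat_lit 117)) (XT.lf (nat_lit 0) (nat_lit 218601622) (nat_lit 76) (nat_lit 151349002741) (nat_lit 76) (nat_lit 69936881063) (nat_lit 4) (nat_lit 4) (nat_lit 5) (nat_lit 5) (nat_lit 5) (nat_lit 4) (nat_lit 342) (nat_lit 262) (nat_lit 116))) (XT.nd (nat_lit 78) (nat_lit 0) (nat_lit 0) (XT.lf (nat_lit 0) (nat_lit 24216422044) (nat_lit 76) (nat_lit 144535824472) (nat_lit 76) (nat_lit 63120575401) (nat_lit 4) (nat_lit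 4) (nat_lit 5) (nat_lit 5) (nat_lit 5) (nat_lit 4) (nat_lit 343) (nat_lit 262) (nat_lit 115)) (XT.lf (nat_lit 0) (nat_lit 49412338758) (nat_lit 76) (nat_lit 137382758451) (nat_lit 76) (nat_lit 55964530912) (nat_lit 4) (nat_lit 4) (nat_lit 5) (nat_lit 5) (nat_lit 5) (nat_lit 4) (nat_lit 344) (nat_lit 262) (nat_lit 114)))) (XT.nd (nat_lit 156) (nat_lit 0) (nat_lit 0) (XT.nd (nat_lit 78) (nat_lit 0) (nat_lit 0) (XT.lf (nat_lit 0) (nat_lit 75866342043) (nat_lit 76) (nat_lit 129872773570) (nat_lit 76) (nat_lit 48451709394) (nat_lit 4) (nat_lit 4) (nat_lit 5) (nat_lit 5) (nat_lit 5) (nat_lit 4) (nat_lit 345) (nat_lit 262) (nat_lit 113)) (XT.lf (nat_lit 0) (nat_lit 103641417622) (nat_lit 76) (nat_lit 121987988912) (nat_lit 76) (nat_lit 40564223178) (nat_lit 4) (nat_lit 4) (nat_lit 5) (nat_lit 5) (nat_lit 5) (nat_lit 4) (nat_lit 346) (nat_lit 262) (nat_lit 112))) (XT.nd (nat_lit 78) (nat_lit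 0) (nat_lit 0) (XT.lf (nat_lit 0) (nat_lit 132803696625) (nat_lit 76) (nat_lit 113709631180) (nat_lit 76) (nat_lit 32283292533) (nat_lit 4) (nat_lit 4) (nat_lit 5) (nat_lit 5) (nat_lit 5) (nat_lit 4) (nat_lit 347) (nat_lit 262) (nat_lit 111)) (XT.lf (nat_lit 0) (nat_lit 163422613052) (nat_lit 76) (nat_lit 105017990000) (nat_lit 76) (nat_lit 23589200959) (nat_lit 4) (nat_lit 4) (nat_lit 5) (nat_lit 5) (nat_lit 5) (nat_lit 4) (nat_lit 348) (nat_lit 262) (nat_lit 110))))) (XT.nd (nat_lit 390) (nat_lit 76) (nat_lit 0) (XT.nd (nat_lit 156) (nat_lit 76) (nat_lit 0) (XT.nd (nat_lit 78) (nat_lit 0) (nat_lit 0) (XT.lf (nat_lit 0) (nat_lit 195571069084) (nat_lit 76) (nat_lit 95892370986) (nat_lit 76) (nat_lit 14461248237) (nat_lit 4) (nat_lit 4) (nat_lit 5) (nat_lit 5) (nat_lit 5) (nat_lit 4) (nat_lit 349) (nat_lit 262) (nat_lit 109)) (XT.lf (nat_lit 0) (nat_lit 229325608664) (nat_lit 76) (nat_lit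 86311046475) (nat_lit 76) (nat_lit 4877701147) (nat_lit 4) (nat_lit 4) (nat_lit 5) (nat_lit 5) (nat_lit 5) (nat_lit 4) (nat_lit 350) (nat_lit 262) (nat_lit 108))) (XT.nd (nat_lit 78) (nat_lit 0) (nat_lit 0) (XT.lf (nat_lit 0) (nat_lit 5018329639) (nat_lit 152) (nat_lit 71147886309) (nat_lit 76) (nat_lit 259663282263) (nat_lit 3) (nat_lit 5) (nat_lit 5) (nat_lit 5) (nat_lit 4) (nat_lit 4) (nat_lit 351) (nat_lit 262) (nat_lit 107)) (XT.lf (nat_lit 0) (nat_lit 15244533953) (nat_lit 152) (nat_lit 50186183410) (nat_lit 76) (nat_lit 286475718121) (nat_lit 3) (nat_lit 5) (nat_lit 5) (nat_lit 5) (nat_lit 4) (nat_lit 4) (nat_lit 352) (nat_lit 262) (nat_lit 106)))) (XT.nd (nat_lit 30420) (nat_lit 0) (nat_lit 5092) (XT.nd (nat_lit 78) (nat_lit 76) (nat_lit 0) (XT.lf (nat_lit 0) (nat_lit 37254422088) (nat_lit 152) (nat_lit 5069661201) (nat_lit 76) (nat_lit 344188063662) (nat_lit 3) (nat_lit 5)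 (nat_lit 5) (nat_lit 5) (nat_lit 4) (nat_lit 4) (nat_lit 354) (nat_lit 262) (nat_lit 104)) (XT.lf (nat_lit 0) (nat_lit 19827171715) (nat_lit 76) (nat_lit 29572896405) (nat_lit 152) (nat_lit 355707769692) (nat_lit 2) (nat_lit 5) (nat_lit 3) (nat_lit 5) (nat_lit 4) (nat_lit 4) (nat_lit 355) (nat_lit 262) (nat_lit 103))) (XT.nd (nat_lit 78) (nat_lit 0) (nat_lit 0) (XT.lf (nat_lit 0) (nat_lit 4904563120) (nat_lit 684) (nat_lit 777936932) (nat_lit 684) (nat_lit 777936932) (nat_lit 69) (nat_lit 3) (nat_lit 78) (nat_lit 3) (nat_lit 78) (nat_lit 5) (nat_lit 263) (nat_lit 263) (nat_lit 194)) (XT.nd (nat_lit 78) (nat_lit 0) (nat_lit 0) (XT.lf (nat_lit 76) (nat_lit 3862571513) (nat_lit 0) (nat_lit 6605634392) (nat_lit 684) (nat_lit 2753305690) (nat_lit 70) (nat_lit 5) (nat_lit 69) (nat_lit 3) (nat_lit 78) (nat_lit 5) (nat_lit 264) (nat_lit 263) (nat_lit 193)) (XT.lf (nat_lit 76) (nat_lit 9593625338)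 (nat_lit 0) (nat_lit 1570139826) (nat_lit 684) (nat_lit 2373347944) (nat_lit 70) (nat_lit 5) (nat_lit 69) (nat_lit 3) (nat_lit 78) (nat_lit 5) (nat_lit 265) (nat_lit 263) (nat_lit 192))))))) (XT.nd (nat_lit 702) (nat_lit 1444) (nat_lit 0) (XT.nd (nat_lit 312) (nat_lit 0) (nat_lit 0) (XT.nd (nat_lit 156) (nat_lit 608) (nat_lit 0) (XT.nd (nat_lit 78) (nat_lit 0) (nat_lit 0) (XT.lf (nat_lit 76) (nat_lit 1726884321) (nat_lit 0) (nat_lit 10230633395) (nat_lit 684) (nat_lit 1907909344) (nat_lit 71) (nat_lit 5) (nat_lit 70) (nat_lit 5) (nat_lit 79) (nat_lit 5) (nat_lit 266) (nat_lit 263) (nat_lit 191)) (XT.lf (nat_lit 76) (nat_lit 7778214937) (nat_lit 0) (nat_lit 5084098291) (nat_lit 684) (nat_lit 1344373935) (nat_lit 71) (nat_lit 5) (nat_lit 70) (nat_lit 5) (nat_lit 79) (nat_lit 5) (nat_lit 267) (nat_lit 263) (nat_lit 190))) (XT.nd (nat_lit 78) (nat_lit 684) (nat_lit 0) (XT.lf (nat_lit 0)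 (nat_lit 13797691963) (nat_lit 608) (nat_lit 451354312) (nat_lit 684) (nat_lit 316790364) (nat_lit 71) (nat_lit 5) (nat_lit 79) (nat_lit 5) (nat_lit 80) (nat_lit 5) (nat_lit 268) (nat_lit 263) (nat_lit 189)) (XT.lf (nat_lit 0) (nat_lit 1631316) (nat_lit 684) (nat_lit 9017348148) (nat_lit 760) (nat_lit 5916200551) (nat_lit 62) (nat_lit 5) (nat_lit 71) (nat_lit 5) (nat_lit 72) (nat_lit 5) (nat_lit 269) (nat_lit 263) (nat_lit 188)))) (XT.nd (nat_lit 156) (nat_lit 0) (nat_lit 76) (XT.nd (nat_lit 78) (nat_lit 0) (nat_lit 76) (XT.lf (nat_lit 0) (nat_lit 773453948) (nat_lit 684) (nat_lit 2727483707) (nat_lit 760) (nat_lit 11822035456) (nat_lit 62) (nat_lit 5) (nat_lit 71) (nat_lit 5) (nat_lit 72) (nat_lit 5) (nat_lit 270) (nat_lit 263) (nat_lit 187)) (XT.lf (nat_lit 0) (nat_lit 1665570616) (nat_lit 684) (nat_lit 11772919605) (nat_lit 760) (nat_lit 2287657452) (nat_lit 63) (nat_lit 5) (nat_lit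 72) (nat_lit 5) (nat_lit 73) (nat_lit 5) (nat_lit 271) (nat_lit 263) (nat_lit 186))) (XT.nd (nat_lit 78) (nat_lit 0) (nat_lit 0) (XT.lf (nat_lit 0) (nat_lit 2689821973) (nat_lit 684) (nat_lit 5156106719) (nat_lit 760) (nat_lit 8299249121) (nat_lit 63) (nat_lit 5) (nat_lit 72) (nat_lit 5) (nat_lit 73) (nat_lit 5) (nat_lit 272) (nat_lit 263) (nat_lit 185)) (XT.nd (nat_lit 78) (nat_lit 0) (nat_lit 76) (XT.lf (nat_lit 76) (nat_lit 1837547252) (nat_lit 0) (nat_lit 1940416426) (nat_lit 760) (nat_lit 12806631698) (nat_lit 64) (nat_lit 5) (nat_lit 63) (nat_lit 5) (nat_lit 73) (nat_lit 5) (nat_lit 273) (nat_lit 263) (nat_lit 184)) (XT.lf (nat_lit 0) (nat_lit 5060379959) (nat_lit 684) (nat_lit 7763162286) (nat_lit 76) (nat_lit 4215514674) (nat_lit 64) (nat_lit 5) (nat_lit 73) (nat_lit 5) (nat_lit 65) (nat_lit 5) (nat_lit 274) (nat_lit 263) (nat_lit 183)))))) (XT.nd (nat_lit 312) (nat_lit 608)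 (nat_lit 0) (XT.nd (nat_lit 156) (nat_lit 304) (nat_lit 0) (XT.nd (nat_lit 78) (nat_lit 684) (nat_lit 0) (XT.lf (nat_lit 0) (nat_lit 6424059059) (nat_lit 684) (nat_lit 474738931) (nat_lit 76) (nat_lit 10616649761) (nat_lit 64) (nat_lit 5) (nat_lit 73) (nat_lit 5) (nat_lit 65) (nat_lit 5) (nat_lit 275) (nat_lit 263) (nat_lit 182)) (XT.lf (nat_lit 0) (nat_lit 7402806715) (nat_lit 684) (nat_lit 554724341) (nat_lit 760) (nat_lit 10053106922) (nat_lit 55) (nat_lit 5) (nat_lit 64) (nat_lit 5) (nat_lit 65) (nat_lit 5) (nat_lit 276) (nat_lit 263) (nat_lit 181))) (XT.nd (nat_lit 78) (nat_lit 304) (nat_lit 0) (XT.lf (nat_lit 0) (nat_lit 9657719168) (nat_lit 760) (nat_lit 2947738760) (nat_lit 76) (nat_lit 5920685087) (nat_lit 55) (nat_lit 5) (nat_lit 65) (nat_lit 5) (nat_lit 56) (nat_lit 5) (nat_lit 277) (nat_lit 263) (nat_lit 180)) (XT.lf (nat_lit 0) (nat_lit 5241853387) (nat_lit 304) (nat_lit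 6279168946) (nat_lit 380) (nat_lit 7542550382) (nat_lit 51) (nat_lit 5) (nat_lit 55) (nat_lit 5) (nat_lit 56) (nat_lit 5) (nat_lit 278) (nat_lit 263) (nat_lit 179)))) (XT.nd (nat_lit 156) (nat_lit 304) (nat_lit 0) (XT.nd (nat_lit 78) (nat_lit 304) (nat_lit 0) (XT.lf (nat_lit 0) (nat_lit 13521506683) (nat_lit 380) (nat_lit 5701271983) (nat_lit 76) (nat_lit 402946519) (nat_lit 51) (nat_lit 5) (nat_lit 56) (nat_lit 5) (nat_lit 52) (nat_lit 5) (nat_lit 279) (nat_lit 263) (nat_lit 178)) (XT.lf (nat_lit 0) (nat_lit 2799809526) (nat_lit 304) (nat_lit 12957048202) (nat_lit 380) (nat_lit 4452435035) (nat_lit 47) (nat_lit 5) (nat_lit 51) (nat_lit 5) (nat_lit 52) (nat_lit 5) (nat_lit 280) (nat_lit 263) (nat_lit 177))) (XT.nd (nat_lit 78) (nat_lit 304) (nat_lit 0) (XT.lf (nat_lit 0) (nat_lit 11912012561) (nat_lit 304) (nat_lit 6277086950) (nat_lit 380) (nat_lit 2628730295) (nat_lit 47) (nat_lit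 5) (nat_lit 51) (nat_lit 5) (nat_lit 52) (nat_lit 5) (nat_lit 281) (nat_lit 263) (nat_lit 176)) (XT.nd (nat_lit 78) (nat_lit 304) (nat_lit 0) (XT.lf (nat_lit 0) (nat_lit 20743565225) (nat_lit 380) (nat_lit 358111) (nat_lit 76) (nat_lit 712884768) (nat_lit 47) (nat_lit 5) (nat_lit 52) (nat_lit 5) (nat_lit 48) (nat_lit 5) (nat_lit 282) (nat_lit 263) (nat_lit 175)) (XT.lf (nat_lit 0) (nat_lit 1501890868) (nat_lit 304) (nat_lit 12598387006) (nat_lit 76) (nat_lit 8014214137) (nat_lit 43) (nat_lit 5) (nat_lit 47) (nat_lit 5) (nat_lit 44) (nat_lit 5) (nat_lit 283) (nat_lit 263) (nat_lit 174))))))))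
noncomputable def xc182 : XT := (XT.nd (nat_lit 1326) (nat_lit 684) (nat_lit 0) (XT.nd (nat_lit 624) (nat_lit 912) (nat_lit 0) (XT.nd (nat_lit 312) (nat_lit 228) (nat_lit 0) (XT.nd (nat_lit 156) (nat_lit 228) (nat_lit 0) (XT.nd (nat_lit 78) (nat_lit 304) (nat_lit 0) (XT.lf (nat_lit 0) (nat_lit 3793559534) (nat_lit 304) (nat_lit 3319863723) (nat_lit 76) (nat_lit 15691603705) (nat_lit 43) (nat_lit 5) (nat_lit 47) (nat_lit 5) (nat_lit 44) (nat_lit 5) (nat_lit 284) (nat_lit 263) (nat_lit 173)) (XT.lf (nat_lit 0) (nat_lit 6298609778) (nat_lit 380) (nat_lit 16906982127) (nat_lit 76) (nat_lit 319593866) (nat_lit 39) (nat_lit 5) (nat_lit 44) (nat_lit 5) (nat_lit 40) (nat_lit 5) (nat_lit 285) (nat_lit 263) (nat_lit 172))) (XT.nd (nat_lit 78) (nat_lit 228) (nat_lit 0) (XT.lf (nat_lit 0) (nat_lit 9093177631) (nat_lit 380) (nat_lit 7238922137) (nat_lit 76) (nat_lit 7941074752) (nat_lit 39) (nat_lit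 5) (nat_lit 44) (nat_lit 5) (nat_lit 40) (nat_lit 5) (nat_lit 286) (nat_lit 263) (nat_lit 171)) (XT.lf (nat_lit 0) (nat_lit 2997746361) (nat_lit 228) (nat_lit 9067489219) (nat_lit 304) (nat_lit 12991472618) (nat_lit 36) (nat_lit 5) (nat_lit 39) (nat_lit 5) (nat_lit 40) (nat_lit 5) (nat_lit 287) (nat_lit 263) (nat_lit 170)))) (XT.nd (nat_lit 156) (nat_lit 228) (nat_lit 0) (XT.nd (nat_lit 78) (nat_lit 0) (nat_lit 0) (XT.lf (nat_lit 0) (nat_lit 13986999462) (nat_lit 228) (nat_lit 1312715650) (nat_lit 304) (nat_lit 10574044491) (nat_lit 36) (nat_lit 5) (nat_lit 39) (nat_lit 5) (nat_lit 40) (nat_lit 5) (nat_lit 288) (nat_lit 263) (nat_lit 169)) (XT.lf (nat_lit 0) (nat_lit 18794166182) (nat_lit 304) (nat_lit 1323066961) (nat_lit 76) (nat_lit 6609548513) (nat_lit 36) (nat_lit 5) (nat_lit 40) (nat_lit 5) (nat_lit 37) (nat_lit 5) (nat_lit 289) (nat_lit 263) (nat_lit 168))) (XT.nd (nat_lit 78)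 (nat_lit 0) (nat_lit 0) (XT.lf (nat_lit 0) (nat_lit 10059263208) (nat_lit 228) (nat_lit 12574664382) (nat_lit 304) (nat_lit 4980026835) (nat_lit 33) (nat_lit 5) (nat_lit 36) (nat_lit 5) (nat_lit 37) (nat_lit 5) (nat_lit 290) (nat_lit 263) (nat_lit 167)) (XT.lf (nat_lit 0) (nat_lit 22046817878) (nat_lit 228) (nat_lit 4633507385) (nat_lit 304) (nat_lit 1864455784) (nat_lit 33) (nat_lit 5) (nat_lit 36) (nat_lit 5) (nat_lit 37) (nat_lit 5) (nat_lit 291) (nat_lit 263) (nat_lit 166))))) (XT.nd (nat_lit 312) (nat_lit 380) (nat_lit 0) (XT.nd (nat_lit 156) (nat_lit 228) (nat_lit 0) (XT.nd (nat_lit 78) (nat_lit 0) (nat_lit 0) (XT.lf (nat_lit 0) (nat_lit 1495775675) (nat_lit 304) (nat_lit 24328895859) (nat_lit 76) (nat_lit 3689708681) (nat_lit 29) (nat_lit 5) (nat_lit 33) (nat_lit 5) (nat_lit 30) (nat_lit 5) (nat_lit 292) (nat_lit 263) (nat_lit 165)) (XT.lf (nat_lit 0) (nat_lit 5141811648) (nat_lit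 304) (nat_lit 12966419560) (nat_lit 76) (nat_lit 12413701209) (nat_lit 29) (nat_lit 5) (nat_lit 33) (nat_lit 5) (nat_lit 30) (nat_lit 5) (nat_lit 293) (nat_lit 263) (nat_lit 164))) (XT.nd (nat_lit 78) (nat_lit 228) (nat_lit 0) (XT.lf (nat_lit 0) (nat_lit 8963141379) (nat_lit 304) (nat_lit 1045184562) (nat_lit 76) (nat_lit 21571909416) (nat_lit 29) (nat_lit 5) (nat_lit 33) (nat_lit 5) (nat_lit 30) (nat_lit 5) (nat_lit 294) (nat_lit 263) (nat_lit 163)) (XT.lf (nat_lit 0) (nat_lit 11842217957) (nat_lit 228) (nat_lit 1311535524) (nat_lit 304) (nat_lit 19528810811) (nat_lit 26) (nat_lit 5) (nat_lit 29) (nat_lit 5) (nat_lit 30) (nat_lit 5) (nat_lit 295) (nat_lit 263) (nat_lit 162)))) (XT.nd (nat_lit 156) (nat_lit 228) (nat_lit 0) (XT.nd (nat_lit 78) (nat_lit 152) (nat_lit 0) (XT.lf (nat_lit 0) (nat_lit 17687451531) (nat_lit 304) (nat_lit 8560316317) (nat_lit 76) (nat_lit 7585584673) (nat_lit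 26) (nat_lit 5) (nat_lit 30) (nat_lit 5) (nat_lit 27) (nat_lit 5) (nat_lit 296) (nat_lit 263) (nat_lit 161)) (XT.lf (nat_lit 0) (nat_lit 4445857477) (nat_lit 152) (nat_lit 18086671661) (nat_lit 228) (nat_lit 12504935921) (nat_lit 24) (nat_lit 5) (nat_lit 26) (nat_lit 5) (nat_lit 27) (nat_lit 5) (nat_lit 297) (nat_lit 263) (nat_lit 160))) (XT.nd (nat_lit 78) (nat_lit 228) (nat_lit 0) (XT.lf (nat_lit 0) (nat_lit 18391022022) (nat_lit 152) (nat_lit 9367756679) (nat_lit 228) (nat_lit 8536077316) (nat_lit 24) (nat_lit 5) (nat_lit 26) (nat_lit 5) (nat_lit 27) (nat_lit 5) (nat_lit 298) (nat_lit 263) (nat_lit 159)) (XT.nd (nat_lit 78) (nat_lit 228) (nat_lit 0) (XT.lf (nat_lit 0) (nat_lit 33025337374) (nat_lit 152) (nat_lit 215236681) (nat_lit 228) (nat_lit 4374848609) (nat_lit 24) (nat_lit 5) (nat_lit 26) (nat_lit 5) (nat_lit 27) (nat_lit 5) (nat_lit 299) (nat_lit 263) (nat_lit 158)) (XT.lf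 (nat_lit 0) (nat_lit 289459387) (nat_lit 228) (nat_lit 29452165778) (nat_lit 76) (nat_lit 9245670970) (nat_lit 21) (nat_lit 5) (nat_lit 24) (nat_lit 5) (nat_lit 22) (nat_lit 5) (nat_lit 300) (nat_lit 263) (nat_lit 157))))))) (XT.nd (nat_lit 624) (nat_lit 380) (nat_lit 0) (XT.nd (nat_lit 312) (nat_lit 152) (nat_lit 0) (XT.nd (nat_lit 156) (nat_lit 152) (nat_lit 0) (XT.nd (nat_lit 78) (nat_lit 0) (nat_lit 0) (XT.lf (nat_lit 0) (nat_lit 5117007128) (nat_lit 228) (nat_lit 15982480323) (nat_lit 76) (nat_lit 19320852872) (nat_lit 21) (nat_lit 5) (nat_lit 24) (nat_lit 5) (nat_lit 22) (nat_lit 5) (nat_lit 301) (nat_lit 263) (nat_lit 156)) (XT.lf (nat_lit 0) (nat_lit 10180703505) (nat_lit 228) (nat_lit 1846973779) (nat_lit 76) (nat_lit 29897635522) (nat_lit 21) (nat_lit 5) (nat_lit 24) (nat_lit 5) (nat_lit 22) (nat_lit 5) (nat_lit 302) (nat_lit 263) (nat_lit 155))) (XT.nd (nat_lit 78) (nat_lit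 0) (nat_lit 0) (XT.lf (nat_lit 0) (nat_lit 13417452080) (nat_lit 152) (nat_lit 2284636886) (nat_lit 228) (nat_lit 27793233686) (nat_lit 19) (nat_lit 5) (nat_lit 21) (nat_lit 5) (nat_lit 22) (nat_lit 5) (nat_lit 303) (nat_lit 263) (nat_lit 154)) (XT.lf (nat_lit 0) (nat_lit 21650497210) (nat_lit 228) (nat_lit 15765012465) (nat_lit 76) (nat_lit 7720788929) (nat_lit 19) (nat_lit 5) (nat_lit 22) (nat_lit 5) (nat_lit 20) (nat_lit 5) (nat_lit 304) (nat_lit 263) (nat_lit 153)))) (XT.nd (nat_lit 156) (nat_lit 0) (nat_lit 0) (XT.nd (nat_lit 78) (nat_lit 152) (nat_lit 0) (XT.lf (nat_lit 0) (nat_lit 27929120783) (nat_lit 228) (nat_lit 781012390) (nat_lit 76) (nat_lit 18147563087) (nat_lit 19) (nat_lit 5) (nat_lit 22) (nat_lit 5) (nat_lit 20) (nat_lit 5) (nat_lit 305) (nat_lit 263) (nat_lit 152)) (XT.lf (nat_lit 0) (nat_lit 15439640339) (nat_lit 152) (nat_lit 19318654921) (nat_lit 228) (nat_lit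 13895049606) (nat_lit 17) (nat_lit 5) (nat_lit 19) (nat_lit 5) (nat_lit 20) (nat_lit 5) (nat_lit 306) (nat_lit 263) (nat_lit 151))) (XT.nd (nat_lit 78) (nat_lit 0) (nat_lit 0) (XT.lf (nat_lit 0) (nat_lit 32491836692) (nat_lit 152) (nat_lit 9445990409) (nat_lit 228) (nat_lit 8600515345) (nat_lit 17) (nat_lit 5) (nat_lit 19) (nat_lit 5) (nat_lit 20) (nat_lit 5) (nat_lit 307) (nat_lit 263) (nat_lit 150)) (XT.lf (nat_lit 0) (nat_lit 49486548194) (nat_lit 228) (nat_lit 2141788340) (nat_lit 76) (nat_lit 888753672) (nat_lit 17) (nat_lit 5) (nat_lit 20) (nat_lit 5) (nat_lit 18) (nat_lit 4) (nat_lit 308) (nat_lit 263) (nat_lit 149))))) (XT.nd (nat_lit 312) (nat_lit 76) (nat_lit 0) (XT.nd (nat_lit 156) (nat_lit 152) (nat_lit 0) (XT.nd (nat_lit 78) (nat_lit 0) (nat_lit 0) (XT.lf (nat_lit 0) (nat_lit 3117115334) (nat_lit 152) (nat_lit 39752723615) (nat_lit 76) (nat_lit 11703277695) (nat_lit 15)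 (nat_lit 5) (nat_lit 17) (nat_lit 5) (nat_lit 16) (nat_lit 5) (nat_lit 309) (nat_lit 263) (nat_lit 148)) (XT.lf (nat_lit 0) (nat_lit 9503239133) (nat_lit 152) (nat_lit 24081569603) (nat_lit 76) (nat_lit 23143014575) (nat_lit 15) (nat_lit 5) (nat_lit 17) (nat_lit 5) (nat_lit 16) (nat_lit 5) (nat_lit 310) (nat_lit 263) (nat_lit 147))) (XT.nd (nat_lit 78) (nat_lit 152) (nat_lit 0) (XT.lf (nat_lit 0) (nat_lit 16204919429) (nat_lit 152) (nat_lit 7632767121) (nat_lit 76) (nat_lit 35152775242) (nat_lit 15) (nat_lit 5) (nat_lit 17) (nat_lit 5) (nat_lit 16) (nat_lit 5) (nat_lit 311) (nat_lit 263) (nat_lit 146)) (XT.lf (nat_lit 0) (nat_lit 9951353094) (nat_lit 152) (nat_lit 13442128017) (nat_lit 228) (nat_lit 37965169780) (nat_lit 13) (nat_lit 5) (nat_lit 15) (nat_lit 5) (nat_lit 16) (nat_lit 5) (nat_lit 312) (nat_lit 263) (nat_lit 145)))) (XT.nd (nat_lit 156) (nat_lit 76) (nat_lit 0) (XT.nd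 (nat_lit 78) (nat_lit 0) (nat_lit 0) (XT.lf (nat_lit 0) (nat_lit 28674134694) (nat_lit 152) (nat_lit 2393113257) (nat_lit 228) (nat_lit 32771720800) (nat_lit 13) (nat_lit 5) (nat_lit 15) (nat_lit 5) (nat_lit 16) (nat_lit 5) (nat_lit 313) (nat_lit 263) (nat_lit 144)) (XT.lf (nat_lit 0) (nat_lit 39265119383) (nat_lit 228) (nat_lit 18259432077) (nat_lit 76) (nat_lit 8911737999) (nat_lit 13) (nat_lit 5) (nat_lit 16) (nat_lit 5) (nat_lit 14) (nat_lit 4) (nat_lit 314) (nat_lit 263) (nat_lit 143))) (XT.nd (nat_lit 78) (nat_lit 76) (nat_lit 0) (XT.lf (nat_lit 0) (nat_lit 47908923433) (nat_lit 228) (nat_lit 553150183) (nat_lit 76) (nat_lit 20699608033) (nat_lit 13) (nat_lit 5) (nat_lit 16) (nat_lit 5) (nat_lit 14) (nat_lit 4) (nat_lit 315) (nat_lit 263) (nat_lit 142)) (XT.nd (nat_lit 78) (nat_lit 0) (nat_lit 0) (XT.lf (nat_lit 0) (nat_lit 18629802671) (nat_lit 76) (nat_lit 38642938139) (nat_lit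 152) (nat_lit 14736218528) (nat_lit 12) (nat_lit 5) (nat_lit 13) (nat_lit 5) (nat_lit 14) (nat_lit 4) (nat_lit 316) (nat_lit 263) (nat_lit 141)) (XT.lf (nat_lit 0) (nat_lit 38786273376) (nat_lit 76) (nat_lit 28324872549) (nat_lit 152) (nat_lit 7887141855) (nat_lit 12) (nat_lit 5) (nat_lit 13) (nat_lit 5) (nat_lit 14) (nat_lit 4) (nat_lit 317) (nat_lit 263) (nat_lit 140))))))))
noncomputable def xc183 : XT := (XT.nd (nat_lit 1326) (nat_lit 228) (nat_lit 0) (XT.nd (nat_lit 624) (nat_lit 152) (nat_lit 0) (XT.nd (nat_lit 312) (nat_lit 76) (nat_lit 0) (XT.nd (nat_lit 156) (nat_lit 0) (nat_lit 0) (XT.nd (nat_lit 78) (nat_lit 228) (nat_lit 0) (XT.lf (nat_lit 0) (nat_lit 59945963883) (nat_lit 76) (nat_lit 17492677890) (nat_lit 152) (nat_lit 698588738) (nat_lit 12) (nat_lit 5) (nat_lit 13) (nat_lit 5) (nat_lit 14) (nat_lit 4) (nat_lit 318) (nat_lit 263) (nat_lit 139)) (XT.lf (nat_lit 0) (nat_lit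 639569487) (nat_lit 152) (nat_lit 5997839846) (nat_lit 228) (nat_lit 74790007902) (nat_lit 9) (nat_lit 5) (nat_lit 11) (nat_lit 5) (nat_lit 12) (nat_lit 5) (nat_lit 319) (nat_lit 263) (nat_lit 138))) (XT.nd (nat_lit 78) (nat_lit 0) (nat_lit 0) (XT.lf (nat_lit 0) (nat_lit 14721945463) (nat_lit 228) (nat_lit 63939023412) (nat_lit 76) (nat_lit 6200316561) (nat_lit 9) (nat_lit 5) (nat_lit 12) (nat_lit 5) (nat_lit 10) (nat_lit 4) (nat_lit 320) (nat_lit 263) (nat_lit 137)) (XT.lf (nat_lit 0) (nat_lit 23306452764) (nat_lit 228) (nat_lit 46350389304) (nat_lit 76) (nat_lit 18805223020) (nat_lit 9) (nat_lit 5) (nat_lit 12) (nat_lit 5) (nat_lit 10) (nat_lit 4) (nat_lit 321) (nat_lit 263) (nat_lit 136)))) (XT.nd (nat_lit 156) (nat_lit 76) (nat_lit 0) (XT.nd (nat_lit 78) (nat_lit 0) (nat_lit 0) (XT.lf (nat_lit 0) (nat_lit 32317727450) (nat_lit 228) (nat_lit 27886424635) (nat_lit 76) (nat_lit 32038859544)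 (nat_lit 9) (nat_lit 5) (nat_lit 12) (nat_lit 5) (nat_lit 10) (nat_lit 4) (nat_lit 322) (nat_lit 263) (nat_lit 135)) (XT.lf (nat_lit 0) (nat_lit 41777224937) (nat_lit 228) (nat_lit 8503167584) (nat_lit 76) (nat_lit 45932734792) (nat_lit 9) (nat_lit 5) (nat_lit 12) (nat_lit 5) (nat_lit 10) (nat_lit 4) (nat_lit 323) (nat_lit 263) (nat_lit 134))) (XT.nd (nat_lit 78) (nat_lit 0) (nat_lit 0) (XT.lf (nat_lit 0) (nat_lit 12237199259) (nat_lit 76) (nat_lit 39661325554) (nat_lit 152) (nat_lit 48473787135) (nat_lit 8) (nat_lit 5) (nat_lit 9) (nat_lit 5) (nat_lit 10) (nat_lit 4) (nat_lit 324) (nat_lit 263) (nat_lit 133)) (XT.lf (nat_lit 0) (nat_lit 34306135363) (nat_lit 76) (nat_lit 28361579141) (nat_lit 152) (nat_lit 42064654395) (nat_lit 8) (nat_lit 5) (nat_lit 9) (nat_lit 5) (nat_lit 10) (nat_lit 4) (nat_lit 325) (nat_lit 263) (nat_lit 132))))) (XT.nd (nat_lit 312) (nat_lit 76) (nat_lit 0)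 (XT.nd (nat_lit 156) (nat_lit 76) (nat_lit 0) (XT.nd (nat_lit 78) (nat_lit 0) (nat_lit 0) (XT.lf (nat_lit 0) (nat_lit 57475032689) (nat_lit 76) (nat_lit 16498254385) (nat_lit 152) (nat_lit 35337249574) (nat_lit 8) (nat_lit 5) (nat_lit 9) (nat_lit 5) (nat_lit 10) (nat_lit 4) (nat_lit 326) (nat_lit 263) (nat_lit 131)) (XT.lf (nat_lit 0) (nat_lit 81799055280) (nat_lit 76) (nat_lit 4043105272) (nat_lit 152) (nat_lit 28275555042) (nat_lit 8) (nat_lit 5) (nat_lit 9) (nat_lit 5) (nat_lit 10) (nat_lit 4) (nat_lit 327) (nat_lit 263) (nat_lit 130))) (XT.nd (nat_lit 78) (nat_lit 76) (nat_lit 0) (XT.lf (nat_lit 0) (nat_lit 98443632778) (nat_lit 152) (nat_lit 11970272542) (nat_lit 0) (nat_lit 8744394151) (nat_lit 8) (nat_lit 5) (nat_lit 10) (nat_lit 4) (nat_lit 8) (nat_lit 4) (nat_lit 328) (nat_lit 263) (nat_lit 129)) (XT.lf (nat_lit 0) (nat_lit 9634534242) (nat_lit 76) (nat_lit 102255534013) (nat_lit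 76) (nat_lit 12550103364) (nat_lit 7) (nat_lit 4) (nat_lit 8) (nat_lit 5) (nat_lit 8) (nat_lit 4) (nat_lit 329) (nat_lit 263) (nat_lit 128)))) (XT.nd (nat_lit 156) (nat_lit 0) (nat_lit 0) (XT.nd (nat_lit 78) (nat_lit 76) (nat_lit 0) (XT.lf (nat_lit 0) (nat_lit 32732126737) (nat_lit 76) (nat_lit 93477647209) (nat_lit 76) (nat_lit 3766319396) (nat_lit 7) (nat_lit 4) (nat_lit 8) (nat_lit 5) (nat_lit 8) (nat_lit 4) (nat_lit 330) (nat_lit 263) (nat_lit 127)) (XT.lf (nat_lit 0) (nat_lit 5280286504) (nat_lit 152) (nat_lit 78892356825) (nat_lit 76) (nat_lit 51611997227) (nat_lit 6) (nat_lit 5) (nat_lit 8) (nat_lit 5) (nat_lit 7) (nat_lit 4) (nat_lit 331) (nat_lit 263) (nat_lit 126))) (XT.nd (nat_lit 78) (nat_lit 0) (nat_lit 0) (XT.lf (nat_lit 0) (nat_lit 14651011322) (nat_lit 152) (nat_lit 59687719850) (nat_lit 76) (nat_lit 67541881656) (nat_lit 6) (nat_lit 5) (nat_lit 8) (nat_lit 5) (nat_lit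 7) (nat_lit 4) (nat_lit 332) (nat_lit 263) (nat_lit 125)) (XT.nd (nat_lit 78) (nat_lit 0) (nat_lit 0) (XT.lf (nat_lit 0) (nat_lit 24488712048) (nat_lit 152) (nat_lit 39525527554) (nat_lit 76) (nat_lit 84267224918) (nat_lit 6) (nat_lit 5) (nat_lit 8) (nat_lit 5) (nat_lit 7) (nat_lit 4) (nat_lit 333) (nat_lit 263) (nat_lit 124)) (XT.lf (nat_lit 0) (nat_lit 34816811778) (nat_lit 152) (nat_lit 18357774718) (nat_lit 76) (nat_lit 101827849257) (nat_lit 6) (nat_lit 5) (nat_lit 8) (nat_lit 5) (nat_lit 7) (nat_lit 4) (nat_lit 334) (nat_lit 263) (nat_lit 123))))))) (XT.nd (nat_lit 702) (nat_lit 76) (nat_lit 0) (XT.nd (nat_lit 312) (nat_lit 76) (nat_lit 0) (XT.nd (nat_lit 156) (nat_lit 0) (nat_lit 0) (XT.nd (nat_lit 78) (nat_lit 0) (nat_lit 0) (XT.lf (nat_lit 0) (nat_lit 3993763441) (nat_lit 76) (nat_lit 41728491625) (nat_lit 152) (nat_lit 116334156082) (nat_lit 5) (nat_lit 5) (nat_lit 6) (nat_lit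 5) (nat_lit 7) (nat_lit 4) (nat_lit 335) (nat_lit 263) (nat_lit 122)) (XT.lf (nat_lit 0) (nat_lit 28097830461) (nat_lit 76) (nat_lit 29384652691) (nat_lit 152) (nat_lit 111965128940) (nat_lit 5) (nat_lit 5) (nat_lit 6) (nat_lit 5) (nat_lit 7) (nat_lit 4) (nat_lit 336) (nat_lit 263) (nat_lit 121))) (XT.nd (nat_lit 78) (nat_lit 0) (nat_lit 0) (XT.lf (nat_lit 0) (nat_lit 53404826039) (nat_lit 76) (nat_lit 16424577397) (nat_lit 152) (nat_lit 107379037901) (nat_lit 5) (nat_lit 5) (nat_lit 6) (nat_lit 5) (nat_lit 7) (nat_lit 4) (nat_lit 337) (nat_lit 263) (nat_lit 120)) (XT.lf (nat_lit 0) (nat_lit 79975004925) (nat_lit 76) (nat_lit 2817408423) (nat_lit 152) (nat_lit 102564963700) (nat_lit 5) (nat_lit 5) (nat_lit 6) (nat_lit 5) (nat_lit 7) (nat_lit 4) (nat_lit 338) (nat_lit 263) (nat_lit 119)))) (XT.nd (nat_lit 156) (nat_lit 76) (nat_lit 0) (XT.nd (nat_lit 78) (nat_lit 0) (nat_lit 0) (XT.lf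 (nat_lit 0) (nat_lit 96581444367) (nat_lit 152) (nat_lit 86221259173) (nat_lit 0) (nat_lit 11102164554) (nat_lit 5) (nat_lit 5) (nat_lit 7) (nat_lit 4) (nat_lit 5) (nat_lit 4) (nat_lit 339) (nat_lit 263) (nat_lit 118)) (XT.lf (nat_lit 0) (nat_lit 111104961493) (nat_lit 152) (nat_lit 66150288724) (nat_lit 0) (nat_lit 25622233730) (nat_lit 5) (nat_lit 5) (nat_lit 7) (nat_lit 4) (nat_lit 5) (nat_lit 4) (nat_lit 340) (nat_lit 263) (nat_lit 117))) (XT.nd (nat_lit 78) (nat_lit 76) (nat_lit 0) (XT.lf (nat_lit 0) (nat_lit 126353556887) (nat_lit 152) (nat_lit 45077685109) (nat_lit 0) (nat_lit 40867545363) (nat_lit 5) (nat_lit 5) (nat_lit 7) (nat_lit 4) (nat_lit 5) (nat_lit 4) (nat_lit 341) (nat_lit 263) (nat_lit 116)) (XT.nd (nat_lit 78) (nat_lit 76) (nat_lit 0) (XT.lf (nat_lit 0) (nat_lit 142363536729) (nat_lit 152) (nat_lit 22953275464) (nat_lit 0) (nat_lit 56874397813) (nat_lit 5) (nat_lit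 5) (nat_lit 7) (nat_lit 4) (nat_lit 5) (nat_lit 4) (nat_lit 342) (nat_lit 263) (nat_lit 115)) (XT.lf (nat_lit 0) (nat_lit 284730532) (nat_lit 76) (nat_lit 158892734927) (nat_lit 76) (nat_lit 73400617543) (nat_lit 4) (nat_lit 4) (nat_lit 5) (nat_lit 5) (nat_lit 5) (nat_lit 4) (nat_lit 343) (nat_lit 263) (nat_lit 114)))))) (XT.nd (nat_lit 312) (nat_lit 76) (nat_lit 0) (XT.nd (nat_lit 156) (nat_lit 0) (nat_lit 0) (XT.nd (nat_lit 78) (nat_lit 0) (nat_lit 0) (XT.lf (nat_lit 0) (nat_lit 25479813459) (nat_lit 76) (nat_lit 151740027170) (nat_lit 76) (nat_lit 66245073149) (nat_lit 4) (nat_lit 4) (nat_lit 5) (nat_lit 5) (nat_lit 5) (nat_lit 4) (nat_lit 344) (nat_lit 263) (nat_lit 113)) (XT.lf (nat_lit 0) (nat_lit 51933022661) (nat_lit 76) (nat_lit 144230383493) (nat_lit 76) (nat_lit 58732727913) (nat_lit 4) (nat_lit 4) (nat_lit 5) (nat_lit 5) (nat_lit 5) (nat_lit 4) (nat_lit 345) (nat_lit 263)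 (nat_lit 112))) (XT.nd (nat_lit 78) (nat_lit 0) (nat_lit 0) (XT.lf (nat_lit 0) (nat_lit 79707341969) (nat_lit 76) (nat_lit 136345923790) (nat_lit 76) (nat_lit 50845695297) (nat_lit 4) (nat_lit 4) (nat_lit 5) (nat_lit 5) (nat_lit 5) (nat_lit 4) (nat_lit 346) (nat_lit 263) (nat_lit 111)) (XT.lf (nat_lit 0) (nat_lit 108868900716) (nat_lit 76) (nat_lit 128067875540) (nat_lit 76) (nat_lit 42565196654) (nat_lit 4) (nat_lit 4) (nat_lit 5) (nat_lit 5) (nat_lit 5) (nat_lit 4) (nat_lit 347) (nat_lit 263) (nat_lit 110)))) (XT.nd (nat_lit 156) (nat_lit 76) (nat_lit 0) (XT.nd (nat_lit 78) (nat_lit 0) (nat_lit 0) (XT.lf (nat_lit 0) (nat_lit 139487131183) (nat_lit 76) (nat_lit 119376529104) (nat_lit 76) (nat_lit 33871516510) (nat_lit 4) (nat_lit 4) (nat_lit 5) (nat_lit 5) (nat_lit 5) (nat_lit 4) (nat_lit 348) (nat_lit 263) (nat_lit 109)) (XT.lf (nat_lit 0) (nat_lit 171634933921) (nat_lit 76) (nat_lit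 110251190799) (nat_lit 76) (nat_lit 24743955626) (nat_lit 4) (nat_lit 4) (nat_lit 5) (nat_lit 5) (nat_lit 5) (nat_lit 4) (nat_lit 349) (nat_lit 263) (nat_lit 108))) (XT.nd (nat_lit 78) (nat_lit 76) (nat_lit 0) (XT.lf (nat_lit 0) (nat_lit 205388851315) (nat_lit 76) (nat_lit 100670133630) (nat_lit 76) (nat_lit 15160781714) (nat_lit 4) (nat_lit 4) (nat_lit 5) (nat_lit 5) (nat_lit 5) (nat_lit 4) (nat_lit 350) (nat_lit 263) (nat_lit 107)) (XT.nd (nat_lit 78) (nat_lit 76) (nat_lit 0) (XT.lf (nat_lit 0) (nat_lit 240829249837) (nat_lit 76) (nat_lit 90610545556) (nat_lit 76) (nat_lit 5099177695) (nat_lit 4) (nat_lit 4) (nat_lit 5) (nat_lit 5) (nat_lit 5) (nat_lit 4) (nat_lit 351) (nat_lit 263) (nat_lit 106)) (XT.lf (nat_lit 0) (nat_lit 5289904499) (nat_lit 152) (nat_lit 74668983584) (nat_lit 76) (nat_lit 272661019796) (nat_lit 3) (nat_lit 5) (nat_lit 5) (nat_lit 5) (nat_lit 4) (nat_lit 4) (nat_lit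 352) (nat_lit 263) (nat_lit 105))))))))
noncomputable def xc184 : XT := (XT.nd (nat_lit 31746) (nat_lit 0) (nat_lit 1748) (XT.nd (nat_lit 31044) (nat_lit 0) (nat_lit 3648) (XT.nd (nat_lit 30732) (nat_lit 0) (nat_lit 4484) (XT.nd (nat_lit 30576) (nat_lit 0) (nat_lit 5016) (XT.nd (nat_lit 30498) (nat_lit 0) (nat_lit 5016) (XT.lf (nat_lit 0) (nat_lit 27299183396) (nat_lit 152) (nat_lit 29553531814) (nat_lit 76) (nat_lit 330372935551) (nat_lit 3) (nat_lit 5) (nat_lit 5) (nat_lit 5) (nat_lit 4) (nat_lit 4) (nat_lit 354) (nat_lit 263) (nat_lit 103)) (XT.lf (nat_lit 0) (nat_lit 5497817376) (nat_lit 684) (nat_lit 633287458) (nat_lit 684) (nat_lit 633287458) (nat_lit 69) (nat_lit 3) (nat_lit 78) (nat_lit 3) (nat_lit 78) (nat_lit 5) (nat_lit 264) (nat_lit 264) (nat_lit 192))) (XT.nd (nat_lit 78) (nat_lit 0) (nat_lit 0) (XT.lf (nat_lit 76) (nat_lit 4416871882) (nat_lit 0) (nat_lit 7243290079)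 (nat_lit 684) (nat_lit 2185826045) (nat_lit 70) (nat_lit 5) (nat_lit 69) (nat_lit 3) (nat_lit 78) (nat_lit 5) (nat_lit 265) (nat_lit 264) (nat_lit 191)) (XT.lf (nat_lit 76) (nat_lit 10417279741) (nat_lit 0) (nat_lit 1941383930) (nat_lit 684) (nat_lit 1820448742) (nat_lit 70) (nat_lit 5) (nat_lit 69) (nat_lit 3) (nat_lit 78) (nat_lit 5) (nat_lit 266) (nat_lit 264) (nat_lit 190)))) (XT.nd (nat_lit 156) (nat_lit 608) (nat_lit 0) (XT.nd (nat_lit 78) (nat_lit 0) (nat_lit 0) (XT.lf (nat_lit 76) (nat_lit 2190444601) (nat_lit 0) (nat_lit 10972876308) (nat_lit 684) (nat_lit 1362104150) (nat_lit 71) (nat_lit 5) (nat_lit 70) (nat_lit 5) (nat_lit 79) (nat_lit 5) (nat_lit 267) (nat_lit 264) (nat_lit 189)) (XT.lf (nat_lit 76) (nat_lit 8526379077) (nat_lit 0) (nat_lit 5558028199) (nat_lit 684) (nat_lit 800925336) (nat_lit 71) (nat_lit 5) (nat_lit 70) (nat_lit 5) (nat_lit 79) (nat_lit 5) (nat_lit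 268) (nat_lit 264) (nat_lit 188))) (XT.nd (nat_lit 78) (nat_lit 684) (nat_lit 0) (XT.lf (nat_lit 0) (nat_lit 15035717384) (nat_lit 608) (nat_lit 98328862) (nat_lit 684) (nat_lit 130065671) (nat_lit 71) (nat_lit 5) (nat_lit 79) (nat_lit 5) (nat_lit 80) (nat_lit 5) (nat_lit 269) (nat_lit 264) (nat_lit 187)) (XT.lf (nat_lit 0) (nat_lit 540579544) (nat_lit 684) (nat_lit 9078496073) (nat_lit 760) (nat_lit 6033553160) (nat_lit 62) (nat_lit 5) (nat_lit 71) (nat_lit 5) (nat_lit 72) (nat_lit 5) (nat_lit 270) (nat_lit 264) (nat_lit 186))))) (XT.nd (nat_lit 312) (nat_lit 836) (nat_lit 0) (XT.nd (nat_lit 156) (nat_lit 0) (nat_lit 76) (XT.nd (nat_lit 78) (nat_lit 0) (nat_lit 76) (XT.lf (nat_lit 0) (nat_lit 1325332990) (nat_lit 684) (nat_lit 2492696480) (nat_lit 760) (nat_lit 12243177783) (nat_lit 62) (nat_lit 5) (nat_lit 71) (nat_lit 5) (nat_lit 72) (nat_lit 5) (nat_lit 271) (nat_lit 264) (nat_lit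 185)) (XT.lf (nat_lit 0) (nat_lit 2241299851) (nat_lit 684) (nat_lit 11967501679) (nat_lit 760) (nat_lit 2276884139) (nat_lit 63) (nat_lit 5) (nat_lit 72) (nat_lit 5) (nat_lit 73) (nat_lit 5) (nat_lit 272) (nat_lit 264) (nat_lit 184))) (XT.nd (nat_lit 78) (nat_lit 0) (nat_lit 0) (XT.lf (nat_lit 0) (nat_lit 3293313742) (nat_lit 684) (nat_lit 5038613096) (nat_lit 760) (nat_lit 8595015210) (nat_lit 63) (nat_lit 5) (nat_lit 72) (nat_lit 5) (nat_lit 73) (nat_lit 5) (nat_lit 273) (nat_lit 264) (nat_lit 183)) (XT.lf (nat_lit 76) (nat_lit 2298670364) (nat_lit 0) (nat_lit 2120623763) (nat_lit 760) (nat_lit 12969962144) (nat_lit 64) (nat_lit 5) (nat_lit 63) (nat_lit 5) (nat_lit 73) (nat_lit 5) (nat_lit 274) (nat_lit 264) (nat_lit 182)))) (XT.nd (nat_lit 156) (nat_lit 988) (nat_lit 0) (XT.nd (nat_lit 78) (nat_lit 0) (nat_lit 0) (XT.lf (nat_lit 0) (nat_lit 5743049901) (nat_lit 684) (nat_lit 7775021927)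 (nat_lit 76) (nat_lit 4349600857) (nat_lit 64) (nat_lit 5) (nat_lit 73) (nat_lit 5) (nat_lit 65) (nat_lit 5) (nat_lit 275) (nat_lit 264) (nat_lit 181)) (XT.lf (nat_lit 0) (nat_lit 7154453388) (nat_lit 684) (nat_lit 140096379) (nat_lit 76) (nat_lit 11074444582) (nat_lit 64) (nat_lit 5) (nat_lit 73) (nat_lit 5) (nat_lit 65) (nat_lit 5) (nat_lit 276) (nat_lit 264) (nat_lit 180))) (XT.nd (nat_lit 78) (nat_lit 304) (nat_lit 0) (XT.lf (nat_lit 0) (nat_lit 8125546235) (nat_lit 684) (nat_lit 625072507) (nat_lit 760) (nat_lit 10139108462) (nat_lit 55) (nat_lit 5) (nat_lit 64) (nat_lit 5) (nat_lit 65) (nat_lit 5) (nat_lit 277) (nat_lit 264) (nat_lit 179)) (XT.nd (nat_lit 78) (nat_lit 304) (nat_lit 0) (XT.lf (nat_lit 0) (nat_lit 10516363071) (nat_lit 760) (nat_lit 2738261748) (nat_lit 76) (nat_lit 6177435436) (nat_lit 55) (nat_lit 5) (nat_lit 65) (nat_lit 5) (nat_lit 56) (nat_lit 5) (nat_lit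 278) (nat_lit 264) (nat_lit 178)) (XT.lf (nat_lit 0) (nat_lit 5855054137) (nat_lit 304) (nat_lit 6605365803) (nat_lit 380) (nat_lit 7536638358) (nat_lit 51) (nat_lit 5) (nat_lit 55) (nat_lit 5) (nat_lit 56) (nat_lit 5) (nat_lit 279) (nat_lit 264) (nat_lit 177))))))) (XT.nd (nat_lit 624) (nat_lit 988) (nat_lit 0) (XT.nd (nat_lit 312) (nat_lit 380) (nat_lit 0) (XT.nd (nat_lit 156) (nat_lit 228) (nat_lit 0) (XT.nd (nat_lit 78) (nat_lit 304) (nat_lit 0) (XT.lf (nat_lit 0) (nat_lit 14543444317) (nat_lit 380) (nat_lit 5633009669) (nat_lit 76) (nat_lit 411811270) (nat_lit 51) (nat_lit 5) (nat_lit 56) (nat_lit 5) (nat_lit 52) (nat_lit 5) (nat_lit 280) (nat_lit 264) (nat_lit 176)) (XT.lf (nat_lit 0) (nat_lit 3287427111) (nat_lit 304) (nat_lit 13592093603) (nat_lit 380) (nat_lit 4322111802) (nat_lit 47) (nat_lit 5) (nat_lit 51) (nat_lit 5) (nat_lit 52) (nat_lit 5) (nat_lit 281) (nat_lit 264)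 (nat_lit 175))) (XT.nd (nat_lit 78) (nat_lit 228) (nat_lit 0) (XT.lf (nat_lit 0) (nat_lit 12838686626) (nat_lit 304) (nat_lit 6578744146) (nat_lit 380) (nat_lit 2424028729) (nat_lit 47) (nat_lit 5) (nat_lit 51) (nat_lit 5) (nat_lit 52) (nat_lit 5) (nat_lit 282) (nat_lit 264) (nat_lit 174)) (XT.lf (nat_lit 0) (nat_lit 342141111) (nat_lit 228) (nat_lit 21747817220) (nat_lit 304) (nat_lit 422974216) (nat_lit 44) (nat_lit 5) (nat_lit 47) (nat_lit 5) (nat_lit 48) (nat_lit 5) (nat_lit 283) (nat_lit 264) (nat_lit 173)))) (XT.nd (nat_lit 156) (nat_lit 304) (nat_lit 0) (XT.nd (nat_lit 78) (nat_lit 0) (nat_lit 0) (XT.lf (nat_lit 0) (nat_lit 1877466507) (nat_lit 304) (nat_lit 12891013942) (nat_lit 76) (nat_lit 8435573585) (nat_lit 43) (nat_lit 5) (nat_lit 47) (nat_lit 5) (nat_lit 44) (nat_lit 5) (nat_lit 284) (nat_lit 264) (nat_lit 172)) (XT.lf (nat_lit 0) (nat_lit 4269409983) (nat_lit 304) (nat_lit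 3164626038) (nat_lit 76) (nat_lit 16495849358) (nat_lit 43) (nat_lit 5) (nat_lit 47) (nat_lit 5) (nat_lit 44) (nat_lit 5) (nat_lit 285) (nat_lit 264) (nat_lit 171))) (XT.nd (nat_lit 78) (nat_lit 0) (nat_lit 0) (XT.lf (nat_lit 0) (nat_lit 6891622088) (nat_lit 380) (nat_lit 17421977038) (nat_lit 76) (nat_lit 372909169) (nat_lit 39) (nat_lit 5) (nat_lit 44) (nat_lit 5) (nat_lit 40) (nat_lit 5) (nat_lit 286) (nat_lit 264) (nat_lit 170)) (XT.lf (nat_lit 0) (nat_lit 9812676342) (nat_lit 380) (nat_lit 7286245201) (nat_lit 76) (nat_lit 8373686214) (nat_lit 39) (nat_lit 5) (nat_lit 44) (nat_lit 5) (nat_lit 40) (nat_lit 5) (nat_lit 287) (nat_lit 264) (nat_lit 169))))) (XT.nd (nat_lit 312) (nat_lit 532) (nat_lit 0) (XT.nd (nat_lit 156) (nat_lit 228) (nat_lit 0) (XT.nd (nat_lit 78) (nat_lit 0) (nat_lit 0) (XT.lf (nat_lit 0) (nat_lit 3457182157) (nat_lit 228) (nat_lit 9468376531) (nat_lit 304)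 (nat_lit 13370195190) (nat_lit 36) (nat_lit 5) (nat_lit 39) (nat_lit 5) (nat_lit 40) (nat_lit 5) (nat_lit 288) (nat_lit 264) (nat_lit 168)) (XT.lf (nat_lit 0) (nat_lit 14981157509) (nat_lit 228) (nat_lit 1328363671) (nat_lit 304) (nat_lit 10844793326) (nat_lit 36) (nat_lit 5) (nat_lit 39) (nat_lit 5) (nat_lit 40) (nat_lit 5) (nat_lit 289) (nat_lit 264) (nat_lit 167))) (XT.nd (nat_lit 78) (nat_lit 228) (nat_lit 0) (XT.lf (nat_lit 0) (nat_lit 19967779979) (nat_lit 304) (nat_lit 1096686307) (nat_lit 76) (nat_lit 6986109596) (nat_lit 36) (nat_lit 5) (nat_lit 40) (nat_lit 5) (nat_lit 37) (nat_lit 5) (nat_lit 290) (nat_lit 264) (nat_lit 166)) (XT.lf (nat_lit 0) (nat_lit 10850042080) (nat_lit 228) (nat_lit 13142842630) (nat_lit 304) (nat_lit 4989595273) (nat_lit 33) (nat_lit 5) (nat_lit 36) (nat_lit 5) (nat_lit 37) (nat_lit 5) (nat_lit 291) (nat_lit 264) (nat_lit 165)))) (XT.nd (nat_lit 156)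 (nat_lit 228) (nat_lit 0) (XT.nd (nat_lit 78) (nat_lit 304) (nat_lit 0) (XT.lf (nat_lit 0) (nat_lit 23423268974) (nat_lit 228) (nat_lit 4807511353) (nat_lit 304) (nat_lit 1729647236) (nat_lit 33) (nat_lit 5) (nat_lit 36) (nat_lit 5) (nat_lit 37) (nat_lit 5) (nat_lit 292) (nat_lit 264) (nat_lit 164)) (XT.lf (nat_lit 0) (nat_lit 1786104434) (nat_lit 304) (nat_lit 25257306233) (nat_lit 76) (nat_lit 3935212606) (nat_lit 29) (nat_lit 5) (nat_lit 33) (nat_lit 5) (nat_lit 30) (nat_lit 5) (nat_lit 293) (nat_lit 264) (nat_lit 163))) (XT.nd (nat_lit 78) (nat_lit 228) (nat_lit 0) (XT.lf (nat_lit 0) (nat_lit 5604178397) (nat_lit 304) (nat_lit 13340422044) (nat_lit 76) (nat_lit 13092499118) (nat_lit 29) (nat_lit 5) (nat_lit 33) (nat_lit 5) (nat_lit 30) (nat_lit 5) (nat_lit 294) (nat_lit 264) (nat_lit 162)) (XT.nd (nat_lit 78) (nat_lit 228) (nat_lit 0) (XT.lf (nat_lit 0) (nat_lit 9606799559) (nat_lit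 304) (nat_lit 836188081) (nat_lit 76) (nat_lit 22705850457) (nat_lit 29) (nat_lit 5) (nat_lit 33) (nat_lit 5) (nat_lit 30) (nat_lit 5) (nat_lit 295) (nat_lit 264) (nat_lit 161)) (XT.lf (nat_lit 0) (nat_lit 12691370762) (nat_lit 228) (nat_lit 1310275072) (nat_lit 304) (nat_lit 20304932656) (nat_lit 26) (nat_lit 5) (nat_lit 29) (nat_lit 5) (nat_lit 30) (nat_lit 5) (nat_lit 296) (nat_lit 264) (nat_lit 160))))))))
noncomputable def xc185 : XT := (XT.nd (nat_lit 1326) (nat_lit 456) (nat_lit 0) (XT.nd (nat_lit 624) (nat_lit 456) (nat_lit 0) (XT.nd (nat_lit 312) (nat_lit 380) (nat_lit 0) (XT.nd (nat_lit 156) (nat_lit 0) (nat_lit 0) (XT.nd (nat_lit 78) (nat_lit 152) (nat_lit 0) (XT.lf (nat_lit 0) (nat_lit 18753965246) (nat_lit 304) (nat_lit 8734891745) (nat_lit 76) (nat_lit 8026481068) (nat_lit 26) (nat_lit 5) (nat_lit 30) (nat_lit 5) (nat_lit 27) (nat_lit 5) (nat_lit 297) (nat_lit 264) (nat_lit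 159)) (XT.lf (nat_lit 0) (nat_lit 4917502991) (nat_lit 152) (nat_lit 18919013449) (nat_lit 228) (nat_lit 12943406182) (nat_lit 24) (nat_lit 5) (nat_lit 26) (nat_lit 5) (nat_lit 27) (nat_lit 5) (nat_lit 298) (nat_lit 264) (nat_lit 158))) (XT.nd (nat_lit 78) (nat_lit 0) (nat_lit 0) (XT.lf (nat_lit 0) (nat_lit 19548051828) (nat_lit 152) (nat_lit 9767580899) (nat_lit 228) (nat_lit 8784998767) (nat_lit 24) (nat_lit 5) (nat_lit 26) (nat_lit 5) (nat_lit 27) (nat_lit 5) (nat_lit 299) (nat_lit 264) (nat_lit 157)) (XT.lf (nat_lit 0) (nat_lit 34902774437) (nat_lit 152) (nat_lit 160699835) (nat_lit 228) (nat_lit 4424179216) (nat_lit 24) (nat_lit 5) (nat_lit 26) (nat_lit 5) (nat_lit 27) (nat_lit 5) (nat_lit 300) (nat_lit 264) (nat_lit 156)))) (XT.nd (nat_lit 156) (nat_lit 152) (nat_lit 0) (XT.nd (nat_lit 78) (nat_lit 0) (nat_lit 0) (XT.lf (nat_lit 0) (nat_lit 464748352) (nat_lit 228) (nat_lit 30689084414)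 (nat_lit 76) (nat_lit 9774336825) (nat_lit 21) (nat_lit 5) (nat_lit 24) (nat_lit 5) (nat_lit 22) (nat_lit 5) (nat_lit 301) (nat_lit 264) (nat_lit 155)) (XT.lf (nat_lit 0) (nat_lit 5526015576) (nat_lit 228) (nat_lit 16557138002) (nat_lit 76) (nat_lit 20350116759) (nat_lit 21) (nat_lit 5) (nat_lit 24) (nat_lit 5) (nat_lit 22) (nat_lit 5) (nat_lit 302) (nat_lit 264) (nat_lit 154))) (XT.nd (nat_lit 78) (nat_lit 152) (nat_lit 0) (XT.lf (nat_lit 0) (nat_lit 10835603530) (nat_lit 228) (nat_lit 1725545004) (nat_lit 76) (nat_lit 31452728007) (nat_lit 21) (nat_lit 5) (nat_lit 24) (nat_lit 5) (nat_lit 22) (nat_lit 5) (nat_lit 303) (nat_lit 264) (nat_lit 153)) (XT.lf (nat_lit 0) (nat_lit 14298654124) (nat_lit 152) (nat_lit 2330742027) (nat_lit 228) (nat_lit 29033193295) (nat_lit 19) (nat_lit 5) (nat_lit 21) (nat_lit 5) (nat_lit 22) (nat_lit 5) (nat_lit 304) (nat_lit 264) (nat_lit 152))))) (XT.nd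 (nat_lit 312) (nat_lit 304) (nat_lit 0) (XT.nd (nat_lit 156) (nat_lit 152) (nat_lit 0) (XT.nd (nat_lit 78) (nat_lit 0) (nat_lit 0) (XT.lf (nat_lit 0) (nat_lit 22869466246) (nat_lit 228) (nat_lit 16346820106) (nat_lit 76) (nat_lit 8169634303) (nat_lit 19) (nat_lit 5) (nat_lit 22) (nat_lit 5) (nat_lit 20) (nat_lit 5) (nat_lit 305) (nat_lit 264) (nat_lit 151)) (XT.lf (nat_lit 0) (nat_lit 29455523656) (nat_lit 228) (nat_lit 623450646) (nat_lit 76) (nat_lit 19114756411) (nat_lit 19) (nat_lit 5) (nat_lit 22) (nat_lit 5) (nat_lit 20) (nat_lit 5) (nat_lit 306) (nat_lit 264) (nat_lit 150))) (XT.nd (nat_lit 78) (nat_lit 0) (nat_lit 0) (XT.lf (nat_lit 0) (nat_lit 16405063553) (nat_lit 152) (nat_lit 20217925519) (nat_lit 228) (nat_lit 14456347876) (nat_lit 17) (nat_lit 5) (nat_lit 19) (nat_lit 5) (nat_lit 20) (nat_lit 5) (nat_lit 307) (nat_lit 264) (nat_lit 149)) (XT.lf (nat_lit 0) (nat_lit 34300658238)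 (nat_lit 152) (nat_lit 9854802170) (nat_lit 228) (nat_lit 8903441865) (nat_lit 17) (nat_lit 5) (nat_lit 19) (nat_lit 5) (nat_lit 20) (nat_lit 5) (nat_lit 308) (nat_lit 264) (nat_lit 148)))) (XT.nd (nat_lit 156) (nat_lit 152) (nat_lit 0) (XT.nd (nat_lit 78) (nat_lit 152) (nat_lit 0) (XT.lf (nat_lit 0) (nat_lit 52076811959) (nat_lit 228) (nat_lit 2068310342) (nat_lit 76) (nat_lit 991720646) (nat_lit 17) (nat_lit 5) (nat_lit 20) (nat_lit 5) (nat_lit 18) (nat_lit 4) (nat_lit 309) (nat_lit 264) (nat_lit 147)) (XT.lf (nat_lit 0) (nat_lit 3388297066) (nat_lit 152) (nat_lit 41558614961) (nat_lit 76) (nat_lit 12348817551) (nat_lit 15) (nat_lit 5) (nat_lit 17) (nat_lit 5) (nat_lit 16) (nat_lit 5) (nat_lit 310) (nat_lit 264) (nat_lit 146))) (XT.nd (nat_lit 78) (nat_lit 152) (nat_lit 0) (XT.lf (nat_lit 0) (nat_lit 10088235343) (nat_lit 152) (nat_lit 25112557765) (nat_lit 76) (nat_lit 24357666229)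 (nat_lit 15) (nat_lit 5) (nat_lit 17) (nat_lit 5) (nat_lit 16) (nat_lit 5) (nat_lit 311) (nat_lit 264) (nat_lit 145)) (XT.nd (nat_lit 78) (nat_lit 152) (nat_lit 0) (XT.lf (nat_lit 0) (nat_lit 17119769451) (nat_lit 152) (nat_lit 7849557554) (nat_lit 76) (nat_lit 36965176790) (nat_lit 15) (nat_lit 5) (nat_lit 17) (nat_lit 5) (nat_lit 16) (nat_lit 5) (nat_lit 312) (nat_lit 264) (nat_lit 144)) (XT.lf (nat_lit 0) (nat_lit 10611109834) (nat_lit 152) (nat_lit 14054200465) (nat_lit 228) (nat_lit 39755926445) (nat_lit 13) (nat_lit 5) (nat_lit 15) (nat_lit 5) (nat_lit 16) (nat_lit 5) (nat_lit 313) (nat_lit 264) (nat_lit 143))))))) (XT.nd (nat_lit 702) (nat_lit 152) (nat_lit 0) (XT.nd (nat_lit 312) (nat_lit 228) (nat_lit 0) (XT.nd (nat_lit 156) (nat_lit 76) (nat_lit 0) (XT.nd (nat_lit 78) (nat_lit 0) (nat_lit 0) (XT.lf (nat_lit 0) (nat_lit 30262307224) (nat_lit 152) (nat_lit 2455593726) (nat_lit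 228) (nat_lit 34307924149) (nat_lit 13) (nat_lit 5) (nat_lit 15) (nat_lit 5) (nat_lit 16) (nat_lit 5) (nat_lit 314) (nat_lit 264) (nat_lit 142)) (XT.lf (nat_lit 0) (nat_lit 41321883225) (nat_lit 228) (nat_lit 19021293948) (nat_lit 76) (nat_lit 9410034643) (nat_lit 13) (nat_lit 5) (nat_lit 16) (nat_lit 5) (nat_lit 14) (nat_lit 4) (nat_lit 315) (nat_lit 264) (nat_lit 141))) (XT.nd (nat_lit 78) (nat_lit 76) (nat_lit 0) (XT.lf (nat_lit 0) (nat_lit 50393424721) (nat_lit 228) (nat_lit 436893661) (nat_lit 76) (nat_lit 21784788190) (nat_lit 13) (nat_lit 5) (nat_lit 16) (nat_lit 5) (nat_lit 14) (nat_lit 4) (nat_lit 316) (nat_lit 264) (nat_lit 140)) (XT.lf (nat_lit 0) (nat_lit 19702885642) (nat_lit 76) (nat_lit 40520517267) (nat_lit 152) (nat_lit 15381456570) (nat_lit 12) (nat_lit 5) (nat_lit 13) (nat_lit 5) (nat_lit 14) (nat_lit 4) (nat_lit 317) (nat_lit 264) (nat_lit 139)))) (XT.nd (nat_lit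 156) (nat_lit 228) (nat_lit 0) (XT.nd (nat_lit 78) (nat_lit 0) (nat_lit 0) (XT.lf (nat_lit 0) (nat_lit 40860437366) (nat_lit 76) (nat_lit 29689146863) (nat_lit 152) (nat_lit 8194286677) (nat_lit 12) (nat_lit 5) (nat_lit 13) (nat_lit 5) (nat_lit 14) (nat_lit 4) (nat_lit 318) (nat_lit 264) (nat_lit 138)) (XT.lf (nat_lit 0) (nat_lit 63071690955) (nat_lit 76) (nat_lit 18317817200) (nat_lit 152) (nat_lit 650458869) (nat_lit 12) (nat_lit 5) (nat_lit 13) (nat_lit 5) (nat_lit 14) (nat_lit 4) (nat_lit 319) (nat_lit 264) (nat_lit 137))) (XT.nd (nat_lit 78) (nat_lit 0) (nat_lit 0) (XT.lf (nat_lit 0) (nat_lit 800688014) (nat_lit 152) (nat_lit 6247180300) (nat_lit 228) (nat_lit 78446828635) (nat_lit 9) (nat_lit 5) (nat_lit 11) (nat_lit 5) (nat_lit 12) (nat_lit 5) (nat_lit 320) (nat_lit 264) (nat_lit 136)) (XT.nd (nat_lit 78) (nat_lit 0) (nat_lit 0) (XT.lf (nat_lit 0) (nat_lit 15533640608) (nat_lit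 228) (nat_lit 67009839394) (nat_lit 76) (nat_lit 6556935792) (nat_lit 9) (nat_lit 5) (nat_lit 12) (nat_lit 5) (nat_lit 10) (nat_lit 4) (nat_lit 321) (nat_lit 264) (nat_lit 135)) (XT.lf (nat_lit 0) (nat_lit 24543773375) (nat_lit 228) (nat_lit 48547780018) (nat_lit 76) (nat_lit 19789868364) (nat_lit 9) (nat_lit 5) (nat_lit 12) (nat_lit 5) (nat_lit 10) (nat_lit 4) (nat_lit 322) (nat_lit 264) (nat_lit 134)))))) (XT.nd (nat_lit 312) (nat_lit 76) (nat_lit 0) (XT.nd (nat_lit 156) (nat_lit 76) (nat_lit 0) (XT.nd (nat_lit 78) (nat_lit 0) (nat_lit 0) (XT.lf (nat_lit 0) (nat_lit 34002183321) (nat_lit 228) (nat_lit 29166337532) (nat_lit 76) (nat_lit 33683073181) (nat_lit 9) (nat_lit 5) (nat_lit 12) (nat_lit 5) (nat_lit 10) (nat_lit 4) (nat_lit 323) (nat_lit 264) (nat_lit 133)) (XT.lf (nat_lit 0) (nat_lit 43931390468) (nat_lit 228) (nat_lit 8819365644) (nat_lit 76) (nat_lit 48269629303) (nat_lit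 9) (nat_lit 5) (nat_lit 12) (nat_lit 5) (nat_lit 10) (nat_lit 4) (nat_lit 324) (nat_lit 264) (nat_lit 132))) (XT.nd (nat_lit 78) (nat_lit 0) (nat_lit 0) (XT.lf (nat_lit 0) (nat_lit 12956262117) (nat_lit 76) (nat_lit 41601057230) (nat_lit 152) (nat_lit 50830288070) (nat_lit 8) (nat_lit 5) (nat_lit 9) (nat_lit 5) (nat_lit 10) (nat_lit 4) (nat_lit 325) (nat_lit 264) (nat_lit 131)) (XT.lf (nat_lit 0) (nat_lit 36123540125) (nat_lit 76) (nat_lit 29738387050) (nat_lit 152) (nat_lit 44103898142) (nat_lit 8) (nat_lit 5) (nat_lit 9) (nat_lit 5) (nat_lit 10) (nat_lit 4) (nat_lit 326) (nat_lit 264) (nat_lit 130)))) (XT.nd (nat_lit 156) (nat_lit 76) (nat_lit 0) (XT.nd (nat_lit 78) (nat_lit 0) (nat_lit 0) (XT.lf (nat_lit 0) (nat_lit 60446020509) (nat_lit 76) (nat_lit 17283861344) (nat_lit 152) (nat_lit 37043170174) (nat_lit 8) (nat_lit 5) (nat_lit 9) (nat_lit 5) (nat_lit 10) (nat_lit 4) (nat_lit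 327) (nat_lit 264) (nat_lit 129)) (XT.lf (nat_lit 0) (nat_lit 85981613935) (nat_lit 76) (nat_lit 4207826478) (nat_lit 152) (nat_lit 29631292909) (nat_lit 8) (nat_lit 5) (nat_lit 9) (nat_lit 5) (nat_lit 10) (nat_lit 4) (nat_lit 328) (nat_lit 264) (nat_lit 128))) (XT.nd (nat_lit 78) (nat_lit 76) (nat_lit 0) (XT.lf (nat_lit 0) (nat_lit 103418915640) (nat_lit 152) (nat_lit 12478415225) (nat_lit 0) (nat_lit 9216124272) (nat_lit 8) (nat_lit 5) (nat_lit 10) (nat_lit 4) (nat_lit 8) (nat_lit 4) (nat_lit 329) (nat_lit 264) (nat_lit 127)) (XT.nd (nat_lit 78) (nat_lit 0) (nat_lit 0) (XT.lf (nat_lit 0) (nat_lit 10205174303) (nat_lit 76) (nat_lit 107331358145) (nat_lit 76) (nat_lit 13122950430) (nat_lit 7) (nat_lit 4) (nat_lit 8) (nat_lit 5) (nat_lit 8) (nat_lit 4) (nat_lit 330) (nat_lit 264) (nat_lit 126)) (XT.lf (nat_lit 0) (nat_lit 34453412454) (nat_lit 76) (nat_lit 98116336647) (nat_lit 76)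 (nat_lit 3902580031) (nat_lit 7) (nat_lit 4) (nat_lit 8) (nat_lit 5) (nat_lit 8) (nat_lit 4) (nat_lit 331) (nat_lit 264) (nat_lit 125))))))))
noncomputable def xc186 : XT := (XT.nd (nat_lit 1326) (nat_lit 76) (nat_lit 0) (XT.nd (nat_lit 624) (nat_lit 76) (nat_lit 0) (XT.nd (nat_lit 312) (nat_lit 76) (nat_lit 0) (XT.nd (nat_lit 156) (nat_lit 0) (nat_lit 0) (XT.nd (nat_lit 78) (nat_lit 0) (nat_lit 0) (XT.lf (nat_lit 0) (nat_lit 5592290581) (nat_lit 152) (nat_lit 82754655115) (nat_lit 76) (nat_lit 54224441635) (nat_lit 6) (nat_lit 5) (nat_lit 8) (nat_lit 5) (nat_lit 7) (nat_lit 4) (nat_lit 332) (nat_lit 264) (nat_lit 124)) (XT.lf (nat_lit 0) (nat_lit 15429266414) (nat_lit 152) (nat_lit 62593706270) (nat_lit 76) (nat_lit 70949303879) (nat_lit 6) (nat_lit 5) (nat_lit 8) (nat_lit 5) (nat_lit 7) (nat_lit 4) (nat_lit 333) (nat_lit 264) (nat_lit 123))) (XT.nd (nat_lit 78) (nat_lit 0) (nat_lit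 0) (XT.lf (nat_lit 0) (nat_lit 25756675770) (nat_lit 152) (nat_lit 41427137673) (nat_lit 76) (nat_lit 88509470107) (nat_lit 6) (nat_lit 5) (nat_lit 8) (nat_lit 5) (nat_lit 7) (nat_lit 4) (nat_lit 334) (nat_lit 264) (nat_lit 122)) (XT.lf (nat_lit 0) (nat_lit 36599107719) (nat_lit 152) (nat_lit 19204552731) (nat_lit 76) (nat_lit 106946750237) (nat_lit 6) (nat_lit 5) (nat_lit 8) (nat_lit 5) (nat_lit 7) (nat_lit 4) (nat_lit 335) (nat_lit 264) (nat_lit 121)))) (XT.nd (nat_lit 156) (nat_lit 0) (nat_lit 0) (XT.nd (nat_lit 78) (nat_lit 0) (nat_lit 0) (XT.lf (nat_lit 0) (nat_lit 4263415389) (nat_lit 76) (nat_lit 43785526049) (nat_lit 152) (nat_lit 122108191028) (nat_lit 5) (nat_lit 5) (nat_lit 6) (nat_lit 5) (nat_lit 7) (nat_lit 4) (nat_lit 336) (nat_lit 264) (nat_lit 120)) (XT.lf (nat_lit 0) (nat_lit 29569354152) (nat_lit 76) (nat_lit 30825894699) (nat_lit 152) (nat_lit 117522744570) (nat_lit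 5) (nat_lit 5) (nat_lit 6) (nat_lit 5) (nat_lit 7) (nat_lit 4) (nat_lit 337) (nat_lit 264) (nat_lit 119))) (XT.nd (nat_lit 78) (nat_lit 0) (nat_lit 0) (XT.lf (nat_lit 0) (nat_lit 56138526548) (nat_lit 76) (nat_lit 17219148527) (nat_lit 152) (nat_lit 112709284256) (nat_lit 5) (nat_lit 5) (nat_lit 6) (nat_lit 5) (nat_lit 7) (nat_lit 4) (nat_lit 338) (nat_lit 264) (nat_lit 118)) (XT.lf (nat_lit 0) (nat_lit 84034192511) (nat_lit 76) (nat_lit 2932890520) (nat_lit 152) (nat_lit 107656349466) (nat_lit 5) (nat_lit 5) (nat_lit 6) (nat_lit 5) (nat_lit 7) (nat_lit 4) (nat_lit 339) (nat_lit 264) (nat_lit 117))))) (XT.nd (nat_lit 312) (nat_lit 76) (nat_lit 0) (XT.nd (nat_lit 156) (nat_lit 0) (nat_lit 0) (XT.nd (nat_lit 78) (nat_lit 0) (nat_lit 0) (XT.lf (nat_lit 0) (nat_lit 101444274109) (nat_lit 152) (nat_lit 90473413218) (nat_lit 0) (nat_lit 11680678247) (nat_lit 5) (nat_lit 5) (nat_lit 7) (nat_lit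 4) (nat_lit 5) (nat_lit 4) (nat_lit 340) (nat_lit 264) (nat_lit 116)) (XT.lf (nat_lit 0) (nat_lit 116692359590) (nat_lit 152) (nat_lit 69401699432) (nat_lit 0) (nat_lit 26925636336) (nat_lit 5) (nat_lit 5) (nat_lit 7) (nat_lit 4) (nat_lit 5) (nat_lit 4) (nat_lit 341) (nat_lit 264) (nat_lit 115))) (XT.nd (nat_lit 78) (nat_lit 0) (nat_lit 0) (XT.lf (nat_lit 0) (nat_lit 132701853800) (nat_lit 152) (nat_lit 47278137243) (nat_lit 0) (nat_lit 42932152078) (nat_lit 5) (nat_lit 5) (nat_lit 7) (nat_lit 4) (nat_lit 5) (nat_lit 4) (nat_lit 342) (nat_lit 264) (nat_lit 114)) (XT.lf (nat_lit 0) (nat_lit 149510874583) (nat_lit 152) (nat_lit 24050051502) (nat_lit 0) (nat_lit 59738336225) (nat_lit 5) (nat_lit 5) (nat_lit 7) (nat_lit 4) (nat_lit 5) (nat_lit 4) (nat_lit 343) (nat_lit 264) (nat_lit 113)))) (XT.nd (nat_lit 156) (nat_lit 0) (nat_lit 0) (XT.nd (nat_lit 78) (nat_lit 0) (nat_lit 0) (XT.lf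 (nat_lit 0) (nat_lit 349034024) (nat_lit 76) (nat_lit 166815858792) (nat_lit 76) (nat_lit 77040618875) (nat_lit 4) (nat_lit 4) (nat_lit 5) (nat_lit 5) (nat_lit 5) (nat_lit 4) (nat_lit 344) (nat_lit 264) (nat_lit 112)) (XT.lf (nat_lit 0) (nat_lit 26801486956) (nat_lit 76) (nat_lit 159306540071) (nat_lit 76) (nat_lit 69528727240) (nat_lit 4) (nat_lit 4) (nat_lit 5) (nat_lit 5) (nat_lit 5) (nat_lit 4) (nat_lit 345) (nat_lit 264) (nat_lit 111))) (XT.nd (nat_lit 78) (nat_lit 0) (nat_lit 0) (XT.lf (nat_lit 0) (nat_lit 54575086007) (nat_lit 76) (nat_lit 151422389850) (nat_lit 76) (nat_lit 61642126626) (nat_lit 4) (nat_lit 4) (nat_lit 5) (nat_lit 5) (nat_lit 5) (nat_lit 4) (nat_lit 346) (nat_lit 264) (nat_lit 110)) (XT.nd (nat_lit 78) (nat_lit 0) (nat_lit 0) (XT.lf (nat_lit 0) (nat_lit 83735958794) (nat_lit 76) (nat_lit 143144636344) (nat_lit 76) (nat_lit 53362039412) (nat_lit 4) (nat_lit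 4) (nat_lit 5) (nat_lit 5) (nat_lit 5) (nat_lit 4) (nat_lit 347) (nat_lit 264) (nat_lit 109)) (XT.lf (nat_lit 0) (nat_lit 114353535967) (nat_lit 76) (nat_lit 134453570617) (nat_lit 76) (nat_lit 44668751106) (nat_lit 4) (nat_lit 4) (nat_lit 5) (nat_lit 5) (nat_lit 5) (nat_lit 4) (nat_lit 348) (nat_lit 264) (nat_lit 108))))))) (XT.nd (nat_lit 31200) (nat_lit 0) (nat_lit 4408) (XT.nd (nat_lit 390) (nat_lit 76) (nat_lit 0) (XT.nd (nat_lit 156) (nat_lit 0) (nat_lit 0) (XT.nd (nat_lit 78) (nat_lit 0) (nat_lit 0) (XT.lf (nat_lit 0) (nat_lit 146500716519) (nat_lit 76) (nat_lit 125328499654) (nat_lit 76) (nat_lit 35541563401) (nat_lit 4) (nat_lit 4) (nat_lit 5) (nat_lit 5) (nat_lit 5) (nat_lit 4) (nat_lit 349) (nat_lit 264) (nat_lit 107)) (XT.lf (nat_lit 0) (nat_lit 180254041357) (nat_lit 76) (nat_lit 115747697096) (nat_lit 76) (nat_lit 25958744898) (nat_lit 4) (nat_lit 4) (nat_lit 5) (nat_lit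 5) (nat_lit 5) (nat_lit 4) (nat_lit 350) (nat_lit 264) (nat_lit 106))) (XT.nd (nat_lit 78) (nat_lit 0) (nat_lit 0) (XT.lf (nat_lit 0) (nat_lit 215693875538) (nat_lit 76) (nat_lit 105688351509) (nat_lit 76) (nat_lit 15897479363) (nat_lit 4) (nat_lit 4) (nat_lit 5) (nat_lit 5) (nat_lit 5) (nat_lit 4) (nat_lit 351) (nat_lit 264) (nat_lit 105)) (XT.lf (nat_lit 0) (nat_lit 252904599621) (nat_lit 76) (nat_lit 95126512069) (nat_lit 76) (nat_lit 5333811402) (nat_lit 4) (nat_lit 4) (nat_lit 5) (nat_lit 5) (nat_lit 5) (nat_lit 4) (nat_lit 352) (nat_lit 264) (nat_lit 104)))) (XT.nd (nat_lit 30654) (nat_lit 0) (nat_lit 5016) (XT.nd (nat_lit 30576) (nat_lit 0) (nat_lit 5016) (XT.lf (nat_lit 0) (nat_lit 16845602544) (nat_lit 152) (nat_lit 55262615421) (nat_lit 76) (nat_lit 315866641716) (nat_lit 3) (nat_lit 5) (nat_lit 5) (nat_lit 5) (nat_lit 4) (nat_lit 4) (nat_lit 354) (nat_lit 264) (nat_lit 102))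 (XT.lf (nat_lit 0) (nat_lit 6088378177) (nat_lit 684) (nat_lit 498469907) (nat_lit 684) (nat_lit 498469907) (nat_lit 69) (nat_lit 3) (nat_lit 78) (nat_lit 3) (nat_lit 78) (nat_lit 5) (nat_lit 265) (nat_lit 265) (nat_lit 190))) (XT.nd (nat_lit 78) (nat_lit 0) (nat_lit 0) (XT.lf (nat_lit 76) (nat_lit 4965308939) (nat_lit 0) (nat_lit 7884251834) (nat_lit 684) (nat_lit 1655530111) (nat_lit 70) (nat_lit 5) (nat_lit 69) (nat_lit 3) (nat_lit 78) (nat_lit 5) (nat_lit 266) (nat_lit 265) (nat_lit 189)) (XT.lf (nat_lit 76) (nat_lit 11250137502) (nat_lit 0) (nat_lit 2303974317) (nat_lit 684) (nat_lit 1302340477) (nat_lit 70) (nat_lit 5) (nat_lit 69) (nat_lit 3) (nat_lit 78) (nat_lit 5) (nat_lit 267) (nat_lit 265) (nat_lit 188))))) (XT.nd (nat_lit 312) (nat_lit 0) (nat_lit 76) (XT.nd (nat_lit 156) (nat_lit 684) (nat_lit 0) (XT.nd (nat_lit 78) (nat_lit 0) (nat_lit 0) (XT.lf (nat_lit 76) (nat_lit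 2642112920) (nat_lit 0) (nat_lit 11730782022) (nat_lit 684) (nat_lit 848621458) (nat_lit 71) (nat_lit 5) (nat_lit 70) (nat_lit 5) (nat_lit 79) (nat_lit 5) (nat_lit 268) (nat_lit 265) (nat_lit 187)) (XT.lf (nat_lit 76) (nat_lit 9278551449) (nat_lit 0) (nat_lit 6035226656) (nat_lit 684) (nat_lit 287078364) (nat_lit 71) (nat_lit 5) (nat_lit 70) (nat_lit 5) (nat_lit 79) (nat_lit 5) (nat_lit 269) (nat_lit 265) (nat_lit 186))) (XT.nd (nat_lit 78) (nat_lit 0) (nat_lit 76) (XT.lf (nat_lit 76) (nat_lit 239890326) (nat_lit 0) (nat_lit 40111012) (nat_lit 760) (nat_lit 15719642186) (nat_lit 62) (nat_lit 5) (nat_lit 61) (nat_lit 5) (nat_lit 71) (nat_lit 5) (nat_lit 270) (nat_lit 265) (nat_lit 185)) (XT.lf (nat_lit 0) (nat_lit 1056376470) (nat_lit 684) (nat_lit 9178933817) (nat_lit 760) (nat_lit 6173364679) (nat_lit 62) (nat_lit 5) (nat_lit 71) (nat_lit 5) (nat_lit 72) (nat_lit 5) (nat_lit 271)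 (nat_lit 265) (nat_lit 184)))) (XT.nd (nat_lit 156) (nat_lit 0) (nat_lit 76) (XT.nd (nat_lit 78) (nat_lit 0) (nat_lit 76) (XT.lf (nat_lit 0) (nat_lit 1857092924) (nat_lit 684) (nat_lit 2280676962) (nat_lit 760) (nat_lit 12701178444) (nat_lit 62) (nat_lit 5) (nat_lit 71) (nat_lit 5) (nat_lit 72) (nat_lit 5) (nat_lit 272) (nat_lit 265) (nat_lit 183)) (XT.lf (nat_lit 0) (nat_lit 2800032149) (nat_lit 684) (nat_lit 12208449183) (nat_lit 760) (nat_lit 2277207996) (nat_lit 63) (nat_lit 5) (nat_lit 72) (nat_lit 5) (nat_lit 73) (nat_lit 5) (nat_lit 273) (nat_lit 265) (nat_lit 182))) (XT.nd (nat_lit 78) (nat_lit 0) (nat_lit 0) (XT.lf (nat_lit 0) (nat_lit 3883376863) (nat_lit 684) (nat_lit 4950136532) (nat_lit 760) (nat_lit 8916651352) (nat_lit 63) (nat_lit 5) (nat_lit 72) (nat_lit 5) (nat_lit 73) (nat_lit 5) (nat_lit 274) (nat_lit 265) (nat_lit 181)) (XT.nd (nat_lit 78) (nat_lit 0) (nat_lit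 76) (XT.lf (nat_lit 76) (nat_lit 2748520663) (nat_lit 0) (nat_lit 2302107574) (nat_lit 760) (nat_lit 13185806157) (nat_lit 64) (nat_lit 5) (nat_lit 63) (nat_lit 5) (nat_lit 73) (nat_lit 5) (nat_lit 275) (nat_lit 265) (nat_lit 180)) (XT.lf (nat_lit 0) (nat_lit 6419908468) (nat_lit 684) (nat_lit 7822459216) (nat_lit 76) (nat_lit 4497521216) (nat_lit 64) (nat_lit 5) (nat_lit 73) (nat_lit 5) (nat_lit 65) (nat_lit 5) (nat_lit 276) (nat_lit 265) (nat_lit 179))))))))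
noncomputable def xc187 : XT := (XT.nd (nat_lit 1326) (nat_lit 1368) (nat_lit 0) (XT.nd (nat_lit 624) (nat_lit 836) (nat_lit 0) (XT.nd (nat_lit 312) (nat_lit 532) (nat_lit 0) (XT.nd (nat_lit 156) (nat_lit 304) (nat_lit 0) (XT.nd (nat_lit 78) (nat_lit 0) (nat_lit 0) (XT.lf (nat_lit 0) (nat_lit 183843717) (nat_lit 684) (nat_lit 7702351295) (nat_lit 760) (nat_lit 11380946091) (nat_lit 55) (nat_lit 5) (nat_lit 64) (nat_lit 5) (nat_lit 65) (nat_lit 5) (nat_lit 277) (nat_lit 265) (nat_lit 178)) (XT.lf (nat_lit 0) (nat_lit 8851641400) (nat_lit 684) (nat_lit 694976427) (nat_lit 760) (nat_lit 10268146601) (nat_lit 55) (nat_lit 5) (nat_lit 64) (nat_lit 5) (nat_lit 65) (nat_lit 5) (nat_lit 278) (nat_lit 265) (nat_lit 177))) (XT.nd (nat_lit 78) (nat_lit 304) (nat_lit 0) (XT.lf (nat_lit 0) (nat_lit 11383004756) (nat_lit 760) (nat_lit 2551488712) (nat_lit 76) (nat_lit 6450675547) (nat_lit 55) (nat_lit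 5) (nat_lit 65) (nat_lit 5) (nat_lit 56) (nat_lit 5) (nat_lit 279) (nat_lit 265) (nat_lit 176)) (XT.lf (nat_lit 0) (nat_lit 6466272223) (nat_lit 304) (nat_lit 6946734691) (nat_lit 380) (nat_lit 7566042119) (nat_lit 51) (nat_lit 5) (nat_lit 55) (nat_lit 5) (nat_lit 56) (nat_lit 5) (nat_lit 280) (nat_lit 265) (nat_lit 175)))) (XT.nd (nat_lit 156) (nat_lit 228) (nat_lit 0) (XT.nd (nat_lit 78) (nat_lit 304) (nat_lit 0) (XT.lf (nat_lit 0) (nat_lit 15584323833) (nat_lit 380) (nat_lit 5594183134) (nat_lit 76) (nat_lit 422168205) (nat_lit 51) (nat_lit 5) (nat_lit 56) (nat_lit 5) (nat_lit 52) (nat_lit 5) (nat_lit 281) (nat_lit 265) (nat_lit 174)) (XT.lf (nat_lit 0) (nat_lit 3767106501) (nat_lit 304) (nat_lit 14260081949) (nat_lit 380) (nat_lit 4218085887) (nat_lit 47) (nat_lit 5) (nat_lit 51) (nat_lit 5) (nat_lit 52) (nat_lit 5) (nat_lit 282) (nat_lit 265) (nat_lit 173))) (XT.nd (nat_lit 78)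 (nat_lit 228) (nat_lit 0) (XT.lf (nat_lit 0) (nat_lit 13780914323) (nat_lit 304) (nat_lit 6896618177) (nat_lit 380) (nat_lit 2240343018) (nat_lit 47) (nat_lit 5) (nat_lit 51) (nat_lit 5) (nat_lit 52) (nat_lit 5) (nat_lit 283) (nat_lit 265) (nat_lit 172)) (XT.lf (nat_lit 0) (nat_lit 669932577) (nat_lit 228) (nat_lit 22804996152) (nat_lit 304) (nat_lit 148488300) (nat_lit 44) (nat_lit 5) (nat_lit 47) (nat_lit 5) (nat_lit 48) (nat_lit 5) (nat_lit 284) (nat_lit 265) (nat_lit 171))))) (XT.nd (nat_lit 312) (nat_lit 456) (nat_lit 0) (XT.nd (nat_lit 156) (nat_lit 304) (nat_lit 0) (XT.nd (nat_lit 78) (nat_lit 0) (nat_lit 0) (XT.lf (nat_lit 0) (nat_lit 2243885044) (nat_lit 304) (nat_lit 13229630476) (nat_lit 76) (nat_lit 8876081282) (nat_lit 43) (nat_lit 5) (nat_lit 47) (nat_lit 5) (nat_lit 44) (nat_lit 5) (nat_lit 285) (nat_lit 265) (nat_lit 170)) (XT.lf (nat_lit 0) (nat_lit 4742447350) (nat_lit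 304) (nat_lit 3031491471) (nat_lit 76) (nat_lit 17338478986) (nat_lit 43) (nat_lit 5) (nat_lit 47) (nat_lit 5) (nat_lit 44) (nat_lit 5) (nat_lit 286) (nat_lit 265) (nat_lit 169))) (XT.nd (nat_lit 78) (nat_lit 0) (nat_lit 0) (XT.lf (nat_lit 0) (nat_lit 7488431601) (nat_lit 380) (nat_lit 17993434896) (nat_lit 76) (nat_lit 425419127) (nat_lit 39) (nat_lit 5) (nat_lit 44) (nat_lit 5) (nat_lit 40) (nat_lit 5) (nat_lit 287) (nat_lit 265) (nat_lit 168)) (XT.lf (nat_lit 0) (nat_lit 10543527692) (nat_lit 380) (nat_lit 7365185086) (nat_lit 76) (nat_lit 8824622428) (nat_lit 39) (nat_lit 5) (nat_lit 44) (nat_lit 5) (nat_lit 40) (nat_lit 5) (nat_lit 288) (nat_lit 265) (nat_lit 167)))) (XT.nd (nat_lit 156) (nat_lit 228) (nat_lit 0) (XT.nd (nat_lit 78) (nat_lit 0) (nat_lit 0) (XT.lf (nat_lit 0) (nat_lit 3910810859) (nat_lit 228) (nat_lit 9894187965) (nat_lit 304) (nat_lit 13793035054) (nat_lit 36)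 (nat_lit 5) (nat_lit 39) (nat_lit 5) (nat_lit 40) (nat_lit 5) (nat_lit 289) (nat_lit 265) (nat_lit 166)) (XT.lf (nat_lit 0) (nat_lit 15997614999) (nat_lit 228) (nat_lit 1349441481) (nat_lit 304) (nat_lit 11153061663) (nat_lit 36) (nat_lit 5) (nat_lit 39) (nat_lit 5) (nat_lit 40) (nat_lit 5) (nat_lit 290) (nat_lit 265) (nat_lit 165))) (XT.nd (nat_lit 78) (nat_lit 228) (nat_lit 0) (XT.lf (nat_lit 0) (nat_lit 21178328150) (nat_lit 304) (nat_lit 886183658) (nat_lit 76) (nat_lit 7377214312) (nat_lit 36) (nat_lit 5) (nat_lit 40) (nat_lit 5) (nat_lit 37) (nat_lit 5) (nat_lit 291) (nat_lit 265) (nat_lit 164)) (XT.nd (nat_lit 78) (nat_lit 0) (nat_lit 0) (XT.lf (nat_lit 0) (nat_lit 11653601519) (nat_lit 228) (nat_lit 13745059617) (nat_lit 304) (nat_lit 5021902335) (nat_lit 33) (nat_lit 5) (nat_lit 36) (nat_lit 5) (nat_lit 37) (nat_lit 5) (nat_lit 292) (nat_lit 265) (nat_lit 163)) (XT.lf (nat_lit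 0) (nat_lit 24843058456) (nat_lit 228) (nat_lit 4995577260) (nat_lit 304) (nat_lit 1609298453) (nat_lit 33) (nat_lit 5) (nat_lit 36) (nat_lit 5) (nat_lit 37) (nat_lit 5) (nat_lit 293) (nat_lit 265) (nat_lit 162))))))) (XT.nd (nat_lit 702) (nat_lit 456) (nat_lit 0) (XT.nd (nat_lit 312) (nat_lit 380) (nat_lit 0) (XT.nd (nat_lit 156) (nat_lit 228) (nat_lit 0) (XT.nd (nat_lit 78) (nat_lit 0) (nat_lit 0) (XT.lf (nat_lit 0) (nat_lit 2070910767) (nat_lit 304) (nat_lit 26258915836) (nat_lit 76) (nat_lit 4187318807) (nat_lit 29) (nat_lit 5) (nat_lit 33) (nat_lit 5) (nat_lit 30) (nat_lit 5) (nat_lit 294) (nat_lit 265) (nat_lit 161)) (XT.lf (nat_lit 0) (nat_lit 6070578851) (nat_lit 304) (nat_lit 13758628185) (nat_lit 76) (nat_lit 13799834141) (nat_lit 29) (nat_lit 5) (nat_lit 33) (nat_lit 5) (nat_lit 30) (nat_lit 5) (nat_lit 295) (nat_lit 265) (nat_lit 160))) (XT.nd (nat_lit 78) (nat_lit 228)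 (nat_lit 0) (XT.lf (nat_lit 0) (nat_lit 10264464808) (nat_lit 304) (nat_lit 641030856) (nat_lit 76) (nat_lit 23891343043) (nat_lit 29) (nat_lit 5) (nat_lit 33) (nat_lit 5) (nat_lit 30) (nat_lit 5) (nat_lit 296) (nat_lit 265) (nat_lit 159)) (XT.lf (nat_lit 0) (nat_lit 13559083888) (nat_lit 228) (nat_lit 1315165490) (nat_lit 304) (nat_lit 21138484326) (nat_lit 26) (nat_lit 5) (nat_lit 29) (nat_lit 5) (nat_lit 30) (nat_lit 5) (nat_lit 297) (nat_lit 265) (nat_lit 158)))) (XT.nd (nat_lit 156) (nat_lit 228) (nat_lit 0) (XT.nd (nat_lit 78) (nat_lit 152) (nat_lit 0) (XT.lf (nat_lit 0) (nat_lit 19856870890) (nat_lit 304) (nat_lit 8941758429) (nat_lit 76) (nat_lit 8483693703) (nat_lit 26) (nat_lit 5) (nat_lit 30) (nat_lit 5) (nat_lit 27) (nat_lit 5) (nat_lit 298) (nat_lit 265) (nat_lit 157)) (XT.lf (nat_lit 0) (nat_lit 5389548335) (nat_lit 152) (nat_lit 19799665441) (nat_lit 228) (nat_lit 13421164668)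 (nat_lit 24) (nat_lit 5) (nat_lit 26) (nat_lit 5) (nat_lit 27) (nat_lit 5) (nat_lit 299) (nat_lit 265) (nat_lit 156))) (XT.nd (nat_lit 78) (nat_lit 228) (nat_lit 0) (XT.lf (nat_lit 0) (nat_lit 20740854605) (nat_lit 152) (nat_lit 10193770724) (nat_lit 228) (nat_lit 9062904111) (nat_lit 24) (nat_lit 5) (nat_lit 26) (nat_lit 5) (nat_lit 27) (nat_lit 5) (nat_lit 300) (nat_lit 265) (nat_lit 155)) (XT.nd (nat_lit 78) (nat_lit 228) (nat_lit 0) (XT.lf (nat_lit 0) (nat_lit 36853056193) (nat_lit 152) (nat_lit 109506999) (nat_lit 228) (nat_lit 4491726659) (nat_lit 24) (nat_lit 5) (nat_lit 26) (nat_lit 5) (nat_lit 27) (nat_lit 5) (nat_lit 301) (nat_lit 265) (nat_lit 154)) (XT.lf (nat_lit 0) (nat_lit 633850618) (nat_lit 228) (nat_lit 32009761171) (nat_lit 76) (nat_lit 10323264374) (nat_lit 21) (nat_lit 5) (nat_lit 24) (nat_lit 5) (nat_lit 22) (nat_lit 5) (nat_lit 302) (nat_lit 265) (nat_lit 153))))))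 (XT.nd (nat_lit 312) (nat_lit 304) (nat_lit 0) (XT.nd (nat_lit 156) (nat_lit 152) (nat_lit 0) (XT.nd (nat_lit 78) (nat_lit 0) (nat_lit 0) (XT.lf (nat_lit 0) (nat_lit 5941235259) (nat_lit 228) (nat_lit 17181397318) (nat_lit 76) (nat_lit 21424966129) (nat_lit 21) (nat_lit 5) (nat_lit 24) (nat_lit 5) (nat_lit 22) (nat_lit 5) (nat_lit 303) (nat_lit 265) (nat_lit 152)) (XT.lf (nat_lit 0) (nat_lit 11509687424) (nat_lit 228) (nat_lit 1617919793) (nat_lit 76) (nat_lit 33079977295) (nat_lit 21) (nat_lit 5) (nat_lit 24) (nat_lit 5) (nat_lit 22) (nat_lit 5) (nat_lit 304) (nat_lit 265) (nat_lit 151))) (XT.nd (nat_lit 78) (nat_lit 0) (nat_lit 0) (XT.lf (nat_lit 0) (nat_lit 15204361833) (nat_lit 152) (nat_lit 2385486199) (nat_lit 228) (nat_lit 30349068763) (nat_lit 19) (nat_lit 5) (nat_lit 21) (nat_lit 5) (nat_lit 22) (nat_lit 5) (nat_lit 305) (nat_lit 265) (nat_lit 150)) (XT.lf (nat_lit 0) (nat_lit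 24136698448) (nat_lit 228) (nat_lit 16976911241) (nat_lit 76) (nat_lit 8635082846) (nat_lit 19) (nat_lit 5) (nat_lit 22) (nat_lit 5) (nat_lit 20) (nat_lit 5) (nat_lit 306) (nat_lit 265) (nat_lit 149)))) (XT.nd (nat_lit 156) (nat_lit 152) (nat_lit 0) (XT.nd (nat_lit 78) (nat_lit 152) (nat_lit 0) (XT.lf (nat_lit 0) (nat_lit 31046165448) (nat_lit 228) (nat_lit 476289968) (nat_lit 76) (nat_lit 20124748353) (nat_lit 19) (nat_lit 5) (nat_lit 22) (nat_lit 5) (nat_lit 20) (nat_lit 5) (nat_lit 307) (nat_lit 265) (nat_lit 148)) (XT.lf (nat_lit 0) (nat_lit 17400773598) (nat_lit 152) (nat_lit 21168357261) (nat_lit 228) (nat_lit 15058118368) (nat_lit 17) (nat_lit 5) (nat_lit 19) (nat_lit 5) (nat_lit 20) (nat_lit 5) (nat_lit 308) (nat_lit 265) (nat_lit 147))) (XT.nd (nat_lit 78) (nat_lit 152) (nat_lit 0) (XT.lf (nat_lit 0) (nat_lit 36182792929) (nat_lit 152) (nat_lit 10289957008) (nat_lit 228) (nat_lit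 9233331194) (nat_lit 17) (nat_lit 5) (nat_lit 19) (nat_lit 5) (nat_lit 20) (nat_lit 5) (nat_lit 309) (nat_lit 265) (nat_lit 146)) (XT.nd (nat_lit 78) (nat_lit 152) (nat_lit 0) (XT.lf (nat_lit 0) (nat_lit 54785810249) (nat_lit 228) (nat_lit 2007945891) (nat_lit 76) (nat_lit 1094394471) (nat_lit 17) (nat_lit 5) (nat_lit 20) (nat_lit 5) (nat_lit 18) (nat_lit 4) (nat_lit 310) (nat_lit 265) (nat_lit 145)) (XT.lf (nat_lit 0) (nat_lit 3662315969) (nat_lit 152) (nat_lit 43471697787) (nat_lit 76) (nat_lit 13021021214) (nat_lit 15) (nat_lit 5) (nat_lit 17) (nat_lit 5) (nat_lit 16) (nat_lit 5) (nat_lit 311) (nat_lit 265) (nat_lit 144))))))))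
noncomputable def xc188 : XT := (XT.nd (nat_lit 1326) (nat_lit 304) (nat_lit 0) (XT.nd (nat_lit 624) (nat_lit 304) (nat_lit 0) (XT.nd (nat_lit 312) (nat_lit 76) (nat_lit 0) (XT.nd (nat_lit 156) (nat_lit 152) (nat_lit 0) (XT.nd (nat_lit 78) (nat_lit 0) (nat_lit 0) (XT.lf (nat_lit 0) (nat_lit 10692270015) (nat_lit 152) (nat_lit 26211187632) (nat_lit 76) (nat_lit 25627704574) (nat_lit 15) (nat_lit 5) (nat_lit 17) (nat_lit 5) (nat_lit 16) (nat_lit 5) (nat_lit 312) (nat_lit 265) (nat_lit 143)) (XT.lf (nat_lit 0) (nat_lit 18070636880) (nat_lit 152) (nat_lit 8092513507) (nat_lit 76) (nat_lit 38863107090) (nat_lit 15) (nat_lit 5) (nat_lit 17) (nat_lit 5) (nat_lit 16) (nat_lit 5) (nat_lit 313) (nat_lit 265) (nat_lit 142))) (XT.nd (nat_lit 78) (nat_lit 0) (nat_lit 0) (XT.lf (nat_lit 0) (nat_lit 11288775607) (nat_lit 152) (nat_lit 14702457922) (nat_lit 228) (nat_lit 41646215443) (nat_lit 13)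 (nat_lit 5) (nat_lit 15) (nat_lit 5) (nat_lit 16) (nat_lit 5) (nat_lit 314) (nat_lit 265) (nat_lit 141)) (XT.lf (nat_lit 0) (nat_lit 31915527615) (nat_lit 152) (nat_lit 2526513826) (nat_lit 228) (nat_lit 35930456239) (nat_lit 13) (nat_lit 5) (nat_lit 15) (nat_lit 5) (nat_lit 16) (nat_lit 5) (nat_lit 315) (nat_lit 265) (nat_lit 140)))) (XT.nd (nat_lit 156) (nat_lit 76) (nat_lit 0) (XT.nd (nat_lit 78) (nat_lit 0) (nat_lit 0) (XT.lf (nat_lit 0) (nat_lit 43472791783) (nat_lit 228) (nat_lit 19835297663) (nat_lit 76) (nat_lit 9928345666) (nat_lit 13) (nat_lit 5) (nat_lit 16) (nat_lit 5) (nat_lit 14) (nat_lit 4) (nat_lit 316) (nat_lit 265) (nat_lit 139)) (XT.lf (nat_lit 0) (nat_lit 52993871573) (nat_lit 228) (nat_lit 328204076) (nat_lit 76) (nat_lit 22919560258) (nat_lit 13) (nat_lit 5) (nat_lit 16) (nat_lit 5) (nat_lit 14) (nat_lit 4) (nat_lit 317) (nat_lit 265) (nat_lit 138))) (XT.nd (nat_lit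 78) (nat_lit 0) (nat_lit 0) (XT.lf (nat_lit 0) (nat_lit 20816458801) (nat_lit 76) (nat_lit 42497048545) (nat_lit 152) (nat_lit 16067470092) (nat_lit 12) (nat_lit 5) (nat_lit 13) (nat_lit 5) (nat_lit 14) (nat_lit 4) (nat_lit 318) (nat_lit 265) (nat_lit 137)) (XT.lf (nat_lit 0) (nat_lit 43025772450) (nat_lit 76) (nat_lit 31126466506) (nat_lit 152) (nat_lit 8524896909) (nat_lit 12) (nat_lit 5) (nat_lit 13) (nat_lit 5) (nat_lit 14) (nat_lit 4) (nat_lit 319) (nat_lit 265) (nat_lit 136))))) (XT.nd (nat_lit 312) (nat_lit 76) (nat_lit 0) (XT.nd (nat_lit 156) (nat_lit 0) (nat_lit 0) (XT.nd (nat_lit 78) (nat_lit 228) (nat_lit 0) (XT.lf (nat_lit 0) (nat_lit 66341764280) (nat_lit 76) (nat_lit 19188815012) (nat_lit 152) (nat_lit 607644573) (nat_lit 12) (nat_lit 5) (nat_lit 13) (nat_lit 5) (nat_lit 14) (nat_lit 4) (nat_lit 320) (nat_lit 265) (nat_lit 135)) (XT.lf (nat_lit 0) (nat_lit 957856249)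 (nat_lit 152) (nat_lit 6513687580) (nat_lit 228) (nat_lit 82294177177) (nat_lit 9) (nat_lit 5) (nat_lit 11) (nat_lit 5) (nat_lit 12) (nat_lit 5) (nat_lit 321) (nat_lit 265) (nat_lit 134))) (XT.nd (nat_lit 78) (nat_lit 0) (nat_lit 0) (XT.lf (nat_lit 0) (nat_lit 16378892137) (nat_lit 228) (nat_lit 70245923028) (nat_lit 76) (nat_lit 6927053242) (nat_lit 9) (nat_lit 5) (nat_lit 12) (nat_lit 5) (nat_lit 10) (nat_lit 4) (nat_lit 322) (nat_lit 265) (nat_lit 133)) (XT.lf (nat_lit 0) (nat_lit 25836266328) (nat_lit 228) (nat_lit 50866208700) (nat_lit 76) (nat_lit 20819619554) (nat_lit 9) (nat_lit 5) (nat_lit 12) (nat_lit 5) (nat_lit 10) (nat_lit 4) (nat_lit 323) (nat_lit 265) (nat_lit 132)))) (XT.nd (nat_lit 156) (nat_lit 76) (nat_lit 0) (XT.nd (nat_lit 78) (nat_lit 0) (nat_lit 0) (XT.lf (nat_lit 0) (nat_lit 35764487043) (nat_lit 228) (nat_lit 30520882676) (nat_lit 76) (nat_lit 35405567575)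 (nat_lit 9) (nat_lit 5) (nat_lit 12) (nat_lit 5) (nat_lit 10) (nat_lit 4) (nat_lit 324) (nat_lit 265) (nat_lit 131)) (XT.lf (nat_lit 0) (nat_lit 46187192902) (nat_lit 228) (nat_lit 9161503705) (nat_lit 76) (nat_lit 50719625754) (nat_lit 9) (nat_lit 5) (nat_lit 12) (nat_lit 5) (nat_lit 10) (nat_lit 4) (nat_lit 325) (nat_lit 265) (nat_lit 130))) (XT.nd (nat_lit 78) (nat_lit 0) (nat_lit 0) (XT.lf (nat_lit 0) (nat_lit 13701311408) (nat_lit 76) (nat_lit 43641804332) (nat_lit 152) (nat_lit 53310860594) (nat_lit 8) (nat_lit 5) (nat_lit 9) (nat_lit 5) (nat_lit 10) (nat_lit 4) (nat_lit 326) (nat_lit 265) (nat_lit 129)) (XT.nd (nat_lit 78) (nat_lit 0) (nat_lit 0) (XT.lf (nat_lit 0) (nat_lit 38022323023) (nat_lit 76) (nat_lit 31187872345) (nat_lit 152) (nat_lit 46251053164) (nat_lit 8) (nat_lit 5) (nat_lit 9) (nat_lit 5) (nat_lit 10) (nat_lit 4) (nat_lit 327) (nat_lit 265) (nat_lit 128)) (XT.lf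 (nat_lit 0) (nat_lit 63556517621) (nat_lit 76) (nat_lit 18112402927) (nat_lit 152) (nat_lit 38840052602) (nat_lit 8) (nat_lit 5) (nat_lit 9) (nat_lit 5) (nat_lit 10) (nat_lit 4) (nat_lit 328) (nat_lit 265) (nat_lit 127))))))) (XT.nd (nat_lit 624) (nat_lit 152) (nat_lit 0) (XT.nd (nat_lit 312) (nat_lit 76) (nat_lit 0) (XT.nd (nat_lit 156) (nat_lit 76) (nat_lit 0) (XT.nd (nat_lit 78) (nat_lit 0) (nat_lit 0) (XT.lf (nat_lit 0) (nat_lit 90364690905) (nat_lit 76) (nat_lit 4384264008) (nat_lit 152) (nat_lit 31060213668) (nat_lit 8) (nat_lit 5) (nat_lit 9) (nat_lit 5) (nat_lit 10) (nat_lit 4) (nat_lit 329) (nat_lit 265) (nat_lit 126)) (XT.lf (nat_lit 0) (nat_lit 108638025796) (nat_lit 152) (nat_lit 13020366875) (nat_lit 0) (nat_lit 9708232448) (nat_lit 8) (nat_lit 5) (nat_lit 10) (nat_lit 4) (nat_lit 8) (nat_lit 4) (nat_lit 330) (nat_lit 265) (nat_lit 125))) (XT.nd (nat_lit 78) (nat_lit 0)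 (nat_lit 0) (XT.lf (nat_lit 0) (nat_lit 10796080047) (nat_lit 76) (nat_lit 112664408982) (nat_lit 76) (nat_lit 13729521442) (nat_lit 7) (nat_lit 4) (nat_lit 8) (nat_lit 5) (nat_lit 8) (nat_lit 4) (nat_lit 331) (nat_lit 265) (nat_lit 124)) (XT.lf (nat_lit 0) (nat_lit 36252889770) (nat_lit 76) (nat_lit 102990232460) (nat_lit 76) (nat_lit 4050493309) (nat_lit 7) (nat_lit 4) (nat_lit 8) (nat_lit 5) (nat_lit 8) (nat_lit 4) (nat_lit 332) (nat_lit 265) (nat_lit 123)))) (XT.nd (nat_lit 156) (nat_lit 0) (nat_lit 0) (XT.nd (nat_lit 78) (nat_lit 0) (nat_lit 0) (XT.lf (nat_lit 0) (nat_lit 5915433230) (nat_lit 152) (nat_lit 86817721611) (nat_lit 76) (nat_lit 56964547659) (nat_lit 6) (nat_lit 5) (nat_lit 8) (nat_lit 5) (nat_lit 7) (nat_lit 4) (nat_lit 333) (nat_lit 265) (nat_lit 122)) (XT.lf (nat_lit 0) (nat_lit 16242185086) (nat_lit 152) (nat_lit 65652280860) (nat_lit 76) (nat_lit 74524277590)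 (nat_lit 6) (nat_lit 5) (nat_lit 8) (nat_lit 5) (nat_lit 7) (nat_lit 4) (nat_lit 334) (nat_lit 265) (nat_lit 121))) (XT.nd (nat_lit 78) (nat_lit 0) (nat_lit 0) (XT.lf (nat_lit 0) (nat_lit 27083990846) (nat_lit 152) (nat_lit 43430770058) (nat_lit 76) (nat_lit 92961142199) (nat_lit 6) (nat_lit 5) (nat_lit 8) (nat_lit 5) (nat_lit 7) (nat_lit 4) (nat_lit 335) (nat_lit 265) (nat_lit 120)) (XT.lf (nat_lit 0) (nat_lit 38466664331) (nat_lit 152) (nat_lit 20100280845) (nat_lit 76) (nat_lit 112319038784) (nat_lit 6) (nat_lit 5) (nat_lit 8) (nat_lit 5) (nat_lit 7) (nat_lit 4) (nat_lit 336) (nat_lit 265) (nat_lit 119))))) (XT.nd (nat_lit 312) (nat_lit 76) (nat_lit 0) (XT.nd (nat_lit 156) (nat_lit 0) (nat_lit 0) (XT.nd (nat_lit 78) (nat_lit 0) (nat_lit 0) (XT.lf (nat_lit 0) (nat_lit 4540045366) (nat_lit 76) (nat_lit 45948144612) (nat_lit 152) (nat_lit 128174895040) (nat_lit 5) (nat_lit 5) (nat_lit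 6) (nat_lit 5) (nat_lit 7) (nat_lit 4) (nat_lit 337) (nat_lit 265) (nat_lit 118)) (XT.lf (nat_lit 0) (nat_lit 31108259200) (nat_lit 76) (nat_lit 32341801110) (nat_lit 152) (nat_lit 123362019379) (nat_lit 5) (nat_lit 5) (nat_lit 6) (nat_lit 5) (nat_lit 7) (nat_lit 4) (nat_lit 338) (nat_lit 265) (nat_lit 117))) (XT.nd (nat_lit 78) (nat_lit 0) (nat_lit 0) (XT.lf (nat_lit 0) (nat_lit 59003012247) (nat_lit 76) (nat_lit 18055926598) (nat_lit 152) (nat_lit 118309641402) (nat_lit 5) (nat_lit 5) (nat_lit 6) (nat_lit 5) (nat_lit 7) (nat_lit 4) (nat_lit 339) (nat_lit 265) (nat_lit 116)) (XT.lf (nat_lit 0) (nat_lit 88290720586) (nat_lit 76) (nat_lit 3056507089) (nat_lit 152) (nat_lit 113005731638) (nat_lit 5) (nat_lit 5) (nat_lit 6) (nat_lit 5) (nat_lit 7) (nat_lit 4) (nat_lit 340) (nat_lit 265) (nat_lit 115)))) (XT.nd (nat_lit 156) (nat_lit 76) (nat_lit 0) (XT.nd (nat_lit 78) (nat_lit 0) (nat_lit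 0) (XT.lf (nat_lit 0) (nat_lit 106547106883) (nat_lit 152) (nat_lit 94943651757) (nat_lit 0) (nat_lit 12285941606) (nat_lit 5) (nat_lit 5) (nat_lit 7) (nat_lit 4) (nat_lit 5) (nat_lit 4) (nat_lit 341) (nat_lit 265) (nat_lit 114)) (XT.lf (nat_lit 0) (nat_lit 122556138588) (nat_lit 152) (nat_lit 72820896669) (nat_lit 0) (nat_lit 28292136674) (nat_lit 5) (nat_lit 5) (nat_lit 7) (nat_lit 4) (nat_lit 5) (nat_lit 4) (nat_lit 342) (nat_lit 265) (nat_lit 113))) (XT.nd (nat_lit 78) (nat_lit 76) (nat_lit 0) (XT.lf (nat_lit 0) (nat_lit 139364718889) (nat_lit 152) (nat_lit 49593579596) (nat_lit 0) (nat_lit 45098015416) (nat_lit 5) (nat_lit 5) (nat_lit 7) (nat_lit 4) (nat_lit 5) (nat_lit 4) (nat_lit 343) (nat_lit 265) (nat_lit 112)) (XT.nd (nat_lit 78) (nat_lit 76) (nat_lit 0) (XT.lf (nat_lit 0) (nat_lit 157012868216) (nat_lit 152) (nat_lit 25206397402) (nat_lit 0) (nat_lit 62743591830) (nat_lit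 5) (nat_lit 5) (nat_lit 7) (nat_lit 4) (nat_lit 5) (nat_lit 4) (nat_lit 344) (nat_lit 265) (nat_lit 111)) (XT.lf (nat_lit 0) (nat_lit 411897938) (nat_lit 76) (nat_lit 175137138915) (nat_lit 76) (nat_lit 80865412136) (nat_lit 4) (nat_lit 4) (nat_lit 5) (nat_lit 5) (nat_lit 5) (nat_lit 4) (nat_lit 345) (nat_lit 265) (nat_lit 110))))))))
noncomputable def xc189 : XT := (XT.nd (nat_lit 32058) (nat_lit 0) (nat_lit 2280) (XT.nd (nat_lit 31356) (nat_lit 0) (nat_lit 4408) (XT.nd (nat_lit 312) (nat_lit 76) (nat_lit 0) (XT.nd (nat_lit 156) (nat_lit 0) (nat_lit 0) (XT.nd (nat_lit 78) (nat_lit 0) (nat_lit 0) (XT.lf (nat_lit 0) (nat_lit 28184811030) (nat_lit 76) (nat_lit 167253283439) (nat_lit 76) (nat_lit 72979222952) (nat_lit 4) (nat_lit 4) (nat_lit 5) (nat_lit 5) (nat_lit 5) (nat_lit 4) (nat_lit 346) (nat_lit 265) (nat_lit 109)) (XT.lf (nat_lit 0) (nat_lit 57345030523) (nat_lit 76) (nat_lit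 158975810642) (nat_lit 76) (nat_lit 64699527576) (nat_lit 4) (nat_lit 4) (nat_lit 5) (nat_lit 5) (nat_lit 5) (nat_lit 4) (nat_lit 347) (nat_lit 265) (nat_lit 108))) (XT.nd (nat_lit 78) (nat_lit 0) (nat_lit 0) (XT.lf (nat_lit 0) (nat_lit 87961985511) (nat_lit 76) (nat_lit 150285012257) (nat_lit 76) (nat_lit 56006612448) (nat_lit 4) (nat_lit 4) (nat_lit 5) (nat_lit 5) (nat_lit 5) (nat_lit 4) (nat_lit 348) (nat_lit 265) (nat_lit 107)) (XT.lf (nat_lit 0) (nat_lit 120108573506) (nat_lit 76) (nat_lit 141160195905) (nat_lit 76) (nat_lit 46879780152) (nat_lit 4) (nat_lit 4) (nat_lit 5) (nat_lit 5) (nat_lit 5) (nat_lit 4) (nat_lit 349) (nat_lit 265) (nat_lit 106)))) (XT.nd (nat_lit 312) (nat_lit 76) (nat_lit 0) (XT.nd (nat_lit 78) (nat_lit 0) (nat_lit 0) (XT.lf (nat_lit 0) (nat_lit 153861334003) (nat_lit 76) (nat_lit 131579635834) (nat_lit 76) (nat_lit 37297300134) (nat_lit 4) (nat_lit 4) (nat_lit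 5) (nat_lit 5) (nat_lit 5) (nat_lit 4) (nat_lit 350) (nat_lit 265) (nat_lit 105)) (XT.lf (nat_lit 0) (nat_lit 189300630717) (nat_lit 76) (nat_lit 121520521186) (nat_lit 76) (nat_lit 27236356965) (nat_lit 4) (nat_lit 4) (nat_lit 5) (nat_lit 5) (nat_lit 5) (nat_lit 4) (nat_lit 351) (nat_lit 265) (nat_lit 104))) (XT.nd (nat_lit 30654) (nat_lit 0) (nat_lit 5016) (XT.lf (nat_lit 0) (nat_lit 5868790054) (nat_lit 152) (nat_lit 82258124127) (nat_lit 76) (nat_lit 300634643361) (nat_lit 3) (nat_lit 5) (nat_lit 5) (nat_lit 5) (nat_lit 4) (nat_lit 4) (nat_lit 354) (nat_lit 265) (nat_lit 101)) (XT.lf (nat_lit 0) (nat_lit 6679119019) (nat_lit 684) (nat_lit 372389390) (nat_lit 684) (nat_lit 372389390) (nat_lit 69) (nat_lit 3) (nat_lit 78) (nat_lit 3) (nat_lit 78) (nat_lit 5) (nat_lit 266) (nat_lit 266) (nat_lit 188))))) (XT.nd (nat_lit 312) (nat_lit 0) (nat_lit 0) (XT.nd (nat_lit 156) (nat_lit 608)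 (nat_lit 0) (XT.nd (nat_lit 78) (nat_lit 0) (nat_lit 0) (XT.lf (nat_lit 76) (nat_lit 5510711314) (nat_lit 0) (nat_lit 8531341750) (nat_lit 684) (nat_lit 1158182138) (nat_lit 70) (nat_lit 5) (nat_lit 69) (nat_lit 3) (nat_lit 78) (nat_lit 5) (nat_lit 267) (nat_lit 266) (nat_lit 187)) (XT.lf (nat_lit 76) (nat_lit 12095631928) (nat_lit 0) (nat_lit 2660008580) (nat_lit 684) (nat_lit 814957998) (nat_lit 70) (nat_lit 5) (nat_lit 69) (nat_lit 3) (nat_lit 78) (nat_lit 5) (nat_lit 268) (nat_lit 266) (nat_lit 186))) (XT.nd (nat_lit 78) (nat_lit 684) (nat_lit 0) (XT.lf (nat_lit 76) (nat_lit 3084555154) (nat_lit 0) (nat_lit 12507127834) (nat_lit 684) (nat_lit 363535160) (nat_lit 71) (nat_lit 5) (nat_lit 70) (nat_lit 5) (nat_lit 79) (nat_lit 5) (nat_lit 269) (nat_lit 266) (nat_lit 185)) (XT.lf (nat_lit 0) (nat_lit 194533070) (nat_lit 684) (nat_lit 6319928702) (nat_lit 760) (nat_lit 9840210095) (nat_lit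 61) (nat_lit 5) (nat_lit 70) (nat_lit 5) (nat_lit 71) (nat_lit 5) (nat_lit 270) (nat_lit 266) (nat_lit 184)))) (XT.nd (nat_lit 156) (nat_lit 0) (nat_lit 76) (XT.nd (nat_lit 78) (nat_lit 0) (nat_lit 76) (XT.lf (nat_lit 76) (nat_lit 560609154) (nat_lit 0) (nat_lit 201371957) (nat_lit 760) (nat_lit 16012200982) (nat_lit 62) (nat_lit 5) (nat_lit 61) (nat_lit 5) (nat_lit 71) (nat_lit 5) (nat_lit 271) (nat_lit 266) (nat_lit 183)) (XT.lf (nat_lit 0) (nat_lit 1552522230) (nat_lit 684) (nat_lit 9317257325) (nat_lit 760) (nat_lit 6335215553) (nat_lit 62) (nat_lit 5) (nat_lit 71) (nat_lit 5) (nat_lit 72) (nat_lit 5) (nat_lit 272) (nat_lit 266) (nat_lit 182))) (XT.nd (nat_lit 78) (nat_lit 0) (nat_lit 76) (XT.lf (nat_lit 0) (nat_lit 2372163701) (nat_lit 684) (nat_lit 2089355397) (nat_lit 760) (nat_lit 13196411310) (nat_lit 62) (nat_lit 5) (nat_lit 71) (nat_lit 5) (nat_lit 72) (nat_lit 5) (nat_lit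 273) (nat_lit 266) (nat_lit 181)) (XT.nd (nat_lit 78) (nat_lit 0) (nat_lit 0) (XT.lf (nat_lit 0) (nat_lit 3345174170) (nat_lit 684) (nat_lit 12494674290) (nat_lit 760) (nat_lit 2288102092) (nat_lit 63) (nat_lit 5) (nat_lit 72) (nat_lit 5) (nat_lit 73) (nat_lit 5) (nat_lit 274) (nat_lit 266) (nat_lit 180)) (XT.lf (nat_lit 0) (nat_lit 4463393719) (nat_lit 684) (nat_lit 4888883977) (nat_lit 760) (nat_lit 9264420774) (nat_lit 63) (nat_lit 5) (nat_lit 72) (nat_lit 5) (nat_lit 73) (nat_lit 5) (nat_lit 275) (nat_lit 266) (nat_lit 179))))))) (XT.nd (nat_lit 702) (nat_lit 1064) (nat_lit 0) (XT.nd (nat_lit 312) (nat_lit 608) (nat_lit 0) (XT.nd (nat_lit 156) (nat_lit 608) (nat_lit 0) (XT.nd (nat_lit 78) (nat_lit 0) (nat_lit 76) (XT.lf (nat_lit 76) (nat_lit 3189726088) (nat_lit 0) (nat_lit 2485650706) (nat_lit 760) (nat_lit 13452666448) (nat_lit 64) (nat_lit 5) (nat_lit 63) (nat_lit 5) (nat_lit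 73) (nat_lit 5) (nat_lit 276) (nat_lit 266) (nat_lit 178)) (XT.lf (nat_lit 0) (nat_lit 7094378787) (nat_lit 684) (nat_lit 7904000491) (nat_lit 76) (nat_lit 4659304594) (nat_lit 64) (nat_lit 5) (nat_lit 73) (nat_lit 5) (nat_lit 65) (nat_lit 5) (nat_lit 277) (nat_lit 266) (nat_lit 177))) (XT.nd (nat_lit 78) (nat_lit 0) (nat_lit 0) (XT.lf (nat_lit 0) (nat_lit 497624335) (nat_lit 684) (nat_lit 8124278664) (nat_lit 760) (nat_lit 11590072173) (nat_lit 55) (nat_lit 5) (nat_lit 64) (nat_lit 5) (nat_lit 65) (nat_lit 5) (nat_lit 278) (nat_lit 266) (nat_lit 176)) (XT.lf (nat_lit 0) (nat_lit 9584307691) (nat_lit 684) (nat_lit 764782205) (nat_lit 760) (nat_lit 10438771814) (nat_lit 55) (nat_lit 5) (nat_lit 64) (nat_lit 5) (nat_lit 65) (nat_lit 5) (nat_lit 279) (nat_lit 266) (nat_lit 175)))) (XT.nd (nat_lit 156) (nat_lit 304) (nat_lit 0) (XT.nd (nat_lit 78) (nat_lit 304) (nat_lit 0) (XT.lf (nat_lit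 0) (nat_lit 12261291985) (nat_lit 760) (nat_lit 2385470293) (nat_lit 76) (nat_lit 6740890358) (nat_lit 55) (nat_lit 5) (nat_lit 65) (nat_lit 5) (nat_lit 56) (nat_lit 5) (nat_lit 280) (nat_lit 266) (nat_lit 174)) (XT.lf (nat_lit 0) (nat_lit 7078443321) (nat_lit 304) (nat_lit 7304139996) (nat_lit 380) (nat_lit 7629216646) (nat_lit 51) (nat_lit 5) (nat_lit 55) (nat_lit 5) (nat_lit 56) (nat_lit 5) (nat_lit 281) (nat_lit 266) (nat_lit 173))) (XT.nd (nat_lit 78) (nat_lit 304) (nat_lit 0) (XT.lf (nat_lit 0) (nat_lit 16648081794) (nat_lit 380) (nat_lit 5583210187) (nat_lit 76) (nat_lit 433994412) (nat_lit 51) (nat_lit 5) (nat_lit 56) (nat_lit 5) (nat_lit 52) (nat_lit 5) (nat_lit 282) (nat_lit 266) (nat_lit 172)) (XT.nd (nat_lit 78) (nat_lit 0) (nat_lit 0) (XT.lf (nat_lit 0) (nat_lit 4241455508) (nat_lit 304) (nat_lit 14962549688) (nat_lit 380) (nat_lit 4138621469) (nat_lit 47) (nat_lit 5)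 (nat_lit 51) (nat_lit 5) (nat_lit 52) (nat_lit 5) (nat_lit 283) (nat_lit 266) (nat_lit 171)) (XT.lf (nat_lit 0) (nat_lit 14742334975) (nat_lit 304) (nat_lit 7231414460) (nat_lit 380) (nat_lit 2075818538) (nat_lit 47) (nat_lit 5) (nat_lit 51) (nat_lit 5) (nat_lit 52) (nat_lit 5) (nat_lit 284) (nat_lit 266) (nat_lit 170)))))) (XT.nd (nat_lit 312) (nat_lit 456) (nat_lit 0) (XT.nd (nat_lit 156) (nat_lit 304) (nat_lit 0) (XT.nd (nat_lit 78) (nat_lit 0) (nat_lit 0) (XT.lf (nat_lit 0) (nat_lit 108644333) (nat_lit 304) (nat_lit 23807358571) (nat_lit 76) (nat_lit 874744846) (nat_lit 43) (nat_lit 5) (nat_lit 47) (nat_lit 5) (nat_lit 44) (nat_lit 5) (nat_lit 285) (nat_lit 266) (nat_lit 169)) (XT.lf (nat_lit 0) (nat_lit 2603285838) (nat_lit 304) (nat_lit 13613620696) (nat_lit 76) (nat_lit 9336873117) (nat_lit 43) (nat_lit 5) (nat_lit 47) (nat_lit 5) (nat_lit 44) (nat_lit 5) (nat_lit 286) (nat_lit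 266) (nat_lit 168))) (XT.nd (nat_lit 78) (nat_lit 304) (nat_lit 0) (XT.lf (nat_lit 0) (nat_lit 5215004519) (nat_lit 304) (nat_lit 2918788612) (nat_lit 76) (nat_lit 18221581764) (nat_lit 43) (nat_lit 5) (nat_lit 47) (nat_lit 5) (nat_lit 44) (nat_lit 5) (nat_lit 287) (nat_lit 266) (nat_lit 167)) (XT.lf (nat_lit 0) (nat_lit 8091631784) (nat_lit 380) (nat_lit 18621323427) (nat_lit 76) (nat_lit 477406182) (nat_lit 39) (nat_lit 5) (nat_lit 44) (nat_lit 5) (nat_lit 40) (nat_lit 5) (nat_lit 288) (nat_lit 266) (nat_lit 166)))) (XT.nd (nat_lit 156) (nat_lit 228) (nat_lit 0) (XT.nd (nat_lit 78) (nat_lit 228) (nat_lit 0) (XT.lf (nat_lit 0) (nat_lit 11288588459) (nat_lit 380) (nat_lit 7474603184) (nat_lit 76) (nat_lit 9295106977) (nat_lit 39) (nat_lit 5) (nat_lit 44) (nat_lit 5) (nat_lit 40) (nat_lit 5) (nat_lit 289) (nat_lit 266) (nat_lit 165)) (XT.lf (nat_lit 0) (nat_lit 4361017701) (nat_lit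 228) (nat_lit 10345716056) (nat_lit 304) (nat_lit 14259856970) (nat_lit 36) (nat_lit 5) (nat_lit 39) (nat_lit 5) (nat_lit 40) (nat_lit 5) (nat_lit 290) (nat_lit 266) (nat_lit 164))) (XT.nd (nat_lit 78) (nat_lit 228) (nat_lit 0) (XT.lf (nat_lit 0) (nat_lit 17040035081) (nat_lit 228) (nat_lit 1375788501) (nat_lit 304) (nat_lit 11498495854) (nat_lit 36) (nat_lit 5) (nat_lit 39) (nat_lit 5) (nat_lit 40) (nat_lit 5) (nat_lit 291) (nat_lit 266) (nat_lit 163)) (XT.nd (nat_lit 78) (nat_lit 228) (nat_lit 0) (XT.lf (nat_lit 0) (nat_lit 22429679181) (nat_lit 304) (nat_lit 689824394) (nat_lit 76) (nat_lit 7783988167) (nat_lit 36) (nat_lit 5) (nat_lit 40) (nat_lit 5) (nat_lit 37) (nat_lit 5) (nat_lit 292) (nat_lit 266) (nat_lit 162)) (XT.lf (nat_lit 0) (nat_lit 12473068294) (nat_lit 228) (nat_lit 14382493873) (nat_lit 304) (nat_lit 5076015409) (nat_lit 33) (nat_lit 5) (nat_lit 36) (nat_lit 5) (nat_lit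 37) (nat_lit 5) (nat_lit 293) (nat_lit 266) (nat_lit 161))))))))
noncomputable def xc190 : XT := (XT.nd (nat_lit 1326) (nat_lit 684) (nat_lit 0) (XT.nd (nat_lit 624) (nat_lit 532) (nat_lit 0) (XT.nd (nat_lit 312) (nat_lit 380) (nat_lit 0) (XT.nd (nat_lit 156) (nat_lit 0) (nat_lit 0) (XT.nd (nat_lit 78) (nat_lit 304) (nat_lit 0) (XT.lf (nat_lit 0) (nat_lit 26310722521) (nat_lit 228) (nat_lit 5197909718) (nat_lit 304) (nat_lit 1502161430) (nat_lit 33) (nat_lit 5) (nat_lit 36) (nat_lit 5) (nat_lit 37) (nat_lit 5) (nat_lit 294) (nat_lit 266) (nat_lit 160)) (XT.lf (nat_lit 0) (nat_lit 2351781576) (nat_lit 304) (nat_lit 27334894998) (nat_lit 76) (nat_lit 4446884811) (nat_lit 29) (nat_lit 5) (nat_lit 33) (nat_lit 5) (nat_lit 30) (nat_lit 5) (nat_lit 295) (nat_lit 266) (nat_lit 159))) (XT.nd (nat_lit 78) (nat_lit 0) (nat_lit 0) (XT.lf (nat_lit 0) (nat_lit 6542989004) (nat_lit 304) (nat_lit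 14220877090) (nat_lit 76) (nat_lit 14537635433) (nat_lit 29) (nat_lit 5) (nat_lit 33) (nat_lit 5) (nat_lit 30) (nat_lit 5) (nat_lit 296) (nat_lit 266) (nat_lit 158)) (XT.lf (nat_lit 0) (nat_lit 10938527296) (nat_lit 304) (nat_lit 458146681) (nat_lit 76) (nat_lit 25131443133) (nat_lit 29) (nat_lit 5) (nat_lit 33) (nat_lit 5) (nat_lit 30) (nat_lit 5) (nat_lit 297) (nat_lit 266) (nat_lit 157)))) (XT.nd (nat_lit 156) (nat_lit 152) (nat_lit 0) (XT.nd (nat_lit 78) (nat_lit 0) (nat_lit 0) (XT.lf (nat_lit 0) (nat_lit 14448507095) (nat_lit 228) (nat_lit 1325936611) (nat_lit 304) (nat_lit 22030605856) (nat_lit 26) (nat_lit 5) (nat_lit 29) (nat_lit 5) (nat_lit 30) (nat_lit 5) (nat_lit 298) (nat_lit 266) (nat_lit 156)) (XT.lf (nat_lit 0) (nat_lit 20999562400) (nat_lit 304) (nat_lit 9180340317) (nat_lit 76) (nat_lit 8958570980) (nat_lit 26) (nat_lit 5) (nat_lit 30) (nat_lit 5) (nat_lit 27) (nat_lit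 5) (nat_lit 299) (nat_lit 266) (nat_lit 155))) (XT.nd (nat_lit 78) (nat_lit 0) (nat_lit 0) (XT.lf (nat_lit 0) (nat_lit 5864168785) (nat_lit 152) (nat_lit 20730420885) (nat_lit 228) (nat_lit 13938561383) (nat_lit 24) (nat_lit 5) (nat_lit 26) (nat_lit 5) (nat_lit 27) (nat_lit 5) (nat_lit 300) (nat_lit 266) (nat_lit 154)) (XT.lf (nat_lit 0) (nat_lit 21973271653) (nat_lit 152) (nat_lit 10647051805) (nat_lit 228) (nat_lit 9369705014) (nat_lit 24) (nat_lit 5) (nat_lit 26) (nat_lit 5) (nat_lit 27) (nat_lit 5) (nat_lit 301) (nat_lit 266) (nat_lit 153))))) (XT.nd (nat_lit 312) (nat_lit 304) (nat_lit 0) (XT.nd (nat_lit 156) (nat_lit 0) (nat_lit 0) (XT.nd (nat_lit 78) (nat_lit 228) (nat_lit 0) (XT.lf (nat_lit 0) (nat_lit 38881779781) (nat_lit 152) (nat_lit 61260963) (nat_lit 228) (nat_lit 4576937466) (nat_lit 24) (nat_lit 5) (nat_lit 26) (nat_lit 5) (nat_lit 27) (nat_lit 5) (nat_lit 302) (nat_lit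 266) (nat_lit 152)) (XT.lf (nat_lit 0) (nat_lit 797846867) (nat_lit 228) (nat_lit 33416346768) (nat_lit 76) (nat_lit 10894040480) (nat_lit 21) (nat_lit 5) (nat_lit 24) (nat_lit 5) (nat_lit 22) (nat_lit 5) (nat_lit 303) (nat_lit 266) (nat_lit 151))) (XT.nd (nat_lit 78) (nat_lit 0) (nat_lit 0) (XT.lf (nat_lit 0) (nat_lit 6364300562) (nat_lit 228) (nat_lit 17855798173) (nat_lit 76) (nat_lit 22548226709) (nat_lit 21) (nat_lit 5) (nat_lit 24) (nat_lit 5) (nat_lit 22) (nat_lit 5) (nat_lit 304) (nat_lit 266) (nat_lit 150)) (XT.lf (nat_lit 0) (nat_lit 12205175167) (nat_lit 228) (nat_lit 1522940535) (nat_lit 76) (nat_lit 34783511658) (nat_lit 21) (nat_lit 5) (nat_lit 24) (nat_lit 5) (nat_lit 22) (nat_lit 5) (nat_lit 305) (nat_lit 266) (nat_lit 149)))) (XT.nd (nat_lit 156) (nat_lit 152) (nat_lit 0) (XT.nd (nat_lit 78) (nat_lit 0) (nat_lit 0) (XT.lf (nat_lit 0) (nat_lit 16137618475) (nat_lit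 152) (nat_lit 2448712501) (nat_lit 228) (nat_lit 31743361933) (nat_lit 19) (nat_lit 5) (nat_lit 21) (nat_lit 5) (nat_lit 22) (nat_lit 5) (nat_lit 306) (nat_lit 266) (nat_lit 148)) (XT.lf (nat_lit 0) (nat_lit 25455786332) (nat_lit 228) (nat_lit 17655915650) (nat_lit 76) (nat_lit 9118507580) (nat_lit 19) (nat_lit 5) (nat_lit 22) (nat_lit 5) (nat_lit 20) (nat_lit 5) (nat_lit 307) (nat_lit 266) (nat_lit 147))) (XT.nd (nat_lit 78) (nat_lit 152) (nat_lit 0) (XT.lf (nat_lit 0) (nat_lit 32705381302) (nat_lit 228) (nat_lit 338350988) (nat_lit 76) (nat_lit 21180195859) (nat_lit 19) (nat_lit 5) (nat_lit 22) (nat_lit 5) (nat_lit 20) (nat_lit 5) (nat_lit 308) (nat_lit 266) (nat_lit 146)) (XT.nd (nat_lit 78) (nat_lit 0) (nat_lit 0) (XT.lf (nat_lit 0) (nat_lit 18429956830) (nat_lit 152) (nat_lit 22171932010) (nat_lit 228) (nat_lit 15701231177) (nat_lit 17) (nat_lit 5) (nat_lit 19) (nat_lit 5) (nat_lit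 20) (nat_lit 5) (nat_lit 309) (nat_lit 266) (nat_lit 145)) (XT.lf (nat_lit 0) (nat_lit 38143498815) (nat_lit 152) (nat_lit 10752223321) (nat_lit 228) (nat_lit 9590432889) (nat_lit 17) (nat_lit 5) (nat_lit 19) (nat_lit 5) (nat_lit 20) (nat_lit 5) (nat_lit 310) (nat_lit 266) (nat_lit 144))))))) (XT.nd (nat_lit 702) (nat_lit 304) (nat_lit 0) (XT.nd (nat_lit 312) (nat_lit 228) (nat_lit 0) (XT.nd (nat_lit 156) (nat_lit 0) (nat_lit 0) (XT.nd (nat_lit 78) (nat_lit 152) (nat_lit 0) (XT.lf (nat_lit 0) (nat_lit 57620481888) (nat_lit 228) (nat_lit 1959789926) (nat_lit 76) (nat_lit 1197266387) (nat_lit 17) (nat_lit 5) (nat_lit 20) (nat_lit 5) (nat_lit 18) (nat_lit 4) (nat_lit 311) (nat_lit 266) (nat_lit 143)) (XT.lf (nat_lit 0) (nat_lit 3940310725) (nat_lit 152) (nat_lit 45495760751) (nat_lit 76) (nat_lit 13721743736) (nat_lit 15) (nat_lit 5) (nat_lit 17) (nat_lit 5) (nat_lit 16) (nat_lit 5) (nat_lit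 312) (nat_lit 266) (nat_lit 142))) (XT.nd (nat_lit 78) (nat_lit 0) (nat_lit 0) (XT.lf (nat_lit 0) (nat_lit 11317244427) (nat_lit 152) (nat_lit 27379345180) (nat_lit 76) (nat_lit 26956395956) (nat_lit 15) (nat_lit 5) (nat_lit 17) (nat_lit 5) (nat_lit 16) (nat_lit 5) (nat_lit 313) (nat_lit 266) (nat_lit 141)) (XT.lf (nat_lit 0) (nat_lit 19060226735) (nat_lit 152) (nat_lit 8361518389) (nat_lit 76) (nat_lit 40851315924) (nat_lit 15) (nat_lit 5) (nat_lit 17) (nat_lit 5) (nat_lit 16) (nat_lit 5) (nat_lit 314) (nat_lit 266) (nat_lit 140)))) (XT.nd (nat_lit 156) (nat_lit 76) (nat_lit 0) (XT.nd (nat_lit 78) (nat_lit 0) (nat_lit 0) (XT.lf (nat_lit 0) (nat_lit 11986647749) (nat_lit 152) (nat_lit 15388190736) (nat_lit 228) (nat_lit 43640084197) (nat_lit 13) (nat_lit 5) (nat_lit 15) (nat_lit 5) (nat_lit 16) (nat_lit 5) (nat_lit 315) (nat_lit 266) (nat_lit 139)) (XT.lf (nat_lit 0) (nat_lit 33638383388)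 (nat_lit 152) (nat_lit 2605801343) (nat_lit 228) (nat_lit 37642748558) (nat_lit 13) (nat_lit 5) (nat_lit 15) (nat_lit 5) (nat_lit 16) (nat_lit 5) (nat_lit 316) (nat_lit 266) (nat_lit 138))) (XT.nd (nat_lit 78) (nat_lit 76) (nat_lit 0) (XT.lf (nat_lit 0) (nat_lit 45723360530) (nat_lit 228) (nat_lit 20702744195) (nat_lit 76) (nat_lit 10468127386) (nat_lit 13) (nat_lit 5) (nat_lit 16) (nat_lit 5) (nat_lit 14) (nat_lit 4) (nat_lit 317) (nat_lit 266) (nat_lit 137)) (XT.nd (nat_lit 78) (nat_lit 76) (nat_lit 0) (XT.lf (nat_lit 0) (nat_lit 55716831016) (nat_lit 228) (nat_lit 226215850) (nat_lit 76) (nat_lit 24106837734) (nat_lit 13) (nat_lit 5) (nat_lit 16) (nat_lit 5) (nat_lit 14) (nat_lit 4) (nat_lit 318) (nat_lit 266) (nat_lit 136)) (XT.lf (nat_lit 0) (nat_lit 21973770519) (nat_lit 76) (nat_lit 44577007926) (nat_lit 152) (nat_lit 16795506358) (nat_lit 12) (nat_lit 5) (nat_lit 13) (nat_lit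 5) (nat_lit 14) (nat_lit 4) (nat_lit 319) (nat_lit 266) (nat_lit 135)))))) (XT.nd (nat_lit 312) (nat_lit 76) (nat_lit 0) (XT.nd (nat_lit 156) (nat_lit 228) (nat_lit 0) (XT.nd (nat_lit 78) (nat_lit 0) (nat_lit 0) (XT.lf (nat_lit 0) (nat_lit 45288002766) (nat_lit 76) (nat_lit 32640034549) (nat_lit 152) (nat_lit 8879392003) (nat_lit 12) (nat_lit 5) (nat_lit 13) (nat_lit 5) (nat_lit 14) (nat_lit 4) (nat_lit 320) (nat_lit 266) (nat_lit 134)) (XT.lf (nat_lit 0) (nat_lit 69764511249) (nat_lit 76) (nat_lit 20107536446) (nat_lit 152) (nat_lit 569693705) (nat_lit 12) (nat_lit 5) (nat_lit 13) (nat_lit 5) (nat_lit 14) (nat_lit 4) (nat_lit 321) (nat_lit 266) (nat_lit 133))) (XT.nd (nat_lit 78) (nat_lit 0) (nat_lit 0) (XT.lf (nat_lit 0) (nat_lit 1111992901) (nat_lit 152) (nat_lit 6797783083) (nat_lit 228) (nat_lit 86340865273) (nat_lit 9) (nat_lit 5) (nat_lit 11) (nat_lit 5) (nat_lit 12) (nat_lit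 5) (nat_lit 322) (nat_lit 266) (nat_lit 132)) (XT.lf (nat_lit 0) (nat_lit 17260031299) (nat_lit 228) (nat_lit 73654447447) (nat_lit 76) (nat_lit 7311746639) (nat_lit 9) (nat_lit 5) (nat_lit 12) (nat_lit 5) (nat_lit 10) (nat_lit 4) (nat_lit 323) (nat_lit 266) (nat_lit 131)))) (XT.nd (nat_lit 156) (nat_lit 76) (nat_lit 0) (XT.nd (nat_lit 78) (nat_lit 0) (nat_lit 0) (XT.lf (nat_lit 0) (nat_lit 27187312555) (nat_lit 228) (nat_lit 53310688914) (nat_lit 76) (nat_lit 21897115517) (nat_lit 9) (nat_lit 5) (nat_lit 12) (nat_lit 5) (nat_lit 10) (nat_lit 4) (nat_lit 324) (nat_lit 266) (nat_lit 130)) (XT.lf (nat_lit 0) (nat_lit 37609123691) (nat_lit 228) (nat_lit 31952802790) (nat_lit 76) (nat_lit 37210622131) (nat_lit 9) (nat_lit 5) (nat_lit 12) (nat_lit 5) (nat_lit 10) (nat_lit 4) (nat_lit 325) (nat_lit 266) (nat_lit 129))) (XT.nd (nat_lit 78) (nat_lit 76) (nat_lit 0) (XT.lf (nat_lit 0) (nat_lit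 48550278543) (nat_lit 228) (nat_lit 9529936966) (nat_lit 76) (nat_lit 53288727210) (nat_lit 9) (nat_lit 5) (nat_lit 12) (nat_lit 5) (nat_lit 10) (nat_lit 4) (nat_lit 326) (nat_lit 266) (nat_lit 128)) (XT.nd (nat_lit 78) (nat_lit 0) (nat_lit 0) (XT.lf (nat_lit 0) (nat_lit 14474573065) (nat_lit 76) (nat_lit 45788243065) (nat_lit 152) (nat_lit 55921127543) (nat_lit 8) (nat_lit 5) (nat_lit 9) (nat_lit 5) (nat_lit 10) (nat_lit 4) (nat_lit 327) (nat_lit 266) (nat_lit 127)) (XT.lf (nat_lit 0) (nat_lit 40007435447) (nat_lit 76) (nat_lit 32713312169) (nat_lit 152) (nat_lit 48510961935) (nat_lit 8) (nat_lit 5) (nat_lit 9) (nat_lit 5) (nat_lit 10) (nat_lit 4) (nat_lit 328) (nat_lit 266) (nat_lit 126))))))))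
noncomputable def xc191 : XT := (XT.nd (nat_lit 1326) (nat_lit 76) (nat_lit 0) (XT.nd (nat_lit 624) (nat_lit 76) (nat_lit 0) (XT.nd (nat_lit 312) (nat_lit 76) (nat_lit 0) (XT.nd (nat_lit 156) (nat_lit 76) (nat_lit 0) (XT.nd (nat_lit 78) (nat_lit 0) (nat_lit 0) (XT.lf (nat_lit 0) (nat_lit 66814339953) (nat_lit 76) (nat_lit 18985686128) (nat_lit 152) (nat_lit 40731918197) (nat_lit 8) (nat_lit 5) (nat_lit 9) (nat_lit 5) (nat_lit 10) (nat_lit 4) (nat_lit 329) (nat_lit 266) (nat_lit 125)) (XT.lf (nat_lit 0) (nat_lit 94959112546) (nat_lit 76) (nat_lit 4572680117) (nat_lit 152) (nat_lit 32565474795) (nat_lit 8) (nat_lit 5) (nat_lit 9) (nat_lit 5) (nat_lit 10) (nat_lit 4) (nat_lit 330) (nat_lit 266) (nat_lit 124))) (XT.nd (nat_lit 78) (nat_lit 76) (nat_lit 0) (XT.lf (nat_lit 0) (nat_lit 114113613593) (nat_lit 152) (nat_lit 13597036819) (nat_lit 0) (nat_lit 10222035872) (nat_lit 8) (nat_lit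 5) (nat_lit 10) (nat_lit 4) (nat_lit 8) (nat_lit 4) (nat_lit 331) (nat_lit 266) (nat_lit 123)) (XT.lf (nat_lit 0) (nat_lit 11409033281) (nat_lit 76) (nat_lit 118267228461) (nat_lit 76) (nat_lit 14371030158) (nat_lit 7) (nat_lit 4) (nat_lit 8) (nat_lit 5) (nat_lit 8) (nat_lit 4) (nat_lit 332) (nat_lit 266) (nat_lit 122)))) (XT.nd (nat_lit 156) (nat_lit 0) (nat_lit 0) (XT.nd (nat_lit 78) (nat_lit 76) (nat_lit 0) (XT.lf (nat_lit 0) (nat_lit 38135200194) (nat_lit 76) (nat_lit 108110790779) (nat_lit 76) (nat_lit 4210191921) (nat_lit 7) (nat_lit 4) (nat_lit 8) (nat_lit 5) (nat_lit 8) (nat_lit 4) (nat_lit 333) (nat_lit 266) (nat_lit 121)) (XT.lf (nat_lit 0) (nat_lit 6250686179) (nat_lit 152) (nat_lit 91090883194) (nat_lit 76) (nat_lit 59838973630) (nat_lit 6) (nat_lit 5) (nat_lit 8) (nat_lit 5) (nat_lit 7) (nat_lit 4) (nat_lit 334) (nat_lit 266) (nat_lit 120))) (XT.nd (nat_lit 78) (nat_lit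 0) (nat_lit 0) (XT.lf (nat_lit 0) (nat_lit 17091895567) (nat_lit 152) (nat_lit 68870395381) (nat_lit 76) (nat_lit 78275442505) (nat_lit 6) (nat_lit 5) (nat_lit 8) (nat_lit 5) (nat_lit 7) (nat_lit 4) (nat_lit 335) (nat_lit 266) (nat_lit 119)) (XT.lf (nat_lit 0) (nat_lit 28474001080) (nat_lit 152) (nat_lit 45540880444) (nat_lit 76) (nat_lit 97632962201) (nat_lit 6) (nat_lit 5) (nat_lit 8) (nat_lit 5) (nat_lit 7) (nat_lit 4) (nat_lit 336) (nat_lit 266) (nat_lit 118))))) (XT.nd (nat_lit 312) (nat_lit 0) (nat_lit 0) (XT.nd (nat_lit 156) (nat_lit 0) (nat_lit 0) (XT.nd (nat_lit 78) (nat_lit 76) (nat_lit 0) (XT.lf (nat_lit 0) (nat_lit 40424102969) (nat_lit 152) (nat_lit 21046791919) (nat_lit 76) (nat_lit 117957622049) (nat_lit 6) (nat_lit 5) (nat_lit 8) (nat_lit 5) (nat_lit 7) (nat_lit 4) (nat_lit 337) (nat_lit 266) (nat_lit 117)) (XT.lf (nat_lit 0) (nat_lit 4824607006) (nat_lit 76) (nat_lit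 48221372487) (nat_lit 152) (nat_lit 134548532726) (nat_lit 5) (nat_lit 5) (nat_lit 6) (nat_lit 5) (nat_lit 7) (nat_lit 4) (nat_lit 338) (nat_lit 266) (nat_lit 116))) (XT.nd (nat_lit 78) (nat_lit 0) (nat_lit 0) (XT.lf (nat_lit 0) (nat_lit 32718490609) (nat_lit 76) (nat_lit 33935863208) (nat_lit 152) (nat_lit 129496685047) (nat_lit 5) (nat_lit 5) (nat_lit 6) (nat_lit 5) (nat_lit 7) (nat_lit 4) (nat_lit 339) (nat_lit 266) (nat_lit 115)) (XT.lf (nat_lit 0) (nat_lit 62005370907) (nat_lit 76) (nat_lit 18936791540) (nat_lit 152) (nat_lit 124193280329) (nat_lit 5) (nat_lit 5) (nat_lit 6) (nat_lit 5) (nat_lit 7) (nat_lit 4) (nat_lit 340) (nat_lit 266) (nat_lit 114)))) (XT.nd (nat_lit 156) (nat_lit 0) (nat_lit 0) (XT.nd (nat_lit 78) (nat_lit 0) (nat_lit 0) (XT.lf (nat_lit 0) (nat_lit 92754978565) (nat_lit 76) (nat_lit 3188445407) (nat_lit 152) (nat_lit 118625691417) (nat_lit 5) (nat_lit 5) (nat_lit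 6) (nat_lit 5) (nat_lit 7) (nat_lit 4) (nat_lit 341) (nat_lit 266) (nat_lit 113)) (XT.lf (nat_lit 0) (nat_lit 111902234626) (nat_lit 152) (nat_lit 99642369835) (nat_lit 0) (nat_lit 12919494421) (nat_lit 5) (nat_lit 5) (nat_lit 7) (nat_lit 4) (nat_lit 5) (nat_lit 4) (nat_lit 342) (nat_lit 266) (nat_lit 112))) (XT.nd (nat_lit 78) (nat_lit 0) (nat_lit 0) (XT.lf (nat_lit 0) (nat_lit 128710395420) (nat_lit 152) (nat_lit 76415784827) (nat_lit 0) (nat_lit 29725082302) (nat_lit 5) (nat_lit 5) (nat_lit 7) (nat_lit 4) (nat_lit 5) (nat_lit 4) (nat_lit 343) (nat_lit 266) (nat_lit 111)) (XT.nd (nat_lit 78) (nat_lit 0) (nat_lit 0) (XT.lf (nat_lit 0) (nat_lit 146358145217) (nat_lit 152) (nat_lit 52029299837) (nat_lit 0) (nat_lit 47370381706) (nat_lit 5) (nat_lit 5) (nat_lit 7) (nat_lit 4) (nat_lit 5) (nat_lit 4) (nat_lit 344) (nat_lit 266) (nat_lit 110)) (XT.lf (nat_lit 0) (nat_lit 164887502468)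 (nat_lit 152) (nat_lit 26424851807) (nat_lit 0) (nat_lit 65897405249) (nat_lit 5) (nat_lit 5) (nat_lit 7) (nat_lit 4) (nat_lit 5) (nat_lit 4) (nat_lit 345) (nat_lit 266) (nat_lit 109))))))) (XT.nd (nat_lit 31590) (nat_lit 0) (nat_lit 4332) (XT.nd (nat_lit 312) (nat_lit 0) (nat_lit 0) (XT.nd (nat_lit 156) (nat_lit 0) (nat_lit 0) (XT.nd (nat_lit 78) (nat_lit 0) (nat_lit 0) (XT.lf (nat_lit 0) (nat_lit 473683051) (nat_lit 76) (nat_lit 183876297160) (nat_lit 76) (nat_lit 84883977362) (nat_lit 4) (nat_lit 4) (nat_lit 5) (nat_lit 5) (nat_lit 5) (nat_lit 4) (nat_lit 346) (nat_lit 266) (nat_lit 108)) (XT.lf (nat_lit 0) (nat_lit 29633280359) (nat_lit 76) (nat_lit 175599091705) (nat_lit 76) (nat_lit 76604655165) (nat_lit 4) (nat_lit 4) (nat_lit 5) (nat_lit 5) (nat_lit 5) (nat_lit 4) (nat_lit 347) (nat_lit 266) (nat_lit 107))) (XT.nd (nat_lit 78) (nat_lit 0) (nat_lit 0) (XT.lf (nat_lit 0) (nat_lit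 60249642789) (nat_lit 76) (nat_lit 166908547931) (nat_lit 76) (nat_lit 67912095446) (nat_lit 4) (nat_lit 4) (nat_lit 5) (nat_lit 5) (nat_lit 5) (nat_lit 4) (nat_lit 348) (nat_lit 266) (nat_lit 106)) (XT.lf (nat_lit 0) (nat_lit 92395666444) (nat_lit 76) (nat_lit 157783974067) (nat_lit 76) (nat_lit 58785601634) (nat_lit 4) (nat_lit 4) (nat_lit 5) (nat_lit 5) (nat_lit 5) (nat_lit 4) (nat_lit 349) (nat_lit 266) (nat_lit 105)))) (XT.nd (nat_lit 31044) (nat_lit 0) (nat_lit 4940) (XT.nd (nat_lit 78) (nat_lit 0) (nat_lit 0) (XT.lf (nat_lit 0) (nat_lit 126147889474) (nat_lit 76) (nat_lit 148203644936) (nat_lit 76) (nat_lit 49203443982) (nat_lit 4) (nat_lit 4) (nat_lit 5) (nat_lit 5) (nat_lit 5) (nat_lit 4) (nat_lit 350) (nat_lit 266) (nat_lit 104)) (XT.lf (nat_lit 0) (nat_lit 161586674315) (nat_lit 76) (nat_lit 138144750231) (nat_lit 76) (nat_lit 39142807828) (nat_lit 4) (nat_lit 4) (nat_lit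 5) (nat_lit 5) (nat_lit 5) (nat_lit 4) (nat_lit 351) (nat_lit 266) (nat_lit 103))) (XT.nd (nat_lit 78) (nat_lit 0) (nat_lit 0) (XT.lf (nat_lit 0) (nat_lit 7272777405) (nat_lit 684) (nat_lit 254043768) (nat_lit 684) (nat_lit 254043768) (nat_lit 69) (nat_lit 3) (nat_lit 78) (nat_lit 3) (nat_lit 78) (nat_lit 5) (nat_lit 267) (nat_lit 267) (nat_lit 186)) (XT.nd (nat_lit 78) (nat_lit 0) (nat_lit 0) (XT.lf (nat_lit 76) (nat_lit 6055758832) (nat_lit 0) (nat_lit 9187276025) (nat_lit 684) (nat_lit 689901242) (nat_lit 70) (nat_lit 5) (nat_lit 69) (nat_lit 3) (nat_lit 78) (nat_lit 5) (nat_lit 268) (nat_lit 267) (nat_lit 185)) (XT.lf (nat_lit 76) (nat_lit 12957091574) (nat_lit 0) (nat_lit 3011453950) (nat_lit 684) (nat_lit 354572562) (nat_lit 70) (nat_lit 5) (nat_lit 69) (nat_lit 3) (nat_lit 78) (nat_lit 5) (nat_lit 269) (nat_lit 267) (nat_lit 184)))))) (XT.nd (nat_lit 312) (nat_lit 0) (nat_lit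 76) (XT.nd (nat_lit 156) (nat_lit 0) (nat_lit 0) (XT.nd (nat_lit 78) (nat_lit 0) (nat_lit 0) (XT.lf (nat_lit 0) (nat_lit 93664901) (nat_lit 684) (nat_lit 13209393346) (nat_lit 760) (nat_lit 3425016184) (nat_lit 61) (nat_lit 5) (nat_lit 70) (nat_lit 5) (nat_lit 71) (nat_lit 5) (nat_lit 270) (nat_lit 267) (nat_lit 183)) (XT.lf (nat_lit 0) (nat_lit 645364157) (nat_lit 684) (nat_lit 6351312560) (nat_lit 760) (nat_lit 10151726263) (nat_lit 61) (nat_lit 5) (nat_lit 70) (nat_lit 5) (nat_lit 71) (nat_lit 5) (nat_lit 271) (nat_lit 267) (nat_lit 182))) (XT.nd (nat_lit 78) (nat_lit 0) (nat_lit 76) (XT.lf (nat_lit 76) (nat_lit 868661663) (nat_lit 0) (nat_lit 355889893) (nat_lit 760) (nat_lit 16365261539) (nat_lit 62) (nat_lit 5) (nat_lit 61) (nat_lit 5) (nat_lit 71) (nat_lit 5) (nat_lit 272) (nat_lit 267) (nat_lit 181)) (XT.lf (nat_lit 0) (nat_lit 2032258942) (nat_lit 684) (nat_lit 9492305512)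 (nat_lit 760) (nat_lit 6518808658) (nat_lit 62) (nat_lit 5) (nat_lit 71) (nat_lit 5) (nat_lit 72) (nat_lit 5) (nat_lit 273) (nat_lit 267) (nat_lit 180)))) (XT.nd (nat_lit 156) (nat_lit 0) (nat_lit 76) (XT.nd (nat_lit 78) (nat_lit 0) (nat_lit 76) (XT.lf (nat_lit 0) (nat_lit 2873734362) (nat_lit 684) (nat_lit 1916856807) (nat_lit 760) (nat_lit 13729405520) (nat_lit 62) (nat_lit 5) (nat_lit 71) (nat_lit 5) (nat_lit 72) (nat_lit 5) (nat_lit 274) (nat_lit 267) (nat_lit 179)) (XT.lf (nat_lit 0) (nat_lit 3879907176) (nat_lit 684) (nat_lit 12825351450) (nat_lit 760) (nat_lit 2309113724) (nat_lit 63) (nat_lit 5) (nat_lit 72) (nat_lit 5) (nat_lit 73) (nat_lit 5) (nat_lit 275) (nat_lit 267) (nat_lit 178))) (XT.nd (nat_lit 78) (nat_lit 0) (nat_lit 0) (XT.lf (nat_lit 0) (nat_lit 5036538926) (nat_lit 684) (nat_lit 4853274314) (nat_lit 760) (nat_lit 9638695648) (nat_lit 63) (nat_lit 5) (nat_lit 72)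 (nat_lit 5) (nat_lit 73) (nat_lit 5) (nat_lit 276) (nat_lit 267) (nat_lit 177)) (XT.nd (nat_lit 78) (nat_lit 0) (nat_lit 76) (XT.lf (nat_lit 76) (nat_lit 3624749256) (nat_lit 0) (nat_lit 2672008300) (nat_lit 760) (nat_lit 13769354177) (nat_lit 64) (nat_lit 5) (nat_lit 63) (nat_lit 5) (nat_lit 73) (nat_lit 5) (nat_lit 277) (nat_lit 267) (nat_lit 176)) (XT.lf (nat_lit 0) (nat_lit 7769709876) (nat_lit 684) (nat_lit 8018400802) (nat_lit 76) (nat_lit 4835042900) (nat_lit 64) (nat_lit 5) (nat_lit 73) (nat_lit 5) (nat_lit 65) (nat_lit 5) (nat_lit 278) (nat_lit 267) (nat_lit 175))))))))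
noncomputable def xc192 : XT := (XT.nd (nat_lit 1326) (nat_lit 1216) (nat_lit 0) (XT.nd (nat_lit 624) (nat_lit 760) (nat_lit 0) (XT.nd (nat_lit 312) (nat_lit 608) (nat_lit 0) (XT.nd (nat_lit 156) (nat_lit 304) (nat_lit 0) (XT.nd (nat_lit 78) (nat_lit 0) (nat_lit 0) (XT.lf (nat_lit 0) (nat_lit 798776239) (nat_lit 684) (nat_lit 8563880175) (nat_lit 760) (nat_lit 11843116623) (nat_lit 55) (nat_lit 5) (nat_lit 64) (nat_lit 5) (nat_lit 65) (nat_lit 5) (nat_lit 279) (nat_lit 267) (nat_lit 174)) (XT.lf (nat_lit 0) (nat_lit 10326638016) (nat_lit 684) (nat_lit 834819008) (nat_lit 760) (nat_lit 10649796920) (nat_lit 55) (nat_lit 5) (nat_lit 64) (nat_lit 5) (nat_lit 65) (nat_lit 5) (nat_lit 280) (nat_lit 267) (nat_lit 173))) (XT.nd (nat_lit 78) (nat_lit 304) (nat_lit 0) (XT.lf (nat_lit 0) (nat_lit 13154752948) (nat_lit 760) (nat_lit 2238446433) (nat_lit 76) (nat_lit 7048620621) (nat_lit 55) (nat_lit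 5) (nat_lit 65) (nat_lit 5) (nat_lit 56) (nat_lit 5) (nat_lit 281) (nat_lit 267) (nat_lit 172)) (XT.lf (nat_lit 0) (nat_lit 7694367742) (nat_lit 304) (nat_lit 7678479485) (nat_lit 380) (nat_lit 7724847474) (nat_lit 51) (nat_lit 5) (nat_lit 55) (nat_lit 5) (nat_lit 56) (nat_lit 5) (nat_lit 282) (nat_lit 267) (nat_lit 171)))) (XT.nd (nat_lit 156) (nat_lit 304) (nat_lit 0) (XT.nd (nat_lit 78) (nat_lit 304) (nat_lit 0) (XT.lf (nat_lit 0) (nat_lit 17738573657) (nat_lit 380) (nat_lit 5598713460) (nat_lit 76) (nat_lit 447274902) (nat_lit 51) (nat_lit 5) (nat_lit 56) (nat_lit 5) (nat_lit 52) (nat_lit 5) (nat_lit 283) (nat_lit 267) (nat_lit 170)) (XT.lf (nat_lit 0) (nat_lit 4712932984) (nat_lit 304) (nat_lit 15701120385) (nat_lit 380) (nat_lit 4082179561) (nat_lit 47) (nat_lit 5) (nat_lit 51) (nat_lit 5) (nat_lit 52) (nat_lit 5) (nat_lit 284) (nat_lit 267) (nat_lit 169))) (XT.nd (nat_lit 78)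 (nat_lit 304) (nat_lit 0) (XT.lf (nat_lit 0) (nat_lit 15726503820) (nat_lit 304) (nat_lit 7583883480) (nat_lit 380) (nat_lit 1928778053) (nat_lit 47) (nat_lit 5) (nat_lit 51) (nat_lit 5) (nat_lit 52) (nat_lit 5) (nat_lit 285) (nat_lit 267) (nat_lit 168)) (XT.lf (nat_lit 0) (nat_lit 349511351) (nat_lit 304) (nat_lit 24733449067) (nat_lit 76) (nat_lit 934660918) (nat_lit 43) (nat_lit 5) (nat_lit 47) (nat_lit 5) (nat_lit 44) (nat_lit 5) (nat_lit 286) (nat_lit 267) (nat_lit 167))))) (XT.nd (nat_lit 312) (nat_lit 456) (nat_lit 0) (XT.nd (nat_lit 156) (nat_lit 304) (nat_lit 0) (XT.nd (nat_lit 78) (nat_lit 0) (nat_lit 0) (XT.lf (nat_lit 0) (nat_lit 2957673750) (nat_lit 304) (nat_lit 14042608938) (nat_lit 76) (nat_lit 9819125182) (nat_lit 43) (nat_lit 5) (nat_lit 47) (nat_lit 5) (nat_lit 44) (nat_lit 5) (nat_lit 287) (nat_lit 267) (nat_lit 166)) (XT.lf (nat_lit 0) (nat_lit 5689301050) (nat_lit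 304) (nat_lit 2825020621) (nat_lit 76) (nat_lit 19147335528) (nat_lit 43) (nat_lit 5) (nat_lit 47) (nat_lit 5) (nat_lit 44) (nat_lit 5) (nat_lit 288) (nat_lit 267) (nat_lit 165))) (XT.nd (nat_lit 78) (nat_lit 0) (nat_lit 0) (XT.lf (nat_lit 0) (nat_lit 8703722309) (nat_lit 380) (nat_lit 19305874212) (nat_lit 76) (nat_lit 529136898) (nat_lit 39) (nat_lit 5) (nat_lit 44) (nat_lit 5) (nat_lit 40) (nat_lit 5) (nat_lit 289) (nat_lit 267) (nat_lit 164)) (XT.lf (nat_lit 0) (nat_lit 12050645441) (nat_lit 380) (nat_lit 7613556785) (nat_lit 76) (nat_lit 9786396047) (nat_lit 39) (nat_lit 5) (nat_lit 44) (nat_lit 5) (nat_lit 40) (nat_lit 5) (nat_lit 290) (nat_lit 267) (nat_lit 163)))) (XT.nd (nat_lit 156) (nat_lit 228) (nat_lit 0) (XT.nd (nat_lit 78) (nat_lit 0) (nat_lit 0) (XT.lf (nat_lit 0) (nat_lit 4810058426) (nat_lit 228) (nat_lit 10823835140) (nat_lit 304) (nat_lit 14770736587) (nat_lit 36)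 (nat_lit 5) (nat_lit 39) (nat_lit 5) (nat_lit 40) (nat_lit 5) (nat_lit 291) (nat_lit 267) (nat_lit 162)) (XT.lf (nat_lit 0) (nat_lit 18112027159) (nat_lit 228) (nat_lit 1407276288) (nat_lit 304) (nat_lit 11880931855) (nat_lit 36) (nat_lit 5) (nat_lit 39) (nat_lit 5) (nat_lit 40) (nat_lit 5) (nat_lit 292) (nat_lit 267) (nat_lit 161))) (XT.nd (nat_lit 78) (nat_lit 228) (nat_lit 0) (XT.lf (nat_lit 0) (nat_lit 23725707016) (nat_lit 304) (nat_lit 506022237) (nat_lit 76) (nat_lit 8207575911) (nat_lit 36) (nat_lit 5) (nat_lit 40) (nat_lit 5) (nat_lit 37) (nat_lit 5) (nat_lit 293) (nat_lit 267) (nat_lit 160)) (XT.nd (nat_lit 78) (nat_lit 0) (nat_lit 0) (XT.lf (nat_lit 0) (nat_lit 13311494224) (nat_lit 228) (nat_lit 15056431515) (nat_lit 304) (nat_lit 5151147660) (nat_lit 33) (nat_lit 5) (nat_lit 36) (nat_lit 5) (nat_lit 37) (nat_lit 5) (nat_lit 294) (nat_lit 267) (nat_lit 159)) (XT.lf (nat_lit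 0) (nat_lit 27830803900) (nat_lit 228) (nat_lit 5414769916) (nat_lit 304) (nat_lit 1407109007) (nat_lit 33) (nat_lit 5) (nat_lit 36) (nat_lit 5) (nat_lit 37) (nat_lit 5) (nat_lit 295) (nat_lit 267) (nat_lit 158))))))) (XT.nd (nat_lit 624) (nat_lit 532) (nat_lit 0) (XT.nd (nat_lit 312) (nat_lit 152) (nat_lit 0) (XT.nd (nat_lit 156) (nat_lit 228) (nat_lit 0) (XT.nd (nat_lit 78) (nat_lit 0) (nat_lit 0) (XT.lf (nat_lit 0) (nat_lit 2630209903) (nat_lit 304) (nat_lit 28486704030) (nat_lit 76) (nat_lit 4714761990) (nat_lit 29) (nat_lit 5) (nat_lit 33) (nat_lit 5) (nat_lit 30) (nat_lit 5) (nat_lit 296) (nat_lit 267) (nat_lit 157)) (XT.lf (nat_lit 0) (nat_lit 7023318691) (nat_lit 304) (nat_lit 14727220261) (nat_lit 76) (nat_lit 15307881907) (nat_lit 29) (nat_lit 5) (nat_lit 33) (nat_lit 5) (nat_lit 30) (nat_lit 5) (nat_lit 297) (nat_lit 267) (nat_lit 156))) (XT.nd (nat_lit 78) (nat_lit 228)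 (nat_lit 0) (XT.lf (nat_lit 0) (nat_lit 11631339600) (nat_lit 304) (nat_lit 286100982) (nat_lit 76) (nat_lit 26429315007) (nat_lit 29) (nat_lit 5) (nat_lit 33) (nat_lit 5) (nat_lit 30) (nat_lit 5) (nat_lit 298) (nat_lit 267) (nat_lit 155)) (XT.lf (nat_lit 0) (nat_lit 15362741079) (nat_lit 228) (nat_lit 1342358473) (nat_lit 304) (nat_lit 22982655254) (nat_lit 26) (nat_lit 5) (nat_lit 29) (nat_lit 5) (nat_lit 30) (nat_lit 5) (nat_lit 299) (nat_lit 267) (nat_lit 154)))) (XT.nd (nat_lit 156) (nat_lit 0) (nat_lit 0) (XT.nd (nat_lit 78) (nat_lit 152) (nat_lit 0) (XT.lf (nat_lit 0) (nat_lit 22185457042) (nat_lit 304) (nat_lit 9450236213) (nat_lit 76) (nat_lit 9452479203) (nat_lit 26) (nat_lit 5) (nat_lit 30) (nat_lit 5) (nat_lit 27) (nat_lit 5) (nat_lit 300) (nat_lit 267) (nat_lit 153)) (XT.lf (nat_lit 0) (nat_lit 6343448004) (nat_lit 152) (nat_lit 21713220543) (nat_lit 228) (nat_lit 14496113926)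 (nat_lit 24) (nat_lit 5) (nat_lit 26) (nat_lit 5) (nat_lit 27) (nat_lit 5) (nat_lit 301) (nat_lit 267) (nat_lit 152))) (XT.nd (nat_lit 78) (nat_lit 0) (nat_lit 0) (XT.lf (nat_lit 0) (nat_lit 23249145501) (nat_lit 152) (nat_lit 11128241171) (nat_lit 228) (nat_lit 9705451668) (nat_lit 24) (nat_lit 5) (nat_lit 26) (nat_lit 5) (nat_lit 27) (nat_lit 5) (nat_lit 302) (nat_lit 267) (nat_lit 151)) (XT.lf (nat_lit 0) (nat_lit 40994640452) (nat_lit 152) (nat_lit 15597130) (nat_lit 228) (nat_lit 4679366628) (nat_lit 24) (nat_lit 5) (nat_lit 26) (nat_lit 5) (nat_lit 27) (nat_lit 5) (nat_lit 303) (nat_lit 267) (nat_lit 150))))) (XT.nd (nat_lit 312) (nat_lit 152) (nat_lit 0) (XT.nd (nat_lit 156) (nat_lit 152) (nat_lit 0) (XT.nd (nat_lit 78) (nat_lit 0) (nat_lit 0) (XT.lf (nat_lit 0) (nat_lit 957742583) (nat_lit 228) (nat_lit 34911288859) (nat_lit 76) (nat_lit 11488278003) (nat_lit 21) (nat_lit 5)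 (nat_lit 24) (nat_lit 5) (nat_lit 22) (nat_lit 5) (nat_lit 304) (nat_lit 267) (nat_lit 149)) (XT.lf (nat_lit 0) (nat_lit 6796804516) (nat_lit 228) (nat_lit 18581087846) (nat_lit 76) (nat_lit 23722814710) (nat_lit 21) (nat_lit 5) (nat_lit 24) (nat_lit 5) (nat_lit 22) (nat_lit 5) (nat_lit 305) (nat_lit 267) (nat_lit 148))) (XT.nd (nat_lit 78) (nat_lit 152) (nat_lit 0) (XT.lf (nat_lit 0) (nat_lit 12924280522) (nat_lit 228) (nat_lit 1439563527) (nat_lit 76) (nat_lit 36567617399) (nat_lit 21) (nat_lit 5) (nat_lit 24) (nat_lit 5) (nat_lit 22) (nat_lit 5) (nat_lit 306) (nat_lit 267) (nat_lit 147)) (XT.lf (nat_lit 0) (nat_lit 17101450465) (nat_lit 152) (nat_lit 2520310930) (nat_lit 228) (nat_lit 33218820036) (nat_lit 19) (nat_lit 5) (nat_lit 21) (nat_lit 5) (nat_lit 22) (nat_lit 5) (nat_lit 307) (nat_lit 267) (nat_lit 146)))) (XT.nd (nat_lit 156) (nat_lit 152) (nat_lit 0) (XT.nd (nat_lit 78)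 (nat_lit 0) (nat_lit 0) (XT.lf (nat_lit 0) (nat_lit 26830392393) (nat_lit 228) (nat_lit 18384660501) (nat_lit 76) (nat_lit 9621299710) (nat_lit 19) (nat_lit 5) (nat_lit 22) (nat_lit 5) (nat_lit 20) (nat_lit 5) (nat_lit 308) (nat_lit 267) (nat_lit 145)) (XT.lf (nat_lit 0) (nat_lit 34437618696) (nat_lit 228) (nat_lit 208553364) (nat_lit 76) (nat_lit 22283840652) (nat_lit 19) (nat_lit 5) (nat_lit 22) (nat_lit 5) (nat_lit 20) (nat_lit 5) (nat_lit 309) (nat_lit 267) (nat_lit 144))) (XT.nd (nat_lit 78) (nat_lit 0) (nat_lit 0) (XT.lf (nat_lit 0) (nat_lit 19495803471) (nat_lit 152) (nat_lit 23230784289) (nat_lit 228) (nat_lit 16386707150) (nat_lit 17) (nat_lit 5) (nat_lit 19) (nat_lit 5) (nat_lit 20) (nat_lit 5) (nat_lit 310) (nat_lit 267) (nat_lit 143)) (XT.nd (nat_lit 78) (nat_lit 0) (nat_lit 0) (XT.lf (nat_lit 0) (nat_lit 40188148803) (nat_lit 152) (nat_lit 11242458943) (nat_lit 228) (nat_lit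 9975111118) (nat_lit 17) (nat_lit 5) (nat_lit 19) (nat_lit 5) (nat_lit 20) (nat_lit 5) (nat_lit 311) (nat_lit 267) (nat_lit 142)) (XT.lf (nat_lit 0) (nat_lit 60588019476) (nat_lit 228) (nat_lit 1923037237) (nat_lit 76) (nat_lit 1300805164) (nat_lit 17) (nat_lit 5) (nat_lit 20) (nat_lit 5) (nat_lit 18) (nat_lit 4) (nat_lit 312) (nat_lit 267) (nat_lit 141))))))))
noncomputable def xc193 : XT := (XT.nd (nat_lit 1326) (nat_lit 304) (nat_lit 0) (XT.nd (nat_lit 624) (nat_lit 304) (nat_lit 0) (XT.nd (nat_lit 312) (nat_lit 76) (nat_lit 0) (XT.nd (nat_lit 156) (nat_lit 152) (nat_lit 0) (XT.nd (nat_lit 78) (nat_lit 0) (nat_lit 0) (XT.lf (nat_lit 0) (nat_lit 4223384272) (nat_lit 152) (nat_lit 47634927995) (nat_lit 76) (nat_lit 14452884402) (nat_lit 15) (nat_lit 5) (nat_lit 17) (nat_lit 5) (nat_lit 16) (nat_lit 5) (nat_lit 313) (nat_lit 267) (nat_lit 140)) (XT.lf (nat_lit 0) (nat_lit 11965066659)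 (nat_lit 152) (nat_lit 28619149779) (nat_lit 76) (nat_lit 28347123829) (nat_lit 15) (nat_lit 5) (nat_lit 17) (nat_lit 5) (nat_lit 16) (nat_lit 5) (nat_lit 314) (nat_lit 267) (nat_lit 139))) (XT.nd (nat_lit 78) (nat_lit 152) (nat_lit 0) (XT.lf (nat_lit 0) (nat_lit 20091295225) (nat_lit 152) (nat_lit 8656582250) (nat_lit 76) (nat_lit 42934746554) (nat_lit 15) (nat_lit 5) (nat_lit 17) (nat_lit 5) (nat_lit 16) (nat_lit 5) (nat_lit 315) (nat_lit 267) (nat_lit 138)) (XT.lf (nat_lit 0) (nat_lit 12707008128) (nat_lit 152) (nat_lit 16112802012) (nat_lit 228) (nat_lit 45741868890) (nat_lit 13) (nat_lit 5) (nat_lit 15) (nat_lit 5) (nat_lit 16) (nat_lit 5) (nat_lit 316) (nat_lit 267) (nat_lit 137)))) (XT.nd (nat_lit 156) (nat_lit 76) (nat_lit 0) (XT.nd (nat_lit 78) (nat_lit 0) (nat_lit 0) (XT.lf (nat_lit 0) (nat_lit 35435567312) (nat_lit 152) (nat_lit 2693426400) (nat_lit 228) (nat_lit 39448486446)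 (nat_lit 13) (nat_lit 5) (nat_lit 15) (nat_lit 5) (nat_lit 16) (nat_lit 5) (nat_lit 317) (nat_lit 267) (nat_lit 136)) (XT.lf (nat_lit 0) (nat_lit 48079305571) (nat_lit 228) (nat_lit 21625120995) (nat_lit 76) (nat_lit 11030866577) (nat_lit 13) (nat_lit 5) (nat_lit 16) (nat_lit 5) (nat_lit 14) (nat_lit 4) (nat_lit 318) (nat_lit 267) (nat_lit 135))) (XT.nd (nat_lit 78) (nat_lit 76) (nat_lit 0) (XT.lf (nat_lit 0) (nat_lit 58569126867) (nat_lit 228) (nat_lit 130135776) (nat_lit 76) (nat_lit 25349639452) (nat_lit 13) (nat_lit 5) (nat_lit 16) (nat_lit 5) (nat_lit 14) (nat_lit 4) (nat_lit 319) (nat_lit 267) (nat_lit 134)) (XT.lf (nat_lit 0) (nat_lit 23178117800) (nat_lit 76) (nat_lit 46765139005) (nat_lit 152) (nat_lit 17566948579) (nat_lit 12) (nat_lit 5) (nat_lit 13) (nat_lit 5) (nat_lit 14) (nat_lit 4) (nat_lit 320) (nat_lit 267) (nat_lit 133))))) (XT.nd (nat_lit 312) (nat_lit 76) (nat_lit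 0) (XT.nd (nat_lit 156) (nat_lit 228) (nat_lit 0) (XT.nd (nat_lit 78) (nat_lit 0) (nat_lit 0) (XT.lf (nat_lit 0) (nat_lit 47653030290) (nat_lit 76) (nat_lit 34233255974) (nat_lit 152) (nat_lit 9258282464) (nat_lit 12) (nat_lit 5) (nat_lit 13) (nat_lit 5) (nat_lit 14) (nat_lit 4) (nat_lit 321) (nat_lit 267) (nat_lit 132)) (XT.lf (nat_lit 0) (nat_lit 73348572418) (nat_lit 76) (nat_lit 21075979647) (nat_lit 152) (nat_lit 536198258) (nat_lit 12) (nat_lit 5) (nat_lit 13) (nat_lit 5) (nat_lit 14) (nat_lit 4) (nat_lit 322) (nat_lit 267) (nat_lit 131))) (XT.nd (nat_lit 78) (nat_lit 0) (nat_lit 0) (XT.lf (nat_lit 0) (nat_lit 1263958842) (nat_lit 152) (nat_lit 7099949901) (nat_lit 228) (nat_lit 90596211700) (nat_lit 9) (nat_lit 5) (nat_lit 11) (nat_lit 5) (nat_lit 12) (nat_lit 5) (nat_lit 323) (nat_lit 267) (nat_lit 130)) (XT.lf (nat_lit 0) (nat_lit 18179445160) (nat_lit 228) (nat_lit 77243045800)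 (nat_lit 76) (nat_lit 7712110148) (nat_lit 9) (nat_lit 5) (nat_lit 12) (nat_lit 5) (nat_lit 10) (nat_lit 4) (nat_lit 324) (nat_lit 267) (nat_lit 129)))) (XT.nd (nat_lit 156) (nat_lit 76) (nat_lit 0) (XT.nd (nat_lit 78) (nat_lit 0) (nat_lit 0) (XT.lf (nat_lit 0) (nat_lit 28600404179) (nat_lit 228) (nat_lit 55886581435) (nat_lit 76) (nat_lit 23025091462) (nat_lit 9) (nat_lit 5) (nat_lit 12) (nat_lit 5) (nat_lit 10) (nat_lit 4) (nat_lit 325) (nat_lit 267) (nat_lit 128)) (XT.lf (nat_lit 0) (nat_lit 39540747490) (nat_lit 228) (nat_lit 33465069668) (nat_lit 76) (nat_lit 39102696255) (nat_lit 9) (nat_lit 5) (nat_lit 12) (nat_lit 5) (nat_lit 10) (nat_lit 4) (nat_lit 326) (nat_lit 267) (nat_lit 127))) (XT.nd (nat_lit 78) (nat_lit 76) (nat_lit 0) (XT.lf (nat_lit 0) (nat_lit 51026523532) (nat_lit 228) (nat_lit 9925125947) (nat_lit 76) (nat_lit 55983204540) (nat_lit 9) (nat_lit 5) (nat_lit 12)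 (nat_lit 5) (nat_lit 10) (nat_lit 4) (nat_lit 327) (nat_lit 267) (nat_lit 126)) (XT.nd (nat_lit 78) (nat_lit 0) (nat_lit 0) (XT.lf (nat_lit 0) (nat_lit 15278298169) (nat_lit 76) (nat_lit 48045318272) (nat_lit 152) (nat_lit 58667046885) (nat_lit 8) (nat_lit 5) (nat_lit 9) (nat_lit 5) (nat_lit 10) (nat_lit 4) (nat_lit 328) (nat_lit 267) (nat_lit 125)) (XT.lf (nat_lit 0) (nat_lit 42083994315) (nat_lit 76) (nat_lit 34318180686) (nat_lit 152) (nat_lit 50888760475) (nat_lit 8) (nat_lit 5) (nat_lit 9) (nat_lit 5) (nat_lit 10) (nat_lit 4) (nat_lit 329) (nat_lit 267) (nat_lit 124))))))) (XT.nd (nat_lit 702) (nat_lit 152) (nat_lit 0) (XT.nd (nat_lit 312) (nat_lit 76) (nat_lit 0) (XT.nd (nat_lit 156) (nat_lit 76) (nat_lit 0) (XT.nd (nat_lit 78) (nat_lit 0) (nat_lit 0) (XT.lf (nat_lit 0) (nat_lit 70227616089) (nat_lit 76) (nat_lit 19905639870) (nat_lit 152) (nat_lit 42723038338) (nat_lit 8) (nat_lit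 5) (nat_lit 9) (nat_lit 5) (nat_lit 10) (nat_lit 4) (nat_lit 330) (nat_lit 267) (nat_lit 123)) (XT.lf (nat_lit 0) (nat_lit 99776172115) (nat_lit 76) (nat_lit 4773380253) (nat_lit 152) (nat_lit 34150438279) (nat_lit 8) (nat_lit 5) (nat_lit 9) (nat_lit 5) (nat_lit 10) (nat_lit 4) (nat_lit 331) (nat_lit 267) (nat_lit 122))) (XT.nd (nat_lit 78) (nat_lit 76) (nat_lit 0) (XT.lf (nat_lit 0) (nat_lit 119858919223) (nat_lit 152) (nat_lit 14209452470) (nat_lit 0) (nat_lit 10758889868) (nat_lit 8) (nat_lit 5) (nat_lit 10) (nat_lit 4) (nat_lit 8) (nat_lit 4) (nat_lit 332) (nat_lit 267) (nat_lit 121)) (XT.lf (nat_lit 0) (nat_lit 12045833455) (nat_lit 76) (nat_lit 124153015308) (nat_lit 76) (nat_lit 15048794949) (nat_lit 7) (nat_lit 4) (nat_lit 8) (nat_lit 5) (nat_lit 8) (nat_lit 4) (nat_lit 333) (nat_lit 267) (nat_lit 120)))) (XT.nd (nat_lit 156) (nat_lit 0) (nat_lit 0) (XT.nd (nat_lit 78) (nat_lit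 76) (nat_lit 0) (XT.lf (nat_lit 0) (nat_lit 40105149260) (nat_lit 76) (nat_lit 113490068817) (nat_lit 76) (nat_lit 4381857024) (nat_lit 7) (nat_lit 4) (nat_lit 8) (nat_lit 5) (nat_lit 8) (nat_lit 4) (nat_lit 334) (nat_lit 267) (nat_lit 119)) (XT.lf (nat_lit 0) (nat_lit 6599031180) (nat_lit 152) (nat_lit 95583999237) (nat_lit 76) (nat_lit 62854685203) (nat_lit 6) (nat_lit 5) (nat_lit 8) (nat_lit 5) (nat_lit 7) (nat_lit 4) (nat_lit 335) (nat_lit 267) (nat_lit 118))) (XT.nd (nat_lit 78) (nat_lit 0) (nat_lit 0) (XT.lf (nat_lit 0) (nat_lit 17980595766) (nat_lit 152) (nat_lit 72255412182) (nat_lit 76) (nat_lit 82211845956) (nat_lit 6) (nat_lit 5) (nat_lit 8) (nat_lit 5) (nat_lit 7) (nat_lit 4) (nat_lit 336) (nat_lit 267) (nat_lit 117)) (XT.nd (nat_lit 78) (nat_lit 0) (nat_lit 0) (XT.lf (nat_lit 0) (nat_lit 29930182487) (nat_lit 152) (nat_lit 47762207354) (nat_lit 76) (nat_lit 102536163954)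 (nat_lit 6) (nat_lit 5) (nat_lit 8) (nat_lit 5) (nat_lit 7) (nat_lit 4) (nat_lit 337) (nat_lit 267) (nat_lit 116)) (XT.lf (nat_lit 0) (nat_lit 42476242739) (nat_lit 152) (nat_lit 22046067599) (nat_lit 76) (nat_lit 123876030430) (nat_lit 6) (nat_lit 5) (nat_lit 8) (nat_lit 5) (nat_lit 7) (nat_lit 4) (nat_lit 338) (nat_lit 267) (nat_lit 115)))))) (XT.nd (nat_lit 312) (nat_lit 76) (nat_lit 0) (XT.nd (nat_lit 156) (nat_lit 0) (nat_lit 0) (XT.nd (nat_lit 78) (nat_lit 0) (nat_lit 0) (XT.lf (nat_lit 0) (nat_lit 5118045404) (nat_lit 76) (nat_lit 50610509723) (nat_lit 152) (nat_lit 141244116219) (nat_lit 5) (nat_lit 5) (nat_lit 6) (nat_lit 5) (nat_lit 7) (nat_lit 4) (nat_lit 339) (nat_lit 267) (nat_lit 114)) (XT.lf (nat_lit 0) (nat_lit 34404137089) (nat_lit 76) (nat_lit 35611769332) (nat_lit 152) (nat_lit 135941192496) (nat_lit 5) (nat_lit 5) (nat_lit 6) (nat_lit 5) (nat_lit 7) (nat_lit 4)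 (nat_lit 340) (nat_lit 267) (nat_lit 113))) (XT.nd (nat_lit 78) (nat_lit 0) (nat_lit 0) (XT.lf (nat_lit 0) (nat_lit 65152993689) (nat_lit 76) (nat_lit 19863738701) (nat_lit 152) (nat_lit 130374061676) (nat_lit 5) (nat_lit 5) (nat_lit 6) (nat_lit 5) (nat_lit 7) (nat_lit 4) (nat_lit 341) (nat_lit 267) (nat_lit 112)) (XT.lf (nat_lit 0) (nat_lit 97437826767) (nat_lit 76) (nat_lit 3328922519) (nat_lit 152) (nat_lit 124529468683) (nat_lit 5) (nat_lit 5) (nat_lit 6) (nat_lit 5) (nat_lit 7) (nat_lit 4) (nat_lit 342) (nat_lit 267) (nat_lit 111)))) (XT.nd (nat_lit 156) (nat_lit 76) (nat_lit 0) (XT.nd (nat_lit 78) (nat_lit 0) (nat_lit 0) (XT.lf (nat_lit 0) (nat_lit 117522536741) (nat_lit 152) (nat_lit 104580529589) (nat_lit 0) (nat_lit 13582934661) (nat_lit 5) (nat_lit 5) (nat_lit 7) (nat_lit 4) (nat_lit 5) (nat_lit 4) (nat_lit 343) (nat_lit 267) (nat_lit 110)) (XT.lf (nat_lit 0) (nat_lit 135169906033)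 (nat_lit 152) (nat_lit 80194708603) (nat_lit 0) (nat_lit 31227970244) (nat_lit 5) (nat_lit 5) (nat_lit 7) (nat_lit 4) (nat_lit 5) (nat_lit 4) (nat_lit 344) (nat_lit 267) (nat_lit 109))) (XT.nd (nat_lit 78) (nat_lit 76) (nat_lit 0) (XT.lf (nat_lit 0) (nat_lit 153698900899) (nat_lit 152) (nat_lit 54590892958) (nat_lit 0) (nat_lit 49754742531) (nat_lit 5) (nat_lit 5) (nat_lit 7) (nat_lit 4) (nat_lit 5) (nat_lit 4) (nat_lit 345) (nat_lit 267) (nat_lit 108)) (XT.nd (nat_lit 78) (nat_lit 76) (nat_lit 0) (XT.lf (nat_lit 0) (nat_lit 173153637992) (nat_lit 152) (nat_lit 27708121186) (nat_lit 0) (nat_lit 69207362883) (nat_lit 5) (nat_lit 5) (nat_lit 7) (nat_lit 4) (nat_lit 5) (nat_lit 4) (nat_lit 346) (nat_lit 267) (nat_lit 107)) (XT.lf (nat_lit 0) (nat_lit 534727944) (nat_lit 76) (nat_lit 193054058775) (nat_lit 76) (nat_lit 89105767721) (nat_lit 4) (nat_lit 4) (nat_lit 5) (nat_lit 5) (nat_lit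 5) (nat_lit 4) (nat_lit 347) (nat_lit 267) (nat_lit 106))))))))
noncomputable def xc194 : XT := (XT.nd (nat_lit 32292) (nat_lit 0) (nat_lit 1900) (XT.nd (nat_lit 31590) (nat_lit 0) (nat_lit 3876) (XT.nd (nat_lit 31278) (nat_lit 0) (nat_lit 4256) (XT.nd (nat_lit 156) (nat_lit 0) (nat_lit 0) (XT.nd (nat_lit 78) (nat_lit 0) (nat_lit 0) (XT.lf (nat_lit 0) (nat_lit 31150526034) (nat_lit 76) (nat_lit 184363757488) (nat_lit 76) (nat_lit 80413546486) (nat_lit 4) (nat_lit 4) (nat_lit 5) (nat_lit 5) (nat_lit 5) (nat_lit 4) (nat_lit 348) (nat_lit 267) (nat_lit 105)) (XT.lf (nat_lit 0) (nat_lit 63296012221) (nat_lit 76) (nat_lit 175239414563) (nat_lit 76) (nat_lit 71287375040) (nat_lit 4) (nat_lit 4) (nat_lit 5) (nat_lit 5) (nat_lit 5) (nat_lit 4) (nat_lit 349) (nat_lit 267) (nat_lit 104))) (XT.nd (nat_lit 78) (nat_lit 0) (nat_lit 0) (XT.lf (nat_lit 0) (nat_lit 97047723378) (nat_lit 76) (nat_lit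 165659305375) (nat_lit 76) (nat_lit 61705524403) (nat_lit 4) (nat_lit 4) (nat_lit 5) (nat_lit 5) (nat_lit 5) (nat_lit 4) (nat_lit 350) (nat_lit 267) (nat_lit 103)) (XT.lf (nat_lit 0) (nat_lit 132486020721) (nat_lit 76) (nat_lit 155600620140) (nat_lit 76) (nat_lit 51645180645) (nat_lit 4) (nat_lit 4) (nat_lit 5) (nat_lit 5) (nat_lit 5) (nat_lit 4) (nat_lit 351) (nat_lit 267) (nat_lit 102)))) (XT.nd (nat_lit 156) (nat_lit 684) (nat_lit 0) (XT.nd (nat_lit 78) (nat_lit 0) (nat_lit 0) (XT.lf (nat_lit 0) (nat_lit 7871974039) (nat_lit 684) (nat_lit 142514582) (nat_lit 684) (nat_lit 142514582) (nat_lit 69) (nat_lit 3) (nat_lit 78) (nat_lit 3) (nat_lit 78) (nat_lit 5) (nat_lit 268) (nat_lit 268) (nat_lit 184)) (XT.lf (nat_lit 76) (nat_lit 6603002060) (nat_lit 0) (nat_lit 9854682627) (nat_lit 684) (nat_lit 247126460) (nat_lit 70) (nat_lit 5) (nat_lit 69) (nat_lit 3) (nat_lit 78) (nat_lit 5)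 (nat_lit 269) (nat_lit 268) (nat_lit 183))) (XT.nd (nat_lit 78) (nat_lit 0) (nat_lit 76) (XT.lf (nat_lit 0) (nat_lit 79609276) (nat_lit 684) (nat_lit 3279205150) (nat_lit 760) (nat_lit 13756803213) (nat_lit 60) (nat_lit 5) (nat_lit 69) (nat_lit 3) (nat_lit 70) (nat_lit 5) (nat_lit 270) (nat_lit 268) (nat_lit 182)) (XT.lf (nat_lit 0) (nat_lit 518447607) (nat_lit 684) (nat_lit 13598803416) (nat_lit 760) (nat_lit 3424367625) (nat_lit 61) (nat_lit 5) (nat_lit 70) (nat_lit 5) (nat_lit 71) (nat_lit 5) (nat_lit 271) (nat_lit 268) (nat_lit 181))))) (XT.nd (nat_lit 312) (nat_lit 456) (nat_lit 0) (XT.nd (nat_lit 156) (nat_lit 0) (nat_lit 76) (XT.nd (nat_lit 78) (nat_lit 0) (nat_lit 0) (XT.lf (nat_lit 0) (nat_lit 1077727089) (nat_lit 684) (nat_lit 6410726191) (nat_lit 760) (nat_lit 10495598892) (nat_lit 61) (nat_lit 5) (nat_lit 70) (nat_lit 5) (nat_lit 71) (nat_lit 5) (nat_lit 272) (nat_lit 268)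 (nat_lit 180)) (XT.lf (nat_lit 76) (nat_lit 1166083002) (nat_lit 0) (nat_lit 504704195) (nat_lit 760) (nat_lit 16777584035) (nat_lit 62) (nat_lit 5) (nat_lit 61) (nat_lit 5) (nat_lit 71) (nat_lit 5) (nat_lit 273) (nat_lit 268) (nat_lit 179))) (XT.nd (nat_lit 78) (nat_lit 0) (nat_lit 0) (XT.lf (nat_lit 0) (nat_lit 2498598057) (nat_lit 684) (nat_lit 9703143302) (nat_lit 760) (nat_lit 6723962086) (nat_lit 62) (nat_lit 5) (nat_lit 71) (nat_lit 5) (nat_lit 72) (nat_lit 5) (nat_lit 274) (nat_lit 268) (nat_lit 178)) (XT.lf (nat_lit 0) (nat_lit 3364779336) (nat_lit 684) (nat_lit 1761482994) (nat_lit 760) (nat_lit 14300840553) (nat_lit 62) (nat_lit 5) (nat_lit 71) (nat_lit 5) (nat_lit 72) (nat_lit 5) (nat_lit 275) (nat_lit 268) (nat_lit 177)))) (XT.nd (nat_lit 156) (nat_lit 608) (nat_lit 0) (XT.nd (nat_lit 78) (nat_lit 0) (nat_lit 0) (XT.lf (nat_lit 0) (nat_lit 4407212555) (nat_lit 684) (nat_lit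 13199901060) (nat_lit 760) (nat_lit 2339858778) (nat_lit 63) (nat_lit 5) (nat_lit 72) (nat_lit 5) (nat_lit 73) (nat_lit 5) (nat_lit 276) (nat_lit 268) (nat_lit 176)) (XT.lf (nat_lit 0) (nat_lit 5605803987) (nat_lit 684) (nat_lit 4841920922) (nat_lit 760) (nat_lit 10039953637) (nat_lit 63) (nat_lit 5) (nat_lit 72) (nat_lit 5) (nat_lit 73) (nat_lit 5) (nat_lit 277) (nat_lit 268) (nat_lit 175))) (XT.nd (nat_lit 78) (nat_lit 608) (nat_lit 0) (XT.lf (nat_lit 76) (nat_lit 4055906777) (nat_lit 0) (nat_lit 2861912624) (nat_lit 760) (nat_lit 14134968739) (nat_lit 64) (nat_lit 5) (nat_lit 63) (nat_lit 5) (nat_lit 73) (nat_lit 5) (nat_lit 278) (nat_lit 268) (nat_lit 174)) (XT.nd (nat_lit 78) (nat_lit 684) (nat_lit 0) (XT.lf (nat_lit 0) (nat_lit 8449000041) (nat_lit 684) (nat_lit 8164627223) (nat_lit 76) (nat_lit 5024888538) (nat_lit 64) (nat_lit 5) (nat_lit 73) (nat_lit 5) (nat_lit 65) (nat_lit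 5) (nat_lit 279) (nat_lit 268) (nat_lit 173)) (XT.lf (nat_lit 0) (nat_lit 1089300708) (nat_lit 684) (nat_lit 9022357701) (nat_lit 760) (nat_lit 12139164373) (nat_lit 55) (nat_lit 5) (nat_lit 64) (nat_lit 5) (nat_lit 65) (nat_lit 5) (nat_lit 280) (nat_lit 268) (nat_lit 172))))))) (XT.nd (nat_lit 624) (nat_lit 1064) (nat_lit 0) (XT.nd (nat_lit 312) (nat_lit 608) (nat_lit 0) (XT.nd (nat_lit 156) (nat_lit 304) (nat_lit 0) (XT.nd (nat_lit 78) (nat_lit 0) (nat_lit 0) (XT.lf (nat_lit 0) (nat_lit 11081622923) (nat_lit 684) (nat_lit 905401403) (nat_lit 760) (nat_lit 10900279070) (nat_lit 55) (nat_lit 5) (nat_lit 64) (nat_lit 5) (nat_lit 65) (nat_lit 5) (nat_lit 281) (nat_lit 268) (nat_lit 171)) (XT.lf (nat_lit 0) (nat_lit 14066818362) (nat_lit 760) (nat_lit 2108829186) (nat_lit 76) (nat_lit 7374462758) (nat_lit 55) (nat_lit 5) (nat_lit 65) (nat_lit 5) (nat_lit 56) (nat_lit 5) (nat_lit 282)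 (nat_lit 268) (nat_lit 170))) (XT.nd (nat_lit 78) (nat_lit 0) (nat_lit 0) (XT.lf (nat_lit 0) (nat_lit 8316729898) (nat_lit 304) (nat_lit 8070686897) (nat_lit 380) (nat_lit 7851833607) (nat_lit 51) (nat_lit 5) (nat_lit 55) (nat_lit 5) (nat_lit 56) (nat_lit 5) (nat_lit 283) (nat_lit 268) (nat_lit 169)) (XT.lf (nat_lit 0) (nat_lit 18859595558) (nat_lit 380) (nat_lit 5639504247) (nat_lit 76) (nat_lit 462002156) (nat_lit 51) (nat_lit 5) (nat_lit 56) (nat_lit 5) (nat_lit 52) (nat_lit 5) (nat_lit 284) (nat_lit 268) (nat_lit 168)))) (XT.nd (nat_lit 156) (nat_lit 304) (nat_lit 0) (XT.nd (nat_lit 78) (nat_lit 0) (nat_lit 0) (XT.lf (nat_lit 0) (nat_lit 5183867344) (nat_lit 304) (nat_lit 16477508117) (nat_lit 380) (nat_lit 4047401480) (nat_lit 47) (nat_lit 5) (nat_lit 51) (nat_lit 5) (nat_lit 52) (nat_lit 5) (nat_lit 285) (nat_lit 268) (nat_lit 167)) (XT.lf (nat_lit 0) (nat_lit 16736912544) (nat_lit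 304) (nat_lit 7954822142) (nat_lit 380) (nat_lit 1797705472) (nat_lit 47) (nat_lit 5) (nat_lit 51) (nat_lit 5) (nat_lit 52) (nat_lit 5) (nat_lit 286) (nat_lit 268) (nat_lit 166))) (XT.nd (nat_lit 78) (nat_lit 0) (nat_lit 0) (XT.lf (nat_lit 0) (nat_lit 580533223) (nat_lit 304) (nat_lit 25730414099) (nat_lit 76) (nat_lit 996068639) (nat_lit 43) (nat_lit 5) (nat_lit 47) (nat_lit 5) (nat_lit 44) (nat_lit 5) (nat_lit 287) (nat_lit 268) (nat_lit 165)) (XT.lf (nat_lit 0) (nat_lit 3308934870) (nat_lit 304) (nat_lit 14516446603) (nat_lit 76) (nat_lit 10324057322) (nat_lit 43) (nat_lit 5) (nat_lit 47) (nat_lit 5) (nat_lit 44) (nat_lit 5) (nat_lit 288) (nat_lit 268) (nat_lit 164))))) (XT.nd (nat_lit 312) (nat_lit 532) (nat_lit 0) (XT.nd (nat_lit 156) (nat_lit 228) (nat_lit 0) (XT.nd (nat_lit 78) (nat_lit 304) (nat_lit 0) (XT.lf (nat_lit 0) (nat_lit 6167458896) (nat_lit 304) (nat_lit 2748849954)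 (nat_lit 76) (nat_lit 20118012667) (nat_lit 43) (nat_lit 5) (nat_lit 47) (nat_lit 5) (nat_lit 44) (nat_lit 5) (nat_lit 289) (nat_lit 268) (nat_lit 163)) (XT.lf (nat_lit 0) (nat_lit 9327125147) (nat_lit 380) (nat_lit 20047571200) (nat_lit 76) (nat_lit 580863954) (nat_lit 39) (nat_lit 5) (nat_lit 44) (nat_lit 5) (nat_lit 40) (nat_lit 5) (nat_lit 290) (nat_lit 268) (nat_lit 162))) (XT.nd (nat_lit 78) (nat_lit 228) (nat_lit 0) (XT.lf (nat_lit 0) (nat_lit 12832431734) (nat_lit 380) (nat_lit 7781285364) (nat_lit 76) (nat_lit 10299782717) (nat_lit 39) (nat_lit 5) (nat_lit 44) (nat_lit 5) (nat_lit 40) (nat_lit 5) (nat_lit 291) (nat_lit 268) (nat_lit 161)) (XT.lf (nat_lit 0) (nat_lit 5260075941) (nat_lit 228) (nat_lit 11329501528) (nat_lit 304) (nat_lit 15325950758) (nat_lit 36) (nat_lit 5) (nat_lit 39) (nat_lit 5) (nat_lit 40) (nat_lit 5) (nat_lit 292) (nat_lit 268) (nat_lit 160)))) (XT.nd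 (nat_lit 156) (nat_lit 532) (nat_lit 0) (XT.nd (nat_lit 78) (nat_lit 0) (nat_lit 0) (XT.lf (nat_lit 0) (nat_lit 19217166226) (nat_lit 228) (nat_lit 1443806418) (nat_lit 304) (nat_lit 12300385440) (nat_lit 36) (nat_lit 5) (nat_lit 39) (nat_lit 5) (nat_lit 40) (nat_lit 5) (nat_lit 293) (nat_lit 268) (nat_lit 159)) (XT.lf (nat_lit 0) (nat_lit 25070308807) (nat_lit 304) (nat_lit 333324821) (nat_lit 76) (nat_lit 8649145940) (nat_lit 36) (nat_lit 5) (nat_lit 40) (nat_lit 5) (nat_lit 37) (nat_lit 5) (nat_lit 294) (nat_lit 268) (nat_lit 158))) (XT.nd (nat_lit 78) (nat_lit 304) (nat_lit 0) (XT.lf (nat_lit 0) (nat_lit 14171873939) (nat_lit 228) (nat_lit 15768267103) (nat_lit 304) (nat_lit 5246647429) (nat_lit 33) (nat_lit 5) (nat_lit 36) (nat_lit 5) (nat_lit 37) (nat_lit 5) (nat_lit 295) (nat_lit 268) (nat_lit 157)) (XT.nd (nat_lit 78) (nat_lit 304) (nat_lit 0) (XT.lf (nat_lit 0) (nat_lit 29407872669)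 (nat_lit 228) (nat_lit 5646474138) (nat_lit 304) (nat_lit 1323123872) (nat_lit 33) (nat_lit 5) (nat_lit 36) (nat_lit 5) (nat_lit 37) (nat_lit 5) (nat_lit 296) (nat_lit 268) (nat_lit 156)) (XT.lf (nat_lit 0) (nat_lit 2907606337) (nat_lit 304) (nat_lit 29716086199) (nat_lit 76) (nat_lit 4991799806) (nat_lit 29) (nat_lit 5) (nat_lit 33) (nat_lit 5) (nat_lit 30) (nat_lit 5) (nat_lit 297) (nat_lit 268) (nat_lit 155))))))))
noncomputable def xc195 : XT := (XT.nd (nat_lit 1326) (nat_lit 532) (nat_lit 0) (XT.nd (nat_lit 624) (nat_lit 456) (nat_lit 0) (XT.nd (nat_lit 312) (nat_lit 380) (nat_lit 0) (XT.nd (nat_lit 156) (nat_lit 228) (nat_lit 0) (XT.nd (nat_lit 78) (nat_lit 0) (nat_lit 0) (XT.lf (nat_lit 0) (nat_lit 7513423615) (nat_lit 304) (nat_lit 15277911719) (nat_lit 76) (nat_lit 16112609066) (nat_lit 29) (nat_lit 5) (nat_lit 33) (nat_lit 5) (nat_lit 30) (nat_lit 5) (nat_lit 298) (nat_lit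 268) (nat_lit 154)) (XT.lf (nat_lit 0) (nat_lit 12345229428) (nat_lit 304) (nat_lit 123577884) (nat_lit 76) (nat_lit 27788240818) (nat_lit 29) (nat_lit 5) (nat_lit 33) (nat_lit 5) (nat_lit 30) (nat_lit 5) (nat_lit 299) (nat_lit 268) (nat_lit 153))) (XT.nd (nat_lit 78) (nat_lit 0) (nat_lit 0) (XT.lf (nat_lit 0) (nat_lit 16304854213) (nat_lit 228) (nat_lit 1364238330) (nat_lit 304) (nat_lit 23996204439) (nat_lit 26) (nat_lit 5) (nat_lit 29) (nat_lit 5) (nat_lit 30) (nat_lit 5) (nat_lit 300) (nat_lit 268) (nat_lit 152)) (XT.lf (nat_lit 0) (nat_lit 23418010186) (nat_lit 304) (nat_lit 9751209593) (nat_lit 76) (nat_lit 9966808083) (nat_lit 26) (nat_lit 5) (nat_lit 30) (nat_lit 5) (nat_lit 27) (nat_lit 5) (nat_lit 301) (nat_lit 268) (nat_lit 151)))) (XT.nd (nat_lit 156) (nat_lit 228) (nat_lit 0) (XT.nd (nat_lit 78) (nat_lit 0) (nat_lit 0) (XT.lf (nat_lit 0) (nat_lit 6829392085) (nat_lit 152)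 (nat_lit 22750154690) (nat_lit 228) (nat_lit 15094501911) (nat_lit 24) (nat_lit 5) (nat_lit 26) (nat_lit 5) (nat_lit 27) (nat_lit 5) (nat_lit 302) (nat_lit 268) (nat_lit 150)) (XT.lf (nat_lit 0) (nat_lit 24572337711) (nat_lit 152) (nat_lit 11638246677) (nat_lit 228) (nat_lit 10070326432) (nat_lit 24) (nat_lit 5) (nat_lit 26) (nat_lit 5) (nat_lit 27) (nat_lit 5) (nat_lit 303) (nat_lit 268) (nat_lit 149))) (XT.nd (nat_lit 78) (nat_lit 228) (nat_lit 0) (XT.lf (nat_lit 0) (nat_lit 43170067979) (nat_lit 228) (nat_lit 4771284983) (nat_lit 76) (nat_lit 26929324) (nat_lit 24) (nat_lit 5) (nat_lit 27) (nat_lit 5) (nat_lit 25) (nat_lit 5) (nat_lit 304) (nat_lit 268) (nat_lit 148)) (XT.lf (nat_lit 0) (nat_lit 1114476308) (nat_lit 228) (nat_lit 36497329267) (nat_lit 76) (nat_lit 12107622061) (nat_lit 21) (nat_lit 5) (nat_lit 24) (nat_lit 5) (nat_lit 22) (nat_lit 5) (nat_lit 305) (nat_lit 268)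 (nat_lit 147))))) (XT.nd (nat_lit 312) (nat_lit 304) (nat_lit 0) (XT.nd (nat_lit 156) (nat_lit 152) (nat_lit 0) (XT.nd (nat_lit 78) (nat_lit 0) (nat_lit 0) (XT.lf (nat_lit 0) (nat_lit 7240308167) (nat_lit 228) (nat_lit 19358214586) (nat_lit 76) (nat_lit 24951746072) (nat_lit 21) (nat_lit 5) (nat_lit 24) (nat_lit 5) (nat_lit 22) (nat_lit 5) (nat_lit 306) (nat_lit 268) (nat_lit 146)) (XT.lf (nat_lit 0) (nat_lit 13669221619) (nat_lit 228) (nat_lit 1366848701) (nat_lit 76) (nat_lit 38436751246) (nat_lit 21) (nat_lit 5) (nat_lit 24) (nat_lit 5) (nat_lit 22) (nat_lit 5) (nat_lit 307) (nat_lit 268) (nat_lit 145))) (XT.nd (nat_lit 78) (nat_lit 0) (nat_lit 0) (XT.lf (nat_lit 0) (nat_lit 18098882232) (nat_lit 152) (nat_lit 2600215642) (nat_lit 228) (nat_lit 34778436780) (nat_lit 19) (nat_lit 5) (nat_lit 21) (nat_lit 5) (nat_lit 22) (nat_lit 5) (nat_lit 308) (nat_lit 268) (nat_lit 144)) (XT.lf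 (nat_lit 0) (nat_lit 28264262801) (nat_lit 228) (nat_lit 19164164790) (nat_lit 76) (nat_lit 10144874219) (nat_lit 19) (nat_lit 5) (nat_lit 22) (nat_lit 5) (nat_lit 20) (nat_lit 5) (nat_lit 309) (nat_lit 268) (nat_lit 143)))) (XT.nd (nat_lit 156) (nat_lit 152) (nat_lit 0) (XT.nd (nat_lit 78) (nat_lit 152) (nat_lit 0) (XT.lf (nat_lit 0) (nat_lit 36247452763) (nat_lit 228) (nat_lit 85906045) (nat_lit 76) (nat_lit 23438517946) (nat_lit 19) (nat_lit 5) (nat_lit 22) (nat_lit 5) (nat_lit 20) (nat_lit 5) (nat_lit 310) (nat_lit 268) (nat_lit 142)) (XT.lf (nat_lit 0) (nat_lit 20601522261) (nat_lit 152) (nat_lit 24347203938) (nat_lit 228) (nat_lit 17115715445) (nat_lit 17) (nat_lit 5) (nat_lit 19) (nat_lit 5) (nat_lit 20) (nat_lit 5) (nat_lit 311) (nat_lit 268) (nat_lit 141))) (XT.nd (nat_lit 78) (nat_lit 152) (nat_lit 0) (XT.lf (nat_lit 0) (nat_lit 42322250164) (nat_lit 152) (nat_lit 11761610875)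 (nat_lit 228) (nat_lit 10387840900) (nat_lit 17) (nat_lit 5) (nat_lit 19) (nat_lit 5) (nat_lit 20) (nat_lit 5) (nat_lit 312) (nat_lit 268) (nat_lit 140)) (XT.nd (nat_lit 78) (nat_lit 152) (nat_lit 0) (XT.lf (nat_lit 0) (nat_lit 63695890738) (nat_lit 228) (nat_lit 1896973965) (nat_lit 76) (nat_lit 1405460351) (nat_lit 17) (nat_lit 5) (nat_lit 20) (nat_lit 5) (nat_lit 18) (nat_lit 4) (nat_lit 313) (nat_lit 268) (nat_lit 139)) (XT.lf (nat_lit 0) (nat_lit 4512610639) (nat_lit 152) (nat_lit 49893662337) (nat_lit 76) (nat_lit 15216393456) (nat_lit 15) (nat_lit 5) (nat_lit 17) (nat_lit 5) (nat_lit 16) (nat_lit 5) (nat_lit 314) (nat_lit 268) (nat_lit 138))))))) (XT.nd (nat_lit 702) (nat_lit 304) (nat_lit 0) (XT.nd (nat_lit 312) (nat_lit 76) (nat_lit 0) (XT.nd (nat_lit 156) (nat_lit 152) (nat_lit 0) (XT.nd (nat_lit 78) (nat_lit 0) (nat_lit 0) (XT.lf (nat_lit 0) (nat_lit 12637660138) (nat_lit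 152) (nat_lit 29932952927) (nat_lit 76) (nat_lit 29803398910) (nat_lit 15) (nat_lit 5) (nat_lit 17) (nat_lit 5) (nat_lit 16) (nat_lit 5) (nat_lit 315) (nat_lit 268) (nat_lit 137)) (XT.lf (nat_lit 0) (nat_lit 21166660125) (nat_lit 152) (nat_lit 8977835800) (nat_lit 76) (nat_lit 45118549491) (nat_lit 15) (nat_lit 5) (nat_lit 17) (nat_lit 5) (nat_lit 16) (nat_lit 5) (nat_lit 316) (nat_lit 268) (nat_lit 136))) (XT.nd (nat_lit 78) (nat_lit 0) (nat_lit 0) (XT.lf (nat_lit 0) (nat_lit 13452134492) (nat_lit 152) (nat_lit 16877808770) (nat_lit 228) (nat_lit 47956200868) (nat_lit 13) (nat_lit 5) (nat_lit 15) (nat_lit 5) (nat_lit 16) (nat_lit 5) (nat_lit 317) (nat_lit 268) (nat_lit 135)) (XT.lf (nat_lit 0) (nat_lit 37311894207) (nat_lit 152) (nat_lit 2789399299) (nat_lit 228) (nat_lit 41351614133) (nat_lit 13) (nat_lit 5) (nat_lit 15) (nat_lit 5) (nat_lit 16) (nat_lit 5) (nat_lit 318) (nat_lit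 268) (nat_lit 134)))) (XT.nd (nat_lit 156) (nat_lit 76) (nat_lit 0) (XT.nd (nat_lit 78) (nat_lit 0) (nat_lit 0) (XT.lf (nat_lit 0) (nat_lit 50546560658) (nat_lit 228) (nat_lit 22604100030) (nat_lit 76) (nat_lit 11618085936) (nat_lit 13) (nat_lit 5) (nat_lit 16) (nat_lit 5) (nat_lit 14) (nat_lit 4) (nat_lit 319) (nat_lit 268) (nat_lit 133)) (XT.lf (nat_lit 0) (nat_lit 61557859218) (nat_lit 228) (nat_lit 39235884) (nat_lit 76) (nat_lit 26651098595) (nat_lit 13) (nat_lit 5) (nat_lit 16) (nat_lit 5) (nat_lit 14) (nat_lit 4) (nat_lit 320) (nat_lit 268) (nat_lit 132))) (XT.nd (nat_lit 78) (nat_lit 0) (nat_lit 0) (XT.lf (nat_lit 0) (nat_lit 24432859296) (nat_lit 76) (nat_lit 49066462334) (nat_lit 152) (nat_lit 18383315875) (nat_lit 12) (nat_lit 5) (nat_lit 13) (nat_lit 5) (nat_lit 14) (nat_lit 4) (nat_lit 321) (nat_lit 268) (nat_lit 131)) (XT.nd (nat_lit 78) (nat_lit 0) (nat_lit 0) (XT.lf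 (nat_lit 0) (nat_lit 50126953810) (nat_lit 76) (nat_lit 35909743896) (nat_lit 152) (nat_lit 9662167889) (nat_lit 12) (nat_lit 5) (nat_lit 13) (nat_lit 5) (nat_lit 14) (nat_lit 4) (nat_lit 322) (nat_lit 268) (nat_lit 130)) (XT.lf (nat_lit 0) (nat_lit 77102926758) (nat_lit 76) (nat_lit 22096278747) (nat_lit 152) (nat_lit 506790363) (nat_lit 12) (nat_lit 5) (nat_lit 13) (nat_lit 5) (nat_lit 14) (nat_lit 4) (nat_lit 323) (nat_lit 268) (nat_lit 129)))))) (XT.nd (nat_lit 312) (nat_lit 76) (nat_lit 0) (XT.nd (nat_lit 156) (nat_lit 0) (nat_lit 0) (XT.nd (nat_lit 78) (nat_lit 0) (nat_lit 0) (XT.lf (nat_lit 0) (nat_lit 1414563854) (nat_lit 152) (nat_lit 7420732126) (nat_lit 228) (nat_lit 95070061436) (nat_lit 9) (nat_lit 5) (nat_lit 11) (nat_lit 5) (nat_lit 12) (nat_lit 5) (nat_lit 324) (nat_lit 268) (nat_lit 128)) (XT.lf (nat_lit 0) (nat_lit 19139585033) (nat_lit 228) (nat_lit 81019824829)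 (nat_lit 76) (nat_lit 8129258673) (nat_lit 9) (nat_lit 5) (nat_lit 12) (nat_lit 5) (nat_lit 10) (nat_lit 4) (nat_lit 325) (nat_lit 268) (nat_lit 127))) (XT.nd (nat_lit 78) (nat_lit 0) (nat_lit 0) (XT.lf (nat_lit 0) (nat_lit 30079155450) (nat_lit 228) (nat_lit 58599602639) (nat_lit 76) (nat_lit 24206387004) (nat_lit 9) (nat_lit 5) (nat_lit 12) (nat_lit 5) (nat_lit 10) (nat_lit 4) (nat_lit 326) (nat_lit 268) (nat_lit 126)) (XT.lf (nat_lit 0) (nat_lit 41564195400) (nat_lit 228) (nat_lit 35060887087) (nat_lit 76) (nat_lit 41086441515) (nat_lit 9) (nat_lit 5) (nat_lit 12) (nat_lit 5) (nat_lit 10) (nat_lit 4) (nat_lit 327) (nat_lit 268) (nat_lit 125)))) (XT.nd (nat_lit 156) (nat_lit 0) (nat_lit 0) (XT.nd (nat_lit 78) (nat_lit 76) (nat_lit 0) (XT.lf (nat_lit 0) (nat_lit 53622050218) (nat_lit 228) (nat_lit 10347633612) (nat_lit 76) (nat_lit 58809612812) (nat_lit 9) (nat_lit 5) (nat_lit 12)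 (nat_lit 5) (nat_lit 10) (nat_lit 4) (nat_lit 328) (nat_lit 268) (nat_lit 124)) (XT.lf (nat_lit 0) (nat_lit 16114772216) (nat_lit 76) (nat_lit 50418253622) (nat_lit 152) (nat_lit 61554923461) (nat_lit 8) (nat_lit 5) (nat_lit 9) (nat_lit 5) (nat_lit 10) (nat_lit 4) (nat_lit 329) (nat_lit 268) (nat_lit 123))) (XT.nd (nat_lit 78) (nat_lit 0) (nat_lit 0) (XT.lf (nat_lit 0) (nat_lit 44257297972) (nat_lit 76) (nat_lit 36006155850) (nat_lit 152) (nat_lit 53389888243) (nat_lit 8) (nat_lit 5) (nat_lit 9) (nat_lit 5) (nat_lit 10) (nat_lit 4) (nat_lit 330) (nat_lit 268) (nat_lit 122)) (XT.nd (nat_lit 78) (nat_lit 0) (nat_lit 0) (XT.lf (nat_lit 0) (nat_lit 73804810171) (nat_lit 76) (nat_lit 20874318178) (nat_lit 152) (nat_lit 44817942392) (nat_lit 8) (nat_lit 5) (nat_lit 9) (nat_lit 5) (nat_lit 10) (nat_lit 4) (nat_lit 331) (nat_lit 268) (nat_lit 121)) (XT.lf (nat_lit 0) (nat_lit 104827660033)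 (nat_lit 76) (nat_lit 4986712422) (nat_lit 152) (nat_lit 35818676514) (nat_lit 8) (nat_lit 5) (nat_lit 9) (nat_lit 5) (nat_lit 10) (nat_lit 4) (nat_lit 332) (nat_lit 268) (nat_lit 120))))))))
noncomputable def xc196 : XT := (XT.nd (nat_lit 1326) (nat_lit 0) (nat_lit 0) (XT.nd (nat_lit 624) (nat_lit 76) (nat_lit 0) (XT.nd (nat_lit 312) (nat_lit 76) (nat_lit 0) (XT.nd (nat_lit 156) (nat_lit 76) (nat_lit 0) (XT.nd (nat_lit 78) (nat_lit 76) (nat_lit 0) (XT.lf (nat_lit 0) (nat_lit 125887806182) (nat_lit 152) (nat_lit 14858758481) (nat_lit 0) (nat_lit 11320192367) (nat_lit 8) (nat_lit 5) (nat_lit 10) (nat_lit 4) (nat_lit 8) (nat_lit 4) (nat_lit 333) (nat_lit 268) (nat_lit 119)) (XT.lf (nat_lit 0) (nat_lit 12708305182) (nat_lit 76) (nat_lit 130335655121) (nat_lit 76) (nat_lit 15764239941) (nat_lit 7) (nat_lit 4) (nat_lit 8) (nat_lit 5) (nat_lit 8) (nat_lit 4) (nat_lit 334) (nat_lit 268) (nat_lit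 118))) (XT.nd (nat_lit 78) (nat_lit 76) (nat_lit 0) (XT.lf (nat_lit 0) (nat_lit 42167721061) (nat_lit 76) (nat_lit 119140752302) (nat_lit 76) (nat_lit 4565716776) (nat_lit 7) (nat_lit 4) (nat_lit 8) (nat_lit 5) (nat_lit 8) (nat_lit 4) (nat_lit 335) (nat_lit 268) (nat_lit 117)) (XT.lf (nat_lit 0) (nat_lit 6961464092) (nat_lit 152) (nat_lit 100307482086) (nat_lit 76) (nat_lit 66018973106) (nat_lit 6) (nat_lit 5) (nat_lit 8) (nat_lit 5) (nat_lit 7) (nat_lit 4) (nat_lit 336) (nat_lit 268) (nat_lit 116)))) (XT.nd (nat_lit 156) (nat_lit 76) (nat_lit 0) (XT.nd (nat_lit 78) (nat_lit 0) (nat_lit 0) (XT.lf (nat_lit 0) (nat_lit 18910560176) (nat_lit 152) (nat_lit 75815118875) (nat_lit 76) (nat_lit 86342965532) (nat_lit 6) (nat_lit 5) (nat_lit 8) (nat_lit 5) (nat_lit 7) (nat_lit 4) (nat_lit 337) (nat_lit 268) (nat_lit 115)) (XT.lf (nat_lit 0) (nat_lit 31456153156) (nat_lit 152) (nat_lit 50099780659)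 (nat_lit 76) (nat_lit 107682521941) (nat_lit 6) (nat_lit 5) (nat_lit 8) (nat_lit 5) (nat_lit 7) (nat_lit 4) (nat_lit 338) (nat_lit 268) (nat_lit 114))) (XT.nd (nat_lit 78) (nat_lit 76) (nat_lit 0) (XT.lf (nat_lit 0) (nat_lit 44628113490) (nat_lit 152) (nat_lit 23100240442) (nat_lit 76) (nat_lit 130088450799) (nat_lit 6) (nat_lit 5) (nat_lit 8) (nat_lit 5) (nat_lit 7) (nat_lit 4) (nat_lit 339) (nat_lit 268) (nat_lit 113)) (XT.lf (nat_lit 0) (nat_lit 5421301912) (nat_lit 76) (nat_lit 53121142793) (nat_lit 152) (nat_lit 148277439360) (nat_lit 5) (nat_lit 5) (nat_lit 6) (nat_lit 5) (nat_lit 7) (nat_lit 4) (nat_lit 340) (nat_lit 268) (nat_lit 112))))) (XT.nd (nat_lit 312) (nat_lit 76) (nat_lit 0) (XT.nd (nat_lit 156) (nat_lit 0) (nat_lit 0) (XT.nd (nat_lit 78) (nat_lit 0) (nat_lit 0) (XT.lf (nat_lit 0) (nat_lit 36169443218) (nat_lit 76) (nat_lit 37373412641) (nat_lit 152) (nat_lit 142710744816)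 (nat_lit 5) (nat_lit 5) (nat_lit 6) (nat_lit 5) (nat_lit 7) (nat_lit 4) (nat_lit 341) (nat_lit 268) (nat_lit 111)) (XT.lf (nat_lit 0) (nat_lit 68453595063) (nat_lit 76) (nat_lit 20838882629) (nat_lit 152) (nat_lit 136866567326) (nat_lit 5) (nat_lit 5) (nat_lit 6) (nat_lit 5) (nat_lit 7) (nat_lit 4) (nat_lit 342) (nat_lit 268) (nat_lit 110))) (XT.nd (nat_lit 78) (nat_lit 0) (nat_lit 0) (XT.lf (nat_lit 0) (nat_lit 102350624476) (nat_lit 76) (nat_lit 3478184828) (nat_lit 152) (nat_lit 130730992181) (nat_lit 5) (nat_lit 5) (nat_lit 6) (nat_lit 5) (nat_lit 7) (nat_lit 4) (nat_lit 343) (nat_lit 268) (nat_lit 109)) (XT.lf (nat_lit 0) (nat_lit 123421511999) (nat_lit 152) (nat_lit 109769684196) (nat_lit 0) (nat_lit 14277923134) (nat_lit 5) (nat_lit 5) (nat_lit 7) (nat_lit 4) (nat_lit 5) (nat_lit 4) (nat_lit 344) (nat_lit 268) (nat_lit 108)))) (XT.nd (nat_lit 156) (nat_lit 76) (nat_lit 0) (XT.nd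 (nat_lit 78) (nat_lit 0) (nat_lit 0) (XT.lf (nat_lit 0) (nat_lit 141950161735) (nat_lit 152) (nat_lit 84166470822) (nat_lit 0) (nat_lit 32804456128) (nat_lit 5) (nat_lit 5) (nat_lit 7) (nat_lit 4) (nat_lit 5) (nat_lit 4) (nat_lit 345) (nat_lit 268) (nat_lit 107)) (XT.lf (nat_lit 0) (nat_lit 161404570135) (nat_lit 152) (nat_lit 57284272642) (nat_lit 0) (nat_lit 52256848583) (nat_lit 5) (nat_lit 5) (nat_lit 7) (nat_lit 4) (nat_lit 5) (nat_lit 4) (nat_lit 346) (nat_lit 268) (nat_lit 106))) (XT.nd (nat_lit 78) (nat_lit 76) (nat_lit 0) (XT.lf (nat_lit 0) (nat_lit 181831057217) (nat_lit 152) (nat_lit 29059084423) (nat_lit 0) (nat_lit 72681415718) (nat_lit 5) (nat_lit 5) (nat_lit 7) (nat_lit 4) (nat_lit 5) (nat_lit 4) (nat_lit 347) (nat_lit 268) (nat_lit 105)) (XT.nd (nat_lit 78) (nat_lit 0) (nat_lit 0) (XT.lf (nat_lit 0) (nat_lit 595351633) (nat_lit 76) (nat_lit 202692200949) (nat_lit 76)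 (nat_lit 93540730929) (nat_lit 4) (nat_lit 4) (nat_lit 5) (nat_lit 5) (nat_lit 5) (nat_lit 4) (nat_lit 348) (nat_lit 268) (nat_lit 104)) (XT.lf (nat_lit 0) (nat_lit 32740325947) (nat_lit 76) (nat_lit 193568077967) (nat_lit 76) (nat_lit 84414866498) (nat_lit 4) (nat_lit 4) (nat_lit 5) (nat_lit 5) (nat_lit 5) (nat_lit 4) (nat_lit 349) (nat_lit 268) (nat_lit 103))))))) (XT.nd (nat_lit 31746) (nat_lit 0) (nat_lit 3572) (XT.nd (nat_lit 31434) (nat_lit 0) (nat_lit 4332) (XT.nd (nat_lit 31278) (nat_lit 0) (nat_lit 4256) (XT.nd (nat_lit 31200) (nat_lit 0) (nat_lit 4940) (XT.lf (nat_lit 0) (nat_lit 66491549606) (nat_lit 76) (nat_lit 183988178249) (nat_lit 76) (nat_lit 74833308256) (nat_lit 4) (nat_lit 4) (nat_lit 5) (nat_lit 5) (nat_lit 5) (nat_lit 4) (nat_lit 350) (nat_lit 268) (nat_lit 102)) (XT.lf (nat_lit 0) (nat_lit 8479230576) (nat_lit 684) (nat_lit 36958792) (nat_lit 684) (nat_lit 36958792)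 (nat_lit 69) (nat_lit 3) (nat_lit 78) (nat_lit 3) (nat_lit 78) (nat_lit 5) (nat_lit 269) (nat_lit 269) (nat_lit 182))) (XT.nd (nat_lit 78) (nat_lit 0) (nat_lit 0) (XT.lf (nat_lit 0) (nat_lit 167864669) (nat_lit 684) (nat_lit 10365410172) (nat_lit 760) (nat_lit 6984172774) (nat_lit 60) (nat_lit 5) (nat_lit 69) (nat_lit 3) (nat_lit 70) (nat_lit 5) (nat_lit 270) (nat_lit 269) (nat_lit 181)) (XT.lf (nat_lit 0) (nat_lit 482677724) (nat_lit 684) (nat_lit 3217033868) (nat_lit 760) (nat_lit 14249966308) (nat_lit 60) (nat_lit 5) (nat_lit 69) (nat_lit 3) (nat_lit 70) (nat_lit 5) (nat_lit 271) (nat_lit 269) (nat_lit 180)))) (XT.nd (nat_lit 156) (nat_lit 0) (nat_lit 0) (XT.nd (nat_lit 78) (nat_lit 0) (nat_lit 0) (XT.lf (nat_lit 0) (nat_lit 925412581) (nat_lit 684) (nat_lit 14032884542) (nat_lit 760) (nat_lit 3439668212) (nat_lit 61) (nat_lit 5) (nat_lit 70) (nat_lit 5) (nat_lit 71) (nat_lit 5)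 (nat_lit 272) (nat_lit 269) (nat_lit 179)) (XT.lf (nat_lit 0) (nat_lit 1494511153) (nat_lit 684) (nat_lit 6497111029) (nat_lit 760) (nat_lit 10871885698) (nat_lit 61) (nat_lit 5) (nat_lit 70) (nat_lit 5) (nat_lit 71) (nat_lit 5) (nat_lit 273) (nat_lit 269) (nat_lit 178))) (XT.nd (nat_lit 78) (nat_lit 0) (nat_lit 76) (XT.lf (nat_lit 76) (nat_lit 1454761987) (nat_lit 0) (nat_lit 648778232) (nat_lit 760) (nat_lit 17248263162) (nat_lit 62) (nat_lit 5) (nat_lit 61) (nat_lit 5) (nat_lit 71) (nat_lit 5) (nat_lit 274) (nat_lit 269) (nat_lit 177)) (XT.lf (nat_lit 0) (nat_lit 2954345346) (nat_lit 684) (nat_lit 9949046511) (nat_lit 760) (nat_lit 6950602816) (nat_lit 62) (nat_lit 5) (nat_lit 71) (nat_lit 5) (nat_lit 72) (nat_lit 5) (nat_lit 275) (nat_lit 269) (nat_lit 176))))) (XT.nd (nat_lit 312) (nat_lit 836) (nat_lit 0) (XT.nd (nat_lit 156) (nat_lit 0) (nat_lit 76) (XT.nd (nat_lit 78) (nat_lit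 0) (nat_lit 76) (XT.lf (nat_lit 0) (nat_lit 3848082480) (nat_lit 684) (nat_lit 1621696233) (nat_lit 760) (nat_lit 14911542224) (nat_lit 62) (nat_lit 5) (nat_lit 71) (nat_lit 5) (nat_lit 72) (nat_lit 5) (nat_lit 276) (nat_lit 269) (nat_lit 175)) (XT.lf (nat_lit 0) (nat_lit 4929895197) (nat_lit 684) (nat_lit 13617975058) (nat_lit 760) (nat_lit 2380016676) (nat_lit 63) (nat_lit 5) (nat_lit 72) (nat_lit 5) (nat_lit 73) (nat_lit 5) (nat_lit 277) (nat_lit 269) (nat_lit 174))) (XT.nd (nat_lit 78) (nat_lit 0) (nat_lit 0) (XT.lf (nat_lit 0) (nat_lit 6174019914) (nat_lit 684) (nat_lit 4853615963) (nat_lit 760) (nat_lit 10468775090) (nat_lit 63) (nat_lit 5) (nat_lit 72) (nat_lit 5) (nat_lit 73) (nat_lit 5) (nat_lit 278) (nat_lit 269) (nat_lit 173)) (XT.lf (nat_lit 76) (nat_lit 4485386975) (nat_lit 0) (nat_lit 3056077560) (nat_lit 760) (nat_lit 14548879855) (nat_lit 64) (nat_lit 5) (nat_lit 63)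 (nat_lit 5) (nat_lit 73) (nat_lit 5) (nat_lit 279) (nat_lit 269) (nat_lit 172)))) (XT.nd (nat_lit 156) (nat_lit 304) (nat_lit 0) (XT.nd (nat_lit 78) (nat_lit 684) (nat_lit 0) (XT.lf (nat_lit 0) (nat_lit 9135218452) (nat_lit 684) (nat_lit 8341843964) (nat_lit 76) (nat_lit 5229052234) (nat_lit 64) (nat_lit 5) (nat_lit 73) (nat_lit 5) (nat_lit 65) (nat_lit 5) (nat_lit 280) (nat_lit 269) (nat_lit 171)) (XT.lf (nat_lit 0) (nat_lit 1371054321) (nat_lit 684) (nat_lit 9500943629) (nat_lit 760) (nat_lit 12477543834) (nat_lit 55) (nat_lit 5) (nat_lit 64) (nat_lit 5) (nat_lit 65) (nat_lit 5) (nat_lit 281) (nat_lit 269) (nat_lit 170))) (XT.nd (nat_lit 78) (nat_lit 304) (nat_lit 0) (XT.lf (nat_lit 0) (nat_lit 11852169381) (nat_lit 684) (nat_lit 976831514) (nat_lit 760) (nat_lit 11189503731) (nat_lit 55) (nat_lit 5) (nat_lit 64) (nat_lit 5) (nat_lit 65) (nat_lit 5) (nat_lit 282) (nat_lit 269) (nat_lit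 169)) (XT.nd (nat_lit 78) (nat_lit 304) (nat_lit 0) (XT.lf (nat_lit 0) (nat_lit 15000842063) (nat_lit 760) (nat_lit 1995187137) (nat_lit 76) (nat_lit 7719068985) (nat_lit 55) (nat_lit 5) (nat_lit 65) (nat_lit 5) (nat_lit 56) (nat_lit 5) (nat_lit 283) (nat_lit 269) (nat_lit 168)) (XT.lf (nat_lit 0) (nat_lit 8948116297) (nat_lit 304) (nat_lit 8481734564) (nat_lit 380) (nat_lit 8009272236) (nat_lit 51) (nat_lit 5) (nat_lit 55) (nat_lit 5) (nat_lit 56) (nat_lit 5) (nat_lit 284) (nat_lit 269) (nat_lit 167))))))))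
noncomputable def xc197 : XT := (XT.nd (nat_lit 1326) (nat_lit 988) (nat_lit 0) (XT.nd (nat_lit 624) (nat_lit 988) (nat_lit 0) (XT.nd (nat_lit 312) (nat_lit 304) (nat_lit 0) (XT.nd (nat_lit 156) (nat_lit 304) (nat_lit 0) (XT.nd (nat_lit 78) (nat_lit 304) (nat_lit 0) (XT.lf (nat_lit 0) (nat_lit 20014904785) (nat_lit 380) (nat_lit 5704567999) (nat_lit 76) (nat_lit 478175741) (nat_lit 51) (nat_lit 5) (nat_lit 56) (nat_lit 5) (nat_lit 52) (nat_lit 5) (nat_lit 285) (nat_lit 269) (nat_lit 166)) (XT.lf (nat_lit 0) (nat_lit 5656473600) (nat_lit 304) (nat_lit 17293521130) (nat_lit 380) (nat_lit 4033093951) (nat_lit 47) (nat_lit 5) (nat_lit 51) (nat_lit 5) (nat_lit 52) (nat_lit 5) (nat_lit 286) (nat_lit 269) (nat_lit 165))) (XT.nd (nat_lit 78) (nat_lit 304) (nat_lit 0) (XT.lf (nat_lit 0) (nat_lit 17777008542) (nat_lit 304) (nat_lit 8345075256) (nat_lit 380) (nat_lit 1681231123) (nat_lit 47)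 (nat_lit 5) (nat_lit 51) (nat_lit 5) (nat_lit 52) (nat_lit 5) (nat_lit 287) (nat_lit 269) (nat_lit 164)) (XT.lf (nat_lit 0) (nat_lit 803252678) (nat_lit 304) (nat_lit 26799513107) (nat_lit 76) (nat_lit 1059182434) (nat_lit 43) (nat_lit 5) (nat_lit 47) (nat_lit 5) (nat_lit 44) (nat_lit 5) (nat_lit 288) (nat_lit 269) (nat_lit 163)))) (XT.nd (nat_lit 156) (nat_lit 304) (nat_lit 0) (XT.nd (nat_lit 78) (nat_lit 0) (nat_lit 0) (XT.lf (nat_lit 0) (nat_lit 3658850941) (nat_lit 304) (nat_lit 15035200649) (nat_lit 76) (nat_lit 10852936724) (nat_lit 43) (nat_lit 5) (nat_lit 47) (nat_lit 5) (nat_lit 44) (nat_lit 5) (nat_lit 289) (nat_lit 269) (nat_lit 162)) (XT.lf (nat_lit 0) (nat_lit 6651516915) (nat_lit 304) (nat_lit 2689084563) (nat_lit 76) (nat_lit 21135986192) (nat_lit 43) (nat_lit 5) (nat_lit 47) (nat_lit 5) (nat_lit 44) (nat_lit 5) (nat_lit 290) (nat_lit 269) (nat_lit 161))) (XT.nd (nat_lit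 78) (nat_lit 0) (nat_lit 0) (XT.lf (nat_lit 0) (nat_lit 9964199520) (nat_lit 380) (nat_lit 20847140941) (nat_lit 76) (nat_lit 632827977) (nat_lit 39) (nat_lit 5) (nat_lit 44) (nat_lit 5) (nat_lit 40) (nat_lit 5) (nat_lit 291) (nat_lit 269) (nat_lit 160)) (XT.lf (nat_lit 0) (nat_lit 13636642002) (nat_lit 380) (nat_lit 7977198376) (nat_lit 76) (nat_lit 10836601211) (nat_lit 39) (nat_lit 5) (nat_lit 44) (nat_lit 5) (nat_lit 40) (nat_lit 5) (nat_lit 292) (nat_lit 269) (nat_lit 159))))) (XT.nd (nat_lit 312) (nat_lit 532) (nat_lit 0) (XT.nd (nat_lit 156) (nat_lit 228) (nat_lit 0) (XT.nd (nat_lit 78) (nat_lit 0) (nat_lit 0) (XT.lf (nat_lit 0) (nat_lit 5713115652) (nat_lit 228) (nat_lit 11863754048) (nat_lit 304) (nat_lit 15925969241) (nat_lit 36) (nat_lit 5) (nat_lit 39) (nat_lit 5) (nat_lit 40) (nat_lit 5) (nat_lit 293) (nat_lit 269) (nat_lit 158)) (XT.lf (nat_lit 0) (nat_lit 20359011121)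 (nat_lit 228) (nat_lit 1485308590) (nat_lit 304) (nat_lit 12757043707) (nat_lit 36) (nat_lit 5) (nat_lit 39) (nat_lit 5) (nat_lit 40) (nat_lit 5) (nat_lit 294) (nat_lit 269) (nat_lit 157))) (XT.nd (nat_lit 78) (nat_lit 228) (nat_lit 0) (XT.lf (nat_lit 0) (nat_lit 26467421926) (nat_lit 304) (nat_lit 170400561) (nat_lit 76) (nat_lit 9109894606) (nat_lit 36) (nat_lit 5) (nat_lit 40) (nat_lit 5) (nat_lit 37) (nat_lit 5) (nat_lit 295) (nat_lit 269) (nat_lit 156)) (XT.lf (nat_lit 0) (nat_lit 15057161516) (nat_lit 228) (nat_lit 16519504958) (nat_lit 304) (nat_lit 5361988767) (nat_lit 33) (nat_lit 5) (nat_lit 36) (nat_lit 5) (nat_lit 37) (nat_lit 5) (nat_lit 296) (nat_lit 269) (nat_lit 155)))) (XT.nd (nat_lit 156) (nat_lit 228) (nat_lit 0) (XT.nd (nat_lit 78) (nat_lit 304) (nat_lit 0) (XT.lf (nat_lit 0) (nat_lit 31046546188) (nat_lit 228) (nat_lit 5893392607) (nat_lit 304) (nat_lit 1249288606)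 (nat_lit 33) (nat_lit 5) (nat_lit 36) (nat_lit 5) (nat_lit 37) (nat_lit 5) (nat_lit 297) (nat_lit 269) (nat_lit 154)) (XT.lf (nat_lit 0) (nat_lit 3185309502) (nat_lit 304) (nat_lit 31025062362) (nat_lit 76) (nat_lit 5278849857) (nat_lit 29) (nat_lit 5) (nat_lit 33) (nat_lit 5) (nat_lit 30) (nat_lit 5) (nat_lit 298) (nat_lit 269) (nat_lit 153))) (XT.nd (nat_lit 78) (nat_lit 228) (nat_lit 0) (XT.lf (nat_lit 0) (nat_lit 8015116555) (nat_lit 304) (nat_lit 15873399546) (nat_lit 76) (nat_lit 16953915768) (nat_lit 29) (nat_lit 5) (nat_lit 33) (nat_lit 5) (nat_lit 30) (nat_lit 5) (nat_lit 299) (nat_lit 269) (nat_lit 152)) (XT.nd (nat_lit 78) (nat_lit 0) (nat_lit 0) (XT.lf (nat_lit 0) (nat_lit 31644381) (nat_lit 228) (nat_lit 13051361299) (nat_lit 304) (nat_lit 29180479914) (nat_lit 26) (nat_lit 5) (nat_lit 29) (nat_lit 5) (nat_lit 30) (nat_lit 5) (nat_lit 300) (nat_lit 269) (nat_lit 151))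 (XT.lf (nat_lit 0) (nat_lit 17277898357) (nat_lit 228) (nat_lit 1391417987) (nat_lit 304) (nat_lit 25073036358) (nat_lit 26) (nat_lit 5) (nat_lit 29) (nat_lit 5) (nat_lit 30) (nat_lit 5) (nat_lit 301) (nat_lit 269) (nat_lit 150))))))) (XT.nd (nat_lit 702) (nat_lit 456) (nat_lit 0) (XT.nd (nat_lit 312) (nat_lit 380) (nat_lit 0) (XT.nd (nat_lit 156) (nat_lit 0) (nat_lit 0) (XT.nd (nat_lit 78) (nat_lit 152) (nat_lit 0) (XT.lf (nat_lit 0) (nat_lit 24700729555) (nat_lit 304) (nat_lit 10083179660) (nat_lit 76) (nat_lit 10502976080) (nat_lit 26) (nat_lit 5) (nat_lit 30) (nat_lit 5) (nat_lit 27) (nat_lit 5) (nat_lit 302) (nat_lit 269) (nat_lit 149)) (XT.lf (nat_lit 0) (nat_lit 7323942580) (nat_lit 152) (nat_lit 23843465707) (nat_lit 228) (nat_lit 15734562416) (nat_lit 24) (nat_lit 5) (nat_lit 26) (nat_lit 5) (nat_lit 27) (nat_lit 5) (nat_lit 303) (nat_lit 269) (nat_lit 148))) (XT.nd (nat_lit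 78) (nat_lit 0) (nat_lit 0) (XT.lf (nat_lit 0) (nat_lit 25946745921) (nat_lit 152) (nat_lit 12178066899) (nat_lit 228) (nat_lit 10464638382) (nat_lit 24) (nat_lit 5) (nat_lit 26) (nat_lit 5) (nat_lit 27) (nat_lit 5) (nat_lit 304) (nat_lit 269) (nat_lit 147)) (XT.lf (nat_lit 0) (nat_lit 45427958414) (nat_lit 228) (nat_lit 4866383225) (nat_lit 76) (nat_lit 67080458) (nat_lit 24) (nat_lit 5) (nat_lit 27) (nat_lit 5) (nat_lit 25) (nat_lit 5) (nat_lit 305) (nat_lit 269) (nat_lit 146)))) (XT.nd (nat_lit 156) (nat_lit 152) (nat_lit 0) (XT.nd (nat_lit 78) (nat_lit 0) (nat_lit 0) (XT.lf (nat_lit 0) (nat_lit 1268927195) (nat_lit 228) (nat_lit 38177502728) (nat_lit 76) (nat_lit 12753756141) (nat_lit 21) (nat_lit 5) (nat_lit 24) (nat_lit 5) (nat_lit 22) (nat_lit 5) (nat_lit 306) (nat_lit 269) (nat_lit 145)) (XT.lf (nat_lit 0) (nat_lit 7696349357) (nat_lit 228) (nat_lit 20188322456) (nat_lit 76)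 (nat_lit 26238145735) (nat_lit 21) (nat_lit 5) (nat_lit 24) (nat_lit 5) (nat_lit 22) (nat_lit 5) (nat_lit 307) (nat_lit 269) (nat_lit 144))) (XT.nd (nat_lit 78) (nat_lit 152) (nat_lit 0) (XT.lf (nat_lit 0) (nat_lit 14442231064) (nat_lit 228) (nat_lit 1303950318) (nat_lit 76) (nat_lit 40395552960) (nat_lit 21) (nat_lit 5) (nat_lit 24) (nat_lit 5) (nat_lit 22) (nat_lit 5) (nat_lit 308) (nat_lit 269) (nat_lit 143)) (XT.nd (nat_lit 78) (nat_lit 0) (nat_lit 0) (XT.lf (nat_lit 0) (nat_lit 19132950375) (nat_lit 152) (nat_lit 2688402537) (nat_lit 228) (nat_lit 36425454530) (nat_lit 19) (nat_lit 5) (nat_lit 21) (nat_lit 5) (nat_lit 22) (nat_lit 5) (nat_lit 309) (nat_lit 269) (nat_lit 142)) (XT.lf (nat_lit 0) (nat_lit 29761240829) (nat_lit 228) (nat_lit 19995634946) (nat_lit 76) (nat_lit 10690675322) (nat_lit 19) (nat_lit 5) (nat_lit 22) (nat_lit 5) (nat_lit 20) (nat_lit 5) (nat_lit 310) (nat_lit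 269) (nat_lit 141)))))) (XT.nd (nat_lit 312) (nat_lit 304) (nat_lit 0) (XT.nd (nat_lit 156) (nat_lit 0) (nat_lit 0) (XT.nd (nat_lit 78) (nat_lit 0) (nat_lit 0) (XT.lf (nat_lit 0) (nat_lit 31510108) (nat_lit 152) (nat_lit 38108583337) (nat_lit 228) (nat_lit 24616147021) (nat_lit 17) (nat_lit 5) (nat_lit 19) (nat_lit 5) (nat_lit 20) (nat_lit 5) (nat_lit 311) (nat_lit 269) (nat_lit 140)) (XT.lf (nat_lit 0) (nat_lit 21750354488) (nat_lit 152) (nat_lit 25523639358) (nat_lit 228) (nat_lit 17889571910) (nat_lit 17) (nat_lit 5) (nat_lit 19) (nat_lit 5) (nat_lit 20) (nat_lit 5) (nat_lit 312) (nat_lit 269) (nat_lit 139))) (XT.nd (nat_lit 78) (nat_lit 0) (nat_lit 0) (XT.lf (nat_lit 0) (nat_lit 44551463734) (nat_lit 152) (nat_lit 12310715441) (nat_lit 228) (nat_lit 10829205033) (nat_lit 17) (nat_lit 5) (nat_lit 19) (nat_lit 5) (nat_lit 20) (nat_lit 5) (nat_lit 313) (nat_lit 269) (nat_lit 138))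 (XT.lf (nat_lit 0) (nat_lit 66951860140) (nat_lit 228) (nat_lit 1880969934) (nat_lit 76) (nat_lit 1511665275) (nat_lit 17) (nat_lit 5) (nat_lit 20) (nat_lit 5) (nat_lit 18) (nat_lit 4) (nat_lit 314) (nat_lit 269) (nat_lit 137)))) (XT.nd (nat_lit 156) (nat_lit 152) (nat_lit 0) (XT.nd (nat_lit 78) (nat_lit 0) (nat_lit 0) (XT.lf (nat_lit 0) (nat_lit 4809041309) (nat_lit 152) (nat_lit 52276769892) (nat_lit 76) (nat_lit 16014278737) (nat_lit 15) (nat_lit 5) (nat_lit 17) (nat_lit 5) (nat_lit 16) (nat_lit 5) (nat_lit 315) (nat_lit 269) (nat_lit 136)) (XT.lf (nat_lit 0) (nat_lit 13336971848) (nat_lit 152) (nat_lit 31323338133) (nat_lit 76) (nat_lit 31328869435) (nat_lit 15) (nat_lit 5) (nat_lit 17) (nat_lit 5) (nat_lit 16) (nat_lit 5) (nat_lit 316) (nat_lit 269) (nat_lit 135))) (XT.nd (nat_lit 78) (nat_lit 152) (nat_lit 0) (XT.lf (nat_lit 0) (nat_lit 22289210944) (nat_lit 152) (nat_lit 9325525266)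 (nat_lit 76) (nat_lit 47408096565) (nat_lit 15) (nat_lit 5) (nat_lit 17) (nat_lit 5) (nat_lit 16) (nat_lit 5) (nat_lit 317) (nat_lit 269) (nat_lit 134)) (XT.nd (nat_lit 78) (nat_lit 0) (nat_lit 0) (XT.lf (nat_lit 0) (nat_lit 14224311245) (nat_lit 152) (nat_lit 17684843568) (nat_lit 228) (nat_lit 50288014117) (nat_lit 13) (nat_lit 5) (nat_lit 15) (nat_lit 5) (nat_lit 16) (nat_lit 5) (nat_lit 318) (nat_lit 269) (nat_lit 133)) (XT.lf (nat_lit 0) (nat_lit 39272317517) (nat_lit 152) (nat_lit 2893768654) (nat_lit 228) (nat_lit 43356340749) (nat_lit 13) (nat_lit 5) (nat_lit 15) (nat_lit 5) (nat_lit 16) (nat_lit 5) (nat_lit 319) (nat_lit 269) (nat_lit 132))))))))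
noncomputable def xc198 : XT := (XT.nd (nat_lit 1326) (nat_lit 228) (nat_lit 0) (XT.nd (nat_lit 624) (nat_lit 152) (nat_lit 0) (XT.nd (nat_lit 312) (nat_lit 228) (nat_lit 0) (XT.nd (nat_lit 156) (nat_lit 0) (nat_lit 0) (XT.nd (nat_lit 78) (nat_lit 76) (nat_lit 0) (XT.lf (nat_lit 0) (nat_lit 53131294413) (nat_lit 228) (nat_lit 23641536764) (nat_lit 76) (nat_lit 12231349443) (nat_lit 13) (nat_lit 5) (nat_lit 16) (nat_lit 5) (nat_lit 14) (nat_lit 4) (nat_lit 320) (nat_lit 269) (nat_lit 131)) (XT.lf (nat_lit 0) (nat_lit 48712145) (nat_lit 76) (nat_lit 64642472683) (nat_lit 152) (nat_lit 27966520208) (nat_lit 12) (nat_lit 5) (nat_lit 13) (nat_lit 5) (nat_lit 14) (nat_lit 4) (nat_lit 321) (nat_lit 269) (nat_lit 130))) (XT.nd (nat_lit 78) (nat_lit 0) (nat_lit 0) (XT.lf (nat_lit 0) (nat_lit 25741427980) (nat_lit 76) (nat_lit 51486285568) (nat_lit 152) (nat_lit 19246263861) (nat_lit 12) (nat_lit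 5) (nat_lit 13) (nat_lit 5) (nat_lit 14) (nat_lit 4) (nat_lit 322) (nat_lit 269) (nat_lit 129)) (XT.lf (nat_lit 0) (nat_lit 52716087900) (nat_lit 76) (nat_lit 37673326440) (nat_lit 152) (nat_lit 10091735514) (nat_lit 12) (nat_lit 5) (nat_lit 13) (nat_lit 5) (nat_lit 14) (nat_lit 4) (nat_lit 323) (nat_lit 269) (nat_lit 128)))) (XT.nd (nat_lit 156) (nat_lit 0) (nat_lit 0) (XT.nd (nat_lit 78) (nat_lit 228) (nat_lit 0) (XT.lf (nat_lit 0) (nat_lit 81036917286) (nat_lit 76) (nat_lit 23170707303) (nat_lit 152) (nat_lit 481138672) (nat_lit 12) (nat_lit 5) (nat_lit 13) (nat_lit 5) (nat_lit 14) (nat_lit 4) (nat_lit 324) (nat_lit 269) (nat_lit 127)) (XT.lf (nat_lit 0) (nat_lit 1564572836) (nat_lit 152) (nat_lit 7760734473) (nat_lit 228) (nat_lit 99772806367) (nat_lit 9) (nat_lit 5) (nat_lit 11) (nat_lit 5) (nat_lit 12) (nat_lit 5) (nat_lit 325) (nat_lit 269) (nat_lit 126))) (XT.nd (nat_lit 78)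 (nat_lit 0) (nat_lit 0) (XT.lf (nat_lit 0) (nat_lit 20142974820) (nat_lit 228) (nat_lit 84993380006) (nat_lit 76) (nat_lit 8564332053) (nat_lit 9) (nat_lit 5) (nat_lit 12) (nat_lit 5) (nat_lit 10) (nat_lit 4) (nat_lit 326) (nat_lit 269) (nat_lit 125)) (XT.lf (nat_lit 0) (nat_lit 31627313732) (nat_lit 228) (nat_lit 61455834139) (nat_lit 76) (nat_lit 25443954399) (nat_lit 9) (nat_lit 5) (nat_lit 12) (nat_lit 5) (nat_lit 10) (nat_lit 4) (nat_lit 327) (nat_lit 269) (nat_lit 124))))) (XT.nd (nat_lit 312) (nat_lit 76) (nat_lit 0) (XT.nd (nat_lit 156) (nat_lit 76) (nat_lit 0) (XT.nd (nat_lit 78) (nat_lit 0) (nat_lit 0) (XT.lf (nat_lit 0) (nat_lit 43684500894) (nat_lit 228) (nat_lit 36743694649) (nat_lit 76) (nat_lit 43166714109) (nat_lit 9) (nat_lit 5) (nat_lit 12) (nat_lit 5) (nat_lit 10) (nat_lit 4) (nat_lit 328) (nat_lit 269) (nat_lit 123)) (XT.lf (nat_lit 0) (nat_lit 56343243895) (nat_lit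 228) (nat_lit 10798123108) (nat_lit 76) (nat_lit 61774808232) (nat_lit 9) (nat_lit 5) (nat_lit 12) (nat_lit 5) (nat_lit 10) (nat_lit 4) (nat_lit 329) (nat_lit 269) (nat_lit 122))) (XT.nd (nat_lit 78) (nat_lit 0) (nat_lit 0) (XT.lf (nat_lit 0) (nat_lit 16986324104) (nat_lit 76) (nat_lit 52912562617) (nat_lit 152) (nat_lit 64591421772) (nat_lit 8) (nat_lit 5) (nat_lit 9) (nat_lit 5) (nat_lit 10) (nat_lit 4) (nat_lit 330) (nat_lit 269) (nat_lit 121)) (XT.lf (nat_lit 0) (nat_lit 46532842183) (nat_lit 76) (nat_lit 37781126799) (nat_lit 152) (nat_lit 56020098977) (nat_lit 8) (nat_lit 5) (nat_lit 9) (nat_lit 5) (nat_lit 10) (nat_lit 4) (nat_lit 331) (nat_lit 269) (nat_lit 120)))) (XT.nd (nat_lit 156) (nat_lit 76) (nat_lit 0) (XT.nd (nat_lit 78) (nat_lit 0) (nat_lit 0) (XT.lf (nat_lit 0) (nat_lit 77554745263) (nat_lit 76) (nat_lit 21893903760) (nat_lit 152) (nat_lit 47021426485) (nat_lit 8)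 (nat_lit 5) (nat_lit 9) (nat_lit 5) (nat_lit 10) (nat_lit 4) (nat_lit 332) (nat_lit 269) (nat_lit 119)) (XT.lf (nat_lit 0) (nat_lit 110125895018) (nat_lit 76) (nat_lit 5213066779) (nat_lit 152) (nat_lit 37573978885) (nat_lit 8) (nat_lit 5) (nat_lit 9) (nat_lit 5) (nat_lit 10) (nat_lit 4) (nat_lit 333) (nat_lit 269) (nat_lit 118))) (XT.nd (nat_lit 78) (nat_lit 76) (nat_lit 0) (XT.lf (nat_lit 0) (nat_lit 132214796036) (nat_lit 152) (nat_lit 15546216484) (nat_lit 0) (nat_lit 11907388386) (nat_lit 8) (nat_lit 5) (nat_lit 10) (nat_lit 4) (nat_lit 8) (nat_lit 4) (nat_lit 334) (nat_lit 269) (nat_lit 117)) (XT.nd (nat_lit 78) (nat_lit 0) (nat_lit 0) (XT.lf (nat_lit 0) (nat_lit 13398305525) (nat_lit 76) (nat_lit 136829752205) (nat_lit 76) (nat_lit 16518896605) (nat_lit 7) (nat_lit 4) (nat_lit 8) (nat_lit 5) (nat_lit 8) (nat_lit 4) (nat_lit 335) (nat_lit 269) (nat_lit 116)) (XT.lf (nat_lit 0)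 (nat_lit 44328092908) (nat_lit 76) (nat_lit 125076184515) (nat_lit 76) (nat_lit 4762045154) (nat_lit 7) (nat_lit 4) (nat_lit 8) (nat_lit 5) (nat_lit 8) (nat_lit 4) (nat_lit 336) (nat_lit 269) (nat_lit 115))))))) (XT.nd (nat_lit 624) (nat_lit 76) (nat_lit 0) (XT.nd (nat_lit 312) (nat_lit 76) (nat_lit 0) (XT.nd (nat_lit 156) (nat_lit 0) (nat_lit 0) (XT.nd (nat_lit 78) (nat_lit 0) (nat_lit 0) (XT.lf (nat_lit 0) (nat_lit 7338998841) (nat_lit 152) (nat_lit 105272319127) (nat_lit 76) (nat_lit 69339471550) (nat_lit 6) (nat_lit 5) (nat_lit 8) (nat_lit 5) (nat_lit 7) (nat_lit 4) (nat_lit 337) (nat_lit 269) (nat_lit 114)) (XT.lf (nat_lit 0) (nat_lit 19884146799) (nat_lit 152) (nat_lit 79557744282) (nat_lit 76) (nat_lit 90678732656) (nat_lit 6) (nat_lit 5) (nat_lit 8) (nat_lit 5) (nat_lit 7) (nat_lit 4) (nat_lit 338) (nat_lit 269) (nat_lit 113))) (XT.nd (nat_lit 78) (nat_lit 0) (nat_lit 0) (XT.lf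 (nat_lit 0) (nat_lit 33055683303) (nat_lit 152) (nat_lit 52558931085) (nat_lit 76) (nat_lit 113084380273) (nat_lit 6) (nat_lit 5) (nat_lit 8) (nat_lit 5) (nat_lit 7) (nat_lit 4) (nat_lit 339) (nat_lit 269) (nat_lit 112)) (XT.lf (nat_lit 0) (nat_lit 46884969155) (nat_lit 152) (nat_lit 24211596649) (nat_lit 76) (nat_lit 136609761182) (nat_lit 6) (nat_lit 5) (nat_lit 8) (nat_lit 5) (nat_lit 7) (nat_lit 4) (nat_lit 340) (nat_lit 269) (nat_lit 111)))) (XT.nd (nat_lit 156) (nat_lit 0) (nat_lit 0) (XT.nd (nat_lit 78) (nat_lit 0) (nat_lit 0) (XT.lf (nat_lit 0) (nat_lit 5735318697) (nat_lit 76) (nat_lit 55759156925) (nat_lit 152) (nat_lit 155665113895) (nat_lit 5) (nat_lit 5) (nat_lit 6) (nat_lit 5) (nat_lit 7) (nat_lit 4) (nat_lit 341) (nat_lit 269) (nat_lit 110)) (XT.lf (nat_lit 0) (nat_lit 38018821750) (nat_lit 76) (nat_lit 39224899456) (nat_lit 152) (nat_lit 149821332121) (nat_lit 5) (nat_lit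 5) (nat_lit 6) (nat_lit 5) (nat_lit 7) (nat_lit 4) (nat_lit 342) (nat_lit 269) (nat_lit 109))) (XT.nd (nat_lit 78) (nat_lit 0) (nat_lit 0) (XT.lf (nat_lit 0) (nat_lit 71915233265) (nat_lit 76) (nat_lit 21864461220) (nat_lit 152) (nat_lit 143686133849) (nat_lit 5) (nat_lit 5) (nat_lit 6) (nat_lit 5) (nat_lit 7) (nat_lit 4) (nat_lit 343) (nat_lit 269) (nat_lit 108)) (XT.lf (nat_lit 0) (nat_lit 107505258985) (nat_lit 76) (nat_lit 3636507842) (nat_lit 152) (nat_lit 137244911462) (nat_lit 5) (nat_lit 5) (nat_lit 6) (nat_lit 5) (nat_lit 7) (nat_lit 4) (nat_lit 344) (nat_lit 269) (nat_lit 107))))) (XT.nd (nat_lit 312) (nat_lit 76) (nat_lit 0) (XT.nd (nat_lit 156) (nat_lit 0) (nat_lit 0) (XT.nd (nat_lit 78) (nat_lit 0) (nat_lit 0) (XT.lf (nat_lit 0) (nat_lit 129613311790) (nat_lit 152) (nat_lit 115222003443) (nat_lit 0) (nat_lit 15006188216) (nat_lit 5) (nat_lit 5) (nat_lit 7) (nat_lit 4)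 (nat_lit 5) (nat_lit 4) (nat_lit 345) (nat_lit 269) (nat_lit 106)) (XT.lf (nat_lit 0) (nat_lit 149067407147) (nat_lit 152) (nat_lit 88340351541) (nat_lit 0) (nat_lit 34458363625) (nat_lit 5) (nat_lit 5) (nat_lit 7) (nat_lit 4) (nat_lit 5) (nat_lit 4) (nat_lit 346) (nat_lit 269) (nat_lit 105))) (XT.nd (nat_lit 78) (nat_lit 0) (nat_lit 0) (XT.lf (nat_lit 0) (nat_lit 169493596094) (nat_lit 152) (nat_lit 60115683587) (nat_lit 0) (nat_lit 54882724051) (nat_lit 5) (nat_lit 5) (nat_lit 7) (nat_lit 4) (nat_lit 5) (nat_lit 4) (nat_lit 347) (nat_lit 269) (nat_lit 104)) (XT.lf (nat_lit 0) (nat_lit 190940512413) (nat_lit 152) (nat_lit 30480797990) (nat_lit 0) (nat_lit 76327898922) (nat_lit 5) (nat_lit 5) (nat_lit 7) (nat_lit 4) (nat_lit 5) (nat_lit 4) (nat_lit 348) (nat_lit 269) (nat_lit 103)))) (XT.nd (nat_lit 31356) (nat_lit 0) (nat_lit 4256) (XT.nd (nat_lit 78) (nat_lit 0) (nat_lit 0) (XT.lf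 (nat_lit 0) (nat_lit 655855988) (nat_lit 76) (nat_lit 212813603954) (nat_lit 76) (nat_lit 98199331940) (nat_lit 4) (nat_lit 4) (nat_lit 5) (nat_lit 5) (nat_lit 5) (nat_lit 4) (nat_lit 349) (nat_lit 269) (nat_lit 102)) (XT.lf (nat_lit 0) (nat_lit 34406615362) (nat_lit 76) (nat_lit 203233903730) (nat_lit 76) (nat_lit 88618052170) (nat_lit 4) (nat_lit 4) (nat_lit 5) (nat_lit 5) (nat_lit 5) (nat_lit 4) (nat_lit 350) (nat_lit 269) (nat_lit 101))) (XT.nd (nat_lit 78) (nat_lit 0) (nat_lit 0) (XT.lf (nat_lit 0) (nat_lit 62376167) (nat_lit 0) (nat_lit 62376167) (nat_lit 684) (nat_lit 8845236629) (nat_lit 60) (nat_lit 5) (nat_lit 60) (nat_lit 3) (nat_lit 69) (nat_lit 3) (nat_lit 270) (nat_lit 270) (nat_lit 180)) (XT.nd (nat_lit 78) (nat_lit 0) (nat_lit 0) (XT.lf (nat_lit 0) (nat_lit 556341697) (nat_lit 684) (nat_lit 10668317310) (nat_lit 760) (nat_lit 7147974684) (nat_lit 60) (nat_lit 5) (nat_lit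 69) (nat_lit 3) (nat_lit 70) (nat_lit 5) (nat_lit 271) (nat_lit 270) (nat_lit 179)) (XT.lf (nat_lit 0) (nat_lit 868796177) (nat_lit 684) (nat_lit 3172777589) (nat_lit 760) (nat_lit 14785886786) (nat_lit 60) (nat_lit 5) (nat_lit 69) (nat_lit 3) (nat_lit 70) (nat_lit 5) (nat_lit 272) (nat_lit 270) (nat_lit 178))))))))
noncomputable def xc199 : XT := (XT.nd (nat_lit 1326) (nat_lit 1672) (nat_lit 0) (XT.nd (nat_lit 624) (nat_lit 1368) (nat_lit 0) (XT.nd (nat_lit 312) (nat_lit 0) (nat_lit 76) (XT.nd (nat_lit 156) (nat_lit 0) (nat_lit 0) (XT.nd (nat_lit 78) (nat_lit 0) (nat_lit 0) (XT.lf (nat_lit 0) (nat_lit 1317300076) (nat_lit 684) (nat_lit 14511527367) (nat_lit 760) (nat_lit 3470229586) (nat_lit 61) (nat_lit 5) (nat_lit 70) (nat_lit 5) (nat_lit 71) (nat_lit 5) (nat_lit 273) (nat_lit 270) (nat_lit 177)) (XT.lf (nat_lit 0) (nat_lit 1898395630) (nat_lit 684) (nat_lit 6609584293) (nat_lit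 760) (nat_lit 11280792330) (nat_lit 61) (nat_lit 5) (nat_lit 70) (nat_lit 5) (nat_lit 71) (nat_lit 5) (nat_lit 274) (nat_lit 270) (nat_lit 176))) (XT.nd (nat_lit 78) (nat_lit 0) (nat_lit 76) (XT.lf (nat_lit 76) (nat_lit 1736456853) (nat_lit 0) (nat_lit 789007464) (nat_lit 760) (nat_lit 17776707999) (nat_lit 62) (nat_lit 5) (nat_lit 61) (nat_lit 5) (nat_lit 71) (nat_lit 5) (nat_lit 275) (nat_lit 270) (nat_lit 175)) (XT.lf (nat_lit 0) (nat_lit 3402123735) (nat_lit 684) (nat_lit 10229488446) (nat_lit 760) (nat_lit 7198761189) (nat_lit 62) (nat_lit 5) (nat_lit 71) (nat_lit 5) (nat_lit 72) (nat_lit 5) (nat_lit 276) (nat_lit 270) (nat_lit 174)))) (XT.nd (nat_lit 156) (nat_lit 0) (nat_lit 76) (XT.nd (nat_lit 78) (nat_lit 0) (nat_lit 76) (XT.lf (nat_lit 0) (nat_lit 4326259100) (nat_lit 684) (nat_lit 1496104482) (nat_lit 760) (nat_lit 15562479556) (nat_lit 62) (nat_lit 5) (nat_lit 71) (nat_lit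 5) (nat_lit 72) (nat_lit 5) (nat_lit 277) (nat_lit 270) (nat_lit 173)) (XT.lf (nat_lit 0) (nat_lit 5450604935) (nat_lit 684) (nat_lit 14079444282) (nat_lit 760) (nat_lit 2429325863) (nat_lit 63) (nat_lit 5) (nat_lit 72) (nat_lit 5) (nat_lit 73) (nat_lit 5) (nat_lit 278) (nat_lit 270) (nat_lit 172))) (XT.nd (nat_lit 78) (nat_lit 0) (nat_lit 0) (XT.lf (nat_lit 0) (nat_lit 6743878032) (nat_lit 684) (nat_lit 4887316258) (nat_lit 760) (nat_lit 10925840847) (nat_lit 63) (nat_lit 5) (nat_lit 72) (nat_lit 5) (nat_lit 73) (nat_lit 5) (nat_lit 279) (nat_lit 270) (nat_lit 171)) (XT.lf (nat_lit 76) (nat_lit 4915266174) (nat_lit 0) (nat_lit 3255202803) (nat_lit 760) (nat_lit 15010711766) (nat_lit 64) (nat_lit 5) (nat_lit 63) (nat_lit 5) (nat_lit 73) (nat_lit 5) (nat_lit 280) (nat_lit 270) (nat_lit 170))))) (XT.nd (nat_lit 312) (nat_lit 912) (nat_lit 0) (XT.nd (nat_lit 156) (nat_lit 0) (nat_lit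 0) (XT.nd (nat_lit 78) (nat_lit 684) (nat_lit 0) (XT.lf (nat_lit 0) (nat_lit 9831225097) (nat_lit 684) (nat_lit 8549399092) (nat_lit 76) (nat_lit 5447801234) (nat_lit 64) (nat_lit 5) (nat_lit 73) (nat_lit 5) (nat_lit 65) (nat_lit 5) (nat_lit 281) (nat_lit 270) (nat_lit 169)) (XT.lf (nat_lit 0) (nat_lit 1645764477) (nat_lit 684) (nat_lit 10000905134) (nat_lit 760) (nat_lit 12857812175) (nat_lit 55) (nat_lit 5) (nat_lit 64) (nat_lit 5) (nat_lit 65) (nat_lit 5) (nat_lit 282) (nat_lit 270) (nat_lit 168))) (XT.nd (nat_lit 78) (nat_lit 0) (nat_lit 0) (XT.lf (nat_lit 0) (nat_lit 12641118270) (nat_lit 684) (nat_lit 1049401018) (nat_lit 760) (nat_lit 11516970488) (nat_lit 55) (nat_lit 5) (nat_lit 64) (nat_lit 5) (nat_lit 65) (nat_lit 5) (nat_lit 283) (nat_lit 270) (nat_lit 167)) (XT.lf (nat_lit 0) (nat_lit 15960120249) (nat_lit 760) (nat_lit 1896231293) (nat_lit 76) (nat_lit 8083147686) (nat_lit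 55) (nat_lit 5) (nat_lit 65) (nat_lit 5) (nat_lit 56) (nat_lit 5) (nat_lit 284) (nat_lit 270) (nat_lit 166)))) (XT.nd (nat_lit 156) (nat_lit 608) (nat_lit 0) (XT.nd (nat_lit 78) (nat_lit 0) (nat_lit 0) (XT.lf (nat_lit 0) (nat_lit 9591032229) (nat_lit 304) (nat_lit 8912636096) (nat_lit 380) (nat_lit 8196445098) (nat_lit 51) (nat_lit 5) (nat_lit 55) (nat_lit 5) (nat_lit 56) (nat_lit 5) (nat_lit 285) (nat_lit 270) (nat_lit 165)) (XT.lf (nat_lit 0) (nat_lit 21208239094) (nat_lit 380) (nat_lit 5793051309) (nat_lit 76) (nat_lit 495801968) (nat_lit 51) (nat_lit 5) (nat_lit 56) (nat_lit 5) (nat_lit 52) (nat_lit 5) (nat_lit 286) (nat_lit 270) (nat_lit 164))) (XT.nd (nat_lit 78) (nat_lit 304) (nat_lit 0) (XT.lf (nat_lit 0) (nat_lit 6132869062) (nat_lit 304) (nat_lit 18151065764) (nat_lit 380) (nat_lit 4038215674) (nat_lit 47) (nat_lit 5) (nat_lit 51) (nat_lit 5) (nat_lit 52) (nat_lit 5) (nat_lit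 287) (nat_lit 270) (nat_lit 163)) (XT.nd (nat_lit 78) (nat_lit 304) (nat_lit 0) (XT.lf (nat_lit 0) (nat_lit 18850213047) (nat_lit 304) (nat_lit 8755537189) (nat_lit 380) (nat_lit 1578118418) (nat_lit 47) (nat_lit 5) (nat_lit 51) (nat_lit 5) (nat_lit 52) (nat_lit 5) (nat_lit 288) (nat_lit 270) (nat_lit 162)) (XT.lf (nat_lit 0) (nat_lit 1019100385) (nat_lit 304) (nat_lit 27942280873) (nat_lit 76) (nat_lit 1124214447) (nat_lit 43) (nat_lit 5) (nat_lit 47) (nat_lit 5) (nat_lit 44) (nat_lit 5) (nat_lit 289) (nat_lit 270) (nat_lit 161))))))) (XT.nd (nat_lit 702) (nat_lit 912) (nat_lit 0) (XT.nd (nat_lit 312) (nat_lit 456) (nat_lit 0) (XT.nd (nat_lit 156) (nat_lit 304) (nat_lit 0) (XT.nd (nat_lit 78) (nat_lit 0) (nat_lit 0) (XT.lf (nat_lit 0) (nat_lit 4009112606) (nat_lit 304) (nat_lit 15599143645) (nat_lit 76) (nat_lit 11407081552) (nat_lit 43) (nat_lit 5) (nat_lit 47) (nat_lit 5) (nat_lit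 44) (nat_lit 5) (nat_lit 290) (nat_lit 270) (nat_lit 160)) (XT.lf (nat_lit 0) (nat_lit 7143444301) (nat_lit 304) (nat_lit 2644665422) (nat_lit 76) (nat_lit 22203735970) (nat_lit 43) (nat_lit 5) (nat_lit 47) (nat_lit 5) (nat_lit 44) (nat_lit 5) (nat_lit 291) (nat_lit 270) (nat_lit 159))) (XT.nd (nat_lit 78) (nat_lit 0) (nat_lit 0) (XT.lf (nat_lit 0) (nat_lit 10617255859) (nat_lit 380) (nat_lit 21705544411) (nat_lit 76) (nat_lit 685259241) (nat_lit 39) (nat_lit 5) (nat_lit 44) (nat_lit 5) (nat_lit 40) (nat_lit 5) (nat_lit 292) (nat_lit 270) (nat_lit 158)) (XT.lf (nat_lit 0) (nat_lit 14465946829) (nat_lit 380) (nat_lit 8200864412) (nat_lit 76) (nat_lit 11398231142) (nat_lit 39) (nat_lit 5) (nat_lit 44) (nat_lit 5) (nat_lit 40) (nat_lit 5) (nat_lit 293) (nat_lit 270) (nat_lit 157)))) (XT.nd (nat_lit 156) (nat_lit 228) (nat_lit 0) (XT.nd (nat_lit 78) (nat_lit 0) (nat_lit 0) (XT.lf (nat_lit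 0) (nat_lit 6171139609) (nat_lit 228) (nat_lit 12427714941) (nat_lit 304) (nat_lit 16571447698) (nat_lit 36) (nat_lit 5) (nat_lit 39) (nat_lit 5) (nat_lit 40) (nat_lit 5) (nat_lit 294) (nat_lit 270) (nat_lit 156)) (XT.lf (nat_lit 0) (nat_lit 21541121844) (nat_lit 228) (nat_lit 1531738963) (nat_lit 304) (nat_lit 13251257793) (nat_lit 36) (nat_lit 5) (nat_lit 39) (nat_lit 5) (nat_lit 40) (nat_lit 5) (nat_lit 295) (nat_lit 270) (nat_lit 155))) (XT.nd (nat_lit 78) (nat_lit 228) (nat_lit 0) (XT.lf (nat_lit 0) (nat_lit 27921040350) (nat_lit 304) (nat_lit 16026710) (nat_lit 76) (nat_lit 9591050441) (nat_lit 36) (nat_lit 5) (nat_lit 40) (nat_lit 5) (nat_lit 37) (nat_lit 5) (nat_lit 296) (nat_lit 270) (nat_lit 154)) (XT.nd (nat_lit 78) (nat_lit 0) (nat_lit 0) (XT.lf (nat_lit 0) (nat_lit 15970286149) (nat_lit 228) (nat_lit 17311760932) (nat_lit 304) (nat_lit 5496763005) (nat_lit 33) (nat_lit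 5) (nat_lit 36) (nat_lit 5) (nat_lit 37) (nat_lit 5) (nat_lit 297) (nat_lit 270) (nat_lit 153)) (XT.lf (nat_lit 0) (nat_lit 32751508315) (nat_lit 228) (nat_lit 6155948643) (nat_lit 304) (nat_lit 1184776655) (nat_lit 33) (nat_lit 5) (nat_lit 36) (nat_lit 5) (nat_lit 37) (nat_lit 5) (nat_lit 298) (nat_lit 270) (nat_lit 152)))))) (XT.nd (nat_lit 312) (nat_lit 380) (nat_lit 0) (XT.nd (nat_lit 156) (nat_lit 228) (nat_lit 0) (XT.nd (nat_lit 78) (nat_lit 0) (nat_lit 0) (XT.lf (nat_lit 0) (nat_lit 3464595700) (nat_lit 304) (nat_lit 32415927137) (nat_lit 76) (nat_lit 5576769729) (nat_lit 29) (nat_lit 5) (nat_lit 33) (nat_lit 5) (nat_lit 30) (nat_lit 5) (nat_lit 299) (nat_lit 270) (nat_lit 151)) (XT.lf (nat_lit 0) (nat_lit 8530177834) (nat_lit 304) (nat_lit 16514318721) (nat_lit 76) (nat_lit 17833970965) (nat_lit 29) (nat_lit 5) (nat_lit 33) (nat_lit 5) (nat_lit 30) (nat_lit 5) (nat_lit 300)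 (nat_lit 270) (nat_lit 150))) (XT.nd (nat_lit 78) (nat_lit 0) (nat_lit 0) (XT.lf (nat_lit 0) (nat_lit 183513679) (nat_lit 228) (nat_lit 13664851021) (nat_lit 304) (nat_lit 30522381717) (nat_lit 26) (nat_lit 5) (nat_lit 29) (nat_lit 5) (nat_lit 30) (nat_lit 5) (nat_lit 301) (nat_lit 270) (nat_lit 149)) (XT.lf (nat_lit 0) (nat_lit 18284923827) (nat_lit 228) (nat_lit 1423771417) (nat_lit 304) (nat_lit 26215143231) (nat_lit 26) (nat_lit 5) (nat_lit 29) (nat_lit 5) (nat_lit 30) (nat_lit 5) (nat_lit 302) (nat_lit 270) (nat_lit 148)))) (XT.nd (nat_lit 156) (nat_lit 228) (nat_lit 0) (XT.nd (nat_lit 78) (nat_lit 152) (nat_lit 0) (XT.lf (nat_lit 0) (nat_lit 26037189034) (nat_lit 304) (nat_lit 10446213552) (nat_lit 76) (nat_lit 11062435625) (nat_lit 26) (nat_lit 5) (nat_lit 30) (nat_lit 5) (nat_lit 27) (nat_lit 5) (nat_lit 303) (nat_lit 270) (nat_lit 147)) (XT.lf (nat_lit 0) (nat_lit 7828988589)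 (nat_lit 152) (nat_lit 24995551267) (nat_lit 228) (nat_lit 16417286373) (nat_lit 24) (nat_lit 5) (nat_lit 26) (nat_lit 5) (nat_lit 27) (nat_lit 5) (nat_lit 304) (nat_lit 270) (nat_lit 146))) (XT.nd (nat_lit 78) (nat_lit 228) (nat_lit 0) (XT.lf (nat_lit 0) (nat_lit 27376320245) (nat_lit 152) (nat_lit 12748791458) (nat_lit 228) (nat_lit 10888818716) (nat_lit 24) (nat_lit 5) (nat_lit 26) (nat_lit 5) (nat_lit 27) (nat_lit 5) (nat_lit 305) (nat_lit 270) (nat_lit 145)) (XT.nd (nat_lit 78) (nat_lit 228) (nat_lit 0) (XT.lf (nat_lit 0) (nat_lit 47789503307) (nat_lit 228) (nat_lit 4979574488) (nat_lit 76) (nat_lit 105631459) (nat_lit 24) (nat_lit 5) (nat_lit 27) (nat_lit 5) (nat_lit 25) (nat_lit 5) (nat_lit 306) (nat_lit 270) (nat_lit 144)) (XT.lf (nat_lit 0) (nat_lit 1421921918) (nat_lit 228) (nat_lit 39955137047) (nat_lit 76) (nat_lit 13428408100) (nat_lit 21) (nat_lit 5) (nat_lit 24) (nat_lit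 5) (nat_lit 22) (nat_lit 5) (nat_lit 307) (nat_lit 270) (nat_lit 143))))))))
noncomputable def xc200 : XT := (XT.nd (nat_lit 1326) (nat_lit 456) (nat_lit 0) (XT.nd (nat_lit 624) (nat_lit 380) (nat_lit 0) (XT.nd (nat_lit 312) (nat_lit 152) (nat_lit 0) (XT.nd (nat_lit 156) (nat_lit 152) (nat_lit 0) (XT.nd (nat_lit 78) (nat_lit 0) (nat_lit 0) (XT.lf (nat_lit 0) (nat_lit 8166450982) (nat_lit 228) (nat_lit 21072747324) (nat_lit 76) (nat_lit 27585256976) (nat_lit 21) (nat_lit 5) (nat_lit 24) (nat_lit 5) (nat_lit 22) (nat_lit 5) (nat_lit 308) (nat_lit 270) (nat_lit 142)) (XT.lf (nat_lit 0) (nat_lit 15245565623) (nat_lit 228) (nat_lit 1250108543) (nat_lit 76) (nat_lit 42448858184) (nat_lit 21) (nat_lit 5) (nat_lit 24) (nat_lit 5) (nat_lit 22) (nat_lit 5) (nat_lit 309) (nat_lit 270) (nat_lit 141))) (XT.nd (nat_lit 78) (nat_lit 0) (nat_lit 0) (XT.lf (nat_lit 0) (nat_lit 20206717196) (nat_lit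 152) (nat_lit 2784887166) (nat_lit 228) (nat_lit 38163367539) (nat_lit 19) (nat_lit 5) (nat_lit 21) (nat_lit 5) (nat_lit 22) (nat_lit 5) (nat_lit 310) (nat_lit 270) (nat_lit 140)) (XT.lf (nat_lit 0) (nat_lit 31325280093) (nat_lit 228) (nat_lit 20880461516) (nat_lit 76) (nat_lit 11260181779) (nat_lit 19) (nat_lit 5) (nat_lit 22) (nat_lit 5) (nat_lit 20) (nat_lit 5) (nat_lit 311) (nat_lit 270) (nat_lit 139)))) (XT.nd (nat_lit 156) (nat_lit 0) (nat_lit 0) (XT.nd (nat_lit 78) (nat_lit 0) (nat_lit 0) (XT.lf (nat_lit 0) (nat_lit 146186675) (nat_lit 152) (nat_lit 39975036526) (nat_lit 228) (nat_lit 25768926459) (nat_lit 17) (nat_lit 5) (nat_lit 19) (nat_lit 5) (nat_lit 20) (nat_lit 5) (nat_lit 312) (nat_lit 270) (nat_lit 138)) (XT.lf (nat_lit 0) (nat_lit 22945587510) (nat_lit 152) (nat_lit 26762701348) (nat_lit 228) (nat_lit 18709738207) (nat_lit 17) (nat_lit 5) (nat_lit 19) (nat_lit 5) (nat_lit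 20) (nat_lit 5) (nat_lit 313) (nat_lit 270) (nat_lit 137))) (XT.nd (nat_lit 78) (nat_lit 0) (nat_lit 0) (XT.lf (nat_lit 0) (nat_lit 46881622917) (nat_lit 152) (nat_lit 12890898853) (nat_lit 228) (nat_lit 11299891668) (nat_lit 17) (nat_lit 5) (nat_lit 19) (nat_lit 5) (nat_lit 20) (nat_lit 5) (nat_lit 314) (nat_lit 270) (nat_lit 136)) (XT.lf (nat_lit 0) (nat_lit 70364010848) (nat_lit 228) (nat_lit 1874471738) (nat_lit 76) (nat_lit 1619839839) (nat_lit 17) (nat_lit 5) (nat_lit 20) (nat_lit 5) (nat_lit 18) (nat_lit 4) (nat_lit 315) (nat_lit 270) (nat_lit 135))))) (XT.nd (nat_lit 312) (nat_lit 76) (nat_lit 0) (XT.nd (nat_lit 156) (nat_lit 152) (nat_lit 0) (XT.nd (nat_lit 78) (nat_lit 0) (nat_lit 0) (XT.lf (nat_lit 0) (nat_lit 5113711187) (nat_lit 152) (nat_lit 54789406062) (nat_lit 76) (nat_lit 16848612274) (nat_lit 15) (nat_lit 5) (nat_lit 17) (nat_lit 5) (nat_lit 16) (nat_lit 5) (nat_lit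 316) (nat_lit 270) (nat_lit 134)) (XT.lf (nat_lit 0) (nat_lit 14064980262) (nat_lit 152) (nat_lit 32793121873) (nat_lit 76) (nat_lit 32927331574) (nat_lit 15) (nat_lit 5) (nat_lit 17) (nat_lit 5) (nat_lit 16) (nat_lit 5) (nat_lit 317) (nat_lit 270) (nat_lit 133))) (XT.nd (nat_lit 78) (nat_lit 152) (nat_lit 0) (XT.lf (nat_lit 0) (nat_lit 23461918940) (nat_lit 152) (nat_lit 9700008038) (nat_lit 76) (nat_lit 49808995361) (nat_lit 15) (nat_lit 5) (nat_lit 17) (nat_lit 5) (nat_lit 16) (nat_lit 5) (nat_lit 318) (nat_lit 270) (nat_lit 132)) (XT.lf (nat_lit 0) (nat_lit 15025839759) (nat_lit 152) (nat_lit 18535656595) (nat_lit 228) (nat_lit 52742553784) (nat_lit 13) (nat_lit 5) (nat_lit 15) (nat_lit 5) (nat_lit 16) (nat_lit 5) (nat_lit 319) (nat_lit 270) (nat_lit 131)))) (XT.nd (nat_lit 156) (nat_lit 76) (nat_lit 0) (XT.nd (nat_lit 78) (nat_lit 0) (nat_lit 0) (XT.lf (nat_lit 0) (nat_lit 41321945727)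 (nat_lit 152) (nat_lit 3006619799) (nat_lit 228) (nat_lit 45467147274) (nat_lit 13) (nat_lit 5) (nat_lit 15) (nat_lit 5) (nat_lit 16) (nat_lit 5) (nat_lit 320) (nat_lit 270) (nat_lit 130)) (XT.lf (nat_lit 0) (nat_lit 55839927816) (nat_lit 228) (nat_lit 24739470049) (nat_lit 76) (nat_lit 12872267672) (nat_lit 13) (nat_lit 5) (nat_lit 16) (nat_lit 5) (nat_lit 14) (nat_lit 4) (nat_lit 321) (nat_lit 270) (nat_lit 129))) (XT.nd (nat_lit 78) (nat_lit 0) (nat_lit 0) (XT.lf (nat_lit 0) (nat_lit 133934151) (nat_lit 76) (nat_lit 67842691667) (nat_lit 152) (nat_lit 29311305449) (nat_lit 12) (nat_lit 5) (nat_lit 13) (nat_lit 5) (nat_lit 14) (nat_lit 4) (nat_lit 322) (nat_lit 270) (nat_lit 128)) (XT.nd (nat_lit 78) (nat_lit 0) (nat_lit 0) (XT.lf (nat_lit 0) (nat_lit 27107343569) (nat_lit 76) (nat_lit 54030214465) (nat_lit 152) (nat_lit 20157585845) (nat_lit 12) (nat_lit 5) (nat_lit 13) (nat_lit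 5) (nat_lit 14) (nat_lit 4) (nat_lit 323) (nat_lit 270) (nat_lit 127)) (XT.lf (nat_lit 0) (nat_lit 55426982000) (nat_lit 76) (nat_lit 39528054304) (nat_lit 152) (nat_lit 10547759234) (nat_lit 12) (nat_lit 5) (nat_lit 13) (nat_lit 5) (nat_lit 14) (nat_lit 4) (nat_lit 324) (nat_lit 270) (nat_lit 126))))))) (XT.nd (nat_lit 624) (nat_lit 152) (nat_lit 0) (XT.nd (nat_lit 312) (nat_lit 76) (nat_lit 0) (XT.nd (nat_lit 156) (nat_lit 0) (nat_lit 0) (XT.nd (nat_lit 78) (nat_lit 228) (nat_lit 0) (XT.lf (nat_lit 0) (nat_lit 85160277154) (nat_lit 76) (nat_lit 24301682231) (nat_lit 152) (nat_lit 458945076) (nat_lit 12) (nat_lit 5) (nat_lit 13) (nat_lit 5) (nat_lit 14) (nat_lit 4) (nat_lit 325) (nat_lit 270) (nat_lit 125)) (XT.lf (nat_lit 0) (nat_lit 1714711491) (nat_lit 152) (nat_lit 8120622208) (nat_lit 228) (nat_lit 104715407556) (nat_lit 9) (nat_lit 5) (nat_lit 11) (nat_lit 5) (nat_lit 12) (nat_lit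 5) (nat_lit 326) (nat_lit 270) (nat_lit 124))) (XT.nd (nat_lit 78) (nat_lit 0) (nat_lit 0) (XT.lf (nat_lit 0) (nat_lit 21192219285) (nat_lit 228) (nat_lit 89172812213) (nat_lit 76) (nat_lit 9018499175) (nat_lit 9) (nat_lit 5) (nat_lit 12) (nat_lit 5) (nat_lit 10) (nat_lit 4) (nat_lit 327) (nat_lit 270) (nat_lit 123)) (XT.lf (nat_lit 0) (nat_lit 33248770584) (nat_lit 228) (nat_lit 64461733662) (nat_lit 76) (nat_lit 26740866898) (nat_lit 9) (nat_lit 5) (nat_lit 12) (nat_lit 5) (nat_lit 10) (nat_lit 4) (nat_lit 328) (nat_lit 270) (nat_lit 122)))) (XT.nd (nat_lit 156) (nat_lit 76) (nat_lit 0) (XT.nd (nat_lit 78) (nat_lit 0) (nat_lit 0) (XT.lf (nat_lit 0) (nat_lit 45906908001) (nat_lit 228) (nat_lit 38517172539) (nat_lit 76) (nat_lit 45348587700) (nat_lit 9) (nat_lit 5) (nat_lit 12) (nat_lit 5) (nat_lit 10) (nat_lit 4) (nat_lit 329) (nat_lit 270) (nat_lit 121)) (XT.lf (nat_lit 0) (nat_lit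 59196769958) (nat_lit 228) (nat_lit 11277356081) (nat_lit 76) (nat_lit 64885965677) (nat_lit 9) (nat_lit 5) (nat_lit 12) (nat_lit 5) (nat_lit 10) (nat_lit 4) (nat_lit 330) (nat_lit 270) (nat_lit 120))) (XT.nd (nat_lit 78) (nat_lit 0) (nat_lit 0) (XT.lf (nat_lit 0) (nat_lit 17895334893) (nat_lit 76) (nat_lit 55534060421) (nat_lit 152) (nat_lit 67783579833) (nat_lit 8) (nat_lit 5) (nat_lit 9) (nat_lit 5) (nat_lit 10) (nat_lit 4) (nat_lit 331) (nat_lit 270) (nat_lit 119)) (XT.lf (nat_lit 0) (nat_lit 48916336276) (nat_lit 76) (nat_lit 39647201875) (nat_lit 152) (nat_lit 58785472471) (nat_lit 8) (nat_lit 5) (nat_lit 9) (nat_lit 5) (nat_lit 10) (nat_lit 4) (nat_lit 332) (nat_lit 270) (nat_lit 118))))) (XT.nd (nat_lit 312) (nat_lit 76) (nat_lit 0) (XT.nd (nat_lit 156) (nat_lit 76) (nat_lit 0) (XT.nd (nat_lit 78) (nat_lit 0) (nat_lit 0) (XT.lf (nat_lit 0) (nat_lit 81486627272) (nat_lit 76)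 (nat_lit 22966712030) (nat_lit 152) (nat_lit 49338563090) (nat_lit 8) (nat_lit 5) (nat_lit 9) (nat_lit 5) (nat_lit 10) (nat_lit 4) (nat_lit 333) (nat_lit 270) (nat_lit 117)) (XT.lf (nat_lit 0) (nat_lit 115683756194) (nat_lit 76) (nat_lit 5452875434) (nat_lit 152) (nat_lit 39420359050) (nat_lit 8) (nat_lit 5) (nat_lit 9) (nat_lit 5) (nat_lit 10) (nat_lit 4) (nat_lit 334) (nat_lit 270) (nat_lit 116))) (XT.nd (nat_lit 78) (nat_lit 76) (nat_lit 0) (XT.lf (nat_lit 0) (nat_lit 138855104585) (nat_lit 152) (nat_lit 16273205385) (nat_lit 0) (nat_lit 12521974495) (nat_lit 8) (nat_lit 5) (nat_lit 10) (nat_lit 4) (nat_lit 8) (nat_lit 4) (nat_lit 335) (nat_lit 270) (nat_lit 115)) (XT.lf (nat_lit 0) (nat_lit 14117731081) (nat_lit 76) (nat_lit 143650663242) (nat_lit 76) (nat_lit 17314405759) (nat_lit 7) (nat_lit 4) (nat_lit 8) (nat_lit 5) (nat_lit 8) (nat_lit 4) (nat_lit 336) (nat_lit 270) (nat_lit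 114)))) (XT.nd (nat_lit 156) (nat_lit 0) (nat_lit 0) (XT.nd (nat_lit 78) (nat_lit 76) (nat_lit 0) (XT.lf (nat_lit 0) (nat_lit 46591650200) (nat_lit 76) (nat_lit 131310397005) (nat_lit 76) (nat_lit 4971161053) (nat_lit 7) (nat_lit 4) (nat_lit 8) (nat_lit 5) (nat_lit 8) (nat_lit 4) (nat_lit 337) (nat_lit 270) (nat_lit 113)) (XT.lf (nat_lit 0) (nat_lit 7732671273) (nat_lit 152) (nat_lit 110490096477) (nat_lit 76) (nat_lit 72824177363) (nat_lit 6) (nat_lit 5) (nat_lit 8) (nat_lit 5) (nat_lit 7) (nat_lit 4) (nat_lit 338) (nat_lit 270) (nat_lit 112))) (XT.nd (nat_lit 78) (nat_lit 0) (nat_lit 0) (XT.lf (nat_lit 0) (nat_lit 20903804129) (nat_lit 152) (nat_lit 83491975681) (nat_lit 76) (nat_lit 95229557132) (nat_lit 6) (nat_lit 5) (nat_lit 8) (nat_lit 5) (nat_lit 7) (nat_lit 4) (nat_lit 339) (nat_lit 270) (nat_lit 111)) (XT.nd (nat_lit 78) (nat_lit 0) (nat_lit 0) (XT.lf (nat_lit 0) (nat_lit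 34732705554) (nat_lit 152) (nat_lit 55145300672) (nat_lit 76) (nat_lit 118754682947) (nat_lit 6) (nat_lit 5) (nat_lit 8) (nat_lit 5) (nat_lit 7) (nat_lit 4) (nat_lit 340) (nat_lit 270) (nat_lit 110)) (XT.lf (nat_lit 0) (nat_lit 49252301504) (nat_lit 152) (nat_lit 25382579370) (nat_lit 76) (nat_lit 143455567012) (nat_lit 6) (nat_lit 5) (nat_lit 8) (nat_lit 5) (nat_lit 7) (nat_lit 4) (nat_lit 341) (nat_lit 270) (nat_lit 109))))))))
noncomputable def xc201 : XT := (XT.nd (nat_lit 32682) (nat_lit 0) (nat_lit 2128) (XT.nd (nat_lit 31980) (nat_lit 0) (nat_lit 4180) (XT.nd (nat_lit 312) (nat_lit 0) (nat_lit 0) (XT.nd (nat_lit 156) (nat_lit 0) (nat_lit 0) (XT.nd (nat_lit 78) (nat_lit 0) (nat_lit 0) (XT.lf (nat_lit 0) (nat_lit 6061043080) (nat_lit 76) (nat_lit 58530749232) (nat_lit 152) (nat_lit 163424607745) (nat_lit 5) (nat_lit 5) (nat_lit 6) (nat_lit 5) (nat_lit 7) (nat_lit 4) (nat_lit 342)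 (nat_lit 270) (nat_lit 108)) (XT.lf (nat_lit 0) (nat_lit 39956866121) (nat_lit 76) (nat_lit 41170558201) (nat_lit 152) (nat_lit 157289768399) (nat_lit 5) (nat_lit 5) (nat_lit 6) (nat_lit 5) (nat_lit 7) (nat_lit 4) (nat_lit 343) (nat_lit 270) (nat_lit 107))) (XT.nd (nat_lit 78) (nat_lit 0) (nat_lit 0) (XT.lf (nat_lit 0) (nat_lit 75546331389) (nat_lit 76) (nat_lit 22942840255) (nat_lit 152) (nat_lit 150848887848) (nat_lit 5) (nat_lit 5) (nat_lit 6) (nat_lit 5) (nat_lit 7) (nat_lit 4) (nat_lit 344) (nat_lit 270) (nat_lit 106)) (XT.lf (nat_lit 0) (nat_lit 112914175706) (nat_lit 76) (nat_lit 3804196065) (nat_lit 152) (nat_lit 144086630661) (nat_lit 5) (nat_lit 5) (nat_lit 6) (nat_lit 5) (nat_lit 7) (nat_lit 4) (nat_lit 345) (nat_lit 270) (nat_lit 105)))) (XT.nd (nat_lit 156) (nat_lit 0) (nat_lit 0) (XT.nd (nat_lit 78) (nat_lit 0) (nat_lit 0) (XT.lf (nat_lit 0) (nat_lit 136112774832) (nat_lit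 152) (nat_lit 120950300928) (nat_lit 0) (nat_lit 15769530665) (nat_lit 5) (nat_lit 5) (nat_lit 7) (nat_lit 4) (nat_lit 5) (nat_lit 4) (nat_lit 346) (nat_lit 270) (nat_lit 104)) (XT.lf (nat_lit 0) (nat_lit 156538679840) (nat_lit 152) (nat_lit 92726128464) (nat_lit 0) (nat_lit 36193694225) (nat_lit 5) (nat_lit 5) (nat_lit 7) (nat_lit 4) (nat_lit 5) (nat_lit 4) (nat_lit 347) (nat_lit 270) (nat_lit 103))) (XT.nd (nat_lit 78) (nat_lit 0) (nat_lit 0) (XT.lf (nat_lit 0) (nat_lit 177985325742) (nat_lit 152) (nat_lit 63091714762) (nat_lit 0) (nat_lit 57638681604) (nat_lit 5) (nat_lit 5) (nat_lit 7) (nat_lit 4) (nat_lit 5) (nat_lit 4) (nat_lit 348) (nat_lit 270) (nat_lit 102)) (XT.lf (nat_lit 0) (nat_lit 200503775980) (nat_lit 152) (nat_lit 31976501694) (nat_lit 0) (nat_lit 80155552297) (nat_lit 5) (nat_lit 5) (nat_lit 7) (nat_lit 4) (nat_lit 5) (nat_lit 4) (nat_lit 349) (nat_lit 270) (nat_lit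 101))))) (XT.nd (nat_lit 312) (nat_lit 0) (nat_lit 76) (XT.nd (nat_lit 156) (nat_lit 0) (nat_lit 0) (XT.nd (nat_lit 78) (nat_lit 0) (nat_lit 0) (XT.lf (nat_lit 0) (nat_lit 156703124) (nat_lit 0) (nat_lit 156703124) (nat_lit 684) (nat_lit 9095160340) (nat_lit 60) (nat_lit 5) (nat_lit 60) (nat_lit 3) (nat_lit 69) (nat_lit 3) (nat_lit 271) (nat_lit 271) (nat_lit 178)) (XT.lf (nat_lit 0) (nat_lit 928905989) (nat_lit 684) (nat_lit 11006392249) (nat_lit 760) (nat_lit 7337204049) (nat_lit 60) (nat_lit 5) (nat_lit 69) (nat_lit 3) (nat_lit 70) (nat_lit 5) (nat_lit 272) (nat_lit 271) (nat_lit 177))) (XT.nd (nat_lit 78) (nat_lit 0) (nat_lit 76) (XT.lf (nat_lit 0) (nat_lit 1240566658) (nat_lit 684) (nat_lit 3145377492) (nat_lit 760) (nat_lit 15365019822) (nat_lit 60) (nat_lit 5) (nat_lit 69) (nat_lit 3) (nat_lit 70) (nat_lit 5) (nat_lit 273) (nat_lit 271) (nat_lit 176)) (XT.lf (nat_lit 0) (nat_lit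 1696649766) (nat_lit 684) (nat_lit 15034834891) (nat_lit 760) (nat_lit 3515467110) (nat_lit 61) (nat_lit 5) (nat_lit 70) (nat_lit 5) (nat_lit 71) (nat_lit 5) (nat_lit 274) (nat_lit 271) (nat_lit 175)))) (XT.nd (nat_lit 156) (nat_lit 0) (nat_lit 76) (XT.nd (nat_lit 78) (nat_lit 0) (nat_lit 0) (XT.lf (nat_lit 0) (nat_lit 2291872255) (nat_lit 684) (nat_lit 6747426513) (nat_lit 760) (nat_lit 11722666275) (nat_lit 61) (nat_lit 5) (nat_lit 70) (nat_lit 5) (nat_lit 71) (nat_lit 5) (nat_lit 275) (nat_lit 271) (nat_lit 174)) (XT.lf (nat_lit 76) (nat_lit 2012809643) (nat_lit 0) (nat_lit 926226834) (nat_lit 760) (nat_lit 18362624287) (nat_lit 62) (nat_lit 5) (nat_lit 61) (nat_lit 5) (nat_lit 71) (nat_lit 5) (nat_lit 276) (nat_lit 271) (nat_lit 173))) (XT.nd (nat_lit 78) (nat_lit 0) (nat_lit 0) (XT.lf (nat_lit 0) (nat_lit 3844394204) (nat_lit 684) (nat_lit 10544128046) (nat_lit 760) (nat_lit 7468566125)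 (nat_lit 62) (nat_lit 5) (nat_lit 71) (nat_lit 5) (nat_lit 72) (nat_lit 5) (nat_lit 277) (nat_lit 271) (nat_lit 172)) (XT.nd (nat_lit 78) (nat_lit 0) (nat_lit 76) (XT.lf (nat_lit 0) (nat_lit 4801776134) (nat_lit 684) (nat_lit 1383447971) (nat_lit 760) (nat_lit 16254762464) (nat_lit 62) (nat_lit 5) (nat_lit 71) (nat_lit 5) (nat_lit 72) (nat_lit 5) (nat_lit 278) (nat_lit 271) (nat_lit 171)) (XT.lf (nat_lit 0) (nat_lit 5971856251) (nat_lit 684) (nat_lit 14584387445) (nat_lit 760) (nat_lit 2487579777) (nat_lit 63) (nat_lit 5) (nat_lit 72) (nat_lit 5) (nat_lit 73) (nat_lit 5) (nat_lit 279) (nat_lit 271) (nat_lit 170))))))) (XT.nd (nat_lit 702) (nat_lit 1064) (nat_lit 0) (XT.nd (nat_lit 312) (nat_lit 608) (nat_lit 0) (XT.nd (nat_lit 156) (nat_lit 608) (nat_lit 0) (XT.nd (nat_lit 78) (nat_lit 0) (nat_lit 0) (XT.lf (nat_lit 0) (nat_lit 7317949142) (nat_lit 684) (nat_lit 4942130594) (nat_lit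 760) (nat_lit 11411930624) (nat_lit 63) (nat_lit 5) (nat_lit 72) (nat_lit 5) (nat_lit 73) (nat_lit 5) (nat_lit 280) (nat_lit 271) (nat_lit 169)) (XT.lf (nat_lit 76) (nat_lit 5347523678) (nat_lit 0) (nat_lit 3459977787) (nat_lit 760) (nat_lit 15520329365) (nat_lit 64) (nat_lit 5) (nat_lit 63) (nat_lit 5) (nat_lit 73) (nat_lit 5) (nat_lit 281) (nat_lit 271) (nat_lit 168))) (XT.nd (nat_lit 78) (nat_lit 684) (nat_lit 0) (XT.lf (nat_lit 0) (nat_lit 10539789275) (nat_lit 684) (nat_lit 8786812747) (nat_lit 76) (nat_lit 5681457861) (nat_lit 64) (nat_lit 5) (nat_lit 73) (nat_lit 5) (nat_lit 65) (nat_lit 5) (nat_lit 282) (nat_lit 271) (nat_lit 167)) (XT.lf (nat_lit 0) (nat_lit 1915043577) (nat_lit 684) (nat_lit 10523548418) (nat_lit 760) (nat_lit 13279742374) (nat_lit 55) (nat_lit 5) (nat_lit 64) (nat_lit 5) (nat_lit 65) (nat_lit 5) (nat_lit 283) (nat_lit 271) (nat_lit 166)))) (XT.nd (nat_lit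 156) (nat_lit 608) (nat_lit 0) (XT.nd (nat_lit 78) (nat_lit 0) (nat_lit 0) (XT.lf (nat_lit 0) (nat_lit 13451260731) (nat_lit 684) (nat_lit 1123392999) (nat_lit 760) (nat_lit 11882380527) (nat_lit 55) (nat_lit 5) (nat_lit 64) (nat_lit 5) (nat_lit 65) (nat_lit 5) (nat_lit 284) (nat_lit 271) (nat_lit 165)) (XT.lf (nat_lit 0) (nat_lit 16947909557) (nat_lit 760) (nat_lit 1810802312) (nat_lit 76) (nat_lit 8467464028) (nat_lit 55) (nat_lit 5) (nat_lit 65) (nat_lit 5) (nat_lit 56) (nat_lit 5) (nat_lit 285) (nat_lit 271) (nat_lit 164))) (XT.nd (nat_lit 78) (nat_lit 304) (nat_lit 0) (XT.lf (nat_lit 0) (nat_lit 10247917280) (nat_lit 304) (nat_lit 9364449130) (nat_lit 380) (nat_lit 8412806355) (nat_lit 51) (nat_lit 5) (nat_lit 55) (nat_lit 5) (nat_lit 56) (nat_lit 5) (nat_lit 286) (nat_lit 271) (nat_lit 163)) (XT.nd (nat_lit 78) (nat_lit 304) (nat_lit 0) (XT.lf (nat_lit 0) (nat_lit 22443335012)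 (nat_lit 380) (nat_lit 5904250279) (nat_lit 76) (nat_lit 514893599) (nat_lit 51) (nat_lit 5) (nat_lit 56) (nat_lit 5) (nat_lit 52) (nat_lit 5) (nat_lit 287) (nat_lit 271) (nat_lit 162)) (XT.lf (nat_lit 0) (nat_lit 6615087827) (nat_lit 304) (nat_lit 19052150643) (nat_lit 380) (nat_lit 4061865257) (nat_lit 47) (nat_lit 5) (nat_lit 51) (nat_lit 5) (nat_lit 52) (nat_lit 5) (nat_lit 288) (nat_lit 271) (nat_lit 161)))))) (XT.nd (nat_lit 312) (nat_lit 760) (nat_lit 0) (XT.nd (nat_lit 156) (nat_lit 0) (nat_lit 0) (XT.nd (nat_lit 78) (nat_lit 304) (nat_lit 0) (XT.lf (nat_lit 0) (nat_lit 19959938282) (nat_lit 304) (nat_lit 9187153658) (nat_lit 380) (nat_lit 1487251767) (nat_lit 47) (nat_lit 5) (nat_lit 51) (nat_lit 5) (nat_lit 52) (nat_lit 5) (nat_lit 289) (nat_lit 271) (nat_lit 160)) (XT.lf (nat_lit 0) (nat_lit 1229406945) (nat_lit 304) (nat_lit 29160521548) (nat_lit 76) (nat_lit 1191375638)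 (nat_lit 43) (nat_lit 5) (nat_lit 47) (nat_lit 5) (nat_lit 44) (nat_lit 5) (nat_lit 290) (nat_lit 271) (nat_lit 159))) (XT.nd (nat_lit 78) (nat_lit 0) (nat_lit 0) (XT.lf (nat_lit 0) (nat_lit 4361331608) (nat_lit 304) (nat_lit 16208745238) (nat_lit 76) (nat_lit 11987864647) (nat_lit 43) (nat_lit 5) (nat_lit 47) (nat_lit 5) (nat_lit 44) (nat_lit 5) (nat_lit 291) (nat_lit 271) (nat_lit 158)) (XT.lf (nat_lit 0) (nat_lit 7645153061) (nat_lit 304) (nat_lit 2614655275) (nat_lit 76) (nat_lit 23323855166) (nat_lit 43) (nat_lit 5) (nat_lit 47) (nat_lit 5) (nat_lit 44) (nat_lit 5) (nat_lit 292) (nat_lit 271) (nat_lit 157)))) (XT.nd (nat_lit 156) (nat_lit 456) (nat_lit 0) (XT.nd (nat_lit 78) (nat_lit 0) (nat_lit 0) (XT.lf (nat_lit 0) (nat_lit 11288568868) (nat_lit 380) (nat_lit 22623970315) (nat_lit 76) (nat_lit 738379223) (nat_lit 39) (nat_lit 5) (nat_lit 44) (nat_lit 5) (nat_lit 40) (nat_lit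 5) (nat_lit 293) (nat_lit 271) (nat_lit 156)) (XT.lf (nat_lit 0) (nat_lit 15323006281) (nat_lit 380) (nat_lit 8452001617) (nat_lit 76) (nat_lit 11986101766) (nat_lit 39) (nat_lit 5) (nat_lit 44) (nat_lit 5) (nat_lit 40) (nat_lit 5) (nat_lit 294) (nat_lit 271) (nat_lit 155))) (XT.nd (nat_lit 78) (nat_lit 228) (nat_lit 0) (XT.lf (nat_lit 0) (nat_lit 6636039606) (nat_lit 228) (nat_lit 13022591111) (nat_lit 304) (nat_lit 17263221893) (nat_lit 36) (nat_lit 5) (nat_lit 39) (nat_lit 5) (nat_lit 40) (nat_lit 5) (nat_lit 295) (nat_lit 271) (nat_lit 154)) (XT.nd (nat_lit 78) (nat_lit 228) (nat_lit 0) (XT.lf (nat_lit 0) (nat_lit 22767076046) (nat_lit 228) (nat_lit 1583078695) (nat_lit 304) (nat_lit 13783536692) (nat_lit 36) (nat_lit 5) (nat_lit 39) (nat_lit 5) (nat_lit 40) (nat_lit 5) (nat_lit 296) (nat_lit 271) (nat_lit 153)) (XT.lf (nat_lit 0) (nat_lit 135250359) (nat_lit 228) (nat_lit 29302091811)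 (nat_lit 304) (nat_lit 9960739620) (nat_lit 33) (nat_lit 5) (nat_lit 36) (nat_lit 5) (nat_lit 37) (nat_lit 5) (nat_lit 297) (nat_lit 271) (nat_lit 152))))))))
noncomputable def xc202 : XT := (XT.nd (nat_lit 1326) (nat_lit 608) (nat_lit 0) (XT.nd (nat_lit 624) (nat_lit 532) (nat_lit 0) (XT.nd (nat_lit 312) (nat_lit 380) (nat_lit 0) (XT.nd (nat_lit 156) (nat_lit 304) (nat_lit 0) (XT.nd (nat_lit 78) (nat_lit 0) (nat_lit 0) (XT.lf (nat_lit 0) (nat_lit 16914166949) (nat_lit 228) (nat_lit 18146764604) (nat_lit 304) (nat_lit 5650671269) (nat_lit 33) (nat_lit 5) (nat_lit 36) (nat_lit 5) (nat_lit 37) (nat_lit 5) (nat_lit 298) (nat_lit 271) (nat_lit 151)) (XT.lf (nat_lit 0) (nat_lit 34527528009) (nat_lit 228) (nat_lit 6434618099) (nat_lit 304) (nat_lit 1128844167) (nat_lit 33) (nat_lit 5) (nat_lit 36) (nat_lit 5) (nat_lit 37) (nat_lit 5) (nat_lit 299) (nat_lit 271) (nat_lit 150))) (XT.nd (nat_lit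 78) (nat_lit 0) (nat_lit 0) (XT.lf (nat_lit 0) (nat_lit 3746687819) (nat_lit 304) (nat_lit 33891246540) (nat_lit 76) (nat_lit 5886426700) (nat_lit 29) (nat_lit 5) (nat_lit 33) (nat_lit 5) (nat_lit 30) (nat_lit 5) (nat_lit 300) (nat_lit 271) (nat_lit 149)) (XT.lf (nat_lit 0) (nat_lit 9060365139) (nat_lit 304) (nat_lit 17201485177) (nat_lit 76) (nat_lit 18755020451) (nat_lit 29) (nat_lit 5) (nat_lit 33) (nat_lit 5) (nat_lit 30) (nat_lit 5) (nat_lit 301) (nat_lit 271) (nat_lit 148)))) (XT.nd (nat_lit 156) (nat_lit 152) (nat_lit 0) (XT.nd (nat_lit 78) (nat_lit 0) (nat_lit 0) (XT.lf (nat_lit 0) (nat_lit 329004175) (nat_lit 228) (nat_lit 14312648363) (nat_lit 304) (nat_lit 31942267522) (nat_lit 26) (nat_lit 5) (nat_lit 29) (nat_lit 5) (nat_lit 30) (nat_lit 5) (nat_lit 302) (nat_lit 271) (nat_lit 147)) (XT.lf (nat_lit 0) (nat_lit 19328993648) (nat_lit 228) (nat_lit 1461202646) (nat_lit 304)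 (nat_lit 27424725839) (nat_lit 26) (nat_lit 5) (nat_lit 29) (nat_lit 5) (nat_lit 30) (nat_lit 5) (nat_lit 303) (nat_lit 271) (nat_lit 146))) (XT.nd (nat_lit 78) (nat_lit 152) (nat_lit 0) (XT.lf (nat_lit 0) (nat_lit 27431042138) (nat_lit 304) (nat_lit 10840519611) (nat_lit 76) (nat_lit 11646678259) (nat_lit 26) (nat_lit 5) (nat_lit 30) (nat_lit 5) (nat_lit 27) (nat_lit 5) (nat_lit 304) (nat_lit 271) (nat_lit 145)) (XT.lf (nat_lit 0) (nat_lit 8346378046) (nat_lit 152) (nat_lit 26208968082) (nat_lit 228) (nat_lit 17143815850) (nat_lit 24) (nat_lit 5) (nat_lit 26) (nat_lit 5) (nat_lit 27) (nat_lit 5) (nat_lit 305) (nat_lit 271) (nat_lit 144))))) (XT.nd (nat_lit 312) (nat_lit 304) (nat_lit 0) (XT.nd (nat_lit 156) (nat_lit 228) (nat_lit 0) (XT.nd (nat_lit 78) (nat_lit 0) (nat_lit 0) (XT.lf (nat_lit 0) (nat_lit 28865079141) (nat_lit 152) (nat_lit 13351601747) (nat_lit 228) (nat_lit 11343416945)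 (nat_lit 24) (nat_lit 5) (nat_lit 26) (nat_lit 5) (nat_lit 27) (nat_lit 5) (nat_lit 306) (nat_lit 271) (nat_lit 143)) (XT.lf (nat_lit 0) (nat_lit 50260744433) (nat_lit 228) (nat_lit 5110523374) (nat_lit 76) (nat_lit 142837728) (nat_lit 24) (nat_lit 5) (nat_lit 27) (nat_lit 5) (nat_lit 25) (nat_lit 5) (nat_lit 307) (nat_lit 271) (nat_lit 142))) (XT.nd (nat_lit 78) (nat_lit 0) (nat_lit 0) (XT.lf (nat_lit 0) (nat_lit 1574241020) (nat_lit 228) (nat_lit 41833854608) (nat_lit 76) (nat_lit 14133356081) (nat_lit 21) (nat_lit 5) (nat_lit 24) (nat_lit 5) (nat_lit 22) (nat_lit 5) (nat_lit 308) (nat_lit 271) (nat_lit 141)) (XT.lf (nat_lit 0) (nat_lit 8652128774) (nat_lit 228) (nat_lit 22013013937) (nat_lit 76) (nat_lit 28996450849) (nat_lit 21) (nat_lit 5) (nat_lit 24) (nat_lit 5) (nat_lit 22) (nat_lit 5) (nat_lit 309) (nat_lit 271) (nat_lit 140)))) (XT.nd (nat_lit 156) (nat_lit 152) (nat_lit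 0) (XT.nd (nat_lit 78) (nat_lit 152) (nat_lit 0) (XT.lf (nat_lit 0) (nat_lit 16081515565) (nat_lit 228) (nat_lit 1204641825) (nat_lit 76) (nat_lit 44601711592) (nat_lit 21) (nat_lit 5) (nat_lit 24) (nat_lit 5) (nat_lit 22) (nat_lit 5) (nat_lit 310) (nat_lit 271) (nat_lit 139)) (XT.lf (nat_lit 0) (nat_lit 21323283715) (nat_lit 152) (nat_lit 2889722910) (nat_lit 228) (nat_lit 39995926195) (nat_lit 19) (nat_lit 5) (nat_lit 21) (nat_lit 5) (nat_lit 22) (nat_lit 5) (nat_lit 311) (nat_lit 271) (nat_lit 138))) (XT.nd (nat_lit 78) (nat_lit 152) (nat_lit 0) (XT.lf (nat_lit 0) (nat_lit 32960457678) (nat_lit 228) (nat_lit 21820216857) (nat_lit 76) (nat_lit 11854912129) (nat_lit 19) (nat_lit 5) (nat_lit 22) (nat_lit 5) (nat_lit 20) (nat_lit 5) (nat_lit 312) (nat_lit 271) (nat_lit 137)) (XT.nd (nat_lit 78) (nat_lit 0) (nat_lit 0) (XT.lf (nat_lit 0) (nat_lit 256082006) (nat_lit 152) (nat_lit 41938435992)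 (nat_lit 228) (nat_lit 26986599166) (nat_lit 17) (nat_lit 5) (nat_lit 19) (nat_lit 5) (nat_lit 20) (nat_lit 5) (nat_lit 313) (nat_lit 271) (nat_lit 136)) (XT.lf (nat_lit 0) (nat_lit 24190567834) (nat_lit 152) (nat_lit 28067167500) (nat_lit 228) (nat_lit 19577821673) (nat_lit 17) (nat_lit 5) (nat_lit 19) (nat_lit 5) (nat_lit 20) (nat_lit 5) (nat_lit 314) (nat_lit 271) (nat_lit 135))))))) (XT.nd (nat_lit 624) (nat_lit 304) (nat_lit 0) (XT.nd (nat_lit 312) (nat_lit 152) (nat_lit 0) (XT.nd (nat_lit 156) (nat_lit 152) (nat_lit 0) (XT.nd (nat_lit 78) (nat_lit 0) (nat_lit 0) (XT.lf (nat_lit 0) (nat_lit 49318752586) (nat_lit 152) (nat_lit 13503378162) (nat_lit 228) (nat_lit 11800692494) (nat_lit 17) (nat_lit 5) (nat_lit 19) (nat_lit 5) (nat_lit 20) (nat_lit 5) (nat_lit 315) (nat_lit 271) (nat_lit 134)) (XT.lf (nat_lit 0) (nat_lit 73940767128) (nat_lit 228) (nat_lit 1876996510) (nat_lit 76)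 (nat_lit 1730393100) (nat_lit 17) (nat_lit 5) (nat_lit 20) (nat_lit 5) (nat_lit 18) (nat_lit 4) (nat_lit 316) (nat_lit 271) (nat_lit 133))) (XT.nd (nat_lit 78) (nat_lit 0) (nat_lit 0) (XT.lf (nat_lit 0) (nat_lit 5427644196) (nat_lit 152) (nat_lit 57437082873) (nat_lit 76) (nat_lit 17721536856) (nat_lit 15) (nat_lit 5) (nat_lit 17) (nat_lit 5) (nat_lit 16) (nat_lit 5) (nat_lit 317) (nat_lit 271) (nat_lit 132)) (XT.lf (nat_lit 0) (nat_lit 14823703037) (nat_lit 152) (nat_lit 34345355594) (nat_lit 76) (nat_lit 34602740027) (nat_lit 15) (nat_lit 5) (nat_lit 17) (nat_lit 5) (nat_lit 16) (nat_lit 5) (nat_lit 318) (nat_lit 271) (nat_lit 131)))) (XT.nd (nat_lit 156) (nat_lit 0) (nat_lit 0) (XT.nd (nat_lit 78) (nat_lit 152) (nat_lit 0) (XT.lf (nat_lit 0) (nat_lit 24687847041) (nat_lit 152) (nat_lit 10101749037) (nat_lit 76) (nat_lit 52327104057) (nat_lit 15) (nat_lit 5) (nat_lit 17) (nat_lit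 5) (nat_lit 16) (nat_lit 5) (nat_lit 319) (nat_lit 271) (nat_lit 130)) (XT.lf (nat_lit 0) (nat_lit 15859048256) (nat_lit 152) (nat_lit 19432118199) (nat_lit 228) (nat_lit 55325385746) (nat_lit 13) (nat_lit 5) (nat_lit 15) (nat_lit 5) (nat_lit 16) (nat_lit 5) (nat_lit 320) (nat_lit 271) (nat_lit 129))) (XT.nd (nat_lit 78) (nat_lit 0) (nat_lit 0) (XT.lf (nat_lit 0) (nat_lit 43466058736) (nat_lit 152) (nat_lit 3128073431) (nat_lit 228) (nat_lit 47688794422) (nat_lit 13) (nat_lit 5) (nat_lit 15) (nat_lit 5) (nat_lit 16) (nat_lit 5) (nat_lit 321) (nat_lit 271) (nat_lit 128)) (XT.lf (nat_lit 0) (nat_lit 58679152037) (nat_lit 228) (nat_lit 25900122868) (nat_lit 76) (nat_lit 13542503058) (nat_lit 13) (nat_lit 5) (nat_lit 16) (nat_lit 5) (nat_lit 14) (nat_lit 4) (nat_lit 322) (nat_lit 271) (nat_lit 127))))) (XT.nd (nat_lit 312) (nat_lit 228) (nat_lit 0) (XT.nd (nat_lit 156) (nat_lit 0) (nat_lit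 0) (XT.nd (nat_lit 78) (nat_lit 0) (nat_lit 0) (XT.lf (nat_lit 0) (nat_lit 215720564) (nat_lit 76) (nat_lit 71205887792) (nat_lit 152) (nat_lit 30728307666) (nat_lit 12) (nat_lit 5) (nat_lit 13) (nat_lit 5) (nat_lit 14) (nat_lit 4) (nat_lit 323) (nat_lit 271) (nat_lit 126)) (XT.lf (nat_lit 0) (nat_lit 28534224752) (nat_lit 76) (nat_lit 56704164751) (nat_lit 152) (nat_lit 21119214608) (nat_lit 12) (nat_lit 5) (nat_lit 13) (nat_lit 5) (nat_lit 14) (nat_lit 4) (nat_lit 324) (nat_lit 271) (nat_lit 125))) (XT.nd (nat_lit 78) (nat_lit 0) (nat_lit 0) (XT.lf (nat_lit 0) (nat_lit 58266439675) (nat_lit 76) (nat_lit 41478208984) (nat_lit 152) (nat_lit 11031099072) (nat_lit 12) (nat_lit 5) (nat_lit 13) (nat_lit 5) (nat_lit 14) (nat_lit 4) (nat_lit 325) (nat_lit 271) (nat_lit 124)) (XT.lf (nat_lit 0) (nat_lit 89483156322) (nat_lit 76) (nat_lit 25491768214) (nat_lit 152) (nat_lit 439941736) (nat_lit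 12) (nat_lit 5) (nat_lit 13) (nat_lit 5) (nat_lit 14) (nat_lit 4) (nat_lit 326) (nat_lit 271) (nat_lit 123)))) (XT.nd (nat_lit 156) (nat_lit 0) (nat_lit 0) (XT.nd (nat_lit 78) (nat_lit 0) (nat_lit 0) (XT.lf (nat_lit 0) (nat_lit 1865671568) (nat_lit 152) (nat_lit 8501121357) (nat_lit 228) (nat_lit 109909419087) (nat_lit 9) (nat_lit 5) (nat_lit 11) (nat_lit 5) (nat_lit 12) (nat_lit 5) (nat_lit 327) (nat_lit 271) (nat_lit 122)) (XT.lf (nat_lit 0) (nat_lit 22290012311) (nat_lit 228) (nat_lit 93567745982) (nat_lit 76) (nat_lit 9492962019) (nat_lit 9) (nat_lit 5) (nat_lit 12) (nat_lit 5) (nat_lit 10) (nat_lit 4) (nat_lit 328) (nat_lit 271) (nat_lit 121))) (XT.nd (nat_lit 78) (nat_lit 0) (nat_lit 0) (XT.lf (nat_lit 0) (nat_lit 34947572982) (nat_lit 228) (nat_lit 67624147162) (nat_lit 76) (nat_lit 28100327277) (nat_lit 9) (nat_lit 5) (nat_lit 12) (nat_lit 5) (nat_lit 10) (nat_lit 4) (nat_lit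 329) (nat_lit 271) (nat_lit 120)) (XT.nd (nat_lit 78) (nat_lit 0) (nat_lit 0) (XT.lf (nat_lit 0) (nat_lit 48236885657) (nat_lit 228) (nat_lit 40385247183) (nat_lit 76) (nat_lit 47637366641) (nat_lit 9) (nat_lit 5) (nat_lit 12) (nat_lit 5) (nat_lit 10) (nat_lit 4) (nat_lit 330) (nat_lit 271) (nat_lit 119)) (XT.lf (nat_lit 0) (nat_lit 62189591557) (nat_lit 228) (nat_lit 11786191520) (nat_lit 76) (nat_lit 68150596872) (nat_lit 9) (nat_lit 5) (nat_lit 12) (nat_lit 5) (nat_lit 10) (nat_lit 4) (nat_lit 331) (nat_lit 271) (nat_lit 118))))))))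
noncomputable def xc203 : XT := (XT.nd (nat_lit 1326) (nat_lit 0) (nat_lit 0) (XT.nd (nat_lit 624) (nat_lit 76) (nat_lit 0) (XT.nd (nat_lit 312) (nat_lit 152) (nat_lit 0) (XT.nd (nat_lit 156) (nat_lit 0) (nat_lit 0) (XT.nd (nat_lit 78) (nat_lit 0) (nat_lit 0) (XT.lf (nat_lit 0) (nat_lit 18844246384) (nat_lit 76) (nat_lit 58288876524) (nat_lit 152) (nat_lit 71138824106) (nat_lit 8) (nat_lit 5) (nat_lit 9) (nat_lit 5) (nat_lit 10) (nat_lit 4) (nat_lit 332) (nat_lit 271) (nat_lit 117)) (XT.lf (nat_lit 0) (nat_lit 51413719515) (nat_lit 76) (nat_lit 41608717284) (nat_lit 152) (nat_lit 61692427315) (nat_lit 8) (nat_lit 5) (nat_lit 9) (nat_lit 5) (nat_lit 10) (nat_lit 4) (nat_lit 333) (nat_lit 271) (nat_lit 116))) (XT.nd (nat_lit 78) (nat_lit 0) (nat_lit 0) (XT.lf (nat_lit 0) (nat_lit 85610069517) (nat_lit 76) (nat_lit 24095195551) (nat_lit 152) (nat_lit 51774711455) (nat_lit 8) (nat_lit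 5) (nat_lit 9) (nat_lit 5) (nat_lit 10) (nat_lit 4) (nat_lit 334) (nat_lit 271) (nat_lit 115)) (XT.lf (nat_lit 0) (nat_lit 121514716272) (nat_lit 76) (nat_lit 5706612463) (nat_lit 152) (nat_lit 41362062916) (nat_lit 8) (nat_lit 5) (nat_lit 9) (nat_lit 5) (nat_lit 10) (nat_lit 4) (nat_lit 335) (nat_lit 271) (nat_lit 114)))) (XT.nd (nat_lit 156) (nat_lit 76) (nat_lit 0) (XT.nd (nat_lit 78) (nat_lit 76) (nat_lit 0) (XT.lf (nat_lit 0) (nat_lit 145824679540) (nat_lit 152) (nat_lit 17041222186) (nat_lit 0) (nat_lit 13165503323) (nat_lit 8) (nat_lit 5) (nat_lit 10) (nat_lit 4) (nat_lit 8) (nat_lit 4) (nat_lit 336) (nat_lit 271) (nat_lit 113)) (XT.lf (nat_lit 0) (nat_lit 14868524918) (nat_lit 76) (nat_lit 150814532845) (nat_lit 76) (nat_lit 18152519991) (nat_lit 7) (nat_lit 4) (nat_lit 8) (nat_lit 5) (nat_lit 8) (nat_lit 4) (nat_lit 337) (nat_lit 271) (nat_lit 112))) (XT.nd (nat_lit 78) (nat_lit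 76) (nat_lit 0) (XT.lf (nat_lit 0) (nat_lit 48964001551) (nat_lit 76) (nat_lit 137858142037) (nat_lit 76) (nat_lit 5193427624) (nat_lit 7) (nat_lit 4) (nat_lit 8) (nat_lit 5) (nat_lit 8) (nat_lit 4) (nat_lit 338) (nat_lit 271) (nat_lit 111)) (XT.lf (nat_lit 0) (nat_lit 8143542922) (nat_lit 152) (nat_lit 115973024334) (nat_lit 76) (nat_lit 76481469891) (nat_lit 6) (nat_lit 5) (nat_lit 8) (nat_lit 5) (nat_lit 7) (nat_lit 4) (nat_lit 339) (nat_lit 271) (nat_lit 110))))) (XT.nd (nat_lit 312) (nat_lit 0) (nat_lit 0) (XT.nd (nat_lit 156) (nat_lit 76) (nat_lit 0) (XT.nd (nat_lit 78) (nat_lit 0) (nat_lit 0) (XT.lf (nat_lit 0) (nat_lit 21972078227) (nat_lit 152) (nat_lit 87626977353) (nat_lit 76) (nat_lit 100006352760) (nat_lit 6) (nat_lit 5) (nat_lit 8) (nat_lit 5) (nat_lit 7) (nat_lit 4) (nat_lit 340) (nat_lit 271) (nat_lit 109)) (XT.lf (nat_lit 0) (nat_lit 36491325490) (nat_lit 152) (nat_lit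 57864854171) (nat_lit 76) (nat_lit 124707005448) (nat_lit 6) (nat_lit 5) (nat_lit 8) (nat_lit 5) (nat_lit 7) (nat_lit 4) (nat_lit 341) (nat_lit 271) (nat_lit 108))) (XT.nd (nat_lit 78) (nat_lit 76) (nat_lit 0) (XT.lf (nat_lit 0) (nat_lit 51735854348) (nat_lit 152) (nat_lit 26615792591) (nat_lit 76) (nat_lit 150642239033) (nat_lit 6) (nat_lit 5) (nat_lit 8) (nat_lit 5) (nat_lit 7) (nat_lit 4) (nat_lit 342) (nat_lit 271) (nat_lit 107)) (XT.lf (nat_lit 0) (nat_lit 6399431695) (nat_lit 76) (nat_lit 61442442667) (nat_lit 152) (nat_lit 171574285439) (nat_lit 5) (nat_lit 5) (nat_lit 6) (nat_lit 5) (nat_lit 7) (nat_lit 4) (nat_lit 343) (nat_lit 271) (nat_lit 106)))) (XT.nd (nat_lit 156) (nat_lit 0) (nat_lit 0) (XT.nd (nat_lit 78) (nat_lit 0) (nat_lit 0) (XT.lf (nat_lit 0) (nat_lit 41988363200) (nat_lit 76) (nat_lit 43214948942) (nat_lit 152) (nat_lit 165133730445) (nat_lit 5) (nat_lit 5) (nat_lit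 6) (nat_lit 5) (nat_lit 7) (nat_lit 4) (nat_lit 344) (nat_lit 271) (nat_lit 105)) (XT.lf (nat_lit 0) (nat_lit 79355699171) (nat_lit 76) (nat_lit 24076518297) (nat_lit 152) (nat_lit 158371783312) (nat_lit 5) (nat_lit 5) (nat_lit 6) (nat_lit 5) (nat_lit 7) (nat_lit 4) (nat_lit 345) (nat_lit 271) (nat_lit 104))) (XT.nd (nat_lit 78) (nat_lit 0) (nat_lit 0) (XT.lf (nat_lit 0) (nat_lit 118590409456) (nat_lit 76) (nat_lit 3981583040) (nat_lit 152) (nat_lit 151272344167) (nat_lit 5) (nat_lit 5) (nat_lit 6) (nat_lit 5) (nat_lit 7) (nat_lit 4) (nat_lit 346) (nat_lit 271) (nat_lit 103)) (XT.nd (nat_lit 78) (nat_lit 0) (nat_lit 0) (XT.lf (nat_lit 0) (nat_lit 142935463417) (nat_lit 152) (nat_lit 126968062970) (nat_lit 0) (nat_lit 16569828549) (nat_lit 5) (nat_lit 5) (nat_lit 7) (nat_lit 4) (nat_lit 5) (nat_lit 4) (nat_lit 347) (nat_lit 271) (nat_lit 102)) (XT.lf (nat_lit 0) (nat_lit 164381851778)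 (nat_lit 152) (nat_lit 97334098692) (nat_lit 0) (nat_lit 38014637365) (nat_lit 5) (nat_lit 5) (nat_lit 7) (nat_lit 4) (nat_lit 5) (nat_lit 4) (nat_lit 348) (nat_lit 271) (nat_lit 101))))))) (XT.nd (nat_lit 32136) (nat_lit 0) (nat_lit 3496) (XT.nd (nat_lit 31746) (nat_lit 0) (nat_lit 4256) (XT.nd (nat_lit 31590) (nat_lit 0) (nat_lit 4180) (XT.nd (nat_lit 31512) (nat_lit 0) (nat_lit 4180) (XT.lf (nat_lit 0) (nat_lit 186900056739) (nat_lit 152) (nat_lit 66219313648) (nat_lit 0) (nat_lit 60531337997) (nat_lit 5) (nat_lit 5) (nat_lit 7) (nat_lit 4) (nat_lit 5) (nat_lit 4) (nat_lit 349) (nat_lit 271) (nat_lit 100)) (XT.lf (nat_lit 0) (nat_lit 247266760) (nat_lit 0) (nat_lit 247266760) (nat_lit 684) (nat_lit 9375462012) (nat_lit 60) (nat_lit 5) (nat_lit 60) (nat_lit 3) (nat_lit 69) (nat_lit 3) (nat_lit 272) (nat_lit 272) (nat_lit 176))) (XT.nd (nat_lit 78) (nat_lit 0) (nat_lit 0) (XT.lf (nat_lit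 0) (nat_lit 1288047167) (nat_lit 684) (nat_lit 11379531883) (nat_lit 760) (nat_lit 7551529676) (nat_lit 60) (nat_lit 5) (nat_lit 69) (nat_lit 3) (nat_lit 70) (nat_lit 5) (nat_lit 273) (nat_lit 272) (nat_lit 175)) (XT.lf (nat_lit 0) (nat_lit 1600400590) (nat_lit 684) (nat_lit 3133903530) (nat_lit 760) (nat_lit 15987999789) (nat_lit 60) (nat_lit 5) (nat_lit 69) (nat_lit 3) (nat_lit 70) (nat_lit 5) (nat_lit 274) (nat_lit 272) (nat_lit 174)))) (XT.nd (nat_lit 156) (nat_lit 0) (nat_lit 0) (XT.nd (nat_lit 78) (nat_lit 0) (nat_lit 0) (XT.lf (nat_lit 0) (nat_lit 2065822105) (nat_lit 684) (nat_lit 15603112831) (nat_lit 760) (nat_lit 3574892207) (nat_lit 61) (nat_lit 5) (nat_lit 70) (nat_lit 5) (nat_lit 71) (nat_lit 5) (nat_lit 275) (nat_lit 272) (nat_lit 173)) (XT.lf (nat_lit 0) (nat_lit 2677265726) (nat_lit 684) (nat_lit 6910070405) (nat_lit 760) (nat_lit 12197991723) (nat_lit 61) (nat_lit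 5) (nat_lit 70) (nat_lit 5) (nat_lit 71) (nat_lit 5) (nat_lit 276) (nat_lit 272) (nat_lit 172))) (XT.nd (nat_lit 78) (nat_lit 0) (nat_lit 76) (XT.lf (nat_lit 76) (nat_lit 2285359374) (nat_lit 0) (nat_lit 1061217539) (nat_lit 760) (nat_lit 19005998937) (nat_lit 62) (nat_lit 5) (nat_lit 61) (nat_lit 5) (nat_lit 71) (nat_lit 5) (nat_lit 277) (nat_lit 272) (nat_lit 171)) (XT.nd (nat_lit 78) (nat_lit 0) (nat_lit 0) (XT.lf (nat_lit 0) (nat_lit 4283474941) (nat_lit 684) (nat_lit 10892799463) (nat_lit 760) (nat_lit 7760241032) (nat_lit 62) (nat_lit 5) (nat_lit 71) (nat_lit 5) (nat_lit 72) (nat_lit 5) (nat_lit 278) (nat_lit 272) (nat_lit 170)) (XT.lf (nat_lit 0) (nat_lit 5276970680) (nat_lit 684) (nat_lit 1282587050) (nat_lit 760) (nat_lit 16989640207) (nat_lit 62) (nat_lit 5) (nat_lit 71) (nat_lit 5) (nat_lit 72) (nat_lit 5) (nat_lit 279) (nat_lit 272) (nat_lit 169)))))) (XT.nd (nat_lit 312)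 (nat_lit 912) (nat_lit 0) (XT.nd (nat_lit 156) (nat_lit 0) (nat_lit 0) (XT.nd (nat_lit 78) (nat_lit 0) (nat_lit 0) (XT.lf (nat_lit 0) (nat_lit 6496046405) (nat_lit 684) (nat_lit 15133081601) (nat_lit 760) (nat_lit 2554623276) (nat_lit 63) (nat_lit 5) (nat_lit 72) (nat_lit 5) (nat_lit 73) (nat_lit 5) (nat_lit 280) (nat_lit 272) (nat_lit 168)) (XT.lf (nat_lit 0) (nat_lit 7898701211) (nat_lit 684) (nat_lit 5017308346) (nat_lit 760) (nat_lit 11927921926) (nat_lit 63) (nat_lit 5) (nat_lit 72) (nat_lit 5) (nat_lit 73) (nat_lit 5) (nat_lit 281) (nat_lit 272) (nat_lit 167))) (XT.nd (nat_lit 78) (nat_lit 0) (nat_lit 76) (XT.lf (nat_lit 76) (nat_lit 5784055594) (nat_lit 0) (nat_lit 3671085378) (nat_lit 760) (nat_lit 16077826116) (nat_lit 64) (nat_lit 5) (nat_lit 63) (nat_lit 5) (nat_lit 73) (nat_lit 5) (nat_lit 282) (nat_lit 272) (nat_lit 166)) (XT.lf (nat_lit 0) (nat_lit 11263606787) (nat_lit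 684) (nat_lit 9053766719) (nat_lit 76) (nat_lit 5930398387) (nat_lit 64) (nat_lit 5) (nat_lit 73) (nat_lit 5) (nat_lit 65) (nat_lit 5) (nat_lit 283) (nat_lit 272) (nat_lit 165)))) (XT.nd (nat_lit 156) (nat_lit 304) (nat_lit 0) (XT.nd (nat_lit 78) (nat_lit 0) (nat_lit 0) (XT.lf (nat_lit 0) (nat_lit 2180401992) (nat_lit 684) (nat_lit 11070222915) (nat_lit 760) (nat_lit 13743311889) (nat_lit 55) (nat_lit 5) (nat_lit 64) (nat_lit 5) (nat_lit 65) (nat_lit 5) (nat_lit 284) (nat_lit 272) (nat_lit 164)) (XT.lf (nat_lit 0) (nat_lit 14285353516) (nat_lit 684) (nat_lit 1199083674) (nat_lit 760) (nat_lit 12285625645) (nat_lit 55) (nat_lit 5) (nat_lit 64) (nat_lit 5) (nat_lit 65) (nat_lit 5) (nat_lit 285) (nat_lit 272) (nat_lit 163))) (XT.nd (nat_lit 78) (nat_lit 304) (nat_lit 0) (XT.lf (nat_lit 0) (nat_lit 17967444079) (nat_lit 760) (nat_lit 1737858940) (nat_lit 76) (nat_lit 8872840820) (nat_lit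 55) (nat_lit 5) (nat_lit 65) (nat_lit 5) (nat_lit 56) (nat_lit 5) (nat_lit 286) (nat_lit 272) (nat_lit 162)) (XT.nd (nat_lit 78) (nat_lit 0) (nat_lit 0) (XT.lf (nat_lit 0) (nat_lit 10921159801) (nat_lit 304) (nat_lit 9838278143) (nat_lit 380) (nat_lit 8657971845) (nat_lit 51) (nat_lit 5) (nat_lit 55) (nat_lit 5) (nat_lit 56) (nat_lit 5) (nat_lit 287) (nat_lit 272) (nat_lit 161)) (XT.lf (nat_lit 0) (nat_lit 23723945267) (nat_lit 380) (nat_lit 6037600121) (nat_lit 76) (nat_lit 535469601) (nat_lit 51) (nat_lit 5) (nat_lit 56) (nat_lit 5) (nat_lit 52) (nat_lit 5) (nat_lit 288) (nat_lit 272) (nat_lit 160))))))))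
noncomputable def xc204 : XT := (XT.nd (nat_lit 1326) (nat_lit 988) (nat_lit 0) (XT.nd (nat_lit 624) (nat_lit 760) (nat_lit 0) (XT.nd (nat_lit 312) (nat_lit 532) (nat_lit 0) (XT.nd (nat_lit 156) (nat_lit 304) (nat_lit 0) (XT.nd (nat_lit 78) (nat_lit 0) (nat_lit 0) (XT.lf (nat_lit 0) (nat_lit 7105094202) (nat_lit 304) (nat_lit 19998891137) (nat_lit 380) (nat_lit 4103270356) (nat_lit 47) (nat_lit 5) (nat_lit 51) (nat_lit 5) (nat_lit 52) (nat_lit 5) (nat_lit 289) (nat_lit 272) (nat_lit 159)) (XT.lf (nat_lit 0) (nat_lit 21109603752) (nat_lit 304) (nat_lit 9640923685) (nat_lit 380) (nat_lit 1407625627) (nat_lit 47) (nat_lit 5) (nat_lit 51) (nat_lit 5) (nat_lit 52) (nat_lit 5) (nat_lit 290) (nat_lit 272) (nat_lit 158))) (XT.nd (nat_lit 78) (nat_lit 0) (nat_lit 0) (XT.lf (nat_lit 0) (nat_lit 1435413838) (nat_lit 304) (nat_lit 30456304207) (nat_lit 76) (nat_lit 1260876818) (nat_lit 43) (nat_lit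 5) (nat_lit 47) (nat_lit 5) (nat_lit 44) (nat_lit 5) (nat_lit 291) (nat_lit 272) (nat_lit 157)) (XT.lf (nat_lit 0) (nat_lit 4717052041) (nat_lit 304) (nat_lit 16864664958) (nat_lit 76) (nat_lit 12596717306) (nat_lit 43) (nat_lit 5) (nat_lit 47) (nat_lit 5) (nat_lit 44) (nat_lit 5) (nat_lit 292) (nat_lit 272) (nat_lit 156)))) (XT.nd (nat_lit 156) (nat_lit 228) (nat_lit 0) (XT.nd (nat_lit 78) (nat_lit 304) (nat_lit 0) (XT.lf (nat_lit 0) (nat_lit 8158509621) (nat_lit 304) (nat_lit 2598228476) (nat_lit 76) (nat_lit 24499056902) (nat_lit 43) (nat_lit 5) (nat_lit 47) (nat_lit 5) (nat_lit 44) (nat_lit 5) (nat_lit 293) (nat_lit 272) (nat_lit 155)) (XT.lf (nat_lit 0) (nat_lit 11980389798) (nat_lit 380) (nat_lit 23603829767) (nat_lit 76) (nat_lit 792402057) (nat_lit 39) (nat_lit 5) (nat_lit 44) (nat_lit 5) (nat_lit 40) (nat_lit 5) (nat_lit 294) (nat_lit 272) (nat_lit 154))) (XT.nd (nat_lit 78)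 (nat_lit 228) (nat_lit 0) (XT.lf (nat_lit 0) (nat_lit 16210482773) (nat_lit 380) (nat_lit 8730469256) (nat_lit 76) (nat_lit 12601696258) (nat_lit 39) (nat_lit 5) (nat_lit 44) (nat_lit 5) (nat_lit 40) (nat_lit 5) (nat_lit 295) (nat_lit 272) (nat_lit 153)) (XT.lf (nat_lit 0) (nat_lit 7109649310) (nat_lit 228) (nat_lit 13649675699) (nat_lit 304) (nat_lit 18002302997) (nat_lit 36) (nat_lit 5) (nat_lit 39) (nat_lit 5) (nat_lit 40) (nat_lit 5) (nat_lit 296) (nat_lit 272) (nat_lit 152))))) (XT.nd (nat_lit 312) (nat_lit 532) (nat_lit 0) (XT.nd (nat_lit 156) (nat_lit 0) (nat_lit 0) (XT.nd (nat_lit 78) (nat_lit 228) (nat_lit 0) (XT.lf (nat_lit 0) (nat_lit 24040484824) (nat_lit 228) (nat_lit 1639332661) (nat_lit 304) (nat_lit 14354542106) (nat_lit 36) (nat_lit 5) (nat_lit 39) (nat_lit 5) (nat_lit 40) (nat_lit 5) (nat_lit 297) (nat_lit 272) (nat_lit 151)) (XT.lf (nat_lit 0) (nat_lit 280457156)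 (nat_lit 228) (nat_lit 30738068425) (nat_lit 304) (nat_lit 10343605280) (nat_lit 33) (nat_lit 5) (nat_lit 36) (nat_lit 5) (nat_lit 37) (nat_lit 5) (nat_lit 298) (nat_lit 272) (nat_lit 150))) (XT.nd (nat_lit 78) (nat_lit 0) (nat_lit 0) (XT.lf (nat_lit 0) (nat_lit 17891726991) (nat_lit 228) (nat_lit 19026361904) (nat_lit 304) (nat_lit 5823517860) (nat_lit 33) (nat_lit 5) (nat_lit 36) (nat_lit 5) (nat_lit 37) (nat_lit 5) (nat_lit 299) (nat_lit 272) (nat_lit 149)) (XT.lf (nat_lit 0) (nat_lit 36379477451) (nat_lit 228) (nat_lit 6729929071) (nat_lit 304) (nat_lit 1080822593) (nat_lit 33) (nat_lit 5) (nat_lit 36) (nat_lit 5) (nat_lit 37) (nat_lit 5) (nat_lit 300) (nat_lit 272) (nat_lit 148)))) (XT.nd (nat_lit 156) (nat_lit 228) (nat_lit 0) (XT.nd (nat_lit 78) (nat_lit 0) (nat_lit 0) (XT.lf (nat_lit 0) (nat_lit 4032763556) (nat_lit 304) (nat_lit 35453856981) (nat_lit 76) (nat_lit 6208701309)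 (nat_lit 29) (nat_lit 5) (nat_lit 33) (nat_lit 5) (nat_lit 30) (nat_lit 5) (nat_lit 301) (nat_lit 272) (nat_lit 147)) (XT.lf (nat_lit 0) (nat_lit 9607422773) (nat_lit 304) (nat_lit 17935890972) (nat_lit 76) (nat_lit 19719393639) (nat_lit 29) (nat_lit 5) (nat_lit 33) (nat_lit 5) (nat_lit 30) (nat_lit 5) (nat_lit 302) (nat_lit 272) (nat_lit 146))) (XT.nd (nat_lit 78) (nat_lit 0) (nat_lit 0) (XT.lf (nat_lit 0) (nat_lit 469095936) (nat_lit 228) (nat_lit 14996130932) (nat_lit 304) (nat_lit 33443024180) (nat_lit 26) (nat_lit 5) (nat_lit 29) (nat_lit 5) (nat_lit 30) (nat_lit 5) (nat_lit 303) (nat_lit 272) (nat_lit 145)) (XT.nd (nat_lit 78) (nat_lit 0) (nat_lit 0) (XT.lf (nat_lit 0) (nat_lit 20413197190) (nat_lit 228) (nat_lit 1503643874) (nat_lit 304) (nat_lit 28704193829) (nat_lit 26) (nat_lit 5) (nat_lit 29) (nat_lit 5) (nat_lit 30) (nat_lit 5) (nat_lit 304) (nat_lit 272) (nat_lit 144))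 (XT.lf (nat_lit 0) (nat_lit 28886035199) (nat_lit 304) (nat_lit 11266441630) (nat_lit 76) (nat_lit 12257239704) (nat_lit 26) (nat_lit 5) (nat_lit 30) (nat_lit 5) (nat_lit 27) (nat_lit 5) (nat_lit 305) (nat_lit 272) (nat_lit 143))))))) (XT.nd (nat_lit 624) (nat_lit 456) (nat_lit 0) (XT.nd (nat_lit 312) (nat_lit 152) (nat_lit 0) (XT.nd (nat_lit 156) (nat_lit 228) (nat_lit 0) (XT.nd (nat_lit 78) (nat_lit 0) (nat_lit 0) (XT.lf (nat_lit 0) (nat_lit 8877928265) (nat_lit 152) (nat_lit 27486436215) (nat_lit 228) (nat_lit 17915442159) (nat_lit 24) (nat_lit 5) (nat_lit 26) (nat_lit 5) (nat_lit 27) (nat_lit 5) (nat_lit 306) (nat_lit 272) (nat_lit 142)) (XT.lf (nat_lit 0) (nat_lit 30417124828) (nat_lit 152) (nat_lit 13987772052) (nat_lit 228) (nat_lit 11829097809) (nat_lit 24) (nat_lit 5) (nat_lit 26) (nat_lit 5) (nat_lit 27) (nat_lit 5) (nat_lit 307) (nat_lit 272) (nat_lit 141))) (XT.nd (nat_lit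 78) (nat_lit 228) (nat_lit 0) (XT.lf (nat_lit 0) (nat_lit 52847945791) (nat_lit 228) (nat_lit 5258992999) (nat_lit 76) (nat_lit 178936255) (nat_lit 24) (nat_lit 5) (nat_lit 27) (nat_lit 5) (nat_lit 25) (nat_lit 5) (nat_lit 308) (nat_lit 272) (nat_lit 140)) (XT.lf (nat_lit 0) (nat_lit 1726624732) (nat_lit 228) (nat_lit 43817575193) (nat_lit 76) (nat_lit 14870434384) (nat_lit 21) (nat_lit 5) (nat_lit 24) (nat_lit 5) (nat_lit 22) (nat_lit 5) (nat_lit 309) (nat_lit 272) (nat_lit 139)))) (XT.nd (nat_lit 156) (nat_lit 152) (nat_lit 0) (XT.nd (nat_lit 78) (nat_lit 0) (nat_lit 0) (XT.lf (nat_lit 0) (nat_lit 9154898699) (nat_lit 228) (nat_lit 23010834018) (nat_lit 76) (nat_lit 30475235772) (nat_lit 21) (nat_lit 5) (nat_lit 24) (nat_lit 5) (nat_lit 22) (nat_lit 5) (nat_lit 310) (nat_lit 272) (nat_lit 138)) (XT.lf (nat_lit 0) (nat_lit 16952413711) (nat_lit 228) (nat_lit 1166939997) (nat_lit 76)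 (nat_lit 46859380391) (nat_lit 21) (nat_lit 5) (nat_lit 24) (nat_lit 5) (nat_lit 22) (nat_lit 5) (nat_lit 311) (nat_lit 272) (nat_lit 137))) (XT.nd (nat_lit 78) (nat_lit 0) (nat_lit 0) (XT.lf (nat_lit 0) (nat_lit 22485802241) (nat_lit 152) (nat_lit 3002999427) (nat_lit 228) (nat_lit 41927142259) (nat_lit 19) (nat_lit 5) (nat_lit 21) (nat_lit 5) (nat_lit 22) (nat_lit 5) (nat_lit 312) (nat_lit 272) (nat_lit 136)) (XT.lf (nat_lit 0) (nat_lit 34670987211) (nat_lit 228) (nat_lit 22816653792) (nat_lit 76) (nat_lit 12476429855) (nat_lit 19) (nat_lit 5) (nat_lit 22) (nat_lit 5) (nat_lit 20) (nat_lit 5) (nat_lit 313) (nat_lit 272) (nat_lit 135))))) (XT.nd (nat_lit 312) (nat_lit 304) (nat_lit 0) (XT.nd (nat_lit 156) (nat_lit 0) (nat_lit 0) (XT.nd (nat_lit 78) (nat_lit 0) (nat_lit 0) (XT.lf (nat_lit 0) (nat_lit 361934629) (nat_lit 152) (nat_lit 44003292159) (nat_lit 228) (nat_lit 28271735367)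 (nat_lit 17) (nat_lit 5) (nat_lit 19) (nat_lit 5) (nat_lit 20) (nat_lit 5) (nat_lit 314) (nat_lit 272) (nat_lit 134)) (XT.lf (nat_lit 0) (nat_lit 25488713867) (nat_lit 152) (nat_lit 29439987177) (nat_lit 228) (nat_lit 20495575846) (nat_lit 17) (nat_lit 5) (nat_lit 19) (nat_lit 5) (nat_lit 20) (nat_lit 5) (nat_lit 315) (nat_lit 272) (nat_lit 133))) (XT.nd (nat_lit 78) (nat_lit 0) (nat_lit 0) (XT.lf (nat_lit 0) (nat_lit 51869087969) (nat_lit 152) (nat_lit 14149462596) (nat_lit 228) (nat_lit 12332501489) (nat_lit 17) (nat_lit 5) (nat_lit 19) (nat_lit 5) (nat_lit 20) (nat_lit 5) (nat_lit 316) (nat_lit 272) (nat_lit 132)) (XT.lf (nat_lit 0) (nat_lit 77690917264) (nat_lit 228) (nat_lit 1888126322) (nat_lit 76) (nat_lit 1843725697) (nat_lit 17) (nat_lit 5) (nat_lit 20) (nat_lit 5) (nat_lit 18) (nat_lit 4) (nat_lit 317) (nat_lit 272) (nat_lit 131)))) (XT.nd (nat_lit 156) (nat_lit 152) (nat_lit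 0) (XT.nd (nat_lit 78) (nat_lit 0) (nat_lit 0) (XT.lf (nat_lit 0) (nat_lit 5751858559) (nat_lit 152) (nat_lit 60225677614) (nat_lit 76) (nat_lit 18635272627) (nat_lit 15) (nat_lit 5) (nat_lit 17) (nat_lit 5) (nat_lit 16) (nat_lit 5) (nat_lit 318) (nat_lit 272) (nat_lit 130)) (XT.lf (nat_lit 0) (nat_lit 15615204525) (nat_lit 152) (nat_lit 35983328705) (nat_lit 76) (nat_lit 36359218864) (nat_lit 15) (nat_lit 5) (nat_lit 17) (nat_lit 5) (nat_lit 16) (nat_lit 5) (nat_lit 319) (nat_lit 272) (nat_lit 129))) (XT.nd (nat_lit 78) (nat_lit 152) (nat_lit 0) (XT.lf (nat_lit 0) (nat_lit 25970159714) (nat_lit 152) (nat_lit 10531317756) (nat_lit 76) (nat_lit 54968546723) (nat_lit 15) (nat_lit 5) (nat_lit 17) (nat_lit 5) (nat_lit 16) (nat_lit 5) (nat_lit 320) (nat_lit 272) (nat_lit 128)) (XT.nd (nat_lit 78) (nat_lit 0) (nat_lit 0) (XT.lf (nat_lit 0) (nat_lit 16726301357) (nat_lit 152) (nat_lit 20376221863)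 (nat_lit 228) (nat_lit 58042407209) (nat_lit 13) (nat_lit 5) (nat_lit 15) (nat_lit 5) (nat_lit 16) (nat_lit 5) (nat_lit 321) (nat_lit 272) (nat_lit 127)) (XT.lf (nat_lit 0) (nat_lit 45710124234) (nat_lit 152) (nat_lit 3258284488) (nat_lit 228) (nat_lit 50026331453) (nat_lit 13) (nat_lit 5) (nat_lit 15) (nat_lit 5) (nat_lit 16) (nat_lit 5) (nat_lit 322) (nat_lit 272) (nat_lit 126))))))))
noncomputable def xc205 : XT := (XT.nd (nat_lit 1326) (nat_lit 152) (nat_lit 0) (XT.nd (nat_lit 624) (nat_lit 152) (nat_lit 0) (XT.nd (nat_lit 312) (nat_lit 228) (nat_lit 0) (XT.nd (nat_lit 156) (nat_lit 0) (nat_lit 0) (XT.nd (nat_lit 78) (nat_lit 76) (nat_lit 0) (XT.lf (nat_lit 0) (nat_lit 61655946673) (nat_lit 228) (nat_lit 27125903901) (nat_lit 76) (nat_lit 14243775152) (nat_lit 13) (nat_lit 5) (nat_lit 16) (nat_lit 5) (nat_lit 14) (nat_lit 4) (nat_lit 323) (nat_lit 272) (nat_lit 125)) (XT.lf (nat_lit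 0) (nat_lit 294615168) (nat_lit 76) (nat_lit 74739934147) (nat_lit 152) (nat_lit 32220674926) (nat_lit 12) (nat_lit 5) (nat_lit 13) (nat_lit 5) (nat_lit 14) (nat_lit 4) (nat_lit 324) (nat_lit 272) (nat_lit 124))) (XT.nd (nat_lit 78) (nat_lit 0) (nat_lit 0) (XT.lf (nat_lit 0) (nat_lit 30025801300) (nat_lit 76) (nat_lit 59514374860) (nat_lit 152) (nat_lit 22133224745) (nat_lit 12) (nat_lit 5) (nat_lit 13) (nat_lit 5) (nat_lit 14) (nat_lit 4) (nat_lit 325) (nat_lit 272) (nat_lit 123)) (XT.lf (nat_lit 0) (nat_lit 61241538145) (nat_lit 76) (nat_lit 43528311692) (nat_lit 152) (nat_lit 11542701080) (nat_lit 12) (nat_lit 5) (nat_lit 13) (nat_lit 5) (nat_lit 14) (nat_lit 4) (nat_lit 326) (nat_lit 272) (nat_lit 122)))) (XT.nd (nat_lit 156) (nat_lit 0) (nat_lit 0) (XT.nd (nat_lit 78) (nat_lit 228) (nat_lit 0) (XT.lf (nat_lit 0) (nat_lit 94016148887) (nat_lit 76) (nat_lit 26743682586) (nat_lit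 152) (nat_lit 423888398) (nat_lit 12) (nat_lit 5) (nat_lit 13) (nat_lit 5) (nat_lit 14) (nat_lit 4) (nat_lit 327) (nat_lit 272) (nat_lit 121)) (XT.lf (nat_lit 0) (nat_lit 2018115692) (nat_lit 152) (nat_lit 8903019183) (nat_lit 228) (nat_lit 115367013535) (nat_lit 9) (nat_lit 5) (nat_lit 11) (nat_lit 5) (nat_lit 12) (nat_lit 5) (nat_lit 328) (nat_lit 272) (nat_lit 120))) (XT.nd (nat_lit 78) (nat_lit 0) (nat_lit 0) (XT.lf (nat_lit 0) (nat_lit 23439145183) (nat_lit 228) (nat_lit 98188349297) (nat_lit 76) (nat_lit 9988959676) (nat_lit 9) (nat_lit 5) (nat_lit 12) (nat_lit 5) (nat_lit 10) (nat_lit 4) (nat_lit 329) (nat_lit 272) (nat_lit 119)) (XT.lf (nat_lit 0) (nat_lit 36727934732) (nat_lit 228) (nat_lit 70950322155) (nat_lit 76) (nat_lit 29525676551) (nat_lit 9) (nat_lit 5) (nat_lit 12) (nat_lit 5) (nat_lit 10) (nat_lit 4) (nat_lit 330) (nat_lit 272) (nat_lit 118))))) (XT.nd (nat_lit 312)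 (nat_lit 76) (nat_lit 0) (XT.nd (nat_lit 156) (nat_lit 76) (nat_lit 0) (XT.nd (nat_lit 78) (nat_lit 0) (nat_lit 0) (XT.lf (nat_lit 0) (nat_lit 50680142417) (nat_lit 228) (nat_lit 42352097765) (nat_lit 76) (nat_lit 50038599650) (nat_lit 9) (nat_lit 5) (nat_lit 12) (nat_lit 5) (nat_lit 10) (nat_lit 4) (nat_lit 331) (nat_lit 272) (nat_lit 117)) (XT.lf (nat_lit 0) (nat_lit 65328987780) (nat_lit 228) (nat_lit 12325585118) (nat_lit 76) (nat_lit 71576569264) (nat_lit 9) (nat_lit 5) (nat_lit 12) (nat_lit 5) (nat_lit 10) (nat_lit 4) (nat_lit 332) (nat_lit 272) (nat_lit 116))) (XT.nd (nat_lit 78) (nat_lit 0) (nat_lit 0) (XT.lf (nat_lit 0) (nat_lit 19835569584) (nat_lit 76) (nat_lit 61183468270) (nat_lit 152) (nat_lit 74664985521) (nat_lit 8) (nat_lit 5) (nat_lit 9) (nat_lit 5) (nat_lit 10) (nat_lit 4) (nat_lit 333) (nat_lit 272) (nat_lit 115)) (XT.lf (nat_lit 0) (nat_lit 54031177758) (nat_lit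 76) (nat_lit 43670246406) (nat_lit 152) (nat_lit 64747734595) (nat_lit 8) (nat_lit 5) (nat_lit 9) (nat_lit 5) (nat_lit 10) (nat_lit 4) (nat_lit 334) (nat_lit 272) (nat_lit 114)))) (XT.nd (nat_lit 156) (nat_lit 76) (nat_lit 0) (XT.nd (nat_lit 78) (nat_lit 0) (nat_lit 0) (XT.lf (nat_lit 0) (nat_lit 89935118010) (nat_lit 76) (nat_lit 25281948907) (nat_lit 152) (nat_lit 54335528851) (nat_lit 8) (nat_lit 5) (nat_lit 9) (nat_lit 5) (nat_lit 10) (nat_lit 4) (nat_lit 335) (nat_lit 272) (nat_lit 113)) (XT.lf (nat_lit 0) (nat_lit 127632875911) (nat_lit 76) (nat_lit 5974794113) (nat_lit 152) (nat_lit 43403577322) (nat_lit 8) (nat_lit 5) (nat_lit 9) (nat_lit 5) (nat_lit 10) (nat_lit 4) (nat_lit 336) (nat_lit 272) (nat_lit 112))) (XT.nd (nat_lit 78) (nat_lit 76) (nat_lit 0) (XT.lf (nat_lit 0) (nat_lit 153140239799) (nat_lit 152) (nat_lit 17851883325) (nat_lit 0) (nat_lit 13839588107) (nat_lit 8)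 (nat_lit 5) (nat_lit 10) (nat_lit 4) (nat_lit 8) (nat_lit 4) (nat_lit 337) (nat_lit 272) (nat_lit 111)) (XT.nd (nat_lit 78) (nat_lit 0) (nat_lit 0) (XT.lf (nat_lit 0) (nat_lit 15652683393) (nat_lit 76) (nat_lit 158338331090) (nat_lit 76) (nat_lit 19035106485) (nat_lit 7) (nat_lit 4) (nat_lit 8) (nat_lit 5) (nat_lit 8) (nat_lit 4) (nat_lit 338) (nat_lit 272) (nat_lit 110)) (XT.lf (nat_lit 0) (nat_lit 51450994228) (nat_lit 76) (nat_lit 144734926856) (nat_lit 76) (nat_lit 5429251857) (nat_lit 7) (nat_lit 4) (nat_lit 8) (nat_lit 5) (nat_lit 8) (nat_lit 4) (nat_lit 339) (nat_lit 272) (nat_lit 109))))))) (XT.nd (nat_lit 702) (nat_lit 0) (nat_lit 0) (XT.nd (nat_lit 312) (nat_lit 76) (nat_lit 0) (XT.nd (nat_lit 156) (nat_lit 0) (nat_lit 0) (XT.nd (nat_lit 78) (nat_lit 0) (nat_lit 0) (XT.lf (nat_lit 0) (nat_lit 8572704726) (nat_lit 152) (nat_lit 121733964016) (nat_lit 76) (nat_lit 80320131740)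 (nat_lit 6) (nat_lit 5) (nat_lit 8) (nat_lit 5) (nat_lit 7) (nat_lit 4) (nat_lit 340) (nat_lit 272) (nat_lit 108)) (XT.lf (nat_lit 0) (nat_lit 23091619908) (nat_lit 152) (nat_lit 91972410473) (nat_lit 76) (nat_lit 105020564068) (nat_lit 6) (nat_lit 5) (nat_lit 8) (nat_lit 5) (nat_lit 7) (nat_lit 4) (nat_lit 341) (nat_lit 272) (nat_lit 107))) (XT.nd (nat_lit 78) (nat_lit 0) (nat_lit 0) (XT.lf (nat_lit 0) (nat_lit 38335832498) (nat_lit 152) (nat_lit 60723891406) (nat_lit 76) (nat_lit 130955587787) (nat_lit 6) (nat_lit 5) (nat_lit 8) (nat_lit 5) (nat_lit 7) (nat_lit 4) (nat_lit 342) (nat_lit 272) (nat_lit 106)) (XT.lf (nat_lit 0) (nat_lit 54341638240) (nat_lit 152) (nat_lit 27914005578) (nat_lit 76) (nat_lit 158186952953) (nat_lit 6) (nat_lit 5) (nat_lit 8) (nat_lit 5) (nat_lit 7) (nat_lit 4) (nat_lit 343) (nat_lit 272) (nat_lit 105)))) (XT.nd (nat_lit 156) (nat_lit 0) (nat_lit 0) (XT.nd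 (nat_lit 78) (nat_lit 0) (nat_lit 0) (XT.lf (nat_lit 0) (nat_lit 6751454492) (nat_lit 76) (nat_lit 64501100830) (nat_lit 152) (nat_lit 180133450784) (nat_lit 5) (nat_lit 5) (nat_lit 6) (nat_lit 5) (nat_lit 7) (nat_lit 4) (nat_lit 344) (nat_lit 272) (nat_lit 104)) (XT.lf (nat_lit 0) (nat_lit 44118306324) (nat_lit 76) (nat_lit 45362873561) (nat_lit 152) (nat_lit 173371798941) (nat_lit 5) (nat_lit 5) (nat_lit 6) (nat_lit 5) (nat_lit 7) (nat_lit 4) (nat_lit 345) (nat_lit 272) (nat_lit 103))) (XT.nd (nat_lit 78) (nat_lit 0) (nat_lit 0) (XT.lf (nat_lit 0) (nat_lit 83352555524) (nat_lit 76) (nat_lit 25268131995) (nat_lit 152) (nat_lit 166272641024) (nat_lit 5) (nat_lit 5) (nat_lit 6) (nat_lit 5) (nat_lit 7) (nat_lit 4) (nat_lit 346) (nat_lit 272) (nat_lit 102)) (XT.nd (nat_lit 78) (nat_lit 0) (nat_lit 0) (XT.lf (nat_lit 0) (nat_lit 124547616970) (nat_lit 76) (nat_lit 4169031509) (nat_lit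 152) (nat_lit 158819074277) (nat_lit 5) (nat_lit 5) (nat_lit 6) (nat_lit 5) (nat_lit 7) (nat_lit 4) (nat_lit 347) (nat_lit 272) (nat_lit 101)) (XT.lf (nat_lit 0) (nat_lit 150097701298) (nat_lit 152) (nat_lit 133289479266) (nat_lit 0) (nat_lit 17409042290) (nat_lit 5) (nat_lit 5) (nat_lit 7) (nat_lit 4) (nat_lit 5) (nat_lit 4) (nat_lit 348) (nat_lit 272) (nat_lit 100)))))) (XT.nd (nat_lit 31824) (nat_lit 0) (nat_lit 4256) (XT.nd (nat_lit 31668) (nat_lit 0) (nat_lit 4180) (XT.nd (nat_lit 31590) (nat_lit 0) (nat_lit 4180) (XT.lf (nat_lit 0) (nat_lit 172615672663) (nat_lit 152) (nat_lit 102175101863) (nat_lit 0) (nat_lit 39925580960) (nat_lit 5) (nat_lit 5) (nat_lit 7) (nat_lit 4) (nat_lit 5) (nat_lit 4) (nat_lit 349) (nat_lit 272) (nat_lit 99)) (XT.lf (nat_lit 0) (nat_lit 334667268) (nat_lit 0) (nat_lit 334667268) (nat_lit 684) (nat_lit 9685998065) (nat_lit 60) (nat_lit 5) (nat_lit 60)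 (nat_lit 3) (nat_lit 69) (nat_lit 3) (nat_lit 273) (nat_lit 273) (nat_lit 174))) (XT.nd (nat_lit 78) (nat_lit 0) (nat_lit 0) (XT.lf (nat_lit 0) (nat_lit 1636073905) (nat_lit 684) (nat_lit 11787801014) (nat_lit 760) (nat_lit 7790752804) (nat_lit 60) (nat_lit 5) (nat_lit 69) (nat_lit 3) (nat_lit 70) (nat_lit 5) (nat_lit 274) (nat_lit 273) (nat_lit 173)) (XT.lf (nat_lit 0) (nat_lit 1950539077) (nat_lit 684) (nat_lit 3137543980) (nat_lit 760) (nat_lit 16655634678) (nat_lit 60) (nat_lit 5) (nat_lit 69) (nat_lit 3) (nat_lit 70) (nat_lit 5) (nat_lit 275) (nat_lit 273) (nat_lit 172)))) (XT.nd (nat_lit 156) (nat_lit 0) (nat_lit 0) (XT.nd (nat_lit 78) (nat_lit 0) (nat_lit 0) (XT.lf (nat_lit 0) (nat_lit 2427017837) (nat_lit 684) (nat_lit 16216861393) (nat_lit 760) (nat_lit 3648105516) (nat_lit 61) (nat_lit 5) (nat_lit 70) (nat_lit 5) (nat_lit 71) (nat_lit 5) (nat_lit 276) (nat_lit 273) (nat_lit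 171)) (XT.lf (nat_lit 0) (nat_lit 3056752466) (nat_lit 684) (nat_lit 7097090993) (nat_lit 760) (nat_lit 12707385308) (nat_lit 61) (nat_lit 5) (nat_lit 70) (nat_lit 5) (nat_lit 71) (nat_lit 5) (nat_lit 277) (nat_lit 273) (nat_lit 170))) (XT.nd (nat_lit 78) (nat_lit 0) (nat_lit 76) (XT.lf (nat_lit 76) (nat_lit 2555554099) (nat_lit 0) (nat_lit 1194713212) (nat_lit 760) (nat_lit 19707086581) (nat_lit 62) (nat_lit 5) (nat_lit 61) (nat_lit 5) (nat_lit 71) (nat_lit 5) (nat_lit 278) (nat_lit 273) (nat_lit 169)) (XT.nd (nat_lit 78) (nat_lit 0) (nat_lit 0) (XT.lf (nat_lit 0) (nat_lit 4721558917) (nat_lit 684) (nat_lit 11275502942) (nat_lit 760) (nat_lit 8074100340) (nat_lit 62) (nat_lit 5) (nat_lit 71) (nat_lit 5) (nat_lit 72) (nat_lit 5) (nat_lit 279) (nat_lit 273) (nat_lit 168)) (XT.lf (nat_lit 0) (nat_lit 5754067051) (nat_lit 684) (nat_lit 1192491170) (nat_lit 760) (nat_lit 17768500557) (nat_lit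 62) (nat_lit 5) (nat_lit 71) (nat_lit 5) (nat_lit 72) (nat_lit 5) (nat_lit 280) (nat_lit 273) (nat_lit 167))))))))
noncomputable def xc206 : XT := (XT.nd (nat_lit 1326) (nat_lit 1292) (nat_lit 0) (XT.nd (nat_lit 624) (nat_lit 1140) (nat_lit 0) (XT.nd (nat_lit 312) (nat_lit 912) (nat_lit 0) (XT.nd (nat_lit 156) (nat_lit 0) (nat_lit 0) (XT.nd (nat_lit 78) (nat_lit 0) (nat_lit 0) (XT.lf (nat_lit 0) (nat_lit 7025472164) (nat_lit 684) (nat_lit 15725993989) (nat_lit 760) (nat_lit 2630349459) (nat_lit 63) (nat_lit 5) (nat_lit 72) (nat_lit 5) (nat_lit 73) (nat_lit 5) (nat_lit 281) (nat_lit 273) (nat_lit 166)) (XT.lf (nat_lit 0) (nat_lit 8488515737) (nat_lit 684) (nat_lit 5112229294) (nat_lit 760) (nat_lit 12474789470) (nat_lit 63) (nat_lit 5) (nat_lit 72) (nat_lit 5) (nat_lit 73) (nat_lit 5) (nat_lit 282) (nat_lit 273) (nat_lit 165))) (XT.nd (nat_lit 78) (nat_lit 0) (nat_lit 76) (XT.lf (nat_lit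 76) (nat_lit 6226687610) (nat_lit 0) (nat_lit 3889205362) (nat_lit 760) (nat_lit 16683513596) (nat_lit 64) (nat_lit 5) (nat_lit 63) (nat_lit 5) (nat_lit 73) (nat_lit 5) (nat_lit 283) (nat_lit 273) (nat_lit 164)) (XT.lf (nat_lit 0) (nat_lit 12005315968) (nat_lit 684) (nat_lit 9350095267) (nat_lit 76) (nat_lit 6195052214) (nat_lit 64) (nat_lit 5) (nat_lit 73) (nat_lit 5) (nat_lit 65) (nat_lit 5) (nat_lit 284) (nat_lit 273) (nat_lit 163)))) (XT.nd (nat_lit 156) (nat_lit 304) (nat_lit 0) (XT.nd (nat_lit 78) (nat_lit 0) (nat_lit 0) (XT.lf (nat_lit 0) (nat_lit 2443259947) (nat_lit 684) (nat_lit 11642325513) (nat_lit 760) (nat_lit 14248692808) (nat_lit 55) (nat_lit 5) (nat_lit 64) (nat_lit 5) (nat_lit 65) (nat_lit 5) (nat_lit 285) (nat_lit 273) (nat_lit 162)) (XT.lf (nat_lit 0) (nat_lit 15146133436) (nat_lit 684) (nat_lit 1276744003) (nat_lit 760) (nat_lit 12726778665) (nat_lit 55) (nat_lit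 5) (nat_lit 64) (nat_lit 5) (nat_lit 65) (nat_lit 5) (nat_lit 286) (nat_lit 273) (nat_lit 161))) (XT.nd (nat_lit 78) (nat_lit 304) (nat_lit 0) (XT.lf (nat_lit 0) (nat_lit 19021951470) (nat_lit 760) (nat_lit 1676467545) (nat_lit 76) (nat_lit 9300159587) (nat_lit 55) (nat_lit 5) (nat_lit 65) (nat_lit 5) (nat_lit 56) (nat_lit 5) (nat_lit 287) (nat_lit 273) (nat_lit 160)) (XT.lf (nat_lit 0) (nat_lit 11613110450) (nat_lit 304) (nat_lit 10335277362) (nat_lit 380) (nat_lit 8931709595) (nat_lit 51) (nat_lit 5) (nat_lit 55) (nat_lit 5) (nat_lit 56) (nat_lit 5) (nat_lit 288) (nat_lit 273) (nat_lit 159))))) (XT.nd (nat_lit 312) (nat_lit 532) (nat_lit 0) (XT.nd (nat_lit 156) (nat_lit 304) (nat_lit 0) (XT.nd (nat_lit 78) (nat_lit 304) (nat_lit 0) (XT.lf (nat_lit 0) (nat_lit 25053855459) (nat_lit 380) (nat_lit 6192665912) (nat_lit 76) (nat_lit 557554938) (nat_lit 51) (nat_lit 5) (nat_lit 56) (nat_lit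 5) (nat_lit 52) (nat_lit 5) (nat_lit 289) (nat_lit 273) (nat_lit 158)) (XT.lf (nat_lit 0) (nat_lit 7604795156) (nat_lit 304) (nat_lit 20993514117) (nat_lit 380) (nat_lit 4161777942) (nat_lit 47) (nat_lit 5) (nat_lit 51) (nat_lit 5) (nat_lit 52) (nat_lit 5) (nat_lit 290) (nat_lit 273) (nat_lit 157))) (XT.nd (nat_lit 78) (nat_lit 304) (nat_lit 0) (XT.lf (nat_lit 0) (nat_lit 22302651791) (nat_lit 304) (nat_lit 10117901701) (nat_lit 380) (nat_lit 1338334593) (nat_lit 47) (nat_lit 5) (nat_lit 51) (nat_lit 5) (nat_lit 52) (nat_lit 5) (nat_lit 291) (nat_lit 273) (nat_lit 156)) (XT.lf (nat_lit 0) (nat_lit 1638283436) (nat_lit 304) (nat_lit 31831959854) (nat_lit 76) (nat_lit 1332929636) (nat_lit 43) (nat_lit 5) (nat_lit 47) (nat_lit 5) (nat_lit 44) (nat_lit 5) (nat_lit 292) (nat_lit 273) (nat_lit 155)))) (XT.nd (nat_lit 156) (nat_lit 532) (nat_lit 0) (XT.nd (nat_lit 78) (nat_lit 0) (nat_lit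 0) (XT.lf (nat_lit 0) (nat_lit 5077760745) (nat_lit 304) (nat_lit 17567746241) (nat_lit 76) (nat_lit 13235133150) (nat_lit 43) (nat_lit 5) (nat_lit 47) (nat_lit 5) (nat_lit 44) (nat_lit 5) (nat_lit 293) (nat_lit 273) (nat_lit 154)) (XT.lf (nat_lit 0) (nat_lit 8685345675) (nat_lit 304) (nat_lit 2594661838) (nat_lit 76) (nat_lit 25732181156) (nat_lit 43) (nat_lit 5) (nat_lit 47) (nat_lit 5) (nat_lit 44) (nat_lit 5) (nat_lit 294) (nat_lit 273) (nat_lit 153))) (XT.nd (nat_lit 78) (nat_lit 228) (nat_lit 0) (XT.lf (nat_lit 0) (nat_lit 12694958028) (nat_lit 380) (nat_lit 24646752264) (nat_lit 76) (nat_lit 847535877) (nat_lit 39) (nat_lit 5) (nat_lit 44) (nat_lit 5) (nat_lit 40) (nat_lit 5) (nat_lit 295) (nat_lit 273) (nat_lit 152)) (XT.nd (nat_lit 78) (nat_lit 228) (nat_lit 0) (XT.lf (nat_lit 0) (nat_lit 17131053331) (nat_lit 380) (nat_lit 9036260346) (nat_lit 76) (nat_lit 13246556039) (nat_lit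 39) (nat_lit 5) (nat_lit 44) (nat_lit 5) (nat_lit 40) (nat_lit 5) (nat_lit 296) (nat_lit 273) (nat_lit 151)) (XT.lf (nat_lit 0) (nat_lit 7593755562) (nat_lit 228) (nat_lit 14310349989) (nat_lit 304) (nat_lit 18789873937) (nat_lit 36) (nat_lit 5) (nat_lit 39) (nat_lit 5) (nat_lit 40) (nat_lit 5) (nat_lit 297) (nat_lit 273) (nat_lit 150))))))) (XT.nd (nat_lit 624) (nat_lit 532) (nat_lit 0) (XT.nd (nat_lit 312) (nat_lit 532) (nat_lit 0) (XT.nd (nat_lit 156) (nat_lit 0) (nat_lit 0) (XT.nd (nat_lit 78) (nat_lit 228) (nat_lit 0) (XT.lf (nat_lit 0) (nat_lit 25365007910) (nat_lit 228) (nat_lit 1700528346) (nat_lit 304) (nat_lit 14965084250) (nat_lit 36) (nat_lit 5) (nat_lit 39) (nat_lit 5) (nat_lit 40) (nat_lit 5) (nat_lit 298) (nat_lit 273) (nat_lit 149)) (XT.lf (nat_lit 0) (nat_lit 420053055) (nat_lit 228) (nat_lit 32248551913) (nat_lit 304) (nat_lit 10756321761) (nat_lit 33) (nat_lit 5)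 (nat_lit 36) (nat_lit 5) (nat_lit 37) (nat_lit 5) (nat_lit 299) (nat_lit 273) (nat_lit 148))) (XT.nd (nat_lit 78) (nat_lit 0) (nat_lit 0) (XT.lf (nat_lit 0) (nat_lit 18905906714) (nat_lit 228) (nat_lit 19952518158) (nat_lit 304) (nat_lit 6015204436) (nat_lit 33) (nat_lit 5) (nat_lit 36) (nat_lit 5) (nat_lit 37) (nat_lit 5) (nat_lit 300) (nat_lit 273) (nat_lit 147)) (XT.lf (nat_lit 0) (nat_lit 38312349775) (nat_lit 228) (nat_lit 7042461866) (nat_lit 304) (nat_lit 1040111992) (nat_lit 33) (nat_lit 5) (nat_lit 36) (nat_lit 5) (nat_lit 37) (nat_lit 5) (nat_lit 301) (nat_lit 273) (nat_lit 146)))) (XT.nd (nat_lit 156) (nat_lit 228) (nat_lit 0) (XT.nd (nat_lit 78) (nat_lit 0) (nat_lit 0) (XT.lf (nat_lit 0) (nat_lit 4323963046) (nat_lit 304) (nat_lit 37106865580) (nat_lit 76) (nat_lit 6544490818) (nat_lit 29) (nat_lit 5) (nat_lit 33) (nat_lit 5) (nat_lit 30) (nat_lit 5) (nat_lit 302) (nat_lit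 273) (nat_lit 145)) (XT.lf (nat_lit 0) (nat_lit 10173090399) (nat_lit 304) (nat_lit 18718700521) (nat_lit 76) (nat_lit 20729510410) (nat_lit 29) (nat_lit 5) (nat_lit 33) (nat_lit 5) (nat_lit 30) (nat_lit 5) (nat_lit 303) (nat_lit 273) (nat_lit 144))) (XT.nd (nat_lit 78) (nat_lit 0) (nat_lit 0) (XT.lf (nat_lit 0) (nat_lit 604697265) (nat_lit 228) (nat_lit 15716776617) (nat_lit 304) (nat_lit 35027777006) (nat_lit 26) (nat_lit 5) (nat_lit 29) (nat_lit 5) (nat_lit 30) (nat_lit 5) (nat_lit 304) (nat_lit 273) (nat_lit 143)) (XT.lf (nat_lit 0) (nat_lit 21540663271) (nat_lit 228) (nat_lit 1551053818) (nat_lit 304) (nat_lit 30056166965) (nat_lit 26) (nat_lit 5) (nat_lit 29) (nat_lit 5) (nat_lit 30) (nat_lit 5) (nat_lit 305) (nat_lit 273) (nat_lit 142))))) (XT.nd (nat_lit 312) (nat_lit 380) (nat_lit 0) (XT.nd (nat_lit 156) (nat_lit 0) (nat_lit 0) (XT.nd (nat_lit 78) (nat_lit 152) (nat_lit 0)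 (XT.lf (nat_lit 0) (nat_lit 30406020364) (nat_lit 304) (nat_lit 11724453996) (nat_lit 76) (nat_lit 12895704892) (nat_lit 26) (nat_lit 5) (nat_lit 30) (nat_lit 5) (nat_lit 27) (nat_lit 5) (nat_lit 306) (nat_lit 273) (nat_lit 141)) (XT.lf (nat_lit 0) (nat_lit 9425435851) (nat_lit 152) (nat_lit 28830843948) (nat_lit 228) (nat_lit 18733604759) (nat_lit 24) (nat_lit 5) (nat_lit 26) (nat_lit 5) (nat_lit 27) (nat_lit 5) (nat_lit 307) (nat_lit 273) (nat_lit 140))) (XT.nd (nat_lit 78) (nat_lit 0) (nat_lit 0) (XT.lf (nat_lit 0) (nat_lit 32036658377) (nat_lit 152) (nat_lit 14658671057) (nat_lit 228) (nat_lit 12346638882) (nat_lit 24) (nat_lit 5) (nat_lit 26) (nat_lit 5) (nat_lit 27) (nat_lit 5) (nat_lit 308) (nat_lit 273) (nat_lit 139)) (XT.lf (nat_lit 0) (nat_lit 55557612139) (nat_lit 228) (nat_lit 5424839208) (nat_lit 76) (nat_lit 214147594) (nat_lit 24) (nat_lit 5) (nat_lit 27) (nat_lit 5)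 (nat_lit 25) (nat_lit 5) (nat_lit 309) (nat_lit 273) (nat_lit 138)))) (XT.nd (nat_lit 156) (nat_lit 152) (nat_lit 0) (XT.nd (nat_lit 78) (nat_lit 0) (nat_lit 0) (XT.lf (nat_lit 0) (nat_lit 1879778336) (nat_lit 228) (nat_lit 45910520033) (nat_lit 76) (nat_lit 15641539322) (nat_lit 21) (nat_lit 5) (nat_lit 24) (nat_lit 5) (nat_lit 22) (nat_lit 5) (nat_lit 310) (nat_lit 273) (nat_lit 137)) (XT.lf (nat_lit 0) (nat_lit 9676283985) (nat_lit 228) (nat_lit 24068105320) (nat_lit 76) (nat_lit 32025267293) (nat_lit 21) (nat_lit 5) (nat_lit 24) (nat_lit 5) (nat_lit 22) (nat_lit 5) (nat_lit 311) (nat_lit 273) (nat_lit 136))) (XT.nd (nat_lit 78) (nat_lit 152) (nat_lit 0) (XT.lf (nat_lit 0) (nat_lit 17860644254) (nat_lit 228) (nat_lit 1136458045) (nat_lit 76) (nat_lit 49227368204) (nat_lit 21) (nat_lit 5) (nat_lit 24) (nat_lit 5) (nat_lit 22) (nat_lit 5) (nat_lit 312) (nat_lit 273) (nat_lit 135))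 (XT.nd (nat_lit 78) (nat_lit 0) (nat_lit 0) (XT.lf (nat_lit 0) (nat_lit 23697488579) (nat_lit 152) (nat_lit 3124841346) (nat_lit 228) (nat_lit 43961295067) (nat_lit 19) (nat_lit 5) (nat_lit 21) (nat_lit 5) (nat_lit 22) (nat_lit 5) (nat_lit 313) (nat_lit 273) (nat_lit 134)) (XT.lf (nat_lit 0) (nat_lit 36461231945) (nat_lit 228) (nat_lit 23871705158) (nat_lit 76) (nat_lit 13126348508) (nat_lit 19) (nat_lit 5) (nat_lit 22) (nat_lit 5) (nat_lit 20) (nat_lit 5) (nat_lit 314) (nat_lit 273) (nat_lit 133))))))))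
noncomputable def xc207 : XT := (XT.nd (nat_lit 1326) (nat_lit 304) (nat_lit 0) (XT.nd (nat_lit 624) (nat_lit 304) (nat_lit 0) (XT.nd (nat_lit 312) (nat_lit 304) (nat_lit 0) (XT.nd (nat_lit 156) (nat_lit 0) (nat_lit 0) (XT.nd (nat_lit 78) (nat_lit 0) (nat_lit 0) (XT.lf (nat_lit 0) (nat_lit 464429114) (nat_lit 152) (nat_lit 46174372292) (nat_lit 228) (nat_lit 29627096506) (nat_lit 17) (nat_lit 5) (nat_lit 19) (nat_lit 5) (nat_lit 20) (nat_lit 5) (nat_lit 315) (nat_lit 273) (nat_lit 132)) (XT.lf (nat_lit 0) (nat_lit 26843528374) (nat_lit 152) (nat_lit 30884287037) (nat_lit 228) (nat_lit 21464901657) (nat_lit 17) (nat_lit 5) (nat_lit 19) (nat_lit 5) (nat_lit 20) (nat_lit 5) (nat_lit 316) (nat_lit 273) (nat_lit 131))) (XT.nd (nat_lit 78) (nat_lit 0) (nat_lit 0) (XT.lf (nat_lit 0) (nat_lit 54539093618) (nat_lit 152) (nat_lit 14830555250) (nat_lit 228) (nat_lit 12896314201) (nat_lit 17)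 (nat_lit 5) (nat_lit 19) (nat_lit 5) (nat_lit 20) (nat_lit 5) (nat_lit 317) (nat_lit 273) (nat_lit 130)) (XT.lf (nat_lit 0) (nat_lit 81623637078) (nat_lit 228) (nat_lit 1907503147) (nat_lit 76) (nat_lit 1960232111) (nat_lit 17) (nat_lit 5) (nat_lit 20) (nat_lit 5) (nat_lit 18) (nat_lit 4) (nat_lit 318) (nat_lit 273) (nat_lit 129)))) (XT.nd (nat_lit 156) (nat_lit 152) (nat_lit 0) (XT.nd (nat_lit 78) (nat_lit 0) (nat_lit 0) (XT.lf (nat_lit 0) (nat_lit 6087371808) (nat_lit 152) (nat_lit 63161442763) (nat_lit 76) (nat_lit 19592123721) (nat_lit 15) (nat_lit 5) (nat_lit 17) (nat_lit 5) (nat_lit 16) (nat_lit 5) (nat_lit 319) (nat_lit 273) (nat_lit 128)) (XT.lf (nat_lit 0) (nat_lit 16441603152) (nat_lit 152) (nat_lit 37710572537) (nat_lit 76) (nat_lit 38201072629) (nat_lit 15) (nat_lit 5) (nat_lit 17) (nat_lit 5) (nat_lit 16) (nat_lit 5) (nat_lit 320) (nat_lit 273) (nat_lit 127))) (XT.nd (nat_lit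 78) (nat_lit 152) (nat_lit 0) (XT.lf (nat_lit 0) (nat_lit 27312132843) (nat_lit 152) (nat_lit 10989385928) (nat_lit 76) (nat_lit 57739729128) (nat_lit 15) (nat_lit 5) (nat_lit 17) (nat_lit 5) (nat_lit 16) (nat_lit 5) (nat_lit 321) (nat_lit 273) (nat_lit 126)) (XT.lf (nat_lit 0) (nat_lit 17630009340) (nat_lit 152) (nat_lit 21370087608) (nat_lit 228) (nat_lit 60899858341) (nat_lit 13) (nat_lit 5) (nat_lit 15) (nat_lit 5) (nat_lit 16) (nat_lit 5) (nat_lit 322) (nat_lit 273) (nat_lit 125))))) (XT.nd (nat_lit 312) (nat_lit 228) (nat_lit 0) (XT.nd (nat_lit 156) (nat_lit 76) (nat_lit 0) (XT.nd (nat_lit 78) (nat_lit 0) (nat_lit 0) (XT.lf (nat_lit 0) (nat_lit 48059814174) (nat_lit 152) (nat_lit 3397441238) (nat_lit 228) (nat_lit 52485105903) (nat_lit 13) (nat_lit 5) (nat_lit 15) (nat_lit 5) (nat_lit 16) (nat_lit 5) (nat_lit 323) (nat_lit 273) (nat_lit 124)) (XT.lf (nat_lit 0) (nat_lit 64777598459)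 (nat_lit 228) (nat_lit 28419409881) (nat_lit 76) (nat_lit 14977865897) (nat_lit 13) (nat_lit 5) (nat_lit 16) (nat_lit 5) (nat_lit 14) (nat_lit 4) (nat_lit 324) (nat_lit 273) (nat_lit 123))) (XT.nd (nat_lit 78) (nat_lit 0) (nat_lit 0) (XT.lf (nat_lit 0) (nat_lit 371122412) (nat_lit 76) (nat_lit 78453123113) (nat_lit 152) (nat_lit 33791755726) (nat_lit 12) (nat_lit 5) (nat_lit 13) (nat_lit 5) (nat_lit 14) (nat_lit 4) (nat_lit 325) (nat_lit 273) (nat_lit 122)) (XT.lf (nat_lit 0) (nat_lit 31585926113) (nat_lit 76) (nat_lit 62467419564) (nat_lit 152) (nat_lit 23201835557) (nat_lit 12) (nat_lit 5) (nat_lit 13) (nat_lit 5) (nat_lit 14) (nat_lit 4) (nat_lit 326) (nat_lit 273) (nat_lit 121)))) (XT.nd (nat_lit 156) (nat_lit 228) (nat_lit 0) (XT.nd (nat_lit 78) (nat_lit 0) (nat_lit 0) (XT.lf (nat_lit 0) (nat_lit 64359648146) (nat_lit 76) (nat_lit 45683132953) (nat_lit 152) (nat_lit 12083597633)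 (nat_lit 12) (nat_lit 5) (nat_lit 13) (nat_lit 5) (nat_lit 14) (nat_lit 4) (nat_lit 327) (nat_lit 273) (nat_lit 120)) (XT.lf (nat_lit 0) (nat_lit 98770321183) (nat_lit 76) (nat_lit 28060300693) (nat_lit 152) (nat_lit 410569961) (nat_lit 12) (nat_lit 5) (nat_lit 13) (nat_lit 5) (nat_lit 14) (nat_lit 4) (nat_lit 328) (nat_lit 273) (nat_lit 119))) (XT.nd (nat_lit 78) (nat_lit 0) (nat_lit 0) (XT.lf (nat_lit 0) (nat_lit 2172681836) (nat_lit 152) (nat_lit 9327164934) (nat_lit 228) (nat_lit 121101009105) (nat_lit 9) (nat_lit 5) (nat_lit 11) (nat_lit 5) (nat_lit 12) (nat_lit 5) (nat_lit 329) (nat_lit 273) (nat_lit 118)) (XT.nd (nat_lit 78) (nat_lit 0) (nat_lit 0) (XT.lf (nat_lit 0) (nat_lit 24642514919) (nat_lit 228) (nat_lit 103045354986) (nat_lit 76) (nat_lit 10507772336) (nat_lit 9) (nat_lit 5) (nat_lit 12) (nat_lit 5) (nat_lit 10) (nat_lit 4) (nat_lit 330) (nat_lit 273) (nat_lit 117))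 (XT.lf (nat_lit 0) (nat_lit 38594248113) (nat_lit 228) (nat_lit 74447922285) (nat_lit 76) (nat_lit 31020402928) (nat_lit 9) (nat_lit 5) (nat_lit 12) (nat_lit 5) (nat_lit 10) (nat_lit 4) (nat_lit 331) (nat_lit 273) (nat_lit 116))))))) (XT.nd (nat_lit 702) (nat_lit 152) (nat_lit 0) (XT.nd (nat_lit 312) (nat_lit 76) (nat_lit 0) (XT.nd (nat_lit 156) (nat_lit 76) (nat_lit 0) (XT.nd (nat_lit 78) (nat_lit 0) (nat_lit 0) (XT.lf (nat_lit 0) (nat_lit 53242641580) (nat_lit 228) (nat_lit 44422163627) (nat_lit 76) (nat_lit 52558093965) (nat_lit 9) (nat_lit 5) (nat_lit 12) (nat_lit 5) (nat_lit 10) (nat_lit 4) (nat_lit 332) (nat_lit 273) (nat_lit 115)) (XT.lf (nat_lit 0) (nat_lit 68622572447) (nat_lit 228) (nat_lit 12896589111) (nat_lit 76) (nat_lit 75172125663) (nat_lit 9) (nat_lit 5) (nat_lit 12) (nat_lit 5) (nat_lit 10) (nat_lit 4) (nat_lit 333) (nat_lit 273) (nat_lit 114))) (XT.nd (nat_lit 78)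 (nat_lit 0) (nat_lit 0) (XT.lf (nat_lit 0) (nat_lit 20871893080) (nat_lit 76) (nat_lit 64224635262) (nat_lit 152) (nat_lit 78370316620) (nat_lit 8) (nat_lit 5) (nat_lit 9) (nat_lit 5) (nat_lit 10) (nat_lit 4) (nat_lit 334) (nat_lit 273) (nat_lit 113)) (XT.lf (nat_lit 0) (nat_lit 56775160472) (nat_lit 76) (nat_lit 45836609753) (nat_lit 152) (nat_lit 67958532585) (nat_lit 8) (nat_lit 5) (nat_lit 9) (nat_lit 5) (nat_lit 10) (nat_lit 4) (nat_lit 335) (nat_lit 273) (nat_lit 112)))) (XT.nd (nat_lit 156) (nat_lit 76) (nat_lit 0) (XT.nd (nat_lit 78) (nat_lit 0) (nat_lit 0) (XT.lf (nat_lit 0) (nat_lit 94472277554) (nat_lit 76) (nat_lit 26529713997) (nat_lit 152) (nat_lit 57026982684) (nat_lit 8) (nat_lit 5) (nat_lit 9) (nat_lit 5) (nat_lit 10) (nat_lit 4) (nat_lit 336) (nat_lit 273) (nat_lit 111)) (XT.lf (nat_lit 0) (nat_lit 134052999367) (nat_lit 76) (nat_lit 6257979195) (nat_lit 152) (nat_lit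 45549639417) (nat_lit 8) (nat_lit 5) (nat_lit 9) (nat_lit 5) (nat_lit 10) (nat_lit 4) (nat_lit 337) (nat_lit 273) (nat_lit 110))) (XT.nd (nat_lit 78) (nat_lit 76) (nat_lit 0) (XT.lf (nat_lit 0) (nat_lit 160819316444) (nat_lit 152) (nat_lit 18706926497) (nat_lit 0) (nat_lit 14545907302) (nat_lit 8) (nat_lit 5) (nat_lit 10) (nat_lit 4) (nat_lit 8) (nat_lit 4) (nat_lit 338) (nat_lit 273) (nat_lit 109)) (XT.nd (nat_lit 78) (nat_lit 0) (nat_lit 0) (XT.lf (nat_lit 0) (nat_lit 16472262896) (nat_lit 76) (nat_lit 166239893089) (nat_lit 76) (nat_lit 19964150239) (nat_lit 7) (nat_lit 4) (nat_lit 8) (nat_lit 5) (nat_lit 8) (nat_lit 4) (nat_lit 339) (nat_lit 273) (nat_lit 108)) (XT.lf (nat_lit 0) (nat_lit 54058729971) (nat_lit 76) (nat_lit 151957049812) (nat_lit 76) (nat_lit 5679084383) (nat_lit 7) (nat_lit 4) (nat_lit 8) (nat_lit 5) (nat_lit 8) (nat_lit 4) (nat_lit 340) (nat_lit 273) (nat_lit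 107)))))) (XT.nd (nat_lit 312) (nat_lit 76) (nat_lit 0) (XT.nd (nat_lit 156) (nat_lit 0) (nat_lit 0) (XT.nd (nat_lit 78) (nat_lit 0) (nat_lit 0) (XT.lf (nat_lit 0) (nat_lit 9021280696) (nat_lit 152) (nat_lit 127786456743) (nat_lit 76) (nat_lit 84349370394) (nat_lit 6) (nat_lit 5) (nat_lit 8) (nat_lit 5) (nat_lit 7) (nat_lit 4) (nat_lit 341) (nat_lit 273) (nat_lit 106)) (XT.lf (nat_lit 0) (nat_lit 24265192078) (nat_lit 152) (nat_lit 96538454355) (nat_lit 76) (nat_lit 110284194240) (nat_lit 6) (nat_lit 5) (nat_lit 8) (nat_lit 5) (nat_lit 7) (nat_lit 4) (nat_lit 342) (nat_lit 273) (nat_lit 105))) (XT.nd (nat_lit 78) (nat_lit 0) (nat_lit 0) (XT.lf (nat_lit 0) (nat_lit 40270710955) (nat_lit 152) (nat_lit 63729060603) (nat_lit 76) (nat_lit 137515369051) (nat_lit 6) (nat_lit 5) (nat_lit 8) (nat_lit 5) (nat_lit 7) (nat_lit 4) (nat_lit 343) (nat_lit 273) (nat_lit 104)) (XT.lf (nat_lit 0) (nat_lit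 57075945707) (nat_lit 152) (nat_lit 29280157883) (nat_lit 76) (nat_lit 166107730958) (nat_lit 6) (nat_lit 5) (nat_lit 8) (nat_lit 5) (nat_lit 7) (nat_lit 4) (nat_lit 344) (nat_lit 273) (nat_lit 103)))) (XT.nd (nat_lit 156) (nat_lit 0) (nat_lit 0) (XT.nd (nat_lit 78) (nat_lit 0) (nat_lit 0) (XT.lf (nat_lit 0) (nat_lit 7118098610) (nat_lit 76) (nat_lit 67713943654) (nat_lit 152) (nat_lit 189122391869) (nat_lit 5) (nat_lit 5) (nat_lit 6) (nat_lit 5) (nat_lit 7) (nat_lit 4) (nat_lit 345) (nat_lit 273) (nat_lit 102)) (XT.lf (nat_lit 0) (nat_lit 46351908682) (nat_lit 76) (nat_lit 47619386556) (nat_lit 152) (nat_lit 182023501789) (nat_lit 5) (nat_lit 5) (nat_lit 6) (nat_lit 5) (nat_lit 7) (nat_lit 4) (nat_lit 346) (nat_lit 273) (nat_lit 101))) (XT.nd (nat_lit 78) (nat_lit 0) (nat_lit 0) (XT.lf (nat_lit 0) (nat_lit 87546551911) (nat_lit 76) (nat_lit 26520461753) (nat_lit 152) (nat_lit 174570190124)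 (nat_lit 5) (nat_lit 5) (nat_lit 6) (nat_lit 5) (nat_lit 7) (nat_lit 4) (nat_lit 347) (nat_lit 273) (nat_lit 100)) (XT.nd (nat_lit 31746) (nat_lit 0) (nat_lit 4180) (XT.lf (nat_lit 0) (nat_lit 130800110782) (nat_lit 76) (nat_lit 4366933711) (nat_lit 152) (nat_lit 166744710894) (nat_lit 5) (nat_lit 5) (nat_lit 6) (nat_lit 5) (nat_lit 7) (nat_lit 4) (nat_lit 348) (nat_lit 273) (nat_lit 99)) (XT.lf (nat_lit 0) (nat_lit 419461557) (nat_lit 0) (nat_lit 419461557) (nat_lit 684) (nat_lit 10026772301) (nat_lit 60) (nat_lit 5) (nat_lit 60) (nat_lit 3) (nat_lit 69) (nat_lit 3) (nat_lit 274) (nat_lit 274) (nat_lit 172))))))))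
noncomputable def xc208 : XT := (XT.nd (nat_lit 1326) (nat_lit 1748) (nat_lit 0) (XT.nd (nat_lit 624) (nat_lit 988) (nat_lit 0) (XT.nd (nat_lit 312) (nat_lit 0) (nat_lit 76) (XT.nd (nat_lit 156) (nat_lit 0) (nat_lit 76) (XT.nd (nat_lit 78) (nat_lit 0) (nat_lit 0) (XT.lf (nat_lit 0) (nat_lit 1975133273) (nat_lit 684) (nat_lit 12231424659) (nat_lit 760) (nat_lit 8054799872) (nat_lit 60) (nat_lit 5) (nat_lit 69) (nat_lit 3) (nat_lit 70) (nat_lit 5) (nat_lit 275) (nat_lit 274) (nat_lit 171)) (XT.lf (nat_lit 0) (nat_lit 2293071433) (nat_lit 684) (nat_lit 3155596029) (nat_lit 760) (nat_lit 17368901581) (nat_lit 60) (nat_lit 5) (nat_lit 69) (nat_lit 3) (nat_lit 70) (nat_lit 5) (nat_lit 276) (nat_lit 274) (nat_lit 170))) (XT.nd (nat_lit 78) (nat_lit 0) (nat_lit 0) (XT.lf (nat_lit 0) (nat_lit 2782295828) (nat_lit 684) (nat_lit 16876768336) (nat_lit 760) (nat_lit 3734790792) (nat_lit 61) (nat_lit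 5) (nat_lit 70) (nat_lit 5) (nat_lit 71) (nat_lit 5) (nat_lit 277) (nat_lit 274) (nat_lit 169)) (XT.lf (nat_lit 0) (nat_lit 3432377803) (nat_lit 684) (nat_lit 7308196851) (nat_lit 760) (nat_lit 13251592669) (nat_lit 61) (nat_lit 5) (nat_lit 70) (nat_lit 5) (nat_lit 71) (nat_lit 5) (nat_lit 278) (nat_lit 274) (nat_lit 168)))) (XT.nd (nat_lit 156) (nat_lit 0) (nat_lit 76) (XT.nd (nat_lit 78) (nat_lit 0) (nat_lit 76) (XT.lf (nat_lit 76) (nat_lit 2824761968) (nat_lit 0) (nat_lit 1327405604) (nat_lit 760) (nat_lit 20466398004) (nat_lit 62) (nat_lit 5) (nat_lit 61) (nat_lit 5) (nat_lit 71) (nat_lit 5) (nat_lit 279) (nat_lit 274) (nat_lit 167)) (XT.lf (nat_lit 0) (nat_lit 5160730041) (nat_lit 684) (nat_lit 11692396914) (nat_lit 760) (nat_lit 8410546633) (nat_lit 62) (nat_lit 5) (nat_lit 71) (nat_lit 5) (nat_lit 72) (nat_lit 5) (nat_lit 280) (nat_lit 274) (nat_lit 166))) (XT.nd (nat_lit 78)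 (nat_lit 0) (nat_lit 76) (XT.lf (nat_lit 0) (nat_lit 6235192478) (nat_lit 684) (nat_lit 1112228895) (nat_lit 760) (nat_lit 18592869658) (nat_lit 62) (nat_lit 5) (nat_lit 71) (nat_lit 5) (nat_lit 72) (nat_lit 5) (nat_lit 281) (nat_lit 274) (nat_lit 165)) (XT.lf (nat_lit 0) (nat_lit 7562345264) (nat_lit 684) (nat_lit 16363775146) (nat_lit 760) (nat_lit 2714696882) (nat_lit 63) (nat_lit 5) (nat_lit 72) (nat_lit 5) (nat_lit 73) (nat_lit 5) (nat_lit 282) (nat_lit 274) (nat_lit 164))))) (XT.nd (nat_lit 312) (nat_lit 608) (nat_lit 0) (XT.nd (nat_lit 156) (nat_lit 608) (nat_lit 0) (XT.nd (nat_lit 78) (nat_lit 0) (nat_lit 0) (XT.lf (nat_lit 0) (nat_lit 9089702944) (nat_lit 684) (nat_lit 5226394529) (nat_lit 760) (nat_lit 13053605087) (nat_lit 63) (nat_lit 5) (nat_lit 72) (nat_lit 5) (nat_lit 73) (nat_lit 5) (nat_lit 283) (nat_lit 274) (nat_lit 163)) (XT.lf (nat_lit 76) (nat_lit 6677186830)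 (nat_lit 0) (nat_lit 4115017754) (nat_lit 760) (nat_lit 17337912564) (nat_lit 64) (nat_lit 5) (nat_lit 63) (nat_lit 5) (nat_lit 73) (nat_lit 5) (nat_lit 284) (nat_lit 274) (nat_lit 162))) (XT.nd (nat_lit 78) (nat_lit 684) (nat_lit 0) (XT.lf (nat_lit 0) (nat_lit 12767512689) (nat_lit 684) (nat_lit 9675777093) (nat_lit 76) (nat_lit 6475901340) (nat_lit 64) (nat_lit 5) (nat_lit 73) (nat_lit 5) (nat_lit 65) (nat_lit 5) (nat_lit 285) (nat_lit 274) (nat_lit 161)) (XT.lf (nat_lit 0) (nat_lit 2704958415) (nat_lit 684) (nat_lit 12241304785) (nat_lit 760) (nat_lit 14796243389) (nat_lit 55) (nat_lit 5) (nat_lit 64) (nat_lit 5) (nat_lit 65) (nat_lit 5) (nat_lit 286) (nat_lit 274) (nat_lit 160)))) (XT.nd (nat_lit 156) (nat_lit 608) (nat_lit 0) (XT.nd (nat_lit 78) (nat_lit 0) (nat_lit 0) (XT.lf (nat_lit 0) (nat_lit 16036331032) (nat_lit 684) (nat_lit 1356641199) (nat_lit 760) (nat_lit 13206085161)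 (nat_lit 55) (nat_lit 5) (nat_lit 64) (nat_lit 5) (nat_lit 65) (nat_lit 5) (nat_lit 287) (nat_lit 274) (nat_lit 159)) (XT.lf (nat_lit 0) (nat_lit 20114668261) (nat_lit 760) (nat_lit 1625792653) (nat_lit 76) (nat_lit 9750361875) (nat_lit 55) (nat_lit 5) (nat_lit 65) (nat_lit 5) (nat_lit 56) (nat_lit 5) (nat_lit 288) (nat_lit 274) (nat_lit 158))) (XT.nd (nat_lit 78) (nat_lit 304) (nat_lit 0) (XT.lf (nat_lit 0) (nat_lit 12326094915) (nat_lit 304) (nat_lit 10856653758) (nat_lit 380) (nat_lit 9233931500) (nat_lit 51) (nat_lit 5) (nat_lit 55) (nat_lit 5) (nat_lit 56) (nat_lit 5) (nat_lit 289) (nat_lit 274) (nat_lit 157)) (XT.nd (nat_lit 78) (nat_lit 304) (nat_lit 0) (XT.lf (nat_lit 0) (nat_lit 26436900095) (nat_lit 380) (nat_lit 6369134387) (nat_lit 76) (nat_lit 581180401) (nat_lit 51) (nat_lit 5) (nat_lit 56) (nat_lit 5) (nat_lit 52) (nat_lit 5) (nat_lit 290) (nat_lit 274) (nat_lit 156))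 (XT.lf (nat_lit 0) (nat_lit 8116051914) (nat_lit 304) (nat_lit 22038362995) (nat_lit 380) (nat_lit 4236845586) (nat_lit 47) (nat_lit 5) (nat_lit 51) (nat_lit 5) (nat_lit 52) (nat_lit 5) (nat_lit 291) (nat_lit 274) (nat_lit 155))))))) (XT.nd (nat_lit 624) (nat_lit 912) (nat_lit 0) (XT.nd (nat_lit 312) (nat_lit 532) (nat_lit 0) (XT.nd (nat_lit 156) (nat_lit 0) (nat_lit 0) (XT.nd (nat_lit 78) (nat_lit 304) (nat_lit 0) (XT.lf (nat_lit 0) (nat_lit 23542562476) (nat_lit 304) (nat_lit 10619199808) (nat_lit 380) (nat_lit 1278564415) (nat_lit 47) (nat_lit 5) (nat_lit 51) (nat_lit 5) (nat_lit 52) (nat_lit 5) (nat_lit 292) (nat_lit 274) (nat_lit 154)) (XT.lf (nat_lit 0) (nat_lit 1839108181) (nat_lit 304) (nat_lit 33290079785) (nat_lit 76) (nat_lit 1407747526) (nat_lit 43) (nat_lit 5) (nat_lit 47) (nat_lit 5) (nat_lit 44) (nat_lit 5) (nat_lit 293) (nat_lit 274) (nat_lit 153))) (XT.nd (nat_lit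 78) (nat_lit 0) (nat_lit 0) (XT.lf (nat_lit 0) (nat_lit 5444896947) (nat_lit 304) (nat_lit 18319011590) (nat_lit 76) (nat_lit 13904672101) (nat_lit 43) (nat_lit 5) (nat_lit 47) (nat_lit 5) (nat_lit 44) (nat_lit 5) (nat_lit 294) (nat_lit 274) (nat_lit 152)) (XT.lf (nat_lit 0) (nat_lit 9227468354) (nat_lit 304) (nat_lit 2603326393) (nat_lit 76) (nat_lit 27026201922) (nat_lit 43) (nat_lit 5) (nat_lit 47) (nat_lit 5) (nat_lit 44) (nat_lit 5) (nat_lit 295) (nat_lit 274) (nat_lit 151)))) (XT.nd (nat_lit 156) (nat_lit 228) (nat_lit 0) (XT.nd (nat_lit 78) (nat_lit 0) (nat_lit 0) (XT.lf (nat_lit 0) (nat_lit 13434512043) (nat_lit 380) (nat_lit 25754582856) (nat_lit 76) (nat_lit 903984070) (nat_lit 39) (nat_lit 5) (nat_lit 44) (nat_lit 5) (nat_lit 40) (nat_lit 5) (nat_lit 296) (nat_lit 274) (nat_lit 150)) (XT.lf (nat_lit 0) (nat_lit 18087421344) (nat_lit 380) (nat_lit 9369495248) (nat_lit 76)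 (nat_lit 13922285174) (nat_lit 39) (nat_lit 5) (nat_lit 44) (nat_lit 5) (nat_lit 40) (nat_lit 5) (nat_lit 297) (nat_lit 274) (nat_lit 149))) (XT.nd (nat_lit 78) (nat_lit 0) (nat_lit 0) (XT.lf (nat_lit 0) (nat_lit 8090108906) (nat_lit 228) (nat_lit 15006085634) (nat_lit 304) (nat_lit 19627286718) (nat_lit 36) (nat_lit 5) (nat_lit 39) (nat_lit 5) (nat_lit 40) (nat_lit 5) (nat_lit 298) (nat_lit 274) (nat_lit 148)) (XT.lf (nat_lit 0) (nat_lit 26744368368) (nat_lit 228) (nat_lit 1766714902) (nat_lit 304) (nat_lit 15616118543) (nat_lit 36) (nat_lit 5) (nat_lit 39) (nat_lit 5) (nat_lit 40) (nat_lit 5) (nat_lit 299) (nat_lit 274) (nat_lit 147))))) (XT.nd (nat_lit 312) (nat_lit 380) (nat_lit 0) (XT.nd (nat_lit 156) (nat_lit 304) (nat_lit 0) (XT.nd (nat_lit 78) (nat_lit 0) (nat_lit 0) (XT.lf (nat_lit 0) (nat_lit 554954159) (nat_lit 228) (nat_lit 33837015850) (nat_lit 304) (nat_lit 11199386119)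 (nat_lit 33) (nat_lit 5) (nat_lit 36) (nat_lit 5) (nat_lit 37) (nat_lit 5) (nat_lit 300) (nat_lit 274) (nat_lit 146)) (XT.lf (nat_lit 0) (nat_lit 19959676764) (nat_lit 228) (nat_lit 20927321534) (nat_lit 304) (nat_lit 6225724915) (nat_lit 33) (nat_lit 5) (nat_lit 36) (nat_lit 5) (nat_lit 37) (nat_lit 5) (nat_lit 301) (nat_lit 274) (nat_lit 145))) (XT.nd (nat_lit 78) (nat_lit 304) (nat_lit 0) (XT.lf (nat_lit 0) (nat_lit 40331276516) (nat_lit 228) (nat_lit 7372849214) (nat_lit 304) (nat_lit 1006174979) (nat_lit 33) (nat_lit 5) (nat_lit 36) (nat_lit 5) (nat_lit 37) (nat_lit 5) (nat_lit 302) (nat_lit 274) (nat_lit 144)) (XT.lf (nat_lit 0) (nat_lit 4621395948) (nat_lit 304) (nat_lit 38853651715) (nat_lit 76) (nat_lit 6894712587) (nat_lit 29) (nat_lit 5) (nat_lit 33) (nat_lit 5) (nat_lit 30) (nat_lit 5) (nat_lit 303) (nat_lit 274) (nat_lit 143)))) (XT.nd (nat_lit 156) (nat_lit 152) (nat_lit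 0) (XT.nd (nat_lit 78) (nat_lit 228) (nat_lit 0) (XT.lf (nat_lit 0) (nat_lit 10759111348) (nat_lit 304) (nat_lit 19551247791) (nat_lit 76) (nat_lit 21787888052) (nat_lit 29) (nat_lit 5) (nat_lit 33) (nat_lit 5) (nat_lit 30) (nat_lit 5) (nat_lit 304) (nat_lit 274) (nat_lit 142)) (XT.lf (nat_lit 0) (nat_lit 736652340) (nat_lit 228) (nat_lit 16476165687) (nat_lit 304) (nat_lit 36699892946) (nat_lit 26) (nat_lit 5) (nat_lit 29) (nat_lit 5) (nat_lit 30) (nat_lit 5) (nat_lit 305) (nat_lit 274) (nat_lit 141))) (XT.nd (nat_lit 78) (nat_lit 152) (nat_lit 0) (XT.lf (nat_lit 0) (nat_lit 22714572826) (nat_lit 228) (nat_lit 1603416261) (nat_lit 304) (nat_lit 31483477303) (nat_lit 26) (nat_lit 5) (nat_lit 29) (nat_lit 5) (nat_lit 30) (nat_lit 5) (nat_lit 306) (nat_lit 274) (nat_lit 140)) (XT.nd (nat_lit 78) (nat_lit 152) (nat_lit 0) (XT.lf (nat_lit 0) (nat_lit 31994968462) (nat_lit 304) (nat_lit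 12215157679) (nat_lit 76) (nat_lit 13563712997) (nat_lit 26) (nat_lit 5) (nat_lit 30) (nat_lit 5) (nat_lit 27) (nat_lit 5) (nat_lit 307) (nat_lit 274) (nat_lit 139)) (XT.lf (nat_lit 0) (nat_lit 9990686031) (nat_lit 152) (nat_lit 30245253196) (nat_lit 228) (nat_lit 19599890885) (nat_lit 24) (nat_lit 5) (nat_lit 26) (nat_lit 5) (nat_lit 27) (nat_lit 5) (nat_lit 308) (nat_lit 274) (nat_lit 138))))))))
noncomputable def xc209 : XT := (XT.nd (nat_lit 1326) (nat_lit 532) (nat_lit 0) (XT.nd (nat_lit 624) (nat_lit 304) (nat_lit 0) (XT.nd (nat_lit 312) (nat_lit 304) (nat_lit 0) (XT.nd (nat_lit 156) (nat_lit 228) (nat_lit 0) (XT.nd (nat_lit 78) (nat_lit 0) (nat_lit 0) (XT.lf (nat_lit 0) (nat_lit 33727994522) (nat_lit 152) (nat_lit 15365763705) (nat_lit 228) (nat_lit 12896928814) (nat_lit 24) (nat_lit 5) (nat_lit 26) (nat_lit 5) (nat_lit 27) (nat_lit 5) (nat_lit 309) (nat_lit 274) (nat_lit 137))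 (XT.lf (nat_lit 0) (nat_lit 58396507765) (nat_lit 228) (nat_lit 5608005485) (nat_lit 76) (nat_lit 248677674) (nat_lit 24) (nat_lit 5) (nat_lit 27) (nat_lit 5) (nat_lit 25) (nat_lit 5) (nat_lit 310) (nat_lit 274) (nat_lit 136))) (XT.nd (nat_lit 78) (nat_lit 0) (nat_lit 0) (XT.lf (nat_lit 0) (nat_lit 2034377111) (nat_lit 228) (nat_lit 48117217083) (nat_lit 76) (nat_lit 16448635082) (nat_lit 21) (nat_lit 5) (nat_lit 24) (nat_lit 5) (nat_lit 22) (nat_lit 5) (nat_lit 311) (nat_lit 274) (nat_lit 135)) (XT.lf (nat_lit 0) (nat_lit 10217821858) (nat_lit 228) (nat_lit 25186911585) (nat_lit 76) (nat_lit 33650358079) (nat_lit 21) (nat_lit 5) (nat_lit 24) (nat_lit 5) (nat_lit 22) (nat_lit 5) (nat_lit 312) (nat_lit 274) (nat_lit 134)))) (XT.nd (nat_lit 156) (nat_lit 152) (nat_lit 0) (XT.nd (nat_lit 78) (nat_lit 152) (nat_lit 0) (XT.lf (nat_lit 0) (nat_lit 18808651394) (nat_lit 228) (nat_lit 1112710470)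 (nat_lit 76) (nat_lit 51711429397) (nat_lit 21) (nat_lit 5) (nat_lit 24) (nat_lit 5) (nat_lit 22) (nat_lit 5) (nat_lit 313) (nat_lit 274) (nat_lit 133)) (XT.lf (nat_lit 0) (nat_lit 24961633962) (nat_lit 152) (nat_lit 3255407175) (nat_lit 228) (nat_lit 46102938683) (nat_lit 19) (nat_lit 5) (nat_lit 21) (nat_lit 5) (nat_lit 22) (nat_lit 5) (nat_lit 314) (nat_lit 274) (nat_lit 132))) (XT.nd (nat_lit 78) (nat_lit 152) (nat_lit 0) (XT.lf (nat_lit 0) (nat_lit 38335717917) (nat_lit 228) (nat_lit 24987484227) (nat_lit 76) (nat_lit 13806336827) (nat_lit 19) (nat_lit 5) (nat_lit 22) (nat_lit 5) (nat_lit 20) (nat_lit 5) (nat_lit 315) (nat_lit 274) (nat_lit 131)) (XT.lf (nat_lit 0) (nat_lit 564201820) (nat_lit 152) (nat_lit 48456710431) (nat_lit 228) (nat_lit 31055638969) (nat_lit 17) (nat_lit 5) (nat_lit 19) (nat_lit 5) (nat_lit 20) (nat_lit 5) (nat_lit 316) (nat_lit 274) (nat_lit 130))))) (XT.nd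 (nat_lit 312) (nat_lit 152) (nat_lit 0) (XT.nd (nat_lit 156) (nat_lit 152) (nat_lit 0) (XT.nd (nat_lit 78) (nat_lit 0) (nat_lit 0) (XT.lf (nat_lit 0) (nat_lit 28258610745) (nat_lit 152) (nat_lit 32403377126) (nat_lit 228) (nat_lit 22487849252) (nat_lit 17) (nat_lit 5) (nat_lit 19) (nat_lit 5) (nat_lit 20) (nat_lit 5) (nat_lit 317) (nat_lit 274) (nat_lit 129)) (XT.lf (nat_lit 0) (nat_lit 57335482539) (nat_lit 152) (nat_lit 15548155144) (nat_lit 228) (nat_lit 13493227542) (nat_lit 17) (nat_lit 5) (nat_lit 19) (nat_lit 5) (nat_lit 20) (nat_lit 5) (nat_lit 318) (nat_lit 274) (nat_lit 128))) (XT.nd (nat_lit 78) (nat_lit 152) (nat_lit 0) (XT.lf (nat_lit 0) (nat_lit 85748514125) (nat_lit 228) (nat_lit 1934824345) (nat_lit 76) (nat_lit 2080302791) (nat_lit 17) (nat_lit 5) (nat_lit 20) (nat_lit 5) (nat_lit 18) (nat_lit 4) (nat_lit 319) (nat_lit 274) (nat_lit 127)) (XT.lf (nat_lit 0) (nat_lit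 6435205542) (nat_lit 152) (nat_lit 66251017184) (nat_lit 76) (nat_lit 20594484976) (nat_lit 15) (nat_lit 5) (nat_lit 17) (nat_lit 5) (nat_lit 16) (nat_lit 5) (nat_lit 320) (nat_lit 274) (nat_lit 126)))) (XT.nd (nat_lit 156) (nat_lit 152) (nat_lit 0) (XT.nd (nat_lit 78) (nat_lit 0) (nat_lit 0) (XT.lf (nat_lit 0) (nat_lit 17305078684) (nat_lit 152) (nat_lit 39530865244) (nat_lit 76) (nat_lit 40132797755) (nat_lit 15) (nat_lit 5) (nat_lit 17) (nat_lit 5) (nat_lit 16) (nat_lit 5) (nat_lit 321) (nat_lit 274) (nat_lit 125)) (XT.lf (nat_lit 0) (nat_lit 28717163651) (nat_lit 152) (nat_lit 11476725776) (nat_lit 76) (nat_lit 60647355102) (nat_lit 15) (nat_lit 5) (nat_lit 17) (nat_lit 5) (nat_lit 16) (nat_lit 5) (nat_lit 322) (nat_lit 274) (nat_lit 124))) (XT.nd (nat_lit 78) (nat_lit 0) (nat_lit 0) (XT.lf (nat_lit 0) (nat_lit 18572637167) (nat_lit 152) (nat_lit 22415965823) (nat_lit 228) (nat_lit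 63904334951) (nat_lit 13) (nat_lit 5) (nat_lit 15) (nat_lit 5) (nat_lit 16) (nat_lit 5) (nat_lit 323) (nat_lit 274) (nat_lit 123)) (XT.nd (nat_lit 78) (nat_lit 0) (nat_lit 0) (XT.lf (nat_lit 0) (nat_lit 50521021416) (nat_lit 152) (nat_lit 3545764570) (nat_lit 228) (nat_lit 55070774239) (nat_lit 13) (nat_lit 5) (nat_lit 15) (nat_lit 5) (nat_lit 16) (nat_lit 5) (nat_lit 324) (nat_lit 274) (nat_lit 122)) (XT.lf (nat_lit 0) (nat_lit 68051720515) (nat_lit 228) (nat_lit 29783428706) (nat_lit 76) (nat_lit 15746624940) (nat_lit 13) (nat_lit 5) (nat_lit 16) (nat_lit 5) (nat_lit 14) (nat_lit 4) (nat_lit 325) (nat_lit 274) (nat_lit 121))))))) (XT.nd (nat_lit 702) (nat_lit 228) (nat_lit 0) (XT.nd (nat_lit 312) (nat_lit 228) (nat_lit 0) (XT.nd (nat_lit 156) (nat_lit 0) (nat_lit 0) (XT.nd (nat_lit 78) (nat_lit 0) (nat_lit 0) (XT.lf (nat_lit 0) (nat_lit 445711626) (nat_lit 76) (nat_lit 82354184945)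 (nat_lit 152) (nat_lit 35445105012) (nat_lit 12) (nat_lit 5) (nat_lit 13) (nat_lit 5) (nat_lit 14) (nat_lit 4) (nat_lit 326) (nat_lit 274) (nat_lit 120)) (XT.lf (nat_lit 0) (nat_lit 33218587270) (nat_lit 76) (nat_lit 65570224520) (nat_lit 152) (nat_lit 24327414477) (nat_lit 12) (nat_lit 5) (nat_lit 13) (nat_lit 5) (nat_lit 14) (nat_lit 4) (nat_lit 327) (nat_lit 274) (nat_lit 119))) (XT.nd (nat_lit 78) (nat_lit 0) (nat_lit 0) (XT.lf (nat_lit 0) (nat_lit 67628454221) (nat_lit 76) (nat_lit 47947702913) (nat_lit 152) (nat_lit 12654908127) (nat_lit 12) (nat_lit 5) (nat_lit 13) (nat_lit 5) (nat_lit 14) (nat_lit 4) (nat_lit 328) (nat_lit 274) (nat_lit 118)) (XT.lf (nat_lit 0) (nat_lit 103757240735) (nat_lit 76) (nat_lit 29444661739) (nat_lit 152) (nat_lit 399794280) (nat_lit 12) (nat_lit 5) (nat_lit 13) (nat_lit 5) (nat_lit 14) (nat_lit 4) (nat_lit 329) (nat_lit 274) (nat_lit 117)))) (XT.nd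 (nat_lit 156) (nat_lit 0) (nat_lit 0) (XT.nd (nat_lit 78) (nat_lit 0) (nat_lit 0) (XT.lf (nat_lit 0) (nat_lit 2329987455) (nat_lit 152) (nat_lit 9774470837) (nat_lit 228) (nat_lit 127124898465) (nat_lit 9) (nat_lit 5) (nat_lit 11) (nat_lit 5) (nat_lit 12) (nat_lit 5) (nat_lit 330) (nat_lit 274) (nat_lit 116)) (XT.lf (nat_lit 0) (nat_lit 25903132708) (nat_lit 228) (nat_lit 108150083709) (nat_lit 76) (nat_lit 11050725285) (nat_lit 9) (nat_lit 5) (nat_lit 12) (nat_lit 5) (nat_lit 10) (nat_lit 4) (nat_lit 331) (nat_lit 274) (nat_lit 115))) (XT.nd (nat_lit 78) (nat_lit 0) (nat_lit 0) (XT.lf (nat_lit 0) (nat_lit 40551095798) (nat_lit 228) (nat_lit 78125043136) (nat_lit 76) (nat_lit 32588151010) (nat_lit 9) (nat_lit 5) (nat_lit 12) (nat_lit 5) (nat_lit 10) (nat_lit 4) (nat_lit 332) (nat_lit 274) (nat_lit 114)) (XT.nd (nat_lit 78) (nat_lit 0) (nat_lit 0) (XT.lf (nat_lit 0) (nat_lit 55930616782)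 (nat_lit 228) (nat_lit 46600152511) (nat_lit 76) (nat_lit 55201930030) (nat_lit 9) (nat_lit 5) (nat_lit 12) (nat_lit 5) (nat_lit 10) (nat_lit 4) (nat_lit 333) (nat_lit 274) (nat_lit 113)) (XT.lf (nat_lit 0) (nat_lit 72078313568) (nat_lit 228) (nat_lit 13500352569) (nat_lit 76) (nat_lit 78945904677) (nat_lit 9) (nat_lit 5) (nat_lit 12) (nat_lit 5) (nat_lit 10) (nat_lit 4) (nat_lit 334) (nat_lit 274) (nat_lit 112)))))) (XT.nd (nat_lit 312) (nat_lit 152) (nat_lit 0) (XT.nd (nat_lit 156) (nat_lit 0) (nat_lit 0) (XT.nd (nat_lit 78) (nat_lit 0) (nat_lit 0) (XT.lf (nat_lit 0) (nat_lit 21955891378) (nat_lit 76) (nat_lit 67419534669) (nat_lit 152) (nat_lit 82263509841) (nat_lit 8) (nat_lit 5) (nat_lit 9) (nat_lit 5) (nat_lit 10) (nat_lit 4) (nat_lit 335) (nat_lit 274) (nat_lit 111)) (XT.lf (nat_lit 0) (nat_lit 59652398156) (nat_lit 76) (nat_lit 48112885617) (nat_lit 152) (nat_lit 71332342443)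 (nat_lit 8) (nat_lit 5) (nat_lit 9) (nat_lit 5) (nat_lit 10) (nat_lit 4) (nat_lit 336) (nat_lit 274) (nat_lit 110))) (XT.nd (nat_lit 78) (nat_lit 0) (nat_lit 0) (XT.lf (nat_lit 0) (nat_lit 99232538727) (nat_lit 76) (nat_lit 27841385769) (nat_lit 152) (nat_lit 59855363464) (nat_lit 8) (nat_lit 5) (nat_lit 9) (nat_lit 5) (nat_lit 10) (nat_lit 4) (nat_lit 337) (nat_lit 274) (nat_lit 109)) (XT.lf (nat_lit 0) (nat_lit 140790551522) (nat_lit 76) (nat_lit 6556769652) (nat_lit 152) (nat_lit 47805246766) (nat_lit 8) (nat_lit 5) (nat_lit 9) (nat_lit 5) (nat_lit 10) (nat_lit 4) (nat_lit 338) (nat_lit 274) (nat_lit 108)))) (XT.nd (nat_lit 156) (nat_lit 76) (nat_lit 0) (XT.nd (nat_lit 78) (nat_lit 76) (nat_lit 0) (XT.lf (nat_lit 0) (nat_lit 168880295559) (nat_lit 152) (nat_lit 19608212963) (nat_lit 0) (nat_lit 15286209279) (nat_lit 8) (nat_lit 5) (nat_lit 10) (nat_lit 4) (nat_lit 8) (nat_lit 4)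 (nat_lit 339) (nat_lit 274) (nat_lit 107)) (XT.lf (nat_lit 0) (nat_lit 17329386547) (nat_lit 76) (nat_lit 174537960709) (nat_lit 76) (nat_lit 20941757687) (nat_lit 7) (nat_lit 4) (nat_lit 8) (nat_lit 5) (nat_lit 8) (nat_lit 4) (nat_lit 340) (nat_lit 274) (nat_lit 106))) (XT.nd (nat_lit 78) (nat_lit 76) (nat_lit 0) (XT.lf (nat_lit 0) (nat_lit 56793581237) (nat_lit 76) (nat_lit 159541638460) (nat_lit 76) (nat_lit 5943419494) (nat_lit 7) (nat_lit 4) (nat_lit 8) (nat_lit 5) (nat_lit 8) (nat_lit 4) (nat_lit 341) (nat_lit 274) (nat_lit 105)) (XT.nd (nat_lit 78) (nat_lit 0) (nat_lit 0) (XT.lf (nat_lit 0) (nat_lit 9490431563) (nat_lit 152) (nat_lit 134144754207) (nat_lit 76) (nat_lit 88578840788) (nat_lit 6) (nat_lit 5) (nat_lit 8) (nat_lit 5) (nat_lit 7) (nat_lit 4) (nat_lit 342) (nat_lit 274) (nat_lit 104)) (XT.lf (nat_lit 0) (nat_lit 25495677237) (nat_lit 152) (nat_lit 101335829099) (nat_lit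 76) (nat_lit 115809834309) (nat_lit 6) (nat_lit 5) (nat_lit 8) (nat_lit 5) (nat_lit 7) (nat_lit 4) (nat_lit 343) (nat_lit 274) (nat_lit 103))))))))
noncomputable def xc210 : XT := (XT.nd (nat_lit 33072) (nat_lit 0) (nat_lit 2128) (XT.nd (nat_lit 32370) (nat_lit 0) (nat_lit 4256) (XT.nd (nat_lit 312) (nat_lit 0) (nat_lit 0) (XT.nd (nat_lit 156) (nat_lit 76) (nat_lit 0) (XT.nd (nat_lit 78) (nat_lit 0) (nat_lit 0) (XT.lf (nat_lit 0) (nat_lit 42300651794) (nat_lit 152) (nat_lit 66887372706) (nat_lit 76) (nat_lit 144402023558) (nat_lit 6) (nat_lit 5) (nat_lit 8) (nat_lit 5) (nat_lit 7) (nat_lit 4) (nat_lit 344) (nat_lit 274) (nat_lit 102)) (XT.lf (nat_lit 0) (nat_lit 59945367079) (nat_lit 152) (nat_lit 30717364894) (nat_lit 76) (nat_lit 174423485177) (nat_lit 6) (nat_lit 5) (nat_lit 8) (nat_lit 5) (nat_lit 7) (nat_lit 4) (nat_lit 345) (nat_lit 274) (nat_lit 101))) (XT.nd (nat_lit 78) (nat_lit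 0) (nat_lit 0) (XT.lf (nat_lit 0) (nat_lit 7500372152) (nat_lit 76) (nat_lit 71088563996) (nat_lit 152) (nat_lit 198562428511) (nat_lit 5) (nat_lit 5) (nat_lit 6) (nat_lit 5) (nat_lit 7) (nat_lit 4) (nat_lit 346) (nat_lit 274) (nat_lit 100)) (XT.lf (nat_lit 0) (nat_lit 48694617079) (nat_lit 76) (nat_lit 49989806511) (nat_lit 152) (nat_lit 191109359782) (nat_lit 5) (nat_lit 5) (nat_lit 6) (nat_lit 5) (nat_lit 7) (nat_lit 4) (nat_lit 347) (nat_lit 274) (nat_lit 99)))) (XT.nd (nat_lit 31902) (nat_lit 0) (nat_lit 4180) (XT.nd (nat_lit 31824) (nat_lit 0) (nat_lit 4180) (XT.lf (nat_lit 0) (nat_lit 91947796615) (nat_lit 76) (nat_lit 27836437819) (nat_lit 152) (nat_lit 183284111919) (nat_lit 5) (nat_lit 5) (nat_lit 6) (nat_lit 5) (nat_lit 7) (nat_lit 4) (nat_lit 348) (nat_lit 274) (nat_lit 98)) (XT.lf (nat_lit 0) (nat_lit 502167900) (nat_lit 0) (nat_lit 502167900) (nat_lit 684) (nat_lit 10397928905)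 (nat_lit 60) (nat_lit 5) (nat_lit 60) (nat_lit 3) (nat_lit 69) (nat_lit 3) (nat_lit 275) (nat_lit 275) (nat_lit 170))) (XT.nd (nat_lit 78) (nat_lit 0) (nat_lit 0) (XT.lf (nat_lit 0) (nat_lit 2307228416) (nat_lit 684) (nat_lit 12710781464) (nat_lit 760) (nat_lit 8343716217) (nat_lit 60) (nat_lit 5) (nat_lit 69) (nat_lit 3) (nat_lit 70) (nat_lit 5) (nat_lit 276) (nat_lit 275) (nat_lit 169)) (XT.lf (nat_lit 0) (nat_lit 2629952128) (nat_lit 684) (nat_lit 3187457328) (nat_lit 760) (nat_lit 18128943185) (nat_lit 60) (nat_lit 5) (nat_lit 69) (nat_lit 3) (nat_lit 70) (nat_lit 5) (nat_lit 277) (nat_lit 275) (nat_lit 168))))) (XT.nd (nat_lit 312) (nat_lit 0) (nat_lit 76) (XT.nd (nat_lit 156) (nat_lit 0) (nat_lit 0) (XT.nd (nat_lit 78) (nat_lit 0) (nat_lit 0) (XT.lf (nat_lit 0) (nat_lit 3133589394) (nat_lit 684) (nat_lit 17583703237) (nat_lit 760) (nat_lit 3834709469) (nat_lit 61) (nat_lit 5)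 (nat_lit 70) (nat_lit 5) (nat_lit 71) (nat_lit 5) (nat_lit 278) (nat_lit 275) (nat_lit 167)) (XT.lf (nat_lit 0) (nat_lit 3806071716) (nat_lit 684) (nat_lit 7543222392) (nat_lit 760) (nat_lit 13831485767) (nat_lit 61) (nat_lit 5) (nat_lit 70) (nat_lit 5) (nat_lit 71) (nat_lit 5) (nat_lit 279) (nat_lit 275) (nat_lit 166))) (XT.nd (nat_lit 78) (nat_lit 0) (nat_lit 76) (XT.lf (nat_lit 76) (nat_lit 3094281395) (nat_lit 0) (nat_lit 1459949791) (nat_lit 760) (nat_lit 21284690326) (nat_lit 62) (nat_lit 5) (nat_lit 61) (nat_lit 5) (nat_lit 71) (nat_lit 5) (nat_lit 280) (nat_lit 275) (nat_lit 165)) (XT.lf (nat_lit 0) (nat_lit 5602978042) (nat_lit 684) (nat_lit 12143791205) (nat_lit 760) (nat_lit 8770068319) (nat_lit 62) (nat_lit 5) (nat_lit 71) (nat_lit 5) (nat_lit 72) (nat_lit 5) (nat_lit 281) (nat_lit 275) (nat_lit 164)))) (XT.nd (nat_lit 156) (nat_lit 0) (nat_lit 76) (XT.nd (nat_lit 78) (nat_lit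 0) (nat_lit 76) (XT.lf (nat_lit 0) (nat_lit 6722391625) (nat_lit 684) (nat_lit 1040958859) (nat_lit 760) (nat_lit 19464412526) (nat_lit 62) (nat_lit 5) (nat_lit 71) (nat_lit 5) (nat_lit 72) (nat_lit 5) (nat_lit 282) (nat_lit 275) (nat_lit 163)) (XT.lf (nat_lit 0) (nat_lit 8108806737) (nat_lit 684) (nat_lit 17047253208) (nat_lit 760) (nat_lit 2807647100) (nat_lit 63) (nat_lit 5) (nat_lit 72) (nat_lit 5) (nat_lit 73) (nat_lit 5) (nat_lit 283) (nat_lit 275) (nat_lit 162))) (XT.nd (nat_lit 78) (nat_lit 0) (nat_lit 0) (XT.lf (nat_lit 0) (nat_lit 9704515910) (nat_lit 684) (nat_lit 5359418354) (nat_lit 760) (nat_lit 13665538078) (nat_lit 63) (nat_lit 5) (nat_lit 72) (nat_lit 5) (nat_lit 73) (nat_lit 5) (nat_lit 284) (nat_lit 275) (nat_lit 161)) (XT.nd (nat_lit 78) (nat_lit 0) (nat_lit 76) (XT.lf (nat_lit 76) (nat_lit 7137272784) (nat_lit 0) (nat_lit 4349205941) (nat_lit 760) (nat_lit 18041745414)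 (nat_lit 64) (nat_lit 5) (nat_lit 63) (nat_lit 5) (nat_lit 73) (nat_lit 5) (nat_lit 285) (nat_lit 275) (nat_lit 160)) (XT.lf (nat_lit 0) (nat_lit 13552764443) (nat_lit 684) (nat_lit 10030928363) (nat_lit 76) (nat_lit 6773480094) (nat_lit 64) (nat_lit 5) (nat_lit 73) (nat_lit 5) (nat_lit 65) (nat_lit 5) (nat_lit 286) (nat_lit 275) (nat_lit 159))))))) (XT.nd (nat_lit 624) (nat_lit 760) (nat_lit 0) (XT.nd (nat_lit 312) (nat_lit 608) (nat_lit 0) (XT.nd (nat_lit 156) (nat_lit 304) (nat_lit 0) (XT.nd (nat_lit 78) (nat_lit 0) (nat_lit 0) (XT.lf (nat_lit 0) (nat_lit 2966769120) (nat_lit 684) (nat_lit 12868665258) (nat_lit 760) (nat_lit 15386500856) (nat_lit 55) (nat_lit 5) (nat_lit 64) (nat_lit 5) (nat_lit 65) (nat_lit 5) (nat_lit 287) (nat_lit 275) (nat_lit 158)) (XT.lf (nat_lit 0) (nat_lit 16958683569) (nat_lit 684) (nat_lit 1439040148) (nat_lit 760) (nat_lit 13723956369) (nat_lit 55) (nat_lit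 5) (nat_lit 64) (nat_lit 5) (nat_lit 65) (nat_lit 5) (nat_lit 288) (nat_lit 275) (nat_lit 157))) (XT.nd (nat_lit 78) (nat_lit 304) (nat_lit 0) (XT.lf (nat_lit 0) (nat_lit 21248854479) (nat_lit 760) (nat_lit 1585088390) (nat_lit 76) (nat_lit 10224450771) (nat_lit 55) (nat_lit 5) (nat_lit 65) (nat_lit 5) (nat_lit 56) (nat_lit 5) (nat_lit 289) (nat_lit 275) (nat_lit 156)) (XT.lf (nat_lit 0) (nat_lit 13062425913) (nat_lit 304) (nat_lit 11403670144) (nat_lit 380) (nat_lit 9564686056) (nat_lit 51) (nat_lit 5) (nat_lit 55) (nat_lit 5) (nat_lit 56) (nat_lit 5) (nat_lit 290) (nat_lit 275) (nat_lit 155)))) (XT.nd (nat_lit 156) (nat_lit 304) (nat_lit 0) (XT.nd (nat_lit 78) (nat_lit 304) (nat_lit 0) (XT.lf (nat_lit 0) (nat_lit 27876978082) (nat_lit 380) (nat_lit 6566806689) (nat_lit 76) (nat_lit 606382474) (nat_lit 51) (nat_lit 5) (nat_lit 56) (nat_lit 5) (nat_lit 52) (nat_lit 5) (nat_lit 291)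 (nat_lit 275) (nat_lit 154)) (XT.lf (nat_lit 0) (nat_lit 8640690792) (nat_lit 304) (nat_lit 23135903071) (nat_lit 380) (nat_lit 4328033668) (nat_lit 47) (nat_lit 5) (nat_lit 51) (nat_lit 5) (nat_lit 52) (nat_lit 5) (nat_lit 292) (nat_lit 275) (nat_lit 153))) (XT.nd (nat_lit 78) (nat_lit 304) (nat_lit 0) (XT.lf (nat_lit 0) (nat_lit 24832868012) (nat_lit 304) (nat_lit 11145990204) (nat_lit 380) (nat_lit 1227583877) (nat_lit 47) (nat_lit 5) (nat_lit 51) (nat_lit 5) (nat_lit 52) (nat_lit 5) (nat_lit 293) (nat_lit 275) (nat_lit 152)) (XT.lf (nat_lit 0) (nat_lit 2038918985) (nat_lit 304) (nat_lit 34833515237) (nat_lit 76) (nat_lit 1485546611) (nat_lit 43) (nat_lit 5) (nat_lit 47) (nat_lit 5) (nat_lit 44) (nat_lit 5) (nat_lit 294) (nat_lit 275) (nat_lit 151))))) (XT.nd (nat_lit 312) (nat_lit 456) (nat_lit 0) (XT.nd (nat_lit 156) (nat_lit 304) (nat_lit 0) (XT.nd (nat_lit 78) (nat_lit 0) (nat_lit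 0) (XT.lf (nat_lit 0) (nat_lit 5819861218) (nat_lit 304) (nat_lit 19119658801) (nat_lit 76) (nat_lit 14606964476) (nat_lit 43) (nat_lit 5) (nat_lit 47) (nat_lit 5) (nat_lit 44) (nat_lit 5) (nat_lit 295) (nat_lit 275) (nat_lit 150)) (XT.lf (nat_lit 0) (nat_lit 9786669794) (nat_lit 304) (nat_lit 2623679981) (nat_lit 76) (nat_lit 28384234656) (nat_lit 43) (nat_lit 5) (nat_lit 47) (nat_lit 5) (nat_lit 44) (nat_lit 5) (nat_lit 296) (nat_lit 275) (nat_lit 149))) (XT.nd (nat_lit 78) (nat_lit 0) (nat_lit 0) (XT.lf (nat_lit 0) (nat_lit 14201299880) (nat_lit 380) (nat_lit 26929380459) (nat_lit 76) (nat_lit 961946447) (nat_lit 39) (nat_lit 5) (nat_lit 44) (nat_lit 5) (nat_lit 40) (nat_lit 5) (nat_lit 297) (nat_lit 275) (nat_lit 148)) (XT.lf (nat_lit 0) (nat_lit 19082327873) (nat_lit 380) (nat_lit 9730416163) (nat_lit 76) (nat_lit 14630554836) (nat_lit 39) (nat_lit 5) (nat_lit 44) (nat_lit 5)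 (nat_lit 40) (nat_lit 5) (nat_lit 298) (nat_lit 275) (nat_lit 147)))) (XT.nd (nat_lit 156) (nat_lit 228) (nat_lit 0) (XT.nd (nat_lit 78) (nat_lit 0) (nat_lit 0) (XT.lf (nat_lit 0) (nat_lit 8600433459) (nat_lit 228) (nat_lit 15738447190) (nat_lit 304) (nat_lit 20516060654) (nat_lit 36) (nat_lit 5) (nat_lit 39) (nat_lit 5) (nat_lit 40) (nat_lit 5) (nat_lit 299) (nat_lit 275) (nat_lit 146)) (XT.lf (nat_lit 0) (nat_lit 28182366888) (nat_lit 228) (nat_lit 1837962337) (nat_lit 304) (nat_lit 16308743137) (nat_lit 36) (nat_lit 5) (nat_lit 39) (nat_lit 5) (nat_lit 40) (nat_lit 5) (nat_lit 300) (nat_lit 275) (nat_lit 145))) (XT.nd (nat_lit 78) (nat_lit 0) (nat_lit 0) (XT.lf (nat_lit 0) (nat_lit 686011119) (nat_lit 228) (nat_lit 35507130898) (nat_lit 304) (nat_lit 11673412812) (nat_lit 33) (nat_lit 5) (nat_lit 36) (nat_lit 5) (nat_lit 37) (nat_lit 5) (nat_lit 301) (nat_lit 275) (nat_lit 144))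 (XT.nd (nat_lit 78) (nat_lit 0) (nat_lit 0) (XT.lf (nat_lit 0) (nat_lit 21056050366) (nat_lit 228) (nat_lit 21952986901) (nat_lit 304) (nat_lit 6455161053) (nat_lit 33) (nat_lit 5) (nat_lit 36) (nat_lit 5) (nat_lit 37) (nat_lit 5) (nat_lit 302) (nat_lit 275) (nat_lit 143)) (XT.lf (nat_lit 0) (nat_lit 42441544879) (nat_lit 228) (nat_lit 7721776714) (nat_lit 304) (nat_lit 978531244) (nat_lit 33) (nat_lit 5) (nat_lit 36) (nat_lit 5) (nat_lit 37) (nat_lit 5) (nat_lit 303) (nat_lit 275) (nat_lit 142))))))))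
noncomputable def xc211 : XT := (XT.nd (nat_lit 1326) (nat_lit 684) (nat_lit 0) (XT.nd (nat_lit 624) (nat_lit 532) (nat_lit 0) (XT.nd (nat_lit 312) (nat_lit 152) (nat_lit 0) (XT.nd (nat_lit 156) (nat_lit 228) (nat_lit 0) (XT.nd (nat_lit 78) (nat_lit 0) (nat_lit 0) (XT.lf (nat_lit 0) (nat_lit 4926148058) (nat_lit 304) (nat_lit 40697869772) (nat_lit 76) (nat_lit 7260307379) (nat_lit 29) (nat_lit 5) (nat_lit 33) (nat_lit 5) (nat_lit 30) (nat_lit 5) (nat_lit 304) (nat_lit 275) (nat_lit 141)) (XT.lf (nat_lit 0) (nat_lit 11367240546) (nat_lit 304) (nat_lit 20435034439) (nat_lit 76) (nat_lit 22897148325) (nat_lit 29) (nat_lit 5) (nat_lit 33) (nat_lit 5) (nat_lit 30) (nat_lit 5) (nat_lit 305) (nat_lit 275) (nat_lit 140))) (XT.nd (nat_lit 78) (nat_lit 0) (nat_lit 0) (XT.lf (nat_lit 0) (nat_lit 865748187) (nat_lit 228) (nat_lit 17275983259) (nat_lit 304) (nat_lit 38462984728) (nat_lit 26) (nat_lit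 5) (nat_lit 29) (nat_lit 5) (nat_lit 30) (nat_lit 5) (nat_lit 306) (nat_lit 275) (nat_lit 139)) (XT.lf (nat_lit 0) (nat_lit 23938171210) (nat_lit 228) (nat_lit 1660738776) (nat_lit 304) (nat_lit 32989172248) (nat_lit 26) (nat_lit 5) (nat_lit 29) (nat_lit 5) (nat_lit 30) (nat_lit 5) (nat_lit 307) (nat_lit 275) (nat_lit 138)))) (XT.nd (nat_lit 156) (nat_lit 0) (nat_lit 0) (XT.nd (nat_lit 78) (nat_lit 152) (nat_lit 0) (XT.lf (nat_lit 0) (nat_lit 33656981809) (nat_lit 304) (nat_lit 12739276999) (nat_lit 76) (nat_lit 14262962465) (nat_lit 26) (nat_lit 5) (nat_lit 30) (nat_lit 5) (nat_lit 27) (nat_lit 5) (nat_lit 308) (nat_lit 275) (nat_lit 137)) (XT.lf (nat_lit 0) (nat_lit 10575461500) (nat_lit 152) (nat_lit 31732905469) (nat_lit 228) (nat_lit 20516035895) (nat_lit 24) (nat_lit 5) (nat_lit 26) (nat_lit 5) (nat_lit 27) (nat_lit 5) (nat_lit 309) (nat_lit 275) (nat_lit 136))) (XT.nd (nat_lit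 78) (nat_lit 0) (nat_lit 0) (XT.lf (nat_lit 0) (nat_lit 35495576312) (nat_lit 152) (nat_lit 16110613427) (nat_lit 228) (nat_lit 13480966175) (nat_lit 24) (nat_lit 5) (nat_lit 26) (nat_lit 5) (nat_lit 27) (nat_lit 5) (nat_lit 310) (nat_lit 275) (nat_lit 135)) (XT.lf (nat_lit 0) (nat_lit 61371675574) (nat_lit 228) (nat_lit 5808518518) (nat_lit 76) (nat_lit 282719448) (nat_lit 24) (nat_lit 5) (nat_lit 27) (nat_lit 5) (nat_lit 25) (nat_lit 5) (nat_lit 311) (nat_lit 275) (nat_lit 134))))) (XT.nd (nat_lit 312) (nat_lit 152) (nat_lit 0) (XT.nd (nat_lit 156) (nat_lit 152) (nat_lit 0) (XT.nd (nat_lit 78) (nat_lit 0) (nat_lit 0) (XT.lf (nat_lit 0) (nat_lit 2191070894) (nat_lit 228) (nat_lit 50442507460) (nat_lit 76) (nat_lit 17293759618) (nat_lit 21) (nat_lit 5) (nat_lit 24) (nat_lit 5) (nat_lit 22) (nat_lit 5) (nat_lit 312) (nat_lit 275) (nat_lit 133)) (XT.lf (nat_lit 0) (nat_lit 10781070025)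 (nat_lit 228) (nat_lit 26369523376) (nat_lit 76) (nat_lit 35354488157) (nat_lit 21) (nat_lit 5) (nat_lit 24) (nat_lit 5) (nat_lit 22) (nat_lit 5) (nat_lit 313) (nat_lit 275) (nat_lit 132))) (XT.nd (nat_lit 78) (nat_lit 152) (nat_lit 0) (XT.lf (nat_lit 0) (nat_lit 19798947844) (nat_lit 228) (nat_lit 1095266195) (nat_lit 76) (nat_lit 54317583889) (nat_lit 21) (nat_lit 5) (nat_lit 24) (nat_lit 5) (nat_lit 22) (nat_lit 5) (nat_lit 314) (nat_lit 275) (nat_lit 131)) (XT.lf (nat_lit 0) (nat_lit 26281616752) (nat_lit 152) (nat_lit 3394888428) (nat_lit 228) (nat_lit 48356909981) (nat_lit 19) (nat_lit 5) (nat_lit 21) (nat_lit 5) (nat_lit 22) (nat_lit 5) (nat_lit 315) (nat_lit 275) (nat_lit 130)))) (XT.nd (nat_lit 156) (nat_lit 0) (nat_lit 0) (XT.nd (nat_lit 78) (nat_lit 152) (nat_lit 0) (XT.lf (nat_lit 0) (nat_lit 40299147237) (nat_lit 228) (nat_lit 26166285931) (nat_lit 76) (nat_lit 14518123866)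 (nat_lit 19) (nat_lit 5) (nat_lit 22) (nat_lit 5) (nat_lit 20) (nat_lit 5) (nat_lit 316) (nat_lit 275) (nat_lit 129)) (XT.lf (nat_lit 0) (nat_lit 661846152) (nat_lit 152) (nat_lit 50855618083) (nat_lit 228) (nat_lit 32560518547) (nat_lit 17) (nat_lit 5) (nat_lit 19) (nat_lit 5) (nat_lit 20) (nat_lit 5) (nat_lit 317) (nat_lit 275) (nat_lit 128))) (XT.nd (nat_lit 78) (nat_lit 0) (nat_lit 0) (XT.lf (nat_lit 0) (nat_lit 29737669131) (nat_lit 152) (nat_lit 34000757536) (nat_lit 228) (nat_lit 23566620410) (nat_lit 17) (nat_lit 5) (nat_lit 19) (nat_lit 5) (nat_lit 20) (nat_lit 5) (nat_lit 318) (nat_lit 275) (nat_lit 127)) (XT.nd (nat_lit 78) (nat_lit 0) (nat_lit 0) (XT.lf (nat_lit 0) (nat_lit 60265235569) (nat_lit 152) (nat_lit 16303859618) (nat_lit 228) (nat_lit 14124440057) (nat_lit 17) (nat_lit 5) (nat_lit 19) (nat_lit 5) (nat_lit 20) (nat_lit 5) (nat_lit 319) (nat_lit 275) (nat_lit 126))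 (XT.lf (nat_lit 0) (nat_lit 90075572659) (nat_lit 228) (nat_lit 1969838615) (nat_lit 76) (nat_lit 2204326161) (nat_lit 17) (nat_lit 5) (nat_lit 20) (nat_lit 5) (nat_lit 18) (nat_lit 4) (nat_lit 320) (nat_lit 275) (nat_lit 125))))))) (XT.nd (nat_lit 702) (nat_lit 304) (nat_lit 0) (XT.nd (nat_lit 312) (nat_lit 76) (nat_lit 0) (XT.nd (nat_lit 156) (nat_lit 152) (nat_lit 0) (XT.nd (nat_lit 78) (nat_lit 0) (nat_lit 0) (XT.lf (nat_lit 0) (nat_lit 6796389985) (nat_lit 152) (nat_lit 69501438595) (nat_lit 76) (nat_lit 21644848742) (nat_lit 15) (nat_lit 5) (nat_lit 17) (nat_lit 5) (nat_lit 16) (nat_lit 5) (nat_lit 321) (nat_lit 275) (nat_lit 124)) (XT.lf (nat_lit 0) (nat_lit 18207879444) (nat_lit 152) (nat_lit 41448237603) (nat_lit 76) (nat_lit 42159094326) (nat_lit 15) (nat_lit 5) (nat_lit 17) (nat_lit 5) (nat_lit 16) (nat_lit 5) (nat_lit 322) (nat_lit 275) (nat_lit 123))) (XT.nd (nat_lit 78)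 (nat_lit 152) (nat_lit 0) (XT.lf (nat_lit 0) (nat_lit 30188780715) (nat_lit 152) (nat_lit 11994208824) (nat_lit 76) (nat_lit 63698443509) (nat_lit 15) (nat_lit 5) (nat_lit 17) (nat_lit 5) (nat_lit 16) (nat_lit 5) (nat_lit 323) (nat_lit 275) (nat_lit 122)) (XT.lf (nat_lit 0) (nat_lit 19556713343) (nat_lit 152) (nat_lit 23516241514) (nat_lit 228) (nat_lit 67062802213) (nat_lit 13) (nat_lit 5) (nat_lit 15) (nat_lit 5) (nat_lit 16) (nat_lit 5) (nat_lit 324) (nat_lit 275) (nat_lit 121)))) (XT.nd (nat_lit 156) (nat_lit 76) (nat_lit 0) (XT.nd (nat_lit 78) (nat_lit 0) (nat_lit 0) (XT.lf (nat_lit 0) (nat_lit 53099876599) (nat_lit 152) (nat_lit 3703507466) (nat_lit 228) (nat_lit 57789313441) (nat_lit 13) (nat_lit 5) (nat_lit 15) (nat_lit 5) (nat_lit 16) (nat_lit 5) (nat_lit 325) (nat_lit 275) (nat_lit 120)) (XT.lf (nat_lit 0) (nat_lit 71486272195) (nat_lit 228) (nat_lit 31220943299) (nat_lit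 76) (nat_lit 16551975006) (nat_lit 13) (nat_lit 5) (nat_lit 16) (nat_lit 5) (nat_lit 14) (nat_lit 4) (nat_lit 326) (nat_lit 275) (nat_lit 119))) (XT.nd (nat_lit 78) (nat_lit 0) (nat_lit 0) (XT.lf (nat_lit 0) (nat_lit 518820875) (nat_lit 76) (nat_lit 86452307505) (nat_lit 152) (nat_lit 37184490875) (nat_lit 12) (nat_lit 5) (nat_lit 13) (nat_lit 5) (nat_lit 14) (nat_lit 4) (nat_lit 327) (nat_lit 275) (nat_lit 118)) (XT.nd (nat_lit 78) (nat_lit 0) (nat_lit 0) (XT.lf (nat_lit 0) (nat_lit 34927920127) (nat_lit 76) (nat_lit 68830081758) (nat_lit 152) (nat_lit 25512481022) (nat_lit 12) (nat_lit 5) (nat_lit 13) (nat_lit 5) (nat_lit 14) (nat_lit 4) (nat_lit 328) (nat_lit 275) (nat_lit 117)) (XT.lf (nat_lit 0) (nat_lit 71055975497) (nat_lit 76) (nat_lit 50327322355) (nat_lit 152) (nat_lit 13257840030) (nat_lit 12) (nat_lit 5) (nat_lit 13) (nat_lit 5) (nat_lit 14) (nat_lit 4) (nat_lit 329) (nat_lit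 275) (nat_lit 116)))))) (XT.nd (nat_lit 312) (nat_lit 76) (nat_lit 0) (XT.nd (nat_lit 156) (nat_lit 0) (nat_lit 0) (XT.nd (nat_lit 78) (nat_lit 228) (nat_lit 0) (XT.lf (nat_lit 0) (nat_lit 108989006167) (nat_lit 76) (nat_lit 30899975109) (nat_lit 152) (nat_lit 391390181) (nat_lit 12) (nat_lit 5) (nat_lit 13) (nat_lit 5) (nat_lit 14) (nat_lit 4) (nat_lit 330) (nat_lit 275) (nat_lit 115)) (XT.lf (nat_lit 0) (nat_lit 2490633338) (nat_lit 152) (nat_lit 10245913342) (nat_lit 228) (nat_lit 133452879357) (nat_lit 9) (nat_lit 5) (nat_lit 11) (nat_lit 5) (nat_lit 12) (nat_lit 5) (nat_lit 331) (nat_lit 275) (nat_lit 114))) (XT.nd (nat_lit 78) (nat_lit 0) (nat_lit 0) (XT.lf (nat_lit 0) (nat_lit 27224132466) (nat_lit 228) (nat_lit 113514468596) (nat_lit 76) (nat_lit 11619192917) (nat_lit 9) (nat_lit 5) (nat_lit 12) (nat_lit 5) (nat_lit 10) (nat_lit 4) (nat_lit 332) (nat_lit 275) (nat_lit 113))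 (XT.lf (nat_lit 0) (nat_lit 42603263085) (nat_lit 228) (nat_lit 81990229295) (nat_lit 76) (nat_lit 34232731291) (nat_lit 9) (nat_lit 5) (nat_lit 12) (nat_lit 5) (nat_lit 10) (nat_lit 4) (nat_lit 333) (nat_lit 275) (nat_lit 112)))) (XT.nd (nat_lit 156) (nat_lit 76) (nat_lit 0) (XT.nd (nat_lit 78) (nat_lit 0) (nat_lit 0) (XT.lf (nat_lit 0) (nat_lit 58750588095) (nat_lit 228) (nat_lit 48891049662) (nat_lit 76) (nat_lit 57976476752) (nat_lit 9) (nat_lit 5) (nat_lit 12) (nat_lit 5) (nat_lit 10) (nat_lit 4) (nat_lit 334) (nat_lit 275) (nat_lit 111)) (XT.lf (nat_lit 0) (nat_lit 75704553507) (nat_lit 228) (nat_lit 14138122126) (nat_lit 76) (nat_lit 82906962025) (nat_lit 9) (nat_lit 5) (nat_lit 12) (nat_lit 5) (nat_lit 10) (nat_lit 4) (nat_lit 335) (nat_lit 275) (nat_lit 110))) (XT.nd (nat_lit 78) (nat_lit 0) (nat_lit 0) (XT.lf (nat_lit 0) (nat_lit 23090333242) (nat_lit 76) (nat_lit 70775697475)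 (nat_lit 152) (nat_lit 86353716980) (nat_lit 8) (nat_lit 5) (nat_lit 9) (nat_lit 5) (nat_lit 10) (nat_lit 4) (nat_lit 336) (nat_lit 275) (nat_lit 109)) (XT.nd (nat_lit 78) (nat_lit 0) (nat_lit 0) (XT.lf (nat_lit 0) (nat_lit 62669920250) (nat_lit 76) (nat_lit 50504421395) (nat_lit 152) (nat_lit 74877084943) (nat_lit 8) (nat_lit 5) (nat_lit 9) (nat_lit 5) (nat_lit 10) (nat_lit 4) (nat_lit 337) (nat_lit 275) (nat_lit 108)) (XT.lf (nat_lit 0) (nat_lit 104227405841) (nat_lit 76) (nat_lit 29220018389) (nat_lit 152) (nat_lit 62827298664) (nat_lit 8) (nat_lit 5) (nat_lit 9) (nat_lit 5) (nat_lit 10) (nat_lit 4) (nat_lit 338) (nat_lit 275) (nat_lit 107))))))))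
noncomputable def xc212 : XT := (XT.nd (nat_lit 33228) (nat_lit 0) (nat_lit 2356) (XT.nd (nat_lit 624) (nat_lit 76) (nat_lit 0) (XT.nd (nat_lit 312) (nat_lit 76) (nat_lit 0) (XT.nd (nat_lit 156) (nat_lit 76) (nat_lit 0) (XT.nd (nat_lit 78) (nat_lit 0) (nat_lit 0) (XT.lf (nat_lit 0) (nat_lit 147861736410) (nat_lit 76) (nat_lit 6871811307) (nat_lit 152) (nat_lit 50175668177) (nat_lit 8) (nat_lit 5) (nat_lit 9) (nat_lit 5) (nat_lit 10) (nat_lit 4) (nat_lit 339) (nat_lit 275) (nat_lit 106)) (XT.lf (nat_lit 0) (nat_lit 177342462983) (nat_lit 152) (nat_lit 20557730315) (nat_lit 0) (nat_lit 16062317123) (nat_lit 8) (nat_lit 5) (nat_lit 10) (nat_lit 4) (nat_lit 8) (nat_lit 4) (nat_lit 340) (nat_lit 275) (nat_lit 105))) (XT.nd (nat_lit 78) (nat_lit 0) (nat_lit 0) (XT.lf (nat_lit 0) (nat_lit 18226250891) (nat_lit 76) (nat_lit 183252226513) (nat_lit 76) (nat_lit 21970160706) (nat_lit 7) (nat_lit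 4) (nat_lit 8) (nat_lit 5) (nat_lit 8) (nat_lit 4) (nat_lit 341) (nat_lit 275) (nat_lit 104)) (XT.lf (nat_lit 0) (nat_lit 59662207934) (nat_lit 76) (nat_lit 167506689687) (nat_lit 76) (nat_lit 6222795359) (nat_lit 7) (nat_lit 4) (nat_lit 8) (nat_lit 5) (nat_lit 8) (nat_lit 4) (nat_lit 342) (nat_lit 275) (nat_lit 103)))) (XT.nd (nat_lit 156) (nat_lit 0) (nat_lit 0) (XT.nd (nat_lit 78) (nat_lit 0) (nat_lit 0) (XT.lf (nat_lit 0) (nat_lit 9981358432) (nat_lit 152) (nat_lit 140823850990) (nat_lit 76) (nat_lit 93018668882) (nat_lit 6) (nat_lit 5) (nat_lit 8) (nat_lit 5) (nat_lit 7) (nat_lit 4) (nat_lit 343) (nat_lit 275) (nat_lit 102)) (XT.lf (nat_lit 0) (nat_lit 26786085185) (nat_lit 152) (nat_lit 106375819670) (nat_lit 76) (nat_lit 121610693695) (nat_lit 6) (nat_lit 5) (nat_lit 8) (nat_lit 5) (nat_lit 7) (nat_lit 4) (nat_lit 344) (nat_lit 275) (nat_lit 101))) (XT.nd (nat_lit 78) (nat_lit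 0) (nat_lit 0) (XT.lf (nat_lit 0) (nat_lit 44430564465) (nat_lit 152) (nat_lit 70206216690) (nat_lit 76) (nat_lit 151631998708) (nat_lit 6) (nat_lit 5) (nat_lit 8) (nat_lit 5) (nat_lit 7) (nat_lit 4) (nat_lit 345) (nat_lit 275) (nat_lit 100)) (XT.lf (nat_lit 0) (nat_lit 62956806940) (nat_lit 152) (nat_lit 32228923947) (nat_lit 76) (nat_lit 183154063218) (nat_lit 6) (nat_lit 5) (nat_lit 8) (nat_lit 5) (nat_lit 7) (nat_lit 4) (nat_lit 346) (nat_lit 275) (nat_lit 99))))) (XT.nd (nat_lit 32214) (nat_lit 0) (nat_lit 4256) (XT.nd (nat_lit 32058) (nat_lit 0) (nat_lit 4180) (XT.nd (nat_lit 31980) (nat_lit 0) (nat_lit 4180) (XT.lf (nat_lit 0) (nat_lit 7899307868) (nat_lit 76) (nat_lit 74632945174) (nat_lit 152) (nat_lit 208475962226) (nat_lit 5) (nat_lit 5) (nat_lit 6) (nat_lit 5) (nat_lit 7) (nat_lit 4) (nat_lit 347) (nat_lit 275) (nat_lit 98)) (XT.lf (nat_lit 0) (nat_lit 583270186) (nat_lit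 0) (nat_lit 583270186) (nat_lit 684) (nat_lit 10799746429) (nat_lit 60) (nat_lit 5) (nat_lit 60) (nat_lit 3) (nat_lit 69) (nat_lit 3) (nat_lit 276) (nat_lit 276) (nat_lit 168))) (XT.nd (nat_lit 78) (nat_lit 0) (nat_lit 0) (XT.lf (nat_lit 0) (nat_lit 2634234716) (nat_lit 684) (nat_lit 13226398153) (nat_lit 760) (nat_lit 8657660624) (nat_lit 60) (nat_lit 5) (nat_lit 69) (nat_lit 3) (nat_lit 70) (nat_lit 5) (nat_lit 277) (nat_lit 276) (nat_lit 167)) (XT.lf (nat_lit 0) (nat_lit 2963016286) (nat_lit 684) (nat_lit 3232618401) (nat_lit 760) (nat_lit 18937065198) (nat_lit 60) (nat_lit 5) (nat_lit 69) (nat_lit 3) (nat_lit 70) (nat_lit 5) (nat_lit 278) (nat_lit 276) (nat_lit 166)))) (XT.nd (nat_lit 156) (nat_lit 0) (nat_lit 0) (XT.nd (nat_lit 78) (nat_lit 0) (nat_lit 0) (XT.lf (nat_lit 0) (nat_lit 3482721266) (nat_lit 684) (nat_lit 18338712874) (nat_lit 760) (nat_lit 3947695861) (nat_lit 61)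 (nat_lit 5) (nat_lit 70) (nat_lit 5) (nat_lit 71) (nat_lit 5) (nat_lit 279) (nat_lit 276) (nat_lit 165)) (XT.lf (nat_lit 0) (nat_lit 4179663305) (nat_lit 684) (nat_lit 7802121108) (nat_lit 760) (nat_lit 14448060930) (nat_lit 61) (nat_lit 5) (nat_lit 70) (nat_lit 5) (nat_lit 71) (nat_lit 5) (nat_lit 280) (nat_lit 276) (nat_lit 164))) (XT.nd (nat_lit 78) (nat_lit 0) (nat_lit 76) (XT.lf (nat_lit 76) (nat_lit 3365350411) (nat_lit 0) (nat_lit 1592968964) (nat_lit 760) (nat_lit 22162958785) (nat_lit 62) (nat_lit 5) (nat_lit 61) (nat_lit 5) (nat_lit 71) (nat_lit 5) (nat_lit 281) (nat_lit 276) (nat_lit 163)) (XT.nd (nat_lit 78) (nat_lit 0) (nat_lit 0) (XT.lf (nat_lit 0) (nat_lit 6050212204) (nat_lit 684) (nat_lit 12630141259) (nat_lit 760) (nat_lit 9153237817) (nat_lit 62) (nat_lit 5) (nat_lit 71) (nat_lit 5) (nat_lit 72) (nat_lit 5) (nat_lit 282) (nat_lit 276) (nat_lit 162)) (XT.lf (nat_lit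 0) (nat_lit 7217640025) (nat_lit 684) (nat_lit 977921559) (nat_lit 760) (nat_lit 20384934182) (nat_lit 62) (nat_lit 5) (nat_lit 71) (nat_lit 5) (nat_lit 72) (nat_lit 5) (nat_lit 283) (nat_lit 276) (nat_lit 161))))))) (XT.nd (nat_lit 624) (nat_lit 1140) (nat_lit 0) (XT.nd (nat_lit 312) (nat_lit 912) (nat_lit 0) (XT.nd (nat_lit 156) (nat_lit 0) (nat_lit 0) (XT.nd (nat_lit 78) (nat_lit 0) (nat_lit 0) (XT.lf (nat_lit 0) (nat_lit 8666940234) (nat_lit 684) (nat_lit 17777429296) (nat_lit 760) (nat_lit 2909222539) (nat_lit 63) (nat_lit 5) (nat_lit 72) (nat_lit 5) (nat_lit 73) (nat_lit 5) (nat_lit 284) (nat_lit 276) (nat_lit 160)) (XT.lf (nat_lit 0) (nat_lit 10335163763) (nat_lit 684) (nat_lit 5511021108) (nat_lit 760) (nat_lit 14311856014) (nat_lit 63) (nat_lit 5) (nat_lit 72) (nat_lit 5) (nat_lit 73) (nat_lit 5) (nat_lit 285) (nat_lit 276) (nat_lit 159))) (XT.nd (nat_lit 78) (nat_lit 0) (nat_lit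 76) (XT.lf (nat_lit 76) (nat_lit 7608627681) (nat_lit 0) (nat_lit 4592459708) (nat_lit 760) (nat_lit 18795929939) (nat_lit 64) (nat_lit 5) (nat_lit 63) (nat_lit 5) (nat_lit 73) (nat_lit 5) (nat_lit 286) (nat_lit 276) (nat_lit 158)) (XT.lf (nat_lit 0) (nat_lit 14363623636) (nat_lit 684) (nat_lit 10415796700) (nat_lit 76) (nat_lit 7088375130) (nat_lit 64) (nat_lit 5) (nat_lit 73) (nat_lit 5) (nat_lit 65) (nat_lit 5) (nat_lit 287) (nat_lit 276) (nat_lit 157)))) (XT.nd (nat_lit 156) (nat_lit 304) (nat_lit 0) (XT.nd (nat_lit 78) (nat_lit 0) (nat_lit 0) (XT.lf (nat_lit 0) (nat_lit 3229903753) (nat_lit 684) (nat_lit 13525971749) (nat_lit 760) (nat_lit 16020175376) (nat_lit 55) (nat_lit 5) (nat_lit 64) (nat_lit 5) (nat_lit 65) (nat_lit 5) (nat_lit 288) (nat_lit 276) (nat_lit 156)) (XT.lf (nat_lit 0) (nat_lit 17915947439) (nat_lit 684) (nat_lit 1524204754) (nat_lit 760) (nat_lit 14280963213)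 (nat_lit 55) (nat_lit 5) (nat_lit 64) (nat_lit 5) (nat_lit 65) (nat_lit 5) (nat_lit 289) (nat_lit 276) (nat_lit 155))) (XT.nd (nat_lit 78) (nat_lit 304) (nat_lit 0) (XT.lf (nat_lit 0) (nat_lit 22427807683) (nat_lit 760) (nat_lit 1553690750) (nat_lit 76) (nat_lit 10723492631) (nat_lit 55) (nat_lit 5) (nat_lit 65) (nat_lit 5) (nat_lit 56) (nat_lit 5) (nat_lit 290) (nat_lit 276) (nat_lit 154)) (XT.lf (nat_lit 0) (nat_lit 13824414558) (nat_lit 304) (nat_lit 11977648390) (nat_lit 380) (nat_lit 9924152089) (nat_lit 51) (nat_lit 5) (nat_lit 55) (nat_lit 5) (nat_lit 56) (nat_lit 5) (nat_lit 291) (nat_lit 276) (nat_lit 153))))) (XT.nd (nat_lit 312) (nat_lit 532) (nat_lit 0) (XT.nd (nat_lit 156) (nat_lit 304) (nat_lit 0) (XT.nd (nat_lit 78) (nat_lit 304) (nat_lit 0) (XT.lf (nat_lit 0) (nat_lit 29378067787) (nat_lit 380) (nat_lit 6785591995) (nat_lit 76) (nat_lit 633203233) (nat_lit 51) (nat_lit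 5) (nat_lit 56) (nat_lit 5) (nat_lit 52) (nat_lit 5) (nat_lit 292) (nat_lit 276) (nat_lit 152)) (XT.lf (nat_lit 0) (nat_lit 9180513343) (nat_lit 304) (nat_lit 24288727182) (nat_lit 380) (nat_lit 4434998438) (nat_lit 47) (nat_lit 5) (nat_lit 51) (nat_lit 5) (nat_lit 52) (nat_lit 5) (nat_lit 293) (nat_lit 276) (nat_lit 151))) (XT.nd (nat_lit 78) (nat_lit 304) (nat_lit 0) (XT.lf (nat_lit 0) (nat_lit 26177166661) (nat_lit 304) (nat_lit 11699507769) (nat_lit 380) (nat_lit 1184737438) (nat_lit 47) (nat_lit 5) (nat_lit 51) (nat_lit 5) (nat_lit 52) (nat_lit 5) (nat_lit 294) (nat_lit 276) (nat_lit 150)) (XT.lf (nat_lit 0) (nat_lit 2238692957) (nat_lit 304) (nat_lit 36465378268) (nat_lit 76) (nat_lit 1566546579) (nat_lit 43) (nat_lit 5) (nat_lit 47) (nat_lit 5) (nat_lit 44) (nat_lit 5) (nat_lit 295) (nat_lit 276) (nat_lit 149)))) (XT.nd (nat_lit 156) (nat_lit 532) (nat_lit 0) (XT.nd (nat_lit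 78) (nat_lit 0) (nat_lit 0) (XT.lf (nat_lit 0) (nat_lit 6204023825) (nat_lit 304) (nat_lit 19971058187) (nat_lit 76) (nat_lit 15343715212) (nat_lit 43) (nat_lit 5) (nat_lit 47) (nat_lit 5) (nat_lit 44) (nat_lit 5) (nat_lit 296) (nat_lit 276) (nat_lit 148)) (XT.lf (nat_lit 0) (nat_lit 10364736185) (nat_lit 304) (nat_lit 2655260595) (nat_lit 76) (nat_lit 29809544019) (nat_lit 43) (nat_lit 5) (nat_lit 47) (nat_lit 5) (nat_lit 44) (nat_lit 5) (nat_lit 297) (nat_lit 276) (nat_lit 147))) (XT.nd (nat_lit 78) (nat_lit 228) (nat_lit 0) (XT.lf (nat_lit 0) (nat_lit 14997589123) (nat_lit 380) (nat_lit 28173417247) (nat_lit 76) (nat_lit 1021620344) (nat_lit 39) (nat_lit 5) (nat_lit 44) (nat_lit 5) (nat_lit 40) (nat_lit 5) (nat_lit 298) (nat_lit 276) (nat_lit 146)) (XT.nd (nat_lit 78) (nat_lit 228) (nat_lit 0) (XT.lf (nat_lit 0) (nat_lit 20118562599) (nat_lit 380) (nat_lit 10119382462) (nat_lit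 76) (nat_lit 15373107887) (nat_lit 39) (nat_lit 5) (nat_lit 44) (nat_lit 5) (nat_lit 40) (nat_lit 5) (nat_lit 299) (nat_lit 276) (nat_lit 145)) (XT.lf (nat_lit 0) (nat_lit 9126436181) (nat_lit 228) (nat_lit 16509094969) (nat_lit 304) (nat_lit 21457881465) (nat_lit 36) (nat_lit 5) (nat_lit 39) (nat_lit 5) (nat_lit 40) (nat_lit 5) (nat_lit 300) (nat_lit 276) (nat_lit 144))))))))
noncomputable def xc213 : XT := (XT.nd (nat_lit 1326) (nat_lit 760) (nat_lit 0) (XT.nd (nat_lit 624) (nat_lit 532) (nat_lit 0) (XT.nd (nat_lit 312) (nat_lit 532) (nat_lit 0) (XT.nd (nat_lit 156) (nat_lit 0) (nat_lit 0) (XT.nd (nat_lit 78) (nat_lit 228) (nat_lit 0) (XT.lf (nat_lit 0) (nat_lit 29682895756) (nat_lit 228) (nat_lit 1914360854) (nat_lit 304) (nat_lit 17044197225) (nat_lit 36) (nat_lit 5) (nat_lit 39) (nat_lit 5) (nat_lit 40) (nat_lit 5) (nat_lit 301) (nat_lit 276) (nat_lit 143)) (XT.lf (nat_lit 0)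 (nat_lit 814016212) (nat_lit 228) (nat_lit 37262772482) (nat_lit 304) (nat_lit 12179130969) (nat_lit 33) (nat_lit 5) (nat_lit 36) (nat_lit 5) (nat_lit 37) (nat_lit 5) (nat_lit 302) (nat_lit 276) (nat_lit 142))) (XT.nd (nat_lit 78) (nat_lit 0) (nat_lit 0) (XT.lf (nat_lit 0) (nat_lit 22198095301) (nat_lit 228) (nat_lit 23031860093) (nat_lit 304) (nat_lit 6703678646) (nat_lit 33) (nat_lit 5) (nat_lit 36) (nat_lit 5) (nat_lit 37) (nat_lit 5) (nat_lit 303) (nat_lit 276) (nat_lit 141)) (XT.lf (nat_lit 0) (nat_lit 44648614900) (nat_lit 228) (nat_lit 8089983499) (nat_lit 304) (nat_lit 956752606) (nat_lit 33) (nat_lit 5) (nat_lit 36) (nat_lit 5) (nat_lit 37) (nat_lit 5) (nat_lit 304) (nat_lit 276) (nat_lit 140)))) (XT.nd (nat_lit 156) (nat_lit 228) (nat_lit 0) (XT.nd (nat_lit 78) (nat_lit 0) (nat_lit 0) (XT.lf (nat_lit 0) (nat_lit 5239287491) (nat_lit 304) (nat_lit 42643453030) (nat_lit 76)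 (nat_lit 7642242624) (nat_lit 29) (nat_lit 5) (nat_lit 33) (nat_lit 5) (nat_lit 30) (nat_lit 5) (nat_lit 305) (nat_lit 276) (nat_lit 139)) (XT.lf (nat_lit 0) (nat_lit 11999252126) (nat_lit 304) (nat_lit 21371728799) (nat_lit 76) (nat_lit 24060024671) (nat_lit 29) (nat_lit 5) (nat_lit 33) (nat_lit 5) (nat_lit 30) (nat_lit 5) (nat_lit 306) (nat_lit 276) (nat_lit 138))) (XT.nd (nat_lit 78) (nat_lit 0) (nat_lit 0) (XT.lf (nat_lit 0) (nat_lit 992721065) (nat_lit 228) (nat_lit 18118022138) (nat_lit 304) (nat_lit 40320915945) (nat_lit 26) (nat_lit 5) (nat_lit 29) (nat_lit 5) (nat_lit 30) (nat_lit 5) (nat_lit 307) (nat_lit 276) (nat_lit 137)) (XT.lf (nat_lit 0) (nat_lit 25214780218) (nat_lit 228) (nat_lit 1723051636) (nat_lit 304) (nat_lit 34576518461) (nat_lit 26) (nat_lit 5) (nat_lit 29) (nat_lit 5) (nat_lit 30) (nat_lit 5) (nat_lit 308) (nat_lit 276) (nat_lit 136))))) (XT.nd (nat_lit 312)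 (nat_lit 380) (nat_lit 0) (XT.nd (nat_lit 156) (nat_lit 0) (nat_lit 0) (XT.nd (nat_lit 78) (nat_lit 152) (nat_lit 0) (XT.lf (nat_lit 0) (nat_lit 35396307022) (nat_lit 304) (nat_lit 13297657117) (nat_lit 76) (nat_lit 14995216093) (nat_lit 26) (nat_lit 5) (nat_lit 30) (nat_lit 5) (nat_lit 27) (nat_lit 5) (nat_lit 309) (nat_lit 276) (nat_lit 135)) (XT.lf (nat_lit 0) (nat_lit 11181550827) (nat_lit 152) (nat_lit 33297228398) (nat_lit 228) (nat_lit 21483924280) (nat_lit 24) (nat_lit 5) (nat_lit 26) (nat_lit 5) (nat_lit 27) (nat_lit 5) (nat_lit 310) (nat_lit 276) (nat_lit 134))) (XT.nd (nat_lit 78) (nat_lit 0) (nat_lit 0) (XT.lf (nat_lit 0) (nat_lit 37343989653) (nat_lit 152) (nat_lit 16894884722) (nat_lit 228) (nat_lit 14099858855) (nat_lit 24) (nat_lit 5) (nat_lit 26) (nat_lit 5) (nat_lit 27) (nat_lit 5) (nat_lit 311) (nat_lit 276) (nat_lit 133)) (XT.lf (nat_lit 0) (nat_lit 64490456560)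 (nat_lit 228) (nat_lit 6026484362) (nat_lit 76) (nat_lit 316454415) (nat_lit 24) (nat_lit 5) (nat_lit 27) (nat_lit 5) (nat_lit 25) (nat_lit 5) (nat_lit 312) (nat_lit 276) (nat_lit 132)))) (XT.nd (nat_lit 156) (nat_lit 152) (nat_lit 0) (XT.nd (nat_lit 78) (nat_lit 0) (nat_lit 0) (XT.lf (nat_lit 0) (nat_lit 2350488318) (nat_lit 228) (nat_lit 52891553035) (nat_lit 76) (nat_lit 18179030622) (nat_lit 21) (nat_lit 5) (nat_lit 24) (nat_lit 5) (nat_lit 22) (nat_lit 5) (nat_lit 313) (nat_lit 276) (nat_lit 131)) (XT.lf (nat_lit 0) (nat_lit 11367612935) (nat_lit 228) (nat_lit 27618399737) (nat_lit 76) (nat_lit 37141815444) (nat_lit 21) (nat_lit 5) (nat_lit 24) (nat_lit 5) (nat_lit 22) (nat_lit 5) (nat_lit 314) (nat_lit 276) (nat_lit 130))) (XT.nd (nat_lit 78) (nat_lit 152) (nat_lit 0) (XT.lf (nat_lit 0) (nat_lit 20834123245) (nat_lit 228) (nat_lit 1083743973) (nat_lit 76) (nat_lit 57052132492)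 (nat_lit 21) (nat_lit 5) (nat_lit 24) (nat_lit 5) (nat_lit 22) (nat_lit 5) (nat_lit 315) (nat_lit 276) (nat_lit 129)) (XT.nd (nat_lit 78) (nat_lit 0) (nat_lit 0) (XT.lf (nat_lit 0) (nat_lit 27660914000) (nat_lit 152) (nat_lit 3543508945) (nat_lit 228) (nat_lit 50728337671) (nat_lit 19) (nat_lit 5) (nat_lit 21) (nat_lit 5) (nat_lit 22) (nat_lit 5) (nat_lit 316) (nat_lit 276) (nat_lit 128)) (XT.lf (nat_lit 0) (nat_lit 42356411559) (nat_lit 228) (nat_lit 27410588884) (nat_lit 76) (nat_lit 15263504162) (nat_lit 19) (nat_lit 5) (nat_lit 22) (nat_lit 5) (nat_lit 20) (nat_lit 5) (nat_lit 317) (nat_lit 276) (nat_lit 127))))))) (XT.nd (nat_lit 702) (nat_lit 304) (nat_lit 0) (XT.nd (nat_lit 312) (nat_lit 304) (nat_lit 0) (XT.nd (nat_lit 156) (nat_lit 0) (nat_lit 0) (XT.nd (nat_lit 78) (nat_lit 0) (nat_lit 0) (XT.lf (nat_lit 0) (nat_lit 757917363) (nat_lit 152) (nat_lit 53376695705) (nat_lit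 228) (nat_lit 34145095613) (nat_lit 17) (nat_lit 5) (nat_lit 19) (nat_lit 5) (nat_lit 20) (nat_lit 5) (nat_lit 318) (nat_lit 276) (nat_lit 126)) (XT.lf (nat_lit 0) (nat_lit 31284532495) (nat_lit 152) (nat_lit 35680125619) (nat_lit 228) (nat_lit 24703571563) (nat_lit 17) (nat_lit 5) (nat_lit 19) (nat_lit 5) (nat_lit 20) (nat_lit 5) (nat_lit 319) (nat_lit 276) (nat_lit 125))) (XT.nd (nat_lit 78) (nat_lit 0) (nat_lit 0) (XT.lf (nat_lit 0) (nat_lit 63335621070) (nat_lit 152) (nat_lit 17099367082) (nat_lit 228) (nat_lit 14791252662) (nat_lit 17) (nat_lit 5) (nat_lit 19) (nat_lit 5) (nat_lit 20) (nat_lit 5) (nat_lit 320) (nat_lit 276) (nat_lit 124)) (XT.lf (nat_lit 0) (nat_lit 94615299436) (nat_lit 228) (nat_lit 2012342385) (nat_lit 76) (nat_lit 2332690524) (nat_lit 17) (nat_lit 5) (nat_lit 20) (nat_lit 5) (nat_lit 18) (nat_lit 4) (nat_lit 321) (nat_lit 276) (nat_lit 123)))) (XT.nd (nat_lit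 156) (nat_lit 152) (nat_lit 0) (XT.nd (nat_lit 78) (nat_lit 0) (nat_lit 0) (XT.lf (nat_lit 0) (nat_lit 7171968366) (nat_lit 152) (nat_lit 72920157284) (nat_lit 76) (nat_lit 22745811831) (nat_lit 15) (nat_lit 5) (nat_lit 17) (nat_lit 5) (nat_lit 16) (nat_lit 5) (nat_lit 322) (nat_lit 276) (nat_lit 122)) (XT.lf (nat_lit 0) (nat_lit 19152329493) (nat_lit 152) (nat_lit 43466979730) (nat_lit 76) (nat_lit 44284878234) (nat_lit 15) (nat_lit 5) (nat_lit 17) (nat_lit 5) (nat_lit 16) (nat_lit 5) (nat_lit 323) (nat_lit 276) (nat_lit 121))) (XT.nd (nat_lit 78) (nat_lit 152) (nat_lit 0) (XT.lf (nat_lit 0) (nat_lit 31730654110) (nat_lit 152) (nat_lit 12542805214) (nat_lit 76) (nat_lit 66900345866) (nat_lit 15) (nat_lit 5) (nat_lit 17) (nat_lit 5) (nat_lit 16) (nat_lit 5) (nat_lit 324) (nat_lit 276) (nat_lit 120)) (XT.nd (nat_lit 78) (nat_lit 0) (nat_lit 0) (XT.lf (nat_lit 0) (nat_lit 20584838641)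 (nat_lit 152) (nat_lit 24673438988) (nat_lit 228) (nat_lit 70382609458) (nat_lit 13) (nat_lit 5) (nat_lit 15) (nat_lit 5) (nat_lit 16) (nat_lit 5) (nat_lit 325) (nat_lit 276) (nat_lit 119)) (XT.lf (nat_lit 0) (nat_lit 55802765316) (nat_lit 152) (nat_lit 3870954647) (nat_lit 228) (nat_lit 60647033526) (nat_lit 13) (nat_lit 5) (nat_lit 15) (nat_lit 5) (nat_lit 16) (nat_lit 5) (nat_lit 326) (nat_lit 276) (nat_lit 118)))))) (XT.nd (nat_lit 312) (nat_lit 228) (nat_lit 0) (XT.nd (nat_lit 156) (nat_lit 0) (nat_lit 0) (XT.nd (nat_lit 78) (nat_lit 76) (nat_lit 0) (XT.lf (nat_lit 0) (nat_lit 75089579596) (nat_lit 228) (nat_lit 32735136185) (nat_lit 76) (nat_lit 17395917356) (nat_lit 13) (nat_lit 5) (nat_lit 16) (nat_lit 5) (nat_lit 14) (nat_lit 4) (nat_lit 327) (nat_lit 276) (nat_lit 117)) (XT.lf (nat_lit 0) (nat_lit 590860484) (nat_lit 76) (nat_lit 90757157177) (nat_lit 152) (nat_lit 39013901915)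 (nat_lit 12) (nat_lit 5) (nat_lit 13) (nat_lit 5) (nat_lit 14) (nat_lit 4) (nat_lit 328) (nat_lit 276) (nat_lit 116))) (XT.nd (nat_lit 78) (nat_lit 0) (nat_lit 0) (XT.lf (nat_lit 0) (nat_lit 36718219528) (nat_lit 76) (nat_lit 72254666128) (nat_lit 152) (nat_lit 26759711260) (nat_lit 12) (nat_lit 5) (nat_lit 13) (nat_lit 5) (nat_lit 14) (nat_lit 4) (nat_lit 329) (nat_lit 276) (nat_lit 115)) (XT.lf (nat_lit 0) (nat_lit 74650587029) (nat_lit 76) (nat_lit 52827574457) (nat_lit 152) (nat_lit 13893690305) (nat_lit 12) (nat_lit 5) (nat_lit 13) (nat_lit 5) (nat_lit 14) (nat_lit 4) (nat_lit 330) (nat_lit 276) (nat_lit 114)))) (XT.nd (nat_lit 156) (nat_lit 0) (nat_lit 0) (XT.nd (nat_lit 78) (nat_lit 228) (nat_lit 0) (XT.lf (nat_lit 0) (nat_lit 114478278149) (nat_lit 76) (nat_lit 32429627182) (nat_lit 152) (nat_lit 385205664) (nat_lit 12) (nat_lit 5) (nat_lit 13) (nat_lit 5) (nat_lit 14) (nat_lit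 4) (nat_lit 331) (nat_lit 276) (nat_lit 113)) (XT.lf (nat_lit 0) (nat_lit 2655207191) (nat_lit 152) (nat_lit 10742534600) (nat_lit 228) (nat_lit 140099887015) (nat_lit 9) (nat_lit 5) (nat_lit 11) (nat_lit 5) (nat_lit 12) (nat_lit 5) (nat_lit 332) (nat_lit 276) (nat_lit 112))) (XT.nd (nat_lit 78) (nat_lit 0) (nat_lit 0) (XT.lf (nat_lit 0) (nat_lit 28608779563) (nat_lit 228) (nat_lit 119151081552) (nat_lit 76) (nat_lit 12214602783) (nat_lit 9) (nat_lit 5) (nat_lit 12) (nat_lit 5) (nat_lit 10) (nat_lit 4) (nat_lit 333) (nat_lit 276) (nat_lit 111)) (XT.nd (nat_lit 78) (nat_lit 0) (nat_lit 0) (XT.lf (nat_lit 0) (nat_lit 44755750501) (nat_lit 228) (nat_lit 86052492689) (nat_lit 76) (nat_lit 35958129970) (nat_lit 9) (nat_lit 5) (nat_lit 12) (nat_lit 5) (nat_lit 10) (nat_lit 4) (nat_lit 334) (nat_lit 276) (nat_lit 110)) (XT.lf (nat_lit 0) (nat_lit 61709378701) (nat_lit 228) (nat_lit 51300127792)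 (nat_lit 76) (nat_lit 60888407364) (nat_lit 9) (nat_lit 5) (nat_lit 12) (nat_lit 5) (nat_lit 10) (nat_lit 4) (nat_lit 335) (nat_lit 276) (nat_lit 109))))))))
noncomputable def xc214 : XT := (XT.nd (nat_lit 33306) (nat_lit 0) (nat_lit 2812) (XT.nd (nat_lit 624) (nat_lit 76) (nat_lit 0) (XT.nd (nat_lit 312) (nat_lit 76) (nat_lit 0) (XT.nd (nat_lit 156) (nat_lit 0) (nat_lit 0) (XT.nd (nat_lit 78) (nat_lit 76) (nat_lit 0) (XT.lf (nat_lit 0) (nat_lit 79510029945) (nat_lit 228) (nat_lit 14811243134) (nat_lit 76) (nat_lit 87064792770) (nat_lit 9) (nat_lit 5) (nat_lit 12) (nat_lit 5) (nat_lit 10) (nat_lit 4) (nat_lit 336) (nat_lit 276) (nat_lit 108)) (XT.lf (nat_lit 0) (nat_lit 24278090082) (nat_lit 76) (nat_lit 74301045680) (nat_lit 152) (nat_lit 90650569856) (nat_lit 8) (nat_lit 5) (nat_lit 9) (nat_lit 5) (nat_lit 10) (nat_lit 4) (nat_lit 337) (nat_lit 276) (nat_lit 107))) (XT.nd (nat_lit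 78) (nat_lit 0) (nat_lit 0) (XT.lf (nat_lit 0) (nat_lit 65835073574) (nat_lit 76) (nat_lit 53016845637) (nat_lit 152) (nat_lit 78601098263) (nat_lit 8) (nat_lit 5) (nat_lit 9) (nat_lit 5) (nat_lit 10) (nat_lit 4) (nat_lit 338) (nat_lit 276) (nat_lit 106)) (XT.lf (nat_lit 0) (nat_lit 109468925954) (nat_lit 76) (nat_lit 30668831853) (nat_lit 152) (nat_lit 65949767476) (nat_lit 8) (nat_lit 5) (nat_lit 9) (nat_lit 5) (nat_lit 10) (nat_lit 4) (nat_lit 339) (nat_lit 276) (nat_lit 105)))) (XT.nd (nat_lit 156) (nat_lit 76) (nat_lit 0) (XT.nd (nat_lit 78) (nat_lit 0) (nat_lit 0) (XT.lf (nat_lit 0) (nat_lit 155283537345) (nat_lit 76) (nat_lit 7203794772) (nat_lit 152) (nat_lit 52666455280) (nat_lit 8) (nat_lit 5) (nat_lit 9) (nat_lit 5) (nat_lit 10) (nat_lit 4) (nat_lit 340) (nat_lit 276) (nat_lit 104)) (XT.lf (nat_lit 0) (nat_lit 186226051117) (nat_lit 152) (nat_lit 21557595701) (nat_lit 0)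 (nat_lit 16876133551) (nat_lit 8) (nat_lit 5) (nat_lit 10) (nat_lit 4) (nat_lit 8) (nat_lit 4) (nat_lit 341) (nat_lit 276) (nat_lit 103))) (XT.nd (nat_lit 78) (nat_lit 0) (nat_lit 0) (XT.lf (nat_lit 0) (nat_lit 19165132612) (nat_lit 76) (nat_lit 192403380033) (nat_lit 76) (nat_lit 23051721018) (nat_lit 7) (nat_lit 4) (nat_lit 8) (nat_lit 5) (nat_lit 8) (nat_lit 4) (nat_lit 342) (nat_lit 276) (nat_lit 102)) (XT.lf (nat_lit 0) (nat_lit 62671574690) (nat_lit 76) (nat_lit 175871111975) (nat_lit 76) (nat_lit 6517794437) (nat_lit 7) (nat_lit 4) (nat_lit 8) (nat_lit 5) (nat_lit 8) (nat_lit 4) (nat_lit 343) (nat_lit 276) (nat_lit 101))))) (XT.nd (nat_lit 32292) (nat_lit 0) (nat_lit 4104) (XT.nd (nat_lit 156) (nat_lit 0) (nat_lit 0) (XT.nd (nat_lit 78) (nat_lit 0) (nat_lit 0) (XT.lf (nat_lit 0) (nat_lit 10495306436) (nat_lit 152) (nat_lit 147839518888) (nat_lit 76) (nat_lit 97679476298) (nat_lit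 6) (nat_lit 5) (nat_lit 8) (nat_lit 5) (nat_lit 7) (nat_lit 4) (nat_lit 344) (nat_lit 276) (nat_lit 100)) (XT.lf (nat_lit 0) (nat_lit 28139560951) (nat_lit 152) (nat_lit 111670301462) (nat_lit 76) (nat_lit 127700632163) (nat_lit 6) (nat_lit 5) (nat_lit 8) (nat_lit 5) (nat_lit 7) (nat_lit 4) (nat_lit 345) (nat_lit 276) (nat_lit 99))) (XT.nd (nat_lit 78) (nat_lit 0) (nat_lit 0) (XT.lf (nat_lit 0) (nat_lit 46665589362) (nat_lit 152) (nat_lit 73693375913) (nat_lit 76) (nat_lit 159222554628) (nat_lit 6) (nat_lit 5) (nat_lit 8) (nat_lit 5) (nat_lit 7) (nat_lit 4) (nat_lit 346) (nat_lit 276) (nat_lit 98)) (XT.lf (nat_lit 0) (nat_lit 66117501261) (nat_lit 152) (nat_lit 33818320991) (nat_lit 76) (nat_lit 192320295888) (nat_lit 6) (nat_lit 5) (nat_lit 8) (nat_lit 5) (nat_lit 7) (nat_lit 4) (nat_lit 347) (nat_lit 276) (nat_lit 97)))) (XT.nd (nat_lit 156) (nat_lit 0) (nat_lit 0) (XT.nd (nat_lit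 78) (nat_lit 0) (nat_lit 0) (XT.lf (nat_lit 0) (nat_lit 663221806) (nat_lit 0) (nat_lit 663221806) (nat_lit 684) (nat_lit 11232632688) (nat_lit 60) (nat_lit 5) (nat_lit 60) (nat_lit 3) (nat_lit 69) (nat_lit 3) (nat_lit 277) (nat_lit 277) (nat_lit 166)) (XT.lf (nat_lit 0) (nat_lit 2957914596) (nat_lit 684) (nat_lit 13778944924) (nat_lit 760) (nat_lit 8996900658) (nat_lit 60) (nat_lit 5) (nat_lit 69) (nat_lit 3) (nat_lit 70) (nat_lit 5) (nat_lit 278) (nat_lit 277) (nat_lit 165))) (XT.nd (nat_lit 78) (nat_lit 0) (nat_lit 76) (XT.lf (nat_lit 0) (nat_lit 3293993905) (nat_lit 684) (nat_lit 3290655857) (nat_lit 760) (nat_lit 19794734651) (nat_lit 60) (nat_lit 5) (nat_lit 69) (nat_lit 3) (nat_lit 70) (nat_lit 5) (nat_lit 279) (nat_lit 277) (nat_lit 164)) (XT.nd (nat_lit 78) (nat_lit 0) (nat_lit 0) (XT.lf (nat_lit 0) (nat_lit 3831417333) (nat_lit 684) (nat_lit 19143017657) (nat_lit 760) (nat_lit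 4073652916) (nat_lit 61) (nat_lit 5) (nat_lit 70) (nat_lit 5) (nat_lit 71) (nat_lit 5) (nat_lit 280) (nat_lit 277) (nat_lit 163)) (XT.lf (nat_lit 0) (nat_lit 4554894092) (nat_lit 684) (nat_lit 8084959676) (nat_lit 760) (nat_lit 15102437559) (nat_lit 61) (nat_lit 5) (nat_lit 70) (nat_lit 5) (nat_lit 71) (nat_lit 5) (nat_lit 281) (nat_lit 277) (nat_lit 162))))))) (XT.nd (nat_lit 624) (nat_lit 912) (nat_lit 0) (XT.nd (nat_lit 312) (nat_lit 456) (nat_lit 0) (XT.nd (nat_lit 156) (nat_lit 0) (nat_lit 76) (XT.nd (nat_lit 78) (nat_lit 0) (nat_lit 76) (XT.lf (nat_lit 76) (nat_lit 3639155298) (nat_lit 0) (nat_lit 1727058848) (nat_lit 760) (nat_lit 23102430028) (nat_lit 62) (nat_lit 5) (nat_lit 61) (nat_lit 5) (nat_lit 71) (nat_lit 5) (nat_lit 282) (nat_lit 277) (nat_lit 161)) (XT.lf (nat_lit 0) (nat_lit 6504274071) (nat_lit 684) (nat_lit 13152043329) (nat_lit 760) (nat_lit 9560710212) (nat_lit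 62) (nat_lit 5) (nat_lit 71) (nat_lit 5) (nat_lit 72) (nat_lit 5) (nat_lit 283) (nat_lit 277) (nat_lit 160))) (XT.nd (nat_lit 78) (nat_lit 0) (nat_lit 76) (XT.lf (nat_lit 0) (nat_lit 7722856556) (nat_lit 684) (nat_lit 922431928) (nat_lit 760) (nat_lit 21356381371) (nat_lit 62) (nat_lit 5) (nat_lit 71) (nat_lit 5) (nat_lit 72) (nat_lit 5) (nat_lit 284) (nat_lit 277) (nat_lit 159)) (XT.lf (nat_lit 0) (nat_lit 9238784444) (nat_lit 684) (nat_lit 18555473938) (nat_lit 760) (nat_lit 3019484648) (nat_lit 63) (nat_lit 5) (nat_lit 72) (nat_lit 5) (nat_lit 73) (nat_lit 5) (nat_lit 285) (nat_lit 277) (nat_lit 158)))) (XT.nd (nat_lit 156) (nat_lit 608) (nat_lit 0) (XT.nd (nat_lit 78) (nat_lit 0) (nat_lit 0) (XT.lf (nat_lit 0) (nat_lit 10983824045) (nat_lit 684) (nat_lit 5681022809) (nat_lit 760) (nat_lit 14993925940) (nat_lit 63) (nat_lit 5) (nat_lit 72) (nat_lit 5) (nat_lit 73) (nat_lit 5) (nat_lit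 286) (nat_lit 277) (nat_lit 157)) (XT.lf (nat_lit 76) (nat_lit 8092906011) (nat_lit 0) (nat_lit 4845478130) (nat_lit 760) (nat_lit 19601574285) (nat_lit 64) (nat_lit 5) (nat_lit 63) (nat_lit 5) (nat_lit 73) (nat_lit 5) (nat_lit 287) (nat_lit 277) (nat_lit 156))) (XT.nd (nat_lit 78) (nat_lit 684) (nat_lit 0) (XT.lf (nat_lit 0) (nat_lit 15202640165) (nat_lit 684) (nat_lit 10830756076) (nat_lit 76) (nat_lit 7421225661) (nat_lit 64) (nat_lit 5) (nat_lit 73) (nat_lit 5) (nat_lit 65) (nat_lit 5) (nat_lit 288) (nat_lit 277) (nat_lit 155)) (XT.lf (nat_lit 0) (nat_lit 3495522457) (nat_lit 684) (nat_lit 14214853763) (nat_lit 760) (nat_lit 16698145121) (nat_lit 55) (nat_lit 5) (nat_lit 64) (nat_lit 5) (nat_lit 65) (nat_lit 5) (nat_lit 289) (nat_lit 277) (nat_lit 154))))) (XT.nd (nat_lit 312) (nat_lit 608) (nat_lit 0) (XT.nd (nat_lit 156) (nat_lit 304) (nat_lit 0) (XT.nd (nat_lit 78) (nat_lit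 0) (nat_lit 0) (XT.lf (nat_lit 0) (nat_lit 18910910065) (nat_lit 684) (nat_lit 1612399208) (nat_lit 760) (nat_lit 14877831351) (nat_lit 55) (nat_lit 5) (nat_lit 64) (nat_lit 5) (nat_lit 65) (nat_lit 5) (nat_lit 290) (nat_lit 277) (nat_lit 153)) (XT.lf (nat_lit 0) (nat_lit 23654876508) (nat_lit 760) (nat_lit 1531010608) (nat_lit 76) (nat_lit 11248619028) (nat_lit 55) (nat_lit 5) (nat_lit 65) (nat_lit 5) (nat_lit 56) (nat_lit 5) (nat_lit 291) (nat_lit 277) (nat_lit 152))) (XT.nd (nat_lit 78) (nat_lit 0) (nat_lit 0) (XT.lf (nat_lit 0) (nat_lit 14614381180) (nat_lit 304) (nat_lit 12579972749) (nat_lit 380) (nat_lit 10312633371) (nat_lit 51) (nat_lit 5) (nat_lit 55) (nat_lit 5) (nat_lit 56) (nat_lit 5) (nat_lit 292) (nat_lit 277) (nat_lit 151)) (XT.lf (nat_lit 0) (nat_lit 30944241743) (nat_lit 380) (nat_lit 7025501956) (nat_lit 76) (nat_lit 661690275) (nat_lit 51) (nat_lit 5) (nat_lit 56)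 (nat_lit 5) (nat_lit 52) (nat_lit 5) (nat_lit 293) (nat_lit 277) (nat_lit 150)))) (XT.nd (nat_lit 156) (nat_lit 304) (nat_lit 0) (XT.nd (nat_lit 78) (nat_lit 0) (nat_lit 0) (XT.lf (nat_lit 0) (nat_lit 9737305914) (nat_lit 304) (nat_lit 25499561688) (nat_lit 380) (nat_lit 4557485853) (nat_lit 47) (nat_lit 5) (nat_lit 51) (nat_lit 5) (nat_lit 52) (nat_lit 5) (nat_lit 294) (nat_lit 277) (nat_lit 149)) (XT.lf (nat_lit 0) (nat_lit 27579136331) (nat_lit 304) (nat_lit 12281052821) (nat_lit 380) (nat_lit 1149438589) (nat_lit 47) (nat_lit 5) (nat_lit 51) (nat_lit 5) (nat_lit 52) (nat_lit 5) (nat_lit 295) (nat_lit 277) (nat_lit 148))) (XT.nd (nat_lit 78) (nat_lit 0) (nat_lit 0) (XT.lf (nat_lit 0) (nat_lit 2439360506) (nat_lit 304) (nat_lit 38189043796) (nat_lit 76) (nat_lit 1650971539) (nat_lit 43) (nat_lit 5) (nat_lit 47) (nat_lit 5) (nat_lit 44) (nat_lit 5) (nat_lit 296) (nat_lit 277) (nat_lit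 147)) (XT.nd (nat_lit 78) (nat_lit 0) (nat_lit 0) (XT.lf (nat_lit 0) (nat_lit 6598732540) (nat_lit 304) (nat_lit 20874750730) (nat_lit 76) (nat_lit 16116708240) (nat_lit 43) (nat_lit 5) (nat_lit 47) (nat_lit 5) (nat_lit 44) (nat_lit 5) (nat_lit 297) (nat_lit 277) (nat_lit 146)) (XT.lf (nat_lit 0) (nat_lit 10963456350) (nat_lit 304) (nat_lit 2697680418) (nat_lit 76) (nat_lit 31305551951) (nat_lit 43) (nat_lit 5) (nat_lit 47) (nat_lit 5) (nat_lit 44) (nat_lit 5) (nat_lit 298) (nat_lit 277) (nat_lit 145))))))))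
noncomputable def xc215 : XT := (XT.nd (nat_lit 1326) (nat_lit 912) (nat_lit 0) (XT.nd (nat_lit 624) (nat_lit 608) (nat_lit 0) (XT.nd (nat_lit 312) (nat_lit 532) (nat_lit 0) (XT.nd (nat_lit 156) (nat_lit 228) (nat_lit 0) (XT.nd (nat_lit 78) (nat_lit 0) (nat_lit 0) (XT.lf (nat_lit 0) (nat_lit 15825676515) (nat_lit 380) (nat_lit 29489179053) (nat_lit 76) (nat_lit 1083201656) (nat_lit 39) (nat_lit 5) (nat_lit 44) (nat_lit 5) (nat_lit 40) (nat_lit 5) (nat_lit 299) (nat_lit 277) (nat_lit 144)) (XT.lf (nat_lit 0) (nat_lit 21198974477) (nat_lit 380) (nat_lit 10536866769) (nat_lit 76) (nat_lit 16151763561) (nat_lit 39) (nat_lit 5) (nat_lit 44) (nat_lit 5) (nat_lit 40) (nat_lit 5) (nat_lit 300) (nat_lit 277) (nat_lit 143))) (XT.nd (nat_lit 78) (nat_lit 0) (nat_lit 0) (XT.lf (nat_lit 0) (nat_lit 9669815632) (nat_lit 228) (nat_lit 17319788193) (nat_lit 304) (nat_lit 22454601187) (nat_lit 36)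 (nat_lit 5) (nat_lit 39) (nat_lit 5) (nat_lit 40) (nat_lit 5) (nat_lit 301) (nat_lit 277) (nat_lit 142)) (XT.lf (nat_lit 0) (nat_lit 31249952583) (nat_lit 228) (nat_lit 1996020301) (nat_lit 304) (nat_lit 17823860085) (nat_lit 36) (nat_lit 5) (nat_lit 39) (nat_lit 5) (nat_lit 40) (nat_lit 5) (nat_lit 302) (nat_lit 277) (nat_lit 141)))) (XT.nd (nat_lit 156) (nat_lit 304) (nat_lit 0) (XT.nd (nat_lit 78) (nat_lit 0) (nat_lit 0) (XT.lf (nat_lit 0) (nat_lit 939709800) (nat_lit 228) (nat_lit 39108029056) (nat_lit 304) (nat_lit 12717382317) (nat_lit 33) (nat_lit 5) (nat_lit 36) (nat_lit 5) (nat_lit 37) (nat_lit 5) (nat_lit 303) (nat_lit 277) (nat_lit 140)) (XT.lf (nat_lit 0) (nat_lit 23388945569) (nat_lit 228) (nat_lit 24166422573) (nat_lit 304) (nat_lit 6971524292) (nat_lit 33) (nat_lit 5) (nat_lit 36) (nat_lit 5) (nat_lit 37) (nat_lit 5) (nat_lit 304) (nat_lit 277) (nat_lit 139))) (XT.nd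 (nat_lit 78) (nat_lit 304) (nat_lit 0) (XT.lf (nat_lit 0) (nat_lit 46958136600) (nat_lit 228) (nat_lit 8478263127) (nat_lit 304) (nat_lit 940458536) (nat_lit 33) (nat_lit 5) (nat_lit 36) (nat_lit 5) (nat_lit 37) (nat_lit 5) (nat_lit 305) (nat_lit 277) (nat_lit 138)) (XT.lf (nat_lit 0) (nat_lit 5561870486) (nat_lit 304) (nat_lit 44694618670) (nat_lit 76) (nat_lit 8041515641) (nat_lit 29) (nat_lit 5) (nat_lit 33) (nat_lit 5) (nat_lit 30) (nat_lit 5) (nat_lit 306) (nat_lit 277) (nat_lit 137))))) (XT.nd (nat_lit 312) (nat_lit 380) (nat_lit 0) (XT.nd (nat_lit 156) (nat_lit 0) (nat_lit 0) (XT.nd (nat_lit 78) (nat_lit 228) (nat_lit 0) (XT.lf (nat_lit 0) (nat_lit 12656946752) (nat_lit 304) (nat_lit 22363165704) (nat_lit 76) (nat_lit 25279369605) (nat_lit 29) (nat_lit 5) (nat_lit 33) (nat_lit 5) (nat_lit 30) (nat_lit 5) (nat_lit 307) (nat_lit 277) (nat_lit 136)) (XT.lf (nat_lit 0) (nat_lit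 1118262306) (nat_lit 228) (nat_lit 19004186026) (nat_lit 304) (nat_lit 42277807076) (nat_lit 26) (nat_lit 5) (nat_lit 29) (nat_lit 5) (nat_lit 30) (nat_lit 5) (nat_lit 308) (nat_lit 277) (nat_lit 135))) (XT.nd (nat_lit 78) (nat_lit 0) (nat_lit 0) (XT.lf (nat_lit 0) (nat_lit 26547809884) (nat_lit 228) (nat_lit 1790406866) (nat_lit 304) (nat_lit 36249006607) (nat_lit 26) (nat_lit 5) (nat_lit 29) (nat_lit 5) (nat_lit 30) (nat_lit 5) (nat_lit 309) (nat_lit 277) (nat_lit 134)) (XT.lf (nat_lit 0) (nat_lit 37217347881) (nat_lit 304) (nat_lit 13891262212) (nat_lit 76) (nat_lit 15762306154) (nat_lit 26) (nat_lit 5) (nat_lit 30) (nat_lit 5) (nat_lit 27) (nat_lit 5) (nat_lit 310) (nat_lit 277) (nat_lit 133)))) (XT.nd (nat_lit 156) (nat_lit 228) (nat_lit 0) (XT.nd (nat_lit 78) (nat_lit 0) (nat_lit 0) (XT.lf (nat_lit 0) (nat_lit 11810756488) (nat_lit 152) (nat_lit 34941842792) (nat_lit 228) (nat_lit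 22505591324) (nat_lit 24) (nat_lit 5) (nat_lit 26) (nat_lit 5) (nat_lit 27) (nat_lit 5) (nat_lit 311) (nat_lit 277) (nat_lit 132)) (XT.lf (nat_lit 0) (nat_lit 39277977821) (nat_lit 152) (nat_lit 17720346077) (nat_lit 228) (nat_lit 14754824017) (nat_lit 24) (nat_lit 5) (nat_lit 26) (nat_lit 5) (nat_lit 27) (nat_lit 5) (nat_lit 312) (nat_lit 277) (nat_lit 131))) (XT.nd (nat_lit 78) (nat_lit 228) (nat_lit 0) (XT.lf (nat_lit 0) (nat_lit 67760509735) (nat_lit 228) (nat_lit 6262085149) (nat_lit 76) (nat_lit 350054001) (nat_lit 24) (nat_lit 5) (nat_lit 27) (nat_lit 5) (nat_lit 25) (nat_lit 5) (nat_lit 313) (nat_lit 277) (nat_lit 130)) (XT.nd (nat_lit 78) (nat_lit 0) (nat_lit 0) (XT.lf (nat_lit 0) (nat_lit 2513240743) (nat_lit 228) (nat_lit 55469845155) (nat_lit 76) (nat_lit 19106651562) (nat_lit 21) (nat_lit 5) (nat_lit 24) (nat_lit 5) (nat_lit 22) (nat_lit 5) (nat_lit 314) (nat_lit 277)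 (nat_lit 129)) (XT.lf (nat_lit 0) (nat_lit 11979067876) (nat_lit 228) (nat_lit 28936190646) (nat_lit 76) (nat_lit 39016686606) (nat_lit 21) (nat_lit 5) (nat_lit 24) (nat_lit 5) (nat_lit 22) (nat_lit 5) (nat_lit 315) (nat_lit 277) (nat_lit 128))))))) (XT.nd (nat_lit 702) (nat_lit 456) (nat_lit 0) (XT.nd (nat_lit 312) (nat_lit 152) (nat_lit 0) (XT.nd (nat_lit 156) (nat_lit 152) (nat_lit 0) (XT.nd (nat_lit 78) (nat_lit 152) (nat_lit 0) (XT.lf (nat_lit 0) (nat_lit 21916852545) (nat_lit 228) (nat_lit 1077808241) (nat_lit 76) (nat_lit 59921672821) (nat_lit 21) (nat_lit 5) (nat_lit 24) (nat_lit 5) (nat_lit 22) (nat_lit 5) (nat_lit 316) (nat_lit 277) (nat_lit 127)) (XT.lf (nat_lit 0) (nat_lit 29103112906) (nat_lit 152) (nat_lit 3701524388) (nat_lit 228) (nat_lit 53222652232) (nat_lit 19) (nat_lit 5) (nat_lit 21) (nat_lit 5) (nat_lit 22) (nat_lit 5) (nat_lit 317) (nat_lit 277) (nat_lit 126)))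 (XT.nd (nat_lit 78) (nat_lit 152) (nat_lit 0) (XT.lf (nat_lit 0) (nat_lit 44512605797) (nat_lit 228) (nat_lit 28723058152) (nat_lit 76) (nat_lit 16044342956) (nat_lit 19) (nat_lit 5) (nat_lit 22) (nat_lit 5) (nat_lit 20) (nat_lit 5) (nat_lit 318) (nat_lit 277) (nat_lit 125)) (XT.lf (nat_lit 0) (nat_lit 852936953) (nat_lit 152) (nat_lit 56025844973) (nat_lit 228) (nat_lit 35812940996) (nat_lit 17) (nat_lit 5) (nat_lit 19) (nat_lit 5) (nat_lit 20) (nat_lit 5) (nat_lit 319) (nat_lit 277) (nat_lit 124)))) (XT.nd (nat_lit 156) (nat_lit 152) (nat_lit 0) (XT.nd (nat_lit 78) (nat_lit 0) (nat_lit 0) (XT.lf (nat_lit 0) (nat_lit 32903162664) (nat_lit 152) (nat_lit 37445383789) (nat_lit 228) (nat_lit 25901217381) (nat_lit 17) (nat_lit 5) (nat_lit 19) (nat_lit 5) (nat_lit 20) (nat_lit 5) (nat_lit 320) (nat_lit 277) (nat_lit 123)) (XT.lf (nat_lit 0) (nat_lit 66554215023) (nat_lit 152) (nat_lit 17936480092)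 (nat_lit 228) (nat_lit 15495069809) (nat_lit 17) (nat_lit 5) (nat_lit 19) (nat_lit 5) (nat_lit 20) (nat_lit 5) (nat_lit 321) (nat_lit 277) (nat_lit 122))) (XT.nd (nat_lit 78) (nat_lit 152) (nat_lit 0) (XT.lf (nat_lit 0) (nat_lit 99378670433) (nat_lit 228) (nat_lit 2062176591) (nat_lit 76) (nat_lit 2465785871) (nat_lit 17) (nat_lit 5) (nat_lit 20) (nat_lit 5) (nat_lit 18) (nat_lit 4) (nat_lit 322) (nat_lit 277) (nat_lit 121)) (XT.nd (nat_lit 78) (nat_lit 0) (nat_lit 0) (XT.lf (nat_lit 0) (nat_lit 7563001143) (nat_lit 152) (nat_lit 76515051097) (nat_lit 76) (nat_lit 23900082605) (nat_lit 15) (nat_lit 5) (nat_lit 17) (nat_lit 5) (nat_lit 16) (nat_lit 5) (nat_lit 323) (nat_lit 277) (nat_lit 120)) (XT.lf (nat_lit 0) (nat_lit 20140835834) (nat_lit 152) (nat_lit 45591648668) (nat_lit 76) (nat_lit 46515293748) (nat_lit 15) (nat_lit 5) (nat_lit 17) (nat_lit 5) (nat_lit 16) (nat_lit 5) (nat_lit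 324) (nat_lit 277) (nat_lit 119)))))) (XT.nd (nat_lit 312) (nat_lit 304) (nat_lit 0) (XT.nd (nat_lit 156) (nat_lit 0) (nat_lit 0) (XT.nd (nat_lit 78) (nat_lit 152) (nat_lit 0) (XT.lf (nat_lit 0) (nat_lit 33346605736) (nat_lit 152) (nat_lit 13123583524) (nat_lit 76) (nat_lit 70260764686) (nat_lit 15) (nat_lit 5) (nat_lit 17) (nat_lit 5) (nat_lit 16) (nat_lit 5) (nat_lit 325) (nat_lit 277) (nat_lit 118)) (XT.lf (nat_lit 0) (nat_lit 21659694750) (nat_lit 152) (nat_lit 25890226944) (nat_lit 228) (nat_lit 73871506038) (nat_lit 13) (nat_lit 5) (nat_lit 15) (nat_lit 5) (nat_lit 16) (nat_lit 5) (nat_lit 326) (nat_lit 277) (nat_lit 117))) (XT.nd (nat_lit 78) (nat_lit 0) (nat_lit 0) (XT.lf (nat_lit 0) (nat_lit 58636345655) (nat_lit 152) (nat_lit 4048422385) (nat_lit 228) (nat_lit 63650591019) (nat_lit 13) (nat_lit 5) (nat_lit 15) (nat_lit 5) (nat_lit 16) (nat_lit 5) (nat_lit 327) (nat_lit 277)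 (nat_lit 116)) (XT.lf (nat_lit 0) (nat_lit 78870356798) (nat_lit 228) (nat_lit 34329394782) (nat_lit 76) (nat_lit 18280537351) (nat_lit 13) (nat_lit 5) (nat_lit 16) (nat_lit 5) (nat_lit 14) (nat_lit 4) (nat_lit 328) (nat_lit 277) (nat_lit 115)))) (XT.nd (nat_lit 156) (nat_lit 228) (nat_lit 0) (XT.nd (nat_lit 78) (nat_lit 0) (nat_lit 0) (XT.lf (nat_lit 0) (nat_lit 662216266) (nat_lit 76) (nat_lit 95278901019) (nat_lit 152) (nat_lit 40937555284) (nat_lit 12) (nat_lit 5) (nat_lit 13) (nat_lit 5) (nat_lit 14) (nat_lit 4) (nat_lit 329) (nat_lit 277) (nat_lit 114)) (XT.lf (nat_lit 0) (nat_lit 38593952178) (nat_lit 76) (nat_lit 75852052752) (nat_lit 152) (nat_lit 28071942798) (nat_lit 12) (nat_lit 5) (nat_lit 13) (nat_lit 5) (nat_lit 14) (nat_lit 4) (nat_lit 330) (nat_lit 277) (nat_lit 113))) (XT.nd (nat_lit 78) (nat_lit 228) (nat_lit 0) (XT.lf (nat_lit 0) (nat_lit 78421041784) (nat_lit 76)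 (nat_lit 55454337292) (nat_lit 152) (nat_lit 14563847177) (nat_lit 12) (nat_lit 5) (nat_lit 13) (nat_lit 5) (nat_lit 14) (nat_lit 4) (nat_lit 331) (nat_lit 277) (nat_lit 112)) (XT.nd (nat_lit 78) (nat_lit 228) (nat_lit 0) (XT.lf (nat_lit 0) (nat_lit 120238311488) (nat_lit 76) (nat_lit 34037188647) (nat_lit 152) (nat_lit 381106287) (nat_lit 12) (nat_lit 5) (nat_lit 13) (nat_lit 5) (nat_lit 14) (nat_lit 4) (nat_lit 332) (nat_lit 277) (nat_lit 111)) (XT.lf (nat_lit 0) (nat_lit 2824286993) (nat_lit 152) (nat_lit 11265444178) (nat_lit 228) (nat_lit 147081628477) (nat_lit 9) (nat_lit 5) (nat_lit 11) (nat_lit 5) (nat_lit 12) (nat_lit 5) (nat_lit 333) (nat_lit 277) (nat_lit 110))))))))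
noncomputable def xc216 : XT := (XT.nd (nat_lit 33462) (nat_lit 0) (nat_lit 2812) (XT.nd (nat_lit 624) (nat_lit 152) (nat_lit 0) (XT.nd (nat_lit 312) (nat_lit 76) (nat_lit 0) (XT.nd (nat_lit 156) (nat_lit 0) (nat_lit 0) (XT.nd (nat_lit 78) (nat_lit 0) (nat_lit 0) (XT.lf (nat_lit 0) (nat_lit 30060479742) (nat_lit 228) (nat_lit 125073161276) (nat_lit 76) (nat_lit 12838439697) (nat_lit 9) (nat_lit 5) (nat_lit 12) (nat_lit 5) (nat_lit 10) (nat_lit 4) (nat_lit 334) (nat_lit 277) (nat_lit 109)) (XT.lf (nat_lit 0) (nat_lit 47013786789) (nat_lit 228) (nat_lit 90321332225) (nat_lit 76) (nat_lit 37768519112) (nat_lit 9) (nat_lit 5) (nat_lit 12) (nat_lit 5) (nat_lit 10) (nat_lit 4) (nat_lit 335) (nat_lit 277) (nat_lit 108))) (XT.nd (nat_lit 78) (nat_lit 0) (nat_lit 0) (XT.lf (nat_lit 0) (nat_lit 64814132172) (nat_lit 228) (nat_lit 53832957897) (nat_lit 76) (nat_lit 63944715964) (nat_lit 9) (nat_lit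 5) (nat_lit 12) (nat_lit 5) (nat_lit 10) (nat_lit 4) (nat_lit 336) (nat_lit 277) (nat_lit 107)) (XT.lf (nat_lit 0) (nat_lit 83503897667) (nat_lit 228) (nat_lit 15521161211) (nat_lit 76) (nat_lit 91429354533) (nat_lit 9) (nat_lit 5) (nat_lit 12) (nat_lit 5) (nat_lit 10) (nat_lit 4) (nat_lit 337) (nat_lit 277) (nat_lit 106)))) (XT.nd (nat_lit 156) (nat_lit 0) (nat_lit 0) (XT.nd (nat_lit 78) (nat_lit 0) (nat_lit 0) (XT.lf (nat_lit 0) (nat_lit 25522144407) (nat_lit 76) (nat_lit 78003910509) (nat_lit 152) (nat_lit 95164202227) (nat_lit 8) (nat_lit 5) (nat_lit 9) (nat_lit 5) (nat_lit 10) (nat_lit 4) (nat_lit 338) (nat_lit 277) (nat_lit 105)) (XT.lf (nat_lit 0) (nat_lit 69155541368) (nat_lit 76) (nat_lit 55656080819) (nat_lit 152) (nat_lit 82513156870) (nat_lit 8) (nat_lit 5) (nat_lit 9) (nat_lit 5) (nat_lit 10) (nat_lit 4) (nat_lit 339) (nat_lit 277) (nat_lit 104))) (XT.nd (nat_lit 78) (nat_lit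 0) (nat_lit 0) (XT.lf (nat_lit 0) (nat_lit 114969719028) (nat_lit 76) (nat_lit 32191219065) (nat_lit 152) (nat_lit 69230116511) (nat_lit 8) (nat_lit 5) (nat_lit 9) (nat_lit 5) (nat_lit 10) (nat_lit 4) (nat_lit 340) (nat_lit 277) (nat_lit 103)) (XT.lf (nat_lit 0) (nat_lit 163073758761) (nat_lit 76) (nat_lit 7553456529) (nat_lit 152) (nat_lit 55283454864) (nat_lit 8) (nat_lit 5) (nat_lit 9) (nat_lit 5) (nat_lit 10) (nat_lit 4) (nat_lit 341) (nat_lit 277) (nat_lit 102))))) (XT.nd (nat_lit 312) (nat_lit 0) (nat_lit 0) (XT.nd (nat_lit 156) (nat_lit 76) (nat_lit 0) (XT.nd (nat_lit 78) (nat_lit 76) (nat_lit 0) (XT.lf (nat_lit 0) (nat_lit 195552287900) (nat_lit 152) (nat_lit 22610059495) (nat_lit 0) (nat_lit 17729645963) (nat_lit 8) (nat_lit 5) (nat_lit 10) (nat_lit 4) (nat_lit 8) (nat_lit 4) (nat_lit 342) (nat_lit 277) (nat_lit 101)) (XT.lf (nat_lit 0) (nat_lit 20148395298) (nat_lit 76) (nat_lit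 202013156467) (nat_lit 76) (nat_lit 24188934984) (nat_lit 7) (nat_lit 4) (nat_lit 8) (nat_lit 5) (nat_lit 8) (nat_lit 4) (nat_lit 343) (nat_lit 277) (nat_lit 100))) (XT.nd (nat_lit 78) (nat_lit 76) (nat_lit 0) (XT.lf (nat_lit 0) (nat_lit 65828968715) (nat_lit 76) (nat_lit 184654769891) (nat_lit 76) (nat_lit 6829044079) (nat_lit 7) (nat_lit 4) (nat_lit 8) (nat_lit 5) (nat_lit 8) (nat_lit 4) (nat_lit 344) (nat_lit 277) (nat_lit 99)) (XT.lf (nat_lit 0) (nat_lit 11033568431) (nat_lit 152) (nat_lit 155208343222) (nat_lit 76) (nat_lit 102572406097) (nat_lit 6) (nat_lit 5) (nat_lit 8) (nat_lit 5) (nat_lit 7) (nat_lit 4) (nat_lit 345) (nat_lit 277) (nat_lit 98)))) (XT.nd (nat_lit 32292) (nat_lit 0) (nat_lit 4104) (XT.nd (nat_lit 32214) (nat_lit 0) (nat_lit 4104) (XT.lf (nat_lit 0) (nat_lit 29559392972) (nat_lit 152) (nat_lit 117231767382) (nat_lit 76) (nat_lit 134094193280) (nat_lit 6) (nat_lit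 5) (nat_lit 8) (nat_lit 5) (nat_lit 7) (nat_lit 4) (nat_lit 346) (nat_lit 277) (nat_lit 97)) (XT.lf (nat_lit 0) (nat_lit 742449209) (nat_lit 0) (nat_lit 742449209) (nat_lit 684) (nat_lit 11697120502) (nat_lit 60) (nat_lit 5) (nat_lit 60) (nat_lit 3) (nat_lit 69) (nat_lit 3) (nat_lit 278) (nat_lit 278) (nat_lit 164))) (XT.nd (nat_lit 78) (nat_lit 0) (nat_lit 0) (XT.lf (nat_lit 0) (nat_lit 3279931092) (nat_lit 684) (nat_lit 14369231729) (nat_lit 760) (nat_lit 9361808732) (nat_lit 60) (nat_lit 5) (nat_lit 69) (nat_lit 3) (nat_lit 70) (nat_lit 5) (nat_lit 279) (nat_lit 278) (nat_lit 163)) (XT.nd (nat_lit 78) (nat_lit 0) (nat_lit 76) (XT.lf (nat_lit 0) (nat_lit 3624522900) (nat_lit 684) (nat_lit 3361226325) (nat_lit 760) (nat_lit 20703579041) (nat_lit 60) (nat_lit 5) (nat_lit 69) (nat_lit 3) (nat_lit 70) (nat_lit 5) (nat_lit 280) (nat_lit 278) (nat_lit 162)) (XT.lf (nat_lit 0) (nat_lit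 4181319268) (nat_lit 684) (nat_lit 19998009028) (nat_lit 760) (nat_lit 4212548498) (nat_lit 61) (nat_lit 5) (nat_lit 70) (nat_lit 5) (nat_lit 71) (nat_lit 5) (nat_lit 281) (nat_lit 278) (nat_lit 161))))))) (XT.nd (nat_lit 624) (nat_lit 1368) (nat_lit 0) (XT.nd (nat_lit 312) (nat_lit 0) (nat_lit 152) (XT.nd (nat_lit 156) (nat_lit 0) (nat_lit 76) (XT.nd (nat_lit 78) (nat_lit 0) (nat_lit 0) (XT.lf (nat_lit 0) (nat_lit 4933430291) (nat_lit 684) (nat_lit 8391912887) (nat_lit 760) (nat_lit 15795857471) (nat_lit 61) (nat_lit 5) (nat_lit 70) (nat_lit 5) (nat_lit 71) (nat_lit 5) (nat_lit 282) (nat_lit 278) (nat_lit 160)) (XT.lf (nat_lit 76) (nat_lit 3916838565) (nat_lit 0) (nat_lit 1862791778) (nat_lit 760) (nat_lit 24104556793) (nat_lit 62) (nat_lit 5) (nat_lit 61) (nat_lit 5) (nat_lit 71) (nat_lit 5) (nat_lit 283) (nat_lit 278) (nat_lit 159))) (XT.nd (nat_lit 78) (nat_lit 0) (nat_lit 0) (XT.lf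 (nat_lit 0) (nat_lit 6966949231) (nat_lit 684) (nat_lit 13710230535) (nat_lit 760) (nat_lit 9993222371) (nat_lit 62) (nat_lit 5) (nat_lit 71) (nat_lit 5) (nat_lit 72) (nat_lit 5) (nat_lit 284) (nat_lit 278) (nat_lit 158)) (XT.lf (nat_lit 0) (nat_lit 8239915057) (nat_lit 684) (nat_lit 873872610) (nat_lit 760) (nat_lit 22380844867) (nat_lit 62) (nat_lit 5) (nat_lit 71) (nat_lit 5) (nat_lit 72) (nat_lit 5) (nat_lit 285) (nat_lit 278) (nat_lit 157)))) (XT.nd (nat_lit 156) (nat_lit 0) (nat_lit 0) (XT.nd (nat_lit 78) (nat_lit 0) (nat_lit 0) (XT.lf (nat_lit 0) (nat_lit 9826344707) (nat_lit 684) (nat_lit 19382724440) (nat_lit 760) (nat_lit 3138532334) (nat_lit 63) (nat_lit 5) (nat_lit 72) (nat_lit 5) (nat_lit 73) (nat_lit 5) (nat_lit 286) (nat_lit 278) (nat_lit 156)) (XT.lf (nat_lit 0) (nat_lit 11652654334) (nat_lit 684) (nat_lit 5869337573) (nat_lit 760) (nat_lit 15713216003) (nat_lit 63)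 (nat_lit 5) (nat_lit 72) (nat_lit 5) (nat_lit 73) (nat_lit 5) (nat_lit 287) (nat_lit 278) (nat_lit 155))) (XT.nd (nat_lit 78) (nat_lit 0) (nat_lit 76) (XT.lf (nat_lit 76) (nat_lit 8591743553) (nat_lit 0) (nat_lit 5108972388) (nat_lit 760) (nat_lit 20459973044) (nat_lit 64) (nat_lit 5) (nat_lit 63) (nat_lit 5) (nat_lit 73) (nat_lit 5) (nat_lit 288) (nat_lit 278) (nat_lit 154)) (XT.lf (nat_lit 0) (nat_lit 16072373396) (nat_lit 684) (nat_lit 11276302533) (nat_lit 76) (nat_lit 7772723928) (nat_lit 64) (nat_lit 5) (nat_lit 73) (nat_lit 5) (nat_lit 65) (nat_lit 5) (nat_lit 289) (nat_lit 278) (nat_lit 153))))) (XT.nd (nat_lit 312) (nat_lit 608) (nat_lit 0) (XT.nd (nat_lit 156) (nat_lit 304) (nat_lit 0) (XT.nd (nat_lit 78) (nat_lit 0) (nat_lit 0) (XT.lf (nat_lit 0) (nat_lit 3764741679) (nat_lit 684) (nat_lit 14937009990) (nat_lit 760) (nat_lit 17421452355) (nat_lit 55) (nat_lit 5) (nat_lit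 64) (nat_lit 5) (nat_lit 65) (nat_lit 5) (nat_lit 290) (nat_lit 278) (nat_lit 152)) (XT.lf (nat_lit 0) (nat_lit 19946401377) (nat_lit 684) (nat_lit 1703889205) (nat_lit 760) (nat_lit 15515437184) (nat_lit 55) (nat_lit 5) (nat_lit 64) (nat_lit 5) (nat_lit 65) (nat_lit 5) (nat_lit 291) (nat_lit 278) (nat_lit 151))) (XT.nd (nat_lit 78) (nat_lit 304) (nat_lit 0) (XT.lf (nat_lit 0) (nat_lit 24933473794) (nat_lit 760) (nat_lit 1516527415) (nat_lit 76) (nat_lit 11801028905) (nat_lit 55) (nat_lit 5) (nat_lit 65) (nat_lit 5) (nat_lit 56) (nat_lit 5) (nat_lit 292) (nat_lit 278) (nat_lit 150)) (XT.lf (nat_lit 0) (nat_lit 15434665676) (nat_lit 304) (nat_lit 13212093326) (nat_lit 380) (nat_lit 10730554089) (nat_lit 51) (nat_lit 5) (nat_lit 55) (nat_lit 5) (nat_lit 56) (nat_lit 5) (nat_lit 293) (nat_lit 278) (nat_lit 149)))) (XT.nd (nat_lit 156) (nat_lit 304) (nat_lit 0) (XT.nd (nat_lit 78) (nat_lit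 304) (nat_lit 0) (XT.lf (nat_lit 0) (nat_lit 32579681102) (nat_lit 380) (nat_lit 7286645861) (nat_lit 76) (nat_lit 691896676) (nat_lit 51) (nat_lit 5) (nat_lit 56) (nat_lit 5) (nat_lit 52) (nat_lit 5) (nat_lit 294) (nat_lit 278) (nat_lit 148)) (XT.lf (nat_lit 0) (nat_lit 10312848673) (nat_lit 304) (nat_lit 26771272786) (nat_lit 380) (nat_lit 4695326126) (nat_lit 47) (nat_lit 5) (nat_lit 51) (nat_lit 5) (nat_lit 52) (nat_lit 5) (nat_lit 295) (nat_lit 278) (nat_lit 147))) (XT.nd (nat_lit 78) (nat_lit 304) (nat_lit 0) (XT.lf (nat_lit 0) (nat_lit 29042547874) (nat_lit 304) (nat_lit 12891994047) (nat_lit 380) (nat_lit 1121163833) (nat_lit 47) (nat_lit 5) (nat_lit 51) (nat_lit 5) (nat_lit 52) (nat_lit 5) (nat_lit 296) (nat_lit 278) (nat_lit 146)) (XT.nd (nat_lit 78) (nat_lit 0) (nat_lit 0) (XT.lf (nat_lit 0) (nat_lit 2641811888) (nat_lit 304) (nat_lit 40008152780) (nat_lit 76) (nat_lit 1739050846)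 (nat_lit 43) (nat_lit 5) (nat_lit 47) (nat_lit 5) (nat_lit 44) (nat_lit 5) (nat_lit 297) (nat_lit 278) (nat_lit 145)) (XT.lf (nat_lit 0) (nat_lit 7005319983) (nat_lit 304) (nat_lit 21832447118) (nat_lit 76) (nat_lit 16927811014) (nat_lit 43) (nat_lit 5) (nat_lit 47) (nat_lit 5) (nat_lit 44) (nat_lit 5) (nat_lit 298) (nat_lit 278) (nat_lit 144))))))))
noncomputable def xc217 : XT := (XT.nd (nat_lit 1326) (nat_lit 684) (nat_lit 0) (XT.nd (nat_lit 624) (nat_lit 912) (nat_lit 0) (XT.nd (nat_lit 312) (nat_lit 228) (nat_lit 0) (XT.nd (nat_lit 156) (nat_lit 228) (nat_lit 0) (XT.nd (nat_lit 78) (nat_lit 304) (nat_lit 0) (XT.lf (nat_lit 0) (nat_lit 11584629945) (nat_lit 304) (nat_lit 2750620488) (nat_lit 76) (nat_lit 32875846084) (nat_lit 43) (nat_lit 5) (nat_lit 47) (nat_lit 5) (nat_lit 44) (nat_lit 5) (nat_lit 299) (nat_lit 278) (nat_lit 143)) (XT.lf (nat_lit 0) (nat_lit 16687897244) (nat_lit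 380) (nat_lit 30879366753) (nat_lit 76) (nat_lit 1146885815) (nat_lit 39) (nat_lit 5) (nat_lit 44) (nat_lit 5) (nat_lit 40) (nat_lit 5) (nat_lit 300) (nat_lit 278) (nat_lit 142))) (XT.nd (nat_lit 78) (nat_lit 228) (nat_lit 0) (XT.lf (nat_lit 0) (nat_lit 22326482156) (nat_lit 380) (nat_lit 10983451771) (nat_lit 76) (nat_lit 16968422289) (nat_lit 39) (nat_lit 5) (nat_lit 44) (nat_lit 5) (nat_lit 40) (nat_lit 5) (nat_lit 301) (nat_lit 278) (nat_lit 141)) (XT.lf (nat_lit 0) (nat_lit 10232270260) (nat_lit 228) (nat_lit 18172388465) (nat_lit 304) (nat_lit 23508238864) (nat_lit 36) (nat_lit 5) (nat_lit 39) (nat_lit 5) (nat_lit 40) (nat_lit 5) (nat_lit 302) (nat_lit 278) (nat_lit 140)))) (XT.nd (nat_lit 156) (nat_lit 0) (nat_lit 0) (XT.nd (nat_lit 78) (nat_lit 228) (nat_lit 0) (XT.lf (nat_lit 0) (nat_lit 32887653876) (nat_lit 228) (nat_lit 2083069757) (nat_lit 304) (nat_lit 18649250821) (nat_lit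 36) (nat_lit 5) (nat_lit 39) (nat_lit 5) (nat_lit 40) (nat_lit 5) (nat_lit 303) (nat_lit 278) (nat_lit 139)) (XT.lf (nat_lit 0) (nat_lit 1063786245) (nat_lit 228) (nat_lit 41047210961) (nat_lit 304) (nat_lit 13289119732) (nat_lit 33) (nat_lit 5) (nat_lit 36) (nat_lit 5) (nat_lit 37) (nat_lit 5) (nat_lit 304) (nat_lit 278) (nat_lit 138))) (XT.nd (nat_lit 78) (nat_lit 0) (nat_lit 0) (XT.lf (nat_lit 0) (nat_lit 24631812804) (nat_lit 228) (nat_lit 25359296514) (nat_lit 304) (nat_lit 7259022696) (nat_lit 33) (nat_lit 5) (nat_lit 36) (nat_lit 5) (nat_lit 37) (nat_lit 5) (nat_lit 305) (nat_lit 278) (nat_lit 137)) (XT.lf (nat_lit 0) (nat_lit 49375967198) (nat_lit 228) (nat_lit 8887464676) (nat_lit 304) (nat_lit 929312120) (nat_lit 33) (nat_lit 5) (nat_lit 36) (nat_lit 5) (nat_lit 37) (nat_lit 5) (nat_lit 306) (nat_lit 278) (nat_lit 136))))) (XT.nd (nat_lit 312) (nat_lit 380) (nat_lit 0) (XT.nd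 (nat_lit 156) (nat_lit 228) (nat_lit 0) (XT.nd (nat_lit 78) (nat_lit 0) (nat_lit 0) (XT.lf (nat_lit 0) (nat_lit 5894946887) (nat_lit 304) (nat_lit 46855873856) (nat_lit 76) (nat_lit 8459156852) (nat_lit 29) (nat_lit 5) (nat_lit 33) (nat_lit 5) (nat_lit 30) (nat_lit 5) (nat_lit 307) (nat_lit 278) (nat_lit 135)) (XT.lf (nat_lit 0) (nat_lit 13342158734) (nat_lit 304) (nat_lit 23411347086) (nat_lit 76) (nat_lit 26558162303) (nat_lit 29) (nat_lit 5) (nat_lit 33) (nat_lit 5) (nat_lit 30) (nat_lit 5) (nat_lit 308) (nat_lit 278) (nat_lit 134))) (XT.nd (nat_lit 78) (nat_lit 0) (nat_lit 0) (XT.lf (nat_lit 0) (nat_lit 1243023664) (nat_lit 228) (nat_lit 19936493089) (nat_lit 304) (nat_lit 44338042404) (nat_lit 26) (nat_lit 5) (nat_lit 29) (nat_lit 5) (nat_lit 30) (nat_lit 5) (nat_lit 309) (nat_lit 278) (nat_lit 133)) (XT.lf (nat_lit 0) (nat_lit 27940770133) (nat_lit 228) (nat_lit 1862877458) (nat_lit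 304) (nat_lit 38010356913) (nat_lit 26) (nat_lit 5) (nat_lit 29) (nat_lit 5) (nat_lit 30) (nat_lit 5) (nat_lit 310) (nat_lit 278) (nat_lit 132)))) (XT.nd (nat_lit 156) (nat_lit 228) (nat_lit 0) (XT.nd (nat_lit 78) (nat_lit 152) (nat_lit 0) (XT.lf (nat_lit 0) (nat_lit 39124678321) (nat_lit 304) (nat_lit 14521174293) (nat_lit 76) (nat_lit 16566139607) (nat_lit 26) (nat_lit 5) (nat_lit 30) (nat_lit 5) (nat_lit 27) (nat_lit 5) (nat_lit 311) (nat_lit 278) (nat_lit 131)) (XT.lf (nat_lit 0) (nat_lit 12464902584) (nat_lit 152) (nat_lit 36670570283) (nat_lit 228) (nat_lit 23583225384) (nat_lit 24) (nat_lit 5) (nat_lit 26) (nat_lit 5) (nat_lit 27) (nat_lit 5) (nat_lit 312) (nat_lit 278) (nat_lit 130))) (XT.nd (nat_lit 78) (nat_lit 228) (nat_lit 0) (XT.lf (nat_lit 0) (nat_lit 41302456019) (nat_lit 152) (nat_lit 18588873239) (nat_lit 228) (nat_lit 15447188545) (nat_lit 24) (nat_lit 5) (nat_lit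 26) (nat_lit 5) (nat_lit 27) (nat_lit 5) (nat_lit 313) (nat_lit 278) (nat_lit 129)) (XT.nd (nat_lit 78) (nat_lit 228) (nat_lit 0) (XT.lf (nat_lit 0) (nat_lit 71189832588) (nat_lit 228) (nat_lit 6515576317) (nat_lit 76) (nat_lit 383680842) (nat_lit 24) (nat_lit 5) (nat_lit 27) (nat_lit 5) (nat_lit 25) (nat_lit 5) (nat_lit 314) (nat_lit 278) (nat_lit 128)) (XT.lf (nat_lit 0) (nat_lit 2679925917) (nat_lit 228) (nat_lit 58183214482) (nat_lit 76) (nat_lit 20078917844) (nat_lit 21) (nat_lit 5) (nat_lit 24) (nat_lit 5) (nat_lit 22) (nat_lit 5) (nat_lit 315) (nat_lit 278) (nat_lit 127))))))) (XT.nd (nat_lit 702) (nat_lit 228) (nat_lit 0) (XT.nd (nat_lit 312) (nat_lit 304) (nat_lit 0) (XT.nd (nat_lit 156) (nat_lit 152) (nat_lit 0) (XT.nd (nat_lit 78) (nat_lit 0) (nat_lit 0) (XT.lf (nat_lit 0) (nat_lit 12617090924) (nat_lit 228) (nat_lit 30325740244) (nat_lit 76) (nat_lit 40983648273) (nat_lit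 21) (nat_lit 5) (nat_lit 24) (nat_lit 5) (nat_lit 22) (nat_lit 5) (nat_lit 316) (nat_lit 278) (nat_lit 126)) (XT.lf (nat_lit 0) (nat_lit 23049904367) (nat_lit 228) (nat_lit 1077165383) (nat_lit 76) (nat_lit 62933115831) (nat_lit 21) (nat_lit 5) (nat_lit 24) (nat_lit 5) (nat_lit 22) (nat_lit 5) (nat_lit 317) (nat_lit 278) (nat_lit 125))) (XT.nd (nat_lit 78) (nat_lit 0) (nat_lit 0) (XT.lf (nat_lit 0) (nat_lit 30611922253) (nat_lit 152) (nat_lit 3869221919) (nat_lit 228) (nat_lit 55845596797) (nat_lit 19) (nat_lit 5) (nat_lit 21) (nat_lit 5) (nat_lit 22) (nat_lit 5) (nat_lit 318) (nat_lit 278) (nat_lit 124)) (XT.lf (nat_lit 0) (nat_lit 46773042128) (nat_lit 228) (nat_lit 30106548768) (nat_lit 76) (nat_lit 16862581496) (nat_lit 19) (nat_lit 5) (nat_lit 22) (nat_lit 5) (nat_lit 20) (nat_lit 5) (nat_lit 319) (nat_lit 278) (nat_lit 123)))) (XT.nd (nat_lit 156) (nat_lit 152) (nat_lit 0) (XT.nd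 (nat_lit 78) (nat_lit 0) (nat_lit 0) (XT.lf (nat_lit 0) (nat_lit 947396700) (nat_lit 152) (nat_lit 58809281877) (nat_lit 228) (nat_lit 37567842560) (nat_lit 17) (nat_lit 5) (nat_lit 19) (nat_lit 5) (nat_lit 20) (nat_lit 5) (nat_lit 320) (nat_lit 278) (nat_lit 122)) (XT.lf (nat_lit 0) (nat_lit 34597666416) (nat_lit 152) (nat_lit 39300647888) (nat_lit 228) (nat_lit 27162234930) (nat_lit 17) (nat_lit 5) (nat_lit 19) (nat_lit 5) (nat_lit 20) (nat_lit 5) (nat_lit 321) (nat_lit 278) (nat_lit 121))) (XT.nd (nat_lit 78) (nat_lit 152) (nat_lit 0) (XT.lf (nat_lit 0) (nat_lit 69928921601) (nat_lit 152) (nat_lit 18817108773) (nat_lit 228) (nat_lit 16237401091) (nat_lit 17) (nat_lit 5) (nat_lit 19) (nat_lit 5) (nat_lit 20) (nat_lit 5) (nat_lit 322) (nat_lit 278) (nat_lit 120)) (XT.nd (nat_lit 78) (nat_lit 152) (nat_lit 0) (XT.lf (nat_lit 0) (nat_lit 104377178581) (nat_lit 228) (nat_lit 2119223822)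 (nat_lit 76) (nat_lit 2604005614) (nat_lit 17) (nat_lit 5) (nat_lit 20) (nat_lit 5) (nat_lit 18) (nat_lit 4) (nat_lit 323) (nat_lit 278) (nat_lit 119)) (XT.lf (nat_lit 0) (nat_lit 7970570121) (nat_lit 152) (nat_lit 80294441701) (nat_lit 76) (nat_lit 25110488261) (nat_lit 15) (nat_lit 5) (nat_lit 17) (nat_lit 5) (nat_lit 16) (nat_lit 5) (nat_lit 324) (nat_lit 278) (nat_lit 118)))))) (XT.nd (nat_lit 312) (nat_lit 76) (nat_lit 0) (XT.nd (nat_lit 156) (nat_lit 152) (nat_lit 0) (XT.nd (nat_lit 78) (nat_lit 0) (nat_lit 0) (XT.lf (nat_lit 0) (nat_lit 21175895645) (nat_lit 152) (nat_lit 47827076862) (nat_lit 76) (nat_lit 48855726556) (nat_lit 15) (nat_lit 5) (nat_lit 17) (nat_lit 5) (nat_lit 16) (nat_lit 5) (nat_lit 325) (nat_lit 278) (nat_lit 117)) (XT.lf (nat_lit 0) (nat_lit 35040619850) (nat_lit 152) (nat_lit 13737711044) (nat_lit 76) (nat_lit 73787772558) (nat_lit 15) (nat_lit 5) (nat_lit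 17) (nat_lit 5) (nat_lit 16) (nat_lit 5) (nat_lit 326) (nat_lit 278) (nat_lit 116))) (XT.nd (nat_lit 78) (nat_lit 0) (nat_lit 0) (XT.lf (nat_lit 0) (nat_lit 22784052891) (nat_lit 152) (nat_lit 27169424011) (nat_lit 228) (nat_lit 77537658309) (nat_lit 13) (nat_lit 5) (nat_lit 15) (nat_lit 5) (nat_lit 16) (nat_lit 5) (nat_lit 327) (nat_lit 278) (nat_lit 115)) (XT.lf (nat_lit 0) (nat_lit 61607566179) (nat_lit 152) (nat_lit 4236258476) (nat_lit 228) (nat_lit 66807003397) (nat_lit 13) (nat_lit 5) (nat_lit 15) (nat_lit 5) (nat_lit 16) (nat_lit 5) (nat_lit 328) (nat_lit 278) (nat_lit 114)))) (XT.nd (nat_lit 156) (nat_lit 0) (nat_lit 0) (XT.nd (nat_lit 78) (nat_lit 76) (nat_lit 0) (XT.lf (nat_lit 0) (nat_lit 82837727901) (nat_lit 228) (nat_lit 36007317389) (nat_lit 76) (nat_lit 19208010139) (nat_lit 13) (nat_lit 5) (nat_lit 16) (nat_lit 5) (nat_lit 14) (nat_lit 4) (nat_lit 329) (nat_lit 278)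 (nat_lit 113)) (XT.lf (nat_lit 0) (nat_lit 733252482) (nat_lit 76) (nat_lit 100028230182) (nat_lit 152) (nat_lit 42959905405) (nat_lit 12) (nat_lit 5) (nat_lit 13) (nat_lit 5) (nat_lit 14) (nat_lit 4) (nat_lit 330) (nat_lit 278) (nat_lit 112))) (XT.nd (nat_lit 78) (nat_lit 0) (nat_lit 0) (XT.lf (nat_lit 0) (nat_lit 40559769219) (nat_lit 76) (nat_lit 79630735497) (nat_lit 152) (nat_lit 29452180278) (nat_lit 12) (nat_lit 5) (nat_lit 13) (nat_lit 5) (nat_lit 14) (nat_lit 4) (nat_lit 331) (nat_lit 278) (nat_lit 111)) (XT.nd (nat_lit 78) (nat_lit 0) (nat_lit 0) (XT.lf (nat_lit 0) (nat_lit 82376493332) (nat_lit 76) (nat_lit 58213797115) (nat_lit 152) (nat_lit 15269792240) (nat_lit 12) (nat_lit 5) (nat_lit 13) (nat_lit 5) (nat_lit 14) (nat_lit 4) (nat_lit 332) (nat_lit 278) (nat_lit 110)) (XT.lf (nat_lit 0) (nat_lit 126282988452) (nat_lit 76) (nat_lit 35726422326) (nat_lit 152) (nat_lit 378973701)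 (nat_lit 12) (nat_lit 5) (nat_lit 13) (nat_lit 5) (nat_lit 14) (nat_lit 4) (nat_lit 333) (nat_lit 278) (nat_lit 109))))))))
noncomputable def xc218 : XT := (XT.nd (nat_lit 33540) (nat_lit 0) (nat_lit 2812) (XT.nd (nat_lit 624) (nat_lit 152) (nat_lit 0) (XT.nd (nat_lit 312) (nat_lit 76) (nat_lit 0) (XT.nd (nat_lit 156) (nat_lit 0) (nat_lit 0) (XT.nd (nat_lit 78) (nat_lit 0) (nat_lit 0) (XT.lf (nat_lit 0) (nat_lit 2998444149) (nat_lit 152) (nat_lit 11815821011) (nat_lit 228) (nat_lit 154414618845) (nat_lit 9) (nat_lit 5) (nat_lit 11) (nat_lit 5) (nat_lit 12) (nat_lit 5) (nat_lit 334) (nat_lit 278) (nat_lit 108)) (XT.lf (nat_lit 0) (nat_lit 31582788266) (nat_lit 228) (nat_lit 131294643055) (nat_lit 76) (nat_lit 13492249913) (nat_lit 9) (nat_lit 5) (nat_lit 12) (nat_lit 5) (nat_lit 10) (nat_lit 4) (nat_lit 335) (nat_lit 278) (nat_lit 107))) (XT.nd (nat_lit 78) (nat_lit 0) (nat_lit 0) (XT.lf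 (nat_lit 0) (nat_lit 49382842353) (nat_lit 228) (nat_lit 94806754756) (nat_lit 76) (nat_lit 39668267192) (nat_lit 9) (nat_lit 5) (nat_lit 12) (nat_lit 5) (nat_lit 10) (nat_lit 4) (nat_lit 336) (nat_lit 278) (nat_lit 106)) (XT.lf (nat_lit 0) (nat_lit 68072330423) (nat_lit 228) (nat_lit 56495420954) (nat_lit 76) (nat_lit 67152734739) (nat_lit 9) (nat_lit 5) (nat_lit 12) (nat_lit 5) (nat_lit 10) (nat_lit 4) (nat_lit 337) (nat_lit 278) (nat_lit 105)))) (XT.nd (nat_lit 156) (nat_lit 0) (nat_lit 0) (XT.nd (nat_lit 78) (nat_lit 76) (nat_lit 0) (XT.lf (nat_lit 0) (nat_lit 87695751258) (nat_lit 228) (nat_lit 16269424187) (nat_lit 76) (nat_lit 96011091762) (nat_lit 9) (nat_lit 5) (nat_lit 12) (nat_lit 5) (nat_lit 10) (nat_lit 4) (nat_lit 338) (nat_lit 278) (nat_lit 104)) (XT.lf (nat_lit 0) (nat_lit 26825598403) (nat_lit 76) (nat_lit 81893051654) (nat_lit 152) (nat_lit 99905273000) (nat_lit 8)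 (nat_lit 5) (nat_lit 9) (nat_lit 5) (nat_lit 10) (nat_lit 4) (nat_lit 339) (nat_lit 278) (nat_lit 103))) (XT.nd (nat_lit 78) (nat_lit 0) (nat_lit 0) (XT.lf (nat_lit 0) (nat_lit 72639362985) (nat_lit 76) (nat_lit 58428356878) (nat_lit 152) (nat_lit 86622491534) (nat_lit 8) (nat_lit 5) (nat_lit 9) (nat_lit 5) (nat_lit 10) (nat_lit 4) (nat_lit 340) (nat_lit 278) (nat_lit 102)) (XT.lf (nat_lit 0) (nat_lit 120743009312) (nat_lit 76) (nat_lit 33790753369) (nat_lit 152) (nat_lit 72676076451) (nat_lit 8) (nat_lit 5) (nat_lit 9) (nat_lit 5) (nat_lit 10) (nat_lit 4) (nat_lit 341) (nat_lit 278) (nat_lit 101))))) (XT.nd (nat_lit 312) (nat_lit 76) (nat_lit 0) (XT.nd (nat_lit 156) (nat_lit 76) (nat_lit 0) (XT.nd (nat_lit 78) (nat_lit 0) (nat_lit 0) (XT.lf (nat_lit 0) (nat_lit 171251069873) (nat_lit 76) (nat_lit 7921580166) (nat_lit 152) (nat_lit 58032822002) (nat_lit 8) (nat_lit 5) (nat_lit 9) (nat_lit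 5) (nat_lit 10) (nat_lit 4) (nat_lit 342) (nat_lit 278) (nat_lit 100)) (XT.lf (nat_lit 0) (nat_lit 205343448079) (nat_lit 152) (nat_lit 23717509417) (nat_lit 0) (nat_lit 18624931648) (nat_lit 8) (nat_lit 5) (nat_lit 10) (nat_lit 4) (nat_lit 8) (nat_lit 4) (nat_lit 343) (nat_lit 278) (nat_lit 99))) (XT.nd (nat_lit 78) (nat_lit 0) (nat_lit 0) (XT.lf (nat_lit 0) (nat_lit 21178496292) (nat_lit 76) (nat_lit 212104387925) (nat_lit 76) (nat_lit 25384438799) (nat_lit 7) (nat_lit 4) (nat_lit 8) (nat_lit 5) (nat_lit 8) (nat_lit 4) (nat_lit 344) (nat_lit 278) (nat_lit 98)) (XT.lf (nat_lit 0) (nat_lit 69142018322) (nat_lit 76) (nat_lit 193878530894) (nat_lit 76) (nat_lit 7157217298) (nat_lit 7) (nat_lit 4) (nat_lit 8) (nat_lit 5) (nat_lit 8) (nat_lit 4) (nat_lit 345) (nat_lit 278) (nat_lit 97)))) (XT.nd (nat_lit 32370) (nat_lit 0) (nat_lit 4104) (XT.nd (nat_lit 32292) (nat_lit 0) (nat_lit 4104)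 (XT.lf (nat_lit 0) (nat_lit 11597488733) (nat_lit 152) (nat_lit 162947761189) (nat_lit 76) (nat_lit 107709149743) (nat_lit 6) (nat_lit 5) (nat_lit 8) (nat_lit 5) (nat_lit 7) (nat_lit 4) (nat_lit 346) (nat_lit 278) (nat_lit 96)) (XT.lf (nat_lit 0) (nat_lit 821355174) (nat_lit 0) (nat_lit 821355174) (nat_lit 684) (nat_lit 12193864218) (nat_lit 60) (nat_lit 5) (nat_lit 60) (nat_lit 3) (nat_lit 69) (nat_lit 3) (nat_lit 279) (nat_lit 279) (nat_lit 162))) (XT.nd (nat_lit 78) (nat_lit 0) (nat_lit 0) (XT.lf (nat_lit 0) (nat_lit 3601860314) (nat_lit 684) (nat_lit 14998205386) (nat_lit 760) (nat_lit 9752858843) (nat_lit 60) (nat_lit 5) (nat_lit 69) (nat_lit 3) (nat_lit 70) (nat_lit 5) (nat_lit 280) (nat_lit 279) (nat_lit 161)) (XT.nd (nat_lit 78) (nat_lit 0) (nat_lit 76) (XT.lf (nat_lit 0) (nat_lit 3956161110) (nat_lit 684) (nat_lit 3444061042) (nat_lit 760) (nat_lit 21665386255) (nat_lit 60)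 (nat_lit 5) (nat_lit 69) (nat_lit 3) (nat_lit 70) (nat_lit 5) (nat_lit 281) (nat_lit 279) (nat_lit 160)) (XT.lf (nat_lit 0) (nat_lit 4533996178) (nat_lit 684) (nat_lit 20905247791) (nat_lit 760) (nat_lit 4364412146) (nat_lit 61) (nat_lit 5) (nat_lit 70) (nat_lit 5) (nat_lit 71) (nat_lit 5) (nat_lit 282) (nat_lit 279) (nat_lit 159))))))) (XT.nd (nat_lit 624) (nat_lit 1368) (nat_lit 0) (XT.nd (nat_lit 312) (nat_lit 0) (nat_lit 152) (XT.nd (nat_lit 156) (nat_lit 0) (nat_lit 76) (XT.nd (nat_lit 78) (nat_lit 0) (nat_lit 0) (XT.lf (nat_lit 0) (nat_lit 5316874135) (nat_lit 684) (nat_lit 8723259304) (nat_lit 760) (nat_lit 16529684843) (nat_lit 61) (nat_lit 5) (nat_lit 70) (nat_lit 5) (nat_lit 71) (nat_lit 5) (nat_lit 283) (nat_lit 279) (nat_lit 158)) (XT.lf (nat_lit 76) (nat_lit 4199506345) (nat_lit 0) (nat_lit 2000720471) (nat_lit 760) (nat_lit 25171013897) (nat_lit 62) (nat_lit 5) (nat_lit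 61) (nat_lit 5) (nat_lit 71) (nat_lit 5) (nat_lit 284) (nat_lit 279) (nat_lit 157))) (XT.nd (nat_lit 78) (nat_lit 0) (nat_lit 0) (XT.lf (nat_lit 0) (nat_lit 7439978286) (nat_lit 684) (nat_lit 14305569762) (nat_lit 760) (nat_lit 10451592467) (nat_lit 62) (nat_lit 5) (nat_lit 71) (nat_lit 5) (nat_lit 72) (nat_lit 5) (nat_lit 285) (nat_lit 279) (nat_lit 156)) (XT.lf (nat_lit 0) (nat_lit 8770655185) (nat_lit 684) (nat_lit 831687860) (nat_lit 760) (nat_lit 23460562327) (nat_lit 62) (nat_lit 5) (nat_lit 71) (nat_lit 5) (nat_lit 72) (nat_lit 5) (nat_lit 286) (nat_lit 279) (nat_lit 155)))) (XT.nd (nat_lit 156) (nat_lit 0) (nat_lit 0) (XT.nd (nat_lit 78) (nat_lit 0) (nat_lit 0) (XT.lf (nat_lit 0) (nat_lit 10431603930) (nat_lit 684) (nat_lit 20260683161) (nat_lit 760) (nat_lit 3266500632) (nat_lit 63) (nat_lit 5) (nat_lit 72) (nat_lit 5) (nat_lit 73) (nat_lit 5) (nat_lit 287) (nat_lit 279) (nat_lit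 154)) (XT.lf (nat_lit 0) (nat_lit 12343803229) (nat_lit 684) (nat_lit 6075968736) (nat_lit 760) (nat_lit 16471297451) (nat_lit 63) (nat_lit 5) (nat_lit 72) (nat_lit 5) (nat_lit 73) (nat_lit 5) (nat_lit 288) (nat_lit 279) (nat_lit 153))) (XT.nd (nat_lit 78) (nat_lit 0) (nat_lit 76) (XT.lf (nat_lit 76) (nat_lit 9106765870) (nat_lit 0) (nat_lit 5383668491) (nat_lit 760) (nat_lit 21372604389) (nat_lit 64) (nat_lit 5) (nat_lit 63) (nat_lit 5) (nat_lit 73) (nat_lit 5) (nat_lit 289) (nat_lit 279) (nat_lit 152)) (XT.lf (nat_lit 0) (nat_lit 16975403605) (nat_lit 684) (nat_lit 11753050679) (nat_lit 76) (nat_lit 8143615891) (nat_lit 64) (nat_lit 5) (nat_lit 73) (nat_lit 5) (nat_lit 65) (nat_lit 5) (nat_lit 290) (nat_lit 279) (nat_lit 151))))) (XT.nd (nat_lit 312) (nat_lit 608) (nat_lit 0) (XT.nd (nat_lit 156) (nat_lit 304) (nat_lit 0) (XT.nd (nat_lit 78) (nat_lit 0) (nat_lit 0) (XT.lf (nat_lit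 0) (nat_lit 4038641437) (nat_lit 684) (nat_lit 15694212906) (nat_lit 760) (nat_lit 18191300464) (nat_lit 55) (nat_lit 5) (nat_lit 64) (nat_lit 5) (nat_lit 65) (nat_lit 5) (nat_lit 291) (nat_lit 279) (nat_lit 150)) (XT.lf (nat_lit 0) (nat_lit 21025304945) (nat_lit 684) (nat_lit 1798943110) (nat_lit 760) (nat_lit 16194804748) (nat_lit 55) (nat_lit 5) (nat_lit 64) (nat_lit 5) (nat_lit 65) (nat_lit 5) (nat_lit 292) (nat_lit 279) (nat_lit 149))) (XT.nd (nat_lit 78) (nat_lit 304) (nat_lit 0) (XT.lf (nat_lit 0) (nat_lit 26267089398) (nat_lit 760) (nat_lit 1509783516) (nat_lit 76) (nat_lit 12381990940) (nat_lit 55) (nat_lit 5) (nat_lit 65) (nat_lit 5) (nat_lit 56) (nat_lit 5) (nat_lit 293) (nat_lit 279) (nat_lit 148)) (XT.lf (nat_lit 0) (nat_lit 16287637452) (nat_lit 304) (nat_lit 13875529685) (nat_lit 380) (nat_lit 11178455081) (nat_lit 51) (nat_lit 5) (nat_lit 55) (nat_lit 5) (nat_lit 56)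 (nat_lit 5) (nat_lit 294) (nat_lit 279) (nat_lit 147)))) (XT.nd (nat_lit 156) (nat_lit 304) (nat_lit 0) (XT.nd (nat_lit 78) (nat_lit 304) (nat_lit 0) (XT.lf (nat_lit 0) (nat_lit 34288689894) (nat_lit 380) (nat_lit 7569226506) (nat_lit 76) (nat_lit 723880976) (nat_lit 51) (nat_lit 5) (nat_lit 56) (nat_lit 5) (nat_lit 52) (nat_lit 5) (nat_lit 295) (nat_lit 279) (nat_lit 146)) (XT.lf (nat_lit 0) (nat_lit 10908924180) (nat_lit 304) (nat_lit 28106873173) (nat_lit 380) (nat_lit 4848428922) (nat_lit 47) (nat_lit 5) (nat_lit 51) (nat_lit 5) (nat_lit 52) (nat_lit 5) (nat_lit 296) (nat_lit 279) (nat_lit 145))) (XT.nd (nat_lit 78) (nat_lit 304) (nat_lit 0) (XT.lf (nat_lit 0) (nat_lit 30571278195) (nat_lit 304) (nat_lit 13533771603) (nat_lit 380) (nat_lit 1099447253) (nat_lit 47) (nat_lit 5) (nat_lit 51) (nat_lit 5) (nat_lit 52) (nat_lit 5) (nat_lit 297) (nat_lit 279) (nat_lit 144)) (XT.nd (nat_lit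 78) (nat_lit 0) (nat_lit 0) (XT.lf (nat_lit 0) (nat_lit 2846903259) (nat_lit 304) (nat_lit 41926616468) (nat_lit 76) (nat_lit 1831019924) (nat_lit 43) (nat_lit 5) (nat_lit 47) (nat_lit 5) (nat_lit 44) (nat_lit 5) (nat_lit 298) (nat_lit 279) (nat_lit 143)) (XT.lf (nat_lit 0) (nat_lit 7425110531) (nat_lit 304) (nat_lit 22846027615) (nat_lit 76) (nat_lit 17778979218) (nat_lit 43) (nat_lit 5) (nat_lit 47) (nat_lit 5) (nat_lit 44) (nat_lit 5) (nat_lit 299) (nat_lit 279) (nat_lit 142))))))))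
noncomputable def xc219 : XT := (XT.nd (nat_lit 1326) (nat_lit 684) (nat_lit 0) (XT.nd (nat_lit 624) (nat_lit 912) (nat_lit 0) (XT.nd (nat_lit 312) (nat_lit 228) (nat_lit 0) (XT.nd (nat_lit 156) (nat_lit 228) (nat_lit 0) (XT.nd (nat_lit 78) (nat_lit 304) (nat_lit 0) (XT.lf (nat_lit 0) (nat_lit 12230075298) (nat_lit 304) (nat_lit 2813825933) (nat_lit 76) (nat_lit 34524188534) (nat_lit 43) (nat_lit 5) (nat_lit 47) (nat_lit 5) (nat_lit 44) (nat_lit 5) (nat_lit 300) (nat_lit 279) (nat_lit 141)) (XT.lf (nat_lit 0) (nat_lit 17586633969) (nat_lit 380) (nat_lit 32346898579) (nat_lit 76) (nat_lit 1212868724) (nat_lit 39) (nat_lit 5) (nat_lit 44) (nat_lit 5) (nat_lit 40) (nat_lit 5) (nat_lit 301) (nat_lit 279) (nat_lit 140))) (XT.nd (nat_lit 78) (nat_lit 228) (nat_lit 0) (XT.lf (nat_lit 0) (nat_lit 23504084228) (nat_lit 380) (nat_lit 11459827683) (nat_lit 76) (nat_lit 17825070658) (nat_lit 39)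 (nat_lit 5) (nat_lit 44) (nat_lit 5) (nat_lit 40) (nat_lit 5) (nat_lit 302) (nat_lit 279) (nat_lit 139)) (XT.lf (nat_lit 0) (nat_lit 10815506311) (nat_lit 228) (nat_lit 19068863545) (nat_lit 304) (nat_lit 24620981980) (nat_lit 36) (nat_lit 5) (nat_lit 39) (nat_lit 5) (nat_lit 40) (nat_lit 5) (nat_lit 303) (nat_lit 279) (nat_lit 138)))) (XT.nd (nat_lit 156) (nat_lit 0) (nat_lit 0) (XT.nd (nat_lit 78) (nat_lit 228) (nat_lit 0) (XT.lf (nat_lit 0) (nat_lit 34600248510) (nat_lit 228) (nat_lit 2175657204) (nat_lit 304) (nat_lit 19522028765) (nat_lit 36) (nat_lit 5) (nat_lit 39) (nat_lit 5) (nat_lit 40) (nat_lit 5) (nat_lit 304) (nat_lit 279) (nat_lit 137)) (XT.lf (nat_lit 0) (nat_lit 1186899325) (nat_lit 228) (nat_lit 43084859902) (nat_lit 304) (nat_lit 13895406376) (nat_lit 33) (nat_lit 5) (nat_lit 36) (nat_lit 5) (nat_lit 37) (nat_lit 5) (nat_lit 305) (nat_lit 279) (nat_lit 136))) (XT.nd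 (nat_lit 78) (nat_lit 0) (nat_lit 0) (XT.lf (nat_lit 0) (nat_lit 25929997509) (nat_lit 228) (nat_lit 26613250285) (nat_lit 304) (nat_lit 7566574457) (nat_lit 33) (nat_lit 5) (nat_lit 36) (nat_lit 5) (nat_lit 37) (nat_lit 5) (nat_lit 306) (nat_lit 279) (nat_lit 135)) (XT.lf (nat_lit 0) (nat_lit 51908188477) (nat_lit 228) (nat_lit 9318494048) (nat_lit 304) (nat_lit 923016417) (nat_lit 33) (nat_lit 5) (nat_lit 36) (nat_lit 5) (nat_lit 37) (nat_lit 5) (nat_lit 307) (nat_lit 279) (nat_lit 134))))) (XT.nd (nat_lit 312) (nat_lit 380) (nat_lit 0) (XT.nd (nat_lit 156) (nat_lit 228) (nat_lit 0) (XT.nd (nat_lit 78) (nat_lit 0) (nat_lit 0) (XT.lf (nat_lit 0) (nat_lit 6239565321) (nat_lit 304) (nat_lit 49132022880) (nat_lit 76) (nat_lit 8896232997) (nat_lit 29) (nat_lit 5) (nat_lit 33) (nat_lit 5) (nat_lit 30) (nat_lit 5) (nat_lit 308) (nat_lit 279) (nat_lit 133)) (XT.lf (nat_lit 0) (nat_lit 14056762946)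 (nat_lit 304) (nat_lit 24518443327) (nat_lit 76) (nat_lit 27899516421) (nat_lit 29) (nat_lit 5) (nat_lit 33) (nat_lit 5) (nat_lit 30) (nat_lit 5) (nat_lit 309) (nat_lit 279) (nat_lit 132))) (XT.nd (nat_lit 78) (nat_lit 0) (nat_lit 0) (XT.lf (nat_lit 0) (nat_lit 1367622233) (nat_lit 228) (nat_lit 20917079884) (nat_lit 304) (nat_lit 46506277834) (nat_lit 26) (nat_lit 5) (nat_lit 29) (nat_lit 5) (nat_lit 30) (nat_lit 5) (nat_lit 310) (nat_lit 279) (nat_lit 131)) (XT.lf (nat_lit 0) (nat_lit 29397282340) (nat_lit 228) (nat_lit 1940556704) (nat_lit 304) (nat_lit 39864525530) (nat_lit 26) (nat_lit 5) (nat_lit 29) (nat_lit 5) (nat_lit 30) (nat_lit 5) (nat_lit 311) (nat_lit 279) (nat_lit 130)))) (XT.nd (nat_lit 156) (nat_lit 228) (nat_lit 0) (XT.nd (nat_lit 78) (nat_lit 152) (nat_lit 0) (XT.lf (nat_lit 0) (nat_lit 41123055589) (nat_lit 304) (nat_lit 15188592617) (nat_lit 76) (nat_lit 17408703409)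 (nat_lit 26) (nat_lit 5) (nat_lit 30) (nat_lit 5) (nat_lit 27) (nat_lit 5) (nat_lit 312) (nat_lit 279) (nat_lit 129)) (XT.lf (nat_lit 0) (nat_lit 13145842291) (nat_lit 152) (nat_lit 38487441519) (nat_lit 228) (nat_lit 24719170775) (nat_lit 24) (nat_lit 5) (nat_lit 26) (nat_lit 5) (nat_lit 27) (nat_lit 5) (nat_lit 313) (nat_lit 279) (nat_lit 128))) (XT.nd (nat_lit 78) (nat_lit 228) (nat_lit 0) (XT.lf (nat_lit 0) (nat_lit 43422526037) (nat_lit 152) (nat_lit 19502452827) (nat_lit 228) (nat_lit 16178389993) (nat_lit 24) (nat_lit 5) (nat_lit 26) (nat_lit 5) (nat_lit 27) (nat_lit 5) (nat_lit 314) (nat_lit 279) (nat_lit 127)) (XT.nd (nat_lit 78) (nat_lit 228) (nat_lit 0) (XT.lf (nat_lit 0) (nat_lit 74786782146) (nat_lit 228) (nat_lit 6787284304) (nat_lit 76) (nat_lit 417489955) (nat_lit 24) (nat_lit 5) (nat_lit 27) (nat_lit 5) (nat_lit 25) (nat_lit 5) (nat_lit 315) (nat_lit 279) (nat_lit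 126)) (XT.lf (nat_lit 0) (nat_lit 2851131408) (nat_lit 228) (nat_lit 61037841935) (nat_lit 76) (nat_lit 21098223105) (nat_lit 21) (nat_lit 5) (nat_lit 24) (nat_lit 5) (nat_lit 22) (nat_lit 5) (nat_lit 316) (nat_lit 279) (nat_lit 125))))))) (XT.nd (nat_lit 702) (nat_lit 228) (nat_lit 0) (XT.nd (nat_lit 312) (nat_lit 304) (nat_lit 0) (XT.nd (nat_lit 156) (nat_lit 152) (nat_lit 0) (XT.nd (nat_lit 78) (nat_lit 0) (nat_lit 0) (XT.lf (nat_lit 0) (nat_lit 13283382799) (nat_lit 228) (nat_lit 31790090808) (nat_lit 76) (nat_lit 43047458657) (nat_lit 21) (nat_lit 5) (nat_lit 24) (nat_lit 5) (nat_lit 22) (nat_lit 5) (nat_lit 317) (nat_lit 279) (nat_lit 124)) (XT.lf (nat_lit 0) (nat_lit 24236149422) (nat_lit 228) (nat_lit 1081560368) (nat_lit 76) (nat_lit 66093703022) (nat_lit 21) (nat_lit 5) (nat_lit 24) (nat_lit 5) (nat_lit 22) (nat_lit 5) (nat_lit 318) (nat_lit 279) (nat_lit 123))) (XT.nd (nat_lit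 78) (nat_lit 0) (nat_lit 0) (XT.lf (nat_lit 0) (nat_lit 32191183855) (nat_lit 152) (nat_lit 4046920032) (nat_lit 228) (nat_lit 58603238952) (nat_lit 19) (nat_lit 5) (nat_lit 21) (nat_lit 5) (nat_lit 22) (nat_lit 5) (nat_lit 319) (nat_lit 279) (nat_lit 122)) (XT.lf (nat_lit 0) (nat_lit 49143264340) (nat_lit 228) (nat_lit 31564109956) (nat_lit 76) (nat_lit 17720242446) (nat_lit 19) (nat_lit 5) (nat_lit 22) (nat_lit 5) (nat_lit 20) (nat_lit 5) (nat_lit 320) (nat_lit 279) (nat_lit 121)))) (XT.nd (nat_lit 156) (nat_lit 152) (nat_lit 0) (XT.nd (nat_lit 78) (nat_lit 0) (nat_lit 0) (XT.lf (nat_lit 0) (nat_lit 1041762362) (nat_lit 152) (nat_lit 61733550648) (nat_lit 228) (nat_lit 39413812479) (nat_lit 17) (nat_lit 5) (nat_lit 19) (nat_lit 5) (nat_lit 20) (nat_lit 5) (nat_lit 321) (nat_lit 279) (nat_lit 120)) (XT.lf (nat_lit 0) (nat_lit 36372307667) (nat_lit 152) (nat_lit 41250256165) (nat_lit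 228) (nat_lit 28489468382) (nat_lit 17) (nat_lit 5) (nat_lit 19) (nat_lit 5) (nat_lit 20) (nat_lit 5) (nat_lit 322) (nat_lit 279) (nat_lit 119))) (XT.nd (nat_lit 78) (nat_lit 152) (nat_lit 0) (XT.lf (nat_lit 0) (nat_lit 73467994281) (nat_lit 152) (nat_lit 19743274575) (nat_lit 228) (nat_lit 17019863246) (nat_lit 17) (nat_lit 5) (nat_lit 19) (nat_lit 5) (nat_lit 20) (nat_lit 5) (nat_lit 323) (nat_lit 279) (nat_lit 118)) (XT.nd (nat_lit 78) (nat_lit 152) (nat_lit 0) (XT.lf (nat_lit 0) (nat_lit 109622862568) (nat_lit 228) (nat_lit 2183405785) (nat_lit 76) (nat_lit 2747748253) (nat_lit 17) (nat_lit 5) (nat_lit 20) (nat_lit 5) (nat_lit 18) (nat_lit 4) (nat_lit 324) (nat_lit 279) (nat_lit 117)) (XT.lf (nat_lit 0) (nat_lit 8395782454) (nat_lit 152) (nat_lit 84267112130) (nat_lit 76) (nat_lit 26379982312) (nat_lit 15) (nat_lit 5) (nat_lit 17) (nat_lit 5) (nat_lit 16) (nat_lit 5) (nat_lit 325)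 (nat_lit 279) (nat_lit 116)))))) (XT.nd (nat_lit 312) (nat_lit 76) (nat_lit 0) (XT.nd (nat_lit 156) (nat_lit 152) (nat_lit 0) (XT.nd (nat_lit 78) (nat_lit 0) (nat_lit 0) (XT.lf (nat_lit 0) (nat_lit 22260103596) (nat_lit 152) (nat_lit 50178381509) (nat_lit 76) (nat_lit 51311817301) (nat_lit 15) (nat_lit 5) (nat_lit 17) (nat_lit 5) (nat_lit 16) (nat_lit 5) (nat_lit 326) (nat_lit 279) (nat_lit 115)) (XT.lf (nat_lit 0) (nat_lit 36816853861) (nat_lit 152) (nat_lit 14386454504) (nat_lit 76) (nat_lit 77489832060) (nat_lit 15) (nat_lit 5) (nat_lit 17) (nat_lit 5) (nat_lit 16) (nat_lit 5) (nat_lit 327) (nat_lit 279) (nat_lit 114))) (XT.nd (nat_lit 78) (nat_lit 0) (nat_lit 0) (XT.lf (nat_lit 0) (nat_lit 23960782433) (nat_lit 152) (nat_lit 28514004709) (nat_lit 228) (nat_lit 81389667726) (nat_lit 13) (nat_lit 5) (nat_lit 15) (nat_lit 5) (nat_lit 16) (nat_lit 5) (nat_lit 328) (nat_lit 279) (nat_lit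 113)) (XT.lf (nat_lit 0) (nat_lit 64723684390) (nat_lit 152) (nat_lit 4434842350) (nat_lit 228) (nat_lit 70123664522) (nat_lit 13) (nat_lit 5) (nat_lit 15) (nat_lit 5) (nat_lit 16) (nat_lit 5) (nat_lit 329) (nat_lit 279) (nat_lit 112)))) (XT.nd (nat_lit 156) (nat_lit 0) (nat_lit 0) (XT.nd (nat_lit 78) (nat_lit 76) (nat_lit 0) (XT.lf (nat_lit 0) (nat_lit 87001249910) (nat_lit 228) (nat_lit 37772719874) (nat_lit 76) (nat_lit 20180606492) (nat_lit 13) (nat_lit 5) (nat_lit 16) (nat_lit 5) (nat_lit 14) (nat_lit 4) (nat_lit 330) (nat_lit 279) (nat_lit 111)) (XT.lf (nat_lit 0) (nat_lit 804314565) (nat_lit 76) (nat_lit 105016384650) (nat_lit 152) (nat_lit 45085653379) (nat_lit 12) (nat_lit 5) (nat_lit 13) (nat_lit 5) (nat_lit 14) (nat_lit 4) (nat_lit 331) (nat_lit 279) (nat_lit 110))) (XT.nd (nat_lit 78) (nat_lit 0) (nat_lit 0) (XT.lf (nat_lit 0) (nat_lit 42620519069) (nat_lit 76) (nat_lit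 83599646518) (nat_lit 152) (nat_lit 30903601391) (nat_lit 12) (nat_lit 5) (nat_lit 13) (nat_lit 5) (nat_lit 14) (nat_lit 4) (nat_lit 332) (nat_lit 279) (nat_lit 109)) (XT.nd (nat_lit 78) (nat_lit 0) (nat_lit 0) (XT.lf (nat_lit 0) (nat_lit 86526519322) (nat_lit 76) (nat_lit 61112462443) (nat_lit 152) (nat_lit 16013102899) (nat_lit 12) (nat_lit 5) (nat_lit 13) (nat_lit 5) (nat_lit 14) (nat_lit 4) (nat_lit 333) (nat_lit 279) (nat_lit 108)) (XT.lf (nat_lit 0) (nat_lit 132626853420) (nat_lit 76) (nat_lit 37501291512) (nat_lit 152) (nat_lit 378704336) (nat_lit 12) (nat_lit 5) (nat_lit 13) (nat_lit 5) (nat_lit 14) (nat_lit 4) (nat_lit 334) (nat_lit 279) (nat_lit 107))))))))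
noncomputable def xc220 : XT := (XT.nd (nat_lit 33696) (nat_lit 0) (nat_lit 2432) (XT.nd (nat_lit 624) (nat_lit 76) (nat_lit 0) (XT.nd (nat_lit 312) (nat_lit 76) (nat_lit 0) (XT.nd (nat_lit 156) (nat_lit 0) (nat_lit 0) (XT.nd (nat_lit 78) (nat_lit 0) (nat_lit 0) (XT.lf (nat_lit 0) (nat_lit 3178246452) (nat_lit 152) (nat_lit 12394915576) (nat_lit 228) (nat_lit 162116219578) (nat_lit 9) (nat_lit 5) (nat_lit 11) (nat_lit 5) (nat_lit 12) (nat_lit 5) (nat_lit 335) (nat_lit 279) (nat_lit 106)) (XT.lf (nat_lit 0) (nat_lit 33179419322) (nat_lit 228) (nat_lit 137830190370) (nat_lit 76) (nat_lit 14177645386) (nat_lit 9) (nat_lit 5) (nat_lit 12) (nat_lit 5) (nat_lit 10) (nat_lit 4) (nat_lit 336) (nat_lit 279) (nat_lit 105))) (XT.nd (nat_lit 78) (nat_lit 0) (nat_lit 0) (XT.lf (nat_lit 0) (nat_lit 51868643178) (nat_lit 228) (nat_lit 99519297410) (nat_lit 76) (nat_lit 41661950054) (nat_lit 9) (nat_lit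 5) (nat_lit 12) (nat_lit 5) (nat_lit 10) (nat_lit 4) (nat_lit 337) (nat_lit 279) (nat_lit 104)) (XT.lf (nat_lit 0) (nat_lit 71491812380) (nat_lit 228) (nat_lit 59293720493) (nat_lit 76) (nat_lit 70520151953) (nat_lit 9) (nat_lit 5) (nat_lit 12) (nat_lit 5) (nat_lit 10) (nat_lit 4) (nat_lit 338) (nat_lit 279) (nat_lit 103)))) (XT.nd (nat_lit 156) (nat_lit 0) (nat_lit 0) (XT.nd (nat_lit 78) (nat_lit 76) (nat_lit 0) (XT.lf (nat_lit 0) (nat_lit 92095648759) (nat_lit 228) (nat_lit 17057684436) (nat_lit 76) (nat_lit 100820961090) (nat_lit 9) (nat_lit 5) (nat_lit 12) (nat_lit 5) (nat_lit 10) (nat_lit 4) (nat_lit 339) (nat_lit 279) (nat_lit 102)) (XT.lf (nat_lit 0) (nat_lit 28191682656) (nat_lit 76) (nat_lit 85977677587) (nat_lit 152) (nat_lit 104884990764) (nat_lit 8) (nat_lit 5) (nat_lit 9) (nat_lit 5) (nat_lit 10) (nat_lit 4) (nat_lit 340) (nat_lit 279) (nat_lit 101))) (XT.nd (nat_lit 78)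 (nat_lit 0) (nat_lit 0) (XT.lf (nat_lit 0) (nat_lit 76294954308) (nat_lit 76) (nat_lit 61340225532) (nat_lit 152) (nat_lit 90938810505) (nat_lit 8) (nat_lit 5) (nat_lit 9) (nat_lit 5) (nat_lit 10) (nat_lit 4) (nat_lit 341) (nat_lit 279) (nat_lit 100)) (XT.lf (nat_lit 0) (nat_lit 126802658038) (nat_lit 76) (nat_lit 35471196571) (nat_lit 152) (nat_lit 76295779697) (nat_lit 8) (nat_lit 5) (nat_lit 9) (nat_lit 5) (nat_lit 10) (nat_lit 4) (nat_lit 342) (nat_lit 279) (nat_lit 99))))) (XT.nd (nat_lit 32682) (nat_lit 0) (nat_lit 4028) (XT.nd (nat_lit 156) (nat_lit 76) (nat_lit 0) (XT.nd (nat_lit 78) (nat_lit 0) (nat_lit 0) (XT.lf (nat_lit 0) (nat_lit 179835050282) (nat_lit 76) (nat_lit 8308997777) (nat_lit 152) (nat_lit 60921033982) (nat_lit 8) (nat_lit 5) (nat_lit 9) (nat_lit 5) (nat_lit 10) (nat_lit 4) (nat_lit 343) (nat_lit 279) (nat_lit 98)) (XT.lf (nat_lit 0) (nat_lit 215622906909) (nat_lit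 152) (nat_lit 24882475090) (nat_lit 0) (nat_lit 19564163161) (nat_lit 8) (nat_lit 5) (nat_lit 10) (nat_lit 4) (nat_lit 8) (nat_lit 4) (nat_lit 344) (nat_lit 279) (nat_lit 97))) (XT.nd (nat_lit 32448) (nat_lit 0) (nat_lit 4028) (XT.lf (nat_lit 0) (nat_lit 22257993651) (nat_lit 76) (nat_lit 222701057330) (nat_lit 76) (nat_lit 26641014087) (nat_lit 7) (nat_lit 4) (nat_lit 8) (nat_lit 5) (nat_lit 8) (nat_lit 4) (nat_lit 345) (nat_lit 279) (nat_lit 96)) (XT.lf (nat_lit 0) (nat_lit 900321802) (nat_lit 0) (nat_lit 900321802) (nat_lit 684) (nat_lit 12723636967) (nat_lit 60) (nat_lit 5) (nat_lit 60) (nat_lit 3) (nat_lit 69) (nat_lit 3) (nat_lit 280) (nat_lit 280) (nat_lit 160)))) (XT.nd (nat_lit 156) (nat_lit 0) (nat_lit 76) (XT.nd (nat_lit 78) (nat_lit 0) (nat_lit 0) (XT.lf (nat_lit 0) (nat_lit 3925202915) (nat_lit 684) (nat_lit 15666947466) (nat_lit 760) (nat_lit 10170623939) (nat_lit 60)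 (nat_lit 5) (nat_lit 69) (nat_lit 3) (nat_lit 70) (nat_lit 5) (nat_lit 281) (nat_lit 280) (nat_lit 159)) (XT.lf (nat_lit 0) (nat_lit 4290397341) (nat_lit 684) (nat_lit 3538961056) (nat_lit 760) (nat_lit 22682105238) (nat_lit 60) (nat_lit 5) (nat_lit 69) (nat_lit 3) (nat_lit 70) (nat_lit 5) (nat_lit 282) (nat_lit 280) (nat_lit 158))) (XT.nd (nat_lit 78) (nat_lit 0) (nat_lit 0) (XT.lf (nat_lit 0) (nat_lit 4890955348) (nat_lit 684) (nat_lit 21866463298) (nat_lit 760) (nat_lit 4529332275) (nat_lit 61) (nat_lit 5) (nat_lit 70) (nat_lit 5) (nat_lit 71) (nat_lit 5) (nat_lit 283) (nat_lit 280) (nat_lit 157)) (XT.nd (nat_lit 78) (nat_lit 0) (nat_lit 0) (XT.lf (nat_lit 0) (nat_lit 5706774377) (nat_lit 684) (nat_lit 9079377619) (nat_lit 760) (nat_lit 17305406725) (nat_lit 61) (nat_lit 5) (nat_lit 70) (nat_lit 5) (nat_lit 71) (nat_lit 5) (nat_lit 284) (nat_lit 280) (nat_lit 156)) (XT.lf (nat_lit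 76) (nat_lit 4488235270) (nat_lit 0) (nat_lit 2141381533) (nat_lit 760) (nat_lit 26303695444) (nat_lit 62) (nat_lit 5) (nat_lit 61) (nat_lit 5) (nat_lit 71) (nat_lit 5) (nat_lit 285) (nat_lit 280) (nat_lit 155))))))) (XT.nd (nat_lit 624) (nat_lit 1216) (nat_lit 0) (XT.nd (nat_lit 312) (nat_lit 532) (nat_lit 0) (XT.nd (nat_lit 156) (nat_lit 0) (nat_lit 76) (XT.nd (nat_lit 78) (nat_lit 0) (nat_lit 0) (XT.lf (nat_lit 0) (nat_lit 7925067081) (nat_lit 684) (nat_lit 14939059316) (nat_lit 760) (nat_lit 10936719916) (nat_lit 62) (nat_lit 5) (nat_lit 71) (nat_lit 5) (nat_lit 72) (nat_lit 5) (nat_lit 286) (nat_lit 280) (nat_lit 154)) (XT.lf (nat_lit 0) (nat_lit 9316892593) (nat_lit 684) (nat_lit 795378030) (nat_lit 760) (nat_lit 24597921706) (nat_lit 62) (nat_lit 5) (nat_lit 71) (nat_lit 5) (nat_lit 72) (nat_lit 5) (nat_lit 287) (nat_lit 280) (nat_lit 153))) (XT.nd (nat_lit 78) (nat_lit 0) (nat_lit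 0) (XT.lf (nat_lit 0) (nat_lit 11056532868) (nat_lit 684) (nat_lit 21191016637) (nat_lit 760) (nat_lit 3403559614) (nat_lit 63) (nat_lit 5) (nat_lit 72) (nat_lit 5) (nat_lit 73) (nat_lit 5) (nat_lit 288) (nat_lit 280) (nat_lit 152)) (XT.lf (nat_lit 0) (nat_lit 13059420764) (nat_lit 684) (nat_lit 6301004619) (nat_lit 760) (nat_lit 17269847039) (nat_lit 63) (nat_lit 5) (nat_lit 72) (nat_lit 5) (nat_lit 73) (nat_lit 5) (nat_lit 289) (nat_lit 280) (nat_lit 151)))) (XT.nd (nat_lit 156) (nat_lit 608) (nat_lit 0) (XT.nd (nat_lit 78) (nat_lit 0) (nat_lit 76) (XT.lf (nat_lit 76) (nat_lit 9639596354) (nat_lit 0) (nat_lit 5670309951) (nat_lit 760) (nat_lit 22341128209) (nat_lit 64) (nat_lit 5) (nat_lit 63) (nat_lit 5) (nat_lit 73) (nat_lit 5) (nat_lit 290) (nat_lit 280) (nat_lit 150)) (XT.lf (nat_lit 0) (nat_lit 17914342982) (nat_lit 684) (nat_lit 12261730895) (nat_lit 76) (nat_lit 8534702144)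 (nat_lit 64) (nat_lit 5) (nat_lit 73) (nat_lit 5) (nat_lit 65) (nat_lit 5) (nat_lit 291) (nat_lit 280) (nat_lit 149))) (XT.nd (nat_lit 78) (nat_lit 0) (nat_lit 0) (XT.lf (nat_lit 0) (nat_lit 4318272080) (nat_lit 684) (nat_lit 16488313498) (nat_lit 760) (nat_lit 19009051873) (nat_lit 55) (nat_lit 5) (nat_lit 64) (nat_lit 5) (nat_lit 65) (nat_lit 5) (nat_lit 292) (nat_lit 280) (nat_lit 148)) (XT.lf (nat_lit 0) (nat_lit 22150568831) (nat_lit 684) (nat_lit 1897833072) (nat_lit 760) (nat_lit 16917103449) (nat_lit 55) (nat_lit 5) (nat_lit 64) (nat_lit 5) (nat_lit 65) (nat_lit 5) (nat_lit 293) (nat_lit 280) (nat_lit 147))))) (XT.nd (nat_lit 312) (nat_lit 608) (nat_lit 0) (XT.nd (nat_lit 156) (nat_lit 304) (nat_lit 0) (XT.nd (nat_lit 78) (nat_lit 304) (nat_lit 0) (XT.lf (nat_lit 0) (nat_lit 27659302747) (nat_lit 760) (nat_lit 1510379022) (nat_lit 76) (nat_lit 12992846124) (nat_lit 55) (nat_lit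 5) (nat_lit 65) (nat_lit 5) (nat_lit 56) (nat_lit 5) (nat_lit 294) (nat_lit 280) (nat_lit 146)) (XT.lf (nat_lit 0) (nat_lit 17175705032) (nat_lit 304) (nat_lit 14571874597) (nat_lit 380) (nat_lit 11656990795) (nat_lit 51) (nat_lit 5) (nat_lit 55) (nat_lit 5) (nat_lit 56) (nat_lit 5) (nat_lit 295) (nat_lit 280) (nat_lit 145))) (XT.nd (nat_lit 78) (nat_lit 304) (nat_lit 0) (XT.lf (nat_lit 0) (nat_lit 36075709183) (nat_lit 380) (nat_lit 7873536676) (nat_lit 76) (nat_lit 757707194) (nat_lit 51) (nat_lit 5) (nat_lit 56) (nat_lit 5) (nat_lit 52) (nat_lit 5) (nat_lit 296) (nat_lit 280) (nat_lit 144)) (XT.lf (nat_lit 0) (nat_lit 11527325557) (nat_lit 304) (nat_lit 29509529073) (nat_lit 380) (nat_lit 5016779157) (nat_lit 47) (nat_lit 5) (nat_lit 51) (nat_lit 5) (nat_lit 52) (nat_lit 5) (nat_lit 297) (nat_lit 280) (nat_lit 143)))) (XT.nd (nat_lit 156) (nat_lit 304) (nat_lit 0) (XT.nd (nat_lit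 78) (nat_lit 304) (nat_lit 0) (XT.lf (nat_lit 0) (nat_lit 32169323218) (nat_lit 304) (nat_lit 14207900414) (nat_lit 380) (nat_lit 1083875606) (nat_lit 47) (nat_lit 5) (nat_lit 51) (nat_lit 5) (nat_lit 52) (nat_lit 5) (nat_lit 298) (nat_lit 280) (nat_lit 142)) (XT.lf (nat_lit 0) (nat_lit 3055462278) (nat_lit 304) (nat_lit 43948621712) (nat_lit 76) (nat_lit 1927121066) (nat_lit 43) (nat_lit 5) (nat_lit 47) (nat_lit 5) (nat_lit 44) (nat_lit 5) (nat_lit 299) (nat_lit 280) (nat_lit 141))) (XT.nd (nat_lit 78) (nat_lit 304) (nat_lit 0) (XT.lf (nat_lit 0) (nat_lit 7859426874) (nat_lit 304) (nat_lit 23917542730) (nat_lit 76) (nat_lit 18672261652) (nat_lit 43) (nat_lit 5) (nat_lit 47) (nat_lit 5) (nat_lit 44) (nat_lit 5) (nat_lit 300) (nat_lit 280) (nat_lit 140)) (XT.nd (nat_lit 78) (nat_lit 304) (nat_lit 0) (XT.lf (nat_lit 0) (nat_lit 12901636983) (nat_lit 304) (nat_lit 2887101739) (nat_lit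 76) (nat_lit 36254525077) (nat_lit 43) (nat_lit 5) (nat_lit 47) (nat_lit 5) (nat_lit 44) (nat_lit 5) (nat_lit 301) (nat_lit 280) (nat_lit 139)) (XT.lf (nat_lit 0) (nat_lit 18524325633) (nat_lit 380) (nat_lit 33894913340) (nat_lit 76) (nat_lit 1281347642) (nat_lit 39) (nat_lit 5) (nat_lit 44) (nat_lit 5) (nat_lit 40) (nat_lit 5) (nat_lit 302) (nat_lit 280) (nat_lit 138))))))))
noncomputable def xc221 : XT := (XT.nd (nat_lit 1326) (nat_lit 912) (nat_lit 0) (XT.nd (nat_lit 624) (nat_lit 608) (nat_lit 0) (XT.nd (nat_lit 312) (nat_lit 304) (nat_lit 0) (XT.nd (nat_lit 156) (nat_lit 228) (nat_lit 0) (XT.nd (nat_lit 78) (nat_lit 228) (nat_lit 0) (XT.lf (nat_lit 0) (nat_lit 24734869360) (nat_lit 380) (nat_lit 11966790335) (nat_lit 76) (nat_lit 18723786555) (nat_lit 39) (nat_lit 5) (nat_lit 44) (nat_lit 5) (nat_lit 40) (nat_lit 5) (nat_lit 303) (nat_lit 280) (nat_lit 137)) (XT.lf (nat_lit 0)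 (nat_lit 11421245378) (nat_lit 228) (nat_lit 20011291446) (nat_lit 304) (nat_lit 25795188606) (nat_lit 36) (nat_lit 5) (nat_lit 39) (nat_lit 5) (nat_lit 40) (nat_lit 5) (nat_lit 304) (nat_lit 280) (nat_lit 136))) (XT.nd (nat_lit 78) (nat_lit 228) (nat_lit 0) (XT.lf (nat_lit 0) (nat_lit 36392131176) (nat_lit 228) (nat_lit 2273949324) (nat_lit 304) (nat_lit 20443994514) (nat_lit 36) (nat_lit 5) (nat_lit 39) (nat_lit 5) (nat_lit 40) (nat_lit 5) (nat_lit 305) (nat_lit 280) (nat_lit 135)) (XT.lf (nat_lit 0) (nat_lit 1309667211) (nat_lit 228) (nat_lit 45225759035) (nat_lit 304) (nat_lit 14537415386) (nat_lit 33) (nat_lit 5) (nat_lit 36) (nat_lit 5) (nat_lit 37) (nat_lit 5) (nat_lit 306) (nat_lit 280) (nat_lit 134)))) (XT.nd (nat_lit 156) (nat_lit 304) (nat_lit 0) (XT.nd (nat_lit 78) (nat_lit 0) (nat_lit 0) (XT.lf (nat_lit 0) (nat_lit 27286900165) (nat_lit 228) (nat_lit 27931204359) (nat_lit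 304) (nat_lit 7894654314) (nat_lit 33) (nat_lit 5) (nat_lit 36) (nat_lit 5) (nat_lit 37) (nat_lit 5) (nat_lit 307) (nat_lit 280) (nat_lit 133)) (XT.lf (nat_lit 0) (nat_lit 54561124358) (nat_lit 228) (nat_lit 9772315474) (nat_lit 304) (nat_lit 921311175) (nat_lit 33) (nat_lit 5) (nat_lit 36) (nat_lit 5) (nat_lit 37) (nat_lit 5) (nat_lit 308) (nat_lit 280) (nat_lit 132))) (XT.nd (nat_lit 78) (nat_lit 0) (nat_lit 0) (XT.lf (nat_lit 0) (nat_lit 6596778135) (nat_lit 304) (nat_lit 51528175344) (nat_lit 76) (nat_lit 9353850364) (nat_lit 29) (nat_lit 5) (nat_lit 33) (nat_lit 5) (nat_lit 30) (nat_lit 5) (nat_lit 309) (nat_lit 280) (nat_lit 131)) (XT.lf (nat_lit 0) (nat_lit 14802681616) (nat_lit 304) (nat_lit 25686795323) (nat_lit 76) (nat_lit 29306688163) (nat_lit 29) (nat_lit 5) (nat_lit 33) (nat_lit 5) (nat_lit 30) (nat_lit 5) (nat_lit 310) (nat_lit 280) (nat_lit 130))))) (XT.nd (nat_lit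 312) (nat_lit 228) (nat_lit 0) (XT.nd (nat_lit 156) (nat_lit 152) (nat_lit 0) (XT.nd (nat_lit 78) (nat_lit 0) (nat_lit 0) (XT.lf (nat_lit 0) (nat_lit 1492644965) (nat_lit 228) (nat_lit 21948205662) (nat_lit 304) (nat_lit 48787449603) (nat_lit 26) (nat_lit 5) (nat_lit 29) (nat_lit 5) (nat_lit 30) (nat_lit 5) (nat_lit 311) (nat_lit 280) (nat_lit 129)) (XT.lf (nat_lit 0) (nat_lit 30921090857) (nat_lit 228) (nat_lit 2023557666) (nat_lit 304) (nat_lit 41815711690) (nat_lit 26) (nat_lit 5) (nat_lit 29) (nat_lit 5) (nat_lit 30) (nat_lit 5) (nat_lit 312) (nat_lit 280) (nat_lit 128))) (XT.nd (nat_lit 78) (nat_lit 152) (nat_lit 0) (XT.lf (nat_lit 0) (nat_lit 43217433631) (nat_lit 304) (nat_lit 15894833685) (nat_lit 76) (nat_lit 18292069937) (nat_lit 26) (nat_lit 5) (nat_lit 30) (nat_lit 5) (nat_lit 27) (nat_lit 5) (nat_lit 313) (nat_lit 280) (nat_lit 127)) (XT.lf (nat_lit 0) (nat_lit 13855465088)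 (nat_lit 152) (nat_lit 40396704953) (nat_lit 228) (nat_lit 25915931239) (nat_lit 24) (nat_lit 5) (nat_lit 26) (nat_lit 5) (nat_lit 27) (nat_lit 5) (nat_lit 314) (nat_lit 280) (nat_lit 126)))) (XT.nd (nat_lit 156) (nat_lit 228) (nat_lit 0) (XT.nd (nat_lit 78) (nat_lit 0) (nat_lit 0) (XT.lf (nat_lit 0) (nat_lit 45643491084) (nat_lit 152) (nat_lit 20463186285) (nat_lit 228) (nat_lit 16949977993) (nat_lit 24) (nat_lit 5) (nat_lit 26) (nat_lit 5) (nat_lit 27) (nat_lit 5) (nat_lit 315) (nat_lit 280) (nat_lit 125)) (XT.lf (nat_lit 0) (nat_lit 78560096699) (nat_lit 228) (nat_lit 7077604683) (nat_lit 76) (nat_lit 451629824) (nat_lit 24) (nat_lit 5) (nat_lit 27) (nat_lit 5) (nat_lit 25) (nat_lit 5) (nat_lit 316) (nat_lit 280) (nat_lit 124))) (XT.nd (nat_lit 78) (nat_lit 0) (nat_lit 0) (XT.lf (nat_lit 0) (nat_lit 3027437815) (nat_lit 228) (nat_lit 64040270748) (nat_lit 76) (nat_lit 22167065660)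 (nat_lit 21) (nat_lit 5) (nat_lit 24) (nat_lit 5) (nat_lit 22) (nat_lit 5) (nat_lit 317) (nat_lit 280) (nat_lit 123)) (XT.nd (nat_lit 78) (nat_lit 0) (nat_lit 0) (XT.lf (nat_lit 0) (nat_lit 13979694641) (nat_lit 228) (nat_lit 33332487459) (nat_lit 76) (nat_lit 45213099590) (nat_lit 21) (nat_lit 5) (nat_lit 24) (nat_lit 5) (nat_lit 22) (nat_lit 5) (nat_lit 318) (nat_lit 280) (nat_lit 122)) (XT.lf (nat_lit 0) (nat_lit 25478568989) (nat_lit 228) (nat_lit 1090773729) (nat_lit 76) (nat_lit 69411024364) (nat_lit 21) (nat_lit 5) (nat_lit 24) (nat_lit 5) (nat_lit 22) (nat_lit 5) (nat_lit 319) (nat_lit 280) (nat_lit 121))))))) (XT.nd (nat_lit 702) (nat_lit 456) (nat_lit 0) (XT.nd (nat_lit 312) (nat_lit 152) (nat_lit 0) (XT.nd (nat_lit 156) (nat_lit 152) (nat_lit 0) (XT.nd (nat_lit 78) (nat_lit 0) (nat_lit 0) (XT.lf (nat_lit 0) (nat_lit 33844884081) (nat_lit 152) (nat_lit 4234968543) (nat_lit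 228) (nat_lit 61501983499) (nat_lit 19) (nat_lit 5) (nat_lit 21) (nat_lit 5) (nat_lit 22) (nat_lit 5) (nat_lit 320) (nat_lit 280) (nat_lit 120)) (XT.lf (nat_lit 0) (nat_lit 51629062573) (nat_lit 228) (nat_lit 33098990057) (nat_lit 76) (nat_lit 18619435408) (nat_lit 19) (nat_lit 5) (nat_lit 22) (nat_lit 5) (nat_lit 20) (nat_lit 5) (nat_lit 321) (nat_lit 280) (nat_lit 119))) (XT.nd (nat_lit 78) (nat_lit 0) (nat_lit 0) (XT.lf (nat_lit 0) (nat_lit 1136477081) (nat_lit 152) (nat_lit 64805538544) (nat_lit 228) (nat_lit 41355095203) (nat_lit 17) (nat_lit 5) (nat_lit 19) (nat_lit 5) (nat_lit 20) (nat_lit 5) (nat_lit 322) (nat_lit 280) (nat_lit 118)) (XT.lf (nat_lit 0) (nat_lit 38231519813) (nat_lit 152) (nat_lit 43298778844) (nat_lit 228) (nat_lit 29885934278) (nat_lit 17) (nat_lit 5) (nat_lit 19) (nat_lit 5) (nat_lit 20) (nat_lit 5) (nat_lit 323) (nat_lit 280) (nat_lit 117)))) (XT.nd (nat_lit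 156) (nat_lit 152) (nat_lit 0) (XT.nd (nat_lit 78) (nat_lit 0) (nat_lit 0) (XT.lf (nat_lit 0) (nat_lit 77180057579) (nat_lit 152) (nat_lit 20717114371) (nat_lit 228) (nat_lit 17844182576) (nat_lit 17) (nat_lit 5) (nat_lit 19) (nat_lit 5) (nat_lit 20) (nat_lit 5) (nat_lit 324) (nat_lit 280) (nat_lit 116)) (XT.lf (nat_lit 0) (nat_lit 115128336815) (nat_lit 228) (nat_lit 2254681084) (nat_lit 76) (nat_lit 2897418984) (nat_lit 17) (nat_lit 5) (nat_lit 20) (nat_lit 5) (nat_lit 18) (nat_lit 4) (nat_lit 325) (nat_lit 280) (nat_lit 115))) (XT.nd (nat_lit 78) (nat_lit 0) (nat_lit 0) (XT.lf (nat_lit 0) (nat_lit 8839774595) (nat_lit 152) (nat_lit 88442325645) (nat_lit 76) (nat_lit 27711652301) (nat_lit 15) (nat_lit 5) (nat_lit 17) (nat_lit 5) (nat_lit 16) (nat_lit 5) (nat_lit 326) (nat_lit 280) (nat_lit 114)) (XT.nd (nat_lit 78) (nat_lit 0) (nat_lit 0) (XT.lf (nat_lit 0) (nat_lit 23396159270)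 (nat_lit 152) (nat_lit 52650974783) (nat_lit 76) (nat_lit 53889475665) (nat_lit 15) (nat_lit 5) (nat_lit 17) (nat_lit 5) (nat_lit 16) (nat_lit 5) (nat_lit 327) (nat_lit 280) (nat_lit 113)) (XT.lf (nat_lit 0) (nat_lit 38679649405) (nat_lit 152) (nat_lit 15071181228) (nat_lit 76) (nat_lit 81375816519) (nat_lit 15) (nat_lit 5) (nat_lit 17) (nat_lit 5) (nat_lit 16) (nat_lit 5) (nat_lit 328) (nat_lit 280) (nat_lit 112)))))) (XT.nd (nat_lit 312) (nat_lit 228) (nat_lit 0) (XT.nd (nat_lit 156) (nat_lit 76) (nat_lit 0) (XT.nd (nat_lit 78) (nat_lit 0) (nat_lit 0) (XT.lf (nat_lit 0) (nat_lit 25192859556) (nat_lit 152) (nat_lit 29927105848) (nat_lit 228) (nat_lit 85436590117) (nat_lit 13) (nat_lit 5) (nat_lit 15) (nat_lit 5) (nat_lit 16) (nat_lit 5) (nat_lit 329) (nat_lit 280) (nat_lit 111)) (XT.lf (nat_lit 0) (nat_lit 67992285754) (nat_lit 152) (nat_lit 4644585329) (nat_lit 228) (nat_lit 73608361085)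 (nat_lit 13) (nat_lit 5) (nat_lit 15) (nat_lit 5) (nat_lit 16) (nat_lit 5) (nat_lit 330) (nat_lit 280) (nat_lit 110))) (XT.nd (nat_lit 78) (nat_lit 76) (nat_lit 0) (XT.lf (nat_lit 0) (nat_lit 91370936544) (nat_lit 228) (nat_lit 39629643048) (nat_lit 76) (nat_lit 21200698808) (nat_lit 13) (nat_lit 5) (nat_lit 16) (nat_lit 5) (nat_lit 14) (nat_lit 4) (nat_lit 331) (nat_lit 280) (nat_lit 109)) (XT.lf (nat_lit 0) (nat_lit 875731617) (nat_lit 76) (nat_lit 110255179355) (nat_lit 152) (nat_lit 47319757096) (nat_lit 12) (nat_lit 5) (nat_lit 13) (nat_lit 5) (nat_lit 14) (nat_lit 4) (nat_lit 332) (nat_lit 280) (nat_lit 108)))) (XT.nd (nat_lit 156) (nat_lit 228) (nat_lit 0) (XT.nd (nat_lit 78) (nat_lit 0) (nat_lit 0) (XT.lf (nat_lit 0) (nat_lit 44781260569) (nat_lit 76) (nat_lit 87768176913) (nat_lit 152) (nat_lit 32429563410) (nat_lit 12) (nat_lit 5) (nat_lit 13) (nat_lit 5) (nat_lit 14) (nat_lit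 4) (nat_lit 333) (nat_lit 280) (nat_lit 107)) (XT.lf (nat_lit 0) (nat_lit 90881145808) (nat_lit 76) (nat_lit 64157178965) (nat_lit 152) (nat_lit 16795455139) (nat_lit 12) (nat_lit 5) (nat_lit 13) (nat_lit 5) (nat_lit 14) (nat_lit 4) (nat_lit 334) (nat_lit 280) (nat_lit 106))) (XT.nd (nat_lit 78) (nat_lit 228) (nat_lit 0) (XT.lf (nat_lit 0) (nat_lit 139285148968) (nat_lit 76) (nat_lit 39365968849) (nat_lit 152) (nat_lit 380208215) (nat_lit 12) (nat_lit 5) (nat_lit 13) (nat_lit 5) (nat_lit 14) (nat_lit 4) (nat_lit 335) (nat_lit 280) (nat_lit 105)) (XT.nd (nat_lit 78) (nat_lit 0) (nat_lit 0) (XT.lf (nat_lit 0) (nat_lit 3364260902) (nat_lit 152) (nat_lit 13004052297) (nat_lit 228) (nat_lit 170204678893) (nat_lit 9) (nat_lit 5) (nat_lit 11) (nat_lit 5) (nat_lit 12) (nat_lit 5) (nat_lit 336) (nat_lit 280) (nat_lit 104)) (XT.lf (nat_lit 0) (nat_lit 34854255723) (nat_lit 228) (nat_lit 144695228380)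 (nat_lit 76) (nat_lit 14896308133) (nat_lit 9) (nat_lit 5) (nat_lit 12) (nat_lit 5) (nat_lit 10) (nat_lit 4) (nat_lit 337) (nat_lit 280) (nat_lit 103))))))))
noncomputable def xc222 : XT := (XT.nd (nat_lit 33852) (nat_lit 0) (nat_lit 1900) (XT.nd (nat_lit 33150) (nat_lit 0) (nat_lit 3952) (XT.nd (nat_lit 312) (nat_lit 0) (nat_lit 0) (XT.nd (nat_lit 156) (nat_lit 76) (nat_lit 0) (XT.nd (nat_lit 78) (nat_lit 0) (nat_lit 0) (XT.lf (nat_lit 0) (nat_lit 54477185275) (nat_lit 228) (nat_lit 104470051320) (nat_lit 76) (nat_lit 43754362297) (nat_lit 9) (nat_lit 5) (nat_lit 12) (nat_lit 5) (nat_lit 10) (nat_lit 4) (nat_lit 338) (nat_lit 280) (nat_lit 102)) (XT.lf (nat_lit 0) (nat_lit 75080793417) (nat_lit 228) (nat_lit 62234396079) (nat_lit 76) (nat_lit 74055030733) (nat_lit 9) (nat_lit 5) (nat_lit 12) (nat_lit 5) (nat_lit 10) (nat_lit 4) (nat_lit 339) (nat_lit 280) (nat_lit 101))) (XT.nd (nat_lit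 78) (nat_lit 76) (nat_lit 0) (XT.lf (nat_lit 0) (nat_lit 96714136357) (nat_lit 228) (nat_lit 17887701573) (nat_lit 76) (nat_lit 105870457889) (nat_lit 9) (nat_lit 5) (nat_lit 12) (nat_lit 5) (nat_lit 10) (nat_lit 4) (nat_lit 340) (nat_lit 280) (nat_lit 100)) (XT.lf (nat_lit 0) (nat_lit 29623765049) (nat_lit 76) (nat_lit 90267467000) (nat_lit 152) (nat_lit 110115139726) (nat_lit 8) (nat_lit 5) (nat_lit 9) (nat_lit 5) (nat_lit 10) (nat_lit 4) (nat_lit 341) (nat_lit 280) (nat_lit 99)))) (XT.nd (nat_lit 156) (nat_lit 0) (nat_lit 0) (XT.nd (nat_lit 78) (nat_lit 0) (nat_lit 0) (XT.lf (nat_lit 0) (nat_lit 80131128938) (nat_lit 76) (nat_lit 64398575412) (nat_lit 152) (nat_lit 95472321910) (nat_lit 8) (nat_lit 5) (nat_lit 9) (nat_lit 5) (nat_lit 10) (nat_lit 4) (nat_lit 342) (nat_lit 280) (nat_lit 98)) (XT.lf (nat_lit 0) (nat_lit 133163197525) (nat_lit 76) (nat_lit 37236507450) (nat_lit 152)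 (nat_lit 80097779043) (nat_lit 8) (nat_lit 5) (nat_lit 9) (nat_lit 5) (nat_lit 10) (nat_lit 4) (nat_lit 343) (nat_lit 280) (nat_lit 97))) (XT.nd (nat_lit 32604) (nat_lit 0) (nat_lit 3952) (XT.lf (nat_lit 0) (nat_lit 188846237639) (nat_lit 76) (nat_lit 8716591524) (nat_lit 152) (nat_lit 63954905073) (nat_lit 8) (nat_lit 5) (nat_lit 9) (nat_lit 5) (nat_lit 10) (nat_lit 4) (nat_lit 344) (nat_lit 280) (nat_lit 96)) (XT.lf (nat_lit 0) (nat_lit 979713285) (nat_lit 0) (nat_lit 979713285) (nat_lit 684) (nat_lit 13287328601) (nat_lit 60) (nat_lit 5) (nat_lit 60) (nat_lit 3) (nat_lit 69) (nat_lit 3) (nat_lit 281) (nat_lit 281) (nat_lit 158))))) (XT.nd (nat_lit 312) (nat_lit 0) (nat_lit 76) (XT.nd (nat_lit 156) (nat_lit 0) (nat_lit 76) (XT.nd (nat_lit 78) (nat_lit 0) (nat_lit 0) (XT.lf (nat_lit 0) (nat_lit 4251394657) (nat_lit 684) (nat_lit 16376672899) (nat_lit 760) (nat_lit 10615773869) (nat_lit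 60) (nat_lit 5) (nat_lit 69) (nat_lit 3) (nat_lit 70) (nat_lit 5) (nat_lit 282) (nat_lit 281) (nat_lit 157)) (XT.lf (nat_lit 0) (nat_lit 4628661586) (nat_lit 684) (nat_lit 3645792975) (nat_lit 760) (nat_lit 23755847389) (nat_lit 60) (nat_lit 5) (nat_lit 69) (nat_lit 3) (nat_lit 70) (nat_lit 5) (nat_lit 283) (nat_lit 281) (nat_lit 156))) (XT.nd (nat_lit 78) (nat_lit 0) (nat_lit 0) (XT.lf (nat_lit 0) (nat_lit 5253652197) (nat_lit 684) (nat_lit 22883553462) (nat_lit 760) (nat_lit 4707453784) (nat_lit 61) (nat_lit 5) (nat_lit 70) (nat_lit 5) (nat_lit 71) (nat_lit 5) (nat_lit 284) (nat_lit 281) (nat_lit 155)) (XT.lf (nat_lit 0) (nat_lit 6104636030) (nat_lit 684) (nat_lit 9460743643) (nat_lit 760) (nat_lit 18124634104) (nat_lit 61) (nat_lit 5) (nat_lit 70) (nat_lit 5) (nat_lit 71) (nat_lit 5) (nat_lit 285) (nat_lit 281) (nat_lit 154)))) (XT.nd (nat_lit 156) (nat_lit 0) (nat_lit 76) (XT.nd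 (nat_lit 78) (nat_lit 0) (nat_lit 76) (XT.lf (nat_lit 76) (nat_lit 4784078878) (nat_lit 0) (nat_lit 2285298716) (nat_lit 760) (nat_lit 27504713189) (nat_lit 62) (nat_lit 5) (nat_lit 61) (nat_lit 5) (nat_lit 71) (nat_lit 5) (nat_lit 286) (nat_lit 281) (nat_lit 153)) (XT.lf (nat_lit 0) (nat_lit 8423896291) (nat_lit 684) (nat_lit 15611827308) (nat_lit 760) (nat_lit 11449585686) (nat_lit 62) (nat_lit 5) (nat_lit 71) (nat_lit 5) (nat_lit 72) (nat_lit 5) (nat_lit 287) (nat_lit 281) (nat_lit 152))) (XT.nd (nat_lit 78) (nat_lit 0) (nat_lit 76) (XT.lf (nat_lit 0) (nat_lit 9880428514) (nat_lit 684) (nat_lit 764494575) (nat_lit 760) (nat_lit 25795465195) (nat_lit 62) (nat_lit 5) (nat_lit 71) (nat_lit 5) (nat_lit 72) (nat_lit 5) (nat_lit 288) (nat_lit 281) (nat_lit 151)) (XT.nd (nat_lit 78) (nat_lit 0) (nat_lit 0) (XT.lf (nat_lit 0) (nat_lit 11703099867) (nat_lit 684) (nat_lit 22175555513) (nat_lit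 760) (nat_lit 3549913515) (nat_lit 63) (nat_lit 5) (nat_lit 72) (nat_lit 5) (nat_lit 73) (nat_lit 5) (nat_lit 289) (nat_lit 281) (nat_lit 150)) (XT.lf (nat_lit 0) (nat_lit 13801668330) (nat_lit 684) (nat_lit 6544614891) (nat_lit 760) (nat_lit 18110649791) (nat_lit 63) (nat_lit 5) (nat_lit 72) (nat_lit 5) (nat_lit 73) (nat_lit 5) (nat_lit 290) (nat_lit 281) (nat_lit 149))))))) (XT.nd (nat_lit 702) (nat_lit 1064) (nat_lit 0) (XT.nd (nat_lit 312) (nat_lit 608) (nat_lit 0) (XT.nd (nat_lit 156) (nat_lit 608) (nat_lit 0) (XT.nd (nat_lit 78) (nat_lit 0) (nat_lit 76) (XT.lf (nat_lit 76) (nat_lit 10191863872) (nat_lit 0) (nat_lit 5969660401) (nat_lit 760) (nat_lit 23367385163) (nat_lit 64) (nat_lit 5) (nat_lit 63) (nat_lit 5) (nat_lit 73) (nat_lit 5) (nat_lit 291) (nat_lit 281) (nat_lit 148)) (XT.lf (nat_lit 0) (nat_lit 18891846250) (nat_lit 684) (nat_lit 12803187220) (nat_lit 76) (nat_lit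 8946839027) (nat_lit 64) (nat_lit 5) (nat_lit 73) (nat_lit 5) (nat_lit 65) (nat_lit 5) (nat_lit 292) (nat_lit 281) (nat_lit 147))) (XT.nd (nat_lit 78) (nat_lit 0) (nat_lit 0) (XT.lf (nat_lit 0) (nat_lit 4604660578) (nat_lit 684) (nat_lit 17321246132) (nat_lit 760) (nat_lit 19876226813) (nat_lit 55) (nat_lit 5) (nat_lit 64) (nat_lit 5) (nat_lit 65) (nat_lit 5) (nat_lit 293) (nat_lit 281) (nat_lit 146)) (XT.lf (nat_lit 0) (nat_lit 23325216220) (nat_lit 684) (nat_lit 2000836115) (nat_lit 760) (nat_lit 17683646570) (nat_lit 55) (nat_lit 5) (nat_lit 64) (nat_lit 5) (nat_lit 65) (nat_lit 5) (nat_lit 294) (nat_lit 281) (nat_lit 145)))) (XT.nd (nat_lit 156) (nat_lit 304) (nat_lit 0) (XT.nd (nat_lit 78) (nat_lit 304) (nat_lit 0) (XT.lf (nat_lit 0) (nat_lit 29113795213) (nat_lit 760) (nat_lit 1517967207) (nat_lit 76) (nat_lit 13635010550) (nat_lit 55) (nat_lit 5) (nat_lit 65) (nat_lit 5) (nat_lit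 56) (nat_lit 5) (nat_lit 295) (nat_lit 281) (nat_lit 144)) (XT.lf (nat_lit 0) (nat_lit 18101325391) (nat_lit 304) (nat_lit 15302797967) (nat_lit 380) (nat_lit 12166926919) (nat_lit 51) (nat_lit 5) (nat_lit 55) (nat_lit 5) (nat_lit 56) (nat_lit 5) (nat_lit 296) (nat_lit 281) (nat_lit 143))) (XT.nd (nat_lit 78) (nat_lit 304) (nat_lit 0) (XT.lf (nat_lit 0) (nat_lit 37945331191) (nat_lit 380) (nat_lit 8199956227) (nat_lit 76) (nat_lit 793444862) (nat_lit 51) (nat_lit 5) (nat_lit 56) (nat_lit 5) (nat_lit 52) (nat_lit 5) (nat_lit 297) (nat_lit 281) (nat_lit 142)) (XT.nd (nat_lit 78) (nat_lit 0) (nat_lit 0) (XT.lf (nat_lit 0) (nat_lit 12169864324) (nat_lit 304) (nat_lit 30982567651) (nat_lit 380) (nat_lit 5200433343) (nat_lit 47) (nat_lit 5) (nat_lit 51) (nat_lit 5) (nat_lit 52) (nat_lit 5) (nat_lit 298) (nat_lit 281) (nat_lit 141)) (XT.lf (nat_lit 0) (nat_lit 33840810796) (nat_lit 304) (nat_lit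 14915973648) (nat_lit 380) (nat_lit 1074083889) (nat_lit 47) (nat_lit 5) (nat_lit 51) (nat_lit 5) (nat_lit 52) (nat_lit 5) (nat_lit 299) (nat_lit 281) (nat_lit 140)))))) (XT.nd (nat_lit 312) (nat_lit 456) (nat_lit 0) (XT.nd (nat_lit 156) (nat_lit 304) (nat_lit 0) (XT.nd (nat_lit 78) (nat_lit 0) (nat_lit 0) (XT.lf (nat_lit 0) (nat_lit 3268293312) (nat_lit 304) (nat_lit 46078637306) (nat_lit 76) (nat_lit 2027604236) (nat_lit 43) (nat_lit 5) (nat_lit 47) (nat_lit 5) (nat_lit 44) (nat_lit 5) (nat_lit 300) (nat_lit 281) (nat_lit 139)) (XT.lf (nat_lit 0) (nat_lit 8309596236) (nat_lit 304) (nat_lit 25049214637) (nat_lit 76) (nat_lit 19609805321) (nat_lit 43) (nat_lit 5) (nat_lit 47) (nat_lit 5) (nat_lit 44) (nat_lit 5) (nat_lit 301) (nat_lit 281) (nat_lit 138))) (XT.nd (nat_lit 78) (nat_lit 304) (nat_lit 0) (XT.lf (nat_lit 0) (nat_lit 13601193136) (nat_lit 304) (nat_lit 2970308988) (nat_lit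 76) (nat_lit 38070994747) (nat_lit 43) (nat_lit 5) (nat_lit 47) (nat_lit 5) (nat_lit 44) (nat_lit 5) (nat_lit 302) (nat_lit 281) (nat_lit 137)) (XT.lf (nat_lit 0) (nat_lit 19503476124) (nat_lit 380) (nat_lit 35526774500) (nat_lit 76) (nat_lit 1352522037) (nat_lit 39) (nat_lit 5) (nat_lit 44) (nat_lit 5) (nat_lit 40) (nat_lit 5) (nat_lit 303) (nat_lit 281) (nat_lit 136)))) (XT.nd (nat_lit 156) (nat_lit 228) (nat_lit 0) (XT.nd (nat_lit 78) (nat_lit 228) (nat_lit 0) (XT.lf (nat_lit 0) (nat_lit 26022026360) (nat_lit 380) (nat_lit 12505239846) (nat_lit 76) (nat_lit 19666744466) (nat_lit 39) (nat_lit 5) (nat_lit 44) (nat_lit 5) (nat_lit 40) (nat_lit 5) (nat_lit 304) (nat_lit 281) (nat_lit 135)) (XT.lf (nat_lit 0) (nat_lit 12051231686) (nat_lit 228) (nat_lit 21001864837) (nat_lit 304) (nat_lit 27033390237) (nat_lit 36) (nat_lit 5) (nat_lit 39) (nat_lit 5) (nat_lit 40) (nat_lit 5) (nat_lit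 305) (nat_lit 281) (nat_lit 134))) (XT.nd (nat_lit 78) (nat_lit 228) (nat_lit 0) (XT.lf (nat_lit 0) (nat_lit 38267855867) (nat_lit 228) (nat_lit 2378131380) (nat_lit 304) (nat_lit 21417091574) (nat_lit 36) (nat_lit 5) (nat_lit 39) (nat_lit 5) (nat_lit 40) (nat_lit 5) (nat_lit 306) (nat_lit 281) (nat_lit 133)) (XT.nd (nat_lit 78) (nat_lit 0) (nat_lit 0) (XT.lf (nat_lit 0) (nat_lit 1432677029) (nat_lit 228) (nat_lit 47474943711) (nat_lit 304) (nat_lit 15216430092) (nat_lit 33) (nat_lit 5) (nat_lit 36) (nat_lit 5) (nat_lit 37) (nat_lit 5) (nat_lit 307) (nat_lit 281) (nat_lit 132)) (XT.lf (nat_lit 0) (nat_lit 28706032275) (nat_lit 228) (nat_lit 29316237648) (nat_lit 304) (nat_lit 8243809827) (nat_lit 33) (nat_lit 5) (nat_lit 36) (nat_lit 5) (nat_lit 37) (nat_lit 5) (nat_lit 308) (nat_lit 281) (nat_lit 131))))))))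
noncomputable def xc223 : XT := (XT.nd (nat_lit 1326) (nat_lit 684) (nat_lit 0) (XT.nd (nat_lit 624) (nat_lit 532) (nat_lit 0) (XT.nd (nat_lit 312) (nat_lit 152) (nat_lit 0) (XT.nd (nat_lit 156) (nat_lit 228) (nat_lit 0) (XT.nd (nat_lit 78) (nat_lit 304) (nat_lit 0) (XT.lf (nat_lit 0) (nat_lit 57341358769) (nat_lit 228) (nat_lit 10249953220) (nat_lit 304) (nat_lit 923969874) (nat_lit 33) (nat_lit 5) (nat_lit 36) (nat_lit 5) (nat_lit 37) (nat_lit 5) (nat_lit 309) (nat_lit 281) (nat_lit 130)) (XT.lf (nat_lit 0) (nat_lit 6967646111) (nat_lit 304) (nat_lit 54049755378) (nat_lit 76) (nat_lit 9833158045) (nat_lit 29) (nat_lit 5) (nat_lit 33) (nat_lit 5) (nat_lit 30) (nat_lit 5) (nat_lit 310) (nat_lit 281) (nat_lit 129))) (XT.nd (nat_lit 78) (nat_lit 228) (nat_lit 0) (XT.lf (nat_lit 0) (nat_lit 15581891000) (nat_lit 304) (nat_lit 26918917247) (nat_lit 76) (nat_lit 30783084630) (nat_lit 29)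 (nat_lit 5) (nat_lit 33) (nat_lit 5) (nat_lit 30) (nat_lit 5) (nat_lit 311) (nat_lit 281) (nat_lit 128)) (XT.lf (nat_lit 0) (nat_lit 1618652832) (nat_lit 228) (nat_lit 23032257019) (nat_lit 304) (nat_lit 51186783877) (nat_lit 26) (nat_lit 5) (nat_lit 29) (nat_lit 5) (nat_lit 30) (nat_lit 5) (nat_lit 312) (nat_lit 281) (nat_lit 127)))) (XT.nd (nat_lit 156) (nat_lit 152) (nat_lit 0) (XT.nd (nat_lit 78) (nat_lit 0) (nat_lit 0) (XT.lf (nat_lit 0) (nat_lit 32516074561) (nat_lit 228) (nat_lit 2112012762) (nat_lit 304) (nat_lit 43868365649) (nat_lit 26) (nat_lit 5) (nat_lit 29) (nat_lit 5) (nat_lit 30) (nat_lit 5) (nat_lit 313) (nat_lit 281) (nat_lit 126)) (XT.lf (nat_lit 0) (nat_lit 45412976752) (nat_lit 304) (nat_lit 16641331775) (nat_lit 76) (nat_lit 19218402556) (nat_lit 26) (nat_lit 5) (nat_lit 30) (nat_lit 5) (nat_lit 27) (nat_lit 5) (nat_lit 314) (nat_lit 281) (nat_lit 125))) (XT.nd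 (nat_lit 78) (nat_lit 0) (nat_lit 0) (XT.lf (nat_lit 0) (nat_lit 14595703814) (nat_lit 152) (nat_lit 42402836217) (nat_lit 228) (nat_lit 27176173991) (nat_lit 24) (nat_lit 5) (nat_lit 26) (nat_lit 5) (nat_lit 27) (nat_lit 5) (nat_lit 315) (nat_lit 281) (nat_lit 124)) (XT.lf (nat_lit 0) (nat_lit 47970870849) (nat_lit 152) (nat_lit 21473294186) (nat_lit 228) (nat_lit 17763616121) (nat_lit 24) (nat_lit 5) (nat_lit 26) (nat_lit 5) (nat_lit 27) (nat_lit 5) (nat_lit 316) (nat_lit 281) (nat_lit 123))))) (XT.nd (nat_lit 312) (nat_lit 304) (nat_lit 0) (XT.nd (nat_lit 156) (nat_lit 0) (nat_lit 0) (XT.nd (nat_lit 78) (nat_lit 228) (nat_lit 0) (XT.lf (nat_lit 0) (nat_lit 82518918265) (nat_lit 228) (nat_lit 7387000712) (nat_lit 76) (nat_lit 486243397) (nat_lit 24) (nat_lit 5) (nat_lit 27) (nat_lit 5) (nat_lit 25) (nat_lit 5) (nat_lit 317) (nat_lit 281) (nat_lit 122)) (XT.lf (nat_lit 0) (nat_lit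 3209421803) (nat_lit 228) (nat_lit 67197419629) (nat_lit 76) (nat_lit 23288055134) (nat_lit 21) (nat_lit 5) (nat_lit 24) (nat_lit 5) (nat_lit 22) (nat_lit 5) (nat_lit 318) (nat_lit 281) (nat_lit 121))) (XT.nd (nat_lit 78) (nat_lit 0) (nat_lit 0) (XT.lf (nat_lit 0) (nat_lit 14707833750) (nat_lit 228) (nat_lit 34956383587) (nat_lit 76) (nat_lit 47485789036) (nat_lit 21) (nat_lit 5) (nat_lit 24) (nat_lit 5) (nat_lit 22) (nat_lit 5) (nat_lit 319) (nat_lit 281) (nat_lit 120)) (XT.lf (nat_lit 0) (nat_lit 26780263513) (nat_lit 228) (nat_lit 1104618850) (nat_lit 76) (nat_lit 72893036979) (nat_lit 21) (nat_lit 5) (nat_lit 24) (nat_lit 5) (nat_lit 22) (nat_lit 5) (nat_lit 320) (nat_lit 281) (nat_lit 119)))) (XT.nd (nat_lit 156) (nat_lit 152) (nat_lit 0) (XT.nd (nat_lit 78) (nat_lit 0) (nat_lit 0) (XT.lf (nat_lit 0) (nat_lit 35577165503) (nat_lit 152) (nat_lit 4433748725) (nat_lit 228) (nat_lit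 64548586165) (nat_lit 19) (nat_lit 5) (nat_lit 21) (nat_lit 5) (nat_lit 22) (nat_lit 5) (nat_lit 321) (nat_lit 281) (nat_lit 118)) (XT.lf (nat_lit 0) (nat_lit 54236488506) (nat_lit 228) (nat_lit 34714642147) (nat_lit 76) (nat_lit 19562362588) (nat_lit 19) (nat_lit 5) (nat_lit 22) (nat_lit 5) (nat_lit 20) (nat_lit 5) (nat_lit 322) (nat_lit 281) (nat_lit 117))) (XT.nd (nat_lit 78) (nat_lit 0) (nat_lit 0) (XT.lf (nat_lit 0) (nat_lit 1231964518) (nat_lit 152) (nat_lit 68032491539) (nat_lit 228) (nat_lit 43396176131) (nat_lit 17) (nat_lit 5) (nat_lit 19) (nat_lit 5) (nat_lit 20) (nat_lit 5) (nat_lit 323) (nat_lit 281) (nat_lit 116)) (XT.nd (nat_lit 78) (nat_lit 0) (nat_lit 0) (XT.lf (nat_lit 0) (nat_lit 40179918264) (nat_lit 152) (nat_lit 45451028326) (nat_lit 228) (nat_lit 31354827342) (nat_lit 17) (nat_lit 5) (nat_lit 19) (nat_lit 5) (nat_lit 20) (nat_lit 5) (nat_lit 324) (nat_lit 281)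 (nat_lit 115)) (XT.lf (nat_lit 0) (nat_lit 81074129468) (nat_lit 152) (nat_lit 21740884890) (nat_lit 228) (nat_lit 18712197753) (nat_lit 17) (nat_lit 5) (nat_lit 19) (nat_lit 5) (nat_lit 20) (nat_lit 5) (nat_lit 325) (nat_lit 281) (nat_lit 114))))))) (XT.nd (nat_lit 702) (nat_lit 304) (nat_lit 0) (XT.nd (nat_lit 312) (nat_lit 228) (nat_lit 0) (XT.nd (nat_lit 156) (nat_lit 0) (nat_lit 0) (XT.nd (nat_lit 78) (nat_lit 152) (nat_lit 0) (XT.lf (nat_lit 0) (nat_lit 120906822698) (nat_lit 228) (nat_lit 2333043264) (nat_lit 76) (nat_lit 3053431264) (nat_lit 17) (nat_lit 5) (nat_lit 20) (nat_lit 5) (nat_lit 18) (nat_lit 4) (nat_lit 326) (nat_lit 281) (nat_lit 113)) (XT.lf (nat_lit 0) (nat_lit 9303716176) (nat_lit 152) (nat_lit 92829845926) (nat_lit 76) (nat_lit 29108727772) (nat_lit 15) (nat_lit 5) (nat_lit 17) (nat_lit 5) (nat_lit 16) (nat_lit 5) (nat_lit 327) (nat_lit 281) (nat_lit 112)))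 (XT.nd (nat_lit 78) (nat_lit 0) (nat_lit 0) (XT.lf (nat_lit 0) (nat_lit 24586874710) (nat_lit 152) (nat_lit 55250574949) (nat_lit 76) (nat_lit 56594895025) (nat_lit 15) (nat_lit 5) (nat_lit 17) (nat_lit 5) (nat_lit 16) (nat_lit 5) (nat_lit 328) (nat_lit 281) (nat_lit 111)) (XT.lf (nat_lit 0) (nat_lit 40633543758) (nat_lit 152) (nat_lit 15793360696) (nat_lit 76) (nat_lit 85455031704) (nat_lit 15) (nat_lit 5) (nat_lit 17) (nat_lit 5) (nat_lit 16) (nat_lit 5) (nat_lit 329) (nat_lit 281) (nat_lit 110)))) (XT.nd (nat_lit 156) (nat_lit 76) (nat_lit 0) (XT.nd (nat_lit 78) (nat_lit 0) (nat_lit 0) (XT.lf (nat_lit 0) (nat_lit 26483376005) (nat_lit 152) (nat_lit 31412033390) (nat_lit 228) (nat_lit 89687956134) (nat_lit 13) (nat_lit 5) (nat_lit 15) (nat_lit 5) (nat_lit 16) (nat_lit 5) (nat_lit 330) (nat_lit 281) (nat_lit 109)) (XT.lf (nat_lit 0) (nat_lit 71421303347) (nat_lit 152) (nat_lit 4865931022)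 (nat_lit 228) (nat_lit 77269290103) (nat_lit 13) (nat_lit 5) (nat_lit 15) (nat_lit 5) (nat_lit 16) (nat_lit 5) (nat_lit 331) (nat_lit 281) (nat_lit 108))) (XT.nd (nat_lit 78) (nat_lit 76) (nat_lit 0) (XT.lf (nat_lit 0) (nat_lit 95957283043) (nat_lit 228) (nat_lit 41582360737) (nat_lit 76) (nat_lit 22270767301) (nat_lit 13) (nat_lit 5) (nat_lit 16) (nat_lit 5) (nat_lit 14) (nat_lit 4) (nat_lit 332) (nat_lit 281) (nat_lit 107)) (XT.nd (nat_lit 78) (nat_lit 0) (nat_lit 0) (XT.lf (nat_lit 0) (nat_lit 947818718) (nat_lit 76) (nat_lit 115757031722) (nat_lit 152) (nat_lit 49667442045) (nat_lit 12) (nat_lit 5) (nat_lit 13) (nat_lit 5) (nat_lit 14) (nat_lit 4) (nat_lit 333) (nat_lit 281) (nat_lit 106)) (XT.lf (nat_lit 0) (nat_lit 47047276473) (nat_lit 76) (nat_lit 92146198520) (nat_lit 152) (nat_lit 34033610243) (nat_lit 12) (nat_lit 5) (nat_lit 13) (nat_lit 5) (nat_lit 14) (nat_lit 4) (nat_lit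 334) (nat_lit 281) (nat_lit 105)))))) (XT.nd (nat_lit 312) (nat_lit 76) (nat_lit 0) (XT.nd (nat_lit 156) (nat_lit 228) (nat_lit 0) (XT.nd (nat_lit 78) (nat_lit 0) (nat_lit 0) (XT.lf (nat_lit 0) (nat_lit 95450872505) (nat_lit 76) (nat_lit 67355145305) (nat_lit 152) (nat_lit 17618626622) (nat_lit 12) (nat_lit 5) (nat_lit 13) (nat_lit 5) (nat_lit 14) (nat_lit 4) (nat_lit 335) (nat_lit 281) (nat_lit 104)) (XT.lf (nat_lit 0) (nat_lit 146273853469) (nat_lit 76) (nat_lit 41324845760) (nat_lit 152) (nat_lit 383407888) (nat_lit 12) (nat_lit 5) (nat_lit 13) (nat_lit 5) (nat_lit 14) (nat_lit 4) (nat_lit 336) (nat_lit 281) (nat_lit 103))) (XT.nd (nat_lit 78) (nat_lit 0) (nat_lit 0) (XT.lf (nat_lit 0) (nat_lit 3557056376) (nat_lit 152) (nat_lit 13644632184) (nat_lit 228) (nat_lit 178699174368) (nat_lit 9) (nat_lit 5) (nat_lit 11) (nat_lit 5) (nat_lit 12) (nat_lit 5) (nat_lit 337) (nat_lit 281)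 (nat_lit 102)) (XT.lf (nat_lit 0) (nat_lit 36611358927) (nat_lit 228) (nat_lit 151905979360) (nat_lit 76) (nat_lit 15649994721) (nat_lit 9) (nat_lit 5) (nat_lit 12) (nat_lit 5) (nat_lit 10) (nat_lit 4) (nat_lit 338) (nat_lit 281) (nat_lit 101)))) (XT.nd (nat_lit 156) (nat_lit 76) (nat_lit 0) (XT.nd (nat_lit 78) (nat_lit 0) (nat_lit 0) (XT.lf (nat_lit 0) (nat_lit 57214749699) (nat_lit 228) (nat_lit 109670686801) (nat_lit 76) (nat_lit 45950529156) (nat_lit 9) (nat_lit 5) (nat_lit 12) (nat_lit 5) (nat_lit 10) (nat_lit 4) (nat_lit 339) (nat_lit 281) (nat_lit 100)) (XT.lf (nat_lit 0) (nat_lit 78847885620) (nat_lit 228) (nat_lit 65324337707) (nat_lit 76) (nat_lit 77765828692) (nat_lit 9) (nat_lit 5) (nat_lit 12) (nat_lit 5) (nat_lit 10) (nat_lit 4) (nat_lit 340) (nat_lit 281) (nat_lit 99))) (XT.nd (nat_lit 78) (nat_lit 76) (nat_lit 0) (XT.lf (nat_lit 0) (nat_lit 101562274159) (nat_lit 228)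 (nat_lit 18761345532) (nat_lit 76) (nat_lit 111171644043) (nat_lit 9) (nat_lit 5) (nat_lit 12) (nat_lit 5) (nat_lit 10) (nat_lit 4) (nat_lit 341) (nat_lit 281) (nat_lit 98)) (XT.nd (nat_lit 78) (nat_lit 0) (nat_lit 0) (XT.lf (nat_lit 0) (nat_lit 31125359887) (nat_lit 76) (nat_lit 94772591400) (nat_lit 152) (nat_lit 115608107074) (nat_lit 8) (nat_lit 5) (nat_lit 9) (nat_lit 5) (nat_lit 10) (nat_lit 4) (nat_lit 342) (nat_lit 281) (nat_lit 97)) (XT.lf (nat_lit 0) (nat_lit 84157120229) (nat_lit 76) (nat_lit 67610648040) (nat_lit 152) (nat_lit 100233757397) (nat_lit 8) (nat_lit 5) (nat_lit 9) (nat_lit 5) (nat_lit 10) (nat_lit 4) (nat_lit 343) (nat_lit 281) (nat_lit 96))))))))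
noncomputable def xc224 : XT := (XT.nd (nat_lit 33930) (nat_lit 0) (nat_lit 1368) (XT.nd (nat_lit 33228) (nat_lit 0) (nat_lit 3268) (XT.nd (nat_lit 32916) (nat_lit 0) (nat_lit 4028) (XT.nd (nat_lit 32760) (nat_lit 0) (nat_lit 3952) (XT.nd (nat_lit 32682) (nat_lit 0) (nat_lit 3952) (XT.lf (nat_lit 0) (nat_lit 139839866776) (nat_lit 76) (nat_lit 39090850782) (nat_lit 152) (nat_lit 84091067416) (nat_lit 8) (nat_lit 5) (nat_lit 9) (nat_lit 5) (nat_lit 10) (nat_lit 4) (nat_lit 344) (nat_lit 281) (nat_lit 95)) (XT.lf (nat_lit 0) (nat_lit 1059878443) (nat_lit 0) (nat_lit 1059878443) (nat_lit 684) (nat_lit 13885944269) (nat_lit 60) (nat_lit 5) (nat_lit 60) (nat_lit 3) (nat_lit 69) (nat_lit 3) (nat_lit 282) (nat_lit 282) (nat_lit 156))) (XT.nd (nat_lit 78) (nat_lit 0) (nat_lit 0) (XT.lf (nat_lit 0) (nat_lit 4581816177) (nat_lit 684) (nat_lit 17128729274) (nat_lit 760) (nat_lit 11089073886)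 (nat_lit 60) (nat_lit 5) (nat_lit 69) (nat_lit 3) (nat_lit 70) (nat_lit 5) (nat_lit 283) (nat_lit 282) (nat_lit 155)) (XT.lf (nat_lit 0) (nat_lit 4972334463) (nat_lit 684) (nat_lit 3764485224) (nat_lit 760) (nat_lit 24888888637) (nat_lit 60) (nat_lit 5) (nat_lit 69) (nat_lit 3) (nat_lit 70) (nat_lit 5) (nat_lit 284) (nat_lit 282) (nat_lit 154)))) (XT.nd (nat_lit 156) (nat_lit 0) (nat_lit 0) (XT.nd (nat_lit 78) (nat_lit 0) (nat_lit 0) (XT.lf (nat_lit 0) (nat_lit 5623499506) (nat_lit 684) (nat_lit 23958585557) (nat_lit 760) (nat_lit 4898976038) (nat_lit 61) (nat_lit 5) (nat_lit 70) (nat_lit 5) (nat_lit 71) (nat_lit 5) (nat_lit 285) (nat_lit 282) (nat_lit 153)) (XT.lf (nat_lit 0) (nat_lit 6511929450) (nat_lit 684) (nat_lit 9867927893) (nat_lit 760) (nat_lit 18989103490) (nat_lit 61) (nat_lit 5) (nat_lit 70) (nat_lit 5) (nat_lit 71) (nat_lit 5) (nat_lit 286) (nat_lit 282) (nat_lit 152)))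 (XT.nd (nat_lit 78) (nat_lit 0) (nat_lit 76) (XT.lf (nat_lit 76) (nat_lit 5088073609) (nat_lit 0) (nat_lit 2432985971) (nat_lit 760) (nat_lit 28776395989) (nat_lit 62) (nat_lit 5) (nat_lit 61) (nat_lit 5) (nat_lit 71) (nat_lit 5) (nat_lit 287) (nat_lit 282) (nat_lit 151)) (XT.lf (nat_lit 0) (nat_lit 8938130431) (nat_lit 684) (nat_lit 16325130715) (nat_lit 760) (nat_lit 11991252974) (nat_lit 62) (nat_lit 5) (nat_lit 71) (nat_lit 5) (nat_lit 72) (nat_lit 5) (nat_lit 288) (nat_lit 282) (nat_lit 150))))) (XT.nd (nat_lit 312) (nat_lit 836) (nat_lit 0) (XT.nd (nat_lit 156) (nat_lit 0) (nat_lit 76) (XT.nd (nat_lit 78) (nat_lit 0) (nat_lit 76) (XT.lf (nat_lit 0) (nat_lit 10463058820) (nat_lit 684) (nat_lit 738635534) (nat_lit 760) (nat_lit 27055893696) (nat_lit 62) (nat_lit 5) (nat_lit 71) (nat_lit 5) (nat_lit 72) (nat_lit 5) (nat_lit 289) (nat_lit 282) (nat_lit 149)) (XT.lf (nat_lit 0) (nat_lit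 12373280126) (nat_lit 684) (nat_lit 23216295233) (nat_lit 760) (nat_lit 3705800047) (nat_lit 63) (nat_lit 5) (nat_lit 72) (nat_lit 5) (nat_lit 73) (nat_lit 5) (nat_lit 290) (nat_lit 282) (nat_lit 148))) (XT.nd (nat_lit 78) (nat_lit 0) (nat_lit 0) (XT.lf (nat_lit 0) (nat_lit 14572728190) (nat_lit 684) (nat_lit 6807047488) (nat_lit 760) (nat_lit 18995602144) (nat_lit 63) (nat_lit 5) (nat_lit 72) (nat_lit 5) (nat_lit 73) (nat_lit 5) (nat_lit 291) (nat_lit 282) (nat_lit 147)) (XT.lf (nat_lit 76) (nat_lit 10765210083) (nat_lit 0) (nat_lit 6282506190) (nat_lit 760) (nat_lit 24453396638) (nat_lit 64) (nat_lit 5) (nat_lit 63) (nat_lit 5) (nat_lit 73) (nat_lit 5) (nat_lit 292) (nat_lit 282) (nat_lit 146)))) (XT.nd (nat_lit 156) (nat_lit 304) (nat_lit 0) (XT.nd (nat_lit 78) (nat_lit 684) (nat_lit 0) (XT.lf (nat_lit 0) (nat_lit 19910620984) (nat_lit 684) (nat_lit 13378375859) (nat_lit 76) (nat_lit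 9380939959) (nat_lit 64) (nat_lit 5) (nat_lit 73) (nat_lit 5) (nat_lit 65) (nat_lit 5) (nat_lit 293) (nat_lit 282) (nat_lit 145)) (XT.lf (nat_lit 0) (nat_lit 4898816414) (nat_lit 684) (nat_lit 18195033571) (nat_lit 760) (nat_lit 20794502866) (nat_lit 55) (nat_lit 5) (nat_lit 64) (nat_lit 5) (nat_lit 65) (nat_lit 5) (nat_lit 294) (nat_lit 282) (nat_lit 144))) (XT.nd (nat_lit 78) (nat_lit 304) (nat_lit 0) (XT.lf (nat_lit 0) (nat_lit 24552355894) (nat_lit 684) (nat_lit 2108235189) (nat_lit 760) (nat_lit 18495890529) (nat_lit 55) (nat_lit 5) (nat_lit 64) (nat_lit 5) (nat_lit 65) (nat_lit 5) (nat_lit 295) (nat_lit 282) (nat_lit 143)) (XT.nd (nat_lit 78) (nat_lit 304) (nat_lit 0) (XT.lf (nat_lit 0) (nat_lit 30634362369) (nat_lit 760) (nat_lit 1532250361) (nat_lit 76) (nat_lit 14309978420) (nat_lit 55) (nat_lit 5) (nat_lit 65) (nat_lit 5) (nat_lit 56) (nat_lit 5) (nat_lit 296) (nat_lit 282)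 (nat_lit 142)) (XT.lf (nat_lit 0) (nat_lit 19067013074) (nat_lit 304) (nat_lit 16070050918) (nat_lit 380) (nat_lit 12709138648) (nat_lit 51) (nat_lit 5) (nat_lit 55) (nat_lit 5) (nat_lit 56) (nat_lit 5) (nat_lit 297) (nat_lit 282) (nat_lit 141))))))) (XT.nd (nat_lit 624) (nat_lit 988) (nat_lit 0) (XT.nd (nat_lit 312) (nat_lit 304) (nat_lit 0) (XT.nd (nat_lit 156) (nat_lit 304) (nat_lit 0) (XT.nd (nat_lit 78) (nat_lit 304) (nat_lit 0) (XT.lf (nat_lit 0) (nat_lit 39902313441) (nat_lit 380) (nat_lit 8548949699) (nat_lit 76) (nat_lit 831169084) (nat_lit 51) (nat_lit 5) (nat_lit 56) (nat_lit 5) (nat_lit 52) (nat_lit 5) (nat_lit 298) (nat_lit 282) (nat_lit 140)) (XT.lf (nat_lit 0) (nat_lit 12838377938) (nat_lit 304) (nat_lit 32529484809) (nat_lit 380) (nat_lit 5399516442) (nat_lit 47) (nat_lit 5) (nat_lit 51) (nat_lit 5) (nat_lit 52) (nat_lit 5) (nat_lit 299) (nat_lit 282) (nat_lit 139)))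 (XT.nd (nat_lit 78) (nat_lit 304) (nat_lit 0) (XT.lf (nat_lit 0) (nat_lit 35590013620) (nat_lit 304) (nat_lit 15659666402) (nat_lit 380) (nat_lit 1069751351) (nat_lit 47) (nat_lit 5) (nat_lit 51) (nat_lit 5) (nat_lit 52) (nat_lit 5) (nat_lit 300) (nat_lit 282) (nat_lit 138)) (XT.lf (nat_lit 0) (nat_lit 3486182281) (nat_lit 304) (nat_lit 48321421333) (nat_lit 76) (nat_lit 2132727864) (nat_lit 43) (nat_lit 5) (nat_lit 47) (nat_lit 5) (nat_lit 44) (nat_lit 5) (nat_lit 301) (nat_lit 282) (nat_lit 137)))) (XT.nd (nat_lit 156) (nat_lit 304) (nat_lit 0) (XT.nd (nat_lit 78) (nat_lit 0) (nat_lit 0) (XT.lf (nat_lit 0) (nat_lit 8776956337) (nat_lit 304) (nat_lit 26243439332) (nat_lit 76) (nat_lit 20593860746) (nat_lit 43) (nat_lit 5) (nat_lit 47) (nat_lit 5) (nat_lit 44) (nat_lit 5) (nat_lit 302) (nat_lit 282) (nat_lit 136)) (XT.lf (nat_lit 0) (nat_lit 14330662592) (nat_lit 304) (nat_lit 3063361545)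 (nat_lit 76) (nat_lit 39977939874) (nat_lit 43) (nat_lit 5) (nat_lit 47) (nat_lit 5) (nat_lit 44) (nat_lit 5) (nat_lit 303) (nat_lit 282) (nat_lit 135))) (XT.nd (nat_lit 78) (nat_lit 0) (nat_lit 0) (XT.lf (nat_lit 0) (nat_lit 20526662818) (nat_lit 380) (nat_lit 37246075124) (nat_lit 76) (nat_lit 1426594408) (nat_lit 39) (nat_lit 5) (nat_lit 44) (nat_lit 5) (nat_lit 40) (nat_lit 5) (nat_lit 304) (nat_lit 282) (nat_lit 134)) (XT.lf (nat_lit 0) (nat_lit 27368854239) (nat_lit 380) (nat_lit 13076179837) (nat_lit 76) (nat_lit 20656220994) (nat_lit 39) (nat_lit 5) (nat_lit 44) (nat_lit 5) (nat_lit 40) (nat_lit 5) (nat_lit 305) (nat_lit 282) (nat_lit 133))))) (XT.nd (nat_lit 312) (nat_lit 532) (nat_lit 0) (XT.nd (nat_lit 156) (nat_lit 228) (nat_lit 0) (XT.nd (nat_lit 78) (nat_lit 0) (nat_lit 0) (XT.lf (nat_lit 0) (nat_lit 12707239110) (nat_lit 228) (nat_lit 22042895783) (nat_lit 304) (nat_lit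 28338295305) (nat_lit 36) (nat_lit 5) (nat_lit 39) (nat_lit 5) (nat_lit 40) (nat_lit 5) (nat_lit 306) (nat_lit 282) (nat_lit 132)) (XT.lf (nat_lit 0) (nat_lit 40232149460) (nat_lit 228) (nat_lit 2488407191) (nat_lit 304) (nat_lit 22443408587) (nat_lit 36) (nat_lit 5) (nat_lit 39) (nat_lit 5) (nat_lit 40) (nat_lit 5) (nat_lit 307) (nat_lit 282) (nat_lit 131))) (XT.nd (nat_lit 78) (nat_lit 0) (nat_lit 0) (XT.lf (nat_lit 0) (nat_lit 1556489073) (nat_lit 228) (nat_lit 49837712868) (nat_lit 304) (nat_lit 15933844738) (nat_lit 33) (nat_lit 5) (nat_lit 36) (nat_lit 5) (nat_lit 37) (nat_lit 5) (nat_lit 308) (nat_lit 282) (nat_lit 130)) (XT.lf (nat_lit 0) (nat_lit 30191027406) (nat_lit 228) (nat_lit 30771594265) (nat_lit 304) (nat_lit 8614660452) (nat_lit 33) (nat_lit 5) (nat_lit 36) (nat_lit 5) (nat_lit 37) (nat_lit 5) (nat_lit 309) (nat_lit 282) (nat_lit 129)))) (XT.nd (nat_lit 156) (nat_lit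 228) (nat_lit 0) (XT.nd (nat_lit 78) (nat_lit 304) (nat_lit 0) (XT.lf (nat_lit 0) (nat_lit 60255753866) (nat_lit 228) (nat_lit 10752493486) (nat_lit 304) (nat_lit 930797067) (nat_lit 33) (nat_lit 5) (nat_lit 36) (nat_lit 5) (nat_lit 37) (nat_lit 5) (nat_lit 310) (nat_lit 282) (nat_lit 128)) (XT.lf (nat_lit 0) (nat_lit 7353242991) (nat_lit 304) (nat_lit 56702511868) (nat_lit 76) (nat_lit 10335351242) (nat_lit 29) (nat_lit 5) (nat_lit 33) (nat_lit 5) (nat_lit 30) (nat_lit 5) (nat_lit 311) (nat_lit 282) (nat_lit 127))) (XT.nd (nat_lit 78) (nat_lit 228) (nat_lit 0) (XT.lf (nat_lit 0) (nat_lit 16396428002) (nat_lit 304) (nat_lit 28217499987) (nat_lit 76) (nat_lit 32332272476) (nat_lit 29) (nat_lit 5) (nat_lit 33) (nat_lit 5) (nat_lit 30) (nat_lit 5) (nat_lit 312) (nat_lit 282) (nat_lit 126)) (XT.nd (nat_lit 78) (nat_lit 0) (nat_lit 0) (XT.lf (nat_lit 0) (nat_lit 1746184674) (nat_lit 228)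 (nat_lit 24171752930) (nat_lit 304) (nat_lit 53709807237) (nat_lit 26) (nat_lit 5) (nat_lit 29) (nat_lit 5) (nat_lit 30) (nat_lit 5) (nat_lit 313) (nat_lit 282) (nat_lit 125)) (XT.lf (nat_lit 0) (nat_lit 34186258480) (nat_lit 228) (nat_lit 2206073457) (nat_lit 304) (nat_lit 46027197424) (nat_lit 26) (nat_lit 5) (nat_lit 29) (nat_lit 5) (nat_lit 30) (nat_lit 5) (nat_lit 314) (nat_lit 282) (nat_lit 124))))))))
noncomputable def xc225 : XT := (XT.nd (nat_lit 1326) (nat_lit 380) (nat_lit 0) (XT.nd (nat_lit 624) (nat_lit 456) (nat_lit 0) (XT.nd (nat_lit 312) (nat_lit 380) (nat_lit 0) (XT.nd (nat_lit 156) (nat_lit 0) (nat_lit 0) (XT.nd (nat_lit 78) (nat_lit 152) (nat_lit 0) (XT.lf (nat_lit 0) (nat_lit 47715073608) (nat_lit 304) (nat_lit 17429640002) (nat_lit 76) (nat_lit 20189961344) (nat_lit 26) (nat_lit 5) (nat_lit 30) (nat_lit 5) (nat_lit 27) (nat_lit 5) (nat_lit 315) (nat_lit 282) (nat_lit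 123)) (XT.lf (nat_lit 0) (nat_lit 15368541587) (nat_lit 152) (nat_lit 44510548111) (nat_lit 228) (nat_lit 28502734336) (nat_lit 24) (nat_lit 5) (nat_lit 26) (nat_lit 5) (nat_lit 27) (nat_lit 5) (nat_lit 316) (nat_lit 282) (nat_lit 122))) (XT.nd (nat_lit 78) (nat_lit 0) (nat_lit 0) (XT.lf (nat_lit 0) (nat_lit 50410416851) (nat_lit 152) (nat_lit 22535120879) (nat_lit 228) (nat_lit 18621084209) (nat_lit 24) (nat_lit 5) (nat_lit 26) (nat_lit 5) (nat_lit 27) (nat_lit 5) (nat_lit 317) (nat_lit 282) (nat_lit 121)) (XT.lf (nat_lit 0) (nat_lit 86672815861) (nat_lit 228) (nat_lit 7716002262) (nat_lit 76) (nat_lit 521469020) (nat_lit 24) (nat_lit 5) (nat_lit 27) (nat_lit 5) (nat_lit 25) (nat_lit 5) (nat_lit 318) (nat_lit 282) (nat_lit 120)))) (XT.nd (nat_lit 156) (nat_lit 152) (nat_lit 0) (XT.nd (nat_lit 78) (nat_lit 0) (nat_lit 0) (XT.lf (nat_lit 0) (nat_lit 3397658967) (nat_lit 228) (nat_lit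 70516597044) (nat_lit 76) (nat_lit 24463919288) (nat_lit 21) (nat_lit 5) (nat_lit 24) (nat_lit 5) (nat_lit 22) (nat_lit 5) (nat_lit 319) (nat_lit 282) (nat_lit 119)) (XT.lf (nat_lit 0) (nat_lit 15469669318) (nat_lit 228) (nat_lit 36665446989) (nat_lit 76) (nat_lit 49870994105) (nat_lit 21) (nat_lit 5) (nat_lit 24) (nat_lit 5) (nat_lit 22) (nat_lit 5) (nat_lit 320) (nat_lit 282) (nat_lit 118))) (XT.nd (nat_lit 78) (nat_lit 152) (nat_lit 0) (XT.lf (nat_lit 0) (nat_lit 28144461336) (nat_lit 228) (nat_lit 1122939528) (nat_lit 76) (nat_lit 76548084654) (nat_lit 21) (nat_lit 5) (nat_lit 24) (nat_lit 5) (nat_lit 22) (nat_lit 5) (nat_lit 321) (nat_lit 282) (nat_lit 117)) (XT.lf (nat_lit 0) (nat_lit 37392338716) (nat_lit 152) (nat_lit 4643673581) (nat_lit 228) (nat_lit 67750168300) (nat_lit 19) (nat_lit 5) (nat_lit 21) (nat_lit 5) (nat_lit 22) (nat_lit 5) (nat_lit 322) (nat_lit 282) (nat_lit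 116))))) (XT.nd (nat_lit 312) (nat_lit 304) (nat_lit 0) (XT.nd (nat_lit 156) (nat_lit 0) (nat_lit 0) (XT.nd (nat_lit 78) (nat_lit 152) (nat_lit 0) (XT.lf (nat_lit 0) (nat_lit 56971871030) (nat_lit 228) (nat_lit 36414730343) (nat_lit 76) (nat_lit 20551324627) (nat_lit 19) (nat_lit 5) (nat_lit 22) (nat_lit 5) (nat_lit 20) (nat_lit 5) (nat_lit 323) (nat_lit 282) (nat_lit 115)) (XT.lf (nat_lit 0) (nat_lit 1328631754) (nat_lit 152) (nat_lit 71422030916) (nat_lit 228) (nat_lit 45541790986) (nat_lit 17) (nat_lit 5) (nat_lit 19) (nat_lit 5) (nat_lit 20) (nat_lit 5) (nat_lit 324) (nat_lit 282) (nat_lit 114))) (XT.nd (nat_lit 78) (nat_lit 0) (nat_lit 0) (XT.lf (nat_lit 0) (nat_lit 42222313234) (nat_lit 152) (nat_lit 47712070028) (nat_lit 228) (nat_lit 32899526851) (nat_lit 17) (nat_lit 5) (nat_lit 19) (nat_lit 5) (nat_lit 20) (nat_lit 5) (nat_lit 325) (nat_lit 282) (nat_lit 113)) (XT.lf (nat_lit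 0) (nat_lit 85159644567) (nat_lit 152) (nat_lit 22816967502) (nat_lit 228) (nat_lit 19625863013) (nat_lit 17) (nat_lit 5) (nat_lit 19) (nat_lit 5) (nat_lit 20) (nat_lit 5) (nat_lit 326) (nat_lit 282) (nat_lit 112)))) (XT.nd (nat_lit 156) (nat_lit 152) (nat_lit 0) (XT.nd (nat_lit 78) (nat_lit 152) (nat_lit 0) (XT.lf (nat_lit 0) (nat_lit 126972181104) (nat_lit 228) (nat_lit 2418519124) (nat_lit 76) (nat_lit 3216208344) (nat_lit 17) (nat_lit 5) (nat_lit 20) (nat_lit 5) (nat_lit 18) (nat_lit 4) (nat_lit 327) (nat_lit 282) (nat_lit 111)) (XT.lf (nat_lit 0) (nat_lit 9788813868) (nat_lit 152) (nat_lit 97439958629) (nat_lit 76) (nat_lit 30574588520) (nat_lit 15) (nat_lit 5) (nat_lit 17) (nat_lit 5) (nat_lit 16) (nat_lit 5) (nat_lit 328) (nat_lit 282) (nat_lit 110))) (XT.nd (nat_lit 78) (nat_lit 152) (nat_lit 0) (XT.lf (nat_lit 0) (nat_lit 25835182144) (nat_lit 152) (nat_lit 57983218370) (nat_lit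 76) (nat_lit 59434567737) (nat_lit 15) (nat_lit 5) (nat_lit 17) (nat_lit 5) (nat_lit 16) (nat_lit 5) (nat_lit 329) (nat_lit 282) (nat_lit 109)) (XT.nd (nat_lit 78) (nat_lit 152) (nat_lit 0) (XT.lf (nat_lit 0) (nat_lit 42683281611) (nat_lit 152) (nat_lit 16554566515) (nat_lit 76) (nat_lit 89737238490) (nat_lit 15) (nat_lit 5) (nat_lit 17) (nat_lit 5) (nat_lit 16) (nat_lit 5) (nat_lit 330) (nat_lit 282) (nat_lit 108)) (XT.lf (nat_lit 0) (nat_lit 27835547953) (nat_lit 152) (nat_lit 32972269752) (nat_lit 228) (nat_lit 94153792954) (nat_lit 13) (nat_lit 5) (nat_lit 15) (nat_lit 5) (nat_lit 16) (nat_lit 5) (nat_lit 331) (nat_lit 282) (nat_lit 107))))))) (XT.nd (nat_lit 702) (nat_lit 76) (nat_lit 0) (XT.nd (nat_lit 312) (nat_lit 228) (nat_lit 0) (XT.nd (nat_lit 156) (nat_lit 76) (nat_lit 0) (XT.nd (nat_lit 78) (nat_lit 0) (nat_lit 0) (XT.lf (nat_lit 0) (nat_lit 75019038179) (nat_lit 152)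 (nat_lit 5099355852) (nat_lit 228) (nat_lit 81115077477) (nat_lit 13) (nat_lit 5) (nat_lit 15) (nat_lit 5) (nat_lit 16) (nat_lit 5) (nat_lit 332) (nat_lit 282) (nat_lit 106)) (XT.lf (nat_lit 0) (nat_lit 100771292023) (nat_lit 228) (nat_lit 43635388558) (nat_lit 76) (nat_lit 23393406394) (nat_lit 13) (nat_lit 5) (nat_lit 16) (nat_lit 5) (nat_lit 14) (nat_lit 4) (nat_lit 333) (nat_lit 282) (nat_lit 105))) (XT.nd (nat_lit 78) (nat_lit 0) (nat_lit 0) (XT.lf (nat_lit 0) (nat_lit 1020879060) (nat_lit 76) (nat_lit 121534990700) (nat_lit 152) (nat_lit 52134212873) (nat_lit 12) (nat_lit 5) (nat_lit 13) (nat_lit 5) (nat_lit 14) (nat_lit 4) (nat_lit 334) (nat_lit 282) (nat_lit 104)) (XT.lf (nat_lit 0) (nat_lit 49424087350) (nat_lit 76) (nat_lit 96744086914) (nat_lit 152) (nat_lit 35719480017) (nat_lit 12) (nat_lit 5) (nat_lit 13) (nat_lit 5) (nat_lit 14) (nat_lit 4) (nat_lit 335) (nat_lit 282)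 (nat_lit 103)))) (XT.nd (nat_lit 156) (nat_lit 228) (nat_lit 0) (XT.nd (nat_lit 78) (nat_lit 0) (nat_lit 0) (XT.lf (nat_lit 0) (nat_lit 100246699038) (nat_lit 76) (nat_lit 70713929683) (nat_lit 152) (nat_lit 18484500107) (nat_lit 12) (nat_lit 5) (nat_lit 13) (nat_lit 5) (nat_lit 14) (nat_lit 4) (nat_lit 336) (nat_lit 282) (nat_lit 102)) (XT.lf (nat_lit 0) (nat_lit 153609720341) (nat_lit 76) (nat_lit 43382542441) (nat_lit 152) (nat_lit 388237477) (nat_lit 12) (nat_lit 5) (nat_lit 13) (nat_lit 5) (nat_lit 14) (nat_lit 4) (nat_lit 337) (nat_lit 282) (nat_lit 101))) (XT.nd (nat_lit 78) (nat_lit 0) (nat_lit 0) (XT.lf (nat_lit 0) (nat_lit 3757206182) (nat_lit 152) (nat_lit 14318135695) (nat_lit 228) (nat_lit 187619857829) (nat_lit 9) (nat_lit 5) (nat_lit 11) (nat_lit 5) (nat_lit 12) (nat_lit 5) (nat_lit 338) (nat_lit 282) (nat_lit 100)) (XT.nd (nat_lit 78) (nat_lit 0) (nat_lit 0) (XT.lf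 (nat_lit 0) (nat_lit 38454979406) (nat_lit 228) (nat_lit 159479500153) (nat_lit 76) (nat_lit 16440540880) (nat_lit 9) (nat_lit 5) (nat_lit 12) (nat_lit 5) (nat_lit 10) (nat_lit 4) (nat_lit 339) (nat_lit 282) (nat_lit 99)) (XT.lf (nat_lit 0) (nat_lit 60087918167) (nat_lit 228) (nat_lit 115133480022) (nat_lit 76) (nat_lit 48255718874) (nat_lit 9) (nat_lit 5) (nat_lit 12) (nat_lit 5) (nat_lit 10) (nat_lit 4) (nat_lit 340) (nat_lit 282) (nat_lit 98)))))) (XT.nd (nat_lit 33072) (nat_lit 0) (nat_lit 3952) (XT.nd (nat_lit 156) (nat_lit 76) (nat_lit 0) (XT.nd (nat_lit 78) (nat_lit 0) (nat_lit 0) (XT.lf (nat_lit 0) (nat_lit 82802118934) (nat_lit 228) (nat_lit 68570801145) (nat_lit 76) (nat_lit 81661418470) (nat_lit 9) (nat_lit 5) (nat_lit 12) (nat_lit 5) (nat_lit 10) (nat_lit 4) (nat_lit 341) (nat_lit 282) (nat_lit 97)) (XT.lf (nat_lit 0) (nat_lit 106651663136) (nat_lit 228) (nat_lit 19680600002)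 (nat_lit 76) (nat_lit 116737177048) (nat_lit 9) (nat_lit 5) (nat_lit 12) (nat_lit 5) (nat_lit 10) (nat_lit 4) (nat_lit 342) (nat_lit 282) (nat_lit 96))) (XT.nd (nat_lit 32838) (nat_lit 0) (nat_lit 3952) (XT.lf (nat_lit 0) (nat_lit 32700137256) (nat_lit 76) (nat_lit 99503738930) (nat_lit 152) (nat_lit 121376911848) (nat_lit 8) (nat_lit 5) (nat_lit 9) (nat_lit 5) (nat_lit 10) (nat_lit 4) (nat_lit 343) (nat_lit 282) (nat_lit 95)) (XT.lf (nat_lit 0) (nat_lit 1141153085) (nat_lit 0) (nat_lit 1141153085) (nat_lit 684) (nat_lit 14520603604) (nat_lit 60) (nat_lit 5) (nat_lit 60) (nat_lit 3) (nat_lit 69) (nat_lit 3) (nat_lit 283) (nat_lit 283) (nat_lit 154)))) (XT.nd (nat_lit 156) (nat_lit 0) (nat_lit 76) (XT.nd (nat_lit 78) (nat_lit 0) (nat_lit 0) (XT.lf (nat_lit 0) (nat_lit 4917802032) (nat_lit 684) (nat_lit 17924596784) (nat_lit 760) (nat_lit 11591383655) (nat_lit 60) (nat_lit 5) (nat_lit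 69) (nat_lit 3) (nat_lit 70) (nat_lit 5) (nat_lit 284) (nat_lit 283) (nat_lit 153)) (XT.lf (nat_lit 0) (nat_lit 5322755992) (nat_lit 684) (nat_lit 3895024768) (nat_lit 760) (nat_lit 26083672188) (nat_lit 60) (nat_lit 5) (nat_lit 69) (nat_lit 3) (nat_lit 70) (nat_lit 5) (nat_lit 285) (nat_lit 283) (nat_lit 152))) (XT.nd (nat_lit 78) (nat_lit 0) (nat_lit 0) (XT.lf (nat_lit 0) (nat_lit 6001876023) (nat_lit 684) (nat_lit 25093797757) (nat_lit 760) (nat_lit 5104151203) (nat_lit 61) (nat_lit 5) (nat_lit 70) (nat_lit 5) (nat_lit 71) (nat_lit 5) (nat_lit 286) (nat_lit 283) (nat_lit 151)) (XT.nd (nat_lit 78) (nat_lit 0) (nat_lit 0) (XT.lf (nat_lit 0) (nat_lit 6930098819) (nat_lit 684) (nat_lit 10301593737) (nat_lit 760) (nat_lit 19900679010) (nat_lit 61) (nat_lit 5) (nat_lit 70) (nat_lit 5) (nat_lit 71) (nat_lit 5) (nat_lit 287) (nat_lit 283) (nat_lit 150)) (XT.lf (nat_lit 76) (nat_lit 5401244444)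 (nat_lit 0) (nat_lit 2584950299) (nat_lit 760) (nat_lit 30121290292) (nat_lit 62) (nat_lit 5) (nat_lit 61) (nat_lit 5) (nat_lit 71) (nat_lit 5) (nat_lit 288) (nat_lit 283) (nat_lit 149))))))))
noncomputable def xc226 : XT := (XT.nd (nat_lit 1326) (nat_lit 1368) (nat_lit 0) (XT.nd (nat_lit 624) (nat_lit 1216) (nat_lit 0) (XT.nd (nat_lit 312) (nat_lit 532) (nat_lit 0) (XT.nd (nat_lit 156) (nat_lit 0) (nat_lit 76) (XT.nd (nat_lit 78) (nat_lit 0) (nat_lit 0) (XT.lf (nat_lit 0) (nat_lit 9469426362) (nat_lit 684) (nat_lit 17080355089) (nat_lit 760) (nat_lit 12562868233) (nat_lit 62) (nat_lit 5) (nat_lit 71) (nat_lit 5) (nat_lit 72) (nat_lit 5) (nat_lit 289) (nat_lit 283) (nat_lit 148)) (XT.lf (nat_lit 0) (nat_lit 11066582628) (nat_lit 684) (nat_lit 717441442) (nat_lit 760) (nat_lit 28382071820) (nat_lit 62) (nat_lit 5) (nat_lit 71) (nat_lit 5) (nat_lit 72) (nat_lit 5) (nat_lit 290) (nat_lit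 283) (nat_lit 147))) (XT.nd (nat_lit 78) (nat_lit 0) (nat_lit 0) (XT.lf (nat_lit 0) (nat_lit 13069064554) (nat_lit 684) (nat_lit 24315397473) (nat_lit 760) (nat_lit 3871489919) (nat_lit 63) (nat_lit 5) (nat_lit 72) (nat_lit 5) (nat_lit 73) (nat_lit 5) (nat_lit 291) (nat_lit 283) (nat_lit 146)) (XT.lf (nat_lit 0) (nat_lit 15374812621) (nat_lit 684) (nat_lit 7088626032) (nat_lit 760) (nat_lit 19926715461) (nat_lit 63) (nat_lit 5) (nat_lit 72) (nat_lit 5) (nat_lit 73) (nat_lit 5) (nat_lit 292) (nat_lit 283) (nat_lit 145)))) (XT.nd (nat_lit 156) (nat_lit 608) (nat_lit 0) (XT.nd (nat_lit 78) (nat_lit 0) (nat_lit 76) (XT.lf (nat_lit 76) (nat_lit 11361296452) (nat_lit 0) (nat_lit 6609658954) (nat_lit 760) (nat_lit 25601365532) (nat_lit 64) (nat_lit 5) (nat_lit 63) (nat_lit 5) (nat_lit 73) (nat_lit 5) (nat_lit 293) (nat_lit 283) (nat_lit 144)) (XT.lf (nat_lit 0) (nat_lit 20973437676) (nat_lit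 684) (nat_lit 13988364293) (nat_lit 76) (nat_lit 9837976962) (nat_lit 64) (nat_lit 5) (nat_lit 73) (nat_lit 5) (nat_lit 65) (nat_lit 5) (nat_lit 294) (nat_lit 283) (nat_lit 143))) (XT.nd (nat_lit 78) (nat_lit 0) (nat_lit 0) (XT.lf (nat_lit 0) (nat_lit 5201737105) (nat_lit 684) (nat_lit 19111792173) (nat_lit 760) (nat_lit 21765715277) (nat_lit 55) (nat_lit 5) (nat_lit 64) (nat_lit 5) (nat_lit 65) (nat_lit 5) (nat_lit 295) (nat_lit 283) (nat_lit 142)) (XT.lf (nat_lit 0) (nat_lit 25835192613) (nat_lit 684) (nat_lit 2220320209) (nat_lit 760) (nat_lit 19355434835) (nat_lit 55) (nat_lit 5) (nat_lit 64) (nat_lit 5) (nat_lit 65) (nat_lit 5) (nat_lit 296) (nat_lit 283) (nat_lit 141))))) (XT.nd (nat_lit 312) (nat_lit 608) (nat_lit 0) (XT.nd (nat_lit 156) (nat_lit 304) (nat_lit 0) (XT.nd (nat_lit 78) (nat_lit 304) (nat_lit 0) (XT.lf (nat_lit 0) (nat_lit 32224926197) (nat_lit 760) (nat_lit 1552976070)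 (nat_lit 76) (nat_lit 15019325271) (nat_lit 55) (nat_lit 5) (nat_lit 65) (nat_lit 5) (nat_lit 56) (nat_lit 5) (nat_lit 297) (nat_lit 283) (nat_lit 140)) (XT.lf (nat_lit 0) (nat_lit 20075349137) (nat_lit 304) (nat_lit 16875470064) (nat_lit 380) (nat_lit 13284609533) (nat_lit 51) (nat_lit 5) (nat_lit 55) (nat_lit 5) (nat_lit 56) (nat_lit 5) (nat_lit 298) (nat_lit 283) (nat_lit 139))) (XT.nd (nat_lit 78) (nat_lit 304) (nat_lit 0) (XT.lf (nat_lit 0) (nat_lit 41951593005) (nat_lit 380) (nat_lit 8921064451) (nat_lit 76) (nat_lit 870960627) (nat_lit 51) (nat_lit 5) (nat_lit 56) (nat_lit 5) (nat_lit 52) (nat_lit 5) (nat_lit 299) (nat_lit 283) (nat_lit 138)) (XT.lf (nat_lit 0) (nat_lit 13534737105) (nat_lit 304) (nat_lit 34153953403) (nat_lit 380) (nat_lit 5614219186) (nat_lit 47) (nat_lit 5) (nat_lit 51) (nat_lit 5) (nat_lit 52) (nat_lit 5) (nat_lit 300) (nat_lit 283) (nat_lit 137)))) (XT.nd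 (nat_lit 156) (nat_lit 304) (nat_lit 0) (XT.nd (nat_lit 78) (nat_lit 304) (nat_lit 0) (XT.lf (nat_lit 0) (nat_lit 37421362177) (nat_lit 304) (nat_lit 16440739583) (nat_lit 380) (nat_lit 1070597892) (nat_lit 47) (nat_lit 5) (nat_lit 51) (nat_lit 5) (nat_lit 52) (nat_lit 5) (nat_lit 301) (nat_lit 283) (nat_lit 136)) (XT.lf (nat_lit 0) (nat_lit 3709901195) (nat_lit 304) (nat_lit 50682029508) (nat_lit 76) (nat_lit 2242759646) (nat_lit 43) (nat_lit 5) (nat_lit 47) (nat_lit 5) (nat_lit 44) (nat_lit 5) (nat_lit 302) (nat_lit 283) (nat_lit 135))) (XT.nd (nat_lit 78) (nat_lit 304) (nat_lit 0) (XT.lf (nat_lit 0) (nat_lit 9262861106) (nat_lit 304) (nat_lit 27502789497) (nat_lit 76) (nat_lit 21626787487) (nat_lit 43) (nat_lit 5) (nat_lit 47) (nat_lit 5) (nat_lit 44) (nat_lit 5) (nat_lit 303) (nat_lit 283) (nat_lit 134)) (XT.nd (nat_lit 78) (nat_lit 304) (nat_lit 0) (XT.lf (nat_lit 0) (nat_lit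 15092011866) (nat_lit 304) (nat_lit 3166223145) (nat_lit 76) (nat_lit 41979916585) (nat_lit 43) (nat_lit 5) (nat_lit 47) (nat_lit 5) (nat_lit 44) (nat_lit 5) (nat_lit 304) (nat_lit 283) (nat_lit 133)) (XT.lf (nat_lit 0) (nat_lit 21596545064) (nat_lit 380) (nat_lit 39056643641) (nat_lit 76) (nat_lit 1503771086) (nat_lit 39) (nat_lit 5) (nat_lit 44) (nat_lit 5) (nat_lit 40) (nat_lit 5) (nat_lit 305) (nat_lit 283) (nat_lit 132))))))) (XT.nd (nat_lit 624) (nat_lit 608) (nat_lit 0) (XT.nd (nat_lit 312) (nat_lit 304) (nat_lit 0) (XT.nd (nat_lit 156) (nat_lit 228) (nat_lit 0) (XT.nd (nat_lit 78) (nat_lit 228) (nat_lit 0) (XT.lf (nat_lit 0) (nat_lit 28778772289) (nat_lit 380) (nat_lit 13680717172) (nat_lit 76) (nat_lit 21694600574) (nat_lit 39) (nat_lit 5) (nat_lit 44) (nat_lit 5) (nat_lit 40) (nat_lit 5) (nat_lit 306) (nat_lit 283) (nat_lit 131)) (XT.lf (nat_lit 0) (nat_lit 13391078018) (nat_lit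 228) (nat_lit 23136820803) (nat_lit 304) (nat_lit 29712793341) (nat_lit 36) (nat_lit 5) (nat_lit 39) (nat_lit 5) (nat_lit 40) (nat_lit 5) (nat_lit 307) (nat_lit 283) (nat_lit 130))) (XT.nd (nat_lit 78) (nat_lit 228) (nat_lit 0) (XT.lf (nat_lit 0) (nat_lit 42289925459) (nat_lit 228) (nat_lit 2604999199) (nat_lit 304) (nat_lit 23525182132) (nat_lit 36) (nat_lit 5) (nat_lit 39) (nat_lit 5) (nat_lit 40) (nat_lit 5) (nat_lit 308) (nat_lit 283) (nat_lit 129)) (XT.lf (nat_lit 0) (nat_lit 1681640685) (nat_lit 228) (nat_lit 52319641117) (nat_lit 304) (nat_lit 16691165673) (nat_lit 33) (nat_lit 5) (nat_lit 36) (nat_lit 5) (nat_lit 37) (nat_lit 5) (nat_lit 309) (nat_lit 283) (nat_lit 128)))) (XT.nd (nat_lit 156) (nat_lit 304) (nat_lit 0) (XT.nd (nat_lit 78) (nat_lit 0) (nat_lit 0) (XT.lf (nat_lit 0) (nat_lit 31745652261) (nat_lit 228) (nat_lit 32300690745) (nat_lit 304) (nat_lit 9007896998) (nat_lit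 33) (nat_lit 5) (nat_lit 36) (nat_lit 5) (nat_lit 37) (nat_lit 5) (nat_lit 310) (nat_lit 283) (nat_lit 127)) (XT.lf (nat_lit 0) (nat_lit 63311468687) (nat_lit 228) (nat_lit 11281086509) (nat_lit 304) (nat_lit 941625989) (nat_lit 33) (nat_lit 5) (nat_lit 36) (nat_lit 5) (nat_lit 37) (nat_lit 5) (nat_lit 311) (nat_lit 283) (nat_lit 126))) (XT.nd (nat_lit 78) (nat_lit 0) (nat_lit 0) (XT.lf (nat_lit 0) (nat_lit 7754659857) (nat_lit 304) (nat_lit 59492529727) (nat_lit 76) (nat_lit 10861674628) (nat_lit 29) (nat_lit 5) (nat_lit 33) (nat_lit 5) (nat_lit 30) (nat_lit 5) (nat_lit 312) (nat_lit 283) (nat_lit 125)) (XT.lf (nat_lit 0) (nat_lit 17248396751) (nat_lit 304) (nat_lit 29585415239) (nat_lit 76) (nat_lit 33957986884) (nat_lit 29) (nat_lit 5) (nat_lit 33) (nat_lit 5) (nat_lit 30) (nat_lit 5) (nat_lit 313) (nat_lit 283) (nat_lit 124))))) (XT.nd (nat_lit 312) (nat_lit 228) (nat_lit 0) (XT.nd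 (nat_lit 156) (nat_lit 152) (nat_lit 0) (XT.nd (nat_lit 78) (nat_lit 0) (nat_lit 0) (XT.lf (nat_lit 0) (nat_lit 1875760756) (nat_lit 228) (nat_lit 25369350154) (nat_lit 304) (nat_lit 56362358068) (nat_lit 26) (nat_lit 5) (nat_lit 29) (nat_lit 5) (nat_lit 30) (nat_lit 5) (nat_lit 314) (nat_lit 283) (nat_lit 123)) (XT.lf (nat_lit 0) (nat_lit 35935825545) (nat_lit 228) (nat_lit 2305910062) (nat_lit 304) (nat_lit 48297186312) (nat_lit 26) (nat_lit 5) (nat_lit 29) (nat_lit 5) (nat_lit 30) (nat_lit 5) (nat_lit 315) (nat_lit 283) (nat_lit 122))) (XT.nd (nat_lit 78) (nat_lit 152) (nat_lit 0) (XT.lf (nat_lit 0) (nat_lit 50129351568) (nat_lit 304) (nat_lit 18261431878) (nat_lit 76) (nat_lit 21209108989) (nat_lit 26) (nat_lit 5) (nat_lit 30) (nat_lit 5) (nat_lit 27) (nat_lit 5) (nat_lit 316) (nat_lit 283) (nat_lit 121)) (XT.lf (nat_lit 0) (nat_lit 16176018627) (nat_lit 152) (nat_lit 46724801215)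 (nat_lit 228) (nat_lit 29898620846) (nat_lit 24) (nat_lit 5) (nat_lit 26) (nat_lit 5) (nat_lit 27) (nat_lit 5) (nat_lit 317) (nat_lit 283) (nat_lit 120)))) (XT.nd (nat_lit 156) (nat_lit 228) (nat_lit 0) (XT.nd (nat_lit 78) (nat_lit 0) (nat_lit 0) (XT.lf (nat_lit 0) (nat_lit 52968128133) (nat_lit 152) (nat_lit 23651139494) (nat_lit 228) (nat_lit 19524281079) (nat_lit 24) (nat_lit 5) (nat_lit 26) (nat_lit 5) (nat_lit 27) (nat_lit 5) (nat_lit 318) (nat_lit 283) (nat_lit 119)) (XT.lf (nat_lit 0) (nat_lit 91031809655) (nat_lit 228) (nat_lit 8065205110) (nat_lit 76) (nat_lit 557441295) (nat_lit 24) (nat_lit 5) (nat_lit 27) (nat_lit 5) (nat_lit 25) (nat_lit 5) (nat_lit 319) (nat_lit 283) (nat_lit 118))) (XT.nd (nat_lit 78) (nat_lit 0) (nat_lit 0) (XT.lf (nat_lit 0) (nat_lit 3592726563) (nat_lit 228) (nat_lit 74005516632) (nat_lit 76) (nat_lit 25697511077) (nat_lit 21) (nat_lit 5) (nat_lit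 24) (nat_lit 5) (nat_lit 22) (nat_lit 5) (nat_lit 320) (nat_lit 283) (nat_lit 117)) (XT.nd (nat_lit 78) (nat_lit 0) (nat_lit 0) (XT.lf (nat_lit 0) (nat_lit 16267138163) (nat_lit 228) (nat_lit 38463566706) (nat_lit 76) (nat_lit 52374444596) (nat_lit 21) (nat_lit 5) (nat_lit 24) (nat_lit 5) (nat_lit 22) (nat_lit 5) (nat_lit 321) (nat_lit 283) (nat_lit 116)) (XT.lf (nat_lit 0) (nat_lit 29574527621) (nat_lit 228) (nat_lit 1145607807) (nat_lit 76) (nat_lit 80384918206) (nat_lit 21) (nat_lit 5) (nat_lit 24) (nat_lit 5) (nat_lit 22) (nat_lit 5) (nat_lit 322) (nat_lit 283) (nat_lit 115))))))))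
noncomputable def xc227 : XT := (XT.nd (nat_lit 1326) (nat_lit 0) (nat_lit 0) (XT.nd (nat_lit 624) (nat_lit 456) (nat_lit 0) (XT.nd (nat_lit 312) (nat_lit 152) (nat_lit 0) (XT.nd (nat_lit 156) (nat_lit 152) (nat_lit 0) (XT.nd (nat_lit 78) (nat_lit 0) (nat_lit 0) (XT.lf (nat_lit 0) (nat_lit 39294894370) (nat_lit 152) (nat_lit 4865188252) (nat_lit 228) (nat_lit 71114232567) (nat_lit 19) (nat_lit 5) (nat_lit 21) (nat_lit 5) (nat_lit 22) (nat_lit 5) (nat_lit 323) (nat_lit 283) (nat_lit 114)) (XT.lf (nat_lit 0) (nat_lit 59841832471) (nat_lit 228) (nat_lit 38203136782) (nat_lit 76) (nat_lit 21588726603) (nat_lit 19) (nat_lit 5) (nat_lit 22) (nat_lit 5) (nat_lit 20) (nat_lit 5) (nat_lit 324) (nat_lit 283) (nat_lit 113))) (XT.nd (nat_lit 78) (nat_lit 0) (nat_lit 0) (XT.lf (nat_lit 0) (nat_lit 1426871967) (nat_lit 152) (nat_lit 74982170829) (nat_lit 228) (nat_lit 47796935908) (nat_lit 17) (nat_lit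 5) (nat_lit 19) (nat_lit 5) (nat_lit 20) (nat_lit 5) (nat_lit 325) (nat_lit 283) (nat_lit 112)) (XT.lf (nat_lit 0) (nat_lit 44363722825) (nat_lit 152) (nat_lit 50087233880) (nat_lit 228) (nat_lit 34523603548) (nat_lit 17) (nat_lit 5) (nat_lit 19) (nat_lit 5) (nat_lit 20) (nat_lit 5) (nat_lit 326) (nat_lit 283) (nat_lit 111)))) (XT.nd (nat_lit 156) (nat_lit 152) (nat_lit 0) (XT.nd (nat_lit 78) (nat_lit 0) (nat_lit 0) (XT.lf (nat_lit 0) (nat_lit 89446478156) (nat_lit 152) (nat_lit 23947873353) (nat_lit 228) (nat_lit 20587251740) (nat_lit 17) (nat_lit 5) (nat_lit 19) (nat_lit 5) (nat_lit 20) (nat_lit 5) (nat_lit 327) (nat_lit 283) (nat_lit 110)) (XT.lf (nat_lit 0) (nat_lit 133338946415) (nat_lit 228) (nat_lit 2511167254) (nat_lit 76) (nat_lit 3386184762) (nat_lit 17) (nat_lit 5) (nat_lit 20) (nat_lit 5) (nat_lit 18) (nat_lit 4) (nat_lit 328) (nat_lit 283) (nat_lit 109))) (XT.nd (nat_lit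 78) (nat_lit 0) (nat_lit 0) (XT.lf (nat_lit 0) (nat_lit 10296315226) (nat_lit 152) (nat_lit 102283494344) (nat_lit 76) (nat_lit 32112773147) (nat_lit 15) (nat_lit 5) (nat_lit 17) (nat_lit 5) (nat_lit 16) (nat_lit 5) (nat_lit 329) (nat_lit 283) (nat_lit 108)) (XT.lf (nat_lit 0) (nat_lit 27144141884) (nat_lit 152) (nat_lit 60855272416) (nat_lit 76) (nat_lit 62415301077) (nat_lit 15) (nat_lit 5) (nat_lit 17) (nat_lit 5) (nat_lit 16) (nat_lit 5) (nat_lit 330) (nat_lit 283) (nat_lit 107))))) (XT.nd (nat_lit 312) (nat_lit 304) (nat_lit 0) (XT.nd (nat_lit 156) (nat_lit 0) (nat_lit 0) (XT.nd (nat_lit 78) (nat_lit 152) (nat_lit 0) (XT.lf (nat_lit 0) (nat_lit 44833827247) (nat_lit 152) (nat_lit 17356478772) (nat_lit 76) (nat_lit 94232676560) (nat_lit 15) (nat_lit 5) (nat_lit 17) (nat_lit 5) (nat_lit 16) (nat_lit 5) (nat_lit 331) (nat_lit 283) (nat_lit 106)) (XT.lf (nat_lit 0) (nat_lit 29252725031)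 (nat_lit 152) (nat_lit 34611481600) (nat_lit 228) (nat_lit 98844647239) (nat_lit 13) (nat_lit 5) (nat_lit 15) (nat_lit 5) (nat_lit 16) (nat_lit 5) (nat_lit 332) (nat_lit 283) (nat_lit 105))) (XT.nd (nat_lit 78) (nat_lit 0) (nat_lit 0) (XT.lf (nat_lit 0) (nat_lit 78794180260) (nat_lit 152) (nat_lit 5345369703) (nat_lit 228) (nat_lit 85154797673) (nat_lit 13) (nat_lit 5) (nat_lit 15) (nat_lit 5) (nat_lit 16) (nat_lit 5) (nat_lit 333) (nat_lit 283) (nat_lit 104)) (XT.lf (nat_lit 0) (nat_lit 105824500459) (nat_lit 228) (nat_lit 45793493392) (nat_lit 76) (nat_lit 24571331343) (nat_lit 13) (nat_lit 5) (nat_lit 16) (nat_lit 5) (nat_lit 14) (nat_lit 4) (nat_lit 334) (nat_lit 283) (nat_lit 103)))) (XT.nd (nat_lit 156) (nat_lit 228) (nat_lit 0) (XT.nd (nat_lit 78) (nat_lit 0) (nat_lit 0) (XT.lf (nat_lit 0) (nat_lit 1095205920) (nat_lit 76) (nat_lit 127602767348) (nat_lit 152) (nat_lit 54725865672)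 (nat_lit 12) (nat_lit 5) (nat_lit 13) (nat_lit 5) (nat_lit 14) (nat_lit 4) (nat_lit 335) (nat_lit 283) (nat_lit 102)) (XT.lf (nat_lit 0) (nat_lit 51917465916) (nat_lit 76) (nat_lit 101572745653) (nat_lit 152) (nat_lit 37491113213) (nat_lit 12) (nat_lit 5) (nat_lit 13) (nat_lit 5) (nat_lit 14) (nat_lit 4) (nat_lit 336) (nat_lit 283) (nat_lit 101))) (XT.nd (nat_lit 78) (nat_lit 228) (nat_lit 0) (XT.lf (nat_lit 0) (nat_lit 105280152274) (nat_lit 76) (nat_lit 74241487494) (nat_lit 152) (nat_lit 19395067203) (nat_lit 12) (nat_lit 5) (nat_lit 13) (nat_lit 5) (nat_lit 14) (nat_lit 4) (nat_lit 337) (nat_lit 283) (nat_lit 100)) (XT.nd (nat_lit 78) (nat_lit 228) (nat_lit 0) (XT.lf (nat_lit 0) (nat_lit 161310319009) (nat_lit 76) (nat_lit 45543918445) (nat_lit 152) (nat_lit 394641818) (nat_lit 12) (nat_lit 5) (nat_lit 13) (nat_lit 5) (nat_lit 14) (nat_lit 4) (nat_lit 338) (nat_lit 283) (nat_lit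 99)) (XT.lf (nat_lit 0) (nat_lit 3965290516) (nat_lit 152) (nat_lit 15026125838) (nat_lit 228) (nat_lit 196987902642) (nat_lit 9) (nat_lit 5) (nat_lit 11) (nat_lit 5) (nat_lit 12) (nat_lit 5) (nat_lit 339) (nat_lit 283) (nat_lit 98))))))) (XT.nd (nat_lit 33540) (nat_lit 0) (nat_lit 3496) (XT.nd (nat_lit 33150) (nat_lit 0) (nat_lit 3876) (XT.nd (nat_lit 156) (nat_lit 0) (nat_lit 0) (XT.nd (nat_lit 78) (nat_lit 0) (nat_lit 0) (XT.lf (nat_lit 0) (nat_lit 40389567409) (nat_lit 228) (nat_lit 167433721713) (nat_lit 76) (nat_lit 17269866267) (nat_lit 9) (nat_lit 5) (nat_lit 12) (nat_lit 5) (nat_lit 10) (nat_lit 4) (nat_lit 340) (nat_lit 283) (nat_lit 97)) (XT.lf (nat_lit 0) (nat_lit 63103589345) (nat_lit 228) (nat_lit 120871341216) (nat_lit 76) (nat_lit 50675455620) (nat_lit 9) (nat_lit 5) (nat_lit 12) (nat_lit 5) (nat_lit 10) (nat_lit 4) (nat_lit 341) (nat_lit 283) (nat_lit 96))) (XT.nd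 (nat_lit 78) (nat_lit 0) (nat_lit 0) (XT.lf (nat_lit 0) (nat_lit 86952963232) (nat_lit 228) (nat_lit 71981424243) (nat_lit 76) (nat_lit 85751109206) (nat_lit 9) (nat_lit 5) (nat_lit 12) (nat_lit 5) (nat_lit 10) (nat_lit 4) (nat_lit 342) (nat_lit 283) (nat_lit 95)) (XT.lf (nat_lit 0) (nat_lit 111994473294) (nat_lit 228) (nat_lit 20647566232) (nat_lit 76) (nat_lit 122580340484) (nat_lit 9) (nat_lit 5) (nat_lit 12) (nat_lit 5) (nat_lit 10) (nat_lit 4) (nat_lit 343) (nat_lit 283) (nat_lit 94)))) (XT.nd (nat_lit 156) (nat_lit 0) (nat_lit 0) (XT.nd (nat_lit 78) (nat_lit 0) (nat_lit 0) (XT.lf (nat_lit 0) (nat_lit 1223862187) (nat_lit 0) (nat_lit 1223862187) (nat_lit 684) (nat_lit 15192540470) (nat_lit 60) (nat_lit 5) (nat_lit 60) (nat_lit 3) (nat_lit 69) (nat_lit 3) (nat_lit 284) (nat_lit 284) (nat_lit 152)) (XT.lf (nat_lit 0) (nat_lit 5260649091) (nat_lit 684) (nat_lit 18765888798) (nat_lit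 760) (nat_lit 12123656761) (nat_lit 60) (nat_lit 5) (nat_lit 69) (nat_lit 3) (nat_lit 70) (nat_lit 5) (nat_lit 285) (nat_lit 284) (nat_lit 151))) (XT.nd (nat_lit 78) (nat_lit 0) (nat_lit 76) (XT.lf (nat_lit 0) (nat_lit 5681233751) (nat_lit 684) (nat_lit 4037454268) (nat_lit 760) (nat_lit 27342811915) (nat_lit 60) (nat_lit 5) (nat_lit 69) (nat_lit 3) (nat_lit 70) (nat_lit 5) (nat_lit 286) (nat_lit 284) (nat_lit 150)) (XT.nd (nat_lit 78) (nat_lit 0) (nat_lit 0) (XT.lf (nat_lit 0) (nat_lit 6390134487) (nat_lit 684) (nat_lit 26291601406) (nat_lit 760) (nat_lit 5323282902) (nat_lit 61) (nat_lit 5) (nat_lit 70) (nat_lit 5) (nat_lit 71) (nat_lit 5) (nat_lit 287) (nat_lit 284) (nat_lit 149)) (XT.lf (nat_lit 0) (nat_lit 7360570106) (nat_lit 684) (nat_lit 10762496054) (nat_lit 760) (nat_lit 20861354998) (nat_lit 61) (nat_lit 5) (nat_lit 70) (nat_lit 5) (nat_lit 71) (nat_lit 5) (nat_lit 288)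 (nat_lit 284) (nat_lit 148)))))) (XT.nd (nat_lit 312) (nat_lit 456) (nat_lit 0) (XT.nd (nat_lit 156) (nat_lit 0) (nat_lit 76) (XT.nd (nat_lit 78) (nat_lit 0) (nat_lit 76) (XT.lf (nat_lit 76) (nat_lit 5724610208) (nat_lit 0) (nat_lit 2741694438) (nat_lit 760) (nat_lit 31542161613) (nat_lit 62) (nat_lit 5) (nat_lit 61) (nat_lit 5) (nat_lit 71) (nat_lit 5) (nat_lit 289) (nat_lit 284) (nat_lit 147)) (XT.lf (nat_lit 0) (nat_lit 10019441363) (nat_lit 684) (nat_lit 17879014873) (nat_lit 760) (nat_lit 13165662539) (nat_lit 62) (nat_lit 5) (nat_lit 71) (nat_lit 5) (nat_lit 72) (nat_lit 5) (nat_lit 290) (nat_lit 284) (nat_lit 146))) (XT.nd (nat_lit 78) (nat_lit 0) (nat_lit 76) (XT.lf (nat_lit 0) (nat_lit 11692810505) (nat_lit 684) (nat_lit 700591639) (nat_lit 760) (nat_lit 29777033406) (nat_lit 62) (nat_lit 5) (nat_lit 71) (nat_lit 5) (nat_lit 72) (nat_lit 5) (nat_lit 291) (nat_lit 284) (nat_lit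 145)) (XT.lf (nat_lit 0) (nat_lit 13792468278) (nat_lit 684) (nat_lit 25475192270) (nat_lit 760) (nat_lit 4047286519) (nat_lit 63) (nat_lit 5) (nat_lit 72) (nat_lit 5) (nat_lit 73) (nat_lit 5) (nat_lit 292) (nat_lit 284) (nat_lit 144)))) (XT.nd (nat_lit 156) (nat_lit 608) (nat_lit 0) (XT.nd (nat_lit 78) (nat_lit 0) (nat_lit 0) (XT.lf (nat_lit 0) (nat_lit 16210172772) (nat_lit 684) (nat_lit 7389747737) (nat_lit 760) (nat_lit 20906119904) (nat_lit 63) (nat_lit 5) (nat_lit 72) (nat_lit 5) (nat_lit 73) (nat_lit 5) (nat_lit 293) (nat_lit 284) (nat_lit 143)) (XT.lf (nat_lit 76) (nat_lit 11981811039) (nat_lit 0) (nat_lit 6951958187) (nat_lit 760) (nat_lit 26813677857) (nat_lit 64) (nat_lit 5) (nat_lit 63) (nat_lit 5) (nat_lit 73) (nat_lit 5) (nat_lit 294) (nat_lit 284) (nat_lit 142))) (XT.nd (nat_lit 78) (nat_lit 684) (nat_lit 0) (XT.lf (nat_lit 0) (nat_lit 22083139621) (nat_lit 684) (nat_lit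 14634330934) (nat_lit 76) (nat_lit 10318982390) (nat_lit 64) (nat_lit 5) (nat_lit 73) (nat_lit 5) (nat_lit 65) (nat_lit 5) (nat_lit 295) (nat_lit 284) (nat_lit 141)) (XT.nd (nat_lit 78) (nat_lit 0) (nat_lit 0) (XT.lf (nat_lit 0) (nat_lit 5514413411) (nat_lit 684) (nat_lit 20073737267) (nat_lit 760) (nat_lit 22791857973) (nat_lit 55) (nat_lit 5) (nat_lit 64) (nat_lit 5) (nat_lit 65) (nat_lit 5) (nat_lit 296) (nat_lit 284) (nat_lit 140)) (XT.lf (nat_lit 0) (nat_lit 27177037435) (nat_lit 684) (nat_lit 2337389063) (nat_lit 760) (nat_lit 20264022702) (nat_lit 55) (nat_lit 5) (nat_lit 64) (nat_lit 5) (nat_lit 65) (nat_lit 5) (nat_lit 297) (nat_lit 284) (nat_lit 139))))))))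
noncomputable def xc228 : XT := (XT.nd (nat_lit 1326) (nat_lit 1064) (nat_lit 0) (XT.nd (nat_lit 624) (nat_lit 1064) (nat_lit 0) (XT.nd (nat_lit 312) (nat_lit 304) (nat_lit 0) (XT.nd (nat_lit 156) (nat_lit 304) (nat_lit 0) (XT.nd (nat_lit 78) (nat_lit 304) (nat_lit 0) (XT.lf (nat_lit 0) (nat_lit 33889547301) (nat_lit 760) (nat_lit 1579933890) (nat_lit 76) (nat_lit 15764711425) (nat_lit 55) (nat_lit 5) (nat_lit 65) (nat_lit 5) (nat_lit 56) (nat_lit 5) (nat_lit 298) (nat_lit 284) (nat_lit 138)) (XT.lf (nat_lit 0) (nat_lit 21128989981) (nat_lit 304) (nat_lit 17720981981) (nat_lit 380) (nat_lit 13894430897) (nat_lit 51) (nat_lit 5) (nat_lit 55) (nat_lit 5) (nat_lit 56) (nat_lit 5) (nat_lit 299) (nat_lit 284) (nat_lit 137))) (XT.nd (nat_lit 78) (nat_lit 304) (nat_lit 0) (XT.lf (nat_lit 0) (nat_lit 44098300901) (nat_lit 380) (nat_lit 9316929253) (nat_lit 76) (nat_lit 912906017) (nat_lit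 51) (nat_lit 5) (nat_lit 56) (nat_lit 5) (nat_lit 52) (nat_lit 5) (nat_lit 300) (nat_lit 284) (nat_lit 136)) (XT.lf (nat_lit 0) (nat_lit 14260852890) (nat_lit 304) (nat_lit 35859831893) (nat_lit 380) (nat_lit 5844795834) (nat_lit 47) (nat_lit 5) (nat_lit 51) (nat_lit 5) (nat_lit 52) (nat_lit 5) (nat_lit 301) (nat_lit 284) (nat_lit 135)))) (XT.nd (nat_lit 156) (nat_lit 0) (nat_lit 0) (XT.nd (nat_lit 78) (nat_lit 304) (nat_lit 0) (XT.lf (nat_lit 0) (nat_lit 39339457838) (nat_lit 304) (nat_lit 17261044009) (nat_lit 380) (nat_lit 1076380824) (nat_lit 47) (nat_lit 5) (nat_lit 51) (nat_lit 5) (nat_lit 52) (nat_lit 5) (nat_lit 302) (nat_lit 284) (nat_lit 134)) (XT.lf (nat_lit 0) (nat_lit 3940212399) (nat_lit 304) (nat_lit 53165824506) (nat_lit 76) (nat_lit 2357977347) (nat_lit 43) (nat_lit 5) (nat_lit 47) (nat_lit 5) (nat_lit 44) (nat_lit 5) (nat_lit 303) (nat_lit 284) (nat_lit 133))) (XT.nd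 (nat_lit 78) (nat_lit 0) (nat_lit 0) (XT.lf (nat_lit 0) (nat_lit 9768686203) (nat_lit 304) (nat_lit 28830018041) (nat_lit 76) (nat_lit 22711059926) (nat_lit 43) (nat_lit 5) (nat_lit 47) (nat_lit 5) (nat_lit 44) (nat_lit 5) (nat_lit 304) (nat_lit 284) (nat_lit 132)) (XT.lf (nat_lit 0) (nat_lit 15887262023) (nat_lit 304) (nat_lit 3278904844) (nat_lit 76) (nat_lit 44081705809) (nat_lit 43) (nat_lit 5) (nat_lit 47) (nat_lit 5) (nat_lit 44) (nat_lit 5) (nat_lit 305) (nat_lit 284) (nat_lit 131))))) (XT.nd (nat_lit 312) (nat_lit 532) (nat_lit 0) (XT.nd (nat_lit 156) (nat_lit 228) (nat_lit 0) (XT.nd (nat_lit 78) (nat_lit 0) (nat_lit 0) (XT.lf (nat_lit 0) (nat_lit 22715872639) (nat_lit 380) (nat_lit 40962550436) (nat_lit 76) (nat_lit 1584263002) (nat_lit 39) (nat_lit 5) (nat_lit 44) (nat_lit 5) (nat_lit 40) (nat_lit 5) (nat_lit 306) (nat_lit 284) (nat_lit 130)) (XT.lf (nat_lit 0) (nat_lit 30255330257)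 (nat_lit 380) (nat_lit 14320062186) (nat_lit 76) (nat_lit 22784381424) (nat_lit 39) (nat_lit 5) (nat_lit 44) (nat_lit 5) (nat_lit 40) (nat_lit 5) (nat_lit 307) (nat_lit 284) (nat_lit 129))) (XT.nd (nat_lit 78) (nat_lit 0) (nat_lit 0) (XT.lf (nat_lit 0) (nat_lit 14104601944) (nat_lit 228) (nat_lit 24286206271) (nat_lit 304) (nat_lit 31159959785) (nat_lit 36) (nat_lit 5) (nat_lit 39) (nat_lit 5) (nat_lit 40) (nat_lit 5) (nat_lit 308) (nat_lit 284) (nat_lit 128)) (XT.lf (nat_lit 0) (nat_lit 44446297946) (nat_lit 228) (nat_lit 2728148614) (nat_lit 304) (nat_lit 24664800073) (nat_lit 36) (nat_lit 5) (nat_lit 39) (nat_lit 5) (nat_lit 40) (nat_lit 5) (nat_lit 309) (nat_lit 284) (nat_lit 127)))) (XT.nd (nat_lit 156) (nat_lit 304) (nat_lit 0) (XT.nd (nat_lit 78) (nat_lit 0) (nat_lit 0) (XT.lf (nat_lit 0) (nat_lit 1808649847) (nat_lit 228) (nat_lit 54926591522) (nat_lit 304) (nat_lit 17490013026)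 (nat_lit 33) (nat_lit 5) (nat_lit 36) (nat_lit 5) (nat_lit 37) (nat_lit 5) (nat_lit 310) (nat_lit 284) (nat_lit 126)) (XT.lf (nat_lit 0) (nat_lit 33373817853) (nat_lit 228) (nat_lit 33907123710) (nat_lit 304) (nat_lit 9424281438) (nat_lit 33) (nat_lit 5) (nat_lit 36) (nat_lit 5) (nat_lit 37) (nat_lit 5) (nat_lit 311) (nat_lit 284) (nat_lit 125))) (XT.nd (nat_lit 78) (nat_lit 304) (nat_lit 0) (XT.lf (nat_lit 0) (nat_lit 66515978293) (nat_lit 228) (nat_lit 11836948861) (nat_lit 304) (nat_lit 956316422) (nat_lit 33) (nat_lit 5) (nat_lit 36) (nat_lit 5) (nat_lit 37) (nat_lit 5) (nat_lit 312) (nat_lit 284) (nat_lit 124)) (XT.nd (nat_lit 78) (nat_lit 0) (nat_lit 0) (XT.lf (nat_lit 0) (nat_lit 8173009373) (nat_lit 304) (nat_lit 62426242167) (nat_lit 76) (nat_lit 11413425772) (nat_lit 29) (nat_lit 5) (nat_lit 33) (nat_lit 5) (nat_lit 30) (nat_lit 5) (nat_lit 313) (nat_lit 284) (nat_lit 123))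 (XT.lf (nat_lit 0) (nat_lit 18139975182) (nat_lit 304) (nat_lit 31025720243) (nat_lit 76) (nat_lit 35664140908) (nat_lit 29) (nat_lit 5) (nat_lit 33) (nat_lit 5) (nat_lit 30) (nat_lit 5) (nat_lit 314) (nat_lit 284) (nat_lit 122))))))) (XT.nd (nat_lit 624) (nat_lit 456) (nat_lit 0) (XT.nd (nat_lit 312) (nat_lit 228) (nat_lit 0) (XT.nd (nat_lit 156) (nat_lit 152) (nat_lit 0) (XT.nd (nat_lit 78) (nat_lit 0) (nat_lit 0) (XT.lf (nat_lit 0) (nat_lit 2007886072) (nat_lit 228) (nat_lit 26627849025) (nat_lit 304) (nat_lit 59150598845) (nat_lit 26) (nat_lit 5) (nat_lit 29) (nat_lit 5) (nat_lit 30) (nat_lit 5) (nat_lit 315) (nat_lit 284) (nat_lit 121)) (XT.lf (nat_lit 0) (nat_lit 37769128516) (nat_lit 228) (nat_lit 2411711625) (nat_lit 304) (nat_lit 50683591222) (nat_lit 26) (nat_lit 5) (nat_lit 29) (nat_lit 5) (nat_lit 30) (nat_lit 5) (nat_lit 316) (nat_lit 284) (nat_lit 120))) (XT.nd (nat_lit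 78) (nat_lit 152) (nat_lit 0) (XT.lf (nat_lit 0) (nat_lit 52661691508) (nat_lit 304) (nat_lit 19138503359) (nat_lit 76) (nat_lit 22278316890) (nat_lit 26) (nat_lit 5) (nat_lit 30) (nat_lit 5) (nat_lit 27) (nat_lit 5) (nat_lit 317) (nat_lit 284) (nat_lit 119)) (XT.lf (nat_lit 0) (nat_lit 17020239025) (nat_lit 152) (nat_lit 49050815152) (nat_lit 228) (nat_lit 31367021088) (nat_lit 24) (nat_lit 5) (nat_lit 26) (nat_lit 5) (nat_lit 27) (nat_lit 5) (nat_lit 318) (nat_lit 284) (nat_lit 118)))) (XT.nd (nat_lit 156) (nat_lit 228) (nat_lit 0) (XT.nd (nat_lit 78) (nat_lit 0) (nat_lit 0) (XT.lf (nat_lit 0) (nat_lit 55650267364) (nat_lit 152) (nat_lit 24823957303) (nat_lit 228) (nat_lit 20475227704) (nat_lit 24) (nat_lit 5) (nat_lit 26) (nat_lit 5) (nat_lit 27) (nat_lit 5) (nat_lit 319) (nat_lit 284) (nat_lit 117)) (XT.lf (nat_lit 0) (nat_lit 95606396057) (nat_lit 228) (nat_lit 8435270566) (nat_lit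 76) (nat_lit 594291885) (nat_lit 24) (nat_lit 5) (nat_lit 27) (nat_lit 5) (nat_lit 25) (nat_lit 5) (nat_lit 320) (nat_lit 284) (nat_lit 116))) (XT.nd (nat_lit 78) (nat_lit 0) (nat_lit 0) (XT.lf (nat_lit 0) (nat_lit 3795206109) (nat_lit 228) (nat_lit 77672313766) (nat_lit 76) (nat_lit 26991815951) (nat_lit 21) (nat_lit 5) (nat_lit 24) (nat_lit 5) (nat_lit 22) (nat_lit 5) (nat_lit 321) (nat_lit 284) (nat_lit 115)) (XT.lf (nat_lit 0) (nat_lit 17102250516) (nat_lit 228) (nat_lit 40354860568) (nat_lit 76) (nat_lit 55002147130) (nat_lit 21) (nat_lit 5) (nat_lit 24) (nat_lit 5) (nat_lit 22) (nat_lit 5) (nat_lit 322) (nat_lit 284) (nat_lit 114))))) (XT.nd (nat_lit 312) (nat_lit 152) (nat_lit 0) (XT.nd (nat_lit 156) (nat_lit 152) (nat_lit 0) (XT.nd (nat_lit 78) (nat_lit 152) (nat_lit 0) (XT.lf (nat_lit 0) (nat_lit 31073973474) (nat_lit 228) (nat_lit 1172522031) (nat_lit 76) (nat_lit 84412716788)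 (nat_lit 21) (nat_lit 5) (nat_lit 24) (nat_lit 5) (nat_lit 22) (nat_lit 5) (nat_lit 323) (nat_lit 284) (nat_lit 113)) (XT.lf (nat_lit 0) (nat_lit 41289515478) (nat_lit 152) (nat_lit 5098770561) (nat_lit 228) (nat_lit 74648679662) (nat_lit 19) (nat_lit 5) (nat_lit 21) (nat_lit 5) (nat_lit 22) (nat_lit 5) (nat_lit 324) (nat_lit 284) (nat_lit 112))) (XT.nd (nat_lit 78) (nat_lit 152) (nat_lit 0) (XT.lf (nat_lit 0) (nat_lit 62853305401) (nat_lit 228) (nat_lit 40083969286) (nat_lit 76) (nat_lit 22677084245) (nat_lit 19) (nat_lit 5) (nat_lit 22) (nat_lit 5) (nat_lit 20) (nat_lit 5) (nat_lit 325) (nat_lit 284) (nat_lit 111)) (XT.lf (nat_lit 0) (nat_lit 1527066927) (nat_lit 152) (nat_lit 78721336846) (nat_lit 228) (nat_lit 50166878280) (nat_lit 17) (nat_lit 5) (nat_lit 19) (nat_lit 5) (nat_lit 20) (nat_lit 5) (nat_lit 326) (nat_lit 284) (nat_lit 110)))) (XT.nd (nat_lit 156) (nat_lit 152) (nat_lit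 0) (XT.nd (nat_lit 78) (nat_lit 0) (nat_lit 0) (XT.lf (nat_lit 0) (nat_lit 46609386453) (nat_lit 152) (nat_lit 52582126503) (nat_lit 228) (nat_lit 36230827131) (nat_lit 17) (nat_lit 5) (nat_lit 19) (nat_lit 5) (nat_lit 20) (nat_lit 5) (nat_lit 327) (nat_lit 284) (nat_lit 109)) (XT.lf (nat_lit 0) (nat_lit 93944971099) (nat_lit 152) (nat_lit 25136248859) (nat_lit 228) (nat_lit 21598560428) (nat_lit 17) (nat_lit 5) (nat_lit 19) (nat_lit 5) (nat_lit 20) (nat_lit 5) (nat_lit 328) (nat_lit 284) (nat_lit 108))) (XT.nd (nat_lit 78) (nat_lit 152) (nat_lit 0) (XT.lf (nat_lit 0) (nat_lit 140022361994) (nat_lit 228) (nat_lit 2611076795) (nat_lit 76) (nat_lit 3563807833) (nat_lit 17) (nat_lit 5) (nat_lit 20) (nat_lit 5) (nat_lit 18) (nat_lit 4) (nat_lit 329) (nat_lit 284) (nat_lit 107)) (XT.nd (nat_lit 78) (nat_lit 0) (nat_lit 0) (XT.lf (nat_lit 0) (nat_lit 10827512543) (nat_lit 152) (nat_lit 107371852993)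 (nat_lit 76) (nat_lit 33726987950) (nat_lit 15) (nat_lit 5) (nat_lit 17) (nat_lit 5) (nat_lit 16) (nat_lit 5) (nat_lit 330) (nat_lit 284) (nat_lit 106)) (XT.lf (nat_lit 0) (nat_lit 28516950460) (nat_lit 152) (nat_lit 63873449305) (nat_lit 76) (nat_lit 65544233889) (nat_lit 15) (nat_lit 5) (nat_lit 17) (nat_lit 5) (nat_lit 16) (nat_lit 5) (nat_lit 331) (nat_lit 284) (nat_lit 105))))))))
noncomputable def xc229 : XT := (XT.nd (nat_lit 34320) (nat_lit 0) (nat_lit 2280) (XT.nd (nat_lit 624) (nat_lit 228) (nat_lit 0) (XT.nd (nat_lit 312) (nat_lit 76) (nat_lit 0) (XT.nd (nat_lit 156) (nat_lit 0) (nat_lit 0) (XT.nd (nat_lit 78) (nat_lit 152) (nat_lit 0) (XT.lf (nat_lit 0) (nat_lit 47090377163) (nat_lit 152) (nat_lit 18200886775) (nat_lit 76) (nat_lit 98952089206) (nat_lit 15) (nat_lit 5) (nat_lit 17) (nat_lit 5) (nat_lit 16) (nat_lit 5) (nat_lit 332) (nat_lit 284) (nat_lit 104)) (XT.lf (nat_lit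 0) (nat_lit 30738399542) (nat_lit 152) (nat_lit 36333528116) (nat_lit 228) (nat_lit 103771609431) (nat_lit 13) (nat_lit 5) (nat_lit 15) (nat_lit 5) (nat_lit 16) (nat_lit 5) (nat_lit 333) (nat_lit 284) (nat_lit 103))) (XT.nd (nat_lit 78) (nat_lit 0) (nat_lit 0) (XT.lf (nat_lit 0) (nat_lit 82755830473) (nat_lit 152) (nat_lit 5604516699) (nat_lit 228) (nat_lit 89397994537) (nat_lit 13) (nat_lit 5) (nat_lit 15) (nat_lit 5) (nat_lit 16) (nat_lit 5) (nat_lit 334) (nat_lit 284) (nat_lit 102)) (XT.lf (nat_lit 0) (nat_lit 111129007871) (nat_lit 228) (nat_lit 48061703576) (nat_lit 76) (nat_lit 25807385102) (nat_lit 13) (nat_lit 5) (nat_lit 16) (nat_lit 5) (nat_lit 14) (nat_lit 4) (nat_lit 335) (nat_lit 284) (nat_lit 101)))) (XT.nd (nat_lit 156) (nat_lit 0) (nat_lit 0) (XT.nd (nat_lit 78) (nat_lit 0) (nat_lit 0) (XT.lf (nat_lit 0) (nat_lit 1171084500) (nat_lit 76) (nat_lit 133974767042) (nat_lit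 152) (nat_lit 57448501046) (nat_lit 12) (nat_lit 5) (nat_lit 13) (nat_lit 5) (nat_lit 14) (nat_lit 4) (nat_lit 336) (nat_lit 284) (nat_lit 100)) (XT.lf (nat_lit 0) (nat_lit 54533451863) (nat_lit 76) (nat_lit 106643631818) (nat_lit 152) (nat_lit 39352661341) (nat_lit 12) (nat_lit 5) (nat_lit 13) (nat_lit 5) (nat_lit 14) (nat_lit 4) (nat_lit 337) (nat_lit 284) (nat_lit 99))) (XT.nd (nat_lit 78) (nat_lit 0) (nat_lit 0) (XT.lf (nat_lit 0) (nat_lit 110563314793) (nat_lit 76) (nat_lit 77946179852) (nat_lit 152) (nat_lit 20352432437) (nat_lit 12) (nat_lit 5) (nat_lit 13) (nat_lit 5) (nat_lit 14) (nat_lit 4) (nat_lit 338) (nat_lit 284) (nat_lit 98)) (XT.lf (nat_lit 0) (nat_lit 169394077727) (nat_lit 76) (nat_lit 47814083875) (nat_lit 152) (nat_lit 402575693) (nat_lit 12) (nat_lit 5) (nat_lit 13) (nat_lit 5) (nat_lit 14) (nat_lit 4) (nat_lit 339) (nat_lit 284) (nat_lit 97))))) (XT.nd (nat_lit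 33306) (nat_lit 0) (nat_lit 3876) (XT.nd (nat_lit 156) (nat_lit 0) (nat_lit 0) (XT.nd (nat_lit 78) (nat_lit 0) (nat_lit 0) (XT.lf (nat_lit 0) (nat_lit 4181898829) (nat_lit 152) (nat_lit 15770251502) (nat_lit 228) (nat_lit 206825553485) (nat_lit 9) (nat_lit 5) (nat_lit 11) (nat_lit 5) (nat_lit 12) (nat_lit 5) (nat_lit 340) (nat_lit 284) (nat_lit 96)) (XT.lf (nat_lit 0) (nat_lit 42419784131) (nat_lit 228) (nat_lit 175787490840) (nat_lit 76) (nat_lit 18139979392) (nat_lit 9) (nat_lit 5) (nat_lit 12) (nat_lit 5) (nat_lit 10) (nat_lit 4) (nat_lit 341) (nat_lit 284) (nat_lit 95))) (XT.nd (nat_lit 33072) (nat_lit 0) (nat_lit 3876) (XT.lf (nat_lit 0) (nat_lit 66268995813) (nat_lit 228) (nat_lit 126897844506) (nat_lit 76) (nat_lit 53215532984) (nat_lit 9) (nat_lit 5) (nat_lit 12) (nat_lit 5) (nat_lit 10) (nat_lit 4) (nat_lit 342) (nat_lit 284) (nat_lit 94)) (XT.lf (nat_lit 0) (nat_lit 1308321914)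 (nat_lit 0) (nat_lit 1308321914) (nat_lit 684) (nat_lit 15903103263) (nat_lit 60) (nat_lit 5) (nat_lit 60) (nat_lit 3) (nat_lit 69) (nat_lit 3) (nat_lit 285) (nat_lit 285) (nat_lit 150)))) (XT.nd (nat_lit 156) (nat_lit 0) (nat_lit 76) (XT.nd (nat_lit 78) (nat_lit 0) (nat_lit 0) (XT.lf (nat_lit 0) (nat_lit 5611624365) (nat_lit 684) (nat_lit 19654353011) (nat_lit 760) (nat_lit 12686940663) (nat_lit 60) (nat_lit 5) (nat_lit 69) (nat_lit 3) (nat_lit 70) (nat_lit 5) (nat_lit 286) (nat_lit 285) (nat_lit 149)) (XT.lf (nat_lit 0) (nat_lit 6049050504) (nat_lit 684) (nat_lit 4191869622) (nat_lit 760) (nat_lit 28669096381) (nat_lit 60) (nat_lit 5) (nat_lit 69) (nat_lit 3) (nat_lit 70) (nat_lit 5) (nat_lit 287) (nat_lit 285) (nat_lit 148))) (XT.nd (nat_lit 78) (nat_lit 0) (nat_lit 0) (XT.lf (nat_lit 0) (nat_lit 6789609160) (nat_lit 684) (nat_lit 27554583981) (nat_lit 760) (nat_lit 5556725177)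 (nat_lit 61) (nat_lit 5) (nat_lit 70) (nat_lit 5) (nat_lit 71) (nat_lit 5) (nat_lit 288) (nat_lit 285) (nat_lit 147)) (XT.nd (nat_lit 78) (nat_lit 0) (nat_lit 0) (XT.lf (nat_lit 0) (nat_lit 7804758563) (nat_lit 684) (nat_lit 11251480385) (nat_lit 760) (nat_lit 21873259062) (nat_lit 61) (nat_lit 5) (nat_lit 70) (nat_lit 5) (nat_lit 71) (nat_lit 5) (nat_lit 289) (nat_lit 285) (nat_lit 146)) (XT.lf (nat_lit 76) (nat_lit 6059188602) (nat_lit 0) (nat_lit 2903719409) (nat_lit 760) (nat_lit 33041996956) (nat_lit 62) (nat_lit 5) (nat_lit 61) (nat_lit 5) (nat_lit 71) (nat_lit 5) (nat_lit 290) (nat_lit 285) (nat_lit 145))))))) (XT.nd (nat_lit 702) (nat_lit 1216) (nat_lit 0) (XT.nd (nat_lit 312) (nat_lit 532) (nat_lit 0) (XT.nd (nat_lit 156) (nat_lit 0) (nat_lit 76) (XT.nd (nat_lit 78) (nat_lit 0) (nat_lit 0) (XT.lf (nat_lit 0) (nat_lit 10589840808) (nat_lit 684) (nat_lit 18722754306) (nat_lit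 760) (nat_lit 13800953280) (nat_lit 62) (nat_lit 5) (nat_lit 71) (nat_lit 5) (nat_lit 72) (nat_lit 5) (nat_lit 291) (nat_lit 285) (nat_lit 144)) (XT.lf (nat_lit 0) (nat_lit 12343572341) (nat_lit 684) (nat_lit 687800925) (nat_lit 760) (nat_lit 31243987565) (nat_lit 62) (nat_lit 5) (nat_lit 71) (nat_lit 5) (nat_lit 72) (nat_lit 5) (nat_lit 292) (nat_lit 285) (nat_lit 143))) (XT.nd (nat_lit 78) (nat_lit 0) (nat_lit 0) (XT.lf (nat_lit 0) (nat_lit 14545538854) (nat_lit 684) (nat_lit 26698180839) (nat_lit 760) (nat_lit 4233525770) (nat_lit 63) (nat_lit 5) (nat_lit 72) (nat_lit 5) (nat_lit 73) (nat_lit 5) (nat_lit 293) (nat_lit 285) (nat_lit 142)) (XT.lf (nat_lit 0) (nat_lit 17081107279) (nat_lit 684) (nat_lit 7710881748) (nat_lit 760) (nat_lit 21936068685) (nat_lit 63) (nat_lit 5) (nat_lit 72) (nat_lit 5) (nat_lit 73) (nat_lit 5) (nat_lit 294) (nat_lit 285) (nat_lit 141)))) (XT.nd (nat_lit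 156) (nat_lit 608) (nat_lit 0) (XT.nd (nat_lit 78) (nat_lit 0) (nat_lit 76) (XT.lf (nat_lit 76) (nat_lit 12628475074) (nat_lit 0) (nat_lit 7310273816) (nat_lit 760) (nat_lit 28092905104) (nat_lit 64) (nat_lit 5) (nat_lit 63) (nat_lit 5) (nat_lit 73) (nat_lit 5) (nat_lit 295) (nat_lit 285) (nat_lit 140)) (XT.lf (nat_lit 0) (nat_lit 23242652667) (nat_lit 684) (nat_lit 15317565328) (nat_lit 76) (nat_lit 10825050857) (nat_lit 64) (nat_lit 5) (nat_lit 73) (nat_lit 5) (nat_lit 65) (nat_lit 5) (nat_lit 296) (nat_lit 285) (nat_lit 139))) (XT.nd (nat_lit 78) (nat_lit 0) (nat_lit 0) (XT.lf (nat_lit 0) (nat_lit 5837834264) (nat_lit 684) (nat_lit 21083188743) (nat_lit 760) (nat_lit 23875085278) (nat_lit 55) (nat_lit 5) (nat_lit 64) (nat_lit 5) (nat_lit 65) (nat_lit 5) (nat_lit 297) (nat_lit 285) (nat_lit 138)) (XT.nd (nat_lit 78) (nat_lit 0) (nat_lit 0) (XT.lf (nat_lit 0) (nat_lit 28581318052)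 (nat_lit 684) (nat_lit 2459748623) (nat_lit 760) (nat_lit 21223542319) (nat_lit 55) (nat_lit 5) (nat_lit 64) (nat_lit 5) (nat_lit 65) (nat_lit 5) (nat_lit 298) (nat_lit 285) (nat_lit 137)) (XT.lf (nat_lit 0) (nat_lit 35632437177) (nat_lit 760) (nat_lit 1612952368) (nat_lit 76) (nat_lit 16547885673) (nat_lit 55) (nat_lit 5) (nat_lit 65) (nat_lit 5) (nat_lit 56) (nat_lit 5) (nat_lit 299) (nat_lit 285) (nat_lit 136)))))) (XT.nd (nat_lit 312) (nat_lit 608) (nat_lit 0) (XT.nd (nat_lit 156) (nat_lit 304) (nat_lit 0) (XT.nd (nat_lit 78) (nat_lit 0) (nat_lit 0) (XT.lf (nat_lit 0) (nat_lit 22230676112) (nat_lit 304) (nat_lit 18608607872) (nat_lit 380) (nat_lit 14539801772) (nat_lit 51) (nat_lit 5) (nat_lit 55) (nat_lit 5) (nat_lit 56) (nat_lit 5) (nat_lit 300) (nat_lit 285) (nat_lit 135)) (XT.lf (nat_lit 0) (nat_lit 46347776714) (nat_lit 380) (nat_lit 9737253339) (nat_lit 76) (nat_lit 957097675)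 (nat_lit 51) (nat_lit 5) (nat_lit 56) (nat_lit 5) (nat_lit 52) (nat_lit 5) (nat_lit 301) (nat_lit 285) (nat_lit 134))) (XT.nd (nat_lit 78) (nat_lit 0) (nat_lit 0) (XT.lf (nat_lit 0) (nat_lit 15018683679) (nat_lit 304) (nat_lit 37651173437) (nat_lit 380) (nat_lit 6091562327) (nat_lit 47) (nat_lit 5) (nat_lit 51) (nat_lit 5) (nat_lit 52) (nat_lit 5) (nat_lit 302) (nat_lit 285) (nat_lit 133)) (XT.lf (nat_lit 0) (nat_lit 41349086106) (nat_lit 304) (nat_lit 18122524734) (nat_lit 380) (nat_lit 1086891962) (nat_lit 47) (nat_lit 5) (nat_lit 51) (nat_lit 5) (nat_lit 52) (nat_lit 5) (nat_lit 303) (nat_lit 285) (nat_lit 132)))) (XT.nd (nat_lit 156) (nat_lit 304) (nat_lit 0) (XT.nd (nat_lit 78) (nat_lit 0) (nat_lit 0) (XT.lf (nat_lit 0) (nat_lit 4177872583) (nat_lit 304) (nat_lit 55778486273) (nat_lit 76) (nat_lit 2478669609) (nat_lit 43) (nat_lit 5) (nat_lit 47) (nat_lit 5) (nat_lit 44) (nat_lit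 5) (nat_lit 304) (nat_lit 285) (nat_lit 131)) (XT.lf (nat_lit 0) (nat_lit 10295834384) (nat_lit 304) (nat_lit 30228062316) (nat_lit 76) (nat_lit 23849273298) (nat_lit 43) (nat_lit 5) (nat_lit 47) (nat_lit 5) (nat_lit 44) (nat_lit 5) (nat_lit 305) (nat_lit 285) (nat_lit 130))) (XT.nd (nat_lit 78) (nat_lit 304) (nat_lit 0) (XT.lf (nat_lit 0) (nat_lit 16718495477) (nat_lit 304) (nat_lit 3401462822) (nat_lit 76) (nat_lit 46288324791) (nat_lit 43) (nat_lit 5) (nat_lit 47) (nat_lit 5) (nat_lit 44) (nat_lit 5) (nat_lit 306) (nat_lit 285) (nat_lit 129)) (XT.nd (nat_lit 78) (nat_lit 0) (nat_lit 0) (XT.lf (nat_lit 0) (nat_lit 23887494228) (nat_lit 380) (nat_lit 42968115249) (nat_lit 76) (nat_lit 1668286458) (nat_lit 39) (nat_lit 5) (nat_lit 44) (nat_lit 5) (nat_lit 40) (nat_lit 5) (nat_lit 307) (nat_lit 285) (nat_lit 128)) (XT.lf (nat_lit 0) (nat_lit 31802218633) (nat_lit 380) (nat_lit 14995529382)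 (nat_lit 76) (nat_lit 23928181739) (nat_lit 39) (nat_lit 5) (nat_lit 44) (nat_lit 5) (nat_lit 40) (nat_lit 5) (nat_lit 308) (nat_lit 285) (nat_lit 127))))))))
noncomputable def xc230 : XT := (XT.nd (nat_lit 1326) (nat_lit 760) (nat_lit 0) (XT.nd (nat_lit 624) (nat_lit 532) (nat_lit 0) (XT.nd (nat_lit 312) (nat_lit 532) (nat_lit 0) (XT.nd (nat_lit 156) (nat_lit 228) (nat_lit 0) (XT.nd (nat_lit 78) (nat_lit 0) (nat_lit 0) (XT.lf (nat_lit 0) (nat_lit 14849714149) (nat_lit 228) (nat_lit 25493754160) (nat_lit 304) (nat_lit 32683061426) (nat_lit 36) (nat_lit 5) (nat_lit 39) (nat_lit 5) (nat_lit 40) (nat_lit 5) (nat_lit 309) (nat_lit 285) (nat_lit 126)) (XT.lf (nat_lit 0) (nat_lit 46706595804) (nat_lit 228) (nat_lit 2858115640) (nat_lit 304) (nat_lit 25864805460) (nat_lit 36) (nat_lit 5) (nat_lit 39) (nat_lit 5) (nat_lit 40) (nat_lit 5) (nat_lit 310) (nat_lit 285) (nat_lit 125))) (XT.nd (nat_lit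 78) (nat_lit 0) (nat_lit 0) (XT.lf (nat_lit 0) (nat_lit 1938018511) (nat_lit 228) (nat_lit 57664729125) (nat_lit 304) (nat_lit 18332122811) (nat_lit 33) (nat_lit 5) (nat_lit 36) (nat_lit 5) (nat_lit 37) (nat_lit 5) (nat_lit 311) (nat_lit 285) (nat_lit 124)) (XT.lf (nat_lit 0) (nat_lit 35079590813) (nat_lit 228) (nat_lit 35594678016) (nat_lit 304) (nat_lit 9864647065) (nat_lit 33) (nat_lit 5) (nat_lit 36) (nat_lit 5) (nat_lit 37) (nat_lit 5) (nat_lit 312) (nat_lit 285) (nat_lit 123)))) (XT.nd (nat_lit 156) (nat_lit 228) (nat_lit 0) (XT.nd (nat_lit 78) (nat_lit 304) (nat_lit 0) (XT.lf (nat_lit 0) (nat_lit 69877093462) (nat_lit 228) (nat_lit 12421365943) (nat_lit 304) (nat_lit 974752772) (nat_lit 33) (nat_lit 5) (nat_lit 36) (nat_lit 5) (nat_lit 37) (nat_lit 5) (nat_lit 313) (nat_lit 285) (nat_lit 122)) (XT.lf (nat_lit 0) (nat_lit 8609429930) (nat_lit 304) (nat_lit 65510444030) (nat_lit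 76) (nat_lit 11991958660) (nat_lit 29) (nat_lit 5) (nat_lit 33) (nat_lit 5) (nat_lit 30) (nat_lit 5) (nat_lit 314) (nat_lit 285) (nat_lit 121))) (XT.nd (nat_lit 78) (nat_lit 228) (nat_lit 0) (XT.lf (nat_lit 0) (nat_lit 19073421645) (nat_lit 304) (nat_lit 32541663165) (nat_lit 76) (nat_lit 37454835190) (nat_lit 29) (nat_lit 5) (nat_lit 33) (nat_lit 5) (nat_lit 30) (nat_lit 5) (nat_lit 315) (nat_lit 285) (nat_lit 120)) (XT.lf (nat_lit 0) (nat_lit 2143053416) (nat_lit 228) (nat_lit 27950199629) (nat_lit 304) (nat_lit 62081029353) (nat_lit 26) (nat_lit 5) (nat_lit 29) (nat_lit 5) (nat_lit 30) (nat_lit 5) (nat_lit 316) (nat_lit 285) (nat_lit 119))))) (XT.nd (nat_lit 312) (nat_lit 380) (nat_lit 0) (XT.nd (nat_lit 156) (nat_lit 152) (nat_lit 0) (XT.nd (nat_lit 78) (nat_lit 0) (nat_lit 0) (XT.lf (nat_lit 0) (nat_lit 39690702124) (nat_lit 228) (nat_lit 2523685923) (nat_lit 304) (nat_lit 53191961798)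 (nat_lit 26) (nat_lit 5) (nat_lit 29) (nat_lit 5) (nat_lit 30) (nat_lit 5) (nat_lit 317) (nat_lit 285) (nat_lit 118)) (XT.lf (nat_lit 0) (nat_lit 55318243079) (nat_lit 304) (nat_lit 20062775363) (nat_lit 76) (nat_lit 23400171467) (nat_lit 26) (nat_lit 5) (nat_lit 30) (nat_lit 5) (nat_lit 27) (nat_lit 5) (nat_lit 318) (nat_lit 285) (nat_lit 117))) (XT.nd (nat_lit 78) (nat_lit 0) (nat_lit 0) (XT.lf (nat_lit 0) (nat_lit 17903377475) (nat_lit 152) (nat_lit 51494080514) (nat_lit 228) (nat_lit 32911307924) (nat_lit 24) (nat_lit 5) (nat_lit 26) (nat_lit 5) (nat_lit 27) (nat_lit 5) (nat_lit 319) (nat_lit 285) (nat_lit 116)) (XT.lf (nat_lit 0) (nat_lit 58463377398) (nat_lit 152) (nat_lit 26056321458) (nat_lit 228) (nat_lit 21476070787) (nat_lit 24) (nat_lit 5) (nat_lit 26) (nat_lit 5) (nat_lit 27) (nat_lit 5) (nat_lit 320) (nat_lit 285) (nat_lit 115)))) (XT.nd (nat_lit 156) (nat_lit 152) (nat_lit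 0) (XT.nd (nat_lit 78) (nat_lit 228) (nat_lit 0) (XT.lf (nat_lit 0) (nat_lit 100407573836) (nat_lit 228) (nat_lit 8826925434) (nat_lit 76) (nat_lit 632150266) (nat_lit 24) (nat_lit 5) (nat_lit 27) (nat_lit 5) (nat_lit 25) (nat_lit 5) (nat_lit 321) (nat_lit 285) (nat_lit 114)) (XT.lf (nat_lit 0) (nat_lit 4005685886) (nat_lit 228) (nat_lit 81525563289) (nat_lit 76) (nat_lit 28349959420) (nat_lit 21) (nat_lit 5) (nat_lit 24) (nat_lit 5) (nat_lit 22) (nat_lit 5) (nat_lit 322) (nat_lit 285) (nat_lit 113))) (XT.nd (nat_lit 78) (nat_lit 152) (nat_lit 0) (XT.lf (nat_lit 0) (nat_lit 17977095873) (nat_lit 228) (nat_lit 42343683438) (nat_lit 76) (nat_lit 57760399888) (nat_lit 21) (nat_lit 5) (nat_lit 24) (nat_lit 5) (nat_lit 22) (nat_lit 5) (nat_lit 323) (nat_lit 285) (nat_lit 112)) (XT.nd (nat_lit 78) (nat_lit 152) (nat_lit 0) (XT.lf (nat_lit 0) (nat_lit 32646465320) (nat_lit 228) (nat_lit 1203605126)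 (nat_lit 76) (nat_lit 88641110152) (nat_lit 21) (nat_lit 5) (nat_lit 24) (nat_lit 5) (nat_lit 22) (nat_lit 5) (nat_lit 324) (nat_lit 285) (nat_lit 111)) (XT.lf (nat_lit 0) (nat_lit 43381090017) (nat_lit 152) (nat_lit 5344931670) (nat_lit 228) (nat_lit 78361826086) (nat_lit 19) (nat_lit 5) (nat_lit 21) (nat_lit 5) (nat_lit 22) (nat_lit 5) (nat_lit 325) (nat_lit 285) (nat_lit 110))))))) (XT.nd (nat_lit 624) (nat_lit 456) (nat_lit 0) (XT.nd (nat_lit 312) (nat_lit 152) (nat_lit 0) (XT.nd (nat_lit 156) (nat_lit 0) (nat_lit 0) (XT.nd (nat_lit 78) (nat_lit 152) (nat_lit 0) (XT.lf (nat_lit 0) (nat_lit 66013550087) (nat_lit 228) (nat_lit 42061569715) (nat_lit 76) (nat_lit 23819030349) (nat_lit 19) (nat_lit 5) (nat_lit 22) (nat_lit 5) (nat_lit 20) (nat_lit 5) (nat_lit 326) (nat_lit 285) (nat_lit 109)) (XT.lf (nat_lit 0) (nat_lit 1629589308) (nat_lit 152) (nat_lit 82648385527) (nat_lit 228) (nat_lit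 52657168294) (nat_lit 17) (nat_lit 5) (nat_lit 19) (nat_lit 5) (nat_lit 20) (nat_lit 5) (nat_lit 327) (nat_lit 285) (nat_lit 108))) (XT.nd (nat_lit 78) (nat_lit 0) (nat_lit 0) (XT.lf (nat_lit 0) (nat_lit 48964778666) (nat_lit 152) (nat_lit 55202644103) (nat_lit 228) (nat_lit 38025174298) (nat_lit 17) (nat_lit 5) (nat_lit 19) (nat_lit 5) (nat_lit 20) (nat_lit 5) (nat_lit 328) (nat_lit 285) (nat_lit 107)) (XT.lf (nat_lit 0) (nat_lit 98665955740) (nat_lit 152) (nat_lit 26384881563) (nat_lit 228) (nat_lit 22662113030) (nat_lit 17) (nat_lit 5) (nat_lit 19) (nat_lit 5) (nat_lit 20) (nat_lit 5) (nat_lit 329) (nat_lit 285) (nat_lit 106)))) (XT.nd (nat_lit 156) (nat_lit 0) (nat_lit 0) (XT.nd (nat_lit 78) (nat_lit 152) (nat_lit 0) (XT.lf (nat_lit 0) (nat_lit 147038417290) (nat_lit 228) (nat_lit 2718366398) (nat_lit 76) (nat_lit 3749539116) (nat_lit 17) (nat_lit 5) (nat_lit 20) (nat_lit 5) (nat_lit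 18) (nat_lit 4) (nat_lit 330) (nat_lit 285) (nat_lit 105)) (XT.lf (nat_lit 0) (nat_lit 11383746724) (nat_lit 152) (nat_lit 112717029707) (nat_lit 76) (nat_lit 35421116165) (nat_lit 15) (nat_lit 5) (nat_lit 17) (nat_lit 5) (nat_lit 16) (nat_lit 5) (nat_lit 331) (nat_lit 285) (nat_lit 104))) (XT.nd (nat_lit 78) (nat_lit 0) (nat_lit 0) (XT.lf (nat_lit 0) (nat_lit 29956948986) (nat_lit 152) (nat_lit 67044820879) (nat_lit 76) (nat_lit 68828853981) (nat_lit 15) (nat_lit 5) (nat_lit 17) (nat_lit 5) (nat_lit 16) (nat_lit 5) (nat_lit 332) (nat_lit 285) (nat_lit 103)) (XT.lf (nat_lit 0) (nat_lit 49458373168) (nat_lit 152) (nat_lit 19089692170) (nat_lit 76) (nat_lit 103906749283) (nat_lit 15) (nat_lit 5) (nat_lit 17) (nat_lit 5) (nat_lit 16) (nat_lit 5) (nat_lit 333) (nat_lit 285) (nat_lit 102))))) (XT.nd (nat_lit 312) (nat_lit 228) (nat_lit 0) (XT.nd (nat_lit 156) (nat_lit 76) (nat_lit 0) (XT.nd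 (nat_lit 78) (nat_lit 0) (nat_lit 0) (XT.lf (nat_lit 0) (nat_lit 32296215900) (nat_lit 152) (nat_lit 38142469770) (nat_lit 228) (nat_lit 108946339408) (nat_lit 13) (nat_lit 5) (nat_lit 15) (nat_lit 5) (nat_lit 16) (nat_lit 5) (nat_lit 334) (nat_lit 285) (nat_lit 101)) (XT.lf (nat_lit 0) (nat_lit 86913523311) (nat_lit 152) (nat_lit 5877376103) (nat_lit 228) (nat_lit 93854703317) (nat_lit 13) (nat_lit 5) (nat_lit 15) (nat_lit 5) (nat_lit 16) (nat_lit 5) (nat_lit 335) (nat_lit 285) (nat_lit 100))) (XT.nd (nat_lit 78) (nat_lit 76) (nat_lit 0) (XT.lf (nat_lit 0) (nat_lit 116697505784) (nat_lit 228) (nat_lit 50445319834) (nat_lit 76) (nat_lit 27104545460) (nat_lit 13) (nat_lit 5) (nat_lit 16) (nat_lit 5) (nat_lit 14) (nat_lit 4) (nat_lit 336) (nat_lit 285) (nat_lit 99)) (XT.lf (nat_lit 0) (nat_lit 1248793631) (nat_lit 76) (nat_lit 140666123377) (nat_lit 152) (nat_lit 60308537971) (nat_lit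 12) (nat_lit 5) (nat_lit 13) (nat_lit 5) (nat_lit 14) (nat_lit 4) (nat_lit 337) (nat_lit 285) (nat_lit 98)))) (XT.nd (nat_lit 156) (nat_lit 228) (nat_lit 0) (XT.nd (nat_lit 78) (nat_lit 0) (nat_lit 0) (XT.lf (nat_lit 0) (nat_lit 57278367223) (nat_lit 76) (nat_lit 111968782917) (nat_lit 152) (nat_lit 41308496192) (nat_lit 12) (nat_lit 5) (nat_lit 13) (nat_lit 5) (nat_lit 14) (nat_lit 4) (nat_lit 338) (nat_lit 285) (nat_lit 97)) (XT.lf (nat_lit 0) (nat_lit 116108854597) (nat_lit 76) (nat_lit 81836793138) (nat_lit 152) (nat_lit 21358817663) (nat_lit 12) (nat_lit 5) (nat_lit 13) (nat_lit 5) (nat_lit 14) (nat_lit 4) (nat_lit 339) (nat_lit 285) (nat_lit 96))) (XT.nd (nat_lit 78) (nat_lit 228) (nat_lit 0) (XT.lf (nat_lit 0) (nat_lit 177880328341) (nat_lit 76) (nat_lit 50198411206) (nat_lit 152) (nat_lit 412003149) (nat_lit 12) (nat_lit 5) (nat_lit 13) (nat_lit 5) (nat_lit 14) (nat_lit 4)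 (nat_lit 340) (nat_lit 285) (nat_lit 95)) (XT.nd (nat_lit 33228) (nat_lit 0) (nat_lit 3876) (XT.lf (nat_lit 0) (nat_lit 4407632126) (nat_lit 152) (nat_lit 16552251037) (nat_lit 228) (nat_lit 217156178743) (nat_lit 9) (nat_lit 5) (nat_lit 11) (nat_lit 5) (nat_lit 12) (nat_lit 5) (nat_lit 341) (nat_lit 285) (nat_lit 94)) (XT.lf (nat_lit 0) (nat_lit 1394841519) (nat_lit 0) (nat_lit 1394841519) (nat_lit 684) (nat_lit 16653755722) (nat_lit 60) (nat_lit 5) (nat_lit 60) (nat_lit 3) (nat_lit 69) (nat_lit 3) (nat_lit 286) (nat_lit 286) (nat_lit 148))))))))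
noncomputable def xc231 : XT := (XT.nd (nat_lit 1326) (nat_lit 1748) (nat_lit 0) (XT.nd (nat_lit 624) (nat_lit 988) (nat_lit 0) (XT.nd (nat_lit 312) (nat_lit 0) (nat_lit 76) (XT.nd (nat_lit 156) (nat_lit 0) (nat_lit 76) (XT.nd (nat_lit 78) (nat_lit 0) (nat_lit 0) (XT.lf (nat_lit 0) (nat_lit 5971972312) (nat_lit 684) (nat_lit 20591873176) (nat_lit 760) (nat_lit 13282377097) (nat_lit 60) (nat_lit 5) (nat_lit 69) (nat_lit 3) (nat_lit 70) (nat_lit 5) (nat_lit 287) (nat_lit 286) (nat_lit 147)) (XT.lf (nat_lit 0) (nat_lit 6427471343) (nat_lit 684) (nat_lit 4358417879) (nat_lit 760) (nat_lit 30065493487) (nat_lit 60) (nat_lit 5) (nat_lit 69) (nat_lit 3) (nat_lit 70) (nat_lit 5) (nat_lit 288) (nat_lit 286) (nat_lit 146))) (XT.nd (nat_lit 78) (nat_lit 0) (nat_lit 0) (XT.lf (nat_lit 0) (nat_lit 7201622905) (nat_lit 684) (nat_lit 28885512731) (nat_lit 760) (nat_lit 5804881735) (nat_lit 61) (nat_lit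 5) (nat_lit 70) (nat_lit 5) (nat_lit 71) (nat_lit 5) (nat_lit 289) (nat_lit 286) (nat_lit 145)) (XT.lf (nat_lit 0) (nat_lit 8264075812) (nat_lit 684) (nat_lit 11769482547) (nat_lit 760) (nat_lit 22938655634) (nat_lit 61) (nat_lit 5) (nat_lit 70) (nat_lit 5) (nat_lit 71) (nat_lit 5) (nat_lit 290) (nat_lit 286) (nat_lit 144)))) (XT.nd (nat_lit 156) (nat_lit 0) (nat_lit 76) (XT.nd (nat_lit 78) (nat_lit 0) (nat_lit 76) (XT.lf (nat_lit 76) (nat_lit 6406000988) (nat_lit 0) (nat_lit 3071526921) (nat_lit 760) (nat_lit 34624008152) (nat_lit 62) (nat_lit 5) (nat_lit 61) (nat_lit 5) (nat_lit 71) (nat_lit 5) (nat_lit 291) (nat_lit 286) (nat_lit 143)) (XT.lf (nat_lit 0) (nat_lit 11182305526) (nat_lit 684) (nat_lit 19613348883) (nat_lit 760) (nat_lit 14470146172) (nat_lit 62) (nat_lit 5) (nat_lit 71) (nat_lit 5) (nat_lit 72) (nat_lit 5) (nat_lit 292) (nat_lit 286) (nat_lit 142))) (XT.nd (nat_lit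 78) (nat_lit 0) (nat_lit 76) (XT.lf (nat_lit 0) (nat_lit 13020724937) (nat_lit 684) (nat_lit 678816553) (nat_lit 760) (nat_lit 32786325256) (nat_lit 62) (nat_lit 5) (nat_lit 71) (nat_lit 5) (nat_lit 72) (nat_lit 5) (nat_lit 293) (nat_lit 286) (nat_lit 141)) (XT.lf (nat_lit 0) (nat_lit 15330364243) (nat_lit 684) (nat_lit 27987039047) (nat_lit 760) (nat_lit 4430576140) (nat_lit 63) (nat_lit 5) (nat_lit 72) (nat_lit 5) (nat_lit 73) (nat_lit 5) (nat_lit 294) (nat_lit 286) (nat_lit 140))))) (XT.nd (nat_lit 312) (nat_lit 608) (nat_lit 0) (XT.nd (nat_lit 156) (nat_lit 608) (nat_lit 0) (XT.nd (nat_lit 78) (nat_lit 0) (nat_lit 0) (XT.lf (nat_lit 0) (nat_lit 17989970688) (nat_lit 684) (nat_lit 8052567899) (nat_lit 760) (nat_lit 23018942672) (nat_lit 63) (nat_lit 5) (nat_lit 72) (nat_lit 5) (nat_lit 73) (nat_lit 5) (nat_lit 295) (nat_lit 286) (nat_lit 139)) (XT.lf (nat_lit 76) (nat_lit 13303049378)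 (nat_lit 0) (nat_lit 7685508794) (nat_lit 760) (nat_lit 29441807369) (nat_lit 64) (nat_lit 5) (nat_lit 63) (nat_lit 5) (nat_lit 73) (nat_lit 5) (nat_lit 296) (nat_lit 286) (nat_lit 138))) (XT.nd (nat_lit 78) (nat_lit 684) (nat_lit 0) (XT.lf (nat_lit 0) (nat_lit 24454994883) (nat_lit 684) (nat_lit 16039468853) (nat_lit 76) (nat_lit 11357341357) (nat_lit 64) (nat_lit 5) (nat_lit 73) (nat_lit 5) (nat_lit 65) (nat_lit 5) (nat_lit 297) (nat_lit 286) (nat_lit 137)) (XT.lf (nat_lit 0) (nat_lit 6172991449) (nat_lit 684) (nat_lit 22142576854) (nat_lit 760) (nat_lit 25017714286) (nat_lit 55) (nat_lit 5) (nat_lit 64) (nat_lit 5) (nat_lit 65) (nat_lit 5) (nat_lit 298) (nat_lit 286) (nat_lit 136)))) (XT.nd (nat_lit 156) (nat_lit 608) (nat_lit 0) (XT.nd (nat_lit 78) (nat_lit 0) (nat_lit 0) (XT.lf (nat_lit 0) (nat_lit 30051589166) (nat_lit 684) (nat_lit 2587715744) (nat_lit 760) (nat_lit 22236028715)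 (nat_lit 55) (nat_lit 5) (nat_lit 64) (nat_lit 5) (nat_lit 65) (nat_lit 5) (nat_lit 299) (nat_lit 286) (nat_lit 135)) (XT.lf (nat_lit 0) (nat_lit 37457970611) (nat_lit 760) (nat_lit 1651896389) (nat_lit 76) (nat_lit 17370689187) (nat_lit 55) (nat_lit 5) (nat_lit 65) (nat_lit 5) (nat_lit 56) (nat_lit 5) (nat_lit 300) (nat_lit 286) (nat_lit 134))) (XT.nd (nat_lit 78) (nat_lit 304) (nat_lit 0) (XT.lf (nat_lit 0) (nat_lit 23383240876) (nat_lit 304) (nat_lit 19540468462) (nat_lit 380) (nat_lit 15222029349) (nat_lit 51) (nat_lit 5) (nat_lit 55) (nat_lit 5) (nat_lit 56) (nat_lit 5) (nat_lit 301) (nat_lit 286) (nat_lit 133)) (XT.nd (nat_lit 78) (nat_lit 304) (nat_lit 0) (XT.lf (nat_lit 0) (nat_lit 48705583479) (nat_lit 380) (nat_lit 10182825868) (nat_lit 76) (nat_lit 1003634062) (nat_lit 51) (nat_lit 5) (nat_lit 56) (nat_lit 5) (nat_lit 52) (nat_lit 5) (nat_lit 302) (nat_lit 286) (nat_lit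 132)) (XT.lf (nat_lit 0) (nat_lit 15810242031) (nat_lit 304) (nat_lit 39532235465) (nat_lit 380) (nat_lit 6354894822) (nat_lit 47) (nat_lit 5) (nat_lit 51) (nat_lit 5) (nat_lit 52) (nat_lit 5) (nat_lit 303) (nat_lit 286) (nat_lit 131))))))) (XT.nd (nat_lit 702) (nat_lit 684) (nat_lit 0) (XT.nd (nat_lit 312) (nat_lit 760) (nat_lit 0) (XT.nd (nat_lit 156) (nat_lit 0) (nat_lit 0) (XT.nd (nat_lit 78) (nat_lit 304) (nat_lit 0) (XT.lf (nat_lit 0) (nat_lit 43455230095) (nat_lit 304) (nat_lit 19027225595) (nat_lit 380) (nat_lit 1101955016) (nat_lit 47) (nat_lit 5) (nat_lit 51) (nat_lit 5) (nat_lit 52) (nat_lit 5) (nat_lit 304) (nat_lit 286) (nat_lit 130)) (XT.lf (nat_lit 0) (nat_lit 4423636565) (nat_lit 304) (nat_lit 58526023323) (nat_lit 76) (nat_lit 2605136781) (nat_lit 43) (nat_lit 5) (nat_lit 47) (nat_lit 5) (nat_lit 44) (nat_lit 5) (nat_lit 305) (nat_lit 286) (nat_lit 129))) (XT.nd (nat_lit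 78) (nat_lit 0) (nat_lit 0) (XT.lf (nat_lit 0) (nat_lit 10845740725) (nat_lit 304) (nat_lit 31700048991) (nat_lit 76) (nat_lit 25044150002) (nat_lit 43) (nat_lit 5) (nat_lit 47) (nat_lit 5) (nat_lit 44) (nat_lit 5) (nat_lit 306) (nat_lit 286) (nat_lit 128)) (XT.lf (nat_lit 0) (nat_lit 17587862748) (nat_lit 304) (nat_lit 3533996495) (nat_lit 76) (nat_lit 48605039164) (nat_lit 43) (nat_lit 5) (nat_lit 47) (nat_lit 5) (nat_lit 44) (nat_lit 5) (nat_lit 307) (nat_lit 286) (nat_lit 127)))) (XT.nd (nat_lit 156) (nat_lit 456) (nat_lit 0) (XT.nd (nat_lit 78) (nat_lit 0) (nat_lit 0) (XT.lf (nat_lit 0) (nat_lit 25114365952) (nat_lit 380) (nat_lit 45077915379) (nat_lit 76) (nat_lit 1756063870) (nat_lit 39) (nat_lit 5) (nat_lit 44) (nat_lit 5) (nat_lit 40) (nat_lit 5) (nat_lit 308) (nat_lit 286) (nat_lit 126)) (XT.lf (nat_lit 0) (nat_lit 33423279101) (nat_lit 380) (nat_lit 15708538582) (nat_lit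 76) (nat_lit 25128746149) (nat_lit 39) (nat_lit 5) (nat_lit 44) (nat_lit 5) (nat_lit 40) (nat_lit 5) (nat_lit 309) (nat_lit 286) (nat_lit 125))) (XT.nd (nat_lit 78) (nat_lit 228) (nat_lit 0) (XT.lf (nat_lit 0) (nat_lit 15628374105) (nat_lit 228) (nat_lit 26762308150) (nat_lit 304) (nat_lit 34285562481) (nat_lit 36) (nat_lit 5) (nat_lit 39) (nat_lit 5) (nat_lit 40) (nat_lit 5) (nat_lit 310) (nat_lit 286) (nat_lit 124)) (XT.nd (nat_lit 78) (nat_lit 228) (nat_lit 0) (XT.lf (nat_lit 0) (nat_lit 49076377259) (nat_lit 228) (nat_lit 2995179786) (nat_lit 304) (nat_lit 27127900956) (nat_lit 36) (nat_lit 5) (nat_lit 39) (nat_lit 5) (nat_lit 40) (nat_lit 5) (nat_lit 311) (nat_lit 286) (nat_lit 123)) (XT.lf (nat_lit 0) (nat_lit 2070235691) (nat_lit 228) (nat_lit 60540535219) (nat_lit 304) (nat_lit 19219349480) (nat_lit 33) (nat_lit 5) (nat_lit 36) (nat_lit 5) (nat_lit 37) (nat_lit 5) (nat_lit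 312) (nat_lit 286) (nat_lit 122)))))) (XT.nd (nat_lit 312) (nat_lit 380) (nat_lit 0) (XT.nd (nat_lit 156) (nat_lit 304) (nat_lit 0) (XT.nd (nat_lit 78) (nat_lit 0) (nat_lit 0) (XT.lf (nat_lit 0) (nat_lit 36867204882) (nat_lit 228) (nat_lit 37367335383) (nat_lit 304) (nat_lit 10329898969) (nat_lit 33) (nat_lit 5) (nat_lit 36) (nat_lit 5) (nat_lit 37) (nat_lit 5) (nat_lit 313) (nat_lit 286) (nat_lit 121)) (XT.lf (nat_lit 0) (nat_lit 73402981019) (nat_lit 228) (nat_lit 13035694683) (nat_lit 304) (nat_lit 996842364) (nat_lit 33) (nat_lit 5) (nat_lit 36) (nat_lit 5) (nat_lit 37) (nat_lit 5) (nat_lit 314) (nat_lit 286) (nat_lit 120))) (XT.nd (nat_lit 78) (nat_lit 0) (nat_lit 0) (XT.lf (nat_lit 0) (nat_lit 9065089716) (nat_lit 304) (nat_lit 68752306145) (nat_lit 76) (nat_lit 12598687296) (nat_lit 29) (nat_lit 5) (nat_lit 33) (nat_lit 5) (nat_lit 30) (nat_lit 5) (nat_lit 315) (nat_lit 286)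 (nat_lit 119)) (XT.lf (nat_lit 0) (nat_lit 20051081574) (nat_lit 304) (nat_lit 34136689098) (nat_lit 76) (nat_lit 39334368095) (nat_lit 29) (nat_lit 5) (nat_lit 33) (nat_lit 5) (nat_lit 30) (nat_lit 5) (nat_lit 316) (nat_lit 286) (nat_lit 118)))) (XT.nd (nat_lit 156) (nat_lit 152) (nat_lit 0) (XT.nd (nat_lit 78) (nat_lit 0) (nat_lit 0) (XT.lf (nat_lit 0) (nat_lit 2281746261) (nat_lit 228) (nat_lit 29339508389) (nat_lit 304) (nat_lit 65160500835) (nat_lit 26) (nat_lit 5) (nat_lit 29) (nat_lit 5) (nat_lit 30) (nat_lit 5) (nat_lit 317) (nat_lit 286) (nat_lit 117)) (XT.lf (nat_lit 0) (nat_lit 41705275490) (nat_lit 228) (nat_lit 2642059532) (nat_lit 304) (nat_lit 55828150378) (nat_lit 26) (nat_lit 5) (nat_lit 29) (nat_lit 5) (nat_lit 30) (nat_lit 5) (nat_lit 318) (nat_lit 286) (nat_lit 116))) (XT.nd (nat_lit 78) (nat_lit 152) (nat_lit 0) (XT.lf (nat_lit 0) (nat_lit 58105440490) (nat_lit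 304) (nat_lit 21036296750) (nat_lit 76) (nat_lit 24577380704) (nat_lit 26) (nat_lit 5) (nat_lit 30) (nat_lit 5) (nat_lit 27) (nat_lit 5) (nat_lit 319) (nat_lit 286) (nat_lit 115)) (XT.nd (nat_lit 78) (nat_lit 0) (nat_lit 0) (XT.lf (nat_lit 0) (nat_lit 18827686031) (nat_lit 152) (nat_lit 54060371483) (nat_lit 228) (nat_lit 34535046365) (nat_lit 24) (nat_lit 5) (nat_lit 26) (nat_lit 5) (nat_lit 27) (nat_lit 5) (nat_lit 320) (nat_lit 286) (nat_lit 114)) (XT.lf (nat_lit 0) (nat_lit 61414298347) (nat_lit 152) (nat_lit 27351125095) (nat_lit 228) (nat_lit 22529086750) (nat_lit 24) (nat_lit 5) (nat_lit 26) (nat_lit 5) (nat_lit 27) (nat_lit 5) (nat_lit 321) (nat_lit 286) (nat_lit 113))))))))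
noncomputable def xc232 : XT := (XT.nd (nat_lit 1326) (nat_lit 0) (nat_lit 0) (XT.nd (nat_lit 624) (nat_lit 380) (nat_lit 0) (XT.nd (nat_lit 312) (nat_lit 304) (nat_lit 0) (XT.nd (nat_lit 156) (nat_lit 0) (nat_lit 0) (XT.nd (nat_lit 78) (nat_lit 228) (nat_lit 0) (XT.lf (nat_lit 0) (nat_lit 105446871327) (nat_lit 228) (nat_lit 9240962262) (nat_lit 76) (nat_lit 671144434) (nat_lit 24) (nat_lit 5) (nat_lit 27) (nat_lit 5) (nat_lit 25) (nat_lit 5) (nat_lit 322) (nat_lit 286) (nat_lit 112)) (XT.lf (nat_lit 0) (nat_lit 4224763353) (nat_lit 228) (nat_lit 85574298446) (nat_lit 76) (nat_lit 29775214916) (nat_lit 21) (nat_lit 5) (nat_lit 24) (nat_lit 5) (nat_lit 22) (nat_lit 5) (nat_lit 323) (nat_lit 286) (nat_lit 111))) (XT.nd (nat_lit 78) (nat_lit 0) (nat_lit 0) (XT.lf (nat_lit 0) (nat_lit 18893848925) (nat_lit 228) (nat_lit 44434636175) (nat_lit 76) (nat_lit 60655808001) (nat_lit 21) (nat_lit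 5) (nat_lit 24) (nat_lit 5) (nat_lit 22) (nat_lit 5) (nat_lit 324) (nat_lit 286) (nat_lit 110)) (XT.lf (nat_lit 0) (nat_lit 34295834546) (nat_lit 228) (nat_lit 1238803062) (nat_lit 76) (nat_lit 93080201963) (nat_lit 21) (nat_lit 5) (nat_lit 24) (nat_lit 5) (nat_lit 22) (nat_lit 5) (nat_lit 325) (nat_lit 286) (nat_lit 109)))) (XT.nd (nat_lit 156) (nat_lit 152) (nat_lit 0) (XT.nd (nat_lit 78) (nat_lit 0) (nat_lit 0) (XT.lf (nat_lit 0) (nat_lit 45574723897) (nat_lit 152) (nat_lit 5604216876) (nat_lit 228) (nat_lit 82262423006) (nat_lit 19) (nat_lit 5) (nat_lit 21) (nat_lit 5) (nat_lit 22) (nat_lit 5) (nat_lit 326) (nat_lit 286) (nat_lit 108)) (XT.lf (nat_lit 0) (nat_lit 69330172639) (nat_lit 228) (nat_lit 44140522999) (nat_lit 76) (nat_lit 25017321451) (nat_lit 19) (nat_lit 5) (nat_lit 22) (nat_lit 5) (nat_lit 20) (nat_lit 5) (nat_lit 327) (nat_lit 286) (nat_lit 107))) (XT.nd (nat_lit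 78) (nat_lit 0) (nat_lit 0) (XT.lf (nat_lit 0) (nat_lit 1734804860) (nat_lit 152) (nat_lit 86772625064) (nat_lit 228) (nat_lit 55273651290) (nat_lit 17) (nat_lit 5) (nat_lit 19) (nat_lit 5) (nat_lit 20) (nat_lit 5) (nat_lit 328) (nat_lit 286) (nat_lit 106)) (XT.lf (nat_lit 0) (nat_lit 51435623396) (nat_lit 152) (nat_lit 57954986080) (nat_lit 228) (nat_lit 39910837376) (nat_lit 17) (nat_lit 5) (nat_lit 19) (nat_lit 5) (nat_lit 20) (nat_lit 5) (nat_lit 329) (nat_lit 286) (nat_lit 105))))) (XT.nd (nat_lit 312) (nat_lit 228) (nat_lit 0) (XT.nd (nat_lit 156) (nat_lit 152) (nat_lit 0) (XT.nd (nat_lit 78) (nat_lit 0) (nat_lit 0) (XT.lf (nat_lit 0) (nat_lit 103620782857) (nat_lit 152) (nat_lit 27696706376) (nat_lit 228) (nat_lit 23780365694) (nat_lit 17) (nat_lit 5) (nat_lit 19) (nat_lit 5) (nat_lit 20) (nat_lit 5) (nat_lit 330) (nat_lit 286) (nat_lit 104)) (XT.lf (nat_lit 0) (nat_lit 154403886631)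 (nat_lit 228) (nat_lit 2833183368) (nat_lit 76) (nat_lit 3943855883) (nat_lit 17) (nat_lit 5) (nat_lit 20) (nat_lit 5) (nat_lit 18) (nat_lit 4) (nat_lit 331) (nat_lit 286) (nat_lit 103))) (XT.nd (nat_lit 78) (nat_lit 0) (nat_lit 0) (XT.lf (nat_lit 0) (nat_lit 11966411206) (nat_lit 152) (nat_lit 118331642248) (nat_lit 76) (nat_lit 37199227590) (nat_lit 15) (nat_lit 5) (nat_lit 17) (nat_lit 5) (nat_lit 16) (nat_lit 5) (nat_lit 332) (nat_lit 286) (nat_lit 102)) (XT.lf (nat_lit 0) (nat_lit 31467631813) (nat_lit 152) (nat_lit 70376834357) (nat_lit 76) (nat_lit 72277016315) (nat_lit 15) (nat_lit 5) (nat_lit 17) (nat_lit 5) (nat_lit 16) (nat_lit 5) (nat_lit 333) (nat_lit 286) (nat_lit 101)))) (XT.nd (nat_lit 156) (nat_lit 76) (nat_lit 0) (XT.nd (nat_lit 78) (nat_lit 152) (nat_lit 0) (XT.lf (nat_lit 0) (nat_lit 51943515995) (nat_lit 152) (nat_lit 20024912430) (nat_lit 76) (nat_lit 109108486399)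 (nat_lit 15) (nat_lit 5) (nat_lit 17) (nat_lit 5) (nat_lit 16) (nat_lit 5) (nat_lit 334) (nat_lit 286) (nat_lit 100)) (XT.lf (nat_lit 0) (nat_lit 33929980327) (nat_lit 152) (nat_lit 40042577611) (nat_lit 228) (nat_lit 114381093572) (nat_lit 13) (nat_lit 5) (nat_lit 15) (nat_lit 5) (nat_lit 16) (nat_lit 5) (nat_lit 335) (nat_lit 286) (nat_lit 99))) (XT.nd (nat_lit 78) (nat_lit 76) (nat_lit 0) (XT.lf (nat_lit 0) (nat_lit 91277250555) (nat_lit 152) (nat_lit 6164563339) (nat_lit 228) (nat_lit 98535473905) (nat_lit 13) (nat_lit 5) (nat_lit 15) (nat_lit 5) (nat_lit 16) (nat_lit 5) (nat_lit 336) (nat_lit 286) (nat_lit 98)) (XT.nd (nat_lit 78) (nat_lit 76) (nat_lit 0) (XT.lf (nat_lit 0) (nat_lit 122543308528) (nat_lit 228) (nat_lit 52949926941) (nat_lit 76) (nat_lit 28465932464) (nat_lit 13) (nat_lit 5) (nat_lit 16) (nat_lit 5) (nat_lit 14) (nat_lit 4) (nat_lit 337) (nat_lit 286) (nat_lit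 97)) (XT.lf (nat_lit 0) (nat_lit 1328607377) (nat_lit 76) (nat_lit 147692733839) (nat_lit 152) (nat_lit 63312728474) (nat_lit 12) (nat_lit 5) (nat_lit 13) (nat_lit 5) (nat_lit 14) (nat_lit 4) (nat_lit 338) (nat_lit 286) (nat_lit 96))))))) (XT.nd (nat_lit 33852) (nat_lit 0) (nat_lit 3268) (XT.nd (nat_lit 33540) (nat_lit 0) (nat_lit 3648) (XT.nd (nat_lit 156) (nat_lit 0) (nat_lit 0) (XT.nd (nat_lit 78) (nat_lit 0) (nat_lit 0) (XT.lf (nat_lit 0) (nat_lit 60158832312) (nat_lit 76) (nat_lit 117560845200) (nat_lit 152) (nat_lit 43363219672) (nat_lit 12) (nat_lit 5) (nat_lit 13) (nat_lit 5) (nat_lit 14) (nat_lit 4) (nat_lit 339) (nat_lit 286) (nat_lit 95)) (XT.lf (nat_lit 0) (nat_lit 121930056115) (nat_lit 76) (nat_lit 85922559591) (nat_lit 152) (nat_lit 22416566803) (nat_lit 12) (nat_lit 5) (nat_lit 13) (nat_lit 5) (nat_lit 14) (nat_lit 4) (nat_lit 340) (nat_lit 286) (nat_lit 94))) (XT.nd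 (nat_lit 33306) (nat_lit 0) (nat_lit 3648) (XT.lf (nat_lit 0) (nat_lit 186789353128) (nat_lit 76) (nat_lit 52702547763) (nat_lit 152) (nat_lit 422896885) (nat_lit 12) (nat_lit 5) (nat_lit 13) (nat_lit 5) (nat_lit 14) (nat_lit 4) (nat_lit 341) (nat_lit 286) (nat_lit 93)) (XT.lf (nat_lit 0) (nat_lit 1483725100) (nat_lit 0) (nat_lit 1483725100) (nat_lit 684) (nat_lit 17446078244) (nat_lit 60) (nat_lit 5) (nat_lit 60) (nat_lit 3) (nat_lit 69) (nat_lit 3) (nat_lit 287) (nat_lit 287) (nat_lit 146)))) (XT.nd (nat_lit 156) (nat_lit 0) (nat_lit 76) (XT.nd (nat_lit 78) (nat_lit 0) (nat_lit 0) (XT.lf (nat_lit 0) (nat_lit 6342921702) (nat_lit 684) (nat_lit 21580471384) (nat_lit 760) (nat_lit 13911202891) (nat_lit 60) (nat_lit 5) (nat_lit 69) (nat_lit 3) (nat_lit 70) (nat_lit 5) (nat_lit 288) (nat_lit 287) (nat_lit 145)) (XT.lf (nat_lit 0) (nat_lit 6817750410) (nat_lit 684) (nat_lit 4537295486)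 (nat_lit 760) (nat_lit 31535155722) (nat_lit 60) (nat_lit 5) (nat_lit 69) (nat_lit 3) (nat_lit 70) (nat_lit 5) (nat_lit 289) (nat_lit 287) (nat_lit 144))) (XT.nd (nat_lit 78) (nat_lit 0) (nat_lit 0) (XT.lf (nat_lit 0) (nat_lit 7627493879) (nat_lit 684) (nat_lit 30287338980) (nat_lit 760) (nat_lit 6068205459) (nat_lit 61) (nat_lit 5) (nat_lit 70) (nat_lit 5) (nat_lit 71) (nat_lit 5) (nat_lit 290) (nat_lit 287) (nat_lit 143)) (XT.lf (nat_lit 0) (nat_lit 8739936582) (nat_lit 684) (nat_lit 12317528687) (nat_lit 760) (nat_lit 24059949974) (nat_lit 61) (nat_lit 5) (nat_lit 70) (nat_lit 5) (nat_lit 71) (nat_lit 5) (nat_lit 291) (nat_lit 287) (nat_lit 142))))) (XT.nd (nat_lit 312) (nat_lit 456) (nat_lit 0) (XT.nd (nat_lit 156) (nat_lit 0) (nat_lit 76) (XT.nd (nat_lit 78) (nat_lit 0) (nat_lit 76) (XT.lf (nat_lit 76) (nat_lit 6766076961) (nat_lit 0) (nat_lit 3245621672) (nat_lit 760) (nat_lit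 36291636087) (nat_lit 62) (nat_lit 5) (nat_lit 61) (nat_lit 5) (nat_lit 71) (nat_lit 5) (nat_lit 292) (nat_lit 287) (nat_lit 141)) (XT.lf (nat_lit 0) (nat_lit 11798538877) (nat_lit 684) (nat_lit 20552707358) (nat_lit 760) (nat_lit 15174737588) (nat_lit 62) (nat_lit 5) (nat_lit 71) (nat_lit 5) (nat_lit 72) (nat_lit 5) (nat_lit 293) (nat_lit 287) (nat_lit 140))) (XT.nd (nat_lit 78) (nat_lit 0) (nat_lit 76) (XT.lf (nat_lit 0) (nat_lit 13726159350) (nat_lit 684) (nat_lit 673415505) (nat_lit 760) (nat_lit 34407626383) (nat_lit 62) (nat_lit 5) (nat_lit 71) (nat_lit 5) (nat_lit 72) (nat_lit 5) (nat_lit 294) (nat_lit 287) (nat_lit 139)) (XT.lf (nat_lit 0) (nat_lit 16149080593) (nat_lit 684) (nat_lit 29344621536) (nat_lit 760) (nat_lit 4638838807) (nat_lit 63) (nat_lit 5) (nat_lit 72) (nat_lit 5) (nat_lit 73) (nat_lit 5) (nat_lit 295) (nat_lit 287) (nat_lit 138)))) (XT.nd (nat_lit 156) (nat_lit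 608) (nat_lit 0) (XT.nd (nat_lit 78) (nat_lit 0) (nat_lit 0) (XT.lf (nat_lit 0) (nat_lit 18939181734) (nat_lit 684) (nat_lit 8415415852) (nat_lit 760) (nat_lit 24157255388) (nat_lit 63) (nat_lit 5) (nat_lit 72) (nat_lit 5) (nat_lit 73) (nat_lit 5) (nat_lit 296) (nat_lit 287) (nat_lit 137)) (XT.lf (nat_lit 76) (nat_lit 14007340669) (nat_lit 0) (nat_lit 8078601728) (nat_lit 760) (nat_lit 30863337203) (nat_lit 64) (nat_lit 5) (nat_lit 63) (nat_lit 5) (nat_lit 73) (nat_lit 5) (nat_lit 297) (nat_lit 287) (nat_lit 136))) (XT.nd (nat_lit 78) (nat_lit 684) (nat_lit 0) (XT.lf (nat_lit 0) (nat_lit 25723286199) (nat_lit 684) (nat_lit 16801555908) (nat_lit 76) (nat_lit 11917079587) (nat_lit 64) (nat_lit 5) (nat_lit 73) (nat_lit 5) (nat_lit 65) (nat_lit 5) (nat_lit 298) (nat_lit 287) (nat_lit 135)) (XT.nd (nat_lit 78) (nat_lit 0) (nat_lit 0) (XT.lf (nat_lit 0) (nat_lit 6520884080) (nat_lit 684)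 (nat_lit 23254448258) (nat_lit 760) (nat_lit 26222227886) (nat_lit 55) (nat_lit 5) (nat_lit 64) (nat_lit 5) (nat_lit 65) (nat_lit 5) (nat_lit 299) (nat_lit 287) (nat_lit 134)) (XT.lf (nat_lit 0) (nat_lit 31591542965) (nat_lit 684) (nat_lit 2721618256) (nat_lit 760) (nat_lit 23303666233) (nat_lit 55) (nat_lit 5) (nat_lit 64) (nat_lit 5) (nat_lit 65) (nat_lit 5) (nat_lit 300) (nat_lit 287) (nat_lit 133))))))))
noncomputable def xc233 : XT := (XT.nd (nat_lit 1326) (nat_lit 1064) (nat_lit 0) (XT.nd (nat_lit 624) (nat_lit 1064) (nat_lit 0) (XT.nd (nat_lit 312) (nat_lit 304) (nat_lit 0) (XT.nd (nat_lit 156) (nat_lit 304) (nat_lit 0) (XT.nd (nat_lit 78) (nat_lit 304) (nat_lit 0) (XT.lf (nat_lit 0) (nat_lit 39370698234) (nat_lit 760) (nat_lit 1696664817) (nat_lit 76) (nat_lit 18235059683) (nat_lit 55) (nat_lit 5) (nat_lit 65) (nat_lit 5) (nat_lit 56) (nat_lit 5) (nat_lit 301) (nat_lit 287)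 (nat_lit 132)) (XT.lf (nat_lit 0) (nat_lit 24589619209) (nat_lit 304) (nat_lit 20518789116) (nat_lit 380) (nat_lit 15942529898) (nat_lit 51) (nat_lit 5) (nat_lit 55) (nat_lit 5) (nat_lit 56) (nat_lit 5) (nat_lit 302) (nat_lit 287) (nat_lit 131))) (XT.nd (nat_lit 78) (nat_lit 304) (nat_lit 0) (XT.lf (nat_lit 0) (nat_lit 51177522907) (nat_lit 380) (nat_lit 10654515789) (nat_lit 76) (nat_lit 1052619850) (nat_lit 51) (nat_lit 5) (nat_lit 56) (nat_lit 5) (nat_lit 52) (nat_lit 5) (nat_lit 303) (nat_lit 287) (nat_lit 130)) (XT.lf (nat_lit 0) (nat_lit 16637601450) (nat_lit 304) (nat_lit 41507489738) (nat_lit 380) (nat_lit 6635228568) (nat_lit 47) (nat_lit 5) (nat_lit 51) (nat_lit 5) (nat_lit 52) (nat_lit 5) (nat_lit 304) (nat_lit 287) (nat_lit 129)))) (XT.nd (nat_lit 156) (nat_lit 0) (nat_lit 0) (XT.nd (nat_lit 78) (nat_lit 304) (nat_lit 0) (XT.lf (nat_lit 0) (nat_lit 45663084283) (nat_lit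 304) (nat_lit 19977294017) (nat_lit 380) (nat_lit 1121423247) (nat_lit 47) (nat_lit 5) (nat_lit 51) (nat_lit 5) (nat_lit 52) (nat_lit 5) (nat_lit 305) (nat_lit 287) (nat_lit 128)) (XT.lf (nat_lit 0) (nat_lit 4678260890) (nat_lit 304) (nat_lit 61414785021) (nat_lit 76) (nat_lit 2737691753) (nat_lit 43) (nat_lit 5) (nat_lit 47) (nat_lit 5) (nat_lit 44) (nat_lit 5) (nat_lit 306) (nat_lit 287) (nat_lit 127))) (XT.nd (nat_lit 78) (nat_lit 0) (nat_lit 0) (XT.lf (nat_lit 0) (nat_lit 11419877759) (nat_lit 304) (nat_lit 33249299566) (nat_lit 76) (nat_lit 26298546200) (nat_lit 43) (nat_lit 5) (nat_lit 47) (nat_lit 5) (nat_lit 44) (nat_lit 5) (nat_lit 307) (nat_lit 287) (nat_lit 126)) (XT.lf (nat_lit 0) (nat_lit 18497589216) (nat_lit 304) (nat_lit 3676646916) (nat_lit 76) (nat_lit 51037375596) (nat_lit 43) (nat_lit 5) (nat_lit 47) (nat_lit 5) (nat_lit 44) (nat_lit 5) (nat_lit 308) (nat_lit 287)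 (nat_lit 125))))) (XT.nd (nat_lit 312) (nat_lit 532) (nat_lit 0) (XT.nd (nat_lit 156) (nat_lit 228) (nat_lit 0) (XT.nd (nat_lit 78) (nat_lit 0) (nat_lit 0) (XT.lf (nat_lit 0) (nat_lit 26399559998) (nat_lit 380) (nat_lit 47296794702) (nat_lit 76) (nat_lit 1847824514) (nat_lit 39) (nat_lit 5) (nat_lit 44) (nat_lit 5) (nat_lit 40) (nat_lit 5) (nat_lit 309) (nat_lit 287) (nat_lit 124)) (XT.lf (nat_lit 0) (nat_lit 35122515198) (nat_lit 380) (nat_lit 16460616515) (nat_lit 76) (nat_lit 26388952457) (nat_lit 39) (nat_lit 5) (nat_lit 44) (nat_lit 5) (nat_lit 40) (nat_lit 5) (nat_lit 310) (nat_lit 287) (nat_lit 123))) (XT.nd (nat_lit 78) (nat_lit 0) (nat_lit 0) (XT.lf (nat_lit 0) (nat_lit 16442603920) (nat_lit 228) (nat_lit 28094860094) (nat_lit 304) (nat_lit 35971131294) (nat_lit 36) (nat_lit 5) (nat_lit 39) (nat_lit 5) (nat_lit 40) (nat_lit 5) (nat_lit 311) (nat_lit 287) (nat_lit 122)) (XT.lf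 (nat_lit 0) (nat_lit 51561444798) (nat_lit 228) (nat_lit 3139640239) (nat_lit 304) (nat_lit 28456953802) (nat_lit 36) (nat_lit 5) (nat_lit 39) (nat_lit 5) (nat_lit 40) (nat_lit 5) (nat_lit 312) (nat_lit 287) (nat_lit 121)))) (XT.nd (nat_lit 156) (nat_lit 304) (nat_lit 0) (XT.nd (nat_lit 78) (nat_lit 0) (nat_lit 0) (XT.lf (nat_lit 0) (nat_lit 2205780359) (nat_lit 228) (nat_lit 63560822423) (nat_lit 304) (nat_lit 20153668908) (nat_lit 33) (nat_lit 5) (nat_lit 36) (nat_lit 5) (nat_lit 37) (nat_lit 5) (nat_lit 313) (nat_lit 287) (nat_lit 120)) (XT.lf (nat_lit 0) (nat_lit 38741072634) (nat_lit 228) (nat_lit 39229283526) (nat_lit 304) (nat_lit 10821014826) (nat_lit 33) (nat_lit 5) (nat_lit 36) (nat_lit 5) (nat_lit 37) (nat_lit 5) (nat_lit 314) (nat_lit 287) (nat_lit 119))) (XT.nd (nat_lit 78) (nat_lit 304) (nat_lit 0) (XT.lf (nat_lit 0) (nat_lit 77102184840) (nat_lit 228) (nat_lit 13681366441)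 (nat_lit 304) (nat_lit 1022513919) (nat_lit 33) (nat_lit 5) (nat_lit 36) (nat_lit 5) (nat_lit 37) (nat_lit 5) (nat_lit 315) (nat_lit 287) (nat_lit 118)) (XT.nd (nat_lit 78) (nat_lit 0) (nat_lit 0) (XT.lf (nat_lit 0) (nat_lit 9541190722) (nat_lit 304) (nat_lit 72159390762) (nat_lit 76) (nat_lit 13235089418) (nat_lit 29) (nat_lit 5) (nat_lit 33) (nat_lit 5) (nat_lit 30) (nat_lit 5) (nat_lit 316) (nat_lit 287) (nat_lit 117)) (XT.lf (nat_lit 0) (nat_lit 21075394244) (nat_lit 304) (nat_lit 35814446704) (nat_lit 76) (nat_lit 41307246269) (nat_lit 29) (nat_lit 5) (nat_lit 33) (nat_lit 5) (nat_lit 30) (nat_lit 5) (nat_lit 317) (nat_lit 287) (nat_lit 116))))))) (XT.nd (nat_lit 702) (nat_lit 456) (nat_lit 0) (XT.nd (nat_lit 312) (nat_lit 228) (nat_lit 0) (XT.nd (nat_lit 156) (nat_lit 152) (nat_lit 0) (XT.nd (nat_lit 78) (nat_lit 0) (nat_lit 0) (XT.lf (nat_lit 0) (nat_lit 2424441441) (nat_lit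 228) (nat_lit 30799045058) (nat_lit 304) (nat_lit 68396231105) (nat_lit 26) (nat_lit 5) (nat_lit 29) (nat_lit 5) (nat_lit 30) (nat_lit 5) (nat_lit 318) (nat_lit 287) (nat_lit 115)) (XT.lf (nat_lit 0) (nat_lit 43817784852) (nat_lit 228) (nat_lit 2767077984) (nat_lit 304) (nat_lit 58598324782) (nat_lit 26) (nat_lit 5) (nat_lit 29) (nat_lit 5) (nat_lit 30) (nat_lit 5) (nat_lit 319) (nat_lit 287) (nat_lit 114))) (XT.nd (nat_lit 78) (nat_lit 152) (nat_lit 0) (XT.lf (nat_lit 0) (nat_lit 61030018869) (nat_lit 304) (nat_lit 22061247749) (nat_lit 76) (nat_lit 25812780953) (nat_lit 26) (nat_lit 5) (nat_lit 30) (nat_lit 5) (nat_lit 27) (nat_lit 5) (nat_lit 320) (nat_lit 287) (nat_lit 113)) (XT.lf (nat_lit 0) (nat_lit 19795500884) (nat_lit 152) (nat_lit 56755759166) (nat_lit 228) (nat_lit 36242000992) (nat_lit 24) (nat_lit 5) (nat_lit 26) (nat_lit 5) (nat_lit 27) (nat_lit 5) (nat_lit 321) (nat_lit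 287) (nat_lit 112)))) (XT.nd (nat_lit 156) (nat_lit 228) (nat_lit 0) (XT.nd (nat_lit 78) (nat_lit 0) (nat_lit 0) (XT.lf (nat_lit 0) (nat_lit 64510185217) (nat_lit 152) (nat_lit 28711413835) (nat_lit 228) (nat_lit 23636686143) (nat_lit 24) (nat_lit 5) (nat_lit 26) (nat_lit 5) (nat_lit 27) (nat_lit 5) (nat_lit 322) (nat_lit 287) (nat_lit 111)) (XT.lf (nat_lit 0) (nat_lit 110736374803) (nat_lit 228) (nat_lit 9678239906) (nat_lit 76) (nat_lit 711401570) (nat_lit 24) (nat_lit 5) (nat_lit 27) (nat_lit 5) (nat_lit 25) (nat_lit 5) (nat_lit 323) (nat_lit 287) (nat_lit 110))) (XT.nd (nat_lit 78) (nat_lit 0) (nat_lit 0) (XT.lf (nat_lit 0) (nat_lit 4453047481) (nat_lit 228) (nat_lit 89828031048) (nat_lit 76) (nat_lit 31271011965) (nat_lit 21) (nat_lit 5) (nat_lit 24) (nat_lit 5) (nat_lit 22) (nat_lit 5) (nat_lit 324) (nat_lit 287) (nat_lit 109)) (XT.nd (nat_lit 78) (nat_lit 0) (nat_lit 0) (XT.lf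 (nat_lit 0) (nat_lit 19854775620) (nat_lit 228) (nat_lit 46632575298) (nat_lit 76) (nat_lit 63695299643) (nat_lit 21) (nat_lit 5) (nat_lit 24) (nat_lit 5) (nat_lit 22) (nat_lit 5) (nat_lit 325) (nat_lit 287) (nat_lit 108)) (XT.lf (nat_lit 0) (nat_lit 36026087463) (nat_lit 228) (nat_lit 1278083515) (nat_lit 76) (nat_lit 97740594197) (nat_lit 21) (nat_lit 5) (nat_lit 24) (nat_lit 5) (nat_lit 22) (nat_lit 5) (nat_lit 326) (nat_lit 287) (nat_lit 107)))))) (XT.nd (nat_lit 312) (nat_lit 152) (nat_lit 0) (XT.nd (nat_lit 156) (nat_lit 152) (nat_lit 0) (XT.nd (nat_lit 78) (nat_lit 0) (nat_lit 0) (XT.lf (nat_lit 0) (nat_lit 47875754313) (nat_lit 152) (nat_lit 5877206516) (nat_lit 228) (nat_lit 86359676234) (nat_lit 19) (nat_lit 5) (nat_lit 21) (nat_lit 5) (nat_lit 22) (nat_lit 5) (nat_lit 327) (nat_lit 287) (nat_lit 106)) (XT.lf (nat_lit 0) (nat_lit 72811143900) (nat_lit 228) (nat_lit 46325666879)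 (nat_lit 76) (nat_lit 26274844743) (nat_lit 19) (nat_lit 5) (nat_lit 22) (nat_lit 5) (nat_lit 20) (nat_lit 5) (nat_lit 328) (nat_lit 287) (nat_lit 105))) (XT.nd (nat_lit 78) (nat_lit 0) (nat_lit 0) (XT.lf (nat_lit 0) (nat_lit 1843074433) (nat_lit 152) (nat_lit 91103837053) (nat_lit 228) (nat_lit 58022480867) (nat_lit 17) (nat_lit 5) (nat_lit 19) (nat_lit 5) (nat_lit 20) (nat_lit 5) (nat_lit 329) (nat_lit 287) (nat_lit 104)) (XT.lf (nat_lit 0) (nat_lit 54027908690) (nat_lit 152) (nat_lit 60845669418) (nat_lit 228) (nat_lit 41892233542) (nat_lit 17) (nat_lit 5) (nat_lit 19) (nat_lit 5) (nat_lit 20) (nat_lit 5) (nat_lit 330) (nat_lit 287) (nat_lit 103)))) (XT.nd (nat_lit 156) (nat_lit 152) (nat_lit 0) (XT.nd (nat_lit 78) (nat_lit 0) (nat_lit 0) (XT.lf (nat_lit 0) (nat_lit 108821349737) (nat_lit 152) (nat_lit 29074812204) (nat_lit 228) (nat_lit 24955911881) (nat_lit 17) (nat_lit 5) (nat_lit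 19) (nat_lit 5) (nat_lit 20) (nat_lit 5) (nat_lit 331) (nat_lit 287) (nat_lit 102)) (XT.lf (nat_lit 0) (nat_lit 162136369831) (nat_lit 228) (nat_lit 2955702991) (nat_lit 76) (nat_lit 4147252588) (nat_lit 17) (nat_lit 5) (nat_lit 20) (nat_lit 5) (nat_lit 18) (nat_lit 4) (nat_lit 332) (nat_lit 287) (nat_lit 101))) (XT.nd (nat_lit 78) (nat_lit 0) (nat_lit 0) (XT.lf (nat_lit 0) (nat_lit 12576955936) (nat_lit 152) (nat_lit 124228960012) (nat_lit 76) (nat_lit 39065588622) (nat_lit 15) (nat_lit 5) (nat_lit 17) (nat_lit 5) (nat_lit 16) (nat_lit 5) (nat_lit 333) (nat_lit 287) (nat_lit 100)) (XT.nd (nat_lit 78) (nat_lit 0) (nat_lit 0) (XT.lf (nat_lit 0) (nat_lit 33052655469) (nat_lit 152) (nat_lit 73877329077) (nat_lit 76) (nat_lit 75896962038) (nat_lit 15) (nat_lit 5) (nat_lit 17) (nat_lit 5) (nat_lit 16) (nat_lit 5) (nat_lit 334) (nat_lit 287) (nat_lit 99)) (XT.lf (nat_lit 0) (nat_lit 54551779476)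 (nat_lit 152) (nat_lit 21008684720) (nat_lit 76) (nat_lit 114569715392) (nat_lit 15) (nat_lit 5) (nat_lit 17) (nat_lit 5) (nat_lit 16) (nat_lit 5) (nat_lit 335) (nat_lit 287) (nat_lit 98))))))))
noncomputable def xc234 : XT := (XT.nd (nat_lit 34710) (nat_lit 0) (nat_lit 1596) (XT.nd (nat_lit 34008) (nat_lit 0) (nat_lit 3724) (XT.nd (nat_lit 312) (nat_lit 0) (nat_lit 0) (XT.nd (nat_lit 156) (nat_lit 76) (nat_lit 0) (XT.nd (nat_lit 78) (nat_lit 0) (nat_lit 0) (XT.lf (nat_lit 0) (nat_lit 35643670848) (nat_lit 152) (nat_lit 42038343092) (nat_lit 228) (nat_lit 120088753414) (nat_lit 13) (nat_lit 5) (nat_lit 15) (nat_lit 5) (nat_lit 16) (nat_lit 5) (nat_lit 336) (nat_lit 287) (nat_lit 97)) (XT.lf (nat_lit 0) (nat_lit 95857485944) (nat_lit 152) (nat_lit 6466731125) (nat_lit 228) (nat_lit 103451395376) (nat_lit 13) (nat_lit 5) (nat_lit 15) (nat_lit 5) (nat_lit 16) (nat_lit 5) (nat_lit 337)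 (nat_lit 287) (nat_lit 96))) (XT.nd (nat_lit 78) (nat_lit 76) (nat_lit 0) (XT.lf (nat_lit 0) (nat_lit 128680385478) (nat_lit 228) (nat_lit 55581406159) (nat_lit 76) (nat_lit 29894816145) (nat_lit 13) (nat_lit 5) (nat_lit 16) (nat_lit 5) (nat_lit 14) (nat_lit 4) (nat_lit 338) (nat_lit 287) (nat_lit 95)) (XT.lf (nat_lit 0) (nat_lit 1410796534) (nat_lit 76) (nat_lit 155071297328) (nat_lit 152) (nat_lit 66468173155) (nat_lit 12) (nat_lit 5) (nat_lit 13) (nat_lit 5) (nat_lit 14) (nat_lit 4) (nat_lit 339) (nat_lit 287) (nat_lit 94)))) (XT.nd (nat_lit 33540) (nat_lit 0) (nat_lit 3648) (XT.nd (nat_lit 33462) (nat_lit 0) (nat_lit 3648) (XT.lf (nat_lit 0) (nat_lit 63181782298) (nat_lit 76) (nat_lit 123433103456) (nat_lit 152) (nat_lit 45521674235) (nat_lit 12) (nat_lit 5) (nat_lit 13) (nat_lit 5) (nat_lit 14) (nat_lit 4) (nat_lit 340) (nat_lit 287) (nat_lit 93)) (XT.lf (nat_lit 0) (nat_lit 1575273263)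 (nat_lit 0) (nat_lit 1575273263) (nat_lit 684) (nat_lit 18281769672) (nat_lit 60) (nat_lit 5) (nat_lit 60) (nat_lit 3) (nat_lit 69) (nat_lit 3) (nat_lit 288) (nat_lit 288) (nat_lit 144))) (XT.nd (nat_lit 78) (nat_lit 0) (nat_lit 0) (XT.lf (nat_lit 0) (nat_lit 6725692073) (nat_lit 684) (nat_lit 22622310870) (nat_lit 760) (nat_lit 14574751189) (nat_lit 60) (nat_lit 5) (nat_lit 69) (nat_lit 3) (nat_lit 70) (nat_lit 5) (nat_lit 289) (nat_lit 288) (nat_lit 143)) (XT.lf (nat_lit 0) (nat_lit 7221137250) (nat_lit 684) (nat_lit 4728746848) (nat_lit 760) (nat_lit 33081426035) (nat_lit 60) (nat_lit 5) (nat_lit 69) (nat_lit 3) (nat_lit 70) (nat_lit 5) (nat_lit 290) (nat_lit 288) (nat_lit 142))))) (XT.nd (nat_lit 312) (nat_lit 0) (nat_lit 76) (XT.nd (nat_lit 156) (nat_lit 0) (nat_lit 0) (XT.nd (nat_lit 78) (nat_lit 0) (nat_lit 0) (XT.lf (nat_lit 0) (nat_lit 8068541888) (nat_lit 684) (nat_lit 31763203084)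 (nat_lit 760) (nat_lit 6347198168) (nat_lit 61) (nat_lit 5) (nat_lit 70) (nat_lit 5) (nat_lit 71) (nat_lit 5) (nat_lit 291) (nat_lit 288) (nat_lit 141)) (XT.lf (nat_lit 0) (nat_lit 9233765140) (nat_lit 684) (nat_lit 12896735745) (nat_lit 760) (nat_lit 25239692651) (nat_lit 61) (nat_lit 5) (nat_lit 70) (nat_lit 5) (nat_lit 71) (nat_lit 5) (nat_lit 292) (nat_lit 288) (nat_lit 140))) (XT.nd (nat_lit 78) (nat_lit 0) (nat_lit 76) (XT.lf (nat_lit 76) (nat_lit 7140458744) (nat_lit 0) (nat_lit 3426513553) (nat_lit 760) (nat_lit 38048555785) (nat_lit 62) (nat_lit 5) (nat_lit 61) (nat_lit 5) (nat_lit 71) (nat_lit 5) (nat_lit 293) (nat_lit 288) (nat_lit 139)) (XT.lf (nat_lit 0) (nat_lit 12440273598) (nat_lit 684) (nat_lit 21542874272) (nat_lit 760) (nat_lit 15916317195) (nat_lit 62) (nat_lit 5) (nat_lit 71) (nat_lit 5) (nat_lit 72) (nat_lit 5) (nat_lit 294) (nat_lit 288) (nat_lit 138)))) (XT.nd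 (nat_lit 156) (nat_lit 0) (nat_lit 76) (XT.nd (nat_lit 78) (nat_lit 0) (nat_lit 76) (XT.lf (nat_lit 0) (nat_lit 14461808058) (nat_lit 684) (nat_lit 671402039) (nat_lit 760) (nat_lit 36111667442) (nat_lit 62) (nat_lit 5) (nat_lit 71) (nat_lit 5) (nat_lit 72) (nat_lit 5) (nat_lit 295) (nat_lit 288) (nat_lit 137)) (XT.lf (nat_lit 0) (nat_lit 17003879872) (nat_lit 684) (nat_lit 30773966478) (nat_lit 760) (nat_lit 4858747968) (nat_lit 63) (nat_lit 5) (nat_lit 72) (nat_lit 5) (nat_lit 73) (nat_lit 5) (nat_lit 296) (nat_lit 288) (nat_lit 136))) (XT.nd (nat_lit 78) (nat_lit 0) (nat_lit 0) (XT.lf (nat_lit 0) (nat_lit 19931231534) (nat_lit 684) (nat_lit 8800104611) (nat_lit 760) (nat_lit 25353658367) (nat_lit 63) (nat_lit 5) (nat_lit 72) (nat_lit 5) (nat_lit 73) (nat_lit 5) (nat_lit 297) (nat_lit 288) (nat_lit 135)) (XT.nd (nat_lit 78) (nat_lit 0) (nat_lit 76) (XT.lf (nat_lit 76) (nat_lit 14743207768)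 (nat_lit 0) (nat_lit 8490529541) (nat_lit 760) (nat_lit 32360644168) (nat_lit 64) (nat_lit 5) (nat_lit 63) (nat_lit 5) (nat_lit 73) (nat_lit 5) (nat_lit 298) (nat_lit 288) (nat_lit 134)) (XT.lf (nat_lit 0) (nat_lit 27050758057) (nat_lit 684) (nat_lit 17605455575) (nat_lit 76) (nat_lit 12505560471) (nat_lit 64) (nat_lit 5) (nat_lit 73) (nat_lit 5) (nat_lit 65) (nat_lit 5) (nat_lit 299) (nat_lit 288) (nat_lit 133))))))) (XT.nd (nat_lit 624) (nat_lit 760) (nat_lit 0) (XT.nd (nat_lit 312) (nat_lit 608) (nat_lit 0) (XT.nd (nat_lit 156) (nat_lit 304) (nat_lit 0) (XT.nd (nat_lit 78) (nat_lit 0) (nat_lit 0) (XT.lf (nat_lit 0) (nat_lit 6882522894) (nat_lit 684) (nat_lit 24421472314) (nat_lit 760) (nat_lit 27491278406) (nat_lit 55) (nat_lit 5) (nat_lit 64) (nat_lit 5) (nat_lit 65) (nat_lit 5) (nat_lit 300) (nat_lit 288) (nat_lit 132)) (XT.lf (nat_lit 0) (nat_lit 33205019743) (nat_lit 684) (nat_lit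 2861795972) (nat_lit 760) (nat_lit 24428791569) (nat_lit 55) (nat_lit 5) (nat_lit 64) (nat_lit 5) (nat_lit 65) (nat_lit 5) (nat_lit 301) (nat_lit 288) (nat_lit 131))) (XT.nd (nat_lit 78) (nat_lit 304) (nat_lit 0) (XT.lf (nat_lit 0) (nat_lit 41375359307) (nat_lit 760) (nat_lit 1747188405) (nat_lit 76) (nat_lit 19143035830) (nat_lit 55) (nat_lit 5) (nat_lit 65) (nat_lit 5) (nat_lit 56) (nat_lit 5) (nat_lit 302) (nat_lit 288) (nat_lit 130)) (XT.lf (nat_lit 0) (nat_lit 25852856441) (nat_lit 304) (nat_lit 21545905198) (nat_lit 380) (nat_lit 16702830164) (nat_lit 51) (nat_lit 5) (nat_lit 55) (nat_lit 5) (nat_lit 56) (nat_lit 5) (nat_lit 303) (nat_lit 288) (nat_lit 129)))) (XT.nd (nat_lit 156) (nat_lit 304) (nat_lit 0) (XT.nd (nat_lit 78) (nat_lit 304) (nat_lit 0) (XT.lf (nat_lit 0) (nat_lit 53769650984) (nat_lit 380) (nat_lit 11153272080) (nat_lit 76) (nat_lit 1104166112) (nat_lit 51) (nat_lit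 5) (nat_lit 56) (nat_lit 5) (nat_lit 52) (nat_lit 5) (nat_lit 304) (nat_lit 288) (nat_lit 128)) (XT.lf (nat_lit 0) (nat_lit 17502903126) (nat_lit 304) (nat_lit 43581632932) (nat_lit 380) (nat_lit 6933057121) (nat_lit 47) (nat_lit 5) (nat_lit 51) (nat_lit 5) (nat_lit 52) (nat_lit 5) (nat_lit 305) (nat_lit 288) (nat_lit 127))) (XT.nd (nat_lit 78) (nat_lit 304) (nat_lit 0) (XT.lf (nat_lit 0) (nat_lit 47978068596) (nat_lit 304) (nat_lit 20974986058) (nat_lit 380) (nat_lit 1145177386) (nat_lit 47) (nat_lit 5) (nat_lit 51) (nat_lit 5) (nat_lit 52) (nat_lit 5) (nat_lit 306) (nat_lit 288) (nat_lit 126)) (XT.lf (nat_lit 0) (nat_lit 4942507265) (nat_lit 304) (nat_lit 64451474868) (nat_lit 76) (nat_lit 2876660815) (nat_lit 43) (nat_lit 5) (nat_lit 47) (nat_lit 5) (nat_lit 44) (nat_lit 5) (nat_lit 307) (nat_lit 288) (nat_lit 125))))) (XT.nd (nat_lit 312) (nat_lit 456) (nat_lit 0) (XT.nd (nat_lit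 156) (nat_lit 304) (nat_lit 0) (XT.nd (nat_lit 78) (nat_lit 0) (nat_lit 0) (XT.lf (nat_lit 0) (nat_lit 12019760533) (nat_lit 304) (nat_lit 34879336540) (nat_lit 76) (nat_lit 27615458724) (nat_lit 43) (nat_lit 5) (nat_lit 47) (nat_lit 5) (nat_lit 44) (nat_lit 5) (nat_lit 308) (nat_lit 288) (nat_lit 124)) (XT.lf (nat_lit 0) (nat_lit 19449981902) (nat_lit 304) (nat_lit 3829595448) (nat_lit 76) (nat_lit 53591135056) (nat_lit 43) (nat_lit 5) (nat_lit 47) (nat_lit 5) (nat_lit 44) (nat_lit 5) (nat_lit 309) (nat_lit 288) (nat_lit 123))) (XT.nd (nat_lit 78) (nat_lit 0) (nat_lit 0) (XT.lf (nat_lit 0) (nat_lit 27746273371) (nat_lit 380) (nat_lit 49629873488) (nat_lit 76) (nat_lit 1943805264) (nat_lit 39) (nat_lit 5) (nat_lit 44) (nat_lit 5) (nat_lit 40) (nat_lit 5) (nat_lit 310) (nat_lit 288) (nat_lit 122)) (XT.lf (nat_lit 0) (nat_lit 36904103217) (nat_lit 380) (nat_lit 17253398818) (nat_lit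 76) (nat_lit 27711818674) (nat_lit 39) (nat_lit 5) (nat_lit 44) (nat_lit 5) (nat_lit 40) (nat_lit 5) (nat_lit 311) (nat_lit 288) (nat_lit 121)))) (XT.nd (nat_lit 156) (nat_lit 228) (nat_lit 0) (XT.nd (nat_lit 78) (nat_lit 0) (nat_lit 0) (XT.lf (nat_lit 0) (nat_lit 17294494759) (nat_lit 228) (nat_lit 29494556873) (nat_lit 304) (nat_lit 37743647666) (nat_lit 36) (nat_lit 5) (nat_lit 39) (nat_lit 5) (nat_lit 40) (nat_lit 5) (nat_lit 312) (nat_lit 288) (nat_lit 120)) (XT.lf (nat_lit 0) (nat_lit 54167860508) (nat_lit 228) (nat_lit 3291816322) (nat_lit 304) (nat_lit 29855001309) (nat_lit 36) (nat_lit 5) (nat_lit 39) (nat_lit 5) (nat_lit 40) (nat_lit 5) (nat_lit 313) (nat_lit 288) (nat_lit 119))) (XT.nd (nat_lit 78) (nat_lit 0) (nat_lit 0) (XT.lf (nat_lit 0) (nat_lit 2345124147) (nat_lit 228) (nat_lit 66732750568) (nat_lit 304) (nat_lit 21137181790) (nat_lit 33) (nat_lit 5) (nat_lit 36) (nat_lit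 5) (nat_lit 37) (nat_lit 5) (nat_lit 314) (nat_lit 288) (nat_lit 118)) (XT.nd (nat_lit 78) (nat_lit 0) (nat_lit 0) (XT.lf (nat_lit 0) (nat_lit 40705797476) (nat_lit 228) (nat_lit 41184925820) (nat_lit 304) (nat_lit 11339045983) (nat_lit 33) (nat_lit 5) (nat_lit 36) (nat_lit 5) (nat_lit 37) (nat_lit 5) (nat_lit 315) (nat_lit 288) (nat_lit 117)) (XT.lf (nat_lit 0) (nat_lit 80983647615) (nat_lit 228) (nat_lit 14359890112) (nat_lit 304) (nat_lit 1051716201) (nat_lit 33) (nat_lit 5) (nat_lit 36) (nat_lit 5) (nat_lit 37) (nat_lit 5) (nat_lit 316) (nat_lit 288) (nat_lit 116))))))))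
noncomputable def xc235 : XT := (XT.nd (nat_lit 1326) (nat_lit 304) (nat_lit 0) (XT.nd (nat_lit 624) (nat_lit 532) (nat_lit 0) (XT.nd (nat_lit 312) (nat_lit 152) (nat_lit 0) (XT.nd (nat_lit 156) (nat_lit 228) (nat_lit 0) (XT.nd (nat_lit 78) (nat_lit 0) (nat_lit 0) (XT.lf (nat_lit 0) (nat_lit 10038972726) (nat_lit 304) (nat_lit 75739668063) (nat_lit 76) (nat_lit 13902710335) (nat_lit 29) (nat_lit 5) (nat_lit 33) (nat_lit 5) (nat_lit 30) (nat_lit 5) (nat_lit 317) (nat_lit 288) (nat_lit 115)) (XT.lf (nat_lit 0) (nat_lit 22148899640) (nat_lit 304) (nat_lit 37578795481) (nat_lit 76) (nat_lit 43378195674) (nat_lit 29) (nat_lit 5) (nat_lit 33) (nat_lit 5) (nat_lit 30) (nat_lit 5) (nat_lit 318) (nat_lit 288) (nat_lit 114))) (XT.nd (nat_lit 78) (nat_lit 0) (nat_lit 0) (XT.lf (nat_lit 0) (nat_lit 2571611691) (nat_lit 228) (nat_lit 32332250145) (nat_lit 304) (nat_lit 71795820646) (nat_lit 26)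 (nat_lit 5) (nat_lit 29) (nat_lit 5) (nat_lit 30) (nat_lit 5) (nat_lit 319) (nat_lit 288) (nat_lit 113)) (XT.lf (nat_lit 0) (nat_lit 46033386646) (nat_lit 228) (nat_lit 2899006012) (nat_lit 304) (nat_lit 61508981959) (nat_lit 26) (nat_lit 5) (nat_lit 29) (nat_lit 5) (nat_lit 30) (nat_lit 5) (nat_lit 320) (nat_lit 288) (nat_lit 112)))) (XT.nd (nat_lit 156) (nat_lit 0) (nat_lit 0) (XT.nd (nat_lit 78) (nat_lit 152) (nat_lit 0) (XT.lf (nat_lit 0) (nat_lit 64099031246) (nat_lit 304) (nat_lit 23139943843) (nat_lit 76) (nat_lit 27109344004) (nat_lit 26) (nat_lit 5) (nat_lit 30) (nat_lit 5) (nat_lit 27) (nat_lit 5) (nat_lit 321) (nat_lit 288) (nat_lit 111)) (XT.lf (nat_lit 0) (nat_lit 20809249217) (nat_lit 152) (nat_lit 59586625681) (nat_lit 228) (nat_lit 38036143951) (nat_lit 24) (nat_lit 5) (nat_lit 26) (nat_lit 5) (nat_lit 27) (nat_lit 5) (nat_lit 322) (nat_lit 288) (nat_lit 110))) (XT.nd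 (nat_lit 78) (nat_lit 0) (nat_lit 0) (XT.lf (nat_lit 0) (nat_lit 67758526181) (nat_lit 152) (nat_lit 30140392676) (nat_lit 228) (nat_lit 24801418459) (nat_lit 24) (nat_lit 5) (nat_lit 26) (nat_lit 5) (nat_lit 27) (nat_lit 5) (nat_lit 323) (nat_lit 288) (nat_lit 109)) (XT.lf (nat_lit 0) (nat_lit 116288758086) (nat_lit 228) (nat_lit 10139684354) (nat_lit 76) (nat_lit 753048667) (nat_lit 24) (nat_lit 5) (nat_lit 27) (nat_lit 5) (nat_lit 25) (nat_lit 5) (nat_lit 324) (nat_lit 288) (nat_lit 108))))) (XT.nd (nat_lit 312) (nat_lit 152) (nat_lit 0) (XT.nd (nat_lit 156) (nat_lit 152) (nat_lit 0) (XT.nd (nat_lit 78) (nat_lit 0) (nat_lit 0) (XT.lf (nat_lit 0) (nat_lit 4691161044) (nat_lit 228) (nat_lit 94296772901) (nat_lit 76) (nat_lit 32840944699) (nat_lit 21) (nat_lit 5) (nat_lit 24) (nat_lit 5) (nat_lit 22) (nat_lit 5) (nat_lit 325) (nat_lit 288) (nat_lit 107)) (XT.lf (nat_lit 0) (nat_lit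 20862239343) (nat_lit 228) (nat_lit 48942623396) (nat_lit 76) (nat_lit 66886142849) (nat_lit 21) (nat_lit 5) (nat_lit 24) (nat_lit 5) (nat_lit 22) (nat_lit 5) (nat_lit 326) (nat_lit 288) (nat_lit 106))) (XT.nd (nat_lit 78) (nat_lit 152) (nat_lit 0) (XT.lf (nat_lit 0) (nat_lit 37841415590) (nat_lit 228) (nat_lit 1321434675) (nat_lit 76) (nat_lit 102633412691) (nat_lit 21) (nat_lit 5) (nat_lit 24) (nat_lit 5) (nat_lit 22) (nat_lit 5) (nat_lit 327) (nat_lit 288) (nat_lit 105)) (XT.lf (nat_lit 0) (nat_lit 50289763544) (nat_lit 152) (nat_lit 6164516997) (nat_lit 228) (nat_lit 90663267373) (nat_lit 19) (nat_lit 5) (nat_lit 21) (nat_lit 5) (nat_lit 22) (nat_lit 5) (nat_lit 328) (nat_lit 288) (nat_lit 104)))) (XT.nd (nat_lit 156) (nat_lit 0) (nat_lit 0) (XT.nd (nat_lit 78) (nat_lit 152) (nat_lit 0) (XT.lf (nat_lit 0) (nat_lit 76464819126) (nat_lit 228) (nat_lit 48622102359) (nat_lit 76) (nat_lit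 27594625274) (nat_lit 19) (nat_lit 5) (nat_lit 22) (nat_lit 5) (nat_lit 20) (nat_lit 5) (nat_lit 329) (nat_lit 288) (nat_lit 103)) (XT.lf (nat_lit 0) (nat_lit 1954755891) (nat_lit 152) (nat_lit 95652299414) (nat_lit 228) (nat_lit 60910132813) (nat_lit 17) (nat_lit 5) (nat_lit 19) (nat_lit 5) (nat_lit 20) (nat_lit 5) (nat_lit 330) (nat_lit 288) (nat_lit 102))) (XT.nd (nat_lit 78) (nat_lit 0) (nat_lit 0) (XT.lf (nat_lit 0) (nat_lit 56747901969) (nat_lit 152) (nat_lit 63881543850) (nat_lit 228) (nat_lit 43974014650) (nat_lit 17) (nat_lit 5) (nat_lit 19) (nat_lit 5) (nat_lit 20) (nat_lit 5) (nat_lit 331) (nat_lit 288) (nat_lit 101)) (XT.nd (nat_lit 78) (nat_lit 0) (nat_lit 0) (XT.lf (nat_lit 0) (nat_lit 114280129457) (nat_lit 152) (nat_lit 30522448967) (nat_lit 228) (nat_lit 26191487886) (nat_lit 17) (nat_lit 5) (nat_lit 19) (nat_lit 5) (nat_lit 20) (nat_lit 5) (nat_lit 332) (nat_lit 288)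 (nat_lit 100)) (XT.lf (nat_lit 0) (nat_lit 170254334689) (nat_lit 228) (nat_lit 3086128009) (nat_lit 76) (nat_lit 4360242347) (nat_lit 17) (nat_lit 5) (nat_lit 20) (nat_lit 5) (nat_lit 18) (nat_lit 4) (nat_lit 333) (nat_lit 288) (nat_lit 99))))))) (XT.nd (nat_lit 34242) (nat_lit 0) (nat_lit 3648) (XT.nd (nat_lit 312) (nat_lit 0) (nat_lit 0) (XT.nd (nat_lit 156) (nat_lit 152) (nat_lit 0) (XT.nd (nat_lit 78) (nat_lit 0) (nat_lit 0) (XT.lf (nat_lit 0) (nat_lit 13216891414) (nat_lit 152) (nat_lit 130422934681) (nat_lit 76) (nat_lit 41024672726) (nat_lit 15) (nat_lit 5) (nat_lit 17) (nat_lit 5) (nat_lit 16) (nat_lit 5) (nat_lit 334) (nat_lit 288) (nat_lit 98)) (XT.lf (nat_lit 0) (nat_lit 34715847940) (nat_lit 152) (nat_lit 77554554262) (nat_lit 76) (nat_lit 79697338400) (nat_lit 15) (nat_lit 5) (nat_lit 17) (nat_lit 5) (nat_lit 16) (nat_lit 5) (nat_lit 335) (nat_lit 288) (nat_lit 97)))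 (XT.nd (nat_lit 78) (nat_lit 152) (nat_lit 0) (XT.lf (nat_lit 0) (nat_lit 57289425304) (nat_lit 152) (nat_lit 22043270129) (nat_lit 76) (nat_lit 120303466171) (nat_lit 15) (nat_lit 5) (nat_lit 17) (nat_lit 5) (nat_lit 16) (nat_lit 5) (nat_lit 336) (nat_lit 288) (nat_lit 96)) (XT.lf (nat_lit 0) (nat_lit 37441447591) (nat_lit 152) (nat_lit 44134488456) (nat_lit 228) (nat_lit 126082855633) (nat_lit 13) (nat_lit 5) (nat_lit 15) (nat_lit 5) (nat_lit 16) (nat_lit 5) (nat_lit 337) (nat_lit 288) (nat_lit 95)))) (XT.nd (nat_lit 33696) (nat_lit 0) (nat_lit 3572) (XT.nd (nat_lit 78) (nat_lit 0) (nat_lit 0) (XT.lf (nat_lit 0) (nat_lit 100665210908) (nat_lit 152) (nat_lit 6784570738) (nat_lit 228) (nat_lit 108614121857) (nat_lit 13) (nat_lit 5) (nat_lit 15) (nat_lit 5) (nat_lit 16) (nat_lit 5) (nat_lit 338) (nat_lit 288) (nat_lit 94)) (XT.lf (nat_lit 0) (nat_lit 135123394796) (nat_lit 228) (nat_lit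 58345948458) (nat_lit 76) (nat_lit 31394624578) (nat_lit 13) (nat_lit 5) (nat_lit 16) (nat_lit 5) (nat_lit 14) (nat_lit 4) (nat_lit 339) (nat_lit 288) (nat_lit 93))) (XT.nd (nat_lit 78) (nat_lit 0) (nat_lit 0) (XT.lf (nat_lit 0) (nat_lit 1669784690) (nat_lit 0) (nat_lit 1669784690) (nat_lit 684) (nat_lit 19162649553) (nat_lit 60) (nat_lit 5) (nat_lit 60) (nat_lit 3) (nat_lit 69) (nat_lit 3) (nat_lit 289) (nat_lit 289) (nat_lit 142)) (XT.nd (nat_lit 78) (nat_lit 0) (nat_lit 0) (XT.lf (nat_lit 0) (nat_lit 7121499838) (nat_lit 684) (nat_lit 23719699354) (nat_lit 760) (nat_lit 15274453060) (nat_lit 60) (nat_lit 5) (nat_lit 69) (nat_lit 3) (nat_lit 70) (nat_lit 5) (nat_lit 290) (nat_lit 289) (nat_lit 141)) (XT.lf (nat_lit 0) (nat_lit 7638882837) (nat_lit 684) (nat_lit 4933063182) (nat_lit 760) (nat_lit 34707844301) (nat_lit 60) (nat_lit 5) (nat_lit 69) (nat_lit 3) (nat_lit 70) (nat_lit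 5) (nat_lit 291) (nat_lit 289) (nat_lit 140)))))) (XT.nd (nat_lit 312) (nat_lit 0) (nat_lit 76) (XT.nd (nat_lit 156) (nat_lit 0) (nat_lit 0) (XT.nd (nat_lit 78) (nat_lit 0) (nat_lit 0) (XT.lf (nat_lit 0) (nat_lit 8526094438) (nat_lit 684) (nat_lit 33316440022) (nat_lit 760) (nat_lit 6642410627) (nat_lit 61) (nat_lit 5) (nat_lit 70) (nat_lit 5) (nat_lit 71) (nat_lit 5) (nat_lit 292) (nat_lit 289) (nat_lit 139)) (XT.lf (nat_lit 0) (nat_lit 9747001449) (nat_lit 684) (nat_lit 13508312327) (nat_lit 760) (nat_lit 26480584474) (nat_lit 61) (nat_lit 5) (nat_lit 70) (nat_lit 5) (nat_lit 71) (nat_lit 5) (nat_lit 293) (nat_lit 289) (nat_lit 138))) (XT.nd (nat_lit 78) (nat_lit 0) (nat_lit 76) (XT.lf (nat_lit 76) (nat_lit 7530205432) (nat_lit 0) (nat_lit 3614719773) (nat_lit 760) (nat_lit 39898682343) (nat_lit 62) (nat_lit 5) (nat_lit 61) (nat_lit 5) (nat_lit 71) (nat_lit 5) (nat_lit 294) (nat_lit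 289) (nat_lit 137)) (XT.lf (nat_lit 0) (nat_lit 13109278459) (nat_lit 684) (nat_lit 22586032995) (nat_lit 760) (nat_lit 16696570903) (nat_lit 62) (nat_lit 5) (nat_lit 71) (nat_lit 5) (nat_lit 72) (nat_lit 5) (nat_lit 295) (nat_lit 289) (nat_lit 136)))) (XT.nd (nat_lit 156) (nat_lit 0) (nat_lit 76) (XT.nd (nat_lit 78) (nat_lit 0) (nat_lit 76) (XT.lf (nat_lit 0) (nat_lit 15229651967) (nat_lit 684) (nat_lit 672605483) (nat_lit 760) (nat_lit 37902429717) (nat_lit 62) (nat_lit 5) (nat_lit 71) (nat_lit 5) (nat_lit 72) (nat_lit 5) (nat_lit 296) (nat_lit 289) (nat_lit 135)) (XT.lf (nat_lit 0) (nat_lit 17897017402) (nat_lit 684) (nat_lit 32278300960) (nat_lit 760) (nat_lit 5090771280) (nat_lit 63) (nat_lit 5) (nat_lit 72) (nat_lit 5) (nat_lit 73) (nat_lit 5) (nat_lit 297) (nat_lit 289) (nat_lit 134))) (XT.nd (nat_lit 78) (nat_lit 0) (nat_lit 0) (XT.lf (nat_lit 0) (nat_lit 20968691717) (nat_lit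 684) (nat_lit 9207382374) (nat_lit 760) (nat_lit 26610946918) (nat_lit 63) (nat_lit 5) (nat_lit 72) (nat_lit 5) (nat_lit 73) (nat_lit 5) (nat_lit 298) (nat_lit 289) (nat_lit 133)) (XT.nd (nat_lit 78) (nat_lit 0) (nat_lit 76) (XT.lf (nat_lit 76) (nat_lit 15512567762) (nat_lit 0) (nat_lit 8922310193) (nat_lit 760) (nat_lit 33937080099) (nat_lit 64) (nat_lit 5) (nat_lit 63) (nat_lit 5) (nat_lit 73) (nat_lit 5) (nat_lit 299) (nat_lit 289) (nat_lit 132)) (XT.lf (nat_lit 0) (nat_lit 28440763124) (nat_lit 684) (nat_lit 18452913724) (nat_lit 76) (nat_lit 13124150880) (nat_lit 64) (nat_lit 5) (nat_lit 73) (nat_lit 5) (nat_lit 65) (nat_lit 5) (nat_lit 300) (nat_lit 289) (nat_lit 131))))))))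
noncomputable def xc236 : XT := (XT.nd (nat_lit 1326) (nat_lit 1216) (nat_lit 0) (XT.nd (nat_lit 624) (nat_lit 760) (nat_lit 0) (XT.nd (nat_lit 312) (nat_lit 608) (nat_lit 0) (XT.nd (nat_lit 156) (nat_lit 304) (nat_lit 0) (XT.nd (nat_lit 78) (nat_lit 0) (nat_lit 0) (XT.lf (nat_lit 0) (nat_lit 7258934400) (nat_lit 684) (nat_lit 25646447646) (nat_lit 760) (nat_lit 28827691874) (nat_lit 55) (nat_lit 5) (nat_lit 64) (nat_lit 5) (nat_lit 65) (nat_lit 5) (nat_lit 301) (nat_lit 289) (nat_lit 130)) (XT.lf (nat_lit 0) (nat_lit 34896018693) (nat_lit 684) (nat_lit 3008601691) (nat_lit 760) (nat_lit 25613897383) (nat_lit 55) (nat_lit 5) (nat_lit 64) (nat_lit 5) (nat_lit 65) (nat_lit 5) (nat_lit 302) (nat_lit 289) (nat_lit 129))) (XT.nd (nat_lit 78) (nat_lit 304) (nat_lit 0) (XT.lf (nat_lit 0) (nat_lit 43476894765) (nat_lit 760) (nat_lit 1803427958) (nat_lit 76) (nat_lit 20096761918) (nat_lit 55)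 (nat_lit 5) (nat_lit 65) (nat_lit 5) (nat_lit 56) (nat_lit 5) (nat_lit 303) (nat_lit 289) (nat_lit 128)) (XT.lf (nat_lit 0) (nat_lit 27176117196) (nat_lit 304) (nat_lit 22624267693) (nat_lit 380) (nat_lit 17504569196) (nat_lit 51) (nat_lit 5) (nat_lit 55) (nat_lit 5) (nat_lit 56) (nat_lit 5) (nat_lit 304) (nat_lit 289) (nat_lit 127)))) (XT.nd (nat_lit 156) (nat_lit 304) (nat_lit 0) (XT.nd (nat_lit 78) (nat_lit 304) (nat_lit 0) (XT.lf (nat_lit 0) (nat_lit 56488294014) (nat_lit 380) (nat_lit 11680124348) (nat_lit 76) (nat_lit 1158390535) (nat_lit 51) (nat_lit 5) (nat_lit 56) (nat_lit 5) (nat_lit 52) (nat_lit 5) (nat_lit 305) (nat_lit 289) (nat_lit 126)) (XT.lf (nat_lit 0) (nat_lit 18408362662) (nat_lit 304) (nat_lit 45759597760) (nat_lit 380) (nat_lit 7248931859) (nat_lit 47) (nat_lit 5) (nat_lit 51) (nat_lit 5) (nat_lit 52) (nat_lit 5) (nat_lit 306) (nat_lit 289) (nat_lit 125))) (XT.nd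 (nat_lit 78) (nat_lit 304) (nat_lit 0) (XT.lf (nat_lit 0) (nat_lit 50405842863) (nat_lit 304) (nat_lit 22022671724) (nat_lit 380) (nat_lit 1173123762) (nat_lit 47) (nat_lit 5) (nat_lit 51) (nat_lit 5) (nat_lit 52) (nat_lit 5) (nat_lit 307) (nat_lit 289) (nat_lit 124)) (XT.lf (nat_lit 0) (nat_lit 5217145854) (nat_lit 304) (nat_lit 67643164798) (nat_lit 76) (nat_lit 3022384535) (nat_lit 43) (nat_lit 5) (nat_lit 47) (nat_lit 5) (nat_lit 44) (nat_lit 5) (nat_lit 308) (nat_lit 289) (nat_lit 123))))) (XT.nd (nat_lit 312) (nat_lit 456) (nat_lit 0) (XT.nd (nat_lit 156) (nat_lit 304) (nat_lit 0) (XT.nd (nat_lit 78) (nat_lit 0) (nat_lit 0) (XT.lf (nat_lit 0) (nat_lit 12646951631) (nat_lit 304) (nat_lit 36593890211) (nat_lit 76) (nat_lit 28998032308) (nat_lit 43) (nat_lit 5) (nat_lit 47) (nat_lit 5) (nat_lit 44) (nat_lit 5) (nat_lit 309) (nat_lit 289) (nat_lit 122)) (XT.lf (nat_lit 0) (nat_lit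 20447436304) (nat_lit 304) (nat_lit 3993062692) (nat_lit 76) (nat_lit 56272406711) (nat_lit 43) (nat_lit 5) (nat_lit 47) (nat_lit 5) (nat_lit 44) (nat_lit 5) (nat_lit 310) (nat_lit 289) (nat_lit 121))) (XT.nd (nat_lit 78) (nat_lit 0) (nat_lit 0) (XT.lf (nat_lit 0) (nat_lit 29157836810) (nat_lit 380) (nat_lit 52082559045) (nat_lit 76) (nat_lit 2044251332) (nat_lit 39) (nat_lit 5) (nat_lit 44) (nat_lit 5) (nat_lit 40) (nat_lit 5) (nat_lit 311) (nat_lit 289) (nat_lit 120)) (XT.lf (nat_lit 0) (nat_lit 38772403398) (nat_lit 380) (nat_lit 18088632457) (nat_lit 76) (nat_lit 29100510374) (nat_lit 39) (nat_lit 5) (nat_lit 44) (nat_lit 5) (nat_lit 40) (nat_lit 5) (nat_lit 312) (nat_lit 289) (nat_lit 119)))) (XT.nd (nat_lit 156) (nat_lit 228) (nat_lit 0) (XT.nd (nat_lit 78) (nat_lit 0) (nat_lit 0) (XT.lf (nat_lit 0) (nat_lit 18186213278) (nat_lit 228) (nat_lit 30964707642) (nat_lit 304) (nat_lit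 39607210828) (nat_lit 36) (nat_lit 5) (nat_lit 39) (nat_lit 5) (nat_lit 40) (nat_lit 5) (nat_lit 313) (nat_lit 289) (nat_lit 118)) (XT.lf (nat_lit 0) (nat_lit 56901961896) (nat_lit 228) (nat_lit 3452048019) (nat_lit 304) (nat_lit 31325256877) (nat_lit 36) (nat_lit 5) (nat_lit 39) (nat_lit 5) (nat_lit 40) (nat_lit 5) (nat_lit 314) (nat_lit 289) (nat_lit 117))) (XT.nd (nat_lit 78) (nat_lit 0) (nat_lit 0) (XT.lf (nat_lit 0) (nat_lit 2488733887) (nat_lit 228) (nat_lit 70063843446) (nat_lit 304) (nat_lit 22172117466) (nat_lit 33) (nat_lit 5) (nat_lit 36) (nat_lit 5) (nat_lit 37) (nat_lit 5) (nat_lit 315) (nat_lit 289) (nat_lit 116)) (XT.nd (nat_lit 78) (nat_lit 0) (nat_lit 0) (XT.lf (nat_lit 0) (nat_lit 42766185952) (nat_lit 228) (nat_lit 43238891492) (nat_lit 304) (nat_lit 11885118841) (nat_lit 33) (nat_lit 5) (nat_lit 36) (nat_lit 5) (nat_lit 37) (nat_lit 5) (nat_lit 316) (nat_lit 289)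 (nat_lit 115)) (XT.lf (nat_lit 0) (nat_lit 85056733427) (nat_lit 228) (nat_lit 15072855457) (nat_lit 304) (nat_lit 1084416829) (nat_lit 33) (nat_lit 5) (nat_lit 36) (nat_lit 5) (nat_lit 37) (nat_lit 5) (nat_lit 317) (nat_lit 289) (nat_lit 114))))))) (XT.nd (nat_lit 624) (nat_lit 532) (nat_lit 0) (XT.nd (nat_lit 312) (nat_lit 152) (nat_lit 0) (XT.nd (nat_lit 156) (nat_lit 228) (nat_lit 0) (XT.nd (nat_lit 78) (nat_lit 0) (nat_lit 0) (XT.lf (nat_lit 0) (nat_lit 10559717252) (nat_lit 304) (nat_lit 79501533792) (nat_lit 76) (nat_lit 14603166892) (nat_lit 29) (nat_lit 5) (nat_lit 33) (nat_lit 5) (nat_lit 30) (nat_lit 5) (nat_lit 318) (nat_lit 289) (nat_lit 113)) (XT.lf (nat_lit 0) (nat_lit 23274245469) (nat_lit 304) (nat_lit 39433813660) (nat_lit 76) (nat_lit 45552173115) (nat_lit 29) (nat_lit 5) (nat_lit 33) (nat_lit 5) (nat_lit 30) (nat_lit 5) (nat_lit 319) (nat_lit 289) (nat_lit 112)))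 (XT.nd (nat_lit 78) (nat_lit 0) (nat_lit 0) (XT.lf (nat_lit 0) (nat_lit 2723728039) (nat_lit 228) (nat_lit 33942742774) (nat_lit 304) (nat_lit 75367269714) (nat_lit 26) (nat_lit 5) (nat_lit 29) (nat_lit 5) (nat_lit 30) (nat_lit 5) (nat_lit 320) (nat_lit 289) (nat_lit 111)) (XT.lf (nat_lit 0) (nat_lit 48357470990) (nat_lit 228) (nat_lit 3038127857) (nat_lit 304) (nat_lit 64566962520) (nat_lit 26) (nat_lit 5) (nat_lit 29) (nat_lit 5) (nat_lit 30) (nat_lit 5) (nat_lit 321) (nat_lit 289) (nat_lit 110)))) (XT.nd (nat_lit 156) (nat_lit 0) (nat_lit 0) (XT.nd (nat_lit 78) (nat_lit 152) (nat_lit 0) (XT.lf (nat_lit 0) (nat_lit 67319866194) (nat_lit 304) (nat_lit 24274840089) (nat_lit 76) (nat_lit 28470184451) (nat_lit 26) (nat_lit 5) (nat_lit 30) (nat_lit 5) (nat_lit 27) (nat_lit 5) (nat_lit 322) (nat_lit 289) (nat_lit 109)) (XT.lf (nat_lit 0) (nat_lit 21871456157) (nat_lit 152) (nat_lit 62559679012)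 (nat_lit 228) (nat_lit 39921663539) (nat_lit 24) (nat_lit 5) (nat_lit 26) (nat_lit 5) (nat_lit 27) (nat_lit 5) (nat_lit 323) (nat_lit 289) (nat_lit 108))) (XT.nd (nat_lit 78) (nat_lit 0) (nat_lit 0) (XT.lf (nat_lit 0) (nat_lit 71167161519) (nat_lit 152) (nat_lit 31641433307) (nat_lit 228) (nat_lit 26025977373) (nat_lit 24) (nat_lit 5) (nat_lit 26) (nat_lit 5) (nat_lit 27) (nat_lit 5) (nat_lit 324) (nat_lit 289) (nat_lit 107)) (XT.lf (nat_lit 0) (nat_lit 122117313490) (nat_lit 228) (nat_lit 10626289845) (nat_lit 76) (nat_lit 796213136) (nat_lit 24) (nat_lit 5) (nat_lit 27) (nat_lit 5) (nat_lit 25) (nat_lit 5) (nat_lit 325) (nat_lit 289) (nat_lit 106))))) (XT.nd (nat_lit 312) (nat_lit 152) (nat_lit 0) (XT.nd (nat_lit 156) (nat_lit 152) (nat_lit 0) (XT.nd (nat_lit 78) (nat_lit 0) (nat_lit 0) (XT.lf (nat_lit 0) (nat_lit 4939742851) (nat_lit 228) (nat_lit 98991058529) (nat_lit 76) (nat_lit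 34488780718) (nat_lit 21) (nat_lit 5) (nat_lit 24) (nat_lit 5) (nat_lit 22) (nat_lit 5) (nat_lit 326) (nat_lit 289) (nat_lit 105)) (XT.lf (nat_lit 0) (nat_lit 21918707267) (nat_lit 228) (nat_lit 51370180265) (nat_lit 76) (nat_lit 70235963119) (nat_lit 21) (nat_lit 5) (nat_lit 24) (nat_lit 5) (nat_lit 22) (nat_lit 5) (nat_lit 327) (nat_lit 289) (nat_lit 104))) (XT.nd (nat_lit 78) (nat_lit 152) (nat_lit 0) (XT.lf (nat_lit 0) (nat_lit 39746206328) (nat_lit 228) (nat_lit 1368864217) (nat_lit 76) (nat_lit 107770333924) (nat_lit 21) (nat_lit 5) (nat_lit 24) (nat_lit 5) (nat_lit 22) (nat_lit 5) (nat_lit 328) (nat_lit 289) (nat_lit 103)) (XT.lf (nat_lit 0) (nat_lit 52822593233) (nat_lit 152) (nat_lit 6466801944) (nat_lit 228) (nat_lit 95183376162) (nat_lit 19) (nat_lit 5) (nat_lit 21) (nat_lit 5) (nat_lit 22) (nat_lit 5) (nat_lit 329) (nat_lit 289) (nat_lit 102)))) (XT.nd (nat_lit 156) (nat_lit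 0) (nat_lit 0) (XT.nd (nat_lit 78) (nat_lit 152) (nat_lit 0) (XT.lf (nat_lit 0) (nat_lit 80299958523) (nat_lit 228) (nat_lit 51035204880) (nat_lit 76) (nat_lit 28979833449) (nat_lit 19) (nat_lit 5) (nat_lit 22) (nat_lit 5) (nat_lit 20) (nat_lit 5) (nat_lit 330) (nat_lit 289) (nat_lit 101)) (XT.lf (nat_lit 0) (nat_lit 2070205919) (nat_lit 152) (nat_lit 100428810538) (nat_lit 228) (nat_lit 63943419864) (nat_lit 17) (nat_lit 5) (nat_lit 19) (nat_lit 5) (nat_lit 20) (nat_lit 5) (nat_lit 331) (nat_lit 289) (nat_lit 100))) (XT.nd (nat_lit 78) (nat_lit 0) (nat_lit 0) (XT.lf (nat_lit 0) (nat_lit 59602165861) (nat_lit 152) (nat_lit 67069807854) (nat_lit 228) (nat_lit 46161077678) (nat_lit 17) (nat_lit 5) (nat_lit 19) (nat_lit 5) (nat_lit 20) (nat_lit 5) (nat_lit 332) (nat_lit 289) (nat_lit 99)) (XT.nd (nat_lit 78) (nat_lit 0) (nat_lit 0) (XT.lf (nat_lit 0) (nat_lit 120010201447) (nat_lit 152)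 (nat_lit 32043035046) (nat_lit 228) (nat_lit 27489978752) (nat_lit 17) (nat_lit 5) (nat_lit 19) (nat_lit 5) (nat_lit 20) (nat_lit 5) (nat_lit 333) (nat_lit 289) (nat_lit 98)) (XT.lf (nat_lit 0) (nat_lit 178777161505) (nat_lit 228) (nat_lit 3224688258) (nat_lit 76) (nat_lit 4583358436) (nat_lit 17) (nat_lit 5) (nat_lit 20) (nat_lit 5) (nat_lit 18) (nat_lit 4) (nat_lit 334) (nat_lit 289) (nat_lit 97))))))))
noncomputable def xc237 : XT := (XT.nd (nat_lit 35022) (nat_lit 0) (nat_lit 1216) (XT.nd (nat_lit 34320) (nat_lit 0) (nat_lit 3192) (XT.nd (nat_lit 34008) (nat_lit 0) (nat_lit 3572) (XT.nd (nat_lit 156) (nat_lit 152) (nat_lit 0) (XT.nd (nat_lit 78) (nat_lit 0) (nat_lit 0) (XT.lf (nat_lit 0) (nat_lit 13887792839) (nat_lit 152) (nat_lit 136928232589) (nat_lit 76) (nat_lit 43081171372) (nat_lit 15) (nat_lit 5) (nat_lit 17) (nat_lit 5) (nat_lit 16) (nat_lit 5) (nat_lit 335) (nat_lit 289)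 (nat_lit 96)) (XT.lf (nat_lit 0) (nat_lit 36461218293) (nat_lit 152) (nat_lit 81417187855) (nat_lit 76) (nat_lit 83687219615) (nat_lit 15) (nat_lit 5) (nat_lit 17) (nat_lit 5) (nat_lit 16) (nat_lit 5) (nat_lit 336) (nat_lit 289) (nat_lit 95))) (XT.nd (nat_lit 78) (nat_lit 152) (nat_lit 0) (XT.lf (nat_lit 0) (nat_lit 60163018432) (nat_lit 152) (nat_lit 23131058282) (nat_lit 76) (nat_lit 126323414999) (nat_lit 15) (nat_lit 5) (nat_lit 17) (nat_lit 5) (nat_lit 16) (nat_lit 5) (nat_lit 337) (nat_lit 289) (nat_lit 94)) (XT.lf (nat_lit 0) (nat_lit 39327663463) (nat_lit 152) (nat_lit 46335977694) (nat_lit 228) (nat_lit 132377623855) (nat_lit 13) (nat_lit 5) (nat_lit 15) (nat_lit 5) (nat_lit 16) (nat_lit 5) (nat_lit 338) (nat_lit 289) (nat_lit 93)))) (XT.nd (nat_lit 156) (nat_lit 0) (nat_lit 0) (XT.nd (nat_lit 78) (nat_lit 0) (nat_lit 0) (XT.lf (nat_lit 0) (nat_lit 1767557610) (nat_lit 0)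 (nat_lit 1767557610) (nat_lit 684) (nat_lit 20090660849) (nat_lit 60) (nat_lit 5) (nat_lit 60) (nat_lit 3) (nat_lit 69) (nat_lit 3) (nat_lit 290) (nat_lit 290) (nat_lit 140)) (XT.lf (nat_lit 0) (nat_lit 7531564092) (nat_lit 684) (nat_lit 24875092885) (nat_lit 760) (nat_lit 16011839488) (nat_lit 60) (nat_lit 5) (nat_lit 69) (nat_lit 3) (nat_lit 70) (nat_lit 5) (nat_lit 291) (nat_lit 290) (nat_lit 139))) (XT.nd (nat_lit 78) (nat_lit 0) (nat_lit 76) (XT.lf (nat_lit 0) (nat_lit 8072245324) (nat_lit 684) (nat_lit 5150581639) (nat_lit 760) (nat_lit 36418154396) (nat_lit 60) (nat_lit 5) (nat_lit 69) (nat_lit 3) (nat_lit 70) (nat_lit 5) (nat_lit 292) (nat_lit 290) (nat_lit 138)) (XT.lf (nat_lit 0) (nat_lit 9001492543) (nat_lit 684) (nat_lit 34950585637) (nat_lit 760) (nat_lit 6954442769) (nat_lit 61) (nat_lit 5) (nat_lit 70) (nat_lit 5) (nat_lit 71) (nat_lit 5) (nat_lit 293) (nat_lit 290)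 (nat_lit 137))))) (XT.nd (nat_lit 312) (nat_lit 456) (nat_lit 0) (XT.nd (nat_lit 156) (nat_lit 0) (nat_lit 76) (XT.nd (nat_lit 78) (nat_lit 0) (nat_lit 0) (XT.lf (nat_lit 0) (nat_lit 10281107125) (nat_lit 684) (nat_lit 14153559956) (nat_lit 760) (nat_lit 27785481898) (nat_lit 61) (nat_lit 5) (nat_lit 70) (nat_lit 5) (nat_lit 71) (nat_lit 5) (nat_lit 294) (nat_lit 290) (nat_lit 136)) (XT.lf (nat_lit 76) (nat_lit 7936397110) (nat_lit 0) (nat_lit 3810766912) (nat_lit 760) (nat_lit 41846177702) (nat_lit 62) (nat_lit 5) (nat_lit 61) (nat_lit 5) (nat_lit 71) (nat_lit 5) (nat_lit 295) (nat_lit 290) (nat_lit 135))) (XT.nd (nat_lit 78) (nat_lit 0) (nat_lit 0) (XT.lf (nat_lit 0) (nat_lit 13807364769) (nat_lit 684) (nat_lit 23684509255) (nat_lit 760) (nat_lit 17517284117) (nat_lit 62) (nat_lit 5) (nat_lit 71) (nat_lit 5) (nat_lit 72) (nat_lit 5) (nat_lit 296) (nat_lit 290) (nat_lit 134)) (XT.lf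 (nat_lit 0) (nat_lit 16031727314) (nat_lit 684) (nat_lit 676878244) (nat_lit 760) (nat_lit 39784108031) (nat_lit 62) (nat_lit 5) (nat_lit 71) (nat_lit 5) (nat_lit 72) (nat_lit 5) (nat_lit 297) (nat_lit 290) (nat_lit 133)))) (XT.nd (nat_lit 156) (nat_lit 608) (nat_lit 0) (XT.nd (nat_lit 78) (nat_lit 0) (nat_lit 0) (XT.lf (nat_lit 0) (nat_lit 18830819326) (nat_lit 684) (nat_lit 33861046991) (nat_lit 760) (nat_lit 5335410447) (nat_lit 63) (nat_lit 5) (nat_lit 72) (nat_lit 5) (nat_lit 73) (nat_lit 5) (nat_lit 298) (nat_lit 290) (nat_lit 132)) (XT.lf (nat_lit 0) (nat_lit 22054222545) (nat_lit 684) (nat_lit 9638066714) (nat_lit 760) (nat_lit 27932066266) (nat_lit 63) (nat_lit 5) (nat_lit 72) (nat_lit 5) (nat_lit 73) (nat_lit 5) (nat_lit 299) (nat_lit 290) (nat_lit 131))) (XT.nd (nat_lit 78) (nat_lit 608) (nat_lit 0) (XT.lf (nat_lit 76) (nat_lit 16317402141) (nat_lit 0) (nat_lit 9375005452)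 (nat_lit 760) (nat_lit 35596205055) (nat_lit 64) (nat_lit 5) (nat_lit 63) (nat_lit 5) (nat_lit 73) (nat_lit 5) (nat_lit 300) (nat_lit 290) (nat_lit 130)) (XT.nd (nat_lit 78) (nat_lit 684) (nat_lit 0) (XT.lf (nat_lit 0) (nat_lit 29896785102) (nat_lit 684) (nat_lit 19345795574) (nat_lit 76) (nat_lit 13774292561) (nat_lit 64) (nat_lit 5) (nat_lit 73) (nat_lit 5) (nat_lit 65) (nat_lit 5) (nat_lit 301) (nat_lit 290) (nat_lit 129)) (XT.lf (nat_lit 0) (nat_lit 7651164894) (nat_lit 684) (nat_lit 26932309001) (nat_lit 760) (nat_lit 30234472882) (nat_lit 55) (nat_lit 5) (nat_lit 64) (nat_lit 5) (nat_lit 65) (nat_lit 5) (nat_lit 302) (nat_lit 290) (nat_lit 128))))))) (XT.nd (nat_lit 702) (nat_lit 1064) (nat_lit 0) (XT.nd (nat_lit 312) (nat_lit 608) (nat_lit 0) (XT.nd (nat_lit 156) (nat_lit 304) (nat_lit 0) (XT.nd (nat_lit 78) (nat_lit 0) (nat_lit 0) (XT.lf (nat_lit 0) (nat_lit 36668708936) (nat_lit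 684) (nat_lit 3162402225) (nat_lit 760) (nat_lit 26861636456) (nat_lit 55) (nat_lit 5) (nat_lit 64) (nat_lit 5) (nat_lit 65) (nat_lit 5) (nat_lit 303) (nat_lit 290) (nat_lit 127)) (XT.lf (nat_lit 0) (nat_lit 45680460586) (nat_lit 760) (nat_lit 1865372720) (nat_lit 76) (nat_lit 21098492801) (nat_lit 55) (nat_lit 5) (nat_lit 65) (nat_lit 5) (nat_lit 56) (nat_lit 5) (nat_lit 304) (nat_lit 290) (nat_lit 126))) (XT.nd (nat_lit 78) (nat_lit 0) (nat_lit 0) (XT.lf (nat_lit 0) (nat_lit 28562694424) (nat_lit 304) (nat_lit 23756449092) (nat_lit 380) (nat_lit 18349500626) (nat_lit 51) (nat_lit 5) (nat_lit 55) (nat_lit 5) (nat_lit 56) (nat_lit 5) (nat_lit 305) (nat_lit 290) (nat_lit 125)) (XT.lf (nat_lit 0) (nat_lit 59340065161) (nat_lit 380) (nat_lit 12236183775) (nat_lit 76) (nat_lit 1215417651) (nat_lit 51) (nat_lit 5) (nat_lit 56) (nat_lit 5) (nat_lit 52) (nat_lit 5) (nat_lit 306) (nat_lit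 290) (nat_lit 124)))) (XT.nd (nat_lit 156) (nat_lit 304) (nat_lit 0) (XT.nd (nat_lit 78) (nat_lit 0) (nat_lit 0) (XT.lf (nat_lit 0) (nat_lit 19356276831) (nat_lit 304) (nat_lit 48046564660) (nat_lit 380) (nat_lit 7583461792) (nat_lit 47) (nat_lit 5) (nat_lit 51) (nat_lit 5) (nat_lit 52) (nat_lit 5) (nat_lit 307) (nat_lit 290) (nat_lit 123)) (XT.lf (nat_lit 0) (nat_lit 52952321707) (nat_lit 304) (nat_lit 23122840560) (nat_lit 380) (nat_lit 1205192654) (nat_lit 47) (nat_lit 5) (nat_lit 51) (nat_lit 5) (nat_lit 52) (nat_lit 5) (nat_lit 308) (nat_lit 290) (nat_lit 122))) (XT.nd (nat_lit 78) (nat_lit 0) (nat_lit 0) (XT.lf (nat_lit 0) (nat_lit 5502958452) (nat_lit 304) (nat_lit 70997310509) (nat_lit 76) (nat_lit 3175218664) (nat_lit 43) (nat_lit 5) (nat_lit 47) (nat_lit 5) (nat_lit 44) (nat_lit 5) (nat_lit 309) (nat_lit 290) (nat_lit 121)) (XT.nd (nat_lit 78) (nat_lit 0) (nat_lit 0) (XT.lf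 (nat_lit 0) (nat_lit 13303066171) (nat_lit 304) (nat_lit 38396906123) (nat_lit 76) (nat_lit 30449567163) (nat_lit 43) (nat_lit 5) (nat_lit 47) (nat_lit 5) (nat_lit 44) (nat_lit 5) (nat_lit 310) (nat_lit 290) (nat_lit 120)) (XT.lf (nat_lit 0) (nat_lit 21492443317) (nat_lit 304) (nat_lit 4167307637) (nat_lit 76) (nat_lit 59087582513) (nat_lit 43) (nat_lit 5) (nat_lit 47) (nat_lit 5) (nat_lit 44) (nat_lit 5) (nat_lit 311) (nat_lit 290) (nat_lit 119)))))) (XT.nd (nat_lit 312) (nat_lit 532) (nat_lit 0) (XT.nd (nat_lit 156) (nat_lit 228) (nat_lit 0) (XT.nd (nat_lit 78) (nat_lit 0) (nat_lit 0) (XT.lf (nat_lit 0) (nat_lit 30637723908) (nat_lit 380) (nat_lit 54660557186) (nat_lit 76) (nat_lit 2149417009) (nat_lit 39) (nat_lit 5) (nat_lit 44) (nat_lit 5) (nat_lit 40) (nat_lit 5) (nat_lit 312) (nat_lit 290) (nat_lit 118)) (XT.lf (nat_lit 0) (nat_lit 40731971432) (nat_lit 380) (nat_lit 18968178545)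 (nat_lit 76) (nat_lit 30558348379) (nat_lit 39) (nat_lit 5) (nat_lit 44) (nat_lit 5) (nat_lit 40) (nat_lit 5) (nat_lit 313) (nat_lit 290) (nat_lit 117))) (XT.nd (nat_lit 78) (nat_lit 0) (nat_lit 0) (XT.lf (nat_lit 0) (nat_lit 19120008097) (nat_lit 228) (nat_lit 32508791482) (nat_lit 304) (nat_lit 41566148039) (nat_lit 36) (nat_lit 5) (nat_lit 39) (nat_lit 5) (nat_lit 40) (nat_lit 5) (nat_lit 314) (nat_lit 290) (nat_lit 116)) (XT.lf (nat_lit 0) (nat_lit 59770378234) (nat_lit 228) (nat_lit 3620696570) (nat_lit 304) (nat_lit 32871116550) (nat_lit 36) (nat_lit 5) (nat_lit 39) (nat_lit 5) (nat_lit 40) (nat_lit 5) (nat_lit 315) (nat_lit 290) (nat_lit 115)))) (XT.nd (nat_lit 156) (nat_lit 304) (nat_lit 0) (XT.nd (nat_lit 78) (nat_lit 0) (nat_lit 0) (XT.lf (nat_lit 0) (nat_lit 2637074013) (nat_lit 228) (nat_lit 73562006457) (nat_lit 304) (nat_lit 23260838156) (nat_lit 33) (nat_lit 5) (nat_lit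 36) (nat_lit 5) (nat_lit 37) (nat_lit 5) (nat_lit 316) (nat_lit 290) (nat_lit 114)) (XT.lf (nat_lit 0) (nat_lit 44927260422) (nat_lit 228) (nat_lit 45396046389) (nat_lit 304) (nat_lit 12460436514) (nat_lit 33) (nat_lit 5) (nat_lit 36) (nat_lit 5) (nat_lit 37) (nat_lit 5) (nat_lit 317) (nat_lit 290) (nat_lit 113))) (XT.nd (nat_lit 78) (nat_lit 304) (nat_lit 0) (XT.lf (nat_lit 0) (nat_lit 89331251215) (nat_lit 228) (nat_lit 15821936632) (nat_lit 304) (nat_lit 1120601224) (nat_lit 33) (nat_lit 5) (nat_lit 36) (nat_lit 5) (nat_lit 37) (nat_lit 5) (nat_lit 318) (nat_lit 290) (nat_lit 112)) (XT.nd (nat_lit 78) (nat_lit 0) (nat_lit 0) (XT.lf (nat_lit 0) (nat_lit 11104751540) (nat_lit 304) (nat_lit 83453828010) (nat_lit 76) (nat_lit 15338151576) (nat_lit 29) (nat_lit 5) (nat_lit 33) (nat_lit 5) (nat_lit 30) (nat_lit 5) (nat_lit 319) (nat_lit 290) (nat_lit 111)) (XT.lf (nat_lit 0) (nat_lit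 24454194338) (nat_lit 304) (nat_lit 41383806751) (nat_lit 76) (nat_lit 47834378285) (nat_lit 29) (nat_lit 5) (nat_lit 33) (nat_lit 5) (nat_lit 30) (nat_lit 5) (nat_lit 320) (nat_lit 290) (nat_lit 110))))))))
noncomputable def xc238 : XT := (XT.nd (nat_lit 1326) (nat_lit 0) (nat_lit 0) (XT.nd (nat_lit 624) (nat_lit 456) (nat_lit 0) (XT.nd (nat_lit 312) (nat_lit 228) (nat_lit 0) (XT.nd (nat_lit 156) (nat_lit 152) (nat_lit 0) (XT.nd (nat_lit 78) (nat_lit 0) (nat_lit 0) (XT.lf (nat_lit 0) (nat_lit 2881262071) (nat_lit 228) (nat_lit 35634329003) (nat_lit 304) (nat_lit 79118996498) (nat_lit 26) (nat_lit 5) (nat_lit 29) (nat_lit 5) (nat_lit 30) (nat_lit 5) (nat_lit 321) (nat_lit 290) (nat_lit 109)) (XT.lf (nat_lit 0) (nat_lit 50795675617) (nat_lit 228) (nat_lit 3184747669) (nat_lit 304) (nat_lit 67779466168) (nat_lit 26) (nat_lit 5) (nat_lit 29) (nat_lit 5) (nat_lit 30) (nat_lit 5) (nat_lit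 322) (nat_lit 290) (nat_lit 108))) (XT.nd (nat_lit 78) (nat_lit 152) (nat_lit 0) (XT.lf (nat_lit 0) (nat_lit 70700266204) (nat_lit 304) (nat_lit 25468535883) (nat_lit 76) (nat_lit 29898567366) (nat_lit 26) (nat_lit 5) (nat_lit 30) (nat_lit 5) (nat_lit 27) (nat_lit 5) (nat_lit 323) (nat_lit 290) (nat_lit 107)) (XT.lf (nat_lit 0) (nat_lit 22984751849) (nat_lit 152) (nat_lit 65681968675) (nat_lit 228) (nat_lit 41902973374) (nat_lit 24) (nat_lit 5) (nat_lit 26) (nat_lit 5) (nat_lit 27) (nat_lit 5) (nat_lit 324) (nat_lit 290) (nat_lit 106)))) (XT.nd (nat_lit 156) (nat_lit 228) (nat_lit 0) (XT.nd (nat_lit 78) (nat_lit 0) (nat_lit 0) (XT.lf (nat_lit 0) (nat_lit 74744303294) (nat_lit 152) (nat_lit 33218081841) (nat_lit 228) (nat_lit 27313206391) (nat_lit 24) (nat_lit 5) (nat_lit 26) (nat_lit 5) (nat_lit 27) (nat_lit 5) (nat_lit 325) (nat_lit 290) (nat_lit 105)) (XT.lf (nat_lit 0) (nat_lit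 128235984152) (nat_lit 228) (nat_lit 11139120232) (nat_lit 76) (nat_lit 841023372) (nat_lit 24) (nat_lit 5) (nat_lit 27) (nat_lit 5) (nat_lit 25) (nat_lit 5) (nat_lit 326) (nat_lit 290) (nat_lit 104))) (XT.nd (nat_lit 78) (nat_lit 0) (nat_lit 0) (XT.lf (nat_lit 0) (nat_lit 5199449952) (nat_lit 228) (nat_lit 103921969264) (nat_lit 76) (nat_lit 36218470352) (nat_lit 21) (nat_lit 5) (nat_lit 24) (nat_lit 5) (nat_lit 22) (nat_lit 5) (nat_lit 327) (nat_lit 290) (nat_lit 103)) (XT.lf (nat_lit 0) (nat_lit 23026756876) (nat_lit 228) (nat_lit 53920934810) (nat_lit 76) (nat_lit 73752761845) (nat_lit 21) (nat_lit 5) (nat_lit 24) (nat_lit 5) (nat_lit 22) (nat_lit 5) (nat_lit 328) (nat_lit 290) (nat_lit 102))))) (XT.nd (nat_lit 312) (nat_lit 152) (nat_lit 0) (XT.nd (nat_lit 156) (nat_lit 152) (nat_lit 0) (XT.nd (nat_lit 78) (nat_lit 152) (nat_lit 0) (XT.lf (nat_lit 0) (nat_lit 41745054022) (nat_lit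 228) (nat_lit 1420398410) (nat_lit 76) (nat_lit 113163613067) (nat_lit 21) (nat_lit 5) (nat_lit 24) (nat_lit 5) (nat_lit 22) (nat_lit 5) (nat_lit 329) (nat_lit 290) (nat_lit 101)) (XT.lf (nat_lit 0) (nat_lit 55480359186) (nat_lit 152) (nat_lit 6784753468) (nat_lit 228) (nat_lit 99930704083) (nat_lit 19) (nat_lit 5) (nat_lit 21) (nat_lit 5) (nat_lit 22) (nat_lit 5) (nat_lit 330) (nat_lit 290) (nat_lit 100))) (XT.nd (nat_lit 78) (nat_lit 152) (nat_lit 0) (XT.lf (nat_lit 0) (nat_lit 84325748686) (nat_lit 228) (nat_lit 53570636237) (nat_lit 76) (nat_lit 30433792841) (nat_lit 19) (nat_lit 5) (nat_lit 22) (nat_lit 5) (nat_lit 20) (nat_lit 5) (nat_lit 331) (nat_lit 290) (nat_lit 99)) (XT.lf (nat_lit 0) (nat_lit 2189781732) (nat_lit 152) (nat_lit 105444714695) (nat_lit 228) (nat_lit 67129507329) (nat_lit 17) (nat_lit 5) (nat_lit 19) (nat_lit 5) (nat_lit 20) (nat_lit 5) (nat_lit 332) (nat_lit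 290) (nat_lit 98)))) (XT.nd (nat_lit 156) (nat_lit 152) (nat_lit 0) (XT.nd (nat_lit 78) (nat_lit 0) (nat_lit 0) (XT.lf (nat_lit 0) (nat_lit 62597574646) (nat_lit 152) (nat_lit 70418025514) (nat_lit 228) (nat_lit 48458575821) (nat_lit 17) (nat_lit 5) (nat_lit 19) (nat_lit 5) (nat_lit 20) (nat_lit 5) (nat_lit 333) (nat_lit 290) (nat_lit 97)) (XT.lf (nat_lit 0) (nat_lit 126025283418) (nat_lit 152) (nat_lit 33640165148) (nat_lit 228) (nat_lit 28854424603) (nat_lit 17) (nat_lit 5) (nat_lit 19) (nat_lit 5) (nat_lit 20) (nat_lit 5) (nat_lit 334) (nat_lit 290) (nat_lit 96))) (XT.nd (nat_lit 78) (nat_lit 152) (nat_lit 0) (XT.lf (nat_lit 0) (nat_lit 187725189723) (nat_lit 228) (nat_lit 3371640447) (nat_lit 76) (nat_lit 4817155811) (nat_lit 17) (nat_lit 5) (nat_lit 20) (nat_lit 5) (nat_lit 18) (nat_lit 4) (nat_lit 335) (nat_lit 290) (nat_lit 95)) (XT.nd (nat_lit 78) (nat_lit 0) (nat_lit 0) (XT.lf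 (nat_lit 0) (nat_lit 14591304344) (nat_lit 152) (nat_lit 143760268865) (nat_lit 76) (nat_lit 45240005460) (nat_lit 15) (nat_lit 5) (nat_lit 17) (nat_lit 5) (nat_lit 16) (nat_lit 5) (nat_lit 336) (nat_lit 290) (nat_lit 94)) (XT.lf (nat_lit 0) (nat_lit 38292966696) (nat_lit 152) (nat_lit 85474356435) (nat_lit 76) (nat_lit 87876128709) (nat_lit 15) (nat_lit 5) (nat_lit 17) (nat_lit 5) (nat_lit 16) (nat_lit 5) (nat_lit 337) (nat_lit 290) (nat_lit 93))))))) (XT.nd (nat_lit 34398) (nat_lit 0) (nat_lit 2736) (XT.nd (nat_lit 34086) (nat_lit 0) (nat_lit 3496) (XT.nd (nat_lit 33930) (nat_lit 0) (nat_lit 3420) (XT.nd (nat_lit 33852) (nat_lit 0) (nat_lit 3420) (XT.lf (nat_lit 0) (nat_lit 63179443153) (nat_lit 152) (nat_lit 24274572327) (nat_lit 76) (nat_lit 132643917285) (nat_lit 15) (nat_lit 5) (nat_lit 17) (nat_lit 5) (nat_lit 16) (nat_lit 5) (nat_lit 338) (nat_lit 290) (nat_lit 92)) (XT.lf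 (nat_lit 0) (nat_lit 1868891214) (nat_lit 0) (nat_lit 1868891214) (nat_lit 684) (nat_lit 21067873092) (nat_lit 60) (nat_lit 5) (nat_lit 60) (nat_lit 3) (nat_lit 69) (nat_lit 3) (nat_lit 291) (nat_lit 291) (nat_lit 138))) (XT.nd (nat_lit 78) (nat_lit 0) (nat_lit 0) (XT.lf (nat_lit 0) (nat_lit 7957112149) (nat_lit 684) (nat_lit 26091100194) (nat_lit 760) (nat_lit 16788543729) (nat_lit 60) (nat_lit 5) (nat_lit 69) (nat_lit 3) (nat_lit 70) (nat_lit 5) (nat_lit 292) (nat_lit 291) (nat_lit 137)) (XT.lf (nat_lit 0) (nat_lit 8522495545) (nat_lit 684) (nat_lit 5381684688) (nat_lit 760) (nat_lit 38216311894) (nat_lit 60) (nat_lit 5) (nat_lit 69) (nat_lit 3) (nat_lit 70) (nat_lit 5) (nat_lit 293) (nat_lit 291) (nat_lit 136)))) (XT.nd (nat_lit 156) (nat_lit 0) (nat_lit 0) (XT.nd (nat_lit 78) (nat_lit 0) (nat_lit 0) (XT.lf (nat_lit 0) (nat_lit 9496096316) (nat_lit 684) (nat_lit 36669383503) (nat_lit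 760) (nat_lit 7283944146) (nat_lit 61) (nat_lit 5) (nat_lit 70) (nat_lit 5) (nat_lit 71) (nat_lit 5) (nat_lit 294) (nat_lit 291) (nat_lit 135)) (XT.lf (nat_lit 0) (nat_lit 10837571192) (nat_lit 684) (nat_lit 14833874700) (nat_lit 760) (nat_lit 29157402887) (nat_lit 61) (nat_lit 5) (nat_lit 70) (nat_lit 5) (nat_lit 71) (nat_lit 5) (nat_lit 295) (nat_lit 291) (nat_lit 134))) (XT.nd (nat_lit 78) (nat_lit 0) (nat_lit 76) (XT.lf (nat_lit 76) (nat_lit 8360138876) (nat_lit 0) (nat_lit 4015192921) (nat_lit 760) (nat_lit 43895458235) (nat_lit 62) (nat_lit 5) (nat_lit 61) (nat_lit 5) (nat_lit 71) (nat_lit 5) (nat_lit 296) (nat_lit 291) (nat_lit 133)) (XT.lf (nat_lit 0) (nat_lit 14536392769) (nat_lit 684) (nat_lit 24840775182) (nat_lit 760) (nat_lit 18380345302) (nat_lit 62) (nat_lit 5) (nat_lit 71) (nat_lit 5) (nat_lit 72) (nat_lit 5) (nat_lit 297) (nat_lit 291) (nat_lit 132))))) (XT.nd (nat_lit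 312) (nat_lit 836) (nat_lit 0) (XT.nd (nat_lit 156) (nat_lit 0) (nat_lit 76) (XT.nd (nat_lit 78) (nat_lit 0) (nat_lit 76) (XT.lf (nat_lit 0) (nat_lit 16870132500) (nat_lit 684) (nat_lit 684094026) (nat_lit 760) (nat_lit 41761120080) (nat_lit 62) (nat_lit 5) (nat_lit 71) (nat_lit 5) (nat_lit 72) (nat_lit 5) (nat_lit 298) (nat_lit 291) (nat_lit 131)) (XT.lf (nat_lit 0) (nat_lit 19807690046) (nat_lit 684) (nat_lit 35525828123) (nat_lit 760) (nat_lit 5593201924) (nat_lit 63) (nat_lit 5) (nat_lit 72) (nat_lit 5) (nat_lit 73) (nat_lit 5) (nat_lit 299) (nat_lit 291) (nat_lit 130))) (XT.nd (nat_lit 78) (nat_lit 0) (nat_lit 0) (XT.lf (nat_lit 0) (nat_lit 23190581057) (nat_lit 684) (nat_lit 10093045081) (nat_lit 760) (nat_lit 29320118107) (nat_lit 63) (nat_lit 5) (nat_lit 72) (nat_lit 5) (nat_lit 73) (nat_lit 5) (nat_lit 300) (nat_lit 291) (nat_lit 129)) (XT.lf (nat_lit 76) (nat_lit 17159762944)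 (nat_lit 0) (nat_lit 9849723752) (nat_lit 760) (nat_lit 37341793947) (nat_lit 64) (nat_lit 5) (nat_lit 63) (nat_lit 5) (nat_lit 73) (nat_lit 5) (nat_lit 301) (nat_lit 291) (nat_lit 128)))) (XT.nd (nat_lit 156) (nat_lit 304) (nat_lit 0) (XT.nd (nat_lit 78) (nat_lit 684) (nat_lit 0) (XT.lf (nat_lit 0) (nat_lit 31422448685) (nat_lit 684) (nat_lit 20286088676) (nat_lit 76) (nat_lit 14457505272) (nat_lit 64) (nat_lit 5) (nat_lit 73) (nat_lit 5) (nat_lit 65) (nat_lit 5) (nat_lit 302) (nat_lit 291) (nat_lit 127)) (XT.lf (nat_lit 0) (nat_lit 8060284386) (nat_lit 684) (nat_lit 28282134403) (nat_lit 760) (nat_lit 31714810054) (nat_lit 55) (nat_lit 5) (nat_lit 64) (nat_lit 5) (nat_lit 65) (nat_lit 5) (nat_lit 303) (nat_lit 291) (nat_lit 126))) (XT.nd (nat_lit 78) (nat_lit 304) (nat_lit 0) (XT.lf (nat_lit 0) (nat_lit 38527440809) (nat_lit 684) (nat_lit 3323579434) (nat_lit 760) (nat_lit 28174826401)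 (nat_lit 55) (nat_lit 5) (nat_lit 64) (nat_lit 5) (nat_lit 65) (nat_lit 5) (nat_lit 304) (nat_lit 291) (nat_lit 125)) (XT.nd (nat_lit 78) (nat_lit 304) (nat_lit 0) (XT.lf (nat_lit 0) (nat_lit 47991441513) (nat_lit 760) (nat_lit 1933038965) (nat_lit 76) (nat_lit 22150599106) (nat_lit 55) (nat_lit 5) (nat_lit 65) (nat_lit 5) (nat_lit 56) (nat_lit 5) (nat_lit 305) (nat_lit 291) (nat_lit 124)) (XT.lf (nat_lit 0) (nat_lit 30016018595) (nat_lit 304) (nat_lit 24945149563) (nat_lit 380) (nat_lit 19239495358) (nat_lit 51) (nat_lit 5) (nat_lit 55) (nat_lit 5) (nat_lit 56) (nat_lit 5) (nat_lit 306) (nat_lit 291) (nat_lit 123))))))))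
noncomputable def xc239 : XT := (XT.nd (nat_lit 1326) (nat_lit 684) (nat_lit 0) (XT.nd (nat_lit 624) (nat_lit 988) (nat_lit 0) (XT.nd (nat_lit 312) (nat_lit 304) (nat_lit 0) (XT.nd (nat_lit 156) (nat_lit 304) (nat_lit 0) (XT.nd (nat_lit 78) (nat_lit 304) (nat_lit 0) (XT.lf (nat_lit 0) (nat_lit 62331881522) (nat_lit 380) (nat_lit 12822644401) (nat_lit 76) (nat_lit 1275379091) (nat_lit 51) (nat_lit 5) (nat_lit 56) (nat_lit 5) (nat_lit 52) (nat_lit 5) (nat_lit 307) (nat_lit 291) (nat_lit 122)) (XT.lf (nat_lit 0) (nat_lit 20349030387) (nat_lit 304) (nat_lit 50447974083) (nat_lit 380) (nat_lit 7937313648) (nat_lit 47) (nat_lit 5) (nat_lit 51) (nat_lit 5) (nat_lit 52) (nat_lit 5) (nat_lit 308) (nat_lit 291) (nat_lit 121))) (XT.nd (nat_lit 78) (nat_lit 304) (nat_lit 0) (XT.lf (nat_lit 0) (nat_lit 55623689902) (nat_lit 304) (nat_lit 24278107531) (nat_lit 380) (nat_lit 1241336826) (nat_lit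 47) (nat_lit 5) (nat_lit 51) (nat_lit 5) (nat_lit 52) (nat_lit 5) (nat_lit 309) (nat_lit 291) (nat_lit 120)) (XT.lf (nat_lit 0) (nat_lit 5800741573) (nat_lit 304) (nat_lit 74521767844) (nat_lit 76) (nat_lit 3335535064) (nat_lit 43) (nat_lit 5) (nat_lit 47) (nat_lit 5) (nat_lit 44) (nat_lit 5) (nat_lit 310) (nat_lit 291) (nat_lit 119)))) (XT.nd (nat_lit 156) (nat_lit 304) (nat_lit 0) (XT.nd (nat_lit 78) (nat_lit 0) (nat_lit 0) (XT.lf (nat_lit 0) (nat_lit 13989776811) (nat_lit 304) (nat_lit 40292553153) (nat_lit 76) (nat_lit 31973526918) (nat_lit 43) (nat_lit 5) (nat_lit 47) (nat_lit 5) (nat_lit 44) (nat_lit 5) (nat_lit 311) (nat_lit 291) (nat_lit 118)) (XT.lf (nat_lit 0) (nat_lit 22587596275) (nat_lit 304) (nat_lit 4352627041) (nat_lit 76) (nat_lit 62043372493) (nat_lit 43) (nat_lit 5) (nat_lit 47) (nat_lit 5) (nat_lit 44) (nat_lit 5) (nat_lit 312) (nat_lit 291) (nat_lit 117))) (XT.nd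 (nat_lit 78) (nat_lit 0) (nat_lit 0) (XT.lf (nat_lit 0) (nat_lit 32189560450) (nat_lit 380) (nat_lit 57369884536) (nat_lit 76) (nat_lit 2259566418) (nat_lit 39) (nat_lit 5) (nat_lit 44) (nat_lit 5) (nat_lit 40) (nat_lit 5) (nat_lit 313) (nat_lit 291) (nat_lit 116)) (XT.lf (nat_lit 0) (nat_lit 42787570334) (nat_lit 380) (nat_lit 19894015559) (nat_lit 76) (nat_lit 32088816806) (nat_lit 39) (nat_lit 5) (nat_lit 44) (nat_lit 5) (nat_lit 40) (nat_lit 5) (nat_lit 314) (nat_lit 291) (nat_lit 115))))) (XT.nd (nat_lit 312) (nat_lit 532) (nat_lit 0) (XT.nd (nat_lit 156) (nat_lit 228) (nat_lit 0) (XT.nd (nat_lit 78) (nat_lit 0) (nat_lit 0) (XT.lf (nat_lit 0) (nat_lit 20098216352) (nat_lit 228) (nat_lit 34130465485) (nat_lit 304) (nat_lit 43625023849) (nat_lit 36) (nat_lit 5) (nat_lit 39) (nat_lit 5) (nat_lit 40) (nat_lit 5) (nat_lit 315) (nat_lit 291) (nat_lit 114)) (XT.lf (nat_lit 0) (nat_lit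 62780047479) (nat_lit 228) (nat_lit 3798145141) (nat_lit 304) (nat_lit 34496166099) (nat_lit 36) (nat_lit 5) (nat_lit 39) (nat_lit 5) (nat_lit 40) (nat_lit 5) (nat_lit 316) (nat_lit 291) (nat_lit 113))) (XT.nd (nat_lit 78) (nat_lit 0) (nat_lit 0) (XT.lf (nat_lit 0) (nat_lit 2790608830) (nat_lit 228) (nat_lit 77235545183) (nat_lit 304) (nat_lit 24405843618) (nat_lit 33) (nat_lit 5) (nat_lit 36) (nat_lit 5) (nat_lit 37) (nat_lit 5) (nat_lit 317) (nat_lit 291) (nat_lit 112)) (XT.lf (nat_lit 0) (nat_lit 47194272126) (nat_lit 228) (nat_lit 47661504330) (nat_lit 304) (nat_lit 13066280771) (nat_lit 33) (nat_lit 5) (nat_lit 36) (nat_lit 5) (nat_lit 37) (nat_lit 5) (nat_lit 318) (nat_lit 291) (nat_lit 111)))) (XT.nd (nat_lit 156) (nat_lit 228) (nat_lit 0) (XT.nd (nat_lit 78) (nat_lit 304) (nat_lit 0) (XT.lf (nat_lit 0) (nat_lit 93817479188) (nat_lit 228) (nat_lit 16608895961) (nat_lit 304)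 (nat_lit 1160271696) (nat_lit 33) (nat_lit 5) (nat_lit 36) (nat_lit 5) (nat_lit 37) (nat_lit 5) (nat_lit 319) (nat_lit 291) (nat_lit 110)) (XT.lf (nat_lit 0) (nat_lit 11675452542) (nat_lit 304) (nat_lit 87605855037) (nat_lit 76) (nat_lit 16109436788) (nat_lit 29) (nat_lit 5) (nat_lit 33) (nat_lit 5) (nat_lit 30) (nat_lit 5) (nat_lit 320) (nat_lit 291) (nat_lit 109))) (XT.nd (nat_lit 78) (nat_lit 228) (nat_lit 0) (XT.lf (nat_lit 0) (nat_lit 25691631126) (nat_lit 304) (nat_lit 43433316733) (nat_lit 76) (nat_lit 50230266373) (nat_lit 29) (nat_lit 5) (nat_lit 33) (nat_lit 5) (nat_lit 30) (nat_lit 5) (nat_lit 321) (nat_lit 291) (nat_lit 108)) (XT.nd (nat_lit 78) (nat_lit 0) (nat_lit 0) (XT.lf (nat_lit 0) (nat_lit 3044688105) (nat_lit 228) (nat_lit 37411010614) (nat_lit 304) (nat_lit 83059856344) (nat_lit 26) (nat_lit 5) (nat_lit 29) (nat_lit 5) (nat_lit 30) (nat_lit 5) (nat_lit 322) (nat_lit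 291) (nat_lit 107)) (XT.lf (nat_lit 0) (nat_lit 53353900284) (nat_lit 228) (nat_lit 3339189968) (nat_lit 304) (nat_lit 71154068068) (nat_lit 26) (nat_lit 5) (nat_lit 29) (nat_lit 5) (nat_lit 30) (nat_lit 5) (nat_lit 323) (nat_lit 291) (nat_lit 106))))))) (XT.nd (nat_lit 702) (nat_lit 152) (nat_lit 0) (XT.nd (nat_lit 312) (nat_lit 380) (nat_lit 0) (XT.nd (nat_lit 156) (nat_lit 0) (nat_lit 0) (XT.nd (nat_lit 78) (nat_lit 152) (nat_lit 0) (XT.lf (nat_lit 0) (nat_lit 74248346815) (nat_lit 304) (nat_lit 26723780174) (nat_lit 76) (nat_lit 31397916317) (nat_lit 26) (nat_lit 5) (nat_lit 30) (nat_lit 5) (nat_lit 27) (nat_lit 5) (nat_lit 324) (nat_lit 291) (nat_lit 105)) (XT.lf (nat_lit 0) (nat_lit 24151878678) (nat_lit 152) (nat_lit 68960902221) (nat_lit 228) (nat_lit 43984722185) (nat_lit 24) (nat_lit 5) (nat_lit 26) (nat_lit 5) (nat_lit 27) (nat_lit 5) (nat_lit 325) (nat_lit 291) (nat_lit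 104))) (XT.nd (nat_lit 78) (nat_lit 0) (nat_lit 0) (XT.lf (nat_lit 0) (nat_lit 78498555827) (nat_lit 152) (nat_lit 34874066993) (nat_lit 228) (nat_lit 28666104942) (nat_lit 24) (nat_lit 5) (nat_lit 26) (nat_lit 5) (nat_lit 27) (nat_lit 5) (nat_lit 326) (nat_lit 291) (nat_lit 103)) (XT.lf (nat_lit 0) (nat_lit 134659397862) (nat_lit 228) (nat_lit 11679310614) (nat_lit 76) (nat_lit 887609306) (nat_lit 24) (nat_lit 5) (nat_lit 27) (nat_lit 5) (nat_lit 25) (nat_lit 5) (nat_lit 327) (nat_lit 291) (nat_lit 102)))) (XT.nd (nat_lit 156) (nat_lit 152) (nat_lit 0) (XT.nd (nat_lit 78) (nat_lit 0) (nat_lit 0) (XT.lf (nat_lit 0) (nat_lit 5470959826) (nat_lit 228) (nat_lit 109101158710) (nat_lit 76) (nat_lit 38034156317) (nat_lit 21) (nat_lit 5) (nat_lit 24) (nat_lit 5) (nat_lit 22) (nat_lit 5) (nat_lit 328) (nat_lit 291) (nat_lit 101)) (XT.lf (nat_lit 0) (nat_lit 24189082698) (nat_lit 228) (nat_lit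 56600877724) (nat_lit 76) (nat_lit 77444935601) (nat_lit 21) (nat_lit 5) (nat_lit 24) (nat_lit 5) (nat_lit 22) (nat_lit 5) (nat_lit 329) (nat_lit 291) (nat_lit 100))) (XT.nd (nat_lit 78) (nat_lit 152) (nat_lit 0) (XT.lf (nat_lit 0) (nat_lit 43842771464) (nat_lit 228) (nat_lit 1476081354) (nat_lit 76) (nat_lit 118826113401) (nat_lit 21) (nat_lit 5) (nat_lit 24) (nat_lit 5) (nat_lit 22) (nat_lit 5) (nat_lit 330) (nat_lit 291) (nat_lit 99)) (XT.nd (nat_lit 78) (nat_lit 0) (nat_lit 0) (XT.lf (nat_lit 0) (nat_lit 58269466751) (nat_lit 152) (nat_lit 7119103546) (nat_lit 228) (nat_lit 104916499252) (nat_lit 19) (nat_lit 5) (nat_lit 21) (nat_lit 5) (nat_lit 22) (nat_lit 5) (nat_lit 331) (nat_lit 291) (nat_lit 98)) (XT.lf (nat_lit 0) (nat_lit 88551824997) (nat_lit 228) (nat_lit 56234357267) (nat_lit 76) (nat_lit 31959988352) (nat_lit 19) (nat_lit 5) (nat_lit 22) (nat_lit 5) (nat_lit 20) (nat_lit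 5) (nat_lit 332) (nat_lit 291) (nat_lit 97)))))) (XT.nd (nat_lit 34320) (nat_lit 0) (nat_lit 3268) (XT.nd (nat_lit 156) (nat_lit 0) (nat_lit 0) (XT.nd (nat_lit 78) (nat_lit 0) (nat_lit 0) (XT.lf (nat_lit 0) (nat_lit 2313842717) (nat_lit 152) (nat_lit 110711928780) (nat_lit 228) (nat_lit 70475929608) (nat_lit 17) (nat_lit 5) (nat_lit 19) (nat_lit 5) (nat_lit 20) (nat_lit 5) (nat_lit 333) (nat_lit 291) (nat_lit 96)) (XT.lf (nat_lit 0) (nat_lit 65741331377) (nat_lit 152) (nat_lit 73934144266) (nat_lit 228) (nat_lit 50871930244) (nat_lit 17) (nat_lit 5) (nat_lit 19) (nat_lit 5) (nat_lit 20) (nat_lit 5) (nat_lit 334) (nat_lit 291) (nat_lit 95))) (XT.nd (nat_lit 78) (nat_lit 0) (nat_lit 0) (XT.lf (nat_lit 0) (nat_lit 132339764729) (nat_lit 152) (nat_lit 35317618621) (nat_lit 228) (nat_lit 30288027387) (nat_lit 17) (nat_lit 5) (nat_lit 19) (nat_lit 5) (nat_lit 20) (nat_lit 5) (nat_lit 335)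 (nat_lit 291) (nat_lit 94)) (XT.lf (nat_lit 0) (nat_lit 197119766799) (nat_lit 228) (nat_lit 3527268071) (nat_lit 76) (nat_lit 5062212653) (nat_lit 17) (nat_lit 5) (nat_lit 20) (nat_lit 5) (nat_lit 18) (nat_lit 4) (nat_lit 336) (nat_lit 291) (nat_lit 93)))) (XT.nd (nat_lit 156) (nat_lit 0) (nat_lit 0) (XT.nd (nat_lit 78) (nat_lit 0) (nat_lit 0) (XT.lf (nat_lit 0) (nat_lit 1974086998) (nat_lit 0) (nat_lit 1974086998) (nat_lit 684) (nat_lit 22096485976) (nat_lit 60) (nat_lit 5) (nat_lit 60) (nat_lit 3) (nat_lit 69) (nat_lit 3) (nat_lit 292) (nat_lit 292) (nat_lit 136)) (XT.lf (nat_lit 0) (nat_lit 8399384855) (nat_lit 684) (nat_lit 27370487553) (nat_lit 760) (nat_lit 17606304038) (nat_lit 60) (nat_lit 5) (nat_lit 69) (nat_lit 3) (nat_lit 70) (nat_lit 5) (nat_lit 293) (nat_lit 292) (nat_lit 135))) (XT.nd (nat_lit 78) (nat_lit 0) (nat_lit 76) (XT.lf (nat_lit 0) (nat_lit 8990922321) (nat_lit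 684) (nat_lit 5626799731) (nat_lit 760) (nat_lit 40106492368) (nat_lit 60) (nat_lit 5) (nat_lit 69) (nat_lit 3) (nat_lit 70) (nat_lit 5) (nat_lit 294) (nat_lit 292) (nat_lit 134)) (XT.nd (nat_lit 78) (nat_lit 0) (nat_lit 0) (XT.lf (nat_lit 0) (nat_lit 10011290380) (nat_lit 684) (nat_lit 38476792437) (nat_lit 760) (nat_lit 7631614586) (nat_lit 61) (nat_lit 5) (nat_lit 70) (nat_lit 5) (nat_lit 71) (nat_lit 5) (nat_lit 295) (nat_lit 292) (nat_lit 133)) (XT.lf (nat_lit 0) (nat_lit 11417915702) (nat_lit 684) (nat_lit 15550749158) (nat_lit 760) (nat_lit 30599533253) (nat_lit 61) (nat_lit 5) (nat_lit 70) (nat_lit 5) (nat_lit 71) (nat_lit 5) (nat_lit 296) (nat_lit 292) (nat_lit 132))))))))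
noncomputable def xc240 : XT := (XT.nd (nat_lit 1326) (nat_lit 1672) (nat_lit 0) (XT.nd (nat_lit 624) (nat_lit 912) (nat_lit 0) (XT.nd (nat_lit 312) (nat_lit 456) (nat_lit 0) (XT.nd (nat_lit 156) (nat_lit 0) (nat_lit 76) (XT.nd (nat_lit 78) (nat_lit 0) (nat_lit 76) (XT.lf (nat_lit 76) (nat_lit 8802564786) (nat_lit 0) (nat_lit 4228549088) (nat_lit 760) (nat_lit 46051203164) (nat_lit 62) (nat_lit 5) (nat_lit 61) (nat_lit 5) (nat_lit 71) (nat_lit 5) (nat_lit 297) (nat_lit 292) (nat_lit 131)) (XT.lf (nat_lit 0) (nat_lit 15298277950) (nat_lit 684) (nat_lit 26057453817) (nat_lit 760) (nat_lit 19287749850) (nat_lit 62) (nat_lit 5) (nat_lit 71) (nat_lit 5) (nat_lit 72) (nat_lit 5) (nat_lit 298) (nat_lit 292) (nat_lit 130))) (XT.nd (nat_lit 78) (nat_lit 0) (nat_lit 76) (XT.lf (nat_lit 0) (nat_lit 17747034881) (nat_lit 684) (nat_lit 694146228) (nat_lit 760) (nat_lit 43838116353) (nat_lit 62)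 (nat_lit 5) (nat_lit 71) (nat_lit 5) (nat_lit 72) (nat_lit 5) (nat_lit 299) (nat_lit 292) (nat_lit 129)) (XT.lf (nat_lit 0) (nat_lit 20830119677) (nat_lit 684) (nat_lit 37276476702) (nat_lit 760) (nat_lit 5864717761) (nat_lit 63) (nat_lit 5) (nat_lit 72) (nat_lit 5) (nat_lit 73) (nat_lit 5) (nat_lit 300) (nat_lit 292) (nat_lit 128)))) (XT.nd (nat_lit 156) (nat_lit 608) (nat_lit 0) (XT.nd (nat_lit 78) (nat_lit 0) (nat_lit 0) (XT.lf (nat_lit 0) (nat_lit 24380629279) (nat_lit 684) (nat_lit 10573275595) (nat_lit 760) (nat_lit 30778367576) (nat_lit 63) (nat_lit 5) (nat_lit 72) (nat_lit 5) (nat_lit 73) (nat_lit 5) (nat_lit 301) (nat_lit 292) (nat_lit 127)) (XT.lf (nat_lit 76) (nat_lit 18041778932) (nat_lit 0) (nat_lit 10347623116) (nat_lit 760) (nat_lit 39177843862) (nat_lit 64) (nat_lit 5) (nat_lit 63) (nat_lit 5) (nat_lit 73) (nat_lit 5) (nat_lit 302) (nat_lit 292) (nat_lit 126))) (XT.nd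 (nat_lit 78) (nat_lit 684) (nat_lit 0) (XT.lf (nat_lit 0) (nat_lit 33021529694) (nat_lit 684) (nat_lit 21275906329) (nat_lit 76) (nat_lit 15175390134) (nat_lit 64) (nat_lit 5) (nat_lit 73) (nat_lit 5) (nat_lit 65) (nat_lit 5) (nat_lit 303) (nat_lit 292) (nat_lit 125)) (XT.lf (nat_lit 0) (nat_lit 8487390438) (nat_lit 684) (nat_lit 29699152644) (nat_lit 760) (nat_lit 33272082101) (nat_lit 55) (nat_lit 5) (nat_lit 64) (nat_lit 5) (nat_lit 65) (nat_lit 5) (nat_lit 304) (nat_lit 292) (nat_lit 124))))) (XT.nd (nat_lit 312) (nat_lit 608) (nat_lit 0) (XT.nd (nat_lit 156) (nat_lit 304) (nat_lit 0) (XT.nd (nat_lit 78) (nat_lit 0) (nat_lit 0) (XT.lf (nat_lit 0) (nat_lit 40476757452) (nat_lit 684) (nat_lit 3492531283) (nat_lit 760) (nat_lit 29556454906) (nat_lit 55) (nat_lit 5) (nat_lit 64) (nat_lit 5) (nat_lit 65) (nat_lit 5) (nat_lit 305) (nat_lit 292) (nat_lit 123)) (XT.lf (nat_lit 0) (nat_lit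 50415465197) (nat_lit 760) (nat_lit 2006468790) (nat_lit 76) (nat_lit 23255572749) (nat_lit 55) (nat_lit 5) (nat_lit 65) (nat_lit 5) (nat_lit 56) (nat_lit 5) (nat_lit 306) (nat_lit 292) (nat_lit 122))) (XT.nd (nat_lit 78) (nat_lit 0) (nat_lit 0) (XT.lf (nat_lit 0) (nat_lit 31539667098) (nat_lit 304) (nat_lit 26193203428) (nat_lit 380) (nat_lit 20176544684) (nat_lit 51) (nat_lit 5) (nat_lit 55) (nat_lit 5) (nat_lit 56) (nat_lit 5) (nat_lit 307) (nat_lit 292) (nat_lit 121)) (XT.lf (nat_lit 0) (nat_lit 65470981813) (nat_lit 380) (nat_lit 13440784727) (nat_lit 76) (nat_lit 1338413857) (nat_lit 51) (nat_lit 5) (nat_lit 56) (nat_lit 5) (nat_lit 52) (nat_lit 5) (nat_lit 308) (nat_lit 292) (nat_lit 120)))) (XT.nd (nat_lit 156) (nat_lit 304) (nat_lit 0) (XT.nd (nat_lit 78) (nat_lit 0) (nat_lit 0) (XT.lf (nat_lit 0) (nat_lit 21389102964) (nat_lit 304) (nat_lit 52969539400) (nat_lit 380) (nat_lit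 8311212224) (nat_lit 47) (nat_lit 5) (nat_lit 51) (nat_lit 5) (nat_lit 52) (nat_lit 5) (nat_lit 309) (nat_lit 292) (nat_lit 119)) (XT.lf (nat_lit 0) (nat_lit 58426418261) (nat_lit 304) (nat_lit 25491219205) (nat_lit 380) (nat_lit 1281530234) (nat_lit 47) (nat_lit 5) (nat_lit 51) (nat_lit 5) (nat_lit 52) (nat_lit 5) (nat_lit 310) (nat_lit 292) (nat_lit 118))) (XT.nd (nat_lit 78) (nat_lit 0) (nat_lit 0) (XT.lf (nat_lit 0) (nat_lit 6111309444) (nat_lit 304) (nat_lit 78224810260) (nat_lit 76) (nat_lit 3503722671) (nat_lit 43) (nat_lit 5) (nat_lit 47) (nat_lit 5) (nat_lit 44) (nat_lit 5) (nat_lit 311) (nat_lit 292) (nat_lit 117)) (XT.nd (nat_lit 78) (nat_lit 0) (nat_lit 0) (XT.lf (nat_lit 0) (nat_lit 14708818787) (nat_lit 304) (nat_lit 42285232261) (nat_lit 76) (nat_lit 33573546935) (nat_lit 43) (nat_lit 5) (nat_lit 47) (nat_lit 5) (nat_lit 44) (nat_lit 5) (nat_lit 312) (nat_lit 292) (nat_lit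 116)) (XT.lf (nat_lit 0) (nat_lit 23735598123) (nat_lit 304) (nat_lit 4549355013) (nat_lit 76) (nat_lit 65146820804) (nat_lit 43) (nat_lit 5) (nat_lit 47) (nat_lit 5) (nat_lit 44) (nat_lit 5) (nat_lit 313) (nat_lit 292) (nat_lit 115))))))) (XT.nd (nat_lit 624) (nat_lit 608) (nat_lit 0) (XT.nd (nat_lit 312) (nat_lit 532) (nat_lit 0) (XT.nd (nat_lit 156) (nat_lit 228) (nat_lit 0) (XT.nd (nat_lit 78) (nat_lit 0) (nat_lit 0) (XT.lf (nat_lit 0) (nat_lit 33817134026) (nat_lit 380) (nat_lit 60216881702) (nat_lit 76) (nat_lit 2374974270) (nat_lit 39) (nat_lit 5) (nat_lit 44) (nat_lit 5) (nat_lit 40) (nat_lit 5) (nat_lit 314) (nat_lit 292) (nat_lit 114)) (XT.lf (nat_lit 0) (nat_lit 44944182711) (nat_lit 380) (nat_lit 20868242946) (nat_lit 76) (nat_lit 33695571485) (nat_lit 39) (nat_lit 5) (nat_lit 44) (nat_lit 5) (nat_lit 40) (nat_lit 5) (nat_lit 315) (nat_lit 292) (nat_lit 113))) (XT.nd (nat_lit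 78) (nat_lit 0) (nat_lit 0) (XT.lf (nat_lit 0) (nat_lit 21123270345) (nat_lit 228) (nat_lit 35833573275) (nat_lit 304) (nat_lit 45788650014) (nat_lit 36) (nat_lit 5) (nat_lit 39) (nat_lit 5) (nat_lit 40) (nat_lit 5) (nat_lit 316) (nat_lit 292) (nat_lit 112)) (XT.lf (nat_lit 0) (nat_lit 65938233829) (nat_lit 228) (nat_lit 3984799556) (nat_lit 304) (nat_lit 36204188664) (nat_lit 36) (nat_lit 5) (nat_lit 39) (nat_lit 5) (nat_lit 40) (nat_lit 5) (nat_lit 317) (nat_lit 292) (nat_lit 111)))) (XT.nd (nat_lit 156) (nat_lit 304) (nat_lit 0) (XT.nd (nat_lit 78) (nat_lit 0) (nat_lit 0) (XT.lf (nat_lit 0) (nat_lit 2949804684) (nat_lit 228) (nat_lit 81093184939) (nat_lit 304) (nat_lit 25609776210) (nat_lit 33) (nat_lit 5) (nat_lit 36) (nat_lit 5) (nat_lit 37) (nat_lit 5) (nat_lit 318) (nat_lit 292) (nat_lit 110)) (XT.lf (nat_lit 0) (nat_lit 49572714696) (nat_lit 228) (nat_lit 50040639067) (nat_lit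 304) (nat_lit 13704014249) (nat_lit 33) (nat_lit 5) (nat_lit 36) (nat_lit 5) (nat_lit 37) (nat_lit 5) (nat_lit 319) (nat_lit 292) (nat_lit 109))) (XT.nd (nat_lit 78) (nat_lit 304) (nat_lit 0) (XT.lf (nat_lit 0) (nat_lit 98526190255) (nat_lit 228) (nat_lit 17435587921) (nat_lit 304) (nat_lit 1203446652) (nat_lit 33) (nat_lit 5) (nat_lit 36) (nat_lit 5) (nat_lit 37) (nat_lit 5) (nat_lit 320) (nat_lit 292) (nat_lit 108)) (XT.lf (nat_lit 0) (nat_lit 12273250951) (nat_lit 304) (nat_lit 91967404593) (nat_lit 76) (nat_lit 16918879269) (nat_lit 29) (nat_lit 5) (nat_lit 33) (nat_lit 5) (nat_lit 30) (nat_lit 5) (nat_lit 321) (nat_lit 292) (nat_lit 107))))) (XT.nd (nat_lit 312) (nat_lit 380) (nat_lit 0) (XT.nd (nat_lit 156) (nat_lit 0) (nat_lit 0) (XT.nd (nat_lit 78) (nat_lit 228) (nat_lit 0) (XT.lf (nat_lit 0) (nat_lit 26989570569) (nat_lit 304) (nat_lit 45587131907) (nat_lit 76) (nat_lit 52745561255)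 (nat_lit 29) (nat_lit 5) (nat_lit 33) (nat_lit 5) (nat_lit 30) (nat_lit 5) (nat_lit 322) (nat_lit 292) (nat_lit 106)) (XT.lf (nat_lit 0) (nat_lit 3214485259) (nat_lit 228) (nat_lit 39276994398) (nat_lit 304) (nat_lit 87199162106) (nat_lit 26) (nat_lit 5) (nat_lit 29) (nat_lit 5) (nat_lit 30) (nat_lit 5) (nat_lit 323) (nat_lit 292) (nat_lit 105))) (XT.nd (nat_lit 78) (nat_lit 0) (nat_lit 0) (XT.lf (nat_lit 0) (nat_lit 56038321725) (nat_lit 228) (nat_lit 3501800183) (nat_lit 304) (nat_lit 74698736180) (nat_lit 26) (nat_lit 5) (nat_lit 29) (nat_lit 5) (nat_lit 30) (nat_lit 5) (nat_lit 324) (nat_lit 292) (nat_lit 104)) (XT.lf (nat_lit 0) (nat_lit 77972616583) (nat_lit 304) (nat_lit 28043477116) (nat_lit 76) (nat_lit 32971821732) (nat_lit 26) (nat_lit 5) (nat_lit 30) (nat_lit 5) (nat_lit 27) (nat_lit 5) (nat_lit 325) (nat_lit 292) (nat_lit 103)))) (XT.nd (nat_lit 156) (nat_lit 228) (nat_lit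 0) (XT.nd (nat_lit 78) (nat_lit 0) (nat_lit 0) (XT.lf (nat_lit 0) (nat_lit 25375698678) (nat_lit 152) (nat_lit 72404262627) (nat_lit 228) (nat_lit 46171804229) (nat_lit 24) (nat_lit 5) (nat_lit 26) (nat_lit 5) (nat_lit 27) (nat_lit 5) (nat_lit 326) (nat_lit 292) (nat_lit 102)) (XT.lf (nat_lit 0) (nat_lit 82438937014) (nat_lit 152) (nat_lit 36613308719) (nat_lit 228) (nat_lit 30087834889) (nat_lit 24) (nat_lit 5) (nat_lit 26) (nat_lit 5) (nat_lit 27) (nat_lit 5) (nat_lit 327) (nat_lit 292) (nat_lit 101))) (XT.nd (nat_lit 78) (nat_lit 228) (nat_lit 0) (XT.lf (nat_lit 0) (nat_lit 141402902450) (nat_lit 228) (nat_lit 12248069225) (nat_lit 76) (nat_lit 936102937) (nat_lit 24) (nat_lit 5) (nat_lit 27) (nat_lit 5) (nat_lit 25) (nat_lit 5) (nat_lit 328) (nat_lit 292) (nat_lit 100)) (XT.nd (nat_lit 78) (nat_lit 0) (nat_lit 0) (XT.lf (nat_lit 0) (nat_lit 5754972559) (nat_lit 228) (nat_lit 114540879669)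 (nat_lit 76) (nat_lit 39940183813) (nat_lit 21) (nat_lit 5) (nat_lit 24) (nat_lit 5) (nat_lit 22) (nat_lit 5) (nat_lit 329) (nat_lit 292) (nat_lit 99)) (XT.lf (nat_lit 0) (nat_lit 25408503254) (nat_lit 228) (nat_lit 59416314966) (nat_lit 76) (nat_lit 81321296363) (nat_lit 21) (nat_lit 5) (nat_lit 24) (nat_lit 5) (nat_lit 22) (nat_lit 5) (nat_lit 330) (nat_lit 292) (nat_lit 98))))))))
noncomputable def xc241 : XT := (XT.nd (nat_lit 35412) (nat_lit 0) (nat_lit 1216) (XT.nd (nat_lit 34710) (nat_lit 0) (nat_lit 3268) (XT.nd (nat_lit 312) (nat_lit 0) (nat_lit 0) (XT.nd (nat_lit 156) (nat_lit 152) (nat_lit 0) (XT.nd (nat_lit 78) (nat_lit 152) (nat_lit 0) (XT.lf (nat_lit 0) (nat_lit 46044401866) (nat_lit 228) (nat_lit 1535974331) (nat_lit 76) (nat_lit 124771337148) (nat_lit 21) (nat_lit 5) (nat_lit 24) (nat_lit 5) (nat_lit 22) (nat_lit 5) (nat_lit 331) (nat_lit 292) (nat_lit 97)) (XT.lf (nat_lit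 0) (nat_lit 61196626807) (nat_lit 152) (nat_lit 7470625530) (nat_lit 228) (nat_lit 110152582687) (nat_lit 19) (nat_lit 5) (nat_lit 21) (nat_lit 5) (nat_lit 22) (nat_lit 5) (nat_lit 332) (nat_lit 292) (nat_lit 96))) (XT.nd (nat_lit 78) (nat_lit 152) (nat_lit 0) (XT.lf (nat_lit 0) (nat_lit 92988295046) (nat_lit 228) (nat_lit 59032641315) (nat_lit 76) (nat_lit 33562074724) (nat_lit 19) (nat_lit 5) (nat_lit 22) (nat_lit 5) (nat_lit 20) (nat_lit 5) (nat_lit 333) (nat_lit 292) (nat_lit 95)) (XT.lf (nat_lit 0) (nat_lit 2442751993) (nat_lit 152) (nat_lit 116242970434) (nat_lit 228) (nat_lit 73990607643) (nat_lit 17) (nat_lit 5) (nat_lit 19) (nat_lit 5) (nat_lit 20) (nat_lit 5) (nat_lit 334) (nat_lit 292) (nat_lit 94)))) (XT.nd (nat_lit 34242) (nat_lit 0) (nat_lit 3268) (XT.nd (nat_lit 78) (nat_lit 0) (nat_lit 0) (XT.lf (nat_lit 0) (nat_lit 69040985699) (nat_lit 152) (nat_lit 77626513589) (nat_lit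 228) (nat_lit 53406842522) (nat_lit 17) (nat_lit 5) (nat_lit 19) (nat_lit 5) (nat_lit 20) (nat_lit 5) (nat_lit 335) (nat_lit 292) (nat_lit 93)) (XT.lf (nat_lit 0) (nat_lit 138968741302) (nat_lit 152) (nat_lit 37079368228) (nat_lit 228) (nat_lit 31794158057) (nat_lit 17) (nat_lit 5) (nat_lit 19) (nat_lit 5) (nat_lit 20) (nat_lit 5) (nat_lit 336) (nat_lit 292) (nat_lit 92))) (XT.nd (nat_lit 78) (nat_lit 0) (nat_lit 0) (XT.lf (nat_lit 0) (nat_lit 2083450054) (nat_lit 0) (nat_lit 2083450054) (nat_lit 684) (nat_lit 23178833386) (nat_lit 60) (nat_lit 5) (nat_lit 60) (nat_lit 3) (nat_lit 69) (nat_lit 3) (nat_lit 293) (nat_lit 293) (nat_lit 134)) (XT.lf (nat_lit 0) (nat_lit 8859641717) (nat_lit 684) (nat_lit 28716184130) (nat_lit 760) (nat_lit 18466966743) (nat_lit 60) (nat_lit 5) (nat_lit 69) (nat_lit 3) (nat_lit 70) (nat_lit 5) (nat_lit 294) (nat_lit 293) (nat_lit 133))))) (XT.nd (nat_lit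 312) (nat_lit 0) (nat_lit 152) (XT.nd (nat_lit 156) (nat_lit 0) (nat_lit 76) (XT.nd (nat_lit 78) (nat_lit 0) (nat_lit 76) (XT.lf (nat_lit 0) (nat_lit 9478837598) (nat_lit 684) (nat_lit 5886398954) (nat_lit 760) (nat_lit 42093100322) (nat_lit 60) (nat_lit 5) (nat_lit 69) (nat_lit 3) (nat_lit 70) (nat_lit 5) (nat_lit 295) (nat_lit 293) (nat_lit 132)) (XT.lf (nat_lit 0) (nat_lit 10548489138) (nat_lit 684) (nat_lit 40376994651) (nat_lit 760) (nat_lit 7998205049) (nat_lit 61) (nat_lit 5) (nat_lit 70) (nat_lit 5) (nat_lit 71) (nat_lit 5) (nat_lit 296) (nat_lit 293) (nat_lit 131))) (XT.nd (nat_lit 78) (nat_lit 0) (nat_lit 0) (XT.lf (nat_lit 0) (nat_lit 12023701238) (nat_lit 684) (nat_lit 16305774800) (nat_lit 760) (nat_lit 32115233472) (nat_lit 61) (nat_lit 5) (nat_lit 70) (nat_lit 5) (nat_lit 71) (nat_lit 5) (nat_lit 297) (nat_lit 293) (nat_lit 130)) (XT.lf (nat_lit 76) (nat_lit 9264841748)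 (nat_lit 0) (nat_lit 4451401958) (nat_lit 760) (nat_lit 48318363790) (nat_lit 62) (nat_lit 5) (nat_lit 61) (nat_lit 5) (nat_lit 71) (nat_lit 5) (nat_lit 298) (nat_lit 293) (nat_lit 129)))) (XT.nd (nat_lit 156) (nat_lit 0) (nat_lit 76) (XT.nd (nat_lit 78) (nat_lit 0) (nat_lit 0) (XT.lf (nat_lit 0) (nat_lit 16094997329) (nat_lit 684) (nat_lit 27337324128) (nat_lit 760) (nat_lit 20241604265) (nat_lit 62) (nat_lit 5) (nat_lit 71) (nat_lit 5) (nat_lit 72) (nat_lit 5) (nat_lit 299) (nat_lit 293) (nat_lit 128)) (XT.lf (nat_lit 0) (nat_lit 18664677559) (nat_lit 684) (nat_lit 706946511) (nat_lit 760) (nat_lit 46019990668) (nat_lit 62) (nat_lit 5) (nat_lit 71) (nat_lit 5) (nat_lit 72) (nat_lit 5) (nat_lit 300) (nat_lit 293) (nat_lit 127))) (XT.nd (nat_lit 78) (nat_lit 0) (nat_lit 0) (XT.lf (nat_lit 0) (nat_lit 21900691537) (nat_lit 684) (nat_lit 39117041737) (nat_lit 760) (nat_lit 6150566566)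 (nat_lit 63) (nat_lit 5) (nat_lit 72) (nat_lit 5) (nat_lit 73) (nat_lit 5) (nat_lit 301) (nat_lit 293) (nat_lit 126)) (XT.nd (nat_lit 78) (nat_lit 0) (nat_lit 0) (XT.lf (nat_lit 0) (nat_lit 25627342530) (nat_lit 684) (nat_lit 11079788136) (nat_lit 760) (nat_lit 32310250638) (nat_lit 63) (nat_lit 5) (nat_lit 72) (nat_lit 5) (nat_lit 73) (nat_lit 5) (nat_lit 302) (nat_lit 293) (nat_lit 125)) (XT.lf (nat_lit 76) (nat_lit 18965661839) (nat_lit 0) (nat_lit 10869914183) (nat_lit 760) (nat_lit 41108582058) (nat_lit 64) (nat_lit 5) (nat_lit 63) (nat_lit 5) (nat_lit 73) (nat_lit 5) (nat_lit 303) (nat_lit 293) (nat_lit 124))))))) (XT.nd (nat_lit 702) (nat_lit 760) (nat_lit 0) (XT.nd (nat_lit 312) (nat_lit 912) (nat_lit 0) (XT.nd (nat_lit 156) (nat_lit 0) (nat_lit 0) (XT.nd (nat_lit 78) (nat_lit 684) (nat_lit 0) (XT.lf (nat_lit 0) (nat_lit 34697965430) (nat_lit 684) (nat_lit 22317491412) (nat_lit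 76) (nat_lit 15929633200) (nat_lit 64) (nat_lit 5) (nat_lit 73) (nat_lit 5) (nat_lit 65) (nat_lit 5) (nat_lit 304) (nat_lit 293) (nat_lit 123)) (XT.lf (nat_lit 0) (nat_lit 8933611964) (nat_lit 684) (nat_lit 31186751112) (nat_lit 760) (nat_lit 34909864478) (nat_lit 55) (nat_lit 5) (nat_lit 64) (nat_lit 5) (nat_lit 65) (nat_lit 5) (nat_lit 305) (nat_lit 293) (nat_lit 122))) (XT.nd (nat_lit 78) (nat_lit 0) (nat_lit 0) (XT.lf (nat_lit 0) (nat_lit 42521406757) (nat_lit 684) (nat_lit 3669672928) (nat_lit 760) (nat_lit 31009685530) (nat_lit 55) (nat_lit 5) (nat_lit 64) (nat_lit 5) (nat_lit 65) (nat_lit 5) (nat_lit 306) (nat_lit 293) (nat_lit 121)) (XT.lf (nat_lit 0) (nat_lit 52958416786) (nat_lit 760) (nat_lit 2085729079) (nat_lit 76) (nat_lit 24416032736) (nat_lit 55) (nat_lit 5) (nat_lit 65) (nat_lit 5) (nat_lit 56) (nat_lit 5) (nat_lit 307) (nat_lit 293) (nat_lit 120)))) (XT.nd (nat_lit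 156) (nat_lit 608) (nat_lit 0) (XT.nd (nat_lit 78) (nat_lit 0) (nat_lit 0) (XT.lf (nat_lit 0) (nat_lit 33137373875) (nat_lit 304) (nat_lit 27503585946) (nat_lit 380) (nat_lit 21162763808) (nat_lit 51) (nat_lit 5) (nat_lit 55) (nat_lit 5) (nat_lit 56) (nat_lit 5) (nat_lit 308) (nat_lit 293) (nat_lit 119)) (XT.lf (nat_lit 0) (nat_lit 68764944705) (nat_lit 380) (nat_lit 14091969638) (nat_lit 76) (nat_lit 1404668619) (nat_lit 51) (nat_lit 5) (nat_lit 56) (nat_lit 5) (nat_lit 52) (nat_lit 5) (nat_lit 309) (nat_lit 293) (nat_lit 118))) (XT.nd (nat_lit 78) (nat_lit 304) (nat_lit 0) (XT.lf (nat_lit 0) (nat_lit 22479076077) (nat_lit 304) (nat_lit 55617260463) (nat_lit 380) (nat_lit 8705940994) (nat_lit 47) (nat_lit 5) (nat_lit 51) (nat_lit 5) (nat_lit 52) (nat_lit 5) (nat_lit 310) (nat_lit 293) (nat_lit 117)) (XT.nd (nat_lit 78) (nat_lit 304) (nat_lit 0) (XT.lf (nat_lit 0) (nat_lit 61367280093)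 (nat_lit 304) (nat_lit 26765060254) (nat_lit 380) (nat_lit 1325766896) (nat_lit 47) (nat_lit 5) (nat_lit 51) (nat_lit 5) (nat_lit 52) (nat_lit 5) (nat_lit 311) (nat_lit 293) (nat_lit 116)) (XT.lf (nat_lit 0) (nat_lit 6435496950) (nat_lit 304) (nat_lit 82115147392) (nat_lit 76) (nat_lit 3680188491) (nat_lit 43) (nat_lit 5) (nat_lit 47) (nat_lit 5) (nat_lit 44) (nat_lit 5) (nat_lit 312) (nat_lit 293) (nat_lit 115)))))) (XT.nd (nat_lit 312) (nat_lit 456) (nat_lit 0) (XT.nd (nat_lit 156) (nat_lit 304) (nat_lit 0) (XT.nd (nat_lit 78) (nat_lit 0) (nat_lit 0) (XT.lf (nat_lit 0) (nat_lit 15461994997) (nat_lit 304) (nat_lit 44379585893) (nat_lit 76) (nat_lit 35253443030) (nat_lit 43) (nat_lit 5) (nat_lit 47) (nat_lit 5) (nat_lit 44) (nat_lit 5) (nat_lit 313) (nat_lit 293) (nat_lit 114)) (XT.lf (nat_lit 0) (nat_lit 24939268762) (nat_lit 304) (nat_lit 4757862781) (nat_lit 76) (nat_lit 68405322557)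 (nat_lit 43) (nat_lit 5) (nat_lit 47) (nat_lit 5) (nat_lit 44) (nat_lit 5) (nat_lit 314) (nat_lit 293) (nat_lit 113))) (XT.nd (nat_lit 78) (nat_lit 0) (nat_lit 0) (XT.lf (nat_lit 0) (nat_lit 35524403927) (nat_lit 380) (nat_lit 63208227320) (nat_lit 76) (nat_lit 2495926640) (nat_lit 39) (nat_lit 5) (nat_lit 44) (nat_lit 5) (nat_lit 40) (nat_lit 5) (nat_lit 315) (nat_lit 293) (nat_lit 112)) (XT.lf (nat_lit 0) (nat_lit 47207023465) (nat_lit 380) (nat_lit 21893085124) (nat_lit 76) (nat_lit 35382448780) (nat_lit 39) (nat_lit 5) (nat_lit 44) (nat_lit 5) (nat_lit 40) (nat_lit 5) (nat_lit 316) (nat_lit 293) (nat_lit 111)))) (XT.nd (nat_lit 156) (nat_lit 228) (nat_lit 0) (XT.nd (nat_lit 78) (nat_lit 0) (nat_lit 0) (XT.lf (nat_lit 0) (nat_lit 22197704316) (nat_lit 228) (nat_lit 37622153995) (nat_lit 304) (nat_lit 48062096096) (nat_lit 36) (nat_lit 5) (nat_lit 39) (nat_lit 5) (nat_lit 40) (nat_lit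 5) (nat_lit 317) (nat_lit 293) (nat_lit 110)) (XT.lf (nat_lit 0) (nat_lit 69252545953) (nat_lit 228) (nat_lit 4181089110) (nat_lit 304) (nat_lit 37999172936) (nat_lit 36) (nat_lit 5) (nat_lit 39) (nat_lit 5) (nat_lit 40) (nat_lit 5) (nat_lit 318) (nat_lit 293) (nat_lit 109))) (XT.nd (nat_lit 78) (nat_lit 0) (nat_lit 0) (XT.lf (nat_lit 0) (nat_lit 3115132027) (nat_lit 228) (nat_lit 85144091348) (nat_lit 304) (nat_lit 26875426391) (nat_lit 33) (nat_lit 5) (nat_lit 36) (nat_lit 5) (nat_lit 37) (nat_lit 5) (nat_lit 319) (nat_lit 293) (nat_lit 108)) (XT.nd (nat_lit 78) (nat_lit 0) (nat_lit 0) (XT.lf (nat_lit 0) (nat_lit 52068338153) (nat_lit 228) (nat_lit 52539096890) (nat_lit 304) (nat_lit 14375082933) (nat_lit 33) (nat_lit 5) (nat_lit 36) (nat_lit 5) (nat_lit 37) (nat_lit 5) (nat_lit 320) (nat_lit 293) (nat_lit 107)) (XT.lf (nat_lit 0) (nat_lit 103468678551) (nat_lit 228) (nat_lit 18303963383)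 (nat_lit 304) (nat_lit 1250159910) (nat_lit 33) (nat_lit 5) (nat_lit 36) (nat_lit 5) (nat_lit 37) (nat_lit 5) (nat_lit 321) (nat_lit 293) (nat_lit 106))))))))
noncomputable def xc242 : XT := (XT.nd (nat_lit 35568) (nat_lit 0) (nat_lit 1976) (XT.nd (nat_lit 624) (nat_lit 532) (nat_lit 0) (XT.nd (nat_lit 312) (nat_lit 152) (nat_lit 0) (XT.nd (nat_lit 156) (nat_lit 228) (nat_lit 0) (XT.nd (nat_lit 78) (nat_lit 0) (nat_lit 0) (XT.lf (nat_lit 0) (nat_lit 12899635296) (nat_lit 304) (nat_lit 96548774192) (nat_lit 76) (nat_lit 17768424722) (nat_lit 29) (nat_lit 5) (nat_lit 33) (nat_lit 5) (nat_lit 30) (nat_lit 5) (nat_lit 322) (nat_lit 293) (nat_lit 105)) (XT.lf (nat_lit 0) (nat_lit 28351165096) (nat_lit 304) (nat_lit 47850297425) (nat_lit 76) (nat_lit 55386269308) (nat_lit 29) (nat_lit 5) (nat_lit 33) (nat_lit 5) (nat_lit 30) (nat_lit 5) (nat_lit 323) (nat_lit 293) (nat_lit 104))) (XT.nd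 (nat_lit 78) (nat_lit 0) (nat_lit 0) (XT.lf (nat_lit 0) (nat_lit 3391139453) (nat_lit 228) (nat_lit 41236701943) (nat_lit 304) (nat_lit 91546705648) (nat_lit 26) (nat_lit 5) (nat_lit 29) (nat_lit 5) (nat_lit 30) (nat_lit 5) (nat_lit 324) (nat_lit 293) (nat_lit 103)) (XT.lf (nat_lit 0) (nat_lit 58855409174) (nat_lit 228) (nat_lit 3672945264) (nat_lit 304) (nat_lit 78421849596) (nat_lit 26) (nat_lit 5) (nat_lit 29) (nat_lit 5) (nat_lit 30) (nat_lit 5) (nat_lit 325) (nat_lit 293) (nat_lit 102)))) (XT.nd (nat_lit 156) (nat_lit 0) (nat_lit 0) (XT.nd (nat_lit 78) (nat_lit 152) (nat_lit 0) (XT.lf (nat_lit 0) (nat_lit 81881997913) (nat_lit 304) (nat_lit 29430692182) (nat_lit 76) (nat_lit 34624049643) (nat_lit 26) (nat_lit 5) (nat_lit 30) (nat_lit 5) (nat_lit 27) (nat_lit 5) (nat_lit 326) (nat_lit 293) (nat_lit 101)) (XT.lf (nat_lit 0) (nat_lit 26659201131) (nat_lit 152) (nat_lit 76020226593)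 (nat_lit 228) (nat_lit 48469370345) (nat_lit 24) (nat_lit 5) (nat_lit 26) (nat_lit 5) (nat_lit 27) (nat_lit 5) (nat_lit 327) (nat_lit 293) (nat_lit 100))) (XT.nd (nat_lit 78) (nat_lit 0) (nat_lit 0) (XT.lf (nat_lit 0) (nat_lit 86574900550) (nat_lit 152) (nat_lit 38439927330) (nat_lit 228) (nat_lit 31581727495) (nat_lit 24) (nat_lit 5) (nat_lit 26) (nat_lit 5) (nat_lit 27) (nat_lit 5) (nat_lit 328) (nat_lit 293) (nat_lit 99)) (XT.lf (nat_lit 0) (nat_lit 148482602852) (nat_lit 228) (nat_lit 12846679562) (nat_lit 76) (nat_lit 986638846) (nat_lit 24) (nat_lit 5) (nat_lit 27) (nat_lit 5) (nat_lit 25) (nat_lit 5) (nat_lit 329) (nat_lit 293) (nat_lit 98))))) (XT.nd (nat_lit 312) (nat_lit 152) (nat_lit 0) (XT.nd (nat_lit 156) (nat_lit 152) (nat_lit 0) (XT.nd (nat_lit 78) (nat_lit 0) (nat_lit 0) (XT.lf (nat_lit 0) (nat_lit 6052213016) (nat_lit 228) (nat_lit 120254012562) (nat_lit 76) (nat_lit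 41941111081) (nat_lit 21) (nat_lit 5) (nat_lit 24) (nat_lit 5) (nat_lit 22) (nat_lit 5) (nat_lit 330) (nat_lit 293) (nat_lit 97)) (XT.lf (nat_lit 0) (nat_lit 26687968253) (nat_lit 228) (nat_lit 62373882057) (nat_lit 76) (nat_lit 85391092683) (nat_lit 21) (nat_lit 5) (nat_lit 24) (nat_lit 5) (nat_lit 22) (nat_lit 5) (nat_lit 331) (nat_lit 293) (nat_lit 96))) (XT.nd (nat_lit 78) (nat_lit 152) (nat_lit 0) (XT.lf (nat_lit 0) (nat_lit 48355231328) (nat_lit 228) (nat_lit 1600155279) (nat_lit 76) (nat_lit 131013457817) (nat_lit 21) (nat_lit 5) (nat_lit 24) (nat_lit 5) (nat_lit 22) (nat_lit 5) (nat_lit 332) (nat_lit 293) (nat_lit 95)) (XT.lf (nat_lit 0) (nat_lit 64268872404) (nat_lit 152) (nat_lit 7840135770) (nat_lit 228) (nat_lit 115651375969) (nat_lit 19) (nat_lit 5) (nat_lit 21) (nat_lit 5) (nat_lit 22) (nat_lit 5) (nat_lit 333) (nat_lit 293) (nat_lit 94)))) (XT.nd (nat_lit 34398) (nat_lit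 0) (nat_lit 3268) (XT.nd (nat_lit 78) (nat_lit 152) (nat_lit 0) (XT.lf (nat_lit 0) (nat_lit 97645763131) (nat_lit 228) (nat_lit 61972088515) (nat_lit 76) (nat_lit 35243885450) (nat_lit 19) (nat_lit 5) (nat_lit 22) (nat_lit 5) (nat_lit 20) (nat_lit 5) (nat_lit 334) (nat_lit 293) (nat_lit 93)) (XT.lf (nat_lit 0) (nat_lit 2576877930) (nat_lit 152) (nat_lit 122050987632) (nat_lit 228) (nat_lit 77681867326) (nat_lit 17) (nat_lit 5) (nat_lit 19) (nat_lit 5) (nat_lit 20) (nat_lit 5) (nat_lit 335) (nat_lit 293) (nat_lit 92))) (XT.nd (nat_lit 78) (nat_lit 0) (nat_lit 0) (XT.lf (nat_lit 0) (nat_lit 2197290317) (nat_lit 0) (nat_lit 2197290317) (nat_lit 684) (nat_lit 24317387854) (nat_lit 60) (nat_lit 5) (nat_lit 60) (nat_lit 3) (nat_lit 69) (nat_lit 3) (nat_lit 294) (nat_lit 294) (nat_lit 132)) (XT.nd (nat_lit 78) (nat_lit 0) (nat_lit 0) (XT.lf (nat_lit 0) (nat_lit 9339165860) (nat_lit 684) (nat_lit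 30131287847) (nat_lit 760) (nat_lit 19372489686) (nat_lit 60) (nat_lit 5) (nat_lit 69) (nat_lit 3) (nat_lit 70) (nat_lit 5) (nat_lit 295) (nat_lit 294) (nat_lit 131)) (XT.lf (nat_lit 0) (nat_lit 9987581437) (nat_lit 684) (nat_lit 6160999389) (nat_lit 760) (nat_lit 44180778773) (nat_lit 60) (nat_lit 5) (nat_lit 69) (nat_lit 3) (nat_lit 70) (nat_lit 5) (nat_lit 296) (nat_lit 294) (nat_lit 130))))))) (XT.nd (nat_lit 624) (nat_lit 1368) (nat_lit 0) (XT.nd (nat_lit 312) (nat_lit 0) (nat_lit 76) (XT.nd (nat_lit 156) (nat_lit 0) (nat_lit 0) (XT.nd (nat_lit 78) (nat_lit 0) (nat_lit 0) (XT.lf (nat_lit 0) (nat_lit 11109141929) (nat_lit 684) (nat_lit 42374404559) (nat_lit 760) (nat_lit 8384518689) (nat_lit 61) (nat_lit 5) (nat_lit 70) (nat_lit 5) (nat_lit 71) (nat_lit 5) (nat_lit 297) (nat_lit 294) (nat_lit 129)) (XT.lf (nat_lit 0) (nat_lit 12656532333) (nat_lit 684) (nat_lit 17100644659) (nat_lit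 760) (nat_lit 33708045990) (nat_lit 61) (nat_lit 5) (nat_lit 70) (nat_lit 5) (nat_lit 71) (nat_lit 5) (nat_lit 298) (nat_lit 294) (nat_lit 128))) (XT.nd (nat_lit 78) (nat_lit 0) (nat_lit 76) (XT.lf (nat_lit 76) (nat_lit 9748173380) (nat_lit 0) (nat_lit 4684335245) (nat_lit 760) (nat_lit 50702173561) (nat_lit 62) (nat_lit 5) (nat_lit 61) (nat_lit 5) (nat_lit 71) (nat_lit 5) (nat_lit 299) (nat_lit 294) (nat_lit 127)) (XT.lf (nat_lit 0) (nat_lit 16928595704) (nat_lit 684) (nat_lit 28683326498) (nat_lit 760) (nat_lit 21244130667) (nat_lit 62) (nat_lit 5) (nat_lit 71) (nat_lit 5) (nat_lit 72) (nat_lit 5) (nat_lit 300) (nat_lit 294) (nat_lit 126)))) (XT.nd (nat_lit 156) (nat_lit 0) (nat_lit 76) (XT.nd (nat_lit 78) (nat_lit 0) (nat_lit 76) (XT.lf (nat_lit 0) (nat_lit 19625386208) (nat_lit 684) (nat_lit 722423516) (nat_lit 760) (nat_lit 48311891334) (nat_lit 62) (nat_lit 5) (nat_lit 71) (nat_lit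 5) (nat_lit 72) (nat_lit 5) (nat_lit 301) (nat_lit 294) (nat_lit 125)) (XT.lf (nat_lit 0) (nat_lit 23022089720) (nat_lit 684) (nat_lit 41051797406) (nat_lit 760) (nat_lit 6451394593) (nat_lit 63) (nat_lit 5) (nat_lit 72) (nat_lit 5) (nat_lit 73) (nat_lit 5) (nat_lit 302) (nat_lit 294) (nat_lit 124))) (XT.nd (nat_lit 78) (nat_lit 0) (nat_lit 0) (XT.lf (nat_lit 0) (nat_lit 26933817853) (nat_lit 684) (nat_lit 11613685716) (nat_lit 760) (nat_lit 33919381930) (nat_lit 63) (nat_lit 5) (nat_lit 72) (nat_lit 5) (nat_lit 73) (nat_lit 5) (nat_lit 303) (nat_lit 294) (nat_lit 123)) (XT.lf (nat_lit 76) (nat_lit 19933712696) (nat_lit 0) (nat_lit 11417863326) (nat_lit 760) (nat_lit 43138474655) (nat_lit 64) (nat_lit 5) (nat_lit 63) (nat_lit 5) (nat_lit 73) (nat_lit 5) (nat_lit 304) (nat_lit 294) (nat_lit 122))))) (XT.nd (nat_lit 312) (nat_lit 912) (nat_lit 0) (XT.nd (nat_lit 156) (nat_lit 0) (nat_lit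 0) (XT.nd (nat_lit 78) (nat_lit 684) (nat_lit 0) (XT.lf (nat_lit 0) (nat_lit 36455865290) (nat_lit 684) (nat_lit 23413220647) (nat_lit 76) (nat_lit 16722009245) (nat_lit 64) (nat_lit 5) (nat_lit 73) (nat_lit 5) (nat_lit 65) (nat_lit 5) (nat_lit 305) (nat_lit 294) (nat_lit 121)) (XT.lf (nat_lit 0) (nat_lit 9400112973) (nat_lit 684) (nat_lit 32748483983) (nat_lit 760) (nat_lit 36631936633) (nat_lit 55) (nat_lit 5) (nat_lit 64) (nat_lit 5) (nat_lit 65) (nat_lit 5) (nat_lit 306) (nat_lit 294) (nat_lit 120))) (XT.nd (nat_lit 78) (nat_lit 0) (nat_lit 0) (XT.lf (nat_lit 0) (nat_lit 44666353676) (nat_lit 684) (nat_lit 3855437828) (nat_lit 760) (nat_lit 32537864027) (nat_lit 55) (nat_lit 5) (nat_lit 64) (nat_lit 5) (nat_lit 65) (nat_lit 5) (nat_lit 307) (nat_lit 294) (nat_lit 119)) (XT.lf (nat_lit 0) (nat_lit 55626454023) (nat_lit 760) (nat_lit 2170910634) (nat_lit 76) (nat_lit 25634731288)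 (nat_lit 55) (nat_lit 5) (nat_lit 65) (nat_lit 5) (nat_lit 56) (nat_lit 5) (nat_lit 308) (nat_lit 294) (nat_lit 118)))) (XT.nd (nat_lit 156) (nat_lit 608) (nat_lit 0) (XT.nd (nat_lit 78) (nat_lit 0) (nat_lit 0) (XT.lf (nat_lit 0) (nat_lit 34813039324) (nat_lit 304) (nat_lit 28879420433) (nat_lit 380) (nat_lit 22200395776) (nat_lit 51) (nat_lit 5) (nat_lit 55) (nat_lit 5) (nat_lit 56) (nat_lit 5) (nat_lit 309) (nat_lit 294) (nat_lit 117)) (XT.lf (nat_lit 0) (nat_lit 72221707860) (nat_lit 380) (nat_lit 14777652632) (nat_lit 76) (nat_lit 1474298032) (nat_lit 51) (nat_lit 5) (nat_lit 56) (nat_lit 5) (nat_lit 52) (nat_lit 5) (nat_lit 310) (nat_lit 294) (nat_lit 116))) (XT.nd (nat_lit 78) (nat_lit 304) (nat_lit 0) (XT.lf (nat_lit 0) (nat_lit 23621640280) (nat_lit 304) (nat_lit 58397437856) (nat_lit 380) (nat_lit 9122342949) (nat_lit 47) (nat_lit 5) (nat_lit 51) (nat_lit 5) (nat_lit 52) (nat_lit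 5) (nat_lit 311) (nat_lit 294) (nat_lit 115)) (XT.nd (nat_lit 78) (nat_lit 304) (nat_lit 0) (XT.lf (nat_lit 0) (nat_lit 64453368288) (nat_lit 304) (nat_lit 28102660286) (nat_lit 380) (nat_lit 1374059913) (nat_lit 47) (nat_lit 5) (nat_lit 51) (nat_lit 5) (nat_lit 52) (nat_lit 5) (nat_lit 312) (nat_lit 294) (nat_lit 114)) (XT.lf (nat_lit 0) (nat_lit 6774162531) (nat_lit 304) (nat_lit 86201944779) (nat_lit 76) (nat_lit 3865358629) (nat_lit 43) (nat_lit 5) (nat_lit 47) (nat_lit 5) (nat_lit 44) (nat_lit 5) (nat_lit 313) (nat_lit 294) (nat_lit 113))))))))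
noncomputable def xc243 : XT := (XT.nd (nat_lit 1326) (nat_lit 380) (nat_lit 0) (XT.nd (nat_lit 624) (nat_lit 684) (nat_lit 0) (XT.nd (nat_lit 312) (nat_lit 456) (nat_lit 0) (XT.nd (nat_lit 156) (nat_lit 304) (nat_lit 0) (XT.nd (nat_lit 78) (nat_lit 0) (nat_lit 0) (XT.lf (nat_lit 0) (nat_lit 16251181159) (nat_lit 304) (nat_lit 46580508061) (nat_lit 76) (nat_lit 37017220623) (nat_lit 43) (nat_lit 5) (nat_lit 47) (nat_lit 5) (nat_lit 44) (nat_lit 5) (nat_lit 314) (nat_lit 294) (nat_lit 112)) (XT.lf (nat_lit 0) (nat_lit 26201552593) (nat_lit 304) (nat_lit 4978558657) (nat_lit 76) (nat_lit 71826641486) (nat_lit 43) (nat_lit 5) (nat_lit 47) (nat_lit 5) (nat_lit 44) (nat_lit 5) (nat_lit 315) (nat_lit 294) (nat_lit 111))) (XT.nd (nat_lit 78) (nat_lit 0) (nat_lit 0) (XT.lf (nat_lit 0) (nat_lit 37315511379) (nat_lit 380) (nat_lit 66350953001) (nat_lit 76) (nat_lit 2622721754) (nat_lit 39) (nat_lit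 5) (nat_lit 44) (nat_lit 5) (nat_lit 40) (nat_lit 5) (nat_lit 316) (nat_lit 294) (nat_lit 110)) (XT.lf (nat_lit 0) (nat_lit 49581552977) (nat_lit 380) (nat_lit 22970895871) (nat_lit 76) (nat_lit 37153474820) (nat_lit 39) (nat_lit 5) (nat_lit 44) (nat_lit 5) (nat_lit 40) (nat_lit 5) (nat_lit 317) (nat_lit 294) (nat_lit 109)))) (XT.nd (nat_lit 156) (nat_lit 228) (nat_lit 0) (XT.nd (nat_lit 78) (nat_lit 0) (nat_lit 0) (XT.lf (nat_lit 0) (nat_lit 23324161371) (nat_lit 228) (nat_lit 39500451767) (nat_lit 304) (nat_lit 50450700747) (nat_lit 36) (nat_lit 5) (nat_lit 39) (nat_lit 5) (nat_lit 40) (nat_lit 5) (nat_lit 318) (nat_lit 294) (nat_lit 108)) (XT.lf (nat_lit 0) (nat_lit 72730955955) (nat_lit 228) (nat_lit 4387467445) (nat_lit 304) (nat_lit 39885321913) (nat_lit 36) (nat_lit 5) (nat_lit 39) (nat_lit 5) (nat_lit 40) (nat_lit 5) (nat_lit 319) (nat_lit 294) (nat_lit 107))) (XT.nd (nat_lit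 78) (nat_lit 0) (nat_lit 0) (XT.lf (nat_lit 0) (nat_lit 3287067411) (nat_lit 228) (nat_lit 89397891981) (nat_lit 304) (nat_lit 28205738636) (nat_lit 33) (nat_lit 5) (nat_lit 36) (nat_lit 5) (nat_lit 37) (nat_lit 5) (nat_lit 320) (nat_lit 294) (nat_lit 106)) (XT.lf (nat_lit 0) (nat_lit 54687163426) (nat_lit 228) (nat_lit 55162809892) (nat_lit 304) (nat_lit 15081018914) (nat_lit 33) (nat_lit 5) (nat_lit 36) (nat_lit 5) (nat_lit 37) (nat_lit 5) (nat_lit 321) (nat_lit 294) (nat_lit 105))))) (XT.nd (nat_lit 312) (nat_lit 152) (nat_lit 0) (XT.nd (nat_lit 156) (nat_lit 228) (nat_lit 0) (XT.nd (nat_lit 78) (nat_lit 304) (nat_lit 0) (XT.lf (nat_lit 0) (nat_lit 108656787112) (nat_lit 228) (nat_lit 19216074084) (nat_lit 304) (nat_lit 1300460128) (nat_lit 33) (nat_lit 5) (nat_lit 36) (nat_lit 5) (nat_lit 37) (nat_lit 5) (nat_lit 322) (nat_lit 294) (nat_lit 104)) (XT.lf (nat_lit 0) (nat_lit 13556156106)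 (nat_lit 304) (nat_lit 101360792828) (nat_lit 76) (nat_lit 18660112615) (nat_lit 29) (nat_lit 5) (nat_lit 33) (nat_lit 5) (nat_lit 30) (nat_lit 5) (nat_lit 323) (nat_lit 294) (nat_lit 103))) (XT.nd (nat_lit 78) (nat_lit 228) (nat_lit 0) (XT.lf (nat_lit 0) (nat_lit 29779712918) (nat_lit 304) (nat_lit 50228126512) (nat_lit 76) (nat_lit 58158693875) (nat_lit 29) (nat_lit 5) (nat_lit 33) (nat_lit 5) (nat_lit 30) (nat_lit 5) (nat_lit 324) (nat_lit 294) (nat_lit 102)) (XT.lf (nat_lit 0) (nat_lit 3575145343) (nat_lit 228) (nat_lit 43294779966) (nat_lit 304) (nat_lit 96112780556) (nat_lit 26) (nat_lit 5) (nat_lit 29) (nat_lit 5) (nat_lit 30) (nat_lit 5) (nat_lit 325) (nat_lit 294) (nat_lit 101)))) (XT.nd (nat_lit 156) (nat_lit 152) (nat_lit 0) (XT.nd (nat_lit 78) (nat_lit 0) (nat_lit 0) (XT.lf (nat_lit 0) (nat_lit 61811940506) (nat_lit 228) (nat_lit 3853014361) (nat_lit 304) (nat_lit 82332217910)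 (nat_lit 26) (nat_lit 5) (nat_lit 29) (nat_lit 5) (nat_lit 30) (nat_lit 5) (nat_lit 326) (nat_lit 294) (nat_lit 100)) (XT.lf (nat_lit 0) (nat_lit 85985848830) (nat_lit 304) (nat_lit 30888658727) (nat_lit 76) (nat_lit 36358550832) (nat_lit 26) (nat_lit 5) (nat_lit 30) (nat_lit 5) (nat_lit 27) (nat_lit 5) (nat_lit 327) (nat_lit 294) (nat_lit 99))) (XT.nd (nat_lit 78) (nat_lit 0) (nat_lit 0) (XT.lf (nat_lit 0) (nat_lit 28005510412) (nat_lit 152) (nat_lit 79817383804) (nat_lit 228) (nat_lit 50882839683) (nat_lit 24) (nat_lit 5) (nat_lit 26) (nat_lit 5) (nat_lit 27) (nat_lit 5) (nat_lit 328) (nat_lit 294) (nat_lit 98)) (XT.nd (nat_lit 78) (nat_lit 0) (nat_lit 0) (XT.lf (nat_lit 0) (nat_lit 90916359124) (nat_lit 152) (nat_lit 40358253108) (nat_lit 228) (nat_lit 33151290842) (nat_lit 24) (nat_lit 5) (nat_lit 26) (nat_lit 5) (nat_lit 27) (nat_lit 5) (nat_lit 329) (nat_lit 294) (nat_lit 97))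 (XT.lf (nat_lit 0) (nat_lit 155915399914) (nat_lit 228) (nat_lit 13476502769) (nat_lit 76) (nat_lit 1039354700) (nat_lit 24) (nat_lit 5) (nat_lit 27) (nat_lit 5) (nat_lit 25) (nat_lit 5) (nat_lit 330) (nat_lit 294) (nat_lit 96))))))) (XT.nd (nat_lit 35100) (nat_lit 0) (nat_lit 2736) (XT.nd (nat_lit 34710) (nat_lit 0) (nat_lit 3116) (XT.nd (nat_lit 156) (nat_lit 152) (nat_lit 0) (XT.nd (nat_lit 78) (nat_lit 0) (nat_lit 0) (XT.lf (nat_lit 0) (nat_lit 6363433035) (nat_lit 228) (nat_lit 126254095421) (nat_lit 76) (nat_lit 44041720446) (nat_lit 21) (nat_lit 5) (nat_lit 24) (nat_lit 5) (nat_lit 22) (nat_lit 5) (nat_lit 331) (nat_lit 294) (nat_lit 95)) (XT.lf (nat_lit 0) (nat_lit 28030566065) (nat_lit 228) (nat_lit 65480559237) (nat_lit 76) (nat_lit 89664031899) (nat_lit 21) (nat_lit 5) (nat_lit 24) (nat_lit 5) (nat_lit 22) (nat_lit 5) (nat_lit 332) (nat_lit 294) (nat_lit 94))) (XT.nd (nat_lit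 78) (nat_lit 152) (nat_lit 0) (XT.lf (nat_lit 0) (nat_lit 50780801846) (nat_lit 228) (nat_lit 1668718354) (nat_lit 76) (nat_lit 137567354119) (nat_lit 21) (nat_lit 5) (nat_lit 24) (nat_lit 5) (nat_lit 22) (nat_lit 5) (nat_lit 333) (nat_lit 294) (nat_lit 93)) (XT.lf (nat_lit 0) (nat_lit 67493576121) (nat_lit 152) (nat_lit 8228495360) (nat_lit 228) (nat_lit 121425930388) (nat_lit 19) (nat_lit 5) (nat_lit 21) (nat_lit 5) (nat_lit 22) (nat_lit 5) (nat_lit 334) (nat_lit 294) (nat_lit 92)))) (XT.nd (nat_lit 156) (nat_lit 0) (nat_lit 0) (XT.nd (nat_lit 78) (nat_lit 0) (nat_lit 0) (XT.lf (nat_lit 0) (nat_lit 2315923777) (nat_lit 0) (nat_lit 2315923777) (nat_lit 684) (nat_lit 25514765454) (nat_lit 60) (nat_lit 5) (nat_lit 60) (nat_lit 3) (nat_lit 69) (nat_lit 3) (nat_lit 295) (nat_lit 295) (nat_lit 130)) (XT.lf (nat_lit 0) (nat_lit 9839268877) (nat_lit 684) (nat_lit 31619071751) (nat_lit 760)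 (nat_lit 20324946013) (nat_lit 60) (nat_lit 5) (nat_lit 69) (nat_lit 3) (nat_lit 70) (nat_lit 5) (nat_lit 296) (nat_lit 295) (nat_lit 129))) (XT.nd (nat_lit 78) (nat_lit 0) (nat_lit 76) (XT.lf (nat_lit 0) (nat_lit 10518526913) (nat_lit 684) (nat_lit 6451163179) (nat_lit 760) (nat_lit 46374419466) (nat_lit 60) (nat_lit 5) (nat_lit 69) (nat_lit 3) (nat_lit 70) (nat_lit 5) (nat_lit 297) (nat_lit 295) (nat_lit 128)) (XT.nd (nat_lit 78) (nat_lit 0) (nat_lit 0) (XT.lf (nat_lit 0) (nat_lit 11694738105) (nat_lit 684) (nat_lit 44473678234) (nat_lit 760) (nat_lit 8791412095) (nat_lit 61) (nat_lit 5) (nat_lit 70) (nat_lit 5) (nat_lit 71) (nat_lit 5) (nat_lit 298) (nat_lit 295) (nat_lit 127)) (XT.lf (nat_lit 0) (nat_lit 13318062834) (nat_lit 684) (nat_lit 17937156365) (nat_lit 760) (nat_lit 35381703025) (nat_lit 61) (nat_lit 5) (nat_lit 70) (nat_lit 5) (nat_lit 71) (nat_lit 5) (nat_lit 299) (nat_lit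 295) (nat_lit 126)))))) (XT.nd (nat_lit 312) (nat_lit 456) (nat_lit 0) (XT.nd (nat_lit 156) (nat_lit 0) (nat_lit 76) (XT.nd (nat_lit 78) (nat_lit 0) (nat_lit 76) (XT.lf (nat_lit 76) (nat_lit 10253803857) (nat_lit 0) (nat_lit 4927951724) (nat_lit 760) (nat_lit 53208158957) (nat_lit 62) (nat_lit 5) (nat_lit 61) (nat_lit 5) (nat_lit 71) (nat_lit 5) (nat_lit 300) (nat_lit 295) (nat_lit 125)) (XT.lf (nat_lit 0) (nat_lit 17801191938) (nat_lit 684) (nat_lit 30098568708) (nat_lit 760) (nat_lit 22297671612) (nat_lit 62) (nat_lit 5) (nat_lit 71) (nat_lit 5) (nat_lit 72) (nat_lit 5) (nat_lit 301) (nat_lit 295) (nat_lit 124))) (XT.nd (nat_lit 78) (nat_lit 0) (nat_lit 76) (XT.lf (nat_lit 0) (nat_lit 20631575945) (nat_lit 684) (nat_lit 740521726) (nat_lit 760) (nat_lit 50719232959) (nat_lit 62) (nat_lit 5) (nat_lit 71) (nat_lit 5) (nat_lit 72) (nat_lit 5) (nat_lit 302) (nat_lit 295) (nat_lit 123))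 (XT.lf (nat_lit 0) (nat_lit 24197106774) (nat_lit 684) (nat_lit 43085252203) (nat_lit 760) (nat_lit 6767886951) (nat_lit 63) (nat_lit 5) (nat_lit 72) (nat_lit 5) (nat_lit 73) (nat_lit 5) (nat_lit 303) (nat_lit 295) (nat_lit 122)))) (XT.nd (nat_lit 156) (nat_lit 608) (nat_lit 0) (XT.nd (nat_lit 78) (nat_lit 0) (nat_lit 0) (XT.lf (nat_lit 0) (nat_lit 28303282620) (nat_lit 684) (nat_lit 12176146123) (nat_lit 760) (nat_lit 35609563053) (nat_lit 63) (nat_lit 5) (nat_lit 72) (nat_lit 5) (nat_lit 73) (nat_lit 5) (nat_lit 304) (nat_lit 295) (nat_lit 121)) (XT.lf (nat_lit 76) (nat_lit 20948328276) (nat_lit 0) (nat_lit 11992795888) (nat_lit 760) (nat_lit 45272236024) (nat_lit 64) (nat_lit 5) (nat_lit 63) (nat_lit 5) (nat_lit 73) (nat_lit 5) (nat_lit 305) (nat_lit 295) (nat_lit 120))) (XT.nd (nat_lit 78) (nat_lit 684) (nat_lit 0) (XT.lf (nat_lit 0) (nat_lit 38299521673) (nat_lit 684) (nat_lit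 24565609266) (nat_lit 76) (nat_lit 17554385793) (nat_lit 64) (nat_lit 5) (nat_lit 73) (nat_lit 5) (nat_lit 65) (nat_lit 5) (nat_lit 306) (nat_lit 295) (nat_lit 119)) (XT.nd (nat_lit 78) (nat_lit 0) (nat_lit 0) (XT.lf (nat_lit 0) (nat_lit 9888096319) (nat_lit 684) (nat_lit 34388080805) (nat_lit 760) (nat_lit 38442289865) (nat_lit 55) (nat_lit 5) (nat_lit 64) (nat_lit 5) (nat_lit 65) (nat_lit 5) (nat_lit 307) (nat_lit 295) (nat_lit 118)) (XT.lf (nat_lit 0) (nat_lit 46916792977) (nat_lit 684) (nat_lit 4050278883) (nat_lit 760) (nat_lit 34144525228) (nat_lit 55) (nat_lit 5) (nat_lit 64) (nat_lit 5) (nat_lit 65) (nat_lit 5) (nat_lit 308) (nat_lit 295) (nat_lit 117))))))))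
noncomputable def xc244 : XT := (XT.nd (nat_lit 1326) (nat_lit 608) (nat_lit 0) (XT.nd (nat_lit 624) (nat_lit 1064) (nat_lit 0) (XT.nd (nat_lit 312) (nat_lit 304) (nat_lit 0) (XT.nd (nat_lit 156) (nat_lit 304) (nat_lit 0) (XT.nd (nat_lit 78) (nat_lit 304) (nat_lit 0) (XT.lf (nat_lit 0) (nat_lit 58426022891) (nat_lit 760) (nat_lit 2262127460) (nat_lit 76) (nat_lit 26914560293) (nat_lit 55) (nat_lit 5) (nat_lit 65) (nat_lit 5) (nat_lit 56) (nat_lit 5) (nat_lit 309) (nat_lit 295) (nat_lit 116)) (XT.lf (nat_lit 0) (nat_lit 36570740501) (nat_lit 304) (nat_lit 30323985731) (nat_lit 380) (nat_lit 23291815816) (nat_lit 51) (nat_lit 5) (nat_lit 55) (nat_lit 5) (nat_lit 56) (nat_lit 5) (nat_lit 310) (nat_lit 295) (nat_lit 115))) (XT.nd (nat_lit 78) (nat_lit 304) (nat_lit 0) (XT.lf (nat_lit 0) (nat_lit 75849587737) (nat_lit 380) (nat_lit 15499378359) (nat_lit 76) (nat_lit 1547465071) (nat_lit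 51) (nat_lit 5) (nat_lit 56) (nat_lit 5) (nat_lit 52) (nat_lit 5) (nat_lit 311) (nat_lit 295) (nat_lit 114)) (XT.lf (nat_lit 0) (nat_lit 24819602475) (nat_lit 304) (nat_lit 61316687862) (nat_lit 380) (nat_lit 9561321689) (nat_lit 47) (nat_lit 5) (nat_lit 51) (nat_lit 5) (nat_lit 52) (nat_lit 5) (nat_lit 312) (nat_lit 295) (nat_lit 113)))) (XT.nd (nat_lit 156) (nat_lit 0) (nat_lit 0) (XT.nd (nat_lit 78) (nat_lit 304) (nat_lit 0) (XT.lf (nat_lit 0) (nat_lit 67692113065) (nat_lit 304) (nat_lit 29507201028) (nat_lit 380) (nat_lit 1426440615) (nat_lit 47) (nat_lit 5) (nat_lit 51) (nat_lit 5) (nat_lit 52) (nat_lit 5) (nat_lit 313) (nat_lit 295) (nat_lit 112)) (XT.lf (nat_lit 0) (nat_lit 7128191051) (nat_lit 304) (nat_lit 90494844755) (nat_lit 76) (nat_lit 4059679362) (nat_lit 43) (nat_lit 5) (nat_lit 47) (nat_lit 5) (nat_lit 44) (nat_lit 5) (nat_lit 314) (nat_lit 295) (nat_lit 111))) (XT.nd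 (nat_lit 78) (nat_lit 0) (nat_lit 0) (XT.lf (nat_lit 0) (nat_lit 17078331068) (nat_lit 304) (nat_lit 48893155119) (nat_lit 76) (nat_lit 38869084322) (nat_lit 43) (nat_lit 5) (nat_lit 47) (nat_lit 5) (nat_lit 44) (nat_lit 5) (nat_lit 315) (nat_lit 295) (nat_lit 110)) (XT.lf (nat_lit 0) (nat_lit 27525526271) (nat_lit 304) (nat_lit 5211888166) (nat_lit 76) (nat_lit 75418928482) (nat_lit 43) (nat_lit 5) (nat_lit 47) (nat_lit 5) (nat_lit 44) (nat_lit 5) (nat_lit 316) (nat_lit 295) (nat_lit 109))))) (XT.nd (nat_lit 312) (nat_lit 532) (nat_lit 0) (XT.nd (nat_lit 156) (nat_lit 228) (nat_lit 0) (XT.nd (nat_lit 78) (nat_lit 0) (nat_lit 0) (XT.lf (nat_lit 0) (nat_lit 39194790128) (nat_lit 380) (nat_lit 69652459214) (nat_lit 76) (nat_lit 2755670795) (nat_lit 39) (nat_lit 5) (nat_lit 44) (nat_lit 5) (nat_lit 40) (nat_lit 5) (nat_lit 317) (nat_lit 295) (nat_lit 108)) (XT.lf (nat_lit 0) (nat_lit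 52073490797) (nat_lit 380) (nat_lit 24104163105) (nat_lit 76) (nat_lit 39012875184) (nat_lit 39) (nat_lit 5) (nat_lit 44) (nat_lit 5) (nat_lit 40) (nat_lit 5) (nat_lit 318) (nat_lit 295) (nat_lit 107))) (XT.nd (nat_lit 78) (nat_lit 0) (nat_lit 0) (XT.lf (nat_lit 0) (nat_lit 24505400587) (nat_lit 228) (nat_lit 41472925669) (nat_lit 304) (nat_lit 52960083718) (nat_lit 36) (nat_lit 5) (nat_lit 39) (nat_lit 5) (nat_lit 40) (nat_lit 5) (nat_lit 319) (nat_lit 295) (nat_lit 106)) (XT.lf (nat_lit 0) (nat_lit 76381819131) (nat_lit 228) (nat_lit 4604413497) (nat_lit 304) (nat_lit 41867062231) (nat_lit 36) (nat_lit 5) (nat_lit 39) (nat_lit 5) (nat_lit 40) (nat_lit 5) (nat_lit 320) (nat_lit 295) (nat_lit 105)))) (XT.nd (nat_lit 156) (nat_lit 304) (nat_lit 0) (XT.nd (nat_lit 78) (nat_lit 0) (nat_lit 0) (XT.lf (nat_lit 0) (nat_lit 3466095415) (nat_lit 228) (nat_lit 93864699112) (nat_lit 304) (nat_lit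 29603817791) (nat_lit 33) (nat_lit 5) (nat_lit 36) (nat_lit 5) (nat_lit 37) (nat_lit 5) (nat_lit 321) (nat_lit 295) (nat_lit 104)) (XT.lf (nat_lit 0) (nat_lit 57435497438) (nat_lit 228) (nat_lit 57918009940) (nat_lit 304) (nat_lit 15823443406) (nat_lit 33) (nat_lit 5) (nat_lit 36) (nat_lit 5) (nat_lit 37) (nat_lit 5) (nat_lit 322) (nat_lit 295) (nat_lit 103))) (XT.nd (nat_lit 78) (nat_lit 304) (nat_lit 0) (XT.lf (nat_lit 0) (nat_lit 114102936793) (nat_lit 228) (nat_lit 20174077363) (nat_lit 304) (nat_lit 1354410321) (nat_lit 33) (nat_lit 5) (nat_lit 36) (nat_lit 5) (nat_lit 37) (nat_lit 5) (nat_lit 323) (nat_lit 295) (nat_lit 102)) (XT.nd (nat_lit 78) (nat_lit 0) (nat_lit 0) (XT.lf (nat_lit 0) (nat_lit 14244430166) (nat_lit 304) (nat_lit 106414846008) (nat_lit 76) (nat_lit 19596081199) (nat_lit 29) (nat_lit 5) (nat_lit 33) (nat_lit 5) (nat_lit 30) (nat_lit 5) (nat_lit 324) (nat_lit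 295) (nat_lit 101)) (XT.lf (nat_lit 0) (nat_lit 31278666425) (nat_lit 304) (nat_lit 52726212399) (nat_lit 76) (nat_lit 61069450430) (nat_lit 29) (nat_lit 5) (nat_lit 33) (nat_lit 5) (nat_lit 30) (nat_lit 5) (nat_lit 325) (nat_lit 295) (nat_lit 100))))))) (XT.nd (nat_lit 35178) (nat_lit 0) (nat_lit 2964) (XT.nd (nat_lit 312) (nat_lit 228) (nat_lit 0) (XT.nd (nat_lit 156) (nat_lit 152) (nat_lit 0) (XT.nd (nat_lit 78) (nat_lit 0) (nat_lit 0) (XT.lf (nat_lit 0) (nat_lit 3767008203) (nat_lit 228) (nat_lit 45456111187) (nat_lit 304) (nat_lit 100908206092) (nat_lit 26) (nat_lit 5) (nat_lit 29) (nat_lit 5) (nat_lit 30) (nat_lit 5) (nat_lit 326) (nat_lit 295) (nat_lit 99)) (XT.lf (nat_lit 0) (nat_lit 64915019049) (nat_lit 228) (nat_lit 4042419577) (nat_lit 304) (nat_lit 86439101670) (nat_lit 26) (nat_lit 5) (nat_lit 29) (nat_lit 5) (nat_lit 30) (nat_lit 5) (nat_lit 327) (nat_lit 295) (nat_lit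 98))) (XT.nd (nat_lit 78) (nat_lit 152) (nat_lit 0) (XT.lf (nat_lit 0) (nat_lit 90293985735) (nat_lit 304) (nat_lit 32420785029) (nat_lit 76) (nat_lit 38179470399) (nat_lit 26) (nat_lit 5) (nat_lit 30) (nat_lit 5) (nat_lit 27) (nat_lit 5) (nat_lit 328) (nat_lit 295) (nat_lit 97)) (XT.lf (nat_lit 0) (nat_lit 29417894072) (nat_lit 152) (nat_lit 83804757195) (nat_lit 228) (nat_lit 53417912116) (nat_lit 24) (nat_lit 5) (nat_lit 26) (nat_lit 5) (nat_lit 27) (nat_lit 5) (nat_lit 329) (nat_lit 295) (nat_lit 96)))) (XT.nd (nat_lit 156) (nat_lit 228) (nat_lit 0) (XT.nd (nat_lit 78) (nat_lit 0) (nat_lit 0) (XT.lf (nat_lit 0) (nat_lit 95473708642) (nat_lit 152) (nat_lit 42372836431) (nat_lit 228) (nat_lit 34800217716) (nat_lit 24) (nat_lit 5) (nat_lit 26) (nat_lit 5) (nat_lit 27) (nat_lit 5) (nat_lit 330) (nat_lit 295) (nat_lit 95)) (XT.lf (nat_lit 0) (nat_lit 163719031062) (nat_lit 228) (nat_lit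 14138980270) (nat_lit 76) (nat_lit 1094391743) (nat_lit 24) (nat_lit 5) (nat_lit 27) (nat_lit 5) (nat_lit 25) (nat_lit 5) (nat_lit 331) (nat_lit 295) (nat_lit 94))) (XT.nd (nat_lit 78) (nat_lit 0) (nat_lit 0) (XT.lf (nat_lit 0) (nat_lit 6689413638) (nat_lit 228) (nat_lit 132555355503) (nat_lit 76) (nat_lit 46247029881) (nat_lit 21) (nat_lit 5) (nat_lit 24) (nat_lit 5) (nat_lit 22) (nat_lit 5) (nat_lit 332) (nat_lit 295) (nat_lit 93)) (XT.lf (nat_lit 0) (nat_lit 29439531464) (nat_lit 228) (nat_lit 68743687495) (nat_lit 76) (nat_lit 94150303410) (nat_lit 21) (nat_lit 5) (nat_lit 24) (nat_lit 5) (nat_lit 22) (nat_lit 5) (nat_lit 333) (nat_lit 295) (nat_lit 92))))) (XT.nd (nat_lit 312) (nat_lit 0) (nat_lit 76) (XT.nd (nat_lit 156) (nat_lit 0) (nat_lit 0) (XT.nd (nat_lit 78) (nat_lit 0) (nat_lit 0) (XT.lf (nat_lit 0) (nat_lit 2439673657) (nat_lit 0) (nat_lit 2439673657) (nat_lit 684) (nat_lit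 26773731126) (nat_lit 60) (nat_lit 5) (nat_lit 60) (nat_lit 3) (nat_lit 69) (nat_lit 3) (nat_lit 296) (nat_lit 296) (nat_lit 128)) (XT.lf (nat_lit 0) (nat_lit 10361295562) (nat_lit 684) (nat_lit 33182990882) (nat_lit 760) (nat_lit 21326528318) (nat_lit 60) (nat_lit 5) (nat_lit 69) (nat_lit 3) (nat_lit 70) (nat_lit 5) (nat_lit 297) (nat_lit 296) (nat_lit 127))) (XT.nd (nat_lit 78) (nat_lit 0) (nat_lit 76) (XT.lf (nat_lit 0) (nat_lit 11073084917) (nat_lit 684) (nat_lit 6757498046) (nat_lit 760) (nat_lit 48679173777) (nat_lit 60) (nat_lit 5) (nat_lit 69) (nat_lit 3) (nat_lit 70) (nat_lit 5) (nat_lit 298) (nat_lit 296) (nat_lit 126)) (XT.lf (nat_lit 0) (nat_lit 12306812043) (nat_lit 684) (nat_lit 46679723548) (nat_lit 760) (nat_lit 9219796733) (nat_lit 61) (nat_lit 5) (nat_lit 70) (nat_lit 5) (nat_lit 71) (nat_lit 5) (nat_lit 299) (nat_lit 296) (nat_lit 125)))) (XT.nd (nat_lit 156) (nat_lit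 0) (nat_lit 76) (XT.nd (nat_lit 78) (nat_lit 0) (nat_lit 0) (XT.lf (nat_lit 0) (nat_lit 14010001246) (nat_lit 684) (nat_lit 18817215519) (nat_lit 760) (nat_lit 37140134874) (nat_lit 61) (nat_lit 5) (nat_lit 70) (nat_lit 5) (nat_lit 71) (nat_lit 5) (nat_lit 300) (nat_lit 296) (nat_lit 124)) (XT.lf (nat_lit 76) (nat_lit 10783021768) (nat_lit 0) (nat_lit 5182875132) (nat_lit 760) (nat_lit 55842151229) (nat_lit 62) (nat_lit 5) (nat_lit 61) (nat_lit 5) (nat_lit 71) (nat_lit 5) (nat_lit 301) (nat_lit 296) (nat_lit 123))) (XT.nd (nat_lit 78) (nat_lit 0) (nat_lit 0) (XT.lf (nat_lit 0) (nat_lit 18714985274) (nat_lit 684) (nat_lit 31586332413) (nat_lit 760) (nat_lit 23404695248) (nat_lit 62) (nat_lit 5) (nat_lit 71) (nat_lit 5) (nat_lit 72) (nat_lit 5) (nat_lit 302) (nat_lit 296) (nat_lit 122)) (XT.nd (nat_lit 78) (nat_lit 0) (nat_lit 76) (XT.lf (nat_lit 0) (nat_lit 21685758304) (nat_lit 684)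 (nat_lit 761200450) (nat_lit 760) (nat_lit 53247708946) (nat_lit 62) (nat_lit 5) (nat_lit 71) (nat_lit 5) (nat_lit 72) (nat_lit 5) (nat_lit 303) (nat_lit 296) (nat_lit 121)) (XT.lf (nat_lit 0) (nat_lit 25428651517) (nat_lit 684) (nat_lit 45222158739) (nat_lit 760) (nat_lit 7100768944) (nat_lit 63) (nat_lit 5) (nat_lit 72) (nat_lit 5) (nat_lit 73) (nat_lit 5) (nat_lit 304) (nat_lit 296) (nat_lit 120))))))))
noncomputable def xc245 : XT := (XT.nd (nat_lit 1326) (nat_lit 912) (nat_lit 0) (XT.nd (nat_lit 624) (nat_lit 1140) (nat_lit 0) (XT.nd (nat_lit 312) (nat_lit 304) (nat_lit 0) (XT.nd (nat_lit 156) (nat_lit 608) (nat_lit 0) (XT.nd (nat_lit 78) (nat_lit 0) (nat_lit 0) (XT.lf (nat_lit 0) (nat_lit 29739103327) (nat_lit 684) (nat_lit 12768423834) (nat_lit 760) (nat_lit 37384791344) (nat_lit 63) (nat_lit 5) (nat_lit 72) (nat_lit 5) (nat_lit 73) (nat_lit 5) (nat_lit 305) (nat_lit 296) (nat_lit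 119)) (XT.lf (nat_lit 76) (nat_lit 22012007679) (nat_lit 0) (nat_lit 12596099533) (nat_lit 760) (nat_lit 47514838879) (nat_lit 64) (nat_lit 5) (nat_lit 63) (nat_lit 5) (nat_lit 73) (nat_lit 5) (nat_lit 306) (nat_lit 296) (nat_lit 118))) (XT.nd (nat_lit 78) (nat_lit 684) (nat_lit 0) (XT.lf (nat_lit 0) (nat_lit 40233421220) (nat_lit 684) (nat_lit 25777316112) (nat_lit 76) (nat_lit 18428727383) (nat_lit 64) (nat_lit 5) (nat_lit 73) (nat_lit 5) (nat_lit 65) (nat_lit 5) (nat_lit 307) (nat_lit 296) (nat_lit 117)) (XT.lf (nat_lit 0) (nat_lit 10398807436) (nat_lit 684) (nat_lit 36109455477) (nat_lit 760) (nat_lit 40345135787) (nat_lit 55) (nat_lit 5) (nat_lit 64) (nat_lit 5) (nat_lit 65) (nat_lit 5) (nat_lit 308) (nat_lit 296) (nat_lit 116)))) (XT.nd (nat_lit 156) (nat_lit 304) (nat_lit 0) (XT.nd (nat_lit 78) (nat_lit 0) (nat_lit 0) (XT.lf (nat_lit 0) (nat_lit 49278162436) (nat_lit 684) (nat_lit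 4254669620) (nat_lit 760) (nat_lit 35833400469) (nat_lit 55) (nat_lit 5) (nat_lit 64) (nat_lit 5) (nat_lit 65) (nat_lit 5) (nat_lit 309) (nat_lit 296) (nat_lit 115)) (XT.lf (nat_lit 0) (nat_lit 61363873846) (nat_lit 760) (nat_lit 2359516185) (nat_lit 76) (nat_lit 28258558095) (nat_lit 55) (nat_lit 5) (nat_lit 65) (nat_lit 5) (nat_lit 56) (nat_lit 5) (nat_lit 310) (nat_lit 296) (nat_lit 114))) (XT.nd (nat_lit 78) (nat_lit 0) (nat_lit 0) (XT.lf (nat_lit 0) (nat_lit 38414741663) (nat_lit 304) (nat_lit 31840724044) (nat_lit 380) (nat_lit 24439536087) (nat_lit 51) (nat_lit 5) (nat_lit 55) (nat_lit 5) (nat_lit 56) (nat_lit 5) (nat_lit 311) (nat_lit 296) (nat_lit 113)) (XT.lf (nat_lit 0) (nat_lit 79657300217) (nat_lit 380) (nat_lit 16258785458) (nat_lit 76) (nat_lit 1624341397) (nat_lit 51) (nat_lit 5) (nat_lit 56) (nat_lit 5) (nat_lit 52) (nat_lit 5) (nat_lit 312) (nat_lit 296) (nat_lit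 112))))) (XT.nd (nat_lit 312) (nat_lit 532) (nat_lit 0) (XT.nd (nat_lit 156) (nat_lit 304) (nat_lit 0) (XT.nd (nat_lit 78) (nat_lit 0) (nat_lit 0) (XT.lf (nat_lit 0) (nat_lit 26075893420) (nat_lit 304) (nat_lit 64381958186) (nat_lit 380) (nat_lit 10023842732) (nat_lit 47) (nat_lit 5) (nat_lit 51) (nat_lit 5) (nat_lit 52) (nat_lit 5) (nat_lit 313) (nat_lit 296) (nat_lit 111)) (XT.lf (nat_lit 0) (nat_lit 71091300453) (nat_lit 304) (nat_lit 30982023870) (nat_lit 380) (nat_lit 1482957845) (nat_lit 47) (nat_lit 5) (nat_lit 51) (nat_lit 5) (nat_lit 52) (nat_lit 5) (nat_lit 314) (nat_lit 296) (nat_lit 110))) (XT.nd (nat_lit 78) (nat_lit 0) (nat_lit 0) (XT.lf (nat_lit 0) (nat_lit 7498496652) (nat_lit 304) (nat_lit 95003988569) (nat_lit 76) (nat_lit 4263618251) (nat_lit 43) (nat_lit 5) (nat_lit 47) (nat_lit 5) (nat_lit 44) (nat_lit 5) (nat_lit 315) (nat_lit 296) (nat_lit 109)) (XT.lf (nat_lit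 0) (nat_lit 17945481953) (nat_lit 304) (nat_lit 51322957233) (nat_lit 76) (nat_lit 40813447987) (nat_lit 43) (nat_lit 5) (nat_lit 47) (nat_lit 5) (nat_lit 44) (nat_lit 5) (nat_lit 316) (nat_lit 296) (nat_lit 108)))) (XT.nd (nat_lit 156) (nat_lit 228) (nat_lit 0) (XT.nd (nat_lit 78) (nat_lit 304) (nat_lit 0) (XT.lf (nat_lit 0) (nat_lit 28914406710) (nat_lit 304) (nat_lit 5458334343) (nat_lit 76) (nat_lit 79190741049) (nat_lit 43) (nat_lit 5) (nat_lit 47) (nat_lit 5) (nat_lit 44) (nat_lit 5) (nat_lit 317) (nat_lit 296) (nat_lit 107)) (XT.lf (nat_lit 0) (nat_lit 41166777417) (nat_lit 380) (nat_lit 73120532118) (nat_lit 76) (nat_lit 2895098737) (nat_lit 39) (nat_lit 5) (nat_lit 44) (nat_lit 5) (nat_lit 40) (nat_lit 5) (nat_lit 318) (nat_lit 296) (nat_lit 106))) (XT.nd (nat_lit 78) (nat_lit 228) (nat_lit 0) (XT.lf (nat_lit 0) (nat_lit 54688829892) (nat_lit 380) (nat_lit 25295514063) (nat_lit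 76) (nat_lit 40965085041) (nat_lit 39) (nat_lit 5) (nat_lit 44) (nat_lit 5) (nat_lit 40) (nat_lit 5) (nat_lit 319) (nat_lit 296) (nat_lit 105)) (XT.nd (nat_lit 78) (nat_lit 0) (nat_lit 0) (XT.lf (nat_lit 0) (nat_lit 25744304310) (nat_lit 228) (nat_lit 43544260219) (nat_lit 304) (nat_lit 55596158592) (nat_lit 36) (nat_lit 5) (nat_lit 39) (nat_lit 5) (nat_lit 40) (nat_lit 5) (nat_lit 320) (nat_lit 296) (nat_lit 104)) (XT.lf (nat_lit 0) (nat_lit 80213894558) (nat_lit 228) (nat_lit 4832432520) (nat_lit 304) (nat_lit 43949054093) (nat_lit 36) (nat_lit 5) (nat_lit 39) (nat_lit 5) (nat_lit 40) (nat_lit 5) (nat_lit 321) (nat_lit 296) (nat_lit 103))))))) (XT.nd (nat_lit 702) (nat_lit 0) (nat_lit 0) (XT.nd (nat_lit 312) (nat_lit 380) (nat_lit 0) (XT.nd (nat_lit 156) (nat_lit 304) (nat_lit 0) (XT.nd (nat_lit 78) (nat_lit 0) (nat_lit 0) (XT.lf (nat_lit 0) (nat_lit 3652710511) (nat_lit 228) (nat_lit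 98555133642) (nat_lit 304) (nat_lit 31072935867) (nat_lit 33) (nat_lit 5) (nat_lit 36) (nat_lit 5) (nat_lit 37) (nat_lit 5) (nat_lit 322) (nat_lit 296) (nat_lit 102)) (XT.lf (nat_lit 0) (nat_lit 60319948810) (nat_lit 228) (nat_lit 60811243366) (nat_lit 304) (nat_lit 16604070039) (nat_lit 33) (nat_lit 5) (nat_lit 36) (nat_lit 5) (nat_lit 37) (nat_lit 5) (nat_lit 323) (nat_lit 296) (nat_lit 101))) (XT.nd (nat_lit 78) (nat_lit 304) (nat_lit 0) (XT.lf (nat_lit 0) (nat_lit 119820156489) (nat_lit 228) (nat_lit 21180241163) (nat_lit 304) (nat_lit 1412087469) (nat_lit 33) (nat_lit 5) (nat_lit 36) (nat_lit 5) (nat_lit 37) (nat_lit 5) (nat_lit 324) (nat_lit 296) (nat_lit 100)) (XT.lf (nat_lit 0) (nat_lit 14966144875) (nat_lit 304) (nat_lit 111722902176) (nat_lit 76) (nat_lit 20578572746) (nat_lit 29) (nat_lit 5) (nat_lit 33) (nat_lit 5) (nat_lit 30) (nat_lit 5) (nat_lit 325) (nat_lit 296) (nat_lit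 99)))) (XT.nd (nat_lit 156) (nat_lit 152) (nat_lit 0) (XT.nd (nat_lit 78) (nat_lit 228) (nat_lit 0) (XT.lf (nat_lit 0) (nat_lit 32851640890) (nat_lit 304) (nat_lit 55350440988) (nat_lit 76) (nat_lit 64125482462) (nat_lit 29) (nat_lit 5) (nat_lit 33) (nat_lit 5) (nat_lit 30) (nat_lit 5) (nat_lit 326) (nat_lit 296) (nat_lit 98)) (XT.lf (nat_lit 0) (nat_lit 3967245773) (nat_lit 228) (nat_lit 47725825793) (nat_lit 304) (nat_lit 105944352459) (nat_lit 26) (nat_lit 5) (nat_lit 29) (nat_lit 5) (nat_lit 30) (nat_lit 5) (nat_lit 327) (nat_lit 296) (nat_lit 97))) (XT.nd (nat_lit 78) (nat_lit 152) (nat_lit 0) (XT.lf (nat_lit 0) (nat_lit 68172091106) (nat_lit 228) (nat_lit 4241596790) (nat_lit 304) (nat_lit 90752233956) (nat_lit 26) (nat_lit 5) (nat_lit 29) (nat_lit 5) (nat_lit 30) (nat_lit 5) (nat_lit 328) (nat_lit 296) (nat_lit 96)) (XT.nd (nat_lit 78) (nat_lit 152) (nat_lit 0) (XT.lf (nat_lit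 0) (nat_lit 94816707211) (nat_lit 304) (nat_lit 34030661801) (nat_lit 76) (nat_lit 40091157773) (nat_lit 26) (nat_lit 5) (nat_lit 30) (nat_lit 5) (nat_lit 27) (nat_lit 5) (nat_lit 329) (nat_lit 296) (nat_lit 95)) (XT.lf (nat_lit 0) (nat_lit 30899771216) (nat_lit 152) (nat_lit 87991824262) (nat_lit 228) (nat_lit 56080581372) (nat_lit 24) (nat_lit 5) (nat_lit 26) (nat_lit 5) (nat_lit 27) (nat_lit 5) (nat_lit 330) (nat_lit 296) (nat_lit 94)))))) (XT.nd (nat_lit 35022) (nat_lit 0) (nat_lit 2736) (XT.nd (nat_lit 34866) (nat_lit 0) (nat_lit 2736) (XT.nd (nat_lit 78) (nat_lit 0) (nat_lit 0) (XT.lf (nat_lit 0) (nat_lit 100257853541) (nat_lit 152) (nat_lit 44488458450) (nat_lit 228) (nat_lit 36532393983) (nat_lit 24) (nat_lit 5) (nat_lit 26) (nat_lit 5) (nat_lit 27) (nat_lit 5) (nat_lit 331) (nat_lit 296) (nat_lit 93)) (XT.lf (nat_lit 0) (nat_lit 171912112912) (nat_lit 228) (nat_lit 14835636642)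 (nat_lit 76) (nat_lit 1151895282) (nat_lit 24) (nat_lit 5) (nat_lit 27) (nat_lit 5) (nat_lit 25) (nat_lit 5) (nat_lit 332) (nat_lit 296) (nat_lit 92))) (XT.nd (nat_lit 78) (nat_lit 0) (nat_lit 0) (XT.lf (nat_lit 0) (nat_lit 2568871571) (nat_lit 0) (nat_lit 2568871571) (nat_lit 684) (nat_lit 28097204439) (nat_lit 60) (nat_lit 5) (nat_lit 60) (nat_lit 3) (nat_lit 69) (nat_lit 3) (nat_lit 297) (nat_lit 297) (nat_lit 126)) (XT.lf (nat_lit 0) (nat_lit 10906628586) (nat_lit 684) (nat_lit 34826689672) (nat_lit 760) (nat_lit 22379553150) (nat_lit 60) (nat_lit 5) (nat_lit 69) (nat_lit 3) (nat_lit 70) (nat_lit 5) (nat_lit 298) (nat_lit 297) (nat_lit 125)))) (XT.nd (nat_lit 156) (nat_lit 0) (nat_lit 76) (XT.nd (nat_lit 78) (nat_lit 0) (nat_lit 76) (XT.lf (nat_lit 0) (nat_lit 11652708921) (nat_lit 684) (nat_lit 7080657944) (nat_lit 760) (nat_lit 51100464291) (nat_lit 60) (nat_lit 5) (nat_lit 69)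 (nat_lit 3) (nat_lit 70) (nat_lit 5) (nat_lit 299) (nat_lit 297) (nat_lit 124)) (XT.lf (nat_lit 0) (nat_lit 12946948140) (nat_lit 684) (nat_lit 48997710998) (nat_lit 760) (nat_lit 9670640568) (nat_lit 61) (nat_lit 5) (nat_lit 70) (nat_lit 5) (nat_lit 71) (nat_lit 5) (nat_lit 300) (nat_lit 297) (nat_lit 123))) (XT.nd (nat_lit 78) (nat_lit 0) (nat_lit 0) (XT.lf (nat_lit 0) (nat_lit 14734116065) (nat_lit 684) (nat_lit 19742839412) (nat_lit 760) (nat_lit 38987478759) (nat_lit 61) (nat_lit 5) (nat_lit 70) (nat_lit 5) (nat_lit 71) (nat_lit 5) (nat_lit 301) (nat_lit 297) (nat_lit 122)) (XT.nd (nat_lit 78) (nat_lit 0) (nat_lit 76) (XT.lf (nat_lit 76) (nat_lit 11337163984) (nat_lit 0) (nat_lit 5449752059) (nat_lit 760) (nat_lit 58610298994) (nat_lit 62) (nat_lit 5) (nat_lit 61) (nat_lit 5) (nat_lit 71) (nat_lit 5) (nat_lit 302) (nat_lit 297) (nat_lit 121)) (XT.lf (nat_lit 0) (nat_lit 19672261740)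 (nat_lit 684) (nat_lit 33150080118) (nat_lit 760) (nat_lit 24567800810) (nat_lit 62) (nat_lit 5) (nat_lit 71) (nat_lit 5) (nat_lit 72) (nat_lit 5) (nat_lit 303) (nat_lit 297) (nat_lit 120))))))))
noncomputable def xc246 : XT := (XT.nd (nat_lit 1326) (nat_lit 1140) (nat_lit 0) (XT.nd (nat_lit 624) (nat_lit 1216) (nat_lit 0) (XT.nd (nat_lit 312) (nat_lit 532) (nat_lit 0) (XT.nd (nat_lit 156) (nat_lit 0) (nat_lit 76) (XT.nd (nat_lit 78) (nat_lit 0) (nat_lit 76) (XT.lf (nat_lit 0) (nat_lit 22790548316) (nat_lit 684) (nat_lit 784432933) (nat_lit 760) (nat_lit 55903304678) (nat_lit 62) (nat_lit 5) (nat_lit 71) (nat_lit 5) (nat_lit 72) (nat_lit 5) (nat_lit 304) (nat_lit 297) (nat_lit 119)) (XT.lf (nat_lit 0) (nat_lit 26719757022) (nat_lit 684) (nat_lit 47467524204) (nat_lit 760) (nat_lit 7450807522) (nat_lit 63) (nat_lit 5) (nat_lit 72) (nat_lit 5) (nat_lit 73) (nat_lit 5) (nat_lit 305) (nat_lit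 297) (nat_lit 118))) (XT.nd (nat_lit 78) (nat_lit 0) (nat_lit 0) (XT.lf (nat_lit 0) (nat_lit 31244794616) (nat_lit 684) (nat_lit 13391852196) (nat_lit 760) (nat_lit 39249269132) (nat_lit 63) (nat_lit 5) (nat_lit 72) (nat_lit 5) (nat_lit 73) (nat_lit 5) (nat_lit 306) (nat_lit 297) (nat_lit 117)) (XT.lf (nat_lit 76) (nat_lit 23127359073) (nat_lit 0) (nat_lit 13229227731) (nat_lit 760) (nat_lit 49871525089) (nat_lit 64) (nat_lit 5) (nat_lit 63) (nat_lit 5) (nat_lit 73) (nat_lit 5) (nat_lit 307) (nat_lit 297) (nat_lit 116)))) (XT.nd (nat_lit 156) (nat_lit 0) (nat_lit 0) (XT.nd (nat_lit 78) (nat_lit 684) (nat_lit 0) (XT.lf (nat_lit 0) (nat_lit 42262256420) (nat_lit 684) (nat_lit 27051149158) (nat_lit 76) (nat_lit 19347100079) (nat_lit 64) (nat_lit 5) (nat_lit 73) (nat_lit 5) (nat_lit 65) (nat_lit 5) (nat_lit 308) (nat_lit 297) (nat_lit 115)) (XT.lf (nat_lit 0) (nat_lit 10933538104) (nat_lit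 684) (nat_lit 37916715672) (nat_lit 760) (nat_lit 42344915415) (nat_lit 55) (nat_lit 5) (nat_lit 64) (nat_lit 5) (nat_lit 65) (nat_lit 5) (nat_lit 309) (nat_lit 297) (nat_lit 114))) (XT.nd (nat_lit 78) (nat_lit 0) (nat_lit 0) (XT.lf (nat_lit 0) (nat_lit 51756156554) (nat_lit 684) (nat_lit 4469105407) (nat_lit 760) (nat_lit 37608425577) (nat_lit 55) (nat_lit 5) (nat_lit 64) (nat_lit 5) (nat_lit 65) (nat_lit 5) (nat_lit 310) (nat_lit 297) (nat_lit 113)) (XT.lf (nat_lit 0) (nat_lit 64447078705) (nat_lit 760) (nat_lit 2463235625) (nat_lit 76) (nat_lit 29669916646) (nat_lit 55) (nat_lit 5) (nat_lit 65) (nat_lit 5) (nat_lit 56) (nat_lit 5) (nat_lit 311) (nat_lit 297) (nat_lit 112))))) (XT.nd (nat_lit 312) (nat_lit 608) (nat_lit 0) (XT.nd (nat_lit 156) (nat_lit 304) (nat_lit 0) (XT.nd (nat_lit 78) (nat_lit 0) (nat_lit 0) (XT.lf (nat_lit 0) (nat_lit 40349505174) (nat_lit 304) (nat_lit 33433249159)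 (nat_lit 380) (nat_lit 25646210832) (nat_lit 51) (nat_lit 5) (nat_lit 55) (nat_lit 5) (nat_lit 56) (nat_lit 5) (nat_lit 312) (nat_lit 297) (nat_lit 111)) (XT.lf (nat_lit 0) (nat_lit 83653982092) (nat_lit 380) (nat_lit 17057609703) (nat_lit 76) (nat_lit 1705107739) (nat_lit 51) (nat_lit 5) (nat_lit 56) (nat_lit 5) (nat_lit 52) (nat_lit 5) (nat_lit 313) (nat_lit 297) (nat_lit 110))) (XT.nd (nat_lit 78) (nat_lit 0) (nat_lit 0) (XT.lf (nat_lit 0) (nat_lit 27393575458) (nat_lit 304) (nat_lit 67600544468) (nat_lit 380) (nat_lit 10510935058) (nat_lit 47) (nat_lit 5) (nat_lit 51) (nat_lit 5) (nat_lit 52) (nat_lit 5) (nat_lit 314) (nat_lit 297) (nat_lit 109)) (XT.lf (nat_lit 0) (nat_lit 74659091539) (nat_lit 304) (nat_lit 32530637799) (nat_lit 380) (nat_lit 1543677346) (nat_lit 47) (nat_lit 5) (nat_lit 51) (nat_lit 5) (nat_lit 52) (nat_lit 5) (nat_lit 315) (nat_lit 297) (nat_lit 108)))) (XT.nd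 (nat_lit 156) (nat_lit 304) (nat_lit 0) (XT.nd (nat_lit 78) (nat_lit 0) (nat_lit 0) (XT.lf (nat_lit 0) (nat_lit 7886025610) (nat_lit 304) (nat_lit 99740039766) (nat_lit 76) (nat_lit 4477665306) (nat_lit 43) (nat_lit 5) (nat_lit 47) (nat_lit 5) (nat_lit 44) (nat_lit 5) (nat_lit 316) (nat_lit 297) (nat_lit 107)) (XT.lf (nat_lit 0) (nat_lit 18854759980) (nat_lit 304) (nat_lit 53875630589) (nat_lit 76) (nat_lit 42854945284) (nat_lit 43) (nat_lit 5) (nat_lit 47) (nat_lit 5) (nat_lit 44) (nat_lit 5) (nat_lit 317) (nat_lit 297) (nat_lit 106))) (XT.nd (nat_lit 78) (nat_lit 304) (nat_lit 0) (XT.lf (nat_lit 0) (nat_lit 30371559359) (nat_lit 304) (nat_lit 5718418198) (nat_lit 76) (nat_lit 83151063718) (nat_lit 43) (nat_lit 5) (nat_lit 47) (nat_lit 5) (nat_lit 44) (nat_lit 5) (nat_lit 318) (nat_lit 297) (nat_lit 105)) (XT.nd (nat_lit 78) (nat_lit 0) (nat_lit 0) (XT.lf (nat_lit 0) (nat_lit 43236225387)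 (nat_lit 380) (nat_lit 76763361393) (nat_lit 76) (nat_lit 3041345196) (nat_lit 39) (nat_lit 5) (nat_lit 44) (nat_lit 5) (nat_lit 40) (nat_lit 5) (nat_lit 319) (nat_lit 297) (nat_lit 104)) (XT.lf (nat_lit 0) (nat_lit 57433851481) (nat_lit 380) (nat_lit 26547720881) (nat_lit 76) (nat_lit 43014759790) (nat_lit 39) (nat_lit 5) (nat_lit 44) (nat_lit 5) (nat_lit 40) (nat_lit 5) (nat_lit 320) (nat_lit 297) (nat_lit 103))))))) (XT.nd (nat_lit 624) (nat_lit 152) (nat_lit 0) (XT.nd (nat_lit 312) (nat_lit 532) (nat_lit 0) (XT.nd (nat_lit 156) (nat_lit 228) (nat_lit 0) (XT.nd (nat_lit 78) (nat_lit 0) (nat_lit 0) (XT.lf (nat_lit 0) (nat_lit 27043885688) (nat_lit 228) (nat_lit 45719376419) (nat_lit 304) (nat_lit 58365146284) (nat_lit 36) (nat_lit 5) (nat_lit 39) (nat_lit 5) (nat_lit 40) (nat_lit 5) (nat_lit 321) (nat_lit 297) (nat_lit 102)) (XT.lf (nat_lit 0) (nat_lit 84236366583) (nat_lit 228)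 (nat_lit 5072057183) (nat_lit 304) (nat_lit 46136201809) (nat_lit 36) (nat_lit 5) (nat_lit 39) (nat_lit 5) (nat_lit 40) (nat_lit 5) (nat_lit 322) (nat_lit 297) (nat_lit 101))) (XT.nd (nat_lit 78) (nat_lit 0) (nat_lit 0) (XT.lf (nat_lit 0) (nat_lit 3847418893) (nat_lit 228) (nat_lit 103480350256) (nat_lit 304) (nat_lit 32616539292) (nat_lit 33) (nat_lit 5) (nat_lit 36) (nat_lit 5) (nat_lit 37) (nat_lit 5) (nat_lit 323) (nat_lit 297) (nat_lit 100)) (XT.lf (nat_lit 0) (nat_lit 63347444210) (nat_lit 228) (nat_lit 63849386422) (nat_lit 304) (nat_lit 17424708428) (nat_lit 33) (nat_lit 5) (nat_lit 36) (nat_lit 5) (nat_lit 37) (nat_lit 5) (nat_lit 324) (nat_lit 297) (nat_lit 99)))) (XT.nd (nat_lit 156) (nat_lit 228) (nat_lit 0) (XT.nd (nat_lit 78) (nat_lit 304) (nat_lit 0) (XT.lf (nat_lit 0) (nat_lit 125822114751) (nat_lit 228) (nat_lit 22236949304) (nat_lit 304) (nat_lit 1473582211) (nat_lit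 33) (nat_lit 5) (nat_lit 36) (nat_lit 5) (nat_lit 37) (nat_lit 5) (nat_lit 325) (nat_lit 297) (nat_lit 98)) (XT.lf (nat_lit 0) (nat_lit 15723062733) (nat_lit 304) (nat_lit 117297540589) (nat_lit 76) (nat_lit 21609939013) (nat_lit 29) (nat_lit 5) (nat_lit 33) (nat_lit 5) (nat_lit 30) (nat_lit 5) (nat_lit 326) (nat_lit 297) (nat_lit 97))) (XT.nd (nat_lit 78) (nat_lit 228) (nat_lit 0) (XT.lf (nat_lit 0) (nat_lit 34502423519) (nat_lit 304) (nat_lit 58107004279) (nat_lit 76) (nat_lit 67334078138) (nat_lit 29) (nat_lit 5) (nat_lit 33) (nat_lit 5) (nat_lit 30) (nat_lit 5) (nat_lit 327) (nat_lit 297) (nat_lit 96)) (XT.lf (nat_lit 0) (nat_lit 4176390066) (nat_lit 228) (nat_lit 50109313495) (nat_lit 304) (nat_lit 111233167417) (nat_lit 26) (nat_lit 5) (nat_lit 29) (nat_lit 5) (nat_lit 30) (nat_lit 5) (nat_lit 328) (nat_lit 297) (nat_lit 95))))) (XT.nd (nat_lit 35100) (nat_lit 0) (nat_lit 2736)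 (XT.nd (nat_lit 156) (nat_lit 152) (nat_lit 0) (XT.nd (nat_lit 78) (nat_lit 0) (nat_lit 0) (XT.lf (nat_lit 0) (nat_lit 71590964236) (nat_lit 228) (nat_lit 4451006547) (nat_lit 304) (nat_lit 95281843115) (nat_lit 26) (nat_lit 5) (nat_lit 29) (nat_lit 5) (nat_lit 30) (nat_lit 5) (nat_lit 329) (nat_lit 297) (nat_lit 94)) (XT.lf (nat_lit 0) (nat_lit 99564818934) (nat_lit 304) (nat_lit 35722070193) (nat_lit 76) (nat_lit 42098177208) (nat_lit 26) (nat_lit 5) (nat_lit 30) (nat_lit 5) (nat_lit 27) (nat_lit 5) (nat_lit 330) (nat_lit 297) (nat_lit 93))) (XT.nd (nat_lit 78) (nat_lit 0) (nat_lit 0) (XT.lf (nat_lit 0) (nat_lit 32454721173) (nat_lit 152) (nat_lit 92388539473) (nat_lit 228) (nat_lit 58877148899) (nat_lit 24) (nat_lit 5) (nat_lit 26) (nat_lit 5) (nat_lit 27) (nat_lit 5) (nat_lit 331) (nat_lit 297) (nat_lit 92)) (XT.lf (nat_lit 0) (nat_lit 105280233262) (nat_lit 152) (nat_lit 46710142322)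 (nat_lit 228) (nat_lit 38351907452) (nat_lit 24) (nat_lit 5) (nat_lit 26) (nat_lit 5) (nat_lit 27) (nat_lit 5) (nat_lit 332) (nat_lit 297) (nat_lit 91)))) (XT.nd (nat_lit 156) (nat_lit 0) (nat_lit 0) (XT.nd (nat_lit 78) (nat_lit 0) (nat_lit 0) (XT.lf (nat_lit 0) (nat_lit 2703858671) (nat_lit 0) (nat_lit 2703858671) (nat_lit 684) (nat_lit 29488265800) (nat_lit 60) (nat_lit 5) (nat_lit 60) (nat_lit 3) (nat_lit 69) (nat_lit 3) (nat_lit 298) (nat_lit 298) (nat_lit 124)) (XT.lf (nat_lit 0) (nat_lit 11476693118) (nat_lit 684) (nat_lit 36554009865) (nat_lit 760) (nat_lit 23486465879) (nat_lit 60) (nat_lit 5) (nat_lit 69) (nat_lit 3) (nat_lit 70) (nat_lit 5) (nat_lit 299) (nat_lit 298) (nat_lit 123))) (XT.nd (nat_lit 78) (nat_lit 0) (nat_lit 76) (XT.lf (nat_lit 0) (nat_lit 12258899703) (nat_lit 684) (nat_lit 7421343898) (nat_lit 760) (nat_lit 53643997097) (nat_lit 60) (nat_lit 5) (nat_lit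 69) (nat_lit 3) (nat_lit 70) (nat_lit 5) (nat_lit 300) (nat_lit 298) (nat_lit 122)) (XT.nd (nat_lit 78) (nat_lit 0) (nat_lit 0) (XT.lf (nat_lit 0) (nat_lit 13616785791) (nat_lit 684) (nat_lit 51433085231) (nat_lit 760) (nat_lit 10144969873) (nat_lit 61) (nat_lit 5) (nat_lit 70) (nat_lit 5) (nat_lit 71) (nat_lit 5) (nat_lit 301) (nat_lit 298) (nat_lit 121)) (XT.lf (nat_lit 0) (nat_lit 15492241149) (nat_lit 684) (nat_lit 20716161080) (nat_lit 760) (nat_lit 40928088199) (nat_lit 61) (nat_lit 5) (nat_lit 70) (nat_lit 5) (nat_lit 71) (nat_lit 5) (nat_lit 302) (nat_lit 298) (nat_lit 120))))))))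
noncomputable def xc247 : XT := (XT.nd (nat_lit 1326) (nat_lit 1292) (nat_lit 0) (XT.nd (nat_lit 624) (nat_lit 912) (nat_lit 0) (XT.nd (nat_lit 312) (nat_lit 456) (nat_lit 0) (XT.nd (nat_lit 156) (nat_lit 0) (nat_lit 76) (XT.nd (nat_lit 78) (nat_lit 0) (nat_lit 76) (XT.lf (nat_lit 76) (nat_lit 11917619577) (nat_lit 0) (nat_lit 5729253876) (nat_lit 760) (nat_lit 61519081702) (nat_lit 62) (nat_lit 5) (nat_lit 61) (nat_lit 5) (nat_lit 71) (nat_lit 5) (nat_lit 303) (nat_lit 298) (nat_lit 119)) (XT.lf (nat_lit 0) (nat_lit 20675400633) (nat_lit 684) (nat_lit 34793462658) (nat_lit 760) (nat_lit 25789724455) (nat_lit 62) (nat_lit 5) (nat_lit 71) (nat_lit 5) (nat_lit 72) (nat_lit 5) (nat_lit 304) (nat_lit 298) (nat_lit 118))) (XT.nd (nat_lit 78) (nat_lit 0) (nat_lit 76) (XT.lf (nat_lit 0) (nat_lit 23948671738) (nat_lit 684) (nat_lit 810205565) (nat_lit 760) (nat_lit 58692311440) (nat_lit 62)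 (nat_lit 5) (nat_lit 71) (nat_lit 5) (nat_lit 72) (nat_lit 5) (nat_lit 305) (nat_lit 298) (nat_lit 117)) (XT.lf (nat_lit 0) (nat_lit 28073588799) (nat_lit 684) (nat_lit 49826621528) (nat_lit 760) (nat_lit 7818812870) (nat_lit 63) (nat_lit 5) (nat_lit 72) (nat_lit 5) (nat_lit 73) (nat_lit 5) (nat_lit 306) (nat_lit 298) (nat_lit 116)))) (XT.nd (nat_lit 156) (nat_lit 608) (nat_lit 0) (XT.nd (nat_lit 78) (nat_lit 0) (nat_lit 0) (XT.lf (nat_lit 0) (nat_lit 32824028563) (nat_lit 684) (nat_lit 14047845867) (nat_lit 760) (nat_lit 41207413514) (nat_lit 63) (nat_lit 5) (nat_lit 72) (nat_lit 5) (nat_lit 73) (nat_lit 5) (nat_lit 307) (nat_lit 298) (nat_lit 115)) (XT.lf (nat_lit 76) (nat_lit 24297106628) (nat_lit 0) (nat_lit 13893703376) (nat_lit 760) (nat_lit 52347817231) (nat_lit 64) (nat_lit 5) (nat_lit 63) (nat_lit 5) (nat_lit 73) (nat_lit 5) (nat_lit 308) (nat_lit 298) (nat_lit 114))) (XT.nd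 (nat_lit 78) (nat_lit 684) (nat_lit 0) (XT.lf (nat_lit 0) (nat_lit 44390937622) (nat_lit 684) (nat_lit 28390071459) (nat_lit 76) (nat_lit 20311676241) (nat_lit 64) (nat_lit 5) (nat_lit 73) (nat_lit 5) (nat_lit 65) (nat_lit 5) (nat_lit 309) (nat_lit 298) (nat_lit 113)) (XT.lf (nat_lit 0) (nat_lit 11493630243) (nat_lit 684) (nat_lit 39814172700) (nat_lit 760) (nat_lit 44446308884) (nat_lit 55) (nat_lit 5) (nat_lit 64) (nat_lit 5) (nat_lit 65) (nat_lit 5) (nat_lit 310) (nat_lit 298) (nat_lit 112))))) (XT.nd (nat_lit 312) (nat_lit 608) (nat_lit 0) (XT.nd (nat_lit 156) (nat_lit 304) (nat_lit 0) (XT.nd (nat_lit 78) (nat_lit 0) (nat_lit 0) (XT.lf (nat_lit 0) (nat_lit 54356740796) (nat_lit 684) (nat_lit 4694104719) (nat_lit 760) (nat_lit 39473749426) (nat_lit 55) (nat_lit 5) (nat_lit 64) (nat_lit 5) (nat_lit 65) (nat_lit 5) (nat_lit 311) (nat_lit 298) (nat_lit 111)) (XT.lf (nat_lit 0) (nat_lit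 67683048210) (nat_lit 760) (nat_lit 2573466459) (nat_lit 76) (nat_lit 31151989028) (nat_lit 55) (nat_lit 5) (nat_lit 65) (nat_lit 5) (nat_lit 56) (nat_lit 5) (nat_lit 312) (nat_lit 298) (nat_lit 110))) (XT.nd (nat_lit 78) (nat_lit 0) (nat_lit 0) (XT.lf (nat_lit 0) (nat_lit 42379702816) (nat_lit 304) (nat_lit 35105355075) (nat_lit 380) (nat_lit 26914641955) (nat_lit 51) (nat_lit 5) (nat_lit 55) (nat_lit 5) (nat_lit 56) (nat_lit 5) (nat_lit 313) (nat_lit 298) (nat_lit 109)) (XT.lf (nat_lit 0) (nat_lit 87849213500) (nat_lit 380) (nat_lit 17897687442) (nat_lit 76) (nat_lit 1789954302) (nat_lit 51) (nat_lit 5) (nat_lit 56) (nat_lit 5) (nat_lit 52) (nat_lit 5) (nat_lit 314) (nat_lit 298) (nat_lit 108)))) (XT.nd (nat_lit 156) (nat_lit 304) (nat_lit 0) (XT.nd (nat_lit 78) (nat_lit 0) (nat_lit 0) (XT.lf (nat_lit 0) (nat_lit 28775850482) (nat_lit 304) (nat_lit 70980107630) (nat_lit 380) (nat_lit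 11023692867) (nat_lit 47) (nat_lit 5) (nat_lit 51) (nat_lit 5) (nat_lit 52) (nat_lit 5) (nat_lit 315) (nat_lit 298) (nat_lit 107)) (XT.lf (nat_lit 0) (nat_lit 78404042545) (nat_lit 304) (nat_lit 34156727726) (nat_lit 380) (nat_lit 1608681267) (nat_lit 47) (nat_lit 5) (nat_lit 51) (nat_lit 5) (nat_lit 52) (nat_lit 5) (nat_lit 316) (nat_lit 298) (nat_lit 106))) (XT.nd (nat_lit 78) (nat_lit 0) (nat_lit 0) (XT.lf (nat_lit 0) (nat_lit 8291759203) (nat_lit 304) (nat_lit 104714208892) (nat_lit 76) (nat_lit 4702334188) (nat_lit 43) (nat_lit 5) (nat_lit 47) (nat_lit 5) (nat_lit 44) (nat_lit 5) (nat_lit 317) (nat_lit 298) (nat_lit 105)) (XT.nd (nat_lit 78) (nat_lit 0) (nat_lit 0) (XT.lf (nat_lit 0) (nat_lit 19808385896) (nat_lit 304) (nat_lit 56557190344) (nat_lit 76) (nat_lit 44998440754) (nat_lit 43) (nat_lit 5) (nat_lit 47) (nat_lit 5) (nat_lit 44) (nat_lit 5) (nat_lit 318) (nat_lit 298)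 (nat_lit 104)) (XT.lf (nat_lit 0) (nat_lit 31900506772) (nat_lit 304) (nat_lit 5992699324) (nat_lit 76) (nat_lit 87309329481) (nat_lit 43) (nat_lit 5) (nat_lit 47) (nat_lit 5) (nat_lit 44) (nat_lit 5) (nat_lit 319) (nat_lit 298) (nat_lit 103))))))) (XT.nd (nat_lit 702) (nat_lit 228) (nat_lit 0) (XT.nd (nat_lit 312) (nat_lit 532) (nat_lit 0) (XT.nd (nat_lit 156) (nat_lit 228) (nat_lit 0) (XT.nd (nat_lit 78) (nat_lit 0) (nat_lit 0) (XT.lf (nat_lit 0) (nat_lit 45408112937) (nat_lit 380) (nat_lit 80589559095) (nat_lit 76) (nat_lit 3194765310) (nat_lit 39) (nat_lit 5) (nat_lit 44) (nat_lit 5) (nat_lit 40) (nat_lit 5) (nat_lit 320) (nat_lit 298) (nat_lit 102)) (XT.lf (nat_lit 0) (nat_lit 60315140513) (nat_lit 380) (nat_lit 27863706574) (nat_lit 76) (nat_lit 45166786211) (nat_lit 39) (nat_lit 5) (nat_lit 44) (nat_lit 5) (nat_lit 40) (nat_lit 5) (nat_lit 321) (nat_lit 298) (nat_lit 101)))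 (XT.nd (nat_lit 78) (nat_lit 0) (nat_lit 0) (XT.lf (nat_lit 0) (nat_lit 28407296446) (nat_lit 228) (nat_lit 48003443371) (nat_lit 304) (nat_lit 61273589324) (nat_lit 36) (nat_lit 5) (nat_lit 39) (nat_lit 5) (nat_lit 40) (nat_lit 5) (nat_lit 322) (nat_lit 298) (nat_lit 100)) (XT.lf (nat_lit 0) (nat_lit 88458867268) (nat_lit 228) (nat_lit 5323848739) (nat_lit 304) (nat_lit 48433664972) (nat_lit 36) (nat_lit 5) (nat_lit 39) (nat_lit 5) (nat_lit 40) (nat_lit 5) (nat_lit 323) (nat_lit 298) (nat_lit 99)))) (XT.nd (nat_lit 156) (nat_lit 304) (nat_lit 0) (XT.nd (nat_lit 78) (nat_lit 0) (nat_lit 0) (XT.lf (nat_lit 0) (nat_lit 4050740275) (nat_lit 228) (nat_lit 108652063852) (nat_lit 304) (nat_lit 34238256625) (nat_lit 33) (nat_lit 5) (nat_lit 36) (nat_lit 5) (nat_lit 37) (nat_lit 5) (nat_lit 324) (nat_lit 298) (nat_lit 98)) (XT.lf (nat_lit 0) (nat_lit 66525245408) (nat_lit 228) (nat_lit 67039661536)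 (nat_lit 304) (nat_lit 18287268011) (nat_lit 33) (nat_lit 5) (nat_lit 36) (nat_lit 5) (nat_lit 37) (nat_lit 5) (nat_lit 325) (nat_lit 298) (nat_lit 97))) (XT.nd (nat_lit 78) (nat_lit 304) (nat_lit 0) (XT.lf (nat_lit 0) (nat_lit 132123152858) (nat_lit 228) (nat_lit 23346707049) (nat_lit 304) (nat_lit 1538998618) (nat_lit 33) (nat_lit 5) (nat_lit 36) (nat_lit 5) (nat_lit 37) (nat_lit 5) (nat_lit 326) (nat_lit 298) (nat_lit 96)) (XT.nd (nat_lit 78) (nat_lit 0) (nat_lit 0) (XT.lf (nat_lit 0) (nat_lit 16517025949) (nat_lit 304) (nat_lit 123151980706) (nat_lit 76) (nat_lit 22692646966) (nat_lit 29) (nat_lit 5) (nat_lit 33) (nat_lit 5) (nat_lit 30) (nat_lit 5) (nat_lit 327) (nat_lit 298) (nat_lit 95)) (XT.lf (nat_lit 0) (nat_lit 36234982866) (nat_lit 304) (nat_lit 61002414576) (nat_lit 76) (nat_lit 70702887761) (nat_lit 29) (nat_lit 5) (nat_lit 33) (nat_lit 5) (nat_lit 30) (nat_lit 5) (nat_lit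 328) (nat_lit 298) (nat_lit 94)))))) (XT.nd (nat_lit 35256) (nat_lit 0) (nat_lit 2584) (XT.nd (nat_lit 156) (nat_lit 0) (nat_lit 0) (XT.nd (nat_lit 78) (nat_lit 0) (nat_lit 0) (XT.lf (nat_lit 0) (nat_lit 4394989165) (nat_lit 228) (nat_lit 52612236235) (nat_lit 304) (nat_lit 116787204323) (nat_lit 26) (nat_lit 5) (nat_lit 29) (nat_lit 5) (nat_lit 30) (nat_lit 5) (nat_lit 329) (nat_lit 298) (nat_lit 93)) (XT.lf (nat_lit 0) (nat_lit 75179826349) (nat_lit 228) (nat_lit 4671135031) (nat_lit 304) (nat_lit 100038676733) (nat_lit 26) (nat_lit 5) (nat_lit 29) (nat_lit 5) (nat_lit 30) (nat_lit 5) (nat_lit 330) (nat_lit 298) (nat_lit 92))) (XT.nd (nat_lit 35022) (nat_lit 0) (nat_lit 2584) (XT.lf (nat_lit 0) (nat_lit 104549659756) (nat_lit 304) (nat_lit 37498990303) (nat_lit 76) (nat_lit 44205318763) (nat_lit 26) (nat_lit 5) (nat_lit 30) (nat_lit 5) (nat_lit 27) (nat_lit 5) (nat_lit 331) (nat_lit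 298) (nat_lit 91)) (XT.lf (nat_lit 0) (nat_lit 2844986771) (nat_lit 0) (nat_lit 2844986771) (nat_lit 684) (nat_lit 30950163117) (nat_lit 60) (nat_lit 5) (nat_lit 60) (nat_lit 3) (nat_lit 69) (nat_lit 3) (nat_lit 299) (nat_lit 299) (nat_lit 122)))) (XT.nd (nat_lit 156) (nat_lit 0) (nat_lit 76) (XT.nd (nat_lit 78) (nat_lit 0) (nat_lit 0) (XT.lf (nat_lit 0) (nat_lit 12072961428) (nat_lit 684) (nat_lit 38368998985) (nat_lit 760) (nat_lit 24649845928) (nat_lit 60) (nat_lit 5) (nat_lit 69) (nat_lit 3) (nat_lit 70) (nat_lit 5) (nat_lit 300) (nat_lit 299) (nat_lit 121)) (XT.lf (nat_lit 0) (nat_lit 12893210072) (nat_lit 684) (nat_lit 7780305023) (nat_lit 760) (nat_lit 56315774814) (nat_lit 60) (nat_lit 5) (nat_lit 69) (nat_lit 3) (nat_lit 70) (nat_lit 5) (nat_lit 301) (nat_lit 299) (nat_lit 120))) (XT.nd (nat_lit 78) (nat_lit 0) (nat_lit 0) (XT.lf (nat_lit 0) (nat_lit 14318024396) (nat_lit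 684) (nat_lit 53991577299) (nat_lit 760) (nat_lit 10643871226) (nat_lit 61) (nat_lit 5) (nat_lit 70) (nat_lit 5) (nat_lit 71) (nat_lit 5) (nat_lit 302) (nat_lit 299) (nat_lit 119)) (XT.nd (nat_lit 78) (nat_lit 0) (nat_lit 0) (XT.lf (nat_lit 0) (nat_lit 16286281125) (nat_lit 684) (nat_lit 21739433712) (nat_lit 760) (nat_lit 42966542951) (nat_lit 61) (nat_lit 5) (nat_lit 70) (nat_lit 5) (nat_lit 71) (nat_lit 5) (nat_lit 303) (nat_lit 299) (nat_lit 118)) (XT.lf (nat_lit 76) (nat_lit 12525833793) (nat_lit 0) (nat_lit 6022078669) (nat_lit 760) (nat_lit 64575324003) (nat_lit 62) (nat_lit 5) (nat_lit 61) (nat_lit 5) (nat_lit 71) (nat_lit 5) (nat_lit 304) (nat_lit 299) (nat_lit 117))))))))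
noncomputable def xc248 : XT := (XT.nd (nat_lit 1326) (nat_lit 988) (nat_lit 0) (XT.nd (nat_lit 624) (nat_lit 1216) (nat_lit 0) (XT.nd (nat_lit 312) (nat_lit 532) (nat_lit 0) (XT.nd (nat_lit 156) (nat_lit 0) (nat_lit 76) (XT.nd (nat_lit 78) (nat_lit 0) (nat_lit 0) (XT.lf (nat_lit 0) (nat_lit 21726881147) (nat_lit 684) (nat_lit 36520327205) (nat_lit 760) (nat_lit 27073345466) (nat_lit 62) (nat_lit 5) (nat_lit 71) (nat_lit 5) (nat_lit 72) (nat_lit 5) (nat_lit 305) (nat_lit 299) (nat_lit 116)) (XT.lf (nat_lit 0) (nat_lit 25162972450) (nat_lit 684) (nat_lit 838517190) (nat_lit 760) (nat_lit 61621341096) (nat_lit 62) (nat_lit 5) (nat_lit 71) (nat_lit 5) (nat_lit 72) (nat_lit 5) (nat_lit 306) (nat_lit 299) (nat_lit 115))) (XT.nd (nat_lit 78) (nat_lit 0) (nat_lit 0) (XT.lf (nat_lit 0) (nat_lit 29493453207) (nat_lit 684) (nat_lit 52305001234) (nat_lit 760) (nat_lit 8205640110) (nat_lit 63)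 (nat_lit 5) (nat_lit 72) (nat_lit 5) (nat_lit 73) (nat_lit 5) (nat_lit 307) (nat_lit 299) (nat_lit 114)) (XT.lf (nat_lit 0) (nat_lit 34480644245) (nat_lit 684) (nat_lit 14737903522) (nat_lit 760) (nat_lit 43263866662) (nat_lit 63) (nat_lit 5) (nat_lit 72) (nat_lit 5) (nat_lit 73) (nat_lit 5) (nat_lit 308) (nat_lit 299) (nat_lit 113)))) (XT.nd (nat_lit 156) (nat_lit 608) (nat_lit 0) (XT.nd (nat_lit 78) (nat_lit 0) (nat_lit 76) (XT.lf (nat_lit 76) (nat_lit 25524097652) (nat_lit 0) (nat_lit 14591122567) (nat_lit 760) (nat_lit 54949530894) (nat_lit 64) (nat_lit 5) (nat_lit 63) (nat_lit 5) (nat_lit 73) (nat_lit 5) (nat_lit 309) (nat_lit 299) (nat_lit 112)) (XT.lf (nat_lit 0) (nat_lit 46624605483) (nat_lit 684) (nat_lit 29797207543) (nat_lit 76) (nat_lit 21324739561) (nat_lit 64) (nat_lit 5) (nat_lit 73) (nat_lit 5) (nat_lit 65) (nat_lit 5) (nat_lit 310) (nat_lit 299) (nat_lit 111))) (XT.nd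 (nat_lit 78) (nat_lit 0) (nat_lit 0) (XT.lf (nat_lit 0) (nat_lit 12080479768) (nat_lit 684) (nat_lit 41806351851) (nat_lit 760) (nat_lit 46654245824) (nat_lit 55) (nat_lit 5) (nat_lit 64) (nat_lit 5) (nat_lit 65) (nat_lit 5) (nat_lit 311) (nat_lit 299) (nat_lit 110)) (XT.lf (nat_lit 0) (nat_lit 57086166419) (nat_lit 684) (nat_lit 4930210447) (nat_lit 760) (nat_lit 41433743083) (nat_lit 55) (nat_lit 5) (nat_lit 64) (nat_lit 5) (nat_lit 65) (nat_lit 5) (nat_lit 312) (nat_lit 299) (nat_lit 109))))) (XT.nd (nat_lit 312) (nat_lit 608) (nat_lit 0) (XT.nd (nat_lit 156) (nat_lit 304) (nat_lit 0) (XT.nd (nat_lit 78) (nat_lit 304) (nat_lit 0) (XT.lf (nat_lit 0) (nat_lit 71079550344) (nat_lit 760) (nat_lit 2690411032) (nat_lit 76) (nat_lit 32708297368) (nat_lit 55) (nat_lit 5) (nat_lit 65) (nat_lit 5) (nat_lit 56) (nat_lit 5) (nat_lit 313) (nat_lit 299) (nat_lit 108)) (XT.lf (nat_lit 0) (nat_lit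 44510227534) (nat_lit 304) (nat_lit 36861025058) (nat_lit 380) (nat_lit 28247785011) (nat_lit 51) (nat_lit 5) (nat_lit 55) (nat_lit 5) (nat_lit 56) (nat_lit 5) (nat_lit 314) (nat_lit 299) (nat_lit 107))) (XT.nd (nat_lit 78) (nat_lit 304) (nat_lit 0) (XT.lf (nat_lit 0) (nat_lit 92253041343) (nat_lit 380) (nat_lit 18780959345) (nat_lit 76) (nat_lit 1879081202) (nat_lit 51) (nat_lit 5) (nat_lit 56) (nat_lit 5) (nat_lit 52) (nat_lit 5) (nat_lit 315) (nat_lit 299) (nat_lit 106)) (XT.lf (nat_lit 0) (nat_lit 30226068176) (nat_lit 304) (nat_lit 74528692094) (nat_lit 380) (nat_lit 11563277562) (nat_lit 47) (nat_lit 5) (nat_lit 51) (nat_lit 5) (nat_lit 52) (nat_lit 5) (nat_lit 316) (nat_lit 299) (nat_lit 105)))) (XT.nd (nat_lit 156) (nat_lit 304) (nat_lit 0) (XT.nd (nat_lit 78) (nat_lit 304) (nat_lit 0) (XT.lf (nat_lit 0) (nat_lit 82335125788) (nat_lit 304) (nat_lit 35864163239) (nat_lit 380)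 (nat_lit 1678067760) (nat_lit 47) (nat_lit 5) (nat_lit 51) (nat_lit 5) (nat_lit 52) (nat_lit 5) (nat_lit 317) (nat_lit 299) (nat_lit 104)) (XT.lf (nat_lit 0) (nat_lit 8716716609) (nat_lit 304) (nat_lit 109938279553) (nat_lit 76) (nat_lit 4938163475) (nat_lit 43) (nat_lit 5) (nat_lit 47) (nat_lit 5) (nat_lit 44) (nat_lit 5) (nat_lit 318) (nat_lit 299) (nat_lit 103))) (XT.nd (nat_lit 78) (nat_lit 304) (nat_lit 0) (XT.lf (nat_lit 0) (nat_lit 20808680853) (nat_lit 304) (nat_lit 59373964353) (nat_lit 76) (nat_lit 47249041437) (nat_lit 43) (nat_lit 5) (nat_lit 47) (nat_lit 5) (nat_lit 44) (nat_lit 5) (nat_lit 319) (nat_lit 299) (nat_lit 102)) (XT.nd (nat_lit 78) (nat_lit 304) (nat_lit 0) (XT.lf (nat_lit 0) (nat_lit 33504937503) (nat_lit 304) (nat_lit 6281776662) (nat_lit 76) (nat_lit 91675442283) (nat_lit 43) (nat_lit 5) (nat_lit 47) (nat_lit 5) (nat_lit 44) (nat_lit 5) (nat_lit 320) (nat_lit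 299) (nat_lit 101)) (XT.lf (nat_lit 0) (nat_lit 47687658068) (nat_lit 380) (nat_lit 84608179574) (nat_lit 76) (nat_lit 3355730653) (nat_lit 39) (nat_lit 5) (nat_lit 44) (nat_lit 5) (nat_lit 40) (nat_lit 5) (nat_lit 321) (nat_lit 299) (nat_lit 100))))))) (XT.nd (nat_lit 624) (nat_lit 228) (nat_lit 0) (XT.nd (nat_lit 312) (nat_lit 304) (nat_lit 0) (XT.nd (nat_lit 156) (nat_lit 228) (nat_lit 0) (XT.nd (nat_lit 78) (nat_lit 228) (nat_lit 0) (XT.lf (nat_lit 0) (nat_lit 63339601809) (nat_lit 380) (nat_lit 29246551450) (nat_lit 76) (nat_lit 47426294168) (nat_lit 39) (nat_lit 5) (nat_lit 44) (nat_lit 5) (nat_lit 40) (nat_lit 5) (nat_lit 322) (nat_lit 299) (nat_lit 99)) (XT.lf (nat_lit 0) (nat_lit 29837834940) (nat_lit 228) (nat_lit 50401890488) (nat_lit 304) (nat_lit 64328366953) (nat_lit 36) (nat_lit 5) (nat_lit 39) (nat_lit 5) (nat_lit 40) (nat_lit 5) (nat_lit 323) (nat_lit 299) (nat_lit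 98))) (XT.nd (nat_lit 78) (nat_lit 228) (nat_lit 0) (XT.lf (nat_lit 0) (nat_lit 92891499843) (nat_lit 228) (nat_lit 5588398269) (nat_lit 304) (nat_lit 50846870281) (nat_lit 36) (nat_lit 5) (nat_lit 39) (nat_lit 5) (nat_lit 40) (nat_lit 5) (nat_lit 324) (nat_lit 299) (nat_lit 97)) (XT.lf (nat_lit 0) (nat_lit 4263209658) (nat_lit 228) (nat_lit 114082577325) (nat_lit 304) (nat_lit 35941906752) (nat_lit 33) (nat_lit 5) (nat_lit 36) (nat_lit 5) (nat_lit 37) (nat_lit 5) (nat_lit 325) (nat_lit 299) (nat_lit 96)))) (XT.nd (nat_lit 156) (nat_lit 304) (nat_lit 0) (XT.nd (nat_lit 78) (nat_lit 0) (nat_lit 0) (XT.lf (nat_lit 0) (nat_lit 69860967078) (nat_lit 228) (nat_lit 70389654403) (nat_lit 304) (nat_lit 19193762169) (nat_lit 33) (nat_lit 5) (nat_lit 36) (nat_lit 5) (nat_lit 37) (nat_lit 5) (nat_lit 326) (nat_lit 299) (nat_lit 95)) (XT.lf (nat_lit 0) (nat_lit 138738319453) (nat_lit 228) (nat_lit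 24512146964) (nat_lit 304) (nat_lit 1608454032) (nat_lit 33) (nat_lit 5) (nat_lit 36) (nat_lit 5) (nat_lit 37) (nat_lit 5) (nat_lit 327) (nat_lit 299) (nat_lit 94))) (XT.nd (nat_lit 78) (nat_lit 0) (nat_lit 0) (XT.lf (nat_lit 0) (nat_lit 17349961220) (nat_lit 304) (nat_lit 129300113153) (nat_lit 76) (nat_lit 23829284758) (nat_lit 29) (nat_lit 5) (nat_lit 33) (nat_lit 5) (nat_lit 30) (nat_lit 5) (nat_lit 328) (nat_lit 299) (nat_lit 93)) (XT.lf (nat_lit 0) (nat_lit 38053478651) (nat_lit 304) (nat_lit 64043519507) (nat_lit 76) (nat_lit 74239942095) (nat_lit 29) (nat_lit 5) (nat_lit 33) (nat_lit 5) (nat_lit 30) (nat_lit 5) (nat_lit 329) (nat_lit 299) (nat_lit 92))))) (XT.nd (nat_lit 35412) (nat_lit 0) (nat_lit 2660) (XT.nd (nat_lit 35256) (nat_lit 0) (nat_lit 2584) (XT.nd (nat_lit 35178) (nat_lit 0) (nat_lit 2584) (XT.lf (nat_lit 0) (nat_lit 4623609004) (nat_lit 228) (nat_lit 55240541529)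 (nat_lit 304) (nat_lit 122619651646) (nat_lit 26) (nat_lit 5) (nat_lit 29) (nat_lit 5) (nat_lit 30) (nat_lit 5) (nat_lit 330) (nat_lit 299) (nat_lit 91)) (XT.lf (nat_lit 0) (nat_lit 2992619480) (nat_lit 0) (nat_lit 2992619480) (nat_lit 684) (nat_lit 32486318917) (nat_lit 60) (nat_lit 5) (nat_lit 60) (nat_lit 3) (nat_lit 69) (nat_lit 3) (nat_lit 300) (nat_lit 300) (nat_lit 120))) (XT.nd (nat_lit 78) (nat_lit 0) (nat_lit 0) (XT.lf (nat_lit 0) (nat_lit 12696957484) (nat_lit 684) (nat_lit 40275919343) (nat_lit 760) (nat_lit 25872412378) (nat_lit 60) (nat_lit 5) (nat_lit 69) (nat_lit 3) (nat_lit 70) (nat_lit 5) (nat_lit 301) (nat_lit 300) (nat_lit 119)) (XT.lf (nat_lit 0) (nat_lit 13557249609) (nat_lit 684) (nat_lit 8158339711) (nat_lit 760) (nat_lit 59122110367) (nat_lit 60) (nat_lit 5) (nat_lit 69) (nat_lit 3) (nat_lit 70) (nat_lit 5) (nat_lit 302) (nat_lit 300) (nat_lit 118)))) (XT.nd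 (nat_lit 156) (nat_lit 0) (nat_lit 0) (XT.nd (nat_lit 78) (nat_lit 0) (nat_lit 0) (XT.lf (nat_lit 0) (nat_lit 15052428395) (nat_lit 684) (nat_lit 56679217668) (nat_lit 760) (nat_lit 11168493685) (nat_lit 61) (nat_lit 5) (nat_lit 70) (nat_lit 5) (nat_lit 71) (nat_lit 5) (nat_lit 303) (nat_lit 300) (nat_lit 117)) (XT.lf (nat_lit 0) (nat_lit 17118216876) (nat_lit 684) (nat_lit 22815035401) (nat_lit 760) (nat_lit 45107659525) (nat_lit 61) (nat_lit 5) (nat_lit 70) (nat_lit 5) (nat_lit 71) (nat_lit 5) (nat_lit 304) (nat_lit 300) (nat_lit 116))) (XT.nd (nat_lit 78) (nat_lit 0) (nat_lit 76) (XT.lf (nat_lit 76) (nat_lit 13163312093) (nat_lit 0) (nat_lit 6328953214) (nat_lit 760) (nat_lit 67786211035) (nat_lit 62) (nat_lit 5) (nat_lit 61) (nat_lit 5) (nat_lit 71) (nat_lit 5) (nat_lit 305) (nat_lit 300) (nat_lit 115)) (XT.nd (nat_lit 78) (nat_lit 0) (nat_lit 0) (XT.lf (nat_lit 0) (nat_lit 22829289133)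 (nat_lit 684) (nat_lit 38334725800) (nat_lit 760) (nat_lit 28421692820) (nat_lit 62) (nat_lit 5) (nat_lit 71) (nat_lit 5) (nat_lit 72) (nat_lit 5) (nat_lit 306) (nat_lit 300) (nat_lit 114)) (XT.lf (nat_lit 0) (nat_lit 26436420053) (nat_lit 684) (nat_lit 869378511) (nat_lit 760) (nat_lit 64697341561) (nat_lit 62) (nat_lit 5) (nat_lit 71) (nat_lit 5) (nat_lit 72) (nat_lit 5) (nat_lit 307) (nat_lit 300) (nat_lit 113))))))))
noncomputable def xc249 : XT := (XT.nd (nat_lit 1326) (nat_lit 532) (nat_lit 0) (XT.nd (nat_lit 624) (nat_lit 1140) (nat_lit 0) (XT.nd (nat_lit 312) (nat_lit 912) (nat_lit 0) (XT.nd (nat_lit 156) (nat_lit 0) (nat_lit 0) (XT.nd (nat_lit 78) (nat_lit 0) (nat_lit 0) (XT.lf (nat_lit 0) (nat_lit 30982806110) (nat_lit 684) (nat_lit 54908504021) (nat_lit 760) (nat_lit 8612191137) (nat_lit 63) (nat_lit 5) (nat_lit 72) (nat_lit 5) (nat_lit 73) (nat_lit 5) (nat_lit 308) (nat_lit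 300) (nat_lit 112)) (XT.lf (nat_lit 0) (nat_lit 36218657641) (nat_lit 684) (nat_lit 15463610817) (nat_lit 760) (nat_lit 45423506682) (nat_lit 63) (nat_lit 5) (nat_lit 72) (nat_lit 5) (nat_lit 73) (nat_lit 5) (nat_lit 309) (nat_lit 300) (nat_lit 111))) (XT.nd (nat_lit 78) (nat_lit 0) (nat_lit 76) (XT.lf (nat_lit 76) (nat_lit 26811309966) (nat_lit 0) (nat_lit 15323158534) (nat_lit 760) (nat_lit 57682787756) (nat_lit 64) (nat_lit 5) (nat_lit 63) (nat_lit 5) (nat_lit 73) (nat_lit 5) (nat_lit 310) (nat_lit 300) (nat_lit 110)) (XT.lf (nat_lit 0) (nat_lit 48968643902) (nat_lit 684) (nat_lit 31275850244) (nat_lit 76) (nat_lit 22388690379) (nat_lit 64) (nat_lit 5) (nat_lit 73) (nat_lit 5) (nat_lit 65) (nat_lit 5) (nat_lit 311) (nat_lit 300) (nat_lit 109)))) (XT.nd (nat_lit 156) (nat_lit 304) (nat_lit 0) (XT.nd (nat_lit 78) (nat_lit 0) (nat_lit 0) (XT.lf (nat_lit 0) (nat_lit 12695540503) (nat_lit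 684) (nat_lit 43898003245) (nat_lit 760) (nat_lit 48973916388) (nat_lit 55) (nat_lit 5) (nat_lit 64) (nat_lit 5) (nat_lit 65) (nat_lit 5) (nat_lit 312) (nat_lit 300) (nat_lit 108)) (XT.lf (nat_lit 0) (nat_lit 59950985927) (nat_lit 684) (nat_lit 5177991256) (nat_lit 760) (nat_lit 43493009545) (nat_lit 55) (nat_lit 5) (nat_lit 64) (nat_lit 5) (nat_lit 65) (nat_lit 5) (nat_lit 313) (nat_lit 300) (nat_lit 107))) (XT.nd (nat_lit 78) (nat_lit 304) (nat_lit 0) (XT.lf (nat_lit 0) (nat_lit 74644729425) (nat_lit 760) (nat_lit 2814293261) (nat_lit 76) (nat_lit 34342541160) (nat_lit 55) (nat_lit 5) (nat_lit 65) (nat_lit 5) (nat_lit 56) (nat_lit 5) (nat_lit 314) (nat_lit 300) (nat_lit 106)) (XT.lf (nat_lit 0) (nat_lit 46746205647) (nat_lit 304) (nat_lit 38704441146) (nat_lit 380) (nat_lit 29648755630) (nat_lit 51) (nat_lit 5) (nat_lit 55) (nat_lit 5) (nat_lit 56) (nat_lit 5) (nat_lit 315) (nat_lit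 300) (nat_lit 105))))) (XT.nd (nat_lit 312) (nat_lit 532) (nat_lit 0) (XT.nd (nat_lit 156) (nat_lit 304) (nat_lit 0) (XT.nd (nat_lit 78) (nat_lit 304) (nat_lit 0) (XT.lf (nat_lit 0) (nat_lit 96876003767) (nat_lit 380) (nat_lit 19709474461) (nat_lit 76) (nat_lit 1972698922) (nat_lit 51) (nat_lit 5) (nat_lit 56) (nat_lit 5) (nat_lit 52) (nat_lit 5) (nat_lit 316) (nat_lit 300) (nat_lit 104)) (XT.lf (nat_lit 0) (nat_lit 31747734552) (nat_lit 304) (nat_lit 78254744915) (nat_lit 380) (nat_lit 12130919944) (nat_lit 47) (nat_lit 5) (nat_lit 51) (nat_lit 5) (nat_lit 52) (nat_lit 5) (nat_lit 317) (nat_lit 300) (nat_lit 103))) (XT.nd (nat_lit 78) (nat_lit 304) (nat_lit 0) (XT.lf (nat_lit 0) (nat_lit 86461751569) (nat_lit 304) (nat_lit 37657007796) (nat_lit 380) (nat_lit 1751950676) (nat_lit 47) (nat_lit 5) (nat_lit 51) (nat_lit 5) (nat_lit 52) (nat_lit 5) (nat_lit 318) (nat_lit 300) (nat_lit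 102)) (XT.lf (nat_lit 0) (nat_lit 9161957832) (nat_lit 304) (nat_lit 115424635903) (nat_lit 76) (nat_lit 5185717977) (nat_lit 43) (nat_lit 5) (nat_lit 47) (nat_lit 5) (nat_lit 44) (nat_lit 5) (nat_lit 319) (nat_lit 300) (nat_lit 101)))) (XT.nd (nat_lit 156) (nat_lit 532) (nat_lit 0) (XT.nd (nat_lit 78) (nat_lit 0) (nat_lit 0) (XT.lf (nat_lit 0) (nat_lit 21858072412) (nat_lit 304) (nat_lit 62332607687) (nat_lit 76) (nat_lit 49612109060) (nat_lit 43) (nat_lit 5) (nat_lit 47) (nat_lit 5) (nat_lit 44) (nat_lit 5) (nat_lit 320) (nat_lit 300) (nat_lit 100)) (XT.lf (nat_lit 0) (nat_lit 35188715347) (nat_lit 304) (nat_lit 6586289416) (nat_lit 76) (nat_lit 96259800637) (nat_lit 43) (nat_lit 5) (nat_lit 47) (nat_lit 5) (nat_lit 44) (nat_lit 5) (nat_lit 321) (nat_lit 300) (nat_lit 99))) (XT.nd (nat_lit 78) (nat_lit 228) (nat_lit 0) (XT.lf (nat_lit 0) (nat_lit 50080330752) (nat_lit 380) (nat_lit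 88828740501) (nat_lit 76) (nat_lit 3524630182) (nat_lit 39) (nat_lit 5) (nat_lit 44) (nat_lit 5) (nat_lit 40) (nat_lit 5) (nat_lit 322) (nat_lit 300) (nat_lit 98)) (XT.nd (nat_lit 78) (nat_lit 228) (nat_lit 0) (XT.lf (nat_lit 0) (nat_lit 66514476929) (nat_lit 380) (nat_lit 30699499926) (nat_lit 76) (nat_lit 49798668873) (nat_lit 39) (nat_lit 5) (nat_lit 44) (nat_lit 5) (nat_lit 40) (nat_lit 5) (nat_lit 323) (nat_lit 300) (nat_lit 97)) (XT.lf (nat_lit 0) (nat_lit 31338954508) (nat_lit 228) (nat_lit 52920420340) (nat_lit 304) (nat_lit 67536711073) (nat_lit 36) (nat_lit 5) (nat_lit 39) (nat_lit 5) (nat_lit 40) (nat_lit 5) (nat_lit 324) (nat_lit 300) (nat_lit 96))))))) (XT.nd (nat_lit 35958) (nat_lit 0) (nat_lit 1976) (XT.nd (nat_lit 312) (nat_lit 304) (nat_lit 0) (XT.nd (nat_lit 156) (nat_lit 0) (nat_lit 0) (XT.nd (nat_lit 78) (nat_lit 228) (nat_lit 0) (XT.lf (nat_lit 0) (nat_lit 97544863236)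 (nat_lit 228) (nat_lit 5866328019) (nat_lit 304) (nat_lit 53381524054) (nat_lit 36) (nat_lit 5) (nat_lit 39) (nat_lit 5) (nat_lit 40) (nat_lit 5) (nat_lit 325) (nat_lit 300) (nat_lit 95)) (XT.lf (nat_lit 0) (nat_lit 4485379093) (nat_lit 228) (nat_lit 119784810753) (nat_lit 304) (nat_lit 37731507574) (nat_lit 33) (nat_lit 5) (nat_lit 36) (nat_lit 5) (nat_lit 37) (nat_lit 5) (nat_lit 326) (nat_lit 300) (nat_lit 94))) (XT.nd (nat_lit 78) (nat_lit 0) (nat_lit 0) (XT.lf (nat_lit 0) (nat_lit 73362595386) (nat_lit 228) (nat_lit 73907331945) (nat_lit 304) (nat_lit 20146312643) (nat_lit 33) (nat_lit 5) (nat_lit 36) (nat_lit 5) (nat_lit 37) (nat_lit 5) (nat_lit 327) (nat_lit 300) (nat_lit 93)) (XT.lf (nat_lit 0) (nat_lit 145683406810) (nat_lit 228) (nat_lit 25736035094) (nat_lit 304) (nat_lit 1682078987) (nat_lit 33) (nat_lit 5) (nat_lit 36) (nat_lit 5) (nat_lit 37) (nat_lit 5) (nat_lit 328)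 (nat_lit 300) (nat_lit 92)))) (XT.nd (nat_lit 35412) (nat_lit 0) (nat_lit 2356) (XT.nd (nat_lit 35334) (nat_lit 0) (nat_lit 2356) (XT.lf (nat_lit 0) (nat_lit 18223884653) (nat_lit 304) (nat_lit 135756532337) (nat_lit 76) (nat_lit 25022567993) (nat_lit 29) (nat_lit 5) (nat_lit 33) (nat_lit 5) (nat_lit 30) (nat_lit 5) (nat_lit 329) (nat_lit 300) (nat_lit 91)) (XT.lf (nat_lit 0) (nat_lit 3147133330) (nat_lit 0) (nat_lit 3147133330) (nat_lit 684) (nat_lit 34100337941) (nat_lit 60) (nat_lit 5) (nat_lit 60) (nat_lit 3) (nat_lit 69) (nat_lit 3) (nat_lit 301) (nat_lit 301) (nat_lit 118))) (XT.nd (nat_lit 78) (nat_lit 0) (nat_lit 0) (XT.lf (nat_lit 0) (nat_lit 13350261581) (nat_lit 684) (nat_lit 42279257632) (nat_lit 760) (nat_lit 27157029962) (nat_lit 60) (nat_lit 5) (nat_lit 69) (nat_lit 3) (nat_lit 70) (nat_lit 5) (nat_lit 302) (nat_lit 301) (nat_lit 117)) (XT.nd (nat_lit 78) (nat_lit 0)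 (nat_lit 76) (XT.lf (nat_lit 0) (nat_lit 14252689444) (nat_lit 684) (nat_lit 8556297003) (nat_lit 760) (nat_lit 62069641566) (nat_lit 60) (nat_lit 5) (nat_lit 69) (nat_lit 3) (nat_lit 70) (nat_lit 5) (nat_lit 303) (nat_lit 301) (nat_lit 116)) (XT.lf (nat_lit 0) (nat_lit 15821832382) (nat_lit 684) (nat_lit 59502349982) (nat_lit 760) (nat_lit 11720051156) (nat_lit 61) (nat_lit 5) (nat_lit 70) (nat_lit 5) (nat_lit 71) (nat_lit 5) (nat_lit 304) (nat_lit 301) (nat_lit 115)))))) (XT.nd (nat_lit 312) (nat_lit 456) (nat_lit 0) (XT.nd (nat_lit 156) (nat_lit 0) (nat_lit 76) (XT.nd (nat_lit 78) (nat_lit 0) (nat_lit 0) (XT.lf (nat_lit 0) (nat_lit 17990111117) (nat_lit 684) (nat_lit 23945474248) (nat_lit 760) (nat_lit 47356502298) (nat_lit 61) (nat_lit 5) (nat_lit 70) (nat_lit 5) (nat_lit 71) (nat_lit 5) (nat_lit 305) (nat_lit 301) (nat_lit 114)) (XT.lf (nat_lit 76) (nat_lit 13831624283) (nat_lit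 0) (nat_lit 6650634989) (nat_lit 760) (nat_lit 71159304653) (nat_lit 62) (nat_lit 5) (nat_lit 61) (nat_lit 5) (nat_lit 71) (nat_lit 5) (nat_lit 306) (nat_lit 301) (nat_lit 113))) (XT.nd (nat_lit 78) (nat_lit 0) (nat_lit 0) (XT.lf (nat_lit 0) (nat_lit 23985324047) (nat_lit 684) (nat_lit 40240924435) (nat_lit 760) (nat_lit 29837952137) (nat_lit 62) (nat_lit 5) (nat_lit 71) (nat_lit 5) (nat_lit 72) (nat_lit 5) (nat_lit 307) (nat_lit 301) (nat_lit 112)) (XT.lf (nat_lit 0) (nat_lit 27772117682) (nat_lit 684) (nat_lit 902811575) (nat_lit 760) (nat_lit 67927613093) (nat_lit 62) (nat_lit 5) (nat_lit 71) (nat_lit 5) (nat_lit 72) (nat_lit 5) (nat_lit 308) (nat_lit 301) (nat_lit 111)))) (XT.nd (nat_lit 156) (nat_lit 608) (nat_lit 0) (XT.nd (nat_lit 78) (nat_lit 0) (nat_lit 0) (XT.lf (nat_lit 0) (nat_lit 32545261828) (nat_lit 684) (nat_lit 57643274098) (nat_lit 760) (nat_lit 9039416586) (nat_lit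 63) (nat_lit 5) (nat_lit 72) (nat_lit 5) (nat_lit 73) (nat_lit 5) (nat_lit 309) (nat_lit 301) (nat_lit 110)) (XT.lf (nat_lit 0) (nat_lit 38042271868) (nat_lit 684) (nat_lit 16226643620) (nat_lit 760) (nat_lit 47691459056) (nat_lit 63) (nat_lit 5) (nat_lit 72) (nat_lit 5) (nat_lit 73) (nat_lit 5) (nat_lit 310) (nat_lit 301) (nat_lit 109))) (XT.nd (nat_lit 78) (nat_lit 608) (nat_lit 0) (XT.lf (nat_lit 76) (nat_lit 28161859528) (nat_lit 0) (nat_lit 16091565747) (nat_lit 760) (nat_lit 60554029473) (nat_lit 64) (nat_lit 5) (nat_lit 63) (nat_lit 5) (nat_lit 73) (nat_lit 5) (nat_lit 311) (nat_lit 301) (nat_lit 108)) (XT.nd (nat_lit 78) (nat_lit 684) (nat_lit 0) (XT.lf (nat_lit 0) (nat_lit 51428693462) (nat_lit 684) (nat_lit 32829467993) (nat_lit 76) (nat_lit 23506051284) (nat_lit 64) (nat_lit 5) (nat_lit 73) (nat_lit 5) (nat_lit 65) (nat_lit 5) (nat_lit 312) (nat_lit 301) (nat_lit 107)) (XT.lf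 (nat_lit 0) (nat_lit 13340328183) (nat_lit 684) (nat_lit 46094113204) (nat_lit 760) (nat_lit 51410782976) (nat_lit 55) (nat_lit 5) (nat_lit 64) (nat_lit 5) (nat_lit 65) (nat_lit 5) (nat_lit 313) (nat_lit 301) (nat_lit 106))))))))
noncomputable def xc250 : XT := (XT.nd (nat_lit 36738) (nat_lit 0) (nat_lit 1064) (XT.nd (nat_lit 624) (nat_lit 760) (nat_lit 0) (XT.nd (nat_lit 312) (nat_lit 608) (nat_lit 0) (XT.nd (nat_lit 156) (nat_lit 304) (nat_lit 0) (XT.nd (nat_lit 78) (nat_lit 0) (nat_lit 0) (XT.lf (nat_lit 0) (nat_lit 62958069180) (nat_lit 684) (nat_lit 5438043007) (nat_lit 760) (nat_lit 45656394088) (nat_lit 55) (nat_lit 5) (nat_lit 64) (nat_lit 5) (nat_lit 65) (nat_lit 5) (nat_lit 314) (nat_lit 301) (nat_lit 105)) (XT.lf (nat_lit 0) (nat_lit 78387126044) (nat_lit 760) (nat_lit 2945358652) (nat_lit 76) (nat_lit 36058606018) (nat_lit 55) (nat_lit 5) (nat_lit 65) (nat_lit 5) (nat_lit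 56) (nat_lit 5) (nat_lit 315) (nat_lit 301) (nat_lit 104))) (XT.nd (nat_lit 78) (nat_lit 0) (nat_lit 0) (XT.lf (nat_lit 0) (nat_lit 49093009568) (nat_lit 304) (nat_lit 40639994118) (nat_lit 380) (nat_lit 31120836376) (nat_lit 51) (nat_lit 5) (nat_lit 55) (nat_lit 5) (nat_lit 56) (nat_lit 5) (nat_lit 316) (nat_lit 301) (nat_lit 103)) (XT.lf (nat_lit 0) (nat_lit 101729155752) (nat_lit 380) (nat_lit 20685394577) (nat_lit 76) (nat_lit 2071028798) (nat_lit 51) (nat_lit 5) (nat_lit 56) (nat_lit 5) (nat_lit 52) (nat_lit 5) (nat_lit 317) (nat_lit 301) (nat_lit 102)))) (XT.nd (nat_lit 156) (nat_lit 304) (nat_lit 0) (XT.nd (nat_lit 78) (nat_lit 0) (nat_lit 0) (XT.lf (nat_lit 0) (nat_lit 33344520796) (nat_lit 304) (nat_lit 82167135871) (nat_lit 380) (nat_lit 12727922634) (nat_lit 47) (nat_lit 5) (nat_lit 51) (nat_lit 5) (nat_lit 52) (nat_lit 5) (nat_lit 318) (nat_lit 301) (nat_lit 101)) (XT.lf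 (nat_lit 0) (nat_lit 90793791068) (nat_lit 304) (nat_lit 39539528386) (nat_lit 380) (nat_lit 1830459346) (nat_lit 47) (nat_lit 5) (nat_lit 51) (nat_lit 5) (nat_lit 52) (nat_lit 5) (nat_lit 319) (nat_lit 301) (nat_lit 100))) (XT.nd (nat_lit 78) (nat_lit 0) (nat_lit 0) (XT.lf (nat_lit 0) (nat_lit 9628586691) (nat_lit 304) (nat_lit 121186291618) (nat_lit 76) (nat_lit 5445590115) (nat_lit 43) (nat_lit 5) (nat_lit 47) (nat_lit 5) (nat_lit 44) (nat_lit 5) (nat_lit 320) (nat_lit 301) (nat_lit 99)) (XT.lf (nat_lit 0) (nat_lit 22959100764) (nat_lit 304) (nat_lit 65440117996) (nat_lit 76) (nat_lit 52093272836) (nat_lit 43) (nat_lit 5) (nat_lit 47) (nat_lit 5) (nat_lit 44) (nat_lit 5) (nat_lit 321) (nat_lit 301) (nat_lit 98))))) (XT.nd (nat_lit 312) (nat_lit 228) (nat_lit 0) (XT.nd (nat_lit 156) (nat_lit 228) (nat_lit 0) (XT.nd (nat_lit 78) (nat_lit 304) (nat_lit 0) (XT.lf (nat_lit 0) (nat_lit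 36955888954) (nat_lit 304) (nat_lit 6906918100) (nat_lit 76) (nat_lit 101073322405) (nat_lit 43) (nat_lit 5) (nat_lit 47) (nat_lit 5) (nat_lit 44) (nat_lit 5) (nat_lit 322) (nat_lit 301) (nat_lit 97)) (XT.lf (nat_lit 0) (nat_lit 52591866366) (nat_lit 380) (nat_lit 93261245054) (nat_lit 76) (nat_lit 3701871212) (nat_lit 39) (nat_lit 5) (nat_lit 44) (nat_lit 5) (nat_lit 40) (nat_lit 5) (nat_lit 323) (nat_lit 301) (nat_lit 96))) (XT.nd (nat_lit 78) (nat_lit 228) (nat_lit 0) (XT.lf (nat_lit 0) (nat_lit 69847361800) (nat_lit 380) (nat_lit 32225967805) (nat_lit 76) (nat_lit 52289563765) (nat_lit 39) (nat_lit 5) (nat_lit 44) (nat_lit 5) (nat_lit 40) (nat_lit 5) (nat_lit 324) (nat_lit 301) (nat_lit 95)) (XT.lf (nat_lit 0) (nat_lit 32914272139) (nat_lit 228) (nat_lit 55565022152) (nat_lit 304) (nat_lit 70906223064) (nat_lit 36) (nat_lit 5) (nat_lit 39) (nat_lit 5) (nat_lit 40) (nat_lit 5) (nat_lit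 325) (nat_lit 301) (nat_lit 94)))) (XT.nd (nat_lit 156) (nat_lit 0) (nat_lit 0) (XT.nd (nat_lit 78) (nat_lit 228) (nat_lit 0) (XT.lf (nat_lit 0) (nat_lit 102430077736) (nat_lit 228) (nat_lit 6158292797) (nat_lit 304) (nat_lit 56043625435) (nat_lit 36) (nat_lit 5) (nat_lit 39) (nat_lit 5) (nat_lit 40) (nat_lit 5) (nat_lit 326) (nat_lit 301) (nat_lit 93)) (XT.lf (nat_lit 0) (nat_lit 4717819433) (nat_lit 228) (nat_lit 125772332073) (nat_lit 304) (nat_lit 39611285206) (nat_lit 33) (nat_lit 5) (nat_lit 36) (nat_lit 5) (nat_lit 37) (nat_lit 5) (nat_lit 327) (nat_lit 301) (nat_lit 92))) (XT.nd (nat_lit 35490) (nat_lit 0) (nat_lit 2052) (XT.lf (nat_lit 0) (nat_lit 77038507427) (nat_lit 228) (nat_lit 77601061191) (nat_lit 304) (nat_lit 21147154231) (nat_lit 33) (nat_lit 5) (nat_lit 36) (nat_lit 5) (nat_lit 37) (nat_lit 5) (nat_lit 328) (nat_lit 301) (nat_lit 91)) (XT.nd (nat_lit 78) (nat_lit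 0) (nat_lit 0) (XT.lf (nat_lit 0) (nat_lit 3308918909) (nat_lit 0) (nat_lit 3308918909) (nat_lit 684) (nat_lit 35796015226) (nat_lit 60) (nat_lit 5) (nat_lit 60) (nat_lit 3) (nat_lit 69) (nat_lit 3) (nat_lit 302) (nat_lit 302) (nat_lit 116)) (XT.lf (nat_lit 0) (nat_lit 14034514997) (nat_lit 684) (nat_lit 44383735090) (nat_lit 760) (nat_lit 28506715441) (nat_lit 60) (nat_lit 5) (nat_lit 69) (nat_lit 3) (nat_lit 70) (nat_lit 5) (nat_lit 303) (nat_lit 302) (nat_lit 115))))))) (XT.nd (nat_lit 624) (nat_lit 988) (nat_lit 0) (XT.nd (nat_lit 312) (nat_lit 0) (nat_lit 152) (XT.nd (nat_lit 156) (nat_lit 0) (nat_lit 76) (XT.nd (nat_lit 78) (nat_lit 0) (nat_lit 76) (XT.lf (nat_lit 0) (nat_lit 14981267095) (nat_lit 684) (nat_lit 8975078117) (nat_lit 760) (nat_lit 65165346484) (nat_lit 60) (nat_lit 5) (nat_lit 69) (nat_lit 3) (nat_lit 70) (nat_lit 5) (nat_lit 304) (nat_lit 302) (nat_lit 114)) (XT.lf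 (nat_lit 0) (nat_lit 16628146284) (nat_lit 684) (nat_lit 62467645651) (nat_lit 760) (nat_lit 12299824948) (nat_lit 61) (nat_lit 5) (nat_lit 70) (nat_lit 5) (nat_lit 71) (nat_lit 5) (nat_lit 305) (nat_lit 302) (nat_lit 113))) (XT.nd (nat_lit 78) (nat_lit 0) (nat_lit 0) (XT.lf (nat_lit 0) (nat_lit 18904114085) (nat_lit 684) (nat_lit 25133393836) (nat_lit 760) (nat_lit 49718395255) (nat_lit 61) (nat_lit 5) (nat_lit 70) (nat_lit 5) (nat_lit 71) (nat_lit 5) (nat_lit 306) (nat_lit 302) (nat_lit 112)) (XT.lf (nat_lit 76) (nat_lit 14532408749) (nat_lit 0) (nat_lit 6987914234) (nat_lit 760) (nat_lit 74702560649) (nat_lit 62) (nat_lit 5) (nat_lit 61) (nat_lit 5) (nat_lit 71) (nat_lit 5) (nat_lit 307) (nat_lit 302) (nat_lit 111)))) (XT.nd (nat_lit 156) (nat_lit 0) (nat_lit 76) (XT.nd (nat_lit 78) (nat_lit 0) (nat_lit 0) (XT.lf (nat_lit 0) (nat_lit 25197806084) (nat_lit 684) (nat_lit 42243412693)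 (nat_lit 760) (nat_lit 31325473033) (nat_lit 62) (nat_lit 5) (nat_lit 71) (nat_lit 5) (nat_lit 72) (nat_lit 5) (nat_lit 308) (nat_lit 302) (nat_lit 110)) (XT.lf (nat_lit 0) (nat_lit 29173310075) (nat_lit 684) (nat_lit 938849331) (nat_lit 760) (nat_lit 71319825451) (nat_lit 62) (nat_lit 5) (nat_lit 71) (nat_lit 5) (nat_lit 72) (nat_lit 5) (nat_lit 309) (nat_lit 302) (nat_lit 109))) (XT.nd (nat_lit 78) (nat_lit 0) (nat_lit 0) (XT.lf (nat_lit 0) (nat_lit 34184602391) (nat_lit 684) (nat_lit 60515773291) (nat_lit 760) (nat_lit 9488317929) (nat_lit 63) (nat_lit 5) (nat_lit 72) (nat_lit 5) (nat_lit 73) (nat_lit 5) (nat_lit 310) (nat_lit 302) (nat_lit 108)) (XT.lf (nat_lit 0) (nat_lit 39955887816) (nat_lit 684) (nat_lit 17028771504) (nat_lit 760) (nat_lit 50073108690) (nat_lit 63) (nat_lit 5) (nat_lit 72) (nat_lit 5) (nat_lit 73) (nat_lit 5) (nat_lit 311) (nat_lit 302) (nat_lit 107))))) (XT.nd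 (nat_lit 312) (nat_lit 608) (nat_lit 0) (XT.nd (nat_lit 156) (nat_lit 608) (nat_lit 0) (XT.nd (nat_lit 78) (nat_lit 0) (nat_lit 76) (XT.lf (nat_lit 76) (nat_lit 29579008346) (nat_lit 0) (nat_lit 16898184204) (nat_lit 760) (nat_lit 63570032380) (nat_lit 64) (nat_lit 5) (nat_lit 63) (nat_lit 5) (nat_lit 73) (nat_lit 5) (nat_lit 312) (nat_lit 302) (nat_lit 106)) (XT.lf (nat_lit 0) (nat_lit 54010665428) (nat_lit 684) (nat_lit 34461712582) (nat_lit 76) (nat_lit 24679473018) (nat_lit 64) (nat_lit 5) (nat_lit 73) (nat_lit 5) (nat_lit 65) (nat_lit 5) (nat_lit 313) (nat_lit 302) (nat_lit 105))) (XT.nd (nat_lit 78) (nat_lit 0) (nat_lit 0) (XT.lf (nat_lit 0) (nat_lit 14016424551) (nat_lit 684) (nat_lit 48399916186) (nat_lit 760) (nat_lit 53970592663) (nat_lit 55) (nat_lit 5) (nat_lit 64) (nat_lit 5) (nat_lit 65) (nat_lit 5) (nat_lit 314) (nat_lit 302) (nat_lit 104)) (XT.lf (nat_lit 0) (nat_lit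 66114620219) (nat_lit 684) (nat_lit 5710990225) (nat_lit 760) (nat_lit 47928995257) (nat_lit 55) (nat_lit 5) (nat_lit 64) (nat_lit 5) (nat_lit 65) (nat_lit 5) (nat_lit 315) (nat_lit 302) (nat_lit 103)))) (XT.nd (nat_lit 156) (nat_lit 304) (nat_lit 0) (XT.nd (nat_lit 78) (nat_lit 304) (nat_lit 0) (XT.lf (nat_lit 0) (nat_lit 82315697900) (nat_lit 760) (nat_lit 3083874411) (nat_lit 76) (nat_lit 37860572871) (nat_lit 55) (nat_lit 5) (nat_lit 65) (nat_lit 5) (nat_lit 56) (nat_lit 5) (nat_lit 316) (nat_lit 302) (nat_lit 102)) (XT.lf (nat_lit 0) (nat_lit 51556271056) (nat_lit 304) (nat_lit 42672293974) (nat_lit 380) (nat_lit 32667484058) (nat_lit 51) (nat_lit 5) (nat_lit 55) (nat_lit 5) (nat_lit 56) (nat_lit 5) (nat_lit 317) (nat_lit 302) (nat_lit 101))) (XT.nd (nat_lit 78) (nat_lit 304) (nat_lit 0) (XT.lf (nat_lit 0) (nat_lit 106824095896) (nat_lit 380) (nat_lit 21710998903) (nat_lit 76)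 (nat_lit 2174303530) (nat_lit 51) (nat_lit 5) (nat_lit 56) (nat_lit 5) (nat_lit 52) (nat_lit 5) (nat_lit 318) (nat_lit 302) (nat_lit 100)) (XT.nd (nat_lit 78) (nat_lit 0) (nat_lit 0) (XT.lf (nat_lit 0) (nat_lit 35020272474) (nat_lit 304) (nat_lit 86275178569) (nat_lit 380) (nat_lit 13355662706) (nat_lit 47) (nat_lit 5) (nat_lit 51) (nat_lit 5) (nat_lit 52) (nat_lit 5) (nat_lit 319) (nat_lit 302) (nat_lit 99)) (XT.lf (nat_lit 0) (nat_lit 95341600277) (nat_lit 304) (nat_lit 41516205668) (nat_lit 380) (nat_lit 1913738446) (nat_lit 47) (nat_lit 5) (nat_lit 51) (nat_lit 5) (nat_lit 52) (nat_lit 5) (nat_lit 320) (nat_lit 302) (nat_lit 98))))))))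
noncomputable def xc251 : XT := (XT.nd (nat_lit 36894) (nat_lit 0) (nat_lit 228) (XT.nd (nat_lit 36192) (nat_lit 0) (nat_lit 1824) (XT.nd (nat_lit 312) (nat_lit 228) (nat_lit 0) (XT.nd (nat_lit 156) (nat_lit 304) (nat_lit 0) (XT.nd (nat_lit 78) (nat_lit 0) (nat_lit 0) (XT.lf (nat_lit 0) (nat_lit 10117753866) (nat_lit 304) (nat_lit 127236920413) (nat_lit 76) (nat_lit 5718401357) (nat_lit 43) (nat_lit 5) (nat_lit 47) (nat_lit 5) (nat_lit 44) (nat_lit 5) (nat_lit 321) (nat_lit 302) (nat_lit 97)) (XT.lf (nat_lit 0) (nat_lit 24114425174) (nat_lit 304) (nat_lit 68703851718) (nat_lit 76) (nat_lit 54698442893) (nat_lit 43) (nat_lit 5) (nat_lit 47) (nat_lit 5) (nat_lit 44) (nat_lit 5) (nat_lit 322) (nat_lit 302) (nat_lit 96))) (XT.nd (nat_lit 78) (nat_lit 304) (nat_lit 0) (XT.lf (nat_lit 0) (nat_lit 38810701850) (nat_lit 304) (nat_lit 7244385741) (nat_lit 76) (nat_lit 106127470825) (nat_lit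 43) (nat_lit 5) (nat_lit 47) (nat_lit 5) (nat_lit 44) (nat_lit 5) (nat_lit 323) (nat_lit 302) (nat_lit 95)) (XT.lf (nat_lit 0) (nat_lit 55228279708) (nat_lit 380) (nat_lit 97916205290) (nat_lit 76) (nat_lit 3887880438) (nat_lit 39) (nat_lit 5) (nat_lit 44) (nat_lit 5) (nat_lit 40) (nat_lit 5) (nat_lit 324) (nat_lit 302) (nat_lit 94)))) (XT.nd (nat_lit 156) (nat_lit 0) (nat_lit 0) (XT.nd (nat_lit 78) (nat_lit 228) (nat_lit 0) (XT.lf (nat_lit 0) (nat_lit 73346225151) (nat_lit 380) (nat_lit 33829549990) (nat_lit 76) (nat_lit 54904914015) (nat_lit 39) (nat_lit 5) (nat_lit 44) (nat_lit 5) (nat_lit 40) (nat_lit 5) (nat_lit 325) (nat_lit 302) (nat_lit 93)) (XT.lf (nat_lit 0) (nat_lit 34567577497) (nat_lit 228) (nat_lit 58341986000) (nat_lit 304) (nat_lit 74444891530) (nat_lit 36) (nat_lit 5) (nat_lit 39) (nat_lit 5) (nat_lit 40) (nat_lit 5) (nat_lit 326) (nat_lit 302) (nat_lit 92))) (XT.nd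 (nat_lit 35646) (nat_lit 0) (nat_lit 1824) (XT.lf (nat_lit 0) (nat_lit 107558811861) (nat_lit 228) (nat_lit 6464981474) (nat_lit 304) (nat_lit 58839480338) (nat_lit 36) (nat_lit 5) (nat_lit 39) (nat_lit 5) (nat_lit 40) (nat_lit 5) (nat_lit 327) (nat_lit 302) (nat_lit 91)) (XT.lf (nat_lit 0) (nat_lit 3478382009) (nat_lit 0) (nat_lit 3478382009) (nat_lit 684) (nat_lit 37577344684) (nat_lit 60) (nat_lit 5) (nat_lit 60) (nat_lit 3) (nat_lit 69) (nat_lit 3) (nat_lit 303) (nat_lit 303) (nat_lit 114))))) (XT.nd (nat_lit 312) (nat_lit 0) (nat_lit 76) (XT.nd (nat_lit 156) (nat_lit 0) (nat_lit 76) (XT.nd (nat_lit 78) (nat_lit 0) (nat_lit 0) (XT.lf (nat_lit 0) (nat_lit 14751424727) (nat_lit 684) (nat_lit 46594318287) (nat_lit 760) (nat_lit 29924644394) (nat_lit 60) (nat_lit 5) (nat_lit 69) (nat_lit 3) (nat_lit 70) (nat_lit 5) (nat_lit 304) (nat_lit 303) (nat_lit 113)) (XT.lf (nat_lit 0) (nat_lit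 15744791383) (nat_lit 684) (nat_lit 9415638158) (nat_lit 760) (nat_lit 68416559695) (nat_lit 60) (nat_lit 5) (nat_lit 69) (nat_lit 3) (nat_lit 70) (nat_lit 5) (nat_lit 305) (nat_lit 303) (nat_lit 112))) (XT.nd (nat_lit 78) (nat_lit 0) (nat_lit 0) (XT.lf (nat_lit 0) (nat_lit 17473360658) (nat_lit 684) (nat_lit 65582119243) (nat_lit 760) (nat_lit 12909166522) (nat_lit 61) (nat_lit 5) (nat_lit 70) (nat_lit 5) (nat_lit 71) (nat_lit 5) (nat_lit 306) (nat_lit 303) (nat_lit 111)) (XT.lf (nat_lit 0) (nat_lit 19862469370) (nat_lit 684) (nat_lit 26381579061) (nat_lit 760) (nat_lit 52198934377) (nat_lit 61) (nat_lit 5) (nat_lit 70) (nat_lit 5) (nat_lit 71) (nat_lit 5) (nat_lit 307) (nat_lit 303) (nat_lit 110)))) (XT.nd (nat_lit 156) (nat_lit 0) (nat_lit 76) (XT.nd (nat_lit 78) (nat_lit 0) (nat_lit 76) (XT.lf (nat_lit 76) (nat_lit 15267376807) (nat_lit 0) (nat_lit 7341616065) (nat_lit 760) (nat_lit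 78424346970) (nat_lit 62) (nat_lit 5) (nat_lit 61) (nat_lit 5) (nat_lit 71) (nat_lit 5) (nat_lit 308) (nat_lit 303) (nat_lit 109)) (XT.lf (nat_lit 0) (nat_lit 26469683540) (nat_lit 684) (nat_lit 44346913972) (nat_lit 760) (nat_lit 32887776878) (nat_lit 62) (nat_lit 5) (nat_lit 71) (nat_lit 5) (nat_lit 72) (nat_lit 5) (nat_lit 309) (nat_lit 303) (nat_lit 108))) (XT.nd (nat_lit 78) (nat_lit 0) (nat_lit 76) (XT.lf (nat_lit 0) (nat_lit 30643391913) (nat_lit 684) (nat_lit 977535269) (nat_lit 760) (nat_lit 74882035956) (nat_lit 62) (nat_lit 5) (nat_lit 71) (nat_lit 5) (nat_lit 72) (nat_lit 5) (nat_lit 310) (nat_lit 303) (nat_lit 107)) (XT.nd (nat_lit 78) (nat_lit 0) (nat_lit 0) (XT.lf (nat_lit 0) (nat_lit 35904787134) (nat_lit 684) (nat_lit 63532795958) (nat_lit 760) (nat_lit 9959949712) (nat_lit 63) (nat_lit 5) (nat_lit 72) (nat_lit 5) (nat_lit 73) (nat_lit 5) (nat_lit 311) (nat_lit 303)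 (nat_lit 106)) (XT.lf (nat_lit 0) (nat_lit 41964115181) (nat_lit 684) (nat_lit 17871861511) (nat_lit 760) (nat_lit 52574112587) (nat_lit 63) (nat_lit 5) (nat_lit 72) (nat_lit 5) (nat_lit 73) (nat_lit 5) (nat_lit 312) (nat_lit 303) (nat_lit 105))))))) (XT.nd (nat_lit 702) (nat_lit 608) (nat_lit 0) (XT.nd (nat_lit 312) (nat_lit 608) (nat_lit 0) (XT.nd (nat_lit 156) (nat_lit 608) (nat_lit 0) (XT.nd (nat_lit 78) (nat_lit 0) (nat_lit 76) (XT.lf (nat_lit 76) (nat_lit 31066172677) (nat_lit 0) (nat_lit 17744943908) (nat_lit 760) (nat_lit 66737923053) (nat_lit 64) (nat_lit 5) (nat_lit 63) (nat_lit 5) (nat_lit 73) (nat_lit 5) (nat_lit 313) (nat_lit 303) (nat_lit 104)) (XT.lf (nat_lit 0) (nat_lit 56720756335) (nat_lit 684) (nat_lit 36176427408) (nat_lit 76) (nat_lit 25911740701) (nat_lit 64) (nat_lit 5) (nat_lit 73) (nat_lit 5) (nat_lit 65) (nat_lit 5) (nat_lit 314) (nat_lit 303) (nat_lit 103)))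 (XT.nd (nat_lit 78) (nat_lit 0) (nat_lit 0) (XT.lf (nat_lit 0) (nat_lit 14725481569) (nat_lit 684) (nat_lit 50820907299) (nat_lit 760) (nat_lit 56659390359) (nat_lit 55) (nat_lit 5) (nat_lit 64) (nat_lit 5) (nat_lit 65) (nat_lit 5) (nat_lit 315) (nat_lit 303) (nat_lit 102)) (XT.lf (nat_lit 0) (nat_lit 69428194840) (nat_lit 684) (nat_lit 5997487644) (nat_lit 760) (nat_lit 50316176508) (nat_lit 55) (nat_lit 5) (nat_lit 64) (nat_lit 5) (nat_lit 65) (nat_lit 5) (nat_lit 316) (nat_lit 303) (nat_lit 101)))) (XT.nd (nat_lit 156) (nat_lit 304) (nat_lit 0) (XT.nd (nat_lit 78) (nat_lit 304) (nat_lit 0) (XT.lf (nat_lit 0) (nat_lit 86439841574) (nat_lit 760) (nat_lit 3230129651) (nat_lit 76) (nat_lit 39752727640) (nat_lit 55) (nat_lit 5) (nat_lit 65) (nat_lit 5) (nat_lit 56) (nat_lit 5) (nat_lit 317) (nat_lit 303) (nat_lit 100)) (XT.lf (nat_lit 0) (nat_lit 54141895049) (nat_lit 304) (nat_lit 44806180918)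 (nat_lit 380) (nat_lit 34292337502) (nat_lit 51) (nat_lit 5) (nat_lit 55) (nat_lit 5) (nat_lit 56) (nat_lit 5) (nat_lit 318) (nat_lit 303) (nat_lit 99))) (XT.nd (nat_lit 78) (nat_lit 304) (nat_lit 0) (XT.lf (nat_lit 0) (nat_lit 112172994438) (nat_lit 380) (nat_lit 22788689072) (nat_lit 76) (nat_lit 2282767724) (nat_lit 51) (nat_lit 5) (nat_lit 56) (nat_lit 5) (nat_lit 52) (nat_lit 5) (nat_lit 319) (nat_lit 303) (nat_lit 98)) (XT.nd (nat_lit 78) (nat_lit 0) (nat_lit 0) (XT.lf (nat_lit 0) (nat_lit 36779019103) (nat_lit 304) (nat_lit 90588652604) (nat_lit 380) (nat_lit 14015594539) (nat_lit 47) (nat_lit 5) (nat_lit 51) (nat_lit 5) (nat_lit 52) (nat_lit 5) (nat_lit 320) (nat_lit 303) (nat_lit 97)) (XT.lf (nat_lit 0) (nat_lit 100116045058) (nat_lit 304) (nat_lit 43591744624) (nat_lit 380) (nat_lit 2001947938) (nat_lit 47) (nat_lit 5) (nat_lit 51) (nat_lit 5) (nat_lit 52) (nat_lit 5) (nat_lit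 321) (nat_lit 303) (nat_lit 96)))))) (XT.nd (nat_lit 312) (nat_lit 0) (nat_lit 0) (XT.nd (nat_lit 156) (nat_lit 304) (nat_lit 0) (XT.nd (nat_lit 78) (nat_lit 0) (nat_lit 0) (XT.lf (nat_lit 0) (nat_lit 10630660008) (nat_lit 304) (nat_lit 133590888169) (nat_lit 76) (nat_lit 6004803725) (nat_lit 43) (nat_lit 5) (nat_lit 47) (nat_lit 5) (nat_lit 44) (nat_lit 5) (nat_lit 322) (nat_lit 303) (nat_lit 95)) (XT.lf (nat_lit 0) (nat_lit 25326830669) (nat_lit 304) (nat_lit 72131541195) (nat_lit 76) (nat_lit 57433824372) (nat_lit 43) (nat_lit 5) (nat_lit 47) (nat_lit 5) (nat_lit 44) (nat_lit 5) (nat_lit 323) (nat_lit 303) (nat_lit 94))) (XT.nd (nat_lit 78) (nat_lit 304) (nat_lit 0) (XT.lf (nat_lit 0) (nat_lit 40757602883) (nat_lit 304) (nat_lit 7599459210) (nat_lit 76) (nat_lit 111434281827) (nat_lit 43) (nat_lit 5) (nat_lit 47) (nat_lit 5) (nat_lit 44) (nat_lit 5) (nat_lit 324) (nat_lit 303) (nat_lit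 93)) (XT.lf (nat_lit 0) (nat_lit 57995879655) (nat_lit 380) (nat_lit 102804666788) (nat_lit 76) (nat_lit 4083104994) (nat_lit 39) (nat_lit 5) (nat_lit 44) (nat_lit 5) (nat_lit 40) (nat_lit 5) (nat_lit 325) (nat_lit 303) (nat_lit 92)))) (XT.nd (nat_lit 35880) (nat_lit 0) (nat_lit 1596) (XT.nd (nat_lit 35802) (nat_lit 0) (nat_lit 1596) (XT.lf (nat_lit 0) (nat_lit 77019427801) (nat_lit 380) (nat_lit 35514028663) (nat_lit 76) (nat_lit 57650950701) (nat_lit 39) (nat_lit 5) (nat_lit 44) (nat_lit 5) (nat_lit 40) (nat_lit 5) (nat_lit 326) (nat_lit 303) (nat_lit 91)) (XT.lf (nat_lit 0) (nat_lit 3655944786) (nat_lit 0) (nat_lit 3655944786) (nat_lit 684) (nat_lit 39448528196) (nat_lit 60) (nat_lit 5) (nat_lit 60) (nat_lit 3) (nat_lit 69) (nat_lit 3) (nat_lit 304) (nat_lit 304) (nat_lit 112))) (XT.nd (nat_lit 78) (nat_lit 0) (nat_lit 0) (XT.lf (nat_lit 0) (nat_lit 15502768281) (nat_lit 684) (nat_lit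 48916230520) (nat_lit 760) (nat_lit 31414158410) (nat_lit 60) (nat_lit 5) (nat_lit 69) (nat_lit 3) (nat_lit 70) (nat_lit 5) (nat_lit 305) (nat_lit 304) (nat_lit 111)) (XT.nd (nat_lit 78) (nat_lit 0) (nat_lit 76) (XT.lf (nat_lit 0) (nat_lit 16545147445) (nat_lit 684) (nat_lit 9878987989) (nat_lit 760) (nat_lit 71830989391) (nat_lit 60) (nat_lit 5) (nat_lit 69) (nat_lit 3) (nat_lit 70) (nat_lit 5) (nat_lit 306) (nat_lit 304) (nat_lit 110)) (XT.lf (nat_lit 0) (nat_lit 18359552100) (nat_lit 684) (nat_lit 68853144761) (nat_lit 760) (nat_lit 13549500428) (nat_lit 61) (nat_lit 5) (nat_lit 70) (nat_lit 5) (nat_lit 71) (nat_lit 5) (nat_lit 307) (nat_lit 304) (nat_lit 109))))))))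
noncomputable def xc252 : XT := (XT.nd (nat_lit 1326) (nat_lit 304) (nat_lit 0) (XT.nd (nat_lit 624) (nat_lit 1368) (nat_lit 0) (XT.nd (nat_lit 312) (nat_lit 0) (nat_lit 152) (XT.nd (nat_lit 156) (nat_lit 0) (nat_lit 76) (XT.nd (nat_lit 78) (nat_lit 0) (nat_lit 0) (XT.lf (nat_lit 0) (nat_lit 20867519895) (nat_lit 684) (nat_lit 27692962353) (nat_lit 760) (nat_lit 54804000695) (nat_lit 61) (nat_lit 5) (nat_lit 70) (nat_lit 5) (nat_lit 71) (nat_lit 5) (nat_lit 308) (nat_lit 304) (nat_lit 108)) (XT.lf (nat_lit 76) (nat_lit 16038317185) (nat_lit 0) (nat_lit 7712602645) (nat_lit 760) (nat_lit 82333462994) (nat_lit 62) (nat_lit 5) (nat_lit 61) (nat_lit 5) (nat_lit 71) (nat_lit 5) (nat_lit 309) (nat_lit 304) (nat_lit 107))) (XT.nd (nat_lit 78) (nat_lit 0) (nat_lit 0) (XT.lf (nat_lit 0) (nat_lit 27804040416) (nat_lit 684) (nat_lit 46556396310) (nat_lit 760) (nat_lit 34528564991) (nat_lit 62)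 (nat_lit 5) (nat_lit 71) (nat_lit 5) (nat_lit 72) (nat_lit 5) (nat_lit 310) (nat_lit 304) (nat_lit 106)) (XT.lf (nat_lit 0) (nat_lit 32185916461) (nat_lit 684) (nat_lit 1018923117) (nat_lit 760) (nat_lit 78622708486) (nat_lit 62) (nat_lit 5) (nat_lit 71) (nat_lit 5) (nat_lit 72) (nat_lit 5) (nat_lit 311) (nat_lit 304) (nat_lit 105)))) (XT.nd (nat_lit 156) (nat_lit 0) (nat_lit 0) (XT.nd (nat_lit 78) (nat_lit 0) (nat_lit 0) (XT.lf (nat_lit 0) (nat_lit 37709962656) (nat_lit 684) (nat_lit 66701484738) (nat_lit 760) (nat_lit 10455421924) (nat_lit 63) (nat_lit 5) (nat_lit 72) (nat_lit 5) (nat_lit 73) (nat_lit 5) (nat_lit 312) (nat_lit 304) (nat_lit 104)) (XT.lf (nat_lit 0) (nat_lit 44071783955) (nat_lit 684) (nat_lit 18757882188) (nat_lit 760) (nat_lit 55200413194) (nat_lit 63) (nat_lit 5) (nat_lit 72) (nat_lit 5) (nat_lit 73) (nat_lit 5) (nat_lit 313) (nat_lit 304) (nat_lit 103))) (XT.nd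 (nat_lit 78) (nat_lit 0) (nat_lit 76) (XT.lf (nat_lit 76) (nat_lit 32626931574) (nat_lit 0) (nat_lit 18633869556) (nat_lit 760) (nat_lit 70065194765) (nat_lit 64) (nat_lit 5) (nat_lit 63) (nat_lit 5) (nat_lit 73) (nat_lit 5) (nat_lit 314) (nat_lit 304) (nat_lit 102)) (XT.lf (nat_lit 0) (nat_lit 59565463208) (nat_lit 684) (nat_lit 37977656213) (nat_lit 76) (nat_lit 27205780373) (nat_lit 64) (nat_lit 5) (nat_lit 73) (nat_lit 5) (nat_lit 65) (nat_lit 5) (nat_lit 315) (nat_lit 304) (nat_lit 101))))) (XT.nd (nat_lit 312) (nat_lit 608) (nat_lit 0) (XT.nd (nat_lit 156) (nat_lit 304) (nat_lit 0) (XT.nd (nat_lit 78) (nat_lit 0) (nat_lit 0) (XT.lf (nat_lit 0) (nat_lit 15469225752) (nat_lit 684) (nat_lit 53362855433) (nat_lit 760) (nat_lit 59483532722) (nat_lit 55) (nat_lit 5) (nat_lit 64) (nat_lit 5) (nat_lit 65) (nat_lit 5) (nat_lit 316) (nat_lit 304) (nat_lit 100)) (XT.lf (nat_lit 0) (nat_lit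 72906718967) (nat_lit 684) (nat_lit 6298221807) (nat_lit 760) (nat_lit 52823578520) (nat_lit 55) (nat_lit 5) (nat_lit 64) (nat_lit 5) (nat_lit 65) (nat_lit 5) (nat_lit 317) (nat_lit 304) (nat_lit 99))) (XT.nd (nat_lit 78) (nat_lit 304) (nat_lit 0) (XT.lf (nat_lit 0) (nat_lit 90769415312) (nat_lit 760) (nat_lit 3384435699) (nat_lit 76) (nat_lit 41739571392) (nat_lit 55) (nat_lit 5) (nat_lit 65) (nat_lit 5) (nat_lit 56) (nat_lit 5) (nat_lit 318) (nat_lit 304) (nat_lit 98)) (XT.lf (nat_lit 0) (nat_lit 56856074101) (nat_lit 304) (nat_lit 47046736898) (nat_lit 380) (nat_lit 35999225797) (nat_lit 51) (nat_lit 5) (nat_lit 55) (nat_lit 5) (nat_lit 56) (nat_lit 5) (nat_lit 319) (nat_lit 304) (nat_lit 97)))) (XT.nd (nat_lit 156) (nat_lit 304) (nat_lit 0) (XT.nd (nat_lit 78) (nat_lit 304) (nat_lit 0) (XT.lf (nat_lit 0) (nat_lit 117788622615) (nat_lit 380) (nat_lit 23920994478) (nat_lit 76) (nat_lit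 2396678462) (nat_lit 51) (nat_lit 5) (nat_lit 56) (nat_lit 5) (nat_lit 52) (nat_lit 5) (nat_lit 320) (nat_lit 304) (nat_lit 96)) (XT.lf (nat_lit 0) (nat_lit 38624984122) (nat_lit 304) (nat_lit 95117826828) (nat_lit 380) (nat_lit 14709252903) (nat_lit 47) (nat_lit 5) (nat_lit 51) (nat_lit 5) (nat_lit 52) (nat_lit 5) (nat_lit 321) (nat_lit 304) (nat_lit 95))) (XT.nd (nat_lit 78) (nat_lit 304) (nat_lit 0) (XT.lf (nat_lit 0) (nat_lit 105128527371) (nat_lit 304) (nat_lit 45771085754) (nat_lit 380) (nat_lit 2095263085) (nat_lit 47) (nat_lit 5) (nat_lit 51) (nat_lit 5) (nat_lit 52) (nat_lit 5) (nat_lit 322) (nat_lit 304) (nat_lit 94)) (XT.nd (nat_lit 78) (nat_lit 0) (nat_lit 0) (XT.lf (nat_lit 0) (nat_lit 11168558948) (nat_lit 304) (nat_lit 140263286760) (nat_lit 76) (nat_lit 6305481372) (nat_lit 43) (nat_lit 5) (nat_lit 47) (nat_lit 5) (nat_lit 44) (nat_lit 5) (nat_lit 323) (nat_lit 304)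 (nat_lit 93)) (XT.lf (nat_lit 0) (nat_lit 26599235003) (nat_lit 304) (nat_lit 75731312714) (nat_lit 76) (nat_lit 60305932219) (nat_lit 43) (nat_lit 5) (nat_lit 47) (nat_lit 5) (nat_lit 44) (nat_lit 5) (nat_lit 324) (nat_lit 304) (nat_lit 92))))))) (XT.nd (nat_lit 36426) (nat_lit 0) (nat_lit 1216) (XT.nd (nat_lit 36114) (nat_lit 0) (nat_lit 1596) (XT.nd (nat_lit 35958) (nat_lit 0) (nat_lit 1596) (XT.nd (nat_lit 78) (nat_lit 304) (nat_lit 0) (XT.lf (nat_lit 0) (nat_lit 42801257122) (nat_lit 304) (nat_lit 7972950703) (nat_lit 76) (nat_lit 117006392708) (nat_lit 43) (nat_lit 5) (nat_lit 47) (nat_lit 5) (nat_lit 44) (nat_lit 5) (nat_lit 325) (nat_lit 304) (nat_lit 91)) (XT.lf (nat_lit 0) (nat_lit 60901284488) (nat_lit 380) (nat_lit 107938234578) (nat_lit 76) (nat_lit 4288013564) (nat_lit 39) (nat_lit 5) (nat_lit 44) (nat_lit 5) (nat_lit 40) (nat_lit 5) (nat_lit 326) (nat_lit 304) (nat_lit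 90))) (XT.nd (nat_lit 78) (nat_lit 0) (nat_lit 0) (XT.lf (nat_lit 0) (nat_lit 3842046948) (nat_lit 0) (nat_lit 3842046948) (nat_lit 684) (nat_lit 41413985244) (nat_lit 60) (nat_lit 5) (nat_lit 60) (nat_lit 3) (nat_lit 69) (nat_lit 3) (nat_lit 305) (nat_lit 305) (nat_lit 110)) (XT.lf (nat_lit 0) (nat_lit 16290398592) (nat_lit 684) (nat_lit 51354963878) (nat_lit 760) (nat_lit 32978772722) (nat_lit 60) (nat_lit 5) (nat_lit 69) (nat_lit 3) (nat_lit 70) (nat_lit 5) (nat_lit 306) (nat_lit 305) (nat_lit 109)))) (XT.nd (nat_lit 156) (nat_lit 0) (nat_lit 76) (XT.nd (nat_lit 78) (nat_lit 0) (nat_lit 76) (XT.lf (nat_lit 0) (nat_lit 17384301863) (nat_lit 684) (nat_lit 10366196275) (nat_lit 760) (nat_lit 75416735424) (nat_lit 60) (nat_lit 5) (nat_lit 69) (nat_lit 3) (nat_lit 70) (nat_lit 5) (nat_lit 307) (nat_lit 305) (nat_lit 108)) (XT.lf (nat_lit 0) (nat_lit 19288888807) (nat_lit 684) (nat_lit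 72288472797) (nat_lit 760) (nat_lit 14222327449) (nat_lit 61) (nat_lit 5) (nat_lit 70) (nat_lit 5) (nat_lit 71) (nat_lit 5) (nat_lit 308) (nat_lit 305) (nat_lit 107))) (XT.nd (nat_lit 78) (nat_lit 0) (nat_lit 0) (XT.lf (nat_lit 0) (nat_lit 21921714082) (nat_lit 684) (nat_lit 29070630279) (nat_lit 760) (nat_lit 57539774063) (nat_lit 61) (nat_lit 5) (nat_lit 70) (nat_lit 5) (nat_lit 71) (nat_lit 5) (nat_lit 309) (nat_lit 305) (nat_lit 106)) (XT.lf (nat_lit 76) (nat_lit 16847100652) (nat_lit 0) (nat_lit 8101775432) (nat_lit 760) (nat_lit 86439159885) (nat_lit 62) (nat_lit 5) (nat_lit 61) (nat_lit 5) (nat_lit 71) (nat_lit 5) (nat_lit 310) (nat_lit 305) (nat_lit 105))))) (XT.nd (nat_lit 312) (nat_lit 532) (nat_lit 0) (XT.nd (nat_lit 156) (nat_lit 0) (nat_lit 76) (XT.nd (nat_lit 78) (nat_lit 0) (nat_lit 0) (XT.lf (nat_lit 0) (nat_lit 29204104296) (nat_lit 684) (nat_lit 48877083826) (nat_lit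 760) (nat_lit 36251727272) (nat_lit 62) (nat_lit 5) (nat_lit 71) (nat_lit 5) (nat_lit 72) (nat_lit 5) (nat_lit 311) (nat_lit 305) (nat_lit 104)) (XT.lf (nat_lit 0) (nat_lit 33804604531) (nat_lit 684) (nat_lit 1063076607) (nat_lit 760) (nat_lit 82550733464) (nat_lit 62) (nat_lit 5) (nat_lit 71) (nat_lit 5) (nat_lit 72) (nat_lit 5) (nat_lit 312) (nat_lit 305) (nat_lit 103))) (XT.nd (nat_lit 78) (nat_lit 0) (nat_lit 0) (XT.lf (nat_lit 0) (nat_lit 39604473185) (nat_lit 684) (nat_lit 70029347168) (nat_lit 760) (nat_lit 10975902523) (nat_lit 63) (nat_lit 5) (nat_lit 72) (nat_lit 5) (nat_lit 73) (nat_lit 5) (nat_lit 313) (nat_lit 305) (nat_lit 102)) (XT.lf (nat_lit 0) (nat_lit 46283956387) (nat_lit 684) (nat_lit 19688907910) (nat_lit 760) (nat_lit 57958252428) (nat_lit 63) (nat_lit 5) (nat_lit 72) (nat_lit 5) (nat_lit 73) (nat_lit 5) (nat_lit 314) (nat_lit 305) (nat_lit 101)))) (XT.nd (nat_lit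 156) (nat_lit 608) (nat_lit 0) (XT.nd (nat_lit 78) (nat_lit 0) (nat_lit 76) (XT.lf (nat_lit 76) (nat_lit 34265035760) (nat_lit 0) (nat_lit 19567085439) (nat_lit 760) (nat_lit 73559724852) (nat_lit 64) (nat_lit 5) (nat_lit 63) (nat_lit 5) (nat_lit 73) (nat_lit 5) (nat_lit 315) (nat_lit 305) (nat_lit 100)) (XT.lf (nat_lit 0) (nat_lit 62551599459) (nat_lit 684) (nat_lit 39869652343) (nat_lit 76) (nat_lit 28564665888) (nat_lit 64) (nat_lit 5) (nat_lit 73) (nat_lit 5) (nat_lit 65) (nat_lit 5) (nat_lit 316) (nat_lit 305) (nat_lit 99))) (XT.nd (nat_lit 78) (nat_lit 0) (nat_lit 0) (XT.lf (nat_lit 0) (nat_lit 16249462644) (nat_lit 684) (nat_lit 56031817043) (nat_lit 760) (nat_lit 62449702869) (nat_lit 55) (nat_lit 5) (nat_lit 64) (nat_lit 5) (nat_lit 65) (nat_lit 5) (nat_lit 317) (nat_lit 305) (nat_lit 98)) (XT.nd (nat_lit 78) (nat_lit 0) (nat_lit 0) (XT.lf (nat_lit 0) (nat_lit 76558507873)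 (nat_lit 684) (nat_lit 6613912743) (nat_lit 760) (nat_lit 55457132218) (nat_lit 55) (nat_lit 5) (nat_lit 64) (nat_lit 5) (nat_lit 65) (nat_lit 5) (nat_lit 318) (nat_lit 305) (nat_lit 97)) (XT.lf (nat_lit 0) (nat_lit 95314762866) (nat_lit 760) (nat_lit 3547126476) (nat_lit 76) (nat_lit 43825831022) (nat_lit 55) (nat_lit 5) (nat_lit 65) (nat_lit 5) (nat_lit 56) (nat_lit 5) (nat_lit 319) (nat_lit 305) (nat_lit 96))))))))
noncomputable def xc253 : XT := (XT.nd (nat_lit 37362) (nat_lit 0) (nat_lit 304) (XT.nd (nat_lit 36660) (nat_lit 0) (nat_lit 1368) (XT.nd (nat_lit 312) (nat_lit 304) (nat_lit 0) (XT.nd (nat_lit 156) (nat_lit 304) (nat_lit 0) (XT.nd (nat_lit 78) (nat_lit 0) (nat_lit 0) (XT.lf (nat_lit 0) (nat_lit 59705303474) (nat_lit 304) (nat_lit 49399297719) (nat_lit 380) (nat_lit 37792177037) (nat_lit 51) (nat_lit 5) (nat_lit 55) (nat_lit 5) (nat_lit 56) (nat_lit 5) (nat_lit 320) (nat_lit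 305) (nat_lit 95)) (XT.lf (nat_lit 0) (nat_lit 123684383410) (nat_lit 380) (nat_lit 25110577945) (nat_lit 76) (nat_lit 2516305902) (nat_lit 51) (nat_lit 5) (nat_lit 56) (nat_lit 5) (nat_lit 52) (nat_lit 5) (nat_lit 321) (nat_lit 305) (nat_lit 94))) (XT.nd (nat_lit 78) (nat_lit 0) (nat_lit 0) (XT.lf (nat_lit 0) (nat_lit 40562595291) (nat_lit 304) (nat_lit 99873483787) (nat_lit 380) (nat_lit 15438256263) (nat_lit 47) (nat_lit 5) (nat_lit 51) (nat_lit 5) (nat_lit 52) (nat_lit 5) (nat_lit 322) (nat_lit 305) (nat_lit 93)) (XT.lf (nat_lit 0) (nat_lit 110391012752) (nat_lit 304) (nat_lit 48059416820) (nat_lit 380) (nat_lit 2193874538) (nat_lit 47) (nat_lit 5) (nat_lit 51) (nat_lit 5) (nat_lit 52) (nat_lit 5) (nat_lit 323) (nat_lit 305) (nat_lit 92)))) (XT.nd (nat_lit 36192) (nat_lit 0) (nat_lit 1292) (XT.nd (nat_lit 36114) (nat_lit 0) (nat_lit 1292) (XT.lf (nat_lit 0) (nat_lit 11732760990)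 (nat_lit 304) (nat_lit 147269969630) (nat_lit 76) (nat_lit 6621152230) (nat_lit 43) (nat_lit 5) (nat_lit 47) (nat_lit 5) (nat_lit 44) (nat_lit 5) (nat_lit 324) (nat_lit 305) (nat_lit 91)) (XT.lf (nat_lit 0) (nat_lit 4037146958) (nat_lit 0) (nat_lit 4037146958) (nat_lit 684) (nat_lit 43478363089) (nat_lit 60) (nat_lit 5) (nat_lit 60) (nat_lit 3) (nat_lit 69) (nat_lit 3) (nat_lit 306) (nat_lit 306) (nat_lit 108))) (XT.nd (nat_lit 78) (nat_lit 0) (nat_lit 0) (XT.lf (nat_lit 0) (nat_lit 17116249041) (nat_lit 684) (nat_lit 53916291964) (nat_lit 760) (nat_lit 34622184276) (nat_lit 60) (nat_lit 5) (nat_lit 69) (nat_lit 3) (nat_lit 70) (nat_lit 5) (nat_lit 307) (nat_lit 306) (nat_lit 107)) (XT.lf (nat_lit 0) (nat_lit 18264307927) (nat_lit 684) (nat_lit 10878391701) (nat_lit 760) (nat_lit 79182308306) (nat_lit 60) (nat_lit 5) (nat_lit 69) (nat_lit 3) (nat_lit 70) (nat_lit 5) (nat_lit 308) (nat_lit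 306) (nat_lit 106))))) (XT.nd (nat_lit 312) (nat_lit 0) (nat_lit 76) (XT.nd (nat_lit 156) (nat_lit 0) (nat_lit 0) (XT.nd (nat_lit 78) (nat_lit 0) (nat_lit 0) (XT.lf (nat_lit 0) (nat_lit 20263636288) (nat_lit 684) (nat_lit 75896248635) (nat_lit 760) (nat_lit 14929227948) (nat_lit 61) (nat_lit 5) (nat_lit 70) (nat_lit 5) (nat_lit 71) (nat_lit 5) (nat_lit 309) (nat_lit 306) (nat_lit 105)) (XT.lf (nat_lit 0) (nat_lit 23027612206) (nat_lit 684) (nat_lit 30517830553) (nat_lit 760) (nat_lit 60412747649) (nat_lit 61) (nat_lit 5) (nat_lit 70) (nat_lit 5) (nat_lit 71) (nat_lit 5) (nat_lit 310) (nat_lit 306) (nat_lit 104))) (XT.nd (nat_lit 78) (nat_lit 0) (nat_lit 76) (XT.lf (nat_lit 76) (nat_lit 17695684808) (nat_lit 0) (nat_lit 8510077496) (nat_lit 760) (nat_lit 90751162089) (nat_lit 62) (nat_lit 5) (nat_lit 61) (nat_lit 5) (nat_lit 71) (nat_lit 5) (nat_lit 311) (nat_lit 306) (nat_lit 103))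 (XT.lf (nat_lit 0) (nat_lit 30673254508) (nat_lit 684) (nat_lit 51314468811) (nat_lit 760) (nat_lit 38061351305) (nat_lit 62) (nat_lit 5) (nat_lit 71) (nat_lit 5) (nat_lit 72) (nat_lit 5) (nat_lit 312) (nat_lit 306) (nat_lit 102)))) (XT.nd (nat_lit 156) (nat_lit 0) (nat_lit 76) (XT.nd (nat_lit 78) (nat_lit 0) (nat_lit 76) (XT.lf (nat_lit 0) (nat_lit 35503353802) (nat_lit 684) (nat_lit 1110069288) (nat_lit 760) (nat_lit 86675448870) (nat_lit 62) (nat_lit 5) (nat_lit 71) (nat_lit 5) (nat_lit 72) (nat_lit 5) (nat_lit 313) (nat_lit 306) (nat_lit 101)) (XT.lf (nat_lit 0) (nat_lit 41592871352) (nat_lit 684) (nat_lit 73524273204) (nat_lit 760) (nat_lit 11522620101) (nat_lit 63) (nat_lit 5) (nat_lit 72) (nat_lit 5) (nat_lit 73) (nat_lit 5) (nat_lit 314) (nat_lit 306) (nat_lit 100))) (XT.nd (nat_lit 78) (nat_lit 0) (nat_lit 0) (XT.lf (nat_lit 0) (nat_lit 48605939452) (nat_lit 684) (nat_lit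 20667123474) (nat_lit 760) (nat_lit 60854186432) (nat_lit 63) (nat_lit 5) (nat_lit 72) (nat_lit 5) (nat_lit 73) (nat_lit 5) (nat_lit 315) (nat_lit 306) (nat_lit 99)) (XT.nd (nat_lit 78) (nat_lit 0) (nat_lit 76) (XT.lf (nat_lit 76) (nat_lit 35984416898) (nat_lit 0) (nat_lit 20546820578) (nat_lit 760) (nat_lit 77229793044) (nat_lit 64) (nat_lit 5) (nat_lit 63) (nat_lit 5) (nat_lit 73) (nat_lit 5) (nat_lit 316) (nat_lit 306) (nat_lit 98)) (XT.lf (nat_lit 0) (nat_lit 65686311486) (nat_lit 684) (nat_lit 41856888538) (nat_lit 76) (nat_lit 29991626162) (nat_lit 64) (nat_lit 5) (nat_lit 73) (nat_lit 5) (nat_lit 65) (nat_lit 5) (nat_lit 317) (nat_lit 306) (nat_lit 97))))))) (XT.nd (nat_lit 36816) (nat_lit 0) (nat_lit 988) (XT.nd (nat_lit 312) (nat_lit 304) (nat_lit 0) (XT.nd (nat_lit 156) (nat_lit 304) (nat_lit 0) (XT.nd (nat_lit 78) (nat_lit 0) (nat_lit 0) (XT.lf (nat_lit 0) (nat_lit 17068081450)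 (nat_lit 684) (nat_lit 58834150606) (nat_lit 760) (nat_lit 65564925891) (nat_lit 55) (nat_lit 5) (nat_lit 64) (nat_lit 5) (nat_lit 65) (nat_lit 5) (nat_lit 318) (nat_lit 306) (nat_lit 96)) (XT.lf (nat_lit 0) (nat_lit 80392286289) (nat_lit 684) (nat_lit 6945315724) (nat_lit 760) (nat_lit 58223072522) (nat_lit 55) (nat_lit 5) (nat_lit 64) (nat_lit 5) (nat_lit 65) (nat_lit 5) (nat_lit 319) (nat_lit 306) (nat_lit 95))) (XT.nd (nat_lit 78) (nat_lit 304) (nat_lit 0) (XT.lf (nat_lit 0) (nat_lit 100086738459) (nat_lit 760) (nat_lit 3718558984) (nat_lit 76) (nat_lit 46016470474) (nat_lit 55) (nat_lit 5) (nat_lit 65) (nat_lit 5) (nat_lit 56) (nat_lit 5) (nat_lit 320) (nat_lit 306) (nat_lit 94)) (XT.lf (nat_lit 0) (nat_lit 62696396919) (nat_lit 304) (nat_lit 51869465758) (nat_lit 380) (nat_lit 39675427568) (nat_lit 51) (nat_lit 5) (nat_lit 55) (nat_lit 5) (nat_lit 56) (nat_lit 5) (nat_lit 321)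 (nat_lit 306) (nat_lit 93)))) (XT.nd (nat_lit 156) (nat_lit 0) (nat_lit 0) (XT.nd (nat_lit 78) (nat_lit 304) (nat_lit 0) (XT.lf (nat_lit 0) (nat_lit 129874343773) (nat_lit 380) (nat_lit 26360241756) (nat_lit 76) (nat_lit 2641933910) (nat_lit 51) (nat_lit 5) (nat_lit 56) (nat_lit 5) (nat_lit 52) (nat_lit 5) (nat_lit 322) (nat_lit 306) (nat_lit 92)) (XT.lf (nat_lit 0) (nat_lit 42596495543) (nat_lit 304) (nat_lit 104866945384) (nat_lit 380) (nat_lit 16204310314) (nat_lit 47) (nat_lit 5) (nat_lit 51) (nat_lit 5) (nat_lit 52) (nat_lit 5) (nat_lit 323) (nat_lit 306) (nat_lit 91))) (XT.nd (nat_lit 36192) (nat_lit 0) (nat_lit 988) (XT.lf (nat_lit 0) (nat_lit 115916059092) (nat_lit 304) (nat_lit 50462185193) (nat_lit 380) (nat_lit 2297988492) (nat_lit 47) (nat_lit 5) (nat_lit 51) (nat_lit 5) (nat_lit 52) (nat_lit 5) (nat_lit 324) (nat_lit 306) (nat_lit 90)) (XT.nd (nat_lit 78) (nat_lit 0) (nat_lit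 0) (XT.lf (nat_lit 0) (nat_lit 4241723274) (nat_lit 0) (nat_lit 4241723274) (nat_lit 684) (nat_lit 45646547532) (nat_lit 60) (nat_lit 5) (nat_lit 60) (nat_lit 3) (nat_lit 69) (nat_lit 3) (nat_lit 307) (nat_lit 307) (nat_lit 106)) (XT.lf (nat_lit 0) (nat_lit 17982338609) (nat_lit 684) (nat_lit 56606283335) (nat_lit 760) (nat_lit 36348280263) (nat_lit 60) (nat_lit 5) (nat_lit 69) (nat_lit 3) (nat_lit 70) (nat_lit 5) (nat_lit 308) (nat_lit 307) (nat_lit 105)))))) (XT.nd (nat_lit 312) (nat_lit 0) (nat_lit 152) (XT.nd (nat_lit 156) (nat_lit 0) (nat_lit 76) (XT.nd (nat_lit 78) (nat_lit 0) (nat_lit 76) (XT.lf (nat_lit 0) (nat_lit 19187311052) (nat_lit 684) (nat_lit 11416765355) (nat_lit 760) (nat_lit 83136649220) (nat_lit 60) (nat_lit 5) (nat_lit 69) (nat_lit 3) (nat_lit 70) (nat_lit 5) (nat_lit 309) (nat_lit 307) (nat_lit 104)) (XT.lf (nat_lit 0) (nat_lit 21286163263) (nat_lit 684) (nat_lit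 79685031315) (nat_lit 760) (nat_lit 15671865424) (nat_lit 61) (nat_lit 5) (nat_lit 70) (nat_lit 5) (nat_lit 71) (nat_lit 5) (nat_lit 310) (nat_lit 307) (nat_lit 103))) (XT.nd (nat_lit 78) (nat_lit 0) (nat_lit 0) (XT.lf (nat_lit 0) (nat_lit 24187892970) (nat_lit 684) (nat_lit 32037979459) (nat_lit 760) (nat_lit 63429743201) (nat_lit 61) (nat_lit 5) (nat_lit 70) (nat_lit 5) (nat_lit 71) (nat_lit 5) (nat_lit 311) (nat_lit 307) (nat_lit 102)) (XT.lf (nat_lit 76) (nat_lit 18586119046) (nat_lit 0) (nat_lit 8938495922) (nat_lit 760) (nat_lit 95279689998) (nat_lit 62) (nat_lit 5) (nat_lit 61) (nat_lit 5) (nat_lit 71) (nat_lit 5) (nat_lit 312) (nat_lit 307) (nat_lit 101)))) (XT.nd (nat_lit 156) (nat_lit 0) (nat_lit 76) (XT.nd (nat_lit 78) (nat_lit 0) (nat_lit 0) (XT.lf (nat_lit 0) (nat_lit 32215030609) (nat_lit 684) (nat_lit 53874324491) (nat_lit 760) (nat_lit 39961731949) (nat_lit 62) (nat_lit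 5) (nat_lit 71) (nat_lit 5) (nat_lit 72) (nat_lit 5) (nat_lit 313) (nat_lit 307) (nat_lit 100)) (XT.lf (nat_lit 0) (nat_lit 37286248517) (nat_lit 684) (nat_lit 1159984409) (nat_lit 760) (nat_lit 91006662341) (nat_lit 62) (nat_lit 5) (nat_lit 71) (nat_lit 5) (nat_lit 72) (nat_lit 5) (nat_lit 314) (nat_lit 307) (nat_lit 99))) (XT.nd (nat_lit 78) (nat_lit 0) (nat_lit 0) (XT.lf (nat_lit 0) (nat_lit 43679929440) (nat_lit 684) (nat_lit 77194553692) (nat_lit 760) (nat_lit 12096866708) (nat_lit 63) (nat_lit 5) (nat_lit 72) (nat_lit 5) (nat_lit 73) (nat_lit 5) (nat_lit 315) (nat_lit 307) (nat_lit 98)) (XT.nd (nat_lit 78) (nat_lit 0) (nat_lit 0) (XT.lf (nat_lit 0) (nat_lit 51043297873) (nat_lit 684) (nat_lit 21694829008) (nat_lit 760) (nat_lit 63895101089) (nat_lit 63) (nat_lit 5) (nat_lit 72) (nat_lit 5) (nat_lit 73) (nat_lit 5) (nat_lit 316) (nat_lit 307) (nat_lit 97)) (XT.lf (nat_lit 76)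 (nat_lit 37789197243) (nat_lit 0) (nat_lit 21575414094) (nat_lit 760) (nat_lit 81084100791) (nat_lit 64) (nat_lit 5) (nat_lit 63) (nat_lit 5) (nat_lit 73) (nat_lit 5) (nat_lit 317) (nat_lit 307) (nat_lit 96))))))))
noncomputable def xc254 : XT := (XT.nd (nat_lit 37596) (nat_lit 0) (nat_lit 304) (XT.nd (nat_lit 36894) (nat_lit 0) (nat_lit 684) (XT.nd (nat_lit 312) (nat_lit 304) (nat_lit 0) (XT.nd (nat_lit 156) (nat_lit 0) (nat_lit 0) (XT.nd (nat_lit 78) (nat_lit 684) (nat_lit 0) (XT.lf (nat_lit 0) (nat_lit 68977096044) (nat_lit 684) (nat_lit 43944067276) (nat_lit 76) (nat_lit 31490052804) (nat_lit 64) (nat_lit 5) (nat_lit 73) (nat_lit 5) (nat_lit 65) (nat_lit 5) (nat_lit 318) (nat_lit 307) (nat_lit 95)) (XT.lf (nat_lit 0) (nat_lit 17927059829) (nat_lit 684) (nat_lit 61776531797) (nat_lit 760) (nat_lit 68836585227) (nat_lit 55) (nat_lit 5) (nat_lit 64) (nat_lit 5) (nat_lit 65) (nat_lit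 5) (nat_lit 319) (nat_lit 307) (nat_lit 94))) (XT.nd (nat_lit 78) (nat_lit 0) (nat_lit 0) (XT.lf (nat_lit 0) (nat_lit 84417209467) (nat_lit 684) (nat_lit 7293223091) (nat_lit 760) (nat_lit 61127952854) (nat_lit 55) (nat_lit 5) (nat_lit 64) (nat_lit 5) (nat_lit 65) (nat_lit 5) (nat_lit 320) (nat_lit 307) (nat_lit 93)) (XT.lf (nat_lit 0) (nat_lit 105096732932) (nat_lit 760) (nat_lit 3899113858) (nat_lit 76) (nat_lit 48316702525) (nat_lit 55) (nat_lit 5) (nat_lit 65) (nat_lit 5) (nat_lit 56) (nat_lit 5) (nat_lit 321) (nat_lit 307) (nat_lit 92)))) (XT.nd (nat_lit 36426) (nat_lit 0) (nat_lit 684) (XT.nd (nat_lit 78) (nat_lit 0) (nat_lit 0) (XT.lf (nat_lit 0) (nat_lit 65836503178) (nat_lit 304) (nat_lit 54463123312) (nat_lit 380) (nat_lit 41653431761) (nat_lit 51) (nat_lit 5) (nat_lit 55) (nat_lit 5) (nat_lit 56) (nat_lit 5) (nat_lit 322) (nat_lit 307) (nat_lit 91)) (XT.lf (nat_lit 0) (nat_lit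 136373268393) (nat_lit 380) (nat_lit 27672934038) (nat_lit 76) (nat_lit 2773860731) (nat_lit 51) (nat_lit 5) (nat_lit 56) (nat_lit 5) (nat_lit 52) (nat_lit 5) (nat_lit 323) (nat_lit 307) (nat_lit 90))) (XT.nd (nat_lit 78) (nat_lit 0) (nat_lit 0) (XT.lf (nat_lit 0) (nat_lit 4456275622) (nat_lit 0) (nat_lit 4456275622) (nat_lit 684) (nat_lit 47923674264) (nat_lit 60) (nat_lit 5) (nat_lit 60) (nat_lit 3) (nat_lit 69) (nat_lit 3) (nat_lit 308) (nat_lit 308) (nat_lit 104)) (XT.lf (nat_lit 0) (nat_lit 18890777186) (nat_lit 684) (nat_lit 59431315664) (nat_lit 760) (nat_lit 38161147131) (nat_lit 60) (nat_lit 5) (nat_lit 69) (nat_lit 3) (nat_lit 70) (nat_lit 5) (nat_lit 309) (nat_lit 308) (nat_lit 103))))) (XT.nd (nat_lit 312) (nat_lit 0) (nat_lit 152) (XT.nd (nat_lit 156) (nat_lit 0) (nat_lit 76) (XT.nd (nat_lit 78) (nat_lit 0) (nat_lit 76) (XT.lf (nat_lit 0) (nat_lit 20155554363) (nat_lit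 684) (nat_lit 11982573301) (nat_lit 760) (nat_lit 87289151067) (nat_lit 60) (nat_lit 5) (nat_lit 69) (nat_lit 3) (nat_lit 70) (nat_lit 5) (nat_lit 310) (nat_lit 308) (nat_lit 102)) (XT.lf (nat_lit 0) (nat_lit 22358947763) (nat_lit 684) (nat_lit 83663813718) (nat_lit 760) (nat_lit 16451990286) (nat_lit 61) (nat_lit 5) (nat_lit 70) (nat_lit 5) (nat_lit 71) (nat_lit 5) (nat_lit 311) (nat_lit 308) (nat_lit 101))) (XT.nd (nat_lit 78) (nat_lit 0) (nat_lit 0) (XT.lf (nat_lit 0) (nat_lit 25405360320) (nat_lit 684) (nat_lit 33634669706) (nat_lit 760) (nat_lit 66597927115) (nat_lit 61) (nat_lit 5) (nat_lit 70) (nat_lit 5) (nat_lit 71) (nat_lit 5) (nat_lit 312) (nat_lit 308) (nat_lit 100)) (XT.lf (nat_lit 76) (nat_lit 19520549714) (nat_lit 0) (nat_lit 9388064301) (nat_lit 760) (nat_lit 100035483844) (nat_lit 62) (nat_lit 5) (nat_lit 61) (nat_lit 5) (nat_lit 71) (nat_lit 5) (nat_lit 313) (nat_lit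 308) (nat_lit 99)))) (XT.nd (nat_lit 156) (nat_lit 0) (nat_lit 76) (XT.nd (nat_lit 78) (nat_lit 0) (nat_lit 0) (XT.lf (nat_lit 0) (nat_lit 33833141211) (nat_lit 684) (nat_lit 56562718483) (nat_lit 760) (nat_lit 41957381430) (nat_lit 62) (nat_lit 5) (nat_lit 71) (nat_lit 5) (nat_lit 72) (nat_lit 5) (nat_lit 314) (nat_lit 308) (nat_lit 98)) (XT.lf (nat_lit 0) (nat_lit 39157569582) (nat_lit 684) (nat_lit 1212914837) (nat_lit 760) (nat_lit 95554674395) (nat_lit 62) (nat_lit 5) (nat_lit 71) (nat_lit 5) (nat_lit 72) (nat_lit 5) (nat_lit 315) (nat_lit 308) (nat_lit 97))) (XT.nd (nat_lit 78) (nat_lit 0) (nat_lit 0) (XT.lf (nat_lit 0) (nat_lit 45870651100) (nat_lit 684) (nat_lit 81048899815) (nat_lit 760) (nat_lit 12700000839) (nat_lit 63) (nat_lit 5) (nat_lit 72) (nat_lit 5) (nat_lit 73) (nat_lit 5) (nat_lit 316) (nat_lit 308) (nat_lit 96)) (XT.nd (nat_lit 78) (nat_lit 0) (nat_lit 0) (XT.lf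 (nat_lit 0) (nat_lit 53601867707) (nat_lit 684) (nat_lit 22774445162) (nat_lit 760) (nat_lit 67088228329) (nat_lit 63) (nat_lit 5) (nat_lit 72) (nat_lit 5) (nat_lit 73) (nat_lit 5) (nat_lit 317) (nat_lit 308) (nat_lit 95)) (XT.lf (nat_lit 76) (nat_lit 39683699737) (nat_lit 0) (nat_lit 22655320842) (nat_lit 760) (nat_lit 85131791630) (nat_lit 64) (nat_lit 5) (nat_lit 63) (nat_lit 5) (nat_lit 73) (nat_lit 5) (nat_lit 318) (nat_lit 308) (nat_lit 94))))))) (XT.nd (nat_lit 37128) (nat_lit 0) (nat_lit 0) (XT.nd (nat_lit 36738) (nat_lit 0) (nat_lit 380) (XT.nd (nat_lit 156) (nat_lit 0) (nat_lit 0) (XT.nd (nat_lit 78) (nat_lit 684) (nat_lit 0) (XT.lf (nat_lit 0) (nat_lit 72431818405) (nat_lit 684) (nat_lit 46136131693) (nat_lit 76) (nat_lit 33063508128) (nat_lit 64) (nat_lit 5) (nat_lit 73) (nat_lit 5) (nat_lit 65) (nat_lit 5) (nat_lit 319) (nat_lit 308) (nat_lit 93)) (XT.lf (nat_lit 0) (nat_lit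 18828468882) (nat_lit 684) (nat_lit 64865969416) (nat_lit 760) (nat_lit 72272439923) (nat_lit 55) (nat_lit 5) (nat_lit 64) (nat_lit 5) (nat_lit 65) (nat_lit 5) (nat_lit 320) (nat_lit 308) (nat_lit 92))) (XT.nd (nat_lit 78) (nat_lit 0) (nat_lit 0) (XT.lf (nat_lit 0) (nat_lit 88642885236) (nat_lit 684) (nat_lit 7658466179) (nat_lit 760) (nat_lit 64178660435) (nat_lit 55) (nat_lit 5) (nat_lit 64) (nat_lit 5) (nat_lit 65) (nat_lit 5) (nat_lit 321) (nat_lit 308) (nat_lit 91)) (XT.lf (nat_lit 0) (nat_lit 110356701144) (nat_lit 760) (nat_lit 4089196013) (nat_lit 76) (nat_lit 50732001168) (nat_lit 55) (nat_lit 5) (nat_lit 65) (nat_lit 5) (nat_lit 56) (nat_lit 5) (nat_lit 322) (nat_lit 308) (nat_lit 90)))) (XT.nd (nat_lit 156) (nat_lit 0) (nat_lit 0) (XT.nd (nat_lit 78) (nat_lit 0) (nat_lit 0) (XT.lf (nat_lit 0) (nat_lit 4681326305) (nat_lit 0) (nat_lit 4681326305) (nat_lit 684) (nat_lit 50315140838)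 (nat_lit 60) (nat_lit 5) (nat_lit 60) (nat_lit 3) (nat_lit 69) (nat_lit 3) (nat_lit 309) (nat_lit 309) (nat_lit 102)) (XT.lf (nat_lit 0) (nat_lit 19843771053) (nat_lit 684) (nat_lit 62398090664) (nat_lit 760) (nat_lit 40065080093) (nat_lit 60) (nat_lit 5) (nat_lit 69) (nat_lit 3) (nat_lit 70) (nat_lit 5) (nat_lit 310) (nat_lit 309) (nat_lit 101))) (XT.nd (nat_lit 78) (nat_lit 0) (nat_lit 76) (XT.lf (nat_lit 0) (nat_lit 21171384470) (nat_lit 684) (nat_lit 12577139315) (nat_lit 760) (nat_lit 91649680626) (nat_lit 60) (nat_lit 5) (nat_lit 69) (nat_lit 3) (nat_lit 70) (nat_lit 5) (nat_lit 311) (nat_lit 309) (nat_lit 100)) (XT.nd (nat_lit 78) (nat_lit 0) (nat_lit 0) (XT.lf (nat_lit 0) (nat_lit 23484583438) (nat_lit 684) (nat_lit 87842043712) (nat_lit 760) (nat_lit 17271443851) (nat_lit 61) (nat_lit 5) (nat_lit 70) (nat_lit 5) (nat_lit 71) (nat_lit 5) (nat_lit 312) (nat_lit 309) (nat_lit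 99)) (XT.lf (nat_lit 0) (nat_lit 26682950514) (nat_lit 684) (nat_lit 35311678722) (nat_lit 760) (nat_lit 69924827328) (nat_lit 61) (nat_lit 5) (nat_lit 70) (nat_lit 5) (nat_lit 71) (nat_lit 5) (nat_lit 313) (nat_lit 309) (nat_lit 98)))))) (XT.nd (nat_lit 312) (nat_lit 456) (nat_lit 0) (XT.nd (nat_lit 156) (nat_lit 0) (nat_lit 76) (XT.nd (nat_lit 78) (nat_lit 0) (nat_lit 76) (XT.lf (nat_lit 76) (nat_lit 20501225467) (nat_lit 0) (nat_lit 9859865325) (nat_lit 760) (nat_lit 105029828873) (nat_lit 62) (nat_lit 5) (nat_lit 61) (nat_lit 5) (nat_lit 71) (nat_lit 5) (nat_lit 314) (nat_lit 309) (nat_lit 97)) (XT.lf (nat_lit 0) (nat_lit 35531473166) (nat_lit 684) (nat_lit 59386026986) (nat_lit 760) (nat_lit 44053039965) (nat_lit 62) (nat_lit 5) (nat_lit 71) (nat_lit 5) (nat_lit 72) (nat_lit 5) (nat_lit 315) (nat_lit 309) (nat_lit 96))) (XT.nd (nat_lit 78) (nat_lit 0) (nat_lit 76) (XT.lf (nat_lit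 0) (nat_lit 41121805103) (nat_lit 684) (nat_lit 1268963035) (nat_lit 760) (nat_lit 100330302842) (nat_lit 62) (nat_lit 5) (nat_lit 71) (nat_lit 5) (nat_lit 72) (nat_lit 5) (nat_lit 316) (nat_lit 309) (nat_lit 95)) (XT.lf (nat_lit 0) (nat_lit 48170283599) (nat_lit 684) (nat_lit 85096463570) (nat_lit 760) (nat_lit 13333450582) (nat_lit 63) (nat_lit 5) (nat_lit 72) (nat_lit 5) (nat_lit 73) (nat_lit 5) (nat_lit 317) (nat_lit 309) (nat_lit 94)))) (XT.nd (nat_lit 156) (nat_lit 608) (nat_lit 0) (XT.nd (nat_lit 78) (nat_lit 0) (nat_lit 0) (XT.lf (nat_lit 0) (nat_lit 56287770563) (nat_lit 684) (nat_lit 23908518624) (nat_lit 760) (nat_lit 70441163271) (nat_lit 63) (nat_lit 5) (nat_lit 72) (nat_lit 5) (nat_lit 73) (nat_lit 5) (nat_lit 318) (nat_lit 309) (nat_lit 93)) (XT.lf (nat_lit 76) (nat_lit 41672458538) (nat_lit 0) (nat_lit 23789117308) (nat_lit 760) (nat_lit 89382472640) (nat_lit 64) (nat_lit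 5) (nat_lit 63) (nat_lit 5) (nat_lit 73) (nat_lit 5) (nat_lit 319) (nat_lit 309) (nat_lit 92))) (XT.nd (nat_lit 78) (nat_lit 684) (nat_lit 0) (XT.lf (nat_lit 0) (nat_lit 76058731374) (nat_lit 684) (nat_lit 48438277101) (nat_lit 76) (nat_lit 34715733588) (nat_lit 64) (nat_lit 5) (nat_lit 73) (nat_lit 5) (nat_lit 65) (nat_lit 5) (nat_lit 320) (nat_lit 309) (nat_lit 91)) (XT.nd (nat_lit 36660) (nat_lit 0) (nat_lit 380) (XT.lf (nat_lit 0) (nat_lit 19774478322) (nat_lit 684) (nat_lit 68109822109) (nat_lit 760) (nat_lit 75880642812) (nat_lit 55) (nat_lit 5) (nat_lit 64) (nat_lit 5) (nat_lit 65) (nat_lit 5) (nat_lit 321) (nat_lit 309) (nat_lit 90)) (XT.lf (nat_lit 0) (nat_lit 4917421556) (nat_lit 0) (nat_lit 4917421556) (nat_lit 684) (nat_lit 52826619297) (nat_lit 60) (nat_lit 5) (nat_lit 60) (nat_lit 3) (nat_lit 69) (nat_lit 3) (nat_lit 310) (nat_lit 310) (nat_lit 100))))))))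
noncomputable def xc255 : XT := (XT.nd (nat_lit 38064) (nat_lit 0) (nat_lit 0) (XT.nd (nat_lit 624) (nat_lit 0) (nat_lit 0) (XT.nd (nat_lit 312) (nat_lit 0) (nat_lit 76) (XT.nd (nat_lit 156) (nat_lit 0) (nat_lit 76) (XT.nd (nat_lit 78) (nat_lit 0) (nat_lit 0) (XT.lf (nat_lit 0) (nat_lit 20843628547) (nat_lit 684) (nat_lit 65513649815) (nat_lit 760) (nat_lit 42064593151) (nat_lit 60) (nat_lit 5) (nat_lit 69) (nat_lit 3) (nat_lit 70) (nat_lit 5) (nat_lit 311) (nat_lit 310) (nat_lit 99)) (XT.lf (nat_lit 0) (nat_lit 22237257447) (nat_lit 684) (nat_lit 13201857822) (nat_lit 760) (nat_lit 96228601851) (nat_lit 60) (nat_lit 5) (nat_lit 69) (nat_lit 3) (nat_lit 70) (nat_lit 5) (nat_lit 312) (nat_lit 310) (nat_lit 98))) (XT.nd (nat_lit 78) (nat_lit 0) (nat_lit 0) (XT.lf (nat_lit 0) (nat_lit 24665786114) (nat_lit 684) (nat_lit 92229646404) (nat_lit 760) (nat_lit 18132162575) (nat_lit 61) (nat_lit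 5) (nat_lit 70) (nat_lit 5) (nat_lit 71) (nat_lit 5) (nat_lit 313) (nat_lit 310) (nat_lit 97)) (XT.lf (nat_lit 0) (nat_lit 28023739471) (nat_lit 684) (nat_lit 37072977426) (nat_lit 760) (nat_lit 73418351105) (nat_lit 61) (nat_lit 5) (nat_lit 70) (nat_lit 5) (nat_lit 71) (nat_lit 5) (nat_lit 314) (nat_lit 310) (nat_lit 96)))) (XT.nd (nat_lit 156) (nat_lit 0) (nat_lit 76) (XT.nd (nat_lit 78) (nat_lit 0) (nat_lit 76) (XT.lf (nat_lit 76) (nat_lit 21530502856) (nat_lit 0) (nat_lit 10355033473) (nat_lit 760) (nat_lit 110274581845) (nat_lit 62) (nat_lit 5) (nat_lit 61) (nat_lit 5) (nat_lit 71) (nat_lit 5) (nat_lit 315) (nat_lit 310) (nat_lit 95)) (XT.lf (nat_lit 0) (nat_lit 37314101150) (nat_lit 684) (nat_lit 62350949722) (nat_lit 760) (nat_lit 46253686942) (nat_lit 62) (nat_lit 5) (nat_lit 71) (nat_lit 5) (nat_lit 72) (nat_lit 5) (nat_lit 316) (nat_lit 310) (nat_lit 94))) (XT.nd (nat_lit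 78) (nat_lit 0) (nat_lit 76) (XT.lf (nat_lit 0) (nat_lit 43183661383) (nat_lit 684) (nat_lit 1328241079) (nat_lit 760) (nat_lit 105344908439) (nat_lit 62) (nat_lit 5) (nat_lit 71) (nat_lit 5) (nat_lit 72) (nat_lit 5) (nat_lit 317) (nat_lit 310) (nat_lit 93)) (XT.lf (nat_lit 0) (nat_lit 50584330608) (nat_lit 684) (nat_lit 89346859324) (nat_lit 760) (nat_lit 13998716945) (nat_lit 63) (nat_lit 5) (nat_lit 72) (nat_lit 5) (nat_lit 73) (nat_lit 5) (nat_lit 318) (nat_lit 310) (nat_lit 92))))) (XT.nd (nat_lit 37050) (nat_lit 0) (nat_lit 0) (XT.nd (nat_lit 36894) (nat_lit 228) (nat_lit 0) (XT.nd (nat_lit 78) (nat_lit 0) (nat_lit 0) (XT.lf (nat_lit 0) (nat_lit 59107428452) (nat_lit 684) (nat_lit 25099727961) (nat_lit 760) (nat_lit 73961882228) (nat_lit 63) (nat_lit 5) (nat_lit 72) (nat_lit 5) (nat_lit 73) (nat_lit 5) (nat_lit 319) (nat_lit 310) (nat_lit 91)) (XT.lf (nat_lit 76) (nat_lit 43760230050)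 (nat_lit 0) (nat_lit 24979507798) (nat_lit 760) (nat_lit 93846237023) (nat_lit 64) (nat_lit 5) (nat_lit 63) (nat_lit 5) (nat_lit 73) (nat_lit 5) (nat_lit 320) (nat_lit 310) (nat_lit 90))) (XT.nd (nat_lit 78) (nat_lit 0) (nat_lit 0) (XT.lf (nat_lit 0) (nat_lit 5165132939) (nat_lit 0) (nat_lit 5165132939) (nat_lit 684) (nat_lit 55464069460) (nat_lit 60) (nat_lit 5) (nat_lit 60) (nat_lit 3) (nat_lit 69) (nat_lit 3) (nat_lit 311) (nat_lit 311) (nat_lit 98)) (XT.lf (nat_lit 0) (nat_lit 21892765931) (nat_lit 684) (nat_lit 68785390917) (nat_lit 760) (nat_lit 44164429659) (nat_lit 60) (nat_lit 5) (nat_lit 69) (nat_lit 3) (nat_lit 70) (nat_lit 5) (nat_lit 312) (nat_lit 311) (nat_lit 97)))) (XT.nd (nat_lit 156) (nat_lit 0) (nat_lit 76) (XT.nd (nat_lit 78) (nat_lit 0) (nat_lit 76) (XT.lf (nat_lit 0) (nat_lit 23355745039) (nat_lit 684) (nat_lit 13858197010) (nat_lit 760) (nat_lit 101036800372)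 (nat_lit 60) (nat_lit 5) (nat_lit 69) (nat_lit 3) (nat_lit 70) (nat_lit 5) (nat_lit 313) (nat_lit 311) (nat_lit 96)) (XT.lf (nat_lit 0) (nat_lit 25905400592) (nat_lit 684) (nat_lit 96837047550) (nat_lit 760) (nat_lit 19036182523) (nat_lit 61) (nat_lit 5) (nat_lit 70) (nat_lit 5) (nat_lit 71) (nat_lit 5) (nat_lit 314) (nat_lit 311) (nat_lit 95))) (XT.nd (nat_lit 78) (nat_lit 0) (nat_lit 0) (XT.lf (nat_lit 0) (nat_lit 29430950419) (nat_lit 684) (nat_lit 38922739466) (nat_lit 760) (nat_lit 77086803726) (nat_lit 61) (nat_lit 5) (nat_lit 70) (nat_lit 5) (nat_lit 71) (nat_lit 5) (nat_lit 315) (nat_lit 311) (nat_lit 94)) (XT.nd (nat_lit 78) (nat_lit 0) (nat_lit 76) (XT.lf (nat_lit 76) (nat_lit 22610852140) (nat_lit 0) (nat_lit 10874757830) (nat_lit 760) (nat_lit 115782198946) (nat_lit 62) (nat_lit 5) (nat_lit 61) (nat_lit 5) (nat_lit 71) (nat_lit 5) (nat_lit 316) (nat_lit 311) (nat_lit 93))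 (XT.lf (nat_lit 0) (nat_lit 39185297660) (nat_lit 684) (nat_lit 65464525677) (nat_lit 760) (nat_lit 48564552675) (nat_lit 62) (nat_lit 5) (nat_lit 71) (nat_lit 5) (nat_lit 72) (nat_lit 5) (nat_lit 317) (nat_lit 311) (nat_lit 92))))))) (XT.nd (nat_lit 74646) (nat_lit 0) (nat_lit 0) (XT.nd (nat_lit 37206) (nat_lit 0) (nat_lit 0) (XT.nd (nat_lit 37050) (nat_lit 152) (nat_lit 0) (XT.nd (nat_lit 78) (nat_lit 0) (nat_lit 76) (XT.lf (nat_lit 0) (nat_lit 45348074407) (nat_lit 684) (nat_lit 1390870722) (nat_lit 760) (nat_lit 110610421848) (nat_lit 62) (nat_lit 5) (nat_lit 71) (nat_lit 5) (nat_lit 72) (nat_lit 5) (nat_lit 318) (nat_lit 311) (nat_lit 91)) (XT.lf (nat_lit 0) (nat_lit 53118565578) (nat_lit 684) (nat_lit 93810186486) (nat_lit 760) (nat_lit 14697377357) (nat_lit 63) (nat_lit 5) (nat_lit 72) (nat_lit 5) (nat_lit 73) (nat_lit 5) (nat_lit 319) (nat_lit 311) (nat_lit 90))) (XT.nd (nat_lit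 78) (nat_lit 0) (nat_lit 0) (XT.lf (nat_lit 0) (nat_lit 5425058796) (nat_lit 0) (nat_lit 5425058796) (nat_lit 684) (nat_lit 58233752931) (nat_lit 60) (nat_lit 5) (nat_lit 60) (nat_lit 3) (nat_lit 69) (nat_lit 3) (nat_lit 312) (nat_lit 312) (nat_lit 96)) (XT.lf (nat_lit 0) (nat_lit 22993713484) (nat_lit 684) (nat_lit 72221085507) (nat_lit 760) (nat_lit 46369573456) (nat_lit 60) (nat_lit 5) (nat_lit 69) (nat_lit 3) (nat_lit 70) (nat_lit 5) (nat_lit 313) (nat_lit 312) (nat_lit 95)))) (XT.nd (nat_lit 156) (nat_lit 0) (nat_lit 76) (XT.nd (nat_lit 78) (nat_lit 0) (nat_lit 76) (XT.lf (nat_lit 0) (nat_lit 24529541108) (nat_lit 684) (nat_lit 14547702140) (nat_lit 760) (nat_lit 106085709261) (nat_lit 60) (nat_lit 5) (nat_lit 69) (nat_lit 3) (nat_lit 70) (nat_lit 5) (nat_lit 314) (nat_lit 312) (nat_lit 94)) (XT.lf (nat_lit 0) (nat_lit 27206407740) (nat_lit 684) (nat_lit 101675198183) (nat_lit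 760) (nat_lit 19985644093) (nat_lit 61) (nat_lit 5) (nat_lit 70) (nat_lit 5) (nat_lit 71) (nat_lit 5) (nat_lit 315) (nat_lit 312) (nat_lit 93))) (XT.nd (nat_lit 78) (nat_lit 0) (nat_lit 0) (XT.lf (nat_lit 0) (nat_lit 30907961862) (nat_lit 684) (nat_lit 40865350968) (nat_lit 760) (nat_lit 80938908145) (nat_lit 61) (nat_lit 5) (nat_lit 70) (nat_lit 5) (nat_lit 71) (nat_lit 5) (nat_lit 316) (nat_lit 312) (nat_lit 92)) (XT.nd (nat_lit 78) (nat_lit 0) (nat_lit 76) (XT.lf (nat_lit 76) (nat_lit 23744863356) (nat_lit 0) (nat_lit 11420285003) (nat_lit 760) (nat_lit 121565765137) (nat_lit 62) (nat_lit 5) (nat_lit 61) (nat_lit 5) (nat_lit 71) (nat_lit 5) (nat_lit 317) (nat_lit 312) (nat_lit 91)) (XT.lf (nat_lit 0) (nat_lit 41149543452) (nat_lit 684) (nat_lit 68734149665) (nat_lit 760) (nat_lit 50991130773) (nat_lit 62) (nat_lit 5) (nat_lit 71) (nat_lit 5) (nat_lit 72) (nat_lit 5) (nat_lit 318)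 (nat_lit 312) (nat_lit 90)))))) (XT.nd (nat_lit 312) (nat_lit 0) (nat_lit 0) (XT.nd (nat_lit 156) (nat_lit 0) (nat_lit 0) (XT.nd (nat_lit 78) (nat_lit 0) (nat_lit 0) (XT.lf (nat_lit 0) (nat_lit 5697825759) (nat_lit 0) (nat_lit 5697825759) (nat_lit 684) (nat_lit 61142247833) (nat_lit 60) (nat_lit 5) (nat_lit 60) (nat_lit 3) (nat_lit 69) (nat_lit 3) (nat_lit 313) (nat_lit 313) (nat_lit 94)) (XT.lf (nat_lit 0) (nat_lit 24149121841) (nat_lit 684) (nat_lit 75828897191) (nat_lit 760) (nat_lit 48685260576) (nat_lit 60) (nat_lit 5) (nat_lit 69) (nat_lit 3) (nat_lit 70) (nat_lit 5) (nat_lit 314) (nat_lit 313) (nat_lit 93))) (XT.nd (nat_lit 78) (nat_lit 0) (nat_lit 76) (XT.lf (nat_lit 0) (nat_lit 25761468337) (nat_lit 684) (nat_lit 15271999066) (nat_lit 760) (nat_lit 111387336103) (nat_lit 60) (nat_lit 5) (nat_lit 69) (nat_lit 3) (nat_lit 70) (nat_lit 5) (nat_lit 315) (nat_lit 313) (nat_lit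 92)) (XT.lf (nat_lit 0) (nat_lit 28571931863) (nat_lit 684) (nat_lit 106755600500) (nat_lit 760) (nat_lit 20982796995) (nat_lit 61) (nat_lit 5) (nat_lit 70) (nat_lit 5) (nat_lit 71) (nat_lit 5) (nat_lit 316) (nat_lit 313) (nat_lit 91)))) (XT.nd (nat_lit 37362) (nat_lit 0) (nat_lit 0) (XT.nd (nat_lit 37284) (nat_lit 76) (nat_lit 0) (XT.lf (nat_lit 0) (nat_lit 32458315894) (nat_lit 684) (nat_lit 42905420810) (nat_lit 760) (nat_lit 84983825645) (nat_lit 61) (nat_lit 5) (nat_lit 70) (nat_lit 5) (nat_lit 71) (nat_lit 5) (nat_lit 317) (nat_lit 313) (nat_lit 90)) (XT.lf (nat_lit 0) (nat_lit 5984090311) (nat_lit 0) (nat_lit 5984090311) (nat_lit 684) (nat_lit 64196464311) (nat_lit 60) (nat_lit 5) (nat_lit 60) (nat_lit 3) (nat_lit 69) (nat_lit 3) (nat_lit 314) (nat_lit 314) (nat_lit 92))) (XT.nd (nat_lit 78) (nat_lit 0) (nat_lit 0) (XT.lf (nat_lit 0) (nat_lit 25361768574) (nat_lit 684) (nat_lit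 79617400926) (nat_lit 760) (nat_lit 51116991585) (nat_lit 60) (nat_lit 5) (nat_lit 69) (nat_lit 3) (nat_lit 70) (nat_lit 5) (nat_lit 315) (nat_lit 314) (nat_lit 91)) (XT.nd (nat_lit 37440) (nat_lit 0) (nat_lit 0) (XT.lf (nat_lit 0) (nat_lit 27054485222) (nat_lit 684) (nat_lit 16032797947) (nat_lit 760) (nat_lit 116954291460) (nat_lit 60) (nat_lit 5) (nat_lit 69) (nat_lit 3) (nat_lit 70) (nat_lit 5) (nat_lit 316) (nat_lit 314) (nat_lit 90)) (XT.lf (nat_lit 0) (nat_lit 6284540417) (nat_lit 0) (nat_lit 6284540417) (nat_lit 684) (nat_lit 67403660847) (nat_lit 60) (nat_lit 5) (nat_lit 60) (nat_lit 3) (nat_lit 69) (nat_lit 3) (nat_lit 315) (nat_lit 315) (nat_lit 90))))))))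

set_option maxRecDepth 10000000 in
noncomputable def Tp : PT := (PT.nd (nat_lit 4623216) (PT.nd (nat_lit 4286802) (PT.nd (nat_lit 3987048) (PT.nd (nat_lit 3761940) pc0 pc1) (PT.nd (nat_lit 187122) pc2 pc3)) (PT.nd (nat_lit 187044) (PT.nd (nat_lit 111852) pc4 pc5) (PT.nd (nat_lit 74880) pc6 pc7))) (PT.nd (nat_lit 187902) (PT.nd (nat_lit 76674) (PT.nd (nat_lit 38376) pc8 pc9) (PT.nd (nat_lit 73320) pc10 pc11)) (PT.nd (nat_lit 76518) (PT.nd (nat_lit 37752) pc12 pc13) (PT.nd (nat_lit 109512) pc14 pc15))))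

set_option maxRecDepth 10000000 in
noncomputable def Tx : XT := (XT.nd (nat_lit 6706674) (nat_lit 0) (nat_lit 76) XT.nil (XT.nd (nat_lit 5136144) (nat_lit 0) (nat_lit 0) (XT.nd (nat_lit 2507466) (nat_lit 0) (nat_lit 76) (XT.nd (nat_lit 1757106) (nat_lit 0) (nat_lit 0) (XT.nd (nat_lit 1233960) (nat_lit 0) (nat_lit 0) (XT.nd (nat_lit 860886) (nat_lit 0) (nat_lit 0) (XT.nd (nat_lit 599118) (nat_lit 0) (nat_lit 0) (XT.nd (nat_lit 412074) (nat_lit 0) (nat_lit 0) (XT.nd (nat_lit 299052) (nat_lit 0) (nat_lit 0) (XT.nd (nat_lit 187278) (nat_lit 0) (nat_lit 0) xc0 xc1) (XT.nd (nat_lit 74568) (nat_lit 0) (nat_lit 0) xc2 xc3)) (XT.nd (nat_lit 111618) (nat_lit 0) (nat_lit 0) (XT.nd (nat_lit 73632) (nat_lit 0) (nat_lit 0) xc4 xc5) (XT.nd (nat_lit 37752) (nat_lit 0) (nat_lit 0) xc6 xc7))) (XT.nd (nat_lit 148980) (nat_lit 0) (nat_lit 0) (XT.nd (nat_lit 74802) (nat_lit 0) (nat_lit 0) (XT.nd (nat_lit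 37440) (nat_lit 0) (nat_lit 0) xc8 xc9) (XT.nd (nat_lit 37128) (nat_lit 0) (nat_lit 0) xc10 xc11)) (XT.nd (nat_lit 39546) (nat_lit 0) (nat_lit 0) (XT.nd (nat_lit 36816) (nat_lit 0) (nat_lit 0) xc12 xc13) (XT.nd (nat_lit 36660) (nat_lit 0) (nat_lit 0) xc14 xc15)))) (XT.nd (nat_lit 188448) (nat_lit 0) (nat_lit 0) (XT.nd (nat_lit 111384) (nat_lit 0) (nat_lit 0) (XT.nd (nat_lit 39078) (nat_lit 0) (nat_lit 0) (XT.nd (nat_lit 36348) (nat_lit 0) (nat_lit 0) xc16 xc17) (XT.nd (nat_lit 36192) (nat_lit 0) (nat_lit 0) xc18 xc19)) (XT.nd (nat_lit 38610) (nat_lit 0) (nat_lit 0) (XT.nd (nat_lit 2652) (nat_lit 0) (nat_lit 0) xc20 xc21) (XT.nd (nat_lit 35724) (nat_lit 0) (nat_lit 0) xc22 xc23))) (XT.nd (nat_lit 109044) (nat_lit 0) (nat_lit 0) (XT.nd (nat_lit 38298) (nat_lit 0) (nat_lit 0) (XT.nd (nat_lit 35568) (nat_lit 0) (nat_lit 0) xc24 xc25) (XT.nd (nat_lit 35412) (nat_lit 0) (nat_lit 0) xc26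 xc27)) (XT.nd (nat_lit 37830) (nat_lit 0) (nat_lit 0) (XT.nd (nat_lit 2652) (nat_lit 0) (nat_lit 0) xc28 xc29) (XT.nd (nat_lit 2730) (nat_lit 0) (nat_lit 0) xc30 xc31))))) (XT.nd (nat_lit 265278) (nat_lit 0) (nat_lit 0) (XT.nd (nat_lit 149448) (nat_lit 0) (nat_lit 0) (XT.nd (nat_lit 75036) (nat_lit 0) (nat_lit 0) (XT.nd (nat_lit 37596) (nat_lit 0) (nat_lit 0) (XT.nd (nat_lit 2652) (nat_lit 0) (nat_lit 0) xc32 xc33) (XT.nd (nat_lit 2652) (nat_lit 0) (nat_lit 0) xc34 xc35)) (XT.nd (nat_lit 37284) (nat_lit 0) (nat_lit 0) (XT.nd (nat_lit 2652) (nat_lit 0) (nat_lit 0) xc36 xc37) (XT.nd (nat_lit 2652) (nat_lit 0) (nat_lit 0) xc38 xc39))) (XT.nd (nat_lit 73788) (nat_lit 0) (nat_lit 0) (XT.nd (nat_lit 36972) (nat_lit 0) (nat_lit 0) (XT.nd (nat_lit 2652) (nat_lit 76) (nat_lit 0) xc40 xc41) (XT.nd (nat_lit 2652) (nat_lit 76) (nat_lit 0) xc42 xc43)) (XT.nd (nat_lit 5382) (nat_lit 0) (nat_lit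 0) (XT.nd (nat_lit 2652) (nat_lit 76) (nat_lit 0) xc44 xc45) (XT.nd (nat_lit 33930) (nat_lit 0) (nat_lit 0) xc46 xc47)))) (XT.nd (nat_lit 145080) (nat_lit 0) (nat_lit 0) (XT.nd (nat_lit 72852) (nat_lit 0) (nat_lit 0) (XT.nd (nat_lit 36504) (nat_lit 0) (nat_lit 0) (XT.nd (nat_lit 33774) (nat_lit 0) (nat_lit 76) xc48 xc49) (XT.nd (nat_lit 33618) (nat_lit 0) (nat_lit 76) xc50 xc51)) (XT.nd (nat_lit 36192) (nat_lit 0) (nat_lit 0) (XT.nd (nat_lit 2652) (nat_lit 0) (nat_lit 0) xc52 xc53) (XT.nd (nat_lit 2652) (nat_lit 76) (nat_lit 0) xc54 xc55))) (XT.nd (nat_lit 41262) (nat_lit 0) (nat_lit 0) (XT.nd (nat_lit 5382) (nat_lit 0) (nat_lit 0) (XT.nd (nat_lit 2652) (nat_lit 152) (nat_lit 0) xc56 xc57) (XT.nd (nat_lit 33150) (nat_lit 0) (nat_lit 76) xc58 xc59)) (XT.nd (nat_lit 35802) (nat_lit 0) (nat_lit 0) (XT.nd (nat_lit 33072) (nat_lit 0) (nat_lit 304) xc60 xc61) (XT.nd (nat_lit 2730) (nat_lit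 76) (nat_lit 0) xc62 xc63)))))) (XT.nd (nat_lit 380640) (nat_lit 0) (nat_lit 0) (XT.nd (nat_lit 192036) (nat_lit 0) (nat_lit 0) (XT.nd (nat_lit 111384) (nat_lit 0) (nat_lit 0) (XT.nd (nat_lit 40872) (nat_lit 0) (nat_lit 0) (XT.nd (nat_lit 5382) (nat_lit 0) (nat_lit 0) (XT.nd (nat_lit 2652) (nat_lit 152) (nat_lit 0) xc64 xc65) (XT.nd (nat_lit 32760) (nat_lit 0) (nat_lit 76) xc66 xc67)) (XT.nd (nat_lit 35334) (nat_lit 0) (nat_lit 0) (XT.nd (nat_lit 2652) (nat_lit 0) (nat_lit 0) xc68 xc69) (XT.nd (nat_lit 2652) (nat_lit 76) (nat_lit 0) xc70 xc71))) (XT.nd (nat_lit 40404) (nat_lit 0) (nat_lit 0) (XT.nd (nat_lit 5382) (nat_lit 76) (nat_lit 0) (XT.nd (nat_lit 2652) (nat_lit 228) (nat_lit 0) xc72 xc73) (XT.nd (nat_lit 32292) (nat_lit 0) (nat_lit 304) xc74 xc75)) (XT.nd (nat_lit 34866) (nat_lit 0) (nat_lit 76) (XT.nd (nat_lit 2652) (nat_lit 76) (nat_lit 0) xc76 xc77) (XT.nd (nat_lit 2652)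 (nat_lit 228) (nat_lit 0) xc78 xc79)))) (XT.nd (nat_lit 109278) (nat_lit 0) (nat_lit 0) (XT.nd (nat_lit 69420) (nat_lit 0) (nat_lit 0) (XT.nd (nat_lit 34788) (nat_lit 0) (nat_lit 0) (XT.nd (nat_lit 32058) (nat_lit 0) (nat_lit 304) xc80 xc81) (XT.nd (nat_lit 2652) (nat_lit 76) (nat_lit 0) xc82 xc83)) (XT.nd (nat_lit 5382) (nat_lit 76) (nat_lit 0) (XT.nd (nat_lit 2652) (nat_lit 304) (nat_lit 0) xc84 xc85) (XT.nd (nat_lit 31746) (nat_lit 0) (nat_lit 532) xc86 xc87))) (XT.nd (nat_lit 39702) (nat_lit 0) (nat_lit 0) (XT.nd (nat_lit 34320) (nat_lit 0) (nat_lit 76) (XT.nd (nat_lit 2652) (nat_lit 76) (nat_lit 0) xc88 xc89) (XT.nd (nat_lit 2652) (nat_lit 760) (nat_lit 0) xc90 xc91)) (XT.nd (nat_lit 34164) (nat_lit 0) (nat_lit 76) (XT.nd (nat_lit 31434) (nat_lit 0) (nat_lit 1140) xc92 xc93) (XT.nd (nat_lit 2730) (nat_lit 152) (nat_lit 0) xc94 xc95))))) (XT.nd (nat_lit 184860) (nat_lit 0) (nat_lit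 76) (XT.nd (nat_lit 107016) (nat_lit 0) (nat_lit 0) (XT.nd (nat_lit 67860) (nat_lit 0) (nat_lit 0) (XT.nd (nat_lit 34008) (nat_lit 0) (nat_lit 0) (XT.nd (nat_lit 31278) (nat_lit 0) (nat_lit 304) xc96 xc97) (XT.nd (nat_lit 2652) (nat_lit 76) (nat_lit 0) xc98 xc99)) (XT.nd (nat_lit 5382) (nat_lit 76) (nat_lit 0) (XT.nd (nat_lit 2652) (nat_lit 532) (nat_lit 0) xc100 xc101) (XT.nd (nat_lit 31044) (nat_lit 0) (nat_lit 1216) xc102 xc103))) (XT.nd (nat_lit 39000) (nat_lit 0) (nat_lit 76) (XT.nd (nat_lit 5382) (nat_lit 76) (nat_lit 0) (XT.nd (nat_lit 2652) (nat_lit 228) (nat_lit 0) xc104 xc105) (XT.nd (nat_lit 30888) (nat_lit 0) (nat_lit 532) xc106 xc107)) (XT.nd (nat_lit 33462) (nat_lit 0) (nat_lit 228) (XT.nd (nat_lit 2652) (nat_lit 0) (nat_lit 0) xc108 xc109) (XT.nd (nat_lit 2652) (nat_lit 1064) (nat_lit 0) xc110 xc111)))) (XT.nd (nat_lit 77922) (nat_lit 0) (nat_lit 0) (XT.nd (nat_lit 38922)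 (nat_lit 0) (nat_lit 0) (XT.nd (nat_lit 33540) (nat_lit 0) (nat_lit 0) (XT.nd (nat_lit 2652) (nat_lit 0) (nat_lit 0) xc112 xc113) (XT.nd (nat_lit 2652) (nat_lit 532) (nat_lit 0) xc114 xc115)) (XT.nd (nat_lit 33618) (nat_lit 0) (nat_lit 0) (XT.nd (nat_lit 30888) (nat_lit 0) (nat_lit 1140) xc116 xc117) (XT.nd (nat_lit 2652) (nat_lit 228) (nat_lit 0) xc118 xc119))) (XT.nd (nat_lit 67548) (nat_lit 0) (nat_lit 0) (XT.nd (nat_lit 33696) (nat_lit 0) (nat_lit 0) (XT.nd (nat_lit 30966) (nat_lit 0) (nat_lit 456) xc120 xc121) (XT.nd (nat_lit 2652) (nat_lit 0) (nat_lit 0) xc122 xc123)) (XT.nd (nat_lit 5382) (nat_lit 152) (nat_lit 0) (XT.nd (nat_lit 2652) (nat_lit 684) (nat_lit 0) xc124 xc125) (XT.nd (nat_lit 31278) (nat_lit 0) (nat_lit 1520) xc126 xc127))))))) (XT.nd (nat_lit 824928) (nat_lit 0) (nat_lit 152) (XT.nd (nat_lit 376584) (nat_lit 0) (nat_lit 0) (XT.nd (nat_lit 187044) (nat_lit 0) (nat_lit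 0) (XT.nd (nat_lit 78858) (nat_lit 0) (nat_lit 0) (XT.nd (nat_lit 39390) (nat_lit 0) (nat_lit 0) (XT.nd (nat_lit 5382) (nat_lit 0) (nat_lit 0) (XT.nd (nat_lit 2652) (nat_lit 228) (nat_lit 0) xc128 xc129) (XT.nd (nat_lit 31278) (nat_lit 0) (nat_lit 456) xc130 xc131)) (XT.nd (nat_lit 34086) (nat_lit 0) (nat_lit 152) (XT.nd (nat_lit 2652) (nat_lit 0) (nat_lit 0) xc132 xc133) (XT.nd (nat_lit 2652) (nat_lit 684) (nat_lit 0) xc134 xc135))) (XT.nd (nat_lit 68406) (nat_lit 0) (nat_lit 0) (XT.nd (nat_lit 34164) (nat_lit 0) (nat_lit 0) (XT.nd (nat_lit 31434) (nat_lit 0) (nat_lit 1292) xc136 xc137) (XT.nd (nat_lit 2652) (nat_lit 228) (nat_lit 0) xc138 xc139)) (XT.nd (nat_lit 5382) (nat_lit 304) (nat_lit 0) (XT.nd (nat_lit 2652) (nat_lit 1520) (nat_lit 0) xc140 xc141) (XT.nd (nat_lit 2652) (nat_lit 0) (nat_lit 0) xc142 xc143)))) (XT.nd (nat_lit 79794) (nat_lit 0) (nat_lit 0) (XT.nd (nat_lit 39858)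 (nat_lit 0) (nat_lit 0) (XT.nd (nat_lit 5382) (nat_lit 0) (nat_lit 0) (XT.nd (nat_lit 2652) (nat_lit 456) (nat_lit 0) xc144 xc145) (XT.nd (nat_lit 31746) (nat_lit 0) (nat_lit 684) xc146 xc147)) (XT.nd (nat_lit 34554) (nat_lit 0) (nat_lit 152) (XT.nd (nat_lit 2652) (nat_lit 76) (nat_lit 0) xc148 xc149) (XT.nd (nat_lit 2652) (nat_lit 684) (nat_lit 0) xc150 xc151))) (XT.nd (nat_lit 69420) (nat_lit 0) (nat_lit 0) (XT.nd (nat_lit 34632) (nat_lit 0) (nat_lit 0) (XT.nd (nat_lit 31902) (nat_lit 0) (nat_lit 988) xc152 xc153) (XT.nd (nat_lit 2652) (nat_lit 152) (nat_lit 0) xc154 xc155)) (XT.nd (nat_lit 5382) (nat_lit 152) (nat_lit 0) (XT.nd (nat_lit 2652) (nat_lit 836) (nat_lit 0) xc156 xc157) (XT.nd (nat_lit 32214) (nat_lit 0) (nat_lit 988) xc158 xc159))))) (XT.nd (nat_lit 221988) (nat_lit 0) (nat_lit 0) (XT.nd (nat_lit 110526) (nat_lit 0) (nat_lit 0) (XT.nd (nat_lit 40326) (nat_lit 0) (nat_lit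 0) (XT.nd (nat_lit 34944) (nat_lit 0) (nat_lit 152) (XT.nd (nat_lit 2652) (nat_lit 152) (nat_lit 0) xc160 xc161) (XT.nd (nat_lit 2652) (nat_lit 836) (nat_lit 0) xc162 xc163)) (XT.nd (nat_lit 35022) (nat_lit 0) (nat_lit 0) (XT.nd (nat_lit 32292) (nat_lit 0) (nat_lit 836) xc164 xc165) (XT.nd (nat_lit 2652) (nat_lit 152) (nat_lit 0) xc166 xc167))) (XT.nd (nat_lit 40638) (nat_lit 0) (nat_lit 0) (XT.nd (nat_lit 5382) (nat_lit 152) (nat_lit 0) (XT.nd (nat_lit 2652) (nat_lit 684) (nat_lit 0) xc168 xc169) (XT.nd (nat_lit 32526) (nat_lit 0) (nat_lit 532) xc170 xc171)) (XT.nd (nat_lit 35334) (nat_lit 0) (nat_lit 0) (XT.nd (nat_lit 2652) (nat_lit 76) (nat_lit 0) xc172 xc173) (XT.nd (nat_lit 2652) (nat_lit 456) (nat_lit 0) xc174 xc175)))) (XT.nd (nat_lit 82134) (nat_lit 0) (nat_lit 76) (XT.nd (nat_lit 40950) (nat_lit 0) (nat_lit 0) (XT.nd (nat_lit 5382) (nat_lit 304) (nat_lit 0) (XT.nd (nat_lit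 2652) (nat_lit 1368) (nat_lit 0) xc176 xc177) (XT.nd (nat_lit 32838) (nat_lit 0) (nat_lit 1140) xc178 xc179)) (XT.nd (nat_lit 35724) (nat_lit 0) (nat_lit 76) (XT.nd (nat_lit 2652) (nat_lit 228) (nat_lit 0) xc180 xc181) (XT.nd (nat_lit 2652) (nat_lit 684) (nat_lit 0) xc182 xc183))) (XT.nd (nat_lit 71760) (nat_lit 0) (nat_lit 0) (XT.nd (nat_lit 35802) (nat_lit 0) (nat_lit 0) (XT.nd (nat_lit 33072) (nat_lit 0) (nat_lit 304) xc184 xc185) (XT.nd (nat_lit 33228) (nat_lit 0) (nat_lit 912) xc186 xc187)) (XT.nd (nat_lit 36114) (nat_lit 0) (nat_lit 76) (XT.nd (nat_lit 2652) (nat_lit 76) (nat_lit 0) xc188 xc189) (XT.nd (nat_lit 2730) (nat_lit 304) (nat_lit 0) xc190 xc191)))))) (XT.nd (nat_lit 530322) (nat_lit 0) (nat_lit 304) (XT.nd (nat_lit 262314) (nat_lit 0) (nat_lit 76) (XT.nd (nat_lit 114816) (nat_lit 0) (nat_lit 76) (XT.nd (nat_lit 41730) (nat_lit 0) (nat_lit 0) (XT.nd (nat_lit 5382) (nat_lit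 0) (nat_lit 0) (XT.nd (nat_lit 2652) (nat_lit 988) (nat_lit 0) xc192 xc193) (XT.nd (nat_lit 33618) (nat_lit 0) (nat_lit 304) xc194 xc195)) (XT.nd (nat_lit 36504) (nat_lit 0) (nat_lit 0) (XT.nd (nat_lit 33774) (nat_lit 0) (nat_lit 684) xc196 xc197) (XT.nd (nat_lit 33852) (nat_lit 0) (nat_lit 1292) xc198 xc199))) (XT.nd (nat_lit 73554) (nat_lit 0) (nat_lit 0) (XT.nd (nat_lit 36738) (nat_lit 0) (nat_lit 0) (XT.nd (nat_lit 2652) (nat_lit 76) (nat_lit 0) xc200 xc201) (XT.nd (nat_lit 2652) (nat_lit 304) (nat_lit 0) xc202 xc203)) (XT.nd (nat_lit 36894) (nat_lit 0) (nat_lit 0) (XT.nd (nat_lit 2652) (nat_lit 608) (nat_lit 0) xc204 xc205) (XT.nd (nat_lit 2652) (nat_lit 1064) (nat_lit 0) xc206 xc207)))) (XT.nd (nat_lit 117156) (nat_lit 0) (nat_lit 76) (XT.nd (nat_lit 42510) (nat_lit 0) (nat_lit 0) (XT.nd (nat_lit 5382) (nat_lit 76) (nat_lit 0) (XT.nd (nat_lit 2652) (nat_lit 1368) (nat_lit 0)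 xc208 xc209) (XT.nd (nat_lit 34398) (nat_lit 0) (nat_lit 228) xc210 xc211)) (XT.nd (nat_lit 37284) (nat_lit 0) (nat_lit 76) (XT.nd (nat_lit 34554) (nat_lit 0) (nat_lit 304) xc212 xc213) (XT.nd (nat_lit 34632) (nat_lit 0) (nat_lit 228) xc214 xc215))) (XT.nd (nat_lit 75114) (nat_lit 0) (nat_lit 76) (XT.nd (nat_lit 37518) (nat_lit 0) (nat_lit 0) (XT.nd (nat_lit 34788) (nat_lit 0) (nat_lit 456) xc216 xc217) (XT.nd (nat_lit 34866) (nat_lit 0) (nat_lit 456) xc218 xc219)) (XT.nd (nat_lit 37752) (nat_lit 0) (nat_lit 76) (XT.nd (nat_lit 35022) (nat_lit 0) (nat_lit 152) xc220 xc221) (XT.nd (nat_lit 35256) (nat_lit 0) (nat_lit 0) xc222 xc223))))) (XT.nd (nat_lit 409032) (nat_lit 0) (nat_lit 684) (XT.nd (nat_lit 185874) (nat_lit 0) (nat_lit 304) (XT.nd (nat_lit 108966) (nat_lit 0) (nat_lit 76) (XT.nd (nat_lit 70746) (nat_lit 0) (nat_lit 76) (XT.nd (nat_lit 35256) (nat_lit 0) (nat_lit 0) xc224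 xc225) (XT.nd (nat_lit 2652) (nat_lit 912) (nat_lit 0) xc226 xc227)) (XT.nd (nat_lit 38376) (nat_lit 0) (nat_lit 0) (XT.nd (nat_lit 2652) (nat_lit 456) (nat_lit 0) xc228 xc229) (XT.nd (nat_lit 35802) (nat_lit 0) (nat_lit 1140) xc230 xc231))) (XT.nd (nat_lit 110916) (nat_lit 0) (nat_lit 76) (XT.nd (nat_lit 38610) (nat_lit 0) (nat_lit 0) (XT.nd (nat_lit 35880) (nat_lit 0) (nat_lit 228) xc232 xc233) (XT.nd (nat_lit 36036) (nat_lit 0) (nat_lit 76) xc234 xc235)) (XT.nd (nat_lit 39078) (nat_lit 0) (nat_lit 152) (XT.nd (nat_lit 2652) (nat_lit 304) (nat_lit 0) xc236 xc237) (XT.nd (nat_lit 36426) (nat_lit 0) (nat_lit 152) xc238 xc239)))) (XT.nd (nat_lit 263250) (nat_lit 0) (nat_lit 684) (XT.nd (nat_lit 113490) (nat_lit 0) (nat_lit 304) (XT.nd (nat_lit 39468) (nat_lit 0) (nat_lit 0) (XT.nd (nat_lit 2652) (nat_lit 304) (nat_lit 0) xc240 xc241) (XT.nd (nat_lit 36894) (nat_lit 0) (nat_lit 152)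 xc242 xc243)) (XT.nd (nat_lit 74646) (nat_lit 0) (nat_lit 228) (XT.nd (nat_lit 37206) (nat_lit 0) (nat_lit 228) xc244 xc245) (XT.nd (nat_lit 37440) (nat_lit 0) (nat_lit 152) xc246 xc247))) (XT.nd (nat_lit 187824) (nat_lit 0) (nat_lit 988) (XT.nd (nat_lit 75738) (nat_lit 0) (nat_lit 532) (XT.nd (nat_lit 37752) (nat_lit 0) (nat_lit 228) xc248 xc249) (XT.nd (nat_lit 38064) (nat_lit 0) (nat_lit 228) xc250 xc251)) (XT.nd (nat_lit 113334) (nat_lit 0) (nat_lit 912) (XT.nd (nat_lit 38454) (nat_lit 0) (nat_lit 304) xc252 xc253) (XT.nd (nat_lit 112008) (nat_lit 0) (nat_lit 684) xc254 xc255)))))))) XT.nil))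

set_option maxRecDepth 10000000 in
noncomputable def Te : XT := XT.nil

set_option maxRecDepth 10000000 in
noncomputable def Tz : ZL := (ZL.cons (nat_lit 76) (nat_lit 3) (nat_lit 84405205218426613186) (ZL.cons (nat_lit 152) (nat_lit 6) (nat_lit 165362599575996315494) (ZL.cons (nat_lit 228) (nat_lit 6) (nat_lit 162116761909954226092) (ZL.cons (nat_lit 304) (nat_lit 3) (nat_lit 80967072726231340602) (ZL.cons (nat_lit 380) (nat_lit 6) (nat_lit 158708632360610032220) (ZL.cons (nat_lit 456) (nat_lit 6) (nat_lit 155678380507362528902) (ZL.cons (nat_lit 532) (nat_lit 3) (nat_lit 77752230035828147838) (ZL.cons (nat_lit 608) (nat_lit 6) (nat_lit 152496616061452650416) (ZL.cons (nat_lit 684) (nat_lit 6) (nat_lit 149677938796641468720) (ZL.cons (nat_lit 760) (nat_lit 3) (nat_lit 74756150143222528061) (ZL.cons (nat_lit 836) (nat_lit 6) (nat_lit 147041717140877962052) (ZL.cons (nat_lit 912) (nat_lit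 6) (nat_lit 146718327668589727936) (ZL.cons (nat_lit 988) (nat_lit 6) (nat_lit 144108045892129867456) (ZL.cons (nat_lit 1064) (nat_lit 3) (nat_lit 71975147465019022969) (ZL.cons (nat_lit 1140) (nat_lit 6) (nat_lit 141675240000454855970) (ZL.cons (nat_lit 1216) (nat_lit 6) (nat_lit 141367250026847013954) (ZL.cons (nat_lit 1292) (nat_lit 6) (nat_lit 138963042852104272392) (ZL.cons (nat_lit 1368) (nat_lit 3) (nat_lit 69406401920294125947) (ZL.cons (nat_lit 1444) (nat_lit 6) (nat_lit 136731949103012814718) (ZL.cons (nat_lit 1520) (nat_lit 6) (nat_lit 136438625318624393748) (ZL.cons (nat_lit 1596) (nat_lit 6) (nat_lit 134668656651598613652) (ZL.cons (nat_lit 1672) (nat_lit 6) (nat_lit 134239061654950763662) (ZL.cons (nat_lit 1748) (nat_lit 3) (nat_lit 67047988441039181595) (ZL.cons (nat_lit 1824) (nat_lit 6) (nat_lit 132208875793225281564) (ZL.cons (nat_lit 1900) (nat_lit 6) (nat_lit 131929519808093452072)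 (ZL.cons (nat_lit 1976) (nat_lit 6) (nat_lit 130343233957586696308) (ZL.cons (nat_lit 2052) (nat_lit 6) (nat_lit 129934095865541124890) (ZL.cons (nat_lit 2128) (nat_lit 3) (nat_lit 64898912326640847935) (ZL.cons (nat_lit 2204) (nat_lit 6) (nat_lit 128637694143664439834) (ZL.cons (nat_lit 2280) (nat_lit 6) (nat_lit 128104954045034352296) (ZL.cons (nat_lit 2356) (nat_lit 6) (nat_lit 127838900725861181350) (ZL.cons (nat_lit 2432) (nat_lit 6) (nat_lit 127088195542377744862) (ZL.cons (nat_lit 2508) (nat_lit 6) (nat_lit 126437739247000499118) (ZL.cons (nat_lit 2584) (nat_lit 6) (nat_lit 126048083921242812052) (ZL.cons (nat_lit 2660) (nat_lit 3) (nat_lit 62959150907164535063) (ZL.cons (nat_lit 2736) (nat_lit 6) (nat_lit 124928481912396627606) (ZL.cons (nat_lit 2812) (nat_lit 6) (nat_lit 124421110389891782334) (ZL.cons (nat_lit 2888) (nat_lit 6) (nat_lit 124167726276393524288) (ZL.cons (nat_lit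 2964) (nat_lit 6) (nat_lit 123573588571378442832) (ZL.cons (nat_lit 3040) (nat_lit 6) (nat_lit 122954106385304875456) (ZL.cons (nat_lit 3116) (nat_lit 6) (nat_lit 122583006075059459204) (ZL.cons (nat_lit 3192) (nat_lit 3) (nat_lit 61229702034237471542) (ZL.cons (nat_lit 3268) (nat_lit 6) (nat_lit 122369833287419711020) (ZL.cons (nat_lit 3344) (nat_lit 6) (nat_lit 121643579040804503544) (ZL.cons (nat_lit 3420) (nat_lit 6) (nat_lit 121160368066990365188) (ZL.cons (nat_lit 3496) (nat_lit 6) (nat_lit 120919049863658690862) (ZL.cons (nat_lit 3572) (nat_lit 6) (nat_lit 120486408053189475242) (ZL.cons (nat_lit 3648) (nat_lit 6) (nat_lit 119896425018833696786) (ZL.cons (nat_lit 3724) (nat_lit 6) (nat_lit 119542996151933300356) (ZL.cons (nat_lit 3800) (nat_lit 3) (nat_lit 59712639977593071075) (ZL.cons (nat_lit 3876) (nat_lit 6) (nat_lit 119479838253441659524) (ZL.cons (nat_lit 3952) (nat_lit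 6) (nat_lit 118788167542379557166) (ZL.cons (nat_lit 4028) (nat_lit 6) (nat_lit 118327966614937520636) (ZL.cons (nat_lit 4104) (nat_lit 6) (nat_lit 118098139754621640326) (ZL.cons (nat_lit 4180) (nat_lit 6) (nat_lit 118621473046799752072) (ZL.cons (nat_lit 4256) (nat_lit 6) (nat_lit 117832956929350674568) (ZL.cons (nat_lit 4332) (nat_lit 6) (nat_lit 117271068325202314136) (ZL.cons (nat_lit 4408) (nat_lit 6) (nat_lit 116934469404344793726) (ZL.cons (nat_lit 4484) (nat_lit 3) (nat_lit 58411179370388035811) (ZL.cons (nat_lit 4560) (nat_lit 6) (nat_lit 116493286487343670884) (ZL.cons (nat_lit 4636) (nat_lit 6) (nat_lit 116634380242911250604) (ZL.cons (nat_lit 4712) (nat_lit 6) (nat_lit 116916903691559666186) (ZL.cons (nat_lit 4788) (nat_lit 6) (nat_lit 117341529508166651950) (ZL.cons (nat_lit 4864) (nat_lit 6) (nat_lit 117909268706581272150) (ZL.cons (nat_lit 4940) (nat_lit 6) (nat_lit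 117028518868763646886) (ZL.cons (nat_lit 5016) (nat_lit 6) (nat_lit 116369784858228311308) (ZL.cons (nat_lit 5092) (nat_lit 6) (nat_lit 115931498260664466996) (ZL.cons (nat_lit 5168) (nat_lit 6) (nat_lit 115712615536554104792) (ZL.cons (nat_lit 5244) (nat_lit 3) (nat_lit 57606606454472465742) (ZL.cons (nat_lit 5320) (nat_lit 6) (nat_lit 115285480442284423536) (ZL.cons (nat_lit 5396) (nat_lit 6) (nat_lit 115502455107858469910) (ZL.cons (nat_lit 5472) (nat_lit 6) (nat_lit 115864653512013675478) (ZL.cons (nat_lit 5548) (nat_lit 6) (nat_lit 116372938031902790728) (ZL.cons (nat_lit 5624) (nat_lit 6) (nat_lit 115621970300998907390) (ZL.cons (nat_lit 5700) (nat_lit 6) (nat_lit 115086838297048087932) (ZL.cons (nat_lit 5776) (nat_lit 6) (nat_lit 114766267896231401826) (ZL.cons (nat_lit 5852) (nat_lit 3) (nat_lit 57329747917844880863) (ZL.cons (nat_lit 5928) (nat_lit 6) (nat_lit 114135188970799426062)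 (ZL.cons (nat_lit 6004) (nat_lit 6) (nat_lit 114283337414145384768) (ZL.cons (nat_lit 6080) (nat_lit 6) (nat_lit 114579987035226221128) (ZL.cons (nat_lit 6156) (nat_lit 6) (nat_lit 115025844142663556182) (ZL.cons (nat_lit 6232) (nat_lit 6) (nat_lit 114398478418344188964) (ZL.cons (nat_lit 6308) (nat_lit 6) (nat_lit 113981062611140527712) (ZL.cons (nat_lit 6384) (nat_lit 6) (nat_lit 113772602873892563710) (ZL.cons (nat_lit 6460) (nat_lit 3) (nat_lit 56590383519619218380) (ZL.cons (nat_lit 6536) (nat_lit 6) (nat_lit 113256647949244903414) (ZL.cons (nat_lit 6612) (nat_lit 6) (nat_lit 113484471348097652106) (ZL.cons (nat_lit 6688) (nat_lit 6) (nat_lit 113864779672460617952) (ZL.cons (nat_lit 6764) (nat_lit 6) (nat_lit 113355130144888408940) (ZL.cons (nat_lit 6840) (nat_lit 6) (nat_lit 113049825001253469792) (ZL.cons (nat_lit 6916) (nat_lit 3) (nat_lit 56474068662273572945) (ZL.cons (nat_lit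 6992) (nat_lit 6) (nat_lit 112419942214431072318) (ZL.cons (nat_lit 7068) (nat_lit 6) (nat_lit 112575498079944328958) (ZL.cons (nat_lit 7144) (nat_lit 6) (nat_lit 112886980182079207136) (ZL.cons (nat_lit 7220) (nat_lit 6) (nat_lit 112489441318075720228) (ZL.cons (nat_lit 7296) (nat_lit 6) (nat_lit 112290908234982421180) (ZL.cons (nat_lit 7372) (nat_lit 3) (nat_lit 55885614026596214990) (ZL.cons (nat_lit 7448) (nat_lit 6) (nat_lit 111850903008699219966) (ZL.cons (nat_lit 7524) (nat_lit 6) (nat_lit 112090117577494606092) (ZL.cons (nat_lit 7600) (nat_lit 6) (nat_lit 111799350774032759284) (ZL.cons (nat_lit 7676) (nat_lit 3) (nat_lit 55851252683822892069) (ZL.cons (nat_lit 7752) (nat_lit 6) (nat_lit 111308960908002217728) (ZL.cons (nat_lit 7828) (nat_lit 6) (nat_lit 111472294566791137200) (ZL.cons (nat_lit 7904) (nat_lit 6) (nat_lit 111283215440035614294) (ZL.cons (nat_lit 7980) (nat_lit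 3) (nat_lit 55474190719759164689) (ZL.cons (nat_lit 8056) (nat_lit 6) (nat_lit 111032040142800458864) (ZL.cons (nat_lit 8132) (nat_lit 3) (nat_lit 55469903211215955552) (ZL.cons (nat_lit 8208) (nat_lit 6) (nat_lit 110768306080703545660) (ZL.cons (nat_lit 8284) (nat_lit 1) (nat_lit 18446744073709551617) ZL.nil)))))))))))))))))))))))))))))))))))))))))))))))))))))))))))))))))))))))))))))))))))))))))))))))))))))))))))))

noncomputable def vl : XL := ⟨(nat_lit 0), (nat_lit 76), (nat_lit 248438588), (nat_lit 152), (nat_lit 232529072), (nat_lit 152), (nat_lit 232529072), (nat_lit 1), (nat_lit 4), (nat_lit 2), (nat_lit 5), (nat_lit 2), (nat_lit 4), (nat_lit 0), (nat_lit 0), (nat_lit 0)⟩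

noncomputable def cp0 : Nat := (nat_lit 935271826664662957701140651864983982399423896962497040783093945297470148174146884361768260244327617948718206972537883012055850886461203070922275746154309030147463422659389361938097208272181352483794746189079839316111059719152065581634529596988525567813669183870956058157119077902270905171818117839198982816567347806418706733740129386950820911842859232223443738635626784283771533535122948825204044399832613946674659394498869109995229848487415960620084270054091812422968000100536592620770947549180782282423064628866791944772801186614707050594571905739195623241397041493473976707305197103245162544506342610272908351751022017451293078251727793297116390925412073786234725879553288412724699787332211164389875646124420154981628754386304768225833181237320480653727031164062936103583829971996182984287829368283386032807384800238882997283164552339843383037274596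607646698816475001758254955206025923920478639369370083763136330306156110777720537813504016459452437784784970991517350484157401436675000275614253907841172503091058961626916262561475256749507595900799760873247048379903366644028211535806170727707902183905662880052928260094511677985537515832362027301433744862076918054014260375070336429958369908814138100241839253425326542150054112432743190668450686398392997470463213320387658495243983635882620395203926763172775915348771689701997214987527988541722526603047984165923051987942566879803021100049989693145728785923677393513800894141735773994412651770019727841406104787110002958145547747483070062239227945343638766590297082626373080187011775456751862469765695110357072646529843583689903254297086402025521666184321246484623507134252743908071910070174500123268848190755896907371770035585868226222392831876382067351578854056836639778610258547515151105051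8992164434908409050627156280655809983097963274500224124476281054930586760056559794488397069943968230107120922266963317864213977378260606425131838822795602429288533215305298287905901151196800218110090748836355157013776925637295754390962577076107565124306458849272322887099056010725282930817621153154252198949671617953462194176151727268548721357517608243097231247153523655934660050309168184595298885817641461309775536617490701806138786374707855753663604975319419976250812461015877940953829798026404622648132990724934906694511270594685576976938024987970979762345882388681629253872214540478065241517838755578706671730070506401203255959117352709951523062318118125397901456710847501129945255459392961325548140625505354753011044167227575948507018308908673962434759619510272)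

noncomputable def cp1 : Nat := (nat_lit 141629050120961626457792123208414110087123633351724497484832226200763440800085828560569352860598962874244128344187255464075105285670164375315637584195050106365981844638227445127205893543178685024099904734673716936083105415445387573519248779436483347705641215989567779696952815044320960076627672018241596224268296125866915785911867522848584219636589893475162401226373484871163770530571479150706323381735870087954646922858095780189294305185095206093537708773744060520252561226707721030382642315236438533529581967799706752465682777785550063047836330847534930008702499916455302480875455283793689281011332157039138389872336494612784418580069407012493145121344016155079607814075420651929820072190163259806245450881334891265141316655965571633151406686070810240748469790589579633580092666992873157488753311955609672292464365262103040077959516110855518726335729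576349826917248651642552791821804868043465613768870108491937402211711792937254952500504557041782415276120617931305251663962024139500824527716729204109060666790591012119147816185270193620271030027493386555168741939305141580557862643305484809426420761635990392019756668706824006222013599858605598042730271173825046138757477741712517409447211184873788399687912423519460332104875744952923873486528136600331158809860532849521143351182657858582665620243102418199684341525972528417447473281092983055033206690315030972037361916970553847091735298747469790365722187105251803109672641476615279254693863925727526511193096028849444994345370512977827993276925452970781166796774363811395721831968090693461955350578961843577348969528040283118818714911105237845203039551788445003337162163979465459595113017175710276796349083406547825358232837299894731414562747439193587031158152596916535081431862417862823632448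96354531960516126073454833395040204557058305809258082226898223110832193629356450126069022818929925474910486272173014473450641092548590389871399973123978358569793367777887873633104771647682527800379910492386545991181733702097036783642358651106472003665369741985833524207744890242554957201793449427705862111740910809266178918212789211142484136295225662986135307859383225127657959416895808557721510006352781289532081955013709756056652648798696993716810697502778097821335380692797124307421903005843786133204435071749798650256933876842630122038200779814385070734583537429991323456022814194298891211780886820190630806815102981354712646324326566459407825651111127075940034793396755150361366599016838019774300445980056621232204155311676289953979659134755546365318223754166272)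

noncomputable def rc0 : Nat := (nat_lit 107221119369162469493349780709362785345985625474217854527958075003974273842731019592461000035030412553955720588250111070432920836132977863333253466454511302129774807082871096720128795863798905345674239572201849073751546996719796038528281760097745864686441494899975187758791429429120883598073870545310296461832016495674993942842273168201583705615776591750236304862464550836898227538335893620992099564376324100413699742278935230239692325235584671653171195157162245973859206310714132403360461099719406037147176370197001286834355600006187261062563156486692077053455574036892003940548214418823507291639307821384407959291033734643085455464742782993081532944624184243650543394855857288633811852326275849447664865021216116296426851097396240601280241731246695636789713363166486439983869097908762645276492091993383350461450652025698984925899389331877670887115929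858282401724651259291456243246189119214147427222352526552661326502714981604993164200917605099334138931826565965019971475824955581697369025280729632844048411744251008672094678447931489057573182700695604692781332190004105897694169874198648484211475222490334766122618805981912210273895032937373116614558919612512113810251231865395601477376912970552561420152532115416287779299504762485982475053877712042757896939576842483143355410686735920372317432017267967365041522280228940470918588389138183589212329613815745261224961969870472861748994270198737639742565662881573781249817673534940950773248397916407422469248259646517720339197568805539617959440610179355525828384314306323831589742682052119795933185323570232595112215529282828372201378951052559362219967065635668298905822641912659229641193260927804047586003761187708481814722780138838934287092791199292097728658369049214065772607744735179943851790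92552384537606300414857713567791969121718514252072317289328642246457355261491946469633573352531347649339975486825151781306499428980456596706383543056025800935684816275108386310723774410200111675179914861892304564406077603540247662662557607969403803414034993007458744147836687231613291964025826017298520208209454516221284235398581484361415257978680117094704719186583169541416468639966097322588771295199549737200500519104874296679746873048087222646082290689995663359851259711833445268945022216163401940191830553205133396128607325864217321980775616127805927263385532766157584333099095592113343488669216223737423138492443034187297039478196756915529844553316378188412300780350336039740436703322923975731405810774691204312381359885218867070798978889025539246950766493040640)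

noncomputable def rc1 : Nat := (nat_lit 126795786141024532850280550849650948986548542046588741155162527681056222432147877647573836637026470090678003248919293605617935581132269675531447537354488464742128849582227987068977748821281629996760942167261243821066125195808577961730382097917148211696734093194287390788790942321000935412117599740397699776494219586506533884646865395188387931822142600163121932275373407967081396198445870550522723047790408863157584134514528816922077282785994161640759781692975972165599206592966479135008886369748102421587338608742511861135021194206127082975819921513733537173781649761789532820053431775975426349711366107494646664162560717551982492846401139256270946532056984990993595112691724524969722501533927097169479983729435032728565613003378459072079457118643440994978955158641030777402739534574172816189071092458523587759616326053670495149234066668899630993200067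108694649729262452794476611367947249137135294674947130720151179330852656466341846415697938793315970979311492538253205385660375475410910457268696728014638436353146586585509113298642617030139515745702034951679832162983670292181258653117137331100683962975641247637001454129255255681303752538969148985882929005851019945781766163352668299174375854187265691852916734446659182785830127011792993461080217037734087238883737696908164054655983235610140928056832584020467676774091895636255399287663163423419190184262629408095217742447551009406597663503057319787163021646991474067975294781053660359280414559068573925833641392532826929772813762836968951040055461038386986114375147024996300596001097445737088550261267283558922793055515765370147610440210048226974078252211117025497439134030141064013852849988258426888891825063080901432990797977445568475393268582092137663390255335358183708068605176267301052883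92722998985442140994156997412809994219904203627492685681270861715250022783704702566817813141258161542338038818378347958322365080620658907924437631668613201409524131660858587063708488174986829120611623224793901665885434789467301153448402076628396984381451386253942795495149418480707778689238326777181798702258774614673131305245736357432977039265785729074209389829464265821797530879275412992625319989259680358599491157308492315394841909140199535219806361802000289253387310689106648804174954236152205787733352596875173113040872253004415867774464932647012361676838632300958675985736771260877475983447795222329192261982527294964635124826383132674978343359745068813207357330029833004061308448022881339103377744288714500347210181175290930312638793473395468666898258837110784)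

noncomputable def rc2 : Nat := (nat_lit 141629050120961626457792123208414110087123633351724497484832226200763440800085828560569352860598962874244128344187255464075105285670164375315637584195050106365981844638227445127205893543178685024099904734673716936083105415445387573519248779436483347705641215989567779696952815044320960076627672018241596224268296125866915785911867522848584219636589893475162401226373484871163770530571479150706323381735870087954646922858095780189294305185095206093537708773744060520252561226707721030382642315236438533529581967799706752465682777785550063047836330847534930008702499916455302480875455283793689281011332157039138389872336494612784418580069407012493145121344016155079607814075420651929820072190163259806245450881334891265141316655965571633151406686070810240748469790589579633580092666992873157488753311955609672292464365262103040077959516110855518726335729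576349826917248651642552791821804868043465613768870108491937402211711792937254952500504557041782415276120617931305251663962024139500824527716729204109060666790591012119147816185270193620271030027493386555168741939305141580557862643305484809426420761635990392019756668706824006222013599858605598042730271173825046138757477741712517409447211184873788399687912423519460332104875744952923873486528136600331158809860532849521143351182657858582665620243102418199684341525972528417447473281092983055033206690315030972037361916970553847091735298747469790365722187105251803109672641476615279254693863925727526511193096028849444994345370512977827993276925452970781166796774363811395721831968090693461955350578961843577348969528040283118818714911105237845203039551788445003337162163979465459595113017175710276796349083406547825358232837299894731414562747439193587031158152596916535081431862417862823632448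96354531960516126073454833395040204557058305809258082226898223110832193629356450126069022818929925474910486272173014473450641092548590389871399973123978358569793367777887873633104771647682527800379910492386545991181733702097036783642358651106472003665369741985833524207744890242554957201793449427705862111740910809266178918212789211142484136295225662986135307859383225127657959416895808557721510006352781289532081955013709756056652648798696993716810697502778097821335380692797124307421903005843786133204435071749798650256933876842630122038200779814385070734583537429991323456022814194298891211780886820190630806815102981354712646324326566459407825651111127075940034793396755150361366599016838019774300445980056621232204155311676289953979659134755546365318223754166272)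

end Vale.Agent.Lib.P154.PChain.BV.S4
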