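import Vale.Agent.Lib.P154.PChain.BV.R4_0

set_option linter.all false

namespace Vale.Agent.Lib.P154.PChain.BV.S5

open Vale.Agent.Lib.P154.Chain

noncomputable def pc0 : PT := (PT.nd (nat_lit 3574584) (PT.nd (nat_lit 3462108) (PT.nd (nat_lit 3387150) (PT.nd (nat_lit 3349710) (PT.nd (nat_lit 3349632) (PT.nd (nat_lit 3312192) PT.nil (PT.lf (nat_lit 76) (nat_lit 3) (nat_lit 1) (nat_lit 1) (nat_lit 136) (nat_lit 88) (nat_lit 136))) (PT.lf (nat_lit 152) (nat_lit 6) (nat_lit 2) (nat_lit 3) (nat_lit 135) (nat_lit 89) (nat_lit 136))) (PT.nd (nat_lit 37362) (PT.lf (nat_lit 152) (nat_lit 6) (nat_lit 2) (nat_lit 1) (nat_lit 136) (nat_lit 89) (nat_lit 135)) (PT.lf (nat_lit 228) (nat_lit 6) (nat_lit 3) (nat_lit 3) (nat_lit 134) (nat_lit 90) (nat_lit 136)))) (PT.nd (nat_lit 37440) (PT.nd (nat_lit 78) (PT.lf (nat_lit 304) (nat_lit 3) (nat_lit 4) (nat_lit 1) (nat_lit 135) (nat_lit 90) (nat_lit 135)) (PT.lf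 (nat_lit 228) (nat_lit 6) (nat_lit 3) (nat_lit 1) (nat_lit 136) (nat_lit 90) (nat_lit 134))) (PT.nd (nat_lit 78) (PT.lf (nat_lit 380) (nat_lit 6) (nat_lit 5) (nat_lit 3) (nat_lit 134) (nat_lit 91) (nat_lit 135)) (PT.nd (nat_lit 37362) (PT.lf (nat_lit 380) (nat_lit 6) (nat_lit 5) (nat_lit 1) (nat_lit 135) (nat_lit 91) (nat_lit 134)) (PT.lf (nat_lit 456) (nat_lit 6) (nat_lit 6) (nat_lit 3) (nat_lit 133) (nat_lit 92) (nat_lit 135)))))) (PT.nd (nat_lit 74880) (PT.nd (nat_lit 37440) (PT.nd (nat_lit 78) (PT.lf (nat_lit 532) (nat_lit 3) (nat_lit 7) (nat_lit 1) (nat_lit 134) (nat_lit 92) (nat_lit 134)) (PT.lf (nat_lit 456) (nat_lit 6) (nat_lit 6) (nat_lit 1) (nat_lit 135) (nat_lit 92) (nat_lit 133))) (PT.nd (nat_lit 78) (PT.lf (nat_lit 608) (nat_lit 6) (nat_lit 8) (nat_lit 3) (nat_lit 133) (nat_lit 93) (nat_lit 134)) (PT.lf (nat_lit 608) (nat_lit 6) (nat_lit 8) (nat_lit 1) (nat_lit 134) (nat_lit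 93) (nat_lit 133)))) (PT.nd (nat_lit 156) (PT.nd (nat_lit 78) (PT.lf (nat_lit 684) (nat_lit 6) (nat_lit 9) (nat_lit 3) (nat_lit 132) (nat_lit 94) (nat_lit 134)) (PT.lf (nat_lit 760) (nat_lit 3) (nat_lit 10) (nat_lit 1) (nat_lit 133) (nat_lit 94) (nat_lit 133))) (PT.nd (nat_lit 37284) (PT.lf (nat_lit 684) (nat_lit 6) (nat_lit 9) (nat_lit 1) (nat_lit 134) (nat_lit 94) (nat_lit 132)) (PT.nd (nat_lit 78) (PT.lf (nat_lit 836) (nat_lit 6) (nat_lit 11) (nat_lit 3) (nat_lit 131) (nat_lit 95) (nat_lit 134)) (PT.lf (nat_lit 912) (nat_lit 6) (nat_lit 12) (nat_lit 3) (nat_lit 132) (nat_lit 95) (nat_lit 133))))))) (PT.nd (nat_lit 112320) (PT.nd (nat_lit 37518) (PT.nd (nat_lit 37362) (PT.nd (nat_lit 78) (PT.lf (nat_lit 912) (nat_lit 6) (nat_lit 12) (nat_lit 1) (nat_lit 133) (nat_lit 95) (nat_lit 132)) (PT.lf (nat_lit 836) (nat_lit 6) (nat_lit 11) (nat_lit 1) (nat_lit 134) (nat_lit 95) (nat_lit 131)))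 (PT.nd (nat_lit 78) (PT.lf (nat_lit 988) (nat_lit 6) (nat_lit 13) (nat_lit 3) (nat_lit 131) (nat_lit 96) (nat_lit 133)) (PT.lf (nat_lit 1064) (nat_lit 3) (nat_lit 14) (nat_lit 1) (nat_lit 132) (nat_lit 96) (nat_lit 132)))) (PT.nd (nat_lit 37362) (PT.nd (nat_lit 37284) (PT.lf (nat_lit 988) (nat_lit 6) (nat_lit 13) (nat_lit 1) (nat_lit 133) (nat_lit 96) (nat_lit 131)) (PT.lf (nat_lit 1140) (nat_lit 6) (nat_lit 15) (nat_lit 3) (nat_lit 130) (nat_lit 97) (nat_lit 133))) (PT.nd (nat_lit 78) (PT.lf (nat_lit 1216) (nat_lit 6) (nat_lit 16) (nat_lit 3) (nat_lit 131) (nat_lit 97) (nat_lit 132)) (PT.nd (nat_lit 78) (PT.lf (nat_lit 1216) (nat_lit 6) (nat_lit 16) (nat_lit 1) (nat_lit 132) (nat_lit 97) (nat_lit 131)) (PT.lf (nat_lit 1140) (nat_lit 6) (nat_lit 15) (nat_lit 1) (nat_lit 133) (nat_lit 97) (nat_lit 130)))))) (PT.nd (nat_lit 37518) (PT.nd (nat_lit 156) (PT.nd (nat_lit 78) (PT.lf (nat_lit 1292)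 (nat_lit 6) (nat_lit 17) (nat_lit 3) (nat_lit 130) (nat_lit 98) (nat_lit 132)) (PT.lf (nat_lit 1368) (nat_lit 3) (nat_lit 18) (nat_lit 1) (nat_lit 131) (nat_lit 98) (nat_lit 131))) (PT.nd (nat_lit 37284) (PT.lf (nat_lit 1292) (nat_lit 6) (nat_lit 17) (nat_lit 1) (nat_lit 132) (nat_lit 98) (nat_lit 130)) (PT.lf (nat_lit 1444) (nat_lit 6) (nat_lit 19) (nat_lit 3) (nat_lit 129) (nat_lit 99) (nat_lit 132)))) (PT.nd (nat_lit 156) (PT.nd (nat_lit 78) (PT.lf (nat_lit 1520) (nat_lit 6) (nat_lit 20) (nat_lit 3) (nat_lit 130) (nat_lit 99) (nat_lit 131)) (PT.lf (nat_lit 1520) (nat_lit 6) (nat_lit 20) (nat_lit 1) (nat_lit 131) (nat_lit 99) (nat_lit 130))) (PT.nd (nat_lit 37206) (PT.lf (nat_lit 1444) (nat_lit 6) (nat_lit 19) (nat_lit 1) (nat_lit 132) (nat_lit 99) (nat_lit 129)) (PT.nd (nat_lit 78) (PT.lf (nat_lit 1596) (nat_lit 6) (nat_lit 21) (nat_lit 3) (nat_lit 128) (nat_lit 100) (nat_lit 132)) (PT.lf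 (nat_lit 1672) (nat_lit 6) (nat_lit 22) (nat_lit 3) (nat_lit 129) (nat_lit 100) (nat_lit 131))))))))
noncomputable def pc1 : PT := (PT.nd (nat_lit 149760) (PT.nd (nat_lit 74958) (PT.nd (nat_lit 37440) (PT.nd (nat_lit 156) (PT.nd (nat_lit 78) (PT.lf (nat_lit 1748) (nat_lit 3) (nat_lit 23) (nat_lit 1) (nat_lit 130) (nat_lit 100) (nat_lit 130)) (PT.lf (nat_lit 1672) (nat_lit 6) (nat_lit 22) (nat_lit 1) (nat_lit 131) (nat_lit 100) (nat_lit 129))) (PT.nd (nat_lit 37206) (PT.lf (nat_lit 1596) (nat_lit 6) (nat_lit 21) (nat_lit 1) (nat_lit 132) (nat_lit 100) (nat_lit 128)) (PT.lf (nat_lit 1824) (nat_lit 6) (nat_lit 24) (nat_lit 3) (nat_lit 128) (nat_lit 101) (nat_lit 131)))) (PT.nd (nat_lit 156) (PT.nd (nat_lit 78) (PT.lf (nat_lit 1900) (nat_lit 6) (nat_lit 25) (nat_lit 3) (nat_lit 129) (nat_lit 101) (nat_lit 130)) (PT.lf (nat_lit 1900) (nat_lit 6) (nat_lit 25) (nat_lit 1) (nat_lit 130) (nat_lit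 101) (nat_lit 129))) (PT.nd (nat_lit 37206) (PT.lf (nat_lit 1824) (nat_lit 6) (nat_lit 24) (nat_lit 1) (nat_lit 131) (nat_lit 101) (nat_lit 128)) (PT.nd (nat_lit 78) (PT.lf (nat_lit 1976) (nat_lit 6) (nat_lit 26) (nat_lit 3) (nat_lit 127) (nat_lit 102) (nat_lit 131)) (PT.lf (nat_lit 2052) (nat_lit 6) (nat_lit 27) (nat_lit 3) (nat_lit 128) (nat_lit 102) (nat_lit 130)))))) (PT.nd (nat_lit 37362) (PT.nd (nat_lit 156) (PT.nd (nat_lit 78) (PT.lf (nat_lit 2128) (nat_lit 3) (nat_lit 28) (nat_lit 1) (nat_lit 129) (nat_lit 102) (nat_lit 129)) (PT.lf (nat_lit 2052) (nat_lit 6) (nat_lit 27) (nat_lit 1) (nat_lit 130) (nat_lit 102) (nat_lit 128))) (PT.nd (nat_lit 37128) (PT.lf (nat_lit 1976) (nat_lit 6) (nat_lit 26) (nat_lit 1) (nat_lit 131) (nat_lit 102) (nat_lit 127)) (PT.lf (nat_lit 2204) (nat_lit 6) (nat_lit 29) (nat_lit 3) (nat_lit 126) (nat_lit 103) (nat_lit 131)))) (PT.nd (nat_lit 156) (PT.nd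 (nat_lit 78) (PT.lf (nat_lit 2280) (nat_lit 6) (nat_lit 30) (nat_lit 3) (nat_lit 127) (nat_lit 103) (nat_lit 130)) (PT.lf (nat_lit 2356) (nat_lit 6) (nat_lit 31) (nat_lit 3) (nat_lit 128) (nat_lit 103) (nat_lit 129))) (PT.nd (nat_lit 78) (PT.lf (nat_lit 2356) (nat_lit 6) (nat_lit 31) (nat_lit 1) (nat_lit 129) (nat_lit 103) (nat_lit 128)) (PT.nd (nat_lit 78) (PT.lf (nat_lit 2280) (nat_lit 6) (nat_lit 30) (nat_lit 1) (nat_lit 130) (nat_lit 103) (nat_lit 127)) (PT.lf (nat_lit 2204) (nat_lit 6) (nat_lit 29) (nat_lit 1) (nat_lit 131) (nat_lit 103) (nat_lit 126))))))) (PT.nd (nat_lit 37752) (PT.nd (nat_lit 312) (PT.nd (nat_lit 156) (PT.nd (nat_lit 78) (PT.lf (nat_lit 2508) (nat_lit 6) (nat_lit 33) (nat_lit 3) (nat_lit 126) (nat_lit 104) (nat_lit 130)) (PT.lf (nat_lit 2584) (nat_lit 6) (nat_lit 34) (nat_lit 3) (nat_lit 127) (nat_lit 104) (nat_lit 129))) (PT.nd (nat_lit 78) (PT.lf (nat_lit 2660)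 (nat_lit 3) (nat_lit 35) (nat_lit 1) (nat_lit 128) (nat_lit 104) (nat_lit 128)) (PT.lf (nat_lit 2584) (nat_lit 6) (nat_lit 34) (nat_lit 1) (nat_lit 129) (nat_lit 104) (nat_lit 127)))) (PT.nd (nat_lit 37206) (PT.nd (nat_lit 37128) (PT.lf (nat_lit 2508) (nat_lit 6) (nat_lit 33) (nat_lit 1) (nat_lit 130) (nat_lit 104) (nat_lit 126)) (PT.lf (nat_lit 2736) (nat_lit 6) (nat_lit 36) (nat_lit 3) (nat_lit 125) (nat_lit 105) (nat_lit 130))) (PT.nd (nat_lit 78) (PT.lf (nat_lit 2812) (nat_lit 6) (nat_lit 37) (nat_lit 3) (nat_lit 126) (nat_lit 105) (nat_lit 129)) (PT.nd (nat_lit 78) (PT.lf (nat_lit 2888) (nat_lit 6) (nat_lit 38) (nat_lit 3) (nat_lit 127) (nat_lit 105) (nat_lit 128)) (PT.lf (nat_lit 2888) (nat_lit 6) (nat_lit 38) (nat_lit 1) (nat_lit 128) (nat_lit 105) (nat_lit 127)))))) (PT.nd (nat_lit 37284) (PT.nd (nat_lit 37128) (PT.nd (nat_lit 78) (PT.lf (nat_lit 2812) (nat_lit 6) (nat_lit 37) (nat_lit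 1) (nat_lit 129) (nat_lit 105) (nat_lit 126)) (PT.lf (nat_lit 2736) (nat_lit 6) (nat_lit 36) (nat_lit 1) (nat_lit 130) (nat_lit 105) (nat_lit 125))) (PT.nd (nat_lit 78) (PT.lf (nat_lit 2964) (nat_lit 6) (nat_lit 39) (nat_lit 3) (nat_lit 124) (nat_lit 106) (nat_lit 130)) (PT.lf (nat_lit 3040) (nat_lit 6) (nat_lit 40) (nat_lit 3) (nat_lit 125) (nat_lit 106) (nat_lit 129)))) (PT.nd (nat_lit 156) (PT.nd (nat_lit 78) (PT.lf (nat_lit 3116) (nat_lit 6) (nat_lit 41) (nat_lit 3) (nat_lit 126) (nat_lit 106) (nat_lit 128)) (PT.lf (nat_lit 3192) (nat_lit 3) (nat_lit 42) (nat_lit 1) (nat_lit 127) (nat_lit 106) (nat_lit 127))) (PT.nd (nat_lit 78) (PT.lf (nat_lit 3116) (nat_lit 6) (nat_lit 41) (nat_lit 1) (nat_lit 128) (nat_lit 106) (nat_lit 126)) (PT.nd (nat_lit 78) (PT.lf (nat_lit 3040) (nat_lit 6) (nat_lit 40) (nat_lit 1) (nat_lit 129) (nat_lit 106) (nat_lit 125)) (PT.lf (nat_lit 2964) (nat_lit 6) (nat_lit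 39) (nat_lit 1) (nat_lit 130) (nat_lit 106) (nat_lit 124))))))))
noncomputable def pc2 : PT := (PT.nd (nat_lit 75192) (PT.nd (nat_lit 37596) (PT.nd (nat_lit 312) (PT.nd (nat_lit 156) (PT.nd (nat_lit 78) (PT.lf (nat_lit 3268) (nat_lit 6) (nat_lit 43) (nat_lit 3) (nat_lit 123) (nat_lit 107) (nat_lit 130)) (PT.lf (nat_lit 3344) (nat_lit 6) (nat_lit 44) (nat_lit 3) (nat_lit 124) (nat_lit 107) (nat_lit 129))) (PT.nd (nat_lit 78) (PT.lf (nat_lit 3420) (nat_lit 6) (nat_lit 45) (nat_lit 3) (nat_lit 125) (nat_lit 107) (nat_lit 128)) (PT.lf (nat_lit 3496) (nat_lit 6) (nat_lit 46) (nat_lit 3) (nat_lit 126) (nat_lit 107) (nat_lit 127)))) (PT.nd (nat_lit 156) (PT.nd (nat_lit 78) (PT.lf (nat_lit 3496) (nat_lit 6) (nat_lit 46) (nat_lit 1) (nat_lit 127) (nat_lit 107) (nat_lit 126)) (PT.lf (nat_lit 3420) (nat_lit 6) (nat_lit 45) (nat_lit 1) (nat_lit 128) (nat_lit 107) (nat_lit 125))) (PT.nd (nat_lit 78)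 (PT.lf (nat_lit 3344) (nat_lit 6) (nat_lit 44) (nat_lit 1) (nat_lit 129) (nat_lit 107) (nat_lit 124)) (PT.nd (nat_lit 36972) (PT.lf (nat_lit 3268) (nat_lit 6) (nat_lit 43) (nat_lit 1) (nat_lit 130) (nat_lit 107) (nat_lit 123)) (PT.lf (nat_lit 3572) (nat_lit 6) (nat_lit 47) (nat_lit 3) (nat_lit 123) (nat_lit 108) (nat_lit 129)))))) (PT.nd (nat_lit 312) (PT.nd (nat_lit 156) (PT.nd (nat_lit 78) (PT.lf (nat_lit 3648) (nat_lit 6) (nat_lit 48) (nat_lit 3) (nat_lit 124) (nat_lit 108) (nat_lit 128)) (PT.lf (nat_lit 3724) (nat_lit 6) (nat_lit 49) (nat_lit 3) (nat_lit 125) (nat_lit 108) (nat_lit 127))) (PT.nd (nat_lit 78) (PT.lf (nat_lit 3800) (nat_lit 3) (nat_lit 50) (nat_lit 1) (nat_lit 126) (nat_lit 108) (nat_lit 126)) (PT.lf (nat_lit 3724) (nat_lit 6) (nat_lit 49) (nat_lit 1) (nat_lit 127) (nat_lit 108) (nat_lit 125)))) (PT.nd (nat_lit 37050) (PT.nd (nat_lit 78) (PT.lf (nat_lit 3648) (nat_lit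 6) (nat_lit 48) (nat_lit 1) (nat_lit 128) (nat_lit 108) (nat_lit 124)) (PT.lf (nat_lit 3572) (nat_lit 6) (nat_lit 47) (nat_lit 1) (nat_lit 129) (nat_lit 108) (nat_lit 123))) (PT.nd (nat_lit 78) (PT.lf (nat_lit 3876) (nat_lit 6) (nat_lit 51) (nat_lit 3) (nat_lit 122) (nat_lit 109) (nat_lit 129)) (PT.nd (nat_lit 78) (PT.lf (nat_lit 3952) (nat_lit 6) (nat_lit 52) (nat_lit 3) (nat_lit 123) (nat_lit 109) (nat_lit 128)) (PT.lf (nat_lit 4028) (nat_lit 6) (nat_lit 53) (nat_lit 3) (nat_lit 124) (nat_lit 109) (nat_lit 127))))))) (PT.nd (nat_lit 37518) (PT.nd (nat_lit 312) (PT.nd (nat_lit 156) (PT.nd (nat_lit 78) (PT.lf (nat_lit 4104) (nat_lit 6) (nat_lit 54) (nat_lit 3) (nat_lit 125) (nat_lit 109) (nat_lit 126)) (PT.lf (nat_lit 4104) (nat_lit 6) (nat_lit 54) (nat_lit 1) (nat_lit 126) (nat_lit 109) (nat_lit 125))) (PT.nd (nat_lit 78) (PT.lf (nat_lit 4028) (nat_lit 6) (nat_lit 53) (nat_lit 1) (nat_lit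 127) (nat_lit 109) (nat_lit 124)) (PT.lf (nat_lit 3952) (nat_lit 6) (nat_lit 52) (nat_lit 1) (nat_lit 128) (nat_lit 109) (nat_lit 123)))) (PT.nd (nat_lit 36972) (PT.nd (nat_lit 36894) (PT.lf (nat_lit 3876) (nat_lit 6) (nat_lit 51) (nat_lit 1) (nat_lit 129) (nat_lit 109) (nat_lit 122)) (PT.lf (nat_lit 4180) (nat_lit 6) (nat_lit 55) (nat_lit 3) (nat_lit 121) (nat_lit 110) (nat_lit 129))) (PT.nd (nat_lit 78) (PT.lf (nat_lit 4256) (nat_lit 6) (nat_lit 56) (nat_lit 3) (nat_lit 122) (nat_lit 110) (nat_lit 128)) (PT.nd (nat_lit 78) (PT.lf (nat_lit 4332) (nat_lit 6) (nat_lit 57) (nat_lit 3) (nat_lit 123) (nat_lit 110) (nat_lit 127)) (PT.lf (nat_lit 4408) (nat_lit 6) (nat_lit 58) (nat_lit 3) (nat_lit 124) (nat_lit 110) (nat_lit 126)))))) (PT.nd (nat_lit 312) (PT.nd (nat_lit 156) (PT.nd (nat_lit 78) (PT.lf (nat_lit 4484) (nat_lit 3) (nat_lit 59) (nat_lit 1) (nat_lit 125) (nat_lit 110) (nat_lit 125))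 (PT.lf (nat_lit 4408) (nat_lit 6) (nat_lit 58) (nat_lit 1) (nat_lit 126) (nat_lit 110) (nat_lit 124))) (PT.nd (nat_lit 78) (PT.lf (nat_lit 4332) (nat_lit 6) (nat_lit 57) (nat_lit 1) (nat_lit 127) (nat_lit 110) (nat_lit 123)) (PT.lf (nat_lit 4256) (nat_lit 6) (nat_lit 56) (nat_lit 1) (nat_lit 128) (nat_lit 110) (nat_lit 122)))) (PT.nd (nat_lit 36894) (PT.nd (nat_lit 36816) (PT.lf (nat_lit 4180) (nat_lit 6) (nat_lit 55) (nat_lit 1) (nat_lit 129) (nat_lit 110) (nat_lit 121)) (PT.lf (nat_lit 4864) (nat_lit 6) (nat_lit 64) (nat_lit 3) (nat_lit 120) (nat_lit 111) (nat_lit 129))) (PT.nd (nat_lit 78) (PT.lf (nat_lit 4940) (nat_lit 6) (nat_lit 65) (nat_lit 3) (nat_lit 121) (nat_lit 111) (nat_lit 128)) (PT.nd (nat_lit 78) (PT.lf (nat_lit 5016) (nat_lit 6) (nat_lit 66) (nat_lit 3) (nat_lit 122) (nat_lit 111) (nat_lit 127)) (PT.lf (nat_lit 5092) (nat_lit 6) (nat_lit 67) (nat_lit 3) (nat_lit 123) (nat_lit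 111) (nat_lit 126))))))))
noncomputable def pc3 : PT := (PT.nd (nat_lit 74646) (PT.nd (nat_lit 37362) (PT.nd (nat_lit 312) (PT.nd (nat_lit 156) (PT.nd (nat_lit 78) (PT.lf (nat_lit 5168) (nat_lit 6) (nat_lit 68) (nat_lit 3) (nat_lit 124) (nat_lit 111) (nat_lit 125)) (PT.lf (nat_lit 5168) (nat_lit 6) (nat_lit 68) (nat_lit 1) (nat_lit 125) (nat_lit 111) (nat_lit 124))) (PT.nd (nat_lit 78) (PT.lf (nat_lit 5092) (nat_lit 6) (nat_lit 67) (nat_lit 1) (nat_lit 126) (nat_lit 111) (nat_lit 123)) (PT.lf (nat_lit 5016) (nat_lit 6) (nat_lit 66) (nat_lit 1) (nat_lit 127) (nat_lit 111) (nat_lit 122)))) (PT.nd (nat_lit 36816) (PT.nd (nat_lit 78) (PT.lf (nat_lit 4940) (nat_lit 6) (nat_lit 65) (nat_lit 1) (nat_lit 128) (nat_lit 111) (nat_lit 121)) (PT.lf (nat_lit 4864) (nat_lit 6) (nat_lit 64) (nat_lit 1) (nat_lit 129) (nat_lit 111) (nat_lit 120))) (PT.nd (nat_lit 78) (PT.lf (nat_lit 4788) (nat_lit 6) (nat_lit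 63) (nat_lit 3) (nat_lit 119) (nat_lit 112) (nat_lit 129)) (PT.nd (nat_lit 78) (PT.lf (nat_lit 5548) (nat_lit 6) (nat_lit 73) (nat_lit 3) (nat_lit 120) (nat_lit 112) (nat_lit 128)) (PT.lf (nat_lit 5624) (nat_lit 6) (nat_lit 74) (nat_lit 3) (nat_lit 121) (nat_lit 112) (nat_lit 127)))))) (PT.nd (nat_lit 312) (PT.nd (nat_lit 156) (PT.nd (nat_lit 78) (PT.lf (nat_lit 5700) (nat_lit 6) (nat_lit 75) (nat_lit 3) (nat_lit 122) (nat_lit 112) (nat_lit 126)) (PT.lf (nat_lit 5776) (nat_lit 6) (nat_lit 76) (nat_lit 3) (nat_lit 123) (nat_lit 112) (nat_lit 125))) (PT.nd (nat_lit 78) (PT.lf (nat_lit 5852) (nat_lit 3) (nat_lit 77) (nat_lit 1) (nat_lit 124) (nat_lit 112) (nat_lit 124)) (PT.lf (nat_lit 5776) (nat_lit 6) (nat_lit 76) (nat_lit 1) (nat_lit 125) (nat_lit 112) (nat_lit 123)))) (PT.nd (nat_lit 156) (PT.nd (nat_lit 78) (PT.lf (nat_lit 5700) (nat_lit 6) (nat_lit 75) (nat_lit 1) (nat_lit 126) (nat_lit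 112) (nat_lit 122)) (PT.lf (nat_lit 5624) (nat_lit 6) (nat_lit 74) (nat_lit 1) (nat_lit 127) (nat_lit 112) (nat_lit 121))) (PT.nd (nat_lit 78) (PT.lf (nat_lit 5548) (nat_lit 6) (nat_lit 73) (nat_lit 1) (nat_lit 128) (nat_lit 112) (nat_lit 120)) (PT.nd (nat_lit 36660) (PT.lf (nat_lit 4788) (nat_lit 6) (nat_lit 63) (nat_lit 1) (nat_lit 129) (nat_lit 112) (nat_lit 119)) (PT.lf (nat_lit 4712) (nat_lit 6) (nat_lit 62) (nat_lit 3) (nat_lit 118) (nat_lit 113) (nat_lit 129))))))) (PT.nd (nat_lit 702) (PT.nd (nat_lit 312) (PT.nd (nat_lit 156) (PT.nd (nat_lit 78) (PT.lf (nat_lit 5472) (nat_lit 6) (nat_lit 72) (nat_lit 3) (nat_lit 119) (nat_lit 113) (nat_lit 128)) (PT.lf (nat_lit 6156) (nat_lit 6) (nat_lit 81) (nat_lit 3) (nat_lit 120) (nat_lit 113) (nat_lit 127))) (PT.nd (nat_lit 78) (PT.lf (nat_lit 6232) (nat_lit 6) (nat_lit 82) (nat_lit 3) (nat_lit 121) (nat_lit 113) (nat_lit 126)) (PT.lf (nat_lit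 6308) (nat_lit 6) (nat_lit 83) (nat_lit 3) (nat_lit 122) (nat_lit 113) (nat_lit 125)))) (PT.nd (nat_lit 156) (PT.nd (nat_lit 78) (PT.lf (nat_lit 6384) (nat_lit 6) (nat_lit 84) (nat_lit 3) (nat_lit 123) (nat_lit 113) (nat_lit 124)) (PT.lf (nat_lit 6384) (nat_lit 6) (nat_lit 84) (nat_lit 1) (nat_lit 124) (nat_lit 113) (nat_lit 123))) (PT.nd (nat_lit 78) (PT.lf (nat_lit 6308) (nat_lit 6) (nat_lit 83) (nat_lit 1) (nat_lit 125) (nat_lit 113) (nat_lit 122)) (PT.nd (nat_lit 78) (PT.lf (nat_lit 6232) (nat_lit 6) (nat_lit 82) (nat_lit 1) (nat_lit 126) (nat_lit 113) (nat_lit 121)) (PT.lf (nat_lit 6156) (nat_lit 6) (nat_lit 81) (nat_lit 1) (nat_lit 127) (nat_lit 113) (nat_lit 120)))))) (PT.nd (nat_lit 36894) (PT.nd (nat_lit 36660) (PT.nd (nat_lit 78) (PT.lf (nat_lit 5472) (nat_lit 6) (nat_lit 72) (nat_lit 1) (nat_lit 128) (nat_lit 113) (nat_lit 119)) (PT.lf (nat_lit 4712) (nat_lit 6) (nat_lit 62) (nat_lit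 1) (nat_lit 129) (nat_lit 113) (nat_lit 118))) (PT.nd (nat_lit 78) (PT.lf (nat_lit 4636) (nat_lit 6) (nat_lit 61) (nat_lit 3) (nat_lit 117) (nat_lit 114) (nat_lit 129)) (PT.nd (nat_lit 78) (PT.lf (nat_lit 5396) (nat_lit 6) (nat_lit 71) (nat_lit 3) (nat_lit 118) (nat_lit 114) (nat_lit 128)) (PT.lf (nat_lit 6080) (nat_lit 6) (nat_lit 80) (nat_lit 3) (nat_lit 119) (nat_lit 114) (nat_lit 127))))) (PT.nd (nat_lit 156) (PT.nd (nat_lit 78) (PT.lf (nat_lit 6688) (nat_lit 6) (nat_lit 88) (nat_lit 3) (nat_lit 120) (nat_lit 114) (nat_lit 126)) (PT.lf (nat_lit 6764) (nat_lit 6) (nat_lit 89) (nat_lit 3) (nat_lit 121) (nat_lit 114) (nat_lit 125))) (PT.nd (nat_lit 78) (PT.lf (nat_lit 6840) (nat_lit 6) (nat_lit 90) (nat_lit 3) (nat_lit 122) (nat_lit 114) (nat_lit 124)) (PT.nd (nat_lit 78) (PT.lf (nat_lit 6916) (nat_lit 3) (nat_lit 91) (nat_lit 1) (nat_lit 123) (nat_lit 114) (nat_lit 123)) (PT.lf (nat_lit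 6840) (nat_lit 6) (nat_lit 90) (nat_lit 1) (nat_lit 124) (nat_lit 114) (nat_lit 122))))))))
noncomputable def pc4 : PT := (PT.nd (nat_lit 37830) (PT.nd (nat_lit 37128) (PT.nd (nat_lit 312) (PT.nd (nat_lit 156) (PT.nd (nat_lit 78) (PT.lf (nat_lit 6764) (nat_lit 6) (nat_lit 89) (nat_lit 1) (nat_lit 125) (nat_lit 114) (nat_lit 121)) (PT.lf (nat_lit 6688) (nat_lit 6) (nat_lit 88) (nat_lit 1) (nat_lit 126) (nat_lit 114) (nat_lit 120))) (PT.nd (nat_lit 78) (PT.lf (nat_lit 6080) (nat_lit 6) (nat_lit 80) (nat_lit 1) (nat_lit 127) (nat_lit 114) (nat_lit 119)) (PT.lf (nat_lit 5396) (nat_lit 6) (nat_lit 71) (nat_lit 1) (nat_lit 128) (nat_lit 114) (nat_lit 118)))) (PT.nd (nat_lit 36582) (PT.nd (nat_lit 36504) (PT.lf (nat_lit 4636) (nat_lit 6) (nat_lit 61) (nat_lit 1) (nat_lit 129) (nat_lit 114) (nat_lit 117)) (PT.lf (nat_lit 4560) (nat_lit 6) (nat_lit 60) (nat_lit 3) (nat_lit 116) (nat_lit 115) (nat_lit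 129))) (PT.nd (nat_lit 78) (PT.lf (nat_lit 5320) (nat_lit 6) (nat_lit 70) (nat_lit 3) (nat_lit 117) (nat_lit 115) (nat_lit 128)) (PT.nd (nat_lit 78) (PT.lf (nat_lit 6004) (nat_lit 6) (nat_lit 79) (nat_lit 3) (nat_lit 118) (nat_lit 115) (nat_lit 127)) (PT.lf (nat_lit 6612) (nat_lit 6) (nat_lit 87) (nat_lit 3) (nat_lit 119) (nat_lit 115) (nat_lit 126)))))) (PT.nd (nat_lit 312) (PT.nd (nat_lit 156) (PT.nd (nat_lit 78) (PT.lf (nat_lit 7144) (nat_lit 6) (nat_lit 94) (nat_lit 3) (nat_lit 120) (nat_lit 115) (nat_lit 125)) (PT.lf (nat_lit 7220) (nat_lit 6) (nat_lit 95) (nat_lit 3) (nat_lit 121) (nat_lit 115) (nat_lit 124))) (PT.nd (nat_lit 78) (PT.lf (nat_lit 7296) (nat_lit 6) (nat_lit 96) (nat_lit 3) (nat_lit 122) (nat_lit 115) (nat_lit 123)) (PT.lf (nat_lit 7296) (nat_lit 6) (nat_lit 96) (nat_lit 1) (nat_lit 123) (nat_lit 115) (nat_lit 122)))) (PT.nd (nat_lit 156) (PT.nd (nat_lit 78) (PT.lf (nat_lit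 7220) (nat_lit 6) (nat_lit 95) (nat_lit 1) (nat_lit 124) (nat_lit 115) (nat_lit 121)) (PT.lf (nat_lit 7144) (nat_lit 6) (nat_lit 94) (nat_lit 1) (nat_lit 125) (nat_lit 115) (nat_lit 120))) (PT.nd (nat_lit 78) (PT.lf (nat_lit 6612) (nat_lit 6) (nat_lit 87) (nat_lit 1) (nat_lit 126) (nat_lit 115) (nat_lit 119)) (PT.nd (nat_lit 78) (PT.lf (nat_lit 6004) (nat_lit 6) (nat_lit 79) (nat_lit 1) (nat_lit 127) (nat_lit 115) (nat_lit 118)) (PT.lf (nat_lit 5320) (nat_lit 6) (nat_lit 70) (nat_lit 1) (nat_lit 128) (nat_lit 115) (nat_lit 117))))))) (PT.nd (nat_lit 37050) (PT.nd (nat_lit 36660) (PT.nd (nat_lit 36504) (PT.nd (nat_lit 36426) (PT.lf (nat_lit 4560) (nat_lit 6) (nat_lit 60) (nat_lit 1) (nat_lit 129) (nat_lit 115) (nat_lit 116)) (PT.lf (nat_lit 4560) (nat_lit 6) (nat_lit 60) (nat_lit 5) (nat_lit 115) (nat_lit 116) (nat_lit 129))) (PT.nd (nat_lit 78) (PT.lf (nat_lit 5244) (nat_lit 3) (nat_lit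 69) (nat_lit 3) (nat_lit 116) (nat_lit 116) (nat_lit 128)) (PT.lf (nat_lit 5928) (nat_lit 6) (nat_lit 78) (nat_lit 3) (nat_lit 117) (nat_lit 116) (nat_lit 127)))) (PT.nd (nat_lit 156) (PT.nd (nat_lit 78) (PT.lf (nat_lit 6536) (nat_lit 6) (nat_lit 86) (nat_lit 3) (nat_lit 118) (nat_lit 116) (nat_lit 126)) (PT.lf (nat_lit 7068) (nat_lit 6) (nat_lit 93) (nat_lit 3) (nat_lit 119) (nat_lit 116) (nat_lit 125))) (PT.nd (nat_lit 78) (PT.lf (nat_lit 7524) (nat_lit 6) (nat_lit 99) (nat_lit 3) (nat_lit 120) (nat_lit 116) (nat_lit 124)) (PT.nd (nat_lit 78) (PT.lf (nat_lit 7600) (nat_lit 6) (nat_lit 100) (nat_lit 3) (nat_lit 121) (nat_lit 116) (nat_lit 123)) (PT.lf (nat_lit 7676) (nat_lit 3) (nat_lit 101) (nat_lit 1) (nat_lit 122) (nat_lit 116) (nat_lit 122)))))) (PT.nd (nat_lit 312) (PT.nd (nat_lit 156) (PT.nd (nat_lit 78) (PT.lf (nat_lit 7600) (nat_lit 6) (nat_lit 100) (nat_lit 1) (nat_lit 123) (nat_lit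 116) (nat_lit 121)) (PT.lf (nat_lit 7524) (nat_lit 6) (nat_lit 99) (nat_lit 1) (nat_lit 124) (nat_lit 116) (nat_lit 120))) (PT.nd (nat_lit 78) (PT.lf (nat_lit 7068) (nat_lit 6) (nat_lit 93) (nat_lit 1) (nat_lit 125) (nat_lit 116) (nat_lit 119)) (PT.lf (nat_lit 6536) (nat_lit 6) (nat_lit 86) (nat_lit 1) (nat_lit 126) (nat_lit 116) (nat_lit 118)))) (PT.nd (nat_lit 156) (PT.nd (nat_lit 78) (PT.lf (nat_lit 5928) (nat_lit 6) (nat_lit 78) (nat_lit 1) (nat_lit 127) (nat_lit 116) (nat_lit 117)) (PT.lf (nat_lit 5244) (nat_lit 3) (nat_lit 69) (nat_lit 0) (nat_lit 128) (nat_lit 116) (nat_lit 116))) (PT.nd (nat_lit 36348) (PT.lf (nat_lit 4560) (nat_lit 6) (nat_lit 60) (nat_lit 0) (nat_lit 129) (nat_lit 116) (nat_lit 115)) (PT.nd (nat_lit 78) (PT.lf (nat_lit 4636) (nat_lit 6) (nat_lit 61) (nat_lit 5) (nat_lit 114) (nat_lit 117) (nat_lit 129)) (PT.lf (nat_lit 5320) (nat_lit 6) (nat_lit 70) (nat_lit 5)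 (nat_lit 115) (nat_lit 117) (nat_lit 128))))))))
noncomputable def pc5 : PT := (PT.nd (nat_lit 37596) (PT.nd (nat_lit 702) (PT.nd (nat_lit 312) (PT.nd (nat_lit 156) (PT.nd (nat_lit 78) (PT.lf (nat_lit 5928) (nat_lit 6) (nat_lit 78) (nat_lit 5) (nat_lit 116) (nat_lit 117) (nat_lit 127)) (PT.lf (nat_lit 6460) (nat_lit 3) (nat_lit 85) (nat_lit 3) (nat_lit 117) (nat_lit 117) (nat_lit 126))) (PT.nd (nat_lit 78) (PT.lf (nat_lit 6992) (nat_lit 6) (nat_lit 92) (nat_lit 3) (nat_lit 118) (nat_lit 117) (nat_lit 125)) (PT.lf (nat_lit 7448) (nat_lit 6) (nat_lit 98) (nat_lit 3) (nat_lit 119) (nat_lit 117) (nat_lit 124)))) (PT.nd (nat_lit 156) (PT.nd (nat_lit 78) (PT.lf (nat_lit 7828) (nat_lit 6) (nat_lit 103) (nat_lit 3) (nat_lit 120) (nat_lit 117) (nat_lit 123)) (PT.lf (nat_lit 7904) (nat_lit 6) (nat_lit 104) (nat_lit 3) (nat_lit 121) (nat_lit 117) (nat_lit 122))) (PT.nd (nat_lit 78) (PT.lf (nat_lit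 7904) (nat_lit 6) (nat_lit 104) (nat_lit 1) (nat_lit 122) (nat_lit 117) (nat_lit 121)) (PT.nd (nat_lit 78) (PT.lf (nat_lit 7828) (nat_lit 6) (nat_lit 103) (nat_lit 1) (nat_lit 123) (nat_lit 117) (nat_lit 120)) (PT.lf (nat_lit 7448) (nat_lit 6) (nat_lit 98) (nat_lit 1) (nat_lit 124) (nat_lit 117) (nat_lit 119)))))) (PT.nd (nat_lit 312) (PT.nd (nat_lit 156) (PT.nd (nat_lit 78) (PT.lf (nat_lit 6992) (nat_lit 6) (nat_lit 92) (nat_lit 1) (nat_lit 125) (nat_lit 117) (nat_lit 118)) (PT.lf (nat_lit 6460) (nat_lit 3) (nat_lit 85) (nat_lit 0) (nat_lit 126) (nat_lit 117) (nat_lit 117))) (PT.nd (nat_lit 78) (PT.lf (nat_lit 5928) (nat_lit 6) (nat_lit 78) (nat_lit 0) (nat_lit 127) (nat_lit 117) (nat_lit 116)) (PT.lf (nat_lit 5320) (nat_lit 6) (nat_lit 70) (nat_lit 0) (nat_lit 128) (nat_lit 117) (nat_lit 115)))) (PT.nd (nat_lit 36348) (PT.nd (nat_lit 36270) (PT.lf (nat_lit 4636) (nat_lit 6) (nat_lit 61)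 (nat_lit 0) (nat_lit 129) (nat_lit 117) (nat_lit 114)) (PT.lf (nat_lit 4712) (nat_lit 6) (nat_lit 62) (nat_lit 5) (nat_lit 113) (nat_lit 118) (nat_lit 129))) (PT.nd (nat_lit 78) (PT.lf (nat_lit 5396) (nat_lit 6) (nat_lit 71) (nat_lit 5) (nat_lit 114) (nat_lit 118) (nat_lit 128)) (PT.nd (nat_lit 78) (PT.lf (nat_lit 6004) (nat_lit 6) (nat_lit 79) (nat_lit 5) (nat_lit 115) (nat_lit 118) (nat_lit 127)) (PT.lf (nat_lit 6536) (nat_lit 6) (nat_lit 86) (nat_lit 5) (nat_lit 116) (nat_lit 118) (nat_lit 126))))))) (PT.nd (nat_lit 702) (PT.nd (nat_lit 312) (PT.nd (nat_lit 156) (PT.nd (nat_lit 78) (PT.lf (nat_lit 6992) (nat_lit 6) (nat_lit 92) (nat_lit 5) (nat_lit 117) (nat_lit 118) (nat_lit 125)) (PT.lf (nat_lit 7372) (nat_lit 3) (nat_lit 97) (nat_lit 3) (nat_lit 118) (nat_lit 118) (nat_lit 124))) (PT.nd (nat_lit 78) (PT.lf (nat_lit 7752) (nat_lit 6) (nat_lit 102) (nat_lit 3) (nat_lit 119) (nat_lit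 118) (nat_lit 123)) (PT.lf (nat_lit 8056) (nat_lit 6) (nat_lit 106) (nat_lit 3) (nat_lit 120) (nat_lit 118) (nat_lit 122)))) (PT.nd (nat_lit 156) (PT.nd (nat_lit 78) (PT.lf (nat_lit 8132) (nat_lit 3) (nat_lit 107) (nat_lit 1) (nat_lit 121) (nat_lit 118) (nat_lit 121)) (PT.lf (nat_lit 8056) (nat_lit 6) (nat_lit 106) (nat_lit 1) (nat_lit 122) (nat_lit 118) (nat_lit 120))) (PT.nd (nat_lit 78) (PT.lf (nat_lit 7752) (nat_lit 6) (nat_lit 102) (nat_lit 1) (nat_lit 123) (nat_lit 118) (nat_lit 119)) (PT.nd (nat_lit 78) (PT.lf (nat_lit 7372) (nat_lit 3) (nat_lit 97) (nat_lit 0) (nat_lit 124) (nat_lit 118) (nat_lit 118)) (PT.lf (nat_lit 6992) (nat_lit 6) (nat_lit 92) (nat_lit 0) (nat_lit 125) (nat_lit 118) (nat_lit 117)))))) (PT.nd (nat_lit 36504) (PT.nd (nat_lit 156) (PT.nd (nat_lit 78) (PT.lf (nat_lit 6536) (nat_lit 6) (nat_lit 86) (nat_lit 0) (nat_lit 126) (nat_lit 118) (nat_lit 116)) (PT.lf (nat_lit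 6004) (nat_lit 6) (nat_lit 79) (nat_lit 0) (nat_lit 127) (nat_lit 118) (nat_lit 115))) (PT.nd (nat_lit 78) (PT.lf (nat_lit 5396) (nat_lit 6) (nat_lit 71) (nat_lit 0) (nat_lit 128) (nat_lit 118) (nat_lit 114)) (PT.nd (nat_lit 36192) (PT.lf (nat_lit 4712) (nat_lit 6) (nat_lit 62) (nat_lit 0) (nat_lit 129) (nat_lit 118) (nat_lit 113)) (PT.lf (nat_lit 4788) (nat_lit 6) (nat_lit 63) (nat_lit 5) (nat_lit 112) (nat_lit 119) (nat_lit 129))))) (PT.nd (nat_lit 156) (PT.nd (nat_lit 78) (PT.lf (nat_lit 5472) (nat_lit 6) (nat_lit 72) (nat_lit 5) (nat_lit 113) (nat_lit 119) (nat_lit 128)) (PT.lf (nat_lit 6080) (nat_lit 6) (nat_lit 80) (nat_lit 5) (nat_lit 114) (nat_lit 119) (nat_lit 127))) (PT.nd (nat_lit 78) (PT.lf (nat_lit 6612) (nat_lit 6) (nat_lit 87) (nat_lit 5) (nat_lit 115) (nat_lit 119) (nat_lit 126)) (PT.nd (nat_lit 78) (PT.lf (nat_lit 7068) (nat_lit 6) (nat_lit 93) (nat_lit 5) (nat_lit 116)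 (nat_lit 119) (nat_lit 125)) (PT.lf (nat_lit 7448) (nat_lit 6) (nat_lit 98) (nat_lit 5) (nat_lit 117) (nat_lit 119) (nat_lit 124))))))))
noncomputable def pc6 : PT := (PT.nd (nat_lit 37440) (PT.nd (nat_lit 702) (PT.nd (nat_lit 312) (PT.nd (nat_lit 156) (PT.nd (nat_lit 78) (PT.lf (nat_lit 7752) (nat_lit 6) (nat_lit 102) (nat_lit 5) (nat_lit 118) (nat_lit 119) (nat_lit 123)) (PT.lf (nat_lit 7980) (nat_lit 3) (nat_lit 105) (nat_lit 3) (nat_lit 119) (nat_lit 119) (nat_lit 122))) (PT.nd (nat_lit 78) (PT.lf (nat_lit 8208) (nat_lit 6) (nat_lit 108) (nat_lit 3) (nat_lit 120) (nat_lit 119) (nat_lit 121)) (PT.lf (nat_lit 8208) (nat_lit 6) (nat_lit 108) (nat_lit 1) (nat_lit 121) (nat_lit 119) (nat_lit 120)))) (PT.nd (nat_lit 156) (PT.nd (nat_lit 78) (PT.lf (nat_lit 7980) (nat_lit 3) (nat_lit 105) (nat_lit 0) (nat_lit 122) (nat_lit 119) (nat_lit 119)) (PT.lf (nat_lit 7752) (nat_lit 6) (nat_lit 102)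 (nat_lit 0) (nat_lit 123) (nat_lit 119) (nat_lit 118))) (PT.nd (nat_lit 78) (PT.lf (nat_lit 7448) (nat_lit 6) (nat_lit 98) (nat_lit 0) (nat_lit 124) (nat_lit 119) (nat_lit 117)) (PT.nd (nat_lit 78) (PT.lf (nat_lit 7068) (nat_lit 6) (nat_lit 93) (nat_lit 0) (nat_lit 125) (nat_lit 119) (nat_lit 116)) (PT.lf (nat_lit 6612) (nat_lit 6) (nat_lit 87) (nat_lit 0) (nat_lit 126) (nat_lit 119) (nat_lit 115)))))) (PT.nd (nat_lit 36348) (PT.nd (nat_lit 156) (PT.nd (nat_lit 78) (PT.lf (nat_lit 6080) (nat_lit 6) (nat_lit 80) (nat_lit 0) (nat_lit 127) (nat_lit 119) (nat_lit 114)) (PT.lf (nat_lit 5472) (nat_lit 6) (nat_lit 72) (nat_lit 0) (nat_lit 128) (nat_lit 119) (nat_lit 113))) (PT.nd (nat_lit 36114) (PT.lf (nat_lit 4788) (nat_lit 6) (nat_lit 63) (nat_lit 0) (nat_lit 129) (nat_lit 119) (nat_lit 112)) (PT.lf (nat_lit 4864) (nat_lit 6) (nat_lit 64) (nat_lit 5) (nat_lit 111) (nat_lit 120) (nat_lit 129))))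 (PT.nd (nat_lit 156) (PT.nd (nat_lit 78) (PT.lf (nat_lit 5548) (nat_lit 6) (nat_lit 73) (nat_lit 5) (nat_lit 112) (nat_lit 120) (nat_lit 128)) (PT.lf (nat_lit 6156) (nat_lit 6) (nat_lit 81) (nat_lit 5) (nat_lit 113) (nat_lit 120) (nat_lit 127))) (PT.nd (nat_lit 78) (PT.lf (nat_lit 6688) (nat_lit 6) (nat_lit 88) (nat_lit 5) (nat_lit 114) (nat_lit 120) (nat_lit 126)) (PT.nd (nat_lit 78) (PT.lf (nat_lit 7144) (nat_lit 6) (nat_lit 94) (nat_lit 5) (nat_lit 115) (nat_lit 120) (nat_lit 125)) (PT.lf (nat_lit 7524) (nat_lit 6) (nat_lit 99) (nat_lit 5) (nat_lit 116) (nat_lit 120) (nat_lit 124))))))) (PT.nd (nat_lit 702) (PT.nd (nat_lit 312) (PT.nd (nat_lit 156) (PT.nd (nat_lit 78) (PT.lf (nat_lit 7828) (nat_lit 6) (nat_lit 103) (nat_lit 5) (nat_lit 117) (nat_lit 120) (nat_lit 123)) (PT.lf (nat_lit 8056) (nat_lit 6) (nat_lit 106) (nat_lit 5) (nat_lit 118) (nat_lit 120) (nat_lit 122))) (PT.nd (nat_lit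 78) (PT.lf (nat_lit 8208) (nat_lit 6) (nat_lit 108) (nat_lit 5) (nat_lit 119) (nat_lit 120) (nat_lit 121)) (PT.lf (nat_lit 8284) (nat_lit 1) (nat_lit 109) (nat_lit 0) (nat_lit 120) (nat_lit 120) (nat_lit 120)))) (PT.nd (nat_lit 156) (PT.nd (nat_lit 78) (PT.lf (nat_lit 8208) (nat_lit 6) (nat_lit 108) (nat_lit 0) (nat_lit 121) (nat_lit 120) (nat_lit 119)) (PT.lf (nat_lit 8056) (nat_lit 6) (nat_lit 106) (nat_lit 0) (nat_lit 122) (nat_lit 120) (nat_lit 118))) (PT.nd (nat_lit 78) (PT.lf (nat_lit 7828) (nat_lit 6) (nat_lit 103) (nat_lit 0) (nat_lit 123) (nat_lit 120) (nat_lit 117)) (PT.nd (nat_lit 78) (PT.lf (nat_lit 7524) (nat_lit 6) (nat_lit 99) (nat_lit 0) (nat_lit 124) (nat_lit 120) (nat_lit 116)) (PT.lf (nat_lit 7144) (nat_lit 6) (nat_lit 94) (nat_lit 0) (nat_lit 125) (nat_lit 120) (nat_lit 115)))))) (PT.nd (nat_lit 36270) (PT.nd (nat_lit 156) (PT.nd (nat_lit 78) (PT.lf (nat_lit 6688) (nat_lit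 6) (nat_lit 88) (nat_lit 0) (nat_lit 126) (nat_lit 120) (nat_lit 114)) (PT.lf (nat_lit 6156) (nat_lit 6) (nat_lit 81) (nat_lit 0) (nat_lit 127) (nat_lit 120) (nat_lit 113))) (PT.nd (nat_lit 78) (PT.lf (nat_lit 5548) (nat_lit 6) (nat_lit 73) (nat_lit 0) (nat_lit 128) (nat_lit 120) (nat_lit 112)) (PT.lf (nat_lit 4864) (nat_lit 6) (nat_lit 64) (nat_lit 0) (nat_lit 129) (nat_lit 120) (nat_lit 111)))) (PT.nd (nat_lit 156) (PT.nd (nat_lit 78) (PT.lf (nat_lit 4180) (nat_lit 6) (nat_lit 55) (nat_lit 5) (nat_lit 110) (nat_lit 121) (nat_lit 129)) (PT.lf (nat_lit 4940) (nat_lit 6) (nat_lit 65) (nat_lit 5) (nat_lit 111) (nat_lit 121) (nat_lit 128))) (PT.nd (nat_lit 78) (PT.lf (nat_lit 5624) (nat_lit 6) (nat_lit 74) (nat_lit 5) (nat_lit 112) (nat_lit 121) (nat_lit 127)) (PT.nd (nat_lit 78) (PT.lf (nat_lit 6232) (nat_lit 6) (nat_lit 82) (nat_lit 5) (nat_lit 113) (nat_lit 121) (nat_lit 126)) (PT.lf (nat_lit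 6764) (nat_lit 6) (nat_lit 89) (nat_lit 5) (nat_lit 114) (nat_lit 121) (nat_lit 125))))))))
noncomputable def pc7 : PT := (PT.nd (nat_lit 37284) (PT.nd (nat_lit 702) (PT.nd (nat_lit 312) (PT.nd (nat_lit 156) (PT.nd (nat_lit 78) (PT.lf (nat_lit 7220) (nat_lit 6) (nat_lit 95) (nat_lit 5) (nat_lit 115) (nat_lit 121) (nat_lit 124)) (PT.lf (nat_lit 7600) (nat_lit 6) (nat_lit 100) (nat_lit 5) (nat_lit 116) (nat_lit 121) (nat_lit 123))) (PT.nd (nat_lit 78) (PT.lf (nat_lit 7904) (nat_lit 6) (nat_lit 104) (nat_lit 5) (nat_lit 117) (nat_lit 121) (nat_lit 122)) (PT.lf (nat_lit 8132) (nat_lit 3) (nat_lit 107) (nat_lit 4) (nat_lit 118) (nat_lit 121) (nat_lit 121)))) (PT.nd (nat_lit 156) (PT.nd (nat_lit 78) (PT.lf (nat_lit 8208) (nat_lit 6) (nat_lit 108) (nat_lit 4) (nat_lit 119) (nat_lit 121) (nat_lit 120)) (PT.lf (nat_lit 8208) (nat_lit 6) (nat_lit 108) (nat_lit 2) (nat_lit 120) (nat_lit 121) (nat_lit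 119))) (PT.nd (nat_lit 78) (PT.lf (nat_lit 8132) (nat_lit 3) (nat_lit 107) (nat_lit 0) (nat_lit 121) (nat_lit 121) (nat_lit 118)) (PT.nd (nat_lit 78) (PT.lf (nat_lit 7904) (nat_lit 6) (nat_lit 104) (nat_lit 0) (nat_lit 122) (nat_lit 121) (nat_lit 117)) (PT.lf (nat_lit 7600) (nat_lit 6) (nat_lit 100) (nat_lit 0) (nat_lit 123) (nat_lit 121) (nat_lit 116)))))) (PT.nd (nat_lit 312) (PT.nd (nat_lit 156) (PT.nd (nat_lit 78) (PT.lf (nat_lit 7220) (nat_lit 6) (nat_lit 95) (nat_lit 0) (nat_lit 124) (nat_lit 121) (nat_lit 115)) (PT.lf (nat_lit 6764) (nat_lit 6) (nat_lit 89) (nat_lit 0) (nat_lit 125) (nat_lit 121) (nat_lit 114))) (PT.nd (nat_lit 78) (PT.lf (nat_lit 6232) (nat_lit 6) (nat_lit 82) (nat_lit 0) (nat_lit 126) (nat_lit 121) (nat_lit 113)) (PT.lf (nat_lit 5624) (nat_lit 6) (nat_lit 74) (nat_lit 0) (nat_lit 127) (nat_lit 121) (nat_lit 112)))) (PT.nd (nat_lit 36036) (PT.nd (nat_lit 78) (PT.lf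 (nat_lit 4940) (nat_lit 6) (nat_lit 65) (nat_lit 0) (nat_lit 128) (nat_lit 121) (nat_lit 111)) (PT.lf (nat_lit 4180) (nat_lit 6) (nat_lit 55) (nat_lit 0) (nat_lit 129) (nat_lit 121) (nat_lit 110))) (PT.nd (nat_lit 78) (PT.lf (nat_lit 3876) (nat_lit 6) (nat_lit 51) (nat_lit 5) (nat_lit 109) (nat_lit 122) (nat_lit 129)) (PT.nd (nat_lit 78) (PT.lf (nat_lit 4256) (nat_lit 6) (nat_lit 56) (nat_lit 5) (nat_lit 110) (nat_lit 122) (nat_lit 128)) (PT.lf (nat_lit 5016) (nat_lit 6) (nat_lit 66) (nat_lit 5) (nat_lit 111) (nat_lit 122) (nat_lit 127))))))) (PT.nd (nat_lit 702) (PT.nd (nat_lit 312) (PT.nd (nat_lit 156) (PT.nd (nat_lit 78) (PT.lf (nat_lit 5700) (nat_lit 6) (nat_lit 75) (nat_lit 5) (nat_lit 112) (nat_lit 122) (nat_lit 126)) (PT.lf (nat_lit 6308) (nat_lit 6) (nat_lit 83) (nat_lit 5) (nat_lit 113) (nat_lit 122) (nat_lit 125))) (PT.nd (nat_lit 78) (PT.lf (nat_lit 6840) (nat_lit 6) (nat_lit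 90) (nat_lit 5) (nat_lit 114) (nat_lit 122) (nat_lit 124)) (PT.lf (nat_lit 7296) (nat_lit 6) (nat_lit 96) (nat_lit 5) (nat_lit 115) (nat_lit 122) (nat_lit 123)))) (PT.nd (nat_lit 156) (PT.nd (nat_lit 78) (PT.lf (nat_lit 7676) (nat_lit 3) (nat_lit 101) (nat_lit 4) (nat_lit 116) (nat_lit 122) (nat_lit 122)) (PT.lf (nat_lit 7904) (nat_lit 6) (nat_lit 104) (nat_lit 4) (nat_lit 117) (nat_lit 122) (nat_lit 121))) (PT.nd (nat_lit 78) (PT.lf (nat_lit 8056) (nat_lit 6) (nat_lit 106) (nat_lit 4) (nat_lit 118) (nat_lit 122) (nat_lit 120)) (PT.nd (nat_lit 78) (PT.lf (nat_lit 7980) (nat_lit 3) (nat_lit 105) (nat_lit 2) (nat_lit 119) (nat_lit 122) (nat_lit 119)) (PT.lf (nat_lit 8056) (nat_lit 6) (nat_lit 106) (nat_lit 2) (nat_lit 120) (nat_lit 122) (nat_lit 118)))))) (PT.nd (nat_lit 390) (PT.nd (nat_lit 156) (PT.nd (nat_lit 78) (PT.lf (nat_lit 7904) (nat_lit 6) (nat_lit 104) (nat_lit 2) (nat_lit 121)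 (nat_lit 122) (nat_lit 117)) (PT.lf (nat_lit 7676) (nat_lit 3) (nat_lit 101) (nat_lit 0) (nat_lit 122) (nat_lit 122) (nat_lit 116))) (PT.nd (nat_lit 78) (PT.lf (nat_lit 7296) (nat_lit 6) (nat_lit 96) (nat_lit 0) (nat_lit 123) (nat_lit 122) (nat_lit 115)) (PT.nd (nat_lit 78) (PT.lf (nat_lit 6840) (nat_lit 6) (nat_lit 90) (nat_lit 0) (nat_lit 124) (nat_lit 122) (nat_lit 114)) (PT.lf (nat_lit 6308) (nat_lit 6) (nat_lit 83) (nat_lit 0) (nat_lit 125) (nat_lit 122) (nat_lit 113))))) (PT.nd (nat_lit 156) (PT.nd (nat_lit 78) (PT.lf (nat_lit 5700) (nat_lit 6) (nat_lit 75) (nat_lit 0) (nat_lit 126) (nat_lit 122) (nat_lit 112)) (PT.lf (nat_lit 5016) (nat_lit 6) (nat_lit 66) (nat_lit 0) (nat_lit 127) (nat_lit 122) (nat_lit 111))) (PT.nd (nat_lit 78) (PT.lf (nat_lit 4256) (nat_lit 6) (nat_lit 56) (nat_lit 0) (nat_lit 128) (nat_lit 122) (nat_lit 110)) (PT.nd (nat_lit 35802) (PT.lf (nat_lit 3876) (nat_lit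 6) (nat_lit 51) (nat_lit 0) (nat_lit 129) (nat_lit 122) (nat_lit 109)) (PT.lf (nat_lit 3268) (nat_lit 6) (nat_lit 43) (nat_lit 5) (nat_lit 107) (nat_lit 123) (nat_lit 130))))))))
noncomputable def pc8 : PT := (PT.nd (nat_lit 1404) (PT.nd (nat_lit 702) (PT.nd (nat_lit 312) (PT.nd (nat_lit 156) (PT.nd (nat_lit 78) (PT.lf (nat_lit 3572) (nat_lit 6) (nat_lit 47) (nat_lit 5) (nat_lit 108) (nat_lit 123) (nat_lit 129)) (PT.lf (nat_lit 3952) (nat_lit 6) (nat_lit 52) (nat_lit 5) (nat_lit 109) (nat_lit 123) (nat_lit 128))) (PT.nd (nat_lit 78) (PT.lf (nat_lit 4332) (nat_lit 6) (nat_lit 57) (nat_lit 5) (nat_lit 110) (nat_lit 123) (nat_lit 127)) (PT.lf (nat_lit 5092) (nat_lit 6) (nat_lit 67) (nat_lit 5) (nat_lit 111) (nat_lit 123) (nat_lit 126)))) (PT.nd (nat_lit 156) (PT.nd (nat_lit 78) (PT.lf (nat_lit 5776) (nat_lit 6) (nat_lit 76) (nat_lit 5) (nat_lit 112) (nat_lit 123) (nat_lit 125)) (PT.lf (nat_lit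 6384) (nat_lit 6) (nat_lit 84) (nat_lit 5) (nat_lit 113) (nat_lit 123) (nat_lit 124))) (PT.nd (nat_lit 78) (PT.lf (nat_lit 6916) (nat_lit 3) (nat_lit 91) (nat_lit 4) (nat_lit 114) (nat_lit 123) (nat_lit 123)) (PT.nd (nat_lit 78) (PT.lf (nat_lit 7296) (nat_lit 6) (nat_lit 96) (nat_lit 4) (nat_lit 115) (nat_lit 123) (nat_lit 122)) (PT.lf (nat_lit 7600) (nat_lit 6) (nat_lit 100) (nat_lit 4) (nat_lit 116) (nat_lit 123) (nat_lit 121)))))) (PT.nd (nat_lit 312) (PT.nd (nat_lit 156) (PT.nd (nat_lit 78) (PT.lf (nat_lit 7828) (nat_lit 6) (nat_lit 103) (nat_lit 4) (nat_lit 117) (nat_lit 123) (nat_lit 120)) (PT.lf (nat_lit 7752) (nat_lit 6) (nat_lit 102) (nat_lit 4) (nat_lit 118) (nat_lit 123) (nat_lit 119))) (PT.nd (nat_lit 78) (PT.lf (nat_lit 7752) (nat_lit 6) (nat_lit 102) (nat_lit 2) (nat_lit 119) (nat_lit 123) (nat_lit 118)) (PT.lf (nat_lit 7828) (nat_lit 6) (nat_lit 103) (nat_lit 2) (nat_lit 120)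 (nat_lit 123) (nat_lit 117)))) (PT.nd (nat_lit 156) (PT.nd (nat_lit 78) (PT.lf (nat_lit 7600) (nat_lit 6) (nat_lit 100) (nat_lit 2) (nat_lit 121) (nat_lit 123) (nat_lit 116)) (PT.lf (nat_lit 7296) (nat_lit 6) (nat_lit 96) (nat_lit 2) (nat_lit 122) (nat_lit 123) (nat_lit 115))) (PT.nd (nat_lit 78) (PT.lf (nat_lit 6916) (nat_lit 3) (nat_lit 91) (nat_lit 0) (nat_lit 123) (nat_lit 123) (nat_lit 114)) (PT.nd (nat_lit 78) (PT.lf (nat_lit 6384) (nat_lit 6) (nat_lit 84) (nat_lit 0) (nat_lit 124) (nat_lit 123) (nat_lit 113)) (PT.lf (nat_lit 5776) (nat_lit 6) (nat_lit 76) (nat_lit 0) (nat_lit 125) (nat_lit 123) (nat_lit 112))))))) (PT.nd (nat_lit 36270) (PT.nd (nat_lit 312) (PT.nd (nat_lit 156) (PT.nd (nat_lit 78) (PT.lf (nat_lit 5092) (nat_lit 6) (nat_lit 67) (nat_lit 0) (nat_lit 126) (nat_lit 123) (nat_lit 111)) (PT.lf (nat_lit 4332) (nat_lit 6) (nat_lit 57) (nat_lit 0) (nat_lit 127) (nat_lit 123)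 (nat_lit 110))) (PT.nd (nat_lit 78) (PT.lf (nat_lit 3952) (nat_lit 6) (nat_lit 52) (nat_lit 0) (nat_lit 128) (nat_lit 123) (nat_lit 109)) (PT.lf (nat_lit 3572) (nat_lit 6) (nat_lit 47) (nat_lit 0) (nat_lit 129) (nat_lit 123) (nat_lit 108)))) (PT.nd (nat_lit 35724) (PT.nd (nat_lit 35646) (PT.lf (nat_lit 3268) (nat_lit 6) (nat_lit 43) (nat_lit 0) (nat_lit 130) (nat_lit 123) (nat_lit 107)) (PT.lf (nat_lit 2964) (nat_lit 6) (nat_lit 39) (nat_lit 5) (nat_lit 106) (nat_lit 124) (nat_lit 130))) (PT.nd (nat_lit 78) (PT.lf (nat_lit 3344) (nat_lit 6) (nat_lit 44) (nat_lit 5) (nat_lit 107) (nat_lit 124) (nat_lit 129)) (PT.nd (nat_lit 78) (PT.lf (nat_lit 3648) (nat_lit 6) (nat_lit 48) (nat_lit 5) (nat_lit 108) (nat_lit 124) (nat_lit 128)) (PT.lf (nat_lit 4028) (nat_lit 6) (nat_lit 53) (nat_lit 5) (nat_lit 109) (nat_lit 124) (nat_lit 127)))))) (PT.nd (nat_lit 312) (PT.nd (nat_lit 156) (PT.nd (nat_lit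 78) (PT.lf (nat_lit 4408) (nat_lit 6) (nat_lit 58) (nat_lit 5) (nat_lit 110) (nat_lit 124) (nat_lit 126)) (PT.lf (nat_lit 5168) (nat_lit 6) (nat_lit 68) (nat_lit 5) (nat_lit 111) (nat_lit 124) (nat_lit 125))) (PT.nd (nat_lit 78) (PT.lf (nat_lit 5852) (nat_lit 3) (nat_lit 77) (nat_lit 4) (nat_lit 112) (nat_lit 124) (nat_lit 124)) (PT.lf (nat_lit 6384) (nat_lit 6) (nat_lit 84) (nat_lit 4) (nat_lit 113) (nat_lit 124) (nat_lit 123)))) (PT.nd (nat_lit 156) (PT.nd (nat_lit 78) (PT.lf (nat_lit 6840) (nat_lit 6) (nat_lit 90) (nat_lit 4) (nat_lit 114) (nat_lit 124) (nat_lit 122)) (PT.lf (nat_lit 7220) (nat_lit 6) (nat_lit 95) (nat_lit 4) (nat_lit 115) (nat_lit 124) (nat_lit 121))) (PT.nd (nat_lit 78) (PT.lf (nat_lit 7524) (nat_lit 6) (nat_lit 99) (nat_lit 4) (nat_lit 116) (nat_lit 124) (nat_lit 120)) (PT.nd (nat_lit 78) (PT.lf (nat_lit 7448) (nat_lit 6) (nat_lit 98) (nat_lit 4) (nat_lit 117) (nat_lit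 124) (nat_lit 119)) (PT.lf (nat_lit 7372) (nat_lit 3) (nat_lit 97) (nat_lit 2) (nat_lit 118) (nat_lit 124) (nat_lit 118))))))))
noncomputable def pc9 : PT := (PT.nd (nat_lit 36894) (PT.nd (nat_lit 702) (PT.nd (nat_lit 312) (PT.nd (nat_lit 156) (PT.nd (nat_lit 78) (PT.lf (nat_lit 7448) (nat_lit 6) (nat_lit 98) (nat_lit 2) (nat_lit 119) (nat_lit 124) (nat_lit 117)) (PT.lf (nat_lit 7524) (nat_lit 6) (nat_lit 99) (nat_lit 2) (nat_lit 120) (nat_lit 124) (nat_lit 116))) (PT.nd (nat_lit 78) (PT.lf (nat_lit 7220) (nat_lit 6) (nat_lit 95) (nat_lit 2) (nat_lit 121) (nat_lit 124) (nat_lit 115)) (PT.lf (nat_lit 6840) (nat_lit 6) (nat_lit 90) (nat_lit 2) (nat_lit 122) (nat_lit 124) (nat_lit 114)))) (PT.nd (nat_lit 156) (PT.nd (nat_lit 78) (PT.lf (nat_lit 6384) (nat_lit 6) (nat_lit 84) (nat_lit 2) (nat_lit 123) (nat_lit 124) (nat_lit 113)) (PT.lf (nat_lit 5852) (nat_lit 3) (nat_lit 77) (nat_lit 0) (nat_lit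 124) (nat_lit 124) (nat_lit 112))) (PT.nd (nat_lit 78) (PT.lf (nat_lit 5168) (nat_lit 6) (nat_lit 68) (nat_lit 0) (nat_lit 125) (nat_lit 124) (nat_lit 111)) (PT.nd (nat_lit 78) (PT.lf (nat_lit 4408) (nat_lit 6) (nat_lit 58) (nat_lit 0) (nat_lit 126) (nat_lit 124) (nat_lit 110)) (PT.lf (nat_lit 4028) (nat_lit 6) (nat_lit 53) (nat_lit 0) (nat_lit 127) (nat_lit 124) (nat_lit 109)))))) (PT.nd (nat_lit 35802) (PT.nd (nat_lit 156) (PT.nd (nat_lit 78) (PT.lf (nat_lit 3648) (nat_lit 6) (nat_lit 48) (nat_lit 0) (nat_lit 128) (nat_lit 124) (nat_lit 108)) (PT.lf (nat_lit 3344) (nat_lit 6) (nat_lit 44) (nat_lit 0) (nat_lit 129) (nat_lit 124) (nat_lit 107))) (PT.nd (nat_lit 35568) (PT.lf (nat_lit 2964) (nat_lit 6) (nat_lit 39) (nat_lit 0) (nat_lit 130) (nat_lit 124) (nat_lit 106)) (PT.lf (nat_lit 2736) (nat_lit 6) (nat_lit 36) (nat_lit 5) (nat_lit 105) (nat_lit 125) (nat_lit 130)))) (PT.nd (nat_lit 156)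 (PT.nd (nat_lit 78) (PT.lf (nat_lit 3040) (nat_lit 6) (nat_lit 40) (nat_lit 5) (nat_lit 106) (nat_lit 125) (nat_lit 129)) (PT.lf (nat_lit 3420) (nat_lit 6) (nat_lit 45) (nat_lit 5) (nat_lit 107) (nat_lit 125) (nat_lit 128))) (PT.nd (nat_lit 78) (PT.lf (nat_lit 3724) (nat_lit 6) (nat_lit 49) (nat_lit 5) (nat_lit 108) (nat_lit 125) (nat_lit 127)) (PT.nd (nat_lit 78) (PT.lf (nat_lit 4104) (nat_lit 6) (nat_lit 54) (nat_lit 5) (nat_lit 109) (nat_lit 125) (nat_lit 126)) (PT.lf (nat_lit 4484) (nat_lit 3) (nat_lit 59) (nat_lit 4) (nat_lit 110) (nat_lit 125) (nat_lit 125))))))) (PT.nd (nat_lit 702) (PT.nd (nat_lit 312) (PT.nd (nat_lit 156) (PT.nd (nat_lit 78) (PT.lf (nat_lit 5168) (nat_lit 6) (nat_lit 68) (nat_lit 4) (nat_lit 111) (nat_lit 125) (nat_lit 124)) (PT.lf (nat_lit 5776) (nat_lit 6) (nat_lit 76) (nat_lit 4) (nat_lit 112) (nat_lit 125) (nat_lit 123))) (PT.nd (nat_lit 78) (PT.lf (nat_lit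 6308) (nat_lit 6) (nat_lit 83) (nat_lit 4) (nat_lit 113) (nat_lit 125) (nat_lit 122)) (PT.lf (nat_lit 6764) (nat_lit 6) (nat_lit 89) (nat_lit 4) (nat_lit 114) (nat_lit 125) (nat_lit 121)))) (PT.nd (nat_lit 156) (PT.nd (nat_lit 78) (PT.lf (nat_lit 7144) (nat_lit 6) (nat_lit 94) (nat_lit 4) (nat_lit 115) (nat_lit 125) (nat_lit 120)) (PT.lf (nat_lit 7068) (nat_lit 6) (nat_lit 93) (nat_lit 4) (nat_lit 116) (nat_lit 125) (nat_lit 119))) (PT.nd (nat_lit 78) (PT.lf (nat_lit 6992) (nat_lit 6) (nat_lit 92) (nat_lit 4) (nat_lit 117) (nat_lit 125) (nat_lit 118)) (PT.nd (nat_lit 78) (PT.lf (nat_lit 6992) (nat_lit 6) (nat_lit 92) (nat_lit 2) (nat_lit 118) (nat_lit 125) (nat_lit 117)) (PT.lf (nat_lit 7068) (nat_lit 6) (nat_lit 93) (nat_lit 2) (nat_lit 119) (nat_lit 125) (nat_lit 116)))))) (PT.nd (nat_lit 390) (PT.nd (nat_lit 156) (PT.nd (nat_lit 78) (PT.lf (nat_lit 7144) (nat_lit 6) (nat_lit 94) (nat_lit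 2) (nat_lit 120) (nat_lit 125) (nat_lit 115)) (PT.lf (nat_lit 6764) (nat_lit 6) (nat_lit 89) (nat_lit 2) (nat_lit 121) (nat_lit 125) (nat_lit 114))) (PT.nd (nat_lit 78) (PT.lf (nat_lit 6308) (nat_lit 6) (nat_lit 83) (nat_lit 2) (nat_lit 122) (nat_lit 125) (nat_lit 113)) (PT.nd (nat_lit 78) (PT.lf (nat_lit 5776) (nat_lit 6) (nat_lit 76) (nat_lit 2) (nat_lit 123) (nat_lit 125) (nat_lit 112)) (PT.lf (nat_lit 5168) (nat_lit 6) (nat_lit 68) (nat_lit 2) (nat_lit 124) (nat_lit 125) (nat_lit 111))))) (PT.nd (nat_lit 156) (PT.nd (nat_lit 78) (PT.lf (nat_lit 4484) (nat_lit 3) (nat_lit 59) (nat_lit 0) (nat_lit 125) (nat_lit 125) (nat_lit 110)) (PT.lf (nat_lit 4104) (nat_lit 6) (nat_lit 54) (nat_lit 0) (nat_lit 126) (nat_lit 125) (nat_lit 109))) (PT.nd (nat_lit 78) (PT.lf (nat_lit 3724) (nat_lit 6) (nat_lit 49) (nat_lit 0) (nat_lit 127) (nat_lit 125) (nat_lit 108)) (PT.nd (nat_lit 78) (PT.lf (nat_lit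 3420) (nat_lit 6) (nat_lit 45) (nat_lit 0) (nat_lit 128) (nat_lit 125) (nat_lit 107)) (PT.lf (nat_lit 3040) (nat_lit 6) (nat_lit 40) (nat_lit 0) (nat_lit 129) (nat_lit 125) (nat_lit 106))))))))
noncomputable def pc10 : PT := (PT.nd (nat_lit 36738) (PT.nd (nat_lit 36036) (PT.nd (nat_lit 35646) (PT.nd (nat_lit 35490) (PT.nd (nat_lit 35412) (PT.lf (nat_lit 2736) (nat_lit 6) (nat_lit 36) (nat_lit 0) (nat_lit 130) (nat_lit 125) (nat_lit 105)) (PT.lf (nat_lit 2204) (nat_lit 6) (nat_lit 29) (nat_lit 5) (nat_lit 103) (nat_lit 126) (nat_lit 131))) (PT.nd (nat_lit 78) (PT.lf (nat_lit 2508) (nat_lit 6) (nat_lit 33) (nat_lit 5) (nat_lit 104) (nat_lit 126) (nat_lit 130)) (PT.lf (nat_lit 2812) (nat_lit 6) (nat_lit 37) (nat_lit 5) (nat_lit 105) (nat_lit 126) (nat_lit 129)))) (PT.nd (nat_lit 156) (PT.nd (nat_lit 78) (PT.lf (nat_lit 3116) (nat_lit 6) (nat_lit 41) (nat_lit 5) (nat_lit 106) (nat_lit 126) (nat_lit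 128)) (PT.lf (nat_lit 3496) (nat_lit 6) (nat_lit 46) (nat_lit 5) (nat_lit 107) (nat_lit 126) (nat_lit 127))) (PT.nd (nat_lit 78) (PT.lf (nat_lit 3800) (nat_lit 3) (nat_lit 50) (nat_lit 4) (nat_lit 108) (nat_lit 126) (nat_lit 126)) (PT.nd (nat_lit 78) (PT.lf (nat_lit 4104) (nat_lit 6) (nat_lit 54) (nat_lit 4) (nat_lit 109) (nat_lit 126) (nat_lit 125)) (PT.lf (nat_lit 4408) (nat_lit 6) (nat_lit 58) (nat_lit 4) (nat_lit 110) (nat_lit 126) (nat_lit 124)))))) (PT.nd (nat_lit 312) (PT.nd (nat_lit 156) (PT.nd (nat_lit 78) (PT.lf (nat_lit 5092) (nat_lit 6) (nat_lit 67) (nat_lit 4) (nat_lit 111) (nat_lit 126) (nat_lit 123)) (PT.lf (nat_lit 5700) (nat_lit 6) (nat_lit 75) (nat_lit 4) (nat_lit 112) (nat_lit 126) (nat_lit 122))) (PT.nd (nat_lit 78) (PT.lf (nat_lit 6232) (nat_lit 6) (nat_lit 82) (nat_lit 4) (nat_lit 113) (nat_lit 126) (nat_lit 121)) (PT.lf (nat_lit 6688) (nat_lit 6) (nat_lit 88) (nat_lit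 4) (nat_lit 114) (nat_lit 126) (nat_lit 120)))) (PT.nd (nat_lit 156) (PT.nd (nat_lit 78) (PT.lf (nat_lit 6612) (nat_lit 6) (nat_lit 87) (nat_lit 4) (nat_lit 115) (nat_lit 126) (nat_lit 119)) (PT.lf (nat_lit 6536) (nat_lit 6) (nat_lit 86) (nat_lit 4) (nat_lit 116) (nat_lit 126) (nat_lit 118))) (PT.nd (nat_lit 78) (PT.lf (nat_lit 6460) (nat_lit 3) (nat_lit 85) (nat_lit 2) (nat_lit 117) (nat_lit 126) (nat_lit 117)) (PT.nd (nat_lit 78) (PT.lf (nat_lit 6536) (nat_lit 6) (nat_lit 86) (nat_lit 2) (nat_lit 118) (nat_lit 126) (nat_lit 116)) (PT.lf (nat_lit 6612) (nat_lit 6) (nat_lit 87) (nat_lit 2) (nat_lit 119) (nat_lit 126) (nat_lit 115))))))) (PT.nd (nat_lit 702) (PT.nd (nat_lit 312) (PT.nd (nat_lit 156) (PT.nd (nat_lit 78) (PT.lf (nat_lit 6688) (nat_lit 6) (nat_lit 88) (nat_lit 2) (nat_lit 120) (nat_lit 126) (nat_lit 114)) (PT.lf (nat_lit 6232) (nat_lit 6) (nat_lit 82) (nat_lit 2) (nat_lit 121)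 (nat_lit 126) (nat_lit 113))) (PT.nd (nat_lit 78) (PT.lf (nat_lit 5700) (nat_lit 6) (nat_lit 75) (nat_lit 2) (nat_lit 122) (nat_lit 126) (nat_lit 112)) (PT.lf (nat_lit 5092) (nat_lit 6) (nat_lit 67) (nat_lit 2) (nat_lit 123) (nat_lit 126) (nat_lit 111)))) (PT.nd (nat_lit 156) (PT.nd (nat_lit 78) (PT.lf (nat_lit 4408) (nat_lit 6) (nat_lit 58) (nat_lit 2) (nat_lit 124) (nat_lit 126) (nat_lit 110)) (PT.lf (nat_lit 4104) (nat_lit 6) (nat_lit 54) (nat_lit 2) (nat_lit 125) (nat_lit 126) (nat_lit 109))) (PT.nd (nat_lit 78) (PT.lf (nat_lit 3800) (nat_lit 3) (nat_lit 50) (nat_lit 0) (nat_lit 126) (nat_lit 126) (nat_lit 108)) (PT.nd (nat_lit 78) (PT.lf (nat_lit 3496) (nat_lit 6) (nat_lit 46) (nat_lit 0) (nat_lit 127) (nat_lit 126) (nat_lit 107)) (PT.lf (nat_lit 3116) (nat_lit 6) (nat_lit 41) (nat_lit 0) (nat_lit 128) (nat_lit 126) (nat_lit 106)))))) (PT.nd (nat_lit 35490) (PT.nd (nat_lit 156) (PT.nd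 (nat_lit 78) (PT.lf (nat_lit 2812) (nat_lit 6) (nat_lit 37) (nat_lit 0) (nat_lit 129) (nat_lit 126) (nat_lit 105)) (PT.lf (nat_lit 2508) (nat_lit 6) (nat_lit 33) (nat_lit 0) (nat_lit 130) (nat_lit 126) (nat_lit 104))) (PT.nd (nat_lit 35256) (PT.lf (nat_lit 2204) (nat_lit 6) (nat_lit 29) (nat_lit 0) (nat_lit 131) (nat_lit 126) (nat_lit 103)) (PT.lf (nat_lit 1976) (nat_lit 6) (nat_lit 26) (nat_lit 5) (nat_lit 102) (nat_lit 127) (nat_lit 131)))) (PT.nd (nat_lit 156) (PT.nd (nat_lit 78) (PT.lf (nat_lit 2280) (nat_lit 6) (nat_lit 30) (nat_lit 5) (nat_lit 103) (nat_lit 127) (nat_lit 130)) (PT.lf (nat_lit 2584) (nat_lit 6) (nat_lit 34) (nat_lit 5) (nat_lit 104) (nat_lit 127) (nat_lit 129))) (PT.nd (nat_lit 78) (PT.lf (nat_lit 2888) (nat_lit 6) (nat_lit 38) (nat_lit 5) (nat_lit 105) (nat_lit 127) (nat_lit 128)) (PT.nd (nat_lit 78) (PT.lf (nat_lit 3192) (nat_lit 3) (nat_lit 42) (nat_lit 4) (nat_lit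 106) (nat_lit 127) (nat_lit 127)) (PT.lf (nat_lit 3496) (nat_lit 6) (nat_lit 46) (nat_lit 4) (nat_lit 107) (nat_lit 127) (nat_lit 126))))))))
noncomputable def pc11 : PT := (PT.nd (nat_lit 1404) (PT.nd (nat_lit 702) (PT.nd (nat_lit 312) (PT.nd (nat_lit 156) (PT.nd (nat_lit 78) (PT.lf (nat_lit 3724) (nat_lit 6) (nat_lit 49) (nat_lit 4) (nat_lit 108) (nat_lit 127) (nat_lit 125)) (PT.lf (nat_lit 4028) (nat_lit 6) (nat_lit 53) (nat_lit 4) (nat_lit 109) (nat_lit 127) (nat_lit 124))) (PT.nd (nat_lit 78) (PT.lf (nat_lit 4332) (nat_lit 6) (nat_lit 57) (nat_lit 4) (nat_lit 110) (nat_lit 127) (nat_lit 123)) (PT.lf (nat_lit 5016) (nat_lit 6) (nat_lit 66) (nat_lit 4) (nat_lit 111) (nat_lit 127) (nat_lit 122)))) (PT.nd (nat_lit 156) (PT.nd (nat_lit 78) (PT.lf (nat_lit 5624) (nat_lit 6) (nat_lit 74) (nat_lit 4) (nat_lit 112) (nat_lit 127) (nat_lit 121)) (PT.lf (nat_lit 6156) (nat_lit 6) (nat_lit 81) (nat_lit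 4) (nat_lit 113) (nat_lit 127) (nat_lit 120))) (PT.nd (nat_lit 78) (PT.lf (nat_lit 6080) (nat_lit 6) (nat_lit 80) (nat_lit 4) (nat_lit 114) (nat_lit 127) (nat_lit 119)) (PT.nd (nat_lit 78) (PT.lf (nat_lit 6004) (nat_lit 6) (nat_lit 79) (nat_lit 4) (nat_lit 115) (nat_lit 127) (nat_lit 118)) (PT.lf (nat_lit 5928) (nat_lit 6) (nat_lit 78) (nat_lit 4) (nat_lit 116) (nat_lit 127) (nat_lit 117)))))) (PT.nd (nat_lit 312) (PT.nd (nat_lit 156) (PT.nd (nat_lit 78) (PT.lf (nat_lit 5928) (nat_lit 6) (nat_lit 78) (nat_lit 2) (nat_lit 117) (nat_lit 127) (nat_lit 116)) (PT.lf (nat_lit 6004) (nat_lit 6) (nat_lit 79) (nat_lit 2) (nat_lit 118) (nat_lit 127) (nat_lit 115))) (PT.nd (nat_lit 78) (PT.lf (nat_lit 6080) (nat_lit 6) (nat_lit 80) (nat_lit 2) (nat_lit 119) (nat_lit 127) (nat_lit 114)) (PT.lf (nat_lit 6156) (nat_lit 6) (nat_lit 81) (nat_lit 2) (nat_lit 120) (nat_lit 127) (nat_lit 113)))) (PT.nd (nat_lit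 156) (PT.nd (nat_lit 78) (PT.lf (nat_lit 5624) (nat_lit 6) (nat_lit 74) (nat_lit 2) (nat_lit 121) (nat_lit 127) (nat_lit 112)) (PT.lf (nat_lit 5016) (nat_lit 6) (nat_lit 66) (nat_lit 2) (nat_lit 122) (nat_lit 127) (nat_lit 111))) (PT.nd (nat_lit 78) (PT.lf (nat_lit 4332) (nat_lit 6) (nat_lit 57) (nat_lit 2) (nat_lit 123) (nat_lit 127) (nat_lit 110)) (PT.nd (nat_lit 78) (PT.lf (nat_lit 4028) (nat_lit 6) (nat_lit 53) (nat_lit 2) (nat_lit 124) (nat_lit 127) (nat_lit 109)) (PT.lf (nat_lit 3724) (nat_lit 6) (nat_lit 49) (nat_lit 2) (nat_lit 125) (nat_lit 127) (nat_lit 108))))))) (PT.nd (nat_lit 35724) (PT.nd (nat_lit 312) (PT.nd (nat_lit 156) (PT.nd (nat_lit 78) (PT.lf (nat_lit 3496) (nat_lit 6) (nat_lit 46) (nat_lit 2) (nat_lit 126) (nat_lit 127) (nat_lit 107)) (PT.lf (nat_lit 3192) (nat_lit 3) (nat_lit 42) (nat_lit 0) (nat_lit 127) (nat_lit 127) (nat_lit 106))) (PT.nd (nat_lit 78) (PT.lf (nat_lit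 2888) (nat_lit 6) (nat_lit 38) (nat_lit 0) (nat_lit 128) (nat_lit 127) (nat_lit 105)) (PT.lf (nat_lit 2584) (nat_lit 6) (nat_lit 34) (nat_lit 0) (nat_lit 129) (nat_lit 127) (nat_lit 104)))) (PT.nd (nat_lit 35178) (PT.nd (nat_lit 78) (PT.lf (nat_lit 2280) (nat_lit 6) (nat_lit 30) (nat_lit 0) (nat_lit 130) (nat_lit 127) (nat_lit 103)) (PT.lf (nat_lit 1976) (nat_lit 6) (nat_lit 26) (nat_lit 0) (nat_lit 131) (nat_lit 127) (nat_lit 102))) (PT.nd (nat_lit 78) (PT.lf (nat_lit 1596) (nat_lit 6) (nat_lit 21) (nat_lit 5) (nat_lit 100) (nat_lit 128) (nat_lit 132)) (PT.nd (nat_lit 78) (PT.lf (nat_lit 1824) (nat_lit 6) (nat_lit 24) (nat_lit 5) (nat_lit 101) (nat_lit 128) (nat_lit 131)) (PT.lf (nat_lit 2052) (nat_lit 6) (nat_lit 27) (nat_lit 5) (nat_lit 102) (nat_lit 128) (nat_lit 130)))))) (PT.nd (nat_lit 390) (PT.nd (nat_lit 156) (PT.nd (nat_lit 78) (PT.lf (nat_lit 2356) (nat_lit 6) (nat_lit 31) (nat_lit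 5) (nat_lit 103) (nat_lit 128) (nat_lit 129)) (PT.lf (nat_lit 2660) (nat_lit 3) (nat_lit 35) (nat_lit 4) (nat_lit 104) (nat_lit 128) (nat_lit 128))) (PT.nd (nat_lit 78) (PT.lf (nat_lit 2888) (nat_lit 6) (nat_lit 38) (nat_lit 4) (nat_lit 105) (nat_lit 128) (nat_lit 127)) (PT.nd (nat_lit 78) (PT.lf (nat_lit 3116) (nat_lit 6) (nat_lit 41) (nat_lit 4) (nat_lit 106) (nat_lit 128) (nat_lit 126)) (PT.lf (nat_lit 3420) (nat_lit 6) (nat_lit 45) (nat_lit 4) (nat_lit 107) (nat_lit 128) (nat_lit 125))))) (PT.nd (nat_lit 156) (PT.nd (nat_lit 78) (PT.lf (nat_lit 3648) (nat_lit 6) (nat_lit 48) (nat_lit 4) (nat_lit 108) (nat_lit 128) (nat_lit 124)) (PT.lf (nat_lit 3952) (nat_lit 6) (nat_lit 52) (nat_lit 4) (nat_lit 109) (nat_lit 128) (nat_lit 123))) (PT.nd (nat_lit 78) (PT.lf (nat_lit 4256) (nat_lit 6) (nat_lit 56) (nat_lit 4) (nat_lit 110) (nat_lit 128) (nat_lit 122)) (PT.nd (nat_lit 78) (PT.lf (nat_lit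 4940) (nat_lit 6) (nat_lit 65) (nat_lit 4) (nat_lit 111) (nat_lit 128) (nat_lit 121)) (PT.lf (nat_lit 5548) (nat_lit 6) (nat_lit 73) (nat_lit 4) (nat_lit 112) (nat_lit 128) (nat_lit 120))))))))
noncomputable def pc12 : PT := (PT.nd (nat_lit 1404) (PT.nd (nat_lit 702) (PT.nd (nat_lit 312) (PT.nd (nat_lit 156) (PT.nd (nat_lit 78) (PT.lf (nat_lit 5472) (nat_lit 6) (nat_lit 72) (nat_lit 4) (nat_lit 113) (nat_lit 128) (nat_lit 119)) (PT.lf (nat_lit 5396) (nat_lit 6) (nat_lit 71) (nat_lit 4) (nat_lit 114) (nat_lit 128) (nat_lit 118))) (PT.nd (nat_lit 78) (PT.lf (nat_lit 5320) (nat_lit 6) (nat_lit 70) (nat_lit 4) (nat_lit 115) (nat_lit 128) (nat_lit 117)) (PT.lf (nat_lit 5244) (nat_lit 3) (nat_lit 69) (nat_lit 2) (nat_lit 116) (nat_lit 128) (nat_lit 116)))) (PT.nd (nat_lit 156) (PT.nd (nat_lit 78) (PT.lf (nat_lit 5320) (nat_lit 6) (nat_lit 70) (nat_lit 2) (nat_lit 117) (nat_lit 128) (nat_lit 115))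 (PT.lf (nat_lit 5396) (nat_lit 6) (nat_lit 71) (nat_lit 2) (nat_lit 118) (nat_lit 128) (nat_lit 114))) (PT.nd (nat_lit 78) (PT.lf (nat_lit 5472) (nat_lit 6) (nat_lit 72) (nat_lit 2) (nat_lit 119) (nat_lit 128) (nat_lit 113)) (PT.nd (nat_lit 78) (PT.lf (nat_lit 5548) (nat_lit 6) (nat_lit 73) (nat_lit 2) (nat_lit 120) (nat_lit 128) (nat_lit 112)) (PT.lf (nat_lit 4940) (nat_lit 6) (nat_lit 65) (nat_lit 2) (nat_lit 121) (nat_lit 128) (nat_lit 111)))))) (PT.nd (nat_lit 312) (PT.nd (nat_lit 156) (PT.nd (nat_lit 78) (PT.lf (nat_lit 4256) (nat_lit 6) (nat_lit 56) (nat_lit 2) (nat_lit 122) (nat_lit 128) (nat_lit 110)) (PT.lf (nat_lit 3952) (nat_lit 6) (nat_lit 52) (nat_lit 2) (nat_lit 123) (nat_lit 128) (nat_lit 109))) (PT.nd (nat_lit 78) (PT.lf (nat_lit 3648) (nat_lit 6) (nat_lit 48) (nat_lit 2) (nat_lit 124) (nat_lit 128) (nat_lit 108)) (PT.lf (nat_lit 3420) (nat_lit 6) (nat_lit 45) (nat_lit 2)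 (nat_lit 125) (nat_lit 128) (nat_lit 107)))) (PT.nd (nat_lit 156) (PT.nd (nat_lit 78) (PT.lf (nat_lit 3116) (nat_lit 6) (nat_lit 41) (nat_lit 2) (nat_lit 126) (nat_lit 128) (nat_lit 106)) (PT.lf (nat_lit 2888) (nat_lit 6) (nat_lit 38) (nat_lit 2) (nat_lit 127) (nat_lit 128) (nat_lit 105))) (PT.nd (nat_lit 78) (PT.lf (nat_lit 2660) (nat_lit 3) (nat_lit 35) (nat_lit 0) (nat_lit 128) (nat_lit 128) (nat_lit 104)) (PT.nd (nat_lit 78) (PT.lf (nat_lit 2356) (nat_lit 6) (nat_lit 31) (nat_lit 0) (nat_lit 129) (nat_lit 128) (nat_lit 103)) (PT.lf (nat_lit 2052) (nat_lit 6) (nat_lit 27) (nat_lit 0) (nat_lit 130) (nat_lit 128) (nat_lit 102))))))) (PT.nd (nat_lit 35568) (PT.nd (nat_lit 35178) (PT.nd (nat_lit 35022) (PT.nd (nat_lit 78) (PT.lf (nat_lit 1824) (nat_lit 6) (nat_lit 24) (nat_lit 0) (nat_lit 131) (nat_lit 128) (nat_lit 101)) (PT.lf (nat_lit 1596) (nat_lit 6) (nat_lit 21) (nat_lit 0) (nat_lit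 132) (nat_lit 128) (nat_lit 100))) (PT.nd (nat_lit 78) (PT.lf (nat_lit 1444) (nat_lit 6) (nat_lit 19) (nat_lit 5) (nat_lit 99) (nat_lit 129) (nat_lit 132)) (PT.lf (nat_lit 1672) (nat_lit 6) (nat_lit 22) (nat_lit 5) (nat_lit 100) (nat_lit 129) (nat_lit 131)))) (PT.nd (nat_lit 156) (PT.nd (nat_lit 78) (PT.lf (nat_lit 1900) (nat_lit 6) (nat_lit 25) (nat_lit 5) (nat_lit 101) (nat_lit 129) (nat_lit 130)) (PT.lf (nat_lit 2128) (nat_lit 3) (nat_lit 28) (nat_lit 4) (nat_lit 102) (nat_lit 129) (nat_lit 129))) (PT.nd (nat_lit 78) (PT.lf (nat_lit 2356) (nat_lit 6) (nat_lit 31) (nat_lit 4) (nat_lit 103) (nat_lit 129) (nat_lit 128)) (PT.nd (nat_lit 78) (PT.lf (nat_lit 2584) (nat_lit 6) (nat_lit 34) (nat_lit 4) (nat_lit 104) (nat_lit 129) (nat_lit 127)) (PT.lf (nat_lit 2812) (nat_lit 6) (nat_lit 37) (nat_lit 4) (nat_lit 105) (nat_lit 129) (nat_lit 126)))))) (PT.nd (nat_lit 312) (PT.nd (nat_lit 156) (PT.nd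 (nat_lit 78) (PT.lf (nat_lit 3040) (nat_lit 6) (nat_lit 40) (nat_lit 4) (nat_lit 106) (nat_lit 129) (nat_lit 125)) (PT.lf (nat_lit 3344) (nat_lit 6) (nat_lit 44) (nat_lit 4) (nat_lit 107) (nat_lit 129) (nat_lit 124))) (PT.nd (nat_lit 78) (PT.lf (nat_lit 3572) (nat_lit 6) (nat_lit 47) (nat_lit 4) (nat_lit 108) (nat_lit 129) (nat_lit 123)) (PT.lf (nat_lit 3876) (nat_lit 6) (nat_lit 51) (nat_lit 4) (nat_lit 109) (nat_lit 129) (nat_lit 122)))) (PT.nd (nat_lit 156) (PT.nd (nat_lit 78) (PT.lf (nat_lit 4180) (nat_lit 6) (nat_lit 55) (nat_lit 4) (nat_lit 110) (nat_lit 129) (nat_lit 121)) (PT.lf (nat_lit 4864) (nat_lit 6) (nat_lit 64) (nat_lit 4) (nat_lit 111) (nat_lit 129) (nat_lit 120))) (PT.nd (nat_lit 78) (PT.lf (nat_lit 4788) (nat_lit 6) (nat_lit 63) (nat_lit 4) (nat_lit 112) (nat_lit 129) (nat_lit 119)) (PT.nd (nat_lit 78) (PT.lf (nat_lit 4712) (nat_lit 6) (nat_lit 62) (nat_lit 4) (nat_lit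 113) (nat_lit 129) (nat_lit 118)) (PT.lf (nat_lit 4636) (nat_lit 6) (nat_lit 61) (nat_lit 4) (nat_lit 114) (nat_lit 129) (nat_lit 117))))))))
noncomputable def pc13 : PT := (PT.nd (nat_lit 36114) (PT.nd (nat_lit 702) (PT.nd (nat_lit 312) (PT.nd (nat_lit 156) (PT.nd (nat_lit 78) (PT.lf (nat_lit 4560) (nat_lit 6) (nat_lit 60) (nat_lit 4) (nat_lit 115) (nat_lit 129) (nat_lit 116)) (PT.lf (nat_lit 4560) (nat_lit 6) (nat_lit 60) (nat_lit 2) (nat_lit 116) (nat_lit 129) (nat_lit 115))) (PT.nd (nat_lit 78) (PT.lf (nat_lit 4636) (nat_lit 6) (nat_lit 61) (nat_lit 2) (nat_lit 117) (nat_lit 129) (nat_lit 114)) (PT.lf (nat_lit 4712) (nat_lit 6) (nat_lit 62) (nat_lit 2) (nat_lit 118) (nat_lit 129) (nat_lit 113)))) (PT.nd (nat_lit 156) (PT.nd (nat_lit 78) (PT.lf (nat_lit 4788) (nat_lit 6) (nat_lit 63) (nat_lit 2) (nat_lit 119) (nat_lit 129) (nat_lit 112)) (PT.lf (nat_lit 4864) (nat_lit 6) (nat_lit 64)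 (nat_lit 2) (nat_lit 120) (nat_lit 129) (nat_lit 111))) (PT.nd (nat_lit 78) (PT.lf (nat_lit 4180) (nat_lit 6) (nat_lit 55) (nat_lit 2) (nat_lit 121) (nat_lit 129) (nat_lit 110)) (PT.nd (nat_lit 78) (PT.lf (nat_lit 3876) (nat_lit 6) (nat_lit 51) (nat_lit 2) (nat_lit 122) (nat_lit 129) (nat_lit 109)) (PT.lf (nat_lit 3572) (nat_lit 6) (nat_lit 47) (nat_lit 2) (nat_lit 123) (nat_lit 129) (nat_lit 108)))))) (PT.nd (nat_lit 312) (PT.nd (nat_lit 156) (PT.nd (nat_lit 78) (PT.lf (nat_lit 3344) (nat_lit 6) (nat_lit 44) (nat_lit 2) (nat_lit 124) (nat_lit 129) (nat_lit 107)) (PT.lf (nat_lit 3040) (nat_lit 6) (nat_lit 40) (nat_lit 2) (nat_lit 125) (nat_lit 129) (nat_lit 106))) (PT.nd (nat_lit 78) (PT.lf (nat_lit 2812) (nat_lit 6) (nat_lit 37) (nat_lit 2) (nat_lit 126) (nat_lit 129) (nat_lit 105)) (PT.lf (nat_lit 2584) (nat_lit 6) (nat_lit 34) (nat_lit 2) (nat_lit 127) (nat_lit 129) (nat_lit 104)))) (PT.nd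 (nat_lit 156) (PT.nd (nat_lit 78) (PT.lf (nat_lit 2356) (nat_lit 6) (nat_lit 31) (nat_lit 2) (nat_lit 128) (nat_lit 129) (nat_lit 103)) (PT.lf (nat_lit 2128) (nat_lit 3) (nat_lit 28) (nat_lit 0) (nat_lit 129) (nat_lit 129) (nat_lit 102))) (PT.nd (nat_lit 78) (PT.lf (nat_lit 1900) (nat_lit 6) (nat_lit 25) (nat_lit 0) (nat_lit 130) (nat_lit 129) (nat_lit 101)) (PT.nd (nat_lit 78) (PT.lf (nat_lit 1672) (nat_lit 6) (nat_lit 22) (nat_lit 0) (nat_lit 131) (nat_lit 129) (nat_lit 100)) (PT.lf (nat_lit 1444) (nat_lit 6) (nat_lit 19) (nat_lit 0) (nat_lit 132) (nat_lit 129) (nat_lit 99))))))) (PT.nd (nat_lit 702) (PT.nd (nat_lit 312) (PT.nd (nat_lit 156) (PT.nd (nat_lit 78) (PT.lf (nat_lit 1140) (nat_lit 6) (nat_lit 15) (nat_lit 5) (nat_lit 97) (nat_lit 130) (nat_lit 133)) (PT.lf (nat_lit 1292) (nat_lit 6) (nat_lit 17) (nat_lit 5) (nat_lit 98) (nat_lit 130) (nat_lit 132))) (PT.nd (nat_lit 78) (PT.lf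 (nat_lit 1520) (nat_lit 6) (nat_lit 20) (nat_lit 5) (nat_lit 99) (nat_lit 130) (nat_lit 131)) (PT.lf (nat_lit 1748) (nat_lit 3) (nat_lit 23) (nat_lit 4) (nat_lit 100) (nat_lit 130) (nat_lit 130)))) (PT.nd (nat_lit 156) (PT.nd (nat_lit 78) (PT.lf (nat_lit 1900) (nat_lit 6) (nat_lit 25) (nat_lit 4) (nat_lit 101) (nat_lit 130) (nat_lit 129)) (PT.lf (nat_lit 2052) (nat_lit 6) (nat_lit 27) (nat_lit 4) (nat_lit 102) (nat_lit 130) (nat_lit 128))) (PT.nd (nat_lit 78) (PT.lf (nat_lit 2280) (nat_lit 6) (nat_lit 30) (nat_lit 4) (nat_lit 103) (nat_lit 130) (nat_lit 127)) (PT.nd (nat_lit 78) (PT.lf (nat_lit 2508) (nat_lit 6) (nat_lit 33) (nat_lit 4) (nat_lit 104) (nat_lit 130) (nat_lit 126)) (PT.lf (nat_lit 2736) (nat_lit 6) (nat_lit 36) (nat_lit 4) (nat_lit 105) (nat_lit 130) (nat_lit 125)))))) (PT.nd (nat_lit 1560) (PT.nd (nat_lit 1326) (PT.nd (nat_lit 78) (PT.lf (nat_lit 2964) (nat_lit 6) (nat_lit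 39) (nat_lit 4) (nat_lit 106) (nat_lit 130) (nat_lit 124)) (PT.lf (nat_lit 3268) (nat_lit 6) (nat_lit 43) (nat_lit 4) (nat_lit 107) (nat_lit 130) (nat_lit 123))) (PT.nd (nat_lit 78) (PT.lf (nat_lit 3268) (nat_lit 6) (nat_lit 43) (nat_lit 2) (nat_lit 123) (nat_lit 130) (nat_lit 107)) (PT.nd (nat_lit 78) (PT.lf (nat_lit 2964) (nat_lit 6) (nat_lit 39) (nat_lit 2) (nat_lit 124) (nat_lit 130) (nat_lit 106)) (PT.lf (nat_lit 2736) (nat_lit 6) (nat_lit 36) (nat_lit 2) (nat_lit 125) (nat_lit 130) (nat_lit 105))))) (PT.nd (nat_lit 156) (PT.nd (nat_lit 78) (PT.lf (nat_lit 2508) (nat_lit 6) (nat_lit 33) (nat_lit 2) (nat_lit 126) (nat_lit 130) (nat_lit 104)) (PT.lf (nat_lit 2280) (nat_lit 6) (nat_lit 30) (nat_lit 2) (nat_lit 127) (nat_lit 130) (nat_lit 103))) (PT.nd (nat_lit 78) (PT.lf (nat_lit 2052) (nat_lit 6) (nat_lit 27) (nat_lit 2) (nat_lit 128) (nat_lit 130) (nat_lit 102)) (PT.nd (nat_lit 78) (PT.lf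 (nat_lit 1900) (nat_lit 6) (nat_lit 25) (nat_lit 2) (nat_lit 129) (nat_lit 130) (nat_lit 101)) (PT.lf (nat_lit 1748) (nat_lit 3) (nat_lit 23) (nat_lit 0) (nat_lit 130) (nat_lit 130) (nat_lit 100))))))))
noncomputable def pc14 : PT := (PT.nd (nat_lit 37596) (PT.nd (nat_lit 35178) (PT.nd (nat_lit 34788) (PT.nd (nat_lit 156) (PT.nd (nat_lit 78) (PT.lf (nat_lit 1520) (nat_lit 6) (nat_lit 20) (nat_lit 0) (nat_lit 131) (nat_lit 130) (nat_lit 99)) (PT.lf (nat_lit 1292) (nat_lit 6) (nat_lit 17) (nat_lit 0) (nat_lit 132) (nat_lit 130) (nat_lit 98))) (PT.nd (nat_lit 34554) (PT.lf (nat_lit 1140) (nat_lit 6) (nat_lit 15) (nat_lit 0) (nat_lit 133) (nat_lit 130) (nat_lit 97)) (PT.lf (nat_lit 836) (nat_lit 6) (nat_lit 11) (nat_lit 5) (nat_lit 95) (nat_lit 131) (nat_lit 134)))) (PT.nd (nat_lit 156) (PT.nd (nat_lit 78) (PT.lf (nat_lit 988) (nat_lit 6) (nat_lit 13) (nat_lit 5) (nat_lit 96) (nat_lit 131) (nat_lit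 133)) (PT.lf (nat_lit 1216) (nat_lit 6) (nat_lit 16) (nat_lit 5) (nat_lit 97) (nat_lit 131) (nat_lit 132))) (PT.nd (nat_lit 78) (PT.lf (nat_lit 1368) (nat_lit 3) (nat_lit 18) (nat_lit 4) (nat_lit 98) (nat_lit 131) (nat_lit 131)) (PT.nd (nat_lit 78) (PT.lf (nat_lit 1520) (nat_lit 6) (nat_lit 20) (nat_lit 4) (nat_lit 99) (nat_lit 131) (nat_lit 130)) (PT.lf (nat_lit 1672) (nat_lit 6) (nat_lit 22) (nat_lit 4) (nat_lit 100) (nat_lit 131) (nat_lit 129)))))) (PT.nd (nat_lit 2028) (PT.nd (nat_lit 156) (PT.nd (nat_lit 78) (PT.lf (nat_lit 1824) (nat_lit 6) (nat_lit 24) (nat_lit 4) (nat_lit 101) (nat_lit 131) (nat_lit 128)) (PT.lf (nat_lit 1976) (nat_lit 6) (nat_lit 26) (nat_lit 4) (nat_lit 102) (nat_lit 131) (nat_lit 127))) (PT.nd (nat_lit 1794) (PT.lf (nat_lit 2204) (nat_lit 6) (nat_lit 29) (nat_lit 4) (nat_lit 103) (nat_lit 131) (nat_lit 126)) (PT.lf (nat_lit 2204) (nat_lit 6) (nat_lit 29) (nat_lit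 2) (nat_lit 126) (nat_lit 131) (nat_lit 103)))) (PT.nd (nat_lit 156) (PT.nd (nat_lit 78) (PT.lf (nat_lit 1976) (nat_lit 6) (nat_lit 26) (nat_lit 2) (nat_lit 127) (nat_lit 131) (nat_lit 102)) (PT.lf (nat_lit 1824) (nat_lit 6) (nat_lit 24) (nat_lit 2) (nat_lit 128) (nat_lit 131) (nat_lit 101))) (PT.nd (nat_lit 78) (PT.lf (nat_lit 1672) (nat_lit 6) (nat_lit 22) (nat_lit 2) (nat_lit 129) (nat_lit 131) (nat_lit 100)) (PT.nd (nat_lit 78) (PT.lf (nat_lit 1520) (nat_lit 6) (nat_lit 20) (nat_lit 2) (nat_lit 130) (nat_lit 131) (nat_lit 99)) (PT.lf (nat_lit 1368) (nat_lit 3) (nat_lit 18) (nat_lit 0) (nat_lit 131) (nat_lit 131) (nat_lit 98))))))) (PT.nd (nat_lit 35022) (PT.nd (nat_lit 34632) (PT.nd (nat_lit 156) (PT.nd (nat_lit 78) (PT.lf (nat_lit 1216) (nat_lit 6) (nat_lit 16) (nat_lit 0) (nat_lit 132) (nat_lit 131) (nat_lit 97)) (PT.lf (nat_lit 988) (nat_lit 6) (nat_lit 13) (nat_lit 0) (nat_lit 133)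 (nat_lit 131) (nat_lit 96))) (PT.nd (nat_lit 34398) (PT.lf (nat_lit 836) (nat_lit 6) (nat_lit 11) (nat_lit 0) (nat_lit 134) (nat_lit 131) (nat_lit 95)) (PT.lf (nat_lit 684) (nat_lit 6) (nat_lit 9) (nat_lit 5) (nat_lit 94) (nat_lit 132) (nat_lit 134)))) (PT.nd (nat_lit 156) (PT.nd (nat_lit 78) (PT.lf (nat_lit 912) (nat_lit 6) (nat_lit 12) (nat_lit 5) (nat_lit 95) (nat_lit 132) (nat_lit 133)) (PT.lf (nat_lit 1064) (nat_lit 3) (nat_lit 14) (nat_lit 4) (nat_lit 96) (nat_lit 132) (nat_lit 132))) (PT.nd (nat_lit 78) (PT.lf (nat_lit 1216) (nat_lit 6) (nat_lit 16) (nat_lit 4) (nat_lit 97) (nat_lit 132) (nat_lit 131)) (PT.nd (nat_lit 78) (PT.lf (nat_lit 1292) (nat_lit 6) (nat_lit 17) (nat_lit 4) (nat_lit 98) (nat_lit 132) (nat_lit 130)) (PT.lf (nat_lit 1444) (nat_lit 6) (nat_lit 19) (nat_lit 4) (nat_lit 99) (nat_lit 132) (nat_lit 129)))))) (PT.nd (nat_lit 2418) (PT.nd (nat_lit 2262) (PT.nd (nat_lit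 2184) (PT.lf (nat_lit 1596) (nat_lit 6) (nat_lit 21) (nat_lit 4) (nat_lit 100) (nat_lit 132) (nat_lit 128)) (PT.lf (nat_lit 1596) (nat_lit 6) (nat_lit 21) (nat_lit 2) (nat_lit 128) (nat_lit 132) (nat_lit 100))) (PT.nd (nat_lit 78) (PT.lf (nat_lit 1444) (nat_lit 6) (nat_lit 19) (nat_lit 2) (nat_lit 129) (nat_lit 132) (nat_lit 99)) (PT.lf (nat_lit 1292) (nat_lit 6) (nat_lit 17) (nat_lit 2) (nat_lit 130) (nat_lit 132) (nat_lit 98)))) (PT.nd (nat_lit 156) (PT.nd (nat_lit 78) (PT.lf (nat_lit 1216) (nat_lit 6) (nat_lit 16) (nat_lit 2) (nat_lit 131) (nat_lit 132) (nat_lit 97)) (PT.lf (nat_lit 1064) (nat_lit 3) (nat_lit 14) (nat_lit 0) (nat_lit 132) (nat_lit 132) (nat_lit 96))) (PT.nd (nat_lit 78) (PT.lf (nat_lit 912) (nat_lit 6) (nat_lit 12) (nat_lit 0) (nat_lit 133) (nat_lit 132) (nat_lit 95)) (PT.nd (nat_lit 34242) (PT.lf (nat_lit 684) (nat_lit 6) (nat_lit 9) (nat_lit 0) (nat_lit 134) (nat_lit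 132) (nat_lit 94)) (PT.lf (nat_lit 456) (nat_lit 6) (nat_lit 6) (nat_lit 5) (nat_lit 92) (nat_lit 133) (nat_lit 135))))))))
noncomputable def pc15 : PT := (PT.nd (nat_lit 40560) (PT.nd (nat_lit 3198) (PT.nd (nat_lit 312) (PT.nd (nat_lit 156) (PT.nd (nat_lit 78) (PT.lf (nat_lit 608) (nat_lit 6) (nat_lit 8) (nat_lit 5) (nat_lit 93) (nat_lit 133) (nat_lit 134)) (PT.lf (nat_lit 760) (nat_lit 3) (nat_lit 10) (nat_lit 4) (nat_lit 94) (nat_lit 133) (nat_lit 133))) (PT.nd (nat_lit 78) (PT.lf (nat_lit 912) (nat_lit 6) (nat_lit 12) (nat_lit 4) (nat_lit 95) (nat_lit 133) (nat_lit 132)) (PT.lf (nat_lit 988) (nat_lit 6) (nat_lit 13) (nat_lit 4) (nat_lit 96) (nat_lit 133) (nat_lit 131)))) (PT.nd (nat_lit 2652) (PT.nd (nat_lit 2574) (PT.lf (nat_lit 1140) (nat_lit 6) (nat_lit 15) (nat_lit 4) (nat_lit 97) (nat_lit 133) (nat_lit 130)) (PT.lf (nat_lit 1140) (nat_lit 6) (nat_lit 15) (nat_lit 2) (nat_lit 130)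 (nat_lit 133) (nat_lit 97))) (PT.nd (nat_lit 78) (PT.lf (nat_lit 988) (nat_lit 6) (nat_lit 13) (nat_lit 2) (nat_lit 131) (nat_lit 133) (nat_lit 96)) (PT.nd (nat_lit 78) (PT.lf (nat_lit 912) (nat_lit 6) (nat_lit 12) (nat_lit 2) (nat_lit 132) (nat_lit 133) (nat_lit 95)) (PT.lf (nat_lit 760) (nat_lit 3) (nat_lit 10) (nat_lit 0) (nat_lit 133) (nat_lit 133) (nat_lit 94)))))) (PT.nd (nat_lit 34242) (PT.nd (nat_lit 34086) (PT.nd (nat_lit 78) (PT.lf (nat_lit 608) (nat_lit 6) (nat_lit 8) (nat_lit 0) (nat_lit 134) (nat_lit 133) (nat_lit 93)) (PT.lf (nat_lit 456) (nat_lit 6) (nat_lit 6) (nat_lit 0) (nat_lit 135) (nat_lit 133) (nat_lit 92))) (PT.nd (nat_lit 78) (PT.lf (nat_lit 228) (nat_lit 6) (nat_lit 3) (nat_lit 5) (nat_lit 90) (nat_lit 134) (nat_lit 136)) (PT.lf (nat_lit 380) (nat_lit 6) (nat_lit 5) (nat_lit 5) (nat_lit 91) (nat_lit 134) (nat_lit 135)))) (PT.nd (nat_lit 156) (PT.nd (nat_lit 78) (PT.lf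 (nat_lit 532) (nat_lit 3) (nat_lit 7) (nat_lit 4) (nat_lit 92) (nat_lit 134) (nat_lit 134)) (PT.lf (nat_lit 608) (nat_lit 6) (nat_lit 8) (nat_lit 4) (nat_lit 93) (nat_lit 134) (nat_lit 133))) (PT.nd (nat_lit 78) (PT.lf (nat_lit 684) (nat_lit 6) (nat_lit 9) (nat_lit 4) (nat_lit 94) (nat_lit 134) (nat_lit 132)) (PT.nd (nat_lit 2808) (PT.lf (nat_lit 836) (nat_lit 6) (nat_lit 11) (nat_lit 4) (nat_lit 95) (nat_lit 134) (nat_lit 131)) (PT.lf (nat_lit 836) (nat_lit 6) (nat_lit 11) (nat_lit 2) (nat_lit 131) (nat_lit 134) (nat_lit 95))))))) (PT.nd (nat_lit 37596) (PT.nd (nat_lit 312) (PT.nd (nat_lit 156) (PT.nd (nat_lit 78) (PT.lf (nat_lit 684) (nat_lit 6) (nat_lit 9) (nat_lit 2) (nat_lit 132) (nat_lit 134) (nat_lit 94)) (PT.lf (nat_lit 608) (nat_lit 6) (nat_lit 8) (nat_lit 2) (nat_lit 133) (nat_lit 134) (nat_lit 93))) (PT.nd (nat_lit 78) (PT.lf (nat_lit 532) (nat_lit 3) (nat_lit 7) (nat_lit 0) (nat_lit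 134) (nat_lit 134) (nat_lit 92)) (PT.lf (nat_lit 380) (nat_lit 6) (nat_lit 5) (nat_lit 0) (nat_lit 135) (nat_lit 134) (nat_lit 91)))) (PT.nd (nat_lit 33930) (PT.nd (nat_lit 33852) (PT.lf (nat_lit 228) (nat_lit 6) (nat_lit 3) (nat_lit 0) (nat_lit 136) (nat_lit 134) (nat_lit 90)) (PT.lf (nat_lit 152) (nat_lit 6) (nat_lit 2) (nat_lit 5) (nat_lit 89) (nat_lit 135) (nat_lit 136))) (PT.nd (nat_lit 78) (PT.lf (nat_lit 304) (nat_lit 3) (nat_lit 4) (nat_lit 4) (nat_lit 90) (nat_lit 135) (nat_lit 135)) (PT.nd (nat_lit 78) (PT.lf (nat_lit 380) (nat_lit 6) (nat_lit 5) (nat_lit 4) (nat_lit 91) (nat_lit 135) (nat_lit 134)) (PT.lf (nat_lit 456) (nat_lit 6) (nat_lit 6) (nat_lit 4) (nat_lit 92) (nat_lit 135) (nat_lit 133)))))) (PT.nd (nat_lit 34086) (PT.nd (nat_lit 156) (PT.nd (nat_lit 78) (PT.lf (nat_lit 456) (nat_lit 6) (nat_lit 6) (nat_lit 2) (nat_lit 133) (nat_lit 135) (nat_lit 92)) (PT.lf (nat_lit 380)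 (nat_lit 6) (nat_lit 5) (nat_lit 2) (nat_lit 134) (nat_lit 135) (nat_lit 91))) (PT.nd (nat_lit 78) (PT.lf (nat_lit 304) (nat_lit 3) (nat_lit 4) (nat_lit 0) (nat_lit 135) (nat_lit 135) (nat_lit 90)) (PT.nd (nat_lit 33774) (PT.lf (nat_lit 152) (nat_lit 6) (nat_lit 2) (nat_lit 0) (nat_lit 136) (nat_lit 135) (nat_lit 89)) (PT.lf (nat_lit 76) (nat_lit 3) (nat_lit 1) (nat_lit 4) (nat_lit 88) (nat_lit 136) (nat_lit 136))))) (PT.nd (nat_lit 3510) (PT.nd (nat_lit 78) (PT.lf (nat_lit 152) (nat_lit 6) (nat_lit 2) (nat_lit 4) (nat_lit 89) (nat_lit 136) (nat_lit 135)) (PT.lf (nat_lit 228) (nat_lit 6) (nat_lit 3) (nat_lit 4) (nat_lit 90) (nat_lit 136) (nat_lit 134))) (PT.nd (nat_lit 78) (PT.lf (nat_lit 228) (nat_lit 6) (nat_lit 3) (nat_lit 2) (nat_lit 134) (nat_lit 136) (nat_lit 90)) (PT.nd (nat_lit 78) (PT.lf (nat_lit 152) (nat_lit 6) (nat_lit 2) (nat_lit 2) (nat_lit 135) (nat_lit 136) (nat_lit 89))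 (PT.lf (nat_lit 76) (nat_lit 3) (nat_lit 1) (nat_lit 0) (nat_lit 136) (nat_lit 136) (nat_lit 88))))))))
noncomputable def xc0 : XT := (XT.nd (nat_lit 149448) (nat_lit 0) (nat_lit 0) (XT.nd (nat_lit 75036) (nat_lit 0) (nat_lit 0) (XT.nd (nat_lit 74568) (nat_lit 0) (nat_lit 0) (XT.nd (nat_lit 37284) (nat_lit 0) (nat_lit 0) (XT.nd (nat_lit 37206) (nat_lit 0) (nat_lit 0) (XT.lf (nat_lit 0) (nat_lit 44157220123) (nat_lit 76) (nat_lit 48690416398) (nat_lit 76) (nat_lit 48257822363) (nat_lit 1) (nat_lit 4) (nat_lit 2) (nat_lit 5) (nat_lit 2) (nat_lit 4) (nat_lit 334) (nat_lit 194) (nat_lit 192)) (XT.lf (nat_lit 0) (nat_lit 9796207181) (nat_lit 76) (nat_lit 24196858517) (nat_lit 76) (nat_lit 24196858517) (nat_lit 1) (nat_lit 4) (nat_lit 2) (nat_lit 5) (nat_lit 2) (nat_lit 4) (nat_lit 330) (nat_lit 195) (nat_lit 195))) (XT.nd (nat_lit 78) (nat_lit 0) (nat_lit 0) (XT.lf (nat_lit 0) (nat_lit 25456505950)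 (nat_lit 76) (nat_lit 48444876356) (nat_lit 76) (nat_lit 48212225173) (nat_lit 1) (nat_lit 4) (nat_lit 2) (nat_lit 5) (nat_lit 2) (nat_lit 4) (nat_lit 331) (nat_lit 195) (nat_lit 194)) (XT.nd (nat_lit 156) (nat_lit 0) (nat_lit 0) (XT.lf (nat_lit 0) (nat_lit 31459990055) (nat_lit 76) (nat_lit 48565486081) (nat_lit 76) (nat_lit 48111262344) (nat_lit 1) (nat_lit 4) (nat_lit 2) (nat_lit 5) (nat_lit 2) (nat_lit 4) (nat_lit 332) (nat_lit 195) (nat_lit 193)) (XT.lf (nat_lit 0) (nat_lit 43942677774) (nat_lit 76) (nat_lit 49016371451) (nat_lit 76) (nat_lit 48150153395) (nat_lit 1) (nat_lit 4) (nat_lit 2) (nat_lit 5) (nat_lit 2) (nat_lit 4) (nat_lit 334) (nat_lit 195) (nat_lit 191))))) (XT.nd (nat_lit 156) (nat_lit 0) (nat_lit 0) (XT.nd (nat_lit 78) (nat_lit 0) (nat_lit 0) (XT.lf (nat_lit 0) (nat_lit 4154789883) (nat_lit 76) (nat_lit 24353868050) (nat_lit 76) (nat_lit 24353868050) (nat_lit 1) (nat_lit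 4) (nat_lit 2) (nat_lit 5) (nat_lit 2) (nat_lit 4) (nat_lit 328) (nat_lit 196) (nat_lit 196)) (XT.lf (nat_lit 0) (nat_lit 13853753168) (nat_lit 76) (nat_lit 48656170050) (nat_lit 76) (nat_lit 48411886308) (nat_lit 1) (nat_lit 4) (nat_lit 2) (nat_lit 5) (nat_lit 2) (nat_lit 4) (nat_lit 329) (nat_lit 196) (nat_lit 195))) (XT.nd (nat_lit 78) (nat_lit 0) (nat_lit 0) (XT.lf (nat_lit 0) (nat_lit 19513632574) (nat_lit 76) (nat_lit 48672262756) (nat_lit 76) (nat_lit 48195327832) (nat_lit 1) (nat_lit 4) (nat_lit 2) (nat_lit 5) (nat_lit 2) (nat_lit 4) (nat_lit 330) (nat_lit 196) (nat_lit 194)) (XT.nd (nat_lit 78) (nat_lit 0) (nat_lit 0) (XT.lf (nat_lit 0) (nat_lit 25302693888) (nat_lit 76) (nat_lit 48756052535) (nat_lit 76) (nat_lit 48057545057) (nat_lit 1) (nat_lit 4) (nat_lit 2) (nat_lit 5) (nat_lit 2) (nat_lit 4) (nat_lit 331) (nat_lit 196) (nat_lit 193)) (XT.lf (nat_lit 0) (nat_lit 31234720588)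 (nat_lit 76) (nat_lit 48907738887) (nat_lit 76) (nat_lit 47998209928) (nat_lit 1) (nat_lit 4) (nat_lit 2) (nat_lit 5) (nat_lit 2) (nat_lit 4) (nat_lit 332) (nat_lit 196) (nat_lit 192)))))) (XT.nd (nat_lit 37206) (nat_lit 0) (nat_lit 0) (XT.nd (nat_lit 36972) (nat_lit 0) (nat_lit 0) (XT.nd (nat_lit 36894) (nat_lit 0) (nat_lit 76) (XT.lf (nat_lit 0) (nat_lit 43584539664) (nat_lit 76) (nat_lit 49416408460) (nat_lit 76) (nat_lit 48114503959) (nat_lit 1) (nat_lit 4) (nat_lit 2) (nat_lit 5) (nat_lit 2) (nat_lit 4) (nat_lit 334) (nat_lit 196) (nat_lit 190)) (XT.lf (nat_lit 0) (nat_lit 23429458080) (nat_lit 152) (nat_lit 1175284382) (nat_lit 0) (nat_lit 23429458080) (nat_lit 2) (nat_lit 5) (nat_lit 4) (nat_lit 4) (nat_lit 2) (nat_lit 4) (nat_lit 326) (nat_lit 197) (nat_lit 197))) (XT.nd (nat_lit 78) (nat_lit 0) (nat_lit 0) (XT.lf (nat_lit 0) (nat_lit 2867911956) (nat_lit 76) (nat_lit 49083581615)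 (nat_lit 76) (nat_lit 48827083686) (nat_lit 1) (nat_lit 4) (nat_lit 2) (nat_lit 5) (nat_lit 2) (nat_lit 4) (nat_lit 327) (nat_lit 197) (nat_lit 196)) (XT.nd (nat_lit 78) (nat_lit 0) (nat_lit 0) (XT.lf (nat_lit 0) (nat_lit 8226858889) (nat_lit 76) (nat_lit 49000209109) (nat_lit 76) (nat_lit 48499427439) (nat_lit 1) (nat_lit 4) (nat_lit 2) (nat_lit 5) (nat_lit 2) (nat_lit 4) (nat_lit 328) (nat_lit 197) (nat_lit 195)) (XT.lf (nat_lit 0) (nat_lit 13692250502) (nat_lit 76) (nat_lit 48982905038) (nat_lit 76) (nat_lit 48249472186) (nat_lit 1) (nat_lit 4) (nat_lit 2) (nat_lit 5) (nat_lit 2) (nat_lit 4) (nat_lit 329) (nat_lit 197) (nat_lit 194))))) (XT.nd (nat_lit 312) (nat_lit 0) (nat_lit 0) (XT.nd (nat_lit 78) (nat_lit 0) (nat_lit 0) (XT.lf (nat_lit 0) (nat_lit 19277099634) (nat_lit 76) (nat_lit 49031628202) (nat_lit 76) (nat_lit 48076622795) (nat_lit 1) (nat_lit 4) (nat_lit 2) (nat_lit 5) (nat_lit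 2) (nat_lit 4) (nat_lit 330) (nat_lit 197) (nat_lit 193)) (XT.nd (nat_lit 78) (nat_lit 0) (nat_lit 0) (XT.lf (nat_lit 0) (nat_lit 24994703543) (nat_lit 76) (nat_lit 49146494608) (nat_lit 76) (nat_lit 47980467720) (nat_lit 1) (nat_lit 4) (nat_lit 2) (nat_lit 5) (nat_lit 2) (nat_lit 4) (nat_lit 331) (nat_lit 197) (nat_lit 192)) (XT.lf (nat_lit 0) (nat_lit 30858675573) (nat_lit 76) (nat_lit 49327777747) (nat_lit 76) (nat_lit 47960778020) (nat_lit 1) (nat_lit 4) (nat_lit 2) (nat_lit 5) (nat_lit 2) (nat_lit 4) (nat_lit 332) (nat_lit 197) (nat_lit 191)))) (XT.nd (nat_lit 36738) (nat_lit 0) (nat_lit 76) (XT.lf (nat_lit 0) (nat_lit 43081953084) (nat_lit 76) (nat_lit 49891479894) (nat_lit 76) (nat_lit 48150789175) (nat_lit 1) (nat_lit 4) (nat_lit 2) (nat_lit 5) (nat_lit 2) (nat_lit 4) (nat_lit 334) (nat_lit 197) (nat_lit 189)) (XT.nd (nat_lit 78) (nat_lit 0) (nat_lit 0) (XT.lf (nat_lit 0) (nat_lit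 18739073887) (nat_lit 152) (nat_lit 6179794723) (nat_lit 0) (nat_lit 18739073887) (nat_lit 2) (nat_lit 5) (nat_lit 4) (nat_lit 4) (nat_lit 2) (nat_lit 4) (nat_lit 324) (nat_lit 198) (nat_lit 198)) (XT.lf (nat_lit 0) (nat_lit 42210221816) (nat_lit 152) (nat_lit 7433520757) (nat_lit 0) (nat_lit 41940898991) (nat_lit 2) (nat_lit 5) (nat_lit 4) (nat_lit 4) (nat_lit 2) (nat_lit 4) (nat_lit 325) (nat_lit 198) (nat_lit 197))))))) (XT.nd (nat_lit 37362) (nat_lit 0) (nat_lit 0) (XT.nd (nat_lit 390) (nat_lit 0) (nat_lit 0) (XT.nd (nat_lit 156) (nat_lit 0) (nat_lit 0) (XT.nd (nat_lit 78) (nat_lit 76) (nat_lit 0) (XT.lf (nat_lit 0) (nat_lit 47079990819) (nat_lit 152) (nat_lit 2435730795) (nat_lit 0) (nat_lit 46554170065) (nat_lit 2) (nat_lit 5) (nat_lit 4) (nat_lit 4) (nat_lit 2) (nat_lit 4) (nat_lit 326) (nat_lit 198) (nat_lit 196)) (XT.lf (nat_lit 0) (nat_lit 2698334157) (nat_lit 76) (nat_lit 49426653353)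 (nat_lit 76) (nat_lit 48656548858) (nat_lit 1) (nat_lit 4) (nat_lit 2) (nat_lit 5) (nat_lit 2) (nat_lit 4) (nat_lit 327) (nat_lit 198) (nat_lit 195))) (XT.nd (nat_lit 78) (nat_lit 0) (nat_lit 0) (XT.lf (nat_lit 0) (nat_lit 7978499301) (nat_lit 76) (nat_lit 49377542828) (nat_lit 76) (nat_lit 48374787150) (nat_lit 1) (nat_lit 4) (nat_lit 2) (nat_lit 5) (nat_lit 2) (nat_lit 4) (nat_lit 328) (nat_lit 198) (nat_lit 194)) (XT.nd (nat_lit 78) (nat_lit 0) (nat_lit 0) (XT.lf (nat_lit 0) (nat_lit 13368860640) (nat_lit 76) (nat_lit 49392869214) (nat_lit 76) (nat_lit 48168540982) (nat_lit 1) (nat_lit 4) (nat_lit 2) (nat_lit 5) (nat_lit 2) (nat_lit 4) (nat_lit 329) (nat_lit 198) (nat_lit 193)) (XT.lf (nat_lit 0) (nat_lit 18882252368) (nat_lit 76) (nat_lit 49472669004) (nat_lit 76) (nat_lit 48037319291) (nat_lit 1) (nat_lit 4) (nat_lit 2) (nat_lit 5) (nat_lit 2) (nat_lit 4) (nat_lit 330) (nat_lit 198)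 (nat_lit 192))))) (XT.nd (nat_lit 234) (nat_lit 0) (nat_lit 0) (XT.nd (nat_lit 78) (nat_lit 0) (nat_lit 0) (XT.lf (nat_lit 0) (nat_lit 24531801606) (nat_lit 76) (nat_lit 49617132197) (nat_lit 76) (nat_lit 47980809645) (nat_lit 1) (nat_lit 4) (nat_lit 2) (nat_lit 5) (nat_lit 2) (nat_lit 4) (nat_lit 331) (nat_lit 198) (nat_lit 191)) (XT.lf (nat_lit 0) (nat_lit 30330959664) (nat_lit 76) (nat_lit 49826602752) (nat_lit 76) (nat_lit 47998877497) (nat_lit 1) (nat_lit 4) (nat_lit 2) (nat_lit 5) (nat_lit 2) (nat_lit 4) (nat_lit 332) (nat_lit 198) (nat_lit 190))) (XT.nd (nat_lit 36582) (nat_lit 0) (nat_lit 76) (XT.lf (nat_lit 0) (nat_lit 42433721399) (nat_lit 76) (nat_lit 50442716875) (nat_lit 76) (nat_lit 48259095436) (nat_lit 1) (nat_lit 4) (nat_lit 2) (nat_lit 5) (nat_lit 2) (nat_lit 4) (nat_lit 334) (nat_lit 198) (nat_lit 188)) (XT.nd (nat_lit 78) (nat_lit 0) (nat_lit 0) (XT.lf (nat_lit 0) (nat_lit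 14359150396) (nat_lit 152) (nat_lit 10974721984) (nat_lit 0) (nat_lit 14359150396) (nat_lit 2) (nat_lit 5) (nat_lit 4) (nat_lit 4) (nat_lit 2) (nat_lit 4) (nat_lit 322) (nat_lit 199) (nat_lit 199)) (XT.lf (nat_lit 0) (nat_lit 33155290817) (nat_lit 152) (nat_lit 17225665598) (nat_lit 0) (nat_lit 32872501851) (nat_lit 2) (nat_lit 5) (nat_lit 4) (nat_lit 4) (nat_lit 2) (nat_lit 4) (nat_lit 323) (nat_lit 199) (nat_lit 198)))))) (XT.nd (nat_lit 390) (nat_lit 0) (nat_lit 0) (XT.nd (nat_lit 156) (nat_lit 76) (nat_lit 0) (XT.nd (nat_lit 78) (nat_lit 0) (nat_lit 0) (XT.lf (nat_lit 0) (nat_lit 37710276166) (nat_lit 152) (nat_lit 12449009578) (nat_lit 0) (nat_lit 37158164374) (nat_lit 2) (nat_lit 5) (nat_lit 4) (nat_lit 4) (nat_lit 2) (nat_lit 4) (nat_lit 324) (nat_lit 199) (nat_lit 197)) (XT.lf (nat_lit 0) (nat_lit 42394102041) (nat_lit 152) (nat_lit 7608102919) (nat_lit 0) (nat_lit 41585492321) (nat_lit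 2) (nat_lit 5) (nat_lit 4) (nat_lit 4) (nat_lit 2) (nat_lit 4) (nat_lit 325) (nat_lit 199) (nat_lit 196))) (XT.nd (nat_lit 78) (nat_lit 76) (nat_lit 0) (XT.lf (nat_lit 0) (nat_lit 47217920410) (nat_lit 152) (nat_lit 2691419652) (nat_lit 0) (nat_lit 46165026949) (nat_lit 2) (nat_lit 5) (nat_lit 4) (nat_lit 4) (nat_lit 2) (nat_lit 4) (nat_lit 326) (nat_lit 199) (nat_lit 195)) (XT.nd (nat_lit 78) (nat_lit 0) (nat_lit 0) (XT.lf (nat_lit 0) (nat_lit 2358774802) (nat_lit 76) (nat_lit 49857115738) (nat_lit 76) (nat_lit 48571571094) (nat_lit 1) (nat_lit 4) (nat_lit 2) (nat_lit 5) (nat_lit 2) (nat_lit 4) (nat_lit 327) (nat_lit 199) (nat_lit 194)) (XT.lf (nat_lit 0) (nat_lit 7563909672) (nat_lit 76) (nat_lit 49840635670) (nat_lit 76) (nat_lit 48333518472) (nat_lit 1) (nat_lit 4) (nat_lit 2) (nat_lit 5) (nat_lit 2) (nat_lit 4) (nat_lit 328) (nat_lit 199) (nat_lit 193))))) (XT.nd (nat_lit 234) (nat_lit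 0) (nat_lit 0) (XT.nd (nat_lit 78) (nat_lit 0) (nat_lit 0) (XT.lf (nat_lit 0) (nat_lit 12882813607) (nat_lit 76) (nat_lit 49887038683) (nat_lit 76) (nat_lit 48168900004) (nat_lit 1) (nat_lit 4) (nat_lit 2) (nat_lit 5) (nat_lit 2) (nat_lit 4) (nat_lit 329) (nat_lit 199) (nat_lit 192)) (XT.nd (nat_lit 78) (nat_lit 0) (nat_lit 0) (XT.lf (nat_lit 0) (nat_lit 18328150663) (nat_lit 76) (nat_lit 49996435260) (nat_lit 76) (nat_lit 48077323742) (nat_lit 1) (nat_lit 4) (nat_lit 2) (nat_lit 5) (nat_lit 2) (nat_lit 4) (nat_lit 330) (nat_lit 199) (nat_lit 191)) (XT.lf (nat_lit 0) (nat_lit 23912885929) (nat_lit 76) (nat_lit 50169085868) (nat_lit 76) (nat_lit 48058571647) (nat_lit 1) (nat_lit 4) (nat_lit 2) (nat_lit 5) (nat_lit 2) (nat_lit 4) (nat_lit 331) (nat_lit 199) (nat_lit 190)))) (XT.nd (nat_lit 156) (nat_lit 0) (nat_lit 0) (XT.lf (nat_lit 0) (nat_lit 29650316394) (nat_lit 76) (nat_lit 50405401582)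 (nat_lit 76) (nat_lit 48112599071) (nat_lit 1) (nat_lit 4) (nat_lit 2) (nat_lit 5) (nat_lit 2) (nat_lit 4) (nat_lit 332) (nat_lit 199) (nat_lit 189)) (XT.nd (nat_lit 36426) (nat_lit 0) (nat_lit 76) (XT.lf (nat_lit 0) (nat_lit 41638301200) (nat_lit 76) (nat_lit 51071431872) (nat_lit 76) (nat_lit 48439680615) (nat_lit 1) (nat_lit 4) (nat_lit 2) (nat_lit 5) (nat_lit 2) (nat_lit 4) (nat_lit 334) (nat_lit 199) (nat_lit 187)) (XT.lf (nat_lit 0) (nat_lit 10254543575) (nat_lit 152) (nat_lit 15592335658) (nat_lit 0) (nat_lit 10254543575) (nat_lit 2) (nat_lit 5) (nat_lit 4) (nat_lit 4) (nat_lit 2) (nat_lit 4) (nat_lit 320) (nat_lit 200) (nat_lit 200))))))))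
noncomputable def xc1 : XT := (XT.nd (nat_lit 37908) (nat_lit 0) (nat_lit 0) (XT.nd (nat_lit 780) (nat_lit 0) (nat_lit 0) (XT.nd (nat_lit 390) (nat_lit 76) (nat_lit 0) (XT.nd (nat_lit 156) (nat_lit 0) (nat_lit 0) (XT.nd (nat_lit 78) (nat_lit 0) (nat_lit 0) (XT.lf (nat_lit 0) (nat_lit 24685670242) (nat_lit 152) (nat_lit 26631591783) (nat_lit 0) (nat_lit 24388741828) (nat_lit 2) (nat_lit 5) (nat_lit 4) (nat_lit 4) (nat_lit 2) (nat_lit 4) (nat_lit 321) (nat_lit 200) (nat_lit 199)) (XT.lf (nat_lit 0) (nat_lit 28962035603) (nat_lit 152) (nat_lit 22043335108) (nat_lit 0) (nat_lit 28382318222) (nat_lit 2) (nat_lit 5) (nat_lit 4) (nat_lit 4) (nat_lit 2) (nat_lit 4) (nat_lit 322) (nat_lit 200) (nat_lit 198))) (XT.nd (nat_lit 78) (nat_lit 0) (nat_lit 0) (XT.lf (nat_lit 0) (nat_lit 33348365054) (nat_lit 152) (nat_lit 17408976868) (nat_lit 0) (nat_lit 32499324848) (nat_lit 2) (nat_lit 5) (nat_lit 4)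 (nat_lit 4) (nat_lit 2) (nat_lit 4) (nat_lit 323) (nat_lit 200) (nat_lit 197)) (XT.nd (nat_lit 78) (nat_lit 0) (nat_lit 0) (XT.lf (nat_lit 0) (nat_lit 37855102236) (nat_lit 152) (nat_lit 12717482878) (nat_lit 0) (nat_lit 36749564102) (nat_lit 2) (nat_lit 5) (nat_lit 4) (nat_lit 4) (nat_lit 2) (nat_lit 4) (nat_lit 324) (nat_lit 200) (nat_lit 196)) (XT.lf (nat_lit 0) (nat_lit 42492977478) (nat_lit 152) (nat_lit 7957682914) (nat_lit 0) (nat_lit 41143155602) (nat_lit 2) (nat_lit 5) (nat_lit 4) (nat_lit 4) (nat_lit 2) (nat_lit 4) (nat_lit 325) (nat_lit 200) (nat_lit 195))))) (XT.nd (nat_lit 156) (nat_lit 0) (nat_lit 0) (XT.nd (nat_lit 78) (nat_lit 76) (nat_lit 0) (XT.lf (nat_lit 0) (nat_lit 47273033337) (nat_lit 152) (nat_lit 3118244119) (nat_lit 0) (nat_lit 45690560279) (nat_lit 2) (nat_lit 5) (nat_lit 4) (nat_lit 4) (nat_lit 2) (nat_lit 4) (nat_lit 326) (nat_lit 200) (nat_lit 194)) (XT.lf (nat_lit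 0) (nat_lit 1848425416) (nat_lit 76) (nat_lit 50375993680) (nat_lit 76) (nat_lit 48571948067) (nat_lit 1) (nat_lit 4) (nat_lit 2) (nat_lit 5) (nat_lit 2) (nat_lit 4) (nat_lit 327) (nat_lit 200) (nat_lit 193))) (XT.nd (nat_lit 78) (nat_lit 0) (nat_lit 0) (XT.lf (nat_lit 0) (nat_lit 6982102882) (nat_lit 76) (nat_lit 50390590239) (nat_lit 76) (nat_lit 48375523145) (nat_lit 1) (nat_lit 4) (nat_lit 2) (nat_lit 5) (nat_lit 2) (nat_lit 4) (nat_lit 328) (nat_lit 200) (nat_lit 192)) (XT.nd (nat_lit 78) (nat_lit 0) (nat_lit 0) (XT.lf (nat_lit 0) (nat_lit 12232952146) (nat_lit 76) (nat_lit 50466590038) (nat_lit 76) (nat_lit 48250550106) (nat_lit 1) (nat_lit 4) (nat_lit 2) (nat_lit 5) (nat_lit 2) (nat_lit 4) (nat_lit 329) (nat_lit 200) (nat_lit 191)) (XT.lf (nat_lit 0) (nat_lit 17613475230) (nat_lit 76) (nat_lit 50604174031) (nat_lit 76) (nat_lit 48196731395) (nat_lit 1) (nat_lit 4) (nat_lit 2) (nat_lit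 5) (nat_lit 2) (nat_lit 4) (nat_lit 330) (nat_lit 200) (nat_lit 190)))))) (XT.nd (nat_lit 36660) (nat_lit 0) (nat_lit 76) (XT.nd (nat_lit 234) (nat_lit 0) (nat_lit 0) (XT.nd (nat_lit 78) (nat_lit 0) (nat_lit 0) (XT.lf (nat_lit 0) (nat_lit 23136482904) (nat_lit 76) (nat_lit 50803669798) (nat_lit 76) (nat_lit 48213938873) (nat_lit 1) (nat_lit 4) (nat_lit 2) (nat_lit 5) (nat_lit 2) (nat_lit 4) (nat_lit 331) (nat_lit 200) (nat_lit 189)) (XT.lf (nat_lit 0) (nat_lit 28815125186) (nat_lit 76) (nat_lit 51065552329) (nat_lit 76) (nat_lit 48302213509) (nat_lit 1) (nat_lit 4) (nat_lit 2) (nat_lit 5) (nat_lit 2) (nat_lit 4) (nat_lit 332) (nat_lit 200) (nat_lit 188))) (XT.nd (nat_lit 36270) (nat_lit 0) (nat_lit 76) (XT.lf (nat_lit 0) (nat_lit 40693798631) (nat_lit 76) (nat_lit 51779121826) (nat_lit 76) (nat_lit 48692974677) (nat_lit 1) (nat_lit 4) (nat_lit 2) (nat_lit 5) (nat_lit 2) (nat_lit 4) (nat_lit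 334) (nat_lit 200) (nat_lit 186)) (XT.nd (nat_lit 78) (nat_lit 0) (nat_lit 0) (XT.lf (nat_lit 0) (nat_lit 6393062735) (nat_lit 152) (nat_lit 20062544344) (nat_lit 0) (nat_lit 6393062735) (nat_lit 2) (nat_lit 5) (nat_lit 4) (nat_lit 4) (nat_lit 2) (nat_lit 4) (nat_lit 318) (nat_lit 201) (nat_lit 201)) (XT.lf (nat_lit 0) (nat_lit 16734116915) (nat_lit 152) (nat_lit 35713414370) (nat_lit 0) (nat_lit 16422342080) (nat_lit 2) (nat_lit 5) (nat_lit 4) (nat_lit 4) (nat_lit 2) (nat_lit 4) (nat_lit 319) (nat_lit 201) (nat_lit 200))))) (XT.nd (nat_lit 234) (nat_lit 0) (nat_lit 0) (XT.nd (nat_lit 78) (nat_lit 0) (nat_lit 0) (XT.lf (nat_lit 0) (nat_lit 20765008702) (nat_lit 152) (nat_lit 31283257011) (nat_lit 0) (nat_lit 20156305452) (nat_lit 2) (nat_lit 5) (nat_lit 4) (nat_lit 4) (nat_lit 2) (nat_lit 4) (nat_lit 320) (nat_lit 201) (nat_lit 199)) (XT.nd (nat_lit 78) (nat_lit 0) (nat_lit 0) (XT.lf (nat_lit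 0) (nat_lit 24888398191) (nat_lit 152) (nat_lit 26824068617) (nat_lit 0) (nat_lit 23996905975) (nat_lit 2) (nat_lit 5) (nat_lit 4) (nat_lit 4) (nat_lit 2) (nat_lit 4) (nat_lit 321) (nat_lit 201) (nat_lit 198)) (XT.lf (nat_lit 0) (nat_lit 29114102977) (nat_lit 152) (nat_lit 22325232073) (nat_lit 0) (nat_lit 27953287936) (nat_lit 2) (nat_lit 5) (nat_lit 4) (nat_lit 4) (nat_lit 2) (nat_lit 4) (nat_lit 322) (nat_lit 201) (nat_lit 197)))) (XT.nd (nat_lit 78) (nat_lit 0) (nat_lit 0) (XT.lf (nat_lit 0) (nat_lit 33452184262) (nat_lit 152) (nat_lit 17776035863) (nat_lit 0) (nat_lit 32034871292) (nat_lit 2) (nat_lit 5) (nat_lit 4) (nat_lit 4) (nat_lit 2) (nat_lit 4) (nat_lit 323) (nat_lit 201) (nat_lit 196)) (XT.nd (nat_lit 78) (nat_lit 0) (nat_lit 0) (XT.lf (nat_lit 0) (nat_lit 37912970810) (nat_lit 152) (nat_lit 13165648569) (nat_lit 0) (nat_lit 36251374099) (nat_lit 2) (nat_lit 5) (nat_lit 4) (nat_lit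 4) (nat_lit 2) (nat_lit 4) (nat_lit 324) (nat_lit 201) (nat_lit 195)) (XT.lf (nat_lit 0) (nat_lit 42507083542) (nat_lit 152) (nat_lit 8483093077) (nat_lit 0) (nat_lit 40612835648) (nat_lit 2) (nat_lit 5) (nat_lit 4) (nat_lit 4) (nat_lit 2) (nat_lit 4) (nat_lit 325) (nat_lit 201) (nat_lit 194))))))) (XT.nd (nat_lit 36972) (nat_lit 0) (nat_lit 0) (XT.nd (nat_lit 390) (nat_lit 0) (nat_lit 0) (XT.nd (nat_lit 156) (nat_lit 0) (nat_lit 0) (XT.nd (nat_lit 78) (nat_lit 76) (nat_lit 0) (XT.lf (nat_lit 0) (nat_lit 47245460822) (nat_lit 152) (nat_lit 3717220445) (nat_lit 0) (nat_lit 45129640373) (nat_lit 2) (nat_lit 5) (nat_lit 4) (nat_lit 4) (nat_lit 2) (nat_lit 4) (nat_lit 326) (nat_lit 201) (nat_lit 193)) (XT.lf (nat_lit 0) (nat_lit 1166070883) (nat_lit 76) (nat_lit 50984522603) (nat_lit 76) (nat_lit 48657680674) (nat_lit 1) (nat_lit 4) (nat_lit 2) (nat_lit 5) (nat_lit 2) (nat_lit 4) (nat_lit 327)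 (nat_lit 201) (nat_lit 192))) (XT.nd (nat_lit 78) (nat_lit 0) (nat_lit 0) (XT.lf (nat_lit 0) (nat_lit 6231693678) (nat_lit 76) (nat_lit 51028715949) (nat_lit 76) (nat_lit 48500901181) (nat_lit 1) (nat_lit 4) (nat_lit 2) (nat_lit 5) (nat_lit 2) (nat_lit 4) (nat_lit 328) (nat_lit 201) (nat_lit 191)) (XT.nd (nat_lit 78) (nat_lit 0) (nat_lit 0) (XT.lf (nat_lit 0) (nat_lit 11417728970) (nat_lit 76) (nat_lit 51132903164) (nat_lit 76) (nat_lit 48413685693) (nat_lit 1) (nat_lit 4) (nat_lit 2) (nat_lit 5) (nat_lit 2) (nat_lit 4) (nat_lit 329) (nat_lit 201) (nat_lit 190)) (XT.lf (nat_lit 0) (nat_lit 16736524462) (nat_lit 76) (nat_lit 51297332316) (nat_lit 76) (nat_lit 48395826555) (nat_lit 1) (nat_lit 4) (nat_lit 2) (nat_lit 5) (nat_lit 2) (nat_lit 4) (nat_lit 330) (nat_lit 201) (nat_lit 189))))) (XT.nd (nat_lit 36348) (nat_lit 0) (nat_lit 76) (XT.nd (nat_lit 78) (nat_lit 0) (nat_lit 0) (XT.lf (nat_lit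 0) (nat_lit 22200743952) (nat_lit 76) (nat_lit 51522394900) (nat_lit 76) (nat_lit 48447281245) (nat_lit 1) (nat_lit 4) (nat_lit 2) (nat_lit 5) (nat_lit 2) (nat_lit 4) (nat_lit 331) (nat_lit 201) (nat_lit 188)) (XT.nd (nat_lit 156) (nat_lit 0) (nat_lit 0) (XT.lf (nat_lit 0) (nat_lit 27823397488) (nat_lit 76) (nat_lit 51808626780) (nat_lit 76) (nat_lit 48568172274) (nat_lit 1) (nat_lit 4) (nat_lit 2) (nat_lit 5) (nat_lit 2) (nat_lit 4) (nat_lit 332) (nat_lit 201) (nat_lit 187)) (XT.lf (nat_lit 0) (nat_lit 39597964874) (nat_lit 76) (nat_lit 52567471712) (nat_lit 76) (nat_lit 49019580701) (nat_lit 1) (nat_lit 4) (nat_lit 2) (nat_lit 5) (nat_lit 2) (nat_lit 4) (nat_lit 334) (nat_lit 201) (nat_lit 185)))) (XT.nd (nat_lit 78) (nat_lit 0) (nat_lit 0) (XT.lf (nat_lit 0) (nat_lit 2745180253) (nat_lit 152) (nat_lit 24413147211) (nat_lit 0) (nat_lit 2745180253) (nat_lit 2) (nat_lit 5) (nat_lit 4) (nat_lit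 4) (nat_lit 2) (nat_lit 4) (nat_lit 316) (nat_lit 202) (nat_lit 202)) (XT.nd (nat_lit 78) (nat_lit 0) (nat_lit 0) (XT.lf (nat_lit 0) (nat_lit 9238997963) (nat_lit 152) (nat_lit 44528783953) (nat_lit 0) (nat_lit 8911634386) (nat_lit 2) (nat_lit 5) (nat_lit 4) (nat_lit 4) (nat_lit 2) (nat_lit 4) (nat_lit 317) (nat_lit 202) (nat_lit 201)) (XT.lf (nat_lit 0) (nat_lit 13054843099) (nat_lit 152) (nat_lit 40228603669) (nat_lit 0) (nat_lit 12415704687) (nat_lit 2) (nat_lit 5) (nat_lit 4) (nat_lit 4) (nat_lit 2) (nat_lit 4) (nat_lit 318) (nat_lit 202) (nat_lit 200)))))) (XT.nd (nat_lit 390) (nat_lit 76) (nat_lit 0) (XT.nd (nat_lit 156) (nat_lit 0) (nat_lit 0) (XT.nd (nat_lit 78) (nat_lit 0) (nat_lit 0) (XT.lf (nat_lit 0) (nat_lit 16946981261) (nat_lit 152) (nat_lit 35915515045) (nat_lit 0) (nat_lit 16010914434) (nat_lit 2) (nat_lit 5) (nat_lit 4) (nat_lit 4) (nat_lit 2) (nat_lit 4) (nat_lit 319)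 (nat_lit 202) (nat_lit 199)) (XT.lf (nat_lit 0) (nat_lit 20924679445) (nat_lit 152) (nat_lit 31579248824) (nat_lit 0) (nat_lit 19705823651) (nat_lit 2) (nat_lit 5) (nat_lit 4) (nat_lit 4) (nat_lit 2) (nat_lit 4) (nat_lit 320) (nat_lit 202) (nat_lit 198))) (XT.nd (nat_lit 78) (nat_lit 0) (nat_lit 0) (XT.lf (nat_lit 0) (nat_lit 24997408359) (nat_lit 152) (nat_lit 27209480561) (nat_lit 0) (nat_lit 23509229741) (nat_lit 2) (nat_lit 5) (nat_lit 4) (nat_lit 4) (nat_lit 2) (nat_lit 4) (nat_lit 321) (nat_lit 202) (nat_lit 197)) (XT.nd (nat_lit 78) (nat_lit 0) (nat_lit 0) (XT.lf (nat_lit 0) (nat_lit 29174864979) (nat_lit 152) (nat_lit 22795806048) (nat_lit 0) (nat_lit 27430188432) (nat_lit 2) (nat_lit 5) (nat_lit 4) (nat_lit 4) (nat_lit 2) (nat_lit 4) (nat_lit 322) (nat_lit 202) (nat_lit 196)) (XT.lf (nat_lit 0) (nat_lit 33466995629) (nat_lit 152) (nat_lit 18327716533) (nat_lit 0) (nat_lit 31478035341)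 (nat_lit 2) (nat_lit 5) (nat_lit 4) (nat_lit 4) (nat_lit 2) (nat_lit 4) (nat_lit 323) (nat_lit 202) (nat_lit 195))))) (XT.nd (nat_lit 234) (nat_lit 76) (nat_lit 0) (XT.nd (nat_lit 78) (nat_lit 0) (nat_lit 0) (XT.lf (nat_lit 0) (nat_lit 37884019669) (nat_lit 152) (nat_lit 13794573711) (nat_lit 0) (nat_lit 35662408198) (nat_lit 2) (nat_lit 5) (nat_lit 4) (nat_lit 4) (nat_lit 2) (nat_lit 4) (nat_lit 324) (nat_lit 202) (nat_lit 194)) (XT.nd (nat_lit 78) (nat_lit 0) (nat_lit 0) (XT.lf (nat_lit 0) (nat_lit 42436453821) (nat_lit 152) (nat_lit 9185584382) (nat_lit 0) (nat_lit 39993269795) (nat_lit 2) (nat_lit 5) (nat_lit 4) (nat_lit 4) (nat_lit 2) (nat_lit 4) (nat_lit 325) (nat_lit 202) (nat_lit 193)) (XT.lf (nat_lit 0) (nat_lit 47135137215) (nat_lit 152) (nat_lit 4489774764) (nat_lit 0) (nat_lit 44480931709) (nat_lit 2) (nat_lit 5) (nat_lit 4) (nat_lit 4) (nat_lit 2) (nat_lit 4) (nat_lit 326) (nat_lit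 202) (nat_lit 192)))) (XT.nd (nat_lit 78) (nat_lit 0) (nat_lit 0) (XT.lf (nat_lit 0) (nat_lit 310086548) (nat_lit 76) (nat_lit 51684151385) (nat_lit 76) (nat_lit 48828973041) (nat_lit 1) (nat_lit 4) (nat_lit 2) (nat_lit 5) (nat_lit 2) (nat_lit 4) (nat_lit 327) (nat_lit 202) (nat_lit 191)) (XT.nd (nat_lit 78) (nat_lit 0) (nat_lit 0) (XT.lf (nat_lit 0) (nat_lit 5310895371) (nat_lit 76) (nat_lit 51756532147) (nat_lit 76) (nat_lit 48709951099) (nat_lit 1) (nat_lit 4) (nat_lit 2) (nat_lit 5) (nat_lit 2) (nat_lit 4) (nat_lit 328) (nat_lit 202) (nat_lit 190)) (XT.lf (nat_lit 0) (nat_lit 10435203070) (nat_lit 76) (nat_lit 51887564521) (nat_lit 76) (nat_lit 48658695184) (nat_lit 1) (nat_lit 4) (nat_lit 2) (nat_lit 5) (nat_lit 2) (nat_lit 4) (nat_lit 329) (nat_lit 202) (nat_lit 189))))))))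
noncomputable def xc2 : XT := (XT.nd (nat_lit 37596) (nat_lit 0) (nat_lit 0) (XT.nd (nat_lit 36738) (nat_lit 0) (nat_lit 0) (XT.nd (nat_lit 36348) (nat_lit 0) (nat_lit 76) (XT.nd (nat_lit 156) (nat_lit 0) (nat_lit 0) (XT.nd (nat_lit 78) (nat_lit 0) (nat_lit 0) (XT.lf (nat_lit 0) (nat_lit 15695210378) (nat_lit 76) (nat_lit 52077560490) (nat_lit 76) (nat_lit 48675083258) (nat_lit 1) (nat_lit 4) (nat_lit 2) (nat_lit 5) (nat_lit 2) (nat_lit 4) (nat_lit 330) (nat_lit 202) (nat_lit 188)) (XT.lf (nat_lit 0) (nat_lit 21103441123) (nat_lit 76) (nat_lit 52326972424) (nat_lit 76) (nat_lit 48759154340) (nat_lit 1) (nat_lit 4) (nat_lit 2) (nat_lit 5) (nat_lit 2) (nat_lit 4) (nat_lit 331) (nat_lit 202) (nat_lit 187))) (XT.nd (nat_lit 156) (nat_lit 0) (nat_lit 0) (XT.lf (nat_lit 0) (nat_lit 26672772043) (nat_lit 76) (nat_lit 52636394161) (nat_lit 76) (nat_lit 48911108600) (nat_lit 1) (nat_lit 4) (nat_lit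 2) (nat_lit 5) (nat_lit 2) (nat_lit 4) (nat_lit 332) (nat_lit 202) (nat_lit 186)) (XT.nd (nat_lit 35958) (nat_lit 0) (nat_lit 228) (XT.lf (nat_lit 0) (nat_lit 38348190802) (nat_lit 76) (nat_lit 53438358555) (nat_lit 76) (nat_lit 49420276323) (nat_lit 1) (nat_lit 4) (nat_lit 2) (nat_lit 5) (nat_lit 2) (nat_lit 4) (nat_lit 334) (nat_lit 202) (nat_lit 184)) (XT.lf (nat_lit 0) (nat_lit 25818347101) (nat_lit 76) (nat_lit 709210608) (nat_lit 76) (nat_lit 709210608) (nat_lit 4) (nat_lit 4) (nat_lit 5) (nat_lit 5) (nat_lit 5) (nat_lit 4) (nat_lit 314) (nat_lit 203) (nat_lit 203))))) (XT.nd (nat_lit 156) (nat_lit 0) (nat_lit 0) (XT.nd (nat_lit 78) (nat_lit 0) (nat_lit 0) (XT.lf (nat_lit 0) (nat_lit 2143737161) (nat_lit 152) (nat_lit 53131367246) (nat_lit 0) (nat_lit 1800005405) (nat_lit 2) (nat_lit 5) (nat_lit 4) (nat_lit 4) (nat_lit 2) (nat_lit 4) (nat_lit 315) (nat_lit 203) (nat_lit 202)) (XT.lf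 (nat_lit 0) (nat_lit 5772514018) (nat_lit 152) (nat_lit 48934985152) (nat_lit 0) (nat_lit 5101418685) (nat_lit 2) (nat_lit 5) (nat_lit 4) (nat_lit 4) (nat_lit 2) (nat_lit 4) (nat_lit 316) (nat_lit 203) (nat_lit 201))) (XT.nd (nat_lit 78) (nat_lit 0) (nat_lit 0) (XT.lf (nat_lit 0) (nat_lit 9462505527) (nat_lit 152) (nat_lit 44740989662) (nat_lit 0) (nat_lit 8479635358) (nat_lit 2) (nat_lit 5) (nat_lit 4) (nat_lit 4) (nat_lit 2) (nat_lit 4) (nat_lit 317) (nat_lit 203) (nat_lit 200)) (XT.nd (nat_lit 78) (nat_lit 0) (nat_lit 0) (XT.lf (nat_lit 0) (nat_lit 13222497379) (nat_lit 152) (nat_lit 40539395073) (nat_lit 0) (nat_lit 11942698796) (nat_lit 2) (nat_lit 5) (nat_lit 4) (nat_lit 4) (nat_lit 2) (nat_lit 4) (nat_lit 318) (nat_lit 203) (nat_lit 199)) (XT.lf (nat_lit 0) (nat_lit 17061441938) (nat_lit 152) (nat_lit 36320197587) (nat_lit 0) (nat_lit 15498854389) (nat_lit 2) (nat_lit 5) (nat_lit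 4) (nat_lit 4) (nat_lit 2) (nat_lit 4) (nat_lit 319) (nat_lit 203) (nat_lit 198)))))) (XT.nd (nat_lit 390) (nat_lit 76) (nat_lit 0) (XT.nd (nat_lit 156) (nat_lit 0) (nat_lit 0) (XT.nd (nat_lit 78) (nat_lit 0) (nat_lit 0) (XT.lf (nat_lit 0) (nat_lit 20988479547) (nat_lit 152) (nat_lit 32073351498) (nat_lit 0) (nat_lit 19156569173) (nat_lit 2) (nat_lit 5) (nat_lit 4) (nat_lit 4) (nat_lit 2) (nat_lit 4) (nat_lit 320) (nat_lit 203) (nat_lit 197)) (XT.lf (nat_lit 0) (nat_lit 25012960296) (nat_lit 152) (nat_lit 27788745265) (nat_lit 0) (nat_lit 22924551993) (nat_lit 2) (nat_lit 5) (nat_lit 4) (nat_lit 4) (nat_lit 2) (nat_lit 4) (nat_lit 321) (nat_lit 203) (nat_lit 196))) (XT.nd (nat_lit 78) (nat_lit 0) (nat_lit 0) (XT.lf (nat_lit 0) (nat_lit 29144466281) (nat_lit 152) (nat_lit 23456177447) (nat_lit 0) (nat_lit 26811774237) (nat_lit 2) (nat_lit 5) (nat_lit 4) (nat_lit 4) (nat_lit 2) (nat_lit 4)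 (nat_lit 322) (nat_lit 203) (nat_lit 195)) (XT.nd (nat_lit 78) (nat_lit 0) (nat_lit 0) (XT.lf (nat_lit 0) (nat_lit 33392834422) (nat_lit 152) (nat_lit 19065332404) (nat_lit 0) (nat_lit 30827491195) (nat_lit 2) (nat_lit 5) (nat_lit 4) (nat_lit 4) (nat_lit 2) (nat_lit 4) (nat_lit 323) (nat_lit 203) (nat_lit 194)) (XT.lf (nat_lit 0) (nat_lit 37768179881) (nat_lit 152) (nat_lit 14605755745) (nat_lit 0) (nat_lit 34981264100) (nat_lit 2) (nat_lit 5) (nat_lit 4) (nat_lit 4) (nat_lit 2) (nat_lit 4) (nat_lit 324) (nat_lit 203) (nat_lit 193))))) (XT.nd (nat_lit 234) (nat_lit 76) (nat_lit 0) (XT.nd (nat_lit 78) (nat_lit 0) (nat_lit 0) (XT.lf (nat_lit 0) (nat_lit 42280920148) (nat_lit 152) (nat_lit 10066829430) (nat_lit 0) (nat_lit 39282982886) (nat_lit 2) (nat_lit 5) (nat_lit 4) (nat_lit 4) (nat_lit 2) (nat_lit 4) (nat_lit 325) (nat_lit 203) (nat_lit 192)) (XT.nd (nat_lit 78) (nat_lit 0) (nat_lit 0)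 (XT.lf (nat_lit 0) (nat_lit 46941799841) (nat_lit 152) (nat_lit 5437746491) (nat_lit 0) (nat_lit 43742889740) (nat_lit 2) (nat_lit 5) (nat_lit 4) (nat_lit 4) (nat_lit 2) (nat_lit 4) (nat_lit 326) (nat_lit 203) (nat_lit 191)) (XT.lf (nat_lit 0) (nat_lit 51761916294) (nat_lit 152) (nat_lit 707485301) (nat_lit 0) (nat_lit 48371603489) (nat_lit 2) (nat_lit 5) (nat_lit 4) (nat_lit 4) (nat_lit 2) (nat_lit 4) (nat_lit 327) (nat_lit 203) (nat_lit 190)))) (XT.nd (nat_lit 78) (nat_lit 0) (nat_lit 0) (XT.lf (nat_lit 0) (nat_lit 4217515583) (nat_lit 76) (nat_lit 52575771730) (nat_lit 76) (nat_lit 49003170636) (nat_lit 1) (nat_lit 4) (nat_lit 2) (nat_lit 5) (nat_lit 2) (nat_lit 4) (nat_lit 328) (nat_lit 203) (nat_lit 189)) (XT.nd (nat_lit 78) (nat_lit 0) (nat_lit 0) (XT.lf (nat_lit 0) (nat_lit 9283035099) (nat_lit 76) (nat_lit 52732370921) (nat_lit 76) (nat_lit 48986161934) (nat_lit 1) (nat_lit 4) (nat_lit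 2) (nat_lit 5) (nat_lit 2) (nat_lit 4) (nat_lit 329) (nat_lit 203) (nat_lit 188)) (XT.lf (nat_lit 0) (nat_lit 14487053662) (nat_lit 76) (nat_lit 52946716239) (nat_lit 76) (nat_lit 49035166400) (nat_lit 1) (nat_lit 4) (nat_lit 2) (nat_lit 5) (nat_lit 2) (nat_lit 4) (nat_lit 330) (nat_lit 203) (nat_lit 187))))))) (XT.nd (nat_lit 36582) (nat_lit 0) (nat_lit 0) (XT.nd (nat_lit 36192) (nat_lit 0) (nat_lit 76) (XT.nd (nat_lit 234) (nat_lit 0) (nat_lit 0) (XT.nd (nat_lit 78) (nat_lit 0) (nat_lit 0) (XT.lf (nat_lit 0) (nat_lit 19841961791) (nat_lit 76) (nat_lit 53219318030) (nat_lit 76) (nat_lit 49150300713) (nat_lit 1) (nat_lit 4) (nat_lit 2) (nat_lit 5) (nat_lit 2) (nat_lit 4) (nat_lit 331) (nat_lit 203) (nat_lit 186)) (XT.lf (nat_lit 0) (nat_lit 25360509268) (nat_lit 76) (nat_lit 53550825346) (nat_lit 76) (nat_lit 49331839002) (nat_lit 1) (nat_lit 4) (nat_lit 2) (nat_lit 5) (nat_lit 2) (nat_lit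 4) (nat_lit 332) (nat_lit 203) (nat_lit 185))) (XT.nd (nat_lit 35802) (nat_lit 0) (nat_lit 228) (XT.lf (nat_lit 0) (nat_lit 36941500763) (nat_lit 76) (nat_lit 54393855894) (nat_lit 76) (nat_lit 49896015578) (nat_lit 1) (nat_lit 4) (nat_lit 2) (nat_lit 5) (nat_lit 2) (nat_lit 4) (nat_lit 334) (nat_lit 203) (nat_lit 183)) (XT.nd (nat_lit 78) (nat_lit 0) (nat_lit 0) (XT.lf (nat_lit 0) (nat_lit 16867053263) (nat_lit 76) (nat_lit 3976771516) (nat_lit 76) (nat_lit 3976771516) (nat_lit 4) (nat_lit 4) (nat_lit 5) (nat_lit 5) (nat_lit 5) (nat_lit 4) (nat_lit 312) (nat_lit 204) (nat_lit 204)) (XT.lf (nat_lit 0) (nat_lit 42522954509) (nat_lit 76) (nat_lit 4923117568) (nat_lit 76) (nat_lit 4551371674) (nat_lit 4) (nat_lit 4) (nat_lit 5) (nat_lit 5) (nat_lit 5) (nat_lit 4) (nat_lit 313) (nat_lit 204) (nat_lit 203))))) (XT.nd (nat_lit 156) (nat_lit 0) (nat_lit 0) (XT.nd (nat_lit 78) (nat_lit 152) (nat_lit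 0) (XT.lf (nat_lit 0) (nat_lit 51527598309) (nat_lit 76) (nat_lit 1836830235) (nat_lit 76) (nat_lit 1111040633) (nat_lit 4) (nat_lit 4) (nat_lit 5) (nat_lit 5) (nat_lit 5) (nat_lit 4) (nat_lit 314) (nat_lit 204) (nat_lit 202)) (XT.lf (nat_lit 0) (nat_lit 2378420102) (nat_lit 152) (nat_lit 53354183240) (nat_lit 0) (nat_lit 1346406425) (nat_lit 2) (nat_lit 5) (nat_lit 4) (nat_lit 4) (nat_lit 2) (nat_lit 4) (nat_lit 315) (nat_lit 204) (nat_lit 201))) (XT.nd (nat_lit 78) (nat_lit 0) (nat_lit 0) (XT.lf (nat_lit 0) (nat_lit 5948551012) (nat_lit 152) (nat_lit 49261316126) (nat_lit 0) (nat_lit 4604762500) (nat_lit 2) (nat_lit 5) (nat_lit 4) (nat_lit 4) (nat_lit 2) (nat_lit 4) (nat_lit 316) (nat_lit 204) (nat_lit 200)) (XT.nd (nat_lit 78) (nat_lit 0) (nat_lit 0) (XT.lf (nat_lit 0) (nat_lit 9582689237) (nat_lit 152) (nat_lit 45165906331) (nat_lit 0) (nat_lit 7941972311) (nat_lit 2) (nat_lit 5) (nat_lit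 4) (nat_lit 4) (nat_lit 2) (nat_lit 4) (nat_lit 317) (nat_lit 204) (nat_lit 199)) (XT.lf (nat_lit 0) (nat_lit 13289487487) (nat_lit 152) (nat_lit 41058202880) (nat_lit 0) (nat_lit 11365981594) (nat_lit 2) (nat_lit 5) (nat_lit 4) (nat_lit 4) (nat_lit 2) (nat_lit 4) (nat_lit 318) (nat_lit 204) (nat_lit 198)))))) (XT.nd (nat_lit 390) (nat_lit 76) (nat_lit 0) (XT.nd (nat_lit 156) (nat_lit 0) (nat_lit 0) (XT.nd (nat_lit 78) (nat_lit 0) (nat_lit 0) (XT.lf (nat_lit 0) (nat_lit 17077771471) (nat_lit 152) (nat_lit 36928425527) (nat_lit 0) (nat_lit 14884942753) (nat_lit 2) (nat_lit 5) (nat_lit 4) (nat_lit 4) (nat_lit 2) (nat_lit 4) (nat_lit 319) (nat_lit 204) (nat_lit 197)) (XT.lf (nat_lit 0) (nat_lit 20956560914) (nat_lit 152) (nat_lit 32766741467) (nat_lit 0) (nat_lit 18507234267) (nat_lit 2) (nat_lit 5) (nat_lit 4) (nat_lit 4) (nat_lit 2) (nat_lit 4) (nat_lit 320) (nat_lit 204) (nat_lit 196)))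 (XT.nd (nat_lit 78) (nat_lit 0) (nat_lit 0) (XT.lf (nat_lit 0) (nat_lit 24935091028) (nat_lit 152) (nat_lit 28563241930) (nat_lit 0) (nat_lit 22241480640) (nat_lit 2) (nat_lit 5) (nat_lit 4) (nat_lit 4) (nat_lit 2) (nat_lit 4) (nat_lit 321) (nat_lit 204) (nat_lit 195)) (XT.nd (nat_lit 78) (nat_lit 0) (nat_lit 0) (XT.lf (nat_lit 0) (nat_lit 29022834504) (nat_lit 152) (nat_lit 24307918583) (nat_lit 0) (nat_lit 26096572934) (nat_lit 2) (nat_lit 5) (nat_lit 4) (nat_lit 4) (nat_lit 2) (nat_lit 4) (nat_lit 322) (nat_lit 204) (nat_lit 194)) (XT.lf (nat_lit 0) (nat_lit 33229524065) (nat_lit 152) (nat_lit 19990639704) (nat_lit 0) (nat_lit 30081689940) (nat_lit 2) (nat_lit 5) (nat_lit 4) (nat_lit 4) (nat_lit 2) (nat_lit 4) (nat_lit 323) (nat_lit 204) (nat_lit 193))))) (XT.nd (nat_lit 234) (nat_lit 76) (nat_lit 0) (XT.nd (nat_lit 78) (nat_lit 0) (nat_lit 0) (XT.lf (nat_lit 0) (nat_lit 37565175639)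 (nat_lit 152) (nat_lit 15601126058) (nat_lit 0) (nat_lit 34206320033) (nat_lit 2) (nat_lit 5) (nat_lit 4) (nat_lit 4) (nat_lit 2) (nat_lit 4) (nat_lit 324) (nat_lit 204) (nat_lit 192)) (XT.nd (nat_lit 78) (nat_lit 0) (nat_lit 0) (XT.lf (nat_lit 0) (nat_lit 42040112204) (nat_lit 152) (nat_lit 11128926422) (nat_lit 0) (nat_lit 38480283760) (nat_lit 2) (nat_lit 5) (nat_lit 4) (nat_lit 4) (nat_lit 2) (nat_lit 4) (nat_lit 325) (nat_lit 204) (nat_lit 191)) (XT.lf (nat_lit 0) (nat_lit 46664988373) (nat_lit 152) (nat_lit 6563392701) (nat_lit 0) (nat_lit 42913757225) (nat_lit 2) (nat_lit 5) (nat_lit 4) (nat_lit 4) (nat_lit 2) (nat_lit 4) (nat_lit 326) (nat_lit 204) (nat_lit 190)))) (XT.nd (nat_lit 78) (nat_lit 76) (nat_lit 0) (XT.lf (nat_lit 0) (nat_lit 51450815755) (nat_lit 152) (nat_lit 1893654576) (nat_lit 0) (nat_lit 47517296318) (nat_lit 2) (nat_lit 5) (nat_lit 4) (nat_lit 4) (nat_lit 2) (nat_lit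 4) (nat_lit 327) (nat_lit 204) (nat_lit 189)) (XT.nd (nat_lit 78) (nat_lit 0) (nat_lit 0) (XT.lf (nat_lit 0) (nat_lit 2948951031) (nat_lit 76) (nat_lit 53488385267) (nat_lit 76) (nat_lit 49381257936) (nat_lit 1) (nat_lit 4) (nat_lit 2) (nat_lit 5) (nat_lit 2) (nat_lit 4) (nat_lit 328) (nat_lit 204) (nat_lit 188)) (XT.lf (nat_lit 0) (nat_lit 7958481801) (nat_lit 76) (nat_lit 53669333808) (nat_lit 76) (nat_lit 49396865625) (nat_lit 1) (nat_lit 4) (nat_lit 2) (nat_lit 5) (nat_lit 2) (nat_lit 4) (nat_lit 329) (nat_lit 204) (nat_lit 187))))))))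
noncomputable def xc3 : XT := (XT.nd (nat_lit 37284) (nat_lit 0) (nat_lit 0) (XT.nd (nat_lit 36426) (nat_lit 0) (nat_lit 76) (XT.nd (nat_lit 36036) (nat_lit 0) (nat_lit 76) (XT.nd (nat_lit 156) (nat_lit 0) (nat_lit 0) (XT.nd (nat_lit 78) (nat_lit 0) (nat_lit 0) (XT.lf (nat_lit 0) (nat_lit 13109177748) (nat_lit 76) (nat_lit 53906868984) (nat_lit 76) (nat_lit 49476933323) (nat_lit 1) (nat_lit 4) (nat_lit 2) (nat_lit 5) (nat_lit 2) (nat_lit 4) (nat_lit 330) (nat_lit 204) (nat_lit 186)) (XT.lf (nat_lit 0) (nat_lit 18413302434) (nat_lit 76) (nat_lit 54201556353) (nat_lit 76) (nat_lit 49621651665) (nat_lit 1) (nat_lit 4) (nat_lit 2) (nat_lit 5) (nat_lit 2) (nat_lit 4) (nat_lit 331) (nat_lit 204) (nat_lit 185))) (XT.nd (nat_lit 156) (nat_lit 0) (nat_lit 0) (XT.lf (nat_lit 0) (nat_lit 23883484727) (nat_lit 76) (nat_lit 54554097552) (nat_lit 76) (nat_lit 49831365220) (nat_lit 1) (nat_lit 4) (nat_lit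 2) (nat_lit 5) (nat_lit 2) (nat_lit 4) (nat_lit 332) (nat_lit 204) (nat_lit 184)) (XT.nd (nat_lit 35646) (nat_lit 0) (nat_lit 228) (XT.lf (nat_lit 0) (nat_lit 35374545495) (nat_lit 76) (nat_lit 55436238724) (nat_lit 76) (nat_lit 50447931180) (nat_lit 1) (nat_lit 4) (nat_lit 2) (nat_lit 5) (nat_lit 2) (nat_lit 4) (nat_lit 334) (nat_lit 204) (nat_lit 182)) (XT.lf (nat_lit 0) (nat_lit 8420418450) (nat_lit 76) (nat_lit 7107220412) (nat_lit 76) (nat_lit 7107220412) (nat_lit 4) (nat_lit 4) (nat_lit 5) (nat_lit 5) (nat_lit 5) (nat_lit 4) (nat_lit 310) (nat_lit 205) (nat_lit 205))))) (XT.nd (nat_lit 156) (nat_lit 152) (nat_lit 0) (XT.nd (nat_lit 78) (nat_lit 0) (nat_lit 0) (XT.lf (nat_lit 0) (nat_lit 25140128534) (nat_lit 76) (nat_lit 11325655118) (nat_lit 76) (nat_lit 10935321929) (nat_lit 4) (nat_lit 4) (nat_lit 5) (nat_lit 5) (nat_lit 5) (nat_lit 4) (nat_lit 311) (nat_lit 205) (nat_lit 204))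 (XT.lf (nat_lit 0) (nat_lit 33619555839) (nat_lit 76) (nat_lit 8392872503) (nat_lit 76) (nat_lit 7630793420) (nat_lit 4) (nat_lit 4) (nat_lit 5) (nat_lit 5) (nat_lit 5) (nat_lit 4) (nat_lit 312) (nat_lit 205) (nat_lit 203))) (XT.nd (nat_lit 78) (nat_lit 152) (nat_lit 0) (XT.lf (nat_lit 0) (nat_lit 42299307928) (nat_lit 76) (nat_lit 5409110162) (nat_lit 76) (nat_lit 4292987371) (nat_lit 4) (nat_lit 4) (nat_lit 5) (nat_lit 5) (nat_lit 5) (nat_lit 4) (nat_lit 313) (nat_lit 205) (nat_lit 202)) (XT.nd (nat_lit 78) (nat_lit 152) (nat_lit 0) (XT.lf (nat_lit 0) (nat_lit 51200050877) (nat_lit 76) (nat_lit 2367263901) (nat_lit 76) (nat_lit 913956625) (nat_lit 4) (nat_lit 4) (nat_lit 5) (nat_lit 5) (nat_lit 5) (nat_lit 4) (nat_lit 314) (nat_lit 205) (nat_lit 201)) (XT.lf (nat_lit 0) (nat_lit 2504612998) (nat_lit 152) (nat_lit 53800345742) (nat_lit 0) (nat_lit 781860225) (nat_lit 2) (nat_lit 5) (nat_lit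 4) (nat_lit 4) (nat_lit 2) (nat_lit 4) (nat_lit 315) (nat_lit 205) (nat_lit 200)))))) (XT.nd (nat_lit 390) (nat_lit 0) (nat_lit 0) (XT.nd (nat_lit 156) (nat_lit 0) (nat_lit 0) (XT.nd (nat_lit 78) (nat_lit 0) (nat_lit 0) (XT.lf (nat_lit 0) (nat_lit 6018890625) (nat_lit 152) (nat_lit 49806064324) (nat_lit 0) (nat_lit 3999209438) (nat_lit 2) (nat_lit 5) (nat_lit 4) (nat_lit 4) (nat_lit 2) (nat_lit 4) (nat_lit 316) (nat_lit 205) (nat_lit 199)) (XT.lf (nat_lit 0) (nat_lit 9599835247) (nat_lit 152) (nat_lit 45804545667) (nat_lit 0) (nat_lit 7297365093) (nat_lit 2) (nat_lit 5) (nat_lit 4) (nat_lit 4) (nat_lit 2) (nat_lit 4) (nat_lit 317) (nat_lit 205) (nat_lit 198))) (XT.nd (nat_lit 78) (nat_lit 0) (nat_lit 0) (XT.lf (nat_lit 0) (nat_lit 13255972922) (nat_lit 152) (nat_lit 41786262348) (nat_lit 0) (nat_lit 10684179943) (nat_lit 2) (nat_lit 5) (nat_lit 4) (nat_lit 4) (nat_lit 2) (nat_lit 4) (nat_lit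 318) (nat_lit 205) (nat_lit 197)) (XT.nd (nat_lit 78) (nat_lit 0) (nat_lit 0) (XT.lf (nat_lit 0) (nat_lit 16996008740) (nat_lit 152) (nat_lit 37741647024) (nat_lit 0) (nat_lit 14167717832) (nat_lit 2) (nat_lit 5) (nat_lit 4) (nat_lit 4) (nat_lit 2) (nat_lit 4) (nat_lit 319) (nat_lit 205) (nat_lit 196)) (XT.lf (nat_lit 0) (nat_lit 20828847548) (nat_lit 152) (nat_lit 33661069660) (nat_lit 0) (nat_lit 17756272899) (nat_lit 2) (nat_lit 5) (nat_lit 4) (nat_lit 4) (nat_lit 2) (nat_lit 4) (nat_lit 320) (nat_lit 205) (nat_lit 195))))) (XT.nd (nat_lit 234) (nat_lit 0) (nat_lit 0) (XT.nd (nat_lit 78) (nat_lit 0) (nat_lit 0) (XT.lf (nat_lit 0) (nat_lit 24763615153) (nat_lit 152) (nat_lit 29534814595) (nat_lit 0) (nat_lit 21458389322) (nat_lit 2) (nat_lit 5) (nat_lit 4) (nat_lit 4) (nat_lit 2) (nat_lit 4) (nat_lit 321) (nat_lit 205) (nat_lit 194)) (XT.nd (nat_lit 78) (nat_lit 0) (nat_lit 0) (XT.lf (nat_lit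 0) (nat_lit 28809680049) (nat_lit 152) (nat_lit 25353057412) (nat_lit 0) (nat_lit 25282881663) (nat_lit 2) (nat_lit 5) (nat_lit 4) (nat_lit 4) (nat_lit 2) (nat_lit 4) (nat_lit 322) (nat_lit 205) (nat_lit 193)) (XT.lf (nat_lit 0) (nat_lit 32976675725) (nat_lit 152) (nat_lit 21105841546) (nat_lit 0) (nat_lit 29238855858) (nat_lit 2) (nat_lit 5) (nat_lit 4) (nat_lit 4) (nat_lit 2) (nat_lit 4) (nat_lit 323) (nat_lit 205) (nat_lit 192)))) (XT.nd (nat_lit 78) (nat_lit 0) (nat_lit 0) (XT.lf (nat_lit 0) (nat_lit 37274523598) (nat_lit 152) (nat_lit 16783054579) (nat_lit 0) (nat_lit 33335730892) (nat_lit 2) (nat_lit 5) (nat_lit 4) (nat_lit 4) (nat_lit 2) (nat_lit 4) (nat_lit 324) (nat_lit 205) (nat_lit 191)) (XT.nd (nat_lit 78) (nat_lit 0) (nat_lit 0) (XT.lf (nat_lit 0) (nat_lit 41713456639) (nat_lit 152) (nat_lit 12374404160) (nat_lit 0) (nat_lit 37583261230) (nat_lit 2) (nat_lit 5) (nat_lit 4) (nat_lit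 4) (nat_lit 2) (nat_lit 4) (nat_lit 325) (nat_lit 205) (nat_lit 190)) (XT.lf (nat_lit 0) (nat_lit 46304043737) (nat_lit 152) (nat_lit 7869393504) (nat_lit 0) (nat_lit 41991560039) (nat_lit 2) (nat_lit 5) (nat_lit 4) (nat_lit 4) (nat_lit 2) (nat_lit 4) (nat_lit 326) (nat_lit 205) (nat_lit 189))))))) (XT.nd (nat_lit 36348) (nat_lit 0) (nat_lit 76) (XT.nd (nat_lit 390) (nat_lit 0) (nat_lit 0) (XT.nd (nat_lit 156) (nat_lit 0) (nat_lit 0) (XT.nd (nat_lit 78) (nat_lit 76) (nat_lit 0) (XT.lf (nat_lit 0) (nat_lit 51057214860) (nat_lit 152) (nat_lit 3257296394) (nat_lit 0) (nat_lit 46571123268) (nat_lit 2) (nat_lit 5) (nat_lit 4) (nat_lit 4) (nat_lit 2) (nat_lit 4) (nat_lit 327) (nat_lit 205) (nat_lit 188)) (XT.lf (nat_lit 0) (nat_lit 1502181321) (nat_lit 76) (nat_lit 54496545649) (nat_lit 76) (nat_lit 49845113205) (nat_lit 1) (nat_lit 4) (nat_lit 2) (nat_lit 5) (nat_lit 2) (nat_lit 4) (nat_lit 328)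 (nat_lit 205) (nat_lit 187))) (XT.nd (nat_lit 78) (nat_lit 0) (nat_lit 0) (XT.lf (nat_lit 0) (nat_lit 6458389476) (nat_lit 76) (nat_lit 54700684047) (nat_lit 76) (nat_lit 49891784125) (nat_lit 1) (nat_lit 4) (nat_lit 2) (nat_lit 5) (nat_lit 2) (nat_lit 4) (nat_lit 329) (nat_lit 205) (nat_lit 186)) (XT.nd (nat_lit 78) (nat_lit 0) (nat_lit 0) (XT.lf (nat_lit 0) (nat_lit 11558301980) (nat_lit 76) (nat_lit 54960304800) (nat_lit 76) (nat_lit 50001435852) (nat_lit 1) (nat_lit 4) (nat_lit 2) (nat_lit 5) (nat_lit 2) (nat_lit 4) (nat_lit 330) (nat_lit 205) (nat_lit 185)) (XT.lf (nat_lit 0) (nat_lit 16814061482) (nat_lit 76) (nat_lit 55276026053) (nat_lit 76) (nat_lit 50174329460) (nat_lit 1) (nat_lit 4) (nat_lit 2) (nat_lit 5) (nat_lit 2) (nat_lit 4) (nat_lit 331) (nat_lit 205) (nat_lit 184))))) (XT.nd (nat_lit 35724) (nat_lit 0) (nat_lit 228) (XT.nd (nat_lit 156) (nat_lit 0) (nat_lit 0) (XT.lf (nat_lit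 0) (nat_lit 22238181695) (nat_lit 76) (nat_lit 55648599523) (nat_lit 76) (nat_lit 50410876602) (nat_lit 1) (nat_lit 4) (nat_lit 2) (nat_lit 5) (nat_lit 2) (nat_lit 4) (nat_lit 332) (nat_lit 205) (nat_lit 183)) (XT.nd (nat_lit 35490) (nat_lit 0) (nat_lit 228) (XT.lf (nat_lit 0) (nat_lit 33643594151) (nat_lit 76) (nat_lit 56567988907) (nat_lit 76) (nat_lit 51077337213) (nat_lit 1) (nat_lit 4) (nat_lit 2) (nat_lit 5) (nat_lit 2) (nat_lit 4) (nat_lit 334) (nat_lit 205) (nat_lit 181)) (XT.lf (nat_lit 0) (nat_lit 415146877) (nat_lit 76) (nat_lit 10121638412) (nat_lit 76) (nat_lit 10121638412) (nat_lit 4) (nat_lit 4) (nat_lit 5) (nat_lit 5) (nat_lit 5) (nat_lit 4) (nat_lit 308) (nat_lit 206) (nat_lit 206)))) (XT.nd (nat_lit 78) (nat_lit 0) (nat_lit 0) (XT.lf (nat_lit 0) (nat_lit 8701920719) (nat_lit 76) (nat_lit 17475957531) (nat_lit 76) (nat_lit 17066107683) (nat_lit 4) (nat_lit 4) (nat_lit 5)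 (nat_lit 5) (nat_lit 5) (nat_lit 4) (nat_lit 309) (nat_lit 206) (nat_lit 205)) (XT.nd (nat_lit 78) (nat_lit 0) (nat_lit 0) (XT.lf (nat_lit 0) (nat_lit 16720558678) (nat_lit 76) (nat_lit 14675736768) (nat_lit 76) (nat_lit 13875553731) (nat_lit 4) (nat_lit 4) (nat_lit 5) (nat_lit 5) (nat_lit 5) (nat_lit 4) (nat_lit 310) (nat_lit 206) (nat_lit 204)) (XT.lf (nat_lit 0) (nat_lit 24905299624) (nat_lit 76) (nat_lit 11835947343) (nat_lit 76) (nat_lit 10664018412) (nat_lit 4) (nat_lit 4) (nat_lit 5) (nat_lit 5) (nat_lit 5) (nat_lit 4) (nat_lit 311) (nat_lit 206) (nat_lit 203)))))) (XT.nd (nat_lit 390) (nat_lit 0) (nat_lit 0) (XT.nd (nat_lit 156) (nat_lit 152) (nat_lit 0) (XT.nd (nat_lit 78) (nat_lit 0) (nat_lit 0) (XT.lf (nat_lit 0) (nat_lit 33275631035) (nat_lit 76) (nat_lit 8949827852) (nat_lit 76) (nat_lit 7423855212) (nat_lit 4) (nat_lit 4) (nat_lit 5) (nat_lit 5) (nat_lit 5) (nat_lit 4) (nat_lit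 312) (nat_lit 206) (nat_lit 202)) (XT.lf (nat_lit 0) (nat_lit 41851482273) (nat_lit 76) (nat_lit 6010506583) (nat_lit 76) (nat_lit 4147349459) (nat_lit 4) (nat_lit 4) (nat_lit 5) (nat_lit 5) (nat_lit 5) (nat_lit 4) (nat_lit 313) (nat_lit 206) (nat_lit 201))) (XT.nd (nat_lit 78) (nat_lit 152) (nat_lit 0) (XT.lf (nat_lit 0) (nat_lit 50653272032) (nat_lit 76) (nat_lit 3010985152) (nat_lit 76) (nat_lit 826699947) (nat_lit 4) (nat_lit 4) (nat_lit 5) (nat_lit 5) (nat_lit 5) (nat_lit 4) (nat_lit 314) (nat_lit 206) (nat_lit 200)) (XT.nd (nat_lit 78) (nat_lit 0) (nat_lit 0) (XT.lf (nat_lit 0) (nat_lit 2522616308) (nat_lit 152) (nat_lit 54470917045) (nat_lit 0) (nat_lit 105022647) (nat_lit 2) (nat_lit 5) (nat_lit 4) (nat_lit 4) (nat_lit 2) (nat_lit 4) (nat_lit 315) (nat_lit 206) (nat_lit 199)) (XT.lf (nat_lit 0) (nat_lit 5983700332) (nat_lit 152) (nat_lit 50570526765) (nat_lit 0) (nat_lit 3283317704)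 (nat_lit 2) (nat_lit 5) (nat_lit 4) (nat_lit 4) (nat_lit 2) (nat_lit 4) (nat_lit 316) (nat_lit 206) (nat_lit 198))))) (XT.nd (nat_lit 234) (nat_lit 0) (nat_lit 0) (XT.nd (nat_lit 78) (nat_lit 0) (nat_lit 0) (XT.lf (nat_lit 0) (nat_lit 9513984379) (nat_lit 152) (nat_lit 46658428240) (nat_lit 0) (nat_lit 6544278926) (nat_lit 2) (nat_lit 5) (nat_lit 4) (nat_lit 4) (nat_lit 2) (nat_lit 4) (nat_lit 317) (nat_lit 206) (nat_lit 197)) (XT.nd (nat_lit 78) (nat_lit 0) (nat_lit 0) (XT.lf (nat_lit 0) (nat_lit 13121873888) (nat_lit 152) (nat_lit 42725306951) (nat_lit 0) (nat_lit 9895670506) (nat_lit 2) (nat_lit 5) (nat_lit 4) (nat_lit 4) (nat_lit 2) (nat_lit 4) (nat_lit 318) (nat_lit 206) (nat_lit 196)) (XT.lf (nat_lit 0) (nat_lit 16815959071) (nat_lit 152) (nat_lit 38761798323) (nat_lit 0) (nat_lit 13345471948) (nat_lit 2) (nat_lit 5) (nat_lit 4) (nat_lit 4) (nat_lit 2) (nat_lit 4) (nat_lit 319) (nat_lit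 206) (nat_lit 195)))) (XT.nd (nat_lit 78) (nat_lit 0) (nat_lit 0) (XT.lf (nat_lit 0) (nat_lit 20605035371) (nat_lit 152) (nat_lit 34758465430) (nat_lit 0) (nat_lit 16901897065) (nat_lit 2) (nat_lit 5) (nat_lit 4) (nat_lit 4) (nat_lit 2) (nat_lit 4) (nat_lit 320) (nat_lit 206) (nat_lit 194)) (XT.nd (nat_lit 78) (nat_lit 0) (nat_lit 0) (XT.lf (nat_lit 0) (nat_lit 24498124396) (nat_lit 152) (nat_lit 30705776528) (nat_lit 0) (nat_lit 20573413536) (nat_lit 2) (nat_lit 5) (nat_lit 4) (nat_lit 4) (nat_lit 2) (nat_lit 4) (nat_lit 321) (nat_lit 206) (nat_lit 193)) (XT.lf (nat_lit 0) (nat_lit 28504495406) (nat_lit 152) (nat_lit 26594082358) (nat_lit 0) (nat_lit 24368763066) (nat_lit 2) (nat_lit 5) (nat_lit 4) (nat_lit 4) (nat_lit 2) (nat_lit 4) (nat_lit 322) (nat_lit 206) (nat_lit 192))))))))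
noncomputable def xc4 : XT := (XT.nd (nat_lit 36972) (nat_lit 0) (nat_lit 0) (XT.nd (nat_lit 858) (nat_lit 0) (nat_lit 0) (XT.nd (nat_lit 390) (nat_lit 76) (nat_lit 0) (XT.nd (nat_lit 156) (nat_lit 0) (nat_lit 0) (XT.nd (nat_lit 78) (nat_lit 0) (nat_lit 0) (XT.lf (nat_lit 0) (nat_lit 32633687381) (nat_lit 152) (nat_lit 22413593171) (nat_lit 0) (nat_lit 28296982202) (nat_lit 2) (nat_lit 5) (nat_lit 4) (nat_lit 4) (nat_lit 2) (nat_lit 4) (nat_lit 323) (nat_lit 206) (nat_lit 191)) (XT.lf (nat_lit 0) (nat_lit 36895531729) (nat_lit 152) (nat_lit 18154355422) (nat_lit 0) (nat_lit 32367423846) (nat_lit 2) (nat_lit 5) (nat_lit 4) (nat_lit 4) (nat_lit 2) (nat_lit 4) (nat_lit 324) (nat_lit 206) (nat_lit 190))) (XT.nd (nat_lit 78) (nat_lit 0) (nat_lit 0) (XT.lf (nat_lit 0) (nat_lit 41300175700) (nat_lit 152) (nat_lit 13806228069) (nat_lit 0) (nat_lit 36589779528) (nat_lit 2) (nat_lit 5) (nat_lit 4)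 (nat_lit 4) (nat_lit 2) (nat_lit 4) (nat_lit 325) (nat_lit 206) (nat_lit 189)) (XT.nd (nat_lit 78) (nat_lit 0) (nat_lit 0) (XT.lf (nat_lit 0) (nat_lit 45858106539) (nat_lit 152) (nat_lit 9358858427) (nat_lit 0) (nat_lit 40974102473) (nat_lit 2) (nat_lit 5) (nat_lit 4) (nat_lit 4) (nat_lit 2) (nat_lit 4) (nat_lit 326) (nat_lit 206) (nat_lit 188)) (XT.lf (nat_lit 0) (nat_lit 50580176465) (nat_lit 152) (nat_lit 4801657520) (nat_lit 0) (nat_lit 45530831547) (nat_lit 2) (nat_lit 5) (nat_lit 4) (nat_lit 4) (nat_lit 2) (nat_lit 4) (nat_lit 327) (nat_lit 206) (nat_lit 187))))) (XT.nd (nat_lit 156) (nat_lit 0) (nat_lit 0) (XT.nd (nat_lit 78) (nat_lit 76) (nat_lit 0) (XT.lf (nat_lit 0) (nat_lit 55477628500) (nat_lit 152) (nat_lit 123774872) (nat_lit 0) (nat_lit 50270816104) (nat_lit 2) (nat_lit 5) (nat_lit 4) (nat_lit 4) (nat_lit 2) (nat_lit 4) (nat_lit 328) (nat_lit 206) (nat_lit 186)) (XT.lf (nat_lit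 0) (nat_lit 4779186476) (nat_lit 76) (nat_lit 55828877232) (nat_lit 76) (nat_lit 50472095810) (nat_lit 1) (nat_lit 4) (nat_lit 2) (nat_lit 5) (nat_lit 2) (nat_lit 4) (nat_lit 329) (nat_lit 206) (nat_lit 185))) (XT.nd (nat_lit 78) (nat_lit 0) (nat_lit 0) (XT.lf (nat_lit 0) (nat_lit 9830733796) (nat_lit 76) (nat_lit 56109531870) (nat_lit 76) (nat_lit 50609922803) (nat_lit 1) (nat_lit 4) (nat_lit 2) (nat_lit 5) (nat_lit 2) (nat_lit 4) (nat_lit 330) (nat_lit 206) (nat_lit 184)) (XT.nd (nat_lit 78) (nat_lit 0) (nat_lit 0) (XT.lf (nat_lit 0) (nat_lit 15040431218) (nat_lit 76) (nat_lit 56445285393) (nat_lit 76) (nat_lit 50809649998) (nat_lit 1) (nat_lit 4) (nat_lit 2) (nat_lit 5) (nat_lit 2) (nat_lit 4) (nat_lit 331) (nat_lit 206) (nat_lit 183)) (XT.lf (nat_lit 0) (nat_lit 20420682784) (nat_lit 76) (nat_lit 56836937216) (nat_lit 76) (nat_lit 51071752937) (nat_lit 1) (nat_lit 4) (nat_lit 2) (nat_lit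 5) (nat_lit 2) (nat_lit 4) (nat_lit 332) (nat_lit 206) (nat_lit 182)))))) (XT.nd (nat_lit 35646) (nat_lit 0) (nat_lit 76) (XT.nd (nat_lit 35412) (nat_lit 0) (nat_lit 228) (XT.nd (nat_lit 35334) (nat_lit 0) (nat_lit 304) (XT.lf (nat_lit 0) (nat_lit 31744525419) (nat_lit 76) (nat_lit 57791801088) (nat_lit 76) (nat_lit 51785732263) (nat_lit 1) (nat_lit 4) (nat_lit 2) (nat_lit 5) (nat_lit 2) (nat_lit 4) (nat_lit 334) (nat_lit 206) (nat_lit 180)) (XT.lf (nat_lit 0) (nat_lit 5901849942) (nat_lit 152) (nat_lit 7066357104) (nat_lit 0) (nat_lit 5901849942) (nat_lit 5) (nat_lit 5) (nat_lit 7) (nat_lit 4) (nat_lit 5) (nat_lit 4) (nat_lit 306) (nat_lit 207) (nat_lit 207))) (XT.nd (nat_lit 78) (nat_lit 76) (nat_lit 0) (XT.lf (nat_lit 0) (nat_lit 16568014259) (nat_lit 152) (nat_lit 6778165406) (nat_lit 0) (nat_lit 16137671918) (nat_lit 5) (nat_lit 5) (nat_lit 7) (nat_lit 4) (nat_lit 5) (nat_lit 4) (nat_lit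 307) (nat_lit 207) (nat_lit 206)) (XT.nd (nat_lit 78) (nat_lit 0) (nat_lit 0) (XT.lf (nat_lit 0) (nat_lit 704001620) (nat_lit 76) (nat_lit 20727637566) (nat_lit 76) (nat_lit 19887445377) (nat_lit 4) (nat_lit 4) (nat_lit 5) (nat_lit 5) (nat_lit 5) (nat_lit 4) (nat_lit 308) (nat_lit 207) (nat_lit 205)) (XT.lf (nat_lit 0) (nat_lit 8455350364) (nat_lit 76) (nat_lit 18011764367) (nat_lit 76) (nat_lit 16781238990) (nat_lit 4) (nat_lit 4) (nat_lit 5) (nat_lit 5) (nat_lit 5) (nat_lit 4) (nat_lit 309) (nat_lit 207) (nat_lit 204))))) (XT.nd (nat_lit 234) (nat_lit 152) (nat_lit 0) (XT.nd (nat_lit 78) (nat_lit 0) (nat_lit 0) (XT.lf (nat_lit 0) (nat_lit 16359437634) (nat_lit 76) (nat_lit 15260539885) (nat_lit 76) (nat_lit 13658268613) (nat_lit 4) (nat_lit 4) (nat_lit 5) (nat_lit 5) (nat_lit 5) (nat_lit 4) (nat_lit 310) (nat_lit 207) (nat_lit 203)) (XT.nd (nat_lit 78) (nat_lit 0) (nat_lit 0) (XT.lf (nat_lit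 0) (nat_lit 24435082686) (nat_lit 76) (nat_lit 12467413584) (nat_lit 76) (nat_lit 10511098604) (nat_lit 4) (nat_lit 4) (nat_lit 5) (nat_lit 5) (nat_lit 5) (nat_lit 4) (nat_lit 311) (nat_lit 207) (nat_lit 202)) (XT.lf (nat_lit 0) (nat_lit 32701513247) (nat_lit 76) (nat_lit 9625735165) (nat_lit 76) (nat_lit 7332235700) (nat_lit 4) (nat_lit 4) (nat_lit 5) (nat_lit 5) (nat_lit 5) (nat_lit 4) (nat_lit 312) (nat_lit 207) (nat_lit 201)))) (XT.nd (nat_lit 78) (nat_lit 152) (nat_lit 0) (XT.lf (nat_lit 0) (nat_lit 41178411294) (nat_lit 76) (nat_lit 6728738726) (nat_lit 76) (nat_lit 4114111181) (nat_lit 4) (nat_lit 4) (nat_lit 5) (nat_lit 5) (nat_lit 5) (nat_lit 4) (nat_lit 313) (nat_lit 207) (nat_lit 200)) (XT.nd (nat_lit 78) (nat_lit 152) (nat_lit 0) (XT.lf (nat_lit 0) (nat_lit 49885959918) (nat_lit 76) (nat_lit 3769526656) (nat_lit 76) (nat_lit 849062844) (nat_lit 4) (nat_lit 4) (nat_lit 5) (nat_lit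 5) (nat_lit 5) (nat_lit 4) (nat_lit 314) (nat_lit 207) (nat_lit 199)) (XT.lf (nat_lit 0) (nat_lit 1739830664) (nat_lit 76) (nat_lit 699364956) (nat_lit 152) (nat_lit 54674851513) (nat_lit 2) (nat_lit 5) (nat_lit 3) (nat_lit 5) (nat_lit 4) (nat_lit 4) (nat_lit 315) (nat_lit 207) (nat_lit 198))))))) (XT.nd (nat_lit 780) (nat_lit 76) (nat_lit 0) (XT.nd (nat_lit 390) (nat_lit 0) (nat_lit 0) (XT.nd (nat_lit 156) (nat_lit 0) (nat_lit 0) (XT.nd (nat_lit 78) (nat_lit 0) (nat_lit 0) (XT.lf (nat_lit 0) (nat_lit 5842896346) (nat_lit 152) (nat_lit 51556523598) (nat_lit 0) (nat_lit 2455382796) (nat_lit 2) (nat_lit 5) (nat_lit 4) (nat_lit 4) (nat_lit 2) (nat_lit 4) (nat_lit 316) (nat_lit 207) (nat_lit 197)) (XT.lf (nat_lit 0) (nat_lit 9324932227) (nat_lit 152) (nat_lit 47729587103) (nat_lit 0) (nat_lit 5680920748) (nat_lit 2) (nat_lit 5) (nat_lit 4) (nat_lit 4) (nat_lit 2) (nat_lit 4) (nat_lit 317) (nat_lit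 207) (nat_lit 196))) (XT.nd (nat_lit 78) (nat_lit 0) (nat_lit 0) (XT.lf (nat_lit 0) (nat_lit 12886871102) (nat_lit 152) (nat_lit 43877572509) (nat_lit 0) (nat_lit 8998575881) (nat_lit 2) (nat_lit 5) (nat_lit 4) (nat_lit 4) (nat_lit 2) (nat_lit 4) (nat_lit 318) (nat_lit 207) (nat_lit 195)) (XT.nd (nat_lit 78) (nat_lit 0) (nat_lit 0) (XT.lf (nat_lit 0) (nat_lit 16537193776) (nat_lit 152) (nat_lit 39991308353) (nat_lit 0) (nat_lit 12416247373) (nat_lit 2) (nat_lit 5) (nat_lit 4) (nat_lit 4) (nat_lit 2) (nat_lit 4) (nat_lit 319) (nat_lit 207) (nat_lit 194)) (XT.lf (nat_lit 0) (nat_lit 20284591495) (nat_lit 152) (nat_lit 36061541624) (nat_lit 0) (nat_lit 15942072538) (nat_lit 2) (nat_lit 5) (nat_lit 4) (nat_lit 4) (nat_lit 2) (nat_lit 4) (nat_lit 320) (nat_lit 207) (nat_lit 193))))) (XT.nd (nat_lit 156) (nat_lit 0) (nat_lit 0) (XT.nd (nat_lit 78) (nat_lit 0) (nat_lit 0) (XT.lf (nat_lit 0) (nat_lit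 24137986635) (nat_lit 152) (nat_lit 32078915735) (nat_lit 0) (nat_lit 19584446196) (nat_lit 2) (nat_lit 5) (nat_lit 4) (nat_lit 4) (nat_lit 2) (nat_lit 4) (nat_lit 321) (nat_lit 207) (nat_lit 192)) (XT.lf (nat_lit 0) (nat_lit 28106553945) (nat_lit 152) (nat_lit 28033948244) (nat_lit 0) (nat_lit 23352040668) (nat_lit 2) (nat_lit 5) (nat_lit 4) (nat_lit 4) (nat_lit 2) (nat_lit 4) (nat_lit 322) (nat_lit 207) (nat_lit 191))) (XT.nd (nat_lit 78) (nat_lit 0) (nat_lit 0) (XT.lf (nat_lit 0) (nat_lit 32199742395) (nat_lit 152) (nat_lit 23917008275) (nat_lit 0) (nat_lit 27253826414) (nat_lit 2) (nat_lit 5) (nat_lit 4) (nat_lit 4) (nat_lit 2) (nat_lit 4) (nat_lit 323) (nat_lit 207) (nat_lit 190)) (XT.nd (nat_lit 78) (nat_lit 0) (nat_lit 0) (XT.lf (nat_lit 0) (nat_lit 36427297672) (nat_lit 152) (nat_lit 19718293591) (nat_lit 0) (nat_lit 31299093403) (nat_lit 2) (nat_lit 5) (nat_lit 4) (nat_lit 4) (nat_lit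 2) (nat_lit 4) (nat_lit 324) (nat_lit 207) (nat_lit 189)) (XT.lf (nat_lit 0) (nat_lit 40799285384) (nat_lit 152) (nat_lit 15427807252) (nat_lit 0) (nat_lit 35497473220) (nat_lit 2) (nat_lit 5) (nat_lit 4) (nat_lit 4) (nat_lit 2) (nat_lit 4) (nat_lit 325) (nat_lit 207) (nat_lit 188)))))) (XT.nd (nat_lit 390) (nat_lit 0) (nat_lit 0) (XT.nd (nat_lit 156) (nat_lit 76) (nat_lit 0) (XT.nd (nat_lit 78) (nat_lit 0) (nat_lit 0) (XT.lf (nat_lit 0) (nat_lit 45326115026) (nat_lit 152) (nat_lit 11035333813) (nat_lit 0) (nat_lit 39858962010) (nat_lit 2) (nat_lit 5) (nat_lit 4) (nat_lit 4) (nat_lit 2) (nat_lit 4) (nat_lit 326) (nat_lit 207) (nat_lit 187)) (XT.lf (nat_lit 0) (nat_lit 50018564763) (nat_lit 152) (nat_lit 6530415006) (nat_lit 0) (nat_lit 44393944269) (nat_lit 2) (nat_lit 5) (nat_lit 4) (nat_lit 4) (nat_lit 2) (nat_lit 4) (nat_lit 327) (nat_lit 207) (nat_lit 186))) (XT.nd (nat_lit 78) (nat_lit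 76) (nat_lit 0) (XT.lf (nat_lit 0) (nat_lit 54887807095) (nat_lit 152) (nat_lit 1902324833) (nat_lit 0) (nat_lit 49113217575) (nat_lit 2) (nat_lit 5) (nat_lit 4) (nat_lit 4) (nat_lit 2) (nat_lit 4) (nat_lit 328) (nat_lit 207) (nat_lit 185)) (XT.nd (nat_lit 78) (nat_lit 0) (nat_lit 0) (XT.lf (nat_lit 0) (nat_lit 2916874700) (nat_lit 76) (nat_lit 57056599539) (nat_lit 76) (nat_lit 51139182375) (nat_lit 1) (nat_lit 4) (nat_lit 2) (nat_lit 5) (nat_lit 2) (nat_lit 4) (nat_lit 329) (nat_lit 207) (nat_lit 184)) (XT.lf (nat_lit 0) (nat_lit 7922359940) (nat_lit 76) (nat_lit 57357286447) (nat_lit 76) (nat_lit 51303842954) (nat_lit 1) (nat_lit 4) (nat_lit 2) (nat_lit 5) (nat_lit 2) (nat_lit 4) (nat_lit 330) (nat_lit 207) (nat_lit 183))))) (XT.nd (nat_lit 35412) (nat_lit 0) (nat_lit 304) (XT.nd (nat_lit 78) (nat_lit 0) (nat_lit 0) (XT.lf (nat_lit 0) (nat_lit 13088188714) (nat_lit 76) (nat_lit 57712118323)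 (nat_lit 76) (nat_lit 51529125947) (nat_lit 1) (nat_lit 4) (nat_lit 2) (nat_lit 5) (nat_lit 2) (nat_lit 4) (nat_lit 331) (nat_lit 207) (nat_lit 182)) (XT.nd (nat_lit 156) (nat_lit 0) (nat_lit 0) (XT.lf (nat_lit 0) (nat_lit 18426660616) (nat_lit 76) (nat_lit 58121940005) (nat_lit 76) (nat_lit 51815567740) (nat_lit 1) (nat_lit 4) (nat_lit 2) (nat_lit 5) (nat_lit 2) (nat_lit 4) (nat_lit 332) (nat_lit 207) (nat_lit 181)) (XT.lf (nat_lit 0) (nat_lit 29672817707) (nat_lit 76) (nat_lit 59110589104) (nat_lit 76) (nat_lit 52574802985) (nat_lit 1) (nat_lit 4) (nat_lit 2) (nat_lit 5) (nat_lit 2) (nat_lit 4) (nat_lit 334) (nat_lit 207) (nat_lit 179)))) (XT.nd (nat_lit 78) (nat_lit 0) (nat_lit 0) (XT.lf (nat_lit 0) (nat_lit 1518861321) (nat_lit 152) (nat_lit 14216731889) (nat_lit 0) (nat_lit 1518861321) (nat_lit 5) (nat_lit 5) (nat_lit 7) (nat_lit 4) (nat_lit 5) (nat_lit 4) (nat_lit 304) (nat_lit 208)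 (nat_lit 208)) (XT.nd (nat_lit 78) (nat_lit 0) (nat_lit 0) (XT.lf (nat_lit 0) (nat_lit 7572444622) (nat_lit 152) (nat_lit 21390893227) (nat_lit 0) (nat_lit 7120585165) (nat_lit 5) (nat_lit 5) (nat_lit 7) (nat_lit 4) (nat_lit 5) (nat_lit 4) (nat_lit 305) (nat_lit 208) (nat_lit 207)) (XT.lf (nat_lit 0) (nat_lit 12180946620) (nat_lit 152) (nat_lit 14262733314) (nat_lit 0) (nat_lit 11298744821) (nat_lit 5) (nat_lit 5) (nat_lit 7) (nat_lit 4) (nat_lit 5) (nat_lit 4) (nat_lit 306) (nat_lit 208) (nat_lit 206))))))))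
noncomputable def xc5 : XT := (XT.nd (nat_lit 1638) (nat_lit 76) (nat_lit 0) (XT.nd (nat_lit 780) (nat_lit 0) (nat_lit 0) (XT.nd (nat_lit 390) (nat_lit 152) (nat_lit 0) (XT.nd (nat_lit 156) (nat_lit 0) (nat_lit 0) (XT.nd (nat_lit 78) (nat_lit 76) (nat_lit 0) (XT.lf (nat_lit 0) (nat_lit 16874201257) (nat_lit 152) (nat_lit 7032012230) (nat_lit 0) (nat_lit 15582149611) (nat_lit 5) (nat_lit 5) (nat_lit 7) (nat_lit 4) (nat_lit 5) (nat_lit 4) (nat_lit 307) (nat_lit 208) (nat_lit 205)) (XT.lf (nat_lit 0) (nat_lit 324824524) (nat_lit 76) (nat_lit 21341680838) (nat_lit 76) (nat_lit 19659296003) (nat_lit 4) (nat_lit 4) (nat_lit 5) (nat_lit 5) (nat_lit 5) (nat_lit 4) (nat_lit 308) (nat_lit 208) (nat_lit 204))) (XT.nd (nat_lit 78) (nat_lit 0) (nat_lit 0) (XT.lf (nat_lit 0) (nat_lit 7961622579) (nat_lit 76) (nat_lit 18674803921) (nat_lit 76) (nat_lit 16620673192) (nat_lit 4) (nat_lit 4) (nat_lit 5) (nat_lit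 5) (nat_lit 5) (nat_lit 4) (nat_lit 309) (nat_lit 208) (nat_lit 203)) (XT.nd (nat_lit 78) (nat_lit 0) (nat_lit 0) (XT.lf (nat_lit 0) (nat_lit 15756613956) (nat_lit 76) (nat_lit 15970242563) (nat_lit 76) (nat_lit 13562068125) (nat_lit 4) (nat_lit 4) (nat_lit 5) (nat_lit 5) (nat_lit 5) (nat_lit 4) (nat_lit 310) (nat_lit 208) (nat_lit 202)) (XT.lf (nat_lit 0) (nat_lit 23728358158) (nat_lit 76) (nat_lit 13221557334) (nat_lit 76) (nat_lit 10476198412) (nat_lit 4) (nat_lit 4) (nat_lit 5) (nat_lit 5) (nat_lit 5) (nat_lit 4) (nat_lit 311) (nat_lit 208) (nat_lit 201))))) (XT.nd (nat_lit 156) (nat_lit 152) (nat_lit 0) (XT.nd (nat_lit 78) (nat_lit 0) (nat_lit 0) (XT.lf (nat_lit 0) (nat_lit 31895835528) (nat_lit 76) (nat_lit 10422203745) (nat_lit 76) (nat_lit 7355716742) (nat_lit 4) (nat_lit 4) (nat_lit 5) (nat_lit 5) (nat_lit 5) (nat_lit 4) (nat_lit 312) (nat_lit 208) (nat_lit 200)) (XT.lf (nat_lit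 0) (nat_lit 40278492440) (nat_lit 76) (nat_lit 7565516667) (nat_lit 76) (nat_lit 4193193397) (nat_lit 4) (nat_lit 4) (nat_lit 5) (nat_lit 5) (nat_lit 5) (nat_lit 4) (nat_lit 313) (nat_lit 208) (nat_lit 199))) (XT.nd (nat_lit 78) (nat_lit 152) (nat_lit 0) (XT.lf (nat_lit 0) (nat_lit 48896287602) (nat_lit 76) (nat_lit 4644694466) (nat_lit 76) (nat_lit 981098561) (nat_lit 4) (nat_lit 4) (nat_lit 5) (nat_lit 5) (nat_lit 5) (nat_lit 4) (nat_lit 314) (nat_lit 208) (nat_lit 198)) (XT.nd (nat_lit 78) (nat_lit 0) (nat_lit 0) (XT.lf (nat_lit 0) (nat_lit 625645682) (nat_lit 76) (nat_lit 1623932690) (nat_lit 152) (nat_lit 54883888097) (nat_lit 2) (nat_lit 5) (nat_lit 3) (nat_lit 5) (nat_lit 4) (nat_lit 4) (nat_lit 315) (nat_lit 208) (nat_lit 197)) (XT.lf (nat_lit 0) (nat_lit 5596143421) (nat_lit 152) (nat_lit 52766402434) (nat_lit 0) (nat_lit 1513433439) (nat_lit 2) (nat_lit 5) (nat_lit 4) (nat_lit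 4) (nat_lit 2) (nat_lit 4) (nat_lit 316) (nat_lit 208) (nat_lit 196)))))) (XT.nd (nat_lit 390) (nat_lit 0) (nat_lit 0) (XT.nd (nat_lit 156) (nat_lit 0) (nat_lit 0) (XT.nd (nat_lit 78) (nat_lit 0) (nat_lit 0) (XT.lf (nat_lit 0) (nat_lit 9032228667) (nat_lit 152) (nat_lit 49020572635) (nat_lit 0) (nat_lit 4705234944) (nat_lit 2) (nat_lit 5) (nat_lit 4) (nat_lit 4) (nat_lit 2) (nat_lit 4) (nat_lit 317) (nat_lit 208) (nat_lit 195)) (XT.lf (nat_lit 0) (nat_lit 12550405033) (nat_lit 152) (nat_lit 45245802513) (nat_lit 0) (nat_lit 7990760127) (nat_lit 2) (nat_lit 5) (nat_lit 4) (nat_lit 4) (nat_lit 2) (nat_lit 4) (nat_lit 318) (nat_lit 208) (nat_lit 194))) (XT.nd (nat_lit 78) (nat_lit 0) (nat_lit 0) (XT.lf (nat_lit 0) (nat_lit 16159049127) (nat_lit 152) (nat_lit 41433104520) (nat_lit 0) (nat_lit 11377831667) (nat_lit 2) (nat_lit 5) (nat_lit 4) (nat_lit 4) (nat_lit 2) (nat_lit 4) (nat_lit 319) (nat_lit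 208) (nat_lit 193)) (XT.nd (nat_lit 78) (nat_lit 0) (nat_lit 0) (XT.lf (nat_lit 0) (nat_lit 19866752960) (nat_lit 152) (nat_lit 37573400804) (nat_lit 0) (nat_lit 14874514020) (nat_lit 2) (nat_lit 5) (nat_lit 4) (nat_lit 4) (nat_lit 2) (nat_lit 4) (nat_lit 320) (nat_lit 208) (nat_lit 192)) (XT.lf (nat_lit 0) (nat_lit 23682344399) (nat_lit 152) (nat_lit 33657501594) (nat_lit 0) (nat_lit 18489132620) (nat_lit 2) (nat_lit 5) (nat_lit 4) (nat_lit 4) (nat_lit 2) (nat_lit 4) (nat_lit 321) (nat_lit 208) (nat_lit 191))))) (XT.nd (nat_lit 234) (nat_lit 0) (nat_lit 0) (XT.nd (nat_lit 78) (nat_lit 0) (nat_lit 0) (XT.lf (nat_lit 0) (nat_lit 27614908185) (nat_lit 152) (nat_lit 29676083321) (nat_lit 0) (nat_lit 22230293701) (nat_lit 2) (nat_lit 5) (nat_lit 4) (nat_lit 4) (nat_lit 2) (nat_lit 4) (nat_lit 322) (nat_lit 208) (nat_lit 190)) (XT.nd (nat_lit 78) (nat_lit 0) (nat_lit 0) (XT.lf (nat_lit 0) (nat_lit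 31673807564) (nat_lit 152) (nat_lit 25619666417) (nat_lit 0) (nat_lit 26106904792) (nat_lit 2) (nat_lit 5) (nat_lit 4) (nat_lit 4) (nat_lit 2) (nat_lit 4) (nat_lit 323) (nat_lit 208) (nat_lit 189)) (XT.lf (nat_lit 0) (nat_lit 35868706583) (nat_lit 152) (nat_lit 21478592747) (nat_lit 0) (nat_lit 30128195917) (nat_lit 2) (nat_lit 5) (nat_lit 4) (nat_lit 4) (nat_lit 2) (nat_lit 4) (nat_lit 324) (nat_lit 208) (nat_lit 188)))) (XT.nd (nat_lit 78) (nat_lit 0) (nat_lit 0) (XT.lf (nat_lit 0) (nat_lit 40209593097) (nat_lit 152) (nat_lit 17243002612) (nat_lit 0) (nat_lit 34303741579) (nat_lit 2) (nat_lit 5) (nat_lit 4) (nat_lit 4) (nat_lit 2) (nat_lit 4) (nat_lit 325) (nat_lit 208) (nat_lit 187)) (XT.nd (nat_lit 78) (nat_lit 0) (nat_lit 0) (XT.lf (nat_lit 0) (nat_lit 44706802550) (nat_lit 152) (nat_lit 12902811273) (nat_lit 0) (nat_lit 38643483554) (nat_lit 2) (nat_lit 5) (nat_lit 4) (nat_lit 4) (nat_lit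 2) (nat_lit 4) (nat_lit 326) (nat_lit 208) (nat_lit 186)) (XT.lf (nat_lit 0) (nat_lit 49371042584) (nat_lit 152) (nat_lit 8447684941) (nat_lit 0) (nat_lit 43157754561) (nat_lit 2) (nat_lit 5) (nat_lit 4) (nat_lit 4) (nat_lit 2) (nat_lit 4) (nat_lit 327) (nat_lit 208) (nat_lit 185))))))) (XT.nd (nat_lit 35880) (nat_lit 0) (nat_lit 76) (XT.nd (nat_lit 468) (nat_lit 0) (nat_lit 0) (XT.nd (nat_lit 156) (nat_lit 0) (nat_lit 0) (XT.nd (nat_lit 78) (nat_lit 76) (nat_lit 0) (XT.lf (nat_lit 0) (nat_lit 54213418531) (nat_lit 152) (nat_lit 3867016172) (nat_lit 0) (nat_lit 47857302864) (nat_lit 2) (nat_lit 5) (nat_lit 4) (nat_lit 4) (nat_lit 2) (nat_lit 4) (nat_lit 328) (nat_lit 208) (nat_lit 184)) (XT.lf (nat_lit 0) (nat_lit 867020070) (nat_lit 76) (nat_lit 58386774116) (nat_lit 76) (nat_lit 51894632121) (nat_lit 1) (nat_lit 4) (nat_lit 2) (nat_lit 5) (nat_lit 2) (nat_lit 4) (nat_lit 329) (nat_lit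 208) (nat_lit 183))) (XT.nd (nat_lit 78) (nat_lit 0) (nat_lit 0) (XT.lf (nat_lit 0) (nat_lit 5828636663) (nat_lit 76) (nat_lit 58706539376) (nat_lit 76) (nat_lit 52084848497) (nat_lit 1) (nat_lit 4) (nat_lit 2) (nat_lit 5) (nat_lit 2) (nat_lit 4) (nat_lit 330) (nat_lit 208) (nat_lit 182)) (XT.nd (nat_lit 78) (nat_lit 0) (nat_lit 0) (XT.lf (nat_lit 0) (nat_lit 10952685773) (nat_lit 76) (nat_lit 59079541112) (nat_lit 76) (nat_lit 52334470344) (nat_lit 1) (nat_lit 4) (nat_lit 2) (nat_lit 5) (nat_lit 2) (nat_lit 4) (nat_lit 331) (nat_lit 208) (nat_lit 181)) (XT.lf (nat_lit 0) (nat_lit 16251367518) (nat_lit 76) (nat_lit 59506667422) (nat_lit 76) (nat_lit 52644091998) (nat_lit 1) (nat_lit 4) (nat_lit 2) (nat_lit 5) (nat_lit 2) (nat_lit 4) (nat_lit 332) (nat_lit 208) (nat_lit 180))))) (XT.nd (nat_lit 35178) (nat_lit 0) (nat_lit 304) (XT.nd (nat_lit 35022) (nat_lit 0) (nat_lit 456) (XT.lf (nat_lit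 0) (nat_lit 27423538377) (nat_lit 76) (nat_lit 60527492928) (nat_lit 76) (nat_lit 53446428119) (nat_lit 1) (nat_lit 4) (nat_lit 2) (nat_lit 5) (nat_lit 2) (nat_lit 4) (nat_lit 334) (nat_lit 208) (nat_lit 178)) (XT.nd (nat_lit 78) (nat_lit 0) (nat_lit 0) (XT.lf (nat_lit 0) (nat_lit 10548145281) (nat_lit 76) (nat_lit 2622388844) (nat_lit 76) (nat_lit 2622388844) (nat_lit 7) (nat_lit 4) (nat_lit 8) (nat_lit 5) (nat_lit 8) (nat_lit 4) (nat_lit 302) (nat_lit 209) (nat_lit 209)) (XT.lf (nat_lit 0) (nat_lit 30642131725) (nat_lit 76) (nat_lit 1429399829) (nat_lit 76) (nat_lit 940713826) (nat_lit 7) (nat_lit 4) (nat_lit 8) (nat_lit 5) (nat_lit 8) (nat_lit 4) (nat_lit 303) (nat_lit 209) (nat_lit 208)))) (XT.nd (nat_lit 78) (nat_lit 0) (nat_lit 0) (XT.lf (nat_lit 0) (nat_lit 3433831713) (nat_lit 152) (nat_lit 28569983838) (nat_lit 0) (nat_lit 2507519825) (nat_lit 5) (nat_lit 5) (nat_lit 7) (nat_lit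 4) (nat_lit 5) (nat_lit 4) (nat_lit 304) (nat_lit 209) (nat_lit 207)) (XT.nd (nat_lit 78) (nat_lit 0) (nat_lit 0) (XT.lf (nat_lit 0) (nat_lit 7893940970) (nat_lit 152) (nat_lit 21657432393) (nat_lit 0) (nat_lit 6537286742) (nat_lit 5) (nat_lit 5) (nat_lit 7) (nat_lit 4) (nat_lit 5) (nat_lit 4) (nat_lit 305) (nat_lit 209) (nat_lit 206)) (XT.lf (nat_lit 0) (nat_lit 12431383231) (nat_lit 152) (nat_lit 14653100199) (nat_lit 0) (nat_lit 10664879154) (nat_lit 5) (nat_lit 5) (nat_lit 7) (nat_lit 4) (nat_lit 5) (nat_lit 4) (nat_lit 306) (nat_lit 209) (nat_lit 205)))))) (XT.nd (nat_lit 390) (nat_lit 152) (nat_lit 0) (XT.nd (nat_lit 156) (nat_lit 76) (nat_lit 0) (XT.nd (nat_lit 78) (nat_lit 0) (nat_lit 0) (XT.lf (nat_lit 0) (nat_lit 17056961929) (nat_lit 152) (nat_lit 7540310276) (nat_lit 0) (nat_lit 14900124664) (nat_lit 5) (nat_lit 5) (nat_lit 7) (nat_lit 4) (nat_lit 5) (nat_lit 4) (nat_lit 307)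 (nat_lit 209) (nat_lit 204)) (XT.lf (nat_lit 0) (nat_lit 21781690347) (nat_lit 152) (nat_lit 302127409) (nat_lit 0) (nat_lit 19253107188) (nat_lit 5) (nat_lit 5) (nat_lit 7) (nat_lit 4) (nat_lit 5) (nat_lit 4) (nat_lit 308) (nat_lit 209) (nat_lit 203))) (XT.nd (nat_lit 78) (nat_lit 0) (nat_lit 0) (XT.lf (nat_lit 0) (nat_lit 7219561825) (nat_lit 76) (nat_lit 19466654858) (nat_lit 76) (nat_lit 16584027990) (nat_lit 4) (nat_lit 4) (nat_lit 5) (nat_lit 5) (nat_lit 5) (nat_lit 4) (nat_lit 309) (nat_lit 209) (nat_lit 202)) (XT.nd (nat_lit 78) (nat_lit 0) (nat_lit 0) (XT.lf (nat_lit 0) (nat_lit 14910652351) (nat_lit 76) (nat_lit 16806534572) (nat_lit 76) (nat_lit 13586723219) (nat_lit 4) (nat_lit 4) (nat_lit 5) (nat_lit 5) (nat_lit 5) (nat_lit 4) (nat_lit 310) (nat_lit 209) (nat_lit 201)) (XT.lf (nat_lit 0) (nat_lit 22783443361) (nat_lit 76) (nat_lit 14100174173) (nat_lit 76) (nat_lit 10559234739)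 (nat_lit 4) (nat_lit 4) (nat_lit 5) (nat_lit 5) (nat_lit 5) (nat_lit 4) (nat_lit 311) (nat_lit 209) (nat_lit 200))))) (XT.nd (nat_lit 234) (nat_lit 152) (nat_lit 0) (XT.nd (nat_lit 78) (nat_lit 0) (nat_lit 0) (XT.lf (nat_lit 0) (nat_lit 30856679597) (nat_lit 76) (nat_lit 11341129945) (nat_lit 76) (nat_lit 7494354245) (nat_lit 4) (nat_lit 4) (nat_lit 5) (nat_lit 5) (nat_lit 5) (nat_lit 4) (nat_lit 312) (nat_lit 209) (nat_lit 199)) (XT.nd (nat_lit 78) (nat_lit 0) (nat_lit 0) (XT.lf (nat_lit 0) (nat_lit 39149583048) (nat_lit 76) (nat_lit 8522832736) (nat_lit 76) (nat_lit 4384784400) (nat_lit 4) (nat_lit 4) (nat_lit 5) (nat_lit 5) (nat_lit 5) (nat_lit 4) (nat_lit 313) (nat_lit 209) (nat_lit 198)) (XT.lf (nat_lit 0) (nat_lit 47681898723) (nat_lit 76) (nat_lit 5638572313) (nat_lit 76) (nat_lit 1223121468) (nat_lit 4) (nat_lit 4) (nat_lit 5) (nat_lit 5) (nat_lit 5) (nat_lit 4) (nat_lit 314) (nat_lit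 209) (nat_lit 197)))) (XT.nd (nat_lit 78) (nat_lit 76) (nat_lit 0) (XT.lf (nat_lit 0) (nat_lit 1959170975) (nat_lit 152) (nat_lit 702526631) (nat_lit 76) (nat_lit 54494986898) (nat_lit 3) (nat_lit 5) (nat_lit 5) (nat_lit 5) (nat_lit 4) (nat_lit 4) (nat_lit 315) (nat_lit 209) (nat_lit 196)) (XT.nd (nat_lit 78) (nat_lit 0) (nat_lit 0) (XT.lf (nat_lit 0) (nat_lit 5242854048) (nat_lit 152) (nat_lit 54203043938) (nat_lit 0) (nat_lit 455226897) (nat_lit 2) (nat_lit 5) (nat_lit 4) (nat_lit 4) (nat_lit 2) (nat_lit 4) (nat_lit 316) (nat_lit 209) (nat_lit 195)) (XT.lf (nat_lit 0) (nat_lit 8635176786) (nat_lit 152) (nat_lit 50534458610) (nat_lit 0) (nat_lit 3614898452) (nat_lit 2) (nat_lit 5) (nat_lit 4) (nat_lit 4) (nat_lit 2) (nat_lit 4) (nat_lit 317) (nat_lit 209) (nat_lit 194))))))))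
noncomputable def xc6 : XT := (XT.nd (nat_lit 36504) (nat_lit 0) (nat_lit 76) (XT.nd (nat_lit 780) (nat_lit 76) (nat_lit 0) (XT.nd (nat_lit 390) (nat_lit 0) (nat_lit 0) (XT.nd (nat_lit 156) (nat_lit 0) (nat_lit 0) (XT.nd (nat_lit 78) (nat_lit 0) (nat_lit 0) (XT.lf (nat_lit 0) (nat_lit 12111674571) (nat_lit 152) (nat_lit 46833254652) (nat_lit 0) (nat_lit 6869823683) (nat_lit 2) (nat_lit 5) (nat_lit 4) (nat_lit 4) (nat_lit 2) (nat_lit 4) (nat_lit 318) (nat_lit 209) (nat_lit 193)) (XT.lf (nat_lit 0) (nat_lit 15680624780) (nat_lit 152) (nat_lit 43090619672) (nat_lit 0) (nat_lit 10227752411) (nat_lit 2) (nat_lit 5) (nat_lit 4) (nat_lit 4) (nat_lit 2) (nat_lit 4) (nat_lit 319) (nat_lit 209) (nat_lit 192))) (XT.nd (nat_lit 78) (nat_lit 0) (nat_lit 0) (XT.lf (nat_lit 0) (nat_lit 19350524912) (nat_lit 152) (nat_lit 39297642635) (nat_lit 0) (nat_lit 13696679705) (nat_lit 2) (nat_lit 5) (nat_lit 4)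 (nat_lit 4) (nat_lit 2) (nat_lit 4) (nat_lit 320) (nat_lit 209) (nat_lit 191)) (XT.nd (nat_lit 78) (nat_lit 0) (nat_lit 0) (XT.lf (nat_lit 0) (nat_lit 23130112827) (nat_lit 152) (nat_lit 35445292644) (nat_lit 0) (nat_lit 17284864916) (nat_lit 2) (nat_lit 5) (nat_lit 4) (nat_lit 4) (nat_lit 2) (nat_lit 4) (nat_lit 321) (nat_lit 209) (nat_lit 190)) (XT.lf (nat_lit 0) (nat_lit 27028387541) (nat_lit 152) (nat_lit 31524397435) (nat_lit 0) (nat_lit 21000851341) (nat_lit 2) (nat_lit 5) (nat_lit 4) (nat_lit 4) (nat_lit 2) (nat_lit 4) (nat_lit 322) (nat_lit 209) (nat_lit 189))))) (XT.nd (nat_lit 156) (nat_lit 0) (nat_lit 0) (XT.nd (nat_lit 78) (nat_lit 0) (nat_lit 0) (XT.lf (nat_lit 0) (nat_lit 31054630662) (nat_lit 152) (nat_lit 27525621546) (nat_lit 0) (nat_lit 24853486568) (nat_lit 2) (nat_lit 5) (nat_lit 4) (nat_lit 4) (nat_lit 2) (nat_lit 4) (nat_lit 323) (nat_lit 209) (nat_lit 188)) (XT.lf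 (nat_lit 0) (nat_lit 35218428484) (nat_lit 152) (nat_lit 23439444079) (nat_lit 0) (nat_lit 28851943538) (nat_lit 2) (nat_lit 5) (nat_lit 4) (nat_lit 4) (nat_lit 2) (nat_lit 4) (nat_lit 324) (nat_lit 209) (nat_lit 187))) (XT.nd (nat_lit 78) (nat_lit 0) (nat_lit 0) (XT.lf (nat_lit 0) (nat_lit 39529694809) (nat_lit 152) (nat_lit 19256136043) (nat_lit 0) (nat_lit 33005742385) (nat_lit 2) (nat_lit 5) (nat_lit 4) (nat_lit 4) (nat_lit 2) (nat_lit 4) (nat_lit 325) (nat_lit 209) (nat_lit 186)) (XT.nd (nat_lit 78) (nat_lit 0) (nat_lit 0) (XT.lf (nat_lit 0) (nat_lit 43998694559) (nat_lit 152) (nat_lit 14965737179) (nat_lit 0) (nat_lit 37324773108) (nat_lit 2) (nat_lit 5) (nat_lit 4) (nat_lit 4) (nat_lit 2) (nat_lit 4) (nat_lit 326) (nat_lit 209) (nat_lit 185)) (XT.lf (nat_lit 0) (nat_lit 48636068208) (nat_lit 152) (nat_lit 10558032252) (nat_lit 0) (nat_lit 41819319113) (nat_lit 2) (nat_lit 5) (nat_lit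 4) (nat_lit 4) (nat_lit 2) (nat_lit 4) (nat_lit 327) (nat_lit 209) (nat_lit 184)))))) (XT.nd (nat_lit 468) (nat_lit 0) (nat_lit 0) (XT.nd (nat_lit 156) (nat_lit 76) (nat_lit 0) (XT.nd (nat_lit 78) (nat_lit 0) (nat_lit 0) (XT.lf (nat_lit 0) (nat_lit 53452857122) (nat_lit 152) (nat_lit 6022526726) (nat_lit 0) (nat_lit 46500081700) (nat_lit 2) (nat_lit 5) (nat_lit 4) (nat_lit 4) (nat_lit 2) (nat_lit 4) (nat_lit 328) (nat_lit 209) (nat_lit 183)) (XT.lf (nat_lit 0) (nat_lit 58460529848) (nat_lit 152) (nat_lit 1348421780) (nat_lit 0) (nat_lit 51378205541) (nat_lit 2) (nat_lit 5) (nat_lit 4) (nat_lit 4) (nat_lit 2) (nat_lit 4) (nat_lit 329) (nat_lit 209) (nat_lit 182))) (XT.nd (nat_lit 78) (nat_lit 0) (nat_lit 0) (XT.lf (nat_lit 0) (nat_lit 3544578910) (nat_lit 76) (nat_lit 60160503164) (nat_lit 76) (nat_lit 52954798968) (nat_lit 1) (nat_lit 4) (nat_lit 2) (nat_lit 5) (nat_lit 2) (nat_lit 4) (nat_lit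 330) (nat_lit 209) (nat_lit 181)) (XT.nd (nat_lit 78) (nat_lit 0) (nat_lit 0) (XT.lf (nat_lit 0) (nat_lit 8628837864) (nat_lit 76) (nat_lit 60550809528) (nat_lit 76) (nat_lit 53227600676) (nat_lit 1) (nat_lit 4) (nat_lit 2) (nat_lit 5) (nat_lit 2) (nat_lit 4) (nat_lit 331) (nat_lit 209) (nat_lit 180)) (XT.lf (nat_lit 0) (nat_lit 13889624222) (nat_lit 76) (nat_lit 60994416437) (nat_lit 76) (nat_lit 53559298388) (nat_lit 1) (nat_lit 4) (nat_lit 2) (nat_lit 5) (nat_lit 2) (nat_lit 4) (nat_lit 332) (nat_lit 209) (nat_lit 179))))) (XT.nd (nat_lit 35022) (nat_lit 0) (nat_lit 304) (XT.nd (nat_lit 34866) (nat_lit 0) (nat_lit 456) (XT.lf (nat_lit 0) (nat_lit 24991332003) (nat_lit 76) (nat_lit 62045886139) (nat_lit 76) (nat_lit 54402682963) (nat_lit 1) (nat_lit 4) (nat_lit 2) (nat_lit 5) (nat_lit 2) (nat_lit 4) (nat_lit 334) (nat_lit 209) (nat_lit 177)) (XT.nd (nat_lit 78) (nat_lit 0) (nat_lit 0)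 (XT.lf (nat_lit 0) (nat_lit 1343834637) (nat_lit 76) (nat_lit 6564445151) (nat_lit 76) (nat_lit 6564445151) (nat_lit 7) (nat_lit 4) (nat_lit 8) (nat_lit 5) (nat_lit 8) (nat_lit 4) (nat_lit 300) (nat_lit 210) (nat_lit 210)) (XT.lf (nat_lit 0) (nat_lit 11737630705) (nat_lit 76) (nat_lit 9503837238) (nat_lit 76) (nat_lit 8990716935) (nat_lit 7) (nat_lit 4) (nat_lit 8) (nat_lit 5) (nat_lit 8) (nat_lit 4) (nat_lit 301) (nat_lit 210) (nat_lit 209)))) (XT.nd (nat_lit 78) (nat_lit 152) (nat_lit 0) (XT.lf (nat_lit 0) (nat_lit 20959338520) (nat_lit 76) (nat_lit 5815389870) (nat_lit 76) (nat_lit 4813583563) (nat_lit 7) (nat_lit 4) (nat_lit 8) (nat_lit 5) (nat_lit 8) (nat_lit 4) (nat_lit 302) (nat_lit 210) (nat_lit 208)) (XT.nd (nat_lit 78) (nat_lit 152) (nat_lit 0) (XT.lf (nat_lit 0) (nat_lit 30374749166) (nat_lit 76) (nat_lit 2054766180) (nat_lit 76) (nat_lit 587544632) (nat_lit 7) (nat_lit 4) (nat_lit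 8) (nat_lit 5) (nat_lit 8) (nat_lit 4) (nat_lit 303) (nat_lit 210) (nat_lit 207)) (XT.lf (nat_lit 0) (nat_lit 3696790155) (nat_lit 152) (nat_lit 28979869067) (nat_lit 0) (nat_lit 1841960874) (nat_lit 5) (nat_lit 5) (nat_lit 7) (nat_lit 4) (nat_lit 5) (nat_lit 4) (nat_lit 304) (nat_lit 210) (nat_lit 206))))))) (XT.nd (nat_lit 858) (nat_lit 76) (nat_lit 0) (XT.nd (nat_lit 390) (nat_lit 76) (nat_lit 0) (XT.nd (nat_lit 156) (nat_lit 76) (nat_lit 0) (XT.nd (nat_lit 78) (nat_lit 0) (nat_lit 0) (XT.lf (nat_lit 0) (nat_lit 8085839676) (nat_lit 152) (nat_lit 22191145341) (nat_lit 0) (nat_lit 5821160547) (nat_lit 5) (nat_lit 5) (nat_lit 7) (nat_lit 4) (nat_lit 5) (nat_lit 4) (nat_lit 305) (nat_lit 210) (nat_lit 205)) (XT.lf (nat_lit 0) (nat_lit 12555605998) (nat_lit 152) (nat_lit 15304744308) (nat_lit 0) (nat_lit 9900593680) (nat_lit 5) (nat_lit 5) (nat_lit 7) (nat_lit 4) (nat_lit 5) (nat_lit 4) (nat_lit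 306) (nat_lit 210) (nat_lit 204))) (XT.nd (nat_lit 78) (nat_lit 76) (nat_lit 0) (XT.lf (nat_lit 0) (nat_lit 17116731420) (nat_lit 152) (nat_lit 8304269776) (nat_lit 0) (nat_lit 14089973208) (nat_lit 5) (nat_lit 5) (nat_lit 7) (nat_lit 4) (nat_lit 5) (nat_lit 4) (nat_lit 307) (nat_lit 210) (nat_lit 203)) (XT.nd (nat_lit 78) (nat_lit 76) (nat_lit 0) (XT.lf (nat_lit 0) (nat_lit 21780075766) (nat_lit 152) (nat_lit 1173053948) (nat_lit 0) (nat_lit 18399273846) (nat_lit 5) (nat_lit 5) (nat_lit 7) (nat_lit 4) (nat_lit 5) (nat_lit 4) (nat_lit 308) (nat_lit 210) (nat_lit 202)) (XT.lf (nat_lit 0) (nat_lit 6227401288) (nat_lit 76) (nat_lit 20389202538) (nat_lit 76) (nat_lit 16671216134) (nat_lit 4) (nat_lit 4) (nat_lit 5) (nat_lit 5) (nat_lit 5) (nat_lit 4) (nat_lit 309) (nat_lit 210) (nat_lit 201))))) (XT.nd (nat_lit 234) (nat_lit 76) (nat_lit 0) (XT.nd (nat_lit 78) (nat_lit 0) (nat_lit 0) (XT.lf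 (nat_lit 0) (nat_lit 13819538623) (nat_lit 76) (nat_lit 17771407082) (nat_lit 76) (nat_lit 13732292597) (nat_lit 4) (nat_lit 4) (nat_lit 5) (nat_lit 5) (nat_lit 5) (nat_lit 4) (nat_lit 310) (nat_lit 210) (nat_lit 200)) (XT.nd (nat_lit 78) (nat_lit 0) (nat_lit 0) (XT.lf (nat_lit 0) (nat_lit 21598088499) (nat_lit 76) (nat_lit 15105356044) (nat_lit 76) (nat_lit 10760405292) (nat_lit 4) (nat_lit 4) (nat_lit 5) (nat_lit 5) (nat_lit 5) (nat_lit 4) (nat_lit 311) (nat_lit 210) (nat_lit 199)) (XT.lf (nat_lit 0) (nat_lit 29581571273) (nat_lit 76) (nat_lit 12384701685) (nat_lit 76) (nat_lit 7748478297) (nat_lit 4) (nat_lit 4) (nat_lit 5) (nat_lit 5) (nat_lit 5) (nat_lit 4) (nat_lit 312) (nat_lit 210) (nat_lit 198)))) (XT.nd (nat_lit 78) (nat_lit 76) (nat_lit 0) (XT.lf (nat_lit 0) (nat_lit 37788995237) (nat_lit 76) (nat_lit 9602966255) (nat_lit 76) (nat_lit 4689340358) (nat_lit 4) (nat_lit 4) (nat_lit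 5) (nat_lit 5) (nat_lit 5) (nat_lit 4) (nat_lit 313) (nat_lit 210) (nat_lit 197)) (XT.nd (nat_lit 78) (nat_lit 76) (nat_lit 0) (XT.lf (nat_lit 0) (nat_lit 46239901877) (nat_lit 76) (nat_lit 6753526575) (nat_lit 76) (nat_lit 1575707812) (nat_lit 4) (nat_lit 4) (nat_lit 5) (nat_lit 5) (nat_lit 5) (nat_lit 4) (nat_lit 314) (nat_lit 210) (nat_lit 196)) (XT.lf (nat_lit 0) (nat_lit 1568614252) (nat_lit 152) (nat_lit 2245144085) (nat_lit 76) (nat_lit 53369958218) (nat_lit 3) (nat_lit 5) (nat_lit 5) (nat_lit 5) (nat_lit 4) (nat_lit 4) (nat_lit 315) (nat_lit 210) (nat_lit 195)))))) (XT.nd (nat_lit 390) (nat_lit 0) (nat_lit 0) (XT.nd (nat_lit 156) (nat_lit 0) (nat_lit 0) (XT.nd (nat_lit 78) (nat_lit 0) (nat_lit 0) (XT.lf (nat_lit 0) (nat_lit 4053142372) (nat_lit 76) (nat_lit 736120735) (nat_lit 152) (nat_lit 55140823992) (nat_lit 2) (nat_lit 5) (nat_lit 3) (nat_lit 5) (nat_lit 4) (nat_lit 4) (nat_lit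 316) (nat_lit 210) (nat_lit 194)) (XT.lf (nat_lit 0) (nat_lit 8132831221) (nat_lit 152) (nat_lit 52274849520) (nat_lit 0) (nat_lit 2407315234) (nat_lit 2) (nat_lit 5) (nat_lit 4) (nat_lit 4) (nat_lit 2) (nat_lit 4) (nat_lit 317) (nat_lit 210) (nat_lit 193))) (XT.nd (nat_lit 78) (nat_lit 0) (nat_lit 0) (XT.lf (nat_lit 0) (nat_lit 11569635121) (nat_lit 152) (nat_lit 48643708575) (nat_lit 0) (nat_lit 5633097653) (nat_lit 2) (nat_lit 5) (nat_lit 4) (nat_lit 4) (nat_lit 2) (nat_lit 4) (nat_lit 318) (nat_lit 210) (nat_lit 192)) (XT.nd (nat_lit 78) (nat_lit 0) (nat_lit 0) (XT.lf (nat_lit 0) (nat_lit 15100781629) (nat_lit 152) (nat_lit 44967800274) (nat_lit 0) (nat_lit 8963271322) (nat_lit 2) (nat_lit 5) (nat_lit 4) (nat_lit 4) (nat_lit 2) (nat_lit 4) (nat_lit 319) (nat_lit 210) (nat_lit 191)) (XT.lf (nat_lit 0) (nat_lit 18734678237) (nat_lit 152) (nat_lit 41238372455) (nat_lit 0) (nat_lit 12405765227)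 (nat_lit 2) (nat_lit 5) (nat_lit 4) (nat_lit 4) (nat_lit 2) (nat_lit 4) (nat_lit 320) (nat_lit 210) (nat_lit 190))))) (XT.nd (nat_lit 234) (nat_lit 0) (nat_lit 0) (XT.nd (nat_lit 78) (nat_lit 0) (nat_lit 0) (XT.lf (nat_lit 0) (nat_lit 22479977080) (nat_lit 152) (nat_lit 37446545528) (nat_lit 0) (nat_lit 15968775781) (nat_lit 2) (nat_lit 5) (nat_lit 4) (nat_lit 4) (nat_lit 2) (nat_lit 4) (nat_lit 321) (nat_lit 210) (nat_lit 189)) (XT.nd (nat_lit 78) (nat_lit 0) (nat_lit 0) (XT.lf (nat_lit 0) (nat_lit 26345595537) (nat_lit 152) (nat_lit 33583291334) (nat_lit 0) (nat_lit 19660786343) (nat_lit 2) (nat_lit 5) (nat_lit 4) (nat_lit 4) (nat_lit 2) (nat_lit 4) (nat_lit 322) (nat_lit 210) (nat_lit 188)) (XT.lf (nat_lit 0) (nat_lit 30340737460) (nat_lit 152) (nat_lit 29639411648) (nat_lit 0) (nat_lit 23490587415) (nat_lit 2) (nat_lit 5) (nat_lit 4) (nat_lit 4) (nat_lit 2) (nat_lit 4) (nat_lit 323)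 (nat_lit 210) (nat_lit 187)))) (XT.nd (nat_lit 78) (nat_lit 0) (nat_lit 0) (XT.lf (nat_lit 0) (nat_lit 34474915092) (nat_lit 152) (nat_lit 25605516281) (nat_lit 0) (nat_lit 27467297569) (nat_lit 2) (nat_lit 5) (nat_lit 4) (nat_lit 4) (nat_lit 2) (nat_lit 4) (nat_lit 324) (nat_lit 210) (nat_lit 186)) (XT.nd (nat_lit 78) (nat_lit 0) (nat_lit 0) (XT.lf (nat_lit 0) (nat_lit 38757971714) (nat_lit 152) (nat_lit 21472000720) (nat_lit 0) (nat_lit 31600385165) (nat_lit 2) (nat_lit 5) (nat_lit 4) (nat_lit 4) (nat_lit 2) (nat_lit 4) (nat_lit 325) (nat_lit 210) (nat_lit 185)) (XT.lf (nat_lit 0) (nat_lit 43200105079) (nat_lit 152) (nat_lit 17229023261) (nat_lit 0) (nat_lit 35899690886) (nat_lit 2) (nat_lit 5) (nat_lit 4) (nat_lit 4) (nat_lit 2) (nat_lit 4) (nat_lit 326) (nat_lit 210) (nat_lit 184))))))))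
noncomputable def xc7 : XT := (XT.nd (nat_lit 36348) (nat_lit 0) (nat_lit 0) (XT.nd (nat_lit 35490) (nat_lit 0) (nat_lit 228) (XT.nd (nat_lit 390) (nat_lit 0) (nat_lit 0) (XT.nd (nat_lit 156) (nat_lit 76) (nat_lit 0) (XT.nd (nat_lit 78) (nat_lit 0) (nat_lit 0) (XT.lf (nat_lit 0) (nat_lit 47811891696) (nat_lit 152) (nat_lit 12866481577) (nat_lit 0) (nat_lit 40375451174) (nat_lit 2) (nat_lit 5) (nat_lit 4) (nat_lit 4) (nat_lit 2) (nat_lit 4) (nat_lit 327) (nat_lit 210) (nat_lit 183)) (XT.lf (nat_lit 0) (nat_lit 52604312008) (nat_lit 152) (nat_lit 8373988663) (nat_lit 0) (nat_lit 45038322603) (nat_lit 2) (nat_lit 5) (nat_lit 4) (nat_lit 4) (nat_lit 2) (nat_lit 4) (nat_lit 328) (nat_lit 210) (nat_lit 182))) (XT.nd (nat_lit 78) (nat_lit 76) (nat_lit 0) (XT.lf (nat_lit 0) (nat_lit 57588776540) (nat_lit 152) (nat_lit 3740848109) (nat_lit 0) (nat_lit 49899407246) (nat_lit 2) (nat_lit 5) (nat_lit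 4) (nat_lit 4) (nat_lit 2) (nat_lit 4) (nat_lit 329) (nat_lit 210) (nat_lit 181)) (XT.nd (nat_lit 78) (nat_lit 0) (nat_lit 0) (XT.lf (nat_lit 0) (nat_lit 1064748449) (nat_lit 76) (nat_lit 61722639629) (nat_lit 76) (nat_lit 53915765678) (nat_lit 1) (nat_lit 4) (nat_lit 2) (nat_lit 5) (nat_lit 2) (nat_lit 4) (nat_lit 330) (nat_lit 210) (nat_lit 180)) (XT.lf (nat_lit 0) (nat_lit 6111112016) (nat_lit 76) (nat_lit 62129426592) (nat_lit 76) (nat_lit 54210643444) (nat_lit 1) (nat_lit 4) (nat_lit 2) (nat_lit 5) (nat_lit 2) (nat_lit 4) (nat_lit 331) (nat_lit 210) (nat_lit 179))))) (XT.nd (nat_lit 34866) (nat_lit 0) (nat_lit 456) (XT.nd (nat_lit 156) (nat_lit 0) (nat_lit 0) (XT.lf (nat_lit 0) (nat_lit 11335807529) (nat_lit 76) (nat_lit 62588729309) (nat_lit 76) (nat_lit 54563365974) (nat_lit 1) (nat_lit 4) (nat_lit 2) (nat_lit 5) (nat_lit 2) (nat_lit 4) (nat_lit 332) (nat_lit 210) (nat_lit 178)) (XT.lf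 (nat_lit 0) (nat_lit 22370407617) (nat_lit 76) (nat_lit 63669383960) (nat_lit 76) (nat_lit 55445844313) (nat_lit 1) (nat_lit 4) (nat_lit 2) (nat_lit 5) (nat_lit 2) (nat_lit 4) (nat_lit 334) (nat_lit 210) (nat_lit 176))) (XT.nd (nat_lit 78) (nat_lit 76) (nat_lit 0) (XT.lf (nat_lit 0) (nat_lit 3004657280) (nat_lit 152) (nat_lit 7271217170) (nat_lit 0) (nat_lit 3004657280) (nat_lit 8) (nat_lit 5) (nat_lit 10) (nat_lit 4) (nat_lit 8) (nat_lit 4) (nat_lit 298) (nat_lit 211) (nat_lit 211)) (XT.nd (nat_lit 78) (nat_lit 76) (nat_lit 0) (XT.lf (nat_lit 0) (nat_lit 11085577606) (nat_lit 152) (nat_lit 6090872982) (nat_lit 0) (nat_lit 10546801287) (nat_lit 8) (nat_lit 5) (nat_lit 10) (nat_lit 4) (nat_lit 8) (nat_lit 4) (nat_lit 299) (nat_lit 211) (nat_lit 210)) (XT.lf (nat_lit 0) (nat_lit 2543869630) (nat_lit 76) (nat_lit 13728033094) (nat_lit 76) (nat_lit 12676136472) (nat_lit 7) (nat_lit 4) (nat_lit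 8) (nat_lit 5) (nat_lit 8) (nat_lit 4) (nat_lit 300) (nat_lit 211) (nat_lit 209)))))) (XT.nd (nat_lit 390) (nat_lit 76) (nat_lit 0) (XT.nd (nat_lit 156) (nat_lit 152) (nat_lit 0) (XT.nd (nat_lit 78) (nat_lit 0) (nat_lit 0) (XT.lf (nat_lit 0) (nat_lit 11456879018) (nat_lit 76) (nat_lit 10160471907) (nat_lit 76) (nat_lit 8619889281) (nat_lit 7) (nat_lit 4) (nat_lit 8) (nat_lit 5) (nat_lit 8) (nat_lit 4) (nat_lit 301) (nat_lit 211) (nat_lit 208)) (XT.lf (nat_lit 0) (nat_lit 20548156316) (nat_lit 76) (nat_lit 6526778708) (nat_lit 76) (nat_lit 4520780841) (nat_lit 7) (nat_lit 4) (nat_lit 8) (nat_lit 5) (nat_lit 8) (nat_lit 4) (nat_lit 302) (nat_lit 211) (nat_lit 207))) (XT.nd (nat_lit 78) (nat_lit 152) (nat_lit 0) (XT.lf (nat_lit 0) (nat_lit 29839347423) (nat_lit 76) (nat_lit 2818301847) (nat_lit 76) (nat_lit 369051369) (nat_lit 7) (nat_lit 4) (nat_lit 8) (nat_lit 5) (nat_lit 8) (nat_lit 4) (nat_lit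 303) (nat_lit 211) (nat_lit 206)) (XT.nd (nat_lit 78) (nat_lit 0) (nat_lit 0) (XT.lf (nat_lit 0) (nat_lit 3827224060) (nat_lit 152) (nat_lit 29664095381) (nat_lit 0) (nat_lit 1039461126) (nat_lit 5) (nat_lit 5) (nat_lit 7) (nat_lit 4) (nat_lit 5) (nat_lit 4) (nat_lit 304) (nat_lit 211) (nat_lit 205)) (XT.lf (nat_lit 0) (nat_lit 8148597642) (nat_lit 152) (nat_lit 22993302816) (nat_lit 0) (nat_lit 4970501519) (nat_lit 5) (nat_lit 5) (nat_lit 7) (nat_lit 4) (nat_lit 5) (nat_lit 4) (nat_lit 305) (nat_lit 211) (nat_lit 204))))) (XT.nd (nat_lit 234) (nat_lit 76) (nat_lit 0) (XT.nd (nat_lit 78) (nat_lit 0) (nat_lit 0) (XT.lf (nat_lit 0) (nat_lit 12553910687) (nat_lit 152) (nat_lit 16219217175) (nat_lit 0) (nat_lit 9004068671) (nat_lit 5) (nat_lit 5) (nat_lit 7) (nat_lit 4) (nat_lit 5) (nat_lit 4) (nat_lit 306) (nat_lit 211) (nat_lit 203)) (XT.nd (nat_lit 78) (nat_lit 0) (nat_lit 0) (XT.lf (nat_lit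 0) (nat_lit 17053652038) (nat_lit 152) (nat_lit 9325709682) (nat_lit 0) (nat_lit 13149766313) (nat_lit 5) (nat_lit 5) (nat_lit 7) (nat_lit 4) (nat_lit 5) (nat_lit 4) (nat_lit 307) (nat_lit 211) (nat_lit 202)) (XT.lf (nat_lit 0) (nat_lit 21658535363) (nat_lit 152) (nat_lit 2296367226) (nat_lit 0) (nat_lit 17417465154) (nat_lit 5) (nat_lit 5) (nat_lit 7) (nat_lit 4) (nat_lit 5) (nat_lit 4) (nat_lit 308) (nat_lit 211) (nat_lit 201)))) (XT.nd (nat_lit 78) (nat_lit 0) (nat_lit 0) (XT.lf (nat_lit 0) (nat_lit 4982778683) (nat_lit 76) (nat_lit 21444643504) (nat_lit 76) (nat_lit 16882445214) (nat_lit 4) (nat_lit 4) (nat_lit 5) (nat_lit 5) (nat_lit 5) (nat_lit 4) (nat_lit 309) (nat_lit 211) (nat_lit 200)) (XT.nd (nat_lit 78) (nat_lit 0) (nat_lit 0) (XT.lf (nat_lit 0) (nat_lit 12480674883) (nat_lit 76) (nat_lit 18867157409) (nat_lit 76) (nat_lit 13999122852) (nat_lit 4) (nat_lit 4) (nat_lit 5) (nat_lit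 5) (nat_lit 5) (nat_lit 4) (nat_lit 310) (nat_lit 211) (nat_lit 199)) (XT.lf (nat_lit 0) (nat_lit 20169471298) (nat_lit 76) (nat_lit 16239496240) (nat_lit 76) (nat_lit 11080189048) (nat_lit 4) (nat_lit 4) (nat_lit 5) (nat_lit 5) (nat_lit 5) (nat_lit 4) (nat_lit 311) (nat_lit 211) (nat_lit 198))))))) (XT.nd (nat_lit 858) (nat_lit 76) (nat_lit 0) (XT.nd (nat_lit 390) (nat_lit 0) (nat_lit 0) (XT.nd (nat_lit 156) (nat_lit 152) (nat_lit 0) (XT.nd (nat_lit 78) (nat_lit 0) (nat_lit 0) (XT.lf (nat_lit 0) (nat_lit 28067474585) (nat_lit 76) (nat_lit 13555403660) (nat_lit 76) (nat_lit 8118693958) (nat_lit 4) (nat_lit 4) (nat_lit 5) (nat_lit 5) (nat_lit 5) (nat_lit 4) (nat_lit 312) (nat_lit 211) (nat_lit 197)) (XT.lf (nat_lit 0) (nat_lit 36193489513) (nat_lit 76) (nat_lit 10808488972) (nat_lit 76) (nat_lit 5107586404) (nat_lit 4) (nat_lit 4) (nat_lit 5) (nat_lit 5) (nat_lit 5) (nat_lit 4) (nat_lit 313)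 (nat_lit 211) (nat_lit 196))) (XT.nd (nat_lit 78) (nat_lit 152) (nat_lit 0) (XT.lf (nat_lit 0) (nat_lit 44566863738) (nat_lit 76) (nat_lit 7992211904) (nat_lit 76) (nat_lit 2039697082) (nat_lit 4) (nat_lit 4) (nat_lit 5) (nat_lit 5) (nat_lit 5) (nat_lit 4) (nat_lit 314) (nat_lit 211) (nat_lit 195)) (XT.nd (nat_lit 78) (nat_lit 76) (nat_lit 0) (XT.lf (nat_lit 0) (nat_lit 1070964217) (nat_lit 152) (nat_lit 4018088177) (nat_lit 76) (nat_lit 52125755009) (nat_lit 3) (nat_lit 5) (nat_lit 5) (nat_lit 5) (nat_lit 4) (nat_lit 4) (nat_lit 315) (nat_lit 211) (nat_lit 194)) (XT.lf (nat_lit 0) (nat_lit 2172325684) (nat_lit 76) (nat_lit 2060527003) (nat_lit 152) (nat_lit 55730125346) (nat_lit 2) (nat_lit 5) (nat_lit 3) (nat_lit 5) (nat_lit 4) (nat_lit 4) (nat_lit 316) (nat_lit 211) (nat_lit 193))))) (XT.nd (nat_lit 234) (nat_lit 0) (nat_lit 0) (XT.nd (nat_lit 78) (nat_lit 0) (nat_lit 0) (XT.lf (nat_lit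 0) (nat_lit 7523995912) (nat_lit 152) (nat_lit 54245889152) (nat_lit 0) (nat_lit 1079610091) (nat_lit 2) (nat_lit 5) (nat_lit 4) (nat_lit 4) (nat_lit 2) (nat_lit 4) (nat_lit 317) (nat_lit 211) (nat_lit 192)) (XT.nd (nat_lit 78) (nat_lit 0) (nat_lit 0) (XT.lf (nat_lit 0) (nat_lit 10922996111) (nat_lit 152) (nat_lit 50681474885) (nat_lit 0) (nat_lit 4277637451) (nat_lit 2) (nat_lit 5) (nat_lit 4) (nat_lit 4) (nat_lit 2) (nat_lit 4) (nat_lit 318) (nat_lit 211) (nat_lit 191)) (XT.lf (nat_lit 0) (nat_lit 14418139095) (nat_lit 152) (nat_lit 47069115802) (nat_lit 0) (nat_lit 7581377731) (nat_lit 2) (nat_lit 5) (nat_lit 4) (nat_lit 4) (nat_lit 2) (nat_lit 4) (nat_lit 319) (nat_lit 211) (nat_lit 190)))) (XT.nd (nat_lit 78) (nat_lit 0) (nat_lit 0) (XT.lf (nat_lit 0) (nat_lit 18017746632) (nat_lit 152) (nat_lit 43400211049) (nat_lit 0) (nat_lit 10998696979) (nat_lit 2) (nat_lit 5) (nat_lit 4) (nat_lit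 4) (nat_lit 2) (nat_lit 4) (nat_lit 320) (nat_lit 211) (nat_lit 189)) (XT.nd (nat_lit 78) (nat_lit 0) (nat_lit 0) (XT.lf (nat_lit 0) (nat_lit 21730389217) (nat_lit 152) (nat_lit 39666025136) (nat_lit 0) (nat_lit 14537731670) (nat_lit 2) (nat_lit 5) (nat_lit 4) (nat_lit 4) (nat_lit 2) (nat_lit 4) (nat_lit 321) (nat_lit 211) (nat_lit 188)) (XT.lf (nat_lit 0) (nat_lit 25564906476) (nat_lit 152) (nat_lit 35857667146) (nat_lit 0) (nat_lit 18206908077) (nat_lit 2) (nat_lit 5) (nat_lit 4) (nat_lit 4) (nat_lit 2) (nat_lit 4) (nat_lit 322) (nat_lit 211) (nat_lit 187)))))) (XT.nd (nat_lit 390) (nat_lit 76) (nat_lit 0) (XT.nd (nat_lit 156) (nat_lit 0) (nat_lit 0) (XT.nd (nat_lit 78) (nat_lit 0) (nat_lit 0) (XT.lf (nat_lit 0) (nat_lit 29530428210) (nat_lit 152) (nat_lit 31966069559) (nat_lit 0) (nat_lit 22014962333) (nat_lit 2) (nat_lit 5) (nat_lit 4) (nat_lit 4) (nat_lit 2) (nat_lit 4) (nat_lit 323)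 (nat_lit 211) (nat_lit 186)) (XT.lf (nat_lit 0) (nat_lit 33636396139) (nat_lit 152) (nat_lit 27981966667) (nat_lit 0) (nat_lit 25970961236) (nat_lit 2) (nat_lit 5) (nat_lit 4) (nat_lit 4) (nat_lit 2) (nat_lit 4) (nat_lit 324) (nat_lit 211) (nat_lit 185))) (XT.nd (nat_lit 78) (nat_lit 0) (nat_lit 0) (XT.lf (nat_lit 0) (nat_lit 37892586377) (nat_lit 152) (nat_lit 23895872511) (nat_lit 0) (nat_lit 30084323829) (nat_lit 2) (nat_lit 5) (nat_lit 4) (nat_lit 4) (nat_lit 2) (nat_lit 4) (nat_lit 325) (nat_lit 211) (nat_lit 184)) (XT.nd (nat_lit 78) (nat_lit 0) (nat_lit 0) (XT.lf (nat_lit 0) (nat_lit 42309132709) (nat_lit 152) (nat_lit 19698058295) (nat_lit 0) (nat_lit 34364843834) (nat_lit 2) (nat_lit 5) (nat_lit 4) (nat_lit 4) (nat_lit 2) (nat_lit 4) (nat_lit 326) (nat_lit 211) (nat_lit 183)) (XT.lf (nat_lit 0) (nat_lit 46896550723) (nat_lit 152) (nat_lit 15378529223) (nat_lit 0) (nat_lit 38822712964)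 (nat_lit 2) (nat_lit 5) (nat_lit 4) (nat_lit 4) (nat_lit 2) (nat_lit 4) (nat_lit 327) (nat_lit 211) (nat_lit 182))))) (XT.nd (nat_lit 234) (nat_lit 76) (nat_lit 0) (XT.nd (nat_lit 78) (nat_lit 0) (nat_lit 0) (XT.lf (nat_lit 0) (nat_lit 51665762843) (nat_lit 152) (nat_lit 10927000702) (nat_lit 0) (nat_lit 43468545194) (nat_lit 2) (nat_lit 5) (nat_lit 4) (nat_lit 4) (nat_lit 2) (nat_lit 4) (nat_lit 328) (nat_lit 211) (nat_lit 181)) (XT.nd (nat_lit 78) (nat_lit 0) (nat_lit 0) (XT.lf (nat_lit 0) (nat_lit 56628124334) (nat_lit 152) (nat_lit 6332873855) (nat_lit 0) (nat_lit 48313402029) (nat_lit 2) (nat_lit 5) (nat_lit 4) (nat_lit 4) (nat_lit 2) (nat_lit 4) (nat_lit 329) (nat_lit 211) (nat_lit 180)) (XT.lf (nat_lit 0) (nat_lit 61795450344) (nat_lit 152) (nat_lit 1585210285) (nat_lit 0) (nat_lit 53368818842) (nat_lit 2) (nat_lit 5) (nat_lit 4) (nat_lit 4) (nat_lit 2) (nat_lit 4) (nat_lit 330) (nat_lit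 211) (nat_lit 179)))) (XT.nd (nat_lit 78) (nat_lit 0) (nat_lit 0) (XT.lf (nat_lit 0) (nat_lit 3393513643) (nat_lit 76) (nat_lit 63819150916) (nat_lit 76) (nat_lit 55285939227) (nat_lit 1) (nat_lit 4) (nat_lit 2) (nat_lit 5) (nat_lit 2) (nat_lit 4) (nat_lit 331) (nat_lit 211) (nat_lit 178)) (XT.nd (nat_lit 156) (nat_lit 0) (nat_lit 0) (XT.lf (nat_lit 0) (nat_lit 8583836923) (nat_lit 76) (nat_lit 64293402021) (nat_lit 76) (nat_lit 55658685392) (nat_lit 1) (nat_lit 4) (nat_lit 2) (nat_lit 5) (nat_lit 2) (nat_lit 4) (nat_lit 332) (nat_lit 211) (nat_lit 177)) (XT.lf (nat_lit 0) (nat_lit 19554524922) (nat_lit 76) (nat_lit 65401851862) (nat_lit 76) (nat_lit 56578395888) (nat_lit 1) (nat_lit 4) (nat_lit 2) (nat_lit 5) (nat_lit 2) (nat_lit 4) (nat_lit 334) (nat_lit 211) (nat_lit 175))))))))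
noncomputable def xc8 : XT := (XT.nd (nat_lit 1638) (nat_lit 76) (nat_lit 0) (XT.nd (nat_lit 780) (nat_lit 228) (nat_lit 0) (XT.nd (nat_lit 390) (nat_lit 152) (nat_lit 0) (XT.nd (nat_lit 156) (nat_lit 76) (nat_lit 0) (XT.nd (nat_lit 78) (nat_lit 152) (nat_lit 0) (XT.lf (nat_lit 0) (nat_lit 8958336970) (nat_lit 152) (nat_lit 1623119051) (nat_lit 152) (nat_lit 1623119051) (nat_lit 10) (nat_lit 4) (nat_lit 12) (nat_lit 5) (nat_lit 12) (nat_lit 4) (nat_lit 296) (nat_lit 212) (nat_lit 212)) (XT.lf (nat_lit 0) (nat_lit 1572289154) (nat_lit 152) (nat_lit 22880577265) (nat_lit 0) (nat_lit 1006574019) (nat_lit 8) (nat_lit 5) (nat_lit 10) (nat_lit 4) (nat_lit 8) (nat_lit 4) (nat_lit 297) (nat_lit 212) (nat_lit 211))) (XT.nd (nat_lit 78) (nat_lit 76) (nat_lit 0) (XT.lf (nat_lit 0) (nat_lit 6488876269) (nat_lit 152) (nat_lit 14690477615) (nat_lit 0) (nat_lit 5384384816) (nat_lit 8) (nat_lit 5) (nat_lit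 10) (nat_lit 4) (nat_lit 8) (nat_lit 4) (nat_lit 298) (nat_lit 212) (nat_lit 210)) (XT.nd (nat_lit 78) (nat_lit 76) (nat_lit 0) (XT.lf (nat_lit 0) (nat_lit 11483088431) (nat_lit 152) (nat_lit 6379909853) (nat_lit 0) (nat_lit 9865476674) (nat_lit 8) (nat_lit 5) (nat_lit 10) (nat_lit 4) (nat_lit 8) (nat_lit 4) (nat_lit 299) (nat_lit 212) (nat_lit 209)) (XT.lf (nat_lit 0) (nat_lit 2112128316) (nat_lit 76) (nat_lit 14474991374) (nat_lit 76) (nat_lit 12368693614) (nat_lit 7) (nat_lit 4) (nat_lit 8) (nat_lit 5) (nat_lit 8) (nat_lit 4) (nat_lit 300) (nat_lit 212) (nat_lit 208))))) (XT.nd (nat_lit 156) (nat_lit 152) (nat_lit 0) (XT.nd (nat_lit 78) (nat_lit 0) (nat_lit 0) (XT.lf (nat_lit 0) (nat_lit 10894707187) (nat_lit 76) (nat_lit 10962184357) (nat_lit 76) (nat_lit 8390471355) (nat_lit 7) (nat_lit 4) (nat_lit 8) (nat_lit 5) (nat_lit 8) (nat_lit 4) (nat_lit 301) (nat_lit 212) (nat_lit 207)) (XT.lf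 (nat_lit 0) (nat_lit 19861764946) (nat_lit 76) (nat_lit 7380637986) (nat_lit 76) (nat_lit 4365672373) (nat_lit 7) (nat_lit 4) (nat_lit 8) (nat_lit 5) (nat_lit 8) (nat_lit 4) (nat_lit 302) (nat_lit 212) (nat_lit 206))) (XT.nd (nat_lit 78) (nat_lit 152) (nat_lit 0) (XT.lf (nat_lit 0) (nat_lit 29034651729) (nat_lit 76) (nat_lit 3721824771) (nat_lit 76) (nat_lit 284713814) (nat_lit 7) (nat_lit 4) (nat_lit 8) (nat_lit 5) (nat_lit 8) (nat_lit 4) (nat_lit 303) (nat_lit 212) (nat_lit 205)) (XT.nd (nat_lit 78) (nat_lit 0) (nat_lit 0) (XT.lf (nat_lit 0) (nat_lit 3825443984) (nat_lit 152) (nat_lit 30624291892) (nat_lit 0) (nat_lit 98109867) (nat_lit 5) (nat_lit 5) (nat_lit 7) (nat_lit 4) (nat_lit 5) (nat_lit 4) (nat_lit 304) (nat_lit 212) (nat_lit 204)) (XT.lf (nat_lit 0) (nat_lit 8082364290) (nat_lit 152) (nat_lit 24065814718) (nat_lit 0) (nat_lit 3983284279) (nat_lit 5) (nat_lit 5) (nat_lit 7) (nat_lit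 4) (nat_lit 5) (nat_lit 4) (nat_lit 305) (nat_lit 212) (nat_lit 203)))))) (XT.nd (nat_lit 390) (nat_lit 152) (nat_lit 0) (XT.nd (nat_lit 156) (nat_lit 76) (nat_lit 0) (XT.nd (nat_lit 78) (nat_lit 0) (nat_lit 0) (XT.lf (nat_lit 0) (nat_lit 12426293264) (nat_lit 152) (nat_lit 17398696116) (nat_lit 0) (nat_lit 7973169544) (nat_lit 5) (nat_lit 5) (nat_lit 7) (nat_lit 4) (nat_lit 5) (nat_lit 4) (nat_lit 306) (nat_lit 212) (nat_lit 202)) (XT.lf (nat_lit 0) (nat_lit 16867573594) (nat_lit 152) (nat_lit 10607061994) (nat_lit 0) (nat_lit 12077265389) (nat_lit 5) (nat_lit 5) (nat_lit 7) (nat_lit 4) (nat_lit 5) (nat_lit 4) (nat_lit 307) (nat_lit 212) (nat_lit 201))) (XT.nd (nat_lit 78) (nat_lit 76) (nat_lit 0) (XT.lf (nat_lit 0) (nat_lit 21416779756) (nat_lit 152) (nat_lit 3674741796) (nat_lit 0) (nat_lit 16305343471) (nat_lit 5) (nat_lit 5) (nat_lit 7) (nat_lit 4) (nat_lit 5) (nat_lit 4) (nat_lit 308)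 (nat_lit 212) (nat_lit 200)) (XT.nd (nat_lit 78) (nat_lit 0) (nat_lit 0) (XT.lf (nat_lit 0) (nat_lit 3482730622) (nat_lit 76) (nat_lit 22635490709) (nat_lit 76) (nat_lit 17218218157) (nat_lit 4) (nat_lit 4) (nat_lit 5) (nat_lit 5) (nat_lit 5) (nat_lit 4) (nat_lit 309) (nat_lit 212) (nat_lit 199)) (XT.lf (nat_lit 0) (nat_lit 10890873361) (nat_lit 76) (nat_lit 20096394483) (nat_lit 76) (nat_lit 14387849296) (nat_lit 4) (nat_lit 4) (nat_lit 5) (nat_lit 5) (nat_lit 5) (nat_lit 4) (nat_lit 310) (nat_lit 212) (nat_lit 198))))) (XT.nd (nat_lit 234) (nat_lit 152) (nat_lit 0) (XT.nd (nat_lit 78) (nat_lit 0) (nat_lit 0) (XT.lf (nat_lit 0) (nat_lit 18494190288) (nat_lit 76) (nat_lit 17505295093) (nat_lit 76) (nat_lit 11519347396) (nat_lit 4) (nat_lit 4) (nat_lit 5) (nat_lit 5) (nat_lit 5) (nat_lit 4) (nat_lit 311) (nat_lit 212) (nat_lit 197)) (XT.nd (nat_lit 78) (nat_lit 0) (nat_lit 0) (XT.lf (nat_lit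 0) (nat_lit 26310784539) (nat_lit 76) (nat_lit 14856023255) (nat_lit 76) (nat_lit 8605882692) (nat_lit 4) (nat_lit 4) (nat_lit 5) (nat_lit 5) (nat_lit 5) (nat_lit 4) (nat_lit 312) (nat_lit 212) (nat_lit 196)) (XT.lf (nat_lit 0) (nat_lit 34359267053) (nat_lit 76) (nat_lit 12142271179) (nat_lit 76) (nat_lit 5640518362) (nat_lit 4) (nat_lit 4) (nat_lit 5) (nat_lit 5) (nat_lit 5) (nat_lit 4) (nat_lit 313) (nat_lit 212) (nat_lit 195)))) (XT.nd (nat_lit 78) (nat_lit 152) (nat_lit 0) (XT.lf (nat_lit 0) (nat_lit 42658800884) (nat_lit 76) (nat_lit 9357577550) (nat_lit 76) (nat_lit 2616194015) (nat_lit 4) (nat_lit 4) (nat_lit 5) (nat_lit 5) (nat_lit 5) (nat_lit 4) (nat_lit 314) (nat_lit 212) (nat_lit 194)) (XT.nd (nat_lit 78) (nat_lit 76) (nat_lit 0) (XT.lf (nat_lit 0) (nat_lit 465035991) (nat_lit 152) (nat_lit 6025580203) (nat_lit 76) (nat_lit 50759414882) (nat_lit 3) (nat_lit 5) (nat_lit 5) (nat_lit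 5) (nat_lit 4) (nat_lit 4) (nat_lit 315) (nat_lit 212) (nat_lit 193)) (XT.lf (nat_lit 0) (nat_lit 55749647) (nat_lit 76) (nat_lit 3512085346) (nat_lit 152) (nat_lit 56432174895) (nat_lit 2) (nat_lit 5) (nat_lit 3) (nat_lit 5) (nat_lit 4) (nat_lit 4) (nat_lit 316) (nat_lit 212) (nat_lit 192))))))) (XT.nd (nat_lit 780) (nat_lit 76) (nat_lit 0) (XT.nd (nat_lit 390) (nat_lit 0) (nat_lit 0) (XT.nd (nat_lit 156) (nat_lit 0) (nat_lit 0) (XT.nd (nat_lit 78) (nat_lit 0) (nat_lit 0) (XT.lf (nat_lit 0) (nat_lit 6432092881) (nat_lit 76) (nat_lit 378769333) (nat_lit 152) (nat_lit 56077142086) (nat_lit 2) (nat_lit 5) (nat_lit 3) (nat_lit 5) (nat_lit 4) (nat_lit 4) (nat_lit 317) (nat_lit 212) (nat_lit 191)) (XT.lf (nat_lit 0) (nat_lit 10170217926) (nat_lit 152) (nat_lit 52951405409) (nat_lit 0) (nat_lit 2800215791) (nat_lit 2) (nat_lit 5) (nat_lit 4) (nat_lit 4) (nat_lit 2) (nat_lit 4) (nat_lit 318) (nat_lit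 212) (nat_lit 190))) (XT.nd (nat_lit 78) (nat_lit 0) (nat_lit 0) (XT.lf (nat_lit 0) (nat_lit 13631071839) (nat_lit 152) (nat_lit 49399569391) (nat_lit 0) (nat_lit 6078781414) (nat_lit 2) (nat_lit 5) (nat_lit 4) (nat_lit 4) (nat_lit 2) (nat_lit 4) (nat_lit 319) (nat_lit 212) (nat_lit 189)) (XT.nd (nat_lit 78) (nat_lit 0) (nat_lit 0) (XT.lf (nat_lit 0) (nat_lit 17198023118) (nat_lit 152) (nat_lit 45788305651) (nat_lit 0) (nat_lit 9472124799) (nat_lit 2) (nat_lit 5) (nat_lit 4) (nat_lit 4) (nat_lit 2) (nat_lit 4) (nat_lit 320) (nat_lit 212) (nat_lit 188)) (XT.lf (nat_lit 0) (nat_lit 20879564505) (nat_lit 152) (nat_lit 42109015942) (nat_lit 0) (nat_lit 12988325335) (nat_lit 2) (nat_lit 5) (nat_lit 4) (nat_lit 4) (nat_lit 2) (nat_lit 4) (nat_lit 321) (nat_lit 212) (nat_lit 187))))) (XT.nd (nat_lit 156) (nat_lit 0) (nat_lit 0) (XT.nd (nat_lit 78) (nat_lit 0) (nat_lit 0) (XT.lf (nat_lit 0) (nat_lit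 24684461575) (nat_lit 152) (nat_lit 38352940051) (nat_lit 0) (nat_lit 16635754926) (nat_lit 2) (nat_lit 5) (nat_lit 4) (nat_lit 4) (nat_lit 2) (nat_lit 4) (nat_lit 322) (nat_lit 212) (nat_lit 186)) (XT.lf (nat_lit 0) (nat_lit 28621773606) (nat_lit 152) (nat_lit 34511134939) (nat_lit 0) (nat_lit 20423097931) (nat_lit 2) (nat_lit 5) (nat_lit 4) (nat_lit 4) (nat_lit 2) (nat_lit 4) (nat_lit 323) (nat_lit 212) (nat_lit 185))) (XT.nd (nat_lit 78) (nat_lit 0) (nat_lit 0) (XT.lf (nat_lit 0) (nat_lit 32700875151) (nat_lit 152) (nat_lit 30574453452) (nat_lit 0) (nat_lit 24359371831) (nat_lit 2) (nat_lit 5) (nat_lit 4) (nat_lit 4) (nat_lit 2) (nat_lit 4) (nat_lit 324) (nat_lit 212) (nat_lit 184)) (XT.nd (nat_lit 78) (nat_lit 0) (nat_lit 0) (XT.lf (nat_lit 0) (nat_lit 36931478356) (nat_lit 152) (nat_lit 26533522539) (nat_lit 0) (nat_lit 28453948708) (nat_lit 2) (nat_lit 5) (nat_lit 4) (nat_lit 4) (nat_lit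 2) (nat_lit 4) (nat_lit 325) (nat_lit 212) (nat_lit 183)) (XT.lf (nat_lit 0) (nat_lit 41323656086) (nat_lit 152) (nat_lit 22378720935) (nat_lit 0) (nat_lit 32716577554) (nat_lit 2) (nat_lit 5) (nat_lit 4) (nat_lit 4) (nat_lit 2) (nat_lit 4) (nat_lit 326) (nat_lit 212) (nat_lit 182)))))) (XT.nd (nat_lit 390) (nat_lit 0) (nat_lit 0) (XT.nd (nat_lit 156) (nat_lit 76) (nat_lit 0) (XT.nd (nat_lit 78) (nat_lit 0) (nat_lit 0) (XT.lf (nat_lit 0) (nat_lit 45887865907) (nat_lit 152) (nat_lit 18100156256) (nat_lit 0) (nat_lit 37157407486) (nat_lit 2) (nat_lit 5) (nat_lit 4) (nat_lit 4) (nat_lit 2) (nat_lit 4) (nat_lit 327) (nat_lit 212) (nat_lit 181)) (XT.lf (nat_lit 0) (nat_lit 50634974985) (nat_lit 152) (nat_lit 13687641442) (nat_lit 0) (nat_lit 41787011908) (nat_lit 2) (nat_lit 5) (nat_lit 4) (nat_lit 4) (nat_lit 2) (nat_lit 4) (nat_lit 328) (nat_lit 212) (nat_lit 180))) (XT.nd (nat_lit 78) (nat_lit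 76) (nat_lit 0) (XT.lf (nat_lit 0) (nat_lit 55576285962) (nat_lit 152) (nat_lit 9130670507) (nat_lit 0) (nat_lit 46616413688) (nat_lit 2) (nat_lit 5) (nat_lit 4) (nat_lit 4) (nat_lit 2) (nat_lit 4) (nat_lit 329) (nat_lit 212) (nat_lit 179)) (XT.nd (nat_lit 78) (nat_lit 76) (nat_lit 0) (XT.lf (nat_lit 0) (nat_lit 60723563862) (nat_lit 152) (nat_lit 4418393519) (nat_lit 0) (nat_lit 51657111401) (nat_lit 2) (nat_lit 5) (nat_lit 4) (nat_lit 4) (nat_lit 2) (nat_lit 4) (nat_lit 330) (nat_lit 212) (nat_lit 178)) (XT.lf (nat_lit 0) (nat_lit 469572274) (nat_lit 76) (nat_lit 65624005652) (nat_lit 76) (nat_lit 56456048251) (nat_lit 1) (nat_lit 4) (nat_lit 2) (nat_lit 5) (nat_lit 2) (nat_lit 4) (nat_lit 331) (nat_lit 212) (nat_lit 177))))) (XT.nd (nat_lit 34632) (nat_lit 0) (nat_lit 532) (XT.nd (nat_lit 156) (nat_lit 0) (nat_lit 0) (XT.lf (nat_lit 0) (nat_lit 5627160093) (nat_lit 76) (nat_lit 66112493318)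 (nat_lit 76) (nat_lit 56847864546) (nat_lit 1) (nat_lit 4) (nat_lit 2) (nat_lit 5) (nat_lit 2) (nat_lit 4) (nat_lit 332) (nat_lit 212) (nat_lit 176)) (XT.nd (nat_lit 34398) (nat_lit 0) (nat_lit 836) (XT.lf (nat_lit 0) (nat_lit 16536979436) (nat_lit 76) (nat_lit 67247414768) (nat_lit 76) (nat_lit 57803034238) (nat_lit 1) (nat_lit 4) (nat_lit 2) (nat_lit 5) (nat_lit 2) (nat_lit 4) (nat_lit 334) (nat_lit 212) (nat_lit 174)) (XT.lf (nat_lit 0) (nat_lit 5230817518) (nat_lit 152) (nat_lit 771408274) (nat_lit 0) (nat_lit 5230817518) (nat_lit 12) (nat_lit 5) (nat_lit 14) (nat_lit 4) (nat_lit 12) (nat_lit 4) (nat_lit 294) (nat_lit 213) (nat_lit 213)))) (XT.nd (nat_lit 78) (nat_lit 152) (nat_lit 0) (XT.lf (nat_lit 0) (nat_lit 8009910581) (nat_lit 152) (nat_lit 8007335902) (nat_lit 152) (nat_lit 7395514984) (nat_lit 10) (nat_lit 4) (nat_lit 12) (nat_lit 5) (nat_lit 12) (nat_lit 4) (nat_lit 295) (nat_lit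 213) (nat_lit 212)) (XT.nd (nat_lit 78) (nat_lit 152) (nat_lit 0) (XT.lf (nat_lit 0) (nat_lit 17768254457) (nat_lit 152) (nat_lit 3919061858) (nat_lit 152) (nat_lit 2724554351) (nat_lit 10) (nat_lit 4) (nat_lit 12) (nat_lit 5) (nat_lit 12) (nat_lit 4) (nat_lit 296) (nat_lit 213) (nat_lit 211)) (XT.lf (nat_lit 0) (nat_lit 1989675521) (nat_lit 152) (nat_lit 23184065980) (nat_lit 0) (nat_lit 291183176) (nat_lit 8) (nat_lit 5) (nat_lit 10) (nat_lit 4) (nat_lit 8) (nat_lit 4) (nat_lit 297) (nat_lit 213) (nat_lit 210))))))))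
noncomputable def xc9 : XT := (XT.nd (nat_lit 1638) (nat_lit 76) (nat_lit 0) (XT.nd (nat_lit 780) (nat_lit 228) (nat_lit 0) (XT.nd (nat_lit 390) (nat_lit 152) (nat_lit 0) (XT.nd (nat_lit 156) (nat_lit 76) (nat_lit 0) (XT.nd (nat_lit 78) (nat_lit 0) (nat_lit 0) (XT.lf (nat_lit 0) (nat_lit 6824211754) (nat_lit 152) (nat_lit 15134959925) (nat_lit 0) (nat_lit 4612599105) (nat_lit 8) (nat_lit 5) (nat_lit 10) (nat_lit 4) (nat_lit 8) (nat_lit 4) (nat_lit 298) (nat_lit 213) (nat_lit 209)) (XT.lf (nat_lit 0) (nat_lit 11740280218) (nat_lit 152) (nat_lit 6958671778) (nat_lit 0) (nat_lit 9039981566) (nat_lit 8) (nat_lit 5) (nat_lit 10) (nat_lit 4) (nat_lit 8) (nat_lit 4) (nat_lit 299) (nat_lit 213) (nat_lit 208))) (XT.nd (nat_lit 78) (nat_lit 0) (nat_lit 0) (XT.lf (nat_lit 0) (nat_lit 1391417377) (nat_lit 76) (nat_lit 15371543616) (nat_lit 76) (nat_lit 12205829723) (nat_lit 7) (nat_lit 4) (nat_lit 8)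 (nat_lit 5) (nat_lit 8) (nat_lit 4) (nat_lit 300) (nat_lit 213) (nat_lit 207)) (XT.nd (nat_lit 78) (nat_lit 0) (nat_lit 0) (XT.lf (nat_lit 0) (nat_lit 10049776709) (nat_lit 76) (nat_lit 11910883427) (nat_lit 76) (nat_lit 8301916923) (nat_lit 7) (nat_lit 4) (nat_lit 8) (nat_lit 5) (nat_lit 8) (nat_lit 4) (nat_lit 301) (nat_lit 213) (nat_lit 206)) (XT.lf (nat_lit 0) (nat_lit 18898530144) (nat_lit 76) (nat_lit 8379000702) (nat_lit 76) (nat_lit 4347888854) (nat_lit 7) (nat_lit 4) (nat_lit 8) (nat_lit 5) (nat_lit 8) (nat_lit 4) (nat_lit 302) (nat_lit 213) (nat_lit 205))))) (XT.nd (nat_lit 156) (nat_lit 0) (nat_lit 0) (XT.nd (nat_lit 78) (nat_lit 152) (nat_lit 0) (XT.lf (nat_lit 0) (nat_lit 27958746143) (nat_lit 76) (nat_lit 4767486197) (nat_lit 76) (nat_lit 334331165) (nat_lit 7) (nat_lit 4) (nat_lit 8) (nat_lit 5) (nat_lit 8) (nat_lit 4) (nat_lit 303) (nat_lit 213) (nat_lit 204)) (XT.lf (nat_lit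 0) (nat_lit 2697171629) (nat_lit 76) (nat_lit 1003924396) (nat_lit 152) (nat_lit 30868470719) (nat_lit 5) (nat_lit 5) (nat_lit 6) (nat_lit 5) (nat_lit 7) (nat_lit 4) (nat_lit 304) (nat_lit 213) (nat_lit 203))) (XT.nd (nat_lit 78) (nat_lit 0) (nat_lit 0) (XT.lf (nat_lit 0) (nat_lit 7886981924) (nat_lit 152) (nat_lit 25411234645) (nat_lit 0) (nat_lit 2857158309) (nat_lit 5) (nat_lit 5) (nat_lit 7) (nat_lit 4) (nat_lit 5) (nat_lit 4) (nat_lit 305) (nat_lit 213) (nat_lit 202)) (XT.nd (nat_lit 78) (nat_lit 0) (nat_lit 0) (XT.lf (nat_lit 0) (nat_lit 12172449877) (nat_lit 152) (nat_lit 18845989415) (nat_lit 0) (nat_lit 6805441778) (nat_lit 5) (nat_lit 5) (nat_lit 7) (nat_lit 4) (nat_lit 5) (nat_lit 4) (nat_lit 306) (nat_lit 213) (nat_lit 201)) (XT.lf (nat_lit 0) (nat_lit 16558053043) (nat_lit 152) (nat_lit 12151377551) (nat_lit 0) (nat_lit 10869916864) (nat_lit 5) (nat_lit 5) (nat_lit 7) (nat_lit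 4) (nat_lit 5) (nat_lit 4) (nat_lit 307) (nat_lit 213) (nat_lit 200)))))) (XT.nd (nat_lit 390) (nat_lit 152) (nat_lit 0) (XT.nd (nat_lit 156) (nat_lit 0) (nat_lit 0) (XT.nd (nat_lit 78) (nat_lit 76) (nat_lit 0) (XT.lf (nat_lit 0) (nat_lit 21054233336) (nat_lit 152) (nat_lit 5311459503) (nat_lit 0) (nat_lit 15060260890) (nat_lit 5) (nat_lit 5) (nat_lit 7) (nat_lit 4) (nat_lit 5) (nat_lit 4) (nat_lit 308) (nat_lit 213) (nat_lit 199)) (XT.lf (nat_lit 0) (nat_lit 1723685561) (nat_lit 76) (nat_lit 23964579505) (nat_lit 76) (nat_lit 17679334423) (nat_lit 4) (nat_lit 4) (nat_lit 5) (nat_lit 5) (nat_lit 5) (nat_lit 4) (nat_lit 309) (nat_lit 213) (nat_lit 198))) (XT.nd (nat_lit 78) (nat_lit 0) (nat_lit 0) (XT.lf (nat_lit 0) (nat_lit 9046348813) (nat_lit 76) (nat_lit 21462045058) (nat_lit 76) (nat_lit 14899397466) (nat_lit 4) (nat_lit 4) (nat_lit 5) (nat_lit 5) (nat_lit 5) (nat_lit 4) (nat_lit 310)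 (nat_lit 213) (nat_lit 197)) (XT.nd (nat_lit 78) (nat_lit 0) (nat_lit 0) (XT.lf (nat_lit 0) (nat_lit 16568256705) (nat_lit 76) (nat_lit 18905766410) (nat_lit 76) (nat_lit 12078925952) (nat_lit 4) (nat_lit 4) (nat_lit 5) (nat_lit 5) (nat_lit 5) (nat_lit 4) (nat_lit 311) (nat_lit 213) (nat_lit 196)) (XT.lf (nat_lit 0) (nat_lit 24307318542) (nat_lit 76) (nat_lit 16289657184) (nat_lit 76) (nat_lit 9211204472) (nat_lit 4) (nat_lit 4) (nat_lit 5) (nat_lit 5) (nat_lit 5) (nat_lit 4) (nat_lit 312) (nat_lit 213) (nat_lit 195))))) (XT.nd (nat_lit 234) (nat_lit 152) (nat_lit 0) (XT.nd (nat_lit 78) (nat_lit 0) (nat_lit 0) (XT.lf (nat_lit 0) (nat_lit 32281960661) (nat_lit 76) (nat_lit 13607488547) (nat_lit 76) (nat_lit 6289405118) (nat_lit 4) (nat_lit 4) (nat_lit 5) (nat_lit 5) (nat_lit 5) (nat_lit 4) (nat_lit 313) (nat_lit 213) (nat_lit 194)) (XT.nd (nat_lit 78) (nat_lit 0) (nat_lit 0) (XT.lf (nat_lit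 0) (nat_lit 40511170306) (nat_lit 76) (nat_lit 10852874385) (nat_lit 76) (nat_lit 3306571224) (nat_lit 4) (nat_lit 4) (nat_lit 5) (nat_lit 5) (nat_lit 5) (nat_lit 4) (nat_lit 314) (nat_lit 213) (nat_lit 193)) (XT.lf (nat_lit 0) (nat_lit 49014540833) (nat_lit 76) (nat_lit 8019256092) (nat_lit 76) (nat_lit 255600806) (nat_lit 4) (nat_lit 4) (nat_lit 5) (nat_lit 5) (nat_lit 5) (nat_lit 4) (nat_lit 315) (nat_lit 213) (nat_lit 192)))) (XT.nd (nat_lit 78) (nat_lit 76) (nat_lit 0) (XT.lf (nat_lit 0) (nat_lit 2814751281) (nat_lit 152) (nat_lit 2256712207) (nat_lit 76) (nat_lit 54969143610) (nat_lit 3) (nat_lit 5) (nat_lit 5) (nat_lit 5) (nat_lit 4) (nat_lit 4) (nat_lit 316) (nat_lit 213) (nat_lit 191)) (XT.nd (nat_lit 78) (nat_lit 0) (nat_lit 0) (XT.lf (nat_lit 0) (nat_lit 4012014189) (nat_lit 76) (nat_lit 1987895309) (nat_lit 152) (nat_lit 56930460281) (nat_lit 2) (nat_lit 5) (nat_lit 3) (nat_lit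 5) (nat_lit 4) (nat_lit 4) (nat_lit 317) (nat_lit 213) (nat_lit 190)) (XT.lf (nat_lit 0) (nat_lit 9309508237) (nat_lit 152) (nat_lit 55458904741) (nat_lit 0) (nat_lit 1197315002) (nat_lit 2) (nat_lit 5) (nat_lit 4) (nat_lit 4) (nat_lit 2) (nat_lit 4) (nat_lit 318) (nat_lit 213) (nat_lit 189))))))) (XT.nd (nat_lit 858) (nat_lit 76) (nat_lit 0) (XT.nd (nat_lit 390) (nat_lit 0) (nat_lit 0) (XT.nd (nat_lit 156) (nat_lit 0) (nat_lit 0) (XT.nd (nat_lit 78) (nat_lit 0) (nat_lit 0) (XT.lf (nat_lit 0) (nat_lit 12737705891) (nat_lit 152) (nat_lit 51964709737) (nat_lit 0) (nat_lit 4451904762) (nat_lit 2) (nat_lit 5) (nat_lit 4) (nat_lit 4) (nat_lit 2) (nat_lit 4) (nat_lit 319) (nat_lit 213) (nat_lit 188)) (XT.lf (nat_lit 0) (nat_lit 16273555972) (nat_lit 152) (nat_lit 48408342201) (nat_lit 0) (nat_lit 7822413991) (nat_lit 2) (nat_lit 5) (nat_lit 4) (nat_lit 4) (nat_lit 2) (nat_lit 4) (nat_lit 320)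 (nat_lit 213) (nat_lit 187))) (XT.nd (nat_lit 78) (nat_lit 0) (nat_lit 0) (XT.lf (nat_lit 0) (nat_lit 19925477171) (nat_lit 152) (nat_lit 44781334592) (nat_lit 0) (nat_lit 11316867712) (nat_lit 2) (nat_lit 5) (nat_lit 4) (nat_lit 4) (nat_lit 2) (nat_lit 4) (nat_lit 321) (nat_lit 213) (nat_lit 186)) (XT.nd (nat_lit 78) (nat_lit 0) (nat_lit 0) (XT.lf (nat_lit 0) (nat_lit 23702164537) (nat_lit 152) (nat_lit 41075051176) (nat_lit 0) (nat_lit 14943586052) (nat_lit 2) (nat_lit 5) (nat_lit 4) (nat_lit 4) (nat_lit 2) (nat_lit 4) (nat_lit 322) (nat_lit 213) (nat_lit 185)) (XT.lf (nat_lit 0) (nat_lit 27612610184) (nat_lit 152) (nat_lit 37280667469) (nat_lit 0) (nat_lit 18711204054) (nat_lit 2) (nat_lit 5) (nat_lit 4) (nat_lit 4) (nat_lit 2) (nat_lit 4) (nat_lit 323) (nat_lit 213) (nat_lit 184))))) (XT.nd (nat_lit 234) (nat_lit 0) (nat_lit 0) (XT.nd (nat_lit 78) (nat_lit 0) (nat_lit 0) (XT.lf (nat_lit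 0) (nat_lit 31666124696) (nat_lit 152) (nat_lit 33389149225) (nat_lit 0) (nat_lit 22628692238) (nat_lit 2) (nat_lit 5) (nat_lit 4) (nat_lit 4) (nat_lit 2) (nat_lit 4) (nat_lit 324) (nat_lit 213) (nat_lit 183)) (XT.nd (nat_lit 78) (nat_lit 0) (nat_lit 0) (XT.lf (nat_lit 0) (nat_lit 35872359298) (nat_lit 152) (nat_lit 29391230924) (nat_lit 0) (nat_lit 26705377957) (nat_lit 2) (nat_lit 5) (nat_lit 4) (nat_lit 4) (nat_lit 2) (nat_lit 4) (nat_lit 325) (nat_lit 213) (nat_lit 182)) (XT.lf (nat_lit 0) (nat_lit 40241328835) (nat_lit 152) (nat_lit 25277393713) (nat_lit 0) (nat_lit 30950967605) (nat_lit 2) (nat_lit 5) (nat_lit 4) (nat_lit 4) (nat_lit 2) (nat_lit 4) (nat_lit 326) (nat_lit 213) (nat_lit 181)))) (XT.nd (nat_lit 78) (nat_lit 0) (nat_lit 0) (XT.lf (nat_lit 0) (nat_lit 44783435616) (nat_lit 152) (nat_lit 21037842740) (nat_lit 0) (nat_lit 35375569728) (nat_lit 2) (nat_lit 5) (nat_lit 4) (nat_lit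 4) (nat_lit 2) (nat_lit 4) (nat_lit 327) (nat_lit 213) (nat_lit 180)) (XT.nd (nat_lit 78) (nat_lit 0) (nat_lit 0) (XT.lf (nat_lit 0) (nat_lit 49509494179) (nat_lit 152) (nat_lit 16662483839) (nat_lit 0) (nat_lit 39989719095) (nat_lit 2) (nat_lit 5) (nat_lit 4) (nat_lit 4) (nat_lit 2) (nat_lit 4) (nat_lit 328) (nat_lit 213) (nat_lit 179)) (XT.lf (nat_lit 0) (nat_lit 54430757046) (nat_lit 152) (nat_lit 12140899486) (nat_lit 0) (nat_lit 44804401774) (nat_lit 2) (nat_lit 5) (nat_lit 4) (nat_lit 4) (nat_lit 2) (nat_lit 4) (nat_lit 329) (nat_lit 213) (nat_lit 178)))))) (XT.nd (nat_lit 34632) (nat_lit 0) (nat_lit 532) (XT.nd (nat_lit 156) (nat_lit 76) (nat_lit 0) (XT.nd (nat_lit 78) (nat_lit 0) (nat_lit 0) (XT.lf (nat_lit 0) (nat_lit 59558941508) (nat_lit 152) (nat_lit 7462324005) (nat_lit 0) (nat_lit 49831081297) (nat_lit 2) (nat_lit 5) (nat_lit 4) (nat_lit 4) (nat_lit 2) (nat_lit 4) (nat_lit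 330) (nat_lit 213) (nat_lit 177)) (XT.lf (nat_lit 0) (nat_lit 64906257530) (nat_lit 152) (nat_lit 2615617931) (nat_lit 0) (nat_lit 55081725947) (nat_lit 2) (nat_lit 5) (nat_lit 4) (nat_lit 4) (nat_lit 2) (nat_lit 4) (nat_lit 331) (nat_lit 213) (nat_lit 176))) (XT.nd (nat_lit 156) (nat_lit 0) (nat_lit 0) (XT.lf (nat_lit 0) (nat_lit 2458737333) (nat_lit 76) (nat_lit 68050334370) (nat_lit 76) (nat_lit 58133734814) (nat_lit 1) (nat_lit 4) (nat_lit 2) (nat_lit 5) (nat_lit 2) (nat_lit 4) (nat_lit 332) (nat_lit 213) (nat_lit 175)) (XT.nd (nat_lit 34242) (nat_lit 0) (nat_lit 836) (XT.lf (nat_lit 0) (nat_lit 13310586527) (nat_lit 76) (nat_lit 69210466876) (nat_lit 76) (nat_lit 59122675170) (nat_lit 1) (nat_lit 4) (nat_lit 2) (nat_lit 5) (nat_lit 2) (nat_lit 4) (nat_lit 334) (nat_lit 213) (nat_lit 173)) (XT.lf (nat_lit 0) (nat_lit 241299311) (nat_lit 152) (nat_lit 9874933065) (nat_lit 0) (nat_lit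 241299311) (nat_lit 12) (nat_lit 5) (nat_lit 14) (nat_lit 4) (nat_lit 12) (nat_lit 4) (nat_lit 292) (nat_lit 214) (nat_lit 214))))) (XT.nd (nat_lit 234) (nat_lit 152) (nat_lit 0) (XT.nd (nat_lit 78) (nat_lit 152) (nat_lit 0) (XT.lf (nat_lit 0) (nat_lit 5710038765) (nat_lit 152) (nat_lit 10790115398) (nat_lit 0) (nat_lit 5067626801) (nat_lit 12) (nat_lit 5) (nat_lit 14) (nat_lit 4) (nat_lit 12) (nat_lit 4) (nat_lit 293) (nat_lit 214) (nat_lit 213)) (XT.nd (nat_lit 78) (nat_lit 152) (nat_lit 0) (XT.lf (nat_lit 0) (nat_lit 11013757556) (nat_lit 152) (nat_lit 1695615996) (nat_lit 0) (nat_lit 9759524674) (nat_lit 12) (nat_lit 5) (nat_lit 14) (nat_lit 4) (nat_lit 12) (nat_lit 4) (nat_lit 294) (nat_lit 214) (nat_lit 212)) (XT.lf (nat_lit 0) (nat_lit 7705650642) (nat_lit 152) (nat_lit 8774803682) (nat_lit 152) (nat_lit 6937884211) (nat_lit 10) (nat_lit 4) (nat_lit 12) (nat_lit 5) (nat_lit 12) (nat_lit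 4) (nat_lit 295) (nat_lit 214) (nat_lit 211)))) (XT.nd (nat_lit 78) (nat_lit 152) (nat_lit 0) (XT.lf (nat_lit 0) (nat_lit 17322642631) (nat_lit 152) (nat_lit 4744627578) (nat_lit 152) (nat_lit 2352768498) (nat_lit 10) (nat_lit 4) (nat_lit 12) (nat_lit 5) (nat_lit 12) (nat_lit 4) (nat_lit 296) (nat_lit 214) (nat_lit 210)) (XT.nd (nat_lit 78) (nat_lit 0) (nat_lit 0) (XT.lf (nat_lit 0) (nat_lit 1678327913) (nat_lit 76) (nat_lit 587041990) (nat_lit 152) (nat_lit 23210367017) (nat_lit 8) (nat_lit 5) (nat_lit 9) (nat_lit 5) (nat_lit 10) (nat_lit 4) (nat_lit 297) (nat_lit 214) (nat_lit 209)) (XT.lf (nat_lit 0) (nat_lit 7016119432) (nat_lit 152) (nat_lit 15876939562) (nat_lit 0) (nat_lit 3692119844) (nat_lit 8) (nat_lit 5) (nat_lit 10) (nat_lit 4) (nat_lit 8) (nat_lit 4) (nat_lit 298) (nat_lit 214) (nat_lit 208))))))))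
noncomputable def xc10 : XT := (XT.nd (nat_lit 1638) (nat_lit 76) (nat_lit 0) (XT.nd (nat_lit 780) (nat_lit 228) (nat_lit 0) (XT.nd (nat_lit 390) (nat_lit 152) (nat_lit 0) (XT.nd (nat_lit 156) (nat_lit 0) (nat_lit 0) (XT.nd (nat_lit 78) (nat_lit 76) (nat_lit 0) (XT.lf (nat_lit 0) (nat_lit 11857765327) (nat_lit 152) (nat_lit 7828536762) (nat_lit 0) (nat_lit 8068350498) (nat_lit 8) (nat_lit 5) (nat_lit 10) (nat_lit 4) (nat_lit 8) (nat_lit 4) (nat_lit 299) (nat_lit 214) (nat_lit 207)) (XT.lf (nat_lit 0) (nat_lit 380020835) (nat_lit 76) (nat_lit 16419824468) (nat_lit 76) (nat_lit 12187157028) (nat_lit 7) (nat_lit 4) (nat_lit 8) (nat_lit 5) (nat_lit 8) (nat_lit 4) (nat_lit 300) (nat_lit 214) (nat_lit 206))) (XT.nd (nat_lit 78) (nat_lit 0) (nat_lit 0) (XT.lf (nat_lit 0) (nat_lit 8920075843) (nat_lit 76) (nat_lit 13008827925) (nat_lit 76) (nat_lit 8354015141) (nat_lit 7) (nat_lit 4) (nat_lit 8)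 (nat_lit 5) (nat_lit 8) (nat_lit 4) (nat_lit 301) (nat_lit 214) (nat_lit 205)) (XT.nd (nat_lit 78) (nat_lit 0) (nat_lit 0) (XT.lf (nat_lit 0) (nat_lit 17656158494) (nat_lit 76) (nat_lit 9524243910) (nat_lit 76) (nat_lit 4467387942) (nat_lit 7) (nat_lit 4) (nat_lit 8) (nat_lit 5) (nat_lit 8) (nat_lit 4) (nat_lit 302) (nat_lit 214) (nat_lit 204)) (XT.lf (nat_lit 0) (nat_lit 26609068984) (nat_lit 76) (nat_lit 5957775796) (nat_lit 76) (nat_lit 518021557) (nat_lit 7) (nat_lit 4) (nat_lit 8) (nat_lit 5) (nat_lit 8) (nat_lit 4) (nat_lit 303) (nat_lit 214) (nat_lit 203))))) (XT.nd (nat_lit 156) (nat_lit 0) (nat_lit 0) (XT.nd (nat_lit 78) (nat_lit 0) (nat_lit 0) (XT.lf (nat_lit 0) (nat_lit 1192140568) (nat_lit 76) (nat_lit 2254440627) (nat_lit 152) (nat_lit 31149633179) (nat_lit 5) (nat_lit 5) (nat_lit 6) (nat_lit 5) (nat_lit 7) (nat_lit 4) (nat_lit 304) (nat_lit 214) (nat_lit 202)) (XT.lf (nat_lit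 0) (nat_lit 7561985346) (nat_lit 152) (nat_lit 27032765980) (nat_lit 0) (nat_lit 1589442358) (nat_lit 5) (nat_lit 5) (nat_lit 7) (nat_lit 4) (nat_lit 5) (nat_lit 4) (nat_lit 305) (nat_lit 214) (nat_lit 201))) (XT.nd (nat_lit 78) (nat_lit 0) (nat_lit 0) (XT.lf (nat_lit 0) (nat_lit 11791776136) (nat_lit 152) (nat_lit 20564543007) (nat_lit 0) (nat_lit 5498105067) (nat_lit 5) (nat_lit 5) (nat_lit 7) (nat_lit 4) (nat_lit 5) (nat_lit 4) (nat_lit 306) (nat_lit 214) (nat_lit 200)) (XT.nd (nat_lit 78) (nat_lit 0) (nat_lit 0) (XT.lf (nat_lit 0) (nat_lit 16124353433) (nat_lit 152) (nat_lit 13962333294) (nat_lit 0) (nat_lit 9524846098) (nat_lit 5) (nat_lit 5) (nat_lit 7) (nat_lit 4) (nat_lit 5) (nat_lit 4) (nat_lit 307) (nat_lit 214) (nat_lit 199)) (XT.lf (nat_lit 0) (nat_lit 20570032898) (nat_lit 152) (nat_lit 7210417295) (nat_lit 0) (nat_lit 13679252927) (nat_lit 5) (nat_lit 5) (nat_lit 7) (nat_lit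 4) (nat_lit 5) (nat_lit 4) (nat_lit 308) (nat_lit 214) (nat_lit 198)))))) (XT.nd (nat_lit 390) (nat_lit 152) (nat_lit 0) (XT.nd (nat_lit 156) (nat_lit 0) (nat_lit 0) (XT.nd (nat_lit 78) (nat_lit 76) (nat_lit 0) (XT.lf (nat_lit 0) (nat_lit 25139399482) (nat_lit 152) (nat_lit 292719017) (nat_lit 0) (nat_lit 17971217001) (nat_lit 5) (nat_lit 5) (nat_lit 7) (nat_lit 4) (nat_lit 5) (nat_lit 4) (nat_lit 309) (nat_lit 214) (nat_lit 197)) (XT.lf (nat_lit 0) (nat_lit 6942709516) (nat_lit 76) (nat_lit 22967360683) (nat_lit 76) (nat_lit 15534985336) (nat_lit 4) (nat_lit 4) (nat_lit 5) (nat_lit 5) (nat_lit 5) (nat_lit 4) (nat_lit 310) (nat_lit 214) (nat_lit 196))) (XT.nd (nat_lit 78) (nat_lit 0) (nat_lit 0) (XT.lf (nat_lit 0) (nat_lit 14387084993) (nat_lit 76) (nat_lit 20444244647) (nat_lit 76) (nat_lit 12760257046) (nat_lit 4) (nat_lit 4) (nat_lit 5) (nat_lit 5) (nat_lit 5) (nat_lit 4) (nat_lit 311)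 (nat_lit 214) (nat_lit 195)) (XT.nd (nat_lit 78) (nat_lit 0) (nat_lit 0) (XT.lf (nat_lit 0) (nat_lit 22052306435) (nat_lit 76) (nat_lit 17859718860) (nat_lit 76) (nat_lit 9936100541) (nat_lit 4) (nat_lit 4) (nat_lit 5) (nat_lit 5) (nat_lit 5) (nat_lit 4) (nat_lit 312) (nat_lit 214) (nat_lit 194)) (XT.lf (nat_lit 0) (nat_lit 29956624369) (nat_lit 76) (nat_lit 15207629690) (nat_lit 76) (nat_lit 7055791640) (nat_lit 4) (nat_lit 4) (nat_lit 5) (nat_lit 5) (nat_lit 5) (nat_lit 4) (nat_lit 313) (nat_lit 214) (nat_lit 193))))) (XT.nd (nat_lit 234) (nat_lit 76) (nat_lit 0) (XT.nd (nat_lit 78) (nat_lit 76) (nat_lit 0) (XT.lf (nat_lit 0) (nat_lit 38118858599) (nat_lit 76) (nat_lit 12481662639) (nat_lit 76) (nat_lit 4112472463) (nat_lit 4) (nat_lit 4) (nat_lit 5) (nat_lit 5) (nat_lit 5) (nat_lit 4) (nat_lit 314) (nat_lit 214) (nat_lit 192)) (XT.nd (nat_lit 78) (nat_lit 76) (nat_lit 0) (XT.lf (nat_lit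 0) (nat_lit 46558443016) (nat_lit 76) (nat_lit 9675327308) (nat_lit 76) (nat_lit 1099135109) (nat_lit 4) (nat_lit 4) (nat_lit 5) (nat_lit 5) (nat_lit 5) (nat_lit 4) (nat_lit 315) (nat_lit 214) (nat_lit 191)) (XT.lf (nat_lit 0) (nat_lit 1952535745) (nat_lit 152) (nat_lit 4809689420) (nat_lit 76) (nat_lit 53323219341) (nat_lit 3) (nat_lit 5) (nat_lit 5) (nat_lit 5) (nat_lit 4) (nat_lit 4) (nat_lit 316) (nat_lit 214) (nat_lit 190)))) (XT.nd (nat_lit 78) (nat_lit 0) (nat_lit 0) (XT.lf (nat_lit 0) (nat_lit 1348509782) (nat_lit 76) (nat_lit 3730112731) (nat_lit 152) (nat_lit 57898387482) (nat_lit 2) (nat_lit 5) (nat_lit 3) (nat_lit 5) (nat_lit 4) (nat_lit 4) (nat_lit 317) (nat_lit 214) (nat_lit 189)) (XT.nd (nat_lit 78) (nat_lit 0) (nat_lit 0) (XT.lf (nat_lit 0) (nat_lit 7798535135) (nat_lit 76) (nat_lit 545526533) (nat_lit 152) (nat_lit 57669660520) (nat_lit 2) (nat_lit 5) (nat_lit 3) (nat_lit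 5) (nat_lit 4) (nat_lit 4) (nat_lit 318) (nat_lit 214) (nat_lit 188)) (XT.lf (nat_lit 0) (nat_lit 11735914190) (nat_lit 152) (nat_lit 54770644319) (nat_lit 0) (nat_lit 2696874258) (nat_lit 2) (nat_lit 5) (nat_lit 4) (nat_lit 4) (nat_lit 2) (nat_lit 4) (nat_lit 319) (nat_lit 214) (nat_lit 187))))))) (XT.nd (nat_lit 780) (nat_lit 76) (nat_lit 0) (XT.nd (nat_lit 390) (nat_lit 0) (nat_lit 0) (XT.nd (nat_lit 156) (nat_lit 0) (nat_lit 0) (XT.nd (nat_lit 78) (nat_lit 0) (nat_lit 0) (XT.lf (nat_lit 0) (nat_lit 15242144083) (nat_lit 152) (nat_lit 51266558882) (nat_lit 0) (nat_lit 6045636673) (nat_lit 2) (nat_lit 5) (nat_lit 4) (nat_lit 4) (nat_lit 2) (nat_lit 4) (nat_lit 320) (nat_lit 214) (nat_lit 186)) (XT.lf (nat_lit 0) (nat_lit 18865855577) (nat_lit 152) (nat_lit 47689343748) (nat_lit 0) (nat_lit 9519379141) (nat_lit 2) (nat_lit 5) (nat_lit 4) (nat_lit 4) (nat_lit 2) (nat_lit 4) (nat_lit 321)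 (nat_lit 214) (nat_lit 185))) (XT.nd (nat_lit 78) (nat_lit 0) (nat_lit 0) (XT.lf (nat_lit 0) (nat_lit 22615676559) (nat_lit 152) (nat_lit 44030481737) (nat_lit 0) (nat_lit 13126372479) (nat_lit 2) (nat_lit 5) (nat_lit 4) (nat_lit 4) (nat_lit 2) (nat_lit 4) (nat_lit 322) (nat_lit 214) (nat_lit 184)) (XT.nd (nat_lit 78) (nat_lit 0) (nat_lit 0) (XT.lf (nat_lit 0) (nat_lit 26500535173) (nat_lit 152) (nat_lit 40281261273) (nat_lit 0) (nat_lit 16875204765) (nat_lit 2) (nat_lit 5) (nat_lit 4) (nat_lit 4) (nat_lit 2) (nat_lit 4) (nat_lit 323) (nat_lit 214) (nat_lit 183)) (XT.lf (nat_lit 0) (nat_lit 30529681083) (nat_lit 152) (nat_lit 36432755641) (nat_lit 0) (nat_lit 20774801791) (nat_lit 2) (nat_lit 5) (nat_lit 4) (nat_lit 4) (nat_lit 2) (nat_lit 4) (nat_lit 324) (nat_lit 214) (nat_lit 182))))) (XT.nd (nat_lit 156) (nat_lit 0) (nat_lit 0) (XT.nd (nat_lit 78) (nat_lit 0) (nat_lit 0) (XT.lf (nat_lit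 0) (nat_lit 34712707492) (nat_lit 152) (nat_lit 32475801733) (nat_lit 0) (nat_lit 24834448311) (nat_lit 2) (nat_lit 5) (nat_lit 4) (nat_lit 4) (nat_lit 2) (nat_lit 4) (nat_lit 325) (nat_lit 214) (nat_lit 181)) (XT.lf (nat_lit 0) (nat_lit 39059573989) (nat_lit 152) (nat_lit 28400978229) (nat_lit 0) (nat_lit 29063810151) (nat_lit 2) (nat_lit 5) (nat_lit 4) (nat_lit 4) (nat_lit 2) (nat_lit 4) (nat_lit 326) (nat_lit 214) (nat_lit 180))) (XT.nd (nat_lit 78) (nat_lit 0) (nat_lit 0) (XT.lf (nat_lit 0) (nat_lit 43580630254) (nat_lit 152) (nat_lit 24198583168) (nat_lit 0) (nat_lit 33472957219) (nat_lit 2) (nat_lit 5) (nat_lit 4) (nat_lit 4) (nat_lit 2) (nat_lit 4) (nat_lit 327) (nat_lit 214) (nat_lit 179)) (XT.nd (nat_lit 78) (nat_lit 0) (nat_lit 0) (XT.lf (nat_lit 0) (nat_lit 48286640707) (nat_lit 152) (nat_lit 19858610849) (nat_lit 0) (nat_lit 38072387486) (nat_lit 2) (nat_lit 5) (nat_lit 4) (nat_lit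 4) (nat_lit 2) (nat_lit 4) (nat_lit 328) (nat_lit 214) (nat_lit 178)) (XT.lf (nat_lit 0) (nat_lit 53188810137) (nat_lit 152) (nat_lit 15370728003) (nat_lit 0) (nat_lit 42873051974) (nat_lit 2) (nat_lit 5) (nat_lit 4) (nat_lit 4) (nat_lit 2) (nat_lit 4) (nat_lit 329) (nat_lit 214) (nat_lit 177)))))) (XT.nd (nat_lit 34476) (nat_lit 0) (nat_lit 684) (XT.nd (nat_lit 156) (nat_lit 76) (nat_lit 0) (XT.nd (nat_lit 78) (nat_lit 0) (nat_lit 0) (XT.lf (nat_lit 0) (nat_lit 58298810373) (nat_lit 152) (nat_lit 10724249196) (nat_lit 0) (nat_lit 47886380839) (nat_lit 2) (nat_lit 5) (nat_lit 4) (nat_lit 4) (nat_lit 2) (nat_lit 4) (nat_lit 330) (nat_lit 214) (nat_lit 176)) (XT.lf (nat_lit 0) (nat_lit 63628808084) (nat_lit 152) (nat_lit 5908111383) (nat_lit 0) (nat_lit 53124310577) (nat_lit 2) (nat_lit 5) (nat_lit 4) (nat_lit 4) (nat_lit 2) (nat_lit 4) (nat_lit 331) (nat_lit 214) (nat_lit 175))) (XT.nd (nat_lit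 156) (nat_lit 76) (nat_lit 0) (XT.lf (nat_lit 0) (nat_lit 69191493740) (nat_lit 152) (nat_lit 910847568) (nat_lit 0) (nat_lit 58599312449) (nat_lit 2) (nat_lit 5) (nat_lit 4) (nat_lit 4) (nat_lit 2) (nat_lit 4) (nat_lit 332) (nat_lit 214) (nat_lit 174)) (XT.nd (nat_lit 34086) (nat_lit 0) (nat_lit 988) (XT.lf (nat_lit 0) (nat_lit 9867664307) (nat_lit 76) (nat_lit 71295682119) (nat_lit 76) (nat_lit 60540460686) (nat_lit 1) (nat_lit 4) (nat_lit 2) (nat_lit 5) (nat_lit 2) (nat_lit 4) (nat_lit 334) (nat_lit 214) (nat_lit 172)) (XT.lf (nat_lit 0) (nat_lit 636049701) (nat_lit 152) (nat_lit 4465290308) (nat_lit 152) (nat_lit 4465290308) (nat_lit 14) (nat_lit 4) (nat_lit 16) (nat_lit 5) (nat_lit 16) (nat_lit 4) (nat_lit 290) (nat_lit 215) (nat_lit 215))))) (XT.nd (nat_lit 234) (nat_lit 152) (nat_lit 0) (XT.nd (nat_lit 78) (nat_lit 152) (nat_lit 0) (XT.lf (nat_lit 0) (nat_lit 11301364992) (nat_lit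 152) (nat_lit 4648541432) (nat_lit 152) (nat_lit 3953772892) (nat_lit 14) (nat_lit 4) (nat_lit 16) (nat_lit 5) (nat_lit 16) (nat_lit 4) (nat_lit 291) (nat_lit 215) (nat_lit 214)) (XT.nd (nat_lit 78) (nat_lit 0) (nat_lit 0) (XT.lf (nat_lit 0) (nat_lit 805138877) (nat_lit 76) (nat_lit 259684639) (nat_lit 152) (nat_lit 19653117159) (nat_lit 12) (nat_lit 5) (nat_lit 13) (nat_lit 5) (nat_lit 14) (nat_lit 4) (nat_lit 292) (nat_lit 215) (nat_lit 213)) (XT.lf (nat_lit 0) (nat_lit 6199477968) (nat_lit 152) (nat_lit 11103354266) (nat_lit 0) (nat_lit 4270712524) (nat_lit 12) (nat_lit 5) (nat_lit 14) (nat_lit 4) (nat_lit 12) (nat_lit 4) (nat_lit 293) (nat_lit 215) (nat_lit 212)))) (XT.nd (nat_lit 78) (nat_lit 152) (nat_lit 0) (XT.lf (nat_lit 0) (nat_lit 11417206813) (nat_lit 152) (nat_lit 2154378147) (nat_lit 0) (nat_lit 8905754780) (nat_lit 12) (nat_lit 5) (nat_lit 14) (nat_lit 4) (nat_lit 12) (nat_lit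 4) (nat_lit 294) (nat_lit 215) (nat_lit 211)) (XT.nd (nat_lit 78) (nat_lit 0) (nat_lit 0) (XT.lf (nat_lit 0) (nat_lit 7096406337) (nat_lit 152) (nat_lit 9699745628) (nat_lit 152) (nat_lit 6633353986) (nat_lit 10) (nat_lit 4) (nat_lit 12) (nat_lit 5) (nat_lit 12) (nat_lit 4) (nat_lit 295) (nat_lit 215) (nat_lit 210)) (XT.lf (nat_lit 0) (nat_lit 16578777481) (nat_lit 152) (nat_lit 5724900895) (nat_lit 152) (nat_lit 2129995341) (nat_lit 10) (nat_lit 4) (nat_lit 12) (nat_lit 5) (nat_lit 12) (nat_lit 4) (nat_lit 296) (nat_lit 215) (nat_lit 209))))))))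
noncomputable def xc11 : XT := (XT.nd (nat_lit 1638) (nat_lit 152) (nat_lit 0) (XT.nd (nat_lit 780) (nat_lit 152) (nat_lit 0) (XT.nd (nat_lit 390) (nat_lit 152) (nat_lit 0) (XT.nd (nat_lit 156) (nat_lit 76) (nat_lit 0) (XT.nd (nat_lit 78) (nat_lit 0) (nat_lit 0) (XT.lf (nat_lit 0) (nat_lit 771172509) (nat_lit 76) (nat_lit 1627558843) (nat_lit 152) (nat_lit 23093210481) (nat_lit 8) (nat_lit 5) (nat_lit 9) (nat_lit 5) (nat_lit 10) (nat_lit 4) (nat_lit 297) (nat_lit 215) (nat_lit 208)) (XT.lf (nat_lit 0) (nat_lit 7065056228) (nat_lit 152) (nat_lit 16918183142) (nat_lit 0) (nat_lit 2620755416) (nat_lit 8) (nat_lit 5) (nat_lit 10) (nat_lit 4) (nat_lit 8) (nat_lit 4) (nat_lit 298) (nat_lit 215) (nat_lit 207))) (XT.nd (nat_lit 78) (nat_lit 76) (nat_lit 0) (XT.lf (nat_lit 0) (nat_lit 11835823486) (nat_lit 152) (nat_lit 8991575911) (nat_lit 0) (nat_lit 6948270063) (nat_lit 8) (nat_lit 5) (nat_lit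 10) (nat_lit 4) (nat_lit 8) (nat_lit 4) (nat_lit 299) (nat_lit 215) (nat_lit 206)) (XT.nd (nat_lit 78) (nat_lit 76) (nat_lit 0) (XT.lf (nat_lit 0) (nat_lit 16706747005) (nat_lit 152) (nat_lit 906429669) (nat_lit 0) (nat_lit 11397048239) (nat_lit 8) (nat_lit 5) (nat_lit 10) (nat_lit 4) (nat_lit 8) (nat_lit 4) (nat_lit 300) (nat_lit 215) (nat_lit 205)) (XT.lf (nat_lit 0) (nat_lit 7502914826) (nat_lit 76) (nat_lit 14258632003) (nat_lit 76) (nat_lit 8546890052) (nat_lit 7) (nat_lit 4) (nat_lit 8) (nat_lit 5) (nat_lit 8) (nat_lit 4) (nat_lit 301) (nat_lit 215) (nat_lit 204))))) (XT.nd (nat_lit 156) (nat_lit 152) (nat_lit 0) (XT.nd (nat_lit 78) (nat_lit 0) (nat_lit 0) (XT.lf (nat_lit 0) (nat_lit 16131691968) (nat_lit 76) (nat_lit 10819094380) (nat_lit 76) (nat_lit 4724454158) (nat_lit 7) (nat_lit 4) (nat_lit 8) (nat_lit 5) (nat_lit 8) (nat_lit 4) (nat_lit 302) (nat_lit 215) (nat_lit 203)) (XT.lf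 (nat_lit 0) (nat_lit 24982406736) (nat_lit 76) (nat_lit 7295527590) (nat_lit 76) (nat_lit 836222348) (nat_lit 7) (nat_lit 4) (nat_lit 8) (nat_lit 5) (nat_lit 8) (nat_lit 4) (nat_lit 303) (nat_lit 215) (nat_lit 202))) (XT.nd (nat_lit 78) (nat_lit 76) (nat_lit 0) (XT.lf (nat_lit 0) (nat_lit 3066042806) (nat_lit 152) (nat_lit 582538363) (nat_lit 76) (nat_lit 30979128432) (nat_lit 6) (nat_lit 5) (nat_lit 8) (nat_lit 5) (nat_lit 7) (nat_lit 4) (nat_lit 304) (nat_lit 215) (nat_lit 201)) (XT.nd (nat_lit 78) (nat_lit 0) (nat_lit 0) (XT.lf (nat_lit 0) (nat_lit 7106600755) (nat_lit 152) (nat_lit 28934269510) (nat_lit 0) (nat_lit 177118053) (nat_lit 5) (nat_lit 5) (nat_lit 7) (nat_lit 4) (nat_lit 5) (nat_lit 4) (nat_lit 305) (nat_lit 215) (nat_lit 200)) (XT.lf (nat_lit 0) (nat_lit 11283365676) (nat_lit 152) (nat_lit 22558448688) (nat_lit 0) (nat_lit 4048046707) (nat_lit 5) (nat_lit 5) (nat_lit 7) (nat_lit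 4) (nat_lit 5) (nat_lit 4) (nat_lit 306) (nat_lit 215) (nat_lit 199)))))) (XT.nd (nat_lit 390) (nat_lit 76) (nat_lit 0) (XT.nd (nat_lit 156) (nat_lit 76) (nat_lit 0) (XT.nd (nat_lit 78) (nat_lit 0) (nat_lit 0) (XT.lf (nat_lit 0) (nat_lit 15565442145) (nat_lit 152) (nat_lit 16044241023) (nat_lit 0) (nat_lit 8038850541) (nat_lit 5) (nat_lit 5) (nat_lit 7) (nat_lit 4) (nat_lit 5) (nat_lit 4) (nat_lit 307) (nat_lit 215) (nat_lit 198)) (XT.lf (nat_lit 0) (nat_lit 19963025584) (nat_lit 152) (nat_lit 9376136498) (nat_lit 0) (nat_lit 12159031469) (nat_lit 5) (nat_lit 5) (nat_lit 7) (nat_lit 4) (nat_lit 5) (nat_lit 4) (nat_lit 308) (nat_lit 215) (nat_lit 197))) (XT.nd (nat_lit 78) (nat_lit 76) (nat_lit 0) (XT.lf (nat_lit 0) (nat_lit 24486586428) (nat_lit 152) (nat_lit 2538258673) (nat_lit 0) (nat_lit 16418399447) (nat_lit 5) (nat_lit 5) (nat_lit 7) (nat_lit 4) (nat_lit 5) (nat_lit 4) (nat_lit 309)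 (nat_lit 215) (nat_lit 196)) (XT.nd (nat_lit 78) (nat_lit 0) (nat_lit 0) (XT.lf (nat_lit 0) (nat_lit 4574946804) (nat_lit 76) (nat_lit 24615925443) (nat_lit 76) (nat_lit 16296126208) (nat_lit 4) (nat_lit 4) (nat_lit 5) (nat_lit 5) (nat_lit 5) (nat_lit 4) (nat_lit 310) (nat_lit 215) (nat_lit 195)) (XT.lf (nat_lit 0) (nat_lit 11945481887) (nat_lit 76) (nat_lit 22124392847) (nat_lit 76) (nat_lit 13564962894) (nat_lit 4) (nat_lit 4) (nat_lit 5) (nat_lit 5) (nat_lit 5) (nat_lit 4) (nat_lit 311) (nat_lit 215) (nat_lit 194))))) (XT.nd (nat_lit 234) (nat_lit 76) (nat_lit 0) (XT.nd (nat_lit 78) (nat_lit 0) (nat_lit 0) (XT.lf (nat_lit 0) (nat_lit 19540379143) (nat_lit 76) (nat_lit 19569946526) (nat_lit 76) (nat_lit 10782296842) (nat_lit 4) (nat_lit 4) (nat_lit 5) (nat_lit 5) (nat_lit 5) (nat_lit 4) (nat_lit 312) (nat_lit 215) (nat_lit 193)) (XT.nd (nat_lit 78) (nat_lit 0) (nat_lit 0) (XT.lf (nat_lit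 0) (nat_lit 27377721662) (nat_lit 76) (nat_lit 16946504467) (nat_lit 76) (nat_lit 7941502658) (nat_lit 4) (nat_lit 4) (nat_lit 5) (nat_lit 5) (nat_lit 5) (nat_lit 4) (nat_lit 313) (nat_lit 215) (nat_lit 192)) (XT.lf (nat_lit 0) (nat_lit 35476169782) (nat_lit 76) (nat_lit 14247820378) (nat_lit 76) (nat_lit 5035816546) (nat_lit 4) (nat_lit 4) (nat_lit 5) (nat_lit 5) (nat_lit 5) (nat_lit 4) (nat_lit 314) (nat_lit 215) (nat_lit 191)))) (XT.nd (nat_lit 78) (nat_lit 76) (nat_lit 0) (XT.lf (nat_lit 0) (nat_lit 43855005524) (nat_lit 76) (nat_lit 11467468822) (nat_lit 76) (nat_lit 2058320204) (nat_lit 4) (nat_lit 4) (nat_lit 5) (nat_lit 5) (nat_lit 5) (nat_lit 4) (nat_lit 315) (nat_lit 215) (nat_lit 190)) (XT.nd (nat_lit 78) (nat_lit 0) (nat_lit 0) (XT.lf (nat_lit 0) (nat_lit 978599591) (nat_lit 152) (nat_lit 7610348385) (nat_lit 76) (nat_lit 51545696968) (nat_lit 3) (nat_lit 5) (nat_lit 5) (nat_lit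 5) (nat_lit 4) (nat_lit 4) (nat_lit 316) (nat_lit 215) (nat_lit 189)) (XT.lf (nat_lit 0) (nat_lit 4059849168) (nat_lit 152) (nat_lit 1534227875) (nat_lit 76) (nat_lit 57433507711) (nat_lit 3) (nat_lit 5) (nat_lit 5) (nat_lit 5) (nat_lit 4) (nat_lit 4) (nat_lit 317) (nat_lit 215) (nat_lit 188))))))) (XT.nd (nat_lit 858) (nat_lit 76) (nat_lit 0) (XT.nd (nat_lit 390) (nat_lit 0) (nat_lit 0) (XT.nd (nat_lit 156) (nat_lit 0) (nat_lit 0) (XT.nd (nat_lit 78) (nat_lit 0) (nat_lit 0) (XT.lf (nat_lit 0) (nat_lit 4831097400) (nat_lit 76) (nat_lit 2448272138) (nat_lit 152) (nat_lit 58786332785) (nat_lit 2) (nat_lit 5) (nat_lit 3) (nat_lit 5) (nat_lit 4) (nat_lit 4) (nat_lit 318) (nat_lit 215) (nat_lit 187)) (XT.lf (nat_lit 0) (nat_lit 10623311517) (nat_lit 152) (nat_lit 57824053933) (nat_lit 0) (nat_lit 809511259) (nat_lit 2) (nat_lit 5) (nat_lit 4) (nat_lit 4) (nat_lit 2) (nat_lit 4) (nat_lit 319)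 (nat_lit 215) (nat_lit 186))) (XT.nd (nat_lit 78) (nat_lit 0) (nat_lit 0) (XT.lf (nat_lit 0) (nat_lit 14101331706) (nat_lit 152) (nat_lit 54369760972) (nat_lit 0) (nat_lit 4137562421) (nat_lit 2) (nat_lit 5) (nat_lit 4) (nat_lit 4) (nat_lit 2) (nat_lit 4) (nat_lit 320) (nat_lit 215) (nat_lit 185)) (XT.nd (nat_lit 78) (nat_lit 0) (nat_lit 0) (XT.lf (nat_lit 0) (nat_lit 17698176817) (nat_lit 152) (nat_lit 50839967242) (nat_lit 0) (nat_lit 7591579888) (nat_lit 2) (nat_lit 5) (nat_lit 4) (nat_lit 4) (nat_lit 2) (nat_lit 4) (nat_lit 321) (nat_lit 215) (nat_lit 184)) (XT.lf (nat_lit 0) (nat_lit 21422410766) (nat_lit 152) (nat_lit 47226268474) (nat_lit 0) (nat_lit 11179787509) (nat_lit 2) (nat_lit 5) (nat_lit 4) (nat_lit 4) (nat_lit 2) (nat_lit 4) (nat_lit 322) (nat_lit 215) (nat_lit 183))))) (XT.nd (nat_lit 234) (nat_lit 0) (nat_lit 0) (XT.nd (nat_lit 78) (nat_lit 0) (nat_lit 0) (XT.lf (nat_lit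 0) (nat_lit 25282900777) (nat_lit 152) (nat_lit 43520060622) (nat_lit 0) (nat_lit 14910728637) (nat_lit 2) (nat_lit 5) (nat_lit 4) (nat_lit 4) (nat_lit 2) (nat_lit 4) (nat_lit 323) (nat_lit 215) (nat_lit 182)) (XT.nd (nat_lit 78) (nat_lit 0) (nat_lit 0) (XT.lf (nat_lit 0) (nat_lit 29288838494) (nat_lit 152) (nat_lit 39712519383) (nat_lit 0) (nat_lit 18793286464) (nat_lit 2) (nat_lit 5) (nat_lit 4) (nat_lit 4) (nat_lit 2) (nat_lit 4) (nat_lit 324) (nat_lit 215) (nat_lit 181)) (XT.lf (nat_lit 0) (nat_lit 33449761863) (nat_lit 152) (nat_lit 35794579182) (nat_lit 0) (nat_lit 22836705176) (nat_lit 2) (nat_lit 5) (nat_lit 4) (nat_lit 4) (nat_lit 2) (nat_lit 4) (nat_lit 325) (nat_lit 215) (nat_lit 180)))) (XT.nd (nat_lit 78) (nat_lit 0) (nat_lit 0) (XT.lf (nat_lit 0) (nat_lit 37775577844) (nat_lit 152) (nat_lit 31756911589) (nat_lit 0) (nat_lit 27050611961) (nat_lit 2) (nat_lit 5) (nat_lit 4) (nat_lit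 4) (nat_lit 2) (nat_lit 4) (nat_lit 326) (nat_lit 215) (nat_lit 179)) (XT.nd (nat_lit 78) (nat_lit 0) (nat_lit 0) (XT.lf (nat_lit 0) (nat_lit 42276585999) (nat_lit 152) (nat_lit 27589903112) (nat_lit 0) (nat_lit 31445039929) (nat_lit 2) (nat_lit 5) (nat_lit 4) (nat_lit 4) (nat_lit 2) (nat_lit 4) (nat_lit 327) (nat_lit 215) (nat_lit 178)) (XT.lf (nat_lit 0) (nat_lit 46963503015) (nat_lit 152) (nat_lit 23283632299) (nat_lit 0) (nat_lit 36030452005) (nat_lit 2) (nat_lit 5) (nat_lit 4) (nat_lit 4) (nat_lit 2) (nat_lit 4) (nat_lit 328) (nat_lit 215) (nat_lit 177)))))) (XT.nd (nat_lit 34320) (nat_lit 0) (nat_lit 836) (XT.nd (nat_lit 156) (nat_lit 76) (nat_lit 0) (XT.nd (nat_lit 78) (nat_lit 0) (nat_lit 0) (XT.lf (nat_lit 0) (nat_lit 51847488218) (nat_lit 152) (nat_lit 18827846127) (nat_lit 0) (nat_lit 40817765836) (nat_lit 2) (nat_lit 5) (nat_lit 4) (nat_lit 4) (nat_lit 2) (nat_lit 4) (nat_lit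 329) (nat_lit 215) (nat_lit 176)) (XT.lf (nat_lit 0) (nat_lit 56940170143) (nat_lit 152) (nat_lit 14211935581) (nat_lit 0) (nat_lit 45818379788) (nat_lit 2) (nat_lit 5) (nat_lit 4) (nat_lit 4) (nat_lit 2) (nat_lit 4) (nat_lit 330) (nat_lit 215) (nat_lit 175))) (XT.nd (nat_lit 78) (nat_lit 76) (nat_lit 0) (XT.lf (nat_lit 0) (nat_lit 62253674225) (nat_lit 152) (nat_lit 9424910396) (nat_lit 0) (nat_lit 51044200086) (nat_lit 2) (nat_lit 5) (nat_lit 4) (nat_lit 4) (nat_lit 2) (nat_lit 4) (nat_lit 331) (nat_lit 215) (nat_lit 174)) (XT.nd (nat_lit 156) (nat_lit 76) (nat_lit 0) (XT.lf (nat_lit 0) (nat_lit 67800651663) (nat_lit 152) (nat_lit 4455372895) (nat_lit 0) (nat_lit 56507669158) (nat_lit 2) (nat_lit 5) (nat_lit 4) (nat_lit 4) (nat_lit 2) (nat_lit 4) (nat_lit 332) (nat_lit 215) (nat_lit 173)) (XT.lf (nat_lit 0) (nat_lit 6200015342) (nat_lit 76) (nat_lit 73508025295) (nat_lit 76) (nat_lit 62059766465)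 (nat_lit 1) (nat_lit 4) (nat_lit 2) (nat_lit 5) (nat_lit 2) (nat_lit 4) (nat_lit 334) (nat_lit 215) (nat_lit 171))))) (XT.nd (nat_lit 234) (nat_lit 152) (nat_lit 0) (XT.nd (nat_lit 78) (nat_lit 304) (nat_lit 0) (XT.lf (nat_lit 0) (nat_lit 8812510310) (nat_lit 152) (nat_lit 21221526) (nat_lit 152) (nat_lit 21221526) (nat_lit 18) (nat_lit 4) (nat_lit 20) (nat_lit 5) (nat_lit 20) (nat_lit 4) (nat_lit 288) (nat_lit 216) (nat_lit 216)) (XT.nd (nat_lit 78) (nat_lit 152) (nat_lit 0) (XT.lf (nat_lit 0) (nat_lit 5353354750) (nat_lit 152) (nat_lit 8425712713) (nat_lit 0) (nat_lit 4623847783) (nat_lit 16) (nat_lit 5) (nat_lit 18) (nat_lit 4) (nat_lit 16) (nat_lit 4) (nat_lit 289) (nat_lit 216) (nat_lit 215)) (XT.lf (nat_lit 0) (nat_lit 1111362940) (nat_lit 152) (nat_lit 9724588571) (nat_lit 152) (nat_lit 8300313066) (nat_lit 14) (nat_lit 4) (nat_lit 16) (nat_lit 5) (nat_lit 16) (nat_lit 4) (nat_lit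 290) (nat_lit 216) (nat_lit 214)))) (XT.nd (nat_lit 78) (nat_lit 152) (nat_lit 0) (XT.lf (nat_lit 0) (nat_lit 10987546186) (nat_lit 152) (nat_lit 5503978898) (nat_lit 152) (nat_lit 3418019070) (nat_lit 14) (nat_lit 4) (nat_lit 16) (nat_lit 5) (nat_lit 16) (nat_lit 4) (nat_lit 291) (nat_lit 216) (nat_lit 213)) (XT.nd (nat_lit 78) (nat_lit 0) (nat_lit 0) (XT.lf (nat_lit 0) (nat_lit 323249736) (nat_lit 76) (nat_lit 1173984308) (nat_lit 152) (nat_lit 19229306557) (nat_lit 12) (nat_lit 5) (nat_lit 13) (nat_lit 5) (nat_lit 14) (nat_lit 4) (nat_lit 292) (nat_lit 216) (nat_lit 212)) (XT.lf (nat_lit 0) (nat_lit 6537109742) (nat_lit 152) (nat_lit 11730577808) (nat_lit 0) (nat_lit 3317398518) (nat_lit 12) (nat_lit 5) (nat_lit 14) (nat_lit 4) (nat_lit 12) (nat_lit 4) (nat_lit 293) (nat_lit 216) (nat_lit 211))))))))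
noncomputable def xc12 : XT := (XT.nd (nat_lit 1638) (nat_lit 228) (nat_lit 0) (XT.nd (nat_lit 780) (nat_lit 228) (nat_lit 0) (XT.nd (nat_lit 390) (nat_lit 76) (nat_lit 0) (XT.nd (nat_lit 156) (nat_lit 152) (nat_lit 0) (XT.nd (nat_lit 78) (nat_lit 152) (nat_lit 0) (XT.lf (nat_lit 0) (nat_lit 11672943400) (nat_lit 152) (nat_lit 2920195292) (nat_lit 0) (nat_lit 7898292568) (nat_lit 12) (nat_lit 5) (nat_lit 14) (nat_lit 4) (nat_lit 12) (nat_lit 4) (nat_lit 294) (nat_lit 216) (nat_lit 210)) (XT.lf (nat_lit 0) (nat_lit 6180727084) (nat_lit 152) (nat_lit 10784363983) (nat_lit 152) (nat_lit 6481199238) (nat_lit 10) (nat_lit 4) (nat_lit 12) (nat_lit 5) (nat_lit 12) (nat_lit 4) (nat_lit 295) (nat_lit 216) (nat_lit 209))) (XT.nd (nat_lit 78) (nat_lit 152) (nat_lit 0) (XT.lf (nat_lit 0) (nat_lit 15534887898) (nat_lit 152) (nat_lit 6862215794) (nat_lit 152) (nat_lit 2055704466) (nat_lit 10) (nat_lit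 4) (nat_lit 12) (nat_lit 5) (nat_lit 12) (nat_lit 4) (nat_lit 296) (nat_lit 216) (nat_lit 208)) (XT.nd (nat_lit 78) (nat_lit 76) (nat_lit 0) (XT.lf (nat_lit 0) (nat_lit 2391450545) (nat_lit 228) (nat_lit 431244419) (nat_lit 76) (nat_lit 22690841842) (nat_lit 9) (nat_lit 5) (nat_lit 12) (nat_lit 5) (nat_lit 10) (nat_lit 4) (nat_lit 297) (nat_lit 216) (nat_lit 207)) (XT.lf (nat_lit 0) (nat_lit 6971138657) (nat_lit 152) (nat_lit 18261169818) (nat_lit 0) (nat_lit 1395954952) (nat_lit 8) (nat_lit 5) (nat_lit 10) (nat_lit 4) (nat_lit 8) (nat_lit 4) (nat_lit 298) (nat_lit 216) (nat_lit 206))))) (XT.nd (nat_lit 156) (nat_lit 76) (nat_lit 0) (XT.nd (nat_lit 78) (nat_lit 0) (nat_lit 0) (XT.lf (nat_lit 0) (nat_lit 11674402450) (nat_lit 152) (nat_lit 10450558367) (nat_lit 0) (nat_lit 5677073402) (nat_lit 8) (nat_lit 5) (nat_lit 10) (nat_lit 4) (nat_lit 8) (nat_lit 4) (nat_lit 299) (nat_lit 216) (nat_lit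 205)) (XT.lf (nat_lit 0) (nat_lit 16481036957) (nat_lit 152) (nat_lit 2475884296) (nat_lit 0) (nat_lit 10081664724) (nat_lit 8) (nat_lit 5) (nat_lit 10) (nat_lit 4) (nat_lit 8) (nat_lit 4) (nat_lit 300) (nat_lit 216) (nat_lit 204))) (XT.nd (nat_lit 78) (nat_lit 0) (nat_lit 0) (XT.lf (nat_lit 0) (nat_lit 5794919466) (nat_lit 76) (nat_lit 15663271387) (nat_lit 76) (nat_lit 8881000883) (nat_lit 7) (nat_lit 4) (nat_lit 8) (nat_lit 5) (nat_lit 8) (nat_lit 4) (nat_lit 301) (nat_lit 216) (nat_lit 203)) (XT.nd (nat_lit 78) (nat_lit 0) (nat_lit 0) (XT.lf (nat_lit 0) (nat_lit 14321500885) (nat_lit 76) (nat_lit 12266635088) (nat_lit 76) (nat_lit 5119699564) (nat_lit 7) (nat_lit 4) (nat_lit 8) (nat_lit 5) (nat_lit 8) (nat_lit 4) (nat_lit 302) (nat_lit 216) (nat_lit 202)) (XT.lf (nat_lit 0) (nat_lit 23074886392) (nat_lit 76) (nat_lit 8783926703) (nat_lit 76) (nat_lit 1289691160) (nat_lit 7) (nat_lit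 4) (nat_lit 8) (nat_lit 5) (nat_lit 8) (nat_lit 4) (nat_lit 303) (nat_lit 216) (nat_lit 201)))))) (XT.nd (nat_lit 390) (nat_lit 76) (nat_lit 0) (XT.nd (nat_lit 156) (nat_lit 0) (nat_lit 0) (XT.nd (nat_lit 78) (nat_lit 76) (nat_lit 0) (XT.lf (nat_lit 0) (nat_lit 2567053988) (nat_lit 152) (nat_lit 2613877869) (nat_lit 76) (nat_lit 29482941183) (nat_lit 6) (nat_lit 5) (nat_lit 8) (nat_lit 5) (nat_lit 7) (nat_lit 4) (nat_lit 304) (nat_lit 216) (nat_lit 200)) (XT.lf (nat_lit 0) (nat_lit 5122599244) (nat_lit 76) (nat_lit 1410705221) (nat_lit 152) (nat_lit 29723127966) (nat_lit 5) (nat_lit 5) (nat_lit 6) (nat_lit 5) (nat_lit 7) (nat_lit 4) (nat_lit 305) (nat_lit 216) (nat_lit 199))) (XT.nd (nat_lit 78) (nat_lit 0) (nat_lit 0) (XT.lf (nat_lit 0) (nat_lit 10646007996) (nat_lit 152) (nat_lit 24832453852) (nat_lit 0) (nat_lit 2451814176) (nat_lit 5) (nat_lit 5) (nat_lit 7) (nat_lit 4) (nat_lit 5) (nat_lit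 4) (nat_lit 306) (nat_lit 216) (nat_lit 198)) (XT.nd (nat_lit 78) (nat_lit 0) (nat_lit 0) (XT.lf (nat_lit 0) (nat_lit 14879988439) (nat_lit 152) (nat_lit 18402057661) (nat_lit 0) (nat_lit 6408392109) (nat_lit 5) (nat_lit 5) (nat_lit 7) (nat_lit 4) (nat_lit 5) (nat_lit 4) (nat_lit 307) (nat_lit 216) (nat_lit 197)) (XT.lf (nat_lit 0) (nat_lit 19231766137) (nat_lit 152) (nat_lit 11813773588) (nat_lit 0) (nat_lit 10495976941) (nat_lit 5) (nat_lit 5) (nat_lit 7) (nat_lit 4) (nat_lit 5) (nat_lit 4) (nat_lit 308) (nat_lit 216) (nat_lit 196))))) (XT.nd (nat_lit 234) (nat_lit 0) (nat_lit 0) (XT.nd (nat_lit 78) (nat_lit 76) (nat_lit 0) (XT.lf (nat_lit 0) (nat_lit 23711702467) (nat_lit 152) (nat_lit 5051915240) (nat_lit 0) (nat_lit 14724301017) (nat_lit 5) (nat_lit 5) (nat_lit 7) (nat_lit 4) (nat_lit 5) (nat_lit 4) (nat_lit 309) (nat_lit 216) (nat_lit 195)) (XT.nd (nat_lit 78) (nat_lit 0) (nat_lit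 0) (XT.lf (nat_lit 0) (nat_lit 1937423147) (nat_lit 76) (nat_lit 26411664493) (nat_lit 76) (nat_lit 17184632325) (nat_lit 4) (nat_lit 4) (nat_lit 5) (nat_lit 5) (nat_lit 5) (nat_lit 4) (nat_lit 310) (nat_lit 216) (nat_lit 194)) (XT.lf (nat_lit 0) (nat_lit 9237634044) (nat_lit 76) (nat_lit 23950211362) (nat_lit 76) (nat_lit 14494959463) (nat_lit 4) (nat_lit 4) (nat_lit 5) (nat_lit 5) (nat_lit 5) (nat_lit 4) (nat_lit 311) (nat_lit 216) (nat_lit 193)))) (XT.nd (nat_lit 78) (nat_lit 0) (nat_lit 0) (XT.lf (nat_lit 0) (nat_lit 16765555886) (nat_lit 76) (nat_lit 21424412153) (nat_lit 76) (nat_lit 11751808129) (nat_lit 4) (nat_lit 4) (nat_lit 5) (nat_lit 5) (nat_lit 5) (nat_lit 4) (nat_lit 312) (nat_lit 216) (nat_lit 192)) (XT.nd (nat_lit 78) (nat_lit 0) (nat_lit 0) (XT.lf (nat_lit 0) (nat_lit 24539112295) (nat_lit 76) (nat_lit 18828253056) (nat_lit 76) (nat_lit 8948647008) (nat_lit 4) (nat_lit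 4) (nat_lit 5) (nat_lit 5) (nat_lit 5) (nat_lit 4) (nat_lit 313) (nat_lit 216) (nat_lit 191)) (XT.lf (nat_lit 0) (nat_lit 32576811740) (nat_lit 76) (nat_lit 16155552742) (nat_lit 76) (nat_lit 6078801909) (nat_lit 4) (nat_lit 4) (nat_lit 5) (nat_lit 5) (nat_lit 5) (nat_lit 4) (nat_lit 314) (nat_lit 216) (nat_lit 190))))))) (XT.nd (nat_lit 780) (nat_lit 76) (nat_lit 0) (XT.nd (nat_lit 390) (nat_lit 0) (nat_lit 0) (XT.nd (nat_lit 156) (nat_lit 152) (nat_lit 0) (XT.nd (nat_lit 78) (nat_lit 0) (nat_lit 0) (XT.lf (nat_lit 0) (nat_lit 40897791600) (nat_lit 76) (nat_lit 13399947637) (nat_lit 76) (nat_lit 3135439866) (nat_lit 4) (nat_lit 4) (nat_lit 5) (nat_lit 5) (nat_lit 5) (nat_lit 4) (nat_lit 315) (nat_lit 216) (nat_lit 189)) (XT.lf (nat_lit 0) (nat_lit 49521863732) (nat_lit 76) (nat_lit 10554876777) (nat_lit 76) (nat_lit 111552875) (nat_lit 4) (nat_lit 4) (nat_lit 5) (nat_lit 5) (nat_lit 5)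 (nat_lit 4) (nat_lit 316) (nat_lit 216) (nat_lit 188))) (XT.nd (nat_lit 78) (nat_lit 76) (nat_lit 0) (XT.lf (nat_lit 0) (nat_lit 2941516842) (nat_lit 152) (nat_lit 4642345789) (nat_lit 76) (nat_lit 55498341247) (nat_lit 3) (nat_lit 5) (nat_lit 5) (nat_lit 5) (nat_lit 4) (nat_lit 4) (nat_lit 317) (nat_lit 216) (nat_lit 187)) (XT.nd (nat_lit 78) (nat_lit 0) (nat_lit 0) (XT.lf (nat_lit 0) (nat_lit 1609535242) (nat_lit 76) (nat_lit 4491623242) (nat_lit 152) (nat_lit 60020985816) (nat_lit 2) (nat_lit 5) (nat_lit 3) (nat_lit 5) (nat_lit 4) (nat_lit 4) (nat_lit 318) (nat_lit 216) (nat_lit 186)) (XT.lf (nat_lit 0) (nat_lit 8170304995) (nat_lit 76) (nat_lit 1238852429) (nat_lit 152) (nat_lit 59905264780) (nat_lit 2) (nat_lit 5) (nat_lit 3) (nat_lit 5) (nat_lit 4) (nat_lit 4) (nat_lit 319) (nat_lit 216) (nat_lit 185))))) (XT.nd (nat_lit 156) (nat_lit 0) (nat_lit 0) (XT.nd (nat_lit 78) (nat_lit 0)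 (nat_lit 0) (XT.lf (nat_lit 0) (nat_lit 12848402623) (nat_lit 152) (nat_lit 57725337045) (nat_lit 0) (nat_lit 2093648203) (nat_lit 2) (nat_lit 5) (nat_lit 4) (nat_lit 4) (nat_lit 2) (nat_lit 4) (nat_lit 320) (nat_lit 216) (nat_lit 184)) (XT.lf (nat_lit 0) (nat_lit 16419660701) (nat_lit 152) (nat_lit 54240706559) (nat_lit 0) (nat_lit 5528879953) (nat_lit 2) (nat_lit 5) (nat_lit 4) (nat_lit 4) (nat_lit 2) (nat_lit 4) (nat_lit 321) (nat_lit 216) (nat_lit 183))) (XT.nd (nat_lit 78) (nat_lit 0) (nat_lit 0) (XT.lf (nat_lit 0) (nat_lit 20119526047) (nat_lit 152) (nat_lit 50670020403) (nat_lit 0) (nat_lit 9099196416) (nat_lit 2) (nat_lit 5) (nat_lit 4) (nat_lit 4) (nat_lit 2) (nat_lit 4) (nat_lit 322) (nat_lit 216) (nat_lit 182)) (XT.nd (nat_lit 78) (nat_lit 0) (nat_lit 0) (XT.lf (nat_lit 0) (nat_lit 23956807866) (nat_lit 152) (nat_lit 47004776944) (nat_lit 0) (nat_lit 12813098345) (nat_lit 2) (nat_lit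 5) (nat_lit 4) (nat_lit 4) (nat_lit 2) (nat_lit 4) (nat_lit 323) (nat_lit 216) (nat_lit 181)) (XT.lf (nat_lit 0) (nat_lit 27940642542) (nat_lit 152) (nat_lit 43236249412) (nat_lit 0) (nat_lit 16679428365) (nat_lit 2) (nat_lit 5) (nat_lit 4) (nat_lit 4) (nat_lit 2) (nat_lit 4) (nat_lit 324) (nat_lit 216) (nat_lit 180)))))) (XT.nd (nat_lit 390) (nat_lit 76) (nat_lit 0) (XT.nd (nat_lit 156) (nat_lit 0) (nat_lit 0) (XT.nd (nat_lit 78) (nat_lit 0) (nat_lit 0) (XT.lf (nat_lit 0) (nat_lit 32080515395) (nat_lit 152) (nat_lit 39355465122) (nat_lit 0) (nat_lit 20707392021) (nat_lit 2) (nat_lit 5) (nat_lit 4) (nat_lit 4) (nat_lit 2) (nat_lit 4) (nat_lit 325) (nat_lit 216) (nat_lit 179)) (XT.lf (nat_lit 0) (nat_lit 36386283267) (nat_lit 152) (nat_lit 35353184113) (nat_lit 0) (nat_lit 24906579706) (nat_lit 2) (nat_lit 5) (nat_lit 4) (nat_lit 4) (nat_lit 2) (nat_lit 4) (nat_lit 326) (nat_lit 216) (nat_lit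 178))) (XT.nd (nat_lit 78) (nat_lit 0) (nat_lit 0) (XT.lf (nat_lit 0) (nat_lit 40868197985) (nat_lit 152) (nat_lit 31219877142) (nat_lit 0) (nat_lit 29286989483) (nat_lit 2) (nat_lit 5) (nat_lit 4) (nat_lit 4) (nat_lit 2) (nat_lit 4) (nat_lit 327) (nat_lit 216) (nat_lit 177)) (XT.nd (nat_lit 78) (nat_lit 0) (nat_lit 0) (XT.lf (nat_lit 0) (nat_lit 45536930774) (nat_lit 152) (nat_lit 26945703003) (nat_lit 0) (nat_lit 33859050901) (nat_lit 2) (nat_lit 5) (nat_lit 4) (nat_lit 4) (nat_lit 2) (nat_lit 4) (nat_lit 328) (nat_lit 216) (nat_lit 176)) (XT.lf (nat_lit 0) (nat_lit 50403597666) (nat_lit 152) (nat_lit 22520485092) (nat_lit 0) (nat_lit 38633649820) (nat_lit 2) (nat_lit 5) (nat_lit 4) (nat_lit 4) (nat_lit 2) (nat_lit 4) (nat_lit 329) (nat_lit 216) (nat_lit 175))))) (XT.nd (nat_lit 312) (nat_lit 76) (nat_lit 0) (XT.nd (nat_lit 78) (nat_lit 0) (nat_lit 0) (XT.lf (nat_lit 0) (nat_lit 55479785962)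 (nat_lit 152) (nat_lit 17933687174) (nat_lit 0) (nat_lit 43622154332) (nat_lit 2) (nat_lit 5) (nat_lit 4) (nat_lit 4) (nat_lit 2) (nat_lit 4) (nat_lit 330) (nat_lit 216) (nat_lit 174)) (XT.nd (nat_lit 78) (nat_lit 0) (nat_lit 0) (XT.lf (nat_lit 0) (nat_lit 60777581825) (nat_lit 152) (nat_lit 13174388303) (nat_lit 0) (nat_lit 48836441830) (nat_lit 2) (nat_lit 5) (nat_lit 4) (nat_lit 4) (nat_lit 2) (nat_lit 4) (nat_lit 331) (nat_lit 216) (nat_lit 173)) (XT.lf (nat_lit 0) (nat_lit 66309599055) (nat_lit 152) (nat_lit 8231256814) (nat_lit 0) (nat_lit 54288927283) (nat_lit 2) (nat_lit 5) (nat_lit 4) (nat_lit 4) (nat_lit 2) (nat_lit 4) (nat_lit 332) (nat_lit 216) (nat_lit 172)))) (XT.nd (nat_lit 33774) (nat_lit 0) (nat_lit 1292) (XT.lf (nat_lit 0) (nat_lit 2298907135) (nat_lit 76) (nat_lit 75852763889) (nat_lit 76) (nat_lit 63684209902) (nat_lit 1) (nat_lit 4) (nat_lit 2) (nat_lit 5) (nat_lit 2)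 (nat_lit 4) (nat_lit 334) (nat_lit 216) (nat_lit 170)) (XT.nd (nat_lit 78) (nat_lit 152) (nat_lit 0) (XT.lf (nat_lit 0) (nat_lit 3380207216) (nat_lit 228) (nat_lit 1451686384) (nat_lit 0) (nat_lit 3380207216) (nat_lit 20) (nat_lit 5) (nat_lit 23) (nat_lit 4) (nat_lit 20) (nat_lit 4) (nat_lit 286) (nat_lit 217) (nat_lit 217)) (XT.lf (nat_lit 0) (nat_lit 7161691226) (nat_lit 152) (nat_lit 5338770197) (nat_lit 152) (nat_lit 4549808413) (nat_lit 18) (nat_lit 4) (nat_lit 20) (nat_lit 5) (nat_lit 20) (nat_lit 4) (nat_lit 287) (nat_lit 217) (nat_lit 216))))))))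
noncomputable def xc13 : XT := (XT.nd (nat_lit 1638) (nat_lit 228) (nat_lit 0) (XT.nd (nat_lit 780) (nat_lit 304) (nat_lit 0) (XT.nd (nat_lit 390) (nat_lit 304) (nat_lit 0) (XT.nd (nat_lit 156) (nat_lit 228) (nat_lit 0) (XT.nd (nat_lit 78) (nat_lit 76) (nat_lit 0) (XT.lf (nat_lit 0) (nat_lit 634710671) (nat_lit 228) (nat_lit 251891296) (nat_lit 76) (nat_lit 16826129425) (nat_lit 17) (nat_lit 5) (nat_lit 20) (nat_lit 5) (nat_lit 18) (nat_lit 4) (nat_lit 288) (nat_lit 217) (nat_lit 215)) (XT.lf (nat_lit 0) (nat_lit 5925221792) (nat_lit 152) (nat_lit 8748792538) (nat_lit 0) (nat_lit 3734963972) (nat_lit 16) (nat_lit 5) (nat_lit 18) (nat_lit 4) (nat_lit 16) (nat_lit 4) (nat_lit 289) (nat_lit 217) (nat_lit 214))) (XT.nd (nat_lit 78) (nat_lit 76) (nat_lit 0) (XT.lf (nat_lit 0) (nat_lit 628770849) (nat_lit 152) (nat_lit 10684227423) (nat_lit 152) (nat_lit 7832285280) (nat_lit 14) (nat_lit 4) (nat_lit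 16) (nat_lit 5) (nat_lit 16) (nat_lit 4) (nat_lit 290) (nat_lit 217) (nat_lit 213)) (XT.nd (nat_lit 78) (nat_lit 76) (nat_lit 0) (XT.lf (nat_lit 0) (nat_lit 10359161386) (nat_lit 152) (nat_lit 6522122047) (nat_lit 152) (nat_lit 3040004359) (nat_lit 14) (nat_lit 4) (nat_lit 16) (nat_lit 5) (nat_lit 16) (nat_lit 4) (nat_lit 291) (nat_lit 217) (nat_lit 212)) (XT.lf (nat_lit 0) (nat_lit 1780711152) (nat_lit 228) (nat_lit 467441235) (nat_lit 76) (nat_lit 18492735698) (nat_lit 13) (nat_lit 5) (nat_lit 16) (nat_lit 5) (nat_lit 14) (nat_lit 4) (nat_lit 292) (nat_lit 217) (nat_lit 211))))) (XT.nd (nat_lit 156) (nat_lit 228) (nat_lit 0) (XT.nd (nat_lit 78) (nat_lit 0) (nat_lit 0) (XT.lf (nat_lit 0) (nat_lit 6723737971) (nat_lit 152) (nat_lit 12673279414) (nat_lit 0) (nat_lit 2205414989) (nat_lit 12) (nat_lit 5) (nat_lit 14) (nat_lit 4) (nat_lit 12) (nat_lit 4) (nat_lit 293) (nat_lit 217) (nat_lit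 210)) (XT.lf (nat_lit 0) (nat_lit 11781576213) (nat_lit 152) (nat_lit 3994890806) (nat_lit 0) (nat_lit 6734739318) (nat_lit 12) (nat_lit 5) (nat_lit 14) (nat_lit 4) (nat_lit 12) (nat_lit 4) (nat_lit 294) (nat_lit 217) (nat_lit 209))) (XT.nd (nat_lit 78) (nat_lit 76) (nat_lit 0) (XT.lf (nat_lit 0) (nat_lit 4956432693) (nat_lit 152) (nat_lit 12031241171) (nat_lit 152) (nat_lit 6481057693) (nat_lit 10) (nat_lit 4) (nat_lit 12) (nat_lit 5) (nat_lit 12) (nat_lit 4) (nat_lit 295) (nat_lit 217) (nat_lit 208)) (XT.nd (nat_lit 78) (nat_lit 76) (nat_lit 0) (XT.lf (nat_lit 0) (nat_lit 14188488432) (nat_lit 152) (nat_lit 8159280168) (nat_lit 152) (nat_lit 2129718991) (nat_lit 10) (nat_lit 4) (nat_lit 12) (nat_lit 5) (nat_lit 12) (nat_lit 4) (nat_lit 296) (nat_lit 217) (nat_lit 207)) (XT.lf (nat_lit 0) (nat_lit 2249633627) (nat_lit 228) (nat_lit 1919355102) (nat_lit 76) (nat_lit 21371400820) (nat_lit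 9) (nat_lit 5) (nat_lit 12) (nat_lit 5) (nat_lit 10) (nat_lit 4) (nat_lit 297) (nat_lit 217) (nat_lit 206)))))) (XT.nd (nat_lit 390) (nat_lit 152) (nat_lit 0) (XT.nd (nat_lit 156) (nat_lit 76) (nat_lit 0) (XT.nd (nat_lit 78) (nat_lit 0) (nat_lit 0) (XT.lf (nat_lit 0) (nat_lit 6734143105) (nat_lit 152) (nat_lit 19909097176) (nat_lit 0) (nat_lit 14802261) (nat_lit 8) (nat_lit 5) (nat_lit 10) (nat_lit 4) (nat_lit 8) (nat_lit 4) (nat_lit 298) (nat_lit 217) (nat_lit 205)) (XT.lf (nat_lit 0) (nat_lit 11373117886) (nat_lit 152) (nat_lit 12208957898) (nat_lit 0) (nat_lit 4251733857) (nat_lit 8) (nat_lit 5) (nat_lit 10) (nat_lit 4) (nat_lit 8) (nat_lit 4) (nat_lit 299) (nat_lit 217) (nat_lit 204))) (XT.nd (nat_lit 78) (nat_lit 76) (nat_lit 0) (XT.lf (nat_lit 0) (nat_lit 16118524760) (nat_lit 152) (nat_lit 4339495418) (nat_lit 0) (nat_lit 8614242460) (nat_lit 8) (nat_lit 5) (nat_lit 10) (nat_lit 4)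 (nat_lit 8) (nat_lit 4) (nat_lit 300) (nat_lit 217) (nat_lit 203)) (XT.nd (nat_lit 78) (nat_lit 0) (nat_lit 0) (XT.lf (nat_lit 0) (nat_lit 3792023105) (nat_lit 76) (nat_lit 17226090456) (nat_lit 76) (nat_lit 9357143136) (nat_lit 7) (nat_lit 4) (nat_lit 8) (nat_lit 5) (nat_lit 8) (nat_lit 4) (nat_lit 301) (nat_lit 217) (nat_lit 202)) (XT.lf (nat_lit 0) (nat_lit 12221275265) (nat_lit 76) (nat_lit 13870312561) (nat_lit 76) (nat_lit 5654065222) (nat_lit 7) (nat_lit 4) (nat_lit 8) (nat_lit 5) (nat_lit 8) (nat_lit 4) (nat_lit 302) (nat_lit 217) (nat_lit 201))))) (XT.nd (nat_lit 234) (nat_lit 0) (nat_lit 0) (XT.nd (nat_lit 78) (nat_lit 152) (nat_lit 0) (XT.lf (nat_lit 0) (nat_lit 20881966239) (nat_lit 76) (nat_lit 10426516942) (nat_lit 76) (nat_lit 1879507681) (nat_lit 7) (nat_lit 4) (nat_lit 8) (nat_lit 5) (nat_lit 8) (nat_lit 4) (nat_lit 303) (nat_lit 217) (nat_lit 200)) (XT.nd (nat_lit 78) (nat_lit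 76) (nat_lit 0) (XT.lf (nat_lit 0) (nat_lit 1936967087) (nat_lit 152) (nat_lit 4929977428) (nat_lit 76) (nat_lit 27838190064) (nat_lit 6) (nat_lit 5) (nat_lit 8) (nat_lit 5) (nat_lit 7) (nat_lit 4) (nat_lit 304) (nat_lit 217) (nat_lit 199)) (XT.lf (nat_lit 0) (nat_lit 2673603843) (nat_lit 76) (nat_lit 3156758360) (nat_lit 152) (nat_lit 30469566428) (nat_lit 5) (nat_lit 5) (nat_lit 6) (nat_lit 5) (nat_lit 7) (nat_lit 4) (nat_lit 305) (nat_lit 217) (nat_lit 198)))) (XT.nd (nat_lit 78) (nat_lit 0) (nat_lit 0) (XT.lf (nat_lit 0) (nat_lit 9878185577) (nat_lit 152) (nat_lit 27391972796) (nat_lit 0) (nat_lit 705606921) (nat_lit 5) (nat_lit 5) (nat_lit 7) (nat_lit 4) (nat_lit 5) (nat_lit 4) (nat_lit 306) (nat_lit 217) (nat_lit 197)) (XT.nd (nat_lit 78) (nat_lit 0) (nat_lit 0) (XT.lf (nat_lit 0) (nat_lit 14066360280) (nat_lit 152) (nat_lit 21041397058) (nat_lit 0) (nat_lit 4629588757) (nat_lit 5)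 (nat_lit 5) (nat_lit 7) (nat_lit 4) (nat_lit 5) (nat_lit 4) (nat_lit 307) (nat_lit 217) (nat_lit 196)) (XT.lf (nat_lit 0) (nat_lit 18374513465) (nat_lit 152) (nat_lit 14529132462) (nat_lit 0) (nat_lit 8686129688) (nat_lit 5) (nat_lit 5) (nat_lit 7) (nat_lit 4) (nat_lit 5) (nat_lit 4) (nat_lit 308) (nat_lit 217) (nat_lit 195))))))) (XT.nd (nat_lit 858) (nat_lit 0) (nat_lit 0) (XT.nd (nat_lit 390) (nat_lit 152) (nat_lit 0) (XT.nd (nat_lit 156) (nat_lit 76) (nat_lit 0) (XT.nd (nat_lit 78) (nat_lit 0) (nat_lit 0) (XT.lf (nat_lit 0) (nat_lit 22812902639) (nat_lit 152) (nat_lit 7839673617) (nat_lit 0) (nat_lit 12884888144) (nat_lit 5) (nat_lit 5) (nat_lit 7) (nat_lit 4) (nat_lit 5) (nat_lit 4) (nat_lit 309) (nat_lit 217) (nat_lit 194)) (XT.lf (nat_lit 0) (nat_lit 27392095395) (nat_lit 152) (nat_lit 957093240) (nat_lit 0) (nat_lit 17235861169) (nat_lit 5) (nat_lit 5) (nat_lit 7) (nat_lit 4) (nat_lit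 5) (nat_lit 4) (nat_lit 310) (nat_lit 217) (nat_lit 193))) (XT.nd (nat_lit 78) (nat_lit 0) (nat_lit 0) (XT.lf (nat_lit 0) (nat_lit 6257094209) (nat_lit 76) (nat_lit 25926047381) (nat_lit 76) (nat_lit 15552461031) (nat_lit 4) (nat_lit 4) (nat_lit 5) (nat_lit 5) (nat_lit 5) (nat_lit 4) (nat_lit 311) (nat_lit 217) (nat_lit 192)) (XT.nd (nat_lit 78) (nat_lit 0) (nat_lit 0) (XT.lf (nat_lit 0) (nat_lit 13721229941) (nat_lit 76) (nat_lit 23427531134) (nat_lit 76) (nat_lit 12846942760) (nat_lit 4) (nat_lit 4) (nat_lit 5) (nat_lit 5) (nat_lit 5) (nat_lit 4) (nat_lit 312) (nat_lit 217) (nat_lit 191)) (XT.lf (nat_lit 0) (nat_lit 21434037675) (nat_lit 76) (nat_lit 20857355812) (nat_lit 76) (nat_lit 10079622653) (nat_lit 4) (nat_lit 4) (nat_lit 5) (nat_lit 5) (nat_lit 5) (nat_lit 4) (nat_lit 313) (nat_lit 217) (nat_lit 190))))) (XT.nd (nat_lit 234) (nat_lit 152) (nat_lit 0) (XT.nd (nat_lit 78) (nat_lit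 0) (nat_lit 0) (XT.lf (nat_lit 0) (nat_lit 29413881238) (nat_lit 76) (nat_lit 18209401949) (nat_lit 76) (nat_lit 7243911852) (nat_lit 4) (nat_lit 4) (nat_lit 5) (nat_lit 5) (nat_lit 5) (nat_lit 4) (nat_lit 314) (nat_lit 217) (nat_lit 189)) (XT.nd (nat_lit 78) (nat_lit 0) (nat_lit 0) (XT.lf (nat_lit 0) (nat_lit 37679760259) (nat_lit 76) (nat_lit 15477364892) (nat_lit 76) (nat_lit 4333058664) (nat_lit 4) (nat_lit 4) (nat_lit 5) (nat_lit 5) (nat_lit 5) (nat_lit 4) (nat_lit 315) (nat_lit 217) (nat_lit 188)) (XT.lf (nat_lit 0) (nat_lit 46251355401) (nat_lit 76) (nat_lit 12654739793) (nat_lit 76) (nat_lit 1340132488) (nat_lit 4) (nat_lit 4) (nat_lit 5) (nat_lit 5) (nat_lit 5) (nat_lit 4) (nat_lit 316) (nat_lit 217) (nat_lit 187)))) (XT.nd (nat_lit 78) (nat_lit 76) (nat_lit 0) (XT.lf (nat_lit 0) (nat_lit 1708000140) (nat_lit 152) (nat_lit 8009558523) (nat_lit 76) (nat_lit 53423827632) (nat_lit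 3) (nat_lit 5) (nat_lit 5) (nat_lit 5) (nat_lit 4) (nat_lit 4) (nat_lit 317) (nat_lit 217) (nat_lit 186)) (XT.nd (nat_lit 78) (nat_lit 76) (nat_lit 0) (XT.lf (nat_lit 0) (nat_lit 4824635561) (nat_lit 152) (nat_lit 1837256715) (nat_lit 76) (nat_lit 59520749856) (nat_lit 3) (nat_lit 5) (nat_lit 5) (nat_lit 5) (nat_lit 4) (nat_lit 4) (nat_lit 318) (nat_lit 217) (nat_lit 185)) (XT.lf (nat_lit 0) (nat_lit 4640157456) (nat_lit 76) (nat_lit 3447791723) (nat_lit 152) (nat_lit 61288335445) (nat_lit 2) (nat_lit 5) (nat_lit 3) (nat_lit 5) (nat_lit 4) (nat_lit 4) (nat_lit 319) (nat_lit 217) (nat_lit 184)))))) (XT.nd (nat_lit 390) (nat_lit 0) (nat_lit 0) (XT.nd (nat_lit 156) (nat_lit 0) (nat_lit 0) (XT.nd (nat_lit 78) (nat_lit 0) (nat_lit 0) (XT.lf (nat_lit 0) (nat_lit 11388482581) (nat_lit 76) (nat_lit 92782974) (nat_lit 152) (nat_lit 61249385484) (nat_lit 2) (nat_lit 5) (nat_lit 3) (nat_lit 5) (nat_lit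 4) (nat_lit 4) (nat_lit 320) (nat_lit 217) (nat_lit 183)) (XT.lf (nat_lit 0) (nat_lit 15027263144) (nat_lit 152) (nat_lit 57899658697) (nat_lit 0) (nat_lit 3326368147) (nat_lit 2) (nat_lit 5) (nat_lit 4) (nat_lit 4) (nat_lit 2) (nat_lit 4) (nat_lit 321) (nat_lit 217) (nat_lit 182))) (XT.nd (nat_lit 78) (nat_lit 0) (nat_lit 0) (XT.lf (nat_lit 0) (nat_lit 18703920298) (nat_lit 152) (nat_lit 54369936933) (nat_lit 0) (nat_lit 6879645412) (nat_lit 2) (nat_lit 5) (nat_lit 4) (nat_lit 4) (nat_lit 2) (nat_lit 4) (nat_lit 322) (nat_lit 217) (nat_lit 181)) (XT.nd (nat_lit 78) (nat_lit 0) (nat_lit 0) (XT.lf (nat_lit 0) (nat_lit 22519099075) (nat_lit 152) (nat_lit 50743707182) (nat_lit 0) (nat_lit 10577319533) (nat_lit 2) (nat_lit 5) (nat_lit 4) (nat_lit 4) (nat_lit 2) (nat_lit 4) (nat_lit 323) (nat_lit 217) (nat_lit 180)) (XT.lf (nat_lit 0) (nat_lit 26481883236) (nat_lit 152) (nat_lit 47012335561)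 (nat_lit 0) (nat_lit 14428194497) (nat_lit 2) (nat_lit 5) (nat_lit 4) (nat_lit 4) (nat_lit 2) (nat_lit 4) (nat_lit 324) (nat_lit 217) (nat_lit 179))))) (XT.nd (nat_lit 234) (nat_lit 0) (nat_lit 0) (XT.nd (nat_lit 78) (nat_lit 0) (nat_lit 0) (XT.lf (nat_lit 0) (nat_lit 30601707980) (nat_lit 152) (nat_lit 43166937854) (nat_lit 0) (nat_lit 18441439054) (nat_lit 2) (nat_lit 5) (nat_lit 4) (nat_lit 4) (nat_lit 2) (nat_lit 4) (nat_lit 325) (nat_lit 217) (nat_lit 178)) (XT.nd (nat_lit 78) (nat_lit 0) (nat_lit 0) (XT.lf (nat_lit 0) (nat_lit 34888382414) (nat_lit 152) (nat_lit 39198358351) (nat_lit 0) (nat_lit 22626608547) (nat_lit 2) (nat_lit 5) (nat_lit 4) (nat_lit 4) (nat_lit 2) (nat_lit 4) (nat_lit 326) (nat_lit 217) (nat_lit 177)) (XT.lf (nat_lit 0) (nat_lit 39352112905) (nat_lit 152) (nat_lit 35097148054) (nat_lit 0) (nat_lit 26993667667) (nat_lit 2) (nat_lit 5) (nat_lit 4) (nat_lit 4) (nat_lit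 2) (nat_lit 4) (nat_lit 327) (nat_lit 217) (nat_lit 176)))) (XT.nd (nat_lit 78) (nat_lit 0) (nat_lit 0) (XT.lf (nat_lit 0) (nat_lit 44003527384) (nat_lit 152) (nat_lit 30853542176) (nat_lit 0) (nat_lit 31553014173) (nat_lit 2) (nat_lit 5) (nat_lit 4) (nat_lit 4) (nat_lit 2) (nat_lit 4) (nat_lit 328) (nat_lit 217) (nat_lit 175)) (XT.nd (nat_lit 78) (nat_lit 0) (nat_lit 0) (XT.lf (nat_lit 0) (nat_lit 48853700646) (nat_lit 152) (nat_lit 26457436893) (nat_lit 0) (nat_lit 36315503651) (nat_lit 2) (nat_lit 5) (nat_lit 4) (nat_lit 4) (nat_lit 2) (nat_lit 4) (nat_lit 329) (nat_lit 217) (nat_lit 174)) (XT.lf (nat_lit 0) (nat_lit 53914180724) (nat_lit 152) (nat_lit 21898365289) (nat_lit 0) (nat_lit 41292475363) (nat_lit 2) (nat_lit 5) (nat_lit 4) (nat_lit 4) (nat_lit 2) (nat_lit 4) (nat_lit 330) (nat_lit 217) (nat_lit 173))))))))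
noncomputable def xc14 : XT := (XT.nd (nat_lit 35334) (nat_lit 0) (nat_lit 0) (XT.nd (nat_lit 34476) (nat_lit 0) (nat_lit 380) (XT.nd (nat_lit 34086) (nat_lit 0) (nat_lit 912) (XT.nd (nat_lit 33852) (nat_lit 0) (nat_lit 1368) (XT.nd (nat_lit 78) (nat_lit 0) (nat_lit 0) (XT.lf (nat_lit 0) (nat_lit 59197016379) (nat_lit 152) (nat_lit 17165472431) (nat_lit 0) (nat_lit 46495779241) (nat_lit 2) (nat_lit 5) (nat_lit 4) (nat_lit 4) (nat_lit 2) (nat_lit 4) (nat_lit 331) (nat_lit 217) (nat_lit 172)) (XT.lf (nat_lit 0) (nat_lit 64714785791) (nat_lit 152) (nat_lit 12247489526) (nat_lit 0) (nat_lit 51937804105) (nat_lit 2) (nat_lit 5) (nat_lit 4) (nat_lit 4) (nat_lit 2) (nat_lit 4) (nat_lit 332) (nat_lit 217) (nat_lit 171))) (XT.nd (nat_lit 78) (nat_lit 228) (nat_lit 0) (XT.lf (nat_lit 0) (nat_lit 4232823765) (nat_lit 152) (nat_lit 1700399760) (nat_lit 152) (nat_lit 1700399760) (nat_lit 23) (nat_lit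 4) (nat_lit 25) (nat_lit 5) (nat_lit 25) (nat_lit 4) (nat_lit 284) (nat_lit 218) (nat_lit 218)) (XT.nd (nat_lit 78) (nat_lit 0) (nat_lit 0) (XT.lf (nat_lit 0) (nat_lit 1993648551) (nat_lit 228) (nat_lit 12673172033) (nat_lit 0) (nat_lit 1165238678) (nat_lit 20) (nat_lit 5) (nat_lit 23) (nat_lit 4) (nat_lit 20) (nat_lit 4) (nat_lit 285) (nat_lit 218) (nat_lit 217)) (XT.lf (nat_lit 0) (nat_lit 7489443765) (nat_lit 228) (nat_lit 3065799902) (nat_lit 0) (nat_lit 5872072108) (nat_lit 20) (nat_lit 5) (nat_lit 23) (nat_lit 4) (nat_lit 20) (nat_lit 4) (nat_lit 286) (nat_lit 218) (nat_lit 216))))) (XT.nd (nat_lit 156) (nat_lit 228) (nat_lit 0) (XT.nd (nat_lit 78) (nat_lit 76) (nat_lit 0) (XT.lf (nat_lit 0) (nat_lit 6838260282) (nat_lit 152) (nat_lit 6293473320) (nat_lit 152) (nat_lit 3924709488) (nat_lit 18) (nat_lit 4) (nat_lit 20) (nat_lit 5) (nat_lit 20) (nat_lit 4) (nat_lit 287) (nat_lit 218)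 (nat_lit 215)) (XT.lf (nat_lit 0) (nat_lit 1155001387) (nat_lit 228) (nat_lit 739722609) (nat_lit 76) (nat_lit 15826895571) (nat_lit 17) (nat_lit 5) (nat_lit 20) (nat_lit 5) (nat_lit 18) (nat_lit 4) (nat_lit 288) (nat_lit 218) (nat_lit 214))) (XT.nd (nat_lit 78) (nat_lit 152) (nat_lit 0) (XT.lf (nat_lit 0) (nat_lit 6340810499) (nat_lit 152) (nat_lit 9395721424) (nat_lit 0) (nat_lit 2684586927) (nat_lit 16) (nat_lit 5) (nat_lit 18) (nat_lit 4) (nat_lit 16) (nat_lit 4) (nat_lit 289) (nat_lit 218) (nat_lit 213)) (XT.nd (nat_lit 78) (nat_lit 152) (nat_lit 0) (XT.lf (nat_lit 0) (nat_lit 11636655887) (nat_lit 152) (nat_lit 173375388) (nat_lit 0) (nat_lit 7350256769) (nat_lit 16) (nat_lit 5) (nat_lit 18) (nat_lit 4) (nat_lit 16) (nat_lit 4) (nat_lit 290) (nat_lit 218) (nat_lit 212)) (XT.lf (nat_lit 0) (nat_lit 9414714439) (nat_lit 152) (nat_lit 7705395030) (nat_lit 152) (nat_lit 2818828725) (nat_lit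 14) (nat_lit 4) (nat_lit 16) (nat_lit 5) (nat_lit 16) (nat_lit 4) (nat_lit 291) (nat_lit 218) (nat_lit 211)))))) (XT.nd (nat_lit 390) (nat_lit 228) (nat_lit 0) (XT.nd (nat_lit 156) (nat_lit 152) (nat_lit 0) (XT.nd (nat_lit 78) (nat_lit 76) (nat_lit 0) (XT.lf (nat_lit 0) (nat_lit 1917519519) (nat_lit 228) (nat_lit 1565589477) (nat_lit 76) (nat_lit 17277860603) (nat_lit 13) (nat_lit 5) (nat_lit 16) (nat_lit 5) (nat_lit 14) (nat_lit 4) (nat_lit 292) (nat_lit 218) (nat_lit 210)) (XT.lf (nat_lit 0) (nat_lit 6759807009) (nat_lit 152) (nat_lit 13933703611) (nat_lit 0) (nat_lit 932114356) (nat_lit 12) (nat_lit 5) (nat_lit 14) (nat_lit 4) (nat_lit 12) (nat_lit 4) (nat_lit 293) (nat_lit 218) (nat_lit 209))) (XT.nd (nat_lit 78) (nat_lit 152) (nat_lit 0) (XT.lf (nat_lit 0) (nat_lit 11743363902) (nat_lit 152) (nat_lit 5381023487) (nat_lit 0) (nat_lit 5412324666) (nat_lit 12) (nat_lit 5) (nat_lit 14)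 (nat_lit 4) (nat_lit 12) (nat_lit 4) (nat_lit 294) (nat_lit 218) (nat_lit 208)) (XT.nd (nat_lit 78) (nat_lit 0) (nat_lit 0) (XT.lf (nat_lit 0) (nat_lit 3420608179) (nat_lit 152) (nat_lit 13443345948) (nat_lit 152) (nat_lit 6632929014) (nat_lit 10) (nat_lit 4) (nat_lit 12) (nat_lit 5) (nat_lit 12) (nat_lit 4) (nat_lit 295) (nat_lit 218) (nat_lit 207)) (XT.lf (nat_lit 0) (nat_lit 12536373370) (nat_lit 152) (nat_lit 9619182264) (nat_lit 152) (nat_lit 2352215140) (nat_lit 10) (nat_lit 4) (nat_lit 12) (nat_lit 5) (nat_lit 12) (nat_lit 4) (nat_lit 296) (nat_lit 218) (nat_lit 206))))) (XT.nd (nat_lit 234) (nat_lit 76) (nat_lit 0) (XT.nd (nat_lit 78) (nat_lit 76) (nat_lit 0) (XT.lf (nat_lit 0) (nat_lit 1965529956) (nat_lit 228) (nat_lit 3711751016) (nat_lit 76) (nat_lit 19895505415) (nat_lit 9) (nat_lit 5) (nat_lit 12) (nat_lit 5) (nat_lit 10) (nat_lit 4) (nat_lit 297) (nat_lit 218) (nat_lit 205))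 (XT.nd (nat_lit 78) (nat_lit 0) (nat_lit 0) (XT.lf (nat_lit 0) (nat_lit 4812104666) (nat_lit 76) (nat_lit 1556361330) (nat_lit 152) (nat_lit 20324488221) (nat_lit 8) (nat_lit 5) (nat_lit 9) (nat_lit 5) (nat_lit 10) (nat_lit 4) (nat_lit 298) (nat_lit 218) (nat_lit 204)) (XT.lf (nat_lit 0) (nat_lit 10931252448) (nat_lit 152) (nat_lit 14270961168) (nat_lit 0) (nat_lit 2668857762) (nat_lit 8) (nat_lit 5) (nat_lit 10) (nat_lit 4) (nat_lit 8) (nat_lit 4) (nat_lit 299) (nat_lit 218) (nat_lit 203)))) (XT.nd (nat_lit 78) (nat_lit 76) (nat_lit 0) (XT.lf (nat_lit 0) (nat_lit 15618347292) (nat_lit 152) (nat_lit 6501700204) (nat_lit 0) (nat_lit 6991287586) (nat_lit 8) (nat_lit 5) (nat_lit 10) (nat_lit 4) (nat_lit 8) (nat_lit 4) (nat_lit 300) (nat_lit 218) (nat_lit 202)) (XT.nd (nat_lit 78) (nat_lit 0) (nat_lit 0) (XT.lf (nat_lit 0) (nat_lit 1489456945) (nat_lit 76) (nat_lit 18950810207) (nat_lit 76)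 (nat_lit 9976450482) (nat_lit 7) (nat_lit 4) (nat_lit 8) (nat_lit 5) (nat_lit 8) (nat_lit 4) (nat_lit 301) (nat_lit 218) (nat_lit 201)) (XT.lf (nat_lit 0) (nat_lit 9826014571) (nat_lit 76) (nat_lit 15633945078) (nat_lit 76) (nat_lit 6328823431) (nat_lit 7) (nat_lit 4) (nat_lit 8) (nat_lit 5) (nat_lit 8) (nat_lit 4) (nat_lit 302) (nat_lit 218) (nat_lit 200))))))) (XT.nd (nat_lit 858) (nat_lit 152) (nat_lit 0) (XT.nd (nat_lit 390) (nat_lit 76) (nat_lit 0) (XT.nd (nat_lit 156) (nat_lit 76) (nat_lit 0) (XT.nd (nat_lit 78) (nat_lit 76) (nat_lit 0) (XT.lf (nat_lit 0) (nat_lit 18398425038) (nat_lit 76) (nat_lit 12227209236) (nat_lit 76) (nat_lit 2607076234) (nat_lit 7) (nat_lit 4) (nat_lit 8) (nat_lit 5) (nat_lit 8) (nat_lit 4) (nat_lit 303) (nat_lit 218) (nat_lit 199)) (XT.lf (nat_lit 0) (nat_lit 1174281898) (nat_lit 152) (nat_lit 7536351562) (nat_lit 76) (nat_lit 26040959003) (nat_lit 6) (nat_lit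 5) (nat_lit 8) (nat_lit 5) (nat_lit 7) (nat_lit 4) (nat_lit 304) (nat_lit 218) (nat_lit 198))) (XT.nd (nat_lit 78) (nat_lit 76) (nat_lit 0) (XT.lf (nat_lit 0) (nat_lit 4995010871) (nat_lit 152) (nat_lit 65996332) (nat_lit 76) (nat_lit 31287605961) (nat_lit 6) (nat_lit 5) (nat_lit 8) (nat_lit 5) (nat_lit 7) (nat_lit 4) (nat_lit 305) (nat_lit 218) (nat_lit 197)) (XT.nd (nat_lit 78) (nat_lit 0) (nat_lit 0) (XT.lf (nat_lit 0) (nat_lit 7771273120) (nat_lit 76) (nat_lit 1218510216) (nat_lit 152) (nat_lit 29036302462) (nat_lit 5) (nat_lit 5) (nat_lit 6) (nat_lit 5) (nat_lit 7) (nat_lit 4) (nat_lit 306) (nat_lit 218) (nat_lit 196)) (XT.lf (nat_lit 0) (nat_lit 13122620460) (nat_lit 152) (nat_lit 23968543353) (nat_lit 0) (nat_lit 2698205241) (nat_lit 5) (nat_lit 5) (nat_lit 7) (nat_lit 4) (nat_lit 5) (nat_lit 4) (nat_lit 307) (nat_lit 218) (nat_lit 195))))) (XT.nd (nat_lit 234) (nat_lit 76) (nat_lit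 0) (XT.nd (nat_lit 78) (nat_lit 0) (nat_lit 0) (XT.lf (nat_lit 0) (nat_lit 17389226489) (nat_lit 152) (nat_lit 17528678260) (nat_lit 0) (nat_lit 6725180552) (nat_lit 5) (nat_lit 5) (nat_lit 7) (nat_lit 4) (nat_lit 5) (nat_lit 4) (nat_lit 308) (nat_lit 218) (nat_lit 194)) (XT.nd (nat_lit 78) (nat_lit 0) (nat_lit 0) (XT.lf (nat_lit 0) (nat_lit 21788046942) (nat_lit 152) (nat_lit 10908171323) (nat_lit 0) (nat_lit 10895781274) (nat_lit 5) (nat_lit 5) (nat_lit 7) (nat_lit 4) (nat_lit 5) (nat_lit 4) (nat_lit 309) (nat_lit 218) (nat_lit 193)) (XT.lf (nat_lit 0) (nat_lit 26329555203) (nat_lit 152) (nat_lit 4091259429) (nat_lit 0) (nat_lit 15219937410) (nat_lit 5) (nat_lit 5) (nat_lit 7) (nat_lit 4) (nat_lit 5) (nat_lit 4) (nat_lit 310) (nat_lit 218) (nat_lit 192)))) (XT.nd (nat_lit 78) (nat_lit 0) (nat_lit 0) (XT.lf (nat_lit 0) (nat_lit 2996765858) (nat_lit 76) (nat_lit 28056605275) (nat_lit 76)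 (nat_lit 16739985457) (nat_lit 4) (nat_lit 4) (nat_lit 5) (nat_lit 5) (nat_lit 5) (nat_lit 4) (nat_lit 311) (nat_lit 218) (nat_lit 191)) (XT.nd (nat_lit 78) (nat_lit 0) (nat_lit 0) (XT.lf (nat_lit 0) (nat_lit 10400152914) (nat_lit 76) (nat_lit 25584072802) (nat_lit 76) (nat_lit 14070308200) (nat_lit 4) (nat_lit 4) (nat_lit 5) (nat_lit 5) (nat_lit 5) (nat_lit 4) (nat_lit 312) (nat_lit 218) (nat_lit 190)) (XT.lf (nat_lit 0) (nat_lit 18055104767) (nat_lit 76) (nat_lit 23038643931) (nat_lit 76) (nat_lit 11337122391) (nat_lit 4) (nat_lit 4) (nat_lit 5) (nat_lit 5) (nat_lit 5) (nat_lit 4) (nat_lit 313) (nat_lit 218) (nat_lit 189)))))) (XT.nd (nat_lit 390) (nat_lit 76) (nat_lit 0) (XT.nd (nat_lit 156) (nat_lit 76) (nat_lit 0) (XT.nd (nat_lit 78) (nat_lit 0) (nat_lit 0) (XT.lf (nat_lit 0) (nat_lit 25979847491) (nat_lit 76) (nat_lit 20414258116) (nat_lit 76) (nat_lit 8533920445) (nat_lit 4) (nat_lit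 4) (nat_lit 5) (nat_lit 5) (nat_lit 5) (nat_lit 4) (nat_lit 314) (nat_lit 218) (nat_lit 188)) (XT.lf (nat_lit 0) (nat_lit 34193249521) (nat_lit 76) (nat_lit 17704666821) (nat_lit 76) (nat_lit 5654028073) (nat_lit 4) (nat_lit 4) (nat_lit 5) (nat_lit 5) (nat_lit 5) (nat_lit 4) (nat_lit 315) (nat_lit 218) (nat_lit 187))) (XT.nd (nat_lit 78) (nat_lit 76) (nat_lit 0) (XT.lf (nat_lit 0) (nat_lit 42714866578) (nat_lit 76) (nat_lit 14903418637) (nat_lit 76) (nat_lit 2690588387) (nat_lit 4) (nat_lit 4) (nat_lit 5) (nat_lit 5) (nat_lit 5) (nat_lit 4) (nat_lit 316) (nat_lit 218) (nat_lit 186)) (XT.nd (nat_lit 78) (nat_lit 0) (nat_lit 0) (XT.lf (nat_lit 0) (nat_lit 356362116) (nat_lit 152) (nat_lit 11643883251) (nat_lit 76) (nat_lit 51205027549) (nat_lit 3) (nat_lit 5) (nat_lit 5) (nat_lit 5) (nat_lit 4) (nat_lit 4) (nat_lit 317) (nat_lit 218) (nat_lit 185)) (XT.lf (nat_lit 0) (nat_lit 3446774315) (nat_lit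 152) (nat_lit 5517458960) (nat_lit 76) (nat_lit 57283106202) (nat_lit 3) (nat_lit 5) (nat_lit 5) (nat_lit 5) (nat_lit 4) (nat_lit 4) (nat_lit 318) (nat_lit 218) (nat_lit 184))))) (XT.nd (nat_lit 234) (nat_lit 0) (nat_lit 0) (XT.nd (nat_lit 78) (nat_lit 0) (nat_lit 0) (XT.lf (nat_lit 0) (nat_lit 842149522) (nat_lit 76) (nat_lit 5806455138) (nat_lit 152) (nat_lit 62794244690) (nat_lit 2) (nat_lit 5) (nat_lit 3) (nat_lit 5) (nat_lit 4) (nat_lit 4) (nat_lit 319) (nat_lit 218) (nat_lit 183)) (XT.nd (nat_lit 78) (nat_lit 0) (nat_lit 0) (XT.lf (nat_lit 0) (nat_lit 7548034220) (nat_lit 76) (nat_lit 2469693616) (nat_lit 152) (nat_lit 62780235517) (nat_lit 2) (nat_lit 5) (nat_lit 3) (nat_lit 5) (nat_lit 4) (nat_lit 4) (nat_lit 320) (nat_lit 218) (nat_lit 182)) (XT.lf (nat_lit 0) (nat_lit 13517668914) (nat_lit 152) (nat_lit 61825535446) (nat_lit 0) (nat_lit 978800394) (nat_lit 2) (nat_lit 5) (nat_lit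 4) (nat_lit 4) (nat_lit 2) (nat_lit 4) (nat_lit 321) (nat_lit 218) (nat_lit 181)))) (XT.nd (nat_lit 78) (nat_lit 0) (nat_lit 0) (XT.lf (nat_lit 0) (nat_lit 17172223027) (nat_lit 152) (nat_lit 58334827390) (nat_lit 0) (nat_lit 4515849851) (nat_lit 2) (nat_lit 5) (nat_lit 4) (nat_lit 4) (nat_lit 2) (nat_lit 4) (nat_lit 322) (nat_lit 218) (nat_lit 180)) (XT.nd (nat_lit 78) (nat_lit 0) (nat_lit 0) (XT.lf (nat_lit 0) (nat_lit 20966351289) (nat_lit 152) (nat_lit 54745753550) (nat_lit 0) (nat_lit 8198068917) (nat_lit 2) (nat_lit 5) (nat_lit 4) (nat_lit 4) (nat_lit 2) (nat_lit 4) (nat_lit 323) (nat_lit 218) (nat_lit 179)) (XT.lf (nat_lit 0) (nat_lit 24909087340) (nat_lit 152) (nat_lit 51049768512) (nat_lit 0) (nat_lit 12034224780) (nat_lit 2) (nat_lit 5) (nat_lit 4) (nat_lit 4) (nat_lit 2) (nat_lit 4) (nat_lit 324) (nat_lit 218) (nat_lit 178))))))))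
noncomputable def xc15 : XT := (XT.nd (nat_lit 35178) (nat_lit 0) (nat_lit 152) (XT.nd (nat_lit 34320) (nat_lit 0) (nat_lit 760) (XT.nd (nat_lit 390) (nat_lit 0) (nat_lit 0) (XT.nd (nat_lit 156) (nat_lit 0) (nat_lit 0) (XT.nd (nat_lit 78) (nat_lit 0) (nat_lit 0) (XT.lf (nat_lit 0) (nat_lit 29009818647) (nat_lit 152) (nat_lit 47238072312) (nat_lit 0) (nat_lit 16033451146) (nat_lit 2) (nat_lit 5) (nat_lit 4) (nat_lit 4) (nat_lit 2) (nat_lit 4) (nat_lit 325) (nat_lit 218) (nat_lit 177)) (XT.lf (nat_lit 0) (nat_lit 33278308854) (nat_lit 152) (nat_lit 43301589483) (nat_lit 0) (nat_lit 20205269982) (nat_lit 2) (nat_lit 5) (nat_lit 4) (nat_lit 4) (nat_lit 2) (nat_lit 4) (nat_lit 326) (nat_lit 218) (nat_lit 176))) (XT.nd (nat_lit 78) (nat_lit 0) (nat_lit 0) (XT.lf (nat_lit 0) (nat_lit 37724721035) (nat_lit 152) (nat_lit 39230947446) (nat_lit 0) (nat_lit 24559614190) (nat_lit 2) (nat_lit 5) (nat_lit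 4) (nat_lit 4) (nat_lit 2) (nat_lit 4) (nat_lit 327) (nat_lit 218) (nat_lit 175)) (XT.nd (nat_lit 78) (nat_lit 0) (nat_lit 0) (XT.lf (nat_lit 0) (nat_lit 42359641884) (nat_lit 152) (nat_lit 35016454197) (nat_lit 0) (nat_lit 29106851255) (nat_lit 2) (nat_lit 5) (nat_lit 4) (nat_lit 4) (nat_lit 2) (nat_lit 4) (nat_lit 328) (nat_lit 218) (nat_lit 174)) (XT.lf (nat_lit 0) (nat_lit 47194106928) (nat_lit 152) (nat_lit 30648075228) (nat_lit 0) (nat_lit 33857807933) (nat_lit 2) (nat_lit 5) (nat_lit 4) (nat_lit 4) (nat_lit 2) (nat_lit 4) (nat_lit 329) (nat_lit 218) (nat_lit 173))))) (XT.nd (nat_lit 156) (nat_lit 0) (nat_lit 0) (XT.nd (nat_lit 78) (nat_lit 0) (nat_lit 0) (XT.lf (nat_lit 0) (nat_lit 52239626797) (nat_lit 152) (nat_lit 26115409636) (nat_lit 0) (nat_lit 38823796026) (nat_lit 2) (nat_lit 5) (nat_lit 4) (nat_lit 4) (nat_lit 2) (nat_lit 4) (nat_lit 330) (nat_lit 218) (nat_lit 172)) (XT.lf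 (nat_lit 0) (nat_lit 57508214635) (nat_lit 152) (nat_lit 21407665361) (nat_lit 0) (nat_lit 44016639315) (nat_lit 2) (nat_lit 5) (nat_lit 4) (nat_lit 4) (nat_lit 2) (nat_lit 4) (nat_lit 331) (nat_lit 218) (nat_lit 171))) (XT.nd (nat_lit 33618) (nat_lit 0) (nat_lit 1748) (XT.lf (nat_lit 0) (nat_lit 63012414698) (nat_lit 152) (nat_lit 16513633488) (nat_lit 0) (nat_lit 49448701712) (nat_lit 2) (nat_lit 5) (nat_lit 4) (nat_lit 4) (nat_lit 2) (nat_lit 4) (nat_lit 332) (nat_lit 218) (nat_lit 170)) (XT.nd (nat_lit 78) (nat_lit 0) (nat_lit 0) (XT.lf (nat_lit 0) (nat_lit 655900942) (nat_lit 228) (nat_lit 5800937167) (nat_lit 0) (nat_lit 655900942) (nat_lit 25) (nat_lit 5) (nat_lit 28) (nat_lit 4) (nat_lit 25) (nat_lit 4) (nat_lit 282) (nat_lit 219) (nat_lit 219)) (XT.lf (nat_lit 0) (nat_lit 6908670450) (nat_lit 228) (nat_lit 1811831969) (nat_lit 0) (nat_lit 6012745172) (nat_lit 25) (nat_lit 5) (nat_lit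 28) (nat_lit 4) (nat_lit 25) (nat_lit 4) (nat_lit 283) (nat_lit 219) (nat_lit 218)))))) (XT.nd (nat_lit 390) (nat_lit 380) (nat_lit 0) (XT.nd (nat_lit 156) (nat_lit 228) (nat_lit 0) (XT.nd (nat_lit 78) (nat_lit 228) (nat_lit 0) (XT.lf (nat_lit 0) (nat_lit 8303181752) (nat_lit 152) (nat_lit 4358212573) (nat_lit 152) (nat_lit 2609025126) (nat_lit 23) (nat_lit 4) (nat_lit 25) (nat_lit 5) (nat_lit 25) (nat_lit 4) (nat_lit 284) (nat_lit 219) (nat_lit 217)) (XT.lf (nat_lit 0) (nat_lit 2659748808) (nat_lit 228) (nat_lit 13006147655) (nat_lit 0) (nat_lit 172546784) (nat_lit 20) (nat_lit 5) (nat_lit 23) (nat_lit 4) (nat_lit 20) (nat_lit 4) (nat_lit 285) (nat_lit 219) (nat_lit 216))) (XT.nd (nat_lit 78) (nat_lit 228) (nat_lit 0) (XT.lf (nat_lit 0) (nat_lit 8060895886) (nat_lit 228) (nat_lit 3553468032) (nat_lit 0) (nat_lit 4822301687) (nat_lit 20) (nat_lit 5) (nat_lit 23) (nat_lit 4) (nat_lit 20)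 (nat_lit 4) (nat_lit 286) (nat_lit 219) (nat_lit 215)) (XT.nd (nat_lit 78) (nat_lit 76) (nat_lit 0) (XT.lf (nat_lit 0) (nat_lit 6190628322) (nat_lit 152) (nat_lit 7416190886) (nat_lit 152) (nat_lit 3461985092) (nat_lit 18) (nat_lit 4) (nat_lit 20) (nat_lit 5) (nat_lit 20) (nat_lit 4) (nat_lit 287) (nat_lit 219) (nat_lit 214)) (XT.lf (nat_lit 0) (nat_lit 1520496101) (nat_lit 228) (nat_lit 1549133561) (nat_lit 76) (nat_lit 14666974996) (nat_lit 17) (nat_lit 5) (nat_lit 20) (nat_lit 5) (nat_lit 18) (nat_lit 4) (nat_lit 288) (nat_lit 219) (nat_lit 213))))) (XT.nd (nat_lit 234) (nat_lit 152) (nat_lit 0) (XT.nd (nat_lit 78) (nat_lit 152) (nat_lit 0) (XT.lf (nat_lit 0) (nat_lit 6601110368) (nat_lit 152) (nat_lit 10368039679) (nat_lit 0) (nat_lit 1470215748) (nat_lit 16) (nat_lit 5) (nat_lit 18) (nat_lit 4) (nat_lit 16) (nat_lit 4) (nat_lit 289) (nat_lit 219) (nat_lit 212)) (XT.nd (nat_lit 78) (nat_lit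 152) (nat_lit 0) (XT.lf (nat_lit 0) (nat_lit 11815158649) (nat_lit 152) (nat_lit 1281834375) (nat_lit 0) (nat_lit 6084096842) (nat_lit 16) (nat_lit 5) (nat_lit 18) (nat_lit 4) (nat_lit 16) (nat_lit 4) (nat_lit 290) (nat_lit 219) (nat_lit 211)) (XT.lf (nat_lit 0) (nat_lit 8151956660) (nat_lit 152) (nat_lit 9056615163) (nat_lit 152) (nat_lit 2753965559) (nat_lit 14) (nat_lit 4) (nat_lit 16) (nat_lit 5) (nat_lit 16) (nat_lit 4) (nat_lit 291) (nat_lit 219) (nat_lit 210)))) (XT.nd (nat_lit 78) (nat_lit 76) (nat_lit 0) (XT.lf (nat_lit 0) (nat_lit 1904877605) (nat_lit 228) (nat_lit 2980117394) (nat_lit 76) (nat_lit 15901931173) (nat_lit 13) (nat_lit 5) (nat_lit 16) (nat_lit 5) (nat_lit 14) (nat_lit 4) (nat_lit 292) (nat_lit 219) (nat_lit 209)) (XT.nd (nat_lit 78) (nat_lit 0) (nat_lit 0) (XT.lf (nat_lit 0) (nat_lit 6134762773) (nat_lit 76) (nat_lit 515596186) (nat_lit 152) (nat_lit 15004211449)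 (nat_lit 12) (nat_lit 5) (nat_lit 13) (nat_lit 5) (nat_lit 14) (nat_lit 4) (nat_lit 293) (nat_lit 219) (nat_lit 208)) (XT.lf (nat_lit 0) (nat_lit 11558215485) (nat_lit 152) (nat_lit 7081893651) (nat_lit 0) (nat_lit 3927900005) (nat_lit 12) (nat_lit 5) (nat_lit 14) (nat_lit 4) (nat_lit 12) (nat_lit 4) (nat_lit 294) (nat_lit 219) (nat_lit 207))))))) (XT.nd (nat_lit 858) (nat_lit 152) (nat_lit 0) (XT.nd (nat_lit 390) (nat_lit 152) (nat_lit 0) (XT.nd (nat_lit 156) (nat_lit 152) (nat_lit 0) (XT.nd (nat_lit 78) (nat_lit 0) (nat_lit 0) (XT.lf (nat_lit 0) (nat_lit 1569596815) (nat_lit 152) (nat_lit 15024040468) (nat_lit 152) (nat_lit 6937174799) (nat_lit 10) (nat_lit 4) (nat_lit 12) (nat_lit 5) (nat_lit 12) (nat_lit 4) (nat_lit 295) (nat_lit 219) (nat_lit 206)) (XT.lf (nat_lit 0) (nat_lit 10574609104) (nat_lit 152) (nat_lit 11245398040) (nat_lit 152) (nat_lit 2723722667) (nat_lit 10) (nat_lit 4)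 (nat_lit 12) (nat_lit 5) (nat_lit 12) (nat_lit 4) (nat_lit 296) (nat_lit 219) (nat_lit 205))) (XT.nd (nat_lit 78) (nat_lit 76) (nat_lit 0) (XT.lf (nat_lit 0) (nat_lit 1538463095) (nat_lit 228) (nat_lit 5812699767) (nat_lit 76) (nat_lit 18259641593) (nat_lit 9) (nat_lit 5) (nat_lit 12) (nat_lit 5) (nat_lit 10) (nat_lit 4) (nat_lit 297) (nat_lit 219) (nat_lit 204)) (XT.nd (nat_lit 78) (nat_lit 0) (nat_lit 0) (XT.lf (nat_lit 0) (nat_lit 2565607612) (nat_lit 76) (nat_lit 3294378931) (nat_lit 152) (nat_lit 20873492534) (nat_lit 8) (nat_lit 5) (nat_lit 9) (nat_lit 5) (nat_lit 10) (nat_lit 4) (nat_lit 298) (nat_lit 219) (nat_lit 203)) (XT.lf (nat_lit 0) (nat_lit 10347754076) (nat_lit 152) (nat_lit 16641477709) (nat_lit 0) (nat_lit 924676365) (nat_lit 8) (nat_lit 5) (nat_lit 10) (nat_lit 4) (nat_lit 8) (nat_lit 4) (nat_lit 299) (nat_lit 219) (nat_lit 202))))) (XT.nd (nat_lit 234) (nat_lit 76) (nat_lit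 0) (XT.nd (nat_lit 78) (nat_lit 76) (nat_lit 0) (XT.lf (nat_lit 0) (nat_lit 14979313653) (nat_lit 152) (nat_lit 8967646761) (nat_lit 0) (nat_lit 5208935923) (nat_lit 8) (nat_lit 5) (nat_lit 10) (nat_lit 4) (nat_lit 8) (nat_lit 4) (nat_lit 300) (nat_lit 219) (nat_lit 201)) (XT.nd (nat_lit 78) (nat_lit 76) (nat_lit 0) (XT.lf (nat_lit 0) (nat_lit 19734025211) (nat_lit 152) (nat_lit 1096440010) (nat_lit 0) (nat_lit 9632885559) (nat_lit 8) (nat_lit 5) (nat_lit 10) (nat_lit 4) (nat_lit 8) (nat_lit 4) (nat_lit 301) (nat_lit 219) (nat_lit 200)) (XT.lf (nat_lit 0) (nat_lit 7130015802) (nat_lit 76) (nat_lit 17561731764) (nat_lit 76) (nat_lit 7145580757) (nat_lit 7) (nat_lit 4) (nat_lit 8) (nat_lit 5) (nat_lit 8) (nat_lit 4) (nat_lit 302) (nat_lit 219) (nat_lit 199)))) (XT.nd (nat_lit 78) (nat_lit 76) (nat_lit 0) (XT.lf (nat_lit 0) (nat_lit 15618349595) (nat_lit 76) (nat_lit 14190290948) (nat_lit 76)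 (nat_lit 3474129126) (nat_lit 7) (nat_lit 4) (nat_lit 8) (nat_lit 5) (nat_lit 8) (nat_lit 4) (nat_lit 303) (nat_lit 219) (nat_lit 198)) (XT.nd (nat_lit 78) (nat_lit 0) (nat_lit 0) (XT.lf (nat_lit 0) (nat_lit 277182503) (nat_lit 152) (nat_lit 10439205925) (nat_lit 76) (nat_lit 24086968877) (nat_lit 6) (nat_lit 5) (nat_lit 8) (nat_lit 5) (nat_lit 7) (nat_lit 4) (nat_lit 304) (nat_lit 219) (nat_lit 197)) (XT.lf (nat_lit 0) (nat_lit 4053182116) (nat_lit 152) (nat_lit 3046045362) (nat_lit 76) (nat_lit 29302536852) (nat_lit 6) (nat_lit 5) (nat_lit 8) (nat_lit 5) (nat_lit 7) (nat_lit 4) (nat_lit 305) (nat_lit 219) (nat_lit 196)))))) (XT.nd (nat_lit 390) (nat_lit 76) (nat_lit 0) (XT.nd (nat_lit 156) (nat_lit 0) (nat_lit 0) (XT.nd (nat_lit 78) (nat_lit 0) (nat_lit 0) (XT.lf (nat_lit 0) (nat_lit 4656933373) (nat_lit 76) (nat_lit 3318484879) (nat_lit 152) (nat_lit 30106037129) (nat_lit 5) (nat_lit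 5) (nat_lit 6) (nat_lit 5) (nat_lit 7) (nat_lit 4) (nat_lit 306) (nat_lit 219) (nat_lit 195)) (XT.lf (nat_lit 0) (nat_lit 12046521979) (nat_lit 152) (nat_lit 27190465944) (nat_lit 0) (nat_lit 609643028) (nat_lit 5) (nat_lit 5) (nat_lit 7) (nat_lit 4) (nat_lit 5) (nat_lit 4) (nat_lit 307) (nat_lit 219) (nat_lit 194))) (XT.nd (nat_lit 78) (nat_lit 0) (nat_lit 0) (XT.lf (nat_lit 0) (nat_lit 16273559288) (nat_lit 152) (nat_lit 20819552759) (nat_lit 0) (nat_lit 4608460605) (nat_lit 5) (nat_lit 5) (nat_lit 7) (nat_lit 4) (nat_lit 5) (nat_lit 4) (nat_lit 308) (nat_lit 219) (nat_lit 193)) (XT.nd (nat_lit 78) (nat_lit 0) (nat_lit 0) (XT.lf (nat_lit 0) (nat_lit 20634695246) (nat_lit 152) (nat_lit 14264714305) (nat_lit 0) (nat_lit 8752244438) (nat_lit 5) (nat_lit 5) (nat_lit 7) (nat_lit 4) (nat_lit 5) (nat_lit 4) (nat_lit 309) (nat_lit 219) (nat_lit 192)) (XT.lf (nat_lit 0) (nat_lit 25140313511) (nat_lit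 152) (nat_lit 7510343824) (nat_lit 0) (nat_lit 13050860679) (nat_lit 5) (nat_lit 5) (nat_lit 7) (nat_lit 4) (nat_lit 5) (nat_lit 4) (nat_lit 310) (nat_lit 219) (nat_lit 191))))) (XT.nd (nat_lit 234) (nat_lit 0) (nat_lit 0) (XT.nd (nat_lit 78) (nat_lit 76) (nat_lit 0) (XT.lf (nat_lit 0) (nat_lit 29801141746) (nat_lit 152) (nat_lit 540359481) (nat_lit 0) (nat_lit 17514544130) (nat_lit 5) (nat_lit 5) (nat_lit 7) (nat_lit 4) (nat_lit 5) (nat_lit 4) (nat_lit 311) (nat_lit 219) (nat_lit 190)) (XT.nd (nat_lit 78) (nat_lit 0) (nat_lit 0) (XT.lf (nat_lit 0) (nat_lit 6794417479) (nat_lit 76) (nat_lit 27899171778) (nat_lit 76) (nat_lit 15424817223) (nat_lit 4) (nat_lit 4) (nat_lit 5) (nat_lit 5) (nat_lit 5) (nat_lit 4) (nat_lit 312) (nat_lit 219) (nat_lit 189)) (XT.lf (nat_lit 0) (nat_lit 14394268492) (nat_lit 76) (nat_lit 25377310955) (nat_lit 76) (nat_lit 12724140270) (nat_lit 4) (nat_lit 4) (nat_lit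 5) (nat_lit 5) (nat_lit 5) (nat_lit 4) (nat_lit 313) (nat_lit 219) (nat_lit 188)))) (XT.nd (nat_lit 78) (nat_lit 0) (nat_lit 0) (XT.lf (nat_lit 0) (nat_lit 22266534226) (nat_lit 76) (nat_lit 22775370902) (nat_lit 76) (nat_lit 9951899139) (nat_lit 4) (nat_lit 4) (nat_lit 5) (nat_lit 5) (nat_lit 5) (nat_lit 4) (nat_lit 314) (nat_lit 219) (nat_lit 187)) (XT.nd (nat_lit 78) (nat_lit 0) (nat_lit 0) (XT.lf (nat_lit 0) (nat_lit 30429958171) (nat_lit 76) (nat_lit 20087156522) (nat_lit 76) (nat_lit 7101493257) (nat_lit 4) (nat_lit 4) (nat_lit 5) (nat_lit 5) (nat_lit 5) (nat_lit 4) (nat_lit 315) (nat_lit 219) (nat_lit 186)) (XT.lf (nat_lit 0) (nat_lit 38903977051) (nat_lit 76) (nat_lit 17306267305) (nat_lit 76) (nat_lit 4166135942) (nat_lit 4) (nat_lit 4) (nat_lit 5) (nat_lit 5) (nat_lit 5) (nat_lit 4) (nat_lit 316) (nat_lit 219) (nat_lit 185))))))))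
noncomputable def xc16 : XT := (XT.nd (nat_lit 35022) (nat_lit 0) (nat_lit 304) (XT.nd (nat_lit 780) (nat_lit 0) (nat_lit 0) (XT.nd (nat_lit 390) (nat_lit 0) (nat_lit 0) (XT.nd (nat_lit 156) (nat_lit 76) (nat_lit 0) (XT.nd (nat_lit 78) (nat_lit 76) (nat_lit 0) (XT.lf (nat_lit 0) (nat_lit 47708767100) (nat_lit 76) (nat_lit 14426082086) (nat_lit 76) (nat_lit 1138838250) (nat_lit 4) (nat_lit 4) (nat_lit 5) (nat_lit 5) (nat_lit 5) (nat_lit 4) (nat_lit 317) (nat_lit 219) (nat_lit 184)) (XT.lf (nat_lit 0) (nat_lit 1948822287) (nat_lit 152) (nat_lit 9471241710) (nat_lit 76) (nat_lit 54896790534) (nat_lit 3) (nat_lit 5) (nat_lit 5) (nat_lit 5) (nat_lit 4) (nat_lit 4) (nat_lit 318) (nat_lit 219) (nat_lit 183))) (XT.nd (nat_lit 78) (nat_lit 76) (nat_lit 0) (XT.lf (nat_lit 0) (nat_lit 5118772140) (nat_lit 152) (nat_lit 3169678857) (nat_lit 76) (nat_lit 61224891614) (nat_lit 3) (nat_lit 5) (nat_lit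 5) (nat_lit 5) (nat_lit 4) (nat_lit 4) (nat_lit 319) (nat_lit 219) (nat_lit 182)) (XT.nd (nat_lit 78) (nat_lit 0) (nat_lit 0) (XT.lf (nat_lit 0) (nat_lit 3432703561) (nat_lit 76) (nat_lit 5001075330) (nat_lit 152) (nat_lit 64436321972) (nat_lit 2) (nat_lit 5) (nat_lit 3) (nat_lit 5) (nat_lit 4) (nat_lit 4) (nat_lit 320) (nat_lit 219) (nat_lit 181)) (XT.lf (nat_lit 0) (nat_lit 10352527896) (nat_lit 76) (nat_lit 1549652045) (nat_lit 152) (nat_lit 64492928291) (nat_lit 2) (nat_lit 5) (nat_lit 3) (nat_lit 5) (nat_lit 4) (nat_lit 4) (nat_lit 321) (nat_lit 219) (nat_lit 180))))) (XT.nd (nat_lit 156) (nat_lit 0) (nat_lit 0) (XT.nd (nat_lit 78) (nat_lit 0) (nat_lit 0) (XT.lf (nat_lit 0) (nat_lit 15520787336) (nat_lit 152) (nat_lit 62574131988) (nat_lit 0) (nat_lit 2002181648) (nat_lit 2) (nat_lit 5) (nat_lit 4) (nat_lit 4) (nat_lit 2) (nat_lit 4) (nat_lit 322) (nat_lit 219) (nat_lit 179)) (XT.lf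 (nat_lit 0) (nat_lit 19294867489) (nat_lit 152) (nat_lit 59020444731) (nat_lit 0) (nat_lit 5669681614) (nat_lit 2) (nat_lit 5) (nat_lit 4) (nat_lit 4) (nat_lit 2) (nat_lit 4) (nat_lit 323) (nat_lit 219) (nat_lit 178))) (XT.nd (nat_lit 78) (nat_lit 0) (nat_lit 0) (XT.lf (nat_lit 0) (nat_lit 23218510102) (nat_lit 152) (nat_lit 55358161200) (nat_lit 0) (nat_lit 9491819287) (nat_lit 2) (nat_lit 5) (nat_lit 4) (nat_lit 4) (nat_lit 2) (nat_lit 4) (nat_lit 324) (nat_lit 219) (nat_lit 177)) (XT.nd (nat_lit 78) (nat_lit 0) (nat_lit 0) (XT.lf (nat_lit 0) (nat_lit 27301057182) (nat_lit 152) (nat_lit 51578561674) (nat_lit 0) (nat_lit 13477694995) (nat_lit 2) (nat_lit 5) (nat_lit 4) (nat_lit 4) (nat_lit 2) (nat_lit 4) (nat_lit 325) (nat_lit 219) (nat_lit 176)) (XT.lf (nat_lit 0) (nat_lit 31552229079) (nat_lit 152) (nat_lit 47672647105) (nat_lit 0) (nat_lit 17636798919) (nat_lit 2) (nat_lit 5) (nat_lit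 4) (nat_lit 4) (nat_lit 2) (nat_lit 4) (nat_lit 326) (nat_lit 219) (nat_lit 175)))))) (XT.nd (nat_lit 390) (nat_lit 0) (nat_lit 0) (XT.nd (nat_lit 156) (nat_lit 0) (nat_lit 0) (XT.nd (nat_lit 78) (nat_lit 0) (nat_lit 0) (XT.lf (nat_lit 0) (nat_lit 35982147630) (nat_lit 152) (nat_lit 43631117697) (nat_lit 0) (nat_lit 21979033686) (nat_lit 2) (nat_lit 5) (nat_lit 4) (nat_lit 4) (nat_lit 2) (nat_lit 4) (nat_lit 327) (nat_lit 219) (nat_lit 174)) (XT.lf (nat_lit 0) (nat_lit 40601360261) (nat_lit 152) (nat_lit 39444350761) (nat_lit 0) (nat_lit 26514737951) (nat_lit 2) (nat_lit 5) (nat_lit 4) (nat_lit 4) (nat_lit 2) (nat_lit 4) (nat_lit 328) (nat_lit 219) (nat_lit 173))) (XT.nd (nat_lit 78) (nat_lit 0) (nat_lit 0) (XT.lf (nat_lit 0) (nat_lit 45420865097) (nat_lit 152) (nat_lit 35102377805) (nat_lit 0) (nat_lit 31254711010) (nat_lit 2) (nat_lit 5) (nat_lit 4) (nat_lit 4) (nat_lit 2) (nat_lit 4)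 (nat_lit 329) (nat_lit 219) (nat_lit 172)) (XT.nd (nat_lit 78) (nat_lit 0) (nat_lit 0) (XT.lf (nat_lit 0) (nat_lit 50452137149) (nat_lit 152) (nat_lit 30594860797) (nat_lit 0) (nat_lit 36210238514) (nat_lit 2) (nat_lit 5) (nat_lit 4) (nat_lit 4) (nat_lit 2) (nat_lit 4) (nat_lit 330) (nat_lit 219) (nat_lit 171)) (XT.lf (nat_lit 0) (nat_lit 55707155637) (nat_lit 152) (nat_lit 25911067554) (nat_lit 0) (nat_lit 41393119336) (nat_lit 2) (nat_lit 5) (nat_lit 4) (nat_lit 4) (nat_lit 2) (nat_lit 4) (nat_lit 331) (nat_lit 219) (nat_lit 170))))) (XT.nd (nat_lit 33618) (nat_lit 0) (nat_lit 1596) (XT.nd (nat_lit 33462) (nat_lit 0) (nat_lit 1976) (XT.lf (nat_lit 0) (nat_lit 61198432510) (nat_lit 152) (nat_lit 21039846187) (nat_lit 0) (nat_lit 46815693669) (nat_lit 2) (nat_lit 5) (nat_lit 4) (nat_lit 4) (nat_lit 2) (nat_lit 4) (nat_lit 332) (nat_lit 219) (nat_lit 169)) (XT.nd (nat_lit 78) (nat_lit 152)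 (nat_lit 0) (XT.lf (nat_lit 0) (nat_lit 2376191263) (nat_lit 228) (nat_lit 1890603481) (nat_lit 0) (nat_lit 2376191263) (nat_lit 30) (nat_lit 5) (nat_lit 33) (nat_lit 4) (nat_lit 30) (nat_lit 4) (nat_lit 280) (nat_lit 220) (nat_lit 220)) (XT.lf (nat_lit 0) (nat_lit 6313531635) (nat_lit 152) (nat_lit 4199679100) (nat_lit 152) (nat_lit 3230735912) (nat_lit 28) (nat_lit 4) (nat_lit 30) (nat_lit 5) (nat_lit 30) (nat_lit 4) (nat_lit 281) (nat_lit 220) (nat_lit 219)))) (XT.nd (nat_lit 78) (nat_lit 152) (nat_lit 0) (XT.lf (nat_lit 0) (nat_lit 2148136329) (nat_lit 228) (nat_lit 11769134593) (nat_lit 0) (nat_lit 311489510) (nat_lit 25) (nat_lit 5) (nat_lit 28) (nat_lit 4) (nat_lit 25) (nat_lit 4) (nat_lit 282) (nat_lit 220) (nat_lit 218)) (XT.nd (nat_lit 78) (nat_lit 152) (nat_lit 0) (XT.lf (nat_lit 0) (nat_lit 7645588611) (nat_lit 228) (nat_lit 2138387713) (nat_lit 0) (nat_lit 4955679623) (nat_lit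 25) (nat_lit 5) (nat_lit 28) (nat_lit 4) (nat_lit 25) (nat_lit 4) (nat_lit 283) (nat_lit 220) (nat_lit 217)) (XT.lf (nat_lit 0) (nat_lit 7815397596) (nat_lit 152) (nat_lit 5483543838) (nat_lit 152) (nat_lit 1981004212) (nat_lit 23) (nat_lit 4) (nat_lit 25) (nat_lit 5) (nat_lit 25) (nat_lit 4) (nat_lit 284) (nat_lit 220) (nat_lit 216))))))) (XT.nd (nat_lit 780) (nat_lit 456) (nat_lit 0) (XT.nd (nat_lit 390) (nat_lit 304) (nat_lit 0) (XT.nd (nat_lit 156) (nat_lit 304) (nat_lit 0) (XT.nd (nat_lit 78) (nat_lit 0) (nat_lit 0) (XT.lf (nat_lit 0) (nat_lit 2168370066) (nat_lit 152) (nat_lit 1006429752) (nat_lit 228) (nat_lit 12676136365) (nat_lit 20) (nat_lit 5) (nat_lit 22) (nat_lit 5) (nat_lit 23) (nat_lit 4) (nat_lit 285) (nat_lit 220) (nat_lit 215)) (XT.lf (nat_lit 0) (nat_lit 8476131398) (nat_lit 228) (nat_lit 4367538274) (nat_lit 0) (nat_lit 3608603719) (nat_lit 20) (nat_lit 5) (nat_lit 23)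 (nat_lit 4) (nat_lit 20) (nat_lit 4) (nat_lit 286) (nat_lit 220) (nat_lit 214))) (XT.nd (nat_lit 78) (nat_lit 152) (nat_lit 0) (XT.lf (nat_lit 0) (nat_lit 5217253365) (nat_lit 152) (nat_lit 8709596032) (nat_lit 152) (nat_lit 3160533500) (nat_lit 18) (nat_lit 4) (nat_lit 20) (nat_lit 5) (nat_lit 20) (nat_lit 4) (nat_lit 287) (nat_lit 220) (nat_lit 213)) (XT.nd (nat_lit 78) (nat_lit 76) (nat_lit 0) (XT.lf (nat_lit 0) (nat_lit 1732065036) (nat_lit 228) (nat_lit 2682051318) (nat_lit 76) (nat_lit 13343605984) (nat_lit 17) (nat_lit 5) (nat_lit 20) (nat_lit 5) (nat_lit 18) (nat_lit 4) (nat_lit 288) (nat_lit 220) (nat_lit 212)) (XT.lf (nat_lit 0) (nat_lit 6706741160) (nat_lit 152) (nat_lit 11668062347) (nat_lit 0) (nat_lit 88959077) (nat_lit 16) (nat_lit 5) (nat_lit 18) (nat_lit 4) (nat_lit 16) (nat_lit 4) (nat_lit 289) (nat_lit 220) (nat_lit 211))))) (XT.nd (nat_lit 156) (nat_lit 152) (nat_lit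 0) (XT.nd (nat_lit 78) (nat_lit 152) (nat_lit 0) (XT.lf (nat_lit 0) (nat_lit 11842887434) (nat_lit 152) (nat_lit 2711514882) (nat_lit 0) (nat_lit 4653517554) (nat_lit 16) (nat_lit 5) (nat_lit 18) (nat_lit 4) (nat_lit 16) (nat_lit 4) (nat_lit 290) (nat_lit 220) (nat_lit 210)) (XT.lf (nat_lit 0) (nat_lit 6567881484) (nat_lit 152) (nat_lit 10578999636) (nat_lit 152) (nat_lit 2845260426) (nat_lit 14) (nat_lit 4) (nat_lit 16) (nat_lit 5) (nat_lit 16) (nat_lit 4) (nat_lit 291) (nat_lit 220) (nat_lit 209))) (XT.nd (nat_lit 78) (nat_lit 76) (nat_lit 0) (XT.lf (nat_lit 0) (nat_lit 1742755310) (nat_lit 228) (nat_lit 4714392910) (nat_lit 76) (nat_lit 14361671386) (nat_lit 13) (nat_lit 5) (nat_lit 16) (nat_lit 5) (nat_lit 14) (nat_lit 4) (nat_lit 292) (nat_lit 220) (nat_lit 208)) (XT.nd (nat_lit 78) (nat_lit 0) (nat_lit 0) (XT.lf (nat_lit 0) (nat_lit 4247980038) (nat_lit 76) (nat_lit 2152968365) (nat_lit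 152) (nat_lit 15288214731) (nat_lit 12) (nat_lit 5) (nat_lit 13) (nat_lit 5) (nat_lit 14) (nat_lit 4) (nat_lit 293) (nat_lit 220) (nat_lit 207)) (XT.lf (nat_lit 0) (nat_lit 11225690132) (nat_lit 152) (nat_lit 9101550990) (nat_lit 0) (nat_lit 2277930991) (nat_lit 12) (nat_lit 5) (nat_lit 14) (nat_lit 4) (nat_lit 12) (nat_lit 4) (nat_lit 294) (nat_lit 220) (nat_lit 206)))))) (XT.nd (nat_lit 390) (nat_lit 152) (nat_lit 0) (XT.nd (nat_lit 156) (nat_lit 152) (nat_lit 0) (XT.nd (nat_lit 78) (nat_lit 152) (nat_lit 0) (XT.lf (nat_lit 0) (nat_lit 16181856985) (nat_lit 152) (nat_lit 589280724) (nat_lit 0) (nat_lit 6799288140) (nat_lit 12) (nat_lit 5) (nat_lit 14) (nat_lit 4) (nat_lit 12) (nat_lit 4) (nat_lit 295) (nat_lit 220) (nat_lit 205)) (XT.lf (nat_lit 0) (nat_lit 8298524767) (nat_lit 152) (nat_lit 13041799439) (nat_lit 152) (nat_lit 3245126113) (nat_lit 10) (nat_lit 4) (nat_lit 12) (nat_lit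 5) (nat_lit 12) (nat_lit 4) (nat_lit 296) (nat_lit 220) (nat_lit 204))) (XT.nd (nat_lit 78) (nat_lit 76) (nat_lit 0) (XT.lf (nat_lit 0) (nat_lit 967416220) (nat_lit 228) (nat_lit 8227203617) (nat_lit 76) (nat_lit 16459914438) (nat_lit 9) (nat_lit 5) (nat_lit 12) (nat_lit 5) (nat_lit 10) (nat_lit 4) (nat_lit 297) (nat_lit 220) (nat_lit 203)) (XT.nd (nat_lit 78) (nat_lit 0) (nat_lit 0) (XT.lf (nat_lit 0) (nat_lit 4254874) (nat_lit 76) (nat_lit 5203094085) (nat_lit 152) (nat_lit 21572369003) (nat_lit 8) (nat_lit 5) (nat_lit 9) (nat_lit 5) (nat_lit 10) (nat_lit 4) (nat_lit 298) (nat_lit 220) (nat_lit 202)) (XT.lf (nat_lit 0) (nat_lit 8626324145) (nat_lit 76) (nat_lit 1004565844) (nat_lit 152) (nat_lit 18331242266) (nat_lit 8) (nat_lit 5) (nat_lit 9) (nat_lit 5) (nat_lit 10) (nat_lit 4) (nat_lit 299) (nat_lit 220) (nat_lit 201))))) (XT.nd (nat_lit 234) (nat_lit 76) (nat_lit 0) (XT.nd (nat_lit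 78) (nat_lit 76) (nat_lit 0) (XT.lf (nat_lit 0) (nat_lit 14199902334) (nat_lit 152) (nat_lit 11743206390) (nat_lit 0) (nat_lit 3262943776) (nat_lit 8) (nat_lit 5) (nat_lit 10) (nat_lit 4) (nat_lit 8) (nat_lit 4) (nat_lit 300) (nat_lit 220) (nat_lit 200)) (XT.nd (nat_lit 78) (nat_lit 76) (nat_lit 0) (XT.lf (nat_lit 0) (nat_lit 18904241769) (nat_lit 152) (nat_lit 3958557476) (nat_lit 0) (nat_lit 7652271856) (nat_lit 8) (nat_lit 5) (nat_lit 10) (nat_lit 4) (nat_lit 8) (nat_lit 4) (nat_lit 301) (nat_lit 220) (nat_lit 199)) (XT.lf (nat_lit 0) (nat_lit 4126859912) (nat_lit 76) (nat_lit 19658262588) (nat_lit 76) (nat_lit 8106281860) (nat_lit 7) (nat_lit 4) (nat_lit 8) (nat_lit 5) (nat_lit 8) (nat_lit 4) (nat_lit 302) (nat_lit 220) (nat_lit 198)))) (XT.nd (nat_lit 78) (nat_lit 76) (nat_lit 0) (XT.lf (nat_lit 0) (nat_lit 12535120682) (nat_lit 76) (nat_lit 16320436082) (nat_lit 76) (nat_lit 4482730770)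 (nat_lit 7) (nat_lit 4) (nat_lit 8) (nat_lit 5) (nat_lit 8) (nat_lit 4) (nat_lit 303) (nat_lit 220) (nat_lit 197)) (XT.nd (nat_lit 78) (nat_lit 76) (nat_lit 0) (XT.lf (nat_lit 0) (nat_lit 21207461446) (nat_lit 76) (nat_lit 12881346191) (nat_lit 76) (nat_lit 771522226) (nat_lit 7) (nat_lit 4) (nat_lit 8) (nat_lit 5) (nat_lit 8) (nat_lit 4) (nat_lit 304) (nat_lit 220) (nat_lit 196)) (XT.lf (nat_lit 0) (nat_lit 2976933174) (nat_lit 152) (nat_lit 6325810242) (nat_lit 76) (nat_lit 27157536272) (nat_lit 6) (nat_lit 5) (nat_lit 8) (nat_lit 5) (nat_lit 7) (nat_lit 4) (nat_lit 305) (nat_lit 220) (nat_lit 195))))))))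
noncomputable def xc17 : XT := (XT.nd (nat_lit 1638) (nat_lit 0) (nat_lit 0) (XT.nd (nat_lit 780) (nat_lit 152) (nat_lit 0) (XT.nd (nat_lit 390) (nat_lit 76) (nat_lit 0) (XT.nd (nat_lit 156) (nat_lit 0) (nat_lit 0) (XT.nd (nat_lit 78) (nat_lit 0) (nat_lit 0) (XT.lf (nat_lit 0) (nat_lit 1240483410) (nat_lit 76) (nat_lit 5585274045) (nat_lit 152) (nat_lit 31316455951) (nat_lit 5) (nat_lit 5) (nat_lit 6) (nat_lit 5) (nat_lit 7) (nat_lit 4) (nat_lit 306) (nat_lit 220) (nat_lit 194)) (XT.lf (nat_lit 0) (nat_lit 9177860452) (nat_lit 76) (nat_lit 1673731173) (nat_lit 152) (nat_lit 29057193829) (nat_lit 5) (nat_lit 5) (nat_lit 6) (nat_lit 5) (nat_lit 7) (nat_lit 4) (nat_lit 307) (nat_lit 220) (nat_lit 193))) (XT.nd (nat_lit 78) (nat_lit 0) (nat_lit 0) (XT.lf (nat_lit 0) (nat_lit 15024855511) (nat_lit 152) (nat_lit 24409591373) (nat_lit 0) (nat_lit 2330930037) (nat_lit 5) (nat_lit 5) (nat_lit 7)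 (nat_lit 4) (nat_lit 5) (nat_lit 4) (nat_lit 308) (nat_lit 220) (nat_lit 192)) (XT.nd (nat_lit 78) (nat_lit 0) (nat_lit 0) (XT.lf (nat_lit 0) (nat_lit 19350101474) (nat_lit 152) (nat_lit 17917294331) (nat_lit 0) (nat_lit 6449173976) (nat_lit 5) (nat_lit 5) (nat_lit 7) (nat_lit 4) (nat_lit 5) (nat_lit 4) (nat_lit 309) (nat_lit 220) (nat_lit 191)) (XT.lf (nat_lit 0) (nat_lit 23821538791) (nat_lit 152) (nat_lit 11222487101) (nat_lit 0) (nat_lit 10723466509) (nat_lit 5) (nat_lit 5) (nat_lit 7) (nat_lit 4) (nat_lit 5) (nat_lit 4) (nat_lit 310) (nat_lit 220) (nat_lit 190))))) (XT.nd (nat_lit 156) (nat_lit 0) (nat_lit 0) (XT.nd (nat_lit 78) (nat_lit 76) (nat_lit 0) (XT.lf (nat_lit 0) (nat_lit 28449813742) (nat_lit 152) (nat_lit 4309229663) (nat_lit 0) (nat_lit 15163984522) (nat_lit 5) (nat_lit 5) (nat_lit 7) (nat_lit 4) (nat_lit 5) (nat_lit 4) (nat_lit 311) (nat_lit 220) (nat_lit 189)) (XT.lf (nat_lit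 0) (nat_lit 2895438552) (nat_lit 76) (nat_lit 30378340203) (nat_lit 76) (nat_lit 16913694852) (nat_lit 4) (nat_lit 4) (nat_lit 5) (nat_lit 5) (nat_lit 5) (nat_lit 4) (nat_lit 312) (nat_lit 220) (nat_lit 188))) (XT.nd (nat_lit 78) (nat_lit 0) (nat_lit 0) (XT.lf (nat_lit 0) (nat_lit 10442812575) (nat_lit 76) (nat_lit 27878925141) (nat_lit 76) (nat_lit 14243978713) (nat_lit 4) (nat_lit 4) (nat_lit 5) (nat_lit 5) (nat_lit 5) (nat_lit 4) (nat_lit 313) (nat_lit 220) (nat_lit 187)) (XT.nd (nat_lit 78) (nat_lit 0) (nat_lit 0) (XT.lf (nat_lit 0) (nat_lit 18265100223) (nat_lit 76) (nat_lit 25298362003) (nat_lit 76) (nat_lit 11501224073) (nat_lit 4) (nat_lit 4) (nat_lit 5) (nat_lit 5) (nat_lit 5) (nat_lit 4) (nat_lit 314) (nat_lit 220) (nat_lit 186)) (XT.lf (nat_lit 0) (nat_lit 26380925991) (nat_lit 76) (nat_lit 22630506590) (nat_lit 76) (nat_lit 8678900562) (nat_lit 4) (nat_lit 4) (nat_lit 5) (nat_lit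 5) (nat_lit 5) (nat_lit 4) (nat_lit 315) (nat_lit 220) (nat_lit 185)))))) (XT.nd (nat_lit 390) (nat_lit 76) (nat_lit 0) (XT.nd (nat_lit 156) (nat_lit 76) (nat_lit 0) (XT.nd (nat_lit 78) (nat_lit 0) (nat_lit 0) (XT.lf (nat_lit 0) (nat_lit 34809613273) (nat_lit 76) (nat_lit 19869006865) (nat_lit 76) (nat_lit 5770288364) (nat_lit 4) (nat_lit 4) (nat_lit 5) (nat_lit 5) (nat_lit 5) (nat_lit 4) (nat_lit 316) (nat_lit 220) (nat_lit 184)) (XT.lf (nat_lit 0) (nat_lit 43571230373) (nat_lit 76) (nat_lit 17007287829) (nat_lit 76) (nat_lit 2768462210) (nat_lit 4) (nat_lit 4) (nat_lit 5) (nat_lit 5) (nat_lit 5) (nat_lit 4) (nat_lit 317) (nat_lit 220) (nat_lit 183))) (XT.nd (nat_lit 78) (nat_lit 0) (nat_lit 0) (XT.lf (nat_lit 0) (nat_lit 327212924) (nat_lit 152) (nat_lit 13708018731) (nat_lit 76) (nat_lit 52356121150) (nat_lit 3) (nat_lit 5) (nat_lit 5) (nat_lit 5) (nat_lit 4) (nat_lit 4) (nat_lit 318)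 (nat_lit 220) (nat_lit 182)) (XT.nd (nat_lit 78) (nat_lit 0) (nat_lit 0) (XT.lf (nat_lit 0) (nat_lit 3474510172) (nat_lit 152) (nat_lit 7446086604) (nat_lit 76) (nat_lit 58667944444) (nat_lit 3) (nat_lit 5) (nat_lit 5) (nat_lit 5) (nat_lit 4) (nat_lit 4) (nat_lit 319) (nat_lit 220) (nat_lit 181)) (XT.lf (nat_lit 0) (nat_lit 6734945768) (nat_lit 152) (nat_lit 948432142) (nat_lit 76) (nat_lit 65263578465) (nat_lit 3) (nat_lit 5) (nat_lit 5) (nat_lit 5) (nat_lit 4) (nat_lit 4) (nat_lit 320) (nat_lit 220) (nat_lit 180))))) (XT.nd (nat_lit 234) (nat_lit 0) (nat_lit 0) (XT.nd (nat_lit 78) (nat_lit 0) (nat_lit 0) (XT.lf (nat_lit 0) (nat_lit 5915854896) (nat_lit 76) (nat_lit 4257294571) (nat_lit 152) (nat_lit 66299739021) (nat_lit 2) (nat_lit 5) (nat_lit 3) (nat_lit 5) (nat_lit 4) (nat_lit 4) (nat_lit 321) (nat_lit 220) (nat_lit 179)) (XT.nd (nat_lit 78) (nat_lit 0) (nat_lit 0) (XT.lf (nat_lit 0)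 (nat_lit 13071598250) (nat_lit 76) (nat_lit 680625575) (nat_lit 152) (nat_lit 66423861324) (nat_lit 2) (nat_lit 5) (nat_lit 3) (nat_lit 5) (nat_lit 4) (nat_lit 4) (nat_lit 322) (nat_lit 220) (nat_lit 178)) (XT.lf (nat_lit 0) (nat_lit 17500667952) (nat_lit 152) (nat_lit 63577958561) (nat_lit 0) (nat_lit 2986137655) (nat_lit 2) (nat_lit 5) (nat_lit 4) (nat_lit 4) (nat_lit 2) (nat_lit 4) (nat_lit 323) (nat_lit 220) (nat_lit 177)))) (XT.nd (nat_lit 78) (nat_lit 0) (nat_lit 0) (XT.lf (nat_lit 0) (nat_lit 21406126339) (nat_lit 152) (nat_lit 59947771703) (nat_lit 0) (nat_lit 6794924670) (nat_lit 2) (nat_lit 5) (nat_lit 4) (nat_lit 4) (nat_lit 2) (nat_lit 4) (nat_lit 324) (nat_lit 220) (nat_lit 176)) (XT.nd (nat_lit 78) (nat_lit 0) (nat_lit 0) (XT.lf (nat_lit 0) (nat_lit 25471355108) (nat_lit 152) (nat_lit 56198740437) (nat_lit 0) (nat_lit 10768085466) (nat_lit 2) (nat_lit 5) (nat_lit 4) (nat_lit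 4) (nat_lit 2) (nat_lit 4) (nat_lit 325) (nat_lit 220) (nat_lit 175)) (XT.lf (nat_lit 0) (nat_lit 29706033375) (nat_lit 152) (nat_lit 52321938498) (nat_lit 0) (nat_lit 14915079950) (nat_lit 2) (nat_lit 5) (nat_lit 4) (nat_lit 4) (nat_lit 2) (nat_lit 4) (nat_lit 326) (nat_lit 220) (nat_lit 174))))))) (XT.nd (nat_lit 34086) (nat_lit 0) (nat_lit 760) (XT.nd (nat_lit 390) (nat_lit 0) (nat_lit 0) (XT.nd (nat_lit 156) (nat_lit 0) (nat_lit 0) (XT.nd (nat_lit 78) (nat_lit 0) (nat_lit 0) (XT.lf (nat_lit 0) (nat_lit 34120243707) (nat_lit 152) (nat_lit 48308135403) (nat_lit 0) (nat_lit 19245781917) (nat_lit 2) (nat_lit 5) (nat_lit 4) (nat_lit 4) (nat_lit 2) (nat_lit 4) (nat_lit 327) (nat_lit 220) (nat_lit 173)) (XT.lf (nat_lit 0) (nat_lit 38724496130) (nat_lit 152) (nat_lit 44147774480) (nat_lit 0) (nat_lit 23770502563) (nat_lit 2) (nat_lit 5) (nat_lit 4) (nat_lit 4) (nat_lit 2) (nat_lit 4) (nat_lit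 328) (nat_lit 220) (nat_lit 172))) (XT.nd (nat_lit 78) (nat_lit 0) (nat_lit 0) (XT.lf (nat_lit 0) (nat_lit 43529753149) (nat_lit 152) (nat_lit 39830950107) (nat_lit 0) (nat_lit 28500015032) (nat_lit 2) (nat_lit 5) (nat_lit 4) (nat_lit 4) (nat_lit 2) (nat_lit 4) (nat_lit 329) (nat_lit 220) (nat_lit 171)) (XT.nd (nat_lit 78) (nat_lit 0) (nat_lit 0) (XT.lf (nat_lit 0) (nat_lit 48547455851) (nat_lit 152) (nat_lit 35347384131) (nat_lit 0) (nat_lit 33445580069) (nat_lit 2) (nat_lit 5) (nat_lit 4) (nat_lit 4) (nat_lit 2) (nat_lit 4) (nat_lit 330) (nat_lit 220) (nat_lit 170)) (XT.lf (nat_lit 0) (nat_lit 53789551149) (nat_lit 152) (nat_lit 30686401395) (nat_lit 0) (nat_lit 38618972828) (nat_lit 2) (nat_lit 5) (nat_lit 4) (nat_lit 4) (nat_lit 2) (nat_lit 4) (nat_lit 331) (nat_lit 220) (nat_lit 169))))) (XT.nd (nat_lit 33462) (nat_lit 0) (nat_lit 1748) (XT.nd (nat_lit 33306) (nat_lit 0) (nat_lit 2280)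 (XT.lf (nat_lit 0) (nat_lit 59268520222) (nat_lit 152) (nat_lit 25836904320) (nat_lit 0) (nat_lit 44032510911) (nat_lit 2) (nat_lit 5) (nat_lit 4) (nat_lit 4) (nat_lit 2) (nat_lit 4) (nat_lit 332) (nat_lit 220) (nat_lit 168)) (XT.nd (nat_lit 78) (nat_lit 76) (nat_lit 0) (XT.lf (nat_lit 0) (nat_lit 940604313) (nat_lit 228) (nat_lit 2639876241) (nat_lit 228) (nat_lit 2639876241) (nat_lit 33) (nat_lit 4) (nat_lit 36) (nat_lit 5) (nat_lit 36) (nat_lit 4) (nat_lit 278) (nat_lit 221) (nat_lit 221)) (XT.lf (nat_lit 0) (nat_lit 152879073) (nat_lit 304) (nat_lit 737567537) (nat_lit 76) (nat_lit 11963589050) (nat_lit 32) (nat_lit 5) (nat_lit 36) (nat_lit 5) (nat_lit 33) (nat_lit 4) (nat_lit 279) (nat_lit 221) (nat_lit 220)))) (XT.nd (nat_lit 78) (nat_lit 380) (nat_lit 0) (XT.lf (nat_lit 0) (nat_lit 5665258198) (nat_lit 228) (nat_lit 3945087594) (nat_lit 0) (nat_lit 3678924663) (nat_lit 30) (nat_lit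 5) (nat_lit 33) (nat_lit 4) (nat_lit 30) (nat_lit 4) (nat_lit 280) (nat_lit 221) (nat_lit 219)) (XT.nd (nat_lit 78) (nat_lit 228) (nat_lit 0) (XT.lf (nat_lit 0) (nat_lit 5987206430) (nat_lit 152) (nat_lit 5336205352) (nat_lit 152) (nat_lit 2427068781) (nat_lit 28) (nat_lit 4) (nat_lit 30) (nat_lit 5) (nat_lit 30) (nat_lit 4) (nat_lit 281) (nat_lit 221) (nat_lit 218)) (XT.lf (nat_lit 0) (nat_lit 1958665959) (nat_lit 152) (nat_lit 872202299) (nat_lit 228) (nat_lit 11407495453) (nat_lit 25) (nat_lit 5) (nat_lit 27) (nat_lit 5) (nat_lit 28) (nat_lit 4) (nat_lit 282) (nat_lit 221) (nat_lit 217)))))) (XT.nd (nat_lit 390) (nat_lit 456) (nat_lit 0) (XT.nd (nat_lit 156) (nat_lit 380) (nat_lit 0) (XT.nd (nat_lit 78) (nat_lit 152) (nat_lit 0) (XT.lf (nat_lit 0) (nat_lit 8225254224) (nat_lit 228) (nat_lit 2792276716) (nat_lit 0) (nat_lit 3734956980) (nat_lit 25) (nat_lit 5) (nat_lit 28) (nat_lit 4)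 (nat_lit 25) (nat_lit 4) (nat_lit 283) (nat_lit 221) (nat_lit 216)) (XT.lf (nat_lit 0) (nat_lit 7001133670) (nat_lit 152) (nat_lit 6779472674) (nat_lit 152) (nat_lit 1515241489) (nat_lit 23) (nat_lit 4) (nat_lit 25) (nat_lit 5) (nat_lit 25) (nat_lit 4) (nat_lit 284) (nat_lit 221) (nat_lit 215))) (XT.nd (nat_lit 78) (nat_lit 152) (nat_lit 0) (XT.lf (nat_lit 0) (nat_lit 1172065201) (nat_lit 152) (nat_lit 2361617719) (nat_lit 228) (nat_lit 12336075246) (nat_lit 20) (nat_lit 5) (nat_lit 22) (nat_lit 5) (nat_lit 23) (nat_lit 4) (nat_lit 285) (nat_lit 221) (nat_lit 214)) (XT.nd (nat_lit 78) (nat_lit 152) (nat_lit 0) (XT.lf (nat_lit 0) (nat_lit 8736138956) (nat_lit 228) (nat_lit 5509948890) (nat_lit 0) (nat_lit 2228088444) (nat_lit 20) (nat_lit 5) (nat_lit 23) (nat_lit 4) (nat_lit 20) (nat_lit 4) (nat_lit 286) (nat_lit 221) (nat_lit 213)) (XT.lf (nat_lit 0) (nat_lit 3915817850) (nat_lit 152) (nat_lit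 10176768292) (nat_lit 152) (nat_lit 3019636969) (nat_lit 18) (nat_lit 4) (nat_lit 20) (nat_lit 5) (nat_lit 20) (nat_lit 4) (nat_lit 287) (nat_lit 221) (nat_lit 212))))) (XT.nd (nat_lit 234) (nat_lit 304) (nat_lit 0) (XT.nd (nat_lit 78) (nat_lit 76) (nat_lit 0) (XT.lf (nat_lit 0) (nat_lit 1790211930) (nat_lit 228) (nat_lit 4141173306) (nat_lit 76) (nat_lit 11853637656) (nat_lit 17) (nat_lit 5) (nat_lit 20) (nat_lit 5) (nat_lit 18) (nat_lit 4) (nat_lit 288) (nat_lit 221) (nat_lit 211)) (XT.nd (nat_lit 78) (nat_lit 0) (nat_lit 0) (XT.lf (nat_lit 0) (nat_lit 5180714487) (nat_lit 76) (nat_lit 1491577848) (nat_lit 152) (nat_lit 11821644828) (nat_lit 16) (nat_lit 5) (nat_lit 17) (nat_lit 5) (nat_lit 18) (nat_lit 4) (nat_lit 289) (nat_lit 221) (nat_lit 210)) (XT.lf (nat_lit 0) (nat_lit 11719908263) (nat_lit 152) (nat_lit 4465820910) (nat_lit 0) (nat_lit 3055112762) (nat_lit 16) (nat_lit 5) (nat_lit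 18) (nat_lit 4) (nat_lit 16) (nat_lit 4) (nat_lit 290) (nat_lit 221) (nat_lit 209)))) (XT.nd (nat_lit 78) (nat_lit 152) (nat_lit 0) (XT.lf (nat_lit 0) (nat_lit 4658717303) (nat_lit 152) (nat_lit 12276173176) (nat_lit 152) (nat_lit 3092930694) (nat_lit 14) (nat_lit 4) (nat_lit 16) (nat_lit 5) (nat_lit 16) (nat_lit 4) (nat_lit 291) (nat_lit 221) (nat_lit 208)) (XT.nd (nat_lit 78) (nat_lit 76) (nat_lit 0) (XT.lf (nat_lit 0) (nat_lit 1430766630) (nat_lit 228) (nat_lit 6772545252) (nat_lit 76) (nat_lit 12653413958) (nat_lit 13) (nat_lit 5) (nat_lit 16) (nat_lit 5) (nat_lit 14) (nat_lit 4) (nat_lit 292) (nat_lit 221) (nat_lit 207)) (XT.lf (nat_lit 0) (nat_lit 2036493346) (nat_lit 76) (nat_lit 3965349782) (nat_lit 152) (nat_lit 15727916538) (nat_lit 12) (nat_lit 5) (nat_lit 13) (nat_lit 5) (nat_lit 14) (nat_lit 4) (nat_lit 293) (nat_lit 221) (nat_lit 206))))))))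
noncomputable def xc18 : XT := (XT.nd (nat_lit 1638) (nat_lit 152) (nat_lit 0) (XT.nd (nat_lit 780) (nat_lit 228) (nat_lit 0) (XT.nd (nat_lit 390) (nat_lit 152) (nat_lit 0) (XT.nd (nat_lit 156) (nat_lit 228) (nat_lit 0) (XT.nd (nat_lit 78) (nat_lit 0) (nat_lit 0) (XT.lf (nat_lit 0) (nat_lit 10744996118) (nat_lit 152) (nat_lit 11444804210) (nat_lit 0) (nat_lit 458489126) (nat_lit 12) (nat_lit 5) (nat_lit 14) (nat_lit 4) (nat_lit 12) (nat_lit 4) (nat_lit 294) (nat_lit 221) (nat_lit 205)) (XT.lf (nat_lit 0) (nat_lit 15640051521) (nat_lit 152) (nat_lit 3035954625) (nat_lit 0) (nat_lit 4939440050) (nat_lit 12) (nat_lit 5) (nat_lit 14) (nat_lit 4) (nat_lit 12) (nat_lit 4) (nat_lit 295) (nat_lit 221) (nat_lit 204))) (XT.nd (nat_lit 78) (nat_lit 76) (nat_lit 0) (XT.lf (nat_lit 0) (nat_lit 5702701110) (nat_lit 152) (nat_lit 15012663606) (nat_lit 152) (nat_lit 3917666915) (nat_lit 10) (nat_lit 4)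 (nat_lit 12) (nat_lit 5) (nat_lit 12) (nat_lit 4) (nat_lit 296) (nat_lit 221) (nat_lit 203)) (XT.nd (nat_lit 78) (nat_lit 0) (nat_lit 0) (XT.lf (nat_lit 0) (nat_lit 251029693) (nat_lit 228) (nat_lit 10961011383) (nat_lit 76) (nat_lit 14492038885) (nat_lit 9) (nat_lit 5) (nat_lit 12) (nat_lit 5) (nat_lit 10) (nat_lit 4) (nat_lit 297) (nat_lit 221) (nat_lit 202)) (XT.lf (nat_lit 0) (nat_lit 4436664944) (nat_lit 228) (nat_lit 2821890842) (nat_lit 76) (nat_lit 19572395212) (nat_lit 9) (nat_lit 5) (nat_lit 12) (nat_lit 5) (nat_lit 10) (nat_lit 4) (nat_lit 298) (nat_lit 221) (nat_lit 201))))) (XT.nd (nat_lit 156) (nat_lit 76) (nat_lit 0) (XT.nd (nat_lit 78) (nat_lit 0) (nat_lit 0) (XT.lf (nat_lit 0) (nat_lit 5654406811) (nat_lit 76) (nat_lit 3125599233) (nat_lit 152) (nat_lit 19235820886) (nat_lit 8) (nat_lit 5) (nat_lit 9) (nat_lit 5) (nat_lit 10) (nat_lit 4) (nat_lit 299) (nat_lit 221) (nat_lit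 200)) (XT.lf (nat_lit 0) (nat_lit 13278257595) (nat_lit 152) (nat_lit 14834987566) (nat_lit 0) (nat_lit 1148677832) (nat_lit 8) (nat_lit 5) (nat_lit 10) (nat_lit 4) (nat_lit 8) (nat_lit 4) (nat_lit 300) (nat_lit 221) (nat_lit 199))) (XT.nd (nat_lit 78) (nat_lit 76) (nat_lit 0) (XT.lf (nat_lit 0) (nat_lit 17934623578) (nat_lit 152) (nat_lit 7132774687) (nat_lit 0) (nat_lit 5505033000) (nat_lit 8) (nat_lit 5) (nat_lit 10) (nat_lit 4) (nat_lit 8) (nat_lit 4) (nat_lit 301) (nat_lit 221) (nat_lit 198)) (XT.nd (nat_lit 78) (nat_lit 0) (nat_lit 0) (XT.lf (nat_lit 0) (nat_lit 809396532) (nat_lit 76) (nat_lit 21928529289) (nat_lit 76) (nat_lit 9213214126) (nat_lit 7) (nat_lit 4) (nat_lit 8) (nat_lit 5) (nat_lit 8) (nat_lit 4) (nat_lit 302) (nat_lit 221) (nat_lit 197)) (XT.lf (nat_lit 0) (nat_lit 9141397280) (nat_lit 76) (nat_lit 18622716412) (nat_lit 76) (nat_lit 5635282597) (nat_lit 7) (nat_lit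 4) (nat_lit 8) (nat_lit 5) (nat_lit 8) (nat_lit 4) (nat_lit 303) (nat_lit 221) (nat_lit 196)))))) (XT.nd (nat_lit 390) (nat_lit 76) (nat_lit 0) (XT.nd (nat_lit 156) (nat_lit 76) (nat_lit 0) (XT.nd (nat_lit 78) (nat_lit 76) (nat_lit 0) (XT.lf (nat_lit 0) (nat_lit 17741109452) (nat_lit 76) (nat_lit 15214115691) (nat_lit 76) (nat_lit 1967521254) (nat_lit 7) (nat_lit 4) (nat_lit 8) (nat_lit 5) (nat_lit 8) (nat_lit 4) (nat_lit 304) (nat_lit 221) (nat_lit 195)) (XT.lf (nat_lit 0) (nat_lit 1763701547) (nat_lit 152) (nat_lit 9913099935) (nat_lit 76) (nat_lit 24847497077) (nat_lit 6) (nat_lit 5) (nat_lit 8) (nat_lit 5) (nat_lit 7) (nat_lit 4) (nat_lit 305) (nat_lit 221) (nat_lit 194))) (XT.nd (nat_lit 78) (nat_lit 76) (nat_lit 0) (XT.lf (nat_lit 0) (nat_lit 5561962641) (nat_lit 152) (nat_lit 2437696237) (nat_lit 76) (nat_lit 30208128688) (nat_lit 6) (nat_lit 5) (nat_lit 8) (nat_lit 5) (nat_lit 7)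 (nat_lit 4) (nat_lit 306) (nat_lit 221) (nat_lit 193)) (XT.nd (nat_lit 78) (nat_lit 0) (nat_lit 0) (XT.lf (nat_lit 0) (nat_lit 5386393686) (nat_lit 76) (nat_lit 4140082557) (nat_lit 152) (nat_lit 30449759552) (nat_lit 5) (nat_lit 5) (nat_lit 6) (nat_lit 5) (nat_lit 7) (nat_lit 4) (nat_lit 307) (nat_lit 221) (nat_lit 192)) (XT.lf (nat_lit 0) (nat_lit 13526168813) (nat_lit 76) (nat_lit 115079455) (nat_lit 152) (nat_lit 28193368572) (nat_lit 5) (nat_lit 5) (nat_lit 6) (nat_lit 5) (nat_lit 7) (nat_lit 4) (nat_lit 308) (nat_lit 221) (nat_lit 191))))) (XT.nd (nat_lit 234) (nat_lit 76) (nat_lit 0) (XT.nd (nat_lit 78) (nat_lit 0) (nat_lit 0) (XT.lf (nat_lit 0) (nat_lit 17931207069) (nat_lit 152) (nat_lit 21874608022) (nat_lit 0) (nat_lit 3981086388) (nat_lit 5) (nat_lit 5) (nat_lit 7) (nat_lit 4) (nat_lit 5) (nat_lit 4) (nat_lit 309) (nat_lit 221) (nat_lit 190)) (XT.nd (nat_lit 78) (nat_lit 0) (nat_lit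 0) (XT.lf (nat_lit 0) (nat_lit 22370091102) (nat_lit 152) (nat_lit 15236527696) (nat_lit 0) (nat_lit 8232213484) (nat_lit 5) (nat_lit 5) (nat_lit 7) (nat_lit 4) (nat_lit 5) (nat_lit 4) (nat_lit 310) (nat_lit 221) (nat_lit 189)) (XT.lf (nat_lit 0) (nat_lit 26967362925) (nat_lit 152) (nat_lit 8377295882) (nat_lit 0) (nat_lit 12650669176) (nat_lit 5) (nat_lit 5) (nat_lit 7) (nat_lit 4) (nat_lit 5) (nat_lit 4) (nat_lit 311) (nat_lit 221) (nat_lit 188)))) (XT.nd (nat_lit 78) (nat_lit 76) (nat_lit 0) (XT.lf (nat_lit 0) (nat_lit 31733968424) (nat_lit 152) (nat_lit 1280581077) (nat_lit 0) (nat_lit 17246973597) (nat_lit 5) (nat_lit 5) (nat_lit 7) (nat_lit 4) (nat_lit 5) (nat_lit 4) (nat_lit 312) (nat_lit 221) (nat_lit 187)) (XT.nd (nat_lit 78) (nat_lit 0) (nat_lit 0) (XT.lf (nat_lit 0) (nat_lit 6191328785) (nat_lit 76) (nat_lit 30549442713) (nat_lit 76) (nat_lit 15900256384) (nat_lit 4) (nat_lit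 4) (nat_lit 5) (nat_lit 5) (nat_lit 5) (nat_lit 4) (nat_lit 313) (nat_lit 221) (nat_lit 186)) (XT.lf (nat_lit 0) (nat_lit 13966018256) (nat_lit 76) (nat_lit 27989238541) (nat_lit 76) (nat_lit 13185584115) (nat_lit 4) (nat_lit 4) (nat_lit 5) (nat_lit 5) (nat_lit 5) (nat_lit 4) (nat_lit 314) (nat_lit 221) (nat_lit 185))))))) (XT.nd (nat_lit 780) (nat_lit 0) (nat_lit 0) (XT.nd (nat_lit 390) (nat_lit 76) (nat_lit 0) (XT.nd (nat_lit 156) (nat_lit 76) (nat_lit 0) (XT.nd (nat_lit 78) (nat_lit 0) (nat_lit 0) (XT.lf (nat_lit 0) (nat_lit 22036512427) (nat_lit 76) (nat_lit 25340772620) (nat_lit 76) (nat_lit 10390005720) (nat_lit 4) (nat_lit 4) (nat_lit 5) (nat_lit 5) (nat_lit 5) (nat_lit 4) (nat_lit 315) (nat_lit 221) (nat_lit 184)) (XT.lf (nat_lit 0) (nat_lit 30422026760) (nat_lit 76) (nat_lit 22597739078) (nat_lit 76) (nat_lit 7506865060) (nat_lit 4) (nat_lit 4) (nat_lit 5) (nat_lit 5) (nat_lit 5)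 (nat_lit 4) (nat_lit 316) (nat_lit 221) (nat_lit 183))) (XT.nd (nat_lit 78) (nat_lit 76) (nat_lit 0) (XT.lf (nat_lit 0) (nat_lit 39142526765) (nat_lit 76) (nat_lit 19753606883) (nat_lit 76) (nat_lit 4529297515) (nat_lit 4) (nat_lit 4) (nat_lit 5) (nat_lit 5) (nat_lit 5) (nat_lit 4) (nat_lit 317) (nat_lit 221) (nat_lit 182)) (XT.nd (nat_lit 78) (nat_lit 76) (nat_lit 0) (XT.lf (nat_lit 0) (nat_lit 48218775538) (nat_lit 76) (nat_lit 16801604292) (nat_lit 76) (nat_lit 1450213638) (nat_lit 4) (nat_lit 4) (nat_lit 5) (nat_lit 5) (nat_lit 5) (nat_lit 4) (nat_lit 318) (nat_lit 221) (nat_lit 181)) (XT.lf (nat_lit 0) (nat_lit 1703808591) (nat_lit 152) (nat_lit 12013689010) (nat_lit 76) (nat_lit 55951369477) (nat_lit 3) (nat_lit 5) (nat_lit 5) (nat_lit 5) (nat_lit 4) (nat_lit 4) (nat_lit 319) (nat_lit 221) (nat_lit 180))))) (XT.nd (nat_lit 156) (nat_lit 0) (nat_lit 0) (XT.nd (nat_lit 78) (nat_lit 76)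 (nat_lit 0) (XT.lf (nat_lit 0) (nat_lit 4943697605) (nat_lit 152) (nat_lit 5551980783) (nat_lit 76) (nat_lit 62532239066) (nat_lit 3) (nat_lit 5) (nat_lit 5) (nat_lit 5) (nat_lit 4) (nat_lit 4) (nat_lit 320) (nat_lit 221) (nat_lit 179)) (XT.lf (nat_lit 0) (nat_lit 1185770767) (nat_lit 76) (nat_lit 7131093904) (nat_lit 152) (nat_lit 68238953927) (nat_lit 2) (nat_lit 5) (nat_lit 3) (nat_lit 5) (nat_lit 4) (nat_lit 4) (nat_lit 321) (nat_lit 221) (nat_lit 178))) (XT.nd (nat_lit 78) (nat_lit 0) (nat_lit 0) (XT.lf (nat_lit 0) (nat_lit 8308260936) (nat_lit 76) (nat_lit 3568722088) (nat_lit 152) (nat_lit 68382617990) (nat_lit 2) (nat_lit 5) (nat_lit 3) (nat_lit 5) (nat_lit 4) (nat_lit 4) (nat_lit 322) (nat_lit 221) (nat_lit 177)) (XT.nd (nat_lit 78) (nat_lit 0) (nat_lit 0) (XT.lf (nat_lit 0) (nat_lit 15579480773) (nat_lit 152) (nat_lit 68429146262) (nat_lit 0) (nat_lit 141047650) (nat_lit 2) (nat_lit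 5) (nat_lit 4) (nat_lit 4) (nat_lit 2) (nat_lit 4) (nat_lit 323) (nat_lit 221) (nat_lit 176)) (XT.lf (nat_lit 0) (nat_lit 19467620849) (nat_lit 152) (nat_lit 64829527666) (nat_lit 0) (nat_lit 3937119753) (nat_lit 2) (nat_lit 5) (nat_lit 4) (nat_lit 4) (nat_lit 2) (nat_lit 4) (nat_lit 324) (nat_lit 221) (nat_lit 175)))))) (XT.nd (nat_lit 390) (nat_lit 0) (nat_lit 0) (XT.nd (nat_lit 156) (nat_lit 0) (nat_lit 0) (XT.nd (nat_lit 78) (nat_lit 0) (nat_lit 0) (XT.lf (nat_lit 0) (nat_lit 23516355989) (nat_lit 152) (nat_lit 61109609029) (nat_lit 0) (nat_lit 7898171109) (nat_lit 2) (nat_lit 5) (nat_lit 4) (nat_lit 4) (nat_lit 2) (nat_lit 4) (nat_lit 325) (nat_lit 221) (nat_lit 174)) (XT.lf (nat_lit 0) (nat_lit 27735326038) (nat_lit 152) (nat_lit 57260533402) (nat_lit 0) (nat_lit 12033632792) (nat_lit 2) (nat_lit 5) (nat_lit 4) (nat_lit 4) (nat_lit 2) (nat_lit 4) (nat_lit 326) (nat_lit 221) (nat_lit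 173))) (XT.nd (nat_lit 78) (nat_lit 0) (nat_lit 0) (XT.lf (nat_lit 0) (nat_lit 32134576162) (nat_lit 152) (nat_lit 53273136321) (nat_lit 0) (nat_lit 16353351140) (nat_lit 2) (nat_lit 5) (nat_lit 4) (nat_lit 4) (nat_lit 2) (nat_lit 4) (nat_lit 327) (nat_lit 221) (nat_lit 172)) (XT.nd (nat_lit 78) (nat_lit 0) (nat_lit 0) (XT.lf (nat_lit 0) (nat_lit 36724580768) (nat_lit 152) (nat_lit 49137923981) (nat_lit 0) (nat_lit 20867611196) (nat_lit 2) (nat_lit 5) (nat_lit 4) (nat_lit 4) (nat_lit 2) (nat_lit 4) (nat_lit 328) (nat_lit 221) (nat_lit 171)) (XT.lf (nat_lit 0) (nat_lit 41516268437) (nat_lit 152) (nat_lit 44845050640) (nat_lit 0) (nat_lit 25587161199) (nat_lit 2) (nat_lit 5) (nat_lit 4) (nat_lit 4) (nat_lit 2) (nat_lit 4) (nat_lit 329) (nat_lit 221) (nat_lit 170))))) (XT.nd (nat_lit 33306) (nat_lit 0) (nat_lit 2356) (XT.nd (nat_lit 78) (nat_lit 0) (nat_lit 0) (XT.lf (nat_lit 0) (nat_lit 46521047949)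 (nat_lit 152) (nat_lit 40384295171) (nat_lit 0) (nat_lit 30523238173) (nat_lit 2) (nat_lit 5) (nat_lit 4) (nat_lit 4) (nat_lit 2) (nat_lit 4) (nat_lit 330) (nat_lit 221) (nat_lit 169)) (XT.nd (nat_lit 78) (nat_lit 0) (nat_lit 0) (XT.lf (nat_lit 0) (nat_lit 51750835447) (nat_lit 152) (nat_lit 35745036726) (nat_lit 0) (nat_lit 35687594681) (nat_lit 2) (nat_lit 5) (nat_lit 4) (nat_lit 4) (nat_lit 2) (nat_lit 4) (nat_lit 331) (nat_lit 221) (nat_lit 168)) (XT.lf (nat_lit 0) (nat_lit 57218082805) (nat_lit 152) (nat_lit 30916229454) (nat_lit 0) (nat_lit 41092526810) (nat_lit 2) (nat_lit 5) (nat_lit 4) (nat_lit 4) (nat_lit 2) (nat_lit 4) (nat_lit 332) (nat_lit 221) (nat_lit 167)))) (XT.nd (nat_lit 78) (nat_lit 456) (nat_lit 0) (XT.lf (nat_lit 0) (nat_lit 2915209251) (nat_lit 228) (nat_lit 1462318242) (nat_lit 228) (nat_lit 1462318242) (nat_lit 39) (nat_lit 4) (nat_lit 42) (nat_lit 5) (nat_lit 42)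 (nat_lit 4) (nat_lit 276) (nat_lit 222) (nat_lit 222)) (XT.nd (nat_lit 78) (nat_lit 228) (nat_lit 0) (XT.lf (nat_lit 0) (nat_lit 2561896676) (nat_lit 228) (nat_lit 8027754890) (nat_lit 0) (nat_lit 1461589015) (nat_lit 36) (nat_lit 5) (nat_lit 39) (nat_lit 4) (nat_lit 36) (nat_lit 4) (nat_lit 277) (nat_lit 222) (nat_lit 221)) (XT.lf (nat_lit 0) (nat_lit 1717616000) (nat_lit 228) (nat_lit 6437341467) (nat_lit 228) (nat_lit 4289121749) (nat_lit 33) (nat_lit 4) (nat_lit 36) (nat_lit 5) (nat_lit 36) (nat_lit 4) (nat_lit 278) (nat_lit 222) (nat_lit 220))))))))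
noncomputable def xc19 : XT := (XT.nd (nat_lit 1638) (nat_lit 380) (nat_lit 0) (XT.nd (nat_lit 780) (nat_lit 684) (nat_lit 0) (XT.nd (nat_lit 390) (nat_lit 608) (nat_lit 0) (XT.nd (nat_lit 156) (nat_lit 380) (nat_lit 0) (XT.nd (nat_lit 78) (nat_lit 152) (nat_lit 0) (XT.lf (nat_lit 0) (nat_lit 1021763096) (nat_lit 304) (nat_lit 1072052115) (nat_lit 76) (nat_lit 10766535874) (nat_lit 32) (nat_lit 5) (nat_lit 36) (nat_lit 5) (nat_lit 33) (nat_lit 4) (nat_lit 279) (nat_lit 222) (nat_lit 219)) (XT.lf (nat_lit 0) (nat_lit 6419725191) (nat_lit 228) (nat_lit 4437119683) (nat_lit 0) (nat_lit 2442328755) (nat_lit 30) (nat_lit 5) (nat_lit 33) (nat_lit 4) (nat_lit 30) (nat_lit 4) (nat_lit 280) (nat_lit 222) (nat_lit 218))) (XT.nd (nat_lit 78) (nat_lit 228) (nat_lit 0) (XT.lf (nat_lit 0) (nat_lit 5333779055) (nat_lit 152) (nat_lit 6643020684) (nat_lit 152) (nat_lit 1786764214) (nat_lit 28) (nat_lit 4)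 (nat_lit 30) (nat_lit 5) (nat_lit 30) (nat_lit 4) (nat_lit 281) (nat_lit 222) (nat_lit 217)) (XT.nd (nat_lit 78) (nat_lit 0) (nat_lit 0) (XT.lf (nat_lit 0) (nat_lit 1123334205) (nat_lit 152) (nat_lit 2234596943) (nat_lit 228) (nat_lit 10896490418) (nat_lit 25) (nat_lit 5) (nat_lit 27) (nat_lit 5) (nat_lit 28) (nat_lit 4) (nat_lit 282) (nat_lit 222) (nat_lit 216)) (XT.lf (nat_lit 0) (nat_lit 8649047445) (nat_lit 228) (nat_lit 3775055855) (nat_lit 0) (nat_lit 2347670760) (nat_lit 25) (nat_lit 5) (nat_lit 28) (nat_lit 4) (nat_lit 25) (nat_lit 4) (nat_lit 283) (nat_lit 222) (nat_lit 215))))) (XT.nd (nat_lit 156) (nat_lit 380) (nat_lit 0) (XT.nd (nat_lit 78) (nat_lit 76) (nat_lit 0) (XT.lf (nat_lit 0) (nat_lit 5858451252) (nat_lit 152) (nat_lit 8249084627) (nat_lit 152) (nat_lit 1210627999) (nat_lit 23) (nat_lit 4) (nat_lit 25) (nat_lit 5) (nat_lit 25) (nat_lit 4) (nat_lit 284) (nat_lit 222)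 (nat_lit 214)) (XT.lf (nat_lit 0) (nat_lit 3737072534) (nat_lit 228) (nat_lit 154180281) (nat_lit 76) (nat_lit 12003706596) (nat_lit 22) (nat_lit 5) (nat_lit 25) (nat_lit 5) (nat_lit 23) (nat_lit 4) (nat_lit 285) (nat_lit 222) (nat_lit 213))) (XT.nd (nat_lit 78) (nat_lit 228) (nat_lit 0) (XT.lf (nat_lit 0) (nat_lit 8841537625) (nat_lit 228) (nat_lit 6983419906) (nat_lit 0) (nat_lit 677468924) (nat_lit 20) (nat_lit 5) (nat_lit 23) (nat_lit 4) (nat_lit 20) (nat_lit 4) (nat_lit 286) (nat_lit 222) (nat_lit 212)) (XT.nd (nat_lit 78) (nat_lit 76) (nat_lit 0) (XT.lf (nat_lit 0) (nat_lit 2283223122) (nat_lit 152) (nat_lit 11821200936) (nat_lit 152) (nat_lit 3038960032) (nat_lit 18) (nat_lit 4) (nat_lit 20) (nat_lit 5) (nat_lit 20) (nat_lit 4) (nat_lit 287) (nat_lit 222) (nat_lit 211)) (XT.lf (nat_lit 0) (nat_lit 1695075226) (nat_lit 228) (nat_lit 5929973625) (nat_lit 76) (nat_lit 10193522469) (nat_lit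 17) (nat_lit 5) (nat_lit 20) (nat_lit 5) (nat_lit 18) (nat_lit 4) (nat_lit 288) (nat_lit 222) (nat_lit 210)))))) (XT.nd (nat_lit 390) (nat_lit 380) (nat_lit 0) (XT.nd (nat_lit 156) (nat_lit 228) (nat_lit 0) (XT.nd (nat_lit 78) (nat_lit 0) (nat_lit 0) (XT.lf (nat_lit 0) (nat_lit 3234672882) (nat_lit 76) (nat_lit 3251213633) (nat_lit 152) (nat_lit 12044428726) (nat_lit 16) (nat_lit 5) (nat_lit 17) (nat_lit 5) (nat_lit 18) (nat_lit 4) (nat_lit 289) (nat_lit 222) (nat_lit 209)) (XT.lf (nat_lit 0) (nat_lit 11445928329) (nat_lit 152) (nat_lit 6548929379) (nat_lit 0) (nat_lit 1285076743) (nat_lit 16) (nat_lit 5) (nat_lit 18) (nat_lit 4) (nat_lit 16) (nat_lit 4) (nat_lit 290) (nat_lit 222) (nat_lit 208))) (XT.nd (nat_lit 78) (nat_lit 76) (nat_lit 0) (XT.lf (nat_lit 0) (nat_lit 2419918489) (nat_lit 152) (nat_lit 14152176670) (nat_lit 152) (nat_lit 3497566054) (nat_lit 14) (nat_lit 4) (nat_lit 16)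 (nat_lit 5) (nat_lit 16) (nat_lit 4) (nat_lit 291) (nat_lit 222) (nat_lit 207)) (XT.nd (nat_lit 78) (nat_lit 0) (nat_lit 0) (XT.lf (nat_lit 0) (nat_lit 968168733) (nat_lit 228) (nat_lit 9159474782) (nat_lit 76) (nat_lit 10773091607) (nat_lit 13) (nat_lit 5) (nat_lit 16) (nat_lit 5) (nat_lit 14) (nat_lit 4) (nat_lit 292) (nat_lit 222) (nat_lit 206)) (XT.lf (nat_lit 0) (nat_lit 5456946898) (nat_lit 228) (nat_lit 495109102) (nat_lit 76) (nat_lit 15824255045) (nat_lit 13) (nat_lit 5) (nat_lit 16) (nat_lit 5) (nat_lit 14) (nat_lit 4) (nat_lit 293) (nat_lit 222) (nat_lit 205))))) (XT.nd (nat_lit 234) (nat_lit 152) (nat_lit 0) (XT.nd (nat_lit 78) (nat_lit 152) (nat_lit 0) (XT.lf (nat_lit 0) (nat_lit 8564733296) (nat_lit 76) (nat_lit 1565302278) (nat_lit 152) (nat_lit 12566976851) (nat_lit 12) (nat_lit 5) (nat_lit 13) (nat_lit 5) (nat_lit 14) (nat_lit 4) (nat_lit 294) (nat_lit 222) (nat_lit 204))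 (XT.nd (nat_lit 78) (nat_lit 152) (nat_lit 0) (XT.lf (nat_lit 0) (nat_lit 14951842954) (nat_lit 152) (nat_lit 5806878788) (nat_lit 0) (nat_lit 2907711210) (nat_lit 12) (nat_lit 5) (nat_lit 14) (nat_lit 4) (nat_lit 12) (nat_lit 4) (nat_lit 295) (nat_lit 222) (nat_lit 203)) (XT.lf (nat_lit 0) (nat_lit 2780957602) (nat_lit 152) (nat_lit 17162683075) (nat_lit 152) (nat_lit 4742946361) (nat_lit 10) (nat_lit 4) (nat_lit 12) (nat_lit 5) (nat_lit 12) (nat_lit 4) (nat_lit 296) (nat_lit 222) (nat_lit 202)))) (XT.nd (nat_lit 78) (nat_lit 152) (nat_lit 0) (XT.lf (nat_lit 0) (nat_lit 11732743291) (nat_lit 152) (nat_lit 13402045903) (nat_lit 152) (nat_lit 624590170) (nat_lit 10) (nat_lit 4) (nat_lit 12) (nat_lit 5) (nat_lit 12) (nat_lit 4) (nat_lit 297) (nat_lit 222) (nat_lit 201)) (XT.nd (nat_lit 78) (nat_lit 76) (nat_lit 0) (XT.lf (nat_lit 0) (nat_lit 3521560143) (nat_lit 228) (nat_lit 5969373423) (nat_lit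 76) (nat_lit 17397102784) (nat_lit 9) (nat_lit 5) (nat_lit 12) (nat_lit 5) (nat_lit 10) (nat_lit 4) (nat_lit 298) (nat_lit 222) (nat_lit 200)) (XT.lf (nat_lit 0) (nat_lit 2358939865) (nat_lit 76) (nat_lit 5425071009) (nat_lit 152) (nat_lit 20291381113) (nat_lit 8) (nat_lit 5) (nat_lit 9) (nat_lit 5) (nat_lit 10) (nat_lit 4) (nat_lit 299) (nat_lit 222) (nat_lit 199))))))) (XT.nd (nat_lit 858) (nat_lit 152) (nat_lit 0) (XT.nd (nat_lit 390) (nat_lit 152) (nat_lit 0) (XT.nd (nat_lit 156) (nat_lit 76) (nat_lit 0) (XT.nd (nat_lit 78) (nat_lit 0) (nat_lit 0) (XT.lf (nat_lit 0) (nat_lit 11061788551) (nat_lit 76) (nat_lit 1161562138) (nat_lit 152) (nat_lit 17099955181) (nat_lit 8) (nat_lit 5) (nat_lit 9) (nat_lit 5) (nat_lit 10) (nat_lit 4) (nat_lit 300) (nat_lit 222) (nat_lit 198)) (XT.lf (nat_lit 0) (nat_lit 16822862024) (nat_lit 152) (nat_lit 10626649304) (nat_lit 0) (nat_lit 3186056518) (nat_lit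 8) (nat_lit 5) (nat_lit 10) (nat_lit 4) (nat_lit 8) (nat_lit 4) (nat_lit 301) (nat_lit 222) (nat_lit 197))) (XT.nd (nat_lit 78) (nat_lit 76) (nat_lit 0) (XT.lf (nat_lit 0) (nat_lit 21574870518) (nat_lit 152) (nat_lit 2775044240) (nat_lit 0) (nat_lit 7665946359) (nat_lit 8) (nat_lit 5) (nat_lit 10) (nat_lit 4) (nat_lit 8) (nat_lit 4) (nat_lit 302) (nat_lit 222) (nat_lit 196)) (XT.nd (nat_lit 78) (nat_lit 0) (nat_lit 0) (XT.lf (nat_lit 0) (nat_lit 5429099093) (nat_lit 76) (nat_lit 21102613558) (nat_lit 76) (nat_lit 6934528778) (nat_lit 7) (nat_lit 4) (nat_lit 8) (nat_lit 5) (nat_lit 8) (nat_lit 4) (nat_lit 303) (nat_lit 222) (nat_lit 195)) (XT.lf (nat_lit 0) (nat_lit 13959641177) (nat_lit 76) (nat_lit 17723050142) (nat_lit 76) (nat_lit 3308145723) (nat_lit 7) (nat_lit 4) (nat_lit 8) (nat_lit 5) (nat_lit 8) (nat_lit 4) (nat_lit 304) (nat_lit 222) (nat_lit 194))))) (XT.nd (nat_lit 234) (nat_lit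 0) (nat_lit 0) (XT.nd (nat_lit 78) (nat_lit 76) (nat_lit 0) (XT.lf (nat_lit 0) (nat_lit 410598588) (nat_lit 152) (nat_lit 13816455608) (nat_lit 76) (nat_lit 22366919175) (nat_lit 6) (nat_lit 5) (nat_lit 8) (nat_lit 5) (nat_lit 7) (nat_lit 4) (nat_lit 305) (nat_lit 222) (nat_lit 193)) (XT.nd (nat_lit 78) (nat_lit 76) (nat_lit 0) (XT.lf (nat_lit 0) (nat_lit 4172060727) (nat_lit 152) (nat_lit 6404560154) (nat_lit 76) (nat_lit 27701982028) (nat_lit 6) (nat_lit 5) (nat_lit 8) (nat_lit 5) (nat_lit 7) (nat_lit 4) (nat_lit 306) (nat_lit 222) (nat_lit 192)) (XT.lf (nat_lit 0) (nat_lit 1278893606) (nat_lit 76) (nat_lit 6783150296) (nat_lit 152) (nat_lit 31987277973) (nat_lit 5) (nat_lit 5) (nat_lit 6) (nat_lit 5) (nat_lit 7) (nat_lit 4) (nat_lit 307) (nat_lit 222) (nat_lit 191)))) (XT.nd (nat_lit 78) (nat_lit 0) (nat_lit 0) (XT.lf (nat_lit 0) (nat_lit 9359918454) (nat_lit 76) (nat_lit 2782954993)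 (nat_lit 152) (nat_lit 29765880912) (nat_lit 5) (nat_lit 5) (nat_lit 6) (nat_lit 5) (nat_lit 7) (nat_lit 4) (nat_lit 308) (nat_lit 222) (nat_lit 190)) (XT.nd (nat_lit 78) (nat_lit 0) (nat_lit 0) (XT.lf (nat_lit 0) (nat_lit 16374633712) (nat_lit 152) (nat_lit 26146077553) (nat_lit 0) (nat_lit 1342105275) (nat_lit 5) (nat_lit 5) (nat_lit 7) (nat_lit 4) (nat_lit 5) (nat_lit 4) (nat_lit 309) (nat_lit 222) (nat_lit 189)) (XT.lf (nat_lit 0) (nat_lit 20782514618) (nat_lit 152) (nat_lit 19562022850) (nat_lit 0) (nat_lit 5571170049) (nat_lit 5) (nat_lit 5) (nat_lit 7) (nat_lit 4) (nat_lit 5) (nat_lit 4) (nat_lit 310) (nat_lit 222) (nat_lit 188)))))) (XT.nd (nat_lit 390) (nat_lit 76) (nat_lit 0) (XT.nd (nat_lit 156) (nat_lit 76) (nat_lit 0) (XT.nd (nat_lit 78) (nat_lit 0) (nat_lit 0) (XT.lf (nat_lit 0) (nat_lit 25350259653) (nat_lit 152) (nat_lit 12754244011) (nat_lit 0) (nat_lit 9968614007) (nat_lit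 5) (nat_lit 5) (nat_lit 7) (nat_lit 4) (nat_lit 5) (nat_lit 4) (nat_lit 311) (nat_lit 222) (nat_lit 187)) (XT.lf (nat_lit 0) (nat_lit 30088744400) (nat_lit 152) (nat_lit 5706532039) (nat_lit 0) (nat_lit 14544907253) (nat_lit 5) (nat_lit 5) (nat_lit 7) (nat_lit 4) (nat_lit 5) (nat_lit 4) (nat_lit 312) (nat_lit 222) (nat_lit 186))) (XT.nd (nat_lit 78) (nat_lit 0) (nat_lit 0) (XT.lf (nat_lit 0) (nat_lit 1629694543) (nat_lit 76) (nat_lit 33395222045) (nat_lit 76) (nat_lit 17696916800) (nat_lit 4) (nat_lit 4) (nat_lit 5) (nat_lit 5) (nat_lit 5) (nat_lit 4) (nat_lit 313) (nat_lit 222) (nat_lit 185)) (XT.nd (nat_lit 78) (nat_lit 0) (nat_lit 0) (XT.lf (nat_lit 0) (nat_lit 9359052418) (nat_lit 76) (nat_lit 30854407365) (nat_lit 76) (nat_lit 15008989647) (nat_lit 4) (nat_lit 4) (nat_lit 5) (nat_lit 5) (nat_lit 5) (nat_lit 4) (nat_lit 314) (nat_lit 222) (nat_lit 184)) (XT.lf (nat_lit 0) (nat_lit 17386373639)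 (nat_lit 76) (nat_lit 28224407627) (nat_lit 76) (nat_lit 12238882791) (nat_lit 4) (nat_lit 4) (nat_lit 5) (nat_lit 5) (nat_lit 5) (nat_lit 4) (nat_lit 315) (nat_lit 222) (nat_lit 183))))) (XT.nd (nat_lit 234) (nat_lit 76) (nat_lit 0) (XT.nd (nat_lit 78) (nat_lit 0) (nat_lit 0) (XT.lf (nat_lit 0) (nat_lit 25730770877) (nat_lit 76) (nat_lit 25498960926) (nat_lit 76) (nat_lit 9380000740) (nat_lit 4) (nat_lit 4) (nat_lit 5) (nat_lit 5) (nat_lit 5) (nat_lit 4) (nat_lit 316) (nat_lit 222) (nat_lit 182)) (XT.nd (nat_lit 78) (nat_lit 0) (nat_lit 0) (XT.lf (nat_lit 0) (nat_lit 34412111744) (nat_lit 76) (nat_lit 22671578104) (nat_lit 76) (nat_lit 6425536631) (nat_lit 4) (nat_lit 4) (nat_lit 5) (nat_lit 5) (nat_lit 5) (nat_lit 4) (nat_lit 317) (nat_lit 222) (nat_lit 181)) (XT.lf (nat_lit 0) (nat_lit 43451066100) (nat_lit 76) (nat_lit 19735527296) (nat_lit 76) (nat_lit 3368456027) (nat_lit 4) (nat_lit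 4) (nat_lit 5) (nat_lit 5) (nat_lit 5) (nat_lit 4) (nat_lit 318) (nat_lit 222) (nat_lit 180)))) (XT.nd (nat_lit 78) (nat_lit 76) (nat_lit 0) (XT.lf (nat_lit 0) (nat_lit 52869155264) (nat_lit 76) (nat_lit 16683817905) (nat_lit 76) (nat_lit 201480164) (nat_lit 4) (nat_lit 4) (nat_lit 5) (nat_lit 5) (nat_lit 5) (nat_lit 4) (nat_lit 319) (nat_lit 222) (nat_lit 179)) (XT.nd (nat_lit 78) (nat_lit 0) (nat_lit 0) (XT.lf (nat_lit 0) (nat_lit 3022772281) (nat_lit 152) (nat_lit 10455887602) (nat_lit 76) (nat_lit 59635506903) (nat_lit 3) (nat_lit 5) (nat_lit 5) (nat_lit 5) (nat_lit 4) (nat_lit 4) (nat_lit 320) (nat_lit 222) (nat_lit 178)) (XT.lf (nat_lit 0) (nat_lit 6365904638) (nat_lit 152) (nat_lit 3773879005) (nat_lit 76) (nat_lit 66503202402) (nat_lit 3) (nat_lit 5) (nat_lit 5) (nat_lit 5) (nat_lit 4) (nat_lit 4) (nat_lit 321) (nat_lit 222) (nat_lit 177))))))))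
noncomputable def xc20 : XT := (XT.nd (nat_lit 34554) (nat_lit 0) (nat_lit 380) (XT.nd (nat_lit 858) (nat_lit 0) (nat_lit 0) (XT.nd (nat_lit 390) (nat_lit 0) (nat_lit 0) (XT.nd (nat_lit 156) (nat_lit 0) (nat_lit 0) (XT.nd (nat_lit 78) (nat_lit 0) (nat_lit 0) (XT.lf (nat_lit 0) (nat_lit 3241833871) (nat_lit 76) (nat_lit 6629136969) (nat_lit 152) (nat_lit 70477465450) (nat_lit 2) (nat_lit 5) (nat_lit 3) (nat_lit 5) (nat_lit 4) (nat_lit 4) (nat_lit 322) (nat_lit 222) (nat_lit 176)) (XT.lf (nat_lit 0) (nat_lit 10625364045) (nat_lit 76) (nat_lit 2929528069) (nat_lit 152) (nat_lit 70684190630) (nat_lit 2) (nat_lit 5) (nat_lit 3) (nat_lit 5) (nat_lit 4) (nat_lit 4) (nat_lit 323) (nat_lit 222) (nat_lit 175))) (XT.nd (nat_lit 78) (nat_lit 0) (nat_lit 0) (XT.lf (nat_lit 0) (nat_lit 17398378145) (nat_lit 152) (nat_lit 70015052316) (nat_lit 0) (nat_lit 911600237) (nat_lit 2) (nat_lit 5) (nat_lit 4)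 (nat_lit 4) (nat_lit 2) (nat_lit 4) (nat_lit 324) (nat_lit 222) (nat_lit 174)) (XT.nd (nat_lit 78) (nat_lit 0) (nat_lit 0) (XT.lf (nat_lit 0) (nat_lit 21431405066) (nat_lit 152) (nat_lit 66322859992) (nat_lit 0) (nat_lit 4861118793) (nat_lit 2) (nat_lit 5) (nat_lit 4) (nat_lit 4) (nat_lit 2) (nat_lit 4) (nat_lit 325) (nat_lit 222) (nat_lit 173)) (XT.lf (nat_lit 0) (nat_lit 25635414907) (nat_lit 152) (nat_lit 62500190378) (nat_lit 0) (nat_lit 8985596857) (nat_lit 2) (nat_lit 5) (nat_lit 4) (nat_lit 4) (nat_lit 2) (nat_lit 4) (nat_lit 326) (nat_lit 222) (nat_lit 172))))) (XT.nd (nat_lit 156) (nat_lit 0) (nat_lit 0) (XT.nd (nat_lit 78) (nat_lit 0) (nat_lit 0) (XT.lf (nat_lit 0) (nat_lit 30020417214) (nat_lit 152) (nat_lit 58537941880) (nat_lit 0) (nat_lit 13294854615) (nat_lit 2) (nat_lit 5) (nat_lit 4) (nat_lit 4) (nat_lit 2) (nat_lit 4) (nat_lit 327) (nat_lit 222) (nat_lit 171)) (XT.lf (nat_lit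 0) (nat_lit 34596852470) (nat_lit 152) (nat_lit 54426680573) (nat_lit 0) (nat_lit 17799152205) (nat_lit 2) (nat_lit 5) (nat_lit 4) (nat_lit 4) (nat_lit 2) (nat_lit 4) (nat_lit 328) (nat_lit 222) (nat_lit 170))) (XT.nd (nat_lit 78) (nat_lit 0) (nat_lit 0) (XT.lf (nat_lit 0) (nat_lit 39375616949) (nat_lit 152) (nat_lit 50156617738) (nat_lit 0) (nat_lit 22509214145) (nat_lit 2) (nat_lit 5) (nat_lit 4) (nat_lit 4) (nat_lit 2) (nat_lit 4) (nat_lit 329) (nat_lit 222) (nat_lit 169)) (XT.nd (nat_lit 78) (nat_lit 0) (nat_lit 0) (XT.lf (nat_lit 0) (nat_lit 44368088661) (nat_lit 152) (nat_lit 45717586561) (nat_lit 0) (nat_lit 27436254867) (nat_lit 2) (nat_lit 5) (nat_lit 4) (nat_lit 4) (nat_lit 2) (nat_lit 4) (nat_lit 330) (nat_lit 222) (nat_lit 168)) (XT.lf (nat_lit 0) (nat_lit 49586154444) (nat_lit 152) (nat_lit 41099017918) (nat_lit 0) (nat_lit 32592005422) (nat_lit 2) (nat_lit 5) (nat_lit 4) (nat_lit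 4) (nat_lit 2) (nat_lit 4) (nat_lit 331) (nat_lit 222) (nat_lit 167)))))) (XT.nd (nat_lit 33228) (nat_lit 0) (nat_lit 1748) (XT.nd (nat_lit 32994) (nat_lit 0) (nat_lit 2584) (XT.nd (nat_lit 32916) (nat_lit 0) (nat_lit 3344) (XT.lf (nat_lit 0) (nat_lit 60749330798) (nat_lit 152) (nat_lit 31278828218) (nat_lit 0) (nat_lit 43639312190) (nat_lit 2) (nat_lit 5) (nat_lit 4) (nat_lit 4) (nat_lit 2) (nat_lit 4) (nat_lit 333) (nat_lit 222) (nat_lit 165)) (XT.lf (nat_lit 0) (nat_lit 4185559586) (nat_lit 228) (nat_lit 656032339) (nat_lit 228) (nat_lit 656032339) (nat_lit 46) (nat_lit 4) (nat_lit 49) (nat_lit 5) (nat_lit 49) (nat_lit 4) (nat_lit 274) (nat_lit 223) (nat_lit 223))) (XT.nd (nat_lit 78) (nat_lit 456) (nat_lit 0) (XT.lf (nat_lit 0) (nat_lit 4199026146) (nat_lit 304) (nat_lit 4120948500) (nat_lit 0) (nat_lit 3009043411) (nat_lit 42) (nat_lit 5) (nat_lit 46) (nat_lit 4) (nat_lit 42) (nat_lit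 4) (nat_lit 275) (nat_lit 223) (nat_lit 222)) (XT.nd (nat_lit 78) (nat_lit 228) (nat_lit 0) (XT.lf (nat_lit 0) (nat_lit 5670488290) (nat_lit 228) (nat_lit 4167945783) (nat_lit 228) (nat_lit 1844646158) (nat_lit 39) (nat_lit 4) (nat_lit 42) (nat_lit 5) (nat_lit 42) (nat_lit 4) (nat_lit 276) (nat_lit 223) (nat_lit 221)) (XT.lf (nat_lit 0) (nat_lit 3502505281) (nat_lit 228) (nat_lit 8356575597) (nat_lit 0) (nat_lit 198962519) (nat_lit 36) (nat_lit 5) (nat_lit 39) (nat_lit 4) (nat_lit 36) (nat_lit 4) (nat_lit 277) (nat_lit 223) (nat_lit 220))))) (XT.nd (nat_lit 234) (nat_lit 380) (nat_lit 0) (XT.nd (nat_lit 78) (nat_lit 228) (nat_lit 0) (XT.lf (nat_lit 0) (nat_lit 1226448615) (nat_lit 228) (nat_lit 7764644865) (nat_lit 228) (nat_lit 3463090620) (nat_lit 33) (nat_lit 4) (nat_lit 36) (nat_lit 5) (nat_lit 36) (nat_lit 4) (nat_lit 278) (nat_lit 223) (nat_lit 219)) (XT.nd (nat_lit 78) (nat_lit 152)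 (nat_lit 0) (XT.lf (nat_lit 0) (nat_lit 1734136394) (nat_lit 304) (nat_lit 1731744490) (nat_lit 76) (nat_lit 9407418282) (nat_lit 32) (nat_lit 5) (nat_lit 36) (nat_lit 5) (nat_lit 33) (nat_lit 4) (nat_lit 279) (nat_lit 223) (nat_lit 218)) (XT.lf (nat_lit 0) (nat_lit 7017579855) (nat_lit 228) (nat_lit 5258474734) (nat_lit 0) (nat_lit 1039650527) (nat_lit 30) (nat_lit 5) (nat_lit 33) (nat_lit 4) (nat_lit 30) (nat_lit 4) (nat_lit 280) (nat_lit 223) (nat_lit 217)))) (XT.nd (nat_lit 78) (nat_lit 228) (nat_lit 0) (XT.lf (nat_lit 0) (nat_lit 4351693730) (nat_lit 152) (nat_lit 8123236561) (nat_lit 152) (nat_lit 1308297677) (nat_lit 28) (nat_lit 4) (nat_lit 30) (nat_lit 5) (nat_lit 30) (nat_lit 4) (nat_lit 281) (nat_lit 223) (nat_lit 216)) (XT.nd (nat_lit 78) (nat_lit 152) (nat_lit 0) (XT.lf (nat_lit 0) (nat_lit 3727960706) (nat_lit 228) (nat_lit 44330608) (nat_lit 76) (nat_lit 10504759493) (nat_lit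 27) (nat_lit 5) (nat_lit 30) (nat_lit 5) (nat_lit 28) (nat_lit 4) (nat_lit 282) (nat_lit 223) (nat_lit 215)) (XT.lf (nat_lit 0) (nat_lit 8917977304) (nat_lit 228) (nat_lit 5089065082) (nat_lit 0) (nat_lit 790517901) (nat_lit 25) (nat_lit 5) (nat_lit 28) (nat_lit 4) (nat_lit 25) (nat_lit 4) (nat_lit 283) (nat_lit 223) (nat_lit 214))))))) (XT.nd (nat_lit 780) (nat_lit 456) (nat_lit 0) (XT.nd (nat_lit 390) (nat_lit 304) (nat_lit 0) (XT.nd (nat_lit 156) (nat_lit 380) (nat_lit 0) (XT.nd (nat_lit 78) (nat_lit 76) (nat_lit 0) (XT.lf (nat_lit 0) (nat_lit 4384629668) (nat_lit 152) (nat_lit 9895878774) (nat_lit 152) (nat_lit 1066438473) (nat_lit 23) (nat_lit 4) (nat_lit 25) (nat_lit 5) (nat_lit 25) (nat_lit 4) (nat_lit 284) (nat_lit 223) (nat_lit 213)) (XT.lf (nat_lit 0) (nat_lit 3798435868) (nat_lit 228) (nat_lit 1787168725) (nat_lit 76) (nat_lit 10340605841) (nat_lit 22) (nat_lit 5) (nat_lit 25)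 (nat_lit 5) (nat_lit 23) (nat_lit 4) (nat_lit 285) (nat_lit 223) (nat_lit 212))) (XT.nd (nat_lit 78) (nat_lit 228) (nat_lit 0) (XT.lf (nat_lit 0) (nat_lit 7735059452) (nat_lit 152) (nat_lit 1067783088) (nat_lit 228) (nat_lit 7733940681) (nat_lit 20) (nat_lit 5) (nat_lit 22) (nat_lit 5) (nat_lit 23) (nat_lit 4) (nat_lit 286) (nat_lit 223) (nat_lit 211)) (XT.nd (nat_lit 78) (nat_lit 76) (nat_lit 0) (XT.lf (nat_lit 0) (nat_lit 315582051) (nat_lit 152) (nat_lit 13646809278) (nat_lit 152) (nat_lit 3218548697) (nat_lit 18) (nat_lit 4) (nat_lit 20) (nat_lit 5) (nat_lit 20) (nat_lit 4) (nat_lit 287) (nat_lit 223) (nat_lit 210)) (XT.lf (nat_lit 0) (nat_lit 1446428408) (nat_lit 228) (nat_lit 8052711321) (nat_lit 76) (nat_lit 8359307768) (nat_lit 17) (nat_lit 5) (nat_lit 20) (nat_lit 5) (nat_lit 18) (nat_lit 4) (nat_lit 288) (nat_lit 223) (nat_lit 209))))) (XT.nd (nat_lit 156) (nat_lit 228) (nat_lit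 0) (XT.nd (nat_lit 78) (nat_lit 0) (nat_lit 0) (XT.lf (nat_lit 0) (nat_lit 953840302) (nat_lit 76) (nat_lit 5192367423) (nat_lit 152) (nat_lit 12426801869) (nat_lit 16) (nat_lit 5) (nat_lit 17) (nat_lit 5) (nat_lit 18) (nat_lit 4) (nat_lit 289) (nat_lit 223) (nat_lit 208)) (XT.lf (nat_lit 0) (nat_lit 10352817589) (nat_lit 76) (nat_lit 673956189) (nat_lit 152) (nat_lit 8298322361) (nat_lit 16) (nat_lit 5) (nat_lit 17) (nat_lit 5) (nat_lit 18) (nat_lit 4) (nat_lit 290) (nat_lit 223) (nat_lit 207))) (XT.nd (nat_lit 78) (nat_lit 228) (nat_lit 0) (XT.lf (nat_lit 0) (nat_lit 16059110218) (nat_lit 152) (nat_lit 150843354) (nat_lit 0) (nat_lit 3907763346) (nat_lit 16) (nat_lit 5) (nat_lit 18) (nat_lit 4) (nat_lit 16) (nat_lit 4) (nat_lit 291) (nat_lit 223) (nat_lit 206)) (XT.nd (nat_lit 78) (nat_lit 0) (nat_lit 0) (XT.lf (nat_lit 0) (nat_lit 353860196) (nat_lit 228) (nat_lit 11880864667) (nat_lit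 76) (nat_lit 8716227378) (nat_lit 13) (nat_lit 5) (nat_lit 16) (nat_lit 5) (nat_lit 14) (nat_lit 4) (nat_lit 292) (nat_lit 223) (nat_lit 205)) (XT.lf (nat_lit 0) (nat_lit 4782902823) (nat_lit 228) (nat_lit 3316435748) (nat_lit 76) (nat_lit 13729051321) (nat_lit 13) (nat_lit 5) (nat_lit 16) (nat_lit 5) (nat_lit 14) (nat_lit 4) (nat_lit 293) (nat_lit 223) (nat_lit 204)))))) (XT.nd (nat_lit 390) (nat_lit 152) (nat_lit 0) (XT.nd (nat_lit 156) (nat_lit 228) (nat_lit 0) (XT.nd (nat_lit 78) (nat_lit 0) (nat_lit 0) (XT.lf (nat_lit 0) (nat_lit 5590184624) (nat_lit 76) (nat_lit 3780322705) (nat_lit 152) (nat_lit 13381214812) (nat_lit 12) (nat_lit 5) (nat_lit 13) (nat_lit 5) (nat_lit 14) (nat_lit 4) (nat_lit 294) (nat_lit 223) (nat_lit 203)) (XT.lf (nat_lit 0) (nat_lit 14115592693) (nat_lit 152) (nat_lit 8908650651) (nat_lit 0) (nat_lit 699264172) (nat_lit 12) (nat_lit 5) (nat_lit 14) (nat_lit 4) (nat_lit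 12) (nat_lit 4) (nat_lit 295) (nat_lit 223) (nat_lit 202))) (XT.nd (nat_lit 78) (nat_lit 228) (nat_lit 0) (XT.lf (nat_lit 0) (nat_lit 19027867783) (nat_lit 152) (nat_lit 464419432) (nat_lit 0) (nat_lit 5253820243) (nat_lit 12) (nat_lit 5) (nat_lit 14) (nat_lit 4) (nat_lit 12) (nat_lit 4) (nat_lit 296) (nat_lit 223) (nat_lit 201)) (XT.nd (nat_lit 78) (nat_lit 76) (nat_lit 0) (XT.lf (nat_lit 0) (nat_lit 8391345601) (nat_lit 152) (nat_lit 15772006865) (nat_lit 152) (nat_lit 1657274544) (nat_lit 10) (nat_lit 4) (nat_lit 12) (nat_lit 5) (nat_lit 12) (nat_lit 4) (nat_lit 297) (nat_lit 223) (nat_lit 200)) (XT.lf (nat_lit 0) (nat_lit 2459814835) (nat_lit 228) (nat_lit 9445769900) (nat_lit 76) (nat_lit 15045526427) (nat_lit 9) (nat_lit 5) (nat_lit 12) (nat_lit 5) (nat_lit 10) (nat_lit 4) (nat_lit 298) (nat_lit 223) (nat_lit 199))))) (XT.nd (nat_lit 234) (nat_lit 76) (nat_lit 0) (XT.nd (nat_lit 78)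 (nat_lit 76) (nat_lit 0) (XT.lf (nat_lit 0) (nat_lit 6652721112) (nat_lit 228) (nat_lit 1243181296) (nat_lit 76) (nat_lit 20244701193) (nat_lit 9) (nat_lit 5) (nat_lit 12) (nat_lit 5) (nat_lit 10) (nat_lit 4) (nat_lit 299) (nat_lit 223) (nat_lit 198)) (XT.nd (nat_lit 78) (nat_lit 0) (nat_lit 0) (XT.lf (nat_lit 0) (nat_lit 7357516763) (nat_lit 76) (nat_lit 3676974981) (nat_lit 152) (nat_lit 18355800883) (nat_lit 8) (nat_lit 5) (nat_lit 9) (nat_lit 5) (nat_lit 10) (nat_lit 4) (nat_lit 300) (nat_lit 223) (nat_lit 197)) (XT.lf (nat_lit 0) (nat_lit 15566310057) (nat_lit 152) (nat_lit 14448500076) (nat_lit 0) (nat_lit 689821038) (nat_lit 8) (nat_lit 5) (nat_lit 10) (nat_lit 4) (nat_lit 8) (nat_lit 4) (nat_lit 301) (nat_lit 223) (nat_lit 196)))) (XT.nd (nat_lit 78) (nat_lit 76) (nat_lit 0) (XT.lf (nat_lit 0) (nat_lit 20276877279) (nat_lit 152) (nat_lit 6668106359) (nat_lit 0) (nat_lit 5141227639)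 (nat_lit 8) (nat_lit 5) (nat_lit 10) (nat_lit 4) (nat_lit 8) (nat_lit 4) (nat_lit 302) (nat_lit 223) (nat_lit 195)) (XT.nd (nat_lit 78) (nat_lit 0) (nat_lit 0) (XT.lf (nat_lit 0) (nat_lit 1389387318) (nat_lit 76) (nat_lit 23766032037) (nat_lit 76) (nat_lit 8383562757) (nat_lit 7) (nat_lit 4) (nat_lit 8) (nat_lit 5) (nat_lit 8) (nat_lit 4) (nat_lit 303) (nat_lit 223) (nat_lit 194)) (XT.lf (nat_lit 0) (nat_lit 9854053128) (nat_lit 76) (nat_lit 20414123197) (nat_lit 76) (nat_lit 4796587594) (nat_lit 7) (nat_lit 4) (nat_lit 8) (nat_lit 5) (nat_lit 8) (nat_lit 4) (nat_lit 304) (nat_lit 223) (nat_lit 193))))))))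
noncomputable def xc21 : XT := (XT.nd (nat_lit 1638) (nat_lit 0) (nat_lit 0) (XT.nd (nat_lit 780) (nat_lit 152) (nat_lit 0) (XT.nd (nat_lit 390) (nat_lit 76) (nat_lit 0) (XT.nd (nat_lit 156) (nat_lit 76) (nat_lit 0) (XT.nd (nat_lit 78) (nat_lit 76) (nat_lit 0) (XT.lf (nat_lit 0) (nat_lit 18613336645) (nat_lit 76) (nat_lit 16948611184) (nat_lit 76) (nat_lit 1107202892) (nat_lit 7) (nat_lit 4) (nat_lit 8) (nat_lit 5) (nat_lit 8) (nat_lit 4) (nat_lit 305) (nat_lit 223) (nat_lit 192)) (XT.lf (nat_lit 0) (nat_lit 2640818139) (nat_lit 152) (nat_lit 10693759553) (nat_lit 76) (nat_lit 25020608083) (nat_lit 6) (nat_lit 5) (nat_lit 8) (nat_lit 5) (nat_lit 7) (nat_lit 4) (nat_lit 306) (nat_lit 223) (nat_lit 191))) (XT.nd (nat_lit 78) (nat_lit 76) (nat_lit 0) (XT.lf (nat_lit 0) (nat_lit 6485130070) (nat_lit 152) (nat_lit 3092865461) (nat_lit 76) (nat_lit 30549312510) (nat_lit 6) (nat_lit 5) (nat_lit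 8) (nat_lit 5) (nat_lit 7) (nat_lit 4) (nat_lit 307) (nat_lit 223) (nat_lit 190)) (XT.nd (nat_lit 78) (nat_lit 0) (nat_lit 0) (XT.lf (nat_lit 0) (nat_lit 4870652652) (nat_lit 76) (nat_lit 5632658580) (nat_lit 152) (nat_lit 31485340330) (nat_lit 5) (nat_lit 5) (nat_lit 6) (nat_lit 5) (nat_lit 7) (nat_lit 4) (nat_lit 308) (nat_lit 223) (nat_lit 189)) (XT.lf (nat_lit 0) (nat_lit 13187737582) (nat_lit 76) (nat_lit 1503389189) (nat_lit 152) (nat_lit 29252935395) (nat_lit 5) (nat_lit 5) (nat_lit 6) (nat_lit 5) (nat_lit 7) (nat_lit 4) (nat_lit 309) (nat_lit 223) (nat_lit 188))))) (XT.nd (nat_lit 156) (nat_lit 76) (nat_lit 0) (XT.nd (nat_lit 78) (nat_lit 0) (nat_lit 0) (XT.lf (nat_lit 0) (nat_lit 19055029393) (nat_lit 152) (nat_lit 24209271361) (nat_lit 0) (nat_lit 2734000388) (nat_lit 5) (nat_lit 5) (nat_lit 7) (nat_lit 4) (nat_lit 5) (nat_lit 4) (nat_lit 310) (nat_lit 223) (nat_lit 187)) (XT.lf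 (nat_lit 0) (nat_lit 23594653677) (nat_lit 152) (nat_lit 17450495355) (nat_lit 0) (nat_lit 7111433170) (nat_lit 5) (nat_lit 5) (nat_lit 7) (nat_lit 4) (nat_lit 5) (nat_lit 4) (nat_lit 311) (nat_lit 223) (nat_lit 186))) (XT.nd (nat_lit 78) (nat_lit 76) (nat_lit 0) (XT.lf (nat_lit 0) (nat_lit 28306356758) (nat_lit 152) (nat_lit 10449452747) (nat_lit 0) (nat_lit 11668668153) (nat_lit 5) (nat_lit 5) (nat_lit 7) (nat_lit 4) (nat_lit 5) (nat_lit 4) (nat_lit 312) (nat_lit 223) (nat_lit 185)) (XT.nd (nat_lit 78) (nat_lit 76) (nat_lit 0) (XT.lf (nat_lit 0) (nat_lit 33201356975) (nat_lit 152) (nat_lit 3189474389) (nat_lit 0) (nat_lit 16416555897) (nat_lit 5) (nat_lit 5) (nat_lit 7) (nat_lit 4) (nat_lit 5) (nat_lit 4) (nat_lit 313) (nat_lit 223) (nat_lit 184)) (XT.lf (nat_lit 0) (nat_lit 4433233741) (nat_lit 76) (nat_lit 33900690306) (nat_lit 76) (nat_lit 16975782110) (nat_lit 4) (nat_lit 4) (nat_lit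 5) (nat_lit 5) (nat_lit 5) (nat_lit 4) (nat_lit 314) (nat_lit 223) (nat_lit 183)))))) (XT.nd (nat_lit 390) (nat_lit 152) (nat_lit 0) (XT.nd (nat_lit 156) (nat_lit 0) (nat_lit 0) (XT.nd (nat_lit 78) (nat_lit 0) (nat_lit 0) (XT.lf (nat_lit 0) (nat_lit 12419437867) (nat_lit 76) (nat_lit 31288277409) (nat_lit 76) (nat_lit 14229933863) (nat_lit 4) (nat_lit 4) (nat_lit 5) (nat_lit 5) (nat_lit 5) (nat_lit 4) (nat_lit 315) (nat_lit 223) (nat_lit 182)) (XT.lf (nat_lit 0) (nat_lit 20724675967) (nat_lit 76) (nat_lit 28579580080) (nat_lit 76) (nat_lit 11394155248) (nat_lit 4) (nat_lit 4) (nat_lit 5) (nat_lit 5) (nat_lit 5) (nat_lit 4) (nat_lit 316) (nat_lit 223) (nat_lit 181))) (XT.nd (nat_lit 78) (nat_lit 0) (nat_lit 0) (XT.lf (nat_lit 0) (nat_lit 29368722417) (nat_lit 76) (nat_lit 25768149041) (nat_lit 76) (nat_lit 8461694413) (nat_lit 4) (nat_lit 4) (nat_lit 5) (nat_lit 5) (nat_lit 5) (nat_lit 4)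 (nat_lit 317) (nat_lit 223) (nat_lit 180)) (XT.nd (nat_lit 78) (nat_lit 0) (nat_lit 0) (XT.lf (nat_lit 0) (nat_lit 38372158281) (nat_lit 76) (nat_lit 22847290407) (nat_lit 76) (nat_lit 5425569306) (nat_lit 4) (nat_lit 4) (nat_lit 5) (nat_lit 5) (nat_lit 5) (nat_lit 4) (nat_lit 318) (nat_lit 223) (nat_lit 179)) (XT.lf (nat_lit 0) (nat_lit 47756420309) (nat_lit 76) (nat_lit 19810049754) (nat_lit 76) (nat_lit 2278551060) (nat_lit 4) (nat_lit 4) (nat_lit 5) (nat_lit 5) (nat_lit 5) (nat_lit 4) (nat_lit 319) (nat_lit 223) (nat_lit 178))))) (XT.nd (nat_lit 234) (nat_lit 76) (nat_lit 0) (XT.nd (nat_lit 78) (nat_lit 0) (nat_lit 0) (XT.lf (nat_lit 0) (nat_lit 967596164) (nat_lit 152) (nat_lit 15671828567) (nat_lit 76) (nat_lit 56566484994) (nat_lit 3) (nat_lit 5) (nat_lit 5) (nat_lit 5) (nat_lit 4) (nat_lit 4) (nat_lit 320) (nat_lit 223) (nat_lit 177)) (XT.nd (nat_lit 78) (nat_lit 0) (nat_lit 0) (XT.lf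 (nat_lit 0) (nat_lit 4292979613) (nat_lit 152) (nat_lit 9020871680) (nat_lit 76) (nat_lit 63421426423) (nat_lit 3) (nat_lit 5) (nat_lit 5) (nat_lit 5) (nat_lit 4) (nat_lit 4) (nat_lit 321) (nat_lit 223) (nat_lit 176)) (XT.lf (nat_lit 0) (nat_lit 7749979601) (nat_lit 152) (nat_lit 2097991715) (nat_lit 76) (nat_lit 70594214117) (nat_lit 3) (nat_lit 5) (nat_lit 5) (nat_lit 5) (nat_lit 4) (nat_lit 4) (nat_lit 322) (nat_lit 223) (nat_lit 175)))) (XT.nd (nat_lit 78) (nat_lit 0) (nat_lit 0) (XT.lf (nat_lit 0) (nat_lit 5215058958) (nat_lit 76) (nat_lit 6181898461) (nat_lit 152) (nat_lit 72936997523) (nat_lit 2) (nat_lit 5) (nat_lit 3) (nat_lit 5) (nat_lit 4) (nat_lit 4) (nat_lit 323) (nat_lit 223) (nat_lit 174)) (XT.nd (nat_lit 78) (nat_lit 0) (nat_lit 0) (XT.lf (nat_lit 0) (nat_lit 12881521193) (nat_lit 76) (nat_lit 2334389848) (nat_lit 152) (nat_lit 73204741876) (nat_lit 2) (nat_lit 5) (nat_lit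 3) (nat_lit 5) (nat_lit 4) (nat_lit 4) (nat_lit 324) (nat_lit 223) (nat_lit 173)) (XT.lf (nat_lit 0) (nat_lit 19211538171) (nat_lit 152) (nat_lit 71850905830) (nat_lit 0) (nat_lit 1649697442) (nat_lit 2) (nat_lit 5) (nat_lit 4) (nat_lit 4) (nat_lit 2) (nat_lit 4) (nat_lit 325) (nat_lit 223) (nat_lit 172))))))) (XT.nd (nat_lit 33618) (nat_lit 0) (nat_lit 1368) (XT.nd (nat_lit 390) (nat_lit 0) (nat_lit 0) (XT.nd (nat_lit 156) (nat_lit 0) (nat_lit 0) (XT.nd (nat_lit 78) (nat_lit 0) (nat_lit 0) (XT.lf (nat_lit 0) (nat_lit 23401300195) (nat_lit 152) (nat_lit 68053384799) (nat_lit 0) (nat_lit 5763714916) (nat_lit 2) (nat_lit 5) (nat_lit 4) (nat_lit 4) (nat_lit 2) (nat_lit 4) (nat_lit 326) (nat_lit 223) (nat_lit 171)) (XT.lf (nat_lit 0) (nat_lit 27772733152) (nat_lit 152) (nat_lit 64115087333) (nat_lit 0) (nat_lit 10063010208) (nat_lit 2) (nat_lit 5) (nat_lit 4) (nat_lit 4) (nat_lit 2) (nat_lit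 4) (nat_lit 327) (nat_lit 223) (nat_lit 170))) (XT.nd (nat_lit 78) (nat_lit 0) (nat_lit 0) (XT.lf (nat_lit 0) (nat_lit 32336245218) (nat_lit 152) (nat_lit 60026636532) (nat_lit 0) (nat_lit 14557819734) (nat_lit 2) (nat_lit 5) (nat_lit 4) (nat_lit 4) (nat_lit 2) (nat_lit 4) (nat_lit 328) (nat_lit 223) (nat_lit 169)) (XT.nd (nat_lit 78) (nat_lit 0) (nat_lit 0) (XT.lf (nat_lit 0) (nat_lit 37102701896) (nat_lit 152) (nat_lit 55778297990) (nat_lit 0) (nat_lit 19258845423) (nat_lit 2) (nat_lit 5) (nat_lit 4) (nat_lit 4) (nat_lit 2) (nat_lit 4) (nat_lit 329) (nat_lit 223) (nat_lit 168)) (XT.lf (nat_lit 0) (nat_lit 42083451894) (nat_lit 152) (nat_lit 51359956614) (nat_lit 0) (nat_lit 24177280193) (nat_lit 2) (nat_lit 5) (nat_lit 4) (nat_lit 4) (nat_lit 2) (nat_lit 4) (nat_lit 330) (nat_lit 223) (nat_lit 167))))) (XT.nd (nat_lit 32994) (nat_lit 0) (nat_lit 3040) (XT.nd (nat_lit 156) (nat_lit 0) (nat_lit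 0) (XT.lf (nat_lit 0) (nat_lit 47290354140) (nat_lit 152) (nat_lit 46761092545) (nat_lit 0) (nat_lit 29324834602) (nat_lit 2) (nat_lit 5) (nat_lit 4) (nat_lit 4) (nat_lit 2) (nat_lit 4) (nat_lit 331) (nat_lit 223) (nat_lit 166)) (XT.nd (nat_lit 32760) (nat_lit 0) (nat_lit 3876) (XT.lf (nat_lit 0) (nat_lit 58432772895) (nat_lit 152) (nat_lit 36977541734) (nat_lit 0) (nat_lit 40356901371) (nat_lit 2) (nat_lit 5) (nat_lit 4) (nat_lit 4) (nat_lit 2) (nat_lit 4) (nat_lit 333) (nat_lit 223) (nat_lit 164)) (XT.lf (nat_lit 0) (nat_lit 4911908927) (nat_lit 304) (nat_lit 138985564) (nat_lit 304) (nat_lit 138985564) (nat_lit 53) (nat_lit 4) (nat_lit 57) (nat_lit 5) (nat_lit 57) (nat_lit 4) (nat_lit 272) (nat_lit 224) (nat_lit 224)))) (XT.nd (nat_lit 78) (nat_lit 532) (nat_lit 0) (XT.lf (nat_lit 0) (nat_lit 5222293905) (nat_lit 304) (nat_lit 1521994380) (nat_lit 0) (nat_lit 3935327578) (nat_lit 49)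 (nat_lit 5) (nat_lit 53) (nat_lit 4) (nat_lit 49) (nat_lit 4) (nat_lit 273) (nat_lit 224) (nat_lit 223)) (XT.nd (nat_lit 78) (nat_lit 304) (nat_lit 0) (XT.lf (nat_lit 0) (nat_lit 8214975246) (nat_lit 228) (nat_lit 2648169096) (nat_lit 228) (nat_lit 135520552) (nat_lit 46) (nat_lit 4) (nat_lit 49) (nat_lit 5) (nat_lit 49) (nat_lit 4) (nat_lit 274) (nat_lit 224) (nat_lit 222)) (XT.lf (nat_lit 0) (nat_lit 5233122100) (nat_lit 304) (nat_lit 4442407766) (nat_lit 0) (nat_lit 1660340603) (nat_lit 42) (nat_lit 5) (nat_lit 46) (nat_lit 4) (nat_lit 42) (nat_lit 4) (nat_lit 275) (nat_lit 224) (nat_lit 221)))))) (XT.nd (nat_lit 390) (nat_lit 760) (nat_lit 0) (XT.nd (nat_lit 156) (nat_lit 456) (nat_lit 0) (XT.nd (nat_lit 78) (nat_lit 228) (nat_lit 0) (XT.lf (nat_lit 0) (nat_lit 5190316866) (nat_lit 228) (nat_lit 5577534317) (nat_lit 228) (nat_lit 925403401) (nat_lit 39) (nat_lit 4) (nat_lit 42) (nat_lit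 5) (nat_lit 42) (nat_lit 4) (nat_lit 276) (nat_lit 224) (nat_lit 220)) (XT.lf (nat_lit 0) (nat_lit 3044254927) (nat_lit 152) (nat_lit 1253448358) (nat_lit 228) (nat_lit 7773600473) (nat_lit 36) (nat_lit 5) (nat_lit 38) (nat_lit 5) (nat_lit 39) (nat_lit 4) (nat_lit 277) (nat_lit 224) (nat_lit 219))) (XT.nd (nat_lit 78) (nat_lit 228) (nat_lit 0) (XT.lf (nat_lit 0) (nat_lit 406537023) (nat_lit 228) (nat_lit 9264822924) (nat_lit 228) (nat_lit 2799692356) (nat_lit 33) (nat_lit 4) (nat_lit 36) (nat_lit 5) (nat_lit 36) (nat_lit 4) (nat_lit 278) (nat_lit 224) (nat_lit 218)) (XT.nd (nat_lit 78) (nat_lit 152) (nat_lit 0) (XT.lf (nat_lit 0) (nat_lit 2291695095) (nat_lit 304) (nat_lit 2718215360) (nat_lit 76) (nat_lit 7883000279) (nat_lit 32) (nat_lit 5) (nat_lit 36) (nat_lit 5) (nat_lit 33) (nat_lit 4) (nat_lit 279) (nat_lit 224) (nat_lit 217)) (XT.lf (nat_lit 0) (nat_lit 6922419224) (nat_lit 152)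 (nat_lit 543046524) (nat_lit 228) (nat_lit 5873281923) (nat_lit 30) (nat_lit 5) (nat_lit 32) (nat_lit 5) (nat_lit 33) (nat_lit 4) (nat_lit 280) (nat_lit 224) (nat_lit 216))))) (XT.nd (nat_lit 234) (nat_lit 380) (nat_lit 0) (XT.nd (nat_lit 78) (nat_lit 228) (nat_lit 0) (XT.lf (nat_lit 0) (nat_lit 3038612158) (nat_lit 152) (nat_lit 9780377306) (nat_lit 152) (nat_lit 990529962) (nat_lit 28) (nat_lit 4) (nat_lit 30) (nat_lit 5) (nat_lit 30) (nat_lit 4) (nat_lit 281) (nat_lit 224) (nat_lit 215)) (XT.nd (nat_lit 78) (nat_lit 152) (nat_lit 0) (XT.lf (nat_lit 0) (nat_lit 3955430296) (nat_lit 228) (nat_lit 1519516183) (nat_lit 76) (nat_lit 8830951064) (nat_lit 27) (nat_lit 5) (nat_lit 30) (nat_lit 5) (nat_lit 28) (nat_lit 4) (nat_lit 282) (nat_lit 224) (nat_lit 214)) (XT.lf (nat_lit 0) (nat_lit 8082980739) (nat_lit 152) (nat_lit 958921107) (nat_lit 228) (nat_lit 5787729618) (nat_lit 25) (nat_lit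 5) (nat_lit 27) (nat_lit 5) (nat_lit 28) (nat_lit 4) (nat_lit 283) (nat_lit 224) (nat_lit 213)))) (XT.nd (nat_lit 78) (nat_lit 228) (nat_lit 0) (XT.lf (nat_lit 0) (nat_lit 2576159819) (nat_lit 152) (nat_lit 11723776052) (nat_lit 152) (nat_lit 1082329601) (nat_lit 23) (nat_lit 4) (nat_lit 25) (nat_lit 5) (nat_lit 25) (nat_lit 4) (nat_lit 284) (nat_lit 224) (nat_lit 212)) (XT.nd (nat_lit 78) (nat_lit 152) (nat_lit 0) (XT.lf (nat_lit 0) (nat_lit 3706652418) (nat_lit 228) (nat_lit 3753659409) (nat_lit 76) (nat_lit 8503611811) (nat_lit 22) (nat_lit 5) (nat_lit 25) (nat_lit 5) (nat_lit 23) (nat_lit 4) (nat_lit 285) (nat_lit 224) (nat_lit 211)) (XT.lf (nat_lit 0) (nat_lit 5610098328) (nat_lit 152) (nat_lit 3007960607) (nat_lit 228) (nat_lit 7959326534) (nat_lit 20) (nat_lit 5) (nat_lit 22) (nat_lit 5) (nat_lit 23) (nat_lit 4) (nat_lit 286) (nat_lit 224) (nat_lit 210))))))))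
noncomputable def xc22 : XT := (XT.nd (nat_lit 1638) (nat_lit 304) (nat_lit 0) (XT.nd (nat_lit 780) (nat_lit 456) (nat_lit 0) (XT.nd (nat_lit 390) (nat_lit 304) (nat_lit 0) (XT.nd (nat_lit 156) (nat_lit 76) (nat_lit 0) (XT.nd (nat_lit 78) (nat_lit 228) (nat_lit 0) (XT.lf (nat_lit 0) (nat_lit 13685296088) (nat_lit 228) (nat_lit 1952923221) (nat_lit 0) (nat_lit 1586186637) (nat_lit 20) (nat_lit 5) (nat_lit 23) (nat_lit 4) (nat_lit 20) (nat_lit 4) (nat_lit 287) (nat_lit 224) (nat_lit 209)) (XT.lf (nat_lit 0) (nat_lit 1043679461) (nat_lit 228) (nat_lit 10514440534) (nat_lit 76) (nat_lit 6346626375) (nat_lit 17) (nat_lit 5) (nat_lit 20) (nat_lit 5) (nat_lit 18) (nat_lit 4) (nat_lit 288) (nat_lit 224) (nat_lit 208))) (XT.nd (nat_lit 78) (nat_lit 76) (nat_lit 0) (XT.lf (nat_lit 0) (nat_lit 5668473488) (nat_lit 228) (nat_lit 1634680460) (nat_lit 76) (nat_lit 11318487139) (nat_lit 17) (nat_lit 5)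 (nat_lit 20) (nat_lit 5) (nat_lit 18) (nat_lit 4) (nat_lit 289) (nat_lit 224) (nat_lit 207)) (XT.nd (nat_lit 78) (nat_lit 0) (nat_lit 0) (XT.lf (nat_lit 0) (nat_lit 7626685710) (nat_lit 76) (nat_lit 2842635199) (nat_lit 152) (nat_lit 8906877389) (nat_lit 16) (nat_lit 5) (nat_lit 17) (nat_lit 5) (nat_lit 18) (nat_lit 4) (nat_lit 290) (nat_lit 224) (nat_lit 206)) (XT.lf (nat_lit 0) (nat_lit 15419772419) (nat_lit 152) (nat_lit 3008821032) (nat_lit 0) (nat_lit 1742757514) (nat_lit 16) (nat_lit 5) (nat_lit 18) (nat_lit 4) (nat_lit 16) (nat_lit 4) (nat_lit 291) (nat_lit 224) (nat_lit 205))))) (XT.nd (nat_lit 156) (nat_lit 76) (nat_lit 0) (XT.nd (nat_lit 78) (nat_lit 76) (nat_lit 0) (XT.lf (nat_lit 0) (nat_lit 6060125586) (nat_lit 152) (nat_lit 14525396019) (nat_lit 152) (nat_lit 421853500) (nat_lit 14) (nat_lit 4) (nat_lit 16) (nat_lit 5) (nat_lit 16) (nat_lit 4) (nat_lit 292) (nat_lit 224) (nat_lit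 204)) (XT.lf (nat_lit 0) (nat_lit 3958530019) (nat_lit 228) (nat_lit 6473943354) (nat_lit 76) (nat_lit 11454234111) (nat_lit 13) (nat_lit 5) (nat_lit 16) (nat_lit 5) (nat_lit 14) (nat_lit 4) (nat_lit 293) (nat_lit 224) (nat_lit 203))) (XT.nd (nat_lit 78) (nat_lit 0) (nat_lit 0) (XT.lf (nat_lit 0) (nat_lit 2277386813) (nat_lit 76) (nat_lit 6182721180) (nat_lit 152) (nat_lit 14352575723) (nat_lit 12) (nat_lit 5) (nat_lit 13) (nat_lit 5) (nat_lit 14) (nat_lit 4) (nat_lit 294) (nat_lit 224) (nat_lit 202)) (XT.nd (nat_lit 78) (nat_lit 0) (nat_lit 0) (XT.lf (nat_lit 0) (nat_lit 11421073000) (nat_lit 76) (nat_lit 1724816657) (nat_lit 152) (nat_lit 10640418722) (nat_lit 12) (nat_lit 5) (nat_lit 13) (nat_lit 5) (nat_lit 14) (nat_lit 4) (nat_lit 295) (nat_lit 224) (nat_lit 201)) (XT.lf (nat_lit 0) (nat_lit 17991308214) (nat_lit 152) (nat_lit 3989508617) (nat_lit 0) (nat_lit 2830154497) (nat_lit 12)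 (nat_lit 5) (nat_lit 14) (nat_lit 4) (nat_lit 12) (nat_lit 4) (nat_lit 296) (nat_lit 224) (nat_lit 200)))))) (XT.nd (nat_lit 390) (nat_lit 152) (nat_lit 0) (XT.nd (nat_lit 156) (nat_lit 76) (nat_lit 0) (XT.nd (nat_lit 78) (nat_lit 76) (nat_lit 0) (XT.lf (nat_lit 0) (nat_lit 4713454709) (nat_lit 152) (nat_lit 18330101632) (nat_lit 152) (nat_lit 2844486219) (nat_lit 10) (nat_lit 4) (nat_lit 12) (nat_lit 5) (nat_lit 12) (nat_lit 4) (nat_lit 297) (nat_lit 224) (nat_lit 199)) (XT.lf (nat_lit 0) (nat_lit 1248901055) (nat_lit 228) (nat_lit 13259357409) (nat_lit 76) (nat_lit 12512067149) (nat_lit 9) (nat_lit 5) (nat_lit 12) (nat_lit 5) (nat_lit 10) (nat_lit 4) (nat_lit 298) (nat_lit 224) (nat_lit 198))) (XT.nd (nat_lit 78) (nat_lit 76) (nat_lit 0) (XT.lf (nat_lit 0) (nat_lit 5397170302) (nat_lit 228) (nat_lit 5132667159) (nat_lit 76) (nat_lit 17681367767) (nat_lit 9) (nat_lit 5) (nat_lit 12) (nat_lit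 5) (nat_lit 10) (nat_lit 4) (nat_lit 299) (nat_lit 224) (nat_lit 197)) (XT.nd (nat_lit 78) (nat_lit 0) (nat_lit 0) (XT.lf (nat_lit 0) (nat_lit 3316899762) (nat_lit 76) (nat_lit 6380688833) (nat_lit 152) (nat_lit 19765792007) (nat_lit 8) (nat_lit 5) (nat_lit 9) (nat_lit 5) (nat_lit 10) (nat_lit 4) (nat_lit 300) (nat_lit 224) (nat_lit 196)) (XT.lf (nat_lit 0) (nat_lit 12152267798) (nat_lit 76) (nat_lit 2029214135) (nat_lit 152) (nat_lit 16597718559) (nat_lit 8) (nat_lit 5) (nat_lit 9) (nat_lit 5) (nat_lit 10) (nat_lit 4) (nat_lit 301) (nat_lit 224) (nat_lit 195))))) (XT.nd (nat_lit 234) (nat_lit 76) (nat_lit 0) (XT.nd (nat_lit 78) (nat_lit 76) (nat_lit 0) (XT.lf (nat_lit 0) (nat_lit 18833075230) (nat_lit 152) (nat_lit 10894853260) (nat_lit 0) (nat_lit 2434662847) (nat_lit 8) (nat_lit 5) (nat_lit 10) (nat_lit 4) (nat_lit 8) (nat_lit 4) (nat_lit 302) (nat_lit 224) (nat_lit 194)) (XT.nd (nat_lit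 78) (nat_lit 76) (nat_lit 0) (XT.lf (nat_lit 0) (nat_lit 23660673210) (nat_lit 152) (nat_lit 2929062324) (nat_lit 0) (nat_lit 7027194503) (nat_lit 8) (nat_lit 5) (nat_lit 10) (nat_lit 4) (nat_lit 8) (nat_lit 4) (nat_lit 303) (nat_lit 224) (nat_lit 193)) (XT.lf (nat_lit 0) (nat_lit 5414570093) (nat_lit 76) (nat_lit 23293742173) (nat_lit 76) (nat_lit 6436390778) (nat_lit 7) (nat_lit 4) (nat_lit 8) (nat_lit 5) (nat_lit 8) (nat_lit 4) (nat_lit 304) (nat_lit 224) (nat_lit 192)))) (XT.nd (nat_lit 78) (nat_lit 76) (nat_lit 0) (XT.lf (nat_lit 0) (nat_lit 14114101888) (nat_lit 76) (nat_lit 19853313676) (nat_lit 76) (nat_lit 2782750196) (nat_lit 7) (nat_lit 4) (nat_lit 8) (nat_lit 5) (nat_lit 8) (nat_lit 4) (nat_lit 305) (nat_lit 224) (nat_lit 191)) (XT.nd (nat_lit 78) (nat_lit 0) (nat_lit 0) (XT.lf (nat_lit 0) (nat_lit 964589061) (nat_lit 152) (nat_lit 15315506812) (nat_lit 76) (nat_lit 22157622628)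 (nat_lit 6) (nat_lit 5) (nat_lit 8) (nat_lit 5) (nat_lit 7) (nat_lit 4) (nat_lit 306) (nat_lit 224) (nat_lit 190)) (XT.lf (nat_lit 0) (nat_lit 4777112671) (nat_lit 152) (nat_lit 7769473530) (nat_lit 76) (nat_lit 27664239802) (nat_lit 6) (nat_lit 5) (nat_lit 8) (nat_lit 5) (nat_lit 7) (nat_lit 4) (nat_lit 307) (nat_lit 224) (nat_lit 189))))))) (XT.nd (nat_lit 858) (nat_lit 152) (nat_lit 0) (XT.nd (nat_lit 390) (nat_lit 76) (nat_lit 0) (XT.nd (nat_lit 156) (nat_lit 0) (nat_lit 0) (XT.nd (nat_lit 78) (nat_lit 0) (nat_lit 0) (XT.lf (nat_lit 0) (nat_lit 47682679) (nat_lit 76) (nat_lit 8670975226) (nat_lit 152) (nat_lit 33355840778) (nat_lit 5) (nat_lit 5) (nat_lit 6) (nat_lit 5) (nat_lit 7) (nat_lit 4) (nat_lit 308) (nat_lit 224) (nat_lit 188)) (XT.lf (nat_lit 0) (nat_lit 8314016909) (nat_lit 76) (nat_lit 4563135744) (nat_lit 152) (nat_lit 31153664906) (nat_lit 5) (nat_lit 5) (nat_lit 6) (nat_lit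 5) (nat_lit 7) (nat_lit 4) (nat_lit 309) (nat_lit 224) (nat_lit 187))) (XT.nd (nat_lit 78) (nat_lit 0) (nat_lit 0) (XT.lf (nat_lit 0) (nat_lit 16894583151) (nat_lit 76) (nat_lit 291743635) (nat_lit 152) (nat_lit 28900398887) (nat_lit 5) (nat_lit 5) (nat_lit 6) (nat_lit 5) (nat_lit 7) (nat_lit 4) (nat_lit 310) (nat_lit 224) (nat_lit 186)) (XT.nd (nat_lit 78) (nat_lit 0) (nat_lit 0) (XT.lf (nat_lit 0) (nat_lit 21696364985) (nat_lit 152) (nat_lit 22477231464) (nat_lit 0) (nat_lit 4072323853) (nat_lit 5) (nat_lit 5) (nat_lit 7) (nat_lit 4) (nat_lit 5) (nat_lit 4) (nat_lit 311) (nat_lit 224) (nat_lit 185)) (XT.lf (nat_lit 0) (nat_lit 26382561716) (nat_lit 152) (nat_lit 15520635871) (nat_lit 0) (nat_lit 8611408110) (nat_lit 5) (nat_lit 5) (nat_lit 7) (nat_lit 4) (nat_lit 5) (nat_lit 4) (nat_lit 312) (nat_lit 224) (nat_lit 184))))) (XT.nd (nat_lit 234) (nat_lit 0) (nat_lit 0) (XT.nd (nat_lit 78)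 (nat_lit 76) (nat_lit 0) (XT.lf (nat_lit 0) (nat_lit 31253270172) (nat_lit 152) (nat_lit 8302988002) (nat_lit 0) (nat_lit 13342009448) (nat_lit 5) (nat_lit 5) (nat_lit 7) (nat_lit 4) (nat_lit 5) (nat_lit 4) (nat_lit 313) (nat_lit 224) (nat_lit 183)) (XT.nd (nat_lit 78) (nat_lit 76) (nat_lit 0) (XT.lf (nat_lit 0) (nat_lit 36320087278) (nat_lit 152) (nat_lit 807102982) (nat_lit 0) (nat_lit 18275391204) (nat_lit 5) (nat_lit 5) (nat_lit 7) (nat_lit 4) (nat_lit 5) (nat_lit 4) (nat_lit 314) (nat_lit 224) (nat_lit 182)) (XT.lf (nat_lit 0) (nat_lit 7123879074) (nat_lit 76) (nat_lit 34539676893) (nat_lit 76) (nat_lit 16367899533) (nat_lit 4) (nat_lit 4) (nat_lit 5) (nat_lit 5) (nat_lit 5) (nat_lit 4) (nat_lit 315) (nat_lit 224) (nat_lit 181)))) (XT.nd (nat_lit 78) (nat_lit 0) (nat_lit 0) (XT.lf (nat_lit 0) (nat_lit 15391822757) (nat_lit 76) (nat_lit 31846931348) (nat_lit 76) (nat_lit 13554124192)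 (nat_lit 4) (nat_lit 4) (nat_lit 5) (nat_lit 5) (nat_lit 5) (nat_lit 4) (nat_lit 316) (nat_lit 224) (nat_lit 180)) (XT.nd (nat_lit 78) (nat_lit 0) (nat_lit 0) (XT.lf (nat_lit 0) (nat_lit 24000350715) (nat_lit 76) (nat_lit 29050692483) (nat_lit 76) (nat_lit 10642618854) (nat_lit 4) (nat_lit 4) (nat_lit 5) (nat_lit 5) (nat_lit 5) (nat_lit 4) (nat_lit 317) (nat_lit 224) (nat_lit 179)) (XT.lf (nat_lit 0) (nat_lit 32969959442) (nat_lit 76) (nat_lit 26144302587) (nat_lit 76) (nat_lit 7626451365) (nat_lit 4) (nat_lit 4) (nat_lit 5) (nat_lit 5) (nat_lit 5) (nat_lit 4) (nat_lit 318) (nat_lit 224) (nat_lit 178)))))) (XT.nd (nat_lit 390) (nat_lit 76) (nat_lit 0) (XT.nd (nat_lit 156) (nat_lit 76) (nat_lit 0) (XT.nd (nat_lit 78) (nat_lit 0) (nat_lit 0) (XT.lf (nat_lit 0) (nat_lit 42322005151) (nat_lit 76) (nat_lit 23120841684) (nat_lit 76) (nat_lit 4498440374) (nat_lit 4) (nat_lit 4) (nat_lit 5) (nat_lit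 5) (nat_lit 5) (nat_lit 4) (nat_lit 319) (nat_lit 224) (nat_lit 177)) (XT.lf (nat_lit 0) (nat_lit 52078754616) (nat_lit 76) (nat_lit 19973111057) (nat_lit 76) (nat_lit 1251138234) (nat_lit 4) (nat_lit 4) (nat_lit 5) (nat_lit 5) (nat_lit 5) (nat_lit 4) (nat_lit 320) (nat_lit 224) (nat_lit 176))) (XT.nd (nat_lit 78) (nat_lit 0) (nat_lit 0) (XT.lf (nat_lit 0) (nat_lit 2081755703) (nat_lit 152) (nat_lit 14590838756) (nat_lit 76) (nat_lit 60160660838) (nat_lit 3) (nat_lit 5) (nat_lit 5) (nat_lit 5) (nat_lit 4) (nat_lit 4) (nat_lit 321) (nat_lit 224) (nat_lit 175)) (XT.nd (nat_lit 78) (nat_lit 0) (nat_lit 0) (XT.lf (nat_lit 0) (nat_lit 5522656908) (nat_lit 152) (nat_lit 7696123607) (nat_lit 76) (nat_lit 67321880215) (nat_lit 3) (nat_lit 5) (nat_lit 5) (nat_lit 5) (nat_lit 4) (nat_lit 4) (nat_lit 322) (nat_lit 224) (nat_lit 174)) (XT.lf (nat_lit 0) (nat_lit 9104172215) (nat_lit 152) (nat_lit 511661151)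 (nat_lit 76) (nat_lit 74818574795) (nat_lit 3) (nat_lit 5) (nat_lit 5) (nat_lit 5) (nat_lit 4) (nat_lit 4) (nat_lit 323) (nat_lit 224) (nat_lit 173))))) (XT.nd (nat_lit 234) (nat_lit 0) (nat_lit 0) (XT.nd (nat_lit 78) (nat_lit 0) (nat_lit 0) (XT.lf (nat_lit 0) (nat_lit 7118563283) (nat_lit 76) (nat_lit 5784693742) (nat_lit 152) (nat_lit 75618458555) (nat_lit 2) (nat_lit 5) (nat_lit 3) (nat_lit 5) (nat_lit 4) (nat_lit 4) (nat_lit 324) (nat_lit 224) (nat_lit 172)) (XT.nd (nat_lit 78) (nat_lit 0) (nat_lit 0) (XT.lf (nat_lit 0) (nat_lit 15090122374) (nat_lit 76) (nat_lit 1778443014) (nat_lit 152) (nat_lit 75945561023) (nat_lit 2) (nat_lit 5) (nat_lit 3) (nat_lit 5) (nat_lit 4) (nat_lit 4) (nat_lit 325) (nat_lit 224) (nat_lit 171)) (XT.lf (nat_lit 0) (nat_lit 21027662580) (nat_lit 152) (nat_lit 73933338557) (nat_lit 0) (nat_lit 2360315822) (nat_lit 2) (nat_lit 5) (nat_lit 4) (nat_lit 4) (nat_lit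 2) (nat_lit 4) (nat_lit 326) (nat_lit 224) (nat_lit 170)))) (XT.nd (nat_lit 78) (nat_lit 0) (nat_lit 0) (XT.lf (nat_lit 0) (nat_lit 25386172347) (nat_lit 152) (nat_lit 70017851597) (nat_lit 0) (nat_lit 6650123050) (nat_lit 2) (nat_lit 5) (nat_lit 4) (nat_lit 4) (nat_lit 2) (nat_lit 4) (nat_lit 327) (nat_lit 224) (nat_lit 169)) (XT.nd (nat_lit 78) (nat_lit 0) (nat_lit 0) (XT.lf (nat_lit 0) (nat_lit 29937376613) (nat_lit 152) (nat_lit 65951125088) (nat_lit 0) (nat_lit 11135896326) (nat_lit 2) (nat_lit 5) (nat_lit 4) (nat_lit 4) (nat_lit 2) (nat_lit 4) (nat_lit 328) (nat_lit 224) (nat_lit 168)) (XT.lf (nat_lit 0) (nat_lit 34692111577) (nat_lit 152) (nat_lit 61723476348) (nat_lit 0) (nat_lit 15828316062) (nat_lit 2) (nat_lit 5) (nat_lit 4) (nat_lit 4) (nat_lit 2) (nat_lit 4) (nat_lit 329) (nat_lit 224) (nat_lit 167))))))))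
noncomputable def xc23 : XT := (XT.nd (nat_lit 34242) (nat_lit 0) (nat_lit 228) (XT.nd (nat_lit 33384) (nat_lit 0) (nat_lit 1368) (XT.nd (nat_lit 32994) (nat_lit 0) (nat_lit 2812) (XT.nd (nat_lit 234) (nat_lit 0) (nat_lit 0) (XT.nd (nat_lit 78) (nat_lit 0) (nat_lit 0) (XT.lf (nat_lit 0) (nat_lit 39661698037) (nat_lit 152) (nat_lit 57324839546) (nat_lit 0) (nat_lit 20738554686) (nat_lit 2) (nat_lit 5) (nat_lit 4) (nat_lit 4) (nat_lit 2) (nat_lit 4) (nat_lit 330) (nat_lit 224) (nat_lit 166)) (XT.lf (nat_lit 0) (nat_lit 44857968342) (nat_lit 152) (nat_lit 52744741737) (nat_lit 0) (nat_lit 25878303242) (nat_lit 2) (nat_lit 5) (nat_lit 4) (nat_lit 4) (nat_lit 2) (nat_lit 4) (nat_lit 331) (nat_lit 224) (nat_lit 165))) (XT.nd (nat_lit 32604) (nat_lit 0) (nat_lit 3876) (XT.lf (nat_lit 0) (nat_lit 55980617956) (nat_lit 152) (nat_lit 42996085106) (nat_lit 0) (nat_lit 36895855727) (nat_lit 2) (nat_lit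 5) (nat_lit 4) (nat_lit 4) (nat_lit 2) (nat_lit 4) (nat_lit 333) (nat_lit 224) (nat_lit 163)) (XT.nd (nat_lit 78) (nat_lit 304) (nat_lit 0) (XT.lf (nat_lit 0) (nat_lit 159612941) (nat_lit 304) (nat_lit 4593887724) (nat_lit 0) (nat_lit 159612941) (nat_lit 57) (nat_lit 5) (nat_lit 61) (nat_lit 4) (nat_lit 57) (nat_lit 4) (nat_lit 270) (nat_lit 225) (nat_lit 225)) (XT.lf (nat_lit 0) (nat_lit 70482497) (nat_lit 304) (nat_lit 5708616250) (nat_lit 304) (nat_lit 4316762167) (nat_lit 53) (nat_lit 4) (nat_lit 57) (nat_lit 5) (nat_lit 57) (nat_lit 4) (nat_lit 271) (nat_lit 225) (nat_lit 224))))) (XT.nd (nat_lit 156) (nat_lit 760) (nat_lit 0) (XT.nd (nat_lit 78) (nat_lit 228) (nat_lit 0) (XT.lf (nat_lit 0) (nat_lit 983337895) (nat_lit 380) (nat_lit 721253473) (nat_lit 76) (nat_lit 8678328298) (nat_lit 52) (nat_lit 5) (nat_lit 57) (nat_lit 5) (nat_lit 53) (nat_lit 4) (nat_lit 272) (nat_lit 225) (nat_lit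 223)) (XT.lf (nat_lit 0) (nat_lit 6357323535) (nat_lit 304) (nat_lit 1835843221) (nat_lit 0) (nat_lit 2493360346) (nat_lit 49) (nat_lit 5) (nat_lit 53) (nat_lit 4) (nat_lit 49) (nat_lit 4) (nat_lit 273) (nat_lit 225) (nat_lit 222))) (XT.nd (nat_lit 78) (nat_lit 456) (nat_lit 0) (XT.lf (nat_lit 0) (nat_lit 867009392) (nat_lit 304) (nat_lit 3271250519) (nat_lit 76) (nat_lit 6870407209) (nat_lit 45) (nat_lit 5) (nat_lit 49) (nat_lit 5) (nat_lit 46) (nat_lit 4) (nat_lit 274) (nat_lit 225) (nat_lit 221)) (XT.nd (nat_lit 78) (nat_lit 228) (nat_lit 0) (XT.lf (nat_lit 0) (nat_lit 6113793407) (nat_lit 304) (nat_lit 5086091679) (nat_lit 0) (nat_lit 149706526) (nat_lit 42) (nat_lit 5) (nat_lit 46) (nat_lit 4) (nat_lit 42) (nat_lit 4) (nat_lit 275) (nat_lit 225) (nat_lit 220)) (XT.lf (nat_lit 0) (nat_lit 4388760964) (nat_lit 228) (nat_lit 7156758247) (nat_lit 228) (nat_lit 164719538) (nat_lit 39) (nat_lit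 4) (nat_lit 42) (nat_lit 5) (nat_lit 42) (nat_lit 4) (nat_lit 276) (nat_lit 225) (nat_lit 219)))))) (XT.nd (nat_lit 390) (nat_lit 608) (nat_lit 0) (XT.nd (nat_lit 156) (nat_lit 608) (nat_lit 0) (XT.nd (nat_lit 78) (nat_lit 0) (nat_lit 0) (XT.lf (nat_lit 0) (nat_lit 2059009288) (nat_lit 152) (nat_lit 2881901913) (nat_lit 228) (nat_lit 7150396222) (nat_lit 36) (nat_lit 5) (nat_lit 38) (nat_lit 5) (nat_lit 39) (nat_lit 4) (nat_lit 277) (nat_lit 225) (nat_lit 218)) (XT.lf (nat_lit 0) (nat_lit 10204529017) (nat_lit 228) (nat_lit 729551439) (nat_lit 0) (nat_lit 1560428958) (nat_lit 36) (nat_lit 5) (nat_lit 39) (nat_lit 4) (nat_lit 36) (nat_lit 4) (nat_lit 278) (nat_lit 225) (nat_lit 217))) (XT.nd (nat_lit 78) (nat_lit 304) (nat_lit 0) (XT.lf (nat_lit 0) (nat_lit 2695766718) (nat_lit 304) (nat_lit 4033813463) (nat_lit 76) (nat_lit 6189652299) (nat_lit 32) (nat_lit 5) (nat_lit 36) (nat_lit 5) (nat_lit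 33) (nat_lit 4) (nat_lit 279) (nat_lit 225) (nat_lit 216)) (XT.nd (nat_lit 78) (nat_lit 152) (nat_lit 0) (XT.lf (nat_lit 0) (nat_lit 5448060980) (nat_lit 152) (nat_lit 2323046112) (nat_lit 228) (nat_lit 5597049334) (nat_lit 30) (nat_lit 5) (nat_lit 32) (nat_lit 5) (nat_lit 33) (nat_lit 4) (nat_lit 280) (nat_lit 225) (nat_lit 215)) (XT.lf (nat_lit 0) (nat_lit 1391407954) (nat_lit 152) (nat_lit 11618388492) (nat_lit 152) (nat_lit 832704481) (nat_lit 28) (nat_lit 4) (nat_lit 30) (nat_lit 5) (nat_lit 30) (nat_lit 4) (nat_lit 281) (nat_lit 225) (nat_lit 214))))) (XT.nd (nat_lit 234) (nat_lit 228) (nat_lit 0) (XT.nd (nat_lit 78) (nat_lit 304) (nat_lit 0) (XT.lf (nat_lit 0) (nat_lit 4030083336) (nat_lit 228) (nat_lit 3327655162) (nat_lit 76) (nat_lit 6983615903) (nat_lit 27) (nat_lit 5) (nat_lit 30) (nat_lit 5) (nat_lit 28) (nat_lit 4) (nat_lit 282) (nat_lit 225) (nat_lit 213)) (XT.nd (nat_lit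 78) (nat_lit 152) (nat_lit 0) (XT.lf (nat_lit 0) (nat_lit 6116044358) (nat_lit 152) (nat_lit 2905324374) (nat_lit 228) (nat_lit 5846687642) (nat_lit 25) (nat_lit 5) (nat_lit 27) (nat_lit 5) (nat_lit 28) (nat_lit 4) (nat_lit 283) (nat_lit 225) (nat_lit 212)) (XT.lf (nat_lit 0) (nat_lit 428735826) (nat_lit 152) (nat_lit 13737128598) (nat_lit 152) (nat_lit 1258339220) (nat_lit 23) (nat_lit 4) (nat_lit 25) (nat_lit 5) (nat_lit 25) (nat_lit 4) (nat_lit 284) (nat_lit 225) (nat_lit 211)))) (XT.nd (nat_lit 78) (nat_lit 152) (nat_lit 0) (XT.lf (nat_lit 0) (nat_lit 3461503652) (nat_lit 228) (nat_lit 6058334456) (nat_lit 76) (nat_lit 6488350710) (nat_lit 22) (nat_lit 5) (nat_lit 25) (nat_lit 5) (nat_lit 23) (nat_lit 4) (nat_lit 285) (nat_lit 225) (nat_lit 210)) (XT.nd (nat_lit 78) (nat_lit 0) (nat_lit 0) (XT.lf (nat_lit 0) (nat_lit 3145904854) (nat_lit 152) (nat_lit 5134200144) (nat_lit 228) (nat_lit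 8344424131) (nat_lit 20) (nat_lit 5) (nat_lit 22) (nat_lit 5) (nat_lit 23) (nat_lit 4) (nat_lit 286) (nat_lit 225) (nat_lit 209)) (XT.lf (nat_lit 0) (nat_lit 12715067698) (nat_lit 152) (nat_lit 549856633) (nat_lit 228) (nat_lit 4009187641) (nat_lit 20) (nat_lit 5) (nat_lit 22) (nat_lit 5) (nat_lit 23) (nat_lit 4) (nat_lit 287) (nat_lit 225) (nat_lit 208))))))) (XT.nd (nat_lit 858) (nat_lit 380) (nat_lit 0) (XT.nd (nat_lit 390) (nat_lit 304) (nat_lit 0) (XT.nd (nat_lit 156) (nat_lit 228) (nat_lit 0) (XT.nd (nat_lit 78) (nat_lit 0) (nat_lit 0) (XT.lf (nat_lit 0) (nat_lit 485869459) (nat_lit 228) (nat_lit 13321022522) (nat_lit 76) (nat_lit 4150686191) (nat_lit 17) (nat_lit 5) (nat_lit 20) (nat_lit 5) (nat_lit 18) (nat_lit 4) (nat_lit 288) (nat_lit 225) (nat_lit 207)) (XT.lf (nat_lit 0) (nat_lit 5047981205) (nat_lit 228) (nat_lit 4544289772) (nat_lit 76) (nat_lit 9084161486) (nat_lit 17) (nat_lit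 5) (nat_lit 20) (nat_lit 5) (nat_lit 18) (nat_lit 4) (nat_lit 289) (nat_lit 225) (nat_lit 206))) (XT.nd (nat_lit 78) (nat_lit 152) (nat_lit 0) (XT.lf (nat_lit 0) (nat_lit 4559095401) (nat_lit 76) (nat_lit 5200548261) (nat_lit 152) (nat_lit 9674096902) (nat_lit 16) (nat_lit 5) (nat_lit 17) (nat_lit 5) (nat_lit 18) (nat_lit 4) (nat_lit 290) (nat_lit 225) (nat_lit 205)) (XT.nd (nat_lit 78) (nat_lit 152) (nat_lit 0) (XT.lf (nat_lit 0) (nat_lit 14017229423) (nat_lit 76) (nat_lit 618009050) (nat_lit 152) (nat_lit 5595972212) (nat_lit 16) (nat_lit 5) (nat_lit 17) (nat_lit 5) (nat_lit 18) (nat_lit 4) (nat_lit 291) (nat_lit 225) (nat_lit 204)) (XT.lf (nat_lit 0) (nat_lit 2703256015) (nat_lit 152) (nat_lit 17004159177) (nat_lit 152) (nat_lit 1362695141) (nat_lit 14) (nat_lit 4) (nat_lit 16) (nat_lit 5) (nat_lit 16) (nat_lit 4) (nat_lit 292) (nat_lit 225) (nat_lit 203))))) (XT.nd (nat_lit 234) (nat_lit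 152) (nat_lit 0) (XT.nd (nat_lit 78) (nat_lit 76) (nat_lit 0) (XT.lf (nat_lit 0) (nat_lit 2981865693) (nat_lit 228) (nat_lit 9975149796) (nat_lit 76) (nat_lit 8994387185) (nat_lit 13) (nat_lit 5) (nat_lit 16) (nat_lit 5) (nat_lit 14) (nat_lit 4) (nat_lit 293) (nat_lit 225) (nat_lit 202)) (XT.nd (nat_lit 78) (nat_lit 76) (nat_lit 0) (XT.lf (nat_lit 0) (nat_lit 7409950229) (nat_lit 228) (nat_lit 1354588780) (nat_lit 76) (nat_lit 14115104878) (nat_lit 13) (nat_lit 5) (nat_lit 16) (nat_lit 5) (nat_lit 14) (nat_lit 4) (nat_lit 294) (nat_lit 225) (nat_lit 201)) (XT.lf (nat_lit 0) (nat_lit 7678283910) (nat_lit 76) (nat_lit 4354217064) (nat_lit 152) (nat_lit 11822721813) (nat_lit 12) (nat_lit 5) (nat_lit 13) (nat_lit 5) (nat_lit 14) (nat_lit 4) (nat_lit 295) (nat_lit 225) (nat_lit 200)))) (XT.nd (nat_lit 78) (nat_lit 152) (nat_lit 0) (XT.lf (nat_lit 0) (nat_lit 16804761706) (nat_lit 152) (nat_lit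 7856969520) (nat_lit 0) (nat_lit 220403827) (nat_lit 12) (nat_lit 5) (nat_lit 14) (nat_lit 4) (nat_lit 12) (nat_lit 4) (nat_lit 296) (nat_lit 225) (nat_lit 199)) (XT.nd (nat_lit 78) (nat_lit 0) (nat_lit 0) (XT.lf (nat_lit 0) (nat_lit 690313730) (nat_lit 152) (nat_lit 21082420906) (nat_lit 152) (nat_lit 4189051888) (nat_lit 10) (nat_lit 4) (nat_lit 12) (nat_lit 5) (nat_lit 12) (nat_lit 4) (nat_lit 297) (nat_lit 225) (nat_lit 198)) (XT.lf (nat_lit 0) (nat_lit 9675476753) (nat_lit 152) (nat_lit 17303999768) (nat_lit 152) (nat_lit 116334428) (nat_lit 10) (nat_lit 4) (nat_lit 12) (nat_lit 5) (nat_lit 12) (nat_lit 4) (nat_lit 298) (nat_lit 225) (nat_lit 197)))))) (XT.nd (nat_lit 390) (nat_lit 228) (nat_lit 0) (XT.nd (nat_lit 156) (nat_lit 76) (nat_lit 0) (XT.nd (nat_lit 78) (nat_lit 0) (nat_lit 0) (XT.lf (nat_lit 0) (nat_lit 3991693465) (nat_lit 228) (nat_lit 9364809817) (nat_lit 76) (nat_lit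 14931541953) (nat_lit 9) (nat_lit 5) (nat_lit 12) (nat_lit 5) (nat_lit 10) (nat_lit 4) (nat_lit 299) (nat_lit 225) (nat_lit 196)) (XT.lf (nat_lit 0) (nat_lit 8219740586) (nat_lit 228) (nat_lit 1048809601) (nat_lit 76) (nat_lit 20273885152) (nat_lit 9) (nat_lit 5) (nat_lit 12) (nat_lit 5) (nat_lit 10) (nat_lit 4) (nat_lit 300) (nat_lit 225) (nat_lit 195))) (XT.nd (nat_lit 78) (nat_lit 0) (nat_lit 0) (XT.lf (nat_lit 0) (nat_lit 7698816365) (nat_lit 76) (nat_lit 4955333184) (nat_lit 152) (nat_lit 18205631733) (nat_lit 8) (nat_lit 5) (nat_lit 9) (nat_lit 5) (nat_lit 10) (nat_lit 4) (nat_lit 301) (nat_lit 225) (nat_lit 194)) (XT.nd (nat_lit 78) (nat_lit 0) (nat_lit 0) (XT.lf (nat_lit 0) (nat_lit 16775187488) (nat_lit 76) (nat_lit 469350946) (nat_lit 152) (nat_lit 15000509369) (nat_lit 8) (nat_lit 5) (nat_lit 9) (nat_lit 5) (nat_lit 10) (nat_lit 4) (nat_lit 302) (nat_lit 225) (nat_lit 193)) (XT.lf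 (nat_lit 0) (nat_lit 22031826198) (nat_lit 152) (nat_lit 7561072730) (nat_lit 0) (nat_lit 4107734544) (nat_lit 8) (nat_lit 5) (nat_lit 10) (nat_lit 4) (nat_lit 8) (nat_lit 4) (nat_lit 303) (nat_lit 225) (nat_lit 192))))) (XT.nd (nat_lit 234) (nat_lit 152) (nat_lit 0) (XT.nd (nat_lit 78) (nat_lit 0) (nat_lit 0) (XT.lf (nat_lit 0) (nat_lit 630621875) (nat_lit 76) (nat_lit 26368763306) (nat_lit 76) (nat_lit 8231459567) (nat_lit 7) (nat_lit 4) (nat_lit 8) (nat_lit 5) (nat_lit 8) (nat_lit 4) (nat_lit 304) (nat_lit 225) (nat_lit 191)) (XT.nd (nat_lit 78) (nat_lit 0) (nat_lit 0) (XT.lf (nat_lit 0) (nat_lit 9273247268) (nat_lit 76) (nat_lit 22952223871) (nat_lit 76) (nat_lit 4611861004) (nat_lit 7) (nat_lit 4) (nat_lit 8) (nat_lit 5) (nat_lit 8) (nat_lit 4) (nat_lit 305) (nat_lit 225) (nat_lit 190)) (XT.lf (nat_lit 0) (nat_lit 18236900954) (nat_lit 76) (nat_lit 19411498016) (nat_lit 76) (nat_lit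 877745503) (nat_lit 7) (nat_lit 4) (nat_lit 8) (nat_lit 5) (nat_lit 8) (nat_lit 4) (nat_lit 306) (nat_lit 225) (nat_lit 189)))) (XT.nd (nat_lit 78) (nat_lit 76) (nat_lit 0) (XT.lf (nat_lit 0) (nat_lit 2921631491) (nat_lit 152) (nat_lit 12787021200) (nat_lit 76) (nat_lit 24591790726) (nat_lit 6) (nat_lit 5) (nat_lit 8) (nat_lit 5) (nat_lit 7) (nat_lit 4) (nat_lit 307) (nat_lit 225) (nat_lit 188)) (XT.nd (nat_lit 78) (nat_lit 76) (nat_lit 0) (XT.lf (nat_lit 0) (nat_lit 6833885425) (nat_lit 152) (nat_lit 5020555822) (nat_lit 76) (nat_lit 30310582236) (nat_lit 6) (nat_lit 5) (nat_lit 8) (nat_lit 5) (nat_lit 7) (nat_lit 4) (nat_lit 308) (nat_lit 225) (nat_lit 187)) (XT.lf (nat_lit 0) (nat_lit 3097525502) (nat_lit 76) (nat_lit 7817708973) (nat_lit 152) (nat_lit 33208449540) (nat_lit 5) (nat_lit 5) (nat_lit 6) (nat_lit 5) (nat_lit 7) (nat_lit 4) (nat_lit 309) (nat_lit 225) (nat_lit 186))))))))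
noncomputable def xc24 : XT := (XT.nd (nat_lit 1638) (nat_lit 0) (nat_lit 0) (XT.nd (nat_lit 780) (nat_lit 152) (nat_lit 0) (XT.nd (nat_lit 390) (nat_lit 76) (nat_lit 0) (XT.nd (nat_lit 156) (nat_lit 0) (nat_lit 0) (XT.nd (nat_lit 78) (nat_lit 0) (nat_lit 0) (XT.lf (nat_lit 0) (nat_lit 11632059363) (nat_lit 76) (nat_lit 3565754423) (nat_lit 152) (nat_lit 30982602173) (nat_lit 5) (nat_lit 5) (nat_lit 6) (nat_lit 5) (nat_lit 7) (nat_lit 4) (nat_lit 310) (nat_lit 225) (nat_lit 185)) (XT.lf (nat_lit 0) (nat_lit 19650873841) (nat_lit 152) (nat_lit 27846420758) (nat_lit 0) (nat_lit 844050082) (nat_lit 5) (nat_lit 5) (nat_lit 7) (nat_lit 4) (nat_lit 5) (nat_lit 4) (nat_lit 311) (nat_lit 225) (nat_lit 184))) (XT.nd (nat_lit 78) (nat_lit 0) (nat_lit 0) (XT.lf (nat_lit 0) (nat_lit 24312778811) (nat_lit 152) (nat_lit 20932155654) (nat_lit 0) (nat_lit 5365847933) (nat_lit 5) (nat_lit 5) (nat_lit 7)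 (nat_lit 4) (nat_lit 5) (nat_lit 4) (nat_lit 312) (nat_lit 225) (nat_lit 183)) (XT.nd (nat_lit 78) (nat_lit 0) (nat_lit 0) (XT.lf (nat_lit 0) (nat_lit 29160352255) (nat_lit 152) (nat_lit 13754822538) (nat_lit 0) (nat_lit 10079986027) (nat_lit 5) (nat_lit 5) (nat_lit 7) (nat_lit 4) (nat_lit 5) (nat_lit 4) (nat_lit 313) (nat_lit 225) (nat_lit 182)) (XT.lf (nat_lit 0) (nat_lit 34205136017) (nat_lit 152) (nat_lit 6297332520) (nat_lit 0) (nat_lit 14997688503) (nat_lit 5) (nat_lit 5) (nat_lit 7) (nat_lit 4) (nat_lit 5) (nat_lit 4) (nat_lit 314) (nat_lit 225) (nat_lit 181))))) (XT.nd (nat_lit 156) (nat_lit 0) (nat_lit 0) (XT.nd (nat_lit 78) (nat_lit 0) (nat_lit 0) (XT.lf (nat_lit 0) (nat_lit 1487088786) (nat_lit 76) (nat_lit 37986347507) (nat_lit 76) (nat_lit 18657870197) (nat_lit 4) (nat_lit 4) (nat_lit 5) (nat_lit 5) (nat_lit 5) (nat_lit 4) (nat_lit 315) (nat_lit 225) (nat_lit 180)) (XT.lf (nat_lit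 0) (nat_lit 9719513977) (nat_lit 76) (nat_lit 35308794136) (nat_lit 76) (nat_lit 15865050353) (nat_lit 4) (nat_lit 4) (nat_lit 5) (nat_lit 5) (nat_lit 5) (nat_lit 4) (nat_lit 316) (nat_lit 225) (nat_lit 179))) (XT.nd (nat_lit 78) (nat_lit 0) (nat_lit 0) (XT.lf (nat_lit 0) (nat_lit 18294214799) (nat_lit 76) (nat_lit 32527024009) (nat_lit 76) (nat_lit 12973502633) (nat_lit 4) (nat_lit 4) (nat_lit 5) (nat_lit 5) (nat_lit 5) (nat_lit 4) (nat_lit 317) (nat_lit 225) (nat_lit 178)) (XT.nd (nat_lit 78) (nat_lit 0) (nat_lit 0) (XT.lf (nat_lit 0) (nat_lit 27231607206) (nat_lit 76) (nat_lit 29634413863) (nat_lit 76) (nat_lit 9976342399) (nat_lit 4) (nat_lit 4) (nat_lit 5) (nat_lit 5) (nat_lit 5) (nat_lit 4) (nat_lit 318) (nat_lit 225) (nat_lit 177)) (XT.lf (nat_lit 0) (nat_lit 36552970706) (nat_lit 76) (nat_lit 26624076531) (nat_lit 76) (nat_lit 6866433554) (nat_lit 4) (nat_lit 4) (nat_lit 5) (nat_lit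 5) (nat_lit 5) (nat_lit 4) (nat_lit 319) (nat_lit 225) (nat_lit 176)))))) (XT.nd (nat_lit 390) (nat_lit 0) (nat_lit 0) (XT.nd (nat_lit 156) (nat_lit 152) (nat_lit 0) (XT.nd (nat_lit 78) (nat_lit 0) (nat_lit 0) (XT.lf (nat_lit 0) (nat_lit 46280499019) (nat_lit 76) (nat_lit 23488844544) (nat_lit 76) (nat_lit 3636371555) (nat_lit 4) (nat_lit 4) (nat_lit 5) (nat_lit 5) (nat_lit 5) (nat_lit 4) (nat_lit 320) (nat_lit 225) (nat_lit 175)) (XT.lf (nat_lit 0) (nat_lit 56437352928) (nat_lit 76) (nat_lit 20221253063) (nat_lit 76) (nat_lit 278465777) (nat_lit 4) (nat_lit 4) (nat_lit 5) (nat_lit 5) (nat_lit 5) (nat_lit 4) (nat_lit 321) (nat_lit 225) (nat_lit 174))) (XT.nd (nat_lit 78) (nat_lit 76) (nat_lit 0) (XT.lf (nat_lit 0) (nat_lit 3152537122) (nat_lit 152) (nat_lit 13629150544) (nat_lit 76) (nat_lit 63863343853) (nat_lit 3) (nat_lit 5) (nat_lit 5) (nat_lit 5) (nat_lit 4) (nat_lit 4) (nat_lit 322)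 (nat_lit 225) (nat_lit 173)) (XT.nd (nat_lit 78) (nat_lit 76) (nat_lit 0) (XT.lf (nat_lit 0) (nat_lit 6719450357) (nat_lit 152) (nat_lit 6470234407) (nat_lit 76) (nat_lit 71349545628) (nat_lit 3) (nat_lit 5) (nat_lit 5) (nat_lit 5) (nat_lit 4) (nat_lit 4) (nat_lit 323) (nat_lit 225) (nat_lit 172)) (XT.lf (nat_lit 0) (nat_lit 1016588698) (nat_lit 76) (nat_lit 9429383822) (nat_lit 152) (nat_lit 78182754911) (nat_lit 2) (nat_lit 5) (nat_lit 3) (nat_lit 5) (nat_lit 4) (nat_lit 4) (nat_lit 324) (nat_lit 225) (nat_lit 171))))) (XT.nd (nat_lit 234) (nat_lit 0) (nat_lit 0) (XT.nd (nat_lit 78) (nat_lit 0) (nat_lit 0) (XT.lf (nat_lit 0) (nat_lit 8964515372) (nat_lit 76) (nat_lit 5433293833) (nat_lit 152) (nat_lit 78523745344) (nat_lit 2) (nat_lit 5) (nat_lit 3) (nat_lit 5) (nat_lit 4) (nat_lit 4) (nat_lit 325) (nat_lit 225) (nat_lit 170)) (XT.nd (nat_lit 78) (nat_lit 0) (nat_lit 0) (XT.lf (nat_lit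 0) (nat_lit 17263698897) (nat_lit 76) (nat_lit 1257236977) (nat_lit 152) (nat_lit 78908899894) (nat_lit 2) (nat_lit 5) (nat_lit 3) (nat_lit 5) (nat_lit 4) (nat_lit 4) (nat_lit 326) (nat_lit 225) (nat_lit 169)) (XT.lf (nat_lit 0) (nat_lit 22855052511) (nat_lit 152) (nat_lit 76260288873) (nat_lit 0) (nat_lit 3048067221) (nat_lit 2) (nat_lit 5) (nat_lit 4) (nat_lit 4) (nat_lit 2) (nat_lit 4) (nat_lit 327) (nat_lit 225) (nat_lit 168)))) (XT.nd (nat_lit 78) (nat_lit 0) (nat_lit 0) (XT.lf (nat_lit 0) (nat_lit 27394535062) (nat_lit 152) (nat_lit 72214252166) (nat_lit 0) (nat_lit 7525234544) (nat_lit 2) (nat_lit 5) (nat_lit 4) (nat_lit 4) (nat_lit 2) (nat_lit 4) (nat_lit 328) (nat_lit 225) (nat_lit 167)) (XT.nd (nat_lit 78) (nat_lit 0) (nat_lit 0) (XT.lf (nat_lit 0) (nat_lit 32138106489) (nat_lit 152) (nat_lit 68006307999) (nat_lit 0) (nat_lit 12209458134) (nat_lit 2) (nat_lit 5) (nat_lit 4) (nat_lit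 4) (nat_lit 2) (nat_lit 4) (nat_lit 329) (nat_lit 225) (nat_lit 166)) (XT.lf (nat_lit 0) (nat_lit 37097061008) (nat_lit 152) (nat_lit 63626437457) (nat_lit 0) (nat_lit 17111890905) (nat_lit 2) (nat_lit 5) (nat_lit 4) (nat_lit 4) (nat_lit 2) (nat_lit 4) (nat_lit 330) (nat_lit 225) (nat_lit 165))))))) (XT.nd (nat_lit 33228) (nat_lit 0) (nat_lit 1368) (XT.nd (nat_lit 32838) (nat_lit 0) (nat_lit 3040) (XT.nd (nat_lit 32604) (nat_lit 0) (nat_lit 4180) (XT.nd (nat_lit 156) (nat_lit 0) (nat_lit 0) (XT.lf (nat_lit 0) (nat_lit 42283205656) (nat_lit 152) (nat_lit 59064212277) (nat_lit 0) (nat_lit 22244205315) (nat_lit 2) (nat_lit 5) (nat_lit 4) (nat_lit 4) (nat_lit 2) (nat_lit 4) (nat_lit 331) (nat_lit 225) (nat_lit 164)) (XT.lf (nat_lit 0) (nat_lit 53387027516) (nat_lit 152) (nat_lit 49348788198) (nat_lit 0) (nat_lit 33247934671) (nat_lit 2) (nat_lit 5) (nat_lit 4) (nat_lit 4) (nat_lit 2) (nat_lit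 4) (nat_lit 333) (nat_lit 225) (nat_lit 162))) (XT.nd (nat_lit 78) (nat_lit 608) (nat_lit 0) (XT.lf (nat_lit 0) (nat_lit 296390641) (nat_lit 380) (nat_lit 4071874743) (nat_lit 0) (nat_lit 296390641) (nat_lit 65) (nat_lit 5) (nat_lit 70) (nat_lit 4) (nat_lit 65) (nat_lit 4) (nat_lit 268) (nat_lit 226) (nat_lit 226)) (XT.nd (nat_lit 78) (nat_lit 304) (nat_lit 0) (XT.lf (nat_lit 0) (nat_lit 923527390) (nat_lit 304) (nat_lit 5076547076) (nat_lit 304) (nat_lit 3571256885) (nat_lit 61) (nat_lit 4) (nat_lit 65) (nat_lit 5) (nat_lit 65) (nat_lit 4) (nat_lit 269) (nat_lit 226) (nat_lit 225)) (XT.lf (nat_lit 0) (nat_lit 473356810) (nat_lit 228) (nat_lit 1207557823) (nat_lit 304) (nat_lit 8148539464) (nat_lit 57) (nat_lit 5) (nat_lit 60) (nat_lit 5) (nat_lit 61) (nat_lit 4) (nat_lit 270) (nat_lit 226) (nat_lit 224))))) (XT.nd (nat_lit 156) (nat_lit 760) (nat_lit 0) (XT.nd (nat_lit 78) (nat_lit 380)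 (nat_lit 0) (XT.lf (nat_lit 0) (nat_lit 7022439509) (nat_lit 304) (nat_lit 236858403) (nat_lit 0) (nat_lit 2843563320) (nat_lit 57) (nat_lit 5) (nat_lit 61) (nat_lit 4) (nat_lit 57) (nat_lit 4) (nat_lit 271) (nat_lit 226) (nat_lit 223)) (XT.lf (nat_lit 0) (nat_lit 2089579948) (nat_lit 380) (nat_lit 1199481576) (nat_lit 76) (nat_lit 7103887304) (nat_lit 52) (nat_lit 5) (nat_lit 57) (nat_lit 5) (nat_lit 53) (nat_lit 4) (nat_lit 272) (nat_lit 226) (nat_lit 222))) (XT.nd (nat_lit 78) (nat_lit 532) (nat_lit 0) (XT.lf (nat_lit 0) (nat_lit 7343118917) (nat_lit 304) (nat_lit 2464288163) (nat_lit 0) (nat_lit 892958955) (nat_lit 49) (nat_lit 5) (nat_lit 53) (nat_lit 4) (nat_lit 49) (nat_lit 4) (nat_lit 273) (nat_lit 226) (nat_lit 221)) (XT.nd (nat_lit 78) (nat_lit 228) (nat_lit 0) (XT.lf (nat_lit 0) (nat_lit 1715575459) (nat_lit 304) (nat_lit 4079271680) (nat_lit 76) (nat_lit 5230692915) (nat_lit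 45) (nat_lit 5) (nat_lit 49) (nat_lit 5) (nat_lit 46) (nat_lit 4) (nat_lit 274) (nat_lit 226) (nat_lit 220)) (XT.lf (nat_lit 0) (nat_lit 5301267125) (nat_lit 228) (nat_lit 1556835028) (nat_lit 304) (nat_lit 4511663040) (nat_lit 42) (nat_lit 5) (nat_lit 45) (nat_lit 5) (nat_lit 46) (nat_lit 4) (nat_lit 275) (nat_lit 226) (nat_lit 219)))))) (XT.nd (nat_lit 390) (nat_lit 760) (nat_lit 0) (XT.nd (nat_lit 156) (nat_lit 456) (nat_lit 0) (XT.nd (nat_lit 78) (nat_lit 152) (nat_lit 0) (XT.lf (nat_lit 0) (nat_lit 430645883) (nat_lit 304) (nat_lit 8474383069) (nat_lit 76) (nat_lit 2828917555) (nat_lit 38) (nat_lit 5) (nat_lit 42) (nat_lit 5) (nat_lit 39) (nat_lit 4) (nat_lit 276) (nat_lit 226) (nat_lit 218)) (XT.lf (nat_lit 0) (nat_lit 745394188) (nat_lit 152) (nat_lit 4686315669) (nat_lit 228) (nat_lit 6686450678) (nat_lit 36) (nat_lit 5) (nat_lit 38) (nat_lit 5) (nat_lit 39) (nat_lit 4) (nat_lit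 277) (nat_lit 226) (nat_lit 217))) (XT.nd (nat_lit 78) (nat_lit 456) (nat_lit 0) (XT.lf (nat_lit 0) (nat_lit 10337433632) (nat_lit 152) (nat_lit 256849074) (nat_lit 228) (nat_lit 1930256199) (nat_lit 36) (nat_lit 5) (nat_lit 38) (nat_lit 5) (nat_lit 39) (nat_lit 4) (nat_lit 278) (nat_lit 226) (nat_lit 216)) (XT.nd (nat_lit 78) (nat_lit 152) (nat_lit 0) (XT.lf (nat_lit 0) (nat_lit 2947313339) (nat_lit 304) (nat_lit 5681671178) (nat_lit 76) (nat_lit 4323342560) (nat_lit 32) (nat_lit 5) (nat_lit 36) (nat_lit 5) (nat_lit 33) (nat_lit 4) (nat_lit 279) (nat_lit 226) (nat_lit 215)) (XT.lf (nat_lit 0) (nat_lit 3641143707) (nat_lit 152) (nat_lit 4283895247) (nat_lit 228) (nat_lit 5479268229) (nat_lit 30) (nat_lit 5) (nat_lit 32) (nat_lit 5) (nat_lit 33) (nat_lit 4) (nat_lit 280) (nat_lit 226) (nat_lit 214))))) (XT.nd (nat_lit 234) (nat_lit 380) (nat_lit 0) (XT.nd (nat_lit 78) (nat_lit 380) (nat_lit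 0) (XT.lf (nat_lit 0) (nat_lit 13053513901) (nat_lit 228) (nat_lit 582252824) (nat_lit 0) (nat_lit 246313022) (nat_lit 30) (nat_lit 5) (nat_lit 33) (nat_lit 4) (nat_lit 30) (nat_lit 4) (nat_lit 281) (nat_lit 226) (nat_lit 213)) (XT.nd (nat_lit 78) (nat_lit 152) (nat_lit 0) (XT.lf (nat_lit 0) (nat_lit 3952097572) (nat_lit 228) (nat_lit 5473052639) (nat_lit 76) (nat_lit 4958355593) (nat_lit 27) (nat_lit 5) (nat_lit 30) (nat_lit 5) (nat_lit 28) (nat_lit 4) (nat_lit 282) (nat_lit 226) (nat_lit 212)) (XT.lf (nat_lit 0) (nat_lit 3810985559) (nat_lit 152) (nat_lit 5037593337) (nat_lit 228) (nat_lit 6064580115) (nat_lit 25) (nat_lit 5) (nat_lit 27) (nat_lit 5) (nat_lit 28) (nat_lit 4) (nat_lit 283) (nat_lit 226) (nat_lit 211)))) (XT.nd (nat_lit 78) (nat_lit 380) (nat_lit 0) (XT.lf (nat_lit 0) (nat_lit 13445238657) (nat_lit 152) (nat_lit 456957242) (nat_lit 228) (nat_lit 1569938752) (nat_lit 25)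 (nat_lit 5) (nat_lit 27) (nat_lit 5) (nat_lit 28) (nat_lit 4) (nat_lit 284) (nat_lit 226) (nat_lit 210)) (XT.nd (nat_lit 78) (nat_lit 152) (nat_lit 0) (XT.lf (nat_lit 0) (nat_lit 3062405883) (nat_lit 228) (nat_lit 8706681187) (nat_lit 76) (nat_lit 4290024298) (nat_lit 22) (nat_lit 5) (nat_lit 25) (nat_lit 5) (nat_lit 23) (nat_lit 4) (nat_lit 285) (nat_lit 226) (nat_lit 209)) (XT.lf (nat_lit 0) (nat_lit 336611902) (nat_lit 152) (nat_lit 7451564174) (nat_lit 228) (nat_lit 8890150369) (nat_lit 20) (nat_lit 5) (nat_lit 22) (nat_lit 5) (nat_lit 23) (nat_lit 4) (nat_lit 286) (nat_lit 226) (nat_lit 208))))))))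
noncomputable def xc25 : XT := (XT.nd (nat_lit 1638) (nat_lit 304) (nat_lit 0) (XT.nd (nat_lit 780) (nat_lit 456) (nat_lit 0) (XT.nd (nat_lit 390) (nat_lit 304) (nat_lit 0) (XT.nd (nat_lit 156) (nat_lit 152) (nat_lit 0) (XT.nd (nat_lit 78) (nat_lit 152) (nat_lit 0) (XT.lf (nat_lit 0) (nat_lit 9802690052) (nat_lit 152) (nat_lit 2906622528) (nat_lit 228) (nat_lit 4620592747) (nat_lit 20) (nat_lit 5) (nat_lit 22) (nat_lit 5) (nat_lit 23) (nat_lit 4) (nat_lit 287) (nat_lit 226) (nat_lit 207)) (XT.lf (nat_lit 0) (nat_lit 1535623386) (nat_lit 152) (nat_lit 16248504223) (nat_lit 152) (nat_lit 232873927) (nat_lit 18) (nat_lit 4) (nat_lit 20) (nat_lit 5) (nat_lit 20) (nat_lit 4) (nat_lit 288) (nat_lit 226) (nat_lit 206))) (XT.nd (nat_lit 78) (nat_lit 76) (nat_lit 0) (XT.lf (nat_lit 0) (nat_lit 4274084618) (nat_lit 228) (nat_lit 7800528136) (nat_lit 76) (nat_lit 6663176494) (nat_lit 17) (nat_lit 5)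 (nat_lit 20) (nat_lit 5) (nat_lit 18) (nat_lit 4) (nat_lit 289) (nat_lit 226) (nat_lit 205)) (XT.nd (nat_lit 78) (nat_lit 0) (nat_lit 0) (XT.lf (nat_lit 0) (nat_lit 1142742874) (nat_lit 76) (nat_lit 7753309454) (nat_lit 152) (nat_lit 10601807613) (nat_lit 16) (nat_lit 5) (nat_lit 17) (nat_lit 5) (nat_lit 18) (nat_lit 4) (nat_lit 290) (nat_lit 226) (nat_lit 204)) (XT.lf (nat_lit 0) (nat_lit 10510106768) (nat_lit 76) (nat_lit 3206520522) (nat_lit 152) (nat_lit 6580421703) (nat_lit 16) (nat_lit 5) (nat_lit 17) (nat_lit 5) (nat_lit 18) (nat_lit 4) (nat_lit 291) (nat_lit 226) (nat_lit 203))))) (XT.nd (nat_lit 156) (nat_lit 76) (nat_lit 0) (XT.nd (nat_lit 78) (nat_lit 228) (nat_lit 0) (XT.lf (nat_lit 0) (nat_lit 18685209160) (nat_lit 152) (nat_lit 985330383) (nat_lit 0) (nat_lit 1468582027) (nat_lit 16) (nat_lit 5) (nat_lit 18) (nat_lit 4) (nat_lit 16) (nat_lit 4) (nat_lit 292) (nat_lit 226) (nat_lit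 202)) (XT.lf (nat_lit 0) (nat_lit 1850584454) (nat_lit 228) (nat_lit 13828391280) (nat_lit 76) (nat_lit 6343653764) (nat_lit 13) (nat_lit 5) (nat_lit 16) (nat_lit 5) (nat_lit 14) (nat_lit 4) (nat_lit 293) (nat_lit 226) (nat_lit 201))) (XT.nd (nat_lit 78) (nat_lit 76) (nat_lit 0) (XT.lf (nat_lit 0) (nat_lit 6229524414) (nat_lit 228) (nat_lit 5290048484) (nat_lit 76) (nat_lit 11432829460) (nat_lit 13) (nat_lit 5) (nat_lit 16) (nat_lit 5) (nat_lit 14) (nat_lit 4) (nat_lit 294) (nat_lit 226) (nat_lit 200)) (XT.nd (nat_lit 78) (nat_lit 0) (nat_lit 0) (XT.lf (nat_lit 0) (nat_lit 3584639389) (nat_lit 76) (nat_lit 7181280798) (nat_lit 152) (nat_lit 13164700303) (nat_lit 12) (nat_lit 5) (nat_lit 13) (nat_lit 5) (nat_lit 14) (nat_lit 4) (nat_lit 295) (nat_lit 226) (nat_lit 199)) (XT.lf (nat_lit 0) (nat_lit 12857688134) (nat_lit 76) (nat_lit 2633025264) (nat_lit 152) (nat_lit 9468295368) (nat_lit 12)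 (nat_lit 5) (nat_lit 13) (nat_lit 5) (nat_lit 14) (nat_lit 4) (nat_lit 296) (nat_lit 226) (nat_lit 198)))))) (XT.nd (nat_lit 390) (nat_lit 152) (nat_lit 0) (XT.nd (nat_lit 156) (nat_lit 152) (nat_lit 0) (XT.nd (nat_lit 78) (nat_lit 152) (nat_lit 0) (XT.lf (nat_lit 0) (nat_lit 20383309595) (nat_lit 152) (nat_lit 3615696786) (nat_lit 0) (nat_lit 2041964665) (nat_lit 12) (nat_lit 5) (nat_lit 14) (nat_lit 4) (nat_lit 12) (nat_lit 4) (nat_lit 297) (nat_lit 226) (nat_lit 197)) (XT.lf (nat_lit 0) (nat_lit 5226114473) (nat_lit 152) (nat_lit 20286440099) (nat_lit 152) (nat_lit 1664812957) (nat_lit 10) (nat_lit 4) (nat_lit 12) (nat_lit 5) (nat_lit 12) (nat_lit 4) (nat_lit 298) (nat_lit 226) (nat_lit 196))) (XT.nd (nat_lit 78) (nat_lit 76) (nat_lit 0) (XT.lf (nat_lit 0) (nat_lit 2432944228) (nat_lit 228) (nat_lit 13949685799) (nat_lit 76) (nat_lit 11988676546) (nat_lit 9) (nat_lit 5) (nat_lit 12) (nat_lit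 5) (nat_lit 10) (nat_lit 4) (nat_lit 299) (nat_lit 226) (nat_lit 195)) (XT.nd (nat_lit 78) (nat_lit 76) (nat_lit 0) (XT.lf (nat_lit 0) (nat_lit 6622432204) (nat_lit 228) (nat_lit 5699249435) (nat_lit 76) (nat_lit 17305213333) (nat_lit 9) (nat_lit 5) (nat_lit 12) (nat_lit 5) (nat_lit 10) (nat_lit 4) (nat_lit 300) (nat_lit 226) (nat_lit 194)) (XT.lf (nat_lit 0) (nat_lit 2892139183) (nat_lit 76) (nat_lit 8081774268) (nat_lit 152) (nat_lit 19972854839) (nat_lit 8) (nat_lit 5) (nat_lit 9) (nat_lit 5) (nat_lit 10) (nat_lit 4) (nat_lit 301) (nat_lit 226) (nat_lit 193))))) (XT.nd (nat_lit 234) (nat_lit 152) (nat_lit 0) (XT.nd (nat_lit 78) (nat_lit 0) (nat_lit 0) (XT.lf (nat_lit 0) (nat_lit 11907858423) (nat_lit 76) (nat_lit 3620886609) (nat_lit 152) (nat_lit 16804394159) (nat_lit 8) (nat_lit 5) (nat_lit 9) (nat_lit 5) (nat_lit 10) (nat_lit 4) (nat_lit 302) (nat_lit 226) (nat_lit 192)) (XT.nd (nat_lit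 78) (nat_lit 0) (nat_lit 0) (XT.lf (nat_lit 0) (nat_lit 20251644470) (nat_lit 152) (nat_lit 12544784446) (nat_lit 0) (nat_lit 994263460) (nat_lit 8) (nat_lit 5) (nat_lit 10) (nat_lit 4) (nat_lit 8) (nat_lit 4) (nat_lit 303) (nat_lit 226) (nat_lit 191)) (XT.lf (nat_lit 0) (nat_lit 25180671210) (nat_lit 152) (nat_lit 4421191498) (nat_lit 0) (nat_lit 5720231071) (nat_lit 8) (nat_lit 5) (nat_lit 10) (nat_lit 4) (nat_lit 8) (nat_lit 4) (nat_lit 304) (nat_lit 226) (nat_lit 190)))) (XT.nd (nat_lit 78) (nat_lit 76) (nat_lit 0) (XT.lf (nat_lit 0) (nat_lit 4079246940) (nat_lit 76) (nat_lit 26252720127) (nat_lit 76) (nat_lit 6598890343) (nat_lit 7) (nat_lit 4) (nat_lit 8) (nat_lit 5) (nat_lit 8) (nat_lit 4) (nat_lit 305) (nat_lit 226) (nat_lit 189)) (XT.nd (nat_lit 78) (nat_lit 76) (nat_lit 0) (XT.lf (nat_lit 0) (nat_lit 12991284842) (nat_lit 76) (nat_lit 22733662356) (nat_lit 76) (nat_lit 2895651957)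 (nat_lit 7) (nat_lit 4) (nat_lit 8) (nat_lit 5) (nat_lit 8) (nat_lit 4) (nat_lit 306) (nat_lit 226) (nat_lit 188)) (XT.lf (nat_lit 0) (nat_lit 914268716) (nat_lit 152) (nat_lit 18157455014) (nat_lit 76) (nat_lit 21324649927) (nat_lit 6) (nat_lit 5) (nat_lit 8) (nat_lit 5) (nat_lit 7) (nat_lit 4) (nat_lit 307) (nat_lit 226) (nat_lit 187))))))) (XT.nd (nat_lit 858) (nat_lit 152) (nat_lit 0) (XT.nd (nat_lit 390) (nat_lit 76) (nat_lit 0) (XT.nd (nat_lit 156) (nat_lit 76) (nat_lit 0) (XT.nd (nat_lit 78) (nat_lit 0) (nat_lit 0) (XT.lf (nat_lit 0) (nat_lit 4799062704) (nat_lit 152) (nat_lit 10438380466) (nat_lit 76) (nat_lit 27024361638) (nat_lit 6) (nat_lit 5) (nat_lit 8) (nat_lit 5) (nat_lit 7) (nat_lit 4) (nat_lit 308) (nat_lit 226) (nat_lit 186)) (XT.lf (nat_lit 0) (nat_lit 8824484114) (nat_lit 152) (nat_lit 2425877143) (nat_lit 76) (nat_lit 32971807896) (nat_lit 6) (nat_lit 5) (nat_lit 8)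 (nat_lit 5) (nat_lit 7) (nat_lit 4) (nat_lit 309) (nat_lit 226) (nat_lit 185))) (XT.nd (nat_lit 78) (nat_lit 0) (nat_lit 0) (XT.lf (nat_lit 0) (nat_lit 6016536643) (nat_lit 76) (nat_lit 7041415271) (nat_lit 152) (nat_lit 33222447276) (nat_lit 5) (nat_lit 5) (nat_lit 6) (nat_lit 5) (nat_lit 7) (nat_lit 4) (nat_lit 310) (nat_lit 226) (nat_lit 184)) (XT.nd (nat_lit 78) (nat_lit 0) (nat_lit 0) (XT.lf (nat_lit 0) (nat_lit 14846171728) (nat_lit 76) (nat_lit 2632442953) (nat_lit 152) (nat_lit 30963708719) (nat_lit 5) (nat_lit 5) (nat_lit 6) (nat_lit 5) (nat_lit 7) (nat_lit 4) (nat_lit 311) (nat_lit 226) (nat_lit 183)) (XT.lf (nat_lit 0) (nat_lit 22092079987) (nat_lit 152) (nat_lit 26696896669) (nat_lit 0) (nat_lit 1924260097) (nat_lit 5) (nat_lit 5) (nat_lit 7) (nat_lit 4) (nat_lit 5) (nat_lit 4) (nat_lit 312) (nat_lit 226) (nat_lit 182))))) (XT.nd (nat_lit 234) (nat_lit 76) (nat_lit 0) (XT.nd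 (nat_lit 78) (nat_lit 0) (nat_lit 0) (XT.lf (nat_lit 0) (nat_lit 26917620088) (nat_lit 152) (nat_lit 19557958555) (nat_lit 0) (nat_lit 6622718912) (nat_lit 5) (nat_lit 5) (nat_lit 7) (nat_lit 4) (nat_lit 5) (nat_lit 4) (nat_lit 313) (nat_lit 226) (nat_lit 181)) (XT.nd (nat_lit 78) (nat_lit 0) (nat_lit 0) (XT.lf (nat_lit 0) (nat_lit 31941419713) (nat_lit 152) (nat_lit 12137035205) (nat_lit 0) (nat_lit 11525488741) (nat_lit 5) (nat_lit 5) (nat_lit 7) (nat_lit 4) (nat_lit 5) (nat_lit 4) (nat_lit 314) (nat_lit 226) (nat_lit 180)) (XT.lf (nat_lit 0) (nat_lit 37175440289) (nat_lit 152) (nat_lit 4416457756) (nat_lit 0) (nat_lit 16644242845) (nat_lit 5) (nat_lit 5) (nat_lit 7) (nat_lit 4) (nat_lit 5) (nat_lit 4) (nat_lit 315) (nat_lit 226) (nat_lit 179)))) (XT.nd (nat_lit 78) (nat_lit 0) (nat_lit 0) (XT.lf (nat_lit 0) (nat_lit 3694244129) (nat_lit 76) (nat_lit 38973410976) (nat_lit 76) (nat_lit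 18332435939) (nat_lit 4) (nat_lit 4) (nat_lit 5) (nat_lit 5) (nat_lit 5) (nat_lit 4) (nat_lit 316) (nat_lit 226) (nat_lit 178)) (XT.nd (nat_lit 78) (nat_lit 0) (nat_lit 0) (XT.lf (nat_lit 0) (nat_lit 12236728631) (nat_lit 76) (nat_lit 36205420599) (nat_lit 76) (nat_lit 15459895473) (nat_lit 4) (nat_lit 4) (nat_lit 5) (nat_lit 5) (nat_lit 5) (nat_lit 4) (nat_lit 317) (nat_lit 226) (nat_lit 177)) (XT.lf (nat_lit 0) (nat_lit 21143438830) (nat_lit 76) (nat_lit 33325934024) (nat_lit 76) (nat_lit 12480837386) (nat_lit 4) (nat_lit 4) (nat_lit 5) (nat_lit 5) (nat_lit 5) (nat_lit 4) (nat_lit 318) (nat_lit 226) (nat_lit 176)))))) (XT.nd (nat_lit 390) (nat_lit 76) (nat_lit 0) (XT.nd (nat_lit 156) (nat_lit 76) (nat_lit 0) (XT.nd (nat_lit 78) (nat_lit 0) (nat_lit 0) (XT.lf (nat_lit 0) (nat_lit 30435581178) (nat_lit 76) (nat_lit 30328095332) (nat_lit 76) (nat_lit 9388168682) (nat_lit 4) (nat_lit 4) (nat_lit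 5) (nat_lit 5) (nat_lit 5) (nat_lit 4) (nat_lit 319) (nat_lit 226) (nat_lit 175)) (XT.lf (nat_lit 0) (nat_lit 40135279823) (nat_lit 76) (nat_lit 27204766811) (nat_lit 76) (nat_lit 6174525863) (nat_lit 4) (nat_lit 4) (nat_lit 5) (nat_lit 5) (nat_lit 5) (nat_lit 4) (nat_lit 320) (nat_lit 226) (nat_lit 174))) (XT.nd (nat_lit 78) (nat_lit 76) (nat_lit 0) (XT.lf (nat_lit 0) (nat_lit 50265629286) (nat_lit 76) (nat_lit 23948511965) (nat_lit 76) (nat_lit 2832257401) (nat_lit 4) (nat_lit 4) (nat_lit 5) (nat_lit 5) (nat_lit 5) (nat_lit 4) (nat_lit 321) (nat_lit 226) (nat_lit 173)) (XT.nd (nat_lit 78) (nat_lit 0) (nat_lit 0) (XT.lf (nat_lit 0) (nat_lit 633977100) (nat_lit 152) (nat_lit 19911198780) (nat_lit 76) (nat_lit 60210370421) (nat_lit 3) (nat_lit 5) (nat_lit 5) (nat_lit 5) (nat_lit 4) (nat_lit 4) (nat_lit 322) (nat_lit 226) (nat_lit 172)) (XT.lf (nat_lit 0) (nat_lit 4186983600) (nat_lit 152)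 (nat_lit 12776612470) (nat_lit 76) (nat_lit 67686579048) (nat_lit 3) (nat_lit 5) (nat_lit 5) (nat_lit 5) (nat_lit 4) (nat_lit 4) (nat_lit 323) (nat_lit 226) (nat_lit 171))))) (XT.nd (nat_lit 234) (nat_lit 0) (nat_lit 0) (XT.nd (nat_lit 78) (nat_lit 76) (nat_lit 0) (XT.lf (nat_lit 0) (nat_lit 7890489182) (nat_lit 152) (nat_lit 5332797936) (nat_lit 76) (nat_lit 75517087673) (nat_lit 3) (nat_lit 5) (nat_lit 5) (nat_lit 5) (nat_lit 4) (nat_lit 4) (nat_lit 324) (nat_lit 226) (nat_lit 170)) (XT.nd (nat_lit 78) (nat_lit 0) (nat_lit 0) (XT.lf (nat_lit 0) (nat_lit 2486488537) (nat_lit 76) (nat_lit 9290724826) (nat_lit 152) (nat_lit 81257953477) (nat_lit 2) (nat_lit 5) (nat_lit 3) (nat_lit 5) (nat_lit 4) (nat_lit 4) (nat_lit 325) (nat_lit 226) (nat_lit 169)) (XT.lf (nat_lit 0) (nat_lit 10764236763) (nat_lit 76) (nat_lit 5123884060) (nat_lit 152) (nat_lit 81655704820) (nat_lit 2) (nat_lit 5) (nat_lit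 3) (nat_lit 5) (nat_lit 4) (nat_lit 4) (nat_lit 326) (nat_lit 226) (nat_lit 168)))) (XT.nd (nat_lit 78) (nat_lit 0) (nat_lit 0) (XT.lf (nat_lit 0) (nat_lit 19414022531) (nat_lit 76) (nat_lit 766694575) (nat_lit 152) (nat_lit 82097937469) (nat_lit 2) (nat_lit 5) (nat_lit 3) (nat_lit 5) (nat_lit 4) (nat_lit 4) (nat_lit 327) (nat_lit 226) (nat_lit 167)) (XT.nd (nat_lit 78) (nat_lit 0) (nat_lit 0) (XT.lf (nat_lit 0) (nat_lit 24701666182) (nat_lit 152) (nat_lit 78830929973) (nat_lit 0) (nat_lit 3717237574) (nat_lit 2) (nat_lit 5) (nat_lit 4) (nat_lit 4) (nat_lit 2) (nat_lit 4) (nat_lit 328) (nat_lit 226) (nat_lit 166)) (XT.lf (nat_lit 0) (nat_lit 29434605668) (nat_lit 152) (nat_lit 74641752066) (nat_lit 0) (nat_lit 8393655311) (nat_lit 2) (nat_lit 5) (nat_lit 4) (nat_lit 4) (nat_lit 2) (nat_lit 4) (nat_lit 329) (nat_lit 226) (nat_lit 165))))))))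
noncomputable def xc26 : XT := (XT.nd (nat_lit 33930) (nat_lit 0) (nat_lit 456) (XT.nd (nat_lit 33072) (nat_lit 0) (nat_lit 1748) (XT.nd (nat_lit 32682) (nat_lit 0) (nat_lit 3800) (XT.nd (nat_lit 234) (nat_lit 0) (nat_lit 0) (XT.nd (nat_lit 78) (nat_lit 0) (nat_lit 0) (XT.lf (nat_lit 0) (nat_lit 34383434530) (nat_lit 152) (nat_lit 70279754153) (nat_lit 0) (nat_lit 13288653936) (nat_lit 2) (nat_lit 5) (nat_lit 4) (nat_lit 4) (nat_lit 2) (nat_lit 4) (nat_lit 330) (nat_lit 226) (nat_lit 164)) (XT.lf (nat_lit 0) (nat_lit 39559935694) (nat_lit 152) (nat_lit 65734550524) (nat_lit 0) (nat_lit 18413888207) (nat_lit 2) (nat_lit 5) (nat_lit 4) (nat_lit 4) (nat_lit 2) (nat_lit 4) (nat_lit 331) (nat_lit 226) (nat_lit 163))) (XT.nd (nat_lit 32292) (nat_lit 0) (nat_lit 5168) (XT.lf (nat_lit 0) (nat_lit 50645826360) (nat_lit 152) (nat_lit 56050776496) (nat_lit 0) (nat_lit 29404452679) (nat_lit 2) (nat_lit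 5) (nat_lit 4) (nat_lit 4) (nat_lit 2) (nat_lit 4) (nat_lit 333) (nat_lit 226) (nat_lit 161)) (XT.nd (nat_lit 78) (nat_lit 380) (nat_lit 0) (XT.lf (nat_lit 0) (nat_lit 319770723) (nat_lit 380) (nat_lit 3802569757) (nat_lit 0) (nat_lit 319770723) (nat_lit 75) (nat_lit 5) (nat_lit 80) (nat_lit 4) (nat_lit 75) (nat_lit 4) (nat_lit 266) (nat_lit 227) (nat_lit 227)) (XT.lf (nat_lit 0) (nat_lit 1224746905) (nat_lit 380) (nat_lit 4752118436) (nat_lit 380) (nat_lit 3124147094) (nat_lit 70) (nat_lit 4) (nat_lit 75) (nat_lit 5) (nat_lit 75) (nat_lit 4) (nat_lit 267) (nat_lit 227) (nat_lit 226))))) (XT.nd (nat_lit 156) (nat_lit 684) (nat_lit 0) (XT.nd (nat_lit 78) (nat_lit 304) (nat_lit 0) (XT.lf (nat_lit 0) (nat_lit 1026308696) (nat_lit 304) (nat_lit 1044986345) (nat_lit 380) (nat_lit 7261331463) (nat_lit 65) (nat_lit 5) (nat_lit 69) (nat_lit 5) (nat_lit 70) (nat_lit 4) (nat_lit 268) (nat_lit 227)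 (nat_lit 225)) (XT.lf (nat_lit 0) (nat_lit 619817379) (nat_lit 304) (nat_lit 6739057793) (nat_lit 304) (nat_lit 2219603195) (nat_lit 61) (nat_lit 4) (nat_lit 65) (nat_lit 5) (nat_lit 65) (nat_lit 4) (nat_lit 269) (nat_lit 227) (nat_lit 224))) (XT.nd (nat_lit 78) (nat_lit 608) (nat_lit 0) (XT.lf (nat_lit 0) (nat_lit 2897375679) (nat_lit 380) (nat_lit 3124546) (nat_lit 76) (nat_lit 6939198603) (nat_lit 60) (nat_lit 5) (nat_lit 65) (nat_lit 5) (nat_lit 61) (nat_lit 4) (nat_lit 270) (nat_lit 227) (nat_lit 223)) (XT.nd (nat_lit 78) (nat_lit 380) (nat_lit 0) (XT.lf (nat_lit 0) (nat_lit 8121583938) (nat_lit 304) (nat_lit 849517961) (nat_lit 0) (nat_lit 1145735939) (nat_lit 57) (nat_lit 5) (nat_lit 61) (nat_lit 4) (nat_lit 57) (nat_lit 4) (nat_lit 271) (nat_lit 227) (nat_lit 222)) (XT.lf (nat_lit 0) (nat_lit 3048813159) (nat_lit 380) (nat_lit 1989093173) (nat_lit 76) (nat_lit 5372045305) (nat_lit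 52) (nat_lit 5) (nat_lit 57) (nat_lit 5) (nat_lit 53) (nat_lit 4) (nat_lit 272) (nat_lit 227) (nat_lit 221)))))) (XT.nd (nat_lit 390) (nat_lit 988) (nat_lit 0) (XT.nd (nat_lit 156) (nat_lit 532) (nat_lit 0) (XT.nd (nat_lit 78) (nat_lit 304) (nat_lit 0) (XT.lf (nat_lit 0) (nat_lit 7303557975) (nat_lit 228) (nat_lit 886995552) (nat_lit 304) (nat_lit 2530356295) (nat_lit 49) (nat_lit 5) (nat_lit 52) (nat_lit 5) (nat_lit 53) (nat_lit 4) (nat_lit 273) (nat_lit 227) (nat_lit 220)) (XT.lf (nat_lit 0) (nat_lit 2414842539) (nat_lit 304) (nat_lit 5208374286) (nat_lit 76) (nat_lit 3426146129) (nat_lit 45) (nat_lit 5) (nat_lit 49) (nat_lit 5) (nat_lit 46) (nat_lit 4) (nat_lit 274) (nat_lit 227) (nat_lit 219))) (XT.nd (nat_lit 78) (nat_lit 304) (nat_lit 0) (XT.lf (nat_lit 0) (nat_lit 4016700607) (nat_lit 228) (nat_lit 3439248674) (nat_lit 304) (nat_lit 3940846102) (nat_lit 42) (nat_lit 5) (nat_lit 45)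 (nat_lit 5) (nat_lit 46) (nat_lit 4) (nat_lit 275) (nat_lit 227) (nat_lit 218)) (XT.nd (nat_lit 78) (nat_lit 0) (nat_lit 0) (XT.lf (nat_lit 0) (nat_lit 870517888) (nat_lit 304) (nat_lit 9960256962) (nat_lit 76) (nat_lit 933783705) (nat_lit 38) (nat_lit 5) (nat_lit 42) (nat_lit 5) (nat_lit 39) (nat_lit 4) (nat_lit 276) (nat_lit 227) (nat_lit 217)) (XT.lf (nat_lit 0) (nat_lit 5779916467) (nat_lit 304) (nat_lit 882161285) (nat_lit 76) (nat_lit 5489589823) (nat_lit 38) (nat_lit 5) (nat_lit 42) (nat_lit 5) (nat_lit 39) (nat_lit 4) (nat_lit 277) (nat_lit 227) (nat_lit 216))))) (XT.nd (nat_lit 234) (nat_lit 380) (nat_lit 0) (XT.nd (nat_lit 78) (nat_lit 456) (nat_lit 0) (XT.lf (nat_lit 0) (nat_lit 8568829498) (nat_lit 152) (nat_lit 2283347706) (nat_lit 228) (nat_lit 1708716227) (nat_lit 36) (nat_lit 5) (nat_lit 38) (nat_lit 5) (nat_lit 39) (nat_lit 4) (nat_lit 278) (nat_lit 227) (nat_lit 215)) (XT.nd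 (nat_lit 78) (nat_lit 152) (nat_lit 0) (XT.lf (nat_lit 0) (nat_lit 3046933880) (nat_lit 304) (nat_lit 7665711973) (nat_lit 76) (nat_lit 2279627469) (nat_lit 32) (nat_lit 5) (nat_lit 36) (nat_lit 5) (nat_lit 33) (nat_lit 4) (nat_lit 279) (nat_lit 227) (nat_lit 214)) (XT.lf (nat_lit 0) (nat_lit 1497365218) (nat_lit 152) (nat_lit 6430262615) (nat_lit 228) (nat_lit 5519658175) (nat_lit 30) (nat_lit 5) (nat_lit 32) (nat_lit 5) (nat_lit 33) (nat_lit 4) (nat_lit 280) (nat_lit 227) (nat_lit 213)))) (XT.nd (nat_lit 78) (nat_lit 380) (nat_lit 0) (XT.lf (nat_lit 0) (nat_lit 11044010580) (nat_lit 152) (nat_lit 1935791386) (nat_lit 228) (nat_lit 947661473) (nat_lit 30) (nat_lit 5) (nat_lit 32) (nat_lit 5) (nat_lit 33) (nat_lit 4) (nat_lit 281) (nat_lit 227) (nat_lit 212)) (XT.nd (nat_lit 78) (nat_lit 152) (nat_lit 0) (XT.lf (nat_lit 0) (nat_lit 3721287324) (nat_lit 228) (nat_lit 7960816701) (nat_lit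 76) (nat_lit 2750348085) (nat_lit 27) (nat_lit 5) (nat_lit 30) (nat_lit 5) (nat_lit 28) (nat_lit 4) (nat_lit 282) (nat_lit 227) (nat_lit 211)) (XT.lf (nat_lit 0) (nat_lit 1162316107) (nat_lit 152) (nat_lit 7360804826) (nat_lit 228) (nat_lit 6441925826) (nat_lit 25) (nat_lit 5) (nat_lit 27) (nat_lit 5) (nat_lit 28) (nat_lit 4) (nat_lit 283) (nat_lit 227) (nat_lit 210))))))) (XT.nd (nat_lit 858) (nat_lit 380) (nat_lit 0) (XT.nd (nat_lit 390) (nat_lit 532) (nat_lit 0) (XT.nd (nat_lit 156) (nat_lit 152) (nat_lit 0) (XT.nd (nat_lit 78) (nat_lit 228) (nat_lit 0) (XT.lf (nat_lit 0) (nat_lit 10690479676) (nat_lit 152) (nat_lit 2819346003) (nat_lit 228) (nat_lit 2016301242) (nat_lit 25) (nat_lit 5) (nat_lit 27) (nat_lit 5) (nat_lit 28) (nat_lit 4) (nat_lit 284) (nat_lit 227) (nat_lit 209)) (XT.lf (nat_lit 0) (nat_lit 2508408878) (nat_lit 228) (nat_lit 11705005188) (nat_lit 76) (nat_lit 1903398464)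 (nat_lit 22) (nat_lit 5) (nat_lit 25) (nat_lit 5) (nat_lit 23) (nat_lit 4) (nat_lit 285) (nat_lit 227) (nat_lit 208))) (XT.nd (nat_lit 78) (nat_lit 152) (nat_lit 0) (XT.lf (nat_lit 0) (nat_lit 7168251436) (nat_lit 228) (nat_lit 2769353750) (nat_lit 76) (nat_lit 6800485804) (nat_lit 22) (nat_lit 5) (nat_lit 25) (nat_lit 5) (nat_lit 23) (nat_lit 4) (nat_lit 286) (nat_lit 227) (nat_lit 207)) (XT.nd (nat_lit 78) (nat_lit 0) (nat_lit 0) (XT.lf (nat_lit 0) (nat_lit 6543432931) (nat_lit 152) (nat_lit 5458154170) (nat_lit 228) (nat_lit 5390798277) (nat_lit 20) (nat_lit 5) (nat_lit 22) (nat_lit 5) (nat_lit 23) (nat_lit 4) (nat_lit 287) (nat_lit 227) (nat_lit 206)) (XT.lf (nat_lit 0) (nat_lit 16188053539) (nat_lit 152) (nat_lit 798631547) (nat_lit 228) (nat_lit 1095565613) (nat_lit 20) (nat_lit 5) (nat_lit 22) (nat_lit 5) (nat_lit 23) (nat_lit 4) (nat_lit 288) (nat_lit 227) (nat_lit 205))))) (XT.nd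 (nat_lit 234) (nat_lit 228) (nat_lit 0) (XT.nd (nat_lit 78) (nat_lit 76) (nat_lit 0) (XT.lf (nat_lit 0) (nat_lit 3344941116) (nat_lit 228) (nat_lit 11411148498) (nat_lit 76) (nat_lit 4049767910) (nat_lit 17) (nat_lit 5) (nat_lit 20) (nat_lit 5) (nat_lit 18) (nat_lit 4) (nat_lit 289) (nat_lit 227) (nat_lit 204)) (XT.nd (nat_lit 78) (nat_lit 76) (nat_lit 0) (XT.lf (nat_lit 0) (nat_lit 7901776773) (nat_lit 228) (nat_lit 2579175393) (nat_lit 76) (nat_lit 9086998351) (nat_lit 17) (nat_lit 5) (nat_lit 20) (nat_lit 5) (nat_lit 18) (nat_lit 4) (nat_lit 290) (nat_lit 227) (nat_lit 203)) (XT.lf (nat_lit 0) (nat_lit 6650410111) (nat_lit 76) (nat_lit 5994255735) (nat_lit 152) (nat_lit 7724869381) (nat_lit 16) (nat_lit 5) (nat_lit 17) (nat_lit 5) (nat_lit 18) (nat_lit 4) (nat_lit 291) (nat_lit 227) (nat_lit 202)))) (XT.nd (nat_lit 78) (nat_lit 228) (nat_lit 0) (XT.lf (nat_lit 0) (nat_lit 16226593147)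 (nat_lit 76) (nat_lit 1322352080) (nat_lit 152) (nat_lit 3664653633) (nat_lit 16) (nat_lit 5) (nat_lit 17) (nat_lit 5) (nat_lit 18) (nat_lit 4) (nat_lit 292) (nat_lit 227) (nat_lit 201)) (XT.nd (nat_lit 78) (nat_lit 0) (nat_lit 0) (XT.lf (nat_lit 0) (nat_lit 561992774) (nat_lit 228) (nat_lit 18042842190) (nat_lit 76) (nat_lit 3495722578) (nat_lit 13) (nat_lit 5) (nat_lit 16) (nat_lit 5) (nat_lit 14) (nat_lit 4) (nat_lit 293) (nat_lit 227) (nat_lit 200)) (XT.lf (nat_lit 0) (nat_lit 4894128377) (nat_lit 228) (nat_lit 9582802461) (nat_lit 76) (nat_lit 8554858276) (nat_lit 13) (nat_lit 5) (nat_lit 16) (nat_lit 5) (nat_lit 14) (nat_lit 4) (nat_lit 294) (nat_lit 227) (nat_lit 199)))))) (XT.nd (nat_lit 390) (nat_lit 76) (nat_lit 0) (XT.nd (nat_lit 156) (nat_lit 228) (nat_lit 0) (XT.nd (nat_lit 78) (nat_lit 76) (nat_lit 0) (XT.lf (nat_lit 0) (nat_lit 9351490827) (nat_lit 228) (nat_lit 852638163)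 (nat_lit 76) (nat_lit 13808301241) (nat_lit 13) (nat_lit 5) (nat_lit 16) (nat_lit 5) (nat_lit 14) (nat_lit 4) (nat_lit 295) (nat_lit 227) (nat_lit 198)) (XT.lf (nat_lit 0) (nat_lit 8331004719) (nat_lit 76) (nat_lit 5693770883) (nat_lit 152) (nat_lit 11017637665) (nat_lit 12) (nat_lit 5) (nat_lit 13) (nat_lit 5) (nat_lit 14) (nat_lit 4) (nat_lit 296) (nat_lit 227) (nat_lit 197))) (XT.nd (nat_lit 78) (nat_lit 228) (nat_lit 0) (XT.lf (nat_lit 0) (nat_lit 17850223361) (nat_lit 76) (nat_lit 1006034665) (nat_lit 152) (nat_lit 7269998085) (nat_lit 12) (nat_lit 5) (nat_lit 13) (nat_lit 5) (nat_lit 14) (nat_lit 4) (nat_lit 297) (nat_lit 227) (nat_lit 196)) (XT.nd (nat_lit 78) (nat_lit 76) (nat_lit 0) (XT.lf (nat_lit 0) (nat_lit 414899095) (nat_lit 152) (nat_lit 23475291957) (nat_lit 152) (nat_lit 3375365806) (nat_lit 10) (nat_lit 4) (nat_lit 12) (nat_lit 5) (nat_lit 12) (nat_lit 4) (nat_lit 298)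 (nat_lit 227) (nat_lit 195)) (XT.lf (nat_lit 0) (nat_lit 717211282) (nat_lit 228) (nat_lit 18898211476) (nat_lit 76) (nat_lit 8845764724) (nat_lit 9) (nat_lit 5) (nat_lit 12) (nat_lit 5) (nat_lit 10) (nat_lit 4) (nat_lit 299) (nat_lit 227) (nat_lit 194))))) (XT.nd (nat_lit 234) (nat_lit 0) (nat_lit 0) (XT.nd (nat_lit 78) (nat_lit 76) (nat_lit 0) (XT.lf (nat_lit 0) (nat_lit 4869976264) (nat_lit 228) (nat_lit 10710216876) (nat_lit 76) (nat_lit 14137723975) (nat_lit 9) (nat_lit 5) (nat_lit 12) (nat_lit 5) (nat_lit 10) (nat_lit 4) (nat_lit 300) (nat_lit 227) (nat_lit 193)) (XT.nd (nat_lit 78) (nat_lit 76) (nat_lit 0) (XT.lf (nat_lit 0) (nat_lit 9158682219) (nat_lit 228) (nat_lit 2234732657) (nat_lit 76) (nat_lit 19646296478) (nat_lit 9) (nat_lit 5) (nat_lit 12) (nat_lit 5) (nat_lit 10) (nat_lit 4) (nat_lit 301) (nat_lit 227) (nat_lit 192)) (XT.lf (nat_lit 0) (nat_lit 6678747322) (nat_lit 76)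 (nat_lit 6978993235) (nat_lit 152) (nat_lit 18770050762) (nat_lit 8) (nat_lit 5) (nat_lit 9) (nat_lit 5) (nat_lit 10) (nat_lit 4) (nat_lit 302) (nat_lit 227) (nat_lit 191)))) (XT.nd (nat_lit 78) (nat_lit 0) (nat_lit 0) (XT.lf (nat_lit 0) (nat_lit 15971823896) (nat_lit 76) (nat_lit 2366816895) (nat_lit 152) (nat_lit 15547997849) (nat_lit 8) (nat_lit 5) (nat_lit 9) (nat_lit 5) (nat_lit 10) (nat_lit 4) (nat_lit 303) (nat_lit 227) (nat_lit 190)) (XT.nd (nat_lit 78) (nat_lit 0) (nat_lit 0) (XT.lf (nat_lit 0) (nat_lit 23213992124) (nat_lit 152) (nat_lit 9821609508) (nat_lit 0) (nat_lit 2384081205) (nat_lit 8) (nat_lit 5) (nat_lit 10) (nat_lit 4) (nat_lit 8) (nat_lit 4) (nat_lit 304) (nat_lit 227) (nat_lit 189)) (XT.lf (nat_lit 0) (nat_lit 28296624228) (nat_lit 152) (nat_lit 1451380444) (nat_lit 0) (nat_lit 7282532693) (nat_lit 8) (nat_lit 5) (nat_lit 10) (nat_lit 4) (nat_lit 8) (nat_lit 4) (nat_lit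 305) (nat_lit 227) (nat_lit 188))))))))
noncomputable def xc27 : XT := (XT.nd (nat_lit 1638) (nat_lit 0) (nat_lit 0) (XT.nd (nat_lit 780) (nat_lit 228) (nat_lit 0) (XT.nd (nat_lit 390) (nat_lit 0) (nat_lit 0) (XT.nd (nat_lit 156) (nat_lit 152) (nat_lit 0) (XT.nd (nat_lit 78) (nat_lit 0) (nat_lit 0) (XT.lf (nat_lit 0) (nat_lit 7382614250) (nat_lit 76) (nat_lit 26264239269) (nat_lit 76) (nat_lit 5074737625) (nat_lit 7) (nat_lit 4) (nat_lit 8) (nat_lit 5) (nat_lit 8) (nat_lit 4) (nat_lit 306) (nat_lit 227) (nat_lit 187)) (XT.lf (nat_lit 0) (nat_lit 16592663335) (nat_lit 76) (nat_lit 22631186555) (nat_lit 76) (nat_lit 1274627664) (nat_lit 7) (nat_lit 4) (nat_lit 8) (nat_lit 5) (nat_lit 8) (nat_lit 4) (nat_lit 307) (nat_lit 227) (nat_lit 186))) (XT.nd (nat_lit 78) (nat_lit 76) (nat_lit 0) (XT.lf (nat_lit 0) (nat_lit 2608886570) (nat_lit 152) (nat_lit 16219621294) (nat_lit 76) (nat_lit 23536578971)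 (nat_lit 6) (nat_lit 5) (nat_lit 8) (nat_lit 5) (nat_lit 7) (nat_lit 4) (nat_lit 308) (nat_lit 227) (nat_lit 185)) (XT.nd (nat_lit 78) (nat_lit 76) (nat_lit 0) (XT.lf (nat_lit 0) (nat_lit 6609400999) (nat_lit 152) (nat_lit 8250102850) (nat_lit 76) (nat_lit 29466719289) (nat_lit 6) (nat_lit 5) (nat_lit 8) (nat_lit 5) (nat_lit 7) (nat_lit 4) (nat_lit 309) (nat_lit 227) (nat_lit 184)) (XT.lf (nat_lit 0) (nat_lit 34644698) (nat_lit 76) (nat_lit 10727001562) (nat_lit 152) (nat_lit 35625267161) (nat_lit 5) (nat_lit 5) (nat_lit 6) (nat_lit 5) (nat_lit 7) (nat_lit 4) (nat_lit 310) (nat_lit 227) (nat_lit 183))))) (XT.nd (nat_lit 156) (nat_lit 0) (nat_lit 0) (XT.nd (nat_lit 78) (nat_lit 0) (nat_lit 0) (XT.lf (nat_lit 0) (nat_lit 8824515281) (nat_lit 76) (nat_lit 6334820138) (nat_lit 152) (nat_lit 33390213866) (nat_lit 5) (nat_lit 5) (nat_lit 6) (nat_lit 5) (nat_lit 7) (nat_lit 4) (nat_lit 311) (nat_lit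 227) (nat_lit 182)) (XT.lf (nat_lit 0) (nat_lit 17976243939) (nat_lit 76) (nat_lit 1755811866) (nat_lit 152) (nat_lit 31089650561) (nat_lit 5) (nat_lit 5) (nat_lit 6) (nat_lit 5) (nat_lit 7) (nat_lit 4) (nat_lit 312) (nat_lit 227) (nat_lit 181))) (XT.nd (nat_lit 78) (nat_lit 0) (nat_lit 0) (XT.lf (nat_lit 0) (nat_lit 24519733831) (nat_lit 152) (nat_lit 25726213043) (nat_lit 0) (nat_lit 2961976514) (nat_lit 5) (nat_lit 5) (nat_lit 7) (nat_lit 4) (nat_lit 5) (nat_lit 4) (nat_lit 313) (nat_lit 227) (nat_lit 180)) (XT.nd (nat_lit 78) (nat_lit 0) (nat_lit 0) (XT.lf (nat_lit 0) (nat_lit 29523548563) (nat_lit 152) (nat_lit 18340115093) (nat_lit 0) (nat_lit 7850524774) (nat_lit 5) (nat_lit 5) (nat_lit 7) (nat_lit 4) (nat_lit 5) (nat_lit 4) (nat_lit 314) (nat_lit 227) (nat_lit 179)) (XT.lf (nat_lit 0) (nat_lit 34738535909) (nat_lit 152) (nat_lit 10652704690) (nat_lit 0) (nat_lit 12955734527) (nat_lit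 5) (nat_lit 5) (nat_lit 7) (nat_lit 4) (nat_lit 5) (nat_lit 4) (nat_lit 315) (nat_lit 227) (nat_lit 178)))))) (XT.nd (nat_lit 390) (nat_lit 152) (nat_lit 0) (XT.nd (nat_lit 156) (nat_lit 0) (nat_lit 0) (XT.nd (nat_lit 78) (nat_lit 76) (nat_lit 0) (XT.lf (nat_lit 0) (nat_lit 40177112504) (nat_lit 152) (nat_lit 2645678476) (nat_lit 0) (nat_lit 18289761033) (nat_lit 5) (nat_lit 5) (nat_lit 7) (nat_lit 4) (nat_lit 5) (nat_lit 4) (nat_lit 316) (nat_lit 227) (nat_lit 177)) (XT.lf (nat_lit 0) (nat_lit 5813469627) (nat_lit 76) (nat_lit 40094640340) (nat_lit 76) (nat_lit 18107717357) (nat_lit 4) (nat_lit 4) (nat_lit 5) (nat_lit 5) (nat_lit 5) (nat_lit 4) (nat_lit 317) (nat_lit 227) (nat_lit 176))) (XT.nd (nat_lit 78) (nat_lit 0) (nat_lit 0) (XT.lf (nat_lit 0) (nat_lit 14690958674) (nat_lit 76) (nat_lit 37227652405) (nat_lit 76) (nat_lit 15145899409) (nat_lit 4) (nat_lit 4) (nat_lit 5) (nat_lit 5)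 (nat_lit 5) (nat_lit 4) (nat_lit 318) (nat_lit 227) (nat_lit 175)) (XT.nd (nat_lit 78) (nat_lit 0) (nat_lit 0) (XT.lf (nat_lit 0) (nat_lit 23955271353) (nat_lit 76) (nat_lit 34241717179) (nat_lit 76) (nat_lit 12069649886) (nat_lit 4) (nat_lit 4) (nat_lit 5) (nat_lit 5) (nat_lit 5) (nat_lit 4) (nat_lit 319) (nat_lit 227) (nat_lit 174)) (XT.lf (nat_lit 0) (nat_lit 33628465552) (nat_lit 76) (nat_lit 31129725293) (nat_lit 76) (nat_lit 8871644384) (nat_lit 4) (nat_lit 4) (nat_lit 5) (nat_lit 5) (nat_lit 5) (nat_lit 4) (nat_lit 320) (nat_lit 227) (nat_lit 173))))) (XT.nd (nat_lit 234) (nat_lit 76) (nat_lit 0) (XT.nd (nat_lit 78) (nat_lit 76) (nat_lit 0) (XT.lf (nat_lit 0) (nat_lit 43733572686) (nat_lit 76) (nat_lit 27884267241) (nat_lit 76) (nat_lit 5544268602) (nat_lit 4) (nat_lit 4) (nat_lit 5) (nat_lit 5) (nat_lit 5) (nat_lit 4) (nat_lit 321) (nat_lit 227) (nat_lit 172)) (XT.nd (nat_lit 78)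 (nat_lit 76) (nat_lit 0) (XT.lf (nat_lit 0) (nat_lit 54294652533) (nat_lit 76) (nat_lit 24497615744) (nat_lit 76) (nat_lit 2079600219) (nat_lit 4) (nat_lit 4) (nat_lit 5) (nat_lit 5) (nat_lit 5) (nat_lit 4) (nat_lit 322) (nat_lit 227) (nat_lit 171)) (XT.lf (nat_lit 0) (nat_lit 1500742262) (nat_lit 152) (nat_lit 19445810528) (nat_lit 76) (nat_lit 63820953706) (nat_lit 3) (nat_lit 5) (nat_lit 5) (nat_lit 5) (nat_lit 4) (nat_lit 4) (nat_lit 323) (nat_lit 227) (nat_lit 170)))) (XT.nd (nat_lit 78) (nat_lit 76) (nat_lit 0) (XT.lf (nat_lit 0) (nat_lit 5191634025) (nat_lit 152) (nat_lit 12024063864) (nat_lit 76) (nat_lit 71642398251) (nat_lit 3) (nat_lit 5) (nat_lit 5) (nat_lit 5) (nat_lit 4) (nat_lit 4) (nat_lit 324) (nat_lit 227) (nat_lit 169)) (XT.nd (nat_lit 78) (nat_lit 76) (nat_lit 0) (XT.lf (nat_lit 0) (nat_lit 9042443397) (nat_lit 152) (nat_lit 4274314757) (nat_lit 76) (nat_lit 79837218486)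 (nat_lit 3) (nat_lit 5) (nat_lit 5) (nat_lit 5) (nat_lit 4) (nat_lit 4) (nat_lit 325) (nat_lit 227) (nat_lit 168)) (XT.lf (nat_lit 0) (nat_lit 3897951653) (nat_lit 76) (nat_lit 9201856816) (nat_lit 152) (nat_lit 84564443731) (nat_lit 2) (nat_lit 5) (nat_lit 3) (nat_lit 5) (nat_lit 4) (nat_lit 4) (nat_lit 326) (nat_lit 227) (nat_lit 167))))))) (XT.nd (nat_lit 32994) (nat_lit 0) (nat_lit 2280) (XT.nd (nat_lit 468) (nat_lit 0) (nat_lit 0) (XT.nd (nat_lit 156) (nat_lit 0) (nat_lit 0) (XT.nd (nat_lit 78) (nat_lit 0) (nat_lit 0) (XT.lf (nat_lit 0) (nat_lit 12528294972) (nat_lit 76) (nat_lit 4853026596) (nat_lit 152) (nat_lit 85018102042) (nat_lit 2) (nat_lit 5) (nat_lit 3) (nat_lit 5) (nat_lit 4) (nat_lit 4) (nat_lit 327) (nat_lit 227) (nat_lit 166)) (XT.lf (nat_lit 0) (nat_lit 21552196391) (nat_lit 76) (nat_lit 303075334) (nat_lit 152) (nat_lit 85516750515) (nat_lit 2) (nat_lit 5) (nat_lit 3)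 (nat_lit 5) (nat_lit 4) (nat_lit 4) (nat_lit 328) (nat_lit 227) (nat_lit 165))) (XT.nd (nat_lit 78) (nat_lit 0) (nat_lit 0) (XT.lf (nat_lit 0) (nat_lit 26575172208) (nat_lit 152) (nat_lit 81645607226) (nat_lit 0) (nat_lit 4371822347) (nat_lit 2) (nat_lit 5) (nat_lit 4) (nat_lit 4) (nat_lit 2) (nat_lit 4) (nat_lit 329) (nat_lit 227) (nat_lit 164)) (XT.nd (nat_lit 78) (nat_lit 0) (nat_lit 0) (XT.lf (nat_lit 0) (nat_lit 31514357587) (nat_lit 152) (nat_lit 77300630864) (nat_lit 0) (nat_lit 9259740833) (nat_lit 2) (nat_lit 5) (nat_lit 4) (nat_lit 4) (nat_lit 2) (nat_lit 4) (nat_lit 330) (nat_lit 227) (nat_lit 163)) (XT.lf (nat_lit 0) (nat_lit 36681674481) (nat_lit 152) (nat_lit 72771638236) (nat_lit 0) (nat_lit 14378232115) (nat_lit 2) (nat_lit 5) (nat_lit 4) (nat_lit 4) (nat_lit 2) (nat_lit 4) (nat_lit 331) (nat_lit 227) (nat_lit 162))))) (XT.nd (nat_lit 32292) (nat_lit 0) (nat_lit 4788) (XT.nd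 (nat_lit 32136) (nat_lit 0) (nat_lit 5928) (XT.lf (nat_lit 0) (nat_lit 47750487820) (nat_lit 152) (nat_lit 63118007112) (nat_lit 0) (nat_lit 25356258603) (nat_lit 2) (nat_lit 5) (nat_lit 4) (nat_lit 4) (nat_lit 2) (nat_lit 4) (nat_lit 333) (nat_lit 227) (nat_lit 160)) (XT.nd (nat_lit 78) (nat_lit 380) (nat_lit 0) (XT.lf (nat_lit 0) (nat_lit 271827097) (nat_lit 456) (nat_lit 3699607463) (nat_lit 0) (nat_lit 271827097) (nat_lit 85) (nat_lit 5) (nat_lit 91) (nat_lit 4) (nat_lit 85) (nat_lit 4) (nat_lit 264) (nat_lit 228) (nat_lit 228)) (XT.lf (nat_lit 0) (nat_lit 1158142495) (nat_lit 380) (nat_lit 4641337384) (nat_lit 380) (nat_lit 2880686378) (nat_lit 80) (nat_lit 4) (nat_lit 85) (nat_lit 5) (nat_lit 85) (nat_lit 4) (nat_lit 265) (nat_lit 228) (nat_lit 227)))) (XT.nd (nat_lit 78) (nat_lit 760) (nat_lit 0) (XT.lf (nat_lit 0) (nat_lit 1123458264) (nat_lit 304) (nat_lit 1123300234) (nat_lit 380)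 (nat_lit 6640802358) (nat_lit 75) (nat_lit 5) (nat_lit 79) (nat_lit 5) (nat_lit 80) (nat_lit 4) (nat_lit 266) (nat_lit 228) (nat_lit 226)) (XT.nd (nat_lit 78) (nat_lit 380) (nat_lit 0) (XT.lf (nat_lit 0) (nat_lit 929714795) (nat_lit 380) (nat_lit 6533161620) (nat_lit 380) (nat_lit 1645371472) (nat_lit 70) (nat_lit 4) (nat_lit 75) (nat_lit 5) (nat_lit 75) (nat_lit 4) (nat_lit 267) (nat_lit 228) (nat_lit 225)) (XT.lf (nat_lit 0) (nat_lit 561356862) (nat_lit 304) (nat_lit 2850350037) (nat_lit 380) (nat_lit 5931255005) (nat_lit 65) (nat_lit 5) (nat_lit 69) (nat_lit 5) (nat_lit 70) (nat_lit 4) (nat_lit 268) (nat_lit 228) (nat_lit 224)))))) (XT.nd (nat_lit 390) (nat_lit 1292) (nat_lit 0) (XT.nd (nat_lit 156) (nat_lit 836) (nat_lit 0) (XT.nd (nat_lit 78) (nat_lit 76) (nat_lit 0) (XT.lf (nat_lit 0) (nat_lit 11674236) (nat_lit 304) (nat_lit 8562747393) (nat_lit 304) (nat_lit 1018367782) (nat_lit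 61) (nat_lit 4) (nat_lit 65) (nat_lit 5) (nat_lit 65) (nat_lit 4) (nat_lit 269) (nat_lit 228) (nat_lit 223)) (XT.lf (nat_lit 0) (nat_lit 3975868929) (nat_lit 380) (nat_lit 773691947) (nat_lit 76) (nat_lit 5107294014) (nat_lit 60) (nat_lit 5) (nat_lit 65) (nat_lit 5) (nat_lit 61) (nat_lit 4) (nat_lit 270) (nat_lit 228) (nat_lit 222))) (XT.nd (nat_lit 78) (nat_lit 608) (nat_lit 0) (XT.lf (nat_lit 0) (nat_lit 8360334801) (nat_lit 228) (nat_lit 725106894) (nat_lit 304) (nat_lit 1052193532) (nat_lit 57) (nat_lit 5) (nat_lit 60) (nat_lit 5) (nat_lit 61) (nat_lit 4) (nat_lit 271) (nat_lit 228) (nat_lit 221)) (XT.nd (nat_lit 78) (nat_lit 228) (nat_lit 0) (XT.lf (nat_lit 0) (nat_lit 3863321416) (nat_lit 380) (nat_lit 3091968294) (nat_lit 76) (nat_lit 3478678866) (nat_lit 52) (nat_lit 5) (nat_lit 57) (nat_lit 5) (nat_lit 53) (nat_lit 4) (nat_lit 272) (nat_lit 228) (nat_lit 220)) (XT.lf (nat_lit 0)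 (nat_lit 6049009082) (nat_lit 228) (nat_lit 2854475620) (nat_lit 304) (nat_lit 1844667486) (nat_lit 49) (nat_lit 5) (nat_lit 52) (nat_lit 5) (nat_lit 53) (nat_lit 4) (nat_lit 273) (nat_lit 228) (nat_lit 219))))) (XT.nd (nat_lit 234) (nat_lit 456) (nat_lit 0) (XT.nd (nat_lit 78) (nat_lit 532) (nat_lit 0) (XT.lf (nat_lit 0) (nat_lit 2966475553) (nat_lit 304) (nat_lit 6661246677) (nat_lit 76) (nat_lit 1452470311) (nat_lit 45) (nat_lit 5) (nat_lit 49) (nat_lit 5) (nat_lit 46) (nat_lit 4) (nat_lit 274) (nat_lit 228) (nat_lit 218)) (XT.nd (nat_lit 78) (nat_lit 304) (nat_lit 0) (XT.lf (nat_lit 0) (nat_lit 2408253630) (nat_lit 228) (nat_lit 5499036896) (nat_lit 304) (nat_lit 3523500045) (nat_lit 42) (nat_lit 5) (nat_lit 45) (nat_lit 5) (nat_lit 46) (nat_lit 4) (nat_lit 275) (nat_lit 228) (nat_lit 217)) (XT.lf (nat_lit 0) (nat_lit 9649668) (nat_lit 228) (nat_lit 1160665418) (nat_lit 304) (nat_lit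 10631545482) (nat_lit 38) (nat_lit 5) (nat_lit 41) (nat_lit 5) (nat_lit 42) (nat_lit 5) (nat_lit 276) (nat_lit 228) (nat_lit 216)))) (XT.nd (nat_lit 78) (nat_lit 456) (nat_lit 0) (XT.lf (nat_lit 0) (nat_lit 5988080249) (nat_lit 304) (nat_lit 2824040345) (nat_lit 76) (nat_lit 3379736119) (nat_lit 38) (nat_lit 5) (nat_lit 42) (nat_lit 5) (nat_lit 39) (nat_lit 4) (nat_lit 277) (nat_lit 228) (nat_lit 215)) (XT.nd (nat_lit 78) (nat_lit 304) (nat_lit 0) (XT.lf (nat_lit 0) (nat_lit 6470691883) (nat_lit 152) (nat_lit 4492836338) (nat_lit 228) (nat_lit 1640590277) (nat_lit 36) (nat_lit 5) (nat_lit 38) (nat_lit 5) (nat_lit 39) (nat_lit 4) (nat_lit 278) (nat_lit 228) (nat_lit 214)) (XT.lf (nat_lit 0) (nat_lit 2994865530) (nat_lit 304) (nat_lit 9990659756) (nat_lit 76) (nat_lit 53641036) (nat_lit 32) (nat_lit 5) (nat_lit 36) (nat_lit 5) (nat_lit 33) (nat_lit 4) (nat_lit 279) (nat_lit 228) (nat_lit 213))))))))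
noncomputable def xc28 : XT := (XT.nd (nat_lit 1638) (nat_lit 380) (nat_lit 0) (XT.nd (nat_lit 780) (nat_lit 608) (nat_lit 0) (XT.nd (nat_lit 390) (nat_lit 608) (nat_lit 0) (XT.nd (nat_lit 156) (nat_lit 380) (nat_lit 0) (XT.nd (nat_lit 78) (nat_lit 152) (nat_lit 0) (XT.lf (nat_lit 0) (nat_lit 7788380799) (nat_lit 304) (nat_lit 969091889) (nat_lit 76) (nat_lit 4739437524) (nat_lit 32) (nat_lit 5) (nat_lit 36) (nat_lit 5) (nat_lit 33) (nat_lit 4) (nat_lit 280) (nat_lit 228) (nat_lit 212)) (XT.lf (nat_lit 0) (nat_lit 8449195087) (nat_lit 152) (nat_lit 4311491343) (nat_lit 228) (nat_lit 1218907592) (nat_lit 30) (nat_lit 5) (nat_lit 32) (nat_lit 5) (nat_lit 33) (nat_lit 4) (nat_lit 281) (nat_lit 228) (nat_lit 211))) (XT.nd (nat_lit 78) (nat_lit 152) (nat_lit 0) (XT.lf (nat_lit 0) (nat_lit 3337103043) (nat_lit 228) (nat_lit 10796870598) (nat_lit 76) (nat_lit 354336219) (nat_lit 27) (nat_lit 5)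 (nat_lit 30) (nat_lit 5) (nat_lit 28) (nat_lit 4) (nat_lit 282) (nat_lit 228) (nat_lit 210)) (XT.nd (nat_lit 78) (nat_lit 152) (nat_lit 0) (XT.lf (nat_lit 0) (nat_lit 8061871299) (nat_lit 228) (nat_lit 1800438103) (nat_lit 76) (nat_lit 5161004221) (nat_lit 27) (nat_lit 5) (nat_lit 30) (nat_lit 5) (nat_lit 28) (nat_lit 4) (nat_lit 283) (nat_lit 228) (nat_lit 209)) (XT.lf (nat_lit 0) (nat_lit 7590855569) (nat_lit 152) (nat_lit 5376343161) (nat_lit 228) (nat_lit 2619728899) (nat_lit 25) (nat_lit 5) (nat_lit 27) (nat_lit 5) (nat_lit 28) (nat_lit 4) (nat_lit 284) (nat_lit 228) (nat_lit 208))))) (XT.nd (nat_lit 156) (nat_lit 380) (nat_lit 0) (XT.nd (nat_lit 78) (nat_lit 0) (nat_lit 0) (XT.lf (nat_lit 0) (nat_lit 1114145877) (nat_lit 152) (nat_lit 690687025) (nat_lit 228) (nat_lit 14376397608) (nat_lit 22) (nat_lit 5) (nat_lit 24) (nat_lit 5) (nat_lit 25) (nat_lit 5) (nat_lit 285) (nat_lit 228)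 (nat_lit 207)) (XT.lf (nat_lit 0) (nat_lit 6398329568) (nat_lit 228) (nat_lit 6221054022) (nat_lit 76) (nat_lit 4185197236) (nat_lit 22) (nat_lit 5) (nat_lit 25) (nat_lit 5) (nat_lit 23) (nat_lit 4) (nat_lit 286) (nat_lit 228) (nat_lit 206))) (XT.nd (nat_lit 78) (nat_lit 228) (nat_lit 0) (XT.lf (nat_lit 0) (nat_lit 2929536198) (nat_lit 152) (nat_lit 8210526633) (nat_lit 228) (nat_lit 6321638056) (nat_lit 20) (nat_lit 5) (nat_lit 22) (nat_lit 5) (nat_lit 23) (nat_lit 4) (nat_lit 287) (nat_lit 228) (nat_lit 205)) (XT.nd (nat_lit 78) (nat_lit 228) (nat_lit 0) (XT.lf (nat_lit 0) (nat_lit 12485108372) (nat_lit 152) (nat_lit 3585040823) (nat_lit 228) (nat_lit 2083141266) (nat_lit 20) (nat_lit 5) (nat_lit 22) (nat_lit 5) (nat_lit 23) (nat_lit 4) (nat_lit 288) (nat_lit 228) (nat_lit 204)) (XT.lf (nat_lit 0) (nat_lit 2258338452) (nat_lit 228) (nat_lit 15384747576) (nat_lit 76) (nat_lit 1237713336)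 (nat_lit 17) (nat_lit 5) (nat_lit 20) (nat_lit 5) (nat_lit 18) (nat_lit 4) (nat_lit 289) (nat_lit 228) (nat_lit 203)))))) (XT.nd (nat_lit 390) (nat_lit 304) (nat_lit 0) (XT.nd (nat_lit 156) (nat_lit 228) (nat_lit 0) (XT.nd (nat_lit 78) (nat_lit 76) (nat_lit 0) (XT.lf (nat_lit 0) (nat_lit 6763605242) (nat_lit 228) (nat_lit 6637535305) (nat_lit 76) (nat_lit 6243363956) (nat_lit 17) (nat_lit 5) (nat_lit 20) (nat_lit 5) (nat_lit 18) (nat_lit 4) (nat_lit 290) (nat_lit 228) (nat_lit 202)) (XT.lf (nat_lit 0) (nat_lit 2428949697) (nat_lit 76) (nat_lit 8987852151) (nat_lit 152) (nat_lit 9032040121) (nat_lit 16) (nat_lit 5) (nat_lit 17) (nat_lit 5) (nat_lit 18) (nat_lit 4) (nat_lit 291) (nat_lit 228) (nat_lit 201))) (XT.nd (nat_lit 78) (nat_lit 228) (nat_lit 0) (XT.lf (nat_lit 0) (nat_lit 11926722083) (nat_lit 76) (nat_lit 4346830932) (nat_lit 152) (nat_lit 5020837464) (nat_lit 16) (nat_lit 5) (nat_lit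 17) (nat_lit 5) (nat_lit 18) (nat_lit 4) (nat_lit 292) (nat_lit 228) (nat_lit 200)) (XT.nd (nat_lit 78) (nat_lit 228) (nat_lit 0) (XT.lf (nat_lit 0) (nat_lit 21284827531) (nat_lit 152) (nat_lit 443298800) (nat_lit 0) (nat_lit 456854762) (nat_lit 16) (nat_lit 5) (nat_lit 18) (nat_lit 4) (nat_lit 16) (nat_lit 4) (nat_lit 293) (nat_lit 228) (nat_lit 199)) (XT.lf (nat_lit 0) (nat_lit 3400582604) (nat_lit 228) (nat_lit 14243071554) (nat_lit 76) (nat_lit 5474339015) (nat_lit 13) (nat_lit 5) (nat_lit 16) (nat_lit 5) (nat_lit 14) (nat_lit 4) (nat_lit 294) (nat_lit 228) (nat_lit 198))))) (XT.nd (nat_lit 234) (nat_lit 228) (nat_lit 0) (XT.nd (nat_lit 78) (nat_lit 76) (nat_lit 0) (XT.lf (nat_lit 0) (nat_lit 7815492122) (nat_lit 228) (nat_lit 5583930446) (nat_lit 76) (nat_lit 10700534818) (nat_lit 13) (nat_lit 5) (nat_lit 16) (nat_lit 5) (nat_lit 14) (nat_lit 4) (nat_lit 295) (nat_lit 228) (nat_lit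 197)) (XT.nd (nat_lit 78) (nat_lit 0) (nat_lit 0) (XT.lf (nat_lit 0) (nat_lit 3436563118) (nat_lit 76) (nat_lit 8964734049) (nat_lit 152) (nat_lit 12731314796) (nat_lit 12) (nat_lit 5) (nat_lit 13) (nat_lit 5) (nat_lit 14) (nat_lit 4) (nat_lit 296) (nat_lit 228) (nat_lit 196)) (XT.lf (nat_lit 0) (nat_lit 12890079546) (nat_lit 76) (nat_lit 4303562415) (nat_lit 152) (nat_lit 9024031880) (nat_lit 12) (nat_lit 5) (nat_lit 13) (nat_lit 5) (nat_lit 14) (nat_lit 4) (nat_lit 297) (nat_lit 228) (nat_lit 195)))) (XT.nd (nat_lit 78) (nat_lit 228) (nat_lit 0) (XT.lf (nat_lit 0) (nat_lit 22154371741) (nat_lit 152) (nat_lit 4676552098) (nat_lit 0) (nat_lit 528289613) (nat_lit 12) (nat_lit 5) (nat_lit 14) (nat_lit 4) (nat_lit 12) (nat_lit 4) (nat_lit 298) (nat_lit 228) (nat_lit 194)) (XT.nd (nat_lit 78) (nat_lit 76) (nat_lit 0) (XT.lf (nat_lit 0) (nat_lit 4324023323) (nat_lit 152) (nat_lit 23050869014)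 (nat_lit 152) (nat_lit 1182668573) (nat_lit 10) (nat_lit 4) (nat_lit 12) (nat_lit 5) (nat_lit 12) (nat_lit 4) (nat_lit 299) (nat_lit 228) (nat_lit 193)) (XT.lf (nat_lit 0) (nat_lit 2958200250) (nat_lit 228) (nat_lit 16093642800) (nat_lit 76) (nat_lit 10763875438) (nat_lit 9) (nat_lit 5) (nat_lit 12) (nat_lit 5) (nat_lit 10) (nat_lit 4) (nat_lit 300) (nat_lit 228) (nat_lit 192))))))) (XT.nd (nat_lit 780) (nat_lit 152) (nat_lit 0) (XT.nd (nat_lit 390) (nat_lit 152) (nat_lit 0) (XT.nd (nat_lit 156) (nat_lit 0) (nat_lit 0) (XT.nd (nat_lit 78) (nat_lit 76) (nat_lit 0) (XT.lf (nat_lit 0) (nat_lit 7213597367) (nat_lit 228) (nat_lit 7674795101) (nat_lit 76) (nat_lit 16250155392) (nat_lit 9) (nat_lit 5) (nat_lit 12) (nat_lit 5) (nat_lit 10) (nat_lit 4) (nat_lit 301) (nat_lit 228) (nat_lit 191)) (XT.lf (nat_lit 0) (nat_lit 1075403922) (nat_lit 76) (nat_lit 10551666314) (nat_lit 152) (nat_lit 20902159312)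 (nat_lit 8) (nat_lit 5) (nat_lit 9) (nat_lit 5) (nat_lit 10) (nat_lit 4) (nat_lit 302) (nat_lit 228) (nat_lit 190))) (XT.nd (nat_lit 78) (nat_lit 0) (nat_lit 0) (XT.lf (nat_lit 0) (nat_lit 10316087119) (nat_lit 76) (nat_lit 5961167616) (nat_lit 152) (nat_lit 17711776140) (nat_lit 8) (nat_lit 5) (nat_lit 9) (nat_lit 5) (nat_lit 10) (nat_lit 4) (nat_lit 303) (nat_lit 228) (nat_lit 189)) (XT.nd (nat_lit 78) (nat_lit 0) (nat_lit 0) (XT.lf (nat_lit 0) (nat_lit 19916512644) (nat_lit 76) (nat_lit 1183466997) (nat_lit 152) (nat_lit 14423705208) (nat_lit 8) (nat_lit 5) (nat_lit 9) (nat_lit 5) (nat_lit 10) (nat_lit 4) (nat_lit 304) (nat_lit 228) (nat_lit 188)) (XT.lf (nat_lit 0) (nat_lit 26143186452) (nat_lit 152) (nat_lit 7273765575) (nat_lit 0) (nat_lit 3718799616) (nat_lit 8) (nat_lit 5) (nat_lit 10) (nat_lit 4) (nat_lit 8) (nat_lit 4) (nat_lit 305) (nat_lit 228) (nat_lit 187))))) (XT.nd (nat_lit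 156) (nat_lit 76) (nat_lit 0) (XT.nd (nat_lit 78) (nat_lit 0) (nat_lit 0) (XT.lf (nat_lit 0) (nat_lit 1397535201) (nat_lit 76) (nat_lit 30011634888) (nat_lit 76) (nat_lit 7420190805) (nat_lit 7) (nat_lit 4) (nat_lit 8) (nat_lit 5) (nat_lit 8) (nat_lit 4) (nat_lit 306) (nat_lit 228) (nat_lit 186)) (XT.lf (nat_lit 0) (nat_lit 10562996630) (nat_lit 76) (nat_lit 26397299880) (nat_lit 76) (nat_lit 3646753657) (nat_lit 7) (nat_lit 4) (nat_lit 8) (nat_lit 5) (nat_lit 8) (nat_lit 4) (nat_lit 307) (nat_lit 228) (nat_lit 185))) (XT.nd (nat_lit 78) (nat_lit 0) (nat_lit 0) (XT.lf (nat_lit 0) (nat_lit 258142317) (nat_lit 152) (nat_lit 22378043166) (nat_lit 76) (nat_lit 19838929993) (nat_lit 6) (nat_lit 5) (nat_lit 8) (nat_lit 5) (nat_lit 7) (nat_lit 4) (nat_lit 308) (nat_lit 228) (nat_lit 184)) (XT.nd (nat_lit 78) (nat_lit 0) (nat_lit 0) (XT.lf (nat_lit 0) (nat_lit 4234935812) (nat_lit 152) (nat_lit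 14449462703) (nat_lit 76) (nat_lit 25752588462) (nat_lit 6) (nat_lit 5) (nat_lit 8) (nat_lit 5) (nat_lit 7) (nat_lit 4) (nat_lit 309) (nat_lit 228) (nat_lit 183)) (XT.lf (nat_lit 0) (nat_lit 8364256681) (nat_lit 152) (nat_lit 6204379749) (nat_lit 76) (nat_lit 31929751008) (nat_lit 6) (nat_lit 5) (nat_lit 8) (nat_lit 5) (nat_lit 7) (nat_lit 4) (nat_lit 310) (nat_lit 228) (nat_lit 182)))))) (XT.nd (nat_lit 390) (nat_lit 76) (nat_lit 0) (XT.nd (nat_lit 156) (nat_lit 0) (nat_lit 0) (XT.nd (nat_lit 78) (nat_lit 0) (nat_lit 0) (XT.lf (nat_lit 0) (nat_lit 2424140557) (nat_lit 76) (nat_lit 10255098405) (nat_lit 152) (nat_lit 35984286925) (nat_lit 5) (nat_lit 5) (nat_lit 6) (nat_lit 5) (nat_lit 7) (nat_lit 4) (nat_lit 311) (nat_lit 228) (nat_lit 181)) (XT.lf (nat_lit 0) (nat_lit 11539801640) (nat_lit 76) (nat_lit 5691319969) (nat_lit 152) (nat_lit 33705206851) (nat_lit 5) (nat_lit 5) (nat_lit 6)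 (nat_lit 5) (nat_lit 7) (nat_lit 4) (nat_lit 312) (nat_lit 228) (nat_lit 180))) (XT.nd (nat_lit 78) (nat_lit 0) (nat_lit 0) (XT.lf (nat_lit 0) (nat_lit 21040828131) (nat_lit 76) (nat_lit 929087053) (nat_lit 152) (nat_lit 31354116223) (nat_lit 5) (nat_lit 5) (nat_lit 6) (nat_lit 5) (nat_lit 7) (nat_lit 4) (nat_lit 313) (nat_lit 228) (nat_lit 179)) (XT.nd (nat_lit 78) (nat_lit 0) (nat_lit 0) (XT.lf (nat_lit 0) (nat_lit 26945765733) (nat_lit 152) (nat_lit 24921341419) (nat_lit 0) (nat_lit 3964046689) (nat_lit 5) (nat_lit 5) (nat_lit 7) (nat_lit 4) (nat_lit 5) (nat_lit 4) (nat_lit 314) (nat_lit 228) (nat_lit 178)) (XT.lf (nat_lit 0) (nat_lit 32142626192) (nat_lit 152) (nat_lit 17265518680) (nat_lit 0) (nat_lit 9056357059) (nat_lit 5) (nat_lit 5) (nat_lit 7) (nat_lit 4) (nat_lit 5) (nat_lit 4) (nat_lit 315) (nat_lit 228) (nat_lit 177))))) (XT.nd (nat_lit 234) (nat_lit 0) (nat_lit 0) (XT.nd (nat_lit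 78) (nat_lit 76) (nat_lit 0) (XT.lf (nat_lit 0) (nat_lit 37563939085) (nat_lit 152) (nat_lit 9288575955) (nat_lit 0) (nat_lit 14378098440) (nat_lit 5) (nat_lit 5) (nat_lit 7) (nat_lit 4) (nat_lit 5) (nat_lit 4) (nat_lit 316) (nat_lit 228) (nat_lit 176)) (XT.nd (nat_lit 78) (nat_lit 76) (nat_lit 0) (XT.lf (nat_lit 0) (nat_lit 43222612302) (nat_lit 152) (nat_lit 971520524) (nat_lit 0) (nat_lit 19941941644) (nat_lit 5) (nat_lit 5) (nat_lit 7) (nat_lit 4) (nat_lit 5) (nat_lit 4) (nat_lit 317) (nat_lit 228) (nat_lit 175)) (XT.lf (nat_lit 0) (nat_lit 7858803690) (nat_lit 76) (nat_lit 41348858810) (nat_lit 76) (nat_lit 17977873856) (nat_lit 4) (nat_lit 4) (nat_lit 5) (nat_lit 5) (nat_lit 5) (nat_lit 4) (nat_lit 318) (nat_lit 228) (nat_lit 174)))) (XT.nd (nat_lit 78) (nat_lit 0) (nat_lit 0) (XT.lf (nat_lit 0) (nat_lit 17096611923) (nat_lit 76) (nat_lit 38374260219) (nat_lit 76) (nat_lit 14917261648)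 (nat_lit 4) (nat_lit 4) (nat_lit 5) (nat_lit 5) (nat_lit 5) (nat_lit 4) (nat_lit 319) (nat_lit 228) (nat_lit 173)) (XT.nd (nat_lit 78) (nat_lit 0) (nat_lit 0) (XT.lf (nat_lit 0) (nat_lit 26744563793) (nat_lit 76) (nat_lit 35273065127) (nat_lit 76) (nat_lit 11734148826) (nat_lit 4) (nat_lit 4) (nat_lit 5) (nat_lit 5) (nat_lit 5) (nat_lit 4) (nat_lit 320) (nat_lit 228) (nat_lit 172)) (XT.lf (nat_lit 0) (nat_lit 36825630613) (nat_lit 76) (nat_lit 32037889738) (nat_lit 76) (nat_lit 8420956551) (nat_lit 4) (nat_lit 4) (nat_lit 5) (nat_lit 5) (nat_lit 5) (nat_lit 4) (nat_lit 321) (nat_lit 228) (nat_lit 171))))))))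
noncomputable def xc29 : XT := (XT.nd (nat_lit 33618) (nat_lit 0) (nat_lit 1064) (XT.nd (nat_lit 858) (nat_lit 0) (nat_lit 0) (XT.nd (nat_lit 390) (nat_lit 76) (nat_lit 0) (XT.nd (nat_lit 156) (nat_lit 76) (nat_lit 0) (XT.nd (nat_lit 78) (nat_lit 0) (nat_lit 0) (XT.lf (nat_lit 0) (nat_lit 47363814924) (nat_lit 76) (nat_lit 28661031251) (nat_lit 76) (nat_lit 4969796269) (nat_lit 4) (nat_lit 4) (nat_lit 5) (nat_lit 5) (nat_lit 5) (nat_lit 4) (nat_lit 322) (nat_lit 228) (nat_lit 170)) (XT.lf (nat_lit 0) (nat_lit 58384207639) (nat_lit 76) (nat_lit 25134449529) (nat_lit 76) (nat_lit 1372450931) (nat_lit 4) (nat_lit 4) (nat_lit 5) (nat_lit 5) (nat_lit 5) (nat_lit 4) (nat_lit 323) (nat_lit 228) (nat_lit 169))) (XT.nd (nat_lit 78) (nat_lit 0) (nat_lit 0) (XT.lf (nat_lit 0) (nat_lit 2333209132) (nat_lit 152) (nat_lit 19092977979) (nat_lit 76) (nat_lit 67556277821) (nat_lit 3) (nat_lit 5) (nat_lit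 5) (nat_lit 5) (nat_lit 4) (nat_lit 4) (nat_lit 324) (nat_lit 228) (nat_lit 168)) (XT.nd (nat_lit 78) (nat_lit 0) (nat_lit 0) (XT.lf (nat_lit 0) (nat_lit 6172577399) (nat_lit 152) (nat_lit 11363245080) (nat_lit 76) (nat_lit 75742876668) (nat_lit 3) (nat_lit 5) (nat_lit 5) (nat_lit 5) (nat_lit 4) (nat_lit 4) (nat_lit 325) (nat_lit 228) (nat_lit 167)) (XT.lf (nat_lit 0) (nat_lit 10181576685) (nat_lit 152) (nat_lit 3286104802) (nat_lit 76) (nat_lit 84322754177) (nat_lit 3) (nat_lit 5) (nat_lit 5) (nat_lit 5) (nat_lit 4) (nat_lit 4) (nat_lit 326) (nat_lit 228) (nat_lit 166))))) (XT.nd (nat_lit 156) (nat_lit 0) (nat_lit 0) (XT.nd (nat_lit 78) (nat_lit 0) (nat_lit 0) (XT.lf (nat_lit 0) (nat_lit 5260321969) (nat_lit 76) (nat_lit 9159995687) (nat_lit 152) (nat_lit 88106582090) (nat_lit 2) (nat_lit 5) (nat_lit 3) (nat_lit 5) (nat_lit 4) (nat_lit 4) (nat_lit 327) (nat_lit 228) (nat_lit 165)) (XT.lf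 (nat_lit 0) (nat_lit 14266588515) (nat_lit 76) (nat_lit 4617626526) (nat_lit 152) (nat_lit 88615593975) (nat_lit 2) (nat_lit 5) (nat_lit 3) (nat_lit 5) (nat_lit 4) (nat_lit 4) (nat_lit 328) (nat_lit 228) (nat_lit 164))) (XT.nd (nat_lit 78) (nat_lit 0) (nat_lit 0) (XT.lf (nat_lit 0) (nat_lit 23552997935) (nat_lit 152) (nat_lit 89034549324) (nat_lit 0) (nat_lit 134383451) (nat_lit 2) (nat_lit 5) (nat_lit 4) (nat_lit 4) (nat_lit 2) (nat_lit 4) (nat_lit 329) (nat_lit 228) (nat_lit 163)) (XT.nd (nat_lit 78) (nat_lit 0) (nat_lit 0) (XT.lf (nat_lit 0) (nat_lit 28482999043) (nat_lit 152) (nat_lit 84705783963) (nat_lit 0) (nat_lit 5015558948) (nat_lit 2) (nat_lit 5) (nat_lit 4) (nat_lit 4) (nat_lit 2) (nat_lit 4) (nat_lit 330) (nat_lit 228) (nat_lit 162)) (XT.lf (nat_lit 0) (nat_lit 33641569013) (nat_lit 152) (nat_lit 80192230384) (nat_lit 0) (nat_lit 10127628335) (nat_lit 2) (nat_lit 5) (nat_lit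 4) (nat_lit 4) (nat_lit 2) (nat_lit 4) (nat_lit 331) (nat_lit 228) (nat_lit 161)))))) (XT.nd (nat_lit 32292) (nat_lit 0) (nat_lit 4180) (XT.nd (nat_lit 32058) (nat_lit 0) (nat_lit 5928) (XT.nd (nat_lit 31980) (nat_lit 0) (nat_lit 7220) (XT.lf (nat_lit 0) (nat_lit 44694118231) (nat_lit 152) (nat_lit 70567306788) (nat_lit 0) (nat_lit 21093713884) (nat_lit 2) (nat_lit 5) (nat_lit 4) (nat_lit 4) (nat_lit 2) (nat_lit 4) (nat_lit 333) (nat_lit 228) (nat_lit 159)) (XT.lf (nat_lit 0) (nat_lit 188163698) (nat_lit 456) (nat_lit 3689862213) (nat_lit 0) (nat_lit 188163698) (nat_lit 97) (nat_lit 5) (nat_lit 103) (nat_lit 4) (nat_lit 97) (nat_lit 4) (nat_lit 262) (nat_lit 229) (nat_lit 229))) (XT.nd (nat_lit 78) (nat_lit 836) (nat_lit 0) (XT.lf (nat_lit 0) (nat_lit 879280679) (nat_lit 456) (nat_lit 4664776786) (nat_lit 456) (nat_lit 2760632723) (nat_lit 91) (nat_lit 4) (nat_lit 97) (nat_lit 5) (nat_lit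 97) (nat_lit 4) (nat_lit 263) (nat_lit 229) (nat_lit 228)) (XT.nd (nat_lit 78) (nat_lit 380) (nat_lit 0) (XT.lf (nat_lit 0) (nat_lit 933959040) (nat_lit 380) (nat_lit 1357456545) (nat_lit 456) (nat_lit 6198431577) (nat_lit 85) (nat_lit 5) (nat_lit 90) (nat_lit 5) (nat_lit 91) (nat_lit 4) (nat_lit 264) (nat_lit 229) (nat_lit 227)) (XT.lf (nat_lit 0) (nat_lit 872152065) (nat_lit 380) (nat_lit 6550747706) (nat_lit 380) (nat_lit 1264602661) (nat_lit 80) (nat_lit 4) (nat_lit 85) (nat_lit 5) (nat_lit 85) (nat_lit 4) (nat_lit 265) (nat_lit 229) (nat_lit 226))))) (XT.nd (nat_lit 234) (nat_lit 912) (nat_lit 0) (XT.nd (nat_lit 78) (nat_lit 456) (nat_lit 0) (XT.lf (nat_lit 0) (nat_lit 670524729) (nat_lit 304) (nat_lit 3050476323) (nat_lit 380) (nat_lit 5176999924) (nat_lit 75) (nat_lit 5) (nat_lit 79) (nat_lit 5) (nat_lit 80) (nat_lit 4) (nat_lit 266) (nat_lit 229) (nat_lit 225)) (XT.nd (nat_lit 78)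 (nat_lit 76) (nat_lit 0) (XT.lf (nat_lit 0) (nat_lit 338948120) (nat_lit 380) (nat_lit 8471517225) (nat_lit 380) (nat_lit 312270675) (nat_lit 70) (nat_lit 4) (nat_lit 75) (nat_lit 5) (nat_lit 75) (nat_lit 4) (nat_lit 267) (nat_lit 229) (nat_lit 224)) (XT.lf (nat_lit 0) (nat_lit 4613361684) (nat_lit 456) (nat_lit 200425183) (nat_lit 76) (nat_lit 4546671387) (nat_lit 69) (nat_lit 5) (nat_lit 75) (nat_lit 5) (nat_lit 70) (nat_lit 4) (nat_lit 268) (nat_lit 229) (nat_lit 223)))) (XT.nd (nat_lit 78) (nat_lit 532) (nat_lit 0) (XT.lf (nat_lit 0) (nat_lit 52578119) (nat_lit 380) (nat_lit 894365070) (nat_lit 76) (nat_lit 8666806459) (nat_lit 64) (nat_lit 5) (nat_lit 69) (nat_lit 5) (nat_lit 65) (nat_lit 5) (nat_lit 269) (nat_lit 229) (nat_lit 222)) (XT.nd (nat_lit 78) (nat_lit 228) (nat_lit 0) (XT.lf (nat_lit 0) (nat_lit 4914412033) (nat_lit 380) (nat_lit 1849416971) (nat_lit 76) (nat_lit 3117270634)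 (nat_lit 60) (nat_lit 5) (nat_lit 65) (nat_lit 5) (nat_lit 61) (nat_lit 4) (nat_lit 270) (nat_lit 229) (nat_lit 221)) (XT.lf (nat_lit 0) (nat_lit 7136865920) (nat_lit 228) (nat_lit 2785288548) (nat_lit 304) (nat_lit 242973046) (nat_lit 57) (nat_lit 5) (nat_lit 60) (nat_lit 5) (nat_lit 61) (nat_lit 4) (nat_lit 271) (nat_lit 229) (nat_lit 220))))))) (XT.nd (nat_lit 858) (nat_lit 836) (nat_lit 0) (XT.nd (nat_lit 390) (nat_lit 1064) (nat_lit 0) (XT.nd (nat_lit 156) (nat_lit 608) (nat_lit 0) (XT.nd (nat_lit 78) (nat_lit 228) (nat_lit 0) (XT.lf (nat_lit 0) (nat_lit 4535044025) (nat_lit 380) (nat_lit 4510732831) (nat_lit 76) (nat_lit 1419279973) (nat_lit 52) (nat_lit 5) (nat_lit 57) (nat_lit 5) (nat_lit 53) (nat_lit 4) (nat_lit 272) (nat_lit 229) (nat_lit 219)) (XT.lf (nat_lit 0) (nat_lit 4478461306) (nat_lit 228) (nat_lit 4996394090) (nat_lit 304) (nat_lit 1307565234) (nat_lit 49) (nat_lit 5)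 (nat_lit 52) (nat_lit 5) (nat_lit 53) (nat_lit 4) (nat_lit 273) (nat_lit 229) (nat_lit 218))) (XT.nd (nat_lit 78) (nat_lit 304) (nat_lit 0) (XT.lf (nat_lit 0) (nat_lit 2669735667) (nat_lit 228) (nat_lit 708866301) (nat_lit 304) (nat_lit 7739295826) (nat_lit 45) (nat_lit 5) (nat_lit 48) (nat_lit 5) (nat_lit 49) (nat_lit 5) (nat_lit 274) (nat_lit 229) (nat_lit 217)) (XT.nd (nat_lit 78) (nat_lit 76) (nat_lit 0) (XT.lf (nat_lit 0) (nat_lit 472096559) (nat_lit 228) (nat_lit 7741103951) (nat_lit 304) (nat_lit 3258631190) (nat_lit 42) (nat_lit 5) (nat_lit 45) (nat_lit 5) (nat_lit 46) (nat_lit 4) (nat_lit 275) (nat_lit 229) (nat_lit 216)) (XT.lf (nat_lit 0) (nat_lit 1350962393) (nat_lit 304) (nat_lit 2086876468) (nat_lit 76) (nat_lit 8407496164) (nat_lit 41) (nat_lit 5) (nat_lit 45) (nat_lit 5) (nat_lit 42) (nat_lit 5) (nat_lit 276) (nat_lit 229) (nat_lit 215))))) (XT.nd (nat_lit 234) (nat_lit 380)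 (nat_lit 0) (XT.nd (nat_lit 78) (nat_lit 456) (nat_lit 0) (XT.lf (nat_lit 0) (nat_lit 6049531646) (nat_lit 304) (nat_lit 5099411840) (nat_lit 76) (nat_lit 1090095109) (nat_lit 38) (nat_lit 5) (nat_lit 42) (nat_lit 5) (nat_lit 39) (nat_lit 4) (nat_lit 277) (nat_lit 229) (nat_lit 214)) (XT.nd (nat_lit 78) (nat_lit 304) (nat_lit 0) (XT.lf (nat_lit 0) (nat_lit 4038025222) (nat_lit 152) (nat_lit 6890575656) (nat_lit 228) (nat_lit 1725716145) (nat_lit 36) (nat_lit 5) (nat_lit 38) (nat_lit 5) (nat_lit 39) (nat_lit 4) (nat_lit 278) (nat_lit 229) (nat_lit 213)) (XT.lf (nat_lit 0) (nat_lit 407237083) (nat_lit 228) (nat_lit 2406883674) (nat_lit 304) (nat_lit 10278302882) (nat_lit 32) (nat_lit 5) (nat_lit 35) (nat_lit 5) (nat_lit 36) (nat_lit 5) (nat_lit 279) (nat_lit 229) (nat_lit 212)))) (XT.nd (nat_lit 78) (nat_lit 380) (nat_lit 0) (XT.lf (nat_lit 0) (nat_lit 7515180450) (nat_lit 304) (nat_lit 3747425427)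 (nat_lit 76) (nat_lit 2290445642) (nat_lit 32) (nat_lit 5) (nat_lit 36) (nat_lit 5) (nat_lit 33) (nat_lit 4) (nat_lit 280) (nat_lit 229) (nat_lit 211)) (XT.nd (nat_lit 78) (nat_lit 228) (nat_lit 0) (XT.lf (nat_lit 0) (nat_lit 5511689591) (nat_lit 152) (nat_lit 6881541164) (nat_lit 228) (nat_lit 1645437306) (nat_lit 30) (nat_lit 5) (nat_lit 32) (nat_lit 5) (nat_lit 33) (nat_lit 4) (nat_lit 281) (nat_lit 229) (nat_lit 210)) (XT.lf (nat_lit 0) (nat_lit 540672207) (nat_lit 152) (nat_lit 2279873334) (nat_lit 228) (nat_lit 11730009040) (nat_lit 27) (nat_lit 5) (nat_lit 29) (nat_lit 5) (nat_lit 30) (nat_lit 5) (nat_lit 282) (nat_lit 229) (nat_lit 209)))))) (XT.nd (nat_lit 390) (nat_lit 456) (nat_lit 0) (XT.nd (nat_lit 156) (nat_lit 228) (nat_lit 0) (XT.nd (nat_lit 78) (nat_lit 152) (nat_lit 0) (XT.lf (nat_lit 0) (nat_lit 7460643536) (nat_lit 228) (nat_lit 5090600382) (nat_lit 76) (nat_lit 2536947060)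 (nat_lit 27) (nat_lit 5) (nat_lit 30) (nat_lit 5) (nat_lit 28) (nat_lit 4) (nat_lit 283) (nat_lit 229) (nat_lit 208)) (XT.lf (nat_lit 0) (nat_lit 4138986279) (nat_lit 152) (nat_lit 8134036806) (nat_lit 228) (nat_lit 3381658458) (nat_lit 25) (nat_lit 5) (nat_lit 27) (nat_lit 5) (nat_lit 28) (nat_lit 4) (nat_lit 284) (nat_lit 229) (nat_lit 207))) (XT.nd (nat_lit 78) (nat_lit 152) (nat_lit 0) (XT.lf (nat_lit 0) (nat_lit 988605581) (nat_lit 228) (nat_lit 2512783183) (nat_lit 76) (nat_lit 12749971835) (nat_lit 24) (nat_lit 5) (nat_lit 27) (nat_lit 5) (nat_lit 25) (nat_lit 5) (nat_lit 285) (nat_lit 229) (nat_lit 206)) (XT.nd (nat_lit 78) (nat_lit 0) (nat_lit 0) (XT.lf (nat_lit 0) (nat_lit 5473341606) (nat_lit 228) (nat_lit 10033275760) (nat_lit 76) (nat_lit 1371433970) (nat_lit 22) (nat_lit 5) (nat_lit 25) (nat_lit 5) (nat_lit 23) (nat_lit 4) (nat_lit 286) (nat_lit 229) (nat_lit 205)) (XT.lf (nat_lit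 0) (nat_lit 10132758742) (nat_lit 228) (nat_lit 1027162120) (nat_lit 76) (nat_lit 6377793923) (nat_lit 22) (nat_lit 5) (nat_lit 25) (nat_lit 5) (nat_lit 23) (nat_lit 4) (nat_lit 287) (nat_lit 229) (nat_lit 204))))) (XT.nd (nat_lit 234) (nat_lit 76) (nat_lit 0) (XT.nd (nat_lit 78) (nat_lit 228) (nat_lit 0) (XT.lf (nat_lit 0) (nat_lit 8423159479) (nat_lit 152) (nat_lit 6577223389) (nat_lit 228) (nat_lit 3230865744) (nat_lit 20) (nat_lit 5) (nat_lit 22) (nat_lit 5) (nat_lit 23) (nat_lit 4) (nat_lit 288) (nat_lit 229) (nat_lit 203)) (XT.nd (nat_lit 78) (nat_lit 152) (nat_lit 0) (XT.lf (nat_lit 0) (nat_lit 1036692517) (nat_lit 228) (nat_lit 770627428) (nat_lit 76) (nat_lit 17154723160) (nat_lit 19) (nat_lit 5) (nat_lit 22) (nat_lit 5) (nat_lit 20) (nat_lit 5) (nat_lit 289) (nat_lit 229) (nat_lit 202)) (XT.lf (nat_lit 0) (nat_lit 5467843061) (nat_lit 228) (nat_lit 11064298651) (nat_lit 76) (nat_lit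 3195892002) (nat_lit 17) (nat_lit 5) (nat_lit 20) (nat_lit 5) (nat_lit 18) (nat_lit 4) (nat_lit 290) (nat_lit 229) (nat_lit 201)))) (XT.nd (nat_lit 78) (nat_lit 76) (nat_lit 0) (XT.lf (nat_lit 0) (nat_lit 10050916634) (nat_lit 228) (nat_lit 2122091781) (nat_lit 76) (nat_lit 8361525487) (nat_lit 17) (nat_lit 5) (nat_lit 20) (nat_lit 5) (nat_lit 18) (nat_lit 4) (nat_lit 291) (nat_lit 229) (nat_lit 200)) (XT.nd (nat_lit 78) (nat_lit 0) (nat_lit 0) (XT.lf (nat_lit 0) (nat_lit 7258770008) (nat_lit 76) (nat_lit 7582828007) (nat_lit 152) (nat_lit 6540522712) (nat_lit 16) (nat_lit 5) (nat_lit 17) (nat_lit 5) (nat_lit 18) (nat_lit 4) (nat_lit 292) (nat_lit 229) (nat_lit 199)) (XT.lf (nat_lit 0) (nat_lit 17007222784) (nat_lit 76) (nat_lit 2798061286) (nat_lit 152) (nat_lit 2468908465) (nat_lit 16) (nat_lit 5) (nat_lit 17) (nat_lit 5) (nat_lit 18) (nat_lit 4) (nat_lit 293) (nat_lit 229) (nat_lit 198))))))))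
noncomputable def xc30 : XT := (XT.nd (nat_lit 1638) (nat_lit 228) (nat_lit 0) (XT.nd (nat_lit 780) (nat_lit 228) (nat_lit 0) (XT.nd (nat_lit 390) (nat_lit 304) (nat_lit 0) (XT.nd (nat_lit 156) (nat_lit 76) (nat_lit 0) (XT.nd (nat_lit 78) (nat_lit 0) (nat_lit 0) (XT.lf (nat_lit 0) (nat_lit 1745331033) (nat_lit 228) (nat_lit 19281951641) (nat_lit 76) (nat_lit 2183937107) (nat_lit 13) (nat_lit 5) (nat_lit 16) (nat_lit 5) (nat_lit 14) (nat_lit 4) (nat_lit 294) (nat_lit 229) (nat_lit 197)) (XT.lf (nat_lit 0) (nat_lit 6119809187) (nat_lit 228) (nat_lit 10690451666) (nat_lit 76) (nat_lit 7384183230) (nat_lit 13) (nat_lit 5) (nat_lit 16) (nat_lit 5) (nat_lit 14) (nat_lit 4) (nat_lit 295) (nat_lit 229) (nat_lit 196))) (XT.nd (nat_lit 78) (nat_lit 76) (nat_lit 0) (XT.lf (nat_lit 0) (nat_lit 10634073826) (nat_lit 228) (nat_lit 1801437953) (nat_lit 76) (nat_lit 12793778000) (nat_lit 13) (nat_lit 5)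 (nat_lit 16) (nat_lit 5) (nat_lit 14) (nat_lit 4) (nat_lit 296) (nat_lit 229) (nat_lit 195)) (XT.nd (nat_lit 78) (nat_lit 0) (nat_lit 0) (XT.lf (nat_lit 0) (nat_lit 7553652789) (nat_lit 76) (nat_lit 7817830740) (nat_lit 152) (nat_lit 10944558947) (nat_lit 12) (nat_lit 5) (nat_lit 13) (nat_lit 5) (nat_lit 14) (nat_lit 4) (nat_lit 297) (nat_lit 229) (nat_lit 194)) (XT.lf (nat_lit 0) (nat_lit 17291975442) (nat_lit 76) (nat_lit 2999559573) (nat_lit 152) (nat_lit 7167308152) (nat_lit 12) (nat_lit 5) (nat_lit 13) (nat_lit 5) (nat_lit 14) (nat_lit 4) (nat_lit 298) (nat_lit 229) (nat_lit 193))))) (XT.nd (nat_lit 156) (nat_lit 76) (nat_lit 0) (XT.nd (nat_lit 78) (nat_lit 228) (nat_lit 0) (XT.lf (nat_lit 0) (nat_lit 25407627711) (nat_lit 152) (nat_lit 1279424476) (nat_lit 0) (nat_lit 1973310066) (nat_lit 12) (nat_lit 5) (nat_lit 14) (nat_lit 4) (nat_lit 12) (nat_lit 4) (nat_lit 299) (nat_lit 229)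 (nat_lit 192)) (XT.lf (nat_lit 0) (nat_lit 882552317) (nat_lit 228) (nat_lit 21862344887) (nat_lit 76) (nat_lit 7175634749) (nat_lit 9) (nat_lit 5) (nat_lit 12) (nat_lit 5) (nat_lit 10) (nat_lit 4) (nat_lit 300) (nat_lit 229) (nat_lit 191))) (XT.nd (nat_lit 78) (nat_lit 76) (nat_lit 0) (XT.lf (nat_lit 0) (nat_lit 5106226729) (nat_lit 228) (nat_lit 13497436732) (nat_lit 76) (nat_lit 12640683703) (nat_lit 9) (nat_lit 5) (nat_lit 12) (nat_lit 5) (nat_lit 10) (nat_lit 4) (nat_lit 301) (nat_lit 229) (nat_lit 190)) (XT.nd (nat_lit 78) (nat_lit 76) (nat_lit 0) (XT.lf (nat_lit 0) (nat_lit 9479150060) (nat_lit 228) (nat_lit 4819593705) (nat_lit 76) (nat_lit 18337534107) (nat_lit 9) (nat_lit 5) (nat_lit 12) (nat_lit 5) (nat_lit 10) (nat_lit 4) (nat_lit 302) (nat_lit 229) (nat_lit 189)) (XT.lf (nat_lit 0) (nat_lit 4275271671) (nat_lit 76) (nat_lit 9777558887) (nat_lit 152) (nat_lit 20045574744) (nat_lit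 8) (nat_lit 5) (nat_lit 9) (nat_lit 5) (nat_lit 10) (nat_lit 4) (nat_lit 303) (nat_lit 229) (nat_lit 188)))))) (XT.nd (nat_lit 390) (nat_lit 152) (nat_lit 0) (XT.nd (nat_lit 156) (nat_lit 76) (nat_lit 0) (XT.nd (nat_lit 78) (nat_lit 0) (nat_lit 0) (XT.lf (nat_lit 0) (nat_lit 13828174859) (nat_lit 76) (nat_lit 5019520527) (nat_lit 152) (nat_lit 16786229201) (nat_lit 8) (nat_lit 5) (nat_lit 9) (nat_lit 5) (nat_lit 10) (nat_lit 4) (nat_lit 304) (nat_lit 229) (nat_lit 187)) (XT.lf (nat_lit 0) (nat_lit 23765941499) (nat_lit 76) (nat_lit 61968470) (nat_lit 152) (nat_lit 13419999282) (nat_lit 8) (nat_lit 5) (nat_lit 9) (nat_lit 5) (nat_lit 10) (nat_lit 4) (nat_lit 305) (nat_lit 229) (nat_lit 186))) (XT.nd (nat_lit 78) (nat_lit 76) (nat_lit 0) (XT.lf (nat_lit 0) (nat_lit 29054422620) (nat_lit 152) (nat_lit 4881059832) (nat_lit 0) (nat_lit 5007246945) (nat_lit 8) (nat_lit 5) (nat_lit 10) (nat_lit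 4) (nat_lit 8) (nat_lit 4) (nat_lit 306) (nat_lit 229) (nat_lit 185)) (XT.nd (nat_lit 78) (nat_lit 0) (nat_lit 0) (XT.lf (nat_lit 0) (nat_lit 4144794501) (nat_lit 76) (nat_lit 30388262965) (nat_lit 76) (nat_lit 6189561442) (nat_lit 7) (nat_lit 4) (nat_lit 8) (nat_lit 5) (nat_lit 8) (nat_lit 4) (nat_lit 307) (nat_lit 229) (nat_lit 184)) (XT.lf (nat_lit 0) (nat_lit 13641034595) (nat_lit 76) (nat_lit 26646732810) (nat_lit 76) (nat_lit 2303720956) (nat_lit 7) (nat_lit 4) (nat_lit 8) (nat_lit 5) (nat_lit 8) (nat_lit 4) (nat_lit 308) (nat_lit 229) (nat_lit 183))))) (XT.nd (nat_lit 234) (nat_lit 76) (nat_lit 0) (XT.nd (nat_lit 78) (nat_lit 0) (nat_lit 0) (XT.lf (nat_lit 0) (nat_lit 1695435065) (nat_lit 152) (nat_lit 21038717080) (nat_lit 76) (nat_lit 21820572247) (nat_lit 6) (nat_lit 5) (nat_lit 8) (nat_lit 5) (nat_lit 7) (nat_lit 4) (nat_lit 309) (nat_lit 229) (nat_lit 182)) (XT.nd (nat_lit 78)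 (nat_lit 0) (nat_lit 0) (XT.lf (nat_lit 0) (nat_lit 5803240348) (nat_lit 152) (nat_lit 12830766082) (nat_lit 76) (nat_lit 27982785271) (nat_lit 6) (nat_lit 5) (nat_lit 8) (nat_lit 5) (nat_lit 7) (nat_lit 4) (nat_lit 310) (nat_lit 229) (nat_lit 181)) (XT.lf (nat_lit 0) (nat_lit 10074429272) (nat_lit 152) (nat_lit 4284913255) (nat_lit 76) (nat_lit 34423921783) (nat_lit 6) (nat_lit 5) (nat_lit 8) (nat_lit 5) (nat_lit 7) (nat_lit 4) (nat_lit 311) (nat_lit 229) (nat_lit 180)))) (XT.nd (nat_lit 78) (nat_lit 0) (nat_lit 0) (XT.lf (nat_lit 0) (nat_lit 4711119580) (nat_lit 76) (nat_lit 9853337920) (nat_lit 152) (nat_lit 36493484406) (nat_lit 5) (nat_lit 5) (nat_lit 6) (nat_lit 5) (nat_lit 7) (nat_lit 4) (nat_lit 312) (nat_lit 229) (nat_lit 179)) (XT.nd (nat_lit 78) (nat_lit 0) (nat_lit 0) (XT.lf (nat_lit 0) (nat_lit 14179431717) (nat_lit 76) (nat_lit 5104918914) (nat_lit 152) (nat_lit 34161879702)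 (nat_lit 5) (nat_lit 5) (nat_lit 6) (nat_lit 5) (nat_lit 7) (nat_lit 4) (nat_lit 313) (nat_lit 229) (nat_lit 178)) (XT.lf (nat_lit 0) (nat_lit 24057288580) (nat_lit 76) (nat_lit 146048975) (nat_lit 152) (nat_lit 31751738709) (nat_lit 5) (nat_lit 5) (nat_lit 6) (nat_lit 5) (nat_lit 7) (nat_lit 4) (nat_lit 314) (nat_lit 229) (nat_lit 177))))))) (XT.nd (nat_lit 858) (nat_lit 76) (nat_lit 0) (XT.nd (nat_lit 390) (nat_lit 76) (nat_lit 0) (XT.nd (nat_lit 156) (nat_lit 76) (nat_lit 0) (XT.nd (nat_lit 78) (nat_lit 0) (nat_lit 0) (XT.lf (nat_lit 0) (nat_lit 29381530401) (nat_lit 152) (nat_lit 24270644521) (nat_lit 0) (nat_lit 4936826211) (nat_lit 5) (nat_lit 5) (nat_lit 7) (nat_lit 4) (nat_lit 5) (nat_lit 4) (nat_lit 315) (nat_lit 229) (nat_lit 176)) (XT.lf (nat_lit 0) (nat_lit 34786401674) (nat_lit 152) (nat_lit 16322352738) (nat_lit 0) (nat_lit 10246867471) (nat_lit 5) (nat_lit 5) (nat_lit 7) (nat_lit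 4) (nat_lit 5) (nat_lit 4) (nat_lit 316) (nat_lit 229) (nat_lit 175))) (XT.nd (nat_lit 78) (nat_lit 76) (nat_lit 0) (XT.lf (nat_lit 0) (nat_lit 40429416204) (nat_lit 152) (nat_lit 8032583919) (nat_lit 0) (nat_lit 15799567704) (nat_lit 5) (nat_lit 5) (nat_lit 7) (nat_lit 4) (nat_lit 5) (nat_lit 4) (nat_lit 317) (nat_lit 229) (nat_lit 174)) (XT.nd (nat_lit 78) (nat_lit 0) (nat_lit 0) (XT.lf (nat_lit 0) (nat_lit 630706843) (nat_lit 76) (nat_lit 45699365637) (nat_lit 76) (nat_lit 20983503520) (nat_lit 4) (nat_lit 4) (nat_lit 5) (nat_lit 5) (nat_lit 5) (nat_lit 4) (nat_lit 318) (nat_lit 229) (nat_lit 173)) (XT.lf (nat_lit 0) (nat_lit 9843272747) (nat_lit 76) (nat_lit 42735563840) (nat_lit 76) (nat_lit 17937783994) (nat_lit 4) (nat_lit 4) (nat_lit 5) (nat_lit 5) (nat_lit 5) (nat_lit 4) (nat_lit 319) (nat_lit 229) (nat_lit 172))))) (XT.nd (nat_lit 234) (nat_lit 76) (nat_lit 0) (XT.nd (nat_lit 78)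 (nat_lit 0) (nat_lit 0) (XT.lf (nat_lit 0) (nat_lit 19467184303) (nat_lit 76) (nat_lit 39644651410) (nat_lit 76) (nat_lit 14768854678) (nat_lit 4) (nat_lit 4) (nat_lit 5) (nat_lit 5) (nat_lit 5) (nat_lit 4) (nat_lit 320) (nat_lit 229) (nat_lit 171)) (XT.nd (nat_lit 78) (nat_lit 0) (nat_lit 0) (XT.lf (nat_lit 0) (nat_lit 29525355586) (nat_lit 76) (nat_lit 36419269032) (nat_lit 76) (nat_lit 11469170504) (nat_lit 4) (nat_lit 4) (nat_lit 5) (nat_lit 5) (nat_lit 5) (nat_lit 4) (nat_lit 321) (nat_lit 229) (nat_lit 170)) (XT.lf (nat_lit 0) (nat_lit 40041734623) (nat_lit 76) (nat_lit 33051737223) (nat_lit 76) (nat_lit 8030875080) (nat_lit 4) (nat_lit 4) (nat_lit 5) (nat_lit 5) (nat_lit 5) (nat_lit 4) (nat_lit 322) (nat_lit 229) (nat_lit 169)))) (XT.nd (nat_lit 78) (nat_lit 76) (nat_lit 0) (XT.lf (nat_lit 0) (nat_lit 51041360412) (nat_lit 76) (nat_lit 29534038050) (nat_lit 76) (nat_lit 4445781988)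 (nat_lit 4) (nat_lit 4) (nat_lit 5) (nat_lit 5) (nat_lit 5) (nat_lit 4) (nat_lit 323) (nat_lit 229) (nat_lit 168)) (XT.nd (nat_lit 78) (nat_lit 76) (nat_lit 0) (XT.lf (nat_lit 0) (nat_lit 62550422537) (nat_lit 76) (nat_lit 25857796040) (nat_lit 76) (nat_lit 705355293) (nat_lit 4) (nat_lit 4) (nat_lit 5) (nat_lit 5) (nat_lit 5) (nat_lit 4) (nat_lit 324) (nat_lit 229) (nat_lit 167)) (XT.lf (nat_lit 0) (nat_lit 3136880705) (nat_lit 152) (nat_lit 18845701185) (nat_lit 76) (nat_lit 71427766479) (nat_lit 3) (nat_lit 5) (nat_lit 5) (nat_lit 5) (nat_lit 4) (nat_lit 4) (nat_lit 325) (nat_lit 229) (nat_lit 166)))))) (XT.nd (nat_lit 390) (nat_lit 0) (nat_lit 0) (XT.nd (nat_lit 156) (nat_lit 76) (nat_lit 0) (XT.nd (nat_lit 78) (nat_lit 0) (nat_lit 0) (XT.lf (nat_lit 0) (nat_lit 7135502571) (nat_lit 152) (nat_lit 10786716199) (nat_lit 76) (nat_lit 80000186946) (nat_lit 3) (nat_lit 5) (nat_lit 5) (nat_lit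 5) (nat_lit 4) (nat_lit 4) (nat_lit 326) (nat_lit 229) (nat_lit 165)) (XT.lf (nat_lit 0) (nat_lit 11313794854) (nat_lit 152) (nat_lit 2360228009) (nat_lit 76) (nat_lit 88986669452) (nat_lit 3) (nat_lit 5) (nat_lit 5) (nat_lit 5) (nat_lit 4) (nat_lit 4) (nat_lit 327) (nat_lit 229) (nat_lit 164))) (XT.nd (nat_lit 78) (nat_lit 0) (nat_lit 0) (XT.lf (nat_lit 0) (nat_lit 6582270253) (nat_lit 76) (nat_lit 9162708424) (nat_lit 152) (nat_lit 91889612938) (nat_lit 2) (nat_lit 5) (nat_lit 3) (nat_lit 5) (nat_lit 4) (nat_lit 4) (nat_lit 328) (nat_lit 229) (nat_lit 163)) (XT.nd (nat_lit 78) (nat_lit 0) (nat_lit 0) (XT.lf (nat_lit 0) (nat_lit 15988424783) (nat_lit 76) (nat_lit 4414901141) (nat_lit 152) (nat_lit 92453708668) (nat_lit 2) (nat_lit 5) (nat_lit 3) (nat_lit 5) (nat_lit 4) (nat_lit 4) (nat_lit 329) (nat_lit 229) (nat_lit 162)) (XT.lf (nat_lit 0) (nat_lit 25282141378) (nat_lit 152) (nat_lit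 92512844767) (nat_lit 0) (nat_lit 546003083) (nat_lit 2) (nat_lit 5) (nat_lit 4) (nat_lit 4) (nat_lit 2) (nat_lit 4) (nat_lit 330) (nat_lit 229) (nat_lit 161))))) (XT.nd (nat_lit 32058) (nat_lit 0) (nat_lit 6764) (XT.nd (nat_lit 156) (nat_lit 0) (nat_lit 0) (XT.lf (nat_lit 0) (nat_lit 30432380944) (nat_lit 152) (nat_lit 88013995044) (nat_lit 0) (nat_lit 5651956380) (nat_lit 2) (nat_lit 5) (nat_lit 4) (nat_lit 4) (nat_lit 2) (nat_lit 4) (nat_lit 331) (nat_lit 229) (nat_lit 160)) (XT.nd (nat_lit 31824) (nat_lit 0) (nat_lit 8132) (XT.lf (nat_lit 0) (nat_lit 41469440523) (nat_lit 152) (nat_lit 78416411951) (nat_lit 0) (nat_lit 16606669608) (nat_lit 2) (nat_lit 5) (nat_lit 4) (nat_lit 4) (nat_lit 2) (nat_lit 4) (nat_lit 333) (nat_lit 229) (nat_lit 158)) (XT.lf (nat_lit 0) (nat_lit 98987208) (nat_lit 532) (nat_lit 3711266941) (nat_lit 0) (nat_lit 98987208) (nat_lit 109) (nat_lit 5) (nat_lit 116)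 (nat_lit 4) (nat_lit 109) (nat_lit 4) (nat_lit 260) (nat_lit 230) (nat_lit 230)))) (XT.nd (nat_lit 78) (nat_lit 912) (nat_lit 0) (XT.lf (nat_lit 0) (nat_lit 519958058) (nat_lit 456) (nat_lit 4755207124) (nat_lit 456) (nat_lit 2695875319) (nat_lit 103) (nat_lit 4) (nat_lit 109) (nat_lit 5) (nat_lit 109) (nat_lit 4) (nat_lit 261) (nat_lit 230) (nat_lit 229)) (XT.nd (nat_lit 78) (nat_lit 456) (nat_lit 0) (XT.lf (nat_lit 0) (nat_lit 600954632) (nat_lit 380) (nat_lit 1675673358) (nat_lit 456) (nat_lit 5859043075) (nat_lit 97) (nat_lit 5) (nat_lit 102) (nat_lit 5) (nat_lit 103) (nat_lit 4) (nat_lit 262) (nat_lit 230) (nat_lit 228)) (XT.lf (nat_lit 0) (nat_lit 602728882) (nat_lit 456) (nat_lit 6713188651) (nat_lit 456) (nat_lit 996222785) (nat_lit 91) (nat_lit 4) (nat_lit 97) (nat_lit 5) (nat_lit 97) (nat_lit 4) (nat_lit 263) (nat_lit 230) (nat_lit 227))))))))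
noncomputable def xc31 : XT := (XT.nd (nat_lit 1638) (nat_lit 1292) (nat_lit 0) (XT.nd (nat_lit 780) (nat_lit 1824) (nat_lit 0) (XT.nd (nat_lit 390) (nat_lit 1520) (nat_lit 0) (XT.nd (nat_lit 156) (nat_lit 760) (nat_lit 0) (XT.nd (nat_lit 78) (nat_lit 456) (nat_lit 0) (XT.lf (nat_lit 0) (nat_lit 493510486) (nat_lit 380) (nat_lit 3416632936) (nat_lit 456) (nat_lit 4590264695) (nat_lit 85) (nat_lit 5) (nat_lit 90) (nat_lit 5) (nat_lit 91) (nat_lit 4) (nat_lit 264) (nat_lit 230) (nat_lit 226)) (XT.lf (nat_lit 0) (nat_lit 206648867) (nat_lit 456) (nat_lit 8404727942) (nat_lit 76) (nat_lit 90754660) (nat_lit 79) (nat_lit 5) (nat_lit 85) (nat_lit 5) (nat_lit 80) (nat_lit 4) (nat_lit 265) (nat_lit 230) (nat_lit 225))) (XT.nd (nat_lit 78) (nat_lit 760) (nat_lit 0) (XT.lf (nat_lit 0) (nat_lit 5060223778) (nat_lit 456) (nat_lit 72887409) (nat_lit 76) (nat_lit 3782623101) (nat_lit 79) (nat_lit 5) (nat_lit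 85) (nat_lit 5) (nat_lit 80) (nat_lit 4) (nat_lit 266) (nat_lit 230) (nat_lit 224)) (XT.nd (nat_lit 78) (nat_lit 380) (nat_lit 0) (XT.lf (nat_lit 0) (nat_lit 880598487) (nat_lit 380) (nat_lit 560822142) (nat_lit 76) (nat_lit 7702255153) (nat_lit 74) (nat_lit 5) (nat_lit 79) (nat_lit 5) (nat_lit 75) (nat_lit 5) (nat_lit 267) (nat_lit 230) (nat_lit 223)) (XT.lf (nat_lit 0) (nat_lit 5685456136) (nat_lit 456) (nat_lit 1247989824) (nat_lit 76) (nat_lit 2451521187) (nat_lit 69) (nat_lit 5) (nat_lit 75) (nat_lit 5) (nat_lit 70) (nat_lit 4) (nat_lit 268) (nat_lit 230) (nat_lit 222))))) (XT.nd (nat_lit 156) (nat_lit 836) (nat_lit 0) (XT.nd (nat_lit 78) (nat_lit 304) (nat_lit 0) (XT.lf (nat_lit 0) (nat_lit 976318827) (nat_lit 380) (nat_lit 2122429848) (nat_lit 76) (nat_lit 6542512106) (nat_lit 64) (nat_lit 5) (nat_lit 69) (nat_lit 5) (nat_lit 65) (nat_lit 5) (nat_lit 269) (nat_lit 230) (nat_lit 221))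 (XT.lf (nat_lit 0) (nat_lit 5715239614) (nat_lit 380) (nat_lit 3232860868) (nat_lit 76) (nat_lit 964390312) (nat_lit 60) (nat_lit 5) (nat_lit 65) (nat_lit 5) (nat_lit 61) (nat_lit 4) (nat_lit 270) (nat_lit 230) (nat_lit 220))) (XT.nd (nat_lit 78) (nat_lit 532) (nat_lit 0) (XT.lf (nat_lit 0) (nat_lit 414514927) (nat_lit 304) (nat_lit 4598211110) (nat_lit 76) (nat_lit 5186869186) (nat_lit 56) (nat_lit 5) (nat_lit 60) (nat_lit 5) (nat_lit 57) (nat_lit 5) (nat_lit 271) (nat_lit 230) (nat_lit 219)) (XT.nd (nat_lit 78) (nat_lit 228) (nat_lit 0) (XT.lf (nat_lit 0) (nat_lit 4246335557) (nat_lit 304) (nat_lit 827196284) (nat_lit 380) (nat_lit 5429520027) (nat_lit 52) (nat_lit 5) (nat_lit 56) (nat_lit 5) (nat_lit 57) (nat_lit 5) (nat_lit 272) (nat_lit 230) (nat_lit 218)) (XT.lf (nat_lit 0) (nat_lit 2588175248) (nat_lit 228) (nat_lit 7317850768) (nat_lit 304) (nat_lit 917770725) (nat_lit 49) (nat_lit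 5) (nat_lit 52) (nat_lit 5) (nat_lit 53) (nat_lit 4) (nat_lit 273) (nat_lit 230) (nat_lit 217)))))) (XT.nd (nat_lit 390) (nat_lit 836) (nat_lit 0) (XT.nd (nat_lit 156) (nat_lit 684) (nat_lit 0) (XT.nd (nat_lit 78) (nat_lit 0) (nat_lit 0) (XT.lf (nat_lit 0) (nat_lit 579754421) (nat_lit 228) (nat_lit 3081612571) (nat_lit 304) (nat_lit 7500926581) (nat_lit 45) (nat_lit 5) (nat_lit 48) (nat_lit 5) (nat_lit 49) (nat_lit 5) (nat_lit 274) (nat_lit 230) (nat_lit 216)) (XT.lf (nat_lit 0) (nat_lit 8391675497) (nat_lit 304) (nat_lit 1761326650) (nat_lit 76) (nat_lit 1366496298) (nat_lit 45) (nat_lit 5) (nat_lit 49) (nat_lit 5) (nat_lit 46) (nat_lit 4) (nat_lit 275) (nat_lit 230) (nat_lit 215))) (XT.nd (nat_lit 78) (nat_lit 380) (nat_lit 0) (XT.lf (nat_lit 0) (nat_lit 1386578983) (nat_lit 304) (nat_lit 4515666238) (nat_lit 76) (nat_lit 5993629548) (nat_lit 41) (nat_lit 5) (nat_lit 45) (nat_lit 5) (nat_lit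 42) (nat_lit 5) (nat_lit 276) (nat_lit 230) (nat_lit 214)) (XT.nd (nat_lit 78) (nat_lit 152) (nat_lit 0) (XT.lf (nat_lit 0) (nat_lit 4565648629) (nat_lit 228) (nat_lit 1412344663) (nat_lit 304) (nat_lit 6314924976) (nat_lit 38) (nat_lit 5) (nat_lit 41) (nat_lit 5) (nat_lit 42) (nat_lit 5) (nat_lit 277) (nat_lit 230) (nat_lit 213)) (XT.lf (nat_lit 0) (nat_lit 1265037452) (nat_lit 152) (nat_lit 9482274565) (nat_lit 228) (nat_lit 1964296511) (nat_lit 36) (nat_lit 5) (nat_lit 38) (nat_lit 5) (nat_lit 39) (nat_lit 4) (nat_lit 278) (nat_lit 230) (nat_lit 212))))) (XT.nd (nat_lit 234) (nat_lit 380) (nat_lit 0) (XT.nd (nat_lit 78) (nat_lit 380) (nat_lit 0) (XT.lf (nat_lit 0) (nat_lit 2508319989) (nat_lit 228) (nat_lit 2531755471) (nat_lit 76) (nat_lit 8111975089) (nat_lit 35) (nat_lit 5) (nat_lit 38) (nat_lit 5) (nat_lit 36) (nat_lit 5) (nat_lit 279) (nat_lit 230) (nat_lit 211)) (XT.nd (nat_lit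 78) (nat_lit 152) (nat_lit 0) (XT.lf (nat_lit 0) (nat_lit 6739269846) (nat_lit 228) (nat_lit 357145978) (nat_lit 304) (nat_lit 6519756591) (nat_lit 32) (nat_lit 5) (nat_lit 35) (nat_lit 5) (nat_lit 36) (nat_lit 5) (nat_lit 280) (nat_lit 230) (nat_lit 210)) (XT.lf (nat_lit 0) (nat_lit 2224500032) (nat_lit 152) (nat_lit 9652060014) (nat_lit 228) (nat_lit 2228266162) (nat_lit 30) (nat_lit 5) (nat_lit 32) (nat_lit 5) (nat_lit 33) (nat_lit 4) (nat_lit 281) (nat_lit 230) (nat_lit 209)))) (XT.nd (nat_lit 78) (nat_lit 304) (nat_lit 0) (XT.lf (nat_lit 0) (nat_lit 2182411038) (nat_lit 228) (nat_lit 2913159693) (nat_lit 76) (nat_lit 9523402960) (nat_lit 29) (nat_lit 5) (nat_lit 32) (nat_lit 5) (nat_lit 30) (nat_lit 5) (nat_lit 282) (nat_lit 230) (nat_lit 208)) (XT.nd (nat_lit 78) (nat_lit 152) (nat_lit 0) (XT.lf (nat_lit 0) (nat_lit 6418601585) (nat_lit 152) (nat_lit 291029224) (nat_lit 228) (nat_lit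 8450453748) (nat_lit 27) (nat_lit 5) (nat_lit 29) (nat_lit 5) (nat_lit 30) (nat_lit 5) (nat_lit 283) (nat_lit 230) (nat_lit 207)) (XT.lf (nat_lit 0) (nat_lit 326653069) (nat_lit 152) (nat_lit 11098992874) (nat_lit 228) (nat_lit 4303904035) (nat_lit 25) (nat_lit 5) (nat_lit 27) (nat_lit 5) (nat_lit 28) (nat_lit 4) (nat_lit 284) (nat_lit 230) (nat_lit 206))))))) (XT.nd (nat_lit 858) (nat_lit 380) (nat_lit 0) (XT.nd (nat_lit 390) (nat_lit 532) (nat_lit 0) (XT.nd (nat_lit 156) (nat_lit 152) (nat_lit 0) (XT.nd (nat_lit 78) (nat_lit 152) (nat_lit 0) (XT.lf (nat_lit 0) (nat_lit 28684050) (nat_lit 228) (nat_lit 6479585346) (nat_lit 76) (nat_lit 9819973363) (nat_lit 24) (nat_lit 5) (nat_lit 27) (nat_lit 5) (nat_lit 25) (nat_lit 5) (nat_lit 285) (nat_lit 230) (nat_lit 205)) (XT.lf (nat_lit 0) (nat_lit 2726945212) (nat_lit 152) (nat_lit 1680291979) (nat_lit 228) (nat_lit 12550955697) (nat_lit 22) (nat_lit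 5) (nat_lit 24) (nat_lit 5) (nat_lit 25) (nat_lit 5) (nat_lit 286) (nat_lit 230) (nat_lit 204))) (XT.nd (nat_lit 78) (nat_lit 152) (nat_lit 0) (XT.lf (nat_lit 0) (nat_lit 8998925539) (nat_lit 228) (nat_lit 5292135164) (nat_lit 76) (nat_lit 3328897882) (nat_lit 22) (nat_lit 5) (nat_lit 25) (nat_lit 5) (nat_lit 23) (nat_lit 4) (nat_lit 287) (nat_lit 230) (nat_lit 203)) (XT.nd (nat_lit 78) (nat_lit 0) (nat_lit 0) (XT.lf (nat_lit 0) (nat_lit 3992535554) (nat_lit 152) (nat_lit 9782303487) (nat_lit 228) (nat_lit 4541471724) (nat_lit 20) (nat_lit 5) (nat_lit 22) (nat_lit 5) (nat_lit 23) (nat_lit 4) (nat_lit 288) (nat_lit 230) (nat_lit 202)) (XT.lf (nat_lit 0) (nat_lit 13694336929) (nat_lit 152) (nat_lit 5052270884) (nat_lit 228) (nat_lit 302291830) (nat_lit 20) (nat_lit 5) (nat_lit 22) (nat_lit 5) (nat_lit 23) (nat_lit 4) (nat_lit 289) (nat_lit 230) (nat_lit 201))))) (XT.nd (nat_lit 234) (nat_lit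 228) (nat_lit 0) (XT.nd (nat_lit 78) (nat_lit 76) (nat_lit 0) (XT.lf (nat_lit 0) (nat_lit 3948098808) (nat_lit 152) (nat_lit 63920718) (nat_lit 228) (nat_lit 15806699071) (nat_lit 17) (nat_lit 5) (nat_lit 19) (nat_lit 5) (nat_lit 20) (nat_lit 5) (nat_lit 290) (nat_lit 230) (nat_lit 200)) (XT.nd (nat_lit 78) (nat_lit 76) (nat_lit 0) (XT.lf (nat_lit 0) (nat_lit 8549931528) (nat_lit 228) (nat_lit 7001018070) (nat_lit 76) (nat_lit 5075680253) (nat_lit 17) (nat_lit 5) (nat_lit 20) (nat_lit 5) (nat_lit 18) (nat_lit 4) (nat_lit 291) (nat_lit 230) (nat_lit 199)) (XT.lf (nat_lit 0) (nat_lit 2211622748) (nat_lit 76) (nat_lit 11038048059) (nat_lit 152) (nat_lit 8227327674) (nat_lit 16) (nat_lit 5) (nat_lit 17) (nat_lit 5) (nat_lit 18) (nat_lit 4) (nat_lit 292) (nat_lit 230) (nat_lit 198)))) (XT.nd (nat_lit 78) (nat_lit 228) (nat_lit 0) (XT.lf (nat_lit 0) (nat_lit 11892341457) (nat_lit 76) (nat_lit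 6279958748) (nat_lit 152) (nat_lit 4198052779) (nat_lit 16) (nat_lit 5) (nat_lit 17) (nat_lit 5) (nat_lit 18) (nat_lit 4) (nat_lit 293) (nat_lit 230) (nat_lit 197)) (XT.nd (nat_lit 78) (nat_lit 228) (nat_lit 0) (XT.lf (nat_lit 0) (nat_lit 21924853398) (nat_lit 76) (nat_lit 1336049437) (nat_lit 152) (nat_lit 49976681) (nat_lit 16) (nat_lit 5) (nat_lit 17) (nat_lit 5) (nat_lit 18) (nat_lit 4) (nat_lit 294) (nat_lit 230) (nat_lit 196)) (XT.lf (nat_lit 0) (nat_lit 4260404682) (nat_lit 228) (nat_lit 16184360209) (nat_lit 76) (nat_lit 3851350405) (nat_lit 13) (nat_lit 5) (nat_lit 16) (nat_lit 5) (nat_lit 14) (nat_lit 4) (nat_lit 295) (nat_lit 230) (nat_lit 195)))))) (XT.nd (nat_lit 390) (nat_lit 152) (nat_lit 0) (XT.nd (nat_lit 156) (nat_lit 152) (nat_lit 0) (XT.nd (nat_lit 78) (nat_lit 76) (nat_lit 0) (XT.lf (nat_lit 0) (nat_lit 8737996883) (nat_lit 228) (nat_lit 7356698997) (nat_lit 76) (nat_lit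 9237408051) (nat_lit 13) (nat_lit 5) (nat_lit 16) (nat_lit 5) (nat_lit 14) (nat_lit 4) (nat_lit 296) (nat_lit 230) (nat_lit 194)) (XT.lf (nat_lit 0) (nat_lit 1828237312) (nat_lit 76) (nat_lit 11557206946) (nat_lit 152) (nat_lit 13036151970) (nat_lit 12) (nat_lit 5) (nat_lit 13) (nat_lit 5) (nat_lit 14) (nat_lit 4) (nat_lit 297) (nat_lit 230) (nat_lit 193))) (XT.nd (nat_lit 78) (nat_lit 152) (nat_lit 0) (XT.lf (nat_lit 0) (nat_lit 11509803922) (nat_lit 76) (nat_lit 6761883265) (nat_lit 152) (nat_lit 9293762778) (nat_lit 12) (nat_lit 5) (nat_lit 13) (nat_lit 5) (nat_lit 14) (nat_lit 4) (nat_lit 298) (nat_lit 230) (nat_lit 192)) (XT.nd (nat_lit 78) (nat_lit 152) (nat_lit 0) (XT.lf (nat_lit 0) (nat_lit 21564639446) (nat_lit 76) (nat_lit 1771595635) (nat_lit 152) (nat_lit 5432317258) (nat_lit 12) (nat_lit 5) (nat_lit 13) (nat_lit 5) (nat_lit 14) (nat_lit 4) (nat_lit 299) (nat_lit 230) (nat_lit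 191)) (XT.lf (nat_lit 0) (nat_lit 1988796305) (nat_lit 152) (nat_lit 26654395971) (nat_lit 152) (nat_lit 1389014226) (nat_lit 10) (nat_lit 4) (nat_lit 12) (nat_lit 5) (nat_lit 12) (nat_lit 4) (nat_lit 300) (nat_lit 230) (nat_lit 190))))) (XT.nd (nat_lit 234) (nat_lit 76) (nat_lit 0) (XT.nd (nat_lit 78) (nat_lit 0) (nat_lit 0) (XT.lf (nat_lit 0) (nat_lit 2831552758) (nat_lit 228) (nat_lit 19716520981) (nat_lit 76) (nat_lit 8809287432) (nat_lit 9) (nat_lit 5) (nat_lit 12) (nat_lit 5) (nat_lit 10) (nat_lit 4) (nat_lit 301) (nat_lit 230) (nat_lit 189)) (XT.nd (nat_lit 78) (nat_lit 0) (nat_lit 0) (XT.lf (nat_lit 0) (nat_lit 7175702661) (nat_lit 228) (nat_lit 11087602710) (nat_lit 76) (nat_lit 14486880693) (nat_lit 9) (nat_lit 5) (nat_lit 12) (nat_lit 5) (nat_lit 10) (nat_lit 4) (nat_lit 302) (nat_lit 230) (nat_lit 188)) (XT.lf (nat_lit 0) (nat_lit 11680883369) (nat_lit 228) (nat_lit 2122758288)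 (nat_lit 76) (nat_lit 20410756341) (nat_lit 9) (nat_lit 5) (nat_lit 12) (nat_lit 5) (nat_lit 10) (nat_lit 4) (nat_lit 303) (nat_lit 230) (nat_lit 187)))) (XT.nd (nat_lit 78) (nat_lit 0) (nat_lit 0) (XT.lf (nat_lit 0) (nat_lit 7342638478) (nat_lit 76) (nat_lit 9085764955) (nat_lit 152) (nat_lit 19322962295) (nat_lit 8) (nat_lit 5) (nat_lit 9) (nat_lit 5) (nat_lit 10) (nat_lit 4) (nat_lit 304) (nat_lit 230) (nat_lit 186)) (XT.nd (nat_lit 78) (nat_lit 0) (nat_lit 0) (XT.lf (nat_lit 0) (nat_lit 17237300957) (nat_lit 76) (nat_lit 4146047148) (nat_lit 152) (nat_lit 15982787150) (nat_lit 8) (nat_lit 5) (nat_lit 9) (nat_lit 5) (nat_lit 10) (nat_lit 4) (nat_lit 305) (nat_lit 230) (nat_lit 185)) (XT.lf (nat_lit 0) (nat_lit 26546372239) (nat_lit 152) (nat_lit 11530303514) (nat_lit 0) (nat_lit 986209792) (nat_lit 8) (nat_lit 5) (nat_lit 10) (nat_lit 4) (nat_lit 8) (nat_lit 4) (nat_lit 306) (nat_lit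 230) (nat_lit 184))))))))
noncomputable def xc32 : XT := (XT.nd (nat_lit 1638) (nat_lit 76) (nat_lit 0) (XT.nd (nat_lit 780) (nat_lit 152) (nat_lit 0) (XT.nd (nat_lit 390) (nat_lit 76) (nat_lit 0) (XT.nd (nat_lit 156) (nat_lit 76) (nat_lit 0) (XT.nd (nat_lit 78) (nat_lit 76) (nat_lit 0) (XT.lf (nat_lit 0) (nat_lit 31962088735) (nat_lit 152) (nat_lit 2624982192) (nat_lit 0) (nat_lit 6257615957) (nat_lit 8) (nat_lit 5) (nat_lit 10) (nat_lit 4) (nat_lit 8) (nat_lit 4) (nat_lit 307) (nat_lit 230) (nat_lit 183)) (XT.lf (nat_lit 0) (nat_lit 6780499115) (nat_lit 76) (nat_lit 30888217003) (nat_lit 76) (nat_lit 5046305815) (nat_lit 7) (nat_lit 4) (nat_lit 8) (nat_lit 5) (nat_lit 8) (nat_lit 4) (nat_lit 308) (nat_lit 230) (nat_lit 182))) (XT.nd (nat_lit 78) (nat_lit 76) (nat_lit 0) (XT.lf (nat_lit 0) (nat_lit 16635910029) (nat_lit 76) (nat_lit 27008156013) (nat_lit 76) (nat_lit 1035351100) (nat_lit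 7) (nat_lit 4) (nat_lit 8) (nat_lit 5) (nat_lit 8) (nat_lit 4) (nat_lit 309) (nat_lit 230) (nat_lit 181)) (XT.nd (nat_lit 78) (nat_lit 0) (nat_lit 0) (XT.lf (nat_lit 0) (nat_lit 3072166576) (nat_lit 152) (nat_lit 19860967453) (nat_lit 76) (nat_lit 23809284084) (nat_lit 6) (nat_lit 5) (nat_lit 8) (nat_lit 5) (nat_lit 7) (nat_lit 4) (nat_lit 310) (nat_lit 230) (nat_lit 180)) (XT.lf (nat_lit 0) (nat_lit 7323840229) (nat_lit 152) (nat_lit 11348794403) (nat_lit 76) (nat_lit 30236860938) (nat_lit 6) (nat_lit 5) (nat_lit 8) (nat_lit 5) (nat_lit 7) (nat_lit 4) (nat_lit 311) (nat_lit 230) (nat_lit 179))))) (XT.nd (nat_lit 156) (nat_lit 0) (nat_lit 0) (XT.nd (nat_lit 78) (nat_lit 76) (nat_lit 0) (XT.lf (nat_lit 0) (nat_lit 11749996321) (nat_lit 152) (nat_lit 2476768458) (nat_lit 76) (nat_lit 36959343019) (nat_lit 6) (nat_lit 5) (nat_lit 8) (nat_lit 5) (nat_lit 7) (nat_lit 4) (nat_lit 312) (nat_lit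 230) (nat_lit 178)) (XT.lf (nat_lit 0) (nat_lit 6911094602) (nat_lit 76) (nat_lit 9516512384) (nat_lit 152) (nat_lit 37148075301) (nat_lit 5) (nat_lit 5) (nat_lit 6) (nat_lit 5) (nat_lit 7) (nat_lit 4) (nat_lit 313) (nat_lit 230) (nat_lit 177))) (XT.nd (nat_lit 78) (nat_lit 0) (nat_lit 0) (XT.lf (nat_lit 0) (nat_lit 16759278582) (nat_lit 76) (nat_lit 4570172068) (nat_lit 152) (nat_lit 34755608616) (nat_lit 5) (nat_lit 5) (nat_lit 6) (nat_lit 5) (nat_lit 7) (nat_lit 4) (nat_lit 314) (nat_lit 230) (nat_lit 176)) (XT.nd (nat_lit 78) (nat_lit 0) (nat_lit 0) (XT.lf (nat_lit 0) (nat_lit 26448674498) (nat_lit 152) (nat_lit 31684761085) (nat_lit 0) (nat_lit 587333574) (nat_lit 5) (nat_lit 5) (nat_lit 7) (nat_lit 4) (nat_lit 5) (nat_lit 4) (nat_lit 315) (nat_lit 230) (nat_lit 175)) (XT.lf (nat_lit 0) (nat_lit 31837887085) (nat_lit 152) (nat_lit 23763755914) (nat_lit 0) (nat_lit 5886231863) (nat_lit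 5) (nat_lit 5) (nat_lit 7) (nat_lit 4) (nat_lit 5) (nat_lit 4) (nat_lit 316) (nat_lit 230) (nat_lit 174)))))) (XT.nd (nat_lit 390) (nat_lit 76) (nat_lit 0) (XT.nd (nat_lit 156) (nat_lit 76) (nat_lit 0) (XT.nd (nat_lit 78) (nat_lit 0) (nat_lit 0) (XT.lf (nat_lit 0) (nat_lit 37465988581) (nat_lit 152) (nat_lit 15499974343) (nat_lit 0) (nat_lit 11428319742) (nat_lit 5) (nat_lit 5) (nat_lit 7) (nat_lit 4) (nat_lit 5) (nat_lit 4) (nat_lit 317) (nat_lit 230) (nat_lit 173)) (XT.lf (nat_lit 0) (nat_lit 43346379227) (nat_lit 152) (nat_lit 6873740703) (nat_lit 0) (nat_lit 17226792658) (nat_lit 5) (nat_lit 5) (nat_lit 7) (nat_lit 4) (nat_lit 5) (nat_lit 4) (nat_lit 318) (nat_lit 230) (nat_lit 172))) (XT.nd (nat_lit 78) (nat_lit 0) (nat_lit 0) (XT.lf (nat_lit 0) (nat_lit 2177983968) (nat_lit 76) (nat_lit 47336012099) (nat_lit 76) (nat_lit 21138408645) (nat_lit 4) (nat_lit 4) (nat_lit 5) (nat_lit 5)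 (nat_lit 5) (nat_lit 4) (nat_lit 319) (nat_lit 230) (nat_lit 171)) (XT.nd (nat_lit 78) (nat_lit 0) (nat_lit 0) (XT.lf (nat_lit 0) (nat_lit 11778999987) (nat_lit 76) (nat_lit 44254892680) (nat_lit 76) (nat_lit 17982987430) (nat_lit 4) (nat_lit 4) (nat_lit 5) (nat_lit 5) (nat_lit 5) (nat_lit 4) (nat_lit 320) (nat_lit 230) (nat_lit 170)) (XT.lf (nat_lit 0) (nat_lit 21815365997) (nat_lit 76) (nat_lit 41038836979) (nat_lit 76) (nat_lit 14696168114) (nat_lit 4) (nat_lit 4) (nat_lit 5) (nat_lit 5) (nat_lit 5) (nat_lit 4) (nat_lit 321) (nat_lit 230) (nat_lit 169))))) (XT.nd (nat_lit 234) (nat_lit 76) (nat_lit 0) (XT.nd (nat_lit 78) (nat_lit 0) (nat_lit 0) (XT.lf (nat_lit 0) (nat_lit 32310978107) (nat_lit 76) (nat_lit 37680187720) (nat_lit 76) (nat_lit 11270124935) (nat_lit 4) (nat_lit 4) (nat_lit 5) (nat_lit 5) (nat_lit 5) (nat_lit 4) (nat_lit 322) (nat_lit 230) (nat_lit 168)) (XT.nd (nat_lit 78)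 (nat_lit 0) (nat_lit 0) (XT.lf (nat_lit 0) (nat_lit 43290825870) (nat_lit 76) (nat_lit 34170948118) (nat_lit 76) (nat_lit 7696700649) (nat_lit 4) (nat_lit 4) (nat_lit 5) (nat_lit 5) (nat_lit 5) (nat_lit 4) (nat_lit 323) (nat_lit 230) (nat_lit 167)) (XT.lf (nat_lit 0) (nat_lit 54781051781) (nat_lit 76) (nat_lit 30502762843) (nat_lit 76) (nat_lit 3967387102) (nat_lit 4) (nat_lit 4) (nat_lit 5) (nat_lit 5) (nat_lit 5) (nat_lit 4) (nat_lit 324) (nat_lit 230) (nat_lit 166)))) (XT.nd (nat_lit 78) (nat_lit 76) (nat_lit 0) (XT.lf (nat_lit 0) (nat_lit 66809013520) (nat_lit 76) (nat_lit 26666898119) (nat_lit 76) (nat_lit 73304976) (nat_lit 4) (nat_lit 4) (nat_lit 5) (nat_lit 5) (nat_lit 5) (nat_lit 4) (nat_lit 325) (nat_lit 230) (nat_lit 165)) (XT.nd (nat_lit 78) (nat_lit 0) (nat_lit 0) (XT.lf (nat_lit 0) (nat_lit 3916864076) (nat_lit 152) (nat_lit 18697804211) (nat_lit 76) (nat_lit 75446932368) (nat_lit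 3) (nat_lit 5) (nat_lit 5) (nat_lit 5) (nat_lit 4) (nat_lit 4) (nat_lit 326) (nat_lit 230) (nat_lit 164)) (XT.lf (nat_lit 0) (nat_lit 8085743733) (nat_lit 152) (nat_lit 10287783405) (nat_lit 76) (nat_lit 84426651118) (nat_lit 3) (nat_lit 5) (nat_lit 5) (nat_lit 5) (nat_lit 4) (nat_lit 4) (nat_lit 327) (nat_lit 230) (nat_lit 163))))))) (XT.nd (nat_lit 32526) (nat_lit 0) (nat_lit 3496) (XT.nd (nat_lit 32136) (nat_lit 0) (nat_lit 6688) (XT.nd (nat_lit 156) (nat_lit 0) (nat_lit 0) (XT.nd (nat_lit 78) (nat_lit 76) (nat_lit 0) (XT.lf (nat_lit 0) (nat_lit 12444690343) (nat_lit 152) (nat_lit 1489412167) (nat_lit 76) (nat_lit 93842150376) (nat_lit 3) (nat_lit 5) (nat_lit 5) (nat_lit 5) (nat_lit 4) (nat_lit 4) (nat_lit 328) (nat_lit 230) (nat_lit 162)) (XT.lf (nat_lit 0) (nat_lit 7871866472) (nat_lit 76) (nat_lit 9207885073) (nat_lit 152) (nat_lit 95919650722) (nat_lit 2) (nat_lit 5) (nat_lit 3) (nat_lit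 5) (nat_lit 4) (nat_lit 4) (nat_lit 329) (nat_lit 230) (nat_lit 161))) (XT.nd (nat_lit 78) (nat_lit 0) (nat_lit 0) (XT.lf (nat_lit 0) (nat_lit 17702591458) (nat_lit 76) (nat_lit 4242352128) (nat_lit 152) (nat_lit 96538829471) (nat_lit 2) (nat_lit 5) (nat_lit 3) (nat_lit 5) (nat_lit 4) (nat_lit 4) (nat_lit 330) (nat_lit 230) (nat_lit 160)) (XT.nd (nat_lit 31824) (nat_lit 0) (nat_lit 9196) (XT.lf (nat_lit 0) (nat_lit 27046469351) (nat_lit 152) (nat_lit 96255555465) (nat_lit 0) (nat_lit 940559890) (nat_lit 2) (nat_lit 5) (nat_lit 4) (nat_lit 4) (nat_lit 2) (nat_lit 4) (nat_lit 331) (nat_lit 230) (nat_lit 159)) (XT.lf (nat_lit 0) (nat_lit 30024300) (nat_lit 608) (nat_lit 3710948198) (nat_lit 0) (nat_lit 30024300) (nat_lit 123) (nat_lit 5) (nat_lit 131) (nat_lit 4) (nat_lit 123) (nat_lit 4) (nat_lit 258) (nat_lit 231) (nat_lit 231))))) (XT.nd (nat_lit 156) (nat_lit 1444) (nat_lit 0) (XT.nd (nat_lit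 78) (nat_lit 532) (nat_lit 0) (XT.lf (nat_lit 0) (nat_lit 192188765) (nat_lit 532) (nat_lit 4855572811) (nat_lit 532) (nat_lit 2628405465) (nat_lit 116) (nat_lit 4) (nat_lit 123) (nat_lit 5) (nat_lit 123) (nat_lit 4) (nat_lit 259) (nat_lit 231) (nat_lit 230)) (XT.lf (nat_lit 0) (nat_lit 245891320) (nat_lit 456) (nat_lit 2017246820) (nat_lit 532) (nat_lit 5558605046) (nat_lit 109) (nat_lit 5) (nat_lit 115) (nat_lit 5) (nat_lit 116) (nat_lit 4) (nat_lit 260) (nat_lit 231) (nat_lit 229))) (XT.nd (nat_lit 78) (nat_lit 988) (nat_lit 0) (XT.lf (nat_lit 0) (nat_lit 253277690) (nat_lit 456) (nat_lit 6954119869) (nat_lit 456) (nat_lit 771221285) (nat_lit 103) (nat_lit 4) (nat_lit 109) (nat_lit 5) (nat_lit 109) (nat_lit 4) (nat_lit 261) (nat_lit 231) (nat_lit 228)) (XT.nd (nat_lit 78) (nat_lit 532) (nat_lit 0) (XT.lf (nat_lit 0) (nat_lit 173501045) (nat_lit 380) (nat_lit 3877865596) (nat_lit 456)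 (nat_lit 4095003562) (nat_lit 97) (nat_lit 5) (nat_lit 102) (nat_lit 5) (nat_lit 103) (nat_lit 4) (nat_lit 262) (nat_lit 231) (nat_lit 227)) (XT.lf (nat_lit 0) (nat_lit 36870244) (nat_lit 456) (nat_lit 589101202) (nat_lit 532) (nat_lit 7700734541) (nat_lit 90) (nat_lit 5) (nat_lit 96) (nat_lit 5) (nat_lit 97) (nat_lit 5) (nat_lit 263) (nat_lit 231) (nat_lit 226)))))) (XT.nd (nat_lit 390) (nat_lit 1596) (nat_lit 0) (XT.nd (nat_lit 156) (nat_lit 1140) (nat_lit 0) (XT.nd (nat_lit 78) (nat_lit 456) (nat_lit 0) (XT.lf (nat_lit 0) (nat_lit 5400568894) (nat_lit 532) (nat_lit 225115871) (nat_lit 76) (nat_lit 2892640246) (nat_lit 90) (nat_lit 5) (nat_lit 97) (nat_lit 5) (nat_lit 91) (nat_lit 4) (nat_lit 264) (nat_lit 231) (nat_lit 225)) (XT.lf (nat_lit 0) (nat_lit 1544981131) (nat_lit 456) (nat_lit 586036686) (nat_lit 76) (nat_lit 6592017580) (nat_lit 84) (nat_lit 5) (nat_lit 90) (nat_lit 5) (nat_lit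 85) (nat_lit 5) (nat_lit 265) (nat_lit 231) (nat_lit 224))) (XT.nd (nat_lit 78) (nat_lit 760) (nat_lit 0) (XT.lf (nat_lit 0) (nat_lit 6276167760) (nat_lit 456) (nat_lit 1091186686) (nat_lit 76) (nat_lit 1573191992) (nat_lit 79) (nat_lit 5) (nat_lit 85) (nat_lit 5) (nat_lit 80) (nat_lit 4) (nat_lit 266) (nat_lit 231) (nat_lit 223)) (XT.nd (nat_lit 78) (nat_lit 380) (nat_lit 0) (XT.lf (nat_lit 0) (nat_lit 1944596100) (nat_lit 380) (nat_lit 1757080962) (nat_lit 76) (nat_lit 5469802848) (nat_lit 74) (nat_lit 5) (nat_lit 79) (nat_lit 5) (nat_lit 75) (nat_lit 5) (nat_lit 267) (nat_lit 231) (nat_lit 222)) (XT.lf (nat_lit 0) (nat_lit 6625146754) (nat_lit 456) (nat_lit 2594785354) (nat_lit 76) (nat_lit 196776707) (nat_lit 69) (nat_lit 5) (nat_lit 75) (nat_lit 5) (nat_lit 70) (nat_lit 4) (nat_lit 268) (nat_lit 231) (nat_lit 221))))) (XT.nd (nat_lit 234) (nat_lit 608) (nat_lit 0) (XT.nd (nat_lit 78)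 (nat_lit 608) (nat_lit 0) (XT.lf (nat_lit 0) (nat_lit 1764615091) (nat_lit 380) (nat_lit 3655684255) (nat_lit 76) (nat_lit 4255691961) (nat_lit 64) (nat_lit 5) (nat_lit 69) (nat_lit 5) (nat_lit 65) (nat_lit 5) (nat_lit 269) (nat_lit 231) (nat_lit 220)) (XT.nd (nat_lit 78) (nat_lit 304) (nat_lit 0) (XT.lf (nat_lit 0) (nat_lit 5010087834) (nat_lit 304) (nat_lit 1383469326) (nat_lit 380) (nat_lit 3557146980) (nat_lit 60) (nat_lit 5) (nat_lit 64) (nat_lit 5) (nat_lit 65) (nat_lit 5) (nat_lit 270) (nat_lit 231) (nat_lit 219)) (XT.lf (nat_lit 0) (nat_lit 928132794) (nat_lit 304) (nat_lit 6487784998) (nat_lit 76) (nat_lit 2825295685) (nat_lit 56) (nat_lit 5) (nat_lit 60) (nat_lit 5) (nat_lit 57) (nat_lit 5) (nat_lit 271) (nat_lit 231) (nat_lit 218)))) (XT.nd (nat_lit 78) (nat_lit 304) (nat_lit 0) (XT.lf (nat_lit 0) (nat_lit 2206066197) (nat_lit 304) (nat_lit 3281672744) (nat_lit 380) (nat_lit 5060075058)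 (nat_lit 52) (nat_lit 5) (nat_lit 56) (nat_lit 5) (nat_lit 57) (nat_lit 5) (nat_lit 272) (nat_lit 231) (nat_lit 217)) (XT.nd (nat_lit 78) (nat_lit 76) (nat_lit 0) (XT.lf (nat_lit 0) (nat_lit 373650226) (nat_lit 228) (nat_lit 9824372931) (nat_lit 304) (nat_lit 674355875) (nat_lit 49) (nat_lit 5) (nat_lit 52) (nat_lit 5) (nat_lit 53) (nat_lit 4) (nat_lit 273) (nat_lit 231) (nat_lit 216)) (XT.lf (nat_lit 0) (nat_lit 3818903737) (nat_lit 304) (nat_lit 1805376387) (nat_lit 76) (nat_lit 5589101659) (nat_lit 48) (nat_lit 5) (nat_lit 52) (nat_lit 5) (nat_lit 49) (nat_lit 5) (nat_lit 274) (nat_lit 231) (nat_lit 215))))))))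
noncomputable def xc33 : XT := (XT.nd (nat_lit 1638) (nat_lit 608) (nat_lit 0) (XT.nd (nat_lit 780) (nat_lit 1064) (nat_lit 0) (XT.nd (nat_lit 390) (nat_lit 608) (nat_lit 0) (XT.nd (nat_lit 156) (nat_lit 456) (nat_lit 0) (XT.nd (nat_lit 78) (nat_lit 304) (nat_lit 0) (XT.lf (nat_lit 0) (nat_lit 7245645264) (nat_lit 228) (nat_lit 1199500942) (nat_lit 304) (nat_lit 3128697923) (nat_lit 45) (nat_lit 5) (nat_lit 48) (nat_lit 5) (nat_lit 49) (nat_lit 5) (nat_lit 275) (nat_lit 231) (nat_lit 214)) (XT.lf (nat_lit 0) (nat_lit 1277156899) (nat_lit 304) (nat_lit 7282690772) (nat_lit 76) (nat_lit 3393755241) (nat_lit 41) (nat_lit 5) (nat_lit 45) (nat_lit 5) (nat_lit 42) (nat_lit 5) (nat_lit 276) (nat_lit 231) (nat_lit 213))) (XT.nd (nat_lit 78) (nat_lit 228) (nat_lit 0) (XT.lf (nat_lit 0) (nat_lit 1640832498) (nat_lit 228) (nat_lit 4131414759) (nat_lit 304) (nat_lit 6581408188) (nat_lit 38) (nat_lit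 5) (nat_lit 41) (nat_lit 5) (nat_lit 42) (nat_lit 5) (nat_lit 277) (nat_lit 231) (nat_lit 212)) (XT.nd (nat_lit 78) (nat_lit 228) (nat_lit 0) (XT.lf (nat_lit 0) (nat_lit 10437060178) (nat_lit 304) (nat_lit 1818678511) (nat_lit 76) (nat_lit 519855826) (nat_lit 38) (nat_lit 5) (nat_lit 42) (nat_lit 5) (nat_lit 39) (nat_lit 4) (nat_lit 278) (nat_lit 231) (nat_lit 211)) (XT.lf (nat_lit 0) (nat_lit 2058653076) (nat_lit 228) (nat_lit 5810566034) (nat_lit 76) (nat_lit 5349512373) (nat_lit 35) (nat_lit 5) (nat_lit 38) (nat_lit 5) (nat_lit 36) (nat_lit 5) (nat_lit 279) (nat_lit 231) (nat_lit 210))))) (XT.nd (nat_lit 156) (nat_lit 380) (nat_lit 0) (XT.nd (nat_lit 78) (nat_lit 0) (nat_lit 0) (XT.lf (nat_lit 0) (nat_lit 3299865663) (nat_lit 228) (nat_lit 3252178641) (nat_lit 304) (nat_lit 7133750252) (nat_lit 32) (nat_lit 5) (nat_lit 35) (nat_lit 5) (nat_lit 36) (nat_lit 5) (nat_lit 280) (nat_lit 231)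 (nat_lit 209)) (XT.lf (nat_lit 0) (nat_lit 11223095968) (nat_lit 304) (nat_lit 1392487011) (nat_lit 76) (nat_lit 1562233448) (nat_lit 32) (nat_lit 5) (nat_lit 36) (nat_lit 5) (nat_lit 33) (nat_lit 4) (nat_lit 281) (nat_lit 231) (nat_lit 208))) (XT.nd (nat_lit 78) (nat_lit 152) (nat_lit 0) (XT.lf (nat_lit 0) (nat_lit 1397791704) (nat_lit 228) (nat_lit 6715128338) (nat_lit 76) (nat_lit 6581511707) (nat_lit 29) (nat_lit 5) (nat_lit 32) (nat_lit 5) (nat_lit 30) (nat_lit 5) (nat_lit 282) (nat_lit 231) (nat_lit 207)) (XT.nd (nat_lit 78) (nat_lit 0) (nat_lit 0) (XT.lf (nat_lit 0) (nat_lit 2452587535) (nat_lit 152) (nat_lit 3378534685) (nat_lit 228) (nat_lit 9407320996) (nat_lit 27) (nat_lit 5) (nat_lit 29) (nat_lit 5) (nat_lit 30) (nat_lit 5) (nat_lit 283) (nat_lit 231) (nat_lit 206)) (XT.lf (nat_lit 0) (nat_lit 10460108485) (nat_lit 228) (nat_lit 3779991794) (nat_lit 76) (nat_lit 1570499153) (nat_lit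 27) (nat_lit 5) (nat_lit 30) (nat_lit 5) (nat_lit 28) (nat_lit 4) (nat_lit 284) (nat_lit 231) (nat_lit 205)))))) (XT.nd (nat_lit 390) (nat_lit 532) (nat_lit 0) (XT.nd (nat_lit 156) (nat_lit 304) (nat_lit 0) (XT.nd (nat_lit 78) (nat_lit 76) (nat_lit 0) (XT.lf (nat_lit 0) (nat_lit 5583949031) (nat_lit 152) (nat_lit 9718533378) (nat_lit 228) (nat_lit 1109578950) (nat_lit 25) (nat_lit 5) (nat_lit 27) (nat_lit 5) (nat_lit 28) (nat_lit 4) (nat_lit 285) (nat_lit 231) (nat_lit 204)) (XT.lf (nat_lit 0) (nat_lit 3213916601) (nat_lit 228) (nat_lit 1744369345) (nat_lit 76) (nat_lit 12086417189) (nat_lit 24) (nat_lit 5) (nat_lit 27) (nat_lit 5) (nat_lit 25) (nat_lit 5) (nat_lit 286) (nat_lit 231) (nat_lit 203))) (XT.nd (nat_lit 78) (nat_lit 152) (nat_lit 0) (XT.lf (nat_lit 0) (nat_lit 7707703125) (nat_lit 228) (nat_lit 9932703433) (nat_lit 76) (nat_lit 69066363) (nat_lit 22) (nat_lit 5) (nat_lit 25)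 (nat_lit 5) (nat_lit 23) (nat_lit 4) (nat_lit 287) (nat_lit 231) (nat_lit 202)) (XT.nd (nat_lit 78) (nat_lit 152) (nat_lit 0) (XT.lf (nat_lit 0) (nat_lit 12398456262) (nat_lit 228) (nat_lit 801363796) (nat_lit 76) (nat_lit 5208623696) (nat_lit 22) (nat_lit 5) (nat_lit 25) (nat_lit 5) (nat_lit 23) (nat_lit 4) (nat_lit 288) (nat_lit 231) (nat_lit 201)) (XT.lf (nat_lit 0) (nat_lit 8811228499) (nat_lit 152) (nat_lit 8505881829) (nat_lit 228) (nat_lit 1825576547) (nat_lit 20) (nat_lit 5) (nat_lit 22) (nat_lit 5) (nat_lit 23) (nat_lit 4) (nat_lit 289) (nat_lit 231) (nat_lit 200))))) (XT.nd (nat_lit 234) (nat_lit 304) (nat_lit 0) (XT.nd (nat_lit 78) (nat_lit 152) (nat_lit 0) (XT.lf (nat_lit 0) (nat_lit 2436921456) (nat_lit 228) (nat_lit 1161891194) (nat_lit 76) (nat_lit 16316634826) (nat_lit 19) (nat_lit 5) (nat_lit 22) (nat_lit 5) (nat_lit 20) (nat_lit 5) (nat_lit 290) (nat_lit 231) (nat_lit 199))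 (XT.nd (nat_lit 78) (nat_lit 0) (nat_lit 0) (XT.lf (nat_lit 0) (nat_lit 6886924206) (nat_lit 228) (nat_lit 12266843218) (nat_lit 76) (nat_lit 1572282126) (nat_lit 17) (nat_lit 5) (nat_lit 20) (nat_lit 5) (nat_lit 18) (nat_lit 4) (nat_lit 291) (nat_lit 231) (nat_lit 198)) (XT.lf (nat_lit 0) (nat_lit 11524998457) (nat_lit 228) (nat_lit 3163771456) (nat_lit 76) (nat_lit 6889549210) (nat_lit 17) (nat_lit 5) (nat_lit 20) (nat_lit 5) (nat_lit 18) (nat_lit 4) (nat_lit 292) (nat_lit 231) (nat_lit 197)))) (XT.nd (nat_lit 78) (nat_lit 228) (nat_lit 0) (XT.lf (nat_lit 0) (nat_lit 6389473360) (nat_lit 76) (nat_lit 9988035548) (nat_lit 152) (nat_lit 6096316850) (nat_lit 16) (nat_lit 5) (nat_lit 17) (nat_lit 5) (nat_lit 18) (nat_lit 4) (nat_lit 293) (nat_lit 231) (nat_lit 196)) (XT.nd (nat_lit 78) (nat_lit 228) (nat_lit 0) (XT.lf (nat_lit 0) (nat_lit 16360548506) (nat_lit 76) (nat_lit 5068323434) (nat_lit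 152) (nat_lit 1986643791) (nat_lit 16) (nat_lit 5) (nat_lit 17) (nat_lit 5) (nat_lit 18) (nat_lit 4) (nat_lit 294) (nat_lit 231) (nat_lit 195)) (XT.lf (nat_lit 0) (nat_lit 2232851454) (nat_lit 228) (nat_lit 22078736807) (nat_lit 76) (nat_lit 93624834) (nat_lit 13) (nat_lit 5) (nat_lit 16) (nat_lit 5) (nat_lit 14) (nat_lit 4) (nat_lit 295) (nat_lit 231) (nat_lit 194))))))) (XT.nd (nat_lit 858) (nat_lit 228) (nat_lit 0) (XT.nd (nat_lit 390) (nat_lit 304) (nat_lit 0) (XT.nd (nat_lit 156) (nat_lit 76) (nat_lit 0) (XT.nd (nat_lit 78) (nat_lit 0) (nat_lit 0) (XT.lf (nat_lit 0) (nat_lit 6675517522) (nat_lit 228) (nat_lit 13309506550) (nat_lit 76) (nat_lit 5457266172) (nat_lit 13) (nat_lit 5) (nat_lit 16) (nat_lit 5) (nat_lit 14) (nat_lit 4) (nat_lit 296) (nat_lit 231) (nat_lit 193)) (XT.lf (nat_lit 0) (nat_lit 11272127780) (nat_lit 228) (nat_lit 4215894263) (nat_lit 76) (nat_lit 11045324403) (nat_lit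 13) (nat_lit 5) (nat_lit 16) (nat_lit 5) (nat_lit 14) (nat_lit 4) (nat_lit 297) (nat_lit 231) (nat_lit 192))) (XT.nd (nat_lit 78) (nat_lit 0) (nat_lit 0) (XT.lf (nat_lit 0) (nat_lit 5327714410) (nat_lit 76) (nat_lit 10757125376) (nat_lit 152) (nat_lit 11594603267) (nat_lit 12) (nat_lit 5) (nat_lit 13) (nat_lit 5) (nat_lit 14) (nat_lit 4) (nat_lit 298) (nat_lit 231) (nat_lit 191)) (XT.nd (nat_lit 78) (nat_lit 0) (nat_lit 0) (XT.lf (nat_lit 0) (nat_lit 15331070530) (nat_lit 76) (nat_lit 5787651793) (nat_lit 152) (nat_lit 7764778249) (nat_lit 12) (nat_lit 5) (nat_lit 13) (nat_lit 5) (nat_lit 14) (nat_lit 4) (nat_lit 299) (nat_lit 231) (nat_lit 190)) (XT.lf (nat_lit 0) (nat_lit 25734087049) (nat_lit 76) (nat_lit 610341478) (nat_lit 152) (nat_lit 3805197247) (nat_lit 12) (nat_lit 5) (nat_lit 13) (nat_lit 5) (nat_lit 14) (nat_lit 4) (nat_lit 300) (nat_lit 231) (nat_lit 189))))) (XT.nd (nat_lit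 234) (nat_lit 76) (nat_lit 0) (XT.nd (nat_lit 78) (nat_lit 0) (nat_lit 0) (XT.lf (nat_lit 0) (nat_lit 384159562) (nat_lit 228) (nat_lit 26346855192) (nat_lit 76) (nat_lit 4746844205) (nat_lit 9) (nat_lit 5) (nat_lit 12) (nat_lit 5) (nat_lit 10) (nat_lit 4) (nat_lit 301) (nat_lit 231) (nat_lit 188)) (XT.nd (nat_lit 78) (nat_lit 0) (nat_lit 0) (XT.lf (nat_lit 0) (nat_lit 4700906201) (nat_lit 228) (nat_lit 17764531927) (nat_lit 76) (nat_lit 10406097332) (nat_lit 9) (nat_lit 5) (nat_lit 12) (nat_lit 5) (nat_lit 10) (nat_lit 4) (nat_lit 302) (nat_lit 231) (nat_lit 187)) (XT.lf (nat_lit 0) (nat_lit 9179988561) (nat_lit 228) (nat_lit 8844063700) (nat_lit 76) (nat_lit 16312506184) (nat_lit 9) (nat_lit 5) (nat_lit 12) (nat_lit 5) (nat_lit 10) (nat_lit 4) (nat_lit 303) (nat_lit 231) (nat_lit 186)))) (XT.nd (nat_lit 78) (nat_lit 0) (nat_lit 0) (XT.lf (nat_lit 0) (nat_lit 444461747) (nat_lit 76) (nat_lit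 13391881815) (nat_lit 152) (nat_lit 22039944330) (nat_lit 8) (nat_lit 5) (nat_lit 9) (nat_lit 5) (nat_lit 10) (nat_lit 4) (nat_lit 304) (nat_lit 231) (nat_lit 185)) (XT.nd (nat_lit 78) (nat_lit 0) (nat_lit 0) (XT.lf (nat_lit 0) (nat_lit 10298072644) (nat_lit 76) (nat_lit 8469149007) (nat_lit 152) (nat_lit 18724583256) (nat_lit 8) (nat_lit 5) (nat_lit 9) (nat_lit 5) (nat_lit 10) (nat_lit 4) (nat_lit 305) (nat_lit 231) (nat_lit 184)) (XT.lf (nat_lit 0) (nat_lit 20564215760) (nat_lit 76) (nat_lit 3333440747) (nat_lit 152) (nat_lit 15291900647) (nat_lit 8) (nat_lit 5) (nat_lit 9) (nat_lit 5) (nat_lit 10) (nat_lit 4) (nat_lit 306) (nat_lit 231) (nat_lit 183)))))) (XT.nd (nat_lit 390) (nat_lit 76) (nat_lit 0) (XT.nd (nat_lit 156) (nat_lit 152) (nat_lit 0) (XT.nd (nat_lit 78) (nat_lit 0) (nat_lit 0) (XT.lf (nat_lit 0) (nat_lit 29259352740) (nat_lit 152) (nat_lit 9725741898) (nat_lit 0) (nat_lit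 1987907581) (nat_lit 8) (nat_lit 5) (nat_lit 10) (nat_lit 4) (nat_lit 8) (nat_lit 4) (nat_lit 307) (nat_lit 231) (nat_lit 182)) (XT.lf (nat_lit 0) (nat_lit 34879871161) (nat_lit 152) (nat_lit 488539119) (nat_lit 0) (nat_lit 7477532278) (nat_lit 8) (nat_lit 5) (nat_lit 10) (nat_lit 4) (nat_lit 8) (nat_lit 4) (nat_lit 308) (nat_lit 231) (nat_lit 181))) (XT.nd (nat_lit 78) (nat_lit 76) (nat_lit 0) (XT.lf (nat_lit 0) (nat_lit 9322213313) (nat_lit 76) (nat_lit 31507948389) (nat_lit 76) (nat_lit 3980948816) (nat_lit 7) (nat_lit 4) (nat_lit 8) (nat_lit 5) (nat_lit 8) (nat_lit 4) (nat_lit 309) (nat_lit 231) (nat_lit 180)) (XT.nd (nat_lit 78) (nat_lit 0) (nat_lit 0) (XT.lf (nat_lit 0) (nat_lit 164532809) (nat_lit 152) (nat_lit 27311722436) (nat_lit 76) (nat_lit 19399310540) (nat_lit 6) (nat_lit 5) (nat_lit 8) (nat_lit 5) (nat_lit 7) (nat_lit 4) (nat_lit 310) (nat_lit 231) (nat_lit 179)) (XT.lf (nat_lit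 0) (nat_lit 4397620489) (nat_lit 152) (nat_lit 18831625366) (nat_lit 76) (nat_lit 25813973435) (nat_lit 6) (nat_lit 5) (nat_lit 8) (nat_lit 5) (nat_lit 7) (nat_lit 4) (nat_lit 311) (nat_lit 231) (nat_lit 178))))) (XT.nd (nat_lit 234) (nat_lit 0) (nat_lit 0) (XT.nd (nat_lit 78) (nat_lit 76) (nat_lit 0) (XT.lf (nat_lit 0) (nat_lit 8806075655) (nat_lit 152) (nat_lit 9990147971) (nat_lit 76) (nat_lit 32524156506) (nat_lit 6) (nat_lit 5) (nat_lit 8) (nat_lit 5) (nat_lit 7) (nat_lit 4) (nat_lit 312) (nat_lit 231) (nat_lit 177)) (XT.nd (nat_lit 78) (nat_lit 76) (nat_lit 0) (XT.lf (nat_lit 0) (nat_lit 13400394626) (nat_lit 152) (nat_lit 766239117) (nat_lit 76) (nat_lit 39545836380) (nat_lit 6) (nat_lit 5) (nat_lit 8) (nat_lit 5) (nat_lit 7) (nat_lit 4) (nat_lit 313) (nat_lit 231) (nat_lit 176)) (XT.lf (nat_lit 0) (nat_lit 9038435313) (nat_lit 76) (nat_lit 9239963916) (nat_lit 152) (nat_lit 37944178998)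 (nat_lit 5) (nat_lit 5) (nat_lit 6) (nat_lit 5) (nat_lit 7) (nat_lit 4) (nat_lit 314) (nat_lit 231) (nat_lit 175)))) (XT.nd (nat_lit 78) (nat_lit 0) (nat_lit 0) (XT.lf (nat_lit 0) (nat_lit 19294181540) (nat_lit 76) (nat_lit 4082133922) (nat_lit 152) (nat_lit 35482627077) (nat_lit 5) (nat_lit 5) (nat_lit 6) (nat_lit 5) (nat_lit 7) (nat_lit 4) (nat_lit 315) (nat_lit 231) (nat_lit 174)) (XT.nd (nat_lit 78) (nat_lit 0) (nat_lit 0) (XT.lf (nat_lit 0) (nat_lit 28711375046) (nat_lit 152) (nat_lit 31630503108) (nat_lit 0) (nat_lit 1285809149) (nat_lit 5) (nat_lit 5) (nat_lit 7) (nat_lit 4) (nat_lit 5) (nat_lit 4) (nat_lit 316) (nat_lit 231) (nat_lit 173)) (XT.lf (nat_lit 0) (nat_lit 34325273652) (nat_lit 152) (nat_lit 23391471298) (nat_lit 0) (nat_lit 6817790025) (nat_lit 5) (nat_lit 5) (nat_lit 7) (nat_lit 4) (nat_lit 5) (nat_lit 4) (nat_lit 317) (nat_lit 231) (nat_lit 172))))))))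
noncomputable def xc34 : XT := (XT.nd (nat_lit 33228) (nat_lit 0) (nat_lit 2052) (XT.nd (nat_lit 780) (nat_lit 76) (nat_lit 0) (XT.nd (nat_lit 390) (nat_lit 76) (nat_lit 0) (XT.nd (nat_lit 156) (nat_lit 76) (nat_lit 0) (XT.nd (nat_lit 78) (nat_lit 0) (nat_lit 0) (XT.lf (nat_lit 0) (nat_lit 40192137736) (nat_lit 152) (nat_lit 14788808859) (nat_lit 0) (nat_lit 12606637223) (nat_lit 5) (nat_lit 5) (nat_lit 7) (nat_lit 4) (nat_lit 5) (nat_lit 4) (nat_lit 318) (nat_lit 231) (nat_lit 171)) (XT.lf (nat_lit 0) (nat_lit 46325936023) (nat_lit 152) (nat_lit 5802033261) (nat_lit 0) (nat_lit 18666133714) (nat_lit 5) (nat_lit 5) (nat_lit 7) (nat_lit 4) (nat_lit 5) (nat_lit 4) (nat_lit 319) (nat_lit 231) (nat_lit 170))) (XT.nd (nat_lit 78) (nat_lit 0) (nat_lit 0) (XT.lf (nat_lit 0) (nat_lit 3661705646) (nat_lit 76) (nat_lit 49114765702) (nat_lit 76) (nat_lit 21384199778) (nat_lit 4) (nat_lit 4) (nat_lit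 5) (nat_lit 5) (nat_lit 5) (nat_lit 4) (nat_lit 320) (nat_lit 231) (nat_lit 169)) (XT.nd (nat_lit 78) (nat_lit 0) (nat_lit 0) (XT.lf (nat_lit 0) (nat_lit 13677304729) (nat_lit 76) (nat_lit 45907592550) (nat_lit 76) (nat_lit 18109632707) (nat_lit 4) (nat_lit 4) (nat_lit 5) (nat_lit 5) (nat_lit 5) (nat_lit 4) (nat_lit 321) (nat_lit 231) (nat_lit 168)) (XT.lf (nat_lit 0) (nat_lit 24153138813) (nat_lit 76) (nat_lit 42557402862) (nat_lit 76) (nat_lit 14695258334) (nat_lit 4) (nat_lit 4) (nat_lit 5) (nat_lit 5) (nat_lit 5) (nat_lit 4) (nat_lit 322) (nat_lit 231) (nat_lit 167))))) (XT.nd (nat_lit 156) (nat_lit 76) (nat_lit 0) (XT.nd (nat_lit 78) (nat_lit 0) (nat_lit 0) (XT.lf (nat_lit 0) (nat_lit 35114150361) (nat_lit 76) (nat_lit 39056219996) (nat_lit 76) (nat_lit 11132947196) (nat_lit 4) (nat_lit 4) (nat_lit 5) (nat_lit 5) (nat_lit 5) (nat_lit 4) (nat_lit 323) (nat_lit 231) (nat_lit 166)) (XT.lf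 (nat_lit 0) (nat_lit 46586437020) (nat_lit 76) (nat_lit 35395707801) (nat_lit 76) (nat_lit 7414217600) (nat_lit 4) (nat_lit 4) (nat_lit 5) (nat_lit 5) (nat_lit 5) (nat_lit 4) (nat_lit 324) (nat_lit 231) (nat_lit 165))) (XT.nd (nat_lit 78) (nat_lit 76) (nat_lit 0) (XT.lf (nat_lit 0) (nat_lit 58597313757) (nat_lit 76) (nat_lit 31567150772) (nat_lit 76) (nat_lit 3530215427) (nat_lit 4) (nat_lit 4) (nat_lit 5) (nat_lit 5) (nat_lit 5) (nat_lit 4) (nat_lit 325) (nat_lit 231) (nat_lit 164)) (XT.nd (nat_lit 78) (nat_lit 0) (nat_lit 0) (XT.lf (nat_lit 0) (nat_lit 517997774) (nat_lit 152) (nat_lit 27038204762) (nat_lit 76) (nat_lit 70652149362) (nat_lit 3) (nat_lit 5) (nat_lit 5) (nat_lit 5) (nat_lit 4) (nat_lit 4) (nat_lit 326) (nat_lit 231) (nat_lit 163)) (XT.lf (nat_lit 0) (nat_lit 4677913026) (nat_lit 152) (nat_lit 18643867179) (nat_lit 76) (nat_lit 79625426439) (nat_lit 3) (nat_lit 5) (nat_lit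 5) (nat_lit 5) (nat_lit 4) (nat_lit 4) (nat_lit 327) (nat_lit 231) (nat_lit 162)))))) (XT.nd (nat_lit 31980) (nat_lit 0) (nat_lit 7600) (XT.nd (nat_lit 156) (nat_lit 76) (nat_lit 0) (XT.nd (nat_lit 78) (nat_lit 0) (nat_lit 0) (XT.lf (nat_lit 0) (nat_lit 9028322107) (nat_lit 152) (nat_lit 9860432345) (nat_lit 76) (nat_lit 89034790771) (nat_lit 3) (nat_lit 5) (nat_lit 5) (nat_lit 5) (nat_lit 4) (nat_lit 4) (nat_lit 328) (nat_lit 231) (nat_lit 161)) (XT.lf (nat_lit 0) (nat_lit 13579583134) (nat_lit 152) (nat_lit 666987319) (nat_lit 76) (nat_lit 98902645607) (nat_lit 3) (nat_lit 5) (nat_lit 5) (nat_lit 5) (nat_lit 4) (nat_lit 4) (nat_lit 329) (nat_lit 231) (nat_lit 160))) (XT.nd (nat_lit 78) (nat_lit 0) (nat_lit 0) (XT.lf (nat_lit 0) (nat_lit 9136645925) (nat_lit 76) (nat_lit 9293713546) (nat_lit 152) (nat_lit 100203666943) (nat_lit 2) (nat_lit 5) (nat_lit 3) (nat_lit 5) (nat_lit 4) (nat_lit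 4) (nat_lit 330) (nat_lit 231) (nat_lit 159)) (XT.nd (nat_lit 31668) (nat_lit 0) (nat_lit 10412) (XT.lf (nat_lit 0) (nat_lit 19417422106) (nat_lit 76) (nat_lit 4097740420) (nat_lit 152) (nat_lit 100878183977) (nat_lit 2) (nat_lit 5) (nat_lit 3) (nat_lit 5) (nat_lit 4) (nat_lit 4) (nat_lit 331) (nat_lit 231) (nat_lit 158)) (XT.lf (nat_lit 0) (nat_lit 3306692) (nat_lit 1140) (nat_lit 3643630054) (nat_lit 0) (nat_lit 3306692) (nat_lit 139) (nat_lit 5) (nat_lit 154) (nat_lit 4) (nat_lit 139) (nat_lit 4) (nat_lit 256) (nat_lit 232) (nat_lit 232))))) (XT.nd (nat_lit 234) (nat_lit 1596) (nat_lit 0) (XT.nd (nat_lit 78) (nat_lit 1216) (nat_lit 0) (XT.lf (nat_lit 0) (nat_lit 4908957810) (nat_lit 1140) (nat_lit 8220884) (nat_lit 0) (nat_lit 2500276325) (nat_lit 139) (nat_lit 5) (nat_lit 154) (nat_lit 4) (nat_lit 139) (nat_lit 4) (nat_lit 257) (nat_lit 232) (nat_lit 231)) (XT.nd (nat_lit 78) (nat_lit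 532) (nat_lit 0) (XT.lf (nat_lit 0) (nat_lit 2303158551) (nat_lit 684) (nat_lit 27251993) (nat_lit 76) (nat_lit 5214820189) (nat_lit 130) (nat_lit 5) (nat_lit 139) (nat_lit 5) (nat_lit 131) (nat_lit 4) (nat_lit 258) (nat_lit 232) (nat_lit 230)) (XT.lf (nat_lit 0) (nat_lit 7153889208) (nat_lit 608) (nat_lit 62896873) (nat_lit 0) (nat_lit 467084389) (nat_lit 123) (nat_lit 5) (nat_lit 131) (nat_lit 4) (nat_lit 123) (nat_lit 4) (nat_lit 259) (nat_lit 232) (nat_lit 229)))) (XT.nd (nat_lit 78) (nat_lit 988) (nat_lit 0) (XT.lf (nat_lit 0) (nat_lit 4207970054) (nat_lit 608) (nat_lit 164732045) (nat_lit 76) (nat_lit 3459848643) (nat_lit 115) (nat_lit 5) (nat_lit 123) (nat_lit 5) (nat_lit 116) (nat_lit 4) (nat_lit 260) (nat_lit 232) (nat_lit 228)) (XT.nd (nat_lit 78) (nat_lit 456) (nat_lit 0) (XT.lf (nat_lit 0) (nat_lit 1018978362) (nat_lit 532) (nat_lit 297988564) (nat_lit 76) (nat_lit 6676063243)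 (nat_lit 108) (nat_lit 5) (nat_lit 115) (nat_lit 5) (nat_lit 109) (nat_lit 5) (nat_lit 261) (nat_lit 232) (nat_lit 227)) (XT.lf (nat_lit 0) (nat_lit 5706144544) (nat_lit 532) (nat_lit 516641366) (nat_lit 76) (nat_lit 1941674930) (nat_lit 102) (nat_lit 5) (nat_lit 109) (nat_lit 5) (nat_lit 103) (nat_lit 4) (nat_lit 262) (nat_lit 232) (nat_lit 226))))))) (XT.nd (nat_lit 780) (nat_lit 2052) (nat_lit 0) (XT.nd (nat_lit 390) (nat_lit 1368) (nat_lit 0) (XT.nd (nat_lit 156) (nat_lit 1216) (nat_lit 0) (XT.nd (nat_lit 78) (nat_lit 456) (nat_lit 0) (XT.lf (nat_lit 0) (nat_lit 2124687723) (nat_lit 456) (nat_lit 817355718) (nat_lit 76) (nat_lit 5405730846) (nat_lit 96) (nat_lit 5) (nat_lit 102) (nat_lit 5) (nat_lit 97) (nat_lit 5) (nat_lit 263) (nat_lit 232) (nat_lit 225)) (XT.lf (nat_lit 0) (nat_lit 6771505915) (nat_lit 532) (nat_lit 1212942523) (nat_lit 76) (nat_lit 559034106) (nat_lit 90) (nat_lit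 5) (nat_lit 97) (nat_lit 5) (nat_lit 91) (nat_lit 4) (nat_lit 264) (nat_lit 232) (nat_lit 224))) (XT.nd (nat_lit 78) (nat_lit 760) (nat_lit 0) (XT.lf (nat_lit 0) (nat_lit 2759999046) (nat_lit 456) (nat_lit 1749252474) (nat_lit 76) (nat_lit 4241924908) (nat_lit 84) (nat_lit 5) (nat_lit 90) (nat_lit 5) (nat_lit 85) (nat_lit 5) (nat_lit 265) (nat_lit 232) (nat_lit 223)) (XT.nd (nat_lit 78) (nat_lit 380) (nat_lit 0) (XT.lf (nat_lit 0) (nat_lit 6564805452) (nat_lit 380) (nat_lit 808246517) (nat_lit 456) (nat_lit 1599404820) (nat_lit 79) (nat_lit 5) (nat_lit 84) (nat_lit 5) (nat_lit 85) (nat_lit 5) (nat_lit 266) (nat_lit 232) (nat_lit 222)) (XT.lf (nat_lit 0) (nat_lit 2878643129) (nat_lit 380) (nat_lit 3249841227) (nat_lit 76) (nat_lit 3078111480) (nat_lit 74) (nat_lit 5) (nat_lit 79) (nat_lit 5) (nat_lit 75) (nat_lit 5) (nat_lit 267) (nat_lit 232) (nat_lit 221))))) (XT.nd (nat_lit 156) (nat_lit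 608) (nat_lit 0) (XT.nd (nat_lit 78) (nat_lit 380) (nat_lit 0) (XT.lf (nat_lit 0) (nat_lit 5189293168) (nat_lit 380) (nat_lit 2267171166) (nat_lit 456) (nat_lit 1998640700) (nat_lit 69) (nat_lit 5) (nat_lit 74) (nat_lit 5) (nat_lit 75) (nat_lit 5) (nat_lit 268) (nat_lit 232) (nat_lit 220)) (XT.lf (nat_lit 0) (nat_lit 2419343809) (nat_lit 380) (nat_lit 5497778898) (nat_lit 76) (nat_lit 1800901212) (nat_lit 64) (nat_lit 5) (nat_lit 69) (nat_lit 5) (nat_lit 65) (nat_lit 5) (nat_lit 269) (nat_lit 232) (nat_lit 219))) (XT.nd (nat_lit 78) (nat_lit 304) (nat_lit 0) (XT.lf (nat_lit 0) (nat_lit 3021321069) (nat_lit 304) (nat_lit 3927484099) (nat_lit 380) (nat_lit 3047090726) (nat_lit 60) (nat_lit 5) (nat_lit 64) (nat_lit 5) (nat_lit 65) (nat_lit 5) (nat_lit 270) (nat_lit 232) (nat_lit 218)) (XT.nd (nat_lit 78) (nat_lit 0) (nat_lit 0) (XT.lf (nat_lit 0) (nat_lit 1303844735) (nat_lit 304) (nat_lit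 8699146638) (nat_lit 76) (nat_lit 287160063) (nat_lit 56) (nat_lit 5) (nat_lit 60) (nat_lit 5) (nat_lit 57) (nat_lit 5) (nat_lit 271) (nat_lit 232) (nat_lit 217)) (XT.lf (nat_lit 0) (nat_lit 5766246302) (nat_lit 304) (nat_lit 153946090) (nat_lit 76) (nat_lit 4679629567) (nat_lit 56) (nat_lit 5) (nat_lit 60) (nat_lit 5) (nat_lit 57) (nat_lit 5) (nat_lit 272) (nat_lit 232) (nat_lit 216)))))) (XT.nd (nat_lit 390) (nat_lit 912) (nat_lit 0) (XT.nd (nat_lit 156) (nat_lit 532) (nat_lit 0) (XT.nd (nat_lit 78) (nat_lit 304) (nat_lit 0) (XT.lf (nat_lit 0) (nat_lit 8783740892) (nat_lit 304) (nat_lit 1604083677) (nat_lit 380) (nat_lit 539370135) (nat_lit 52) (nat_lit 5) (nat_lit 56) (nat_lit 5) (nat_lit 57) (nat_lit 5) (nat_lit 273) (nat_lit 232) (nat_lit 215)) (XT.lf (nat_lit 0) (nat_lit 3842656289) (nat_lit 304) (nat_lit 4509465574) (nat_lit 76) (nat_lit 2919430132) (nat_lit 48) (nat_lit 5) (nat_lit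 52) (nat_lit 5) (nat_lit 49) (nat_lit 5) (nat_lit 274) (nat_lit 232) (nat_lit 214))) (XT.nd (nat_lit 78) (nat_lit 304) (nat_lit 0) (XT.lf (nat_lit 0) (nat_lit 4387487852) (nat_lit 228) (nat_lit 3985405708) (nat_lit 304) (nat_lit 3262129975) (nat_lit 45) (nat_lit 5) (nat_lit 48) (nat_lit 5) (nat_lit 49) (nat_lit 5) (nat_lit 275) (nat_lit 232) (nat_lit 213)) (XT.nd (nat_lit 78) (nat_lit 0) (nat_lit 0) (XT.lf (nat_lit 0) (nat_lit 1022435613) (nat_lit 304) (nat_lit 10394538225) (nat_lit 76) (nat_lit 601683066) (nat_lit 41) (nat_lit 5) (nat_lit 45) (nat_lit 5) (nat_lit 42) (nat_lit 5) (nat_lit 276) (nat_lit 232) (nat_lit 212)) (XT.lf (nat_lit 0) (nat_lit 5436792497) (nat_lit 304) (nat_lit 1598955314) (nat_lit 76) (nat_lit 5385497266) (nat_lit 41) (nat_lit 5) (nat_lit 45) (nat_lit 5) (nat_lit 42) (nat_lit 5) (nat_lit 277) (nat_lit 232) (nat_lit 211))))) (XT.nd (nat_lit 234) (nat_lit 456) (nat_lit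 0) (XT.nd (nat_lit 78) (nat_lit 228) (nat_lit 0) (XT.lf (nat_lit 0) (nat_lit 7597383141) (nat_lit 228) (nat_lit 2420686570) (nat_lit 304) (nat_lit 2827728728) (nat_lit 38) (nat_lit 5) (nat_lit 41) (nat_lit 5) (nat_lit 42) (nat_lit 5) (nat_lit 278) (nat_lit 232) (nat_lit 210)) (XT.nd (nat_lit 78) (nat_lit 0) (nat_lit 0) (XT.lf (nat_lit 0) (nat_lit 1460134769) (nat_lit 228) (nat_lit 9444947960) (nat_lit 76) (nat_lit 2387659915) (nat_lit 35) (nat_lit 5) (nat_lit 38) (nat_lit 5) (nat_lit 36) (nat_lit 5) (nat_lit 279) (nat_lit 232) (nat_lit 209)) (XT.lf (nat_lit 0) (nat_lit 5863098099) (nat_lit 228) (nat_lit 487935627) (nat_lit 76) (nat_lit 7411580130) (nat_lit 35) (nat_lit 5) (nat_lit 38) (nat_lit 5) (nat_lit 36) (nat_lit 5) (nat_lit 280) (nat_lit 232) (nat_lit 208)))) (XT.nd (nat_lit 78) (nat_lit 228) (nat_lit 0) (XT.lf (nat_lit 0) (nat_lit 8917117587) (nat_lit 228) (nat_lit 1540189254) (nat_lit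 304) (nat_lit 3799724939) (nat_lit 32) (nat_lit 5) (nat_lit 35) (nat_lit 5) (nat_lit 36) (nat_lit 5) (nat_lit 281) (nat_lit 232) (nat_lit 207)) (XT.nd (nat_lit 78) (nat_lit 0) (nat_lit 0) (XT.lf (nat_lit 0) (nat_lit 459622125) (nat_lit 228) (nat_lit 10884836495) (nat_lit 76) (nat_lit 3432805712) (nat_lit 29) (nat_lit 5) (nat_lit 32) (nat_lit 5) (nat_lit 30) (nat_lit 5) (nat_lit 282) (nat_lit 232) (nat_lit 206)) (XT.lf (nat_lit 0) (nat_lit 4816266869) (nat_lit 228) (nat_lit 1847507234) (nat_lit 76) (nat_lit 8659882198) (nat_lit 29) (nat_lit 5) (nat_lit 32) (nat_lit 5) (nat_lit 30) (nat_lit 5) (nat_lit 283) (nat_lit 232) (nat_lit 205))))))))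
noncomputable def xc35 : XT := (XT.nd (nat_lit 1638) (nat_lit 380) (nat_lit 0) (XT.nd (nat_lit 780) (nat_lit 532) (nat_lit 0) (XT.nd (nat_lit 390) (nat_lit 456) (nat_lit 0) (XT.nd (nat_lit 156) (nat_lit 228) (nat_lit 0) (XT.nd (nat_lit 78) (nat_lit 152) (nat_lit 0) (XT.lf (nat_lit 0) (nat_lit 7629440661) (nat_lit 152) (nat_lit 1730951084) (nat_lit 228) (nat_lit 6538042736) (nat_lit 27) (nat_lit 5) (nat_lit 29) (nat_lit 5) (nat_lit 30) (nat_lit 5) (nat_lit 284) (nat_lit 232) (nat_lit 204)) (XT.lf (nat_lit 0) (nat_lit 943411531) (nat_lit 152) (nat_lit 13148937524) (nat_lit 228) (nat_lit 2410932348) (nat_lit 25) (nat_lit 5) (nat_lit 27) (nat_lit 5) (nat_lit 28) (nat_lit 4) (nat_lit 285) (nat_lit 232) (nat_lit 203))) (XT.nd (nat_lit 78) (nat_lit 152) (nat_lit 0) (XT.lf (nat_lit 0) (nat_lit 1889865480) (nat_lit 228) (nat_lit 6540037488) (nat_lit 76) (nat_lit 8707905282) (nat_lit 24) (nat_lit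 5) (nat_lit 27) (nat_lit 5) (nat_lit 25) (nat_lit 5) (nat_lit 286) (nat_lit 232) (nat_lit 202)) (XT.nd (nat_lit 78) (nat_lit 0) (nat_lit 0) (XT.lf (nat_lit 0) (nat_lit 2812126142) (nat_lit 152) (nat_lit 3477317120) (nat_lit 228) (nat_lit 11516024878) (nat_lit 22) (nat_lit 5) (nat_lit 24) (nat_lit 5) (nat_lit 25) (nat_lit 5) (nat_lit 287) (nat_lit 232) (nat_lit 201)) (XT.lf (nat_lit 0) (nat_lit 10902216326) (nat_lit 228) (nat_lit 5900407056) (nat_lit 76) (nat_lit 1704215795) (nat_lit 22) (nat_lit 5) (nat_lit 25) (nat_lit 5) (nat_lit 23) (nat_lit 4) (nat_lit 288) (nat_lit 232) (nat_lit 200))))) (XT.nd (nat_lit 156) (nat_lit 228) (nat_lit 0) (XT.nd (nat_lit 78) (nat_lit 76) (nat_lit 0) (XT.lf (nat_lit 0) (nat_lit 3540932502) (nat_lit 152) (nat_lit 12186844225) (nat_lit 228) (nat_lit 3516156287) (nat_lit 20) (nat_lit 5) (nat_lit 22) (nat_lit 5) (nat_lit 23) (nat_lit 4) (nat_lit 289) (nat_lit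 232) (nat_lit 199)) (XT.lf (nat_lit 0) (nat_lit 737819983) (nat_lit 228) (nat_lit 6584511450) (nat_lit 76) (nat_lit 12696148582) (nat_lit 19) (nat_lit 5) (nat_lit 22) (nat_lit 5) (nat_lit 20) (nat_lit 5) (nat_lit 290) (nat_lit 232) (nat_lit 198))) (XT.nd (nat_lit 78) (nat_lit 76) (nat_lit 0) (XT.lf (nat_lit 0) (nat_lit 2879143233) (nat_lit 152) (nat_lit 2199939053) (nat_lit 228) (nat_lit 15753313010) (nat_lit 17) (nat_lit 5) (nat_lit 19) (nat_lit 5) (nat_lit 20) (nat_lit 5) (nat_lit 291) (nat_lit 232) (nat_lit 197)) (XT.nd (nat_lit 78) (nat_lit 76) (nat_lit 0) (XT.lf (nat_lit 0) (nat_lit 9657527895) (nat_lit 228) (nat_lit 8892282981) (nat_lit 76) (nat_lit 3136691417) (nat_lit 17) (nat_lit 5) (nat_lit 20) (nat_lit 5) (nat_lit 18) (nat_lit 4) (nat_lit 292) (nat_lit 232) (nat_lit 196)) (XT.lf (nat_lit 0) (nat_lit 485516428) (nat_lit 76) (nat_lit 13931120441) (nat_lit 152) (nat_lit 8168220356)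 (nat_lit 16) (nat_lit 5) (nat_lit 17) (nat_lit 5) (nat_lit 18) (nat_lit 4) (nat_lit 293) (nat_lit 232) (nat_lit 195)))))) (XT.nd (nat_lit 390) (nat_lit 304) (nat_lit 0) (XT.nd (nat_lit 156) (nat_lit 152) (nat_lit 0) (XT.nd (nat_lit 78) (nat_lit 76) (nat_lit 0) (XT.lf (nat_lit 0) (nat_lit 10398080339) (nat_lit 76) (nat_lit 9034453277) (nat_lit 152) (nat_lit 4095121620) (nat_lit 16) (nat_lit 5) (nat_lit 17) (nat_lit 5) (nat_lit 18) (nat_lit 4) (nat_lit 294) (nat_lit 232) (nat_lit 194)) (XT.lf (nat_lit 0) (nat_lit 108074152) (nat_lit 152) (nat_lit 3828779784) (nat_lit 76) (nat_lit 20582870737) (nat_lit 15) (nat_lit 5) (nat_lit 17) (nat_lit 5) (nat_lit 16) (nat_lit 5) (nat_lit 295) (nat_lit 232) (nat_lit 193))) (XT.nd (nat_lit 78) (nat_lit 0) (nat_lit 0) (XT.lf (nat_lit 0) (nat_lit 4441725079) (nat_lit 228) (nat_lit 19674033963) (nat_lit 76) (nat_lit 1444352025) (nat_lit 13) (nat_lit 5) (nat_lit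 16) (nat_lit 5) (nat_lit 14) (nat_lit 4) (nat_lit 296) (nat_lit 232) (nat_lit 192)) (XT.nd (nat_lit 78) (nat_lit 0) (nat_lit 0) (XT.lf (nat_lit 0) (nat_lit 9006656306) (nat_lit 228) (nat_lit 10633420274) (nat_lit 76) (nat_lit 7012078003) (nat_lit 13) (nat_lit 5) (nat_lit 16) (nat_lit 5) (nat_lit 14) (nat_lit 4) (nat_lit 297) (nat_lit 232) (nat_lit 191)) (XT.lf (nat_lit 0) (nat_lit 13737984557) (nat_lit 228) (nat_lit 1244249353) (nat_lit 76) (nat_lit 12818493978) (nat_lit 13) (nat_lit 5) (nat_lit 16) (nat_lit 5) (nat_lit 14) (nat_lit 4) (nat_lit 298) (nat_lit 232) (nat_lit 190))))) (XT.nd (nat_lit 234) (nat_lit 228) (nat_lit 0) (XT.nd (nat_lit 78) (nat_lit 0) (nat_lit 0) (XT.lf (nat_lit 0) (nat_lit 8685315761) (nat_lit 76) (nat_lit 10045147707) (nat_lit 152) (nat_lit 10275597557) (nat_lit 12) (nat_lit 5) (nat_lit 13) (nat_lit 5) (nat_lit 14) (nat_lit 4) (nat_lit 299) (nat_lit 232) (nat_lit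 189)) (XT.nd (nat_lit 78) (nat_lit 0) (nat_lit 0) (XT.lf (nat_lit 0) (nat_lit 19041638942) (nat_lit 76) (nat_lit 4886716346) (nat_lit 152) (nat_lit 6344697282) (nat_lit 12) (nat_lit 5) (nat_lit 13) (nat_lit 5) (nat_lit 14) (nat_lit 4) (nat_lit 300) (nat_lit 232) (nat_lit 188)) (XT.lf (nat_lit 0) (nat_lit 29336574310) (nat_lit 152) (nat_lit 1785206908) (nat_lit 0) (nat_lit 483161804) (nat_lit 12) (nat_lit 5) (nat_lit 14) (nat_lit 4) (nat_lit 12) (nat_lit 4) (nat_lit 301) (nat_lit 232) (nat_lit 187)))) (XT.nd (nat_lit 78) (nat_lit 0) (nat_lit 0) (XT.lf (nat_lit 0) (nat_lit 2048868307) (nat_lit 228) (nat_lit 24866278806) (nat_lit 76) (nat_lit 6085467872) (nat_lit 9) (nat_lit 5) (nat_lit 12) (nat_lit 5) (nat_lit 10) (nat_lit 4) (nat_lit 302) (nat_lit 232) (nat_lit 186)) (XT.nd (nat_lit 78) (nat_lit 0) (nat_lit 0) (XT.lf (nat_lit 0) (nat_lit 6503095099) (nat_lit 228) (nat_lit 15988073623) (nat_lit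 76) (nat_lit 11975241680) (nat_lit 9) (nat_lit 5) (nat_lit 12) (nat_lit 5) (nat_lit 10) (nat_lit 4) (nat_lit 303) (nat_lit 232) (nat_lit 185)) (XT.lf (nat_lit 0) (nat_lit 11131505692) (nat_lit 228) (nat_lit 6748471742) (nat_lit 76) (nat_lit 18127026238) (nat_lit 9) (nat_lit 5) (nat_lit 12) (nat_lit 5) (nat_lit 10) (nat_lit 4) (nat_lit 304) (nat_lit 232) (nat_lit 184))))))) (XT.nd (nat_lit 858) (nat_lit 76) (nat_lit 0) (XT.nd (nat_lit 390) (nat_lit 152) (nat_lit 0) (XT.nd (nat_lit 156) (nat_lit 76) (nat_lit 0) (XT.nd (nat_lit 78) (nat_lit 0) (nat_lit 0) (XT.lf (nat_lit 0) (nat_lit 2931734590) (nat_lit 76) (nat_lit 13041567148) (nat_lit 152) (nat_lit 21651915686) (nat_lit 8) (nat_lit 5) (nat_lit 9) (nat_lit 5) (nat_lit 10) (nat_lit 4) (nat_lit 305) (nat_lit 232) (nat_lit 183)) (XT.lf (nat_lit 0) (nat_lit 13160642710) (nat_lit 76) (nat_lit 7921264783) (nat_lit 152) (nat_lit 18241740171) (nat_lit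 8) (nat_lit 5) (nat_lit 9) (nat_lit 5) (nat_lit 10) (nat_lit 4) (nat_lit 306) (nat_lit 232) (nat_lit 182))) (XT.nd (nat_lit 78) (nat_lit 76) (nat_lit 0) (XT.lf (nat_lit 0) (nat_lit 23828299341) (nat_lit 76) (nat_lit 2575025476) (nat_lit 152) (nat_lit 14704998300) (nat_lit 8) (nat_lit 5) (nat_lit 9) (nat_lit 5) (nat_lit 10) (nat_lit 4) (nat_lit 307) (nat_lit 232) (nat_lit 181)) (XT.nd (nat_lit 78) (nat_lit 76) (nat_lit 0) (XT.lf (nat_lit 0) (nat_lit 31979156558) (nat_lit 152) (nat_lit 8052322152) (nat_lit 0) (nat_lit 2951146316) (nat_lit 8) (nat_lit 5) (nat_lit 10) (nat_lit 4) (nat_lit 8) (nat_lit 4) (nat_lit 308) (nat_lit 232) (nat_lit 180)) (XT.lf (nat_lit 0) (nat_lit 1574624171) (nat_lit 76) (nat_lit 36261363637) (nat_lit 76) (nat_lit 7114628929) (nat_lit 7) (nat_lit 4) (nat_lit 8) (nat_lit 5) (nat_lit 8) (nat_lit 4) (nat_lit 309) (nat_lit 232) (nat_lit 179))))) (XT.nd (nat_lit 234) (nat_lit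 76) (nat_lit 0) (XT.nd (nat_lit 78) (nat_lit 76) (nat_lit 0) (XT.lf (nat_lit 0) (nat_lit 11786228052) (nat_lit 76) (nat_lit 32244634277) (nat_lit 76) (nat_lit 2984828647) (nat_lit 7) (nat_lit 4) (nat_lit 8) (nat_lit 5) (nat_lit 8) (nat_lit 4) (nat_lit 310) (nat_lit 232) (nat_lit 178)) (XT.nd (nat_lit 78) (nat_lit 0) (nat_lit 0) (XT.lf (nat_lit 0) (nat_lit 1288802864) (nat_lit 152) (nat_lit 26751222406) (nat_lit 76) (nat_lit 21144728587) (nat_lit 6) (nat_lit 5) (nat_lit 8) (nat_lit 5) (nat_lit 7) (nat_lit 4) (nat_lit 311) (nat_lit 232) (nat_lit 177)) (XT.lf (nat_lit 0) (nat_lit 5680400004) (nat_lit 152) (nat_lit 17938838870) (nat_lit 76) (nat_lit 27843198317) (nat_lit 6) (nat_lit 5) (nat_lit 8) (nat_lit 5) (nat_lit 7) (nat_lit 4) (nat_lit 312) (nat_lit 232) (nat_lit 176)))) (XT.nd (nat_lit 78) (nat_lit 76) (nat_lit 0) (XT.lf (nat_lit 0) (nat_lit 10258663713) (nat_lit 152) (nat_lit 8742638452)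 (nat_lit 76) (nat_lit 34853722627) (nat_lit 6) (nat_lit 5) (nat_lit 8) (nat_lit 5) (nat_lit 7) (nat_lit 4) (nat_lit 313) (nat_lit 232) (nat_lit 175)) (XT.nd (nat_lit 78) (nat_lit 0) (nat_lit 0) (XT.lf (nat_lit 0) (nat_lit 876375811) (nat_lit 76) (nat_lit 14166543069) (nat_lit 152) (nat_lit 41325041691) (nat_lit 5) (nat_lit 5) (nat_lit 6) (nat_lit 5) (nat_lit 7) (nat_lit 4) (nat_lit 314) (nat_lit 232) (nat_lit 174)) (XT.lf (nat_lit 0) (nat_lit 11106489487) (nat_lit 76) (nat_lit 9019536635) (nat_lit 152) (nat_lit 38878757501) (nat_lit 5) (nat_lit 5) (nat_lit 6) (nat_lit 5) (nat_lit 7) (nat_lit 4) (nat_lit 315) (nat_lit 232) (nat_lit 173)))))) (XT.nd (nat_lit 390) (nat_lit 76) (nat_lit 0) (XT.nd (nat_lit 156) (nat_lit 0) (nat_lit 0) (XT.nd (nat_lit 78) (nat_lit 0) (nat_lit 0) (XT.lf (nat_lit 0) (nat_lit 21798064339) (nat_lit 76) (nat_lit 3636311593) (nat_lit 152) (nat_lit 36339967529) (nat_lit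 5) (nat_lit 5) (nat_lit 6) (nat_lit 5) (nat_lit 7) (nat_lit 4) (nat_lit 316) (nat_lit 232) (nat_lit 172)) (XT.lf (nat_lit 0) (nat_lit 30999793525) (nat_lit 152) (nat_lit 31725864061) (nat_lit 0) (nat_lit 1957001101) (nat_lit 5) (nat_lit 5) (nat_lit 7) (nat_lit 4) (nat_lit 5) (nat_lit 4) (nat_lit 317) (nat_lit 232) (nat_lit 171))) (XT.nd (nat_lit 78) (nat_lit 0) (nat_lit 0) (XT.lf (nat_lit 0) (nat_lit 36853775169) (nat_lit 152) (nat_lit 23145650385) (nat_lit 0) (nat_lit 7736680949) (nat_lit 5) (nat_lit 5) (nat_lit 7) (nat_lit 4) (nat_lit 5) (nat_lit 4) (nat_lit 318) (nat_lit 232) (nat_lit 170)) (XT.nd (nat_lit 78) (nat_lit 0) (nat_lit 0) (XT.lf (nat_lit 0) (nat_lit 42975304465) (nat_lit 152) (nat_lit 14180254561) (nat_lit 0) (nat_lit 13787446630) (nat_lit 5) (nat_lit 5) (nat_lit 7) (nat_lit 4) (nat_lit 5) (nat_lit 4) (nat_lit 319) (nat_lit 232) (nat_lit 169)) (XT.lf (nat_lit 0) (nat_lit 49378956483)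 (nat_lit 152) (nat_lit 4808330409) (nat_lit 0) (nat_lit 20123704729) (nat_lit 5) (nat_lit 5) (nat_lit 7) (nat_lit 4) (nat_lit 5) (nat_lit 4) (nat_lit 320) (nat_lit 232) (nat_lit 168))))) (XT.nd (nat_lit 234) (nat_lit 0) (nat_lit 0) (XT.nd (nat_lit 78) (nat_lit 0) (nat_lit 0) (XT.lf (nat_lit 0) (nat_lit 5091795444) (nat_lit 76) (nat_lit 51037128022) (nat_lit 76) (nat_lit 21717691582) (nat_lit 4) (nat_lit 4) (nat_lit 5) (nat_lit 5) (nat_lit 5) (nat_lit 4) (nat_lit 321) (nat_lit 232) (nat_lit 167)) (XT.nd (nat_lit 78) (nat_lit 0) (nat_lit 0) (XT.lf (nat_lit 0) (nat_lit 15548793314) (nat_lit 76) (nat_lit 47694995068) (nat_lit 76) (nat_lit 18314430357) (nat_lit 4) (nat_lit 4) (nat_lit 5) (nat_lit 5) (nat_lit 5) (nat_lit 4) (nat_lit 322) (nat_lit 232) (nat_lit 166)) (XT.lf (nat_lit 0) (nat_lit 26491865610) (nat_lit 76) (nat_lit 44201485282) (nat_lit 76) (nat_lit 14762703170) (nat_lit 4) (nat_lit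 4) (nat_lit 5) (nat_lit 5) (nat_lit 5) (nat_lit 4) (nat_lit 323) (nat_lit 232) (nat_lit 165)))) (XT.nd (nat_lit 78) (nat_lit 0) (nat_lit 0) (XT.lf (nat_lit 0) (nat_lit 37947067266) (nat_lit 76) (nat_lit 40548280782) (nat_lit 76) (nat_lit 11054053526) (nat_lit 4) (nat_lit 4) (nat_lit 5) (nat_lit 5) (nat_lit 5) (nat_lit 4) (nat_lit 324) (nat_lit 232) (nat_lit 164)) (XT.nd (nat_lit 78) (nat_lit 0) (nat_lit 0) (XT.lf (nat_lit 0) (nat_lit 49941672572) (nat_lit 76) (nat_lit 36726683464) (nat_lit 76) (nat_lit 7179651309) (nat_lit 4) (nat_lit 4) (nat_lit 5) (nat_lit 5) (nat_lit 5) (nat_lit 4) (nat_lit 325) (nat_lit 232) (nat_lit 163)) (XT.lf (nat_lit 0) (nat_lit 62504240113) (nat_lit 76) (nat_lit 32727594285) (nat_lit 76) (nat_lit 3130271750) (nat_lit 4) (nat_lit 4) (nat_lit 5) (nat_lit 5) (nat_lit 5) (nat_lit 4) (nat_lit 326) (nat_lit 232) (nat_lit 162))))))))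
noncomputable def xc36 : XT := (XT.nd (nat_lit 33072) (nat_lit 0) (nat_lit 1368) (XT.nd (nat_lit 32214) (nat_lit 0) (nat_lit 4712) (XT.nd (nat_lit 31824) (nat_lit 0) (nat_lit 9728) (XT.nd (nat_lit 156) (nat_lit 76) (nat_lit 0) (XT.nd (nat_lit 78) (nat_lit 0) (nat_lit 0) (XT.lf (nat_lit 0) (nat_lit 1082188850) (nat_lit 152) (nat_lit 27448374770) (nat_lit 76) (nat_lit 74571563927) (nat_lit 3) (nat_lit 5) (nat_lit 5) (nat_lit 5) (nat_lit 4) (nat_lit 4) (nat_lit 327) (nat_lit 232) (nat_lit 161)) (XT.lf (nat_lit 0) (nat_lit 5424466951) (nat_lit 152) (nat_lit 18679165081) (nat_lit 76) (nat_lit 83975085472) (nat_lit 3) (nat_lit 5) (nat_lit 5) (nat_lit 5) (nat_lit 4) (nat_lit 4) (nat_lit 328) (nat_lit 232) (nat_lit 160))) (XT.nd (nat_lit 78) (nat_lit 76) (nat_lit 0) (XT.lf (nat_lit 0) (nat_lit 9967984187) (nat_lit 152) (nat_lit 9499267813) (nat_lit 76) (nat_lit 93837375749) (nat_lit 3) (nat_lit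 5) (nat_lit 5) (nat_lit 5) (nat_lit 4) (nat_lit 4) (nat_lit 329) (nat_lit 232) (nat_lit 159)) (XT.nd (nat_lit 78) (nat_lit 0) (nat_lit 0) (XT.lf (nat_lit 0) (nat_lit 115426317) (nat_lit 76) (nat_lit 14609241688) (nat_lit 152) (nat_lit 104067599632) (nat_lit 2) (nat_lit 5) (nat_lit 3) (nat_lit 5) (nat_lit 4) (nat_lit 4) (nat_lit 330) (nat_lit 232) (nat_lit 158)) (XT.lf (nat_lit 0) (nat_lit 10383669722) (nat_lit 76) (nat_lit 9418657019) (nat_lit 152) (nat_lit 104749481750) (nat_lit 2) (nat_lit 5) (nat_lit 3) (nat_lit 5) (nat_lit 4) (nat_lit 4) (nat_lit 331) (nat_lit 232) (nat_lit 157))))) (XT.nd (nat_lit 156) (nat_lit 1824) (nat_lit 0) (XT.nd (nat_lit 78) (nat_lit 988) (nat_lit 0) (XT.lf (nat_lit 0) (nat_lit 37843909) (nat_lit 988) (nat_lit 3470266444) (nat_lit 0) (nat_lit 37843909) (nat_lit 167) (nat_lit 5) (nat_lit 180) (nat_lit 4) (nat_lit 167) (nat_lit 4) (nat_lit 254) (nat_lit 233) (nat_lit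 233)) (XT.lf (nat_lit 0) (nat_lit 430689) (nat_lit 988) (nat_lit 4898623936) (nat_lit 988) (nat_lit 2293634909) (nat_lit 154) (nat_lit 4) (nat_lit 167) (nat_lit 5) (nat_lit 167) (nat_lit 4) (nat_lit 255) (nat_lit 233) (nat_lit 232))) (XT.nd (nat_lit 78) (nat_lit 1748) (nat_lit 0) (XT.lf (nat_lit 0) (nat_lit 2441861020) (nat_lit 1064) (nat_lit 128953083) (nat_lit 76) (nat_lit 4732894010) (nat_lit 153) (nat_lit 5) (nat_lit 167) (nat_lit 5) (nat_lit 154) (nat_lit 4) (nat_lit 256) (nat_lit 233) (nat_lit 231)) (XT.nd (nat_lit 78) (nat_lit 684) (nat_lit 0) (XT.lf (nat_lit 0) (nat_lit 7176074734) (nat_lit 1064) (nat_lit 28263949) (nat_lit 1140) (nat_lit 220919479) (nat_lit 139) (nat_lit 5) (nat_lit 153) (nat_lit 5) (nat_lit 154) (nat_lit 4) (nat_lit 257) (nat_lit 233) (nat_lit 230)) (XT.lf (nat_lit 0) (nat_lit 4432182328) (nat_lit 684) (nat_lit 419194395) (nat_lit 76) (nat_lit 2704771739) (nat_lit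 130) (nat_lit 5) (nat_lit 139) (nat_lit 5) (nat_lit 131) (nat_lit 4) (nat_lit 258) (nat_lit 233) (nat_lit 229)))))) (XT.nd (nat_lit 390) (nat_lit 2432) (nat_lit 0) (XT.nd (nat_lit 156) (nat_lit 1444) (nat_lit 0) (XT.nd (nat_lit 78) (nat_lit 532) (nat_lit 0) (XT.lf (nat_lit 0) (nat_lit 1440187968) (nat_lit 608) (nat_lit 600037156) (nat_lit 76) (nat_lit 5657943431) (nat_lit 122) (nat_lit 5) (nat_lit 130) (nat_lit 5) (nat_lit 123) (nat_lit 5) (nat_lit 259) (nat_lit 233) (nat_lit 228)) (XT.lf (nat_lit 0) (nat_lit 6038431066) (nat_lit 608) (nat_lit 828259081) (nat_lit 76) (nat_lit 984201058) (nat_lit 115) (nat_lit 5) (nat_lit 123) (nat_lit 5) (nat_lit 116) (nat_lit 4) (nat_lit 260) (nat_lit 233) (nat_lit 227))) (XT.nd (nat_lit 78) (nat_lit 912) (nat_lit 0) (XT.lf (nat_lit 0) (nat_lit 2687334996) (nat_lit 532) (nat_lit 1125419133) (nat_lit 76) (nat_lit 4201636558) (nat_lit 108) (nat_lit 5) (nat_lit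 115) (nat_lit 5) (nat_lit 109) (nat_lit 5) (nat_lit 261) (nat_lit 233) (nat_lit 226)) (XT.nd (nat_lit 78) (nat_lit 456) (nat_lit 0) (XT.lf (nat_lit 0) (nat_lit 6712011841) (nat_lit 456) (nat_lit 537285141) (nat_lit 532) (nat_lit 940557209) (nat_lit 102) (nat_lit 5) (nat_lit 108) (nat_lit 5) (nat_lit 109) (nat_lit 5) (nat_lit 262) (nat_lit 233) (nat_lit 225)) (XT.lf (nat_lit 0) (nat_lit 3502373409) (nat_lit 456) (nat_lit 1946176653) (nat_lit 76) (nat_lit 2927749434) (nat_lit 96) (nat_lit 5) (nat_lit 102) (nat_lit 5) (nat_lit 97) (nat_lit 5) (nat_lit 263) (nat_lit 233) (nat_lit 224))))) (XT.nd (nat_lit 234) (nat_lit 1140) (nat_lit 0) (XT.nd (nat_lit 78) (nat_lit 836) (nat_lit 0) (XT.lf (nat_lit 0) (nat_lit 6074668940) (nat_lit 456) (nat_lit 1965701279) (nat_lit 532) (nat_lit 535145848) (nat_lit 90) (nat_lit 5) (nat_lit 96) (nat_lit 5) (nat_lit 97) (nat_lit 5) (nat_lit 264) (nat_lit 233) (nat_lit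 223)) (XT.nd (nat_lit 78) (nat_lit 380) (nat_lit 0) (XT.lf (nat_lit 0) (nat_lit 3850838125) (nat_lit 456) (nat_lit 3199918250) (nat_lit 76) (nat_lit 1735977911) (nat_lit 84) (nat_lit 5) (nat_lit 90) (nat_lit 5) (nat_lit 85) (nat_lit 5) (nat_lit 265) (nat_lit 233) (nat_lit 222)) (XT.lf (nat_lit 0) (nat_lit 4976626305) (nat_lit 380) (nat_lit 3386084266) (nat_lit 456) (nat_lit 648554070) (nat_lit 79) (nat_lit 5) (nat_lit 84) (nat_lit 5) (nat_lit 85) (nat_lit 5) (nat_lit 266) (nat_lit 233) (nat_lit 221)))) (XT.nd (nat_lit 78) (nat_lit 760) (nat_lit 0) (XT.lf (nat_lit 0) (nat_lit 3684963496) (nat_lit 380) (nat_lit 5042657126) (nat_lit 76) (nat_lit 521486545) (nat_lit 74) (nat_lit 5) (nat_lit 79) (nat_lit 5) (nat_lit 75) (nat_lit 5) (nat_lit 267) (nat_lit 233) (nat_lit 220)) (XT.nd (nat_lit 78) (nat_lit 380) (nat_lit 0) (XT.lf (nat_lit 0) (nat_lit 3253988877) (nat_lit 380) (nat_lit 4909156949)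 (nat_lit 456) (nat_lit 1337648668) (nat_lit 69) (nat_lit 5) (nat_lit 74) (nat_lit 5) (nat_lit 75) (nat_lit 5) (nat_lit 268) (nat_lit 233) (nat_lit 219)) (XT.lf (nat_lit 0) (nat_lit 2106000782) (nat_lit 304) (nat_lit 844177828) (nat_lit 380) (nat_lit 6817036642) (nat_lit 64) (nat_lit 5) (nat_lit 68) (nat_lit 5) (nat_lit 69) (nat_lit 5) (nat_lit 269) (nat_lit 233) (nat_lit 218))))))) (XT.nd (nat_lit 780) (nat_lit 1292) (nat_lit 0) (XT.nd (nat_lit 390) (nat_lit 836) (nat_lit 0) (XT.nd (nat_lit 156) (nat_lit 836) (nat_lit 0) (XT.nd (nat_lit 78) (nat_lit 76) (nat_lit 0) (XT.lf (nat_lit 0) (nat_lit 718332925) (nat_lit 304) (nat_lit 6654517926) (nat_lit 380) (nat_lit 2675606452) (nat_lit 60) (nat_lit 5) (nat_lit 64) (nat_lit 5) (nat_lit 65) (nat_lit 5) (nat_lit 270) (nat_lit 233) (nat_lit 217)) (XT.lf (nat_lit 0) (nat_lit 1575205339) (nat_lit 380) (nat_lit 897743105) (nat_lit 76) (nat_lit 7872597373)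 (nat_lit 59) (nat_lit 5) (nat_lit 64) (nat_lit 5) (nat_lit 60) (nat_lit 5) (nat_lit 271) (nat_lit 233) (nat_lit 216))) (XT.nd (nat_lit 78) (nat_lit 608) (nat_lit 0) (XT.lf (nat_lit 0) (nat_lit 5932567321) (nat_lit 304) (nat_lit 2792934296) (nat_lit 76) (nat_lit 1933012445) (nat_lit 56) (nat_lit 5) (nat_lit 60) (nat_lit 5) (nat_lit 57) (nat_lit 5) (nat_lit 272) (nat_lit 233) (nat_lit 215)) (XT.nd (nat_lit 78) (nat_lit 304) (nat_lit 0) (XT.lf (nat_lit 0) (nat_lit 5994540903) (nat_lit 304) (nat_lit 4463860288) (nat_lit 380) (nat_lit 530497506) (nat_lit 52) (nat_lit 5) (nat_lit 56) (nat_lit 5) (nat_lit 57) (nat_lit 5) (nat_lit 273) (nat_lit 233) (nat_lit 214)) (XT.lf (nat_lit 0) (nat_lit 3727108247) (nat_lit 304) (nat_lit 7550264542) (nat_lit 76) (nat_lit 59737105) (nat_lit 48) (nat_lit 5) (nat_lit 52) (nat_lit 5) (nat_lit 49) (nat_lit 5) (nat_lit 274) (nat_lit 233) (nat_lit 213))))) (XT.nd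 (nat_lit 156) (nat_lit 532) (nat_lit 0) (XT.nd (nat_lit 78) (nat_lit 76) (nat_lit 0) (XT.lf (nat_lit 0) (nat_lit 1190693356) (nat_lit 228) (nat_lit 6970655153) (nat_lit 304) (nat_lit 3542235734) (nat_lit 45) (nat_lit 5) (nat_lit 48) (nat_lit 5) (nat_lit 49) (nat_lit 5) (nat_lit 275) (nat_lit 233) (nat_lit 212)) (XT.lf (nat_lit 0) (nat_lit 662454015) (nat_lit 304) (nat_lit 1756593062) (nat_lit 76) (nat_lit 9670925196) (nat_lit 44) (nat_lit 5) (nat_lit 48) (nat_lit 5) (nat_lit 45) (nat_lit 5) (nat_lit 276) (nat_lit 233) (nat_lit 211))) (XT.nd (nat_lit 78) (nat_lit 304) (nat_lit 0) (XT.lf (nat_lit 0) (nat_lit 4974298110) (nat_lit 304) (nat_lit 5154388949) (nat_lit 76) (nat_lit 2367056993) (nat_lit 41) (nat_lit 5) (nat_lit 45) (nat_lit 5) (nat_lit 42) (nat_lit 5) (nat_lit 277) (nat_lit 233) (nat_lit 210)) (XT.nd (nat_lit 78) (nat_lit 76) (nat_lit 0) (XT.lf (nat_lit 0) (nat_lit 3882453950) (nat_lit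 228) (nat_lit 5578489852) (nat_lit 304) (nat_lit 3462295629) (nat_lit 38) (nat_lit 5) (nat_lit 41) (nat_lit 5) (nat_lit 42) (nat_lit 5) (nat_lit 278) (nat_lit 233) (nat_lit 209)) (XT.lf (nat_lit 0) (nat_lit 719735178) (nat_lit 304) (nat_lit 75671160) (nat_lit 76) (nat_lit 12578602057) (nat_lit 37) (nat_lit 5) (nat_lit 41) (nat_lit 5) (nat_lit 38) (nat_lit 5) (nat_lit 279) (nat_lit 233) (nat_lit 208)))))) (XT.nd (nat_lit 390) (nat_lit 532) (nat_lit 0) (XT.nd (nat_lit 156) (nat_lit 380) (nat_lit 0) (XT.nd (nat_lit 78) (nat_lit 228) (nat_lit 0) (XT.lf (nat_lit 0) (nat_lit 5058391384) (nat_lit 228) (nat_lit 4571329922) (nat_lit 76) (nat_lit 4216178280) (nat_lit 35) (nat_lit 5) (nat_lit 38) (nat_lit 5) (nat_lit 36) (nat_lit 5) (nat_lit 280) (nat_lit 233) (nat_lit 207)) (XT.lf (nat_lit 0) (nat_lit 4670098448) (nat_lit 228) (nat_lit 4888427234) (nat_lit 304) (nat_lit 4784700503) (nat_lit 32) (nat_lit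 5) (nat_lit 35) (nat_lit 5) (nat_lit 36) (nat_lit 5) (nat_lit 281) (nat_lit 233) (nat_lit 206))) (XT.nd (nat_lit 78) (nat_lit 380) (nat_lit 0) (XT.lf (nat_lit 0) (nat_lit 14226014533) (nat_lit 304) (nat_lit 559807612) (nat_lit 76) (nat_lit 81495302) (nat_lit 32) (nat_lit 5) (nat_lit 36) (nat_lit 5) (nat_lit 33) (nat_lit 4) (nat_lit 282) (nat_lit 233) (nat_lit 205)) (XT.nd (nat_lit 78) (nat_lit 152) (nat_lit 0) (XT.lf (nat_lit 0) (nat_lit 3671732355) (nat_lit 228) (nat_lit 6473480681) (nat_lit 76) (nat_lit 5270441146) (nat_lit 29) (nat_lit 5) (nat_lit 32) (nat_lit 5) (nat_lit 30) (nat_lit 5) (nat_lit 283) (nat_lit 233) (nat_lit 204)) (XT.lf (nat_lit 0) (nat_lit 2835056364) (nat_lit 152) (nat_lit 5286541976) (nat_lit 228) (nat_lit 7871734286) (nat_lit 27) (nat_lit 5) (nat_lit 29) (nat_lit 5) (nat_lit 30) (nat_lit 5) (nat_lit 284) (nat_lit 233) (nat_lit 203))))) (XT.nd (nat_lit 234) (nat_lit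 304) (nat_lit 0) (XT.nd (nat_lit 78) (nat_lit 228) (nat_lit 0) (XT.lf (nat_lit 0) (nat_lit 12595242625) (nat_lit 152) (nat_lit 169870216) (nat_lit 228) (nat_lit 3835789036) (nat_lit 27) (nat_lit 5) (nat_lit 29) (nat_lit 5) (nat_lit 30) (nat_lit 5) (nat_lit 285) (nat_lit 233) (nat_lit 202)) (XT.nd (nat_lit 78) (nat_lit 0) (nat_lit 0) (XT.lf (nat_lit 0) (nat_lit 405718261) (nat_lit 228) (nat_lit 11724689996) (nat_lit 76) (nat_lit 5108108045) (nat_lit 24) (nat_lit 5) (nat_lit 27) (nat_lit 5) (nat_lit 25) (nat_lit 5) (nat_lit 286) (nat_lit 233) (nat_lit 201)) (XT.lf (nat_lit 0) (nat_lit 4734643473) (nat_lit 228) (nat_lit 2496716271) (nat_lit 76) (nat_lit 10676996827) (nat_lit 24) (nat_lit 5) (nat_lit 27) (nat_lit 5) (nat_lit 25) (nat_lit 5) (nat_lit 287) (nat_lit 233) (nat_lit 200)))) (XT.nd (nat_lit 78) (nat_lit 152) (nat_lit 0) (XT.lf (nat_lit 0) (nat_lit 7197781107) (nat_lit 152) (nat_lit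 2066259103) (nat_lit 228) (nat_lit 9348246595) (nat_lit 22) (nat_lit 5) (nat_lit 24) (nat_lit 5) (nat_lit 25) (nat_lit 5) (nat_lit 288) (nat_lit 233) (nat_lit 199)) (XT.nd (nat_lit 78) (nat_lit 152) (nat_lit 0) (XT.lf (nat_lit 0) (nat_lit 13995289088) (nat_lit 228) (nat_lit 2087552988) (nat_lit 76) (nat_lit 3269423060) (nat_lit 22) (nat_lit 5) (nat_lit 25) (nat_lit 5) (nat_lit 23) (nat_lit 4) (nat_lit 289) (nat_lit 233) (nat_lit 198)) (XT.lf (nat_lit 0) (nat_lit 7708102152) (nat_lit 152) (nat_lit 11271049339) (nat_lit 228) (nat_lit 1149717033) (nat_lit 20) (nat_lit 5) (nat_lit 22) (nat_lit 5) (nat_lit 23) (nat_lit 4) (nat_lit 290) (nat_lit 233) (nat_lit 197))))))))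
noncomputable def xc37 : XT := (XT.nd (nat_lit 1638) (nat_lit 304) (nat_lit 0) (XT.nd (nat_lit 780) (nat_lit 380) (nat_lit 0) (XT.nd (nat_lit 390) (nat_lit 304) (nat_lit 0) (XT.nd (nat_lit 156) (nat_lit 76) (nat_lit 0) (XT.nd (nat_lit 78) (nat_lit 152) (nat_lit 0) (XT.lf (nat_lit 0) (nat_lit 3148652574) (nat_lit 228) (nat_lit 3063311753) (nat_lit 76) (nat_lit 14733159430) (nat_lit 19) (nat_lit 5) (nat_lit 22) (nat_lit 5) (nat_lit 20) (nat_lit 5) (nat_lit 291) (nat_lit 233) (nat_lit 196)) (XT.lf (nat_lit 0) (nat_lit 6763153996) (nat_lit 152) (nat_lit 866730842) (nat_lit 228) (nat_lit 14172308570) (nat_lit 17) (nat_lit 5) (nat_lit 19) (nat_lit 5) (nat_lit 20) (nat_lit 5) (nat_lit 292) (nat_lit 233) (nat_lit 195))) (XT.nd (nat_lit 78) (nat_lit 76) (nat_lit 0) (XT.lf (nat_lit 0) (nat_lit 12341091346) (nat_lit 228) (nat_lit 5719752098) (nat_lit 76) (nat_lit 4641186019) (nat_lit 17) (nat_lit 5)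 (nat_lit 20) (nat_lit 5) (nat_lit 18) (nat_lit 4) (nat_lit 293) (nat_lit 233) (nat_lit 194)) (XT.nd (nat_lit 78) (nat_lit 0) (nat_lit 0) (XT.lf (nat_lit 0) (nat_lit 4023252545) (nat_lit 76) (nat_lit 13243882131) (nat_lit 152) (nat_lit 6380430352) (nat_lit 16) (nat_lit 5) (nat_lit 17) (nat_lit 5) (nat_lit 18) (nat_lit 4) (nat_lit 294) (nat_lit 233) (nat_lit 193)) (XT.lf (nat_lit 0) (nat_lit 14264137019) (nat_lit 76) (nat_lit 8168276577) (nat_lit 152) (nat_lit 2208257680) (nat_lit 16) (nat_lit 5) (nat_lit 17) (nat_lit 5) (nat_lit 18) (nat_lit 4) (nat_lit 295) (nat_lit 233) (nat_lit 192))))) (XT.nd (nat_lit 156) (nat_lit 76) (nat_lit 0) (XT.nd (nat_lit 78) (nat_lit 152) (nat_lit 0) (XT.lf (nat_lit 0) (nat_lit 2066625461) (nat_lit 152) (nat_lit 792205960) (nat_lit 76) (nat_lit 22825955772) (nat_lit 15) (nat_lit 5) (nat_lit 17) (nat_lit 5) (nat_lit 16) (nat_lit 5) (nat_lit 296) (nat_lit 233)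 (nat_lit 191)) (XT.lf (nat_lit 0) (nat_lit 6566061722) (nat_lit 228) (nat_lit 17475296038) (nat_lit 76) (nat_lit 2737472981) (nat_lit 13) (nat_lit 5) (nat_lit 16) (nat_lit 5) (nat_lit 14) (nat_lit 4) (nat_lit 297) (nat_lit 233) (nat_lit 190))) (XT.nd (nat_lit 78) (nat_lit 76) (nat_lit 0) (XT.lf (nat_lit 0) (nat_lit 11268656158) (nat_lit 228) (nat_lit 8134196408) (nat_lit 76) (nat_lit 8525447004) (nat_lit 13) (nat_lit 5) (nat_lit 16) (nat_lit 5) (nat_lit 14) (nat_lit 4) (nat_lit 298) (nat_lit 233) (nat_lit 189)) (XT.nd (nat_lit 78) (nat_lit 0) (nat_lit 0) (XT.lf (nat_lit 0) (nat_lit 1611551912) (nat_lit 76) (nat_lit 14554220273) (nat_lit 152) (nat_lit 12970753321) (nat_lit 12) (nat_lit 5) (nat_lit 13) (nat_lit 5) (nat_lit 14) (nat_lit 4) (nat_lit 299) (nat_lit 233) (nat_lit 188)) (XT.lf (nat_lit 0) (nat_lit 11923405250) (nat_lit 76) (nat_lit 9413768868) (nat_lit 152) (nat_lit 9067168025)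 (nat_lit 12) (nat_lit 5) (nat_lit 13) (nat_lit 5) (nat_lit 14) (nat_lit 4) (nat_lit 300) (nat_lit 233) (nat_lit 187)))))) (XT.nd (nat_lit 390) (nat_lit 152) (nat_lit 0) (XT.nd (nat_lit 156) (nat_lit 76) (nat_lit 0) (XT.nd (nat_lit 78) (nat_lit 152) (nat_lit 0) (XT.lf (nat_lit 0) (nat_lit 22664029176) (nat_lit 76) (nat_lit 4051398616) (nat_lit 152) (nat_lit 5021732708) (nat_lit 12) (nat_lit 5) (nat_lit 13) (nat_lit 5) (nat_lit 14) (nat_lit 4) (nat_lit 301) (nat_lit 233) (nat_lit 186)) (XT.lf (nat_lit 0) (nat_lit 720035319) (nat_lit 152) (nat_lit 31615082487) (nat_lit 152) (nat_lit 802382775) (nat_lit 10) (nat_lit 4) (nat_lit 12) (nat_lit 5) (nat_lit 12) (nat_lit 4) (nat_lit 302) (nat_lit 233) (nat_lit 185))) (XT.nd (nat_lit 78) (nat_lit 0) (nat_lit 0) (XT.lf (nat_lit 0) (nat_lit 3643829424) (nat_lit 228) (nat_lit 23571797603) (nat_lit 76) (nat_lit 7388636010) (nat_lit 9) (nat_lit 5) (nat_lit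 12) (nat_lit 5) (nat_lit 10) (nat_lit 4) (nat_lit 303) (nat_lit 233) (nat_lit 184)) (XT.nd (nat_lit 78) (nat_lit 0) (nat_lit 0) (XT.lf (nat_lit 0) (nat_lit 8249695284) (nat_lit 228) (nat_lit 14370529548) (nat_lit 76) (nat_lit 13525332093) (nat_lit 9) (nat_lit 5) (nat_lit 12) (nat_lit 5) (nat_lit 10) (nat_lit 4) (nat_lit 304) (nat_lit 233) (nat_lit 183)) (XT.lf (nat_lit 0) (nat_lit 13041838530) (nat_lit 228) (nat_lit 4784040324) (nat_lit 76) (nat_lit 19939404529) (nat_lit 9) (nat_lit 5) (nat_lit 12) (nat_lit 5) (nat_lit 10) (nat_lit 4) (nat_lit 305) (nat_lit 233) (nat_lit 182))))) (XT.nd (nat_lit 234) (nat_lit 76) (nat_lit 0) (XT.nd (nat_lit 78) (nat_lit 0) (nat_lit 0) (XT.lf (nat_lit 0) (nat_lit 5314194113) (nat_lit 76) (nat_lit 12768558197) (nat_lit 152) (nat_lit 21383014091) (nat_lit 8) (nat_lit 5) (nat_lit 9) (nat_lit 5) (nat_lit 10) (nat_lit 4) (nat_lit 306) (nat_lit 233) (nat_lit 181))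 (XT.nd (nat_lit 78) (nat_lit 0) (nat_lit 0) (XT.lf (nat_lit 0) (nat_lit 15948077506) (nat_lit 76) (nat_lit 7436292490) (nat_lit 152) (nat_lit 17866686818) (nat_lit 8) (nat_lit 5) (nat_lit 9) (nat_lit 5) (nat_lit 10) (nat_lit 4) (nat_lit 307) (nat_lit 233) (nat_lit 180)) (XT.lf (nat_lit 0) (nat_lit 27047716842) (nat_lit 76) (nat_lit 1864695290) (nat_lit 152) (nat_lit 14214400252) (nat_lit 8) (nat_lit 5) (nat_lit 9) (nat_lit 5) (nat_lit 10) (nat_lit 4) (nat_lit 308) (nat_lit 233) (nat_lit 179)))) (XT.nd (nat_lit 78) (nat_lit 76) (nat_lit 0) (XT.lf (nat_lit 0) (nat_lit 34718101852) (nat_lit 152) (nat_lit 6496020490) (nat_lit 0) (nat_lit 3882235020) (nat_lit 8) (nat_lit 5) (nat_lit 10) (nat_lit 4) (nat_lit 8) (nat_lit 4) (nat_lit 309) (nat_lit 233) (nat_lit 178)) (XT.nd (nat_lit 78) (nat_lit 0) (nat_lit 0) (XT.lf (nat_lit 0) (nat_lit 3556121165) (nat_lit 76) (nat_lit 37275658931) (nat_lit 76)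 (nat_lit 6332105509) (nat_lit 7) (nat_lit 4) (nat_lit 8) (nat_lit 5) (nat_lit 8) (nat_lit 4) (nat_lit 310) (nat_lit 233) (nat_lit 177)) (XT.lf (nat_lit 0) (nat_lit 14187697345) (nat_lit 76) (nat_lit 33096129907) (nat_lit 76) (nat_lit 2050017826) (nat_lit 7) (nat_lit 4) (nat_lit 8) (nat_lit 5) (nat_lit 8) (nat_lit 4) (nat_lit 311) (nat_lit 233) (nat_lit 176))))))) (XT.nd (nat_lit 858) (nat_lit 76) (nat_lit 0) (XT.nd (nat_lit 390) (nat_lit 76) (nat_lit 0) (XT.nd (nat_lit 156) (nat_lit 76) (nat_lit 0) (XT.nd (nat_lit 78) (nat_lit 0) (nat_lit 0) (XT.lf (nat_lit 0) (nat_lit 2365527283) (nat_lit 152) (nat_lit 26341766608) (nat_lit 76) (nat_lit 22905323312) (nat_lit 6) (nat_lit 5) (nat_lit 8) (nat_lit 5) (nat_lit 7) (nat_lit 4) (nat_lit 312) (nat_lit 233) (nat_lit 175)) (XT.lf (nat_lit 0) (nat_lit 6928500266) (nat_lit 152) (nat_lit 17171955177) (nat_lit 76) (nat_lit 29905223276) (nat_lit 6) (nat_lit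 5) (nat_lit 8) (nat_lit 5) (nat_lit 7) (nat_lit 4) (nat_lit 313) (nat_lit 233) (nat_lit 174))) (XT.nd (nat_lit 78) (nat_lit 76) (nat_lit 0) (XT.lf (nat_lit 0) (nat_lit 11689768578) (nat_lit 152) (nat_lit 7595174531) (nat_lit 76) (nat_lit 37234375466) (nat_lit 6) (nat_lit 5) (nat_lit 8) (nat_lit 5) (nat_lit 7) (nat_lit 4) (nat_lit 314) (nat_lit 233) (nat_lit 173)) (XT.nd (nat_lit 78) (nat_lit 0) (nat_lit 0) (XT.lf (nat_lit 0) (nat_lit 2459368324) (nat_lit 76) (nat_lit 14224941198) (nat_lit 152) (nat_lit 42474502874) (nat_lit 5) (nat_lit 5) (nat_lit 6) (nat_lit 5) (nat_lit 7) (nat_lit 4) (nat_lit 315) (nat_lit 233) (nat_lit 172)) (XT.lf (nat_lit 0) (nat_lit 13127693696) (nat_lit 76) (nat_lit 8851533443) (nat_lit 152) (nat_lit 39949561184) (nat_lit 5) (nat_lit 5) (nat_lit 6) (nat_lit 5) (nat_lit 7) (nat_lit 4) (nat_lit 316) (nat_lit 233) (nat_lit 171))))) (XT.nd (nat_lit 234) (nat_lit 76) (nat_lit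 0) (XT.nd (nat_lit 78) (nat_lit 0) (nat_lit 0) (XT.lf (nat_lit 0) (nat_lit 24284043495) (nat_lit 76) (nat_lit 3228622388) (nat_lit 152) (nat_lit 37325409532) (nat_lit 5) (nat_lit 5) (nat_lit 6) (nat_lit 5) (nat_lit 7) (nat_lit 4) (nat_lit 317) (nat_lit 233) (nat_lit 170)) (XT.nd (nat_lit 78) (nat_lit 0) (nat_lit 0) (XT.lf (nat_lit 0) (nat_lit 33323343044) (nat_lit 152) (nat_lit 31964162524) (nat_lit 0) (nat_lit 2605328702) (nat_lit 5) (nat_lit 5) (nat_lit 7) (nat_lit 4) (nat_lit 5) (nat_lit 4) (nat_lit 318) (nat_lit 233) (nat_lit 169)) (XT.lf (nat_lit 0) (nat_lit 39433187587) (nat_lit 152) (nat_lit 23019128389) (nat_lit 0) (nat_lit 8647779326) (nat_lit 5) (nat_lit 5) (nat_lit 7) (nat_lit 4) (nat_lit 5) (nat_lit 4) (nat_lit 319) (nat_lit 233) (nat_lit 168)))) (XT.nd (nat_lit 78) (nat_lit 76) (nat_lit 0) (XT.lf (nat_lit 0) (nat_lit 45825711269) (nat_lit 152) (nat_lit 13666596322) (nat_lit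 0) (nat_lit 14976118323) (nat_lit 5) (nat_lit 5) (nat_lit 7) (nat_lit 4) (nat_lit 5) (nat_lit 4) (nat_lit 320) (nat_lit 233) (nat_lit 167)) (XT.nd (nat_lit 78) (nat_lit 76) (nat_lit 0) (XT.lf (nat_lit 0) (nat_lit 52516134384) (nat_lit 152) (nat_lit 3884298390) (nat_lit 0) (nat_lit 21605413166) (nat_lit 5) (nat_lit 5) (nat_lit 7) (nat_lit 4) (nat_lit 5) (nat_lit 4) (nat_lit 321) (nat_lit 233) (nat_lit 166)) (XT.lf (nat_lit 0) (nat_lit 6477455072) (nat_lit 76) (nat_lit 53105196699) (nat_lit 76) (nat_lit 22136258080) (nat_lit 4) (nat_lit 4) (nat_lit 5) (nat_lit 5) (nat_lit 5) (nat_lit 4) (nat_lit 322) (nat_lit 233) (nat_lit 165)))))) (XT.nd (nat_lit 390) (nat_lit 76) (nat_lit 0) (XT.nd (nat_lit 156) (nat_lit 0) (nat_lit 0) (XT.nd (nat_lit 78) (nat_lit 0) (nat_lit 0) (XT.lf (nat_lit 0) (nat_lit 17403442366) (nat_lit 76) (nat_lit 49618994608) (nat_lit 76) (nat_lit 18594610845) (nat_lit 4) (nat_lit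 4) (nat_lit 5) (nat_lit 5) (nat_lit 5) (nat_lit 4) (nat_lit 323) (nat_lit 233) (nat_lit 164)) (XT.lf (nat_lit 0) (nat_lit 28842372592) (nat_lit 76) (nat_lit 45972749819) (nat_lit 76) (nat_lit 14895561157) (nat_lit 4) (nat_lit 4) (nat_lit 5) (nat_lit 5) (nat_lit 5) (nat_lit 4) (nat_lit 324) (nat_lit 233) (nat_lit 163))) (XT.nd (nat_lit 78) (nat_lit 0) (nat_lit 0) (XT.lf (nat_lit 0) (nat_lit 40821481297) (nat_lit 76) (nat_lit 42157780796) (nat_lit 76) (nat_lit 11030301754) (nat_lit 4) (nat_lit 4) (nat_lit 5) (nat_lit 5) (nat_lit 5) (nat_lit 4) (nat_lit 325) (nat_lit 233) (nat_lit 162)) (XT.nd (nat_lit 78) (nat_lit 0) (nat_lit 0) (XT.lf (nat_lit 0) (nat_lit 53369290171) (nat_lit 76) (nat_lit 38165004280) (nat_lit 76) (nat_lit 6989629637) (nat_lit 4) (nat_lit 4) (nat_lit 5) (nat_lit 5) (nat_lit 5) (nat_lit 4) (nat_lit 326) (nat_lit 233) (nat_lit 161)) (XT.lf (nat_lit 0) (nat_lit 66515674947)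 (nat_lit 76) (nat_lit 33984913659) (nat_lit 76) (nat_lit 2763924159) (nat_lit 4) (nat_lit 4) (nat_lit 5) (nat_lit 5) (nat_lit 5) (nat_lit 4) (nat_lit 327) (nat_lit 233) (nat_lit 160))))) (XT.nd (nat_lit 31590) (nat_lit 0) (nat_lit 12464) (XT.nd (nat_lit 78) (nat_lit 0) (nat_lit 0) (XT.lf (nat_lit 0) (nat_lit 1624544267) (nat_lit 152) (nat_lit 27966607358) (nat_lit 76) (nat_lit 78650987563) (nat_lit 3) (nat_lit 5) (nat_lit 5) (nat_lit 5) (nat_lit 4) (nat_lit 4) (nat_lit 328) (nat_lit 233) (nat_lit 159)) (XT.nd (nat_lit 78) (nat_lit 0) (nat_lit 0) (XT.lf (nat_lit 0) (nat_lit 6160686465) (nat_lit 152) (nat_lit 18799612716) (nat_lit 76) (nat_lit 88507978260) (nat_lit 3) (nat_lit 5) (nat_lit 5) (nat_lit 5) (nat_lit 4) (nat_lit 4) (nat_lit 329) (nat_lit 233) (nat_lit 158)) (XT.lf (nat_lit 0) (nat_lit 10909236888) (nat_lit 152) (nat_lit 9199459185) (nat_lit 76) (nat_lit 98847471693) (nat_lit 3)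 (nat_lit 5) (nat_lit 5) (nat_lit 5) (nat_lit 4) (nat_lit 4) (nat_lit 330) (nat_lit 233) (nat_lit 157)))) (XT.nd (nat_lit 78) (nat_lit 1824) (nat_lit 0) (XT.lf (nat_lit 0) (nat_lit 150200788) (nat_lit 836) (nat_lit 3156867365) (nat_lit 0) (nat_lit 150200788) (nat_lit 191) (nat_lit 5) (nat_lit 202) (nat_lit 4) (nat_lit 191) (nat_lit 4) (nat_lit 252) (nat_lit 234) (nat_lit 234)) (XT.nd (nat_lit 78) (nat_lit 988) (nat_lit 0) (XT.lf (nat_lit 0) (nat_lit 289881751) (nat_lit 836) (nat_lit 4763702421) (nat_lit 836) (nat_lit 1946406789) (nat_lit 180) (nat_lit 4) (nat_lit 191) (nat_lit 5) (nat_lit 191) (nat_lit 4) (nat_lit 253) (nat_lit 234) (nat_lit 233)) (XT.lf (nat_lit 0) (nat_lit 11149875) (nat_lit 912) (nat_lit 2703916234) (nat_lit 988) (nat_lit 4380156445) (nat_lit 167) (nat_lit 5) (nat_lit 179) (nat_lit 5) (nat_lit 180) (nat_lit 4) (nat_lit 254) (nat_lit 234) (nat_lit 232))))))))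
noncomputable def xc38 : XT := (XT.nd (nat_lit 1638) (nat_lit 2660) (nat_lit 0) (XT.nd (nat_lit 780) (nat_lit 3116) (nat_lit 0) (XT.nd (nat_lit 390) (nat_lit 2508) (nat_lit 0) (XT.nd (nat_lit 156) (nat_lit 2356) (nat_lit 0) (XT.nd (nat_lit 78) (nat_lit 988) (nat_lit 0) (XT.lf (nat_lit 0) (nat_lit 196092234) (nat_lit 988) (nat_lit 235163373) (nat_lit 76) (nat_lit 6769244057) (nat_lit 166) (nat_lit 5) (nat_lit 179) (nat_lit 5) (nat_lit 167) (nat_lit 5) (nat_lit 255) (nat_lit 234) (nat_lit 231)) (XT.lf (nat_lit 0) (nat_lit 4767294340) (nat_lit 1064) (nat_lit 506363760) (nat_lit 76) (nat_lit 2041170716) (nat_lit 153) (nat_lit 5) (nat_lit 167) (nat_lit 5) (nat_lit 154) (nat_lit 4) (nat_lit 256) (nat_lit 234) (nat_lit 230))) (XT.nd (nat_lit 78) (nat_lit 1216) (nat_lit 0) (XT.lf (nat_lit 0) (nat_lit 1938651083) (nat_lit 1140) (nat_lit 776157485) (nat_lit 76) (nat_lit 4724740202) (nat_lit 138) (nat_lit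 5) (nat_lit 153) (nat_lit 5) (nat_lit 139) (nat_lit 5) (nat_lit 257) (nat_lit 234) (nat_lit 229)) (XT.nd (nat_lit 78) (nat_lit 608) (nat_lit 0) (XT.lf (nat_lit 0) (nat_lit 6450440048) (nat_lit 684) (nat_lit 1058412190) (nat_lit 76) (nat_lit 65973011) (nat_lit 130) (nat_lit 5) (nat_lit 139) (nat_lit 5) (nat_lit 131) (nat_lit 4) (nat_lit 258) (nat_lit 234) (nat_lit 228)) (XT.lf (nat_lit 0) (nat_lit 3291143303) (nat_lit 608) (nat_lit 1400249214) (nat_lit 76) (nat_lit 3028478608) (nat_lit 122) (nat_lit 5) (nat_lit 130) (nat_lit 5) (nat_lit 123) (nat_lit 5) (nat_lit 259) (nat_lit 234) (nat_lit 227))))) (XT.nd (nat_lit 156) (nat_lit 1444) (nat_lit 0) (XT.nd (nat_lit 78) (nat_lit 532) (nat_lit 0) (XT.lf (nat_lit 0) (nat_lit 6109344397) (nat_lit 532) (nat_lit 1663158661) (nat_lit 608) (nat_lit 103896477) (nat_lit 115) (nat_lit 5) (nat_lit 122) (nat_lit 5) (nat_lit 123) (nat_lit 5) (nat_lit 260)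 (nat_lit 234) (nat_lit 226)) (XT.lf (nat_lit 0) (nat_lit 4240291983) (nat_lit 532) (nat_lit 2218369443) (nat_lit 76) (nat_lit 1584689578) (nat_lit 108) (nat_lit 5) (nat_lit 115) (nat_lit 5) (nat_lit 109) (nat_lit 5) (nat_lit 261) (nat_lit 234) (nat_lit 225))) (XT.nd (nat_lit 78) (nat_lit 912) (nat_lit 0) (XT.lf (nat_lit 0) (nat_lit 466663391) (nat_lit 532) (nat_lit 2735672919) (nat_lit 76) (nat_lit 5019727534) (nat_lit 101) (nat_lit 5) (nat_lit 108) (nat_lit 5) (nat_lit 102) (nat_lit 5) (nat_lit 262) (nat_lit 234) (nat_lit 224)) (XT.nd (nat_lit 78) (nat_lit 532) (nat_lit 0) (XT.lf (nat_lit 0) (nat_lit 4761954291) (nat_lit 456) (nat_lit 3352999702) (nat_lit 76) (nat_lit 297406174) (nat_lit 96) (nat_lit 5) (nat_lit 102) (nat_lit 5) (nat_lit 97) (nat_lit 5) (nat_lit 263) (nat_lit 234) (nat_lit 223)) (XT.lf (nat_lit 0) (nat_lit 572035328) (nat_lit 532) (nat_lit 4085600325) (nat_lit 76) (nat_lit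 3957055072) (nat_lit 89) (nat_lit 5) (nat_lit 96) (nat_lit 5) (nat_lit 90) (nat_lit 5) (nat_lit 264) (nat_lit 234) (nat_lit 222)))))) (XT.nd (nat_lit 390) (nat_lit 1520) (nat_lit 0) (XT.nd (nat_lit 156) (nat_lit 760) (nat_lit 0) (XT.nd (nat_lit 78) (nat_lit 456) (nat_lit 0) (XT.lf (nat_lit 0) (nat_lit 3878896399) (nat_lit 380) (nat_lit 950334400) (nat_lit 456) (nat_lit 4000288775) (nat_lit 84) (nat_lit 5) (nat_lit 89) (nat_lit 5) (nat_lit 90) (nat_lit 5) (nat_lit 265) (nat_lit 234) (nat_lit 221)) (XT.lf (nat_lit 0) (nat_lit 171145219) (nat_lit 456) (nat_lit 5962275906) (nat_lit 76) (nat_lit 2924053634) (nat_lit 78) (nat_lit 5) (nat_lit 84) (nat_lit 5) (nat_lit 79) (nat_lit 5) (nat_lit 266) (nat_lit 234) (nat_lit 220))) (XT.nd (nat_lit 78) (nat_lit 456) (nat_lit 0) (XT.lf (nat_lit 0) (nat_lit 2137039972) (nat_lit 304) (nat_lit 2250066051) (nat_lit 380) (nat_lit 4911360231) (nat_lit 74) (nat_lit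 5) (nat_lit 78) (nat_lit 5) (nat_lit 79) (nat_lit 5) (nat_lit 267) (nat_lit 234) (nat_lit 219)) (XT.nd (nat_lit 78) (nat_lit 76) (nat_lit 0) (XT.lf (nat_lit 0) (nat_lit 1013389779) (nat_lit 380) (nat_lit 7731554841) (nat_lit 456) (nat_lit 808999234) (nat_lit 69) (nat_lit 5) (nat_lit 74) (nat_lit 5) (nat_lit 75) (nat_lit 5) (nat_lit 268) (nat_lit 234) (nat_lit 218)) (XT.lf (nat_lit 0) (nat_lit 3372930135) (nat_lit 456) (nat_lit 332468670) (nat_lit 76) (nat_lit 6117847220) (nat_lit 68) (nat_lit 5) (nat_lit 74) (nat_lit 5) (nat_lit 69) (nat_lit 5) (nat_lit 269) (nat_lit 234) (nat_lit 217))))) (XT.nd (nat_lit 234) (nat_lit 608) (nat_lit 0) (XT.nd (nat_lit 78) (nat_lit 608) (nat_lit 0) (XT.lf (nat_lit 0) (nat_lit 7685009713) (nat_lit 380) (nat_lit 1867198982) (nat_lit 76) (nat_lit 555755638) (nat_lit 64) (nat_lit 5) (nat_lit 69) (nat_lit 5) (nat_lit 65) (nat_lit 5) (nat_lit 270) (nat_lit 234)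 (nat_lit 216)) (XT.nd (nat_lit 78) (nat_lit 228) (nat_lit 0) (XT.lf (nat_lit 0) (nat_lit 1733261053) (nat_lit 380) (nat_lit 3679334160) (nat_lit 76) (nat_lit 4995221289) (nat_lit 59) (nat_lit 5) (nat_lit 64) (nat_lit 5) (nat_lit 60) (nat_lit 5) (nat_lit 271) (nat_lit 234) (nat_lit 215)) (XT.lf (nat_lit 0) (nat_lit 4954323475) (nat_lit 228) (nat_lit 1021386664) (nat_lit 304) (nat_lit 4748661552) (nat_lit 56) (nat_lit 5) (nat_lit 59) (nat_lit 5) (nat_lit 60) (nat_lit 5) (nat_lit 272) (nat_lit 234) (nat_lit 214)))) (XT.nd (nat_lit 78) (nat_lit 304) (nat_lit 0) (XT.lf (nat_lit 0) (nat_lit 2875151370) (nat_lit 304) (nat_lit 7520938584) (nat_lit 380) (nat_lit 661962906) (nat_lit 52) (nat_lit 5) (nat_lit 56) (nat_lit 5) (nat_lit 57) (nat_lit 5) (nat_lit 273) (nat_lit 234) (nat_lit 213)) (XT.nd (nat_lit 78) (nat_lit 0) (nat_lit 0) (XT.lf (nat_lit 0) (nat_lit 444936621) (nat_lit 228) (nat_lit 3056428134)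 (nat_lit 304) (nat_lit 7907965413) (nat_lit 48) (nat_lit 5) (nat_lit 51) (nat_lit 5) (nat_lit 52) (nat_lit 5) (nat_lit 274) (nat_lit 234) (nat_lit 212)) (XT.lf (nat_lit 0) (nat_lit 7832619596) (nat_lit 304) (nat_lit 2306446823) (nat_lit 76) (nat_lit 1639944703) (nat_lit 48) (nat_lit 5) (nat_lit 52) (nat_lit 5) (nat_lit 49) (nat_lit 5) (nat_lit 275) (nat_lit 234) (nat_lit 211))))))) (XT.nd (nat_lit 858) (nat_lit 912) (nat_lit 0) (XT.nd (nat_lit 390) (nat_lit 760) (nat_lit 0) (XT.nd (nat_lit 156) (nat_lit 456) (nat_lit 0) (XT.nd (nat_lit 78) (nat_lit 228) (nat_lit 0) (XT.lf (nat_lit 0) (nat_lit 182613002) (nat_lit 304) (nat_lit 5459550465) (nat_lit 76) (nat_lit 6525967612) (nat_lit 44) (nat_lit 5) (nat_lit 48) (nat_lit 5) (nat_lit 45) (nat_lit 5) (nat_lit 276) (nat_lit 234) (nat_lit 210)) (XT.lf (nat_lit 0) (nat_lit 3503206336) (nat_lit 228) (nat_lit 873076443) (nat_lit 304) (nat_lit 8201268377)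 (nat_lit 41) (nat_lit 5) (nat_lit 44) (nat_lit 5) (nat_lit 45) (nat_lit 5) (nat_lit 277) (nat_lit 234) (nat_lit 209))) (XT.nd (nat_lit 78) (nat_lit 456) (nat_lit 0) (XT.lf (nat_lit 0) (nat_lit 8761099833) (nat_lit 304) (nat_lit 187730901) (nat_lit 76) (nat_lit 4059368822) (nat_lit 41) (nat_lit 5) (nat_lit 45) (nat_lit 5) (nat_lit 42) (nat_lit 5) (nat_lit 278) (nat_lit 234) (nat_lit 208)) (XT.nd (nat_lit 78) (nat_lit 228) (nat_lit 0) (XT.lf (nat_lit 0) (nat_lit 9151198410) (nat_lit 228) (nat_lit 4201179444) (nat_lit 304) (nat_lit 108577568) (nat_lit 38) (nat_lit 5) (nat_lit 41) (nat_lit 5) (nat_lit 42) (nat_lit 5) (nat_lit 279) (nat_lit 234) (nat_lit 207)) (XT.lf (nat_lit 0) (nat_lit 4104287862) (nat_lit 228) (nat_lit 9024431850) (nat_lit 76) (nat_lit 808081939) (nat_lit 35) (nat_lit 5) (nat_lit 38) (nat_lit 5) (nat_lit 36) (nat_lit 5) (nat_lit 280) (nat_lit 234) (nat_lit 206))))) (XT.nd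 (nat_lit 234) (nat_lit 304) (nat_lit 0) (XT.nd (nat_lit 78) (nat_lit 228) (nat_lit 0) (XT.lf (nat_lit 0) (nat_lit 49935542) (nat_lit 228) (nat_lit 8459360978) (nat_lit 304) (nat_lit 5927767825) (nat_lit 32) (nat_lit 5) (nat_lit 35) (nat_lit 5) (nat_lit 36) (nat_lit 5) (nat_lit 281) (nat_lit 234) (nat_lit 205)) (XT.nd (nat_lit 78) (nat_lit 228) (nat_lit 0) (XT.lf (nat_lit 0) (nat_lit 9613469381) (nat_lit 228) (nat_lit 3513500085) (nat_lit 304) (nat_lit 1835759024) (nat_lit 32) (nat_lit 5) (nat_lit 35) (nat_lit 5) (nat_lit 36) (nat_lit 5) (nat_lit 282) (nat_lit 234) (nat_lit 204)) (XT.lf (nat_lit 0) (nat_lit 2371217825) (nat_lit 228) (nat_lit 11484205845) (nat_lit 76) (nat_lit 1659939505) (nat_lit 29) (nat_lit 5) (nat_lit 32) (nat_lit 5) (nat_lit 30) (nat_lit 5) (nat_lit 283) (nat_lit 234) (nat_lit 203)))) (XT.nd (nat_lit 78) (nat_lit 304) (nat_lit 0) (XT.lf (nat_lit 0) (nat_lit 6747953098)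 (nat_lit 228) (nat_lit 2302281573) (nat_lit 76) (nat_lit 7045069914) (nat_lit 29) (nat_lit 5) (nat_lit 32) (nat_lit 5) (nat_lit 30) (nat_lit 5) (nat_lit 284) (nat_lit 234) (nat_lit 202)) (XT.nd (nat_lit 78) (nat_lit 152) (nat_lit 0) (XT.lf (nat_lit 0) (nat_lit 7342837688) (nat_lit 152) (nat_lit 3981699149) (nat_lit 228) (nat_lit 5380410680) (nat_lit 27) (nat_lit 5) (nat_lit 29) (nat_lit 5) (nat_lit 30) (nat_lit 5) (nat_lit 285) (nat_lit 234) (nat_lit 201)) (XT.lf (nat_lit 0) (nat_lit 23853434) (nat_lit 152) (nat_lit 16056070184) (nat_lit 228) (nat_lit 1266778144) (nat_lit 25) (nat_lit 5) (nat_lit 27) (nat_lit 5) (nat_lit 28) (nat_lit 4) (nat_lit 286) (nat_lit 234) (nat_lit 200)))))) (XT.nd (nat_lit 390) (nat_lit 456) (nat_lit 0) (XT.nd (nat_lit 156) (nat_lit 228) (nat_lit 0) (XT.nd (nat_lit 78) (nat_lit 152) (nat_lit 0) (XT.lf (nat_lit 0) (nat_lit 3045322954) (nat_lit 228) (nat_lit 8148712029)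 (nat_lit 76) (nat_lit 6824176572) (nat_lit 24) (nat_lit 5) (nat_lit 27) (nat_lit 5) (nat_lit 25) (nat_lit 5) (nat_lit 287) (nat_lit 234) (nat_lit 199)) (XT.lf (nat_lit 0) (nat_lit 1369177371) (nat_lit 152) (nat_lit 6109948961) (nat_lit 228) (nat_lit 11245938407) (nat_lit 22) (nat_lit 5) (nat_lit 24) (nat_lit 5) (nat_lit 25) (nat_lit 5) (nat_lit 288) (nat_lit 234) (nat_lit 198))) (XT.nd (nat_lit 78) (nat_lit 228) (nat_lit 0) (XT.lf (nat_lit 0) (nat_lit 11408054431) (nat_lit 152) (nat_lit 731999385) (nat_lit 228) (nat_lit 7327151418) (nat_lit 22) (nat_lit 5) (nat_lit 24) (nat_lit 5) (nat_lit 25) (nat_lit 5) (nat_lit 289) (nat_lit 234) (nat_lit 197)) (XT.nd (nat_lit 78) (nat_lit 76) (nat_lit 0) (XT.lf (nat_lit 0) (nat_lit 1564562810) (nat_lit 152) (nat_lit 15456606860) (nat_lit 228) (nat_lit 3225771368) (nat_lit 20) (nat_lit 5) (nat_lit 22) (nat_lit 5) (nat_lit 23) (nat_lit 4) (nat_lit 290)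 (nat_lit 234) (nat_lit 196)) (XT.lf (nat_lit 0) (nat_lit 1077250745) (nat_lit 228) (nat_lit 9363128634) (nat_lit 76) (nat_lit 10624537599) (nat_lit 19) (nat_lit 5) (nat_lit 22) (nat_lit 5) (nat_lit 20) (nat_lit 5) (nat_lit 291) (nat_lit 234) (nat_lit 195))))) (XT.nd (nat_lit 234) (nat_lit 304) (nat_lit 0) (XT.nd (nat_lit 78) (nat_lit 0) (nat_lit 0) (XT.lf (nat_lit 0) (nat_lit 281464263) (nat_lit 152) (nat_lit 5180561550) (nat_lit 228) (nat_lit 16462898581) (nat_lit 17) (nat_lit 5) (nat_lit 19) (nat_lit 5) (nat_lit 20) (nat_lit 5) (nat_lit 292) (nat_lit 234) (nat_lit 194)) (XT.nd (nat_lit 78) (nat_lit 0) (nat_lit 0) (XT.lf (nat_lit 0) (nat_lit 10098523390) (nat_lit 228) (nat_lit 12337343228) (nat_lit 76) (nat_lit 391177052) (nat_lit 17) (nat_lit 5) (nat_lit 20) (nat_lit 5) (nat_lit 18) (nat_lit 4) (nat_lit 293) (nat_lit 234) (nat_lit 193)) (XT.lf (nat_lit 0) (nat_lit 14954233945) (nat_lit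 228) (nat_lit 2724882531) (nat_lit 76) (nat_lit 6095612695) (nat_lit 17) (nat_lit 5) (nat_lit 20) (nat_lit 5) (nat_lit 18) (nat_lit 4) (nat_lit 294) (nat_lit 234) (nat_lit 192)))) (XT.nd (nat_lit 78) (nat_lit 228) (nat_lit 0) (XT.lf (nat_lit 0) (nat_lit 7411227232) (nat_lit 76) (nat_lit 12650933987) (nat_lit 152) (nat_lit 4707432802) (nat_lit 16) (nat_lit 5) (nat_lit 17) (nat_lit 5) (nat_lit 18) (nat_lit 4) (nat_lit 295) (nat_lit 234) (nat_lit 191)) (XT.nd (nat_lit 78) (nat_lit 228) (nat_lit 0) (XT.lf (nat_lit 0) (nat_lit 18012402974) (nat_lit 76) (nat_lit 7381316833) (nat_lit 152) (nat_lit 421509547) (nat_lit 16) (nat_lit 5) (nat_lit 17) (nat_lit 5) (nat_lit 18) (nat_lit 4) (nat_lit 296) (nat_lit 234) (nat_lit 190)) (XT.lf (nat_lit 0) (nat_lit 2137802751) (nat_lit 152) (nat_lit 1824266300) (nat_lit 228) (nat_lit 22951081401) (nat_lit 13) (nat_lit 5) (nat_lit 15) (nat_lit 5) (nat_lit 16)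 (nat_lit 5) (nat_lit 297) (nat_lit 234) (nat_lit 189))))))))
noncomputable def xc39 : XT := (XT.nd (nat_lit 1638) (nat_lit 152) (nat_lit 0) (XT.nd (nat_lit 780) (nat_lit 228) (nat_lit 0) (XT.nd (nat_lit 390) (nat_lit 304) (nat_lit 0) (XT.nd (nat_lit 156) (nat_lit 76) (nat_lit 0) (XT.nd (nat_lit 78) (nat_lit 0) (nat_lit 0) (XT.lf (nat_lit 0) (nat_lit 8619761985) (nat_lit 228) (nat_lit 15462494289) (nat_lit 76) (nat_lit 3981741964) (nat_lit 13) (nat_lit 5) (nat_lit 16) (nat_lit 5) (nat_lit 14) (nat_lit 4) (nat_lit 298) (nat_lit 234) (nat_lit 188)) (XT.lf (nat_lit 0) (nat_lit 13475324373) (nat_lit 228) (nat_lit 5791795227) (nat_lit 76) (nat_lit 10006381576) (nat_lit 13) (nat_lit 5) (nat_lit 16) (nat_lit 5) (nat_lit 14) (nat_lit 4) (nat_lit 299) (nat_lit 234) (nat_lit 187))) (XT.nd (nat_lit 78) (nat_lit 0) (nat_lit 0) (XT.lf (nat_lit 0) (nat_lit 4362437795) (nat_lit 76) (nat_lit 14202277739)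 (nat_lit 152) (nat_lit 11979091549) (nat_lit 12) (nat_lit 5) (nat_lit 13) (nat_lit 5) (nat_lit 14) (nat_lit 4) (nat_lit 300) (nat_lit 234) (nat_lit 186)) (XT.nd (nat_lit 78) (nat_lit 0) (nat_lit 0) (XT.lf (nat_lit 0) (nat_lit 15062726261) (nat_lit 76) (nat_lit 8856215837) (nat_lit 152) (nat_lit 7958431723) (nat_lit 12) (nat_lit 5) (nat_lit 13) (nat_lit 5) (nat_lit 14) (nat_lit 4) (nat_lit 301) (nat_lit 234) (nat_lit 185)) (XT.lf (nat_lit 0) (nat_lit 26219278967) (nat_lit 76) (nat_lit 3274690953) (nat_lit 152) (nat_lit 3785110103) (nat_lit 12) (nat_lit 5) (nat_lit 13) (nat_lit 5) (nat_lit 14) (nat_lit 4) (nat_lit 302) (nat_lit 234) (nat_lit 184))))) (XT.nd (nat_lit 156) (nat_lit 76) (nat_lit 0) (XT.nd (nat_lit 78) (nat_lit 0) (nat_lit 0) (XT.lf (nat_lit 0) (nat_lit 595383763) (nat_lit 228) (nat_lit 31613292126) (nat_lit 76) (nat_lit 2541768683) (nat_lit 9) (nat_lit 5) (nat_lit 12) (nat_lit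 5) (nat_lit 10) (nat_lit 4) (nat_lit 303) (nat_lit 234) (nat_lit 183)) (XT.lf (nat_lit 0) (nat_lit 5179778449) (nat_lit 228) (nat_lit 22448532478) (nat_lit 76) (nat_lit 8664094790) (nat_lit 9) (nat_lit 5) (nat_lit 12) (nat_lit 5) (nat_lit 10) (nat_lit 4) (nat_lit 304) (nat_lit 234) (nat_lit 182))) (XT.nd (nat_lit 78) (nat_lit 76) (nat_lit 0) (XT.lf (nat_lit 0) (nat_lit 9951472957) (nat_lit 228) (nat_lit 12896813164) (nat_lit 76) (nat_lit 15064481535) (nat_lit 9) (nat_lit 5) (nat_lit 12) (nat_lit 5) (nat_lit 10) (nat_lit 4) (nat_lit 305) (nat_lit 234) (nat_lit 181)) (XT.nd (nat_lit 78) (nat_lit 76) (nat_lit 0) (XT.lf (nat_lit 0) (nat_lit 14921828464) (nat_lit 228) (nat_lit 2935391995) (nat_lit 76) (nat_lit 21758167934) (nat_lit 9) (nat_lit 5) (nat_lit 12) (nat_lit 5) (nat_lit 10) (nat_lit 4) (nat_lit 306) (nat_lit 234) (nat_lit 180)) (XT.lf (nat_lit 0) (nat_lit 7607906353) (nat_lit 76) (nat_lit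 12567904647) (nat_lit 152) (nat_lit 21226316833) (nat_lit 8) (nat_lit 5) (nat_lit 9) (nat_lit 5) (nat_lit 10) (nat_lit 4) (nat_lit 307) (nat_lit 234) (nat_lit 179)))))) (XT.nd (nat_lit 390) (nat_lit 152) (nat_lit 0) (XT.nd (nat_lit 156) (nat_lit 76) (nat_lit 0) (XT.nd (nat_lit 78) (nat_lit 0) (nat_lit 0) (XT.lf (nat_lit 0) (nat_lit 18676912366) (nat_lit 76) (nat_lit 7008981915) (nat_lit 152) (nat_lit 17592546908) (nat_lit 8) (nat_lit 5) (nat_lit 9) (nat_lit 5) (nat_lit 10) (nat_lit 4) (nat_lit 308) (nat_lit 234) (nat_lit 178)) (XT.lf (nat_lit 0) (nat_lit 30239560765) (nat_lit 76) (nat_lit 1196858436) (nat_lit 152) (nat_lit 13813240026) (nat_lit 8) (nat_lit 5) (nat_lit 9) (nat_lit 5) (nat_lit 10) (nat_lit 4) (nat_lit 309) (nat_lit 234) (nat_lit 177))) (XT.nd (nat_lit 78) (nat_lit 76) (nat_lit 0) (XT.lf (nat_lit 0) (nat_lit 37488009181) (nat_lit 152) (nat_lit 5044025352) (nat_lit 0) (nat_lit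 4787032838) (nat_lit 8) (nat_lit 5) (nat_lit 10) (nat_lit 4) (nat_lit 8) (nat_lit 4) (nat_lit 310) (nat_lit 234) (nat_lit 176)) (XT.nd (nat_lit 78) (nat_lit 0) (nat_lit 0) (XT.lf (nat_lit 0) (nat_lit 5459791881) (nat_lit 76) (nat_lit 38414931322) (nat_lit 76) (nat_lit 5616280067) (nat_lit 7) (nat_lit 4) (nat_lit 8) (nat_lit 5) (nat_lit 8) (nat_lit 4) (nat_lit 311) (nat_lit 234) (nat_lit 175)) (XT.lf (nat_lit 0) (nat_lit 16540762839) (nat_lit 76) (nat_lit 34060926349) (nat_lit 76) (nat_lit 1169251367) (nat_lit 7) (nat_lit 4) (nat_lit 8) (nat_lit 5) (nat_lit 8) (nat_lit 4) (nat_lit 312) (nat_lit 234) (nat_lit 174))))) (XT.nd (nat_lit 234) (nat_lit 76) (nat_lit 0) (XT.nd (nat_lit 78) (nat_lit 0) (nat_lit 0) (XT.lf (nat_lit 0) (nat_lit 3401975325) (nat_lit 152) (nat_lit 26074259095) (nat_lit 76) (nat_lit 24688556186) (nat_lit 6) (nat_lit 5) (nat_lit 8) (nat_lit 5) (nat_lit 7) (nat_lit 4) (nat_lit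 313) (nat_lit 234) (nat_lit 173)) (XT.nd (nat_lit 78) (nat_lit 0) (nat_lit 0) (XT.lf (nat_lit 0) (nat_lit 8149374498) (nat_lit 152) (nat_lit 16521414037) (nat_lit 76) (nat_lit 32008071780) (nat_lit 6) (nat_lit 5) (nat_lit 8) (nat_lit 5) (nat_lit 7) (nat_lit 4) (nat_lit 314) (nat_lit 234) (nat_lit 172)) (XT.lf (nat_lit 0) (nat_lit 13107065785) (nat_lit 152) (nat_lit 6537658115) (nat_lit 76) (nat_lit 39674748850) (nat_lit 6) (nat_lit 5) (nat_lit 8) (nat_lit 5) (nat_lit 7) (nat_lit 4) (nat_lit 315) (nat_lit 234) (nat_lit 171)))) (XT.nd (nat_lit 78) (nat_lit 0) (nat_lit 0) (XT.lf (nat_lit 0) (nat_lit 3978412679) (nat_lit 76) (nat_lit 14346683473) (nat_lit 152) (nat_lit 43766671644) (nat_lit 5) (nat_lit 5) (nat_lit 6) (nat_lit 5) (nat_lit 7) (nat_lit 4) (nat_lit 316) (nat_lit 234) (nat_lit 170)) (XT.nd (nat_lit 78) (nat_lit 0) (nat_lit 0) (XT.lf (nat_lit 0) (nat_lit 15113674513) (nat_lit 76)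 (nat_lit 8732676987) (nat_lit 152) (nat_lit 41155080792) (nat_lit 5) (nat_lit 5) (nat_lit 6) (nat_lit 5) (nat_lit 7) (nat_lit 4) (nat_lit 317) (nat_lit 234) (nat_lit 169)) (XT.lf (nat_lit 0) (nat_lit 26764527700) (nat_lit 76) (nat_lit 2855355290) (nat_lit 152) (nat_lit 38437433864) (nat_lit 5) (nat_lit 5) (nat_lit 6) (nat_lit 5) (nat_lit 7) (nat_lit 4) (nat_lit 318) (nat_lit 234) (nat_lit 168))))))) (XT.nd (nat_lit 858) (nat_lit 0) (nat_lit 0) (XT.nd (nat_lit 390) (nat_lit 76) (nat_lit 0) (XT.nd (nat_lit 156) (nat_lit 76) (nat_lit 0) (XT.nd (nat_lit 78) (nat_lit 0) (nat_lit 0) (XT.lf (nat_lit 0) (nat_lit 35691151776) (nat_lit 152) (nat_lit 32339699684) (nat_lit 0) (nat_lit 3234894498) (nat_lit 5) (nat_lit 5) (nat_lit 7) (nat_lit 4) (nat_lit 5) (nat_lit 4) (nat_lit 319) (nat_lit 234) (nat_lit 167)) (XT.lf (nat_lit 0) (nat_lit 42073077043) (nat_lit 152) (nat_lit 23005636269) (nat_lit 0) (nat_lit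 9555691493) (nat_lit 5) (nat_lit 5) (nat_lit 7) (nat_lit 4) (nat_lit 5) (nat_lit 4) (nat_lit 320) (nat_lit 234) (nat_lit 166))) (XT.nd (nat_lit 78) (nat_lit 76) (nat_lit 0) (XT.lf (nat_lit 0) (nat_lit 48753406429) (nat_lit 152) (nat_lit 13240927530) (nat_lit 0) (nat_lit 16177803478) (nat_lit 5) (nat_lit 5) (nat_lit 7) (nat_lit 4) (nat_lit 5) (nat_lit 4) (nat_lit 321) (nat_lit 234) (nat_lit 165)) (XT.nd (nat_lit 78) (nat_lit 76) (nat_lit 0) (XT.lf (nat_lit 0) (nat_lit 55748045481) (nat_lit 152) (nat_lit 3022324158) (nat_lit 0) (nat_lit 23116997386) (nat_lit 5) (nat_lit 5) (nat_lit 7) (nat_lit 4) (nat_lit 5) (nat_lit 4) (nat_lit 322) (nat_lit 234) (nat_lit 164)) (XT.lf (nat_lit 0) (nat_lit 7827241527) (nat_lit 76) (nat_lit 55321646807) (nat_lit 76) (nat_lit 22637793813) (nat_lit 4) (nat_lit 4) (nat_lit 5) (nat_lit 5) (nat_lit 5) (nat_lit 4) (nat_lit 323) (nat_lit 234) (nat_lit 163))))) (XT.nd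 (nat_lit 234) (nat_lit 76) (nat_lit 0) (XT.nd (nat_lit 78) (nat_lit 0) (nat_lit 0) (XT.lf (nat_lit 0) (nat_lit 19250675152) (nat_lit 76) (nat_lit 51682030313) (nat_lit 76) (nat_lit 18947886939) (nat_lit 4) (nat_lit 4) (nat_lit 5) (nat_lit 5) (nat_lit 5) (nat_lit 4) (nat_lit 324) (nat_lit 234) (nat_lit 162)) (XT.nd (nat_lit 78) (nat_lit 0) (nat_lit 0) (XT.lf (nat_lit 0) (nat_lit 31215025191) (nat_lit 76) (nat_lit 47873373953) (nat_lit 76) (nat_lit 15091334978) (nat_lit 4) (nat_lit 4) (nat_lit 5) (nat_lit 5) (nat_lit 5) (nat_lit 4) (nat_lit 325) (nat_lit 234) (nat_lit 161)) (XT.lf (nat_lit 0) (nat_lit 43748778191) (nat_lit 76) (nat_lit 43886609495) (nat_lit 76) (nat_lit 11058955663) (nat_lit 4) (nat_lit 4) (nat_lit 5) (nat_lit 5) (nat_lit 5) (nat_lit 4) (nat_lit 326) (nat_lit 234) (nat_lit 160)))) (XT.nd (nat_lit 78) (nat_lit 76) (nat_lit 0) (XT.lf (nat_lit 0) (nat_lit 56881776420) (nat_lit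 76) (nat_lit 39712244645) (nat_lit 76) (nat_lit 6841148092) (nat_lit 4) (nat_lit 4) (nat_lit 5) (nat_lit 5) (nat_lit 5) (nat_lit 4) (nat_lit 327) (nat_lit 234) (nat_lit 159)) (XT.nd (nat_lit 78) (nat_lit 76) (nat_lit 0) (XT.lf (nat_lit 0) (nat_lit 70645288924) (nat_lit 76) (nat_lit 35340340439) (nat_lit 76) (nat_lit 2427869865) (nat_lit 4) (nat_lit 4) (nat_lit 5) (nat_lit 5) (nat_lit 5) (nat_lit 4) (nat_lit 328) (nat_lit 234) (nat_lit 158)) (XT.lf (nat_lit 0) (nat_lit 2148624972) (nat_lit 152) (nat_lit 28590165708) (nat_lit 76) (nat_lit 82901764097) (nat_lit 3) (nat_lit 5) (nat_lit 5) (nat_lit 5) (nat_lit 4) (nat_lit 4) (nat_lit 329) (nat_lit 234) (nat_lit 157)))))) (XT.nd (nat_lit 31590) (nat_lit 0) (nat_lit 9044) (XT.nd (nat_lit 31356) (nat_lit 0) (nat_lit 13376) (XT.nd (nat_lit 31278) (nat_lit 0) (nat_lit 15808) (XT.lf (nat_lit 0) (nat_lit 6890486018) (nat_lit 152) (nat_lit 19001715240)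 (nat_lit 76) (nat_lit 93236450655) (nat_lit 3) (nat_lit 5) (nat_lit 5) (nat_lit 5) (nat_lit 4) (nat_lit 4) (nat_lit 330) (nat_lit 234) (nat_lit 156)) (XT.lf (nat_lit 0) (nat_lit 354994316) (nat_lit 684) (nat_lit 2673489315) (nat_lit 0) (nat_lit 354994316) (nat_lit 211) (nat_lit 5) (nat_lit 220) (nat_lit 4) (nat_lit 211) (nat_lit 4) (nat_lit 250) (nat_lit 235) (nat_lit 235))) (XT.nd (nat_lit 78) (nat_lit 1748) (nat_lit 0) (XT.lf (nat_lit 0) (nat_lit 922423933) (nat_lit 684) (nat_lit 4481143082) (nat_lit 684) (nat_lit 1434237856) (nat_lit 202) (nat_lit 4) (nat_lit 211) (nat_lit 5) (nat_lit 211) (nat_lit 4) (nat_lit 251) (nat_lit 235) (nat_lit 234)) (XT.nd (nat_lit 78) (nat_lit 912) (nat_lit 0) (XT.lf (nat_lit 0) (nat_lit 466820589) (nat_lit 760) (nat_lit 2693544098) (nat_lit 836) (nat_lit 3757593054) (nat_lit 191) (nat_lit 5) (nat_lit 201) (nat_lit 5) (nat_lit 202) (nat_lit 4) (nat_lit 252)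 (nat_lit 235) (nat_lit 233)) (XT.lf (nat_lit 0) (nat_lit 53415650) (nat_lit 836) (nat_lit 697569388) (nat_lit 912) (nat_lit 6256843280) (nat_lit 179) (nat_lit 5) (nat_lit 190) (nat_lit 5) (nat_lit 191) (nat_lit 5) (nat_lit 253) (nat_lit 235) (nat_lit 232))))) (XT.nd (nat_lit 234) (nat_lit 2356) (nat_lit 0) (XT.nd (nat_lit 78) (nat_lit 1976) (nat_lit 0) (XT.lf (nat_lit 0) (nat_lit 5252573950) (nat_lit 912) (nat_lit 351239811) (nat_lit 76) (nat_lit 1502759282) (nat_lit 179) (nat_lit 5) (nat_lit 191) (nat_lit 5) (nat_lit 180) (nat_lit 4) (nat_lit 254) (nat_lit 235) (nat_lit 231)) (XT.nd (nat_lit 78) (nat_lit 988) (nat_lit 0) (XT.lf (nat_lit 0) (nat_lit 2557394857) (nat_lit 988) (nat_lit 745692152) (nat_lit 76) (nat_lit 3911887367) (nat_lit 166) (nat_lit 5) (nat_lit 179) (nat_lit 5) (nat_lit 167) (nat_lit 5) (nat_lit 255) (nat_lit 235) (nat_lit 230)) (XT.lf (nat_lit 0) (nat_lit 6205964105) (nat_lit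 988) (nat_lit 789886231) (nat_lit 1064) (nat_lit 337803117) (nat_lit 153) (nat_lit 5) (nat_lit 166) (nat_lit 5) (nat_lit 167) (nat_lit 5) (nat_lit 256) (nat_lit 235) (nat_lit 229)))) (XT.nd (nat_lit 78) (nat_lit 1216) (nat_lit 0) (XT.lf (nat_lit 0) (nat_lit 3986607848) (nat_lit 1140) (nat_lit 1547905228) (nat_lit 76) (nat_lit 1927122566) (nat_lit 138) (nat_lit 5) (nat_lit 153) (nat_lit 5) (nat_lit 139) (nat_lit 5) (nat_lit 257) (nat_lit 235) (nat_lit 228)) (XT.nd (nat_lit 78) (nat_lit 532) (nat_lit 0) (XT.lf (nat_lit 0) (nat_lit 773383735) (nat_lit 684) (nat_lit 1980557155) (nat_lit 76) (nat_lit 4846340778) (nat_lit 129) (nat_lit 5) (nat_lit 138) (nat_lit 5) (nat_lit 130) (nat_lit 5) (nat_lit 258) (nat_lit 235) (nat_lit 227)) (XT.lf (nat_lit 0) (nat_lit 5033009025) (nat_lit 608) (nat_lit 2455719212) (nat_lit 76) (nat_lit 260593189) (nat_lit 122) (nat_lit 5) (nat_lit 130) (nat_lit 5) (nat_lit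 123) (nat_lit 5) (nat_lit 259) (nat_lit 235) (nat_lit 226))))))))
noncomputable def xc40 : XT := (XT.nd (nat_lit 1638) (nat_lit 1748) (nat_lit 0) (XT.nd (nat_lit 780) (nat_lit 2508) (nat_lit 0) (XT.nd (nat_lit 390) (nat_lit 1596) (nat_lit 0) (XT.nd (nat_lit 156) (nat_lit 1444) (nat_lit 0) (XT.nd (nat_lit 78) (nat_lit 456) (nat_lit 0) (XT.lf (nat_lit 0) (nat_lit 1470807827) (nat_lit 608) (nat_lit 2992825108) (nat_lit 76) (nat_lit 3445219440) (nat_lit 114) (nat_lit 5) (nat_lit 122) (nat_lit 5) (nat_lit 115) (nat_lit 5) (nat_lit 260) (nat_lit 235) (nat_lit 225)) (XT.lf (nat_lit 0) (nat_lit 4488612448) (nat_lit 456) (nat_lit 1204512908) (nat_lit 532) (nat_lit 2386507364) (nat_lit 108) (nat_lit 5) (nat_lit 114) (nat_lit 5) (nat_lit 115) (nat_lit 5) (nat_lit 261) (nat_lit 235) (nat_lit 224))) (XT.nd (nat_lit 78) (nat_lit 912) (nat_lit 0) (XT.lf (nat_lit 0) (nat_lit 1740337455) (nat_lit 532) (nat_lit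 4277417722) (nat_lit 76) (nat_lit 2243882617) (nat_lit 101) (nat_lit 5) (nat_lit 108) (nat_lit 5) (nat_lit 102) (nat_lit 5) (nat_lit 262) (nat_lit 235) (nat_lit 223)) (XT.nd (nat_lit 78) (nat_lit 532) (nat_lit 0) (XT.lf (nat_lit 0) (nat_lit 3389707827) (nat_lit 380) (nat_lit 2541148618) (nat_lit 456) (nat_lit 2524452899) (nat_lit 96) (nat_lit 5) (nat_lit 101) (nat_lit 5) (nat_lit 102) (nat_lit 5) (nat_lit 263) (nat_lit 235) (nat_lit 222)) (XT.lf (nat_lit 0) (nat_lit 1549892968) (nat_lit 532) (nat_lit 5963851718) (nat_lit 76) (nat_lit 1147568813) (nat_lit 89) (nat_lit 5) (nat_lit 96) (nat_lit 5) (nat_lit 90) (nat_lit 5) (nat_lit 264) (nat_lit 235) (nat_lit 221))))) (XT.nd (nat_lit 156) (nat_lit 760) (nat_lit 0) (XT.nd (nat_lit 78) (nat_lit 456) (nat_lit 0) (XT.lf (nat_lit 0) (nat_lit 1864302036) (nat_lit 380) (nat_lit 3842715737) (nat_lit 456) (nat_lit 3172331057) (nat_lit 84) (nat_lit 5)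 (nat_lit 89) (nat_lit 5) (nat_lit 90) (nat_lit 5) (nat_lit 265) (nat_lit 235) (nat_lit 220)) (XT.lf (nat_lit 0) (nat_lit 854857854) (nat_lit 456) (nat_lit 8198496940) (nat_lit 76) (nat_lit 57742077) (nat_lit 78) (nat_lit 5) (nat_lit 84) (nat_lit 5) (nat_lit 79) (nat_lit 5) (nat_lit 266) (nat_lit 235) (nat_lit 219))) (XT.nd (nat_lit 78) (nat_lit 760) (nat_lit 0) (XT.lf (nat_lit 0) (nat_lit 4974232818) (nat_lit 456) (nat_lit 236425067) (nat_lit 76) (nat_lit 4144508018) (nat_lit 78) (nat_lit 5) (nat_lit 84) (nat_lit 5) (nat_lit 79) (nat_lit 5) (nat_lit 267) (nat_lit 235) (nat_lit 218)) (XT.nd (nat_lit 78) (nat_lit 456) (nat_lit 0) (XT.lf (nat_lit 0) (nat_lit 8095180867) (nat_lit 304) (nat_lit 1133745994) (nat_lit 380) (nat_lit 384982373) (nat_lit 74) (nat_lit 5) (nat_lit 78) (nat_lit 5) (nat_lit 79) (nat_lit 5) (nat_lit 268) (nat_lit 235) (nat_lit 217)) (XT.lf (nat_lit 0) (nat_lit 3690987356)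 (nat_lit 456) (nat_lit 3042105863) (nat_lit 76) (nat_lit 3153084952) (nat_lit 68) (nat_lit 5) (nat_lit 74) (nat_lit 5) (nat_lit 69) (nat_lit 5) (nat_lit 269) (nat_lit 235) (nat_lit 216)))))) (XT.nd (nat_lit 390) (nat_lit 1216) (nat_lit 0) (XT.nd (nat_lit 156) (nat_lit 608) (nat_lit 0) (XT.nd (nat_lit 78) (nat_lit 380) (nat_lit 0) (XT.lf (nat_lit 0) (nat_lit 5391652252) (nat_lit 304) (nat_lit 2510191048) (nat_lit 380) (nat_lit 2272240820) (nat_lit 64) (nat_lit 5) (nat_lit 68) (nat_lit 5) (nat_lit 69) (nat_lit 5) (nat_lit 270) (nat_lit 235) (nat_lit 215)) (XT.lf (nat_lit 0) (nat_lit 1760251319) (nat_lit 380) (nat_lit 6788594267) (nat_lit 76) (nat_lit 1928810275) (nat_lit 59) (nat_lit 5) (nat_lit 64) (nat_lit 5) (nat_lit 60) (nat_lit 5) (nat_lit 271) (nat_lit 235) (nat_lit 214))) (XT.nd (nat_lit 78) (nat_lit 380) (nat_lit 0) (XT.lf (nat_lit 0) (nat_lit 1693825132) (nat_lit 228) (nat_lit 4212972052)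 (nat_lit 304) (nat_lit 4890423874) (nat_lit 56) (nat_lit 5) (nat_lit 59) (nat_lit 5) (nat_lit 60) (nat_lit 5) (nat_lit 272) (nat_lit 235) (nat_lit 213)) (XT.nd (nat_lit 78) (nat_lit 380) (nat_lit 0) (XT.lf (nat_lit 0) (nat_lit 10206335642) (nat_lit 304) (nat_lit 570500741) (nat_lit 76) (nat_lit 357817667) (nat_lit 56) (nat_lit 5) (nat_lit 60) (nat_lit 5) (nat_lit 57) (nat_lit 5) (nat_lit 273) (nat_lit 235) (nat_lit 212)) (XT.lf (nat_lit 0) (nat_lit 3169207447) (nat_lit 380) (nat_lit 3180626593) (nat_lit 76) (nat_lit 5138421153) (nat_lit 51) (nat_lit 5) (nat_lit 56) (nat_lit 5) (nat_lit 52) (nat_lit 5) (nat_lit 274) (nat_lit 235) (nat_lit 211))))) (XT.nd (nat_lit 234) (nat_lit 684) (nat_lit 0) (XT.nd (nat_lit 78) (nat_lit 304) (nat_lit 0) (XT.lf (nat_lit 0) (nat_lit 5716996324) (nat_lit 228) (nat_lit 1677239515) (nat_lit 304) (nat_lit 4466998572) (nat_lit 48) (nat_lit 5) (nat_lit 51) (nat_lit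 5) (nat_lit 52) (nat_lit 5) (nat_lit 275) (nat_lit 235) (nat_lit 210)) (XT.nd (nat_lit 78) (nat_lit 76) (nat_lit 0) (XT.lf (nat_lit 0) (nat_lit 2730220139) (nat_lit 228) (nat_lit 9075064947) (nat_lit 304) (nat_lit 448552051) (nat_lit 45) (nat_lit 5) (nat_lit 48) (nat_lit 5) (nat_lit 49) (nat_lit 5) (nat_lit 276) (nat_lit 235) (nat_lit 209)) (XT.lf (nat_lit 0) (nat_lit 3665106606) (nat_lit 304) (nat_lit 704652866) (nat_lit 76) (nat_lit 8296388178) (nat_lit 44) (nat_lit 5) (nat_lit 48) (nat_lit 5) (nat_lit 45) (nat_lit 5) (nat_lit 277) (nat_lit 235) (nat_lit 208)))) (XT.nd (nat_lit 78) (nat_lit 456) (nat_lit 0) (XT.lf (nat_lit 0) (nat_lit 7955891239) (nat_lit 304) (nat_lit 4543652276) (nat_lit 76) (nat_lit 600166995) (nat_lit 41) (nat_lit 5) (nat_lit 45) (nat_lit 5) (nat_lit 42) (nat_lit 5) (nat_lit 278) (nat_lit 235) (nat_lit 207)) (XT.nd (nat_lit 78) (nat_lit 228) (nat_lit 0) (XT.lf (nat_lit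 0) (nat_lit 4631932636) (nat_lit 228) (nat_lit 7820896199) (nat_lit 304) (nat_lit 1102556788) (nat_lit 38) (nat_lit 5) (nat_lit 41) (nat_lit 5) (nat_lit 42) (nat_lit 5) (nat_lit 279) (nat_lit 235) (nat_lit 206)) (XT.lf (nat_lit 0) (nat_lit 149207666) (nat_lit 152) (nat_lit 2876963324) (nat_lit 228) (nat_lit 11008535845) (nat_lit 35) (nat_lit 5) (nat_lit 37) (nat_lit 5) (nat_lit 38) (nat_lit 5) (nat_lit 280) (nat_lit 235) (nat_lit 205))))))) (XT.nd (nat_lit 780) (nat_lit 760) (nat_lit 0) (XT.nd (nat_lit 390) (nat_lit 380) (nat_lit 0) (XT.nd (nat_lit 156) (nat_lit 380) (nat_lit 0) (XT.nd (nat_lit 78) (nat_lit 228) (nat_lit 0) (XT.lf (nat_lit 0) (nat_lit 7354745642) (nat_lit 228) (nat_lit 4857693882) (nat_lit 76) (nat_lit 2324901430) (nat_lit 35) (nat_lit 5) (nat_lit 38) (nat_lit 5) (nat_lit 36) (nat_lit 5) (nat_lit 281) (nat_lit 235) (nat_lit 204)) (XT.lf (nat_lit 0) (nat_lit 4538018997) (nat_lit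 228) (nat_lit 7340092350) (nat_lit 304) (nat_lit 3187797641) (nat_lit 32) (nat_lit 5) (nat_lit 35) (nat_lit 5) (nat_lit 36) (nat_lit 5) (nat_lit 282) (nat_lit 235) (nat_lit 203))) (XT.nd (nat_lit 78) (nat_lit 304) (nat_lit 0) (XT.lf (nat_lit 0) (nat_lit 945407630) (nat_lit 304) (nat_lit 1265423861) (nat_lit 76) (nat_lit 13411175768) (nat_lit 31) (nat_lit 5) (nat_lit 35) (nat_lit 5) (nat_lit 32) (nat_lit 5) (nat_lit 283) (nat_lit 235) (nat_lit 202)) (XT.nd (nat_lit 78) (nat_lit 152) (nat_lit 0) (XT.lf (nat_lit 0) (nat_lit 5244668360) (nat_lit 228) (nat_lit 7777584573) (nat_lit 76) (nat_lit 3182085729) (nat_lit 29) (nat_lit 5) (nat_lit 32) (nat_lit 5) (nat_lit 30) (nat_lit 5) (nat_lit 284) (nat_lit 235) (nat_lit 201)) (XT.lf (nat_lit 0) (nat_lit 1692615820) (nat_lit 152) (nat_lit 8032709813) (nat_lit 228) (nat_lit 7091596380) (nat_lit 27) (nat_lit 5) (nat_lit 29) (nat_lit 5) (nat_lit 30) (nat_lit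 5) (nat_lit 285) (nat_lit 235) (nat_lit 200))))) (XT.nd (nat_lit 156) (nat_lit 152) (nat_lit 0) (XT.nd (nat_lit 78) (nat_lit 228) (nat_lit 0) (XT.lf (nat_lit 0) (nat_lit 11670096131) (nat_lit 152) (nat_lit 2757500727) (nat_lit 228) (nat_lit 3032732511) (nat_lit 27) (nat_lit 5) (nat_lit 29) (nat_lit 5) (nat_lit 30) (nat_lit 5) (nat_lit 286) (nat_lit 235) (nat_lit 199)) (XT.lf (nat_lit 0) (nat_lit 1190427637) (nat_lit 228) (nat_lit 14212192972) (nat_lit 76) (nat_lit 2733484997) (nat_lit 24) (nat_lit 5) (nat_lit 27) (nat_lit 5) (nat_lit 25) (nat_lit 5) (nat_lit 287) (nat_lit 235) (nat_lit 198))) (XT.nd (nat_lit 78) (nat_lit 152) (nat_lit 0) (XT.lf (nat_lit 0) (nat_lit 5573388449) (nat_lit 228) (nat_lit 4780898226) (nat_lit 76) (nat_lit 8490249914) (nat_lit 24) (nat_lit 5) (nat_lit 27) (nat_lit 5) (nat_lit 25) (nat_lit 5) (nat_lit 288) (nat_lit 235) (nat_lit 197)) (XT.nd (nat_lit 78) (nat_lit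 0) (nat_lit 0) (XT.lf (nat_lit 0) (nat_lit 5104668877) (nat_lit 152) (nat_lit 5046329577) (nat_lit 228) (nat_lit 9438228177) (nat_lit 22) (nat_lit 5) (nat_lit 24) (nat_lit 5) (nat_lit 25) (nat_lit 5) (nat_lit 289) (nat_lit 235) (nat_lit 196)) (XT.lf (nat_lit 0) (nat_lit 14940693588) (nat_lit 228) (nat_lit 4906183721) (nat_lit 76) (nat_lit 524875388) (nat_lit 22) (nat_lit 5) (nat_lit 25) (nat_lit 5) (nat_lit 23) (nat_lit 4) (nat_lit 290) (nat_lit 235) (nat_lit 195)))))) (XT.nd (nat_lit 390) (nat_lit 304) (nat_lit 0) (XT.nd (nat_lit 156) (nat_lit 228) (nat_lit 0) (XT.nd (nat_lit 78) (nat_lit 76) (nat_lit 0) (XT.lf (nat_lit 0) (nat_lit 5089609243) (nat_lit 152) (nat_lit 14911966436) (nat_lit 228) (nat_lit 1190971334) (nat_lit 20) (nat_lit 5) (nat_lit 22) (nat_lit 5) (nat_lit 23) (nat_lit 4) (nat_lit 291) (nat_lit 235) (nat_lit 194)) (XT.lf (nat_lit 0) (nat_lit 3181813287) (nat_lit 228) (nat_lit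 6505142948) (nat_lit 76) (nat_lit 12367040514) (nat_lit 19) (nat_lit 5) (nat_lit 22) (nat_lit 5) (nat_lit 20) (nat_lit 5) (nat_lit 292) (nat_lit 235) (nat_lit 193))) (XT.nd (nat_lit 78) (nat_lit 76) (nat_lit 0) (XT.lf (nat_lit 0) (nat_lit 3526336398) (nat_lit 152) (nat_lit 4192894745) (nat_lit 228) (nat_lit 15239897227) (nat_lit 17) (nat_lit 5) (nat_lit 19) (nat_lit 5) (nat_lit 20) (nat_lit 5) (nat_lit 293) (nat_lit 235) (nat_lit 192)) (XT.nd (nat_lit 78) (nat_lit 76) (nat_lit 0) (XT.lf (nat_lit 0) (nat_lit 12504485781) (nat_lit 228) (nat_lit 9829584511) (nat_lit 76) (nat_lit 1574895310) (nat_lit 17) (nat_lit 5) (nat_lit 20) (nat_lit 5) (nat_lit 18) (nat_lit 4) (nat_lit 294) (nat_lit 235) (nat_lit 191)) (XT.lf (nat_lit 0) (nat_lit 116990415) (nat_lit 76) (nat_lit 17396590498) (nat_lit 152) (nat_lit 7393250741) (nat_lit 16) (nat_lit 5) (nat_lit 17) (nat_lit 5) (nat_lit 18) (nat_lit 4) (nat_lit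 295) (nat_lit 235) (nat_lit 190))))) (XT.nd (nat_lit 234) (nat_lit 76) (nat_lit 0) (XT.nd (nat_lit 78) (nat_lit 228) (nat_lit 0) (XT.lf (nat_lit 0) (nat_lit 10672321074) (nat_lit 76) (nat_lit 12145029665) (nat_lit 152) (nat_lit 3135984426) (nat_lit 16) (nat_lit 5) (nat_lit 17) (nat_lit 5) (nat_lit 18) (nat_lit 4) (nat_lit 296) (nat_lit 235) (nat_lit 189)) (XT.nd (nat_lit 78) (nat_lit 152) (nat_lit 0) (XT.lf (nat_lit 0) (nat_lit 1253253735) (nat_lit 152) (nat_lit 5400234465) (nat_lit 76) (nat_lit 20400002059) (nat_lit 15) (nat_lit 5) (nat_lit 17) (nat_lit 5) (nat_lit 16) (nat_lit 5) (nat_lit 297) (nat_lit 235) (nat_lit 188)) (XT.lf (nat_lit 0) (nat_lit 4953240539) (nat_lit 152) (nat_lit 839827546) (nat_lit 228) (nat_lit 22414836712) (nat_lit 13) (nat_lit 5) (nat_lit 15) (nat_lit 5) (nat_lit 16) (nat_lit 5) (nat_lit 298) (nat_lit 235) (nat_lit 187)))) (XT.nd (nat_lit 78) (nat_lit 76) (nat_lit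 0) (XT.lf (nat_lit 0) (nat_lit 10615736187) (nat_lit 228) (nat_lit 13617418049) (nat_lit 76) (nat_lit 5185269274) (nat_lit 13) (nat_lit 5) (nat_lit 16) (nat_lit 5) (nat_lit 14) (nat_lit 4) (nat_lit 299) (nat_lit 235) (nat_lit 186)) (XT.nd (nat_lit 78) (nat_lit 76) (nat_lit 0) (XT.lf (nat_lit 0) (nat_lit 15639553546) (nat_lit 228) (nat_lit 3587860271) (nat_lit 76) (nat_lit 11463310381) (nat_lit 13) (nat_lit 5) (nat_lit 16) (nat_lit 5) (nat_lit 14) (nat_lit 4) (nat_lit 300) (nat_lit 235) (nat_lit 185)) (XT.lf (nat_lit 0) (nat_lit 7002608017) (nat_lit 76) (nat_lit 13933114031) (nat_lit 152) (nat_lit 11090336886) (nat_lit 12) (nat_lit 5) (nat_lit 13) (nat_lit 5) (nat_lit 14) (nat_lit 4) (nat_lit 301) (nat_lit 235) (nat_lit 184))))))))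
noncomputable def xc41 : XT := (XT.nd (nat_lit 1638) (nat_lit 152) (nat_lit 0) (XT.nd (nat_lit 780) (nat_lit 228) (nat_lit 0) (XT.nd (nat_lit 390) (nat_lit 76) (nat_lit 0) (XT.nd (nat_lit 156) (nat_lit 228) (nat_lit 0) (XT.nd (nat_lit 78) (nat_lit 0) (nat_lit 0) (XT.lf (nat_lit 0) (nat_lit 18122575272) (nat_lit 76) (nat_lit 8366381301) (nat_lit 152) (nat_lit 6939487366) (nat_lit 12) (nat_lit 5) (nat_lit 13) (nat_lit 5) (nat_lit 14) (nat_lit 4) (nat_lit 302) (nat_lit 235) (nat_lit 183)) (XT.lf (nat_lit 0) (nat_lit 29727112152) (nat_lit 76) (nat_lit 2550191855) (nat_lit 152) (nat_lit 2624969471) (nat_lit 12) (nat_lit 5) (nat_lit 13) (nat_lit 5) (nat_lit 14) (nat_lit 4) (nat_lit 303) (nat_lit 235) (nat_lit 182))) (XT.nd (nat_lit 78) (nat_lit 0) (nat_lit 0) (XT.lf (nat_lit 0) (nat_lit 1914445859) (nat_lit 228) (nat_lit 31001713870) (nat_lit 76) (nat_lit 3531739955) (nat_lit 9) (nat_lit 5) (nat_lit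 12) (nat_lit 5) (nat_lit 10) (nat_lit 4) (nat_lit 304) (nat_lit 235) (nat_lit 181)) (XT.nd (nat_lit 78) (nat_lit 0) (nat_lit 0) (XT.lf (nat_lit 0) (nat_lit 6666665379) (nat_lit 228) (nat_lit 21483108757) (nat_lit 76) (nat_lit 9919092708) (nat_lit 9) (nat_lit 5) (nat_lit 12) (nat_lit 5) (nat_lit 10) (nat_lit 4) (nat_lit 305) (nat_lit 235) (nat_lit 180)) (XT.lf (nat_lit 0) (nat_lit 11618473278) (nat_lit 228) (nat_lit 11553224922) (nat_lit 76) (nat_lit 16600365782) (nat_lit 9) (nat_lit 5) (nat_lit 12) (nat_lit 5) (nat_lit 10) (nat_lit 4) (nat_lit 306) (nat_lit 235) (nat_lit 179))))) (XT.nd (nat_lit 156) (nat_lit 0) (nat_lit 0) (XT.nd (nat_lit 78) (nat_lit 76) (nat_lit 0) (XT.lf (nat_lit 0) (nat_lit 16781659576) (nat_lit 228) (nat_lit 1188419785) (nat_lit 76) (nat_lit 23591466969) (nat_lit 9) (nat_lit 5) (nat_lit 12) (nat_lit 5) (nat_lit 10) (nat_lit 4) (nat_lit 307) (nat_lit 235) (nat_lit 178))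 (XT.lf (nat_lit 0) (nat_lit 9827759751) (nat_lit 76) (nat_lit 12435228261) (nat_lit 152) (nat_lit 21175752436) (nat_lit 8) (nat_lit 5) (nat_lit 9) (nat_lit 5) (nat_lit 10) (nat_lit 4) (nat_lit 308) (nat_lit 235) (nat_lit 177))) (XT.nd (nat_lit 78) (nat_lit 0) (nat_lit 0) (XT.lf (nat_lit 0) (nat_lit 21362622823) (nat_lit 76) (nat_lit 6634600898) (nat_lit 152) (nat_lit 17413240693) (nat_lit 8) (nat_lit 5) (nat_lit 9) (nat_lit 5) (nat_lit 10) (nat_lit 4) (nat_lit 309) (nat_lit 235) (nat_lit 176)) (XT.nd (nat_lit 78) (nat_lit 0) (nat_lit 0) (XT.lf (nat_lit 0) (nat_lit 33419981507) (nat_lit 76) (nat_lit 566386965) (nat_lit 152) (nat_lit 13495393874) (nat_lit 8) (nat_lit 5) (nat_lit 9) (nat_lit 5) (nat_lit 10) (nat_lit 4) (nat_lit 310) (nat_lit 235) (nat_lit 175)) (XT.lf (nat_lit 0) (nat_lit 40300280149) (nat_lit 152) (nat_lit 3684620123) (nat_lit 0) (nat_lit 5670997692) (nat_lit 8) (nat_lit 5)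 (nat_lit 10) (nat_lit 4) (nat_lit 8) (nat_lit 4) (nat_lit 311) (nat_lit 235) (nat_lit 174)))))) (XT.nd (nat_lit 390) (nat_lit 76) (nat_lit 0) (XT.nd (nat_lit 156) (nat_lit 76) (nat_lit 0) (XT.nd (nat_lit 78) (nat_lit 0) (nat_lit 0) (XT.lf (nat_lit 0) (nat_lit 7298191595) (nat_lit 76) (nat_lit 39678525457) (nat_lit 76) (nat_lit 4960648974) (nat_lit 7) (nat_lit 4) (nat_lit 8) (nat_lit 5) (nat_lit 8) (nat_lit 4) (nat_lit 312) (nat_lit 235) (nat_lit 173)) (XT.lf (nat_lit 0) (nat_lit 18858667762) (nat_lit 76) (nat_lit 35138113208) (nat_lit 76) (nat_lit 335861464) (nat_lit 7) (nat_lit 4) (nat_lit 8) (nat_lit 5) (nat_lit 8) (nat_lit 4) (nat_lit 313) (nat_lit 235) (nat_lit 172))) (XT.nd (nat_lit 78) (nat_lit 0) (nat_lit 0) (XT.lf (nat_lit 0) (nat_lit 4404882871) (nat_lit 152) (nat_lit 25940696908) (nat_lit 76) (nat_lit 26501638605) (nat_lit 6) (nat_lit 5) (nat_lit 8) (nat_lit 5) (nat_lit 7) (nat_lit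 4) (nat_lit 314) (nat_lit 235) (nat_lit 171)) (XT.nd (nat_lit 78) (nat_lit 0) (nat_lit 0) (XT.lf (nat_lit 0) (nat_lit 9349994440) (nat_lit 152) (nat_lit 15978651271) (nat_lit 76) (nat_lit 34159574998) (nat_lit 6) (nat_lit 5) (nat_lit 8) (nat_lit 5) (nat_lit 7) (nat_lit 4) (nat_lit 315) (nat_lit 235) (nat_lit 170)) (XT.lf (nat_lit 0) (nat_lit 14517801187) (nat_lit 152) (nat_lit 5560890099) (nat_lit 76) (nat_lit 42183343082) (nat_lit 6) (nat_lit 5) (nat_lit 8) (nat_lit 5) (nat_lit 7) (nat_lit 4) (nat_lit 316) (nat_lit 235) (nat_lit 169))))) (XT.nd (nat_lit 234) (nat_lit 0) (nat_lit 0) (XT.nd (nat_lit 78) (nat_lit 0) (nat_lit 0) (XT.lf (nat_lit 0) (nat_lit 5443615343) (nat_lit 76) (nat_lit 14529319430) (nat_lit 152) (nat_lit 45200759082) (nat_lit 5) (nat_lit 5) (nat_lit 6) (nat_lit 5) (nat_lit 7) (nat_lit 4) (nat_lit 317) (nat_lit 235) (nat_lit 168)) (XT.nd (nat_lit 78) (nat_lit 0) (nat_lit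 0) (XT.lf (nat_lit 0) (nat_lit 17075341125) (nat_lit 76) (nat_lit 8660074439) (nat_lit 152) (nat_lit 42494505171) (nat_lit 5) (nat_lit 5) (nat_lit 6) (nat_lit 5) (nat_lit 7) (nat_lit 4) (nat_lit 318) (nat_lit 235) (nat_lit 167)) (XT.lf (nat_lit 0) (nat_lit 29251309215) (nat_lit 76) (nat_lit 2513136009) (nat_lit 152) (nat_lit 39675182071) (nat_lit 5) (nat_lit 5) (nat_lit 6) (nat_lit 5) (nat_lit 7) (nat_lit 4) (nat_lit 319) (nat_lit 235) (nat_lit 166)))) (XT.nd (nat_lit 78) (nat_lit 0) (nat_lit 0) (XT.lf (nat_lit 0) (nat_lit 38112118962) (nat_lit 152) (nat_lit 32847686059) (nat_lit 0) (nat_lit 3849518462) (nat_lit 5) (nat_lit 5) (nat_lit 7) (nat_lit 4) (nat_lit 5) (nat_lit 4) (nat_lit 320) (nat_lit 235) (nat_lit 165)) (XT.nd (nat_lit 78) (nat_lit 0) (nat_lit 0) (XT.lf (nat_lit 0) (nat_lit 44782835273) (nat_lit 152) (nat_lit 23099728931) (nat_lit 0) (nat_lit 10464789629) (nat_lit 5) (nat_lit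 5) (nat_lit 7) (nat_lit 4) (nat_lit 5) (nat_lit 4) (nat_lit 321) (nat_lit 235) (nat_lit 164)) (XT.lf (nat_lit 0) (nat_lit 51768319016) (nat_lit 152) (nat_lit 12897079476) (nat_lit 0) (nat_lit 17397468472) (nat_lit 5) (nat_lit 5) (nat_lit 7) (nat_lit 4) (nat_lit 5) (nat_lit 4) (nat_lit 322) (nat_lit 235) (nat_lit 163))))))) (XT.nd (nat_lit 31902) (nat_lit 0) (nat_lit 7980) (XT.nd (nat_lit 390) (nat_lit 76) (nat_lit 0) (XT.nd (nat_lit 156) (nat_lit 0) (nat_lit 0) (XT.nd (nat_lit 78) (nat_lit 76) (nat_lit 0) (XT.lf (nat_lit 0) (nat_lit 59085202293) (nat_lit 152) (nat_lit 2215445671) (nat_lit 0) (nat_lit 24664061370) (nat_lit 5) (nat_lit 5) (nat_lit 7) (nat_lit 4) (nat_lit 5) (nat_lit 4) (nat_lit 323) (nat_lit 235) (nat_lit 162)) (XT.lf (nat_lit 0) (nat_lit 9149137573) (nat_lit 76) (nat_lit 57689715790) (nat_lit 76) (nat_lit 23220679266) (nat_lit 4) (nat_lit 4) (nat_lit 5) (nat_lit 5) (nat_lit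 5) (nat_lit 4) (nat_lit 324) (nat_lit 235) (nat_lit 161))) (XT.nd (nat_lit 78) (nat_lit 0) (nat_lit 0) (XT.lf (nat_lit 0) (nat_lit 21099431738) (nat_lit 76) (nat_lit 53887071488) (nat_lit 76) (nat_lit 19372420107) (nat_lit 4) (nat_lit 4) (nat_lit 5) (nat_lit 5) (nat_lit 5) (nat_lit 4) (nat_lit 325) (nat_lit 235) (nat_lit 160)) (XT.nd (nat_lit 78) (nat_lit 0) (nat_lit 0) (XT.lf (nat_lit 0) (nat_lit 33619798192) (nat_lit 76) (nat_lit 49906032802) (nat_lit 76) (nat_lit 15347938700) (nat_lit 4) (nat_lit 4) (nat_lit 5) (nat_lit 5) (nat_lit 5) (nat_lit 4) (nat_lit 326) (nat_lit 235) (nat_lit 159)) (XT.lf (nat_lit 0) (nat_lit 46740047330) (nat_lit 76) (nat_lit 45737121067) (nat_lit 76) (nat_lit 11137652945) (nat_lit 4) (nat_lit 4) (nat_lit 5) (nat_lit 5) (nat_lit 5) (nat_lit 4) (nat_lit 327) (nat_lit 235) (nat_lit 158))))) (XT.nd (nat_lit 31278) (nat_lit 0) (nat_lit 15808) (XT.nd (nat_lit 78) (nat_lit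 76) (nat_lit 0) (XT.lf (nat_lit 0) (nat_lit 60491417841) (nat_lit 76) (nat_lit 41370410303) (nat_lit 76) (nat_lit 6731538352) (nat_lit 4) (nat_lit 4) (nat_lit 5) (nat_lit 5) (nat_lit 5) (nat_lit 4) (nat_lit 328) (nat_lit 235) (nat_lit 157)) (XT.nd (nat_lit 78) (nat_lit 76) (nat_lit 0) (XT.lf (nat_lit 0) (nat_lit 74906651084) (nat_lit 76) (nat_lit 36795503580) (nat_lit 76) (nat_lit 2119104173) (nat_lit 4) (nat_lit 4) (nat_lit 5) (nat_lit 5) (nat_lit 5) (nat_lit 4) (nat_lit 329) (nat_lit 235) (nat_lit 156)) (XT.lf (nat_lit 0) (nat_lit 2657737392) (nat_lit 152) (nat_lit 29316932934) (nat_lit 76) (nat_lit 87335493713) (nat_lit 3) (nat_lit 5) (nat_lit 5) (nat_lit 5) (nat_lit 4) (nat_lit 4) (nat_lit 330) (nat_lit 235) (nat_lit 155)))) (XT.nd (nat_lit 78) (nat_lit 1216) (nat_lit 0) (XT.lf (nat_lit 0) (nat_lit 665322293) (nat_lit 532) (nat_lit 1993364614) (nat_lit 0) (nat_lit 665322293) (nat_lit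 227) (nat_lit 5) (nat_lit 234) (nat_lit 4) (nat_lit 227) (nat_lit 4) (nat_lit 248) (nat_lit 236) (nat_lit 236)) (XT.nd (nat_lit 78) (nat_lit 684) (nat_lit 0) (XT.lf (nat_lit 0) (nat_lit 1953574884) (nat_lit 532) (nat_lit 4023257091) (nat_lit 532) (nat_lit 728029090) (nat_lit 220) (nat_lit 4) (nat_lit 227) (nat_lit 5) (nat_lit 227) (nat_lit 4) (nat_lit 249) (nat_lit 236) (nat_lit 235)) (XT.lf (nat_lit 0) (nat_lit 1294269748) (nat_lit 608) (nat_lit 2512533272) (nat_lit 684) (nat_lit 2963738521) (nat_lit 211) (nat_lit 5) (nat_lit 219) (nat_lit 5) (nat_lit 220) (nat_lit 4) (nat_lit 250) (nat_lit 236) (nat_lit 234)))))) (XT.nd (nat_lit 390) (nat_lit 4408) (nat_lit 0) (XT.nd (nat_lit 156) (nat_lit 1900) (nat_lit 0) (XT.nd (nat_lit 78) (nat_lit 760) (nat_lit 0) (XT.lf (nat_lit 0) (nat_lit 690263747) (nat_lit 684) (nat_lit 795343617) (nat_lit 760) (nat_lit 5360008991) (nat_lit 201) (nat_lit 5) (nat_lit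 210) (nat_lit 5) (nat_lit 211) (nat_lit 5) (nat_lit 251) (nat_lit 236) (nat_lit 233)) (XT.lf (nat_lit 0) (nat_lit 113767044) (nat_lit 760) (nat_lit 5810060599) (nat_lit 836) (nat_lit 1005831204) (nat_lit 191) (nat_lit 5) (nat_lit 201) (nat_lit 5) (nat_lit 202) (nat_lit 4) (nat_lit 252) (nat_lit 236) (nat_lit 232))) (XT.nd (nat_lit 78) (nat_lit 1824) (nat_lit 0) (XT.lf (nat_lit 0) (nat_lit 3334297467) (nat_lit 836) (nat_lit 438707029) (nat_lit 76) (nat_lit 3249591313) (nat_lit 190) (nat_lit 5) (nat_lit 201) (nat_lit 5) (nat_lit 191) (nat_lit 5) (nat_lit 253) (nat_lit 236) (nat_lit 231)) (XT.nd (nat_lit 78) (nat_lit 912) (nat_lit 0) (XT.lf (nat_lit 0) (nat_lit 570172123) (nat_lit 912) (nat_lit 958547773) (nat_lit 76) (nat_lit 5596713393) (nat_lit 178) (nat_lit 5) (nat_lit 190) (nat_lit 5) (nat_lit 179) (nat_lit 5) (nat_lit 254) (nat_lit 236) (nat_lit 230)) (XT.lf (nat_lit 0) (nat_lit 4817934525)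 (nat_lit 988) (nat_lit 1487618251) (nat_lit 76) (nat_lit 931938319) (nat_lit 166) (nat_lit 5) (nat_lit 179) (nat_lit 5) (nat_lit 167) (nat_lit 5) (nat_lit 255) (nat_lit 236) (nat_lit 229))))) (XT.nd (nat_lit 234) (nat_lit 1596) (nat_lit 0) (XT.nd (nat_lit 78) (nat_lit 1748) (nat_lit 0) (XT.lf (nat_lit 0) (nat_lit 1751834891) (nat_lit 1064) (nat_lit 2025265205) (nat_lit 76) (nat_lit 3582201069) (nat_lit 152) (nat_lit 5) (nat_lit 166) (nat_lit 5) (nat_lit 153) (nat_lit 5) (nat_lit 256) (nat_lit 236) (nat_lit 228)) (XT.nd (nat_lit 78) (nat_lit 684) (nat_lit 0) (XT.lf (nat_lit 0) (nat_lit 4917349609) (nat_lit 1064) (nat_lit 1024637673) (nat_lit 1140) (nat_lit 1549352311) (nat_lit 138) (nat_lit 5) (nat_lit 152) (nat_lit 5) (nat_lit 153) (nat_lit 5) (nat_lit 257) (nat_lit 236) (nat_lit 227)) (XT.lf (nat_lit 0) (nat_lit 2544125581) (nat_lit 684) (nat_lit 3165427199) (nat_lit 76) (nat_lit 1923697477)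 (nat_lit 129) (nat_lit 5) (nat_lit 138) (nat_lit 5) (nat_lit 130) (nat_lit 5) (nat_lit 258) (nat_lit 236) (nat_lit 226)))) (XT.nd (nat_lit 78) (nat_lit 1064) (nat_lit 0) (XT.lf (nat_lit 0) (nat_lit 3990846344) (nat_lit 532) (nat_lit 2705089059) (nat_lit 608) (nat_lit 1089874086) (nat_lit 122) (nat_lit 5) (nat_lit 129) (nat_lit 5) (nat_lit 130) (nat_lit 5) (nat_lit 259) (nat_lit 236) (nat_lit 225)) (XT.nd (nat_lit 78) (nat_lit 456) (nat_lit 0) (XT.lf (nat_lit 0) (nat_lit 2934938118) (nat_lit 608) (nat_lit 4484318978) (nat_lit 76) (nat_lit 529794953) (nat_lit 114) (nat_lit 5) (nat_lit 122) (nat_lit 5) (nat_lit 115) (nat_lit 5) (nat_lit 260) (nat_lit 236) (nat_lit 224)) (XT.lf (nat_lit 0) (nat_lit 2871065799) (nat_lit 456) (nat_lit 4183681435) (nat_lit 532) (nat_lit 1068411394) (nat_lit 108) (nat_lit 5) (nat_lit 114) (nat_lit 5) (nat_lit 115) (nat_lit 5) (nat_lit 261) (nat_lit 236) (nat_lit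 223))))))))
noncomputable def xc42 : XT := (XT.nd (nat_lit 1638) (nat_lit 1748) (nat_lit 0) (XT.nd (nat_lit 780) (nat_lit 1824) (nat_lit 0) (XT.nd (nat_lit 390) (nat_lit 1824) (nat_lit 0) (XT.nd (nat_lit 156) (nat_lit 988) (nat_lit 0) (XT.nd (nat_lit 78) (nat_lit 380) (nat_lit 0) (XT.lf (nat_lit 0) (nat_lit 2204261266) (nat_lit 456) (nat_lit 704360679) (nat_lit 532) (nat_lit 5400116437) (nat_lit 101) (nat_lit 5) (nat_lit 107) (nat_lit 5) (nat_lit 108) (nat_lit 5) (nat_lit 262) (nat_lit 236) (nat_lit 222)) (XT.lf (nat_lit 0) (nat_lit 1437737284) (nat_lit 380) (nat_lit 5554176444) (nat_lit 456) (nat_lit 1513934036) (nat_lit 96) (nat_lit 5) (nat_lit 101) (nat_lit 5) (nat_lit 102) (nat_lit 5) (nat_lit 263) (nat_lit 236) (nat_lit 221))) (XT.nd (nat_lit 78) (nat_lit 456) (nat_lit 0) (XT.lf (nat_lit 0) (nat_lit 562236304) (nat_lit 456) (nat_lit 1866907481) (nat_lit 532) (nat_lit 6285967560) (nat_lit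 89) (nat_lit 5) (nat_lit 95) (nat_lit 5) (nat_lit 96) (nat_lit 5) (nat_lit 264) (nat_lit 236) (nat_lit 220)) (XT.nd (nat_lit 78) (nat_lit 456) (nat_lit 0) (XT.lf (nat_lit 0) (nat_lit 6473539872) (nat_lit 532) (nat_lit 435565132) (nat_lit 76) (nat_lit 2027618164) (nat_lit 89) (nat_lit 5) (nat_lit 96) (nat_lit 5) (nat_lit 90) (nat_lit 5) (nat_lit 265) (nat_lit 236) (nat_lit 219)) (XT.lf (nat_lit 0) (nat_lit 1461531034) (nat_lit 456) (nat_lit 1568882909) (nat_lit 76) (nat_lit 6140691822) (nat_lit 83) (nat_lit 5) (nat_lit 89) (nat_lit 5) (nat_lit 84) (nat_lit 5) (nat_lit 266) (nat_lit 236) (nat_lit 218))))) (XT.nd (nat_lit 156) (nat_lit 1140) (nat_lit 0) (XT.nd (nat_lit 78) (nat_lit 304) (nat_lit 0) (XT.lf (nat_lit 0) (nat_lit 5463820117) (nat_lit 456) (nat_lit 2871312612) (nat_lit 76) (nat_lit 1083726039) (nat_lit 78) (nat_lit 5) (nat_lit 84) (nat_lit 5) (nat_lit 79) (nat_lit 5) (nat_lit 267)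 (nat_lit 236) (nat_lit 217)) (XT.lf (nat_lit 0) (nat_lit 5319469182) (nat_lit 304) (nat_lit 4303389620) (nat_lit 380) (nat_lit 57776189) (nat_lit 74) (nat_lit 5) (nat_lit 78) (nat_lit 5) (nat_lit 79) (nat_lit 5) (nat_lit 268) (nat_lit 236) (nat_lit 216))) (XT.nd (nat_lit 78) (nat_lit 684) (nat_lit 0) (XT.lf (nat_lit 0) (nat_lit 3884863386) (nat_lit 456) (nat_lit 6070457972) (nat_lit 76) (nat_lit 1447497) (nat_lit 68) (nat_lit 5) (nat_lit 74) (nat_lit 5) (nat_lit 69) (nat_lit 5) (nat_lit 269) (nat_lit 236) (nat_lit 215)) (XT.nd (nat_lit 78) (nat_lit 380) (nat_lit 0) (XT.lf (nat_lit 0) (nat_lit 2216210134) (nat_lit 304) (nat_lit 5783905204) (nat_lit 380) (nat_lit 2247571330) (nat_lit 64) (nat_lit 5) (nat_lit 68) (nat_lit 5) (nat_lit 69) (nat_lit 5) (nat_lit 270) (nat_lit 236) (nat_lit 214)) (XT.lf (nat_lit 0) (nat_lit 308833606) (nat_lit 304) (nat_lit 1360484603) (nat_lit 380) (nat_lit 8885519633)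 (nat_lit 59) (nat_lit 5) (nat_lit 63) (nat_lit 5) (nat_lit 64) (nat_lit 5) (nat_lit 271) (nat_lit 236) (nat_lit 213)))))) (XT.nd (nat_lit 390) (nat_lit 988) (nat_lit 0) (XT.nd (nat_lit 156) (nat_lit 608) (nat_lit 0) (XT.nd (nat_lit 78) (nat_lit 228) (nat_lit 0) (XT.lf (nat_lit 0) (nat_lit 5725017214) (nat_lit 380) (nat_lit 1867001721) (nat_lit 76) (nat_lit 3285236093) (nat_lit 59) (nat_lit 5) (nat_lit 64) (nat_lit 5) (nat_lit 60) (nat_lit 5) (nat_lit 272) (nat_lit 236) (nat_lit 212)) (XT.lf (nat_lit 0) (nat_lit 6888732501) (nat_lit 228) (nat_lit 3054673094) (nat_lit 304) (nat_lit 1273837483) (nat_lit 56) (nat_lit 5) (nat_lit 59) (nat_lit 5) (nat_lit 60) (nat_lit 5) (nat_lit 273) (nat_lit 236) (nat_lit 211))) (XT.nd (nat_lit 78) (nat_lit 228) (nat_lit 0) (XT.lf (nat_lit 0) (nat_lit 2705693732) (nat_lit 380) (nat_lit 7145712501) (nat_lit 76) (nat_lit 1723391207) (nat_lit 51) (nat_lit 5) (nat_lit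 56) (nat_lit 5) (nat_lit 52) (nat_lit 5) (nat_lit 274) (nat_lit 236) (nat_lit 210)) (XT.nd (nat_lit 78) (nat_lit 0) (nat_lit 0) (XT.lf (nat_lit 0) (nat_lit 1593698118) (nat_lit 228) (nat_lit 5241992572) (nat_lit 304) (nat_lit 5115043073) (nat_lit 48) (nat_lit 5) (nat_lit 51) (nat_lit 5) (nat_lit 52) (nat_lit 5) (nat_lit 275) (nat_lit 236) (nat_lit 209)) (XT.lf (nat_lit 0) (nat_lit 10764581172) (nat_lit 228) (nat_lit 371523235) (nat_lit 304) (nat_lit 1210652255) (nat_lit 48) (nat_lit 5) (nat_lit 51) (nat_lit 5) (nat_lit 52) (nat_lit 5) (nat_lit 276) (nat_lit 236) (nat_lit 208))))) (XT.nd (nat_lit 234) (nat_lit 456) (nat_lit 0) (XT.nd (nat_lit 78) (nat_lit 228) (nat_lit 0) (XT.lf (nat_lit 0) (nat_lit 2846175572) (nat_lit 304) (nat_lit 5206818007) (nat_lit 76) (nat_lit 4708537919) (nat_lit 44) (nat_lit 5) (nat_lit 48) (nat_lit 5) (nat_lit 45) (nat_lit 5) (nat_lit 277) (nat_lit 236) (nat_lit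 207)) (XT.nd (nat_lit 78) (nat_lit 0) (nat_lit 0) (XT.lf (nat_lit 0) (nat_lit 3896581785) (nat_lit 228) (nat_lit 3139679067) (nat_lit 304) (nat_lit 6161943523) (nat_lit 41) (nat_lit 5) (nat_lit 44) (nat_lit 5) (nat_lit 45) (nat_lit 5) (nat_lit 278) (nat_lit 236) (nat_lit 206)) (XT.lf (nat_lit 0) (nat_lit 11410018221) (nat_lit 304) (nat_lit 257821181) (nat_lit 76) (nat_lit 1989820289) (nat_lit 41) (nat_lit 5) (nat_lit 45) (nat_lit 5) (nat_lit 42) (nat_lit 5) (nat_lit 279) (nat_lit 236) (nat_lit 205)))) (XT.nd (nat_lit 78) (nat_lit 152) (nat_lit 0) (XT.lf (nat_lit 0) (nat_lit 1852066431) (nat_lit 304) (nat_lit 4910454358) (nat_lit 76) (nat_lit 7376409674) (nat_lit 37) (nat_lit 5) (nat_lit 41) (nat_lit 5) (nat_lit 38) (nat_lit 5) (nat_lit 280) (nat_lit 236) (nat_lit 204)) (XT.nd (nat_lit 78) (nat_lit 0) (nat_lit 0) (XT.lf (nat_lit 0) (nat_lit 4477208698) (nat_lit 152) (nat_lit 1586717248) (nat_lit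 228) (nat_lit 8581214764) (nat_lit 35) (nat_lit 5) (nat_lit 37) (nat_lit 5) (nat_lit 38) (nat_lit 5) (nat_lit 281) (nat_lit 236) (nat_lit 203)) (XT.lf (nat_lit 0) (nat_lit 10484608446) (nat_lit 228) (nat_lit 911953124) (nat_lit 76) (nat_lit 3780298785) (nat_lit 35) (nat_lit 5) (nat_lit 38) (nat_lit 5) (nat_lit 36) (nat_lit 5) (nat_lit 282) (nat_lit 236) (nat_lit 202))))))) (XT.nd (nat_lit 780) (nat_lit 532) (nat_lit 0) (XT.nd (nat_lit 390) (nat_lit 608) (nat_lit 0) (XT.nd (nat_lit 156) (nat_lit 152) (nat_lit 0) (XT.nd (nat_lit 78) (nat_lit 228) (nat_lit 0) (XT.lf (nat_lit 0) (nat_lit 8833479291) (nat_lit 228) (nat_lit 6308242840) (nat_lit 304) (nat_lit 593120788) (nat_lit 32) (nat_lit 5) (nat_lit 35) (nat_lit 5) (nat_lit 36) (nat_lit 5) (nat_lit 283) (nat_lit 236) (nat_lit 201)) (XT.lf (nat_lit 0) (nat_lit 2653024619) (nat_lit 152) (nat_lit 936893957) (nat_lit 228) (nat_lit 12731323273)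 (nat_lit 29) (nat_lit 5) (nat_lit 31) (nat_lit 5) (nat_lit 32) (nat_lit 5) (nat_lit 284) (nat_lit 236) (nat_lit 200))) (XT.nd (nat_lit 78) (nat_lit 152) (nat_lit 0) (XT.lf (nat_lit 0) (nat_lit 8005667894) (nat_lit 228) (nat_lit 4283623381) (nat_lit 76) (nat_lit 4646540808) (nat_lit 29) (nat_lit 5) (nat_lit 32) (nat_lit 5) (nat_lit 30) (nat_lit 5) (nat_lit 285) (nat_lit 236) (nat_lit 199)) (XT.nd (nat_lit 78) (nat_lit 0) (nat_lit 0) (XT.lf (nat_lit 0) (nat_lit 5548786191) (nat_lit 152) (nat_lit 7078837324) (nat_lit 228) (nat_lit 4954082195) (nat_lit 27) (nat_lit 5) (nat_lit 29) (nat_lit 5) (nat_lit 30) (nat_lit 5) (nat_lit 286) (nat_lit 236) (nat_lit 198)) (XT.lf (nat_lit 0) (nat_lit 15845543394) (nat_lit 152) (nat_lit 1604415782) (nat_lit 228) (nat_lit 810946276) (nat_lit 27) (nat_lit 5) (nat_lit 29) (nat_lit 5) (nat_lit 30) (nat_lit 5) (nat_lit 287) (nat_lit 236) (nat_lit 197))))) (XT.nd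 (nat_lit 156) (nat_lit 380) (nat_lit 0) (XT.nd (nat_lit 78) (nat_lit 0) (nat_lit 0) (XT.lf (nat_lit 0) (nat_lit 3512615064) (nat_lit 228) (nat_lit 11327326998) (nat_lit 76) (nat_lit 4131934973) (nat_lit 24) (nat_lit 5) (nat_lit 27) (nat_lit 5) (nat_lit 25) (nat_lit 5) (nat_lit 288) (nat_lit 236) (nat_lit 196)) (XT.lf (nat_lit 0) (nat_lit 8006977914) (nat_lit 228) (nat_lit 1595680640) (nat_lit 76) (nat_lit 10116453578) (nat_lit 24) (nat_lit 5) (nat_lit 27) (nat_lit 5) (nat_lit 25) (nat_lit 5) (nat_lit 289) (nat_lit 236) (nat_lit 195))) (XT.nd (nat_lit 78) (nat_lit 228) (nat_lit 0) (XT.lf (nat_lit 0) (nat_lit 8686009021) (nat_lit 152) (nat_lit 4056816730) (nat_lit 228) (nat_lit 7760473237) (nat_lit 22) (nat_lit 5) (nat_lit 24) (nat_lit 5) (nat_lit 25) (nat_lit 5) (nat_lit 290) (nat_lit 236) (nat_lit 194)) (XT.nd (nat_lit 78) (nat_lit 228) (nat_lit 0) (XT.lf (nat_lit 0) (nat_lit 17684123123)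 (nat_lit 228) (nat_lit 1932865810) (nat_lit 76) (nat_lit 1710735122) (nat_lit 22) (nat_lit 5) (nat_lit 25) (nat_lit 5) (nat_lit 23) (nat_lit 4) (nat_lit 291) (nat_lit 236) (nat_lit 193)) (XT.lf (nat_lit 0) (nat_lit 726929869) (nat_lit 228) (nat_lit 13728309499) (nat_lit 76) (nat_lit 7736185067) (nat_lit 19) (nat_lit 5) (nat_lit 22) (nat_lit 5) (nat_lit 20) (nat_lit 5) (nat_lit 292) (nat_lit 236) (nat_lit 192)))))) (XT.nd (nat_lit 390) (nat_lit 304) (nat_lit 0) (XT.nd (nat_lit 156) (nat_lit 76) (nat_lit 0) (XT.nd (nat_lit 78) (nat_lit 152) (nat_lit 0) (XT.lf (nat_lit 0) (nat_lit 5200949306) (nat_lit 228) (nat_lit 3813491145) (nat_lit 76) (nat_lit 14084055609) (nat_lit 19) (nat_lit 5) (nat_lit 22) (nat_lit 5) (nat_lit 20) (nat_lit 5) (nat_lit 293) (nat_lit 236) (nat_lit 191)) (XT.lf (nat_lit 0) (nat_lit 6633083078) (nat_lit 152) (nat_lit 3271750472) (nat_lit 228) (nat_lit 14145977093) (nat_lit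 17) (nat_lit 5) (nat_lit 19) (nat_lit 5) (nat_lit 20) (nat_lit 5) (nat_lit 294) (nat_lit 236) (nat_lit 190))) (XT.nd (nat_lit 78) (nat_lit 76) (nat_lit 0) (XT.lf (nat_lit 0) (nat_lit 14854005962) (nat_lit 228) (nat_lit 7486935956) (nat_lit 76) (nat_lit 2709566973) (nat_lit 17) (nat_lit 5) (nat_lit 20) (nat_lit 5) (nat_lit 18) (nat_lit 4) (nat_lit 295) (nat_lit 236) (nat_lit 189)) (XT.nd (nat_lit 78) (nat_lit 0) (nat_lit 0) (XT.lf (nat_lit 0) (nat_lit 2875728012) (nat_lit 76) (nat_lit 17182180954) (nat_lit 152) (nat_lit 6042132311) (nat_lit 16) (nat_lit 5) (nat_lit 17) (nat_lit 5) (nat_lit 18) (nat_lit 4) (nat_lit 296) (nat_lit 236) (nat_lit 188)) (XT.lf (nat_lit 0) (nat_lit 13827735296) (nat_lit 76) (nat_lit 11719672511) (nat_lit 152) (nat_lit 1653944631) (nat_lit 16) (nat_lit 5) (nat_lit 17) (nat_lit 5) (nat_lit 18) (nat_lit 4) (nat_lit 297) (nat_lit 236) (nat_lit 187))))) (XT.nd (nat_lit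 234) (nat_lit 76) (nat_lit 0) (XT.nd (nat_lit 78) (nat_lit 152) (nat_lit 0) (XT.lf (nat_lit 0) (nat_lit 2846258674) (nat_lit 152) (nat_lit 3141013684) (nat_lit 76) (nat_lit 22371157090) (nat_lit 15) (nat_lit 5) (nat_lit 17) (nat_lit 5) (nat_lit 16) (nat_lit 5) (nat_lit 298) (nat_lit 236) (nat_lit 186)) (XT.nd (nat_lit 78) (nat_lit 0) (nat_lit 0) (XT.lf (nat_lit 0) (nat_lit 7564707861) (nat_lit 228) (nat_lit 21915396171) (nat_lit 76) (nat_lit 91998265) (nat_lit 13) (nat_lit 5) (nat_lit 16) (nat_lit 5) (nat_lit 14) (nat_lit 4) (nat_lit 299) (nat_lit 236) (nat_lit 185)) (XT.lf (nat_lit 0) (nat_lit 12566011524) (nat_lit 228) (nat_lit 11923503506) (nat_lit 76) (nat_lit 6355589619) (nat_lit 13) (nat_lit 5) (nat_lit 16) (nat_lit 5) (nat_lit 14) (nat_lit 4) (nat_lit 300) (nat_lit 236) (nat_lit 184)))) (XT.nd (nat_lit 78) (nat_lit 76) (nat_lit 0) (XT.lf (nat_lit 0) (nat_lit 17773425060) (nat_lit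 228) (nat_lit 1505552860) (nat_lit 76) (nat_lit 12904149121) (nat_lit 13) (nat_lit 5) (nat_lit 16) (nat_lit 5) (nat_lit 14) (nat_lit 4) (nat_lit 301) (nat_lit 236) (nat_lit 183)) (XT.nd (nat_lit 78) (nat_lit 0) (nat_lit 0) (XT.lf (nat_lit 0) (nat_lit 9549607653) (nat_lit 76) (nat_lit 13741536088) (nat_lit 152) (nat_lit 10295457593) (nat_lit 12) (nat_lit 5) (nat_lit 13) (nat_lit 5) (nat_lit 14) (nat_lit 4) (nat_lit 302) (nat_lit 236) (nat_lit 182)) (XT.lf (nat_lit 0) (nat_lit 21120960450) (nat_lit 76) (nat_lit 7938763561) (nat_lit 152) (nat_lit 6001322557) (nat_lit 12) (nat_lit 5) (nat_lit 13) (nat_lit 5) (nat_lit 14) (nat_lit 4) (nat_lit 303) (nat_lit 236) (nat_lit 181))))))))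
noncomputable def xc43 : XT := (XT.nd (nat_lit 1638) (nat_lit 76) (nat_lit 0) (XT.nd (nat_lit 780) (nat_lit 152) (nat_lit 0) (XT.nd (nat_lit 390) (nat_lit 76) (nat_lit 0) (XT.nd (nat_lit 156) (nat_lit 76) (nat_lit 0) (XT.nd (nat_lit 78) (nat_lit 228) (nat_lit 0) (XT.lf (nat_lit 0) (nat_lit 33206092916) (nat_lit 76) (nat_lit 1872047347) (nat_lit 152) (nat_lit 1532275871) (nat_lit 12) (nat_lit 5) (nat_lit 13) (nat_lit 5) (nat_lit 14) (nat_lit 4) (nat_lit 304) (nat_lit 236) (nat_lit 180)) (XT.lf (nat_lit 0) (nat_lit 3179594826) (nat_lit 228) (nat_lit 30563370664) (nat_lit 76) (nat_lit 4490987122) (nat_lit 9) (nat_lit 5) (nat_lit 12) (nat_lit 5) (nat_lit 10) (nat_lit 4) (nat_lit 305) (nat_lit 236) (nat_lit 179))) (XT.nd (nat_lit 78) (nat_lit 76) (nat_lit 0) (XT.lf (nat_lit 0) (nat_lit 8113738337) (nat_lit 228) (nat_lit 20663522385) (nat_lit 76) (nat_lit 11160437981) (nat_lit 9) (nat_lit 5) (nat_lit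 12) (nat_lit 5) (nat_lit 10) (nat_lit 4) (nat_lit 306) (nat_lit 236) (nat_lit 178)) (XT.nd (nat_lit 78) (nat_lit 76) (nat_lit 0) (XT.lf (nat_lit 0) (nat_lit 13260101408) (nat_lit 228) (nat_lit 10327322540) (nat_lit 76) (nat_lit 18140279917) (nat_lit 9) (nat_lit 5) (nat_lit 12) (nat_lit 5) (nat_lit 10) (nat_lit 4) (nat_lit 307) (nat_lit 236) (nat_lit 177)) (XT.lf (nat_lit 0) (nat_lit 479189585) (nat_lit 76) (nat_lit 18156353962) (nat_lit 152) (nat_lit 24972548277) (nat_lit 8) (nat_lit 5) (nat_lit 9) (nat_lit 5) (nat_lit 10) (nat_lit 4) (nat_lit 308) (nat_lit 236) (nat_lit 176))))) (XT.nd (nat_lit 156) (nat_lit 76) (nat_lit 0) (XT.nd (nat_lit 78) (nat_lit 0) (nat_lit 0) (XT.lf (nat_lit 0) (nat_lit 11987590442) (nat_lit 76) (nat_lit 12366675281) (nat_lit 152) (nat_lit 21226031905) (nat_lit 8) (nat_lit 5) (nat_lit 9) (nat_lit 5) (nat_lit 10) (nat_lit 4) (nat_lit 309) (nat_lit 236) (nat_lit 175))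 (XT.lf (nat_lit 0) (nat_lit 24019747016) (nat_lit 76) (nat_lit 6308888664) (nat_lit 152) (nat_lit 17323418773) (nat_lit 8) (nat_lit 5) (nat_lit 9) (nat_lit 5) (nat_lit 10) (nat_lit 4) (nat_lit 310) (nat_lit 236) (nat_lit 174))) (XT.nd (nat_lit 78) (nat_lit 76) (nat_lit 0) (XT.lf (nat_lit 0) (nat_lit 36573180224) (nat_lit 152) (nat_lit 13224289871) (nat_lit 0) (nat_lit 30815893) (nat_lit 8) (nat_lit 5) (nat_lit 10) (nat_lit 4) (nat_lit 8) (nat_lit 4) (nat_lit 311) (nat_lit 236) (nat_lit 173)) (XT.nd (nat_lit 78) (nat_lit 76) (nat_lit 0) (XT.lf (nat_lit 0) (nat_lit 43165970356) (nat_lit 152) (nat_lit 2407076528) (nat_lit 0) (nat_lit 6539230762) (nat_lit 8) (nat_lit 5) (nat_lit 10) (nat_lit 4) (nat_lit 8) (nat_lit 4) (nat_lit 312) (nat_lit 236) (nat_lit 172)) (XT.lf (nat_lit 0) (nat_lit 9082974299) (nat_lit 76) (nat_lit 41066395102) (nat_lit 76) (nat_lit 4359298117) (nat_lit 7) (nat_lit 4)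 (nat_lit 8) (nat_lit 5) (nat_lit 8) (nat_lit 4) (nat_lit 313) (nat_lit 236) (nat_lit 171)))))) (XT.nd (nat_lit 390) (nat_lit 0) (nat_lit 0) (XT.nd (nat_lit 156) (nat_lit 76) (nat_lit 0) (XT.nd (nat_lit 78) (nat_lit 0) (nat_lit 0) (XT.lf (nat_lit 0) (nat_lit 447378240) (nat_lit 152) (nat_lit 35875450006) (nat_lit 76) (nat_lit 20701965385) (nat_lit 6) (nat_lit 5) (nat_lit 8) (nat_lit 5) (nat_lit 7) (nat_lit 4) (nat_lit 314) (nat_lit 236) (nat_lit 170)) (XT.lf (nat_lit 0) (nat_lit 5380509127) (nat_lit 152) (nat_lit 25934080831) (nat_lit 76) (nat_lit 28351577325) (nat_lit 6) (nat_lit 5) (nat_lit 8) (nat_lit 5) (nat_lit 7) (nat_lit 4) (nat_lit 315) (nat_lit 236) (nat_lit 169))) (XT.nd (nat_lit 78) (nat_lit 76) (nat_lit 0) (XT.lf (nat_lit 0) (nat_lit 10536905698) (nat_lit 152) (nat_lit 15536011527) (nat_lit 76) (nat_lit 36367417357) (nat_lit 6) (nat_lit 5) (nat_lit 8) (nat_lit 5) (nat_lit 7) (nat_lit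 4) (nat_lit 316) (nat_lit 236) (nat_lit 168)) (XT.nd (nat_lit 78) (nat_lit 76) (nat_lit 0) (XT.lf (nat_lit 0) (nat_lit 15928845090) (nat_lit 152) (nat_lit 4656484787) (nat_lit 76) (nat_lit 44768570816) (nat_lit 6) (nat_lit 5) (nat_lit 8) (nat_lit 5) (nat_lit 7) (nat_lit 4) (nat_lit 317) (nat_lit 236) (nat_lit 167)) (XT.lf (nat_lit 0) (nat_lit 6864351240) (nat_lit 76) (nat_lit 14770798356) (nat_lit 152) (nat_lit 46776673550) (nat_lit 5) (nat_lit 5) (nat_lit 6) (nat_lit 5) (nat_lit 7) (nat_lit 4) (nat_lit 318) (nat_lit 236) (nat_lit 166))))) (XT.nd (nat_lit 234) (nat_lit 0) (nat_lit 0) (XT.nd (nat_lit 78) (nat_lit 0) (nat_lit 0) (XT.lf (nat_lit 0) (nat_lit 19022970209) (nat_lit 76) (nat_lit 8631185737) (nat_lit 152) (nat_lit 43967684251) (nat_lit 5) (nat_lit 5) (nat_lit 6) (nat_lit 5) (nat_lit 7) (nat_lit 4) (nat_lit 319) (nat_lit 236) (nat_lit 165)) (XT.nd (nat_lit 78) (nat_lit 0) (nat_lit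 0) (XT.lf (nat_lit 0) (nat_lit 31755648036) (nat_lit 76) (nat_lit 2198895263) (nat_lit 152) (nat_lit 41038421005) (nat_lit 5) (nat_lit 5) (nat_lit 6) (nat_lit 5) (nat_lit 7) (nat_lit 4) (nat_lit 320) (nat_lit 236) (nat_lit 164)) (XT.lf (nat_lit 0) (nat_lit 40594967175) (nat_lit 152) (nat_lit 33484175932) (nat_lit 0) (nat_lit 4452769205) (nat_lit 5) (nat_lit 5) (nat_lit 7) (nat_lit 4) (nat_lit 5) (nat_lit 4) (nat_lit 321) (nat_lit 236) (nat_lit 163)))) (XT.nd (nat_lit 78) (nat_lit 0) (nat_lit 0) (XT.lf (nat_lit 0) (nat_lit 47571731575) (nat_lit 152) (nat_lit 23296720683) (nat_lit 0) (nat_lit 11379243225) (nat_lit 5) (nat_lit 5) (nat_lit 7) (nat_lit 4) (nat_lit 5) (nat_lit 4) (nat_lit 322) (nat_lit 236) (nat_lit 162)) (XT.nd (nat_lit 78) (nat_lit 0) (nat_lit 0) (XT.lf (nat_lit 0) (nat_lit 54880310717) (nat_lit 152) (nat_lit 12629557550) (nat_lit 0) (nat_lit 18639926767) (nat_lit 5) (nat_lit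 5) (nat_lit 7) (nat_lit 4) (nat_lit 5) (nat_lit 4) (nat_lit 323) (nat_lit 236) (nat_lit 161)) (XT.lf (nat_lit 0) (nat_lit 62538105979) (nat_lit 152) (nat_lit 1457288525) (nat_lit 0) (nat_lit 26252107172) (nat_lit 5) (nat_lit 5) (nat_lit 7) (nat_lit 4) (nat_lit 5) (nat_lit 4) (nat_lit 324) (nat_lit 236) (nat_lit 160))))))) (XT.nd (nat_lit 31746) (nat_lit 0) (nat_lit 7828) (XT.nd (nat_lit 390) (nat_lit 0) (nat_lit 0) (XT.nd (nat_lit 156) (nat_lit 0) (nat_lit 0) (XT.nd (nat_lit 78) (nat_lit 0) (nat_lit 0) (XT.lf (nat_lit 0) (nat_lit 10450616193) (nat_lit 76) (nat_lit 60213191731) (nat_lit 76) (nat_lit 23883750203) (nat_lit 4) (nat_lit 4) (nat_lit 5) (nat_lit 5) (nat_lit 5) (nat_lit 4) (nat_lit 325) (nat_lit 236) (nat_lit 159)) (XT.lf (nat_lit 0) (nat_lit 22958233555) (nat_lit 76) (nat_lit 56237606160) (nat_lit 76) (nat_lit 19866790611) (nat_lit 4) (nat_lit 4) (nat_lit 5) (nat_lit 5) (nat_lit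 5) (nat_lit 4) (nat_lit 326) (nat_lit 236) (nat_lit 158))) (XT.nd (nat_lit 78) (nat_lit 0) (nat_lit 0) (XT.lf (nat_lit 0) (nat_lit 36066340701) (nat_lit 76) (nat_lit 52073887868) (nat_lit 76) (nat_lit 15663668490) (nat_lit 4) (nat_lit 4) (nat_lit 5) (nat_lit 5) (nat_lit 5) (nat_lit 4) (nat_lit 327) (nat_lit 236) (nat_lit 157)) (XT.nd (nat_lit 78) (nat_lit 0) (nat_lit 0) (XT.lf (nat_lit 0) (nat_lit 49806147410) (nat_lit 76) (nat_lit 47712123240) (nat_lit 76) (nat_lit 11264376407) (nat_lit 4) (nat_lit 4) (nat_lit 5) (nat_lit 5) (nat_lit 5) (nat_lit 4) (nat_lit 328) (nat_lit 236) (nat_lit 156)) (XT.lf (nat_lit 0) (nat_lit 64210367508) (nat_lit 76) (nat_lit 43141927123) (nat_lit 76) (nat_lit 6658439855) (nat_lit 4) (nat_lit 4) (nat_lit 5) (nat_lit 5) (nat_lit 5) (nat_lit 4) (nat_lit 329) (nat_lit 236) (nat_lit 155))))) (XT.nd (nat_lit 31122) (nat_lit 0) (nat_lit 15656) (XT.nd (nat_lit 30966)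 (nat_lit 0) (nat_lit 17404) (XT.lf (nat_lit 0) (nat_lit 79313296757) (nat_lit 76) (nat_lit 38352418097) (nat_lit 76) (nat_lit 1834892320) (nat_lit 4) (nat_lit 4) (nat_lit 5) (nat_lit 5) (nat_lit 5) (nat_lit 4) (nat_lit 330) (nat_lit 236) (nat_lit 154)) (XT.nd (nat_lit 78) (nat_lit 456) (nat_lit 0) (XT.lf (nat_lit 0) (nat_lit 1093134538) (nat_lit 380) (nat_lit 1092147853) (nat_lit 0) (nat_lit 1093134538) (nat_lit 239) (nat_lit 5) (nat_lit 244) (nat_lit 4) (nat_lit 239) (nat_lit 4) (nat_lit 246) (nat_lit 237) (nat_lit 237)) (XT.lf (nat_lit 0) (nat_lit 194702446) (nat_lit 456) (nat_lit 3168543117) (nat_lit 76) (nat_lit 3236848982) (nat_lit 233) (nat_lit 5) (nat_lit 239) (nat_lit 5) (nat_lit 234) (nat_lit 4) (nat_lit 247) (nat_lit 237) (nat_lit 236)))) (XT.nd (nat_lit 78) (nat_lit 1292) (nat_lit 0) (XT.lf (nat_lit 0) (nat_lit 2546168162) (nat_lit 456) (nat_lit 2135625969) (nat_lit 532) (nat_lit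 1970043803) (nat_lit 227) (nat_lit 5) (nat_lit 233) (nat_lit 5) (nat_lit 234) (nat_lit 4) (nat_lit 248) (nat_lit 237) (nat_lit 235)) (XT.nd (nat_lit 78) (nat_lit 684) (nat_lit 0) (XT.lf (nat_lit 0) (nat_lit 1726228872) (nat_lit 532) (nat_lit 701119189) (nat_lit 608) (nat_lit 4285314976) (nat_lit 219) (nat_lit 5) (nat_lit 226) (nat_lit 5) (nat_lit 227) (nat_lit 5) (nat_lit 249) (nat_lit 237) (nat_lit 234)) (XT.lf (nat_lit 0) (nat_lit 34913597) (nat_lit 684) (nat_lit 5824463185) (nat_lit 76) (nat_lit 923130115) (nat_lit 210) (nat_lit 5) (nat_lit 219) (nat_lit 5) (nat_lit 211) (nat_lit 5) (nat_lit 250) (nat_lit 237) (nat_lit 233)))))) (XT.nd (nat_lit 390) (nat_lit 4484) (nat_lit 0) (XT.nd (nat_lit 156) (nat_lit 2584) (nat_lit 0) (XT.nd (nat_lit 78) (nat_lit 76) (nat_lit 0) (XT.lf (nat_lit 0) (nat_lit 210222225) (nat_lit 684) (nat_lit 4094946475) (nat_lit 760) (nat_lit 2555647428) (nat_lit 201)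 (nat_lit 5) (nat_lit 210) (nat_lit 5) (nat_lit 211) (nat_lit 5) (nat_lit 251) (nat_lit 237) (nat_lit 232)) (XT.lf (nat_lit 0) (nat_lit 1637759453) (nat_lit 760) (nat_lit 483873071) (nat_lit 76) (nat_lit 4826895047) (nat_lit 200) (nat_lit 5) (nat_lit 210) (nat_lit 5) (nat_lit 201) (nat_lit 5) (nat_lit 252) (nat_lit 237) (nat_lit 231))) (XT.nd (nat_lit 78) (nat_lit 1824) (nat_lit 0) (XT.lf (nat_lit 0) (nat_lit 5824276272) (nat_lit 836) (nat_lit 1149333643) (nat_lit 76) (nat_lit 71981571) (nat_lit 190) (nat_lit 5) (nat_lit 201) (nat_lit 5) (nat_lit 191) (nat_lit 5) (nat_lit 253) (nat_lit 237) (nat_lit 230)) (XT.nd (nat_lit 78) (nat_lit 912) (nat_lit 0) (XT.lf (nat_lit 0) (nat_lit 2876067311) (nat_lit 912) (nat_lit 1825034125) (nat_lit 76) (nat_lit 2450372080) (nat_lit 178) (nat_lit 5) (nat_lit 190) (nat_lit 5) (nat_lit 179) (nat_lit 5) (nat_lit 254) (nat_lit 237) (nat_lit 229)) (XT.lf (nat_lit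 0) (nat_lit 4783404792) (nat_lit 912) (nat_lit 2221038665) (nat_lit 988) (nat_lit 263019479) (nat_lit 166) (nat_lit 5) (nat_lit 178) (nat_lit 5) (nat_lit 179) (nat_lit 5) (nat_lit 255) (nat_lit 237) (nat_lit 228))))) (XT.nd (nat_lit 234) (nat_lit 1672) (nat_lit 0) (XT.nd (nat_lit 78) (nat_lit 1748) (nat_lit 0) (XT.lf (nat_lit 0) (nat_lit 3736065878) (nat_lit 1064) (nat_lit 3166279588) (nat_lit 76) (nat_lit 490536020) (nat_lit 152) (nat_lit 5) (nat_lit 166) (nat_lit 5) (nat_lit 153) (nat_lit 5) (nat_lit 256) (nat_lit 237) (nat_lit 227)) (XT.nd (nat_lit 78) (nat_lit 608) (nat_lit 0) (XT.lf (nat_lit 0) (nat_lit 285743057) (nat_lit 1140) (nat_lit 3870060293) (nat_lit 76) (nat_lit 3372531832) (nat_lit 137) (nat_lit 5) (nat_lit 152) (nat_lit 5) (nat_lit 138) (nat_lit 5) (nat_lit 257) (nat_lit 237) (nat_lit 226)) (XT.lf (nat_lit 0) (nat_lit 3058223555) (nat_lit 608) (nat_lit 1166331937) (nat_lit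 684) (nat_lit 3449261524) (nat_lit 129) (nat_lit 5) (nat_lit 137) (nat_lit 5) (nat_lit 138) (nat_lit 5) (nat_lit 258) (nat_lit 237) (nat_lit 225)))) (XT.nd (nat_lit 78) (nat_lit 1064) (nat_lit 0) (XT.lf (nat_lit 0) (nat_lit 423353051) (nat_lit 608) (nat_lit 5403299831) (nat_lit 76) (nat_lit 2003305402) (nat_lit 121) (nat_lit 5) (nat_lit 129) (nat_lit 5) (nat_lit 122) (nat_lit 5) (nat_lit 259) (nat_lit 237) (nat_lit 224)) (XT.nd (nat_lit 78) (nat_lit 532) (nat_lit 0) (XT.lf (nat_lit 0) (nat_lit 1727376183) (nat_lit 532) (nat_lit 2591543130) (nat_lit 608) (nat_lit 3677457575) (nat_lit 114) (nat_lit 5) (nat_lit 121) (nat_lit 5) (nat_lit 122) (nat_lit 5) (nat_lit 260) (nat_lit 237) (nat_lit 223)) (XT.lf (nat_lit 0) (nat_lit 135664955) (nat_lit 532) (nat_lit 7191335925) (nat_lit 76) (nat_lit 847457666) (nat_lit 107) (nat_lit 5) (nat_lit 114) (nat_lit 5) (nat_lit 108) (nat_lit 5) (nat_lit 261)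 (nat_lit 237) (nat_lit 222))))))))
noncomputable def xc44 : XT := (XT.nd (nat_lit 1638) (nat_lit 1748) (nat_lit 0) (XT.nd (nat_lit 780) (nat_lit 2128) (nat_lit 0) (XT.nd (nat_lit 390) (nat_lit 1520) (nat_lit 0) (XT.nd (nat_lit 156) (nat_lit 1368) (nat_lit 0) (XT.nd (nat_lit 78) (nat_lit 0) (nat_lit 0) (XT.lf (nat_lit 0) (nat_lit 124935519) (nat_lit 456) (nat_lit 3866198882) (nat_lit 532) (nat_lit 4371838270) (nat_lit 101) (nat_lit 5) (nat_lit 107) (nat_lit 5) (nat_lit 108) (nat_lit 5) (nat_lit 262) (nat_lit 237) (nat_lit 221)) (XT.lf (nat_lit 0) (nat_lit 7779605691) (nat_lit 456) (nat_lit 174480991) (nat_lit 532) (nat_lit 609816048) (nat_lit 101) (nat_lit 5) (nat_lit 107) (nat_lit 5) (nat_lit 108) (nat_lit 5) (nat_lit 263) (nat_lit 237) (nat_lit 220))) (XT.nd (nat_lit 78) (nat_lit 912) (nat_lit 0) (XT.lf (nat_lit 0) (nat_lit 3224903486) (nat_lit 456) (nat_lit 1839886236) (nat_lit 76) (nat_lit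 3711031962) (nat_lit 95) (nat_lit 5) (nat_lit 101) (nat_lit 5) (nat_lit 96) (nat_lit 5) (nat_lit 264) (nat_lit 237) (nat_lit 219)) (XT.nd (nat_lit 78) (nat_lit 456) (nat_lit 0) (XT.lf (nat_lit 0) (nat_lit 5997139099) (nat_lit 456) (nat_lit 1161163641) (nat_lit 532) (nat_lit 1842646035) (nat_lit 89) (nat_lit 5) (nat_lit 95) (nat_lit 5) (nat_lit 96) (nat_lit 5) (nat_lit 265) (nat_lit 237) (nat_lit 218)) (XT.lf (nat_lit 0) (nat_lit 1961960014) (nat_lit 456) (nat_lit 4334855151) (nat_lit 76) (nat_lit 2941748633) (nat_lit 83) (nat_lit 5) (nat_lit 89) (nat_lit 5) (nat_lit 84) (nat_lit 5) (nat_lit 266) (nat_lit 237) (nat_lit 217))))) (XT.nd (nat_lit 156) (nat_lit 760) (nat_lit 0) (XT.nd (nat_lit 78) (nat_lit 380) (nat_lit 0) (XT.lf (nat_lit 0) (nat_lit 3652885526) (nat_lit 380) (nat_lit 2204799421) (nat_lit 456) (nat_lit 3631992009) (nat_lit 78) (nat_lit 5) (nat_lit 83) (nat_lit 5) (nat_lit 84)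 (nat_lit 5) (nat_lit 267) (nat_lit 237) (nat_lit 216)) (XT.lf (nat_lit 0) (nat_lit 142229974) (nat_lit 380) (nat_lit 7524088496) (nat_lit 76) (nat_lit 2088745066) (nat_lit 73) (nat_lit 5) (nat_lit 78) (nat_lit 5) (nat_lit 74) (nat_lit 5) (nat_lit 268) (nat_lit 237) (nat_lit 215))) (XT.nd (nat_lit 78) (nat_lit 380) (nat_lit 0) (XT.lf (nat_lit 0) (nat_lit 576677201) (nat_lit 380) (nat_lit 3411132525) (nat_lit 456) (nat_lit 6046392729) (nat_lit 68) (nat_lit 5) (nat_lit 73) (nat_lit 5) (nat_lit 74) (nat_lit 5) (nat_lit 269) (nat_lit 237) (nat_lit 214)) (XT.nd (nat_lit 78) (nat_lit 380) (nat_lit 0) (XT.lf (nat_lit 0) (nat_lit 7986987553) (nat_lit 456) (nat_lit 1262385586) (nat_lit 76) (nat_lit 1079366250) (nat_lit 68) (nat_lit 5) (nat_lit 74) (nat_lit 5) (nat_lit 69) (nat_lit 5) (nat_lit 270) (nat_lit 237) (nat_lit 213)) (XT.lf (nat_lit 0) (nat_lit 1501001979) (nat_lit 380) (nat_lit 3361387616)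 (nat_lit 76) (nat_lit 5775933917) (nat_lit 63) (nat_lit 5) (nat_lit 68) (nat_lit 5) (nat_lit 64) (nat_lit 5) (nat_lit 271) (nat_lit 237) (nat_lit 212)))))) (XT.nd (nat_lit 390) (nat_lit 988) (nat_lit 0) (XT.nd (nat_lit 156) (nat_lit 608) (nat_lit 0) (XT.nd (nat_lit 78) (nat_lit 228) (nat_lit 0) (XT.lf (nat_lit 0) (nat_lit 5228524824) (nat_lit 304) (nat_lit 204640755) (nat_lit 380) (nat_lit 5531401735) (nat_lit 59) (nat_lit 5) (nat_lit 63) (nat_lit 5) (nat_lit 64) (nat_lit 5) (nat_lit 272) (nat_lit 237) (nat_lit 211)) (XT.lf (nat_lit 0) (nat_lit 2867505834) (nat_lit 228) (nat_lit 6687656011) (nat_lit 304) (nat_lit 1752400096) (nat_lit 56) (nat_lit 5) (nat_lit 59) (nat_lit 5) (nat_lit 60) (nat_lit 5) (nat_lit 273) (nat_lit 237) (nat_lit 210))) (XT.nd (nat_lit 78) (nat_lit 228) (nat_lit 0) (XT.lf (nat_lit 0) (nat_lit 181614491) (nat_lit 304) (nat_lit 1942501021) (nat_lit 380) (nat_lit 9544615584)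 (nat_lit 51) (nat_lit 5) (nat_lit 55) (nat_lit 5) (nat_lit 56) (nat_lit 5) (nat_lit 274) (nat_lit 237) (nat_lit 209)) (XT.nd (nat_lit 78) (nat_lit 228) (nat_lit 0) (XT.lf (nat_lit 0) (nat_lit 6167362485) (nat_lit 380) (nat_lit 2834181696) (nat_lit 76) (nat_lit 3045826843) (nat_lit 51) (nat_lit 5) (nat_lit 56) (nat_lit 5) (nat_lit 52) (nat_lit 5) (nat_lit 275) (nat_lit 237) (nat_lit 208)) (XT.lf (nat_lit 0) (nat_lit 6208368768) (nat_lit 228) (nat_lit 4180684338) (nat_lit 304) (nat_lit 2056798802) (nat_lit 48) (nat_lit 5) (nat_lit 51) (nat_lit 5) (nat_lit 52) (nat_lit 5) (nat_lit 276) (nat_lit 237) (nat_lit 207))))) (XT.nd (nat_lit 234) (nat_lit 456) (nat_lit 0) (XT.nd (nat_lit 78) (nat_lit 228) (nat_lit 0) (XT.lf (nat_lit 0) (nat_lit 1883864882) (nat_lit 304) (nat_lit 10082368700) (nat_lit 76) (nat_lit 898706474) (nat_lit 44) (nat_lit 5) (nat_lit 48) (nat_lit 5) (nat_lit 45) (nat_lit 5) (nat_lit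 277) (nat_lit 237) (nat_lit 206)) (XT.nd (nat_lit 78) (nat_lit 228) (nat_lit 0) (XT.lf (nat_lit 0) (nat_lit 5988905864) (nat_lit 304) (nat_lit 1123891336) (nat_lit 76) (nat_lit 6191451856) (nat_lit 44) (nat_lit 5) (nat_lit 48) (nat_lit 5) (nat_lit 45) (nat_lit 5) (nat_lit 278) (nat_lit 237) (nat_lit 205)) (XT.lf (nat_lit 0) (nat_lit 8310179553) (nat_lit 228) (nat_lit 1975992025) (nat_lit 304) (nat_lit 3479908302) (nat_lit 41) (nat_lit 5) (nat_lit 44) (nat_lit 5) (nat_lit 45) (nat_lit 5) (nat_lit 279) (nat_lit 237) (nat_lit 204)))) (XT.nd (nat_lit 78) (nat_lit 152) (nat_lit 0) (XT.lf (nat_lit 0) (nat_lit 528263423) (nat_lit 304) (nat_lit 10357778636) (nat_lit 76) (nat_lit 3365206090) (nat_lit 37) (nat_lit 5) (nat_lit 41) (nat_lit 5) (nat_lit 38) (nat_lit 5) (nat_lit 280) (nat_lit 237) (nat_lit 203)) (XT.nd (nat_lit 78) (nat_lit 152) (nat_lit 0) (XT.lf (nat_lit 0) (nat_lit 4654112349) (nat_lit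 304) (nat_lit 1121471040) (nat_lit 76) (nat_lit 8984526439) (nat_lit 37) (nat_lit 5) (nat_lit 41) (nat_lit 5) (nat_lit 38) (nat_lit 5) (nat_lit 281) (nat_lit 237) (nat_lit 202)) (XT.lf (nat_lit 0) (nat_lit 8619926864) (nat_lit 152) (nat_lit 365287357) (nat_lit 228) (nat_lit 6309370401) (nat_lit 35) (nat_lit 5) (nat_lit 37) (nat_lit 5) (nat_lit 38) (nat_lit 5) (nat_lit 282) (nat_lit 237) (nat_lit 201))))))) (XT.nd (nat_lit 780) (nat_lit 608) (nat_lit 0) (XT.nd (nat_lit 390) (nat_lit 532) (nat_lit 0) (XT.nd (nat_lit 156) (nat_lit 304) (nat_lit 0) (XT.nd (nat_lit 78) (nat_lit 76) (nat_lit 0) (XT.lf (nat_lit 0) (nat_lit 2898210503) (nat_lit 228) (nat_lit 10643817008) (nat_lit 304) (nat_lit 2313613191) (nat_lit 32) (nat_lit 5) (nat_lit 35) (nat_lit 5) (nat_lit 36) (nat_lit 5) (nat_lit 283) (nat_lit 237) (nat_lit 200)) (XT.lf (nat_lit 0) (nat_lit 1838650142) (nat_lit 304) (nat_lit 3497636147)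 (nat_lit 76) (nat_lit 11108239611) (nat_lit 31) (nat_lit 5) (nat_lit 35) (nat_lit 5) (nat_lit 32) (nat_lit 5) (nat_lit 284) (nat_lit 237) (nat_lit 199))) (XT.nd (nat_lit 78) (nat_lit 152) (nat_lit 0) (XT.lf (nat_lit 0) (nat_lit 6139735462) (nat_lit 228) (nat_lit 10644228537) (nat_lit 76) (nat_lit 278648859) (nat_lit 29) (nat_lit 5) (nat_lit 32) (nat_lit 5) (nat_lit 30) (nat_lit 5) (nat_lit 285) (nat_lit 237) (nat_lit 198)) (XT.nd (nat_lit 78) (nat_lit 152) (nat_lit 0) (XT.lf (nat_lit 0) (nat_lit 10672405816) (nat_lit 228) (nat_lit 975953828) (nat_lit 76) (nat_lit 6062859496) (nat_lit 29) (nat_lit 5) (nat_lit 32) (nat_lit 5) (nat_lit 30) (nat_lit 5) (nat_lit 286) (nat_lit 237) (nat_lit 197)) (XT.lf (nat_lit 0) (nat_lit 9247123079) (nat_lit 152) (nat_lit 6203293493) (nat_lit 228) (nat_lit 2941383581) (nat_lit 27) (nat_lit 5) (nat_lit 29) (nat_lit 5) (nat_lit 30) (nat_lit 5) (nat_lit 287) (nat_lit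 237) (nat_lit 196))))) (XT.nd (nat_lit 156) (nat_lit 304) (nat_lit 0) (XT.nd (nat_lit 78) (nat_lit 0) (nat_lit 0) (XT.lf (nat_lit 0) (nat_lit 790489786) (nat_lit 152) (nat_lit 492987311) (nat_lit 228) (nat_lit 17824164845) (nat_lit 24) (nat_lit 5) (nat_lit 26) (nat_lit 5) (nat_lit 27) (nat_lit 5) (nat_lit 288) (nat_lit 237) (nat_lit 195)) (XT.lf (nat_lit 0) (nat_lit 5740550619) (nat_lit 228) (nat_lit 8632490969) (nat_lit 76) (nat_lit 5482999501) (nat_lit 24) (nat_lit 5) (nat_lit 27) (nat_lit 5) (nat_lit 25) (nat_lit 5) (nat_lit 289) (nat_lit 237) (nat_lit 194))) (XT.nd (nat_lit 78) (nat_lit 152) (nat_lit 0) (XT.lf (nat_lit 0) (nat_lit 1458910962) (nat_lit 152) (nat_lit 8917015794) (nat_lit 228) (nat_lit 10267358552) (nat_lit 22) (nat_lit 5) (nat_lit 24) (nat_lit 5) (nat_lit 25) (nat_lit 5) (nat_lit 290) (nat_lit 237) (nat_lit 193)) (XT.nd (nat_lit 78) (nat_lit 152) (nat_lit 0) (XT.lf (nat_lit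 0) (nat_lit 12137186298) (nat_lit 152) (nat_lit 3133281760) (nat_lit 228) (nat_lit 6198686151) (nat_lit 22) (nat_lit 5) (nat_lit 24) (nat_lit 5) (nat_lit 25) (nat_lit 5) (nat_lit 291) (nat_lit 237) (nat_lit 192)) (XT.lf (nat_lit 0) (nat_lit 907590923) (nat_lit 152) (nat_lit 19480251659) (nat_lit 228) (nat_lit 1949211137) (nat_lit 20) (nat_lit 5) (nat_lit 22) (nat_lit 5) (nat_lit 23) (nat_lit 4) (nat_lit 292) (nat_lit 237) (nat_lit 191)))))) (XT.nd (nat_lit 390) (nat_lit 304) (nat_lit 0) (XT.nd (nat_lit 156) (nat_lit 228) (nat_lit 0) (XT.nd (nat_lit 78) (nat_lit 0) (nat_lit 0) (XT.lf (nat_lit 0) (nat_lit 2534748129) (nat_lit 228) (nat_lit 11541478354) (nat_lit 76) (nat_lit 9169340101) (nat_lit 19) (nat_lit 5) (nat_lit 22) (nat_lit 5) (nat_lit 20) (nat_lit 5) (nat_lit 293) (nat_lit 237) (nat_lit 190)) (XT.lf (nat_lit 0) (nat_lit 7148112740) (nat_lit 228) (nat_lit 1267740350) (nat_lit 76) (nat_lit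 15784778181) (nat_lit 19) (nat_lit 5) (nat_lit 22) (nat_lit 5) (nat_lit 20) (nat_lit 5) (nat_lit 294) (nat_lit 237) (nat_lit 189))) (XT.nd (nat_lit 78) (nat_lit 76) (nat_lit 0) (XT.lf (nat_lit 0) (nat_lit 9622723501) (nat_lit 152) (nat_lit 2409679030) (nat_lit 228) (nat_lit 13169906337) (nat_lit 17) (nat_lit 5) (nat_lit 19) (nat_lit 5) (nat_lit 20) (nat_lit 5) (nat_lit 295) (nat_lit 237) (nat_lit 188)) (XT.nd (nat_lit 78) (nat_lit 76) (nat_lit 0) (XT.lf (nat_lit 0) (nat_lit 17160693464) (nat_lit 228) (nat_lit 5290645311) (nat_lit 76) (nat_lit 3802802146) (nat_lit 17) (nat_lit 5) (nat_lit 20) (nat_lit 5) (nat_lit 18) (nat_lit 4) (nat_lit 296) (nat_lit 237) (nat_lit 187)) (XT.lf (nat_lit 0) (nat_lit 5516465049) (nat_lit 76) (nat_lit 17057853206) (nat_lit 152) (nat_lit 4783439863) (nat_lit 16) (nat_lit 5) (nat_lit 17) (nat_lit 5) (nat_lit 18) (nat_lit 4) (nat_lit 297) (nat_lit 237) (nat_lit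 186))))) (XT.nd (nat_lit 234) (nat_lit 76) (nat_lit 0) (XT.nd (nat_lit 78) (nat_lit 228) (nat_lit 0) (XT.lf (nat_lit 0) (nat_lit 16897170286) (nat_lit 76) (nat_lit 11369049664) (nat_lit 152) (nat_lit 250166564) (nat_lit 16) (nat_lit 5) (nat_lit 17) (nat_lit 5) (nat_lit 18) (nat_lit 4) (nat_lit 298) (nat_lit 237) (nat_lit 185)) (XT.nd (nat_lit 78) (nat_lit 152) (nat_lit 0) (XT.lf (nat_lit 0) (nat_lit 4376637142) (nat_lit 152) (nat_lit 1003975929) (nat_lit 76) (nat_lit 24352440503) (nat_lit 15) (nat_lit 5) (nat_lit 17) (nat_lit 5) (nat_lit 16) (nat_lit 5) (nat_lit 299) (nat_lit 237) (nat_lit 184)) (XT.lf (nat_lit 0) (nat_lit 9294837090) (nat_lit 228) (nat_lit 20749465555) (nat_lit 76) (nat_lit 964271399) (nat_lit 13) (nat_lit 5) (nat_lit 16) (nat_lit 5) (nat_lit 14) (nat_lit 4) (nat_lit 300) (nat_lit 237) (nat_lit 183)))) (XT.nd (nat_lit 78) (nat_lit 76) (nat_lit 0) (XT.lf (nat_lit 0) (nat_lit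 14481830040) (nat_lit 228) (nat_lit 10365678277) (nat_lit 76) (nat_lit 7499724548) (nat_lit 13) (nat_lit 5) (nat_lit 16) (nat_lit 5) (nat_lit 14) (nat_lit 4) (nat_lit 301) (nat_lit 237) (nat_lit 182)) (XT.nd (nat_lit 78) (nat_lit 0) (nat_lit 0) (XT.lf (nat_lit 0) (nat_lit 479964285) (nat_lit 76) (nat_lit 19412953299) (nat_lit 152) (nat_lit 13861011191) (nat_lit 12) (nat_lit 5) (nat_lit 13) (nat_lit 5) (nat_lit 14) (nat_lit 4) (nat_lit 302) (nat_lit 237) (nat_lit 181)) (XT.lf (nat_lit 0) (nat_lit 12019713193) (nat_lit 76) (nat_lit 13622958792) (nat_lit 152) (nat_lit 9586288399) (nat_lit 12) (nat_lit 5) (nat_lit 13) (nat_lit 5) (nat_lit 14) (nat_lit 4) (nat_lit 303) (nat_lit 237) (nat_lit 180))))))))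
noncomputable def xc45 : XT := (XT.nd (nat_lit 1638) (nat_lit 76) (nat_lit 0) (XT.nd (nat_lit 780) (nat_lit 228) (nat_lit 0) (XT.nd (nat_lit 390) (nat_lit 76) (nat_lit 0) (XT.nd (nat_lit 156) (nat_lit 228) (nat_lit 0) (XT.nd (nat_lit 78) (nat_lit 0) (nat_lit 0) (XT.lf (nat_lit 0) (nat_lit 24074746718) (nat_lit 76) (nat_lit 7568412120) (nat_lit 152) (nat_lit 5135729566) (nat_lit 12) (nat_lit 5) (nat_lit 13) (nat_lit 5) (nat_lit 14) (nat_lit 4) (nat_lit 304) (nat_lit 237) (nat_lit 179)) (XT.lf (nat_lit 0) (nat_lit 36673767319) (nat_lit 76) (nat_lit 1234897697) (nat_lit 152) (nat_lit 498738123) (nat_lit 12) (nat_lit 5) (nat_lit 13) (nat_lit 5) (nat_lit 14) (nat_lit 4) (nat_lit 305) (nat_lit 237) (nat_lit 178))) (XT.nd (nat_lit 78) (nat_lit 0) (nat_lit 0) (XT.lf (nat_lit 0) (nat_lit 4399279033) (nat_lit 228) (nat_lit 30287975569) (nat_lit 76) (nat_lit 5425432324) (nat_lit 9) (nat_lit 5) (nat_lit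 12) (nat_lit 5) (nat_lit 10) (nat_lit 4) (nat_lit 306) (nat_lit 237) (nat_lit 177)) (XT.nd (nat_lit 78) (nat_lit 0) (nat_lit 0) (XT.lf (nat_lit 0) (nat_lit 9529619983) (nat_lit 228) (nat_lit 19979018859) (nat_lit 76) (nat_lit 12394551162) (nat_lit 9) (nat_lit 5) (nat_lit 12) (nat_lit 5) (nat_lit 10) (nat_lit 4) (nat_lit 307) (nat_lit 237) (nat_lit 176)) (XT.lf (nat_lit 0) (nat_lit 14885196697) (nat_lit 228) (nat_lit 9207803290) (nat_lit 76) (nat_lit 19691190371) (nat_lit 9) (nat_lit 5) (nat_lit 12) (nat_lit 5) (nat_lit 10) (nat_lit 4) (nat_lit 308) (nat_lit 237) (nat_lit 175))))) (XT.nd (nat_lit 156) (nat_lit 0) (nat_lit 0) (XT.nd (nat_lit 78) (nat_lit 0) (nat_lit 0) (XT.lf (nat_lit 0) (nat_lit 2092142116) (nat_lit 76) (nat_lit 18406729381) (nat_lit 152) (nat_lit 25260691735) (nat_lit 8) (nat_lit 5) (nat_lit 9) (nat_lit 5) (nat_lit 10) (nat_lit 4) (nat_lit 309) (nat_lit 237) (nat_lit 174))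 (XT.lf (nat_lit 0) (nat_lit 14100296679) (nat_lit 76) (nat_lit 12358873541) (nat_lit 152) (nat_lit 21372586876) (nat_lit 8) (nat_lit 5) (nat_lit 9) (nat_lit 5) (nat_lit 10) (nat_lit 4) (nat_lit 310) (nat_lit 237) (nat_lit 173))) (XT.nd (nat_lit 78) (nat_lit 0) (nat_lit 0) (XT.lf (nat_lit 0) (nat_lit 26661997905) (nat_lit 76) (nat_lit 6028013570) (nat_lit 152) (nat_lit 17318402451) (nat_lit 8) (nat_lit 5) (nat_lit 9) (nat_lit 5) (nat_lit 10) (nat_lit 4) (nat_lit 311) (nat_lit 237) (nat_lit 172)) (XT.nd (nat_lit 78) (nat_lit 0) (nat_lit 0) (XT.lf (nat_lit 0) (nat_lit 39212007044) (nat_lit 152) (nat_lit 12493338078) (nat_lit 0) (nat_lit 589197817) (nat_lit 8) (nat_lit 5) (nat_lit 10) (nat_lit 4) (nat_lit 8) (nat_lit 4) (nat_lit 312) (nat_lit 237) (nat_lit 171)) (XT.lf (nat_lit 0) (nat_lit 46095857263) (nat_lit 152) (nat_lit 1201557701) (nat_lit 0) (nat_lit 7396517186) (nat_lit 8) (nat_lit 5)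 (nat_lit 10) (nat_lit 4) (nat_lit 8) (nat_lit 4) (nat_lit 313) (nat_lit 237) (nat_lit 170)))))) (XT.nd (nat_lit 390) (nat_lit 76) (nat_lit 0) (XT.nd (nat_lit 156) (nat_lit 0) (nat_lit 0) (XT.nd (nat_lit 78) (nat_lit 76) (nat_lit 0) (XT.lf (nat_lit 0) (nat_lit 10824989794) (nat_lit 76) (nat_lit 42579073926) (nat_lit 76) (nat_lit 3806847325) (nat_lit 7) (nat_lit 4) (nat_lit 8) (nat_lit 5) (nat_lit 8) (nat_lit 4) (nat_lit 314) (nat_lit 237) (nat_lit 169)) (XT.lf (nat_lit 0) (nat_lit 1189158688) (nat_lit 152) (nat_lit 36427650199) (nat_lit 76) (nat_lit 22236927263) (nat_lit 6) (nat_lit 5) (nat_lit 8) (nat_lit 5) (nat_lit 7) (nat_lit 4) (nat_lit 315) (nat_lit 237) (nat_lit 168))) (XT.nd (nat_lit 78) (nat_lit 0) (nat_lit 0) (XT.lf (nat_lit 0) (nat_lit 6334688426) (nat_lit 152) (nat_lit 26048335056) (nat_lit 76) (nat_lit 30245216771) (nat_lit 6) (nat_lit 5) (nat_lit 8) (nat_lit 5) (nat_lit 7) (nat_lit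 4) (nat_lit 316) (nat_lit 237) (nat_lit 167)) (XT.nd (nat_lit 78) (nat_lit 0) (nat_lit 0) (XT.lf (nat_lit 0) (nat_lit 11716278453) (nat_lit 152) (nat_lit 15186669421) (nat_lit 76) (nat_lit 38639179254) (nat_lit 6) (nat_lit 5) (nat_lit 8) (nat_lit 5) (nat_lit 7) (nat_lit 4) (nat_lit 317) (nat_lit 237) (nat_lit 166)) (XT.lf (nat_lit 0) (nat_lit 17346742078) (nat_lit 152) (nat_lit 3816792187) (nat_lit 76) (nat_lit 47438800336) (nat_lit 6) (nat_lit 5) (nat_lit 8) (nat_lit 5) (nat_lit 7) (nat_lit 4) (nat_lit 318) (nat_lit 237) (nat_lit 165))))) (XT.nd (nat_lit 234) (nat_lit 0) (nat_lit 0) (XT.nd (nat_lit 78) (nat_lit 0) (nat_lit 0) (XT.lf (nat_lit 0) (nat_lit 8249342162) (nat_lit 76) (nat_lit 15069440727) (nat_lit 152) (nat_lit 48494987058) (nat_lit 5) (nat_lit 5) (nat_lit 6) (nat_lit 5) (nat_lit 7) (nat_lit 4) (nat_lit 319) (nat_lit 237) (nat_lit 164)) (XT.nd (nat_lit 78) (nat_lit 0) (nat_lit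 0) (XT.lf (nat_lit 0) (nat_lit 20966283825) (nat_lit 76) (nat_lit 8643794980) (nat_lit 152) (nat_lit 45575096874) (nat_lit 5) (nat_lit 5) (nat_lit 6) (nat_lit 5) (nat_lit 7) (nat_lit 4) (nat_lit 320) (nat_lit 237) (nat_lit 163)) (XT.lf (nat_lit 0) (nat_lit 34288349585) (nat_lit 76) (nat_lit 1909839984) (nat_lit 152) (nat_lit 42527511970) (nat_lit 5) (nat_lit 5) (nat_lit 6) (nat_lit 5) (nat_lit 7) (nat_lit 4) (nat_lit 321) (nat_lit 237) (nat_lit 162)))) (XT.nd (nat_lit 78) (nat_lit 0) (nat_lit 0) (XT.lf (nat_lit 0) (nat_lit 43148291284) (nat_lit 152) (nat_lit 34246008828) (nat_lit 0) (nat_lit 5047992536) (nat_lit 5) (nat_lit 5) (nat_lit 7) (nat_lit 4) (nat_lit 5) (nat_lit 4) (nat_lit 322) (nat_lit 237) (nat_lit 161)) (XT.nd (nat_lit 78) (nat_lit 0) (nat_lit 0) (XT.lf (nat_lit 0) (nat_lit 50448961725) (nat_lit 152) (nat_lit 23592627288) (nat_lit 0) (nat_lit 12303048120) (nat_lit 5) (nat_lit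 5) (nat_lit 7) (nat_lit 4) (nat_lit 5) (nat_lit 4) (nat_lit 323) (nat_lit 237) (nat_lit 160)) (XT.lf (nat_lit 0) (nat_lit 58099224892) (nat_lit 152) (nat_lit 12433483590) (nat_lit 0) (nat_lit 19909868566) (nat_lit 5) (nat_lit 5) (nat_lit 7) (nat_lit 4) (nat_lit 5) (nat_lit 4) (nat_lit 324) (nat_lit 237) (nat_lit 159))))))) (XT.nd (nat_lit 31590) (nat_lit 0) (nat_lit 8892) (XT.nd (nat_lit 390) (nat_lit 0) (nat_lit 0) (XT.nd (nat_lit 156) (nat_lit 0) (nat_lit 0) (XT.nd (nat_lit 78) (nat_lit 76) (nat_lit 0) (XT.lf (nat_lit 0) (nat_lit 66117295697) (nat_lit 152) (nat_lit 742008345) (nat_lit 0) (nat_lit 27886565351) (nat_lit 5) (nat_lit 5) (nat_lit 7) (nat_lit 4) (nat_lit 5) (nat_lit 4) (nat_lit 325) (nat_lit 237) (nat_lit 158)) (XT.lf (nat_lit 0) (nat_lit 11738699603) (nat_lit 76) (nat_lit 62896404744) (nat_lit 76) (nat_lit 24626270568) (nat_lit 4) (nat_lit 4) (nat_lit 5) (nat_lit 5) (nat_lit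 5) (nat_lit 4) (nat_lit 326) (nat_lit 237) (nat_lit 157))) (XT.nd (nat_lit 78) (nat_lit 0) (nat_lit 0) (XT.lf (nat_lit 0) (nat_lit 24835242947) (nat_lit 76) (nat_lit 58737632588) (nat_lit 76) (nat_lit 20429970956) (nat_lit 4) (nat_lit 4) (nat_lit 5) (nat_lit 5) (nat_lit 5) (nat_lit 4) (nat_lit 327) (nat_lit 237) (nat_lit 156)) (XT.nd (nat_lit 78) (nat_lit 0) (nat_lit 0) (XT.lf (nat_lit 0) (nat_lit 38564036511) (nat_lit 76) (nat_lit 54380578566) (nat_lit 76) (nat_lit 16037176500) (nat_lit 4) (nat_lit 4) (nat_lit 5) (nat_lit 5) (nat_lit 5) (nat_lit 4) (nat_lit 328) (nat_lit 237) (nat_lit 155)) (XT.lf (nat_lit 0) (nat_lit 52957767900) (nat_lit 76) (nat_lit 49814868740) (nat_lit 76) (nat_lit 11437428166) (nat_lit 4) (nat_lit 4) (nat_lit 5) (nat_lit 5) (nat_lit 5) (nat_lit 4) (nat_lit 329) (nat_lit 237) (nat_lit 154))))) (XT.nd (nat_lit 30966) (nat_lit 0) (nat_lit 16872) (XT.nd (nat_lit 30810)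 (nat_lit 0) (nat_lit 18164) (XT.lf (nat_lit 0) (nat_lit 68050707902) (nat_lit 76) (nat_lit 45029632372) (nat_lit 76) (nat_lit 6619774170) (nat_lit 4) (nat_lit 4) (nat_lit 5) (nat_lit 5) (nat_lit 5) (nat_lit 4) (nat_lit 330) (nat_lit 237) (nat_lit 153)) (XT.nd (nat_lit 78) (nat_lit 76) (nat_lit 0) (XT.lf (nat_lit 0) (nat_lit 53788780) (nat_lit 228) (nat_lit 1596284089) (nat_lit 228) (nat_lit 1596284089) (nat_lit 244) (nat_lit 4) (nat_lit 247) (nat_lit 5) (nat_lit 247) (nat_lit 4) (nat_lit 244) (nat_lit 238) (nat_lit 238)) (XT.lf (nat_lit 0) (nat_lit 1343176804) (nat_lit 304) (nat_lit 1127588981) (nat_lit 76) (nat_lit 4051750919) (nat_lit 243) (nat_lit 5) (nat_lit 247) (nat_lit 5) (nat_lit 244) (nat_lit 4) (nat_lit 245) (nat_lit 238) (nat_lit 237)))) (XT.nd (nat_lit 78) (nat_lit 988) (nat_lit 0) (XT.lf (nat_lit 0) (nat_lit 4270572735) (nat_lit 304) (nat_lit 1540024991) (nat_lit 380) (nat_lit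 750365148) (nat_lit 239) (nat_lit 5) (nat_lit 243) (nat_lit 5) (nat_lit 244) (nat_lit 4) (nat_lit 246) (nat_lit 238) (nat_lit 236)) (XT.nd (nat_lit 78) (nat_lit 532) (nat_lit 0) (XT.lf (nat_lit 0) (nat_lit 3211507492) (nat_lit 380) (nat_lit 391848173) (nat_lit 456) (nat_lit 3004605341) (nat_lit 233) (nat_lit 5) (nat_lit 238) (nat_lit 5) (nat_lit 239) (nat_lit 5) (nat_lit 247) (nat_lit 238) (nat_lit 235)) (XT.lf (nat_lit 0) (nat_lit 1271521143) (nat_lit 532) (nat_lit 4448180537) (nat_lit 76) (nat_lit 944041770) (nat_lit 226) (nat_lit 5) (nat_lit 233) (nat_lit 5) (nat_lit 227) (nat_lit 5) (nat_lit 248) (nat_lit 238) (nat_lit 234)))))) (XT.nd (nat_lit 390) (nat_lit 5168) (nat_lit 0) (XT.nd (nat_lit 156) (nat_lit 1596) (nat_lit 0) (XT.nd (nat_lit 78) (nat_lit 684) (nat_lit 0) (XT.lf (nat_lit 0) (nat_lit 1268062616) (nat_lit 532) (nat_lit 4238689627) (nat_lit 608) (nat_lit 1221447892) (nat_lit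 219) (nat_lit 5) (nat_lit 226) (nat_lit 5) (nat_lit 227) (nat_lit 5) (nat_lit 249) (nat_lit 238) (nat_lit 233)) (XT.lf (nat_lit 0) (nat_lit 364422374) (nat_lit 608) (nat_lit 2543684132) (nat_lit 684) (nat_lit 3893431916) (nat_lit 210) (nat_lit 5) (nat_lit 218) (nat_lit 5) (nat_lit 219) (nat_lit 5) (nat_lit 250) (nat_lit 238) (nat_lit 232))) (XT.nd (nat_lit 78) (nat_lit 1520) (nat_lit 0) (XT.lf (nat_lit 0) (nat_lit 159562258) (nat_lit 684) (nat_lit 479320177) (nat_lit 76) (nat_lit 6245290288) (nat_lit 209) (nat_lit 5) (nat_lit 218) (nat_lit 5) (nat_lit 210) (nat_lit 5) (nat_lit 251) (nat_lit 238) (nat_lit 231)) (XT.nd (nat_lit 78) (nat_lit 836) (nat_lit 0) (XT.lf (nat_lit 0) (nat_lit 4184120398) (nat_lit 760) (nat_lit 1314331403) (nat_lit 76) (nat_lit 1476662216) (nat_lit 200) (nat_lit 5) (nat_lit 210) (nat_lit 5) (nat_lit 201) (nat_lit 5) (nat_lit 252) (nat_lit 238) (nat_lit 230)) (XT.lf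 (nat_lit 0) (nat_lit 1159007699) (nat_lit 836) (nat_lit 2124234348) (nat_lit 76) (nat_lit 3792352385) (nat_lit 189) (nat_lit 5) (nat_lit 200) (nat_lit 5) (nat_lit 190) (nat_lit 5) (nat_lit 253) (nat_lit 238) (nat_lit 229))))) (XT.nd (nat_lit 234) (nat_lit 2356) (nat_lit 0) (XT.nd (nat_lit 78) (nat_lit 1976) (nat_lit 0) (XT.lf (nat_lit 0) (nat_lit 4257346521) (nat_lit 836) (nat_lit 841215852) (nat_lit 912) (nat_lit 2086931780) (nat_lit 178) (nat_lit 5) (nat_lit 189) (nat_lit 5) (nat_lit 190) (nat_lit 5) (nat_lit 254) (nat_lit 238) (nat_lit 228)) (XT.nd (nat_lit 78) (nat_lit 988) (nat_lit 0) (XT.lf (nat_lit 0) (nat_lit 1770678654) (nat_lit 988) (nat_lit 3743823771) (nat_lit 76) (nat_lit 1790265651) (nat_lit 165) (nat_lit 5) (nat_lit 178) (nat_lit 5) (nat_lit 166) (nat_lit 5) (nat_lit 255) (nat_lit 238) (nat_lit 227)) (XT.lf (nat_lit 0) (nat_lit 2856682585) (nat_lit 988) (nat_lit 2796404120)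 (nat_lit 1064) (nat_lit 1780678652) (nat_lit 152) (nat_lit 5) (nat_lit 165) (nat_lit 5) (nat_lit 166) (nat_lit 5) (nat_lit 256) (nat_lit 238) (nat_lit 226)))) (XT.nd (nat_lit 78) (nat_lit 1216) (nat_lit 0) (XT.lf (nat_lit 0) (nat_lit 1992585156) (nat_lit 1140) (nat_lit 5431432946) (nat_lit 76) (nat_lit 148925462) (nat_lit 137) (nat_lit 5) (nat_lit 152) (nat_lit 5) (nat_lit 138) (nat_lit 5) (nat_lit 257) (nat_lit 238) (nat_lit 225)) (XT.nd (nat_lit 78) (nat_lit 608) (nat_lit 0) (XT.lf (nat_lit 0) (nat_lit 1378185380) (nat_lit 608) (nat_lit 4449600207) (nat_lit 684) (nat_lit 1894019608) (nat_lit 129) (nat_lit 5) (nat_lit 137) (nat_lit 5) (nat_lit 138) (nat_lit 5) (nat_lit 258) (nat_lit 238) (nat_lit 224)) (XT.lf (nat_lit 0) (nat_lit 582157536) (nat_lit 532) (nat_lit 1243338290) (nat_lit 608) (nat_lit 6055935646) (nat_lit 121) (nat_lit 5) (nat_lit 128) (nat_lit 5) (nat_lit 129) (nat_lit 5)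 (nat_lit 259) (nat_lit 238) (nat_lit 223))))))))
noncomputable def xc46 : XT := (XT.nd (nat_lit 1638) (nat_lit 2128) (nat_lit 0) (XT.nd (nat_lit 780) (nat_lit 2432) (nat_lit 0) (XT.nd (nat_lit 390) (nat_lit 1672) (nat_lit 0) (XT.nd (nat_lit 156) (nat_lit 1368) (nat_lit 0) (XT.nd (nat_lit 78) (nat_lit 608) (nat_lit 0) (XT.lf (nat_lit 0) (nat_lit 5610570009) (nat_lit 608) (nat_lit 275960259) (nat_lit 76) (nat_lit 2164873599) (nat_lit 121) (nat_lit 5) (nat_lit 129) (nat_lit 5) (nat_lit 122) (nat_lit 5) (nat_lit 260) (nat_lit 238) (nat_lit 222)) (XT.lf (nat_lit 0) (nat_lit 1247747262) (nat_lit 608) (nat_lit 1188430870) (nat_lit 76) (nat_lit 5796184108) (nat_lit 113) (nat_lit 5) (nat_lit 121) (nat_lit 5) (nat_lit 114) (nat_lit 5) (nat_lit 261) (nat_lit 238) (nat_lit 221))) (XT.nd (nat_lit 78) (nat_lit 912) (nat_lit 0) (XT.lf (nat_lit 0) (nat_lit 4989947657) (nat_lit 532) (nat_lit 2192415756)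 (nat_lit 76) (nat_lit 1242121515) (nat_lit 107) (nat_lit 5) (nat_lit 114) (nat_lit 5) (nat_lit 108) (nat_lit 5) (nat_lit 262) (nat_lit 238) (nat_lit 220)) (XT.nd (nat_lit 78) (nat_lit 380) (nat_lit 0) (XT.lf (nat_lit 0) (nat_lit 224442223) (nat_lit 532) (nat_lit 3294611870) (nat_lit 76) (nat_lit 5109360656) (nat_lit 100) (nat_lit 5) (nat_lit 107) (nat_lit 5) (nat_lit 101) (nat_lit 5) (nat_lit 263) (nat_lit 238) (nat_lit 219)) (XT.lf (nat_lit 0) (nat_lit 3918001563) (nat_lit 456) (nat_lit 4522960420) (nat_lit 76) (nat_lit 403259039) (nat_lit 95) (nat_lit 5) (nat_lit 101) (nat_lit 5) (nat_lit 96) (nat_lit 5) (nat_lit 264) (nat_lit 238) (nat_lit 218))))) (XT.nd (nat_lit 156) (nat_lit 760) (nat_lit 0) (XT.nd (nat_lit 78) (nat_lit 456) (nat_lit 0) (XT.lf (nat_lit 0) (nat_lit 3178995983) (nat_lit 456) (nat_lit 4576500068) (nat_lit 532) (nat_lit 1316905740) (nat_lit 89) (nat_lit 5) (nat_lit 95)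 (nat_lit 5) (nat_lit 96) (nat_lit 5) (nat_lit 265) (nat_lit 238) (nat_lit 217)) (XT.lf (nat_lit 0) (nat_lit 1900297414) (nat_lit 380) (nat_lit 452039988) (nat_lit 456) (nat_lit 6961444146) (nat_lit 83) (nat_lit 5) (nat_lit 88) (nat_lit 5) (nat_lit 89) (nat_lit 5) (nat_lit 266) (nat_lit 238) (nat_lit 216))) (XT.nd (nat_lit 78) (nat_lit 380) (nat_lit 0) (XT.lf (nat_lit 0) (nat_lit 436861720) (nat_lit 380) (nat_lit 5711170525) (nat_lit 456) (nat_lit 3420018823) (nat_lit 78) (nat_lit 5) (nat_lit 83) (nat_lit 5) (nat_lit 84) (nat_lit 5) (nat_lit 267) (nat_lit 238) (nat_lit 215)) (XT.nd (nat_lit 78) (nat_lit 304) (nat_lit 0) (XT.lf (nat_lit 0) (nat_lit 244753846) (nat_lit 456) (nat_lit 1166435334) (nat_lit 76) (nat_lit 8425490472) (nat_lit 77) (nat_lit 5) (nat_lit 83) (nat_lit 5) (nat_lit 78) (nat_lit 5) (nat_lit 268) (nat_lit 238) (nat_lit 214)) (XT.lf (nat_lit 0) (nat_lit 3998624862) (nat_lit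 380) (nat_lit 3001183298) (nat_lit 76) (nat_lit 3118898571) (nat_lit 73) (nat_lit 5) (nat_lit 78) (nat_lit 5) (nat_lit 74) (nat_lit 5) (nat_lit 269) (nat_lit 238) (nat_lit 213)))))) (XT.nd (nat_lit 390) (nat_lit 1064) (nat_lit 0) (XT.nd (nat_lit 156) (nat_lit 608) (nat_lit 0) (XT.nd (nat_lit 78) (nat_lit 380) (nat_lit 0) (XT.lf (nat_lit 0) (nat_lit 5364188690) (nat_lit 380) (nat_lit 2534739023) (nat_lit 456) (nat_lit 2517412583) (nat_lit 68) (nat_lit 5) (nat_lit 73) (nat_lit 5) (nat_lit 74) (nat_lit 5) (nat_lit 270) (nat_lit 238) (nat_lit 212)) (XT.lf (nat_lit 0) (nat_lit 1209256386) (nat_lit 380) (nat_lit 7365136728) (nat_lit 76) (nat_lit 2155287894) (nat_lit 63) (nat_lit 5) (nat_lit 68) (nat_lit 5) (nat_lit 64) (nat_lit 5) (nat_lit 271) (nat_lit 238) (nat_lit 211))) (XT.nd (nat_lit 78) (nat_lit 304) (nat_lit 0) (XT.lf (nat_lit 0) (nat_lit 1071013733) (nat_lit 304) (nat_lit 3975561024)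 (nat_lit 380) (nat_lit 6012310224) (nat_lit 59) (nat_lit 5) (nat_lit 63) (nat_lit 5) (nat_lit 64) (nat_lit 5) (nat_lit 272) (nat_lit 238) (nat_lit 210)) (XT.nd (nat_lit 78) (nat_lit 304) (nat_lit 0) (XT.lf (nat_lit 0) (nat_lit 9051643656) (nat_lit 380) (nat_lit 1476110292) (nat_lit 76) (nat_lit 877742828) (nat_lit 59) (nat_lit 5) (nat_lit 64) (nat_lit 5) (nat_lit 60) (nat_lit 5) (nat_lit 273) (nat_lit 238) (nat_lit 209)) (XT.lf (nat_lit 0) (nat_lit 1466170141) (nat_lit 304) (nat_lit 4358514852) (nat_lit 76) (nat_lit 5944302355) (nat_lit 55) (nat_lit 5) (nat_lit 59) (nat_lit 5) (nat_lit 56) (nat_lit 5) (nat_lit 274) (nat_lit 238) (nat_lit 208))))) (XT.nd (nat_lit 234) (nat_lit 456) (nat_lit 0) (XT.nd (nat_lit 78) (nat_lit 304) (nat_lit 0) (XT.lf (nat_lit 0) (nat_lit 4547965696) (nat_lit 304) (nat_lit 838797315) (nat_lit 380) (nat_lit 6764640181) (nat_lit 51) (nat_lit 5) (nat_lit 55) (nat_lit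 5) (nat_lit 56) (nat_lit 5) (nat_lit 275) (nat_lit 238) (nat_lit 207)) (XT.nd (nat_lit 78) (nat_lit 76) (nat_lit 0) (XT.lf (nat_lit 0) (nat_lit 1283917199) (nat_lit 228) (nat_lit 8221283612) (nat_lit 304) (nat_lit 3047872557) (nat_lit 48) (nat_lit 5) (nat_lit 51) (nat_lit 5) (nat_lit 52) (nat_lit 5) (nat_lit 276) (nat_lit 238) (nat_lit 206)) (XT.lf (nat_lit 0) (nat_lit 829740248) (nat_lit 304) (nat_lit 2351229614) (nat_lit 76) (nat_lit 9794033963) (nat_lit 47) (nat_lit 5) (nat_lit 51) (nat_lit 5) (nat_lit 48) (nat_lit 5) (nat_lit 277) (nat_lit 238) (nat_lit 205)))) (XT.nd (nat_lit 78) (nat_lit 228) (nat_lit 0) (XT.lf (nat_lit 0) (nat_lit 4835602424) (nat_lit 304) (nat_lit 6450041829) (nat_lit 76) (nat_lit 2131724694) (nat_lit 44) (nat_lit 5) (nat_lit 48) (nat_lit 5) (nat_lit 45) (nat_lit 5) (nat_lit 278) (nat_lit 238) (nat_lit 204)) (XT.nd (nat_lit 78) (nat_lit 0) (nat_lit 0) (XT.lf (nat_lit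 0) (nat_lit 2814303005) (nat_lit 228) (nat_lit 6222571714) (nat_lit 304) (nat_lit 4845281767) (nat_lit 41) (nat_lit 5) (nat_lit 44) (nat_lit 5) (nat_lit 45) (nat_lit 5) (nat_lit 279) (nat_lit 238) (nat_lit 203)) (XT.lf (nat_lit 0) (nat_lit 12552236084) (nat_lit 228) (nat_lit 876904102) (nat_lit 304) (nat_lit 941765489) (nat_lit 41) (nat_lit 5) (nat_lit 44) (nat_lit 5) (nat_lit 45) (nat_lit 5) (nat_lit 280) (nat_lit 238) (nat_lit 202))))))) (XT.nd (nat_lit 858) (nat_lit 684) (nat_lit 0) (XT.nd (nat_lit 390) (nat_lit 684) (nat_lit 0) (XT.nd (nat_lit 156) (nat_lit 304) (nat_lit 0) (XT.nd (nat_lit 78) (nat_lit 152) (nat_lit 0) (XT.lf (nat_lit 0) (nat_lit 3135098114) (nat_lit 304) (nat_lit 7033280866) (nat_lit 76) (nat_lit 4713748567) (nat_lit 37) (nat_lit 5) (nat_lit 41) (nat_lit 5) (nat_lit 38) (nat_lit 5) (nat_lit 281) (nat_lit 238) (nat_lit 201)) (XT.lf (nat_lit 0) (nat_lit 2531265420) (nat_lit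 152) (nat_lit 4837428924) (nat_lit 228) (nat_lit 8050897673) (nat_lit 35) (nat_lit 5) (nat_lit 37) (nat_lit 5) (nat_lit 38) (nat_lit 5) (nat_lit 282) (nat_lit 238) (nat_lit 200))) (XT.nd (nat_lit 78) (nat_lit 304) (nat_lit 0) (XT.lf (nat_lit 0) (nat_lit 11816815877) (nat_lit 228) (nat_lit 3386411562) (nat_lit 76) (nat_lit 780742843) (nat_lit 35) (nat_lit 5) (nat_lit 38) (nat_lit 5) (nat_lit 36) (nat_lit 5) (nat_lit 283) (nat_lit 238) (nat_lit 199)) (XT.nd (nat_lit 78) (nat_lit 76) (nat_lit 0) (XT.lf (nat_lit 0) (nat_lit 6557695562) (nat_lit 228) (nat_lit 9967625068) (nat_lit 304) (nat_lit 50227456) (nat_lit 32) (nat_lit 5) (nat_lit 35) (nat_lit 5) (nat_lit 36) (nat_lit 5) (nat_lit 284) (nat_lit 238) (nat_lit 198)) (XT.lf (nat_lit 0) (nat_lit 4152146688) (nat_lit 304) (nat_lit 277679722) (nat_lit 76) (nat_lit 12766867954) (nat_lit 31) (nat_lit 5) (nat_lit 35) (nat_lit 5) (nat_lit 32) (nat_lit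 5) (nat_lit 285) (nat_lit 238) (nat_lit 197))))) (XT.nd (nat_lit 234) (nat_lit 380) (nat_lit 0) (XT.nd (nat_lit 78) (nat_lit 152) (nat_lit 0) (XT.lf (nat_lit 0) (nat_lit 8605250356) (nat_lit 228) (nat_lit 7822296419) (nat_lit 76) (nat_lit 1420192395) (nat_lit 29) (nat_lit 5) (nat_lit 32) (nat_lit 5) (nat_lit 30) (nat_lit 5) (nat_lit 286) (nat_lit 238) (nat_lit 196)) (XT.nd (nat_lit 78) (nat_lit 0) (nat_lit 0) (XT.lf (nat_lit 0) (nat_lit 2212851608) (nat_lit 152) (nat_lit 11070186850) (nat_lit 228) (nat_lit 5248337473) (nat_lit 27) (nat_lit 5) (nat_lit 29) (nat_lit 5) (nat_lit 30) (nat_lit 5) (nat_lit 287) (nat_lit 238) (nat_lit 195)) (XT.lf (nat_lit 0) (nat_lit 12812334178) (nat_lit 152) (nat_lit 5398278398) (nat_lit 228) (nat_lit 1038200856) (nat_lit 27) (nat_lit 5) (nat_lit 29) (nat_lit 5) (nat_lit 30) (nat_lit 5) (nat_lit 288) (nat_lit 238) (nat_lit 194)))) (XT.nd (nat_lit 78) (nat_lit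 152) (nat_lit 0) (XT.lf (nat_lit 0) (nat_lit 3297251114) (nat_lit 228) (nat_lit 16122126896) (nat_lit 76) (nat_lit 582433592) (nat_lit 24) (nat_lit 5) (nat_lit 27) (nat_lit 5) (nat_lit 25) (nat_lit 5) (nat_lit 289) (nat_lit 238) (nat_lit 193)) (XT.nd (nat_lit 78) (nat_lit 152) (nat_lit 0) (XT.lf (nat_lit 0) (nat_lit 7889079105) (nat_lit 228) (nat_lit 6106108825) (nat_lit 76) (nat_lit 6795215489) (nat_lit 24) (nat_lit 5) (nat_lit 27) (nat_lit 5) (nat_lit 25) (nat_lit 5) (nat_lit 290) (nat_lit 238) (nat_lit 192)) (XT.lf (nat_lit 0) (nat_lit 4405072535) (nat_lit 152) (nat_lit 8290127721) (nat_lit 228) (nat_lit 8923763862) (nat_lit 22) (nat_lit 5) (nat_lit 24) (nat_lit 5) (nat_lit 25) (nat_lit 5) (nat_lit 291) (nat_lit 238) (nat_lit 191)))))) (XT.nd (nat_lit 390) (nat_lit 304) (nat_lit 0) (XT.nd (nat_lit 156) (nat_lit 228) (nat_lit 0) (XT.nd (nat_lit 78) (nat_lit 152) (nat_lit 0) (XT.lf (nat_lit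 0) (nat_lit 15480441827) (nat_lit 152) (nat_lit 2268289789) (nat_lit 228) (nat_lit 4740084633) (nat_lit 22) (nat_lit 5) (nat_lit 24) (nat_lit 5) (nat_lit 25) (nat_lit 5) (nat_lit 292) (nat_lit 238) (nat_lit 190)) (XT.lf (nat_lit 0) (nat_lit 3653642792) (nat_lit 152) (nat_lit 19421991422) (nat_lit 228) (nat_lit 325978810) (nat_lit 20) (nat_lit 5) (nat_lit 22) (nat_lit 5) (nat_lit 23) (nat_lit 4) (nat_lit 293) (nat_lit 238) (nat_lit 189))) (XT.nd (nat_lit 78) (nat_lit 152) (nat_lit 0) (XT.lf (nat_lit 0) (nat_lit 4268262648) (nat_lit 228) (nat_lit 9512432889) (nat_lit 76) (nat_lit 10576873574) (nat_lit 19) (nat_lit 5) (nat_lit 22) (nat_lit 5) (nat_lit 20) (nat_lit 5) (nat_lit 294) (nat_lit 238) (nat_lit 188)) (XT.nd (nat_lit 78) (nat_lit 0) (nat_lit 0) (XT.lf (nat_lit 0) (nat_lit 1173796080) (nat_lit 152) (nat_lit 7873269459) (nat_lit 228) (nat_lit 16315377081) (nat_lit 17) (nat_lit 5) (nat_lit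 19) (nat_lit 5) (nat_lit 20) (nat_lit 5) (nat_lit 295) (nat_lit 238) (nat_lit 187)) (XT.lf (nat_lit 0) (nat_lit 12514731574) (nat_lit 152) (nat_lit 1599860065) (nat_lit 228) (nat_lit 12301535794) (nat_lit 17) (nat_lit 5) (nat_lit 19) (nat_lit 5) (nat_lit 20) (nat_lit 5) (nat_lit 296) (nat_lit 238) (nat_lit 186))))) (XT.nd (nat_lit 234) (nat_lit 152) (nat_lit 0) (XT.nd (nat_lit 78) (nat_lit 152) (nat_lit 0) (XT.lf (nat_lit 0) (nat_lit 19437310635) (nat_lit 228) (nat_lit 3223533638) (nat_lit 76) (nat_lit 4861655925) (nat_lit 17) (nat_lit 5) (nat_lit 20) (nat_lit 5) (nat_lit 18) (nat_lit 4) (nat_lit 297) (nat_lit 238) (nat_lit 185)) (XT.nd (nat_lit 78) (nat_lit 76) (nat_lit 0) (XT.lf (nat_lit 0) (nat_lit 8057096135) (nat_lit 76) (nat_lit 17018739701) (nat_lit 152) (nat_lit 3606921096) (nat_lit 16) (nat_lit 5) (nat_lit 17) (nat_lit 5) (nat_lit 18) (nat_lit 4) (nat_lit 298) (nat_lit 238) (nat_lit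 184)) (XT.lf (nat_lit 0) (nat_lit 1064418016) (nat_lit 152) (nat_lit 10012805915) (nat_lit 76) (nat_lit 18823822090) (nat_lit 15) (nat_lit 5) (nat_lit 17) (nat_lit 5) (nat_lit 16) (nat_lit 5) (nat_lit 299) (nat_lit 238) (nat_lit 183)))) (XT.nd (nat_lit 78) (nat_lit 0) (nat_lit 0) (XT.lf (nat_lit 0) (nat_lit 1047063087) (nat_lit 152) (nat_lit 4817487281) (nat_lit 228) (nat_lit 25315581965) (nat_lit 13) (nat_lit 5) (nat_lit 15) (nat_lit 5) (nat_lit 16) (nat_lit 5) (nat_lit 300) (nat_lit 238) (nat_lit 182)) (XT.nd (nat_lit 78) (nat_lit 0) (nat_lit 0) (XT.lf (nat_lit 0) (nat_lit 10985786506) (nat_lit 228) (nat_lit 19735509876) (nat_lit 76) (nat_lit 1799490157) (nat_lit 13) (nat_lit 5) (nat_lit 16) (nat_lit 5) (nat_lit 14) (nat_lit 4) (nat_lit 301) (nat_lit 238) (nat_lit 181)) (XT.lf (nat_lit 0) (nat_lit 16373738267) (nat_lit 228) (nat_lit 8930220328) (nat_lit 76) (nat_lit 8624239527) (nat_lit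 13) (nat_lit 5) (nat_lit 16) (nat_lit 5) (nat_lit 14) (nat_lit 4) (nat_lit 302) (nat_lit 238) (nat_lit 180))))))))
noncomputable def xc47 : XT := (XT.nd (nat_lit 1638) (nat_lit 76) (nat_lit 0) (XT.nd (nat_lit 780) (nat_lit 228) (nat_lit 0) (XT.nd (nat_lit 390) (nat_lit 76) (nat_lit 0) (XT.nd (nat_lit 156) (nat_lit 228) (nat_lit 0) (XT.nd (nat_lit 78) (nat_lit 0) (nat_lit 0) (XT.lf (nat_lit 0) (nat_lit 2401700744) (nat_lit 76) (nat_lit 19616311345) (nat_lit 152) (nat_lit 13388402632) (nat_lit 12) (nat_lit 5) (nat_lit 13) (nat_lit 5) (nat_lit 14) (nat_lit 4) (nat_lit 303) (nat_lit 238) (nat_lit 179)) (XT.lf (nat_lit 0) (nat_lit 14428068610) (nat_lit 76) (nat_lit 13573354713) (nat_lit 152) (nat_lit 8955451278) (nat_lit 12) (nat_lit 5) (nat_lit 13) (nat_lit 5) (nat_lit 14) (nat_lit 4) (nat_lit 304) (nat_lit 238) (nat_lit 178))) (XT.nd (nat_lit 78) (nat_lit 228) (nat_lit 0) (XT.lf (nat_lit 0)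 (nat_lit 26999788584) (nat_lit 76) (nat_lit 7250878423) (nat_lit 152) (nat_lit 4335228863) (nat_lit 12) (nat_lit 5) (nat_lit 13) (nat_lit 5) (nat_lit 14) (nat_lit 4) (nat_lit 305) (nat_lit 238) (nat_lit 177)) (XT.nd (nat_lit 78) (nat_lit 152) (nat_lit 0) (XT.lf (nat_lit 0) (nat_lit 473834899) (nat_lit 152) (nat_lit 155209256) (nat_lit 76) (nat_lit 39668173630) (nat_lit 11) (nat_lit 5) (nat_lit 13) (nat_lit 5) (nat_lit 12) (nat_lit 5) (nat_lit 306) (nat_lit 238) (nat_lit 176)) (XT.lf (nat_lit 0) (nat_lit 5581333204) (nat_lit 228) (nat_lit 30166488971) (nat_lit 76) (nat_lit 6340600399) (nat_lit 9) (nat_lit 5) (nat_lit 12) (nat_lit 5) (nat_lit 10) (nat_lit 4) (nat_lit 307) (nat_lit 238) (nat_lit 175))))) (XT.nd (nat_lit 156) (nat_lit 76) (nat_lit 0) (XT.nd (nat_lit 78) (nat_lit 0) (nat_lit 0) (XT.lf (nat_lit 0) (nat_lit 10922377381) (nat_lit 228) (nat_lit 19419983728) (nat_lit 76) (nat_lit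 13627513443) (nat_lit 9) (nat_lit 5) (nat_lit 12) (nat_lit 5) (nat_lit 10) (nat_lit 4) (nat_lit 308) (nat_lit 238) (nat_lit 174)) (XT.lf (nat_lit 0) (nat_lit 16502100721) (nat_lit 228) (nat_lit 8184397194) (nat_lit 76) (nat_lit 21259782959) (nat_lit 9) (nat_lit 5) (nat_lit 12) (nat_lit 5) (nat_lit 10) (nat_lit 4) (nat_lit 309) (nat_lit 238) (nat_lit 173))) (XT.nd (nat_lit 78) (nat_lit 0) (nat_lit 0) (XT.lf (nat_lit 0) (nat_lit 3638012760) (nat_lit 76) (nat_lit 18730746323) (nat_lit 152) (nat_lit 25652539061) (nat_lit 8) (nat_lit 5) (nat_lit 9) (nat_lit 5) (nat_lit 10) (nat_lit 4) (nat_lit 310) (nat_lit 238) (nat_lit 172)) (XT.nd (nat_lit 78) (nat_lit 0) (nat_lit 0) (XT.lf (nat_lit 0) (nat_lit 16177943455) (nat_lit 76) (nat_lit 12408893859) (nat_lit 152) (nat_lit 21611514067) (nat_lit 8) (nat_lit 5) (nat_lit 9) (nat_lit 5) (nat_lit 10) (nat_lit 4) (nat_lit 311) (nat_lit 238) (nat_lit 171))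 (XT.lf (nat_lit 0) (nat_lit 29302366316) (nat_lit 76) (nat_lit 5788534858) (nat_lit 152) (nat_lit 17394130046) (nat_lit 8) (nat_lit 5) (nat_lit 9) (nat_lit 5) (nat_lit 10) (nat_lit 4) (nat_lit 312) (nat_lit 238) (nat_lit 170)))))) (XT.nd (nat_lit 390) (nat_lit 76) (nat_lit 0) (XT.nd (nat_lit 156) (nat_lit 152) (nat_lit 0) (XT.nd (nat_lit 78) (nat_lit 0) (nat_lit 0) (XT.lf (nat_lit 0) (nat_lit 41907453481) (nat_lit 152) (nat_lit 11855269122) (nat_lit 0) (nat_lit 1123729027) (nat_lit 8) (nat_lit 5) (nat_lit 10) (nat_lit 4) (nat_lit 8) (nat_lit 4) (nat_lit 313) (nat_lit 238) (nat_lit 169)) (XT.lf (nat_lit 0) (nat_lit 49100503540) (nat_lit 152) (nat_lit 59030005) (nat_lit 0) (nat_lit 8247363349) (nat_lit 8) (nat_lit 5) (nat_lit 10) (nat_lit 4) (nat_lit 8) (nat_lit 4) (nat_lit 314) (nat_lit 238) (nat_lit 168))) (XT.nd (nat_lit 78) (nat_lit 76) (nat_lit 0) (XT.lf (nat_lit 0) (nat_lit 12534372418)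 (nat_lit 76) (nat_lit 44217650359) (nat_lit 76) (nat_lit 3298399943) (nat_lit 7) (nat_lit 4) (nat_lit 8) (nat_lit 5) (nat_lit 8) (nat_lit 4) (nat_lit 315) (nat_lit 238) (nat_lit 167)) (XT.nd (nat_lit 78) (nat_lit 0) (nat_lit 0) (XT.lf (nat_lit 0) (nat_lit 1901144092) (nat_lit 152) (nat_lit 37122890027) (nat_lit 76) (nat_lit 23802164655) (nat_lit 6) (nat_lit 5) (nat_lit 8) (nat_lit 5) (nat_lit 7) (nat_lit 4) (nat_lit 316) (nat_lit 238) (nat_lit 166)) (XT.lf (nat_lit 0) (nat_lit 7272877581) (nat_lit 152) (nat_lit 26278234969) (nat_lit 76) (nat_lit 32189278589) (nat_lit 6) (nat_lit 5) (nat_lit 8) (nat_lit 5) (nat_lit 7) (nat_lit 4) (nat_lit 317) (nat_lit 238) (nat_lit 165))))) (XT.nd (nat_lit 234) (nat_lit 0) (nat_lit 0) (XT.nd (nat_lit 78) (nat_lit 76) (nat_lit 0) (XT.lf (nat_lit 0) (nat_lit 12893954026) (nat_lit 152) (nat_lit 14924558283) (nat_lit 76) (nat_lit 40982377244) (nat_lit 6) (nat_lit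 5) (nat_lit 8) (nat_lit 5) (nat_lit 7) (nat_lit 4) (nat_lit 318) (nat_lit 238) (nat_lit 164)) (XT.nd (nat_lit 78) (nat_lit 76) (nat_lit 0) (XT.lf (nat_lit 0) (nat_lit 18777756944) (nat_lit 152) (nat_lit 3034827406) (nat_lit 76) (nat_lit 50202396570) (nat_lit 6) (nat_lit 5) (nat_lit 8) (nat_lit 5) (nat_lit 7) (nat_lit 4) (nat_lit 319) (nat_lit 238) (nat_lit 163)) (XT.lf (nat_lit 0) (nat_lit 9606728418) (nat_lit 76) (nat_lit 15423912721) (nat_lit 152) (nat_lit 50356906325) (nat_lit 5) (nat_lit 5) (nat_lit 6) (nat_lit 5) (nat_lit 7) (nat_lit 4) (nat_lit 320) (nat_lit 238) (nat_lit 162)))) (XT.nd (nat_lit 78) (nat_lit 0) (nat_lit 0) (XT.lf (nat_lit 0) (nat_lit 22914521014) (nat_lit 76) (nat_lit 8695984689) (nat_lit 152) (nat_lit 47317823065) (nat_lit 5) (nat_lit 5) (nat_lit 6) (nat_lit 5) (nat_lit 7) (nat_lit 4) (nat_lit 321) (nat_lit 238) (nat_lit 161)) (XT.nd (nat_lit 78) (nat_lit 0) (nat_lit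 0) (XT.lf (nat_lit 0) (nat_lit 36859836586) (nat_lit 76) (nat_lit 1643427183) (nat_lit 152) (nat_lit 44143384090) (nat_lit 5) (nat_lit 5) (nat_lit 6) (nat_lit 5) (nat_lit 7) (nat_lit 4) (nat_lit 322) (nat_lit 238) (nat_lit 160)) (XT.lf (nat_lit 0) (nat_lit 45780604488) (nat_lit 152) (nat_lit 35130757432) (nat_lit 0) (nat_lit 5638337624) (nat_lit 5) (nat_lit 5) (nat_lit 7) (nat_lit 4) (nat_lit 5) (nat_lit 4) (nat_lit 323) (nat_lit 238) (nat_lit 159))))))) (XT.nd (nat_lit 31434) (nat_lit 0) (nat_lit 11172) (XT.nd (nat_lit 390) (nat_lit 0) (nat_lit 0) (XT.nd (nat_lit 156) (nat_lit 76) (nat_lit 0) (XT.nd (nat_lit 78) (nat_lit 0) (nat_lit 0) (XT.lf (nat_lit 0) (nat_lit 53423694230) (nat_lit 152) (nat_lit 23984114046) (nat_lit 0) (nat_lit 13240053346) (nat_lit 5) (nat_lit 5) (nat_lit 7) (nat_lit 4) (nat_lit 5) (nat_lit 4) (nat_lit 324) (nat_lit 238) (nat_lit 158)) (XT.lf (nat_lit 0) (nat_lit 61434933202)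 (nat_lit 152) (nat_lit 12304543859) (nat_lit 0) (nat_lit 21211888490) (nat_lit 5) (nat_lit 5) (nat_lit 7) (nat_lit 4) (nat_lit 5) (nat_lit 4) (nat_lit 325) (nat_lit 238) (nat_lit 157))) (XT.nd (nat_lit 78) (nat_lit 76) (nat_lit 0) (XT.lf (nat_lit 0) (nat_lit 69833395783) (nat_lit 152) (nat_lit 64238371) (nat_lit 0) (nat_lit 29572823614) (nat_lit 5) (nat_lit 5) (nat_lit 7) (nat_lit 4) (nat_lit 5) (nat_lit 4) (nat_lit 326) (nat_lit 238) (nat_lit 156)) (XT.nd (nat_lit 78) (nat_lit 0) (nat_lit 0) (XT.lf (nat_lit 0) (nat_lit 13020013358) (nat_lit 76) (nat_lit 65744221285) (nat_lit 76) (nat_lit 25447908682) (nat_lit 4) (nat_lit 4) (nat_lit 5) (nat_lit 5) (nat_lit 5) (nat_lit 4) (nat_lit 327) (nat_lit 238) (nat_lit 155)) (XT.lf (nat_lit 0) (nat_lit 26738318213) (nat_lit 76) (nat_lit 61391653555) (nat_lit 76) (nat_lit 21061302443) (nat_lit 4) (nat_lit 4) (nat_lit 5) (nat_lit 5) (nat_lit 5) (nat_lit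 4) (nat_lit 328) (nat_lit 238) (nat_lit 154))))) (XT.nd (nat_lit 30810) (nat_lit 0) (nat_lit 18164) (XT.nd (nat_lit 78) (nat_lit 0) (nat_lit 0) (XT.lf (nat_lit 0) (nat_lit 41122060355) (nat_lit 76) (nat_lit 56830216387) (nat_lit 76) (nat_lit 16467447648) (nat_lit 4) (nat_lit 4) (nat_lit 5) (nat_lit 5) (nat_lit 5) (nat_lit 4) (nat_lit 329) (nat_lit 238) (nat_lit 153)) (XT.nd (nat_lit 30654) (nat_lit 0) (nat_lit 18696) (XT.lf (nat_lit 0) (nat_lit 56205486789) (nat_lit 76) (nat_lit 52049049218) (nat_lit 76) (nat_lit 11655406548) (nat_lit 4) (nat_lit 4) (nat_lit 5) (nat_lit 5) (nat_lit 5) (nat_lit 4) (nat_lit 330) (nat_lit 238) (nat_lit 152)) (XT.lf (nat_lit 0) (nat_lit 1491790257) (nat_lit 76) (nat_lit 867718153) (nat_lit 76) (nat_lit 867718153) (nat_lit 250) (nat_lit 4) (nat_lit 251) (nat_lit 5) (nat_lit 251) (nat_lit 4) (nat_lit 242) (nat_lit 239) (nat_lit 239)))) (XT.nd (nat_lit 78) (nat_lit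 304) (nat_lit 0) (XT.lf (nat_lit 0) (nat_lit 1450711310) (nat_lit 152) (nat_lit 1317303267) (nat_lit 228) (nat_lit 3703358522) (nat_lit 247) (nat_lit 5) (nat_lit 249) (nat_lit 5) (nat_lit 250) (nat_lit 4) (nat_lit 243) (nat_lit 239) (nat_lit 238)) (XT.nd (nat_lit 78) (nat_lit 0) (nat_lit 0) (XT.lf (nat_lit 0) (nat_lit 8200532) (nat_lit 228) (nat_lit 697537736) (nat_lit 304) (nat_lit 5791317893) (nat_lit 243) (nat_lit 5) (nat_lit 246) (nat_lit 5) (nat_lit 247) (nat_lit 5) (nat_lit 244) (nat_lit 239) (nat_lit 237)) (XT.lf (nat_lit 0) (nat_lit 5040406789) (nat_lit 304) (nat_lit 1339864657) (nat_lit 76) (nat_lit 150429690) (nat_lit 243) (nat_lit 5) (nat_lit 247) (nat_lit 5) (nat_lit 244) (nat_lit 4) (nat_lit 245) (nat_lit 239) (nat_lit 236)))))) (XT.nd (nat_lit 390) (nat_lit 5092) (nat_lit 0) (XT.nd (nat_lit 156) (nat_lit 1064) (nat_lit 0) (XT.nd (nat_lit 78) (nat_lit 456) (nat_lit 0) (XT.lf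 (nat_lit 0) (nat_lit 2750848121) (nat_lit 380) (nat_lit 2628623034) (nat_lit 76) (nat_lit 1193297678) (nat_lit 238) (nat_lit 5) (nat_lit 243) (nat_lit 5) (nat_lit 239) (nat_lit 5) (nat_lit 246) (nat_lit 239) (nat_lit 235)) (XT.lf (nat_lit 0) (nat_lit 332972174) (nat_lit 456) (nat_lit 3850763998) (nat_lit 76) (nat_lit 2440038076) (nat_lit 232) (nat_lit 5) (nat_lit 238) (nat_lit 5) (nat_lit 233) (nat_lit 5) (nat_lit 247) (nat_lit 239) (nat_lit 234))) (XT.nd (nat_lit 78) (nat_lit 608) (nat_lit 0) (XT.lf (nat_lit 0) (nat_lit 1648936167) (nat_lit 456) (nat_lit 2767876327) (nat_lit 532) (nat_lit 2266375555) (nat_lit 226) (nat_lit 5) (nat_lit 232) (nat_lit 5) (nat_lit 233) (nat_lit 5) (nat_lit 248) (nat_lit 239) (nat_lit 233)) (XT.nd (nat_lit 78) (nat_lit 0) (nat_lit 0) (XT.lf (nat_lit 0) (nat_lit 583495738) (nat_lit 532) (nat_lit 1146310331) (nat_lit 608) (nat_lit 5021863779) (nat_lit 218) (nat_lit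 5) (nat_lit 225) (nat_lit 5) (nat_lit 226) (nat_lit 5) (nat_lit 249) (nat_lit 239) (nat_lit 232)) (XT.lf (nat_lit 0) (nat_lit 5710488355) (nat_lit 608) (nat_lit 435278565) (nat_lit 76) (nat_lit 683069969) (nat_lit 218) (nat_lit 5) (nat_lit 226) (nat_lit 5) (nat_lit 219) (nat_lit 5) (nat_lit 250) (nat_lit 239) (nat_lit 231))))) (XT.nd (nat_lit 234) (nat_lit 2888) (nat_lit 0) (XT.nd (nat_lit 78) (nat_lit 1520) (nat_lit 0) (XT.lf (nat_lit 0) (nat_lit 2768697521) (nat_lit 684) (nat_lit 1425708618) (nat_lit 76) (nat_lit 2720016145) (nat_lit 209) (nat_lit 5) (nat_lit 218) (nat_lit 5) (nat_lit 210) (nat_lit 5) (nat_lit 251) (nat_lit 239) (nat_lit 230)) (XT.nd (nat_lit 78) (nat_lit 836) (nat_lit 0) (XT.lf (nat_lit 0) (nat_lit 4628912843) (nat_lit 684) (nat_lit 2037435287) (nat_lit 760) (nat_lit 343201227) (nat_lit 200) (nat_lit 5) (nat_lit 209) (nat_lit 5) (nat_lit 210) (nat_lit 5) (nat_lit 252)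 (nat_lit 239) (nat_lit 229)) (XT.lf (nat_lit 0) (nat_lit 3428721896) (nat_lit 836) (nat_lit 3335489786) (nat_lit 76) (nat_lit 349371614) (nat_lit 189) (nat_lit 5) (nat_lit 200) (nat_lit 5) (nat_lit 190) (nat_lit 5) (nat_lit 253) (nat_lit 239) (nat_lit 228)))) (XT.nd (nat_lit 78) (nat_lit 1976) (nat_lit 0) (XT.lf (nat_lit 0) (nat_lit 32500873) (nat_lit 912) (nat_lit 4288090620) (nat_lit 76) (nat_lit 2906457435) (nat_lit 177) (nat_lit 5) (nat_lit 189) (nat_lit 5) (nat_lit 178) (nat_lit 5) (nat_lit 254) (nat_lit 239) (nat_lit 227)) (XT.nd (nat_lit 78) (nat_lit 1064) (nat_lit 0) (XT.lf (nat_lit 0) (nat_lit 2089027452) (nat_lit 912) (nat_lit 1635652974) (nat_lit 988) (nat_lit 3625090056) (nat_lit 165) (nat_lit 5) (nat_lit 177) (nat_lit 5) (nat_lit 178) (nat_lit 5) (nat_lit 255) (nat_lit 239) (nat_lit 226)) (XT.lf (nat_lit 0) (nat_lit 4030316) (nat_lit 1064) (nat_lit 6240392690) (nat_lit 76) (nat_lit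 1238246352) (nat_lit 151) (nat_lit 5) (nat_lit 165) (nat_lit 5) (nat_lit 152) (nat_lit 5) (nat_lit 256) (nat_lit 239) (nat_lit 225))))))))
noncomputable def xc48 : XT := (XT.nd (nat_lit 1638) (nat_lit 2356) (nat_lit 0) (XT.nd (nat_lit 780) (nat_lit 3040) (nat_lit 0) (XT.nd (nat_lit 390) (nat_lit 1900) (nat_lit 0) (XT.nd (nat_lit 156) (nat_lit 1824) (nat_lit 0) (XT.nd (nat_lit 78) (nat_lit 0) (nat_lit 0) (XT.lf (nat_lit 0) (nat_lit 346202376) (nat_lit 1064) (nat_lit 3290903137) (nat_lit 1140) (nat_lit 3987663214) (nat_lit 137) (nat_lit 5) (nat_lit 151) (nat_lit 5) (nat_lit 152) (nat_lit 5) (nat_lit 257) (nat_lit 239) (nat_lit 224)) (XT.lf (nat_lit 0) (nat_lit 7230599808) (nat_lit 1064) (nat_lit 114628308) (nat_lit 1140) (nat_lit 432473088) (nat_lit 137) (nat_lit 5) (nat_lit 151) (nat_lit 5) (nat_lit 152) (nat_lit 5) (nat_lit 258) (nat_lit 239) (nat_lit 223))) (XT.nd (nat_lit 78) (nat_lit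 1140) (nat_lit 0) (XT.lf (nat_lit 0) (nat_lit 3165278399) (nat_lit 684) (nat_lit 1515630247) (nat_lit 76) (nat_lit 3259033704) (nat_lit 128) (nat_lit 5) (nat_lit 137) (nat_lit 5) (nat_lit 129) (nat_lit 5) (nat_lit 259) (nat_lit 239) (nat_lit 222)) (XT.nd (nat_lit 78) (nat_lit 608) (nat_lit 0) (XT.lf (nat_lit 0) (nat_lit 5590381871) (nat_lit 532) (nat_lit 1245862381) (nat_lit 608) (nat_lit 1277321392) (nat_lit 121) (nat_lit 5) (nat_lit 128) (nat_lit 5) (nat_lit 129) (nat_lit 5) (nat_lit 260) (nat_lit 239) (nat_lit 221)) (XT.lf (nat_lit 0) (nat_lit 2278294345) (nat_lit 608) (nat_lit 3623108451) (nat_lit 76) (nat_lit 2396304013) (nat_lit 113) (nat_lit 5) (nat_lit 121) (nat_lit 5) (nat_lit 114) (nat_lit 5) (nat_lit 261) (nat_lit 239) (nat_lit 220))))) (XT.nd (nat_lit 156) (nat_lit 912) (nat_lit 0) (XT.nd (nat_lit 78) (nat_lit 532) (nat_lit 0) (XT.lf (nat_lit 0) (nat_lit 3682882274) (nat_lit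 456) (nat_lit 2228395285) (nat_lit 532) (nat_lit 2582028923) (nat_lit 107) (nat_lit 5) (nat_lit 113) (nat_lit 5) (nat_lit 114) (nat_lit 5) (nat_lit 262) (nat_lit 239) (nat_lit 219)) (XT.lf (nat_lit 0) (nat_lit 941597082) (nat_lit 532) (nat_lit 6101061981) (nat_lit 76) (nat_lit 1658078296) (nat_lit 100) (nat_lit 5) (nat_lit 107) (nat_lit 5) (nat_lit 101) (nat_lit 5) (nat_lit 263) (nat_lit 239) (nat_lit 218))) (XT.nd (nat_lit 78) (nat_lit 532) (nat_lit 0) (XT.lf (nat_lit 0) (nat_lit 1385101841) (nat_lit 380) (nat_lit 3149860232) (nat_lit 456) (nat_lit 4384763925) (nat_lit 95) (nat_lit 5) (nat_lit 100) (nat_lit 5) (nat_lit 101) (nat_lit 5) (nat_lit 264) (nat_lit 239) (nat_lit 217)) (XT.nd (nat_lit 78) (nat_lit 76) (nat_lit 0) (XT.lf (nat_lit 0) (nat_lit 60493791) (nat_lit 456) (nat_lit 8186169293) (nat_lit 532) (nat_lit 905185616) (nat_lit 89) (nat_lit 5) (nat_lit 95) (nat_lit 5) (nat_lit 96)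 (nat_lit 5) (nat_lit 265) (nat_lit 239) (nat_lit 216)) (XT.lf (nat_lit 0) (nat_lit 2673845163) (nat_lit 532) (nat_lit 1414196007) (nat_lit 76) (nat_lit 5307689361) (nat_lit 88) (nat_lit 5) (nat_lit 95) (nat_lit 5) (nat_lit 89) (nat_lit 5) (nat_lit 266) (nat_lit 239) (nat_lit 215)))))) (XT.nd (nat_lit 390) (nat_lit 1444) (nat_lit 0) (XT.nd (nat_lit 156) (nat_lit 760) (nat_lit 0) (XT.nd (nat_lit 78) (nat_lit 456) (nat_lit 0) (XT.lf (nat_lit 0) (nat_lit 6354701103) (nat_lit 456) (nat_lit 3036800664) (nat_lit 76) (nat_lit 262091508) (nat_lit 83) (nat_lit 5) (nat_lit 89) (nat_lit 5) (nat_lit 84) (nat_lit 5) (nat_lit 267) (nat_lit 239) (nat_lit 214)) (XT.lf (nat_lit 0) (nat_lit 273271629) (nat_lit 456) (nat_lit 4862242030) (nat_lit 76) (nat_lit 4789517526) (nat_lit 77) (nat_lit 5) (nat_lit 83) (nat_lit 5) (nat_lit 78) (nat_lit 5) (nat_lit 268) (nat_lit 239) (nat_lit 213))) (XT.nd (nat_lit 78)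 (nat_lit 456) (nat_lit 0) (XT.lf (nat_lit 0) (nat_lit 3307389317) (nat_lit 304) (nat_lit 594935503) (nat_lit 380) (nat_lit 6308608360) (nat_lit 73) (nat_lit 5) (nat_lit 77) (nat_lit 5) (nat_lit 78) (nat_lit 5) (nat_lit 269) (nat_lit 239) (nat_lit 212)) (XT.nd (nat_lit 78) (nat_lit 76) (nat_lit 0) (XT.lf (nat_lit 0) (nat_lit 1318115565) (nat_lit 380) (nat_lit 6384524579) (nat_lit 456) (nat_lit 2809050397) (nat_lit 68) (nat_lit 5) (nat_lit 73) (nat_lit 5) (nat_lit 74) (nat_lit 5) (nat_lit 270) (nat_lit 239) (nat_lit 211)) (XT.lf (nat_lit 0) (nat_lit 815586853) (nat_lit 456) (nat_lit 888038664) (nat_lit 76) (nat_lit 9124836330) (nat_lit 67) (nat_lit 5) (nat_lit 73) (nat_lit 5) (nat_lit 68) (nat_lit 5) (nat_lit 271) (nat_lit 239) (nat_lit 210))))) (XT.nd (nat_lit 234) (nat_lit 532) (nat_lit 0) (XT.nd (nat_lit 78) (nat_lit 608) (nat_lit 0) (XT.lf (nat_lit 0) (nat_lit 4565173910) (nat_lit 380)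 (nat_lit 3371896998) (nat_lit 76) (nat_lit 3223336199) (nat_lit 63) (nat_lit 5) (nat_lit 68) (nat_lit 5) (nat_lit 64) (nat_lit 5) (nat_lit 272) (nat_lit 239) (nat_lit 209)) (XT.nd (nat_lit 78) (nat_lit 304) (nat_lit 0) (XT.lf (nat_lit 0) (nat_lit 5361039562) (nat_lit 304) (nat_lit 3117115814) (nat_lit 380) (nat_lit 3031730288) (nat_lit 59) (nat_lit 5) (nat_lit 63) (nat_lit 5) (nat_lit 64) (nat_lit 5) (nat_lit 273) (nat_lit 239) (nat_lit 208)) (XT.lf (nat_lit 0) (nat_lit 675894257) (nat_lit 304) (nat_lit 9260836747) (nat_lit 76) (nat_lit 1940705807) (nat_lit 55) (nat_lit 5) (nat_lit 59) (nat_lit 5) (nat_lit 56) (nat_lit 5) (nat_lit 274) (nat_lit 239) (nat_lit 207)))) (XT.nd (nat_lit 78) (nat_lit 532) (nat_lit 0) (XT.lf (nat_lit 0) (nat_lit 4505723386) (nat_lit 304) (nat_lit 507636367) (nat_lit 76) (nat_lit 7249307519) (nat_lit 55) (nat_lit 5) (nat_lit 59) (nat_lit 5) (nat_lit 56) (nat_lit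 5) (nat_lit 275) (nat_lit 239) (nat_lit 206)) (XT.nd (nat_lit 78) (nat_lit 228) (nat_lit 0) (XT.lf (nat_lit 0) (nat_lit 8521090601) (nat_lit 380) (nat_lit 3942044014) (nat_lit 76) (nat_lit 204382290) (nat_lit 51) (nat_lit 5) (nat_lit 56) (nat_lit 5) (nat_lit 52) (nat_lit 5) (nat_lit 276) (nat_lit 239) (nat_lit 205)) (XT.lf (nat_lit 0) (nat_lit 5265604253) (nat_lit 228) (nat_lit 7489138323) (nat_lit 304) (nat_lit 337511472) (nat_lit 48) (nat_lit 5) (nat_lit 51) (nat_lit 5) (nat_lit 52) (nat_lit 5) (nat_lit 277) (nat_lit 239) (nat_lit 204))))))) (XT.nd (nat_lit 780) (nat_lit 912) (nat_lit 0) (XT.nd (nat_lit 390) (nat_lit 608) (nat_lit 0) (XT.nd (nat_lit 156) (nat_lit 532) (nat_lit 0) (XT.nd (nat_lit 78) (nat_lit 0) (nat_lit 0) (XT.lf (nat_lit 0) (nat_lit 1346479409) (nat_lit 228) (nat_lit 2210921566) (nat_lit 304) (nat_lit 9980918513) (nat_lit 44) (nat_lit 5) (nat_lit 47) (nat_lit 5) (nat_lit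 48) (nat_lit 5) (nat_lit 278) (nat_lit 239) (nat_lit 203)) (XT.lf (nat_lit 0) (nat_lit 7669259460) (nat_lit 304) (nat_lit 3020666092) (nat_lit 76) (nat_lit 3315937139) (nat_lit 44) (nat_lit 5) (nat_lit 48) (nat_lit 5) (nat_lit 45) (nat_lit 5) (nat_lit 279) (nat_lit 239) (nat_lit 202))) (XT.nd (nat_lit 78) (nat_lit 304) (nat_lit 0) (XT.lf (nat_lit 0) (nat_lit 6599349159) (nat_lit 228) (nat_lit 5392855039) (nat_lit 304) (nat_lit 2504557066) (nat_lit 41) (nat_lit 5) (nat_lit 44) (nat_lit 5) (nat_lit 45) (nat_lit 5) (nat_lit 280) (nat_lit 239) (nat_lit 201)) (XT.nd (nat_lit 78) (nat_lit 0) (nat_lit 0) (XT.lf (nat_lit 0) (nat_lit 1460228873) (nat_lit 304) (nat_lit 13359662985) (nat_lit 76) (nat_lit 192883659) (nat_lit 37) (nat_lit 5) (nat_lit 41) (nat_lit 5) (nat_lit 38) (nat_lit 5) (nat_lit 281) (nat_lit 239) (nat_lit 200)) (XT.lf (nat_lit 0) (nat_lit 5632371406) (nat_lit 304) (nat_lit 3899786903)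 (nat_lit 76) (nat_lit 6019986720) (nat_lit 37) (nat_lit 5) (nat_lit 41) (nat_lit 5) (nat_lit 38) (nat_lit 5) (nat_lit 282) (nat_lit 239) (nat_lit 199))))) (XT.nd (nat_lit 156) (nat_lit 456) (nat_lit 0) (XT.nd (nat_lit 78) (nat_lit 0) (nat_lit 0) (XT.lf (nat_lit 0) (nat_lit 6043085342) (nat_lit 152) (nat_lit 3955650006) (nat_lit 228) (nat_lit 6120299181) (nat_lit 35) (nat_lit 5) (nat_lit 37) (nat_lit 5) (nat_lit 38) (nat_lit 5) (nat_lit 283) (nat_lit 239) (nat_lit 198)) (XT.lf (nat_lit 0) (nat_lit 14571854291) (nat_lit 228) (nat_lit 273834497) (nat_lit 76) (nat_lit 1869040840) (nat_lit 35) (nat_lit 5) (nat_lit 38) (nat_lit 5) (nat_lit 36) (nat_lit 5) (nat_lit 284) (nat_lit 239) (nat_lit 197))) (XT.nd (nat_lit 78) (nat_lit 152) (nat_lit 0) (XT.lf (nat_lit 0) (nat_lit 2064065569) (nat_lit 304) (nat_lit 7285058924) (nat_lit 76) (nat_lit 7988494461) (nat_lit 31) (nat_lit 5) (nat_lit 35) (nat_lit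 5) (nat_lit 32) (nat_lit 5) (nat_lit 285) (nat_lit 239) (nat_lit 196)) (XT.nd (nat_lit 78) (nat_lit 0) (nat_lit 0) (XT.lf (nat_lit 0) (nat_lit 2843134435) (nat_lit 152) (nat_lit 3558973605) (nat_lit 228) (nat_lit 11590056625) (nat_lit 29) (nat_lit 5) (nat_lit 31) (nat_lit 5) (nat_lit 32) (nat_lit 5) (nat_lit 286) (nat_lit 239) (nat_lit 195)) (XT.lf (nat_lit 0) (nat_lit 10993361510) (nat_lit 228) (nat_lit 5171104170) (nat_lit 76) (nat_lit 2513978517) (nat_lit 29) (nat_lit 5) (nat_lit 32) (nat_lit 5) (nat_lit 30) (nat_lit 5) (nat_lit 287) (nat_lit 239) (nat_lit 194)))))) (XT.nd (nat_lit 390) (nat_lit 380) (nat_lit 0) (XT.nd (nat_lit 156) (nat_lit 304) (nat_lit 0) (XT.nd (nat_lit 78) (nat_lit 76) (nat_lit 0) (XT.lf (nat_lit 0) (nat_lit 5278594137) (nat_lit 152) (nat_lit 10561620221) (nat_lit 228) (nat_lit 3558133486) (nat_lit 27) (nat_lit 5) (nat_lit 29) (nat_lit 5) (nat_lit 30) (nat_lit 5)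 (nat_lit 288) (nat_lit 239) (nat_lit 193)) (XT.lf (nat_lit 0) (nat_lit 754511752) (nat_lit 228) (nat_lit 3894560551) (nat_lit 76) (nat_lit 15505200949) (nat_lit 26) (nat_lit 5) (nat_lit 29) (nat_lit 5) (nat_lit 27) (nat_lit 5) (nat_lit 289) (nat_lit 239) (nat_lit 192))) (XT.nd (nat_lit 78) (nat_lit 152) (nat_lit 0) (XT.lf (nat_lit 0) (nat_lit 5234971722) (nat_lit 228) (nat_lit 14111084010) (nat_lit 76) (nat_lit 1600189570) (nat_lit 24) (nat_lit 5) (nat_lit 27) (nat_lit 5) (nat_lit 25) (nat_lit 5) (nat_lit 290) (nat_lit 239) (nat_lit 191)) (XT.nd (nat_lit 78) (nat_lit 152) (nat_lit 0) (XT.lf (nat_lit 0) (nat_lit 9971969300) (nat_lit 228) (nat_lit 3728414998) (nat_lit 76) (nat_lit 8076532738) (nat_lit 24) (nat_lit 5) (nat_lit 27) (nat_lit 5) (nat_lit 25) (nat_lit 5) (nat_lit 291) (nat_lit 239) (nat_lit 190)) (XT.lf (nat_lit 0) (nat_lit 7231417795) (nat_lit 152) (nat_lit 7731628336) (nat_lit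 228) (nat_lit 7685632222) (nat_lit 22) (nat_lit 5) (nat_lit 24) (nat_lit 5) (nat_lit 25) (nat_lit 5) (nat_lit 292) (nat_lit 239) (nat_lit 189))))) (XT.nd (nat_lit 234) (nat_lit 152) (nat_lit 0) (XT.nd (nat_lit 78) (nat_lit 228) (nat_lit 0) (XT.lf (nat_lit 0) (nat_lit 18736455950) (nat_lit 152) (nat_lit 1455032115) (nat_lit 228) (nat_lit 3372974738) (nat_lit 22) (nat_lit 5) (nat_lit 24) (nat_lit 5) (nat_lit 25) (nat_lit 5) (nat_lit 293) (nat_lit 239) (nat_lit 188)) (XT.nd (nat_lit 78) (nat_lit 0) (nat_lit 0) (XT.lf (nat_lit 0) (nat_lit 1194665238) (nat_lit 228) (nat_lit 18250060101) (nat_lit 76) (nat_lit 5079185326) (nat_lit 19) (nat_lit 5) (nat_lit 22) (nat_lit 5) (nat_lit 20) (nat_lit 5) (nat_lit 294) (nat_lit 239) (nat_lit 187)) (XT.lf (nat_lit 0) (nat_lit 5939069987) (nat_lit 228) (nat_lit 7624227430) (nat_lit 76) (nat_lit 11966548515) (nat_lit 19) (nat_lit 5) (nat_lit 22) (nat_lit 5)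 (nat_lit 20) (nat_lit 5) (nat_lit 295) (nat_lit 239) (nat_lit 186)))) (XT.nd (nat_lit 78) (nat_lit 0) (nat_lit 0) (XT.lf (nat_lit 0) (nat_lit 3528554359) (nat_lit 152) (nat_lit 7380930154) (nat_lit 228) (nat_lit 15676987974) (nat_lit 17) (nat_lit 5) (nat_lit 19) (nat_lit 5) (nat_lit 20) (nat_lit 5) (nat_lit 296) (nat_lit 239) (nat_lit 185)) (XT.nd (nat_lit 78) (nat_lit 0) (nat_lit 0) (XT.lf (nat_lit 0) (nat_lit 15327200034) (nat_lit 152) (nat_lit 836040899) (nat_lit 228) (nat_lit 11531700239) (nat_lit 17) (nat_lit 5) (nat_lit 19) (nat_lit 5) (nat_lit 20) (nat_lit 5) (nat_lit 297) (nat_lit 239) (nat_lit 184)) (XT.lf (nat_lit 0) (nat_lit 21695872310) (nat_lit 228) (nat_lit 1269840534) (nat_lit 76) (nat_lit 5892687631) (nat_lit 17) (nat_lit 5) (nat_lit 20) (nat_lit 5) (nat_lit 18) (nat_lit 4) (nat_lit 298) (nat_lit 239) (nat_lit 183))))))))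
noncomputable def xc49 : XT := (XT.nd (nat_lit 1638) (nat_lit 152) (nat_lit 0) (XT.nd (nat_lit 780) (nat_lit 228) (nat_lit 0) (XT.nd (nat_lit 390) (nat_lit 304) (nat_lit 0) (XT.nd (nat_lit 156) (nat_lit 152) (nat_lit 0) (XT.nd (nat_lit 78) (nat_lit 76) (nat_lit 0) (XT.lf (nat_lit 0) (nat_lit 10514198410) (nat_lit 76) (nat_lit 17060600800) (nat_lit 152) (nat_lit 2503193898) (nat_lit 16) (nat_lit 5) (nat_lit 17) (nat_lit 5) (nat_lit 18) (nat_lit 4) (nat_lit 299) (nat_lit 239) (nat_lit 182)) (XT.lf (nat_lit 0) (nat_lit 2316702115) (nat_lit 152) (nat_lit 8531726363) (nat_lit 76) (nat_lit 20510267969) (nat_lit 15) (nat_lit 5) (nat_lit 17) (nat_lit 5) (nat_lit 16) (nat_lit 5) (nat_lit 300) (nat_lit 239) (nat_lit 181))) (XT.nd (nat_lit 78) (nat_lit 0) (nat_lit 0) (XT.lf (nat_lit 0) (nat_lit 3024330488) (nat_lit 152) (nat_lit 4293915802) (nat_lit 228) (nat_lit 25384716722) (nat_lit 13) (nat_lit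 5) (nat_lit 15) (nat_lit 5) (nat_lit 16) (nat_lit 5) (nat_lit 301) (nat_lit 239) (nat_lit 180)) (XT.nd (nat_lit 78) (nat_lit 0) (nat_lit 0) (XT.lf (nat_lit 0) (nat_lit 12647282236) (nat_lit 228) (nat_lit 18861578834) (nat_lit 76) (nat_lit 2603301571) (nat_lit 13) (nat_lit 5) (nat_lit 16) (nat_lit 5) (nat_lit 14) (nat_lit 4) (nat_lit 302) (nat_lit 239) (nat_lit 179)) (XT.lf (nat_lit 0) (nat_lit 18251669375) (nat_lit 228) (nat_lit 7604629881) (nat_lit 76) (nat_lit 9735296176) (nat_lit 13) (nat_lit 5) (nat_lit 16) (nat_lit 5) (nat_lit 14) (nat_lit 4) (nat_lit 303) (nat_lit 239) (nat_lit 178))))) (XT.nd (nat_lit 156) (nat_lit 228) (nat_lit 0) (XT.nd (nat_lit 78) (nat_lit 0) (nat_lit 0) (XT.lf (nat_lit 0) (nat_lit 4243090312) (nat_lit 76) (nat_lit 19901172609) (nat_lit 152) (nat_lit 13000535582) (nat_lit 12) (nat_lit 5) (nat_lit 13) (nat_lit 5) (nat_lit 14) (nat_lit 4) (nat_lit 304) (nat_lit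 239) (nat_lit 177)) (XT.lf (nat_lit 0) (nat_lit 16788809689) (nat_lit 76) (nat_lit 13589208827) (nat_lit 152) (nat_lit 8396283669) (nat_lit 12) (nat_lit 5) (nat_lit 13) (nat_lit 5) (nat_lit 14) (nat_lit 4) (nat_lit 305) (nat_lit 239) (nat_lit 176))) (XT.nd (nat_lit 78) (nat_lit 228) (nat_lit 0) (XT.lf (nat_lit 0) (nat_lit 29911051964) (nat_lit 76) (nat_lit 6982171275) (nat_lit 152) (nat_lit 3592999664) (nat_lit 12) (nat_lit 5) (nat_lit 13) (nat_lit 5) (nat_lit 14) (nat_lit 4) (nat_lit 306) (nat_lit 239) (nat_lit 175)) (XT.nd (nat_lit 78) (nat_lit 0) (nat_lit 0) (XT.lf (nat_lit 0) (nat_lit 1369490453) (nat_lit 152) (nat_lit 36702742) (nat_lit 228) (nat_lit 40877638824) (nat_lit 9) (nat_lit 5) (nat_lit 11) (nat_lit 5) (nat_lit 12) (nat_lit 5) (nat_lit 307) (nat_lit 239) (nat_lit 174)) (XT.lf (nat_lit 0) (nat_lit 6733044053) (nat_lit 228) (nat_lit 30191017159) (nat_lit 76) (nat_lit 7241663489)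 (nat_lit 9) (nat_lit 5) (nat_lit 12) (nat_lit 5) (nat_lit 10) (nat_lit 4) (nat_lit 308) (nat_lit 239) (nat_lit 173)))))) (XT.nd (nat_lit 390) (nat_lit 152) (nat_lit 0) (XT.nd (nat_lit 156) (nat_lit 76) (nat_lit 0) (XT.nd (nat_lit 78) (nat_lit 0) (nat_lit 0) (XT.lf (nat_lit 0) (nat_lit 12299585954) (nat_lit 228) (nat_lit 18977843619) (nat_lit 76) (nat_lit 14865111086) (nat_lit 9) (nat_lit 5) (nat_lit 12) (nat_lit 5) (nat_lit 10) (nat_lit 4) (nat_lit 309) (nat_lit 239) (nat_lit 172)) (XT.lf (nat_lit 0) (nat_lit 18118719761) (nat_lit 228) (nat_lit 7247770106) (nat_lit 76) (nat_lit 22852507317) (nat_lit 9) (nat_lit 5) (nat_lit 12) (nat_lit 5) (nat_lit 10) (nat_lit 4) (nat_lit 310) (nat_lit 239) (nat_lit 171))) (XT.nd (nat_lit 78) (nat_lit 0) (nat_lit 0) (XT.lf (nat_lit 0) (nat_lit 5127181913) (nat_lit 76) (nat_lit 19126404249) (nat_lit 152) (nat_lit 26144973487) (nat_lit 8) (nat_lit 5) (nat_lit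 9) (nat_lit 5) (nat_lit 10) (nat_lit 4) (nat_lit 311) (nat_lit 239) (nat_lit 170)) (XT.nd (nat_lit 78) (nat_lit 0) (nat_lit 0) (XT.lf (nat_lit 0) (nat_lit 18231858261) (nat_lit 76) (nat_lit 12514215323) (nat_lit 152) (nat_lit 21939525459) (nat_lit 8) (nat_lit 5) (nat_lit 9) (nat_lit 5) (nat_lit 10) (nat_lit 4) (nat_lit 312) (nat_lit 239) (nat_lit 169)) (XT.lf (nat_lit 0) (nat_lit 31953215711) (nat_lit 76) (nat_lit 5587368050) (nat_lit 152) (nat_lit 17547108633) (nat_lit 8) (nat_lit 5) (nat_lit 9) (nat_lit 5) (nat_lit 10) (nat_lit 4) (nat_lit 313) (nat_lit 239) (nat_lit 168))))) (XT.nd (nat_lit 234) (nat_lit 76) (nat_lit 0) (XT.nd (nat_lit 78) (nat_lit 76) (nat_lit 0) (XT.lf (nat_lit 0) (nat_lit 44669353216) (nat_lit 152) (nat_lit 11302693929) (nat_lit 0) (nat_lit 1638030053) (nat_lit 8) (nat_lit 5) (nat_lit 10) (nat_lit 4) (nat_lit 8) (nat_lit 4) (nat_lit 314) (nat_lit 239) (nat_lit 167))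 (XT.nd (nat_lit 78) (nat_lit 0) (nat_lit 0) (XT.lf (nat_lit 0) (nat_lit 1049292686) (nat_lit 76) (nat_lit 51151110150) (nat_lit 76) (nat_lit 8056824868) (nat_lit 7) (nat_lit 4) (nat_lit 8) (nat_lit 5) (nat_lit 8) (nat_lit 4) (nat_lit 315) (nat_lit 239) (nat_lit 166)) (XT.lf (nat_lit 0) (nat_lit 14220622226) (nat_lit 76) (nat_lit 45983746245) (nat_lit 76) (nat_lit 2829497039) (nat_lit 7) (nat_lit 4) (nat_lit 8) (nat_lit 5) (nat_lit 8) (nat_lit 4) (nat_lit 316) (nat_lit 239) (nat_lit 165)))) (XT.nd (nat_lit 78) (nat_lit 0) (nat_lit 0) (XT.lf (nat_lit 0) (nat_lit 2588062948) (nat_lit 152) (nat_lit 37957589919) (nat_lit 76) (nat_lit 25403511916) (nat_lit 6) (nat_lit 5) (nat_lit 8) (nat_lit 5) (nat_lit 7) (nat_lit 4) (nat_lit 317) (nat_lit 239) (nat_lit 164)) (XT.nd (nat_lit 78) (nat_lit 0) (nat_lit 0) (XT.lf (nat_lit 0) (nat_lit 8200199223) (nat_lit 152) (nat_lit 26619342327) (nat_lit 76) (nat_lit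 34190398736) (nat_lit 6) (nat_lit 5) (nat_lit 8) (nat_lit 5) (nat_lit 7) (nat_lit 4) (nat_lit 318) (nat_lit 239) (nat_lit 163)) (XT.lf (nat_lit 0) (nat_lit 14075487692) (nat_lit 152) (nat_lit 14744305826) (nat_lit 76) (nat_lit 43404502028) (nat_lit 6) (nat_lit 5) (nat_lit 8) (nat_lit 5) (nat_lit 7) (nat_lit 4) (nat_lit 319) (nat_lit 239) (nat_lit 162))))))) (XT.nd (nat_lit 31278) (nat_lit 0) (nat_lit 16188) (XT.nd (nat_lit 390) (nat_lit 76) (nat_lit 0) (XT.nd (nat_lit 156) (nat_lit 0) (nat_lit 0) (XT.nd (nat_lit 78) (nat_lit 76) (nat_lit 0) (XT.lf (nat_lit 0) (nat_lit 20227917138) (nat_lit 152) (nat_lit 2304206518) (nat_lit 76) (nat_lit 53067760133) (nat_lit 6) (nat_lit 5) (nat_lit 8) (nat_lit 5) (nat_lit 7) (nat_lit 4) (nat_lit 320) (nat_lit 239) (nat_lit 161)) (XT.lf (nat_lit 0) (nat_lit 10944134360) (nat_lit 76) (nat_lit 15833203557) (nat_lit 152) (nat_lit 52364248163) (nat_lit 5) (nat_lit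 5) (nat_lit 6) (nat_lit 5) (nat_lit 7) (nat_lit 4) (nat_lit 321) (nat_lit 239) (nat_lit 160))) (XT.nd (nat_lit 78) (nat_lit 0) (nat_lit 0) (XT.lf (nat_lit 0) (nat_lit 24876503752) (nat_lit 76) (nat_lit 8786112685) (nat_lit 152) (nat_lit 49197520429) (nat_lit 5) (nat_lit 5) (nat_lit 6) (nat_lit 5) (nat_lit 7) (nat_lit 4) (nat_lit 322) (nat_lit 239) (nat_lit 159)) (XT.nd (nat_lit 78) (nat_lit 0) (nat_lit 0) (XT.lf (nat_lit 0) (nat_lit 39480215737) (nat_lit 76) (nat_lit 1397340220) (nat_lit 152) (nat_lit 45887511590) (nat_lit 5) (nat_lit 5) (nat_lit 6) (nat_lit 5) (nat_lit 7) (nat_lit 4) (nat_lit 323) (nat_lit 239) (nat_lit 158)) (XT.lf (nat_lit 0) (nat_lit 48500381778) (nat_lit 152) (nat_lit 36136681393) (nat_lit 0) (nat_lit 6226781000) (nat_lit 5) (nat_lit 5) (nat_lit 7) (nat_lit 4) (nat_lit 5) (nat_lit 4) (nat_lit 324) (nat_lit 239) (nat_lit 157))))) (XT.nd (nat_lit 234) (nat_lit 0) (nat_lit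 0) (XT.nd (nat_lit 78) (nat_lit 76) (nat_lit 0) (XT.lf (nat_lit 0) (nat_lit 56505114242) (nat_lit 152) (nat_lit 24468449356) (nat_lit 0) (nat_lit 14193986009) (nat_lit 5) (nat_lit 5) (nat_lit 7) (nat_lit 4) (nat_lit 5) (nat_lit 4) (nat_lit 325) (nat_lit 239) (nat_lit 156)) (XT.nd (nat_lit 78) (nat_lit 76) (nat_lit 0) (XT.lf (nat_lit 0) (nat_lit 64897380149) (nat_lit 152) (nat_lit 12238942107) (nat_lit 0) (nat_lit 22550511481) (nat_lit 5) (nat_lit 5) (nat_lit 7) (nat_lit 4) (nat_lit 5) (nat_lit 4) (nat_lit 326) (nat_lit 239) (nat_lit 155)) (XT.lf (nat_lit 0) (nat_lit 592520436) (nat_lit 76) (nat_lit 73110336315) (nat_lit 76) (nat_lit 30729429139) (nat_lit 4) (nat_lit 4) (nat_lit 5) (nat_lit 5) (nat_lit 5) (nat_lit 4) (nat_lit 327) (nat_lit 239) (nat_lit 154)))) (XT.nd (nat_lit 78) (nat_lit 0) (nat_lit 0) (XT.lf (nat_lit 0) (nat_lit 14300836044) (nat_lit 76) (nat_lit 68762041242) (nat_lit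 76) (nat_lit 26348716439) (nat_lit 4) (nat_lit 4) (nat_lit 5) (nat_lit 5) (nat_lit 5) (nat_lit 4) (nat_lit 328) (nat_lit 239) (nat_lit 153)) (XT.nd (nat_lit 78) (nat_lit 0) (nat_lit 0) (XT.lf (nat_lit 0) (nat_lit 28675064618) (nat_lit 76) (nat_lit 64204673273) (nat_lit 76) (nat_lit 21760474539) (nat_lit 4) (nat_lit 4) (nat_lit 5) (nat_lit 5) (nat_lit 5) (nat_lit 4) (nat_lit 329) (nat_lit 239) (nat_lit 152)) (XT.lf (nat_lit 0) (nat_lit 43749430510) (nat_lit 76) (nat_lit 59427381531) (nat_lit 76) (nat_lit 16953779053) (nat_lit 4) (nat_lit 4) (nat_lit 5) (nat_lit 5) (nat_lit 5) (nat_lit 4) (nat_lit 330) (nat_lit 239) (nat_lit 151)))))) (XT.nd (nat_lit 390) (nat_lit 2204) (nat_lit 0) (XT.nd (nat_lit 156) (nat_lit 380) (nat_lit 0) (XT.nd (nat_lit 78) (nat_lit 76) (nat_lit 0) (XT.lf (nat_lit 0) (nat_lit 1073741823) (nat_lit 0) (nat_lit 0) (nat_lit 0) (nat_lit 0) (nat_lit 252) (nat_lit 0) (nat_lit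 1) (nat_lit 0) (nat_lit 1) (nat_lit 0) (nat_lit 240) (nat_lit 240) (nat_lit 240)) (XT.lf (nat_lit 0) (nat_lit 4494501365) (nat_lit 76) (nat_lit 1833994099) (nat_lit 0) (nat_lit 117725168) (nat_lit 251) (nat_lit 5) (nat_lit 252) (nat_lit 0) (nat_lit 251) (nat_lit 4) (nat_lit 241) (nat_lit 240) (nat_lit 239))) (XT.nd (nat_lit 78) (nat_lit 228) (nat_lit 0) (XT.lf (nat_lit 0) (nat_lit 2447344781) (nat_lit 152) (nat_lit 3577024573) (nat_lit 76) (nat_lit 434276457) (nat_lit 249) (nat_lit 5) (nat_lit 251) (nat_lit 5) (nat_lit 250) (nat_lit 4) (nat_lit 242) (nat_lit 240) (nat_lit 238)) (XT.nd (nat_lit 78) (nat_lit 0) (nat_lit 0) (XT.lf (nat_lit 0) (nat_lit 293617058) (nat_lit 228) (nat_lit 5235735254) (nat_lit 76) (nat_lit 950403862) (nat_lit 246) (nat_lit 5) (nat_lit 249) (nat_lit 5) (nat_lit 247) (nat_lit 5) (nat_lit 243) (nat_lit 240) (nat_lit 237)) (XT.lf (nat_lit 0) (nat_lit 4498550009) (nat_lit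 228) (nat_lit 320566079) (nat_lit 76) (nat_lit 1689811635) (nat_lit 246) (nat_lit 5) (nat_lit 249) (nat_lit 5) (nat_lit 247) (nat_lit 5) (nat_lit 244) (nat_lit 240) (nat_lit 236))))) (XT.nd (nat_lit 234) (nat_lit 1140) (nat_lit 0) (XT.nd (nat_lit 78) (nat_lit 760) (nat_lit 0) (XT.lf (nat_lit 0) (nat_lit 2113204011) (nat_lit 304) (nat_lit 1786279163) (nat_lit 76) (nat_lit 2646965580) (nat_lit 242) (nat_lit 5) (nat_lit 246) (nat_lit 5) (nat_lit 243) (nat_lit 5) (nat_lit 245) (nat_lit 240) (nat_lit 235)) (XT.nd (nat_lit 78) (nat_lit 456) (nat_lit 0) (XT.lf (nat_lit 0) (nat_lit 3408222265) (nat_lit 304) (nat_lit 2779585445) (nat_lit 380) (nat_lit 404930646) (nat_lit 238) (nat_lit 5) (nat_lit 242) (nat_lit 5) (nat_lit 243) (nat_lit 5) (nat_lit 246) (nat_lit 240) (nat_lit 234)) (XT.lf (nat_lit 0) (nat_lit 2107889346) (nat_lit 380) (nat_lit 1438134590) (nat_lit 456) (nat_lit 3101340419) (nat_lit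 232) (nat_lit 5) (nat_lit 237) (nat_lit 5) (nat_lit 238) (nat_lit 5) (nat_lit 247) (nat_lit 240) (nat_lit 233)))) (XT.nd (nat_lit 78) (nat_lit 608) (nat_lit 0) (XT.lf (nat_lit 0) (nat_lit 768881251) (nat_lit 532) (nat_lit 5837577043) (nat_lit 76) (nat_lit 104590798) (nat_lit 225) (nat_lit 5) (nat_lit 232) (nat_lit 5) (nat_lit 226) (nat_lit 5) (nat_lit 248) (nat_lit 240) (nat_lit 232)) (XT.nd (nat_lit 78) (nat_lit 608) (nat_lit 0) (XT.lf (nat_lit 0) (nat_lit 4605182177) (nat_lit 532) (nat_lit 331222830) (nat_lit 76) (nat_lit 1846371852) (nat_lit 225) (nat_lit 5) (nat_lit 232) (nat_lit 5) (nat_lit 226) (nat_lit 5) (nat_lit 249) (nat_lit 240) (nat_lit 231)) (XT.lf (nat_lit 0) (nat_lit 1575216122) (nat_lit 608) (nat_lit 1476094895) (nat_lit 76) (nat_lit 3812043412) (nat_lit 217) (nat_lit 5) (nat_lit 225) (nat_lit 5) (nat_lit 218) (nat_lit 5) (nat_lit 250) (nat_lit 240) (nat_lit 230))))))))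
noncomputable def xc50 : XT := (XT.nd (nat_lit 1638) (nat_lit 3268) (nat_lit 0) (XT.nd (nat_lit 780) (nat_lit 4104) (nat_lit 0) (XT.nd (nat_lit 390) (nat_lit 3344) (nat_lit 0) (XT.nd (nat_lit 156) (nat_lit 2584) (nat_lit 0) (XT.nd (nat_lit 78) (nat_lit 760) (nat_lit 0) (XT.lf (nat_lit 0) (nat_lit 4360532406) (nat_lit 608) (nat_lit 947005632) (nat_lit 684) (nat_lit 1645444865) (nat_lit 209) (nat_lit 5) (nat_lit 217) (nat_lit 5) (nat_lit 218) (nat_lit 5) (nat_lit 251) (nat_lit 240) (nat_lit 229)) (XT.lf (nat_lit 0) (nat_lit 1994764907) (nat_lit 760) (nat_lit 3701026959) (nat_lit 76) (nat_lit 1355652723) (nat_lit 199) (nat_lit 5) (nat_lit 209) (nat_lit 5) (nat_lit 200) (nat_lit 5) (nat_lit 252) (nat_lit 240) (nat_lit 228))) (XT.nd (nat_lit 78) (nat_lit 1824) (nat_lit 0) (XT.lf (nat_lit 0) (nat_lit 2353875677) (nat_lit 760) (nat_lit 3294140644) (nat_lit 836) (nat_lit 1511055832) (nat_lit 189)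 (nat_lit 5) (nat_lit 199) (nat_lit 5) (nat_lit 200) (nat_lit 5) (nat_lit 253) (nat_lit 240) (nat_lit 227)) (XT.nd (nat_lit 78) (nat_lit 912) (nat_lit 0) (XT.lf (nat_lit 0) (nat_lit 1366840101) (nat_lit 836) (nat_lit 664384226) (nat_lit 912) (nat_lit 5244974715) (nat_lit 177) (nat_lit 5) (nat_lit 188) (nat_lit 5) (nat_lit 189) (nat_lit 5) (nat_lit 254) (nat_lit 240) (nat_lit 226)) (XT.lf (nat_lit 0) (nat_lit 363409718) (nat_lit 912) (nat_lit 5248607660) (nat_lit 988) (nat_lit 1790538372) (nat_lit 165) (nat_lit 5) (nat_lit 177) (nat_lit 5) (nat_lit 178) (nat_lit 5) (nat_lit 255) (nat_lit 240) (nat_lit 225))))) (XT.nd (nat_lit 156) (nat_lit 2280) (nat_lit 0) (XT.nd (nat_lit 78) (nat_lit 988) (nat_lit 0) (XT.lf (nat_lit 0) (nat_lit 1692545195) (nat_lit 988) (nat_lit 642580200) (nat_lit 76) (nat_lit 5203378766) (nat_lit 164) (nat_lit 5) (nat_lit 177) (nat_lit 5) (nat_lit 165) (nat_lit 5) (nat_lit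 256) (nat_lit 240) (nat_lit 224)) (XT.lf (nat_lit 0) (nat_lit 5210903606) (nat_lit 1064) (nat_lit 1669163933) (nat_lit 76) (nat_lit 804236007) (nat_lit 151) (nat_lit 5) (nat_lit 165) (nat_lit 5) (nat_lit 152) (nat_lit 5) (nat_lit 257) (nat_lit 240) (nat_lit 223))) (XT.nd (nat_lit 78) (nat_lit 1140) (nat_lit 0) (XT.lf (nat_lit 0) (nat_lit 963756120) (nat_lit 1140) (nat_lit 2743019316) (nat_lit 76) (nat_lit 4133295386) (nat_lit 136) (nat_lit 5) (nat_lit 151) (nat_lit 5) (nat_lit 137) (nat_lit 5) (nat_lit 258) (nat_lit 240) (nat_lit 222)) (XT.nd (nat_lit 78) (nat_lit 532) (nat_lit 0) (XT.lf (nat_lit 0) (nat_lit 4138500790) (nat_lit 608) (nat_lit 283757845) (nat_lit 684) (nat_lit 3584080560) (nat_lit 128) (nat_lit 5) (nat_lit 136) (nat_lit 5) (nat_lit 137) (nat_lit 5) (nat_lit 259) (nat_lit 240) (nat_lit 221)) (XT.lf (nat_lit 0) (nat_lit 3118931699) (nat_lit 532) (nat_lit 4874221528) (nat_lit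 608) (nat_lit 190028206) (nat_lit 121) (nat_lit 5) (nat_lit 128) (nat_lit 5) (nat_lit 129) (nat_lit 5) (nat_lit 260) (nat_lit 240) (nat_lit 220)))))) (XT.nd (nat_lit 390) (nat_lit 2128) (nat_lit 0) (XT.nd (nat_lit 156) (nat_lit 912) (nat_lit 0) (XT.nd (nat_lit 78) (nat_lit 456) (nat_lit 0) (XT.lf (nat_lit 0) (nat_lit 2021784626) (nat_lit 532) (nat_lit 1201685554) (nat_lit 608) (nat_lit 5147366346) (nat_lit 113) (nat_lit 5) (nat_lit 120) (nat_lit 5) (nat_lit 121) (nat_lit 5) (nat_lit 261) (nat_lit 240) (nat_lit 219)) (XT.lf (nat_lit 0) (nat_lit 839613718) (nat_lit 456) (nat_lit 5908990812) (nat_lit 532) (nat_lit 1821258057) (nat_lit 107) (nat_lit 5) (nat_lit 113) (nat_lit 5) (nat_lit 114) (nat_lit 5) (nat_lit 262) (nat_lit 240) (nat_lit 218))) (XT.nd (nat_lit 78) (nat_lit 836) (nat_lit 0) (XT.lf (nat_lit 0) (nat_lit 1578913428) (nat_lit 532) (nat_lit 434578901) (nat_lit 76) (nat_lit 6767016555)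 (nat_lit 106) (nat_lit 5) (nat_lit 113) (nat_lit 5) (nat_lit 107) (nat_lit 5) (nat_lit 263) (nat_lit 240) (nat_lit 217)) (XT.nd (nat_lit 78) (nat_lit 380) (nat_lit 0) (XT.lf (nat_lit 0) (nat_lit 5070565787) (nat_lit 532) (nat_lit 1818099861) (nat_lit 76) (nat_lit 2114051383) (nat_lit 100) (nat_lit 5) (nat_lit 107) (nat_lit 5) (nat_lit 101) (nat_lit 5) (nat_lit 264) (nat_lit 240) (nat_lit 216)) (XT.lf (nat_lit 0) (nat_lit 5910857617) (nat_lit 380) (nat_lit 2781204362) (nat_lit 456) (nat_lit 545644022) (nat_lit 95) (nat_lit 5) (nat_lit 100) (nat_lit 5) (nat_lit 101) (nat_lit 5) (nat_lit 265) (nat_lit 240) (nat_lit 215))))) (XT.nd (nat_lit 234) (nat_lit 760) (nat_lit 0) (XT.nd (nat_lit 78) (nat_lit 836) (nat_lit 0) (XT.lf (nat_lit 0) (nat_lit 2905829075) (nat_lit 532) (nat_lit 5002892832) (nat_lit 76) (nat_lit 1576526549) (nat_lit 88) (nat_lit 5) (nat_lit 95) (nat_lit 5) (nat_lit 89) (nat_lit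 5) (nat_lit 266) (nat_lit 240) (nat_lit 214)) (XT.nd (nat_lit 78) (nat_lit 456) (nat_lit 0) (XT.lf (nat_lit 0) (nat_lit 2889472071) (nat_lit 380) (nat_lit 3600819170) (nat_lit 456) (nat_lit 3255852779) (nat_lit 83) (nat_lit 5) (nat_lit 88) (nat_lit 5) (nat_lit 89) (nat_lit 5) (nat_lit 267) (nat_lit 240) (nat_lit 213)) (XT.lf (nat_lit 0) (nat_lit 185725083) (nat_lit 456) (nat_lit 8888098300) (nat_lit 76) (nat_lit 947768897) (nat_lit 77) (nat_lit 5) (nat_lit 83) (nat_lit 5) (nat_lit 78) (nat_lit 5) (nat_lit 268) (nat_lit 240) (nat_lit 212)))) (XT.nd (nat_lit 78) (nat_lit 760) (nat_lit 0) (XT.lf (nat_lit 0) (nat_lit 3728402480) (nat_lit 456) (nat_lit 850489998) (nat_lit 76) (nat_lit 5731317242) (nat_lit 77) (nat_lit 5) (nat_lit 83) (nat_lit 5) (nat_lit 78) (nat_lit 5) (nat_lit 269) (nat_lit 240) (nat_lit 211)) (XT.nd (nat_lit 78) (nat_lit 456) (nat_lit 0) (XT.lf (nat_lit 0) (nat_lit 7416591952)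 (nat_lit 380) (nat_lit 3010681137) (nat_lit 76) (nat_lit 187176026) (nat_lit 73) (nat_lit 5) (nat_lit 78) (nat_lit 5) (nat_lit 74) (nat_lit 5) (nat_lit 270) (nat_lit 240) (nat_lit 210)) (XT.lf (nat_lit 0) (nat_lit 353090688) (nat_lit 456) (nat_lit 5442699711) (nat_lit 76) (nat_lit 5138089786) (nat_lit 67) (nat_lit 5) (nat_lit 73) (nat_lit 5) (nat_lit 68) (nat_lit 5) (nat_lit 271) (nat_lit 240) (nat_lit 209))))))) (XT.nd (nat_lit 780) (nat_lit 1292) (nat_lit 0) (XT.nd (nat_lit 390) (nat_lit 760) (nat_lit 0) (XT.nd (nat_lit 156) (nat_lit 608) (nat_lit 0) (XT.nd (nat_lit 78) (nat_lit 304) (nat_lit 0) (XT.lf (nat_lit 0) (nat_lit 3111321624) (nat_lit 304) (nat_lit 865465051) (nat_lit 380) (nat_lit 7292919641) (nat_lit 63) (nat_lit 5) (nat_lit 67) (nat_lit 5) (nat_lit 68) (nat_lit 5) (nat_lit 272) (nat_lit 240) (nat_lit 208)) (XT.lf (nat_lit 0) (nat_lit 423783653) (nat_lit 304) (nat_lit 7362797183)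 (nat_lit 380) (nat_lit 3835798837) (nat_lit 59) (nat_lit 5) (nat_lit 63) (nat_lit 5) (nat_lit 64) (nat_lit 5) (nat_lit 273) (nat_lit 240) (nat_lit 207))) (XT.nd (nat_lit 78) (nat_lit 608) (nat_lit 0) (XT.lf (nat_lit 0) (nat_lit 9471699380) (nat_lit 304) (nat_lit 2314038941) (nat_lit 380) (nat_lit 207175807) (nat_lit 59) (nat_lit 5) (nat_lit 63) (nat_lit 5) (nat_lit 64) (nat_lit 5) (nat_lit 274) (nat_lit 240) (nat_lit 206)) (XT.nd (nat_lit 78) (nat_lit 304) (nat_lit 0) (XT.lf (nat_lit 0) (nat_lit 3534683958) (nat_lit 304) (nat_lit 5848826939) (nat_lit 76) (nat_lit 2997541142) (nat_lit 55) (nat_lit 5) (nat_lit 59) (nat_lit 5) (nat_lit 56) (nat_lit 5) (nat_lit 275) (nat_lit 240) (nat_lit 205)) (XT.lf (nat_lit 0) (nat_lit 3220347775) (nat_lit 304) (nat_lit 4232089151) (nat_lit 380) (nat_lit 5336476353) (nat_lit 51) (nat_lit 5) (nat_lit 55) (nat_lit 5) (nat_lit 56) (nat_lit 5) (nat_lit 276) (nat_lit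 240) (nat_lit 204))))) (XT.nd (nat_lit 156) (nat_lit 456) (nat_lit 0) (XT.nd (nat_lit 78) (nat_lit 304) (nat_lit 0) (XT.lf (nat_lit 0) (nat_lit 11553454086) (nat_lit 380) (nat_lit 481006376) (nat_lit 76) (nat_lit 1183248223) (nat_lit 51) (nat_lit 5) (nat_lit 56) (nat_lit 5) (nat_lit 52) (nat_lit 5) (nat_lit 277) (nat_lit 240) (nat_lit 203)) (XT.lf (nat_lit 0) (nat_lit 2198462160) (nat_lit 304) (nat_lit 4606008232) (nat_lit 76) (nat_lit 6861502143) (nat_lit 47) (nat_lit 5) (nat_lit 51) (nat_lit 5) (nat_lit 48) (nat_lit 5) (nat_lit 278) (nat_lit 240) (nat_lit 202))) (XT.nd (nat_lit 78) (nat_lit 228) (nat_lit 0) (XT.lf (nat_lit 0) (nat_lit 4918931985) (nat_lit 228) (nat_lit 1274731374) (nat_lit 304) (nat_lit 7943421860) (nat_lit 44) (nat_lit 5) (nat_lit 47) (nat_lit 5) (nat_lit 48) (nat_lit 5) (nat_lit 279) (nat_lit 240) (nat_lit 201)) (XT.nd (nat_lit 78) (nat_lit 0) (nat_lit 0) (XT.lf (nat_lit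 0) (nat_lit 235968998) (nat_lit 228) (nat_lit 10169930478) (nat_lit 304) (nat_lit 4225472014) (nat_lit 41) (nat_lit 5) (nat_lit 44) (nat_lit 5) (nat_lit 45) (nat_lit 5) (nat_lit 280) (nat_lit 240) (nat_lit 200)) (XT.lf (nat_lit 0) (nat_lit 10234832267) (nat_lit 228) (nat_lit 4627717509) (nat_lit 304) (nat_lit 286937946) (nat_lit 41) (nat_lit 5) (nat_lit 44) (nat_lit 5) (nat_lit 45) (nat_lit 5) (nat_lit 281) (nat_lit 240) (nat_lit 199)))))) (XT.nd (nat_lit 390) (nat_lit 532) (nat_lit 0) (XT.nd (nat_lit 156) (nat_lit 456) (nat_lit 0) (XT.nd (nat_lit 78) (nat_lit 0) (nat_lit 0) (XT.lf (nat_lit 0) (nat_lit 3762305446) (nat_lit 304) (nat_lit 10708448033) (nat_lit 76) (nat_lit 1222099959) (nat_lit 37) (nat_lit 5) (nat_lit 41) (nat_lit 5) (nat_lit 38) (nat_lit 5) (nat_lit 282) (nat_lit 240) (nat_lit 198)) (XT.lf (nat_lit 0) (nat_lit 8036909148) (nat_lit 304) (nat_lit 933635199) (nat_lit 76) (nat_lit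 7292007120) (nat_lit 37) (nat_lit 5) (nat_lit 41) (nat_lit 5) (nat_lit 38) (nat_lit 5) (nat_lit 283) (nat_lit 240) (nat_lit 197))) (XT.nd (nat_lit 78) (nat_lit 304) (nat_lit 0) (XT.lf (nat_lit 0) (nat_lit 9415767184) (nat_lit 152) (nat_lit 3134248502) (nat_lit 228) (nat_lit 4310084321) (nat_lit 35) (nat_lit 5) (nat_lit 37) (nat_lit 5) (nat_lit 38) (nat_lit 5) (nat_lit 284) (nat_lit 240) (nat_lit 196)) (XT.nd (nat_lit 78) (nat_lit 76) (nat_lit 0) (XT.lf (nat_lit 0) (nat_lit 2742773066) (nat_lit 228) (nat_lit 14547030191) (nat_lit 304) (nat_lit 197795555) (nat_lit 32) (nat_lit 5) (nat_lit 35) (nat_lit 5) (nat_lit 36) (nat_lit 5) (nat_lit 285) (nat_lit 240) (nat_lit 195)) (XT.lf (nat_lit 0) (nat_lit 4086339391) (nat_lit 304) (nat_lit 4716722964) (nat_lit 76) (nat_lit 9340918957) (nat_lit 31) (nat_lit 5) (nat_lit 35) (nat_lit 5) (nat_lit 32) (nat_lit 5) (nat_lit 286) (nat_lit 240) (nat_lit 194)))))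 (XT.nd (nat_lit 234) (nat_lit 228) (nat_lit 0) (XT.nd (nat_lit 78) (nat_lit 152) (nat_lit 0) (XT.lf (nat_lit 0) (nat_lit 5833817990) (nat_lit 152) (nat_lit 2743463466) (nat_lit 228) (nat_lit 10256033237) (nat_lit 29) (nat_lit 5) (nat_lit 31) (nat_lit 5) (nat_lit 32) (nat_lit 5) (nat_lit 287) (nat_lit 240) (nat_lit 193)) (XT.nd (nat_lit 78) (nat_lit 152) (nat_lit 0) (XT.lf (nat_lit 0) (nat_lit 13318856013) (nat_lit 228) (nat_lit 2670197183) (nat_lit 76) (nat_lit 3567365880) (nat_lit 29) (nat_lit 5) (nat_lit 32) (nat_lit 5) (nat_lit 30) (nat_lit 5) (nat_lit 288) (nat_lit 240) (nat_lit 192)) (XT.lf (nat_lit 0) (nat_lit 8222886609) (nat_lit 152) (nat_lit 10126367018) (nat_lit 228) (nat_lit 1964955479) (nat_lit 27) (nat_lit 5) (nat_lit 29) (nat_lit 5) (nat_lit 30) (nat_lit 5) (nat_lit 289) (nat_lit 240) (nat_lit 191)))) (XT.nd (nat_lit 78) (nat_lit 152) (nat_lit 0) (XT.lf (nat_lit 0) (nat_lit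 2446070139) (nat_lit 228) (nat_lit 1501294154) (nat_lit 76) (nat_lit 17162654171) (nat_lit 26) (nat_lit 5) (nat_lit 29) (nat_lit 5) (nat_lit 27) (nat_lit 5) (nat_lit 290) (nat_lit 240) (nat_lit 190)) (XT.nd (nat_lit 78) (nat_lit 0) (nat_lit 0) (XT.lf (nat_lit 0) (nat_lit 7104754822) (nat_lit 228) (nat_lit 12261400812) (nat_lit 76) (nat_lit 2576919500) (nat_lit 24) (nat_lit 5) (nat_lit 27) (nat_lit 5) (nat_lit 25) (nat_lit 5) (nat_lit 291) (nat_lit 240) (nat_lit 189)) (XT.lf (nat_lit 0) (nat_lit 12002029207) (nat_lit 228) (nat_lit 1481276321) (nat_lit 76) (nat_lit 9334378853) (nat_lit 24) (nat_lit 5) (nat_lit 27) (nat_lit 5) (nat_lit 25) (nat_lit 5) (nat_lit 292) (nat_lit 240) (nat_lit 188))))))))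
noncomputable def xc51 : XT := (XT.nd (nat_lit 1638) (nat_lit 304) (nat_lit 0) (XT.nd (nat_lit 780) (nat_lit 380) (nat_lit 0) (XT.nd (nat_lit 390) (nat_lit 304) (nat_lit 0) (XT.nd (nat_lit 156) (nat_lit 380) (nat_lit 0) (XT.nd (nat_lit 78) (nat_lit 0) (nat_lit 0) (XT.lf (nat_lit 0) (nat_lit 9956790619) (nat_lit 152) (nat_lit 7235664835) (nat_lit 228) (nat_lit 6542186093) (nat_lit 22) (nat_lit 5) (nat_lit 24) (nat_lit 5) (nat_lit 25) (nat_lit 5) (nat_lit 293) (nat_lit 240) (nat_lit 187)) (XT.lf (nat_lit 0) (nat_lit 21924518685) (nat_lit 152) (nat_lit 687264752) (nat_lit 228) (nat_lit 2086644674) (nat_lit 22) (nat_lit 5) (nat_lit 24) (nat_lit 5) (nat_lit 25) (nat_lit 5) (nat_lit 294) (nat_lit 240) (nat_lit 186))) (XT.nd (nat_lit 78) (nat_lit 152) (nat_lit 0) (XT.lf (nat_lit 0) (nat_lit 2642392982) (nat_lit 228) (nat_lit 16911299197) (nat_lit 76) (nat_lit 6152983890) (nat_lit 19) (nat_lit 5)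 (nat_lit 22) (nat_lit 5) (nat_lit 20) (nat_lit 5) (nat_lit 295) (nat_lit 240) (nat_lit 185)) (XT.nd (nat_lit 78) (nat_lit 152) (nat_lit 0) (XT.lf (nat_lit 0) (nat_lit 7557922994) (nat_lit 228) (nat_lit 5861377935) (nat_lit 76) (nat_lit 13345675273) (nat_lit 19) (nat_lit 5) (nat_lit 22) (nat_lit 5) (nat_lit 20) (nat_lit 5) (nat_lit 296) (nat_lit 240) (nat_lit 184)) (XT.lf (nat_lit 0) (nat_lit 5787583868) (nat_lit 152) (nat_lit 6946346025) (nat_lit 228) (nat_lit 15141873235) (nat_lit 17) (nat_lit 5) (nat_lit 19) (nat_lit 5) (nat_lit 20) (nat_lit 5) (nat_lit 297) (nat_lit 240) (nat_lit 183))))) (XT.nd (nat_lit 156) (nat_lit 228) (nat_lit 0) (XT.nd (nat_lit 78) (nat_lit 76) (nat_lit 0) (XT.lf (nat_lit 0) (nat_lit 18076990313) (nat_lit 152) (nat_lit 112480433) (nat_lit 228) (nat_lit 10852128929) (nat_lit 17) (nat_lit 5) (nat_lit 19) (nat_lit 5) (nat_lit 20) (nat_lit 5) (nat_lit 298) (nat_lit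 240) (nat_lit 182)) (XT.lf (nat_lit 0) (nat_lit 596557666) (nat_lit 76) (nat_lit 23356914069) (nat_lit 152) (nat_lit 6311191712) (nat_lit 16) (nat_lit 5) (nat_lit 17) (nat_lit 5) (nat_lit 18) (nat_lit 4) (nat_lit 299) (nat_lit 240) (nat_lit 181))) (XT.nd (nat_lit 78) (nat_lit 228) (nat_lit 0) (XT.lf (nat_lit 0) (nat_lit 12903171340) (nat_lit 76) (nat_lit 17179775161) (nat_lit 152) (nat_lit 1463661301) (nat_lit 16) (nat_lit 5) (nat_lit 17) (nat_lit 5) (nat_lit 18) (nat_lit 4) (nat_lit 300) (nat_lit 240) (nat_lit 180)) (XT.nd (nat_lit 78) (nat_lit 152) (nat_lit 0) (XT.lf (nat_lit 0) (nat_lit 3520122888) (nat_lit 152) (nat_lit 7160834360) (nat_lit 76) (nat_lit 22211749418) (nat_lit 15) (nat_lit 5) (nat_lit 17) (nat_lit 5) (nat_lit 16) (nat_lit 5) (nat_lit 301) (nat_lit 240) (nat_lit 179)) (XT.lf (nat_lit 0) (nat_lit 4921500978) (nat_lit 152) (nat_lit 3815236678) (nat_lit 228) (nat_lit 25568560866)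 (nat_lit 13) (nat_lit 5) (nat_lit 15) (nat_lit 5) (nat_lit 16) (nat_lit 5) (nat_lit 302) (nat_lit 240) (nat_lit 178)))))) (XT.nd (nat_lit 390) (nat_lit 304) (nat_lit 0) (XT.nd (nat_lit 156) (nat_lit 76) (nat_lit 0) (XT.nd (nat_lit 78) (nat_lit 0) (nat_lit 0) (XT.lf (nat_lit 0) (nat_lit 14288450343) (nat_lit 228) (nat_lit 18116942096) (nat_lit 76) (nat_lit 3380937766) (nat_lit 13) (nat_lit 5) (nat_lit 16) (nat_lit 5) (nat_lit 14) (nat_lit 4) (nat_lit 303) (nat_lit 240) (nat_lit 177)) (XT.lf (nat_lit 0) (nat_lit 20125018553) (nat_lit 228) (nat_lit 6377513109) (nat_lit 76) (nat_lit 10838700143) (nat_lit 13) (nat_lit 5) (nat_lit 16) (nat_lit 5) (nat_lit 14) (nat_lit 4) (nat_lit 304) (nat_lit 240) (nat_lit 176))) (XT.nd (nat_lit 78) (nat_lit 0) (nat_lit 0) (XT.lf (nat_lit 0) (nat_lit 6016518778) (nat_lit 76) (nat_lit 20264980171) (nat_lit 152) (nat_lit 12691571719) (nat_lit 12) (nat_lit 5) (nat_lit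 13) (nat_lit 5) (nat_lit 14) (nat_lit 4) (nat_lit 305) (nat_lit 240) (nat_lit 175)) (XT.nd (nat_lit 78) (nat_lit 0) (nat_lit 0) (XT.lf (nat_lit 0) (nat_lit 19115177745) (nat_lit 76) (nat_lit 13667477774) (nat_lit 152) (nat_lit 7902773432) (nat_lit 12) (nat_lit 5) (nat_lit 13) (nat_lit 5) (nat_lit 14) (nat_lit 4) (nat_lit 306) (nat_lit 240) (nat_lit 174)) (XT.lf (nat_lit 0) (nat_lit 32822726060) (nat_lit 76) (nat_lit 6758716511) (nat_lit 152) (nat_lit 2902816867) (nat_lit 12) (nat_lit 5) (nat_lit 13) (nat_lit 5) (nat_lit 14) (nat_lit 4) (nat_lit 307) (nat_lit 240) (nat_lit 173))))) (XT.nd (nat_lit 234) (nat_lit 76) (nat_lit 0) (XT.nd (nat_lit 78) (nat_lit 0) (nat_lit 0) (XT.lf (nat_lit 0) (nat_lit 2307222109) (nat_lit 228) (nat_lit 41546548899) (nat_lit 76) (nat_lit 518436103) (nat_lit 9) (nat_lit 5) (nat_lit 12) (nat_lit 5) (nat_lit 10) (nat_lit 4) (nat_lit 308) (nat_lit 240) (nat_lit 172))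 (XT.nd (nat_lit 78) (nat_lit 0) (nat_lit 0) (XT.lf (nat_lit 0) (nat_lit 7861210260) (nat_lit 228) (nat_lit 30354721069) (nat_lit 76) (nat_lit 8133481873) (nat_lit 9) (nat_lit 5) (nat_lit 12) (nat_lit 5) (nat_lit 10) (nat_lit 4) (nat_lit 309) (nat_lit 240) (nat_lit 171)) (XT.lf (nat_lit 0) (nat_lit 13668388113) (nat_lit 228) (nat_lit 18644976802) (nat_lit 76) (nat_lit 16112876364) (nat_lit 9) (nat_lit 5) (nat_lit 12) (nat_lit 5) (nat_lit 10) (nat_lit 4) (nat_lit 310) (nat_lit 240) (nat_lit 170)))) (XT.nd (nat_lit 78) (nat_lit 76) (nat_lit 0) (XT.lf (nat_lit 0) (nat_lit 19742582283) (nat_lit 228) (nat_lit 6389435755) (nat_lit 76) (nat_lit 24475618134) (nat_lit 9) (nat_lit 5) (nat_lit 12) (nat_lit 5) (nat_lit 10) (nat_lit 4) (nat_lit 311) (nat_lit 240) (nat_lit 169)) (XT.nd (nat_lit 78) (nat_lit 0) (nat_lit 0) (XT.lf (nat_lit 0) (nat_lit 6569272089) (nat_lit 76) (nat_lit 19592130910) (nat_lit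 152) (nat_lit 26735494246) (nat_lit 8) (nat_lit 5) (nat_lit 9) (nat_lit 5) (nat_lit 10) (nat_lit 4) (nat_lit 312) (nat_lit 240) (nat_lit 168)) (XT.lf (nat_lit 0) (nat_lit 20272718870) (nat_lit 76) (nat_lit 12672694136) (nat_lit 152) (nat_lit 22353903717) (nat_lit 8) (nat_lit 5) (nat_lit 9) (nat_lit 5) (nat_lit 10) (nat_lit 4) (nat_lit 313) (nat_lit 240) (nat_lit 167))))))) (XT.nd (nat_lit 858) (nat_lit 76) (nat_lit 0) (XT.nd (nat_lit 390) (nat_lit 76) (nat_lit 0) (XT.nd (nat_lit 156) (nat_lit 152) (nat_lit 0) (XT.nd (nat_lit 78) (nat_lit 0) (nat_lit 0) (XT.lf (nat_lit 0) (nat_lit 34626369540) (nat_lit 76) (nat_lit 5421753640) (nat_lit 152) (nat_lit 17774370717) (nat_lit 8) (nat_lit 5) (nat_lit 9) (nat_lit 5) (nat_lit 10) (nat_lit 4) (nat_lit 314) (nat_lit 240) (nat_lit 166)) (XT.lf (nat_lit 0) (nat_lit 47507380570) (nat_lit 152) (nat_lit 10828972708) (nat_lit 0) (nat_lit 2135454980) (nat_lit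 8) (nat_lit 5) (nat_lit 10) (nat_lit 4) (nat_lit 8) (nat_lit 4) (nat_lit 315) (nat_lit 240) (nat_lit 165))) (XT.nd (nat_lit 78) (nat_lit 76) (nat_lit 0) (XT.lf (nat_lit 0) (nat_lit 2110834642) (nat_lit 76) (nat_lit 53285059341) (nat_lit 76) (nat_lit 7856025253) (nat_lit 7) (nat_lit 4) (nat_lit 8) (nat_lit 5) (nat_lit 8) (nat_lit 4) (nat_lit 316) (nat_lit 240) (nat_lit 164)) (XT.nd (nat_lit 78) (nat_lit 76) (nat_lit 0) (XT.lf (nat_lit 0) (nat_lit 15892679357) (nat_lit 76) (nat_lit 47879498970) (nat_lit 76) (nat_lit 2396075836) (nat_lit 7) (nat_lit 4) (nat_lit 8) (nat_lit 5) (nat_lit 8) (nat_lit 4) (nat_lit 317) (nat_lit 240) (nat_lit 163)) (XT.lf (nat_lit 0) (nat_lit 3254302060) (nat_lit 152) (nat_lit 38928989043) (nat_lit 76) (nat_lit 27046693433) (nat_lit 6) (nat_lit 5) (nat_lit 8) (nat_lit 5) (nat_lit 7) (nat_lit 4) (nat_lit 318) (nat_lit 240) (nat_lit 162))))) (XT.nd (nat_lit 234) (nat_lit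 76) (nat_lit 0) (XT.nd (nat_lit 78) (nat_lit 0) (nat_lit 0) (XT.lf (nat_lit 0) (nat_lit 9121481531) (nat_lit 152) (nat_lit 27067947185) (nat_lit 76) (nat_lit 36255162407) (nat_lit 6) (nat_lit 5) (nat_lit 8) (nat_lit 5) (nat_lit 7) (nat_lit 4) (nat_lit 319) (nat_lit 240) (nat_lit 161)) (XT.nd (nat_lit 78) (nat_lit 0) (nat_lit 0) (XT.lf (nat_lit 0) (nat_lit 15266188122) (nat_lit 152) (nat_lit 14641176109) (nat_lit 76) (nat_lit 45913054495) (nat_lit 6) (nat_lit 5) (nat_lit 8) (nat_lit 5) (nat_lit 7) (nat_lit 4) (nat_lit 320) (nat_lit 240) (nat_lit 160)) (XT.lf (nat_lit 0) (nat_lit 21703052086) (nat_lit 152) (nat_lit 1619088264) (nat_lit 76) (nat_lit 56043364679) (nat_lit 6) (nat_lit 5) (nat_lit 8) (nat_lit 5) (nat_lit 7) (nat_lit 4) (nat_lit 321) (nat_lit 240) (nat_lit 159)))) (XT.nd (nat_lit 78) (nat_lit 0) (nat_lit 0) (XT.lf (nat_lit 0) (nat_lit 12268728399) (nat_lit 76) (nat_lit 16296605413)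 (nat_lit 152) (nat_lit 54519418867) (nat_lit 5) (nat_lit 5) (nat_lit 6) (nat_lit 5) (nat_lit 7) (nat_lit 4) (nat_lit 322) (nat_lit 240) (nat_lit 158)) (XT.nd (nat_lit 78) (nat_lit 0) (nat_lit 0) (XT.lf (nat_lit 0) (nat_lit 26860697817) (nat_lit 76) (nat_lit 8912791346) (nat_lit 152) (nat_lit 51216404351) (nat_lit 5) (nat_lit 5) (nat_lit 6) (nat_lit 5) (nat_lit 7) (nat_lit 4) (nat_lit 323) (nat_lit 240) (nat_lit 157)) (XT.lf (nat_lit 0) (nat_lit 42159339740) (nat_lit 76) (nat_lit 1169467256) (nat_lit 152) (nat_lit 47761894694) (nat_lit 5) (nat_lit 5) (nat_lit 6) (nat_lit 5) (nat_lit 7) (nat_lit 4) (nat_lit 324) (nat_lit 240) (nat_lit 156)))))) (XT.nd (nat_lit 390) (nat_lit 0) (nat_lit 0) (XT.nd (nat_lit 156) (nat_lit 76) (nat_lit 0) (XT.nd (nat_lit 78) (nat_lit 0) (nat_lit 0) (XT.lf (nat_lit 0) (nat_lit 51316101153) (nat_lit 152) (nat_lit 37262686518) (nat_lit 0) (nat_lit 6816148618) (nat_lit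 5) (nat_lit 5) (nat_lit 7) (nat_lit 4) (nat_lit 5) (nat_lit 4) (nat_lit 325) (nat_lit 240) (nat_lit 155)) (XT.lf (nat_lit 0) (nat_lit 59702465465) (nat_lit 152) (nat_lit 25043463306) (nat_lit 0) (nat_lit 15168474421) (nat_lit 5) (nat_lit 5) (nat_lit 7) (nat_lit 4) (nat_lit 5) (nat_lit 4) (nat_lit 326) (nat_lit 240) (nat_lit 154))) (XT.nd (nat_lit 78) (nat_lit 76) (nat_lit 0) (XT.lf (nat_lit 0) (nat_lit 68496625833) (nat_lit 152) (nat_lit 12233357290) (nat_lit 0) (nat_lit 23930217162) (nat_lit 5) (nat_lit 5) (nat_lit 7) (nat_lit 4) (nat_lit 5) (nat_lit 4) (nat_lit 327) (nat_lit 240) (nat_lit 153)) (XT.nd (nat_lit 78) (nat_lit 0) (nat_lit 0) (XT.lf (nat_lit 0) (nat_lit 1221976951) (nat_lit 76) (nat_lit 76509290171) (nat_lit 76) (nat_lit 31912007569) (nat_lit 4) (nat_lit 4) (nat_lit 5) (nat_lit 5) (nat_lit 5) (nat_lit 4) (nat_lit 328) (nat_lit 240) (nat_lit 152)) (XT.lf (nat_lit 0) (nat_lit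 15587144983) (nat_lit 76) (nat_lit 71955797629) (nat_lit 76) (nat_lit 27329111283) (nat_lit 4) (nat_lit 4) (nat_lit 5) (nat_lit 5) (nat_lit 5) (nat_lit 4) (nat_lit 329) (nat_lit 240) (nat_lit 151))))) (XT.nd (nat_lit 30732) (nat_lit 0) (nat_lit 18012) (XT.nd (nat_lit 30576) (nat_lit 0) (nat_lit 18316) (XT.lf (nat_lit 0) (nat_lit 30652881788) (nat_lit 76) (nat_lit 67182196770) (nat_lit 76) (nat_lit 22527506859) (nat_lit 4) (nat_lit 4) (nat_lit 5) (nat_lit 5) (nat_lit 5) (nat_lit 4) (nat_lit 330) (nat_lit 240) (nat_lit 150)) (XT.nd (nat_lit 78) (nat_lit 228) (nat_lit 0) (XT.lf (nat_lit 0) (nat_lit 1172375867) (nat_lit 228) (nat_lit 1027382162) (nat_lit 228) (nat_lit 1027382162) (nat_lit 248) (nat_lit 3) (nat_lit 251) (nat_lit 3) (nat_lit 251) (nat_lit 5) (nat_lit 241) (nat_lit 241) (nat_lit 238)) (XT.lf (nat_lit 0) (nat_lit 91129992) (nat_lit 228) (nat_lit 3902974123) (nat_lit 304) (nat_lit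 2476912495) (nat_lit 245) (nat_lit 5) (nat_lit 248) (nat_lit 3) (nat_lit 249) (nat_lit 5) (nat_lit 242) (nat_lit 241) (nat_lit 237)))) (XT.nd (nat_lit 78) (nat_lit 304) (nat_lit 0) (XT.lf (nat_lit 76) (nat_lit 804679762) (nat_lit 0) (nat_lit 3372067621) (nat_lit 304) (nat_lit 2319053107) (nat_lit 246) (nat_lit 5) (nat_lit 245) (nat_lit 5) (nat_lit 249) (nat_lit 5) (nat_lit 243) (nat_lit 241) (nat_lit 236)) (XT.nd (nat_lit 78) (nat_lit 0) (nat_lit 0) (XT.lf (nat_lit 0) (nat_lit 1685260444) (nat_lit 304) (nat_lit 858901996) (nat_lit 380) (nat_lit 3984885005) (nat_lit 241) (nat_lit 5) (nat_lit 245) (nat_lit 5) (nat_lit 246) (nat_lit 5) (nat_lit 244) (nat_lit 241) (nat_lit 235)) (XT.lf (nat_lit 76) (nat_lit 4130728036) (nat_lit 0) (nat_lit 1501551441) (nat_lit 380) (nat_lit 938357179) (nat_lit 242) (nat_lit 5) (nat_lit 241) (nat_lit 5) (nat_lit 246) (nat_lit 5) (nat_lit 245) (nat_lit 241) (nat_lit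 234))))))))
noncomputable def xc52 : XT := (XT.nd (nat_lit 1638) (nat_lit 4332) (nat_lit 0) (XT.nd (nat_lit 780) (nat_lit 6764) (nat_lit 0) (XT.nd (nat_lit 390) (nat_lit 3040) (nat_lit 0) (XT.nd (nat_lit 156) (nat_lit 1064) (nat_lit 0) (XT.nd (nat_lit 78) (nat_lit 380) (nat_lit 0) (XT.lf (nat_lit 76) (nat_lit 2651836740) (nat_lit 0) (nat_lit 240709419) (nat_lit 456) (nat_lit 3728090616) (nat_lit 237) (nat_lit 5) (nat_lit 236) (nat_lit 5) (nat_lit 242) (nat_lit 5) (nat_lit 246) (nat_lit 241) (nat_lit 233)) (XT.lf (nat_lit 0) (nat_lit 32037734) (nat_lit 456) (nat_lit 5446821989) (nat_lit 76) (nat_lit 1200449906) (nat_lit 231) (nat_lit 5) (nat_lit 237) (nat_lit 5) (nat_lit 232) (nat_lit 5) (nat_lit 247) (nat_lit 241) (nat_lit 232))) (XT.nd (nat_lit 78) (nat_lit 1064) (nat_lit 0) (XT.lf (nat_lit 0) (nat_lit 3722626554) (nat_lit 456) (nat_lit 152380568) (nat_lit 76) (nat_lit 2871096194) (nat_lit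 231) (nat_lit 5) (nat_lit 237) (nat_lit 5) (nat_lit 232) (nat_lit 5) (nat_lit 248) (nat_lit 241) (nat_lit 231)) (XT.nd (nat_lit 78) (nat_lit 532) (nat_lit 0) (XT.lf (nat_lit 0) (nat_lit 601300161) (nat_lit 532) (nat_lit 1458190668) (nat_lit 76) (nat_lit 4762284063) (nat_lit 224) (nat_lit 5) (nat_lit 231) (nat_lit 5) (nat_lit 225) (nat_lit 5) (nat_lit 249) (nat_lit 241) (nat_lit 230)) (XT.lf (nat_lit 0) (nat_lit 4165339471) (nat_lit 532) (nat_lit 13565416) (nat_lit 608) (nat_lit 2727179558) (nat_lit 217) (nat_lit 5) (nat_lit 224) (nat_lit 5) (nat_lit 225) (nat_lit 5) (nat_lit 250) (nat_lit 241) (nat_lit 229))))) (XT.nd (nat_lit 156) (nat_lit 1672) (nat_lit 0) (XT.nd (nat_lit 78) (nat_lit 684) (nat_lit 0) (XT.lf (nat_lit 0) (nat_lit 785941207) (nat_lit 684) (nat_lit 4008864709) (nat_lit 76) (nat_lit 2204344245) (nat_lit 208) (nat_lit 5) (nat_lit 217) (nat_lit 5) (nat_lit 209) (nat_lit 5) (nat_lit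 251) (nat_lit 241) (nat_lit 228)) (XT.lf (nat_lit 0) (nat_lit 1830574105) (nat_lit 684) (nat_lit 2441097285) (nat_lit 760) (nat_lit 2829470435) (nat_lit 199) (nat_lit 5) (nat_lit 208) (nat_lit 5) (nat_lit 209) (nat_lit 5) (nat_lit 252) (nat_lit 241) (nat_lit 227))) (XT.nd (nat_lit 78) (nat_lit 836) (nat_lit 0) (XT.lf (nat_lit 0) (nat_lit 570939859) (nat_lit 836) (nat_lit 6515555036) (nat_lit 76) (nat_lit 126313373) (nat_lit 188) (nat_lit 5) (nat_lit 199) (nat_lit 5) (nat_lit 189) (nat_lit 5) (nat_lit 253) (nat_lit 241) (nat_lit 226)) (XT.nd (nat_lit 78) (nat_lit 836) (nat_lit 0) (XT.lf (nat_lit 0) (nat_lit 3982753552) (nat_lit 836) (nat_lit 457244730) (nat_lit 76) (nat_lit 2892824089) (nat_lit 188) (nat_lit 5) (nat_lit 199) (nat_lit 5) (nat_lit 189) (nat_lit 5) (nat_lit 254) (nat_lit 241) (nat_lit 225)) (XT.lf (nat_lit 0) (nat_lit 5877059240) (nat_lit 836) (nat_lit 1573092656) (nat_lit 912)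 (nat_lit 12708602) (nat_lit 177) (nat_lit 5) (nat_lit 188) (nat_lit 5) (nat_lit 189) (nat_lit 5) (nat_lit 255) (nat_lit 241) (nat_lit 224)))))) (XT.nd (nat_lit 390) (nat_lit 2432) (nat_lit 0) (XT.nd (nat_lit 156) (nat_lit 2356) (nat_lit 0) (XT.nd (nat_lit 78) (nat_lit 988) (nat_lit 0) (XT.lf (nat_lit 0) (nat_lit 3322920852) (nat_lit 988) (nat_lit 2759115692) (nat_lit 76) (nat_lit 1519901057) (nat_lit 164) (nat_lit 5) (nat_lit 177) (nat_lit 5) (nat_lit 165) (nat_lit 5) (nat_lit 256) (nat_lit 241) (nat_lit 223)) (XT.lf (nat_lit 0) (nat_lit 3793521101) (nat_lit 988) (nat_lit 2940402045) (nat_lit 1064) (nat_lit 1017280724) (nat_lit 151) (nat_lit 5) (nat_lit 164) (nat_lit 5) (nat_lit 165) (nat_lit 5) (nat_lit 257) (nat_lit 241) (nat_lit 222))) (XT.nd (nat_lit 78) (nat_lit 1216) (nat_lit 0) (XT.lf (nat_lit 0) (nat_lit 2263968071) (nat_lit 1140) (nat_lit 5203567053) (nat_lit 76) (nat_lit 443068550)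 (nat_lit 136) (nat_lit 5) (nat_lit 151) (nat_lit 5) (nat_lit 137) (nat_lit 5) (nat_lit 258) (nat_lit 241) (nat_lit 221)) (XT.nd (nat_lit 78) (nat_lit 608) (nat_lit 0) (XT.lf (nat_lit 0) (nat_lit 1557687862) (nat_lit 608) (nat_lit 4067050954) (nat_lit 684) (nat_lit 2455281992) (nat_lit 128) (nat_lit 5) (nat_lit 136) (nat_lit 5) (nat_lit 137) (nat_lit 5) (nat_lit 259) (nat_lit 241) (nat_lit 220)) (XT.lf (nat_lit 0) (nat_lit 364920468) (nat_lit 532) (nat_lit 425295760) (nat_lit 608) (nat_lit 7470483627) (nat_lit 120) (nat_lit 5) (nat_lit 127) (nat_lit 5) (nat_lit 128) (nat_lit 5) (nat_lit 260) (nat_lit 241) (nat_lit 219))))) (XT.nd (nat_lit 234) (nat_lit 1368) (nat_lit 0) (XT.nd (nat_lit 78) (nat_lit 1064) (nat_lit 0) (XT.lf (nat_lit 0) (nat_lit 4108222605) (nat_lit 608) (nat_lit 916703292) (nat_lit 76) (nat_lit 3426318690) (nat_lit 120) (nat_lit 5) (nat_lit 128) (nat_lit 5) (nat_lit 121) (nat_lit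 5) (nat_lit 261) (nat_lit 241) (nat_lit 218)) (XT.nd (nat_lit 78) (nat_lit 532) (nat_lit 0) (XT.lf (nat_lit 0) (nat_lit 6395622893) (nat_lit 532) (nat_lit 1129006103) (nat_lit 608) (nat_lit 1129085324) (nat_lit 113) (nat_lit 5) (nat_lit 120) (nat_lit 5) (nat_lit 121) (nat_lit 5) (nat_lit 262) (nat_lit 241) (nat_lit 217)) (XT.lf (nat_lit 0) (nat_lit 2160366623) (nat_lit 532) (nat_lit 3726659415) (nat_lit 76) (nat_lit 2980219482) (nat_lit 106) (nat_lit 5) (nat_lit 113) (nat_lit 5) (nat_lit 107) (nat_lit 5) (nat_lit 263) (nat_lit 241) (nat_lit 216)))) (XT.nd (nat_lit 78) (nat_lit 912) (nat_lit 0) (XT.lf (nat_lit 0) (nat_lit 3781015771) (nat_lit 456) (nat_lit 1756399541) (nat_lit 532) (nat_lit 3555636588) (nat_lit 100) (nat_lit 5) (nat_lit 106) (nat_lit 5) (nat_lit 107) (nat_lit 5) (nat_lit 264) (nat_lit 241) (nat_lit 215)) (XT.nd (nat_lit 78) (nat_lit 532) (nat_lit 0) (XT.lf (nat_lit 0) (nat_lit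 2297288570) (nat_lit 380) (nat_lit 6751281964) (nat_lit 456) (nat_lit 282933062) (nat_lit 95) (nat_lit 5) (nat_lit 100) (nat_lit 5) (nat_lit 101) (nat_lit 5) (nat_lit 265) (nat_lit 241) (nat_lit 214)) (XT.lf (nat_lit 0) (nat_lit 647857003) (nat_lit 456) (nat_lit 2405844101) (nat_lit 532) (nat_lit 6528701568) (nat_lit 88) (nat_lit 5) (nat_lit 94) (nat_lit 5) (nat_lit 95) (nat_lit 5) (nat_lit 266) (nat_lit 241) (nat_lit 213))))))) (XT.nd (nat_lit 780) (nat_lit 1824) (nat_lit 0) (XT.nd (nat_lit 390) (nat_lit 988) (nat_lit 0) (XT.nd (nat_lit 156) (nat_lit 1064) (nat_lit 0) (XT.nd (nat_lit 78) (nat_lit 456) (nat_lit 0) (XT.lf (nat_lit 0) (nat_lit 6532052383) (nat_lit 532) (nat_lit 1140662358) (nat_lit 76) (nat_lit 2173901112) (nat_lit 88) (nat_lit 5) (nat_lit 95) (nat_lit 5) (nat_lit 89) (nat_lit 5) (nat_lit 267) (nat_lit 241) (nat_lit 212)) (XT.lf (nat_lit 0) (nat_lit 42745580) (nat_lit 456)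 (nat_lit 3096758915) (nat_lit 76) (nat_lit 6985263155) (nat_lit 82) (nat_lit 5) (nat_lit 88) (nat_lit 5) (nat_lit 83) (nat_lit 5) (nat_lit 268) (nat_lit 241) (nat_lit 211))) (XT.nd (nat_lit 78) (nat_lit 684) (nat_lit 0) (XT.lf (nat_lit 0) (nat_lit 3472599213) (nat_lit 456) (nat_lit 5280251659) (nat_lit 76) (nat_lit 1664037189) (nat_lit 77) (nat_lit 5) (nat_lit 83) (nat_lit 5) (nat_lit 78) (nat_lit 5) (nat_lit 269) (nat_lit 241) (nat_lit 210)) (XT.nd (nat_lit 78) (nat_lit 380) (nat_lit 0) (XT.lf (nat_lit 0) (nat_lit 3025307340) (nat_lit 304) (nat_lit 4040108631) (nat_lit 380) (nat_lit 3658685295) (nat_lit 73) (nat_lit 5) (nat_lit 77) (nat_lit 5) (nat_lit 78) (nat_lit 5) (nat_lit 270) (nat_lit 241) (nat_lit 209)) (XT.lf (nat_lit 0) (nat_lit 690846287) (nat_lit 380) (nat_lit 10119230358) (nat_lit 456) (nat_lit 237652284) (nat_lit 68) (nat_lit 5) (nat_lit 73) (nat_lit 5) (nat_lit 74) (nat_lit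 5) (nat_lit 271) (nat_lit 241) (nat_lit 208))))) (XT.nd (nat_lit 156) (nat_lit 608) (nat_lit 0) (XT.nd (nat_lit 78) (nat_lit 304) (nat_lit 0) (XT.lf (nat_lit 0) (nat_lit 3314090511) (nat_lit 456) (nat_lit 1921454571) (nat_lit 76) (nat_lit 6150475410) (nat_lit 67) (nat_lit 5) (nat_lit 73) (nat_lit 5) (nat_lit 68) (nat_lit 5) (nat_lit 272) (nat_lit 241) (nat_lit 207)) (XT.lf (nat_lit 0) (nat_lit 6951531351) (nat_lit 304) (nat_lit 62699697) (nat_lit 380) (nat_lit 4727846869) (nat_lit 63) (nat_lit 5) (nat_lit 67) (nat_lit 5) (nat_lit 68) (nat_lit 5) (nat_lit 273) (nat_lit 241) (nat_lit 206))) (XT.nd (nat_lit 78) (nat_lit 304) (nat_lit 0) (XT.lf (nat_lit 0) (nat_lit 4104599349) (nat_lit 304) (nat_lit 6817667839) (nat_lit 380) (nat_lit 1193168784) (nat_lit 59) (nat_lit 5) (nat_lit 63) (nat_lit 5) (nat_lit 64) (nat_lit 5) (nat_lit 274) (nat_lit 241) (nat_lit 205)) (XT.nd (nat_lit 78) (nat_lit 0)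 (nat_lit 0) (XT.lf (nat_lit 0) (nat_lit 915968500) (nat_lit 228) (nat_lit 1526318304) (nat_lit 304) (nat_lit 10065423932) (nat_lit 55) (nat_lit 5) (nat_lit 58) (nat_lit 5) (nat_lit 59) (nat_lit 5) (nat_lit 275) (nat_lit 241) (nat_lit 204)) (XT.lf (nat_lit 0) (nat_lit 6273771887) (nat_lit 304) (nat_lit 2626482213) (nat_lit 76) (nat_lit 4017985132) (nat_lit 55) (nat_lit 5) (nat_lit 59) (nat_lit 5) (nat_lit 56) (nat_lit 5) (nat_lit 276) (nat_lit 241) (nat_lit 203)))))) (XT.nd (nat_lit 390) (nat_lit 760) (nat_lit 0) (XT.nd (nat_lit 156) (nat_lit 456) (nat_lit 0) (XT.nd (nat_lit 78) (nat_lit 304) (nat_lit 0) (XT.lf (nat_lit 0) (nat_lit 6795400599) (nat_lit 304) (nat_lit 3502812857) (nat_lit 380) (nat_lit 3051193898) (nat_lit 51) (nat_lit 5) (nat_lit 55) (nat_lit 5) (nat_lit 56) (nat_lit 5) (nat_lit 277) (nat_lit 241) (nat_lit 202)) (XT.lf (nat_lit 0) (nat_lit 706330384) (nat_lit 304) (nat_lit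 10940273309) (nat_lit 76) (nat_lit 2155504935) (nat_lit 47) (nat_lit 5) (nat_lit 51) (nat_lit 5) (nat_lit 48) (nat_lit 5) (nat_lit 278) (nat_lit 241) (nat_lit 201))) (XT.nd (nat_lit 78) (nat_lit 456) (nat_lit 0) (XT.lf (nat_lit 0) (nat_lit 4617622311) (nat_lit 304) (nat_lit 1563231575) (nat_lit 76) (nat_lit 8094951143) (nat_lit 47) (nat_lit 5) (nat_lit 51) (nat_lit 5) (nat_lit 48) (nat_lit 5) (nat_lit 279) (nat_lit 241) (nat_lit 200)) (XT.nd (nat_lit 78) (nat_lit 228) (nat_lit 0) (XT.lf (nat_lit 0) (nat_lit 8344133555) (nat_lit 228) (nat_lit 389047288) (nat_lit 304) (nat_lit 6039874061) (nat_lit 44) (nat_lit 5) (nat_lit 47) (nat_lit 5) (nat_lit 48) (nat_lit 5) (nat_lit 280) (nat_lit 241) (nat_lit 199)) (XT.lf (nat_lit 0) (nat_lit 3395877591) (nat_lit 228) (nat_lit 9692921972) (nat_lit 304) (nat_lit 2205462783) (nat_lit 41) (nat_lit 5) (nat_lit 44) (nat_lit 5) (nat_lit 45) (nat_lit 5) (nat_lit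 281) (nat_lit 241) (nat_lit 198))))) (XT.nd (nat_lit 234) (nat_lit 304) (nat_lit 0) (XT.nd (nat_lit 78) (nat_lit 380) (nat_lit 0) (XT.lf (nat_lit 0) (nat_lit 1788158563) (nat_lit 304) (nat_lit 2114311706) (nat_lit 76) (nat_lit 11938558557) (nat_lit 40) (nat_lit 5) (nat_lit 44) (nat_lit 5) (nat_lit 41) (nat_lit 5) (nat_lit 282) (nat_lit 241) (nat_lit 197)) (XT.nd (nat_lit 78) (nat_lit 152) (nat_lit 0) (XT.lf (nat_lit 0) (nat_lit 5972248500) (nat_lit 304) (nat_lit 8233259912) (nat_lit 76) (nat_lit 2207986924) (nat_lit 37) (nat_lit 5) (nat_lit 41) (nat_lit 5) (nat_lit 38) (nat_lit 5) (nat_lit 283) (nat_lit 241) (nat_lit 196)) (XT.lf (nat_lit 0) (nat_lit 1924484787) (nat_lit 152) (nat_lit 8458319411) (nat_lit 228) (nat_lit 6631366744) (nat_lit 35) (nat_lit 5) (nat_lit 37) (nat_lit 5) (nat_lit 38) (nat_lit 5) (nat_lit 284) (nat_lit 241) (nat_lit 195)))) (XT.nd (nat_lit 78) (nat_lit 304) (nat_lit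 0) (XT.lf (nat_lit 0) (nat_lit 12671614569) (nat_lit 152) (nat_lit 2366530992) (nat_lit 228) (nat_lit 2606105707) (nat_lit 35) (nat_lit 5) (nat_lit 37) (nat_lit 5) (nat_lit 38) (nat_lit 5) (nat_lit 285) (nat_lit 241) (nat_lit 194)) (XT.nd (nat_lit 78) (nat_lit 0) (nat_lit 0) (XT.lf (nat_lit 0) (nat_lit 1624053588) (nat_lit 304) (nat_lit 12687128820) (nat_lit 76) (nat_lit 3993219486) (nat_lit 31) (nat_lit 5) (nat_lit 35) (nat_lit 5) (nat_lit 32) (nat_lit 5) (nat_lit 286) (nat_lit 241) (nat_lit 193)) (XT.lf (nat_lit 0) (nat_lit 6031309915) (nat_lit 304) (nat_lit 2292614526) (nat_lit 76) (nat_lit 10672363792) (nat_lit 31) (nat_lit 5) (nat_lit 35) (nat_lit 5) (nat_lit 32) (nat_lit 5) (nat_lit 287) (nat_lit 241) (nat_lit 192))))))))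
noncomputable def xc53 : XT := (XT.nd (nat_lit 1638) (nat_lit 608) (nat_lit 0) (XT.nd (nat_lit 780) (nat_lit 532) (nat_lit 0) (XT.nd (nat_lit 390) (nat_lit 380) (nat_lit 0) (XT.nd (nat_lit 156) (nat_lit 380) (nat_lit 0) (XT.nd (nat_lit 78) (nat_lit 0) (nat_lit 0) (XT.lf (nat_lit 0) (nat_lit 8709206698) (nat_lit 152) (nat_lit 1979540205) (nat_lit 228) (nat_lit 9033210210) (nat_lit 29) (nat_lit 5) (nat_lit 31) (nat_lit 5) (nat_lit 32) (nat_lit 5) (nat_lit 288) (nat_lit 241) (nat_lit 191)) (XT.lf (nat_lit 0) (nat_lit 15595525732) (nat_lit 228) (nat_lit 300793487) (nat_lit 76) (nat_lit 4587174934) (nat_lit 29) (nat_lit 5) (nat_lit 32) (nat_lit 5) (nat_lit 30) (nat_lit 5) (nat_lit 289) (nat_lit 241) (nat_lit 190))) (XT.nd (nat_lit 78) (nat_lit 228) (nat_lit 0) (XT.lf (nat_lit 0) (nat_lit 11065198980) (nat_lit 152) (nat_lit 9758912838) (nat_lit 228) (nat_lit 456777239) (nat_lit 27) (nat_lit 5)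 (nat_lit 29) (nat_lit 5) (nat_lit 30) (nat_lit 5) (nat_lit 290) (nat_lit 241) (nat_lit 189)) (XT.nd (nat_lit 78) (nat_lit 0) (nat_lit 0) (XT.lf (nat_lit 0) (nat_lit 786373347) (nat_lit 152) (nat_lit 3289634502) (nat_lit 228) (nat_lit 18042147849) (nat_lit 24) (nat_lit 5) (nat_lit 26) (nat_lit 5) (nat_lit 27) (nat_lit 5) (nat_lit 291) (nat_lit 241) (nat_lit 188)) (XT.lf (nat_lit 0) (nat_lit 8918527270) (nat_lit 228) (nat_lit 10556795209) (nat_lit 76) (nat_lit 3519117359) (nat_lit 24) (nat_lit 5) (nat_lit 27) (nat_lit 5) (nat_lit 25) (nat_lit 5) (nat_lit 292) (nat_lit 241) (nat_lit 187))))) (XT.nd (nat_lit 156) (nat_lit 228) (nat_lit 0) (XT.nd (nat_lit 78) (nat_lit 0) (nat_lit 0) (XT.lf (nat_lit 0) (nat_lit 664945481) (nat_lit 152) (nat_lit 13332657722) (nat_lit 228) (nat_lit 9917165018) (nat_lit 22) (nat_lit 5) (nat_lit 24) (nat_lit 5) (nat_lit 25) (nat_lit 5) (nat_lit 293) (nat_lit 241)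 (nat_lit 186)) (XT.lf (nat_lit 0) (nat_lit 12598668185) (nat_lit 152) (nat_lit 6796953821) (nat_lit 228) (nat_lit 5483601302) (nat_lit 22) (nat_lit 5) (nat_lit 24) (nat_lit 5) (nat_lit 25) (nat_lit 5) (nat_lit 294) (nat_lit 241) (nat_lit 185))) (XT.nd (nat_lit 78) (nat_lit 228) (nat_lit 0) (XT.lf (nat_lit 0) (nat_lit 25022329804) (nat_lit 228) (nat_lit 830912444) (nat_lit 76) (nat_lit 39952360) (nat_lit 22) (nat_lit 5) (nat_lit 25) (nat_lit 5) (nat_lit 23) (nat_lit 4) (nat_lit 295) (nat_lit 241) (nat_lit 184)) (XT.nd (nat_lit 78) (nat_lit 0) (nat_lit 0) (XT.lf (nat_lit 0) (nat_lit 4033464543) (nat_lit 228) (nat_lit 15714901427) (nat_lit 76) (nat_lit 7204251496) (nat_lit 19) (nat_lit 5) (nat_lit 22) (nat_lit 5) (nat_lit 20) (nat_lit 5) (nat_lit 296) (nat_lit 241) (nat_lit 183)) (XT.lf (nat_lit 0) (nat_lit 9134820964) (nat_lit 228) (nat_lit 4209720423) (nat_lit 76) (nat_lit 14721167047) (nat_lit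 19) (nat_lit 5) (nat_lit 22) (nat_lit 5) (nat_lit 20) (nat_lit 5) (nat_lit 297) (nat_lit 241) (nat_lit 182)))))) (XT.nd (nat_lit 390) (nat_lit 228) (nat_lit 0) (XT.nd (nat_lit 156) (nat_lit 152) (nat_lit 0) (XT.nd (nat_lit 78) (nat_lit 0) (nat_lit 0) (XT.lf (nat_lit 0) (nat_lit 7965944279) (nat_lit 152) (nat_lit 6564746648) (nat_lit 228) (nat_lit 14702627542) (nat_lit 17) (nat_lit 5) (nat_lit 19) (nat_lit 5) (nat_lit 20) (nat_lit 5) (nat_lit 298) (nat_lit 241) (nat_lit 181)) (XT.lf (nat_lit 0) (nat_lit 20209305498) (nat_lit 228) (nat_lit 9684800501) (nat_lit 76) (nat_lit 564860081) (nat_lit 17) (nat_lit 5) (nat_lit 20) (nat_lit 5) (nat_lit 18) (nat_lit 4) (nat_lit 299) (nat_lit 241) (nat_lit 180))) (XT.nd (nat_lit 78) (nat_lit 76) (nat_lit 0) (XT.lf (nat_lit 0) (nat_lit 2400921749) (nat_lit 76) (nat_lit 23825849602) (nat_lit 152) (nat_lit 5517520543) (nat_lit 16) (nat_lit 5) (nat_lit 17)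 (nat_lit 5) (nat_lit 18) (nat_lit 4) (nat_lit 300) (nat_lit 241) (nat_lit 179)) (XT.nd (nat_lit 78) (nat_lit 76) (nat_lit 0) (XT.lf (nat_lit 0) (nat_lit 15238364383) (nat_lit 76) (nat_lit 17373135185) (nat_lit 152) (nat_lit 480434124) (nat_lit 16) (nat_lit 5) (nat_lit 17) (nat_lit 5) (nat_lit 18) (nat_lit 4) (nat_lit 301) (nat_lit 241) (nat_lit 178)) (XT.lf (nat_lit 0) (nat_lit 4682601293) (nat_lit 152) (nat_lit 5888510255) (nat_lit 76) (nat_lit 23935459836) (nat_lit 15) (nat_lit 5) (nat_lit 17) (nat_lit 5) (nat_lit 16) (nat_lit 5) (nat_lit 302) (nat_lit 241) (nat_lit 177))))) (XT.nd (nat_lit 234) (nat_lit 76) (nat_lit 0) (XT.nd (nat_lit 78) (nat_lit 0) (nat_lit 0) (XT.lf (nat_lit 0) (nat_lit 6751207741) (nat_lit 152) (nat_lit 3377087025) (nat_lit 228) (nat_lit 25862506648) (nat_lit 13) (nat_lit 5) (nat_lit 15) (nat_lit 5) (nat_lit 16) (nat_lit 5) (nat_lit 303) (nat_lit 241) (nat_lit 176))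 (XT.nd (nat_lit 78) (nat_lit 0) (nat_lit 0) (XT.lf (nat_lit 0) (nat_lit 15917887822) (nat_lit 228) (nat_lit 17491981329) (nat_lit 76) (nat_lit 4137260043) (nat_lit 13) (nat_lit 5) (nat_lit 16) (nat_lit 5) (nat_lit 14) (nat_lit 4) (nat_lit 304) (nat_lit 241) (nat_lit 175)) (XT.lf (nat_lit 0) (nat_lit 22002712302) (nat_lit 228) (nat_lit 5238476505) (nat_lit 76) (nat_lit 11939945044) (nat_lit 13) (nat_lit 5) (nat_lit 16) (nat_lit 5) (nat_lit 14) (nat_lit 4) (nat_lit 305) (nat_lit 241) (nat_lit 174)))) (XT.nd (nat_lit 78) (nat_lit 0) (nat_lit 0) (XT.lf (nat_lit 0) (nat_lit 7733466214) (nat_lit 76) (nat_lit 20705665852) (nat_lit 152) (nat_lit 12456317524) (nat_lit 12) (nat_lit 5) (nat_lit 13) (nat_lit 5) (nat_lit 14) (nat_lit 4) (nat_lit 306) (nat_lit 241) (nat_lit 173)) (XT.nd (nat_lit 78) (nat_lit 0) (nat_lit 0) (XT.lf (nat_lit 0) (nat_lit 21419623773) (nat_lit 76) (nat_lit 13805553255) (nat_lit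 152) (nat_lit 7469499931) (nat_lit 12) (nat_lit 5) (nat_lit 13) (nat_lit 5) (nat_lit 14) (nat_lit 4) (nat_lit 307) (nat_lit 241) (nat_lit 172)) (XT.lf (nat_lit 0) (nat_lit 35748326306) (nat_lit 76) (nat_lit 6577320521) (nat_lit 152) (nat_lit 2258993736) (nat_lit 12) (nat_lit 5) (nat_lit 13) (nat_lit 5) (nat_lit 14) (nat_lit 4) (nat_lit 308) (nat_lit 241) (nat_lit 171))))))) (XT.nd (nat_lit 858) (nat_lit 152) (nat_lit 0) (XT.nd (nat_lit 390) (nat_lit 152) (nat_lit 0) (XT.nd (nat_lit 156) (nat_lit 76) (nat_lit 0) (XT.nd (nat_lit 78) (nat_lit 0) (nat_lit 0) (XT.lf (nat_lit 0) (nat_lit 3176406076) (nat_lit 228) (nat_lit 42342117346) (nat_lit 76) (nat_lit 1048867632) (nat_lit 9) (nat_lit 5) (nat_lit 12) (nat_lit 5) (nat_lit 10) (nat_lit 4) (nat_lit 309) (nat_lit 241) (nat_lit 170)) (XT.lf (nat_lit 0) (nat_lit 8972197307) (nat_lit 228) (nat_lit 30651734267) (nat_lit 76) (nat_lit 9020641418) (nat_lit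 9) (nat_lit 5) (nat_lit 12) (nat_lit 5) (nat_lit 10) (nat_lit 4) (nat_lit 310) (nat_lit 241) (nat_lit 169))) (XT.nd (nat_lit 78) (nat_lit 76) (nat_lit 0) (XT.lf (nat_lit 0) (nat_lit 15035547075) (nat_lit 228) (nat_lit 18414632446) (nat_lit 76) (nat_lit 17376125374) (nat_lit 9) (nat_lit 5) (nat_lit 12) (nat_lit 5) (nat_lit 10) (nat_lit 4) (nat_lit 311) (nat_lit 241) (nat_lit 168)) (XT.nd (nat_lit 78) (nat_lit 76) (nat_lit 0) (XT.lf (nat_lit 0) (nat_lit 21380891927) (nat_lit 228) (nat_lit 5601675928) (nat_lit 76) (nat_lit 26135213509) (nat_lit 9) (nat_lit 5) (nat_lit 12) (nat_lit 5) (nat_lit 10) (nat_lit 4) (nat_lit 312) (nat_lit 241) (nat_lit 167)) (XT.lf (nat_lit 0) (nat_lit 7973228736) (nat_lit 76) (nat_lit 20126754643) (nat_lit 152) (nat_lit 27422175611) (nat_lit 8) (nat_lit 5) (nat_lit 9) (nat_lit 5) (nat_lit 10) (nat_lit 4) (nat_lit 313) (nat_lit 241) (nat_lit 166))))) (XT.nd (nat_lit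 234) (nat_lit 152) (nat_lit 0) (XT.nd (nat_lit 78) (nat_lit 0) (nat_lit 0) (XT.lf (nat_lit 0) (nat_lit 22310633902) (nat_lit 76) (nat_lit 12882535688) (nat_lit 152) (nat_lit 22852462382) (nat_lit 8) (nat_lit 5) (nat_lit 9) (nat_lit 5) (nat_lit 10) (nat_lit 4) (nat_lit 314) (nat_lit 241) (nat_lit 165)) (XT.nd (nat_lit 78) (nat_lit 0) (nat_lit 0) (XT.lf (nat_lit 0) (nat_lit 37333191911) (nat_lit 76) (nat_lit 5289228793) (nat_lit 152) (nat_lit 18073435423) (nat_lit 8) (nat_lit 5) (nat_lit 9) (nat_lit 5) (nat_lit 10) (nat_lit 4) (nat_lit 315) (nat_lit 241) (nat_lit 164)) (XT.lf (nat_lit 0) (nat_lit 50431103061) (nat_lit 152) (nat_lit 10428148402) (nat_lit 0) (nat_lit 2619119724) (nat_lit 8) (nat_lit 5) (nat_lit 10) (nat_lit 4) (nat_lit 8) (nat_lit 4) (nat_lit 316) (nat_lit 241) (nat_lit 163)))) (XT.nd (nat_lit 78) (nat_lit 76) (nat_lit 0) (XT.lf (nat_lit 0) (nat_lit 3131639250) (nat_lit 76)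 (nat_lit 55565088892) (nat_lit 76) (nat_lit 7701306463) (nat_lit 7) (nat_lit 4) (nat_lit 8) (nat_lit 5) (nat_lit 8) (nat_lit 4) (nat_lit 317) (nat_lit 241) (nat_lit 162)) (XT.nd (nat_lit 78) (nat_lit 76) (nat_lit 0) (XT.lf (nat_lit 0) (nat_lit 17558992255) (nat_lit 76) (nat_lit 49907546855) (nat_lit 76) (nat_lit 1994431958) (nat_lit 7) (nat_lit 4) (nat_lit 8) (nat_lit 5) (nat_lit 8) (nat_lit 4) (nat_lit 318) (nat_lit 241) (nat_lit 161)) (XT.lf (nat_lit 0) (nat_lit 3903943207) (nat_lit 152) (nat_lit 40035093487) (nat_lit 76) (nat_lit 28737355471) (nat_lit 6) (nat_lit 5) (nat_lit 8) (nat_lit 5) (nat_lit 7) (nat_lit 4) (nat_lit 319) (nat_lit 241) (nat_lit 160)))))) (XT.nd (nat_lit 390) (nat_lit 76) (nat_lit 0) (XT.nd (nat_lit 156) (nat_lit 76) (nat_lit 0) (XT.nd (nat_lit 78) (nat_lit 0) (nat_lit 0) (XT.lf (nat_lit 0) (nat_lit 10041294698) (nat_lit 152) (nat_lit 27621015965) (nat_lit 76) (nat_lit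 38390137067) (nat_lit 6) (nat_lit 5) (nat_lit 8) (nat_lit 5) (nat_lit 7) (nat_lit 4) (nat_lit 320) (nat_lit 241) (nat_lit 159)) (XT.lf (nat_lit 0) (nat_lit 16471153804) (nat_lit 152) (nat_lit 14611017220) (nat_lit 76) (nat_lit 48515580115) (nat_lit 6) (nat_lit 5) (nat_lit 8) (nat_lit 5) (nat_lit 7) (nat_lit 4) (nat_lit 321) (nat_lit 241) (nat_lit 158))) (XT.nd (nat_lit 78) (nat_lit 76) (nat_lit 0) (XT.lf (nat_lit 0) (nat_lit 23208829715) (nat_lit 152) (nat_lit 974121064) (nat_lit 76) (nat_lit 59137792812) (nat_lit 6) (nat_lit 5) (nat_lit 8) (nat_lit 5) (nat_lit 7) (nat_lit 4) (nat_lit 322) (nat_lit 241) (nat_lit 157)) (XT.nd (nat_lit 78) (nat_lit 0) (nat_lit 0) (XT.lf (nat_lit 0) (nat_lit 13587278036) (nat_lit 76) (nat_lit 16813695708) (nat_lit 152) (nat_lit 56825397335) (nat_lit 5) (nat_lit 5) (nat_lit 6) (nat_lit 5) (nat_lit 7) (nat_lit 4) (nat_lit 323) (nat_lit 241) (nat_lit 156)) (XT.lf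 (nat_lit 0) (nat_lit 28875269104) (nat_lit 76) (nat_lit 9074869032) (nat_lit 152) (nat_lit 53377231735) (nat_lit 5) (nat_lit 5) (nat_lit 6) (nat_lit 5) (nat_lit 7) (nat_lit 4) (nat_lit 324) (nat_lit 241) (nat_lit 155))))) (XT.nd (nat_lit 234) (nat_lit 76) (nat_lit 0) (XT.nd (nat_lit 78) (nat_lit 0) (nat_lit 0) (XT.lf (nat_lit 0) (nat_lit 44906865200) (nat_lit 76) (nat_lit 957881685) (nat_lit 152) (nat_lit 49769043873) (nat_lit 5) (nat_lit 5) (nat_lit 6) (nat_lit 5) (nat_lit 7) (nat_lit 4) (nat_lit 325) (nat_lit 241) (nat_lit 154)) (XT.nd (nat_lit 78) (nat_lit 0) (nat_lit 0) (XT.lf (nat_lit 0) (nat_lit 54236282887) (nat_lit 152) (nat_lit 38508288922) (nat_lit 0) (nat_lit 7409136155) (nat_lit 5) (nat_lit 5) (nat_lit 7) (nat_lit 4) (nat_lit 5) (nat_lit 4) (nat_lit 326) (nat_lit 241) (nat_lit 153)) (XT.lf (nat_lit 0) (nat_lit 63025090335) (nat_lit 152) (nat_lit 25707510831) (nat_lit 0) (nat_lit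 16167069672) (nat_lit 5) (nat_lit 5) (nat_lit 7) (nat_lit 4) (nat_lit 5) (nat_lit 4) (nat_lit 327) (nat_lit 241) (nat_lit 152)))) (XT.nd (nat_lit 78) (nat_lit 76) (nat_lit 0) (XT.lf (nat_lit 0) (nat_lit 72242887217) (nat_lit 152) (nat_lit 12284905498) (nat_lit 0) (nat_lit 25355462810) (nat_lit 5) (nat_lit 5) (nat_lit 7) (nat_lit 4) (nat_lit 5) (nat_lit 4) (nat_lit 328) (nat_lit 241) (nat_lit 151)) (XT.nd (nat_lit 78) (nat_lit 0) (nat_lit 0) (XT.lf (nat_lit 0) (nat_lit 1827139739) (nat_lit 76) (nat_lit 80102044513) (nat_lit 76) (nat_lit 33186616541) (nat_lit 4) (nat_lit 4) (nat_lit 5) (nat_lit 5) (nat_lit 5) (nat_lit 4) (nat_lit 329) (nat_lit 241) (nat_lit 150)) (XT.lf (nat_lit 0) (nat_lit 16884658366) (nat_lit 76) (nat_lit 75331958780) (nat_lit 76) (nat_lit 28389860746) (nat_lit 4) (nat_lit 4) (nat_lit 5) (nat_lit 5) (nat_lit 5) (nat_lit 4) (nat_lit 330) (nat_lit 241) (nat_lit 149))))))))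
noncomputable def xc54 : XT := (XT.nd (nat_lit 1638) (nat_lit 5776) (nat_lit 0) (XT.nd (nat_lit 780) (nat_lit 7220) (nat_lit 0) (XT.nd (nat_lit 390) (nat_lit 2128) (nat_lit 0) (XT.nd (nat_lit 156) (nat_lit 304) (nat_lit 0) (XT.nd (nat_lit 78) (nat_lit 380) (nat_lit 0) (XT.lf (nat_lit 0) (nat_lit 1017650958) (nat_lit 0) (nat_lit 1017650958) (nat_lit 228) (nat_lit 1210396606) (nat_lit 245) (nat_lit 5) (nat_lit 245) (nat_lit 3) (nat_lit 248) (nat_lit 3) (nat_lit 242) (nat_lit 242) (nat_lit 236)) (XT.lf (nat_lit 76) (nat_lit 163575577) (nat_lit 0) (nat_lit 1304060123) (nat_lit 380) (nat_lit 5052838658) (nat_lit 241) (nat_lit 5) (nat_lit 240) (nat_lit 3) (nat_lit 245) (nat_lit 5) (nat_lit 243) (nat_lit 242) (nat_lit 235))) (XT.nd (nat_lit 78) (nat_lit 304) (nat_lit 0) (XT.lf (nat_lit 76) (nat_lit 4950784470) (nat_lit 0) (nat_lit 344885901) (nat_lit 380) (nat_lit 1261840892) (nat_lit 241) (nat_lit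 5) (nat_lit 240) (nat_lit 3) (nat_lit 245) (nat_lit 5) (nat_lit 244) (nat_lit 242) (nat_lit 234)) (XT.nd (nat_lit 78) (nat_lit 0) (nat_lit 0) (XT.lf (nat_lit 0) (nat_lit 2462986207) (nat_lit 380) (nat_lit 3323164429) (nat_lit 456) (nat_lit 816546144) (nat_lit 236) (nat_lit 5) (nat_lit 241) (nat_lit 5) (nat_lit 242) (nat_lit 5) (nat_lit 245) (nat_lit 242) (nat_lit 233)) (XT.lf (nat_lit 76) (nat_lit 1673964668) (nat_lit 0) (nat_lit 4479550131) (nat_lit 456) (nat_lit 503038327) (nat_lit 237) (nat_lit 5) (nat_lit 236) (nat_lit 5) (nat_lit 242) (nat_lit 5) (nat_lit 246) (nat_lit 242) (nat_lit 232))))) (XT.nd (nat_lit 156) (nat_lit 1672) (nat_lit 0) (XT.nd (nat_lit 78) (nat_lit 0) (nat_lit 0) (XT.lf (nat_lit 76) (nat_lit 110473775) (nat_lit 0) (nat_lit 2951589880) (nat_lit 532) (nat_lit 3656624986) (nat_lit 231) (nat_lit 5) (nat_lit 230) (nat_lit 5) (nat_lit 237) (nat_lit 5) (nat_lit 247) (nat_lit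 242) (nat_lit 231)) (XT.lf (nat_lit 76) (nat_lit 5423290473) (nat_lit 0) (nat_lit 1208143281) (nat_lit 532) (nat_lit 158094542) (nat_lit 231) (nat_lit 5) (nat_lit 230) (nat_lit 5) (nat_lit 237) (nat_lit 5) (nat_lit 248) (nat_lit 242) (nat_lit 230))) (XT.nd (nat_lit 78) (nat_lit 1216) (nat_lit 0) (XT.lf (nat_lit 0) (nat_lit 3285631228) (nat_lit 532) (nat_lit 2825438510) (nat_lit 76) (nat_lit 757436488) (nat_lit 224) (nat_lit 5) (nat_lit 231) (nat_lit 5) (nat_lit 225) (nat_lit 5) (nat_lit 249) (nat_lit 242) (nat_lit 229)) (XT.nd (nat_lit 78) (nat_lit 684) (nat_lit 0) (XT.lf (nat_lit 0) (nat_lit 2703238985) (nat_lit 532) (nat_lit 4049270529) (nat_lit 608) (nat_lit 203988583) (nat_lit 217) (nat_lit 5) (nat_lit 224) (nat_lit 5) (nat_lit 225) (nat_lit 5) (nat_lit 250) (nat_lit 242) (nat_lit 228)) (XT.lf (nat_lit 0) (nat_lit 1377242079) (nat_lit 608) (nat_lit 1751380784) (nat_lit 684) (nat_lit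 3924484860) (nat_lit 208) (nat_lit 5) (nat_lit 216) (nat_lit 5) (nat_lit 217) (nat_lit 5) (nat_lit 251) (nat_lit 242) (nat_lit 227)))))) (XT.nd (nat_lit 390) (nat_lit 3876) (nat_lit 0) (XT.nd (nat_lit 156) (nat_lit 2584) (nat_lit 0) (XT.nd (nat_lit 78) (nat_lit 76) (nat_lit 0) (XT.lf (nat_lit 0) (nat_lit 78236016) (nat_lit 684) (nat_lit 6412590415) (nat_lit 760) (nat_lit 668296238) (nat_lit 199) (nat_lit 5) (nat_lit 208) (nat_lit 5) (nat_lit 209) (nat_lit 5) (nat_lit 252) (nat_lit 242) (nat_lit 226)) (XT.lf (nat_lit 0) (nat_lit 2594635724) (nat_lit 760) (nat_lit 1214257069) (nat_lit 76) (nat_lit 3464425822) (nat_lit 198) (nat_lit 5) (nat_lit 208) (nat_lit 5) (nat_lit 199) (nat_lit 5) (nat_lit 253) (nat_lit 242) (nat_lit 225))) (XT.nd (nat_lit 78) (nat_lit 1824) (nat_lit 0) (XT.lf (nat_lit 0) (nat_lit 4901727001) (nat_lit 760) (nat_lit 981866464) (nat_lit 836) (nat_lit 1513704512) (nat_lit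 188) (nat_lit 5) (nat_lit 198) (nat_lit 5) (nat_lit 199) (nat_lit 5) (nat_lit 254) (nat_lit 242) (nat_lit 224)) (XT.nd (nat_lit 78) (nat_lit 912) (nat_lit 0) (XT.lf (nat_lit 0) (nat_lit 1677073827) (nat_lit 912) (nat_lit 3806636606) (nat_lit 76) (nat_lit 2046688153) (nat_lit 176) (nat_lit 5) (nat_lit 188) (nat_lit 5) (nat_lit 177) (nat_lit 5) (nat_lit 255) (nat_lit 242) (nat_lit 223)) (XT.lf (nat_lit 0) (nat_lit 2526014756) (nat_lit 912) (nat_lit 2371620455) (nat_lit 988) (nat_lit 2775527617) (nat_lit 164) (nat_lit 5) (nat_lit 176) (nat_lit 5) (nat_lit 177) (nat_lit 5) (nat_lit 256) (nat_lit 242) (nat_lit 222))))) (XT.nd (nat_lit 234) (nat_lit 1748) (nat_lit 0) (XT.nd (nat_lit 78) (nat_lit 1064) (nat_lit 0) (XT.lf (nat_lit 0) (nat_lit 354334697) (nat_lit 1064) (nat_lit 6516249035) (nat_lit 76) (nat_lit 955604382) (nat_lit 150) (nat_lit 5) (nat_lit 164) (nat_lit 5) (nat_lit 151) (nat_lit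 5) (nat_lit 257) (nat_lit 242) (nat_lit 221)) (XT.nd (nat_lit 78) (nat_lit 0) (nat_lit 0) (XT.lf (nat_lit 0) (nat_lit 24605698) (nat_lit 1064) (nat_lit 3488626731) (nat_lit 1140) (nat_lit 4475353942) (nat_lit 136) (nat_lit 5) (nat_lit 150) (nat_lit 5) (nat_lit 151) (nat_lit 5) (nat_lit 258) (nat_lit 242) (nat_lit 220)) (XT.lf (nat_lit 0) (nat_lit 6756044039) (nat_lit 1140) (nat_lit 1266162507) (nat_lit 76) (nat_lit 139542216) (nat_lit 136) (nat_lit 5) (nat_lit 151) (nat_lit 5) (nat_lit 137) (nat_lit 5) (nat_lit 259) (nat_lit 242) (nat_lit 219)))) (XT.nd (nat_lit 78) (nat_lit 1064) (nat_lit 0) (XT.lf (nat_lit 0) (nat_lit 1735649197) (nat_lit 684) (nat_lit 2649520326) (nat_lit 76) (nat_lit 3959656431) (nat_lit 127) (nat_lit 5) (nat_lit 136) (nat_lit 5) (nat_lit 128) (nat_lit 5) (nat_lit 260) (nat_lit 242) (nat_lit 218)) (XT.nd (nat_lit 78) (nat_lit 532) (nat_lit 0) (XT.lf (nat_lit 0) (nat_lit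 4437662902) (nat_lit 532) (nat_lit 491408269) (nat_lit 608) (nat_lit 3610218879) (nat_lit 120) (nat_lit 5) (nat_lit 127) (nat_lit 5) (nat_lit 128) (nat_lit 5) (nat_lit 261) (nat_lit 242) (nat_lit 217)) (XT.lf (nat_lit 0) (nat_lit 3087589935) (nat_lit 532) (nat_lit 5159450296) (nat_lit 608) (nat_lit 497845844) (nat_lit 113) (nat_lit 5) (nat_lit 120) (nat_lit 5) (nat_lit 121) (nat_lit 5) (nat_lit 262) (nat_lit 242) (nat_lit 216))))))) (XT.nd (nat_lit 858) (nat_lit 1976) (nat_lit 0) (XT.nd (nat_lit 390) (nat_lit 1900) (nat_lit 0) (XT.nd (nat_lit 156) (nat_lit 912) (nat_lit 0) (XT.nd (nat_lit 78) (nat_lit 456) (nat_lit 0) (XT.lf (nat_lit 0) (nat_lit 1633558290) (nat_lit 456) (nat_lit 1022202537) (nat_lit 532) (nat_lit 6306340361) (nat_lit 106) (nat_lit 5) (nat_lit 112) (nat_lit 5) (nat_lit 113) (nat_lit 5) (nat_lit 263) (nat_lit 242) (nat_lit 215)) (XT.lf (nat_lit 0) (nat_lit 53326667) (nat_lit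 456) (nat_lit 5875771634) (nat_lit 532) (nat_lit 3262073102) (nat_lit 100) (nat_lit 5) (nat_lit 106) (nat_lit 5) (nat_lit 107) (nat_lit 5) (nat_lit 264) (nat_lit 242) (nat_lit 214))) (XT.nd (nat_lit 78) (nat_lit 912) (nat_lit 0) (XT.lf (nat_lit 0) (nat_lit 7821681106) (nat_lit 456) (nat_lit 1515534512) (nat_lit 532) (nat_lit 95643854) (nat_lit 100) (nat_lit 5) (nat_lit 106) (nat_lit 5) (nat_lit 107) (nat_lit 5) (nat_lit 265) (nat_lit 242) (nat_lit 213)) (XT.nd (nat_lit 78) (nat_lit 456) (nat_lit 0) (XT.lf (nat_lit 0) (nat_lit 3146069643) (nat_lit 456) (nat_lit 3456500097) (nat_lit 76) (nat_lit 3084007068) (nat_lit 94) (nat_lit 5) (nat_lit 100) (nat_lit 5) (nat_lit 95) (nat_lit 5) (nat_lit 266) (nat_lit 242) (nat_lit 212)) (XT.lf (nat_lit 0) (nat_lit 4494265482) (nat_lit 456) (nat_lit 2022452152) (nat_lit 532) (nat_lit 3437431351) (nat_lit 88) (nat_lit 5) (nat_lit 94) (nat_lit 5) (nat_lit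 95) (nat_lit 5) (nat_lit 267) (nat_lit 242) (nat_lit 211))))) (XT.nd (nat_lit 234) (nat_lit 1064) (nat_lit 0) (XT.nd (nat_lit 78) (nat_lit 456) (nat_lit 0) (XT.lf (nat_lit 0) (nat_lit 2582748709) (nat_lit 380) (nat_lit 7458041058) (nat_lit 456) (nat_lit 195012954) (nat_lit 83) (nat_lit 5) (nat_lit 88) (nat_lit 5) (nat_lit 89) (nat_lit 5) (nat_lit 268) (nat_lit 242) (nat_lit 210)) (XT.nd (nat_lit 78) (nat_lit 0) (nat_lit 0) (XT.lf (nat_lit 0) (nat_lit 448663412) (nat_lit 380) (nat_lit 2679607932) (nat_lit 456) (nat_lit 7403131895) (nat_lit 77) (nat_lit 5) (nat_lit 82) (nat_lit 5) (nat_lit 83) (nat_lit 5) (nat_lit 269) (nat_lit 242) (nat_lit 209)) (XT.lf (nat_lit 0) (nat_lit 6619097995) (nat_lit 456) (nat_lit 1868752627) (nat_lit 76) (nat_lit 2353932788) (nat_lit 77) (nat_lit 5) (nat_lit 83) (nat_lit 5) (nat_lit 78) (nat_lit 5) (nat_lit 270) (nat_lit 242) (nat_lit 208)))) (XT.nd (nat_lit 78)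 (nat_lit 760) (nat_lit 0) (XT.lf (nat_lit 0) (nat_lit 6746726520) (nat_lit 304) (nat_lit 3537582392) (nat_lit 380) (nat_lit 883587810) (nat_lit 73) (nat_lit 5) (nat_lit 77) (nat_lit 5) (nat_lit 78) (nat_lit 5) (nat_lit 271) (nat_lit 242) (nat_lit 207)) (XT.nd (nat_lit 78) (nat_lit 304) (nat_lit 0) (XT.lf (nat_lit 0) (nat_lit 2558520415) (nat_lit 456) (nat_lit 7259585116) (nat_lit 76) (nat_lit 1692030660) (nat_lit 67) (nat_lit 5) (nat_lit 73) (nat_lit 5) (nat_lit 68) (nat_lit 5) (nat_lit 272) (nat_lit 242) (nat_lit 206)) (XT.lf (nat_lit 0) (nat_lit 1451504374) (nat_lit 304) (nat_lit 4711944353) (nat_lit 380) (nat_lit 5705691214) (nat_lit 63) (nat_lit 5) (nat_lit 67) (nat_lit 5) (nat_lit 68) (nat_lit 5) (nat_lit 273) (nat_lit 242) (nat_lit 205)))))) (XT.nd (nat_lit 390) (nat_lit 1064) (nat_lit 0) (XT.nd (nat_lit 156) (nat_lit 532) (nat_lit 0) (XT.nd (nat_lit 78) (nat_lit 380) (nat_lit 0) (XT.lf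 (nat_lit 0) (nat_lit 9946384749) (nat_lit 380) (nat_lit 1612094367) (nat_lit 76) (nat_lit 687857560) (nat_lit 63) (nat_lit 5) (nat_lit 68) (nat_lit 5) (nat_lit 64) (nat_lit 5) (nat_lit 274) (nat_lit 242) (nat_lit 204)) (XT.lf (nat_lit 0) (nat_lit 1292354871) (nat_lit 380) (nat_lit 5024784020) (nat_lit 76) (nat_lit 6323813323) (nat_lit 58) (nat_lit 5) (nat_lit 63) (nat_lit 5) (nat_lit 59) (nat_lit 5) (nat_lit 275) (nat_lit 242) (nat_lit 203))) (XT.nd (nat_lit 78) (nat_lit 304) (nat_lit 0) (XT.lf (nat_lit 0) (nat_lit 4239587576) (nat_lit 228) (nat_lit 757021911) (nat_lit 304) (nat_lit 8058763585) (nat_lit 55) (nat_lit 5) (nat_lit 58) (nat_lit 5) (nat_lit 59) (nat_lit 5) (nat_lit 276) (nat_lit 242) (nat_lit 202)) (XT.nd (nat_lit 78) (nat_lit 0) (nat_lit 0) (XT.lf (nat_lit 0) (nat_lit 438770242) (nat_lit 304) (nat_lit 8477038335) (nat_lit 380) (nat_lit 4573961746) (nat_lit 51) (nat_lit 5) (nat_lit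 55) (nat_lit 5) (nat_lit 56) (nat_lit 5) (nat_lit 277) (nat_lit 242) (nat_lit 201)) (XT.lf (nat_lit 0) (nat_lit 10231801410) (nat_lit 304) (nat_lit 2824546922) (nat_lit 380) (nat_lit 888917970) (nat_lit 51) (nat_lit 5) (nat_lit 55) (nat_lit 5) (nat_lit 56) (nat_lit 5) (nat_lit 278) (nat_lit 242) (nat_lit 200))))) (XT.nd (nat_lit 234) (nat_lit 532) (nat_lit 0) (XT.nd (nat_lit 78) (nat_lit 228) (nat_lit 0) (XT.lf (nat_lit 0) (nat_lit 2940920277) (nat_lit 304) (nat_lit 8370070719) (nat_lit 76) (nat_lit 3111255318) (nat_lit 47) (nat_lit 5) (nat_lit 51) (nat_lit 5) (nat_lit 48) (nat_lit 5) (nat_lit 279) (nat_lit 242) (nat_lit 199)) (XT.nd (nat_lit 78) (nat_lit 0) (nat_lit 0) (XT.lf (nat_lit 0) (nat_lit 1353801780) (nat_lit 228) (nat_lit 5602261287) (nat_lit 304) (nat_lit 7966505858) (nat_lit 44) (nat_lit 5) (nat_lit 47) (nat_lit 5) (nat_lit 48) (nat_lit 5) (nat_lit 280) (nat_lit 242) (nat_lit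 198)) (XT.lf (nat_lit 0) (nat_lit 11196716520) (nat_lit 304) (nat_lit 3806746217) (nat_lit 76) (nat_lit 443819979) (nat_lit 44) (nat_lit 5) (nat_lit 48) (nat_lit 5) (nat_lit 45) (nat_lit 5) (nat_lit 281) (nat_lit 242) (nat_lit 197)))) (XT.nd (nat_lit 78) (nat_lit 304) (nat_lit 0) (XT.lf (nat_lit 0) (nat_lit 6421100171) (nat_lit 228) (nat_lit 9283685957) (nat_lit 304) (nat_lit 291896618) (nat_lit 41) (nat_lit 5) (nat_lit 44) (nat_lit 5) (nat_lit 45) (nat_lit 5) (nat_lit 282) (nat_lit 242) (nat_lit 196)) (XT.nd (nat_lit 78) (nat_lit 0) (nat_lit 0) (XT.lf (nat_lit 0) (nat_lit 550978605) (nat_lit 228) (nat_lit 3221738429) (nat_lit 304) (nat_lit 12800322107) (nat_lit 37) (nat_lit 5) (nat_lit 40) (nat_lit 5) (nat_lit 41) (nat_lit 5) (nat_lit 283) (nat_lit 242) (nat_lit 195)) (XT.lf (nat_lit 0) (nat_lit 8104718324) (nat_lit 304) (nat_lit 5914210415) (nat_lit 76) (nat_lit 3157190775) (nat_lit 37)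 (nat_lit 5) (nat_lit 41) (nat_lit 5) (nat_lit 38) (nat_lit 5) (nat_lit 284) (nat_lit 242) (nat_lit 194))))))))
noncomputable def xc55 : XT := (XT.nd (nat_lit 1638) (nat_lit 608) (nat_lit 0) (XT.nd (nat_lit 780) (nat_lit 684) (nat_lit 0) (XT.nd (nat_lit 390) (nat_lit 532) (nat_lit 0) (XT.nd (nat_lit 156) (nat_lit 456) (nat_lit 0) (XT.nd (nat_lit 78) (nat_lit 0) (nat_lit 0) (XT.lf (nat_lit 0) (nat_lit 4673146193) (nat_lit 152) (nat_lit 8000825920) (nat_lit 228) (nat_lit 5134856197) (nat_lit 35) (nat_lit 5) (nat_lit 37) (nat_lit 5) (nat_lit 38) (nat_lit 5) (nat_lit 285) (nat_lit 242) (nat_lit 193)) (XT.lf (nat_lit 0) (nat_lit 15831325932) (nat_lit 152) (nat_lit 1646372339) (nat_lit 228) (nat_lit 995383483) (nat_lit 35) (nat_lit 5) (nat_lit 37) (nat_lit 5) (nat_lit 38) (nat_lit 5) (nat_lit 286) (nat_lit 242) (nat_lit 192))) (XT.nd (nat_lit 78) (nat_lit 152) (nat_lit 0) (XT.lf (nat_lit 0) (nat_lit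 3363021557) (nat_lit 304) (nat_lit 10788204703) (nat_lit 76) (nat_lit 5016117496) (nat_lit 31) (nat_lit 5) (nat_lit 35) (nat_lit 5) (nat_lit 32) (nat_lit 5) (nat_lit 287) (nat_lit 242) (nat_lit 191)) (XT.nd (nat_lit 78) (nat_lit 0) (nat_lit 0) (XT.lf (nat_lit 0) (nat_lit 5510425) (nat_lit 152) (nat_lit 7906242041) (nat_lit 228) (nat_lit 11984559798) (nat_lit 29) (nat_lit 5) (nat_lit 31) (nat_lit 5) (nat_lit 32) (nat_lit 5) (nat_lit 288) (nat_lit 242) (nat_lit 190)) (XT.lf (nat_lit 0) (nat_lit 11488157109) (nat_lit 152) (nat_lit 1261196187) (nat_lit 228) (nat_lit 7910607964) (nat_lit 29) (nat_lit 5) (nat_lit 31) (nat_lit 5) (nat_lit 32) (nat_lit 5) (nat_lit 289) (nat_lit 242) (nat_lit 189))))) (XT.nd (nat_lit 156) (nat_lit 304) (nat_lit 0) (XT.nd (nat_lit 78) (nat_lit 76) (nat_lit 0) (XT.lf (nat_lit 0) (nat_lit 1993279272) (nat_lit 152) (nat_lit 15862160161) (nat_lit 228) (nat_lit 3605626601)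 (nat_lit 27) (nat_lit 5) (nat_lit 29) (nat_lit 5) (nat_lit 30) (nat_lit 5) (nat_lit 290) (nat_lit 242) (nat_lit 188)) (XT.lf (nat_lit 0) (nat_lit 958385890) (nat_lit 228) (nat_lit 8486257329) (nat_lit 76) (nat_lit 12855536300) (nat_lit 26) (nat_lit 5) (nat_lit 29) (nat_lit 5) (nat_lit 27) (nat_lit 5) (nat_lit 291) (nat_lit 242) (nat_lit 187))) (XT.nd (nat_lit 78) (nat_lit 152) (nat_lit 0) (XT.lf (nat_lit 0) (nat_lit 2997215681) (nat_lit 152) (nat_lit 2664078912) (nat_lit 228) (nat_lit 17519388097) (nat_lit 24) (nat_lit 5) (nat_lit 26) (nat_lit 5) (nat_lit 27) (nat_lit 5) (nat_lit 292) (nat_lit 242) (nat_lit 186)) (XT.nd (nat_lit 78) (nat_lit 152) (nat_lit 0) (XT.lf (nat_lit 0) (nat_lit 10687387608) (nat_lit 228) (nat_lit 8982434838) (nat_lit 76) (nat_lit 4432807361) (nat_lit 24) (nat_lit 5) (nat_lit 27) (nat_lit 5) (nat_lit 25) (nat_lit 5) (nat_lit 293) (nat_lit 242) (nat_lit 185)) (XT.lf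 (nat_lit 0) (nat_lit 2740133741) (nat_lit 152) (nat_lit 13236915127) (nat_lit 228) (nat_lit 9093314607) (nat_lit 22) (nat_lit 5) (nat_lit 24) (nat_lit 5) (nat_lit 25) (nat_lit 5) (nat_lit 294) (nat_lit 242) (nat_lit 184)))))) (XT.nd (nat_lit 390) (nat_lit 304) (nat_lit 0) (XT.nd (nat_lit 156) (nat_lit 152) (nat_lit 0) (XT.nd (nat_lit 78) (nat_lit 228) (nat_lit 0) (XT.lf (nat_lit 0) (nat_lit 15173307296) (nat_lit 152) (nat_lit 6410729625) (nat_lit 228) (nat_lit 4500915974) (nat_lit 22) (nat_lit 5) (nat_lit 24) (nat_lit 5) (nat_lit 25) (nat_lit 5) (nat_lit 295) (nat_lit 242) (nat_lit 183)) (XT.lf (nat_lit 0) (nat_lit 293798970) (nat_lit 228) (nat_lit 26124331691) (nat_lit 76) (nat_lit 732729941) (nat_lit 19) (nat_lit 5) (nat_lit 22) (nat_lit 5) (nat_lit 20) (nat_lit 5) (nat_lit 296) (nat_lit 242) (nat_lit 182))) (XT.nd (nat_lit 78) (nat_lit 152) (nat_lit 0) (XT.lf (nat_lit 0) (nat_lit 5377044265)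 (nat_lit 228) (nat_lit 14648526110) (nat_lit 76) (nat_lit 8238947890) (nat_lit 19) (nat_lit 5) (nat_lit 22) (nat_lit 5) (nat_lit 20) (nat_lit 5) (nat_lit 297) (nat_lit 242) (nat_lit 181)) (XT.nd (nat_lit 78) (nat_lit 152) (nat_lit 0) (XT.lf (nat_lit 0) (nat_lit 10679092008) (nat_lit 228) (nat_lit 2656282264) (nat_lit 76) (nat_lit 16099590942) (nat_lit 19) (nat_lit 5) (nat_lit 22) (nat_lit 5) (nat_lit 20) (nat_lit 5) (nat_lit 298) (nat_lit 242) (nat_lit 180)) (XT.lf (nat_lit 0) (nat_lit 10077603140) (nat_lit 152) (nat_lit 6231835066) (nat_lit 228) (nat_lit 14352643859) (nat_lit 17) (nat_lit 5) (nat_lit 19) (nat_lit 5) (nat_lit 20) (nat_lit 5) (nat_lit 299) (nat_lit 242) (nat_lit 179))))) (XT.nd (nat_lit 234) (nat_lit 152) (nat_lit 0) (XT.nd (nat_lit 78) (nat_lit 152) (nat_lit 0) (XT.lf (nat_lit 0) (nat_lit 22227930869) (nat_lit 228) (nat_lit 8511984710) (nat_lit 76) (nat_lit 1210481674) (nat_lit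 17) (nat_lit 5) (nat_lit 20) (nat_lit 5) (nat_lit 18) (nat_lit 4) (nat_lit 300) (nat_lit 242) (nat_lit 178)) (XT.nd (nat_lit 78) (nat_lit 76) (nat_lit 0) (XT.lf (nat_lit 0) (nat_lit 4130524480) (nat_lit 76) (nat_lit 24383209954) (nat_lit 152) (nat_lit 4787291577) (nat_lit 16) (nat_lit 5) (nat_lit 17) (nat_lit 5) (nat_lit 18) (nat_lit 4) (nat_lit 301) (nat_lit 242) (nat_lit 177)) (XT.lf (nat_lit 0) (nat_lit 444885310) (nat_lit 152) (nat_lit 17188669281) (nat_lit 76) (nat_lit 17083815911) (nat_lit 15) (nat_lit 5) (nat_lit 17) (nat_lit 5) (nat_lit 16) (nat_lit 5) (nat_lit 302) (nat_lit 242) (nat_lit 176)))) (XT.nd (nat_lit 78) (nat_lit 152) (nat_lit 0) (XT.lf (nat_lit 0) (nat_lit 5811490778) (nat_lit 152) (nat_lit 4704145905) (nat_lit 76) (nat_lit 25688353415) (nat_lit 15) (nat_lit 5) (nat_lit 17) (nat_lit 5) (nat_lit 16) (nat_lit 5) (nat_lit 303) (nat_lit 242) (nat_lit 175)) (XT.nd (nat_lit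 78) (nat_lit 0) (nat_lit 0) (XT.lf (nat_lit 0) (nat_lit 8525168776) (nat_lit 152) (nat_lit 2975500119) (nat_lit 228) (nat_lit 26262677548) (nat_lit 13) (nat_lit 5) (nat_lit 15) (nat_lit 5) (nat_lit 16) (nat_lit 5) (nat_lit 304) (nat_lit 242) (nat_lit 174)) (XT.lf (nat_lit 0) (nat_lit 17543727756) (nat_lit 228) (nat_lit 16978092529) (nat_lit 76) (nat_lit 4876799135) (nat_lit 13) (nat_lit 5) (nat_lit 16) (nat_lit 5) (nat_lit 14) (nat_lit 4) (nat_lit 305) (nat_lit 242) (nat_lit 173))))))) (XT.nd (nat_lit 858) (nat_lit 228) (nat_lit 0) (XT.nd (nat_lit 390) (nat_lit 76) (nat_lit 0) (XT.nd (nat_lit 156) (nat_lit 228) (nat_lit 0) (XT.nd (nat_lit 78) (nat_lit 76) (nat_lit 0) (XT.lf (nat_lit 0) (nat_lit 23893272244) (nat_lit 228) (nat_lit 4178030934) (nat_lit 76) (nat_lit 13044252858) (nat_lit 13) (nat_lit 5) (nat_lit 16) (nat_lit 5) (nat_lit 14) (nat_lit 4) (nat_lit 306) (nat_lit 242) (nat_lit 172))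 (XT.lf (nat_lit 0) (nat_lit 9404603468) (nat_lit 76) (nat_lit 21221617328) (nat_lit 152) (nat_lit 12290169427) (nat_lit 12) (nat_lit 5) (nat_lit 13) (nat_lit 5) (nat_lit 14) (nat_lit 4) (nat_lit 307) (nat_lit 242) (nat_lit 171))) (XT.nd (nat_lit 78) (nat_lit 228) (nat_lit 0) (XT.lf (nat_lit 0) (nat_lit 23713903955) (nat_lit 76) (nat_lit 14001229188) (nat_lit 152) (nat_lit 7091580667) (nat_lit 12) (nat_lit 5) (nat_lit 13) (nat_lit 5) (nat_lit 14) (nat_lit 4) (nat_lit 308) (nat_lit 242) (nat_lit 170)) (XT.nd (nat_lit 78) (nat_lit 228) (nat_lit 0) (XT.lf (nat_lit 0) (nat_lit 38700789281) (nat_lit 76) (nat_lit 6435137280) (nat_lit 152) (nat_lit 1656329841) (nat_lit 12) (nat_lit 5) (nat_lit 13) (nat_lit 5) (nat_lit 14) (nat_lit 4) (nat_lit 309) (nat_lit 242) (nat_lit 169)) (XT.lf (nat_lit 0) (nat_lit 4018965936) (nat_lit 228) (nat_lit 43296630018) (nat_lit 76) (nat_lit 1558916206) (nat_lit 9)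 (nat_lit 5) (nat_lit 12) (nat_lit 5) (nat_lit 10) (nat_lit 4) (nat_lit 310) (nat_lit 242) (nat_lit 168))))) (XT.nd (nat_lit 234) (nat_lit 76) (nat_lit 0) (XT.nd (nat_lit 78) (nat_lit 0) (nat_lit 0) (XT.lf (nat_lit 0) (nat_lit 10071987702) (nat_lit 228) (nat_lit 31077089365) (nat_lit 76) (nat_lit 9907487957) (nat_lit 9) (nat_lit 5) (nat_lit 12) (nat_lit 5) (nat_lit 10) (nat_lit 4) (nat_lit 311) (nat_lit 242) (nat_lit 167)) (XT.nd (nat_lit 78) (nat_lit 0) (nat_lit 0) (XT.lf (nat_lit 0) (nat_lit 16407496362) (nat_lit 228) (nat_lit 18280857769) (nat_lit 76) (nat_lit 18659993041) (nat_lit 9) (nat_lit 5) (nat_lit 12) (nat_lit 5) (nat_lit 10) (nat_lit 4) (nat_lit 312) (nat_lit 242) (nat_lit 166)) (XT.lf (nat_lit 0) (nat_lit 23040576460) (nat_lit 228) (nat_lit 4877468011) (nat_lit 76) (nat_lit 27837270755) (nat_lit 9) (nat_lit 5) (nat_lit 12) (nat_lit 5) (nat_lit 10) (nat_lit 4) (nat_lit 313) (nat_lit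 242) (nat_lit 165)))) (XT.nd (nat_lit 78) (nat_lit 0) (nat_lit 0) (XT.lf (nat_lit 0) (nat_lit 9347394067) (nat_lit 76) (nat_lit 20729479846) (nat_lit 152) (nat_lit 28203630562) (nat_lit 8) (nat_lit 5) (nat_lit 9) (nat_lit 5) (nat_lit 10) (nat_lit 4) (nat_lit 314) (nat_lit 242) (nat_lit 164)) (XT.nd (nat_lit 78) (nat_lit 0) (nat_lit 0) (XT.lf (nat_lit 0) (nat_lit 24355216924) (nat_lit 76) (nat_lit 13142269588) (nat_lit 152) (nat_lit 23433510425) (nat_lit 8) (nat_lit 5) (nat_lit 9) (nat_lit 5) (nat_lit 10) (nat_lit 4) (nat_lit 315) (nat_lit 242) (nat_lit 163)) (XT.lf (nat_lit 0) (nat_lit 40084662294) (nat_lit 76) (nat_lit 5187601772) (nat_lit 152) (nat_lit 18442273789) (nat_lit 8) (nat_lit 5) (nat_lit 9) (nat_lit 5) (nat_lit 10) (nat_lit 4) (nat_lit 316) (nat_lit 242) (nat_lit 162)))))) (XT.nd (nat_lit 390) (nat_lit 76) (nat_lit 0) (XT.nd (nat_lit 156) (nat_lit 76) (nat_lit 0) (XT.nd (nat_lit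 78) (nat_lit 76) (nat_lit 0) (XT.lf (nat_lit 0) (nat_lit 53450030969) (nat_lit 152) (nat_lit 10094886488) (nat_lit 0) (nat_lit 3091927859) (nat_lit 8) (nat_lit 5) (nat_lit 10) (nat_lit 4) (nat_lit 8) (nat_lit 4) (nat_lit 317) (nat_lit 242) (nat_lit 161)) (XT.lf (nat_lit 0) (nat_lit 4118391622) (nat_lit 76) (nat_lit 57994841371) (nat_lit 76) (nat_lit 7589754959) (nat_lit 7) (nat_lit 4) (nat_lit 8) (nat_lit 5) (nat_lit 8) (nat_lit 4) (nat_lit 318) (nat_lit 242) (nat_lit 160))) (XT.nd (nat_lit 78) (nat_lit 76) (nat_lit 0) (XT.lf (nat_lit 0) (nat_lit 19227580353) (nat_lit 76) (nat_lit 52071017564) (nat_lit 76) (nat_lit 1621185149) (nat_lit 7) (nat_lit 4) (nat_lit 8) (nat_lit 5) (nat_lit 8) (nat_lit 4) (nat_lit 319) (nat_lit 242) (nat_lit 159)) (XT.nd (nat_lit 78) (nat_lit 0) (nat_lit 0) (XT.lf (nat_lit 0) (nat_lit 4540796644) (nat_lit 152) (nat_lit 41274630467) (nat_lit 76) (nat_lit 30481096139)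 (nat_lit 6) (nat_lit 5) (nat_lit 8) (nat_lit 5) (nat_lit 7) (nat_lit 4) (nat_lit 320) (nat_lit 242) (nat_lit 158)) (XT.lf (nat_lit 0) (nat_lit 10963984458) (nat_lit 152) (nat_lit 28276145149) (nat_lit 76) (nat_lit 40601903820) (nat_lit 6) (nat_lit 5) (nat_lit 8) (nat_lit 5) (nat_lit 7) (nat_lit 4) (nat_lit 321) (nat_lit 242) (nat_lit 157))))) (XT.nd (nat_lit 234) (nat_lit 0) (nat_lit 0) (XT.nd (nat_lit 78) (nat_lit 76) (nat_lit 0) (XT.lf (nat_lit 0) (nat_lit 17695306756) (nat_lit 152) (nat_lit 14650214163) (nat_lit 76) (nat_lit 51219701882) (nat_lit 6) (nat_lit 5) (nat_lit 8) (nat_lit 5) (nat_lit 7) (nat_lit 4) (nat_lit 322) (nat_lit 242) (nat_lit 156)) (XT.nd (nat_lit 78) (nat_lit 76) (nat_lit 0) (XT.lf (nat_lit 0) (nat_lit 24750790498) (nat_lit 152) (nat_lit 364394814) (nat_lit 76) (nat_lit 62359770797) (nat_lit 6) (nat_lit 5) (nat_lit 8) (nat_lit 5) (nat_lit 7) (nat_lit 4) (nat_lit 323)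 (nat_lit 242) (nat_lit 155)) (XT.lf (nat_lit 0) (nat_lit 14906200411) (nat_lit 76) (nat_lit 17384321560) (nat_lit 152) (nat_lit 59285721645) (nat_lit 5) (nat_lit 5) (nat_lit 6) (nat_lit 5) (nat_lit 7) (nat_lit 4) (nat_lit 324) (nat_lit 242) (nat_lit 154)))) (XT.nd (nat_lit 78) (nat_lit 0) (nat_lit 0) (XT.lf (nat_lit 0) (nat_lit 30928135867) (nat_lit 76) (nat_lit 9271413499) (nat_lit 152) (nat_lit 55683288031) (nat_lit 5) (nat_lit 5) (nat_lit 6) (nat_lit 5) (nat_lit 7) (nat_lit 4) (nat_lit 325) (nat_lit 242) (nat_lit 153)) (XT.nd (nat_lit 78) (nat_lit 0) (nat_lit 0) (XT.lf (nat_lit 0) (nat_lit 47732306848) (nat_lit 76) (nat_lit 760824355) (nat_lit 152) (nat_lit 51911967218) (nat_lit 5) (nat_lit 5) (nat_lit 6) (nat_lit 5) (nat_lit 7) (nat_lit 4) (nat_lit 326) (nat_lit 242) (nat_lit 152)) (XT.lf (nat_lit 0) (nat_lit 57269527124) (nat_lit 152) (nat_lit 39873583711) (nat_lit 0) (nat_lit 8008327753)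 (nat_lit 5) (nat_lit 5) (nat_lit 7) (nat_lit 4) (nat_lit 5) (nat_lit 4) (nat_lit 327) (nat_lit 242) (nat_lit 151))))))))
noncomputable def xc56 : XT := (XT.nd (nat_lit 32370) (nat_lit 0) (nat_lit 2964) (XT.nd (nat_lit 31512) (nat_lit 0) (nat_lit 8740) (XT.nd (nat_lit 31122) (nat_lit 0) (nat_lit 15960) (XT.nd (nat_lit 30888) (nat_lit 0) (nat_lit 17480) (XT.nd (nat_lit 78) (nat_lit 0) (nat_lit 0) (XT.lf (nat_lit 0) (nat_lit 66482468749) (nat_lit 152) (nat_lit 26459439080) (nat_lit 0) (nat_lit 17193265813) (nat_lit 5) (nat_lit 5) (nat_lit 7) (nat_lit 4) (nat_lit 5) (nat_lit 4) (nat_lit 328) (nat_lit 242) (nat_lit 150)) (XT.lf (nat_lit 0) (nat_lit 76146578147) (nat_lit 152) (nat_lit 12391105732) (nat_lit 0) (nat_lit 26830705148) (nat_lit 5) (nat_lit 5) (nat_lit 7) (nat_lit 4) (nat_lit 5) (nat_lit 4) (nat_lit 329) (nat_lit 242) (nat_lit 149))) (XT.nd (nat_lit 78) (nat_lit 380) (nat_lit 0) (XT.lf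 (nat_lit 0) (nat_lit 2591967076) (nat_lit 380) (nat_lit 342298528) (nat_lit 380) (nat_lit 342298528) (nat_lit 240) (nat_lit 3) (nat_lit 245) (nat_lit 3) (nat_lit 245) (nat_lit 5) (nat_lit 243) (nat_lit 243) (nat_lit 234)) (XT.nd (nat_lit 78) (nat_lit 0) (nat_lit 0) (XT.lf (nat_lit 0) (nat_lit 2249582823) (nat_lit 380) (nat_lit 2588592158) (nat_lit 456) (nat_lit 1755528832) (nat_lit 235) (nat_lit 5) (nat_lit 240) (nat_lit 3) (nat_lit 241) (nat_lit 5) (nat_lit 244) (nat_lit 243) (nat_lit 233)) (XT.lf (nat_lit 76) (nat_lit 2211835754) (nat_lit 0) (nat_lit 3607046449) (nat_lit 456) (nat_lit 824035290) (nat_lit 236) (nat_lit 5) (nat_lit 235) (nat_lit 5) (nat_lit 241) (nat_lit 5) (nat_lit 245) (nat_lit 243) (nat_lit 232))))) (XT.nd (nat_lit 156) (nat_lit 1064) (nat_lit 0) (XT.nd (nat_lit 78) (nat_lit 0) (nat_lit 0) (XT.lf (nat_lit 76) (nat_lit 467121591) (nat_lit 0) (nat_lit 2156292821) (nat_lit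 532) (nat_lit 4077008334) (nat_lit 230) (nat_lit 5) (nat_lit 229) (nat_lit 5) (nat_lit 236) (nat_lit 5) (nat_lit 246) (nat_lit 243) (nat_lit 231)) (XT.lf (nat_lit 76) (nat_lit 5571272583) (nat_lit 0) (nat_lit 486098612) (nat_lit 532) (nat_lit 709091279) (nat_lit 230) (nat_lit 5) (nat_lit 229) (nat_lit 5) (nat_lit 236) (nat_lit 5) (nat_lit 247) (nat_lit 243) (nat_lit 230))) (XT.nd (nat_lit 78) (nat_lit 608) (nat_lit 0) (XT.lf (nat_lit 0) (nat_lit 2617282565) (nat_lit 532) (nat_lit 2830411249) (nat_lit 608) (nat_lit 1392714190) (nat_lit 223) (nat_lit 5) (nat_lit 230) (nat_lit 5) (nat_lit 231) (nat_lit 5) (nat_lit 248) (nat_lit 243) (nat_lit 229)) (XT.nd (nat_lit 78) (nat_lit 608) (nat_lit 0) (XT.lf (nat_lit 76) (nat_lit 2493131332) (nat_lit 0) (nat_lit 3445995269) (nat_lit 608) (nat_lit 984138172) (nat_lit 224) (nat_lit 5) (nat_lit 223) (nat_lit 5) (nat_lit 231) (nat_lit 5) (nat_lit 249) (nat_lit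 243) (nat_lit 228)) (XT.lf (nat_lit 76) (nat_lit 1001673850) (nat_lit 0) (nat_lit 1215069109) (nat_lit 684) (nat_lit 4798094705) (nat_lit 216) (nat_lit 5) (nat_lit 215) (nat_lit 5) (nat_lit 224) (nat_lit 5) (nat_lit 250) (nat_lit 243) (nat_lit 227)))))) (XT.nd (nat_lit 390) (nat_lit 4256) (nat_lit 0) (XT.nd (nat_lit 156) (nat_lit 2356) (nat_lit 0) (XT.nd (nat_lit 78) (nat_lit 684) (nat_lit 0) (XT.lf (nat_lit 0) (nat_lit 5430986381) (nat_lit 608) (nat_lit 463269577) (nat_lit 76) (nat_lit 1220881612) (nat_lit 216) (nat_lit 5) (nat_lit 224) (nat_lit 5) (nat_lit 217) (nat_lit 5) (nat_lit 251) (nat_lit 243) (nat_lit 226)) (XT.lf (nat_lit 0) (nat_lit 1441684422) (nat_lit 684) (nat_lit 1906519671) (nat_lit 76) (nat_lit 3875778948) (nat_lit 207) (nat_lit 5) (nat_lit 216) (nat_lit 5) (nat_lit 208) (nat_lit 5) (nat_lit 252) (nat_lit 243) (nat_lit 225))) (XT.nd (nat_lit 78) (nat_lit 1672) (nat_lit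 0) (XT.lf (nat_lit 0) (nat_lit 3995424265) (nat_lit 684) (nat_lit 567350230) (nat_lit 760) (nat_lit 2779355380) (nat_lit 198) (nat_lit 5) (nat_lit 207) (nat_lit 5) (nat_lit 208) (nat_lit 5) (nat_lit 253) (nat_lit 243) (nat_lit 224)) (XT.nd (nat_lit 78) (nat_lit 836) (nat_lit 0) (XT.lf (nat_lit 0) (nat_lit 270642531) (nat_lit 836) (nat_lit 4802774815) (nat_lit 76) (nat_lit 2396062864) (nat_lit 187) (nat_lit 5) (nat_lit 198) (nat_lit 5) (nat_lit 188) (nat_lit 5) (nat_lit 254) (nat_lit 243) (nat_lit 223)) (XT.lf (nat_lit 0) (nat_lit 1313495117) (nat_lit 836) (nat_lit 1997918057) (nat_lit 912) (nat_lit 4294591423) (nat_lit 176) (nat_lit 5) (nat_lit 187) (nat_lit 5) (nat_lit 188) (nat_lit 5) (nat_lit 255) (nat_lit 243) (nat_lit 222))))) (XT.nd (nat_lit 234) (nat_lit 2280) (nat_lit 0) (XT.nd (nat_lit 78) (nat_lit 1976) (nat_lit 0) (XT.lf (nat_lit 0) (nat_lit 6414677285) (nat_lit 912) (nat_lit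 52505426) (nat_lit 76) (nat_lit 1285339523) (nat_lit 176) (nat_lit 5) (nat_lit 188) (nat_lit 5) (nat_lit 177) (nat_lit 5) (nat_lit 256) (nat_lit 243) (nat_lit 221)) (XT.nd (nat_lit 78) (nat_lit 988) (nat_lit 0) (XT.lf (nat_lit 0) (nat_lit 1669589226) (nat_lit 988) (nat_lit 1441329258) (nat_lit 76) (nat_lit 4797262460) (nat_lit 163) (nat_lit 5) (nat_lit 176) (nat_lit 5) (nat_lit 164) (nat_lit 5) (nat_lit 257) (nat_lit 243) (nat_lit 220)) (XT.lf (nat_lit 0) (nat_lit 4715191731) (nat_lit 1064) (nat_lit 2871180724) (nat_lit 76) (nat_lit 487812086) (nat_lit 150) (nat_lit 5) (nat_lit 164) (nat_lit 5) (nat_lit 151) (nat_lit 5) (nat_lit 258) (nat_lit 243) (nat_lit 219)))) (XT.nd (nat_lit 78) (nat_lit 1216) (nat_lit 0) (XT.lf (nat_lit 0) (nat_lit 3882892245) (nat_lit 1064) (nat_lit 3979402284) (nat_lit 1140) (nat_lit 388120318) (nat_lit 136) (nat_lit 5) (nat_lit 150) (nat_lit 5) (nat_lit 151) (nat_lit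 5) (nat_lit 259) (nat_lit 243) (nat_lit 218)) (XT.nd (nat_lit 78) (nat_lit 532) (nat_lit 0) (XT.lf (nat_lit 0) (nat_lit 2499919289) (nat_lit 608) (nat_lit 101070943) (nat_lit 684) (nat_lit 5836361789) (nat_lit 127) (nat_lit 5) (nat_lit 135) (nat_lit 5) (nat_lit 136) (nat_lit 5) (nat_lit 260) (nat_lit 243) (nat_lit 217)) (XT.lf (nat_lit 0) (nat_lit 1024061628) (nat_lit 532) (nat_lit 4675232824) (nat_lit 608) (nat_lit 2935548371) (nat_lit 120) (nat_lit 5) (nat_lit 127) (nat_lit 5) (nat_lit 128) (nat_lit 5) (nat_lit 261) (nat_lit 243) (nat_lit 216))))))) (XT.nd (nat_lit 780) (nat_lit 2204) (nat_lit 0) (XT.nd (nat_lit 390) (nat_lit 1596) (nat_lit 0) (XT.nd (nat_lit 156) (nat_lit 1368) (nat_lit 0) (XT.nd (nat_lit 78) (nat_lit 532) (nat_lit 0) (XT.lf (nat_lit 0) (nat_lit 48476758) (nat_lit 608) (nat_lit 507690609) (nat_lit 76) (nat_lit 8288127534) (nat_lit 119) (nat_lit 5) (nat_lit 127) (nat_lit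 5) (nat_lit 120) (nat_lit 5) (nat_lit 262) (nat_lit 243) (nat_lit 215)) (XT.lf (nat_lit 0) (nat_lit 3108856186) (nat_lit 608) (nat_lit 2162486972) (nat_lit 76) (nat_lit 3792681160) (nat_lit 112) (nat_lit 5) (nat_lit 120) (nat_lit 5) (nat_lit 113) (nat_lit 5) (nat_lit 263) (nat_lit 243) (nat_lit 214))) (XT.nd (nat_lit 78) (nat_lit 912) (nat_lit 0) (XT.lf (nat_lit 0) (nat_lit 5379743072) (nat_lit 456) (nat_lit 892977772) (nat_lit 532) (nat_lit 3023803108) (nat_lit 106) (nat_lit 5) (nat_lit 112) (nat_lit 5) (nat_lit 113) (nat_lit 5) (nat_lit 264) (nat_lit 243) (nat_lit 213)) (XT.nd (nat_lit 78) (nat_lit 380) (nat_lit 0) (XT.lf (nat_lit 0) (nat_lit 38602186) (nat_lit 532) (nat_lit 5817534883) (nat_lit 76) (nat_lit 3685205338) (nat_lit 99) (nat_lit 5) (nat_lit 106) (nat_lit 5) (nat_lit 100) (nat_lit 5) (nat_lit 265) (nat_lit 243) (nat_lit 212)) (XT.lf (nat_lit 0) (nat_lit 1912526636) (nat_lit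 380) (nat_lit 1242573660) (nat_lit 456) (nat_lit 6643760234) (nat_lit 94) (nat_lit 5) (nat_lit 99) (nat_lit 5) (nat_lit 100) (nat_lit 5) (nat_lit 266) (nat_lit 243) (nat_lit 211))))) (XT.nd (nat_lit 156) (nat_lit 1140) (nat_lit 0) (XT.nd (nat_lit 78) (nat_lit 456) (nat_lit 0) (XT.lf (nat_lit 0) (nat_lit 6421152957) (nat_lit 456) (nat_lit 67810392) (nat_lit 76) (nat_lit 3580729024) (nat_lit 94) (nat_lit 5) (nat_lit 100) (nat_lit 5) (nat_lit 95) (nat_lit 5) (nat_lit 267) (nat_lit 243) (nat_lit 210)) (XT.lf (nat_lit 0) (nat_lit 8178403362) (nat_lit 456) (nat_lit 1666718384) (nat_lit 532) (nat_lit 509343468) (nat_lit 88) (nat_lit 5) (nat_lit 94) (nat_lit 5) (nat_lit 95) (nat_lit 5) (nat_lit 268) (nat_lit 243) (nat_lit 209))) (XT.nd (nat_lit 78) (nat_lit 684) (nat_lit 0) (XT.lf (nat_lit 0) (nat_lit 2731685080) (nat_lit 456) (nat_lit 4518019129) (nat_lit 76) (nat_lit 3403211117) (nat_lit 82) (nat_lit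 5) (nat_lit 88) (nat_lit 5) (nat_lit 83) (nat_lit 5) (nat_lit 269) (nat_lit 243) (nat_lit 208)) (XT.nd (nat_lit 78) (nat_lit 304) (nat_lit 0) (XT.lf (nat_lit 0) (nat_lit 3886038466) (nat_lit 380) (nat_lit 2224285343) (nat_lit 456) (nat_lit 4856439482) (nat_lit 77) (nat_lit 5) (nat_lit 82) (nat_lit 5) (nat_lit 83) (nat_lit 5) (nat_lit 270) (nat_lit 243) (nat_lit 207)) (XT.lf (nat_lit 0) (nat_lit 1398904795) (nat_lit 304) (nat_lit 8261074884) (nat_lit 380) (nat_lit 1636460867) (nat_lit 73) (nat_lit 5) (nat_lit 77) (nat_lit 5) (nat_lit 78) (nat_lit 5) (nat_lit 271) (nat_lit 243) (nat_lit 206)))))) (XT.nd (nat_lit 390) (nat_lit 1064) (nat_lit 0) (XT.nd (nat_lit 156) (nat_lit 684) (nat_lit 0) (XT.nd (nat_lit 78) (nat_lit 380) (nat_lit 0) (XT.lf (nat_lit 0) (nat_lit 1721003449) (nat_lit 380) (nat_lit 1337048307) (nat_lit 76) (nat_lit 8583915386) (nat_lit 72) (nat_lit 5) (nat_lit 77) (nat_lit 5)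 (nat_lit 73) (nat_lit 5) (nat_lit 272) (nat_lit 243) (nat_lit 205)) (XT.lf (nat_lit 0) (nat_lit 5229018762) (nat_lit 456) (nat_lit 4345699994) (nat_lit 76) (nat_lit 2429245203) (nat_lit 67) (nat_lit 5) (nat_lit 73) (nat_lit 5) (nat_lit 68) (nat_lit 5) (nat_lit 273) (nat_lit 243) (nat_lit 204))) (XT.nd (nat_lit 78) (nat_lit 380) (nat_lit 0) (XT.lf (nat_lit 0) (nat_lit 4707013311) (nat_lit 304) (nat_lit 4216701612) (nat_lit 380) (nat_lit 3460174563) (nat_lit 63) (nat_lit 5) (nat_lit 67) (nat_lit 5) (nat_lit 68) (nat_lit 5) (nat_lit 274) (nat_lit 243) (nat_lit 203)) (XT.nd (nat_lit 78) (nat_lit 0) (nat_lit 0) (XT.lf (nat_lit 0) (nat_lit 16115369) (nat_lit 380) (nat_lit 11348301636) (nat_lit 76) (nat_lit 1418657760) (nat_lit 58) (nat_lit 5) (nat_lit 63) (nat_lit 5) (nat_lit 59) (nat_lit 5) (nat_lit 275) (nat_lit 243) (nat_lit 202)) (XT.lf (nat_lit 0) (nat_lit 3643353497) (nat_lit 380) (nat_lit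 2215205541) (nat_lit 76) (nat_lit 7341318933) (nat_lit 58) (nat_lit 5) (nat_lit 63) (nat_lit 5) (nat_lit 59) (nat_lit 5) (nat_lit 276) (nat_lit 243) (nat_lit 201))))) (XT.nd (nat_lit 234) (nat_lit 456) (nat_lit 0) (XT.nd (nat_lit 78) (nat_lit 380) (nat_lit 0) (XT.lf (nat_lit 0) (nat_lit 7424646911) (nat_lit 228) (nat_lit 27877717) (nat_lit 304) (nat_lit 6185119866) (nat_lit 55) (nat_lit 5) (nat_lit 58) (nat_lit 5) (nat_lit 59) (nat_lit 5) (nat_lit 277) (nat_lit 243) (nat_lit 200)) (XT.nd (nat_lit 78) (nat_lit 76) (nat_lit 0) (XT.lf (nat_lit 0) (nat_lit 3409880927) (nat_lit 304) (nat_lit 8088122082) (nat_lit 380) (nat_lit 2598054479) (nat_lit 51) (nat_lit 5) (nat_lit 55) (nat_lit 5) (nat_lit 56) (nat_lit 5) (nat_lit 278) (nat_lit 243) (nat_lit 199)) (XT.lf (nat_lit 0) (nat_lit 1143502338) (nat_lit 380) (nat_lit 1036659874) (nat_lit 76) (nat_lit 12397077412) (nat_lit 50) (nat_lit 5) (nat_lit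 55) (nat_lit 5) (nat_lit 51) (nat_lit 5) (nat_lit 279) (nat_lit 243) (nat_lit 198)))) (XT.nd (nat_lit 78) (nat_lit 228) (nat_lit 0) (XT.lf (nat_lit 0) (nat_lit 5082772072) (nat_lit 304) (nat_lit 5961167220) (nat_lit 76) (nat_lit 4035956529) (nat_lit 47) (nat_lit 5) (nat_lit 51) (nat_lit 5) (nat_lit 48) (nat_lit 5) (nat_lit 280) (nat_lit 243) (nat_lit 197)) (XT.nd (nat_lit 78) (nat_lit 0) (nat_lit 0) (XT.lf (nat_lit 0) (nat_lit 4167851848) (nat_lit 228) (nat_lit 5062229094) (nat_lit 304) (nat_lit 6377383668) (nat_lit 44) (nat_lit 5) (nat_lit 47) (nat_lit 5) (nat_lit 48) (nat_lit 5) (nat_lit 281) (nat_lit 243) (nat_lit 196)) (XT.lf (nat_lit 0) (nat_lit 13598550879) (nat_lit 304) (nat_lit 1330694002) (nat_lit 76) (nat_lit 1231859806) (nat_lit 44) (nat_lit 5) (nat_lit 48) (nat_lit 5) (nat_lit 45) (nat_lit 5) (nat_lit 282) (nat_lit 243) (nat_lit 195))))))))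
noncomputable def xc57 : XT := (XT.nd (nat_lit 1638) (nat_lit 760) (nat_lit 0) (XT.nd (nat_lit 780) (nat_lit 836) (nat_lit 0) (XT.nd (nat_lit 390) (nat_lit 608) (nat_lit 0) (XT.nd (nat_lit 156) (nat_lit 228) (nat_lit 0) (XT.nd (nat_lit 78) (nat_lit 228) (nat_lit 0) (XT.lf (nat_lit 0) (nat_lit 1499350444) (nat_lit 304) (nat_lit 7422601883) (nat_lit 76) (nat_lit 7817622241) (nat_lit 40) (nat_lit 5) (nat_lit 44) (nat_lit 5) (nat_lit 41) (nat_lit 5) (nat_lit 283) (nat_lit 243) (nat_lit 194)) (XT.lf (nat_lit 0) (nat_lit 3131986758) (nat_lit 228) (nat_lit 2568065009) (nat_lit 304) (nat_lit 11646588015) (nat_lit 37) (nat_lit 5) (nat_lit 40) (nat_lit 5) (nat_lit 41) (nat_lit 5) (nat_lit 284) (nat_lit 243) (nat_lit 193))) (XT.nd (nat_lit 78) (nat_lit 228) (nat_lit 0) (XT.lf (nat_lit 0) (nat_lit 10173316960) (nat_lit 304) (nat_lit 3733084209) (nat_lit 76) (nat_lit 4075870726) (nat_lit 37) (nat_lit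 5) (nat_lit 41) (nat_lit 5) (nat_lit 38) (nat_lit 5) (nat_lit 285) (nat_lit 243) (nat_lit 192)) (XT.nd (nat_lit 78) (nat_lit 76) (nat_lit 0) (XT.lf (nat_lit 0) (nat_lit 7312642202) (nat_lit 152) (nat_lit 7602309880) (nat_lit 228) (nat_lit 3733477569) (nat_lit 35) (nat_lit 5) (nat_lit 37) (nat_lit 5) (nat_lit 38) (nat_lit 5) (nat_lit 286) (nat_lit 243) (nat_lit 191)) (XT.lf (nat_lit 0) (nat_lit 523590145) (nat_lit 228) (nat_lit 439282781) (nat_lit 76) (nat_lit 18385289802) (nat_lit 34) (nat_lit 5) (nat_lit 37) (nat_lit 5) (nat_lit 35) (nat_lit 5) (nat_lit 287) (nat_lit 243) (nat_lit 190))))) (XT.nd (nat_lit 156) (nat_lit 228) (nat_lit 0) (XT.nd (nat_lit 78) (nat_lit 152) (nat_lit 0) (XT.lf (nat_lit 0) (nat_lit 5034814621) (nat_lit 304) (nat_lit 9029854795) (nat_lit 76) (nat_lit 6013623629) (nat_lit 31) (nat_lit 5) (nat_lit 35) (nat_lit 5) (nat_lit 32) (nat_lit 5) (nat_lit 288) (nat_lit 243)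 (nat_lit 189)) (XT.lf (nat_lit 0) (nat_lit 2237681256) (nat_lit 152) (nat_lit 7523153163) (nat_lit 228) (nat_lit 11084489925) (nat_lit 29) (nat_lit 5) (nat_lit 31) (nat_lit 5) (nat_lit 32) (nat_lit 5) (nat_lit 289) (nat_lit 243) (nat_lit 188))) (XT.nd (nat_lit 78) (nat_lit 228) (nat_lit 0) (XT.lf (nat_lit 0) (nat_lit 14188179545) (nat_lit 152) (nat_lit 582921729) (nat_lit 228) (nat_lit 6878235635) (nat_lit 29) (nat_lit 5) (nat_lit 31) (nat_lit 5) (nat_lit 32) (nat_lit 5) (nat_lit 290) (nat_lit 243) (nat_lit 187)) (XT.nd (nat_lit 78) (nat_lit 76) (nat_lit 0) (XT.lf (nat_lit 0) (nat_lit 4193077598) (nat_lit 152) (nat_lit 15900470605) (nat_lit 228) (nat_lit 2398216740) (nat_lit 27) (nat_lit 5) (nat_lit 29) (nat_lit 5) (nat_lit 30) (nat_lit 5) (nat_lit 291) (nat_lit 243) (nat_lit 186)) (XT.lf (nat_lit 0) (nat_lit 2302126458) (nat_lit 228) (nat_lit 6882808845) (nat_lit 76) (nat_lit 14189534552)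 (nat_lit 26) (nat_lit 5) (nat_lit 29) (nat_lit 5) (nat_lit 27) (nat_lit 5) (nat_lit 292) (nat_lit 243) (nat_lit 185)))))) (XT.nd (nat_lit 390) (nat_lit 304) (nat_lit 0) (XT.nd (nat_lit 156) (nat_lit 380) (nat_lit 0) (XT.nd (nat_lit 78) (nat_lit 0) (nat_lit 0) (XT.lf (nat_lit 0) (nat_lit 5116712444) (nat_lit 152) (nat_lit 2080695724) (nat_lit 228) (nat_lit 17102960999) (nat_lit 24) (nat_lit 5) (nat_lit 26) (nat_lit 5) (nat_lit 27) (nat_lit 5) (nat_lit 293) (nat_lit 243) (nat_lit 184)) (XT.lf (nat_lit 0) (nat_lit 12421697102) (nat_lit 228) (nat_lit 7524799092) (nat_lit 76) (nat_lit 5323594337) (nat_lit 24) (nat_lit 5) (nat_lit 27) (nat_lit 5) (nat_lit 25) (nat_lit 5) (nat_lit 294) (nat_lit 243) (nat_lit 183))) (XT.nd (nat_lit 78) (nat_lit 228) (nat_lit 0) (XT.lf (nat_lit 0) (nat_lit 4729241096) (nat_lit 152) (nat_lit 13207263847) (nat_lit 228) (nat_lit 8350965677) (nat_lit 22) (nat_lit 5)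 (nat_lit 24) (nat_lit 5) (nat_lit 25) (nat_lit 5) (nat_lit 295) (nat_lit 243) (nat_lit 182)) (XT.nd (nat_lit 78) (nat_lit 228) (nat_lit 0) (XT.lf (nat_lit 0) (nat_lit 17695878059) (nat_lit 152) (nat_lit 6072697501) (nat_lit 228) (nat_lit 3585947811) (nat_lit 22) (nat_lit 5) (nat_lit 24) (nat_lit 5) (nat_lit 25) (nat_lit 5) (nat_lit 296) (nat_lit 243) (nat_lit 181)) (XT.lf (nat_lit 0) (nat_lit 1396018915) (nat_lit 228) (nat_lit 25666624095) (nat_lit 76) (nat_lit 1411731981) (nat_lit 19) (nat_lit 5) (nat_lit 22) (nat_lit 5) (nat_lit 20) (nat_lit 5) (nat_lit 297) (nat_lit 243) (nat_lit 180))))) (XT.nd (nat_lit 234) (nat_lit 152) (nat_lit 0) (XT.nd (nat_lit 78) (nat_lit 152) (nat_lit 0) (XT.lf (nat_lit 0) (nat_lit 6681639332) (nat_lit 228) (nat_lit 13701024624) (nat_lit 76) (nat_lit 9262671992) (nat_lit 19) (nat_lit 5) (nat_lit 22) (nat_lit 5) (nat_lit 20) (nat_lit 5) (nat_lit 298) (nat_lit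 243) (nat_lit 179)) (XT.nd (nat_lit 78) (nat_lit 152) (nat_lit 0) (XT.lf (nat_lit 0) (nat_lit 12199468373) (nat_lit 228) (nat_lit 1189165148) (nat_lit 76) (nat_lit 17487214972) (nat_lit 19) (nat_lit 5) (nat_lit 22) (nat_lit 5) (nat_lit 20) (nat_lit 5) (nat_lit 299) (nat_lit 243) (nat_lit 178)) (XT.lf (nat_lit 0) (nat_lit 12135552819) (nat_lit 152) (nat_lit 5943745265) (nat_lit 228) (nat_lit 14086044705) (nat_lit 17) (nat_lit 5) (nat_lit 19) (nat_lit 5) (nat_lit 20) (nat_lit 5) (nat_lit 300) (nat_lit 243) (nat_lit 177)))) (XT.nd (nat_lit 78) (nat_lit 152) (nat_lit 0) (XT.lf (nat_lit 0) (nat_lit 24253758339) (nat_lit 228) (nat_lit 7434585473) (nat_lit 76) (nat_lit 1830986336) (nat_lit 17) (nat_lit 5) (nat_lit 20) (nat_lit 5) (nat_lit 18) (nat_lit 4) (nat_lit 301) (nat_lit 243) (nat_lit 176)) (XT.nd (nat_lit 78) (nat_lit 76) (nat_lit 0) (XT.lf (nat_lit 0) (nat_lit 5796966027) (nat_lit 76) (nat_lit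 25027375325) (nat_lit 152) (nat_lit 4114089269) (nat_lit 16) (nat_lit 5) (nat_lit 17) (nat_lit 5) (nat_lit 18) (nat_lit 4) (nat_lit 302) (nat_lit 243) (nat_lit 175)) (XT.lf (nat_lit 0) (nat_lit 1319281404) (nat_lit 152) (nat_lit 16639731447) (nat_lit 76) (nat_lit 18467645361) (nat_lit 15) (nat_lit 5) (nat_lit 17) (nat_lit 5) (nat_lit 16) (nat_lit 5) (nat_lit 303) (nat_lit 243) (nat_lit 174))))))) (XT.nd (nat_lit 858) (nat_lit 304) (nat_lit 0) (XT.nd (nat_lit 390) (nat_lit 228) (nat_lit 0) (XT.nd (nat_lit 156) (nat_lit 76) (nat_lit 0) (XT.nd (nat_lit 78) (nat_lit 152) (nat_lit 0) (XT.lf (nat_lit 0) (nat_lit 6913638487) (nat_lit 152) (nat_lit 3598047202) (nat_lit 76) (nat_lit 27477188852) (nat_lit 15) (nat_lit 5) (nat_lit 17) (nat_lit 5) (nat_lit 16) (nat_lit 5) (nat_lit 304) (nat_lit 243) (nat_lit 173)) (XT.lf (nat_lit 0) (nat_lit 10254284946) (nat_lit 152) (nat_lit 2606868088) (nat_lit 228)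 (nat_lit 26765875433) (nat_lit 13) (nat_lit 5) (nat_lit 15) (nat_lit 5) (nat_lit 16) (nat_lit 5) (nat_lit 305) (nat_lit 243) (nat_lit 172))) (XT.nd (nat_lit 78) (nat_lit 76) (nat_lit 0) (XT.lf (nat_lit 0) (nat_lit 19173699217) (nat_lit 228) (nat_lit 16567597730) (nat_lit 76) (nat_lit 5603792008) (nat_lit 13) (nat_lit 5) (nat_lit 16) (nat_lit 5) (nat_lit 14) (nat_lit 4) (nat_lit 306) (nat_lit 243) (nat_lit 171)) (XT.nd (nat_lit 78) (nat_lit 76) (nat_lit 0) (XT.lf (nat_lit 0) (nat_lit 25804874021) (nat_lit 228) (nat_lit 3187504457) (nat_lit 76) (nat_lit 14156611136) (nat_lit 13) (nat_lit 5) (nat_lit 16) (nat_lit 5) (nat_lit 14) (nat_lit 4) (nat_lit 307) (nat_lit 243) (nat_lit 170)) (XT.lf (nat_lit 0) (nat_lit 11039880301) (nat_lit 76) (nat_lit 21811648928) (nat_lit 152) (nat_lit 12189064316) (nat_lit 12) (nat_lit 5) (nat_lit 13) (nat_lit 5) (nat_lit 14) (nat_lit 4) (nat_lit 308) (nat_lit 243)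 (nat_lit 169))))) (XT.nd (nat_lit 234) (nat_lit 0) (nat_lit 0) (XT.nd (nat_lit 78) (nat_lit 228) (nat_lit 0) (XT.lf (nat_lit 0) (nat_lit 26009167400) (nat_lit 76) (nat_lit 14252672299) (nat_lit 152) (nat_lit 6764622955) (nat_lit 12) (nat_lit 5) (nat_lit 13) (nat_lit 5) (nat_lit 14) (nat_lit 4) (nat_lit 309) (nat_lit 243) (nat_lit 168)) (XT.nd (nat_lit 78) (nat_lit 228) (nat_lit 0) (XT.lf (nat_lit 0) (nat_lit 41692560410) (nat_lit 76) (nat_lit 6329638574) (nat_lit 152) (nat_lit 1090063719) (nat_lit 12) (nat_lit 5) (nat_lit 13) (nat_lit 5) (nat_lit 14) (nat_lit 4) (nat_lit 310) (nat_lit 243) (nat_lit 167)) (XT.lf (nat_lit 0) (nat_lit 4840086166) (nat_lit 228) (nat_lit 44406955219) (nat_lit 76) (nat_lit 2051923414) (nat_lit 9) (nat_lit 5) (nat_lit 12) (nat_lit 5) (nat_lit 10) (nat_lit 4) (nat_lit 311) (nat_lit 243) (nat_lit 166)))) (XT.nd (nat_lit 78) (nat_lit 0) (nat_lit 0) (XT.lf (nat_lit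 0) (nat_lit 11166227023) (nat_lit 228) (nat_lit 31626652119) (nat_lit 76) (nat_lit 10798158925) (nat_lit 9) (nat_lit 5) (nat_lit 12) (nat_lit 5) (nat_lit 10) (nat_lit 4) (nat_lit 312) (nat_lit 243) (nat_lit 165)) (XT.nd (nat_lit 78) (nat_lit 0) (nat_lit 0) (XT.lf (nat_lit 0) (nat_lit 17790385405) (nat_lit 228) (nat_lit 18238432358) (nat_lit 76) (nat_lit 19969465617) (nat_lit 9) (nat_lit 5) (nat_lit 12) (nat_lit 5) (nat_lit 10) (nat_lit 4) (nat_lit 313) (nat_lit 243) (nat_lit 164)) (XT.lf (nat_lit 0) (nat_lit 24728333116) (nat_lit 228) (nat_lit 4210419221) (nat_lit 76) (nat_lit 29587679934) (nat_lit 9) (nat_lit 5) (nat_lit 12) (nat_lit 5) (nat_lit 10) (nat_lit 4) (nat_lit 314) (nat_lit 243) (nat_lit 163)))))) (XT.nd (nat_lit 390) (nat_lit 152) (nat_lit 0) (XT.nd (nat_lit 156) (nat_lit 76) (nat_lit 0) (XT.nd (nat_lit 78) (nat_lit 0) (nat_lit 0) (XT.lf (nat_lit 0) (nat_lit 10699574558) (nat_lit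 76) (nat_lit 21399865378) (nat_lit 152) (nat_lit 29078978684) (nat_lit 8) (nat_lit 5) (nat_lit 9) (nat_lit 5) (nat_lit 10) (nat_lit 4) (nat_lit 315) (nat_lit 243) (nat_lit 162)) (XT.lf (nat_lit 0) (nat_lit 26415654711) (nat_lit 76) (nat_lit 13450727390) (nat_lit 152) (nat_lit 24095820798) (nat_lit 8) (nat_lit 5) (nat_lit 9) (nat_lit 5) (nat_lit 10) (nat_lit 4) (nat_lit 316) (nat_lit 243) (nat_lit 161))) (XT.nd (nat_lit 78) (nat_lit 76) (nat_lit 0) (XT.lf (nat_lit 0) (nat_lit 42891444877) (nat_lit 76) (nat_lit 5114928834) (nat_lit 152) (nat_lit 18879277813) (nat_lit 8) (nat_lit 5) (nat_lit 9) (nat_lit 5) (nat_lit 10) (nat_lit 4) (nat_lit 317) (nat_lit 243) (nat_lit 160)) (XT.nd (nat_lit 78) (nat_lit 76) (nat_lit 0) (XT.lf (nat_lit 0) (nat_lit 56573664268) (nat_lit 152) (nat_lit 9824420533) (nat_lit 0) (nat_lit 3556594229) (nat_lit 8) (nat_lit 5) (nat_lit 10) (nat_lit 4) (nat_lit 8) (nat_lit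 4) (nat_lit 318) (nat_lit 243) (nat_lit 159)) (XT.lf (nat_lit 0) (nat_lit 5077300236) (nat_lit 76) (nat_lit 60578481884) (nat_lit 76) (nat_lit 7518796604) (nat_lit 7) (nat_lit 4) (nat_lit 8) (nat_lit 5) (nat_lit 8) (nat_lit 4) (nat_lit 319) (nat_lit 243) (nat_lit 158))))) (XT.nd (nat_lit 234) (nat_lit 76) (nat_lit 0) (XT.nd (nat_lit 78) (nat_lit 76) (nat_lit 0) (XT.lf (nat_lit 0) (nat_lit 20906091783) (nat_lit 76) (nat_lit 54373519342) (nat_lit 76) (nat_lit 1273248118) (nat_lit 7) (nat_lit 4) (nat_lit 8) (nat_lit 5) (nat_lit 8) (nat_lit 4) (nat_lit 320) (nat_lit 243) (nat_lit 157)) (XT.nd (nat_lit 78) (nat_lit 0) (nat_lit 0) (XT.lf (nat_lit 0) (nat_lit 5168431739) (nat_lit 152) (nat_lit 42647008072) (nat_lit 76) (nat_lit 32283493707) (nat_lit 6) (nat_lit 5) (nat_lit 8) (nat_lit 5) (nat_lit 7) (nat_lit 4) (nat_lit 321) (nat_lit 243) (nat_lit 156)) (XT.lf (nat_lit 0) (nat_lit 11893702978)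 (nat_lit 152) (nat_lit 29031520104) (nat_lit 76) (nat_lit 42897087355) (nat_lit 6) (nat_lit 5) (nat_lit 8) (nat_lit 5) (nat_lit 7) (nat_lit 4) (nat_lit 322) (nat_lit 243) (nat_lit 155)))) (XT.nd (nat_lit 78) (nat_lit 76) (nat_lit 0) (XT.lf (nat_lit 0) (nat_lit 18943423806) (nat_lit 152) (nat_lit 14755646487) (nat_lit 76) (nat_lit 54033152066) (nat_lit 6) (nat_lit 5) (nat_lit 8) (nat_lit 5) (nat_lit 7) (nat_lit 4) (nat_lit 323) (nat_lit 243) (nat_lit 154)) (XT.nd (nat_lit 78) (nat_lit 0) (nat_lit 0) (XT.lf (nat_lit 0) (nat_lit 218873972) (nat_lit 76) (nat_lit 26117609250) (nat_lit 152) (nat_lit 65501432258) (nat_lit 5) (nat_lit 5) (nat_lit 6) (nat_lit 5) (nat_lit 7) (nat_lit 4) (nat_lit 324) (nat_lit 243) (nat_lit 153)) (XT.lf (nat_lit 0) (nat_lit 16231608819) (nat_lit 76) (nat_lit 18008586224) (nat_lit 152) (nat_lit 61904478879) (nat_lit 5) (nat_lit 5) (nat_lit 6) (nat_lit 5) (nat_lit 7)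 (nat_lit 4) (nat_lit 325) (nat_lit 243) (nat_lit 152))))))))
noncomputable def xc58 : XT := (XT.nd (nat_lit 32448) (nat_lit 0) (nat_lit 2964) (XT.nd (nat_lit 31590) (nat_lit 0) (nat_lit 9880) (XT.nd (nat_lit 31200) (nat_lit 0) (nat_lit 15884) (XT.nd (nat_lit 156) (nat_lit 0) (nat_lit 0) (XT.nd (nat_lit 78) (nat_lit 0) (nat_lit 0) (XT.lf (nat_lit 0) (nat_lit 33027017316) (nat_lit 76) (nat_lit 9501697113) (nat_lit 152) (nat_lit 58138377338) (nat_lit 5) (nat_lit 5) (nat_lit 6) (nat_lit 5) (nat_lit 7) (nat_lit 4) (nat_lit 326) (nat_lit 243) (nat_lit 151)) (XT.lf (nat_lit 0) (nat_lit 50645088529) (nat_lit 76) (nat_lit 576687420) (nat_lit 152) (nat_lit 54194160727) (nat_lit 5) (nat_lit 5) (nat_lit 6) (nat_lit 5) (nat_lit 7) (nat_lit 4) (nat_lit 327) (nat_lit 243) (nat_lit 150))) (XT.nd (nat_lit 78) (nat_lit 0) (nat_lit 0) (XT.lf (nat_lit 0) (nat_lit 60424550049) (nat_lit 152) (nat_lit 41359217856)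 (nat_lit 0) (nat_lit 8616213338) (nat_lit 5) (nat_lit 5) (nat_lit 7) (nat_lit 4) (nat_lit 5) (nat_lit 4) (nat_lit 328) (nat_lit 243) (nat_lit 149)) (XT.nd (nat_lit 30888) (nat_lit 0) (nat_lit 17480) (XT.lf (nat_lit 0) (nat_lit 70084255586) (nat_lit 152) (nat_lit 27298558614) (nat_lit 0) (nat_lit 18250518816) (nat_lit 5) (nat_lit 5) (nat_lit 7) (nat_lit 4) (nat_lit 5) (nat_lit 4) (nat_lit 329) (nat_lit 243) (nat_lit 148)) (XT.lf (nat_lit 0) (nat_lit 1426853467) (nat_lit 0) (nat_lit 1426853467) (nat_lit 380) (nat_lit 465481197) (nat_lit 235) (nat_lit 5) (nat_lit 235) (nat_lit 3) (nat_lit 240) (nat_lit 3) (nat_lit 244) (nat_lit 244) (nat_lit 232))))) (XT.nd (nat_lit 156) (nat_lit 1064) (nat_lit 0) (XT.nd (nat_lit 78) (nat_lit 0) (nat_lit 76) (XT.lf (nat_lit 76) (nat_lit 921915256) (nat_lit 0) (nat_lit 1482393597) (nat_lit 532) (nat_lit 4286993058) (nat_lit 229) (nat_lit 5) (nat_lit 228) (nat_lit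 3) (nat_lit 235) (nat_lit 5) (nat_lit 245) (nat_lit 244) (nat_lit 231)) (XT.lf (nat_lit 0) (nat_lit 5712874842) (nat_lit 456) (nat_lit 932835715) (nat_lit 532) (nat_lit 106952494) (nat_lit 229) (nat_lit 5) (nat_lit 235) (nat_lit 5) (nat_lit 236) (nat_lit 5) (nat_lit 246) (nat_lit 244) (nat_lit 230))) (XT.nd (nat_lit 78) (nat_lit 608) (nat_lit 0) (XT.lf (nat_lit 0) (nat_lit 2172435558) (nat_lit 532) (nat_lit 2748083500) (nat_lit 608) (nat_lit 1901198784) (nat_lit 222) (nat_lit 5) (nat_lit 229) (nat_lit 5) (nat_lit 230) (nat_lit 5) (nat_lit 247) (nat_lit 244) (nat_lit 229)) (XT.nd (nat_lit 78) (nat_lit 608) (nat_lit 0) (XT.lf (nat_lit 76) (nat_lit 2375449292) (nat_lit 0) (nat_lit 2983805370) (nat_lit 608) (nat_lit 1540336286) (nat_lit 223) (nat_lit 5) (nat_lit 222) (nat_lit 5) (nat_lit 230) (nat_lit 5) (nat_lit 248) (nat_lit 244) (nat_lit 228)) (XT.lf (nat_lit 76) (nat_lit 711651258) (nat_lit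 0) (nat_lit 822675641) (nat_lit 684) (nat_lit 5451899640) (nat_lit 215) (nat_lit 5) (nat_lit 214) (nat_lit 5) (nat_lit 223) (nat_lit 5) (nat_lit 249) (nat_lit 244) (nat_lit 227)))))) (XT.nd (nat_lit 390) (nat_lit 3952) (nat_lit 0) (XT.nd (nat_lit 156) (nat_lit 1444) (nat_lit 0) (XT.nd (nat_lit 78) (nat_lit 684) (nat_lit 0) (XT.lf (nat_lit 0) (nat_lit 4609292356) (nat_lit 608) (nat_lit 922849010) (nat_lit 684) (nat_lit 1548893091) (nat_lit 215) (nat_lit 5) (nat_lit 223) (nat_lit 5) (nat_lit 224) (nat_lit 5) (nat_lit 250) (nat_lit 244) (nat_lit 226)) (XT.lf (nat_lit 0) (nat_lit 521822764) (nat_lit 684) (nat_lit 2525932337) (nat_lit 760) (nat_lit 4136923033) (nat_lit 206) (nat_lit 5) (nat_lit 215) (nat_lit 5) (nat_lit 216) (nat_lit 5) (nat_lit 251) (nat_lit 244) (nat_lit 225))) (XT.nd (nat_lit 78) (nat_lit 1444) (nat_lit 0) (XT.lf (nat_lit 76) (nat_lit 3166438184) (nat_lit 0) (nat_lit 318896178)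 (nat_lit 760) (nat_lit 3811866955) (nat_lit 207) (nat_lit 5) (nat_lit 206) (nat_lit 5) (nat_lit 216) (nat_lit 5) (nat_lit 252) (nat_lit 244) (nat_lit 224)) (XT.nd (nat_lit 78) (nat_lit 836) (nat_lit 0) (XT.lf (nat_lit 0) (nat_lit 1671153205) (nat_lit 684) (nat_lit 4831000354) (nat_lit 760) (nat_lit 916588986) (nat_lit 198) (nat_lit 5) (nat_lit 207) (nat_lit 5) (nat_lit 208) (nat_lit 5) (nat_lit 253) (nat_lit 244) (nat_lit 223)) (XT.lf (nat_lit 0) (nat_lit 164966426) (nat_lit 760) (nat_lit 1807677106) (nat_lit 836) (nat_lit 5576890850) (nat_lit 187) (nat_lit 5) (nat_lit 197) (nat_lit 5) (nat_lit 198) (nat_lit 5) (nat_lit 254) (nat_lit 244) (nat_lit 222))))) (XT.nd (nat_lit 234) (nat_lit 2128) (nat_lit 0) (XT.nd (nat_lit 78) (nat_lit 1824) (nat_lit 0) (XT.lf (nat_lit 0) (nat_lit 4910043302) (nat_lit 836) (nat_lit 1335355997) (nat_lit 76) (nat_lit 1443995074) (nat_lit 187) (nat_lit 5) (nat_lit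 198) (nat_lit 5) (nat_lit 188) (nat_lit 5) (nat_lit 255) (nat_lit 244) (nat_lit 221)) (XT.nd (nat_lit 78) (nat_lit 912) (nat_lit 0) (XT.lf (nat_lit 0) (nat_lit 76646497) (nat_lit 912) (nat_lit 2859319220) (nat_lit 76) (nat_lit 4903030561) (nat_lit 175) (nat_lit 5) (nat_lit 187) (nat_lit 5) (nat_lit 176) (nat_lit 5) (nat_lit 256) (nat_lit 244) (nat_lit 220)) (XT.lf (nat_lit 0) (nat_lit 2933580491) (nat_lit 988) (nat_lit 4435110452) (nat_lit 76) (nat_lit 629516544) (nat_lit 163) (nat_lit 5) (nat_lit 176) (nat_lit 5) (nat_lit 164) (nat_lit 5) (nat_lit 257) (nat_lit 244) (nat_lit 219)))) (XT.nd (nat_lit 78) (nat_lit 1140) (nat_lit 0) (XT.lf (nat_lit 0) (nat_lit 2096829034) (nat_lit 988) (nat_lit 3782540471) (nat_lit 1064) (nat_lit 2288032634) (nat_lit 150) (nat_lit 5) (nat_lit 163) (nat_lit 5) (nat_lit 164) (nat_lit 5) (nat_lit 258) (nat_lit 244) (nat_lit 218)) (XT.nd (nat_lit 78) (nat_lit 0)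 (nat_lit 0) (XT.lf (nat_lit 0) (nat_lit 537630235) (nat_lit 1140) (nat_lit 7754354998) (nat_lit 76) (nat_lit 55588675) (nat_lit 135) (nat_lit 5) (nat_lit 150) (nat_lit 5) (nat_lit 136) (nat_lit 5) (nat_lit 259) (nat_lit 244) (nat_lit 217)) (XT.lf (nat_lit 0) (nat_lit 3434329063) (nat_lit 1140) (nat_lit 996296876) (nat_lit 76) (nat_lit 4106491534) (nat_lit 135) (nat_lit 5) (nat_lit 150) (nat_lit 5) (nat_lit 136) (nat_lit 5) (nat_lit 260) (nat_lit 244) (nat_lit 216))))))) (XT.nd (nat_lit 858) (nat_lit 2508) (nat_lit 0) (XT.nd (nat_lit 390) (nat_lit 2128) (nat_lit 0) (XT.nd (nat_lit 156) (nat_lit 1064) (nat_lit 0) (XT.nd (nat_lit 78) (nat_lit 608) (nat_lit 0) (XT.lf (nat_lit 0) (nat_lit 6107816793) (nat_lit 608) (nat_lit 308039008) (nat_lit 684) (nat_lit 2322420724) (nat_lit 127) (nat_lit 5) (nat_lit 135) (nat_lit 5) (nat_lit 136) (nat_lit 5) (nat_lit 261) (nat_lit 244) (nat_lit 215)) (XT.lf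 (nat_lit 0) (nat_lit 563760335) (nat_lit 608) (nat_lit 4378282403) (nat_lit 76) (nat_lit 4008237942) (nat_lit 119) (nat_lit 5) (nat_lit 127) (nat_lit 5) (nat_lit 120) (nat_lit 5) (nat_lit 262) (nat_lit 244) (nat_lit 214))) (XT.nd (nat_lit 78) (nat_lit 532) (nat_lit 0) (XT.lf (nat_lit 0) (nat_lit 2937006580) (nat_lit 532) (nat_lit 557306174) (nat_lit 608) (nat_lit 5679737390) (nat_lit 112) (nat_lit 5) (nat_lit 119) (nat_lit 5) (nat_lit 120) (nat_lit 5) (nat_lit 263) (nat_lit 244) (nat_lit 213)) (XT.nd (nat_lit 78) (nat_lit 76) (nat_lit 0) (XT.lf (nat_lit 0) (nat_lit 1174205602) (nat_lit 456) (nat_lit 5386091522) (nat_lit 532) (nat_lit 2849327383) (nat_lit 106) (nat_lit 5) (nat_lit 112) (nat_lit 5) (nat_lit 113) (nat_lit 5) (nat_lit 264) (nat_lit 244) (nat_lit 212)) (XT.lf (nat_lit 0) (nat_lit 86642269) (nat_lit 532) (nat_lit 686540412) (nat_lit 76) (nat_lit 8885028793) (nat_lit 105) (nat_lit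 5) (nat_lit 112) (nat_lit 5) (nat_lit 106) (nat_lit 5) (nat_lit 265) (nat_lit 244) (nat_lit 211))))) (XT.nd (nat_lit 234) (nat_lit 836) (nat_lit 0) (XT.nd (nat_lit 78) (nat_lit 836) (nat_lit 0) (XT.lf (nat_lit 0) (nat_lit 3121658290) (nat_lit 532) (nat_lit 2712241835) (nat_lit 76) (nat_lit 4084395740) (nat_lit 99) (nat_lit 5) (nat_lit 106) (nat_lit 5) (nat_lit 100) (nat_lit 5) (nat_lit 266) (nat_lit 244) (nat_lit 210)) (XT.nd (nat_lit 78) (nat_lit 456) (nat_lit 0) (XT.lf (nat_lit 0) (nat_lit 5306972234) (nat_lit 380) (nat_lit 971999053) (nat_lit 456) (nat_lit 3913534616) (nat_lit 94) (nat_lit 5) (nat_lit 99) (nat_lit 5) (nat_lit 100) (nat_lit 5) (nat_lit 267) (nat_lit 244) (nat_lit 209)) (XT.lf (nat_lit 0) (nat_lit 3222072151) (nat_lit 456) (nat_lit 6379029196) (nat_lit 532) (nat_lit 879343042) (nat_lit 88) (nat_lit 5) (nat_lit 94) (nat_lit 5) (nat_lit 95) (nat_lit 5) (nat_lit 268) (nat_lit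 244) (nat_lit 208)))) (XT.nd (nat_lit 78) (nat_lit 380) (nat_lit 0) (XT.lf (nat_lit 0) (nat_lit 937682034) (nat_lit 380) (nat_lit 1303844123) (nat_lit 456) (nat_lit 8541398581) (nat_lit 82) (nat_lit 5) (nat_lit 87) (nat_lit 5) (nat_lit 88) (nat_lit 5) (nat_lit 269) (nat_lit 244) (nat_lit 207)) (XT.nd (nat_lit 78) (nat_lit 380) (nat_lit 0) (XT.lf (nat_lit 0) (nat_lit 5528090656) (nat_lit 456) (nat_lit 1555059069) (nat_lit 76) (nat_lit 4016482496) (nat_lit 82) (nat_lit 5) (nat_lit 88) (nat_lit 5) (nat_lit 83) (nat_lit 5) (nat_lit 270) (nat_lit 244) (nat_lit 206)) (XT.lf (nat_lit 0) (nat_lit 7177793345) (nat_lit 380) (nat_lit 1800984431) (nat_lit 456) (nat_lit 2453593421) (nat_lit 77) (nat_lit 5) (nat_lit 82) (nat_lit 5) (nat_lit 83) (nat_lit 5) (nat_lit 271) (nat_lit 244) (nat_lit 205)))))) (XT.nd (nat_lit 390) (nat_lit 1064) (nat_lit 0) (XT.nd (nat_lit 156) (nat_lit 684) (nat_lit 0) (XT.nd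 (nat_lit 78) (nat_lit 380) (nat_lit 0) (XT.lf (nat_lit 0) (nat_lit 820642732) (nat_lit 380) (nat_lit 7236598067) (nat_lit 76) (nat_lit 3723953516) (nat_lit 72) (nat_lit 5) (nat_lit 77) (nat_lit 5) (nat_lit 73) (nat_lit 5) (nat_lit 272) (nat_lit 244) (nat_lit 204)) (XT.lf (nat_lit 0) (nat_lit 1617468849) (nat_lit 380) (nat_lit 2591225001) (nat_lit 456) (nat_lit 7938177803) (nat_lit 67) (nat_lit 5) (nat_lit 72) (nat_lit 5) (nat_lit 73) (nat_lit 5) (nat_lit 273) (nat_lit 244) (nat_lit 203))) (XT.nd (nat_lit 78) (nat_lit 684) (nat_lit 0) (XT.lf (nat_lit 0) (nat_lit 7796657750) (nat_lit 456) (nat_lit 1590772406) (nat_lit 76) (nat_lit 3142646701) (nat_lit 67) (nat_lit 5) (nat_lit 73) (nat_lit 5) (nat_lit 68) (nat_lit 5) (nat_lit 274) (nat_lit 244) (nat_lit 202)) (XT.nd (nat_lit 78) (nat_lit 380) (nat_lit 0) (XT.lf (nat_lit 0) (nat_lit 7829378686) (nat_lit 304) (nat_lit 3764643306) (nat_lit 380)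 (nat_lit 1337671987) (nat_lit 63) (nat_lit 5) (nat_lit 67) (nat_lit 5) (nat_lit 68) (nat_lit 5) (nat_lit 275) (nat_lit 244) (nat_lit 201)) (XT.lf (nat_lit 0) (nat_lit 2194426739) (nat_lit 380) (nat_lit 9000652260) (nat_lit 76) (nat_lit 2157509641) (nat_lit 58) (nat_lit 5) (nat_lit 63) (nat_lit 5) (nat_lit 59) (nat_lit 5) (nat_lit 276) (nat_lit 244) (nat_lit 200))))) (XT.nd (nat_lit 234) (nat_lit 532) (nat_lit 0) (XT.nd (nat_lit 78) (nat_lit 304) (nat_lit 0) (XT.lf (nat_lit 0) (nat_lit 459247620) (nat_lit 228) (nat_lit 5444502980) (nat_lit 304) (nat_lit 7889665156) (nat_lit 55) (nat_lit 5) (nat_lit 58) (nat_lit 5) (nat_lit 59) (nat_lit 5) (nat_lit 277) (nat_lit 244) (nat_lit 199)) (XT.nd (nat_lit 78) (nat_lit 304) (nat_lit 0) (XT.lf (nat_lit 0) (nat_lit 9832540679) (nat_lit 304) (nat_lit 3769439228) (nat_lit 76) (nat_lit 653411563) (nat_lit 55) (nat_lit 5) (nat_lit 59) (nat_lit 5) (nat_lit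 56) (nat_lit 5) (nat_lit 278) (nat_lit 244) (nat_lit 198)) (XT.lf (nat_lit 0) (nat_lit 6255361070) (nat_lit 304) (nat_lit 7755323497) (nat_lit 380) (nat_lit 728315158) (nat_lit 51) (nat_lit 5) (nat_lit 55) (nat_lit 5) (nat_lit 56) (nat_lit 5) (nat_lit 279) (nat_lit 244) (nat_lit 197)))) (XT.nd (nat_lit 78) (nat_lit 228) (nat_lit 0) (XT.lf (nat_lit 0) (nat_lit 1529568766) (nat_lit 228) (nat_lit 1553070722) (nat_lit 304) (nat_lit 12163556939) (nat_lit 47) (nat_lit 5) (nat_lit 50) (nat_lit 5) (nat_lit 51) (nat_lit 5) (nat_lit 280) (nat_lit 244) (nat_lit 196)) (XT.nd (nat_lit 78) (nat_lit 228) (nat_lit 0) (XT.lf (nat_lit 0) (nat_lit 7146258322) (nat_lit 304) (nat_lit 3694684054) (nat_lit 76) (nat_lit 4935385598) (nat_lit 47) (nat_lit 5) (nat_lit 51) (nat_lit 5) (nat_lit 48) (nat_lit 5) (nat_lit 281) (nat_lit 244) (nat_lit 195)) (XT.lf (nat_lit 0) (nat_lit 6867273900) (nat_lit 228) (nat_lit 4571444623)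 (nat_lit 304) (nat_lit 4893579398) (nat_lit 44) (nat_lit 5) (nat_lit 47) (nat_lit 5) (nat_lit 48) (nat_lit 5) (nat_lit 282) (nat_lit 244) (nat_lit 194))))))))
noncomputable def xc59 : XT := (XT.nd (nat_lit 1638) (nat_lit 836) (nat_lit 0) (XT.nd (nat_lit 780) (nat_lit 836) (nat_lit 0) (XT.nd (nat_lit 390) (nat_lit 608) (nat_lit 0) (XT.nd (nat_lit 156) (nat_lit 380) (nat_lit 0) (XT.nd (nat_lit 78) (nat_lit 76) (nat_lit 0) (XT.lf (nat_lit 0) (nat_lit 1041590378) (nat_lit 228) (nat_lit 14917647418) (nat_lit 304) (nat_lit 956522286) (nat_lit 41) (nat_lit 5) (nat_lit 44) (nat_lit 5) (nat_lit 45) (nat_lit 5) (nat_lit 283) (nat_lit 244) (nat_lit 193)) (XT.lf (nat_lit 0) (nat_lit 3206845080) (nat_lit 304) (nat_lit 5409320514) (nat_lit 76) (nat_lit 8908659176) (nat_lit 40) (nat_lit 5) (nat_lit 44) (nat_lit 5) (nat_lit 41) (nat_lit 5) (nat_lit 284) (nat_lit 244) (nat_lit 192))) (XT.nd (nat_lit 78)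 (nat_lit 152) (nat_lit 0) (XT.lf (nat_lit 0) (nat_lit 5604648883) (nat_lit 228) (nat_lit 1957456611) (nat_lit 304) (nat_lit 10601933111) (nat_lit 37) (nat_lit 5) (nat_lit 40) (nat_lit 5) (nat_lit 41) (nat_lit 5) (nat_lit 285) (nat_lit 244) (nat_lit 191)) (XT.nd (nat_lit 78) (nat_lit 152) (nat_lit 0) (XT.lf (nat_lit 0) (nat_lit 12190701828) (nat_lit 304) (nat_lit 1673174494) (nat_lit 76) (nat_lit 4969750804) (nat_lit 37) (nat_lit 5) (nat_lit 41) (nat_lit 5) (nat_lit 38) (nat_lit 5) (nat_lit 286) (nat_lit 244) (nat_lit 190)) (XT.lf (nat_lit 0) (nat_lit 9860440934) (nat_lit 152) (nat_lit 7258110331) (nat_lit 228) (nat_lit 2416186424) (nat_lit 35) (nat_lit 5) (nat_lit 37) (nat_lit 5) (nat_lit 38) (nat_lit 5) (nat_lit 287) (nat_lit 244) (nat_lit 189))))) (XT.nd (nat_lit 156) (nat_lit 304) (nat_lit 0) (XT.nd (nat_lit 78) (nat_lit 0) (nat_lit 0) (XT.lf (nat_lit 0) (nat_lit 1679937602) (nat_lit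 228) (nat_lit 290378017) (nat_lit 304) (nat_lit 18300440163) (nat_lit 31) (nat_lit 5) (nat_lit 34) (nat_lit 5) (nat_lit 35) (nat_lit 5) (nat_lit 288) (nat_lit 244) (nat_lit 188)) (XT.lf (nat_lit 0) (nat_lit 6650402959) (nat_lit 304) (nat_lit 7397211351) (nat_lit 76) (nat_lit 6991583957) (nat_lit 31) (nat_lit 5) (nat_lit 35) (nat_lit 5) (nat_lit 32) (nat_lit 5) (nat_lit 289) (nat_lit 244) (nat_lit 187))) (XT.nd (nat_lit 78) (nat_lit 152) (nat_lit 0) (XT.lf (nat_lit 0) (nat_lit 4373960158) (nat_lit 152) (nat_lit 7193278187) (nat_lit 228) (nat_lit 10278807062) (nat_lit 29) (nat_lit 5) (nat_lit 31) (nat_lit 5) (nat_lit 32) (nat_lit 5) (nat_lit 290) (nat_lit 244) (nat_lit 186)) (XT.nd (nat_lit 78) (nat_lit 152) (nat_lit 0) (XT.lf (nat_lit 0) (nat_lit 16765819456) (nat_lit 228) (nat_lit 5867233400) (nat_lit 76) (nat_lit 59166683) (nat_lit 29) (nat_lit 5) (nat_lit 32) (nat_lit 5) (nat_lit 30) (nat_lit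 5) (nat_lit 291) (nat_lit 244) (nat_lit 185)) (XT.lf (nat_lit 0) (nat_lit 6307615253) (nat_lit 152) (nat_lit 16010870495) (nat_lit 228) (nat_lit 1259450760) (nat_lit 27) (nat_lit 5) (nat_lit 29) (nat_lit 5) (nat_lit 30) (nat_lit 5) (nat_lit 292) (nat_lit 244) (nat_lit 184)))))) (XT.nd (nat_lit 390) (nat_lit 456) (nat_lit 0) (XT.nd (nat_lit 156) (nat_lit 152) (nat_lit 0) (XT.nd (nat_lit 78) (nat_lit 152) (nat_lit 0) (XT.lf (nat_lit 0) (nat_lit 3592580875) (nat_lit 228) (nat_lit 5387709967) (nat_lit 76) (nat_lit 15525969498) (nat_lit 26) (nat_lit 5) (nat_lit 29) (nat_lit 5) (nat_lit 27) (nat_lit 5) (nat_lit 293) (nat_lit 244) (nat_lit 183)) (XT.lf (nat_lit 0) (nat_lit 7159065960) (nat_lit 152) (nat_lit 1534764856) (nat_lit 228) (nat_lit 16785867323) (nat_lit 24) (nat_lit 5) (nat_lit 26) (nat_lit 5) (nat_lit 27) (nat_lit 5) (nat_lit 294) (nat_lit 244) (nat_lit 182))) (XT.nd (nat_lit 78) (nat_lit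 152) (nat_lit 0) (XT.lf (nat_lit 0) (nat_lit 14131163012) (nat_lit 228) (nat_lit 6171553796) (nat_lit 76) (nat_lit 6196709752) (nat_lit 24) (nat_lit 5) (nat_lit 27) (nat_lit 5) (nat_lit 25) (nat_lit 5) (nat_lit 295) (nat_lit 244) (nat_lit 181)) (XT.nd (nat_lit 78) (nat_lit 0) (nat_lit 0) (XT.lf (nat_lit 0) (nat_lit 6645613054) (nat_lit 152) (nat_lit 13240418844) (nat_lit 228) (nat_lit 7682786379) (nat_lit 22) (nat_lit 5) (nat_lit 24) (nat_lit 5) (nat_lit 25) (nat_lit 5) (nat_lit 296) (nat_lit 244) (nat_lit 180)) (XT.lf (nat_lit 0) (nat_lit 20180586155) (nat_lit 152) (nat_lit 5778991237) (nat_lit 228) (nat_lit 2731218932) (nat_lit 22) (nat_lit 5) (nat_lit 24) (nat_lit 5) (nat_lit 25) (nat_lit 5) (nat_lit 297) (nat_lit 244) (nat_lit 179))))) (XT.nd (nat_lit 234) (nat_lit 76) (nat_lit 0) (XT.nd (nat_lit 78) (nat_lit 152) (nat_lit 0) (XT.lf (nat_lit 0) (nat_lit 2452241625) (nat_lit 228) (nat_lit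 25350024071) (nat_lit 76) (nat_lit 2064963063) (nat_lit 19) (nat_lit 5) (nat_lit 22) (nat_lit 5) (nat_lit 20) (nat_lit 5) (nat_lit 298) (nat_lit 244) (nat_lit 178)) (XT.nd (nat_lit 78) (nat_lit 152) (nat_lit 0) (XT.lf (nat_lit 0) (nat_lit 7955170599) (nat_lit 228) (nat_lit 12862331828) (nat_lit 76) (nat_lit 10280705099) (nat_lit 19) (nat_lit 5) (nat_lit 22) (nat_lit 5) (nat_lit 20) (nat_lit 5) (nat_lit 299) (nat_lit 244) (nat_lit 177)) (XT.lf (nat_lit 0) (nat_lit 206592750) (nat_lit 152) (nat_lit 13499548556) (nat_lit 228) (nat_lit 18685444588) (nat_lit 17) (nat_lit 5) (nat_lit 19) (nat_lit 5) (nat_lit 20) (nat_lit 5) (nat_lit 300) (nat_lit 244) (nat_lit 176)))) (XT.nd (nat_lit 78) (nat_lit 76) (nat_lit 0) (XT.lf (nat_lit 0) (nat_lit 14151917328) (nat_lit 152) (nat_lit 5697003680) (nat_lit 228) (nat_lit 13897620095) (nat_lit 17) (nat_lit 5) (nat_lit 19) (nat_lit 5) (nat_lit 20) (nat_lit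 5) (nat_lit 301) (nat_lit 244) (nat_lit 175)) (XT.nd (nat_lit 78) (nat_lit 76) (nat_lit 0) (XT.lf (nat_lit 0) (nat_lit 26295862063) (nat_lit 228) (nat_lit 6443050826) (nat_lit 76) (nat_lit 2430454545) (nat_lit 17) (nat_lit 5) (nat_lit 20) (nat_lit 5) (nat_lit 18) (nat_lit 4) (nat_lit 302) (nat_lit 244) (nat_lit 174)) (XT.lf (nat_lit 0) (nat_lit 7411000562) (nat_lit 76) (nat_lit 25757206561) (nat_lit 152) (nat_lit 3492068665) (nat_lit 16) (nat_lit 5) (nat_lit 17) (nat_lit 5) (nat_lit 18) (nat_lit 4) (nat_lit 303) (nat_lit 244) (nat_lit 173))))))) (XT.nd (nat_lit 858) (nat_lit 304) (nat_lit 0) (XT.nd (nat_lit 390) (nat_lit 304) (nat_lit 0) (XT.nd (nat_lit 156) (nat_lit 152) (nat_lit 0) (XT.nd (nat_lit 78) (nat_lit 0) (nat_lit 0) (XT.lf (nat_lit 0) (nat_lit 2158172303) (nat_lit 152) (nat_lit 16194283736) (nat_lit 76) (nat_lit 19871425502) (nat_lit 15) (nat_lit 5) (nat_lit 17) (nat_lit 5) (nat_lit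 16) (nat_lit 5) (nat_lit 304) (nat_lit 244) (nat_lit 172)) (XT.lf (nat_lit 0) (nat_lit 7995441200) (nat_lit 152) (nat_lit 2561345482) (nat_lit 76) (nat_lit 29308570078) (nat_lit 15) (nat_lit 5) (nat_lit 17) (nat_lit 5) (nat_lit 16) (nat_lit 5) (nat_lit 305) (nat_lit 244) (nat_lit 171))) (XT.nd (nat_lit 78) (nat_lit 0) (nat_lit 0) (XT.lf (nat_lit 0) (nat_lit 11948729561) (nat_lit 152) (nat_lit 2267908058) (nat_lit 228) (nat_lit 27369533384) (nat_lit 13) (nat_lit 5) (nat_lit 15) (nat_lit 5) (nat_lit 16) (nat_lit 5) (nat_lit 306) (nat_lit 244) (nat_lit 170)) (XT.nd (nat_lit 78) (nat_lit 0) (nat_lit 0) (XT.lf (nat_lit 0) (nat_lit 20815182431) (nat_lit 228) (nat_lit 16253665213) (nat_lit 76) (nat_lit 6322215546) (nat_lit 13) (nat_lit 5) (nat_lit 16) (nat_lit 5) (nat_lit 14) (nat_lit 4) (nat_lit 307) (nat_lit 244) (nat_lit 169)) (XT.lf (nat_lit 0) (nat_lit 27745401772) (nat_lit 228) (nat_lit 2258963105)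 (nat_lit 76) (nat_lit 15281807347) (nat_lit 13) (nat_lit 5) (nat_lit 16) (nat_lit 5) (nat_lit 14) (nat_lit 4) (nat_lit 308) (nat_lit 244) (nat_lit 168))))) (XT.nd (nat_lit 234) (nat_lit 228) (nat_lit 0) (XT.nd (nat_lit 78) (nat_lit 0) (nat_lit 0) (XT.lf (nat_lit 0) (nat_lit 12648605981) (nat_lit 76) (nat_lit 22474975803) (nat_lit 152) (nat_lit 12149434918) (nat_lit 12) (nat_lit 5) (nat_lit 13) (nat_lit 5) (nat_lit 14) (nat_lit 4) (nat_lit 309) (nat_lit 244) (nat_lit 167)) (XT.nd (nat_lit 78) (nat_lit 0) (nat_lit 0) (XT.lf (nat_lit 0) (nat_lit 28316036880) (nat_lit 76) (nat_lit 14558395846) (nat_lit 152) (nat_lit 6484680185) (nat_lit 12) (nat_lit 5) (nat_lit 13) (nat_lit 5) (nat_lit 14) (nat_lit 4) (nat_lit 310) (nat_lit 244) (nat_lit 166)) (XT.lf (nat_lit 0) (nat_lit 44735675201) (nat_lit 76) (nat_lit 6258587105) (nat_lit 152) (nat_lit 555829841) (nat_lit 12) (nat_lit 5) (nat_lit 13) (nat_lit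 5) (nat_lit 14) (nat_lit 4) (nat_lit 311) (nat_lit 244) (nat_lit 165)))) (XT.nd (nat_lit 78) (nat_lit 0) (nat_lit 0) (XT.lf (nat_lit 0) (nat_lit 5644604699) (nat_lit 228) (nat_lit 45670834681) (nat_lit 76) (nat_lit 2530992509) (nat_lit 9) (nat_lit 5) (nat_lit 12) (nat_lit 5) (nat_lit 10) (nat_lit 4) (nat_lit 312) (nat_lit 244) (nat_lit 164)) (XT.nd (nat_lit 78) (nat_lit 0) (nat_lit 0) (XT.lf (nat_lit 0) (nat_lit 12260266208) (nat_lit 228) (nat_lit 32297062535) (nat_lit 76) (nat_lit 11696612513) (nat_lit 9) (nat_lit 5) (nat_lit 12) (nat_lit 5) (nat_lit 10) (nat_lit 4) (nat_lit 313) (nat_lit 244) (nat_lit 163)) (XT.lf (nat_lit 0) (nat_lit 19190121659) (nat_lit 228) (nat_lit 18282809033) (nat_lit 76) (nat_lit 21309410938) (nat_lit 9) (nat_lit 5) (nat_lit 12) (nat_lit 5) (nat_lit 10) (nat_lit 4) (nat_lit 314) (nat_lit 244) (nat_lit 162)))))) (XT.nd (nat_lit 390) (nat_lit 228) (nat_lit 0) (XT.nd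 (nat_lit 156) (nat_lit 0) (nat_lit 0) (XT.nd (nat_lit 78) (nat_lit 76) (nat_lit 0) (XT.lf (nat_lit 0) (nat_lit 26450670709) (nat_lit 228) (nat_lit 3594706904) (nat_lit 76) (nat_lit 31392275397) (nat_lit 9) (nat_lit 5) (nat_lit 12) (nat_lit 5) (nat_lit 10) (nat_lit 4) (nat_lit 315) (nat_lit 244) (nat_lit 161)) (XT.lf (nat_lit 0) (nat_lit 12037102754) (nat_lit 76) (nat_lit 22137805620) (nat_lit 152) (nat_lit 30047817953) (nat_lit 8) (nat_lit 5) (nat_lit 9) (nat_lit 5) (nat_lit 10) (nat_lit 4) (nat_lit 316) (nat_lit 244) (nat_lit 160))) (XT.nd (nat_lit 78) (nat_lit 0) (nat_lit 0) (XT.lf (nat_lit 0) (nat_lit 28500770273) (nat_lit 76) (nat_lit 13807022782) (nat_lit 152) (nat_lit 24838602633) (nat_lit 8) (nat_lit 5) (nat_lit 9) (nat_lit 5) (nat_lit 10) (nat_lit 4) (nat_lit 317) (nat_lit 244) (nat_lit 159)) (XT.nd (nat_lit 78) (nat_lit 0) (nat_lit 0) (XT.lf (nat_lit 0) (nat_lit 45763953145) (nat_lit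 76) (nat_lit 5069493393) (nat_lit 152) (nat_lit 19383232937) (nat_lit 8) (nat_lit 5) (nat_lit 9) (nat_lit 5) (nat_lit 10) (nat_lit 4) (nat_lit 318) (nat_lit 244) (nat_lit 158)) (XT.lf (nat_lit 0) (nat_lit 59811537278) (nat_lit 152) (nat_lit 9612502983) (nat_lit 0) (nat_lit 4015666550) (nat_lit 8) (nat_lit 5) (nat_lit 10) (nat_lit 4) (nat_lit 8) (nat_lit 4) (nat_lit 319) (nat_lit 244) (nat_lit 157))))) (XT.nd (nat_lit 234) (nat_lit 76) (nat_lit 0) (XT.nd (nat_lit 78) (nat_lit 76) (nat_lit 0) (XT.lf (nat_lit 0) (nat_lit 6014148498) (nat_lit 76) (nat_lit 63320692549) (nat_lit 76) (nat_lit 7486168541) (nat_lit 7) (nat_lit 4) (nat_lit 8) (nat_lit 5) (nat_lit 8) (nat_lit 4) (nat_lit 320) (nat_lit 244) (nat_lit 156)) (XT.nd (nat_lit 78) (nat_lit 76) (nat_lit 0) (XT.lf (nat_lit 0) (nat_lit 22601856610) (nat_lit 76) (nat_lit 56819134900) (nat_lit 76) (nat_lit 947798245) (nat_lit 7) (nat_lit 4) (nat_lit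 8) (nat_lit 5) (nat_lit 8) (nat_lit 4) (nat_lit 321) (nat_lit 244) (nat_lit 155)) (XT.lf (nat_lit 0) (nat_lit 5790205037) (nat_lit 152) (nat_lit 44152280092) (nat_lit 76) (nat_lit 34150133482) (nat_lit 6) (nat_lit 5) (nat_lit 8) (nat_lit 5) (nat_lit 7) (nat_lit 4) (nat_lit 322) (nat_lit 244) (nat_lit 154)))) (XT.nd (nat_lit 78) (nat_lit 76) (nat_lit 0) (XT.lf (nat_lit 0) (nat_lit 12834437376) (nat_lit 152) (nat_lit 29885878601) (nat_lit 76) (nat_lit 45282384665) (nat_lit 6) (nat_lit 5) (nat_lit 8) (nat_lit 5) (nat_lit 7) (nat_lit 4) (nat_lit 323) (nat_lit 244) (nat_lit 153)) (XT.nd (nat_lit 78) (nat_lit 76) (nat_lit 0) (XT.lf (nat_lit 0) (nat_lit 20220165710) (nat_lit 152) (nat_lit 14924650232) (nat_lit 76) (nat_lit 56963802948) (nat_lit 6) (nat_lit 5) (nat_lit 8) (nat_lit 5) (nat_lit 7) (nat_lit 4) (nat_lit 324) (nat_lit 244) (nat_lit 152)) (XT.lf (nat_lit 0) (nat_lit 782292326) (nat_lit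 76) (nat_lit 27190202652) (nat_lit 152) (nat_lit 68447428777) (nat_lit 5) (nat_lit 5) (nat_lit 6) (nat_lit 5) (nat_lit 7) (nat_lit 4) (nat_lit 325) (nat_lit 244) (nat_lit 151))))))))
noncomputable def xc60 : XT := (XT.nd (nat_lit 32526) (nat_lit 0) (nat_lit 3192) (XT.nd (nat_lit 31668) (nat_lit 0) (nat_lit 9272) (XT.nd (nat_lit 31278) (nat_lit 0) (nat_lit 15808) (XT.nd (nat_lit 156) (nat_lit 0) (nat_lit 0) (XT.nd (nat_lit 78) (nat_lit 0) (nat_lit 0) (XT.lf (nat_lit 0) (nat_lit 17569355599) (nat_lit 76) (nat_lit 18686837382) (nat_lit 152) (nat_lit 64686297971) (nat_lit 5) (nat_lit 5) (nat_lit 6) (nat_lit 5) (nat_lit 7) (nat_lit 4) (nat_lit 326) (nat_lit 244) (nat_lit 150)) (XT.lf (nat_lit 0) (nat_lit 35179478980) (nat_lit 76) (nat_lit 9765183727) (nat_lit 152) (nat_lit 60746815394) (nat_lit 5) (nat_lit 5) (nat_lit 6) (nat_lit 5) (nat_lit 7) (nat_lit 4) (nat_lit 327) (nat_lit 244) (nat_lit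 149))) (XT.nd (nat_lit 78) (nat_lit 0) (nat_lit 0) (XT.lf (nat_lit 0) (nat_lit 53654591335) (nat_lit 76) (nat_lit 403999656) (nat_lit 152) (nat_lit 56619601324) (nat_lit 5) (nat_lit 5) (nat_lit 6) (nat_lit 5) (nat_lit 7) (nat_lit 4) (nat_lit 328) (nat_lit 244) (nat_lit 148)) (XT.nd (nat_lit 30966) (nat_lit 0) (nat_lit 16948) (XT.lf (nat_lit 0) (nat_lit 63710218884) (nat_lit 152) (nat_lit 42966366920) (nat_lit 0) (nat_lit 9235204683) (nat_lit 5) (nat_lit 5) (nat_lit 7) (nat_lit 4) (nat_lit 5) (nat_lit 4) (nat_lit 329) (nat_lit 244) (nat_lit 147)) (XT.lf (nat_lit 0) (nat_lit 2799837598) (nat_lit 532) (nat_lit 287086363) (nat_lit 532) (nat_lit 287086363) (nat_lit 228) (nat_lit 3) (nat_lit 235) (nat_lit 3) (nat_lit 235) (nat_lit 5) (nat_lit 245) (nat_lit 245) (nat_lit 230))))) (XT.nd (nat_lit 156) (nat_lit 608) (nat_lit 0) (XT.nd (nat_lit 78) (nat_lit 0) (nat_lit 0) (XT.lf (nat_lit 0) (nat_lit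 1950227744) (nat_lit 532) (nat_lit 2570917387) (nat_lit 608) (nat_lit 2291240205) (nat_lit 221) (nat_lit 5) (nat_lit 228) (nat_lit 3) (nat_lit 229) (nat_lit 5) (nat_lit 246) (nat_lit 245) (nat_lit 229)) (XT.lf (nat_lit 76) (nat_lit 2357823551) (nat_lit 0) (nat_lit 2653954441) (nat_lit 608) (nat_lit 1873634315) (nat_lit 222) (nat_lit 5) (nat_lit 221) (nat_lit 5) (nat_lit 229) (nat_lit 5) (nat_lit 247) (nat_lit 245) (nat_lit 228))) (XT.nd (nat_lit 78) (nat_lit 0) (nat_lit 76) (XT.lf (nat_lit 76) (nat_lit 514995735) (nat_lit 0) (nat_lit 565098901) (nat_lit 684) (nat_lit 5887101248) (nat_lit 214) (nat_lit 5) (nat_lit 213) (nat_lit 5) (nat_lit 222) (nat_lit 5) (nat_lit 248) (nat_lit 245) (nat_lit 227)) (XT.nd (nat_lit 78) (nat_lit 0) (nat_lit 0) (XT.lf (nat_lit 0) (nat_lit 4023462225) (nat_lit 608) (nat_lit 1294237513) (nat_lit 684) (nat_lit 1739042163) (nat_lit 214) (nat_lit 5) (nat_lit 222)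 (nat_lit 5) (nat_lit 223) (nat_lit 5) (nat_lit 249) (nat_lit 245) (nat_lit 226)) (XT.lf (nat_lit 76) (nat_lit 4089174977) (nat_lit 0) (nat_lit 2896140615) (nat_lit 684) (nat_lit 169929957) (nat_lit 215) (nat_lit 5) (nat_lit 214) (nat_lit 5) (nat_lit 223) (nat_lit 5) (nat_lit 250) (nat_lit 245) (nat_lit 225)))))) (XT.nd (nat_lit 390) (nat_lit 4560) (nat_lit 0) (XT.nd (nat_lit 156) (nat_lit 1368) (nat_lit 0) (XT.nd (nat_lit 78) (nat_lit 0) (nat_lit 76) (XT.lf (nat_lit 76) (nat_lit 2422996945) (nat_lit 0) (nat_lit 226340474) (nat_lit 760) (nat_lit 4613049019) (nat_lit 206) (nat_lit 5) (nat_lit 205) (nat_lit 5) (nat_lit 215) (nat_lit 5) (nat_lit 251) (nat_lit 245) (nat_lit 224)) (XT.lf (nat_lit 76) (nat_lit 754291657) (nat_lit 0) (nat_lit 4754625965) (nat_lit 760) (nat_lit 1869376207) (nat_lit 207) (nat_lit 5) (nat_lit 206) (nat_lit 5) (nat_lit 216) (nat_lit 5) (nat_lit 252) (nat_lit 245) (nat_lit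 223))) (XT.nd (nat_lit 78) (nat_lit 684) (nat_lit 0) (XT.lf (nat_lit 0) (nat_lit 887873319) (nat_lit 760) (nat_lit 892955028) (nat_lit 836) (nat_lit 5722497345) (nat_lit 196) (nat_lit 5) (nat_lit 206) (nat_lit 5) (nat_lit 207) (nat_lit 5) (nat_lit 253) (nat_lit 245) (nat_lit 222)) (XT.nd (nat_lit 78) (nat_lit 760) (nat_lit 0) (XT.lf (nat_lit 0) (nat_lit 3658679842) (nat_lit 760) (nat_lit 2551683622) (nat_lit 76) (nat_lit 1426740419) (nat_lit 197) (nat_lit 5) (nat_lit 207) (nat_lit 5) (nat_lit 198) (nat_lit 5) (nat_lit 254) (nat_lit 245) (nat_lit 221)) (XT.lf (nat_lit 0) (nat_lit 3547666095) (nat_lit 760) (nat_lit 2939206930) (nat_lit 836) (nat_lit 1293590357) (nat_lit 187) (nat_lit 5) (nat_lit 197) (nat_lit 5) (nat_lit 198) (nat_lit 5) (nat_lit 255) (nat_lit 245) (nat_lit 220))))) (XT.nd (nat_lit 234) (nat_lit 2736) (nat_lit 0) (XT.nd (nat_lit 78) (nat_lit 912) (nat_lit 0) (XT.lf (nat_lit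 0) (nat_lit 1408531009) (nat_lit 912) (nat_lit 5948050447) (nat_lit 76) (nat_lit 577008364) (nat_lit 175) (nat_lit 5) (nat_lit 187) (nat_lit 5) (nat_lit 176) (nat_lit 5) (nat_lit 256) (nat_lit 245) (nat_lit 219)) (XT.nd (nat_lit 78) (nat_lit 0) (nat_lit 0) (XT.lf (nat_lit 0) (nat_lit 364898230) (nat_lit 912) (nat_lit 3798883590) (nat_lit 988) (nat_lit 3932266355) (nat_lit 163) (nat_lit 5) (nat_lit 175) (nat_lit 5) (nat_lit 176) (nat_lit 5) (nat_lit 257) (nat_lit 245) (nat_lit 218)) (XT.lf (nat_lit 0) (nat_lit 6990873624) (nat_lit 988) (nat_lit 1257524957) (nat_lit 76) (nat_lit 20592449) (nat_lit 163) (nat_lit 5) (nat_lit 176) (nat_lit 5) (nat_lit 164) (nat_lit 5) (nat_lit 258) (nat_lit 245) (nat_lit 217)))) (XT.nd (nat_lit 78) (nat_lit 1672) (nat_lit 0) (XT.lf (nat_lit 0) (nat_lit 1448796245) (nat_lit 1064) (nat_lit 2962475926) (nat_lit 76) (nat_lit 4040143828) (nat_lit 149) (nat_lit 5)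 (nat_lit 163) (nat_lit 5) (nat_lit 150) (nat_lit 5) (nat_lit 259) (nat_lit 245) (nat_lit 216)) (XT.nd (nat_lit 78) (nat_lit 608) (nat_lit 0) (XT.lf (nat_lit 0) (nat_lit 3914869833) (nat_lit 1064) (nat_lit 303899458) (nat_lit 1140) (nat_lit 4426156971) (nat_lit 135) (nat_lit 5) (nat_lit 149) (nat_lit 5) (nat_lit 150) (nat_lit 5) (nat_lit 260) (nat_lit 245) (nat_lit 215)) (XT.lf (nat_lit 0) (nat_lit 2250117690) (nat_lit 608) (nat_lit 4855020454) (nat_lit 684) (nat_lit 1743958980) (nat_lit 127) (nat_lit 5) (nat_lit 135) (nat_lit 5) (nat_lit 136) (nat_lit 5) (nat_lit 261) (nat_lit 245) (nat_lit 214))))))) (XT.nd (nat_lit 780) (nat_lit 2280) (nat_lit 0) (XT.nd (nat_lit 390) (nat_lit 1672) (nat_lit 0) (XT.nd (nat_lit 156) (nat_lit 1520) (nat_lit 0) (XT.nd (nat_lit 78) (nat_lit 0) (nat_lit 0) (XT.lf (nat_lit 0) (nat_lit 506961891) (nat_lit 532) (nat_lit 491530349) (nat_lit 608) (nat_lit 8066560719)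 (nat_lit 119) (nat_lit 5) (nat_lit 126) (nat_lit 5) (nat_lit 127) (nat_lit 5) (nat_lit 262) (nat_lit 245) (nat_lit 213)) (XT.lf (nat_lit 0) (nat_lit 3844500594) (nat_lit 608) (nat_lit 1346939244) (nat_lit 76) (nat_lit 4100057227) (nat_lit 119) (nat_lit 5) (nat_lit 127) (nat_lit 5) (nat_lit 120) (nat_lit 5) (nat_lit 263) (nat_lit 245) (nat_lit 212))) (XT.nd (nat_lit 78) (nat_lit 988) (nat_lit 0) (XT.lf (nat_lit 0) (nat_lit 6240946216) (nat_lit 532) (nat_lit 556098852) (nat_lit 608) (nat_lit 2733561291) (nat_lit 112) (nat_lit 5) (nat_lit 119) (nat_lit 5) (nat_lit 120) (nat_lit 5) (nat_lit 264) (nat_lit 245) (nat_lit 211)) (XT.nd (nat_lit 78) (nat_lit 456) (nat_lit 0) (XT.lf (nat_lit 0) (nat_lit 113901184) (nat_lit 532) (nat_lit 5384564676) (nat_lit 76) (nat_lit 4283403332) (nat_lit 105) (nat_lit 5) (nat_lit 112) (nat_lit 5) (nat_lit 106) (nat_lit 5) (nat_lit 265) (nat_lit 245) (nat_lit 210))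 (XT.lf (nat_lit 0) (nat_lit 2405953989) (nat_lit 456) (nat_lit 610351956) (nat_lit 532) (nat_lit 7029741982) (nat_lit 99) (nat_lit 5) (nat_lit 105) (nat_lit 5) (nat_lit 106) (nat_lit 5) (nat_lit 266) (nat_lit 245) (nat_lit 209))))) (XT.nd (nat_lit 156) (nat_lit 1292) (nat_lit 0) (XT.nd (nat_lit 78) (nat_lit 0) (nat_lit 0) (XT.lf (nat_lit 0) (nat_lit 237200830) (nat_lit 380) (nat_lit 5837492597) (nat_lit 456) (nat_lit 4248642785) (nat_lit 94) (nat_lit 5) (nat_lit 99) (nat_lit 5) (nat_lit 100) (nat_lit 5) (nat_lit 267) (nat_lit 245) (nat_lit 208)) (XT.lf (nat_lit 0) (nat_lit 8564447165) (nat_lit 380) (nat_lit 718827315) (nat_lit 456) (nat_lit 1331511908) (nat_lit 94) (nat_lit 5) (nat_lit 99) (nat_lit 5) (nat_lit 100) (nat_lit 5) (nat_lit 268) (nat_lit 245) (nat_lit 207))) (XT.nd (nat_lit 78) (nat_lit 760) (nat_lit 0) (XT.lf (nat_lit 0) (nat_lit 1720313717) (nat_lit 532) (nat_lit 4565645429)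 (nat_lit 76) (nat_lit 4633871291) (nat_lit 87) (nat_lit 5) (nat_lit 94) (nat_lit 5) (nat_lit 88) (nat_lit 5) (nat_lit 269) (nat_lit 245) (nat_lit 206)) (XT.nd (nat_lit 78) (nat_lit 380) (nat_lit 0) (XT.lf (nat_lit 0) (nat_lit 3944001085) (nat_lit 380) (nat_lit 938627188) (nat_lit 456) (nat_lit 6357729803) (nat_lit 82) (nat_lit 5) (nat_lit 87) (nat_lit 5) (nat_lit 88) (nat_lit 5) (nat_lit 270) (nat_lit 245) (nat_lit 205)) (XT.lf (nat_lit 0) (nat_lit 1284647011) (nat_lit 380) (nat_lit 6944733337) (nat_lit 456) (nat_lit 3346923001) (nat_lit 77) (nat_lit 5) (nat_lit 82) (nat_lit 5) (nat_lit 83) (nat_lit 5) (nat_lit 271) (nat_lit 245) (nat_lit 204)))))) (XT.nd (nat_lit 390) (nat_lit 1140) (nat_lit 0) (XT.nd (nat_lit 156) (nat_lit 760) (nat_lit 0) (XT.nd (nat_lit 78) (nat_lit 380) (nat_lit 0) (XT.lf (nat_lit 0) (nat_lit 10346164152) (nat_lit 380) (nat_lit 1406212629) (nat_lit 456) (nat_lit 176574194)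 (nat_lit 77) (nat_lit 5) (nat_lit 82) (nat_lit 5) (nat_lit 83) (nat_lit 5) (nat_lit 272) (nat_lit 245) (nat_lit 203)) (XT.lf (nat_lit 0) (nat_lit 3134143562) (nat_lit 380) (nat_lit 4750992799) (nat_lit 76) (nat_lit 4412043950) (nat_lit 72) (nat_lit 5) (nat_lit 77) (nat_lit 5) (nat_lit 73) (nat_lit 5) (nat_lit 273) (nat_lit 245) (nat_lit 202))) (XT.nd (nat_lit 78) (nat_lit 380) (nat_lit 0) (XT.lf (nat_lit 0) (nat_lit 4464156305) (nat_lit 380) (nat_lit 2145814833) (nat_lit 456) (nat_lit 6073852479) (nat_lit 67) (nat_lit 5) (nat_lit 72) (nat_lit 5) (nat_lit 73) (nat_lit 5) (nat_lit 274) (nat_lit 245) (nat_lit 201)) (XT.nd (nat_lit 78) (nat_lit 76) (nat_lit 0) (XT.lf (nat_lit 0) (nat_lit 1045984327) (nat_lit 304) (nat_lit 9242341497) (nat_lit 380) (nat_lit 2800755688) (nat_lit 63) (nat_lit 5) (nat_lit 67) (nat_lit 5) (nat_lit 68) (nat_lit 5) (nat_lit 275) (nat_lit 245) (nat_lit 200)) (XT.lf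 (nat_lit 0) (nat_lit 664319571) (nat_lit 380) (nat_lit 2680583732) (nat_lit 76) (nat_lit 10168427171) (nat_lit 62) (nat_lit 5) (nat_lit 67) (nat_lit 5) (nat_lit 63) (nat_lit 5) (nat_lit 276) (nat_lit 245) (nat_lit 199))))) (XT.nd (nat_lit 234) (nat_lit 608) (nat_lit 0) (XT.nd (nat_lit 78) (nat_lit 228) (nat_lit 0) (XT.lf (nat_lit 0) (nat_lit 4279209847) (nat_lit 380) (nat_lit 6806635479) (nat_lit 76) (nat_lit 2871207340) (nat_lit 58) (nat_lit 5) (nat_lit 63) (nat_lit 5) (nat_lit 59) (nat_lit 5) (nat_lit 277) (nat_lit 245) (nat_lit 198)) (XT.nd (nat_lit 78) (nat_lit 0) (nat_lit 0) (XT.lf (nat_lit 0) (nat_lit 3050468250) (nat_lit 228) (nat_lit 5054168759) (nat_lit 304) (nat_lit 6317551374) (nat_lit 55) (nat_lit 5) (nat_lit 58) (nat_lit 5) (nat_lit 59) (nat_lit 5) (nat_lit 278) (nat_lit 245) (nat_lit 197)) (XT.lf (nat_lit 0) (nat_lit 12145184671) (nat_lit 304) (nat_lit 1460018348) (nat_lit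 76) (nat_lit 1304777807) (nat_lit 55) (nat_lit 5) (nat_lit 59) (nat_lit 5) (nat_lit 56) (nat_lit 5) (nat_lit 279) (nat_lit 245) (nat_lit 196)))) (XT.nd (nat_lit 78) (nat_lit 228) (nat_lit 0) (XT.lf (nat_lit 0) (nat_lit 1028533530) (nat_lit 380) (nat_lit 6435503586) (nat_lit 76) (nat_lit 7955500666) (nat_lit 50) (nat_lit 5) (nat_lit 55) (nat_lit 5) (nat_lit 51) (nat_lit 5) (nat_lit 280) (nat_lit 245) (nat_lit 195)) (XT.nd (nat_lit 78) (nat_lit 0) (nat_lit 0) (XT.lf (nat_lit 0) (nat_lit 4000355392) (nat_lit 228) (nat_lit 953090475) (nat_lit 304) (nat_lit 11000434236) (nat_lit 47) (nat_lit 5) (nat_lit 50) (nat_lit 5) (nat_lit 51) (nat_lit 5) (nat_lit 281) (nat_lit 245) (nat_lit 194)) (XT.lf (nat_lit 0) (nat_lit 9144702891) (nat_lit 304) (nat_lit 1553303492) (nat_lit 76) (nat_lit 5814926980) (nat_lit 47) (nat_lit 5) (nat_lit 51) (nat_lit 5) (nat_lit 48) (nat_lit 5) (nat_lit 282) (nat_lit 245)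 (nat_lit 193))))))))
noncomputable def xc61 : XT := (XT.nd (nat_lit 1638) (nat_lit 836) (nat_lit 0) (XT.nd (nat_lit 780) (nat_lit 912) (nat_lit 0) (XT.nd (nat_lit 390) (nat_lit 456) (nat_lit 0) (XT.nd (nat_lit 156) (nat_lit 380) (nat_lit 0) (XT.nd (nat_lit 78) (nat_lit 304) (nat_lit 0) (XT.lf (nat_lit 0) (nat_lit 9470074747) (nat_lit 228) (nat_lit 4125281321) (nat_lit 304) (nat_lit 3503180406) (nat_lit 44) (nat_lit 5) (nat_lit 47) (nat_lit 5) (nat_lit 48) (nat_lit 5) (nat_lit 283) (nat_lit 245) (nat_lit 192)) (XT.lf (nat_lit 0) (nat_lit 570037781) (nat_lit 304) (nat_lit 14387355717) (nat_lit 76) (nat_lit 2755178955) (nat_lit 40) (nat_lit 5) (nat_lit 44) (nat_lit 5) (nat_lit 41) (nat_lit 5) (nat_lit 284) (nat_lit 245) (nat_lit 191))) (XT.nd (nat_lit 78) (nat_lit 380) (nat_lit 0) (XT.lf (nat_lit 0) (nat_lit 4847937550) (nat_lit 304) (nat_lit 3517055054) (nat_lit 76) (nat_lit 9989154105) (nat_lit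 40) (nat_lit 5) (nat_lit 44) (nat_lit 5) (nat_lit 41) (nat_lit 5) (nat_lit 285) (nat_lit 245) (nat_lit 190)) (XT.nd (nat_lit 78) (nat_lit 152) (nat_lit 0) (XT.lf (nat_lit 0) (nat_lit 7985618549) (nat_lit 228) (nat_lit 1385024092) (nat_lit 304) (nat_lit 9656307040) (nat_lit 37) (nat_lit 5) (nat_lit 40) (nat_lit 5) (nat_lit 41) (nat_lit 5) (nat_lit 286) (nat_lit 245) (nat_lit 189)) (XT.lf (nat_lit 0) (nat_lit 286456280) (nat_lit 152) (nat_lit 13884986858) (nat_lit 228) (nat_lit 5560464493) (nat_lit 35) (nat_lit 5) (nat_lit 37) (nat_lit 5) (nat_lit 38) (nat_lit 5) (nat_lit 287) (nat_lit 245) (nat_lit 188))))) (XT.nd (nat_lit 156) (nat_lit 152) (nat_lit 0) (XT.nd (nat_lit 78) (nat_lit 304) (nat_lit 0) (XT.lf (nat_lit 0) (nat_lit 12332752433) (nat_lit 152) (nat_lit 6964040751) (nat_lit 228) (nat_lit 1172855135) (nat_lit 35) (nat_lit 5) (nat_lit 37) (nat_lit 5) (nat_lit 38) (nat_lit 5) (nat_lit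 288) (nat_lit 245) (nat_lit 187)) (XT.lf (nat_lit 0) (nat_lit 3364803027) (nat_lit 304) (nat_lit 17532536630) (nat_lit 76) (nat_lit 346080477) (nat_lit 31) (nat_lit 5) (nat_lit 35) (nat_lit 5) (nat_lit 32) (nat_lit 5) (nat_lit 289) (nat_lit 245) (nat_lit 186))) (XT.nd (nat_lit 78) (nat_lit 152) (nat_lit 0) (XT.lf (nat_lit 0) (nat_lit 8219973090) (nat_lit 304) (nat_lit 5876698962) (nat_lit 76) (nat_lit 7955475306) (nat_lit 31) (nat_lit 5) (nat_lit 35) (nat_lit 5) (nat_lit 32) (nat_lit 5) (nat_lit 290) (nat_lit 245) (nat_lit 185)) (XT.nd (nat_lit 78) (nat_lit 0) (nat_lit 0) (XT.lf (nat_lit 0) (nat_lit 6428843961) (nat_lit 152) (nat_lit 6912549683) (nat_lit 228) (nat_lit 9559271352) (nat_lit 29) (nat_lit 5) (nat_lit 31) (nat_lit 5) (nat_lit 32) (nat_lit 5) (nat_lit 291) (nat_lit 245) (nat_lit 184)) (XT.lf (nat_lit 0) (nat_lit 18748823978) (nat_lit 228) (nat_lit 4381821135) (nat_lit 76) (nat_lit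 660121256) (nat_lit 29) (nat_lit 5) (nat_lit 32) (nat_lit 5) (nat_lit 30) (nat_lit 5) (nat_lit 292) (nat_lit 245) (nat_lit 183)))))) (XT.nd (nat_lit 390) (nat_lit 380) (nat_lit 0) (XT.nd (nat_lit 156) (nat_lit 304) (nat_lit 0) (XT.nd (nat_lit 78) (nat_lit 76) (nat_lit 0) (XT.lf (nat_lit 0) (nat_lit 8350781753) (nat_lit 152) (nat_lit 16190440196) (nat_lit 228) (nat_lit 180766321) (nat_lit 27) (nat_lit 5) (nat_lit 29) (nat_lit 5) (nat_lit 30) (nat_lit 5) (nat_lit 293) (nat_lit 245) (nat_lit 182)) (XT.lf (nat_lit 0) (nat_lit 4838285288) (nat_lit 228) (nat_lit 3988851184) (nat_lit 76) (nat_lit 16870937559) (nat_lit 26) (nat_lit 5) (nat_lit 29) (nat_lit 5) (nat_lit 27) (nat_lit 5) (nat_lit 294) (nat_lit 245) (nat_lit 181))) (XT.nd (nat_lit 78) (nat_lit 152) (nat_lit 0) (XT.lf (nat_lit 0) (nat_lit 9137443652) (nat_lit 152) (nat_lit 1021965090) (nat_lit 228) (nat_lit 16561902887) (nat_lit 24) (nat_lit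 5) (nat_lit 26) (nat_lit 5) (nat_lit 27) (nat_lit 5) (nat_lit 295) (nat_lit 245) (nat_lit 180)) (XT.nd (nat_lit 78) (nat_lit 152) (nat_lit 0) (XT.lf (nat_lit 0) (nat_lit 15824914863) (nat_lit 228) (nat_lit 4911437381) (nat_lit 76) (nat_lit 7057053810) (nat_lit 24) (nat_lit 5) (nat_lit 27) (nat_lit 5) (nat_lit 25) (nat_lit 5) (nat_lit 296) (nat_lit 245) (nat_lit 179)) (XT.lf (nat_lit 0) (nat_lit 8501621509) (nat_lit 152) (nat_lit 13333543464) (nat_lit 228) (nat_lit 7082138775) (nat_lit 22) (nat_lit 5) (nat_lit 24) (nat_lit 5) (nat_lit 25) (nat_lit 5) (nat_lit 297) (nat_lit 245) (nat_lit 178))))) (XT.nd (nat_lit 234) (nat_lit 152) (nat_lit 0) (XT.nd (nat_lit 78) (nat_lit 228) (nat_lit 0) (XT.lf (nat_lit 0) (nat_lit 22640784799) (nat_lit 152) (nat_lit 5526134777) (nat_lit 228) (nat_lit 1929887571) (nat_lit 22) (nat_lit 5) (nat_lit 24) (nat_lit 5) (nat_lit 25) (nat_lit 5) (nat_lit 298) (nat_lit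 245) (nat_lit 177)) (XT.nd (nat_lit 78) (nat_lit 0) (nat_lit 0) (XT.lf (nat_lit 0) (nat_lit 3469567326) (nat_lit 228) (nat_lit 25166340486) (nat_lit 76) (nat_lit 2696686937) (nat_lit 19) (nat_lit 5) (nat_lit 22) (nat_lit 5) (nat_lit 20) (nat_lit 5) (nat_lit 299) (nat_lit 245) (nat_lit 176)) (XT.lf (nat_lit 0) (nat_lit 9205037337) (nat_lit 228) (nat_lit 12123367668) (nat_lit 76) (nat_lit 11298050565) (nat_lit 19) (nat_lit 5) (nat_lit 22) (nat_lit 5) (nat_lit 20) (nat_lit 5) (nat_lit 300) (nat_lit 245) (nat_lit 175)))) (XT.nd (nat_lit 78) (nat_lit 0) (nat_lit 0) (XT.lf (nat_lit 0) (nat_lit 1559386071) (nat_lit 152) (nat_lit 13656498510) (nat_lit 228) (nat_lit 18769500774) (nat_lit 17) (nat_lit 5) (nat_lit 19) (nat_lit 5) (nat_lit 20) (nat_lit 5) (nat_lit 301) (nat_lit 245) (nat_lit 174)) (XT.nd (nat_lit 78) (nat_lit 0) (nat_lit 0) (XT.lf (nat_lit 0) (nat_lit 16138050036) (nat_lit 152) (nat_lit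 5488494365) (nat_lit 228) (nat_lit 13782771534) (nat_lit 17) (nat_lit 5) (nat_lit 19) (nat_lit 5) (nat_lit 20) (nat_lit 5) (nat_lit 302) (nat_lit 245) (nat_lit 173)) (XT.lf (nat_lit 0) (nat_lit 28362959752) (nat_lit 228) (nat_lit 5528682805) (nat_lit 76) (nat_lit 3012674681) (nat_lit 17) (nat_lit 5) (nat_lit 20) (nat_lit 5) (nat_lit 18) (nat_lit 4) (nat_lit 303) (nat_lit 245) (nat_lit 172))))))) (XT.nd (nat_lit 858) (nat_lit 228) (nat_lit 0) (XT.nd (nat_lit 390) (nat_lit 304) (nat_lit 0) (XT.nd (nat_lit 156) (nat_lit 152) (nat_lit 0) (XT.nd (nat_lit 78) (nat_lit 76) (nat_lit 0) (XT.lf (nat_lit 0) (nat_lit 8982626539) (nat_lit 76) (nat_lit 26572016975) (nat_lit 152) (nat_lit 2915901062) (nat_lit 16) (nat_lit 5) (nat_lit 17) (nat_lit 5) (nat_lit 18) (nat_lit 4) (nat_lit 304) (nat_lit 245) (nat_lit 171)) (XT.lf (nat_lit 0) (nat_lit 2967148337) (nat_lit 152) (nat_lit 15845327370) (nat_lit 76)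 (nat_lit 21300731809) (nat_lit 15) (nat_lit 5) (nat_lit 17) (nat_lit 5) (nat_lit 16) (nat_lit 5) (nat_lit 305) (nat_lit 245) (nat_lit 170))) (XT.nd (nat_lit 78) (nat_lit 152) (nat_lit 0) (XT.lf (nat_lit 0) (nat_lit 9062896515) (nat_lit 152) (nat_lit 1585916992) (nat_lit 76) (nat_lit 31188984327) (nat_lit 15) (nat_lit 5) (nat_lit 17) (nat_lit 5) (nat_lit 16) (nat_lit 5) (nat_lit 306) (nat_lit 245) (nat_lit 169)) (XT.nd (nat_lit 78) (nat_lit 0) (nat_lit 0) (XT.lf (nat_lit 0) (nat_lit 13618030319) (nat_lit 152) (nat_lit 1955631411) (nat_lit 228) (nat_lit 28071673708) (nat_lit 13) (nat_lit 5) (nat_lit 15) (nat_lit 5) (nat_lit 16) (nat_lit 5) (nat_lit 307) (nat_lit 245) (nat_lit 168)) (XT.lf (nat_lit 0) (nat_lit 22475259695) (nat_lit 228) (nat_lit 16030237450) (nat_lit 76) (nat_lit 7035817423) (nat_lit 13) (nat_lit 5) (nat_lit 16) (nat_lit 5) (nat_lit 14) (nat_lit 4) (nat_lit 308) (nat_lit 245)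 (nat_lit 167))))) (XT.nd (nat_lit 234) (nat_lit 228) (nat_lit 0) (XT.nd (nat_lit 78) (nat_lit 76) (nat_lit 0) (XT.lf (nat_lit 0) (nat_lit 29722498664) (nat_lit 228) (nat_lit 1385138857) (nat_lit 76) (nat_lit 16424460666) (nat_lit 13) (nat_lit 5) (nat_lit 16) (nat_lit 5) (nat_lit 14) (nat_lit 4) (nat_lit 309) (nat_lit 245) (nat_lit 166)) (XT.nd (nat_lit 78) (nat_lit 0) (nat_lit 0) (XT.lf (nat_lit 0) (nat_lit 14239523051) (nat_lit 76) (nat_lit 23211191196) (nat_lit 152) (nat_lit 12168169599) (nat_lit 12) (nat_lit 5) (nat_lit 13) (nat_lit 5) (nat_lit 14) (nat_lit 4) (nat_lit 310) (nat_lit 245) (nat_lit 165)) (XT.lf (nat_lit 0) (nat_lit 30644683267) (nat_lit 76) (nat_lit 14917236213) (nat_lit 152) (nat_lit 6248212228) (nat_lit 12) (nat_lit 5) (nat_lit 13) (nat_lit 5) (nat_lit 14) (nat_lit 4) (nat_lit 311) (nat_lit 245) (nat_lit 164)))) (XT.nd (nat_lit 78) (nat_lit 228) (nat_lit 0) (XT.lf (nat_lit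 0) (nat_lit 47841834717) (nat_lit 76) (nat_lit 6220012245) (nat_lit 152) (nat_lit 49619460) (nat_lit 12) (nat_lit 5) (nat_lit 13) (nat_lit 5) (nat_lit 14) (nat_lit 4) (nat_lit 312) (nat_lit 245) (nat_lit 163)) (XT.nd (nat_lit 78) (nat_lit 0) (nat_lit 0) (XT.lf (nat_lit 0) (nat_lit 6437051918) (nat_lit 228) (nat_lit 47086831472) (nat_lit 76) (nat_lit 2999014174) (nat_lit 9) (nat_lit 5) (nat_lit 12) (nat_lit 5) (nat_lit 10) (nat_lit 4) (nat_lit 313) (nat_lit 245) (nat_lit 162)) (XT.lf (nat_lit 0) (nat_lit 13359200455) (nat_lit 228) (nat_lit 33085682384) (nat_lit 76) (nat_lit 12606654605) (nat_lit 9) (nat_lit 5) (nat_lit 12) (nat_lit 5) (nat_lit 10) (nat_lit 4) (nat_lit 314) (nat_lit 245) (nat_lit 161)))))) (XT.nd (nat_lit 390) (nat_lit 152) (nat_lit 0) (XT.nd (nat_lit 156) (nat_lit 76) (nat_lit 0) (XT.nd (nat_lit 78) (nat_lit 0) (nat_lit 0) (XT.lf (nat_lit 0) (nat_lit 20612409587) (nat_lit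 228) (nat_lit 18410060648) (nat_lit 76) (nat_lit 22684606691) (nat_lit 9) (nat_lit 5) (nat_lit 12) (nat_lit 5) (nat_lit 10) (nat_lit 4) (nat_lit 315) (nat_lit 245) (nat_lit 160)) (XT.lf (nat_lit 0) (nat_lit 28213948859) (nat_lit 228) (nat_lit 3025024309) (nat_lit 76) (nat_lit 33256865554) (nat_lit 9) (nat_lit 5) (nat_lit 12) (nat_lit 5) (nat_lit 10) (nat_lit 4) (nat_lit 316) (nat_lit 245) (nat_lit 159))) (XT.nd (nat_lit 78) (nat_lit 0) (nat_lit 0) (XT.lf (nat_lit 0) (nat_lit 13366893917) (nat_lit 76) (nat_lit 22943514018) (nat_lit 152) (nat_lit 31110200085) (nat_lit 8) (nat_lit 5) (nat_lit 9) (nat_lit 5) (nat_lit 10) (nat_lit 4) (nat_lit 317) (nat_lit 245) (nat_lit 158)) (XT.nd (nat_lit 78) (nat_lit 0) (nat_lit 0) (XT.lf (nat_lit 0) (nat_lit 30619081192) (nat_lit 76) (nat_lit 14210534032) (nat_lit 152) (nat_lit 25661476796) (nat_lit 8) (nat_lit 5) (nat_lit 9) (nat_lit 5) (nat_lit 10) (nat_lit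 4) (nat_lit 318) (nat_lit 245) (nat_lit 157)) (XT.lf (nat_lit 0) (nat_lit 48712410236) (nat_lit 76) (nat_lit 5049787216) (nat_lit 152) (nat_lit 19953293662) (nat_lit 8) (nat_lit 5) (nat_lit 9) (nat_lit 5) (nat_lit 10) (nat_lit 4) (nat_lit 319) (nat_lit 245) (nat_lit 156))))) (XT.nd (nat_lit 234) (nat_lit 76) (nat_lit 0) (XT.nd (nat_lit 78) (nat_lit 76) (nat_lit 0) (XT.lf (nat_lit 0) (nat_lit 63173261350) (nat_lit 152) (nat_lit 9455360716) (nat_lit 0) (nat_lit 4471545215) (nat_lit 8) (nat_lit 5) (nat_lit 10) (nat_lit 4) (nat_lit 8) (nat_lit 4) (nat_lit 320) (nat_lit 245) (nat_lit 155)) (XT.nd (nat_lit 78) (nat_lit 0) (nat_lit 0) (XT.lf (nat_lit 0) (nat_lit 6934341865) (nat_lit 76) (nat_lit 66226669645) (nat_lit 76) (nat_lit 7489893845) (nat_lit 7) (nat_lit 4) (nat_lit 8) (nat_lit 5) (nat_lit 8) (nat_lit 4) (nat_lit 321) (nat_lit 245) (nat_lit 154)) (XT.lf (nat_lit 0) (nat_lit 24321936052)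 (nat_lit 76) (nat_lit 59412417805) (nat_lit 76) (nat_lit 642251849) (nat_lit 7) (nat_lit 4) (nat_lit 8) (nat_lit 5) (nat_lit 8) (nat_lit 4) (nat_lit 322) (nat_lit 245) (nat_lit 153)))) (XT.nd (nat_lit 78) (nat_lit 0) (nat_lit 0) (XT.lf (nat_lit 0) (nat_lit 6409286003) (nat_lit 152) (nat_lit 45791115518) (nat_lit 76) (nat_lit 36086633435) (nat_lit 6) (nat_lit 5) (nat_lit 8) (nat_lit 5) (nat_lit 7) (nat_lit 4) (nat_lit 323) (nat_lit 245) (nat_lit 152)) (XT.nd (nat_lit 78) (nat_lit 0) (nat_lit 0) (XT.lf (nat_lit 0) (nat_lit 13790036115) (nat_lit 152) (nat_lit 30838478646) (nat_lit 76) (nat_lit 47764592735) (nat_lit 6) (nat_lit 5) (nat_lit 8) (nat_lit 5) (nat_lit 7) (nat_lit 4) (nat_lit 324) (nat_lit 245) (nat_lit 151)) (XT.lf (nat_lit 0) (nat_lit 21530104348) (nat_lit 152) (nat_lit 15154983806) (nat_lit 76) (nat_lit 60019696749) (nat_lit 6) (nat_lit 5) (nat_lit 8) (nat_lit 5) (nat_lit 7) (nat_lit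 4) (nat_lit 325) (nat_lit 245) (nat_lit 150))))))))
noncomputable def xc62 : XT := (XT.nd (nat_lit 32604) (nat_lit 0) (nat_lit 2964) (XT.nd (nat_lit 31746) (nat_lit 0) (nat_lit 9196) (XT.nd (nat_lit 31356) (nat_lit 0) (nat_lit 15124) (XT.nd (nat_lit 156) (nat_lit 0) (nat_lit 0) (XT.nd (nat_lit 78) (nat_lit 0) (nat_lit 0) (XT.lf (nat_lit 0) (nat_lit 1322517741) (nat_lit 76) (nat_lit 28338114543) (nat_lit 152) (nat_lit 71571319404) (nat_lit 5) (nat_lit 5) (nat_lit 6) (nat_lit 5) (nat_lit 7) (nat_lit 4) (nat_lit 326) (nat_lit 245) (nat_lit 149)) (XT.lf (nat_lit 0) (nat_lit 18925071759) (nat_lit 76) (nat_lit 19419657116) (nat_lit 152) (nat_lit 67636345430) (nat_lit 5) (nat_lit 5) (nat_lit 6) (nat_lit 5) (nat_lit 7) (nat_lit 4) (nat_lit 327) (nat_lit 245) (nat_lit 148))) (XT.nd (nat_lit 78) (nat_lit 0) (nat_lit 0) (XT.lf (nat_lit 0) (nat_lit 37392975196) (nat_lit 76) (nat_lit 10061517071) (nat_lit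 152) (nat_lit 63513425269) (nat_lit 5) (nat_lit 5) (nat_lit 6) (nat_lit 5) (nat_lit 7) (nat_lit 4) (nat_lit 328) (nat_lit 245) (nat_lit 147)) (XT.nd (nat_lit 31044) (nat_lit 0) (nat_lit 16416) (XT.lf (nat_lit 0) (nat_lit 56770199251) (nat_lit 76) (nat_lit 241413122) (nat_lit 152) (nat_lit 59192742443) (nat_lit 5) (nat_lit 5) (nat_lit 6) (nat_lit 5) (nat_lit 7) (nat_lit 4) (nat_lit 329) (nat_lit 245) (nat_lit 146)) (XT.lf (nat_lit 0) (nat_lit 1224006716) (nat_lit 0) (nat_lit 1224006716) (nat_lit 532) (nat_lit 992331749) (nat_lit 221) (nat_lit 5) (nat_lit 221) (nat_lit 3) (nat_lit 228) (nat_lit 3) (nat_lit 246) (nat_lit 246) (nat_lit 228))))) (XT.nd (nat_lit 156) (nat_lit 608) (nat_lit 0) (XT.nd (nat_lit 78) (nat_lit 0) (nat_lit 76) (XT.lf (nat_lit 76) (nat_lit 419619049) (nat_lit 0) (nat_lit 433573070) (nat_lit 684) (nat_lit 6104501445) (nat_lit 213) (nat_lit 5) (nat_lit 212) (nat_lit 3)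 (nat_lit 221) (nat_lit 5) (nat_lit 247) (nat_lit 246) (nat_lit 227)) (XT.lf (nat_lit 0) (nat_lit 3672402023) (nat_lit 608) (nat_lit 1569587893) (nat_lit 684) (nat_lit 1800203124) (nat_lit 213) (nat_lit 5) (nat_lit 221) (nat_lit 5) (nat_lit 222) (nat_lit 5) (nat_lit 248) (nat_lit 246) (nat_lit 226))) (XT.nd (nat_lit 78) (nat_lit 684) (nat_lit 0) (XT.lf (nat_lit 76) (nat_lit 3615477238) (nat_lit 0) (nat_lit 2882777031) (nat_lit 684) (nat_lit 637312615) (nat_lit 214) (nat_lit 5) (nat_lit 213) (nat_lit 5) (nat_lit 222) (nat_lit 5) (nat_lit 249) (nat_lit 246) (nat_lit 225)) (XT.nd (nat_lit 78) (nat_lit 0) (nat_lit 76) (XT.lf (nat_lit 76) (nat_lit 1773327305) (nat_lit 0) (nat_lit 279948275) (nat_lit 760) (nat_lit 5184312293) (nat_lit 205) (nat_lit 5) (nat_lit 204) (nat_lit 5) (nat_lit 214) (nat_lit 5) (nat_lit 250) (nat_lit 246) (nat_lit 224)) (XT.lf (nat_lit 0) (nat_lit 4764896650) (nat_lit 684)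 (nat_lit 71319182) (nat_lit 760) (nat_lit 2511860105) (nat_lit 205) (nat_lit 5) (nat_lit 214) (nat_lit 5) (nat_lit 215) (nat_lit 5) (nat_lit 251) (nat_lit 246) (nat_lit 223)))))) (XT.nd (nat_lit 390) (nat_lit 4560) (nat_lit 0) (XT.nd (nat_lit 156) (nat_lit 684) (nat_lit 0) (XT.nd (nat_lit 78) (nat_lit 0) (nat_lit 76) (XT.lf (nat_lit 0) (nat_lit 47352845) (nat_lit 760) (nat_lit 1867664316) (nat_lit 836) (nat_lit 5552466352) (nat_lit 195) (nat_lit 5) (nat_lit 205) (nat_lit 5) (nat_lit 206) (nat_lit 5) (nat_lit 252) (nat_lit 246) (nat_lit 222)) (XT.lf (nat_lit 0) (nat_lit 2658534496) (nat_lit 760) (nat_lit 3692646437) (nat_lit 836) (nat_lit 1244317520) (nat_lit 196) (nat_lit 5) (nat_lit 206) (nat_lit 5) (nat_lit 207) (nat_lit 5) (nat_lit 253) (nat_lit 246) (nat_lit 221))) (XT.nd (nat_lit 78) (nat_lit 760) (nat_lit 0) (XT.lf (nat_lit 76) (nat_lit 2194445204) (nat_lit 0) (nat_lit 3123751690)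 (nat_lit 836) (nat_lit 2414637386) (nat_lit 197) (nat_lit 5) (nat_lit 196) (nat_lit 5) (nat_lit 207) (nat_lit 5) (nat_lit 254) (nat_lit 246) (nat_lit 220)) (XT.nd (nat_lit 78) (nat_lit 0) (nat_lit 0) (XT.lf (nat_lit 0) (nat_lit 137757787) (nat_lit 836) (nat_lit 7400355707) (nat_lit 76) (nat_lit 342023831) (nat_lit 186) (nat_lit 5) (nat_lit 197) (nat_lit 5) (nat_lit 187) (nat_lit 5) (nat_lit 255) (nat_lit 246) (nat_lit 219)) (XT.lf (nat_lit 0) (nat_lit 2725487608) (nat_lit 836) (nat_lit 1277507672) (nat_lit 76) (nat_lit 4032766557) (nat_lit 186) (nat_lit 5) (nat_lit 197) (nat_lit 5) (nat_lit 187) (nat_lit 5) (nat_lit 256) (nat_lit 246) (nat_lit 218))))) (XT.nd (nat_lit 234) (nat_lit 1748) (nat_lit 0) (XT.nd (nat_lit 78) (nat_lit 1976) (nat_lit 0) (XT.lf (nat_lit 0) (nat_lit 5154402152) (nat_lit 836) (nat_lit 212113777) (nat_lit 912) (nat_lit 2835318223) (nat_lit 175) (nat_lit 5) (nat_lit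 186) (nat_lit 5) (nat_lit 187) (nat_lit 5) (nat_lit 257) (nat_lit 246) (nat_lit 217)) (XT.nd (nat_lit 78) (nat_lit 1064) (nat_lit 0) (XT.lf (nat_lit 0) (nat_lit 3491474001) (nat_lit 912) (nat_lit 4610870756) (nat_lit 988) (nat_lit 275348508) (nat_lit 163) (nat_lit 5) (nat_lit 175) (nat_lit 5) (nat_lit 176) (nat_lit 5) (nat_lit 258) (nat_lit 246) (nat_lit 216)) (XT.lf (nat_lit 0) (nat_lit 1769573188) (nat_lit 988) (nat_lit 529801565) (nat_lit 1064) (nat_lit 6264597914) (nat_lit 149) (nat_lit 5) (nat_lit 162) (nat_lit 5) (nat_lit 163) (nat_lit 5) (nat_lit 259) (nat_lit 246) (nat_lit 215)))) (XT.nd (nat_lit 78) (nat_lit 1748) (nat_lit 0) (XT.lf (nat_lit 0) (nat_lit 4971893986) (nat_lit 1064) (nat_lit 37101158) (nat_lit 76) (nat_lit 3751568474) (nat_lit 149) (nat_lit 5) (nat_lit 163) (nat_lit 5) (nat_lit 150) (nat_lit 5) (nat_lit 260) (nat_lit 246) (nat_lit 214)) (XT.nd (nat_lit 78) (nat_lit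 684) (nat_lit 0) (XT.lf (nat_lit 0) (nat_lit 7096010670) (nat_lit 1064) (nat_lit 648735436) (nat_lit 1140) (nat_lit 1223543469) (nat_lit 135) (nat_lit 5) (nat_lit 149) (nat_lit 5) (nat_lit 150) (nat_lit 5) (nat_lit 261) (nat_lit 246) (nat_lit 213)) (XT.lf (nat_lit 0) (nat_lit 1427981291) (nat_lit 684) (nat_lit 3829791727) (nat_lit 76) (nat_lit 3928883774) (nat_lit 126) (nat_lit 5) (nat_lit 135) (nat_lit 5) (nat_lit 127) (nat_lit 5) (nat_lit 262) (nat_lit 246) (nat_lit 212))))))) (XT.nd (nat_lit 858) (nat_lit 2128) (nat_lit 0) (XT.nd (nat_lit 390) (nat_lit 2052) (nat_lit 0) (XT.nd (nat_lit 156) (nat_lit 988) (nat_lit 0) (XT.nd (nat_lit 78) (nat_lit 532) (nat_lit 0) (XT.lf (nat_lit 0) (nat_lit 3525512897) (nat_lit 532) (nat_lit 621586694) (nat_lit 608) (nat_lit 5269939741) (nat_lit 119) (nat_lit 5) (nat_lit 126) (nat_lit 5) (nat_lit 127) (nat_lit 5) (nat_lit 263) (nat_lit 246) (nat_lit 211))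 (XT.lf (nat_lit 0) (nat_lit 1564318445) (nat_lit 532) (nat_lit 5437605128) (nat_lit 608) (nat_lit 2657282127) (nat_lit 112) (nat_lit 5) (nat_lit 119) (nat_lit 5) (nat_lit 120) (nat_lit 5) (nat_lit 264) (nat_lit 246) (nat_lit 210))) (XT.nd (nat_lit 78) (nat_lit 912) (nat_lit 0) (XT.lf (nat_lit 0) (nat_lit 58450399) (nat_lit 608) (nat_lit 498493427) (nat_lit 76) (nat_lit 9357525960) (nat_lit 111) (nat_lit 5) (nat_lit 119) (nat_lit 5) (nat_lit 112) (nat_lit 5) (nat_lit 265) (nat_lit 246) (nat_lit 209)) (XT.nd (nat_lit 78) (nat_lit 456) (nat_lit 0) (XT.lf (nat_lit 0) (nat_lit 2883600111) (nat_lit 532) (nat_lit 2720580915) (nat_lit 76) (nat_lit 4576895629) (nat_lit 105) (nat_lit 5) (nat_lit 112) (nat_lit 5) (nat_lit 106) (nat_lit 5) (nat_lit 266) (nat_lit 246) (nat_lit 208)) (XT.lf (nat_lit 0) (nat_lit 5375383750) (nat_lit 456) (nat_lit 451509729) (nat_lit 532) (nat_lit 4635029505) (nat_lit 99)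 (nat_lit 5) (nat_lit 105) (nat_lit 5) (nat_lit 106) (nat_lit 5) (nat_lit 267) (nat_lit 246) (nat_lit 207))))) (XT.nd (nat_lit 234) (nat_lit 1140) (nat_lit 0) (XT.nd (nat_lit 78) (nat_lit 532) (nat_lit 0) (XT.lf (nat_lit 0) (nat_lit 3098704984) (nat_lit 380) (nat_lit 5841965617) (nat_lit 456) (nat_lit 1815646889) (nat_lit 94) (nat_lit 5) (nat_lit 99) (nat_lit 5) (nat_lit 100) (nat_lit 5) (nat_lit 268) (nat_lit 246) (nat_lit 206)) (XT.nd (nat_lit 78) (nat_lit 0) (nat_lit 0) (XT.lf (nat_lit 0) (nat_lit 642064626) (nat_lit 456) (nat_lit 463593135) (nat_lit 532) (nat_lit 9960135094) (nat_lit 87) (nat_lit 5) (nat_lit 93) (nat_lit 5) (nat_lit 94) (nat_lit 5) (nat_lit 269) (nat_lit 246) (nat_lit 205)) (XT.lf (nat_lit 0) (nat_lit 4187832173) (nat_lit 532) (nat_lit 2030417497) (nat_lit 76) (nat_lit 5170563277) (nat_lit 87) (nat_lit 5) (nat_lit 94) (nat_lit 5) (nat_lit 88) (nat_lit 5) (nat_lit 270)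 (nat_lit 246) (nat_lit 204)))) (XT.nd (nat_lit 78) (nat_lit 760) (nat_lit 0) (XT.lf (nat_lit 0) (nat_lit 6825495877) (nat_lit 380) (nat_lit 595164769) (nat_lit 456) (nat_lit 4307599325) (nat_lit 82) (nat_lit 5) (nat_lit 87) (nat_lit 5) (nat_lit 88) (nat_lit 5) (nat_lit 271) (nat_lit 246) (nat_lit 203)) (XT.nd (nat_lit 78) (nat_lit 380) (nat_lit 0) (XT.lf (nat_lit 0) (nat_lit 4024575685) (nat_lit 380) (nat_lit 6830235695) (nat_lit 456) (nat_lit 1228841630) (nat_lit 77) (nat_lit 5) (nat_lit 82) (nat_lit 5) (nat_lit 83) (nat_lit 5) (nat_lit 272) (nat_lit 246) (nat_lit 202)) (XT.lf (nat_lit 0) (nat_lit 953891716) (nat_lit 304) (nat_lit 1007617028) (nat_lit 380) (nat_lit 10494978092) (nat_lit 72) (nat_lit 5) (nat_lit 76) (nat_lit 5) (nat_lit 77) (nat_lit 5) (nat_lit 273) (nat_lit 246) (nat_lit 201)))))) (XT.nd (nat_lit 390) (nat_lit 1064) (nat_lit 0) (XT.nd (nat_lit 156) (nat_lit 684) (nat_lit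 0) (XT.nd (nat_lit 78) (nat_lit 380) (nat_lit 0) (XT.lf (nat_lit 0) (nat_lit 5352046835) (nat_lit 380) (nat_lit 2405834801) (nat_lit 76) (nat_lit 5087877675) (nat_lit 72) (nat_lit 5) (nat_lit 77) (nat_lit 5) (nat_lit 73) (nat_lit 5) (nat_lit 274) (nat_lit 246) (nat_lit 200)) (XT.lf (nat_lit 0) (nat_lit 7196038962) (nat_lit 380) (nat_lit 1731589549) (nat_lit 456) (nat_lit 4326539014) (nat_lit 67) (nat_lit 5) (nat_lit 72) (nat_lit 5) (nat_lit 73) (nat_lit 5) (nat_lit 275) (nat_lit 246) (nat_lit 199))) (XT.nd (nat_lit 78) (nat_lit 380) (nat_lit 0) (XT.lf (nat_lit 0) (nat_lit 3592195397) (nat_lit 304) (nat_lit 9131826340) (nat_lit 380) (nat_lit 957844500) (nat_lit 63) (nat_lit 5) (nat_lit 67) (nat_lit 5) (nat_lit 68) (nat_lit 5) (nat_lit 276) (nat_lit 246) (nat_lit 198)) (XT.nd (nat_lit 78) (nat_lit 304) (nat_lit 0) (XT.lf (nat_lit 0) (nat_lit 2549206497) (nat_lit 380) (nat_lit 398879695) (nat_lit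 76) (nat_lit 11181633483) (nat_lit 62) (nat_lit 5) (nat_lit 67) (nat_lit 5) (nat_lit 63) (nat_lit 5) (nat_lit 277) (nat_lit 246) (nat_lit 197)) (XT.lf (nat_lit 0) (nat_lit 6284609588) (nat_lit 380) (nat_lit 4748736510) (nat_lit 76) (nat_lit 3564266316) (nat_lit 58) (nat_lit 5) (nat_lit 63) (nat_lit 5) (nat_lit 59) (nat_lit 5) (nat_lit 278) (nat_lit 246) (nat_lit 196))))) (XT.nd (nat_lit 234) (nat_lit 456) (nat_lit 0) (XT.nd (nat_lit 78) (nat_lit 380) (nat_lit 0) (XT.lf (nat_lit 0) (nat_lit 5532477603) (nat_lit 228) (nat_lit 4705916318) (nat_lit 304) (nat_lit 4849667455) (nat_lit 55) (nat_lit 5) (nat_lit 58) (nat_lit 5) (nat_lit 59) (nat_lit 5) (nat_lit 279) (nat_lit 246) (nat_lit 195)) (XT.nd (nat_lit 78) (nat_lit 76) (nat_lit 0) (XT.lf (nat_lit 0) (nat_lit 747224211) (nat_lit 304) (nat_lit 13664118531) (nat_lit 380) (nat_lit 1191150470) (nat_lit 51) (nat_lit 5) (nat_lit 55) (nat_lit 5)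 (nat_lit 56) (nat_lit 5) (nat_lit 280) (nat_lit 246) (nat_lit 194)) (XT.lf (nat_lit 0) (nat_lit 2692968635) (nat_lit 380) (nat_lit 4521481992) (nat_lit 76) (nat_lit 8924696731) (nat_lit 50) (nat_lit 5) (nat_lit 55) (nat_lit 5) (nat_lit 51) (nat_lit 5) (nat_lit 281) (nat_lit 246) (nat_lit 193)))) (XT.nd (nat_lit 78) (nat_lit 228) (nat_lit 0) (XT.lf (nat_lit 0) (nat_lit 6372081269) (nat_lit 228) (nat_lit 386111181) (nat_lit 304) (nat_lit 9943834134) (nat_lit 47) (nat_lit 5) (nat_lit 50) (nat_lit 5) (nat_lit 51) (nat_lit 5) (nat_lit 282) (nat_lit 246) (nat_lit 192)) (XT.nd (nat_lit 78) (nat_lit 0) (nat_lit 0) (XT.lf (nat_lit 0) (nat_lit 488416764) (nat_lit 228) (nat_lit 10606771019) (nat_lit 304) (nat_lit 6195894475) (nat_lit 44) (nat_lit 5) (nat_lit 47) (nat_lit 5) (nat_lit 48) (nat_lit 5) (nat_lit 283) (nat_lit 246) (nat_lit 191)) (XT.lf (nat_lit 0) (nat_lit 11992954586) (nat_lit 228) (nat_lit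 3719540368) (nat_lit 304) (nat_lit 2195275515) (nat_lit 44) (nat_lit 5) (nat_lit 47) (nat_lit 5) (nat_lit 48) (nat_lit 5) (nat_lit 284) (nat_lit 246) (nat_lit 190))))))))
noncomputable def xc63 : XT := (XT.nd (nat_lit 1638) (nat_lit 836) (nat_lit 0) (XT.nd (nat_lit 780) (nat_lit 760) (nat_lit 0) (XT.nd (nat_lit 390) (nat_lit 608) (nat_lit 0) (XT.nd (nat_lit 156) (nat_lit 456) (nat_lit 0) (XT.nd (nat_lit 78) (nat_lit 0) (nat_lit 0) (XT.lf (nat_lit 0) (nat_lit 2008777971) (nat_lit 304) (nat_lit 13046979231) (nat_lit 76) (nat_lit 3497758827) (nat_lit 40) (nat_lit 5) (nat_lit 44) (nat_lit 5) (nat_lit 41) (nat_lit 5) (nat_lit 285) (nat_lit 246) (nat_lit 189)) (XT.lf (nat_lit 0) (nat_lit 6433418523) (nat_lit 304) (nat_lit 1731246595) (nat_lit 76) (nat_lit 11064631739) (nat_lit 40) (nat_lit 5) (nat_lit 44) (nat_lit 5) (nat_lit 41) (nat_lit 5) (nat_lit 286) (nat_lit 246) (nat_lit 188))) (XT.nd (nat_lit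 78) (nat_lit 228) (nat_lit 0) (XT.lf (nat_lit 0) (nat_lit 10290330064) (nat_lit 228) (nat_lit 846288585) (nat_lit 304) (nat_lit 8800598378) (nat_lit 37) (nat_lit 5) (nat_lit 40) (nat_lit 5) (nat_lit 41) (nat_lit 5) (nat_lit 287) (nat_lit 246) (nat_lit 187)) (XT.nd (nat_lit 78) (nat_lit 76) (nat_lit 0) (XT.lf (nat_lit 0) (nat_lit 2185816667) (nat_lit 152) (nat_lit 13953545633) (nat_lit 228) (nat_lit 4539306185) (nat_lit 35) (nat_lit 5) (nat_lit 37) (nat_lit 5) (nat_lit 38) (nat_lit 5) (nat_lit 288) (nat_lit 246) (nat_lit 186)) (XT.lf (nat_lit 0) (nat_lit 5704326) (nat_lit 228) (nat_lit 6710585081) (nat_lit 76) (nat_lit 14738902005) (nat_lit 34) (nat_lit 5) (nat_lit 37) (nat_lit 5) (nat_lit 35) (nat_lit 5) (nat_lit 289) (nat_lit 246) (nat_lit 185))))) (XT.nd (nat_lit 156) (nat_lit 380) (nat_lit 0) (XT.nd (nat_lit 78) (nat_lit 0) (nat_lit 0) (XT.lf (nat_lit 0) (nat_lit 4711186020) (nat_lit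 304) (nat_lit 16608808265) (nat_lit 76) (nat_lit 948443692) (nat_lit 31) (nat_lit 5) (nat_lit 35) (nat_lit 5) (nat_lit 32) (nat_lit 5) (nat_lit 290) (nat_lit 246) (nat_lit 184)) (XT.lf (nat_lit 0) (nat_lit 9753012546) (nat_lit 304) (nat_lit 4455909913) (nat_lit 76) (nat_lit 8910448301) (nat_lit 31) (nat_lit 5) (nat_lit 35) (nat_lit 5) (nat_lit 32) (nat_lit 5) (nat_lit 291) (nat_lit 246) (nat_lit 183))) (XT.nd (nat_lit 78) (nat_lit 228) (nat_lit 0) (XT.lf (nat_lit 0) (nat_lit 8415760803) (nat_lit 152) (nat_lit 6677322371) (nat_lit 228) (nat_lit 8918435770) (nat_lit 29) (nat_lit 5) (nat_lit 31) (nat_lit 5) (nat_lit 32) (nat_lit 5) (nat_lit 292) (nat_lit 246) (nat_lit 182)) (XT.nd (nat_lit 78) (nat_lit 228) (nat_lit 0) (XT.lf (nat_lit 0) (nat_lit 20724554109) (nat_lit 228) (nat_lit 2987511797) (nat_lit 76) (nat_lit 1235527534) (nat_lit 29) (nat_lit 5) (nat_lit 32) (nat_lit 5) (nat_lit 30) (nat_lit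 5) (nat_lit 293) (nat_lit 246) (nat_lit 181)) (XT.lf (nat_lit 0) (nat_lit 829209009) (nat_lit 228) (nat_lit 15599138248) (nat_lit 76) (nat_lit 9497891042) (nat_lit 26) (nat_lit 5) (nat_lit 29) (nat_lit 5) (nat_lit 27) (nat_lit 5) (nat_lit 294) (nat_lit 246) (nat_lit 180)))))) (XT.nd (nat_lit 390) (nat_lit 456) (nat_lit 0) (XT.nd (nat_lit 156) (nat_lit 152) (nat_lit 0) (XT.nd (nat_lit 78) (nat_lit 152) (nat_lit 0) (XT.lf (nat_lit 0) (nat_lit 6047161338) (nat_lit 228) (nat_lit 2675147003) (nat_lit 76) (nat_lit 18230284515) (nat_lit 26) (nat_lit 5) (nat_lit 29) (nat_lit 5) (nat_lit 27) (nat_lit 5) (nat_lit 295) (nat_lit 246) (nat_lit 179)) (XT.lf (nat_lit 0) (nat_lit 11064088528) (nat_lit 152) (nat_lit 538334992) (nat_lit 228) (nat_lit 16425591863) (nat_lit 24) (nat_lit 5) (nat_lit 26) (nat_lit 5) (nat_lit 27) (nat_lit 5) (nat_lit 296) (nat_lit 246) (nat_lit 178))) (XT.nd (nat_lit 78) (nat_lit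 152) (nat_lit 0) (XT.lf (nat_lit 0) (nat_lit 17511574393) (nat_lit 228) (nat_lit 3734157455) (nat_lit 76) (nat_lit 7909234001) (nat_lit 24) (nat_lit 5) (nat_lit 27) (nat_lit 5) (nat_lit 25) (nat_lit 5) (nat_lit 297) (nat_lit 246) (nat_lit 177)) (XT.nd (nat_lit 78) (nat_lit 0) (nat_lit 0) (XT.lf (nat_lit 0) (nat_lit 10308768619) (nat_lit 152) (nat_lit 13484214902) (nat_lit 228) (nat_lit 6543014944) (nat_lit 22) (nat_lit 5) (nat_lit 24) (nat_lit 5) (nat_lit 25) (nat_lit 5) (nat_lit 298) (nat_lit 246) (nat_lit 176)) (XT.lf (nat_lit 0) (nat_lit 25089077405) (nat_lit 152) (nat_lit 5311007483) (nat_lit 228) (nat_lit 1175685979) (nat_lit 22) (nat_lit 5) (nat_lit 24) (nat_lit 5) (nat_lit 25) (nat_lit 5) (nat_lit 299) (nat_lit 246) (nat_lit 175))))) (XT.nd (nat_lit 234) (nat_lit 76) (nat_lit 0) (XT.nd (nat_lit 78) (nat_lit 152) (nat_lit 0) (XT.lf (nat_lit 0) (nat_lit 4454577319) (nat_lit 228) (nat_lit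 25108390129) (nat_lit 76) (nat_lit 3310864342) (nat_lit 19) (nat_lit 5) (nat_lit 22) (nat_lit 5) (nat_lit 20) (nat_lit 5) (nat_lit 300) (nat_lit 246) (nat_lit 174)) (XT.nd (nat_lit 78) (nat_lit 152) (nat_lit 0) (XT.lf (nat_lit 0) (nat_lit 10438176468) (nat_lit 228) (nat_lit 11475948069) (nat_lit 76) (nat_lit 12319470292) (nat_lit 19) (nat_lit 5) (nat_lit 22) (nat_lit 5) (nat_lit 20) (nat_lit 5) (nat_lit 301) (nat_lit 246) (nat_lit 173)) (XT.lf (nat_lit 0) (nat_lit 2855009510) (nat_lit 152) (nat_lit 13869457245) (nat_lit 228) (nat_lit 18936804798) (nat_lit 17) (nat_lit 5) (nat_lit 19) (nat_lit 5) (nat_lit 20) (nat_lit 5) (nat_lit 302) (nat_lit 246) (nat_lit 172)))) (XT.nd (nat_lit 78) (nat_lit 76) (nat_lit 0) (XT.lf (nat_lit 0) (nat_lit 18104623142) (nat_lit 152) (nat_lit 5315427474) (nat_lit 228) (nat_lit 13737461526) (nat_lit 17) (nat_lit 5) (nat_lit 19) (nat_lit 5) (nat_lit 20) (nat_lit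 5) (nat_lit 303) (nat_lit 246) (nat_lit 171)) (XT.nd (nat_lit 78) (nat_lit 76) (nat_lit 0) (XT.lf (nat_lit 0) (nat_lit 30463470177) (nat_lit 228) (nat_lit 4683556344) (nat_lit 76) (nat_lit 3581174544) (nat_lit 17) (nat_lit 5) (nat_lit 20) (nat_lit 5) (nat_lit 18) (nat_lit 4) (nat_lit 304) (nat_lit 246) (nat_lit 170)) (XT.lf (nat_lit 0) (nat_lit 10521169158) (nat_lit 76) (nat_lit 27471547607) (nat_lit 152) (nat_lit 2380724654) (nat_lit 16) (nat_lit 5) (nat_lit 17) (nat_lit 5) (nat_lit 18) (nat_lit 4) (nat_lit 305) (nat_lit 246) (nat_lit 169))))))) (XT.nd (nat_lit 858) (nat_lit 304) (nat_lit 0) (XT.nd (nat_lit 390) (nat_lit 304) (nat_lit 0) (XT.nd (nat_lit 156) (nat_lit 152) (nat_lit 0) (XT.nd (nat_lit 78) (nat_lit 0) (nat_lit 0) (XT.lf (nat_lit 0) (nat_lit 3751394568) (nat_lit 152) (nat_lit 15586645392) (nat_lit 76) (nat_lit 22760992918) (nat_lit 15) (nat_lit 5) (nat_lit 17) (nat_lit 5) (nat_lit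 16) (nat_lit 5) (nat_lit 306) (nat_lit 246) (nat_lit 168)) (XT.lf (nat_lit 0) (nat_lit 10121649736) (nat_lit 152) (nat_lit 664309655) (nat_lit 76) (nat_lit 33124837847) (nat_lit 15) (nat_lit 5) (nat_lit 17) (nat_lit 5) (nat_lit 16) (nat_lit 5) (nat_lit 307) (nat_lit 246) (nat_lit 167))) (XT.nd (nat_lit 78) (nat_lit 0) (nat_lit 0) (XT.lf (nat_lit 0) (nat_lit 15271144333) (nat_lit 152) (nat_lit 1667315885) (nat_lit 228) (nat_lit 28870870685) (nat_lit 13) (nat_lit 5) (nat_lit 15) (nat_lit 5) (nat_lit 16) (nat_lit 5) (nat_lit 308) (nat_lit 246) (nat_lit 166)) (XT.nd (nat_lit 78) (nat_lit 0) (nat_lit 0) (XT.lf (nat_lit 0) (nat_lit 24160762492) (nat_lit 228) (nat_lit 15891966081) (nat_lit 76) (nat_lit 7748144439) (nat_lit 13) (nat_lit 5) (nat_lit 16) (nat_lit 5) (nat_lit 14) (nat_lit 4) (nat_lit 309) (nat_lit 246) (nat_lit 165)) (XT.lf (nat_lit 0) (nat_lit 31743613894) (nat_lit 228) (nat_lit 559364141)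 (nat_lit 76) (nat_lit 17589051457) (nat_lit 13) (nat_lit 5) (nat_lit 16) (nat_lit 5) (nat_lit 14) (nat_lit 4) (nat_lit 310) (nat_lit 246) (nat_lit 164))))) (XT.nd (nat_lit 234) (nat_lit 152) (nat_lit 0) (XT.nd (nat_lit 78) (nat_lit 76) (nat_lit 0) (XT.lf (nat_lit 0) (nat_lit 15820874959) (nat_lit 76) (nat_lit 24020246541) (nat_lit 152) (nat_lit 12242576207) (nat_lit 12) (nat_lit 5) (nat_lit 13) (nat_lit 5) (nat_lit 14) (nat_lit 4) (nat_lit 311) (nat_lit 246) (nat_lit 163)) (XT.nd (nat_lit 78) (nat_lit 76) (nat_lit 0) (XT.lf (nat_lit 0) (nat_lit 33004894341) (nat_lit 76) (nat_lit 15328332104) (nat_lit 152) (nat_lit 6052049627) (nat_lit 12) (nat_lit 5) (nat_lit 13) (nat_lit 5) (nat_lit 14) (nat_lit 4) (nat_lit 312) (nat_lit 246) (nat_lit 162)) (XT.lf (nat_lit 0) (nat_lit 423820154) (nat_lit 152) (nat_lit 5784088265) (nat_lit 76) (nat_lit 50594375984) (nat_lit 11) (nat_lit 5) (nat_lit 13) (nat_lit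 5) (nat_lit 12) (nat_lit 5) (nat_lit 313) (nat_lit 246) (nat_lit 161)))) (XT.nd (nat_lit 78) (nat_lit 0) (nat_lit 0) (XT.lf (nat_lit 0) (nat_lit 7221686359) (nat_lit 228) (nat_lit 48654284209) (nat_lit 76) (nat_lit 3458690089) (nat_lit 9) (nat_lit 5) (nat_lit 12) (nat_lit 5) (nat_lit 10) (nat_lit 4) (nat_lit 314) (nat_lit 246) (nat_lit 160)) (XT.nd (nat_lit 78) (nat_lit 0) (nat_lit 0) (XT.lf (nat_lit 0) (nat_lit 14467905093) (nat_lit 228) (nat_lit 33990548563) (nat_lit 76) (nat_lit 13531963722) (nat_lit 9) (nat_lit 5) (nat_lit 12) (nat_lit 5) (nat_lit 10) (nat_lit 4) (nat_lit 315) (nat_lit 246) (nat_lit 159)) (XT.lf (nat_lit 0) (nat_lit 22062786842) (nat_lit 228) (nat_lit 18616832309) (nat_lit 76) (nat_lit 24099766917) (nat_lit 9) (nat_lit 5) (nat_lit 12) (nat_lit 5) (nat_lit 10) (nat_lit 4) (nat_lit 316) (nat_lit 246) (nat_lit 158)))))) (XT.nd (nat_lit 390) (nat_lit 228) (nat_lit 0) (XT.nd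 (nat_lit 156) (nat_lit 0) (nat_lit 0) (XT.nd (nat_lit 78) (nat_lit 76) (nat_lit 0) (XT.lf (nat_lit 0) (nat_lit 30024414660) (nat_lit 228) (nat_lit 2496531362) (nat_lit 76) (nat_lit 35187261110) (nat_lit 9) (nat_lit 5) (nat_lit 12) (nat_lit 5) (nat_lit 10) (nat_lit 4) (nat_lit 317) (nat_lit 246) (nat_lit 157)) (XT.lf (nat_lit 0) (nat_lit 14695498046) (nat_lit 76) (nat_lit 23817508873) (nat_lit 152) (nat_lit 32266609167) (nat_lit 8) (nat_lit 5) (nat_lit 9) (nat_lit 5) (nat_lit 10) (nat_lit 4) (nat_lit 318) (nat_lit 246) (nat_lit 156))) (XT.nd (nat_lit 78) (nat_lit 0) (nat_lit 0) (XT.lf (nat_lit 0) (nat_lit 32778853759) (nat_lit 76) (nat_lit 14660888499) (nat_lit 152) (nat_lit 26564454520) (nat_lit 8) (nat_lit 5) (nat_lit 9) (nat_lit 5) (nat_lit 10) (nat_lit 4) (nat_lit 319) (nat_lit 246) (nat_lit 155)) (XT.nd (nat_lit 78) (nat_lit 0) (nat_lit 0) (XT.lf (nat_lit 0) (nat_lit 51746905517) (nat_lit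 76) (nat_lit 5054493496) (nat_lit 152) (nat_lit 20588962044) (nat_lit 8) (nat_lit 5) (nat_lit 9) (nat_lit 5) (nat_lit 10) (nat_lit 4) (nat_lit 320) (nat_lit 246) (nat_lit 154)) (XT.lf (nat_lit 0) (nat_lit 66668565876) (nat_lit 152) (nat_lit 9349654905) (nat_lit 0) (nat_lit 4926501466) (nat_lit 8) (nat_lit 5) (nat_lit 10) (nat_lit 4) (nat_lit 8) (nat_lit 4) (nat_lit 321) (nat_lit 246) (nat_lit 153))))) (XT.nd (nat_lit 234) (nat_lit 76) (nat_lit 0) (XT.nd (nat_lit 78) (nat_lit 76) (nat_lit 0) (XT.lf (nat_lit 0) (nat_lit 7842950968) (nat_lit 76) (nat_lit 69302123279) (nat_lit 76) (nat_lit 7528258720) (nat_lit 7) (nat_lit 4) (nat_lit 8) (nat_lit 5) (nat_lit 8) (nat_lit 4) (nat_lit 322) (nat_lit 246) (nat_lit 152)) (XT.nd (nat_lit 78) (nat_lit 76) (nat_lit 0) (XT.lf (nat_lit 0) (nat_lit 26073168102) (nat_lit 76) (nat_lit 62158391221) (nat_lit 76) (nat_lit 354240807) (nat_lit 7) (nat_lit 4) (nat_lit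 8) (nat_lit 5) (nat_lit 8) (nat_lit 4) (nat_lit 323) (nat_lit 246) (nat_lit 151)) (XT.lf (nat_lit 0) (nat_lit 7028680655) (nat_lit 152) (nat_lit 47564772356) (nat_lit 76) (nat_lit 38098668761) (nat_lit 6) (nat_lit 5) (nat_lit 8) (nat_lit 5) (nat_lit 7) (nat_lit 4) (nat_lit 324) (nat_lit 246) (nat_lit 150)))) (XT.nd (nat_lit 78) (nat_lit 76) (nat_lit 0) (XT.lf (nat_lit 0) (nat_lit 14764233494) (nat_lit 152) (nat_lit 31889070256) (nat_lit 76) (nat_lit 50350635376) (nat_lit 6) (nat_lit 5) (nat_lit 8) (nat_lit 5) (nat_lit 7) (nat_lit 4) (nat_lit 325) (nat_lit 246) (nat_lit 149)) (XT.nd (nat_lit 78) (nat_lit 76) (nat_lit 0) (XT.lf (nat_lit 0) (nat_lit 22877748207) (nat_lit 152) (nat_lit 15444797451) (nat_lit 76) (nat_lit 63209074924) (nat_lit 6) (nat_lit 5) (nat_lit 8) (nat_lit 5) (nat_lit 7) (nat_lit 4) (nat_lit 326) (nat_lit 246) (nat_lit 148)) (XT.lf (nat_lit 0) (nat_lit 1843165894) (nat_lit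 76) (nat_lit 29563094428) (nat_lit 152) (nat_lit 74879154480) (nat_lit 5) (nat_lit 5) (nat_lit 6) (nat_lit 5) (nat_lit 7) (nat_lit 4) (nat_lit 327) (nat_lit 246) (nat_lit 147))))))))
noncomputable def xc64 : XT := (XT.nd (nat_lit 32682) (nat_lit 0) (nat_lit 2660) (XT.nd (nat_lit 31824) (nat_lit 0) (nat_lit 8056) (XT.nd (nat_lit 31434) (nat_lit 0) (nat_lit 14440) (XT.nd (nat_lit 31200) (nat_lit 0) (nat_lit 15048) (XT.nd (nat_lit 78) (nat_lit 0) (nat_lit 0) (XT.lf (nat_lit 0) (nat_lit 20304203695) (nat_lit 76) (nat_lit 20207853455) (nat_lit 152) (nat_lit 70760323755) (nat_lit 5) (nat_lit 5) (nat_lit 6) (nat_lit 5) (nat_lit 7) (nat_lit 4) (nat_lit 328) (nat_lit 246) (nat_lit 146)) (XT.lf (nat_lit 0) (nat_lit 39674889050) (nat_lit 76) (nat_lit 10390510528) (nat_lit 152) (nat_lit 66443535630) (nat_lit 5) (nat_lit 5) (nat_lit 6) (nat_lit 5) (nat_lit 7) (nat_lit 4) (nat_lit 329) (nat_lit 246) (nat_lit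 145))) (XT.nd (nat_lit 78) (nat_lit 684) (nat_lit 0) (XT.lf (nat_lit 0) (nat_lit 1777727478) (nat_lit 684) (nat_lit 870473225) (nat_lit 684) (nat_lit 870473225) (nat_lit 212) (nat_lit 3) (nat_lit 221) (nat_lit 3) (nat_lit 221) (nat_lit 5) (nat_lit 247) (nat_lit 247) (nat_lit 226)) (XT.nd (nat_lit 78) (nat_lit 684) (nat_lit 0) (XT.lf (nat_lit 76) (nat_lit 3250995839) (nat_lit 0) (nat_lit 3003954272) (nat_lit 684) (nat_lit 870791032) (nat_lit 213) (nat_lit 5) (nat_lit 212) (nat_lit 3) (nat_lit 221) (nat_lit 5) (nat_lit 248) (nat_lit 247) (nat_lit 225)) (XT.lf (nat_lit 76) (nat_lit 1225710506) (nat_lit 0) (nat_lit 470359775) (nat_lit 760) (nat_lit 5526666080) (nat_lit 204) (nat_lit 5) (nat_lit 203) (nat_lit 5) (nat_lit 213) (nat_lit 5) (nat_lit 249) (nat_lit 247) (nat_lit 224))))) (XT.nd (nat_lit 156) (nat_lit 684) (nat_lit 0) (XT.nd (nat_lit 78) (nat_lit 0) (nat_lit 0) (XT.lf (nat_lit 0) (nat_lit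 4274453511) (nat_lit 684) (nat_lit 785873088) (nat_lit 760) (nat_lit 2267506293) (nat_lit 204) (nat_lit 5) (nat_lit 213) (nat_lit 5) (nat_lit 214) (nat_lit 5) (nat_lit 250) (nat_lit 247) (nat_lit 223)) (XT.lf (nat_lit 76) (nat_lit 4682545646) (nat_lit 0) (nat_lit 2196291042) (nat_lit 760) (nat_lit 562954992) (nat_lit 205) (nat_lit 5) (nat_lit 204) (nat_lit 5) (nat_lit 214) (nat_lit 5) (nat_lit 251) (nat_lit 247) (nat_lit 222))) (XT.nd (nat_lit 78) (nat_lit 0) (nat_lit 0) (XT.lf (nat_lit 0) (nat_lit 1907977564) (nat_lit 760) (nat_lit 4749479216) (nat_lit 836) (nat_lit 906999696) (nat_lit 195) (nat_lit 5) (nat_lit 205) (nat_lit 5) (nat_lit 206) (nat_lit 5) (nat_lit 252) (nat_lit 247) (nat_lit 221)) (XT.nd (nat_lit 78) (nat_lit 0) (nat_lit 0) (XT.lf (nat_lit 76) (nat_lit 929779747) (nat_lit 0) (nat_lit 3479478128) (nat_lit 836) (nat_lit 3286733893) (nat_lit 196) (nat_lit 5) (nat_lit 195) (nat_lit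 5) (nat_lit 206) (nat_lit 5) (nat_lit 253) (nat_lit 247) (nat_lit 220)) (XT.lf (nat_lit 76) (nat_lit 6901527063) (nat_lit 0) (nat_lit 47375812) (nat_lit 836) (nat_lit 888237920) (nat_lit 196) (nat_lit 5) (nat_lit 195) (nat_lit 5) (nat_lit 206) (nat_lit 5) (nat_lit 254) (nat_lit 247) (nat_lit 219)))))) (XT.nd (nat_lit 390) (nat_lit 3876) (nat_lit 0) (XT.nd (nat_lit 156) (nat_lit 1748) (nat_lit 0) (XT.nd (nat_lit 78) (nat_lit 0) (nat_lit 0) (XT.lf (nat_lit 0) (nat_lit 1552602169) (nat_lit 836) (nat_lit 2840379028) (nat_lit 912) (nat_lit 3593672198) (nat_lit 185) (nat_lit 5) (nat_lit 196) (nat_lit 5) (nat_lit 197) (nat_lit 5) (nat_lit 255) (nat_lit 247) (nat_lit 218)) (XT.lf (nat_lit 76) (nat_lit 3373377988) (nat_lit 0) (nat_lit 641484262) (nat_lit 912) (nat_lit 4131367036) (nat_lit 186) (nat_lit 5) (nat_lit 185) (nat_lit 5) (nat_lit 197) (nat_lit 5) (nat_lit 256) (nat_lit 247) (nat_lit 217)))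 (XT.nd (nat_lit 78) (nat_lit 988) (nat_lit 0) (XT.lf (nat_lit 0) (nat_lit 1549509194) (nat_lit 836) (nat_lit 5007195467) (nat_lit 912) (nat_lit 1758750885) (nat_lit 175) (nat_lit 5) (nat_lit 186) (nat_lit 5) (nat_lit 187) (nat_lit 5) (nat_lit 257) (nat_lit 247) (nat_lit 216)) (XT.nd (nat_lit 78) (nat_lit 912) (nat_lit 0) (XT.lf (nat_lit 0) (nat_lit 657994199) (nat_lit 912) (nat_lit 310942800) (nat_lit 76) (nat_lit 7526139232) (nat_lit 174) (nat_lit 5) (nat_lit 186) (nat_lit 5) (nat_lit 175) (nat_lit 5) (nat_lit 258) (nat_lit 247) (nat_lit 215)) (XT.lf (nat_lit 0) (nat_lit 3143586885) (nat_lit 988) (nat_lit 2230294670) (nat_lit 76) (nat_lit 3310064471) (nat_lit 162) (nat_lit 5) (nat_lit 175) (nat_lit 5) (nat_lit 163) (nat_lit 5) (nat_lit 259) (nat_lit 247) (nat_lit 214))))) (XT.nd (nat_lit 234) (nat_lit 1140) (nat_lit 0) (XT.nd (nat_lit 78) (nat_lit 1748) (nat_lit 0) (XT.lf (nat_lit 0) (nat_lit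 4672453239) (nat_lit 988) (nat_lit 1032811738) (nat_lit 1064) (nat_lit 3178746828) (nat_lit 149) (nat_lit 5) (nat_lit 162) (nat_lit 5) (nat_lit 163) (nat_lit 5) (nat_lit 260) (nat_lit 247) (nat_lit 213)) (XT.nd (nat_lit 78) (nat_lit 684) (nat_lit 0) (XT.lf (nat_lit 0) (nat_lit 2803504045) (nat_lit 1064) (nat_lit 5573782097) (nat_lit 1140) (nat_lit 717619018) (nat_lit 135) (nat_lit 5) (nat_lit 149) (nat_lit 5) (nat_lit 150) (nat_lit 5) (nat_lit 261) (nat_lit 247) (nat_lit 212)) (XT.lf (nat_lit 0) (nat_lit 839590692) (nat_lit 608) (nat_lit 953825053) (nat_lit 684) (nat_lit 7523760995) (nat_lit 126) (nat_lit 5) (nat_lit 134) (nat_lit 5) (nat_lit 135) (nat_lit 5) (nat_lit 262) (nat_lit 247) (nat_lit 211)))) (XT.nd (nat_lit 78) (nat_lit 1140) (nat_lit 0) (XT.lf (nat_lit 0) (nat_lit 4423104395) (nat_lit 684) (nat_lit 1226238702) (nat_lit 76) (nat_lit 3901024535) (nat_lit 126) (nat_lit 5) (nat_lit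 135) (nat_lit 5) (nat_lit 127) (nat_lit 5) (nat_lit 263) (nat_lit 247) (nat_lit 210)) (XT.nd (nat_lit 78) (nat_lit 608) (nat_lit 0) (XT.lf (nat_lit 0) (nat_lit 6416711818) (nat_lit 532) (nat_lit 748339342) (nat_lit 608) (nat_lit 2630988643) (nat_lit 119) (nat_lit 5) (nat_lit 126) (nat_lit 5) (nat_lit 127) (nat_lit 5) (nat_lit 264) (nat_lit 247) (nat_lit 209)) (XT.lf (nat_lit 0) (nat_lit 186280) (nat_lit 608) (nat_lit 5684183192) (nat_lit 76) (nat_lit 4369558652) (nat_lit 111) (nat_lit 5) (nat_lit 119) (nat_lit 5) (nat_lit 112) (nat_lit 5) (nat_lit 265) (nat_lit 247) (nat_lit 208))))))) (XT.nd (nat_lit 780) (nat_lit 2432) (nat_lit 0) (XT.nd (nat_lit 390) (nat_lit 1140) (nat_lit 0) (XT.nd (nat_lit 156) (nat_lit 1368) (nat_lit 0) (XT.nd (nat_lit 78) (nat_lit 0) (nat_lit 0) (XT.lf (nat_lit 0) (nat_lit 2174857232) (nat_lit 456) (nat_lit 513028137) (nat_lit 532) (nat_lit 7636878362) (nat_lit 105)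 (nat_lit 5) (nat_lit 111) (nat_lit 5) (nat_lit 112) (nat_lit 5) (nat_lit 266) (nat_lit 247) (nat_lit 207)) (XT.lf (nat_lit 0) (nat_lit 5534813104) (nat_lit 532) (nat_lit 196100215) (nat_lit 76) (nat_lit 4877687921) (nat_lit 105) (nat_lit 5) (nat_lit 112) (nat_lit 5) (nat_lit 106) (nat_lit 5) (nat_lit 267) (nat_lit 247) (nat_lit 206))) (XT.nd (nat_lit 78) (nat_lit 912) (nat_lit 0) (XT.lf (nat_lit 0) (nat_lit 8228399705) (nat_lit 456) (nat_lit 302330273) (nat_lit 532) (nat_lit 2375897012) (nat_lit 99) (nat_lit 5) (nat_lit 105) (nat_lit 5) (nat_lit 106) (nat_lit 5) (nat_lit 268) (nat_lit 247) (nat_lit 205)) (XT.nd (nat_lit 78) (nat_lit 456) (nat_lit 0) (XT.lf (nat_lit 0) (nat_lit 483430758) (nat_lit 456) (nat_lit 5385069704) (nat_lit 76) (nat_lit 5350038986) (nat_lit 93) (nat_lit 5) (nat_lit 99) (nat_lit 5) (nat_lit 94) (nat_lit 5) (nat_lit 269) (nat_lit 247) (nat_lit 204)) (XT.lf (nat_lit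 0) (nat_lit 3235673645) (nat_lit 456) (nat_lit 190517089) (nat_lit 532) (nat_lit 8119635281) (nat_lit 87) (nat_lit 5) (nat_lit 93) (nat_lit 5) (nat_lit 94) (nat_lit 5) (nat_lit 270) (nat_lit 247) (nat_lit 203))))) (XT.nd (nat_lit 156) (nat_lit 760) (nat_lit 0) (XT.nd (nat_lit 78) (nat_lit 0) (nat_lit 0) (XT.lf (nat_lit 0) (nat_lit 382103053) (nat_lit 380) (nat_lit 6178886952) (nat_lit 456) (nat_lit 5327303955) (nat_lit 82) (nat_lit 5) (nat_lit 87) (nat_lit 5) (nat_lit 88) (nat_lit 5) (nat_lit 271) (nat_lit 247) (nat_lit 202)) (XT.lf (nat_lit 0) (nat_lit 9601505127) (nat_lit 380) (nat_lit 270824342) (nat_lit 456) (nat_lit 2375118096) (nat_lit 82) (nat_lit 5) (nat_lit 87) (nat_lit 5) (nat_lit 88) (nat_lit 5) (nat_lit 272) (nat_lit 247) (nat_lit 201))) (XT.nd (nat_lit 78) (nat_lit 304) (nat_lit 0) (XT.lf (nat_lit 0) (nat_lit 767393780) (nat_lit 456) (nat_lit 5977797897) (nat_lit 76) (nat_lit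 5877596957) (nat_lit 76) (nat_lit 5) (nat_lit 82) (nat_lit 5) (nat_lit 77) (nat_lit 5) (nat_lit 273) (nat_lit 247) (nat_lit 200)) (XT.nd (nat_lit 78) (nat_lit 0) (nat_lit 0) (XT.lf (nat_lit 0) (nat_lit 3402562080) (nat_lit 304) (nat_lit 615815472) (nat_lit 380) (nat_lit 8997937316) (nat_lit 72) (nat_lit 5) (nat_lit 76) (nat_lit 5) (nat_lit 77) (nat_lit 5) (nat_lit 274) (nat_lit 247) (nat_lit 199)) (XT.lf (nat_lit 0) (nat_lit 7489214795) (nat_lit 380) (nat_lit 183534579) (nat_lit 76) (nat_lit 5755179974) (nat_lit 72) (nat_lit 5) (nat_lit 77) (nat_lit 5) (nat_lit 73) (nat_lit 5) (nat_lit 275) (nat_lit 247) (nat_lit 198)))))) (XT.nd (nat_lit 390) (nat_lit 1140) (nat_lit 0) (XT.nd (nat_lit 156) (nat_lit 532) (nat_lit 0) (XT.nd (nat_lit 78) (nat_lit 380) (nat_lit 0) (XT.lf (nat_lit 0) (nat_lit 9831282944) (nat_lit 380) (nat_lit 1345138617) (nat_lit 456) (nat_lit 2682542981) (nat_lit 67) (nat_lit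 5) (nat_lit 72) (nat_lit 5) (nat_lit 73) (nat_lit 5) (nat_lit 276) (nat_lit 247) (nat_lit 197)) (XT.lf (nat_lit 0) (nat_lit 777384961) (nat_lit 380) (nat_lit 8283788318) (nat_lit 76) (nat_lit 5248621711) (nat_lit 62) (nat_lit 5) (nat_lit 67) (nat_lit 5) (nat_lit 63) (nat_lit 5) (nat_lit 277) (nat_lit 247) (nat_lit 196))) (XT.nd (nat_lit 78) (nat_lit 228) (nat_lit 0) (XT.lf (nat_lit 0) (nat_lit 1807590160) (nat_lit 304) (nat_lit 2565972459) (nat_lit 380) (nat_lit 10408355492) (nat_lit 58) (nat_lit 5) (nat_lit 62) (nat_lit 5) (nat_lit 63) (nat_lit 5) (nat_lit 278) (nat_lit 247) (nat_lit 195)) (XT.nd (nat_lit 78) (nat_lit 228) (nat_lit 0) (XT.lf (nat_lit 0) (nat_lit 8223728274) (nat_lit 380) (nat_lit 2810907355) (nat_lit 76) (nat_lit 4240891069) (nat_lit 58) (nat_lit 5) (nat_lit 63) (nat_lit 5) (nat_lit 59) (nat_lit 5) (nat_lit 279) (nat_lit 247) (nat_lit 194)) (XT.lf (nat_lit 0) (nat_lit 7922013900)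 (nat_lit 228) (nat_lit 4396122901) (nat_lit 304) (nat_lit 3474226576) (nat_lit 55) (nat_lit 5) (nat_lit 58) (nat_lit 5) (nat_lit 59) (nat_lit 5) (nat_lit 280) (nat_lit 247) (nat_lit 193))))) (XT.nd (nat_lit 234) (nat_lit 532) (nat_lit 0) (XT.nd (nat_lit 78) (nat_lit 228) (nat_lit 0) (XT.lf (nat_lit 0) (nat_lit 309896326) (nat_lit 380) (nat_lit 13456679622) (nat_lit 76) (nat_lit 2567481351) (nat_lit 50) (nat_lit 5) (nat_lit 55) (nat_lit 5) (nat_lit 51) (nat_lit 5) (nat_lit 281) (nat_lit 247) (nat_lit 192)) (XT.nd (nat_lit 78) (nat_lit 228) (nat_lit 0) (XT.lf (nat_lit 0) (nat_lit 4290663260) (nat_lit 380) (nat_lit 2719622511) (nat_lit 76) (nat_lit 9889227288) (nat_lit 50) (nat_lit 5) (nat_lit 55) (nat_lit 5) (nat_lit 51) (nat_lit 5) (nat_lit 282) (nat_lit 247) (nat_lit 191)) (XT.lf (nat_lit 0) (nat_lit 8509876185) (nat_lit 304) (nat_lit 8833160076) (nat_lit 76) (nat_lit 149106732) (nat_lit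 47) (nat_lit 5) (nat_lit 51) (nat_lit 5) (nat_lit 48) (nat_lit 5) (nat_lit 283) (nat_lit 247) (nat_lit 190)))) (XT.nd (nat_lit 78) (nat_lit 304) (nat_lit 0) (XT.lf (nat_lit 0) (nat_lit 2464624365) (nat_lit 228) (nat_lit 10554247647) (nat_lit 304) (nat_lit 5093247378) (nat_lit 44) (nat_lit 5) (nat_lit 47) (nat_lit 5) (nat_lit 48) (nat_lit 5) (nat_lit 284) (nat_lit 247) (nat_lit 189)) (XT.nd (nat_lit 78) (nat_lit 304) (nat_lit 0) (XT.lf (nat_lit 0) (nat_lit 14451446851) (nat_lit 228) (nat_lit 3350410794) (nat_lit 304) (nat_lit 959856605) (nat_lit 44) (nat_lit 5) (nat_lit 47) (nat_lit 5) (nat_lit 48) (nat_lit 5) (nat_lit 285) (nat_lit 247) (nat_lit 188)) (XT.lf (nat_lit 0) (nat_lit 3388344580) (nat_lit 304) (nat_lit 11831079420) (nat_lit 76) (nat_lit 4221237176) (nat_lit 40) (nat_lit 5) (nat_lit 44) (nat_lit 5) (nat_lit 41) (nat_lit 5) (nat_lit 286) (nat_lit 247) (nat_lit 187))))))))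
noncomputable def xc65 : XT := (XT.nd (nat_lit 1638) (nat_lit 760) (nat_lit 0) (XT.nd (nat_lit 780) (nat_lit 836) (nat_lit 0) (XT.nd (nat_lit 390) (nat_lit 380) (nat_lit 0) (XT.nd (nat_lit 156) (nat_lit 456) (nat_lit 0) (XT.nd (nat_lit 78) (nat_lit 228) (nat_lit 0) (XT.lf (nat_lit 0) (nat_lit 7973306317) (nat_lit 304) (nat_lit 38524379) (nat_lit 76) (nat_lit 12140330380) (nat_lit 40) (nat_lit 5) (nat_lit 44) (nat_lit 5) (nat_lit 41) (nat_lit 5) (nat_lit 287) (nat_lit 247) (nat_lit 186)) (XT.lf (nat_lit 0) (nat_lit 12533128278) (nat_lit 228) (nat_lit 337141144) (nat_lit 304) (nat_lit 8026547558) (nat_lit 37) (nat_lit 5) (nat_lit 40) (nat_lit 5) (nat_lit 41) (nat_lit 5) (nat_lit 288) (nat_lit 247) (nat_lit 185))) (XT.nd (nat_lit 78) (nat_lit 304) (nat_lit 0) (XT.lf (nat_lit 0) (nat_lit 4004892148) (nat_lit 152) (nat_lit 14083703126) (nat_lit 228) (nat_lit 3587875545) (nat_lit 35) (nat_lit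 5) (nat_lit 37) (nat_lit 5) (nat_lit 38) (nat_lit 5) (nat_lit 289) (nat_lit 247) (nat_lit 184)) (XT.nd (nat_lit 78) (nat_lit 228) (nat_lit 0) (XT.lf (nat_lit 0) (nat_lit 1106371637) (nat_lit 228) (nat_lit 5394125502) (nat_lit 76) (nat_lit 15992719640) (nat_lit 34) (nat_lit 5) (nat_lit 37) (nat_lit 5) (nat_lit 35) (nat_lit 5) (nat_lit 290) (nat_lit 247) (nat_lit 183)) (XT.lf (nat_lit 0) (nat_lit 6015355608) (nat_lit 304) (nat_lit 15806273443) (nat_lit 76) (nat_lit 1526531810) (nat_lit 31) (nat_lit 5) (nat_lit 35) (nat_lit 5) (nat_lit 32) (nat_lit 5) (nat_lit 291) (nat_lit 247) (nat_lit 182))))) (XT.nd (nat_lit 156) (nat_lit 228) (nat_lit 0) (XT.nd (nat_lit 78) (nat_lit 152) (nat_lit 0) (XT.lf (nat_lit 0) (nat_lit 11258387256) (nat_lit 304) (nat_lit 3123490900) (nat_lit 76) (nat_lit 9861366843) (nat_lit 31) (nat_lit 5) (nat_lit 35) (nat_lit 5) (nat_lit 32) (nat_lit 5) (nat_lit 292) (nat_lit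 247) (nat_lit 181)) (XT.lf (nat_lit 0) (nat_lit 10347183441) (nat_lit 152) (nat_lit 6484336067) (nat_lit 228) (nat_lit 8349573749) (nat_lit 29) (nat_lit 5) (nat_lit 31) (nat_lit 5) (nat_lit 32) (nat_lit 5) (nat_lit 293) (nat_lit 247) (nat_lit 180))) (XT.nd (nat_lit 78) (nat_lit 228) (nat_lit 0) (XT.lf (nat_lit 0) (nat_lit 22702540484) (nat_lit 228) (nat_lit 1673485669) (nat_lit 76) (nat_lit 1789276896) (nat_lit 29) (nat_lit 5) (nat_lit 32) (nat_lit 5) (nat_lit 30) (nat_lit 5) (nat_lit 294) (nat_lit 247) (nat_lit 179)) (XT.nd (nat_lit 78) (nat_lit 0) (nat_lit 0) (XT.lf (nat_lit 0) (nat_lit 1791585446) (nat_lit 228) (nat_lit 14938003026) (nat_lit 76) (nat_lit 10464023764) (nat_lit 26) (nat_lit 5) (nat_lit 29) (nat_lit 5) (nat_lit 27) (nat_lit 5) (nat_lit 295) (nat_lit 247) (nat_lit 178)) (XT.lf (nat_lit 0) (nat_lit 7226582249) (nat_lit 228) (nat_lit 1436435654) (nat_lit 76) (nat_lit 19609644617)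 (nat_lit 26) (nat_lit 5) (nat_lit 29) (nat_lit 5) (nat_lit 27) (nat_lit 5) (nat_lit 296) (nat_lit 247) (nat_lit 177)))))) (XT.nd (nat_lit 390) (nat_lit 304) (nat_lit 0) (XT.nd (nat_lit 156) (nat_lit 380) (nat_lit 0) (XT.nd (nat_lit 78) (nat_lit 0) (nat_lit 0) (XT.lf (nat_lit 0) (nat_lit 12950420114) (nat_lit 152) (nat_lit 80237363) (nat_lit 228) (nat_lit 16372126632) (nat_lit 24) (nat_lit 5) (nat_lit 26) (nat_lit 5) (nat_lit 27) (nat_lit 5) (nat_lit 297) (nat_lit 247) (nat_lit 176)) (XT.lf (nat_lit 0) (nat_lit 19199319813) (nat_lit 228) (nat_lit 2630296805) (nat_lit 76) (nat_lit 8757600464) (nat_lit 24) (nat_lit 5) (nat_lit 27) (nat_lit 5) (nat_lit 25) (nat_lit 5) (nat_lit 298) (nat_lit 247) (nat_lit 175))) (XT.nd (nat_lit 78) (nat_lit 228) (nat_lit 0) (XT.lf (nat_lit 0) (nat_lit 12077781685) (nat_lit 152) (nat_lit 13690393235) (nat_lit 228) (nat_lit 6059979053) (nat_lit 22) (nat_lit 5)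 (nat_lit 24) (nat_lit 5) (nat_lit 25) (nat_lit 5) (nat_lit 299) (nat_lit 247) (nat_lit 174)) (XT.nd (nat_lit 78) (nat_lit 228) (nat_lit 0) (XT.lf (nat_lit 0) (nat_lit 27537411879) (nat_lit 152) (nat_lit 5130812703) (nat_lit 228) (nat_lit 462863956) (nat_lit 22) (nat_lit 5) (nat_lit 24) (nat_lit 5) (nat_lit 25) (nat_lit 5) (nat_lit 300) (nat_lit 247) (nat_lit 173)) (XT.lf (nat_lit 0) (nat_lit 5413389294) (nat_lit 228) (nat_lit 25169916318) (nat_lit 76) (nat_lit 3911185843) (nat_lit 19) (nat_lit 5) (nat_lit 22) (nat_lit 5) (nat_lit 20) (nat_lit 5) (nat_lit 301) (nat_lit 247) (nat_lit 172))))) (XT.nd (nat_lit 234) (nat_lit 152) (nat_lit 0) (XT.nd (nat_lit 78) (nat_lit 152) (nat_lit 0) (XT.lf (nat_lit 0) (nat_lit 11661116824) (nat_lit 228) (nat_lit 10912704218) (nat_lit 76) (nat_lit 13349518362) (nat_lit 19) (nat_lit 5) (nat_lit 22) (nat_lit 5) (nat_lit 20) (nat_lit 5) (nat_lit 302) (nat_lit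 247) (nat_lit 171)) (XT.nd (nat_lit 78) (nat_lit 0) (nat_lit 0) (XT.lf (nat_lit 0) (nat_lit 4102208180) (nat_lit 152) (nat_lit 14136747623) (nat_lit 228) (nat_lit 19184170195) (nat_lit 17) (nat_lit 5) (nat_lit 19) (nat_lit 5) (nat_lit 20) (nat_lit 5) (nat_lit 303) (nat_lit 247) (nat_lit 170)) (XT.lf (nat_lit 0) (nat_lit 20061709723) (nat_lit 152) (nat_lit 5175310767) (nat_lit 228) (nat_lit 13758168085) (nat_lit 17) (nat_lit 5) (nat_lit 19) (nat_lit 5) (nat_lit 20) (nat_lit 5) (nat_lit 304) (nat_lit 247) (nat_lit 169)))) (XT.nd (nat_lit 78) (nat_lit 152) (nat_lit 0) (XT.lf (nat_lit 0) (nat_lit 32605566530) (nat_lit 228) (nat_lit 3900445634) (nat_lit 76) (nat_lit 4139250169) (nat_lit 17) (nat_lit 5) (nat_lit 20) (nat_lit 5) (nat_lit 18) (nat_lit 4) (nat_lit 305) (nat_lit 247) (nat_lit 168)) (XT.nd (nat_lit 78) (nat_lit 76) (nat_lit 0) (XT.lf (nat_lit 0) (nat_lit 12035355772) (nat_lit 76) (nat_lit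 28455945652) (nat_lit 152) (nat_lit 1882099697) (nat_lit 16) (nat_lit 5) (nat_lit 17) (nat_lit 5) (nat_lit 18) (nat_lit 4) (nat_lit 306) (nat_lit 247) (nat_lit 167)) (XT.lf (nat_lit 0) (nat_lit 4515734197) (nat_lit 152) (nat_lit 15412736531) (nat_lit 76) (nat_lit 24257522853) (nat_lit 15) (nat_lit 5) (nat_lit 17) (nat_lit 5) (nat_lit 16) (nat_lit 5) (nat_lit 307) (nat_lit 247) (nat_lit 166))))))) (XT.nd (nat_lit 858) (nat_lit 304) (nat_lit 0) (XT.nd (nat_lit 390) (nat_lit 228) (nat_lit 0) (XT.nd (nat_lit 156) (nat_lit 76) (nat_lit 0) (XT.nd (nat_lit 78) (nat_lit 0) (nat_lit 0) (XT.lf (nat_lit 0) (nat_lit 214509408) (nat_lit 152) (nat_lit 10964589476) (nat_lit 228) (nat_lit 34910042125) (nat_lit 13) (nat_lit 5) (nat_lit 15) (nat_lit 5) (nat_lit 16) (nat_lit 5) (nat_lit 308) (nat_lit 247) (nat_lit 165)) (XT.lf (nat_lit 0) (nat_lit 16916526945) (nat_lit 152) (nat_lit 1400480230) (nat_lit 228)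 (nat_lit 29766217659) (nat_lit 13) (nat_lit 5) (nat_lit 15) (nat_lit 5) (nat_lit 16) (nat_lit 5) (nat_lit 309) (nat_lit 247) (nat_lit 164))) (XT.nd (nat_lit 78) (nat_lit 76) (nat_lit 0) (XT.lf (nat_lit 0) (nat_lit 25878315186) (nat_lit 228) (nat_lit 15834153282) (nat_lit 76) (nat_lit 8462568572) (nat_lit 13) (nat_lit 5) (nat_lit 16) (nat_lit 5) (nat_lit 14) (nat_lit 4) (nat_lit 310) (nat_lit 247) (nat_lit 163)) (XT.nd (nat_lit 78) (nat_lit 0) (nat_lit 0) (XT.lf (nat_lit 0) (nat_lit 228955495) (nat_lit 76) (nat_lit 33589291924) (nat_lit 152) (nat_lit 18553194071) (nat_lit 12) (nat_lit 5) (nat_lit 13) (nat_lit 5) (nat_lit 14) (nat_lit 4) (nat_lit 311) (nat_lit 247) (nat_lit 162)) (XT.lf (nat_lit 0) (nat_lit 17400468145) (nat_lit 76) (nat_lit 24902434183) (nat_lit 152) (nat_lit 12370349577) (nat_lit 12) (nat_lit 5) (nat_lit 13) (nat_lit 5) (nat_lit 14) (nat_lit 4) (nat_lit 312) (nat_lit 247)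 (nat_lit 161))))) (XT.nd (nat_lit 234) (nat_lit 0) (nat_lit 0) (XT.nd (nat_lit 78) (nat_lit 228) (nat_lit 0) (XT.lf (nat_lit 0) (nat_lit 35406138523) (nat_lit 76) (nat_lit 15791106152) (nat_lit 152) (nat_lit 5893361213) (nat_lit 12) (nat_lit 5) (nat_lit 13) (nat_lit 5) (nat_lit 14) (nat_lit 4) (nat_lit 313) (nat_lit 247) (nat_lit 160)) (XT.nd (nat_lit 78) (nat_lit 152) (nat_lit 0) (XT.lf (nat_lit 0) (nat_lit 875763018) (nat_lit 152) (nat_lit 5349007686) (nat_lit 76) (nat_lit 53404230764) (nat_lit 11) (nat_lit 5) (nat_lit 13) (nat_lit 5) (nat_lit 12) (nat_lit 5) (nat_lit 314) (nat_lit 247) (nat_lit 159)) (XT.lf (nat_lit 0) (nat_lit 8002527453) (nat_lit 228) (nat_lit 50373267048) (nat_lit 76) (nat_lit 3912554485) (nat_lit 9) (nat_lit 5) (nat_lit 12) (nat_lit 5) (nat_lit 10) (nat_lit 4) (nat_lit 315) (nat_lit 247) (nat_lit 158)))) (XT.nd (nat_lit 78) (nat_lit 0) (nat_lit 0) (XT.lf (nat_lit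 0) (nat_lit 15591068705) (nat_lit 228) (nat_lit 35010331828) (nat_lit 76) (nat_lit 14476114187) (nat_lit 9) (nat_lit 5) (nat_lit 12) (nat_lit 5) (nat_lit 10) (nat_lit 4) (nat_lit 316) (nat_lit 247) (nat_lit 157)) (XT.nd (nat_lit 78) (nat_lit 0) (nat_lit 0) (XT.lf (nat_lit 0) (nat_lit 23546657954) (nat_lit 228) (nat_lit 18900298531) (nat_lit 76) (nat_lit 25559566957) (nat_lit 9) (nat_lit 5) (nat_lit 12) (nat_lit 5) (nat_lit 10) (nat_lit 4) (nat_lit 317) (nat_lit 247) (nat_lit 156)) (XT.lf (nat_lit 0) (nat_lit 31888237078) (nat_lit 228) (nat_lit 2004809936) (nat_lit 76) (nat_lit 37189301969) (nat_lit 9) (nat_lit 5) (nat_lit 12) (nat_lit 5) (nat_lit 10) (nat_lit 4) (nat_lit 318) (nat_lit 247) (nat_lit 155)))))) (XT.nd (nat_lit 390) (nat_lit 152) (nat_lit 0) (XT.nd (nat_lit 156) (nat_lit 76) (nat_lit 0) (XT.nd (nat_lit 78) (nat_lit 0) (nat_lit 0) (XT.lf (nat_lit 0) (nat_lit 16029147717) (nat_lit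 76) (nat_lit 24760601236) (nat_lit 152) (nat_lit 33517943324) (nat_lit 8) (nat_lit 5) (nat_lit 9) (nat_lit 5) (nat_lit 10) (nat_lit 4) (nat_lit 319) (nat_lit 247) (nat_lit 154)) (XT.lf (nat_lit 0) (nat_lit 34988153370) (nat_lit 76) (nat_lit 15157949038) (nat_lit 152) (nat_lit 27547918864) (nat_lit 8) (nat_lit 5) (nat_lit 9) (nat_lit 5) (nat_lit 10) (nat_lit 4) (nat_lit 320) (nat_lit 247) (nat_lit 153))) (XT.nd (nat_lit 78) (nat_lit 76) (nat_lit 0) (XT.lf (nat_lit 0) (nat_lit 54877447863) (nat_lit 76) (nat_lit 5082471613) (nat_lit 152) (nat_lit 21290068830) (nat_lit 8) (nat_lit 5) (nat_lit 9) (nat_lit 5) (nat_lit 10) (nat_lit 4) (nat_lit 321) (nat_lit 247) (nat_lit 152)) (XT.nd (nat_lit 78) (nat_lit 76) (nat_lit 0) (XT.lf (nat_lit 0) (nat_lit 70307337896) (nat_lit 152) (nat_lit 9292444818) (nat_lit 0) (nat_lit 5382694105) (nat_lit 8) (nat_lit 5) (nat_lit 10) (nat_lit 4) (nat_lit 8) (nat_lit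 4) (nat_lit 322) (nat_lit 247) (nat_lit 151)) (XT.lf (nat_lit 0) (nat_lit 8744751133) (nat_lit 76) (nat_lit 72553279468) (nat_lit 76) (nat_lit 7599792004) (nat_lit 7) (nat_lit 4) (nat_lit 8) (nat_lit 5) (nat_lit 8) (nat_lit 4) (nat_lit 323) (nat_lit 247) (nat_lit 150))))) (XT.nd (nat_lit 234) (nat_lit 76) (nat_lit 0) (XT.nd (nat_lit 78) (nat_lit 76) (nat_lit 0) (XT.lf (nat_lit 0) (nat_lit 27862209952) (nat_lit 76) (nat_lit 65062548901) (nat_lit 76) (nat_lit 81591273) (nat_lit 7) (nat_lit 4) (nat_lit 8) (nat_lit 5) (nat_lit 8) (nat_lit 4) (nat_lit 324) (nat_lit 247) (nat_lit 149)) (XT.nd (nat_lit 78) (nat_lit 0) (nat_lit 0) (XT.lf (nat_lit 0) (nat_lit 7651253330) (nat_lit 152) (nat_lit 49475075429) (nat_lit 76) (nat_lit 40191995536) (nat_lit 6) (nat_lit 5) (nat_lit 8) (nat_lit 5) (nat_lit 7) (nat_lit 4) (nat_lit 325) (nat_lit 247) (nat_lit 148)) (XT.lf (nat_lit 0) (nat_lit 15760672447) (nat_lit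 152) (nat_lit 33037870870) (nat_lit 76) (nat_lit 53047589371) (nat_lit 6) (nat_lit 5) (nat_lit 8) (nat_lit 5) (nat_lit 7) (nat_lit 4) (nat_lit 326) (nat_lit 247) (nat_lit 147)))) (XT.nd (nat_lit 78) (nat_lit 76) (nat_lit 0) (XT.lf (nat_lit 0) (nat_lit 24267566358) (nat_lit 152) (nat_lit 15792605991) (nat_lit 76) (nat_lit 66540406980) (nat_lit 6) (nat_lit 5) (nat_lit 8) (nat_lit 5) (nat_lit 7) (nat_lit 4) (nat_lit 327) (nat_lit 247) (nat_lit 146)) (XT.nd (nat_lit 78) (nat_lit 0) (nat_lit 0) (XT.lf (nat_lit 0) (nat_lit 2347589283) (nat_lit 76) (nat_lit 30867166752) (nat_lit 152) (nat_lit 78377551302) (nat_lit 5) (nat_lit 5) (nat_lit 6) (nat_lit 5) (nat_lit 7) (nat_lit 4) (nat_lit 328) (nat_lit 247) (nat_lit 145)) (XT.lf (nat_lit 0) (nat_lit 21712047303) (nat_lit 76) (nat_lit 21052453369) (nat_lit 152) (nat_lit 74064472417) (nat_lit 5) (nat_lit 5) (nat_lit 6) (nat_lit 5) (nat_lit 7) (nat_lit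 4) (nat_lit 329) (nat_lit 247) (nat_lit 144))))))))
noncomputable def xc66 : XT := (XT.nd (nat_lit 1638) (nat_lit 4712) (nat_lit 0) (XT.nd (nat_lit 780) (nat_lit 6460) (nat_lit 0) (XT.nd (nat_lit 390) (nat_lit 760) (nat_lit 0) (XT.nd (nat_lit 156) (nat_lit 684) (nat_lit 0) (XT.nd (nat_lit 78) (nat_lit 0) (nat_lit 0) (XT.lf (nat_lit 0) (nat_lit 394268460) (nat_lit 0) (nat_lit 394268460) (nat_lit 684) (nat_lit 2820358307) (nat_lit 203) (nat_lit 5) (nat_lit 203) (nat_lit 3) (nat_lit 212) (nat_lit 3) (nat_lit 248) (nat_lit 248) (nat_lit 224)) (XT.lf (nat_lit 0) (nat_lit 4029453162) (nat_lit 684) (nat_lit 1395757591) (nat_lit 760) (nat_lit 1892514763) (nat_lit 203) (nat_lit 5) (nat_lit 212) (nat_lit 3) (nat_lit 213) (nat_lit 5) (nat_lit 249) (nat_lit 248) (nat_lit 223))) (XT.nd (nat_lit 78) (nat_lit 684) (nat_lit 0) (XT.lf (nat_lit 76) (nat_lit 3874570718) (nat_lit 0) (nat_lit 2622549631) (nat_lit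 760) (nat_lit 929276766) (nat_lit 204) (nat_lit 5) (nat_lit 203) (nat_lit 5) (nat_lit 213) (nat_lit 5) (nat_lit 250) (nat_lit 248) (nat_lit 222)) (XT.nd (nat_lit 78) (nat_lit 0) (nat_lit 0) (XT.lf (nat_lit 0) (nat_lit 1405805479) (nat_lit 760) (nat_lit 5713431617) (nat_lit 836) (nat_lit 424649439) (nat_lit 194) (nat_lit 5) (nat_lit 204) (nat_lit 5) (nat_lit 205) (nat_lit 5) (nat_lit 251) (nat_lit 248) (nat_lit 221)) (XT.lf (nat_lit 0) (nat_lit 3760872036) (nat_lit 760) (nat_lit 232739438) (nat_lit 836) (nat_lit 3676147245) (nat_lit 194) (nat_lit 5) (nat_lit 204) (nat_lit 5) (nat_lit 205) (nat_lit 5) (nat_lit 252) (nat_lit 248) (nat_lit 220))))) (XT.nd (nat_lit 156) (nat_lit 0) (nat_lit 0) (XT.nd (nat_lit 78) (nat_lit 760) (nat_lit 0) (XT.lf (nat_lit 76) (nat_lit 5547916254) (nat_lit 0) (nat_lit 604701305) (nat_lit 836) (nat_lit 1652175174) (nat_lit 195) (nat_lit 5) (nat_lit 194) (nat_lit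 5) (nat_lit 205) (nat_lit 5) (nat_lit 253) (nat_lit 248) (nat_lit 219)) (XT.lf (nat_lit 0) (nat_lit 639784690) (nat_lit 836) (nat_lit 4321408473) (nat_lit 912) (nat_lit 2987489206) (nat_lit 184) (nat_lit 5) (nat_lit 195) (nat_lit 5) (nat_lit 196) (nat_lit 5) (nat_lit 254) (nat_lit 248) (nat_lit 218))) (XT.nd (nat_lit 78) (nat_lit 0) (nat_lit 76) (XT.lf (nat_lit 76) (nat_lit 1678311491) (nat_lit 0) (nat_lit 1255287635) (nat_lit 912) (nat_lit 5168417769) (nat_lit 185) (nat_lit 5) (nat_lit 184) (nat_lit 5) (nat_lit 196) (nat_lit 5) (nat_lit 255) (nat_lit 248) (nat_lit 217)) (XT.nd (nat_lit 78) (nat_lit 0) (nat_lit 0) (XT.lf (nat_lit 0) (nat_lit 5293268322) (nat_lit 836) (nat_lit 306154911) (nat_lit 912) (nat_lit 2665425647) (nat_lit 185) (nat_lit 5) (nat_lit 196) (nat_lit 5) (nat_lit 197) (nat_lit 5) (nat_lit 256) (nat_lit 248) (nat_lit 216)) (XT.lf (nat_lit 76) (nat_lit 6141575985) (nat_lit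 0) (nat_lit 1587623398) (nat_lit 912) (nat_lit 708222973) (nat_lit 186) (nat_lit 5) (nat_lit 185) (nat_lit 5) (nat_lit 197) (nat_lit 5) (nat_lit 257) (nat_lit 248) (nat_lit 215)))))) (XT.nd (nat_lit 390) (nat_lit 2660) (nat_lit 0) (XT.nd (nat_lit 156) (nat_lit 2128) (nat_lit 0) (XT.nd (nat_lit 78) (nat_lit 912) (nat_lit 0) (XT.lf (nat_lit 0) (nat_lit 1595999207) (nat_lit 912) (nat_lit 4362450984) (nat_lit 76) (nat_lit 2661207672) (nat_lit 174) (nat_lit 5) (nat_lit 186) (nat_lit 5) (nat_lit 175) (nat_lit 5) (nat_lit 258) (nat_lit 248) (nat_lit 214)) (XT.lf (nat_lit 0) (nat_lit 2312969363) (nat_lit 912) (nat_lit 1644588788) (nat_lit 988) (nat_lit 4854840113) (nat_lit 162) (nat_lit 5) (nat_lit 174) (nat_lit 5) (nat_lit 175) (nat_lit 5) (nat_lit 259) (nat_lit 248) (nat_lit 213))) (XT.nd (nat_lit 78) (nat_lit 1140) (nat_lit 0) (XT.lf (nat_lit 0) (nat_lit 291966275) (nat_lit 988) (nat_lit 6120051979)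 (nat_lit 1064) (nat_lit 2603804799) (nat_lit 149) (nat_lit 5) (nat_lit 162) (nat_lit 5) (nat_lit 163) (nat_lit 5) (nat_lit 260) (nat_lit 248) (nat_lit 212)) (XT.nd (nat_lit 78) (nat_lit 1140) (nat_lit 0) (XT.lf (nat_lit 0) (nat_lit 7458820928) (nat_lit 988) (nat_lit 1516670098) (nat_lit 1064) (nat_lit 254617518) (nat_lit 149) (nat_lit 5) (nat_lit 162) (nat_lit 5) (nat_lit 163) (nat_lit 5) (nat_lit 261) (nat_lit 248) (nat_lit 211)) (XT.lf (nat_lit 0) (nat_lit 2161199912) (nat_lit 1140) (nat_lit 3954203702) (nat_lit 76) (nat_lit 3339553927) (nat_lit 134) (nat_lit 5) (nat_lit 149) (nat_lit 5) (nat_lit 135) (nat_lit 5) (nat_lit 262) (nat_lit 248) (nat_lit 210))))) (XT.nd (nat_lit 234) (nat_lit 1520) (nat_lit 0) (XT.nd (nat_lit 78) (nat_lit 532) (nat_lit 0) (XT.lf (nat_lit 0) (nat_lit 3450289833) (nat_lit 608) (nat_lit 1219390121) (nat_lit 684) (nat_lit 5022224222) (nat_lit 126) (nat_lit 5) (nat_lit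 134) (nat_lit 5) (nat_lit 135) (nat_lit 5) (nat_lit 263) (nat_lit 248) (nat_lit 209)) (XT.nd (nat_lit 78) (nat_lit 0) (nat_lit 0) (XT.lf (nat_lit 0) (nat_lit 1272465795) (nat_lit 532) (nat_lit 6035929429) (nat_lit 608) (nat_lit 2632391864) (nat_lit 119) (nat_lit 5) (nat_lit 126) (nat_lit 5) (nat_lit 127) (nat_lit 5) (nat_lit 264) (nat_lit 248) (nat_lit 208)) (XT.lf (nat_lit 0) (nat_lit 9200062852) (nat_lit 532) (nat_lit 872534824) (nat_lit 608) (nat_lit 129932102) (nat_lit 119) (nat_lit 5) (nat_lit 126) (nat_lit 5) (nat_lit 127) (nat_lit 5) (nat_lit 265) (nat_lit 248) (nat_lit 207)))) (XT.nd (nat_lit 78) (nat_lit 912) (nat_lit 0) (XT.lf (nat_lit 0) (nat_lit 2481725491) (nat_lit 608) (nat_lit 3439024700) (nat_lit 76) (nat_lit 4555110182) (nat_lit 111) (nat_lit 5) (nat_lit 119) (nat_lit 5) (nat_lit 112) (nat_lit 5) (nat_lit 266) (nat_lit 248) (nat_lit 206)) (XT.nd (nat_lit 78) (nat_lit 456)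 (nat_lit 0) (XT.lf (nat_lit 0) (nat_lit 4740463929) (nat_lit 456) (nat_lit 468794395) (nat_lit 532) (nat_lit 5554116845) (nat_lit 105) (nat_lit 5) (nat_lit 111) (nat_lit 5) (nat_lit 112) (nat_lit 5) (nat_lit 267) (nat_lit 248) (nat_lit 205)) (XT.lf (nat_lit 0) (nat_lit 2251184253) (nat_lit 456) (nat_lit 5855962089) (nat_lit 532) (nat_lit 2957286336) (nat_lit 99) (nat_lit 5) (nat_lit 105) (nat_lit 5) (nat_lit 106) (nat_lit 5) (nat_lit 268) (nat_lit 248) (nat_lit 204))))))) (XT.nd (nat_lit 780) (nat_lit 1900) (nat_lit 0) (XT.nd (nat_lit 390) (nat_lit 1520) (nat_lit 0) (XT.nd (nat_lit 156) (nat_lit 836) (nat_lit 0) (XT.nd (nat_lit 78) (nat_lit 456) (nat_lit 0) (XT.lf (nat_lit 0) (nat_lit 10983807689) (nat_lit 456) (nat_lit 161659991) (nat_lit 532) (nat_lit 235386676) (nat_lit 99) (nat_lit 5) (nat_lit 105) (nat_lit 5) (nat_lit 106) (nat_lit 5) (nat_lit 269) (nat_lit 248) (nat_lit 203)) (XT.lf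 (nat_lit 0) (nat_lit 2641533081) (nat_lit 456) (nat_lit 3262397871) (nat_lit 76) (nat_lit 5806470898) (nat_lit 93) (nat_lit 5) (nat_lit 99) (nat_lit 5) (nat_lit 94) (nat_lit 5) (nat_lit 270) (nat_lit 248) (nat_lit 202))) (XT.nd (nat_lit 78) (nat_lit 380) (nat_lit 0) (XT.lf (nat_lit 0) (nat_lit 5652808971) (nat_lit 532) (nat_lit 6336513037) (nat_lit 76) (nat_lit 67329718) (nat_lit 87) (nat_lit 5) (nat_lit 94) (nat_lit 5) (nat_lit 88) (nat_lit 5) (nat_lit 271) (nat_lit 248) (nat_lit 201)) (XT.nd (nat_lit 78) (nat_lit 0) (nat_lit 0) (XT.lf (nat_lit 0) (nat_lit 2720002926) (nat_lit 380) (nat_lit 6150594476) (nat_lit 456) (nat_lit 3548087062) (nat_lit 82) (nat_lit 5) (nat_lit 87) (nat_lit 5) (nat_lit 88) (nat_lit 5) (nat_lit 272) (nat_lit 248) (nat_lit 200)) (XT.lf (nat_lit 0) (nat_lit 12253497803) (nat_lit 456) (nat_lit 509242076) (nat_lit 76) (nat_lit 36094025) (nat_lit 82) (nat_lit 5) (nat_lit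 88) (nat_lit 5) (nat_lit 83) (nat_lit 5) (nat_lit 273) (nat_lit 248) (nat_lit 199))))) (XT.nd (nat_lit 156) (nat_lit 760) (nat_lit 0) (XT.nd (nat_lit 78) (nat_lit 304) (nat_lit 0) (XT.lf (nat_lit 0) (nat_lit 2649300348) (nat_lit 456) (nat_lit 4034664847) (nat_lit 76) (nat_lit 6510625804) (nat_lit 76) (nat_lit 5) (nat_lit 82) (nat_lit 5) (nat_lit 77) (nat_lit 5) (nat_lit 274) (nat_lit 248) (nat_lit 198)) (XT.lf (nat_lit 0) (nat_lit 5750445993) (nat_lit 304) (nat_lit 245533768) (nat_lit 380) (nat_lit 7614011342) (nat_lit 72) (nat_lit 5) (nat_lit 76) (nat_lit 5) (nat_lit 77) (nat_lit 5) (nat_lit 275) (nat_lit 248) (nat_lit 197))) (XT.nd (nat_lit 78) (nat_lit 380) (nat_lit 0) (XT.lf (nat_lit 0) (nat_lit 1970541009) (nat_lit 380) (nat_lit 7607827699) (nat_lit 456) (nat_lit 4465860113) (nat_lit 67) (nat_lit 5) (nat_lit 72) (nat_lit 5) (nat_lit 73) (nat_lit 5) (nat_lit 276) (nat_lit 248) (nat_lit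 196)) (XT.nd (nat_lit 78) (nat_lit 380) (nat_lit 0) (XT.lf (nat_lit 0) (nat_lit 12386740092) (nat_lit 380) (nat_lit 983343023) (nat_lit 456) (nat_lit 1129302345) (nat_lit 67) (nat_lit 5) (nat_lit 72) (nat_lit 5) (nat_lit 73) (nat_lit 5) (nat_lit 277) (nat_lit 248) (nat_lit 195)) (XT.lf (nat_lit 0) (nat_lit 2415797194) (nat_lit 380) (nat_lit 6611176548) (nat_lit 76) (nat_lit 5947105018) (nat_lit 62) (nat_lit 5) (nat_lit 67) (nat_lit 5) (nat_lit 63) (nat_lit 5) (nat_lit 278) (nat_lit 248) (nat_lit 194)))))) (XT.nd (nat_lit 390) (nat_lit 988) (nat_lit 0) (XT.nd (nat_lit 156) (nat_lit 608) (nat_lit 0) (XT.nd (nat_lit 78) (nat_lit 0) (nat_lit 0) (XT.lf (nat_lit 0) (nat_lit 3924953117) (nat_lit 304) (nat_lit 2210146509) (nat_lit 380) (nat_lit 9336562252) (nat_lit 58) (nat_lit 5) (nat_lit 62) (nat_lit 5) (nat_lit 63) (nat_lit 5) (nat_lit 279) (nat_lit 248) (nat_lit 193)) (XT.lf (nat_lit 0) (nat_lit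 10108736190) (nat_lit 380) (nat_lit 978422356) (nat_lit 76) (nat_lit 4905009488) (nat_lit 58) (nat_lit 5) (nat_lit 63) (nat_lit 5) (nat_lit 59) (nat_lit 5) (nat_lit 280) (nat_lit 248) (nat_lit 192))) (XT.nd (nat_lit 78) (nat_lit 380) (nat_lit 0) (XT.lf (nat_lit 0) (nat_lit 10234588443) (nat_lit 228) (nat_lit 4121517044) (nat_lit 304) (nat_lit 2180432914) (nat_lit 55) (nat_lit 5) (nat_lit 58) (nat_lit 5) (nat_lit 59) (nat_lit 5) (nat_lit 281) (nat_lit 248) (nat_lit 191)) (XT.nd (nat_lit 78) (nat_lit 0) (nat_lit 0) (XT.lf (nat_lit 0) (nat_lit 1718768470) (nat_lit 380) (nat_lit 12198148288) (nat_lit 76) (nat_lit 3189470390) (nat_lit 50) (nat_lit 5) (nat_lit 55) (nat_lit 5) (nat_lit 51) (nat_lit 5) (nat_lit 282) (nat_lit 248) (nat_lit 190)) (XT.lf (nat_lit 0) (nat_lit 5832222449) (nat_lit 380) (nat_lit 1016208099) (nat_lit 76) (nat_lit 10853798149) (nat_lit 50) (nat_lit 5) (nat_lit 55) (nat_lit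 5) (nat_lit 51) (nat_lit 5) (nat_lit 283) (nat_lit 248) (nat_lit 189))))) (XT.nd (nat_lit 234) (nat_lit 456) (nat_lit 0) (XT.nd (nat_lit 78) (nat_lit 304) (nat_lit 0) (XT.lf (nat_lit 0) (nat_lit 10221239587) (nat_lit 304) (nat_lit 7452246295) (nat_lit 76) (nat_lit 652355569) (nat_lit 47) (nat_lit 5) (nat_lit 51) (nat_lit 5) (nat_lit 48) (nat_lit 5) (nat_lit 284) (nat_lit 248) (nat_lit 188)) (XT.nd (nat_lit 78) (nat_lit 76) (nat_lit 0) (XT.lf (nat_lit 0) (nat_lit 4358183714) (nat_lit 228) (nat_lit 10553287084) (nat_lit 304) (nat_lit 4066783379) (nat_lit 44) (nat_lit 5) (nat_lit 47) (nat_lit 5) (nat_lit 48) (nat_lit 5) (nat_lit 285) (nat_lit 248) (nat_lit 187)) (XT.lf (nat_lit 0) (nat_lit 208128744) (nat_lit 304) (nat_lit 2804202853) (nat_lit 76) (nat_lit 16649815547) (nat_lit 43) (nat_lit 5) (nat_lit 47) (nat_lit 5) (nat_lit 44) (nat_lit 5) (nat_lit 286) (nat_lit 248) (nat_lit 186)))) (XT.nd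 (nat_lit 78) (nat_lit 228) (nat_lit 0) (XT.lf (nat_lit 0) (nat_lit 4717968349) (nat_lit 304) (nat_lit 10728076681) (nat_lit 76) (nat_lit 4929886707) (nat_lit 40) (nat_lit 5) (nat_lit 44) (nat_lit 5) (nat_lit 41) (nat_lit 5) (nat_lit 287) (nat_lit 248) (nat_lit 185)) (XT.nd (nat_lit 78) (nat_lit 0) (nat_lit 0) (XT.lf (nat_lit 0) (nat_lit 1604726937) (nat_lit 228) (nat_lit 7887628922) (nat_lit 304) (nat_lit 11631938599) (nat_lit 37) (nat_lit 5) (nat_lit 40) (nat_lit 5) (nat_lit 41) (nat_lit 5) (nat_lit 288) (nat_lit 248) (nat_lit 184)) (XT.lf (nat_lit 0) (nat_lit 14582598487) (nat_lit 304) (nat_lit 7181879251) (nat_lit 76) (nat_lit 143341199) (nat_lit 37) (nat_lit 5) (nat_lit 41) (nat_lit 5) (nat_lit 38) (nat_lit 5) (nat_lit 289) (nat_lit 248) (nat_lit 183))))))))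
noncomputable def xc67 : XT := (XT.nd (nat_lit 1638) (nat_lit 608) (nat_lit 0) (XT.nd (nat_lit 780) (nat_lit 836) (nat_lit 0) (XT.nd (nat_lit 390) (nat_lit 380) (nat_lit 0) (XT.nd (nat_lit 156) (nat_lit 380) (nat_lit 0) (XT.nd (nat_lit 78) (nat_lit 76) (nat_lit 0) (XT.lf (nat_lit 0) (nat_lit 5755961832) (nat_lit 152) (nat_lit 14273131104) (nat_lit 228) (nat_lit 2698429459) (nat_lit 35) (nat_lit 5) (nat_lit 37) (nat_lit 5) (nat_lit 38) (nat_lit 5) (nat_lit 290) (nat_lit 248) (nat_lit 182)) (XT.lf (nat_lit 0) (nat_lit 2159769216) (nat_lit 228) (nat_lit 4165429206) (nat_lit 76) (nat_lit 17261174248) (nat_lit 34) (nat_lit 5) (nat_lit 37) (nat_lit 5) (nat_lit 35) (nat_lit 5) (nat_lit 291) (nat_lit 248) (nat_lit 181))) (XT.nd (nat_lit 78) (nat_lit 152) (nat_lit 0) (XT.lf (nat_lit 0) (nat_lit 7285384420) (nat_lit 304) (nat_lit 15115430440) (nat_lit 76) (nat_lit 2084188045) (nat_lit 31) (nat_lit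 5) (nat_lit 35) (nat_lit 5) (nat_lit 32) (nat_lit 5) (nat_lit 292) (nat_lit 248) (nat_lit 180)) (XT.nd (nat_lit 78) (nat_lit 152) (nat_lit 0) (XT.lf (nat_lit 0) (nat_lit 12744412363) (nat_lit 304) (nat_lit 1869040039) (nat_lit 76) (nat_lit 10812844370) (nat_lit 31) (nat_lit 5) (nat_lit 35) (nat_lit 5) (nat_lit 32) (nat_lit 5) (nat_lit 293) (nat_lit 248) (nat_lit 179)) (XT.lf (nat_lit 0) (nat_lit 12234732725) (nat_lit 152) (nat_lit 6330682193) (nat_lit 228) (nat_lit 7846613608) (nat_lit 29) (nat_lit 5) (nat_lit 31) (nat_lit 5) (nat_lit 32) (nat_lit 5) (nat_lit 294) (nat_lit 248) (nat_lit 178))))) (XT.nd (nat_lit 156) (nat_lit 152) (nat_lit 0) (XT.nd (nat_lit 78) (nat_lit 228) (nat_lit 0) (XT.lf (nat_lit 0) (nat_lit 24691870383) (nat_lit 228) (nat_lit 429811455) (nat_lit 76) (nat_lit 2324974741) (nat_lit 29) (nat_lit 5) (nat_lit 32) (nat_lit 5) (nat_lit 30) (nat_lit 5) (nat_lit 295) (nat_lit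 248) (nat_lit 177)) (XT.lf (nat_lit 0) (nat_lit 2716462665) (nat_lit 228) (nat_lit 14377790131) (nat_lit 76) (nat_lit 11432792453) (nat_lit 26) (nat_lit 5) (nat_lit 29) (nat_lit 5) (nat_lit 27) (nat_lit 5) (nat_lit 296) (nat_lit 248) (nat_lit 176))) (XT.nd (nat_lit 78) (nat_lit 152) (nat_lit 0) (XT.lf (nat_lit 0) (nat_lit 8383433215) (nat_lit 228) (nat_lit 263387869) (nat_lit 76) (nat_lit 21014476849) (nat_lit 26) (nat_lit 5) (nat_lit 29) (nat_lit 5) (nat_lit 27) (nat_lit 5) (nat_lit 297) (nat_lit 248) (nat_lit 175)) (XT.nd (nat_lit 78) (nat_lit 0) (nat_lit 0) (XT.lf (nat_lit 0) (nat_lit 14454872592) (nat_lit 228) (nat_lit 16045059462) (nat_lit 76) (nat_lit 348732643) (nat_lit 24) (nat_lit 5) (nat_lit 27) (nat_lit 5) (nat_lit 25) (nat_lit 5) (nat_lit 298) (nat_lit 248) (nat_lit 174)) (XT.lf (nat_lit 0) (nat_lit 20895944943) (nat_lit 228) (nat_lit 1591227952) (nat_lit 76) (nat_lit 9606278459)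 (nat_lit 24) (nat_lit 5) (nat_lit 27) (nat_lit 5) (nat_lit 25) (nat_lit 5) (nat_lit 299) (nat_lit 248) (nat_lit 173)))))) (XT.nd (nat_lit 390) (nat_lit 304) (nat_lit 0) (XT.nd (nat_lit 156) (nat_lit 304) (nat_lit 0) (XT.nd (nat_lit 78) (nat_lit 76) (nat_lit 0) (XT.lf (nat_lit 0) (nat_lit 13818699916) (nat_lit 152) (nat_lit 13950393702) (nat_lit 228) (nat_lit 5628114841) (nat_lit 22) (nat_lit 5) (nat_lit 24) (nat_lit 5) (nat_lit 25) (nat_lit 5) (nat_lit 300) (nat_lit 248) (nat_lit 172)) (XT.lf (nat_lit 0) (nat_lit 209689298) (nat_lit 228) (nat_lit 4771242594) (nat_lit 76) (nat_lit 29785360626) (nat_lit 21) (nat_lit 5) (nat_lit 24) (nat_lit 5) (nat_lit 22) (nat_lit 5) (nat_lit 301) (nat_lit 248) (nat_lit 171))) (XT.nd (nat_lit 78) (nat_lit 152) (nat_lit 0) (XT.lf (nat_lit 0) (nat_lit 6351707837) (nat_lit 228) (nat_lit 25345515702) (nat_lit 76) (nat_lit 4501101856) (nat_lit 19) (nat_lit 5)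 (nat_lit 22) (nat_lit 5) (nat_lit 20) (nat_lit 5) (nat_lit 302) (nat_lit 248) (nat_lit 170)) (XT.nd (nat_lit 78) (nat_lit 152) (nat_lit 0) (XT.lf (nat_lit 0) (nat_lit 12880028930) (nat_lit 228) (nat_lit 10427009494) (nat_lit 76) (nat_lit 14392572109) (nat_lit 19) (nat_lit 5) (nat_lit 22) (nat_lit 5) (nat_lit 20) (nat_lit 5) (nat_lit 303) (nat_lit 248) (nat_lit 169)) (XT.lf (nat_lit 0) (nat_lit 5309085659) (nat_lit 152) (nat_lit 14457024927) (nat_lit 228) (nat_lit 19508934403) (nat_lit 17) (nat_lit 5) (nat_lit 19) (nat_lit 5) (nat_lit 20) (nat_lit 5) (nat_lit 304) (nat_lit 248) (nat_lit 168))))) (XT.nd (nat_lit 234) (nat_lit 228) (nat_lit 0) (XT.nd (nat_lit 78) (nat_lit 76) (nat_lit 0) (XT.lf (nat_lit 0) (nat_lit 22018859086) (nat_lit 152) (nat_lit 5065923851) (nat_lit 228) (nat_lit 13841843821) (nat_lit 17) (nat_lit 5) (nat_lit 19) (nat_lit 5) (nat_lit 20) (nat_lit 5) (nat_lit 305) (nat_lit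 248) (nat_lit 167)) (XT.nd (nat_lit 78) (nat_lit 76) (nat_lit 0) (XT.lf (nat_lit 0) (nat_lit 34797226122) (nat_lit 228) (nat_lit 3172757233) (nat_lit 76) (nat_lit 4689992177) (nat_lit 17) (nat_lit 5) (nat_lit 20) (nat_lit 5) (nat_lit 18) (nat_lit 4) (nat_lit 306) (nat_lit 248) (nat_lit 166)) (XT.lf (nat_lit 0) (nat_lit 13533384926) (nat_lit 76) (nat_lit 29525745806) (nat_lit 152) (nat_lit 1415967775) (nat_lit 16) (nat_lit 5) (nat_lit 17) (nat_lit 5) (nat_lit 18) (nat_lit 4) (nat_lit 307) (nat_lit 248) (nat_lit 165)))) (XT.nd (nat_lit 78) (nat_lit 152) (nat_lit 0) (XT.lf (nat_lit 0) (nat_lit 5264668208) (nat_lit 152) (nat_lit 15318755552) (nat_lit 76) (nat_lit 25795551186) (nat_lit 15) (nat_lit 5) (nat_lit 17) (nat_lit 5) (nat_lit 16) (nat_lit 5) (nat_lit 308) (nat_lit 248) (nat_lit 164)) (XT.nd (nat_lit 78) (nat_lit 0) (nat_lit 0) (XT.lf (nat_lit 0) (nat_lit 1065068589) (nat_lit 152) (nat_lit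 11179293761) (nat_lit 228) (nat_lit 36133452269) (nat_lit 13) (nat_lit 5) (nat_lit 15) (nat_lit 5) (nat_lit 16) (nat_lit 5) (nat_lit 309) (nat_lit 248) (nat_lit 163)) (XT.lf (nat_lit 0) (nat_lit 18562194921) (nat_lit 152) (nat_lit 1152861204) (nat_lit 228) (nat_lit 30757298102) (nat_lit 13) (nat_lit 5) (nat_lit 15) (nat_lit 5) (nat_lit 16) (nat_lit 5) (nat_lit 310) (nat_lit 248) (nat_lit 162))))))) (XT.nd (nat_lit 858) (nat_lit 228) (nat_lit 0) (XT.nd (nat_lit 390) (nat_lit 228) (nat_lit 0) (XT.nd (nat_lit 156) (nat_lit 76) (nat_lit 0) (XT.nd (nat_lit 78) (nat_lit 76) (nat_lit 0) (XT.lf (nat_lit 0) (nat_lit 27634375679) (nat_lit 228) (nat_lit 15852698948) (nat_lit 76) (nat_lit 9182310979) (nat_lit 13) (nat_lit 5) (nat_lit 16) (nat_lit 5) (nat_lit 14) (nat_lit 4) (nat_lit 311) (nat_lit 248) (nat_lit 161)) (XT.lf (nat_lit 0) (nat_lit 991402735) (nat_lit 76) (nat_lit 34965113963) (nat_lit 152)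 (nat_lit 19019562880) (nat_lit 12) (nat_lit 5) (nat_lit 13) (nat_lit 5) (nat_lit 14) (nat_lit 4) (nat_lit 312) (nat_lit 248) (nat_lit 160))) (XT.nd (nat_lit 78) (nat_lit 76) (nat_lit 0) (XT.lf (nat_lit 0) (nat_lit 18985729138) (nat_lit 76) (nat_lit 25858372504) (nat_lit 152) (nat_lit 12549542394) (nat_lit 12) (nat_lit 5) (nat_lit 13) (nat_lit 5) (nat_lit 14) (nat_lit 4) (nat_lit 313) (nat_lit 248) (nat_lit 159)) (XT.nd (nat_lit 78) (nat_lit 76) (nat_lit 0) (XT.lf (nat_lit 0) (nat_lit 37857624102) (nat_lit 76) (nat_lit 16305248709) (nat_lit 152) (nat_lit 5769624834) (nat_lit 12) (nat_lit 5) (nat_lit 13) (nat_lit 5) (nat_lit 14) (nat_lit 4) (nat_lit 314) (nat_lit 248) (nat_lit 158)) (XT.lf (nat_lit 0) (nat_lit 1310255799) (nat_lit 152) (nat_lit 4959510231) (nat_lit 76) (nat_lit 56328533895) (nat_lit 11) (nat_lit 5) (nat_lit 13) (nat_lit 5) (nat_lit 12) (nat_lit 5) (nat_lit 315) (nat_lit 248)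 (nat_lit 157))))) (XT.nd (nat_lit 234) (nat_lit 76) (nat_lit 0) (XT.nd (nat_lit 78) (nat_lit 0) (nat_lit 0) (XT.lf (nat_lit 0) (nat_lit 8783385595) (nat_lit 228) (nat_lit 52244555007) (nat_lit 76) (nat_lit 4362993903) (nat_lit 9) (nat_lit 5) (nat_lit 12) (nat_lit 5) (nat_lit 10) (nat_lit 4) (nat_lit 316) (nat_lit 248) (nat_lit 156)) (XT.nd (nat_lit 78) (nat_lit 0) (nat_lit 0) (XT.lf (nat_lit 0) (nat_lit 16733223825) (nat_lit 228) (nat_lit 36144300426) (nat_lit 76) (nat_lit 15442597699) (nat_lit 9) (nat_lit 5) (nat_lit 12) (nat_lit 5) (nat_lit 10) (nat_lit 4) (nat_lit 317) (nat_lit 248) (nat_lit 155)) (XT.lf (nat_lit 0) (nat_lit 25069325789) (nat_lit 228) (nat_lit 19258124892) (nat_lit 76) (nat_lit 27068667022) (nat_lit 9) (nat_lit 5) (nat_lit 12) (nat_lit 5) (nat_lit 10) (nat_lit 4) (nat_lit 318) (nat_lit 248) (nat_lit 154)))) (XT.nd (nat_lit 78) (nat_lit 76) (nat_lit 0) (XT.lf (nat_lit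 0) (nat_lit 33811539349) (nat_lit 228) (nat_lit 1545823227) (nat_lit 76) (nat_lit 39268882989) (nat_lit 9) (nat_lit 5) (nat_lit 12) (nat_lit 5) (nat_lit 10) (nat_lit 4) (nat_lit 319) (nat_lit 248) (nat_lit 153)) (XT.nd (nat_lit 78) (nat_lit 0) (nat_lit 0) (XT.lf (nat_lit 0) (nat_lit 17373802173) (nat_lit 76) (nat_lit 25773884739) (nat_lit 152) (nat_lit 34865499174) (nat_lit 8) (nat_lit 5) (nat_lit 9) (nat_lit 5) (nat_lit 10) (nat_lit 4) (nat_lit 320) (nat_lit 248) (nat_lit 152)) (XT.lf (nat_lit 0) (nat_lit 37254891581) (nat_lit 76) (nat_lit 15701802149) (nat_lit 152) (nat_lit 28612608792) (nat_lit 8) (nat_lit 5) (nat_lit 9) (nat_lit 5) (nat_lit 10) (nat_lit 4) (nat_lit 321) (nat_lit 248) (nat_lit 151)))))) (XT.nd (nat_lit 390) (nat_lit 76) (nat_lit 0) (XT.nd (nat_lit 156) (nat_lit 152) (nat_lit 0) (XT.nd (nat_lit 78) (nat_lit 0) (nat_lit 0) (XT.lf (nat_lit 0) (nat_lit 58114016010) (nat_lit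 76) (nat_lit 5132743440) (nat_lit 152) (nat_lit 22056757019) (nat_lit 8) (nat_lit 5) (nat_lit 9) (nat_lit 5) (nat_lit 10) (nat_lit 4) (nat_lit 322) (nat_lit 248) (nat_lit 150)) (XT.lf (nat_lit 0) (nat_lit 74099660552) (nat_lit 152) (nat_lit 9281155194) (nat_lit 0) (nat_lit 5842184878) (nat_lit 8) (nat_lit 5) (nat_lit 10) (nat_lit 4) (nat_lit 8) (nat_lit 4) (nat_lit 323) (nat_lit 248) (nat_lit 149))) (XT.nd (nat_lit 78) (nat_lit 76) (nat_lit 0) (XT.lf (nat_lit 0) (nat_lit 9644258637) (nat_lit 76) (nat_lit 75986884507) (nat_lit 76) (nat_lit 7703246772) (nat_lit 7) (nat_lit 4) (nat_lit 8) (nat_lit 5) (nat_lit 8) (nat_lit 4) (nat_lit 324) (nat_lit 248) (nat_lit 148)) (XT.nd (nat_lit 78) (nat_lit 0) (nat_lit 0) (XT.lf (nat_lit 0) (nat_lit 174228186) (nat_lit 152) (nat_lit 67954870763) (nat_lit 76) (nat_lit 29519589992) (nat_lit 6) (nat_lit 5) (nat_lit 8) (nat_lit 5) (nat_lit 7) (nat_lit 4) (nat_lit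 325) (nat_lit 248) (nat_lit 147)) (XT.lf (nat_lit 0) (nat_lit 8279746737) (nat_lit 152) (nat_lit 51524397867) (nat_lit 76) (nat_lit 42372473623) (nat_lit 6) (nat_lit 5) (nat_lit 8) (nat_lit 5) (nat_lit 7) (nat_lit 4) (nat_lit 326) (nat_lit 248) (nat_lit 146))))) (XT.nd (nat_lit 31434) (nat_lit 0) (nat_lit 14212) (XT.nd (nat_lit 78) (nat_lit 76) (nat_lit 0) (XT.lf (nat_lit 0) (nat_lit 16782925822) (nat_lit 152) (nat_lit 34285544096) (nat_lit 76) (nat_lit 55862710087) (nat_lit 6) (nat_lit 5) (nat_lit 8) (nat_lit 5) (nat_lit 7) (nat_lit 4) (nat_lit 327) (nat_lit 248) (nat_lit 145)) (XT.nd (nat_lit 78) (nat_lit 76) (nat_lit 0) (XT.lf (nat_lit 0) (nat_lit 25704011107) (nat_lit 152) (nat_lit 16197264560) (nat_lit 76) (nat_lit 70022418994) (nat_lit 6) (nat_lit 5) (nat_lit 8) (nat_lit 5) (nat_lit 7) (nat_lit 4) (nat_lit 328) (nat_lit 248) (nat_lit 144)) (XT.lf (nat_lit 0) (nat_lit 2838905341) (nat_lit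 76) (nat_lit 32252627225) (nat_lit 152) (nat_lit 82073697890) (nat_lit 5) (nat_lit 5) (nat_lit 6) (nat_lit 5) (nat_lit 7) (nat_lit 4) (nat_lit 329) (nat_lit 248) (nat_lit 143)))) (XT.nd (nat_lit 78) (nat_lit 836) (nat_lit 0) (XT.lf (nat_lit 0) (nat_lit 1592489452) (nat_lit 0) (nat_lit 1592489452) (nat_lit 684) (nat_lit 525656297) (nat_lit 203) (nat_lit 5) (nat_lit 203) (nat_lit 3) (nat_lit 212) (nat_lit 3) (nat_lit 249) (nat_lit 249) (nat_lit 222)) (XT.nd (nat_lit 78) (nat_lit 0) (nat_lit 76) (XT.lf (nat_lit 76) (nat_lit 956067653) (nat_lit 0) (nat_lit 197070183) (nat_lit 836) (nat_lit 6380532363) (nat_lit 193) (nat_lit 5) (nat_lit 192) (nat_lit 3) (nat_lit 203) (nat_lit 5) (nat_lit 250) (nat_lit 249) (nat_lit 221)) (XT.lf (nat_lit 0) (nat_lit 3377647668) (nat_lit 760) (nat_lit 1272689959) (nat_lit 836) (nat_lit 3003550486) (nat_lit 193) (nat_lit 5) (nat_lit 203) (nat_lit 5) (nat_lit 204)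 (nat_lit 5) (nat_lit 251) (nat_lit 249) (nat_lit 220))))))))
noncomputable def xc68 : XT := (XT.nd (nat_lit 1638) (nat_lit 4256) (nat_lit 0) (XT.nd (nat_lit 780) (nat_lit 4636) (nat_lit 0) (XT.nd (nat_lit 390) (nat_lit 2660) (nat_lit 0) (XT.nd (nat_lit 156) (nat_lit 760) (nat_lit 0) (XT.nd (nat_lit 78) (nat_lit 0) (nat_lit 76) (XT.lf (nat_lit 76) (nat_lit 4303675790) (nat_lit 0) (nat_lit 1318850161) (nat_lit 836) (nat_lit 2160752671) (nat_lit 194) (nat_lit 5) (nat_lit 193) (nat_lit 5) (nat_lit 204) (nat_lit 5) (nat_lit 252) (nat_lit 249) (nat_lit 219)) (XT.lf (nat_lit 76) (nat_lit 2210353606) (nat_lit 0) (nat_lit 5696716546) (nat_lit 836) (nat_lit 14661075) (nat_lit 195) (nat_lit 5) (nat_lit 194) (nat_lit 5) (nat_lit 205) (nat_lit 5) (nat_lit 253) (nat_lit 249) (nat_lit 218))) (XT.nd (nat_lit 78) (nat_lit 0) (nat_lit 76) (XT.lf (nat_lit 76) (nat_lit 78821942) (nat_lit 0) (nat_lit 2042227805)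 (nat_lit 912) (nat_lit 5948015036) (nat_lit 184) (nat_lit 5) (nat_lit 183) (nat_lit 5) (nat_lit 195) (nat_lit 5) (nat_lit 254) (nat_lit 249) (nat_lit 217)) (XT.nd (nat_lit 78) (nat_lit 0) (nat_lit 0) (XT.lf (nat_lit 0) (nat_lit 4321218334) (nat_lit 836) (nat_lit 2043201937) (nat_lit 912) (nat_lit 1860966782) (nat_lit 184) (nat_lit 5) (nat_lit 195) (nat_lit 5) (nat_lit 196) (nat_lit 5) (nat_lit 255) (nat_lit 249) (nat_lit 216)) (XT.lf (nat_lit 76) (nat_lit 4185006077) (nat_lit 0) (nat_lit 2394223582) (nat_lit 912) (nat_lit 1812208990) (nat_lit 185) (nat_lit 5) (nat_lit 184) (nat_lit 5) (nat_lit 196) (nat_lit 5) (nat_lit 256) (nat_lit 249) (nat_lit 215))))) (XT.nd (nat_lit 156) (nat_lit 1900) (nat_lit 0) (XT.nd (nat_lit 78) (nat_lit 0) (nat_lit 0) (XT.lf (nat_lit 0) (nat_lit 326956167) (nat_lit 912) (nat_lit 6422920776) (nat_lit 988) (nat_lit 1817623819) (nat_lit 173) (nat_lit 5) (nat_lit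 185) (nat_lit 5) (nat_lit 186) (nat_lit 5) (nat_lit 257) (nat_lit 249) (nat_lit 214)) (XT.lf (nat_lit 76) (nat_lit 28592669) (nat_lit 0) (nat_lit 2470571421) (nat_lit 988) (nat_lit 6254063364) (nat_lit 174) (nat_lit 5) (nat_lit 173) (nat_lit 5) (nat_lit 186) (nat_lit 5) (nat_lit 258) (nat_lit 249) (nat_lit 213))) (XT.nd (nat_lit 78) (nat_lit 1976) (nat_lit 0) (XT.lf (nat_lit 0) (nat_lit 4765733041) (nat_lit 912) (nat_lit 2109787875) (nat_lit 76) (nat_lit 2073439109) (nat_lit 174) (nat_lit 5) (nat_lit 186) (nat_lit 5) (nat_lit 175) (nat_lit 5) (nat_lit 259) (nat_lit 249) (nat_lit 212)) (XT.nd (nat_lit 78) (nat_lit 1064) (nat_lit 0) (XT.lf (nat_lit 0) (nat_lit 4828578915) (nat_lit 912) (nat_lit 2292721203) (nat_lit 988) (nat_lit 2034187172) (nat_lit 162) (nat_lit 5) (nat_lit 174) (nat_lit 5) (nat_lit 175) (nat_lit 5) (nat_lit 260) (nat_lit 249) (nat_lit 211)) (XT.lf (nat_lit 0) (nat_lit 198312113)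 (nat_lit 1064) (nat_lit 6637375875) (nat_lit 76) (nat_lit 2537435651) (nat_lit 148) (nat_lit 5) (nat_lit 162) (nat_lit 5) (nat_lit 149) (nat_lit 5) (nat_lit 261) (nat_lit 249) (nat_lit 210)))))) (XT.nd (nat_lit 390) (nat_lit 1824) (nat_lit 0) (XT.nd (nat_lit 156) (nat_lit 1748) (nat_lit 0) (XT.nd (nat_lit 78) (nat_lit 0) (nat_lit 0) (XT.lf (nat_lit 0) (nat_lit 530588670) (nat_lit 1064) (nat_lit 1954244076) (nat_lit 1140) (nat_lit 7116915798) (nat_lit 134) (nat_lit 5) (nat_lit 148) (nat_lit 5) (nat_lit 149) (nat_lit 5) (nat_lit 262) (nat_lit 249) (nat_lit 209)) (XT.lf (nat_lit 0) (nat_lit 4899642115) (nat_lit 1140) (nat_lit 1753252331) (nat_lit 76) (nat_lit 3188724650) (nat_lit 134) (nat_lit 5) (nat_lit 149) (nat_lit 5) (nat_lit 135) (nat_lit 5) (nat_lit 263) (nat_lit 249) (nat_lit 208))) (XT.nd (nat_lit 78) (nat_lit 1140) (nat_lit 0) (XT.lf (nat_lit 0) (nat_lit 5952708730) (nat_lit 608)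 (nat_lit 1477977600) (nat_lit 684) (nat_lit 2663154187) (nat_lit 126) (nat_lit 5) (nat_lit 134) (nat_lit 5) (nat_lit 135) (nat_lit 5) (nat_lit 264) (nat_lit 249) (nat_lit 207)) (XT.nd (nat_lit 78) (nat_lit 608) (nat_lit 0) (XT.lf (nat_lit 0) (nat_lit 3681341888) (nat_lit 532) (nat_lit 6420372106) (nat_lit 608) (nat_lit 256767673) (nat_lit 119) (nat_lit 5) (nat_lit 126) (nat_lit 5) (nat_lit 127) (nat_lit 5) (nat_lit 265) (nat_lit 249) (nat_lit 206)) (XT.lf (nat_lit 0) (nat_lit 1259485323) (nat_lit 532) (nat_lit 960110772) (nat_lit 608) (nat_lit 8416481249) (nat_lit 111) (nat_lit 5) (nat_lit 118) (nat_lit 5) (nat_lit 119) (nat_lit 5) (nat_lit 266) (nat_lit 249) (nat_lit 205))))) (XT.nd (nat_lit 234) (nat_lit 912) (nat_lit 0) (XT.nd (nat_lit 78) (nat_lit 912) (nat_lit 0) (XT.lf (nat_lit 0) (nat_lit 4856632535) (nat_lit 608) (nat_lit 1316764914) (nat_lit 76) (nat_lit 4753000474) (nat_lit 111)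 (nat_lit 5) (nat_lit 119) (nat_lit 5) (nat_lit 112) (nat_lit 5) (nat_lit 267) (nat_lit 249) (nat_lit 204)) (XT.nd (nat_lit 78) (nat_lit 456) (nat_lit 0) (XT.lf (nat_lit 0) (nat_lit 7205935048) (nat_lit 456) (nat_lit 428846224) (nat_lit 532) (nat_lit 3596352906) (nat_lit 105) (nat_lit 5) (nat_lit 111) (nat_lit 5) (nat_lit 112) (nat_lit 5) (nat_lit 268) (nat_lit 249) (nat_lit 203)) (XT.lf (nat_lit 0) (nat_lit 4596112988) (nat_lit 456) (nat_lit 6000391816) (nat_lit 532) (nat_lit 953431427) (nat_lit 99) (nat_lit 5) (nat_lit 105) (nat_lit 5) (nat_lit 106) (nat_lit 5) (nat_lit 269) (nat_lit 249) (nat_lit 202)))) (XT.nd (nat_lit 78) (nat_lit 456) (nat_lit 0) (XT.lf (nat_lit 0) (nat_lit 1784222541) (nat_lit 456) (nat_lit 10093143732) (nat_lit 76) (nat_lit 6999075) (nat_lit 93) (nat_lit 5) (nat_lit 99) (nat_lit 5) (nat_lit 94) (nat_lit 5) (nat_lit 270) (nat_lit 249) (nat_lit 201)) (XT.nd (nat_lit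 78) (nat_lit 456) (nat_lit 0) (XT.lf (nat_lit 0) (nat_lit 4709147863) (nat_lit 456) (nat_lit 1255970990) (nat_lit 76) (nat_lit 6268159487) (nat_lit 93) (nat_lit 5) (nat_lit 99) (nat_lit 5) (nat_lit 94) (nat_lit 5) (nat_lit 271) (nat_lit 249) (nat_lit 200)) (XT.lf (nat_lit 0) (nat_lit 7801419155) (nat_lit 532) (nat_lit 4488056133) (nat_lit 76) (nat_lit 309670447) (nat_lit 87) (nat_lit 5) (nat_lit 94) (nat_lit 5) (nat_lit 88) (nat_lit 5) (nat_lit 272) (nat_lit 249) (nat_lit 199))))))) (XT.nd (nat_lit 780) (nat_lit 1824) (nat_lit 0) (XT.nd (nat_lit 390) (nat_lit 912) (nat_lit 0) (XT.nd (nat_lit 156) (nat_lit 684) (nat_lit 0) (XT.nd (nat_lit 78) (nat_lit 456) (nat_lit 0) (XT.lf (nat_lit 0) (nat_lit 4959218238) (nat_lit 380) (nat_lit 6152240459) (nat_lit 456) (nat_lit 1870088158) (nat_lit 82) (nat_lit 5) (nat_lit 87) (nat_lit 5) (nat_lit 88) (nat_lit 5) (nat_lit 273) (nat_lit 249) (nat_lit 198))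 (XT.lf (nat_lit 0) (nat_lit 1189025945) (nat_lit 456) (nat_lit 11843462649) (nat_lit 76) (nat_lit 350099464) (nat_lit 76) (nat_lit 5) (nat_lit 82) (nat_lit 5) (nat_lit 77) (nat_lit 5) (nat_lit 274) (nat_lit 249) (nat_lit 197))) (XT.nd (nat_lit 78) (nat_lit 684) (nat_lit 0) (XT.lf (nat_lit 0) (nat_lit 4453907660) (nat_lit 456) (nat_lit 2202817186) (nat_lit 76) (nat_lit 7143775234) (nat_lit 76) (nat_lit 5) (nat_lit 82) (nat_lit 5) (nat_lit 77) (nat_lit 5) (nat_lit 275) (nat_lit 249) (nat_lit 196)) (XT.nd (nat_lit 78) (nat_lit 380) (nat_lit 0) (XT.lf (nat_lit 0) (nat_lit 7908301591) (nat_lit 380) (nat_lit 6226425119) (nat_lit 76) (nat_lit 103906167) (nat_lit 72) (nat_lit 5) (nat_lit 77) (nat_lit 5) (nat_lit 73) (nat_lit 5) (nat_lit 276) (nat_lit 249) (nat_lit 195)) (XT.lf (nat_lit 0) (nat_lit 4034680441) (nat_lit 380) (nat_lit 7579597631) (nat_lit 456) (nat_lit 3082136180) (nat_lit 67) (nat_lit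 5) (nat_lit 72) (nat_lit 5) (nat_lit 73) (nat_lit 5) (nat_lit 277) (nat_lit 249) (nat_lit 194))))) (XT.nd (nat_lit 156) (nat_lit 532) (nat_lit 0) (XT.nd (nat_lit 78) (nat_lit 304) (nat_lit 0) (XT.lf (nat_lit 0) (nat_lit 337998035) (nat_lit 456) (nat_lit 301935733) (nat_lit 76) (nat_lit 14536677736) (nat_lit 66) (nat_lit 5) (nat_lit 72) (nat_lit 5) (nat_lit 67) (nat_lit 5) (nat_lit 278) (nat_lit 249) (nat_lit 193)) (XT.lf (nat_lit 0) (nat_lit 3987419693) (nat_lit 380) (nat_lit 5048945183) (nat_lit 76) (nat_lit 6639972488) (nat_lit 62) (nat_lit 5) (nat_lit 67) (nat_lit 5) (nat_lit 63) (nat_lit 5) (nat_lit 279) (nat_lit 249) (nat_lit 192))) (XT.nd (nat_lit 78) (nat_lit 228) (nat_lit 0) (XT.lf (nat_lit 0) (nat_lit 5959734514) (nat_lit 304) (nat_lit 1881538575) (nat_lit 380) (nat_lit 8359208039) (nat_lit 58) (nat_lit 5) (nat_lit 62) (nat_lit 5) (nat_lit 63) (nat_lit 5) (nat_lit 280) (nat_lit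 249) (nat_lit 191)) (XT.nd (nat_lit 78) (nat_lit 0) (nat_lit 0) (XT.lf (nat_lit 0) (nat_lit 777423564) (nat_lit 228) (nat_lit 11181022054) (nat_lit 304) (nat_lit 4790353791) (nat_lit 55) (nat_lit 5) (nat_lit 58) (nat_lit 5) (nat_lit 59) (nat_lit 5) (nat_lit 281) (nat_lit 249) (nat_lit 190)) (XT.lf (nat_lit 0) (nat_lit 12484616141) (nat_lit 228) (nat_lit 3879146635) (nat_lit 304) (nat_lit 958384274) (nat_lit 55) (nat_lit 5) (nat_lit 58) (nat_lit 5) (nat_lit 59) (nat_lit 5) (nat_lit 282) (nat_lit 249) (nat_lit 189)))))) (XT.nd (nat_lit 390) (nat_lit 912) (nat_lit 0) (XT.nd (nat_lit 156) (nat_lit 304) (nat_lit 0) (XT.nd (nat_lit 78) (nat_lit 228) (nat_lit 0) (XT.lf (nat_lit 0) (nat_lit 3068541204) (nat_lit 380) (nat_lit 11056250428) (nat_lit 76) (nat_lit 3796667240) (nat_lit 50) (nat_lit 5) (nat_lit 55) (nat_lit 5) (nat_lit 51) (nat_lit 5) (nat_lit 283) (nat_lit 249) (nat_lit 188)) (XT.lf (nat_lit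 0) (nat_lit 613335863) (nat_lit 228) (nat_lit 6720045192) (nat_lit 304) (nat_lit 11215451124) (nat_lit 47) (nat_lit 5) (nat_lit 50) (nat_lit 5) (nat_lit 51) (nat_lit 5) (nat_lit 284) (nat_lit 249) (nat_lit 187))) (XT.nd (nat_lit 78) (nat_lit 304) (nat_lit 0) (XT.lf (nat_lit 0) (nat_lit 11898623192) (nat_lit 304) (nat_lit 6171732275) (nat_lit 76) (nat_lit 1134672666) (nat_lit 47) (nat_lit 5) (nat_lit 51) (nat_lit 5) (nat_lit 48) (nat_lit 5) (nat_lit 285) (nat_lit 249) (nat_lit 186)) (XT.nd (nat_lit 78) (nat_lit 76) (nat_lit 0) (XT.lf (nat_lit 0) (nat_lit 6181832700) (nat_lit 228) (nat_lit 10601429492) (nat_lit 304) (nat_lit 3108103167) (nat_lit 44) (nat_lit 5) (nat_lit 47) (nat_lit 5) (nat_lit 48) (nat_lit 5) (nat_lit 286) (nat_lit 249) (nat_lit 185)) (XT.lf (nat_lit 0) (nat_lit 1303624893) (nat_lit 304) (nat_lit 1391678438) (nat_lit 76) (nat_lit 17915535335) (nat_lit 43) (nat_lit 5) (nat_lit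 47) (nat_lit 5) (nat_lit 44) (nat_lit 5) (nat_lit 287) (nat_lit 249) (nat_lit 184))))) (XT.nd (nat_lit 234) (nat_lit 456) (nat_lit 0) (XT.nd (nat_lit 78) (nat_lit 228) (nat_lit 0) (XT.lf (nat_lit 0) (nat_lit 6006208300) (nat_lit 304) (nat_lit 9727467626) (nat_lit 76) (nat_lit 5627707728) (nat_lit 40) (nat_lit 5) (nat_lit 44) (nat_lit 5) (nat_lit 41) (nat_lit 5) (nat_lit 288) (nat_lit 249) (nat_lit 183)) (XT.nd (nat_lit 78) (nat_lit 0) (nat_lit 0) (XT.lf (nat_lit 0) (nat_lit 3177918007) (nat_lit 228) (nat_lit 7805636870) (nat_lit 304) (nat_lit 11164766939) (nat_lit 37) (nat_lit 5) (nat_lit 40) (nat_lit 5) (nat_lit 41) (nat_lit 5) (nat_lit 289) (nat_lit 249) (nat_lit 182)) (XT.lf (nat_lit 0) (nat_lit 16284262143) (nat_lit 304) (nat_lit 6092818077) (nat_lit 76) (nat_lit 595344197) (nat_lit 37) (nat_lit 5) (nat_lit 41) (nat_lit 5) (nat_lit 38) (nat_lit 5) (nat_lit 290) (nat_lit 249) (nat_lit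 181)))) (XT.nd (nat_lit 78) (nat_lit 304) (nat_lit 0) (XT.lf (nat_lit 0) (nat_lit 7450403985) (nat_lit 152) (nat_lit 14519887724) (nat_lit 228) (nat_lit 1863881669) (nat_lit 35) (nat_lit 5) (nat_lit 37) (nat_lit 5) (nat_lit 38) (nat_lit 5) (nat_lit 291) (nat_lit 249) (nat_lit 180)) (XT.nd (nat_lit 78) (nat_lit 228) (nat_lit 0) (XT.lf (nat_lit 0) (nat_lit 3173044750) (nat_lit 228) (nat_lit 3014605365) (nat_lit 76) (nat_lit 18549465273) (nat_lit 34) (nat_lit 5) (nat_lit 37) (nat_lit 5) (nat_lit 35) (nat_lit 5) (nat_lit 292) (nat_lit 249) (nat_lit 179)) (XT.lf (nat_lit 0) (nat_lit 8528801968) (nat_lit 304) (nat_lit 14527749195) (nat_lit 76) (nat_lit 2624977623) (nat_lit 31) (nat_lit 5) (nat_lit 35) (nat_lit 5) (nat_lit 32) (nat_lit 5) (nat_lit 293) (nat_lit 249) (nat_lit 178))))))))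
noncomputable def xc69 : XT := (XT.nd (nat_lit 1638) (nat_lit 456) (nat_lit 0) (XT.nd (nat_lit 780) (nat_lit 532) (nat_lit 0) (XT.nd (nat_lit 390) (nat_lit 380) (nat_lit 0) (XT.nd (nat_lit 156) (nat_lit 380) (nat_lit 0) (XT.nd (nat_lit 78) (nat_lit 152) (nat_lit 0) (XT.lf (nat_lit 0) (nat_lit 14218917103) (nat_lit 304) (nat_lit 683013215) (nat_lit 76) (nat_lit 11769277233) (nat_lit 31) (nat_lit 5) (nat_lit 35) (nat_lit 5) (nat_lit 32) (nat_lit 5) (nat_lit 294) (nat_lit 249) (nat_lit 177)) (XT.lf (nat_lit 0) (nat_lit 14089272183) (nat_lit 152) (nat_lit 6213773510) (nat_lit 228) (nat_lit 7404079137) (nat_lit 29) (nat_lit 5) (nat_lit 31) (nat_lit 5) (nat_lit 32) (nat_lit 5) (nat_lit 295) (nat_lit 249) (nat_lit 176))) (XT.nd (nat_lit 78) (nat_lit 228) (nat_lit 0) (XT.lf (nat_lit 0) (nat_lit 767621242) (nat_lit 152) (nat_lit 25941008693) (nat_lit 228) (nat_lit 2085728473) (nat_lit 27) (nat_lit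 5) (nat_lit 29) (nat_lit 5) (nat_lit 30) (nat_lit 5) (nat_lit 296) (nat_lit 249) (nat_lit 175)) (XT.nd (nat_lit 78) (nat_lit 152) (nat_lit 0) (XT.lf (nat_lit 0) (nat_lit 3609925659) (nat_lit 228) (nat_lit 13911089573) (nat_lit 76) (nat_lit 12408574934) (nat_lit 26) (nat_lit 5) (nat_lit 29) (nat_lit 5) (nat_lit 27) (nat_lit 5) (nat_lit 297) (nat_lit 249) (nat_lit 174)) (XT.lf (nat_lit 0) (nat_lit 869544069) (nat_lit 152) (nat_lit 8662981169) (nat_lit 228) (nat_lit 21588913171) (nat_lit 24) (nat_lit 5) (nat_lit 26) (nat_lit 5) (nat_lit 27) (nat_lit 5) (nat_lit 298) (nat_lit 249) (nat_lit 173))))) (XT.nd (nat_lit 156) (nat_lit 380) (nat_lit 0) (XT.nd (nat_lit 78) (nat_lit 0) (nat_lit 0) (XT.lf (nat_lit 0) (nat_lit 15879196353) (nat_lit 228) (nat_lit 15732470822) (nat_lit 76) (nat_lit 757405438) (nat_lit 24) (nat_lit 5) (nat_lit 27) (nat_lit 5) (nat_lit 25) (nat_lit 5) (nat_lit 299) (nat_lit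 249) (nat_lit 172)) (XT.lf (nat_lit 0) (nat_lit 22608913744) (nat_lit 228) (nat_lit 609035433) (nat_lit 76) (nat_lit 10459198251) (nat_lit 24) (nat_lit 5) (nat_lit 27) (nat_lit 5) (nat_lit 25) (nat_lit 5) (nat_lit 300) (nat_lit 249) (nat_lit 171))) (XT.nd (nat_lit 78) (nat_lit 228) (nat_lit 0) (XT.lf (nat_lit 0) (nat_lit 15540953866) (nat_lit 152) (nat_lit 14262861963) (nat_lit 228) (nat_lit 5242978030) (nat_lit 22) (nat_lit 5) (nat_lit 24) (nat_lit 5) (nat_lit 25) (nat_lit 5) (nat_lit 301) (nat_lit 249) (nat_lit 170)) (XT.nd (nat_lit 78) (nat_lit 152) (nat_lit 0) (XT.lf (nat_lit 0) (nat_lit 842588912) (nat_lit 228) (nat_lit 4014388760) (nat_lit 76) (nat_lit 31628136863) (nat_lit 21) (nat_lit 5) (nat_lit 24) (nat_lit 5) (nat_lit 22) (nat_lit 5) (nat_lit 302) (nat_lit 249) (nat_lit 169)) (XT.lf (nat_lit 0) (nat_lit 7274870624) (nat_lit 228) (nat_lit 25630572500) (nat_lit 76) (nat_lit 5083850119)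 (nat_lit 19) (nat_lit 5) (nat_lit 22) (nat_lit 5) (nat_lit 20) (nat_lit 5) (nat_lit 303) (nat_lit 249) (nat_lit 168)))))) (XT.nd (nat_lit 390) (nat_lit 304) (nat_lit 0) (XT.nd (nat_lit 156) (nat_lit 76) (nat_lit 0) (XT.nd (nat_lit 78) (nat_lit 152) (nat_lit 0) (XT.lf (nat_lit 0) (nat_lit 14100770752) (nat_lit 228) (nat_lit 10012913315) (nat_lit 76) (nat_lit 15452860877) (nat_lit 19) (nat_lit 5) (nat_lit 22) (nat_lit 5) (nat_lit 20) (nat_lit 5) (nat_lit 304) (nat_lit 249) (nat_lit 167)) (XT.lf (nat_lit 0) (nat_lit 6483172206) (nat_lit 152) (nat_lit 14829254788) (nat_lit 228) (nat_lit 19908921438) (nat_lit 17) (nat_lit 5) (nat_lit 19) (nat_lit 5) (nat_lit 20) (nat_lit 5) (nat_lit 305) (nat_lit 249) (nat_lit 166))) (XT.nd (nat_lit 78) (nat_lit 76) (nat_lit 0) (XT.lf (nat_lit 0) (nat_lit 23985166100) (nat_lit 152) (nat_lit 4985294914) (nat_lit 228) (nat_lit 13985879170) (nat_lit 17) (nat_lit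 5) (nat_lit 19) (nat_lit 5) (nat_lit 20) (nat_lit 5) (nat_lit 306) (nat_lit 249) (nat_lit 165)) (XT.nd (nat_lit 78) (nat_lit 76) (nat_lit 0) (XT.lf (nat_lit 0) (nat_lit 37046276785) (nat_lit 228) (nat_lit 2494469306) (nat_lit 76) (nat_lit 5236309926) (nat_lit 17) (nat_lit 5) (nat_lit 20) (nat_lit 5) (nat_lit 18) (nat_lit 4) (nat_lit 307) (nat_lit 249) (nat_lit 164)) (XT.lf (nat_lit 0) (nat_lit 15022989652) (nat_lit 76) (nat_lit 30681854294) (nat_lit 152) (nat_lit 978614775) (nat_lit 16) (nat_lit 5) (nat_lit 17) (nat_lit 5) (nat_lit 18) (nat_lit 4) (nat_lit 308) (nat_lit 249) (nat_lit 163))))) (XT.nd (nat_lit 234) (nat_lit 76) (nat_lit 0) (XT.nd (nat_lit 78) (nat_lit 152) (nat_lit 0) (XT.lf (nat_lit 0) (nat_lit 6002411642) (nat_lit 152) (nat_lit 15300459493) (nat_lit 76) (nat_lit 27380251366) (nat_lit 15) (nat_lit 5) (nat_lit 17) (nat_lit 5) (nat_lit 16) (nat_lit 5) (nat_lit 309) (nat_lit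 249) (nat_lit 162)) (XT.nd (nat_lit 78) (nat_lit 0) (nat_lit 0) (XT.lf (nat_lit 0) (nat_lit 1880075950) (nat_lit 152) (nat_lit 11435741271) (nat_lit 228) (nat_lit 37466572082) (nat_lit 13) (nat_lit 5) (nat_lit 15) (nat_lit 5) (nat_lit 16) (nat_lit 5) (nat_lit 310) (nat_lit 249) (nat_lit 161)) (XT.lf (nat_lit 0) (nat_lit 20215784602) (nat_lit 152) (nat_lit 922392666) (nat_lit 228) (nat_lit 31844160340) (nat_lit 13) (nat_lit 5) (nat_lit 15) (nat_lit 5) (nat_lit 16) (nat_lit 5) (nat_lit 311) (nat_lit 249) (nat_lit 160)))) (XT.nd (nat_lit 78) (nat_lit 76) (nat_lit 0) (XT.lf (nat_lit 0) (nat_lit 29435273359) (nat_lit 228) (nat_lit 15944053171) (nat_lit 76) (nat_lit 9910464151) (nat_lit 13) (nat_lit 5) (nat_lit 16) (nat_lit 5) (nat_lit 14) (nat_lit 4) (nat_lit 312) (nat_lit 249) (nat_lit 159)) (XT.nd (nat_lit 78) (nat_lit 0) (nat_lit 0) (XT.lf (nat_lit 0) (nat_lit 1722151525) (nat_lit 76) (nat_lit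 36437956910) (nat_lit 152) (nat_lit 19552136583) (nat_lit 12) (nat_lit 5) (nat_lit 13) (nat_lit 5) (nat_lit 14) (nat_lit 4) (nat_lit 313) (nat_lit 249) (nat_lit 158)) (XT.lf (nat_lit 0) (nat_lit 20583757170) (nat_lit 76) (nat_lit 26888993272) (nat_lit 152) (nat_lit 12778539094) (nat_lit 12) (nat_lit 5) (nat_lit 13) (nat_lit 5) (nat_lit 14) (nat_lit 4) (nat_lit 314) (nat_lit 249) (nat_lit 157))))))) (XT.nd (nat_lit 858) (nat_lit 76) (nat_lit 0) (XT.nd (nat_lit 390) (nat_lit 152) (nat_lit 0) (XT.nd (nat_lit 156) (nat_lit 152) (nat_lit 0) (XT.nd (nat_lit 78) (nat_lit 76) (nat_lit 0) (XT.lf (nat_lit 0) (nat_lit 40368354426) (nat_lit 76) (nat_lit 16870703661) (nat_lit 152) (nat_lit 5678600914) (nat_lit 12) (nat_lit 5) (nat_lit 13) (nat_lit 5) (nat_lit 14) (nat_lit 4) (nat_lit 315) (nat_lit 249) (nat_lit 156)) (XT.lf (nat_lit 0) (nat_lit 1730149207) (nat_lit 152) (nat_lit 4611614686) (nat_lit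 76) (nat_lit 59375429155) (nat_lit 11) (nat_lit 5) (nat_lit 13) (nat_lit 5) (nat_lit 12) (nat_lit 5) (nat_lit 316) (nat_lit 249) (nat_lit 155))) (XT.nd (nat_lit 78) (nat_lit 0) (nat_lit 0) (XT.lf (nat_lit 0) (nat_lit 9567889812) (nat_lit 228) (nat_lit 54269594192) (nat_lit 76) (nat_lit 4812265316) (nat_lit 9) (nat_lit 5) (nat_lit 12) (nat_lit 5) (nat_lit 10) (nat_lit 4) (nat_lit 317) (nat_lit 249) (nat_lit 154)) (XT.nd (nat_lit 78) (nat_lit 0) (nat_lit 0) (XT.lf (nat_lit 0) (nat_lit 17898775434) (nat_lit 228) (nat_lit 37392288242) (nat_lit 76) (nat_lit 16434843506) (nat_lit 9) (nat_lit 5) (nat_lit 12) (nat_lit 5) (nat_lit 10) (nat_lit 4) (nat_lit 318) (nat_lit 249) (nat_lit 153)) (XT.lf (nat_lit 0) (nat_lit 26636021048) (nat_lit 228) (nat_lit 19688433799) (nat_lit 76) (nat_lit 28631734584) (nat_lit 9) (nat_lit 5) (nat_lit 12) (nat_lit 5) (nat_lit 10) (nat_lit 4) (nat_lit 319) (nat_lit 249)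 (nat_lit 152))))) (XT.nd (nat_lit 234) (nat_lit 76) (nat_lit 0) (XT.nd (nat_lit 78) (nat_lit 76) (nat_lit 0) (XT.lf (nat_lit 0) (nat_lit 35800429620) (nat_lit 228) (nat_lit 1115878829) (nat_lit 76) (nat_lit 41431978768) (nat_lit 9) (nat_lit 5) (nat_lit 12) (nat_lit 5) (nat_lit 10) (nat_lit 4) (nat_lit 320) (nat_lit 249) (nat_lit 151)) (XT.nd (nat_lit 78) (nat_lit 0) (nat_lit 0) (XT.lf (nat_lit 0) (nat_lit 18735188036) (nat_lit 76) (nat_lit 26858727223) (nat_lit 152) (nat_lit 36310958880) (nat_lit 8) (nat_lit 5) (nat_lit 9) (nat_lit 5) (nat_lit 10) (nat_lit 4) (nat_lit 321) (nat_lit 249) (nat_lit 150)) (XT.lf (nat_lit 0) (nat_lit 39586870213) (nat_lit 76) (nat_lit 16292747729) (nat_lit 152) (nat_lit 29759605657) (nat_lit 8) (nat_lit 5) (nat_lit 9) (nat_lit 5) (nat_lit 10) (nat_lit 4) (nat_lit 322) (nat_lit 249) (nat_lit 149)))) (XT.nd (nat_lit 78) (nat_lit 76) (nat_lit 0) (XT.lf (nat_lit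 0) (nat_lit 61466606385) (nat_lit 76) (nat_lit 5204481062) (nat_lit 152) (nat_lit 22889467656) (nat_lit 8) (nat_lit 5) (nat_lit 9) (nat_lit 5) (nat_lit 10) (nat_lit 4) (nat_lit 323) (nat_lit 249) (nat_lit 148)) (XT.nd (nat_lit 78) (nat_lit 76) (nat_lit 0) (XT.lf (nat_lit 0) (nat_lit 78055850619) (nat_lit 152) (nat_lit 9313546863) (nat_lit 0) (nat_lit 6306952687) (nat_lit 8) (nat_lit 5) (nat_lit 10) (nat_lit 4) (nat_lit 8) (nat_lit 4) (nat_lit 324) (nat_lit 249) (nat_lit 147)) (XT.lf (nat_lit 0) (nat_lit 10545764039) (nat_lit 76) (nat_lit 79610211558) (nat_lit 76) (nat_lit 7837583866) (nat_lit 7) (nat_lit 4) (nat_lit 8) (nat_lit 5) (nat_lit 8) (nat_lit 4) (nat_lit 325) (nat_lit 249) (nat_lit 146)))))) (XT.nd (nat_lit 31746) (nat_lit 0) (nat_lit 12616) (XT.nd (nat_lit 156) (nat_lit 0) (nat_lit 0) (XT.nd (nat_lit 78) (nat_lit 0) (nat_lit 0) (XT.lf (nat_lit 0) (nat_lit 417159349) (nat_lit 152)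 (nat_lit 70948393984) (nat_lit 76) (nat_lit 31158310740) (nat_lit 6) (nat_lit 5) (nat_lit 8) (nat_lit 5) (nat_lit 7) (nat_lit 4) (nat_lit 326) (nat_lit 249) (nat_lit 145)) (XT.lf (nat_lit 0) (nat_lit 8916800505) (nat_lit 152) (nat_lit 53715646030) (nat_lit 76) (nat_lit 44646088969) (nat_lit 6) (nat_lit 5) (nat_lit 8) (nat_lit 5) (nat_lit 7) (nat_lit 4) (nat_lit 327) (nat_lit 249) (nat_lit 144))) (XT.nd (nat_lit 31434) (nat_lit 0) (nat_lit 14136) (XT.lf (nat_lit 0) (nat_lit 17834516334) (nat_lit 152) (nat_lit 35633181557) (nat_lit 76) (nat_lit 58803456701) (nat_lit 6) (nat_lit 5) (nat_lit 8) (nat_lit 5) (nat_lit 7) (nat_lit 4) (nat_lit 328) (nat_lit 249) (nat_lit 143)) (XT.nd (nat_lit 78) (nat_lit 0) (nat_lit 0) (XT.lf (nat_lit 0) (nat_lit 1624990170) (nat_lit 836) (nat_lit 1099655645) (nat_lit 836) (nat_lit 1099655645) (nat_lit 192) (nat_lit 3) (nat_lit 203) (nat_lit 3) (nat_lit 203) (nat_lit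 5) (nat_lit 250) (nat_lit 250) (nat_lit 220)) (XT.lf (nat_lit 76) (nat_lit 3177897582) (nat_lit 0) (nat_lit 2179812291) (nat_lit 836) (nat_lit 2414827050) (nat_lit 193) (nat_lit 5) (nat_lit 192) (nat_lit 3) (nat_lit 203) (nat_lit 5) (nat_lit 251) (nat_lit 250) (nat_lit 219))))) (XT.nd (nat_lit 234) (nat_lit 760) (nat_lit 0) (XT.nd (nat_lit 78) (nat_lit 836) (nat_lit 0) (XT.lf (nat_lit 76) (nat_lit 901075868) (nat_lit 0) (nat_lit 6585497334) (nat_lit 836) (nat_lit 419037229) (nat_lit 194) (nat_lit 5) (nat_lit 193) (nat_lit 5) (nat_lit 204) (nat_lit 5) (nat_lit 252) (nat_lit 250) (nat_lit 218)) (XT.nd (nat_lit 78) (nat_lit 0) (nat_lit 76) (XT.lf (nat_lit 0) (nat_lit 1589582921) (nat_lit 836) (nat_lit 1387871000) (nat_lit 912) (nat_lit 5069411467) (nat_lit 182) (nat_lit 5) (nat_lit 193) (nat_lit 5) (nat_lit 194) (nat_lit 5) (nat_lit 253) (nat_lit 250) (nat_lit 217)) (XT.lf (nat_lit 0) (nat_lit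 3624167326) (nat_lit 836) (nat_lit 3682200103) (nat_lit 912) (nat_lit 891030865) (nat_lit 183) (nat_lit 5) (nat_lit 194) (nat_lit 5) (nat_lit 195) (nat_lit 5) (nat_lit 254) (nat_lit 250) (nat_lit 216)))) (XT.nd (nat_lit 78) (nat_lit 836) (nat_lit 0) (XT.lf (nat_lit 76) (nat_lit 2331013961) (nat_lit 0) (nat_lit 3383662752) (nat_lit 912) (nat_lit 2642503501) (nat_lit 184) (nat_lit 5) (nat_lit 183) (nat_lit 5) (nat_lit 195) (nat_lit 5) (nat_lit 255) (nat_lit 250) (nat_lit 215)) (XT.nd (nat_lit 78) (nat_lit 912) (nat_lit 0) (XT.lf (nat_lit 76) (nat_lit 119349637) (nat_lit 0) (nat_lit 7729230534) (nat_lit 912) (nat_lit 678536660) (nat_lit 185) (nat_lit 5) (nat_lit 184) (nat_lit 5) (nat_lit 196) (nat_lit 5) (nat_lit 256) (nat_lit 250) (nat_lit 214)) (XT.lf (nat_lit 0) (nat_lit 1348910262) (nat_lit 912) (nat_lit 2127522483) (nat_lit 988) (nat_lit 5229256753) (nat_lit 172) (nat_lit 5) (nat_lit 184)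 (nat_lit 5) (nat_lit 185) (nat_lit 5) (nat_lit 257) (nat_lit 250) (nat_lit 213))))))))
noncomputable def xc70 : XT := (XT.nd (nat_lit 1638) (nat_lit 3268) (nat_lit 0) (XT.nd (nat_lit 780) (nat_lit 3344) (nat_lit 0) (XT.nd (nat_lit 390) (nat_lit 2812) (nat_lit 0) (XT.nd (nat_lit 156) (nat_lit 1900) (nat_lit 0) (XT.nd (nat_lit 78) (nat_lit 0) (nat_lit 0) (XT.lf (nat_lit 0) (nat_lit 3417601483) (nat_lit 912) (nat_lit 4428328579) (nat_lit 988) (nat_lit 1048734099) (nat_lit 173) (nat_lit 5) (nat_lit 185) (nat_lit 5) (nat_lit 186) (nat_lit 5) (nat_lit 258) (nat_lit 250) (nat_lit 212)) (XT.lf (nat_lit 76) (nat_lit 2279380367) (nat_lit 0) (nat_lit 3294266522) (nat_lit 988) (nat_lit 3520201234) (nat_lit 174) (nat_lit 5) (nat_lit 173) (nat_lit 5) (nat_lit 186) (nat_lit 5) (nat_lit 259) (nat_lit 250) (nat_lit 211))) (XT.nd (nat_lit 78) (nat_lit 1064) (nat_lit 0) (XT.lf (nat_lit 0) (nat_lit 26311590)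 (nat_lit 912) (nat_lit 7780622134) (nat_lit 988) (nat_lit 1497239294) (nat_lit 162) (nat_lit 5) (nat_lit 174) (nat_lit 5) (nat_lit 175) (nat_lit 5) (nat_lit 260) (nat_lit 250) (nat_lit 210)) (XT.nd (nat_lit 78) (nat_lit 988) (nat_lit 0) (XT.lf (nat_lit 0) (nat_lit 630151735) (nat_lit 988) (nat_lit 2284132912) (nat_lit 76) (nat_lit 6610328277) (nat_lit 161) (nat_lit 5) (nat_lit 174) (nat_lit 5) (nat_lit 162) (nat_lit 5) (nat_lit 261) (nat_lit 250) (nat_lit 209)) (XT.lf (nat_lit 0) (nat_lit 2819526642) (nat_lit 1064) (nat_lit 4704942710) (nat_lit 76) (nat_lit 2231796645) (nat_lit 148) (nat_lit 5) (nat_lit 162) (nat_lit 5) (nat_lit 149) (nat_lit 5) (nat_lit 262) (nat_lit 250) (nat_lit 208))))) (XT.nd (nat_lit 156) (nat_lit 1140) (nat_lit 0) (XT.nd (nat_lit 78) (nat_lit 608) (nat_lit 0) (XT.lf (nat_lit 0) (nat_lit 2756514301) (nat_lit 1064) (nat_lit 2360653380) (nat_lit 1140) (nat_lit 4882592296)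 (nat_lit 134) (nat_lit 5) (nat_lit 148) (nat_lit 5) (nat_lit 149) (nat_lit 5) (nat_lit 263) (nat_lit 250) (nat_lit 207)) (XT.lf (nat_lit 0) (nat_lit 341403811) (nat_lit 608) (nat_lit 7192336393) (nat_lit 684) (nat_lit 2721778562) (nat_lit 126) (nat_lit 5) (nat_lit 134) (nat_lit 5) (nat_lit 135) (nat_lit 5) (nat_lit 264) (nat_lit 250) (nat_lit 206))) (XT.nd (nat_lit 78) (nat_lit 1140) (nat_lit 0) (XT.lf (nat_lit 0) (nat_lit 8363636143) (nat_lit 608) (nat_lit 1731121807) (nat_lit 684) (nat_lit 428800563) (nat_lit 126) (nat_lit 5) (nat_lit 134) (nat_lit 5) (nat_lit 135) (nat_lit 5) (nat_lit 265) (nat_lit 250) (nat_lit 205)) (XT.nd (nat_lit 78) (nat_lit 532) (nat_lit 0) (XT.lf (nat_lit 0) (nat_lit 1965422208) (nat_lit 608) (nat_lit 4831084136) (nat_lit 76) (nat_lit 4007353290) (nat_lit 118) (nat_lit 5) (nat_lit 126) (nat_lit 5) (nat_lit 119) (nat_lit 5) (nat_lit 266) (nat_lit 250) (nat_lit 204))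 (XT.lf (nat_lit 0) (nat_lit 3437368133) (nat_lit 532) (nat_lit 1037125447) (nat_lit 608) (nat_lit 6623612151) (nat_lit 111) (nat_lit 5) (nat_lit 118) (nat_lit 5) (nat_lit 119) (nat_lit 5) (nat_lit 267) (nat_lit 250) (nat_lit 203)))))) (XT.nd (nat_lit 390) (nat_lit 1520) (nat_lit 0) (XT.nd (nat_lit 156) (nat_lit 1368) (nat_lit 0) (XT.nd (nat_lit 78) (nat_lit 0) (nat_lit 0) (XT.lf (nat_lit 0) (nat_lit 712211680) (nat_lit 456) (nat_lit 6435659483) (nat_lit 532) (nat_lit 4258196400) (nat_lit 105) (nat_lit 5) (nat_lit 111) (nat_lit 5) (nat_lit 112) (nat_lit 5) (nat_lit 268) (nat_lit 250) (nat_lit 202)) (XT.lf (nat_lit 0) (nat_lit 9587499757) (nat_lit 456) (nat_lit 392793849) (nat_lit 532) (nat_lit 1748533561) (nat_lit 105) (nat_lit 5) (nat_lit 111) (nat_lit 5) (nat_lit 112) (nat_lit 5) (nat_lit 269) (nat_lit 250) (nat_lit 201))) (XT.nd (nat_lit 78) (nat_lit 836) (nat_lit 0) (XT.lf (nat_lit 0)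 (nat_lit 932020727) (nat_lit 532) (nat_lit 5224404606) (nat_lit 76) (nat_lit 5909311291) (nat_lit 98) (nat_lit 5) (nat_lit 105) (nat_lit 5) (nat_lit 99) (nat_lit 5) (nat_lit 270) (nat_lit 250) (nat_lit 200)) (XT.nd (nat_lit 78) (nat_lit 456) (nat_lit 0) (XT.lf (nat_lit 0) (nat_lit 3716803313) (nat_lit 456) (nat_lit 8531565895) (nat_lit 76) (nat_lit 170553834) (nat_lit 93) (nat_lit 5) (nat_lit 99) (nat_lit 5) (nat_lit 94) (nat_lit 5) (nat_lit 271) (nat_lit 250) (nat_lit 199)) (XT.lf (nat_lit 0) (nat_lit 661991170) (nat_lit 456) (nat_lit 6044567688) (nat_lit 532) (nat_lit 6081372903) (nat_lit 87) (nat_lit 5) (nat_lit 93) (nat_lit 5) (nat_lit 94) (nat_lit 5) (nat_lit 272) (nat_lit 250) (nat_lit 198))))) (XT.nd (nat_lit 234) (nat_lit 684) (nat_lit 0) (XT.nd (nat_lit 78) (nat_lit 836) (nat_lit 0) (XT.lf (nat_lit 0) (nat_lit 9883979669) (nat_lit 532) (nat_lit 2748483833) (nat_lit 76) (nat_lit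 541910654) (nat_lit 87) (nat_lit 5) (nat_lit 94) (nat_lit 5) (nat_lit 88) (nat_lit 5) (nat_lit 273) (nat_lit 250) (nat_lit 197)) (XT.nd (nat_lit 78) (nat_lit 456) (nat_lit 0) (XT.lf (nat_lit 0) (nat_lit 7114857305) (nat_lit 380) (nat_lit 6182406912) (nat_lit 456) (nat_lit 280687117) (nat_lit 82) (nat_lit 5) (nat_lit 87) (nat_lit 5) (nat_lit 88) (nat_lit 5) (nat_lit 274) (nat_lit 250) (nat_lit 196)) (XT.lf (nat_lit 0) (nat_lit 2840993713) (nat_lit 456) (nat_lit 10498892064) (nat_lit 76) (nat_lit 660574094) (nat_lit 76) (nat_lit 5) (nat_lit 82) (nat_lit 5) (nat_lit 77) (nat_lit 5) (nat_lit 275) (nat_lit 250) (nat_lit 195)))) (XT.nd (nat_lit 78) (nat_lit 684) (nat_lit 0) (XT.lf (nat_lit 0) (nat_lit 6193285396) (nat_lit 456) (nat_lit 468440219) (nat_lit 76) (nat_lit 7779982717) (nat_lit 76) (nat_lit 5) (nat_lit 82) (nat_lit 5) (nat_lit 77) (nat_lit 5) (nat_lit 276) (nat_lit 250) (nat_lit 194))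 (XT.nd (nat_lit 78) (nat_lit 380) (nat_lit 0) (XT.lf (nat_lit 0) (nat_lit 9768570252) (nat_lit 380) (nat_lit 4702264275) (nat_lit 76) (nat_lit 432626023) (nat_lit 72) (nat_lit 5) (nat_lit 77) (nat_lit 5) (nat_lit 73) (nat_lit 5) (nat_lit 277) (nat_lit 250) (nat_lit 193)) (XT.lf (nat_lit 0) (nat_lit 6019282837) (nat_lit 380) (nat_lit 7587945810) (nat_lit 456) (nat_lit 1778631254) (nat_lit 67) (nat_lit 5) (nat_lit 72) (nat_lit 5) (nat_lit 73) (nat_lit 5) (nat_lit 278) (nat_lit 250) (nat_lit 192))))))) (XT.nd (nat_lit 858) (nat_lit 1216) (nat_lit 0) (XT.nd (nat_lit 390) (nat_lit 1064) (nat_lit 0) (XT.nd (nat_lit 156) (nat_lit 608) (nat_lit 0) (XT.nd (nat_lit 78) (nat_lit 0) (nat_lit 0) (XT.lf (nat_lit 0) (nat_lit 1438885297) (nat_lit 304) (nat_lit 290956924) (nat_lit 380) (nat_lit 14161570241) (nat_lit 62) (nat_lit 5) (nat_lit 66) (nat_lit 5) (nat_lit 67) (nat_lit 5) (nat_lit 279) (nat_lit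 250) (nat_lit 191)) (XT.lf (nat_lit 0) (nat_lit 5502738650) (nat_lit 380) (nat_lit 3584575942) (nat_lit 76) (nat_lit 7330712354) (nat_lit 62) (nat_lit 5) (nat_lit 67) (nat_lit 5) (nat_lit 63) (nat_lit 5) (nat_lit 280) (nat_lit 250) (nat_lit 190))) (XT.nd (nat_lit 78) (nat_lit 304) (nat_lit 0) (XT.lf (nat_lit 0) (nat_lit 7925325540) (nat_lit 304) (nat_lit 1577325020) (nat_lit 380) (nat_lit 7467252499) (nat_lit 58) (nat_lit 5) (nat_lit 62) (nat_lit 5) (nat_lit 63) (nat_lit 5) (nat_lit 281) (nat_lit 250) (nat_lit 189)) (XT.nd (nat_lit 78) (nat_lit 76) (nat_lit 0) (XT.lf (nat_lit 0) (nat_lit 2471816909) (nat_lit 228) (nat_lit 11312981480) (nat_lit 304) (nat_lit 3762185494) (nat_lit 55) (nat_lit 5) (nat_lit 58) (nat_lit 5) (nat_lit 59) (nat_lit 5) (nat_lit 282) (nat_lit 250) (nat_lit 188)) (XT.lf (nat_lit 0) (nat_lit 197093943) (nat_lit 304) (nat_lit 3467265783) (nat_lit 76) (nat_lit 14486450519)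 (nat_lit 54) (nat_lit 5) (nat_lit 58) (nat_lit 5) (nat_lit 55) (nat_lit 5) (nat_lit 283) (nat_lit 250) (nat_lit 187))))) (XT.nd (nat_lit 234) (nat_lit 532) (nat_lit 0) (XT.nd (nat_lit 78) (nat_lit 228) (nat_lit 0) (XT.lf (nat_lit 0) (nat_lit 4368303240) (nat_lit 380) (nat_lit 10020123925) (nat_lit 76) (nat_lit 4392598861) (nat_lit 50) (nat_lit 5) (nat_lit 55) (nat_lit 5) (nat_lit 51) (nat_lit 5) (nat_lit 284) (nat_lit 250) (nat_lit 186)) (XT.nd (nat_lit 78) (nat_lit 0) (nat_lit 0) (XT.lf (nat_lit 0) (nat_lit 2187395062) (nat_lit 228) (nat_lit 6619238673) (nat_lit 304) (nat_lit 10634427553) (nat_lit 47) (nat_lit 5) (nat_lit 50) (nat_lit 5) (nat_lit 51) (nat_lit 5) (nat_lit 285) (nat_lit 250) (nat_lit 185)) (XT.lf (nat_lit 0) (nat_lit 13551442448) (nat_lit 304) (nat_lit 4980884572) (nat_lit 76) (nat_lit 1599296839) (nat_lit 47) (nat_lit 5) (nat_lit 51) (nat_lit 5) (nat_lit 48) (nat_lit 5)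 (nat_lit 286) (nat_lit 250) (nat_lit 184)))) (XT.nd (nat_lit 78) (nat_lit 304) (nat_lit 0) (XT.lf (nat_lit 0) (nat_lit 7947377668) (nat_lit 228) (nat_lit 10696560426) (nat_lit 304) (nat_lit 2209522492) (nat_lit 44) (nat_lit 5) (nat_lit 47) (nat_lit 5) (nat_lit 48) (nat_lit 5) (nat_lit 287) (nat_lit 250) (nat_lit 183)) (XT.nd (nat_lit 78) (nat_lit 228) (nat_lit 0) (XT.lf (nat_lit 0) (nat_lit 2353014493) (nat_lit 304) (nat_lit 52886343) (nat_lit 76) (nat_lit 19204263584) (nat_lit 43) (nat_lit 5) (nat_lit 47) (nat_lit 5) (nat_lit 44) (nat_lit 5) (nat_lit 288) (nat_lit 250) (nat_lit 182)) (XT.lf (nat_lit 0) (nat_lit 7261023507) (nat_lit 304) (nat_lit 8819725008) (nat_lit 76) (nat_lit 6318459723) (nat_lit 40) (nat_lit 5) (nat_lit 44) (nat_lit 5) (nat_lit 41) (nat_lit 5) (nat_lit 289) (nat_lit 250) (nat_lit 181)))))) (XT.nd (nat_lit 390) (nat_lit 532) (nat_lit 0) (XT.nd (nat_lit 156) (nat_lit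 456) (nat_lit 0) (XT.nd (nat_lit 78) (nat_lit 0) (nat_lit 0) (XT.lf (nat_lit 0) (nat_lit 4690967851) (nat_lit 228) (nat_lit 7763833909) (nat_lit 304) (nat_lit 10771741259) (nat_lit 37) (nat_lit 5) (nat_lit 40) (nat_lit 5) (nat_lit 41) (nat_lit 5) (nat_lit 290) (nat_lit 250) (nat_lit 180)) (XT.lf (nat_lit 0) (nat_lit 17980592015) (nat_lit 304) (nat_lit 5083939582) (nat_lit 76) (nat_lit 1028590716) (nat_lit 37) (nat_lit 5) (nat_lit 41) (nat_lit 5) (nat_lit 38) (nat_lit 5) (nat_lit 291) (nat_lit 250) (nat_lit 179))) (XT.nd (nat_lit 78) (nat_lit 304) (nat_lit 0) (XT.lf (nat_lit 0) (nat_lit 9098791813) (nat_lit 152) (nat_lit 14822390105) (nat_lit 228) (nat_lit 1077738552) (nat_lit 35) (nat_lit 5) (nat_lit 37) (nat_lit 5) (nat_lit 38) (nat_lit 5) (nat_lit 292) (nat_lit 250) (nat_lit 178)) (XT.nd (nat_lit 78) (nat_lit 228) (nat_lit 0) (XT.lf (nat_lit 0) (nat_lit 4152819049) (nat_lit 228) (nat_lit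 1932596130) (nat_lit 76) (nat_lit 19862636781) (nat_lit 34) (nat_lit 5) (nat_lit 37) (nat_lit 5) (nat_lit 35) (nat_lit 5) (nat_lit 293) (nat_lit 250) (nat_lit 177)) (XT.lf (nat_lit 0) (nat_lit 9752655516) (nat_lit 304) (nat_lit 14035585392) (nat_lit 76) (nat_lit 3152217594) (nat_lit 31) (nat_lit 5) (nat_lit 35) (nat_lit 5) (nat_lit 32) (nat_lit 5) (nat_lit 294) (nat_lit 250) (nat_lit 176))))) (XT.nd (nat_lit 234) (nat_lit 228) (nat_lit 0) (XT.nd (nat_lit 78) (nat_lit 152) (nat_lit 0) (XT.lf (nat_lit 0) (nat_lit 452184891) (nat_lit 152) (nat_lit 15241466124) (nat_lit 228) (nat_lit 12287037252) (nat_lit 29) (nat_lit 5) (nat_lit 31) (nat_lit 5) (nat_lit 32) (nat_lit 5) (nat_lit 295) (nat_lit 250) (nat_lit 175)) (XT.nd (nat_lit 78) (nat_lit 152) (nat_lit 0) (XT.lf (nat_lit 0) (nat_lit 15920994588) (nat_lit 152) (nat_lit 6131316796) (nat_lit 228) (nat_lit 7017035791) (nat_lit 29) (nat_lit 5)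 (nat_lit 31) (nat_lit 5) (nat_lit 32) (nat_lit 5) (nat_lit 296) (nat_lit 250) (nat_lit 174)) (XT.lf (nat_lit 0) (nat_lit 1919748395) (nat_lit 152) (nat_lit 26837773864) (nat_lit 228) (nat_lit 1454092630) (nat_lit 27) (nat_lit 5) (nat_lit 29) (nat_lit 5) (nat_lit 30) (nat_lit 5) (nat_lit 297) (nat_lit 250) (nat_lit 173)))) (XT.nd (nat_lit 78) (nat_lit 152) (nat_lit 0) (XT.lf (nat_lit 0) (nat_lit 4477623630) (nat_lit 228) (nat_lit 13531278913) (nat_lit 76) (nat_lit 13395573166) (nat_lit 26) (nat_lit 5) (nat_lit 29) (nat_lit 5) (nat_lit 27) (nat_lit 5) (nat_lit 298) (nat_lit 250) (nat_lit 172)) (XT.nd (nat_lit 78) (nat_lit 0) (nat_lit 0) (XT.lf (nat_lit 0) (nat_lit 1957561285) (nat_lit 152) (nat_lit 8716108770) (nat_lit 228) (nat_lit 21982973371) (nat_lit 24) (nat_lit 5) (nat_lit 26) (nat_lit 5) (nat_lit 27) (nat_lit 5) (nat_lit 299) (nat_lit 250) (nat_lit 171)) (XT.lf (nat_lit 0) (nat_lit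 17309510032) (nat_lit 228) (nat_lit 15507900156) (nat_lit 76) (nat_lit 1150138443) (nat_lit 24) (nat_lit 5) (nat_lit 27) (nat_lit 5) (nat_lit 25) (nat_lit 5) (nat_lit 300) (nat_lit 250) (nat_lit 170))))))))
noncomputable def xc71 : XT := (XT.nd (nat_lit 1638) (nat_lit 228) (nat_lit 0) (XT.nd (nat_lit 780) (nat_lit 456) (nat_lit 0) (XT.nd (nat_lit 390) (nat_lit 304) (nat_lit 0) (XT.nd (nat_lit 156) (nat_lit 228) (nat_lit 0) (XT.nd (nat_lit 78) (nat_lit 0) (nat_lit 0) (XT.lf (nat_lit 0) (nat_lit 329994273) (nat_lit 152) (nat_lit 24018588562) (nat_lit 228) (nat_lit 10993300504) (nat_lit 22) (nat_lit 5) (nat_lit 24) (nat_lit 5) (nat_lit 25) (nat_lit 5) (nat_lit 301) (nat_lit 250) (nat_lit 169)) (XT.lf (nat_lit 0) (nat_lit 17253438252) (nat_lit 152) (nat_lit 14626752069) (nat_lit 228) (nat_lit 4900553188) (nat_lit 22) (nat_lit 5) (nat_lit 24) (nat_lit 5) (nat_lit 25) (nat_lit 5) (nat_lit 302)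 (nat_lit 250) (nat_lit 168))) (XT.nd (nat_lit 78) (nat_lit 152) (nat_lit 0) (XT.lf (nat_lit 0) (nat_lit 1449267246) (nat_lit 228) (nat_lit 3312236575) (nat_lit 76) (nat_lit 33530186070) (nat_lit 21) (nat_lit 5) (nat_lit 24) (nat_lit 5) (nat_lit 22) (nat_lit 5) (nat_lit 303) (nat_lit 250) (nat_lit 167)) (XT.nd (nat_lit 78) (nat_lit 0) (nat_lit 0) (XT.lf (nat_lit 0) (nat_lit 8187890704) (nat_lit 228) (nat_lit 26021199550) (nat_lit 76) (nat_lit 5662480874) (nat_lit 19) (nat_lit 5) (nat_lit 22) (nat_lit 5) (nat_lit 20) (nat_lit 5) (nat_lit 304) (nat_lit 250) (nat_lit 166)) (XT.lf (nat_lit 0) (nat_lit 15328929813) (nat_lit 228) (nat_lit 9665081290) (nat_lit 76) (nat_lit 16534492730) (nat_lit 19) (nat_lit 5) (nat_lit 22) (nat_lit 5) (nat_lit 20) (nat_lit 5) (nat_lit 305) (nat_lit 250) (nat_lit 165))))) (XT.nd (nat_lit 156) (nat_lit 152) (nat_lit 0) (XT.nd (nat_lit 78) (nat_lit 0) (nat_lit 0) (XT.lf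 (nat_lit 0) (nat_lit 7631487064) (nat_lit 152) (nat_lit 15252693595) (nat_lit 228) (nat_lit 20382408613) (nat_lit 17) (nat_lit 5) (nat_lit 19) (nat_lit 5) (nat_lit 20) (nat_lit 5) (nat_lit 306) (nat_lit 250) (nat_lit 164)) (XT.lf (nat_lit 0) (nat_lit 25969335117) (nat_lit 152) (nat_lit 4931679725) (nat_lit 228) (nat_lit 14188069416) (nat_lit 17) (nat_lit 5) (nat_lit 19) (nat_lit 5) (nat_lit 20) (nat_lit 5) (nat_lit 307) (nat_lit 250) (nat_lit 163))) (XT.nd (nat_lit 78) (nat_lit 152) (nat_lit 0) (XT.lf (nat_lit 0) (nat_lit 39360440380) (nat_lit 228) (nat_lit 1860076410) (nat_lit 76) (nat_lit 5780953666) (nat_lit 17) (nat_lit 5) (nat_lit 20) (nat_lit 5) (nat_lit 18) (nat_lit 4) (nat_lit 308) (nat_lit 250) (nat_lit 162)) (XT.nd (nat_lit 78) (nat_lit 76) (nat_lit 0) (XT.lf (nat_lit 0) (nat_lit 16511495578) (nat_lit 76) (nat_lit 31925535397) (nat_lit 152) (nat_lit 566637224) (nat_lit 16) (nat_lit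 5) (nat_lit 17) (nat_lit 5) (nat_lit 18) (nat_lit 4) (nat_lit 309) (nat_lit 250) (nat_lit 161)) (XT.lf (nat_lit 0) (nat_lit 6732926804) (nat_lit 152) (nat_lit 15354159259) (nat_lit 76) (nat_lit 29016767445) (nat_lit 15) (nat_lit 5) (nat_lit 17) (nat_lit 5) (nat_lit 16) (nat_lit 5) (nat_lit 310) (nat_lit 250) (nat_lit 160)))))) (XT.nd (nat_lit 390) (nat_lit 228) (nat_lit 0) (XT.nd (nat_lit 156) (nat_lit 76) (nat_lit 0) (XT.nd (nat_lit 78) (nat_lit 0) (nat_lit 0) (XT.lf (nat_lit 0) (nat_lit 2665013019) (nat_lit 152) (nat_lit 11733136336) (nat_lit 228) (nat_lit 38910374336) (nat_lit 13) (nat_lit 5) (nat_lit 15) (nat_lit 5) (nat_lit 16) (nat_lit 5) (nat_lit 311) (nat_lit 250) (nat_lit 159)) (XT.lf (nat_lit 0) (nat_lit 21884605519) (nat_lit 152) (nat_lit 707186587) (nat_lit 228) (nat_lit 33027295643) (nat_lit 13) (nat_lit 5) (nat_lit 15) (nat_lit 5) (nat_lit 16) (nat_lit 5) (nat_lit 312) (nat_lit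 250) (nat_lit 158))) (XT.nd (nat_lit 78) (nat_lit 76) (nat_lit 0) (XT.lf (nat_lit 0) (nat_lit 31287244643) (nat_lit 228) (nat_lit 16105173540) (nat_lit 76) (nat_lit 10650012412) (nat_lit 13) (nat_lit 5) (nat_lit 16) (nat_lit 5) (nat_lit 14) (nat_lit 4) (nat_lit 313) (nat_lit 250) (nat_lit 157)) (XT.nd (nat_lit 78) (nat_lit 0) (nat_lit 0) (XT.lf (nat_lit 0) (nat_lit 2426108220) (nat_lit 76) (nat_lit 38010047273) (nat_lit 152) (nat_lit 20150238251) (nat_lit 12) (nat_lit 5) (nat_lit 13) (nat_lit 5) (nat_lit 14) (nat_lit 4) (nat_lit 314) (nat_lit 250) (nat_lit 156)) (XT.lf (nat_lit 0) (nat_lit 22201372760) (nat_lit 76) (nat_lit 27995531047) (nat_lit 152) (nat_lit 13056032562) (nat_lit 12) (nat_lit 5) (nat_lit 13) (nat_lit 5) (nat_lit 14) (nat_lit 4) (nat_lit 315) (nat_lit 250) (nat_lit 155))))) (XT.nd (nat_lit 234) (nat_lit 0) (nat_lit 0) (XT.nd (nat_lit 78) (nat_lit 228) (nat_lit 0) (XT.lf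 (nat_lit 0) (nat_lit 42947179511) (nat_lit 76) (nat_lit 17487656093) (nat_lit 152) (nat_lit 5618308592) (nat_lit 12) (nat_lit 5) (nat_lit 13) (nat_lit 5) (nat_lit 14) (nat_lit 4) (nat_lit 316) (nat_lit 250) (nat_lit 154)) (XT.nd (nat_lit 78) (nat_lit 152) (nat_lit 0) (XT.lf (nat_lit 0) (nat_lit 2138090334) (nat_lit 152) (nat_lit 4301722808) (nat_lit 76) (nat_lit 62553242395) (nat_lit 11) (nat_lit 5) (nat_lit 13) (nat_lit 5) (nat_lit 12) (nat_lit 5) (nat_lit 317) (nat_lit 250) (nat_lit 153)) (XT.lf (nat_lit 0) (nat_lit 10359513272) (nat_lit 228) (nat_lit 56450476563) (nat_lit 76) (nat_lit 5262512793) (nat_lit 9) (nat_lit 5) (nat_lit 12) (nat_lit 5) (nat_lit 10) (nat_lit 4) (nat_lit 318) (nat_lit 250) (nat_lit 152)))) (XT.nd (nat_lit 78) (nat_lit 0) (nat_lit 0) (XT.lf (nat_lit 0) (nat_lit 19092027509) (nat_lit 228) (nat_lit 38754667093) (nat_lit 76) (nat_lit 17456237311) (nat_lit 9) (nat_lit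 5) (nat_lit 12) (nat_lit 5) (nat_lit 10) (nat_lit 4) (nat_lit 319) (nat_lit 250) (nat_lit 151)) (XT.nd (nat_lit 78) (nat_lit 0) (nat_lit 0) (XT.lf (nat_lit 0) (nat_lit 28251930008) (nat_lit 228) (nat_lit 20189774003) (nat_lit 76) (nat_lit 30253465722) (nat_lit 9) (nat_lit 5) (nat_lit 12) (nat_lit 5) (nat_lit 10) (nat_lit 4) (nat_lit 320) (nat_lit 250) (nat_lit 150)) (XT.lf (nat_lit 0) (nat_lit 37861030061) (nat_lit 228) (nat_lit 711595164) (nat_lit 76) (nat_lit 43684667619) (nat_lit 9) (nat_lit 5) (nat_lit 12) (nat_lit 5) (nat_lit 10) (nat_lit 4) (nat_lit 321) (nat_lit 250) (nat_lit 149))))))) (XT.nd (nat_lit 32292) (nat_lit 0) (nat_lit 9120) (XT.nd (nat_lit 390) (nat_lit 76) (nat_lit 0) (XT.nd (nat_lit 156) (nat_lit 76) (nat_lit 0) (XT.nd (nat_lit 78) (nat_lit 0) (nat_lit 0) (XT.lf (nat_lit 0) (nat_lit 20118837012) (nat_lit 76) (nat_lit 28016764034) (nat_lit 152) (nat_lit 37856379610) (nat_lit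 8) (nat_lit 5) (nat_lit 9) (nat_lit 5) (nat_lit 10) (nat_lit 4) (nat_lit 322) (nat_lit 250) (nat_lit 148)) (XT.lf (nat_lit 0) (nat_lit 41991822841) (nat_lit 76) (nat_lit 16931290306) (nat_lit 152) (nat_lit 30990321927) (nat_lit 8) (nat_lit 5) (nat_lit 9) (nat_lit 5) (nat_lit 10) (nat_lit 4) (nat_lit 323) (nat_lit 250) (nat_lit 147))) (XT.nd (nat_lit 78) (nat_lit 76) (nat_lit 0) (XT.lf (nat_lit 0) (nat_lit 64945278721) (nat_lit 76) (nat_lit 5296995773) (nat_lit 152) (nat_lit 23788927694) (nat_lit 8) (nat_lit 5) (nat_lit 9) (nat_lit 5) (nat_lit 10) (nat_lit 4) (nat_lit 324) (nat_lit 250) (nat_lit 146)) (XT.nd (nat_lit 78) (nat_lit 76) (nat_lit 0) (XT.lf (nat_lit 0) (nat_lit 82186495340) (nat_lit 152) (nat_lit 9387690336) (nat_lit 0) (nat_lit 6778906730) (nat_lit 8) (nat_lit 5) (nat_lit 10) (nat_lit 4) (nat_lit 8) (nat_lit 4) (nat_lit 325) (nat_lit 250) (nat_lit 145)) (XT.lf (nat_lit 0) (nat_lit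 11453362870) (nat_lit 76) (nat_lit 83431069370) (nat_lit 76) (nat_lit 8001957168) (nat_lit 7) (nat_lit 4) (nat_lit 8) (nat_lit 5) (nat_lit 8) (nat_lit 4) (nat_lit 326) (nat_lit 250) (nat_lit 144))))) (XT.nd (nat_lit 31668) (nat_lit 0) (nat_lit 13300) (XT.nd (nat_lit 78) (nat_lit 0) (nat_lit 0) (XT.lf (nat_lit 0) (nat_lit 650461537) (nat_lit 152) (nat_lit 74129173940) (nat_lit 76) (nat_lit 32863837386) (nat_lit 6) (nat_lit 5) (nat_lit 8) (nat_lit 5) (nat_lit 7) (nat_lit 4) (nat_lit 327) (nat_lit 250) (nat_lit 143)) (XT.nd (nat_lit 31512) (nat_lit 0) (nat_lit 14136) (XT.lf (nat_lit 0) (nat_lit 9564968359) (nat_lit 152) (nat_lit 56052247623) (nat_lit 76) (nat_lit 47018975426) (nat_lit 6) (nat_lit 5) (nat_lit 8) (nat_lit 5) (nat_lit 7) (nat_lit 4) (nat_lit 328) (nat_lit 250) (nat_lit 142)) (XT.lf (nat_lit 0) (nat_lit 3671009713) (nat_lit 836) (nat_lit 139589161) (nat_lit 836) (nat_lit 139589161)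 (nat_lit 192) (nat_lit 3) (nat_lit 203) (nat_lit 3) (nat_lit 203) (nat_lit 5) (nat_lit 251) (nat_lit 251) (nat_lit 218)))) (XT.nd (nat_lit 78) (nat_lit 0) (nat_lit 0) (XT.lf (nat_lit 0) (nat_lit 1324450602) (nat_lit 836) (nat_lit 2740446065) (nat_lit 912) (nat_lit 3970873669) (nat_lit 181) (nat_lit 5) (nat_lit 192) (nat_lit 3) (nat_lit 193) (nat_lit 5) (nat_lit 252) (nat_lit 251) (nat_lit 217)) (XT.nd (nat_lit 78) (nat_lit 0) (nat_lit 76) (XT.lf (nat_lit 76) (nat_lit 2964955531) (nat_lit 0) (nat_lit 238409993) (nat_lit 912) (nat_lit 4977363144) (nat_lit 182) (nat_lit 5) (nat_lit 181) (nat_lit 5) (nat_lit 193) (nat_lit 5) (nat_lit 253) (nat_lit 251) (nat_lit 216)) (XT.lf (nat_lit 76) (nat_lit 589525357) (nat_lit 0) (nat_lit 4544705589) (nat_lit 912) (nat_lit 3200312072) (nat_lit 183) (nat_lit 5) (nat_lit 182) (nat_lit 5) (nat_lit 194) (nat_lit 5) (nat_lit 254) (nat_lit 251) (nat_lit 215))))))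 (XT.nd (nat_lit 390) (nat_lit 3420) (nat_lit 0) (XT.nd (nat_lit 156) (nat_lit 0) (nat_lit 0) (XT.nd (nat_lit 78) (nat_lit 836) (nat_lit 0) (XT.lf (nat_lit 76) (nat_lit 6727350724) (nat_lit 0) (nat_lit 382620007) (nat_lit 912) (nat_lit 1387959080) (nat_lit 183) (nat_lit 5) (nat_lit 182) (nat_lit 5) (nat_lit 194) (nat_lit 5) (nat_lit 255) (nat_lit 251) (nat_lit 214)) (XT.lf (nat_lit 0) (nat_lit 483692545) (nat_lit 912) (nat_lit 4188371996) (nat_lit 988) (nat_lit 3998217629) (nat_lit 171) (nat_lit 5) (nat_lit 183) (nat_lit 5) (nat_lit 184) (nat_lit 5) (nat_lit 256) (nat_lit 251) (nat_lit 213))) (XT.nd (nat_lit 78) (nat_lit 0) (nat_lit 76) (XT.lf (nat_lit 76) (nat_lit 2192640723) (nat_lit 0) (nat_lit 171974340) (nat_lit 988) (nat_lit 6488185079) (nat_lit 172) (nat_lit 5) (nat_lit 171) (nat_lit 5) (nat_lit 184) (nat_lit 5) (nat_lit 257) (nat_lit 251) (nat_lit 212)) (XT.nd (nat_lit 78) (nat_lit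 0) (nat_lit 76) (XT.lf (nat_lit 0) (nat_lit 4332091686) (nat_lit 912) (nat_lit 174088490) (nat_lit 988) (nat_lit 4538766753) (nat_lit 172) (nat_lit 5) (nat_lit 184) (nat_lit 5) (nat_lit 185) (nat_lit 5) (nat_lit 258) (nat_lit 251) (nat_lit 211)) (XT.lf (nat_lit 0) (nat_lit 6376960022) (nat_lit 912) (nat_lit 2549302163) (nat_lit 988) (nat_lit 321333242) (nat_lit 173) (nat_lit 5) (nat_lit 185) (nat_lit 5) (nat_lit 186) (nat_lit 5) (nat_lit 259) (nat_lit 251) (nat_lit 210))))) (XT.nd (nat_lit 234) (nat_lit 2660) (nat_lit 0) (XT.nd (nat_lit 78) (nat_lit 912) (nat_lit 0) (XT.lf (nat_lit 76) (nat_lit 4433583458) (nat_lit 0) (nat_lit 4094051530) (nat_lit 988) (nat_lit 932886762) (nat_lit 174) (nat_lit 5) (nat_lit 173) (nat_lit 5) (nat_lit 186) (nat_lit 5) (nat_lit 260) (nat_lit 251) (nat_lit 209)) (XT.nd (nat_lit 78) (nat_lit 0) (nat_lit 0) (XT.lf (nat_lit 0) (nat_lit 1053213462) (nat_lit 988)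 (nat_lit 7594652656) (nat_lit 76) (nat_lit 1036954935) (nat_lit 161) (nat_lit 5) (nat_lit 174) (nat_lit 5) (nat_lit 162) (nat_lit 5) (nat_lit 261) (nat_lit 251) (nat_lit 208)) (XT.lf (nat_lit 0) (nat_lit 3132742525) (nat_lit 988) (nat_lit 367873038) (nat_lit 76) (nat_lit 6419262315) (nat_lit 161) (nat_lit 5) (nat_lit 174) (nat_lit 5) (nat_lit 162) (nat_lit 5) (nat_lit 262) (nat_lit 251) (nat_lit 207)))) (XT.nd (nat_lit 78) (nat_lit 1672) (nat_lit 0) (XT.lf (nat_lit 0) (nat_lit 5329028074) (nat_lit 1064) (nat_lit 2886401221) (nat_lit 76) (nat_lit 1951086443) (nat_lit 148) (nat_lit 5) (nat_lit 162) (nat_lit 5) (nat_lit 149) (nat_lit 5) (nat_lit 263) (nat_lit 251) (nat_lit 206)) (XT.nd (nat_lit 78) (nat_lit 608) (nat_lit 0) (XT.lf (nat_lit 0) (nat_lit 4889257201) (nat_lit 1064) (nat_lit 2758683418) (nat_lit 1140) (nat_lit 2777362009) (nat_lit 134) (nat_lit 5) (nat_lit 148) (nat_lit 5) (nat_lit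 149) (nat_lit 5) (nat_lit 264) (nat_lit 251) (nat_lit 205)) (XT.lf (nat_lit 0) (nat_lit 2371133027) (nat_lit 608) (nat_lit 7722663048) (nat_lit 684) (nat_lit 603094791) (nat_lit 126) (nat_lit 5) (nat_lit 134) (nat_lit 5) (nat_lit 135) (nat_lit 5) (nat_lit 265) (nat_lit 251) (nat_lit 204))))))))
noncomputable def xc72 : XT := (XT.nd (nat_lit 1638) (nat_lit 2280) (nat_lit 0) (XT.nd (nat_lit 780) (nat_lit 2584) (nat_lit 0) (XT.nd (nat_lit 390) (nat_lit 1748) (nat_lit 0) (XT.nd (nat_lit 156) (nat_lit 1064) (nat_lit 0) (XT.nd (nat_lit 78) (nat_lit 532) (nat_lit 0) (XT.lf (nat_lit 0) (nat_lit 1664044235) (nat_lit 684) (nat_lit 299410874) (nat_lit 76) (nat_lit 9017788251) (nat_lit 125) (nat_lit 5) (nat_lit 134) (nat_lit 5) (nat_lit 126) (nat_lit 5) (nat_lit 266) (nat_lit 251) (nat_lit 203)) (XT.lf (nat_lit 0) (nat_lit 4086157972) (nat_lit 608) (nat_lit 3097743999) (nat_lit 76) (nat_lit 4094278659)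 (nat_lit 118) (nat_lit 5) (nat_lit 126) (nat_lit 5) (nat_lit 119) (nat_lit 5) (nat_lit 267) (nat_lit 251) (nat_lit 202))) (XT.nd (nat_lit 78) (nat_lit 532) (nat_lit 0) (XT.lf (nat_lit 0) (nat_lit 5527520934) (nat_lit 532) (nat_lit 1115293862) (nat_lit 608) (nat_lit 4946907806) (nat_lit 111) (nat_lit 5) (nat_lit 118) (nat_lit 5) (nat_lit 119) (nat_lit 5) (nat_lit 268) (nat_lit 251) (nat_lit 201)) (XT.nd (nat_lit 78) (nat_lit 76) (nat_lit 0) (XT.lf (nat_lit 0) (nat_lit 2672839366) (nat_lit 456) (nat_lit 6702685614) (nat_lit 532) (nat_lit 2540023372) (nat_lit 105) (nat_lit 5) (nat_lit 111) (nat_lit 5) (nat_lit 112) (nat_lit 5) (nat_lit 269) (nat_lit 251) (nat_lit 200)) (XT.lf (nat_lit 0) (nat_lit 3104497) (nat_lit 532) (nat_lit 357148321) (nat_lit 76) (nat_lit 11897088520) (nat_lit 104) (nat_lit 5) (nat_lit 111) (nat_lit 5) (nat_lit 105) (nat_lit 5) (nat_lit 270) (nat_lit 251) (nat_lit 199)))))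 (XT.nd (nat_lit 156) (nat_lit 912) (nat_lit 0) (XT.nd (nat_lit 78) (nat_lit 380) (nat_lit 0) (XT.lf (nat_lit 0) (nat_lit 2714303035) (nat_lit 532) (nat_lit 3610353556) (nat_lit 76) (nat_lit 6288144537) (nat_lit 98) (nat_lit 5) (nat_lit 105) (nat_lit 5) (nat_lit 99) (nat_lit 5) (nat_lit 271) (nat_lit 251) (nat_lit 198)) (XT.lf (nat_lit 0) (nat_lit 5574634086) (nat_lit 456) (nat_lit 7084008115) (nat_lit 76) (nat_lit 327113095) (nat_lit 93) (nat_lit 5) (nat_lit 99) (nat_lit 5) (nat_lit 94) (nat_lit 5) (nat_lit 272) (nat_lit 251) (nat_lit 197))) (XT.nd (nat_lit 78) (nat_lit 456) (nat_lit 0) (XT.lf (nat_lit 0) (nat_lit 2515505069) (nat_lit 456) (nat_lit 6136252675) (nat_lit 532) (nat_lit 4723508590) (nat_lit 87) (nat_lit 5) (nat_lit 93) (nat_lit 5) (nat_lit 94) (nat_lit 5) (nat_lit 273) (nat_lit 251) (nat_lit 196)) (XT.nd (nat_lit 78) (nat_lit 456) (nat_lit 0) (XT.lf (nat_lit 0) (nat_lit 11913316572)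 (nat_lit 532) (nat_lit 1104524707) (nat_lit 76) (nat_lit 765610888) (nat_lit 87) (nat_lit 5) (nat_lit 94) (nat_lit 5) (nat_lit 88) (nat_lit 5) (nat_lit 274) (nat_lit 251) (nat_lit 195)) (XT.lf (nat_lit 0) (nat_lit 1207688018) (nat_lit 456) (nat_lit 5019992648) (nat_lit 76) (nat_lit 7981037193) (nat_lit 81) (nat_lit 5) (nat_lit 87) (nat_lit 5) (nat_lit 82) (nat_lit 5) (nat_lit 275) (nat_lit 251) (nat_lit 194)))))) (XT.nd (nat_lit 390) (nat_lit 1140) (nat_lit 0) (XT.nd (nat_lit 156) (nat_lit 760) (nat_lit 0) (XT.nd (nat_lit 78) (nat_lit 304) (nat_lit 0) (XT.lf (nat_lit 0) (nat_lit 4427502783) (nat_lit 456) (nat_lit 9267153023) (nat_lit 76) (nat_lit 959334914) (nat_lit 76) (nat_lit 5) (nat_lit 82) (nat_lit 5) (nat_lit 77) (nat_lit 5) (nat_lit 276) (nat_lit 251) (nat_lit 193)) (XT.lf (nat_lit 0) (nat_lit 1204677405) (nat_lit 304) (nat_lit 6685527960) (nat_lit 380) (nat_lit 7228962748) (nat_lit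 72) (nat_lit 5) (nat_lit 76) (nat_lit 5) (nat_lit 77) (nat_lit 5) (nat_lit 277) (nat_lit 251) (nat_lit 192))) (XT.nd (nat_lit 78) (nat_lit 760) (nat_lit 0) (XT.lf (nat_lit 0) (nat_lit 11585664145) (nat_lit 380) (nat_lit 3272541118) (nat_lit 76) (nat_lit 747703625) (nat_lit 72) (nat_lit 5) (nat_lit 77) (nat_lit 5) (nat_lit 73) (nat_lit 5) (nat_lit 278) (nat_lit 251) (nat_lit 191)) (XT.nd (nat_lit 78) (nat_lit 380) (nat_lit 0) (XT.lf (nat_lit 0) (nat_lit 7937361150) (nat_lit 380) (nat_lit 7631169220) (nat_lit 456) (nat_lit 545466004) (nat_lit 67) (nat_lit 5) (nat_lit 72) (nat_lit 5) (nat_lit 73) (nat_lit 5) (nat_lit 279) (nat_lit 251) (nat_lit 190)) (XT.lf (nat_lit 0) (nat_lit 3066681417) (nat_lit 380) (nat_lit 13537153491) (nat_lit 76) (nat_lit 42115053) (nat_lit 62) (nat_lit 5) (nat_lit 67) (nat_lit 5) (nat_lit 63) (nat_lit 5) (nat_lit 280) (nat_lit 251) (nat_lit 189))))) (XT.nd (nat_lit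 234) (nat_lit 608) (nat_lit 0) (XT.nd (nat_lit 78) (nat_lit 532) (nat_lit 0) (XT.lf (nat_lit 0) (nat_lit 6971479185) (nat_lit 380) (nat_lit 2206601564) (nat_lit 76) (nat_lit 8022636853) (nat_lit 62) (nat_lit 5) (nat_lit 67) (nat_lit 5) (nat_lit 63) (nat_lit 5) (nat_lit 281) (nat_lit 251) (nat_lit 188)) (XT.nd (nat_lit 78) (nat_lit 228) (nat_lit 0) (XT.lf (nat_lit 0) (nat_lit 9834158075) (nat_lit 304) (nat_lit 1294930060) (nat_lit 380) (nat_lit 6652482750) (nat_lit 58) (nat_lit 5) (nat_lit 62) (nat_lit 5) (nat_lit 63) (nat_lit 5) (nat_lit 282) (nat_lit 251) (nat_lit 187)) (XT.lf (nat_lit 0) (nat_lit 4097015162) (nat_lit 228) (nat_lit 11491245813) (nat_lit 304) (nat_lit 2800466209) (nat_lit 55) (nat_lit 5) (nat_lit 58) (nat_lit 5) (nat_lit 59) (nat_lit 5) (nat_lit 283) (nat_lit 251) (nat_lit 186)))) (XT.nd (nat_lit 78) (nat_lit 532) (nat_lit 0) (XT.lf (nat_lit 0) (nat_lit 1280654605) (nat_lit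 304) (nat_lit 2187142934) (nat_lit 76) (nat_lit 15556327049) (nat_lit 54) (nat_lit 5) (nat_lit 58) (nat_lit 5) (nat_lit 55) (nat_lit 5) (nat_lit 284) (nat_lit 251) (nat_lit 185)) (XT.nd (nat_lit 78) (nat_lit 228) (nat_lit 0) (XT.lf (nat_lit 0) (nat_lit 5626478017) (nat_lit 380) (nat_lit 9079915587) (nat_lit 76) (nat_lit 4980571896) (nat_lit 50) (nat_lit 5) (nat_lit 55) (nat_lit 5) (nat_lit 51) (nat_lit 5) (nat_lit 285) (nat_lit 251) (nat_lit 184)) (XT.lf (nat_lit 0) (nat_lit 3696667224) (nat_lit 228) (nat_lit 6554002168) (nat_lit 304) (nat_lit 10130506184) (nat_lit 47) (nat_lit 5) (nat_lit 50) (nat_lit 5) (nat_lit 51) (nat_lit 5) (nat_lit 286) (nat_lit 251) (nat_lit 183))))))) (XT.nd (nat_lit 780) (nat_lit 912) (nat_lit 0) (XT.nd (nat_lit 390) (nat_lit 608) (nat_lit 0) (XT.nd (nat_lit 156) (nat_lit 532) (nat_lit 0) (XT.nd (nat_lit 78) (nat_lit 228) (nat_lit 0) (XT.lf (nat_lit 0) (nat_lit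 15188550259) (nat_lit 304) (nat_lit 3869897674) (nat_lit 76) (nat_lit 2049230423) (nat_lit 47) (nat_lit 5) (nat_lit 51) (nat_lit 5) (nat_lit 48) (nat_lit 5) (nat_lit 287) (nat_lit 251) (nat_lit 182)) (XT.lf (nat_lit 0) (nat_lit 9665792659) (nat_lit 228) (nat_lit 10836884555) (nat_lit 304) (nat_lit 1364002397) (nat_lit 44) (nat_lit 5) (nat_lit 47) (nat_lit 5) (nat_lit 48) (nat_lit 5) (nat_lit 288) (nat_lit 251) (nat_lit 181))) (XT.nd (nat_lit 78) (nat_lit 228) (nat_lit 0) (XT.lf (nat_lit 0) (nat_lit 1246226265) (nat_lit 228) (nat_lit 2129124433) (nat_lit 304) (nat_lit 19286648565) (nat_lit 40) (nat_lit 5) (nat_lit 43) (nat_lit 5) (nat_lit 44) (nat_lit 5) (nat_lit 289) (nat_lit 251) (nat_lit 180)) (XT.nd (nat_lit 78) (nat_lit 228) (nat_lit 0) (XT.lf (nat_lit 0) (nat_lit 8489838666) (nat_lit 304) (nat_lit 7996206951) (nat_lit 76) (nat_lit 7005690291) (nat_lit 40) (nat_lit 5) (nat_lit 44) (nat_lit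 5) (nat_lit 41) (nat_lit 5) (nat_lit 290) (nat_lit 251) (nat_lit 179)) (XT.lf (nat_lit 0) (nat_lit 6153773790) (nat_lit 228) (nat_lit 7760111949) (nat_lit 304) (nat_lit 10447503808) (nat_lit 37) (nat_lit 5) (nat_lit 40) (nat_lit 5) (nat_lit 41) (nat_lit 5) (nat_lit 291) (nat_lit 251) (nat_lit 178))))) (XT.nd (nat_lit 156) (nat_lit 456) (nat_lit 0) (XT.nd (nat_lit 78) (nat_lit 152) (nat_lit 0) (XT.lf (nat_lit 0) (nat_lit 19679727524) (nat_lit 304) (nat_lit 4146735746) (nat_lit 76) (nat_lit 1445987878) (nat_lit 37) (nat_lit 5) (nat_lit 41) (nat_lit 5) (nat_lit 38) (nat_lit 5) (nat_lit 292) (nat_lit 251) (nat_lit 177)) (XT.lf (nat_lit 0) (nat_lit 10710980954) (nat_lit 152) (nat_lit 15179389878) (nat_lit 228) (nat_lit 334040717) (nat_lit 35) (nat_lit 5) (nat_lit 37) (nat_lit 5) (nat_lit 38) (nat_lit 5) (nat_lit 293) (nat_lit 251) (nat_lit 176))) (XT.nd (nat_lit 78) (nat_lit 380) (nat_lit 0)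 (XT.lf (nat_lit 0) (nat_lit 5105241916) (nat_lit 228) (nat_lit 911094869) (nat_lit 76) (nat_lit 21205608296) (nat_lit 34) (nat_lit 5) (nat_lit 37) (nat_lit 5) (nat_lit 35) (nat_lit 5) (nat_lit 294) (nat_lit 251) (nat_lit 175)) (XT.nd (nat_lit 78) (nat_lit 152) (nat_lit 0) (XT.lf (nat_lit 0) (nat_lit 10963565796) (nat_lit 304) (nat_lit 13632102745) (nat_lit 76) (nat_lit 3669004066) (nat_lit 31) (nat_lit 5) (nat_lit 35) (nat_lit 5) (nat_lit 32) (nat_lit 5) (nat_lit 295) (nat_lit 251) (nat_lit 174)) (XT.lf (nat_lit 0) (nat_lit 1548373941) (nat_lit 152) (nat_lit 15629115250) (nat_lit 228) (nat_lit 12180201207) (nat_lit 29) (nat_lit 5) (nat_lit 31) (nat_lit 5) (nat_lit 32) (nat_lit 5) (nat_lit 296) (nat_lit 251) (nat_lit 173)))))) (XT.nd (nat_lit 390) (nat_lit 532) (nat_lit 0) (XT.nd (nat_lit 156) (nat_lit 228) (nat_lit 0) (XT.nd (nat_lit 78) (nat_lit 152) (nat_lit 0) (XT.lf (nat_lit 0) (nat_lit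 17739501274) (nat_lit 152) (nat_lit 6081288178) (nat_lit 228) (nat_lit 6681041954) (nat_lit 29) (nat_lit 5) (nat_lit 31) (nat_lit 5) (nat_lit 32) (nat_lit 5) (nat_lit 297) (nat_lit 251) (nat_lit 172)) (XT.lf (nat_lit 0) (nat_lit 3025936352) (nat_lit 152) (nat_lit 27816592024) (nat_lit 228) (nat_lit 859294072) (nat_lit 27) (nat_lit 5) (nat_lit 29) (nat_lit 5) (nat_lit 30) (nat_lit 5) (nat_lit 298) (nat_lit 251) (nat_lit 171))) (XT.nd (nat_lit 78) (nat_lit 152) (nat_lit 0) (XT.lf (nat_lit 0) (nat_lit 5324817000) (nat_lit 228) (nat_lit 13232454978) (nat_lit 76) (nat_lit 14397841154) (nat_lit 26) (nat_lit 5) (nat_lit 29) (nat_lit 5) (nat_lit 27) (nat_lit 5) (nat_lit 299) (nat_lit 251) (nat_lit 170)) (XT.nd (nat_lit 78) (nat_lit 0) (nat_lit 0) (XT.lf (nat_lit 0) (nat_lit 3002867932) (nat_lit 152) (nat_lit 8807223545) (nat_lit 228) (nat_lit 22460457224) (nat_lit 24) (nat_lit 5) (nat_lit 26) (nat_lit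 5) (nat_lit 27) (nat_lit 5) (nat_lit 300) (nat_lit 251) (nat_lit 169)) (XT.lf (nat_lit 0) (nat_lit 18752177245) (nat_lit 228) (nat_lit 15366112210) (nat_lit 76) (nat_lit 1529516324) (nat_lit 24) (nat_lit 5) (nat_lit 27) (nat_lit 5) (nat_lit 25) (nat_lit 5) (nat_lit 301) (nat_lit 251) (nat_lit 168))))) (XT.nd (nat_lit 234) (nat_lit 304) (nat_lit 0) (XT.nd (nat_lit 78) (nat_lit 76) (nat_lit 0) (XT.lf (nat_lit 0) (nat_lit 1237386075) (nat_lit 152) (nat_lit 24886896092) (nat_lit 228) (nat_lit 10967181012) (nat_lit 22) (nat_lit 5) (nat_lit 24) (nat_lit 5) (nat_lit 25) (nat_lit 5) (nat_lit 302) (nat_lit 251) (nat_lit 167)) (XT.nd (nat_lit 78) (nat_lit 76) (nat_lit 0) (XT.lf (nat_lit 0) (nat_lit 18964578820) (nat_lit 152) (nat_lit 15041306913) (nat_lit 228) (nat_lit 4597214640) (nat_lit 22) (nat_lit 5) (nat_lit 24) (nat_lit 5) (nat_lit 25) (nat_lit 5) (nat_lit 303) (nat_lit 251) (nat_lit 166))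 (XT.lf (nat_lit 0) (nat_lit 2033793092) (nat_lit 228) (nat_lit 2658917227) (nat_lit 76) (nat_lit 35497527449) (nat_lit 21) (nat_lit 5) (nat_lit 24) (nat_lit 5) (nat_lit 22) (nat_lit 5) (nat_lit 304) (nat_lit 251) (nat_lit 165)))) (XT.nd (nat_lit 78) (nat_lit 152) (nat_lit 0) (XT.lf (nat_lit 0) (nat_lit 9095495261) (nat_lit 228) (nat_lit 26514185537) (nat_lit 76) (nat_lit 6239879974) (nat_lit 19) (nat_lit 5) (nat_lit 22) (nat_lit 5) (nat_lit 20) (nat_lit 5) (nat_lit 305) (nat_lit 251) (nat_lit 164)) (XT.nd (nat_lit 78) (nat_lit 152) (nat_lit 0) (XT.lf (nat_lit 0) (nat_lit 16569862038) (nat_lit 228) (nat_lit 9378741077) (nat_lit 76) (nat_lit 17641479325) (nat_lit 19) (nat_lit 5) (nat_lit 22) (nat_lit 5) (nat_lit 20) (nat_lit 5) (nat_lit 306) (nat_lit 251) (nat_lit 163)) (XT.lf (nat_lit 0) (nat_lit 8760595429) (nat_lit 152) (nat_lit 15726871194) (nat_lit 228) (nat_lit 20928096937) (nat_lit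 17) (nat_lit 5) (nat_lit 19) (nat_lit 5) (nat_lit 20) (nat_lit 5) (nat_lit 307) (nat_lit 251) (nat_lit 162))))))))
noncomputable def xc73 : XT := (XT.nd (nat_lit 33150) (nat_lit 0) (nat_lit 6612) (XT.nd (nat_lit 780) (nat_lit 456) (nat_lit 0) (XT.nd (nat_lit 390) (nat_lit 76) (nat_lit 0) (XT.nd (nat_lit 156) (nat_lit 304) (nat_lit 0) (XT.nd (nat_lit 78) (nat_lit 0) (nat_lit 0) (XT.lf (nat_lit 0) (nat_lit 27979739027) (nat_lit 152) (nat_lit 4903542681) (nat_lit 228) (nat_lit 14446585167) (nat_lit 17) (nat_lit 5) (nat_lit 19) (nat_lit 5) (nat_lit 20) (nat_lit 5) (nat_lit 308) (nat_lit 251) (nat_lit 161)) (XT.lf (nat_lit 0) (nat_lit 41747373743) (nat_lit 228) (nat_lit 1264539312) (nat_lit 76) (nat_lit 6326534905) (nat_lit 17) (nat_lit 5) (nat_lit 20) (nat_lit 5) (nat_lit 18) (nat_lit 4) (nat_lit 309) (nat_lit 251) (nat_lit 160))) (XT.nd (nat_lit 78) (nat_lit 228) (nat_lit 0) (XT.lf (nat_lit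 0) (nat_lit 18005874387) (nat_lit 76) (nat_lit 33258400274) (nat_lit 152) (nat_lit 176911680) (nat_lit 16) (nat_lit 5) (nat_lit 17) (nat_lit 5) (nat_lit 18) (nat_lit 4) (nat_lit 310) (nat_lit 251) (nat_lit 159)) (XT.nd (nat_lit 78) (nat_lit 152) (nat_lit 0) (XT.lf (nat_lit 0) (nat_lit 7459953716) (nat_lit 152) (nat_lit 15476676103) (nat_lit 76) (nat_lit 30710239388) (nat_lit 15) (nat_lit 5) (nat_lit 17) (nat_lit 5) (nat_lit 16) (nat_lit 5) (nat_lit 311) (nat_lit 251) (nat_lit 158)) (XT.lf (nat_lit 0) (nat_lit 3424960515) (nat_lit 152) (nat_lit 12070911521) (nat_lit 228) (nat_lit 40466299992) (nat_lit 13) (nat_lit 5) (nat_lit 15) (nat_lit 5) (nat_lit 16) (nat_lit 5) (nat_lit 312) (nat_lit 251) (nat_lit 157))))) (XT.nd (nat_lit 156) (nat_lit 76) (nat_lit 0) (XT.nd (nat_lit 78) (nat_lit 0) (nat_lit 0) (XT.lf (nat_lit 0) (nat_lit 23575689933) (nat_lit 152) (nat_lit 505515791) (nat_lit 228) (nat_lit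 34307619415) (nat_lit 13) (nat_lit 5) (nat_lit 15) (nat_lit 5) (nat_lit 16) (nat_lit 5) (nat_lit 313) (nat_lit 251) (nat_lit 156)) (XT.lf (nat_lit 0) (nat_lit 33196466391) (nat_lit 228) (nat_lit 16333486829) (nat_lit 76) (nat_lit 11403850951) (nat_lit 13) (nat_lit 5) (nat_lit 16) (nat_lit 5) (nat_lit 14) (nat_lit 4) (nat_lit 314) (nat_lit 251) (nat_lit 155))) (XT.nd (nat_lit 78) (nat_lit 0) (nat_lit 0) (XT.lf (nat_lit 0) (nat_lit 3107820995) (nat_lit 76) (nat_lit 39683966885) (nat_lit 152) (nat_lit 20813527796) (nat_lit 12) (nat_lit 5) (nat_lit 13) (nat_lit 5) (nat_lit 14) (nat_lit 4) (nat_lit 315) (nat_lit 251) (nat_lit 154)) (XT.nd (nat_lit 78) (nat_lit 0) (nat_lit 0) (XT.lf (nat_lit 0) (nat_lit 23845162697) (nat_lit 76) (nat_lit 29179514503) (nat_lit 152) (nat_lit 13381003363) (nat_lit 12) (nat_lit 5) (nat_lit 13) (nat_lit 5) (nat_lit 14) (nat_lit 4) (nat_lit 316) (nat_lit 251) (nat_lit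 153)) (XT.lf (nat_lit 0) (nat_lit 45602844485) (nat_lit 76) (nat_lit 18156521663) (nat_lit 152) (nat_lit 5587004186) (nat_lit 12) (nat_lit 5) (nat_lit 13) (nat_lit 5) (nat_lit 14) (nat_lit 4) (nat_lit 317) (nat_lit 251) (nat_lit 152)))))) (XT.nd (nat_lit 390) (nat_lit 228) (nat_lit 0) (XT.nd (nat_lit 156) (nat_lit 0) (nat_lit 0) (XT.nd (nat_lit 78) (nat_lit 152) (nat_lit 0) (XT.lf (nat_lit 0) (nat_lit 2536544662) (nat_lit 152) (nat_lit 4026584356) (nat_lit 76) (nat_lit 65870511573) (nat_lit 11) (nat_lit 5) (nat_lit 13) (nat_lit 5) (nat_lit 12) (nat_lit 5) (nat_lit 318) (nat_lit 251) (nat_lit 151)) (XT.lf (nat_lit 0) (nat_lit 11161596844) (nat_lit 228) (nat_lit 58789918905) (nat_lit 76) (nat_lit 5715782841) (nat_lit 9) (nat_lit 5) (nat_lit 12) (nat_lit 5) (nat_lit 10) (nat_lit 4) (nat_lit 319) (nat_lit 251) (nat_lit 150))) (XT.nd (nat_lit 78) (nat_lit 0) (nat_lit 0) (XT.lf (nat_lit 0) (nat_lit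 20317207845) (nat_lit 228) (nat_lit 40232322842) (nat_lit 76) (nat_lit 18510139089) (nat_lit 9) (nat_lit 5) (nat_lit 12) (nat_lit 5) (nat_lit 10) (nat_lit 4) (nat_lit 320) (nat_lit 251) (nat_lit 149)) (XT.nd (nat_lit 78) (nat_lit 0) (nat_lit 0) (XT.lf (nat_lit 0) (nat_lit 29922220756) (nat_lit 228) (nat_lit 20761093554) (nat_lit 76) (nat_lit 31938605593) (nat_lit 9) (nat_lit 5) (nat_lit 12) (nat_lit 5) (nat_lit 10) (nat_lit 4) (nat_lit 321) (nat_lit 251) (nat_lit 148)) (XT.lf (nat_lit 0) (nat_lit 39999504657) (nat_lit 228) (nat_lit 329870972) (nat_lit 76) (nat_lit 46033154890) (nat_lit 9) (nat_lit 5) (nat_lit 12) (nat_lit 5) (nat_lit 10) (nat_lit 4) (nat_lit 322) (nat_lit 251) (nat_lit 147))))) (XT.nd (nat_lit 234) (nat_lit 152) (nat_lit 0) (XT.nd (nat_lit 78) (nat_lit 0) (nat_lit 0) (XT.lf (nat_lit 0) (nat_lit 21530120879) (nat_lit 76) (nat_lit 29249892894) (nat_lit 152) (nat_lit 39504185245)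 (nat_lit 8) (nat_lit 5) (nat_lit 9) (nat_lit 5) (nat_lit 10) (nat_lit 4) (nat_lit 323) (nat_lit 251) (nat_lit 146)) (XT.nd (nat_lit 78) (nat_lit 0) (nat_lit 0) (XT.lf (nat_lit 0) (nat_lit 44477453999) (nat_lit 76) (nat_lit 17618131638) (nat_lit 152) (nat_lit 32306491980) (nat_lit 8) (nat_lit 5) (nat_lit 9) (nat_lit 5) (nat_lit 10) (nat_lit 4) (nat_lit 324) (nat_lit 251) (nat_lit 145)) (XT.lf (nat_lit 0) (nat_lit 68560199815) (nat_lit 76) (nat_lit 5409728244) (nat_lit 152) (nat_lit 24756139751) (nat_lit 8) (nat_lit 5) (nat_lit 9) (nat_lit 5) (nat_lit 10) (nat_lit 4) (nat_lit 325) (nat_lit 251) (nat_lit 144)))) (XT.nd (nat_lit 78) (nat_lit 152) (nat_lit 0) (XT.lf (nat_lit 0) (nat_lit 86502488760) (nat_lit 152) (nat_lit 9501942092) (nat_lit 0) (nat_lit 7259898696) (nat_lit 8) (nat_lit 5) (nat_lit 10) (nat_lit 4) (nat_lit 8) (nat_lit 4) (nat_lit 326) (nat_lit 251) (nat_lit 143)) (XT.nd (nat_lit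 78) (nat_lit 76) (nat_lit 0) (XT.lf (nat_lit 0) (nat_lit 12370983966) (nat_lit 76) (nat_lit 87457813074) (nat_lit 76) (nat_lit 8195700477) (nat_lit 7) (nat_lit 4) (nat_lit 8) (nat_lit 5) (nat_lit 8) (nat_lit 4) (nat_lit 327) (nat_lit 251) (nat_lit 142)) (XT.lf (nat_lit 0) (nat_lit 875677784) (nat_lit 152) (nat_lit 77503079582) (nat_lit 76) (nat_lit 34640916882) (nat_lit 6) (nat_lit 5) (nat_lit 8) (nat_lit 5) (nat_lit 7) (nat_lit 4) (nat_lit 328) (nat_lit 251) (nat_lit 141))))))) (XT.nd (nat_lit 858) (nat_lit 5092) (nat_lit 0) (XT.nd (nat_lit 390) (nat_lit 760) (nat_lit 0) (XT.nd (nat_lit 156) (nat_lit 836) (nat_lit 0) (XT.nd (nat_lit 78) (nat_lit 0) (nat_lit 0) (XT.lf (nat_lit 0) (nat_lit 766521662) (nat_lit 0) (nat_lit 766521662) (nat_lit 836) (nat_lit 2554501784) (nat_lit 181) (nat_lit 5) (nat_lit 181) (nat_lit 3) (nat_lit 192) (nat_lit 3) (nat_lit 252) (nat_lit 252) (nat_lit 216)) (XT.lf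 (nat_lit 0) (nat_lit 4846946087) (nat_lit 836) (nat_lit 1009394166) (nat_lit 912) (nat_lit 2466819838) (nat_lit 181) (nat_lit 5) (nat_lit 192) (nat_lit 3) (nat_lit 193) (nat_lit 5) (nat_lit 253) (nat_lit 252) (nat_lit 215))) (XT.nd (nat_lit 78) (nat_lit 836) (nat_lit 0) (XT.lf (nat_lit 76) (nat_lit 4927729538) (nat_lit 0) (nat_lit 1744935127) (nat_lit 912) (nat_lit 1807625965) (nat_lit 182) (nat_lit 5) (nat_lit 181) (nat_lit 5) (nat_lit 193) (nat_lit 5) (nat_lit 254) (nat_lit 252) (nat_lit 214)) (XT.nd (nat_lit 78) (nat_lit 912) (nat_lit 0) (XT.lf (nat_lit 76) (nat_lit 2501806459) (nat_lit 0) (nat_lit 6045105002) (nat_lit 912) (nat_lit 99964832) (nat_lit 183) (nat_lit 5) (nat_lit 182) (nat_lit 5) (nat_lit 194) (nat_lit 5) (nat_lit 255) (nat_lit 252) (nat_lit 213)) (XT.lf (nat_lit 76) (nat_lit 17973703) (nat_lit 0) (nat_lit 1597795959) (nat_lit 988) (nat_lit 7207153543) (nat_lit 171) (nat_lit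 5) (nat_lit 170) (nat_lit 5) (nat_lit 183) (nat_lit 5) (nat_lit 256) (nat_lit 252) (nat_lit 212))))) (XT.nd (nat_lit 234) (nat_lit 836) (nat_lit 0) (XT.nd (nat_lit 78) (nat_lit 0) (nat_lit 0) (XT.lf (nat_lit 0) (nat_lit 3414161275) (nat_lit 912) (nat_lit 2481753280) (nat_lit 988) (nat_lit 3112138235) (nat_lit 171) (nat_lit 5) (nat_lit 183) (nat_lit 5) (nat_lit 184) (nat_lit 5) (nat_lit 257) (nat_lit 252) (nat_lit 211)) (XT.nd (nat_lit 78) (nat_lit 0) (nat_lit 76) (XT.lf (nat_lit 76) (nat_lit 4163387251) (nat_lit 0) (nat_lit 1105238358) (nat_lit 988) (nat_lit 3935093560) (nat_lit 172) (nat_lit 5) (nat_lit 171) (nat_lit 5) (nat_lit 184) (nat_lit 5) (nat_lit 258) (nat_lit 252) (nat_lit 210)) (XT.lf (nat_lit 76) (nat_lit 1719060646) (nat_lit 0) (nat_lit 5490818709) (nat_lit 988) (nat_lit 2199719821) (nat_lit 173) (nat_lit 5) (nat_lit 172) (nat_lit 5) (nat_lit 185) (nat_lit 5) (nat_lit 259) (nat_lit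 252) (nat_lit 209)))) (XT.nd (nat_lit 78) (nat_lit 912) (nat_lit 0) (XT.lf (nat_lit 76) (nat_lit 8851368814) (nat_lit 0) (nat_lit 377298198) (nat_lit 988) (nat_lit 397932316) (nat_lit 173) (nat_lit 5) (nat_lit 172) (nat_lit 5) (nat_lit 185) (nat_lit 5) (nat_lit 260) (nat_lit 252) (nat_lit 208)) (XT.nd (nat_lit 78) (nat_lit 0) (nat_lit 76) (XT.lf (nat_lit 0) (nat_lit 1497090669) (nat_lit 988) (nat_lit 3362574493) (nat_lit 1064) (nat_lit 4993606727) (nat_lit 160) (nat_lit 5) (nat_lit 173) (nat_lit 5) (nat_lit 174) (nat_lit 5) (nat_lit 261) (nat_lit 252) (nat_lit 207)) (XT.lf (nat_lit 0) (nat_lit 3459286710) (nat_lit 988) (nat_lit 6040607651) (nat_lit 76) (nat_lit 592057562) (nat_lit 161) (nat_lit 5) (nat_lit 174) (nat_lit 5) (nat_lit 162) (nat_lit 5) (nat_lit 262) (nat_lit 252) (nat_lit 206)))))) (XT.nd (nat_lit 390) (nat_lit 1900) (nat_lit 0) (XT.nd (nat_lit 156) (nat_lit 2280) (nat_lit 0)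 (XT.nd (nat_lit 78) (nat_lit 0) (nat_lit 0) (XT.lf (nat_lit 0) (nat_lit 1484392134) (nat_lit 988) (nat_lit 4060601711) (nat_lit 1064) (nat_lit 4797011591) (nat_lit 148) (nat_lit 5) (nat_lit 161) (nat_lit 5) (nat_lit 162) (nat_lit 5) (nat_lit 263) (nat_lit 252) (nat_lit 205)) (XT.lf (nat_lit 0) (nat_lit 7743801564) (nat_lit 1064) (nat_lit 1167874458) (nat_lit 76) (nat_lit 1692813069) (nat_lit 148) (nat_lit 5) (nat_lit 162) (nat_lit 5) (nat_lit 149) (nat_lit 5) (nat_lit 264) (nat_lit 252) (nat_lit 204))) (XT.nd (nat_lit 78) (nat_lit 1216) (nat_lit 0) (XT.lf (nat_lit 0) (nat_lit 6943168756) (nat_lit 1064) (nat_lit 3150583456) (nat_lit 1140) (nat_lit 785291423) (nat_lit 134) (nat_lit 5) (nat_lit 148) (nat_lit 5) (nat_lit 149) (nat_lit 5) (nat_lit 265) (nat_lit 252) (nat_lit 203)) (XT.nd (nat_lit 78) (nat_lit 532) (nat_lit 0) (XT.lf (nat_lit 0) (nat_lit 1384344602) (nat_lit 684) (nat_lit 6865311285)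 (nat_lit 76) (nat_lit 2916906977) (nat_lit 125) (nat_lit 5) (nat_lit 134) (nat_lit 5) (nat_lit 126) (nat_lit 5) (nat_lit 266) (nat_lit 252) (nat_lit 202)) (XT.lf (nat_lit 0) (nat_lit 1496387311) (nat_lit 532) (nat_lit 2174992996) (nat_lit 608) (nat_lit 7796250685) (nat_lit 118) (nat_lit 5) (nat_lit 125) (nat_lit 5) (nat_lit 126) (nat_lit 5) (nat_lit 267) (nat_lit 252) (nat_lit 201))))) (XT.nd (nat_lit 234) (nat_lit 912) (nat_lit 0) (XT.nd (nat_lit 78) (nat_lit 988) (nat_lit 0) (XT.lf (nat_lit 0) (nat_lit 6124900930) (nat_lit 608) (nat_lit 1461343812) (nat_lit 76) (nat_lit 4196097085) (nat_lit 118) (nat_lit 5) (nat_lit 126) (nat_lit 5) (nat_lit 119) (nat_lit 5) (nat_lit 268) (nat_lit 252) (nat_lit 200)) (XT.nd (nat_lit 78) (nat_lit 456) (nat_lit 0) (XT.lf (nat_lit 0) (nat_lit 7543837474) (nat_lit 532) (nat_lit 1194924444) (nat_lit 608) (nat_lit 3373042355) (nat_lit 111) (nat_lit 5) (nat_lit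 118) (nat_lit 5) (nat_lit 119) (nat_lit 5) (nat_lit 269) (nat_lit 252) (nat_lit 199)) (XT.lf (nat_lit 0) (nat_lit 4552528593) (nat_lit 456) (nat_lit 6988153824) (nat_lit 532) (nat_lit 915475472) (nat_lit 105) (nat_lit 5) (nat_lit 111) (nat_lit 5) (nat_lit 112) (nat_lit 5) (nat_lit 270) (nat_lit 252) (nat_lit 198)))) (XT.nd (nat_lit 78) (nat_lit 380) (nat_lit 0) (XT.lf (nat_lit 0) (nat_lit 1350760249) (nat_lit 456) (nat_lit 301074318) (nat_lit 532) (nat_lit 11164962412) (nat_lit 98) (nat_lit 5) (nat_lit 104) (nat_lit 5) (nat_lit 105) (nat_lit 5) (nat_lit 271) (nat_lit 252) (nat_lit 197)) (XT.nd (nat_lit 78) (nat_lit 380) (nat_lit 0) (XT.lf (nat_lit 0) (nat_lit 4424332265) (nat_lit 532) (nat_lit 2089944903) (nat_lit 76) (nat_lit 6678168708) (nat_lit 98) (nat_lit 5) (nat_lit 105) (nat_lit 5) (nat_lit 99) (nat_lit 5) (nat_lit 272) (nat_lit 252) (nat_lit 196)) (XT.lf (nat_lit 0) (nat_lit 7369910560)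 (nat_lit 456) (nat_lit 5738311854) (nat_lit 76) (nat_lit 477737746) (nat_lit 93) (nat_lit 5) (nat_lit 99) (nat_lit 5) (nat_lit 94) (nat_lit 5) (nat_lit 273) (nat_lit 252) (nat_lit 195))))))))
noncomputable def xc74 : XT := (XT.nd (nat_lit 1638) (nat_lit 1596) (nat_lit 0) (XT.nd (nat_lit 780) (nat_lit 1824) (nat_lit 0) (XT.nd (nat_lit 390) (nat_lit 1064) (nat_lit 0) (XT.nd (nat_lit 156) (nat_lit 760) (nat_lit 0) (XT.nd (nat_lit 78) (nat_lit 380) (nat_lit 0) (XT.lf (nat_lit 0) (nat_lit 4292449793) (nat_lit 456) (nat_lit 6252096241) (nat_lit 532) (nat_lit 3452261835) (nat_lit 87) (nat_lit 5) (nat_lit 93) (nat_lit 5) (nat_lit 94) (nat_lit 5) (nat_lit 274) (nat_lit 252) (nat_lit 194)) (XT.lf (nat_lit 0) (nat_lit 465091855) (nat_lit 380) (nat_lit 13440776640) (nat_lit 456) (nat_lit 521596585) (nat_lit 82) (nat_lit 5) (nat_lit 87) (nat_lit 5) (nat_lit 88) (nat_lit 5) (nat_lit 275) (nat_lit 252)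 (nat_lit 193))) (XT.nd (nat_lit 78) (nat_lit 684) (nat_lit 0) (XT.lf (nat_lit 0) (nat_lit 2625585720) (nat_lit 456) (nat_lit 3671515600) (nat_lit 76) (nat_lit 8578319068) (nat_lit 81) (nat_lit 5) (nat_lit 87) (nat_lit 5) (nat_lit 82) (nat_lit 5) (nat_lit 276) (nat_lit 252) (nat_lit 192)) (XT.nd (nat_lit 78) (nat_lit 304) (nat_lit 0) (XT.lf (nat_lit 0) (nat_lit 5959045163) (nat_lit 456) (nat_lit 8137146825) (nat_lit 76) (nat_lit 1248328522) (nat_lit 76) (nat_lit 5) (nat_lit 82) (nat_lit 5) (nat_lit 77) (nat_lit 5) (nat_lit 277) (nat_lit 252) (nat_lit 191)) (XT.lf (nat_lit 0) (nat_lit 2812601670) (nat_lit 304) (nat_lit 6734769636) (nat_lit 380) (nat_lit 6287147231) (nat_lit 72) (nat_lit 5) (nat_lit 76) (nat_lit 5) (nat_lit 77) (nat_lit 5) (nat_lit 278) (nat_lit 252) (nat_lit 190))))) (XT.nd (nat_lit 156) (nat_lit 608) (nat_lit 0) (XT.nd (nat_lit 78) (nat_lit 456) (nat_lit 0) (XT.lf (nat_lit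 0) (nat_lit 13370086019) (nat_lit 380) (nat_lit 1926112508) (nat_lit 76) (nat_lit 1051253252) (nat_lit 72) (nat_lit 5) (nat_lit 77) (nat_lit 5) (nat_lit 73) (nat_lit 5) (nat_lit 279) (nat_lit 252) (nat_lit 189)) (XT.lf (nat_lit 0) (nat_lit 614217347) (nat_lit 456) (nat_lit 7087388324) (nat_lit 76) (nat_lit 9180579691) (nat_lit 66) (nat_lit 5) (nat_lit 72) (nat_lit 5) (nat_lit 67) (nat_lit 5) (nat_lit 280) (nat_lit 252) (nat_lit 188))) (XT.nd (nat_lit 78) (nat_lit 304) (nat_lit 0) (XT.lf (nat_lit 0) (nat_lit 4356780824) (nat_lit 380) (nat_lit 12730960522) (nat_lit 76) (nat_lit 354114979) (nat_lit 62) (nat_lit 5) (nat_lit 67) (nat_lit 5) (nat_lit 63) (nat_lit 5) (nat_lit 281) (nat_lit 252) (nat_lit 187)) (XT.nd (nat_lit 78) (nat_lit 304) (nat_lit 0) (XT.lf (nat_lit 0) (nat_lit 8402686798) (nat_lit 380) (nat_lit 904502459) (nat_lit 76) (nat_lit 8718906004) (nat_lit 62) (nat_lit 5) (nat_lit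 67) (nat_lit 5) (nat_lit 63) (nat_lit 5) (nat_lit 282) (nat_lit 252) (nat_lit 186)) (XT.lf (nat_lit 0) (nat_lit 11697808164) (nat_lit 304) (nat_lit 1032001996) (nat_lit 380) (nat_lit 5907435801) (nat_lit 58) (nat_lit 5) (nat_lit 62) (nat_lit 5) (nat_lit 63) (nat_lit 5) (nat_lit 283) (nat_lit 252) (nat_lit 185)))))) (XT.nd (nat_lit 390) (nat_lit 988) (nat_lit 0) (XT.nd (nat_lit 156) (nat_lit 532) (nat_lit 0) (XT.nd (nat_lit 78) (nat_lit 76) (nat_lit 0) (XT.lf (nat_lit 0) (nat_lit 5663868104) (nat_lit 228) (nat_lit 11714438724) (nat_lit 304) (nat_lit 1897561121) (nat_lit 55) (nat_lit 5) (nat_lit 58) (nat_lit 5) (nat_lit 59) (nat_lit 5) (nat_lit 284) (nat_lit 252) (nat_lit 184)) (XT.lf (nat_lit 0) (nat_lit 2318570296) (nat_lit 304) (nat_lit 978145307) (nat_lit 76) (nat_lit 16647571069) (nat_lit 54) (nat_lit 5) (nat_lit 58) (nat_lit 5) (nat_lit 55) (nat_lit 5) (nat_lit 285) (nat_lit 252) (nat_lit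 183))) (XT.nd (nat_lit 78) (nat_lit 228) (nat_lit 0) (XT.lf (nat_lit 0) (nat_lit 6850894539) (nat_lit 380) (nat_lit 8226687298) (nat_lit 76) (nat_lit 5563698533) (nat_lit 50) (nat_lit 5) (nat_lit 55) (nat_lit 5) (nat_lit 51) (nat_lit 5) (nat_lit 286) (nat_lit 252) (nat_lit 182)) (XT.nd (nat_lit 78) (nat_lit 0) (nat_lit 0) (XT.lf (nat_lit 0) (nat_lit 5151253338) (nat_lit 228) (nat_lit 6522338614) (nat_lit 304) (nat_lit 9697672993) (nat_lit 47) (nat_lit 5) (nat_lit 50) (nat_lit 5) (nat_lit 51) (nat_lit 5) (nat_lit 287) (nat_lit 252) (nat_lit 181)) (XT.lf (nat_lit 0) (nat_lit 16818304926) (nat_lit 304) (nat_lit 2829804234) (nat_lit 76) (nat_lit 2487264500) (nat_lit 47) (nat_lit 5) (nat_lit 51) (nat_lit 5) (nat_lit 48) (nat_lit 5) (nat_lit 288) (nat_lit 252) (nat_lit 180))))) (XT.nd (nat_lit 234) (nat_lit 456) (nat_lit 0) (XT.nd (nat_lit 78) (nat_lit 304) (nat_lit 0) (XT.lf (nat_lit 0) (nat_lit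 11347310054) (nat_lit 228) (nat_lit 11020902124) (nat_lit 304) (nat_lit 565085763) (nat_lit 44) (nat_lit 5) (nat_lit 47) (nat_lit 5) (nat_lit 48) (nat_lit 5) (nat_lit 289) (nat_lit 252) (nat_lit 179)) (XT.nd (nat_lit 78) (nat_lit 0) (nat_lit 0) (XT.lf (nat_lit 0) (nat_lit 2490271906) (nat_lit 228) (nat_lit 1874916530) (nat_lit 304) (nat_lit 19403888377) (nat_lit 40) (nat_lit 5) (nat_lit 43) (nat_lit 5) (nat_lit 44) (nat_lit 5) (nat_lit 290) (nat_lit 252) (nat_lit 178)) (XT.lf (nat_lit 0) (nat_lit 9699604054) (nat_lit 304) (nat_lit 7249074615) (nat_lit 76) (nat_lit 7692761728) (nat_lit 40) (nat_lit 5) (nat_lit 44) (nat_lit 5) (nat_lit 41) (nat_lit 5) (nat_lit 291) (nat_lit 252) (nat_lit 177)))) (XT.nd (nat_lit 78) (nat_lit 228) (nat_lit 0) (XT.lf (nat_lit 0) (nat_lit 7575528280) (nat_lit 228) (nat_lit 7792640308) (nat_lit 304) (nat_lit 10187271729) (nat_lit 37) (nat_lit 5) (nat_lit 40) (nat_lit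 5) (nat_lit 41) (nat_lit 5) (nat_lit 292) (nat_lit 252) (nat_lit 176)) (XT.nd (nat_lit 78) (nat_lit 228) (nat_lit 0) (XT.lf (nat_lit 0) (nat_lit 21389433545) (nat_lit 304) (nat_lit 3273436873) (nat_lit 76) (nat_lit 1850230698) (nat_lit 37) (nat_lit 5) (nat_lit 41) (nat_lit 5) (nat_lit 38) (nat_lit 5) (nat_lit 293) (nat_lit 252) (nat_lit 175)) (XT.lf (nat_lit 0) (nat_lit 365417610) (nat_lit 228) (nat_lit 15220843840) (nat_lit 76) (nat_lit 11927081846) (nat_lit 34) (nat_lit 5) (nat_lit 37) (nat_lit 5) (nat_lit 35) (nat_lit 5) (nat_lit 294) (nat_lit 252) (nat_lit 174))))))) (XT.nd (nat_lit 780) (nat_lit 684) (nat_lit 0) (XT.nd (nat_lit 390) (nat_lit 380) (nat_lit 0) (XT.nd (nat_lit 156) (nat_lit 304) (nat_lit 0) (XT.nd (nat_lit 78) (nat_lit 0) (nat_lit 0) (XT.lf (nat_lit 0) (nat_lit 58673151) (nat_lit 228) (nat_lit 5977934014) (nat_lit 304) (nat_lit 22525094461) (nat_lit 31) (nat_lit 5) (nat_lit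 34) (nat_lit 5) (nat_lit 35) (nat_lit 5) (nat_lit 295) (nat_lit 252) (nat_lit 173)) (XT.lf (nat_lit 0) (nat_lit 12167778104) (nat_lit 304) (nat_lit 13311202743) (nat_lit 76) (nat_lit 4178237119) (nat_lit 31) (nat_lit 5) (nat_lit 35) (nat_lit 5) (nat_lit 32) (nat_lit 5) (nat_lit 296) (nat_lit 252) (nat_lit 172))) (XT.nd (nat_lit 78) (nat_lit 152) (nat_lit 0) (XT.lf (nat_lit 0) (nat_lit 2599561169) (nat_lit 152) (nat_lit 16070957243) (nat_lit 228) (nat_lit 12135072576) (nat_lit 29) (nat_lit 5) (nat_lit 31) (nat_lit 5) (nat_lit 32) (nat_lit 5) (nat_lit 297) (nat_lit 252) (nat_lit 171)) (XT.nd (nat_lit 78) (nat_lit 152) (nat_lit 0) (XT.lf (nat_lit 0) (nat_lit 19553874939) (nat_lit 152) (nat_lit 6061910902) (nat_lit 228) (nat_lit 6392104822) (nat_lit 29) (nat_lit 5) (nat_lit 31) (nat_lit 5) (nat_lit 32) (nat_lit 5) (nat_lit 298) (nat_lit 252) (nat_lit 170)) (XT.lf (nat_lit 0) (nat_lit 4093514835)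 (nat_lit 152) (nat_lit 28878105948) (nat_lit 228) (nat_lit 296813706) (nat_lit 27) (nat_lit 5) (nat_lit 29) (nat_lit 5) (nat_lit 30) (nat_lit 5) (nat_lit 299) (nat_lit 252) (nat_lit 169))))) (XT.nd (nat_lit 156) (nat_lit 152) (nat_lit 0) (XT.nd (nat_lit 78) (nat_lit 152) (nat_lit 0) (XT.lf (nat_lit 0) (nat_lit 6156420380) (nat_lit 228) (nat_lit 13009372167) (nat_lit 76) (nat_lit 15419310835) (nat_lit 26) (nat_lit 5) (nat_lit 29) (nat_lit 5) (nat_lit 27) (nat_lit 5) (nat_lit 300) (nat_lit 252) (nat_lit 168)) (XT.lf (nat_lit 0) (nat_lit 4012356981) (nat_lit 152) (nat_lit 8934940130) (nat_lit 228) (nat_lit 23019611772) (nat_lit 24) (nat_lit 5) (nat_lit 26) (nat_lit 5) (nat_lit 27) (nat_lit 5) (nat_lit 301) (nat_lit 252) (nat_lit 167))) (XT.nd (nat_lit 78) (nat_lit 152) (nat_lit 0) (XT.lf (nat_lit 0) (nat_lit 20213316004) (nat_lit 228) (nat_lit 15302505845) (nat_lit 76) (nat_lit 1897938589)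 (nat_lit 24) (nat_lit 5) (nat_lit 27) (nat_lit 5) (nat_lit 25) (nat_lit 5) (nat_lit 302) (nat_lit 252) (nat_lit 166)) (XT.nd (nat_lit 78) (nat_lit 0) (nat_lit 0) (XT.lf (nat_lit 0) (nat_lit 2107320765) (nat_lit 152) (nat_lit 25829543031) (nat_lit 228) (nat_lit 10993286531) (nat_lit 22) (nat_lit 5) (nat_lit 24) (nat_lit 5) (nat_lit 25) (nat_lit 5) (nat_lit 303) (nat_lit 252) (nat_lit 165)) (XT.lf (nat_lit 0) (nat_lit 20682393844) (nat_lit 152) (nat_lit 15506040957) (nat_lit 228) (nat_lit 4329691057) (nat_lit 22) (nat_lit 5) (nat_lit 24) (nat_lit 5) (nat_lit 25) (nat_lit 5) (nat_lit 304) (nat_lit 252) (nat_lit 164)))))) (XT.nd (nat_lit 390) (nat_lit 304) (nat_lit 0) (XT.nd (nat_lit 156) (nat_lit 152) (nat_lit 0) (XT.nd (nat_lit 78) (nat_lit 152) (nat_lit 0) (XT.lf (nat_lit 0) (nat_lit 2599938514) (nat_lit 228) (nat_lit 2049068370) (nat_lit 76) (nat_lit 37536197088) (nat_lit 21) (nat_lit 5)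 (nat_lit 24) (nat_lit 5) (nat_lit 22) (nat_lit 5) (nat_lit 305) (nat_lit 252) (nat_lit 163)) (XT.lf (nat_lit 0) (nat_lit 10002161200) (nat_lit 228) (nat_lit 27106947883) (nat_lit 76) (nat_lit 6818790124) (nat_lit 19) (nat_lit 5) (nat_lit 22) (nat_lit 5) (nat_lit 20) (nat_lit 5) (nat_lit 306) (nat_lit 252) (nat_lit 162))) (XT.nd (nat_lit 78) (nat_lit 152) (nat_lit 0) (XT.lf (nat_lit 0) (nat_lit 17828727689) (nat_lit 228) (nat_lit 9149633435) (nat_lit 76) (nat_lit 18777759149) (nat_lit 19) (nat_lit 5) (nat_lit 22) (nat_lit 5) (nat_lit 20) (nat_lit 5) (nat_lit 307) (nat_lit 252) (nat_lit 161)) (XT.nd (nat_lit 78) (nat_lit 0) (nat_lit 0) (XT.lf (nat_lit 0) (nat_lit 9876660585) (nat_lit 152) (nat_lit 16251575677) (nat_lit 228) (nat_lit 21545084907) (nat_lit 17) (nat_lit 5) (nat_lit 19) (nat_lit 5) (nat_lit 20) (nat_lit 5) (nat_lit 308) (nat_lit 252) (nat_lit 160)) (XT.lf (nat_lit 0) (nat_lit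 30024473964) (nat_lit 152) (nat_lit 4899539743) (nat_lit 228) (nat_lit 14759945971) (nat_lit 17) (nat_lit 5) (nat_lit 19) (nat_lit 5) (nat_lit 20) (nat_lit 5) (nat_lit 309) (nat_lit 252) (nat_lit 159))))) (XT.nd (nat_lit 234) (nat_lit 152) (nat_lit 0) (XT.nd (nat_lit 78) (nat_lit 152) (nat_lit 0) (XT.lf (nat_lit 0) (nat_lit 44214707367) (nat_lit 228) (nat_lit 703239368) (nat_lit 76) (nat_lit 6875545147) (nat_lit 17) (nat_lit 5) (nat_lit 20) (nat_lit 5) (nat_lit 18) (nat_lit 4) (nat_lit 310) (nat_lit 252) (nat_lit 158)) (XT.nd (nat_lit 78) (nat_lit 0) (nat_lit 0) (XT.lf (nat_lit 0) (nat_lit 189658548) (nat_lit 152) (nat_lit 34490824208) (nat_lit 76) (nat_lit 19321219350) (nat_lit 15) (nat_lit 5) (nat_lit 17) (nat_lit 5) (nat_lit 16) (nat_lit 5) (nat_lit 311) (nat_lit 252) (nat_lit 157)) (XT.lf (nat_lit 0) (nat_lit 8187038087) (nat_lit 152) (nat_lit 15665302544) (nat_lit 76) (nat_lit 32465827158)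 (nat_lit 15) (nat_lit 5) (nat_lit 17) (nat_lit 5) (nat_lit 16) (nat_lit 5) (nat_lit 312) (nat_lit 252) (nat_lit 156)))) (XT.nd (nat_lit 78) (nat_lit 0) (nat_lit 0) (XT.lf (nat_lit 0) (nat_lit 4164641053) (nat_lit 152) (nat_lit 12448714121) (nat_lit 228) (nat_lit 42136242601) (nat_lit 13) (nat_lit 5) (nat_lit 15) (nat_lit 5) (nat_lit 16) (nat_lit 5) (nat_lit 313) (nat_lit 252) (nat_lit 155)) (XT.nd (nat_lit 78) (nat_lit 0) (nat_lit 0) (XT.lf (nat_lit 0) (nat_lit 25295838727) (nat_lit 152) (nat_lit 315798270) (nat_lit 228) (nat_lit 35686455251) (nat_lit 13) (nat_lit 5) (nat_lit 15) (nat_lit 5) (nat_lit 16) (nat_lit 5) (nat_lit 314) (nat_lit 252) (nat_lit 154)) (XT.lf (nat_lit 0) (nat_lit 35169087458) (nat_lit 228) (nat_lit 16626854697) (nat_lit 76) (nat_lit 12174803514) (nat_lit 13) (nat_lit 5) (nat_lit 16) (nat_lit 5) (nat_lit 14) (nat_lit 4) (nat_lit 315) (nat_lit 252) (nat_lit 153))))))))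
noncomputable def xc75 : XT := (XT.nd (nat_lit 33228) (nat_lit 0) (nat_lit 4180) (XT.nd (nat_lit 780) (nat_lit 76) (nat_lit 0) (XT.nd (nat_lit 390) (nat_lit 76) (nat_lit 0) (XT.nd (nat_lit 156) (nat_lit 228) (nat_lit 0) (XT.nd (nat_lit 78) (nat_lit 0) (nat_lit 0) (XT.lf (nat_lit 0) (nat_lit 3771518043) (nat_lit 76) (nat_lit 41462647995) (nat_lit 152) (nat_lit 21541984350) (nat_lit 12) (nat_lit 5) (nat_lit 13) (nat_lit 5) (nat_lit 14) (nat_lit 4) (nat_lit 316) (nat_lit 252) (nat_lit 152)) (XT.lf (nat_lit 0) (nat_lit 25521521783) (nat_lit 76) (nat_lit 30442759528) (nat_lit 152) (nat_lit 13752701307) (nat_lit 12) (nat_lit 5) (nat_lit 13) (nat_lit 5) (nat_lit 14) (nat_lit 4) (nat_lit 317) (nat_lit 252) (nat_lit 151))) (XT.nd (nat_lit 78) (nat_lit 228) (nat_lit 0) (XT.lf (nat_lit 0) (nat_lit 48344035234) (nat_lit 76) (nat_lit 18877937556) (nat_lit 152) (nat_lit 5583161801) (nat_lit 12) (nat_lit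 5) (nat_lit 13) (nat_lit 5) (nat_lit 14) (nat_lit 4) (nat_lit 318) (nat_lit 252) (nat_lit 150)) (XT.nd (nat_lit 78) (nat_lit 152) (nat_lit 0) (XT.lf (nat_lit 0) (nat_lit 2927816169) (nat_lit 152) (nat_lit 3783265417) (nat_lit 76) (nat_lit 69336016343) (nat_lit 11) (nat_lit 5) (nat_lit 13) (nat_lit 5) (nat_lit 12) (nat_lit 5) (nat_lit 319) (nat_lit 252) (nat_lit 149)) (XT.lf (nat_lit 0) (nat_lit 11977370933) (nat_lit 228) (nat_lit 61291245702) (nat_lit 76) (nat_lit 6174038568) (nat_lit 9) (nat_lit 5) (nat_lit 12) (nat_lit 5) (nat_lit 10) (nat_lit 4) (nat_lit 320) (nat_lit 252) (nat_lit 148))))) (XT.nd (nat_lit 156) (nat_lit 76) (nat_lit 0) (XT.nd (nat_lit 78) (nat_lit 0) (nat_lit 0) (XT.lf (nat_lit 0) (nat_lit 21578491330) (nat_lit 228) (nat_lit 41826635034) (nat_lit 76) (nat_lit 19599899934) (nat_lit 9) (nat_lit 5) (nat_lit 12) (nat_lit 5) (nat_lit 10) (nat_lit 4) (nat_lit 321) (nat_lit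 252) (nat_lit 147)) (XT.lf (nat_lit 0) (nat_lit 31652068073) (nat_lit 228) (nat_lit 21401715898) (nat_lit 76) (nat_lit 33691968148) (nat_lit 9) (nat_lit 5) (nat_lit 12) (nat_lit 5) (nat_lit 10) (nat_lit 4) (nat_lit 322) (nat_lit 252) (nat_lit 146))) (XT.nd (nat_lit 78) (nat_lit 0) (nat_lit 0) (XT.lf (nat_lit 0) (nat_lit 32782161) (nat_lit 76) (nat_lit 42189618831) (nat_lit 152) (nat_lit 48451328715) (nat_lit 8) (nat_lit 5) (nat_lit 9) (nat_lit 5) (nat_lit 10) (nat_lit 4) (nat_lit 323) (nat_lit 252) (nat_lit 145)) (XT.nd (nat_lit 78) (nat_lit 0) (nat_lit 0) (XT.lf (nat_lit 0) (nat_lit 22974284081) (nat_lit 76) (nat_lit 30560270221) (nat_lit 152) (nat_lit 41257160181) (nat_lit 8) (nat_lit 5) (nat_lit 9) (nat_lit 5) (nat_lit 10) (nat_lit 4) (nat_lit 324) (nat_lit 252) (nat_lit 144)) (XT.lf (nat_lit 0) (nat_lit 47051476373) (nat_lit 76) (nat_lit 18354164585) (nat_lit 152) (nat_lit 33710164839)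 (nat_lit 8) (nat_lit 5) (nat_lit 9) (nat_lit 5) (nat_lit 10) (nat_lit 4) (nat_lit 325) (nat_lit 252) (nat_lit 143)))))) (XT.nd (nat_lit 31980) (nat_lit 0) (nat_lit 11552) (XT.nd (nat_lit 156) (nat_lit 76) (nat_lit 0) (XT.nd (nat_lit 78) (nat_lit 0) (nat_lit 0) (XT.lf (nat_lit 0) (nat_lit 72321685686) (nat_lit 76) (nat_lit 5542239766) (nat_lit 152) (nat_lit 25792373653) (nat_lit 8) (nat_lit 5) (nat_lit 9) (nat_lit 5) (nat_lit 10) (nat_lit 4) (nat_lit 326) (nat_lit 252) (nat_lit 142)) (XT.lf (nat_lit 0) (nat_lit 91015067758) (nat_lit 152) (nat_lit 9654923313) (nat_lit 0) (nat_lit 7751734110) (nat_lit 8) (nat_lit 5) (nat_lit 10) (nat_lit 4) (nat_lit 8) (nat_lit 4) (nat_lit 327) (nat_lit 252) (nat_lit 141))) (XT.nd (nat_lit 31668) (nat_lit 0) (nat_lit 13224) (XT.lf (nat_lit 0) (nat_lit 13302415660) (nat_lit 76) (nat_lit 91699357002) (nat_lit 76) (nat_lit 8418315842) (nat_lit 7) (nat_lit 4) (nat_lit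 8) (nat_lit 5) (nat_lit 8) (nat_lit 4) (nat_lit 328) (nat_lit 252) (nat_lit 140)) (XT.nd (nat_lit 78) (nat_lit 0) (nat_lit 0) (XT.lf (nat_lit 0) (nat_lit 1631744195) (nat_lit 0) (nat_lit 1631744195) (nat_lit 836) (nat_lit 973719914) (nat_lit 181) (nat_lit 5) (nat_lit 181) (nat_lit 3) (nat_lit 192) (nat_lit 3) (nat_lit 253) (nat_lit 253) (nat_lit 214)) (XT.lf (nat_lit 76) (nat_lit 647162975) (nat_lit 0) (nat_lit 7583292798) (nat_lit 912) (nat_lit 404912644) (nat_lit 182) (nat_lit 5) (nat_lit 181) (nat_lit 5) (nat_lit 193) (nat_lit 5) (nat_lit 254) (nat_lit 253) (nat_lit 213))))) (XT.nd (nat_lit 234) (nat_lit 760) (nat_lit 0) (XT.nd (nat_lit 78) (nat_lit 0) (nat_lit 76) (XT.lf (nat_lit 0) (nat_lit 1179298205) (nat_lit 912) (nat_lit 1996625540) (nat_lit 988) (nat_lit 5628737990) (nat_lit 169) (nat_lit 5) (nat_lit 181) (nat_lit 5) (nat_lit 182) (nat_lit 5) (nat_lit 255) (nat_lit 253) (nat_lit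 212)) (XT.nd (nat_lit 78) (nat_lit 0) (nat_lit 0) (XT.lf (nat_lit 0) (nat_lit 2796623836) (nat_lit 912) (nat_lit 4677293399) (nat_lit 988) (nat_lit 1509792015) (nat_lit 170) (nat_lit 5) (nat_lit 182) (nat_lit 5) (nat_lit 183) (nat_lit 5) (nat_lit 256) (nat_lit 253) (nat_lit 211)) (XT.lf (nat_lit 76) (nat_lit 1742041393) (nat_lit 0) (nat_lit 2732546339) (nat_lit 988) (nat_lit 4697993159) (nat_lit 171) (nat_lit 5) (nat_lit 170) (nat_lit 5) (nat_lit 183) (nat_lit 5) (nat_lit 257) (nat_lit 253) (nat_lit 210)))) (XT.nd (nat_lit 78) (nat_lit 912) (nat_lit 0) (XT.lf (nat_lit 0) (nat_lit 6220954692) (nat_lit 912) (nat_lit 867938616) (nat_lit 988) (nat_lit 2282719954) (nat_lit 171) (nat_lit 5) (nat_lit 183) (nat_lit 5) (nat_lit 184) (nat_lit 5) (nat_lit 258) (nat_lit 253) (nat_lit 209)) (XT.nd (nat_lit 78) (nat_lit 912) (nat_lit 0) (XT.lf (nat_lit 76) (nat_lit 6059642320) (nat_lit 0) (nat_lit 1999198961)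 (nat_lit 988) (nat_lit 1521870213) (nat_lit 172) (nat_lit 5) (nat_lit 171) (nat_lit 5) (nat_lit 184) (nat_lit 5) (nat_lit 259) (nat_lit 253) (nat_lit 208)) (XT.lf (nat_lit 0) (nat_lit 181577522) (nat_lit 988) (nat_lit 6269008567) (nat_lit 1064) (nat_lit 3349939539) (nat_lit 159) (nat_lit 5) (nat_lit 172) (nat_lit 5) (nat_lit 173) (nat_lit 5) (nat_lit 260) (nat_lit 253) (nat_lit 207))))))) (XT.nd (nat_lit 858) (nat_lit 3192) (nat_lit 0) (XT.nd (nat_lit 390) (nat_lit 2280) (nat_lit 0) (XT.nd (nat_lit 156) (nat_lit 1900) (nat_lit 0) (XT.nd (nat_lit 78) (nat_lit 0) (nat_lit 76) (XT.lf (nat_lit 76) (nat_lit 906625035) (nat_lit 0) (nat_lit 1022140752) (nat_lit 1064) (nat_lit 8102622953) (nat_lit 160) (nat_lit 5) (nat_lit 159) (nat_lit 5) (nat_lit 173) (nat_lit 5) (nat_lit 261) (nat_lit 253) (nat_lit 206)) (XT.lf (nat_lit 0) (nat_lit 3800977031) (nat_lit 988) (nat_lit 1801637582) (nat_lit 1064)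 (nat_lit 4670252005) (nat_lit 160) (nat_lit 5) (nat_lit 173) (nat_lit 5) (nat_lit 174) (nat_lit 5) (nat_lit 262) (nat_lit 253) (nat_lit 205))) (XT.nd (nat_lit 78) (nat_lit 2052) (nat_lit 0) (XT.lf (nat_lit 0) (nat_lit 5766865625) (nat_lit 988) (nat_lit 4588644711) (nat_lit 76) (nat_lit 171097973) (nat_lit 161) (nat_lit 5) (nat_lit 174) (nat_lit 5) (nat_lit 162) (nat_lit 5) (nat_lit 263) (nat_lit 253) (nat_lit 204)) (XT.nd (nat_lit 78) (nat_lit 1064) (nat_lit 0) (XT.lf (nat_lit 0) (nat_lit 3262327197) (nat_lit 988) (nat_lit 4609259763) (nat_lit 1064) (nat_lit 2920416758) (nat_lit 148) (nat_lit 5) (nat_lit 161) (nat_lit 5) (nat_lit 162) (nat_lit 5) (nat_lit 264) (nat_lit 253) (nat_lit 203)) (XT.lf (nat_lit 0) (nat_lit 472611148) (nat_lit 1064) (nat_lit 9611514983) (nat_lit 1140) (nat_lit 986639392) (nat_lit 134) (nat_lit 5) (nat_lit 148) (nat_lit 5) (nat_lit 149) (nat_lit 5) (nat_lit 265)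 (nat_lit 253) (nat_lit 202))))) (XT.nd (nat_lit 234) (nat_lit 1064) (nat_lit 0) (XT.nd (nat_lit 78) (nat_lit 1140) (nat_lit 0) (XT.lf (nat_lit 0) (nat_lit 1086641906) (nat_lit 1140) (nat_lit 2440852299) (nat_lit 76) (nat_lit 7833935641) (nat_lit 133) (nat_lit 5) (nat_lit 148) (nat_lit 5) (nat_lit 134) (nat_lit 5) (nat_lit 266) (nat_lit 253) (nat_lit 201)) (XT.nd (nat_lit 78) (nat_lit 532) (nat_lit 0) (XT.lf (nat_lit 0) (nat_lit 3272371042) (nat_lit 684) (nat_lit 5511844637) (nat_lit 76) (nat_lit 2881396270) (nat_lit 125) (nat_lit 5) (nat_lit 134) (nat_lit 5) (nat_lit 126) (nat_lit 5) (nat_lit 267) (nat_lit 253) (nat_lit 200)) (XT.lf (nat_lit 0) (nat_lit 3219302401) (nat_lit 532) (nat_lit 2383688673) (nat_lit 608) (nat_lit 6381089947) (nat_lit 118) (nat_lit 5) (nat_lit 125) (nat_lit 5) (nat_lit 126) (nat_lit 5) (nat_lit 268) (nat_lit 253) (nat_lit 199)))) (XT.nd (nat_lit 78) (nat_lit 532)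 (nat_lit 0) (XT.lf (nat_lit 0) (nat_lit 92137393) (nat_lit 532) (nat_lit 8003780940) (nat_lit 608) (nat_lit 4221320970) (nat_lit 111) (nat_lit 5) (nat_lit 118) (nat_lit 5) (nat_lit 119) (nat_lit 5) (nat_lit 269) (nat_lit 253) (nat_lit 198)) (XT.nd (nat_lit 78) (nat_lit 532) (nat_lit 0) (XT.lf (nat_lit 0) (nat_lit 9499206666) (nat_lit 532) (nat_lit 1276317730) (nat_lit 608) (nat_lit 1889802553) (nat_lit 111) (nat_lit 5) (nat_lit 118) (nat_lit 5) (nat_lit 119) (nat_lit 5) (nat_lit 270) (nat_lit 253) (nat_lit 197)) (XT.lf (nat_lit 0) (nat_lit 615213438) (nat_lit 532) (nat_lit 6671087037) (nat_lit 76) (nat_lit 5742445468) (nat_lit 104) (nat_lit 5) (nat_lit 111) (nat_lit 5) (nat_lit 105) (nat_lit 5) (nat_lit 271) (nat_lit 253) (nat_lit 196)))))) (XT.nd (nat_lit 390) (nat_lit 1444) (nat_lit 0) (XT.nd (nat_lit 156) (nat_lit 1292) (nat_lit 0) (XT.nd (nat_lit 78) (nat_lit 0) (nat_lit 0) (XT.lf (nat_lit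 0) (nat_lit 2990388362) (nat_lit 456) (nat_lit 242678634) (nat_lit 532) (nat_lit 10176024053) (nat_lit 98) (nat_lit 5) (nat_lit 104) (nat_lit 5) (nat_lit 105) (nat_lit 5) (nat_lit 272) (nat_lit 253) (nat_lit 195)) (XT.lf (nat_lit 0) (nat_lit 6073498155) (nat_lit 532) (nat_lit 651651825) (nat_lit 76) (nat_lit 7080663942) (nat_lit 98) (nat_lit 5) (nat_lit 105) (nat_lit 5) (nat_lit 99) (nat_lit 5) (nat_lit 273) (nat_lit 253) (nat_lit 194))) (XT.nd (nat_lit 78) (nat_lit 912) (nat_lit 0) (XT.lf (nat_lit 0) (nat_lit 9113956899) (nat_lit 456) (nat_lit 4483371060) (nat_lit 76) (nat_lit 623410571) (nat_lit 93) (nat_lit 5) (nat_lit 99) (nat_lit 5) (nat_lit 94) (nat_lit 5) (nat_lit 274) (nat_lit 253) (nat_lit 193)) (XT.nd (nat_lit 78) (nat_lit 456) (nat_lit 0) (XT.lf (nat_lit 0) (nat_lit 6004731666) (nat_lit 456) (nat_lit 6391486480) (nat_lit 532) (nat_lit 2257598570) (nat_lit 87) (nat_lit 5) (nat_lit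 93) (nat_lit 5) (nat_lit 94) (nat_lit 5) (nat_lit 275) (nat_lit 253) (nat_lit 192)) (XT.lf (nat_lit 0) (nat_lit 755880534) (nat_lit 456) (nat_lit 13131916162) (nat_lit 76) (nat_lit 1219548753) (nat_lit 81) (nat_lit 5) (nat_lit 87) (nat_lit 5) (nat_lit 82) (nat_lit 5) (nat_lit 276) (nat_lit 253) (nat_lit 191))))) (XT.nd (nat_lit 234) (nat_lit 760) (nat_lit 0) (XT.nd (nat_lit 78) (nat_lit 684) (nat_lit 0) (XT.lf (nat_lit 0) (nat_lit 3988169587) (nat_lit 456) (nat_lit 2404318881) (nat_lit 76) (nat_lit 9187035489) (nat_lit 81) (nat_lit 5) (nat_lit 87) (nat_lit 5) (nat_lit 82) (nat_lit 5) (nat_lit 277) (nat_lit 253) (nat_lit 190)) (XT.nd (nat_lit 78) (nat_lit 304) (nat_lit 0) (XT.lf (nat_lit 0) (nat_lit 7445357731) (nat_lit 456) (nat_lit 7098776186) (nat_lit 76) (nat_lit 1529363417) (nat_lit 76) (nat_lit 5) (nat_lit 82) (nat_lit 5) (nat_lit 77) (nat_lit 5) (nat_lit 278) (nat_lit 253) (nat_lit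 189)) (XT.lf (nat_lit 0) (nat_lit 4357032565) (nat_lit 304) (nat_lit 6812973222) (nat_lit 380) (nat_lit 5419406039) (nat_lit 72) (nat_lit 5) (nat_lit 76) (nat_lit 5) (nat_lit 77) (nat_lit 5) (nat_lit 279) (nat_lit 253) (nat_lit 188)))) (XT.nd (nat_lit 78) (nat_lit 760) (nat_lit 0) (XT.lf (nat_lit 0) (nat_lit 15131686617) (nat_lit 380) (nat_lit 652753130) (nat_lit 76) (nat_lit 1345234913) (nat_lit 72) (nat_lit 5) (nat_lit 77) (nat_lit 5) (nat_lit 73) (nat_lit 5) (nat_lit 280) (nat_lit 253) (nat_lit 187)) (XT.nd (nat_lit 78) (nat_lit 304) (nat_lit 0) (XT.lf (nat_lit 0) (nat_lit 1711395739) (nat_lit 456) (nat_lit 6087949901) (nat_lit 76) (nat_lit 9892775751) (nat_lit 66) (nat_lit 5) (nat_lit 72) (nat_lit 5) (nat_lit 67) (nat_lit 5) (nat_lit 281) (nat_lit 253) (nat_lit 186)) (XT.lf (nat_lit 0) (nat_lit 5605699535) (nat_lit 380) (nat_lit 12022337897) (nat_lit 76) (nat_lit 652903878) (nat_lit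 62) (nat_lit 5) (nat_lit 67) (nat_lit 5) (nat_lit 63) (nat_lit 5) (nat_lit 282) (nat_lit 253) (nat_lit 185))))))))
noncomputable def xc76 : XT := (XT.nd (nat_lit 1638) (nat_lit 1216) (nat_lit 0) (XT.nd (nat_lit 780) (nat_lit 1216) (nat_lit 0) (XT.nd (nat_lit 390) (nat_lit 760) (nat_lit 0) (XT.nd (nat_lit 156) (nat_lit 608) (nat_lit 0) (XT.nd (nat_lit 78) (nat_lit 0) (nat_lit 0) (XT.lf (nat_lit 0) (nat_lit 337982581) (nat_lit 304) (nat_lit 9470068090) (nat_lit 380) (nat_lit 9087815856) (nat_lit 58) (nat_lit 5) (nat_lit 62) (nat_lit 5) (nat_lit 63) (nat_lit 5) (nat_lit 283) (nat_lit 253) (nat_lit 184)) (XT.lf (nat_lit 0) (nat_lit 13527090576) (nat_lit 304) (nat_lit 786391604) (nat_lit 380) (nat_lit 5225328147) (nat_lit 58) (nat_lit 5) (nat_lit 62) (nat_lit 5) (nat_lit 63) (nat_lit 5) (nat_lit 284) (nat_lit 253) (nat_lit 183))) (XT.nd (nat_lit 78) (nat_lit 380) (nat_lit 0) (XT.lf (nat_lit 0)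 (nat_lit 7182437639) (nat_lit 228) (nat_lit 11981458275) (nat_lit 304) (nat_lit 1046472376) (nat_lit 55) (nat_lit 5) (nat_lit 58) (nat_lit 5) (nat_lit 59) (nat_lit 5) (nat_lit 285) (nat_lit 253) (nat_lit 182)) (XT.nd (nat_lit 78) (nat_lit 0) (nat_lit 0) (XT.lf (nat_lit 0) (nat_lit 172092209) (nat_lit 304) (nat_lit 3147401411) (nat_lit 380) (nat_lit 17593799802) (nat_lit 50) (nat_lit 5) (nat_lit 54) (nat_lit 5) (nat_lit 55) (nat_lit 5) (nat_lit 286) (nat_lit 253) (nat_lit 181)) (XT.lf (nat_lit 0) (nat_lit 8048852074) (nat_lit 380) (nat_lit 7452330899) (nat_lit 76) (nat_lit 6144920233) (nat_lit 50) (nat_lit 5) (nat_lit 55) (nat_lit 5) (nat_lit 51) (nat_lit 5) (nat_lit 287) (nat_lit 253) (nat_lit 180))))) (XT.nd (nat_lit 156) (nat_lit 532) (nat_lit 0) (XT.nd (nat_lit 78) (nat_lit 0) (nat_lit 0) (XT.lf (nat_lit 0) (nat_lit 6560519181) (nat_lit 228) (nat_lit 6522502109) (nat_lit 304) (nat_lit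 9330530793) (nat_lit 47) (nat_lit 5) (nat_lit 50) (nat_lit 5) (nat_lit 51) (nat_lit 5) (nat_lit 288) (nat_lit 253) (nat_lit 179)) (XT.lf (nat_lit 0) (nat_lit 18448632558) (nat_lit 304) (nat_lit 1852393472) (nat_lit 76) (nat_lit 2916001926) (nat_lit 47) (nat_lit 5) (nat_lit 51) (nat_lit 5) (nat_lit 48) (nat_lit 5) (nat_lit 289) (nat_lit 253) (nat_lit 178))) (XT.nd (nat_lit 78) (nat_lit 228) (nat_lit 0) (XT.lf (nat_lit 0) (nat_lit 189391149) (nat_lit 304) (nat_lit 11056084273) (nat_lit 76) (nat_lit 12810199830) (nat_lit 43) (nat_lit 5) (nat_lit 47) (nat_lit 5) (nat_lit 44) (nat_lit 5) (nat_lit 290) (nat_lit 253) (nat_lit 177)) (XT.nd (nat_lit 78) (nat_lit 0) (nat_lit 0) (XT.lf (nat_lit 0) (nat_lit 3686653372) (nat_lit 228) (nat_lit 1641529364) (nat_lit 304) (nat_lit 19605744822) (nat_lit 40) (nat_lit 5) (nat_lit 43) (nat_lit 5) (nat_lit 44) (nat_lit 5) (nat_lit 291) (nat_lit 253) (nat_lit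 176)) (XT.lf (nat_lit 0) (nat_lit 10896850428) (nat_lit 304) (nat_lit 6571217523) (nat_lit 76) (nat_lit 8382875480) (nat_lit 40) (nat_lit 5) (nat_lit 44) (nat_lit 5) (nat_lit 41) (nat_lit 5) (nat_lit 292) (nat_lit 253) (nat_lit 175)))))) (XT.nd (nat_lit 390) (nat_lit 532) (nat_lit 0) (XT.nd (nat_lit 156) (nat_lit 456) (nat_lit 0) (XT.nd (nat_lit 78) (nat_lit 0) (nat_lit 0) (XT.lf (nat_lit 0) (nat_lit 8964795216) (nat_lit 228) (nat_lit 7859843989) (nat_lit 304) (nat_lit 9986787452) (nat_lit 37) (nat_lit 5) (nat_lit 40) (nat_lit 5) (nat_lit 41) (nat_lit 5) (nat_lit 293) (nat_lit 253) (nat_lit 174)) (XT.lf (nat_lit 0) (nat_lit 23117154334) (nat_lit 304) (nat_lit 2456940318) (nat_lit 76) (nat_lit 2243824705) (nat_lit 37) (nat_lit 5) (nat_lit 41) (nat_lit 5) (nat_lit 38) (nat_lit 5) (nat_lit 294) (nat_lit 253) (nat_lit 173))) (XT.nd (nat_lit 78) (nat_lit 228) (nat_lit 0) (XT.lf (nat_lit 0) (nat_lit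 1027059111) (nat_lit 228) (nat_lit 15016002375) (nat_lit 76) (nat_lit 12825640604) (nat_lit 34) (nat_lit 5) (nat_lit 37) (nat_lit 5) (nat_lit 35) (nat_lit 5) (nat_lit 295) (nat_lit 253) (nat_lit 172)) (XT.nd (nat_lit 78) (nat_lit 0) (nat_lit 0) (XT.lf (nat_lit 0) (nat_lit 999803605) (nat_lit 228) (nat_lit 5960386365) (nat_lit 304) (nat_lit 23009984877) (nat_lit 31) (nat_lit 5) (nat_lit 34) (nat_lit 5) (nat_lit 35) (nat_lit 5) (nat_lit 296) (nat_lit 253) (nat_lit 171)) (XT.lf (nat_lit 0) (nat_lit 13371209203) (nat_lit 304) (nat_lit 13067461167) (nat_lit 76) (nat_lit 4682643623) (nat_lit 31) (nat_lit 5) (nat_lit 35) (nat_lit 5) (nat_lit 32) (nat_lit 5) (nat_lit 297) (nat_lit 253) (nat_lit 170))))) (XT.nd (nat_lit 234) (nat_lit 152) (nat_lit 0) (XT.nd (nat_lit 78) (nat_lit 228) (nat_lit 0) (XT.lf (nat_lit 0) (nat_lit 3612775990) (nat_lit 152) (nat_lit 16566465406) (nat_lit 228) (nat_lit 12148503129)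 (nat_lit 29) (nat_lit 5) (nat_lit 31) (nat_lit 5) (nat_lit 32) (nat_lit 5) (nat_lit 298) (nat_lit 253) (nat_lit 169)) (XT.nd (nat_lit 78) (nat_lit 228) (nat_lit 0) (XT.lf (nat_lit 0) (nat_lit 21372746555) (nat_lit 152) (nat_lit 6071635305) (nat_lit 228) (nat_lit 6146640467) (nat_lit 29) (nat_lit 5) (nat_lit 31) (nat_lit 5) (nat_lit 32) (nat_lit 5) (nat_lit 299) (nat_lit 253) (nat_lit 168)) (XT.lf (nat_lit 0) (nat_lit 232867612) (nat_lit 228) (nat_lit 29788093100) (nat_lit 76) (nat_lit 4894065939) (nat_lit 26) (nat_lit 5) (nat_lit 29) (nat_lit 5) (nat_lit 27) (nat_lit 5) (nat_lit 300) (nat_lit 253) (nat_lit 167)))) (XT.nd (nat_lit 78) (nat_lit 152) (nat_lit 0) (XT.lf (nat_lit 0) (nat_lit 6977041879) (nat_lit 228) (nat_lit 12857386752) (nat_lit 76) (nat_lit 16463816171) (nat_lit 26) (nat_lit 5) (nat_lit 29) (nat_lit 5) (nat_lit 27) (nat_lit 5) (nat_lit 301) (nat_lit 253) (nat_lit 166)) (XT.nd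 (nat_lit 78) (nat_lit 0) (nat_lit 0) (XT.lf (nat_lit 0) (nat_lit 4992426670) (nat_lit 152) (nat_lit 9098109274) (nat_lit 228) (nat_lit 23659147179) (nat_lit 24) (nat_lit 5) (nat_lit 26) (nat_lit 5) (nat_lit 27) (nat_lit 5) (nat_lit 302) (nat_lit 253) (nat_lit 165)) (XT.lf (nat_lit 0) (nat_lit 21698838853) (nat_lit 228) (nat_lit 15313062451) (nat_lit 76) (nat_lit 2257639553) (nat_lit 24) (nat_lit 5) (nat_lit 27) (nat_lit 5) (nat_lit 25) (nat_lit 5) (nat_lit 303) (nat_lit 253) (nat_lit 164))))))) (XT.nd (nat_lit 780) (nat_lit 532) (nat_lit 0) (XT.nd (nat_lit 390) (nat_lit 304) (nat_lit 0) (XT.nd (nat_lit 156) (nat_lit 228) (nat_lit 0) (XT.nd (nat_lit 78) (nat_lit 0) (nat_lit 0) (XT.lf (nat_lit 0) (nat_lit 2945625930) (nat_lit 152) (nat_lit 26847371324) (nat_lit 228) (nat_lit 11069251510) (nat_lit 22) (nat_lit 5) (nat_lit 24) (nat_lit 5) (nat_lit 25) (nat_lit 5) (nat_lit 304) (nat_lit 253)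 (nat_lit 163)) (XT.lf (nat_lit 0) (nat_lit 22414550799) (nat_lit 152) (nat_lit 16020725045) (nat_lit 228) (nat_lit 4095033373) (nat_lit 22) (nat_lit 5) (nat_lit 24) (nat_lit 5) (nat_lit 25) (nat_lit 5) (nat_lit 305) (nat_lit 253) (nat_lit 162))) (XT.nd (nat_lit 78) (nat_lit 152) (nat_lit 0) (XT.lf (nat_lit 0) (nat_lit 3151210512) (nat_lit 228) (nat_lit 1477785083) (nat_lit 76) (nat_lit 39652275211) (nat_lit 21) (nat_lit 5) (nat_lit 24) (nat_lit 5) (nat_lit 22) (nat_lit 5) (nat_lit 306) (nat_lit 253) (nat_lit 161)) (XT.nd (nat_lit 78) (nat_lit 0) (nat_lit 0) (XT.lf (nat_lit 0) (nat_lit 10912147878) (nat_lit 228) (nat_lit 27797490805) (nat_lit 76) (nat_lit 7401830447) (nat_lit 19) (nat_lit 5) (nat_lit 22) (nat_lit 5) (nat_lit 20) (nat_lit 5) (nat_lit 307) (nat_lit 253) (nat_lit 160)) (XT.lf (nat_lit 0) (nat_lit 19110524662) (nat_lit 228) (nat_lit 8973967991) (nat_lit 76) (nat_lit 19947219313)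 (nat_lit 19) (nat_lit 5) (nat_lit 22) (nat_lit 5) (nat_lit 20) (nat_lit 5) (nat_lit 308) (nat_lit 253) (nat_lit 159))))) (XT.nd (nat_lit 156) (nat_lit 152) (nat_lit 0) (XT.nd (nat_lit 78) (nat_lit 0) (nat_lit 0) (XT.lf (nat_lit 0) (nat_lit 10985491695) (nat_lit 152) (nat_lit 16826840107) (nat_lit 228) (nat_lit 22232845387) (nat_lit 17) (nat_lit 5) (nat_lit 19) (nat_lit 5) (nat_lit 20) (nat_lit 5) (nat_lit 309) (nat_lit 253) (nat_lit 158)) (XT.lf (nat_lit 0) (nat_lit 32111410120) (nat_lit 152) (nat_lit 4918503059) (nat_lit 228) (nat_lit 15126996826) (nat_lit 17) (nat_lit 5) (nat_lit 19) (nat_lit 5) (nat_lit 20) (nat_lit 5) (nat_lit 310) (nat_lit 253) (nat_lit 157))) (XT.nd (nat_lit 78) (nat_lit 152) (nat_lit 0) (XT.lf (nat_lit 0) (nat_lit 46770082135) (nat_lit 228) (nat_lit 171937020) (nat_lit 76) (nat_lit 7430373195) (nat_lit 17) (nat_lit 5) (nat_lit 20) (nat_lit 5) (nat_lit 18) (nat_lit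 4) (nat_lit 311) (nat_lit 253) (nat_lit 156)) (XT.nd (nat_lit 78) (nat_lit 0) (nat_lit 0) (XT.lf (nat_lit 0) (nat_lit 536366891) (nat_lit 152) (nat_lit 35658025072) (nat_lit 76) (nat_lit 20496876318) (nat_lit 15) (nat_lit 5) (nat_lit 17) (nat_lit 5) (nat_lit 16) (nat_lit 5) (nat_lit 312) (nat_lit 253) (nat_lit 155)) (XT.lf (nat_lit 0) (nat_lit 8917557054) (nat_lit 152) (nat_lit 15917767341) (nat_lit 76) (nat_lit 34288733754) (nat_lit 15) (nat_lit 5) (nat_lit 17) (nat_lit 5) (nat_lit 16) (nat_lit 5) (nat_lit 313) (nat_lit 253) (nat_lit 154)))))) (XT.nd (nat_lit 390) (nat_lit 304) (nat_lit 0) (XT.nd (nat_lit 156) (nat_lit 76) (nat_lit 0) (XT.nd (nat_lit 78) (nat_lit 0) (nat_lit 0) (XT.lf (nat_lit 0) (nat_lit 4888458151) (nat_lit 152) (nat_lit 12866394293) (nat_lit 228) (nat_lit 43922535556) (nat_lit 13) (nat_lit 5) (nat_lit 15) (nat_lit 5) (nat_lit 16) (nat_lit 5) (nat_lit 314) (nat_lit 253)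 (nat_lit 153)) (XT.lf (nat_lit 0) (nat_lit 27051664040) (nat_lit 152) (nat_lit 136582913) (nat_lit 228) (nat_lit 37165521657) (nat_lit 13) (nat_lit 5) (nat_lit 15) (nat_lit 5) (nat_lit 16) (nat_lit 5) (nat_lit 315) (nat_lit 253) (nat_lit 152))) (XT.nd (nat_lit 78) (nat_lit 76) (nat_lit 0) (XT.lf (nat_lit 0) (nat_lit 37211258608) (nat_lit 228) (nat_lit 16983543034) (nat_lit 76) (nat_lit 12965638943) (nat_lit 13) (nat_lit 5) (nat_lit 16) (nat_lit 5) (nat_lit 14) (nat_lit 4) (nat_lit 316) (nat_lit 253) (nat_lit 151)) (XT.nd (nat_lit 78) (nat_lit 0) (nat_lit 0) (XT.lf (nat_lit 0) (nat_lit 4421142470) (nat_lit 76) (nat_lit 43349370204) (nat_lit 152) (nat_lit 22335890973) (nat_lit 12) (nat_lit 5) (nat_lit 13) (nat_lit 5) (nat_lit 14) (nat_lit 4) (nat_lit 317) (nat_lit 253) (nat_lit 150)) (XT.lf (nat_lit 0) (nat_lit 27236691705) (nat_lit 76) (nat_lit 31787363990) (nat_lit 152) (nat_lit 14170629139)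 (nat_lit 12) (nat_lit 5) (nat_lit 13) (nat_lit 5) (nat_lit 14) (nat_lit 4) (nat_lit 318) (nat_lit 253) (nat_lit 149))))) (XT.nd (nat_lit 234) (nat_lit 76) (nat_lit 0) (XT.nd (nat_lit 78) (nat_lit 228) (nat_lit 0) (XT.lf (nat_lit 0) (nat_lit 51179421599) (nat_lit 76) (nat_lit 19652754896) (nat_lit 152) (nat_lit 5605455860) (nat_lit 12) (nat_lit 5) (nat_lit 13) (nat_lit 5) (nat_lit 14) (nat_lit 4) (nat_lit 319) (nat_lit 253) (nat_lit 148)) (XT.nd (nat_lit 78) (nat_lit 152) (nat_lit 0) (XT.lf (nat_lit 0) (nat_lit 3314065728) (nat_lit 152) (nat_lit 3569119703) (nat_lit 76) (nat_lit 72958807357) (nat_lit 11) (nat_lit 5) (nat_lit 13) (nat_lit 5) (nat_lit 12) (nat_lit 5) (nat_lit 320) (nat_lit 253) (nat_lit 147)) (XT.lf (nat_lit 0) (nat_lit 12809975759) (nat_lit 228) (nat_lit 63958375654) (nat_lit 76) (nat_lit 6639172772) (nat_lit 9) (nat_lit 5) (nat_lit 12) (nat_lit 5) (nat_lit 10) (nat_lit 4)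 (nat_lit 321) (nat_lit 253) (nat_lit 146)))) (XT.nd (nat_lit 78) (nat_lit 76) (nat_lit 0) (XT.lf (nat_lit 0) (nat_lit 22880021877) (nat_lit 228) (nat_lit 43539459801) (nat_lit 76) (nat_lit 20728878050) (nat_lit 9) (nat_lit 5) (nat_lit 12) (nat_lit 5) (nat_lit 10) (nat_lit 4) (nat_lit 322) (nat_lit 253) (nat_lit 145)) (XT.nd (nat_lit 78) (nat_lit 76) (nat_lit 0) (XT.lf (nat_lit 0) (nat_lit 33446677172) (nat_lit 228) (nat_lit 22111318850) (nat_lit 76) (nat_lit 35518455241) (nat_lit 9) (nat_lit 5) (nat_lit 12) (nat_lit 5) (nat_lit 10) (nat_lit 4) (nat_lit 323) (nat_lit 253) (nat_lit 144)) (XT.lf (nat_lit 0) (nat_lit 384570944) (nat_lit 76) (nat_lit 44154226137) (nat_lit 152) (nat_lit 50662243410) (nat_lit 8) (nat_lit 5) (nat_lit 9) (nat_lit 5) (nat_lit 10) (nat_lit 4) (nat_lit 324) (nat_lit 253) (nat_lit 143))))))))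
noncomputable def xc77 : XT := (XT.nd (nat_lit 33306) (nat_lit 0) (nat_lit 2432) (XT.nd (nat_lit 32448) (nat_lit 0) (nat_lit 7828) (XT.nd (nat_lit 32058) (nat_lit 0) (nat_lit 12160) (XT.nd (nat_lit 156) (nat_lit 0) (nat_lit 0) (XT.nd (nat_lit 78) (nat_lit 0) (nat_lit 0) (XT.lf (nat_lit 0) (nat_lit 24456474166) (nat_lit 76) (nat_lit 31950308841) (nat_lit 152) (nat_lit 43118445104) (nat_lit 8) (nat_lit 5) (nat_lit 9) (nat_lit 5) (nat_lit 10) (nat_lit 4) (nat_lit 325) (nat_lit 253) (nat_lit 142)) (XT.lf (nat_lit 0) (nat_lit 49721646268) (nat_lit 76) (nat_lit 19140468156) (nat_lit 152) (nat_lit 35203698714) (nat_lit 8) (nat_lit 5) (nat_lit 9) (nat_lit 5) (nat_lit 10) (nat_lit 4) (nat_lit 326) (nat_lit 253) (nat_lit 141))) (XT.nd (nat_lit 78) (nat_lit 0) (nat_lit 0) (XT.lf (nat_lit 0) (nat_lit 76240242424) (nat_lit 76) (nat_lit 5694204461) (nat_lit 152) (nat_lit 26899159605) (nat_lit 8) (nat_lit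 5) (nat_lit 9) (nat_lit 5) (nat_lit 10) (nat_lit 4) (nat_lit 327) (nat_lit 253) (nat_lit 140)) (XT.nd (nat_lit 31746) (nat_lit 0) (nat_lit 12160) (XT.lf (nat_lit 0) (nat_lit 95735847958) (nat_lit 152) (nat_lit 9845500877) (nat_lit 0) (nat_lit 8256182929) (nat_lit 8) (nat_lit 5) (nat_lit 10) (nat_lit 4) (nat_lit 8) (nat_lit 4) (nat_lit 328) (nat_lit 253) (nat_lit 139)) (XT.lf (nat_lit 0) (nat_lit 516971518) (nat_lit 988) (nat_lit 1941158943) (nat_lit 988) (nat_lit 1941158943) (nat_lit 168) (nat_lit 3) (nat_lit 181) (nat_lit 3) (nat_lit 181) (nat_lit 5) (nat_lit 254) (nat_lit 254) (nat_lit 212))))) (XT.nd (nat_lit 156) (nat_lit 0) (nat_lit 152) (XT.nd (nat_lit 78) (nat_lit 0) (nat_lit 76) (XT.lf (nat_lit 76) (nat_lit 2219355777) (nat_lit 0) (nat_lit 261792646) (nat_lit 988) (nat_lit 6490615746) (nat_lit 169) (nat_lit 5) (nat_lit 168) (nat_lit 3) (nat_lit 181) (nat_lit 5) (nat_lit 255) (nat_lit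 254) (nat_lit 211)) (XT.lf (nat_lit 0) (nat_lit 3995876278) (nat_lit 912) (nat_lit 540612100) (nat_lit 988) (nat_lit 4617530462) (nat_lit 169) (nat_lit 5) (nat_lit 181) (nat_lit 5) (nat_lit 182) (nat_lit 5) (nat_lit 256) (nat_lit 254) (nat_lit 210))) (XT.nd (nat_lit 78) (nat_lit 0) (nat_lit 0) (XT.lf (nat_lit 0) (nat_lit 5566422106) (nat_lit 912) (nat_lit 3302068764) (nat_lit 988) (nat_lit 477745224) (nat_lit 170) (nat_lit 5) (nat_lit 182) (nat_lit 5) (nat_lit 183) (nat_lit 5) (nat_lit 257) (nat_lit 254) (nat_lit 209)) (XT.nd (nat_lit 78) (nat_lit 0) (nat_lit 76) (XT.lf (nat_lit 76) (nat_lit 3392108546) (nat_lit 0) (nat_lit 3825963300) (nat_lit 988) (nat_lit 2330155346) (nat_lit 171) (nat_lit 5) (nat_lit 170) (nat_lit 5) (nat_lit 183) (nat_lit 5) (nat_lit 258) (nat_lit 254) (nat_lit 208)) (XT.lf (nat_lit 76) (nat_lit 678227761) (nat_lit 0) (nat_lit 8251301328) (nat_lit 988) (nat_lit 831700843)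 (nat_lit 172) (nat_lit 5) (nat_lit 171) (nat_lit 5) (nat_lit 184) (nat_lit 5) (nat_lit 259) (nat_lit 254) (nat_lit 207)))))) (XT.nd (nat_lit 390) (nat_lit 3572) (nat_lit 0) (XT.nd (nat_lit 156) (nat_lit 0) (nat_lit 76) (XT.nd (nat_lit 78) (nat_lit 0) (nat_lit 76) (XT.lf (nat_lit 0) (nat_lit 754350234) (nat_lit 988) (nat_lit 2097915648) (nat_lit 1064) (nat_lit 7131800241) (nat_lit 158) (nat_lit 5) (nat_lit 171) (nat_lit 5) (nat_lit 172) (nat_lit 5) (nat_lit 260) (nat_lit 254) (nat_lit 206)) (XT.lf (nat_lit 0) (nat_lit 2409443387) (nat_lit 988) (nat_lit 4964450302) (nat_lit 1064) (nat_lit 2843896700) (nat_lit 159) (nat_lit 5) (nat_lit 172) (nat_lit 5) (nat_lit 173) (nat_lit 5) (nat_lit 261) (nat_lit 254) (nat_lit 205))) (XT.nd (nat_lit 78) (nat_lit 0) (nat_lit 76) (XT.lf (nat_lit 76) (nat_lit 2523585085) (nat_lit 0) (nat_lit 1629856914) (nat_lit 1064) (nat_lit 6309766268) (nat_lit 160) (nat_lit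 5) (nat_lit 159) (nat_lit 5) (nat_lit 173) (nat_lit 5) (nat_lit 262) (nat_lit 254) (nat_lit 204)) (XT.nd (nat_lit 78) (nat_lit 0) (nat_lit 0) (XT.lf (nat_lit 0) (nat_lit 6012823459) (nat_lit 988) (nat_lit 323405960) (nat_lit 1064) (nat_lit 4384004915) (nat_lit 160) (nat_lit 5) (nat_lit 173) (nat_lit 5) (nat_lit 174) (nat_lit 5) (nat_lit 263) (nat_lit 254) (nat_lit 203)) (XT.lf (nat_lit 76) (nat_lit 7760034030) (nat_lit 0) (nat_lit 233578526) (nat_lit 1064) (nat_lit 2995820072) (nat_lit 161) (nat_lit 5) (nat_lit 160) (nat_lit 5) (nat_lit 174) (nat_lit 5) (nat_lit 264) (nat_lit 254) (nat_lit 202))))) (XT.nd (nat_lit 234) (nat_lit 1672) (nat_lit 0) (XT.nd (nat_lit 78) (nat_lit 1140) (nat_lit 0) (XT.lf (nat_lit 0) (nat_lit 4970763698) (nat_lit 988) (nat_lit 5153217505) (nat_lit 1064) (nat_lit 1146759218) (nat_lit 148) (nat_lit 5) (nat_lit 161) (nat_lit 5) (nat_lit 162) (nat_lit 5) (nat_lit 265)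 (nat_lit 254) (nat_lit 201)) (XT.nd (nat_lit 78) (nat_lit 0) (nat_lit 0) (XT.lf (nat_lit 0) (nat_lit 789108783) (nat_lit 1140) (nat_lit 9514398762) (nat_lit 76) (nat_lit 1262234286) (nat_lit 133) (nat_lit 5) (nat_lit 148) (nat_lit 5) (nat_lit 134) (nat_lit 5) (nat_lit 266) (nat_lit 254) (nat_lit 200)) (XT.lf (nat_lit 0) (nat_lit 2859892680) (nat_lit 1140) (nat_lit 1035556874) (nat_lit 76) (nat_lit 7977993955) (nat_lit 133) (nat_lit 5) (nat_lit 148) (nat_lit 5) (nat_lit 134) (nat_lit 5) (nat_lit 267) (nat_lit 254) (nat_lit 199)))) (XT.nd (nat_lit 78) (nat_lit 1064) (nat_lit 0) (XT.lf (nat_lit 0) (nat_lit 5085703163) (nat_lit 684) (nat_lit 4248450735) (nat_lit 76) (nat_lit 2860970796) (nat_lit 125) (nat_lit 5) (nat_lit 134) (nat_lit 5) (nat_lit 126) (nat_lit 5) (nat_lit 268) (nat_lit 254) (nat_lit 198)) (XT.nd (nat_lit 78) (nat_lit 532) (nat_lit 0) (XT.lf (nat_lit 0) (nat_lit 4875138926) (nat_lit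 532) (nat_lit 2593527100) (nat_lit 608) (nat_lit 5062980478) (nat_lit 118) (nat_lit 5) (nat_lit 125) (nat_lit 5) (nat_lit 126) (nat_lit 5) (nat_lit 269) (nat_lit 254) (nat_lit 197)) (XT.lf (nat_lit 0) (nat_lit 1599770280) (nat_lit 532) (nat_lit 8424586239) (nat_lit 608) (nat_lit 2859156619) (nat_lit 111) (nat_lit 5) (nat_lit 118) (nat_lit 5) (nat_lit 119) (nat_lit 5) (nat_lit 270) (nat_lit 254) (nat_lit 196))))))) (XT.nd (nat_lit 858) (nat_lit 2052) (nat_lit 0) (XT.nd (nat_lit 390) (nat_lit 1976) (nat_lit 0) (XT.nd (nat_lit 156) (nat_lit 836) (nat_lit 0) (XT.nd (nat_lit 78) (nat_lit 532) (nat_lit 0) (XT.lf (nat_lit 0) (nat_lit 11405620349) (nat_lit 532) (nat_lit 1359768142) (nat_lit 608) (nat_lit 485978014) (nat_lit 111) (nat_lit 5) (nat_lit 118) (nat_lit 5) (nat_lit 119) (nat_lit 5) (nat_lit 271) (nat_lit 254) (nat_lit 195)) (XT.lf (nat_lit 0) (nat_lit 2058858690) (nat_lit 532) (nat_lit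 5536629045) (nat_lit 76) (nat_lit 6038893198) (nat_lit 104) (nat_lit 5) (nat_lit 111) (nat_lit 5) (nat_lit 105) (nat_lit 5) (nat_lit 272) (nat_lit 254) (nat_lit 194))) (XT.nd (nat_lit 78) (nat_lit 380) (nat_lit 0) (XT.lf (nat_lit 0) (nat_lit 4565839844) (nat_lit 456) (nat_lit 188191794) (nat_lit 532) (nat_lit 9281481510) (nat_lit 98) (nat_lit 5) (nat_lit 104) (nat_lit 5) (nat_lit 105) (nat_lit 5) (nat_lit 273) (nat_lit 254) (nat_lit 193)) (XT.nd (nat_lit 78) (nat_lit 0) (nat_lit 0) (XT.lf (nat_lit 0) (nat_lit 729354213) (nat_lit 380) (nat_lit 6950021937) (nat_lit 456) (nat_lit 6774564172) (nat_lit 93) (nat_lit 5) (nat_lit 98) (nat_lit 5) (nat_lit 99) (nat_lit 5) (nat_lit 274) (nat_lit 254) (nat_lit 192)) (XT.lf (nat_lit 0) (nat_lit 10817319878) (nat_lit 456) (nat_lit 3309030418) (nat_lit 76) (nat_lit 765044536) (nat_lit 93) (nat_lit 5) (nat_lit 99) (nat_lit 5) (nat_lit 94) (nat_lit 5) (nat_lit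 275) (nat_lit 254) (nat_lit 191))))) (XT.nd (nat_lit 234) (nat_lit 1064) (nat_lit 0) (XT.nd (nat_lit 78) (nat_lit 456) (nat_lit 0) (XT.lf (nat_lit 0) (nat_lit 7663389459) (nat_lit 456) (nat_lit 6553950079) (nat_lit 532) (nat_lit 1130318537) (nat_lit 87) (nat_lit 5) (nat_lit 93) (nat_lit 5) (nat_lit 94) (nat_lit 5) (nat_lit 276) (nat_lit 254) (nat_lit 190)) (XT.nd (nat_lit 78) (nat_lit 0) (nat_lit 0) (XT.lf (nat_lit 0) (nat_lit 1966345591) (nat_lit 456) (nat_lit 12406823876) (nat_lit 76) (nat_lit 1451764731) (nat_lit 81) (nat_lit 5) (nat_lit 87) (nat_lit 5) (nat_lit 82) (nat_lit 5) (nat_lit 277) (nat_lit 254) (nat_lit 189)) (XT.lf (nat_lit 0) (nat_lit 5304407618) (nat_lit 456) (nat_lit 1208641402) (nat_lit 76) (nat_lit 9809471588) (nat_lit 81) (nat_lit 5) (nat_lit 87) (nat_lit 5) (nat_lit 82) (nat_lit 5) (nat_lit 278) (nat_lit 254) (nat_lit 188)))) (XT.nd (nat_lit 78) (nat_lit 684) (nat_lit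 0) (XT.lf (nat_lit 0) (nat_lit 8895503450) (nat_lit 456) (nat_lit 6142850613) (nat_lit 76) (nat_lit 1804124984) (nat_lit 76) (nat_lit 5) (nat_lit 82) (nat_lit 5) (nat_lit 77) (nat_lit 5) (nat_lit 279) (nat_lit 254) (nat_lit 187)) (XT.nd (nat_lit 78) (nat_lit 380) (nat_lit 0) (XT.lf (nat_lit 0) (nat_lit 5848172911) (nat_lit 304) (nat_lit 6919123112) (nat_lit 380) (nat_lit 4618178107) (nat_lit 72) (nat_lit 5) (nat_lit 76) (nat_lit 5) (nat_lit 77) (nat_lit 5) (nat_lit 280) (nat_lit 254) (nat_lit 186)) (XT.lf (nat_lit 0) (nat_lit 568019859) (nat_lit 380) (nat_lit 16317181807) (nat_lit 456) (nat_lit 1068911102) (nat_lit 67) (nat_lit 5) (nat_lit 72) (nat_lit 5) (nat_lit 73) (nat_lit 5) (nat_lit 281) (nat_lit 254) (nat_lit 185)))))) (XT.nd (nat_lit 390) (nat_lit 1140) (nat_lit 0) (XT.nd (nat_lit 156) (nat_lit 532) (nat_lit 0) (XT.nd (nat_lit 78) (nat_lit 304) (nat_lit 0) (XT.lf (nat_lit 0) (nat_lit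 2764283009) (nat_lit 456) (nat_lit 5164403779) (nat_lit 76) (nat_lit 10617044539) (nat_lit 66) (nat_lit 5) (nat_lit 72) (nat_lit 5) (nat_lit 67) (nat_lit 5) (nat_lit 282) (nat_lit 254) (nat_lit 184)) (XT.lf (nat_lit 0) (nat_lit 6821204167) (nat_lit 380) (nat_lit 11403345358) (nat_lit 76) (nat_lit 940499774) (nat_lit 62) (nat_lit 5) (nat_lit 67) (nat_lit 5) (nat_lit 63) (nat_lit 5) (nat_lit 283) (nat_lit 254) (nat_lit 183))) (XT.nd (nat_lit 78) (nat_lit 228) (nat_lit 0) (XT.lf (nat_lit 0) (nat_lit 1540016952) (nat_lit 304) (nat_lit 9660513883) (nat_lit 380) (nat_lit 8611273845) (nat_lit 58) (nat_lit 5) (nat_lit 62) (nat_lit 5) (nat_lit 63) (nat_lit 5) (nat_lit 284) (nat_lit 254) (nat_lit 182)) (XT.nd (nat_lit 78) (nat_lit 228) (nat_lit 0) (XT.lf (nat_lit 0) (nat_lit 15332145336) (nat_lit 304) (nat_lit 556132507) (nat_lit 380) (nat_lit 4599991883) (nat_lit 58) (nat_lit 5) (nat_lit 62) (nat_lit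 5) (nat_lit 63) (nat_lit 5) (nat_lit 285) (nat_lit 254) (nat_lit 181)) (XT.lf (nat_lit 0) (nat_lit 8662082088) (nat_lit 228) (nat_lit 12291458731) (nat_lit 304) (nat_lit 240776220) (nat_lit 55) (nat_lit 5) (nat_lit 58) (nat_lit 5) (nat_lit 59) (nat_lit 5) (nat_lit 286) (nat_lit 254) (nat_lit 180))))) (XT.nd (nat_lit 234) (nat_lit 532) (nat_lit 0) (XT.nd (nat_lit 78) (nat_lit 228) (nat_lit 0) (XT.lf (nat_lit 0) (nat_lit 1286896494) (nat_lit 304) (nat_lit 3010421197) (nat_lit 380) (nat_lit 17635781303) (nat_lit 50) (nat_lit 5) (nat_lit 54) (nat_lit 5) (nat_lit 55) (nat_lit 5) (nat_lit 287) (nat_lit 254) (nat_lit 179)) (XT.nd (nat_lit 78) (nat_lit 228) (nat_lit 0) (XT.lf (nat_lit 0) (nat_lit 9227179311) (nat_lit 380) (nat_lit 6749490969) (nat_lit 76) (nat_lit 6727029531) (nat_lit 50) (nat_lit 5) (nat_lit 55) (nat_lit 5) (nat_lit 51) (nat_lit 5) (nat_lit 288) (nat_lit 254) (nat_lit 178)) (XT.lf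 (nat_lit 0) (nat_lit 7933173872) (nat_lit 228) (nat_lit 6552977839) (nat_lit 304) (nat_lit 9024244770) (nat_lit 47) (nat_lit 5) (nat_lit 50) (nat_lit 5) (nat_lit 51) (nat_lit 5) (nat_lit 289) (nat_lit 254) (nat_lit 177)))) (XT.nd (nat_lit 78) (nat_lit 532) (nat_lit 0) (XT.lf (nat_lit 0) (nat_lit 20087084490) (nat_lit 304) (nat_lit 930136978) (nat_lit 76) (nat_lit 3337878394) (nat_lit 47) (nat_lit 5) (nat_lit 51) (nat_lit 5) (nat_lit 48) (nat_lit 5) (nat_lit 290) (nat_lit 254) (nat_lit 176)) (XT.nd (nat_lit 78) (nat_lit 228) (nat_lit 0) (XT.lf (nat_lit 0) (nat_lit 898319210) (nat_lit 304) (nat_lit 10607981946) (nat_lit 76) (nat_lit 13729973104) (nat_lit 43) (nat_lit 5) (nat_lit 47) (nat_lit 5) (nat_lit 44) (nat_lit 5) (nat_lit 291) (nat_lit 254) (nat_lit 175)) (XT.lf (nat_lit 0) (nat_lit 4843201796) (nat_lit 228) (nat_lit 1426886564) (nat_lit 304) (nat_lit 19889126871) (nat_lit 40) (nat_lit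 5) (nat_lit 43) (nat_lit 5) (nat_lit 44) (nat_lit 5) (nat_lit 292) (nat_lit 254) (nat_lit 174))))))))
noncomputable def xc78 : XT := (XT.nd (nat_lit 1638) (nat_lit 532) (nat_lit 0) (XT.nd (nat_lit 780) (nat_lit 836) (nat_lit 0) (XT.nd (nat_lit 390) (nat_lit 380) (nat_lit 0) (XT.nd (nat_lit 156) (nat_lit 456) (nat_lit 0) (XT.nd (nat_lit 78) (nat_lit 228) (nat_lit 0) (XT.lf (nat_lit 0) (nat_lit 12087739364) (nat_lit 304) (nat_lit 5956185816) (nat_lit 76) (nat_lit 9079094689) (nat_lit 40) (nat_lit 5) (nat_lit 44) (nat_lit 5) (nat_lit 41) (nat_lit 5) (nat_lit 293) (nat_lit 254) (nat_lit 173)) (XT.lf (nat_lit 0) (nat_lit 10329579669) (nat_lit 228) (nat_lit 7960384185) (nat_lit 304) (nat_lit 9842273888) (nat_lit 37) (nat_lit 5) (nat_lit 40) (nat_lit 5) (nat_lit 41) (nat_lit 5) (nat_lit 294) (nat_lit 254) (nat_lit 172))) (XT.nd (nat_lit 78) (nat_lit 456) (nat_lit 0) (XT.lf (nat_lit 0) (nat_lit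 24870063398) (nat_lit 304) (nat_lit 1690745702) (nat_lit 76) (nat_lit 2629106619) (nat_lit 37) (nat_lit 5) (nat_lit 41) (nat_lit 5) (nat_lit 38) (nat_lit 5) (nat_lit 295) (nat_lit 254) (nat_lit 171)) (XT.nd (nat_lit 78) (nat_lit 228) (nat_lit 0) (XT.lf (nat_lit 0) (nat_lit 1661968185) (nat_lit 228) (nat_lit 14890717545) (nat_lit 76) (nat_lit 13741031175) (nat_lit 34) (nat_lit 5) (nat_lit 37) (nat_lit 5) (nat_lit 35) (nat_lit 5) (nat_lit 296) (nat_lit 254) (nat_lit 170)) (XT.lf (nat_lit 0) (nat_lit 1900765935) (nat_lit 228) (nat_lit 5971381330) (nat_lit 304) (nat_lit 23578747789) (nat_lit 31) (nat_lit 5) (nat_lit 34) (nat_lit 5) (nat_lit 35) (nat_lit 5) (nat_lit 297) (nat_lit 254) (nat_lit 169))))) (XT.nd (nat_lit 156) (nat_lit 228) (nat_lit 0) (XT.nd (nat_lit 78) (nat_lit 152) (nat_lit 0) (XT.lf (nat_lit 0) (nat_lit 14579490473) (nat_lit 304) (nat_lit 12896070766) (nat_lit 76) (nat_lit 5184798161)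 (nat_lit 31) (nat_lit 5) (nat_lit 35) (nat_lit 5) (nat_lit 32) (nat_lit 5) (nat_lit 298) (nat_lit 254) (nat_lit 168)) (XT.lf (nat_lit 0) (nat_lit 4594536569) (nat_lit 152) (nat_lit 17115387588) (nat_lit 228) (nat_lit 12217766765) (nat_lit 29) (nat_lit 5) (nat_lit 31) (nat_lit 5) (nat_lit 32) (nat_lit 5) (nat_lit 299) (nat_lit 254) (nat_lit 167))) (XT.nd (nat_lit 78) (nat_lit 228) (nat_lit 0) (XT.lf (nat_lit 0) (nat_lit 23204357007) (nat_lit 152) (nat_lit 6109120795) (nat_lit 228) (nat_lit 5941437709) (nat_lit 29) (nat_lit 5) (nat_lit 31) (nat_lit 5) (nat_lit 32) (nat_lit 5) (nat_lit 300) (nat_lit 254) (nat_lit 166)) (XT.nd (nat_lit 78) (nat_lit 0) (nat_lit 0) (XT.lf (nat_lit 0) (nat_lit 732892402) (nat_lit 228) (nat_lit 30513255828) (nat_lit 76) (nat_lit 5399283326) (nat_lit 26) (nat_lit 5) (nat_lit 29) (nat_lit 5) (nat_lit 27) (nat_lit 5) (nat_lit 301) (nat_lit 254) (nat_lit 165)) (XT.lf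 (nat_lit 0) (nat_lit 7791019125) (nat_lit 228) (nat_lit 12772406635) (nat_lit 76) (nat_lit 17535115636) (nat_lit 26) (nat_lit 5) (nat_lit 29) (nat_lit 5) (nat_lit 27) (nat_lit 5) (nat_lit 302) (nat_lit 254) (nat_lit 164)))))) (XT.nd (nat_lit 390) (nat_lit 456) (nat_lit 0) (XT.nd (nat_lit 156) (nat_lit 228) (nat_lit 0) (XT.nd (nat_lit 78) (nat_lit 0) (nat_lit 0) (XT.lf (nat_lit 0) (nat_lit 5949033799) (nat_lit 152) (nat_lit 9295801258) (nat_lit 228) (nat_lit 24378208681) (nat_lit 24) (nat_lit 5) (nat_lit 26) (nat_lit 5) (nat_lit 27) (nat_lit 5) (nat_lit 303) (nat_lit 254) (nat_lit 163)) (XT.lf (nat_lit 0) (nat_lit 23214490137) (nat_lit 228) (nat_lit 15394299532) (nat_lit 76) (nat_lit 2610706596) (nat_lit 24) (nat_lit 5) (nat_lit 27) (nat_lit 5) (nat_lit 25) (nat_lit 5) (nat_lit 304) (nat_lit 254) (nat_lit 162))) (XT.nd (nat_lit 78) (nat_lit 76) (nat_lit 0) (XT.lf (nat_lit 0) (nat_lit 3757704619)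 (nat_lit 152) (nat_lit 27941532309) (nat_lit 228) (nat_lit 11193054813) (nat_lit 22) (nat_lit 5) (nat_lit 24) (nat_lit 5) (nat_lit 25) (nat_lit 5) (nat_lit 305) (nat_lit 254) (nat_lit 161)) (XT.nd (nat_lit 78) (nat_lit 76) (nat_lit 0) (XT.lf (nat_lit 0) (nat_lit 24168418713) (nat_lit 152) (nat_lit 16585373125) (nat_lit 228) (nat_lit 3890585735) (nat_lit 22) (nat_lit 5) (nat_lit 24) (nat_lit 5) (nat_lit 25) (nat_lit 5) (nat_lit 306) (nat_lit 254) (nat_lit 160)) (XT.lf (nat_lit 0) (nat_lit 3690879947) (nat_lit 228) (nat_lit 940575284) (nat_lit 76) (nat_lit 41851912344) (nat_lit 21) (nat_lit 5) (nat_lit 24) (nat_lit 5) (nat_lit 22) (nat_lit 5) (nat_lit 307) (nat_lit 254) (nat_lit 159))))) (XT.nd (nat_lit 234) (nat_lit 152) (nat_lit 0) (XT.nd (nat_lit 78) (nat_lit 152) (nat_lit 0) (XT.lf (nat_lit 0) (nat_lit 11829527260) (nat_lit 228) (nat_lit 28584368092) (nat_lit 76) (nat_lit 7991514548) (nat_lit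 19) (nat_lit 5) (nat_lit 22) (nat_lit 5) (nat_lit 20) (nat_lit 5) (nat_lit 308) (nat_lit 254) (nat_lit 158)) (XT.nd (nat_lit 78) (nat_lit 152) (nat_lit 0) (XT.lf (nat_lit 0) (nat_lit 20420119456) (nat_lit 228) (nat_lit 8848383292) (nat_lit 76) (nat_lit 21153716068) (nat_lit 19) (nat_lit 5) (nat_lit 22) (nat_lit 5) (nat_lit 20) (nat_lit 5) (nat_lit 309) (nat_lit 254) (nat_lit 157)) (XT.lf (nat_lit 0) (nat_lit 12092587669) (nat_lit 152) (nat_lit 17452930997) (nat_lit 228) (nat_lit 22991205329) (nat_lit 17) (nat_lit 5) (nat_lit 19) (nat_lit 5) (nat_lit 20) (nat_lit 5) (nat_lit 310) (nat_lit 254) (nat_lit 156)))) (XT.nd (nat_lit 78) (nat_lit 152) (nat_lit 0) (XT.lf (nat_lit 0) (nat_lit 34248239092) (nat_lit 152) (nat_lit 4959427150) (nat_lit 228) (nat_lit 15546887308) (nat_lit 17) (nat_lit 5) (nat_lit 19) (nat_lit 5) (nat_lit 20) (nat_lit 5) (nat_lit 311) (nat_lit 254) (nat_lit 155)) (XT.nd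 (nat_lit 78) (nat_lit 76) (nat_lit 0) (XT.lf (nat_lit 0) (nat_lit 339898608) (nat_lit 76) (nat_lit 49084553040) (nat_lit 152) (nat_lit 7656689848) (nat_lit 16) (nat_lit 5) (nat_lit 17) (nat_lit 5) (nat_lit 18) (nat_lit 4) (nat_lit 312) (nat_lit 254) (nat_lit 154)) (XT.lf (nat_lit 0) (nat_lit 869058628) (nat_lit 152) (nat_lit 36935402201) (nat_lit 76) (nat_lit 21711829885) (nat_lit 15) (nat_lit 5) (nat_lit 17) (nat_lit 5) (nat_lit 16) (nat_lit 5) (nat_lit 313) (nat_lit 254) (nat_lit 153))))))) (XT.nd (nat_lit 858) (nat_lit 76) (nat_lit 0) (XT.nd (nat_lit 390) (nat_lit 228) (nat_lit 0) (XT.nd (nat_lit 156) (nat_lit 76) (nat_lit 0) (XT.nd (nat_lit 78) (nat_lit 152) (nat_lit 0) (XT.lf (nat_lit 0) (nat_lit 9654742899) (nat_lit 152) (nat_lit 16232204162) (nat_lit 76) (nat_lit 36184227348) (nat_lit 15) (nat_lit 5) (nat_lit 17) (nat_lit 5) (nat_lit 16) (nat_lit 5) (nat_lit 314) (nat_lit 254) (nat_lit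 152)) (XT.lf (nat_lit 0) (nat_lit 5600531893) (nat_lit 152) (nat_lit 13323994703) (nat_lit 228) (nat_lit 45827941994) (nat_lit 13) (nat_lit 5) (nat_lit 15) (nat_lit 5) (nat_lit 16) (nat_lit 5) (nat_lit 315) (nat_lit 254) (nat_lit 151))) (XT.nd (nat_lit 78) (nat_lit 76) (nat_lit 0) (XT.lf (nat_lit 0) (nat_lit 28816487191) (nat_lit 228) (nat_lit 38713779427) (nat_lit 76) (nat_lit 32810476) (nat_lit 13) (nat_lit 5) (nat_lit 16) (nat_lit 5) (nat_lit 14) (nat_lit 4) (nat_lit 316) (nat_lit 254) (nat_lit 150)) (XT.nd (nat_lit 78) (nat_lit 76) (nat_lit 0) (XT.lf (nat_lit 0) (nat_lit 39329161018) (nat_lit 228) (nat_lit 17402194654) (nat_lit 76) (nat_lit 13779086652) (nat_lit 13) (nat_lit 5) (nat_lit 16) (nat_lit 5) (nat_lit 14) (nat_lit 4) (nat_lit 317) (nat_lit 254) (nat_lit 149)) (XT.lf (nat_lit 0) (nat_lit 5060384197) (nat_lit 76) (nat_lit 45347759177) (nat_lit 152) (nat_lit 23195821491) (nat_lit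 12) (nat_lit 5) (nat_lit 13) (nat_lit 5) (nat_lit 14) (nat_lit 4) (nat_lit 318) (nat_lit 254) (nat_lit 148))))) (XT.nd (nat_lit 234) (nat_lit 152) (nat_lit 0) (XT.nd (nat_lit 78) (nat_lit 76) (nat_lit 0) (XT.lf (nat_lit 0) (nat_lit 28996797341) (nat_lit 76) (nat_lit 33215704058) (nat_lit 152) (nat_lit 14634528186) (nat_lit 12) (nat_lit 5) (nat_lit 13) (nat_lit 5) (nat_lit 14) (nat_lit 4) (nat_lit 319) (nat_lit 254) (nat_lit 147)) (XT.nd (nat_lit 78) (nat_lit 76) (nat_lit 0) (XT.lf (nat_lit 0) (nat_lit 54117698442) (nat_lit 76) (nat_lit 20482032517) (nat_lit 152) (nat_lit 5652745405) (nat_lit 12) (nat_lit 5) (nat_lit 13) (nat_lit 5) (nat_lit 14) (nat_lit 4) (nat_lit 320) (nat_lit 254) (nat_lit 146)) (XT.lf (nat_lit 0) (nat_lit 3697327973) (nat_lit 152) (nat_lit 3381762549) (nat_lit 76) (nat_lit 76748235431) (nat_lit 11) (nat_lit 5) (nat_lit 13) (nat_lit 5) (nat_lit 12) (nat_lit 5) (nat_lit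 321) (nat_lit 254) (nat_lit 145)))) (XT.nd (nat_lit 78) (nat_lit 0) (nat_lit 0) (XT.lf (nat_lit 0) (nat_lit 13662480243) (nat_lit 228) (nat_lit 66795811594) (nat_lit 76) (nat_lit 7113020096) (nat_lit 9) (nat_lit 5) (nat_lit 12) (nat_lit 5) (nat_lit 10) (nat_lit 4) (nat_lit 322) (nat_lit 254) (nat_lit 144)) (XT.nd (nat_lit 78) (nat_lit 0) (nat_lit 0) (XT.lf (nat_lit 0) (nat_lit 24225933157) (nat_lit 228) (nat_lit 45373115798) (nat_lit 76) (nat_lit 21900454034) (nat_lit 9) (nat_lit 5) (nat_lit 12) (nat_lit 5) (nat_lit 10) (nat_lit 4) (nat_lit 323) (nat_lit 254) (nat_lit 143)) (XT.lf (nat_lit 0) (nat_lit 35311306446) (nat_lit 228) (nat_lit 22889916228) (nat_lit 76) (nat_lit 37423075224) (nat_lit 9) (nat_lit 5) (nat_lit 12) (nat_lit 5) (nat_lit 10) (nat_lit 4) (nat_lit 324) (nat_lit 254) (nat_lit 142)))))) (XT.nd (nat_lit 32136) (nat_lit 0) (nat_lit 11400) (XT.nd (nat_lit 156) (nat_lit 0) (nat_lit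 0) (XT.nd (nat_lit 78) (nat_lit 0) (nat_lit 0) (XT.lf (nat_lit 0) (nat_lit 721395568) (nat_lit 76) (nat_lit 46230532786) (nat_lit 152) (nat_lit 53003381213) (nat_lit 8) (nat_lit 5) (nat_lit 9) (nat_lit 5) (nat_lit 10) (nat_lit 4) (nat_lit 325) (nat_lit 254) (nat_lit 141)) (XT.lf (nat_lit 0) (nat_lit 25981770328) (nat_lit 76) (nat_lit 33422676990) (nat_lit 152) (nat_lit 45091534629) (nat_lit 8) (nat_lit 5) (nat_lit 9) (nat_lit 5) (nat_lit 10) (nat_lit 4) (nat_lit 326) (nat_lit 254) (nat_lit 140))) (XT.nd (nat_lit 78) (nat_lit 0) (nat_lit 0) (XT.lf (nat_lit 0) (nat_lit 52495797586) (nat_lit 76) (nat_lit 19978303666) (nat_lit 152) (nat_lit 36789757239) (nat_lit 8) (nat_lit 5) (nat_lit 9) (nat_lit 5) (nat_lit 10) (nat_lit 4) (nat_lit 327) (nat_lit 254) (nat_lit 139)) (XT.nd (nat_lit 31824) (nat_lit 0) (nat_lit 12160) (XT.lf (nat_lit 0) (nat_lit 80326605977) (nat_lit 76) (nat_lit 5865402399)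 (nat_lit 152) (nat_lit 28078282909) (nat_lit 8) (nat_lit 5) (nat_lit 9) (nat_lit 5) (nat_lit 10) (nat_lit 4) (nat_lit 328) (nat_lit 254) (nat_lit 138)) (XT.lf (nat_lit 0) (nat_lit 1920984817) (nat_lit 988) (nat_lit 1326425161) (nat_lit 988) (nat_lit 1326425161) (nat_lit 168) (nat_lit 3) (nat_lit 181) (nat_lit 3) (nat_lit 181) (nat_lit 5) (nat_lit 255) (nat_lit 255) (nat_lit 210))))) (XT.nd (nat_lit 234) (nat_lit 760) (nat_lit 0) (XT.nd (nat_lit 78) (nat_lit 0) (nat_lit 76) (XT.lf (nat_lit 76) (nat_lit 3713100290) (nat_lit 0) (nat_lit 1530473313) (nat_lit 988) (nat_lit 4089868135) (nat_lit 169) (nat_lit 5) (nat_lit 168) (nat_lit 3) (nat_lit 181) (nat_lit 5) (nat_lit 256) (nat_lit 255) (nat_lit 209)) (XT.nd (nat_lit 78) (nat_lit 0) (nat_lit 0) (XT.lf (nat_lit 76) (nat_lit 860342700) (nat_lit 0) (nat_lit 5844833959) (nat_lit 988) (nat_lit 2823867824) (nat_lit 170) (nat_lit 5) (nat_lit 169)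 (nat_lit 5) (nat_lit 182) (nat_lit 5) (nat_lit 257) (nat_lit 255) (nat_lit 208)) (XT.lf (nat_lit 76) (nat_lit 7722186544) (nat_lit 0) (nat_lit 512945076) (nat_lit 988) (nat_lit 1499666434) (nat_lit 170) (nat_lit 5) (nat_lit 169) (nat_lit 5) (nat_lit 182) (nat_lit 5) (nat_lit 258) (nat_lit 255) (nat_lit 207)))) (XT.nd (nat_lit 78) (nat_lit 912) (nat_lit 0) (XT.lf (nat_lit 76) (nat_lit 4979369377) (nat_lit 0) (nat_lit 4885097876) (nat_lit 988) (nat_lit 85903503) (nat_lit 171) (nat_lit 5) (nat_lit 170) (nat_lit 5) (nat_lit 183) (nat_lit 5) (nat_lit 259) (nat_lit 255) (nat_lit 206)) (XT.nd (nat_lit 78) (nat_lit 0) (nat_lit 0) (XT.lf (nat_lit 0) (nat_lit 1354356905) (nat_lit 988) (nat_lit 8020332598) (nat_lit 1064) (nat_lit 802337797) (nat_lit 158) (nat_lit 5) (nat_lit 171) (nat_lit 5) (nat_lit 172) (nat_lit 5) (nat_lit 260) (nat_lit 255) (nat_lit 205)) (XT.lf (nat_lit 0) (nat_lit 2897402830)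 (nat_lit 988) (nat_lit 766216073) (nat_lit 1064) (nat_lit 6750587701) (nat_lit 158) (nat_lit 5) (nat_lit 171) (nat_lit 5) (nat_lit 172) (nat_lit 5) (nat_lit 261) (nat_lit 255) (nat_lit 204))))))))
noncomputable def xc79 : XT := (XT.nd (nat_lit 1638) (nat_lit 3268) (nat_lit 0) (XT.nd (nat_lit 780) (nat_lit 3344) (nat_lit 0) (XT.nd (nat_lit 390) (nat_lit 2736) (nat_lit 0) (XT.nd (nat_lit 156) (nat_lit 912) (nat_lit 0) (XT.nd (nat_lit 78) (nat_lit 0) (nat_lit 0) (XT.lf (nat_lit 0) (nat_lit 4542420761) (nat_lit 988) (nat_lit 3745091236) (nat_lit 1064) (nat_lit 2375171068) (nat_lit 159) (nat_lit 5) (nat_lit 172) (nat_lit 5) (nat_lit 173) (nat_lit 5) (nat_lit 262) (nat_lit 255) (nat_lit 203)) (XT.lf (nat_lit 76) (nat_lit 4075277990) (nat_lit 0) (nat_lit 2216210643) (nat_lit 1064) (nat_lit 4631614824) (nat_lit 160) (nat_lit 5) (nat_lit 159) (nat_lit 5) (nat_lit 173) (nat_lit 5) (nat_lit 263) (nat_lit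 255) (nat_lit 202))) (XT.nd (nat_lit 78) (nat_lit 988) (nat_lit 0) (XT.lf (nat_lit 76) (nat_lit 1104482754) (nat_lit 0) (nat_lit 7053428843) (nat_lit 1064) (nat_lit 3037902009) (nat_lit 161) (nat_lit 5) (nat_lit 160) (nat_lit 5) (nat_lit 174) (nat_lit 5) (nat_lit 264) (nat_lit 255) (nat_lit 201)) (XT.nd (nat_lit 78) (nat_lit 988) (nat_lit 0) (XT.lf (nat_lit 76) (nat_lit 9529766443) (nat_lit 0) (nat_lit 623313545) (nat_lit 1064) (nat_lit 1328174442) (nat_lit 161) (nat_lit 5) (nat_lit 160) (nat_lit 5) (nat_lit 174) (nat_lit 5) (nat_lit 265) (nat_lit 255) (nat_lit 200)) (XT.lf (nat_lit 0) (nat_lit 526626793) (nat_lit 1064) (nat_lit 5163282672) (nat_lit 76) (nat_lit 6089008114) (nat_lit 147) (nat_lit 5) (nat_lit 161) (nat_lit 5) (nat_lit 148) (nat_lit 5) (nat_lit 266) (nat_lit 255) (nat_lit 199))))) (XT.nd (nat_lit 156) (nat_lit 1064) (nat_lit 0) (XT.nd (nat_lit 78) (nat_lit 608) (nat_lit 0)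 (XT.lf (nat_lit 0) (nat_lit 2465629630) (nat_lit 1140) (nat_lit 8535511044) (nat_lit 76) (nat_lit 1089499840) (nat_lit 133) (nat_lit 5) (nat_lit 148) (nat_lit 5) (nat_lit 134) (nat_lit 5) (nat_lit 267) (nat_lit 255) (nat_lit 198)) (XT.lf (nat_lit 0) (nat_lit 303936808) (nat_lit 608) (nat_lit 4260982045) (nat_lit 684) (nat_lit 7851263080) (nat_lit 125) (nat_lit 5) (nat_lit 133) (nat_lit 5) (nat_lit 134) (nat_lit 5) (nat_lit 268) (nat_lit 255) (nat_lit 197))) (XT.nd (nat_lit 78) (nat_lit 1064) (nat_lit 0) (XT.lf (nat_lit 0) (nat_lit 6836327159) (nat_lit 684) (nat_lit 3064967481) (nat_lit 76) (nat_lit 2854817260) (nat_lit 125) (nat_lit 5) (nat_lit 134) (nat_lit 5) (nat_lit 126) (nat_lit 5) (nat_lit 269) (nat_lit 255) (nat_lit 196)) (XT.nd (nat_lit 78) (nat_lit 532) (nat_lit 0) (XT.lf (nat_lit 0) (nat_lit 6474788303) (nat_lit 532) (nat_lit 2805429300) (nat_lit 608) (nat_lit 3831173524) (nat_lit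 118) (nat_lit 5) (nat_lit 125) (nat_lit 5) (nat_lit 126) (nat_lit 5) (nat_lit 270) (nat_lit 255) (nat_lit 195)) (XT.lf (nat_lit 0) (nat_lit 3043047698) (nat_lit 532) (nat_lit 8864515099) (nat_lit 608) (nat_lit 1575148101) (nat_lit 111) (nat_lit 5) (nat_lit 118) (nat_lit 5) (nat_lit 119) (nat_lit 5) (nat_lit 271) (nat_lit 255) (nat_lit 194)))))) (XT.nd (nat_lit 390) (nat_lit 1976) (nat_lit 0) (XT.nd (nat_lit 156) (nat_lit 836) (nat_lit 0) (XT.nd (nat_lit 78) (nat_lit 456) (nat_lit 0) (XT.lf (nat_lit 0) (nat_lit 832176706) (nat_lit 608) (nat_lit 604985583) (nat_lit 76) (nat_lit 12433691692) (nat_lit 110) (nat_lit 5) (nat_lit 118) (nat_lit 5) (nat_lit 111) (nat_lit 5) (nat_lit 272) (nat_lit 255) (nat_lit 193)) (XT.lf (nat_lit 0) (nat_lit 3443329588) (nat_lit 532) (nat_lit 4481930027) (nat_lit 76) (nat_lit 6349296322) (nat_lit 104) (nat_lit 5) (nat_lit 111) (nat_lit 5) (nat_lit 105) (nat_lit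 5) (nat_lit 273) (nat_lit 255) (nat_lit 192))) (XT.nd (nat_lit 78) (nat_lit 380) (nat_lit 0) (XT.lf (nat_lit 0) (nat_lit 6087494253) (nat_lit 456) (nat_lit 137174381) (nat_lit 532) (nat_lit 8472681440) (nat_lit 98) (nat_lit 5) (nat_lit 104) (nat_lit 5) (nat_lit 105) (nat_lit 5) (nat_lit 274) (nat_lit 255) (nat_lit 191)) (XT.nd (nat_lit 78) (nat_lit 0) (nat_lit 0) (XT.lf (nat_lit 0) (nat_lit 2060340052) (nat_lit 380) (nat_lit 7190226011) (nat_lit 456) (nat_lit 5887644481) (nat_lit 93) (nat_lit 5) (nat_lit 98) (nat_lit 5) (nat_lit 99) (nat_lit 5) (nat_lit 275) (nat_lit 255) (nat_lit 190)) (XT.lf (nat_lit 0) (nat_lit 12489854928) (nat_lit 456) (nat_lit 2205992874) (nat_lit 76) (nat_lit 903490355) (nat_lit 93) (nat_lit 5) (nat_lit 99) (nat_lit 5) (nat_lit 94) (nat_lit 5) (nat_lit 276) (nat_lit 255) (nat_lit 189))))) (XT.nd (nat_lit 234) (nat_lit 1064) (nat_lit 0) (XT.nd (nat_lit 78) (nat_lit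 456) (nat_lit 0) (XT.lf (nat_lit 0) (nat_lit 9278687013) (nat_lit 456) (nat_lit 6739143525) (nat_lit 532) (nat_lit 61972821) (nat_lit 87) (nat_lit 5) (nat_lit 93) (nat_lit 5) (nat_lit 94) (nat_lit 5) (nat_lit 277) (nat_lit 255) (nat_lit 188)) (XT.nd (nat_lit 78) (nat_lit 0) (nat_lit 0) (XT.lf (nat_lit 0) (nat_lit 3128310063) (nat_lit 456) (nat_lit 11773933238) (nat_lit 76) (nat_lit 1679671372) (nat_lit 81) (nat_lit 5) (nat_lit 87) (nat_lit 5) (nat_lit 82) (nat_lit 5) (nat_lit 278) (nat_lit 255) (nat_lit 187)) (XT.lf (nat_lit 0) (nat_lit 6582625326) (nat_lit 456) (nat_lit 75519346) (nat_lit 76) (nat_lit 10447867457) (nat_lit 81) (nat_lit 5) (nat_lit 87) (nat_lit 5) (nat_lit 82) (nat_lit 5) (nat_lit 279) (nat_lit 255) (nat_lit 186)))) (XT.nd (nat_lit 78) (nat_lit 684) (nat_lit 0) (XT.lf (nat_lit 0) (nat_lit 10317945590) (nat_lit 456) (nat_lit 5261000507) (nat_lit 76) (nat_lit 2074189189) (nat_lit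 76) (nat_lit 5) (nat_lit 82) (nat_lit 5) (nat_lit 77) (nat_lit 5) (nat_lit 280) (nat_lit 255) (nat_lit 185)) (XT.nd (nat_lit 78) (nat_lit 380) (nat_lit 0) (XT.lf (nat_lit 0) (nat_lit 7295491958) (nat_lit 304) (nat_lit 7052381969) (nat_lit 380) (nat_lit 3876571607) (nat_lit 72) (nat_lit 5) (nat_lit 76) (nat_lit 5) (nat_lit 77) (nat_lit 5) (nat_lit 281) (nat_lit 255) (nat_lit 184)) (XT.lf (nat_lit 0) (nat_lit 1745673702) (nat_lit 380) (nat_lit 16894128397) (nat_lit 456) (nat_lit 182767136) (nat_lit 67) (nat_lit 5) (nat_lit 72) (nat_lit 5) (nat_lit 73) (nat_lit 5) (nat_lit 282) (nat_lit 255) (nat_lit 183))))))) (XT.nd (nat_lit 858) (nat_lit 1216) (nat_lit 0) (XT.nd (nat_lit 390) (nat_lit 1064) (nat_lit 0) (XT.nd (nat_lit 156) (nat_lit 608) (nat_lit 0) (XT.nd (nat_lit 78) (nat_lit 304) (nat_lit 0) (XT.lf (nat_lit 0) (nat_lit 3779882631) (nat_lit 456) (nat_lit 4308842908) (nat_lit 76) (nat_lit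 11356177945) (nat_lit 66) (nat_lit 5) (nat_lit 72) (nat_lit 5) (nat_lit 67) (nat_lit 5) (nat_lit 283) (nat_lit 255) (nat_lit 182)) (XT.lf (nat_lit 0) (nat_lit 8010536172) (nat_lit 380) (nat_lit 10866837402) (nat_lit 76) (nat_lit 1218772566) (nat_lit 62) (nat_lit 5) (nat_lit 67) (nat_lit 5) (nat_lit 63) (nat_lit 5) (nat_lit 284) (nat_lit 255) (nat_lit 181))) (XT.nd (nat_lit 78) (nat_lit 304) (nat_lit 0) (XT.lf (nat_lit 0) (nat_lit 2691970400) (nat_lit 304) (nat_lit 9886797980) (nat_lit 380) (nat_lit 8197454042) (nat_lit 58) (nat_lit 5) (nat_lit 62) (nat_lit 5) (nat_lit 63) (nat_lit 5) (nat_lit 285) (nat_lit 255) (nat_lit 180)) (XT.nd (nat_lit 78) (nat_lit 304) (nat_lit 0) (XT.lf (nat_lit 0) (nat_lit 17122516984) (nat_lit 304) (nat_lit 339423325) (nat_lit 380) (nat_lit 4025816720) (nat_lit 58) (nat_lit 5) (nat_lit 62) (nat_lit 5) (nat_lit 63) (nat_lit 5) (nat_lit 286) (nat_lit 255) (nat_lit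 179)) (XT.lf (nat_lit 0) (nat_lit 515181083) (nat_lit 304) (nat_lit 12123451024) (nat_lit 76) (nat_lit 9591149790) (nat_lit 54) (nat_lit 5) (nat_lit 58) (nat_lit 5) (nat_lit 55) (nat_lit 5) (nat_lit 287) (nat_lit 255) (nat_lit 178))))) (XT.nd (nat_lit 234) (nat_lit 532) (nat_lit 0) (XT.nd (nat_lit 78) (nat_lit 228) (nat_lit 0) (XT.lf (nat_lit 0) (nat_lit 2354597033) (nat_lit 304) (nat_lit 2893957871) (nat_lit 380) (nat_lit 17757744074) (nat_lit 50) (nat_lit 5) (nat_lit 54) (nat_lit 5) (nat_lit 55) (nat_lit 5) (nat_lit 288) (nat_lit 255) (nat_lit 177)) (XT.nd (nat_lit 78) (nat_lit 228) (nat_lit 0) (XT.lf (nat_lit 0) (nat_lit 10392288511) (nat_lit 380) (nat_lit 6111494791) (nat_lit 76) (nat_lit 7312690111) (nat_lit 50) (nat_lit 5) (nat_lit 55) (nat_lit 5) (nat_lit 51) (nat_lit 5) (nat_lit 289) (nat_lit 255) (nat_lit 176)) (XT.lf (nat_lit 0) (nat_lit 9277341619) (nat_lit 228) (nat_lit 6612464033)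 (nat_lit 304) (nat_lit 8774493232) (nat_lit 47) (nat_lit 5) (nat_lit 50) (nat_lit 5) (nat_lit 51) (nat_lit 5) (nat_lit 290) (nat_lit 255) (nat_lit 175)))) (XT.nd (nat_lit 78) (nat_lit 532) (nat_lit 0) (XT.lf (nat_lit 0) (nat_lit 21740890237) (nat_lit 304) (nat_lit 56121227) (nat_lit 76) (nat_lit 3755181722) (nat_lit 47) (nat_lit 5) (nat_lit 51) (nat_lit 5) (nat_lit 48) (nat_lit 5) (nat_lit 291) (nat_lit 255) (nat_lit 174)) (XT.nd (nat_lit 78) (nat_lit 228) (nat_lit 0) (XT.lf (nat_lit 0) (nat_lit 1577664652) (nat_lit 304) (nat_lit 10230529306) (nat_lit 76) (nat_lit 14669771789) (nat_lit 43) (nat_lit 5) (nat_lit 47) (nat_lit 5) (nat_lit 44) (nat_lit 5) (nat_lit 292) (nat_lit 255) (nat_lit 173)) (XT.lf (nat_lit 0) (nat_lit 5967190236) (nat_lit 228) (nat_lit 1229097770) (nat_lit 304) (nat_lit 20251469661) (nat_lit 40) (nat_lit 5) (nat_lit 43) (nat_lit 5) (nat_lit 44) (nat_lit 5) (nat_lit 293)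 (nat_lit 255) (nat_lit 172)))))) (XT.nd (nat_lit 390) (nat_lit 532) (nat_lit 0) (XT.nd (nat_lit 156) (nat_lit 456) (nat_lit 0) (XT.nd (nat_lit 78) (nat_lit 228) (nat_lit 0) (XT.lf (nat_lit 0) (nat_lit 13278109475) (nat_lit 304) (nat_lit 5398128818) (nat_lit 76) (nat_lit 9784365010) (nat_lit 40) (nat_lit 5) (nat_lit 44) (nat_lit 5) (nat_lit 41) (nat_lit 5) (nat_lit 294) (nat_lit 255) (nat_lit 171)) (XT.lf (nat_lit 0) (nat_lit 11677391706) (nat_lit 228) (nat_lit 8093140806) (nat_lit 304) (nat_lit 9750393988) (nat_lit 37) (nat_lit 5) (nat_lit 40) (nat_lit 5) (nat_lit 41) (nat_lit 5) (nat_lit 295) (nat_lit 255) (nat_lit 170))) (XT.nd (nat_lit 78) (nat_lit 456) (nat_lit 0) (XT.lf (nat_lit 0) (nat_lit 26655109741) (nat_lit 304) (nat_lit 968896020) (nat_lit 76) (nat_lit 3008263245) (nat_lit 37) (nat_lit 5) (nat_lit 41) (nat_lit 5) (nat_lit 38) (nat_lit 5) (nat_lit 296) (nat_lit 255) (nat_lit 169))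 (XT.nd (nat_lit 78) (nat_lit 228) (nat_lit 0) (XT.lf (nat_lit 0) (nat_lit 2274369197) (nat_lit 228) (nat_lit 14840618547) (nat_lit 76) (nat_lit 14676707260) (nat_lit 34) (nat_lit 5) (nat_lit 37) (nat_lit 5) (nat_lit 35) (nat_lit 5) (nat_lit 297) (nat_lit 255) (nat_lit 168)) (XT.lf (nat_lit 0) (nat_lit 2767661058) (nat_lit 228) (nat_lit 6009610847) (nat_lit 304) (nat_lit 24230033176) (nat_lit 31) (nat_lit 5) (nat_lit 34) (nat_lit 5) (nat_lit 35) (nat_lit 5) (nat_lit 298) (nat_lit 255) (nat_lit 167))))) (XT.nd (nat_lit 234) (nat_lit 380) (nat_lit 0) (XT.nd (nat_lit 78) (nat_lit 152) (nat_lit 0) (XT.lf (nat_lit 0) (nat_lit 15798007682) (nat_lit 304) (nat_lit 12792789534) (nat_lit 76) (nat_lit 5687142247) (nat_lit 31) (nat_lit 5) (nat_lit 35) (nat_lit 5) (nat_lit 32) (nat_lit 5) (nat_lit 299) (nat_lit 255) (nat_lit 166)) (XT.nd (nat_lit 78) (nat_lit 0) (nat_lit 0) (XT.lf (nat_lit 0) (nat_lit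 5550904468) (nat_lit 152) (nat_lit 17717731944) (nat_lit 228) (nat_lit 12340526740) (nat_lit 29) (nat_lit 5) (nat_lit 31) (nat_lit 5) (nat_lit 32) (nat_lit 5) (nat_lit 300) (nat_lit 255) (nat_lit 165)) (XT.lf (nat_lit 0) (nat_lit 25056613972) (nat_lit 152) (nat_lit 6173219670) (nat_lit 228) (nat_lit 5773625439) (nat_lit 29) (nat_lit 5) (nat_lit 31) (nat_lit 5) (nat_lit 32) (nat_lit 5) (nat_lit 301) (nat_lit 255) (nat_lit 164)))) (XT.nd (nat_lit 78) (nat_lit 152) (nat_lit 0) (XT.lf (nat_lit 0) (nat_lit 1212513357) (nat_lit 228) (nat_lit 31345728663) (nat_lit 76) (nat_lit 5905541451) (nat_lit 26) (nat_lit 5) (nat_lit 29) (nat_lit 5) (nat_lit 27) (nat_lit 5) (nat_lit 302) (nat_lit 255) (nat_lit 163)) (XT.nd (nat_lit 78) (nat_lit 152) (nat_lit 0) (XT.lf (nat_lit 0) (nat_lit 8602452305) (nat_lit 228) (nat_lit 12750846056) (nat_lit 76) (nat_lit 18636913283) (nat_lit 26) (nat_lit 5) (nat_lit 29)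 (nat_lit 5) (nat_lit 27) (nat_lit 5) (nat_lit 303) (nat_lit 255) (nat_lit 162)) (XT.lf (nat_lit 0) (nat_lit 6887742447) (nat_lit 152) (nat_lit 9527291112) (nat_lit 228) (nat_lit 25176351898) (nat_lit 24) (nat_lit 5) (nat_lit 26) (nat_lit 5) (nat_lit 27) (nat_lit 5) (nat_lit 304) (nat_lit 255) (nat_lit 161))))))))
noncomputable def xc80 : XT := (XT.nd (nat_lit 1638) (nat_lit 76) (nat_lit 0) (XT.nd (nat_lit 780) (nat_lit 456) (nat_lit 0) (XT.nd (nat_lit 390) (nat_lit 304) (nat_lit 0) (XT.nd (nat_lit 156) (nat_lit 228) (nat_lit 0) (XT.nd (nat_lit 78) (nat_lit 152) (nat_lit 0) (XT.lf (nat_lit 0) (nat_lit 24765880714) (nat_lit 228) (nat_lit 15543228983) (nat_lit 76) (nat_lit 2959096861) (nat_lit 24) (nat_lit 5) (nat_lit 27) (nat_lit 5) (nat_lit 25) (nat_lit 5) (nat_lit 305) (nat_lit 255) (nat_lit 160)) (XT.lf (nat_lit 0) (nat_lit 4548580683) (nat_lit 152) (nat_lit 29113477332) (nat_lit 228) (nat_lit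 11362993927) (nat_lit 22) (nat_lit 5) (nat_lit 24) (nat_lit 5) (nat_lit 25) (nat_lit 5) (nat_lit 306) (nat_lit 255) (nat_lit 159))) (XT.nd (nat_lit 78) (nat_lit 228) (nat_lit 0) (XT.lf (nat_lit 0) (nat_lit 25951116633) (nat_lit 152) (nat_lit 17200230740) (nat_lit 228) (nat_lit 3713959187) (nat_lit 22) (nat_lit 5) (nat_lit 24) (nat_lit 5) (nat_lit 25) (nat_lit 5) (nat_lit 307) (nat_lit 255) (nat_lit 158)) (XT.nd (nat_lit 78) (nat_lit 152) (nat_lit 0) (XT.lf (nat_lit 0) (nat_lit 4222007989) (nat_lit 228) (nat_lit 433319193) (nat_lit 76) (nat_lit 44141354558) (nat_lit 21) (nat_lit 5) (nat_lit 24) (nat_lit 5) (nat_lit 22) (nat_lit 5) (nat_lit 308) (nat_lit 255) (nat_lit 157)) (XT.lf (nat_lit 0) (nat_lit 12758211777) (nat_lit 228) (nat_lit 29466650212) (nat_lit 76) (nat_lit 8590267217) (nat_lit 19) (nat_lit 5) (nat_lit 22) (nat_lit 5) (nat_lit 20) (nat_lit 5) (nat_lit 309) (nat_lit 255) (nat_lit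 156))))) (XT.nd (nat_lit 156) (nat_lit 152) (nat_lit 0) (XT.nd (nat_lit 78) (nat_lit 152) (nat_lit 0) (XT.lf (nat_lit 0) (nat_lit 21762276051) (nat_lit 228) (nat_lit 8769910757) (nat_lit 76) (nat_lit 22401094196) (nat_lit 19) (nat_lit 5) (nat_lit 22) (nat_lit 5) (nat_lit 20) (nat_lit 5) (nat_lit 310) (nat_lit 255) (nat_lit 155)) (XT.lf (nat_lit 0) (nat_lit 13203177496) (nat_lit 152) (nat_lit 18130338440) (nat_lit 228) (nat_lit 23820328111) (nat_lit 17) (nat_lit 5) (nat_lit 19) (nat_lit 5) (nat_lit 20) (nat_lit 5) (nat_lit 311) (nat_lit 255) (nat_lit 154))) (XT.nd (nat_lit 78) (nat_lit 152) (nat_lit 0) (XT.lf (nat_lit 0) (nat_lit 36442518136) (nat_lit 152) (nat_lit 5021456501) (nat_lit 228) (nat_lit 16019053117) (nat_lit 17) (nat_lit 5) (nat_lit 19) (nat_lit 5) (nat_lit 20) (nat_lit 5) (nat_lit 312) (nat_lit 255) (nat_lit 153)) (XT.nd (nat_lit 78) (nat_lit 76) (nat_lit 0) (XT.lf (nat_lit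 0) (nat_lit 832200077) (nat_lit 76) (nat_lit 51351578778) (nat_lit 152) (nat_lit 7742418748) (nat_lit 16) (nat_lit 5) (nat_lit 17) (nat_lit 5) (nat_lit 18) (nat_lit 4) (nat_lit 313) (nat_lit 255) (nat_lit 152)) (XT.lf (nat_lit 0) (nat_lit 1189947743) (nat_lit 152) (nat_lit 38323647029) (nat_lit 76) (nat_lit 22969856527) (nat_lit 15) (nat_lit 5) (nat_lit 17) (nat_lit 5) (nat_lit 16) (nat_lit 5) (nat_lit 314) (nat_lit 255) (nat_lit 151)))))) (XT.nd (nat_lit 390) (nat_lit 228) (nat_lit 0) (XT.nd (nat_lit 156) (nat_lit 76) (nat_lit 0) (XT.nd (nat_lit 78) (nat_lit 152) (nat_lit 0) (XT.lf (nat_lit 0) (nat_lit 10401704981) (nat_lit 152) (nat_lit 16607123625) (nat_lit 76) (nat_lit 38157662666) (nat_lit 15) (nat_lit 5) (nat_lit 17) (nat_lit 5) (nat_lit 16) (nat_lit 5) (nat_lit 315) (nat_lit 255) (nat_lit 150)) (XT.lf (nat_lit 0) (nat_lit 6304731580) (nat_lit 152) (nat_lit 13821741553) (nat_lit 228)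 (nat_lit 47855647175) (nat_lit 13) (nat_lit 5) (nat_lit 15) (nat_lit 5) (nat_lit 16) (nat_lit 5) (nat_lit 316) (nat_lit 255) (nat_lit 149))) (XT.nd (nat_lit 78) (nat_lit 76) (nat_lit 0) (XT.lf (nat_lit 0) (nat_lit 30502396770) (nat_lit 228) (nat_lit 40239444083) (nat_lit 76) (nat_lit 191751726) (nat_lit 13) (nat_lit 5) (nat_lit 16) (nat_lit 5) (nat_lit 14) (nat_lit 4) (nat_lit 317) (nat_lit 255) (nat_lit 148)) (XT.nd (nat_lit 78) (nat_lit 76) (nat_lit 0) (XT.lf (nat_lit 0) (nat_lit 41529033564) (nat_lit 228) (nat_lit 17881805039) (nat_lit 76) (nat_lit 14617851200) (nat_lit 13) (nat_lit 5) (nat_lit 16) (nat_lit 5) (nat_lit 14) (nat_lit 4) (nat_lit 318) (nat_lit 255) (nat_lit 147)) (XT.lf (nat_lit 0) (nat_lit 5692709170) (nat_lit 76) (nat_lit 47461787011) (nat_lit 152) (nat_lit 24122629317) (nat_lit 12) (nat_lit 5) (nat_lit 13) (nat_lit 5) (nat_lit 14) (nat_lit 4) (nat_lit 319) (nat_lit 255)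 (nat_lit 146))))) (XT.nd (nat_lit 234) (nat_lit 152) (nat_lit 0) (XT.nd (nat_lit 78) (nat_lit 76) (nat_lit 0) (XT.lf (nat_lit 0) (nat_lit 30807880792) (nat_lit 76) (nat_lit 34730432000) (nat_lit 152) (nat_lit 15144365787) (nat_lit 12) (nat_lit 5) (nat_lit 13) (nat_lit 5) (nat_lit 14) (nat_lit 4) (nat_lit 320) (nat_lit 255) (nat_lit 145)) (XT.nd (nat_lit 78) (nat_lit 76) (nat_lit 0) (XT.lf (nat_lit 0) (nat_lit 57167624872) (nat_lit 76) (nat_lit 21367031988) (nat_lit 152) (nat_lit 5724060001) (nat_lit 12) (nat_lit 5) (nat_lit 13) (nat_lit 5) (nat_lit 14) (nat_lit 4) (nat_lit 321) (nat_lit 255) (nat_lit 144)) (XT.lf (nat_lit 0) (nat_lit 4079526760) (nat_lit 152) (nat_lit 3219047376) (nat_lit 76) (nat_lit 80713980723) (nat_lit 11) (nat_lit 5) (nat_lit 13) (nat_lit 5) (nat_lit 12) (nat_lit 5) (nat_lit 322) (nat_lit 255) (nat_lit 143)))) (XT.nd (nat_lit 78) (nat_lit 0) (nat_lit 0) (XT.lf (nat_lit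 0) (nat_lit 14537899670) (nat_lit 228) (nat_lit 69808633608) (nat_lit 76) (nat_lit 7597368321) (nat_lit 9) (nat_lit 5) (nat_lit 12) (nat_lit 5) (nat_lit 10) (nat_lit 4) (nat_lit 323) (nat_lit 255) (nat_lit 142)) (XT.nd (nat_lit 78) (nat_lit 0) (nat_lit 0) (XT.lf (nat_lit 0) (nat_lit 25620368305) (nat_lit 228) (nat_lit 47330372955) (nat_lit 76) (nat_lit 23118045517) (nat_lit 9) (nat_lit 5) (nat_lit 12) (nat_lit 5) (nat_lit 10) (nat_lit 4) (nat_lit 324) (nat_lit 255) (nat_lit 141)) (XT.lf (nat_lit 0) (nat_lit 37251289379) (nat_lit 228) (nat_lit 23737841913) (nat_lit 76) (nat_lit 39410961158) (nat_lit 9) (nat_lit 5) (nat_lit 12) (nat_lit 5) (nat_lit 10) (nat_lit 4) (nat_lit 325) (nat_lit 255) (nat_lit 140))))))) (XT.nd (nat_lit 32604) (nat_lit 0) (nat_lit 7296) (XT.nd (nat_lit 32214) (nat_lit 0) (nat_lit 11248) (XT.nd (nat_lit 156) (nat_lit 0) (nat_lit 0) (XT.nd (nat_lit 78) (nat_lit 0) (nat_lit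 0) (XT.lf (nat_lit 0) (nat_lit 1045534350) (nat_lit 76) (nat_lit 48422871526) (nat_lit 152) (nat_lit 55479423864) (nat_lit 8) (nat_lit 5) (nat_lit 9) (nat_lit 5) (nat_lit 10) (nat_lit 4) (nat_lit 326) (nat_lit 255) (nat_lit 139)) (XT.lf (nat_lit 0) (nat_lit 27555210276) (nat_lit 76) (nat_lit 34980298555) (nat_lit 152) (nat_lit 47180276683) (nat_lit 8) (nat_lit 5) (nat_lit 9) (nat_lit 5) (nat_lit 10) (nat_lit 4) (nat_lit 327) (nat_lit 255) (nat_lit 138))) (XT.nd (nat_lit 31902) (nat_lit 0) (nat_lit 12160) (XT.lf (nat_lit 0) (nat_lit 55381874543) (nat_lit 76) (nat_lit 20869111912) (nat_lit 152) (nat_lit 38471307314) (nat_lit 8) (nat_lit 5) (nat_lit 9) (nat_lit 5) (nat_lit 10) (nat_lit 4) (nat_lit 328) (nat_lit 255) (nat_lit 137)) (XT.nd (nat_lit 78) (nat_lit 0) (nat_lit 0) (XT.lf (nat_lit 0) (nat_lit 3267070088) (nat_lit 988) (nat_lit 747130338) (nat_lit 988) (nat_lit 747130338) (nat_lit 168)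 (nat_lit 3) (nat_lit 181) (nat_lit 3) (nat_lit 181) (nat_lit 5) (nat_lit 256) (nat_lit 256) (nat_lit 208)) (XT.lf (nat_lit 76) (nat_lit 5152974556) (nat_lit 0) (nat_lit 2745855059) (nat_lit 988) (nat_lit 1822453697) (nat_lit 169) (nat_lit 5) (nat_lit 168) (nat_lit 3) (nat_lit 181) (nat_lit 5) (nat_lit 257) (nat_lit 256) (nat_lit 207))))) (XT.nd (nat_lit 156) (nat_lit 0) (nat_lit 76) (XT.nd (nat_lit 78) (nat_lit 988) (nat_lit 0) (XT.lf (nat_lit 76) (nat_lit 2208831590) (nat_lit 0) (nat_lit 7112848069) (nat_lit 988) (nat_lit 608676684) (nat_lit 170) (nat_lit 5) (nat_lit 169) (nat_lit 5) (nat_lit 182) (nat_lit 5) (nat_lit 258) (nat_lit 256) (nat_lit 206)) (XT.lf (nat_lit 0) (nat_lit 656461123) (nat_lit 988) (nat_lit 804809294) (nat_lit 1064) (nat_lit 8688512210) (nat_lit 156) (nat_lit 5) (nat_lit 169) (nat_lit 5) (nat_lit 170) (nat_lit 5) (nat_lit 259) (nat_lit 256) (nat_lit 205))) (XT.nd (nat_lit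 78) (nat_lit 0) (nat_lit 76) (XT.lf (nat_lit 0) (nat_lit 2011055923) (nat_lit 988) (nat_lit 3885142333) (nat_lit 1064) (nat_lit 4482829443) (nat_lit 157) (nat_lit 5) (nat_lit 170) (nat_lit 5) (nat_lit 171) (nat_lit 5) (nat_lit 260) (nat_lit 256) (nat_lit 204)) (XT.nd (nat_lit 78) (nat_lit 0) (nat_lit 0) (XT.lf (nat_lit 0) (nat_lit 3427155783) (nat_lit 988) (nat_lit 7053163174) (nat_lit 1064) (nat_lit 139785589) (nat_lit 158) (nat_lit 5) (nat_lit 171) (nat_lit 5) (nat_lit 172) (nat_lit 5) (nat_lit 261) (nat_lit 256) (nat_lit 203)) (XT.lf (nat_lit 76) (nat_lit 508428735) (nat_lit 0) (nat_lit 4448332548) (nat_lit 1064) (nat_lit 5915367014) (nat_lit 159) (nat_lit 5) (nat_lit 158) (nat_lit 5) (nat_lit 172) (nat_lit 5) (nat_lit 262) (nat_lit 256) (nat_lit 202)))))) (XT.nd (nat_lit 390) (nat_lit 3192) (nat_lit 0) (XT.nd (nat_lit 156) (nat_lit 988) (nat_lit 0) (XT.nd (nat_lit 78) (nat_lit 0) (nat_lit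 0) (XT.lf (nat_lit 0) (nat_lit 6594943346) (nat_lit 988) (nat_lit 2601206041) (nat_lit 1064) (nat_lit 1939806749) (nat_lit 159) (nat_lit 5) (nat_lit 172) (nat_lit 5) (nat_lit 173) (nat_lit 5) (nat_lit 263) (nat_lit 256) (nat_lit 201)) (XT.lf (nat_lit 76) (nat_lit 5572024792) (nat_lit 0) (nat_lit 2784944878) (nat_lit 1064) (nat_lit 3054905536) (nat_lit 160) (nat_lit 5) (nat_lit 159) (nat_lit 5) (nat_lit 173) (nat_lit 5) (nat_lit 264) (nat_lit 256) (nat_lit 200))) (XT.nd (nat_lit 78) (nat_lit 1064) (nat_lit 0) (XT.lf (nat_lit 76) (nat_lit 2475640903) (nat_lit 0) (nat_lit 7766153707) (nat_lit 1064) (nat_lit 1458905078) (nat_lit 161) (nat_lit 5) (nat_lit 160) (nat_lit 5) (nat_lit 174) (nat_lit 5) (nat_lit 265) (nat_lit 256) (nat_lit 199)) (XT.nd (nat_lit 78) (nat_lit 0) (nat_lit 76) (XT.lf (nat_lit 0) (nat_lit 248931217) (nat_lit 1064) (nat_lit 745942308) (nat_lit 1140) (nat_lit 11008080317)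 (nat_lit 146) (nat_lit 5) (nat_lit 160) (nat_lit 5) (nat_lit 161) (nat_lit 5) (nat_lit 266) (nat_lit 256) (nat_lit 198)) (XT.lf (nat_lit 0) (nat_lit 2101463982) (nat_lit 1064) (nat_lit 4115216993) (nat_lit 76) (nat_lit 6100654501) (nat_lit 147) (nat_lit 5) (nat_lit 161) (nat_lit 5) (nat_lit 148) (nat_lit 5) (nat_lit 267) (nat_lit 256) (nat_lit 197))))) (XT.nd (nat_lit 234) (nat_lit 1596) (nat_lit 0) (XT.nd (nat_lit 78) (nat_lit 608) (nat_lit 0) (XT.lf (nat_lit 0) (nat_lit 4073777696) (nat_lit 1140) (nat_lit 7642914572) (nat_lit 76) (nat_lit 930055413) (nat_lit 133) (nat_lit 5) (nat_lit 148) (nat_lit 5) (nat_lit 134) (nat_lit 5) (nat_lit 268) (nat_lit 256) (nat_lit 196)) (XT.nd (nat_lit 78) (nat_lit 0) (nat_lit 0) (XT.lf (nat_lit 0) (nat_lit 1600686138) (nat_lit 608) (nat_lit 4618956375) (nat_lit 684) (nat_lit 6770860030) (nat_lit 125) (nat_lit 5) (nat_lit 133) (nat_lit 5) (nat_lit 134) (nat_lit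 5) (nat_lit 269) (nat_lit 256) (nat_lit 195)) (XT.lf (nat_lit 0) (nat_lit 8535366953) (nat_lit 684) (nat_lit 1952088155) (nat_lit 76) (nat_lit 2862227443) (nat_lit 125) (nat_lit 5) (nat_lit 134) (nat_lit 5) (nat_lit 126) (nat_lit 5) (nat_lit 270) (nat_lit 256) (nat_lit 194)))) (XT.nd (nat_lit 78) (nat_lit 1064) (nat_lit 0) (XT.lf (nat_lit 0) (nat_lit 8028362123) (nat_lit 532) (nat_lit 3020282029) (nat_lit 608) (nat_lit 2675833354) (nat_lit 118) (nat_lit 5) (nat_lit 125) (nat_lit 5) (nat_lit 126) (nat_lit 5) (nat_lit 271) (nat_lit 256) (nat_lit 193)) (XT.nd (nat_lit 78) (nat_lit 532) (nat_lit 0) (XT.lf (nat_lit 0) (nat_lit 4431743307) (nat_lit 532) (nat_lit 9324701896) (nat_lit 608) (nat_lit 359604963) (nat_lit 111) (nat_lit 5) (nat_lit 118) (nat_lit 5) (nat_lit 119) (nat_lit 5) (nat_lit 272) (nat_lit 256) (nat_lit 192)) (XT.lf (nat_lit 0) (nat_lit 580762567) (nat_lit 456) (nat_lit 1507219027)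 (nat_lit 532) (nat_lit 12437038535) (nat_lit 104) (nat_lit 5) (nat_lit 110) (nat_lit 5) (nat_lit 111) (nat_lit 5) (nat_lit 273) (nat_lit 256) (nat_lit 191))))))))
noncomputable def xc81 : XT := (XT.nd (nat_lit 1638) (nat_lit 1900) (nat_lit 0) (XT.nd (nat_lit 780) (nat_lit 1976) (nat_lit 0) (XT.nd (nat_lit 390) (nat_lit 1520) (nat_lit 0) (XT.nd (nat_lit 156) (nat_lit 912) (nat_lit 0) (XT.nd (nat_lit 78) (nat_lit 456) (nat_lit 0) (XT.lf (nat_lit 0) (nat_lit 4777879708) (nat_lit 532) (nat_lit 3498289141) (nat_lit 76) (nat_lit 6674433214) (nat_lit 104) (nat_lit 5) (nat_lit 111) (nat_lit 5) (nat_lit 105) (nat_lit 5) (nat_lit 274) (nat_lit 256) (nat_lit 190)) (XT.lf (nat_lit 0) (nat_lit 7564986804) (nat_lit 456) (nat_lit 89224027) (nat_lit 532) (nat_lit 7741781139) (nat_lit 98) (nat_lit 5) (nat_lit 104) (nat_lit 5) (nat_lit 105) (nat_lit 5) (nat_lit 275) (nat_lit 256) (nat_lit 189))) (XT.nd (nat_lit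 78) (nat_lit 532) (nat_lit 0) (XT.lf (nat_lit 0) (nat_lit 3337523157) (nat_lit 380) (nat_lit 7452415748) (nat_lit 456) (nat_lit 5070327930) (nat_lit 93) (nat_lit 5) (nat_lit 98) (nat_lit 5) (nat_lit 99) (nat_lit 5) (nat_lit 276) (nat_lit 256) (nat_lit 188)) (XT.nd (nat_lit 78) (nat_lit 532) (nat_lit 0) (XT.lf (nat_lit 0) (nat_lit 14140804869) (nat_lit 456) (nat_lit 1165735542) (nat_lit 76) (nat_lit 1039543415) (nat_lit 93) (nat_lit 5) (nat_lit 99) (nat_lit 5) (nat_lit 94) (nat_lit 5) (nat_lit 277) (nat_lit 256) (nat_lit 187)) (XT.lf (nat_lit 0) (nat_lit 936571596) (nat_lit 532) (nat_lit 6000816186) (nat_lit 76) (nat_lit 9914168721) (nat_lit 86) (nat_lit 5) (nat_lit 93) (nat_lit 5) (nat_lit 87) (nat_lit 5) (nat_lit 278) (nat_lit 256) (nat_lit 186))))) (XT.nd (nat_lit 156) (nat_lit 760) (nat_lit 0) (XT.nd (nat_lit 78) (nat_lit 380) (nat_lit 0) (XT.lf (nat_lit 0) (nat_lit 4249484925) (nat_lit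 456) (nat_lit 11225911685) (nat_lit 76) (nat_lit 1904533312) (nat_lit 81) (nat_lit 5) (nat_lit 87) (nat_lit 5) (nat_lit 82) (nat_lit 5) (nat_lit 279) (nat_lit 256) (nat_lit 185)) (XT.lf (nat_lit 0) (nat_lit 1023260968) (nat_lit 380) (nat_lit 6817150270) (nat_lit 456) (nat_lit 10091005949) (nat_lit 76) (nat_lit 5) (nat_lit 81) (nat_lit 5) (nat_lit 82) (nat_lit 5) (nat_lit 280) (nat_lit 256) (nat_lit 184))) (XT.nd (nat_lit 78) (nat_lit 760) (nat_lit 0) (XT.lf (nat_lit 0) (nat_lit 11720615630) (nat_lit 456) (nat_lit 4445599161) (nat_lit 76) (nat_lit 2341035116) (nat_lit 76) (nat_lit 5) (nat_lit 82) (nat_lit 5) (nat_lit 77) (nat_lit 5) (nat_lit 281) (nat_lit 256) (nat_lit 183)) (XT.nd (nat_lit 78) (nat_lit 456) (nat_lit 0) (XT.lf (nat_lit 0) (nat_lit 8707804335) (nat_lit 304) (nat_lit 7212078348) (nat_lit 380) (nat_lit 3188300047) (nat_lit 72) (nat_lit 5) (nat_lit 76) (nat_lit 5) (nat_lit 77)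 (nat_lit 5) (nat_lit 282) (nat_lit 256) (nat_lit 182)) (XT.lf (nat_lit 0) (nat_lit 647444484) (nat_lit 456) (nat_lit 16868151732) (nat_lit 76) (nat_lit 2221381195) (nat_lit 66) (nat_lit 5) (nat_lit 72) (nat_lit 5) (nat_lit 67) (nat_lit 5) (nat_lit 283) (nat_lit 256) (nat_lit 181)))))) (XT.nd (nat_lit 390) (nat_lit 1064) (nat_lit 0) (XT.nd (nat_lit 156) (nat_lit 608) (nat_lit 0) (XT.nd (nat_lit 78) (nat_lit 304) (nat_lit 0) (XT.lf (nat_lit 0) (nat_lit 4764691250) (nat_lit 456) (nat_lit 3514052801) (nat_lit 76) (nat_lit 12112904012) (nat_lit 66) (nat_lit 5) (nat_lit 72) (nat_lit 5) (nat_lit 67) (nat_lit 5) (nat_lit 284) (nat_lit 256) (nat_lit 180)) (XT.lf (nat_lit 0) (nat_lit 9180470505) (nat_lit 380) (nat_lit 10406392221) (nat_lit 76) (nat_lit 1489459769) (nat_lit 62) (nat_lit 5) (nat_lit 67) (nat_lit 5) (nat_lit 63) (nat_lit 5) (nat_lit 285) (nat_lit 256) (nat_lit 179))) (XT.nd (nat_lit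 78) (nat_lit 304) (nat_lit 0) (XT.lf (nat_lit 0) (nat_lit 3801582617) (nat_lit 304) (nat_lit 10148265682) (nat_lit 380) (nat_lit 7841446022) (nat_lit 58) (nat_lit 5) (nat_lit 62) (nat_lit 5) (nat_lit 63) (nat_lit 5) (nat_lit 286) (nat_lit 256) (nat_lit 178)) (XT.nd (nat_lit 78) (nat_lit 304) (nat_lit 0) (XT.lf (nat_lit 0) (nat_lit 18907227306) (nat_lit 304) (nat_lit 134611447) (nat_lit 380) (nat_lit 3497697345) (nat_lit 58) (nat_lit 5) (nat_lit 62) (nat_lit 5) (nat_lit 63) (nat_lit 5) (nat_lit 287) (nat_lit 256) (nat_lit 177)) (XT.lf (nat_lit 0) (nat_lit 1233060575) (nat_lit 304) (nat_lit 11792693451) (nat_lit 76) (nat_lit 10293454471) (nat_lit 54) (nat_lit 5) (nat_lit 58) (nat_lit 5) (nat_lit 55) (nat_lit 5) (nat_lit 288) (nat_lit 256) (nat_lit 176))))) (XT.nd (nat_lit 234) (nat_lit 532) (nat_lit 0) (XT.nd (nat_lit 78) (nat_lit 228) (nat_lit 0) (XT.lf (nat_lit 0) (nat_lit 3382400095) (nat_lit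 304) (nat_lit 2796493057) (nat_lit 380) (nat_lit 17956446430) (nat_lit 50) (nat_lit 5) (nat_lit 54) (nat_lit 5) (nat_lit 55) (nat_lit 5) (nat_lit 289) (nat_lit 256) (nat_lit 175)) (XT.nd (nat_lit 78) (nat_lit 228) (nat_lit 0) (XT.lf (nat_lit 0) (nat_lit 11550225145) (nat_lit 380) (nat_lit 5532288827) (nat_lit 76) (nat_lit 7904455322) (nat_lit 50) (nat_lit 5) (nat_lit 55) (nat_lit 5) (nat_lit 51) (nat_lit 5) (nat_lit 290) (nat_lit 256) (nat_lit 174)) (XT.lf (nat_lit 0) (nat_lit 10600627342) (nat_lit 228) (nat_lit 6699855762) (nat_lit 304) (nat_lit 8577423086) (nat_lit 47) (nat_lit 5) (nat_lit 50) (nat_lit 5) (nat_lit 51) (nat_lit 5) (nat_lit 291) (nat_lit 256) (nat_lit 173)))) (XT.nd (nat_lit 78) (nat_lit 304) (nat_lit 0) (XT.lf (nat_lit 0) (nat_lit 791458041) (nat_lit 228) (nat_lit 22633156362) (nat_lit 304) (nat_lit 3386219460) (nat_lit 44) (nat_lit 5) (nat_lit 47) (nat_lit 5) (nat_lit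 48) (nat_lit 5) (nat_lit 292) (nat_lit 256) (nat_lit 172)) (XT.nd (nat_lit 78) (nat_lit 228) (nat_lit 0) (XT.lf (nat_lit 0) (nat_lit 2231994126) (nat_lit 304) (nat_lit 9918607483) (nat_lit 76) (nat_lit 15633010972) (nat_lit 43) (nat_lit 5) (nat_lit 47) (nat_lit 5) (nat_lit 44) (nat_lit 5) (nat_lit 293) (nat_lit 256) (nat_lit 171)) (XT.lf (nat_lit 0) (nat_lit 7065394056) (nat_lit 228) (nat_lit 1046440983) (nat_lit 304) (nat_lit 20690697518) (nat_lit 40) (nat_lit 5) (nat_lit 43) (nat_lit 5) (nat_lit 44) (nat_lit 5) (nat_lit 294) (nat_lit 256) (nat_lit 170))))))) (XT.nd (nat_lit 858) (nat_lit 684) (nat_lit 0) (XT.nd (nat_lit 390) (nat_lit 532) (nat_lit 0) (XT.nd (nat_lit 156) (nat_lit 456) (nat_lit 0) (XT.nd (nat_lit 78) (nat_lit 228) (nat_lit 0) (XT.lf (nat_lit 0) (nat_lit 14473518932) (nat_lit 304) (nat_lit 4891739305) (nat_lit 76) (nat_lit 10501533906) (nat_lit 40) (nat_lit 5) (nat_lit 44)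 (nat_lit 5) (nat_lit 41) (nat_lit 5) (nat_lit 295) (nat_lit 256) (nat_lit 169)) (XT.lf (nat_lit 0) (nat_lit 13015304877) (nat_lit 228) (nat_lit 8257196859) (nat_lit 304) (nat_lit 9708214283) (nat_lit 37) (nat_lit 5) (nat_lit 40) (nat_lit 5) (nat_lit 41) (nat_lit 5) (nat_lit 296) (nat_lit 256) (nat_lit 168))) (XT.nd (nat_lit 78) (nat_lit 456) (nat_lit 0) (XT.lf (nat_lit 0) (nat_lit 28479060849) (nat_lit 304) (nat_lit 285924070) (nat_lit 76) (nat_lit 3383348784) (nat_lit 37) (nat_lit 5) (nat_lit 41) (nat_lit 5) (nat_lit 38) (nat_lit 5) (nat_lit 297) (nat_lit 256) (nat_lit 167)) (XT.nd (nat_lit 78) (nat_lit 228) (nat_lit 0) (XT.lf (nat_lit 0) (nat_lit 2868180720) (nat_lit 228) (nat_lit 14861892218) (nat_lit 76) (nat_lit 15636052398) (nat_lit 34) (nat_lit 5) (nat_lit 37) (nat_lit 5) (nat_lit 35) (nat_lit 5) (nat_lit 298) (nat_lit 256) (nat_lit 166)) (XT.lf (nat_lit 0) (nat_lit 3606141005) (nat_lit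 228) (nat_lit 6073955744) (nat_lit 304) (nat_lit 24962938914) (nat_lit 31) (nat_lit 5) (nat_lit 34) (nat_lit 5) (nat_lit 35) (nat_lit 5) (nat_lit 299) (nat_lit 256) (nat_lit 165))))) (XT.nd (nat_lit 234) (nat_lit 380) (nat_lit 0) (XT.nd (nat_lit 78) (nat_lit 152) (nat_lit 0) (XT.lf (nat_lit 0) (nat_lit 17031937712) (nat_lit 304) (nat_lit 12753894072) (nat_lit 76) (nat_lit 6192002015) (nat_lit 31) (nat_lit 5) (nat_lit 35) (nat_lit 5) (nat_lit 32) (nat_lit 5) (nat_lit 300) (nat_lit 256) (nat_lit 164)) (XT.nd (nat_lit 78) (nat_lit 0) (nat_lit 0) (XT.lf (nat_lit 0) (nat_lit 6487534563) (nat_lit 152) (nat_lit 18373754574) (nat_lit 228) (nat_lit 12514806263) (nat_lit 29) (nat_lit 5) (nat_lit 31) (nat_lit 5) (nat_lit 32) (nat_lit 5) (nat_lit 301) (nat_lit 256) (nat_lit 163)) (XT.lf (nat_lit 0) (nat_lit 26937144548) (nat_lit 152) (nat_lit 6262962590) (nat_lit 228) (nat_lit 5640643078) (nat_lit 29)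 (nat_lit 5) (nat_lit 31) (nat_lit 5) (nat_lit 32) (nat_lit 5) (nat_lit 302) (nat_lit 256) (nat_lit 162)))) (XT.nd (nat_lit 78) (nat_lit 152) (nat_lit 0) (XT.lf (nat_lit 0) (nat_lit 1674931620) (nat_lit 228) (nat_lit 32284271372) (nat_lit 76) (nat_lit 6415144110) (nat_lit 26) (nat_lit 5) (nat_lit 29) (nat_lit 5) (nat_lit 27) (nat_lit 5) (nat_lit 303) (nat_lit 256) (nat_lit 161)) (XT.nd (nat_lit 78) (nat_lit 152) (nat_lit 0) (XT.lf (nat_lit 0) (nat_lit 9415234534) (nat_lit 228) (nat_lit 12789584812) (nat_lit 76) (nat_lit 19772878554) (nat_lit 26) (nat_lit 5) (nat_lit 29) (nat_lit 5) (nat_lit 27) (nat_lit 5) (nat_lit 304) (nat_lit 256) (nat_lit 160)) (XT.lf (nat_lit 0) (nat_lit 7813768533) (nat_lit 152) (nat_lit 9792045500) (nat_lit 228) (nat_lit 26053521223) (nat_lit 24) (nat_lit 5) (nat_lit 26) (nat_lit 5) (nat_lit 27) (nat_lit 5) (nat_lit 305) (nat_lit 256) (nat_lit 159)))))) (XT.nd (nat_lit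 390) (nat_lit 304) (nat_lit 0) (XT.nd (nat_lit 156) (nat_lit 228) (nat_lit 0) (XT.nd (nat_lit 78) (nat_lit 152) (nat_lit 0) (XT.lf (nat_lit 0) (nat_lit 26358520391) (nat_lit 228) (nat_lit 15757319661) (nat_lit 76) (nat_lit 3304652552) (nat_lit 24) (nat_lit 5) (nat_lit 27) (nat_lit 5) (nat_lit 25) (nat_lit 5) (nat_lit 306) (nat_lit 256) (nat_lit 158)) (XT.lf (nat_lit 0) (nat_lit 5322940178) (nat_lit 152) (nat_lit 30364950207) (nat_lit 228) (nat_lit 11577661877) (nat_lit 22) (nat_lit 5) (nat_lit 24) (nat_lit 5) (nat_lit 25) (nat_lit 5) (nat_lit 307) (nat_lit 256) (nat_lit 157))) (XT.nd (nat_lit 78) (nat_lit 228) (nat_lit 0) (XT.lf (nat_lit 0) (nat_lit 27769558617) (nat_lit 152) (nat_lit 17865765143) (nat_lit 228) (nat_lit 3563007864) (nat_lit 22) (nat_lit 5) (nat_lit 24) (nat_lit 5) (nat_lit 25) (nat_lit 5) (nat_lit 308) (nat_lit 256) (nat_lit 156)) (XT.nd (nat_lit 78) (nat_lit 0) (nat_lit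 0) (XT.lf (nat_lit 0) (nat_lit 48718217) (nat_lit 152) (nat_lit 4699220425) (nat_lit 228) (nat_lit 46478718043) (nat_lit 19) (nat_lit 5) (nat_lit 21) (nat_lit 5) (nat_lit 22) (nat_lit 5) (nat_lit 309) (nat_lit 256) (nat_lit 155)) (XT.lf (nat_lit 0) (nat_lit 13701980101) (nat_lit 228) (nat_lit 30443895390) (nat_lit 76) (nat_lit 9200439935) (nat_lit 19) (nat_lit 5) (nat_lit 22) (nat_lit 5) (nat_lit 20) (nat_lit 5) (nat_lit 310) (nat_lit 256) (nat_lit 154))))) (XT.nd (nat_lit 234) (nat_lit 152) (nat_lit 0) (XT.nd (nat_lit 78) (nat_lit 152) (nat_lit 0) (XT.lf (nat_lit 0) (nat_lit 23141682934) (nat_lit 228) (nat_lit 8735942168) (nat_lit 76) (nat_lit 23693205437) (nat_lit 19) (nat_lit 5) (nat_lit 22) (nat_lit 5) (nat_lit 20) (nat_lit 5) (nat_lit 311) (nat_lit 256) (nat_lit 153)) (XT.nd (nat_lit 78) (nat_lit 0) (nat_lit 0) (XT.lf (nat_lit 0) (nat_lit 14322257408) (nat_lit 152) (nat_lit 18859767737)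 (nat_lit 228) (nat_lit 24720698272) (nat_lit 17) (nat_lit 5) (nat_lit 19) (nat_lit 5) (nat_lit 20) (nat_lit 5) (nat_lit 312) (nat_lit 256) (nat_lit 152)) (XT.lf (nat_lit 0) (nat_lit 38701711697) (nat_lit 152) (nat_lit 5103874445) (nat_lit 228) (nat_lit 16543199825) (nat_lit 17) (nat_lit 5) (nat_lit 19) (nat_lit 5) (nat_lit 20) (nat_lit 5) (nat_lit 313) (nat_lit 256) (nat_lit 151)))) (XT.nd (nat_lit 78) (nat_lit 76) (nat_lit 0) (XT.lf (nat_lit 0) (nat_lit 1304927122) (nat_lit 76) (nat_lit 53749360062) (nat_lit 152) (nat_lit 7860056154) (nat_lit 16) (nat_lit 5) (nat_lit 17) (nat_lit 5) (nat_lit 18) (nat_lit 4) (nat_lit 314) (nat_lit 256) (nat_lit 150)) (XT.nd (nat_lit 78) (nat_lit 0) (nat_lit 0) (XT.lf (nat_lit 0) (nat_lit 1501087927) (nat_lit 152) (nat_lit 39823933432) (nat_lit 76) (nat_lit 24274753116) (nat_lit 15) (nat_lit 5) (nat_lit 17) (nat_lit 5) (nat_lit 16) (nat_lit 5) (nat_lit 315)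 (nat_lit 256) (nat_lit 149)) (XT.lf (nat_lit 0) (nat_lit 11161450036) (nat_lit 152) (nat_lit 17041388427) (nat_lit 76) (nat_lit 40214501764) (nat_lit 15) (nat_lit 5) (nat_lit 17) (nat_lit 5) (nat_lit 16) (nat_lit 5) (nat_lit 316) (nat_lit 256) (nat_lit 148))))))))
noncomputable def xc82 : XT := (XT.nd (nat_lit 33618) (nat_lit 0) (nat_lit 3800) (XT.nd (nat_lit 780) (nat_lit 76) (nat_lit 0) (XT.nd (nat_lit 390) (nat_lit 228) (nat_lit 0) (XT.nd (nat_lit 156) (nat_lit 76) (nat_lit 0) (XT.nd (nat_lit 78) (nat_lit 0) (nat_lit 0) (XT.lf (nat_lit 0) (nat_lit 7004705659) (nat_lit 152) (nat_lit 14360036899) (nat_lit 228) (nat_lit 50009253190) (nat_lit 13) (nat_lit 5) (nat_lit 15) (nat_lit 5) (nat_lit 16) (nat_lit 5) (nat_lit 317) (nat_lit 256) (nat_lit 147)) (XT.lf (nat_lit 0) (nat_lit 32249816127) (nat_lit 228) (nat_lit 41879512146) (nat_lit 76) (nat_lit 344015707) (nat_lit 13) (nat_lit 5) (nat_lit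 16) (nat_lit 5) (nat_lit 14) (nat_lit 4) (nat_lit 318) (nat_lit 256) (nat_lit 146))) (XT.nd (nat_lit 78) (nat_lit 76) (nat_lit 0) (XT.lf (nat_lit 0) (nat_lit 43817199069) (nat_lit 228) (nat_lit 18421700871) (nat_lit 76) (nat_lit 15484626041) (nat_lit 13) (nat_lit 5) (nat_lit 16) (nat_lit 5) (nat_lit 14) (nat_lit 4) (nat_lit 319) (nat_lit 256) (nat_lit 145)) (XT.nd (nat_lit 78) (nat_lit 0) (nat_lit 0) (XT.lf (nat_lit 0) (nat_lit 6321386136) (nat_lit 76) (nat_lit 49695774207) (nat_lit 152) (nat_lit 25117438109) (nat_lit 12) (nat_lit 5) (nat_lit 13) (nat_lit 5) (nat_lit 14) (nat_lit 4) (nat_lit 320) (nat_lit 256) (nat_lit 144)) (XT.lf (nat_lit 0) (nat_lit 32675933410) (nat_lit 76) (nat_lit 36334475358) (nat_lit 152) (nat_lit 15700324387) (nat_lit 12) (nat_lit 5) (nat_lit 13) (nat_lit 5) (nat_lit 14) (nat_lit 4) (nat_lit 321) (nat_lit 256) (nat_lit 143))))) (XT.nd (nat_lit 156) (nat_lit 152)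 (nat_lit 0) (XT.nd (nat_lit 78) (nat_lit 76) (nat_lit 0) (XT.lf (nat_lit 0) (nat_lit 60338061905) (nat_lit 76) (nat_lit 22309213834) (nat_lit 152) (nat_lit 5818587106) (nat_lit 12) (nat_lit 5) (nat_lit 13) (nat_lit 5) (nat_lit 14) (nat_lit 4) (nat_lit 322) (nat_lit 256) (nat_lit 142)) (XT.lf (nat_lit 0) (nat_lit 4462489391) (nat_lit 152) (nat_lit 3079044371) (nat_lit 76) (nat_lit 84866082046) (nat_lit 11) (nat_lit 5) (nat_lit 13) (nat_lit 5) (nat_lit 12) (nat_lit 5) (nat_lit 323) (nat_lit 256) (nat_lit 141))) (XT.nd (nat_lit 78) (nat_lit 0) (nat_lit 0) (XT.lf (nat_lit 0) (nat_lit 15439212264) (nat_lit 228) (nat_lit 73002495162) (nat_lit 76) (nat_lit 8093968910) (nat_lit 9) (nat_lit 5) (nat_lit 12) (nat_lit 5) (nat_lit 10) (nat_lit 4) (nat_lit 324) (nat_lit 256) (nat_lit 140)) (XT.nd (nat_lit 78) (nat_lit 0) (nat_lit 0) (XT.lf (nat_lit 0) (nat_lit 27067498730) (nat_lit 228) (nat_lit 49414443862)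 (nat_lit 76) (nat_lit 24385121291) (nat_lit 9) (nat_lit 5) (nat_lit 12) (nat_lit 5) (nat_lit 10) (nat_lit 4) (nat_lit 325) (nat_lit 256) (nat_lit 139)) (XT.lf (nat_lit 0) (nat_lit 39272055762) (nat_lit 228) (nat_lit 24655736161) (nat_lit 76) (nat_lit 41487388737) (nat_lit 9) (nat_lit 5) (nat_lit 12) (nat_lit 5) (nat_lit 10) (nat_lit 4) (nat_lit 326) (nat_lit 256) (nat_lit 138)))))) (XT.nd (nat_lit 32370) (nat_lit 0) (nat_lit 10488) (XT.nd (nat_lit 32136) (nat_lit 0) (nat_lit 11172) (XT.nd (nat_lit 32058) (nat_lit 0) (nat_lit 12160) (XT.lf (nat_lit 0) (nat_lit 1359098145) (nat_lit 76) (nat_lit 50735908165) (nat_lit 152) (nat_lit 58095457270) (nat_lit 8) (nat_lit 5) (nat_lit 9) (nat_lit 5) (nat_lit 10) (nat_lit 4) (nat_lit 327) (nat_lit 256) (nat_lit 137)) (XT.lf (nat_lit 0) (nat_lit 4564243120) (nat_lit 988) (nat_lit 198894038) (nat_lit 988) (nat_lit 198894038) (nat_lit 168) (nat_lit 3) (nat_lit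 181) (nat_lit 3) (nat_lit 181) (nat_lit 5) (nat_lit 257) (nat_lit 257) (nat_lit 206))) (XT.nd (nat_lit 78) (nat_lit 0) (nat_lit 76) (XT.lf (nat_lit 0) (nat_lit 322106352) (nat_lit 988) (nat_lit 3590766669) (nat_lit 1064) (nat_lit 6222878122) (nat_lit 155) (nat_lit 5) (nat_lit 168) (nat_lit 3) (nat_lit 169) (nat_lit 5) (nat_lit 258) (nat_lit 257) (nat_lit 205)) (XT.nd (nat_lit 78) (nat_lit 0) (nat_lit 0) (XT.lf (nat_lit 0) (nat_lit 1468964441) (nat_lit 988) (nat_lit 6869746712) (nat_lit 1064) (nat_lit 2019576433) (nat_lit 156) (nat_lit 5) (nat_lit 169) (nat_lit 5) (nat_lit 170) (nat_lit 5) (nat_lit 259) (nat_lit 257) (nat_lit 204)) (XT.lf (nat_lit 76) (nat_lit 334536109) (nat_lit 0) (nat_lit 2353776799) (nat_lit 1064) (nat_lit 7903366301) (nat_lit 157) (nat_lit 5) (nat_lit 156) (nat_lit 5) (nat_lit 170) (nat_lit 5) (nat_lit 260) (nat_lit 257) (nat_lit 203))))) (XT.nd (nat_lit 234) (nat_lit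 836) (nat_lit 0) (XT.nd (nat_lit 78) (nat_lit 0) (nat_lit 0) (XT.lf (nat_lit 0) (nat_lit 4015912121) (nat_lit 988) (nat_lit 2869837480) (nat_lit 1064) (nat_lit 3949746393) (nat_lit 157) (nat_lit 5) (nat_lit 170) (nat_lit 5) (nat_lit 171) (nat_lit 5) (nat_lit 261) (nat_lit 257) (nat_lit 202)) (XT.nd (nat_lit 78) (nat_lit 0) (nat_lit 76) (XT.lf (nat_lit 76) (nat_lit 4921660698) (nat_lit 0) (nat_lit 500329955) (nat_lit 1064) (nat_lit 5669315773) (nat_lit 158) (nat_lit 5) (nat_lit 157) (nat_lit 5) (nat_lit 171) (nat_lit 5) (nat_lit 262) (nat_lit 257) (nat_lit 201)) (XT.lf (nat_lit 76) (nat_lit 1739262666) (nat_lit 0) (nat_lit 5208988228) (nat_lit 1064) (nat_lit 4410318047) (nat_lit 159) (nat_lit 5) (nat_lit 158) (nat_lit 5) (nat_lit 172) (nat_lit 5) (nat_lit 263) (nat_lit 257) (nat_lit 200)))) (XT.nd (nat_lit 78) (nat_lit 988) (nat_lit 0) (XT.lf (nat_lit 0) (nat_lit 8580383526) (nat_lit 988)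 (nat_lit 1523883345) (nat_lit 1064) (nat_lit 1534191306) (nat_lit 159) (nat_lit 5) (nat_lit 172) (nat_lit 5) (nat_lit 173) (nat_lit 5) (nat_lit 264) (nat_lit 257) (nat_lit 199)) (XT.nd (nat_lit 78) (nat_lit 988) (nat_lit 0) (XT.lf (nat_lit 76) (nat_lit 7023399639) (nat_lit 0) (nat_lit 3339542420) (nat_lit 1064) (nat_lit 1567478451) (nat_lit 160) (nat_lit 5) (nat_lit 159) (nat_lit 5) (nat_lit 173) (nat_lit 5) (nat_lit 265) (nat_lit 257) (nat_lit 198)) (XT.lf (nat_lit 0) (nat_lit 37375910) (nat_lit 1064) (nat_lit 8443287126) (nat_lit 1140) (nat_lit 3755260553) (nat_lit 146) (nat_lit 5) (nat_lit 160) (nat_lit 5) (nat_lit 161) (nat_lit 5) (nat_lit 266) (nat_lit 257) (nat_lit 197))))))) (XT.nd (nat_lit 780) (nat_lit 3040) (nat_lit 0) (XT.nd (nat_lit 390) (nat_lit 2052) (nat_lit 0) (XT.nd (nat_lit 156) (nat_lit 1596) (nat_lit 0) (XT.nd (nat_lit 78) (nat_lit 0) (nat_lit 76) (XT.lf (nat_lit 76)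 (nat_lit 394263133) (nat_lit 0) (nat_lit 1336937234) (nat_lit 1140) (nat_lit 10823927627) (nat_lit 147) (nat_lit 5) (nat_lit 146) (nat_lit 5) (nat_lit 161) (nat_lit 5) (nat_lit 267) (nat_lit 257) (nat_lit 196)) (XT.lf (nat_lit 0) (nat_lit 3611077635) (nat_lit 1064) (nat_lit 3136188897) (nat_lit 76) (nat_lit 6140105350) (nat_lit 147) (nat_lit 5) (nat_lit 161) (nat_lit 5) (nat_lit 148) (nat_lit 5) (nat_lit 268) (nat_lit 257) (nat_lit 195))) (XT.nd (nat_lit 78) (nat_lit 608) (nat_lit 0) (XT.lf (nat_lit 0) (nat_lit 5624284343) (nat_lit 1140) (nat_lit 6828350982) (nat_lit 76) (nat_lit 782526964) (nat_lit 133) (nat_lit 5) (nat_lit 148) (nat_lit 5) (nat_lit 134) (nat_lit 5) (nat_lit 269) (nat_lit 257) (nat_lit 194)) (XT.nd (nat_lit 78) (nat_lit 0) (nat_lit 0) (XT.lf (nat_lit 0) (nat_lit 2843126332) (nat_lit 608) (nat_lit 4981355648) (nat_lit 684) (nat_lit 5773379264) (nat_lit 125) (nat_lit 5) (nat_lit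 133) (nat_lit 5) (nat_lit 134) (nat_lit 5) (nat_lit 270) (nat_lit 257) (nat_lit 193)) (XT.lf (nat_lit 0) (nat_lit 10193176966) (nat_lit 684) (nat_lit 901277414) (nat_lit 76) (nat_lit 2882589898) (nat_lit 125) (nat_lit 5) (nat_lit 134) (nat_lit 5) (nat_lit 126) (nat_lit 5) (nat_lit 271) (nat_lit 257) (nat_lit 192))))) (XT.nd (nat_lit 156) (nat_lit 912) (nat_lit 0) (XT.nd (nat_lit 78) (nat_lit 608) (nat_lit 0) (XT.lf (nat_lit 0) (nat_lit 9545276288) (nat_lit 532) (nat_lit 3238943536) (nat_lit 608) (nat_lit 1587948063) (nat_lit 118) (nat_lit 5) (nat_lit 125) (nat_lit 5) (nat_lit 126) (nat_lit 5) (nat_lit 272) (nat_lit 257) (nat_lit 191)) (XT.lf (nat_lit 0) (nat_lit 780843224) (nat_lit 608) (nat_lit 9017592945) (nat_lit 76) (nat_lit 4986183419) (nat_lit 110) (nat_lit 5) (nat_lit 118) (nat_lit 5) (nat_lit 111) (nat_lit 5) (nat_lit 273) (nat_lit 257) (nat_lit 190))) (XT.nd (nat_lit 78) (nat_lit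 456) (nat_lit 0) (XT.lf (nat_lit 0) (nat_lit 1724213256) (nat_lit 456) (nat_lit 1575127821) (nat_lit 532) (nat_lit 11916044901) (nat_lit 104) (nat_lit 5) (nat_lit 110) (nat_lit 5) (nat_lit 111) (nat_lit 5) (nat_lit 274) (nat_lit 257) (nat_lit 189)) (XT.nd (nat_lit 78) (nat_lit 456) (nat_lit 0) (XT.lf (nat_lit 0) (nat_lit 6071089921) (nat_lit 532) (nat_lit 2577750185) (nat_lit 76) (nat_lit 7015113674) (nat_lit 104) (nat_lit 5) (nat_lit 111) (nat_lit 5) (nat_lit 105) (nat_lit 5) (nat_lit 275) (nat_lit 257) (nat_lit 188)) (XT.lf (nat_lit 0) (nat_lit 9007288605) (nat_lit 456) (nat_lit 43971783) (nat_lit 532) (nat_lit 7081673486) (nat_lit 98) (nat_lit 5) (nat_lit 104) (nat_lit 5) (nat_lit 105) (nat_lit 5) (nat_lit 276) (nat_lit 257) (nat_lit 187)))))) (XT.nd (nat_lit 390) (nat_lit 1368) (nat_lit 0) (XT.nd (nat_lit 156) (nat_lit 1292) (nat_lit 0) (XT.nd (nat_lit 78) (nat_lit 0) (nat_lit 0) (XT.lf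 (nat_lit 0) (nat_lit 4569402582) (nat_lit 380) (nat_lit 7736763008) (nat_lit 456) (nat_lit 4315500766) (nat_lit 93) (nat_lit 5) (nat_lit 98) (nat_lit 5) (nat_lit 99) (nat_lit 5) (nat_lit 277) (nat_lit 257) (nat_lit 186)) (XT.lf (nat_lit 0) (nat_lit 15778872045) (nat_lit 456) (nat_lit 180433226) (nat_lit 76) (nat_lit 1173950102) (nat_lit 93) (nat_lit 5) (nat_lit 99) (nat_lit 5) (nat_lit 94) (nat_lit 5) (nat_lit 278) (nat_lit 257) (nat_lit 185))) (XT.nd (nat_lit 78) (nat_lit 760) (nat_lit 0) (XT.lf (nat_lit 0) (nat_lit 1890768229) (nat_lit 532) (nat_lit 5267087862) (nat_lit 76) (nat_lit 10507021286) (nat_lit 86) (nat_lit 5) (nat_lit 93) (nat_lit 5) (nat_lit 87) (nat_lit 5) (nat_lit 279) (nat_lit 257) (nat_lit 184)) (XT.nd (nat_lit 78) (nat_lit 380) (nat_lit 0) (XT.lf (nat_lit 0) (nat_lit 5337024348) (nat_lit 456) (nat_lit 10756170340) (nat_lit 76) (nat_lit 2127540813) (nat_lit 81) (nat_lit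 5) (nat_lit 87) (nat_lit 5) (nat_lit 82) (nat_lit 5) (nat_lit 280) (nat_lit 257) (nat_lit 183)) (XT.lf (nat_lit 0) (nat_lit 2075906480) (nat_lit 380) (nat_lit 6999547590) (nat_lit 456) (nat_lit 9725396680) (nat_lit 76) (nat_lit 5) (nat_lit 81) (nat_lit 5) (nat_lit 82) (nat_lit 5) (nat_lit 281) (nat_lit 257) (nat_lit 182))))) (XT.nd (nat_lit 234) (nat_lit 608) (nat_lit 0) (XT.nd (nat_lit 78) (nat_lit 760) (nat_lit 0) (XT.lf (nat_lit 0) (nat_lit 13110975445) (nat_lit 456) (nat_lit 3689691935) (nat_lit 76) (nat_lit 2606056457) (nat_lit 76) (nat_lit 5) (nat_lit 82) (nat_lit 5) (nat_lit 77) (nat_lit 5) (nat_lit 282) (nat_lit 257) (nat_lit 181)) (XT.nd (nat_lit 78) (nat_lit 456) (nat_lit 0) (XT.lf (nat_lit 0) (nat_lit 10093342197) (nat_lit 304) (nat_lit 7397695672) (nat_lit 380) (nat_lit 2547624218) (nat_lit 72) (nat_lit 5) (nat_lit 76) (nat_lit 5) (nat_lit 77) (nat_lit 5) (nat_lit 283) (nat_lit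 257) (nat_lit 180)) (XT.lf (nat_lit 0) (nat_lit 1437735268) (nat_lit 456) (nat_lit 16749433363) (nat_lit 76) (nat_lit 2512371369) (nat_lit 66) (nat_lit 5) (nat_lit 72) (nat_lit 5) (nat_lit 67) (nat_lit 5) (nat_lit 284) (nat_lit 257) (nat_lit 179)))) (XT.nd (nat_lit 78) (nat_lit 608) (nat_lit 0) (XT.lf (nat_lit 0) (nat_lit 5724753011) (nat_lit 456) (nat_lit 2773445007) (nat_lit 76) (nat_lit 12889902654) (nat_lit 66) (nat_lit 5) (nat_lit 72) (nat_lit 5) (nat_lit 67) (nat_lit 5) (nat_lit 285) (nat_lit 257) (nat_lit 178)) (XT.nd (nat_lit 78) (nat_lit 304) (nat_lit 0) (XT.lf (nat_lit 0) (nat_lit 10337369337) (nat_lit 380) (nat_lit 10016247387) (nat_lit 76) (nat_lit 1754180897) (nat_lit 62) (nat_lit 5) (nat_lit 67) (nat_lit 5) (nat_lit 63) (nat_lit 5) (nat_lit 286) (nat_lit 257) (nat_lit 177)) (XT.lf (nat_lit 0) (nat_lit 4876027912) (nat_lit 304) (nat_lit 10444457018) (nat_lit 380) (nat_lit 7538841932)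 (nat_lit 58) (nat_lit 5) (nat_lit 62) (nat_lit 5) (nat_lit 63) (nat_lit 5) (nat_lit 287) (nat_lit 257) (nat_lit 176))))))))
noncomputable def xc83 : XT := (XT.nd (nat_lit 1638) (nat_lit 988) (nat_lit 0) (XT.nd (nat_lit 780) (nat_lit 1140) (nat_lit 0) (XT.nd (nat_lit 390) (nat_lit 760) (nat_lit 0) (XT.nd (nat_lit 156) (nat_lit 532) (nat_lit 0) (XT.nd (nat_lit 78) (nat_lit 304) (nat_lit 0) (XT.lf (nat_lit 0) (nat_lit 20635595465) (nat_lit 380) (nat_lit 2951738952) (nat_lit 76) (nat_lit 58654402) (nat_lit 58) (nat_lit 5) (nat_lit 63) (nat_lit 5) (nat_lit 59) (nat_lit 5) (nat_lit 288) (nat_lit 257) (nat_lit 175)) (XT.lf (nat_lit 0) (nat_lit 1922487244) (nat_lit 304) (nat_lit 11532504882) (nat_lit 76) (nat_lit 11010165464) (nat_lit 54) (nat_lit 5) (nat_lit 58) (nat_lit 5) (nat_lit 55) (nat_lit 5) (nat_lit 289) (nat_lit 257) (nat_lit 174))) (XT.nd (nat_lit 78) (nat_lit 228) (nat_lit 0) (XT.lf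 (nat_lit 0) (nat_lit 4376983329) (nat_lit 304) (nat_lit 2716668995) (nat_lit 380) (nat_lit 18229157779) (nat_lit 50) (nat_lit 5) (nat_lit 54) (nat_lit 5) (nat_lit 55) (nat_lit 5) (nat_lit 290) (nat_lit 257) (nat_lit 173)) (XT.nd (nat_lit 78) (nat_lit 228) (nat_lit 0) (XT.lf (nat_lit 0) (nat_lit 12706713462) (nat_lit 380) (nat_lit 5006381087) (nat_lit 76) (nat_lit 8504785304) (nat_lit 50) (nat_lit 5) (nat_lit 55) (nat_lit 5) (nat_lit 51) (nat_lit 5) (nat_lit 291) (nat_lit 257) (nat_lit 172)) (XT.lf (nat_lit 0) (nat_lit 11910176753) (nat_lit 228) (nat_lit 6814230434) (nat_lit 304) (nat_lit 8429609607) (nat_lit 47) (nat_lit 5) (nat_lit 50) (nat_lit 5) (nat_lit 51) (nat_lit 5) (nat_lit 292) (nat_lit 257) (nat_lit 171))))) (XT.nd (nat_lit 156) (nat_lit 456) (nat_lit 0) (XT.nd (nat_lit 78) (nat_lit 76) (nat_lit 0) (XT.lf (nat_lit 0) (nat_lit 1603419243) (nat_lit 228) (nat_lit 23534155925) (nat_lit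 304) (nat_lit 2996579242) (nat_lit 44) (nat_lit 5) (nat_lit 47) (nat_lit 5) (nat_lit 48) (nat_lit 5) (nat_lit 293) (nat_lit 257) (nat_lit 170)) (XT.lf (nat_lit 0) (nat_lit 2865540537) (nat_lit 304) (nat_lit 9667645986) (nat_lit 76) (nat_lit 16623052082) (nat_lit 43) (nat_lit 5) (nat_lit 47) (nat_lit 5) (nat_lit 44) (nat_lit 5) (nat_lit 294) (nat_lit 257) (nat_lit 169))) (XT.nd (nat_lit 78) (nat_lit 228) (nat_lit 0) (XT.lf (nat_lit 0) (nat_lit 8144146125) (nat_lit 228) (nat_lit 877346546) (nat_lit 304) (nat_lit 21205191010) (nat_lit 40) (nat_lit 5) (nat_lit 43) (nat_lit 5) (nat_lit 44) (nat_lit 5) (nat_lit 295) (nat_lit 257) (nat_lit 168)) (XT.nd (nat_lit 78) (nat_lit 228) (nat_lit 0) (XT.lf (nat_lit 0) (nat_lit 15679284660) (nat_lit 304) (nat_lit 4432202956) (nat_lit 76) (nat_lit 11233368556) (nat_lit 40) (nat_lit 5) (nat_lit 44) (nat_lit 5) (nat_lit 41) (nat_lit 5) (nat_lit 296) (nat_lit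 257) (nat_lit 167)) (XT.lf (nat_lit 0) (nat_lit 14350009881) (nat_lit 228) (nat_lit 8451824514) (nat_lit 304) (nat_lit 9713172022) (nat_lit 37) (nat_lit 5) (nat_lit 40) (nat_lit 5) (nat_lit 41) (nat_lit 5) (nat_lit 297) (nat_lit 257) (nat_lit 166)))))) (XT.nd (nat_lit 390) (nat_lit 532) (nat_lit 0) (XT.nd (nat_lit 156) (nat_lit 380) (nat_lit 0) (XT.nd (nat_lit 78) (nat_lit 76) (nat_lit 0) (XT.lf (nat_lit 0) (nat_lit 370424598) (nat_lit 152) (nat_lit 29981678950) (nat_lit 228) (nat_lit 3389436841) (nat_lit 35) (nat_lit 5) (nat_lit 37) (nat_lit 5) (nat_lit 38) (nat_lit 5) (nat_lit 298) (nat_lit 257) (nat_lit 165)) (XT.lf (nat_lit 0) (nat_lit 3447048316) (nat_lit 228) (nat_lit 14951238751) (nat_lit 76) (nat_lit 16622399031) (nat_lit 34) (nat_lit 5) (nat_lit 37) (nat_lit 5) (nat_lit 35) (nat_lit 5) (nat_lit 299) (nat_lit 257) (nat_lit 164))) (XT.nd (nat_lit 78) (nat_lit 152) (nat_lit 0) (XT.lf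 (nat_lit 0) (nat_lit 4421456576) (nat_lit 228) (nat_lit 6163471540) (nat_lit 304) (nat_lit 25776985252) (nat_lit 31) (nat_lit 5) (nat_lit 34) (nat_lit 5) (nat_lit 35) (nat_lit 5) (nat_lit 300) (nat_lit 257) (nat_lit 163)) (XT.nd (nat_lit 78) (nat_lit 152) (nat_lit 0) (XT.lf (nat_lit 0) (nat_lit 18286282576) (nat_lit 304) (nat_lit 12776137583) (nat_lit 76) (nat_lit 6701604525) (nat_lit 31) (nat_lit 5) (nat_lit 35) (nat_lit 5) (nat_lit 32) (nat_lit 5) (nat_lit 301) (nat_lit 257) (nat_lit 162)) (XT.lf (nat_lit 0) (nat_lit 7409720698) (nat_lit 152) (nat_lit 19083948909) (nat_lit 228) (nat_lit 12738962163) (nat_lit 29) (nat_lit 5) (nat_lit 31) (nat_lit 5) (nat_lit 32) (nat_lit 5) (nat_lit 302) (nat_lit 257) (nat_lit 161))))) (XT.nd (nat_lit 234) (nat_lit 304) (nat_lit 0) (XT.nd (nat_lit 78) (nat_lit 228) (nat_lit 0) (XT.lf (nat_lit 0) (nat_lit 28853344068) (nat_lit 152) (nat_lit 6377545582) (nat_lit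 228) (nat_lit 5540213887) (nat_lit 29) (nat_lit 5) (nat_lit 31) (nat_lit 5) (nat_lit 32) (nat_lit 5) (nat_lit 303) (nat_lit 257) (nat_lit 160)) (XT.nd (nat_lit 78) (nat_lit 0) (nat_lit 0) (XT.lf (nat_lit 0) (nat_lit 2123115928) (nat_lit 228) (nat_lit 33328195848) (nat_lit 76) (nat_lit 6930300940) (nat_lit 26) (nat_lit 5) (nat_lit 29) (nat_lit 5) (nat_lit 27) (nat_lit 5) (nat_lit 304) (nat_lit 257) (nat_lit 159)) (XT.lf (nat_lit 0) (nat_lit 10233079811) (nat_lit 228) (nat_lit 12885931584) (nat_lit 76) (nat_lit 20946664981) (nat_lit 26) (nat_lit 5) (nat_lit 29) (nat_lit 5) (nat_lit 27) (nat_lit 5) (nat_lit 305) (nat_lit 257) (nat_lit 158)))) (XT.nd (nat_lit 78) (nat_lit 152) (nat_lit 0) (XT.lf (nat_lit 0) (nat_lit 8732020645) (nat_lit 152) (nat_lit 10089711116) (nat_lit 228) (nat_lit 27010031054) (nat_lit 24) (nat_lit 5) (nat_lit 26) (nat_lit 5) (nat_lit 27) (nat_lit 5) (nat_lit 306) (nat_lit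 257) (nat_lit 157)) (XT.nd (nat_lit 78) (nat_lit 152) (nat_lit 0) (XT.lf (nat_lit 0) (nat_lit 27997848352) (nat_lit 228) (nat_lit 16034463856) (nat_lit 76) (nat_lit 3649114973) (nat_lit 24) (nat_lit 5) (nat_lit 27) (nat_lit 5) (nat_lit 25) (nat_lit 5) (nat_lit 307) (nat_lit 257) (nat_lit 156)) (XT.lf (nat_lit 0) (nat_lit 6085169238) (nat_lit 152) (nat_lit 31697981399) (nat_lit 228) (nat_lit 11835926607) (nat_lit 22) (nat_lit 5) (nat_lit 24) (nat_lit 5) (nat_lit 25) (nat_lit 5) (nat_lit 308) (nat_lit 257) (nat_lit 155))))))) (XT.nd (nat_lit 858) (nat_lit 304) (nat_lit 0) (XT.nd (nat_lit 390) (nat_lit 304) (nat_lit 0) (XT.nd (nat_lit 156) (nat_lit 152) (nat_lit 0) (XT.nd (nat_lit 78) (nat_lit 228) (nat_lit 0) (XT.lf (nat_lit 0) (nat_lit 29630495644) (nat_lit 152) (nat_lit 18582656906) (nat_lit 228) (nat_lit 3435807434) (nat_lit 22) (nat_lit 5) (nat_lit 24) (nat_lit 5) (nat_lit 25) (nat_lit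 5) (nat_lit 309) (nat_lit 257) (nat_lit 154)) (XT.lf (nat_lit 0) (nat_lit 516241174) (nat_lit 152) (nat_lit 4758700654) (nat_lit 228) (nat_lit 48503983783) (nat_lit 19) (nat_lit 5) (nat_lit 21) (nat_lit 5) (nat_lit 22) (nat_lit 5) (nat_lit 310) (nat_lit 257) (nat_lit 153))) (XT.nd (nat_lit 78) (nat_lit 152) (nat_lit 0) (XT.lf (nat_lit 0) (nat_lit 14664501088) (nat_lit 228) (nat_lit 31516124325) (nat_lit 76) (nat_lit 9824325294) (nat_lit 19) (nat_lit 5) (nat_lit 22) (nat_lit 5) (nat_lit 20) (nat_lit 5) (nat_lit 311) (nat_lit 257) (nat_lit 152)) (XT.nd (nat_lit 78) (nat_lit 152) (nat_lit 0) (XT.lf (nat_lit 0) (nat_lit 24562978493) (nat_lit 228) (nat_lit 8744200386) (nat_lit 76) (nat_lit 25033926054) (nat_lit 19) (nat_lit 5) (nat_lit 22) (nat_lit 5) (nat_lit 20) (nat_lit 5) (nat_lit 312) (nat_lit 257) (nat_lit 151)) (XT.lf (nat_lit 0) (nat_lit 15454625187) (nat_lit 152) (nat_lit 19642132427)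 (nat_lit 228) (nat_lit 25693108473) (nat_lit 17) (nat_lit 5) (nat_lit 19) (nat_lit 5) (nat_lit 20) (nat_lit 5) (nat_lit 313) (nat_lit 257) (nat_lit 150))))) (XT.nd (nat_lit 234) (nat_lit 152) (nat_lit 0) (XT.nd (nat_lit 78) (nat_lit 152) (nat_lit 0) (XT.lf (nat_lit 0) (nat_lit 41033230529) (nat_lit 152) (nat_lit 5206093218) (nat_lit 228) (nat_lit 17119288662) (nat_lit 17) (nat_lit 5) (nat_lit 19) (nat_lit 5) (nat_lit 20) (nat_lit 5) (nat_lit 314) (nat_lit 257) (nat_lit 149)) (XT.nd (nat_lit 78) (nat_lit 76) (nat_lit 0) (XT.lf (nat_lit 0) (nat_lit 1761209343) (nat_lit 76) (nat_lit 56282816587) (nat_lit 152) (nat_lit 8008629455) (nat_lit 16) (nat_lit 5) (nat_lit 17) (nat_lit 5) (nat_lit 18) (nat_lit 4) (nat_lit 315) (nat_lit 257) (nat_lit 148)) (XT.lf (nat_lit 0) (nat_lit 1804389758) (nat_lit 152) (nat_lit 41437900219) (nat_lit 76) (nat_lit 25630353596) (nat_lit 15) (nat_lit 5) (nat_lit 17)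 (nat_lit 5) (nat_lit 16) (nat_lit 5) (nat_lit 316) (nat_lit 257) (nat_lit 147)))) (XT.nd (nat_lit 78) (nat_lit 152) (nat_lit 0) (XT.lf (nat_lit 0) (nat_lit 11936901048) (nat_lit 152) (nat_lit 17534191292) (nat_lit 76) (nat_lit 42360334303) (nat_lit 15) (nat_lit 5) (nat_lit 17) (nat_lit 5) (nat_lit 16) (nat_lit 5) (nat_lit 317) (nat_lit 257) (nat_lit 146)) (XT.nd (nat_lit 78) (nat_lit 0) (nat_lit 0) (XT.lf (nat_lit 0) (nat_lit 7703909195) (nat_lit 152) (nat_lit 14939452139) (nat_lit 228) (nat_lit 52292775855) (nat_lit 13) (nat_lit 5) (nat_lit 15) (nat_lit 5) (nat_lit 16) (nat_lit 5) (nat_lit 318) (nat_lit 257) (nat_lit 145)) (XT.lf (nat_lit 0) (nat_lit 34063939150) (nat_lit 228) (nat_lit 43636159734) (nat_lit 76) (nat_lit 490628189) (nat_lit 13) (nat_lit 5) (nat_lit 16) (nat_lit 5) (nat_lit 14) (nat_lit 4) (nat_lit 319) (nat_lit 257) (nat_lit 144)))))) (XT.nd (nat_lit 390) (nat_lit 152) (nat_lit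 0) (XT.nd (nat_lit 156) (nat_lit 76) (nat_lit 0) (XT.nd (nat_lit 78) (nat_lit 76) (nat_lit 0) (XT.lf (nat_lit 0) (nat_lit 46200089705) (nat_lit 228) (nat_lit 19021521135) (nat_lit 76) (nat_lit 16382106577) (nat_lit 13) (nat_lit 5) (nat_lit 16) (nat_lit 5) (nat_lit 14) (nat_lit 4) (nat_lit 320) (nat_lit 257) (nat_lit 143)) (XT.lf (nat_lit 0) (nat_lit 6949511232) (nat_lit 76) (nat_lit 52054393164) (nat_lit 152) (nat_lit 26181634119) (nat_lit 12) (nat_lit 5) (nat_lit 13) (nat_lit 5) (nat_lit 14) (nat_lit 4) (nat_lit 321) (nat_lit 257) (nat_lit 142))) (XT.nd (nat_lit 78) (nat_lit 76) (nat_lit 0) (XT.lf (nat_lit 0) (nat_lit 34606926071) (nat_lit 76) (nat_lit 38031037455) (nat_lit 152) (nat_lit 16302792135) (nat_lit 12) (nat_lit 5) (nat_lit 13) (nat_lit 5) (nat_lit 14) (nat_lit 4) (nat_lit 322) (nat_lit 257) (nat_lit 141)) (XT.nd (nat_lit 78) (nat_lit 76) (nat_lit 0) (XT.lf (nat_lit 0) (nat_lit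 63638008800) (nat_lit 76) (nat_lit 23310234839) (nat_lit 152) (nat_lit 5935660774) (nat_lit 12) (nat_lit 5) (nat_lit 13) (nat_lit 5) (nat_lit 14) (nat_lit 4) (nat_lit 323) (nat_lit 257) (nat_lit 140)) (XT.lf (nat_lit 0) (nat_lit 4847959705) (nat_lit 152) (nat_lit 2960021193) (nat_lit 76) (nat_lit 89214966453) (nat_lit 11) (nat_lit 5) (nat_lit 13) (nat_lit 5) (nat_lit 12) (nat_lit 5) (nat_lit 324) (nat_lit 257) (nat_lit 139))))) (XT.nd (nat_lit 32292) (nat_lit 0) (nat_lit 11096) (XT.nd (nat_lit 78) (nat_lit 0) (nat_lit 0) (XT.lf (nat_lit 0) (nat_lit 16369374791) (nat_lit 228) (nat_lit 76383622073) (nat_lit 76) (nat_lit 8604546877) (nat_lit 9) (nat_lit 5) (nat_lit 12) (nat_lit 5) (nat_lit 10) (nat_lit 4) (nat_lit 325) (nat_lit 257) (nat_lit 138)) (XT.nd (nat_lit 78) (nat_lit 0) (nat_lit 0) (XT.lf (nat_lit 0) (nat_lit 28571542156) (nat_lit 228) (nat_lit 51628977629) (nat_lit 76) (nat_lit 25705214995)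 (nat_lit 9) (nat_lit 5) (nat_lit 12) (nat_lit 5) (nat_lit 10) (nat_lit 4) (nat_lit 326) (nat_lit 257) (nat_lit 137)) (XT.lf (nat_lit 0) (nat_lit 41379152350) (nat_lit 228) (nat_lit 25644533992) (nat_lit 76) (nat_lit 43657794022) (nat_lit 9) (nat_lit 5) (nat_lit 12) (nat_lit 5) (nat_lit 10) (nat_lit 4) (nat_lit 327) (nat_lit 257) (nat_lit 136)))) (XT.nd (nat_lit 78) (nat_lit 0) (nat_lit 0) (XT.lf (nat_lit 0) (nat_lit 319151293) (nat_lit 0) (nat_lit 319151293) (nat_lit 988) (nat_lit 4537564343) (nat_lit 155) (nat_lit 5) (nat_lit 155) (nat_lit 3) (nat_lit 168) (nat_lit 3) (nat_lit 258) (nat_lit 258) (nat_lit 204)) (XT.nd (nat_lit 78) (nat_lit 0) (nat_lit 76) (XT.lf (nat_lit 0) (nat_lit 2332172637) (nat_lit 988) (nat_lit 2693150300) (nat_lit 1064) (nat_lit 5551775246) (nat_lit 155) (nat_lit 5) (nat_lit 168) (nat_lit 3) (nat_lit 169) (nat_lit 5) (nat_lit 259) (nat_lit 258) (nat_lit 203)) (XT.lf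 (nat_lit 0) (nat_lit 3443186913) (nat_lit 988) (nat_lit 6096036081) (nat_lit 1064) (nat_lit 1274601754) (nat_lit 156) (nat_lit 5) (nat_lit 169) (nat_lit 5) (nat_lit 170) (nat_lit 5) (nat_lit 260) (nat_lit 258) (nat_lit 202))))))))
noncomputable def xc84 : XT := (XT.nd (nat_lit 1638) (nat_lit 3800) (nat_lit 0) (XT.nd (nat_lit 780) (nat_lit 3952) (nat_lit 0) (XT.nd (nat_lit 390) (nat_lit 1748) (nat_lit 0) (XT.nd (nat_lit 156) (nat_lit 0) (nat_lit 76) (XT.nd (nat_lit 78) (nat_lit 0) (nat_lit 76) (XT.lf (nat_lit 76) (nat_lit 1436436626) (nat_lit 0) (nat_lit 3206984473) (nat_lit 1064) (nat_lit 6418122259) (nat_lit 157) (nat_lit 5) (nat_lit 156) (nat_lit 5) (nat_lit 170) (nat_lit 5) (nat_lit 261) (nat_lit 258) (nat_lit 201)) (XT.lf (nat_lit 0) (nat_lit 5943967049) (nat_lit 988) (nat_lit 1916220992) (nat_lit 1064) (nat_lit 3460408748) (nat_lit 157) (nat_lit 5) (nat_lit 170) (nat_lit 5) (nat_lit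 171) (nat_lit 5) (nat_lit 262) (nat_lit 258) (nat_lit 200))) (XT.nd (nat_lit 78) (nat_lit 0) (nat_lit 76) (XT.lf (nat_lit 76) (nat_lit 6233403705) (nat_lit 0) (nat_lit 1114939135) (nat_lit 1064) (nat_lit 4243246352) (nat_lit 158) (nat_lit 5) (nat_lit 157) (nat_lit 5) (nat_lit 171) (nat_lit 5) (nat_lit 263) (nat_lit 258) (nat_lit 199)) (XT.nd (nat_lit 78) (nat_lit 0) (nat_lit 76) (XT.lf (nat_lit 76) (nat_lit 2919570466) (nat_lit 0) (nat_lit 5957636326) (nat_lit 1064) (nat_lit 2997439557) (nat_lit 159) (nat_lit 5) (nat_lit 158) (nat_lit 5) (nat_lit 172) (nat_lit 5) (nat_lit 264) (nat_lit 258) (nat_lit 198)) (XT.lf (nat_lit 0) (nat_lit 10511165073) (nat_lit 988) (nat_lit 504945540) (nat_lit 1064) (nat_lit 1155022612) (nat_lit 159) (nat_lit 5) (nat_lit 172) (nat_lit 5) (nat_lit 173) (nat_lit 5) (nat_lit 265) (nat_lit 258) (nat_lit 197))))) (XT.nd (nat_lit 156) (nat_lit 988) (nat_lit 0) (XT.nd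 (nat_lit 78) (nat_lit 988) (nat_lit 0) (XT.lf (nat_lit 76) (nat_lit 8438309855) (nat_lit 0) (nat_lit 3883254506) (nat_lit 1064) (nat_lit 158167691) (nat_lit 160) (nat_lit 5) (nat_lit 159) (nat_lit 5) (nat_lit 173) (nat_lit 5) (nat_lit 266) (nat_lit 258) (nat_lit 196)) (XT.lf (nat_lit 0) (nat_lit 1435466316) (nat_lit 1064) (nat_lit 7751347612) (nat_lit 1140) (nat_lit 3615325037) (nat_lit 146) (nat_lit 5) (nat_lit 160) (nat_lit 5) (nat_lit 161) (nat_lit 5) (nat_lit 267) (nat_lit 258) (nat_lit 195))) (XT.nd (nat_lit 78) (nat_lit 988) (nat_lit 0) (XT.lf (nat_lit 76) (nat_lit 1496144595) (nat_lit 0) (nat_lit 1661753120) (nat_lit 1140) (nat_lit 9981264315) (nat_lit 147) (nat_lit 5) (nat_lit 146) (nat_lit 5) (nat_lit 161) (nat_lit 5) (nat_lit 268) (nat_lit 258) (nat_lit 194)) (XT.nd (nat_lit 78) (nat_lit 1064) (nat_lit 0) (XT.lf (nat_lit 0) (nat_lit 5065591111) (nat_lit 1064) (nat_lit 2218359842)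 (nat_lit 76) (nat_lit 6206220027) (nat_lit 147) (nat_lit 5) (nat_lit 161) (nat_lit 5) (nat_lit 148) (nat_lit 5) (nat_lit 269) (nat_lit 258) (nat_lit 193)) (XT.lf (nat_lit 0) (nat_lit 7127101974) (nat_lit 1140) (nat_lit 6084317902) (nat_lit 76) (nat_lit 645661276) (nat_lit 133) (nat_lit 5) (nat_lit 148) (nat_lit 5) (nat_lit 134) (nat_lit 5) (nat_lit 270) (nat_lit 258) (nat_lit 192)))))) (XT.nd (nat_lit 390) (nat_lit 1748) (nat_lit 0) (XT.nd (nat_lit 156) (nat_lit 1064) (nat_lit 0) (XT.nd (nat_lit 78) (nat_lit 532) (nat_lit 0) (XT.lf (nat_lit 0) (nat_lit 4039619053) (nat_lit 608) (nat_lit 5349653774) (nat_lit 684) (nat_lit 4850235286) (nat_lit 125) (nat_lit 5) (nat_lit 133) (nat_lit 5) (nat_lit 134) (nat_lit 5) (nat_lit 271) (nat_lit 258) (nat_lit 191)) (XT.lf (nat_lit 0) (nat_lit 97201866) (nat_lit 532) (nat_lit 11723159391) (nat_lit 608) (nat_lit 2819115005) (nat_lit 118) (nat_lit 5) (nat_lit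 125) (nat_lit 5) (nat_lit 126) (nat_lit 5) (nat_lit 272) (nat_lit 258) (nat_lit 190))) (XT.nd (nat_lit 78) (nat_lit 1064) (nat_lit 0) (XT.lf (nat_lit 0) (nat_lit 11034327910) (nat_lit 532) (nat_lit 3462248904) (nat_lit 608) (nat_lit 559248452) (nat_lit 118) (nat_lit 5) (nat_lit 125) (nat_lit 5) (nat_lit 126) (nat_lit 5) (nat_lit 273) (nat_lit 258) (nat_lit 189)) (XT.nd (nat_lit 78) (nat_lit 456) (nat_lit 0) (XT.lf (nat_lit 0) (nat_lit 1863931088) (nat_lit 608) (nat_lit 8427837966) (nat_lit 76) (nat_lit 5198211243) (nat_lit 110) (nat_lit 5) (nat_lit 118) (nat_lit 5) (nat_lit 111) (nat_lit 5) (nat_lit 274) (nat_lit 258) (nat_lit 188)) (XT.lf (nat_lit 0) (nat_lit 2821228964) (nat_lit 456) (nat_lit 1647124885) (nat_lit 532) (nat_lit 11475252533) (nat_lit 104) (nat_lit 5) (nat_lit 110) (nat_lit 5) (nat_lit 111) (nat_lit 5) (nat_lit 275) (nat_lit 258) (nat_lit 187))))) (XT.nd (nat_lit 234) (nat_lit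 912) (nat_lit 0) (XT.nd (nat_lit 78) (nat_lit 836) (nat_lit 0) (XT.lf (nat_lit 0) (nat_lit 7330940314) (nat_lit 532) (nat_lit 1713029156) (nat_lit 76) (nat_lit 7372181194) (nat_lit 104) (nat_lit 5) (nat_lit 111) (nat_lit 5) (nat_lit 105) (nat_lit 5) (nat_lit 276) (nat_lit 258) (nat_lit 186)) (XT.nd (nat_lit 78) (nat_lit 380) (nat_lit 0) (XT.lf (nat_lit 0) (nat_lit 10422779984) (nat_lit 456) (nat_lit 1078812) (nat_lit 532) (nat_lit 6485918875) (nat_lit 98) (nat_lit 5) (nat_lit 104) (nat_lit 5) (nat_lit 105) (nat_lit 5) (nat_lit 277) (nat_lit 258) (nat_lit 185)) (XT.lf (nat_lit 0) (nat_lit 5763862070) (nat_lit 380) (nat_lit 8043534468) (nat_lit 456) (nat_lit 3616678471) (nat_lit 93) (nat_lit 5) (nat_lit 98) (nat_lit 5) (nat_lit 99) (nat_lit 5) (nat_lit 278) (nat_lit 258) (nat_lit 184)))) (XT.nd (nat_lit 78) (nat_lit 456) (nat_lit 0) (XT.lf (nat_lit 0) (nat_lit 772179180) (nat_lit 456) (nat_lit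 16647528000) (nat_lit 532) (nat_lit 542657087) (nat_lit 87) (nat_lit 5) (nat_lit 93) (nat_lit 5) (nat_lit 94) (nat_lit 5) (nat_lit 279) (nat_lit 258) (nat_lit 183)) (XT.nd (nat_lit 78) (nat_lit 380) (nat_lit 0) (XT.lf (nat_lit 0) (nat_lit 2808316214) (nat_lit 532) (nat_lit 4592783177) (nat_lit 76) (nat_lit 11120484940) (nat_lit 86) (nat_lit 5) (nat_lit 93) (nat_lit 5) (nat_lit 87) (nat_lit 5) (nat_lit 280) (nat_lit 258) (nat_lit 182)) (XT.lf (nat_lit 0) (nat_lit 6397585478) (nat_lit 456) (nat_lit 10358797969) (nat_lit 76) (nat_lit 2349818839) (nat_lit 81) (nat_lit 5) (nat_lit 87) (nat_lit 5) (nat_lit 82) (nat_lit 5) (nat_lit 281) (nat_lit 258) (nat_lit 181))))))) (XT.nd (nat_lit 780) (nat_lit 1444) (nat_lit 0) (XT.nd (nat_lit 390) (nat_lit 1216) (nat_lit 0) (XT.nd (nat_lit 156) (nat_lit 760) (nat_lit 0) (XT.nd (nat_lit 78) (nat_lit 0) (nat_lit 0) (XT.lf (nat_lit 0) (nat_lit 3088075920) (nat_lit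 380) (nat_lit 7205796903) (nat_lit 456) (nat_lit 9422406136) (nat_lit 76) (nat_lit 5) (nat_lit 81) (nat_lit 5) (nat_lit 82) (nat_lit 5) (nat_lit 282) (nat_lit 258) (nat_lit 180)) (XT.lf (nat_lit 0) (nat_lit 14496074362) (nat_lit 456) (nat_lit 2986931919) (nat_lit 76) (nat_lit 2870572055) (nat_lit 76) (nat_lit 5) (nat_lit 82) (nat_lit 5) (nat_lit 77) (nat_lit 5) (nat_lit 283) (nat_lit 258) (nat_lit 179))) (XT.nd (nat_lit 78) (nat_lit 456) (nat_lit 0) (XT.lf (nat_lit 0) (nat_lit 11459821230) (nat_lit 304) (nat_lit 7608862457) (nat_lit 380) (nat_lit 1949299460) (nat_lit 72) (nat_lit 5) (nat_lit 76) (nat_lit 5) (nat_lit 77) (nat_lit 5) (nat_lit 284) (nat_lit 258) (nat_lit 178)) (XT.nd (nat_lit 78) (nat_lit 0) (nat_lit 0) (XT.lf (nat_lit 0) (nat_lit 2197076506) (nat_lit 456) (nat_lit 16714228427) (nat_lit 76) (nat_lit 2801183691) (nat_lit 66) (nat_lit 5) (nat_lit 72) (nat_lit 5) (nat_lit 67)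 (nat_lit 5) (nat_lit 285) (nat_lit 258) (nat_lit 177)) (XT.lf (nat_lit 0) (nat_lit 6665709210) (nat_lit 456) (nat_lit 2080996683) (nat_lit 76) (nat_lit 13689820409) (nat_lit 66) (nat_lit 5) (nat_lit 72) (nat_lit 5) (nat_lit 67) (nat_lit 5) (nat_lit 286) (nat_lit 258) (nat_lit 176))))) (XT.nd (nat_lit 156) (nat_lit 608) (nat_lit 0) (XT.nd (nat_lit 78) (nat_lit 304) (nat_lit 0) (XT.lf (nat_lit 0) (nat_lit 11487231278) (nat_lit 380) (nat_lit 9691241666) (nat_lit 76) (nat_lit 2014450613) (nat_lit 62) (nat_lit 5) (nat_lit 67) (nat_lit 5) (nat_lit 63) (nat_lit 5) (nat_lit 287) (nat_lit 258) (nat_lit 175)) (XT.lf (nat_lit 0) (nat_lit 5921975489) (nat_lit 304) (nat_lit 10775095336) (nat_lit 380) (nat_lit 7285692063) (nat_lit 58) (nat_lit 5) (nat_lit 62) (nat_lit 5) (nat_lit 63) (nat_lit 5) (nat_lit 288) (nat_lit 258) (nat_lit 174))) (XT.nd (nat_lit 78) (nat_lit 608) (nat_lit 0) (XT.lf (nat_lit 0)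 (nat_lit 22250616453) (nat_lit 380) (nat_lit 2318530785) (nat_lit 76) (nat_lit 240488102) (nat_lit 58) (nat_lit 5) (nat_lit 63) (nat_lit 5) (nat_lit 59) (nat_lit 5) (nat_lit 289) (nat_lit 258) (nat_lit 173)) (XT.nd (nat_lit 78) (nat_lit 304) (nat_lit 0) (XT.lf (nat_lit 0) (nat_lit 2588020803) (nat_lit 304) (nat_lit 11338315394) (nat_lit 76) (nat_lit 11743928403) (nat_lit 54) (nat_lit 5) (nat_lit 58) (nat_lit 5) (nat_lit 55) (nat_lit 5) (nat_lit 290) (nat_lit 258) (nat_lit 172)) (XT.lf (nat_lit 0) (nat_lit 5344551978) (nat_lit 304) (nat_lit 2653274586) (nat_lit 380) (nat_lit 18573621589) (nat_lit 50) (nat_lit 5) (nat_lit 54) (nat_lit 5) (nat_lit 55) (nat_lit 5) (nat_lit 291) (nat_lit 258) (nat_lit 171)))))) (XT.nd (nat_lit 390) (nat_lit 684) (nat_lit 0) (XT.nd (nat_lit 156) (nat_lit 532) (nat_lit 0) (XT.nd (nat_lit 78) (nat_lit 228) (nat_lit 0) (XT.lf (nat_lit 0) (nat_lit 13867198395) (nat_lit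 380) (nat_lit 4528788867) (nat_lit 76) (nat_lit 9116062861) (nat_lit 50) (nat_lit 5) (nat_lit 55) (nat_lit 5) (nat_lit 51) (nat_lit 5) (nat_lit 292) (nat_lit 258) (nat_lit 170)) (XT.lf (nat_lit 0) (nat_lit 13212731435) (nat_lit 228) (nat_lit 6954834822) (nat_lit 304) (nat_lit 8328020126) (nat_lit 47) (nat_lit 5) (nat_lit 50) (nat_lit 5) (nat_lit 51) (nat_lit 5) (nat_lit 293) (nat_lit 258) (nat_lit 169))) (XT.nd (nat_lit 78) (nat_lit 304) (nat_lit 0) (XT.lf (nat_lit 0) (nat_lit 2384169161) (nat_lit 228) (nat_lit 24501649884) (nat_lit 304) (nat_lit 2639422997) (nat_lit 44) (nat_lit 5) (nat_lit 47) (nat_lit 5) (nat_lit 48) (nat_lit 5) (nat_lit 294) (nat_lit 258) (nat_lit 168)) (XT.nd (nat_lit 78) (nat_lit 228) (nat_lit 0) (XT.lf (nat_lit 0) (nat_lit 3482238611) (nat_lit 304) (nat_lit 9473575341) (nat_lit 76) (nat_lit 17643221068) (nat_lit 43) (nat_lit 5) (nat_lit 47) (nat_lit 5) (nat_lit 44)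 (nat_lit 5) (nat_lit 295) (nat_lit 258) (nat_lit 167)) (XT.lf (nat_lit 0) (nat_lit 9209387323) (nat_lit 228) (nat_lit 720382594) (nat_lit 304) (nat_lit 21793757695) (nat_lit 40) (nat_lit 5) (nat_lit 43) (nat_lit 5) (nat_lit 44) (nat_lit 5) (nat_lit 296) (nat_lit 258) (nat_lit 166))))) (XT.nd (nat_lit 234) (nat_lit 304) (nat_lit 0) (XT.nd (nat_lit 78) (nat_lit 380) (nat_lit 0) (XT.lf (nat_lit 0) (nat_lit 16900518536) (nat_lit 304) (nat_lit 4015152502) (nat_lit 76) (nat_lit 11982572544) (nat_lit 40) (nat_lit 5) (nat_lit 44) (nat_lit 5) (nat_lit 41) (nat_lit 5) (nat_lit 297) (nat_lit 258) (nat_lit 165)) (XT.nd (nat_lit 78) (nat_lit 152) (nat_lit 0) (XT.lf (nat_lit 0) (nat_lit 15687863899) (nat_lit 228) (nat_lit 8676472712) (nat_lit 304) (nat_lit 9763045612) (nat_lit 37) (nat_lit 5) (nat_lit 40) (nat_lit 5) (nat_lit 41) (nat_lit 5) (nat_lit 298) (nat_lit 258) (nat_lit 164)) (XT.lf (nat_lit 0)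 (nat_lit 1002659972) (nat_lit 152) (nat_lit 31277056002) (nat_lit 228) (nat_lit 3135932455) (nat_lit 35) (nat_lit 5) (nat_lit 37) (nat_lit 5) (nat_lit 38) (nat_lit 5) (nat_lit 299) (nat_lit 258) (nat_lit 163)))) (XT.nd (nat_lit 78) (nat_lit 228) (nat_lit 0) (XT.lf (nat_lit 0) (nat_lit 4014374483) (nat_lit 228) (nat_lit 15105831910) (nat_lit 76) (nat_lit 17639046433) (nat_lit 34) (nat_lit 5) (nat_lit 37) (nat_lit 5) (nat_lit 35) (nat_lit 5) (nat_lit 300) (nat_lit 258) (nat_lit 162)) (XT.nd (nat_lit 78) (nat_lit 0) (nat_lit 0) (XT.lf (nat_lit 0) (nat_lit 5218500852) (nat_lit 228) (nat_lit 6277375736) (nat_lit 304) (nat_lit 26672092466) (nat_lit 31) (nat_lit 5) (nat_lit 34) (nat_lit 5) (nat_lit 35) (nat_lit 5) (nat_lit 301) (nat_lit 258) (nat_lit 161)) (XT.lf (nat_lit 0) (nat_lit 19565900994) (nat_lit 304) (nat_lit 12856712089) (nat_lit 76) (nat_lit 7218092832) (nat_lit 31) (nat_lit 5) (nat_lit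 35) (nat_lit 5) (nat_lit 32) (nat_lit 5) (nat_lit 302) (nat_lit 258) (nat_lit 160))))))))
noncomputable def xc85 : XT := (XT.nd (nat_lit 1638) (nat_lit 228) (nat_lit 0) (XT.nd (nat_lit 780) (nat_lit 532) (nat_lit 0) (XT.nd (nat_lit 390) (nat_lit 380) (nat_lit 0) (XT.nd (nat_lit 156) (nat_lit 380) (nat_lit 0) (XT.nd (nat_lit 78) (nat_lit 0) (nat_lit 0) (XT.lf (nat_lit 0) (nat_lit 8322437488) (nat_lit 152) (nat_lit 19849036700) (nat_lit 228) (nat_lit 13011661371) (nat_lit 29) (nat_lit 5) (nat_lit 31) (nat_lit 5) (nat_lit 32) (nat_lit 5) (nat_lit 303) (nat_lit 258) (nat_lit 159)) (XT.lf (nat_lit 0) (nat_lit 30812421514) (nat_lit 152) (nat_lit 6516318429) (nat_lit 228) (nat_lit 5470320867) (nat_lit 29) (nat_lit 5) (nat_lit 31) (nat_lit 5) (nat_lit 32) (nat_lit 5) (nat_lit 304) (nat_lit 258) (nat_lit 158))) (XT.nd (nat_lit 78) (nat_lit 152) (nat_lit 0) (XT.lf (nat_lit 0) (nat_lit 2559827486)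 (nat_lit 228) (nat_lit 34477336622) (nat_lit 76) (nat_lit 7453142178) (nat_lit 26) (nat_lit 5) (nat_lit 29) (nat_lit 5) (nat_lit 27) (nat_lit 5) (nat_lit 305) (nat_lit 258) (nat_lit 157)) (XT.nd (nat_lit 78) (nat_lit 152) (nat_lit 0) (XT.lf (nat_lit 0) (nat_lit 11059548813) (nat_lit 228) (nat_lit 13037591003) (nat_lit 76) (nat_lit 22161927935) (nat_lit 26) (nat_lit 5) (nat_lit 29) (nat_lit 5) (nat_lit 27) (nat_lit 5) (nat_lit 306) (nat_lit 258) (nat_lit 156)) (XT.lf (nat_lit 0) (nat_lit 9647137493) (nat_lit 152) (nat_lit 10420104464) (nat_lit 228) (nat_lit 28046549631) (nat_lit 24) (nat_lit 5) (nat_lit 26) (nat_lit 5) (nat_lit 27) (nat_lit 5) (nat_lit 307) (nat_lit 258) (nat_lit 155))))) (XT.nd (nat_lit 156) (nat_lit 228) (nat_lit 0) (XT.nd (nat_lit 78) (nat_lit 152) (nat_lit 0) (XT.lf (nat_lit 0) (nat_lit 29689261806) (nat_lit 228) (nat_lit 16372947332) (nat_lit 76) (nat_lit 3994137429)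 (nat_lit 24) (nat_lit 5) (nat_lit 27) (nat_lit 5) (nat_lit 25) (nat_lit 5) (nat_lit 308) (nat_lit 258) (nat_lit 154)) (XT.lf (nat_lit 0) (nat_lit 6839388743) (nat_lit 152) (nat_lit 33114883808) (nat_lit 228) (nat_lit 12136912629) (nat_lit 22) (nat_lit 5) (nat_lit 24) (nat_lit 5) (nat_lit 25) (nat_lit 5) (nat_lit 309) (nat_lit 258) (nat_lit 153))) (XT.nd (nat_lit 78) (nat_lit 228) (nat_lit 0) (XT.lf (nat_lit 0) (nat_lit 31540554753) (nat_lit 152) (nat_lit 19351792931) (nat_lit 228) (nat_lit 3330635608) (nat_lit 22) (nat_lit 5) (nat_lit 24) (nat_lit 5) (nat_lit 25) (nat_lit 5) (nat_lit 310) (nat_lit 258) (nat_lit 152)) (XT.nd (nat_lit 78) (nat_lit 0) (nat_lit 0) (XT.lf (nat_lit 0) (nat_lit 963900893) (nat_lit 152) (nat_lit 4837469434) (nat_lit 228) (nat_lit 50658280331) (nat_lit 19) (nat_lit 5) (nat_lit 21) (nat_lit 5) (nat_lit 22) (nat_lit 5) (nat_lit 311) (nat_lit 258) (nat_lit 151)) (XT.lf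 (nat_lit 0) (nat_lit 15649356058) (nat_lit 228) (nat_lit 32683798265) (nat_lit 76) (nat_lit 10464170459) (nat_lit 19) (nat_lit 5) (nat_lit 22) (nat_lit 5) (nat_lit 20) (nat_lit 5) (nat_lit 312) (nat_lit 258) (nat_lit 150)))))) (XT.nd (nat_lit 390) (nat_lit 228) (nat_lit 0) (XT.nd (nat_lit 156) (nat_lit 152) (nat_lit 0) (XT.nd (nat_lit 78) (nat_lit 152) (nat_lit 0) (XT.lf (nat_lit 0) (nat_lit 26030774956) (nat_lit 228) (nat_lit 8792713000) (nat_lit 76) (nat_lit 26427173690) (nat_lit 19) (nat_lit 5) (nat_lit 22) (nat_lit 5) (nat_lit 20) (nat_lit 5) (nat_lit 313) (nat_lit 258) (nat_lit 149)) (XT.lf (nat_lit 0) (nat_lit 16604911920) (nat_lit 152) (nat_lit 20478548621) (nat_lit 228) (nat_lit 26738648512) (nat_lit 17) (nat_lit 5) (nat_lit 19) (nat_lit 5) (nat_lit 20) (nat_lit 5) (nat_lit 314) (nat_lit 258) (nat_lit 148))) (XT.nd (nat_lit 78) (nat_lit 152) (nat_lit 0) (XT.lf (nat_lit 0) (nat_lit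 43444468696) (nat_lit 152) (nat_lit 5327645091) (nat_lit 228) (nat_lit 17747524157) (nat_lit 17) (nat_lit 5) (nat_lit 19) (nat_lit 5) (nat_lit 20) (nat_lit 5) (nat_lit 315) (nat_lit 258) (nat_lit 147)) (XT.nd (nat_lit 78) (nat_lit 76) (nat_lit 0) (XT.lf (nat_lit 0) (nat_lit 2203950867) (nat_lit 76) (nat_lit 58957264466) (nat_lit 152) (nat_lit 8187356160) (nat_lit 16) (nat_lit 5) (nat_lit 17) (nat_lit 5) (nat_lit 18) (nat_lit 4) (nat_lit 316) (nat_lit 258) (nat_lit 146)) (XT.lf (nat_lit 0) (nat_lit 2101636397) (nat_lit 152) (nat_lit 43167636605) (nat_lit 76) (nat_lit 27040545038) (nat_lit 15) (nat_lit 5) (nat_lit 17) (nat_lit 5) (nat_lit 16) (nat_lit 5) (nat_lit 317) (nat_lit 258) (nat_lit 145))))) (XT.nd (nat_lit 234) (nat_lit 76) (nat_lit 0) (XT.nd (nat_lit 78) (nat_lit 152) (nat_lit 0) (XT.lf (nat_lit 0) (nat_lit 12730914816) (nat_lit 152) (nat_lit 18085035499) (nat_lit 76) (nat_lit 44600897459)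 (nat_lit 15) (nat_lit 5) (nat_lit 17) (nat_lit 5) (nat_lit 16) (nat_lit 5) (nat_lit 318) (nat_lit 258) (nat_lit 144)) (XT.nd (nat_lit 78) (nat_lit 0) (nat_lit 0) (XT.lf (nat_lit 0) (nat_lit 8405629147) (nat_lit 152) (nat_lit 15560722610) (nat_lit 228) (nat_lit 54710643678) (nat_lit 13) (nat_lit 5) (nat_lit 15) (nat_lit 5) (nat_lit 16) (nat_lit 5) (nat_lit 319) (nat_lit 258) (nat_lit 143)) (XT.lf (nat_lit 0) (nat_lit 35950022472) (nat_lit 228) (nat_lit 45512001264) (nat_lit 76) (nat_lit 632539822) (nat_lit 13) (nat_lit 5) (nat_lit 16) (nat_lit 5) (nat_lit 14) (nat_lit 4) (nat_lit 320) (nat_lit 258) (nat_lit 142)))) (XT.nd (nat_lit 78) (nat_lit 76) (nat_lit 0) (XT.lf (nat_lit 0) (nat_lit 48684271680) (nat_lit 228) (nat_lit 19681200566) (nat_lit 76) (nat_lit 17313002595) (nat_lit 13) (nat_lit 5) (nat_lit 16) (nat_lit 5) (nat_lit 14) (nat_lit 4) (nat_lit 321) (nat_lit 258) (nat_lit 141)) (XT.nd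 (nat_lit 78) (nat_lit 0) (nat_lit 0) (XT.lf (nat_lit 0) (nat_lit 7580030594) (nat_lit 76) (nat_lit 54542673135) (nat_lit 152) (nat_lit 27316860138) (nat_lit 12) (nat_lit 5) (nat_lit 13) (nat_lit 5) (nat_lit 14) (nat_lit 4) (nat_lit 322) (nat_lit 258) (nat_lit 140)) (XT.lf (nat_lit 0) (nat_lit 36606837898) (nat_lit 76) (nat_lit 39823599150) (nat_lit 152) (nat_lit 16952354897) (nat_lit 12) (nat_lit 5) (nat_lit 13) (nat_lit 5) (nat_lit 14) (nat_lit 4) (nat_lit 323) (nat_lit 258) (nat_lit 139))))))) (XT.nd (nat_lit 32994) (nat_lit 0) (nat_lit 7220) (XT.nd (nat_lit 32526) (nat_lit 0) (nat_lit 11096) (XT.nd (nat_lit 156) (nat_lit 152) (nat_lit 0) (XT.nd (nat_lit 78) (nat_lit 76) (nat_lit 0) (XT.lf (nat_lit 0) (nat_lit 67076638311) (nat_lit 76) (nat_lit 24371946412) (nat_lit 152) (nat_lit 6074751580) (nat_lit 12) (nat_lit 5) (nat_lit 13) (nat_lit 5) (nat_lit 14) (nat_lit 4) (nat_lit 324) (nat_lit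 258) (nat_lit 138)) (XT.lf (nat_lit 0) (nat_lit 5237610156) (nat_lit 152) (nat_lit 2860425521) (nat_lit 76) (nat_lit 93771479225) (nat_lit 11) (nat_lit 5) (nat_lit 13) (nat_lit 5) (nat_lit 12) (nat_lit 5) (nat_lit 325) (nat_lit 258) (nat_lit 137))) (XT.nd (nat_lit 78) (nat_lit 0) (nat_lit 0) (XT.lf (nat_lit 0) (nat_lit 17331337330) (nat_lit 228) (nat_lit 79958814199) (nat_lit 76) (nat_lit 9130810069) (nat_lit 9) (nat_lit 5) (nat_lit 12) (nat_lit 5) (nat_lit 10) (nat_lit 4) (nat_lit 326) (nat_lit 258) (nat_lit 136)) (XT.nd (nat_lit 32214) (nat_lit 0) (nat_lit 11096) (XT.lf (nat_lit 0) (nat_lit 30136780026) (nat_lit 228) (nat_lit 53978056056) (nat_lit 76) (nat_lit 27081938457) (nat_lit 9) (nat_lit 5) (nat_lit 12) (nat_lit 5) (nat_lit 10) (nat_lit 4) (nat_lit 327) (nat_lit 258) (nat_lit 135)) (XT.lf (nat_lit 0) (nat_lit 812154295) (nat_lit 0) (nat_lit 812154295) (nat_lit 988) (nat_lit 3779051964)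 (nat_lit 155) (nat_lit 5) (nat_lit 155) (nat_lit 3) (nat_lit 168) (nat_lit 3) (nat_lit 259) (nat_lit 259) (nat_lit 202))))) (XT.nd (nat_lit 234) (nat_lit 0) (nat_lit 152) (XT.nd (nat_lit 78) (nat_lit 0) (nat_lit 76) (XT.lf (nat_lit 0) (nat_lit 4257362646) (nat_lit 988) (nat_lit 1850796747) (nat_lit 1064) (nat_lit 4938437221) (nat_lit 155) (nat_lit 5) (nat_lit 168) (nat_lit 3) (nat_lit 169) (nat_lit 5) (nat_lit 260) (nat_lit 259) (nat_lit 201)) (XT.nd (nat_lit 78) (nat_lit 0) (nat_lit 0) (XT.lf (nat_lit 0) (nat_lit 5339404537) (nat_lit 988) (nat_lit 5387506397) (nat_lit 1064) (nat_lit 571027080) (nat_lit 156) (nat_lit 5) (nat_lit 169) (nat_lit 5) (nat_lit 170) (nat_lit 5) (nat_lit 261) (nat_lit 259) (nat_lit 200)) (XT.lf (nat_lit 76) (nat_lit 2492543002) (nat_lit 0) (nat_lit 4034470961) (nat_lit 1064) (nat_lit 5033438932) (nat_lit 157) (nat_lit 5) (nat_lit 156) (nat_lit 5) (nat_lit 170) (nat_lit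 5) (nat_lit 262) (nat_lit 259) (nat_lit 199)))) (XT.nd (nat_lit 78) (nat_lit 0) (nat_lit 0) (XT.lf (nat_lit 0) (nat_lit 7807840523) (nat_lit 988) (nat_lit 1016922416) (nat_lit 1064) (nat_lit 3010458696) (nat_lit 157) (nat_lit 5) (nat_lit 170) (nat_lit 5) (nat_lit 171) (nat_lit 5) (nat_lit 263) (nat_lit 259) (nat_lit 198)) (XT.nd (nat_lit 78) (nat_lit 0) (nat_lit 76) (XT.lf (nat_lit 76) (nat_lit 7511658898) (nat_lit 0) (nat_lit 1705464035) (nat_lit 1064) (nat_lit 2904809841) (nat_lit 158) (nat_lit 5) (nat_lit 157) (nat_lit 5) (nat_lit 171) (nat_lit 5) (nat_lit 264) (nat_lit 259) (nat_lit 197)) (XT.lf (nat_lit 76) (nat_lit 4057244831) (nat_lit 0) (nat_lit 6698328742) (nat_lit 1064) (nat_lit 1665774671) (nat_lit 159) (nat_lit 5) (nat_lit 158) (nat_lit 5) (nat_lit 172) (nat_lit 5) (nat_lit 265) (nat_lit 259) (nat_lit 196)))))) (XT.nd (nat_lit 390) (nat_lit 3116) (nat_lit 0) (XT.nd (nat_lit 156)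 (nat_lit 0) (nat_lit 76) (XT.nd (nat_lit 78) (nat_lit 1064) (nat_lit 0) (XT.lf (nat_lit 76) (nat_lit 472341242) (nat_lit 0) (nat_lit 11931065255) (nat_lit 1064) (nat_lit 331477913) (nat_lit 160) (nat_lit 5) (nat_lit 159) (nat_lit 5) (nat_lit 173) (nat_lit 5) (nat_lit 266) (nat_lit 259) (nat_lit 195)) (XT.lf (nat_lit 0) (nat_lit 1160207383) (nat_lit 1064) (nat_lit 3247203746) (nat_lit 1140) (nat_lit 8653145894) (nat_lit 145) (nat_lit 5) (nat_lit 159) (nat_lit 5) (nat_lit 160) (nat_lit 5) (nat_lit 267) (nat_lit 259) (nat_lit 194))) (XT.nd (nat_lit 78) (nat_lit 0) (nat_lit 0) (XT.lf (nat_lit 0) (nat_lit 2773653791) (nat_lit 1064) (nat_lit 7128389941) (nat_lit 1140) (nat_lit 3498859050) (nat_lit 146) (nat_lit 5) (nat_lit 160) (nat_lit 5) (nat_lit 161) (nat_lit 5) (nat_lit 268) (nat_lit 259) (nat_lit 193)) (XT.nd (nat_lit 78) (nat_lit 0) (nat_lit 76) (XT.lf (nat_lit 76) (nat_lit 2552510379) (nat_lit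 0) (nat_lit 1978826287) (nat_lit 1140) (nat_lit 9225125995) (nat_lit 147) (nat_lit 5) (nat_lit 146) (nat_lit 5) (nat_lit 161) (nat_lit 5) (nat_lit 269) (nat_lit 259) (nat_lit 192)) (XT.lf (nat_lit 0) (nat_lit 6474389574) (nat_lit 1064) (nat_lit 1354549037) (nat_lit 76) (nat_lit 6298036162) (nat_lit 147) (nat_lit 5) (nat_lit 161) (nat_lit 5) (nat_lit 148) (nat_lit 5) (nat_lit 270) (nat_lit 259) (nat_lit 191))))) (XT.nd (nat_lit 234) (nat_lit 1064) (nat_lit 0) (XT.nd (nat_lit 78) (nat_lit 1140) (nat_lit 0) (XT.lf (nat_lit 0) (nat_lit 8591487379) (nat_lit 1140) (nat_lit 5403998078) (nat_lit 76) (nat_lit 518314376) (nat_lit 133) (nat_lit 5) (nat_lit 148) (nat_lit 5) (nat_lit 134) (nat_lit 5) (nat_lit 271) (nat_lit 259) (nat_lit 190)) (XT.nd (nat_lit 78) (nat_lit 532) (nat_lit 0) (XT.lf (nat_lit 0) (nat_lit 5197914205) (nat_lit 608) (nat_lit 5725281899) (nat_lit 684) (nat_lit 3993596990) (nat_lit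 125) (nat_lit 5) (nat_lit 133) (nat_lit 5) (nat_lit 134) (nat_lit 5) (nat_lit 272) (nat_lit 259) (nat_lit 189)) (XT.lf (nat_lit 0) (nat_lit 1065669395) (nat_lit 532) (nat_lit 12367753733) (nat_lit 608) (nat_lit 1904740266) (nat_lit 118) (nat_lit 5) (nat_lit 125) (nat_lit 5) (nat_lit 126) (nat_lit 5) (nat_lit 273) (nat_lit 259) (nat_lit 188)))) (XT.nd (nat_lit 78) (nat_lit 988) (nat_lit 0) (XT.lf (nat_lit 0) (nat_lit 409711715) (nat_lit 608) (nat_lit 3277166037) (nat_lit 76) (nat_lit 12089916674) (nat_lit 117) (nat_lit 5) (nat_lit 125) (nat_lit 5) (nat_lit 118) (nat_lit 5) (nat_lit 274) (nat_lit 259) (nat_lit 187)) (XT.nd (nat_lit 78) (nat_lit 456) (nat_lit 0) (XT.lf (nat_lit 0) (nat_lit 2904107872) (nat_lit 608) (nat_lit 7905343581) (nat_lit 76) (nat_lit 5424306524) (nat_lit 110) (nat_lit 5) (nat_lit 118) (nat_lit 5) (nat_lit 111) (nat_lit 5) (nat_lit 275) (nat_lit 259) (nat_lit 186)) (XT.lf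 (nat_lit 0) (nat_lit 3879120384) (nat_lit 456) (nat_lit 1723350221) (nat_lit 532) (nat_lit 11108793289) (nat_lit 104) (nat_lit 5) (nat_lit 110) (nat_lit 5) (nat_lit 111) (nat_lit 5) (nat_lit 276) (nat_lit 259) (nat_lit 185))))))))
noncomputable def xc86 : XT := (XT.nd (nat_lit 1638) (nat_lit 1900) (nat_lit 0) (XT.nd (nat_lit 780) (nat_lit 1976) (nat_lit 0) (XT.nd (nat_lit 390) (nat_lit 1520) (nat_lit 0) (XT.nd (nat_lit 156) (nat_lit 912) (nat_lit 0) (XT.nd (nat_lit 78) (nat_lit 456) (nat_lit 0) (XT.lf (nat_lit 0) (nat_lit 8564875899) (nat_lit 532) (nat_lit 897448380) (nat_lit 76) (nat_lit 7746515275) (nat_lit 104) (nat_lit 5) (nat_lit 111) (nat_lit 5) (nat_lit 105) (nat_lit 5) (nat_lit 277) (nat_lit 259) (nat_lit 184)) (XT.lf (nat_lit 0) (nat_lit 11779933216) (nat_lit 532) (nat_lit 5909299134) (nat_lit 76) (nat_lit 38990631) (nat_lit 98) (nat_lit 5) (nat_lit 105) (nat_lit 5) (nat_lit 99)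 (nat_lit 5) (nat_lit 278) (nat_lit 259) (nat_lit 183))) (XT.nd (nat_lit 78) (nat_lit 532) (nat_lit 0) (XT.lf (nat_lit 0) (nat_lit 6928235997) (nat_lit 380) (nat_lit 8373088342) (nat_lit 456) (nat_lit 2967945652) (nat_lit 93) (nat_lit 5) (nat_lit 98) (nat_lit 5) (nat_lit 99) (nat_lit 5) (nat_lit 279) (nat_lit 259) (nat_lit 182)) (XT.nd (nat_lit 78) (nat_lit 0) (nat_lit 0) (XT.lf (nat_lit 0) (nat_lit 225147352) (nat_lit 532) (nat_lit 17151208526) (nat_lit 76) (nat_lit 1459017663) (nat_lit 86) (nat_lit 5) (nat_lit 93) (nat_lit 5) (nat_lit 87) (nat_lit 5) (nat_lit 280) (nat_lit 259) (nat_lit 181)) (XT.lf (nat_lit 0) (nat_lit 3695225968) (nat_lit 532) (nat_lit 3971937911) (nat_lit 76) (nat_lit 11756429902) (nat_lit 86) (nat_lit 5) (nat_lit 93) (nat_lit 5) (nat_lit 87) (nat_lit 5) (nat_lit 281) (nat_lit 259) (nat_lit 180))))) (XT.nd (nat_lit 156) (nat_lit 760) (nat_lit 0) (XT.nd (nat_lit 78) (nat_lit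 380) (nat_lit 0) (XT.lf (nat_lit 0) (nat_lit 7437383039) (nat_lit 456) (nat_lit 10028501234) (nat_lit 76) (nat_lit 2572435390) (nat_lit 81) (nat_lit 5) (nat_lit 87) (nat_lit 5) (nat_lit 82) (nat_lit 5) (nat_lit 282) (nat_lit 259) (nat_lit 179)) (XT.lf (nat_lit 0) (nat_lit 4066401816) (nat_lit 380) (nat_lit 7435721155) (nat_lit 456) (nat_lit 9177644014) (nat_lit 76) (nat_lit 5) (nat_lit 81) (nat_lit 5) (nat_lit 82) (nat_lit 5) (nat_lit 283) (nat_lit 259) (nat_lit 178))) (XT.nd (nat_lit 78) (nat_lit 760) (nat_lit 0) (XT.lf (nat_lit 0) (nat_lit 15882601567) (nat_lit 456) (nat_lit 2331521498) (nat_lit 76) (nat_lit 3135835602) (nat_lit 76) (nat_lit 5) (nat_lit 82) (nat_lit 5) (nat_lit 77) (nat_lit 5) (nat_lit 284) (nat_lit 259) (nat_lit 177)) (XT.nd (nat_lit 78) (nat_lit 456) (nat_lit 0) (XT.lf (nat_lit 0) (nat_lit 12814501111) (nat_lit 304) (nat_lit 7845343676) (nat_lit 380) (nat_lit 1388527727)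 (nat_lit 72) (nat_lit 5) (nat_lit 76) (nat_lit 5) (nat_lit 77) (nat_lit 5) (nat_lit 285) (nat_lit 259) (nat_lit 176)) (XT.lf (nat_lit 0) (nat_lit 2930471806) (nat_lit 456) (nat_lit 16758396444) (nat_lit 76) (nat_lit 3089264421) (nat_lit 66) (nat_lit 5) (nat_lit 72) (nat_lit 5) (nat_lit 67) (nat_lit 5) (nat_lit 286) (nat_lit 259) (nat_lit 175)))))) (XT.nd (nat_lit 390) (nat_lit 1064) (nat_lit 0) (XT.nd (nat_lit 156) (nat_lit 608) (nat_lit 0) (XT.nd (nat_lit 78) (nat_lit 304) (nat_lit 0) (XT.lf (nat_lit 0) (nat_lit 7592843693) (nat_lit 456) (nat_lit 1431195655) (nat_lit 76) (nat_lit 14515284330) (nat_lit 66) (nat_lit 5) (nat_lit 72) (nat_lit 5) (nat_lit 67) (nat_lit 5) (nat_lit 287) (nat_lit 259) (nat_lit 174)) (XT.lf (nat_lit 0) (nat_lit 12635736584) (nat_lit 380) (nat_lit 9426762396) (nat_lit 76) (nat_lit 2271690759) (nat_lit 62) (nat_lit 5) (nat_lit 67) (nat_lit 5) (nat_lit 63) (nat_lit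 5) (nat_lit 288) (nat_lit 259) (nat_lit 173))) (XT.nd (nat_lit 78) (nat_lit 304) (nat_lit 0) (XT.lf (nat_lit 0) (nat_lit 6945644496) (nat_lit 304) (nat_lit 11140077284) (nat_lit 380) (nat_lit 7078464680) (nat_lit 58) (nat_lit 5) (nat_lit 62) (nat_lit 5) (nat_lit 63) (nat_lit 5) (nat_lit 289) (nat_lit 259) (nat_lit 172)) (XT.nd (nat_lit 78) (nat_lit 304) (nat_lit 0) (XT.lf (nat_lit 0) (nat_lit 23892164251) (nat_lit 380) (nat_lit 1726253138) (nat_lit 76) (nat_lit 414780969) (nat_lit 58) (nat_lit 5) (nat_lit 63) (nat_lit 5) (nat_lit 59) (nat_lit 5) (nat_lit 290) (nat_lit 259) (nat_lit 171)) (XT.lf (nat_lit 0) (nat_lit 3233892771) (nat_lit 304) (nat_lit 11206079480) (nat_lit 76) (nat_lit 12497342207) (nat_lit 54) (nat_lit 5) (nat_lit 58) (nat_lit 5) (nat_lit 55) (nat_lit 5) (nat_lit 291) (nat_lit 259) (nat_lit 170))))) (XT.nd (nat_lit 234) (nat_lit 532) (nat_lit 0) (XT.nd (nat_lit 78) (nat_lit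 228) (nat_lit 0) (XT.lf (nat_lit 0) (nat_lit 6290890218) (nat_lit 304) (nat_lit 2605232774) (nat_lit 380) (nat_lit 18988022324) (nat_lit 50) (nat_lit 5) (nat_lit 54) (nat_lit 5) (nat_lit 55) (nat_lit 5) (nat_lit 292) (nat_lit 259) (nat_lit 169)) (XT.nd (nat_lit 78) (nat_lit 228) (nat_lit 0) (XT.lf (nat_lit 0) (nat_lit 15036884174) (nat_lit 380) (nat_lit 4094991327) (nat_lit 76) (nat_lit 9740608219) (nat_lit 50) (nat_lit 5) (nat_lit 55) (nat_lit 5) (nat_lit 51) (nat_lit 5) (nat_lit 293) (nat_lit 259) (nat_lit 168)) (XT.lf (nat_lit 0) (nat_lit 14514679430) (nat_lit 228) (nat_lit 7121073493) (nat_lit 304) (nat_lit 8269981258) (nat_lit 47) (nat_lit 5) (nat_lit 50) (nat_lit 5) (nat_lit 51) (nat_lit 5) (nat_lit 294) (nat_lit 259) (nat_lit 167)))) (XT.nd (nat_lit 78) (nat_lit 304) (nat_lit 0) (XT.lf (nat_lit 0) (nat_lit 3138823384) (nat_lit 228) (nat_lit 25536969261) (nat_lit 304) (nat_lit 2311543619)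 (nat_lit 44) (nat_lit 5) (nat_lit 47) (nat_lit 5) (nat_lit 48) (nat_lit 5) (nat_lit 295) (nat_lit 259) (nat_lit 166)) (XT.nd (nat_lit 78) (nat_lit 228) (nat_lit 0) (XT.lf (nat_lit 0) (nat_lit 4085757387) (nat_lit 304) (nat_lit 9332784317) (nat_lit 76) (nat_lit 18696825551) (nat_lit 43) (nat_lit 5) (nat_lit 47) (nat_lit 5) (nat_lit 44) (nat_lit 5) (nat_lit 296) (nat_lit 259) (nat_lit 165)) (XT.lf (nat_lit 0) (nat_lit 10266712827) (nat_lit 228) (nat_lit 574241832) (nat_lit 304) (nat_lit 22455606245) (nat_lit 40) (nat_lit 5) (nat_lit 43) (nat_lit 5) (nat_lit 44) (nat_lit 5) (nat_lit 297) (nat_lit 259) (nat_lit 164))))))) (XT.nd (nat_lit 858) (nat_lit 684) (nat_lit 0) (XT.nd (nat_lit 390) (nat_lit 532) (nat_lit 0) (XT.nd (nat_lit 156) (nat_lit 456) (nat_lit 0) (XT.nd (nat_lit 78) (nat_lit 228) (nat_lit 0) (XT.lf (nat_lit 0) (nat_lit 18142160920) (nat_lit 304) (nat_lit 3636626134) (nat_lit 76)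 (nat_lit 12751801453) (nat_lit 40) (nat_lit 5) (nat_lit 44) (nat_lit 5) (nat_lit 41) (nat_lit 5) (nat_lit 298) (nat_lit 259) (nat_lit 163)) (XT.lf (nat_lit 0) (nat_lit 17034936028) (nat_lit 228) (nat_lit 8930756187) (nat_lit 304) (nat_lit 9855928041) (nat_lit 37) (nat_lit 5) (nat_lit 40) (nat_lit 5) (nat_lit 41) (nat_lit 5) (nat_lit 299) (nat_lit 259) (nat_lit 162))) (XT.nd (nat_lit 78) (nat_lit 304) (nat_lit 0) (XT.lf (nat_lit 0) (nat_lit 1609449791) (nat_lit 152) (nat_lit 32656140644) (nat_lit 228) (nat_lit 2909077170) (nat_lit 35) (nat_lit 5) (nat_lit 37) (nat_lit 5) (nat_lit 38) (nat_lit 5) (nat_lit 300) (nat_lit 259) (nat_lit 161)) (XT.nd (nat_lit 78) (nat_lit 228) (nat_lit 0) (XT.lf (nat_lit 0) (nat_lit 4573346043) (nat_lit 228) (nat_lit 15323283344) (nat_lit 76) (nat_lit 18689277620) (nat_lit 34) (nat_lit 5) (nat_lit 37) (nat_lit 5) (nat_lit 35) (nat_lit 5) (nat_lit 301) (nat_lit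 259) (nat_lit 160)) (XT.lf (nat_lit 0) (nat_lit 6001848976) (nat_lit 228) (nat_lit 6415036469) (nat_lit 304) (nat_lit 27648561445) (nat_lit 31) (nat_lit 5) (nat_lit 34) (nat_lit 5) (nat_lit 35) (nat_lit 5) (nat_lit 302) (nat_lit 259) (nat_lit 159))))) (XT.nd (nat_lit 234) (nat_lit 380) (nat_lit 0) (XT.nd (nat_lit 78) (nat_lit 152) (nat_lit 0) (XT.lf (nat_lit 0) (nat_lit 20875537802) (nat_lit 304) (nat_lit 12993214475) (nat_lit 76) (nat_lit 7743539951) (nat_lit 31) (nat_lit 5) (nat_lit 35) (nat_lit 5) (nat_lit 32) (nat_lit 5) (nat_lit 303) (nat_lit 259) (nat_lit 158)) (XT.nd (nat_lit 78) (nat_lit 0) (nat_lit 0) (XT.lf (nat_lit 0) (nat_lit 9230378641) (nat_lit 152) (nat_lit 20669960503) (nat_lit 228) (nat_lit 13331859950) (nat_lit 29) (nat_lit 5) (nat_lit 31) (nat_lit 5) (nat_lit 32) (nat_lit 5) (nat_lit 304) (nat_lit 259) (nat_lit 157)) (XT.lf (nat_lit 0) (nat_lit 32821441902) (nat_lit 152)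 (nat_lit 6678774320) (nat_lit 228) (nat_lit 5429185015) (nat_lit 29) (nat_lit 5) (nat_lit 31) (nat_lit 5) (nat_lit 32) (nat_lit 5) (nat_lit 305) (nat_lit 259) (nat_lit 156)))) (XT.nd (nat_lit 78) (nat_lit 152) (nat_lit 0) (XT.lf (nat_lit 0) (nat_lit 2987642681) (nat_lit 228) (nat_lit 35732025206) (nat_lit 76) (nat_lit 7985732339) (nat_lit 26) (nat_lit 5) (nat_lit 29) (nat_lit 5) (nat_lit 27) (nat_lit 5) (nat_lit 306) (nat_lit 259) (nat_lit 155)) (XT.nd (nat_lit 78) (nat_lit 152) (nat_lit 0) (XT.lf (nat_lit 0) (nat_lit 11898072749) (nat_lit 228) (nat_lit 13242634126) (nat_lit 76) (nat_lit 23422341525) (nat_lit 26) (nat_lit 5) (nat_lit 29) (nat_lit 5) (nat_lit 27) (nat_lit 5) (nat_lit 307) (nat_lit 259) (nat_lit 154)) (XT.lf (nat_lit 0) (nat_lit 10563522317) (nat_lit 152) (nat_lit 10783202923) (nat_lit 228) (nat_lit 29164085297) (nat_lit 24) (nat_lit 5) (nat_lit 26) (nat_lit 5) (nat_lit 27)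 (nat_lit 5) (nat_lit 308) (nat_lit 259) (nat_lit 153)))))) (XT.nd (nat_lit 390) (nat_lit 304) (nat_lit 0) (XT.nd (nat_lit 156) (nat_lit 228) (nat_lit 0) (XT.nd (nat_lit 78) (nat_lit 152) (nat_lit 0) (XT.lf (nat_lit 0) (nat_lit 31438143069) (nat_lit 228) (nat_lit 16771422620) (nat_lit 76) (nat_lit 4341297095) (nat_lit 24) (nat_lit 5) (nat_lit 27) (nat_lit 5) (nat_lit 25) (nat_lit 5) (nat_lit 309) (nat_lit 259) (nat_lit 152)) (XT.lf (nat_lit 0) (nat_lit 7589486111) (nat_lit 152) (nat_lit 34618250075) (nat_lit 228) (nat_lit 12479984739) (nat_lit 22) (nat_lit 5) (nat_lit 24) (nat_lit 5) (nat_lit 25) (nat_lit 5) (nat_lit 310) (nat_lit 259) (nat_lit 151))) (XT.nd (nat_lit 78) (nat_lit 228) (nat_lit 0) (XT.lf (nat_lit 0) (nat_lit 33506275758) (nat_lit 152) (nat_lit 20174260746) (nat_lit 228) (nat_lit 3245954510) (nat_lit 22) (nat_lit 5) (nat_lit 24) (nat_lit 5) (nat_lit 25) (nat_lit 5) (nat_lit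 311) (nat_lit 259) (nat_lit 150)) (XT.nd (nat_lit 78) (nat_lit 0) (nat_lit 0) (XT.lf (nat_lit 0) (nat_lit 1394724201) (nat_lit 152) (nat_lit 4934974423) (nat_lit 228) (nat_lit 52945477666) (nat_lit 19) (nat_lit 5) (nat_lit 21) (nat_lit 5) (nat_lit 22) (nat_lit 5) (nat_lit 312) (nat_lit 259) (nat_lit 149)) (XT.lf (nat_lit 0) (nat_lit 16660059613) (nat_lit 228) (nat_lit 33947800172) (nat_lit 76) (nat_lit 11122189776) (nat_lit 19) (nat_lit 5) (nat_lit 22) (nat_lit 5) (nat_lit 20) (nat_lit 5) (nat_lit 313) (nat_lit 259) (nat_lit 148))))) (XT.nd (nat_lit 234) (nat_lit 152) (nat_lit 0) (XT.nd (nat_lit 78) (nat_lit 152) (nat_lit 0) (XT.lf (nat_lit 0) (nat_lit 27549681086) (nat_lit 228) (nat_lit 8879788644) (nat_lit 76) (nat_lit 27876923607) (nat_lit 19) (nat_lit 5) (nat_lit 22) (nat_lit 5) (nat_lit 20) (nat_lit 5) (nat_lit 314) (nat_lit 259) (nat_lit 147)) (XT.nd (nat_lit 78) (nat_lit 0) (nat_lit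 0) (XT.lf (nat_lit 0) (nat_lit 17777611460) (nat_lit 152) (nat_lit 21370330539) (nat_lit 228) (nat_lit 27858696235) (nat_lit 17) (nat_lit 5) (nat_lit 19) (nat_lit 5) (nat_lit 20) (nat_lit 5) (nat_lit 315) (nat_lit 259) (nat_lit 146)) (XT.lf (nat_lit 0) (nat_lit 45942838744) (nat_lit 152) (nat_lit 5468174476) (nat_lit 228) (nat_lit 18428343505) (nat_lit 17) (nat_lit 5) (nat_lit 19) (nat_lit 5) (nat_lit 20) (nat_lit 5) (nat_lit 316) (nat_lit 259) (nat_lit 145)))) (XT.nd (nat_lit 78) (nat_lit 76) (nat_lit 0) (XT.lf (nat_lit 0) (nat_lit 2635854585) (nat_lit 76) (nat_lit 61778422065) (nat_lit 152) (nat_lit 8395631208) (nat_lit 16) (nat_lit 5) (nat_lit 17) (nat_lit 5) (nat_lit 18) (nat_lit 4) (nat_lit 317) (nat_lit 259) (nat_lit 144)) (XT.nd (nat_lit 78) (nat_lit 0) (nat_lit 0) (XT.lf (nat_lit 0) (nat_lit 2394497947) (nat_lit 152) (nat_lit 45015670475) (nat_lit 76) (nat_lit 28509283186) (nat_lit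 15) (nat_lit 5) (nat_lit 17) (nat_lit 5) (nat_lit 16) (nat_lit 5) (nat_lit 318) (nat_lit 259) (nat_lit 143)) (XT.lf (nat_lit 0) (nat_lit 13546298394) (nat_lit 152) (nat_lit 18693717788) (nat_lit 76) (nat_lit 46942095566) (nat_lit 15) (nat_lit 5) (nat_lit 17) (nat_lit 5) (nat_lit 16) (nat_lit 5) (nat_lit 319) (nat_lit 259) (nat_lit 142))))))))
noncomputable def xc87 : XT := (XT.nd (nat_lit 33852) (nat_lit 0) (nat_lit 3116) (XT.nd (nat_lit 32994) (nat_lit 0) (nat_lit 9424) (XT.nd (nat_lit 390) (nat_lit 228) (nat_lit 0) (XT.nd (nat_lit 156) (nat_lit 76) (nat_lit 0) (XT.nd (nat_lit 78) (nat_lit 0) (nat_lit 0) (XT.lf (nat_lit 0) (nat_lit 9113007650) (nat_lit 152) (nat_lit 16224743198) (nat_lit 228) (nat_lit 57267698792) (nat_lit 13) (nat_lit 5) (nat_lit 15) (nat_lit 5) (nat_lit 16) (nat_lit 5) (nat_lit 320) (nat_lit 259) (nat_lit 141)) (XT.lf (nat_lit 0) (nat_lit 37913406919) (nat_lit 228) (nat_lit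 47510080731) (nat_lit 76) (nat_lit 770634136) (nat_lit 13) (nat_lit 5) (nat_lit 16) (nat_lit 5) (nat_lit 14) (nat_lit 4) (nat_lit 321) (nat_lit 259) (nat_lit 140))) (XT.nd (nat_lit 78) (nat_lit 76) (nat_lit 0) (XT.lf (nat_lit 0) (nat_lit 51276469382) (nat_lit 228) (nat_lit 20400955265) (nat_lit 76) (nat_lit 18280050175) (nat_lit 13) (nat_lit 5) (nat_lit 16) (nat_lit 5) (nat_lit 14) (nat_lit 4) (nat_lit 322) (nat_lit 259) (nat_lit 139)) (XT.nd (nat_lit 78) (nat_lit 0) (nat_lit 0) (XT.lf (nat_lit 0) (nat_lit 8215761194) (nat_lit 76) (nat_lit 57166006623) (nat_lit 152) (nat_lit 28525010912) (nat_lit 12) (nat_lit 5) (nat_lit 13) (nat_lit 5) (nat_lit 14) (nat_lit 4) (nat_lit 323) (nat_lit 259) (nat_lit 138)) (XT.lf (nat_lit 0) (nat_lit 38681683670) (nat_lit 76) (nat_lit 41715921804) (nat_lit 152) (nat_lit 17649789563) (nat_lit 12) (nat_lit 5) (nat_lit 13) (nat_lit 5) (nat_lit 14) (nat_lit 4)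 (nat_lit 324) (nat_lit 259) (nat_lit 137))))) (XT.nd (nat_lit 156) (nat_lit 152) (nat_lit 0) (XT.nd (nat_lit 78) (nat_lit 76) (nat_lit 0) (XT.lf (nat_lit 0) (nat_lit 70663331061) (nat_lit 76) (nat_lit 25496393919) (nat_lit 152) (nat_lit 6235457655) (nat_lit 12) (nat_lit 5) (nat_lit 13) (nat_lit 5) (nat_lit 14) (nat_lit 4) (nat_lit 325) (nat_lit 259) (nat_lit 136)) (XT.lf (nat_lit 0) (nat_lit 5633052992) (nat_lit 152) (nat_lit 2778869263) (nat_lit 76) (nat_lit 98546914364) (nat_lit 11) (nat_lit 5) (nat_lit 13) (nat_lit 5) (nat_lit 12) (nat_lit 5) (nat_lit 326) (nat_lit 259) (nat_lit 135))) (XT.nd (nat_lit 32292) (nat_lit 0) (nat_lit 11096) (XT.lf (nat_lit 0) (nat_lit 18328057303) (nat_lit 228) (nat_lit 83735449714) (nat_lit 76) (nat_lit 9674457917) (nat_lit 9) (nat_lit 5) (nat_lit 12) (nat_lit 5) (nat_lit 10) (nat_lit 4) (nat_lit 327) (nat_lit 259) (nat_lit 134)) (XT.nd (nat_lit 78) (nat_lit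 0) (nat_lit 0) (XT.lf (nat_lit 0) (nat_lit 1285456285) (nat_lit 0) (nat_lit 1285456285) (nat_lit 988) (nat_lit 3074226244) (nat_lit 155) (nat_lit 5) (nat_lit 155) (nat_lit 3) (nat_lit 168) (nat_lit 3) (nat_lit 260) (nat_lit 260) (nat_lit 200)) (XT.lf (nat_lit 0) (nat_lit 6110667402) (nat_lit 988) (nat_lit 1057158746) (nat_lit 1064) (nat_lit 4377262224) (nat_lit 155) (nat_lit 5) (nat_lit 168) (nat_lit 3) (nat_lit 169) (nat_lit 5) (nat_lit 261) (nat_lit 260) (nat_lit 199)))))) (XT.nd (nat_lit 390) (nat_lit 1672) (nat_lit 0) (XT.nd (nat_lit 156) (nat_lit 0) (nat_lit 152) (XT.nd (nat_lit 78) (nat_lit 0) (nat_lit 76) (XT.lf (nat_lit 76) (nat_lit 7072783494) (nat_lit 0) (nat_lit 98307945) (nat_lit 1064) (nat_lit 4640397236) (nat_lit 156) (nat_lit 5) (nat_lit 155) (nat_lit 5) (nat_lit 169) (nat_lit 5) (nat_lit 262) (nat_lit 260) (nat_lit 198)) (XT.lf (nat_lit 76) (nat_lit 3509945249) (nat_lit 0)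 (nat_lit 4841307674) (nat_lit 1064) (nat_lit 3738090979) (nat_lit 157) (nat_lit 5) (nat_lit 156) (nat_lit 5) (nat_lit 170) (nat_lit 5) (nat_lit 263) (nat_lit 260) (nat_lit 197))) (XT.nd (nat_lit 78) (nat_lit 0) (nat_lit 0) (XT.lf (nat_lit 0) (nat_lit 9619253068) (nat_lit 988) (nat_lit 165174772) (nat_lit 1064) (nat_lit 2595929033) (nat_lit 157) (nat_lit 5) (nat_lit 170) (nat_lit 5) (nat_lit 171) (nat_lit 5) (nat_lit 264) (nat_lit 260) (nat_lit 196)) (XT.nd (nat_lit 78) (nat_lit 0) (nat_lit 76) (XT.lf (nat_lit 76) (nat_lit 8763962938) (nat_lit 0) (nat_lit 2275796595) (nat_lit 1064) (nat_lit 1643611485) (nat_lit 158) (nat_lit 5) (nat_lit 157) (nat_lit 5) (nat_lit 171) (nat_lit 5) (nat_lit 265) (nat_lit 260) (nat_lit 195)) (XT.lf (nat_lit 76) (nat_lit 5159604436) (nat_lit 0) (nat_lit 7434887447) (nat_lit 1064) (nat_lit 405265795) (nat_lit 159) (nat_lit 5) (nat_lit 158) (nat_lit 5) (nat_lit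 172) (nat_lit 5) (nat_lit 266) (nat_lit 260) (nat_lit 194))))) (XT.nd (nat_lit 234) (nat_lit 912) (nat_lit 0) (XT.nd (nat_lit 78) (nat_lit 0) (nat_lit 0) (XT.lf (nat_lit 0) (nat_lit 918780617) (nat_lit 1064) (nat_lit 11924997844) (nat_lit 1140) (nat_lit 486798613) (nat_lit 145) (nat_lit 5) (nat_lit 159) (nat_lit 5) (nat_lit 160) (nat_lit 5) (nat_lit 267) (nat_lit 260) (nat_lit 193)) (XT.nd (nat_lit 78) (nat_lit 0) (nat_lit 76) (XT.lf (nat_lit 0) (nat_lit 2418256498) (nat_lit 1064) (nat_lit 2507347937) (nat_lit 1140) (nat_lit 8748788128) (nat_lit 145) (nat_lit 5) (nat_lit 159) (nat_lit 5) (nat_lit 160) (nat_lit 5) (nat_lit 268) (nat_lit 260) (nat_lit 192)) (XT.lf (nat_lit 0) (nat_lit 4061011455) (nat_lit 1064) (nat_lit 6568233427) (nat_lit 1140) (nat_lit 3404203600) (nat_lit 146) (nat_lit 5) (nat_lit 160) (nat_lit 5) (nat_lit 161) (nat_lit 5) (nat_lit 269) (nat_lit 260) (nat_lit 191)))) (XT.nd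 (nat_lit 78) (nat_lit 988) (nat_lit 0) (XT.lf (nat_lit 76) (nat_lit 3570438442) (nat_lit 0) (nat_lit 2289999356) (nat_lit 1140) (nat_lit 8547877500) (nat_lit 147) (nat_lit 5) (nat_lit 146) (nat_lit 5) (nat_lit 161) (nat_lit 5) (nat_lit 270) (nat_lit 260) (nat_lit 190)) (XT.nd (nat_lit 78) (nat_lit 1064) (nat_lit 0) (XT.lf (nat_lit 0) (nat_lit 7846198764) (nat_lit 1064) (nat_lit 538168735) (nat_lit 76) (nat_lit 6414756685) (nat_lit 147) (nat_lit 5) (nat_lit 161) (nat_lit 5) (nat_lit 148) (nat_lit 5) (nat_lit 271) (nat_lit 260) (nat_lit 189)) (XT.lf (nat_lit 0) (nat_lit 10026077899) (nat_lit 1140) (nat_lit 4781195063) (nat_lit 76) (nat_lit 399441011) (nat_lit 133) (nat_lit 5) (nat_lit 148) (nat_lit 5) (nat_lit 134) (nat_lit 5) (nat_lit 272) (nat_lit 260) (nat_lit 188))))))) (XT.nd (nat_lit 858) (nat_lit 2356) (nat_lit 0) (XT.nd (nat_lit 390) (nat_lit 1748) (nat_lit 0) (XT.nd (nat_lit 156)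 (nat_lit 1064) (nat_lit 0) (XT.nd (nat_lit 78) (nat_lit 532) (nat_lit 0) (XT.lf (nat_lit 0) (nat_lit 6325215085) (nat_lit 608) (nat_lit 6109637093) (nat_lit 684) (nat_lit 3196315334) (nat_lit 125) (nat_lit 5) (nat_lit 133) (nat_lit 5) (nat_lit 134) (nat_lit 5) (nat_lit 273) (nat_lit 260) (nat_lit 187)) (XT.lf (nat_lit 0) (nat_lit 1992973216) (nat_lit 532) (nat_lit 13039144932) (nat_lit 608) (nat_lit 1042761415) (nat_lit 118) (nat_lit 5) (nat_lit 125) (nat_lit 5) (nat_lit 126) (nat_lit 5) (nat_lit 274) (nat_lit 260) (nat_lit 186))) (XT.nd (nat_lit 78) (nat_lit 988) (nat_lit 0) (XT.lf (nat_lit 0) (nat_lit 1324042191) (nat_lit 608) (nat_lit 2588632903) (nat_lit 76) (nat_lit 12623941870) (nat_lit 117) (nat_lit 5) (nat_lit 125) (nat_lit 5) (nat_lit 118) (nat_lit 5) (nat_lit 275) (nat_lit 260) (nat_lit 185)) (XT.nd (nat_lit 78) (nat_lit 456) (nat_lit 0) (XT.lf (nat_lit 0) (nat_lit 3908252250)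 (nat_lit 608) (nat_lit 7444478077) (nat_lit 76) (nat_lit 5664850394) (nat_lit 110) (nat_lit 5) (nat_lit 118) (nat_lit 5) (nat_lit 111) (nat_lit 5) (nat_lit 276) (nat_lit 260) (nat_lit 184)) (XT.lf (nat_lit 0) (nat_lit 4904668215) (nat_lit 456) (nat_lit 1803956817) (nat_lit 532) (nat_lit 10811424000) (nat_lit 104) (nat_lit 5) (nat_lit 110) (nat_lit 5) (nat_lit 111) (nat_lit 5) (nat_lit 277) (nat_lit 260) (nat_lit 183))))) (XT.nd (nat_lit 234) (nat_lit 912) (nat_lit 0) (XT.nd (nat_lit 78) (nat_lit 836) (nat_lit 0) (XT.lf (nat_lit 0) (nat_lit 9779866696) (nat_lit 532) (nat_lit 124876596) (nat_lit 76) (nat_lit 8139033802) (nat_lit 104) (nat_lit 5) (nat_lit 111) (nat_lit 5) (nat_lit 105) (nat_lit 5) (nat_lit 278) (nat_lit 260) (nat_lit 182)) (XT.nd (nat_lit 78) (nat_lit 380) (nat_lit 0) (XT.lf (nat_lit 0) (nat_lit 13126201866) (nat_lit 532) (nat_lit 5386589443) (nat_lit 76) (nat_lit 77313206)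 (nat_lit 98) (nat_lit 5) (nat_lit 105) (nat_lit 5) (nat_lit 99) (nat_lit 5) (nat_lit 279) (nat_lit 260) (nat_lit 181)) (XT.lf (nat_lit 0) (nat_lit 8069369633) (nat_lit 380) (nat_lit 8725871694) (nat_lit 456) (nat_lit 2363901445) (nat_lit 93) (nat_lit 5) (nat_lit 98) (nat_lit 5) (nat_lit 99) (nat_lit 5) (nat_lit 280) (nat_lit 260) (nat_lit 180)))) (XT.nd (nat_lit 78) (nat_lit 380) (nat_lit 0) (XT.lf (nat_lit 0) (nat_lit 947351333) (nat_lit 532) (nat_lit 17198783786) (nat_lit 76) (nat_lit 1608083513) (nat_lit 86) (nat_lit 5) (nat_lit 93) (nat_lit 5) (nat_lit 87) (nat_lit 5) (nat_lit 281) (nat_lit 260) (nat_lit 179)) (XT.nd (nat_lit 78) (nat_lit 380) (nat_lit 0) (XT.lf (nat_lit 0) (nat_lit 4557079279) (nat_lit 532) (nat_lit 3399120362) (nat_lit 76) (nat_lit 12416741842) (nat_lit 86) (nat_lit 5) (nat_lit 93) (nat_lit 5) (nat_lit 87) (nat_lit 5) (nat_lit 282) (nat_lit 260) (nat_lit 178)) (XT.lf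 (nat_lit 0) (nat_lit 8462239299) (nat_lit 456) (nat_lit 9760550665) (nat_lit 76) (nat_lit 2796409187) (nat_lit 81) (nat_lit 5) (nat_lit 87) (nat_lit 5) (nat_lit 82) (nat_lit 5) (nat_lit 283) (nat_lit 260) (nat_lit 177)))))) (XT.nd (nat_lit 390) (nat_lit 1216) (nat_lit 0) (XT.nd (nat_lit 156) (nat_lit 760) (nat_lit 0) (XT.nd (nat_lit 78) (nat_lit 0) (nat_lit 0) (XT.lf (nat_lit 0) (nat_lit 5017043540) (nat_lit 380) (nat_lit 7689261776) (nat_lit 456) (nat_lit 8987199748) (nat_lit 76) (nat_lit 5) (nat_lit 81) (nat_lit 5) (nat_lit 82) (nat_lit 5) (nat_lit 284) (nat_lit 260) (nat_lit 176)) (XT.lf (nat_lit 0) (nat_lit 17276934354) (nat_lit 456) (nat_lit 1718159235) (nat_lit 76) (nat_lit 3403044564) (nat_lit 76) (nat_lit 5) (nat_lit 82) (nat_lit 5) (nat_lit 77) (nat_lit 5) (nat_lit 285) (nat_lit 260) (nat_lit 175))) (XT.nd (nat_lit 78) (nat_lit 456) (nat_lit 0) (XT.lf (nat_lit 0) (nat_lit 14164240968)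 (nat_lit 304) (nat_lit 8107033170) (nat_lit 380) (nat_lit 860914017) (nat_lit 72) (nat_lit 5) (nat_lit 76) (nat_lit 5) (nat_lit 77) (nat_lit 5) (nat_lit 286) (nat_lit 260) (nat_lit 174)) (XT.nd (nat_lit 78) (nat_lit 0) (nat_lit 0) (XT.lf (nat_lit 0) (nat_lit 3642565894) (nat_lit 456) (nat_lit 16878363065) (nat_lit 76) (nat_lit 3377987548) (nat_lit 66) (nat_lit 5) (nat_lit 72) (nat_lit 5) (nat_lit 67) (nat_lit 5) (nat_lit 287) (nat_lit 260) (nat_lit 173)) (XT.lf (nat_lit 0) (nat_lit 8511124447) (nat_lit 456) (nat_lit 818990484) (nat_lit 76) (nat_lit 15368915123) (nat_lit 66) (nat_lit 5) (nat_lit 72) (nat_lit 5) (nat_lit 67) (nat_lit 5) (nat_lit 288) (nat_lit 260) (nat_lit 172))))) (XT.nd (nat_lit 234) (nat_lit 608) (nat_lit 0) (XT.nd (nat_lit 78) (nat_lit 304) (nat_lit 0) (XT.lf (nat_lit 0) (nat_lit 13788288711) (nat_lit 380) (nat_lit 9218697929) (nat_lit 76) (nat_lit 2527241389) (nat_lit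 62) (nat_lit 5) (nat_lit 67) (nat_lit 5) (nat_lit 63) (nat_lit 5) (nat_lit 289) (nat_lit 260) (nat_lit 171)) (XT.nd (nat_lit 78) (nat_lit 0) (nat_lit 0) (XT.lf (nat_lit 0) (nat_lit 7952854370) (nat_lit 304) (nat_lit 11539464079) (nat_lit 380) (nat_lit 6914009695) (nat_lit 58) (nat_lit 5) (nat_lit 62) (nat_lit 5) (nat_lit 63) (nat_lit 5) (nat_lit 290) (nat_lit 260) (nat_lit 170)) (XT.lf (nat_lit 0) (nat_lit 25566606455) (nat_lit 380) (nat_lit 1170203722) (nat_lit 76) (nat_lit 582702297) (nat_lit 58) (nat_lit 5) (nat_lit 63) (nat_lit 5) (nat_lit 59) (nat_lit 5) (nat_lit 291) (nat_lit 260) (nat_lit 169)))) (XT.nd (nat_lit 78) (nat_lit 304) (nat_lit 0) (XT.lf (nat_lit 0) (nat_lit 3864041765) (nat_lit 304) (nat_lit 11132232266) (nat_lit 76) (nat_lit 13272973384) (nat_lit 54) (nat_lit 5) (nat_lit 58) (nat_lit 5) (nat_lit 55) (nat_lit 5) (nat_lit 292) (nat_lit 260) (nat_lit 168)) (XT.nd (nat_lit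 78) (nat_lit 0) (nat_lit 0) (XT.lf (nat_lit 0) (nat_lit 7221408100) (nat_lit 304) (nat_lit 2571589160) (nat_lit 380) (nat_lit 19470956008) (nat_lit 50) (nat_lit 5) (nat_lit 54) (nat_lit 5) (nat_lit 55) (nat_lit 5) (nat_lit 293) (nat_lit 260) (nat_lit 167)) (XT.lf (nat_lit 0) (nat_lit 16220769979) (nat_lit 380) (nat_lit 3700886486) (nat_lit 76) (nat_lit 10380692792) (nat_lit 50) (nat_lit 5) (nat_lit 55) (nat_lit 5) (nat_lit 51) (nat_lit 5) (nat_lit 294) (nat_lit 260) (nat_lit 166))))))))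
noncomputable def xc88 : XT := (XT.nd (nat_lit 1638) (nat_lit 608) (nat_lit 0) (XT.nd (nat_lit 780) (nat_lit 912) (nat_lit 0) (XT.nd (nat_lit 390) (nat_lit 684) (nat_lit 0) (XT.nd (nat_lit 156) (nat_lit 304) (nat_lit 0) (XT.nd (nat_lit 78) (nat_lit 228) (nat_lit 0) (XT.lf (nat_lit 0) (nat_lit 15822101767) (nat_lit 228) (nat_lit 7312498533) (nat_lit 304) (nat_lit 8253149368) (nat_lit 47) (nat_lit 5) (nat_lit 50) (nat_lit 5) (nat_lit 51) (nat_lit 5) (nat_lit 295) (nat_lit 260) (nat_lit 165)) (XT.lf (nat_lit 0) (nat_lit 3872132594) (nat_lit 228) (nat_lit 26641696983) (nat_lit 304) (nat_lit 2010022816) (nat_lit 44) (nat_lit 5) (nat_lit 47) (nat_lit 5) (nat_lit 48) (nat_lit 5) (nat_lit 296) (nat_lit 260) (nat_lit 164))) (XT.nd (nat_lit 78) (nat_lit 228) (nat_lit 0) (XT.lf (nat_lit 0) (nat_lit 4679529923) (nat_lit 304) (nat_lit 9242081319) (nat_lit 76) (nat_lit 19787171074) (nat_lit 43) (nat_lit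 5) (nat_lit 47) (nat_lit 5) (nat_lit 44) (nat_lit 5) (nat_lit 297) (nat_lit 260) (nat_lit 163)) (XT.nd (nat_lit 78) (nat_lit 0) (nat_lit 0) (XT.lf (nat_lit 0) (nat_lit 11321414579) (nat_lit 228) (nat_lit 437729533) (nat_lit 304) (nat_lit 23190323670) (nat_lit 40) (nat_lit 5) (nat_lit 43) (nat_lit 5) (nat_lit 44) (nat_lit 5) (nat_lit 298) (nat_lit 260) (nat_lit 162)) (XT.lf (nat_lit 0) (nat_lit 19409011783) (nat_lit 304) (nat_lit 3293029783) (nat_lit 76) (nat_lit 13543677495) (nat_lit 40) (nat_lit 5) (nat_lit 44) (nat_lit 5) (nat_lit 41) (nat_lit 5) (nat_lit 299) (nat_lit 260) (nat_lit 161))))) (XT.nd (nat_lit 156) (nat_lit 304) (nat_lit 0) (XT.nd (nat_lit 78) (nat_lit 152) (nat_lit 0) (XT.lf (nat_lit 0) (nat_lit 18397049209) (nat_lit 228) (nat_lit 9214445777) (nat_lit 304) (nat_lit 9990203036) (nat_lit 37) (nat_lit 5) (nat_lit 40) (nat_lit 5) (nat_lit 41) (nat_lit 5) (nat_lit 300) (nat_lit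 260) (nat_lit 160)) (XT.lf (nat_lit 0) (nat_lit 2194826426) (nat_lit 152) (nat_lit 34121357509) (nat_lit 228) (nat_lit 2706547438) (nat_lit 35) (nat_lit 5) (nat_lit 37) (nat_lit 5) (nat_lit 38) (nat_lit 5) (nat_lit 301) (nat_lit 260) (nat_lit 159))) (XT.nd (nat_lit 78) (nat_lit 228) (nat_lit 0) (XT.lf (nat_lit 0) (nat_lit 5126959227) (nat_lit 228) (nat_lit 15601610630) (nat_lit 76) (nat_lit 19776375393) (nat_lit 34) (nat_lit 5) (nat_lit 37) (nat_lit 5) (nat_lit 35) (nat_lit 5) (nat_lit 302) (nat_lit 260) (nat_lit 158)) (XT.nd (nat_lit 78) (nat_lit 0) (nat_lit 0) (XT.lf (nat_lit 0) (nat_lit 6775794560) (nat_lit 228) (nat_lit 6575962392) (nat_lit 304) (nat_lit 28707056960) (nat_lit 31) (nat_lit 5) (nat_lit 34) (nat_lit 5) (nat_lit 35) (nat_lit 5) (nat_lit 303) (nat_lit 260) (nat_lit 157)) (XT.lf (nat_lit 0) (nat_lit 22219851434) (nat_lit 304) (nat_lit 13183616043) (nat_lit 76) (nat_lit 8279961826)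 (nat_lit 31) (nat_lit 5) (nat_lit 35) (nat_lit 5) (nat_lit 32) (nat_lit 5) (nat_lit 304) (nat_lit 260) (nat_lit 156)))))) (XT.nd (nat_lit 390) (nat_lit 380) (nat_lit 0) (XT.nd (nat_lit 156) (nat_lit 380) (nat_lit 0) (XT.nd (nat_lit 78) (nat_lit 0) (nat_lit 0) (XT.lf (nat_lit 0) (nat_lit 10137992157) (nat_lit 152) (nat_lit 21547877548) (nat_lit 228) (nat_lit 13698784476) (nat_lit 29) (nat_lit 5) (nat_lit 31) (nat_lit 5) (nat_lit 32) (nat_lit 5) (nat_lit 305) (nat_lit 260) (nat_lit 155)) (XT.lf (nat_lit 0) (nat_lit 34887365982) (nat_lit 152) (nat_lit 6864540674) (nat_lit 228) (nat_lit 5415245721) (nat_lit 29) (nat_lit 5) (nat_lit 31) (nat_lit 5) (nat_lit 32) (nat_lit 5) (nat_lit 306) (nat_lit 260) (nat_lit 154))) (XT.nd (nat_lit 78) (nat_lit 152) (nat_lit 0) (XT.lf (nat_lit 0) (nat_lit 3408973858) (nat_lit 228) (nat_lit 37093067965) (nat_lit 76) (nat_lit 8530082949) (nat_lit 26) (nat_lit 5)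 (nat_lit 29) (nat_lit 5) (nat_lit 27) (nat_lit 5) (nat_lit 307) (nat_lit 260) (nat_lit 153)) (XT.nd (nat_lit 78) (nat_lit 152) (nat_lit 0) (XT.lf (nat_lit 0) (nat_lit 12751975475) (nat_lit 228) (nat_lit 13499472022) (nat_lit 76) (nat_lit 24731614785) (nat_lit 26) (nat_lit 5) (nat_lit 29) (nat_lit 5) (nat_lit 27) (nat_lit 5) (nat_lit 308) (nat_lit 260) (nat_lit 152)) (XT.lf (nat_lit 0) (nat_lit 11485374578) (nat_lit 152) (nat_lit 11179136979) (nat_lit 228) (nat_lit 30363974991) (nat_lit 24) (nat_lit 5) (nat_lit 26) (nat_lit 5) (nat_lit 27) (nat_lit 5) (nat_lit 309) (nat_lit 260) (nat_lit 151))))) (XT.nd (nat_lit 234) (nat_lit 228) (nat_lit 0) (XT.nd (nat_lit 78) (nat_lit 152) (nat_lit 0) (XT.lf (nat_lit 0) (nat_lit 33249885301) (nat_lit 228) (nat_lit 17228885289) (nat_lit 76) (nat_lit 4692105982) (nat_lit 24) (nat_lit 5) (nat_lit 27) (nat_lit 5) (nat_lit 25) (nat_lit 5) (nat_lit 310) (nat_lit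 260) (nat_lit 150)) (XT.nd (nat_lit 78) (nat_lit 0) (nat_lit 0) (XT.lf (nat_lit 0) (nat_lit 8339144480) (nat_lit 152) (nat_lit 36210951310) (nat_lit 228) (nat_lit 12864733615) (nat_lit 22) (nat_lit 5) (nat_lit 24) (nat_lit 5) (nat_lit 25) (nat_lit 5) (nat_lit 311) (nat_lit 260) (nat_lit 149)) (XT.lf (nat_lit 0) (nat_lit 35534145798) (nat_lit 152) (nat_lit 21051344004) (nat_lit 228) (nat_lit 3180394750) (nat_lit 22) (nat_lit 5) (nat_lit 24) (nat_lit 5) (nat_lit 25) (nat_lit 5) (nat_lit 312) (nat_lit 260) (nat_lit 148)))) (XT.nd (nat_lit 78) (nat_lit 0) (nat_lit 0) (XT.lf (nat_lit 0) (nat_lit 1811515525) (nat_lit 152) (nat_lit 5050776675) (nat_lit 228) (nat_lit 55369879276) (nat_lit 19) (nat_lit 5) (nat_lit 21) (nat_lit 5) (nat_lit 22) (nat_lit 5) (nat_lit 313) (nat_lit 260) (nat_lit 147)) (XT.nd (nat_lit 78) (nat_lit 0) (nat_lit 0) (XT.lf (nat_lit 0) (nat_lit 17700079148) (nat_lit 228) (nat_lit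 35309418747) (nat_lit 76) (nat_lit 11800576629) (nat_lit 19) (nat_lit 5) (nat_lit 22) (nat_lit 5) (nat_lit 20) (nat_lit 5) (nat_lit 314) (nat_lit 260) (nat_lit 146)) (XT.lf (nat_lit 0) (nat_lit 29124323764) (nat_lit 228) (nat_lit 9003995758) (nat_lit 76) (nat_lit 29387224420) (nat_lit 19) (nat_lit 5) (nat_lit 22) (nat_lit 5) (nat_lit 20) (nat_lit 5) (nat_lit 315) (nat_lit 260) (nat_lit 145))))))) (XT.nd (nat_lit 780) (nat_lit 76) (nat_lit 0) (XT.nd (nat_lit 390) (nat_lit 228) (nat_lit 0) (XT.nd (nat_lit 156) (nat_lit 152) (nat_lit 0) (XT.nd (nat_lit 78) (nat_lit 0) (nat_lit 0) (XT.lf (nat_lit 0) (nat_lit 18977107855) (nat_lit 152) (nat_lit 22318987191) (nat_lit 228) (nat_lit 29054910228) (nat_lit 17) (nat_lit 5) (nat_lit 19) (nat_lit 5) (nat_lit 20) (nat_lit 5) (nat_lit 316) (nat_lit 260) (nat_lit 144)) (XT.lf (nat_lit 0) (nat_lit 48535805274) (nat_lit 152) (nat_lit 5627430938) (nat_lit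 228) (nat_lit 19162407520) (nat_lit 17) (nat_lit 5) (nat_lit 19) (nat_lit 5) (nat_lit 20) (nat_lit 5) (nat_lit 317) (nat_lit 260) (nat_lit 143))) (XT.nd (nat_lit 78) (nat_lit 76) (nat_lit 0) (XT.lf (nat_lit 0) (nat_lit 3059444297) (nat_lit 76) (nat_lit 64752417432) (nat_lit 152) (nat_lit 8633015707) (nat_lit 16) (nat_lit 5) (nat_lit 17) (nat_lit 5) (nat_lit 18) (nat_lit 4) (nat_lit 318) (nat_lit 260) (nat_lit 142)) (XT.nd (nat_lit 78) (nat_lit 0) (nat_lit 0) (XT.lf (nat_lit 0) (nat_lit 2684544594) (nat_lit 152) (nat_lit 46984959251) (nat_lit 76) (nat_lit 30040607568) (nat_lit 15) (nat_lit 5) (nat_lit 17) (nat_lit 5) (nat_lit 16) (nat_lit 5) (nat_lit 319) (nat_lit 260) (nat_lit 141)) (XT.lf (nat_lit 0) (nat_lit 14385824505) (nat_lit 152) (nat_lit 19360313441) (nat_lit 76) (nat_lit 49390019604) (nat_lit 15) (nat_lit 5) (nat_lit 17) (nat_lit 5) (nat_lit 16) (nat_lit 5) (nat_lit 320) (nat_lit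 260) (nat_lit 140))))) (XT.nd (nat_lit 156) (nat_lit 76) (nat_lit 0) (XT.nd (nat_lit 78) (nat_lit 0) (nat_lit 0) (XT.lf (nat_lit 0) (nat_lit 9829063516) (nat_lit 152) (nat_lit 16932564899) (nat_lit 228) (nat_lit 59969199768) (nat_lit 13) (nat_lit 5) (nat_lit 15) (nat_lit 5) (nat_lit 16) (nat_lit 5) (nat_lit 321) (nat_lit 260) (nat_lit 139)) (XT.lf (nat_lit 0) (nat_lit 39959538329) (nat_lit 228) (nat_lit 49633865406) (nat_lit 76) (nat_lit 905734843) (nat_lit 13) (nat_lit 5) (nat_lit 16) (nat_lit 5) (nat_lit 14) (nat_lit 4) (nat_lit 322) (nat_lit 260) (nat_lit 138))) (XT.nd (nat_lit 78) (nat_lit 76) (nat_lit 0) (XT.lf (nat_lit 0) (nat_lit 53983589103) (nat_lit 228) (nat_lit 21181270303) (nat_lit 76) (nat_lit 19286023161) (nat_lit 13) (nat_lit 5) (nat_lit 16) (nat_lit 5) (nat_lit 14) (nat_lit 4) (nat_lit 323) (nat_lit 260) (nat_lit 137)) (XT.nd (nat_lit 78) (nat_lit 0) (nat_lit 0) (XT.lf (nat_lit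 0) (nat_lit 8859410089) (nat_lit 76) (nat_lit 59930157141) (nat_lit 152) (nat_lit 29808229954) (nat_lit 12) (nat_lit 5) (nat_lit 13) (nat_lit 5) (nat_lit 14) (nat_lit 4) (nat_lit 324) (nat_lit 260) (nat_lit 136)) (XT.lf (nat_lit 0) (nat_lit 40837540077) (nat_lit 76) (nat_lit 43712051405) (nat_lit 152) (nat_lit 18396058561) (nat_lit 12) (nat_lit 5) (nat_lit 13) (nat_lit 5) (nat_lit 14) (nat_lit 4) (nat_lit 325) (nat_lit 260) (nat_lit 135)))))) (XT.nd (nat_lit 32682) (nat_lit 0) (nat_lit 10108) (XT.nd (nat_lit 32448) (nat_lit 0) (nat_lit 10944) (XT.nd (nat_lit 78) (nat_lit 76) (nat_lit 0) (XT.lf (nat_lit 0) (nat_lit 74407709255) (nat_lit 76) (nat_lit 26685816959) (nat_lit 152) (nat_lit 6417496747) (nat_lit 12) (nat_lit 5) (nat_lit 13) (nat_lit 5) (nat_lit 14) (nat_lit 4) (nat_lit 326) (nat_lit 260) (nat_lit 134)) (XT.lf (nat_lit 0) (nat_lit 6035850610) (nat_lit 152) (nat_lit 2714114283) (nat_lit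 76) (nat_lit 103553045731) (nat_lit 11) (nat_lit 5) (nat_lit 13) (nat_lit 5) (nat_lit 12) (nat_lit 5) (nat_lit 327) (nat_lit 260) (nat_lit 133))) (XT.nd (nat_lit 78) (nat_lit 0) (nat_lit 0) (XT.lf (nat_lit 0) (nat_lit 1742195561) (nat_lit 0) (nat_lit 1742195561) (nat_lit 988) (nat_lit 2417254275) (nat_lit 155) (nat_lit 5) (nat_lit 155) (nat_lit 3) (nat_lit 168) (nat_lit 3) (nat_lit 261) (nat_lit 261) (nat_lit 198)) (XT.nd (nat_lit 78) (nat_lit 0) (nat_lit 0) (XT.lf (nat_lit 0) (nat_lit 7904125146) (nat_lit 988) (nat_lit 306227260) (nat_lit 1064) (nat_lit 3863157663) (nat_lit 155) (nat_lit 5) (nat_lit 168) (nat_lit 3) (nat_lit 169) (nat_lit 5) (nat_lit 262) (nat_lit 261) (nat_lit 197)) (XT.lf (nat_lit 76) (nat_lit 8207171629) (nat_lit 0) (nat_lit 747050251) (nat_lit 1064) (nat_lit 3401108724) (nat_lit 156) (nat_lit 5) (nat_lit 155) (nat_lit 5) (nat_lit 169) (nat_lit 5) (nat_lit 263) (nat_lit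 261) (nat_lit 196))))) (XT.nd (nat_lit 234) (nat_lit 912) (nat_lit 0) (XT.nd (nat_lit 78) (nat_lit 0) (nat_lit 76) (XT.lf (nat_lit 76) (nat_lit 4495215842) (nat_lit 0) (nat_lit 5632228537) (nat_lit 1064) (nat_lit 2521802875) (nat_lit 157) (nat_lit 5) (nat_lit 156) (nat_lit 5) (nat_lit 170) (nat_lit 5) (nat_lit 264) (nat_lit 261) (nat_lit 195)) (XT.nd (nat_lit 78) (nat_lit 0) (nat_lit 0) (XT.lf (nat_lit 76) (nat_lit 658087293) (nat_lit 0) (nat_lit 10737361865) (nat_lit 1064) (nat_lit 1561444766) (nat_lit 158) (nat_lit 5) (nat_lit 157) (nat_lit 5) (nat_lit 171) (nat_lit 5) (nat_lit 265) (nat_lit 261) (nat_lit 194)) (XT.lf (nat_lit 76) (nat_lit 9997372963) (nat_lit 0) (nat_lit 2829549562) (nat_lit 1064) (nat_lit 450110566) (nat_lit 158) (nat_lit 5) (nat_lit 157) (nat_lit 5) (nat_lit 171) (nat_lit 5) (nat_lit 266) (nat_lit 261) (nat_lit 193)))) (XT.nd (nat_lit 78) (nat_lit 0) (nat_lit 76) (XT.lf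 (nat_lit 0) (nat_lit 777854136) (nat_lit 1064) (nat_lit 7385224258) (nat_lit 1140) (nat_lit 5447746343) (nat_lit 144) (nat_lit 5) (nat_lit 158) (nat_lit 5) (nat_lit 159) (nat_lit 5) (nat_lit 267) (nat_lit 261) (nat_lit 192)) (XT.nd (nat_lit 78) (nat_lit 0) (nat_lit 0) (XT.lf (nat_lit 0) (nat_lit 2107613692) (nat_lit 1064) (nat_lit 11661994407) (nat_lit 1140) (nat_lit 190171819) (nat_lit 145) (nat_lit 5) (nat_lit 159) (nat_lit 5) (nat_lit 160) (nat_lit 5) (nat_lit 268) (nat_lit 261) (nat_lit 191)) (XT.lf (nat_lit 0) (nat_lit 3627639840) (nat_lit 1064) (nat_lit 1814378829) (nat_lit 1140) (nat_lit 8880544939) (nat_lit 145) (nat_lit 5) (nat_lit 159) (nat_lit 5) (nat_lit 160) (nat_lit 5) (nat_lit 269) (nat_lit 261) (nat_lit 190))))))))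
noncomputable def xc89 : XT := (XT.nd (nat_lit 1638) (nat_lit 3040) (nat_lit 0) (XT.nd (nat_lit 780) (nat_lit 2736) (nat_lit 0) (XT.nd (nat_lit 390) (nat_lit 2052) (nat_lit 0) (XT.nd (nat_lit 156) (nat_lit 1596) (nat_lit 0) (XT.nd (nat_lit 78) (nat_lit 0) (nat_lit 0) (XT.lf (nat_lit 0) (nat_lit 5305944090) (nat_lit 1064) (nat_lit 6065283637) (nat_lit 1140) (nat_lit 3329880081) (nat_lit 146) (nat_lit 5) (nat_lit 160) (nat_lit 5) (nat_lit 161) (nat_lit 5) (nat_lit 270) (nat_lit 261) (nat_lit 189)) (XT.lf (nat_lit 76) (nat_lit 4556491016) (nat_lit 0) (nat_lit 2596999782) (nat_lit 1140) (nat_lit 7942613965) (nat_lit 147) (nat_lit 5) (nat_lit 146) (nat_lit 5) (nat_lit 161) (nat_lit 5) (nat_lit 271) (nat_lit 261) (nat_lit 188))) (XT.nd (nat_lit 78) (nat_lit 608) (nat_lit 0) (XT.lf (nat_lit 0) (nat_lit 241548094) (nat_lit 1064) (nat_lit 8949930780) (nat_lit 1140) (nat_lit 6316512065) (nat_lit 133)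 (nat_lit 5) (nat_lit 147) (nat_lit 5) (nat_lit 148) (nat_lit 5) (nat_lit 272) (nat_lit 261) (nat_lit 187)) (XT.nd (nat_lit 78) (nat_lit 608) (nat_lit 0) (XT.lf (nat_lit 0) (nat_lit 11438961070) (nat_lit 1140) (nat_lit 4210274845) (nat_lit 76) (nat_lit 288085095) (nat_lit 133) (nat_lit 5) (nat_lit 148) (nat_lit 5) (nat_lit 134) (nat_lit 5) (nat_lit 273) (nat_lit 261) (nat_lit 186)) (XT.lf (nat_lit 0) (nat_lit 7428237898) (nat_lit 608) (nat_lit 6504090466) (nat_lit 684) (nat_lit 2451857626) (nat_lit 125) (nat_lit 5) (nat_lit 133) (nat_lit 5) (nat_lit 134) (nat_lit 5) (nat_lit 274) (nat_lit 261) (nat_lit 185))))) (XT.nd (nat_lit 156) (nat_lit 1444) (nat_lit 0) (XT.nd (nat_lit 78) (nat_lit 76) (nat_lit 0) (XT.lf (nat_lit 0) (nat_lit 2885384099) (nat_lit 532) (nat_lit 13739177927) (nat_lit 608) (nat_lit 226676480) (nat_lit 118) (nat_lit 5) (nat_lit 125) (nat_lit 5) (nat_lit 126) (nat_lit 5) (nat_lit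 275) (nat_lit 261) (nat_lit 184)) (XT.lf (nat_lit 0) (nat_lit 2200987965) (nat_lit 608) (nat_lit 1944920390) (nat_lit 76) (nat_lit 13191220019) (nat_lit 117) (nat_lit 5) (nat_lit 125) (nat_lit 5) (nat_lit 118) (nat_lit 5) (nat_lit 276) (nat_lit 261) (nat_lit 183))) (XT.nd (nat_lit 78) (nat_lit 912) (nat_lit 0) (XT.lf (nat_lit 0) (nat_lit 4882747841) (nat_lit 608) (nat_lit 7040164399) (nat_lit 76) (nat_lit 5920272998) (nat_lit 110) (nat_lit 5) (nat_lit 118) (nat_lit 5) (nat_lit 111) (nat_lit 5) (nat_lit 277) (nat_lit 261) (nat_lit 182)) (XT.nd (nat_lit 78) (nat_lit 456) (nat_lit 0) (XT.lf (nat_lit 0) (nat_lit 5904179913) (nat_lit 456) (nat_lit 1889110744) (nat_lit 532) (nat_lit 10578472339) (nat_lit 104) (nat_lit 5) (nat_lit 110) (nat_lit 5) (nat_lit 111) (nat_lit 5) (nat_lit 278) (nat_lit 261) (nat_lit 181)) (XT.lf (nat_lit 0) (nat_lit 622472238) (nat_lit 456) (nat_lit 10365974099) (nat_lit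 532) (nat_lit 7934206827) (nat_lit 98) (nat_lit 5) (nat_lit 104) (nat_lit 5) (nat_lit 105) (nat_lit 5) (nat_lit 279) (nat_lit 261) (nat_lit 180)))))) (XT.nd (nat_lit 390) (nat_lit 1444) (nat_lit 0) (XT.nd (nat_lit 156) (nat_lit 912) (nat_lit 0) (XT.nd (nat_lit 78) (nat_lit 380) (nat_lit 0) (XT.lf (nat_lit 0) (nat_lit 14469379977) (nat_lit 532) (nat_lit 4913810391) (nat_lit 76) (nat_lit 114170288) (nat_lit 98) (nat_lit 5) (nat_lit 105) (nat_lit 5) (nat_lit 99) (nat_lit 5) (nat_lit 280) (nat_lit 261) (nat_lit 179)) (XT.lf (nat_lit 0) (nat_lit 9193674247) (nat_lit 380) (nat_lit 9102418281) (nat_lit 456) (nat_lit 1799609905) (nat_lit 93) (nat_lit 5) (nat_lit 98) (nat_lit 5) (nat_lit 99) (nat_lit 5) (nat_lit 281) (nat_lit 261) (nat_lit 178))) (XT.nd (nat_lit 78) (nat_lit 380) (nat_lit 0) (XT.lf (nat_lit 0) (nat_lit 1639568435) (nat_lit 532) (nat_lit 17324042552) (nat_lit 76) (nat_lit 1757526208)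 (nat_lit 86) (nat_lit 5) (nat_lit 93) (nat_lit 5) (nat_lit 87) (nat_lit 5) (nat_lit 282) (nat_lit 261) (nat_lit 177)) (XT.nd (nat_lit 78) (nat_lit 380) (nat_lit 0) (XT.lf (nat_lit 0) (nat_lit 5399075658) (nat_lit 532) (nat_lit 2869380739) (nat_lit 76) (nat_lit 13103329905) (nat_lit 86) (nat_lit 5) (nat_lit 93) (nat_lit 5) (nat_lit 87) (nat_lit 5) (nat_lit 283) (nat_lit 261) (nat_lit 176)) (XT.lf (nat_lit 0) (nat_lit 9477629821) (nat_lit 456) (nat_lit 9550731820) (nat_lit 76) (nat_lit 3022716745) (nat_lit 81) (nat_lit 5) (nat_lit 87) (nat_lit 5) (nat_lit 82) (nat_lit 5) (nat_lit 284) (nat_lit 261) (nat_lit 175))))) (XT.nd (nat_lit 234) (nat_lit 760) (nat_lit 0) (XT.nd (nat_lit 78) (nat_lit 304) (nat_lit 0) (XT.lf (nat_lit 0) (nat_lit 5945738468) (nat_lit 380) (nat_lit 7966472769) (nat_lit 456) (nat_lit 8847601489) (nat_lit 76) (nat_lit 5) (nat_lit 81) (nat_lit 5) (nat_lit 82) (nat_lit 5)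 (nat_lit 285) (nat_lit 261) (nat_lit 174)) (XT.nd (nat_lit 78) (nat_lit 304) (nat_lit 0) (XT.lf (nat_lit 0) (nat_lit 18685182622) (nat_lit 456) (nat_lit 1141991606) (nat_lit 76) (nat_lit 3673348432) (nat_lit 76) (nat_lit 5) (nat_lit 82) (nat_lit 5) (nat_lit 77) (nat_lit 5) (nat_lit 286) (nat_lit 261) (nat_lit 173)) (XT.lf (nat_lit 0) (nat_lit 15515550343) (nat_lit 304) (nat_lit 8393947014) (nat_lit 380) (nat_lit 362426750) (nat_lit 72) (nat_lit 5) (nat_lit 76) (nat_lit 5) (nat_lit 77) (nat_lit 5) (nat_lit 287) (nat_lit 261) (nat_lit 172)))) (XT.nd (nat_lit 78) (nat_lit 304) (nat_lit 0) (XT.lf (nat_lit 0) (nat_lit 4337683303) (nat_lit 456) (nat_lit 17071076500) (nat_lit 76) (nat_lit 3668664617) (nat_lit 66) (nat_lit 5) (nat_lit 72) (nat_lit 5) (nat_lit 67) (nat_lit 5) (nat_lit 288) (nat_lit 261) (nat_lit 171)) (XT.nd (nat_lit 78) (nat_lit 304) (nat_lit 0) (XT.lf (nat_lit 0) (nat_lit 9425241730)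 (nat_lit 456) (nat_lit 239745039) (nat_lit 76) (nat_lit 16253339633) (nat_lit 66) (nat_lit 5) (nat_lit 72) (nat_lit 5) (nat_lit 67) (nat_lit 5) (nat_lit 289) (nat_lit 261) (nat_lit 170)) (XT.lf (nat_lit 0) (nat_lit 14950052623) (nat_lit 380) (nat_lit 9063394651) (nat_lit 76) (nat_lit 2782370888) (nat_lit 62) (nat_lit 5) (nat_lit 67) (nat_lit 5) (nat_lit 63) (nat_lit 5) (nat_lit 290) (nat_lit 261) (nat_lit 169))))))) (XT.nd (nat_lit 858) (nat_lit 1140) (nat_lit 0) (XT.nd (nat_lit 390) (nat_lit 988) (nat_lit 0) (XT.nd (nat_lit 156) (nat_lit 608) (nat_lit 0) (XT.nd (nat_lit 78) (nat_lit 0) (nat_lit 0) (XT.lf (nat_lit 0) (nat_lit 8949070919) (nat_lit 304) (nat_lit 11973473955) (nat_lit 380) (nat_lit 6789525854) (nat_lit 58) (nat_lit 5) (nat_lit 62) (nat_lit 5) (nat_lit 63) (nat_lit 5) (nat_lit 291) (nat_lit 261) (nat_lit 168)) (XT.lf (nat_lit 0) (nat_lit 27280160353) (nat_lit 380) (nat_lit 646072572)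 (nat_lit 76) (nat_lit 745336077) (nat_lit 58) (nat_lit 5) (nat_lit 63) (nat_lit 5) (nat_lit 59) (nat_lit 5) (nat_lit 292) (nat_lit 261) (nat_lit 167))) (XT.nd (nat_lit 78) (nat_lit 304) (nat_lit 0) (XT.lf (nat_lit 0) (nat_lit 4482145763) (nat_lit 304) (nat_lit 11113650059) (nat_lit 76) (nat_lit 14073369506) (nat_lit 54) (nat_lit 5) (nat_lit 58) (nat_lit 5) (nat_lit 55) (nat_lit 5) (nat_lit 293) (nat_lit 261) (nat_lit 166)) (XT.nd (nat_lit 78) (nat_lit 0) (nat_lit 0) (XT.lf (nat_lit 0) (nat_lit 8141184511) (nat_lit 304) (nat_lit 2551501723) (nat_lit 380) (nat_lit 20021404096) (nat_lit 50) (nat_lit 5) (nat_lit 54) (nat_lit 5) (nat_lit 55) (nat_lit 5) (nat_lit 294) (nat_lit 261) (nat_lit 165)) (XT.lf (nat_lit 0) (nat_lit 17423682942) (nat_lit 380) (nat_lit 3342752209) (nat_lit 76) (nat_lit 11038552069) (nat_lit 50) (nat_lit 5) (nat_lit 55) (nat_lit 5) (nat_lit 51) (nat_lit 5) (nat_lit 295)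 (nat_lit 261) (nat_lit 164))))) (XT.nd (nat_lit 234) (nat_lit 456) (nat_lit 0) (XT.nd (nat_lit 78) (nat_lit 304) (nat_lit 0) (XT.lf (nat_lit 0) (nat_lit 17140815351) (nat_lit 228) (nat_lit 7528800435) (nat_lit 304) (nat_lit 8275483978) (nat_lit 47) (nat_lit 5) (nat_lit 50) (nat_lit 5) (nat_lit 51) (nat_lit 5) (nat_lit 296) (nat_lit 261) (nat_lit 163)) (XT.nd (nat_lit 78) (nat_lit 76) (nat_lit 0) (XT.lf (nat_lit 0) (nat_lit 4588522027) (nat_lit 228) (nat_lit 27817663246) (nat_lit 304) (nat_lit 1732203789) (nat_lit 44) (nat_lit 5) (nat_lit 47) (nat_lit 5) (nat_lit 48) (nat_lit 5) (nat_lit 297) (nat_lit 261) (nat_lit 162)) (XT.lf (nat_lit 0) (nat_lit 5266780494) (nat_lit 304) (nat_lit 9198659567) (nat_lit 76) (nat_lit 20917576563) (nat_lit 43) (nat_lit 5) (nat_lit 47) (nat_lit 5) (nat_lit 44) (nat_lit 5) (nat_lit 298) (nat_lit 261) (nat_lit 161)))) (XT.nd (nat_lit 78) (nat_lit 228) (nat_lit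 0) (XT.lf (nat_lit 0) (nat_lit 12378520330) (nat_lit 228) (nat_lit 309752616) (nat_lit 304) (nat_lit 23997855375) (nat_lit 40) (nat_lit 5) (nat_lit 43) (nat_lit 5) (nat_lit 44) (nat_lit 5) (nat_lit 299) (nat_lit 261) (nat_lit 160)) (XT.nd (nat_lit 78) (nat_lit 228) (nat_lit 0) (XT.lf (nat_lit 0) (nat_lit 20705759712) (nat_lit 304) (nat_lit 2981102897) (nat_lit 76) (nat_lit 14360803292) (nat_lit 40) (nat_lit 5) (nat_lit 44) (nat_lit 5) (nat_lit 41) (nat_lit 5) (nat_lit 300) (nat_lit 261) (nat_lit 159)) (XT.lf (nat_lit 0) (nat_lit 19779819021) (nat_lit 228) (nat_lit 9527459931) (nat_lit 304) (nat_lit 10164523703) (nat_lit 37) (nat_lit 5) (nat_lit 40) (nat_lit 5) (nat_lit 41) (nat_lit 5) (nat_lit 301) (nat_lit 261) (nat_lit 158)))))) (XT.nd (nat_lit 390) (nat_lit 532) (nat_lit 0) (XT.nd (nat_lit 156) (nat_lit 380) (nat_lit 0) (XT.nd (nat_lit 78) (nat_lit 76) (nat_lit 0) (XT.lf (nat_lit 0) (nat_lit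 2762530691) (nat_lit 152) (nat_lit 35675416163) (nat_lit 228) (nat_lit 2526243436) (nat_lit 35) (nat_lit 5) (nat_lit 37) (nat_lit 5) (nat_lit 38) (nat_lit 5) (nat_lit 302) (nat_lit 261) (nat_lit 157)) (XT.lf (nat_lit 0) (nat_lit 5678042683) (nat_lit 228) (nat_lit 15939208729) (nat_lit 76) (nat_lit 20903637603) (nat_lit 34) (nat_lit 5) (nat_lit 37) (nat_lit 5) (nat_lit 35) (nat_lit 5) (nat_lit 303) (nat_lit 261) (nat_lit 156))) (XT.nd (nat_lit 78) (nat_lit 152) (nat_lit 0) (XT.lf (nat_lit 0) (nat_lit 7544383050) (nat_lit 228) (nat_lit 6759793709) (nat_lit 304) (nat_lit 29848593429) (nat_lit 31) (nat_lit 5) (nat_lit 34) (nat_lit 5) (nat_lit 35) (nat_lit 5) (nat_lit 304) (nat_lit 261) (nat_lit 155)) (XT.nd (nat_lit 78) (nat_lit 152) (nat_lit 0) (XT.lf (nat_lit 0) (nat_lit 23603439691) (nat_lit 304) (nat_lit 13426235253) (nat_lit 76) (nat_lit 8829329420) (nat_lit 31) (nat_lit 5) (nat_lit 35)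 (nat_lit 5) (nat_lit 32) (nat_lit 5) (nat_lit 305) (nat_lit 261) (nat_lit 154)) (XT.lf (nat_lit 0) (nat_lit 11049512702) (nat_lit 152) (nat_lit 22484154890) (nat_lit 228) (nat_lit 14111915563) (nat_lit 29) (nat_lit 5) (nat_lit 31) (nat_lit 5) (nat_lit 32) (nat_lit 5) (nat_lit 306) (nat_lit 261) (nat_lit 153))))) (XT.nd (nat_lit 234) (nat_lit 304) (nat_lit 0) (XT.nd (nat_lit 78) (nat_lit 228) (nat_lit 0) (XT.lf (nat_lit 0) (nat_lit 37017087555) (nat_lit 152) (nat_lit 7073371007) (nat_lit 228) (nat_lit 5427143115) (nat_lit 29) (nat_lit 5) (nat_lit 31) (nat_lit 5) (nat_lit 32) (nat_lit 5) (nat_lit 307) (nat_lit 261) (nat_lit 152)) (XT.nd (nat_lit 78) (nat_lit 0) (nat_lit 0) (XT.lf (nat_lit 0) (nat_lit 3826088350) (nat_lit 228) (nat_lit 38561727257) (nat_lit 76) (nat_lit 9088164415) (nat_lit 26) (nat_lit 5) (nat_lit 29) (nat_lit 5) (nat_lit 27) (nat_lit 5) (nat_lit 308) (nat_lit 261) (nat_lit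 151)) (XT.lf (nat_lit 0) (nat_lit 13624494057) (nat_lit 228) (nat_lit 13806832189) (nat_lit 76) (nat_lit 26093507255) (nat_lit 26) (nat_lit 5) (nat_lit 29) (nat_lit 5) (nat_lit 27) (nat_lit 5) (nat_lit 309) (nat_lit 261) (nat_lit 150)))) (XT.nd (nat_lit 78) (nat_lit 152) (nat_lit 0) (XT.lf (nat_lit 0) (nat_lit 12416719176) (nat_lit 152) (nat_lit 11608183542) (nat_lit 228) (nat_lit 31647874810) (nat_lit 24) (nat_lit 5) (nat_lit 26) (nat_lit 5) (nat_lit 27) (nat_lit 5) (nat_lit 310) (nat_lit 261) (nat_lit 149)) (XT.nd (nat_lit 78) (nat_lit 152) (nat_lit 0) (XT.lf (nat_lit 0) (nat_lit 35129917051) (nat_lit 228) (nat_lit 17744652944) (nat_lit 76) (nat_lit 5048021060) (nat_lit 24) (nat_lit 5) (nat_lit 27) (nat_lit 5) (nat_lit 25) (nat_lit 5) (nat_lit 311) (nat_lit 261) (nat_lit 148)) (XT.lf (nat_lit 0) (nat_lit 9091869563) (nat_lit 152) (nat_lit 37896137181) (nat_lit 228) (nat_lit 13290963167)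 (nat_lit 22) (nat_lit 5) (nat_lit 24) (nat_lit 5) (nat_lit 25) (nat_lit 5) (nat_lit 312) (nat_lit 261) (nat_lit 147))))))))
noncomputable def xc90 : XT := (XT.nd (nat_lit 34086) (nat_lit 0) (nat_lit 3800) (XT.nd (nat_lit 780) (nat_lit 76) (nat_lit 0) (XT.nd (nat_lit 390) (nat_lit 304) (nat_lit 0) (XT.nd (nat_lit 156) (nat_lit 152) (nat_lit 0) (XT.nd (nat_lit 78) (nat_lit 228) (nat_lit 0) (XT.lf (nat_lit 0) (nat_lit 37630632001) (nat_lit 152) (nat_lit 21984519113) (nat_lit 228) (nat_lit 3132741031) (nat_lit 22) (nat_lit 5) (nat_lit 24) (nat_lit 5) (nat_lit 25) (nat_lit 5) (nat_lit 313) (nat_lit 261) (nat_lit 146)) (XT.lf (nat_lit 0) (nat_lit 2216880521) (nat_lit 152) (nat_lit 5184543200) (nat_lit 228) (nat_lit 57936221518) (nat_lit 19) (nat_lit 5) (nat_lit 21) (nat_lit 5) (nat_lit 22) (nat_lit 5) (nat_lit 314) (nat_lit 261) (nat_lit 145))) (XT.nd (nat_lit 78) (nat_lit 152) (nat_lit 0) (XT.lf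 (nat_lit 0) (nat_lit 18772853222) (nat_lit 228) (nat_lit 36770335096) (nat_lit 76) (nat_lit 12501514634) (nat_lit 19) (nat_lit 5) (nat_lit 22) (nat_lit 5) (nat_lit 20) (nat_lit 5) (nat_lit 315) (nat_lit 261) (nat_lit 144)) (XT.nd (nat_lit 78) (nat_lit 152) (nat_lit 0) (XT.lf (nat_lit 0) (nat_lit 30759368635) (nat_lit 228) (nat_lit 9164143557) (nat_lit 76) (nat_lit 30962213426) (nat_lit 19) (nat_lit 5) (nat_lit 22) (nat_lit 5) (nat_lit 20) (nat_lit 5) (nat_lit 316) (nat_lit 261) (nat_lit 143)) (XT.lf (nat_lit 0) (nat_lit 20207700954) (nat_lit 152) (nat_lit 23326220110) (nat_lit 228) (nat_lit 30329224158) (nat_lit 17) (nat_lit 5) (nat_lit 19) (nat_lit 5) (nat_lit 20) (nat_lit 5) (nat_lit 317) (nat_lit 261) (nat_lit 142))))) (XT.nd (nat_lit 156) (nat_lit 228) (nat_lit 0) (XT.nd (nat_lit 78) (nat_lit 76) (nat_lit 0) (XT.lf (nat_lit 0) (nat_lit 51230917163) (nat_lit 152) (nat_lit 5805263018)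 (nat_lit 228) (nat_lit 19950593056) (nat_lit 17) (nat_lit 5) (nat_lit 19) (nat_lit 5) (nat_lit 20) (nat_lit 5) (nat_lit 318) (nat_lit 261) (nat_lit 141)) (XT.lf (nat_lit 0) (nat_lit 3477084977) (nat_lit 76) (nat_lit 67885797273) (nat_lit 152) (nat_lit 8899226982) (nat_lit 16) (nat_lit 5) (nat_lit 17) (nat_lit 5) (nat_lit 18) (nat_lit 4) (nat_lit 319) (nat_lit 261) (nat_lit 140))) (XT.nd (nat_lit 78) (nat_lit 152) (nat_lit 0) (XT.lf (nat_lit 0) (nat_lit 2973258672) (nat_lit 152) (nat_lit 49078883179) (nat_lit 76) (nat_lit 31638656289) (nat_lit 15) (nat_lit 5) (nat_lit 17) (nat_lit 5) (nat_lit 16) (nat_lit 5) (nat_lit 320) (nat_lit 261) (nat_lit 139)) (XT.nd (nat_lit 78) (nat_lit 152) (nat_lit 0) (XT.lf (nat_lit 0) (nat_lit 15252246061) (nat_lit 152) (nat_lit 20085163366) (nat_lit 76) (nat_lit 51950966625) (nat_lit 15) (nat_lit 5) (nat_lit 17) (nat_lit 5) (nat_lit 16) (nat_lit 5) (nat_lit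 321) (nat_lit 261) (nat_lit 138)) (XT.lf (nat_lit 0) (nat_lit 10556712141) (nat_lit 152) (nat_lit 17685392275) (nat_lit 228) (nat_lit 62820826229) (nat_lit 13) (nat_lit 5) (nat_lit 15) (nat_lit 5) (nat_lit 16) (nat_lit 5) (nat_lit 322) (nat_lit 261) (nat_lit 137)))))) (XT.nd (nat_lit 32838) (nat_lit 0) (nat_lit 9956) (XT.nd (nat_lit 156) (nat_lit 76) (nat_lit 0) (XT.nd (nat_lit 78) (nat_lit 0) (nat_lit 0) (XT.lf (nat_lit 0) (nat_lit 42093987866) (nat_lit 228) (nat_lit 51887241795) (nat_lit 76) (nat_lit 1038612515) (nat_lit 13) (nat_lit 5) (nat_lit 16) (nat_lit 5) (nat_lit 14) (nat_lit 4) (nat_lit 323) (nat_lit 261) (nat_lit 136)) (XT.lf (nat_lit 0) (nat_lit 56812742482) (nat_lit 228) (nat_lit 22022889169) (nat_lit 76) (nat_lit 20333744252) (nat_lit 13) (nat_lit 5) (nat_lit 16) (nat_lit 5) (nat_lit 14) (nat_lit 4) (nat_lit 324) (nat_lit 261) (nat_lit 135))) (XT.nd (nat_lit 78) (nat_lit 0)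 (nat_lit 0) (XT.lf (nat_lit 0) (nat_lit 9513592234) (nat_lit 76) (nat_lit 62841268342) (nat_lit 152) (nat_lit 31168907661) (nat_lit 12) (nat_lit 5) (nat_lit 13) (nat_lit 5) (nat_lit 14) (nat_lit 4) (nat_lit 325) (nat_lit 261) (nat_lit 134)) (XT.nd (nat_lit 32526) (nat_lit 0) (nat_lit 10868) (XT.lf (nat_lit 0) (nat_lit 43080571025) (nat_lit 76) (nat_lit 45816323827) (nat_lit 152) (nat_lit 19192305498) (nat_lit 12) (nat_lit 5) (nat_lit 13) (nat_lit 5) (nat_lit 14) (nat_lit 4) (nat_lit 326) (nat_lit 261) (nat_lit 133)) (XT.lf (nat_lit 0) (nat_lit 2185283990) (nat_lit 0) (nat_lit 2185283990) (nat_lit 988) (nat_lit 1802803354) (nat_lit 155) (nat_lit 5) (nat_lit 155) (nat_lit 3) (nat_lit 168) (nat_lit 3) (nat_lit 262) (nat_lit 262) (nat_lit 196))))) (XT.nd (nat_lit 234) (nat_lit 912) (nat_lit 0) (XT.nd (nat_lit 78) (nat_lit 0) (nat_lit 0) (XT.lf (nat_lit 76) (nat_lit 415632566) (nat_lit 0) (nat_lit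 9237285421) (nat_lit 1064) (nat_lit 2979855008) (nat_lit 156) (nat_lit 5) (nat_lit 155) (nat_lit 5) (nat_lit 169) (nat_lit 5) (nat_lit 263) (nat_lit 262) (nat_lit 195)) (XT.nd (nat_lit 78) (nat_lit 0) (nat_lit 76) (XT.lf (nat_lit 76) (nat_lit 9325692534) (nat_lit 0) (nat_lit 1368372749) (nat_lit 1064) (nat_lit 2236644093) (nat_lit 156) (nat_lit 5) (nat_lit 155) (nat_lit 5) (nat_lit 169) (nat_lit 5) (nat_lit 264) (nat_lit 262) (nat_lit 194)) (XT.lf (nat_lit 76) (nat_lit 5454464917) (nat_lit 0) (nat_lit 6411668062) (nat_lit 1064) (nat_lit 1375155918) (nat_lit 157) (nat_lit 5) (nat_lit 156) (nat_lit 5) (nat_lit 170) (nat_lit 5) (nat_lit 265) (nat_lit 262) (nat_lit 193)))) (XT.nd (nat_lit 78) (nat_lit 1064) (nat_lit 0) (XT.lf (nat_lit 76) (nat_lit 1448336303) (nat_lit 0) (nat_lit 11693242470) (nat_lit 1064) (nat_lit 424582248) (nat_lit 158) (nat_lit 5) (nat_lit 157) (nat_lit 5) (nat_lit 171)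 (nat_lit 5) (nat_lit 266) (nat_lit 262) (nat_lit 192)) (XT.nd (nat_lit 78) (nat_lit 0) (nat_lit 76) (XT.lf (nat_lit 0) (nat_lit 671108255) (nat_lit 1064) (nat_lit 2692201442) (nat_lit 1140) (nat_lit 10540637093) (nat_lit 143) (nat_lit 5) (nat_lit 157) (nat_lit 5) (nat_lit 158) (nat_lit 5) (nat_lit 267) (nat_lit 262) (nat_lit 191)) (XT.lf (nat_lit 0) (nat_lit 1900719285) (nat_lit 1064) (nat_lit 6989999120) (nat_lit 1140) (nat_lit 5365233929) (nat_lit 144) (nat_lit 5) (nat_lit 158) (nat_lit 5) (nat_lit 159) (nat_lit 5) (nat_lit 268) (nat_lit 262) (nat_lit 190))))))) (XT.nd (nat_lit 858) (nat_lit 3192) (nat_lit 0) (XT.nd (nat_lit 390) (nat_lit 2204) (nat_lit 0) (XT.nd (nat_lit 156) (nat_lit 836) (nat_lit 0) (XT.nd (nat_lit 78) (nat_lit 0) (nat_lit 76) (XT.lf (nat_lit 76) (nat_lit 3157263670) (nat_lit 0) (nat_lit 93265823) (nat_lit 1140) (nat_lit 11373356732) (nat_lit 145) (nat_lit 5) (nat_lit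 144) (nat_lit 5) (nat_lit 159) (nat_lit 5) (nat_lit 269) (nat_lit 262) (nat_lit 189)) (XT.lf (nat_lit 0) (nat_lit 4796296678) (nat_lit 1064) (nat_lit 1162842437) (nat_lit 1140) (nat_lit 9047309061) (nat_lit 145) (nat_lit 5) (nat_lit 159) (nat_lit 5) (nat_lit 160) (nat_lit 5) (nat_lit 270) (nat_lit 262) (nat_lit 188))) (XT.nd (nat_lit 78) (nat_lit 988) (nat_lit 0) (XT.lf (nat_lit 0) (nat_lit 6516259039) (nat_lit 1064) (nat_lit 5614478467) (nat_lit 1140) (nat_lit 3274574812) (nat_lit 146) (nat_lit 5) (nat_lit 160) (nat_lit 5) (nat_lit 161) (nat_lit 5) (nat_lit 271) (nat_lit 262) (nat_lit 187)) (XT.nd (nat_lit 78) (nat_lit 988) (nat_lit 0) (XT.lf (nat_lit 76) (nat_lit 5516769672) (nat_lit 0) (nat_lit 2901453361) (nat_lit 1140) (nat_lit 7403093952) (nat_lit 147) (nat_lit 5) (nat_lit 146) (nat_lit 5) (nat_lit 161) (nat_lit 5) (nat_lit 272) (nat_lit 262) (nat_lit 186)) (XT.lf (nat_lit 0) (nat_lit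 995458979) (nat_lit 1064) (nat_lit 9524990796) (nat_lit 1140) (nat_lit 5734590913) (nat_lit 133) (nat_lit 5) (nat_lit 147) (nat_lit 5) (nat_lit 148) (nat_lit 5) (nat_lit 273) (nat_lit 262) (nat_lit 185))))) (XT.nd (nat_lit 234) (nat_lit 988) (nat_lit 0) (XT.nd (nat_lit 78) (nat_lit 1216) (nat_lit 0) (XT.lf (nat_lit 0) (nat_lit 12837738398) (nat_lit 1140) (nat_lit 3686112875) (nat_lit 76) (nat_lit 183371012) (nat_lit 133) (nat_lit 5) (nat_lit 148) (nat_lit 5) (nat_lit 134) (nat_lit 5) (nat_lit 274) (nat_lit 262) (nat_lit 184)) (XT.nd (nat_lit 78) (nat_lit 608) (nat_lit 0) (XT.lf (nat_lit 0) (nat_lit 8513266173) (nat_lit 608) (nat_lit 6909994779) (nat_lit 684) (nat_lit 1754247810) (nat_lit 125) (nat_lit 5) (nat_lit 133) (nat_lit 5) (nat_lit 134) (nat_lit 5) (nat_lit 275) (nat_lit 262) (nat_lit 183)) (XT.lf (nat_lit 0) (nat_lit 538770956) (nat_lit 608) (nat_lit 13925531457) (nat_lit 76) (nat_lit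 3204500523) (nat_lit 117) (nat_lit 5) (nat_lit 125) (nat_lit 5) (nat_lit 118) (nat_lit 5) (nat_lit 276) (nat_lit 262) (nat_lit 182)))) (XT.nd (nat_lit 78) (nat_lit 988) (nat_lit 0) (XT.lf (nat_lit 0) (nat_lit 3046405766) (nat_lit 608) (nat_lit 1340901866) (nat_lit 76) (nat_lit 13792804653) (nat_lit 117) (nat_lit 5) (nat_lit 125) (nat_lit 5) (nat_lit 118) (nat_lit 5) (nat_lit 277) (nat_lit 262) (nat_lit 181)) (XT.nd (nat_lit 78) (nat_lit 456) (nat_lit 0) (XT.lf (nat_lit 0) (nat_lit 5833536461) (nat_lit 608) (nat_lit 6687830142) (nat_lit 76) (nat_lit 6191053165) (nat_lit 110) (nat_lit 5) (nat_lit 118) (nat_lit 5) (nat_lit 111) (nat_lit 5) (nat_lit 278) (nat_lit 262) (nat_lit 180)) (XT.lf (nat_lit 0) (nat_lit 6883541550) (nat_lit 456) (nat_lit 1978991303) (nat_lit 532) (nat_lit 10405787920) (nat_lit 104) (nat_lit 5) (nat_lit 110) (nat_lit 5) (nat_lit 111) (nat_lit 5) (nat_lit 279) (nat_lit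 262) (nat_lit 179)))))) (XT.nd (nat_lit 390) (nat_lit 1824) (nat_lit 0) (XT.nd (nat_lit 156) (nat_lit 912) (nat_lit 0) (XT.nd (nat_lit 78) (nat_lit 0) (nat_lit 0) (XT.lf (nat_lit 0) (nat_lit 1339493553) (nat_lit 456) (nat_lit 10852227074) (nat_lit 532) (nat_lit 7655884832) (nat_lit 98) (nat_lit 5) (nat_lit 104) (nat_lit 5) (nat_lit 105) (nat_lit 5) (nat_lit 280) (nat_lit 262) (nat_lit 178)) (XT.lf (nat_lit 0) (nat_lit 15815858515) (nat_lit 532) (nat_lit 4486386603) (nat_lit 76) (nat_lit 149802996) (nat_lit 98) (nat_lit 5) (nat_lit 105) (nat_lit 5) (nat_lit 99) (nat_lit 5) (nat_lit 281) (nat_lit 262) (nat_lit 177))) (XT.nd (nat_lit 78) (nat_lit 532) (nat_lit 0) (XT.lf (nat_lit 0) (nat_lit 10307177581) (nat_lit 380) (nat_lit 9503346907) (nat_lit 456) (nat_lit 1270554925) (nat_lit 93) (nat_lit 5) (nat_lit 98) (nat_lit 5) (nat_lit 99) (nat_lit 5) (nat_lit 282) (nat_lit 262) (nat_lit 176)) (XT.nd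 (nat_lit 78) (nat_lit 0) (nat_lit 0) (XT.lf (nat_lit 0) (nat_lit 2306444395) (nat_lit 532) (nat_lit 17523867879) (nat_lit 76) (nat_lit 1908022490) (nat_lit 86) (nat_lit 5) (nat_lit 93) (nat_lit 5) (nat_lit 87) (nat_lit 5) (nat_lit 283) (nat_lit 262) (nat_lit 175)) (XT.lf (nat_lit 0) (nat_lit 6226074715) (nat_lit 532) (nat_lit 2378205204) (nat_lit 76) (nat_lit 13818134469) (nat_lit 86) (nat_lit 5) (nat_lit 93) (nat_lit 5) (nat_lit 87) (nat_lit 5) (nat_lit 284) (nat_lit 262) (nat_lit 174))))) (XT.nd (nat_lit 234) (nat_lit 1064) (nat_lit 0) (XT.nd (nat_lit 78) (nat_lit 380) (nat_lit 0) (XT.lf (nat_lit 0) (nat_lit 10488725422) (nat_lit 456) (nat_lit 9395301175) (nat_lit 76) (nat_lit 3252298931) (nat_lit 81) (nat_lit 5) (nat_lit 87) (nat_lit 5) (nat_lit 82) (nat_lit 5) (nat_lit 285) (nat_lit 262) (nat_lit 173)) (XT.nd (nat_lit 78) (nat_lit 0) (nat_lit 0) (XT.lf (nat_lit 0) (nat_lit 6857848749)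 (nat_lit 380) (nat_lit 8267515595) (nat_lit 456) (nat_lit 8755779073) (nat_lit 76) (nat_lit 5) (nat_lit 81) (nat_lit 5) (nat_lit 82) (nat_lit 5) (nat_lit 286) (nat_lit 262) (nat_lit 172)) (XT.lf (nat_lit 0) (nat_lit 20113230007) (nat_lit 456) (nat_lit 598569109) (nat_lit 76) (nat_lit 3947856343) (nat_lit 76) (nat_lit 5) (nat_lit 82) (nat_lit 5) (nat_lit 77) (nat_lit 5) (nat_lit 287) (nat_lit 262) (nat_lit 171)))) (XT.nd (nat_lit 78) (nat_lit 684) (nat_lit 0) (XT.lf (nat_lit 0) (nat_lit 108479325) (nat_lit 380) (nat_lit 8596643022) (nat_lit 76) (nat_lit 16765061339) (nat_lit 71) (nat_lit 5) (nat_lit 76) (nat_lit 5) (nat_lit 72) (nat_lit 5) (nat_lit 288) (nat_lit 262) (nat_lit 170)) (XT.nd (nat_lit 78) (nat_lit 304) (nat_lit 0) (XT.lf (nat_lit 0) (nat_lit 5019863716) (nat_lit 456) (nat_lit 17333968450) (nat_lit 76) (nat_lit 3962553804) (nat_lit 66) (nat_lit 5) (nat_lit 72) (nat_lit 5) (nat_lit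 67) (nat_lit 5) (nat_lit 289) (nat_lit 262) (nat_lit 169)) (XT.lf (nat_lit 0) (nat_lit 316988413) (nat_lit 304) (nat_lit 10025701774) (nat_lit 380) (nat_lit 16857261436) (nat_lit 62) (nat_lit 5) (nat_lit 66) (nat_lit 5) (nat_lit 67) (nat_lit 5) (nat_lit 290) (nat_lit 262) (nat_lit 168))))))))
noncomputable def xc91 : XT := (XT.nd (nat_lit 1638) (nat_lit 912) (nat_lit 0) (XT.nd (nat_lit 780) (nat_lit 1216) (nat_lit 0) (XT.nd (nat_lit 390) (nat_lit 760) (nat_lit 0) (XT.nd (nat_lit 156) (nat_lit 608) (nat_lit 0) (XT.nd (nat_lit 78) (nat_lit 304) (nat_lit 0) (XT.lf (nat_lit 0) (nat_lit 16125990154) (nat_lit 380) (nat_lit 8957618194) (nat_lit 76) (nat_lit 3038285287) (nat_lit 62) (nat_lit 5) (nat_lit 67) (nat_lit 5) (nat_lit 63) (nat_lit 5) (nat_lit 291) (nat_lit 262) (nat_lit 167)) (XT.lf (nat_lit 0) (nat_lit 9939448574) (nat_lit 304) (nat_lit 12442475699) (nat_lit 380) (nat_lit 6702531103)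 (nat_lit 58) (nat_lit 5) (nat_lit 62) (nat_lit 5) (nat_lit 63) (nat_lit 5) (nat_lit 292) (nat_lit 262) (nat_lit 166))) (XT.nd (nat_lit 78) (nat_lit 608) (nat_lit 0) (XT.lf (nat_lit 0) (nat_lit 29038928982) (nat_lit 380) (nat_lit 149903334) (nat_lit 76) (nat_lit 903690106) (nat_lit 58) (nat_lit 5) (nat_lit 63) (nat_lit 5) (nat_lit 59) (nat_lit 5) (nat_lit 293) (nat_lit 262) (nat_lit 165)) (XT.nd (nat_lit 78) (nat_lit 304) (nat_lit 0) (XT.lf (nat_lit 0) (nat_lit 5091651609) (nat_lit 304) (nat_lit 11147614810) (nat_lit 76) (nat_lit 14901071953) (nat_lit 54) (nat_lit 5) (nat_lit 58) (nat_lit 5) (nat_lit 55) (nat_lit 5) (nat_lit 294) (nat_lit 262) (nat_lit 164)) (XT.lf (nat_lit 0) (nat_lit 9055006553) (nat_lit 304) (nat_lit 2544231552) (nat_lit 380) (nat_lit 20638710390) (nat_lit 50) (nat_lit 5) (nat_lit 54) (nat_lit 5) (nat_lit 55) (nat_lit 5) (nat_lit 295) (nat_lit 262) (nat_lit 163))))) (XT.nd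 (nat_lit 156) (nat_lit 532) (nat_lit 0) (XT.nd (nat_lit 78) (nat_lit 228) (nat_lit 0) (XT.lf (nat_lit 0) (nat_lit 18650308779) (nat_lit 380) (nat_lit 3017210817) (nat_lit 76) (nat_lit 11716397711) (nat_lit 50) (nat_lit 5) (nat_lit 55) (nat_lit 5) (nat_lit 51) (nat_lit 5) (nat_lit 296) (nat_lit 262) (nat_lit 162)) (XT.lf (nat_lit 0) (nat_lit 18476412576) (nat_lit 228) (nat_lit 7769800072) (nat_lit 304) (nat_lit 8335223837) (nat_lit 47) (nat_lit 5) (nat_lit 50) (nat_lit 5) (nat_lit 51) (nat_lit 5) (nat_lit 297) (nat_lit 262) (nat_lit 161))) (XT.nd (nat_lit 78) (nat_lit 304) (nat_lit 0) (XT.lf (nat_lit 0) (nat_lit 5292127542) (nat_lit 228) (nat_lit 29066942249) (nat_lit 304) (nat_lit 1475666435) (nat_lit 44) (nat_lit 5) (nat_lit 47) (nat_lit 5) (nat_lit 48) (nat_lit 5) (nat_lit 298) (nat_lit 262) (nat_lit 160)) (XT.nd (nat_lit 78) (nat_lit 228) (nat_lit 0) (XT.lf (nat_lit 0) (nat_lit 5850549518)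 (nat_lit 304) (nat_lit 9200065727) (nat_lit 76) (nat_lit 22091389118) (nat_lit 43) (nat_lit 5) (nat_lit 47) (nat_lit 5) (nat_lit 44) (nat_lit 5) (nat_lit 299) (nat_lit 262) (nat_lit 159)) (XT.lf (nat_lit 0) (nat_lit 13442829586) (nat_lit 228) (nat_lit 189309732) (nat_lit 304) (nat_lit 24878487845) (nat_lit 40) (nat_lit 5) (nat_lit 43) (nat_lit 5) (nat_lit 44) (nat_lit 5) (nat_lit 300) (nat_lit 262) (nat_lit 158)))))) (XT.nd (nat_lit 390) (nat_lit 532) (nat_lit 0) (XT.nd (nat_lit 156) (nat_lit 456) (nat_lit 0) (XT.nd (nat_lit 78) (nat_lit 228) (nat_lit 0) (XT.lf (nat_lit 0) (nat_lit 22037009004) (nat_lit 304) (nat_lit 2697887408) (nat_lit 76) (nat_lit 15205774906) (nat_lit 40) (nat_lit 5) (nat_lit 44) (nat_lit 5) (nat_lit 41) (nat_lit 5) (nat_lit 301) (nat_lit 262) (nat_lit 157)) (XT.lf (nat_lit 0) (nat_lit 21188689655) (nat_lit 228) (nat_lit 9869857295) (nat_lit 304) (nat_lit 10377793439)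 (nat_lit 37) (nat_lit 5) (nat_lit 40) (nat_lit 5) (nat_lit 41) (nat_lit 5) (nat_lit 302) (nat_lit 262) (nat_lit 156))) (XT.nd (nat_lit 78) (nat_lit 304) (nat_lit 0) (XT.lf (nat_lit 0) (nat_lit 3316043115) (nat_lit 152) (nat_lit 37321310126) (nat_lit 228) (nat_lit 2366268647) (nat_lit 35) (nat_lit 5) (nat_lit 37) (nat_lit 5) (nat_lit 38) (nat_lit 5) (nat_lit 303) (nat_lit 262) (nat_lit 155)) (XT.nd (nat_lit 78) (nat_lit 228) (nat_lit 0) (XT.lf (nat_lit 0) (nat_lit 6229278599) (nat_lit 228) (nat_lit 16334824556) (nat_lit 76) (nat_lit 22074391763) (nat_lit 34) (nat_lit 5) (nat_lit 37) (nat_lit 5) (nat_lit 35) (nat_lit 5) (nat_lit 304) (nat_lit 262) (nat_lit 154)) (XT.lf (nat_lit 0) (nat_lit 8311442349) (nat_lit 228) (nat_lit 6966294231) (nat_lit 304) (nat_lit 31074522984) (nat_lit 31) (nat_lit 5) (nat_lit 34) (nat_lit 5) (nat_lit 35) (nat_lit 5) (nat_lit 305) (nat_lit 262) (nat_lit 153)))))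 (XT.nd (nat_lit 234) (nat_lit 380) (nat_lit 0) (XT.nd (nat_lit 78) (nat_lit 152) (nat_lit 0) (XT.lf (nat_lit 0) (nat_lit 25030863997) (nat_lit 304) (nat_lit 13719713373) (nat_lit 76) (nat_lit 9393580021) (nat_lit 31) (nat_lit 5) (nat_lit 35) (nat_lit 5) (nat_lit 32) (nat_lit 5) (nat_lit 306) (nat_lit 262) (nat_lit 152)) (XT.nd (nat_lit 78) (nat_lit 0) (nat_lit 0) (XT.lf (nat_lit 0) (nat_lit 11968991455) (nat_lit 152) (nat_lit 23480365776) (nat_lit 228) (nat_lit 14570973348) (nat_lit 29) (nat_lit 5) (nat_lit 31) (nat_lit 5) (nat_lit 32) (nat_lit 5) (nat_lit 307) (nat_lit 262) (nat_lit 151)) (XT.lf (nat_lit 0) (nat_lit 39217468712) (nat_lit 152) (nat_lit 7305137788) (nat_lit 228) (nat_lit 5463702182) (nat_lit 29) (nat_lit 5) (nat_lit 31) (nat_lit 5) (nat_lit 32) (nat_lit 5) (nat_lit 308) (nat_lit 262) (nat_lit 150)))) (XT.nd (nat_lit 78) (nat_lit 152) (nat_lit 0) (XT.lf (nat_lit 0) (nat_lit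 4241125919) (nat_lit 228) (nat_lit 40139705588) (nat_lit 76) (nat_lit 9661917141) (nat_lit 26) (nat_lit 5) (nat_lit 29) (nat_lit 5) (nat_lit 27) (nat_lit 5) (nat_lit 309) (nat_lit 262) (nat_lit 149)) (XT.nd (nat_lit 78) (nat_lit 152) (nat_lit 0) (XT.lf (nat_lit 0) (nat_lit 14518797951) (nat_lit 228) (nat_lit 14163737577) (nat_lit 76) (nat_lit 27511844053) (nat_lit 26) (nat_lit 5) (nat_lit 29) (nat_lit 5) (nat_lit 27) (nat_lit 5) (nat_lit 310) (nat_lit 262) (nat_lit 148)) (XT.lf (nat_lit 0) (nat_lit 13361433474) (nat_lit 152) (nat_lit 12070760260) (nat_lit 228) (nat_lit 33017752513) (nat_lit 24) (nat_lit 5) (nat_lit 26) (nat_lit 5) (nat_lit 27) (nat_lit 5) (nat_lit 311) (nat_lit 262) (nat_lit 147))))))) (XT.nd (nat_lit 858) (nat_lit 228) (nat_lit 0) (XT.nd (nat_lit 390) (nat_lit 304) (nat_lit 0) (XT.nd (nat_lit 156) (nat_lit 228) (nat_lit 0) (XT.nd (nat_lit 78) (nat_lit 152) (nat_lit 0) (XT.lf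 (nat_lit 0) (nat_lit 37083725816) (nat_lit 228) (nat_lit 18318346717) (nat_lit 76) (nat_lit 5410453659) (nat_lit 24) (nat_lit 5) (nat_lit 27) (nat_lit 5) (nat_lit 25) (nat_lit 5) (nat_lit 312) (nat_lit 262) (nat_lit 146)) (XT.lf (nat_lit 0) (nat_lit 9851014387) (nat_lit 152) (nat_lit 39677237287) (nat_lit 228) (nat_lit 13758679462) (nat_lit 22) (nat_lit 5) (nat_lit 24) (nat_lit 5) (nat_lit 25) (nat_lit 5) (nat_lit 313) (nat_lit 262) (nat_lit 145))) (XT.nd (nat_lit 78) (nat_lit 228) (nat_lit 0) (XT.lf (nat_lit 0) (nat_lit 39802212501) (nat_lit 152) (nat_lit 22975452924) (nat_lit 228) (nat_lit 3101919165) (nat_lit 22) (nat_lit 5) (nat_lit 24) (nat_lit 5) (nat_lit 25) (nat_lit 5) (nat_lit 314) (nat_lit 262) (nat_lit 144)) (XT.nd (nat_lit 78) (nat_lit 0) (nat_lit 0) (XT.lf (nat_lit 0) (nat_lit 2613247648) (nat_lit 152) (nat_lit 5336040376) (nat_lit 228) (nat_lit 60649675023) (nat_lit 19) (nat_lit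 5) (nat_lit 21) (nat_lit 5) (nat_lit 22) (nat_lit 5) (nat_lit 315) (nat_lit 262) (nat_lit 143)) (XT.lf (nat_lit 0) (nat_lit 19881808915) (nat_lit 228) (nat_lit 38332611861) (nat_lit 76) (nat_lit 13227188256) (nat_lit 19) (nat_lit 5) (nat_lit 22) (nat_lit 5) (nat_lit 20) (nat_lit 5) (nat_lit 316) (nat_lit 262) (nat_lit 142))))) (XT.nd (nat_lit 234) (nat_lit 152) (nat_lit 0) (XT.nd (nat_lit 78) (nat_lit 152) (nat_lit 0) (XT.lf (nat_lit 0) (nat_lit 32459539954) (nat_lit 228) (nat_lit 9359265031) (nat_lit 76) (nat_lit 32606131611) (nat_lit 19) (nat_lit 5) (nat_lit 22) (nat_lit 5) (nat_lit 20) (nat_lit 5) (nat_lit 317) (nat_lit 262) (nat_lit 141)) (XT.nd (nat_lit 78) (nat_lit 0) (nat_lit 0) (XT.lf (nat_lit 0) (nat_lit 21473630408) (nat_lit 152) (nat_lit 24393922100) (nat_lit 228) (nat_lit 31683842661) (nat_lit 17) (nat_lit 5) (nat_lit 19) (nat_lit 5) (nat_lit 20) (nat_lit 5) (nat_lit 318) (nat_lit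 262) (nat_lit 140)) (XT.lf (nat_lit 0) (nat_lit 54035838646) (nat_lit 152) (nat_lit 6001612820) (nat_lit 228) (nat_lit 20793986800) (nat_lit 17) (nat_lit 5) (nat_lit 19) (nat_lit 5) (nat_lit 20) (nat_lit 5) (nat_lit 319) (nat_lit 262) (nat_lit 139)))) (XT.nd (nat_lit 78) (nat_lit 76) (nat_lit 0) (XT.lf (nat_lit 0) (nat_lit 3891001327) (nat_lit 76) (nat_lit 71185537449) (nat_lit 152) (nat_lit 9194129817) (nat_lit 16) (nat_lit 5) (nat_lit 17) (nat_lit 5) (nat_lit 18) (nat_lit 4) (nat_lit 320) (nat_lit 262) (nat_lit 138)) (XT.nd (nat_lit 78) (nat_lit 0) (nat_lit 0) (XT.lf (nat_lit 0) (nat_lit 3262045731) (nat_lit 152) (nat_lit 51301240913) (nat_lit 76) (nat_lit 33307680571) (nat_lit 15) (nat_lit 5) (nat_lit 17) (nat_lit 5) (nat_lit 16) (nat_lit 5) (nat_lit 321) (nat_lit 262) (nat_lit 137)) (XT.lf (nat_lit 0) (nat_lit 16148309912) (nat_lit 152) (nat_lit 20868863034) (nat_lit 76) (nat_lit 54631459211)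 (nat_lit 15) (nat_lit 5) (nat_lit 17) (nat_lit 5) (nat_lit 16) (nat_lit 5) (nat_lit 322) (nat_lit 262) (nat_lit 136)))))) (XT.nd (nat_lit 32916) (nat_lit 0) (nat_lit 9956) (XT.nd (nat_lit 156) (nat_lit 76) (nat_lit 0) (XT.nd (nat_lit 78) (nat_lit 0) (nat_lit 0) (XT.lf (nat_lit 0) (nat_lit 11298783984) (nat_lit 152) (nat_lit 18484581735) (nat_lit 228) (nat_lit 65828685203) (nat_lit 13) (nat_lit 5) (nat_lit 15) (nat_lit 5) (nat_lit 16) (nat_lit 5) (nat_lit 323) (nat_lit 262) (nat_lit 135)) (XT.lf (nat_lit 0) (nat_lit 44322471950) (nat_lit 228) (nat_lit 54274513744) (nat_lit 76) (nat_lit 1169990697) (nat_lit 13) (nat_lit 5) (nat_lit 16) (nat_lit 5) (nat_lit 14) (nat_lit 4) (nat_lit 324) (nat_lit 262) (nat_lit 134))) (XT.nd (nat_lit 78) (nat_lit 76) (nat_lit 0) (XT.lf (nat_lit 0) (nat_lit 59771269787) (nat_lit 228) (nat_lit 22926804921) (nat_lit 76) (nat_lit 21426095803) (nat_lit 13) (nat_lit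 5) (nat_lit 16) (nat_lit 5) (nat_lit 14) (nat_lit 4) (nat_lit 325) (nat_lit 262) (nat_lit 133)) (XT.nd (nat_lit 32604) (nat_lit 0) (nat_lit 10868) (XT.lf (nat_lit 0) (nat_lit 10180847031) (nat_lit 76) (nat_lit 65905874475) (nat_lit 152) (nat_lit 32609680672) (nat_lit 12) (nat_lit 5) (nat_lit 13) (nat_lit 5) (nat_lit 14) (nat_lit 4) (nat_lit 326) (nat_lit 262) (nat_lit 132)) (XT.lf (nat_lit 0) (nat_lit 2617431319) (nat_lit 0) (nat_lit 2617431319) (nat_lit 988) (nat_lit 1225992380) (nat_lit 155) (nat_lit 5) (nat_lit 155) (nat_lit 3) (nat_lit 168) (nat_lit 3) (nat_lit 263) (nat_lit 263) (nat_lit 194))))) (XT.nd (nat_lit 234) (nat_lit 912) (nat_lit 0) (XT.nd (nat_lit 78) (nat_lit 0) (nat_lit 0) (XT.lf (nat_lit 76) (nat_lit 1110854502) (nat_lit 0) (nat_lit 10255311582) (nat_lit 1064) (nat_lit 1857876266) (nat_lit 156) (nat_lit 5) (nat_lit 155) (nat_lit 5) (nat_lit 169) (nat_lit 5) (nat_lit 264)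 (nat_lit 263) (nat_lit 193)) (XT.nd (nat_lit 78) (nat_lit 0) (nat_lit 76) (XT.lf (nat_lit 76) (nat_lit 10434301263) (nat_lit 0) (nat_lit 1966469378) (nat_lit 1064) (nat_lit 1138027257) (nat_lit 156) (nat_lit 5) (nat_lit 155) (nat_lit 5) (nat_lit 169) (nat_lit 5) (nat_lit 265) (nat_lit 263) (nat_lit 192)) (XT.lf (nat_lit 76) (nat_lit 6393390686) (nat_lit 0) (nat_lit 7183796226) (nat_lit 1064) (nat_lit 289503646) (nat_lit 157) (nat_lit 5) (nat_lit 156) (nat_lit 5) (nat_lit 170) (nat_lit 5) (nat_lit 266) (nat_lit 263) (nat_lit 191)))) (XT.nd (nat_lit 78) (nat_lit 0) (nat_lit 0) (XT.lf (nat_lit 0) (nat_lit 643366032) (nat_lit 1064) (nat_lit 12008098526) (nat_lit 1140) (nat_lit 1557824270) (nat_lit 143) (nat_lit 5) (nat_lit 157) (nat_lit 5) (nat_lit 158) (nat_lit 5) (nat_lit 267) (nat_lit 263) (nat_lit 190)) (XT.nd (nat_lit 78) (nat_lit 0) (nat_lit 76) (XT.lf (nat_lit 0) (nat_lit 1733690342)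 (nat_lit 1064) (nat_lit 2149352450) (nat_lit 1140) (nat_lit 10682473902) (nat_lit 143) (nat_lit 5) (nat_lit 157) (nat_lit 5) (nat_lit 158) (nat_lit 5) (nat_lit 268) (nat_lit 263) (nat_lit 189)) (XT.lf (nat_lit 0) (nat_lit 2978950207) (nat_lit 1064) (nat_lit 6646087421) (nat_lit 1140) (nat_lit 5311591107) (nat_lit 144) (nat_lit 5) (nat_lit 158) (nat_lit 5) (nat_lit 159) (nat_lit 5) (nat_lit 269) (nat_lit 263) (nat_lit 188))))))))
noncomputable def xc92 : XT := (XT.nd (nat_lit 1638) (nat_lit 3040) (nat_lit 0) (XT.nd (nat_lit 780) (nat_lit 3344) (nat_lit 0) (XT.nd (nat_lit 390) (nat_lit 1748) (nat_lit 0) (XT.nd (nat_lit 156) (nat_lit 836) (nat_lit 0) (XT.nd (nat_lit 78) (nat_lit 0) (nat_lit 76) (XT.lf (nat_lit 76) (nat_lit 3988662003) (nat_lit 0) (nat_lit 367244547) (nat_lit 1140) (nat_lit 10968388119) (nat_lit 145) (nat_lit 5) (nat_lit 144) (nat_lit 5) (nat_lit 159) (nat_lit 5) (nat_lit 270)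 (nat_lit 263) (nat_lit 187)) (XT.lf (nat_lit 0) (nat_lit 5931598901) (nat_lit 1064) (nat_lit 547737091) (nat_lit 1140) (nat_lit 9248188686) (nat_lit 145) (nat_lit 5) (nat_lit 159) (nat_lit 5) (nat_lit 160) (nat_lit 5) (nat_lit 271) (nat_lit 263) (nat_lit 186))) (XT.nd (nat_lit 78) (nat_lit 988) (nat_lit 0) (XT.lf (nat_lit 0) (nat_lit 7699230942) (nat_lit 1064) (nat_lit 5211239258) (nat_lit 1140) (nat_lit 3237125074) (nat_lit 146) (nat_lit 5) (nat_lit 160) (nat_lit 5) (nat_lit 161) (nat_lit 5) (nat_lit 272) (nat_lit 263) (nat_lit 185)) (XT.nd (nat_lit 78) (nat_lit 988) (nat_lit 0) (XT.lf (nat_lit 76) (nat_lit 6456965622) (nat_lit 0) (nat_lit 3204896633) (nat_lit 1140) (nat_lit 6923678843) (nat_lit 147) (nat_lit 5) (nat_lit 146) (nat_lit 5) (nat_lit 161) (nat_lit 5) (nat_lit 273) (nat_lit 263) (nat_lit 184)) (XT.lf (nat_lit 0) (nat_lit 1718096762) (nat_lit 1064) (nat_lit 10116944170) (nat_lit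 1140) (nat_lit 5207037687) (nat_lit 133) (nat_lit 5) (nat_lit 147) (nat_lit 5) (nat_lit 148) (nat_lit 5) (nat_lit 274) (nat_lit 263) (nat_lit 183))))) (XT.nd (nat_lit 156) (nat_lit 1140) (nat_lit 0) (XT.nd (nat_lit 78) (nat_lit 608) (nat_lit 0) (XT.lf (nat_lit 0) (nat_lit 14229583844) (nat_lit 1140) (nat_lit 3204045992) (nat_lit 76) (nat_lit 84495719) (nat_lit 133) (nat_lit 5) (nat_lit 148) (nat_lit 5) (nat_lit 134) (nat_lit 5) (nat_lit 275) (nat_lit 263) (nat_lit 182)) (XT.lf (nat_lit 0) (nat_lit 9586200574) (nat_lit 608) (nat_lit 7328691606) (nat_lit 684) (nat_lit 1098012175) (nat_lit 125) (nat_lit 5) (nat_lit 133) (nat_lit 5) (nat_lit 134) (nat_lit 5) (nat_lit 276) (nat_lit 263) (nat_lit 181))) (XT.nd (nat_lit 78) (nat_lit 532) (nat_lit 0) (XT.lf (nat_lit 0) (nat_lit 1266060364) (nat_lit 608) (nat_lit 13953937036) (nat_lit 76) (nat_lit 3309509961) (nat_lit 117) (nat_lit 5) (nat_lit 125)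 (nat_lit 5) (nat_lit 118) (nat_lit 5) (nat_lit 277) (nat_lit 263) (nat_lit 180)) (XT.nd (nat_lit 78) (nat_lit 532) (nat_lit 0) (XT.lf (nat_lit 0) (nat_lit 3865726873) (nat_lit 608) (nat_lit 771879346) (nat_lit 76) (nat_lit 14429858611) (nat_lit 117) (nat_lit 5) (nat_lit 125) (nat_lit 5) (nat_lit 118) (nat_lit 5) (nat_lit 278) (nat_lit 263) (nat_lit 179)) (XT.lf (nat_lit 0) (nat_lit 6766166779) (nat_lit 608) (nat_lit 6383362260) (nat_lit 76) (nat_lit 6477718310) (nat_lit 110) (nat_lit 5) (nat_lit 118) (nat_lit 5) (nat_lit 111) (nat_lit 5) (nat_lit 279) (nat_lit 263) (nat_lit 178)))))) (XT.nd (nat_lit 390) (nat_lit 1520) (nat_lit 0) (XT.nd (nat_lit 156) (nat_lit 912) (nat_lit 0) (XT.nd (nat_lit 78) (nat_lit 456) (nat_lit 0) (XT.lf (nat_lit 0) (nat_lit 7848265241) (nat_lit 456) (nat_lit 2073791228) (nat_lit 532) (nat_lit 10289698145) (nat_lit 104) (nat_lit 5) (nat_lit 110) (nat_lit 5) (nat_lit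 111) (nat_lit 5) (nat_lit 280) (nat_lit 263) (nat_lit 177)) (XT.lf (nat_lit 0) (nat_lit 2028597667) (nat_lit 456) (nat_lit 11365772006) (nat_lit 532) (nat_lit 7426404846) (nat_lit 98) (nat_lit 5) (nat_lit 104) (nat_lit 5) (nat_lit 105) (nat_lit 5) (nat_lit 281) (nat_lit 263) (nat_lit 176))) (XT.nd (nat_lit 78) (nat_lit 912) (nat_lit 0) (XT.lf (nat_lit 0) (nat_lit 17171739459) (nat_lit 532) (nat_lit 4100171413) (nat_lit 76) (nat_lit 184435270) (nat_lit 98) (nat_lit 5) (nat_lit 105) (nat_lit 5) (nat_lit 99) (nat_lit 5) (nat_lit 282) (nat_lit 263) (nat_lit 175)) (XT.nd (nat_lit 78) (nat_lit 532) (nat_lit 0) (XT.lf (nat_lit 0) (nat_lit 11415570130) (nat_lit 380) (nat_lit 9929360250) (nat_lit 456) (nat_lit 772599246) (nat_lit 93) (nat_lit 5) (nat_lit 98) (nat_lit 5) (nat_lit 99) (nat_lit 5) (nat_lit 283) (nat_lit 263) (nat_lit 174)) (XT.lf (nat_lit 0) (nat_lit 2952285923) (nat_lit 532) (nat_lit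 17795637871) (nat_lit 76) (nat_lit 2060221775) (nat_lit 86) (nat_lit 5) (nat_lit 93) (nat_lit 5) (nat_lit 87) (nat_lit 5) (nat_lit 284) (nat_lit 263) (nat_lit 173))))) (XT.nd (nat_lit 234) (nat_lit 760) (nat_lit 0) (XT.nd (nat_lit 78) (nat_lit 760) (nat_lit 0) (XT.lf (nat_lit 0) (nat_lit 7042634935) (nat_lit 532) (nat_lit 1921474129) (nat_lit 76) (nat_lit 14563134678) (nat_lit 86) (nat_lit 5) (nat_lit 93) (nat_lit 5) (nat_lit 87) (nat_lit 5) (nat_lit 285) (nat_lit 263) (nat_lit 172)) (XT.nd (nat_lit 78) (nat_lit 380) (nat_lit 0) (XT.lf (nat_lit 0) (nat_lit 11500430728) (nat_lit 456) (nat_lit 9290946292) (nat_lit 76) (nat_lit 3486067028) (nat_lit 81) (nat_lit 5) (nat_lit 87) (nat_lit 5) (nat_lit 82) (nat_lit 5) (nat_lit 286) (nat_lit 263) (nat_lit 171)) (XT.lf (nat_lit 0) (nat_lit 7758404095) (nat_lit 380) (nat_lit 8592654809) (nat_lit 456) (nat_lit 8709030620) (nat_lit 76) (nat_lit 5) (nat_lit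 81) (nat_lit 5) (nat_lit 82) (nat_lit 5) (nat_lit 287) (nat_lit 263) (nat_lit 170)))) (XT.nd (nat_lit 78) (nat_lit 760) (nat_lit 0) (XT.lf (nat_lit 0) (nat_lit 21566772010) (nat_lit 456) (nat_lit 83806338) (nat_lit 76) (nat_lit 4227644162) (nat_lit 76) (nat_lit 5) (nat_lit 82) (nat_lit 5) (nat_lit 77) (nat_lit 5) (nat_lit 288) (nat_lit 263) (nat_lit 169)) (XT.nd (nat_lit 78) (nat_lit 380) (nat_lit 0) (XT.lf (nat_lit 0) (nat_lit 550730094) (nat_lit 380) (nat_lit 8487798193) (nat_lit 76) (nat_lit 17691154271) (nat_lit 71) (nat_lit 5) (nat_lit 76) (nat_lit 5) (nat_lit 72) (nat_lit 5) (nat_lit 289) (nat_lit 263) (nat_lit 168)) (XT.lf (nat_lit 0) (nat_lit 5692894315) (nat_lit 456) (nat_lit 17664919139) (nat_lit 76) (nat_lit 4260868302) (nat_lit 66) (nat_lit 5) (nat_lit 72) (nat_lit 5) (nat_lit 67) (nat_lit 5) (nat_lit 290) (nat_lit 263) (nat_lit 167))))))) (XT.nd (nat_lit 780) (nat_lit 1292)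 (nat_lit 0) (XT.nd (nat_lit 390) (nat_lit 836) (nat_lit 0) (XT.nd (nat_lit 156) (nat_lit 608) (nat_lit 0) (XT.nd (nat_lit 78) (nat_lit 0) (nat_lit 0) (XT.lf (nat_lit 0) (nat_lit 853228466) (nat_lit 304) (nat_lit 10413538938) (nat_lit 380) (nat_lit 17280152198) (nat_lit 62) (nat_lit 5) (nat_lit 66) (nat_lit 5) (nat_lit 67) (nat_lit 5) (nat_lit 291) (nat_lit 263) (nat_lit 166)) (XT.lf (nat_lit 0) (nat_lit 17320892746) (nat_lit 380) (nat_lit 8898518433) (nat_lit 76) (nat_lit 3296136834) (nat_lit 62) (nat_lit 5) (nat_lit 67) (nat_lit 5) (nat_lit 63) (nat_lit 5) (nat_lit 292) (nat_lit 263) (nat_lit 165))) (XT.nd (nat_lit 78) (nat_lit 304) (nat_lit 0) (XT.lf (nat_lit 0) (nat_lit 10928869175) (nat_lit 304) (nat_lit 12946983200) (nat_lit 380) (nat_lit 6650835850) (nat_lit 58) (nat_lit 5) (nat_lit 62) (nat_lit 5) (nat_lit 63) (nat_lit 5) (nat_lit 293) (nat_lit 263) (nat_lit 164)) (XT.nd (nat_lit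 78) (nat_lit 76) (nat_lit 0) (XT.lf (nat_lit 0) (nat_lit 328349244) (nat_lit 228) (nat_lit 30523741992) (nat_lit 304) (nat_lit 733511343) (nat_lit 55) (nat_lit 5) (nat_lit 58) (nat_lit 5) (nat_lit 59) (nat_lit 5) (nat_lit 294) (nat_lit 263) (nat_lit 163)) (XT.lf (nat_lit 0) (nat_lit 5695802043) (nat_lit 304) (nat_lit 11231782171) (nat_lit 76) (nat_lit 15758628019) (nat_lit 54) (nat_lit 5) (nat_lit 58) (nat_lit 5) (nat_lit 55) (nat_lit 5) (nat_lit 295) (nat_lit 263) (nat_lit 162))))) (XT.nd (nat_lit 156) (nat_lit 532) (nat_lit 0) (XT.nd (nat_lit 78) (nat_lit 0) (nat_lit 0) (XT.lf (nat_lit 0) (nat_lit 9967405694) (nat_lit 304) (nat_lit 2549134506) (nat_lit 380) (nat_lit 21322560729) (nat_lit 50) (nat_lit 5) (nat_lit 54) (nat_lit 5) (nat_lit 55) (nat_lit 5) (nat_lit 296) (nat_lit 263) (nat_lit 161)) (XT.lf (nat_lit 0) (nat_lit 19905220309) (nat_lit 380) (nat_lit 2721196979) (nat_lit 76) (nat_lit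 12416428969) (nat_lit 50) (nat_lit 5) (nat_lit 55) (nat_lit 5) (nat_lit 51) (nat_lit 5) (nat_lit 297) (nat_lit 263) (nat_lit 160))) (XT.nd (nat_lit 78) (nat_lit 304) (nat_lit 0) (XT.lf (nat_lit 0) (nat_lit 19834298020) (nat_lit 228) (nat_lit 8035441653) (nat_lit 304) (nat_lit 8430865447) (nat_lit 47) (nat_lit 5) (nat_lit 50) (nat_lit 5) (nat_lit 51) (nat_lit 5) (nat_lit 298) (nat_lit 263) (nat_lit 159)) (XT.nd (nat_lit 78) (nat_lit 76) (nat_lit 0) (XT.lf (nat_lit 0) (nat_lit 5986828626) (nat_lit 228) (nat_lit 30391850214) (nat_lit 304) (nat_lit 1238204819) (nat_lit 44) (nat_lit 5) (nat_lit 47) (nat_lit 5) (nat_lit 48) (nat_lit 5) (nat_lit 299) (nat_lit 263) (nat_lit 158)) (XT.lf (nat_lit 0) (nat_lit 6433716449) (nat_lit 304) (nat_lit 9244171672) (nat_lit 76) (nat_lit 23311998236) (nat_lit 43) (nat_lit 5) (nat_lit 47) (nat_lit 5) (nat_lit 44) (nat_lit 5) (nat_lit 300) (nat_lit 263) (nat_lit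 157)))))) (XT.nd (nat_lit 390) (nat_lit 608) (nat_lit 0) (XT.nd (nat_lit 156) (nat_lit 456) (nat_lit 0) (XT.nd (nat_lit 78) (nat_lit 0) (nat_lit 0) (XT.lf (nat_lit 0) (nat_lit 14518946793) (nat_lit 228) (nat_lit 75482234) (nat_lit 304) (nat_lit 25832833736) (nat_lit 40) (nat_lit 5) (nat_lit 43) (nat_lit 5) (nat_lit 44) (nat_lit 5) (nat_lit 301) (nat_lit 263) (nat_lit 156)) (XT.lf (nat_lit 0) (nat_lit 23407305083) (nat_lit 304) (nat_lit 2440699570) (nat_lit 76) (nat_lit 16081194217) (nat_lit 40) (nat_lit 5) (nat_lit 44) (nat_lit 5) (nat_lit 41) (nat_lit 5) (nat_lit 302) (nat_lit 263) (nat_lit 155))) (XT.nd (nat_lit 78) (nat_lit 228) (nat_lit 0) (XT.lf (nat_lit 0) (nat_lit 22628967389) (nat_lit 228) (nat_lit 10241830312) (nat_lit 304) (nat_lit 10629148917) (nat_lit 37) (nat_lit 5) (nat_lit 40) (nat_lit 5) (nat_lit 41) (nat_lit 5) (nat_lit 303) (nat_lit 263) (nat_lit 154)) (XT.nd (nat_lit 78)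 (nat_lit 76) (nat_lit 0) (XT.lf (nat_lit 0) (nat_lit 3858612518) (nat_lit 152) (nat_lit 39062317270) (nat_lit 228) (nat_lit 2224911367) (nat_lit 35) (nat_lit 5) (nat_lit 37) (nat_lit 5) (nat_lit 38) (nat_lit 5) (nat_lit 304) (nat_lit 263) (nat_lit 153)) (XT.lf (nat_lit 0) (nat_lit 6783222150) (nat_lit 228) (nat_lit 16787534392) (nat_lit 76) (nat_lit 23292009112) (nat_lit 34) (nat_lit 5) (nat_lit 37) (nat_lit 5) (nat_lit 35) (nat_lit 5) (nat_lit 305) (nat_lit 263) (nat_lit 152))))) (XT.nd (nat_lit 234) (nat_lit 228) (nat_lit 0) (XT.nd (nat_lit 78) (nat_lit 152) (nat_lit 0) (XT.lf (nat_lit 0) (nat_lit 9080610972) (nat_lit 228) (nat_lit 7195344396) (nat_lit 304) (nat_lit 32386525672) (nat_lit 31) (nat_lit 5) (nat_lit 34) (nat_lit 5) (nat_lit 35) (nat_lit 5) (nat_lit 306) (nat_lit 263) (nat_lit 151)) (XT.nd (nat_lit 78) (nat_lit 152) (nat_lit 0) (XT.lf (nat_lit 0) (nat_lit 26506672342) (nat_lit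 304) (nat_lit 14062992788) (nat_lit 76) (nat_lit 9974627847) (nat_lit 31) (nat_lit 5) (nat_lit 35) (nat_lit 5) (nat_lit 32) (nat_lit 5) (nat_lit 307) (nat_lit 263) (nat_lit 150)) (XT.lf (nat_lit 0) (nat_lit 12900323675) (nat_lit 152) (nat_lit 24538287142) (nat_lit 228) (nat_lit 15075904788) (nat_lit 29) (nat_lit 5) (nat_lit 31) (nat_lit 5) (nat_lit 32) (nat_lit 5) (nat_lit 308) (nat_lit 263) (nat_lit 149)))) (XT.nd (nat_lit 78) (nat_lit 228) (nat_lit 0) (XT.lf (nat_lit 0) (nat_lit 41495373240) (nat_lit 152) (nat_lit 7559826179) (nat_lit 228) (nat_lit 5523918503) (nat_lit 29) (nat_lit 5) (nat_lit 31) (nat_lit 5) (nat_lit 32) (nat_lit 5) (nat_lit 309) (nat_lit 263) (nat_lit 148)) (XT.nd (nat_lit 78) (nat_lit 0) (nat_lit 0) (XT.lf (nat_lit 0) (nat_lit 4656114778) (nat_lit 228) (nat_lit 41829132561) (nat_lit 76) (nat_lit 10253261984) (nat_lit 26) (nat_lit 5) (nat_lit 29) (nat_lit 5) (nat_lit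 27) (nat_lit 5) (nat_lit 310) (nat_lit 263) (nat_lit 147)) (XT.lf (nat_lit 0) (nat_lit 15438006957) (nat_lit 228) (nat_lit 14569487975) (nat_lit 76) (nat_lit 28990530527) (nat_lit 26) (nat_lit 5) (nat_lit 29) (nat_lit 5) (nat_lit 27) (nat_lit 5) (nat_lit 311) (nat_lit 263) (nat_lit 146))))))))
noncomputable def xc93 : XT := (XT.nd (nat_lit 34242) (nat_lit 0) (nat_lit 4028) (XT.nd (nat_lit 780) (nat_lit 228) (nat_lit 0) (XT.nd (nat_lit 390) (nat_lit 228) (nat_lit 0) (XT.nd (nat_lit 156) (nat_lit 380) (nat_lit 0) (XT.nd (nat_lit 78) (nat_lit 0) (nat_lit 0) (XT.lf (nat_lit 0) (nat_lit 14323272348) (nat_lit 152) (nat_lit 12567420759) (nat_lit 228) (nat_lit 34475881829) (nat_lit 24) (nat_lit 5) (nat_lit 26) (nat_lit 5) (nat_lit 27) (nat_lit 5) (nat_lit 312) (nat_lit 263) (nat_lit 145)) (XT.lf (nat_lit 0) (nat_lit 39116880734) (nat_lit 228) (nat_lit 18949875051) (nat_lit 76) (nat_lit 5780778198)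 (nat_lit 24) (nat_lit 5) (nat_lit 27) (nat_lit 5) (nat_lit 25) (nat_lit 5) (nat_lit 313) (nat_lit 263) (nat_lit 144))) (XT.nd (nat_lit 78) (nat_lit 228) (nat_lit 0) (XT.lf (nat_lit 0) (nat_lit 10619802154) (nat_lit 152) (nat_lit 41557963775) (nat_lit 228) (nat_lit 14268081133) (nat_lit 22) (nat_lit 5) (nat_lit 24) (nat_lit 5) (nat_lit 25) (nat_lit 5) (nat_lit 314) (nat_lit 263) (nat_lit 143)) (XT.nd (nat_lit 78) (nat_lit 228) (nat_lit 0) (XT.lf (nat_lit 0) (nat_lit 42055406030) (nat_lit 152) (nat_lit 24026001402) (nat_lit 228) (nat_lit 3086984359) (nat_lit 22) (nat_lit 5) (nat_lit 24) (nat_lit 5) (nat_lit 25) (nat_lit 5) (nat_lit 315) (nat_lit 263) (nat_lit 142)) (XT.lf (nat_lit 0) (nat_lit 3002887900) (nat_lit 152) (nat_lit 5505128123) (nat_lit 228) (nat_lit 63515848052) (nat_lit 19) (nat_lit 5) (nat_lit 21) (nat_lit 5) (nat_lit 22) (nat_lit 5) (nat_lit 316) (nat_lit 263) (nat_lit 141)))))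 (XT.nd (nat_lit 156) (nat_lit 228) (nat_lit 0) (XT.nd (nat_lit 78) (nat_lit 0) (nat_lit 0) (XT.lf (nat_lit 0) (nat_lit 21030378301) (nat_lit 228) (nat_lit 39998684640) (nat_lit 76) (nat_lit 13979792921) (nat_lit 19) (nat_lit 5) (nat_lit 22) (nat_lit 5) (nat_lit 20) (nat_lit 5) (nat_lit 317) (nat_lit 263) (nat_lit 140)) (XT.lf (nat_lit 0) (nat_lit 34229639752) (nat_lit 228) (nat_lit 9588601793) (nat_lit 76) (nat_lit 34323338432) (nat_lit 19) (nat_lit 5) (nat_lit 22) (nat_lit 5) (nat_lit 20) (nat_lit 5) (nat_lit 318) (nat_lit 263) (nat_lit 139))) (XT.nd (nat_lit 78) (nat_lit 76) (nat_lit 0) (XT.lf (nat_lit 0) (nat_lit 22779098237) (nat_lit 152) (nat_lit 25524176920) (nat_lit 228) (nat_lit 33121238690) (nat_lit 17) (nat_lit 5) (nat_lit 19) (nat_lit 5) (nat_lit 20) (nat_lit 5) (nat_lit 319) (nat_lit 263) (nat_lit 138)) (XT.nd (nat_lit 78) (nat_lit 76) (nat_lit 0) (XT.lf (nat_lit 0) (nat_lit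 56958379443) (nat_lit 152) (nat_lit 6216511286) (nat_lit 228) (nat_lit 21693880327) (nat_lit 17) (nat_lit 5) (nat_lit 19) (nat_lit 5) (nat_lit 20) (nat_lit 5) (nat_lit 320) (nat_lit 263) (nat_lit 137)) (XT.lf (nat_lit 0) (nat_lit 4303294794) (nat_lit 76) (nat_lit 74659054967) (nat_lit 152) (nat_lit 9517728812) (nat_lit 16) (nat_lit 5) (nat_lit 17) (nat_lit 5) (nat_lit 18) (nat_lit 4) (nat_lit 321) (nat_lit 263) (nat_lit 136)))))) (XT.nd (nat_lit 32994) (nat_lit 0) (nat_lit 9804) (XT.nd (nat_lit 156) (nat_lit 152) (nat_lit 0) (XT.nd (nat_lit 78) (nat_lit 0) (nat_lit 0) (XT.lf (nat_lit 0) (nat_lit 3552244730) (nat_lit 152) (nat_lit 53656247243) (nat_lit 76) (nat_lit 35052059128) (nat_lit 15) (nat_lit 5) (nat_lit 17) (nat_lit 5) (nat_lit 16) (nat_lit 5) (nat_lit 322) (nat_lit 263) (nat_lit 135)) (XT.lf (nat_lit 0) (nat_lit 17076769896) (nat_lit 152) (nat_lit 21712253124) (nat_lit 76) (nat_lit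 57438265055) (nat_lit 15) (nat_lit 5) (nat_lit 17) (nat_lit 5) (nat_lit 16) (nat_lit 5) (nat_lit 323) (nat_lit 263) (nat_lit 134))) (XT.nd (nat_lit 78) (nat_lit 0) (nat_lit 0) (XT.lf (nat_lit 0) (nat_lit 12058041764) (nat_lit 152) (nat_lit 19331640614) (nat_lit 228) (nat_lit 68999319157) (nat_lit 13) (nat_lit 5) (nat_lit 15) (nat_lit 5) (nat_lit 16) (nat_lit 5) (nat_lit 324) (nat_lit 263) (nat_lit 133)) (XT.nd (nat_lit 78) (nat_lit 0) (nat_lit 0) (XT.lf (nat_lit 0) (nat_lit 46650871910) (nat_lit 228) (nat_lit 56800402568) (nat_lit 76) (nat_lit 1300551506) (nat_lit 13) (nat_lit 5) (nat_lit 16) (nat_lit 5) (nat_lit 14) (nat_lit 4) (nat_lit 325) (nat_lit 263) (nat_lit 132)) (XT.lf (nat_lit 0) (nat_lit 62866763146) (nat_lit 228) (nat_lit 23894252917) (nat_lit 76) (nat_lit 22566030379) (nat_lit 13) (nat_lit 5) (nat_lit 16) (nat_lit 5) (nat_lit 14) (nat_lit 4) (nat_lit 326) (nat_lit 263) (nat_lit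 131))))) (XT.nd (nat_lit 234) (nat_lit 988) (nat_lit 0) (XT.nd (nat_lit 78) (nat_lit 0) (nat_lit 0) (XT.lf (nat_lit 0) (nat_lit 3041167402) (nat_lit 0) (nat_lit 3041167402) (nat_lit 988) (nat_lit 682347652) (nat_lit 155) (nat_lit 5) (nat_lit 155) (nat_lit 3) (nat_lit 168) (nat_lit 3) (nat_lit 264) (nat_lit 264) (nat_lit 192)) (XT.nd (nat_lit 78) (nat_lit 0) (nat_lit 0) (XT.lf (nat_lit 76) (nat_lit 1778134467) (nat_lit 0) (nat_lit 11272532391) (nat_lit 1064) (nat_lit 797961470) (nat_lit 156) (nat_lit 5) (nat_lit 155) (nat_lit 5) (nat_lit 169) (nat_lit 5) (nat_lit 265) (nat_lit 264) (nat_lit 191)) (XT.lf (nat_lit 76) (nat_lit 11538623221) (nat_lit 0) (nat_lit 2545226399) (nat_lit 1064) (nat_lit 97015658) (nat_lit 156) (nat_lit 5) (nat_lit 155) (nat_lit 5) (nat_lit 169) (nat_lit 5) (nat_lit 266) (nat_lit 264) (nat_lit 190)))) (XT.nd (nat_lit 78) (nat_lit 0) (nat_lit 76) (XT.lf (nat_lit 0) (nat_lit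 728604476) (nat_lit 1064) (nat_lit 7216588493) (nat_lit 1140) (nat_lit 6581363595) (nat_lit 142) (nat_lit 5) (nat_lit 156) (nat_lit 5) (nat_lit 157) (nat_lit 5) (nat_lit 267) (nat_lit 264) (nat_lit 189)) (XT.nd (nat_lit 78) (nat_lit 0) (nat_lit 0) (XT.lf (nat_lit 0) (nat_lit 1655559737) (nat_lit 1064) (nat_lit 11963304344) (nat_lit 1140) (nat_lit 1268863060) (nat_lit 143) (nat_lit 5) (nat_lit 157) (nat_lit 5) (nat_lit 158) (nat_lit 5) (nat_lit 268) (nat_lit 264) (nat_lit 188)) (XT.lf (nat_lit 0) (nat_lit 2753732386) (nat_lit 1064) (nat_lit 1642344732) (nat_lit 1140) (nat_lit 10867214336) (nat_lit 143) (nat_lit 5) (nat_lit 157) (nat_lit 5) (nat_lit 158) (nat_lit 5) (nat_lit 269) (nat_lit 264) (nat_lit 187))))))) (XT.nd (nat_lit 858) (nat_lit 3344) (nat_lit 0) (XT.nd (nat_lit 390) (nat_lit 2584) (nat_lit 0) (XT.nd (nat_lit 156) (nat_lit 0) (nat_lit 76) (XT.nd (nat_lit 78) (nat_lit 0) (nat_lit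 0) (XT.lf (nat_lit 0) (nat_lit 4019684528) (nat_lit 1064) (nat_lit 6349446980) (nat_lit 1140) (nat_lit 5285193775) (nat_lit 144) (nat_lit 5) (nat_lit 158) (nat_lit 5) (nat_lit 159) (nat_lit 5) (nat_lit 270) (nat_lit 264) (nat_lit 186)) (XT.lf (nat_lit 76) (nat_lit 4799011338) (nat_lit 0) (nat_lit 629883811) (nat_lit 1140) (nat_lit 10633690564) (nat_lit 145) (nat_lit 5) (nat_lit 144) (nat_lit 5) (nat_lit 159) (nat_lit 5) (nat_lit 271) (nat_lit 264) (nat_lit 185))) (XT.nd (nat_lit 78) (nat_lit 0) (nat_lit 76) (XT.lf (nat_lit 76) (nat_lit 36238496) (nat_lit 0) (nat_lit 7004522155) (nat_lit 1140) (nat_lit 9446602912) (nat_lit 146) (nat_lit 5) (nat_lit 145) (nat_lit 5) (nat_lit 160) (nat_lit 5) (nat_lit 272) (nat_lit 264) (nat_lit 184)) (XT.nd (nat_lit 78) (nat_lit 0) (nat_lit 0) (XT.lf (nat_lit 0) (nat_lit 8861660926) (nat_lit 1064) (nat_lit 4851426499) (nat_lit 1140) (nat_lit 3216506517) (nat_lit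 146) (nat_lit 5) (nat_lit 160) (nat_lit 5) (nat_lit 161) (nat_lit 5) (nat_lit 273) (nat_lit 264) (nat_lit 183)) (XT.lf (nat_lit 76) (nat_lit 7382405708) (nat_lit 0) (nat_lit 3508788270) (nat_lit 1140) (nat_lit 6499277926) (nat_lit 147) (nat_lit 5) (nat_lit 146) (nat_lit 5) (nat_lit 161) (nat_lit 5) (nat_lit 274) (nat_lit 264) (nat_lit 182))))) (XT.nd (nat_lit 234) (nat_lit 1140) (nat_lit 0) (XT.nd (nat_lit 78) (nat_lit 608) (nat_lit 0) (XT.lf (nat_lit 0) (nat_lit 2414309840) (nat_lit 1064) (nat_lit 10727738167) (nat_lit 1140) (nat_lit 4728811093) (nat_lit 133) (nat_lit 5) (nat_lit 147) (nat_lit 5) (nat_lit 148) (nat_lit 5) (nat_lit 275) (nat_lit 264) (nat_lit 181)) (XT.nd (nat_lit 78) (nat_lit 608) (nat_lit 0) (XT.lf (nat_lit 0) (nat_lit 15611925388) (nat_lit 1064) (nat_lit 9463104) (nat_lit 1140) (nat_lit 2750456626) (nat_lit 133) (nat_lit 5) (nat_lit 147) (nat_lit 5) (nat_lit 148) (nat_lit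 5) (nat_lit 276) (nat_lit 264) (nat_lit 180)) (XT.lf (nat_lit 0) (nat_lit 10652604565) (nat_lit 608) (nat_lit 7761518103) (nat_lit 684) (nat_lit 478129994) (nat_lit 125) (nat_lit 5) (nat_lit 133) (nat_lit 5) (nat_lit 134) (nat_lit 5) (nat_lit 277) (nat_lit 264) (nat_lit 179)))) (XT.nd (nat_lit 78) (nat_lit 532) (nat_lit 0) (XT.lf (nat_lit 0) (nat_lit 1964602258) (nat_lit 608) (nat_lit 14045855209) (nat_lit 76) (nat_lit 3424903293) (nat_lit 117) (nat_lit 5) (nat_lit 125) (nat_lit 5) (nat_lit 118) (nat_lit 5) (nat_lit 278) (nat_lit 264) (nat_lit 178)) (XT.nd (nat_lit 78) (nat_lit 532) (nat_lit 0) (XT.lf (nat_lit 0) (nat_lit 4664002622) (nat_lit 608) (nat_lit 233541238) (nat_lit 76) (nat_lit 15103654240) (nat_lit 117) (nat_lit 5) (nat_lit 125) (nat_lit 5) (nat_lit 118) (nat_lit 5) (nat_lit 279) (nat_lit 264) (nat_lit 177)) (XT.lf (nat_lit 0) (nat_lit 7685838832) (nat_lit 608) (nat_lit 6123066074)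 (nat_lit 76) (nat_lit 6780844576) (nat_lit 110) (nat_lit 5) (nat_lit 118) (nat_lit 5) (nat_lit 111) (nat_lit 5) (nat_lit 280) (nat_lit 264) (nat_lit 176)))))) (XT.nd (nat_lit 390) (nat_lit 1520) (nat_lit 0) (XT.nd (nat_lit 156) (nat_lit 912) (nat_lit 0) (XT.nd (nat_lit 78) (nat_lit 456) (nat_lit 0) (XT.lf (nat_lit 0) (nat_lit 8803532574) (nat_lit 456) (nat_lit 2173716944) (nat_lit 532) (nat_lit 10226968384) (nat_lit 104) (nat_lit 5) (nat_lit 110) (nat_lit 5) (nat_lit 111) (nat_lit 5) (nat_lit 281) (nat_lit 264) (nat_lit 175)) (XT.lf (nat_lit 0) (nat_lit 2694317289) (nat_lit 456) (nat_lit 11907696505) (nat_lit 532) (nat_lit 7242374315) (nat_lit 98) (nat_lit 5) (nat_lit 104) (nat_lit 5) (nat_lit 105) (nat_lit 5) (nat_lit 282) (nat_lit 264) (nat_lit 174))) (XT.nd (nat_lit 78) (nat_lit 912) (nat_lit 0) (XT.lf (nat_lit 0) (nat_lit 18542877922) (nat_lit 532) (nat_lit 3751407177) (nat_lit 76) (nat_lit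 218275741) (nat_lit 98) (nat_lit 5) (nat_lit 105) (nat_lit 5) (nat_lit 99) (nat_lit 5) (nat_lit 283) (nat_lit 264) (nat_lit 173)) (XT.nd (nat_lit 78) (nat_lit 532) (nat_lit 0) (XT.lf (nat_lit 0) (nat_lit 12524247657) (nat_lit 380) (nat_lit 10381244133) (nat_lit 456) (nat_lit 301947190) (nat_lit 93) (nat_lit 5) (nat_lit 98) (nat_lit 5) (nat_lit 99) (nat_lit 5) (nat_lit 284) (nat_lit 264) (nat_lit 172)) (XT.lf (nat_lit 0) (nat_lit 3581096872) (nat_lit 532) (nat_lit 18137189921) (nat_lit 76) (nat_lit 2214750470) (nat_lit 86) (nat_lit 5) (nat_lit 93) (nat_lit 5) (nat_lit 87) (nat_lit 5) (nat_lit 285) (nat_lit 264) (nat_lit 171))))) (XT.nd (nat_lit 234) (nat_lit 760) (nat_lit 0) (XT.nd (nat_lit 78) (nat_lit 760) (nat_lit 0) (XT.lf (nat_lit 0) (nat_lit 7853049207) (nat_lit 532) (nat_lit 1495424175) (nat_lit 76) (nat_lit 15340355799) (nat_lit 86) (nat_lit 5) (nat_lit 93) (nat_lit 5) (nat_lit 87)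 (nat_lit 5) (nat_lit 286) (nat_lit 264) (nat_lit 170)) (XT.nd (nat_lit 78) (nat_lit 380) (nat_lit 0) (XT.lf (nat_lit 0) (nat_lit 12517419642) (nat_lit 456) (nat_lit 9234749896) (nat_lit 76) (nat_lit 3724908385) (nat_lit 81) (nat_lit 5) (nat_lit 87) (nat_lit 5) (nat_lit 82) (nat_lit 5) (nat_lit 287) (nat_lit 264) (nat_lit 169)) (XT.lf (nat_lit 0) (nat_lit 8652140998) (nat_lit 380) (nat_lit 8942254384) (nat_lit 456) (nat_lit 8704992440) (nat_lit 76) (nat_lit 5) (nat_lit 81) (nat_lit 5) (nat_lit 82) (nat_lit 5) (nat_lit 288) (nat_lit 264) (nat_lit 168)))) (XT.nd (nat_lit 78) (nat_lit 456) (nat_lit 0) (XT.lf (nat_lit 0) (nat_lit 414135620) (nat_lit 304) (nat_lit 22641196734) (nat_lit 380) (nat_lit 4103606370) (nat_lit 72) (nat_lit 5) (nat_lit 76) (nat_lit 5) (nat_lit 77) (nat_lit 5) (nat_lit 289) (nat_lit 264) (nat_lit 167)) (XT.nd (nat_lit 78) (nat_lit 380) (nat_lit 0) (XT.lf (nat_lit 0) (nat_lit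 974481385) (nat_lit 380) (nat_lit 8423592203) (nat_lit 76) (nat_lit 18655385331) (nat_lit 71) (nat_lit 5) (nat_lit 76) (nat_lit 5) (nat_lit 72) (nat_lit 5) (nat_lit 290) (nat_lit 264) (nat_lit 166)) (XT.lf (nat_lit 0) (nat_lit 6360339406) (nat_lit 456) (nat_lit 18062226109) (nat_lit 76) (nat_lit 4564784106) (nat_lit 66) (nat_lit 5) (nat_lit 72) (nat_lit 5) (nat_lit 67) (nat_lit 5) (nat_lit 291) (nat_lit 264) (nat_lit 165))))))))
noncomputable def xc94 : XT := (XT.nd (nat_lit 1638) (nat_lit 988) (nat_lit 0) (XT.nd (nat_lit 780) (nat_lit 1292) (nat_lit 0) (XT.nd (nat_lit 390) (nat_lit 836) (nat_lit 0) (XT.nd (nat_lit 156) (nat_lit 608) (nat_lit 0) (XT.nd (nat_lit 78) (nat_lit 0) (nat_lit 0) (XT.lf (nat_lit 0) (nat_lit 1367899532) (nat_lit 304) (nat_lit 10831315273) (nat_lit 380) (nat_lit 17763232542) (nat_lit 62) (nat_lit 5) (nat_lit 66) (nat_lit 5) (nat_lit 67) (nat_lit 5) (nat_lit 292) (nat_lit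 264) (nat_lit 164)) (XT.lf (nat_lit 0) (nat_lit 18539411835) (nat_lit 380) (nat_lit 8883597941) (nat_lit 76) (nat_lit 3557031914) (nat_lit 62) (nat_lit 5) (nat_lit 67) (nat_lit 5) (nat_lit 63) (nat_lit 5) (nat_lit 293) (nat_lit 264) (nat_lit 163))) (XT.nd (nat_lit 78) (nat_lit 304) (nat_lit 0) (XT.lf (nat_lit 0) (nat_lit 11921977642) (nat_lit 304) (nat_lit 13487650924) (nat_lit 380) (nat_lit 6632518859) (nat_lit 58) (nat_lit 5) (nat_lit 62) (nat_lit 5) (nat_lit 63) (nat_lit 5) (nat_lit 294) (nat_lit 264) (nat_lit 162)) (XT.nd (nat_lit 78) (nat_lit 76) (nat_lit 0) (XT.lf (nat_lit 0) (nat_lit 788195536) (nat_lit 228) (nat_lit 31935533304) (nat_lit 304) (nat_lit 430639349) (nat_lit 55) (nat_lit 5) (nat_lit 58) (nat_lit 5) (nat_lit 59) (nat_lit 5) (nat_lit 295) (nat_lit 264) (nat_lit 161)) (XT.lf (nat_lit 0) (nat_lit 6297660492) (nat_lit 304) (nat_lit 11364152794) (nat_lit 76) (nat_lit 16648602475)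 (nat_lit 54) (nat_lit 5) (nat_lit 58) (nat_lit 5) (nat_lit 55) (nat_lit 5) (nat_lit 296) (nat_lit 264) (nat_lit 160))))) (XT.nd (nat_lit 156) (nat_lit 532) (nat_lit 0) (XT.nd (nat_lit 78) (nat_lit 0) (nat_lit 0) (XT.lf (nat_lit 0) (nat_lit 10882691002) (nat_lit 304) (nat_lit 2565653705) (nat_lit 380) (nat_lit 22072965246) (nat_lit 50) (nat_lit 5) (nat_lit 54) (nat_lit 5) (nat_lit 55) (nat_lit 5) (nat_lit 297) (nat_lit 264) (nat_lit 159)) (XT.lf (nat_lit 0) (nat_lit 21192904083) (nat_lit 380) (nat_lit 2451928593) (nat_lit 76) (nat_lit 13140843500) (nat_lit 50) (nat_lit 5) (nat_lit 55) (nat_lit 5) (nat_lit 51) (nat_lit 5) (nat_lit 298) (nat_lit 264) (nat_lit 158))) (XT.nd (nat_lit 78) (nat_lit 304) (nat_lit 0) (XT.lf (nat_lit 0) (nat_lit 21219722503) (nat_lit 228) (nat_lit 8325786596) (nat_lit 304) (nat_lit 8561143792) (nat_lit 47) (nat_lit 5) (nat_lit 50) (nat_lit 5) (nat_lit 51) (nat_lit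 5) (nat_lit 299) (nat_lit 264) (nat_lit 157)) (XT.nd (nat_lit 78) (nat_lit 76) (nat_lit 0) (XT.lf (nat_lit 0) (nat_lit 6676278634) (nat_lit 228) (nat_lit 31794944632) (nat_lit 304) (nat_lit 1017806726) (nat_lit 44) (nat_lit 5) (nat_lit 47) (nat_lit 5) (nat_lit 48) (nat_lit 5) (nat_lit 300) (nat_lit 264) (nat_lit 156)) (XT.lf (nat_lit 0) (nat_lit 7019020825) (nat_lit 304) (nat_lit 9329149107) (nat_lit 76) (nat_lit 24582849542) (nat_lit 43) (nat_lit 5) (nat_lit 47) (nat_lit 5) (nat_lit 44) (nat_lit 5) (nat_lit 301) (nat_lit 264) (nat_lit 155)))))) (XT.nd (nat_lit 390) (nat_lit 608) (nat_lit 0) (XT.nd (nat_lit 156) (nat_lit 456) (nat_lit 0) (XT.nd (nat_lit 78) (nat_lit 0) (nat_lit 0) (XT.lf (nat_lit 0) (nat_lit 15579051122) (nat_lit 304) (nat_lit 26829558282) (nat_lit 76) (nat_lit 31938388) (nat_lit 40) (nat_lit 5) (nat_lit 44) (nat_lit 5) (nat_lit 41) (nat_lit 5) (nat_lit 302) (nat_lit 264)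 (nat_lit 154)) (XT.lf (nat_lit 0) (nat_lit 24821158437) (nat_lit 304) (nat_lit 2207104428) (nat_lit 76) (nat_lit 16989680745) (nat_lit 40) (nat_lit 5) (nat_lit 44) (nat_lit 5) (nat_lit 41) (nat_lit 5) (nat_lit 303) (nat_lit 264) (nat_lit 153))) (XT.nd (nat_lit 78) (nat_lit 228) (nat_lit 0) (XT.lf (nat_lit 0) (nat_lit 24105851813) (nat_lit 228) (nat_lit 10643699743) (nat_lit 304) (nat_lit 10917944962) (nat_lit 37) (nat_lit 5) (nat_lit 40) (nat_lit 5) (nat_lit 41) (nat_lit 5) (nat_lit 304) (nat_lit 264) (nat_lit 152)) (XT.nd (nat_lit 78) (nat_lit 76) (nat_lit 0) (XT.lf (nat_lit 0) (nat_lit 4393282144) (nat_lit 152) (nat_lit 40902001512) (nat_lit 228) (nat_lit 2100627945) (nat_lit 35) (nat_lit 5) (nat_lit 37) (nat_lit 5) (nat_lit 38) (nat_lit 5) (nat_lit 305) (nat_lit 264) (nat_lit 151)) (XT.lf (nat_lit 0) (nat_lit 7342319421) (nat_lit 228) (nat_lit 17296723908) (nat_lit 76) (nat_lit 24559918194)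 (nat_lit 34) (nat_lit 5) (nat_lit 37) (nat_lit 5) (nat_lit 35) (nat_lit 5) (nat_lit 306) (nat_lit 264) (nat_lit 150))))) (XT.nd (nat_lit 234) (nat_lit 228) (nat_lit 0) (XT.nd (nat_lit 78) (nat_lit 152) (nat_lit 0) (XT.lf (nat_lit 0) (nat_lit 9855363974) (nat_lit 228) (nat_lit 7446935155) (nat_lit 304) (nat_lit 33786601650) (nat_lit 31) (nat_lit 5) (nat_lit 34) (nat_lit 5) (nat_lit 35) (nat_lit 5) (nat_lit 307) (nat_lit 264) (nat_lit 149)) (XT.nd (nat_lit 78) (nat_lit 152) (nat_lit 0) (XT.lf (nat_lit 0) (nat_lit 28035421056) (nat_lit 304) (nat_lit 14455297754) (nat_lit 76) (nat_lit 10574374047) (nat_lit 31) (nat_lit 5) (nat_lit 35) (nat_lit 5) (nat_lit 32) (nat_lit 5) (nat_lit 308) (nat_lit 264) (nat_lit 148)) (XT.lf (nat_lit 0) (nat_lit 13847274232) (nat_lit 152) (nat_lit 25659898167) (nat_lit 228) (nat_lit 15626872610) (nat_lit 29) (nat_lit 5) (nat_lit 31) (nat_lit 5) (nat_lit 32) (nat_lit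 5) (nat_lit 309) (nat_lit 264) (nat_lit 147)))) (XT.nd (nat_lit 78) (nat_lit 228) (nat_lit 0) (XT.lf (nat_lit 0) (nat_lit 43857698448) (nat_lit 152) (nat_lit 7837528601) (nat_lit 228) (nat_lit 5606945459) (nat_lit 29) (nat_lit 5) (nat_lit 31) (nat_lit 5) (nat_lit 32) (nat_lit 5) (nat_lit 310) (nat_lit 264) (nat_lit 146)) (XT.nd (nat_lit 78) (nat_lit 0) (nat_lit 0) (XT.lf (nat_lit 0) (nat_lit 5072986333) (nat_lit 228) (nat_lit 43632554445) (nat_lit 76) (nat_lit 10864110103) (nat_lit 26) (nat_lit 5) (nat_lit 29) (nat_lit 5) (nat_lit 27) (nat_lit 5) (nat_lit 311) (nat_lit 264) (nat_lit 145)) (XT.lf (nat_lit 0) (nat_lit 16385208083) (nat_lit 228) (nat_lit 15023643569) (nat_lit 76) (nat_lit 30533566597) (nat_lit 26) (nat_lit 5) (nat_lit 29) (nat_lit 5) (nat_lit 27) (nat_lit 5) (nat_lit 312) (nat_lit 264) (nat_lit 144))))))) (XT.nd (nat_lit 858) (nat_lit 152) (nat_lit 0) (XT.nd (nat_lit 390) (nat_lit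 304) (nat_lit 0) (XT.nd (nat_lit 156) (nat_lit 380) (nat_lit 0) (XT.nd (nat_lit 78) (nat_lit 0) (nat_lit 0) (XT.lf (nat_lit 0) (nat_lit 15305891476) (nat_lit 152) (nat_lit 13098850741) (nat_lit 228) (nat_lit 36024838451) (nat_lit 24) (nat_lit 5) (nat_lit 26) (nat_lit 5) (nat_lit 27) (nat_lit 5) (nat_lit 313) (nat_lit 264) (nat_lit 143)) (XT.lf (nat_lit 0) (nat_lit 41235054592) (nat_lit 228) (nat_lit 19639419596) (nat_lit 76) (nat_lit 6160340333) (nat_lit 24) (nat_lit 5) (nat_lit 27) (nat_lit 5) (nat_lit 25) (nat_lit 5) (nat_lit 314) (nat_lit 264) (nat_lit 142))) (XT.nd (nat_lit 78) (nat_lit 228) (nat_lit 0) (XT.lf (nat_lit 0) (nat_lit 11401347408) (nat_lit 152) (nat_lit 43542315137) (nat_lit 228) (nat_lit 14819551129) (nat_lit 22) (nat_lit 5) (nat_lit 24) (nat_lit 5) (nat_lit 25) (nat_lit 5) (nat_lit 315) (nat_lit 264) (nat_lit 141)) (XT.nd (nat_lit 78) (nat_lit 228) (nat_lit 0) (XT.lf (nat_lit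 0) (nat_lit 44396800279) (nat_lit 152) (nat_lit 25138209256) (nat_lit 228) (nat_lit 3087110662) (nat_lit 22) (nat_lit 5) (nat_lit 24) (nat_lit 5) (nat_lit 25) (nat_lit 5) (nat_lit 316) (nat_lit 264) (nat_lit 140)) (XT.lf (nat_lit 0) (nat_lit 3387932857) (nat_lit 152) (nat_lit 5691754804) (nat_lit 228) (nat_lit 66540791727) (nat_lit 19) (nat_lit 5) (nat_lit 21) (nat_lit 5) (nat_lit 22) (nat_lit 5) (nat_lit 317) (nat_lit 264) (nat_lit 139))))) (XT.nd (nat_lit 234) (nat_lit 152) (nat_lit 0) (XT.nd (nat_lit 78) (nat_lit 152) (nat_lit 0) (XT.lf (nat_lit 0) (nat_lit 22222014169) (nat_lit 228) (nat_lit 41771355549) (nat_lit 76) (nat_lit 14761544700) (nat_lit 19) (nat_lit 5) (nat_lit 22) (nat_lit 5) (nat_lit 20) (nat_lit 5) (nat_lit 318) (nat_lit 264) (nat_lit 138)) (XT.nd (nat_lit 78) (nat_lit 152) (nat_lit 0) (XT.lf (nat_lit 0) (nat_lit 36074566457) (nat_lit 228) (nat_lit 9851590623) (nat_lit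 76) (nat_lit 36118326432) (nat_lit 19) (nat_lit 5) (nat_lit 22) (nat_lit 5) (nat_lit 20) (nat_lit 5) (nat_lit 319) (nat_lit 264) (nat_lit 137)) (XT.lf (nat_lit 0) (nat_lit 24128290164) (nat_lit 152) (nat_lit 26719259885) (nat_lit 228) (nat_lit 34644152231) (nat_lit 17) (nat_lit 5) (nat_lit 19) (nat_lit 5) (nat_lit 20) (nat_lit 5) (nat_lit 320) (nat_lit 264) (nat_lit 136)))) (XT.nd (nat_lit 78) (nat_lit 152) (nat_lit 0) (XT.lf (nat_lit 0) (nat_lit 60006524144) (nat_lit 152) (nat_lit 6450074106) (nat_lit 228) (nat_lit 22651766349) (nat_lit 17) (nat_lit 5) (nat_lit 19) (nat_lit 5) (nat_lit 20) (nat_lit 5) (nat_lit 321) (nat_lit 264) (nat_lit 135)) (XT.nd (nat_lit 78) (nat_lit 76) (nat_lit 0) (XT.lf (nat_lit 0) (nat_lit 4715959218) (nat_lit 76) (nat_lit 78314221453) (nat_lit 152) (nat_lit 9870161743) (nat_lit 16) (nat_lit 5) (nat_lit 17) (nat_lit 5) (nat_lit 18) (nat_lit 4) (nat_lit 322) (nat_lit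 264) (nat_lit 134)) (XT.lf (nat_lit 0) (nat_lit 3845137431) (nat_lit 152) (nat_lit 56148532880) (nat_lit 76) (nat_lit 36876312450) (nat_lit 15) (nat_lit 5) (nat_lit 17) (nat_lit 5) (nat_lit 16) (nat_lit 5) (nat_lit 323) (nat_lit 264) (nat_lit 133)))))) (XT.nd (nat_lit 33072) (nat_lit 0) (nat_lit 9728) (XT.nd (nat_lit 156) (nat_lit 0) (nat_lit 0) (XT.nd (nat_lit 78) (nat_lit 152) (nat_lit 0) (XT.lf (nat_lit 0) (nat_lit 18040399310) (nat_lit 152) (nat_lit 22616411755) (nat_lit 76) (nat_lit 60378416752) (nat_lit 15) (nat_lit 5) (nat_lit 17) (nat_lit 5) (nat_lit 16) (nat_lit 5) (nat_lit 324) (nat_lit 264) (nat_lit 132)) (XT.lf (nat_lit 0) (nat_lit 12837196534) (nat_lit 152) (nat_lit 20228226992) (nat_lit 228) (nat_lit 72339715676) (nat_lit 13) (nat_lit 5) (nat_lit 15) (nat_lit 5) (nat_lit 16) (nat_lit 5) (nat_lit 325) (nat_lit 264) (nat_lit 131))) (XT.nd (nat_lit 32760) (nat_lit 0) (nat_lit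 9728) (XT.lf (nat_lit 0) (nat_lit 49085253476) (nat_lit 228) (nat_lit 59470049124) (nat_lit 76) (nat_lit 1430940782) (nat_lit 13) (nat_lit 5) (nat_lit 16) (nat_lit 5) (nat_lit 14) (nat_lit 4) (nat_lit 326) (nat_lit 264) (nat_lit 130)) (XT.nd (nat_lit 78) (nat_lit 1064) (nat_lit 0) (XT.lf (nat_lit 0) (nat_lit 3458862522) (nat_lit 0) (nat_lit 3458862522) (nat_lit 988) (nat_lit 167762680) (nat_lit 155) (nat_lit 5) (nat_lit 155) (nat_lit 3) (nat_lit 168) (nat_lit 3) (nat_lit 265) (nat_lit 265) (nat_lit 190)) (XT.lf (nat_lit 0) (nat_lit 203717471) (nat_lit 1064) (nat_lit 12087940156) (nat_lit 1140) (nat_lit 2216130282) (nat_lit 141) (nat_lit 5) (nat_lit 155) (nat_lit 5) (nat_lit 156) (nat_lit 5) (nat_lit 266) (nat_lit 265) (nat_lit 189))))) (XT.nd (nat_lit 234) (nat_lit 0) (nat_lit 152) (XT.nd (nat_lit 78) (nat_lit 0) (nat_lit 76) (XT.lf (nat_lit 0) (nat_lit 876528347) (nat_lit 1064) (nat_lit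 2222875548) (nat_lit 1140) (nat_lit 11758616446) (nat_lit 141) (nat_lit 5) (nat_lit 155) (nat_lit 5) (nat_lit 156) (nat_lit 5) (nat_lit 267) (nat_lit 265) (nat_lit 188)) (XT.nd (nat_lit 78) (nat_lit 0) (nat_lit 76) (XT.lf (nat_lit 0) (nat_lit 1696237949) (nat_lit 1064) (nat_lit 7008298333) (nat_lit 1140) (nat_lit 6517911663) (nat_lit 142) (nat_lit 5) (nat_lit 156) (nat_lit 5) (nat_lit 157) (nat_lit 5) (nat_lit 268) (nat_lit 265) (nat_lit 187)) (XT.lf (nat_lit 0) (nat_lit 2627249654) (nat_lit 1064) (nat_lit 11976254951) (nat_lit 1140) (nat_lit 999560250) (nat_lit 143) (nat_lit 5) (nat_lit 157) (nat_lit 5) (nat_lit 158) (nat_lit 5) (nat_lit 269) (nat_lit 265) (nat_lit 186)))) (XT.nd (nat_lit 78) (nat_lit 0) (nat_lit 76) (XT.lf (nat_lit 0) (nat_lit 3738001797) (nat_lit 1064) (nat_lit 1167114720) (nat_lit 1140) (nat_lit 11093674136) (nat_lit 143) (nat_lit 5) (nat_lit 157) (nat_lit 5) (nat_lit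 158) (nat_lit 5) (nat_lit 270) (nat_lit 265) (nat_lit 185)) (XT.nd (nat_lit 78) (nat_lit 0) (nat_lit 0) (XT.lf (nat_lit 0) (nat_lit 5029545680) (nat_lit 1064) (nat_lit 6096447843) (nat_lit 1140) (nat_lit 5284621820) (nat_lit 144) (nat_lit 5) (nat_lit 158) (nat_lit 5) (nat_lit 159) (nat_lit 5) (nat_lit 271) (nat_lit 265) (nat_lit 184)) (XT.lf (nat_lit 76) (nat_lit 5593080940) (nat_lit 0) (nat_lit 882944475) (nat_lit 1140) (nat_lit 10364361976) (nat_lit 145) (nat_lit 5) (nat_lit 144) (nat_lit 5) (nat_lit 159) (nat_lit 5) (nat_lit 272) (nat_lit 265) (nat_lit 183))))))))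
noncomputable def xc95 : XT := (XT.nd (nat_lit 1638) (nat_lit 2888) (nat_lit 0) (XT.nd (nat_lit 780) (nat_lit 3192) (nat_lit 0) (XT.nd (nat_lit 390) (nat_lit 2204) (nat_lit 0) (XT.nd (nat_lit 156) (nat_lit 912) (nat_lit 0) (XT.nd (nat_lit 78) (nat_lit 0) (nat_lit 76) (XT.lf (nat_lit 76) (nat_lit 602956124) (nat_lit 0) (nat_lit 7531992470) (nat_lit 1140) (nat_lit 9152559561) (nat_lit 146) (nat_lit 5) (nat_lit 145) (nat_lit 5) (nat_lit 160) (nat_lit 5) (nat_lit 273) (nat_lit 265) (nat_lit 182)) (XT.lf (nat_lit 0) (nat_lit 10009930763) (nat_lit 1064) (nat_lit 4531299663) (nat_lit 1140) (nat_lit 3211821810) (nat_lit 146) (nat_lit 5) (nat_lit 160) (nat_lit 5) (nat_lit 161) (nat_lit 5) (nat_lit 274) (nat_lit 265) (nat_lit 181))) (XT.nd (nat_lit 78) (nat_lit 988) (nat_lit 0) (XT.lf (nat_lit 76) (nat_lit 8298094525) (nat_lit 0) (nat_lit 3814519571) (nat_lit 1140) (nat_lit 6125298640) (nat_lit 147)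 (nat_lit 5) (nat_lit 146) (nat_lit 5) (nat_lit 161) (nat_lit 5) (nat_lit 275) (nat_lit 265) (nat_lit 180)) (XT.nd (nat_lit 78) (nat_lit 0) (nat_lit 0) (XT.lf (nat_lit 0) (nat_lit 3088592896) (nat_lit 1064) (nat_lit 11359314906) (nat_lit 1140) (nat_lit 4295339196) (nat_lit 133) (nat_lit 5) (nat_lit 147) (nat_lit 5) (nat_lit 148) (nat_lit 5) (nat_lit 276) (nat_lit 265) (nat_lit 179)) (XT.lf (nat_lit 0) (nat_lit 16919728861) (nat_lit 1064) (nat_lit 100593241) (nat_lit 1140) (nat_lit 2249967599) (nat_lit 133) (nat_lit 5) (nat_lit 147) (nat_lit 5) (nat_lit 148) (nat_lit 5) (nat_lit 277) (nat_lit 265) (nat_lit 178))))) (XT.nd (nat_lit 156) (nat_lit 988) (nat_lit 0) (XT.nd (nat_lit 78) (nat_lit 532) (nat_lit 0) (XT.lf (nat_lit 0) (nat_lit 107864669) (nat_lit 684) (nat_lit 8100859543) (nat_lit 76) (nat_lit 11608792432) (nat_lit 124) (nat_lit 5) (nat_lit 133) (nat_lit 5) (nat_lit 125) (nat_lit 5)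 (nat_lit 278) (nat_lit 265) (nat_lit 177)) (XT.lf (nat_lit 0) (nat_lit 2639012756) (nat_lit 608) (nat_lit 14198688851) (nat_lit 76) (nat_lit 3550722457) (nat_lit 117) (nat_lit 5) (nat_lit 125) (nat_lit 5) (nat_lit 118) (nat_lit 5) (nat_lit 279) (nat_lit 265) (nat_lit 176))) (XT.nd (nat_lit 78) (nat_lit 456) (nat_lit 0) (XT.lf (nat_lit 0) (nat_lit 283610358) (nat_lit 532) (nat_lit 5165061856) (nat_lit 608) (nat_lit 15534689973) (nat_lit 110) (nat_lit 5) (nat_lit 117) (nat_lit 5) (nat_lit 118) (nat_lit 5) (nat_lit 280) (nat_lit 265) (nat_lit 175)) (XT.nd (nat_lit 78) (nat_lit 456) (nat_lit 0) (XT.lf (nat_lit 0) (nat_lit 8597444800) (nat_lit 608) (nat_lit 5903628177) (nat_lit 76) (nat_lit 7101057191) (nat_lit 110) (nat_lit 5) (nat_lit 118) (nat_lit 5) (nat_lit 111) (nat_lit 5) (nat_lit 281) (nat_lit 265) (nat_lit 174)) (XT.lf (nat_lit 0) (nat_lit 9754234438) (nat_lit 456) (nat_lit 2278988872)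 (nat_lit 532) (nat_lit 10214766084) (nat_lit 104) (nat_lit 5) (nat_lit 110) (nat_lit 5) (nat_lit 111) (nat_lit 5) (nat_lit 282) (nat_lit 265) (nat_lit 173)))))) (XT.nd (nat_lit 390) (nat_lit 1824) (nat_lit 0) (XT.nd (nat_lit 156) (nat_lit 912) (nat_lit 0) (XT.nd (nat_lit 78) (nat_lit 0) (nat_lit 0) (XT.lf (nat_lit 0) (nat_lit 3340860580) (nat_lit 456) (nat_lit 12479168313) (nat_lit 532) (nat_lit 7100773508) (nat_lit 98) (nat_lit 5) (nat_lit 104) (nat_lit 5) (nat_lit 105) (nat_lit 5) (nat_lit 283) (nat_lit 265) (nat_lit 172)) (XT.lf (nat_lit 0) (nat_lit 19934921129) (nat_lit 532) (nat_lit 3436689276) (nat_lit 76) (nat_lit 251519422) (nat_lit 98) (nat_lit 5) (nat_lit 105) (nat_lit 5) (nat_lit 99) (nat_lit 5) (nat_lit 284) (nat_lit 265) (nat_lit 171))) (XT.nd (nat_lit 78) (nat_lit 456) (nat_lit 0) (XT.lf (nat_lit 0) (nat_lit 142061941) (nat_lit 456) (nat_lit 10716370731) (nat_lit 76) (nat_lit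 13494853819) (nat_lit 92) (nat_lit 5) (nat_lit 98) (nat_lit 5) (nat_lit 93) (nat_lit 5) (nat_lit 285) (nat_lit 265) (nat_lit 170)) (XT.nd (nat_lit 78) (nat_lit 0) (nat_lit 0) (XT.lf (nat_lit 0) (nat_lit 4196611263) (nat_lit 532) (nat_lit 18546788788) (nat_lit 76) (nat_lit 2372215981) (nat_lit 86) (nat_lit 5) (nat_lit 93) (nat_lit 5) (nat_lit 87) (nat_lit 5) (nat_lit 286) (nat_lit 265) (nat_lit 169)) (XT.lf (nat_lit 0) (nat_lit 8661377428) (nat_lit 532) (nat_lit 1096613832) (nat_lit 76) (nat_lit 16151876434) (nat_lit 86) (nat_lit 5) (nat_lit 93) (nat_lit 5) (nat_lit 87) (nat_lit 5) (nat_lit 287) (nat_lit 265) (nat_lit 168))))) (XT.nd (nat_lit 234) (nat_lit 760) (nat_lit 0) (XT.nd (nat_lit 78) (nat_lit 684) (nat_lit 0) (XT.lf (nat_lit 0) (nat_lit 13544168064) (nat_lit 456) (nat_lit 9224157493) (nat_lit 76) (nat_lit 3969691677) (nat_lit 81) (nat_lit 5) (nat_lit 87) (nat_lit 5) (nat_lit 82)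 (nat_lit 5) (nat_lit 288) (nat_lit 265) (nat_lit 167)) (XT.nd (nat_lit 78) (nat_lit 304) (nat_lit 0) (XT.lf (nat_lit 0) (nat_lit 9543538703) (nat_lit 380) (nat_lit 9316774663) (nat_lit 456) (nat_lit 8741611939) (nat_lit 76) (nat_lit 5) (nat_lit 81) (nat_lit 5) (nat_lit 82) (nat_lit 5) (nat_lit 289) (nat_lit 265) (nat_lit 166)) (XT.lf (nat_lit 0) (nat_lit 891879664) (nat_lit 304) (nat_lit 23689085027) (nat_lit 380) (nat_lit 3923929319) (nat_lit 72) (nat_lit 5) (nat_lit 76) (nat_lit 5) (nat_lit 77) (nat_lit 5) (nat_lit 290) (nat_lit 265) (nat_lit 165)))) (XT.nd (nat_lit 78) (nat_lit 684) (nat_lit 0) (XT.lf (nat_lit 0) (nat_lit 1382583946) (nat_lit 380) (nat_lit 8401600929) (nat_lit 76) (nat_lit 19660420672) (nat_lit 71) (nat_lit 5) (nat_lit 76) (nat_lit 5) (nat_lit 72) (nat_lit 5) (nat_lit 291) (nat_lit 265) (nat_lit 164)) (XT.nd (nat_lit 78) (nat_lit 304) (nat_lit 0) (XT.lf (nat_lit 0) (nat_lit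 7025567601) (nat_lit 456) (nat_lit 18524576429) (nat_lit 76) (nat_lit 4875447247) (nat_lit 66) (nat_lit 5) (nat_lit 72) (nat_lit 5) (nat_lit 67) (nat_lit 5) (nat_lit 292) (nat_lit 265) (nat_lit 163)) (XT.lf (nat_lit 0) (nat_lit 1864421170) (nat_lit 304) (nat_lit 11279547148) (nat_lit 380) (nat_lit 18305881909) (nat_lit 62) (nat_lit 5) (nat_lit 66) (nat_lit 5) (nat_lit 67) (nat_lit 5) (nat_lit 293) (nat_lit 265) (nat_lit 162))))))) (XT.nd (nat_lit 858) (nat_lit 1216) (nat_lit 0) (XT.nd (nat_lit 390) (nat_lit 760) (nat_lit 0) (XT.nd (nat_lit 156) (nat_lit 608) (nat_lit 0) (XT.nd (nat_lit 78) (nat_lit 304) (nat_lit 0) (XT.lf (nat_lit 0) (nat_lit 19786087146) (nat_lit 380) (nat_lit 8910683585) (nat_lit 76) (nat_lit 3822038375) (nat_lit 62) (nat_lit 5) (nat_lit 67) (nat_lit 5) (nat_lit 63) (nat_lit 5) (nat_lit 294) (nat_lit 265) (nat_lit 161)) (XT.lf (nat_lit 0) (nat_lit 12923214854) (nat_lit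 304) (nat_lit 14065270262) (nat_lit 380) (nat_lit 6645905543) (nat_lit 58) (nat_lit 5) (nat_lit 62) (nat_lit 5) (nat_lit 63) (nat_lit 5) (nat_lit 295) (nat_lit 265) (nat_lit 160))) (XT.nd (nat_lit 78) (nat_lit 380) (nat_lit 0) (XT.lf (nat_lit 0) (nat_lit 1229808333) (nat_lit 228) (nat_lit 33428549618) (nat_lit 304) (nat_lit 144191670) (nat_lit 55) (nat_lit 5) (nat_lit 58) (nat_lit 5) (nat_lit 59) (nat_lit 5) (nat_lit 296) (nat_lit 265) (nat_lit 159)) (XT.nd (nat_lit 78) (nat_lit 304) (nat_lit 0) (XT.lf (nat_lit 0) (nat_lit 6900133854) (nat_lit 304) (nat_lit 11543046615) (nat_lit 76) (nat_lit 17573588657) (nat_lit 54) (nat_lit 5) (nat_lit 58) (nat_lit 5) (nat_lit 55) (nat_lit 5) (nat_lit 297) (nat_lit 265) (nat_lit 158)) (XT.lf (nat_lit 0) (nat_lit 11804979769) (nat_lit 304) (nat_lit 2593312783) (nat_lit 380) (nat_lit 22890242970) (nat_lit 50) (nat_lit 5) (nat_lit 54) (nat_lit 5) (nat_lit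 55) (nat_lit 5) (nat_lit 298) (nat_lit 265) (nat_lit 157))))) (XT.nd (nat_lit 234) (nat_lit 304) (nat_lit 0) (XT.nd (nat_lit 78) (nat_lit 456) (nat_lit 0) (XT.lf (nat_lit 0) (nat_lit 22517785349) (nat_lit 380) (nat_lit 2206880365) (nat_lit 76) (nat_lit 13891847654) (nat_lit 50) (nat_lit 5) (nat_lit 55) (nat_lit 5) (nat_lit 51) (nat_lit 5) (nat_lit 299) (nat_lit 265) (nat_lit 156)) (XT.nd (nat_lit 78) (nat_lit 228) (nat_lit 0) (XT.lf (nat_lit 0) (nat_lit 22637814825) (nat_lit 228) (nat_lit 8641008225) (nat_lit 304) (nat_lit 8725015107) (nat_lit 47) (nat_lit 5) (nat_lit 50) (nat_lit 5) (nat_lit 51) (nat_lit 5) (nat_lit 300) (nat_lit 265) (nat_lit 155)) (XT.lf (nat_lit 0) (nat_lit 7363932545) (nat_lit 228) (nat_lit 33279024659) (nat_lit 304) (nat_lit 812635082) (nat_lit 44) (nat_lit 5) (nat_lit 47) (nat_lit 5) (nat_lit 48) (nat_lit 5) (nat_lit 301) (nat_lit 265) (nat_lit 154)))) (XT.nd (nat_lit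 78) (nat_lit 228) (nat_lit 0) (XT.lf (nat_lit 0) (nat_lit 7609081665) (nat_lit 304) (nat_lit 9453446790) (nat_lit 76) (nat_lit 25907458136) (nat_lit 43) (nat_lit 5) (nat_lit 47) (nat_lit 5) (nat_lit 44) (nat_lit 5) (nat_lit 302) (nat_lit 265) (nat_lit 153)) (XT.nd (nat_lit 78) (nat_lit 0) (nat_lit 0) (XT.lf (nat_lit 0) (nat_lit 16589897106) (nat_lit 304) (nat_lit 27832340842) (nat_lit 76) (nat_lit 132989419) (nat_lit 40) (nat_lit 5) (nat_lit 44) (nat_lit 5) (nat_lit 41) (nat_lit 5) (nat_lit 303) (nat_lit 265) (nat_lit 152)) (XT.lf (nat_lit 0) (nat_lit 26283067242) (nat_lit 304) (nat_lit 1994892646) (nat_lit 76) (nat_lit 17933882984) (nat_lit 40) (nat_lit 5) (nat_lit 44) (nat_lit 5) (nat_lit 41) (nat_lit 5) (nat_lit 304) (nat_lit 265) (nat_lit 151)))))) (XT.nd (nat_lit 390) (nat_lit 532) (nat_lit 0) (XT.nd (nat_lit 156) (nat_lit 304) (nat_lit 0) (XT.nd (nat_lit 78) (nat_lit 152) (nat_lit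 0) (XT.lf (nat_lit 0) (nat_lit 25624465088) (nat_lit 228) (nat_lit 11075910051) (nat_lit 304) (nat_lit 11243741166) (nat_lit 37) (nat_lit 5) (nat_lit 40) (nat_lit 5) (nat_lit 41) (nat_lit 5) (nat_lit 305) (nat_lit 265) (nat_lit 150)) (XT.lf (nat_lit 0) (nat_lit 4922913598) (nat_lit 152) (nat_lit 42844215763) (nat_lit 228) (nat_lit 1992027604) (nat_lit 35) (nat_lit 5) (nat_lit 37) (nat_lit 5) (nat_lit 38) (nat_lit 5) (nat_lit 306) (nat_lit 265) (nat_lit 149))) (XT.nd (nat_lit 78) (nat_lit 228) (nat_lit 0) (XT.lf (nat_lit 0) (nat_lit 7908923976) (nat_lit 228) (nat_lit 17862070577) (nat_lit 76) (nat_lit 25881618073) (nat_lit 34) (nat_lit 5) (nat_lit 37) (nat_lit 5) (nat_lit 35) (nat_lit 5) (nat_lit 307) (nat_lit 265) (nat_lit 148)) (XT.nd (nat_lit 78) (nat_lit 0) (nat_lit 0) (XT.lf (nat_lit 0) (nat_lit 10639036893) (nat_lit 228) (nat_lit 7721162675) (nat_lit 304) (nat_lit 35277065242) (nat_lit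 31) (nat_lit 5) (nat_lit 34) (nat_lit 5) (nat_lit 35) (nat_lit 5) (nat_lit 308) (nat_lit 265) (nat_lit 147)) (XT.lf (nat_lit 0) (nat_lit 29621695598) (nat_lit 304) (nat_lit 14896117360) (nat_lit 76) (nat_lit 11194716157) (nat_lit 31) (nat_lit 5) (nat_lit 35) (nat_lit 5) (nat_lit 32) (nat_lit 5) (nat_lit 309) (nat_lit 265) (nat_lit 146))))) (XT.nd (nat_lit 234) (nat_lit 152) (nat_lit 0) (XT.nd (nat_lit 78) (nat_lit 228) (nat_lit 0) (XT.lf (nat_lit 0) (nat_lit 14813501321) (nat_lit 152) (nat_lit 26847379850) (nat_lit 228) (nat_lit 16224245794) (nat_lit 29) (nat_lit 5) (nat_lit 31) (nat_lit 5) (nat_lit 32) (nat_lit 5) (nat_lit 310) (nat_lit 265) (nat_lit 145)) (XT.nd (nat_lit 78) (nat_lit 228) (nat_lit 0) (XT.lf (nat_lit 0) (nat_lit 46311405634) (nat_lit 152) (nat_lit 8138440053) (nat_lit 228) (nat_lit 5712082783) (nat_lit 29) (nat_lit 5) (nat_lit 31) (nat_lit 5) (nat_lit 32) (nat_lit 5) (nat_lit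 311) (nat_lit 265) (nat_lit 144)) (XT.lf (nat_lit 0) (nat_lit 5493588772) (nat_lit 228) (nat_lit 45552926163) (nat_lit 76) (nat_lit 11496372317) (nat_lit 26) (nat_lit 5) (nat_lit 29) (nat_lit 5) (nat_lit 27) (nat_lit 5) (nat_lit 312) (nat_lit 265) (nat_lit 143)))) (XT.nd (nat_lit 78) (nat_lit 152) (nat_lit 0) (XT.lf (nat_lit 0) (nat_lit 17363471460) (nat_lit 228) (nat_lit 15526010505) (nat_lit 76) (nat_lit 32145060839) (nat_lit 26) (nat_lit 5) (nat_lit 29) (nat_lit 5) (nat_lit 27) (nat_lit 5) (nat_lit 313) (nat_lit 265) (nat_lit 142)) (XT.nd (nat_lit 78) (nat_lit 0) (nat_lit 0) (XT.lf (nat_lit 0) (nat_lit 16312869053) (nat_lit 152) (nat_lit 13665864884) (nat_lit 228) (nat_lit 37667497634) (nat_lit 24) (nat_lit 5) (nat_lit 26) (nat_lit 5) (nat_lit 27) (nat_lit 5) (nat_lit 314) (nat_lit 265) (nat_lit 141)) (XT.lf (nat_lit 0) (nat_lit 43444045255) (nat_lit 228) (nat_lit 20387423040) (nat_lit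 76) (nat_lit 6550464584) (nat_lit 24) (nat_lit 5) (nat_lit 27) (nat_lit 5) (nat_lit 25) (nat_lit 5) (nat_lit 315) (nat_lit 265) (nat_lit 140))))))))
noncomputable def xc96 : XT := (XT.nd (nat_lit 34398) (nat_lit 0) (nat_lit 3420) (XT.nd (nat_lit 780) (nat_lit 152) (nat_lit 0) (XT.nd (nat_lit 390) (nat_lit 304) (nat_lit 0) (XT.nd (nat_lit 156) (nat_lit 228) (nat_lit 0) (XT.nd (nat_lit 78) (nat_lit 0) (nat_lit 0) (XT.lf (nat_lit 0) (nat_lit 12198675682) (nat_lit 152) (nat_lit 45634581164) (nat_lit 228) (nat_lit 15413649718) (nat_lit 22) (nat_lit 5) (nat_lit 24) (nat_lit 5) (nat_lit 25) (nat_lit 5) (nat_lit 316) (nat_lit 265) (nat_lit 139)) (XT.lf (nat_lit 0) (nat_lit 46833079249) (nat_lit 152) (nat_lit 26314310452) (nat_lit 228) (nat_lit 3101581465) (nat_lit 22) (nat_lit 5) (nat_lit 24) (nat_lit 5) (nat_lit 25) (nat_lit 5) (nat_lit 317) (nat_lit 265) (nat_lit 138))) (XT.nd (nat_lit 78) (nat_lit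 0) (nat_lit 0) (XT.lf (nat_lit 0) (nat_lit 3770391234) (nat_lit 152) (nat_lit 5895952771) (nat_lit 228) (nat_lit 69731007071) (nat_lit 19) (nat_lit 5) (nat_lit 21) (nat_lit 5) (nat_lit 22) (nat_lit 5) (nat_lit 318) (nat_lit 265) (nat_lit 137)) (XT.nd (nat_lit 78) (nat_lit 0) (nat_lit 0) (XT.lf (nat_lit 0) (nat_lit 23460205084) (nat_lit 228) (nat_lit 43653788793) (nat_lit 76) (nat_lit 15574689629) (nat_lit 19) (nat_lit 5) (nat_lit 22) (nat_lit 5) (nat_lit 20) (nat_lit 5) (nat_lit 319) (nat_lit 265) (nat_lit 136)) (XT.lf (nat_lit 0) (nat_lit 37999333072) (nat_lit 228) (nat_lit 10147851550) (nat_lit 76) (nat_lit 37995735796) (nat_lit 19) (nat_lit 5) (nat_lit 22) (nat_lit 5) (nat_lit 20) (nat_lit 5) (nat_lit 320) (nat_lit 265) (nat_lit 135))))) (XT.nd (nat_lit 156) (nat_lit 152) (nat_lit 0) (XT.nd (nat_lit 78) (nat_lit 0) (nat_lit 0) (XT.lf (nat_lit 0) (nat_lit 25525395842) (nat_lit 152) (nat_lit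 27981639313) (nat_lit 228) (nat_lit 36255590325) (nat_lit 17) (nat_lit 5) (nat_lit 19) (nat_lit 5) (nat_lit 20) (nat_lit 5) (nat_lit 321) (nat_lit 265) (nat_lit 134)) (XT.lf (nat_lit 0) (nat_lit 63188460989) (nat_lit 152) (nat_lit 6702498224) (nat_lit 228) (nat_lit 23669336078) (nat_lit 17) (nat_lit 5) (nat_lit 19) (nat_lit 5) (nat_lit 20) (nat_lit 5) (nat_lit 322) (nat_lit 265) (nat_lit 133))) (XT.nd (nat_lit 78) (nat_lit 76) (nat_lit 0) (XT.lf (nat_lit 0) (nat_lit 5130895214) (nat_lit 76) (nat_lit 82159378094) (nat_lit 152) (nat_lit 10251693856) (nat_lit 16) (nat_lit 5) (nat_lit 17) (nat_lit 5) (nat_lit 18) (nat_lit 4) (nat_lit 323) (nat_lit 265) (nat_lit 132)) (XT.nd (nat_lit 78) (nat_lit 0) (nat_lit 0) (XT.lf (nat_lit 0) (nat_lit 4141957083) (nat_lit 152) (nat_lit 58783146167) (nat_lit 76) (nat_lit 38785117067) (nat_lit 15) (nat_lit 5) (nat_lit 17) (nat_lit 5) (nat_lit 16) (nat_lit 5)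 (nat_lit 324) (nat_lit 265) (nat_lit 131)) (XT.lf (nat_lit 0) (nat_lit 19042002875) (nat_lit 152) (nat_lit 23582648194) (nat_lit 76) (nat_lit 63459231869) (nat_lit 15) (nat_lit 5) (nat_lit 17) (nat_lit 5) (nat_lit 16) (nat_lit 5) (nat_lit 325) (nat_lit 265) (nat_lit 130)))))) (XT.nd (nat_lit 33150) (nat_lit 0) (nat_lit 9880) (XT.nd (nat_lit 32916) (nat_lit 0) (nat_lit 9728) (XT.nd (nat_lit 32838) (nat_lit 0) (nat_lit 9652) (XT.lf (nat_lit 0) (nat_lit 13638922738) (nat_lit 152) (nat_lit 21176150221) (nat_lit 228) (nat_lit 75857318749) (nat_lit 13) (nat_lit 5) (nat_lit 15) (nat_lit 5) (nat_lit 16) (nat_lit 5) (nat_lit 326) (nat_lit 265) (nat_lit 129)) (XT.lf (nat_lit 0) (nat_lit 315264024) (nat_lit 1140) (nat_lit 3554298438) (nat_lit 1140) (nat_lit 3554298438) (nat_lit 140) (nat_lit 3) (nat_lit 155) (nat_lit 3) (nat_lit 155) (nat_lit 5) (nat_lit 266) (nat_lit 266) (nat_lit 188))) (XT.nd (nat_lit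 78) (nat_lit 0) (nat_lit 0) (XT.lf (nat_lit 0) (nat_lit 1143814780) (nat_lit 1064) (nat_lit 12168052012) (nat_lit 1140) (nat_lit 1890912820) (nat_lit 141) (nat_lit 5) (nat_lit 155) (nat_lit 5) (nat_lit 156) (nat_lit 5) (nat_lit 267) (nat_lit 266) (nat_lit 187)) (XT.nd (nat_lit 78) (nat_lit 0) (nat_lit 76) (XT.lf (nat_lit 0) (nat_lit 1805984702) (nat_lit 1064) (nat_lit 1834700133) (nat_lit 1140) (nat_lit 11931286339) (nat_lit 141) (nat_lit 5) (nat_lit 155) (nat_lit 5) (nat_lit 156) (nat_lit 5) (nat_lit 268) (nat_lit 266) (nat_lit 186)) (XT.lf (nat_lit 0) (nat_lit 2625678644) (nat_lit 1064) (nat_lit 6842505010) (nat_lit 1140) (nat_lit 6487779934) (nat_lit 142) (nat_lit 5) (nat_lit 156) (nat_lit 5) (nat_lit 157) (nat_lit 5) (nat_lit 269) (nat_lit 266) (nat_lit 185))))) (XT.nd (nat_lit 234) (nat_lit 0) (nat_lit 76) (XT.nd (nat_lit 78) (nat_lit 0) (nat_lit 0) (XT.lf (nat_lit 0) (nat_lit 3564881462)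 (nat_lit 1064) (nat_lit 12044260795) (nat_lit 1140) (nat_lit 747727865) (nat_lit 143) (nat_lit 5) (nat_lit 157) (nat_lit 5) (nat_lit 158) (nat_lit 5) (nat_lit 270) (nat_lit 266) (nat_lit 184)) (XT.nd (nat_lit 78) (nat_lit 0) (nat_lit 76) (XT.lf (nat_lit 0) (nat_lit 4692777434) (nat_lit 1064) (nat_lit 719940072) (nat_lit 1140) (nat_lit 11360919369) (nat_lit 143) (nat_lit 5) (nat_lit 157) (nat_lit 5) (nat_lit 158) (nat_lit 5) (nat_lit 271) (nat_lit 266) (nat_lit 183)) (XT.lf (nat_lit 0) (nat_lit 6014698180) (nat_lit 1064) (nat_lit 5883835782) (nat_lit 1140) (nat_lit 5308642803) (nat_lit 144) (nat_lit 5) (nat_lit 158) (nat_lit 5) (nat_lit 159) (nat_lit 5) (nat_lit 272) (nat_lit 266) (nat_lit 182)))) (XT.nd (nat_lit 78) (nat_lit 0) (nat_lit 76) (XT.lf (nat_lit 76) (nat_lit 6375337286) (nat_lit 0) (nat_lit 1128059022) (nat_lit 1140) (nat_lit 10156037565) (nat_lit 145) (nat_lit 5) (nat_lit 144)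 (nat_lit 5) (nat_lit 159) (nat_lit 5) (nat_lit 273) (nat_lit 266) (nat_lit 181)) (XT.nd (nat_lit 78) (nat_lit 0) (nat_lit 76) (XT.lf (nat_lit 76) (nat_lit 1145490055) (nat_lit 0) (nat_lit 8069357814) (nat_lit 1140) (nat_lit 8915064186) (nat_lit 146) (nat_lit 5) (nat_lit 145) (nat_lit 5) (nat_lit 160) (nat_lit 5) (nat_lit 274) (nat_lit 266) (nat_lit 180)) (XT.lf (nat_lit 0) (nat_lit 11150052508) (nat_lit 1064) (nat_lit 4247480827) (nat_lit 1140) (nat_lit 3222290422) (nat_lit 146) (nat_lit 5) (nat_lit 160) (nat_lit 5) (nat_lit 161) (nat_lit 5) (nat_lit 275) (nat_lit 266) (nat_lit 179))))))) (XT.nd (nat_lit 780) (nat_lit 3040) (nat_lit 0) (XT.nd (nat_lit 390) (nat_lit 1444) (nat_lit 0) (XT.nd (nat_lit 156) (nat_lit 1216) (nat_lit 0) (XT.nd (nat_lit 78) (nat_lit 988) (nat_lit 0) (XT.lf (nat_lit 76) (nat_lit 9208753021) (nat_lit 0) (nat_lit 4123424132) (nat_lit 1140) (nat_lit 5797601502) (nat_lit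 147) (nat_lit 5) (nat_lit 146) (nat_lit 5) (nat_lit 161) (nat_lit 5) (nat_lit 276) (nat_lit 266) (nat_lit 178)) (XT.lf (nat_lit 0) (nat_lit 3745124640) (nat_lit 1064) (nat_lit 12013620634) (nat_lit 1140) (nat_lit 3902475814) (nat_lit 133) (nat_lit 5) (nat_lit 147) (nat_lit 5) (nat_lit 148) (nat_lit 5) (nat_lit 277) (nat_lit 266) (nat_lit 177))) (XT.nd (nat_lit 78) (nat_lit 1216) (nat_lit 0) (XT.lf (nat_lit 0) (nat_lit 18243907780) (nat_lit 1064) (nat_lit 187851457) (nat_lit 1140) (nat_lit 1783770415) (nat_lit 133) (nat_lit 5) (nat_lit 147) (nat_lit 5) (nat_lit 148) (nat_lit 5) (nat_lit 278) (nat_lit 266) (nat_lit 176)) (XT.nd (nat_lit 78) (nat_lit 532) (nat_lit 0) (XT.lf (nat_lit 0) (nat_lit 657570485) (nat_lit 684) (nat_lit 8010714241) (nat_lit 76) (nat_lit 12122426636) (nat_lit 124) (nat_lit 5) (nat_lit 133) (nat_lit 5) (nat_lit 125) (nat_lit 5) (nat_lit 279) (nat_lit 266) (nat_lit 175))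 (XT.lf (nat_lit 0) (nat_lit 3293575989) (nat_lit 608) (nat_lit 14410247675) (nat_lit 76) (nat_lit 3687055858) (nat_lit 117) (nat_lit 5) (nat_lit 125) (nat_lit 5) (nat_lit 118) (nat_lit 5) (nat_lit 280) (nat_lit 266) (nat_lit 174))))) (XT.nd (nat_lit 156) (nat_lit 912) (nat_lit 0) (XT.nd (nat_lit 78) (nat_lit 0) (nat_lit 0) (XT.lf (nat_lit 0) (nat_lit 781880657) (nat_lit 532) (nat_lit 5441604815) (nat_lit 608) (nat_lit 15792747370) (nat_lit 110) (nat_lit 5) (nat_lit 117) (nat_lit 5) (nat_lit 118) (nat_lit 5) (nat_lit 281) (nat_lit 266) (nat_lit 173)) (XT.lf (nat_lit 0) (nat_lit 9505606406) (nat_lit 608) (nat_lit 5722082873) (nat_lit 76) (nat_lit 7439031036) (nat_lit 110) (nat_lit 5) (nat_lit 118) (nat_lit 5) (nat_lit 111) (nat_lit 5) (nat_lit 282) (nat_lit 266) (nat_lit 172))) (XT.nd (nat_lit 78) (nat_lit 456) (nat_lit 0) (XT.lf (nat_lit 0) (nat_lit 10705007597) (nat_lit 456) (nat_lit 2389841790)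 (nat_lit 532) (nat_lit 10250628452) (nat_lit 104) (nat_lit 5) (nat_lit 110) (nat_lit 5) (nat_lit 111) (nat_lit 5) (nat_lit 283) (nat_lit 266) (nat_lit 171)) (XT.nd (nat_lit 78) (nat_lit 0) (nat_lit 0) (XT.lf (nat_lit 0) (nat_lit 3972146173) (nat_lit 456) (nat_lit 13081436918) (nat_lit 532) (nat_lit 6998923728) (nat_lit 98) (nat_lit 5) (nat_lit 104) (nat_lit 5) (nat_lit 105) (nat_lit 5) (nat_lit 284) (nat_lit 266) (nat_lit 170)) (XT.lf (nat_lit 0) (nat_lit 21353344565) (nat_lit 532) (nat_lit 3152933482) (nat_lit 76) (nat_lit 284349264) (nat_lit 98) (nat_lit 5) (nat_lit 105) (nat_lit 5) (nat_lit 99) (nat_lit 5) (nat_lit 285) (nat_lit 266) (nat_lit 169)))))) (XT.nd (nat_lit 390) (nat_lit 1368) (nat_lit 0) (XT.nd (nat_lit 156) (nat_lit 760) (nat_lit 0) (XT.nd (nat_lit 78) (nat_lit 456) (nat_lit 0) (XT.lf (nat_lit 0) (nat_lit 559976658) (nat_lit 456) (nat_lit 10800549782) (nat_lit 76) (nat_lit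 14197167353) (nat_lit 92) (nat_lit 5) (nat_lit 98) (nat_lit 5) (nat_lit 93) (nat_lit 5) (nat_lit 286) (nat_lit 266) (nat_lit 168)) (XT.lf (nat_lit 0) (nat_lit 4802323503) (nat_lit 532) (nat_lit 19023098179) (nat_lit 76) (nat_lit 2533210442) (nat_lit 86) (nat_lit 5) (nat_lit 93) (nat_lit 5) (nat_lit 87) (nat_lit 5) (nat_lit 287) (nat_lit 266) (nat_lit 167))) (XT.nd (nat_lit 78) (nat_lit 760) (nat_lit 0) (XT.lf (nat_lit 0) (nat_lit 9471476468) (nat_lit 532) (nat_lit 721892097) (nat_lit 76) (nat_lit 16999835648) (nat_lit 86) (nat_lit 5) (nat_lit 93) (nat_lit 5) (nat_lit 87) (nat_lit 5) (nat_lit 288) (nat_lit 266) (nat_lit 166)) (XT.nd (nat_lit 78) (nat_lit 380) (nat_lit 0) (XT.lf (nat_lit 0) (nat_lit 14584984123) (nat_lit 456) (nat_lit 9256948228) (nat_lit 76) (nat_lit 4221271838) (nat_lit 81) (nat_lit 5) (nat_lit 87) (nat_lit 5) (nat_lit 82) (nat_lit 5) (nat_lit 289) (nat_lit 266) (nat_lit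 165)) (XT.lf (nat_lit 0) (nat_lit 10436852287) (nat_lit 380) (nat_lit 9716769913) (nat_lit 456) (nat_lit 8817123262) (nat_lit 76) (nat_lit 5) (nat_lit 81) (nat_lit 5) (nat_lit 82) (nat_lit 5) (nat_lit 290) (nat_lit 266) (nat_lit 164))))) (XT.nd (nat_lit 234) (nat_lit 608) (nat_lit 0) (XT.nd (nat_lit 78) (nat_lit 456) (nat_lit 0) (XT.lf (nat_lit 0) (nat_lit 1351019918) (nat_lit 304) (nat_lit 24797193207) (nat_lit 380) (nat_lit 3771048806) (nat_lit 72) (nat_lit 5) (nat_lit 76) (nat_lit 5) (nat_lit 77) (nat_lit 5) (nat_lit 291) (nat_lit 266) (nat_lit 163)) (XT.nd (nat_lit 78) (nat_lit 380) (nat_lit 0) (XT.lf (nat_lit 0) (nat_lit 1777680029) (nat_lit 380) (nat_lit 8419711919) (nat_lit 76) (nat_lit 20708989166) (nat_lit 71) (nat_lit 5) (nat_lit 76) (nat_lit 5) (nat_lit 72) (nat_lit 5) (nat_lit 292) (nat_lit 266) (nat_lit 162)) (XT.lf (nat_lit 0) (nat_lit 7691776797) (nat_lit 456) (nat_lit 19051022043)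 (nat_lit 76) (nat_lit 5193980548) (nat_lit 66) (nat_lit 5) (nat_lit 72) (nat_lit 5) (nat_lit 67) (nat_lit 5) (nat_lit 293) (nat_lit 266) (nat_lit 161)))) (XT.nd (nat_lit 78) (nat_lit 304) (nat_lit 0) (XT.lf (nat_lit 0) (nat_lit 2345965730) (nat_lit 304) (nat_lit 11758867917) (nat_lit 380) (nat_lit 18907786201) (nat_lit 62) (nat_lit 5) (nat_lit 66) (nat_lit 5) (nat_lit 67) (nat_lit 5) (nat_lit 294) (nat_lit 266) (nat_lit 160)) (XT.nd (nat_lit 78) (nat_lit 304) (nat_lit 0) (XT.lf (nat_lit 0) (nat_lit 21065373107) (nat_lit 380) (nat_lit 8977900982) (nat_lit 76) (nat_lit 4092192326) (nat_lit 62) (nat_lit 5) (nat_lit 67) (nat_lit 5) (nat_lit 63) (nat_lit 5) (nat_lit 295) (nat_lit 266) (nat_lit 159)) (XT.lf (nat_lit 0) (nat_lit 13936848005) (nat_lit 304) (nat_lit 14680766693) (nat_lit 380) (nat_lit 6689548431) (nat_lit 58) (nat_lit 5) (nat_lit 62) (nat_lit 5) (nat_lit 63) (nat_lit 5) (nat_lit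 296) (nat_lit 266) (nat_lit 158))))))))
noncomputable def xc97 : XT := (XT.nd (nat_lit 1638) (nat_lit 532) (nat_lit 0) (XT.nd (nat_lit 780) (nat_lit 1140) (nat_lit 0) (XT.nd (nat_lit 390) (nat_lit 760) (nat_lit 0) (XT.nd (nat_lit 156) (nat_lit 532) (nat_lit 0) (XT.nd (nat_lit 78) (nat_lit 0) (nat_lit 0) (XT.lf (nat_lit 0) (nat_lit 125448689) (nat_lit 304) (nat_lit 34879147926) (nat_lit 76) (nat_lit 1529393269) (nat_lit 54) (nat_lit 5) (nat_lit 58) (nat_lit 5) (nat_lit 55) (nat_lit 5) (nat_lit 297) (nat_lit 266) (nat_lit 157)) (XT.lf (nat_lit 0) (nat_lit 7505993461) (nat_lit 304) (nat_lit 11767079836) (nat_lit 76) (nat_lit 18536219164) (nat_lit 54) (nat_lit 5) (nat_lit 58) (nat_lit 5) (nat_lit 55) (nat_lit 5) (nat_lit 298) (nat_lit 266) (nat_lit 156))) (XT.nd (nat_lit 78) (nat_lit 228) (nat_lit 0) (XT.lf (nat_lit 0) (nat_lit 12738225779) (nat_lit 304) (nat_lit 2631709845) (nat_lit 380) (nat_lit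 23775008597) (nat_lit 50) (nat_lit 5) (nat_lit 54) (nat_lit 5) (nat_lit 55) (nat_lit 5) (nat_lit 299) (nat_lit 266) (nat_lit 155)) (XT.nd (nat_lit 78) (nat_lit 228) (nat_lit 0) (XT.lf (nat_lit 0) (nat_lit 23884251543) (nat_lit 380) (nat_lit 1983759842) (nat_lit 76) (nat_lit 14671666321) (nat_lit 50) (nat_lit 5) (nat_lit 55) (nat_lit 5) (nat_lit 51) (nat_lit 5) (nat_lit 300) (nat_lit 266) (nat_lit 154)) (XT.lf (nat_lit 0) (nat_lit 24093611415) (nat_lit 228) (nat_lit 8981387253) (nat_lit 304) (nat_lit 8921641486) (nat_lit 47) (nat_lit 5) (nat_lit 50) (nat_lit 5) (nat_lit 51) (nat_lit 5) (nat_lit 301) (nat_lit 266) (nat_lit 153))))) (XT.nd (nat_lit 156) (nat_lit 456) (nat_lit 0) (XT.nd (nat_lit 78) (nat_lit 76) (nat_lit 0) (XT.lf (nat_lit 0) (nat_lit 8053072464) (nat_lit 228) (nat_lit 34847132623) (nat_lit 304) (nat_lit 621011071) (nat_lit 44) (nat_lit 5) (nat_lit 47) (nat_lit 5) (nat_lit 48)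 (nat_lit 5) (nat_lit 302) (nat_lit 266) (nat_lit 152)) (XT.lf (nat_lit 0) (nat_lit 8206415385) (nat_lit 304) (nat_lit 9615770130) (nat_lit 76) (nat_lit 27289421625) (nat_lit 43) (nat_lit 5) (nat_lit 47) (nat_lit 5) (nat_lit 44) (nat_lit 5) (nat_lit 303) (nat_lit 266) (nat_lit 151))) (XT.nd (nat_lit 78) (nat_lit 228) (nat_lit 0) (XT.lf (nat_lit 0) (nat_lit 17629726136) (nat_lit 304) (nat_lit 28916751215) (nat_lit 76) (nat_lit 229846701) (nat_lit 40) (nat_lit 5) (nat_lit 44) (nat_lit 5) (nat_lit 41) (nat_lit 5) (nat_lit 304) (nat_lit 266) (nat_lit 150)) (XT.nd (nat_lit 78) (nat_lit 228) (nat_lit 0) (XT.lf (nat_lit 0) (nat_lit 27797538866) (nat_lit 304) (nat_lit 1802059498) (nat_lit 76) (nat_lit 18916489334) (nat_lit 40) (nat_lit 5) (nat_lit 44) (nat_lit 5) (nat_lit 41) (nat_lit 5) (nat_lit 305) (nat_lit 266) (nat_lit 149)) (XT.lf (nat_lit 0) (nat_lit 27189879440) (nat_lit 228) (nat_lit 11539025571)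 (nat_lit 304) (nat_lit 11606290090) (nat_lit 37) (nat_lit 5) (nat_lit 40) (nat_lit 5) (nat_lit 41) (nat_lit 5) (nat_lit 306) (nat_lit 266) (nat_lit 148)))))) (XT.nd (nat_lit 390) (nat_lit 532) (nat_lit 0) (XT.nd (nat_lit 156) (nat_lit 380) (nat_lit 0) (XT.nd (nat_lit 78) (nat_lit 76) (nat_lit 0) (XT.lf (nat_lit 0) (nat_lit 5450208798) (nat_lit 152) (nat_lit 44893106075) (nat_lit 228) (nat_lit 1897858701) (nat_lit 35) (nat_lit 5) (nat_lit 37) (nat_lit 5) (nat_lit 38) (nat_lit 5) (nat_lit 307) (nat_lit 266) (nat_lit 147)) (XT.lf (nat_lit 0) (nat_lit 8485312201) (nat_lit 228) (nat_lit 18483528276) (nat_lit 76) (nat_lit 27260691239) (nat_lit 34) (nat_lit 5) (nat_lit 37) (nat_lit 5) (nat_lit 35) (nat_lit 5) (nat_lit 308) (nat_lit 266) (nat_lit 146))) (XT.nd (nat_lit 78) (nat_lit 152) (nat_lit 0) (XT.lf (nat_lit 0) (nat_lit 11434847894) (nat_lit 228) (nat_lit 8018223767) (nat_lit 304) (nat_lit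 36860540735) (nat_lit 31) (nat_lit 5) (nat_lit 34) (nat_lit 5) (nat_lit 35) (nat_lit 5) (nat_lit 309) (nat_lit 266) (nat_lit 145)) (XT.nd (nat_lit 78) (nat_lit 152) (nat_lit 0) (XT.lf (nat_lit 0) (nat_lit 31270130482) (nat_lit 304) (nat_lit 15385190546) (nat_lit 76) (nat_lit 11837557097) (nat_lit 31) (nat_lit 5) (nat_lit 35) (nat_lit 5) (nat_lit 32) (nat_lit 5) (nat_lit 310) (nat_lit 266) (nat_lit 144)) (XT.lf (nat_lit 0) (nat_lit 15802578543) (nat_lit 152) (nat_lit 28103115531) (nat_lit 228) (nat_lit 16868591466) (nat_lit 29) (nat_lit 5) (nat_lit 31) (nat_lit 5) (nat_lit 32) (nat_lit 5) (nat_lit 311) (nat_lit 266) (nat_lit 143))))) (XT.nd (nat_lit 234) (nat_lit 304) (nat_lit 0) (XT.nd (nat_lit 78) (nat_lit 228) (nat_lit 0) (XT.lf (nat_lit 0) (nat_lit 48863549398) (nat_lit 152) (nat_lit 8462854140) (nat_lit 228) (nat_lit 5838766334) (nat_lit 29) (nat_lit 5) (nat_lit 31) (nat_lit 5) (nat_lit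 32) (nat_lit 5) (nat_lit 312) (nat_lit 266) (nat_lit 142)) (XT.nd (nat_lit 78) (nat_lit 0) (nat_lit 0) (XT.lf (nat_lit 0) (nat_lit 5919699614) (nat_lit 228) (nat_lit 47593605574) (nat_lit 76) (nat_lit 12151967992) (nat_lit 26) (nat_lit 5) (nat_lit 29) (nat_lit 5) (nat_lit 27) (nat_lit 5) (nat_lit 313) (nat_lit 266) (nat_lit 141)) (XT.lf (nat_lit 0) (nat_lit 18375865417) (nat_lit 228) (nat_lit 16076628271) (nat_lit 76) (nat_lit 33829244413) (nat_lit 26) (nat_lit 5) (nat_lit 29) (nat_lit 5) (nat_lit 27) (nat_lit 5) (nat_lit 314) (nat_lit 266) (nat_lit 140)))) (XT.nd (nat_lit 78) (nat_lit 152) (nat_lit 0) (XT.lf (nat_lit 0) (nat_lit 17347726114) (nat_lit 152) (nat_lit 14269404481) (nat_lit 228) (nat_lit 39407033297) (nat_lit 24) (nat_lit 5) (nat_lit 26) (nat_lit 5) (nat_lit 27) (nat_lit 5) (nat_lit 315) (nat_lit 266) (nat_lit 139)) (XT.nd (nat_lit 78) (nat_lit 152) (nat_lit 0) (XT.lf (nat_lit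 0) (nat_lit 45749796663) (nat_lit 228) (nat_lit 21194578740) (nat_lit 76) (nat_lit 6952461494) (nat_lit 24) (nat_lit 5) (nat_lit 27) (nat_lit 5) (nat_lit 25) (nat_lit 5) (nat_lit 316) (nat_lit 266) (nat_lit 138)) (XT.lf (nat_lit 0) (nat_lit 13014741804) (nat_lit 152) (nat_lit 47839349016) (nat_lit 228) (nat_lit 16051108651) (nat_lit 22) (nat_lit 5) (nat_lit 24) (nat_lit 5) (nat_lit 25) (nat_lit 5) (nat_lit 317) (nat_lit 266) (nat_lit 137))))))) (XT.nd (nat_lit 33774) (nat_lit 0) (nat_lit 8284) (XT.nd (nat_lit 390) (nat_lit 152) (nat_lit 0) (XT.nd (nat_lit 156) (nat_lit 152) (nat_lit 0) (XT.nd (nat_lit 78) (nat_lit 228) (nat_lit 0) (XT.lf (nat_lit 0) (nat_lit 49371049724) (nat_lit 152) (nat_lit 27556729588) (nat_lit 228) (nat_lit 3129780964) (nat_lit 22) (nat_lit 5) (nat_lit 24) (nat_lit 5) (nat_lit 25) (nat_lit 5) (nat_lit 318) (nat_lit 266) (nat_lit 136)) (XT.lf (nat_lit 0) (nat_lit 4152164070)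 (nat_lit 152) (nat_lit 6117834516) (nat_lit 228) (nat_lit 73093453803) (nat_lit 19) (nat_lit 5) (nat_lit 21) (nat_lit 5) (nat_lit 22) (nat_lit 5) (nat_lit 319) (nat_lit 266) (nat_lit 135))) (XT.nd (nat_lit 78) (nat_lit 152) (nat_lit 0) (XT.lf (nat_lit 0) (nat_lit 24748489902) (nat_lit 228) (nat_lit 45649508134) (nat_lit 76) (nat_lit 16421512723) (nat_lit 19) (nat_lit 5) (nat_lit 22) (nat_lit 5) (nat_lit 20) (nat_lit 5) (nat_lit 320) (nat_lit 266) (nat_lit 134)) (XT.nd (nat_lit 78) (nat_lit 152) (nat_lit 0) (XT.lf (nat_lit 0) (nat_lit 40009085024) (nat_lit 228) (nat_lit 10477177368) (nat_lit 76) (nat_lit 39960368883) (nat_lit 19) (nat_lit 5) (nat_lit 22) (nat_lit 5) (nat_lit 20) (nat_lit 5) (nat_lit 321) (nat_lit 266) (nat_lit 133)) (XT.lf (nat_lit 0) (nat_lit 26974628146) (nat_lit 152) (nat_lit 29313978815) (nat_lit 228) (nat_lit 37958828328) (nat_lit 17) (nat_lit 5) (nat_lit 19) (nat_lit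 5) (nat_lit 20) (nat_lit 5) (nat_lit 322) (nat_lit 266) (nat_lit 132))))) (XT.nd (nat_lit 33150) (nat_lit 0) (nat_lit 9500) (XT.nd (nat_lit 78) (nat_lit 152) (nat_lit 0) (XT.lf (nat_lit 0) (nat_lit 66512610241) (nat_lit 152) (nat_lit 6974058885) (nat_lit 228) (nat_lit 24748477631) (nat_lit 17) (nat_lit 5) (nat_lit 19) (nat_lit 5) (nat_lit 20) (nat_lit 5) (nat_lit 323) (nat_lit 266) (nat_lit 131)) (XT.nd (nat_lit 78) (nat_lit 76) (nat_lit 0) (XT.lf (nat_lit 0) (nat_lit 5549923454) (nat_lit 76) (nat_lit 86203352048) (nat_lit 152) (nat_lit 10662713041) (nat_lit 16) (nat_lit 5) (nat_lit 17) (nat_lit 5) (nat_lit 18) (nat_lit 4) (nat_lit 324) (nat_lit 266) (nat_lit 130)) (XT.lf (nat_lit 0) (nat_lit 4443896460) (nat_lit 152) (nat_lit 61565556667) (nat_lit 76) (nat_lit 40783319853) (nat_lit 15) (nat_lit 5) (nat_lit 17) (nat_lit 5) (nat_lit 16) (nat_lit 5) (nat_lit 325) (nat_lit 266) (nat_lit 129))))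 (XT.nd (nat_lit 78) (nat_lit 0) (nat_lit 76) (XT.lf (nat_lit 0) (nat_lit 773637204) (nat_lit 1140) (nat_lit 3503473899) (nat_lit 1140) (nat_lit 3503473899) (nat_lit 140) (nat_lit 3) (nat_lit 155) (nat_lit 3) (nat_lit 155) (nat_lit 5) (nat_lit 267) (nat_lit 267) (nat_lit 186)) (XT.nd (nat_lit 78) (nat_lit 0) (nat_lit 0) (XT.lf (nat_lit 0) (nat_lit 2044462603) (nat_lit 1064) (nat_lit 12300912525) (nat_lit 1140) (nat_lit 1589971862) (nat_lit 141) (nat_lit 5) (nat_lit 155) (nat_lit 5) (nat_lit 156) (nat_lit 5) (nat_lit 268) (nat_lit 267) (nat_lit 185)) (XT.lf (nat_lit 0) (nat_lit 2699576399) (nat_lit 1064) (nat_lit 1473537914) (nat_lit 1140) (nat_lit 12151196752) (nat_lit 141) (nat_lit 5) (nat_lit 155) (nat_lit 5) (nat_lit 156) (nat_lit 5) (nat_lit 269) (nat_lit 267) (nat_lit 184)))))) (XT.nd (nat_lit 390) (nat_lit 1368) (nat_lit 0) (XT.nd (nat_lit 156) (nat_lit 0) (nat_lit 76) (XT.nd (nat_lit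 78) (nat_lit 0) (nat_lit 76) (XT.lf (nat_lit 0) (nat_lit 3523065794) (nat_lit 1064) (nat_lit 6716414170) (nat_lit 1140) (nat_lit 6489241663) (nat_lit 142) (nat_lit 5) (nat_lit 156) (nat_lit 5) (nat_lit 157) (nat_lit 5) (nat_lit 270) (nat_lit 267) (nat_lit 183)) (XT.lf (nat_lit 0) (nat_lit 4474435580) (nat_lit 1064) (nat_lit 12165016327) (nat_lit 1140) (nat_lit 511363331) (nat_lit 143) (nat_lit 5) (nat_lit 157) (nat_lit 5) (nat_lit 158) (nat_lit 5) (nat_lit 271) (nat_lit 267) (nat_lit 182))) (XT.nd (nat_lit 78) (nat_lit 0) (nat_lit 76) (XT.lf (nat_lit 0) (nat_lit 5623902063) (nat_lit 1064) (nat_lit 297406115) (nat_lit 1140) (nat_lit 11668250169) (nat_lit 143) (nat_lit 5) (nat_lit 157) (nat_lit 5) (nat_lit 158) (nat_lit 5) (nat_lit 272) (nat_lit 267) (nat_lit 181)) (XT.nd (nat_lit 78) (nat_lit 0) (nat_lit 0) (XT.lf (nat_lit 0) (nat_lit 6980898137) (nat_lit 1064) (nat_lit 5708699269) (nat_lit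 1140) (nat_lit 5356197294) (nat_lit 144) (nat_lit 5) (nat_lit 158) (nat_lit 5) (nat_lit 159) (nat_lit 5) (nat_lit 273) (nat_lit 267) (nat_lit 180)) (XT.lf (nat_lit 76) (nat_lit 7149979251) (nat_lit 0) (nat_lit 1366745259) (nat_lit 1140) (nat_lit 10004843970) (nat_lit 145) (nat_lit 5) (nat_lit 144) (nat_lit 5) (nat_lit 159) (nat_lit 5) (nat_lit 274) (nat_lit 267) (nat_lit 179))))) (XT.nd (nat_lit 234) (nat_lit 1596) (nat_lit 0) (XT.nd (nat_lit 78) (nat_lit 0) (nat_lit 76) (XT.lf (nat_lit 76) (nat_lit 1667513878) (nat_lit 0) (nat_lit 8618644953) (nat_lit 1140) (nat_lit 8730320023) (nat_lit 146) (nat_lit 5) (nat_lit 145) (nat_lit 5) (nat_lit 160) (nat_lit 5) (nat_lit 275) (nat_lit 267) (nat_lit 178)) (XT.nd (nat_lit 78) (nat_lit 0) (nat_lit 0) (XT.lf (nat_lit 0) (nat_lit 12287714052) (nat_lit 1064) (nat_lit 3996921698) (nat_lit 1140) (nat_lit 3247239429) (nat_lit 146) (nat_lit 5) (nat_lit 160)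 (nat_lit 5) (nat_lit 161) (nat_lit 5) (nat_lit 276) (nat_lit 267) (nat_lit 177)) (XT.lf (nat_lit 76) (nat_lit 10118853955) (nat_lit 0) (nat_lit 4436786797) (nat_lit 1140) (nat_lit 5512459291) (nat_lit 147) (nat_lit 5) (nat_lit 146) (nat_lit 5) (nat_lit 161) (nat_lit 5) (nat_lit 277) (nat_lit 267) (nat_lit 176)))) (XT.nd (nat_lit 78) (nat_lit 684) (nat_lit 0) (XT.lf (nat_lit 0) (nat_lit 4387802277) (nat_lit 1064) (nat_lit 12692614575) (nat_lit 1140) (nat_lit 3546460973) (nat_lit 133) (nat_lit 5) (nat_lit 147) (nat_lit 5) (nat_lit 148) (nat_lit 5) (nat_lit 278) (nat_lit 267) (nat_lit 175)) (XT.nd (nat_lit 78) (nat_lit 684) (nat_lit 0) (XT.lf (nat_lit 0) (nat_lit 19589837840) (nat_lit 1064) (nat_lit 271827753) (nat_lit 1140) (nat_lit 1348065001) (nat_lit 133) (nat_lit 5) (nat_lit 147) (nat_lit 5) (nat_lit 148) (nat_lit 5) (nat_lit 279) (nat_lit 267) (nat_lit 174)) (XT.lf (nat_lit 0) (nat_lit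 1184156568) (nat_lit 684) (nat_lit 7962099587) (nat_lit 76) (nat_lit 12667953484) (nat_lit 124) (nat_lit 5) (nat_lit 133) (nat_lit 5) (nat_lit 125) (nat_lit 5) (nat_lit 280) (nat_lit 267) (nat_lit 173))))))))
noncomputable def xc98 : XT := (XT.nd (nat_lit 1638) (nat_lit 2356) (nat_lit 0) (XT.nd (nat_lit 780) (nat_lit 2356) (nat_lit 0) (XT.nd (nat_lit 390) (nat_lit 1292) (nat_lit 0) (XT.nd (nat_lit 156) (nat_lit 912) (nat_lit 0) (XT.nd (nat_lit 78) (nat_lit 532) (nat_lit 0) (XT.lf (nat_lit 0) (nat_lit 3932279818) (nat_lit 608) (nat_lit 14678718681) (nat_lit 76) (nat_lit 3834036567) (nat_lit 117) (nat_lit 5) (nat_lit 125) (nat_lit 5) (nat_lit 118) (nat_lit 5) (nat_lit 281) (nat_lit 267) (nat_lit 172)) (XT.lf (nat_lit 0) (nat_lit 1260058392) (nat_lit 532) (nat_lit 5730274504) (nat_lit 608) (nat_lit 16111929317) (nat_lit 110) (nat_lit 5) (nat_lit 117) (nat_lit 5) (nat_lit 118) (nat_lit 5) (nat_lit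 282) (nat_lit 267) (nat_lit 171))) (XT.nd (nat_lit 78) (nat_lit 912) (nat_lit 0) (XT.lf (nat_lit 0) (nat_lit 10414709281) (nat_lit 608) (nat_lit 5575781834) (nat_lit 76) (nat_lit 7795491418) (nat_lit 110) (nat_lit 5) (nat_lit 118) (nat_lit 5) (nat_lit 111) (nat_lit 5) (nat_lit 283) (nat_lit 267) (nat_lit 170)) (XT.nd (nat_lit 78) (nat_lit 456) (nat_lit 0) (XT.lf (nat_lit 0) (nat_lit 11660268351) (nat_lit 456) (nat_lit 2506525240) (nat_lit 532) (nat_lit 10332433402) (nat_lit 104) (nat_lit 5) (nat_lit 110) (nat_lit 5) (nat_lit 111) (nat_lit 5) (nat_lit 284) (nat_lit 267) (nat_lit 169)) (XT.lf (nat_lit 0) (nat_lit 4591835173) (nat_lit 456) (nat_lit 13715835465) (nat_lit 532) (nat_lit 6934458617) (nat_lit 98) (nat_lit 5) (nat_lit 104) (nat_lit 5) (nat_lit 105) (nat_lit 5) (nat_lit 285) (nat_lit 267) (nat_lit 168))))) (XT.nd (nat_lit 156) (nat_lit 836) (nat_lit 0) (XT.nd (nat_lit 78) (nat_lit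 456) (nat_lit 0) (XT.lf (nat_lit 0) (nat_lit 22803485607) (nat_lit 532) (nat_lit 2897346361) (nat_lit 76) (nat_lit 316937586) (nat_lit 98) (nat_lit 5) (nat_lit 105) (nat_lit 5) (nat_lit 99) (nat_lit 5) (nat_lit 286) (nat_lit 267) (nat_lit 167)) (XT.lf (nat_lit 0) (nat_lit 960593740) (nat_lit 456) (nat_lit 10930926945) (nat_lit 76) (nat_lit 14932033289) (nat_lit 92) (nat_lit 5) (nat_lit 98) (nat_lit 5) (nat_lit 93) (nat_lit 5) (nat_lit 287) (nat_lit 267) (nat_lit 166))) (XT.nd (nat_lit 78) (nat_lit 380) (nat_lit 0) (XT.lf (nat_lit 0) (nat_lit 5401516029) (nat_lit 532) (nat_lit 19565155538) (nat_lit 76) (nat_lit 2698314194) (nat_lit 86) (nat_lit 5) (nat_lit 93) (nat_lit 5) (nat_lit 87) (nat_lit 5) (nat_lit 288) (nat_lit 267) (nat_lit 165)) (XT.nd (nat_lit 78) (nat_lit 380) (nat_lit 0) (XT.lf (nat_lit 0) (nat_lit 10287027768) (nat_lit 532) (nat_lit 368369987) (nat_lit 76) (nat_lit 17886440031)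 (nat_lit 86) (nat_lit 5) (nat_lit 93) (nat_lit 5) (nat_lit 87) (nat_lit 5) (nat_lit 289) (nat_lit 267) (nat_lit 164)) (XT.lf (nat_lit 0) (nat_lit 15644036192) (nat_lit 456) (nat_lit 9331208664) (nat_lit 76) (nat_lit 4480494682) (nat_lit 81) (nat_lit 5) (nat_lit 87) (nat_lit 5) (nat_lit 82) (nat_lit 5) (nat_lit 290) (nat_lit 267) (nat_lit 163)))))) (XT.nd (nat_lit 390) (nat_lit 912) (nat_lit 0) (XT.nd (nat_lit 156) (nat_lit 760) (nat_lit 0) (XT.nd (nat_lit 78) (nat_lit 304) (nat_lit 0) (XT.lf (nat_lit 0) (nat_lit 11336143109) (nat_lit 380) (nat_lit 10142886428) (nat_lit 456) (nat_lit 8930025436) (nat_lit 76) (nat_lit 5) (nat_lit 81) (nat_lit 5) (nat_lit 82) (nat_lit 5) (nat_lit 291) (nat_lit 267) (nat_lit 162)) (XT.lf (nat_lit 0) (nat_lit 1794576602) (nat_lit 304) (nat_lit 25967804731) (nat_lit 380) (nat_lit 3642978136) (nat_lit 72) (nat_lit 5) (nat_lit 76) (nat_lit 5) (nat_lit 77) (nat_lit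 5) (nat_lit 292) (nat_lit 267) (nat_lit 161))) (XT.nd (nat_lit 78) (nat_lit 684) (nat_lit 0) (XT.lf (nat_lit 0) (nat_lit 2162225605) (nat_lit 380) (nat_lit 8476099732) (nat_lit 76) (nat_lit 21803892102) (nat_lit 71) (nat_lit 5) (nat_lit 76) (nat_lit 5) (nat_lit 72) (nat_lit 5) (nat_lit 293) (nat_lit 267) (nat_lit 160)) (XT.nd (nat_lit 78) (nat_lit 304) (nat_lit 0) (XT.lf (nat_lit 0) (nat_lit 8362017171) (nat_lit 456) (nat_lit 19640957992) (nat_lit 76) (nat_lit 5521489951) (nat_lit 66) (nat_lit 5) (nat_lit 72) (nat_lit 5) (nat_lit 67) (nat_lit 5) (nat_lit 294) (nat_lit 267) (nat_lit 159)) (XT.lf (nat_lit 0) (nat_lit 2815484880) (nat_lit 304) (nat_lit 12270025292) (nat_lit 380) (nat_lit 19568921720) (nat_lit 62) (nat_lit 5) (nat_lit 66) (nat_lit 5) (nat_lit 67) (nat_lit 5) (nat_lit 295) (nat_lit 267) (nat_lit 158))))) (XT.nd (nat_lit 234) (nat_lit 304) (nat_lit 0) (XT.nd (nat_lit 78) (nat_lit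 608) (nat_lit 0) (XT.lf (nat_lit 0) (nat_lit 22381663626) (nat_lit 380) (nat_lit 9083651557) (nat_lit 76) (nat_lit 4368504465) (nat_lit 62) (nat_lit 5) (nat_lit 67) (nat_lit 5) (nat_lit 63) (nat_lit 5) (nat_lit 296) (nat_lit 267) (nat_lit 157)) (XT.nd (nat_lit 78) (nat_lit 304) (nat_lit 0) (XT.lf (nat_lit 0) (nat_lit 14966998712) (nat_lit 304) (nat_lit 15335197697) (nat_lit 380) (nat_lit 6762209627) (nat_lit 58) (nat_lit 5) (nat_lit 62) (nat_lit 5) (nat_lit 63) (nat_lit 5) (nat_lit 297) (nat_lit 267) (nat_lit 156)) (XT.lf (nat_lit 0) (nat_lit 380152470) (nat_lit 304) (nat_lit 36286801408) (nat_lit 76) (nat_lit 1685816336) (nat_lit 54) (nat_lit 5) (nat_lit 58) (nat_lit 5) (nat_lit 55) (nat_lit 5) (nat_lit 298) (nat_lit 267) (nat_lit 155)))) (XT.nd (nat_lit 78) (nat_lit 304) (nat_lit 0) (XT.lf (nat_lit 0) (nat_lit 8117894417) (nat_lit 304) (nat_lit 12035144386) (nat_lit 76) (nat_lit 19539176221)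 (nat_lit 54) (nat_lit 5) (nat_lit 58) (nat_lit 5) (nat_lit 55) (nat_lit 5) (nat_lit 299) (nat_lit 267) (nat_lit 154)) (XT.nd (nat_lit 78) (nat_lit 0) (nat_lit 0) (XT.lf (nat_lit 0) (nat_lit 13686245477) (nat_lit 304) (nat_lit 2680512046) (nat_lit 380) (nat_lit 24728161276) (nat_lit 50) (nat_lit 5) (nat_lit 54) (nat_lit 5) (nat_lit 55) (nat_lit 5) (nat_lit 300) (nat_lit 267) (nat_lit 153)) (XT.lf (nat_lit 0) (nat_lit 25296674485) (nat_lit 380) (nat_lit 1780485664) (nat_lit 76) (nat_lit 15482552390) (nat_lit 50) (nat_lit 5) (nat_lit 55) (nat_lit 5) (nat_lit 51) (nat_lit 5) (nat_lit 301) (nat_lit 267) (nat_lit 152))))))) (XT.nd (nat_lit 780) (nat_lit 912) (nat_lit 0) (XT.nd (nat_lit 390) (nat_lit 684) (nat_lit 0) (XT.nd (nat_lit 156) (nat_lit 304) (nat_lit 0) (XT.nd (nat_lit 78) (nat_lit 228) (nat_lit 0) (XT.lf (nat_lit 0) (nat_lit 25592084138) (nat_lit 228) (nat_lit 9347307968) (nat_lit 304)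 (nat_lit 9150377187) (nat_lit 47) (nat_lit 5) (nat_lit 50) (nat_lit 5) (nat_lit 51) (nat_lit 5) (nat_lit 302) (nat_lit 267) (nat_lit 151)) (XT.lf (nat_lit 0) (nat_lit 8746831114) (nat_lit 228) (nat_lit 36502556584) (nat_lit 304) (nat_lit 441398800) (nat_lit 44) (nat_lit 5) (nat_lit 47) (nat_lit 5) (nat_lit 48) (nat_lit 5) (nat_lit 303) (nat_lit 267) (nat_lit 150))) (XT.nd (nat_lit 78) (nat_lit 228) (nat_lit 0) (XT.lf (nat_lit 0) (nat_lit 8813452378) (nat_lit 304) (nat_lit 9815062946) (nat_lit 76) (nat_lit 28732432918) (nat_lit 43) (nat_lit 5) (nat_lit 47) (nat_lit 5) (nat_lit 44) (nat_lit 5) (nat_lit 304) (nat_lit 267) (nat_lit 149)) (XT.nd (nat_lit 78) (nat_lit 0) (nat_lit 0) (XT.lf (nat_lit 0) (nat_lit 18701991740) (nat_lit 304) (nat_lit 30083943271) (nat_lit 76) (nat_lit 323160179) (nat_lit 40) (nat_lit 5) (nat_lit 44) (nat_lit 5) (nat_lit 41) (nat_lit 5) (nat_lit 305) (nat_lit 267) (nat_lit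 148)) (XT.lf (nat_lit 0) (nat_lit 29369110378) (nat_lit 304) (nat_lit 1626785801) (nat_lit 76) (nat_lit 19940238699) (nat_lit 40) (nat_lit 5) (nat_lit 44) (nat_lit 5) (nat_lit 41) (nat_lit 5) (nat_lit 306) (nat_lit 267) (nat_lit 147))))) (XT.nd (nat_lit 156) (nat_lit 304) (nat_lit 0) (XT.nd (nat_lit 78) (nat_lit 152) (nat_lit 0) (XT.lf (nat_lit 0) (nat_lit 28807143114) (nat_lit 228) (nat_lit 12033727434) (nat_lit 304) (nat_lit 12005526921) (nat_lit 37) (nat_lit 5) (nat_lit 40) (nat_lit 5) (nat_lit 41) (nat_lit 5) (nat_lit 307) (nat_lit 267) (nat_lit 146)) (XT.lf (nat_lit 0) (nat_lit 5977730141) (nat_lit 152) (nat_lit 47053116956) (nat_lit 228) (nat_lit 1816996276) (nat_lit 35) (nat_lit 5) (nat_lit 37) (nat_lit 5) (nat_lit 38) (nat_lit 5) (nat_lit 308) (nat_lit 267) (nat_lit 145))) (XT.nd (nat_lit 78) (nat_lit 228) (nat_lit 0) (XT.lf (nat_lit 0) (nat_lit 9073697563) (nat_lit 228) (nat_lit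 19161313915) (nat_lit 76) (nat_lit 28700816288) (nat_lit 34) (nat_lit 5) (nat_lit 37) (nat_lit 5) (nat_lit 35) (nat_lit 5) (nat_lit 309) (nat_lit 267) (nat_lit 144)) (XT.nd (nat_lit 78) (nat_lit 0) (nat_lit 0) (XT.lf (nat_lit 0) (nat_lit 12245918322) (nat_lit 228) (nat_lit 8338412015) (nat_lit 304) (nat_lit 38539959818) (nat_lit 31) (nat_lit 5) (nat_lit 34) (nat_lit 5) (nat_lit 35) (nat_lit 5) (nat_lit 310) (nat_lit 267) (nat_lit 143)) (XT.lf (nat_lit 0) (nat_lit 32985428483) (nat_lit 304) (nat_lit 15922492991) (nat_lit 76) (nat_lit 12504813756) (nat_lit 31) (nat_lit 5) (nat_lit 35) (nat_lit 5) (nat_lit 32) (nat_lit 5) (nat_lit 311) (nat_lit 267) (nat_lit 142)))))) (XT.nd (nat_lit 390) (nat_lit 380) (nat_lit 0) (XT.nd (nat_lit 156) (nat_lit 380) (nat_lit 0) (XT.nd (nat_lit 78) (nat_lit 0) (nat_lit 0) (XT.lf (nat_lit 0) (nat_lit 16818015549) (nat_lit 152) (nat_lit 29429692340) (nat_lit 228)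 (nat_lit 17560668097) (nat_lit 29) (nat_lit 5) (nat_lit 31) (nat_lit 5) (nat_lit 32) (nat_lit 5) (nat_lit 312) (nat_lit 267) (nat_lit 141)) (XT.lf (nat_lit 0) (nat_lit 51521305990) (nat_lit 152) (nat_lit 8811159735) (nat_lit 228) (nat_lit 5986558992) (nat_lit 29) (nat_lit 5) (nat_lit 31) (nat_lit 5) (nat_lit 32) (nat_lit 5) (nat_lit 313) (nat_lit 267) (nat_lit 140))) (XT.nd (nat_lit 78) (nat_lit 152) (nat_lit 0) (XT.lf (nat_lit 0) (nat_lit 6353037341) (nat_lit 228) (nat_lit 49758349892) (nat_lit 76) (nat_lit 12832833565) (nat_lit 26) (nat_lit 5) (nat_lit 29) (nat_lit 5) (nat_lit 27) (nat_lit 5) (nat_lit 314) (nat_lit 267) (nat_lit 139)) (XT.nd (nat_lit 78) (nat_lit 152) (nat_lit 0) (XT.lf (nat_lit 0) (nat_lit 19425470828) (nat_lit 228) (nat_lit 16675758770) (nat_lit 76) (nat_lit 35590484895) (nat_lit 26) (nat_lit 5) (nat_lit 29) (nat_lit 5) (nat_lit 27) (nat_lit 5) (nat_lit 315) (nat_lit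 267) (nat_lit 138)) (XT.lf (nat_lit 0) (nat_lit 18413945625) (nat_lit 152) (nat_lit 14910535797) (nat_lit 228) (nat_lit 41246918550) (nat_lit 24) (nat_lit 5) (nat_lit 26) (nat_lit 5) (nat_lit 27) (nat_lit 5) (nat_lit 316) (nat_lit 267) (nat_lit 137))))) (XT.nd (nat_lit 234) (nat_lit 228) (nat_lit 0) (XT.nd (nat_lit 78) (nat_lit 152) (nat_lit 0) (XT.lf (nat_lit 0) (nat_lit 48158419508) (nat_lit 228) (nat_lit 22061822006) (nat_lit 76) (nat_lit 7367634393) (nat_lit 24) (nat_lit 5) (nat_lit 27) (nat_lit 5) (nat_lit 25) (nat_lit 5) (nat_lit 317) (nat_lit 267) (nat_lit 136)) (XT.nd (nat_lit 78) (nat_lit 0) (nat_lit 0) (XT.lf (nat_lit 0) (nat_lit 13852447002) (nat_lit 152) (nat_lit 50161510385) (nat_lit 228) (nat_lit 16732826394) (nat_lit 22) (nat_lit 5) (nat_lit 24) (nat_lit 5) (nat_lit 25) (nat_lit 5) (nat_lit 318) (nat_lit 267) (nat_lit 135)) (XT.lf (nat_lit 0) (nat_lit 52017667075) (nat_lit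 152) (nat_lit 28868084084) (nat_lit 228) (nat_lit 3171186499) (nat_lit 22) (nat_lit 5) (nat_lit 24) (nat_lit 5) (nat_lit 25) (nat_lit 5) (nat_lit 319) (nat_lit 267) (nat_lit 134)))) (XT.nd (nat_lit 78) (nat_lit 0) (nat_lit 0) (XT.lf (nat_lit 0) (nat_lit 4535058690) (nat_lit 152) (nat_lit 6357589376) (nat_lit 228) (nat_lit 76635560850) (nat_lit 19) (nat_lit 5) (nat_lit 21) (nat_lit 5) (nat_lit 22) (nat_lit 5) (nat_lit 320) (nat_lit 267) (nat_lit 133)) (XT.nd (nat_lit 78) (nat_lit 0) (nat_lit 0) (XT.lf (nat_lit 0) (nat_lit 26090471824) (nat_lit 228) (nat_lit 47762396150) (nat_lit 76) (nat_lit 17304346737) (nat_lit 19) (nat_lit 5) (nat_lit 22) (nat_lit 5) (nat_lit 20) (nat_lit 5) (nat_lit 321) (nat_lit 267) (nat_lit 132)) (XT.lf (nat_lit 0) (nat_lit 42109117778) (nat_lit 228) (nat_lit 10839524435) (nat_lit 76) (nat_lit 42017204830) (nat_lit 19) (nat_lit 5) (nat_lit 22) (nat_lit 5) (nat_lit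 20) (nat_lit 5) (nat_lit 322) (nat_lit 267) (nat_lit 131))))))))
noncomputable def xc99 : XT := (XT.nd (nat_lit 34632) (nat_lit 0) (nat_lit 1824) (XT.nd (nat_lit 33774) (nat_lit 0) (nat_lit 6688) (XT.nd (nat_lit 33384) (nat_lit 0) (nat_lit 9500) (XT.nd (nat_lit 156) (nat_lit 76) (nat_lit 0) (XT.nd (nat_lit 78) (nat_lit 0) (nat_lit 0) (XT.lf (nat_lit 0) (nat_lit 28480241651) (nat_lit 152) (nat_lit 30719140374) (nat_lit 228) (nat_lit 39757412363) (nat_lit 17) (nat_lit 5) (nat_lit 19) (nat_lit 5) (nat_lit 20) (nat_lit 5) (nat_lit 323) (nat_lit 267) (nat_lit 130)) (XT.lf (nat_lit 0) (nat_lit 69987652274) (nat_lit 152) (nat_lit 7265107180) (nat_lit 228) (nat_lit 25891275436) (nat_lit 17) (nat_lit 5) (nat_lit 19) (nat_lit 5) (nat_lit 20) (nat_lit 5) (nat_lit 324) (nat_lit 267) (nat_lit 129))) (XT.nd (nat_lit 33072) (nat_lit 0) (nat_lit 9424) (XT.lf (nat_lit 0) (nat_lit 5974796932) (nat_lit 76)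 (nat_lit 90455474344) (nat_lit 152) (nat_lit 11103725782) (nat_lit 16) (nat_lit 5) (nat_lit 17) (nat_lit 5) (nat_lit 18) (nat_lit 4) (nat_lit 325) (nat_lit 267) (nat_lit 128)) (XT.nd (nat_lit 78) (nat_lit 0) (nat_lit 76) (XT.lf (nat_lit 0) (nat_lit 1213779363) (nat_lit 1140) (nat_lit 3471355566) (nat_lit 1140) (nat_lit 3471355566) (nat_lit 140) (nat_lit 3) (nat_lit 155) (nat_lit 3) (nat_lit 155) (nat_lit 5) (nat_lit 268) (nat_lit 268) (nat_lit 184)) (XT.lf (nat_lit 0) (nat_lit 2911726173) (nat_lit 1064) (nat_lit 12484627460) (nat_lit 1140) (nat_lit 1310752451) (nat_lit 141) (nat_lit 5) (nat_lit 155) (nat_lit 5) (nat_lit 156) (nat_lit 5) (nat_lit 269) (nat_lit 268) (nat_lit 183))))) (XT.nd (nat_lit 156) (nat_lit 0) (nat_lit 152) (XT.nd (nat_lit 78) (nat_lit 0) (nat_lit 76) (XT.lf (nat_lit 0) (nat_lit 3563165161) (nat_lit 1064) (nat_lit 1136423674) (nat_lit 1140) (nat_lit 12417120395) (nat_lit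 141) (nat_lit 5) (nat_lit 155) (nat_lit 5) (nat_lit 156) (nat_lit 5) (nat_lit 270) (nat_lit 268) (nat_lit 182)) (XT.lf (nat_lit 0) (nat_lit 4394097286) (nat_lit 1064) (nat_lit 6627549082) (nat_lit 1140) (nat_lit 6520799195) (nat_lit 142) (nat_lit 5) (nat_lit 156) (nat_lit 5) (nat_lit 157) (nat_lit 5) (nat_lit 271) (nat_lit 268) (nat_lit 181))) (XT.nd (nat_lit 78) (nat_lit 0) (nat_lit 0) (XT.lf (nat_lit 0) (nat_lit 5361477128) (nat_lit 1064) (nat_lit 12336570990) (nat_lit 1140) (nat_lit 288631337) (nat_lit 143) (nat_lit 5) (nat_lit 157) (nat_lit 5) (nat_lit 158) (nat_lit 5) (nat_lit 272) (nat_lit 268) (nat_lit 180)) (XT.nd (nat_lit 78) (nat_lit 0) (nat_lit 76) (XT.lf (nat_lit 76) (nat_lit 105687010) (nat_lit 0) (nat_lit 6432159197) (nat_lit 1140) (nat_lit 11910515251) (nat_lit 144) (nat_lit 5) (nat_lit 143) (nat_lit 5) (nat_lit 158) (nat_lit 5) (nat_lit 273) (nat_lit 268) (nat_lit 179)) (XT.lf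 (nat_lit 0) (nat_lit 7933539460) (nat_lit 1064) (nat_lit 5568439627) (nat_lit 1140) (nat_lit 5426385709) (nat_lit 144) (nat_lit 5) (nat_lit 158) (nat_lit 5) (nat_lit 159) (nat_lit 5) (nat_lit 274) (nat_lit 268) (nat_lit 178)))))) (XT.nd (nat_lit 390) (nat_lit 2204) (nat_lit 0) (XT.nd (nat_lit 156) (nat_lit 836) (nat_lit 0) (XT.nd (nat_lit 78) (nat_lit 0) (nat_lit 76) (XT.lf (nat_lit 76) (nat_lit 7920970369) (nat_lit 0) (nat_lit 1600418835) (nat_lit 1140) (nat_lit 9907357848) (nat_lit 145) (nat_lit 5) (nat_lit 144) (nat_lit 5) (nat_lit 159) (nat_lit 5) (nat_lit 275) (nat_lit 268) (nat_lit 177)) (XT.lf (nat_lit 76) (nat_lit 2172430905) (nat_lit 0) (nat_lit 9181839557) (nat_lit 1140) (nat_lit 8594956322) (nat_lit 146) (nat_lit 5) (nat_lit 145) (nat_lit 5) (nat_lit 160) (nat_lit 5) (nat_lit 276) (nat_lit 268) (nat_lit 176))) (XT.nd (nat_lit 78) (nat_lit 988) (nat_lit 0) (XT.lf (nat_lit 0) (nat_lit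 13428320995) (nat_lit 1064) (nat_lit 3776873752) (nat_lit 1140) (nat_lit 3286095266) (nat_lit 146) (nat_lit 5) (nat_lit 160) (nat_lit 5) (nat_lit 161) (nat_lit 5) (nat_lit 277) (nat_lit 268) (nat_lit 175)) (XT.nd (nat_lit 78) (nat_lit 988) (nat_lit 0) (XT.lf (nat_lit 76) (nat_lit 11032654506) (nat_lit 0) (nat_lit 4755851949) (nat_lit 1140) (nat_lit 5266520091) (nat_lit 147) (nat_lit 5) (nat_lit 146) (nat_lit 5) (nat_lit 161) (nat_lit 5) (nat_lit 278) (nat_lit 268) (nat_lit 174)) (XT.lf (nat_lit 0) (nat_lit 5020273030) (nat_lit 1064) (nat_lit 13398277421) (nat_lit 1140) (nat_lit 3223885036) (nat_lit 133) (nat_lit 5) (nat_lit 147) (nat_lit 5) (nat_lit 148) (nat_lit 5) (nat_lit 279) (nat_lit 268) (nat_lit 173))))) (XT.nd (nat_lit 234) (nat_lit 988) (nat_lit 0) (XT.nd (nat_lit 78) (nat_lit 1216) (nat_lit 0) (XT.lf (nat_lit 0) (nat_lit 20962739865) (nat_lit 1064) (nat_lit 353068776) (nat_lit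 1140) (nat_lit 939373979) (nat_lit 133) (nat_lit 5) (nat_lit 147) (nat_lit 5) (nat_lit 148) (nat_lit 5) (nat_lit 280) (nat_lit 268) (nat_lit 172)) (XT.nd (nat_lit 78) (nat_lit 532) (nat_lit 0) (XT.lf (nat_lit 0) (nat_lit 1691171706) (nat_lit 684) (nat_lit 7952811944) (nat_lit 76) (nat_lit 13246390176) (nat_lit 124) (nat_lit 5) (nat_lit 133) (nat_lit 5) (nat_lit 125) (nat_lit 5) (nat_lit 281) (nat_lit 268) (nat_lit 171)) (XT.lf (nat_lit 0) (nat_lit 4558848484) (nat_lit 608) (nat_lit 15002639761) (nat_lit 76) (nat_lit 3991840814) (nat_lit 117) (nat_lit 5) (nat_lit 125) (nat_lit 5) (nat_lit 118) (nat_lit 5) (nat_lit 282) (nat_lit 268) (nat_lit 170)))) (XT.nd (nat_lit 78) (nat_lit 456) (nat_lit 0) (XT.lf (nat_lit 0) (nat_lit 1721323172) (nat_lit 532) (nat_lit 6031835348) (nat_lit 608) (nat_lit 16490808848) (nat_lit 110) (nat_lit 5) (nat_lit 117) (nat_lit 5) (nat_lit 118) (nat_lit 5) (nat_lit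 283) (nat_lit 268) (nat_lit 169)) (XT.nd (nat_lit 78) (nat_lit 456) (nat_lit 0) (XT.lf (nat_lit 0) (nat_lit 11328934590) (nat_lit 608) (nat_lit 5462366680) (nat_lit 76) (nat_lit 8171215042) (nat_lit 110) (nat_lit 5) (nat_lit 118) (nat_lit 5) (nat_lit 111) (nat_lit 5) (nat_lit 284) (nat_lit 268) (nat_lit 168)) (XT.lf (nat_lit 0) (nat_lit 12624243559) (nat_lit 456) (nat_lit 2629303982) (nat_lit 532) (nat_lit 10458373465) (nat_lit 104) (nat_lit 5) (nat_lit 110) (nat_lit 5) (nat_lit 111) (nat_lit 5) (nat_lit 285) (nat_lit 268) (nat_lit 167))))))) (XT.nd (nat_lit 858) (nat_lit 1672) (nat_lit 0) (XT.nd (nat_lit 390) (nat_lit 1824) (nat_lit 0) (XT.nd (nat_lit 156) (nat_lit 912) (nat_lit 0) (XT.nd (nat_lit 78) (nat_lit 0) (nat_lit 0) (XT.lf (nat_lit 0) (nat_lit 5203360438) (nat_lit 456) (nat_lit 14383782977) (nat_lit 532) (nat_lit 6905298284) (nat_lit 98) (nat_lit 5) (nat_lit 104) (nat_lit 5) (nat_lit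 105) (nat_lit 5) (nat_lit 286) (nat_lit 268) (nat_lit 166)) (XT.lf (nat_lit 0) (nat_lit 24290574911) (nat_lit 532) (nat_lit 2667398446) (nat_lit 76) (nat_lit 349447376) (nat_lit 98) (nat_lit 5) (nat_lit 105) (nat_lit 5) (nat_lit 99) (nat_lit 5) (nat_lit 287) (nat_lit 268) (nat_lit 165))) (XT.nd (nat_lit 78) (nat_lit 456) (nat_lit 0) (XT.lf (nat_lit 0) (nat_lit 1346599163) (nat_lit 456) (nat_lit 11105908370) (nat_lit 76) (nat_lit 15701317555) (nat_lit 92) (nat_lit 5) (nat_lit 98) (nat_lit 5) (nat_lit 93) (nat_lit 5) (nat_lit 288) (nat_lit 268) (nat_lit 164)) (XT.nd (nat_lit 78) (nat_lit 0) (nat_lit 0) (XT.lf (nat_lit 0) (nat_lit 5997284665) (nat_lit 532) (nat_lit 20172349777) (nat_lit 76) (nat_lit 2868099048) (nat_lit 86) (nat_lit 5) (nat_lit 93) (nat_lit 5) (nat_lit 87) (nat_lit 5) (nat_lit 289) (nat_lit 268) (nat_lit 163)) (XT.lf (nat_lit 0) (nat_lit 11111562808) (nat_lit 532) (nat_lit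 33394641) (nat_lit 76) (nat_lit 18813970740) (nat_lit 86) (nat_lit 5) (nat_lit 93) (nat_lit 5) (nat_lit 87) (nat_lit 5) (nat_lit 290) (nat_lit 268) (nat_lit 162))))) (XT.nd (nat_lit 234) (nat_lit 760) (nat_lit 0) (XT.nd (nat_lit 78) (nat_lit 684) (nat_lit 0) (XT.lf (nat_lit 0) (nat_lit 16725378920) (nat_lit 456) (nat_lit 9445309256) (nat_lit 76) (nat_lit 4748201279) (nat_lit 81) (nat_lit 5) (nat_lit 87) (nat_lit 5) (nat_lit 82) (nat_lit 5) (nat_lit 291) (nat_lit 268) (nat_lit 161)) (XT.nd (nat_lit 78) (nat_lit 304) (nat_lit 0) (XT.lf (nat_lit 0) (nat_lit 12245306915) (nat_lit 380) (nat_lit 10595861153) (nat_lit 456) (nat_lit 9079062773) (nat_lit 76) (nat_lit 5) (nat_lit 81) (nat_lit 5) (nat_lit 82) (nat_lit 5) (nat_lit 292) (nat_lit 268) (nat_lit 160)) (XT.lf (nat_lit 0) (nat_lit 2225353674) (nat_lit 304) (nat_lit 27203384865) (nat_lit 380) (nat_lit 3537940548) (nat_lit 72) (nat_lit 5) (nat_lit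 76) (nat_lit 5) (nat_lit 77) (nat_lit 5) (nat_lit 293) (nat_lit 268) (nat_lit 159)))) (XT.nd (nat_lit 78) (nat_lit 684) (nat_lit 0) (XT.lf (nat_lit 0) (nat_lit 2538510649) (nat_lit 380) (nat_lit 8569203781) (nat_lit 76) (nat_lit 22948012765) (nat_lit 71) (nat_lit 5) (nat_lit 76) (nat_lit 5) (nat_lit 72) (nat_lit 5) (nat_lit 294) (nat_lit 268) (nat_lit 158)) (XT.nd (nat_lit 78) (nat_lit 304) (nat_lit 0) (XT.lf (nat_lit 0) (nat_lit 9039212391) (nat_lit 456) (nat_lit 20294103258) (nat_lit 76) (nat_lit 5859070458) (nat_lit 66) (nat_lit 5) (nat_lit 72) (nat_lit 5) (nat_lit 67) (nat_lit 5) (nat_lit 295) (nat_lit 268) (nat_lit 157)) (XT.lf (nat_lit 0) (nat_lit 3275733830) (nat_lit 304) (nat_lit 12813879372) (nat_lit 380) (nat_lit 20289541238) (nat_lit 62) (nat_lit 5) (nat_lit 66) (nat_lit 5) (nat_lit 67) (nat_lit 5) (nat_lit 296) (nat_lit 268) (nat_lit 156)))))) (XT.nd (nat_lit 390) (nat_lit 760)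 (nat_lit 0) (XT.nd (nat_lit 156) (nat_lit 608) (nat_lit 0) (XT.nd (nat_lit 78) (nat_lit 304) (nat_lit 0) (XT.lf (nat_lit 0) (nat_lit 23739315390) (nat_lit 380) (nat_lit 9226591981) (nat_lit 76) (nat_lit 4651965990) (nat_lit 62) (nat_lit 5) (nat_lit 67) (nat_lit 5) (nat_lit 63) (nat_lit 5) (nat_lit 297) (nat_lit 268) (nat_lit 155)) (XT.lf (nat_lit 0) (nat_lit 16017669107) (nat_lit 304) (nat_lit 16029751386) (nat_lit 380) (nat_lit 6862845073) (nat_lit 58) (nat_lit 5) (nat_lit 62) (nat_lit 5) (nat_lit 63) (nat_lit 5) (nat_lit 298) (nat_lit 268) (nat_lit 154))) (XT.nd (nat_lit 78) (nat_lit 304) (nat_lit 0) (XT.lf (nat_lit 0) (nat_lit 624494648) (nat_lit 304) (nat_lit 37796103914) (nat_lit 76) (nat_lit 1842627247) (nat_lit 54) (nat_lit 5) (nat_lit 58) (nat_lit 5) (nat_lit 55) (nat_lit 5) (nat_lit 299) (nat_lit 268) (nat_lit 153)) (XT.nd (nat_lit 78) (nat_lit 304) (nat_lit 0) (XT.lf (nat_lit 0)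 (nat_lit 8738393475) (nat_lit 304) (nat_lit 12346389639) (nat_lit 76) (nat_lit 20585201788) (nat_lit 54) (nat_lit 5) (nat_lit 58) (nat_lit 5) (nat_lit 55) (nat_lit 5) (nat_lit 300) (nat_lit 268) (nat_lit 152)) (XT.lf (nat_lit 0) (nat_lit 14652742250) (nat_lit 304) (nat_lit 2739450764) (nat_lit 380) (nat_lit 25750875234) (nat_lit 50) (nat_lit 5) (nat_lit 54) (nat_lit 5) (nat_lit 55) (nat_lit 5) (nat_lit 301) (nat_lit 268) (nat_lit 151))))) (XT.nd (nat_lit 234) (nat_lit 304) (nat_lit 0) (XT.nd (nat_lit 78) (nat_lit 456) (nat_lit 0) (XT.lf (nat_lit 0) (nat_lit 26759431443) (nat_lit 380) (nat_lit 1595167843) (nat_lit 76) (nat_lit 16326795885) (nat_lit 50) (nat_lit 5) (nat_lit 55) (nat_lit 5) (nat_lit 51) (nat_lit 5) (nat_lit 302) (nat_lit 268) (nat_lit 150)) (XT.nd (nat_lit 78) (nat_lit 228) (nat_lit 0) (XT.lf (nat_lit 0) (nat_lit 27138166487) (nat_lit 228) (nat_lit 9739255092) (nat_lit 304)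 (nat_lit 9410756479) (nat_lit 47) (nat_lit 5) (nat_lit 50) (nat_lit 5) (nat_lit 51) (nat_lit 5) (nat_lit 303) (nat_lit 268) (nat_lit 149)) (XT.lf (nat_lit 0) (nat_lit 9448213510) (nat_lit 228) (nat_lit 38248833919) (nat_lit 304) (nat_lit 272391347) (nat_lit 44) (nat_lit 5) (nat_lit 47) (nat_lit 5) (nat_lit 48) (nat_lit 5) (nat_lit 304) (nat_lit 268) (nat_lit 148)))) (XT.nd (nat_lit 78) (nat_lit 228) (nat_lit 0) (XT.lf (nat_lit 0) (nat_lit 9432552410) (nat_lit 304) (nat_lit 10050491203) (nat_lit 76) (nat_lit 30240292850) (nat_lit 43) (nat_lit 5) (nat_lit 47) (nat_lit 5) (nat_lit 44) (nat_lit 5) (nat_lit 305) (nat_lit 268) (nat_lit 147)) (XT.nd (nat_lit 78) (nat_lit 0) (nat_lit 0) (XT.lf (nat_lit 0) (nat_lit 19810133773) (nat_lit 304) (nat_lit 31335400747) (nat_lit 76) (nat_lit 413532378) (nat_lit 40) (nat_lit 5) (nat_lit 44) (nat_lit 5) (nat_lit 41) (nat_lit 5) (nat_lit 306) (nat_lit 268)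 (nat_lit 146)) (XT.lf (nat_lit 0) (nat_lit 31002368226) (nat_lit 304) (nat_lit 1467420627) (nat_lit 76) (nat_lit 21007930814) (nat_lit 40) (nat_lit 5) (nat_lit 44) (nat_lit 5) (nat_lit 41) (nat_lit 5) (nat_lit 307) (nat_lit 268) (nat_lit 145))))))))
noncomputable def xc100 : XT := (XT.nd (nat_lit 34710) (nat_lit 0) (nat_lit 4864) (XT.nd (nat_lit 780) (nat_lit 532) (nat_lit 0) (XT.nd (nat_lit 390) (nat_lit 532) (nat_lit 0) (XT.nd (nat_lit 156) (nat_lit 304) (nat_lit 0) (XT.nd (nat_lit 78) (nat_lit 152) (nat_lit 0) (XT.lf (nat_lit 0) (nat_lit 30481304989) (nat_lit 228) (nat_lit 12560811160) (nat_lit 304) (nat_lit 12441560480) (nat_lit 37) (nat_lit 5) (nat_lit 40) (nat_lit 5) (nat_lit 41) (nat_lit 5) (nat_lit 308) (nat_lit 268) (nat_lit 144)) (XT.lf (nat_lit 0) (nat_lit 6507919055) (nat_lit 152) (nat_lit 49328997818) (nat_lit 228) (nat_lit 1748430798) (nat_lit 35) (nat_lit 5) (nat_lit 37) (nat_lit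 5) (nat_lit 38) (nat_lit 5) (nat_lit 309) (nat_lit 268) (nat_lit 143))) (XT.nd (nat_lit 78) (nat_lit 228) (nat_lit 0) (XT.lf (nat_lit 0) (nat_lit 9676243894) (nat_lit 228) (nat_lit 19895895914) (nat_lit 76) (nat_lit 30205780447) (nat_lit 34) (nat_lit 5) (nat_lit 37) (nat_lit 5) (nat_lit 35) (nat_lit 5) (nat_lit 310) (nat_lit 268) (nat_lit 142)) (XT.nd (nat_lit 78) (nat_lit 0) (nat_lit 0) (XT.lf (nat_lit 0) (nat_lit 13075291819) (nat_lit 228) (nat_lit 8682114530) (nat_lit 304) (nat_lit 40318560572) (nat_lit 31) (nat_lit 5) (nat_lit 34) (nat_lit 5) (nat_lit 35) (nat_lit 5) (nat_lit 311) (nat_lit 268) (nat_lit 141)) (XT.lf (nat_lit 0) (nat_lit 34772379252) (nat_lit 304) (nat_lit 16508225730) (nat_lit 76) (nat_lit 13198425242) (nat_lit 31) (nat_lit 5) (nat_lit 35) (nat_lit 5) (nat_lit 32) (nat_lit 5) (nat_lit 312) (nat_lit 268) (nat_lit 140))))) (XT.nd (nat_lit 156) (nat_lit 380) (nat_lit 0)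 (XT.nd (nat_lit 78) (nat_lit 0) (nat_lit 0) (XT.lf (nat_lit 0) (nat_lit 17863277395) (nat_lit 152) (nat_lit 30829903517) (nat_lit 228) (nat_lit 18301419923) (nat_lit 29) (nat_lit 5) (nat_lit 31) (nat_lit 5) (nat_lit 32) (nat_lit 5) (nat_lit 313) (nat_lit 268) (nat_lit 139)) (XT.lf (nat_lit 0) (nat_lit 54292000879) (nat_lit 152) (nat_lit 9183838256) (nat_lit 228) (nat_lit 6155142580) (nat_lit 29) (nat_lit 5) (nat_lit 31) (nat_lit 5) (nat_lit 32) (nat_lit 5) (nat_lit 314) (nat_lit 268) (nat_lit 138))) (XT.nd (nat_lit 78) (nat_lit 152) (nat_lit 0) (XT.lf (nat_lit 0) (nat_lit 6795272198) (nat_lit 228) (nat_lit 52051314133) (nat_lit 76) (nat_lit 13540930730) (nat_lit 26) (nat_lit 5) (nat_lit 29) (nat_lit 5) (nat_lit 27) (nat_lit 5) (nat_lit 315) (nat_lit 268) (nat_lit 137)) (XT.nd (nat_lit 78) (nat_lit 152) (nat_lit 0) (XT.lf (nat_lit 0) (nat_lit 20515394836) (nat_lit 228) (nat_lit 17323876944)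 (nat_lit 76) (nat_lit 37433300080) (nat_lit 26) (nat_lit 5) (nat_lit 29) (nat_lit 5) (nat_lit 27) (nat_lit 5) (nat_lit 316) (nat_lit 268) (nat_lit 136)) (XT.lf (nat_lit 0) (nat_lit 19514990484) (nat_lit 152) (nat_lit 15590449065) (nat_lit 228) (nat_lit 43190927597) (nat_lit 24) (nat_lit 5) (nat_lit 26) (nat_lit 5) (nat_lit 27) (nat_lit 5) (nat_lit 317) (nat_lit 268) (nat_lit 135)))))) (XT.nd (nat_lit 390) (nat_lit 152) (nat_lit 0) (XT.nd (nat_lit 156) (nat_lit 228) (nat_lit 0) (XT.nd (nat_lit 78) (nat_lit 152) (nat_lit 0) (XT.lf (nat_lit 0) (nat_lit 50676211696) (nat_lit 228) (nat_lit 22990322929) (nat_lit 76) (nat_lit 7797285795) (nat_lit 24) (nat_lit 5) (nat_lit 27) (nat_lit 5) (nat_lit 25) (nat_lit 5) (nat_lit 318) (nat_lit 268) (nat_lit 134)) (XT.lf (nat_lit 0) (nat_lit 14714654937) (nat_lit 152) (nat_lit 52606269729) (nat_lit 228) (nat_lit 17459864368) (nat_lit 22) (nat_lit 5) (nat_lit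 24) (nat_lit 5) (nat_lit 25) (nat_lit 5) (nat_lit 319) (nat_lit 268) (nat_lit 133))) (XT.nd (nat_lit 78) (nat_lit 228) (nat_lit 0) (XT.lf (nat_lit 0) (nat_lit 54780060509) (nat_lit 152) (nat_lit 30251187170) (nat_lit 228) (nat_lit 3225361684) (nat_lit 22) (nat_lit 5) (nat_lit 24) (nat_lit 5) (nat_lit 25) (nat_lit 5) (nat_lit 320) (nat_lit 268) (nat_lit 132)) (XT.nd (nat_lit 78) (nat_lit 0) (nat_lit 0) (XT.lf (nat_lit 0) (nat_lit 4920801571) (nat_lit 152) (nat_lit 6615480759) (nat_lit 228) (nat_lit 80365238536) (nat_lit 19) (nat_lit 5) (nat_lit 21) (nat_lit 5) (nat_lit 22) (nat_lit 5) (nat_lit 321) (nat_lit 268) (nat_lit 131)) (XT.lf (nat_lit 0) (nat_lit 27489832085) (nat_lit 228) (nat_lit 49996695195) (nat_lit 76) (nat_lit 18225580743) (nat_lit 19) (nat_lit 5) (nat_lit 22) (nat_lit 5) (nat_lit 20) (nat_lit 5) (nat_lit 322) (nat_lit 268) (nat_lit 130))))) (XT.nd (nat_lit 33306) (nat_lit 0)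 (nat_lit 9348) (XT.nd (nat_lit 78) (nat_lit 152) (nat_lit 0) (XT.lf (nat_lit 0) (nat_lit 44304894303) (nat_lit 228) (nat_lit 11235004693) (nat_lit 76) (nat_lit 44171414281) (nat_lit 19) (nat_lit 5) (nat_lit 22) (nat_lit 5) (nat_lit 20) (nat_lit 5) (nat_lit 323) (nat_lit 268) (nat_lit 129)) (XT.nd (nat_lit 78) (nat_lit 0) (nat_lit 0) (XT.lf (nat_lit 0) (nat_lit 30046550421) (nat_lit 152) (nat_lit 32200188203) (nat_lit 228) (nat_lit 41655162907) (nat_lit 17) (nat_lit 5) (nat_lit 19) (nat_lit 5) (nat_lit 20) (nat_lit 5) (nat_lit 324) (nat_lit 268) (nat_lit 128)) (XT.lf (nat_lit 0) (nat_lit 73622555542) (nat_lit 152) (nat_lit 7576068072) (nat_lit 228) (nat_lit 27100010566) (nat_lit 17) (nat_lit 5) (nat_lit 19) (nat_lit 5) (nat_lit 20) (nat_lit 5) (nat_lit 325) (nat_lit 268) (nat_lit 127)))) (XT.nd (nat_lit 78) (nat_lit 0) (nat_lit 76) (XT.lf (nat_lit 0) (nat_lit 1638604657) (nat_lit 1140) (nat_lit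 3456903365) (nat_lit 1140) (nat_lit 3456903365) (nat_lit 140) (nat_lit 3) (nat_lit 155) (nat_lit 3) (nat_lit 155) (nat_lit 5) (nat_lit 269) (nat_lit 269) (nat_lit 182)) (XT.nd (nat_lit 78) (nat_lit 0) (nat_lit 0) (XT.lf (nat_lit 0) (nat_lit 3751226712) (nat_lit 1064) (nat_lit 12717629180) (nat_lit 1140) (nat_lit 1050922269) (nat_lit 141) (nat_lit 5) (nat_lit 155) (nat_lit 5) (nat_lit 156) (nat_lit 5) (nat_lit 270) (nat_lit 269) (nat_lit 181)) (XT.lf (nat_lit 0) (nat_lit 4402194115) (nat_lit 1064) (nat_lit 820645189) (nat_lit 1140) (nat_lit 12728102315) (nat_lit 141) (nat_lit 5) (nat_lit 155) (nat_lit 5) (nat_lit 156) (nat_lit 5) (nat_lit 271) (nat_lit 269) (nat_lit 180))))))) (XT.nd (nat_lit 780) (nat_lit 3952) (nat_lit 0) (XT.nd (nat_lit 390) (nat_lit 684) (nat_lit 0) (XT.nd (nat_lit 156) (nat_lit 0) (nat_lit 76) (XT.nd (nat_lit 78) (nat_lit 0) (nat_lit 76) (XT.lf (nat_lit 0) (nat_lit 5244077164)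 (nat_lit 1064) (nat_lit 6573723999) (nat_lit 1140) (nat_lit 6581166093) (nat_lit 142) (nat_lit 5) (nat_lit 156) (nat_lit 5) (nat_lit 157) (nat_lit 5) (nat_lit 272) (nat_lit 269) (nat_lit 179)) (XT.lf (nat_lit 0) (nat_lit 6231201569) (nat_lit 1064) (nat_lit 12557303256) (nat_lit 1140) (nat_lit 77847338) (nat_lit 143) (nat_lit 5) (nat_lit 157) (nat_lit 5) (nat_lit 158) (nat_lit 5) (nat_lit 273) (nat_lit 269) (nat_lit 178))) (XT.nd (nat_lit 78) (nat_lit 0) (nat_lit 76) (XT.lf (nat_lit 76) (nat_lit 495713624) (nat_lit 0) (nat_lit 6945723828) (nat_lit 1140) (nat_lit 11910506114) (nat_lit 144) (nat_lit 5) (nat_lit 143) (nat_lit 5) (nat_lit 158) (nat_lit 5) (nat_lit 274) (nat_lit 269) (nat_lit 177)) (XT.nd (nat_lit 78) (nat_lit 0) (nat_lit 0) (XT.lf (nat_lit 0) (nat_lit 8877696175) (nat_lit 1064) (nat_lit 5460744052) (nat_lit 1140) (nat_lit 5518456513) (nat_lit 144) (nat_lit 5) (nat_lit 158) (nat_lit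 5) (nat_lit 159) (nat_lit 5) (nat_lit 275) (nat_lit 269) (nat_lit 176)) (XT.lf (nat_lit 76) (nat_lit 8692068461) (nat_lit 0) (nat_lit 1830404688) (nat_lit 1140) (nat_lit 9860568534) (nat_lit 145) (nat_lit 5) (nat_lit 144) (nat_lit 5) (nat_lit 159) (nat_lit 5) (nat_lit 276) (nat_lit 269) (nat_lit 175))))) (XT.nd (nat_lit 156) (nat_lit 912) (nat_lit 0) (XT.nd (nat_lit 78) (nat_lit 0) (nat_lit 76) (XT.lf (nat_lit 76) (nat_lit 2663402865) (nat_lit 0) (nat_lit 9760897390) (nat_lit 1140) (nat_lit 8505992390) (nat_lit 146) (nat_lit 5) (nat_lit 145) (nat_lit 5) (nat_lit 160) (nat_lit 5) (nat_lit 277) (nat_lit 269) (nat_lit 174)) (XT.lf (nat_lit 0) (nat_lit 14577035222) (nat_lit 1064) (nat_lit 3584861175) (nat_lit 1140) (nat_lit 3338376325) (nat_lit 146) (nat_lit 5) (nat_lit 160) (nat_lit 5) (nat_lit 161) (nat_lit 5) (nat_lit 278) (nat_lit 269) (nat_lit 173))) (XT.nd (nat_lit 78) (nat_lit 988) (nat_lit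 0) (XT.lf (nat_lit 76) (nat_lit 11954226327) (nat_lit 0) (nat_lit 5081831224) (nat_lit 1140) (nat_lit 5056773838) (nat_lit 147) (nat_lit 5) (nat_lit 146) (nat_lit 5) (nat_lit 161) (nat_lit 5) (nat_lit 279) (nat_lit 269) (nat_lit 172)) (XT.nd (nat_lit 78) (nat_lit 0) (nat_lit 0) (XT.lf (nat_lit 0) (nat_lit 5645962999) (nat_lit 1064) (nat_lit 14132619516) (nat_lit 1140) (nat_lit 2931656172) (nat_lit 133) (nat_lit 5) (nat_lit 147) (nat_lit 5) (nat_lit 148) (nat_lit 5) (nat_lit 280) (nat_lit 269) (nat_lit 171)) (XT.lf (nat_lit 0) (nat_lit 22367711446) (nat_lit 1064) (nat_lit 432082429) (nat_lit 1140) (nat_lit 554511139) (nat_lit 133) (nat_lit 5) (nat_lit 147) (nat_lit 5) (nat_lit 148) (nat_lit 5) (nat_lit 281) (nat_lit 269) (nat_lit 170)))))) (XT.nd (nat_lit 390) (nat_lit 1748) (nat_lit 0) (XT.nd (nat_lit 156) (nat_lit 988) (nat_lit 0) (XT.nd (nat_lit 78) (nat_lit 532) (nat_lit 0) (XT.lf (nat_lit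 0) (nat_lit 2181904721) (nat_lit 684) (nat_lit 7980935423) (nat_lit 76) (nat_lit 13858858453) (nat_lit 124) (nat_lit 5) (nat_lit 133) (nat_lit 5) (nat_lit 125) (nat_lit 5) (nat_lit 282) (nat_lit 269) (nat_lit 169)) (XT.lf (nat_lit 0) (nat_lit 5176772473) (nat_lit 608) (nat_lit 15380876189) (nat_lit 76) (nat_lit 4160686749) (nat_lit 117) (nat_lit 5) (nat_lit 125) (nat_lit 5) (nat_lit 118) (nat_lit 5) (nat_lit 283) (nat_lit 269) (nat_lit 168))) (XT.nd (nat_lit 78) (nat_lit 456) (nat_lit 0) (XT.lf (nat_lit 0) (nat_lit 2168624579) (nat_lit 532) (nat_lit 6347075296) (nat_lit 608) (nat_lit 16928304451) (nat_lit 110) (nat_lit 5) (nat_lit 117) (nat_lit 5) (nat_lit 118) (nat_lit 5) (nat_lit 284) (nat_lit 269) (nat_lit 167)) (XT.nd (nat_lit 78) (nat_lit 456) (nat_lit 0) (XT.lf (nat_lit 0) (nat_lit 12252288209) (nat_lit 608) (nat_lit 5379744201) (nat_lit 76) (nat_lit 8567031170) (nat_lit 110) (nat_lit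 5) (nat_lit 118) (nat_lit 5) (nat_lit 111) (nat_lit 5) (nat_lit 285) (nat_lit 269) (nat_lit 166)) (XT.lf (nat_lit 0) (nat_lit 13600999311) (nat_lit 456) (nat_lit 2758458507) (nat_lit 532) (nat_lit 10626932404) (nat_lit 104) (nat_lit 5) (nat_lit 110) (nat_lit 5) (nat_lit 111) (nat_lit 5) (nat_lit 286) (nat_lit 269) (nat_lit 165))))) (XT.nd (nat_lit 234) (nat_lit 836) (nat_lit 0) (XT.nd (nat_lit 78) (nat_lit 456) (nat_lit 0) (XT.lf (nat_lit 0) (nat_lit 5809953409) (nat_lit 456) (nat_lit 15086786855) (nat_lit 532) (nat_lit 6909625998) (nat_lit 98) (nat_lit 5) (nat_lit 104) (nat_lit 5) (nat_lit 105) (nat_lit 5) (nat_lit 287) (nat_lit 269) (nat_lit 164)) (XT.nd (nat_lit 78) (nat_lit 456) (nat_lit 0) (XT.lf (nat_lit 0) (nat_lit 25819765810) (nat_lit 532) (nat_lit 2460799903) (nat_lit 76) (nat_lit 382033495) (nat_lit 98) (nat_lit 5) (nat_lit 105) (nat_lit 5) (nat_lit 99) (nat_lit 5) (nat_lit 288)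 (nat_lit 269) (nat_lit 163)) (XT.lf (nat_lit 0) (nat_lit 1720483077) (nat_lit 456) (nat_lit 11324183451) (nat_lit 76) (nat_lit 16506957221) (nat_lit 92) (nat_lit 5) (nat_lit 98) (nat_lit 5) (nat_lit 93) (nat_lit 5) (nat_lit 289) (nat_lit 269) (nat_lit 162)))) (XT.nd (nat_lit 78) (nat_lit 380) (nat_lit 0) (XT.lf (nat_lit 0) (nat_lit 6592561901) (nat_lit 532) (nat_lit 20844401699) (nat_lit 76) (nat_lit 3043131341) (nat_lit 86) (nat_lit 5) (nat_lit 93) (nat_lit 5) (nat_lit 87) (nat_lit 5) (nat_lit 290) (nat_lit 269) (nat_lit 161)) (XT.nd (nat_lit 78) (nat_lit 0) (nat_lit 0) (XT.lf (nat_lit 0) (nat_lit 291155758) (nat_lit 380) (nat_lit 11660129674) (nat_lit 456) (nat_lit 19496433563) (nat_lit 81) (nat_lit 5) (nat_lit 86) (nat_lit 5) (nat_lit 87) (nat_lit 5) (nat_lit 291) (nat_lit 269) (nat_lit 160)) (XT.lf (nat_lit 0) (nat_lit 17832977497) (nat_lit 456) (nat_lit 9597883253) (nat_lit 76) (nat_lit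 5025232079) (nat_lit 81) (nat_lit 5) (nat_lit 87) (nat_lit 5) (nat_lit 82) (nat_lit 5) (nat_lit 292) (nat_lit 269) (nat_lit 159))))))))
noncomputable def xc101 : XT := (XT.nd (nat_lit 1638) (nat_lit 1064) (nat_lit 0) (XT.nd (nat_lit 780) (nat_lit 1444) (nat_lit 0) (XT.nd (nat_lit 390) (nat_lit 912) (nat_lit 0) (XT.nd (nat_lit 156) (nat_lit 760) (nat_lit 0) (XT.nd (nat_lit 78) (nat_lit 304) (nat_lit 0) (XT.lf (nat_lit 0) (nat_lit 13168099835) (nat_lit 380) (nat_lit 11076520789) (nat_lit 456) (nat_lit 9263207353) (nat_lit 76) (nat_lit 5) (nat_lit 81) (nat_lit 5) (nat_lit 82) (nat_lit 5) (nat_lit 293) (nat_lit 269) (nat_lit 158)) (XT.lf (nat_lit 0) (nat_lit 2645962168) (nat_lit 304) (nat_lit 28506583495) (nat_lit 380) (nat_lit 3454350959) (nat_lit 72) (nat_lit 5) (nat_lit 76) (nat_lit 5) (nat_lit 77) (nat_lit 5) (nat_lit 294) (nat_lit 269) (nat_lit 157))) (XT.nd (nat_lit 78) (nat_lit 684) (nat_lit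 0) (XT.lf (nat_lit 0) (nat_lit 2908677690) (nat_lit 380) (nat_lit 8697708471) (nat_lit 76) (nat_lit 24144325927) (nat_lit 71) (nat_lit 5) (nat_lit 76) (nat_lit 5) (nat_lit 72) (nat_lit 5) (nat_lit 295) (nat_lit 269) (nat_lit 156)) (XT.nd (nat_lit 78) (nat_lit 304) (nat_lit 0) (XT.lf (nat_lit 0) (nat_lit 9726179234) (nat_lit 456) (nat_lit 21010484036) (nat_lit 76) (nat_lit 6207811745) (nat_lit 66) (nat_lit 5) (nat_lit 72) (nat_lit 5) (nat_lit 67) (nat_lit 5) (nat_lit 296) (nat_lit 269) (nat_lit 155)) (XT.lf (nat_lit 0) (nat_lit 3729293497) (nat_lit 304) (nat_lit 13391401291) (nat_lit 380) (nat_lit 21070162003) (nat_lit 62) (nat_lit 5) (nat_lit 66) (nat_lit 5) (nat_lit 67) (nat_lit 5) (nat_lit 297) (nat_lit 269) (nat_lit 154))))) (XT.nd (nat_lit 156) (nat_lit 608) (nat_lit 0) (XT.nd (nat_lit 78) (nat_lit 304) (nat_lit 0) (XT.lf (nat_lit 0) (nat_lit 25142669898) (nat_lit 380) (nat_lit 9405615772)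 (nat_lit 76) (nat_lit 4943554133) (nat_lit 62) (nat_lit 5) (nat_lit 67) (nat_lit 5) (nat_lit 63) (nat_lit 5) (nat_lit 298) (nat_lit 269) (nat_lit 153)) (XT.lf (nat_lit 0) (nat_lit 17092766131) (nat_lit 304) (nat_lit 16765745808) (nat_lit 380) (nat_lit 6990590470) (nat_lit 58) (nat_lit 5) (nat_lit 62) (nat_lit 5) (nat_lit 63) (nat_lit 5) (nat_lit 299) (nat_lit 269) (nat_lit 152))) (XT.nd (nat_lit 78) (nat_lit 304) (nat_lit 0) (XT.lf (nat_lit 0) (nat_lit 860104465) (nat_lit 304) (nat_lit 39409231047) (nat_lit 76) (nat_lit 2000536473) (nat_lit 54) (nat_lit 5) (nat_lit 58) (nat_lit 5) (nat_lit 55) (nat_lit 5) (nat_lit 300) (nat_lit 269) (nat_lit 151)) (XT.nd (nat_lit 78) (nat_lit 304) (nat_lit 0) (XT.lf (nat_lit 0) (nat_lit 9369965610) (nat_lit 304) (nat_lit 12700206205) (nat_lit 76) (nat_lit 21677107461) (nat_lit 54) (nat_lit 5) (nat_lit 58) (nat_lit 5) (nat_lit 55) (nat_lit 5) (nat_lit 301)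 (nat_lit 269) (nat_lit 150)) (XT.lf (nat_lit 0) (nat_lit 15641329021) (nat_lit 304) (nat_lit 2808317284) (nat_lit 380) (nat_lit 26844592143) (nat_lit 50) (nat_lit 5) (nat_lit 54) (nat_lit 5) (nat_lit 55) (nat_lit 5) (nat_lit 302) (nat_lit 269) (nat_lit 149)))))) (XT.nd (nat_lit 390) (nat_lit 684) (nat_lit 0) (XT.nd (nat_lit 156) (nat_lit 532) (nat_lit 0) (XT.nd (nat_lit 78) (nat_lit 228) (nat_lit 0) (XT.lf (nat_lit 0) (nat_lit 28276925222) (nat_lit 380) (nat_lit 1426089860) (nat_lit 76) (nat_lit 17206732845) (nat_lit 50) (nat_lit 5) (nat_lit 55) (nat_lit 5) (nat_lit 51) (nat_lit 5) (nat_lit 303) (nat_lit 269) (nat_lit 148)) (XT.lf (nat_lit 0) (nat_lit 28736778342) (nat_lit 228) (nat_lit 10157811248) (nat_lit 304) (nat_lit 9702482904) (nat_lit 47) (nat_lit 5) (nat_lit 50) (nat_lit 5) (nat_lit 51) (nat_lit 5) (nat_lit 304) (nat_lit 269) (nat_lit 147))) (XT.nd (nat_lit 78) (nat_lit 304) (nat_lit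 0) (XT.lf (nat_lit 0) (nat_lit 10160117012) (nat_lit 228) (nat_lit 40089755891) (nat_lit 304) (nat_lit 112698087) (nat_lit 44) (nat_lit 5) (nat_lit 47) (nat_lit 5) (nat_lit 48) (nat_lit 5) (nat_lit 305) (nat_lit 269) (nat_lit 146)) (XT.nd (nat_lit 78) (nat_lit 228) (nat_lit 0) (XT.lf (nat_lit 0) (nat_lit 10066018955) (nat_lit 304) (nat_lit 10321428562) (nat_lit 76) (nat_lit 31816922718) (nat_lit 43) (nat_lit 5) (nat_lit 47) (nat_lit 5) (nat_lit 44) (nat_lit 5) (nat_lit 306) (nat_lit 269) (nat_lit 145)) (XT.lf (nat_lit 0) (nat_lit 20957595061) (nat_lit 304) (nat_lit 32672928437) (nat_lit 76) (nat_lit 501523454) (nat_lit 40) (nat_lit 5) (nat_lit 44) (nat_lit 5) (nat_lit 41) (nat_lit 5) (nat_lit 307) (nat_lit 269) (nat_lit 144))))) (XT.nd (nat_lit 234) (nat_lit 304) (nat_lit 0) (XT.nd (nat_lit 78) (nat_lit 380) (nat_lit 0) (XT.lf (nat_lit 0) (nat_lit 32701967208) (nat_lit 304) (nat_lit 1322465614)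 (nat_lit 76) (nat_lit 22122436362) (nat_lit 40) (nat_lit 5) (nat_lit 44) (nat_lit 5) (nat_lit 41) (nat_lit 5) (nat_lit 308) (nat_lit 269) (nat_lit 143)) (XT.nd (nat_lit 78) (nat_lit 152) (nat_lit 0) (XT.lf (nat_lit 0) (nat_lit 32217438011) (nat_lit 228) (nat_lit 13121184919) (nat_lit 304) (nat_lit 12914665454) (nat_lit 37) (nat_lit 5) (nat_lit 40) (nat_lit 5) (nat_lit 41) (nat_lit 5) (nat_lit 309) (nat_lit 269) (nat_lit 142)) (XT.lf (nat_lit 0) (nat_lit 7043113109) (nat_lit 152) (nat_lit 51725810533) (nat_lit 228) (nat_lit 1691257969) (nat_lit 35) (nat_lit 5) (nat_lit 37) (nat_lit 5) (nat_lit 38) (nat_lit 5) (nat_lit 310) (nat_lit 269) (nat_lit 141)))) (XT.nd (nat_lit 78) (nat_lit 228) (nat_lit 0) (XT.lf (nat_lit 0) (nat_lit 10295077814) (nat_lit 228) (nat_lit 20687984409) (nat_lit 76) (nat_lit 31779492004) (nat_lit 34) (nat_lit 5) (nat_lit 37) (nat_lit 5) (nat_lit 35) (nat_lit 5) (nat_lit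 311) (nat_lit 269) (nat_lit 140)) (XT.nd (nat_lit 78) (nat_lit 0) (nat_lit 0) (XT.lf (nat_lit 0) (nat_lit 13925952175) (nat_lit 228) (nat_lit 9049809294) (nat_lit 304) (nat_lit 42199887933) (nat_lit 31) (nat_lit 5) (nat_lit 34) (nat_lit 5) (nat_lit 35) (nat_lit 5) (nat_lit 312) (nat_lit 269) (nat_lit 139)) (XT.lf (nat_lit 0) (nat_lit 36635877439) (nat_lit 304) (nat_lit 17142805352) (nat_lit 76) (nat_lit 13920360833) (nat_lit 31) (nat_lit 5) (nat_lit 35) (nat_lit 5) (nat_lit 32) (nat_lit 5) (nat_lit 313) (nat_lit 269) (nat_lit 138))))))) (XT.nd (nat_lit 858) (nat_lit 152) (nat_lit 0) (XT.nd (nat_lit 390) (nat_lit 380) (nat_lit 0) (XT.nd (nat_lit 156) (nat_lit 380) (nat_lit 0) (XT.nd (nat_lit 78) (nat_lit 0) (nat_lit 0) (XT.lf (nat_lit 0) (nat_lit 18941802778) (nat_lit 152) (nat_lit 32306751582) (nat_lit 228) (nat_lit 19091972479) (nat_lit 29) (nat_lit 5) (nat_lit 31) (nat_lit 5) (nat_lit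 32) (nat_lit 5) (nat_lit 314) (nat_lit 269) (nat_lit 137)) (XT.lf (nat_lit 0) (nat_lit 57183135698) (nat_lit 152) (nat_lit 9581461491) (nat_lit 228) (nat_lit 6344310719) (nat_lit 29) (nat_lit 5) (nat_lit 31) (nat_lit 5) (nat_lit 32) (nat_lit 5) (nat_lit 315) (nat_lit 269) (nat_lit 136))) (XT.nd (nat_lit 78) (nat_lit 152) (nat_lit 0) (XT.lf (nat_lit 0) (nat_lit 7248036253) (nat_lit 228) (nat_lit 54477051493) (nat_lit 76) (nat_lit 14278254352) (nat_lit 26) (nat_lit 5) (nat_lit 29) (nat_lit 5) (nat_lit 27) (nat_lit 5) (nat_lit 316) (nat_lit 269) (nat_lit 135)) (XT.nd (nat_lit 78) (nat_lit 152) (nat_lit 0) (XT.lf (nat_lit 0) (nat_lit 21648784049) (nat_lit 228) (nat_lit 18021662841) (nat_lit 76) (nat_lit 39362371832) (nat_lit 26) (nat_lit 5) (nat_lit 29) (nat_lit 5) (nat_lit 27) (nat_lit 5) (nat_lit 317) (nat_lit 269) (nat_lit 134)) (XT.lf (nat_lit 0) (nat_lit 20654320578) (nat_lit 152) (nat_lit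 16310458119) (nat_lit 228) (nat_lit 45243138937) (nat_lit 24) (nat_lit 5) (nat_lit 26) (nat_lit 5) (nat_lit 27) (nat_lit 5) (nat_lit 318) (nat_lit 269) (nat_lit 133))))) (XT.nd (nat_lit 234) (nat_lit 228) (nat_lit 0) (XT.nd (nat_lit 78) (nat_lit 152) (nat_lit 0) (XT.lf (nat_lit 0) (nat_lit 53309678709) (nat_lit 228) (nat_lit 23981480638) (nat_lit 76) (nat_lit 8242723492) (nat_lit 24) (nat_lit 5) (nat_lit 27) (nat_lit 5) (nat_lit 25) (nat_lit 5) (nat_lit 319) (nat_lit 269) (nat_lit 132)) (XT.nd (nat_lit 78) (nat_lit 0) (nat_lit 0) (XT.lf (nat_lit 0) (nat_lit 15604206809) (nat_lit 152) (nat_lit 55179153579) (nat_lit 228) (nat_lit 18233444120) (nat_lit 22) (nat_lit 5) (nat_lit 24) (nat_lit 5) (nat_lit 25) (nat_lit 5) (nat_lit 320) (nat_lit 269) (nat_lit 131)) (XT.lf (nat_lit 0) (nat_lit 57665557939) (nat_lit 152) (nat_lit 31709051636) (nat_lit 228) (nat_lit 3291950276) (nat_lit 22) (nat_lit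 5) (nat_lit 24) (nat_lit 5) (nat_lit 25) (nat_lit 5) (nat_lit 321) (nat_lit 269) (nat_lit 130)))) (XT.nd (nat_lit 78) (nat_lit 0) (nat_lit 0) (XT.lf (nat_lit 0) (nat_lit 5311050218) (nat_lit 152) (nat_lit 6891843834) (nat_lit 228) (nat_lit 84290892430) (nat_lit 19) (nat_lit 5) (nat_lit 21) (nat_lit 5) (nat_lit 22) (nat_lit 5) (nat_lit 322) (nat_lit 269) (nat_lit 129)) (XT.nd (nat_lit 78) (nat_lit 0) (nat_lit 0) (XT.lf (nat_lit 0) (nat_lit 28950343343) (nat_lit 228) (nat_lit 52357009989) (nat_lit 76) (nat_lit 19187668551) (nat_lit 19) (nat_lit 5) (nat_lit 22) (nat_lit 5) (nat_lit 20) (nat_lit 5) (nat_lit 323) (nat_lit 269) (nat_lit 128)) (XT.lf (nat_lit 0) (nat_lit 46602062499) (nat_lit 228) (nat_lit 11663878769) (nat_lit 76) (nat_lit 46428374300) (nat_lit 19) (nat_lit 5) (nat_lit 22) (nat_lit 5) (nat_lit 20) (nat_lit 5) (nat_lit 324) (nat_lit 269) (nat_lit 127)))))) (XT.nd (nat_lit 33540)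 (nat_lit 0) (nat_lit 9500) (XT.nd (nat_lit 33306) (nat_lit 0) (nat_lit 9424) (XT.nd (nat_lit 33228) (nat_lit 0) (nat_lit 9348) (XT.lf (nat_lit 0) (nat_lit 31677945231) (nat_lit 152) (nat_lit 33760393359) (nat_lit 228) (nat_lit 43656179489) (nat_lit 17) (nat_lit 5) (nat_lit 19) (nat_lit 5) (nat_lit 20) (nat_lit 5) (nat_lit 325) (nat_lit 269) (nat_lit 126)) (XT.lf (nat_lit 0) (nat_lit 2050817270) (nat_lit 1140) (nat_lit 3459208869) (nat_lit 1140) (nat_lit 3459208869) (nat_lit 140) (nat_lit 3) (nat_lit 155) (nat_lit 3) (nat_lit 155) (nat_lit 5) (nat_lit 270) (nat_lit 270) (nat_lit 180))) (XT.nd (nat_lit 78) (nat_lit 0) (nat_lit 0) (XT.lf (nat_lit 0) (nat_lit 4568188711) (nat_lit 1064) (nat_lit 12998653812) (nat_lit 1140) (nat_lit 808350193) (nat_lit 141) (nat_lit 5) (nat_lit 155) (nat_lit 5) (nat_lit 156) (nat_lit 5) (nat_lit 271) (nat_lit 270) (nat_lit 179)) (XT.nd (nat_lit 78) (nat_lit 0)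 (nat_lit 76) (XT.lf (nat_lit 0) (nat_lit 5221733023) (nat_lit 1064) (nat_lit 523718565) (nat_lit 1140) (nat_lit 13083442489) (nat_lit 141) (nat_lit 5) (nat_lit 155) (nat_lit 5) (nat_lit 156) (nat_lit 5) (nat_lit 272) (nat_lit 270) (nat_lit 178)) (XT.lf (nat_lit 0) (nat_lit 6077959039) (nat_lit 1064) (nat_lit 6553020143) (nat_lit 1140) (nat_lit 6669251099) (nat_lit 142) (nat_lit 5) (nat_lit 156) (nat_lit 5) (nat_lit 157) (nat_lit 5) (nat_lit 273) (nat_lit 270) (nat_lit 177))))) (XT.nd (nat_lit 234) (nat_lit 0) (nat_lit 152) (XT.nd (nat_lit 78) (nat_lit 0) (nat_lit 76) (XT.lf (nat_lit 76) (nat_lit 6964701624) (nat_lit 0) (nat_lit 124976186) (nat_lit 1140) (nat_lit 12702122574) (nat_lit 143) (nat_lit 5) (nat_lit 142) (nat_lit 5) (nat_lit 157) (nat_lit 5) (nat_lit 274) (nat_lit 270) (nat_lit 176)) (XT.nd (nat_lit 78) (nat_lit 0) (nat_lit 76) (XT.lf (nat_lit 76) (nat_lit 869471879) (nat_lit 0)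 (nat_lit 7467120379) (nat_lit 1140) (nat_lit 11965863710) (nat_lit 144) (nat_lit 5) (nat_lit 143) (nat_lit 5) (nat_lit 158) (nat_lit 5) (nat_lit 275) (nat_lit 270) (nat_lit 175)) (XT.lf (nat_lit 0) (nat_lit 9818161249) (nat_lit 1064) (nat_lit 5383561249) (nat_lit 1140) (nat_lit 5631795683) (nat_lit 144) (nat_lit 5) (nat_lit 158) (nat_lit 5) (nat_lit 159) (nat_lit 5) (nat_lit 276) (nat_lit 270) (nat_lit 174)))) (XT.nd (nat_lit 78) (nat_lit 0) (nat_lit 76) (XT.lf (nat_lit 76) (nat_lit 9466852903) (nat_lit 0) (nat_lit 2057947516) (nat_lit 1140) (nat_lit 9861844392) (nat_lit 145) (nat_lit 5) (nat_lit 144) (nat_lit 5) (nat_lit 159) (nat_lit 5) (nat_lit 277) (nat_lit 270) (nat_lit 173)) (XT.nd (nat_lit 78) (nat_lit 0) (nat_lit 76) (XT.lf (nat_lit 76) (nat_lit 3143376107) (nat_lit 0) (nat_lit 10357754828) (nat_lit 1140) (nat_lit 8460805163) (nat_lit 146) (nat_lit 5) (nat_lit 145) (nat_lit 5) (nat_lit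 160) (nat_lit 5) (nat_lit 278) (nat_lit 270) (nat_lit 172)) (XT.lf (nat_lit 0) (nat_lit 15738810500) (nat_lit 1064) (nat_lit 3418656375) (nat_lit 1140) (nat_lit 3403686338) (nat_lit 146) (nat_lit 5) (nat_lit 160) (nat_lit 5) (nat_lit 161) (nat_lit 5) (nat_lit 279) (nat_lit 270) (nat_lit 171))))))))
noncomputable def xc102 : XT := (XT.nd (nat_lit 1638) (nat_lit 2736) (nat_lit 0) (XT.nd (nat_lit 780) (nat_lit 3040) (nat_lit 0) (XT.nd (nat_lit 390) (nat_lit 1444) (nat_lit 0) (XT.nd (nat_lit 156) (nat_lit 1216) (nat_lit 0) (XT.nd (nat_lit 78) (nat_lit 988) (nat_lit 0) (XT.lf (nat_lit 76) (nat_lit 12887483309) (nat_lit 0) (nat_lit 5415910702) (nat_lit 1140) (nat_lit 4880522047) (nat_lit 147) (nat_lit 5) (nat_lit 146) (nat_lit 5) (nat_lit 161) (nat_lit 5) (nat_lit 280) (nat_lit 270) (nat_lit 170)) (XT.lf (nat_lit 0) (nat_lit 6268103613) (nat_lit 1064) (nat_lit 14897688790) (nat_lit 1140) (nat_lit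 2666970848) (nat_lit 133) (nat_lit 5) (nat_lit 147) (nat_lit 5) (nat_lit 148) (nat_lit 5) (nat_lit 281) (nat_lit 270) (nat_lit 169))) (XT.nd (nat_lit 78) (nat_lit 1216) (nat_lit 0) (XT.lf (nat_lit 0) (nat_lit 23809756508) (nat_lit 1064) (nat_lit 509342073) (nat_lit 1140) (nat_lit 190552760) (nat_lit 133) (nat_lit 5) (nat_lit 147) (nat_lit 5) (nat_lit 148) (nat_lit 5) (nat_lit 282) (nat_lit 270) (nat_lit 168)) (XT.nd (nat_lit 78) (nat_lit 532) (nat_lit 0) (XT.lf (nat_lit 0) (nat_lit 2659412139) (nat_lit 684) (nat_lit 8044819275) (nat_lit 76) (nat_lit 14506584840) (nat_lit 124) (nat_lit 5) (nat_lit 133) (nat_lit 5) (nat_lit 125) (nat_lit 5) (nat_lit 283) (nat_lit 270) (nat_lit 167)) (XT.lf (nat_lit 0) (nat_lit 5789335872) (nat_lit 608) (nat_lit 15812599763) (nat_lit 76) (nat_lit 4340833463) (nat_lit 117) (nat_lit 5) (nat_lit 125) (nat_lit 5) (nat_lit 118) (nat_lit 5) (nat_lit 284) (nat_lit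 270) (nat_lit 166))))) (XT.nd (nat_lit 156) (nat_lit 912) (nat_lit 0) (XT.nd (nat_lit 78) (nat_lit 0) (nat_lit 0) (XT.lf (nat_lit 0) (nat_lit 2604706827) (nat_lit 532) (nat_lit 6676808362) (nat_lit 608) (nat_lit 17423658595) (nat_lit 110) (nat_lit 5) (nat_lit 117) (nat_lit 5) (nat_lit 118) (nat_lit 5) (nat_lit 285) (nat_lit 270) (nat_lit 165)) (XT.lf (nat_lit 0) (nat_lit 13188627689) (nat_lit 608) (nat_lit 5326064006) (nat_lit 76) (nat_lit 8983822979) (nat_lit 110) (nat_lit 5) (nat_lit 118) (nat_lit 5) (nat_lit 111) (nat_lit 5) (nat_lit 286) (nat_lit 270) (nat_lit 164))) (XT.nd (nat_lit 78) (nat_lit 456) (nat_lit 0) (XT.lf (nat_lit 0) (nat_lit 14594467485) (nat_lit 456) (nat_lit 2894285582) (nat_lit 532) (nat_lit 10836864298) (nat_lit 104) (nat_lit 5) (nat_lit 110) (nat_lit 5) (nat_lit 111) (nat_lit 5) (nat_lit 287) (nat_lit 270) (nat_lit 163)) (XT.nd (nat_lit 78) (nat_lit 0) (nat_lit 0)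 (XT.lf (nat_lit 0) (nat_lit 6414668720) (nat_lit 456) (nat_lit 15826445679) (nat_lit 532) (nat_lit 6945867207) (nat_lit 98) (nat_lit 5) (nat_lit 104) (nat_lit 5) (nat_lit 105) (nat_lit 5) (nat_lit 288) (nat_lit 270) (nat_lit 162)) (XT.lf (nat_lit 0) (nat_lit 27396161949) (nat_lit 532) (nat_lit 2275478478) (nat_lit 76) (nat_lit 414843788) (nat_lit 98) (nat_lit 5) (nat_lit 105) (nat_lit 5) (nat_lit 99) (nat_lit 5) (nat_lit 289) (nat_lit 270) (nat_lit 161)))))) (XT.nd (nat_lit 390) (nat_lit 1368) (nat_lit 0) (XT.nd (nat_lit 156) (nat_lit 760) (nat_lit 0) (XT.nd (nat_lit 78) (nat_lit 456) (nat_lit 0) (XT.lf (nat_lit 0) (nat_lit 2084560706) (nat_lit 456) (nat_lit 11584705242) (nat_lit 76) (nat_lit 17350966114) (nat_lit 92) (nat_lit 5) (nat_lit 98) (nat_lit 5) (nat_lit 93) (nat_lit 5) (nat_lit 290) (nat_lit 270) (nat_lit 160)) (XT.lf (nat_lit 0) (nat_lit 7190138297) (nat_lit 532) (nat_lit 21581346894)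 (nat_lit 76) (nat_lit 3223974839) (nat_lit 86) (nat_lit 5) (nat_lit 93) (nat_lit 5) (nat_lit 87) (nat_lit 5) (nat_lit 291) (nat_lit 270) (nat_lit 159))) (XT.nd (nat_lit 78) (nat_lit 380) (nat_lit 0) (XT.lf (nat_lit 0) (nat_lit 602237793) (nat_lit 380) (nat_lit 12204651141) (nat_lit 456) (nat_lit 20204902253) (nat_lit 81) (nat_lit 5) (nat_lit 86) (nat_lit 5) (nat_lit 87) (nat_lit 5) (nat_lit 292) (nat_lit 270) (nat_lit 158)) (XT.nd (nat_lit 78) (nat_lit 380) (nat_lit 0) (XT.lf (nat_lit 0) (nat_lit 18970730345) (nat_lit 456) (nat_lit 9787807832) (nat_lit 76) (nat_lit 5312430860) (nat_lit 81) (nat_lit 5) (nat_lit 87) (nat_lit 5) (nat_lit 82) (nat_lit 5) (nat_lit 293) (nat_lit 270) (nat_lit 157)) (XT.lf (nat_lit 0) (nat_lit 14108162491) (nat_lit 380) (nat_lit 11585781368) (nat_lit 456) (nat_lit 9481643404) (nat_lit 76) (nat_lit 5) (nat_lit 81) (nat_lit 5) (nat_lit 82) (nat_lit 5) (nat_lit 294)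 (nat_lit 270) (nat_lit 156))))) (XT.nd (nat_lit 234) (nat_lit 608) (nat_lit 0) (XT.nd (nat_lit 78) (nat_lit 456) (nat_lit 0) (XT.lf (nat_lit 0) (nat_lit 3058841509) (nat_lit 304) (nat_lit 29880238644) (nat_lit 380) (nat_lit 3390799467) (nat_lit 72) (nat_lit 5) (nat_lit 76) (nat_lit 5) (nat_lit 77) (nat_lit 5) (nat_lit 295) (nat_lit 270) (nat_lit 155)) (XT.nd (nat_lit 78) (nat_lit 380) (nat_lit 0) (XT.lf (nat_lit 0) (nat_lit 3274738794) (nat_lit 380) (nat_lit 8860525416) (nat_lit 76) (nat_lit 25395907324) (nat_lit 71) (nat_lit 5) (nat_lit 76) (nat_lit 5) (nat_lit 72) (nat_lit 5) (nat_lit 296) (nat_lit 270) (nat_lit 154)) (XT.lf (nat_lit 0) (nat_lit 10425645769) (nat_lit 456) (nat_lit 21790419227) (nat_lit 76) (nat_lit 6568803478) (nat_lit 66) (nat_lit 5) (nat_lit 72) (nat_lit 5) (nat_lit 67) (nat_lit 5) (nat_lit 297) (nat_lit 270) (nat_lit 153)))) (XT.nd (nat_lit 78) (nat_lit 304) (nat_lit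 0) (XT.lf (nat_lit 0) (nat_lit 4178590803) (nat_lit 304) (nat_lit 14003672444) (nat_lit 380) (nat_lit 21911555548) (nat_lit 62) (nat_lit 5) (nat_lit 66) (nat_lit 5) (nat_lit 67) (nat_lit 5) (nat_lit 298) (nat_lit 270) (nat_lit 152)) (XT.nd (nat_lit 78) (nat_lit 304) (nat_lit 0) (XT.lf (nat_lit 0) (nat_lit 26596074357) (nat_lit 380) (nat_lit 9619836871) (nat_lit 76) (nat_lit 5244237367) (nat_lit 62) (nat_lit 5) (nat_lit 67) (nat_lit 5) (nat_lit 63) (nat_lit 5) (nat_lit 299) (nat_lit 270) (nat_lit 151)) (XT.lf (nat_lit 0) (nat_lit 18196124227) (nat_lit 304) (nat_lit 17544628883) (nat_lit 380) (nat_lit 7144748695) (nat_lit 58) (nat_lit 5) (nat_lit 62) (nat_lit 5) (nat_lit 63) (nat_lit 5) (nat_lit 300) (nat_lit 270) (nat_lit 150))))))) (XT.nd (nat_lit 858) (nat_lit 988) (nat_lit 0) (XT.nd (nat_lit 390) (nat_lit 912) (nat_lit 0) (XT.nd (nat_lit 156) (nat_lit 532) (nat_lit 0) (XT.nd (nat_lit 78)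 (nat_lit 0) (nat_lit 0) (XT.lf (nat_lit 0) (nat_lit 1088492984) (nat_lit 304) (nat_lit 41128737441) (nat_lit 76) (nat_lit 2160225757) (nat_lit 54) (nat_lit 5) (nat_lit 58) (nat_lit 5) (nat_lit 55) (nat_lit 5) (nat_lit 301) (nat_lit 270) (nat_lit 149)) (XT.lf (nat_lit 0) (nat_lit 10015019410) (nat_lit 304) (nat_lit 13096211602) (nat_lit 76) (nat_lit 22817784226) (nat_lit 54) (nat_lit 5) (nat_lit 58) (nat_lit 5) (nat_lit 55) (nat_lit 5) (nat_lit 302) (nat_lit 270) (nat_lit 148))) (XT.nd (nat_lit 78) (nat_lit 228) (nat_lit 0) (XT.lf (nat_lit 0) (nat_lit 16655549357) (nat_lit 304) (nat_lit 2886958983) (nat_lit 380) (nat_lit 28011015081) (nat_lit 50) (nat_lit 5) (nat_lit 54) (nat_lit 5) (nat_lit 55) (nat_lit 5) (nat_lit 303) (nat_lit 270) (nat_lit 147)) (XT.nd (nat_lit 78) (nat_lit 228) (nat_lit 0) (XT.lf (nat_lit 0) (nat_lit 29853603417) (nat_lit 380) (nat_lit 1271692425) (nat_lit 76) (nat_lit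 18124753992) (nat_lit 50) (nat_lit 5) (nat_lit 55) (nat_lit 5) (nat_lit 51) (nat_lit 5) (nat_lit 304) (nat_lit 270) (nat_lit 146)) (XT.lf (nat_lit 0) (nat_lit 30392849487) (nat_lit 228) (nat_lit 10603655010) (nat_lit 304) (nat_lit 10025419839) (nat_lit 47) (nat_lit 5) (nat_lit 50) (nat_lit 5) (nat_lit 51) (nat_lit 5) (nat_lit 305) (nat_lit 270) (nat_lit 145))))) (XT.nd (nat_lit 234) (nat_lit 380) (nat_lit 0) (XT.nd (nat_lit 78) (nat_lit 228) (nat_lit 0) (XT.lf (nat_lit 0) (nat_lit 38108419) (nat_lit 304) (nat_lit 41990879949) (nat_lit 76) (nat_lit 10846856675) (nat_lit 43) (nat_lit 5) (nat_lit 47) (nat_lit 5) (nat_lit 44) (nat_lit 5) (nat_lit 306) (nat_lit 270) (nat_lit 144)) (XT.nd (nat_lit 78) (nat_lit 228) (nat_lit 0) (XT.lf (nat_lit 0) (nat_lit 10716112577) (nat_lit 304) (nat_lit 10627443571) (nat_lit 76) (nat_lit 33466376769) (nat_lit 43) (nat_lit 5) (nat_lit 47) (nat_lit 5) (nat_lit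 44) (nat_lit 5) (nat_lit 307) (nat_lit 270) (nat_lit 143)) (XT.lf (nat_lit 0) (nat_lit 22147837263) (nat_lit 304) (nat_lit 34098645293) (nat_lit 76) (nat_lit 587655824) (nat_lit 40) (nat_lit 5) (nat_lit 44) (nat_lit 5) (nat_lit 41) (nat_lit 5) (nat_lit 308) (nat_lit 270) (nat_lit 142)))) (XT.nd (nat_lit 78) (nat_lit 380) (nat_lit 0) (XT.lf (nat_lit 0) (nat_lit 34472648853) (nat_lit 304) (nat_lit 1190560736) (nat_lit 76) (nat_lit 23286706940) (nat_lit 40) (nat_lit 5) (nat_lit 44) (nat_lit 5) (nat_lit 41) (nat_lit 5) (nat_lit 309) (nat_lit 270) (nat_lit 141)) (XT.nd (nat_lit 78) (nat_lit 152) (nat_lit 0) (XT.lf (nat_lit 0) (nat_lit 34020661632) (nat_lit 228) (nat_lit 13715868385) (nat_lit 304) (nat_lit 13425275779) (nat_lit 37) (nat_lit 5) (nat_lit 40) (nat_lit 5) (nat_lit 41) (nat_lit 5) (nat_lit 310) (nat_lit 270) (nat_lit 140)) (XT.lf (nat_lit 0) (nat_lit 7585561827) (nat_lit 152) (nat_lit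 54248938088) (nat_lit 228) (nat_lit 1644669512) (nat_lit 35) (nat_lit 5) (nat_lit 37) (nat_lit 5) (nat_lit 38) (nat_lit 5) (nat_lit 311) (nat_lit 270) (nat_lit 139)))))) (XT.nd (nat_lit 390) (nat_lit 532) (nat_lit 0) (XT.nd (nat_lit 156) (nat_lit 152) (nat_lit 0) (XT.nd (nat_lit 78) (nat_lit 228) (nat_lit 0) (XT.lf (nat_lit 0) (nat_lit 10932300391) (nat_lit 228) (nat_lit 21538523040) (nat_lit 76) (nat_lit 33425992713) (nat_lit 34) (nat_lit 5) (nat_lit 37) (nat_lit 5) (nat_lit 35) (nat_lit 5) (nat_lit 312) (nat_lit 270) (nat_lit 138)) (XT.lf (nat_lit 0) (nat_lit 14800840047) (nat_lit 228) (nat_lit 9442063058) (nat_lit 304) (nat_lit 44187795555) (nat_lit 31) (nat_lit 5) (nat_lit 34) (nat_lit 5) (nat_lit 35) (nat_lit 5) (nat_lit 313) (nat_lit 270) (nat_lit 137))) (XT.nd (nat_lit 78) (nat_lit 152) (nat_lit 0) (XT.lf (nat_lit 0) (nat_lit 38580940448) (nat_lit 304) (nat_lit 17826855674) (nat_lit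 76) (nat_lit 14672627699) (nat_lit 31) (nat_lit 5) (nat_lit 35) (nat_lit 5) (nat_lit 32) (nat_lit 5) (nat_lit 314) (nat_lit 270) (nat_lit 136)) (XT.nd (nat_lit 78) (nat_lit 0) (nat_lit 0) (XT.lf (nat_lit 0) (nat_lit 20057021274) (nat_lit 152) (nat_lit 33863452325) (nat_lit 228) (nat_lit 19933629208) (nat_lit 29) (nat_lit 5) (nat_lit 31) (nat_lit 5) (nat_lit 32) (nat_lit 5) (nat_lit 315) (nat_lit 270) (nat_lit 135)) (XT.lf (nat_lit 0) (nat_lit 60202414728) (nat_lit 152) (nat_lit 10004689961) (nat_lit 228) (nat_lit 6553962545) (nat_lit 29) (nat_lit 5) (nat_lit 31) (nat_lit 5) (nat_lit 32) (nat_lit 5) (nat_lit 316) (nat_lit 270) (nat_lit 134))))) (XT.nd (nat_lit 234) (nat_lit 152) (nat_lit 0) (XT.nd (nat_lit 78) (nat_lit 152) (nat_lit 0) (XT.lf (nat_lit 0) (nat_lit 7712932800) (nat_lit 228) (nat_lit 57040515544) (nat_lit 76) (nat_lit 15046840163) (nat_lit 26) (nat_lit 5) (nat_lit 29) (nat_lit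 5) (nat_lit 27) (nat_lit 5) (nat_lit 317) (nat_lit 270) (nat_lit 133)) (XT.nd (nat_lit 78) (nat_lit 152) (nat_lit 0) (XT.lf (nat_lit 0) (nat_lit 22828837284) (nat_lit 228) (nat_lit 18769995008) (nat_lit 76) (nat_lit 41382560036) (nat_lit 26) (nat_lit 5) (nat_lit 29) (nat_lit 5) (nat_lit 27) (nat_lit 5) (nat_lit 318) (nat_lit 270) (nat_lit 132)) (XT.lf (nat_lit 0) (nat_lit 21835409005) (nat_lit 152) (nat_lit 17072000618) (nat_lit 228) (nat_lit 47407939838) (nat_lit 24) (nat_lit 5) (nat_lit 26) (nat_lit 5) (nat_lit 27) (nat_lit 5) (nat_lit 319) (nat_lit 270) (nat_lit 131)))) (XT.nd (nat_lit 78) (nat_lit 152) (nat_lit 0) (XT.lf (nat_lit 0) (nat_lit 56065553963) (nat_lit 228) (nat_lit 25036918899) (nat_lit 76) (nat_lit 8705266386) (nat_lit 24) (nat_lit 5) (nat_lit 27) (nat_lit 5) (nat_lit 25) (nat_lit 5) (nat_lit 320) (nat_lit 270) (nat_lit 130)) (XT.nd (nat_lit 78) (nat_lit 0) (nat_lit 0) (XT.lf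 (nat_lit 0) (nat_lit 16523935630) (nat_lit 152) (nat_lit 57886020884) (nat_lit 228) (nat_lit 19054945381) (nat_lit 22) (nat_lit 5) (nat_lit 24) (nat_lit 5) (nat_lit 25) (nat_lit 5) (nat_lit 321) (nat_lit 270) (nat_lit 129)) (XT.lf (nat_lit 0) (nat_lit 60681710580) (nat_lit 152) (nat_lit 33244894338) (nat_lit 228) (nat_lit 3370670700) (nat_lit 22) (nat_lit 5) (nat_lit 24) (nat_lit 5) (nat_lit 25) (nat_lit 5) (nat_lit 322) (nat_lit 270) (nat_lit 128))))))))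
noncomputable def xc103 : XT := (XT.nd (nat_lit 34944) (nat_lit 0) (nat_lit 1368) (XT.nd (nat_lit 34086) (nat_lit 0) (nat_lit 6004) (XT.nd (nat_lit 33696) (nat_lit 0) (nat_lit 9348) (XT.nd (nat_lit 33462) (nat_lit 0) (nat_lit 9196) (XT.nd (nat_lit 78) (nat_lit 0) (nat_lit 0) (XT.lf (nat_lit 0) (nat_lit 5707404151) (nat_lit 152) (nat_lit 7187083678) (nat_lit 228) (nat_lit 88421438835) (nat_lit 19) (nat_lit 5) (nat_lit 21) (nat_lit 5) (nat_lit 22) (nat_lit 5) (nat_lit 323) (nat_lit 270) (nat_lit 127)) (XT.lf (nat_lit 0) (nat_lit 30475882872) (nat_lit 228) (nat_lit 54848311766) (nat_lit 76) (nat_lit 20193137031) (nat_lit 19) (nat_lit 5) (nat_lit 22) (nat_lit 5) (nat_lit 20) (nat_lit 5) (nat_lit 324) (nat_lit 270) (nat_lit 126))) (XT.nd (nat_lit 78) (nat_lit 0) (nat_lit 76) (XT.lf (nat_lit 0) (nat_lit 2452933990) (nat_lit 1140) (nat_lit 3477484810) (nat_lit 1140) (nat_lit 3477484810) (nat_lit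 140) (nat_lit 3) (nat_lit 155) (nat_lit 3) (nat_lit 155) (nat_lit 5) (nat_lit 271) (nat_lit 271) (nat_lit 178)) (XT.nd (nat_lit 78) (nat_lit 0) (nat_lit 0) (XT.lf (nat_lit 0) (nat_lit 5367483101) (nat_lit 1064) (nat_lit 13326720899) (nat_lit 1140) (nat_lit 581086805) (nat_lit 141) (nat_lit 5) (nat_lit 155) (nat_lit 5) (nat_lit 156) (nat_lit 5) (nat_lit 272) (nat_lit 271) (nat_lit 177)) (XT.lf (nat_lit 0) (nat_lit 6026519631) (nat_lit 1064) (nat_lit 243365824) (nat_lit 1140) (nat_lit 13482680425) (nat_lit 141) (nat_lit 5) (nat_lit 155) (nat_lit 5) (nat_lit 156) (nat_lit 5) (nat_lit 273) (nat_lit 271) (nat_lit 176))))) (XT.nd (nat_lit 156) (nat_lit 0) (nat_lit 76) (XT.nd (nat_lit 78) (nat_lit 0) (nat_lit 0) (XT.lf (nat_lit 0) (nat_lit 6900385804) (nat_lit 1064) (nat_lit 6563764071) (nat_lit 1140) (nat_lit 6784143768) (nat_lit 142) (nat_lit 5) (nat_lit 156) (nat_lit 5) (nat_lit 157) (nat_lit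 5) (nat_lit 274) (nat_lit 271) (nat_lit 175)) (XT.lf (nat_lit 76) (nat_lit 7620759707) (nat_lit 0) (nat_lit 320197941) (nat_lit 1140) (nat_lit 12824202888) (nat_lit 143) (nat_lit 5) (nat_lit 142) (nat_lit 5) (nat_lit 157) (nat_lit 5) (nat_lit 275) (nat_lit 271) (nat_lit 174))) (XT.nd (nat_lit 78) (nat_lit 0) (nat_lit 76) (XT.lf (nat_lit 76) (nat_lit 1229473885) (nat_lit 0) (nat_lit 7998399626) (nat_lit 1140) (nat_lit 12074208860) (nat_lit 144) (nat_lit 5) (nat_lit 143) (nat_lit 5) (nat_lit 158) (nat_lit 5) (nat_lit 276) (nat_lit 271) (nat_lit 173)) (XT.nd (nat_lit 78) (nat_lit 0) (nat_lit 0) (XT.lf (nat_lit 0) (nat_lit 10759482250) (nat_lit 1064) (nat_lit 5335079443) (nat_lit 1140) (nat_lit 5765917298) (nat_lit 144) (nat_lit 5) (nat_lit 158) (nat_lit 5) (nat_lit 159) (nat_lit 5) (nat_lit 277) (nat_lit 271) (nat_lit 172)) (XT.lf (nat_lit 76) (nat_lit 10248749761) (nat_lit 0) (nat_lit 2284221395)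 (nat_lit 1140) (nat_lit 9908902536) (nat_lit 145) (nat_lit 5) (nat_lit 144) (nat_lit 5) (nat_lit 159) (nat_lit 5) (nat_lit 278) (nat_lit 271) (nat_lit 171)))))) (XT.nd (nat_lit 390) (nat_lit 2584) (nat_lit 0) (XT.nd (nat_lit 156) (nat_lit 988) (nat_lit 0) (XT.nd (nat_lit 78) (nat_lit 0) (nat_lit 76) (XT.lf (nat_lit 76) (nat_lit 3615105545) (nat_lit 0) (nat_lit 10974338776) (nat_lit 1140) (nat_lit 8457099982) (nat_lit 146) (nat_lit 5) (nat_lit 145) (nat_lit 5) (nat_lit 160) (nat_lit 5) (nat_lit 279) (nat_lit 271) (nat_lit 170)) (XT.lf (nat_lit 0) (nat_lit 16918425417) (nat_lit 1064) (nat_lit 3276257803) (nat_lit 1140) (nat_lit 3481708476) (nat_lit 146) (nat_lit 5) (nat_lit 160) (nat_lit 5) (nat_lit 161) (nat_lit 5) (nat_lit 280) (nat_lit 271) (nat_lit 169))) (XT.nd (nat_lit 78) (nat_lit 1064) (nat_lit 0) (XT.lf (nat_lit 76) (nat_lit 13836207284) (nat_lit 0) (nat_lit 5759257635) (nat_lit 1140)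 (nat_lit 4735350432) (nat_lit 147) (nat_lit 5) (nat_lit 146) (nat_lit 5) (nat_lit 161) (nat_lit 5) (nat_lit 281) (nat_lit 271) (nat_lit 168)) (XT.nd (nat_lit 78) (nat_lit 76) (nat_lit 0) (XT.lf (nat_lit 0) (nat_lit 6889755927) (nat_lit 1064) (nat_lit 15695578490) (nat_lit 1140) (nat_lit 2427287070) (nat_lit 133) (nat_lit 5) (nat_lit 147) (nat_lit 5) (nat_lit 148) (nat_lit 5) (nat_lit 282) (nat_lit 271) (nat_lit 167)) (XT.lf (nat_lit 0) (nat_lit 152160191) (nat_lit 1140) (nat_lit 431593665) (nat_lit 76) (nat_lit 25140116321) (nat_lit 132) (nat_lit 5) (nat_lit 147) (nat_lit 5) (nat_lit 133) (nat_lit 5) (nat_lit 283) (nat_lit 271) (nat_lit 166))))) (XT.nd (nat_lit 234) (nat_lit 912) (nat_lit 0) (XT.nd (nat_lit 78) (nat_lit 1064) (nat_lit 0) (XT.lf (nat_lit 0) (nat_lit 3126543455) (nat_lit 684) (nat_lit 8143057592) (nat_lit 76) (nat_lit 15190901350) (nat_lit 124) (nat_lit 5) (nat_lit 133) (nat_lit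 5) (nat_lit 125) (nat_lit 5) (nat_lit 284) (nat_lit 271) (nat_lit 165)) (XT.nd (nat_lit 78) (nat_lit 532) (nat_lit 0) (XT.lf (nat_lit 0) (nat_lit 6399641464) (nat_lit 608) (nat_lit 16297270354) (nat_lit 76) (nat_lit 4532580239) (nat_lit 117) (nat_lit 5) (nat_lit 125) (nat_lit 5) (nat_lit 118) (nat_lit 5) (nat_lit 285) (nat_lit 271) (nat_lit 164)) (XT.lf (nat_lit 0) (nat_lit 3032131301) (nat_lit 532) (nat_lit 7021877172) (nat_lit 608) (nat_lit 17976418778) (nat_lit 110) (nat_lit 5) (nat_lit 117) (nat_lit 5) (nat_lit 118) (nat_lit 5) (nat_lit 286) (nat_lit 271) (nat_lit 163)))) (XT.nd (nat_lit 78) (nat_lit 912) (nat_lit 0) (XT.lf (nat_lit 0) (nat_lit 14141687254) (nat_lit 608) (nat_lit 5299698359) (nat_lit 76) (nat_lit 9422529095) (nat_lit 110) (nat_lit 5) (nat_lit 118) (nat_lit 5) (nat_lit 111) (nat_lit 5) (nat_lit 287) (nat_lit 271) (nat_lit 162)) (XT.nd (nat_lit 78) (nat_lit 456) (nat_lit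 0) (XT.lf (nat_lit 0) (nat_lit 15608470413) (nat_lit 456) (nat_lit 3037098863) (nat_lit 532) (nat_lit 11087174882) (nat_lit 104) (nat_lit 5) (nat_lit 110) (nat_lit 5) (nat_lit 111) (nat_lit 5) (nat_lit 288) (nat_lit 271) (nat_lit 161)) (XT.lf (nat_lit 0) (nat_lit 7020406819) (nat_lit 456) (nat_lit 16604452301) (nat_lit 532) (nat_lit 7012670689) (nat_lit 98) (nat_lit 5) (nat_lit 104) (nat_lit 5) (nat_lit 105) (nat_lit 5) (nat_lit 289) (nat_lit 271) (nat_lit 160))))))) (XT.nd (nat_lit 858) (nat_lit 1900) (nat_lit 0) (XT.nd (nat_lit 390) (nat_lit 1444) (nat_lit 0) (XT.nd (nat_lit 156) (nat_lit 836) (nat_lit 0) (XT.nd (nat_lit 78) (nat_lit 456) (nat_lit 0) (XT.lf (nat_lit 0) (nat_lit 29024843378) (nat_lit 532) (nat_lit 2109559504) (nat_lit 76) (nat_lit 448020097) (nat_lit 98) (nat_lit 5) (nat_lit 105) (nat_lit 5) (nat_lit 99) (nat_lit 5) (nat_lit 290) (nat_lit 271) (nat_lit 159)) (XT.lf (nat_lit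 0) (nat_lit 2440991439) (nat_lit 456) (nat_lit 11886673038) (nat_lit 76) (nat_lit 18235440526) (nat_lit 92) (nat_lit 5) (nat_lit 98) (nat_lit 5) (nat_lit 93) (nat_lit 5) (nat_lit 291) (nat_lit 271) (nat_lit 158))) (XT.nd (nat_lit 78) (nat_lit 380) (nat_lit 0) (XT.lf (nat_lit 0) (nat_lit 7792682220) (nat_lit 532) (nat_lit 22383520914) (nat_lit 76) (nat_lit 3411193472) (nat_lit 86) (nat_lit 5) (nat_lit 93) (nat_lit 5) (nat_lit 87) (nat_lit 5) (nat_lit 292) (nat_lit 271) (nat_lit 157)) (XT.nd (nat_lit 78) (nat_lit 0) (nat_lit 0) (XT.lf (nat_lit 0) (nat_lit 901305916) (nat_lit 380) (nat_lit 12779976654) (nat_lit 456) (nat_lit 20973557354) (nat_lit 81) (nat_lit 5) (nat_lit 86) (nat_lit 5) (nat_lit 87) (nat_lit 5) (nat_lit 293) (nat_lit 271) (nat_lit 156)) (XT.lf (nat_lit 0) (nat_lit 20142490421) (nat_lit 456) (nat_lit 10014187263) (nat_lit 76) (nat_lit 5610648481) (nat_lit 81) (nat_lit 5) (nat_lit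 87) (nat_lit 5) (nat_lit 82) (nat_lit 5) (nat_lit 294) (nat_lit 271) (nat_lit 155))))) (XT.nd (nat_lit 234) (nat_lit 684) (nat_lit 0) (XT.nd (nat_lit 78) (nat_lit 380) (nat_lit 0) (XT.lf (nat_lit 0) (nat_lit 15069042419) (nat_lit 380) (nat_lit 12124648249) (nat_lit 456) (nat_lit 9733753406) (nat_lit 76) (nat_lit 5) (nat_lit 81) (nat_lit 5) (nat_lit 82) (nat_lit 5) (nat_lit 295) (nat_lit 271) (nat_lit 154)) (XT.nd (nat_lit 78) (nat_lit 76) (nat_lit 0) (XT.lf (nat_lit 0) (nat_lit 3466279034) (nat_lit 304) (nat_lit 31327380711) (nat_lit 380) (nat_lit 3346036456) (nat_lit 72) (nat_lit 5) (nat_lit 76) (nat_lit 5) (nat_lit 77) (nat_lit 5) (nat_lit 296) (nat_lit 271) (nat_lit 153)) (XT.lf (nat_lit 0) (nat_lit 3638591125) (nat_lit 380) (nat_lit 9056777555) (nat_lit 76) (nat_lit 26705943144) (nat_lit 71) (nat_lit 5) (nat_lit 76) (nat_lit 5) (nat_lit 72) (nat_lit 5) (nat_lit 297) (nat_lit 271) (nat_lit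 152)))) (XT.nd (nat_lit 78) (nat_lit 304) (nat_lit 0) (XT.lf (nat_lit 0) (nat_lit 11140268259) (nat_lit 456) (nat_lit 22634507979) (nat_lit 76) (nat_lit 6943140383) (nat_lit 66) (nat_lit 5) (nat_lit 72) (nat_lit 5) (nat_lit 67) (nat_lit 5) (nat_lit 298) (nat_lit 271) (nat_lit 151)) (XT.nd (nat_lit 78) (nat_lit 0) (nat_lit 0) (XT.lf (nat_lit 0) (nat_lit 4625917287) (nat_lit 304) (nat_lit 14651884265) (nat_lit 380) (nat_lit 22814739171) (nat_lit 62) (nat_lit 5) (nat_lit 66) (nat_lit 5) (nat_lit 67) (nat_lit 5) (nat_lit 299) (nat_lit 271) (nat_lit 150)) (XT.lf (nat_lit 0) (nat_lit 28103901625) (nat_lit 380) (nat_lit 9868575028) (nat_lit 76) (nat_lit 5554980325) (nat_lit 62) (nat_lit 5) (nat_lit 67) (nat_lit 5) (nat_lit 63) (nat_lit 5) (nat_lit 300) (nat_lit 271) (nat_lit 149)))))) (XT.nd (nat_lit 390) (nat_lit 988) (nat_lit 0) (XT.nd (nat_lit 156) (nat_lit 304) (nat_lit 0) (XT.nd (nat_lit 78)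 (nat_lit 304) (nat_lit 0) (XT.lf (nat_lit 0) (nat_lit 19331526620) (nat_lit 304) (nat_lit 18367978952) (nat_lit 380) (nat_lit 7324778602) (nat_lit 58) (nat_lit 5) (nat_lit 62) (nat_lit 5) (nat_lit 63) (nat_lit 5) (nat_lit 301) (nat_lit 271) (nat_lit 148)) (XT.lf (nat_lit 0) (nat_lit 1311065747) (nat_lit 304) (nat_lit 42957550586) (nat_lit 76) (nat_lit 2322352656) (nat_lit 54) (nat_lit 5) (nat_lit 58) (nat_lit 5) (nat_lit 55) (nat_lit 5) (nat_lit 302) (nat_lit 271) (nat_lit 147))) (XT.nd (nat_lit 78) (nat_lit 304) (nat_lit 0) (XT.lf (nat_lit 0) (nat_lit 10675911442) (nat_lit 304) (nat_lit 13534237680) (nat_lit 76) (nat_lit 24010212114) (nat_lit 54) (nat_lit 5) (nat_lit 58) (nat_lit 5) (nat_lit 55) (nat_lit 5) (nat_lit 303) (nat_lit 271) (nat_lit 146)) (XT.nd (nat_lit 78) (nat_lit 0) (nat_lit 0) (XT.lf (nat_lit 0) (nat_lit 17698897243) (nat_lit 304) (nat_lit 2975275942) (nat_lit 380) (nat_lit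 29252104003) (nat_lit 50) (nat_lit 5) (nat_lit 54) (nat_lit 5) (nat_lit 55) (nat_lit 5) (nat_lit 304) (nat_lit 271) (nat_lit 145)) (XT.lf (nat_lit 0) (nat_lit 31493976951) (nat_lit 380) (nat_lit 1130558745) (nat_lit 76) (nat_lit 19083313237) (nat_lit 50) (nat_lit 5) (nat_lit 55) (nat_lit 5) (nat_lit 51) (nat_lit 5) (nat_lit 305) (nat_lit 271) (nat_lit 144))))) (XT.nd (nat_lit 234) (nat_lit 456) (nat_lit 0) (XT.nd (nat_lit 78) (nat_lit 304) (nat_lit 0) (XT.lf (nat_lit 0) (nat_lit 32111342054) (nat_lit 228) (nat_lit 11077559483) (nat_lit 304) (nat_lit 10379582251) (nat_lit 47) (nat_lit 5) (nat_lit 50) (nat_lit 5) (nat_lit 51) (nat_lit 5) (nat_lit 306) (nat_lit 271) (nat_lit 143)) (XT.nd (nat_lit 78) (nat_lit 0) (nat_lit 0) (XT.lf (nat_lit 0) (nat_lit 179816388) (nat_lit 304) (nat_lit 43890370214) (nat_lit 76) (nat_lit 11445016570) (nat_lit 43) (nat_lit 5) (nat_lit 47) (nat_lit 5) (nat_lit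 44) (nat_lit 5) (nat_lit 307) (nat_lit 271) (nat_lit 142)) (XT.lf (nat_lit 0) (nat_lit 11385063490) (nat_lit 304) (nat_lit 10968288386) (nat_lit 76) (nat_lit 35192854713) (nat_lit 43) (nat_lit 5) (nat_lit 47) (nat_lit 5) (nat_lit 44) (nat_lit 5) (nat_lit 308) (nat_lit 271) (nat_lit 141)))) (XT.nd (nat_lit 78) (nat_lit 228) (nat_lit 0) (XT.lf (nat_lit 0) (nat_lit 23384356064) (nat_lit 304) (nat_lit 35614979312) (nat_lit 76) (nat_lit 672418386) (nat_lit 40) (nat_lit 5) (nat_lit 44) (nat_lit 5) (nat_lit 41) (nat_lit 5) (nat_lit 309) (nat_lit 271) (nat_lit 140)) (XT.nd (nat_lit 78) (nat_lit 228) (nat_lit 0) (XT.lf (nat_lit 0) (nat_lit 36319259332) (nat_lit 304) (nat_lit 1070471396) (nat_lit 76) (nat_lit 24503784925) (nat_lit 40) (nat_lit 5) (nat_lit 44) (nat_lit 5) (nat_lit 41) (nat_lit 5) (nat_lit 310) (nat_lit 271) (nat_lit 139)) (XT.lf (nat_lit 0) (nat_lit 35896163395) (nat_lit 228) (nat_lit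 14345992161) (nat_lit 304) (nat_lit 13973979071) (nat_lit 37) (nat_lit 5) (nat_lit 40) (nat_lit 5) (nat_lit 41) (nat_lit 5) (nat_lit 311) (nat_lit 271) (nat_lit 138))))))))
noncomputable def xc104 : XT := (XT.nd (nat_lit 35022) (nat_lit 0) (nat_lit 3268) (XT.nd (nat_lit 780) (nat_lit 380) (nat_lit 0) (XT.nd (nat_lit 390) (nat_lit 380) (nat_lit 0) (XT.nd (nat_lit 156) (nat_lit 380) (nat_lit 0) (XT.nd (nat_lit 78) (nat_lit 76) (nat_lit 0) (XT.lf (nat_lit 0) (nat_lit 8137441335) (nat_lit 152) (nat_lit 56904094316) (nat_lit 228) (nat_lit 1607944843) (nat_lit 35) (nat_lit 5) (nat_lit 37) (nat_lit 5) (nat_lit 38) (nat_lit 5) (nat_lit 312) (nat_lit 271) (nat_lit 137)) (XT.lf (nat_lit 0) (nat_lit 11589998118) (nat_lit 228) (nat_lit 22448682217) (nat_lit 76) (nat_lit 35149470225) (nat_lit 34) (nat_lit 5) (nat_lit 37) (nat_lit 5) (nat_lit 35) (nat_lit 5) (nat_lit 313) (nat_lit 271) (nat_lit 136)))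 (XT.nd (nat_lit 78) (nat_lit 152) (nat_lit 0) (XT.lf (nat_lit 0) (nat_lit 15702868682) (nat_lit 228) (nat_lit 9859529748) (nat_lit 304) (nat_lit 46286449030) (nat_lit 31) (nat_lit 5) (nat_lit 34) (nat_lit 5) (nat_lit 35) (nat_lit 5) (nat_lit 314) (nat_lit 271) (nat_lit 135)) (XT.nd (nat_lit 78) (nat_lit 152) (nat_lit 0) (XT.lf (nat_lit 0) (nat_lit 40612725917) (nat_lit 304) (nat_lit 18561200775) (nat_lit 76) (nat_lit 15457278426) (nat_lit 31) (nat_lit 5) (nat_lit 35) (nat_lit 5) (nat_lit 32) (nat_lit 5) (nat_lit 315) (nat_lit 271) (nat_lit 134)) (XT.lf (nat_lit 0) (nat_lit 21212369714) (nat_lit 152) (nat_lit 35503439604) (nat_lit 228) (nat_lit 20827869040) (nat_lit 29) (nat_lit 5) (nat_lit 31) (nat_lit 5) (nat_lit 32) (nat_lit 5) (nat_lit 316) (nat_lit 271) (nat_lit 133))))) (XT.nd (nat_lit 156) (nat_lit 152) (nat_lit 0) (XT.nd (nat_lit 78) (nat_lit 228) (nat_lit 0) (XT.lf (nat_lit 0) (nat_lit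 63357771060) (nat_lit 152) (nat_lit 10454271756) (nat_lit 228) (nat_lit 6784097217) (nat_lit 29) (nat_lit 5) (nat_lit 31) (nat_lit 5) (nat_lit 32) (nat_lit 5) (nat_lit 317) (nat_lit 271) (nat_lit 132)) (XT.lf (nat_lit 0) (nat_lit 8191545185) (nat_lit 228) (nat_lit 59747064203) (nat_lit 76) (nat_lit 15848772279) (nat_lit 26) (nat_lit 5) (nat_lit 29) (nat_lit 5) (nat_lit 27) (nat_lit 5) (nat_lit 318) (nat_lit 271) (nat_lit 131))) (XT.nd (nat_lit 78) (nat_lit 152) (nat_lit 0) (XT.lf (nat_lit 0) (nat_lit 24058817953) (nat_lit 228) (nat_lit 19569945122) (nat_lit 76) (nat_lit 43498916711) (nat_lit 26) (nat_lit 5) (nat_lit 29) (nat_lit 5) (nat_lit 27) (nat_lit 5) (nat_lit 319) (nat_lit 271) (nat_lit 130)) (XT.nd (nat_lit 78) (nat_lit 0) (nat_lit 0) (XT.lf (nat_lit 0) (nat_lit 23061757595) (nat_lit 152) (nat_lit 17876638829) (nat_lit 228) (nat_lit 49690032028) (nat_lit 24) (nat_lit 5) (nat_lit 26)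 (nat_lit 5) (nat_lit 27) (nat_lit 5) (nat_lit 320) (nat_lit 271) (nat_lit 129)) (XT.lf (nat_lit 0) (nat_lit 58950819251) (nat_lit 228) (nat_lit 26158482966) (nat_lit 76) (nat_lit 9186250085) (nat_lit 24) (nat_lit 5) (nat_lit 27) (nat_lit 5) (nat_lit 25) (nat_lit 5) (nat_lit 321) (nat_lit 271) (nat_lit 128)))))) (XT.nd (nat_lit 33774) (nat_lit 0) (nat_lit 9272) (XT.nd (nat_lit 156) (nat_lit 228) (nat_lit 0) (XT.nd (nat_lit 78) (nat_lit 0) (nat_lit 0) (XT.lf (nat_lit 0) (nat_lit 17476679786) (nat_lit 152) (nat_lit 60733074424) (nat_lit 228) (nat_lit 19925904946) (nat_lit 22) (nat_lit 5) (nat_lit 24) (nat_lit 5) (nat_lit 25) (nat_lit 5) (nat_lit 322) (nat_lit 271) (nat_lit 127)) (XT.lf (nat_lit 0) (nat_lit 63836317418) (nat_lit 152) (nat_lit 34862141432) (nat_lit 228) (nat_lit 3461311183) (nat_lit 22) (nat_lit 5) (nat_lit 24) (nat_lit 5) (nat_lit 25) (nat_lit 5) (nat_lit 323) (nat_lit 271)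 (nat_lit 126))) (XT.nd (nat_lit 33462) (nat_lit 0) (nat_lit 9196) (XT.lf (nat_lit 0) (nat_lit 6111415105) (nat_lit 152) (nat_lit 7501673828) (nat_lit 228) (nat_lit 92766321919) (nat_lit 19) (nat_lit 5) (nat_lit 21) (nat_lit 5) (nat_lit 22) (nat_lit 5) (nat_lit 324) (nat_lit 271) (nat_lit 125)) (XT.nd (nat_lit 78) (nat_lit 0) (nat_lit 76) (XT.lf (nat_lit 0) (nat_lit 2847304822) (nat_lit 1140) (nat_lit 3511055647) (nat_lit 1140) (nat_lit 3511055647) (nat_lit 140) (nat_lit 3) (nat_lit 155) (nat_lit 3) (nat_lit 155) (nat_lit 5) (nat_lit 272) (nat_lit 272) (nat_lit 176)) (XT.lf (nat_lit 0) (nat_lit 6153666739) (nat_lit 1064) (nat_lit 13701115354) (nat_lit 1140) (nat_lit 367346680) (nat_lit 141) (nat_lit 5) (nat_lit 155) (nat_lit 5) (nat_lit 156) (nat_lit 5) (nat_lit 273) (nat_lit 272) (nat_lit 175))))) (XT.nd (nat_lit 234) (nat_lit 0) (nat_lit 152) (XT.nd (nat_lit 78) (nat_lit 0) (nat_lit 76)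 (XT.lf (nat_lit 76) (nat_lit 22953398) (nat_lit 0) (nat_lit 6798264745) (nat_lit 1140) (nat_lit 13902848866) (nat_lit 142) (nat_lit 5) (nat_lit 141) (nat_lit 5) (nat_lit 156) (nat_lit 5) (nat_lit 274) (nat_lit 272) (nat_lit 174)) (XT.nd (nat_lit 78) (nat_lit 0) (nat_lit 0) (XT.lf (nat_lit 0) (nat_lit 7715726013) (nat_lit 1064) (nat_lit 6604508211) (nat_lit 1140) (nat_lit 6925101627) (nat_lit 142) (nat_lit 5) (nat_lit 156) (nat_lit 5) (nat_lit 157) (nat_lit 5) (nat_lit 275) (nat_lit 272) (nat_lit 173)) (XT.lf (nat_lit 76) (nat_lit 8281002230) (nat_lit 0) (nat_lit 507611871) (nat_lit 1140) (nat_lit 13000083495) (nat_lit 143) (nat_lit 5) (nat_lit 142) (nat_lit 5) (nat_lit 157) (nat_lit 5) (nat_lit 276) (nat_lit 272) (nat_lit 172)))) (XT.nd (nat_lit 78) (nat_lit 0) (nat_lit 76) (XT.lf (nat_lit 76) (nat_lit 1578048180) (nat_lit 0) (nat_lit 8541560631) (nat_lit 1140) (nat_lit 12233521991) (nat_lit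 144) (nat_lit 5) (nat_lit 143) (nat_lit 5) (nat_lit 158) (nat_lit 5) (nat_lit 277) (nat_lit 272) (nat_lit 171)) (XT.nd (nat_lit 78) (nat_lit 0) (nat_lit 0) (XT.lf (nat_lit 0) (nat_lit 11705994176) (nat_lit 1064) (nat_lit 5313706550) (nat_lit 1140) (nat_lit 5920455187) (nat_lit 144) (nat_lit 5) (nat_lit 158) (nat_lit 5) (nat_lit 159) (nat_lit 5) (nat_lit 278) (nat_lit 272) (nat_lit 170)) (XT.lf (nat_lit 76) (nat_lit 11041055016) (nat_lit 0) (nat_lit 2510338590) (nat_lit 1140) (nat_lit 9999781607) (nat_lit 145) (nat_lit 5) (nat_lit 144) (nat_lit 5) (nat_lit 159) (nat_lit 5) (nat_lit 279) (nat_lit 272) (nat_lit 169))))))) (XT.nd (nat_lit 780) (nat_lit 3192) (nat_lit 0) (XT.nd (nat_lit 390) (nat_lit 2128) (nat_lit 0) (XT.nd (nat_lit 156) (nat_lit 988) (nat_lit 0) (XT.nd (nat_lit 78) (nat_lit 0) (nat_lit 76) (XT.lf (nat_lit 76) (nat_lit 4081176589) (nat_lit 0) (nat_lit 11612576084) (nat_lit 1140)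 (nat_lit 8492884288) (nat_lit 146) (nat_lit 5) (nat_lit 145) (nat_lit 5) (nat_lit 160) (nat_lit 5) (nat_lit 280) (nat_lit 272) (nat_lit 168)) (XT.lf (nat_lit 0) (nat_lit 18120513937) (nat_lit 1064) (nat_lit 3155869885) (nat_lit 1140) (nat_lit 3572200087) (nat_lit 146) (nat_lit 5) (nat_lit 160) (nat_lit 5) (nat_lit 161) (nat_lit 5) (nat_lit 281) (nat_lit 272) (nat_lit 167))) (XT.nd (nat_lit 78) (nat_lit 1064) (nat_lit 0) (XT.lf (nat_lit 76) (nat_lit 14804071898) (nat_lit 0) (nat_lit 6113026773) (nat_lit 1140) (nat_lit 4619104151) (nat_lit 147) (nat_lit 5) (nat_lit 146) (nat_lit 5) (nat_lit 161) (nat_lit 5) (nat_lit 282) (nat_lit 272) (nat_lit 166)) (XT.nd (nat_lit 78) (nat_lit 76) (nat_lit 0) (XT.lf (nat_lit 0) (nat_lit 7513832960) (nat_lit 1064) (nat_lit 16528434747) (nat_lit 1140) (nat_lit 2210300113) (nat_lit 133) (nat_lit 5) (nat_lit 147) (nat_lit 5) (nat_lit 148) (nat_lit 5) (nat_lit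 283) (nat_lit 272) (nat_lit 165)) (XT.lf (nat_lit 0) (nat_lit 475719494) (nat_lit 1140) (nat_lit 179819502) (nat_lit 76) (nat_lit 26344255819) (nat_lit 132) (nat_lit 5) (nat_lit 147) (nat_lit 5) (nat_lit 133) (nat_lit 5) (nat_lit 284) (nat_lit 272) (nat_lit 164))))) (XT.nd (nat_lit 156) (nat_lit 988) (nat_lit 0) (XT.nd (nat_lit 78) (nat_lit 532) (nat_lit 0) (XT.lf (nat_lit 0) (nat_lit 3585964241) (nat_lit 684) (nat_lit 8274471109) (nat_lit 76) (nat_lit 15913246661) (nat_lit 124) (nat_lit 5) (nat_lit 133) (nat_lit 5) (nat_lit 125) (nat_lit 5) (nat_lit 285) (nat_lit 272) (nat_lit 163)) (XT.lf (nat_lit 0) (nat_lit 7010633785) (nat_lit 608) (nat_lit 16834619679) (nat_lit 76) (nat_lit 4736266034) (nat_lit 117) (nat_lit 5) (nat_lit 125) (nat_lit 5) (nat_lit 118) (nat_lit 5) (nat_lit 286) (nat_lit 272) (nat_lit 162))) (XT.nd (nat_lit 78) (nat_lit 456) (nat_lit 0) (XT.lf (nat_lit 0) (nat_lit 3453297170)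 (nat_lit 532) (nat_lit 7383155512) (nat_lit 608) (nat_lit 18586420898) (nat_lit 110) (nat_lit 5) (nat_lit 117) (nat_lit 5) (nat_lit 118) (nat_lit 5) (nat_lit 287) (nat_lit 272) (nat_lit 161)) (XT.nd (nat_lit 78) (nat_lit 456) (nat_lit 0) (XT.lf (nat_lit 0) (nat_lit 15115101032) (nat_lit 608) (nat_lit 5299224006) (nat_lit 76) (nat_lit 9884145315) (nat_lit 110) (nat_lit 5) (nat_lit 118) (nat_lit 5) (nat_lit 111) (nat_lit 5) (nat_lit 288) (nat_lit 272) (nat_lit 160)) (XT.lf (nat_lit 0) (nat_lit 16646743868) (nat_lit 456) (nat_lit 3187229545) (nat_lit 532) (nat_lit 11377104937) (nat_lit 104) (nat_lit 5) (nat_lit 110) (nat_lit 5) (nat_lit 111) (nat_lit 5) (nat_lit 289) (nat_lit 272) (nat_lit 159)))))) (XT.nd (nat_lit 390) (nat_lit 1444) (nat_lit 0) (XT.nd (nat_lit 156) (nat_lit 1292) (nat_lit 0) (XT.nd (nat_lit 78) (nat_lit 0) (nat_lit 0) (XT.lf (nat_lit 0) (nat_lit 7629934791) (nat_lit 456)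 (nat_lit 17422597217) (nat_lit 532) (nat_lit 7108891635) (nat_lit 98) (nat_lit 5) (nat_lit 104) (nat_lit 5) (nat_lit 105) (nat_lit 5) (nat_lit 290) (nat_lit 272) (nat_lit 158)) (XT.lf (nat_lit 0) (nat_lit 30710891290) (nat_lit 532) (nat_lit 1961347776) (nat_lit 76) (nat_lit 481699215) (nat_lit 98) (nat_lit 5) (nat_lit 105) (nat_lit 5) (nat_lit 99) (nat_lit 5) (nat_lit 291) (nat_lit 272) (nat_lit 157))) (XT.nd (nat_lit 78) (nat_lit 836) (nat_lit 0) (XT.lf (nat_lit 0) (nat_lit 2791796293) (nat_lit 456) (nat_lit 12229516925) (nat_lit 76) (nat_lit 19162565030) (nat_lit 92) (nat_lit 5) (nat_lit 98) (nat_lit 5) (nat_lit 93) (nat_lit 5) (nat_lit 292) (nat_lit 272) (nat_lit 156)) (XT.nd (nat_lit 78) (nat_lit 380) (nat_lit 0) (XT.lf (nat_lit 0) (nat_lit 8402758061) (nat_lit 532) (nat_lit 23251546552) (nat_lit 76) (nat_lit 3605353955) (nat_lit 86) (nat_lit 5) (nat_lit 93) (nat_lit 5) (nat_lit 87)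 (nat_lit 5) (nat_lit 293) (nat_lit 272) (nat_lit 155)) (XT.lf (nat_lit 0) (nat_lit 1190322444) (nat_lit 380) (nat_lit 13387313769) (nat_lit 456) (nat_lit 21803105959) (nat_lit 81) (nat_lit 5) (nat_lit 86) (nat_lit 5) (nat_lit 87) (nat_lit 5) (nat_lit 294) (nat_lit 272) (nat_lit 154))))) (XT.nd (nat_lit 234) (nat_lit 760) (nat_lit 0) (XT.nd (nat_lit 78) (nat_lit 684) (nat_lit 0) (XT.lf (nat_lit 0) (nat_lit 21352085291) (nat_lit 456) (nat_lit 10276337932) (nat_lit 76) (nat_lit 5920746508) (nat_lit 81) (nat_lit 5) (nat_lit 87) (nat_lit 5) (nat_lit 82) (nat_lit 5) (nat_lit 295) (nat_lit 272) (nat_lit 153)) (XT.nd (nat_lit 78) (nat_lit 304) (nat_lit 0) (XT.lf (nat_lit 0) (nat_lit 16054214998) (nat_lit 380) (nat_lit 12694216546) (nat_lit 456) (nat_lit 10019105776) (nat_lit 76) (nat_lit 5) (nat_lit 81) (nat_lit 5) (nat_lit 82) (nat_lit 5) (nat_lit 296) (nat_lit 272) (nat_lit 152)) (XT.lf (nat_lit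 0) (nat_lit 3870427861) (nat_lit 304) (nat_lit 32851237397) (nat_lit 380) (nat_lit 3318959155) (nat_lit 72) (nat_lit 5) (nat_lit 76) (nat_lit 5) (nat_lit 77) (nat_lit 5) (nat_lit 297) (nat_lit 272) (nat_lit 151)))) (XT.nd (nat_lit 78) (nat_lit 684) (nat_lit 0) (XT.lf (nat_lit 0) (nat_lit 4002031240) (nat_lit 380) (nat_lit 9285785022) (nat_lit 76) (nat_lit 28077739580) (nat_lit 71) (nat_lit 5) (nat_lit 76) (nat_lit 5) (nat_lit 72) (nat_lit 5) (nat_lit 298) (nat_lit 272) (nat_lit 150)) (XT.nd (nat_lit 78) (nat_lit 304) (nat_lit 0) (XT.lf (nat_lit 0) (nat_lit 11872646934) (nat_lit 456) (nat_lit 23543619129) (nat_lit 76) (nat_lit 7331927091) (nat_lit 66) (nat_lit 5) (nat_lit 72) (nat_lit 5) (nat_lit 67) (nat_lit 5) (nat_lit 299) (nat_lit 272) (nat_lit 149)) (XT.lf (nat_lit 0) (nat_lit 5073446208) (nat_lit 304) (nat_lit 15337338522) (nat_lit 380) (nat_lit 23780968960) (nat_lit 62) (nat_lit 5)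 (nat_lit 66) (nat_lit 5) (nat_lit 67) (nat_lit 5) (nat_lit 300) (nat_lit 272) (nat_lit 148))))))))
noncomputable def xc105 : XT := (XT.nd (nat_lit 1638) (nat_lit 152) (nat_lit 0) (XT.nd (nat_lit 780) (nat_lit 1216) (nat_lit 0) (XT.nd (nat_lit 390) (nat_lit 760) (nat_lit 0) (XT.nd (nat_lit 156) (nat_lit 608) (nat_lit 0) (XT.nd (nat_lit 78) (nat_lit 304) (nat_lit 0) (XT.lf (nat_lit 0) (nat_lit 29670569314) (nat_lit 380) (nat_lit 10151342839) (nat_lit 76) (nat_lit 5876748470) (nat_lit 62) (nat_lit 5) (nat_lit 67) (nat_lit 5) (nat_lit 63) (nat_lit 5) (nat_lit 301) (nat_lit 272) (nat_lit 147)) (XT.lf (nat_lit 0) (nat_lit 20502725338) (nat_lit 304) (nat_lit 19237505904) (nat_lit 380) (nat_lit 7530285081) (nat_lit 58) (nat_lit 5) (nat_lit 62) (nat_lit 5) (nat_lit 63) (nat_lit 5) (nat_lit 302) (nat_lit 272) (nat_lit 146))) (XT.nd (nat_lit 78) (nat_lit 304) (nat_lit 0) (XT.lf (nat_lit 0) (nat_lit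 1529134331) (nat_lit 304) (nat_lit 44898966685) (nat_lit 76) (nat_lit 2487554743) (nat_lit 54) (nat_lit 5) (nat_lit 58) (nat_lit 5) (nat_lit 55) (nat_lit 5) (nat_lit 303) (nat_lit 272) (nat_lit 145)) (XT.nd (nat_lit 78) (nat_lit 304) (nat_lit 0) (XT.lf (nat_lit 0) (nat_lit 11354959677) (nat_lit 304) (nat_lit 14014319631) (nat_lit 76) (nat_lit 25257469819) (nat_lit 54) (nat_lit 5) (nat_lit 58) (nat_lit 5) (nat_lit 55) (nat_lit 5) (nat_lit 304) (nat_lit 272) (nat_lit 144)) (XT.lf (nat_lit 0) (nat_lit 18774835681) (nat_lit 304) (nat_lit 3073217980) (nat_lit 380) (nat_lit 30570072622) (nat_lit 50) (nat_lit 5) (nat_lit 54) (nat_lit 5) (nat_lit 55) (nat_lit 5) (nat_lit 305) (nat_lit 272) (nat_lit 143))))) (XT.nd (nat_lit 156) (nat_lit 532) (nat_lit 0) (XT.nd (nat_lit 78) (nat_lit 228) (nat_lit 0) (XT.lf (nat_lit 0) (nat_lit 33202638034) (nat_lit 380) (nat_lit 1001401147) (nat_lit 76) (nat_lit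 20084936083) (nat_lit 50) (nat_lit 5) (nat_lit 55) (nat_lit 5) (nat_lit 51) (nat_lit 5) (nat_lit 306) (nat_lit 272) (nat_lit 142)) (XT.lf (nat_lit 0) (nat_lit 33897272053) (nat_lit 228) (nat_lit 11580391400) (nat_lit 304) (nat_lit 10765129544) (nat_lit 47) (nat_lit 5) (nat_lit 50) (nat_lit 5) (nat_lit 51) (nat_lit 5) (nat_lit 307) (nat_lit 272) (nat_lit 141))) (XT.nd (nat_lit 78) (nat_lit 228) (nat_lit 0) (XT.lf (nat_lit 0) (nat_lit 315612239) (nat_lit 304) (nat_lit 45903434092) (nat_lit 76) (nat_lit 12067895119) (nat_lit 43) (nat_lit 5) (nat_lit 47) (nat_lit 5) (nat_lit 44) (nat_lit 5) (nat_lit 308) (nat_lit 272) (nat_lit 140)) (XT.nd (nat_lit 78) (nat_lit 228) (nat_lit 0) (XT.lf (nat_lit 0) (nat_lit 12075083361) (nat_lit 304) (nat_lit 11343888869) (nat_lit 76) (nat_lit 37000714326) (nat_lit 43) (nat_lit 5) (nat_lit 47) (nat_lit 5) (nat_lit 44) (nat_lit 5) (nat_lit 309) (nat_lit 272) (nat_lit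 139)) (XT.lf (nat_lit 0) (nat_lit 24670695806) (nat_lit 304) (nat_lit 37224664109) (nat_lit 76) (nat_lit 756270390) (nat_lit 40) (nat_lit 5) (nat_lit 44) (nat_lit 5) (nat_lit 41) (nat_lit 5) (nat_lit 310) (nat_lit 272) (nat_lit 138)))))) (XT.nd (nat_lit 390) (nat_lit 532) (nat_lit 0) (XT.nd (nat_lit 156) (nat_lit 456) (nat_lit 0) (XT.nd (nat_lit 78) (nat_lit 228) (nat_lit 0) (XT.lf (nat_lit 0) (nat_lit 38246767002) (nat_lit 304) (nat_lit 961076710) (nat_lit 76) (nat_lit 25776813300) (nat_lit 40) (nat_lit 5) (nat_lit 44) (nat_lit 5) (nat_lit 41) (nat_lit 5) (nat_lit 311) (nat_lit 272) (nat_lit 137)) (XT.lf (nat_lit 0) (nat_lit 37849219802) (nat_lit 228) (nat_lit 15012797762) (nat_lit 304) (nat_lit 14561512041) (nat_lit 37) (nat_lit 5) (nat_lit 40) (nat_lit 5) (nat_lit 41) (nat_lit 5) (nat_lit 312) (nat_lit 272) (nat_lit 136))) (XT.nd (nat_lit 78) (nat_lit 304) (nat_lit 0) (XT.lf (nat_lit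 0) (nat_lit 8700867975) (nat_lit 152) (nat_lit 59697334699) (nat_lit 228) (nat_lit 1580443540) (nat_lit 35) (nat_lit 5) (nat_lit 37) (nat_lit 5) (nat_lit 38) (nat_lit 5) (nat_lit 313) (nat_lit 272) (nat_lit 135)) (XT.nd (nat_lit 78) (nat_lit 228) (nat_lit 0) (XT.lf (nat_lit 0) (nat_lit 12270253315) (nat_lit 228) (nat_lit 23419853765) (nat_lit 76) (nat_lit 36954270609) (nat_lit 34) (nat_lit 5) (nat_lit 37) (nat_lit 5) (nat_lit 35) (nat_lit 5) (nat_lit 314) (nat_lit 272) (nat_lit 134)) (XT.lf (nat_lit 0) (nat_lit 16634938768) (nat_lit 228) (nat_lit 10302949352) (nat_lit 304) (nat_lit 48500330390) (nat_lit 31) (nat_lit 5) (nat_lit 34) (nat_lit 5) (nat_lit 35) (nat_lit 5) (nat_lit 315) (nat_lit 272) (nat_lit 133))))) (XT.nd (nat_lit 234) (nat_lit 380) (nat_lit 0) (XT.nd (nat_lit 78) (nat_lit 152) (nat_lit 0) (XT.lf (nat_lit 0) (nat_lit 42736549013) (nat_lit 304) (nat_lit 19346859287) (nat_lit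 76) (nat_lit 16276418395) (nat_lit 31) (nat_lit 5) (nat_lit 35) (nat_lit 5) (nat_lit 32) (nat_lit 5) (nat_lit 316) (nat_lit 272) (nat_lit 132)) (XT.nd (nat_lit 78) (nat_lit 0) (nat_lit 0) (XT.lf (nat_lit 0) (nat_lit 22411307815) (nat_lit 152) (nat_lit 37230370914) (nat_lit 228) (nat_lit 21776344915) (nat_lit 29) (nat_lit 5) (nat_lit 31) (nat_lit 5) (nat_lit 32) (nat_lit 5) (nat_lit 317) (nat_lit 272) (nat_lit 131)) (XT.lf (nat_lit 0) (nat_lit 66657392580) (nat_lit 152) (nat_lit 10931041849) (nat_lit 228) (nat_lit 7034809148) (nat_lit 29) (nat_lit 5) (nat_lit 31) (nat_lit 5) (nat_lit 32) (nat_lit 5) (nat_lit 318) (nat_lit 272) (nat_lit 130)))) (XT.nd (nat_lit 78) (nat_lit 152) (nat_lit 0) (XT.lf (nat_lit 0) (nat_lit 8685445116) (nat_lit 228) (nat_lit 62602465377) (nat_lit 76) (nat_lit 16686190582) (nat_lit 26) (nat_lit 5) (nat_lit 29) (nat_lit 5) (nat_lit 27) (nat_lit 5) (nat_lit 319) (nat_lit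 272) (nat_lit 129)) (XT.nd (nat_lit 78) (nat_lit 152) (nat_lit 0) (XT.lf (nat_lit 0) (nat_lit 25342066157) (nat_lit 228) (nat_lit 20422773773) (nat_lit 76) (nat_lit 45716700346) (nat_lit 26) (nat_lit 5) (nat_lit 29) (nat_lit 5) (nat_lit 27) (nat_lit 5) (nat_lit 320) (nat_lit 272) (nat_lit 128)) (XT.lf (nat_lit 0) (nat_lit 24336911815) (nat_lit 152) (nat_lit 18726060956) (nat_lit 228) (nat_lit 52094438570) (nat_lit 24) (nat_lit 5) (nat_lit 26) (nat_lit 5) (nat_lit 27) (nat_lit 5) (nat_lit 321) (nat_lit 272) (nat_lit 127))))))) (XT.nd (nat_lit 34320) (nat_lit 0) (nat_lit 5776) (XT.nd (nat_lit 33852) (nat_lit 0) (nat_lit 9044) (XT.nd (nat_lit 156) (nat_lit 0) (nat_lit 0) (XT.nd (nat_lit 78) (nat_lit 152) (nat_lit 0) (XT.lf (nat_lit 0) (nat_lit 61972725375) (nat_lit 228) (nat_lit 27348237610) (nat_lit 76) (nat_lit 9687032322) (nat_lit 24) (nat_lit 5) (nat_lit 27) (nat_lit 5) (nat_lit 25) (nat_lit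 5) (nat_lit 322) (nat_lit 272) (nat_lit 126)) (XT.lf (nat_lit 0) (nat_lit 18465295974) (nat_lit 152) (nat_lit 63726873266) (nat_lit 228) (nat_lit 20848016334) (nat_lit 22) (nat_lit 5) (nat_lit 24) (nat_lit 5) (nat_lit 25) (nat_lit 5) (nat_lit 323) (nat_lit 272) (nat_lit 125))) (XT.nd (nat_lit 33540) (nat_lit 0) (nat_lit 8968) (XT.lf (nat_lit 0) (nat_lit 67137449669) (nat_lit 152) (nat_lit 36564434333) (nat_lit 228) (nat_lit 3563725448) (nat_lit 22) (nat_lit 5) (nat_lit 24) (nat_lit 5) (nat_lit 25) (nat_lit 5) (nat_lit 324) (nat_lit 272) (nat_lit 124)) (XT.nd (nat_lit 78) (nat_lit 0) (nat_lit 76) (XT.lf (nat_lit 0) (nat_lit 3236131861) (nat_lit 1140) (nat_lit 3559349106) (nat_lit 1140) (nat_lit 3559349106) (nat_lit 140) (nat_lit 3) (nat_lit 155) (nat_lit 3) (nat_lit 155) (nat_lit 5) (nat_lit 273) (nat_lit 273) (nat_lit 174)) (XT.lf (nat_lit 0) (nat_lit 6931018541) (nat_lit 1064) (nat_lit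 14121371493) (nat_lit 1140) (nat_lit 165492277) (nat_lit 141) (nat_lit 5) (nat_lit 155) (nat_lit 5) (nat_lit 156) (nat_lit 5) (nat_lit 274) (nat_lit 273) (nat_lit 173))))) (XT.nd (nat_lit 234) (nat_lit 0) (nat_lit 152) (XT.nd (nat_lit 78) (nat_lit 0) (nat_lit 76) (XT.lf (nat_lit 76) (nat_lit 281310268) (nat_lit 0) (nat_lit 7330744535) (nat_lit 1140) (nat_lit 14133519574) (nat_lit 142) (nat_lit 5) (nat_lit 141) (nat_lit 5) (nat_lit 156) (nat_lit 5) (nat_lit 275) (nat_lit 273) (nat_lit 172)) (XT.nd (nat_lit 78) (nat_lit 0) (nat_lit 0) (XT.lf (nat_lit 0) (nat_lit 8528107252) (nat_lit 1064) (nat_lit 6674013382) (nat_lit 1140) (nat_lit 7091538723) (nat_lit 142) (nat_lit 5) (nat_lit 156) (nat_lit 5) (nat_lit 157) (nat_lit 5) (nat_lit 276) (nat_lit 273) (nat_lit 171)) (XT.lf (nat_lit 76) (nat_lit 8948299087) (nat_lit 0) (nat_lit 688460975) (nat_lit 1140) (nat_lit 13228020062) (nat_lit 143) (nat_lit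 5) (nat_lit 142) (nat_lit 5) (nat_lit 157) (nat_lit 5) (nat_lit 277) (nat_lit 273) (nat_lit 170)))) (XT.nd (nat_lit 78) (nat_lit 0) (nat_lit 76) (XT.lf (nat_lit 76) (nat_lit 1917359297) (nat_lit 0) (nat_lit 9098562493) (nat_lit 1140) (nat_lit 12442116629) (nat_lit 144) (nat_lit 5) (nat_lit 143) (nat_lit 5) (nat_lit 158) (nat_lit 5) (nat_lit 278) (nat_lit 273) (nat_lit 169)) (XT.nd (nat_lit 78) (nat_lit 0) (nat_lit 0) (XT.lf (nat_lit 0) (nat_lit 12661849724) (nat_lit 1064) (nat_lit 5318052317) (nat_lit 1140) (nat_lit 6095155519) (nat_lit 144) (nat_lit 5) (nat_lit 158) (nat_lit 5) (nat_lit 159) (nat_lit 5) (nat_lit 279) (nat_lit 273) (nat_lit 168)) (XT.lf (nat_lit 76) (nat_lit 11846956081) (nat_lit 0) (nat_lit 2737357674) (nat_lit 1140) (nat_lit 10132817350) (nat_lit 145) (nat_lit 5) (nat_lit 144) (nat_lit 5) (nat_lit 159) (nat_lit 5) (nat_lit 280) (nat_lit 273) (nat_lit 167)))))) (XT.nd (nat_lit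 390) (nat_lit 1976) (nat_lit 0) (XT.nd (nat_lit 156) (nat_lit 1596) (nat_lit 0) (XT.nd (nat_lit 78) (nat_lit 0) (nat_lit 76) (XT.lf (nat_lit 76) (nat_lit 4544025230) (nat_lit 0) (nat_lit 12274402501) (nat_lit 1140) (nat_lit 8566443974) (nat_lit 146) (nat_lit 5) (nat_lit 145) (nat_lit 5) (nat_lit 160) (nat_lit 5) (nat_lit 281) (nat_lit 273) (nat_lit 166)) (XT.lf (nat_lit 0) (nat_lit 19349593828) (nat_lit 1064) (nat_lit 3055884868) (nat_lit 1140) (nat_lit 3674988038) (nat_lit 146) (nat_lit 5) (nat_lit 160) (nat_lit 5) (nat_lit 161) (nat_lit 5) (nat_lit 282) (nat_lit 273) (nat_lit 165))) (XT.nd (nat_lit 78) (nat_lit 1672) (nat_lit 0) (XT.lf (nat_lit 76) (nat_lit 15794664834) (nat_lit 0) (nat_lit 6478366327) (nat_lit 1140) (nat_lit 4529865433) (nat_lit 147) (nat_lit 5) (nat_lit 146) (nat_lit 5) (nat_lit 161) (nat_lit 5) (nat_lit 283) (nat_lit 273) (nat_lit 164)) (XT.nd (nat_lit 78) (nat_lit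 684) (nat_lit 0) (XT.lf (nat_lit 0) (nat_lit 8143120288) (nat_lit 1064) (nat_lit 17398464043) (nat_lit 1140) (nat_lit 2013920506) (nat_lit 133) (nat_lit 5) (nat_lit 147) (nat_lit 5) (nat_lit 148) (nat_lit 5) (nat_lit 284) (nat_lit 273) (nat_lit 163)) (XT.lf (nat_lit 0) (nat_lit 60306311) (nat_lit 608) (nat_lit 726355995) (nat_lit 684) (nat_lit 27553790690) (nat_lit 124) (nat_lit 5) (nat_lit 132) (nat_lit 5) (nat_lit 133) (nat_lit 5) (nat_lit 285) (nat_lit 273) (nat_lit 162))))) (XT.nd (nat_lit 234) (nat_lit 912) (nat_lit 0) (XT.nd (nat_lit 78) (nat_lit 1064) (nat_lit 0) (XT.lf (nat_lit 0) (nat_lit 4040177295) (nat_lit 684) (nat_lit 8438090934) (nat_lit 76) (nat_lit 16675167719) (nat_lit 124) (nat_lit 5) (nat_lit 133) (nat_lit 5) (nat_lit 125) (nat_lit 5) (nat_lit 286) (nat_lit 273) (nat_lit 161)) (XT.nd (nat_lit 78) (nat_lit 532) (nat_lit 0) (XT.lf (nat_lit 0) (nat_lit 7625120348) (nat_lit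 608) (nat_lit 17424637110) (nat_lit 76) (nat_lit 4952269161) (nat_lit 117) (nat_lit 5) (nat_lit 125) (nat_lit 5) (nat_lit 118) (nat_lit 5) (nat_lit 287) (nat_lit 273) (nat_lit 160)) (XT.lf (nat_lit 0) (nat_lit 3870460263) (nat_lit 532) (nat_lit 7761550913) (nat_lit 608) (nat_lit 19253774761) (nat_lit 110) (nat_lit 5) (nat_lit 117) (nat_lit 5) (nat_lit 118) (nat_lit 5) (nat_lit 288) (nat_lit 273) (nat_lit 159)))) (XT.nd (nat_lit 78) (nat_lit 912) (nat_lit 0) (XT.lf (nat_lit 0) (nat_lit 16112424715) (nat_lit 608) (nat_lit 5323405821) (nat_lit 76) (nat_lit 10369726518) (nat_lit 110) (nat_lit 5) (nat_lit 118) (nat_lit 5) (nat_lit 111) (nat_lit 5) (nat_lit 289) (nat_lit 273) (nat_lit 158)) (XT.nd (nat_lit 78) (nat_lit 456) (nat_lit 0) (XT.lf (nat_lit 0) (nat_lit 17712958554) (nat_lit 456) (nat_lit 3345027066) (nat_lit 532) (nat_lit 11706115567) (nat_lit 104) (nat_lit 5) (nat_lit 110) (nat_lit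 5) (nat_lit 111) (nat_lit 5) (nat_lit 290) (nat_lit 273) (nat_lit 157)) (XT.lf (nat_lit 0) (nat_lit 8245905572) (nat_lit 456) (nat_lit 18282772249) (nat_lit 532) (nat_lit 7233576500) (nat_lit 98) (nat_lit 5) (nat_lit 104) (nat_lit 5) (nat_lit 105) (nat_lit 5) (nat_lit 291) (nat_lit 273) (nat_lit 156))))))))
noncomputable def xc106 : XT := (XT.nd (nat_lit 1638) (nat_lit 1368) (nat_lit 0) (XT.nd (nat_lit 780) (nat_lit 1672) (nat_lit 0) (XT.nd (nat_lit 390) (nat_lit 1444) (nat_lit 0) (XT.nd (nat_lit 156) (nat_lit 836) (nat_lit 0) (XT.nd (nat_lit 78) (nat_lit 456) (nat_lit 0) (XT.lf (nat_lit 0) (nat_lit 32459411586) (nat_lit 532) (nat_lit 1829311126) (nat_lit 76) (nat_lit 516013758) (nat_lit 98) (nat_lit 5) (nat_lit 105) (nat_lit 5) (nat_lit 99) (nat_lit 5) (nat_lit 292) (nat_lit 273) (nat_lit 155)) (XT.lf (nat_lit 0) (nat_lit 3138873891) (nat_lit 456) (nat_lit 12612884141) (nat_lit 76) (nat_lit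 20134618431) (nat_lit 92) (nat_lit 5) (nat_lit 98) (nat_lit 5) (nat_lit 93) (nat_lit 5) (nat_lit 293) (nat_lit 273) (nat_lit 154))) (XT.nd (nat_lit 78) (nat_lit 380) (nat_lit 0) (XT.lf (nat_lit 0) (nat_lit 9022843113) (nat_lit 532) (nat_lit 24186323056) (nat_lit 76) (nat_lit 3807028282) (nat_lit 86) (nat_lit 5) (nat_lit 93) (nat_lit 5) (nat_lit 87) (nat_lit 5) (nat_lit 294) (nat_lit 273) (nat_lit 153)) (XT.nd (nat_lit 78) (nat_lit 0) (nat_lit 0) (XT.lf (nat_lit 0) (nat_lit 1471109525) (nat_lit 380) (nat_lit 14027961346) (nat_lit 456) (nat_lit 22694504556) (nat_lit 81) (nat_lit 5) (nat_lit 86) (nat_lit 5) (nat_lit 87) (nat_lit 5) (nat_lit 295) (nat_lit 273) (nat_lit 152)) (XT.lf (nat_lit 0) (nat_lit 22603336129) (nat_lit 456) (nat_lit 10573775061) (nat_lit 76) (nat_lit 6243600708) (nat_lit 81) (nat_lit 5) (nat_lit 87) (nat_lit 5) (nat_lit 82) (nat_lit 5) (nat_lit 296) (nat_lit 273) (nat_lit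 151))))) (XT.nd (nat_lit 156) (nat_lit 760) (nat_lit 0) (XT.nd (nat_lit 78) (nat_lit 304) (nat_lit 0) (XT.lf (nat_lit 0) (nat_lit 17067103033) (nat_lit 380) (nat_lit 13295671940) (nat_lit 456) (nat_lit 10337444012) (nat_lit 76) (nat_lit 5) (nat_lit 81) (nat_lit 5) (nat_lit 82) (nat_lit 5) (nat_lit 297) (nat_lit 273) (nat_lit 150)) (XT.lf (nat_lit 0) (nat_lit 4273323290) (nat_lit 304) (nat_lit 34455239313) (nat_lit 380) (nat_lit 3308599517) (nat_lit 72) (nat_lit 5) (nat_lit 76) (nat_lit 5) (nat_lit 77) (nat_lit 5) (nat_lit 298) (nat_lit 273) (nat_lit 149))) (XT.nd (nat_lit 78) (nat_lit 684) (nat_lit 0) (XT.lf (nat_lit 0) (nat_lit 4366768230) (nat_lit 380) (nat_lit 9547052585) (nat_lit 76) (nat_lit 29514732480) (nat_lit 71) (nat_lit 5) (nat_lit 76) (nat_lit 5) (nat_lit 72) (nat_lit 5) (nat_lit 299) (nat_lit 273) (nat_lit 148)) (XT.nd (nat_lit 78) (nat_lit 304) (nat_lit 0) (XT.lf (nat_lit 0)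 (nat_lit 12625340744) (nat_lit 456) (nat_lit 24518882400) (nat_lit 76) (nat_lit 7736282800) (nat_lit 66) (nat_lit 5) (nat_lit 72) (nat_lit 5) (nat_lit 67) (nat_lit 5) (nat_lit 300) (nat_lit 273) (nat_lit 147)) (XT.lf (nat_lit 0) (nat_lit 5523248274) (nat_lit 304) (nat_lit 16061448118) (nat_lit 380) (nat_lit 24811734261) (nat_lit 62) (nat_lit 5) (nat_lit 66) (nat_lit 5) (nat_lit 67) (nat_lit 5) (nat_lit 301) (nat_lit 273) (nat_lit 146)))))) (XT.nd (nat_lit 390) (nat_lit 760) (nat_lit 0) (XT.nd (nat_lit 156) (nat_lit 608) (nat_lit 0) (XT.nd (nat_lit 78) (nat_lit 304) (nat_lit 0) (XT.lf (nat_lit 0) (nat_lit 31300558195) (nat_lit 380) (nat_lit 10467834298) (nat_lit 76) (nat_lit 6210512542) (nat_lit 62) (nat_lit 5) (nat_lit 67) (nat_lit 5) (nat_lit 63) (nat_lit 5) (nat_lit 302) (nat_lit 273) (nat_lit 145)) (XT.lf (nat_lit 0) (nat_lit 21713460142) (nat_lit 304) (nat_lit 20155052859) (nat_lit 380)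 (nat_lit 7761010264) (nat_lit 58) (nat_lit 5) (nat_lit 62) (nat_lit 5) (nat_lit 63) (nat_lit 5) (nat_lit 303) (nat_lit 273) (nat_lit 144))) (XT.nd (nat_lit 78) (nat_lit 304) (nat_lit 0) (XT.lf (nat_lit 0) (nat_lit 1743926917) (nat_lit 304) (nat_lit 46956648416) (nat_lit 76) (nat_lit 2656453527) (nat_lit 54) (nat_lit 5) (nat_lit 58) (nat_lit 5) (nat_lit 55) (nat_lit 5) (nat_lit 304) (nat_lit 273) (nat_lit 143)) (XT.nd (nat_lit 78) (nat_lit 304) (nat_lit 0) (XT.lf (nat_lit 0) (nat_lit 12054456108) (nat_lit 304) (nat_lit 14536686466) (nat_lit 76) (nat_lit 26562744307) (nat_lit 54) (nat_lit 5) (nat_lit 58) (nat_lit 5) (nat_lit 55) (nat_lit 5) (nat_lit 305) (nat_lit 273) (nat_lit 142)) (XT.lf (nat_lit 0) (nat_lit 19886814268) (nat_lit 304) (nat_lit 3180782046) (nat_lit 380) (nat_lit 31967386609) (nat_lit 50) (nat_lit 5) (nat_lit 54) (nat_lit 5) (nat_lit 55) (nat_lit 5) (nat_lit 306) (nat_lit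 273) (nat_lit 141))))) (XT.nd (nat_lit 234) (nat_lit 228) (nat_lit 0) (XT.nd (nat_lit 78) (nat_lit 532) (nat_lit 0) (XT.lf (nat_lit 0) (nat_lit 34984277631) (nat_lit 380) (nat_lit 883048951) (nat_lit 76) (nat_lit 21132227953) (nat_lit 50) (nat_lit 5) (nat_lit 55) (nat_lit 5) (nat_lit 51) (nat_lit 5) (nat_lit 307) (nat_lit 273) (nat_lit 140)) (XT.nd (nat_lit 78) (nat_lit 304) (nat_lit 0) (XT.lf (nat_lit 0) (nat_lit 35755730119) (nat_lit 228) (nat_lit 12113110692) (nat_lit 304) (nat_lit 11182359428) (nat_lit 47) (nat_lit 5) (nat_lit 50) (nat_lit 5) (nat_lit 51) (nat_lit 5) (nat_lit 308) (nat_lit 273) (nat_lit 139)) (XT.lf (nat_lit 0) (nat_lit 446408752) (nat_lit 304) (nat_lit 48034021096) (nat_lit 76) (nat_lit 12717210710) (nat_lit 43) (nat_lit 5) (nat_lit 47) (nat_lit 5) (nat_lit 44) (nat_lit 5) (nat_lit 309) (nat_lit 273) (nat_lit 138)))) (XT.nd (nat_lit 78) (nat_lit 228) (nat_lit 0) (XT.lf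 (nat_lit 0) (nat_lit 12788376483) (nat_lit 304) (nat_lit 11754335979) (nat_lit 76) (nat_lit 38894484170) (nat_lit 43) (nat_lit 5) (nat_lit 47) (nat_lit 5) (nat_lit 44) (nat_lit 5) (nat_lit 310) (nat_lit 273) (nat_lit 137)) (XT.nd (nat_lit 78) (nat_lit 0) (nat_lit 0) (XT.lf (nat_lit 0) (nat_lit 26010463647) (nat_lit 304) (nat_lit 38930737070) (nat_lit 76) (nat_lit 839644984) (nat_lit 40) (nat_lit 5) (nat_lit 44) (nat_lit 5) (nat_lit 41) (nat_lit 5) (nat_lit 311) (nat_lit 273) (nat_lit 136)) (XT.lf (nat_lit 0) (nat_lit 40260279687) (nat_lit 304) (nat_lit 861358885) (nat_lit 76) (nat_lit 27109045464) (nat_lit 40) (nat_lit 5) (nat_lit 44) (nat_lit 5) (nat_lit 41) (nat_lit 5) (nat_lit 312) (nat_lit 273) (nat_lit 135))))))) (XT.nd (nat_lit 780) (nat_lit 152) (nat_lit 0) (XT.nd (nat_lit 390) (nat_lit 532) (nat_lit 0) (XT.nd (nat_lit 156) (nat_lit 304) (nat_lit 0) (XT.nd (nat_lit 78) (nat_lit 152)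 (nat_lit 0) (XT.lf (nat_lit 0) (nat_lit 39885216608) (nat_lit 228) (nat_lit 15717638098) (nat_lit 304) (nat_lit 15188756819) (nat_lit 37) (nat_lit 5) (nat_lit 40) (nat_lit 5) (nat_lit 41) (nat_lit 5) (nat_lit 313) (nat_lit 273) (nat_lit 134)) (XT.lf (nat_lit 0) (nat_lit 9277910987) (nat_lit 152) (nat_lit 62635068252) (nat_lit 228) (nat_lit 1561598557) (nat_lit 35) (nat_lit 5) (nat_lit 37) (nat_lit 5) (nat_lit 38) (nat_lit 5) (nat_lit 314) (nat_lit 273) (nat_lit 133))) (XT.nd (nat_lit 78) (nat_lit 228) (nat_lit 0) (XT.lf (nat_lit 0) (nat_lit 12975153999) (nat_lit 228) (nat_lit 24453646851) (nat_lit 76) (nat_lit 38844911007) (nat_lit 34) (nat_lit 5) (nat_lit 37) (nat_lit 5) (nat_lit 35) (nat_lit 5) (nat_lit 315) (nat_lit 273) (nat_lit 132)) (XT.nd (nat_lit 78) (nat_lit 0) (nat_lit 0) (XT.lf (nat_lit 0) (nat_lit 17599952510) (nat_lit 228) (nat_lit 10773147266) (nat_lit 304) (nat_lit 50834243879)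 (nat_lit 31) (nat_lit 5) (nat_lit 34) (nat_lit 5) (nat_lit 35) (nat_lit 5) (nat_lit 316) (nat_lit 273) (nat_lit 131)) (XT.lf (nat_lit 0) (nat_lit 44957899638) (nat_lit 304) (nat_lit 20185039869) (nat_lit 76) (nat_lit 17132213053) (nat_lit 31) (nat_lit 5) (nat_lit 35) (nat_lit 5) (nat_lit 32) (nat_lit 5) (nat_lit 317) (nat_lit 273) (nat_lit 130))))) (XT.nd (nat_lit 156) (nat_lit 380) (nat_lit 0) (XT.nd (nat_lit 78) (nat_lit 0) (nat_lit 0) (XT.lf (nat_lit 0) (nat_lit 23657333174) (nat_lit 152) (nat_lit 39048133751) (nat_lit 228) (nat_lit 22780883180) (nat_lit 29) (nat_lit 5) (nat_lit 31) (nat_lit 5) (nat_lit 32) (nat_lit 5) (nat_lit 318) (nat_lit 273) (nat_lit 129)) (XT.lf (nat_lit 0) (nat_lit 70109747894) (nat_lit 152) (nat_lit 11435921837) (nat_lit 228) (nat_lit 7306283909) (nat_lit 29) (nat_lit 5) (nat_lit 31) (nat_lit 5) (nat_lit 32) (nat_lit 5) (nat_lit 319) (nat_lit 273) (nat_lit 128)))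 (XT.nd (nat_lit 78) (nat_lit 152) (nat_lit 0) (XT.lf (nat_lit 0) (nat_lit 9196200521) (nat_lit 228) (nat_lit 65612904261) (nat_lit 76) (nat_lit 17561298015) (nat_lit 26) (nat_lit 5) (nat_lit 29) (nat_lit 5) (nat_lit 27) (nat_lit 5) (nat_lit 320) (nat_lit 273) (nat_lit 127)) (XT.nd (nat_lit 78) (nat_lit 152) (nat_lit 0) (XT.lf (nat_lit 0) (nat_lit 26682010559) (nat_lit 228) (nat_lit 21329927332) (nat_lit 76) (nat_lit 48041390510) (nat_lit 26) (nat_lit 5) (nat_lit 29) (nat_lit 5) (nat_lit 27) (nat_lit 5) (nat_lit 321) (nat_lit 273) (nat_lit 126)) (XT.lf (nat_lit 0) (nat_lit 25664475174) (nat_lit 152) (nat_lit 19622082992) (nat_lit 228) (nat_lit 54626511918) (nat_lit 24) (nat_lit 5) (nat_lit 26) (nat_lit 5) (nat_lit 27) (nat_lit 5) (nat_lit 322) (nat_lit 273) (nat_lit 125)))))) (XT.nd (nat_lit 33930) (nat_lit 0) (nat_lit 9120) (XT.nd (nat_lit 33696) (nat_lit 0) (nat_lit 8968) (XT.nd (nat_lit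 78) (nat_lit 152) (nat_lit 0) (XT.lf (nat_lit 0) (nat_lit 65138813038) (nat_lit 228) (nat_lit 28608466266) (nat_lit 76) (nat_lit 10208998208) (nat_lit 24) (nat_lit 5) (nat_lit 27) (nat_lit 5) (nat_lit 25) (nat_lit 5) (nat_lit 323) (nat_lit 273) (nat_lit 124)) (XT.lf (nat_lit 0) (nat_lit 19492671611) (nat_lit 152) (nat_lit 66874346291) (nat_lit 228) (nat_lit 21823130203) (nat_lit 22) (nat_lit 5) (nat_lit 24) (nat_lit 5) (nat_lit 25) (nat_lit 5) (nat_lit 324) (nat_lit 273) (nat_lit 123))) (XT.nd (nat_lit 78) (nat_lit 0) (nat_lit 0) (XT.lf (nat_lit 0) (nat_lit 3621486570) (nat_lit 1140) (nat_lit 3621888604) (nat_lit 1140) (nat_lit 3621888604) (nat_lit 140) (nat_lit 3) (nat_lit 155) (nat_lit 3) (nat_lit 155) (nat_lit 5) (nat_lit 274) (nat_lit 274) (nat_lit 172)) (XT.nd (nat_lit 78) (nat_lit 0) (nat_lit 76) (XT.lf (nat_lit 76) (nat_lit 7677329541) (nat_lit 0) (nat_lit 26497783) (nat_lit 1140)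 (nat_lit 14561015928) (nat_lit 141) (nat_lit 5) (nat_lit 140) (nat_lit 3) (nat_lit 155) (nat_lit 5) (nat_lit 275) (nat_lit 274) (nat_lit 171)) (XT.lf (nat_lit 76) (nat_lit 528672108) (nat_lit 0) (nat_lit 7871945301) (nat_lit 1140) (nat_lit 14418905996) (nat_lit 142) (nat_lit 5) (nat_lit 141) (nat_lit 5) (nat_lit 156) (nat_lit 5) (nat_lit 276) (nat_lit 274) (nat_lit 170))))) (XT.nd (nat_lit 234) (nat_lit 0) (nat_lit 152) (XT.nd (nat_lit 78) (nat_lit 0) (nat_lit 0) (XT.lf (nat_lit 0) (nat_lit 9341446799) (nat_lit 1064) (nat_lit 6771233109) (nat_lit 1140) (nat_lit 7283015445) (nat_lit 142) (nat_lit 5) (nat_lit 156) (nat_lit 5) (nat_lit 157) (nat_lit 5) (nat_lit 277) (nat_lit 274) (nat_lit 169)) (XT.nd (nat_lit 78) (nat_lit 0) (nat_lit 76) (XT.lf (nat_lit 76) (nat_lit 9625416305) (nat_lit 0) (nat_lit 863898545) (nat_lit 1140) (nat_lit 13506593303) (nat_lit 143) (nat_lit 5) (nat_lit 142) (nat_lit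 5) (nat_lit 157) (nat_lit 5) (nat_lit 278) (nat_lit 274) (nat_lit 168)) (XT.lf (nat_lit 76) (nat_lit 2249425637) (nat_lit 0) (nat_lit 9671335362) (nat_lit 1140) (nat_lit 12698615693) (nat_lit 144) (nat_lit 5) (nat_lit 143) (nat_lit 5) (nat_lit 158) (nat_lit 5) (nat_lit 279) (nat_lit 274) (nat_lit 167)))) (XT.nd (nat_lit 78) (nat_lit 0) (nat_lit 0) (XT.lf (nat_lit 0) (nat_lit 13631047280) (nat_lit 1064) (nat_lit 5346912248) (nat_lit 1140) (nat_lit 6289870277) (nat_lit 144) (nat_lit 5) (nat_lit 158) (nat_lit 5) (nat_lit 159) (nat_lit 5) (nat_lit 280) (nat_lit 274) (nat_lit 166)) (XT.nd (nat_lit 78) (nat_lit 0) (nat_lit 76) (XT.lf (nat_lit 76) (nat_lit 12669551789) (nat_lit 0) (nat_lit 2966291004) (nat_lit 1140) (nat_lit 10306620722) (nat_lit 145) (nat_lit 5) (nat_lit 144) (nat_lit 5) (nat_lit 159) (nat_lit 5) (nat_lit 281) (nat_lit 274) (nat_lit 165)) (XT.lf (nat_lit 76) (nat_lit 5005956479)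 (nat_lit 0) (nat_lit 12961771256) (nat_lit 1140) (nat_lit 8676322155) (nat_lit 146) (nat_lit 5) (nat_lit 145) (nat_lit 5) (nat_lit 160) (nat_lit 5) (nat_lit 282) (nat_lit 274) (nat_lit 164))))))))
noncomputable def xc107 : XT := (XT.nd (nat_lit 1638) (nat_lit 2888) (nat_lit 0) (XT.nd (nat_lit 780) (nat_lit 2736) (nat_lit 0) (XT.nd (nat_lit 390) (nat_lit 1976) (nat_lit 0) (XT.nd (nat_lit 156) (nat_lit 1672) (nat_lit 0) (XT.nd (nat_lit 78) (nat_lit 0) (nat_lit 0) (XT.lf (nat_lit 0) (nat_lit 20610093196) (nat_lit 1064) (nat_lit 2974866403) (nat_lit 1140) (nat_lit 3789964603) (nat_lit 146) (nat_lit 5) (nat_lit 160) (nat_lit 5) (nat_lit 161) (nat_lit 5) (nat_lit 283) (nat_lit 274) (nat_lit 163)) (XT.lf (nat_lit 76) (nat_lit 16811508590) (nat_lit 0) (nat_lit 6856423614) (nat_lit 1140) (nat_lit 4465933376) (nat_lit 147) (nat_lit 5) (nat_lit 146) (nat_lit 5) (nat_lit 161) (nat_lit 5) (nat_lit 284)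 (nat_lit 274) (nat_lit 162))) (XT.nd (nat_lit 78) (nat_lit 684) (nat_lit 0) (XT.lf (nat_lit 0) (nat_lit 8780295059) (nat_lit 1064) (nat_lit 18307940585) (nat_lit 1140) (nat_lit 1836254071) (nat_lit 133) (nat_lit 5) (nat_lit 147) (nat_lit 5) (nat_lit 148) (nat_lit 5) (nat_lit 285) (nat_lit 274) (nat_lit 161)) (XT.nd (nat_lit 78) (nat_lit 0) (nat_lit 0) (XT.lf (nat_lit 0) (nat_lit 292686242) (nat_lit 608) (nat_lit 795447884) (nat_lit 684) (nat_lit 28660827152) (nat_lit 124) (nat_lit 5) (nat_lit 132) (nat_lit 5) (nat_lit 133) (nat_lit 5) (nat_lit 286) (nat_lit 274) (nat_lit 160)) (XT.lf (nat_lit 0) (nat_lit 4491542026) (nat_lit 684) (nat_lit 8633144024) (nat_lit 76) (nat_lit 17478321773) (nat_lit 124) (nat_lit 5) (nat_lit 133) (nat_lit 5) (nat_lit 125) (nat_lit 5) (nat_lit 287) (nat_lit 274) (nat_lit 159))))) (XT.nd (nat_lit 156) (nat_lit 912) (nat_lit 0) (XT.nd (nat_lit 78) (nat_lit 532) (nat_lit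 0) (XT.lf (nat_lit 0) (nat_lit 8245791217) (nat_lit 608) (nat_lit 18067557352) (nat_lit 76) (nat_lit 5181007178) (nat_lit 117) (nat_lit 5) (nat_lit 125) (nat_lit 5) (nat_lit 118) (nat_lit 5) (nat_lit 288) (nat_lit 274) (nat_lit 158)) (XT.lf (nat_lit 0) (nat_lit 4285750383) (nat_lit 532) (nat_lit 8158007258) (nat_lit 608) (nat_lit 19978851543) (nat_lit 110) (nat_lit 5) (nat_lit 117) (nat_lit 5) (nat_lit 118) (nat_lit 5) (nat_lit 289) (nat_lit 274) (nat_lit 157))) (XT.nd (nat_lit 78) (nat_lit 912) (nat_lit 0) (XT.lf (nat_lit 0) (nat_lit 17137155821) (nat_lit 608) (nat_lit 5371182112) (nat_lit 76) (nat_lit 10880388750) (nat_lit 110) (nat_lit 5) (nat_lit 118) (nat_lit 5) (nat_lit 111) (nat_lit 5) (nat_lit 290) (nat_lit 274) (nat_lit 156)) (XT.nd (nat_lit 78) (nat_lit 456) (nat_lit 0) (XT.lf (nat_lit 0) (nat_lit 18810740262) (nat_lit 456) (nat_lit 3510859866) (nat_lit 532) (nat_lit 12073875207)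 (nat_lit 104) (nat_lit 5) (nat_lit 110) (nat_lit 5) (nat_lit 111) (nat_lit 5) (nat_lit 291) (nat_lit 274) (nat_lit 155)) (XT.lf (nat_lit 0) (nat_lit 8870875719) (nat_lit 456) (nat_lit 19186974509) (nat_lit 532) (nat_lit 7385949459) (nat_lit 98) (nat_lit 5) (nat_lit 104) (nat_lit 5) (nat_lit 105) (nat_lit 5) (nat_lit 292) (nat_lit 274) (nat_lit 154)))))) (XT.nd (nat_lit 390) (nat_lit 1444) (nat_lit 0) (XT.nd (nat_lit 156) (nat_lit 836) (nat_lit 0) (XT.nd (nat_lit 78) (nat_lit 456) (nat_lit 0) (XT.lf (nat_lit 0) (nat_lit 34275557431) (nat_lit 532) (nat_lit 1712065535) (nat_lit 76) (nat_lit 551092978) (nat_lit 98) (nat_lit 5) (nat_lit 105) (nat_lit 5) (nat_lit 99) (nat_lit 5) (nat_lit 293) (nat_lit 274) (nat_lit 153)) (XT.lf (nat_lit 0) (nat_lit 3484015122) (nat_lit 456) (nat_lit 13036627096) (nat_lit 76) (nat_lit 21153979873) (nat_lit 92) (nat_lit 5) (nat_lit 98) (nat_lit 5) (nat_lit 93) (nat_lit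 5) (nat_lit 294) (nat_lit 274) (nat_lit 152))) (XT.nd (nat_lit 78) (nat_lit 380) (nat_lit 0) (XT.lf (nat_lit 0) (nat_lit 9655343226) (nat_lit 532) (nat_lit 25189017146) (nat_lit 76) (nat_lit 4016796140) (nat_lit 86) (nat_lit 5) (nat_lit 93) (nat_lit 5) (nat_lit 87) (nat_lit 5) (nat_lit 295) (nat_lit 274) (nat_lit 151)) (XT.nd (nat_lit 78) (nat_lit 0) (nat_lit 0) (XT.lf (nat_lit 0) (nat_lit 1745364283) (nat_lit 380) (nat_lit 14703311239) (nat_lit 456) (nat_lit 23648951597) (nat_lit 81) (nat_lit 5) (nat_lit 86) (nat_lit 5) (nat_lit 87) (nat_lit 5) (nat_lit 296) (nat_lit 274) (nat_lit 150)) (XT.lf (nat_lit 0) (nat_lit 23900075793) (nat_lit 456) (nat_lit 10906200986) (nat_lit 76) (nat_lit 6580104439) (nat_lit 81) (nat_lit 5) (nat_lit 87) (nat_lit 5) (nat_lit 82) (nat_lit 5) (nat_lit 297) (nat_lit 274) (nat_lit 149))))) (XT.nd (nat_lit 234) (nat_lit 684) (nat_lit 0) (XT.nd (nat_lit 78) (nat_lit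 380) (nat_lit 0) (XT.lf (nat_lit 0) (nat_lit 18111095178) (nat_lit 380) (nat_lit 13930291879) (nat_lit 456) (nat_lit 10688677162) (nat_lit 76) (nat_lit 5) (nat_lit 81) (nat_lit 5) (nat_lit 82) (nat_lit 5) (nat_lit 298) (nat_lit 274) (nat_lit 148)) (XT.nd (nat_lit 78) (nat_lit 76) (nat_lit 0) (XT.lf (nat_lit 0) (nat_lit 4676897878) (nat_lit 304) (nat_lit 36143026264) (nat_lit 380) (nat_lit 3314113307) (nat_lit 72) (nat_lit 5) (nat_lit 76) (nat_lit 5) (nat_lit 77) (nat_lit 5) (nat_lit 299) (nat_lit 274) (nat_lit 147)) (XT.lf (nat_lit 0) (nat_lit 4734435827) (nat_lit 380) (nat_lit 9840258558) (nat_lit 76) (nat_lit 31020497151) (nat_lit 71) (nat_lit 5) (nat_lit 76) (nat_lit 5) (nat_lit 72) (nat_lit 5) (nat_lit 300) (nat_lit 274) (nat_lit 146)))) (XT.nd (nat_lit 78) (nat_lit 304) (nat_lit 0) (XT.lf (nat_lit 0) (nat_lit 13400881216) (nat_lit 456) (nat_lit 25561681226) (nat_lit 76) (nat_lit 8157345787)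 (nat_lit 66) (nat_lit 5) (nat_lit 72) (nat_lit 5) (nat_lit 67) (nat_lit 5) (nat_lit 301) (nat_lit 274) (nat_lit 145)) (XT.nd (nat_lit 78) (nat_lit 0) (nat_lit 0) (XT.lf (nat_lit 0) (nat_lit 5977306159) (nat_lit 304) (nat_lit 16825738366) (nat_lit 380) (nat_lit 25908753494) (nat_lit 62) (nat_lit 5) (nat_lit 66) (nat_lit 5) (nat_lit 67) (nat_lit 5) (nat_lit 302) (nat_lit 274) (nat_lit 144)) (XT.lf (nat_lit 0) (nat_lit 32998430018) (nat_lit 380) (nat_lit 10817914736) (nat_lit 76) (nat_lit 6557252815) (nat_lit 62) (nat_lit 5) (nat_lit 67) (nat_lit 5) (nat_lit 63) (nat_lit 5) (nat_lit 303) (nat_lit 274) (nat_lit 143))))))) (XT.nd (nat_lit 858) (nat_lit 988) (nat_lit 0) (XT.nd (nat_lit 390) (nat_lit 988) (nat_lit 0) (XT.nd (nat_lit 156) (nat_lit 304) (nat_lit 0) (XT.nd (nat_lit 78) (nat_lit 304) (nat_lit 0) (XT.lf (nat_lit 0) (nat_lit 22967476493) (nat_lit 304) (nat_lit 21122598390) (nat_lit 380)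 (nat_lit 8016825792) (nat_lit 58) (nat_lit 5) (nat_lit 62) (nat_lit 5) (nat_lit 63) (nat_lit 5) (nat_lit 304) (nat_lit 274) (nat_lit 142)) (XT.lf (nat_lit 0) (nat_lit 1956597975) (nat_lit 304) (nat_lit 49134624508) (nat_lit 76) (nat_lit 2829658105) (nat_lit 54) (nat_lit 5) (nat_lit 58) (nat_lit 5) (nat_lit 55) (nat_lit 5) (nat_lit 305) (nat_lit 274) (nat_lit 141))) (XT.nd (nat_lit 78) (nat_lit 304) (nat_lit 0) (XT.lf (nat_lit 0) (nat_lit 12776678639) (nat_lit 304) (nat_lit 15101752857) (nat_lit 76) (nat_lit 27929340476) (nat_lit 54) (nat_lit 5) (nat_lit 58) (nat_lit 5) (nat_lit 55) (nat_lit 5) (nat_lit 306) (nat_lit 274) (nat_lit 140)) (XT.nd (nat_lit 78) (nat_lit 0) (nat_lit 0) (XT.lf (nat_lit 0) (nat_lit 21038285869) (nat_lit 304) (nat_lit 3298009961) (nat_lit 380) (nat_lit 33446763066) (nat_lit 50) (nat_lit 5) (nat_lit 54) (nat_lit 5) (nat_lit 55) (nat_lit 5) (nat_lit 307) (nat_lit 274)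 (nat_lit 139)) (XT.lf (nat_lit 0) (nat_lit 36843702575) (nat_lit 380) (nat_lit 774437450) (nat_lit 76) (nat_lit 22227882494) (nat_lit 50) (nat_lit 5) (nat_lit 55) (nat_lit 5) (nat_lit 51) (nat_lit 5) (nat_lit 308) (nat_lit 274) (nat_lit 138))))) (XT.nd (nat_lit 234) (nat_lit 456) (nat_lit 0) (XT.nd (nat_lit 78) (nat_lit 304) (nat_lit 0) (XT.lf (nat_lit 0) (nat_lit 37691901626) (nat_lit 228) (nat_lit 12676770510) (nat_lit 304) (nat_lit 11631702712) (nat_lit 47) (nat_lit 5) (nat_lit 50) (nat_lit 5) (nat_lit 51) (nat_lit 5) (nat_lit 309) (nat_lit 274) (nat_lit 137)) (XT.nd (nat_lit 78) (nat_lit 0) (nat_lit 0) (XT.lf (nat_lit 0) (nat_lit 573052003) (nat_lit 304) (nat_lit 50286438976) (nat_lit 76) (nat_lit 13394722796) (nat_lit 43) (nat_lit 5) (nat_lit 47) (nat_lit 5) (nat_lit 44) (nat_lit 5) (nat_lit 310) (nat_lit 274) (nat_lit 136)) (XT.lf (nat_lit 0) (nat_lit 13527150367) (nat_lit 304) (nat_lit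 12199878325) (nat_lit 76) (nat_lit 40878876522) (nat_lit 43) (nat_lit 5) (nat_lit 47) (nat_lit 5) (nat_lit 44) (nat_lit 5) (nat_lit 311) (nat_lit 274) (nat_lit 135)))) (XT.nd (nat_lit 78) (nat_lit 228) (nat_lit 0) (XT.lf (nat_lit 0) (nat_lit 27407343339) (nat_lit 304) (nat_lit 40736539009) (nat_lit 76) (nat_lit 922952471) (nat_lit 40) (nat_lit 5) (nat_lit 44) (nat_lit 5) (nat_lit 41) (nat_lit 5) (nat_lit 312) (nat_lit 274) (nat_lit 134)) (XT.nd (nat_lit 78) (nat_lit 228) (nat_lit 0) (XT.lf (nat_lit 0) (nat_lit 42365061775) (nat_lit 304) (nat_lit 770393577) (nat_lit 76) (nat_lit 28503855107) (nat_lit 40) (nat_lit 5) (nat_lit 44) (nat_lit 5) (nat_lit 41) (nat_lit 5) (nat_lit 313) (nat_lit 274) (nat_lit 133)) (XT.lf (nat_lit 0) (nat_lit 42009668654) (nat_lit 228) (nat_lit 16461978458) (nat_lit 304) (nat_lit 15856738130) (nat_lit 37) (nat_lit 5) (nat_lit 40) (nat_lit 5) (nat_lit 41) (nat_lit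 5) (nat_lit 314) (nat_lit 274) (nat_lit 132)))))) (XT.nd (nat_lit 390) (nat_lit 380) (nat_lit 0) (XT.nd (nat_lit 156) (nat_lit 380) (nat_lit 0) (XT.nd (nat_lit 78) (nat_lit 76) (nat_lit 0) (XT.lf (nat_lit 0) (nat_lit 9870604371) (nat_lit 152) (nat_lit 65724070479) (nat_lit 228) (nat_lit 1550910085) (nat_lit 35) (nat_lit 5) (nat_lit 37) (nat_lit 5) (nat_lit 38) (nat_lit 5) (nat_lit 315) (nat_lit 274) (nat_lit 131)) (XT.lf (nat_lit 0) (nat_lit 13706803327) (nat_lit 228) (nat_lit 25551885109) (nat_lit 76) (nat_lit 40826092492) (nat_lit 34) (nat_lit 5) (nat_lit 37) (nat_lit 5) (nat_lit 35) (nat_lit 5) (nat_lit 316) (nat_lit 274) (nat_lit 130))) (XT.nd (nat_lit 78) (nat_lit 152) (nat_lit 0) (XT.lf (nat_lit 0) (nat_lit 18600827056) (nat_lit 228) (nat_lit 11271034059) (nat_lit 304) (nat_lit 53293322939) (nat_lit 31) (nat_lit 5) (nat_lit 34) (nat_lit 5) (nat_lit 35) (nat_lit 5) (nat_lit 317) (nat_lit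 274) (nat_lit 129)) (XT.nd (nat_lit 78) (nat_lit 152) (nat_lit 0) (XT.lf (nat_lit 0) (nat_lit 47282459630) (nat_lit 304) (nat_lit 21077137774) (nat_lit 76) (nat_lit 18026895124) (nat_lit 31) (nat_lit 5) (nat_lit 35) (nat_lit 5) (nat_lit 32) (nat_lit 5) (nat_lit 318) (nat_lit 274) (nat_lit 128)) (XT.lf (nat_lit 0) (nat_lit 24953995723) (nat_lit 152) (nat_lit 40960852720) (nat_lit 228) (nat_lit 23843483819) (nat_lit 29) (nat_lit 5) (nat_lit 31) (nat_lit 5) (nat_lit 32) (nat_lit 5) (nat_lit 319) (nat_lit 274) (nat_lit 127))))) (XT.nd (nat_lit 234) (nat_lit 152) (nat_lit 0) (XT.nd (nat_lit 78) (nat_lit 228) (nat_lit 0) (XT.lf (nat_lit 0) (nat_lit 73723612326) (nat_lit 152) (nat_lit 11969920102) (nat_lit 228) (nat_lit 7598794752) (nat_lit 29) (nat_lit 5) (nat_lit 31) (nat_lit 5) (nat_lit 32) (nat_lit 5) (nat_lit 320) (nat_lit 274) (nat_lit 126)) (XT.nd (nat_lit 78) (nat_lit 0) (nat_lit 0) (XT.lf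 (nat_lit 0) (nat_lit 9725383017) (nat_lit 228) (nat_lit 68784992208) (nat_lit 76) (nat_lit 18476367817) (nat_lit 26) (nat_lit 5) (nat_lit 29) (nat_lit 5) (nat_lit 27) (nat_lit 5) (nat_lit 321) (nat_lit 274) (nat_lit 125)) (XT.lf (nat_lit 0) (nat_lit 28082180107) (nat_lit 228) (nat_lit 22293035827) (nat_lit 76) (nat_lit 50478702799) (nat_lit 26) (nat_lit 5) (nat_lit 29) (nat_lit 5) (nat_lit 27) (nat_lit 5) (nat_lit 322) (nat_lit 274) (nat_lit 124)))) (XT.nd (nat_lit 33774) (nat_lit 0) (nat_lit 8816) (XT.lf (nat_lit 0) (nat_lit 27048123212) (nat_lit 152) (nat_lit 20566651078) (nat_lit 228) (nat_lit 57291943111) (nat_lit 24) (nat_lit 5) (nat_lit 26) (nat_lit 5) (nat_lit 27) (nat_lit 5) (nat_lit 323) (nat_lit 274) (nat_lit 123)) (XT.nd (nat_lit 78) (nat_lit 0) (nat_lit 0) (XT.lf (nat_lit 0) (nat_lit 4005325630) (nat_lit 1140) (nat_lit 3698286474) (nat_lit 1140) (nat_lit 3698286474) (nat_lit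 140) (nat_lit 3) (nat_lit 155) (nat_lit 3) (nat_lit 155) (nat_lit 5) (nat_lit 275) (nat_lit 275) (nat_lit 170)) (XT.lf (nat_lit 76) (nat_lit 8264586926) (nat_lit 0) (nat_lit 212605417) (nat_lit 1140) (nat_lit 14888208915) (nat_lit 141) (nat_lit 5) (nat_lit 140) (nat_lit 3) (nat_lit 155) (nat_lit 5) (nat_lit 276) (nat_lit 275) (nat_lit 169))))))))
noncomputable def xc108 : XT := (XT.nd (nat_lit 1638) (nat_lit 3800) (nat_lit 0) (XT.nd (nat_lit 780) (nat_lit 3952) (nat_lit 0) (XT.nd (nat_lit 390) (nat_lit 608) (nat_lit 0) (XT.nd (nat_lit 156) (nat_lit 0) (nat_lit 76) (XT.nd (nat_lit 78) (nat_lit 0) (nat_lit 76) (XT.lf (nat_lit 76) (nat_lit 766712359) (nat_lit 0) (nat_lit 8423967545) (nat_lit 1140) (nat_lit 14757729250) (nat_lit 142) (nat_lit 5) (nat_lit 141) (nat_lit 5) (nat_lit 156) (nat_lit 5) (nat_lit 277) (nat_lit 275) (nat_lit 168)) (XT.lf (nat_lit 0) (nat_lit 10159479850) (nat_lit 1064)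 (nat_lit 6895299578) (nat_lit 1140) (nat_lit 7499229515) (nat_lit 142) (nat_lit 5) (nat_lit 156) (nat_lit 5) (nat_lit 157) (nat_lit 5) (nat_lit 278) (nat_lit 275) (nat_lit 167))) (XT.nd (nat_lit 78) (nat_lit 0) (nat_lit 76) (XT.lf (nat_lit 76) (nat_lit 10315033845) (nat_lit 0) (nat_lit 1034997801) (nat_lit 1140) (nat_lit 13834686902) (nat_lit 143) (nat_lit 5) (nat_lit 142) (nat_lit 5) (nat_lit 157) (nat_lit 5) (nat_lit 279) (nat_lit 275) (nat_lit 166)) (XT.nd (nat_lit 78) (nat_lit 0) (nat_lit 76) (XT.lf (nat_lit 76) (nat_lit 2576135807) (nat_lit 0) (nat_lit 10261790788) (nat_lit 1140) (nat_lit 13001930361) (nat_lit 144) (nat_lit 5) (nat_lit 143) (nat_lit 5) (nat_lit 158) (nat_lit 5) (nat_lit 280) (nat_lit 275) (nat_lit 165)) (XT.lf (nat_lit 0) (nat_lit 14617456850) (nat_lit 1064) (nat_lit 5399253157) (nat_lit 1140) (nat_lit 6504551529) (nat_lit 144) (nat_lit 5) (nat_lit 158) (nat_lit 5)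 (nat_lit 159) (nat_lit 5) (nat_lit 281) (nat_lit 275) (nat_lit 164))))) (XT.nd (nat_lit 156) (nat_lit 836) (nat_lit 0) (XT.nd (nat_lit 78) (nat_lit 0) (nat_lit 76) (XT.lf (nat_lit 76) (nat_lit 13511871015) (nat_lit 0) (nat_lit 3198111628) (nat_lit 1140) (nat_lit 10520058339) (nat_lit 145) (nat_lit 5) (nat_lit 144) (nat_lit 5) (nat_lit 159) (nat_lit 5) (nat_lit 282) (nat_lit 275) (nat_lit 163)) (XT.lf (nat_lit 76) (nat_lit 5469161322) (nat_lit 0) (nat_lit 13676661296) (nat_lit 1140) (nat_lit 8821300152) (nat_lit 146) (nat_lit 5) (nat_lit 145) (nat_lit 5) (nat_lit 160) (nat_lit 5) (nat_lit 283) (nat_lit 275) (nat_lit 162))) (XT.nd (nat_lit 78) (nat_lit 988) (nat_lit 0) (XT.lf (nat_lit 0) (nat_lit 21906375341) (nat_lit 1064) (nat_lit 2911534705) (nat_lit 1140) (nat_lit 3917083842) (nat_lit 146) (nat_lit 5) (nat_lit 160) (nat_lit 5) (nat_lit 161) (nat_lit 5) (nat_lit 284) (nat_lit 275) (nat_lit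 161)) (XT.nd (nat_lit 78) (nat_lit 988) (nat_lit 0) (XT.lf (nat_lit 76) (nat_lit 17858079951) (nat_lit 0) (nat_lit 7248350436) (nat_lit 1140) (nat_lit 4425805710) (nat_lit 147) (nat_lit 5) (nat_lit 146) (nat_lit 5) (nat_lit 161) (nat_lit 5) (nat_lit 285) (nat_lit 275) (nat_lit 160)) (XT.lf (nat_lit 0) (nat_lit 9427943605) (nat_lit 1064) (nat_lit 19259213661) (nat_lit 1140) (nat_lit 1675583817) (nat_lit 133) (nat_lit 5) (nat_lit 147) (nat_lit 5) (nat_lit 148) (nat_lit 5) (nat_lit 286) (nat_lit 275) (nat_lit 159)))))) (XT.nd (nat_lit 390) (nat_lit 2204) (nat_lit 0) (XT.nd (nat_lit 156) (nat_lit 1064) (nat_lit 0) (XT.nd (nat_lit 78) (nat_lit 0) (nat_lit 0) (XT.lf (nat_lit 0) (nat_lit 515361021) (nat_lit 608) (nat_lit 864947343) (nat_lit 684) (nat_lit 29848378194) (nat_lit 124) (nat_lit 5) (nat_lit 132) (nat_lit 5) (nat_lit 133) (nat_lit 5) (nat_lit 287) (nat_lit 275) (nat_lit 158)) (XT.lf (nat_lit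 0) (nat_lit 4942292248) (nat_lit 684) (nat_lit 8859040268) (nat_lit 76) (nat_lit 18324478831) (nat_lit 124) (nat_lit 5) (nat_lit 133) (nat_lit 5) (nat_lit 125) (nat_lit 5) (nat_lit 288) (nat_lit 275) (nat_lit 157))) (XT.nd (nat_lit 78) (nat_lit 532) (nat_lit 0) (XT.lf (nat_lit 0) (nat_lit 8875237105) (nat_lit 608) (nat_lit 18763849856) (nat_lit 76) (nat_lit 5422936954) (nat_lit 117) (nat_lit 5) (nat_lit 125) (nat_lit 5) (nat_lit 118) (nat_lit 5) (nat_lit 289) (nat_lit 275) (nat_lit 156)) (XT.nd (nat_lit 78) (nat_lit 0) (nat_lit 0) (XT.lf (nat_lit 0) (nat_lit 4701187205) (nat_lit 532) (nat_lit 8573507438) (nat_lit 608) (nat_lit 20762273071) (nat_lit 110) (nat_lit 5) (nat_lit 117) (nat_lit 5) (nat_lit 118) (nat_lit 5) (nat_lit 290) (nat_lit 275) (nat_lit 155)) (XT.lf (nat_lit 0) (nat_lit 18192752722) (nat_lit 608) (nat_lit 5441651422) (nat_lit 76) (nat_lit 11417311504) (nat_lit 110) (nat_lit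 5) (nat_lit 118) (nat_lit 5) (nat_lit 111) (nat_lit 5) (nat_lit 291) (nat_lit 275) (nat_lit 154))))) (XT.nd (nat_lit 234) (nat_lit 1292) (nat_lit 0) (XT.nd (nat_lit 78) (nat_lit 456) (nat_lit 0) (XT.lf (nat_lit 0) (nat_lit 19943688866) (nat_lit 456) (nat_lit 3685116189) (nat_lit 532) (nat_lit 12480248208) (nat_lit 104) (nat_lit 5) (nat_lit 110) (nat_lit 5) (nat_lit 111) (nat_lit 5) (nat_lit 292) (nat_lit 275) (nat_lit 153)) (XT.nd (nat_lit 78) (nat_lit 0) (nat_lit 0) (XT.lf (nat_lit 0) (nat_lit 9507321879) (nat_lit 456) (nat_lit 20137310670) (nat_lit 532) (nat_lit 7565400342) (nat_lit 98) (nat_lit 5) (nat_lit 104) (nat_lit 5) (nat_lit 105) (nat_lit 5) (nat_lit 293) (nat_lit 275) (nat_lit 152)) (XT.lf (nat_lit 0) (nat_lit 36164550964) (nat_lit 532) (nat_lit 1608361649) (nat_lit 76) (nat_lit 587063528) (nat_lit 98) (nat_lit 5) (nat_lit 105) (nat_lit 5) (nat_lit 99) (nat_lit 5) (nat_lit 294)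 (nat_lit 275) (nat_lit 151)))) (XT.nd (nat_lit 78) (nat_lit 836) (nat_lit 0) (XT.lf (nat_lit 0) (nat_lit 3828916592) (nat_lit 456) (nat_lit 13500792917) (nat_lit 76) (nat_lit 22223135122) (nat_lit 92) (nat_lit 5) (nat_lit 98) (nat_lit 5) (nat_lit 93) (nat_lit 5) (nat_lit 295) (nat_lit 275) (nat_lit 150)) (XT.nd (nat_lit 78) (nat_lit 380) (nat_lit 0) (XT.lf (nat_lit 0) (nat_lit 10302607400) (nat_lit 532) (nat_lit 26261055702) (nat_lit 76) (nat_lit 4235247234) (nat_lit 86) (nat_lit 5) (nat_lit 93) (nat_lit 5) (nat_lit 87) (nat_lit 5) (nat_lit 296) (nat_lit 275) (nat_lit 149)) (XT.lf (nat_lit 0) (nat_lit 2014672662) (nat_lit 380) (nat_lit 15414850340) (nat_lit 456) (nat_lit 24667881547) (nat_lit 81) (nat_lit 5) (nat_lit 86) (nat_lit 5) (nat_lit 87) (nat_lit 5) (nat_lit 297) (nat_lit 275) (nat_lit 148))))))) (XT.nd (nat_lit 780) (nat_lit 1748) (nat_lit 0) (XT.nd (nat_lit 390) (nat_lit 912) (nat_lit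 0) (XT.nd (nat_lit 156) (nat_lit 760) (nat_lit 0) (XT.nd (nat_lit 78) (nat_lit 380) (nat_lit 0) (XT.lf (nat_lit 0) (nat_lit 25246166073) (nat_lit 456) (nat_lit 11273494864) (nat_lit 76) (nat_lit 6931171970) (nat_lit 81) (nat_lit 5) (nat_lit 87) (nat_lit 5) (nat_lit 82) (nat_lit 5) (nat_lit 298) (nat_lit 275) (nat_lit 147)) (XT.lf (nat_lit 0) (nat_lit 19189563310) (nat_lit 380) (nat_lit 14599447146) (nat_lit 456) (nat_lit 11072871519) (nat_lit 76) (nat_lit 5) (nat_lit 81) (nat_lit 5) (nat_lit 82) (nat_lit 5) (nat_lit 299) (nat_lit 275) (nat_lit 146))) (XT.nd (nat_lit 78) (nat_lit 456) (nat_lit 0) (XT.lf (nat_lit 0) (nat_lit 5082995309) (nat_lit 304) (nat_lit 37918454208) (nat_lit 380) (nat_lit 3334770277) (nat_lit 72) (nat_lit 5) (nat_lit 76) (nat_lit 5) (nat_lit 77) (nat_lit 5) (nat_lit 300) (nat_lit 275) (nat_lit 145)) (XT.nd (nat_lit 78) (nat_lit 380) (nat_lit 0) (XT.lf (nat_lit 0) (nat_lit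 5106603593) (nat_lit 380) (nat_lit 10165245040) (nat_lit 76) (nat_lit 32598758332) (nat_lit 71) (nat_lit 5) (nat_lit 76) (nat_lit 5) (nat_lit 72) (nat_lit 5) (nat_lit 301) (nat_lit 275) (nat_lit 144)) (XT.lf (nat_lit 0) (nat_lit 14201785536) (nat_lit 456) (nat_lit 26673647108) (nat_lit 76) (nat_lit 8596277791) (nat_lit 66) (nat_lit 5) (nat_lit 72) (nat_lit 5) (nat_lit 67) (nat_lit 5) (nat_lit 302) (nat_lit 275) (nat_lit 143))))) (XT.nd (nat_lit 156) (nat_lit 608) (nat_lit 0) (XT.nd (nat_lit 78) (nat_lit 0) (nat_lit 0) (XT.lf (nat_lit 0) (nat_lit 6437527902) (nat_lit 304) (nat_lit 17631848723) (nat_lit 380) (nat_lit 27073971232) (nat_lit 62) (nat_lit 5) (nat_lit 66) (nat_lit 5) (nat_lit 67) (nat_lit 5) (nat_lit 303) (nat_lit 275) (nat_lit 142)) (XT.lf (nat_lit 0) (nat_lit 34768844865) (nat_lit 380) (nat_lit 11201612035) (nat_lit 76) (nat_lit 6917963208) (nat_lit 62) (nat_lit 5) (nat_lit 67)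 (nat_lit 5) (nat_lit 63) (nat_lit 5) (nat_lit 304) (nat_lit 275) (nat_lit 141))) (XT.nd (nat_lit 78) (nat_lit 304) (nat_lit 0) (XT.lf (nat_lit 0) (nat_lit 24268542694) (nat_lit 304) (nat_lit 22142259274) (nat_lit 380) (nat_lit 8297726052) (nat_lit 58) (nat_lit 5) (nat_lit 62) (nat_lit 5) (nat_lit 63) (nat_lit 5) (nat_lit 305) (nat_lit 275) (nat_lit 140)) (XT.nd (nat_lit 78) (nat_lit 0) (nat_lit 0) (XT.lf (nat_lit 0) (nat_lit 2168237136) (nat_lit 304) (nat_lit 51437291035) (nat_lit 76) (nat_lit 3007768586) (nat_lit 54) (nat_lit 5) (nat_lit 58) (nat_lit 5) (nat_lit 55) (nat_lit 5) (nat_lit 306) (nat_lit 275) (nat_lit 139)) (XT.lf (nat_lit 0) (nat_lit 13523902345) (nat_lit 304) (nat_lit 15710112216) (nat_lit 76) (nat_lit 29360690905) (nat_lit 54) (nat_lit 5) (nat_lit 58) (nat_lit 5) (nat_lit 55) (nat_lit 5) (nat_lit 307) (nat_lit 275) (nat_lit 138)))))) (XT.nd (nat_lit 390) (nat_lit 912) (nat_lit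 0) (XT.nd (nat_lit 156) (nat_lit 532) (nat_lit 0) (XT.nd (nat_lit 78) (nat_lit 0) (nat_lit 0) (XT.lf (nat_lit 0) (nat_lit 22232722510) (nat_lit 304) (nat_lit 3424986480) (nat_lit 380) (nat_lit 35011171175) (nat_lit 50) (nat_lit 5) (nat_lit 54) (nat_lit 5) (nat_lit 55) (nat_lit 5) (nat_lit 308) (nat_lit 275) (nat_lit 137)) (XT.lf (nat_lit 0) (nat_lit 38785852386) (nat_lit 380) (nat_lit 674597917) (nat_lit 76) (nat_lit 23374689900) (nat_lit 50) (nat_lit 5) (nat_lit 55) (nat_lit 5) (nat_lit 51) (nat_lit 5) (nat_lit 309) (nat_lit 275) (nat_lit 136))) (XT.nd (nat_lit 78) (nat_lit 304) (nat_lit 0) (XT.lf (nat_lit 0) (nat_lit 39711086277) (nat_lit 228) (nat_lit 13272517682) (nat_lit 304) (nat_lit 12113718970) (nat_lit 47) (nat_lit 5) (nat_lit 50) (nat_lit 5) (nat_lit 51) (nat_lit 5) (nat_lit 310) (nat_lit 275) (nat_lit 135)) (XT.nd (nat_lit 78) (nat_lit 0) (nat_lit 0) (XT.lf (nat_lit 0) (nat_lit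 696328470) (nat_lit 304) (nat_lit 52665356685) (nat_lit 76) (nat_lit 14102238120) (nat_lit 43) (nat_lit 5) (nat_lit 47) (nat_lit 5) (nat_lit 44) (nat_lit 5) (nat_lit 311) (nat_lit 275) (nat_lit 134)) (XT.lf (nat_lit 0) (nat_lit 14293625854) (nat_lit 304) (nat_lit 12680915822) (nat_lit 76) (nat_lit 42958800524) (nat_lit 43) (nat_lit 5) (nat_lit 47) (nat_lit 5) (nat_lit 44) (nat_lit 5) (nat_lit 312) (nat_lit 275) (nat_lit 133))))) (XT.nd (nat_lit 234) (nat_lit 456) (nat_lit 0) (XT.nd (nat_lit 78) (nat_lit 228) (nat_lit 0) (XT.lf (nat_lit 0) (nat_lit 28865108700) (nat_lit 304) (nat_lit 42645715243) (nat_lit 76) (nat_lit 1006583303) (nat_lit 40) (nat_lit 5) (nat_lit 44) (nat_lit 5) (nat_lit 41) (nat_lit 5) (nat_lit 313) (nat_lit 275) (nat_lit 132)) (XT.nd (nat_lit 78) (nat_lit 228) (nat_lit 0) (XT.lf (nat_lit 0) (nat_lit 44566551239) (nat_lit 304) (nat_lit 687341145) (nat_lit 76) (nat_lit 29964746156)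 (nat_lit 40) (nat_lit 5) (nat_lit 44) (nat_lit 5) (nat_lit 41) (nat_lit 5) (nat_lit 314) (nat_lit 275) (nat_lit 131)) (XT.lf (nat_lit 0) (nat_lit 44228239357) (nat_lit 228) (nat_lit 17247397976) (nat_lit 304) (nat_lit 16566621268) (nat_lit 37) (nat_lit 5) (nat_lit 40) (nat_lit 5) (nat_lit 41) (nat_lit 5) (nat_lit 315) (nat_lit 275) (nat_lit 130)))) (XT.nd (nat_lit 78) (nat_lit 304) (nat_lit 0) (XT.lf (nat_lit 0) (nat_lit 10480958022) (nat_lit 152) (nat_lit 68971497418) (nat_lit 228) (nat_lit 1547940034) (nat_lit 35) (nat_lit 5) (nat_lit 37) (nat_lit 5) (nat_lit 38) (nat_lit 5) (nat_lit 316) (nat_lit 275) (nat_lit 129)) (XT.nd (nat_lit 78) (nat_lit 228) (nat_lit 0) (XT.lf (nat_lit 0) (nat_lit 14467328642) (nat_lit 228) (nat_lit 26716604911) (nat_lit 76) (nat_lit 42902713157) (nat_lit 34) (nat_lit 5) (nat_lit 37) (nat_lit 5) (nat_lit 35) (nat_lit 5) (nat_lit 317) (nat_lit 275) (nat_lit 128))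 (XT.lf (nat_lit 0) (nat_lit 19640507338) (nat_lit 228) (nat_lit 11797605654) (nat_lit 304) (nat_lit 55883038397) (nat_lit 31) (nat_lit 5) (nat_lit 34) (nat_lit 5) (nat_lit 35) (nat_lit 5) (nat_lit 318) (nat_lit 275) (nat_lit 127))))))))
noncomputable def xc109 : XT := (XT.nd (nat_lit 35412) (nat_lit 0) (nat_lit 1292) (XT.nd (nat_lit 34554) (nat_lit 0) (nat_lit 6384) (XT.nd (nat_lit 34164) (nat_lit 0) (nat_lit 8664) (XT.nd (nat_lit 156) (nat_lit 228) (nat_lit 0) (XT.nd (nat_lit 78) (nat_lit 152) (nat_lit 0) (XT.lf (nat_lit 0) (nat_lit 49716120036) (nat_lit 304) (nat_lit 22024732451) (nat_lit 76) (nat_lit 18962771780) (nat_lit 31) (nat_lit 5) (nat_lit 35) (nat_lit 5) (nat_lit 32) (nat_lit 5) (nat_lit 319) (nat_lit 275) (nat_lit 126)) (XT.lf (nat_lit 0) (nat_lit 26304911736) (nat_lit 152) (nat_lit 42972897425) (nat_lit 228) (nat_lit 24966321483) (nat_lit 29) (nat_lit 5) (nat_lit 31) (nat_lit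 5) (nat_lit 32) (nat_lit 5) (nat_lit 320) (nat_lit 275) (nat_lit 125))) (XT.nd (nat_lit 78) (nat_lit 228) (nat_lit 0) (XT.lf (nat_lit 0) (nat_lit 77508094111) (nat_lit 152) (nat_lit 12534132364) (nat_lit 228) (nat_lit 7912699702) (nat_lit 29) (nat_lit 5) (nat_lit 31) (nat_lit 5) (nat_lit 32) (nat_lit 5) (nat_lit 321) (nat_lit 275) (nat_lit 124)) (XT.nd (nat_lit 78) (nat_lit 0) (nat_lit 0) (XT.lf (nat_lit 0) (nat_lit 10274575044) (nat_lit 228) (nat_lit 72125777178) (nat_lit 76) (nat_lit 19433750745) (nat_lit 26) (nat_lit 5) (nat_lit 29) (nat_lit 5) (nat_lit 27) (nat_lit 5) (nat_lit 322) (nat_lit 275) (nat_lit 123)) (XT.lf (nat_lit 0) (nat_lit 29546215660) (nat_lit 228) (nat_lit 23313911770) (nat_lit 76) (nat_lit 53034604164) (nat_lit 26) (nat_lit 5) (nat_lit 29) (nat_lit 5) (nat_lit 27) (nat_lit 5) (nat_lit 323) (nat_lit 275) (nat_lit 122))))) (XT.nd (nat_lit 156) (nat_lit 0) (nat_lit 76)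 (XT.nd (nat_lit 78) (nat_lit 0) (nat_lit 0) (XT.lf (nat_lit 0) (nat_lit 4389505500) (nat_lit 1140) (nat_lit 3788237931) (nat_lit 1140) (nat_lit 3788237931) (nat_lit 140) (nat_lit 3) (nat_lit 155) (nat_lit 3) (nat_lit 155) (nat_lit 5) (nat_lit 276) (nat_lit 276) (nat_lit 168)) (XT.lf (nat_lit 76) (nat_lit 8862297822) (nat_lit 0) (nat_lit 390839085) (nat_lit 1140) (nat_lit 15269029510) (nat_lit 141) (nat_lit 5) (nat_lit 140) (nat_lit 3) (nat_lit 155) (nat_lit 5) (nat_lit 277) (nat_lit 276) (nat_lit 167))) (XT.nd (nat_lit 78) (nat_lit 0) (nat_lit 76) (XT.lf (nat_lit 76) (nat_lit 996981442) (nat_lit 0) (nat_lit 8988862049) (nat_lit 1140) (nat_lit 15149019752) (nat_lit 142) (nat_lit 5) (nat_lit 141) (nat_lit 5) (nat_lit 156) (nat_lit 5) (nat_lit 278) (nat_lit 276) (nat_lit 166)) (XT.nd (nat_lit 78) (nat_lit 0) (nat_lit 0) (XT.lf (nat_lit 0) (nat_lit 10985785553) (nat_lit 1064) (nat_lit 7045511101)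 (nat_lit 1140) (nat_lit 7740008041) (nat_lit 142) (nat_lit 5) (nat_lit 156) (nat_lit 5) (nat_lit 157) (nat_lit 5) (nat_lit 279) (nat_lit 276) (nat_lit 165)) (XT.lf (nat_lit 76) (nat_lit 11019762158) (nat_lit 0) (nat_lit 1202760687) (nat_lit 1140) (nat_lit 14211467900) (nat_lit 143) (nat_lit 5) (nat_lit 142) (nat_lit 5) (nat_lit 157) (nat_lit 5) (nat_lit 280) (nat_lit 276) (nat_lit 164)))))) (XT.nd (nat_lit 390) (nat_lit 2508) (nat_lit 0) (XT.nd (nat_lit 156) (nat_lit 0) (nat_lit 76) (XT.nd (nat_lit 78) (nat_lit 0) (nat_lit 76) (XT.lf (nat_lit 76) (nat_lit 2899263585) (nat_lit 0) (nat_lit 10871831490) (nat_lit 1140) (nat_lit 13351241286) (nat_lit 144) (nat_lit 5) (nat_lit 143) (nat_lit 5) (nat_lit 158) (nat_lit 5) (nat_lit 281) (nat_lit 276) (nat_lit 163)) (XT.lf (nat_lit 0) (nat_lit 15624844165) (nat_lit 1064) (nat_lit 5474200211) (nat_lit 1140) (nat_lit 6739246442) (nat_lit 144) (nat_lit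 5) (nat_lit 158) (nat_lit 5) (nat_lit 159) (nat_lit 5) (nat_lit 282) (nat_lit 276) (nat_lit 162))) (XT.nd (nat_lit 78) (nat_lit 0) (nat_lit 76) (XT.lf (nat_lit 76) (nat_lit 14376890086) (nat_lit 0) (nat_lit 3433759679) (nat_lit 1140) (nat_lit 10772235026) (nat_lit 145) (nat_lit 5) (nat_lit 144) (nat_lit 5) (nat_lit 159) (nat_lit 5) (nat_lit 283) (nat_lit 276) (nat_lit 161)) (XT.nd (nat_lit 78) (nat_lit 0) (nat_lit 76) (XT.lf (nat_lit 76) (nat_lit 5935732329) (nat_lit 0) (nat_lit 14421085270) (nat_lit 1140) (nat_lit 9000380479) (nat_lit 146) (nat_lit 5) (nat_lit 145) (nat_lit 5) (nat_lit 160) (nat_lit 5) (nat_lit 284) (nat_lit 276) (nat_lit 160)) (XT.lf (nat_lit 0) (nat_lit 23242762122) (nat_lit 1064) (nat_lit 2864753146) (nat_lit 1140) (nat_lit 4056358451) (nat_lit 146) (nat_lit 5) (nat_lit 160) (nat_lit 5) (nat_lit 161) (nat_lit 5) (nat_lit 285) (nat_lit 276) (nat_lit 159))))) (XT.nd (nat_lit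 234) (nat_lit 1064) (nat_lit 0) (XT.nd (nat_lit 78) (nat_lit 1672) (nat_lit 0) (XT.lf (nat_lit 76) (nat_lit 18937828330) (nat_lit 0) (nat_lit 7655308223) (nat_lit 1140) (nat_lit 4408162359) (nat_lit 147) (nat_lit 5) (nat_lit 146) (nat_lit 5) (nat_lit 161) (nat_lit 5) (nat_lit 286) (nat_lit 276) (nat_lit 158)) (XT.nd (nat_lit 78) (nat_lit 684) (nat_lit 0) (XT.lf (nat_lit 0) (nat_lit 10088577786) (nat_lit 1064) (nat_lit 20254714975) (nat_lit 1140) (nat_lit 1530353522) (nat_lit 133) (nat_lit 5) (nat_lit 147) (nat_lit 5) (nat_lit 148) (nat_lit 5) (nat_lit 287) (nat_lit 276) (nat_lit 157)) (XT.lf (nat_lit 0) (nat_lit 729827908) (nat_lit 608) (nat_lit 935158034) (nat_lit 684) (nat_lit 31118130150) (nat_lit 124) (nat_lit 5) (nat_lit 132) (nat_lit 5) (nat_lit 133) (nat_lit 5) (nat_lit 288) (nat_lit 276) (nat_lit 156)))) (XT.nd (nat_lit 78) (nat_lit 1064) (nat_lit 0) (XT.lf (nat_lit 0) (nat_lit 5394552549)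 (nat_lit 684) (nat_lit 9115361027) (nat_lit 76) (nat_lit 19215524513) (nat_lit 124) (nat_lit 5) (nat_lit 133) (nat_lit 5) (nat_lit 125) (nat_lit 5) (nat_lit 289) (nat_lit 276) (nat_lit 155)) (XT.nd (nat_lit 78) (nat_lit 532) (nat_lit 0) (XT.lf (nat_lit 0) (nat_lit 9515966151) (nat_lit 608) (nat_lit 19514209820) (nat_lit 76) (nat_lit 5678554930) (nat_lit 117) (nat_lit 5) (nat_lit 125) (nat_lit 5) (nat_lit 118) (nat_lit 5) (nat_lit 290) (nat_lit 276) (nat_lit 154)) (XT.lf (nat_lit 0) (nat_lit 5118694913) (nat_lit 532) (nat_lit 9009076068) (nat_lit 608) (nat_lit 21604902780) (nat_lit 110) (nat_lit 5) (nat_lit 117) (nat_lit 5) (nat_lit 118) (nat_lit 5) (nat_lit 291) (nat_lit 276) (nat_lit 153))))))) (XT.nd (nat_lit 858) (nat_lit 2128) (nat_lit 0) (XT.nd (nat_lit 390) (nat_lit 1596) (nat_lit 0) (XT.nd (nat_lit 156) (nat_lit 912) (nat_lit 0) (XT.nd (nat_lit 78) (nat_lit 456) (nat_lit 0) (XT.lf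 (nat_lit 0) (nat_lit 19282652590) (nat_lit 608) (nat_lit 5534060708) (nat_lit 76) (nat_lit 11981740179) (nat_lit 110) (nat_lit 5) (nat_lit 118) (nat_lit 5) (nat_lit 111) (nat_lit 5) (nat_lit 292) (nat_lit 276) (nat_lit 152)) (XT.lf (nat_lit 0) (nat_lit 21115396295) (nat_lit 456) (nat_lit 3868204950) (nat_lit 532) (nat_lit 12925284872) (nat_lit 104) (nat_lit 5) (nat_lit 110) (nat_lit 5) (nat_lit 111) (nat_lit 5) (nat_lit 293) (nat_lit 276) (nat_lit 151))) (XT.nd (nat_lit 78) (nat_lit 456) (nat_lit 0) (XT.lf (nat_lit 0) (nat_lit 10157656113) (nat_lit 456) (nat_lit 21136001542) (nat_lit 532) (nat_lit 7771473905) (nat_lit 98) (nat_lit 5) (nat_lit 104) (nat_lit 5) (nat_lit 105) (nat_lit 5) (nat_lit 294) (nat_lit 276) (nat_lit 150)) (XT.nd (nat_lit 78) (nat_lit 456) (nat_lit 0) (XT.lf (nat_lit 0) (nat_lit 38131704281) (nat_lit 532) (nat_lit 1517072555) (nat_lit 76) (nat_lit 624050176) (nat_lit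 98) (nat_lit 5) (nat_lit 105) (nat_lit 5) (nat_lit 99) (nat_lit 5) (nat_lit 295) (nat_lit 276) (nat_lit 149)) (XT.lf (nat_lit 0) (nat_lit 4175193000) (nat_lit 456) (nat_lit 14005614390) (nat_lit 76) (nat_lit 23344683039) (nat_lit 92) (nat_lit 5) (nat_lit 98) (nat_lit 5) (nat_lit 93) (nat_lit 5) (nat_lit 296) (nat_lit 276) (nat_lit 148))))) (XT.nd (nat_lit 234) (nat_lit 760) (nat_lit 0) (XT.nd (nat_lit 78) (nat_lit 380) (nat_lit 0) (XT.lf (nat_lit 0) (nat_lit 10966941411) (nat_lit 532) (nat_lit 27404120006) (nat_lit 76) (nat_lit 4462983552) (nat_lit 86) (nat_lit 5) (nat_lit 93) (nat_lit 5) (nat_lit 87) (nat_lit 5) (nat_lit 297) (nat_lit 276) (nat_lit 147)) (XT.nd (nat_lit 78) (nat_lit 0) (nat_lit 0) (XT.lf (nat_lit 0) (nat_lit 2280522092) (nat_lit 380) (nat_lit 16164162960) (nat_lit 456) (nat_lit 25752960314) (nat_lit 81) (nat_lit 5) (nat_lit 86) (nat_lit 5) (nat_lit 87) (nat_lit 5) (nat_lit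 298) (nat_lit 276) (nat_lit 146)) (XT.lf (nat_lit 0) (nat_lit 26645514278) (nat_lit 456) (nat_lit 11675703693) (nat_lit 76) (nat_lit 7297741732) (nat_lit 81) (nat_lit 5) (nat_lit 87) (nat_lit 5) (nat_lit 82) (nat_lit 5) (nat_lit 299) (nat_lit 276) (nat_lit 145)))) (XT.nd (nat_lit 78) (nat_lit 380) (nat_lit 0) (XT.lf (nat_lit 0) (nat_lit 20305879002) (nat_lit 380) (nat_lit 15304603786) (nat_lit 456) (nat_lit 11490243439) (nat_lit 76) (nat_lit 5) (nat_lit 81) (nat_lit 5) (nat_lit 82) (nat_lit 5) (nat_lit 300) (nat_lit 276) (nat_lit 144)) (XT.nd (nat_lit 78) (nat_lit 76) (nat_lit 0) (XT.lf (nat_lit 0) (nat_lit 5493383204) (nat_lit 304) (nat_lit 39785602887) (nat_lit 380) (nat_lit 3369945349) (nat_lit 72) (nat_lit 5) (nat_lit 76) (nat_lit 5) (nat_lit 77) (nat_lit 5) (nat_lit 301) (nat_lit 276) (nat_lit 143)) (XT.lf (nat_lit 0) (nat_lit 5484787263) (nat_lit 380) (nat_lit 10522009383) (nat_lit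 76) (nat_lit 34253400396) (nat_lit 71) (nat_lit 5) (nat_lit 76) (nat_lit 5) (nat_lit 72) (nat_lit 5) (nat_lit 302) (nat_lit 276) (nat_lit 142)))))) (XT.nd (nat_lit 390) (nat_lit 836) (nat_lit 0) (XT.nd (nat_lit 156) (nat_lit 608) (nat_lit 0) (XT.nd (nat_lit 78) (nat_lit 304) (nat_lit 0) (XT.lf (nat_lit 0) (nat_lit 15030568925) (nat_lit 456) (nat_lit 27856655377) (nat_lit 76) (nat_lit 9054268292) (nat_lit 66) (nat_lit 5) (nat_lit 72) (nat_lit 5) (nat_lit 67) (nat_lit 5) (nat_lit 303) (nat_lit 276) (nat_lit 141)) (XT.lf (nat_lit 0) (nat_lit 6905759341) (nat_lit 304) (nat_lit 18481534982) (nat_lit 380) (nat_lit 28309556472) (nat_lit 62) (nat_lit 5) (nat_lit 66) (nat_lit 5) (nat_lit 67) (nat_lit 5) (nat_lit 304) (nat_lit 276) (nat_lit 140))) (XT.nd (nat_lit 78) (nat_lit 608) (nat_lit 0) (XT.lf (nat_lit 0) (nat_lit 36616578125) (nat_lit 380) (nat_lit 11619109021) (nat_lit 76) (nat_lit 7293655248)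 (nat_lit 62) (nat_lit 5) (nat_lit 67) (nat_lit 5) (nat_lit 63) (nat_lit 5) (nat_lit 305) (nat_lit 276) (nat_lit 139)) (XT.nd (nat_lit 78) (nat_lit 304) (nat_lit 0) (XT.lf (nat_lit 0) (nat_lit 25620466314) (nat_lit 304) (nat_lit 23216293748) (nat_lit 380) (nat_lit 8603822305) (nat_lit 58) (nat_lit 5) (nat_lit 62) (nat_lit 5) (nat_lit 63) (nat_lit 5) (nat_lit 306) (nat_lit 276) (nat_lit 138)) (XT.lf (nat_lit 0) (nat_lit 2379877348) (nat_lit 304) (nat_lit 53869414364) (nat_lit 76) (nat_lit 3191379306) (nat_lit 54) (nat_lit 5) (nat_lit 58) (nat_lit 5) (nat_lit 55) (nat_lit 5) (nat_lit 307) (nat_lit 276) (nat_lit 137))))) (XT.nd (nat_lit 234) (nat_lit 532) (nat_lit 0) (XT.nd (nat_lit 78) (nat_lit 304) (nat_lit 0) (XT.lf (nat_lit 0) (nat_lit 14298410182) (nat_lit 304) (nat_lit 16362530948) (nat_lit 76) (nat_lit 30860365728) (nat_lit 54) (nat_lit 5) (nat_lit 58) (nat_lit 5) (nat_lit 55) (nat_lit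 5) (nat_lit 308) (nat_lit 276) (nat_lit 136)) (XT.nd (nat_lit 78) (nat_lit 0) (nat_lit 0) (XT.lf (nat_lit 0) (nat_lit 23473630605) (nat_lit 304) (nat_lit 3561837637) (nat_lit 380) (nat_lit 36663834002) (nat_lit 50) (nat_lit 5) (nat_lit 54) (nat_lit 5) (nat_lit 55) (nat_lit 5) (nat_lit 309) (nat_lit 276) (nat_lit 135)) (XT.lf (nat_lit 0) (nat_lit 40815815919) (nat_lit 380) (nat_lit 582648535) (nat_lit 76) (nat_lit 24575545285) (nat_lit 50) (nat_lit 5) (nat_lit 55) (nat_lit 5) (nat_lit 51) (nat_lit 5) (nat_lit 310) (nat_lit 276) (nat_lit 134)))) (XT.nd (nat_lit 78) (nat_lit 304) (nat_lit 0) (XT.lf (nat_lit 0) (nat_lit 41818717298) (nat_lit 228) (nat_lit 13901593585) (nat_lit 304) (nat_lit 12629093011) (nat_lit 47) (nat_lit 5) (nat_lit 50) (nat_lit 5) (nat_lit 51) (nat_lit 5) (nat_lit 311) (nat_lit 276) (nat_lit 133)) (XT.nd (nat_lit 78) (nat_lit 0) (nat_lit 0) (XT.lf (nat_lit 0) (nat_lit 816971531)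 (nat_lit 304) (nat_lit 55175808881) (nat_lit 76) (nat_lit 14841616860) (nat_lit 43) (nat_lit 5) (nat_lit 47) (nat_lit 5) (nat_lit 44) (nat_lit 5) (nat_lit 312) (nat_lit 276) (nat_lit 132)) (XT.lf (nat_lit 0) (nat_lit 15090046801) (nat_lit 304) (nat_lit 13197994339) (nat_lit 76) (nat_lit 45139375630) (nat_lit 43) (nat_lit 5) (nat_lit 47) (nat_lit 5) (nat_lit 44) (nat_lit 5) (nat_lit 313) (nat_lit 276) (nat_lit 131))))))))
noncomputable def xc110 : XT := (XT.nd (nat_lit 35490) (nat_lit 0) (nat_lit 2128) (XT.nd (nat_lit 34632) (nat_lit 0) (nat_lit 8664) (XT.nd (nat_lit 390) (nat_lit 608) (nat_lit 0) (XT.nd (nat_lit 156) (nat_lit 456) (nat_lit 0) (XT.nd (nat_lit 78) (nat_lit 0) (nat_lit 0) (XT.lf (nat_lit 0) (nat_lit 30387636873) (nat_lit 304) (nat_lit 44662218042) (nat_lit 76) (nat_lit 1090910843) (nat_lit 40) (nat_lit 5) (nat_lit 44) (nat_lit 5) (nat_lit 41) (nat_lit 5) (nat_lit 314) (nat_lit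 276) (nat_lit 130)) (XT.lf (nat_lit 0) (nat_lit 46870376647) (nat_lit 304) (nat_lit 611438714) (nat_lit 76) (nat_lit 31495362869) (nat_lit 40) (nat_lit 5) (nat_lit 44) (nat_lit 5) (nat_lit 41) (nat_lit 5) (nat_lit 315) (nat_lit 276) (nat_lit 129))) (XT.nd (nat_lit 78) (nat_lit 228) (nat_lit 0) (XT.lf (nat_lit 0) (nat_lit 46546759961) (nat_lit 228) (nat_lit 18075591543) (nat_lit 304) (nat_lit 17319710818) (nat_lit 37) (nat_lit 5) (nat_lit 40) (nat_lit 5) (nat_lit 41) (nat_lit 5) (nat_lit 316) (nat_lit 276) (nat_lit 128)) (XT.nd (nat_lit 78) (nat_lit 76) (nat_lit 0) (XT.lf (nat_lit 0) (nat_lit 11110968221) (nat_lit 152) (nat_lit 72384900783) (nat_lit 228) (nat_lit 1552307054) (nat_lit 35) (nat_lit 5) (nat_lit 37) (nat_lit 5) (nat_lit 38) (nat_lit 5) (nat_lit 317) (nat_lit 276) (nat_lit 127)) (XT.lf (nat_lit 0) (nat_lit 15258890221) (nat_lit 228) (nat_lit 27950054701) (nat_lit 76) (nat_lit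 45079881505) (nat_lit 34) (nat_lit 5) (nat_lit 37) (nat_lit 5) (nat_lit 35) (nat_lit 5) (nat_lit 318) (nat_lit 276) (nat_lit 126))))) (XT.nd (nat_lit 156) (nat_lit 380) (nat_lit 0) (XT.nd (nat_lit 78) (nat_lit 0) (nat_lit 0) (XT.lf (nat_lit 0) (nat_lit 20721978446) (nat_lit 228) (nat_lit 12353943887) (nat_lit 304) (nat_lit 58609207833) (nat_lit 31) (nat_lit 5) (nat_lit 34) (nat_lit 5) (nat_lit 35) (nat_lit 5) (nat_lit 319) (nat_lit 276) (nat_lit 125)) (XT.lf (nat_lit 0) (nat_lit 52264998532) (nat_lit 304) (nat_lit 23029586116) (nat_lit 76) (nat_lit 19942231819) (nat_lit 31) (nat_lit 5) (nat_lit 35) (nat_lit 5) (nat_lit 32) (nat_lit 5) (nat_lit 320) (nat_lit 276) (nat_lit 124))) (XT.nd (nat_lit 78) (nat_lit 228) (nat_lit 0) (XT.lf (nat_lit 0) (nat_lit 27713777483) (nat_lit 152) (nat_lit 45088891113) (nat_lit 228) (nat_lit 26151747284) (nat_lit 29) (nat_lit 5) (nat_lit 31) (nat_lit 5) (nat_lit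 32) (nat_lit 5) (nat_lit 321) (nat_lit 276) (nat_lit 123)) (XT.nd (nat_lit 78) (nat_lit 228) (nat_lit 0) (XT.lf (nat_lit 0) (nat_lit 81472660874) (nat_lit 152) (nat_lit 13129742617) (nat_lit 228) (nat_lit 8248439189) (nat_lit 29) (nat_lit 5) (nat_lit 31) (nat_lit 5) (nat_lit 32) (nat_lit 5) (nat_lit 322) (nat_lit 276) (nat_lit 122)) (XT.lf (nat_lit 0) (nat_lit 10845376700) (nat_lit 228) (nat_lit 75642755705) (nat_lit 76) (nat_lit 20435882306) (nat_lit 26) (nat_lit 5) (nat_lit 29) (nat_lit 5) (nat_lit 27) (nat_lit 5) (nat_lit 323) (nat_lit 276) (nat_lit 121)))))) (XT.nd (nat_lit 390) (nat_lit 0) (nat_lit 228) (XT.nd (nat_lit 156) (nat_lit 0) (nat_lit 76) (XT.nd (nat_lit 78) (nat_lit 0) (nat_lit 0) (XT.lf (nat_lit 0) (nat_lit 4775795821) (nat_lit 1140) (nat_lit 3891515709) (nat_lit 1140) (nat_lit 3891515709) (nat_lit 140) (nat_lit 3) (nat_lit 155) (nat_lit 3) (nat_lit 155) (nat_lit 5) (nat_lit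 277) (nat_lit 277) (nat_lit 166)) (XT.lf (nat_lit 76) (nat_lit 9472742917) (nat_lit 0) (nat_lit 562402261) (nat_lit 1140) (nat_lit 15702694274) (nat_lit 141) (nat_lit 5) (nat_lit 140) (nat_lit 3) (nat_lit 155) (nat_lit 5) (nat_lit 278) (nat_lit 277) (nat_lit 165))) (XT.nd (nat_lit 78) (nat_lit 0) (nat_lit 76) (XT.lf (nat_lit 76) (nat_lit 1220919825) (nat_lit 0) (nat_lit 9568641773) (nat_lit 1140) (nat_lit 15592097986) (nat_lit 142) (nat_lit 5) (nat_lit 141) (nat_lit 5) (nat_lit 156) (nat_lit 5) (nat_lit 279) (nat_lit 277) (nat_lit 164)) (XT.nd (nat_lit 78) (nat_lit 0) (nat_lit 0) (XT.lf (nat_lit 0) (nat_lit 11823811077) (nat_lit 1064) (nat_lit 7221320935) (nat_lit 1140) (nat_lit 8005300553) (nat_lit 142) (nat_lit 5) (nat_lit 156) (nat_lit 5) (nat_lit 157) (nat_lit 5) (nat_lit 280) (nat_lit 277) (nat_lit 163)) (XT.lf (nat_lit 76) (nat_lit 11742157631) (nat_lit 0) (nat_lit 1368125928) (nat_lit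 1140) (nat_lit 14636369325) (nat_lit 143) (nat_lit 5) (nat_lit 142) (nat_lit 5) (nat_lit 157) (nat_lit 5) (nat_lit 281) (nat_lit 277) (nat_lit 162))))) (XT.nd (nat_lit 234) (nat_lit 0) (nat_lit 152) (XT.nd (nat_lit 78) (nat_lit 0) (nat_lit 76) (XT.lf (nat_lit 76) (nat_lit 3220481628) (nat_lit 0) (nat_lit 11503360627) (nat_lit 1140) (nat_lit 13745981951) (nat_lit 144) (nat_lit 5) (nat_lit 143) (nat_lit 5) (nat_lit 158) (nat_lit 5) (nat_lit 282) (nat_lit 277) (nat_lit 161)) (XT.nd (nat_lit 78) (nat_lit 0) (nat_lit 0) (XT.lf (nat_lit 0) (nat_lit 16656893151) (nat_lit 1064) (nat_lit 5571025321) (nat_lit 1140) (nat_lit 6994092970) (nat_lit 144) (nat_lit 5) (nat_lit 158) (nat_lit 5) (nat_lit 159) (nat_lit 5) (nat_lit 283) (nat_lit 277) (nat_lit 160)) (XT.lf (nat_lit 76) (nat_lit 15267549121) (nat_lit 0) (nat_lit 3674148317) (nat_lit 1140) (nat_lit 11062478314) (nat_lit 145) (nat_lit 5) (nat_lit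 144) (nat_lit 5) (nat_lit 159) (nat_lit 5) (nat_lit 284) (nat_lit 277) (nat_lit 159)))) (XT.nd (nat_lit 78) (nat_lit 0) (nat_lit 76) (XT.lf (nat_lit 76) (nat_lit 6407678077) (nat_lit 0) (nat_lit 15197097274) (nat_lit 1140) (nat_lit 9212771674) (nat_lit 146) (nat_lit 5) (nat_lit 145) (nat_lit 5) (nat_lit 160) (nat_lit 5) (nat_lit 285) (nat_lit 277) (nat_lit 158)) (XT.nd (nat_lit 78) (nat_lit 0) (nat_lit 0) (XT.lf (nat_lit 0) (nat_lit 24623556022) (nat_lit 1064) (nat_lit 2833516161) (nat_lit 1140) (nat_lit 4207857024) (nat_lit 146) (nat_lit 5) (nat_lit 160) (nat_lit 5) (nat_lit 161) (nat_lit 5) (nat_lit 286) (nat_lit 277) (nat_lit 157)) (XT.lf (nat_lit 76) (nat_lit 20054193109) (nat_lit 0) (nat_lit 8078472968) (nat_lit 1140) (nat_lit 4411850625) (nat_lit 147) (nat_lit 5) (nat_lit 146) (nat_lit 5) (nat_lit 161) (nat_lit 5) (nat_lit 287) (nat_lit 277) (nat_lit 156))))))) (XT.nd (nat_lit 858)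 (nat_lit 2432) (nat_lit 0) (XT.nd (nat_lit 390) (nat_lit 1824) (nat_lit 0) (XT.nd (nat_lit 156) (nat_lit 1064) (nat_lit 0) (XT.nd (nat_lit 78) (nat_lit 684) (nat_lit 0) (XT.lf (nat_lit 0) (nat_lit 10764650213) (nat_lit 1064) (nat_lit 21296966036) (nat_lit 1140) (nat_lit 1399152845) (nat_lit 133) (nat_lit 5) (nat_lit 147) (nat_lit 5) (nat_lit 148) (nat_lit 5) (nat_lit 288) (nat_lit 277) (nat_lit 155)) (XT.lf (nat_lit 0) (nat_lit 937474711) (nat_lit 608) (nat_lit 1006372465) (nat_lit 684) (nat_lit 32472071167) (nat_lit 124) (nat_lit 5) (nat_lit 132) (nat_lit 5) (nat_lit 133) (nat_lit 5) (nat_lit 289) (nat_lit 277) (nat_lit 154))) (XT.nd (nat_lit 78) (nat_lit 1064) (nat_lit 0) (XT.lf (nat_lit 0) (nat_lit 5850353363) (nat_lit 684) (nat_lit 9401849029) (nat_lit 76) (nat_lit 20153463315) (nat_lit 124) (nat_lit 5) (nat_lit 133) (nat_lit 5) (nat_lit 125) (nat_lit 5) (nat_lit 290) (nat_lit 277) (nat_lit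 153)) (XT.nd (nat_lit 78) (nat_lit 532) (nat_lit 0) (XT.lf (nat_lit 0) (nat_lit 10170419507) (nat_lit 608) (nat_lit 20319550670) (nat_lit 76) (nat_lit 5948397531) (nat_lit 117) (nat_lit 5) (nat_lit 125) (nat_lit 5) (nat_lit 118) (nat_lit 5) (nat_lit 291) (nat_lit 277) (nat_lit 152)) (XT.lf (nat_lit 0) (nat_lit 5540115688) (nat_lit 532) (nat_lit 9465782260) (nat_lit 608) (nat_lit 22507838219) (nat_lit 110) (nat_lit 5) (nat_lit 117) (nat_lit 5) (nat_lit 118) (nat_lit 5) (nat_lit 292) (nat_lit 277) (nat_lit 151))))) (XT.nd (nat_lit 234) (nat_lit 912) (nat_lit 0) (XT.nd (nat_lit 78) (nat_lit 912) (nat_lit 0) (XT.lf (nat_lit 0) (nat_lit 20410288378) (nat_lit 608) (nat_lit 5647794778) (nat_lit 76) (nat_lit 12574988729) (nat_lit 110) (nat_lit 5) (nat_lit 118) (nat_lit 5) (nat_lit 111) (nat_lit 5) (nat_lit 293) (nat_lit 277) (nat_lit 150)) (XT.nd (nat_lit 78) (nat_lit 456) (nat_lit 0) (XT.lf (nat_lit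 0) (nat_lit 22329463603) (nat_lit 456) (nat_lit 4060556651) (nat_lit 532) (nat_lit 13409212839) (nat_lit 104) (nat_lit 5) (nat_lit 110) (nat_lit 5) (nat_lit 111) (nat_lit 5) (nat_lit 294) (nat_lit 277) (nat_lit 149)) (XT.lf (nat_lit 0) (nat_lit 10824240179) (nat_lit 456) (nat_lit 22185386960) (nat_lit 532) (nat_lit 8003860341) (nat_lit 98) (nat_lit 5) (nat_lit 104) (nat_lit 5) (nat_lit 105) (nat_lit 5) (nat_lit 295) (nat_lit 277) (nat_lit 148)))) (XT.nd (nat_lit 78) (nat_lit 912) (nat_lit 0) (XT.lf (nat_lit 0) (nat_lit 40182439853) (nat_lit 532) (nat_lit 1437182711) (nat_lit 76) (nat_lit 662176468) (nat_lit 98) (nat_lit 5) (nat_lit 105) (nat_lit 5) (nat_lit 99) (nat_lit 5) (nat_lit 296) (nat_lit 277) (nat_lit 147)) (XT.nd (nat_lit 78) (nat_lit 456) (nat_lit 0) (XT.lf (nat_lit 0) (nat_lit 4524388549) (nat_lit 456) (nat_lit 14551502210) (nat_lit 76) (nat_lit 24521342281) (nat_lit 92) (nat_lit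 5) (nat_lit 98) (nat_lit 5) (nat_lit 93) (nat_lit 5) (nat_lit 297) (nat_lit 277) (nat_lit 146)) (XT.lf (nat_lit 0) (nat_lit 11650620581) (nat_lit 532) (nat_lit 28620141442) (nat_lit 76) (nat_lit 4700621579) (nat_lit 86) (nat_lit 5) (nat_lit 93) (nat_lit 5) (nat_lit 87) (nat_lit 5) (nat_lit 298) (nat_lit 277) (nat_lit 145)))))) (XT.nd (nat_lit 390) (nat_lit 1292) (nat_lit 0) (XT.nd (nat_lit 156) (nat_lit 760) (nat_lit 0) (XT.nd (nat_lit 78) (nat_lit 0) (nat_lit 0) (XT.lf (nat_lit 0) (nat_lit 2544313091) (nat_lit 380) (nat_lit 16952933559) (nat_lit 456) (nat_lit 26906081971) (nat_lit 81) (nat_lit 5) (nat_lit 86) (nat_lit 5) (nat_lit 87) (nat_lit 5) (nat_lit 299) (nat_lit 277) (nat_lit 144)) (XT.lf (nat_lit 0) (nat_lit 28102089223) (nat_lit 456) (nat_lit 12113034534) (nat_lit 76) (nat_lit 7680779535) (nat_lit 81) (nat_lit 5) (nat_lit 87) (nat_lit 5) (nat_lit 82) (nat_lit 5) (nat_lit 300) (nat_lit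 277) (nat_lit 143))) (XT.nd (nat_lit 78) (nat_lit 380) (nat_lit 0) (XT.lf (nat_lit 0) (nat_lit 21463429212) (nat_lit 380) (nat_lit 16047325389) (nat_lit 456) (nat_lit 11941153202) (nat_lit 76) (nat_lit 5) (nat_lit 81) (nat_lit 5) (nat_lit 82) (nat_lit 5) (nat_lit 301) (nat_lit 277) (nat_lit 142)) (XT.nd (nat_lit 78) (nat_lit 76) (nat_lit 0) (XT.lf (nat_lit 0) (nat_lit 5909764954) (nat_lit 304) (nat_lit 41748784137) (nat_lit 380) (nat_lit 3419110696) (nat_lit 72) (nat_lit 5) (nat_lit 76) (nat_lit 5) (nat_lit 77) (nat_lit 5) (nat_lit 302) (nat_lit 277) (nat_lit 141)) (XT.lf (nat_lit 0) (nat_lit 5870458364) (nat_lit 380) (nat_lit 10910696782) (nat_lit 76) (nat_lit 35988477807) (nat_lit 71) (nat_lit 5) (nat_lit 76) (nat_lit 5) (nat_lit 72) (nat_lit 5) (nat_lit 303) (nat_lit 277) (nat_lit 140))))) (XT.nd (nat_lit 234) (nat_lit 608) (nat_lit 0) (XT.nd (nat_lit 78) (nat_lit 304) (nat_lit 0) (XT.lf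 (nat_lit 0) (nat_lit 15889756430) (nat_lit 456) (nat_lit 29112822308) (nat_lit 76) (nat_lit 9532538724) (nat_lit 66) (nat_lit 5) (nat_lit 72) (nat_lit 5) (nat_lit 67) (nat_lit 5) (nat_lit 304) (nat_lit 277) (nat_lit 139)) (XT.nd (nat_lit 78) (nat_lit 0) (nat_lit 0) (XT.lf (nat_lit 0) (nat_lit 7383795647) (nat_lit 304) (nat_lit 19376671887) (nat_lit 380) (nat_lit 29617902031) (nat_lit 62) (nat_lit 5) (nat_lit 66) (nat_lit 5) (nat_lit 67) (nat_lit 5) (nat_lit 305) (nat_lit 277) (nat_lit 138)) (XT.lf (nat_lit 0) (nat_lit 38546537206) (nat_lit 380) (nat_lit 12070736928) (nat_lit 76) (nat_lit 7685361937) (nat_lit 62) (nat_lit 5) (nat_lit 67) (nat_lit 5) (nat_lit 63) (nat_lit 5) (nat_lit 306) (nat_lit 277) (nat_lit 137)))) (XT.nd (nat_lit 78) (nat_lit 304) (nat_lit 0) (XT.lf (nat_lit 0) (nat_lit 27027110025) (nat_lit 304) (nat_lit 24347105270) (nat_lit 380) (nat_lit 8935337638) (nat_lit 58) (nat_lit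 5) (nat_lit 62) (nat_lit 5) (nat_lit 63) (nat_lit 5) (nat_lit 307) (nat_lit 277) (nat_lit 136)) (XT.nd (nat_lit 78) (nat_lit 0) (nat_lit 0) (XT.lf (nat_lit 0) (nat_lit 2592502378) (nat_lit 304) (nat_lit 56436135674) (nat_lit 76) (nat_lit 3381081868) (nat_lit 54) (nat_lit 5) (nat_lit 58) (nat_lit 5) (nat_lit 55) (nat_lit 5) (nat_lit 308) (nat_lit 277) (nat_lit 135)) (XT.lf (nat_lit 0) (nat_lit 15102503226) (nat_lit 304) (nat_lit 17059943773) (nat_lit 76) (nat_lit 32432082678) (nat_lit 54) (nat_lit 5) (nat_lit 58) (nat_lit 5) (nat_lit 55) (nat_lit 5) (nat_lit 309) (nat_lit 277) (nat_lit 134))))))))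
noncomputable def xc111 : XT := (XT.nd (nat_lit 35646) (nat_lit 0) (nat_lit 2508) (XT.nd (nat_lit 780) (nat_lit 380) (nat_lit 0) (XT.nd (nat_lit 390) (nat_lit 684) (nat_lit 0) (XT.nd (nat_lit 156) (nat_lit 532) (nat_lit 0) (XT.nd (nat_lit 78) (nat_lit 0) (nat_lit 0) (XT.lf (nat_lit 0) (nat_lit 24764565623) (nat_lit 304) (nat_lit 3708729367) (nat_lit 380) (nat_lit 38408231387) (nat_lit 50) (nat_lit 5) (nat_lit 54) (nat_lit 5) (nat_lit 55) (nat_lit 5) (nat_lit 310) (nat_lit 277) (nat_lit 133)) (XT.lf (nat_lit 0) (nat_lit 42938847907) (nat_lit 380) (nat_lit 497786151) (nat_lit 76) (nat_lit 25833457144) (nat_lit 50) (nat_lit 5) (nat_lit 55) (nat_lit 5) (nat_lit 51) (nat_lit 5) (nat_lit 311) (nat_lit 277) (nat_lit 132))) (XT.nd (nat_lit 78) (nat_lit 304) (nat_lit 0) (XT.lf (nat_lit 0) (nat_lit 44020380336) (nat_lit 228) (nat_lit 14565335414) (nat_lit 304) (nat_lit 13178632099) (nat_lit 47) (nat_lit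 5) (nat_lit 50) (nat_lit 5) (nat_lit 51) (nat_lit 5) (nat_lit 312) (nat_lit 277) (nat_lit 131)) (XT.nd (nat_lit 78) (nat_lit 0) (nat_lit 0) (XT.lf (nat_lit 0) (nat_lit 935667397) (nat_lit 304) (nat_lit 57823201922) (nat_lit 76) (nat_lit 15614778731) (nat_lit 43) (nat_lit 5) (nat_lit 47) (nat_lit 5) (nat_lit 44) (nat_lit 5) (nat_lit 313) (nat_lit 277) (nat_lit 130)) (XT.lf (nat_lit 0) (nat_lit 15918689417) (nat_lit 304) (nat_lit 13751801291) (nat_lit 76) (nat_lit 47425945391) (nat_lit 43) (nat_lit 5) (nat_lit 47) (nat_lit 5) (nat_lit 44) (nat_lit 5) (nat_lit 314) (nat_lit 277) (nat_lit 129))))) (XT.nd (nat_lit 156) (nat_lit 456) (nat_lit 0) (XT.nd (nat_lit 78) (nat_lit 0) (nat_lit 0) (XT.lf (nat_lit 0) (nat_lit 31978921427) (nat_lit 304) (nat_lit 46790310384) (nat_lit 76) (nat_lit 1176293914) (nat_lit 40) (nat_lit 5) (nat_lit 44) (nat_lit 5) (nat_lit 41) (nat_lit 5) (nat_lit 315) (nat_lit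 277) (nat_lit 128)) (XT.lf (nat_lit 0) (nat_lit 49282374251) (nat_lit 304) (nat_lit 541992973) (nat_lit 76) (nat_lit 33099500087) (nat_lit 40) (nat_lit 5) (nat_lit 44) (nat_lit 5) (nat_lit 41) (nat_lit 5) (nat_lit 316) (nat_lit 277) (nat_lit 127))) (XT.nd (nat_lit 78) (nat_lit 228) (nat_lit 0) (XT.lf (nat_lit 0) (nat_lit 48971248649) (nat_lit 228) (nat_lit 18948372180) (nat_lit 304) (nat_lit 18117450089) (nat_lit 37) (nat_lit 5) (nat_lit 40) (nat_lit 5) (nat_lit 41) (nat_lit 5) (nat_lit 317) (nat_lit 277) (nat_lit 126)) (XT.nd (nat_lit 78) (nat_lit 76) (nat_lit 0) (XT.lf (nat_lit 0) (nat_lit 11762627560) (nat_lit 152) (nat_lit 75972244230) (nat_lit 228) (nat_lit 1563682060) (nat_lit 35) (nat_lit 5) (nat_lit 37) (nat_lit 5) (nat_lit 38) (nat_lit 5) (nat_lit 318) (nat_lit 277) (nat_lit 125)) (XT.lf (nat_lit 0) (nat_lit 16083689740) (nat_lit 228) (nat_lit 29254695344) (nat_lit 76) (nat_lit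 47362930174) (nat_lit 34) (nat_lit 5) (nat_lit 37) (nat_lit 5) (nat_lit 35) (nat_lit 5) (nat_lit 319) (nat_lit 277) (nat_lit 124)))))) (XT.nd (nat_lit 34398) (nat_lit 0) (nat_lit 8512) (XT.nd (nat_lit 156) (nat_lit 152) (nat_lit 0) (XT.nd (nat_lit 78) (nat_lit 0) (nat_lit 0) (XT.lf (nat_lit 0) (nat_lit 21848277587) (nat_lit 228) (nat_lit 12941217455) (nat_lit 304) (nat_lit 61478006108) (nat_lit 31) (nat_lit 5) (nat_lit 34) (nat_lit 5) (nat_lit 35) (nat_lit 5) (nat_lit 320) (nat_lit 277) (nat_lit 123)) (XT.lf (nat_lit 0) (nat_lit 54935457070) (nat_lit 304) (nat_lit 24093643237) (nat_lit 76) (nat_lit 20967752888) (nat_lit 31) (nat_lit 5) (nat_lit 35) (nat_lit 5) (nat_lit 32) (nat_lit 5) (nat_lit 321) (nat_lit 277) (nat_lit 122))) (XT.nd (nat_lit 34086) (nat_lit 0) (nat_lit 8436) (XT.lf (nat_lit 0) (nat_lit 29184382602) (nat_lit 152) (nat_lit 47313720082) (nat_lit 228) (nat_lit 27402291317)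 (nat_lit 29) (nat_lit 5) (nat_lit 31) (nat_lit 5) (nat_lit 32) (nat_lit 5) (nat_lit 322) (nat_lit 277) (nat_lit 121)) (XT.nd (nat_lit 78) (nat_lit 0) (nat_lit 0) (XT.lf (nat_lit 0) (nat_lit 5165891776) (nat_lit 1140) (nat_lit 4007965309) (nat_lit 1140) (nat_lit 4007965309) (nat_lit 140) (nat_lit 3) (nat_lit 155) (nat_lit 3) (nat_lit 155) (nat_lit 5) (nat_lit 278) (nat_lit 278) (nat_lit 164)) (XT.lf (nat_lit 76) (nat_lit 10098153490) (nat_lit 0) (nat_lit 728410103) (nat_lit 1140) (nat_lit 16188702718) (nat_lit 141) (nat_lit 5) (nat_lit 140) (nat_lit 3) (nat_lit 155) (nat_lit 5) (nat_lit 279) (nat_lit 278) (nat_lit 163))))) (XT.nd (nat_lit 234) (nat_lit 0) (nat_lit 152) (XT.nd (nat_lit 78) (nat_lit 0) (nat_lit 76) (XT.lf (nat_lit 76) (nat_lit 1439869953) (nat_lit 0) (nat_lit 10165293021) (nat_lit 1140) (nat_lit 16086557531) (nat_lit 142) (nat_lit 5) (nat_lit 141) (nat_lit 5) (nat_lit 156)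 (nat_lit 5) (nat_lit 280) (nat_lit 278) (nat_lit 162)) (XT.nd (nat_lit 78) (nat_lit 0) (nat_lit 0) (XT.lf (nat_lit 0) (nat_lit 12676893917) (nat_lit 1064) (nat_lit 7422327372) (nat_lit 1140) (nat_lit 8295172936) (nat_lit 142) (nat_lit 5) (nat_lit 156) (nat_lit 5) (nat_lit 157) (nat_lit 5) (nat_lit 281) (nat_lit 278) (nat_lit 161)) (XT.lf (nat_lit 76) (nat_lit 12484737047) (nat_lit 0) (nat_lit 1531976404) (nat_lit 1140) (nat_lit 15109074893) (nat_lit 143) (nat_lit 5) (nat_lit 142) (nat_lit 5) (nat_lit 157) (nat_lit 5) (nat_lit 282) (nat_lit 278) (nat_lit 160)))) (XT.nd (nat_lit 78) (nat_lit 0) (nat_lit 76) (XT.lf (nat_lit 76) (nat_lit 3541374067) (nat_lit 0) (nat_lit 12158290620) (nat_lit 1140) (nat_lit 14185823997) (nat_lit 144) (nat_lit 5) (nat_lit 143) (nat_lit 5) (nat_lit 158) (nat_lit 5) (nat_lit 283) (nat_lit 278) (nat_lit 159)) (XT.nd (nat_lit 78) (nat_lit 0) (nat_lit 0) (XT.lf (nat_lit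 0) (nat_lit 17717226950) (nat_lit 1064) (nat_lit 5689136767) (nat_lit 1140) (nat_lit 7269316172) (nat_lit 144) (nat_lit 5) (nat_lit 158) (nat_lit 5) (nat_lit 159) (nat_lit 5) (nat_lit 284) (nat_lit 278) (nat_lit 158)) (XT.lf (nat_lit 76) (nat_lit 16186767422) (nat_lit 0) (nat_lit 3920169250) (nat_lit 1140) (nat_lit 11390324712) (nat_lit 145) (nat_lit 5) (nat_lit 144) (nat_lit 5) (nat_lit 159) (nat_lit 5) (nat_lit 285) (nat_lit 278) (nat_lit 157))))))) (XT.nd (nat_lit 858) (nat_lit 2736) (nat_lit 0) (XT.nd (nat_lit 390) (nat_lit 1976) (nat_lit 0) (XT.nd (nat_lit 156) (nat_lit 1596) (nat_lit 0) (XT.nd (nat_lit 78) (nat_lit 0) (nat_lit 76) (XT.lf (nat_lit 76) (nat_lit 6886936476) (nat_lit 0) (nat_lit 16006800429) (nat_lit 1140) (nat_lit 9457874813) (nat_lit 146) (nat_lit 5) (nat_lit 145) (nat_lit 5) (nat_lit 160) (nat_lit 5) (nat_lit 286) (nat_lit 278) (nat_lit 156)) (XT.lf (nat_lit 0) (nat_lit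 26053061075) (nat_lit 1064) (nat_lit 2816938324) (nat_lit 1140) (nat_lit 4371701712) (nat_lit 146) (nat_lit 5) (nat_lit 160) (nat_lit 5) (nat_lit 161) (nat_lit 5) (nat_lit 287) (nat_lit 278) (nat_lit 155))) (XT.nd (nat_lit 78) (nat_lit 1672) (nat_lit 0) (XT.lf (nat_lit 76) (nat_lit 21210620100) (nat_lit 0) (nat_lit 8519040002) (nat_lit 1140) (nat_lit 4435871862) (nat_lit 147) (nat_lit 5) (nat_lit 146) (nat_lit 5) (nat_lit 161) (nat_lit 5) (nat_lit 288) (nat_lit 278) (nat_lit 154)) (XT.nd (nat_lit 78) (nat_lit 684) (nat_lit 0) (XT.lf (nat_lit 0) (nat_lit 11458568472) (nat_lit 1064) (nat_lit 22388585596) (nat_lit 1140) (nat_lit 1280703817) (nat_lit 133) (nat_lit 5) (nat_lit 147) (nat_lit 5) (nat_lit 148) (nat_lit 5) (nat_lit 289) (nat_lit 278) (nat_lit 153)) (XT.lf (nat_lit 0) (nat_lit 1139591446) (nat_lit 608) (nat_lit 1078873882) (nat_lit 684) (nat_lit 33912486073) (nat_lit 124) (nat_lit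 5) (nat_lit 132) (nat_lit 5) (nat_lit 133) (nat_lit 5) (nat_lit 290) (nat_lit 278) (nat_lit 152))))) (XT.nd (nat_lit 234) (nat_lit 912) (nat_lit 0) (XT.nd (nat_lit 78) (nat_lit 1064) (nat_lit 0) (XT.lf (nat_lit 0) (nat_lit 6311644896) (nat_lit 684) (nat_lit 9718399486) (nat_lit 76) (nat_lit 21140422265) (nat_lit 124) (nat_lit 5) (nat_lit 133) (nat_lit 5) (nat_lit 125) (nat_lit 5) (nat_lit 291) (nat_lit 278) (nat_lit 151)) (XT.nd (nat_lit 78) (nat_lit 532) (nat_lit 0) (XT.lf (nat_lit 0) (nat_lit 10840985877) (nat_lit 608) (nat_lit 21180997917) (nat_lit 76) (nat_lit 6233041766) (nat_lit 117) (nat_lit 5) (nat_lit 125) (nat_lit 5) (nat_lit 118) (nat_lit 5) (nat_lit 292) (nat_lit 278) (nat_lit 150)) (XT.lf (nat_lit 0) (nat_lit 5967222179) (nat_lit 532) (nat_lit 9944742474) (nat_lit 608) (nat_lit 23472405005) (nat_lit 110) (nat_lit 5) (nat_lit 117) (nat_lit 5) (nat_lit 118) (nat_lit 5) (nat_lit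 293) (nat_lit 278) (nat_lit 149)))) (XT.nd (nat_lit 78) (nat_lit 912) (nat_lit 0) (XT.lf (nat_lit 0) (nat_lit 21579104981) (nat_lit 608) (nat_lit 5782366862) (nat_lit 76) (nat_lit 13198442511) (nat_lit 110) (nat_lit 5) (nat_lit 118) (nat_lit 5) (nat_lit 111) (nat_lit 5) (nat_lit 294) (nat_lit 278) (nat_lit 148)) (XT.nd (nat_lit 78) (nat_lit 456) (nat_lit 0) (XT.lf (nat_lit 0) (nat_lit 23589517275) (nat_lit 456) (nat_lit 4262624350) (nat_lit 532) (nat_lit 13932429691) (nat_lit 104) (nat_lit 5) (nat_lit 110) (nat_lit 5) (nat_lit 111) (nat_lit 5) (nat_lit 295) (nat_lit 278) (nat_lit 147)) (XT.lf (nat_lit 0) (nat_lit 11509398910) (nat_lit 456) (nat_lit 23287930993) (nat_lit 532) (nat_lit 8262386909) (nat_lit 98) (nat_lit 5) (nat_lit 104) (nat_lit 5) (nat_lit 105) (nat_lit 5) (nat_lit 296) (nat_lit 278) (nat_lit 146)))))) (XT.nd (nat_lit 390) (nat_lit 1444) (nat_lit 0) (XT.nd (nat_lit 156) (nat_lit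 836) (nat_lit 0) (XT.nd (nat_lit 78) (nat_lit 456) (nat_lit 0) (XT.lf (nat_lit 0) (nat_lit 42322310470) (nat_lit 532) (nat_lit 1367777928) (nat_lit 76) (nat_lit 701565367) (nat_lit 98) (nat_lit 5) (nat_lit 105) (nat_lit 5) (nat_lit 99) (nat_lit 5) (nat_lit 297) (nat_lit 278) (nat_lit 145)) (XT.lf (nat_lit 0) (nat_lit 4877987477) (nat_lit 456) (nat_lit 15139038409) (nat_lit 76) (nat_lit 25755958228) (nat_lit 92) (nat_lit 5) (nat_lit 98) (nat_lit 5) (nat_lit 93) (nat_lit 5) (nat_lit 298) (nat_lit 278) (nat_lit 144))) (XT.nd (nat_lit 78) (nat_lit 380) (nat_lit 0) (XT.lf (nat_lit 0) (nat_lit 12355901814) (nat_lit 532) (nat_lit 29911298569) (nat_lit 76) (nat_lit 4948794471) (nat_lit 86) (nat_lit 5) (nat_lit 93) (nat_lit 5) (nat_lit 87) (nat_lit 5) (nat_lit 299) (nat_lit 278) (nat_lit 143)) (XT.nd (nat_lit 78) (nat_lit 0) (nat_lit 0) (XT.lf (nat_lit 0) (nat_lit 2807369920) (nat_lit 380) (nat_lit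 17782949808) (nat_lit 456) (nat_lit 28129366697) (nat_lit 81) (nat_lit 5) (nat_lit 86) (nat_lit 5) (nat_lit 87) (nat_lit 5) (nat_lit 300) (nat_lit 278) (nat_lit 142)) (XT.lf (nat_lit 0) (nat_lit 29619936750) (nat_lit 456) (nat_lit 12585847853) (nat_lit 76) (nat_lit 8081281746) (nat_lit 81) (nat_lit 5) (nat_lit 87) (nat_lit 5) (nat_lit 82) (nat_lit 5) (nat_lit 301) (nat_lit 278) (nat_lit 141))))) (XT.nd (nat_lit 234) (nat_lit 684) (nat_lit 0) (XT.nd (nat_lit 78) (nat_lit 380) (nat_lit 0) (XT.lf (nat_lit 0) (nat_lit 22665631293) (nat_lit 380) (nat_lit 16829275708) (nat_lit 456) (nat_lit 12426099833) (nat_lit 76) (nat_lit 5) (nat_lit 81) (nat_lit 5) (nat_lit 82) (nat_lit 5) (nat_lit 302) (nat_lit 278) (nat_lit 140)) (XT.nd (nat_lit 78) (nat_lit 76) (nat_lit 0) (XT.lf (nat_lit 0) (nat_lit 6333790697) (nat_lit 304) (nat_lit 43812550877) (nat_lit 380) (nat_lit 3481828662) (nat_lit 72) (nat_lit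 5) (nat_lit 76) (nat_lit 5) (nat_lit 77) (nat_lit 5) (nat_lit 303) (nat_lit 278) (nat_lit 139)) (XT.lf (nat_lit 0) (nat_lit 6265053154) (nat_lit 380) (nat_lit 11331593916) (nat_lit 76) (nat_lit 37808225861) (nat_lit 71) (nat_lit 5) (nat_lit 76) (nat_lit 5) (nat_lit 72) (nat_lit 5) (nat_lit 304) (nat_lit 278) (nat_lit 138)))) (XT.nd (nat_lit 78) (nat_lit 304) (nat_lit 0) (XT.lf (nat_lit 0) (nat_lit 16781894192) (nat_lit 456) (nat_lit 30444503480) (nat_lit 76) (nat_lit 10032346629) (nat_lit 66) (nat_lit 5) (nat_lit 72) (nat_lit 5) (nat_lit 67) (nat_lit 5) (nat_lit 305) (nat_lit 278) (nat_lit 137)) (XT.nd (nat_lit 78) (nat_lit 0) (nat_lit 0) (XT.lf (nat_lit 0) (nat_lit 7873392086) (nat_lit 304) (nat_lit 20319256190) (nat_lit 380) (nat_lit 31001625011) (nat_lit 62) (nat_lit 5) (nat_lit 66) (nat_lit 5) (nat_lit 67) (nat_lit 5) (nat_lit 306) (nat_lit 278) (nat_lit 136)) (XT.lf (nat_lit 0) (nat_lit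 40563778056) (nat_lit 380) (nat_lit 12556969881) (nat_lit 76) (nat_lit 8094141532) (nat_lit 62) (nat_lit 5) (nat_lit 67) (nat_lit 5) (nat_lit 63) (nat_lit 5) (nat_lit 307) (nat_lit 278) (nat_lit 135))))))))
noncomputable def xc112 : XT := (XT.nd (nat_lit 35724) (nat_lit 0) (nat_lit 3040) (XT.nd (nat_lit 780) (nat_lit 684) (nat_lit 0) (XT.nd (nat_lit 390) (nat_lit 760) (nat_lit 0) (XT.nd (nat_lit 156) (nat_lit 304) (nat_lit 0) (XT.nd (nat_lit 78) (nat_lit 304) (nat_lit 0) (XT.lf (nat_lit 0) (nat_lit 28492406928) (nat_lit 304) (nat_lit 25537246778) (nat_lit 380) (nat_lit 9292602677) (nat_lit 58) (nat_lit 5) (nat_lit 62) (nat_lit 5) (nat_lit 63) (nat_lit 5) (nat_lit 308) (nat_lit 278) (nat_lit 134)) (XT.lf (nat_lit 0) (nat_lit 2807053720) (nat_lit 304) (nat_lit 59142977008) (nat_lit 76) (nat_lit 3577468022) (nat_lit 54) (nat_lit 5) (nat_lit 58) (nat_lit 5) (nat_lit 55) (nat_lit 5) (nat_lit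 309) (nat_lit 278) (nat_lit 133))) (XT.nd (nat_lit 78) (nat_lit 304) (nat_lit 0) (XT.lf (nat_lit 0) (nat_lit 15938510505) (nat_lit 304) (nat_lit 17803450057) (nat_lit 76) (nat_lit 34079717346) (nat_lit 54) (nat_lit 5) (nat_lit 58) (nat_lit 5) (nat_lit 55) (nat_lit 5) (nat_lit 310) (nat_lit 278) (nat_lit 132)) (XT.nd (nat_lit 78) (nat_lit 0) (nat_lit 0) (XT.lf (nat_lit 0) (nat_lit 26109146274) (nat_lit 304) (nat_lit 3865866378) (nat_lit 380) (nat_lit 40248103896) (nat_lit 50) (nat_lit 5) (nat_lit 54) (nat_lit 5) (nat_lit 55) (nat_lit 5) (nat_lit 311) (nat_lit 278) (nat_lit 131)) (XT.lf (nat_lit 0) (nat_lit 45160385487) (nat_lit 380) (nat_lit 419278805) (nat_lit 76) (nat_lit 27151555937) (nat_lit 50) (nat_lit 5) (nat_lit 55) (nat_lit 5) (nat_lit 51) (nat_lit 5) (nat_lit 312) (nat_lit 278) (nat_lit 130))))) (XT.nd (nat_lit 156) (nat_lit 228) (nat_lit 0) (XT.nd (nat_lit 78) (nat_lit 304) (nat_lit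 0) (XT.lf (nat_lit 0) (nat_lit 46321832162) (nat_lit 228) (nat_lit 15265177830) (nat_lit 304) (nat_lit 13763263874) (nat_lit 47) (nat_lit 5) (nat_lit 50) (nat_lit 5) (nat_lit 51) (nat_lit 5) (nat_lit 313) (nat_lit 278) (nat_lit 129)) (XT.lf (nat_lit 0) (nat_lit 1053060553) (nat_lit 304) (nat_lit 60613321289) (nat_lit 76) (nat_lit 16423709077) (nat_lit 43) (nat_lit 5) (nat_lit 47) (nat_lit 5) (nat_lit 44) (nat_lit 5) (nat_lit 314) (nat_lit 278) (nat_lit 128))) (XT.nd (nat_lit 78) (nat_lit 228) (nat_lit 0) (XT.lf (nat_lit 0) (nat_lit 16781871303) (nat_lit 304) (nat_lit 14343162090) (nat_lit 76) (nat_lit 49824091621) (nat_lit 43) (nat_lit 5) (nat_lit 47) (nat_lit 5) (nat_lit 44) (nat_lit 5) (nat_lit 315) (nat_lit 278) (nat_lit 127)) (XT.nd (nat_lit 78) (nat_lit 0) (nat_lit 0) (XT.lf (nat_lit 0) (nat_lit 33643085376) (nat_lit 304) (nat_lit 49034570973) (nat_lit 76) (nat_lit 1263079157) (nat_lit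 40) (nat_lit 5) (nat_lit 44) (nat_lit 5) (nat_lit 41) (nat_lit 5) (nat_lit 316) (nat_lit 278) (nat_lit 126)) (XT.lf (nat_lit 0) (nat_lit 51808605228) (nat_lit 304) (nat_lit 478373640) (nat_lit 76) (nat_lit 34781113708) (nat_lit 40) (nat_lit 5) (nat_lit 44) (nat_lit 5) (nat_lit 41) (nat_lit 5) (nat_lit 317) (nat_lit 278) (nat_lit 125)))))) (XT.nd (nat_lit 34476) (nat_lit 0) (nat_lit 8284) (XT.nd (nat_lit 156) (nat_lit 304) (nat_lit 0) (XT.nd (nat_lit 78) (nat_lit 152) (nat_lit 0) (XT.lf (nat_lit 0) (nat_lit 51507929621) (nat_lit 228) (nat_lit 19867673837) (nat_lit 304) (nat_lit 18961421214) (nat_lit 37) (nat_lit 5) (nat_lit 40) (nat_lit 5) (nat_lit 41) (nat_lit 5) (nat_lit 318) (nat_lit 278) (nat_lit 124)) (XT.lf (nat_lit 0) (nat_lit 12437934382) (nat_lit 152) (nat_lit 79741920756) (nat_lit 228) (nat_lit 1581784216) (nat_lit 35) (nat_lit 5) (nat_lit 37) (nat_lit 5) (nat_lit 38) (nat_lit 5)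 (nat_lit 319) (nat_lit 278) (nat_lit 123))) (XT.nd (nat_lit 78) (nat_lit 228) (nat_lit 0) (XT.lf (nat_lit 0) (nat_lit 16943978543) (nat_lit 228) (nat_lit 30633201456) (nat_lit 76) (nat_lit 49757430056) (nat_lit 34) (nat_lit 5) (nat_lit 37) (nat_lit 5) (nat_lit 35) (nat_lit 5) (nat_lit 320) (nat_lit 278) (nat_lit 122)) (XT.nd (nat_lit 78) (nat_lit 0) (nat_lit 0) (XT.lf (nat_lit 0) (nat_lit 23022505723) (nat_lit 228) (nat_lit 13560683201) (nat_lit 304) (nat_lit 64495977055) (nat_lit 31) (nat_lit 5) (nat_lit 34) (nat_lit 5) (nat_lit 35) (nat_lit 5) (nat_lit 321) (nat_lit 278) (nat_lit 121)) (XT.lf (nat_lit 0) (nat_lit 57734119821) (nat_lit 304) (nat_lit 25219030901) (nat_lit 76) (nat_lit 22041908768) (nat_lit 31) (nat_lit 5) (nat_lit 35) (nat_lit 5) (nat_lit 32) (nat_lit 5) (nat_lit 322) (nat_lit 278) (nat_lit 120))))) (XT.nd (nat_lit 234) (nat_lit 0) (nat_lit 152) (XT.nd (nat_lit 78) (nat_lit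 0) (nat_lit 0) (XT.lf (nat_lit 0) (nat_lit 5561425516) (nat_lit 1140) (nat_lit 4137500822) (nat_lit 1140) (nat_lit 4137500822) (nat_lit 140) (nat_lit 3) (nat_lit 155) (nat_lit 3) (nat_lit 155) (nat_lit 5) (nat_lit 279) (nat_lit 279) (nat_lit 162)) (XT.nd (nat_lit 78) (nat_lit 0) (nat_lit 76) (XT.lf (nat_lit 76) (nat_lit 10740724137) (nat_lit 0) (nat_lit 889898844) (nat_lit 1140) (nat_lit 16726821510) (nat_lit 141) (nat_lit 5) (nat_lit 140) (nat_lit 3) (nat_lit 155) (nat_lit 5) (nat_lit 280) (nat_lit 279) (nat_lit 161)) (XT.lf (nat_lit 76) (nat_lit 1655087158) (nat_lit 0) (nat_lit 10780785933) (nat_lit 1140) (nat_lit 16632250165) (nat_lit 142) (nat_lit 5) (nat_lit 141) (nat_lit 5) (nat_lit 156) (nat_lit 5) (nat_lit 281) (nat_lit 279) (nat_lit 160)))) (XT.nd (nat_lit 78) (nat_lit 0) (nat_lit 0) (XT.lf (nat_lit 0) (nat_lit 13548282636) (nat_lit 1064) (nat_lit 7648264956) (nat_lit 1140) (nat_lit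 8609802199) (nat_lit 142) (nat_lit 5) (nat_lit 156) (nat_lit 5) (nat_lit 157) (nat_lit 5) (nat_lit 282) (nat_lit 279) (nat_lit 159)) (XT.nd (nat_lit 78) (nat_lit 0) (nat_lit 76) (XT.lf (nat_lit 76) (nat_lit 13249991163) (nat_lit 0) (nat_lit 1695145908) (nat_lit 1140) (nat_lit 15629505601) (nat_lit 143) (nat_lit 5) (nat_lit 142) (nat_lit 5) (nat_lit 157) (nat_lit 5) (nat_lit 283) (nat_lit 279) (nat_lit 158)) (XT.lf (nat_lit 76) (nat_lit 3863448083) (nat_lit 0) (nat_lit 12838551602) (nat_lit 1140) (nat_lit 14670664357) (nat_lit 144) (nat_lit 5) (nat_lit 143) (nat_lit 5) (nat_lit 158) (nat_lit 5) (nat_lit 284) (nat_lit 279) (nat_lit 157))))))) (XT.nd (nat_lit 780) (nat_lit 2964) (nat_lit 0) (XT.nd (nat_lit 390) (nat_lit 2584) (nat_lit 0) (XT.nd (nat_lit 156) (nat_lit 0) (nat_lit 76) (XT.nd (nat_lit 78) (nat_lit 0) (nat_lit 0) (XT.lf (nat_lit 0) (nat_lit 18809427655) (nat_lit 1064) (nat_lit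 5828069959) (nat_lit 1140) (nat_lit 7565225114) (nat_lit 144) (nat_lit 5) (nat_lit 158) (nat_lit 5) (nat_lit 159) (nat_lit 5) (nat_lit 285) (nat_lit 279) (nat_lit 156)) (XT.lf (nat_lit 76) (nat_lit 17137458033) (nat_lit 0) (nat_lit 4172697910) (nat_lit 1140) (nat_lit 11755507598) (nat_lit 145) (nat_lit 5) (nat_lit 144) (nat_lit 5) (nat_lit 159) (nat_lit 5) (nat_lit 286) (nat_lit 279) (nat_lit 155))) (XT.nd (nat_lit 78) (nat_lit 0) (nat_lit 76) (XT.lf (nat_lit 76) (nat_lit 7375387150) (nat_lit 0) (nat_lit 16852354320) (nat_lit 1140) (nat_lit 9735271551) (nat_lit 146) (nat_lit 5) (nat_lit 145) (nat_lit 5) (nat_lit 160) (nat_lit 5) (nat_lit 287) (nat_lit 279) (nat_lit 154)) (XT.nd (nat_lit 78) (nat_lit 0) (nat_lit 0) (XT.lf (nat_lit 0) (nat_lit 27535602792) (nat_lit 1064) (nat_lit 2814244520) (nat_lit 1140) (nat_lit 4548066241) (nat_lit 146) (nat_lit 5) (nat_lit 160) (nat_lit 5) (nat_lit 161)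 (nat_lit 5) (nat_lit 288) (nat_lit 279) (nat_lit 153)) (XT.lf (nat_lit 76) (nat_lit 22410577259) (nat_lit 0) (nat_lit 8978228634) (nat_lit 1140) (nat_lit 4479369496) (nat_lit 147) (nat_lit 5) (nat_lit 146) (nat_lit 5) (nat_lit 161) (nat_lit 5) (nat_lit 289) (nat_lit 279) (nat_lit 152))))) (XT.nd (nat_lit 156) (nat_lit 1064) (nat_lit 0) (XT.nd (nat_lit 78) (nat_lit 684) (nat_lit 0) (XT.lf (nat_lit 0) (nat_lit 12172708459) (nat_lit 1064) (nat_lit 23532297196) (nat_lit 1140) (nat_lit 1173848604) (nat_lit 133) (nat_lit 5) (nat_lit 147) (nat_lit 5) (nat_lit 148) (nat_lit 5) (nat_lit 290) (nat_lit 279) (nat_lit 151)) (XT.lf (nat_lit 0) (nat_lit 1337380996) (nat_lit 608) (nat_lit 1152938023) (nat_lit 684) (nat_lit 35441952868) (nat_lit 124) (nat_lit 5) (nat_lit 132) (nat_lit 5) (nat_lit 133) (nat_lit 5) (nat_lit 291) (nat_lit 279) (nat_lit 150))) (XT.nd (nat_lit 78) (nat_lit 1064) (nat_lit 0) (XT.lf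 (nat_lit 0) (nat_lit 6780310012) (nat_lit 684) (nat_lit 10065052344) (nat_lit 76) (nat_lit 22178654973) (nat_lit 124) (nat_lit 5) (nat_lit 133) (nat_lit 5) (nat_lit 125) (nat_lit 5) (nat_lit 292) (nat_lit 279) (nat_lit 149)) (XT.nd (nat_lit 78) (nat_lit 532) (nat_lit 0) (XT.lf (nat_lit 0) (nat_lit 11530015121) (nat_lit 608) (nat_lit 22099884288) (nat_lit 76) (nat_lit 6533105970) (nat_lit 117) (nat_lit 5) (nat_lit 125) (nat_lit 5) (nat_lit 118) (nat_lit 5) (nat_lit 293) (nat_lit 279) (nat_lit 148)) (XT.lf (nat_lit 0) (nat_lit 6401729054) (nat_lit 532) (nat_lit 10447123453) (nat_lit 608) (nat_lit 24500152126) (nat_lit 110) (nat_lit 5) (nat_lit 117) (nat_lit 5) (nat_lit 118) (nat_lit 5) (nat_lit 294) (nat_lit 279) (nat_lit 147)))))) (XT.nd (nat_lit 390) (nat_lit 1596) (nat_lit 0) (XT.nd (nat_lit 156) (nat_lit 912) (nat_lit 0) (XT.nd (nat_lit 78) (nat_lit 456) (nat_lit 0) (XT.lf (nat_lit 0)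 (nat_lit 22792574683) (nat_lit 608) (nat_lit 5937410234) (nat_lit 76) (nat_lit 13853561322) (nat_lit 110) (nat_lit 5) (nat_lit 118) (nat_lit 5) (nat_lit 111) (nat_lit 5) (nat_lit 295) (nat_lit 279) (nat_lit 146)) (XT.lf (nat_lit 0) (nat_lit 24899224878) (nat_lit 456) (nat_lit 4474884699) (nat_lit 532) (nat_lit 14495496719) (nat_lit 104) (nat_lit 5) (nat_lit 110) (nat_lit 5) (nat_lit 111) (nat_lit 5) (nat_lit 296) (nat_lit 279) (nat_lit 145))) (XT.nd (nat_lit 78) (nat_lit 456) (nat_lit 0) (XT.lf (nat_lit 0) (nat_lit 12215432775) (nat_lit 456) (nat_lit 24446227484) (nat_lit 532) (nat_lit 8547010610) (nat_lit 98) (nat_lit 5) (nat_lit 104) (nat_lit 5) (nat_lit 105) (nat_lit 5) (nat_lit 297) (nat_lit 279) (nat_lit 144)) (XT.nd (nat_lit 78) (nat_lit 456) (nat_lit 0) (XT.lf (nat_lit 0) (nat_lit 44557018849) (nat_lit 532) (nat_lit 1308036285) (nat_lit 76) (nat_lit 742339849) (nat_lit 98) (nat_lit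 5) (nat_lit 105) (nat_lit 5) (nat_lit 99) (nat_lit 5) (nat_lit 298) (nat_lit 279) (nat_lit 143)) (XT.lf (nat_lit 0) (nat_lit 5237423813) (nat_lit 456) (nat_lit 15768970909) (nat_lit 76) (nat_lit 27051510184) (nat_lit 92) (nat_lit 5) (nat_lit 98) (nat_lit 5) (nat_lit 93) (nat_lit 5) (nat_lit 299) (nat_lit 279) (nat_lit 142))))) (XT.nd (nat_lit 234) (nat_lit 760) (nat_lit 0) (XT.nd (nat_lit 78) (nat_lit 380) (nat_lit 0) (XT.lf (nat_lit 0) (nat_lit 13085034959) (nat_lit 532) (nat_lit 31280015475) (nat_lit 76) (nat_lit 5208154207) (nat_lit 86) (nat_lit 5) (nat_lit 93) (nat_lit 5) (nat_lit 87) (nat_lit 5) (nat_lit 300) (nat_lit 279) (nat_lit 141)) (XT.nd (nat_lit 78) (nat_lit 0) (nat_lit 0) (XT.lf (nat_lit 0) (nat_lit 3070950365) (nat_lit 380) (nat_lit 18656105979) (nat_lit 456) (nat_lit 29425159864) (nat_lit 81) (nat_lit 5) (nat_lit 86) (nat_lit 5) (nat_lit 87) (nat_lit 5) (nat_lit 301) (nat_lit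 279) (nat_lit 140)) (XT.lf (nat_lit 0) (nat_lit 31203194871) (nat_lit 456) (nat_lit 13094651894) (nat_lit 76) (nat_lit 8500278473) (nat_lit 81) (nat_lit 5) (nat_lit 87) (nat_lit 5) (nat_lit 82) (nat_lit 5) (nat_lit 302) (nat_lit 279) (nat_lit 139)))) (XT.nd (nat_lit 78) (nat_lit 380) (nat_lit 0) (XT.lf (nat_lit 0) (nat_lit 23915947435) (nat_lit 380) (nat_lit 17652221623) (nat_lit 456) (nat_lit 12945716816) (nat_lit 76) (nat_lit 5) (nat_lit 81) (nat_lit 5) (nat_lit 82) (nat_lit 5) (nat_lit 303) (nat_lit 279) (nat_lit 138)) (XT.nd (nat_lit 78) (nat_lit 76) (nat_lit 0) (XT.lf (nat_lit 0) (nat_lit 6767067530) (nat_lit 304) (nat_lit 45981706796) (nat_lit 380) (nat_lit 3557745429) (nat_lit 72) (nat_lit 5) (nat_lit 76) (nat_lit 5) (nat_lit 77) (nat_lit 5) (nat_lit 304) (nat_lit 279) (nat_lit 137)) (XT.lf (nat_lit 0) (nat_lit 6669980978) (nat_lit 380) (nat_lit 11785123539) (nat_lit 76) (nat_lit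 39717071770) (nat_lit 71) (nat_lit 5) (nat_lit 76) (nat_lit 5) (nat_lit 72) (nat_lit 5) (nat_lit 305) (nat_lit 279) (nat_lit 136))))))))
noncomputable def xc113 : XT := (XT.nd (nat_lit 35802) (nat_lit 0) (nat_lit 3116) (XT.nd (nat_lit 780) (nat_lit 912) (nat_lit 0) (XT.nd (nat_lit 390) (nat_lit 836) (nat_lit 0) (XT.nd (nat_lit 156) (nat_lit 608) (nat_lit 0) (XT.nd (nat_lit 78) (nat_lit 304) (nat_lit 0) (XT.lf (nat_lit 0) (nat_lit 17709560276) (nat_lit 456) (nat_lit 31854293331) (nat_lit 76) (nat_lit 10554989782) (nat_lit 66) (nat_lit 5) (nat_lit 72) (nat_lit 5) (nat_lit 67) (nat_lit 5) (nat_lit 306) (nat_lit 279) (nat_lit 135)) (XT.lf (nat_lit 0) (nat_lit 8376274078) (nat_lit 304) (nat_lit 21311410118) (nat_lit 380) (nat_lit 32463568283) (nat_lit 62) (nat_lit 5) (nat_lit 66) (nat_lit 5) (nat_lit 67) (nat_lit 5) (nat_lit 307) (nat_lit 279) (nat_lit 134))) (XT.nd (nat_lit 78) (nat_lit 608)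 (nat_lit 0) (XT.lf (nat_lit 0) (nat_lit 42673521598) (nat_lit 380) (nat_lit 13078420285) (nat_lit 76) (nat_lit 8521081260) (nat_lit 62) (nat_lit 5) (nat_lit 67) (nat_lit 5) (nat_lit 63) (nat_lit 5) (nat_lit 308) (nat_lit 279) (nat_lit 133)) (XT.nd (nat_lit 78) (nat_lit 304) (nat_lit 0) (XT.lf (nat_lit 0) (nat_lit 30020375485) (nat_lit 304) (nat_lit 26789425438) (nat_lit 380) (nat_lit 9676052001) (nat_lit 58) (nat_lit 5) (nat_lit 62) (nat_lit 5) (nat_lit 63) (nat_lit 5) (nat_lit 309) (nat_lit 279) (nat_lit 132)) (XT.lf (nat_lit 0) (nat_lit 3024436995) (nat_lit 304) (nat_lit 61995848806) (nat_lit 76) (nat_lit 3781132408) (nat_lit 54) (nat_lit 5) (nat_lit 58) (nat_lit 5) (nat_lit 55) (nat_lit 5) (nat_lit 310) (nat_lit 279) (nat_lit 131))))) (XT.nd (nat_lit 156) (nat_lit 532) (nat_lit 0) (XT.nd (nat_lit 78) (nat_lit 304) (nat_lit 0) (XT.lf (nat_lit 0) (nat_lit 16808798496) (nat_lit 304) (nat_lit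 18594311082) (nat_lit 76) (nat_lit 35807313675) (nat_lit 54) (nat_lit 5) (nat_lit 58) (nat_lit 5) (nat_lit 55) (nat_lit 5) (nat_lit 311) (nat_lit 279) (nat_lit 130)) (XT.lf (nat_lit 0) (nat_lit 27511068322) (nat_lit 304) (nat_lit 4033491255) (nat_lit 380) (nat_lit 42187457788) (nat_lit 50) (nat_lit 5) (nat_lit 54) (nat_lit 5) (nat_lit 55) (nat_lit 5) (nat_lit 312) (nat_lit 279) (nat_lit 129))) (XT.nd (nat_lit 78) (nat_lit 532) (nat_lit 0) (XT.lf (nat_lit 0) (nat_lit 47486064793) (nat_lit 380) (nat_lit 346458932) (nat_lit 76) (nat_lit 28533102837) (nat_lit 50) (nat_lit 5) (nat_lit 55) (nat_lit 5) (nat_lit 51) (nat_lit 5) (nat_lit 313) (nat_lit 279) (nat_lit 128)) (XT.nd (nat_lit 78) (nat_lit 304) (nat_lit 0) (XT.lf (nat_lit 0) (nat_lit 48729019289) (nat_lit 228) (nat_lit 16002654994) (nat_lit 304) (nat_lit 14384034932) (nat_lit 47) (nat_lit 5) (nat_lit 50) (nat_lit 5) (nat_lit 51) (nat_lit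 5) (nat_lit 314) (nat_lit 279) (nat_lit 127)) (XT.lf (nat_lit 0) (nat_lit 1169758738) (nat_lit 304) (nat_lit 63552340433) (nat_lit 76) (nat_lit 17270464970) (nat_lit 43) (nat_lit 5) (nat_lit 47) (nat_lit 5) (nat_lit 44) (nat_lit 5) (nat_lit 315) (nat_lit 279) (nat_lit 126)))))) (XT.nd (nat_lit 390) (nat_lit 304) (nat_lit 0) (XT.nd (nat_lit 156) (nat_lit 380) (nat_lit 0) (XT.nd (nat_lit 78) (nat_lit 228) (nat_lit 0) (XT.lf (nat_lit 0) (nat_lit 17681960257) (nat_lit 304) (nat_lit 14973037413) (nat_lit 76) (nat_lit 52339649001) (nat_lit 43) (nat_lit 5) (nat_lit 47) (nat_lit 5) (nat_lit 44) (nat_lit 5) (nat_lit 316) (nat_lit 279) (nat_lit 125)) (XT.lf (nat_lit 0) (nat_lit 35384394183) (nat_lit 304) (nat_lit 51399900493) (nat_lit 76) (nat_lit 1351603226) (nat_lit 40) (nat_lit 5) (nat_lit 44) (nat_lit 5) (nat_lit 41) (nat_lit 5) (nat_lit 317) (nat_lit 279) (nat_lit 124))) (XT.nd (nat_lit 78) (nat_lit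 380) (nat_lit 0) (XT.lf (nat_lit 0) (nat_lit 54455373145) (nat_lit 304) (nat_lit 420007532) (nat_lit 76) (nat_lit 36544331404) (nat_lit 40) (nat_lit 5) (nat_lit 44) (nat_lit 5) (nat_lit 41) (nat_lit 5) (nat_lit 318) (nat_lit 279) (nat_lit 123)) (XT.nd (nat_lit 78) (nat_lit 152) (nat_lit 0) (XT.lf (nat_lit 0) (nat_lit 54163252215) (nat_lit 228) (nat_lit 20835554624) (nat_lit 304) (nat_lit 19853345899) (nat_lit 37) (nat_lit 5) (nat_lit 40) (nat_lit 5) (nat_lit 41) (nat_lit 5) (nat_lit 319) (nat_lit 279) (nat_lit 122)) (XT.lf (nat_lit 0) (nat_lit 13138901799) (nat_lit 152) (nat_lit 83702771275) (nat_lit 228) (nat_lit 1606377330) (nat_lit 35) (nat_lit 5) (nat_lit 37) (nat_lit 5) (nat_lit 38) (nat_lit 5) (nat_lit 320) (nat_lit 279) (nat_lit 121))))) (XT.nd (nat_lit 34398) (nat_lit 0) (nat_lit 8284) (XT.nd (nat_lit 78) (nat_lit 228) (nat_lit 0) (XT.lf (nat_lit 0) (nat_lit 17842065739) (nat_lit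 228) (nat_lit 32088463656) (nat_lit 76) (nat_lit 52269204845) (nat_lit 34) (nat_lit 5) (nat_lit 37) (nat_lit 5) (nat_lit 35) (nat_lit 5) (nat_lit 321) (nat_lit 279) (nat_lit 120)) (XT.nd (nat_lit 34242) (nat_lit 0) (nat_lit 8284) (XT.lf (nat_lit 0) (nat_lit 24247838952) (nat_lit 228) (nat_lit 14213687767) (nat_lit 304) (nat_lit 67670046332) (nat_lit 31) (nat_lit 5) (nat_lit 34) (nat_lit 5) (nat_lit 35) (nat_lit 5) (nat_lit 322) (nat_lit 279) (nat_lit 119)) (XT.lf (nat_lit 0) (nat_lit 5963976748) (nat_lit 1140) (nat_lit 4280101257) (nat_lit 1140) (nat_lit 4280101257) (nat_lit 140) (nat_lit 3) (nat_lit 155) (nat_lit 3) (nat_lit 155) (nat_lit 5) (nat_lit 280) (nat_lit 280) (nat_lit 160)))) (XT.nd (nat_lit 78) (nat_lit 0) (nat_lit 76) (XT.lf (nat_lit 76) (nat_lit 11402624718) (nat_lit 0) (nat_lit 1047834362) (nat_lit 1140) (nat_lit 17317070663) (nat_lit 141) (nat_lit 5) (nat_lit 140) (nat_lit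 3) (nat_lit 155) (nat_lit 5) (nat_lit 281) (nat_lit 280) (nat_lit 159)) (XT.nd (nat_lit 78) (nat_lit 0) (nat_lit 76) (XT.lf (nat_lit 76) (nat_lit 1867749640) (nat_lit 0) (nat_lit 11417084424) (nat_lit 1140) (nat_lit 17229272885) (nat_lit 142) (nat_lit 5) (nat_lit 141) (nat_lit 5) (nat_lit 156) (nat_lit 5) (nat_lit 282) (nat_lit 280) (nat_lit 158)) (XT.lf (nat_lit 0) (nat_lit 14441156200) (nat_lit 1064) (nat_lit 7898996766) (nat_lit 1140) (nat_lit 8949472007) (nat_lit 142) (nat_lit 5) (nat_lit 156) (nat_lit 5) (nat_lit 157) (nat_lit 5) (nat_lit 283) (nat_lit 280) (nat_lit 157))))))) (XT.nd (nat_lit 858) (nat_lit 3420) (nat_lit 0) (XT.nd (nat_lit 390) (nat_lit 1900) (nat_lit 0) (XT.nd (nat_lit 156) (nat_lit 0) (nat_lit 152) (XT.nd (nat_lit 78) (nat_lit 0) (nat_lit 76) (XT.lf (nat_lit 76) (nat_lit 14040397537) (nat_lit 0) (nat_lit 1858425365) (nat_lit 1140) (nat_lit 16197808058) (nat_lit 143)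 (nat_lit 5) (nat_lit 142) (nat_lit 5) (nat_lit 157) (nat_lit 5) (nat_lit 284) (nat_lit 280) (nat_lit 156)) (XT.lf (nat_lit 76) (nat_lit 4188144580) (nat_lit 0) (nat_lit 13546099545) (nat_lit 1140) (nat_lit 15200614046) (nat_lit 144) (nat_lit 5) (nat_lit 143) (nat_lit 5) (nat_lit 158) (nat_lit 5) (nat_lit 285) (nat_lit 280) (nat_lit 155))) (XT.nd (nat_lit 78) (nat_lit 0) (nat_lit 0) (XT.lf (nat_lit 0) (nat_lit 19937054917) (nat_lit 1064) (nat_lit 5987479220) (nat_lit 1140) (nat_lit 7882210299) (nat_lit 144) (nat_lit 5) (nat_lit 158) (nat_lit 5) (nat_lit 159) (nat_lit 5) (nat_lit 286) (nat_lit 280) (nat_lit 154)) (XT.nd (nat_lit 78) (nat_lit 0) (nat_lit 76) (XT.lf (nat_lit 76) (nat_lit 18122541583) (nat_lit 0) (nat_lit 4432598291) (nat_lit 1140) (nat_lit 12157946607) (nat_lit 145) (nat_lit 5) (nat_lit 144) (nat_lit 5) (nat_lit 159) (nat_lit 5) (nat_lit 287) (nat_lit 280) (nat_lit 153)) (XT.lf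 (nat_lit 76) (nat_lit 7874862948) (nat_lit 0) (nat_lit 17735982349) (nat_lit 1140) (nat_lit 10044713584) (nat_lit 146) (nat_lit 5) (nat_lit 145) (nat_lit 5) (nat_lit 160) (nat_lit 5) (nat_lit 288) (nat_lit 280) (nat_lit 152))))) (XT.nd (nat_lit 234) (nat_lit 1216) (nat_lit 0) (XT.nd (nat_lit 78) (nat_lit 988) (nat_lit 0) (XT.lf (nat_lit 0) (nat_lit 29075547252) (nat_lit 1064) (nat_lit 2824761081) (nat_lit 1140) (nat_lit 4737174264) (nat_lit 146) (nat_lit 5) (nat_lit 160) (nat_lit 5) (nat_lit 161) (nat_lit 5) (nat_lit 289) (nat_lit 280) (nat_lit 151)) (XT.nd (nat_lit 78) (nat_lit 988) (nat_lit 0) (XT.lf (nat_lit 76) (nat_lit 23657569755) (nat_lit 0) (nat_lit 9457286670) (nat_lit 1140) (nat_lit 4541618281) (nat_lit 147) (nat_lit 5) (nat_lit 146) (nat_lit 5) (nat_lit 161) (nat_lit 5) (nat_lit 290) (nat_lit 280) (nat_lit 150)) (XT.lf (nat_lit 0) (nat_lit 12909426933) (nat_lit 1064) (nat_lit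 24730936835) (nat_lit 1140) (nat_lit 1077538400) (nat_lit 133) (nat_lit 5) (nat_lit 147) (nat_lit 5) (nat_lit 148) (nat_lit 5) (nat_lit 291) (nat_lit 280) (nat_lit 149)))) (XT.nd (nat_lit 78) (nat_lit 532) (nat_lit 0) (XT.lf (nat_lit 0) (nat_lit 1531968846) (nat_lit 608) (nat_lit 1228834763) (nat_lit 684) (nat_lit 37063340753) (nat_lit 124) (nat_lit 5) (nat_lit 132) (nat_lit 5) (nat_lit 133) (nat_lit 5) (nat_lit 292) (nat_lit 280) (nat_lit 148)) (XT.nd (nat_lit 78) (nat_lit 532) (nat_lit 0) (XT.lf (nat_lit 0) (nat_lit 7258176189) (nat_lit 684) (nat_lit 10441985582) (nat_lit 76) (nat_lit 23270546085) (nat_lit 124) (nat_lit 5) (nat_lit 133) (nat_lit 5) (nat_lit 125) (nat_lit 5) (nat_lit 293) (nat_lit 280) (nat_lit 147)) (XT.lf (nat_lit 0) (nat_lit 12239831025) (nat_lit 608) (nat_lit 23077746053) (nat_lit 76) (nat_lit 6849250717) (nat_lit 117) (nat_lit 5) (nat_lit 125) (nat_lit 5) (nat_lit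 118) (nat_lit 5) (nat_lit 294) (nat_lit 280) (nat_lit 146)))))) (XT.nd (nat_lit 390) (nat_lit 1976) (nat_lit 0) (XT.nd (nat_lit 156) (nat_lit 912) (nat_lit 0) (XT.nd (nat_lit 78) (nat_lit 0) (nat_lit 0) (XT.lf (nat_lit 0) (nat_lit 6845303730) (nat_lit 532) (nat_lit 10974145255) (nat_lit 608) (nat_lit 25592848503) (nat_lit 110) (nat_lit 5) (nat_lit 117) (nat_lit 5) (nat_lit 118) (nat_lit 5) (nat_lit 295) (nat_lit 280) (nat_lit 145)) (XT.lf (nat_lit 0) (nat_lit 24054211991) (nat_lit 608) (nat_lit 6112670794) (nat_lit 76) (nat_lit 14541882640) (nat_lit 110) (nat_lit 5) (nat_lit 118) (nat_lit 5) (nat_lit 111) (nat_lit 5) (nat_lit 296) (nat_lit 280) (nat_lit 144))) (XT.nd (nat_lit 78) (nat_lit 456) (nat_lit 0) (XT.lf (nat_lit 0) (nat_lit 26262310148) (nat_lit 456) (nat_lit 4697839030) (nat_lit 532) (nat_lit 15099133725) (nat_lit 104) (nat_lit 5) (nat_lit 110) (nat_lit 5) (nat_lit 111) (nat_lit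 5) (nat_lit 297) (nat_lit 280) (nat_lit 143)) (XT.nd (nat_lit 78) (nat_lit 0) (nat_lit 0) (XT.lf (nat_lit 0) (nat_lit 12944629738) (nat_lit 456) (nat_lit 25663005926) (nat_lit 532) (nat_lit 8857811802) (nat_lit 98) (nat_lit 5) (nat_lit 104) (nat_lit 5) (nat_lit 105) (nat_lit 5) (nat_lit 298) (nat_lit 280) (nat_lit 142)) (XT.lf (nat_lit 0) (nat_lit 46892437008) (nat_lit 532) (nat_lit 1257219923) (nat_lit 76) (nat_lit 784623476) (nat_lit 98) (nat_lit 5) (nat_lit 105) (nat_lit 5) (nat_lit 99) (nat_lit 5) (nat_lit 299) (nat_lit 280) (nat_lit 141))))) (XT.nd (nat_lit 234) (nat_lit 684) (nat_lit 0) (XT.nd (nat_lit 78) (nat_lit 836) (nat_lit 0) (XT.lf (nat_lit 0) (nat_lit 5604090434) (nat_lit 456) (nat_lit 16442209095) (nat_lit 76) (nat_lit 28411118840) (nat_lit 92) (nat_lit 5) (nat_lit 98) (nat_lit 5) (nat_lit 93) (nat_lit 5) (nat_lit 300) (nat_lit 280) (nat_lit 140)) (XT.nd (nat_lit 78) (nat_lit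 380) (nat_lit 0) (XT.lf (nat_lit 0) (nat_lit 13840273603) (nat_lit 532) (nat_lit 32728961354) (nat_lit 76) (nat_lit 5479373720) (nat_lit 86) (nat_lit 5) (nat_lit 93) (nat_lit 5) (nat_lit 87) (nat_lit 5) (nat_lit 301) (nat_lit 280) (nat_lit 139)) (XT.lf (nat_lit 0) (nat_lit 3336254753) (nat_lit 380) (nat_lit 19574406680) (nat_lit 456) (nat_lit 30796032217) (nat_lit 81) (nat_lit 5) (nat_lit 86) (nat_lit 5) (nat_lit 87) (nat_lit 5) (nat_lit 302) (nat_lit 280) (nat_lit 138)))) (XT.nd (nat_lit 78) (nat_lit 684) (nat_lit 0) (XT.lf (nat_lit 0) (nat_lit 32856108614) (nat_lit 456) (nat_lit 13640098003) (nat_lit 76) (nat_lit 8938836740) (nat_lit 81) (nat_lit 5) (nat_lit 87) (nat_lit 5) (nat_lit 82) (nat_lit 5) (nat_lit 303) (nat_lit 280) (nat_lit 137)) (XT.nd (nat_lit 78) (nat_lit 304) (nat_lit 0) (XT.lf (nat_lit 0) (nat_lit 25217898618) (nat_lit 380) (nat_lit 18518036451) (nat_lit 456) (nat_lit 13500768636)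 (nat_lit 76) (nat_lit 5) (nat_lit 81) (nat_lit 5) (nat_lit 82) (nat_lit 5) (nat_lit 304) (nat_lit 280) (nat_lit 136)) (XT.lf (nat_lit 0) (nat_lit 7211169022) (nat_lit 304) (nat_lit 48261316738) (nat_lit 380) (nat_lit 3646585384) (nat_lit 72) (nat_lit 5) (nat_lit 76) (nat_lit 5) (nat_lit 77) (nat_lit 5) (nat_lit 305) (nat_lit 280) (nat_lit 135))))))))
noncomputable def xc114 : XT := (XT.nd (nat_lit 35958) (nat_lit 0) (nat_lit 2812) (XT.nd (nat_lit 780) (nat_lit 912) (nat_lit 0) (XT.nd (nat_lit 390) (nat_lit 836) (nat_lit 0) (XT.nd (nat_lit 156) (nat_lit 608) (nat_lit 0) (XT.nd (nat_lit 78) (nat_lit 380) (nat_lit 0) (XT.lf (nat_lit 0) (nat_lit 7086632105) (nat_lit 380) (nat_lit 12271839967) (nat_lit 76) (nat_lit 41719646098) (nat_lit 71) (nat_lit 5) (nat_lit 76) (nat_lit 5) (nat_lit 72) (nat_lit 5) (nat_lit 306) (nat_lit 280) (nat_lit 134)) (XT.lf (nat_lit 0) (nat_lit 18675375137) (nat_lit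 456) (nat_lit 33345025845) (nat_lit 76) (nat_lit 11101810310) (nat_lit 66) (nat_lit 5) (nat_lit 72) (nat_lit 5) (nat_lit 67) (nat_lit 5) (nat_lit 307) (nat_lit 280) (nat_lit 133))) (XT.nd (nat_lit 78) (nat_lit 304) (nat_lit 0) (XT.lf (nat_lit 0) (nat_lit 8894146636) (nat_lit 304) (nat_lit 22355385267) (nat_lit 380) (nat_lit 34006802952) (nat_lit 62) (nat_lit 5) (nat_lit 66) (nat_lit 5) (nat_lit 67) (nat_lit 5) (nat_lit 308) (nat_lit 280) (nat_lit 132)) (XT.nd (nat_lit 78) (nat_lit 304) (nat_lit 0) (XT.lf (nat_lit 0) (nat_lit 44881170140) (nat_lit 380) (nat_lit 13635835095) (nat_lit 76) (nat_lit 8967300994) (nat_lit 62) (nat_lit 5) (nat_lit 67) (nat_lit 5) (nat_lit 63) (nat_lit 5) (nat_lit 309) (nat_lit 280) (nat_lit 131)) (XT.lf (nat_lit 0) (nat_lit 31615134132) (nat_lit 304) (nat_lit 28106507886) (nat_lit 380) (nat_lit 10086221213) (nat_lit 58) (nat_lit 5) (nat_lit 62) (nat_lit 5) (nat_lit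 63) (nat_lit 5) (nat_lit 310) (nat_lit 280) (nat_lit 130))))) (XT.nd (nat_lit 156) (nat_lit 532) (nat_lit 0) (XT.nd (nat_lit 78) (nat_lit 0) (nat_lit 0) (XT.lf (nat_lit 0) (nat_lit 3245527859) (nat_lit 304) (nat_lit 65001058887) (nat_lit 76) (nat_lit 3992675183) (nat_lit 54) (nat_lit 5) (nat_lit 58) (nat_lit 5) (nat_lit 55) (nat_lit 5) (nat_lit 311) (nat_lit 280) (nat_lit 129)) (XT.lf (nat_lit 0) (nat_lit 17715780339) (nat_lit 304) (nat_lit 19433948198) (nat_lit 76) (nat_lit 37619094743) (nat_lit 54) (nat_lit 5) (nat_lit 58) (nat_lit 5) (nat_lit 55) (nat_lit 5) (nat_lit 312) (nat_lit 280) (nat_lit 128))) (XT.nd (nat_lit 78) (nat_lit 228) (nat_lit 0) (XT.lf (nat_lit 0) (nat_lit 28974118096) (nat_lit 304) (nat_lit 4211883785) (nat_lit 380) (nat_lit 44230570993) (nat_lit 50) (nat_lit 5) (nat_lit 54) (nat_lit 5) (nat_lit 55) (nat_lit 5) (nat_lit 313) (nat_lit 280) (nat_lit 127)) (XT.nd (nat_lit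 78) (nat_lit 228) (nat_lit 0) (XT.lf (nat_lit 0) (nat_lit 49921737676) (nat_lit 380) (nat_lit 278717196) (nat_lit 76) (nat_lit 29981498662) (nat_lit 50) (nat_lit 5) (nat_lit 55) (nat_lit 5) (nat_lit 51) (nat_lit 5) (nat_lit 314) (nat_lit 280) (nat_lit 126)) (XT.lf (nat_lit 0) (nat_lit 51248096574) (nat_lit 228) (nat_lit 16779402957) (nat_lit 304) (nat_lit 15042110025) (nat_lit 47) (nat_lit 5) (nat_lit 50) (nat_lit 5) (nat_lit 51) (nat_lit 5) (nat_lit 315) (nat_lit 280) (nat_lit 125)))))) (XT.nd (nat_lit 390) (nat_lit 152) (nat_lit 0) (XT.nd (nat_lit 156) (nat_lit 456) (nat_lit 0) (XT.nd (nat_lit 78) (nat_lit 0) (nat_lit 0) (XT.lf (nat_lit 0) (nat_lit 1286337521) (nat_lit 304) (nat_lit 66646830997) (nat_lit 76) (nat_lit 18157181360) (nat_lit 43) (nat_lit 5) (nat_lit 47) (nat_lit 5) (nat_lit 44) (nat_lit 5) (nat_lit 316) (nat_lit 280) (nat_lit 124)) (XT.lf (nat_lit 0) (nat_lit 18621382885)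 (nat_lit 304) (nat_lit 15642521229) (nat_lit 76) (nat_lit 54978720158) (nat_lit 43) (nat_lit 5) (nat_lit 47) (nat_lit 5) (nat_lit 44) (nat_lit 5) (nat_lit 317) (nat_lit 280) (nat_lit 123))) (XT.nd (nat_lit 78) (nat_lit 228) (nat_lit 0) (XT.lf (nat_lit 0) (nat_lit 37207268802) (nat_lit 304) (nat_lit 53891529050) (nat_lit 76) (nat_lit 1442194826) (nat_lit 40) (nat_lit 5) (nat_lit 44) (nat_lit 5) (nat_lit 41) (nat_lit 5) (nat_lit 318) (nat_lit 280) (nat_lit 122)) (XT.nd (nat_lit 78) (nat_lit 228) (nat_lit 0) (XT.lf (nat_lit 0) (nat_lit 57229241716) (nat_lit 304) (nat_lit 366373179) (nat_lit 76) (nat_lit 38393463630) (nat_lit 40) (nat_lit 5) (nat_lit 44) (nat_lit 5) (nat_lit 41) (nat_lit 5) (nat_lit 319) (nat_lit 280) (nat_lit 121)) (XT.lf (nat_lit 0) (nat_lit 56943910167) (nat_lit 228) (nat_lit 21854200469) (nat_lit 304) (nat_lit 20795086776) (nat_lit 37) (nat_lit 5) (nat_lit 40) (nat_lit 5)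 (nat_lit 41) (nat_lit 5) (nat_lit 320) (nat_lit 280) (nat_lit 120))))) (XT.nd (nat_lit 34554) (nat_lit 0) (nat_lit 8056) (XT.nd (nat_lit 34398) (nat_lit 0) (nat_lit 7980) (XT.lf (nat_lit 0) (nat_lit 13867566343) (nat_lit 152) (nat_lit 87864104379) (nat_lit 228) (nat_lit 1637266630) (nat_lit 35) (nat_lit 5) (nat_lit 37) (nat_lit 5) (nat_lit 38) (nat_lit 5) (nat_lit 321) (nat_lit 280) (nat_lit 119)) (XT.nd (nat_lit 78) (nat_lit 0) (nat_lit 0) (XT.lf (nat_lit 0) (nat_lit 6375082575) (nat_lit 1140) (nat_lit 4435807358) (nat_lit 1140) (nat_lit 4435807358) (nat_lit 140) (nat_lit 3) (nat_lit 155) (nat_lit 3) (nat_lit 155) (nat_lit 5) (nat_lit 281) (nat_lit 281) (nat_lit 158)) (XT.lf (nat_lit 76) (nat_lit 12086011623) (nat_lit 0) (nat_lit 1203120027) (nat_lit 1140) (nat_lit 17959711568) (nat_lit 141) (nat_lit 5) (nat_lit 140) (nat_lit 3) (nat_lit 155) (nat_lit 5) (nat_lit 282) (nat_lit 281) (nat_lit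 157)))) (XT.nd (nat_lit 78) (nat_lit 0) (nat_lit 76) (XT.lf (nat_lit 76) (nat_lit 2078967620) (nat_lit 0) (nat_lit 12076155602) (nat_lit 1140) (nat_lit 17877956675) (nat_lit 142) (nat_lit 5) (nat_lit 141) (nat_lit 5) (nat_lit 156) (nat_lit 5) (nat_lit 283) (nat_lit 281) (nat_lit 156)) (XT.nd (nat_lit 78) (nat_lit 0) (nat_lit 0) (XT.lf (nat_lit 0) (nat_lit 15358642067) (nat_lit 1064) (nat_lit 8174507659) (nat_lit 1140) (nat_lit 9314568917) (nat_lit 142) (nat_lit 5) (nat_lit 156) (nat_lit 5) (nat_lit 157) (nat_lit 5) (nat_lit 284) (nat_lit 281) (nat_lit 155)) (XT.lf (nat_lit 76) (nat_lit 14858432666) (nat_lit 0) (nat_lit 2022568549) (nat_lit 1140) (nat_lit 16814344427) (nat_lit 143) (nat_lit 5) (nat_lit 142) (nat_lit 5) (nat_lit 157) (nat_lit 5) (nat_lit 285) (nat_lit 281) (nat_lit 154))))))) (XT.nd (nat_lit 780) (nat_lit 3420) (nat_lit 0) (XT.nd (nat_lit 390) (nat_lit 1976) (nat_lit 0) (XT.nd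 (nat_lit 156) (nat_lit 0) (nat_lit 76) (XT.nd (nat_lit 78) (nat_lit 0) (nat_lit 76) (XT.lf (nat_lit 76) (nat_lit 4516848039) (nat_lit 0) (nat_lit 14282924126) (nat_lit 1140) (nat_lit 15775988486) (nat_lit 144) (nat_lit 5) (nat_lit 143) (nat_lit 5) (nat_lit 158) (nat_lit 5) (nat_lit 286) (nat_lit 281) (nat_lit 153)) (XT.lf (nat_lit 0) (nat_lit 21103663562) (nat_lit 1064) (nat_lit 6167130518) (nat_lit 1140) (nat_lit 8220741613) (nat_lit 144) (nat_lit 5) (nat_lit 158) (nat_lit 5) (nat_lit 159) (nat_lit 5) (nat_lit 287) (nat_lit 281) (nat_lit 152))) (XT.nd (nat_lit 78) (nat_lit 0) (nat_lit 76) (XT.lf (nat_lit 76) (nat_lit 19144959500) (nat_lit 0) (nat_lit 4700727512) (nat_lit 1140) (nat_lit 12597738385) (nat_lit 145) (nat_lit 5) (nat_lit 144) (nat_lit 5) (nat_lit 159) (nat_lit 5) (nat_lit 288) (nat_lit 281) (nat_lit 151)) (XT.nd (nat_lit 78) (nat_lit 0) (nat_lit 76) (XT.lf (nat_lit 76) (nat_lit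 8387160689) (nat_lit 0) (nat_lit 18659979028) (nat_lit 1140) (nat_lit 10386113395) (nat_lit 146) (nat_lit 5) (nat_lit 145) (nat_lit 5) (nat_lit 160) (nat_lit 5) (nat_lit 289) (nat_lit 281) (nat_lit 150)) (XT.lf (nat_lit 0) (nat_lit 30677319463) (nat_lit 1064) (nat_lit 2847907829) (nat_lit 1140) (nat_lit 4939298022) (nat_lit 146) (nat_lit 5) (nat_lit 160) (nat_lit 5) (nat_lit 161) (nat_lit 5) (nat_lit 290) (nat_lit 281) (nat_lit 149))))) (XT.nd (nat_lit 156) (nat_lit 1216) (nat_lit 0) (XT.nd (nat_lit 78) (nat_lit 988) (nat_lit 0) (XT.lf (nat_lit 76) (nat_lit 24955154485) (nat_lit 0) (nat_lit 9957494862) (nat_lit 1140) (nat_lit 4622014669) (nat_lit 147) (nat_lit 5) (nat_lit 146) (nat_lit 5) (nat_lit 161) (nat_lit 5) (nat_lit 291) (nat_lit 281) (nat_lit 148)) (XT.lf (nat_lit 0) (nat_lit 13671073382) (nat_lit 1064) (nat_lit 25987460802) (nat_lit 1140) (nat_lit 990823362) (nat_lit 133) (nat_lit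 5) (nat_lit 147) (nat_lit 5) (nat_lit 148) (nat_lit 5) (nat_lit 292) (nat_lit 281) (nat_lit 147))) (XT.nd (nat_lit 78) (nat_lit 532) (nat_lit 0) (XT.lf (nat_lit 0) (nat_lit 1724412005) (nat_lit 608) (nat_lit 1306829643) (nat_lit 684) (nat_lit 38779809597) (nat_lit 124) (nat_lit 5) (nat_lit 132) (nat_lit 5) (nat_lit 133) (nat_lit 5) (nat_lit 293) (nat_lit 281) (nat_lit 146)) (XT.nd (nat_lit 78) (nat_lit 532) (nat_lit 0) (XT.lf (nat_lit 0) (nat_lit 7747026655) (nat_lit 684) (nat_lit 10849509461) (nat_lit 76) (nat_lit 24418616122) (nat_lit 124) (nat_lit 5) (nat_lit 133) (nat_lit 5) (nat_lit 125) (nat_lit 5) (nat_lit 294) (nat_lit 281) (nat_lit 145)) (XT.lf (nat_lit 0) (nat_lit 12972743345) (nat_lit 608) (nat_lit 24116320477) (nat_lit 76) (nat_lit 7182179872) (nat_lit 117) (nat_lit 5) (nat_lit 125) (nat_lit 5) (nat_lit 118) (nat_lit 5) (nat_lit 295) (nat_lit 281) (nat_lit 144)))))) (XT.nd (nat_lit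 390) (nat_lit 1976) (nat_lit 0) (XT.nd (nat_lit 156) (nat_lit 912) (nat_lit 0) (XT.nd (nat_lit 78) (nat_lit 0) (nat_lit 0) (XT.lf (nat_lit 0) (nat_lit 7299576375) (nat_lit 532) (nat_lit 11527084380) (nat_lit 608) (nat_lit 26752480744) (nat_lit 110) (nat_lit 5) (nat_lit 117) (nat_lit 5) (nat_lit 118) (nat_lit 5) (nat_lit 296) (nat_lit 281) (nat_lit 143)) (XT.lf (nat_lit 0) (nat_lit 25367587964) (nat_lit 608) (nat_lit 6308000524) (nat_lit 76) (nat_lit 15265025073) (nat_lit 110) (nat_lit 5) (nat_lit 118) (nat_lit 5) (nat_lit 111) (nat_lit 5) (nat_lit 297) (nat_lit 281) (nat_lit 142))) (XT.nd (nat_lit 78) (nat_lit 456) (nat_lit 0) (XT.lf (nat_lit 0) (nat_lit 27682567630) (nat_lit 456) (nat_lit 4932014515) (nat_lit 532) (nat_lit 15744214829) (nat_lit 104) (nat_lit 5) (nat_lit 110) (nat_lit 5) (nat_lit 111) (nat_lit 5) (nat_lit 298) (nat_lit 281) (nat_lit 141)) (XT.nd (nat_lit 78) (nat_lit 0)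 (nat_lit 0) (XT.lf (nat_lit 0) (nat_lit 13699276485) (nat_lit 456) (nat_lit 26941137689) (nat_lit 532) (nat_lit 9194988707) (nat_lit 98) (nat_lit 5) (nat_lit 104) (nat_lit 5) (nat_lit 105) (nat_lit 5) (nat_lit 299) (nat_lit 281) (nat_lit 140)) (XT.lf (nat_lit 0) (nat_lit 49334625495) (nat_lit 532) (nat_lit 1214667608) (nat_lit 76) (nat_lit 828540938) (nat_lit 98) (nat_lit 5) (nat_lit 105) (nat_lit 5) (nat_lit 99) (nat_lit 5) (nat_lit 300) (nat_lit 281) (nat_lit 139))))) (XT.nd (nat_lit 234) (nat_lit 684) (nat_lit 0) (XT.nd (nat_lit 78) (nat_lit 836) (nat_lit 0) (XT.lf (nat_lit 0) (nat_lit 5979347500) (nat_lit 456) (nat_lit 17159820358) (nat_lit 76) (nat_lit 29838054054) (nat_lit 92) (nat_lit 5) (nat_lit 98) (nat_lit 5) (nat_lit 93) (nat_lit 5) (nat_lit 301) (nat_lit 281) (nat_lit 138)) (XT.nd (nat_lit 78) (nat_lit 380) (nat_lit 0) (XT.lf (nat_lit 0) (nat_lit 14623885376) (nat_lit 532) (nat_lit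 34261051239) (nat_lit 76) (nat_lit 5763149029) (nat_lit 86) (nat_lit 5) (nat_lit 93) (nat_lit 5) (nat_lit 87) (nat_lit 5) (nat_lit 302) (nat_lit 281) (nat_lit 137)) (XT.lf (nat_lit 0) (nat_lit 3604434267) (nat_lit 380) (nat_lit 20539970917) (nat_lit 456) (nat_lit 32244781093) (nat_lit 81) (nat_lit 5) (nat_lit 86) (nat_lit 5) (nat_lit 87) (nat_lit 5) (nat_lit 303) (nat_lit 281) (nat_lit 136)))) (XT.nd (nat_lit 78) (nat_lit 684) (nat_lit 0) (XT.lf (nat_lit 0) (nat_lit 34583044657) (nat_lit 456) (nat_lit 14222976838) (nat_lit 76) (nat_lit 9398063696) (nat_lit 81) (nat_lit 5) (nat_lit 87) (nat_lit 5) (nat_lit 82) (nat_lit 5) (nat_lit 304) (nat_lit 281) (nat_lit 135)) (XT.nd (nat_lit 78) (nat_lit 304) (nat_lit 0) (XT.lf (nat_lit 0) (nat_lit 26575078185) (nat_lit 380) (nat_lit 19428703576) (nat_lit 456) (nat_lit 14092148092) (nat_lit 76) (nat_lit 5) (nat_lit 81) (nat_lit 5) (nat_lit 82) (nat_lit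 5) (nat_lit 305) (nat_lit 281) (nat_lit 134)) (XT.lf (nat_lit 0) (nat_lit 7667644132) (nat_lit 304) (nat_lit 50656717816) (nat_lit 380) (nat_lit 3748146112) (nat_lit 72) (nat_lit 5) (nat_lit 76) (nat_lit 5) (nat_lit 77) (nat_lit 5) (nat_lit 306) (nat_lit 281) (nat_lit 133))))))))
noncomputable def xc115 : XT := (XT.nd (nat_lit 36036) (nat_lit 0) (nat_lit 2204) (XT.nd (nat_lit 780) (nat_lit 760) (nat_lit 0) (XT.nd (nat_lit 390) (nat_lit 836) (nat_lit 0) (XT.nd (nat_lit 156) (nat_lit 608) (nat_lit 0) (XT.nd (nat_lit 78) (nat_lit 380) (nat_lit 0) (XT.lf (nat_lit 0) (nat_lit 7516385097) (nat_lit 380) (nat_lit 12792425391) (nat_lit 76) (nat_lit 43820794607) (nat_lit 71) (nat_lit 5) (nat_lit 76) (nat_lit 5) (nat_lit 72) (nat_lit 5) (nat_lit 307) (nat_lit 281) (nat_lit 132)) (XT.lf (nat_lit 0) (nat_lit 19682011782) (nat_lit 456) (nat_lit 34919776319) (nat_lit 76) (nat_lit 11674198821) (nat_lit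 66) (nat_lit 5) (nat_lit 72) (nat_lit 5) (nat_lit 67) (nat_lit 5) (nat_lit 308) (nat_lit 281) (nat_lit 131))) (XT.nd (nat_lit 78) (nat_lit 304) (nat_lit 0) (XT.lf (nat_lit 0) (nat_lit 9428703269) (nat_lit 304) (nat_lit 23453566905) (nat_lit 380) (nat_lit 35634631766) (nat_lit 62) (nat_lit 5) (nat_lit 66) (nat_lit 5) (nat_lit 67) (nat_lit 5) (nat_lit 309) (nat_lit 281) (nat_lit 130)) (XT.nd (nat_lit 78) (nat_lit 304) (nat_lit 0) (XT.lf (nat_lit 0) (nat_lit 47192323851) (nat_lit 380) (nat_lit 14230092878) (nat_lit 76) (nat_lit 9433956901) (nat_lit 62) (nat_lit 5) (nat_lit 67) (nat_lit 5) (nat_lit 63) (nat_lit 5) (nat_lit 310) (nat_lit 281) (nat_lit 129)) (XT.lf (nat_lit 0) (nat_lit 33280915667) (nat_lit 304) (nat_lit 29491525956) (nat_lit 380) (nat_lit 10523744620) (nat_lit 58) (nat_lit 5) (nat_lit 62) (nat_lit 5) (nat_lit 63) (nat_lit 5) (nat_lit 311) (nat_lit 281) (nat_lit 128))))) (XT.nd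 (nat_lit 156) (nat_lit 532) (nat_lit 0) (XT.nd (nat_lit 78) (nat_lit 0) (nat_lit 0) (XT.lf (nat_lit 0) (nat_lit 3471177508) (nat_lit 304) (nat_lit 68165322842) (nat_lit 76) (nat_lit 4212704546) (nat_lit 54) (nat_lit 5) (nat_lit 58) (nat_lit 5) (nat_lit 55) (nat_lit 5) (nat_lit 312) (nat_lit 281) (nat_lit 127)) (XT.lf (nat_lit 0) (nat_lit 18661924838) (nat_lit 304) (nat_lit 20323941809) (nat_lit 76) (nat_lit 39519473866) (nat_lit 54) (nat_lit 5) (nat_lit 58) (nat_lit 5) (nat_lit 55) (nat_lit 5) (nat_lit 313) (nat_lit 281) (nat_lit 126))) (XT.nd (nat_lit 78) (nat_lit 228) (nat_lit 0) (XT.lf (nat_lit 0) (nat_lit 30502185777) (nat_lit 304) (nat_lit 4401360483) (nat_lit 380) (nat_lit 46382000055) (nat_lit 50) (nat_lit 5) (nat_lit 54) (nat_lit 5) (nat_lit 55) (nat_lit 5) (nat_lit 314) (nat_lit 281) (nat_lit 125)) (XT.nd (nat_lit 78) (nat_lit 228) (nat_lit 0) (XT.lf (nat_lit 0) (nat_lit 52473488635)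 (nat_lit 380) (nat_lit 215496881) (nat_lit 76) (nat_lit 31500293036) (nat_lit 50) (nat_lit 5) (nat_lit 55) (nat_lit 5) (nat_lit 51) (nat_lit 5) (nat_lit 315) (nat_lit 281) (nat_lit 124)) (XT.lf (nat_lit 0) (nat_lit 53885445911) (nat_lit 228) (nat_lit 17597162414) (nat_lit 304) (nat_lit 15738771850) (nat_lit 47) (nat_lit 5) (nat_lit 50) (nat_lit 5) (nat_lit 51) (nat_lit 5) (nat_lit 316) (nat_lit 281) (nat_lit 123)))))) (XT.nd (nat_lit 34788) (nat_lit 0) (nat_lit 7828) (XT.nd (nat_lit 156) (nat_lit 456) (nat_lit 0) (XT.nd (nat_lit 78) (nat_lit 0) (nat_lit 0) (XT.lf (nat_lit 0) (nat_lit 1403344507) (nat_lit 304) (nat_lit 69903774399) (nat_lit 76) (nat_lit 19086077292) (nat_lit 43) (nat_lit 5) (nat_lit 47) (nat_lit 5) (nat_lit 44) (nat_lit 5) (nat_lit 317) (nat_lit 281) (nat_lit 122)) (XT.lf (nat_lit 0) (nat_lit 19602633086) (nat_lit 304) (nat_lit 16352839531) (nat_lit 76) (nat_lit 57747691274)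 (nat_lit 43) (nat_lit 5) (nat_lit 47) (nat_lit 5) (nat_lit 44) (nat_lit 5) (nat_lit 318) (nat_lit 281) (nat_lit 121))) (XT.nd (nat_lit 78) (nat_lit 228) (nat_lit 0) (XT.lf (nat_lit 0) (nat_lit 39116298827) (nat_lit 304) (nat_lit 56515024808) (nat_lit 76) (nat_lit 1535176620) (nat_lit 40) (nat_lit 5) (nat_lit 44) (nat_lit 5) (nat_lit 41) (nat_lit 5) (nat_lit 319) (nat_lit 281) (nat_lit 120)) (XT.nd (nat_lit 78) (nat_lit 228) (nat_lit 0) (XT.lf (nat_lit 0) (nat_lit 60137052930) (nat_lit 304) (nat_lit 316995938) (nat_lit 76) (nat_lit 40333014957) (nat_lit 40) (nat_lit 5) (nat_lit 44) (nat_lit 5) (nat_lit 41) (nat_lit 5) (nat_lit 320) (nat_lit 281) (nat_lit 119)) (XT.lf (nat_lit 0) (nat_lit 59856861086) (nat_lit 228) (nat_lit 22925929190) (nat_lit 304) (nat_lit 21788649352) (nat_lit 37) (nat_lit 5) (nat_lit 40) (nat_lit 5) (nat_lit 41) (nat_lit 5) (nat_lit 321) (nat_lit 281) (nat_lit 118)))))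 (XT.nd (nat_lit 234) (nat_lit 0) (nat_lit 152) (XT.nd (nat_lit 78) (nat_lit 0) (nat_lit 0) (XT.lf (nat_lit 0) (nat_lit 6796246671) (nat_lit 1140) (nat_lit 4604718848) (nat_lit 1140) (nat_lit 4604718848) (nat_lit 140) (nat_lit 3) (nat_lit 155) (nat_lit 3) (nat_lit 155) (nat_lit 5) (nat_lit 282) (nat_lit 282) (nat_lit 156)) (XT.nd (nat_lit 78) (nat_lit 0) (nat_lit 76) (XT.lf (nat_lit 76) (nat_lit 12793038434) (nat_lit 0) (nat_lit 1356603871) (nat_lit 1140) (nat_lit 18655236713) (nat_lit 141) (nat_lit 5) (nat_lit 140) (nat_lit 3) (nat_lit 155) (nat_lit 5) (nat_lit 283) (nat_lit 282) (nat_lit 155)) (XT.lf (nat_lit 76) (nat_lit 2289791737) (nat_lit 0) (nat_lit 12759978762) (nat_lit 1140) (nat_lit 18578856909) (nat_lit 142) (nat_lit 5) (nat_lit 141) (nat_lit 5) (nat_lit 156) (nat_lit 5) (nat_lit 284) (nat_lit 282) (nat_lit 154)))) (XT.nd (nat_lit 78) (nat_lit 0) (nat_lit 0) (XT.lf (nat_lit 0)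 (nat_lit 16303833178) (nat_lit 1064) (nat_lit 8474898397) (nat_lit 1140) (nat_lit 9705579275) (nat_lit 142) (nat_lit 5) (nat_lit 156) (nat_lit 5) (nat_lit 157) (nat_lit 5) (nat_lit 285) (nat_lit 282) (nat_lit 153)) (XT.nd (nat_lit 78) (nat_lit 0) (nat_lit 76) (XT.lf (nat_lit 76) (nat_lit 15706583553) (nat_lit 0) (nat_lit 2188297354) (nat_lit 1140) (nat_lit 17479683839) (nat_lit 143) (nat_lit 5) (nat_lit 142) (nat_lit 5) (nat_lit 157) (nat_lit 5) (nat_lit 286) (nat_lit 282) (nat_lit 152)) (XT.lf (nat_lit 76) (nat_lit 4850895637) (nat_lit 0) (nat_lit 15051056368) (nat_lit 1140) (nat_lit 16397299238) (nat_lit 144) (nat_lit 5) (nat_lit 143) (nat_lit 5) (nat_lit 158) (nat_lit 5) (nat_lit 287) (nat_lit 282) (nat_lit 151))))))) (XT.nd (nat_lit 858) (nat_lit 3344) (nat_lit 0) (XT.nd (nat_lit 390) (nat_lit 2584) (nat_lit 0) (XT.nd (nat_lit 156) (nat_lit 0) (nat_lit 76) (XT.nd (nat_lit 78) (nat_lit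 0) (nat_lit 0) (XT.lf (nat_lit 0) (nat_lit 22312820345) (nat_lit 1064) (nat_lit 6366895058) (nat_lit 1140) (nat_lit 8581366719) (nat_lit 144) (nat_lit 5) (nat_lit 158) (nat_lit 5) (nat_lit 159) (nat_lit 5) (nat_lit 288) (nat_lit 282) (nat_lit 150)) (XT.lf (nat_lit 76) (nat_lit 20207686693) (nat_lit 0) (nat_lit 4977940129) (nat_lit 1140) (nat_lit 13075148613) (nat_lit 145) (nat_lit 5) (nat_lit 144) (nat_lit 5) (nat_lit 159) (nat_lit 5) (nat_lit 289) (nat_lit 282) (nat_lit 149))) (XT.nd (nat_lit 78) (nat_lit 0) (nat_lit 76) (XT.lf (nat_lit 76) (nat_lit 8914051236) (nat_lit 0) (nat_lit 19626717265) (nat_lit 1140) (nat_lit 10759536192) (nat_lit 146) (nat_lit 5) (nat_lit 145) (nat_lit 5) (nat_lit 160) (nat_lit 5) (nat_lit 290) (nat_lit 282) (nat_lit 148)) (XT.nd (nat_lit 78) (nat_lit 0) (nat_lit 0) (XT.lf (nat_lit 0) (nat_lit 32345421126) (nat_lit 1064) (nat_lit 2883190925) (nat_lit 1140) (nat_lit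 5154757294) (nat_lit 146) (nat_lit 5) (nat_lit 160) (nat_lit 5) (nat_lit 161) (nat_lit 5) (nat_lit 291) (nat_lit 282) (nat_lit 147)) (XT.lf (nat_lit 76) (nat_lit 26306954152) (nat_lit 0) (nat_lit 10480171291) (nat_lit 1140) (nat_lit 4720068213) (nat_lit 147) (nat_lit 5) (nat_lit 146) (nat_lit 5) (nat_lit 161) (nat_lit 5) (nat_lit 292) (nat_lit 282) (nat_lit 146))))) (XT.nd (nat_lit 234) (nat_lit 1064) (nat_lit 0) (XT.nd (nat_lit 78) (nat_lit 684) (nat_lit 0) (XT.lf (nat_lit 0) (nat_lit 14460001294) (nat_lit 1064) (nat_lit 27304953683) (nat_lit 1140) (nat_lit 912843479) (nat_lit 133) (nat_lit 5) (nat_lit 147) (nat_lit 5) (nat_lit 148) (nat_lit 5) (nat_lit 293) (nat_lit 282) (nat_lit 145)) (XT.nd (nat_lit 78) (nat_lit 0) (nat_lit 0) (XT.lf (nat_lit 0) (nat_lit 1915707178) (nat_lit 608) (nat_lit 1387185313) (nat_lit 684) (nat_lit 40594810785) (nat_lit 124) (nat_lit 5) (nat_lit 132) (nat_lit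 5) (nat_lit 133) (nat_lit 5) (nat_lit 294) (nat_lit 282) (nat_lit 144)) (XT.lf (nat_lit 0) (nat_lit 8248610783) (nat_lit 684) (nat_lit 11288061668) (nat_lit 76) (nat_lit 25625526731) (nat_lit 124) (nat_lit 5) (nat_lit 133) (nat_lit 5) (nat_lit 125) (nat_lit 5) (nat_lit 295) (nat_lit 282) (nat_lit 143)))) (XT.nd (nat_lit 78) (nat_lit 532) (nat_lit 0) (XT.lf (nat_lit 0) (nat_lit 13731059214) (nat_lit 608) (nat_lit 25217544320) (nat_lit 76) (nat_lit 7532641808) (nat_lit 117) (nat_lit 5) (nat_lit 125) (nat_lit 5) (nat_lit 118) (nat_lit 5) (nat_lit 296) (nat_lit 282) (nat_lit 142)) (XT.nd (nat_lit 78) (nat_lit 0) (nat_lit 0) (XT.lf (nat_lit 0) (nat_lit 7766149260) (nat_lit 532) (nat_lit 12107277023) (nat_lit 608) (nat_lit 27981252006) (nat_lit 110) (nat_lit 5) (nat_lit 117) (nat_lit 5) (nat_lit 118) (nat_lit 5) (nat_lit 297) (nat_lit 282) (nat_lit 141)) (XT.lf (nat_lit 0) (nat_lit 26736344118)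 (nat_lit 608) (nat_lit 6523351742) (nat_lit 76) (nat_lit 16024692019) (nat_lit 110) (nat_lit 5) (nat_lit 118) (nat_lit 5) (nat_lit 111) (nat_lit 5) (nat_lit 298) (nat_lit 282) (nat_lit 140)))))) (XT.nd (nat_lit 390) (nat_lit 1520) (nat_lit 0) (XT.nd (nat_lit 156) (nat_lit 912) (nat_lit 0) (XT.nd (nat_lit 78) (nat_lit 456) (nat_lit 0) (XT.lf (nat_lit 0) (nat_lit 29163876940) (nat_lit 456) (nat_lit 5177965385) (nat_lit 532) (nat_lit 16431765178) (nat_lit 104) (nat_lit 5) (nat_lit 110) (nat_lit 5) (nat_lit 111) (nat_lit 5) (nat_lit 299) (nat_lit 282) (nat_lit 139)) (XT.lf (nat_lit 0) (nat_lit 14481669117) (nat_lit 456) (nat_lit 28283642616) (nat_lit 532) (nat_lit 9558852714) (nat_lit 98) (nat_lit 5) (nat_lit 104) (nat_lit 5) (nat_lit 105) (nat_lit 5) (nat_lit 300) (nat_lit 282) (nat_lit 138))) (XT.nd (nat_lit 78) (nat_lit 912) (nat_lit 0) (XT.lf (nat_lit 0) (nat_lit 51889852585) (nat_lit 532)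 (nat_lit 1179788007) (nat_lit 76) (nat_lit 874218588) (nat_lit 98) (nat_lit 5) (nat_lit 105) (nat_lit 5) (nat_lit 99) (nat_lit 5) (nat_lit 301) (nat_lit 282) (nat_lit 137)) (XT.nd (nat_lit 78) (nat_lit 456) (nat_lit 0) (XT.lf (nat_lit 0) (nat_lit 6364530335) (nat_lit 456) (nat_lit 17923027529) (nat_lit 76) (nat_lit 31335742944) (nat_lit 92) (nat_lit 5) (nat_lit 98) (nat_lit 5) (nat_lit 93) (nat_lit 5) (nat_lit 302) (nat_lit 282) (nat_lit 136)) (XT.lf (nat_lit 0) (nat_lit 15438161815) (nat_lit 532) (nat_lit 35879447854) (nat_lit 76) (nat_lit 6060201378) (nat_lit 86) (nat_lit 5) (nat_lit 93) (nat_lit 5) (nat_lit 87) (nat_lit 5) (nat_lit 303) (nat_lit 282) (nat_lit 135))))) (XT.nd (nat_lit 234) (nat_lit 760) (nat_lit 0) (XT.nd (nat_lit 78) (nat_lit 380) (nat_lit 0) (XT.lf (nat_lit 0) (nat_lit 3876598634) (nat_lit 380) (nat_lit 21555036494) (nat_lit 456) (nat_lit 33774432634) (nat_lit 81) (nat_lit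 5) (nat_lit 86) (nat_lit 5) (nat_lit 87) (nat_lit 5) (nat_lit 304) (nat_lit 282) (nat_lit 134)) (XT.nd (nat_lit 78) (nat_lit 380) (nat_lit 0) (XT.lf (nat_lit 0) (nat_lit 36388505835) (nat_lit 456) (nat_lit 14844215417) (nat_lit 76) (nat_lit 9879109846) (nat_lit 81) (nat_lit 5) (nat_lit 87) (nat_lit 5) (nat_lit 82) (nat_lit 5) (nat_lit 305) (nat_lit 282) (nat_lit 133)) (XT.lf (nat_lit 0) (nat_lit 27991165097) (nat_lit 380) (nat_lit 20386320436) (nat_lit 456) (nat_lit 14720874340) (nat_lit 76) (nat_lit 5) (nat_lit 81) (nat_lit 5) (nat_lit 82) (nat_lit 5) (nat_lit 306) (nat_lit 282) (nat_lit 132)))) (XT.nd (nat_lit 78) (nat_lit 456) (nat_lit 0) (XT.lf (nat_lit 0) (nat_lit 8138025575) (nat_lit 304) (nat_lit 53173531250) (nat_lit 380) (nat_lit 3862293970) (nat_lit 72) (nat_lit 5) (nat_lit 76) (nat_lit 5) (nat_lit 77) (nat_lit 5) (nat_lit 307) (nat_lit 282) (nat_lit 131)) (XT.nd (nat_lit 78) (nat_lit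 380) (nat_lit 0) (XT.lf (nat_lit 0) (nat_lit 7960613773) (nat_lit 380) (nat_lit 13347686955) (nat_lit 76) (nat_lit 46025590532) (nat_lit 71) (nat_lit 5) (nat_lit 76) (nat_lit 5) (nat_lit 72) (nat_lit 5) (nat_lit 308) (nat_lit 282) (nat_lit 130)) (XT.lf (nat_lit 0) (nat_lit 20732205695) (nat_lit 456) (nat_lit 36581864165) (nat_lit 76) (nat_lit 12273598554) (nat_lit 66) (nat_lit 5) (nat_lit 72) (nat_lit 5) (nat_lit 67) (nat_lit 5) (nat_lit 309) (nat_lit 282) (nat_lit 129))))))))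
noncomputable def xc116 : XT := (XT.nd (nat_lit 36114) (nat_lit 0) (nat_lit 1672) (XT.nd (nat_lit 780) (nat_lit 228) (nat_lit 0) (XT.nd (nat_lit 390) (nat_lit 836) (nat_lit 0) (XT.nd (nat_lit 156) (nat_lit 608) (nat_lit 0) (XT.nd (nat_lit 78) (nat_lit 0) (nat_lit 0) (XT.lf (nat_lit 0) (nat_lit 9981634397) (nat_lit 304) (nat_lit 24608478697) (nat_lit 380) (nat_lit 37350593438) (nat_lit 62) (nat_lit 5) (nat_lit 66) (nat_lit 5) (nat_lit 67) (nat_lit 5) (nat_lit 310) (nat_lit 282) (nat_lit 128)) (XT.lf (nat_lit 0) (nat_lit 49612797371) (nat_lit 380) (nat_lit 14862201629) (nat_lit 76) (nat_lit 9922245093) (nat_lit 62) (nat_lit 5) (nat_lit 67) (nat_lit 5) (nat_lit 63) (nat_lit 5) (nat_lit 311) (nat_lit 282) (nat_lit 127))) (XT.nd (nat_lit 78) (nat_lit 304) (nat_lit 0) (XT.lf (nat_lit 0) (nat_lit 35022081476) (nat_lit 304) (nat_lit 30947682913) (nat_lit 380) (nat_lit 10989353481) (nat_lit 58) (nat_lit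 5) (nat_lit 62) (nat_lit 5) (nat_lit 63) (nat_lit 5) (nat_lit 312) (nat_lit 282) (nat_lit 126)) (XT.nd (nat_lit 78) (nat_lit 0) (nat_lit 0) (XT.lf (nat_lit 0) (nat_lit 3702217795) (nat_lit 304) (nat_lit 71495775843) (nat_lit 76) (nat_lit 4441839188) (nat_lit 54) (nat_lit 5) (nat_lit 58) (nat_lit 5) (nat_lit 55) (nat_lit 5) (nat_lit 313) (nat_lit 282) (nat_lit 125)) (XT.lf (nat_lit 0) (nat_lit 19649765281) (nat_lit 304) (nat_lit 21266031145) (nat_lit 76) (nat_lit 41513066049) (nat_lit 54) (nat_lit 5) (nat_lit 58) (nat_lit 5) (nat_lit 55) (nat_lit 5) (nat_lit 314) (nat_lit 282) (nat_lit 124))))) (XT.nd (nat_lit 156) (nat_lit 532) (nat_lit 0) (XT.nd (nat_lit 78) (nat_lit 0) (nat_lit 0) (XT.lf (nat_lit 0) (nat_lit 32099278536) (nat_lit 304) (nat_lit 4602274321) (nat_lit 380) (nat_lit 48646588051) (nat_lit 50) (nat_lit 5) (nat_lit 54) (nat_lit 5) (nat_lit 55) (nat_lit 5) (nat_lit 315) (nat_lit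 282) (nat_lit 123)) (XT.lf (nat_lit 0) (nat_lit 55147652025) (nat_lit 380) (nat_lit 156288800) (nat_lit 76) (nat_lit 33093193801) (nat_lit 50) (nat_lit 5) (nat_lit 55) (nat_lit 5) (nat_lit 51) (nat_lit 5) (nat_lit 316) (nat_lit 282) (nat_lit 122))) (XT.nd (nat_lit 78) (nat_lit 304) (nat_lit 0) (XT.lf (nat_lit 0) (nat_lit 56647695085) (nat_lit 228) (nat_lit 18457781813) (nat_lit 304) (nat_lit 16475421393) (nat_lit 47) (nat_lit 5) (nat_lit 50) (nat_lit 5) (nat_lit 51) (nat_lit 5) (nat_lit 317) (nat_lit 282) (nat_lit 121)) (XT.nd (nat_lit 78) (nat_lit 0) (nat_lit 0) (XT.lf (nat_lit 0) (nat_lit 1521303216) (nat_lit 304) (nat_lit 73330574777) (nat_lit 76) (nat_lit 20059462212) (nat_lit 43) (nat_lit 5) (nat_lit 47) (nat_lit 5) (nat_lit 44) (nat_lit 5) (nat_lit 318) (nat_lit 282) (nat_lit 120)) (XT.lf (nat_lit 0) (nat_lit 20628280439) (nat_lit 304) (nat_lit 17105349753) (nat_lit 76) (nat_lit 60653248271)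 (nat_lit 43) (nat_lit 5) (nat_lit 47) (nat_lit 5) (nat_lit 44) (nat_lit 5) (nat_lit 319) (nat_lit 282) (nat_lit 119)))))) (XT.nd (nat_lit 34866) (nat_lit 0) (nat_lit 7752) (XT.nd (nat_lit 34632) (nat_lit 0) (nat_lit 7600) (XT.nd (nat_lit 78) (nat_lit 0) (nat_lit 0) (XT.lf (nat_lit 0) (nat_lit 41116255795) (nat_lit 304) (nat_lit 59276303762) (nat_lit 76) (nat_lit 1630867019) (nat_lit 40) (nat_lit 5) (nat_lit 44) (nat_lit 5) (nat_lit 41) (nat_lit 5) (nat_lit 320) (nat_lit 282) (nat_lit 118)) (XT.lf (nat_lit 0) (nat_lit 63185945603) (nat_lit 304) (nat_lit 271443557) (nat_lit 76) (nat_lit 42367695770) (nat_lit 40) (nat_lit 5) (nat_lit 44) (nat_lit 5) (nat_lit 41) (nat_lit 5) (nat_lit 321) (nat_lit 282) (nat_lit 117))) (XT.nd (nat_lit 78) (nat_lit 0) (nat_lit 0) (XT.lf (nat_lit 0) (nat_lit 7228947864) (nat_lit 1140) (nat_lit 4786992090) (nat_lit 1140) (nat_lit 4786992090) (nat_lit 140) (nat_lit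 3) (nat_lit 155) (nat_lit 3) (nat_lit 155) (nat_lit 5) (nat_lit 283) (nat_lit 283) (nat_lit 154)) (XT.nd (nat_lit 78) (nat_lit 0) (nat_lit 76) (XT.lf (nat_lit 76) (nat_lit 13525866074) (nat_lit 0) (nat_lit 1509085169) (nat_lit 1140) (nat_lit 19404360968) (nat_lit 141) (nat_lit 5) (nat_lit 140) (nat_lit 3) (nat_lit 155) (nat_lit 5) (nat_lit 284) (nat_lit 283) (nat_lit 153)) (XT.lf (nat_lit 76) (nat_lit 2501220766) (nat_lit 0) (nat_lit 13470554008) (nat_lit 1140) (nat_lit 19332745243) (nat_lit 142) (nat_lit 5) (nat_lit 141) (nat_lit 5) (nat_lit 156) (nat_lit 5) (nat_lit 285) (nat_lit 283) (nat_lit 152))))) (XT.nd (nat_lit 234) (nat_lit 0) (nat_lit 152) (XT.nd (nat_lit 78) (nat_lit 0) (nat_lit 0) (XT.lf (nat_lit 0) (nat_lit 17279803982) (nat_lit 1064) (nat_lit 8800380601) (nat_lit 1140) (nat_lit 10123086731) (nat_lit 142) (nat_lit 5) (nat_lit 156) (nat_lit 5) (nat_lit 157) (nat_lit 5) (nat_lit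 286) (nat_lit 283) (nat_lit 151)) (XT.nd (nat_lit 78) (nat_lit 0) (nat_lit 76) (XT.lf (nat_lit 76) (nat_lit 16587358765) (nat_lit 0) (nat_lit 2356306668) (nat_lit 1140) (nat_lit 18194595189) (nat_lit 143) (nat_lit 5) (nat_lit 142) (nat_lit 5) (nat_lit 157) (nat_lit 5) (nat_lit 287) (nat_lit 283) (nat_lit 150)) (XT.lf (nat_lit 76) (nat_lit 5191585723) (nat_lit 0) (nat_lit 15852576111) (nat_lit 1140) (nat_lit 17065247036) (nat_lit 144) (nat_lit 5) (nat_lit 143) (nat_lit 5) (nat_lit 158) (nat_lit 5) (nat_lit 288) (nat_lit 283) (nat_lit 149)))) (XT.nd (nat_lit 78) (nat_lit 0) (nat_lit 0) (XT.lf (nat_lit 0) (nat_lit 23568119961) (nat_lit 1064) (nat_lit 6586743680) (nat_lit 1140) (nat_lit 8964709908) (nat_lit 144) (nat_lit 5) (nat_lit 158) (nat_lit 5) (nat_lit 159) (nat_lit 5) (nat_lit 289) (nat_lit 283) (nat_lit 148)) (XT.nd (nat_lit 78) (nat_lit 0) (nat_lit 76) (XT.lf (nat_lit 76) (nat_lit 21313743787)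 (nat_lit 0) (nat_lit 5265092230) (nat_lit 1140) (nat_lit 13590605190) (nat_lit 145) (nat_lit 5) (nat_lit 144) (nat_lit 5) (nat_lit 159) (nat_lit 5) (nat_lit 290) (nat_lit 283) (nat_lit 147)) (XT.lf (nat_lit 76) (nat_lit 9457288956) (nat_lit 0) (nat_lit 20638655655) (nat_lit 1140) (nat_lit 11165192935) (nat_lit 146) (nat_lit 5) (nat_lit 145) (nat_lit 5) (nat_lit 160) (nat_lit 5) (nat_lit 291) (nat_lit 283) (nat_lit 146))))))) (XT.nd (nat_lit 780) (nat_lit 2736) (nat_lit 0) (XT.nd (nat_lit 390) (nat_lit 1976) (nat_lit 0) (XT.nd (nat_lit 156) (nat_lit 1672) (nat_lit 0) (XT.nd (nat_lit 78) (nat_lit 0) (nat_lit 0) (XT.lf (nat_lit 0) (nat_lit 34084447911) (nat_lit 1064) (nat_lit 2930196462) (nat_lit 1140) (nat_lit 5383918624) (nat_lit 146) (nat_lit 5) (nat_lit 160) (nat_lit 5) (nat_lit 161) (nat_lit 5) (nat_lit 292) (nat_lit 283) (nat_lit 145)) (XT.lf (nat_lit 76) (nat_lit 27716670969) (nat_lit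 0) (nat_lit 11026675716) (nat_lit 1140) (nat_lit 4835393900) (nat_lit 147) (nat_lit 5) (nat_lit 146) (nat_lit 5) (nat_lit 161) (nat_lit 5) (nat_lit 293) (nat_lit 283) (nat_lit 144))) (XT.nd (nat_lit 78) (nat_lit 684) (nat_lit 0) (XT.lf (nat_lit 0) (nat_lit 15278578903) (nat_lit 1064) (nat_lit 28686636598) (nat_lit 1140) (nat_lit 842820302) (nat_lit 133) (nat_lit 5) (nat_lit 147) (nat_lit 5) (nat_lit 148) (nat_lit 5) (nat_lit 294) (nat_lit 283) (nat_lit 143)) (XT.nd (nat_lit 78) (nat_lit 0) (nat_lit 0) (XT.lf (nat_lit 0) (nat_lit 2106798272) (nat_lit 608) (nat_lit 1470162890) (nat_lit 684) (nat_lit 42512089382) (nat_lit 124) (nat_lit 5) (nat_lit 132) (nat_lit 5) (nat_lit 133) (nat_lit 5) (nat_lit 295) (nat_lit 283) (nat_lit 142)) (XT.lf (nat_lit 0) (nat_lit 8764653835) (nat_lit 684) (nat_lit 11758203286) (nat_lit 76) (nat_lit 26894086336) (nat_lit 124) (nat_lit 5) (nat_lit 133) (nat_lit 5)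 (nat_lit 125) (nat_lit 5) (nat_lit 296) (nat_lit 283) (nat_lit 141))))) (XT.nd (nat_lit 156) (nat_lit 912) (nat_lit 0) (XT.nd (nat_lit 78) (nat_lit 532) (nat_lit 0) (XT.lf (nat_lit 0) (nat_lit 14517093991) (nat_lit 608) (nat_lit 26383553345) (nat_lit 76) (nat_lit 7901430763) (nat_lit 117) (nat_lit 5) (nat_lit 125) (nat_lit 5) (nat_lit 118) (nat_lit 5) (nat_lit 297) (nat_lit 283) (nat_lit 140)) (XT.lf (nat_lit 0) (nat_lit 8246605537) (nat_lit 532) (nat_lit 12716122438) (nat_lit 608) (nat_lit 29281581931) (nat_lit 110) (nat_lit 5) (nat_lit 117) (nat_lit 5) (nat_lit 118) (nat_lit 5) (nat_lit 298) (nat_lit 283) (nat_lit 139))) (XT.nd (nat_lit 78) (nat_lit 912) (nat_lit 0) (XT.lf (nat_lit 0) (nat_lit 28164206001) (nat_lit 608) (nat_lit 6758772111) (nat_lit 76) (nat_lit 16822675548) (nat_lit 110) (nat_lit 5) (nat_lit 118) (nat_lit 5) (nat_lit 111) (nat_lit 5) (nat_lit 299) (nat_lit 283) (nat_lit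 138)) (XT.nd (nat_lit 78) (nat_lit 456) (nat_lit 0) (XT.lf (nat_lit 0) (nat_lit 30710216754) (nat_lit 456) (nat_lit 5436274216) (nat_lit 532) (nat_lit 17162958523) (nat_lit 104) (nat_lit 5) (nat_lit 110) (nat_lit 5) (nat_lit 111) (nat_lit 5) (nat_lit 300) (nat_lit 283) (nat_lit 137)) (XT.lf (nat_lit 0) (nat_lit 15294123373) (nat_lit 456) (nat_lit 29693695987) (nat_lit 532) (nat_lit 9949824439) (nat_lit 98) (nat_lit 5) (nat_lit 104) (nat_lit 5) (nat_lit 105) (nat_lit 5) (nat_lit 301) (nat_lit 283) (nat_lit 136)))))) (XT.nd (nat_lit 390) (nat_lit 1444) (nat_lit 0) (XT.nd (nat_lit 156) (nat_lit 836) (nat_lit 0) (XT.nd (nat_lit 78) (nat_lit 456) (nat_lit 0) (XT.lf (nat_lit 0) (nat_lit 54564613527) (nat_lit 532) (nat_lit 1152053615) (nat_lit 76) (nat_lit 921784939) (nat_lit 98) (nat_lit 5) (nat_lit 105) (nat_lit 5) (nat_lit 99) (nat_lit 5) (nat_lit 302) (nat_lit 283) (nat_lit 135)) (XT.lf (nat_lit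 0) (nat_lit 6760956815) (nat_lit 456) (nat_lit 18733207162) (nat_lit 76) (nat_lit 32907778333) (nat_lit 92) (nat_lit 5) (nat_lit 98) (nat_lit 5) (nat_lit 93) (nat_lit 5) (nat_lit 303) (nat_lit 283) (nat_lit 134))) (XT.nd (nat_lit 78) (nat_lit 380) (nat_lit 0) (XT.lf (nat_lit 0) (nat_lit 16285427883) (nat_lit 532) (nat_lit 37587564512) (nat_lit 76) (nat_lit 6371279380) (nat_lit 86) (nat_lit 5) (nat_lit 93) (nat_lit 5) (nat_lit 87) (nat_lit 5) (nat_lit 304) (nat_lit 283) (nat_lit 133)) (XT.nd (nat_lit 78) (nat_lit 0) (nat_lit 0) (XT.lf (nat_lit 0) (nat_lit 4153823262) (nat_lit 380) (nat_lit 22621964764) (nat_lit 456) (nat_lit 35388244955) (nat_lit 81) (nat_lit 5) (nat_lit 86) (nat_lit 5) (nat_lit 87) (nat_lit 5) (nat_lit 305) (nat_lit 283) (nat_lit 132)) (XT.lf (nat_lit 0) (nat_lit 38277145589) (nat_lit 456) (nat_lit 15504874929) (nat_lit 76) (nat_lit 10383172336) (nat_lit 81) (nat_lit 5)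 (nat_lit 87) (nat_lit 5) (nat_lit 82) (nat_lit 5) (nat_lit 306) (nat_lit 283) (nat_lit 131))))) (XT.nd (nat_lit 234) (nat_lit 684) (nat_lit 0) (XT.nd (nat_lit 78) (nat_lit 380) (nat_lit 0) (XT.lf (nat_lit 0) (nat_lit 29469936961) (nat_lit 380) (nat_lit 21393102835) (nat_lit 456) (nat_lit 15388091610) (nat_lit 76) (nat_lit 5) (nat_lit 81) (nat_lit 5) (nat_lit 82) (nat_lit 5) (nat_lit 307) (nat_lit 283) (nat_lit 130)) (XT.nd (nat_lit 78) (nat_lit 76) (nat_lit 0) (XT.lf (nat_lit 0) (nat_lit 8623837726) (nat_lit 304) (nat_lit 55817674971) (nat_lit 380) (nat_lit 3988960191) (nat_lit 72) (nat_lit 5) (nat_lit 76) (nat_lit 5) (nat_lit 77) (nat_lit 5) (nat_lit 308) (nat_lit 283) (nat_lit 129)) (XT.lf (nat_lit 0) (nat_lit 8420693823) (nat_lit 380) (nat_lit 13938554564) (nat_lit 76) (nat_lit 48339347332) (nat_lit 71) (nat_lit 5) (nat_lit 76) (nat_lit 5) (nat_lit 72) (nat_lit 5) (nat_lit 309) (nat_lit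 283) (nat_lit 128)))) (XT.nd (nat_lit 78) (nat_lit 304) (nat_lit 0) (XT.lf (nat_lit 0) (nat_lit 21828764572) (nat_lit 456) (nat_lit 38334856722) (nat_lit 76) (nat_lit 12901509585) (nat_lit 66) (nat_lit 5) (nat_lit 72) (nat_lit 5) (nat_lit 67) (nat_lit 5) (nat_lit 310) (nat_lit 283) (nat_lit 127)) (XT.nd (nat_lit 78) (nat_lit 0) (nat_lit 0) (XT.lf (nat_lit 0) (nat_lit 10554635359) (nat_lit 304) (nat_lit 25822787844) (nat_lit 380) (nat_lit 39158467856) (nat_lit 62) (nat_lit 5) (nat_lit 66) (nat_lit 5) (nat_lit 67) (nat_lit 5) (nat_lit 311) (nat_lit 283) (nat_lit 126)) (XT.lf (nat_lit 0) (nat_lit 52148636630) (nat_lit 380) (nat_lit 15533297295) (nat_lit 76) (nat_lit 10433405281) (nat_lit 62) (nat_lit 5) (nat_lit 67) (nat_lit 5) (nat_lit 63) (nat_lit 5) (nat_lit 312) (nat_lit 283) (nat_lit 125))))))))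
noncomputable def xc117 : XT := (XT.nd (nat_lit 36270) (nat_lit 0) (nat_lit 532) (XT.nd (nat_lit 35412) (nat_lit 0) (nat_lit 6156) (XT.nd (nat_lit 390) (nat_lit 532) (nat_lit 0) (XT.nd (nat_lit 156) (nat_lit 304) (nat_lit 0) (XT.nd (nat_lit 78) (nat_lit 304) (nat_lit 0) (XT.lf (nat_lit 0) (nat_lit 36843135686) (nat_lit 304) (nat_lit 32478360174) (nat_lit 380) (nat_lit 11483874787) (nat_lit 58) (nat_lit 5) (nat_lit 62) (nat_lit 5) (nat_lit 63) (nat_lit 5) (nat_lit 313) (nat_lit 283) (nat_lit 124)) (XT.lf (nat_lit 0) (nat_lit 3939466019) (nat_lit 304) (nat_lit 74999985822) (nat_lit 76) (nat_lit 4680710662) (nat_lit 54) (nat_lit 5) (nat_lit 58) (nat_lit 5) (nat_lit 55) (nat_lit 5) (nat_lit 314) (nat_lit 283) (nat_lit 123))) (XT.nd (nat_lit 78) (nat_lit 304) (nat_lit 0) (XT.lf (nat_lit 0) (nat_lit 20681908149) (nat_lit 304) (nat_lit 22262114785) (nat_lit 76) (nat_lit 43604699841) (nat_lit 54)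 (nat_lit 5) (nat_lit 58) (nat_lit 5) (nat_lit 55) (nat_lit 5) (nat_lit 315) (nat_lit 283) (nat_lit 122)) (XT.nd (nat_lit 78) (nat_lit 0) (nat_lit 0) (XT.lf (nat_lit 0) (nat_lit 33769533592) (nat_lit 304) (nat_lit 4815014625) (nat_lit 380) (nat_lit 51029473457) (nat_lit 50) (nat_lit 5) (nat_lit 54) (nat_lit 5) (nat_lit 55) (nat_lit 5) (nat_lit 316) (nat_lit 283) (nat_lit 121)) (XT.lf (nat_lit 0) (nat_lit 57950829599) (nat_lit 380) (nat_lit 100626663) (nat_lit 76) (nat_lit 34764076724) (nat_lit 50) (nat_lit 5) (nat_lit 55) (nat_lit 5) (nat_lit 51) (nat_lit 5) (nat_lit 317) (nat_lit 283) (nat_lit 120))))) (XT.nd (nat_lit 156) (nat_lit 0) (nat_lit 0) (XT.nd (nat_lit 78) (nat_lit 304) (nat_lit 0) (XT.lf (nat_lit 0) (nat_lit 59541736872) (nat_lit 228) (nat_lit 19363220816) (nat_lit 304) (nat_lit 17253578813) (nat_lit 47) (nat_lit 5) (nat_lit 50) (nat_lit 5) (nat_lit 51) (nat_lit 5) (nat_lit 318)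 (nat_lit 283) (nat_lit 119)) (XT.lf (nat_lit 0) (nat_lit 1640716660) (nat_lit 304) (nat_lit 76935073273) (nat_lit 76) (nat_lit 21079742402) (nat_lit 43) (nat_lit 5) (nat_lit 47) (nat_lit 5) (nat_lit 44) (nat_lit 5) (nat_lit 319) (nat_lit 283) (nat_lit 118))) (XT.nd (nat_lit 34710) (nat_lit 0) (nat_lit 7372) (XT.lf (nat_lit 0) (nat_lit 21700978540) (nat_lit 304) (nat_lit 17901540819) (nat_lit 76) (nat_lit 63702393618) (nat_lit 43) (nat_lit 5) (nat_lit 47) (nat_lit 5) (nat_lit 44) (nat_lit 5) (nat_lit 320) (nat_lit 283) (nat_lit 117)) (XT.nd (nat_lit 78) (nat_lit 0) (nat_lit 0) (XT.lf (nat_lit 0) (nat_lit 7674648192) (nat_lit 1140) (nat_lit 4982838111) (nat_lit 1140) (nat_lit 4982838111) (nat_lit 140) (nat_lit 3) (nat_lit 155) (nat_lit 3) (nat_lit 155) (nat_lit 5) (nat_lit 284) (nat_lit 284) (nat_lit 152)) (XT.lf (nat_lit 76) (nat_lit 14286672501) (nat_lit 0) (nat_lit 1661320475) (nat_lit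 1140) (nat_lit 20208014316) (nat_lit 141) (nat_lit 5) (nat_lit 140) (nat_lit 3) (nat_lit 155) (nat_lit 5) (nat_lit 285) (nat_lit 284) (nat_lit 151)))))) (XT.nd (nat_lit 390) (nat_lit 1292) (nat_lit 0) (XT.nd (nat_lit 156) (nat_lit 0) (nat_lit 76) (XT.nd (nat_lit 78) (nat_lit 0) (nat_lit 76) (XT.lf (nat_lit 76) (nat_lit 2714208736) (nat_lit 0) (nat_lit 14209910560) (nat_lit 1140) (nat_lit 20140602902) (nat_lit 142) (nat_lit 5) (nat_lit 141) (nat_lit 5) (nat_lit 156) (nat_lit 5) (nat_lit 286) (nat_lit 284) (nat_lit 150)) (XT.lf (nat_lit 0) (nat_lit 18289625606) (nat_lit 1064) (nat_lit 9151272451) (nat_lit 1140) (nat_lit 10567770313) (nat_lit 142) (nat_lit 5) (nat_lit 156) (nat_lit 5) (nat_lit 157) (nat_lit 5) (nat_lit 287) (nat_lit 284) (nat_lit 149))) (XT.nd (nat_lit 78) (nat_lit 0) (nat_lit 76) (XT.lf (nat_lit 76) (nat_lit 17503299071) (nat_lit 0) (nat_lit 2527268892) (nat_lit 1140) (nat_lit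 18960041191) (nat_lit 143) (nat_lit 5) (nat_lit 142) (nat_lit 5) (nat_lit 157) (nat_lit 5) (nat_lit 288) (nat_lit 284) (nat_lit 148)) (XT.nd (nat_lit 78) (nat_lit 0) (nat_lit 76) (XT.lf (nat_lit 76) (nat_lit 5540185692) (nat_lit 0) (nat_lit 16689619362) (nat_lit 1140) (nat_lit 17780716042) (nat_lit 144) (nat_lit 5) (nat_lit 143) (nat_lit 5) (nat_lit 158) (nat_lit 5) (nat_lit 289) (nat_lit 284) (nat_lit 147)) (XT.lf (nat_lit 0) (nat_lit 24873200425) (nat_lit 1064) (nat_lit 6826741969) (nat_lit 1140) (nat_lit 9371471347) (nat_lit 144) (nat_lit 5) (nat_lit 158) (nat_lit 5) (nat_lit 159) (nat_lit 5) (nat_lit 290) (nat_lit 284) (nat_lit 146))))) (XT.nd (nat_lit 234) (nat_lit 1520) (nat_lit 0) (XT.nd (nat_lit 78) (nat_lit 0) (nat_lit 76) (XT.lf (nat_lit 76) (nat_lit 22466208990) (nat_lit 0) (nat_lit 5563045340) (nat_lit 1140) (nat_lit 14144692498) (nat_lit 145) (nat_lit 5) (nat_lit 144) (nat_lit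 5) (nat_lit 159) (nat_lit 5) (nat_lit 291) (nat_lit 284) (nat_lit 145)) (XT.nd (nat_lit 78) (nat_lit 0) (nat_lit 76) (XT.lf (nat_lit 76) (nat_lit 10018620667) (nat_lit 0) (nat_lit 21698345832) (nat_lit 1140) (nat_lit 11603434381) (nat_lit 146) (nat_lit 5) (nat_lit 145) (nat_lit 5) (nat_lit 160) (nat_lit 5) (nat_lit 292) (nat_lit 284) (nat_lit 144)) (XT.lf (nat_lit 0) (nat_lit 35899106341) (nat_lit 1064) (nat_lit 2988584734) (nat_lit 1140) (nat_lit 5627194796) (nat_lit 146) (nat_lit 5) (nat_lit 160) (nat_lit 5) (nat_lit 161) (nat_lit 5) (nat_lit 293) (nat_lit 284) (nat_lit 143)))) (XT.nd (nat_lit 78) (nat_lit 1672) (nat_lit 0) (XT.lf (nat_lit 76) (nat_lit 29188100082) (nat_lit 0) (nat_lit 11598413911) (nat_lit 1140) (nat_lit 4967705343) (nat_lit 147) (nat_lit 5) (nat_lit 146) (nat_lit 5) (nat_lit 161) (nat_lit 5) (nat_lit 294) (nat_lit 284) (nat_lit 142)) (XT.nd (nat_lit 78) (nat_lit 684)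 (nat_lit 0) (XT.lf (nat_lit 0) (nat_lit 16129199499) (nat_lit 1064) (nat_lit 30135875666) (nat_lit 1140) (nat_lit 780049433) (nat_lit 133) (nat_lit 5) (nat_lit 147) (nat_lit 5) (nat_lit 148) (nat_lit 5) (nat_lit 295) (nat_lit 284) (nat_lit 141)) (XT.lf (nat_lit 0) (nat_lit 2298583296) (nat_lit 608) (nat_lit 1556023244) (nat_lit 684) (nat_lit 44535687555) (nat_lit 124) (nat_lit 5) (nat_lit 132) (nat_lit 5) (nat_lit 133) (nat_lit 5) (nat_lit 296) (nat_lit 284) (nat_lit 140))))))) (XT.nd (nat_lit 858) (nat_lit 2356) (nat_lit 0) (XT.nd (nat_lit 390) (nat_lit 1748) (nat_lit 0) (XT.nd (nat_lit 156) (nat_lit 988) (nat_lit 0) (XT.nd (nat_lit 78) (nat_lit 532) (nat_lit 0) (XT.lf (nat_lit 0) (nat_lit 9296866130) (nat_lit 684) (nat_lit 12260615523) (nat_lit 76) (nat_lit 28227256202) (nat_lit 124) (nat_lit 5) (nat_lit 133) (nat_lit 5) (nat_lit 125) (nat_lit 5) (nat_lit 297) (nat_lit 284) (nat_lit 139))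 (XT.lf (nat_lit 0) (nat_lit 15333181630) (nat_lit 608) (nat_lit 27616682767) (nat_lit 76) (nat_lit 8289388345) (nat_lit 117) (nat_lit 5) (nat_lit 125) (nat_lit 5) (nat_lit 118) (nat_lit 5) (nat_lit 298) (nat_lit 284) (nat_lit 138))) (XT.nd (nat_lit 78) (nat_lit 456) (nat_lit 0) (XT.lf (nat_lit 0) (nat_lit 8742517503) (nat_lit 532) (nat_lit 13355086441) (nat_lit 608) (nat_lit 30656107580) (nat_lit 110) (nat_lit 5) (nat_lit 117) (nat_lit 5) (nat_lit 118) (nat_lit 5) (nat_lit 299) (nat_lit 284) (nat_lit 137)) (XT.nd (nat_lit 78) (nat_lit 456) (nat_lit 0) (XT.lf (nat_lit 0) (nat_lit 29654996506) (nat_lit 608) (nat_lit 7014400315) (nat_lit 76) (nat_lit 17660860507) (nat_lit 110) (nat_lit 5) (nat_lit 118) (nat_lit 5) (nat_lit 111) (nat_lit 5) (nat_lit 300) (nat_lit 284) (nat_lit 136)) (XT.lf (nat_lit 0) (nat_lit 32325678582) (nat_lit 456) (nat_lit 5707553289) (nat_lit 532) (nat_lit 17939115598)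 (nat_lit 104) (nat_lit 5) (nat_lit 110) (nat_lit 5) (nat_lit 111) (nat_lit 5) (nat_lit 301) (nat_lit 284) (nat_lit 135))))) (XT.nd (nat_lit 234) (nat_lit 836) (nat_lit 0) (XT.nd (nat_lit 78) (nat_lit 456) (nat_lit 0) (XT.lf (nat_lit 0) (nat_lit 16138984462) (nat_lit 456) (nat_lit 31174635879) (nat_lit 532) (nat_lit 10368430481) (nat_lit 98) (nat_lit 5) (nat_lit 104) (nat_lit 5) (nat_lit 105) (nat_lit 5) (nat_lit 302) (nat_lit 284) (nat_lit 134)) (XT.nd (nat_lit 78) (nat_lit 456) (nat_lit 0) (XT.lf (nat_lit 0) (nat_lit 57365649930) (nat_lit 532) (nat_lit 1130995260) (nat_lit 76) (nat_lit 971371167) (nat_lit 98) (nat_lit 5) (nat_lit 105) (nat_lit 5) (nat_lit 99) (nat_lit 5) (nat_lit 303) (nat_lit 284) (nat_lit 133)) (XT.lf (nat_lit 0) (nat_lit 7169934328) (nat_lit 456) (nat_lit 19591888614) (nat_lit 76) (nat_lit 34557927561) (nat_lit 92) (nat_lit 5) (nat_lit 98) (nat_lit 5) (nat_lit 93) (nat_lit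 5) (nat_lit 304) (nat_lit 284) (nat_lit 132)))) (XT.nd (nat_lit 78) (nat_lit 380) (nat_lit 0) (XT.lf (nat_lit 0) (nat_lit 17168051183) (nat_lit 532) (nat_lit 39389069056) (nat_lit 76) (nat_lit 6697161202) (nat_lit 86) (nat_lit 5) (nat_lit 93) (nat_lit 5) (nat_lit 87) (nat_lit 5) (nat_lit 305) (nat_lit 284) (nat_lit 131)) (XT.nd (nat_lit 78) (nat_lit 0) (nat_lit 0) (XT.lf (nat_lit 0) (nat_lit 4437155874) (nat_lit 380) (nat_lit 23743245720) (nat_lit 456) (nat_lit 37089712250) (nat_lit 81) (nat_lit 5) (nat_lit 86) (nat_lit 5) (nat_lit 87) (nat_lit 5) (nat_lit 306) (nat_lit 284) (nat_lit 130)) (XT.lf (nat_lit 0) (nat_lit 40253782426) (nat_lit 456) (nat_lit 16206149280) (nat_lit 76) (nat_lit 10911498298) (nat_lit 81) (nat_lit 5) (nat_lit 87) (nat_lit 5) (nat_lit 82) (nat_lit 5) (nat_lit 307) (nat_lit 284) (nat_lit 129)))))) (XT.nd (nat_lit 390) (nat_lit 912) (nat_lit 0) (XT.nd (nat_lit 156) (nat_lit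 760) (nat_lit 0) (XT.nd (nat_lit 78) (nat_lit 304) (nat_lit 0) (XT.lf (nat_lit 0) (nat_lit 31015282887) (nat_lit 380) (nat_lit 22451389611) (nat_lit 456) (nat_lit 16095068575) (nat_lit 76) (nat_lit 5) (nat_lit 81) (nat_lit 5) (nat_lit 82) (nat_lit 5) (nat_lit 308) (nat_lit 284) (nat_lit 128)) (XT.lf (nat_lit 0) (nat_lit 9126604100) (nat_lit 304) (nat_lit 58595377004) (nat_lit 380) (nat_lit 4128137471) (nat_lit 72) (nat_lit 5) (nat_lit 76) (nat_lit 5) (nat_lit 77) (nat_lit 5) (nat_lit 309) (nat_lit 284) (nat_lit 127))) (XT.nd (nat_lit 78) (nat_lit 684) (nat_lit 0) (XT.lf (nat_lit 0) (nat_lit 8898009113) (nat_lit 380) (nat_lit 14566079354) (nat_lit 76) (nat_lit 50767631954) (nat_lit 71) (nat_lit 5) (nat_lit 76) (nat_lit 5) (nat_lit 72) (nat_lit 5) (nat_lit 310) (nat_lit 284) (nat_lit 126)) (XT.nd (nat_lit 78) (nat_lit 304) (nat_lit 0) (XT.lf (nat_lit 0) (nat_lit 22974577941) (nat_lit 456)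 (nat_lit 40182574023) (nat_lit 76) (nat_lit 13559493095) (nat_lit 66) (nat_lit 5) (nat_lit 72) (nat_lit 5) (nat_lit 67) (nat_lit 5) (nat_lit 311) (nat_lit 284) (nat_lit 125)) (XT.lf (nat_lit 0) (nat_lit 11149414059) (nat_lit 304) (nat_lit 27099310649) (nat_lit 380) (nat_lit 41062282176) (nat_lit 62) (nat_lit 5) (nat_lit 66) (nat_lit 5) (nat_lit 67) (nat_lit 5) (nat_lit 312) (nat_lit 284) (nat_lit 124))))) (XT.nd (nat_lit 234) (nat_lit 304) (nat_lit 0) (XT.nd (nat_lit 78) (nat_lit 608) (nat_lit 0) (XT.lf (nat_lit 0) (nat_lit 54806135936) (nat_lit 380) (nat_lit 16244642962) (nat_lit 76) (nat_lit 10968724465) (nat_lit 62) (nat_lit 5) (nat_lit 67) (nat_lit 5) (nat_lit 63) (nat_lit 5) (nat_lit 313) (nat_lit 284) (nat_lit 123)) (XT.nd (nat_lit 78) (nat_lit 304) (nat_lit 0) (XT.lf (nat_lit 0) (nat_lit 38748739306) (nat_lit 304) (nat_lit 34087124545) (nat_lit 380) (nat_lit 12008230551) (nat_lit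 58) (nat_lit 5) (nat_lit 62) (nat_lit 5) (nat_lit 63) (nat_lit 5) (nat_lit 314) (nat_lit 284) (nat_lit 122)) (XT.lf (nat_lit 0) (nat_lit 4183729419) (nat_lit 304) (nat_lit 78685968049) (nat_lit 76) (nat_lit 4929965709) (nat_lit 54) (nat_lit 5) (nat_lit 58) (nat_lit 5) (nat_lit 55) (nat_lit 5) (nat_lit 315) (nat_lit 284) (nat_lit 121)))) (XT.nd (nat_lit 78) (nat_lit 304) (nat_lit 0) (XT.lf (nat_lit 0) (nat_lit 21761041747) (nat_lit 304) (nat_lit 23314251892) (nat_lit 76) (nat_lit 45799429609) (nat_lit 54) (nat_lit 5) (nat_lit 58) (nat_lit 5) (nat_lit 55) (nat_lit 5) (nat_lit 316) (nat_lit 284) (nat_lit 120)) (XT.nd (nat_lit 78) (nat_lit 0) (nat_lit 0) (XT.lf (nat_lit 0) (nat_lit 35517231251) (nat_lit 304) (nat_lit 5040007160) (nat_lit 380) (nat_lit 53536099967) (nat_lit 50) (nat_lit 5) (nat_lit 54) (nat_lit 5) (nat_lit 55) (nat_lit 5) (nat_lit 317) (nat_lit 284) (nat_lit 119)) (XT.lf (nat_lit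 0) (nat_lit 60889908469) (nat_lit 380) (nat_lit 48082871) (nat_lit 76) (nat_lit 36516995510) (nat_lit 50) (nat_lit 5) (nat_lit 55) (nat_lit 5) (nat_lit 51) (nat_lit 5) (nat_lit 318) (nat_lit 284) (nat_lit 118))))))))
noncomputable def xc118 : XT := (XT.nd (nat_lit 36348) (nat_lit 0) (nat_lit 304) (XT.nd (nat_lit 35490) (nat_lit 0) (nat_lit 4180) (XT.nd (nat_lit 35100) (nat_lit 0) (nat_lit 7524) (XT.nd (nat_lit 34866) (nat_lit 0) (nat_lit 7372) (XT.nd (nat_lit 78) (nat_lit 304) (nat_lit 0) (XT.lf (nat_lit 0) (nat_lit 62574748462) (nat_lit 228) (nat_lit 20315554112) (nat_lit 304) (nat_lit 18074884828) (nat_lit 47) (nat_lit 5) (nat_lit 50) (nat_lit 5) (nat_lit 51) (nat_lit 5) (nat_lit 319) (nat_lit 284) (nat_lit 117)) (XT.lf (nat_lit 0) (nat_lit 1762070664) (nat_lit 304) (nat_lit 80725563678) (nat_lit 76) (nat_lit 22149427553) (nat_lit 43) (nat_lit 5) (nat_lit 47) (nat_lit 5) (nat_lit 44) (nat_lit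 5) (nat_lit 320) (nat_lit 284) (nat_lit 116))) (XT.nd (nat_lit 78) (nat_lit 0) (nat_lit 0) (XT.lf (nat_lit 0) (nat_lit 8134800496) (nat_lit 1140) (nat_lit 5192520985) (nat_lit 1140) (nat_lit 5192520985) (nat_lit 140) (nat_lit 3) (nat_lit 155) (nat_lit 3) (nat_lit 155) (nat_lit 5) (nat_lit 285) (nat_lit 285) (nat_lit 150)) (XT.nd (nat_lit 78) (nat_lit 0) (nat_lit 76) (XT.lf (nat_lit 76) (nat_lit 15077662020) (nat_lit 0) (nat_lit 1814029172) (nat_lit 1140) (nat_lit 21067335940) (nat_lit 141) (nat_lit 5) (nat_lit 140) (nat_lit 3) (nat_lit 155) (nat_lit 5) (nat_lit 286) (nat_lit 285) (nat_lit 149)) (XT.lf (nat_lit 76) (nat_lit 2929671492) (nat_lit 0) (nat_lit 14980114796) (nat_lit 1140) (nat_lit 21003615267) (nat_lit 142) (nat_lit 5) (nat_lit 141) (nat_lit 5) (nat_lit 156) (nat_lit 5) (nat_lit 287) (nat_lit 285) (nat_lit 148))))) (XT.nd (nat_lit 156) (nat_lit 0) (nat_lit 76) (XT.nd (nat_lit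 78) (nat_lit 0) (nat_lit 0) (XT.lf (nat_lit 0) (nat_lit 19336380287) (nat_lit 1064) (nat_lit 9527995094) (nat_lit 1140) (nat_lit 11040403041) (nat_lit 142) (nat_lit 5) (nat_lit 156) (nat_lit 5) (nat_lit 157) (nat_lit 5) (nat_lit 288) (nat_lit 285) (nat_lit 147)) (XT.lf (nat_lit 76) (nat_lit 18456987714) (nat_lit 0) (nat_lit 2701838132) (nat_lit 1140) (nat_lit 19777173630) (nat_lit 143) (nat_lit 5) (nat_lit 142) (nat_lit 5) (nat_lit 157) (nat_lit 5) (nat_lit 289) (nat_lit 285) (nat_lit 146))) (XT.nd (nat_lit 78) (nat_lit 0) (nat_lit 76) (XT.lf (nat_lit 76) (nat_lit 5897939361) (nat_lit 0) (nat_lit 17564385541) (nat_lit 1140) (nat_lit 18544769218) (nat_lit 144) (nat_lit 5) (nat_lit 143) (nat_lit 5) (nat_lit 158) (nat_lit 5) (nat_lit 290) (nat_lit 285) (nat_lit 145)) (XT.nd (nat_lit 78) (nat_lit 0) (nat_lit 0) (XT.lf (nat_lit 0) (nat_lit 26231757921) (nat_lit 1064) (nat_lit 7087046056) (nat_lit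 1140) (nat_lit 9802426723) (nat_lit 144) (nat_lit 5) (nat_lit 158) (nat_lit 5) (nat_lit 159) (nat_lit 5) (nat_lit 291) (nat_lit 285) (nat_lit 144)) (XT.lf (nat_lit 76) (nat_lit 23668229656) (nat_lit 0) (nat_lit 5872670168) (nat_lit 1140) (nat_lit 14738146668) (nat_lit 145) (nat_lit 5) (nat_lit 144) (nat_lit 5) (nat_lit 159) (nat_lit 5) (nat_lit 292) (nat_lit 285) (nat_lit 143)))))) (XT.nd (nat_lit 390) (nat_lit 1976) (nat_lit 0) (XT.nd (nat_lit 156) (nat_lit 1596) (nat_lit 0) (XT.nd (nat_lit 78) (nat_lit 0) (nat_lit 76) (XT.lf (nat_lit 76) (nat_lit 10599794116) (nat_lit 0) (nat_lit 22808439898) (nat_lit 1140) (nat_lit 12074746054) (nat_lit 146) (nat_lit 5) (nat_lit 145) (nat_lit 5) (nat_lit 160) (nat_lit 5) (nat_lit 293) (nat_lit 285) (nat_lit 142)) (XT.lf (nat_lit 0) (nat_lit 37794230397) (nat_lit 1064) (nat_lit 3058085127) (nat_lit 1140) (nat_lit 5885044551) (nat_lit 146) (nat_lit 5) (nat_lit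 160) (nat_lit 5) (nat_lit 161) (nat_lit 5) (nat_lit 294) (nat_lit 285) (nat_lit 141))) (XT.nd (nat_lit 78) (nat_lit 1672) (nat_lit 0) (XT.lf (nat_lit 76) (nat_lit 30725142786) (nat_lit 0) (nat_lit 12196842006) (nat_lit 1140) (nat_lit 5116808749) (nat_lit 147) (nat_lit 5) (nat_lit 146) (nat_lit 5) (nat_lit 161) (nat_lit 5) (nat_lit 295) (nat_lit 285) (nat_lit 140)) (XT.nd (nat_lit 78) (nat_lit 684) (nat_lit 0) (XT.lf (nat_lit 0) (nat_lit 17014291356) (nat_lit 1064) (nat_lit 31656190753) (nat_lit 1140) (nat_lit 723893733) (nat_lit 133) (nat_lit 5) (nat_lit 147) (nat_lit 5) (nat_lit 148) (nat_lit 5) (nat_lit 296) (nat_lit 285) (nat_lit 139)) (XT.lf (nat_lit 0) (nat_lit 2491920725) (nat_lit 608) (nat_lit 1645028224) (nat_lit 684) (nat_lit 46669949215) (nat_lit 124) (nat_lit 5) (nat_lit 132) (nat_lit 5) (nat_lit 133) (nat_lit 5) (nat_lit 297) (nat_lit 285) (nat_lit 138))))) (XT.nd (nat_lit 234)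 (nat_lit 912) (nat_lit 0) (XT.nd (nat_lit 78) (nat_lit 1064) (nat_lit 0) (XT.lf (nat_lit 0) (nat_lit 9846951707) (nat_lit 684) (nat_lit 12796097158) (nat_lit 76) (nat_lit 29628156925) (nat_lit 124) (nat_lit 5) (nat_lit 133) (nat_lit 5) (nat_lit 125) (nat_lit 5) (nat_lit 298) (nat_lit 285) (nat_lit 137)) (XT.nd (nat_lit 78) (nat_lit 532) (nat_lit 0) (XT.lf (nat_lit 0) (nat_lit 16181684647) (nat_lit 608) (nat_lit 28919468609) (nat_lit 76) (nat_lit 8697405195) (nat_lit 117) (nat_lit 5) (nat_lit 125) (nat_lit 5) (nat_lit 118) (nat_lit 5) (nat_lit 299) (nat_lit 285) (nat_lit 136)) (XT.lf (nat_lit 0) (nat_lit 9255454435) (nat_lit 532) (nat_lit 14025705055) (nat_lit 608) (nat_lit 32107685342) (nat_lit 110) (nat_lit 5) (nat_lit 117) (nat_lit 5) (nat_lit 118) (nat_lit 5) (nat_lit 300) (nat_lit 285) (nat_lit 135)))) (XT.nd (nat_lit 78) (nat_lit 912) (nat_lit 0) (XT.lf (nat_lit 0) (nat_lit 31212649012)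 (nat_lit 608) (nat_lit 7290462370) (nat_lit 76) (nat_lit 18541228867) (nat_lit 110) (nat_lit 5) (nat_lit 118) (nat_lit 5) (nat_lit 111) (nat_lit 5) (nat_lit 301) (nat_lit 285) (nat_lit 134)) (XT.nd (nat_lit 78) (nat_lit 456) (nat_lit 0) (XT.lf (nat_lit 0) (nat_lit 34014480417) (nat_lit 456) (nat_lit 5992446020) (nat_lit 532) (nat_lit 18761703259) (nat_lit 104) (nat_lit 5) (nat_lit 110) (nat_lit 5) (nat_lit 111) (nat_lit 5) (nat_lit 302) (nat_lit 285) (nat_lit 133)) (XT.lf (nat_lit 0) (nat_lit 17018636562) (nat_lit 456) (nat_lit 32729970932) (nat_lit 532) (nat_lit 10815300822) (nat_lit 98) (nat_lit 5) (nat_lit 104) (nat_lit 5) (nat_lit 105) (nat_lit 5) (nat_lit 303) (nat_lit 285) (nat_lit 132))))))) (XT.nd (nat_lit 858) (nat_lit 1140) (nat_lit 0) (XT.nd (nat_lit 390) (nat_lit 1444) (nat_lit 0) (XT.nd (nat_lit 156) (nat_lit 836) (nat_lit 0) (XT.nd (nat_lit 78) (nat_lit 456) (nat_lit 0) (XT.lf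 (nat_lit 0) (nat_lit 60299969366) (nat_lit 532) (nat_lit 1116197144) (nat_lit 76) (nat_lit 1023111590) (nat_lit 98) (nat_lit 5) (nat_lit 105) (nat_lit 5) (nat_lit 99) (nat_lit 5) (nat_lit 304) (nat_lit 285) (nat_lit 131)) (XT.lf (nat_lit 0) (nat_lit 7592766348) (nat_lit 456) (nat_lit 20500753878) (nat_lit 76) (nat_lit 36290141681) (nat_lit 92) (nat_lit 5) (nat_lit 98) (nat_lit 5) (nat_lit 93) (nat_lit 5) (nat_lit 305) (nat_lit 285) (nat_lit 130))) (XT.nd (nat_lit 78) (nat_lit 380) (nat_lit 0) (XT.lf (nat_lit 0) (nat_lit 18088450937) (nat_lit 532) (nat_lit 41287888783) (nat_lit 76) (nat_lit 7038656771) (nat_lit 86) (nat_lit 5) (nat_lit 93) (nat_lit 5) (nat_lit 87) (nat_lit 5) (nat_lit 306) (nat_lit 285) (nat_lit 129)) (XT.nd (nat_lit 78) (nat_lit 0) (nat_lit 0) (XT.lf (nat_lit 0) (nat_lit 4727622692) (nat_lit 380) (nat_lit 24921503441) (nat_lit 456) (nat_lit 38882569788) (nat_lit 81) (nat_lit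 5) (nat_lit 86) (nat_lit 5) (nat_lit 87) (nat_lit 5) (nat_lit 307) (nat_lit 285) (nat_lit 128)) (XT.lf (nat_lit 0) (nat_lit 42323414457) (nat_lit 456) (nat_lit 16949364321) (nat_lit 76) (nat_lit 11465388265) (nat_lit 81) (nat_lit 5) (nat_lit 87) (nat_lit 5) (nat_lit 82) (nat_lit 5) (nat_lit 308) (nat_lit 285) (nat_lit 127))))) (XT.nd (nat_lit 234) (nat_lit 684) (nat_lit 0) (XT.nd (nat_lit 78) (nat_lit 380) (nat_lit 0) (XT.lf (nat_lit 0) (nat_lit 32631216263) (nat_lit 380) (nat_lit 23563647648) (nat_lit 456) (nat_lit 16843198316) (nat_lit 76) (nat_lit 5) (nat_lit 81) (nat_lit 5) (nat_lit 82) (nat_lit 5) (nat_lit 309) (nat_lit 285) (nat_lit 126)) (XT.nd (nat_lit 78) (nat_lit 76) (nat_lit 0) (XT.lf (nat_lit 0) (nat_lit 9647854475) (nat_lit 304) (nat_lit 61513189650) (nat_lit 380) (nat_lit 4279877017) (nat_lit 72) (nat_lit 5) (nat_lit 76) (nat_lit 5) (nat_lit 77) (nat_lit 5) (nat_lit 310) (nat_lit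 285) (nat_lit 125)) (XT.lf (nat_lit 0) (nat_lit 9393957732) (nat_lit 380) (nat_lit 15231432811) (nat_lit 76) (nat_lit 53316278635) (nat_lit 71) (nat_lit 5) (nat_lit 76) (nat_lit 5) (nat_lit 72) (nat_lit 5) (nat_lit 311) (nat_lit 285) (nat_lit 124)))) (XT.nd (nat_lit 78) (nat_lit 304) (nat_lit 0) (XT.lf (nat_lit 0) (nat_lit 24172626693) (nat_lit 456) (nat_lit 42129094529) (nat_lit 76) (nat_lit 14249175714) (nat_lit 66) (nat_lit 5) (nat_lit 72) (nat_lit 5) (nat_lit 67) (nat_lit 5) (nat_lit 312) (nat_lit 285) (nat_lit 123)) (XT.nd (nat_lit 78) (nat_lit 0) (nat_lit 0) (XT.lf (nat_lit 0) (nat_lit 11767698306) (nat_lit 304) (nat_lit 28441018505) (nat_lit 380) (nat_lit 43066317760) (nat_lit 62) (nat_lit 5) (nat_lit 66) (nat_lit 5) (nat_lit 67) (nat_lit 5) (nat_lit 313) (nat_lit 285) (nat_lit 122)) (XT.lf (nat_lit 0) (nat_lit 57591855408) (nat_lit 380) (nat_lit 16997628672) (nat_lit 76) (nat_lit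 11529540660) (nat_lit 62) (nat_lit 5) (nat_lit 67) (nat_lit 5) (nat_lit 63) (nat_lit 5) (nat_lit 314) (nat_lit 285) (nat_lit 121)))))) (XT.nd (nat_lit 390) (nat_lit 0) (nat_lit 0) (XT.nd (nat_lit 156) (nat_lit 532) (nat_lit 0) (XT.nd (nat_lit 78) (nat_lit 304) (nat_lit 0) (XT.lf (nat_lit 0) (nat_lit 40743724422) (nat_lit 304) (nat_lit 35777735976) (nat_lit 380) (nat_lit 12563437566) (nat_lit 58) (nat_lit 5) (nat_lit 62) (nat_lit 5) (nat_lit 63) (nat_lit 5) (nat_lit 315) (nat_lit 285) (nat_lit 120)) (XT.lf (nat_lit 0) (nat_lit 4435809404) (nat_lit 304) (nat_lit 82562201087) (nat_lit 76) (nat_lit 5190268543) (nat_lit 54) (nat_lit 5) (nat_lit 58) (nat_lit 5) (nat_lit 55) (nat_lit 5) (nat_lit 316) (nat_lit 285) (nat_lit 119))) (XT.nd (nat_lit 78) (nat_lit 532) (nat_lit 0) (XT.lf (nat_lit 0) (nat_lit 22889944800) (nat_lit 304) (nat_lit 24424664140) (nat_lit 76) (nat_lit 48102548278) (nat_lit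 54) (nat_lit 5) (nat_lit 58) (nat_lit 5) (nat_lit 55) (nat_lit 5) (nat_lit 317) (nat_lit 285) (nat_lit 118)) (XT.nd (nat_lit 78) (nat_lit 228) (nat_lit 0) (XT.lf (nat_lit 0) (nat_lit 37346807987) (nat_lit 304) (nat_lit 5277714369) (nat_lit 380) (nat_lit 56172227267) (nat_lit 50) (nat_lit 5) (nat_lit 54) (nat_lit 5) (nat_lit 55) (nat_lit 5) (nat_lit 318) (nat_lit 285) (nat_lit 117)) (XT.lf (nat_lit 0) (nat_lit 1769857) (nat_lit 228) (nat_lit 63970326685) (nat_lit 304) (nat_lit 38354439334) (nat_lit 47) (nat_lit 5) (nat_lit 50) (nat_lit 5) (nat_lit 51) (nat_lit 5) (nat_lit 319) (nat_lit 285) (nat_lit 116))))) (XT.nd (nat_lit 35022) (nat_lit 0) (nat_lit 7144) (XT.nd (nat_lit 34866) (nat_lit 0) (nat_lit 7068) (XT.lf (nat_lit 0) (nat_lit 65754211279) (nat_lit 228) (nat_lit 21316975587) (nat_lit 304) (nat_lit 18941102607) (nat_lit 47) (nat_lit 5) (nat_lit 50) (nat_lit 5) (nat_lit 51) (nat_lit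 5) (nat_lit 320) (nat_lit 285) (nat_lit 115)) (XT.nd (nat_lit 78) (nat_lit 0) (nat_lit 0) (XT.lf (nat_lit 0) (nat_lit 8610855618) (nat_lit 1140) (nat_lit 5416356528) (nat_lit 1140) (nat_lit 5416356528) (nat_lit 140) (nat_lit 3) (nat_lit 155) (nat_lit 3) (nat_lit 155) (nat_lit 5) (nat_lit 286) (nat_lit 286) (nat_lit 148)) (XT.lf (nat_lit 76) (nat_lit 15901074277) (nat_lit 0) (nat_lit 1967898588) (nat_lit 1140) (nat_lit 21983669546) (nat_lit 141) (nat_lit 5) (nat_lit 140) (nat_lit 3) (nat_lit 155) (nat_lit 5) (nat_lit 287) (nat_lit 286) (nat_lit 147)))) (XT.nd (nat_lit 78) (nat_lit 0) (nat_lit 76) (XT.lf (nat_lit 76) (nat_lit 3148492771) (nat_lit 0) (nat_lit 15783278095) (nat_lit 1140) (nat_lit 21923167658) (nat_lit 142) (nat_lit 5) (nat_lit 141) (nat_lit 5) (nat_lit 156) (nat_lit 5) (nat_lit 288) (nat_lit 286) (nat_lit 146)) (XT.nd (nat_lit 78) (nat_lit 0) (nat_lit 0) (XT.lf (nat_lit 0) (nat_lit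 20423175176) (nat_lit 1064) (nat_lit 9931069697) (nat_lit 1140) (nat_lit 11541851051) (nat_lit 142) (nat_lit 5) (nat_lit 156) (nat_lit 5) (nat_lit 157) (nat_lit 5) (nat_lit 289) (nat_lit 286) (nat_lit 145)) (XT.lf (nat_lit 76) (nat_lit 19451060401) (nat_lit 0) (nat_lit 2880654117) (nat_lit 1140) (nat_lit 20647329707) (nat_lit 143) (nat_lit 5) (nat_lit 142) (nat_lit 5) (nat_lit 157) (nat_lit 5) (nat_lit 290) (nat_lit 286) (nat_lit 144))))))))
noncomputable def xc119 : XT := (XT.nd (nat_lit 1638) (nat_lit 1672) (nat_lit 0) (XT.nd (nat_lit 780) (nat_lit 3420) (nat_lit 0) (XT.nd (nat_lit 390) (nat_lit 1976) (nat_lit 0) (XT.nd (nat_lit 156) (nat_lit 0) (nat_lit 76) (XT.nd (nat_lit 78) (nat_lit 0) (nat_lit 76) (XT.lf (nat_lit 76) (nat_lit 6266073865) (nat_lit 0) (nat_lit 18479144691) (nat_lit 1140) (nat_lit 19358644752) (nat_lit 144) (nat_lit 5) (nat_lit 143) (nat_lit 5) (nat_lit 158) (nat_lit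 5) (nat_lit 291) (nat_lit 286) (nat_lit 143)) (XT.lf (nat_lit 0) (nat_lit 27647561214) (nat_lit 1064) (nat_lit 7367899029) (nat_lit 1140) (nat_lit 10258427250) (nat_lit 144) (nat_lit 5) (nat_lit 158) (nat_lit 5) (nat_lit 159) (nat_lit 5) (nat_lit 292) (nat_lit 286) (nat_lit 142))) (XT.nd (nat_lit 78) (nat_lit 0) (nat_lit 76) (XT.lf (nat_lit 76) (nat_lit 24923033626) (nat_lit 0) (nat_lit 6194850217) (nat_lit 1140) (nat_lit 15371851775) (nat_lit 145) (nat_lit 5) (nat_lit 144) (nat_lit 5) (nat_lit 159) (nat_lit 5) (nat_lit 293) (nat_lit 286) (nat_lit 141)) (XT.nd (nat_lit 78) (nat_lit 0) (nat_lit 76) (XT.lf (nat_lit 76) (nat_lit 11202566059) (nat_lit 0) (nat_lit 23971697969) (nat_lit 1140) (nat_lit 12579744085) (nat_lit 146) (nat_lit 5) (nat_lit 145) (nat_lit 5) (nat_lit 160) (nat_lit 5) (nat_lit 294) (nat_lit 286) (nat_lit 140)) (XT.lf (nat_lit 0) (nat_lit 39774797916) (nat_lit 1064) (nat_lit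 3138491565) (nat_lit 1140) (nat_lit 6157972528) (nat_lit 146) (nat_lit 5) (nat_lit 160) (nat_lit 5) (nat_lit 161) (nat_lit 5) (nat_lit 295) (nat_lit 286) (nat_lit 139))))) (XT.nd (nat_lit 156) (nat_lit 1216) (nat_lit 0) (XT.nd (nat_lit 78) (nat_lit 988) (nat_lit 0) (XT.lf (nat_lit 76) (nat_lit 32331819608) (nat_lit 0) (nat_lit 12823470864) (nat_lit 1140) (nat_lit 5282597612) (nat_lit 147) (nat_lit 5) (nat_lit 146) (nat_lit 5) (nat_lit 161) (nat_lit 5) (nat_lit 296) (nat_lit 286) (nat_lit 138)) (XT.lf (nat_lit 0) (nat_lit 17936327359) (nat_lit 1064) (nat_lit 33251264513) (nat_lit 1140) (nat_lit 673777153) (nat_lit 133) (nat_lit 5) (nat_lit 147) (nat_lit 5) (nat_lit 148) (nat_lit 5) (nat_lit 297) (nat_lit 286) (nat_lit 137))) (XT.nd (nat_lit 78) (nat_lit 532) (nat_lit 0) (XT.lf (nat_lit 0) (nat_lit 2687635369) (nat_lit 608) (nat_lit 1737441828) (nat_lit 684) (nat_lit 48919525842) (nat_lit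 124) (nat_lit 5) (nat_lit 132) (nat_lit 5) (nat_lit 133) (nat_lit 5) (nat_lit 298) (nat_lit 286) (nat_lit 136)) (XT.nd (nat_lit 78) (nat_lit 532) (nat_lit 0) (XT.lf (nat_lit 0) (nat_lit 10416616545) (nat_lit 684) (nat_lit 13365562659) (nat_lit 76) (nat_lit 31100075351) (nat_lit 124) (nat_lit 5) (nat_lit 133) (nat_lit 5) (nat_lit 125) (nat_lit 5) (nat_lit 299) (nat_lit 286) (nat_lit 135)) (XT.lf (nat_lit 0) (nat_lit 17065003742) (nat_lit 608) (nat_lit 30294649935) (nat_lit 76) (nat_lit 9126422786) (nat_lit 117) (nat_lit 5) (nat_lit 125) (nat_lit 5) (nat_lit 118) (nat_lit 5) (nat_lit 300) (nat_lit 286) (nat_lit 134)))))) (XT.nd (nat_lit 390) (nat_lit 1976) (nat_lit 0) (XT.nd (nat_lit 156) (nat_lit 912) (nat_lit 0) (XT.nd (nat_lit 78) (nat_lit 0) (nat_lit 0) (XT.lf (nat_lit 0) (nat_lit 9786990021) (nat_lit 532) (nat_lit 14729588304) (nat_lit 608) (nat_lit 33639393767) (nat_lit 110) (nat_lit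 5) (nat_lit 117) (nat_lit 5) (nat_lit 118) (nat_lit 5) (nat_lit 301) (nat_lit 286) (nat_lit 133)) (XT.lf (nat_lit 0) (nat_lit 32841220402) (nat_lit 608) (nat_lit 7587268518) (nat_lit 76) (nat_lit 19465864310) (nat_lit 110) (nat_lit 5) (nat_lit 118) (nat_lit 5) (nat_lit 111) (nat_lit 5) (nat_lit 302) (nat_lit 286) (nat_lit 132))) (XT.nd (nat_lit 78) (nat_lit 456) (nat_lit 0) (XT.lf (nat_lit 0) (nat_lit 35780980316) (nat_lit 456) (nat_lit 6291628473) (nat_lit 532) (nat_lit 19632334346) (nat_lit 104) (nat_lit 5) (nat_lit 110) (nat_lit 5) (nat_lit 111) (nat_lit 5) (nat_lit 303) (nat_lit 286) (nat_lit 131)) (XT.nd (nat_lit 78) (nat_lit 0) (nat_lit 0) (XT.lf (nat_lit 0) (nat_lit 17935512041) (nat_lit 456) (nat_lit 34363388535) (nat_lit 532) (nat_lit 11291166831) (nat_lit 98) (nat_lit 5) (nat_lit 104) (nat_lit 5) (nat_lit 105) (nat_lit 5) (nat_lit 304) (nat_lit 286) (nat_lit 130)) (XT.lf (nat_lit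 0) (nat_lit 63374865285) (nat_lit 532) (nat_lit 1107292372) (nat_lit 76) (nat_lit 1077144145) (nat_lit 98) (nat_lit 5) (nat_lit 105) (nat_lit 5) (nat_lit 99) (nat_lit 5) (nat_lit 305) (nat_lit 286) (nat_lit 129))))) (XT.nd (nat_lit 234) (nat_lit 684) (nat_lit 0) (XT.nd (nat_lit 78) (nat_lit 836) (nat_lit 0) (XT.lf (nat_lit 0) (nat_lit 8030758683) (nat_lit 456) (nat_lit 21461638133) (nat_lit 76) (nat_lit 38108565084) (nat_lit 92) (nat_lit 5) (nat_lit 98) (nat_lit 5) (nat_lit 93) (nat_lit 5) (nat_lit 306) (nat_lit 286) (nat_lit 128)) (XT.nd (nat_lit 78) (nat_lit 380) (nat_lit 0) (XT.lf (nat_lit 0) (nat_lit 19049106767) (nat_lit 532) (nat_lit 43288216351) (nat_lit 76) (nat_lit 7396610026) (nat_lit 86) (nat_lit 5) (nat_lit 93) (nat_lit 5) (nat_lit 87) (nat_lit 5) (nat_lit 307) (nat_lit 286) (nat_lit 127)) (XT.lf (nat_lit 0) (nat_lit 5026234233) (nat_lit 380) (nat_lit 26159501910) (nat_lit 456)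 (nat_lit 40770799797) (nat_lit 81) (nat_lit 5) (nat_lit 86) (nat_lit 5) (nat_lit 87) (nat_lit 5) (nat_lit 308) (nat_lit 286) (nat_lit 126)))) (XT.nd (nat_lit 78) (nat_lit 684) (nat_lit 0) (XT.lf (nat_lit 0) (nat_lit 44491234077) (nat_lit 456) (nat_lit 17735977732) (nat_lit 76) (nat_lit 12046199676) (nat_lit 81) (nat_lit 5) (nat_lit 87) (nat_lit 5) (nat_lit 82) (nat_lit 5) (nat_lit 309) (nat_lit 286) (nat_lit 125)) (XT.nd (nat_lit 78) (nat_lit 304) (nat_lit 0) (XT.lf (nat_lit 0) (nat_lit 34321887490) (nat_lit 380) (nat_lit 24732477248) (nat_lit 456) (nat_lit 17633998877) (nat_lit 76) (nat_lit 5) (nat_lit 81) (nat_lit 5) (nat_lit 82) (nat_lit 5) (nat_lit 310) (nat_lit 286) (nat_lit 124)) (XT.lf (nat_lit 0) (nat_lit 10189131706) (nat_lit 304) (nat_lit 64578004503) (nat_lit 380) (nat_lit 4444285990) (nat_lit 72) (nat_lit 5) (nat_lit 76) (nat_lit 5) (nat_lit 77) (nat_lit 5) (nat_lit 311) (nat_lit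 286) (nat_lit 123))))))) (XT.nd (nat_lit 35802) (nat_lit 0) (nat_lit 5624) (XT.nd (nat_lit 390) (nat_lit 608) (nat_lit 0) (XT.nd (nat_lit 156) (nat_lit 608) (nat_lit 0) (XT.nd (nat_lit 78) (nat_lit 380) (nat_lit 0) (XT.lf (nat_lit 0) (nat_lit 9909957807) (nat_lit 380) (nat_lit 15935906483) (nat_lit 76) (nat_lit 55991403300) (nat_lit 71) (nat_lit 5) (nat_lit 76) (nat_lit 5) (nat_lit 72) (nat_lit 5) (nat_lit 312) (nat_lit 286) (nat_lit 122)) (XT.lf (nat_lit 0) (nat_lit 25425992590) (nat_lit 456) (nat_lit 44178761777) (nat_lit 76) (nat_lit 14972253968) (nat_lit 66) (nat_lit 5) (nat_lit 72) (nat_lit 5) (nat_lit 67) (nat_lit 5) (nat_lit 313) (nat_lit 286) (nat_lit 121))) (XT.nd (nat_lit 78) (nat_lit 304) (nat_lit 0) (XT.lf (nat_lit 0) (nat_lit 12411242898) (nat_lit 304) (nat_lit 29851044328) (nat_lit 380) (nat_lit 45175117979) (nat_lit 62) (nat_lit 5) (nat_lit 66) (nat_lit 5) (nat_lit 67) (nat_lit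 5) (nat_lit 314) (nat_lit 286) (nat_lit 120)) (XT.nd (nat_lit 78) (nat_lit 304) (nat_lit 0) (XT.lf (nat_lit 0) (nat_lit 60512638813) (nat_lit 380) (nat_lit 17793771841) (nat_lit 76) (nat_lit 12117246693) (nat_lit 62) (nat_lit 5) (nat_lit 67) (nat_lit 5) (nat_lit 63) (nat_lit 5) (nat_lit 315) (nat_lit 286) (nat_lit 119)) (XT.lf (nat_lit 0) (nat_lit 42833108512) (nat_lit 304) (nat_lit 37554155840) (nat_lit 380) (nat_lit 13150607619) (nat_lit 58) (nat_lit 5) (nat_lit 62) (nat_lit 5) (nat_lit 63) (nat_lit 5) (nat_lit 316) (nat_lit 286) (nat_lit 118))))) (XT.nd (nat_lit 35178) (nat_lit 0) (nat_lit 6840) (XT.nd (nat_lit 78) (nat_lit 304) (nat_lit 0) (XT.lf (nat_lit 0) (nat_lit 4696505556) (nat_lit 304) (nat_lit 86637644144) (nat_lit 76) (nat_lit 5462303102) (nat_lit 54) (nat_lit 5) (nat_lit 58) (nat_lit 5) (nat_lit 55) (nat_lit 5) (nat_lit 317) (nat_lit 286) (nat_lit 117)) (XT.nd (nat_lit 78)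 (nat_lit 304) (nat_lit 0) (XT.lf (nat_lit 0) (nat_lit 24071495070) (nat_lit 304) (nat_lit 25595738302) (nat_lit 76) (nat_lit 50519600579) (nat_lit 54) (nat_lit 5) (nat_lit 58) (nat_lit 5) (nat_lit 55) (nat_lit 5) (nat_lit 318) (nat_lit 286) (nat_lit 116)) (XT.lf (nat_lit 0) (nat_lit 39262869632) (nat_lit 304) (nat_lit 5528635780) (nat_lit 380) (nat_lit 58943942758) (nat_lit 50) (nat_lit 5) (nat_lit 54) (nat_lit 5) (nat_lit 55) (nat_lit 5) (nat_lit 319) (nat_lit 286) (nat_lit 115)))) (XT.nd (nat_lit 78) (nat_lit 0) (nat_lit 0) (XT.lf (nat_lit 0) (nat_lit 9104269235) (nat_lit 1140) (nat_lit 5654711311) (nat_lit 1140) (nat_lit 5654711311) (nat_lit 140) (nat_lit 3) (nat_lit 155) (nat_lit 3) (nat_lit 155) (nat_lit 5) (nat_lit 287) (nat_lit 287) (nat_lit 146)) (XT.nd (nat_lit 78) (nat_lit 0) (nat_lit 76) (XT.lf (nat_lit 76) (nat_lit 16759192985) (nat_lit 0) (nat_lit 2123588717) (nat_lit 1140)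 (nat_lit 22958559880) (nat_lit 141) (nat_lit 5) (nat_lit 140) (nat_lit 3) (nat_lit 155) (nat_lit 5) (nat_lit 288) (nat_lit 287) (nat_lit 145)) (XT.lf (nat_lit 76) (nat_lit 3371529840) (nat_lit 0) (nat_lit 16621564502) (nat_lit 1140) (nat_lit 22900842256) (nat_lit 142) (nat_lit 5) (nat_lit 141) (nat_lit 5) (nat_lit 156) (nat_lit 5) (nat_lit 289) (nat_lit 287) (nat_lit 144)))))) (XT.nd (nat_lit 390) (nat_lit 1368) (nat_lit 0) (XT.nd (nat_lit 156) (nat_lit 0) (nat_lit 76) (XT.nd (nat_lit 78) (nat_lit 0) (nat_lit 0) (XT.lf (nat_lit 0) (nat_lit 21553155589) (nat_lit 1064) (nat_lit 10361115108) (nat_lit 1140) (nat_lit 12073073179) (nat_lit 142) (nat_lit 5) (nat_lit 156) (nat_lit 5) (nat_lit 157) (nat_lit 5) (nat_lit 290) (nat_lit 287) (nat_lit 143)) (XT.lf (nat_lit 76) (nat_lit 20488215054) (nat_lit 0) (nat_lit 3064345851) (nat_lit 1140) (nat_lit 21572029431) (nat_lit 143) (nat_lit 5) (nat_lit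 142) (nat_lit 5) (nat_lit 157) (nat_lit 5) (nat_lit 291) (nat_lit 287) (nat_lit 142))) (XT.nd (nat_lit 78) (nat_lit 0) (nat_lit 76) (XT.lf (nat_lit 76) (nat_lit 6645806163) (nat_lit 0) (nat_lit 19436244668) (nat_lit 1140) (nat_lit 20223753474) (nat_lit 144) (nat_lit 5) (nat_lit 143) (nat_lit 5) (nat_lit 158) (nat_lit 5) (nat_lit 292) (nat_lit 287) (nat_lit 141)) (XT.nd (nat_lit 78) (nat_lit 0) (nat_lit 0) (XT.lf (nat_lit 0) (nat_lit 29124465712) (nat_lit 1064) (nat_lit 7669627921) (nat_lit 1140) (nat_lit 10740400033) (nat_lit 144) (nat_lit 5) (nat_lit 158) (nat_lit 5) (nat_lit 159) (nat_lit 5) (nat_lit 293) (nat_lit 287) (nat_lit 140)) (XT.lf (nat_lit 76) (nat_lit 26233940397) (nat_lit 0) (nat_lit 6530485282) (nat_lit 1140) (nat_lit 16046836903) (nat_lit 145) (nat_lit 5) (nat_lit 144) (nat_lit 5) (nat_lit 159) (nat_lit 5) (nat_lit 294) (nat_lit 287) (nat_lit 139))))) (XT.nd (nat_lit 234)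 (nat_lit 1596) (nat_lit 0) (XT.nd (nat_lit 78) (nat_lit 0) (nat_lit 76) (XT.lf (nat_lit 76) (nat_lit 11828709996) (nat_lit 0) (nat_lit 25190995862) (nat_lit 1140) (nat_lit 13119171860) (nat_lit 146) (nat_lit 5) (nat_lit 145) (nat_lit 5) (nat_lit 160) (nat_lit 5) (nat_lit 295) (nat_lit 287) (nat_lit 138)) (XT.nd (nat_lit 78) (nat_lit 0) (nat_lit 0) (XT.lf (nat_lit 0) (nat_lit 41845946881) (nat_lit 1064) (nat_lit 3229658486) (nat_lit 1140) (nat_lit 6446529431) (nat_lit 146) (nat_lit 5) (nat_lit 160) (nat_lit 5) (nat_lit 161) (nat_lit 5) (nat_lit 296) (nat_lit 287) (nat_lit 137)) (XT.lf (nat_lit 76) (nat_lit 34012283316) (nat_lit 0) (nat_lit 13479870491) (nat_lit 1140) (nat_lit 5465048060) (nat_lit 147) (nat_lit 5) (nat_lit 146) (nat_lit 5) (nat_lit 161) (nat_lit 5) (nat_lit 297) (nat_lit 287) (nat_lit 136)))) (XT.nd (nat_lit 78) (nat_lit 684) (nat_lit 0) (XT.lf (nat_lit 0) (nat_lit 18897834371)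 (nat_lit 1064) (nat_lit 34924951749) (nat_lit 1140) (nat_lit 629179148) (nat_lit 133) (nat_lit 5) (nat_lit 147) (nat_lit 5) (nat_lit 148) (nat_lit 5) (nat_lit 298) (nat_lit 287) (nat_lit 135)) (XT.nd (nat_lit 78) (nat_lit 0) (nat_lit 0) (XT.lf (nat_lit 0) (nat_lit 2886523810) (nat_lit 608) (nat_lit 1833531328) (nat_lit 684) (nat_lit 51289383465) (nat_lit 124) (nat_lit 5) (nat_lit 132) (nat_lit 5) (nat_lit 133) (nat_lit 5) (nat_lit 299) (nat_lit 287) (nat_lit 134)) (XT.lf (nat_lit 0) (nat_lit 11007576399) (nat_lit 684) (nat_lit 13970040921) (nat_lit 76) (nat_lit 32646471933) (nat_lit 124) (nat_lit 5) (nat_lit 133) (nat_lit 5) (nat_lit 125) (nat_lit 5) (nat_lit 300) (nat_lit 287) (nat_lit 133))))))))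
noncomputable def xc120 : XT := (XT.nd (nat_lit 36660) (nat_lit 0) (nat_lit 2052) (XT.nd (nat_lit 780) (nat_lit 2052) (nat_lit 0) (XT.nd (nat_lit 390) (nat_lit 1292) (nat_lit 0) (XT.nd (nat_lit 156) (nat_lit 912) (nat_lit 0) (XT.nd (nat_lit 78) (nat_lit 532) (nat_lit 0) (XT.lf (nat_lit 0) (nat_lit 17985587138) (nat_lit 608) (nat_lit 31745171906) (nat_lit 76) (nat_lit 9577435383) (nat_lit 117) (nat_lit 5) (nat_lit 125) (nat_lit 5) (nat_lit 118) (nat_lit 5) (nat_lit 301) (nat_lit 287) (nat_lit 132)) (XT.lf (nat_lit 0) (nat_lit 10338709466) (nat_lit 532) (nat_lit 15468424179) (nat_lit 608) (nat_lit 35254537294) (nat_lit 110) (nat_lit 5) (nat_lit 117) (nat_lit 5) (nat_lit 118) (nat_lit 5) (nat_lit 302) (nat_lit 287) (nat_lit 131))) (XT.nd (nat_lit 78) (nat_lit 912) (nat_lit 0) (XT.lf (nat_lit 0) (nat_lit 34544904043) (nat_lit 608) (nat_lit 7905210654) (nat_lit 76) (nat_lit 20436957072) (nat_lit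 110) (nat_lit 5) (nat_lit 118) (nat_lit 5) (nat_lit 111) (nat_lit 5) (nat_lit 303) (nat_lit 287) (nat_lit 130)) (XT.nd (nat_lit 78) (nat_lit 456) (nat_lit 0) (XT.lf (nat_lit 0) (nat_lit 37629689991) (nat_lit 456) (nat_lit 6605810942) (nat_lit 532) (nat_lit 20552768227) (nat_lit 104) (nat_lit 5) (nat_lit 110) (nat_lit 5) (nat_lit 111) (nat_lit 5) (nat_lit 304) (nat_lit 287) (nat_lit 129)) (XT.lf (nat_lit 0) (nat_lit 18892100480) (nat_lit 456) (nat_lit 36078763455) (nat_lit 532) (nat_lit 11796859837) (nat_lit 98) (nat_lit 5) (nat_lit 104) (nat_lit 5) (nat_lit 105) (nat_lit 5) (nat_lit 305) (nat_lit 287) (nat_lit 128))))) (XT.nd (nat_lit 156) (nat_lit 836) (nat_lit 0) (XT.nd (nat_lit 78) (nat_lit 456) (nat_lit 0) (XT.lf (nat_lit 0) (nat_lit 66597937303) (nat_lit 532) (nat_lit 1103958914) (nat_lit 76) (nat_lit 1133610853) (nat_lit 98) (nat_lit 5) (nat_lit 105) (nat_lit 5) (nat_lit 99) (nat_lit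 5) (nat_lit 306) (nat_lit 287) (nat_lit 127)) (XT.lf (nat_lit 0) (nat_lit 8485225430) (nat_lit 456) (nat_lit 22476530980) (nat_lit 76) (nat_lit 40017545555) (nat_lit 92) (nat_lit 5) (nat_lit 98) (nat_lit 5) (nat_lit 93) (nat_lit 5) (nat_lit 307) (nat_lit 287) (nat_lit 126))) (XT.nd (nat_lit 78) (nat_lit 380) (nat_lit 0) (XT.lf (nat_lit 0) (nat_lit 20052567350) (nat_lit 532) (nat_lit 45394516628) (nat_lit 76) (nat_lit 7771901222) (nat_lit 86) (nat_lit 5) (nat_lit 93) (nat_lit 5) (nat_lit 87) (nat_lit 5) (nat_lit 308) (nat_lit 287) (nat_lit 125)) (XT.nd (nat_lit 78) (nat_lit 0) (nat_lit 0) (XT.lf (nat_lit 0) (nat_lit 5333990759) (nat_lit 380) (nat_lit 27460151198) (nat_lit 456) (nat_lit 42758638217) (nat_lit 81) (nat_lit 5) (nat_lit 86) (nat_lit 5) (nat_lit 87) (nat_lit 5) (nat_lit 309) (nat_lit 287) (nat_lit 124)) (XT.lf (nat_lit 0) (nat_lit 46762642854) (nat_lit 456) (nat_lit 18567579517)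 (nat_lit 76) (nat_lit 12655350473) (nat_lit 81) (nat_lit 5) (nat_lit 87) (nat_lit 5) (nat_lit 82) (nat_lit 5) (nat_lit 310) (nat_lit 287) (nat_lit 123)))))) (XT.nd (nat_lit 390) (nat_lit 608) (nat_lit 0) (XT.nd (nat_lit 156) (nat_lit 760) (nat_lit 0) (XT.nd (nat_lit 78) (nat_lit 304) (nat_lit 0) (XT.lf (nat_lit 0) (nat_lit 36091596753) (nat_lit 380) (nat_lit 25960617861) (nat_lit 456) (nat_lit 18469114373) (nat_lit 76) (nat_lit 5) (nat_lit 81) (nat_lit 5) (nat_lit 82) (nat_lit 5) (nat_lit 311) (nat_lit 287) (nat_lit 122)) (XT.lf (nat_lit 0) (nat_lit 10751998276) (nat_lit 304) (nat_lit 67797068329) (nat_lit 380) (nat_lit 4621525344) (nat_lit 72) (nat_lit 5) (nat_lit 76) (nat_lit 5) (nat_lit 77) (nat_lit 5) (nat_lit 312) (nat_lit 287) (nat_lit 121))) (XT.nd (nat_lit 78) (nat_lit 684) (nat_lit 0) (XT.lf (nat_lit 0) (nat_lit 10447453148) (nat_lit 380) (nat_lit 16680912266) (nat_lit 76) (nat_lit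 58799418575) (nat_lit 71) (nat_lit 5) (nat_lit 76) (nat_lit 5) (nat_lit 72) (nat_lit 5) (nat_lit 313) (nat_lit 287) (nat_lit 120)) (XT.nd (nat_lit 78) (nat_lit 304) (nat_lit 0) (XT.lf (nat_lit 0) (nat_lit 26737867787) (nat_lit 456) (nat_lit 46336191949) (nat_lit 76) (nat_lit 15730498838) (nat_lit 66) (nat_lit 5) (nat_lit 72) (nat_lit 5) (nat_lit 67) (nat_lit 5) (nat_lit 314) (nat_lit 287) (nat_lit 119)) (XT.lf (nat_lit 0) (nat_lit 13081836496) (nat_lit 304) (nat_lit 31332689421) (nat_lit 380) (nat_lit 47393496855) (nat_lit 62) (nat_lit 5) (nat_lit 66) (nat_lit 5) (nat_lit 67) (nat_lit 5) (nat_lit 315) (nat_lit 287) (nat_lit 118))))) (XT.nd (nat_lit 234) (nat_lit 0) (nat_lit 0) (XT.nd (nat_lit 78) (nat_lit 608) (nat_lit 0) (XT.lf (nat_lit 0) (nat_lit 63575631873) (nat_lit 380) (nat_lit 18634718242) (nat_lit 76) (nat_lit 12733294061) (nat_lit 62) (nat_lit 5) (nat_lit 67) (nat_lit 5) (nat_lit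 63) (nat_lit 5) (nat_lit 316) (nat_lit 287) (nat_lit 117)) (XT.nd (nat_lit 78) (nat_lit 304) (nat_lit 0) (XT.lf (nat_lit 0) (nat_lit 45022108944) (nat_lit 304) (nat_lit 39420555754) (nat_lit 380) (nat_lit 13770948135) (nat_lit 58) (nat_lit 5) (nat_lit 62) (nat_lit 5) (nat_lit 63) (nat_lit 5) (nat_lit 317) (nat_lit 287) (nat_lit 116)) (XT.lf (nat_lit 0) (nat_lit 4966619434) (nat_lit 304) (nat_lit 90921755832) (nat_lit 76) (nat_lit 5746775293) (nat_lit 54) (nat_lit 5) (nat_lit 58) (nat_lit 5) (nat_lit 55) (nat_lit 5) (nat_lit 318) (nat_lit 287) (nat_lit 115)))) (XT.nd (nat_lit 35100) (nat_lit 0) (nat_lit 6536) (XT.lf (nat_lit 0) (nat_lit 25308678014) (nat_lit 304) (nat_lit 26830029484) (nat_lit 76) (nat_lit 53056396833) (nat_lit 54) (nat_lit 5) (nat_lit 58) (nat_lit 5) (nat_lit 55) (nat_lit 5) (nat_lit 319) (nat_lit 287) (nat_lit 114)) (XT.nd (nat_lit 78) (nat_lit 0) (nat_lit 0) (XT.lf (nat_lit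 0) (nat_lit 9616508399) (nat_lit 1140) (nat_lit 5908001939) (nat_lit 1140) (nat_lit 5908001939) (nat_lit 140) (nat_lit 3) (nat_lit 155) (nat_lit 3) (nat_lit 155) (nat_lit 5) (nat_lit 288) (nat_lit 288) (nat_lit 144)) (XT.lf (nat_lit 76) (nat_lit 17654354443) (nat_lit 0) (nat_lit 2281736588) (nat_lit 1140) (nat_lit 23993750329) (nat_lit 141) (nat_lit 5) (nat_lit 140) (nat_lit 3) (nat_lit 155) (nat_lit 5) (nat_lit 289) (nat_lit 288) (nat_lit 143))))))) (XT.nd (nat_lit 780) (nat_lit 3952) (nat_lit 0) (XT.nd (nat_lit 390) (nat_lit 608) (nat_lit 0) (XT.nd (nat_lit 156) (nat_lit 0) (nat_lit 76) (XT.nd (nat_lit 78) (nat_lit 0) (nat_lit 76) (XT.lf (nat_lit 76) (nat_lit 3599618741) (nat_lit 0) (nat_lit 17497198284) (nat_lit 1140) (nat_lit 23938416084) (nat_lit 142) (nat_lit 5) (nat_lit 141) (nat_lit 5) (nat_lit 156) (nat_lit 5) (nat_lit 290) (nat_lit 288) (nat_lit 142)) (XT.lf (nat_lit 0) (nat_lit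 22729517817) (nat_lit 1064) (nat_lit 10818846080) (nat_lit 1140) (nat_lit 12635121011) (nat_lit 142) (nat_lit 5) (nat_lit 156) (nat_lit 5) (nat_lit 157) (nat_lit 5) (nat_lit 291) (nat_lit 288) (nat_lit 141))) (XT.nd (nat_lit 78) (nat_lit 0) (nat_lit 76) (XT.lf (nat_lit 76) (nat_lit 21571221393) (nat_lit 0) (nat_lit 3253535050) (nat_lit 1140) (nat_lit 22552973976) (nat_lit 143) (nat_lit 5) (nat_lit 142) (nat_lit 5) (nat_lit 157) (nat_lit 5) (nat_lit 292) (nat_lit 288) (nat_lit 140)) (XT.nd (nat_lit 78) (nat_lit 0) (nat_lit 76) (XT.lf (nat_lit 76) (nat_lit 7038349173) (nat_lit 0) (nat_lit 20438118346) (nat_lit 1140) (nat_lit 21141677187) (nat_lit 144) (nat_lit 5) (nat_lit 143) (nat_lit 5) (nat_lit 158) (nat_lit 5) (nat_lit 293) (nat_lit 288) (nat_lit 139)) (XT.lf (nat_lit 0) (nat_lit 30666427262) (nat_lit 1064) (nat_lit 7992641236) (nat_lit 1140) (nat_lit 11249348761) (nat_lit 144) (nat_lit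 5) (nat_lit 158) (nat_lit 5) (nat_lit 159) (nat_lit 5) (nat_lit 294) (nat_lit 288) (nat_lit 138))))) (XT.nd (nat_lit 156) (nat_lit 836) (nat_lit 0) (XT.nd (nat_lit 78) (nat_lit 0) (nat_lit 76) (XT.lf (nat_lit 76) (nat_lit 27604372192) (nat_lit 0) (nat_lit 6880494855) (nat_lit 1140) (nat_lit 16764274021) (nat_lit 145) (nat_lit 5) (nat_lit 144) (nat_lit 5) (nat_lit 159) (nat_lit 5) (nat_lit 295) (nat_lit 288) (nat_lit 137)) (XT.lf (nat_lit 76) (nat_lit 12480023622) (nat_lit 0) (nat_lit 26469332952) (nat_lit 1140) (nat_lit 13693897411) (nat_lit 146) (nat_lit 5) (nat_lit 145) (nat_lit 5) (nat_lit 160) (nat_lit 5) (nat_lit 296) (nat_lit 288) (nat_lit 136))) (XT.nd (nat_lit 78) (nat_lit 988) (nat_lit 0) (XT.lf (nat_lit 0) (nat_lit 44012991680) (nat_lit 1064) (nat_lit 3331497276) (nat_lit 1140) (nat_lit 6751312390) (nat_lit 146) (nat_lit 5) (nat_lit 160) (nat_lit 5) (nat_lit 161) (nat_lit 5) (nat_lit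 297) (nat_lit 288) (nat_lit 135)) (XT.nd (nat_lit 78) (nat_lit 988) (nat_lit 0) (XT.lf (nat_lit 76) (nat_lit 35770831929) (nat_lit 0) (nat_lit 14167674523) (nat_lit 1140) (nat_lit 5664214809) (nat_lit 147) (nat_lit 5) (nat_lit 146) (nat_lit 5) (nat_lit 161) (nat_lit 5) (nat_lit 298) (nat_lit 288) (nat_lit 134)) (XT.lf (nat_lit 0) (nat_lit 19901402411) (nat_lit 1064) (nat_lit 36681289142) (nat_lit 1140) (nat_lit 589629613) (nat_lit 133) (nat_lit 5) (nat_lit 147) (nat_lit 5) (nat_lit 148) (nat_lit 5) (nat_lit 299) (nat_lit 288) (nat_lit 133)))))) (XT.nd (nat_lit 390) (nat_lit 2204) (nat_lit 0) (XT.nd (nat_lit 156) (nat_lit 1064) (nat_lit 0) (XT.nd (nat_lit 78) (nat_lit 0) (nat_lit 0) (XT.lf (nat_lit 0) (nat_lit 3089359454) (nat_lit 608) (nat_lit 1933568356) (nat_lit 684) (nat_lit 53784810762) (nat_lit 124) (nat_lit 5) (nat_lit 132) (nat_lit 5) (nat_lit 133) (nat_lit 5) (nat_lit 300) (nat_lit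 288) (nat_lit 132)) (XT.lf (nat_lit 0) (nat_lit 11621564314) (nat_lit 684) (nat_lit 14610674604) (nat_lit 76) (nat_lit 34270988560) (nat_lit 124) (nat_lit 5) (nat_lit 133) (nat_lit 5) (nat_lit 125) (nat_lit 5) (nat_lit 301) (nat_lit 288) (nat_lit 131))) (XT.nd (nat_lit 78) (nat_lit 532) (nat_lit 0) (XT.lf (nat_lit 0) (nat_lit 18945939700) (nat_lit 608) (nat_lit 33274189662) (nat_lit 76) (nat_lit 10051492147) (nat_lit 117) (nat_lit 5) (nat_lit 125) (nat_lit 5) (nat_lit 118) (nat_lit 5) (nat_lit 302) (nat_lit 288) (nat_lit 130)) (XT.nd (nat_lit 78) (nat_lit 0) (nat_lit 0) (XT.lf (nat_lit 0) (nat_lit 10912216317) (nat_lit 532) (nat_lit 16243982766) (nat_lit 608) (nat_lit 36956650860) (nat_lit 110) (nat_lit 5) (nat_lit 117) (nat_lit 5) (nat_lit 118) (nat_lit 5) (nat_lit 303) (nat_lit 288) (nat_lit 129)) (XT.lf (nat_lit 0) (nat_lit 36328042779) (nat_lit 608) (nat_lit 8244760267) (nat_lit 76)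 (nat_lit 21456809049) (nat_lit 110) (nat_lit 5) (nat_lit 118) (nat_lit 5) (nat_lit 111) (nat_lit 5) (nat_lit 304) (nat_lit 288) (nat_lit 128))))) (XT.nd (nat_lit 234) (nat_lit 1292) (nat_lit 0) (XT.nd (nat_lit 78) (nat_lit 456) (nat_lit 0) (XT.lf (nat_lit 0) (nat_lit 39565288469) (nat_lit 456) (nat_lit 6935739625) (nat_lit 532) (nat_lit 21524912003) (nat_lit 104) (nat_lit 5) (nat_lit 110) (nat_lit 5) (nat_lit 111) (nat_lit 5) (nat_lit 305) (nat_lit 288) (nat_lit 127)) (XT.nd (nat_lit 78) (nat_lit 0) (nat_lit 0) (XT.lf (nat_lit 0) (nat_lit 19890957509) (nat_lit 456) (nat_lit 37880166927) (nat_lit 532) (nat_lit 12333310234) (nat_lit 98) (nat_lit 5) (nat_lit 104) (nat_lit 5) (nat_lit 105) (nat_lit 5) (nat_lit 306) (nat_lit 288) (nat_lit 126)) (XT.lf (nat_lit 0) (nat_lit 69977111950) (nat_lit 532) (nat_lit 1105915975) (nat_lit 76) (nat_lit 1192658290) (nat_lit 98) (nat_lit 5) (nat_lit 105) (nat_lit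 5) (nat_lit 99) (nat_lit 5) (nat_lit 307) (nat_lit 288) (nat_lit 125)))) (XT.nd (nat_lit 78) (nat_lit 836) (nat_lit 0) (XT.lf (nat_lit 0) (nat_lit 8957494696) (nat_lit 456) (nat_lit 23547578336) (nat_lit 76) (nat_lit 42021644799) (nat_lit 92) (nat_lit 5) (nat_lit 98) (nat_lit 5) (nat_lit 93) (nat_lit 5) (nat_lit 308) (nat_lit 288) (nat_lit 124)) (XT.nd (nat_lit 78) (nat_lit 380) (nat_lit 0) (XT.lf (nat_lit 0) (nat_lit 21101458979) (nat_lit 532) (nat_lit 47611534486) (nat_lit 76) (nat_lit 8165449295) (nat_lit 86) (nat_lit 5) (nat_lit 93) (nat_lit 5) (nat_lit 87) (nat_lit 5) (nat_lit 309) (nat_lit 288) (nat_lit 123)) (XT.lf (nat_lit 0) (nat_lit 5651887407) (nat_lit 380) (nat_lit 28826514035) (nat_lit 456) (nat_lit 44850582310) (nat_lit 81) (nat_lit 5) (nat_lit 86) (nat_lit 5) (nat_lit 87) (nat_lit 5) (nat_lit 310) (nat_lit 288) (nat_lit 122))))))))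
noncomputable def xc121 : XT := (XT.nd (nat_lit 36816) (nat_lit 0) (nat_lit 304) (XT.nd (nat_lit 35958) (nat_lit 0) (nat_lit 5016) (XT.nd (nat_lit 390) (nat_lit 608) (nat_lit 0) (XT.nd (nat_lit 156) (nat_lit 760) (nat_lit 0) (XT.nd (nat_lit 78) (nat_lit 380) (nat_lit 0) (XT.lf (nat_lit 0) (nat_lit 49143266672) (nat_lit 456) (nat_lit 19445893094) (nat_lit 76) (nat_lit 13294322817) (nat_lit 81) (nat_lit 5) (nat_lit 87) (nat_lit 5) (nat_lit 82) (nat_lit 5) (nat_lit 311) (nat_lit 288) (nat_lit 121)) (XT.lf (nat_lit 0) (nat_lit 37944806874) (nat_lit 380) (nat_lit 27250954197) (nat_lit 456) (nat_lit 19350316624) (nat_lit 76) (nat_lit 5) (nat_lit 81) (nat_lit 5) (nat_lit 82) (nat_lit 5) (nat_lit 312) (nat_lit 288) (nat_lit 120))) (XT.nd (nat_lit 78) (nat_lit 456) (nat_lit 0) (XT.lf (nat_lit 0) (nat_lit 11338042620) (nat_lit 304) (nat_lit 71177999842) (nat_lit 380) (nat_lit 4811808010) (nat_lit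 72) (nat_lit 5) (nat_lit 76) (nat_lit 5) (nat_lit 77) (nat_lit 5) (nat_lit 313) (nat_lit 288) (nat_lit 119)) (XT.nd (nat_lit 78) (nat_lit 380) (nat_lit 0) (XT.lf (nat_lit 0) (nat_lit 11007918731) (nat_lit 380) (nat_lit 17467983240) (nat_lit 76) (nat_lit 61747049468) (nat_lit 71) (nat_lit 5) (nat_lit 76) (nat_lit 5) (nat_lit 72) (nat_lit 5) (nat_lit 314) (nat_lit 288) (nat_lit 118)) (XT.lf (nat_lit 0) (nat_lit 28111564412) (nat_lit 456) (nat_lit 48606282347) (nat_lit 76) (nat_lit 16525760443) (nat_lit 66) (nat_lit 5) (nat_lit 72) (nat_lit 5) (nat_lit 67) (nat_lit 5) (nat_lit 315) (nat_lit 288) (nat_lit 117))))) (XT.nd (nat_lit 156) (nat_lit 304) (nat_lit 0) (XT.nd (nat_lit 78) (nat_lit 0) (nat_lit 0) (XT.lf (nat_lit 0) (nat_lit 13781308323) (nat_lit 304) (nat_lit 32889430811) (nat_lit 380) (nat_lit 49726548547) (nat_lit 62) (nat_lit 5) (nat_lit 66) (nat_lit 5) (nat_lit 67) (nat_lit 5) (nat_lit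 316) (nat_lit 288) (nat_lit 116)) (XT.lf (nat_lit 0) (nat_lit 66788301104) (nat_lit 380) (nat_lit 19522243550) (nat_lit 76) (nat_lit 13379196890) (nat_lit 62) (nat_lit 5) (nat_lit 67) (nat_lit 5) (nat_lit 63) (nat_lit 5) (nat_lit 317) (nat_lit 288) (nat_lit 115))) (XT.nd (nat_lit 35256) (nat_lit 0) (nat_lit 6232) (XT.lf (nat_lit 0) (nat_lit 47316157707) (nat_lit 304) (nat_lit 41381326964) (nat_lit 380) (nat_lit 14425763239) (nat_lit 58) (nat_lit 5) (nat_lit 62) (nat_lit 5) (nat_lit 63) (nat_lit 5) (nat_lit 318) (nat_lit 288) (nat_lit 114)) (XT.nd (nat_lit 78) (nat_lit 0) (nat_lit 0) (XT.lf (nat_lit 0) (nat_lit 10149057812) (nat_lit 1140) (nat_lit 6176694610) (nat_lit 1140) (nat_lit 6176694610) (nat_lit 140) (nat_lit 3) (nat_lit 155) (nat_lit 3) (nat_lit 155) (nat_lit 5) (nat_lit 289) (nat_lit 289) (nat_lit 142)) (XT.lf (nat_lit 76) (nat_lit 18588955892) (nat_lit 0) (nat_lit 2442960319) (nat_lit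 1140) (nat_lit 25091181569) (nat_lit 141) (nat_lit 5) (nat_lit 140) (nat_lit 3) (nat_lit 155) (nat_lit 5) (nat_lit 290) (nat_lit 289) (nat_lit 141)))))) (XT.nd (nat_lit 390) (nat_lit 1292) (nat_lit 0) (XT.nd (nat_lit 156) (nat_lit 0) (nat_lit 76) (XT.nd (nat_lit 78) (nat_lit 0) (nat_lit 76) (XT.lf (nat_lit 76) (nat_lit 3833579187) (nat_lit 0) (nat_lit 18412471402) (nat_lit 1140) (nat_lit 25037859985) (nat_lit 142) (nat_lit 5) (nat_lit 141) (nat_lit 5) (nat_lit 156) (nat_lit 5) (nat_lit 291) (nat_lit 289) (nat_lit 140)) (XT.lf (nat_lit 0) (nat_lit 23955521552) (nat_lit 1064) (nat_lit 11305072026) (nat_lit 1140) (nat_lit 13229139351) (nat_lit 142) (nat_lit 5) (nat_lit 156) (nat_lit 5) (nat_lit 157) (nat_lit 5) (nat_lit 292) (nat_lit 289) (nat_lit 139))) (XT.nd (nat_lit 78) (nat_lit 0) (nat_lit 76) (XT.lf (nat_lit 76) (nat_lit 22702930386) (nat_lit 0) (nat_lit 3448839383) (nat_lit 1140) (nat_lit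 23592044964) (nat_lit 143) (nat_lit 5) (nat_lit 142) (nat_lit 5) (nat_lit 157) (nat_lit 5) (nat_lit 293) (nat_lit 289) (nat_lit 138)) (XT.nd (nat_lit 78) (nat_lit 0) (nat_lit 76) (XT.lf (nat_lit 76) (nat_lit 7444917609) (nat_lit 0) (nat_lit 21487290880) (nat_lit 1140) (nat_lit 22114167886) (nat_lit 144) (nat_lit 5) (nat_lit 143) (nat_lit 5) (nat_lit 158) (nat_lit 5) (nat_lit 294) (nat_lit 289) (nat_lit 137)) (XT.lf (nat_lit 0) (nat_lit 32277515759) (nat_lit 1064) (nat_lit 8337426967) (nat_lit 1140) (nat_lit 11786354727) (nat_lit 144) (nat_lit 5) (nat_lit 158) (nat_lit 5) (nat_lit 159) (nat_lit 5) (nat_lit 295) (nat_lit 289) (nat_lit 136))))) (XT.nd (nat_lit 234) (nat_lit 1520) (nat_lit 0) (XT.nd (nat_lit 78) (nat_lit 0) (nat_lit 76) (XT.lf (nat_lit 76) (nat_lit 29037864974) (nat_lit 0) (nat_lit 7245821466) (nat_lit 1140) (nat_lit 17525476631) (nat_lit 145) (nat_lit 5) (nat_lit 144) (nat_lit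 5) (nat_lit 159) (nat_lit 5) (nat_lit 296) (nat_lit 289) (nat_lit 135)) (XT.nd (nat_lit 78) (nat_lit 0) (nat_lit 76) (XT.lf (nat_lit 76) (nat_lit 13158336029) (nat_lit 0) (nat_lit 27809840231) (nat_lit 1140) (nat_lit 14304911517) (nat_lit 146) (nat_lit 5) (nat_lit 145) (nat_lit 5) (nat_lit 160) (nat_lit 5) (nat_lit 297) (nat_lit 289) (nat_lit 134)) (XT.lf (nat_lit 0) (nat_lit 46281439409) (nat_lit 1064) (nat_lit 3443973152) (nat_lit 1140) (nat_lit 7072965526) (nat_lit 146) (nat_lit 5) (nat_lit 160) (nat_lit 5) (nat_lit 161) (nat_lit 5) (nat_lit 298) (nat_lit 289) (nat_lit 133)))) (XT.nd (nat_lit 78) (nat_lit 1672) (nat_lit 0) (XT.lf (nat_lit 76) (nat_lit 37611921777) (nat_lit 0) (nat_lit 14888584786) (nat_lit 1140) (nat_lit 5880227678) (nat_lit 147) (nat_lit 5) (nat_lit 146) (nat_lit 5) (nat_lit 161) (nat_lit 5) (nat_lit 299) (nat_lit 289) (nat_lit 132)) (XT.nd (nat_lit 78) (nat_lit 684)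 (nat_lit 0) (XT.lf (nat_lit 0) (nat_lit 20949693685) (nat_lit 1064) (nat_lit 38524505350) (nat_lit 1140) (nat_lit 554704298) (nat_lit 133) (nat_lit 5) (nat_lit 147) (nat_lit 5) (nat_lit 148) (nat_lit 5) (nat_lit 300) (nat_lit 289) (nat_lit 131)) (XT.lf (nat_lit 0) (nat_lit 3296897226) (nat_lit 608) (nat_lit 2037829959) (nat_lit 684) (nat_lit 56411428283) (nat_lit 124) (nat_lit 5) (nat_lit 132) (nat_lit 5) (nat_lit 133) (nat_lit 5) (nat_lit 301) (nat_lit 289) (nat_lit 130))))))) (XT.nd (nat_lit 858) (nat_lit 1444) (nat_lit 0) (XT.nd (nat_lit 390) (nat_lit 1748) (nat_lit 0) (XT.nd (nat_lit 156) (nat_lit 988) (nat_lit 0) (XT.nd (nat_lit 78) (nat_lit 532) (nat_lit 0) (XT.lf (nat_lit 0) (nat_lit 12260337854) (nat_lit 684) (nat_lit 15288720024) (nat_lit 76) (nat_lit 35977456836) (nat_lit 124) (nat_lit 5) (nat_lit 133) (nat_lit 5) (nat_lit 125) (nat_lit 5) (nat_lit 302) (nat_lit 289) (nat_lit 129))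 (XT.lf (nat_lit 0) (nat_lit 19948631883) (nat_lit 608) (nat_lit 34885072986) (nat_lit 76) (nat_lit 10549699402) (nat_lit 117) (nat_lit 5) (nat_lit 125) (nat_lit 5) (nat_lit 118) (nat_lit 5) (nat_lit 303) (nat_lit 289) (nat_lit 128))) (XT.nd (nat_lit 78) (nat_lit 456) (nat_lit 0) (XT.lf (nat_lit 0) (nat_lit 11509139040) (nat_lit 532) (nat_lit 17058120569) (nat_lit 608) (nat_lit 38749505355) (nat_lit 110) (nat_lit 5) (nat_lit 117) (nat_lit 5) (nat_lit 118) (nat_lit 5) (nat_lit 304) (nat_lit 289) (nat_lit 127)) (XT.nd (nat_lit 78) (nat_lit 456) (nat_lit 0) (XT.lf (nat_lit 0) (nat_lit 38195142000) (nat_lit 608) (nat_lit 8606466834) (nat_lit 76) (nat_lit 22527839182) (nat_lit 110) (nat_lit 5) (nat_lit 118) (nat_lit 5) (nat_lit 111) (nat_lit 5) (nat_lit 305) (nat_lit 289) (nat_lit 126)) (XT.lf (nat_lit 0) (nat_lit 41592635865) (nat_lit 456) (nat_lit 7282198385) (nat_lit 532) (nat_lit 22550822333)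 (nat_lit 104) (nat_lit 5) (nat_lit 110) (nat_lit 5) (nat_lit 111) (nat_lit 5) (nat_lit 306) (nat_lit 289) (nat_lit 125))))) (XT.nd (nat_lit 234) (nat_lit 836) (nat_lit 0) (XT.nd (nat_lit 78) (nat_lit 456) (nat_lit 0) (XT.lf (nat_lit 0) (nat_lit 20934713553) (nat_lit 456) (nat_lit 39771876226) (nat_lit 532) (nat_lit 12901547089) (nat_lit 98) (nat_lit 5) (nat_lit 104) (nat_lit 5) (nat_lit 105) (nat_lit 5) (nat_lit 307) (nat_lit 289) (nat_lit 124)) (XT.nd (nat_lit 78) (nat_lit 456) (nat_lit 0) (XT.lf (nat_lit 0) (nat_lit 73520663948) (nat_lit 532) (nat_lit 1112920721) (nat_lit 76) (nat_lit 1254438048) (nat_lit 98) (nat_lit 5) (nat_lit 105) (nat_lit 5) (nat_lit 99) (nat_lit 5) (nat_lit 308) (nat_lit 289) (nat_lit 123)) (XT.lf (nat_lit 0) (nat_lit 9448914096) (nat_lit 456) (nat_lit 24677084969) (nat_lit 76) (nat_lit 44125649456) (nat_lit 92) (nat_lit 5) (nat_lit 98) (nat_lit 5) (nat_lit 93) (nat_lit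 5) (nat_lit 309) (nat_lit 289) (nat_lit 122)))) (XT.nd (nat_lit 78) (nat_lit 380) (nat_lit 0) (XT.lf (nat_lit 0) (nat_lit 22198494069) (nat_lit 532) (nat_lit 49944303525) (nat_lit 76) (nat_lit 8578214287) (nat_lit 86) (nat_lit 5) (nat_lit 93) (nat_lit 5) (nat_lit 87) (nat_lit 5) (nat_lit 310) (nat_lit 289) (nat_lit 121)) (XT.nd (nat_lit 78) (nat_lit 0) (nat_lit 0) (XT.lf (nat_lit 0) (nat_lit 5980919065) (nat_lit 380) (nat_lit 30261812776) (nat_lit 456) (nat_lit 47051399118) (nat_lit 81) (nat_lit 5) (nat_lit 86) (nat_lit 5) (nat_lit 87) (nat_lit 5) (nat_lit 311) (nat_lit 289) (nat_lit 120)) (XT.lf (nat_lit 0) (nat_lit 51638971208) (nat_lit 456) (nat_lit 20372776957) (nat_lit 76) (nat_lit 13964666912) (nat_lit 81) (nat_lit 5) (nat_lit 87) (nat_lit 5) (nat_lit 82) (nat_lit 5) (nat_lit 312) (nat_lit 289) (nat_lit 119)))))) (XT.nd (nat_lit 390) (nat_lit 0) (nat_lit 0) (XT.nd (nat_lit 156) (nat_lit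 760) (nat_lit 0) (XT.nd (nat_lit 78) (nat_lit 304) (nat_lit 0) (XT.lf (nat_lit 0) (nat_lit 39886156319) (nat_lit 380) (nat_lit 28606522717) (nat_lit 456) (nat_lit 20279507315) (nat_lit 76) (nat_lit 5) (nat_lit 81) (nat_lit 5) (nat_lit 82) (nat_lit 5) (nat_lit 313) (nat_lit 289) (nat_lit 118)) (XT.lf (nat_lit 0) (nat_lit 11948885278) (nat_lit 304) (nat_lit 74728807405) (nat_lit 380) (nat_lit 5015397411) (nat_lit 72) (nat_lit 5) (nat_lit 76) (nat_lit 5) (nat_lit 77) (nat_lit 5) (nat_lit 314) (nat_lit 289) (nat_lit 117))) (XT.nd (nat_lit 78) (nat_lit 684) (nat_lit 0) (XT.lf (nat_lit 0) (nat_lit 11592866073) (nat_lit 380) (nat_lit 18298775018) (nat_lit 76) (nat_lit 64841349754) (nat_lit 71) (nat_lit 5) (nat_lit 76) (nat_lit 5) (nat_lit 72) (nat_lit 5) (nat_lit 315) (nat_lit 289) (nat_lit 116)) (XT.nd (nat_lit 78) (nat_lit 304) (nat_lit 0) (XT.lf (nat_lit 0) (nat_lit 29550524252) (nat_lit 456)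 (nat_lit 50994220774) (nat_lit 76) (nat_lit 17359972876) (nat_lit 66) (nat_lit 5) (nat_lit 72) (nat_lit 5) (nat_lit 67) (nat_lit 5) (nat_lit 316) (nat_lit 289) (nat_lit 115)) (XT.lf (nat_lit 0) (nat_lit 14511534739) (nat_lit 304) (nat_lit 34524929034) (nat_lit 380) (nat_lit 52179657697) (nat_lit 62) (nat_lit 5) (nat_lit 66) (nat_lit 5) (nat_lit 67) (nat_lit 5) (nat_lit 317) (nat_lit 289) (nat_lit 114))))) (XT.nd (nat_lit 35490) (nat_lit 0) (nat_lit 6004) (XT.nd (nat_lit 35334) (nat_lit 0) (nat_lit 5928) (XT.lf (nat_lit 0) (nat_lit 70158453245) (nat_lit 380) (nat_lit 20458255406) (nat_lit 76) (nat_lit 14056535987) (nat_lit 62) (nat_lit 5) (nat_lit 67) (nat_lit 5) (nat_lit 63) (nat_lit 5) (nat_lit 318) (nat_lit 289) (nat_lit 113)) (XT.nd (nat_lit 78) (nat_lit 0) (nat_lit 0) (XT.lf (nat_lit 0) (nat_lit 10703425889) (nat_lit 1140) (nat_lit 6461304917) (nat_lit 1140) (nat_lit 6461304917) (nat_lit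 140) (nat_lit 3) (nat_lit 155) (nat_lit 3) (nat_lit 155) (nat_lit 5) (nat_lit 290) (nat_lit 290) (nat_lit 140)) (XT.lf (nat_lit 76) (nat_lit 19565463756) (nat_lit 0) (nat_lit 2607862896) (nat_lit 1140) (nat_lit 26252991190) (nat_lit 141) (nat_lit 5) (nat_lit 140) (nat_lit 3) (nat_lit 155) (nat_lit 5) (nat_lit 291) (nat_lit 290) (nat_lit 139)))) (XT.nd (nat_lit 78) (nat_lit 0) (nat_lit 76) (XT.lf (nat_lit 76) (nat_lit 4074219152) (nat_lit 0) (nat_lit 19369750940) (nat_lit 1140) (nat_lit 26201338560) (nat_lit 142) (nat_lit 5) (nat_lit 141) (nat_lit 5) (nat_lit 156) (nat_lit 5) (nat_lit 292) (nat_lit 290) (nat_lit 138)) (XT.nd (nat_lit 78) (nat_lit 0) (nat_lit 0) (XT.lf (nat_lit 0) (nat_lit 25234502023) (nat_lit 1064) (nat_lit 11820696279) (nat_lit 1140) (nat_lit 13856367102) (nat_lit 142) (nat_lit 5) (nat_lit 156) (nat_lit 5) (nat_lit 157) (nat_lit 5) (nat_lit 293) (nat_lit 290) (nat_lit 137))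 (XT.lf (nat_lit 76) (nat_lit 23886283639) (nat_lit 0) (nat_lit 3650875529) (nat_lit 1140) (nat_lit 24691304618) (nat_lit 143) (nat_lit 5) (nat_lit 142) (nat_lit 5) (nat_lit 157) (nat_lit 5) (nat_lit 294) (nat_lit 290) (nat_lit 136))))))))
noncomputable def xc122 : XT := (XT.nd (nat_lit 1638) (nat_lit 456) (nat_lit 0) (XT.nd (nat_lit 780) (nat_lit 3420) (nat_lit 0) (XT.nd (nat_lit 390) (nat_lit 1976) (nat_lit 0) (XT.nd (nat_lit 156) (nat_lit 0) (nat_lit 76) (XT.nd (nat_lit 78) (nat_lit 0) (nat_lit 76) (XT.lf (nat_lit 76) (nat_lit 7866733537) (nat_lit 0) (nat_lit 22586387049) (nat_lit 1140) (nat_lit 23143147789) (nat_lit 144) (nat_lit 5) (nat_lit 143) (nat_lit 5) (nat_lit 158) (nat_lit 5) (nat_lit 295) (nat_lit 290) (nat_lit 135)) (XT.lf (nat_lit 0) (nat_lit 33961928629) (nat_lit 1064) (nat_lit 8704551075) (nat_lit 1140) (nat_lit 12352578157) (nat_lit 144) (nat_lit 5) (nat_lit 158) (nat_lit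 5) (nat_lit 159) (nat_lit 5) (nat_lit 296) (nat_lit 290) (nat_lit 134))) (XT.nd (nat_lit 78) (nat_lit 0) (nat_lit 76) (XT.lf (nat_lit 76) (nat_lit 30538079468) (nat_lit 0) (nat_lit 7627433962) (nat_lit 1140) (nat_lit 18331899134) (nat_lit 145) (nat_lit 5) (nat_lit 144) (nat_lit 5) (nat_lit 159) (nat_lit 5) (nat_lit 297) (nat_lit 290) (nat_lit 133)) (XT.nd (nat_lit 78) (nat_lit 0) (nat_lit 76) (XT.lf (nat_lit 76) (nat_lit 13865514713) (nat_lit 0) (nat_lit 29215788599) (nat_lit 1140) (nat_lit 14953326468) (nat_lit 146) (nat_lit 5) (nat_lit 145) (nat_lit 5) (nat_lit 160) (nat_lit 5) (nat_lit 298) (nat_lit 290) (nat_lit 132)) (XT.lf (nat_lit 0) (nat_lit 48657006296) (nat_lit 1064) (nat_lit 3567102432) (nat_lit 1140) (nat_lit 7412180710) (nat_lit 146) (nat_lit 5) (nat_lit 160) (nat_lit 5) (nat_lit 161) (nat_lit 5) (nat_lit 299) (nat_lit 290) (nat_lit 131))))) (XT.nd (nat_lit 156) (nat_lit 1216)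 (nat_lit 0) (XT.nd (nat_lit 78) (nat_lit 988) (nat_lit 0) (XT.lf (nat_lit 76) (nat_lit 39540180679) (nat_lit 0) (nat_lit 15644375963) (nat_lit 1140) (nat_lit 6113288612) (nat_lit 147) (nat_lit 5) (nat_lit 146) (nat_lit 5) (nat_lit 161) (nat_lit 5) (nat_lit 300) (nat_lit 290) (nat_lit 130)) (XT.lf (nat_lit 0) (nat_lit 22045451524) (nat_lit 1064) (nat_lit 40459031526) (nat_lit 1140) (nat_lit 524020650) (nat_lit 133) (nat_lit 5) (nat_lit 147) (nat_lit 5) (nat_lit 148) (nat_lit 5) (nat_lit 301) (nat_lit 290) (nat_lit 129))) (XT.nd (nat_lit 78) (nat_lit 532) (nat_lit 0) (XT.lf (nat_lit 0) (nat_lit 3509877960) (nat_lit 608) (nat_lit 2146599630) (nat_lit 684) (nat_lit 59175198774) (nat_lit 124) (nat_lit 5) (nat_lit 132) (nat_lit 5) (nat_lit 133) (nat_lit 5) (nat_lit 302) (nat_lit 290) (nat_lit 128)) (XT.nd (nat_lit 78) (nat_lit 532) (nat_lit 0) (XT.lf (nat_lit 0) (nat_lit 12925686106) (nat_lit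 684) (nat_lit 16005547579) (nat_lit 76) (nat_lit 37769906864) (nat_lit 124) (nat_lit 5) (nat_lit 133) (nat_lit 5) (nat_lit 125) (nat_lit 5) (nat_lit 303) (nat_lit 290) (nat_lit 127)) (XT.lf (nat_lit 0) (nat_lit 20996308554) (nat_lit 608) (nat_lit 36581411753) (nat_lit 76) (nat_lit 11073223056) (nat_lit 117) (nat_lit 5) (nat_lit 125) (nat_lit 5) (nat_lit 118) (nat_lit 5) (nat_lit 304) (nat_lit 290) (nat_lit 126)))))) (XT.nd (nat_lit 390) (nat_lit 1976) (nat_lit 0) (XT.nd (nat_lit 156) (nat_lit 912) (nat_lit 0) (XT.nd (nat_lit 78) (nat_lit 0) (nat_lit 0) (XT.lf (nat_lit 0) (nat_lit 12131137404) (nat_lit 532) (nat_lit 17912785024) (nat_lit 608) (nat_lit 40637113912) (nat_lit 110) (nat_lit 5) (nat_lit 117) (nat_lit 5) (nat_lit 118) (nat_lit 5) (nat_lit 305) (nat_lit 290) (nat_lit 125)) (XT.lf (nat_lit 0) (nat_lit 40150882849) (nat_lit 608) (nat_lit 8990956664) (nat_lit 76) (nat_lit 23652589129)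 (nat_lit 110) (nat_lit 5) (nat_lit 118) (nat_lit 5) (nat_lit 111) (nat_lit 5) (nat_lit 306) (nat_lit 290) (nat_lit 124))) (XT.nd (nat_lit 78) (nat_lit 456) (nat_lit 0) (XT.lf (nat_lit 0) (nat_lit 43716787361) (nat_lit 456) (nat_lit 7646010598) (nat_lit 532) (nat_lit 23632707876) (nat_lit 104) (nat_lit 5) (nat_lit 110) (nat_lit 5) (nat_lit 111) (nat_lit 5) (nat_lit 307) (nat_lit 290) (nat_lit 123)) (XT.nd (nat_lit 78) (nat_lit 0) (nat_lit 0) (XT.lf (nat_lit 0) (nat_lit 22026082490) (nat_lit 456) (nat_lit 41758384733) (nat_lit 532) (nat_lit 13502698224) (nat_lit 98) (nat_lit 5) (nat_lit 104) (nat_lit 5) (nat_lit 105) (nat_lit 5) (nat_lit 308) (nat_lit 290) (nat_lit 122)) (XT.lf (nat_lit 0) (nat_lit 77237238098) (nat_lit 532) (nat_lit 1124765348) (nat_lit 76) (nat_lit 1319107200) (nat_lit 98) (nat_lit 5) (nat_lit 105) (nat_lit 5) (nat_lit 99) (nat_lit 5) (nat_lit 309) (nat_lit 290) (nat_lit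 121))))) (XT.nd (nat_lit 234) (nat_lit 684) (nat_lit 0) (XT.nd (nat_lit 78) (nat_lit 836) (nat_lit 0) (XT.lf (nat_lit 0) (nat_lit 9960856097) (nat_lit 456) (nat_lit 25867517645) (nat_lit 76) (nat_lit 46334582648) (nat_lit 92) (nat_lit 5) (nat_lit 98) (nat_lit 5) (nat_lit 93) (nat_lit 5) (nat_lit 310) (nat_lit 290) (nat_lit 120)) (XT.nd (nat_lit 78) (nat_lit 380) (nat_lit 0) (XT.lf (nat_lit 0) (nat_lit 23346479672) (nat_lit 532) (nat_lit 52398155721) (nat_lit 76) (nat_lit 9011199856) (nat_lit 86) (nat_lit 5) (nat_lit 93) (nat_lit 5) (nat_lit 87) (nat_lit 5) (nat_lit 311) (nat_lit 290) (nat_lit 119)) (XT.lf (nat_lit 0) (nat_lit 6322085007) (nat_lit 380) (nat_lit 31769436785) (nat_lit 456) (nat_lit 49366134782) (nat_lit 81) (nat_lit 5) (nat_lit 86) (nat_lit 5) (nat_lit 87) (nat_lit 5) (nat_lit 312) (nat_lit 290) (nat_lit 118)))) (XT.nd (nat_lit 78) (nat_lit 684) (nat_lit 0) (XT.lf (nat_lit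 0) (nat_lit 54255877776) (nat_lit 456) (nat_lit 21350226877) (nat_lit 76) (nat_lit 14668004979) (nat_lit 81) (nat_lit 5) (nat_lit 87) (nat_lit 5) (nat_lit 82) (nat_lit 5) (nat_lit 313) (nat_lit 290) (nat_lit 117)) (XT.nd (nat_lit 78) (nat_lit 304) (nat_lit 0) (XT.lf (nat_lit 0) (nat_lit 41920472390) (nat_lit 380) (nat_lit 30030518521) (nat_lit 456) (nat_lit 21258720648) (nat_lit 76) (nat_lit 5) (nat_lit 81) (nat_lit 5) (nat_lit 82) (nat_lit 5) (nat_lit 314) (nat_lit 290) (nat_lit 116)) (XT.lf (nat_lit 0) (nat_lit 12586184894) (nat_lit 304) (nat_lit 78457907703) (nat_lit 380) (nat_lit 5232606285) (nat_lit 72) (nat_lit 5) (nat_lit 76) (nat_lit 5) (nat_lit 77) (nat_lit 5) (nat_lit 315) (nat_lit 290) (nat_lit 115))))))) (XT.nd (nat_lit 36270) (nat_lit 0) (nat_lit 2432) (XT.nd (nat_lit 35802) (nat_lit 0) (nat_lit 5776) (XT.nd (nat_lit 35568) (nat_lit 0) (nat_lit 5624) (XT.nd (nat_lit 78) (nat_lit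 380) (nat_lit 0) (XT.lf (nat_lit 0) (nat_lit 12203848521) (nat_lit 380) (nat_lit 19175067616) (nat_lit 76) (nat_lit 68089719113) (nat_lit 71) (nat_lit 5) (nat_lit 76) (nat_lit 5) (nat_lit 72) (nat_lit 5) (nat_lit 316) (nat_lit 290) (nat_lit 114)) (XT.lf (nat_lit 0) (nat_lit 31058328577) (nat_lit 456) (nat_lit 53505495812) (nat_lit 76) (nat_lit 18235159194) (nat_lit 66) (nat_lit 5) (nat_lit 72) (nat_lit 5) (nat_lit 67) (nat_lit 5) (nat_lit 317) (nat_lit 290) (nat_lit 113))) (XT.nd (nat_lit 78) (nat_lit 0) (nat_lit 0) (XT.lf (nat_lit 0) (nat_lit 11281150640) (nat_lit 1140) (nat_lit 6762397898) (nat_lit 1140) (nat_lit 6762397898) (nat_lit 140) (nat_lit 3) (nat_lit 155) (nat_lit 3) (nat_lit 155) (nat_lit 5) (nat_lit 291) (nat_lit 291) (nat_lit 138)) (XT.nd (nat_lit 78) (nat_lit 0) (nat_lit 76) (XT.lf (nat_lit 76) (nat_lit 20586421814) (nat_lit 0) (nat_lit 2777035687) (nat_lit 1140) (nat_lit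 27481514257) (nat_lit 141) (nat_lit 5) (nat_lit 140) (nat_lit 3) (nat_lit 155) (nat_lit 5) (nat_lit 292) (nat_lit 291) (nat_lit 137)) (XT.lf (nat_lit 76) (nat_lit 4322339185) (nat_lit 0) (nat_lit 20371486530) (nat_lit 1140) (nat_lit 27431210999) (nat_lit 142) (nat_lit 5) (nat_lit 141) (nat_lit 5) (nat_lit 156) (nat_lit 5) (nat_lit 293) (nat_lit 291) (nat_lit 136))))) (XT.nd (nat_lit 234) (nat_lit 0) (nat_lit 152) (XT.nd (nat_lit 78) (nat_lit 0) (nat_lit 0) (XT.lf (nat_lit 0) (nat_lit 26569881904) (nat_lit 1064) (nat_lit 12366715811) (nat_lit 1140) (nat_lit 14518138548) (nat_lit 142) (nat_lit 5) (nat_lit 156) (nat_lit 5) (nat_lit 157) (nat_lit 5) (nat_lit 294) (nat_lit 291) (nat_lit 135)) (XT.nd (nat_lit 78) (nat_lit 0) (nat_lit 76) (XT.lf (nat_lit 76) (nat_lit 25124322749) (nat_lit 0) (nat_lit 3860262097) (nat_lit 1140) (nat_lit 25852996747) (nat_lit 143) (nat_lit 5) (nat_lit 142) (nat_lit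 5) (nat_lit 157) (nat_lit 5) (nat_lit 295) (nat_lit 291) (nat_lit 134)) (XT.lf (nat_lit 76) (nat_lit 8305031709) (nat_lit 0) (nat_lit 23738138714) (nat_lit 1140) (nat_lit 24230710175) (nat_lit 144) (nat_lit 5) (nat_lit 143) (nat_lit 5) (nat_lit 158) (nat_lit 5) (nat_lit 296) (nat_lit 291) (nat_lit 133)))) (XT.nd (nat_lit 78) (nat_lit 0) (nat_lit 0) (XT.lf (nat_lit 0) (nat_lit 35724004274) (nat_lit 1064) (nat_lit 9094656416) (nat_lit 1140) (nat_lit 12949259848) (nat_lit 144) (nat_lit 5) (nat_lit 158) (nat_lit 5) (nat_lit 159) (nat_lit 5) (nat_lit 297) (nat_lit 291) (nat_lit 132)) (XT.nd (nat_lit 78) (nat_lit 0) (nat_lit 76) (XT.lf (nat_lit 76) (nat_lit 32108812235) (nat_lit 0) (nat_lit 8026330759) (nat_lit 1140) (nat_lit 19185136876) (nat_lit 145) (nat_lit 5) (nat_lit 144) (nat_lit 5) (nat_lit 159) (nat_lit 5) (nat_lit 298) (nat_lit 291) (nat_lit 131)) (XT.lf (nat_lit 76) (nat_lit 14603472429)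 (nat_lit 0) (nat_lit 30690597398) (nat_lit 1140) (nat_lit 15640375444) (nat_lit 146) (nat_lit 5) (nat_lit 145) (nat_lit 5) (nat_lit 160) (nat_lit 5) (nat_lit 299) (nat_lit 291) (nat_lit 130)))))) (XT.nd (nat_lit 390) (nat_lit 1976) (nat_lit 0) (XT.nd (nat_lit 156) (nat_lit 1672) (nat_lit 0) (XT.nd (nat_lit 78) (nat_lit 0) (nat_lit 0) (XT.lf (nat_lit 0) (nat_lit 51145634313) (nat_lit 1064) (nat_lit 3700950183) (nat_lit 1140) (nat_lit 7769698506) (nat_lit 146) (nat_lit 5) (nat_lit 160) (nat_lit 5) (nat_lit 161) (nat_lit 5) (nat_lit 300) (nat_lit 291) (nat_lit 129)) (XT.lf (nat_lit 76) (nat_lit 41560421289) (nat_lit 0) (nat_lit 16436900374) (nat_lit 1140) (nat_lit 6363669187) (nat_lit 147) (nat_lit 5) (nat_lit 146) (nat_lit 5) (nat_lit 161) (nat_lit 5) (nat_lit 301) (nat_lit 291) (nat_lit 128))) (XT.nd (nat_lit 78) (nat_lit 684) (nat_lit 0) (XT.lf (nat_lit 0) (nat_lit 23191509274) (nat_lit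 1064) (nat_lit 42489512271) (nat_lit 1140) (nat_lit 497234052) (nat_lit 133) (nat_lit 5) (nat_lit 147) (nat_lit 5) (nat_lit 148) (nat_lit 5) (nat_lit 302) (nat_lit 291) (nat_lit 127)) (XT.nd (nat_lit 78) (nat_lit 0) (nat_lit 0) (XT.lf (nat_lit 0) (nat_lit 3729032514) (nat_lit 608) (nat_lit 2260168316) (nat_lit 684) (nat_lit 62082438601) (nat_lit 124) (nat_lit 5) (nat_lit 132) (nat_lit 5) (nat_lit 133) (nat_lit 5) (nat_lit 303) (nat_lit 291) (nat_lit 126)) (XT.lf (nat_lit 0) (nat_lit 13619436497) (nat_lit 684) (nat_lit 16762642695) (nat_lit 76) (nat_lit 39652576526) (nat_lit 124) (nat_lit 5) (nat_lit 133) (nat_lit 5) (nat_lit 125) (nat_lit 5) (nat_lit 304) (nat_lit 291) (nat_lit 125))))) (XT.nd (nat_lit 234) (nat_lit 912) (nat_lit 0) (XT.nd (nat_lit 78) (nat_lit 532) (nat_lit 0) (XT.lf (nat_lit 0) (nat_lit 22091697748) (nat_lit 608) (nat_lit 38367022129) (nat_lit 76) (nat_lit 11623291178)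 (nat_lit 117) (nat_lit 5) (nat_lit 125) (nat_lit 5) (nat_lit 118) (nat_lit 5) (nat_lit 305) (nat_lit 291) (nat_lit 124)) (XT.nd (nat_lit 78) (nat_lit 0) (nat_lit 0) (XT.lf (nat_lit 0) (nat_lit 12779908708) (nat_lit 532) (nat_lit 18810019220) (nat_lit 608) (nat_lit 42623739032) (nat_lit 110) (nat_lit 5) (nat_lit 117) (nat_lit 5) (nat_lit 118) (nat_lit 5) (nat_lit 306) (nat_lit 291) (nat_lit 123)) (XT.lf (nat_lit 0) (nat_lit 42200135607) (nat_lit 608) (nat_lit 9398932151) (nat_lit 76) (nat_lit 24833729232) (nat_lit 110) (nat_lit 5) (nat_lit 118) (nat_lit 5) (nat_lit 111) (nat_lit 5) (nat_lit 307) (nat_lit 291) (nat_lit 122)))) (XT.nd (nat_lit 78) (nat_lit 456) (nat_lit 0) (XT.lf (nat_lit 0) (nat_lit 45943007412) (nat_lit 456) (nat_lit 8028041099) (nat_lit 532) (nat_lit 24772932318) (nat_lit 104) (nat_lit 5) (nat_lit 110) (nat_lit 5) (nat_lit 111) (nat_lit 5) (nat_lit 308) (nat_lit 291) (nat_lit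 121)) (XT.nd (nat_lit 78) (nat_lit 0) (nat_lit 0) (XT.lf (nat_lit 0) (nat_lit 23167870296) (nat_lit 456) (nat_lit 43844412537) (nat_lit 532) (nat_lit 14137990759) (nat_lit 98) (nat_lit 5) (nat_lit 104) (nat_lit 5) (nat_lit 105) (nat_lit 5) (nat_lit 309) (nat_lit 291) (nat_lit 120)) (XT.lf (nat_lit 0) (nat_lit 81135871842) (nat_lit 532) (nat_lit 1141274447) (nat_lit 76) (nat_lit 1386828773) (nat_lit 98) (nat_lit 5) (nat_lit 105) (nat_lit 5) (nat_lit 99) (nat_lit 5) (nat_lit 310) (nat_lit 291) (nat_lit 119))))))))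
noncomputable def xc123 : XT := (XT.nd (nat_lit 37128) (nat_lit 0) (nat_lit 380) (XT.nd (nat_lit 36270) (nat_lit 0) (nat_lit 4028) (XT.nd (nat_lit 390) (nat_lit 380) (nat_lit 0) (XT.nd (nat_lit 156) (nat_lit 760) (nat_lit 0) (XT.nd (nat_lit 78) (nat_lit 456) (nat_lit 0) (XT.lf (nat_lit 0) (nat_lit 10494723206) (nat_lit 456) (nat_lit 27121508881) (nat_lit 76) (nat_lit 48653716061) (nat_lit 92) (nat_lit 5) (nat_lit 98) (nat_lit 5) (nat_lit 93) (nat_lit 5) (nat_lit 311) (nat_lit 291) (nat_lit 118)) (XT.lf (nat_lit 0) (nat_lit 24548326013) (nat_lit 532) (nat_lit 54978732006) (nat_lit 76) (nat_lit 9465455862) (nat_lit 86) (nat_lit 5) (nat_lit 93) (nat_lit 5) (nat_lit 87) (nat_lit 5) (nat_lit 312) (nat_lit 291) (nat_lit 117))) (XT.nd (nat_lit 78) (nat_lit 380) (nat_lit 0) (XT.lf (nat_lit 0) (nat_lit 6676393329) (nat_lit 380) (nat_lit 33352950229) (nat_lit 456) (nat_lit 51800124703) (nat_lit 81)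 (nat_lit 5) (nat_lit 86) (nat_lit 5) (nat_lit 87) (nat_lit 5) (nat_lit 313) (nat_lit 291) (nat_lit 116)) (XT.nd (nat_lit 78) (nat_lit 380) (nat_lit 0) (XT.lf (nat_lit 0) (nat_lit 57000379607) (nat_lit 456) (nat_lit 22380378650) (nat_lit 76) (nat_lit 15406035360) (nat_lit 81) (nat_lit 5) (nat_lit 87) (nat_lit 5) (nat_lit 82) (nat_lit 5) (nat_lit 314) (nat_lit 291) (nat_lit 115)) (XT.lf (nat_lit 0) (nat_lit 44052784677) (nat_lit 380) (nat_lit 31526302650) (nat_lit 456) (nat_lit 22290126492) (nat_lit 76) (nat_lit 5) (nat_lit 81) (nat_lit 5) (nat_lit 82) (nat_lit 5) (nat_lit 315) (nat_lit 291) (nat_lit 114))))) (XT.nd (nat_lit 35646) (nat_lit 0) (nat_lit 5244) (XT.nd (nat_lit 78) (nat_lit 76) (nat_lit 0) (XT.lf (nat_lit 0) (nat_lit 13251644119) (nat_lit 304) (nat_lit 82374145426) (nat_lit 380) (nat_lit 5463795786) (nat_lit 72) (nat_lit 5) (nat_lit 76) (nat_lit 5) (nat_lit 77) (nat_lit 5) (nat_lit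 316) (nat_lit 291) (nat_lit 113)) (XT.lf (nat_lit 0) (nat_lit 12842466474) (nat_lit 380) (nat_lit 20098767797) (nat_lit 76) (nat_lit 71499921051) (nat_lit 71) (nat_lit 5) (nat_lit 76) (nat_lit 5) (nat_lit 72) (nat_lit 5) (nat_lit 317) (nat_lit 291) (nat_lit 112))) (XT.nd (nat_lit 78) (nat_lit 0) (nat_lit 0) (XT.lf (nat_lit 0) (nat_lit 11883805412) (nat_lit 1140) (nat_lit 7080588300) (nat_lit 1140) (nat_lit 7080588300) (nat_lit 140) (nat_lit 3) (nat_lit 155) (nat_lit 3) (nat_lit 155) (nat_lit 5) (nat_lit 292) (nat_lit 292) (nat_lit 136)) (XT.nd (nat_lit 78) (nat_lit 0) (nat_lit 76) (XT.lf (nat_lit 76) (nat_lit 21654459340) (nat_lit 0) (nat_lit 2951061753) (nat_lit 1140) (nat_lit 28779284762) (nat_lit 141) (nat_lit 5) (nat_lit 140) (nat_lit 3) (nat_lit 155) (nat_lit 5) (nat_lit 293) (nat_lit 292) (nat_lit 135)) (XT.lf (nat_lit 76) (nat_lit 4578736485) (nat_lit 0) (nat_lit 21420217812) (nat_lit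 1140) (nat_lit 28730032784) (nat_lit 142) (nat_lit 5) (nat_lit 141) (nat_lit 5) (nat_lit 156) (nat_lit 5) (nat_lit 294) (nat_lit 292) (nat_lit 134)))))) (XT.nd (nat_lit 390) (nat_lit 1368) (nat_lit 0) (XT.nd (nat_lit 156) (nat_lit 0) (nat_lit 76) (XT.nd (nat_lit 78) (nat_lit 0) (nat_lit 0) (XT.lf (nat_lit 0) (nat_lit 27965183055) (nat_lit 1064) (nat_lit 12944221413) (nat_lit 1140) (nat_lit 15215885014) (nat_lit 142) (nat_lit 5) (nat_lit 156) (nat_lit 5) (nat_lit 157) (nat_lit 5) (nat_lit 295) (nat_lit 292) (nat_lit 133)) (XT.lf (nat_lit 76) (nat_lit 26420198686) (nat_lit 0) (nat_lit 4077622405) (nat_lit 1140) (nat_lit 27079548532) (nat_lit 143) (nat_lit 5) (nat_lit 142) (nat_lit 5) (nat_lit 157) (nat_lit 5) (nat_lit 296) (nat_lit 292) (nat_lit 132))) (XT.nd (nat_lit 78) (nat_lit 0) (nat_lit 76) (XT.lf (nat_lit 76) (nat_lit 8761064695) (nat_lit 0) (nat_lit 24945392419) (nat_lit 1140) (nat_lit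 25379120965) (nat_lit 144) (nat_lit 5) (nat_lit 143) (nat_lit 5) (nat_lit 158) (nat_lit 5) (nat_lit 297) (nat_lit 292) (nat_lit 131)) (XT.nd (nat_lit 78) (nat_lit 0) (nat_lit 0) (XT.lf (nat_lit 0) (nat_lit 37568235520) (nat_lit 1064) (nat_lit 9508462060) (nat_lit 1140) (nat_lit 13577723097) (nat_lit 144) (nat_lit 5) (nat_lit 158) (nat_lit 5) (nat_lit 159) (nat_lit 5) (nat_lit 298) (nat_lit 292) (nat_lit 130)) (XT.lf (nat_lit 76) (nat_lit 33754006854) (nat_lit 0) (nat_lit 8443543079) (nat_lit 1140) (nat_lit 20086926858) (nat_lit 145) (nat_lit 5) (nat_lit 144) (nat_lit 5) (nat_lit 159) (nat_lit 5) (nat_lit 299) (nat_lit 292) (nat_lit 129))))) (XT.nd (nat_lit 234) (nat_lit 1596) (nat_lit 0) (XT.nd (nat_lit 78) (nat_lit 0) (nat_lit 76) (XT.lf (nat_lit 76) (nat_lit 15374173923) (nat_lit 0) (nat_lit 32237843250) (nat_lit 1140) (nat_lit 16367412496) (nat_lit 146) (nat_lit 5) (nat_lit 145) (nat_lit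 5) (nat_lit 160) (nat_lit 5) (nat_lit 300) (nat_lit 292) (nat_lit 128)) (XT.nd (nat_lit 78) (nat_lit 0) (nat_lit 0) (XT.lf (nat_lit 0) (nat_lit 53753508049) (nat_lit 1064) (nat_lit 3845628194) (nat_lit 1140) (nat_lit 8146309291) (nat_lit 146) (nat_lit 5) (nat_lit 160) (nat_lit 5) (nat_lit 161) (nat_lit 5) (nat_lit 301) (nat_lit 292) (nat_lit 127)) (XT.lf (nat_lit 76) (nat_lit 43677654668) (nat_lit 0) (nat_lit 17268092887) (nat_lit 1140) (nat_lit 6631708560) (nat_lit 147) (nat_lit 5) (nat_lit 146) (nat_lit 5) (nat_lit 161) (nat_lit 5) (nat_lit 302) (nat_lit 292) (nat_lit 126)))) (XT.nd (nat_lit 78) (nat_lit 684) (nat_lit 0) (XT.lf (nat_lit 0) (nat_lit 24390799182) (nat_lit 1064) (nat_lit 44620817062) (nat_lit 1140) (nat_lit 474034412) (nat_lit 133) (nat_lit 5) (nat_lit 147) (nat_lit 5) (nat_lit 148) (nat_lit 5) (nat_lit 303) (nat_lit 292) (nat_lit 125)) (XT.nd (nat_lit 78) (nat_lit 0) (nat_lit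 0) (XT.lf (nat_lit 0) (nat_lit 3955085641) (nat_lit 608) (nat_lit 2378835421) (nat_lit 684) (nat_lit 65139830271) (nat_lit 124) (nat_lit 5) (nat_lit 132) (nat_lit 5) (nat_lit 133) (nat_lit 5) (nat_lit 304) (nat_lit 292) (nat_lit 124)) (XT.lf (nat_lit 0) (nat_lit 14343461461) (nat_lit 684) (nat_lit 17561607244) (nat_lit 76) (nat_lit 41629921287) (nat_lit 124) (nat_lit 5) (nat_lit 133) (nat_lit 5) (nat_lit 125) (nat_lit 5) (nat_lit 305) (nat_lit 292) (nat_lit 123))))))) (XT.nd (nat_lit 36504) (nat_lit 0) (nat_lit 4864) (XT.nd (nat_lit 390) (nat_lit 1672) (nat_lit 0) (XT.nd (nat_lit 156) (nat_lit 912) (nat_lit 0) (XT.nd (nat_lit 78) (nat_lit 532) (nat_lit 0) (XT.lf (nat_lit 0) (nat_lit 23237619385) (nat_lit 608) (nat_lit 40245953543) (nat_lit 76) (nat_lit 12201196752) (nat_lit 117) (nat_lit 5) (nat_lit 125) (nat_lit 5) (nat_lit 118) (nat_lit 5) (nat_lit 306) (nat_lit 292) (nat_lit 122)) (XT.lf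 (nat_lit 0) (nat_lit 13457193878) (nat_lit 532) (nat_lit 19751966842) (nat_lit 608) (nat_lit 44713900517) (nat_lit 110) (nat_lit 5) (nat_lit 117) (nat_lit 5) (nat_lit 118) (nat_lit 5) (nat_lit 307) (nat_lit 292) (nat_lit 121))) (XT.nd (nat_lit 78) (nat_lit 912) (nat_lit 0) (XT.lf (nat_lit 0) (nat_lit 44347973331) (nat_lit 608) (nat_lit 9831171416) (nat_lit 76) (nat_lit 26074064806) (nat_lit 110) (nat_lit 5) (nat_lit 118) (nat_lit 5) (nat_lit 111) (nat_lit 5) (nat_lit 308) (nat_lit 292) (nat_lit 120)) (XT.nd (nat_lit 78) (nat_lit 456) (nat_lit 0) (XT.lf (nat_lit 0) (nat_lit 48276784253) (nat_lit 456) (nat_lit 8429198230) (nat_lit 532) (nat_lit 25974017981) (nat_lit 104) (nat_lit 5) (nat_lit 110) (nat_lit 5) (nat_lit 111) (nat_lit 5) (nat_lit 309) (nat_lit 292) (nat_lit 119)) (XT.lf (nat_lit 0) (nat_lit 24362983704) (nat_lit 456) (nat_lit 46034917579) (nat_lit 532) (nat_lit 14808752087) (nat_lit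 98) (nat_lit 5) (nat_lit 104) (nat_lit 5) (nat_lit 105) (nat_lit 5) (nat_lit 310) (nat_lit 292) (nat_lit 118))))) (XT.nd (nat_lit 234) (nat_lit 760) (nat_lit 0) (XT.nd (nat_lit 78) (nat_lit 912) (nat_lit 0) (XT.lf (nat_lit 0) (nat_lit 85226018576) (nat_lit 532) (nat_lit 1162302643) (nat_lit 76) (nat_lit 1457772219) (nat_lit 98) (nat_lit 5) (nat_lit 105) (nat_lit 5) (nat_lit 99) (nat_lit 5) (nat_lit 311) (nat_lit 292) (nat_lit 117)) (XT.nd (nat_lit 78) (nat_lit 456) (nat_lit 0) (XT.lf (nat_lit 0) (nat_lit 11051953066) (nat_lit 456) (nat_lit 28441861290) (nat_lit 76) (nat_lit 51088582617) (nat_lit 92) (nat_lit 5) (nat_lit 98) (nat_lit 5) (nat_lit 93) (nat_lit 5) (nat_lit 312) (nat_lit 292) (nat_lit 116)) (XT.lf (nat_lit 0) (nat_lit 25807055110) (nat_lit 532) (nat_lit 57691993775) (nat_lit 76) (nat_lit 9942081048) (nat_lit 86) (nat_lit 5) (nat_lit 93) (nat_lit 5) (nat_lit 87) (nat_lit 5) (nat_lit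 313) (nat_lit 292) (nat_lit 115)))) (XT.nd (nat_lit 78) (nat_lit 380) (nat_lit 0) (XT.lf (nat_lit 0) (nat_lit 7044865215) (nat_lit 380) (nat_lit 35016100330) (nat_lit 456) (nat_lit 54359004573) (nat_lit 81) (nat_lit 5) (nat_lit 86) (nat_lit 5) (nat_lit 87) (nat_lit 5) (nat_lit 314) (nat_lit 292) (nat_lit 114)) (XT.nd (nat_lit 78) (nat_lit 380) (nat_lit 0) (XT.lf (nat_lit 0) (nat_lit 59879158626) (nat_lit 456) (nat_lit 23465511350) (nat_lit 76) (nat_lit 16180536794) (nat_lit 81) (nat_lit 5) (nat_lit 87) (nat_lit 5) (nat_lit 82) (nat_lit 5) (nat_lit 315) (nat_lit 292) (nat_lit 113)) (XT.lf (nat_lit 0) (nat_lit 46288338801) (nat_lit 380) (nat_lit 33097409803) (nat_lit 456) (nat_lit 23376034007) (nat_lit 76) (nat_lit 5) (nat_lit 81) (nat_lit 5) (nat_lit 82) (nat_lit 5) (nat_lit 316) (nat_lit 292) (nat_lit 112)))))) (XT.nd (nat_lit 390) (nat_lit 0) (nat_lit 228) (XT.nd (nat_lit 156) (nat_lit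 0) (nat_lit 76) (XT.nd (nat_lit 78) (nat_lit 0) (nat_lit 0) (XT.lf (nat_lit 0) (nat_lit 12513004517) (nat_lit 1140) (nat_lit 7416541077) (nat_lit 1140) (nat_lit 7416541077) (nat_lit 140) (nat_lit 3) (nat_lit 155) (nat_lit 3) (nat_lit 155) (nat_lit 5) (nat_lit 293) (nat_lit 293) (nat_lit 134)) (XT.lf (nat_lit 76) (nat_lit 22772299256) (nat_lit 0) (nat_lit 3130518952) (nat_lit 1140) (nat_lit 30149037927) (nat_lit 141) (nat_lit 5) (nat_lit 140) (nat_lit 3) (nat_lit 155) (nat_lit 5) (nat_lit 294) (nat_lit 293) (nat_lit 133))) (XT.nd (nat_lit 78) (nat_lit 0) (nat_lit 76) (XT.lf (nat_lit 76) (nat_lit 4844208766) (nat_lit 0) (nat_lit 22518581950) (nat_lit 1140) (nat_lit 30100558218) (nat_lit 142) (nat_lit 5) (nat_lit 141) (nat_lit 5) (nat_lit 156) (nat_lit 5) (nat_lit 295) (nat_lit 293) (nat_lit 132)) (XT.nd (nat_lit 78) (nat_lit 0) (nat_lit 0) (XT.lf (nat_lit 0) (nat_lit 29424038176) (nat_lit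 1064) (nat_lit 13554398299) (nat_lit 1140) (nat_lit 15951136897) (nat_lit 142) (nat_lit 5) (nat_lit 156) (nat_lit 5) (nat_lit 157) (nat_lit 5) (nat_lit 296) (nat_lit 293) (nat_lit 131)) (XT.lf (nat_lit 76) (nat_lit 27777181227) (nat_lit 0) (nat_lit 4303587155) (nat_lit 1140) (nat_lit 28373573078) (nat_lit 143) (nat_lit 5) (nat_lit 142) (nat_lit 5) (nat_lit 157) (nat_lit 5) (nat_lit 297) (nat_lit 293) (nat_lit 130))))) (XT.nd (nat_lit 234) (nat_lit 0) (nat_lit 152) (XT.nd (nat_lit 78) (nat_lit 0) (nat_lit 76) (XT.lf (nat_lit 76) (nat_lit 9236107862) (nat_lit 0) (nat_lit 26211117159) (nat_lit 1140) (nat_lit 26590821032) (nat_lit 144) (nat_lit 5) (nat_lit 143) (nat_lit 5) (nat_lit 158) (nat_lit 5) (nat_lit 298) (nat_lit 293) (nat_lit 129)) (XT.nd (nat_lit 78) (nat_lit 0) (nat_lit 0) (XT.lf (nat_lit 0) (nat_lit 39499283153) (nat_lit 1064) (nat_lit 9946763007) (nat_lit 1140) (nat_lit 14239375925)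 (nat_lit 144) (nat_lit 5) (nat_lit 158) (nat_lit 5) (nat_lit 159) (nat_lit 5) (nat_lit 299) (nat_lit 293) (nat_lit 128)) (XT.lf (nat_lit 76) (nat_lit 35477765254) (nat_lit 0) (nat_lit 8880138176) (nat_lit 1140) (nat_lit 21039149064) (nat_lit 145) (nat_lit 5) (nat_lit 144) (nat_lit 5) (nat_lit 159) (nat_lit 5) (nat_lit 300) (nat_lit 293) (nat_lit 127)))) (XT.nd (nat_lit 78) (nat_lit 0) (nat_lit 76) (XT.lf (nat_lit 76) (nat_lit 16179642594) (nat_lit 0) (nat_lit 33861269183) (nat_lit 1140) (nat_lit 17135913079) (nat_lit 146) (nat_lit 5) (nat_lit 145) (nat_lit 5) (nat_lit 160) (nat_lit 5) (nat_lit 301) (nat_lit 293) (nat_lit 126)) (XT.nd (nat_lit 78) (nat_lit 0) (nat_lit 0) (XT.lf (nat_lit 0) (nat_lit 56487071904) (nat_lit 1064) (nat_lit 4001293280) (nat_lit 1140) (nat_lit 8542854561) (nat_lit 146) (nat_lit 5) (nat_lit 160) (nat_lit 5) (nat_lit 161) (nat_lit 5) (nat_lit 302) (nat_lit 293) (nat_lit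 125)) (XT.lf (nat_lit 76) (nat_lit 45897104126) (nat_lit 0) (nat_lit 18139975985) (nat_lit 1140) (nat_lit 6917811823) (nat_lit 147) (nat_lit 5) (nat_lit 146) (nat_lit 5) (nat_lit 161) (nat_lit 5) (nat_lit 303) (nat_lit 293) (nat_lit 124))))))))
noncomputable def xc124 : XT := (XT.nd (nat_lit 37362) (nat_lit 0) (nat_lit 380) (XT.nd (nat_lit 780) (nat_lit 836) (nat_lit 0) (XT.nd (nat_lit 390) (nat_lit 1368) (nat_lit 0) (XT.nd (nat_lit 156) (nat_lit 1064) (nat_lit 0) (XT.nd (nat_lit 78) (nat_lit 684) (nat_lit 0) (XT.lf (nat_lit 0) (nat_lit 25646361312) (nat_lit 1064) (nat_lit 46858052180) (nat_lit 1140) (nat_lit 454143078) (nat_lit 133) (nat_lit 5) (nat_lit 147) (nat_lit 5) (nat_lit 148) (nat_lit 5) (nat_lit 304) (nat_lit 293) (nat_lit 123)) (XT.lf (nat_lit 0) (nat_lit 4188759652) (nat_lit 608) (nat_lit 2502909791) (nat_lit 684) (nat_lit 68354436062) (nat_lit 124) (nat_lit 5) (nat_lit 132)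 (nat_lit 5) (nat_lit 133) (nat_lit 5) (nat_lit 305) (nat_lit 293) (nat_lit 122))) (XT.nd (nat_lit 78) (nat_lit 1064) (nat_lit 0) (XT.lf (nat_lit 0) (nat_lit 15099685001) (nat_lit 684) (nat_lit 18404161451) (nat_lit 76) (nat_lit 43706624549) (nat_lit 124) (nat_lit 5) (nat_lit 133) (nat_lit 5) (nat_lit 125) (nat_lit 5) (nat_lit 306) (nat_lit 293) (nat_lit 121)) (XT.nd (nat_lit 78) (nat_lit 532) (nat_lit 0) (XT.lf (nat_lit 0) (nat_lit 24436994004) (nat_lit 608) (nat_lit 42222496396) (nat_lit 76) (nat_lit 12808300594) (nat_lit 117) (nat_lit 5) (nat_lit 125) (nat_lit 5) (nat_lit 118) (nat_lit 5) (nat_lit 307) (nat_lit 293) (nat_lit 120)) (XT.lf (nat_lit 0) (nat_lit 14164783491) (nat_lit 532) (nat_lit 20740877349) (nat_lit 608) (nat_lit 46912384236) (nat_lit 110) (nat_lit 5) (nat_lit 117) (nat_lit 5) (nat_lit 118) (nat_lit 5) (nat_lit 308) (nat_lit 293) (nat_lit 119))))) (XT.nd (nat_lit 156) (nat_lit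 912) (nat_lit 0) (XT.nd (nat_lit 78) (nat_lit 456) (nat_lit 0) (XT.lf (nat_lit 0) (nat_lit 46599685778) (nat_lit 608) (nat_lit 10288528314) (nat_lit 76) (nat_lit 27376542751) (nat_lit 110) (nat_lit 5) (nat_lit 118) (nat_lit 5) (nat_lit 111) (nat_lit 5) (nat_lit 309) (nat_lit 293) (nat_lit 118)) (XT.lf (nat_lit 0) (nat_lit 50723844754) (nat_lit 456) (nat_lit 8850435989) (nat_lit 532) (nat_lit 27238649987) (nat_lit 104) (nat_lit 5) (nat_lit 110) (nat_lit 5) (nat_lit 111) (nat_lit 5) (nat_lit 310) (nat_lit 293) (nat_lit 117))) (XT.nd (nat_lit 78) (nat_lit 456) (nat_lit 0) (XT.lf (nat_lit 0) (nat_lit 25614438914) (nat_lit 456) (nat_lit 48335107372) (nat_lit 532) (nat_lit 15516411270) (nat_lit 98) (nat_lit 5) (nat_lit 104) (nat_lit 5) (nat_lit 105) (nat_lit 5) (nat_lit 311) (nat_lit 293) (nat_lit 116)) (XT.nd (nat_lit 78) (nat_lit 456) (nat_lit 0) (XT.lf (nat_lit 0) (nat_lit 89517571787) (nat_lit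 532) (nat_lit 1187732490) (nat_lit 76) (nat_lit 1532113898) (nat_lit 98) (nat_lit 5) (nat_lit 105) (nat_lit 5) (nat_lit 99) (nat_lit 5) (nat_lit 312) (nat_lit 293) (nat_lit 115)) (XT.lf (nat_lit 0) (nat_lit 11634023463) (nat_lit 456) (nat_lit 29831552508) (nat_lit 76) (nat_lit 53644989756) (nat_lit 92) (nat_lit 5) (nat_lit 98) (nat_lit 5) (nat_lit 93) (nat_lit 5) (nat_lit 313) (nat_lit 293) (nat_lit 114)))))) (XT.nd (nat_lit 36114) (nat_lit 0) (nat_lit 4560) (XT.nd (nat_lit 156) (nat_lit 0) (nat_lit 0) (XT.nd (nat_lit 78) (nat_lit 380) (nat_lit 0) (XT.lf (nat_lit 0) (nat_lit 27125809494) (nat_lit 532) (nat_lit 60544235341) (nat_lit 76) (nat_lit 10442225820) (nat_lit 86) (nat_lit 5) (nat_lit 93) (nat_lit 5) (nat_lit 87) (nat_lit 5) (nat_lit 314) (nat_lit 293) (nat_lit 113)) (XT.lf (nat_lit 0) (nat_lit 7428539060) (nat_lit 380) (nat_lit 36762826063) (nat_lit 456) (nat_lit 57048722270) (nat_lit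 81) (nat_lit 5) (nat_lit 86) (nat_lit 5) (nat_lit 87) (nat_lit 5) (nat_lit 315) (nat_lit 293) (nat_lit 112))) (XT.nd (nat_lit 35802) (nat_lit 0) (nat_lit 4484) (XT.lf (nat_lit 0) (nat_lit 62899202761) (nat_lit 456) (nat_lit 24608051105) (nat_lit 76) (nat_lit 16993372855) (nat_lit 81) (nat_lit 5) (nat_lit 87) (nat_lit 5) (nat_lit 82) (nat_lit 5) (nat_lit 316) (nat_lit 293) (nat_lit 111)) (XT.nd (nat_lit 78) (nat_lit 0) (nat_lit 0) (XT.lf (nat_lit 0) (nat_lit 13170408787) (nat_lit 1140) (nat_lit 7770972088) (nat_lit 1140) (nat_lit 7770972088) (nat_lit 140) (nat_lit 3) (nat_lit 155) (nat_lit 3) (nat_lit 155) (nat_lit 5) (nat_lit 294) (nat_lit 294) (nat_lit 132)) (XT.lf (nat_lit 76) (nat_lit 23942766326) (nat_lit 0) (nat_lit 3315982869) (nat_lit 1140) (nat_lit 31593713340) (nat_lit 141) (nat_lit 5) (nat_lit 140) (nat_lit 3) (nat_lit 155) (nat_lit 5) (nat_lit 295) (nat_lit 294) (nat_lit 131)))))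 (XT.nd (nat_lit 234) (nat_lit 0) (nat_lit 152) (XT.nd (nat_lit 78) (nat_lit 0) (nat_lit 76) (XT.lf (nat_lit 76) (nat_lit 5119557940) (nat_lit 0) (nat_lit 23669321249) (nat_lit 1140) (nat_lit 31545743767) (nat_lit 142) (nat_lit 5) (nat_lit 141) (nat_lit 5) (nat_lit 156) (nat_lit 5) (nat_lit 296) (nat_lit 294) (nat_lit 130)) (XT.nd (nat_lit 78) (nat_lit 0) (nat_lit 0) (XT.lf (nat_lit 0) (nat_lit 30950202415) (nat_lit 1064) (nat_lit 14198527118) (nat_lit 1140) (nat_lit 16725526060) (nat_lit 142) (nat_lit 5) (nat_lit 156) (nat_lit 5) (nat_lit 157) (nat_lit 5) (nat_lit 297) (nat_lit 294) (nat_lit 129)) (XT.lf (nat_lit 76) (nat_lit 29198668503) (nat_lit 0) (nat_lit 4538797017) (nat_lit 1140) (nat_lit 29737872701) (nat_lit 143) (nat_lit 5) (nat_lit 142) (nat_lit 5) (nat_lit 157) (nat_lit 5) (nat_lit 298) (nat_lit 294) (nat_lit 128)))) (XT.nd (nat_lit 78) (nat_lit 0) (nat_lit 76) (XT.lf (nat_lit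 76) (nat_lit 9731464214) (nat_lit 0) (nat_lit 27538412354) (nat_lit 1140) (nat_lit 27868429221) (nat_lit 144) (nat_lit 5) (nat_lit 143) (nat_lit 5) (nat_lit 158) (nat_lit 5) (nat_lit 299) (nat_lit 294) (nat_lit 127)) (XT.nd (nat_lit 78) (nat_lit 0) (nat_lit 0) (XT.lf (nat_lit 0) (nat_lit 41521989585) (nat_lit 1064) (nat_lit 10410430267) (nat_lit 1140) (nat_lit 14935713586) (nat_lit 144) (nat_lit 5) (nat_lit 158) (nat_lit 5) (nat_lit 159) (nat_lit 5) (nat_lit 300) (nat_lit 294) (nat_lit 126)) (XT.lf (nat_lit 76) (nat_lit 37284359237) (nat_lit 0) (nat_lit 9337222584) (nat_lit 1140) (nat_lit 22043828388) (nat_lit 145) (nat_lit 5) (nat_lit 144) (nat_lit 5) (nat_lit 159) (nat_lit 5) (nat_lit 301) (nat_lit 294) (nat_lit 125))))))) (XT.nd (nat_lit 780) (nat_lit 1368) (nat_lit 0) (XT.nd (nat_lit 390) (nat_lit 1520) (nat_lit 0) (XT.nd (nat_lit 156) (nat_lit 1596) (nat_lit 0) (XT.nd (nat_lit 78) (nat_lit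 0) (nat_lit 76) (XT.lf (nat_lit 76) (nat_lit 17021967105) (nat_lit 0) (nat_lit 35564794112) (nat_lit 1140) (nat_lit 17947475136) (nat_lit 146) (nat_lit 5) (nat_lit 145) (nat_lit 5) (nat_lit 160) (nat_lit 5) (nat_lit 302) (nat_lit 294) (nat_lit 124)) (XT.lf (nat_lit 0) (nat_lit 59353047680) (nat_lit 1064) (nat_lit 4168145858) (nat_lit 1140) (nat_lit 8960228404) (nat_lit 146) (nat_lit 5) (nat_lit 160) (nat_lit 5) (nat_lit 161) (nat_lit 5) (nat_lit 303) (nat_lit 294) (nat_lit 123))) (XT.nd (nat_lit 78) (nat_lit 1672) (nat_lit 0) (XT.lf (nat_lit 76) (nat_lit 48224219400) (nat_lit 0) (nat_lit 19054664991) (nat_lit 1140) (nat_lit 7222448750) (nat_lit 147) (nat_lit 5) (nat_lit 146) (nat_lit 5) (nat_lit 161) (nat_lit 5) (nat_lit 304) (nat_lit 294) (nat_lit 122)) (XT.nd (nat_lit 78) (nat_lit 684) (nat_lit 0) (XT.lf (nat_lit 0) (nat_lit 26961352549) (nat_lit 1064) (nat_lit 49206573170) (nat_lit 1140)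 (nat_lit 437310047) (nat_lit 133) (nat_lit 5) (nat_lit 147) (nat_lit 5) (nat_lit 148) (nat_lit 5) (nat_lit 305) (nat_lit 294) (nat_lit 121)) (XT.lf (nat_lit 0) (nat_lit 4430777888) (nat_lit 608) (nat_lit 2632710698) (nat_lit 684) (nat_lit 71733712764) (nat_lit 124) (nat_lit 5) (nat_lit 132) (nat_lit 5) (nat_lit 133) (nat_lit 5) (nat_lit 306) (nat_lit 294) (nat_lit 120))))) (XT.nd (nat_lit 156) (nat_lit 988) (nat_lit 0) (XT.nd (nat_lit 78) (nat_lit 532) (nat_lit 0) (XT.lf (nat_lit 0) (nat_lit 15890089175) (nat_lit 684) (nat_lit 19292146254) (nat_lit 76) (nat_lit 45887608563) (nat_lit 124) (nat_lit 5) (nat_lit 133) (nat_lit 5) (nat_lit 125) (nat_lit 5) (nat_lit 307) (nat_lit 294) (nat_lit 119)) (XT.lf (nat_lit 0) (nat_lit 25692851550) (nat_lit 608) (nat_lit 44301190537) (nat_lit 76) (nat_lit 13446034449) (nat_lit 117) (nat_lit 5) (nat_lit 125) (nat_lit 5) (nat_lit 118) (nat_lit 5) (nat_lit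 308) (nat_lit 294) (nat_lit 118))) (XT.nd (nat_lit 78) (nat_lit 456) (nat_lit 0) (XT.lf (nat_lit 0) (nat_lit 14904523725) (nat_lit 532) (nat_lit 21779111389) (nat_lit 608) (nat_lit 49224251695) (nat_lit 110) (nat_lit 5) (nat_lit 117) (nat_lit 5) (nat_lit 118) (nat_lit 5) (nat_lit 309) (nat_lit 294) (nat_lit 117)) (XT.nd (nat_lit 78) (nat_lit 456) (nat_lit 0) (XT.lf (nat_lit 0) (nat_lit 48960793678) (nat_lit 608) (nat_lit 10771932805) (nat_lit 76) (nat_lit 28744258510) (nat_lit 110) (nat_lit 5) (nat_lit 118) (nat_lit 5) (nat_lit 111) (nat_lit 5) (nat_lit 310) (nat_lit 294) (nat_lit 116)) (XT.lf (nat_lit 0) (nat_lit 53290169679) (nat_lit 456) (nat_lit 9292756289) (nat_lit 532) (nat_lit 28569680997) (nat_lit 104) (nat_lit 5) (nat_lit 110) (nat_lit 5) (nat_lit 111) (nat_lit 5) (nat_lit 311) (nat_lit 294) (nat_lit 115)))))) (XT.nd (nat_lit 36270) (nat_lit 0) (nat_lit 4104) (XT.nd (nat_lit 156)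 (nat_lit 912) (nat_lit 0) (XT.nd (nat_lit 78) (nat_lit 0) (nat_lit 0) (XT.lf (nat_lit 0) (nat_lit 26925370407) (nat_lit 456) (nat_lit 50750451324) (nat_lit 532) (nat_lit 16262500839) (nat_lit 98) (nat_lit 5) (nat_lit 104) (nat_lit 5) (nat_lit 105) (nat_lit 5) (nat_lit 312) (nat_lit 294) (nat_lit 114)) (XT.lf (nat_lit 0) (nat_lit 94020890089) (nat_lit 532) (nat_lit 1217472597) (nat_lit 76) (nat_lit 1610037569) (nat_lit 98) (nat_lit 5) (nat_lit 105) (nat_lit 5) (nat_lit 99) (nat_lit 5) (nat_lit 313) (nat_lit 294) (nat_lit 113))) (XT.nd (nat_lit 78) (nat_lit 456) (nat_lit 0) (XT.lf (nat_lit 0) (nat_lit 12242457284) (nat_lit 456) (nat_lit 31293740704) (nat_lit 76) (nat_lit 56329033354) (nat_lit 92) (nat_lit 5) (nat_lit 98) (nat_lit 5) (nat_lit 93) (nat_lit 5) (nat_lit 314) (nat_lit 294) (nat_lit 112)) (XT.nd (nat_lit 35958) (nat_lit 0) (nat_lit 4104) (XT.lf (nat_lit 0) (nat_lit 28507861084)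 (nat_lit 532) (nat_lit 63542097336) (nat_lit 76) (nat_lit 10967095133) (nat_lit 86) (nat_lit 5) (nat_lit 93) (nat_lit 5) (nat_lit 87) (nat_lit 5) (nat_lit 315) (nat_lit 294) (nat_lit 111)) (XT.lf (nat_lit 0) (nat_lit 13857731081) (nat_lit 1140) (nat_lit 8144648999) (nat_lit 1140) (nat_lit 8144648999) (nat_lit 140) (nat_lit 3) (nat_lit 155) (nat_lit 3) (nat_lit 155) (nat_lit 5) (nat_lit 295) (nat_lit 295) (nat_lit 130))))) (XT.nd (nat_lit 234) (nat_lit 0) (nat_lit 152) (XT.nd (nat_lit 78) (nat_lit 0) (nat_lit 76) (XT.lf (nat_lit 76) (nat_lit 25168795443) (nat_lit 0) (nat_lit 3508029604) (nat_lit 1140) (nat_lit 33116458886) (nat_lit 141) (nat_lit 5) (nat_lit 140) (nat_lit 3) (nat_lit 155) (nat_lit 5) (nat_lit 296) (nat_lit 295) (nat_lit 129)) (XT.nd (nat_lit 78) (nat_lit 0) (nat_lit 76) (XT.lf (nat_lit 76) (nat_lit 5405593647) (nat_lit 0) (nat_lit 24875290896) (nat_lit 1140) (nat_lit 33068752169)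 (nat_lit 142) (nat_lit 5) (nat_lit 141) (nat_lit 5) (nat_lit 156) (nat_lit 5) (nat_lit 297) (nat_lit 295) (nat_lit 128)) (XT.lf (nat_lit 0) (nat_lit 32547564990) (nat_lit 1064) (nat_lit 14877985358) (nat_lit 1140) (nat_lit 17540788594) (nat_lit 142) (nat_lit 5) (nat_lit 156) (nat_lit 5) (nat_lit 157) (nat_lit 5) (nat_lit 298) (nat_lit 295) (nat_lit 127)))) (XT.nd (nat_lit 78) (nat_lit 0) (nat_lit 76) (XT.lf (nat_lit 76) (nat_lit 30688196681) (nat_lit 0) (nat_lit 4783905126) (nat_lit 1140) (nat_lit 31175442952) (nat_lit 143) (nat_lit 5) (nat_lit 142) (nat_lit 5) (nat_lit 157) (nat_lit 5) (nat_lit 299) (nat_lit 295) (nat_lit 126)) (XT.nd (nat_lit 78) (nat_lit 0) (nat_lit 76) (XT.lf (nat_lit 76) (nat_lit 10248469134) (nat_lit 0) (nat_lit 28930516044) (nat_lit 1140) (nat_lit 29214746044) (nat_lit 144) (nat_lit 5) (nat_lit 143) (nat_lit 5) (nat_lit 158) (nat_lit 5) (nat_lit 300) (nat_lit 295)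 (nat_lit 125)) (XT.lf (nat_lit 0) (nat_lit 43641392714) (nat_lit 1064) (nat_lit 10900411291) (nat_lit 1140) (nat_lit 15668321365) (nat_lit 144) (nat_lit 5) (nat_lit 158) (nat_lit 5) (nat_lit 159) (nat_lit 5) (nat_lit 301) (nat_lit 295) (nat_lit 124))))))))
noncomputable def xc125 : XT := (XT.nd (nat_lit 37596) (nat_lit 0) (nat_lit 456) (XT.nd (nat_lit 780) (nat_lit 1368) (nat_lit 0) (XT.nd (nat_lit 390) (nat_lit 1748) (nat_lit 0) (XT.nd (nat_lit 156) (nat_lit 836) (nat_lit 0) (XT.nd (nat_lit 78) (nat_lit 0) (nat_lit 76) (XT.lf (nat_lit 76) (nat_lit 39178242252) (nat_lit 0) (nat_lit 9815945390) (nat_lit 1140) (nat_lit 23103137151) (nat_lit 145) (nat_lit 5) (nat_lit 144) (nat_lit 5) (nat_lit 159) (nat_lit 5) (nat_lit 302) (nat_lit 295) (nat_lit 123)) (XT.lf (nat_lit 76) (nat_lit 17903307983) (nat_lit 0) (nat_lit 37352522679) (nat_lit 1140) (nat_lit 18803820686) (nat_lit 146) (nat_lit 5) (nat_lit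 145) (nat_lit 5) (nat_lit 160) (nat_lit 5) (nat_lit 303) (nat_lit 295) (nat_lit 122))) (XT.nd (nat_lit 78) (nat_lit 988) (nat_lit 0) (XT.lf (nat_lit 0) (nat_lit 62358452608) (nat_lit 1064) (nat_lit 4346428810) (nat_lit 1140) (nat_lit 9399379158) (nat_lit 146) (nat_lit 5) (nat_lit 160) (nat_lit 5) (nat_lit 161) (nat_lit 5) (nat_lit 304) (nat_lit 295) (nat_lit 121)) (XT.nd (nat_lit 78) (nat_lit 988) (nat_lit 0) (XT.lf (nat_lit 76) (nat_lit 50664691203) (nat_lit 0) (nat_lit 20014373485) (nat_lit 1140) (nat_lit 7546152899) (nat_lit 147) (nat_lit 5) (nat_lit 146) (nat_lit 5) (nat_lit 161) (nat_lit 5) (nat_lit 305) (nat_lit 295) (nat_lit 120)) (XT.lf (nat_lit 0) (nat_lit 28339055706) (nat_lit 1064) (nat_lit 51671997866) (nat_lit 1140) (nat_lit 423311435) (nat_lit 133) (nat_lit 5) (nat_lit 147) (nat_lit 5) (nat_lit 148) (nat_lit 5) (nat_lit 306) (nat_lit 295) (nat_lit 119))))) (XT.nd (nat_lit 156)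 (nat_lit 1064) (nat_lit 0) (XT.nd (nat_lit 78) (nat_lit 0) (nat_lit 0) (XT.lf (nat_lit 0) (nat_lit 4681868033) (nat_lit 608) (nat_lit 2768568834) (nat_lit 684) (nat_lit 75285527563) (nat_lit 124) (nat_lit 5) (nat_lit 132) (nat_lit 5) (nat_lit 133) (nat_lit 5) (nat_lit 307) (nat_lit 295) (nat_lit 118)) (XT.lf (nat_lit 0) (nat_lit 16716720549) (nat_lit 684) (nat_lit 20227526111) (nat_lit 76) (nat_lit 48178045941) (nat_lit 124) (nat_lit 5) (nat_lit 133) (nat_lit 5) (nat_lit 125) (nat_lit 5) (nat_lit 308) (nat_lit 295) (nat_lit 117))) (XT.nd (nat_lit 78) (nat_lit 532) (nat_lit 0) (XT.lf (nat_lit 0) (nat_lit 27008340246) (nat_lit 608) (nat_lit 46486834482) (nat_lit 76) (nat_lit 14115904267) (nat_lit 117) (nat_lit 5) (nat_lit 125) (nat_lit 5) (nat_lit 118) (nat_lit 5) (nat_lit 309) (nat_lit 295) (nat_lit 116)) (XT.nd (nat_lit 78) (nat_lit 0) (nat_lit 0) (XT.lf (nat_lit 0) (nat_lit 15678322302)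 (nat_lit 532) (nat_lit 22869146480) (nat_lit 608) (nat_lit 51654850446) (nat_lit 110) (nat_lit 5) (nat_lit 117) (nat_lit 5) (nat_lit 118) (nat_lit 5) (nat_lit 310) (nat_lit 295) (nat_lit 115)) (XT.lf (nat_lit 0) (nat_lit 51437063394) (nat_lit 608) (nat_lit 11282391646) (nat_lit 76) (nat_lit 30180463382) (nat_lit 110) (nat_lit 5) (nat_lit 118) (nat_lit 5) (nat_lit 111) (nat_lit 5) (nat_lit 311) (nat_lit 295) (nat_lit 114)))))) (XT.nd (nat_lit 36348) (nat_lit 0) (nat_lit 3648) (XT.nd (nat_lit 156) (nat_lit 456) (nat_lit 0) (XT.nd (nat_lit 78) (nat_lit 456) (nat_lit 0) (XT.lf (nat_lit 0) (nat_lit 55982009399) (nat_lit 456) (nat_lit 9757211337) (nat_lit 532) (nat_lit 29970136485) (nat_lit 104) (nat_lit 5) (nat_lit 110) (nat_lit 5) (nat_lit 111) (nat_lit 5) (nat_lit 312) (nat_lit 295) (nat_lit 113)) (XT.lf (nat_lit 0) (nat_lit 28299039876) (nat_lit 456) (nat_lit 53286693695) (nat_lit 532) (nat_lit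 17048658992) (nat_lit 98) (nat_lit 5) (nat_lit 104) (nat_lit 5) (nat_lit 105) (nat_lit 5) (nat_lit 313) (nat_lit 295) (nat_lit 112))) (XT.nd (nat_lit 78) (nat_lit 456) (nat_lit 0) (XT.lf (nat_lit 0) (nat_lit 98746823222) (nat_lit 532) (nat_lit 1251455962) (nat_lit 76) (nat_lit 1691734890) (nat_lit 98) (nat_lit 5) (nat_lit 105) (nat_lit 5) (nat_lit 99) (nat_lit 5) (nat_lit 314) (nat_lit 295) (nat_lit 111)) (XT.nd (nat_lit 36036) (nat_lit 0) (nat_lit 3648) (XT.lf (nat_lit 0) (nat_lit 12878827448) (nat_lit 456) (nat_lit 32831770660) (nat_lit 76) (nat_lit 59147112334) (nat_lit 92) (nat_lit 5) (nat_lit 98) (nat_lit 5) (nat_lit 93) (nat_lit 5) (nat_lit 315) (nat_lit 295) (nat_lit 110)) (XT.lf (nat_lit 0) (nat_lit 14576741766) (nat_lit 1140) (nat_lit 8538392383) (nat_lit 1140) (nat_lit 8538392383) (nat_lit 140) (nat_lit 3) (nat_lit 155) (nat_lit 3) (nat_lit 155) (nat_lit 5) (nat_lit 296) (nat_lit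 296) (nat_lit 128))))) (XT.nd (nat_lit 234) (nat_lit 0) (nat_lit 152) (XT.nd (nat_lit 78) (nat_lit 0) (nat_lit 76) (XT.lf (nat_lit 76) (nat_lit 26453440022) (nat_lit 0) (nat_lit 3707238423) (nat_lit 1140) (nat_lit 34720635462) (nat_lit 141) (nat_lit 5) (nat_lit 140) (nat_lit 3) (nat_lit 155) (nat_lit 5) (nat_lit 297) (nat_lit 296) (nat_lit 127)) (XT.nd (nat_lit 78) (nat_lit 0) (nat_lit 76) (XT.lf (nat_lit 76) (nat_lit 5703136649) (nat_lit 0) (nat_lit 26139466855) (nat_lit 1140) (nat_lit 34672957317) (nat_lit 142) (nat_lit 5) (nat_lit 141) (nat_lit 5) (nat_lit 156) (nat_lit 5) (nat_lit 298) (nat_lit 296) (nat_lit 126)) (XT.lf (nat_lit 0) (nat_lit 34220160884) (nat_lit 1064) (nat_lit 15594249148) (nat_lit 1140) (nat_lit 18398767915) (nat_lit 142) (nat_lit 5) (nat_lit 156) (nat_lit 5) (nat_lit 157) (nat_lit 5) (nat_lit 299) (nat_lit 296) (nat_lit 125)))) (XT.nd (nat_lit 78) (nat_lit 0) (nat_lit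 76) (XT.lf (nat_lit 76) (nat_lit 32249449828) (nat_lit 0) (nat_lit 5039579527) (nat_lit 1140) (nat_lit 32689477337) (nat_lit 143) (nat_lit 5) (nat_lit 142) (nat_lit 5) (nat_lit 157) (nat_lit 5) (nat_lit 300) (nat_lit 296) (nat_lit 124)) (XT.nd (nat_lit 78) (nat_lit 0) (nat_lit 76) (XT.lf (nat_lit 76) (nat_lit 10788495048) (nat_lit 0) (nat_lit 30390813340) (nat_lit 1140) (nat_lit 30632758052) (nat_lit 144) (nat_lit 5) (nat_lit 143) (nat_lit 5) (nat_lit 158) (nat_lit 5) (nat_lit 301) (nat_lit 296) (nat_lit 123)) (XT.lf (nat_lit 0) (nat_lit 45862740036) (nat_lit 1064) (nat_lit 11417730731) (nat_lit 1140) (nat_lit 16438877659) (nat_lit 144) (nat_lit 5) (nat_lit 158) (nat_lit 5) (nat_lit 159) (nat_lit 5) (nat_lit 302) (nat_lit 296) (nat_lit 122))))))) (XT.nd (nat_lit 858) (nat_lit 456) (nat_lit 0) (XT.nd (nat_lit 390) (nat_lit 2204) (nat_lit 0) (XT.nd (nat_lit 156) (nat_lit 836) (nat_lit 0) (XT.nd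 (nat_lit 78) (nat_lit 0) (nat_lit 76) (XT.lf (nat_lit 76) (nat_lit 41164061442) (nat_lit 0) (nat_lit 10317501551) (nat_lit 1140) (nat_lit 24219398175) (nat_lit 145) (nat_lit 5) (nat_lit 144) (nat_lit 5) (nat_lit 159) (nat_lit 5) (nat_lit 303) (nat_lit 296) (nat_lit 121)) (XT.lf (nat_lit 76) (nat_lit 18825904242) (nat_lit 0) (nat_lit 39228755490) (nat_lit 1140) (nat_lit 19706797927) (nat_lit 146) (nat_lit 5) (nat_lit 145) (nat_lit 5) (nat_lit 160) (nat_lit 5) (nat_lit 304) (nat_lit 296) (nat_lit 120))) (XT.nd (nat_lit 78) (nat_lit 988) (nat_lit 0) (XT.lf (nat_lit 0) (nat_lit 65510617909) (nat_lit 1064) (nat_lit 4536426585) (nat_lit 1140) (nat_lit 9861311231) (nat_lit 146) (nat_lit 5) (nat_lit 160) (nat_lit 5) (nat_lit 161) (nat_lit 5) (nat_lit 305) (nat_lit 296) (nat_lit 119)) (XT.nd (nat_lit 78) (nat_lit 988) (nat_lit 0) (XT.lf (nat_lit 76) (nat_lit 53224466201) (nat_lit 0) (nat_lit 21021418912)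 (nat_lit 1140) (nat_lit 7889521052) (nat_lit 147) (nat_lit 5) (nat_lit 146) (nat_lit 5) (nat_lit 161) (nat_lit 5) (nat_lit 306) (nat_lit 296) (nat_lit 118)) (XT.lf (nat_lit 0) (nat_lit 29782888790) (nat_lit 1064) (nat_lit 54260220016) (nat_lit 1140) (nat_lit 411947198) (nat_lit 133) (nat_lit 5) (nat_lit 147) (nat_lit 5) (nat_lit 148) (nat_lit 5) (nat_lit 307) (nat_lit 296) (nat_lit 117))))) (XT.nd (nat_lit 234) (nat_lit 988) (nat_lit 0) (XT.nd (nat_lit 78) (nat_lit 532) (nat_lit 0) (XT.lf (nat_lit 0) (nat_lit 4942765289) (nat_lit 608) (nat_lit 2910827300) (nat_lit 684) (nat_lit 79018175062) (nat_lit 124) (nat_lit 5) (nat_lit 132) (nat_lit 5) (nat_lit 133) (nat_lit 5) (nat_lit 308) (nat_lit 296) (nat_lit 116)) (XT.nd (nat_lit 78) (nat_lit 532) (nat_lit 0) (XT.lf (nat_lit 0) (nat_lit 17581696636) (nat_lit 684) (nat_lit 21212392252) (nat_lit 76) (nat_lit 50583371775) (nat_lit 124) (nat_lit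 5) (nat_lit 133) (nat_lit 5) (nat_lit 125) (nat_lit 5) (nat_lit 309) (nat_lit 296) (nat_lit 115)) (XT.lf (nat_lit 0) (nat_lit 28386735598) (nat_lit 608) (nat_lit 48784495407) (nat_lit 76) (nat_lit 14819493671) (nat_lit 117) (nat_lit 5) (nat_lit 125) (nat_lit 5) (nat_lit 118) (nat_lit 5) (nat_lit 310) (nat_lit 296) (nat_lit 114)))) (XT.nd (nat_lit 78) (nat_lit 456) (nat_lit 0) (XT.lf (nat_lit 0) (nat_lit 16488154417) (nat_lit 532) (nat_lit 24013582961) (nat_lit 608) (nat_lit 54209825318) (nat_lit 110) (nat_lit 5) (nat_lit 117) (nat_lit 5) (nat_lit 118) (nat_lit 5) (nat_lit 311) (nat_lit 296) (nat_lit 113)) (XT.nd (nat_lit 78) (nat_lit 456) (nat_lit 0) (XT.lf (nat_lit 0) (nat_lit 54034522036) (nat_lit 608) (nat_lit 11820989414) (nat_lit 76) (nat_lit 31688572217) (nat_lit 110) (nat_lit 5) (nat_lit 118) (nat_lit 5) (nat_lit 111) (nat_lit 5) (nat_lit 312) (nat_lit 296) (nat_lit 112)) (XT.lf (nat_lit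 0) (nat_lit 58805900105) (nat_lit 456) (nat_lit 10244906130) (nat_lit 532) (nat_lit 31443220577) (nat_lit 104) (nat_lit 5) (nat_lit 110) (nat_lit 5) (nat_lit 111) (nat_lit 5) (nat_lit 313) (nat_lit 296) (nat_lit 111)))))) (XT.nd (nat_lit 36504) (nat_lit 0) (nat_lit 3344) (XT.nd (nat_lit 36270) (nat_lit 0) (nat_lit 3192) (XT.nd (nat_lit 36192) (nat_lit 0) (nat_lit 3192) (XT.lf (nat_lit 0) (nat_lit 29738845339) (nat_lit 456) (nat_lit 55949867204) (nat_lit 532) (nat_lit 17876632179) (nat_lit 98) (nat_lit 5) (nat_lit 104) (nat_lit 5) (nat_lit 105) (nat_lit 5) (nat_lit 314) (nat_lit 296) (nat_lit 110)) (XT.lf (nat_lit 0) (nat_lit 15329274212) (nat_lit 1140) (nat_lit 8953077023) (nat_lit 1140) (nat_lit 8953077023) (nat_lit 140) (nat_lit 3) (nat_lit 155) (nat_lit 3) (nat_lit 155) (nat_lit 5) (nat_lit 297) (nat_lit 297) (nat_lit 126))) (XT.nd (nat_lit 78) (nat_lit 0) (nat_lit 76) (XT.lf (nat_lit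 76) (nat_lit 27799880557) (nat_lit 0) (nat_lit 3914194302) (nat_lit 1140) (nat_lit 36409822457) (nat_lit 141) (nat_lit 5) (nat_lit 140) (nat_lit 3) (nat_lit 155) (nat_lit 5) (nat_lit 298) (nat_lit 297) (nat_lit 125)) (XT.nd (nat_lit 78) (nat_lit 0) (nat_lit 76) (XT.lf (nat_lit 76) (nat_lit 6013022117) (nat_lit 0) (nat_lit 27464953952) (nat_lit 1140) (nat_lit 36361949891) (nat_lit 142) (nat_lit 5) (nat_lit 141) (nat_lit 5) (nat_lit 156) (nat_lit 5) (nat_lit 299) (nat_lit 297) (nat_lit 124)) (XT.lf (nat_lit 0) (nat_lit 35972182666) (nat_lit 1064) (nat_lit 16348895412) (nat_lit 1140) (nat_lit 19301418230) (nat_lit 142) (nat_lit 5) (nat_lit 156) (nat_lit 5) (nat_lit 157) (nat_lit 5) (nat_lit 300) (nat_lit 297) (nat_lit 123))))) (XT.nd (nat_lit 234) (nat_lit 0) (nat_lit 152) (XT.nd (nat_lit 78) (nat_lit 0) (nat_lit 76) (XT.lf (nat_lit 76) (nat_lit 33886269996) (nat_lit 0) (nat_lit 5306505574)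 (nat_lit 1140) (nat_lit 34283372734) (nat_lit 143) (nat_lit 5) (nat_lit 142) (nat_lit 5) (nat_lit 157) (nat_lit 5) (nat_lit 301) (nat_lit 297) (nat_lit 122)) (XT.nd (nat_lit 78) (nat_lit 0) (nat_lit 76) (XT.lf (nat_lit 76) (nat_lit 11352956043) (nat_lit 0) (nat_lit 31922845158) (nat_lit 1140) (nat_lit 32125642853) (nat_lit 144) (nat_lit 5) (nat_lit 143) (nat_lit 5) (nat_lit 158) (nat_lit 5) (nat_lit 302) (nat_lit 297) (nat_lit 121)) (XT.lf (nat_lit 0) (nat_lit 48191503058) (nat_lit 1064) (nat_lit 11963491531) (nat_lit 1140) (nat_lit 17249157348) (nat_lit 144) (nat_lit 5) (nat_lit 158) (nat_lit 5) (nat_lit 159) (nat_lit 5) (nat_lit 303) (nat_lit 297) (nat_lit 120)))) (XT.nd (nat_lit 78) (nat_lit 0) (nat_lit 76) (XT.lf (nat_lit 76) (nat_lit 43246670026) (nat_lit 0) (nat_lit 10843135260) (nat_lit 1140) (nat_lit 25395088416) (nat_lit 145) (nat_lit 5) (nat_lit 144) (nat_lit 5) (nat_lit 159) (nat_lit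 5) (nat_lit 304) (nat_lit 297) (nat_lit 119)) (XT.nd (nat_lit 78) (nat_lit 0) (nat_lit 76) (XT.lf (nat_lit 76) (nat_lit 19792080053) (nat_lit 0) (nat_lit 41197999775) (nat_lit 1140) (nat_lit 20658383817) (nat_lit 146) (nat_lit 5) (nat_lit 145) (nat_lit 5) (nat_lit 160) (nat_lit 5) (nat_lit 305) (nat_lit 297) (nat_lit 118)) (XT.lf (nat_lit 0) (nat_lit 68817207916) (nat_lit 1064) (nat_lit 4738464545) (nat_lit 1140) (nat_lit 10347087100) (nat_lit 146) (nat_lit 5) (nat_lit 160) (nat_lit 5) (nat_lit 161) (nat_lit 5) (nat_lit 306) (nat_lit 297) (nat_lit 117))))))))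
noncomputable def xc126 : XT := (XT.nd (nat_lit 37908) (nat_lit 0) (nat_lit 0) (XT.nd (nat_lit 37050) (nat_lit 0) (nat_lit 1064) (XT.nd (nat_lit 390) (nat_lit 532) (nat_lit 0) (XT.nd (nat_lit 156) (nat_lit 1216) (nat_lit 0) (XT.nd (nat_lit 78) (nat_lit 988) (nat_lit 0) (XT.lf (nat_lit 76) (nat_lit 55909762470) (nat_lit 0) (nat_lit 22078228408) (nat_lit 1140) (nat_lit 8253212985) (nat_lit 147) (nat_lit 5) (nat_lit 146) (nat_lit 5) (nat_lit 161) (nat_lit 5) (nat_lit 307) (nat_lit 297) (nat_lit 116)) (XT.lf (nat_lit 0) (nat_lit 31296414453) (nat_lit 1064) (nat_lit 56977423539) (nat_lit 1140) (nat_lit 403039063) (nat_lit 133) (nat_lit 5) (nat_lit 147) (nat_lit 5) (nat_lit 148) (nat_lit 5) (nat_lit 308) (nat_lit 297) (nat_lit 115))) (XT.nd (nat_lit 78) (nat_lit 532) (nat_lit 0) (XT.lf (nat_lit 0) (nat_lit 5214215440) (nat_lit 608) (nat_lit 3059842609) (nat_lit 684) (nat_lit 82940395489) (nat_lit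 124) (nat_lit 5) (nat_lit 132) (nat_lit 5) (nat_lit 133) (nat_lit 5) (nat_lit 309) (nat_lit 297) (nat_lit 114)) (XT.nd (nat_lit 78) (nat_lit 532) (nat_lit 0) (XT.lf (nat_lit 0) (nat_lit 18487212360) (nat_lit 684) (nat_lit 22248966365) (nat_lit 76) (nat_lit 53109296406) (nat_lit 124) (nat_lit 5) (nat_lit 133) (nat_lit 5) (nat_lit 125) (nat_lit 5) (nat_lit 310) (nat_lit 297) (nat_lit 113)) (XT.lf (nat_lit 0) (nat_lit 29831449556) (nat_lit 608) (nat_lit 51199519905) (nat_lit 76) (nat_lit 15558467620) (nat_lit 117) (nat_lit 5) (nat_lit 125) (nat_lit 5) (nat_lit 118) (nat_lit 5) (nat_lit 311) (nat_lit 297) (nat_lit 112))))) (XT.nd (nat_lit 36426) (nat_lit 0) (nat_lit 2280) (XT.nd (nat_lit 78) (nat_lit 0) (nat_lit 0) (XT.lf (nat_lit 0) (nat_lit 17336068714) (nat_lit 532) (nat_lit 25215150234) (nat_lit 608) (nat_lit 56895130506) (nat_lit 110) (nat_lit 5) (nat_lit 117) (nat_lit 5) (nat_lit 118)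 (nat_lit 5) (nat_lit 312) (nat_lit 297) (nat_lit 111)) (XT.lf (nat_lit 0) (nat_lit 56759473055) (nat_lit 608) (nat_lit 12388889846) (nat_lit 76) (nat_lit 33272171500) (nat_lit 110) (nat_lit 5) (nat_lit 118) (nat_lit 5) (nat_lit 111) (nat_lit 5) (nat_lit 313) (nat_lit 297) (nat_lit 110))) (XT.nd (nat_lit 78) (nat_lit 0) (nat_lit 0) (XT.lf (nat_lit 0) (nat_lit 16117230310) (nat_lit 1140) (nat_lit 9389633387) (nat_lit 1140) (nat_lit 9389633387) (nat_lit 140) (nat_lit 3) (nat_lit 155) (nat_lit 3) (nat_lit 155) (nat_lit 5) (nat_lit 298) (nat_lit 298) (nat_lit 124)) (XT.nd (nat_lit 78) (nat_lit 0) (nat_lit 76) (XT.lf (nat_lit 76) (nat_lit 29211433344) (nat_lit 0) (nat_lit 4129490374) (nat_lit 1140) (nat_lit 38187823985) (nat_lit 141) (nat_lit 5) (nat_lit 140) (nat_lit 3) (nat_lit 155) (nat_lit 5) (nat_lit 299) (nat_lit 298) (nat_lit 123)) (XT.lf (nat_lit 76) (nat_lit 6336102824) (nat_lit 0) (nat_lit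 28854994170) (nat_lit 1140) (nat_lit 38139543719) (nat_lit 142) (nat_lit 5) (nat_lit 141) (nat_lit 5) (nat_lit 156) (nat_lit 5) (nat_lit 300) (nat_lit 298) (nat_lit 122)))))) (XT.nd (nat_lit 390) (nat_lit 1368) (nat_lit 0) (XT.nd (nat_lit 156) (nat_lit 0) (nat_lit 76) (XT.nd (nat_lit 78) (nat_lit 0) (nat_lit 0) (XT.lf (nat_lit 0) (nat_lit 37807992468) (nat_lit 1064) (nat_lit 17143604406) (nat_lit 1140) (nat_lit 20250808343) (nat_lit 142) (nat_lit 5) (nat_lit 156) (nat_lit 5) (nat_lit 157) (nat_lit 5) (nat_lit 301) (nat_lit 298) (nat_lit 121)) (XT.lf (nat_lit 76) (nat_lit 35602667556) (nat_lit 0) (nat_lit 5585388286) (nat_lit 1140) (nat_lit 35960735502) (nat_lit 143) (nat_lit 5) (nat_lit 142) (nat_lit 5) (nat_lit 157) (nat_lit 5) (nat_lit 302) (nat_lit 298) (nat_lit 120))) (XT.nd (nat_lit 78) (nat_lit 0) (nat_lit 76) (XT.lf (nat_lit 76) (nat_lit 11943312455) (nat_lit 0) (nat_lit 33530317258)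 (nat_lit 1140) (nat_lit 33696774789) (nat_lit 144) (nat_lit 5) (nat_lit 143) (nat_lit 5) (nat_lit 158) (nat_lit 5) (nat_lit 303) (nat_lit 298) (nat_lit 119)) (XT.nd (nat_lit 78) (nat_lit 0) (nat_lit 0) (XT.lf (nat_lit 0) (nat_lit 50633392061) (nat_lit 1064) (nat_lit 12538876324) (nat_lit 1140) (nat_lit 18101035447) (nat_lit 144) (nat_lit 5) (nat_lit 158) (nat_lit 5) (nat_lit 159) (nat_lit 5) (nat_lit 304) (nat_lit 298) (nat_lit 118)) (XT.lf (nat_lit 76) (nat_lit 45431140047) (nat_lit 0) (nat_lit 11394143389) (nat_lit 1140) (nat_lit 26632843138) (nat_lit 145) (nat_lit 5) (nat_lit 144) (nat_lit 5) (nat_lit 159) (nat_lit 5) (nat_lit 305) (nat_lit 298) (nat_lit 117))))) (XT.nd (nat_lit 234) (nat_lit 1596) (nat_lit 0) (XT.nd (nat_lit 78) (nat_lit 0) (nat_lit 76) (XT.lf (nat_lit 76) (nat_lit 20804251491) (nat_lit 0) (nat_lit 43264980498) (nat_lit 1140) (nat_lit 21660687128) (nat_lit 146) (nat_lit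 5) (nat_lit 145) (nat_lit 5) (nat_lit 160) (nat_lit 5) (nat_lit 306) (nat_lit 298) (nat_lit 116)) (XT.nd (nat_lit 78) (nat_lit 0) (nat_lit 0) (XT.lf (nat_lit 0) (nat_lit 72286239841) (nat_lit 1064) (nat_lit 4952908525) (nat_lit 1140) (nat_lit 10857829489) (nat_lit 146) (nat_lit 5) (nat_lit 160) (nat_lit 5) (nat_lit 161) (nat_lit 5) (nat_lit 307) (nat_lit 298) (nat_lit 115)) (XT.lf (nat_lit 76) (nat_lit 58727085477) (nat_lit 0) (nat_lit 23187344864) (nat_lit 1140) (nat_lit 8637951531) (nat_lit 147) (nat_lit 5) (nat_lit 146) (nat_lit 5) (nat_lit 161) (nat_lit 5) (nat_lit 308) (nat_lit 298) (nat_lit 114)))) (XT.nd (nat_lit 78) (nat_lit 684) (nat_lit 0) (XT.lf (nat_lit 0) (nat_lit 32883349664) (nat_lit 1064) (nat_lit 59830097458) (nat_lit 1140) (nat_lit 396428662) (nat_lit 133) (nat_lit 5) (nat_lit 147) (nat_lit 5) (nat_lit 148) (nat_lit 5) (nat_lit 309) (nat_lit 298) (nat_lit 113)) (XT.nd (nat_lit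 78) (nat_lit 0) (nat_lit 0) (XT.lf (nat_lit 0) (nat_lit 5496977810) (nat_lit 608) (nat_lit 3215985710) (nat_lit 684) (nat_lit 87061394107) (nat_lit 124) (nat_lit 5) (nat_lit 132) (nat_lit 5) (nat_lit 133) (nat_lit 5) (nat_lit 310) (nat_lit 298) (nat_lit 112)) (XT.lf (nat_lit 0) (nat_lit 19435546577) (nat_lit 684) (nat_lit 23339604706) (nat_lit 76) (nat_lit 55761818862) (nat_lit 124) (nat_lit 5) (nat_lit 133) (nat_lit 5) (nat_lit 125) (nat_lit 5) (nat_lit 311) (nat_lit 298) (nat_lit 111))))))) (XT.nd (nat_lit 37206) (nat_lit 0) (nat_lit 1064) (XT.nd (nat_lit 36738) (nat_lit 0) (nat_lit 2432) (XT.nd (nat_lit 36504) (nat_lit 0) (nat_lit 2280) (XT.nd (nat_lit 78) (nat_lit 532) (nat_lit 0) (XT.lf (nat_lit 0) (nat_lit 31346039882) (nat_lit 608) (nat_lit 53737545541) (nat_lit 76) (nat_lit 16334576276) (nat_lit 117) (nat_lit 5) (nat_lit 125) (nat_lit 5) (nat_lit 118) (nat_lit 5) (nat_lit 312) (nat_lit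 298) (nat_lit 110)) (XT.lf (nat_lit 0) (nat_lit 18224193307) (nat_lit 532) (nat_lit 26476713301) (nat_lit 608) (nat_lit 59717042517) (nat_lit 110) (nat_lit 5) (nat_lit 117) (nat_lit 5) (nat_lit 118) (nat_lit 5) (nat_lit 313) (nat_lit 298) (nat_lit 109))) (XT.nd (nat_lit 78) (nat_lit 0) (nat_lit 0) (XT.lf (nat_lit 0) (nat_lit 16942586054) (nat_lit 1140) (nat_lit 9849049308) (nat_lit 1140) (nat_lit 9849049308) (nat_lit 140) (nat_lit 3) (nat_lit 155) (nat_lit 3) (nat_lit 155) (nat_lit 5) (nat_lit 299) (nat_lit 299) (nat_lit 122)) (XT.nd (nat_lit 78) (nat_lit 0) (nat_lit 76) (XT.lf (nat_lit 76) (nat_lit 30691559443) (nat_lit 0) (nat_lit 4353730295) (nat_lit 1140) (nat_lit 40058675869) (nat_lit 141) (nat_lit 5) (nat_lit 140) (nat_lit 3) (nat_lit 155) (nat_lit 5) (nat_lit 300) (nat_lit 299) (nat_lit 121)) (XT.lf (nat_lit 76) (nat_lit 6673252274) (nat_lit 0) (nat_lit 30312975191) (nat_lit 1140)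 (nat_lit 40009782886) (nat_lit 142) (nat_lit 5) (nat_lit 141) (nat_lit 5) (nat_lit 156) (nat_lit 5) (nat_lit 301) (nat_lit 299) (nat_lit 120))))) (XT.nd (nat_lit 234) (nat_lit 0) (nat_lit 152) (XT.nd (nat_lit 78) (nat_lit 0) (nat_lit 0) (XT.lf (nat_lit 0) (nat_lit 39732134194) (nat_lit 1064) (nat_lit 17980162606) (nat_lit 1140) (nat_lit 21249125814) (nat_lit 142) (nat_lit 5) (nat_lit 156) (nat_lit 5) (nat_lit 157) (nat_lit 5) (nat_lit 302) (nat_lit 299) (nat_lit 119)) (XT.nd (nat_lit 78) (nat_lit 0) (nat_lit 76) (XT.lf (nat_lit 76) (nat_lit 37402831827) (nat_lit 0) (nat_lit 5876954692) (nat_lit 1140) (nat_lit 37725388269) (nat_lit 143) (nat_lit 5) (nat_lit 142) (nat_lit 5) (nat_lit 157) (nat_lit 5) (nat_lit 303) (nat_lit 299) (nat_lit 118)) (XT.lf (nat_lit 76) (nat_lit 12561075457) (nat_lit 0) (nat_lit 35217109622) (nat_lit 1140) (nat_lit 35349731256) (nat_lit 144) (nat_lit 5) (nat_lit 143)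 (nat_lit 5) (nat_lit 158) (nat_lit 5) (nat_lit 304) (nat_lit 299) (nat_lit 117)))) (XT.nd (nat_lit 78) (nat_lit 0) (nat_lit 0) (XT.lf (nat_lit 0) (nat_lit 53194371279) (nat_lit 1064) (nat_lit 13145149135) (nat_lit 1140) (nat_lit 18996491058) (nat_lit 144) (nat_lit 5) (nat_lit 158) (nat_lit 5) (nat_lit 159) (nat_lit 5) (nat_lit 305) (nat_lit 299) (nat_lit 116)) (XT.nd (nat_lit 78) (nat_lit 0) (nat_lit 76) (XT.lf (nat_lit 76) (nat_lit 47722775525) (nat_lit 0) (nat_lit 11971879008) (nat_lit 1140) (nat_lit 27935460625) (nat_lit 145) (nat_lit 5) (nat_lit 144) (nat_lit 5) (nat_lit 159) (nat_lit 5) (nat_lit 306) (nat_lit 299) (nat_lit 115)) (XT.lf (nat_lit 76) (nat_lit 21864933396) (nat_lit 0) (nat_lit 45434651958) (nat_lit 1140) (nat_lit 22715951980) (nat_lit 146) (nat_lit 5) (nat_lit 145) (nat_lit 5) (nat_lit 160) (nat_lit 5) (nat_lit 307) (nat_lit 299) (nat_lit 114)))))) (XT.nd (nat_lit 36894)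 (nat_lit 0) (nat_lit 1216) (XT.nd (nat_lit 156) (nat_lit 1672) (nat_lit 0) (XT.nd (nat_lit 78) (nat_lit 0) (nat_lit 0) (XT.lf (nat_lit 0) (nat_lit 75926104241) (nat_lit 1064) (nat_lit 5180164612) (nat_lit 1140) (nat_lit 11394723716) (nat_lit 146) (nat_lit 5) (nat_lit 160) (nat_lit 5) (nat_lit 161) (nat_lit 5) (nat_lit 308) (nat_lit 299) (nat_lit 113)) (XT.lf (nat_lit 76) (nat_lit 61683244634) (nat_lit 0) (nat_lit 24351433227) (nat_lit 1140) (nat_lit 9044522937) (nat_lit 147) (nat_lit 5) (nat_lit 146) (nat_lit 5) (nat_lit 161) (nat_lit 5) (nat_lit 309) (nat_lit 299) (nat_lit 112))) (XT.nd (nat_lit 78) (nat_lit 684) (nat_lit 0) (XT.lf (nat_lit 0) (nat_lit 34547575641) (nat_lit 1064) (nat_lit 62825051530) (nat_lit 1140) (nat_lit 391975851) (nat_lit 133) (nat_lit 5) (nat_lit 147) (nat_lit 5) (nat_lit 148) (nat_lit 5) (nat_lit 310) (nat_lit 299) (nat_lit 111)) (XT.nd (nat_lit 78) (nat_lit 0)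 (nat_lit 0) (XT.lf (nat_lit 0) (nat_lit 5791828150) (nat_lit 608) (nat_lit 3379643018) (nat_lit 684) (nat_lit 91390861855) (nat_lit 124) (nat_lit 5) (nat_lit 132) (nat_lit 5) (nat_lit 133) (nat_lit 5) (nat_lit 311) (nat_lit 299) (nat_lit 110)) (XT.lf (nat_lit 0) (nat_lit 20429068667) (nat_lit 684) (nat_lit 24486802649) (nat_lit 76) (nat_lit 58547240993) (nat_lit 124) (nat_lit 5) (nat_lit 133) (nat_lit 5) (nat_lit 125) (nat_lit 5) (nat_lit 312) (nat_lit 299) (nat_lit 109))))) (XT.nd (nat_lit 234) (nat_lit 0) (nat_lit 152) (XT.nd (nat_lit 78) (nat_lit 0) (nat_lit 0) (XT.lf (nat_lit 0) (nat_lit 17807397197) (nat_lit 1140) (nat_lit 10332371843) (nat_lit 1140) (nat_lit 10332371843) (nat_lit 140) (nat_lit 3) (nat_lit 155) (nat_lit 3) (nat_lit 155) (nat_lit 5) (nat_lit 300) (nat_lit 300) (nat_lit 120)) (XT.nd (nat_lit 78) (nat_lit 0) (nat_lit 76) (XT.lf (nat_lit 76) (nat_lit 32243873860) (nat_lit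 0) (nat_lit 4587530554) (nat_lit 1140) (nat_lit 42026653367) (nat_lit 141) (nat_lit 5) (nat_lit 140) (nat_lit 3) (nat_lit 155) (nat_lit 5) (nat_lit 301) (nat_lit 300) (nat_lit 119)) (XT.lf (nat_lit 76) (nat_lit 7025367776) (nat_lit 0) (nat_lit 31842439199) (nat_lit 1140) (nat_lit 41976949563) (nat_lit 142) (nat_lit 5) (nat_lit 141) (nat_lit 5) (nat_lit 156) (nat_lit 5) (nat_lit 302) (nat_lit 300) (nat_lit 118)))) (XT.nd (nat_lit 78) (nat_lit 0) (nat_lit 0) (XT.lf (nat_lit 0) (nat_lit 41749345986) (nat_lit 1064) (nat_lit 18860465957) (nat_lit 1140) (nat_lit 22298681473) (nat_lit 142) (nat_lit 5) (nat_lit 156) (nat_lit 5) (nat_lit 157) (nat_lit 5) (nat_lit 303) (nat_lit 300) (nat_lit 117)) (XT.nd (nat_lit 78) (nat_lit 0) (nat_lit 76) (XT.lf (nat_lit 76) (nat_lit 39291142029) (nat_lit 0) (nat_lit 6181956161) (nat_lit 1140) (nat_lit 39581377404) (nat_lit 143) (nat_lit 5) (nat_lit 142) (nat_lit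 5) (nat_lit 157) (nat_lit 5) (nat_lit 304) (nat_lit 300) (nat_lit 116)) (XT.lf (nat_lit 76) (nat_lit 13207811659) (nat_lit 0) (nat_lit 36987286193) (nat_lit 1140) (nat_lit 37088299658) (nat_lit 144) (nat_lit 5) (nat_lit 143) (nat_lit 5) (nat_lit 158) (nat_lit 5) (nat_lit 305) (nat_lit 300) (nat_lit 115))))))))
noncomputable def xc127 : XT := (XT.nd (nat_lit 75036) (nat_lit 0) (nat_lit 532) (XT.nd (nat_lit 37440) (nat_lit 0) (nat_lit 532) (XT.nd (nat_lit 390) (nat_lit 836) (nat_lit 0) (XT.nd (nat_lit 156) (nat_lit 0) (nat_lit 76) (XT.nd (nat_lit 78) (nat_lit 0) (nat_lit 0) (XT.lf (nat_lit 0) (nat_lit 55880674528) (nat_lit 1064) (nat_lit 13783657380) (nat_lit 1140) (nat_lit 19937611610) (nat_lit 144) (nat_lit 5) (nat_lit 158) (nat_lit 5) (nat_lit 159) (nat_lit 5) (nat_lit 306) (nat_lit 300) (nat_lit 114)) (XT.lf (nat_lit 76) (nat_lit 50127126070) (nat_lit 0) (nat_lit 12577754999) (nat_lit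 1140) (nat_lit 29305907425) (nat_lit 145) (nat_lit 5) (nat_lit 144) (nat_lit 5) (nat_lit 159) (nat_lit 5) (nat_lit 307) (nat_lit 300) (nat_lit 113))) (XT.nd (nat_lit 78) (nat_lit 0) (nat_lit 76) (XT.lf (nat_lit 76) (nat_lit 22976746351) (nat_lit 0) (nat_lit 47712209894) (nat_lit 1140) (nat_lit 23826561819) (nat_lit 146) (nat_lit 5) (nat_lit 145) (nat_lit 5) (nat_lit 160) (nat_lit 5) (nat_lit 308) (nat_lit 300) (nat_lit 112)) (XT.nd (nat_lit 78) (nat_lit 0) (nat_lit 0) (XT.lf (nat_lit 0) (nat_lit 79745586240) (nat_lit 1064) (nat_lit 5420679111) (nat_lit 1140) (nat_lit 11959020222) (nat_lit 146) (nat_lit 5) (nat_lit 160) (nat_lit 5) (nat_lit 161) (nat_lit 5) (nat_lit 309) (nat_lit 300) (nat_lit 111)) (XT.lf (nat_lit 76) (nat_lit 64785370479) (nat_lit 0) (nat_lit 25573287083) (nat_lit 1140) (nat_lit 9473777500) (nat_lit 147) (nat_lit 5) (nat_lit 146) (nat_lit 5) (nat_lit 161) (nat_lit 5) (nat_lit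 310) (nat_lit 300) (nat_lit 110))))) (XT.nd (nat_lit 36816) (nat_lit 0) (nat_lit 532) (XT.nd (nat_lit 36738) (nat_lit 0) (nat_lit 532) (XT.lf (nat_lit 0) (nat_lit 36293148067) (nat_lit 1064) (nat_lit 65969432631) (nat_lit 1140) (nat_lit 389557189) (nat_lit 133) (nat_lit 5) (nat_lit 147) (nat_lit 5) (nat_lit 148) (nat_lit 5) (nat_lit 311) (nat_lit 300) (nat_lit 109)) (XT.lf (nat_lit 0) (nat_lit 18713805007) (nat_lit 1140) (nat_lit 10840709320) (nat_lit 1140) (nat_lit 10840709320) (nat_lit 140) (nat_lit 3) (nat_lit 155) (nat_lit 3) (nat_lit 155) (nat_lit 5) (nat_lit 301) (nat_lit 301) (nat_lit 118))) (XT.nd (nat_lit 78) (nat_lit 0) (nat_lit 76) (XT.lf (nat_lit 76) (nat_lit 33872155032) (nat_lit 0) (nat_lit 4831522723) (nat_lit 1140) (nat_lit 44096279645) (nat_lit 141) (nat_lit 5) (nat_lit 140) (nat_lit 3) (nat_lit 155) (nat_lit 5) (nat_lit 302) (nat_lit 301) (nat_lit 117)) (XT.nd (nat_lit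 78) (nat_lit 0) (nat_lit 76) (XT.lf (nat_lit 76) (nat_lit 7393373478) (nat_lit 0) (nat_lit 33447091997) (nat_lit 1140) (nat_lit 44045572582) (nat_lit 142) (nat_lit 5) (nat_lit 141) (nat_lit 5) (nat_lit 156) (nat_lit 5) (nat_lit 303) (nat_lit 301) (nat_lit 116)) (XT.lf (nat_lit 0) (nat_lit 43864572997) (nat_lit 1064) (nat_lit 19786523469) (nat_lit 1140) (nat_lit 23401914293) (nat_lit 142) (nat_lit 5) (nat_lit 156) (nat_lit 5) (nat_lit 157) (nat_lit 5) (nat_lit 304) (nat_lit 301) (nat_lit 115)))))) (XT.nd (nat_lit 390) (nat_lit 152) (nat_lit 0) (XT.nd (nat_lit 156) (nat_lit 0) (nat_lit 152) (XT.nd (nat_lit 78) (nat_lit 0) (nat_lit 76) (XT.lf (nat_lit 76) (nat_lit 41272178596) (nat_lit 0) (nat_lit 6501170735) (nat_lit 1140) (nat_lit 41532981168) (nat_lit 143) (nat_lit 5) (nat_lit 142) (nat_lit 5) (nat_lit 157) (nat_lit 5) (nat_lit 305) (nat_lit 301) (nat_lit 114)) (XT.lf (nat_lit 76) (nat_lit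 13885147756) (nat_lit 0) (nat_lit 38845105005) (nat_lit 1140) (nat_lit 38916485016) (nat_lit 144) (nat_lit 5) (nat_lit 143) (nat_lit 5) (nat_lit 158) (nat_lit 5) (nat_lit 306) (nat_lit 301) (nat_lit 113))) (XT.nd (nat_lit 78) (nat_lit 0) (nat_lit 0) (XT.lf (nat_lit 0) (nat_lit 58698821347) (nat_lit 1064) (nat_lit 14455834162) (nat_lit 1140) (nat_lit 20926597405) (nat_lit 144) (nat_lit 5) (nat_lit 158) (nat_lit 5) (nat_lit 159) (nat_lit 5) (nat_lit 307) (nat_lit 301) (nat_lit 112)) (XT.nd (nat_lit 78) (nat_lit 0) (nat_lit 76) (XT.lf (nat_lit 76) (nat_lit 52650000985) (nat_lit 0) (nat_lit 13213247775) (nat_lit 1140) (nat_lit 30747324128) (nat_lit 145) (nat_lit 5) (nat_lit 144) (nat_lit 5) (nat_lit 159) (nat_lit 5) (nat_lit 308) (nat_lit 301) (nat_lit 111)) (XT.lf (nat_lit 76) (nat_lit 24142423837) (nat_lit 0) (nat_lit 50103104141) (nat_lit 1140) (nat_lit 24995043869) (nat_lit 146) (nat_lit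 5) (nat_lit 145) (nat_lit 5) (nat_lit 160) (nat_lit 5) (nat_lit 309) (nat_lit 301) (nat_lit 110))))) (XT.nd (nat_lit 36972) (nat_lit 0) (nat_lit 0) (XT.nd (nat_lit 78) (nat_lit 456) (nat_lit 0) (XT.lf (nat_lit 0) (nat_lit 83753887582) (nat_lit 1064) (nat_lit 5674938706) (nat_lit 1140) (nat_lit 12552037282) (nat_lit 146) (nat_lit 5) (nat_lit 160) (nat_lit 5) (nat_lit 161) (nat_lit 5) (nat_lit 310) (nat_lit 301) (nat_lit 109)) (XT.nd (nat_lit 36816) (nat_lit 456) (nat_lit 0) (XT.lf (nat_lit 76) (nat_lit 68040932530) (nat_lit 0) (nat_lit 26855835514) (nat_lit 1140) (nat_lit 9926630471) (nat_lit 147) (nat_lit 5) (nat_lit 146) (nat_lit 5) (nat_lit 161) (nat_lit 5) (nat_lit 311) (nat_lit 301) (nat_lit 108)) (XT.lf (nat_lit 0) (nat_lit 19664042151) (nat_lit 1140) (nat_lit 11375233569) (nat_lit 1140) (nat_lit 11375233569) (nat_lit 140) (nat_lit 3) (nat_lit 155) (nat_lit 3) (nat_lit 155) (nat_lit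 5) (nat_lit 302) (nat_lit 302) (nat_lit 116)))) (XT.nd (nat_lit 78) (nat_lit 0) (nat_lit 76) (XT.lf (nat_lit 76) (nat_lit 35580354601) (nat_lit 0) (nat_lit 5086355676) (nat_lit 1140) (nat_lit 46272334997) (nat_lit 141) (nat_lit 5) (nat_lit 140) (nat_lit 3) (nat_lit 155) (nat_lit 5) (nat_lit 303) (nat_lit 302) (nat_lit 115)) (XT.nd (nat_lit 78) (nat_lit 0) (nat_lit 76) (XT.lf (nat_lit 76) (nat_lit 7778223389) (nat_lit 0) (nat_lit 35130812436) (nat_lit 1140) (nat_lit 46220436735) (nat_lit 142) (nat_lit 5) (nat_lit 141) (nat_lit 5) (nat_lit 156) (nat_lit 5) (nat_lit 304) (nat_lit 302) (nat_lit 114)) (XT.lf (nat_lit 0) (nat_lit 46082980523) (nat_lit 1064) (nat_lit 20760461174) (nat_lit 1140) (nat_lit 24561396626) (nat_lit 142) (nat_lit 5) (nat_lit 156) (nat_lit 5) (nat_lit 157) (nat_lit 5) (nat_lit 305) (nat_lit 302) (nat_lit 113))))))) (XT.nd (nat_lit 37752) (nat_lit 0) (nat_lit 0) (XT.nd (nat_lit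 37284) (nat_lit 152) (nat_lit 0) (XT.nd (nat_lit 156) (nat_lit 0) (nat_lit 152) (XT.nd (nat_lit 78) (nat_lit 0) (nat_lit 76) (XT.lf (nat_lit 76) (nat_lit 43350734887) (nat_lit 0) (nat_lit 6835405476) (nat_lit 1140) (nat_lit 43584718566) (nat_lit 143) (nat_lit 5) (nat_lit 142) (nat_lit 5) (nat_lit 157) (nat_lit 5) (nat_lit 306) (nat_lit 302) (nat_lit 112)) (XT.lf (nat_lit 76) (nat_lit 14594775225) (nat_lit 0) (nat_lit 40795028739) (nat_lit 1140) (nat_lit 40838518224) (nat_lit 144) (nat_lit 5) (nat_lit 143) (nat_lit 5) (nat_lit 158) (nat_lit 5) (nat_lit 307) (nat_lit 302) (nat_lit 111))) (XT.nd (nat_lit 78) (nat_lit 0) (nat_lit 0) (XT.lf (nat_lit 0) (nat_lit 61655633700) (nat_lit 1064) (nat_lit 15163200847) (nat_lit 1140) (nat_lit 21965766472) (nat_lit 144) (nat_lit 5) (nat_lit 158) (nat_lit 5) (nat_lit 159) (nat_lit 5) (nat_lit 308) (nat_lit 302) (nat_lit 110)) (XT.nd (nat_lit 78) (nat_lit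 0) (nat_lit 76) (XT.lf (nat_lit 76) (nat_lit 55297483901) (nat_lit 0) (nat_lit 13879901117) (nat_lit 1140) (nat_lit 32263031679) (nat_lit 145) (nat_lit 5) (nat_lit 144) (nat_lit 5) (nat_lit 159) (nat_lit 5) (nat_lit 309) (nat_lit 302) (nat_lit 109)) (XT.lf (nat_lit 76) (nat_lit 25364819558) (nat_lit 0) (nat_lit 52613051868) (nat_lit 1140) (nat_lit 26224074030) (nat_lit 146) (nat_lit 5) (nat_lit 145) (nat_lit 5) (nat_lit 160) (nat_lit 5) (nat_lit 310) (nat_lit 302) (nat_lit 108))))) (XT.nd (nat_lit 234) (nat_lit 0) (nat_lit 152) (XT.nd (nat_lit 78) (nat_lit 0) (nat_lit 0) (XT.lf (nat_lit 0) (nat_lit 20660438721) (nat_lit 1140) (nat_lit 11937182353) (nat_lit 1140) (nat_lit 11937182353) (nat_lit 140) (nat_lit 3) (nat_lit 155) (nat_lit 3) (nat_lit 155) (nat_lit 5) (nat_lit 303) (nat_lit 303) (nat_lit 114)) (XT.nd (nat_lit 78) (nat_lit 0) (nat_lit 76) (XT.lf (nat_lit 76) (nat_lit 37372607539)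 (nat_lit 0) (nat_lit 5352697783) (nat_lit 1140) (nat_lit 48559866822) (nat_lit 141) (nat_lit 5) (nat_lit 140) (nat_lit 3) (nat_lit 155) (nat_lit 5) (nat_lit 304) (nat_lit 303) (nat_lit 113)) (XT.lf (nat_lit 76) (nat_lit 8180904388) (nat_lit 0) (nat_lit 36897662209) (nat_lit 1140) (nat_lit 48506592835) (nat_lit 142) (nat_lit 5) (nat_lit 141) (nat_lit 5) (nat_lit 156) (nat_lit 5) (nat_lit 305) (nat_lit 303) (nat_lit 112)))) (XT.nd (nat_lit 78) (nat_lit 0) (nat_lit 0) (XT.lf (nat_lit 0) (nat_lit 48409967533) (nat_lit 1064) (nat_lit 21784526438) (nat_lit 1140) (nat_lit 25779839807) (nat_lit 142) (nat_lit 5) (nat_lit 156) (nat_lit 5) (nat_lit 157) (nat_lit 5) (nat_lit 306) (nat_lit 303) (nat_lit 111)) (XT.nd (nat_lit 78) (nat_lit 0) (nat_lit 76) (XT.lf (nat_lit 76) (nat_lit 45531829329) (nat_lit 0) (nat_lit 7185498838) (nat_lit 1140) (nat_lit 45741358884) (nat_lit 143) (nat_lit 5) (nat_lit 142)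 (nat_lit 5) (nat_lit 157) (nat_lit 5) (nat_lit 307) (nat_lit 303) (nat_lit 110)) (XT.lf (nat_lit 76) (nat_lit 15338455103) (nat_lit 0) (nat_lit 42841735716) (nat_lit 1140) (nat_lit 42858864958) (nat_lit 144) (nat_lit 5) (nat_lit 143) (nat_lit 5) (nat_lit 158) (nat_lit 5) (nat_lit 308) (nat_lit 303) (nat_lit 109)))))) (XT.nd (nat_lit 37440) (nat_lit 0) (nat_lit 0) (XT.nd (nat_lit 37206) (nat_lit 0) (nat_lit 0) (XT.nd (nat_lit 37128) (nat_lit 304) (nat_lit 0) (XT.lf (nat_lit 0) (nat_lit 64758253286) (nat_lit 1064) (nat_lit 15907369939) (nat_lit 1140) (nat_lit 23057559736) (nat_lit 144) (nat_lit 5) (nat_lit 158) (nat_lit 5) (nat_lit 159) (nat_lit 5) (nat_lit 309) (nat_lit 303) (nat_lit 108)) (XT.lf (nat_lit 0) (nat_lit 21705428422) (nat_lit 1140) (nat_lit 12527861975) (nat_lit 1140) (nat_lit 12527861975) (nat_lit 140) (nat_lit 3) (nat_lit 155) (nat_lit 3) (nat_lit 155) (nat_lit 5) (nat_lit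 304) (nat_lit 304) (nat_lit 112))) (XT.nd (nat_lit 78) (nat_lit 0) (nat_lit 76) (XT.lf (nat_lit 76) (nat_lit 39253242640) (nat_lit 0) (nat_lit 5631239089) (nat_lit 1140) (nat_lit 50964200366) (nat_lit 141) (nat_lit 5) (nat_lit 140) (nat_lit 3) (nat_lit 155) (nat_lit 5) (nat_lit 305) (nat_lit 304) (nat_lit 111)) (XT.nd (nat_lit 78) (nat_lit 0) (nat_lit 76) (XT.lf (nat_lit 76) (nat_lit 8602439248) (nat_lit 0) (nat_lit 38751896023) (nat_lit 1140) (nat_lit 50909368519) (nat_lit 142) (nat_lit 5) (nat_lit 141) (nat_lit 5) (nat_lit 156) (nat_lit 5) (nat_lit 306) (nat_lit 304) (nat_lit 110)) (XT.lf (nat_lit 0) (nat_lit 50851180634) (nat_lit 1064) (nat_lit 22861092628) (nat_lit 1140) (nat_lit 27060100142) (nat_lit 142) (nat_lit 5) (nat_lit 156) (nat_lit 5) (nat_lit 157) (nat_lit 5) (nat_lit 307) (nat_lit 304) (nat_lit 109))))) (XT.nd (nat_lit 37440) (nat_lit 0) (nat_lit 0) (XT.nd (nat_lit 37284)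 (nat_lit 152) (nat_lit 0) (XT.lf (nat_lit 76) (nat_lit 47820718026) (nat_lit 0) (nat_lit 7552323066) (nat_lit 1140) (nat_lit 48007931944) (nat_lit 143) (nat_lit 5) (nat_lit 142) (nat_lit 5) (nat_lit 157) (nat_lit 5) (nat_lit 308) (nat_lit 304) (nat_lit 108)) (XT.nd (nat_lit 78) (nat_lit 0) (nat_lit 0) (XT.lf (nat_lit 0) (nat_lit 22801554959) (nat_lit 1140) (nat_lit 13148650088) (nat_lit 1140) (nat_lit 13148650088) (nat_lit 140) (nat_lit 3) (nat_lit 155) (nat_lit 3) (nat_lit 155) (nat_lit 5) (nat_lit 305) (nat_lit 305) (nat_lit 110)) (XT.lf (nat_lit 76) (nat_lit 41226793411) (nat_lit 0) (nat_lit 5922693484) (nat_lit 1140) (nat_lit 53490950252) (nat_lit 141) (nat_lit 5) (nat_lit 140) (nat_lit 3) (nat_lit 155) (nat_lit 5) (nat_lit 306) (nat_lit 305) (nat_lit 109)))) (XT.nd (nat_lit 78) (nat_lit 76) (nat_lit 0) (XT.lf (nat_lit 76) (nat_lit 9043889683) (nat_lit 0) (nat_lit 40697972189) (nat_lit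 1140) (nat_lit 53434379841) (nat_lit 142) (nat_lit 5) (nat_lit 141) (nat_lit 5) (nat_lit 156) (nat_lit 5) (nat_lit 307) (nat_lit 305) (nat_lit 108)) (XT.nd (nat_lit 37440) (nat_lit 152) (nat_lit 0) (XT.lf (nat_lit 0) (nat_lit 53412528531) (nat_lit 1064) (nat_lit 23992664148) (nat_lit 1140) (nat_lit 28405185281) (nat_lit 142) (nat_lit 5) (nat_lit 156) (nat_lit 5) (nat_lit 157) (nat_lit 5) (nat_lit 308) (nat_lit 305) (nat_lit 107)) (XT.lf (nat_lit 76) (nat_lit 43298009398) (nat_lit 0) (nat_lit 6227800894) (nat_lit 1140) (nat_lit 56146032791) (nat_lit 141) (nat_lit 5) (nat_lit 140) (nat_lit 3) (nat_lit 155) (nat_lit 5) (nat_lit 307) (nat_lit 306) (nat_lit 107))))))))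

set_option maxRecDepth 10000000 in
noncomputable def Tp : PT := (PT.nd (nat_lit 4623138) (PT.nd (nat_lit 4286802) (PT.nd (nat_lit 4024020) (PT.nd (nat_lit 3761940) pc0 pc1) (PT.nd (nat_lit 150150) pc2 pc3)) (PT.nd (nat_lit 187044) (PT.nd (nat_lit 111852) pc4 pc5) (PT.nd (nat_lit 74802) pc6 pc7))) (PT.nd (nat_lit 187980) (PT.nd (nat_lit 76752) (PT.nd (nat_lit 38376) pc8 pc9) (PT.nd (nat_lit 73320) pc10 pc11)) (PT.nd (nat_lit 76440) (PT.nd (nat_lit 37674) pc12 pc13) (PT.nd (nat_lit 109590) pc14 pc15))))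

set_option maxRecDepth 10000000 in
noncomputable def Tx : XT := (XT.nd (nat_lit 7304544) (nat_lit 0) (nat_lit 76) XT.nil (XT.nd (nat_lit 4199988) (nat_lit 0) (nat_lit 0) (XT.nd (nat_lit 1950468) (nat_lit 0) (nat_lit 304) (XT.nd (nat_lit 1348542) (nat_lit 0) (nat_lit 76) (XT.nd (nat_lit 936624) (nat_lit 0) (nat_lit 76) (XT.nd (nat_lit 672360) (nat_lit 0) (nat_lit 0) (XT.nd (nat_lit 449358) (nat_lit 0) (nat_lit 0) (XT.nd (nat_lit 299832) (nat_lit 0) (nat_lit 0) (XT.nd (nat_lit 224094) (nat_lit 0) (nat_lit 0) xc0 xc1) (XT.nd (nat_lit 75036) (nat_lit 0) (nat_lit 0) xc2 xc3)) (XT.nd (nat_lit 112164) (nat_lit 0) (nat_lit 0) (XT.nd (nat_lit 73788) (nat_lit 0) (nat_lit 0) xc4 xc5) (XT.nd (nat_lit 38220) (nat_lit 0) (nat_lit 0) xc6 xc7))) (XT.nd (nat_lit 149916) (nat_lit 0) (nat_lit 0) (XT.nd (nat_lit 75270) (nat_lit 0) (nat_lit 0) (XT.nd (nat_lit 37674) (nat_lit 0) (nat_lit 0) xc8 xc9) (XT.nd (nat_lit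 37362) (nat_lit 0) (nat_lit 0) xc10 xc11)) (XT.nd (nat_lit 40404) (nat_lit 0) (nat_lit 76) (XT.nd (nat_lit 37050) (nat_lit 0) (nat_lit 76) xc12 xc13) (XT.nd (nat_lit 37050) (nat_lit 0) (nat_lit 0) xc14 xc15)))) (XT.nd (nat_lit 224562) (nat_lit 0) (nat_lit 0) (XT.nd (nat_lit 112944) (nat_lit 0) (nat_lit 0) (XT.nd (nat_lit 73242) (nat_lit 0) (nat_lit 0) (XT.nd (nat_lit 36660) (nat_lit 0) (nat_lit 0) xc16 xc17) (XT.nd (nat_lit 36348) (nat_lit 0) (nat_lit 76) xc18 xc19)) (XT.nd (nat_lit 72306) (nat_lit 0) (nat_lit 0) (XT.nd (nat_lit 36192) (nat_lit 0) (nat_lit 0) xc20 xc21) (XT.nd (nat_lit 3354) (nat_lit 0) (nat_lit 0) xc22 xc23))) (XT.nd (nat_lit 110214) (nat_lit 0) (nat_lit 0) (XT.nd (nat_lit 39078) (nat_lit 0) (nat_lit 0) (XT.nd (nat_lit 35724) (nat_lit 0) (nat_lit 0) xc24 xc25) (XT.nd (nat_lit 35646) (nat_lit 0) (nat_lit 0) xc26 xc27)) (XT.nd (nat_lit 38610) (nat_lit 0) (nat_lit 0) (XT.nd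 (nat_lit 3276) (nat_lit 152) (nat_lit 0) xc28 xc29) (XT.nd (nat_lit 35178) (nat_lit 0) (nat_lit 456) xc30 xc31))))) (XT.nd (nat_lit 333762) (nat_lit 0) (nat_lit 152) (XT.nd (nat_lit 183924) (nat_lit 0) (nat_lit 76) (XT.nd (nat_lit 76596) (nat_lit 0) (nat_lit 0) (XT.nd (nat_lit 38376) (nat_lit 0) (nat_lit 0) (XT.nd (nat_lit 35022) (nat_lit 0) (nat_lit 228) xc32 xc33) (XT.nd (nat_lit 34866) (nat_lit 0) (nat_lit 152) xc34 xc35)) (XT.nd (nat_lit 69420) (nat_lit 0) (nat_lit 76) (XT.nd (nat_lit 34710) (nat_lit 0) (nat_lit 76) xc36 xc37) (XT.nd (nat_lit 3354) (nat_lit 760) (nat_lit 0) xc38 xc39))) (XT.nd (nat_lit 75192) (nat_lit 0) (nat_lit 76) (XT.nd (nat_lit 37674) (nat_lit 0) (nat_lit 76) (XT.nd (nat_lit 3276) (nat_lit 684) (nat_lit 0) xc40 xc41) (XT.nd (nat_lit 3276) (nat_lit 608) (nat_lit 0) xc42 xc43)) (XT.nd (nat_lit 37362) (nat_lit 0) (nat_lit 0) (XT.nd (nat_lit 3276) (nat_lit 608) (nat_lit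 0) xc44 xc45) (XT.nd (nat_lit 3354) (nat_lit 684) (nat_lit 0) xc46 xc47)))) (XT.nd (nat_lit 118092) (nat_lit 0) (nat_lit 76) (XT.nd (nat_lit 74178) (nat_lit 0) (nat_lit 0) (XT.nd (nat_lit 37050) (nat_lit 0) (nat_lit 0) (XT.nd (nat_lit 3276) (nat_lit 988) (nat_lit 0) xc48 xc49) (XT.nd (nat_lit 3276) (nat_lit 1520) (nat_lit 0) xc50 xc51)) (XT.nd (nat_lit 37206) (nat_lit 0) (nat_lit 76) (XT.nd (nat_lit 3276) (nat_lit 2052) (nat_lit 0) xc52 xc53) (XT.nd (nat_lit 3354) (nat_lit 2432) (nat_lit 0) xc54 xc55))) (XT.nd (nat_lit 74880) (nat_lit 0) (nat_lit 0) (XT.nd (nat_lit 37362) (nat_lit 0) (nat_lit 0) (XT.nd (nat_lit 34008) (nat_lit 0) (nat_lit 0) xc56 xc57) (XT.nd (nat_lit 34164) (nat_lit 0) (nat_lit 0) xc58 xc59)) (XT.nd (nat_lit 37518) (nat_lit 0) (nat_lit 0) (XT.nd (nat_lit 34164) (nat_lit 0) (nat_lit 76) xc60 xc61) (XT.nd (nat_lit 34320) (nat_lit 0) (nat_lit 0) xc62 xc63)))))) (XT.nd (nat_lit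 711906) (nat_lit 0) (nat_lit 608) (XT.nd (nat_lit 335868) (nat_lit 0) (nat_lit 228) (XT.nd (nat_lit 182754) (nat_lit 0) (nat_lit 76) (XT.nd (nat_lit 106626) (nat_lit 0) (nat_lit 76) (XT.nd (nat_lit 68796) (nat_lit 0) (nat_lit 0) (XT.nd (nat_lit 34320) (nat_lit 0) (nat_lit 0) xc64 xc65) (XT.nd (nat_lit 3276) (nat_lit 2432) (nat_lit 0) xc66 xc67)) (XT.nd (nat_lit 37986) (nat_lit 0) (nat_lit 0) (XT.nd (nat_lit 3276) (nat_lit 1900) (nat_lit 0) xc68 xc69) (XT.nd (nat_lit 3354) (nat_lit 1368) (nat_lit 0) xc70 xc71))) (XT.nd (nat_lit 76362) (nat_lit 0) (nat_lit 152) (XT.nd (nat_lit 38142) (nat_lit 0) (nat_lit 76) (XT.nd (nat_lit 3276) (nat_lit 836) (nat_lit 0) xc72 xc73) (XT.nd (nat_lit 3276) (nat_lit 456) (nat_lit 0) xc74 xc75)) (XT.nd (nat_lit 38298) (nat_lit 0) (nat_lit 0) (XT.nd (nat_lit 3276) (nat_lit 0) (nat_lit 0) xc76 xc77) (XT.nd (nat_lit 35100) (nat_lit 0) (nat_lit 1216) xc78 xc79))))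 (XT.nd (nat_lit 186810) (nat_lit 0) (nat_lit 228) (XT.nd (nat_lit 109122) (nat_lit 0) (nat_lit 76) (XT.nd (nat_lit 38454) (nat_lit 0) (nat_lit 0) (XT.nd (nat_lit 35100) (nat_lit 0) (nat_lit 532) xc80 xc81) (XT.nd (nat_lit 35256) (nat_lit 0) (nat_lit 76) xc82 xc83)) (XT.nd (nat_lit 38766) (nat_lit 0) (nat_lit 0) (XT.nd (nat_lit 3276) (nat_lit 1672) (nat_lit 0) xc84 xc85) (XT.nd (nat_lit 3354) (nat_lit 456) (nat_lit 0) xc86 xc87))) (XT.nd (nat_lit 110604) (nat_lit 0) (nat_lit 152) (XT.nd (nat_lit 38922) (nat_lit 0) (nat_lit 76) (XT.nd (nat_lit 35568) (nat_lit 0) (nat_lit 836) xc88 xc89) (XT.nd (nat_lit 35802) (nat_lit 0) (nat_lit 0) xc90 xc91)) (XT.nd (nat_lit 39234) (nat_lit 0) (nat_lit 0) (XT.nd (nat_lit 3276) (nat_lit 988) (nat_lit 0) xc92 xc93) (XT.nd (nat_lit 36036) (nat_lit 0) (nat_lit 836) xc94 xc95))))) (XT.nd (nat_lit 487110) (nat_lit 0) (nat_lit 1368) (XT.nd (nat_lit 224796) (nat_lit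 0) (nat_lit 456) (XT.nd (nat_lit 111930) (nat_lit 0) (nat_lit 304) (XT.nd (nat_lit 72306) (nat_lit 0) (nat_lit 228) (XT.nd (nat_lit 36036) (nat_lit 0) (nat_lit 152) xc96 xc97) (XT.nd (nat_lit 3276) (nat_lit 228) (nat_lit 0) xc98 xc99)) (XT.nd (nat_lit 72852) (nat_lit 0) (nat_lit 152) (XT.nd (nat_lit 36348) (nat_lit 0) (nat_lit 0) xc100 xc101) (XT.nd (nat_lit 3354) (nat_lit 228) (nat_lit 0) xc102 xc103))) (XT.nd (nat_lit 147342) (nat_lit 0) (nat_lit 532) (XT.nd (nat_lit 73476) (nat_lit 0) (nat_lit 228) (XT.nd (nat_lit 36660) (nat_lit 0) (nat_lit 228) xc104 xc105) (XT.nd (nat_lit 36816) (nat_lit 0) (nat_lit 152) xc106 xc107)) (XT.nd (nat_lit 40404) (nat_lit 0) (nat_lit 0) (XT.nd (nat_lit 3276) (nat_lit 380) (nat_lit 0) xc108 xc109) (XT.nd (nat_lit 37206) (nat_lit 0) (nat_lit 228) xc110 xc111)))) (XT.nd (nat_lit 337116) (nat_lit 0) (nat_lit 1748) (XT.nd (nat_lit 150228) (nat_lit 0) (nat_lit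 684) (XT.nd (nat_lit 74880) (nat_lit 0) (nat_lit 304) (XT.nd (nat_lit 37362) (nat_lit 0) (nat_lit 0) xc112 xc113) (XT.nd (nat_lit 37596) (nat_lit 0) (nat_lit 152) xc114 xc115)) (XT.nd (nat_lit 75738) (nat_lit 0) (nat_lit 228) (XT.nd (nat_lit 37752) (nat_lit 0) (nat_lit 228) xc116 xc117) (XT.nd (nat_lit 72852) (nat_lit 0) (nat_lit 532) xc118 xc119))) (XT.nd (nat_lit 225342) (nat_lit 0) (nat_lit 2052) (XT.nd (nat_lit 112086) (nat_lit 0) (nat_lit 912) (XT.nd (nat_lit 38298) (nat_lit 0) (nat_lit 304) xc120 xc121) (XT.nd (nat_lit 38766) (nat_lit 0) (nat_lit 380) xc122 xc123)) (XT.nd (nat_lit 150306) (nat_lit 0) (nat_lit 2204) (XT.nd (nat_lit 74880) (nat_lit 0) (nat_lit 836) xc124 xc125) (XT.nd (nat_lit 112476) (nat_lit 0) (nat_lit 1748) xc126 xc127))))))) XT.nil))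

set_option maxRecDepth 10000000 in
noncomputable def Te : XT := XT.nil

set_option maxRecDepth 10000000 in
noncomputable def Tz : ZL := (ZL.cons (nat_lit 76) (nat_lit 3) (nat_lit 84405205218426613186) (ZL.cons (nat_lit 152) (nat_lit 6) (nat_lit 165362599575996315494) (ZL.cons (nat_lit 228) (nat_lit 6) (nat_lit 162116761909954226092) (ZL.cons (nat_lit 304) (nat_lit 3) (nat_lit 80967072726231340602) (ZL.cons (nat_lit 380) (nat_lit 6) (nat_lit 158708632360610032220) (ZL.cons (nat_lit 456) (nat_lit 6) (nat_lit 155678380507362528902) (ZL.cons (nat_lit 532) (nat_lit 3) (nat_lit 77752230035828147838) (ZL.cons (nat_lit 608) (nat_lit 6) (nat_lit 152496616061452650416) (ZL.cons (nat_lit 684) (nat_lit 6) (nat_lit 149677938796641468720) (ZL.cons (nat_lit 760) (nat_lit 3) (nat_lit 74756150143222528061) (ZL.cons (nat_lit 836) (nat_lit 6) (nat_lit 147041717140877962052) (ZL.cons (nat_lit 912) (nat_lit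 6) (nat_lit 146718327668589727936) (ZL.cons (nat_lit 988) (nat_lit 6) (nat_lit 144108045892129867456) (ZL.cons (nat_lit 1064) (nat_lit 3) (nat_lit 71975147465019022969) (ZL.cons (nat_lit 1140) (nat_lit 6) (nat_lit 141675240000454855970) (ZL.cons (nat_lit 1216) (nat_lit 6) (nat_lit 141367250026847013954) (ZL.cons (nat_lit 1292) (nat_lit 6) (nat_lit 138963042852104272392) (ZL.cons (nat_lit 1368) (nat_lit 3) (nat_lit 69406401920294125947) (ZL.cons (nat_lit 1444) (nat_lit 6) (nat_lit 136731949103012814718) (ZL.cons (nat_lit 1520) (nat_lit 6) (nat_lit 136438625318624393748) (ZL.cons (nat_lit 1596) (nat_lit 6) (nat_lit 134668656651598613652) (ZL.cons (nat_lit 1672) (nat_lit 6) (nat_lit 134239061654950763662) (ZL.cons (nat_lit 1748) (nat_lit 3) (nat_lit 67047988441039181595) (ZL.cons (nat_lit 1824) (nat_lit 6) (nat_lit 132208875793225281564) (ZL.cons (nat_lit 1900) (nat_lit 6) (nat_lit 131929519808093452072)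 (ZL.cons (nat_lit 1976) (nat_lit 6) (nat_lit 130343233957586696308) (ZL.cons (nat_lit 2052) (nat_lit 6) (nat_lit 129934095865541124890) (ZL.cons (nat_lit 2128) (nat_lit 3) (nat_lit 64898912326640847935) (ZL.cons (nat_lit 2204) (nat_lit 6) (nat_lit 128637694143664439834) (ZL.cons (nat_lit 2280) (nat_lit 6) (nat_lit 128104954045034352296) (ZL.cons (nat_lit 2356) (nat_lit 6) (nat_lit 127838900725861181350) (ZL.cons (nat_lit 2508) (nat_lit 6) (nat_lit 126437739247000499118) (ZL.cons (nat_lit 2584) (nat_lit 6) (nat_lit 126048083921242812052) (ZL.cons (nat_lit 2660) (nat_lit 3) (nat_lit 62959150907164535063) (ZL.cons (nat_lit 2736) (nat_lit 6) (nat_lit 124928481912396627606) (ZL.cons (nat_lit 2812) (nat_lit 6) (nat_lit 124421110389891782334) (ZL.cons (nat_lit 2888) (nat_lit 6) (nat_lit 124167726276393524288) (ZL.cons (nat_lit 2964) (nat_lit 6) (nat_lit 123573588571378442832) (ZL.cons (nat_lit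 3040) (nat_lit 6) (nat_lit 122954106385304875456) (ZL.cons (nat_lit 3116) (nat_lit 6) (nat_lit 122583006075059459204) (ZL.cons (nat_lit 3192) (nat_lit 3) (nat_lit 61229702034237471542) (ZL.cons (nat_lit 3268) (nat_lit 6) (nat_lit 122369833287419711020) (ZL.cons (nat_lit 3344) (nat_lit 6) (nat_lit 121643579040804503544) (ZL.cons (nat_lit 3420) (nat_lit 6) (nat_lit 121160368066990365188) (ZL.cons (nat_lit 3496) (nat_lit 6) (nat_lit 120919049863658690862) (ZL.cons (nat_lit 3572) (nat_lit 6) (nat_lit 120486408053189475242) (ZL.cons (nat_lit 3648) (nat_lit 6) (nat_lit 119896425018833696786) (ZL.cons (nat_lit 3724) (nat_lit 6) (nat_lit 119542996151933300356) (ZL.cons (nat_lit 3800) (nat_lit 3) (nat_lit 59712639977593071075) (ZL.cons (nat_lit 3876) (nat_lit 6) (nat_lit 119479838253441659524) (ZL.cons (nat_lit 3952) (nat_lit 6) (nat_lit 118788167542379557166) (ZL.cons (nat_lit 4028) (nat_lit 6)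 (nat_lit 118327966614937520636) (ZL.cons (nat_lit 4104) (nat_lit 6) (nat_lit 118098139754621640326) (ZL.cons (nat_lit 4180) (nat_lit 6) (nat_lit 118621473046799752072) (ZL.cons (nat_lit 4256) (nat_lit 6) (nat_lit 117832956929350674568) (ZL.cons (nat_lit 4332) (nat_lit 6) (nat_lit 117271068325202314136) (ZL.cons (nat_lit 4408) (nat_lit 6) (nat_lit 116934469404344793726) (ZL.cons (nat_lit 4484) (nat_lit 3) (nat_lit 58411179370388035811) (ZL.cons (nat_lit 4560) (nat_lit 6) (nat_lit 116493286487343670884) (ZL.cons (nat_lit 4636) (nat_lit 6) (nat_lit 116634380242911250604) (ZL.cons (nat_lit 4712) (nat_lit 6) (nat_lit 116916903691559666186) (ZL.cons (nat_lit 4788) (nat_lit 6) (nat_lit 117341529508166651950) (ZL.cons (nat_lit 4864) (nat_lit 6) (nat_lit 117909268706581272150) (ZL.cons (nat_lit 4940) (nat_lit 6) (nat_lit 117028518868763646886) (ZL.cons (nat_lit 5016) (nat_lit 6) (nat_lit 116369784858228311308)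 (ZL.cons (nat_lit 5092) (nat_lit 6) (nat_lit 115931498260664466996) (ZL.cons (nat_lit 5168) (nat_lit 6) (nat_lit 115712615536554104792) (ZL.cons (nat_lit 5244) (nat_lit 3) (nat_lit 57606606454472465742) (ZL.cons (nat_lit 5320) (nat_lit 6) (nat_lit 115285480442284423536) (ZL.cons (nat_lit 5396) (nat_lit 6) (nat_lit 115502455107858469910) (ZL.cons (nat_lit 5472) (nat_lit 6) (nat_lit 115864653512013675478) (ZL.cons (nat_lit 5548) (nat_lit 6) (nat_lit 116372938031902790728) (ZL.cons (nat_lit 5624) (nat_lit 6) (nat_lit 115621970300998907390) (ZL.cons (nat_lit 5700) (nat_lit 6) (nat_lit 115086838297048087932) (ZL.cons (nat_lit 5776) (nat_lit 6) (nat_lit 114766267896231401826) (ZL.cons (nat_lit 5852) (nat_lit 3) (nat_lit 57329747917844880863) (ZL.cons (nat_lit 5928) (nat_lit 6) (nat_lit 114135188970799426062) (ZL.cons (nat_lit 6004) (nat_lit 6) (nat_lit 114283337414145384768) (ZL.cons (nat_lit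 6080) (nat_lit 6) (nat_lit 114579987035226221128) (ZL.cons (nat_lit 6156) (nat_lit 6) (nat_lit 115025844142663556182) (ZL.cons (nat_lit 6232) (nat_lit 6) (nat_lit 114398478418344188964) (ZL.cons (nat_lit 6308) (nat_lit 6) (nat_lit 113981062611140527712) (ZL.cons (nat_lit 6384) (nat_lit 6) (nat_lit 113772602873892563710) (ZL.cons (nat_lit 6460) (nat_lit 3) (nat_lit 56590383519619218380) (ZL.cons (nat_lit 6536) (nat_lit 6) (nat_lit 113256647949244903414) (ZL.cons (nat_lit 6612) (nat_lit 6) (nat_lit 113484471348097652106) (ZL.cons (nat_lit 6688) (nat_lit 6) (nat_lit 113864779672460617952) (ZL.cons (nat_lit 6764) (nat_lit 6) (nat_lit 113355130144888408940) (ZL.cons (nat_lit 6840) (nat_lit 6) (nat_lit 113049825001253469792) (ZL.cons (nat_lit 6916) (nat_lit 3) (nat_lit 56474068662273572945) (ZL.cons (nat_lit 6992) (nat_lit 6) (nat_lit 112419942214431072318) (ZL.cons (nat_lit 7068) (nat_lit 6)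 (nat_lit 112575498079944328958) (ZL.cons (nat_lit 7144) (nat_lit 6) (nat_lit 112886980182079207136) (ZL.cons (nat_lit 7220) (nat_lit 6) (nat_lit 112489441318075720228) (ZL.cons (nat_lit 7296) (nat_lit 6) (nat_lit 112290908234982421180) (ZL.cons (nat_lit 7372) (nat_lit 3) (nat_lit 55885614026596214990) (ZL.cons (nat_lit 7448) (nat_lit 6) (nat_lit 111850903008699219966) (ZL.cons (nat_lit 7524) (nat_lit 6) (nat_lit 112090117577494606092) (ZL.cons (nat_lit 7600) (nat_lit 6) (nat_lit 111799350774032759284) (ZL.cons (nat_lit 7676) (nat_lit 3) (nat_lit 55851252683822892069) (ZL.cons (nat_lit 7752) (nat_lit 6) (nat_lit 111308960908002217728) (ZL.cons (nat_lit 7828) (nat_lit 6) (nat_lit 111472294566791137200) (ZL.cons (nat_lit 7904) (nat_lit 6) (nat_lit 111283215440035614294) (ZL.cons (nat_lit 7980) (nat_lit 3) (nat_lit 55474190719759164689) (ZL.cons (nat_lit 8056) (nat_lit 6) (nat_lit 111032040142800458864)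 (ZL.cons (nat_lit 8132) (nat_lit 3) (nat_lit 55469903211215955552) (ZL.cons (nat_lit 8208) (nat_lit 6) (nat_lit 110768306080703545660) (ZL.cons (nat_lit 8284) (nat_lit 1) (nat_lit 18446744073709551617) ZL.nil))))))))))))))))))))))))))))))))))))))))))))))))))))))))))))))))))))))))))))))))))))))))))))))))))))))))))))

noncomputable def vl : XL := ⟨(nat_lit 0), (nat_lit 76), (nat_lit 531207287), (nat_lit 152), (nat_lit 91217094), (nat_lit 152), (nat_lit 91217094), (nat_lit 1), (nat_lit 4), (nat_lit 2), (nat_lit 5), (nat_lit 2), (nat_lit 4), (nat_lit 0), (nat_lit 0), (nat_lit 0)⟩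

noncomputable def cp0 : Nat := (nat_lit 141629050120961626457792123208414110087123633351724497484832226200763440800085828560569352860598962874244128344187255464075105285670164375315637584195050106365981844638227445127205893543178685024099904734673716936083105415445387573519248779436483347705641215989567779696952815044320960076627672018241596224268296125866915785911867522848584219636589893475162401226373484871163770530571479150706323381735870087954646922858095780189294305185095206093537708773744060520252561226707721030382642315236438533529581967799706752465682777785550063047836330847534930008702499916455302480875455283793689281011332157039138389872336494612784418580069407012493145121344016155079607814075420651929820072190163259806245450881334891265141316655965571633151406686070810240748469790589579633580092666992873157488753311955609672292464365262103040077959516110855518726335729576349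826917248651642552791821804868043465613768870108491937402211711792937254952500504557041782415276120617931305251663962024139500824527716729204109060666790591012119147816185270193620271030027493386555168741939305141580557862643305484809426420761635990392019756668706824006222013599858605598042730271173825046138757477741712517409447211184873788399687912423519460332104875744952923873486528136600331158809860532849521143351182657858582665620243102418199684341525972528417447473281092983055033206690315030972037361916970553847091735298747469790365722187105251803109672641476615279254693863925727526511193096028849444994345370512977827993276925452970781166796774363811395721831968090693461955350578961843577348969528040283118818714911105237845203039551788445003337162163979465459595113017175710276796349083406547825358232837299894731414562747439193587031158152596916535081431862417862823632448963545319605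16126073454833395040204557058305809258082226898223110832193629356450126069022818929925474910486272173014473450641092548590389871399973123978358569793367777887873633104771647682527800379910492386545991181733702097036783642358651106472003665369741985833524207744890242554957201793449427705862111740910809266178918212789211142484136295225662986135307859383225127657959416895808557721510006352781289532081955013709756056652648798696993716810697502778097821335380692797124307421903005843786133204435071749798650256933876842630122038200779814385070734583537429991323456022814194298891211780886820190630806815102981354712646324326566459407825651111127075940034793396755150361366599016838019774300445980056621232204155311676289953979659134755546365318223754166272)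

noncomputable def cp1 : Nat := (nat_lit 395105881732544496900186271071466297693795013504374895832073565050687712393599928653808734299201311674385463059323594892304290503828294376823754276438294073183097941106550830774948473449097907772745503934426724116317085091799203991288392185872954994263510641452721633574273102997553031035040426530975100034677698951887121076390773478791962156579822654614775775067489788578654003248733416260666661211297988272344847295549534082664115055827071357554667951634540220270883620254917843628050586354629017995829436719197163214001627130334308345263855160546510932350249686829238630102461603711956037306644137289061952012511123883094295185722769490140259090562389449159077832193717339115085179975469089959563958904489053704594660701099208324608864720402030228671141274185608774980721507356660013216522803010887656937487940281644074607333616217478077334040203493382894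833202477471850161410724821911606978733374225534055014556394832824708863555346423426641064839946935146700225385881362709852857632690317538446853652778206885454223050811674369963400887617669691309362372508499107243888904134326876711247045472466597235479053221164932006673053074116054015981132509326886363462838056192115457026831963078554120445569856478257044206284948474569390951327492023065539207009971866086558146386629641553251872206603017008840475986249102074171600956737523921568816989986113002436952431325451932797101993674914322977663789766078884272671448999350501522045703604081237422819746081305609396929643895670905526941856501355632257841956830142790658221526851365138204222277110103443218458400056905443078046437883325846822766410266930668796420589905020522058215680825179251003659334555020715879271276047204567072169787342107538764613488970230426054745858116240407736678075773593163281945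923183072571636975887380158582112401158015554932926829815395516438474610087602411163365809776605429453947233349619268830074421749350809890575962374543817633569987697834163091491453310975014408670195598719361747943424054548800627122002399961262657245914006366976147719589547484663846424313860772550191064220706328777391125111182597594702016502041982581024799033718679344937401772580230500519073467612326807768945417741816039796195640379445381875927094253378024860508455282532939178714814789242364464374254017839161051264140579755091122346592961257692763309544571420264154964712998072237024492638849883916130360944406017243067443813418141541793666289157914919315887422406094994953151354112145454540853436352693322946041503360073129077937068021066046682752714807219000900477378137305973221919347677366266818803230161627265445912076446358085597363779775846578528729979540332605388699276490871212501352877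829035336061171803650761305160523612303093247551690730925149236284911936340465567935101798953767635037138685591119296077547803425995142835178003797268084818577590200980126624454902434157576768348015426985057331533696146301418747927067634272560159943116391204384512197311498981793976163590190682865102414298492123461862962028106077818822217793737238920669484304312014619531340263992164157620032417807109625453669027432496010331602319336576876251199396132443010686368286854326397946840283449559678769450616019065841216092207165672524246686906154797306858214384389759470687654357996309938807202272836011913846047155610326872740434004646277206090092733952064715079089664967808915000373707503362898632158959432615236130164897651416972397745257883024557549923669313743757675328858620730742279985770681173902289276077075203942525456455952985258472340035333187745659447288076140717786736897598082452229510454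387441385589400838659192785199340440204919378144945621925049980064602253883053515861408393716179207801135766723390160310338706353391794271354773781870141389530720259825566432691517552340816268804990947322814149463827228142741614420391931896080748747924836321807487783972994715943511550610443552902937084537018747321524994357610275445298284463812517855494678997724873441068674208764141380456280065111759797021254247307415309723175371659948333604180949795674717218269448075413377297376592111828962187835182977708732355744702876591066418803335263768309386684835494961768588448655920340224320206768179470123414025881223508396311918053950333722180603540390929666619122072401748885883495099194486519884146853336417411287260092082477772821492136680765975797324773007072232439905400269221868042728727613140413198595241186501896979602935096539122139085505679163142158988050583285230582098663984417802394026549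245590428044453048798246119769898466570466846177222062415433331575636428758480039129910890920553700556483785613603455700539965204992821473793660667114814907342272557887398352115290226890416972107994799173501702071809977295201290120331408591448048257179439762014224693896061160240988645482491266533821960879112146812453964227211496707377495363983107599146659122832533894608563418462994060255904538036547372080058294562317543988110631733378366651269973289608481819627403229713830288268258445242465863443352572045775421594949268139899236685083277458813037513164812704693393017669420118440966240070240101748902580927006555758187456165069616773499433029277309968382329671101068240171133874026549918160648077738331746768992950310959444551807614058976289882701403866380595895354360042597369234527406658976808517432698340078972667462559681526343711862327271095769632816053941467062880165916649157092865692124484660777311042105191914698922078532493868373645479822983359667587347274097034119540054708466839966461786471784118608019119624577414435976193976237861512382826143762412024274021935579306207412609523624835995962321934163913351022990101821025069907266381881984817210361417292604489847002901863170077075002425319117518982717937261545290153587298351818583699835108450730560652150564664337895792637445700126017702727387021205045248)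

noncomputable def rc0 : Nat := (nat_lit 395105881732544496900186271071466297693795013504374895832073565050687712393599928653808734299201311674385463059323594892304290503828294376823754276438294073183097941106550830774948473449097907772745503934426724116317085091799203991288392185872954994263510641452721633574273102997553031035040426530975100034677698951887121076390773478791962156579822654614775775067489788578654003248733416260666661211297988272344847295549534082664115055827071357554667951634540220270883620254917843628050586354629017995829436719197163214001627130334308345263855160546510932350249686829238630102461603711956037306644137289061952012511123883094295185722769490140259090562389449159077832193717339115085179975469089959563958904489053704594660701099208324608864720402030228671141274185608774980721507356660013216522803010887656937487940281644074607333616217478077334040203493382894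833202477471850161410724821911606978733374225534055014556394832824708863555346423426641064839946935146700225385881362709852857632690317538446853652778206885454223050811674369963400887617669691309362372508499107243888904134326876711247045472466597235479053221164932006673053074116054015981132509326886363462838056192115457026831963078554120445569856478257044206284948474569390951327492023065539207009971866086558146386629641553251872206603017008840475986249102074171600956737523921568816989986113002436952431325451932797101993674914322977663789766078884272671448999350501522045703604081237422819746081305609396929643895670905526941856501355632257841956830142790658221526851365138204222277110103443218458400056905443078046437883325846822766410266930668796420589905020522058215680825179251003659334555020715879271276047204567072169787342107538764613488970230426054745858116240407736678075773593163281945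923183072571636975887380158582112401158015554932926829815395516438474610087602411163365809776605429453947233349619268830074421749350809890575962374543817633569987697834163091491453310975014408670195598719361747943424054548800627122002399961262657245914006366976147719589547484663846424313860772550191064220706328777391125111182597594702016502041982581024799033718679344937401772580230500519073467612326807768945417741816039796195640379445381875927094253378024860508455282532939178714814789242364464374254017839161051264140579755091122346592961257692763309544571420264154964712998072237024492638849883916130360944406017243067443813418141541793666289157914919315887422406094994953151354112145454540853436352693322946041503360073129077937068021066046682752714807219000900477378137305973221919347677366266818803230161627265445912076446358085597363779775846578528729979540332605388699276490871212501352877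829035336061171803650761305160523612303093247551690730925149236284911936340465567935101798953767635037138685591119296077547803425995142835178003797268084818577590200980126624454902434157576768348015426985057331533696146301418747927067634272560159943116391204384512197311498981793976163590190682865102414298492123461862962028106077818822217793737238920669484304312014619531340263992164157620032417807109625453669027432496010331602319336576876251199396132443010686368286854326397946840283449559678769450616019065841216092207165672524246686906154797306858214384389759470687654357996309938807202272836011913846047155610326872740434004646277206090092733952064715079089664967808915000373707503362898632158959432615236130164897651416972397745257883024557549923669313743757675328858620730742279985770681173902289276077075203942525456455952985258472340035333187745659447288076140717786736897598082452229510454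387441385589400838659192785199340440204919378144945621925049980064602253883053515861408393716179207801135766723390160310338706353391794271354773781870141389530720259825566432691517552340816268804990947322814149463827228142741614420391931896080748747924836321807487783972994715943511550610443552902937084537018747321524994357610275445298284463812517855494678997724873441068674208764141380456280065111759797021254247307415309723175371659948333604180949795674717218269448075413377297376592111828962187835182977708732355744702876591066418803335263768309386684835494961768588448655920340224320206768179470123414025881223508396311918053950333722180603540390929666619122072401748885883495099194486519884146853336417411287260092082477772821492136680765975797324773007072232439905400269221868042728727613140413198595241186501896979602935096539122139085505679163142158988050583285230582098663984417802394026549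245590428044453048798246119769898466570466846177222062415433331575636428758480039129910890920553700556483785613603455700539965204992821473793660667114814907342272557887398352115290226890416972107994799173501702071809977295201290120331408591448048257179439762014224693896061160240988645482491266533821960879112146812453964227211496707377495363983107599146659122832533894608563418462994060255904538036547372080058294562317543988110631733378366651269973289608481819627403229713830288268258445242465863443352572045775421594949268139899236685083277458813037513164812704693393017669420118440966240070240101748902580927006555758187456165069616773499433029277309968382329671101068240171133874026549918160648077738331746768992950310959444551807614058976289882701403866380595895354360042597369234527406658976808517432698340078972667462559681526343711862327271095769632816053941467062880165916649157092865692124484660777311042105191914698922078532493868373645479822983359667587347274097034119540054708466839966461786471784118608019119624577414435976193976237861512382826143762412024274021935579306207412609523624835995962321934163913351022990101821025069907266381881984817210361417292604489847002901863170077075002425319117518982717937261545290153587298351818583699835108450730560652150564664337895792637445700126017702727387021205045248)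

end Vale.Agent.Lib.P154.PChain.BV.S5
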